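import Crest.Agent.R017.LnX_47

/-!
# Row 17, exceptional class (helper47): the real lines of the high families in absolute logarithms

* `GX_hom`, `hX_hom`, `Ch_scale`, `DhS` : units
* `GX_lip`, `hX_lip`
* **`tl_abs`** : the size condition, `LnT`, the line of `E0` and the diagonal
-/

set_option autoImplicit false
set_option linter.unusedVariables false

noncomputable section

namespace Crest.Agent.R017.LnY47

open Crest.Agent.R017.RnP571 (Dh)
open Crest.Agent.R017.P1L904 (RSm RS0 RS1 hL)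
open Crest.Agent.R017.P1L7904 (GX hB hX Ch thX_le)
open Crest.Agent.R017.I1K764 (bcx)
open Crest.Agent.R017.P10X764 (shB)
open Crest.Agent.R017.E3N146 (ShT)
open Crest.Agent.R017.ET490 (LnT)
open Crest.Agent.R017.LnX47 (lnt_GX hX_neg)

section
variable {L : ℝ}

lemma RS0_hom (h0 : 0 ≤ L) (q p um x : ℝ) :
    RS0 (q * L) (p * L) (um * L) (x * L) = RS0 q p um x * L := by
  unfold P1L904.RS0
  have e : max (um * L / 2) (4 / 15 * (um * L + x * L)) = max (um / 2) (4 / 15 * (um + x)) * L := by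
    rw [max_mul_of_nonneg _ _ h0]
    congr 1 <;> ring
  rw [e]
  generalize max (um / 2) (4 / 15 * (um + x)) = M
  rw [max_mul_of_nonneg _ _ h0]
  congr 1 <;> ring

lemma RS1_hom (h0 : 0 ≤ L) (k q p um x : ℝ) :
    RS1 (k * L) (q * L) (p * L) (um * L) (x * L) = RS1 k q p um x * L := by
  unfold P1L904.RS1
  have e : max (k * L) (p * L + um * L) = max k (p + um) * L := by
    rw [max_mul_of_nonneg _ _ h0]
    congr 1
    ring
  rw [e]
  generalize max k (p + um) = M
  have e2 : max (q * L) (max ((2 * (q * L) + M * L) / 3)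
      (max ((q * L + 2 * (p * L) + M * L / 3) / 3)
        ((q * L + 3 * (p * L) - 5 / 12 * (p * L + um * L - x * L)) / 3))) =
      max q (max ((2 * q + M) / 3) (max ((q + 2 * p + M / 3) / 3)
        ((q + 3 * p - 5 / 12 * (p + um - x)) / 3))) * L := by
    rw [max_mul_of_nonneg _ _ h0, max_mul_of_nonneg _ _ h0, max_mul_of_nonneg _ _ h0]
    congr 1
    congr 1
    · ring
    · congr 1 <;> ring
  rw [e2]
  ring

lemma RSm_hom (h0 : 0 ≤ L) (k q p um x : ℝ) :
    RSm (k * L) (q * L) (p * L) (um * L) (x * L) = RSm k q p um x * L := by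
  unfold P1L904.RSm
  rw [RS0_hom h0, RS1_hom h0, min_mul_of_nonneg _ _ h0]

lemma GX_hom (h0 : 0 ≤ L) (N k q p uN uR x D : ℝ) :
    GX (N * L) (k * L) (q * L) (p * L) (uN * L) (uR * L) (x * L) (D * L) =
      GX N k q p uN uR x D * L := by
  unfold P1L7904.GX
  have e : max 0 (5 / 4 * (N * L) - k * L) = max 0 (5 / 4 * N - k) * L := by
    rw [max_mul_of_nonneg _ _ h0, zero_mul]
    congr 1
    ring
  rw [RSm_hom h0, RS0_hom h0, e, ← max_mul_of_nonneg _ _ h0]
  ring

lemma hL_hom' (h0 : 0 ≤ L) (q v p δ x K5 G : ℝ) :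
    hL (q * L) (v * L) (p * L) (δ * L) (x * L) (K5 * L) (G * L) = hL q v p δ x K5 G * L := by
  unfold P1L904.hL
  have e1 : max (K5 * L) (4 / 3 * (p * L) + 2 / 3 * (x * L) - 4 / 3 * (δ * L)) =
      max K5 (4 / 3 * p + 2 / 3 * x - 4 / 3 * δ) * L := by
    rw [max_mul_of_nonneg _ _ h0]
    congr 1
    ring
  rw [max_mul_of_nonneg _ _ h0, min_mul_of_nonneg _ _ h0, e1]
  congr 1
  · ring
  · congr 1 <;> ring

lemma hX_hom (h0 : 0 ≤ L) (N k q v p δ x D uN uR s₀ F : ℝ) :
    hX (N * L) (k * L) (q * L) (v * L) (p * L) (δ * L) (x * L) (D * L) (uN * L) (uR * L)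
      (s₀ * L) (F * L) = hX N k q v p δ x D uN uR s₀ F * L := by
  unfold P1L7904.hX
  rw [GX_hom h0]
  have e1 : max (k * L) (5 / 4 * (N * L)) = max k (5 / 4 * N) * L := by
    rw [max_mul_of_nonneg _ _ h0]
    congr 1
    ring
  have e2 : hB (q * L) (v * L) (p * L) (δ * L) (s₀ * L) (GX N k q p uN uR x D * L) =
      hB q v p δ s₀ (GX N k q p uN uR x D) * L := by
    unfold P1L7904.hB
    have : max 0 (s₀ * L - δ * L) = max 0 (s₀ - δ) * L := by
      rw [max_mul_of_nonneg _ _ h0, zero_mul, sub_mul]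
    rw [this]
    ring
  rw [e1, e2, ← sub_mul, hL_hom' h0, max_mul_of_nonneg _ _ h0]

end

/-- the frame in other units -/
lemma DhS {k y₃ y₄ u x D L : ℝ} (hL : 0 < L) (h : Dh k y₃ y₄ u x D) :
    Dh (k * L) (y₃ * L) (y₄ * L) (u * L) (x * L) (D * L) := by
  obtain ⟨k0, u4, y43, u0, y3, N1, near, x0, adm, d0, d1⟩ := h
  have m : ∀ {a b : ℝ}, a ≤ b → a * L ≤ b * L := fun h => mul_le_mul_of_nonneg_right h hL.le
  have m1 := m u0
  have m2 := m y3
  have m3 := m N1
  have m4 := m near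
  have m5 := m d1
  refine ⟨by positivity, m u4, m y43, by linarith, by linarith, by linarith, by linarith,
    by positivity, ?_, by positivity, by linarith⟩
  rcases adm with ⟨a0, h | a1⟩ | ⟨a1, a2, a3⟩
  · refine Or.inl ⟨by linarith [m a0], Or.inl (by rw [h, zero_mul])⟩
  · refine Or.inl ⟨by linarith [m a0], Or.inr (by linarith [m a1])⟩
  · exact Or.inr ⟨by linarith [m a1], by linarith [m a2], by linarith [m a3]⟩

/-- the child in other units -/
lemma Ch_scale {k y₃ y₄ u x D t q p uN uR v ℓ s₀ L : ℝ} (hL : 0 < L)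
    (h : Ch k y₃ y₄ u x D t q p uN uR v ℓ s₀) :
    Ch (k * L) (y₃ * L) (y₄ * L) (u * L) (x * L) (D * L) (t * L) (q * L) (p * L) (uN * L)
      (uR * L) (v * L) (ℓ * L) (s₀ * L) := by
  obtain ⟨t0, t1, q0, q1, p0, p1, p1', p2, um0, um1, um2, r1, r2, r3, v1, v2,
    ⟨y, yy0, yx, py, v3, v4⟩, l0, s0⟩ := h
  have m : ∀ {a b : ℝ}, a ≤ b → a * L ≤ b * L := fun h => mul_le_mul_of_nonneg_right h hL.le
  refine ⟨by positivity, by linarith [m t1], by linarith [m q0], by linarith [m q1],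
    by linarith [m p0], by linarith [m p1], by linarith [m p1'], by linarith [m p2],
    by positivity, by linarith [m um1], by linarith [m um2], by linarith [m r1],
    by linarith [m r2], by linarith [m r3], by linarith [m v1], by linarith [m v2],
    ⟨y * L, by positivity, m yx, by linarith [m py], by linarith [m v3], by linarith [m v4]⟩,
    by linarith [m l0], by linarith [m s0]⟩

lemma RS0_lip {q q' p p' um x a : ℝ} (hq : |q - q'| ≤ a) (hp : |p - p'| ≤ a) :
    RS0 q p um x ≤ RS0 q' p' um x + 2 * a := by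
  have a0 : 0 ≤ a := (abs_nonneg _).trans hq
  obtain ⟨q1, q2⟩ := abs_le.1 hq
  obtain ⟨p1, p2⟩ := abs_le.1 hp
  unfold P1L904.RS0
  have k1 := le_max_left (q' + p') (2 / 3 * q' + 4 / 3 * p' + max (um / 2) (4 / 15 * (um + x)))
  have k2 := le_max_right (q' + p') (2 / 3 * q' + 4 / 3 * p' + max (um / 2) (4 / 15 * (um + x)))
  exact max_le (by linarith) (by linarith)

lemma RS1_lip {k q q' p p' um x a : ℝ} (hq : |q - q'| ≤ a) (hp : |p - p'| ≤ a) :
    RS1 k q p um x ≤ RS1 k q' p' um x + 3 * a := by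
  have a0 : 0 ≤ a := (abs_nonneg _).trans hq
  obtain ⟨q1, q2⟩ := abs_le.1 hq
  obtain ⟨p1, p2⟩ := abs_le.1 hp
  unfold P1L904.RS1
  have hM : max k (p + um) ≤ max k (p' + um) + a :=
    max_le (by linarith [le_max_left k (p' + um)]) (by linarith [le_max_right k (p' + um)])
  generalize max k (p + um) = M at *
  generalize max k (p' + um) = M' at *
  have k1 := le_max_left q' (max ((2 * q' + M') / 3) (max ((q' + 2 * p' + M' / 3) / 3)
    ((q' + 3 * p' - 5 / 12 * (p' + um - x)) / 3)))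
  have k2 := le_max_right q' (max ((2 * q' + M') / 3) (max ((q' + 2 * p' + M' / 3) / 3)
    ((q' + 3 * p' - 5 / 12 * (p' + um - x)) / 3)))
  have k3 := (le_max_left ((2 * q' + M') / 3) (max ((q' + 2 * p' + M' / 3) / 3)
    ((q' + 3 * p' - 5 / 12 * (p' + um - x)) / 3))).trans k2
  have k4 := (le_max_right ((2 * q' + M') / 3) (max ((q' + 2 * p' + M' / 3) / 3)
    ((q' + 3 * p' - 5 / 12 * (p' + um - x)) / 3))).trans k2
  have k5 := (le_max_left ((q' + 2 * p' + M' / 3) / 3)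
    ((q' + 3 * p' - 5 / 12 * (p' + um - x)) / 3)).trans k4
  have k6 := (le_max_right ((q' + 2 * p' + M' / 3) / 3)
    ((q' + 3 * p' - 5 / 12 * (p' + um - x)) / 3)).trans k4
  have h : max q (max ((2 * q + M) / 3) (max ((q + 2 * p + M / 3) / 3)
      ((q + 3 * p - 5 / 12 * (p + um - x)) / 3))) ≤
      max q' (max ((2 * q' + M') / 3) (max ((q' + 2 * p' + M' / 3) / 3)
        ((q' + 3 * p' - 5 / 12 * (p' + um - x)) / 3))) + 2 * a :=
    max_le (by linarith) (max_le (by linarith) (max_le (by linarith) (by linarith)))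
  linarith

lemma RSm_lip {k q q' p p' um x a : ℝ} (hq : |q - q'| ≤ a) (hp : |p - p'| ≤ a) :
    RSm k q p um x ≤ RSm k q' p' um x + 3 * a := by
  have a0 : 0 ≤ a := (abs_nonneg _).trans hq
  unfold P1L904.RSm
  rw [← min_add_add_right]
  exact min_le_min ((RS0_lip hq hp).trans (by linarith)) (RS1_lip hq hp)

/-- the room in the family and the length -/
lemma GX_lip {N k q q' p p' uN uR x D a : ℝ} (hq : |q - q'| ≤ a) (hp : |p - p'| ≤ a) :
    GX N k q p uN uR x D ≤ GX N k q' p' uN uR x D + 6 * a := by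
  have a0 : 0 ≤ a := (abs_nonneg _).trans hq
  have hq' : |q' - q| ≤ a := by rw [abs_sub_comm]; exact hq
  have hp' : |p' - p| ≤ a := by rw [abs_sub_comm]; exact hp
  obtain ⟨q1, q2⟩ := abs_le.1 hq
  obtain ⟨p1, p2⟩ := abs_le.1 hp
  have h : max (RSm k q' p' uN x) (RS0 q' p' uR x) ≤
      max (RSm k q p uN x) (RS0 q p uR x) + 3 * a :=
    max_le ((RSm_lip hq' hp').trans (by linarith [le_max_left (RSm k q p uN x) (RS0 q p uR x)]))
      ((RS0_lip hq' hp').trans (by linarith [le_max_right (RSm k q p uN x) (RS0 q p uR x)]))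
  unfold P1L7904.GX
  linarith

/-- the exponent of `H` in `δ` -/
lemma hX_lip {N k q v p δ δ' x D uN uR s₀ F : ℝ} :
    hX N k q v p δ x D uN uR s₀ F ≤ hX N k q v p δ' x D uN uR s₀ F + 4 * |δ - δ'| := by
  unfold P1L7904.hX
  have h0 := abs_nonneg (δ - δ')
  have h1 := neg_abs_le (δ - δ')
  have h2 := le_abs_self (δ - δ')
  generalize GX N k q p uN uR x D = G
  have hA : hL q v p δ x (max k (5 / 4 * N)) (G - F) ≤
      hL q v p δ' x (max k (5 / 4 * N)) (G - F) + 4 * |δ - δ'| := by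
    unfold P1L904.hL
    generalize max k (5 / 4 * N) = K5
    generalize G - F = G₁
    have e1 := le_max_left (2 * q + 4 * p - δ' - 3 * G₁)
      (min (2 * q + 2 * v + 3 * p + 2 * x - 4 * δ' - 3 * G₁)
        (2 * q + 3 * p + max K5 (4 / 3 * p + 2 / 3 * x - 4 / 3 * δ') - 3 * G₁))
    have e2 := le_max_right (2 * q + 4 * p - δ' - 3 * G₁)
      (min (2 * q + 2 * v + 3 * p + 2 * x - 4 * δ' - 3 * G₁)
        (2 * q + 3 * p + max K5 (4 / 3 * p + 2 / 3 * x - 4 / 3 * δ') - 3 * G₁))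
    have e3 : max K5 (4 / 3 * p + 2 / 3 * x - 4 / 3 * δ) ≤
        max K5 (4 / 3 * p + 2 / 3 * x - 4 / 3 * δ') + 4 * |δ - δ'| := by
      have g1 := le_max_left K5 (4 / 3 * p + 2 / 3 * x - 4 / 3 * δ')
      have g2 := le_max_right K5 (4 / 3 * p + 2 / 3 * x - 4 / 3 * δ')
      exact max_le (by linarith) (by linarith)
    have e4 : min (2 * q + 2 * v + 3 * p + 2 * x - 4 * δ - 3 * G₁)
        (2 * q + 3 * p + max K5 (4 / 3 * p + 2 / 3 * x - 4 / 3 * δ) - 3 * G₁) ≤
        min (2 * q + 2 * v + 3 * p + 2 * x - 4 * δ' - 3 * G₁)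
          (2 * q + 3 * p + max K5 (4 / 3 * p + 2 / 3 * x - 4 / 3 * δ') - 3 * G₁) +
          4 * |δ - δ'| := by
      rw [← min_add_add_right]
      exact min_le_min (by linarith) (by linarith)
    exact max_le (by linarith) (by linarith)
  have hB' : hB q v p δ s₀ G ≤ hB q v p δ' s₀ G + 4 * |δ - δ'| := by
    unfold P1L7904.hB
    have g1 : max 0 (s₀ - δ') - (δ - δ') ≤ max 0 (s₀ - δ) ∨ max 0 (s₀ - δ') ≤ max 0 (s₀ - δ) := by
      rcases max_choice 0 (s₀ - δ') with h | h <;> rw [h]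
      · right; exact le_max_left _ _
      · left; have := le_max_right 0 (s₀ - δ); linarith
    rcases g1 with g1 | g1 <;> linarith
  have k1 := le_max_left (hL q v p δ' x (max k (5 / 4 * N)) (G - F)) (hB q v p δ' s₀ G)
  have k2 := le_max_right (hL q v p δ' x (max k (5 / 4 * N)) (G - F)) (hB q v p δ' s₀ G)
  exact max_le (by linarith) (by linarith)

/-- **all the real lines of the `T`-half of one child**, absolute logarithms -/
theorem tl_abs {L k y₃ y₄ u x D t uN uR ℓ F K V P S₀ um' : ℝ} (hL : 0 < L)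
    (hD : Dh k y₃ y₄ u x D)
    (hC : Ch k y₃ y₄ u x D t (K / L) (P / L) uN uR (V / L) ℓ (S₀ / L)) (F1 : F ≤ 5 / 9 * D)
    {g : ℝ} (g0 : 0 ≤ g) {lm k5 z cl E G : ℝ} (hlm : lm ≤ (F + t) * L)
    (hk5 : k5 ≤ (max k (5 / 4 * (y₃ + y₄ + u)) + t) * L) (z0 : 0 ≤ z) (z1 : z ≤ (x + t) * L)
    (hcl : cl ≤ t * L) (hE : E ≤ (k / 64 + t) * L)
    (hG : GX (y₃ + y₄ + u) k (K / L) (P / L) uN uR x D + 14 * t ≤ G) {h : ℝ}
    (hh : h = L * hX (y₃ + y₄ + u) k (K / L) (V / L) (P / L) (g / L) x D uN uR (S₀ / L) F) :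
    (cl + h + 2 * V ≤ K + P) ∧
    LnT (shB S₀ P fun γ b v => ShT k5 z um' P γ b v + lm) K V h P E g cl (G * L) ∧
    (∀ b l : ℝ, 0 ≤ b → 0 ≤ l → l ≤ V - 2 * g + cl →
      E + shB S₀ P (fun γ b v => ShT k5 z um' P γ b v + lm) g b l + 2 * g -
        max 0 (b - E) - P / 3 ≤ G * L) ∧
    ∀ b l : ℝ, 0 ≤ b → 0 ≤ l → l ≤ V - 2 * g + cl →
      2 / 3 * K - V / 3 + shB S₀ P (fun γ b v => ShT k5 z um' P γ b v + lm) g b l + 2 * g -
        max 0 (b - E) - P / 3 ≤ G * L - k * L / 60 := by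
  have eK : K / L * L = K := div_mul_cancel₀ _ hL.ne'
  have eP : P / L * L = P := div_mul_cancel₀ _ hL.ne'
  have eV : V / L * L = V := div_mul_cancel₀ _ hL.ne'
  have eS : S₀ / L * L = S₀ := div_mul_cancel₀ _ hL.ne'
  have eg : g / L * L = g := div_mul_cancel₀ _ hL.ne'
  have hg' : 0 ≤ g / L := div_nonneg g0 hL.le
  obtain ⟨th, -⟩ := thX_le (δ := g / L) (F := F) hD hC hg' F1
  have hneg := hX_neg (δ := g / L) (F := F) hD hC hg' F1
  have k0 := hD.k0
  have hC' := Ch_scale hL hC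
  rw [eK, eP, eV, eS] at hC'
  have hh' : hX ((y₃ * L) + (y₄ * L) + (u * L)) (k * L) K V P g (x * L) (D * L) (uN * L)
      (uR * L) S₀ (F * L) = h := by
    rw [hh, ← eK, ← eP, ← eV, ← eS, ← eg]
    rw [show y₃ * L + y₄ * L + u * L = (y₃ + y₄ + u) * L by ring, hX_hom hL.le]
    simp only [eK, eP, eV, eS, eg]
    ring
  have hG' : GX ((y₃ * L) + (y₄ * L) + (u * L)) (k * L) K P (uN * L) (uR * L) (x * L) (D * L) +
      14 * (t * L) ≤ G * L := by
    have e : GX ((y₃ * L) + (y₄ * L) + (u * L)) (k * L) K P (uN * L) (uR * L) (x * L) (D * L) =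
        GX (y₃ + y₄ + u) k (K / L) (P / L) uN uR x D * L := by
      rw [← GX_hom hL.le, eK, eP]
      congr 1
      ring
    rw [e]
    have := mul_le_mul_of_nonneg_right hG hL.le
    linarith
  have hF' : F * L ≤ 5 / 9 * (D * L) := by
    have := mul_le_mul_of_nonneg_right F1 hL.le
    linarith
  have hk5' : k5 ≤ max (k * L) (5 / 4 * (y₃ * L + y₄ * L + u * L)) + t * L := by
    refine hk5.trans (le_of_eq ?_)
    rw [add_mul, max_mul_of_nonneg _ _ hL.le]
    congr 2
    ring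
  obtain ⟨hLn, hDg⟩ := lnt_GX (um' := um') (E := E) (lm := lm) (z := z) (k5 := k5) (c₁ := cl)
    (G' := G * L) (h := h) (F := F * L) (DhS hL hD) hC' g0 hF' (by linarith) hk5' z0
    (by linarith) hcl hG' hh'
  refine ⟨?_, hLn, fun b l b0 l0 hl => ?_, fun b l b0 l0 hl => ?_⟩
  · -- the size condition
    have h1 : 2 * h + 3 * V ≤ 2 * K := by
      have e1 : (2 * hX (y₃ + y₄ + u) k (K / L) (V / L) (P / L) (g / L) x D uN uR (S₀ / L) F +
          3 * (V / L)) * L ≤ 2 * (K / L) * L := mul_le_mul_of_nonneg_right th hL.le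
      have e2 : (2 * hX (y₃ + y₄ + u) k (K / L) (V / L) (P / L) (g / L) x D uN uR (S₀ / L) F +
          3 * (V / L)) * L = 2 * h + 3 * (V / L * L) := by rw [hh]; ring
      have e3 : 2 * (K / L) * L = 2 * (K / L * L) := by ring
      rw [e2, e3, eV, eK] at e1
      exact e1
    have hD' := DhS hL hD
    obtain ⟨k0', u4, y43, u0, y3, N1, near, x0, adm, d0, d1⟩ := hD'
    have v1 := hC'.v1
    have v2 := hC'.v2
    have p0 := hC'.p0
    have t0 := hC'.t0
    have t1 := hC'.t1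
    linarith
  · have h1 := hDg b l b0 l0 hl
    have hD' := DhS hL hD
    obtain ⟨k0', u4, y43, u0, y3, N1, near, x0, adm, d0, d1⟩ := hD'
    have v1 := hC'.v1
    have v2 := hC'.v2
    have q0 := hC'.q0
    have t0 := hC'.t0
    have t1 := hC'.t1
    linarith
  · have h1 := hDg b l b0 l0 hl
    linarith

end Crest.Agent.R017.LnY47
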