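import Crest.Agent.R017.HfG_548
import Crest.Agent.R017.LnY_47
import Crest.Agent.R017.ChX_629
import Crest.Agent.R017.ETn_548

/-!
# Row 17, exceptional class (helper548): the `T`-half of the Gram sums, high families, differences

* **`tfr_X`** : `TFr` at `alX`
-/

set_option autoImplicit false
set_option linter.unusedSectionVars false
set_option linter.unusedVariables false

noncomputable section

open Finset
open scoped ComplexConjugate Classical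

namespace Crest.Agent.R017.ETo548

open Crest.Agent.R012 Crest.Agent.R012.Eis
open Crest.Agent.R017.FE47 (PU cx SM)
open Crest.Agent.R017.CM106
open Crest.Agent.R017.XG702 (Pcs Good_mono)
open Crest.Agent.R017.XT71 (Sys Win mx)
open Crest.Agent.R017.Prov71
open Crest.Agent.R017.B770
open Crest.Agent.R017.E5B71 Crest.Agent.R017.E5P571 Crest.Agent.R017.E5L770
open Crest.Agent.R017.ExBox960 Crest.Agent.R017.ExP960
open Crest.Agent.R017.Sf770
open Crest.Agent.R017.I1146 (LN)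
open Crest.Agent.R017.Sup271 (NPm)
open Crest.Agent.R017.PX764 (Dk)
open Crest.Agent.R017.TM708 (R5)
open Crest.Agent.R017.P1e54 Crest.Agent.R017.P1f54 Crest.Agent.R017.P1k54
open Crest.Agent.R017.P1l54 (ParOK)
open Crest.Agent.R017.P1X960
open Crest.Agent.R017.P10X764
open Crest.Agent.R017.E3Nx744 (CBA)
open Crest.Agent.R017.TNj90 (JBc)
open Crest.Agent.R017.E1551 (Adm)
open Crest.Agent.R017.E3Kc548 (LI mem_LI)
open Crest.Agent.R017.SP521 (LI_win)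
open Crest.Agent.R017.RnP571 (Dh)
open Crest.Agent.R017.P1L7904 (Ch GX hX)
open Crest.Agent.R017.ETd548 (BkX S8Xk GkG stG)
open Crest.Agent.R017.ETk548 (DomKc GkGUc)
open Crest.Agent.R017.FrX579 (lmX svX s0R ShXl FrXD frX)
open Crest.Agent.R017.UbOr381 (DomHi)
open Crest.Agent.R017.ETy71 (mV bq vN vR pQ Dz)
open Crest.Agent.R017.ETm548
open Crest.Agent.R017.HfG548

lemma win_inl {X δ ρ B : ℝ} {N : ℕ} {q : I8X ⊕ Unit → ℝ} {a : BkX}
    (h : Win S8Xk q δ N B ρ X a) : Win S8X (fun i => q (.inl i)) δ N B ρ X a.1 :=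
  ⟨fun i => h.ev (.inl i), h.g, Nat.zero_le _, h.s₁, (le_max_left _ _).trans h.s₂⟩

/-- `h` in `δ` -/
lemma hfG_lip {Λ : Type*} (d : ℝ) (uNf uRf F : QK → ℝ) (sf : BcX → ℝ) (lam : Λ × Eis) {X : ℝ}
    (hX : 1 < X) (a : BkX) (qs : List Pq) (q : QK) (i : ℕ) (x y : ℝ) :
    hfG d uNf uRf F sf lam X a qs q i x ≤ hfG d uNf uRf F sf lam X a qs q i y + 4 * |x - y| := by
  have hL : 0 < Real.log X := Real.log_pos hX
  unfold hfG
  have h1 := LnY47.hX_lip (N := cN (prX (bq q))) (k := cκ (prX (bq q)))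
    (q := kB a / Real.log X) (v := (i : ℝ) / Real.log X) (p := LN (clN a.1 qs) / Real.log X)
    (δ := x / Real.log X) (δ' := y / Real.log X) (x := cx' (prX (bq q)))
    (D := d * cκ (prX (bq q))) (uN := uNf q) (uR := uRf q) (s₀ := sf a.1 / Real.log X) (F := F q)
  have h2 := mul_le_mul_of_nonneg_left h1 hL.le
  have h3 : Real.log X * (4 * |x / Real.log X - y / Real.log X|) = 4 * |x - y| := by
    rw [← sub_div, abs_div, abs_of_pos hL]
    field_simp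
  rw [mul_add, h3] at h2
  exact h2

/-- from units -/
lemma div_win {z w t L : ℝ} (hL : 0 < L) (h : |z - w * L| ≤ t * L) : |z / L - w| ≤ t := by
  have h2 : z / L - w = (z - w * L) / L := by field_simp
  rw [h2, abs_div, abs_of_pos hL, div_le_iff₀ hL]
  exact h

section
variable {Λ : Type*} {π : Λ → DPar} {h : ℝ → ℝ}

set_option maxHeartbeats 4000000 in
/-- **one child** -/
theorem tone_X {Rh e0 c β d : ℝ} (he0 : 0 ≤ e0) (he1 : e0 ≤ 1 / 64) (hc0 : 0 ≤ c)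
    (hβ : β = 17 / 100) {Par : Set (Fin 3 ⊕ Fin 5 → ℝ)} (hPar : ∀ p ∈ Par, ParOK p)
    {ℓ Kf Tf : (Fin 5 → ℝ) → ℝ} (hcd : 4 * c ≤ d)
    (hDh : ∀ p ∈ Par, Dh (cκ p) (cu p 2) (cu p 3) (cu p 4) (cx' p) (d * cκ p))
    {cw B₂ J R' R'' t₀ ε X : ℝ} {lam : Λ × Eis} {a : BkX} {qs : List Pq} {q : QK}
    (D : FrXD π h Rh e0 c ℓ Kf Tf cw B₂ J R'' t₀ ε X lam a.1 qs (q8 q))
    (hA : Adm (YcX Rh a.1 qs) (Real.exp (LN (clN a.1 qs))) R' (alX π h lam a.1 qs))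
    (hX1 : 1 < X) (ht0 : 0 < t₀) (ht1 : t₀ ≤ 1 / 1000000) (htε : 100 * t₀ ≤ ε)
    (hL4 : 4 ≤ t₀ * Real.log X) (hcw : 1 ≤ cw) (hcwL : Real.log cw ≤ t₀ * Real.log X)
    (hq : q ∈ DomHi (3 / 5) (7 / 8) c β Par DifL)
    (hF : lmX ℓ Kf Tf (bq q) ≤ 5 / 9 * (d * cκ (prX (bq q))))
    (hfam : |kB a - q.1 (.inr ()) * Real.log X| ≤ t₀ * Real.log X)
    (hlv : a.2.1 < nw c a.1) (hok : okCX (π lam.1) lam.2 a.1 qs ∧ okD a.1) :
    TOne e0 c (alX π h lam a.1 qs) 4 cw B₂ J R' ε X (GXq d q + ε)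
      (hfG d uNX uRX (fun q => lmX ℓ Kf Tf (bq q)) s0X lam X a qs q) a qs (YcX Rh a.1 qs)
      (ShXl (lmX ℓ Kf Tf (bq q) * Real.log X) a.1 qs) := by
  have hL0 : 0 < Real.log X := Real.log_pos hX1
  obtain ⟨⟨⟨hC, hDif, hmo, hlen⟩, hk0, hk1⟩, hk2⟩ := hq
  have hpar : prX (bq q) ∈ Par := hC.par
  have hzr : ZR β (bq q) := hC.zr
  have hPp := hPar _ hpar
  have hDp := hDh _ hpar
  have hκ0 := hPp.κ0
  have hκ1 := hPp.κ1
  have hN1 := hPp.N1
  have hx1' := hPp.x1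
  have hx0' := hPp.x0
  -- the windows
  have kl : |a.1.1.l - cκ (prX (bq q)) * Real.log X| ≤ t₀ * Real.log X := D.kl
  have zl : |a.1.1.z - cx' (prX (bq q)) * Real.log X| ≤ t₀ * Real.log X := D.zl
  have Al : |a3 a.1.1.toBd - cN (prX (bq q)) * Real.log X| ≤ t₀ * Real.log X := D.Al
  have nl : |LN (clN a.1 qs) - (q.1 (.inl (.inr 0)) + q.1 (.inl (.inr 1)) + q.1 (.inl (.inr 2)) +
      q.2 .am) * Real.log X| ≤ t₀ * Real.log X := D.nl
  have n0 : (cκ (prX (bq q)) / 2 - 2 * cx' (prX (bq q))) * Real.log X - t₀ * Real.log X ≤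
      LN (clN a.1 qs) := D.n0
  have n1 : LN (clN a.1 qs) ≤ (cN (prX (bq q)) + cx' (prX (bq q))) * Real.log X +
      t₀ * Real.log X := D.n1
  have yl : Real.log (2 ^ nw c a.1) ≤ tpW c (bq q) (q.1 (.inl (.inr 3))) * Real.log X +
      t₀ * Real.log X := D.yl
  have sl : |s0X a.1 - min (min (q.1 (.inl (.inr 0))) (q.1 (.inl (.inr 1))))
      (min (q.1 (.inl (.inr 0)) - (cu (prX (bq q)) 2 - (bq q) (.inr 1)))
        (q.1 (.inl (.inr 1)) + (cu (prX (bq q)) 2 - (bq q) (.inr 1)))) * Real.log X| ≤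
      t₀ * Real.log X := D.sl
  have nd := div_win hL0 nl
  have sd := div_win hL0 sl
  have fd := div_win hL0 hfam
  obtain ⟨kl1, kl2⟩ := abs_le.1 kl
  obtain ⟨zl1, zl2⟩ := abs_le.1 zl
  obtain ⟨Al1, Al2⟩ := abs_le.1 Al
  obtain ⟨fd1, fd2⟩ := abs_le.1 fd
  obtain ⟨nl1, nl2⟩ := abs_le.1 nl
  have n0' : cκ (prX (bq q)) / 2 - 2 * cx' (prX (bq q)) - 4 * t₀ ≤
      LN (clN a.1 qs) / Real.log X := by
    rw [le_div_iff₀ hL0]
    linarith
  have k2 : kB a ≤ 2 * Real.log X := by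
    have h1 : q.1 (.inr ()) * Real.log X ≤ 1 * Real.log X := by
      refine mul_le_mul_of_nonneg_right ?_ hL0.le
      have : q.1 (.inr ()) ≤ 7 / 8 * cκ (prX (bq q)) := hk1
      linarith
    have h2 : t₀ * Real.log X ≤ 1 / 1000000 * Real.log X := mul_le_mul_of_nonneg_right ht1 hL0.le
    have := (abs_le.1 hfam).2
    linarith
  have ht2 : t₀ * Real.log X ≤ 1 / 1000000 * Real.log X := mul_le_mul_of_nonneg_right ht1 hL0.le
  have hκL : cκ (prX (bq q)) * Real.log X ≤ 1 * Real.log X :=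
    mul_le_mul_of_nonneg_right hκ1 hL0.le
  have hκL' : 8 / 9 * Real.log X ≤ cκ (prX (bq q)) * Real.log X :=
    mul_le_mul_of_nonneg_right hκ0 hL0.le
  have l0 : 0 ≤ a.1.1.l := by linarith
  have hcw0 : 0 < cw := by linarith
  -- the child of the level
  have hCh : ∀ i ∈ LI (2 ^ a.2.1 / 4) (2 ^ (a.2.1 + 1)),
      Ch (cκ (prX (bq q))) (cu (prX (bq q)) 2) (cu (prX (bq q)) 3) (cu (prX (bq q)) 4)
        (cx' (prX (bq q))) (d * cκ (prX (bq q))) (4 * t₀) (kB a / Real.log X)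
        (LN (clN a.1 qs) / Real.log X) (uNX q) (uRX q) ((i : ℝ) / Real.log X)
        (cN (prX (bq q)) - (q.1 (.inl (.inr 0)) + q.1 (.inl (.inr 1)) + q.1 (.inl (.inr 2))))
        (s0X a.1 / Real.log X) := by
    intro i hi
    have hi1 := (abs_le.1 (LI_win hi)).2
    have hl2 : 0 < Real.log 2 := Real.log_pos (by norm_num)
    have hi2 : Real.log 2 * a.2.1 ≤ Real.log (2 ^ nw c a.1) := by
      rw [Real.log_pow, mul_comm]
      exact mul_le_mul_of_nonneg_right (by exact_mod_cast hlv.le) hl2.le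
    have hv : (i : ℝ) / Real.log X ≤ tpW c (bq q) (q.1 (.inl (.inr 3))) + 4 * t₀ := by
      rw [div_le_iff₀ hL0]
      linarith
    exact ChX629.chX (κ := cκ (prX (bq q))) (N := cN (prX (bq q))) (x := cx' (prX (bq q)))
      (y₃ := cu (prX (bq q)) 2) (y₄ := cu (prX (bq q)) 3) (u := cu (prX (bq q)) 4)
      (D := d * cκ (prX (bq q))) (Z := bq q (.inr 1)) (v₀ := q.1 (.inl (.inr 0)))
      (v₁ := q.1 (.inl (.inr 1))) (v₂ := q.1 (.inl (.inr 2))) (x' := q.2 .am)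
      (b := q.1 (.inl (.inr 3))) (c := c) (β := β) (t := 4 * t₀) (q := kB a / Real.log X)
      (p := LN (clN a.1 qs) / Real.log X) (v := (i : ℝ) / Real.log X)
      (s₀ := s0X a.1 / Real.log X)
      hκ0 (by linarith) (by linarith) rfl hDp
      (by
        have := mul_le_mul_of_nonneg_right hcd (show 0 ≤ cκ (prX (bq q)) by linarith)
        linarith)
      hβ (hzr 1).1 (hzr 1).2 hC.v0 hC.v1 hC.v2 hDif.1.1 hDif.1.2.1 hDif.1.2.2 hC.x0 hC.x1 hC.s2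
      (by linarith [show 3 / 5 * cκ (prX (bq q)) ≤ q.1 (.inr ()) from hk2])
      (by linarith [show q.1 (.inr ()) ≤ 7 / 8 * cκ (prX (bq q)) from hk1])
      hv (nd.trans (by linarith)) n0' (sd.trans (by linarith))
  -- the real lines
  have hTL : ∀ i ∈ LI (2 ^ a.2.1 / 4) (2 ^ (a.2.1 + 1)), ∀ g : ℝ, 0 ≤ g → _ := fun i hi g hg =>
    LnY47.tl_abs (L := Real.log X) (um' := (a.1.2.1 2).z)
      (lm := lmX ℓ Kf Tf (bq q) * Real.log X) (k5 := k5X a.1) (z := a.1.1.z)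
      (cl := Real.log cw) (E := e0 * a.1.1.l) (G := GXq d q + ε)
      (h := hfG d uNX uRX (fun q => lmX ℓ Kf Tf (bq q)) s0X lam X a qs q i g)
      hL0 hDp (hCh i hi) hF hg
      (by
        rw [add_mul]
        have : 0 ≤ 4 * t₀ * Real.log X := by positivity
        linarith)
      (by
        unfold P10X764.k5X
        have e1 : 0 ≤ t₀ * Real.log X := by positivity
        refine max_le ?_ ?_
        · have := mul_le_mul_of_nonneg_right (le_max_left (cκ (prX (bq q)))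
            (5 / 4 * (cu (prX (bq q)) 2 + cu (prX (bq q)) 3 + cu (prX (bq q)) 4))) hL0.le
          rw [add_mul]
          linarith
        · have := mul_le_mul_of_nonneg_right (le_max_right (cκ (prX (bq q)))
            (5 / 4 * (cu (prX (bq q)) 2 + cu (prX (bq q)) 3 + cu (prX (bq q)) 4))) hL0.le
          have e2 : cN (prX (bq q)) = cu (prX (bq q)) 2 + cu (prX (bq q)) 3 +
            cu (prX (bq q)) 4 := rfl
          rw [← e2] at this ⊢
          rw [add_mul]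
          linarith)
      hok.1.1.base.2.1
      (by rw [add_mul]; linarith [show 0 ≤ t₀ * Real.log X by positivity])
      (by linarith)
      (by
        have h1 : e0 * a.1.1.l ≤ 1 / 64 * a.1.1.l :=
          mul_le_mul_of_nonneg_right he1 l0
        rw [add_mul]
        linarith [show 0 ≤ t₀ * Real.log X by positivity])
      (by
        have h1 := LnY47.GX_lip (N := cN (prX (bq q))) (k := cκ (prX (bq q)))
          (q := kB a / Real.log X) (q' := q.1 (.inr ())) (p := LN (clN a.1 qs) / Real.log X)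
          (p' := pQ q) (uN := uNX q) (uR := uRX q) (x := cx' (prX (bq q)))
          (D := d * cκ (prX (bq q))) (a := t₀) fd nd
        have h2 : GX (cu (prX (bq q)) 2 + cu (prX (bq q)) 3 + cu (prX (bq q)) 4)
          (cκ (prX (bq q))) (kB a / Real.log X) (LN (clN a.1 qs) / Real.log X) (uNX q) (uRX q)
          (cx' (prX (bq q))) (d * cκ (prX (bq q))) ≤ GXq d q + 6 * t₀ := h1
        linarith)
      rfl
  refine ⟨D.Y1, D.YX, l0, by linarith, D.np, ?_, k2, ?_, hA, D.jb,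
    fun i x y => hfG_lip d uNX uRX _ s0X lam hX1 a qs q i x y, fun i hi g hg => (hTL i hi g hg).1,
    fun i hi g hg _ => (hTL i hi g hg).2.1, fun i hi g hg _ => (hTL i hi g hg).2.2.1⟩
  · have h1 : (cN (prX (bq q)) + cx' (prX (bq q))) * Real.log X ≤ (1 + 1 / 3) * Real.log X :=
      mul_le_mul_of_nonneg_right (by linarith) hL0.le
    linarith
  · refine le_trans ?_ D.yX
    have : (0 : ℝ) < 2 ^ nw c a.1 := by positivity
    nlinarith

set_option maxHeartbeats 4000000 in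
/-- **the `T`-half, differences** -/
theorem tfr_X {c₀ : ℝ} (hpu : PU h c₀) (hP : ∀ lam, (π lam).OK)
    (hex : ∀ lam, ¬ NPm (π lam).n (π lam).ψ (π lam).l₂ 1)
    {Rh : ℝ} (hRh0 : 0 ≤ Rh) (hRh : ∀ u, cx h u ≠ 0 → |u| ≤ Rh) {e0 : ℝ}
    (he0 : 0 ≤ e0) (he1 : e0 ≤ 1 / 64) {c β : ℝ} (hc0 : 0 ≤ c) (hc1 : c ≤ 1)
    (hβ : β = 17 / 100)
    {Par : Set (Fin 3 ⊕ Fin 5 → ℝ)} (hPar : ∀ p ∈ Par, ParOK p)
    {D5 : Set (Fin 5 → ℝ)} {ℓ Kf Tf : (Fin 5 → ℝ) → ℝ}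
    (hDN : ∀ p : IX5 → ℝ, prX p ∈ Par → ZR β p → bN p ∈ D5)
    (hDR : ∀ p : IX5 → ℝ, prX p ∈ Par → ZR β p → bR p ∈ D5)
    (hR5 : ∀ p : IX5 → ℝ, prX p ∈ Par → ZR β p → R5 (bN p))
    (hKN : ∀ p : IX5 → ℝ, prX p ∈ Par → ZR β p →
      Kf (bN p) = max (cκ (prX p)) (5 / 4 * cN (prX p)))
    (hKR : ∀ p : IX5 → ℝ, prX p ∈ Par → ZR β p →
      Kf (bR p) = max (cκ (prX p)) (5 / 4 * cN (prX p)))
    (hTN : ∀ (p : IX5 → ℝ) (v₀ v₁ v₂ b x' : ℝ), ChC c β Par p v₀ v₁ v₂ b x' →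
      DifL p v₀ v₁ v₂ → tpW c p b ≤ Tf (bN p))
    (hTR : ∀ (p : IX5 → ℝ) (v₀ v₁ v₂ b x' : ℝ), ChC c β Par p v₀ v₁ v₂ b x' →
      DifL p v₀ v₁ v₂ → tpW c p b ≤ Tf (bR p))
    (hcb : CBA π h Dk Kf Tf D5 ℓ) {d : ℝ} (hcd : 4 * c ≤ d)
    (hDh : ∀ p ∈ Par, Dh (cκ p) (cu p 2) (cu p 3) (cu p 4) (cx' p) (d * cκ p))
    (hF : ∀ q ∈ DomHi (3 / 5) (7 / 8) c β Par DifL,
      lmX ℓ Kf Tf (bq q) ≤ 5 / 9 * (d * cκ (prX (bq q))))
    {ok : Λ × Eis → BcX → List Pq → Prop}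
    (hok : ∀ lam a qs, ok lam a qs → okCX (π lam.1) lam.2 a qs ∧ okD a) :
    TFr (alX π h) ok e0 c (DomHi (3 / 5) (7 / 8) c β Par DifL) 4
      (hfG d uNX uRX (fun q => lmX ℓ Kf Tf (bq q)) s0X) (GXq d) := by
  intro ε hε
  obtain ⟨t₀, ht₀, ht1, ht2⟩ : ∃ t₀ : ℝ, 0 < t₀ ∧ t₀ ≤ 1 / 1000000 ∧ 100 * t₀ ≤ ε :=
    ⟨min (1 / 1000000) (ε / 100), lt_min (by norm_num) (by positivity), min_le_left _ _, by
      have := min_le_right (1 / 1000000 : ℝ) (ε / 100)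
      linarith⟩
  obtain ⟨δ₁, hδ₁, F⟩ := frX hpu hP hex hRh0 hRh he0 (by linarith) hc0 hc1 hPar hDN hDR hR5 hKN hKR
    hTN hTR hcb (ε := ε) (t₀ := t₀) hε ht₀
  refine ⟨min δ₁ t₀, lt_min hδ₁ ht₀, fun lam N B => ?_⟩
  obtain ⟨B₁, J₁, R', hB₁, hJ₁, hR', δ'₁, hδ'₁, X₁, hX₁, F₁⟩ := F lam N B 1 le_rfl
  refine ⟨R', hR', fun cw hcw => ?_⟩
  obtain ⟨B₂, J, R'', hB₂, hJ, hR'', δ'₂, hδ'₂, X₂, hX₂, F₂⟩ := F lam N B cw hcw
  refine ⟨B₂, J, hJ, min δ'₁ δ'₂, lt_min hδ'₁ hδ'₂,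
    max (max X₁ X₂) (Real.exp ((4 + Real.log cw) / t₀)),
    lt_max_of_lt_left (lt_max_of_lt_left hX₁), ?_⟩
  intro X hX a qs q hW
  have x1 : X₁ ≤ X := ((le_max_left _ _).trans (le_max_left _ _)).trans hX
  have x2 : X₂ ≤ X := ((le_max_right _ _).trans (le_max_left _ _)).trans hX
  have hX1 : 1 < X := hX₁.trans_le x1
  have hL0 : 0 < Real.log X := Real.log_pos hX1
  have hlc : 0 ≤ Real.log cw := Real.log_nonneg hcw
  have x3 : 4 + Real.log cw ≤ t₀ * Real.log X := by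
    have h2 : (4 + Real.log cw) / t₀ ≤ Real.log X := by
      have := Real.log_le_log (Real.exp_pos _) ((le_max_right _ _).trans hX)
      rwa [Real.log_exp] at this
    rw [div_le_iff₀ ht₀] at h2
    linarith
  have hw₁ : Win S8X (q8 q).1 δ₁ N B δ'₁ X a.1 :=
    (win_inl hW.win).mono hX1.le (min_le_left _ _) le_rfl le_rfl (min_le_left _ _)
  have hw₂ : Win S8X (q8 q).1 δ₁ N B δ'₂ X a.1 :=
    (win_inl hW.win).mono hX1.le (min_le_left _ _) le_rfl le_rfl (min_le_right _ _)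
  have hk := hok _ _ _ hW.hok
  have D₁ := F₁ X x1 a.1 qs hW.len (fun p hp => (hW.gl p hp).imp id fun h =>
    h.trans (min_le_left _ _)) (q8 q) hW.dom.1.1 hw₁ (fun t => (hW.ms t).trans (min_le_left _ _))
    (Good_mono hX1.le hW.gd (min_le_left _ _)) hW.nlp hk
  have D₂ := F₂ X x2 a.1 qs hW.len (fun p hp => (hW.gl p hp).imp id fun h =>
    h.trans (min_le_left _ _)) (q8 q) hW.dom.1.1 hw₂ (fun t => (hW.ms t).trans (min_le_left _ _))
    (Good_mono hX1.le hW.gd (min_le_right _ _)) hW.nlp hk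
  have hfam : |kB a - q.1 (.inr ()) * Real.log X| ≤ t₀ * Real.log X := by
    have h0 : |((a.2.2.1 : ℝ) + 1) * Real.log 2 / Real.log X - q.1 (.inr ())| ≤ min δ₁ t₀ :=
      hW.win.ev (.inr ())
    have h1 := mul_le_mul_of_nonneg_right (h0.trans (min_le_right _ _)) hL0.le
    rw [← abs_of_pos hL0, ← abs_mul, abs_of_pos hL0, sub_mul, div_mul_cancel₀ _ hL0.ne'] at h1
    exact h1
  exact ⟨_, _, tone_X he0 he1 hc0 hβ hPar hcd hDh D₂ D₁.adm hX1 ht₀ ht1 ht2 (by linarith) hcw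
    (by linarith) hW.dom (hF q hW.dom) hfam hW.lvl hk⟩

end

end Crest.Agent.R017.ETo548
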