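import Crest.Agent.R017.ET1_71
import Crest.Agent.R017.E2ex_385

/-!
# Row 17, R8 / P1, exceptional class (helper548): the compensated cross tail, sequence level

* `absN_le` : the absolute sum over the `k` which are not cut, with `N k`
* **`etq_le`** : the tail with the compensated weight, the `k` with `N k`
-/

set_option autoImplicit false
set_option linter.unusedVariables false

noncomputable section

open Complex Finset
open scoped ComplexConjugate Classical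

namespace Crest.Agent.R017.ETq548

open Crest.Agent.R012 Crest.Agent.R012.Eis Crest.Agent.R012.Mob705 Crest.Agent.R012.MC
open Crest.Agent.R017.CM106 Crest.Agent.R017.LB48 Crest.Agent.R017.FE47 Crest.Agent.R017.End699
open Crest.Agent.R017.E5Q571 (Cut notcut_le CS_cube)
open Crest.Agent.R017.C70 (CbF)
open Crest.Agent.R017.X6C180 (GF)
open Crest.Agent.R017.X6545 (TF Bd)
open Crest.Agent.R017.E2440 (Fh)
open Crest.Agent.R017.Ex385 (CrQ)
open Crest.Agent.R017.ET71 (cubes_le card_cubes)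

/-- **the absolute sum over the `k` which are not cut** -/
theorem absN_le {Kx : ℝ} (hK : 0 ≤ Kx) {α : Eis → ℂ} (hα : ∀ m, α m ≠ 0 → IsPrim m)
    (St : Eis → ℂ) (N : Eis → Prop) {E1 : ℝ} (hE : 0 ≤ E1) {I : ℕ} (hI : Kx < 2 ^ I)
    {G : ℕ → ℝ} (hG : ∀ i, 0 ≤ G i)
    (H : ∀ (i : ℕ) (m : Eis), i < I → IsPrim m → E1 < (nm m : ℝ) →
      (nm m : ℝ) ^ 3 * 2 ^ i ≤ Kx →
      (∑ k ∈ (primBall (2 ^ (i + 1))).filter (fun k => (CbF k ∧ 2 ^ i ≤ nm k) ∧ N (m ^ 3 * k)),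
          ‖CS (fun n => α n * prin0 m n) k‖ ^ 2) *
        (∑ k ∈ (primBall (2 ^ (i + 1))).filter (fun k => CbF k ∧ 2 ^ i ≤ nm k),
          ‖St (m ^ 3 * k)‖ ^ 2) ≤ (G i) ^ 2) :
    ∑ k ∈ (primBall ⌊Kx⌋₊).filter (fun k => ¬ Cut E1 k),
        (if N k then ‖CS α k‖ * ‖St k‖ else 0) ≤
      ∑ i ∈ (range I).filter (fun i => E1 ^ 3 * 2 ^ i ≤ Kx),
        100 * (Kx / 2 ^ i) ^ ((1 : ℝ) / 3) * G i := by
  refine (cubes_le hK (E1 := E1) (F := fun k => if N k then ‖CS α k‖ * ‖St k‖ else 0)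
    (fun k => by split_ifs <;> positivity) hI).trans ?_
  rw [sum_filter]
  refine sum_le_sum fun i hi => ?_
  rw [mem_range] at hi
  by_cases hEi : E1 ^ 3 * 2 ^ i ≤ Kx
  swap
  · rw [if_neg hEi]
    refine le_of_eq (sum_eq_zero fun m hm => ?_)
    exfalso
    rw [mem_filter] at hm
    apply hEi
    have h1 : E1 ^ 3 ≤ (nm m : ℝ) ^ 3 := pow_le_pow_left₀ hE hm.2.1.le 3
    have h2 : (0 : ℝ) < 2 ^ i := by positivity
    nlinarith [hm.2.2]
  rw [if_pos hEi]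
  have key : ∀ m ∈ (primBall ⌊Kx⌋₊).filter
      (fun m => E1 < (nm m : ℝ) ∧ (nm m : ℝ) ^ 3 * 2 ^ i ≤ Kx),
      ∑ k₁ ∈ (primBall (2 ^ (i + 1))).filter (fun k => CbF k ∧ 2 ^ i ≤ nm k),
        (if N (m ^ 3 * k₁) then ‖CS α (m ^ 3 * k₁)‖ * ‖St (m ^ 3 * k₁)‖ else 0) ≤ G i := by
    intro m hm
    rw [mem_filter, mem_primBall] at hm
    have h1 := H i m hi hm.1.2 hm.2.1 hm.2.2
    rw [← sum_filter, filter_filter]
    have h2 := sum_mul_sq_le_sq_mul_sq
      ((primBall (2 ^ (i + 1))).filter (fun k => (CbF k ∧ 2 ^ i ≤ nm k) ∧ N (m ^ 3 * k)))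
      (fun k => ‖CS α (m ^ 3 * k)‖) (fun k => ‖St (m ^ 3 * k)‖)
    have h3 : ∑ k ∈ (primBall (2 ^ (i + 1))).filter
        (fun k => (CbF k ∧ 2 ^ i ≤ nm k) ∧ N (m ^ 3 * k)), ‖St (m ^ 3 * k)‖ ^ 2 ≤
        ∑ k ∈ (primBall (2 ^ (i + 1))).filter (fun k => CbF k ∧ 2 ^ i ≤ nm k),
          ‖St (m ^ 3 * k)‖ ^ 2 := by
      refine sum_le_sum_of_subset_of_nonneg (fun k hk => ?_) fun _ _ _ => by positivity
      rw [mem_filter] at hk ⊢
      exact ⟨hk.1, hk.2.1⟩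
    simp only [CS_cube hα] at h2 ⊢
    have h4 := h2.trans ((mul_le_mul_of_nonneg_left h3
      (sum_nonneg fun _ _ => by positivity)).trans h1)
    exact abs_le_of_sq_le_sq' h4 (hG i) |>.2
  refine (sum_le_sum key).trans ?_
  rw [sum_const, nsmul_eq_mul]
  exact mul_le_mul_of_nonneg_right (card_cubes hK E1 i) (hG i)

/-- a weighted sum by absolute values -/
lemma crQ_abs {W : ℝ → ℂ} {Wm b : ℝ} (hWm : ∀ x, ‖W x‖ ≤ Wm) (hb : ∀ x, W x ≠ 0 → x ≤ b)
    {K : ℝ} (hK : 0 < K) (Q : Eis → Prop) (α u : Eis → ℂ) :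
    ‖CrQ W Q K α u‖ ≤ Wm * ∑ k ∈ primBall ⌊b * K⌋₊, (if Q k then ‖CS α k‖ * ‖u k‖ else 0) := by
  have h1 : CrQ W Q K α u = ∑ k ∈ primBall ⌊b * K⌋₊, if Q k then
      W ((nm k : ℝ) / K) * (CS α k * conj (u k)) else 0 := by
    unfold Ex385.CrQ
    rw [tsum_eq_sum (s := primBall ⌊b * K⌋₊)]
    · refine sum_congr rfl fun k hk => ?_
      have hp := (mem_primBall.1 hk).2
      by_cases hq : Q k
      · rw [if_pos ⟨hp, hq⟩, if_pos hq]
      · rw [if_neg fun h => hq h.2, if_neg hq]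
    · intro k hk
      split_ifs with hp
      · by_cases h0 : W ((nm k : ℝ) / K) = 0
        · rw [h0, zero_mul]
        · exfalso
          apply hk
          rw [mem_primBall]
          have := hb _ h0
          rw [div_le_iff₀ hK] at this
          exact ⟨Nat.le_floor this, hp.1⟩
      · rfl
  rw [h1, mul_sum]
  refine (norm_sum_le _ _).trans (sum_le_sum fun k _ => ?_)
  split_ifs
  · rw [norm_mul, norm_mul, RCLike.norm_conj]
    exact mul_le_mul_of_nonneg_right (hWm _) (by positivity)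
  · rw [norm_zero, mul_zero]

lemma GF_bd {F : ℝ → ℂ} {Sf : ℝ} (hS : ∀ y, ‖F y‖ ≤ Sf) (x : ℝ) : ‖GF F x‖ ≤ Sf := by
  unfold X6C180.GF
  split_ifs
  · exact hS _
  · rw [norm_zero]
    exact (norm_nonneg _).trans (hS 0)

lemma GF_top {F : ℝ → ℂ} (hF : TF F) {x : ℝ} (h : GF F x ≠ 0) : x ≤ Real.exp 2 := by
  unfold X6C180.GF at h
  split_ifs at h with hx
  · by_contra hc
    push Not at hc
    apply h
    refine hF.supp _ ?_
    have h1 : 2 < Real.log x := by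
      rw [← Real.log_exp 2]
      exact Real.log_lt_log (Real.exp_pos _) hc
    exact h1.trans_le (le_abs_self _)
  · exact absurd rfl h

/-- **the tail with the compensated weight, the `k` with `N k`** -/
theorem etq_le {F : ℝ → ℂ} (hF : TF F) {Sf : ℝ} (hS : ∀ y, ‖F y‖ ≤ Sf) {η : ℝ} (hη : 0 ≤ η)
    {K : ℝ} (hK : 0 < K) {α : Eis → ℂ} (hα : ∀ m, α m ≠ 0 → IsPrim m) (St : Eis → ℂ)
    (N : Eis → Prop) {E1 : ℝ} (hE : 0 ≤ E1) {I : ℕ} (hI : Real.exp 2 * K < 2 ^ I)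
    {G : ℕ → ℝ} (hG : ∀ i, 0 ≤ G i)
    (H : ∀ (i : ℕ) (m : Eis), i < I → IsPrim m → E1 < (nm m : ℝ) →
      (nm m : ℝ) ^ 3 * 2 ^ i ≤ Real.exp 2 * K →
      (∑ k ∈ (primBall (2 ^ (i + 1))).filter (fun k => (CbF k ∧ 2 ^ i ≤ nm k) ∧ N (m ^ 3 * k)),
          ‖CS (fun n => α n * prin0 m n) k‖ ^ 2) *
        (∑ k ∈ (primBall (2 ^ (i + 1))).filter (fun k => CbF k ∧ 2 ^ i ≤ nm k),
          ‖St (m ^ 3 * k)‖ ^ 2) ≤ (G i) ^ 2) :
    ‖CrQ (GF (Fh F η)) (fun k => ¬ Cut E1 k ∧ N k) K α St‖ ≤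
      2 * Sf * ∑ i ∈ (range I).filter (fun i => E1 ^ 3 * 2 ^ i ≤ Real.exp 2 * K),
        100 * (Real.exp 2 * K / 2 ^ i) ^ ((1 : ℝ) / 3) * G i := by
  have hSf : 0 ≤ Sf := (norm_nonneg _).trans (hS 0)
  obtain ⟨Q, hQ⟩ : ∃ Q : Eis → Prop, Q = fun k => ¬ Cut E1 k ∧ N k := ⟨_, rfl⟩
  have hq : ∀ k, Q k ↔ ¬ Cut E1 k ∧ N k := fun k => by rw [hQ]
  rw [← hQ]
  set T : ℝ := ∑ i ∈ (range I).filter (fun i => E1 ^ 3 * 2 ^ i ≤ Real.exp 2 * K),
        100 * (Real.exp 2 * K / 2 ^ i) ^ ((1 : ℝ) / 3) * G i with hT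
  -- one scale
  have one : ∀ r : ℝ, 0 ≤ r →
      ‖CrQ (GF F) Q (K * Real.exp (-r)) α St‖ ≤
        Sf * (Real.exp (-r / 3) * T) := by
    intro r hr
    have hr1 : Real.exp (-r) ≤ 1 := Real.exp_le_one_iff.mpr (by linarith)
    have hKr : 0 < K * Real.exp (-r) := by positivity
    have hKle : Real.exp 2 * (K * Real.exp (-r)) ≤ Real.exp 2 * K := by
      have := mul_le_mul_of_nonneg_left hr1 (by positivity : 0 ≤ Real.exp 2 * K)
      linarith
    refine (crQ_abs (GF_bd hS) (fun x hx => GF_top hF hx) hKr _ α St).trans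
      (mul_le_mul_of_nonneg_left ?_ hSf)
    have e1 : ∑ k ∈ primBall ⌊Real.exp 2 * (K * Real.exp (-r))⌋₊,
        (if Q k then ‖CS α k‖ * ‖St k‖ else 0) =
        ∑ k ∈ (primBall ⌊Real.exp 2 * (K * Real.exp (-r))⌋₊).filter (fun k => ¬ Cut E1 k),
          (if N k then ‖CS α k‖ * ‖St k‖ else 0) := by
      rw [sum_filter]
      refine sum_congr rfl fun k _ => ?_
      by_cases h1 : Cut E1 k
      · rw [if_neg fun h => ((hq k).1 h).1 h1, if_neg (not_not.2 h1)]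
      · by_cases h2 : N k
        · rw [if_pos ((hq k).2 ⟨h1, h2⟩), if_pos h1, if_pos h2]
        · rw [if_neg fun h => h2 ((hq k).1 h).2, if_pos h1, if_neg h2]
    rw [e1]
    refine (absN_le (by positivity) hα St N hE (hKle.trans_lt hI) hG
      (fun i m hi hm h1 h2 => H i m hi hm h1 (h2.trans hKle))).trans ?_
    rw [hT, mul_sum]
    have hsub : (range I).filter (fun i => E1 ^ 3 * 2 ^ i ≤ Real.exp 2 * (K * Real.exp (-r))) ⊆
        (range I).filter (fun i => E1 ^ 3 * 2 ^ i ≤ Real.exp 2 * K) := by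
      intro i hi
      rw [mem_filter] at hi ⊢
      exact ⟨hi.1, hi.2.trans hKle⟩
    refine le_trans (le_of_eq (sum_congr rfl fun i _ => ?_))
      (sum_le_sum_of_subset_of_nonneg hsub fun i _ _ => by
        have := hG i
        positivity)
    have e2 : Real.exp 2 * (K * Real.exp (-r)) / 2 ^ i =
        (Real.exp 2 * K / 2 ^ i) * Real.exp (-r) := by ring
    have e3 : (Real.exp (-r)) ^ ((1 : ℝ) / 3) = Real.exp (-r / 3) := by
      rw [← Real.exp_mul]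
      congr 1
      ring
    rw [e2, Real.mul_rpow (by positivity) (Real.exp_pos _).le, e3]
    ring
  have h0 := Ex385.CrQ_split hF hη Q hK α St
  have h1 := one 0 le_rfl
  have h2 := one η hη
  have hT0 : 0 ≤ T := by
    rw [hT]
    refine sum_nonneg fun i _ => ?_
    have := hG i
    positivity
  have e1 : CrQ (GF (Fh F η)) Q K α St =
      CrQ (GF F) Q K α St - ((Real.exp (η / 3) : ℝ) : ℂ) *
        CrQ (GF F) Q (K * Real.exp (-η)) α St := by
    rw [h0]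
    ring
  rw [e1]
  refine (norm_sub_le _ _).trans ?_
  rw [norm_mul, Complex.norm_real, Real.norm_of_nonneg (Real.exp_pos _).le]
  rw [neg_zero, zero_div, Real.exp_zero, mul_one, one_mul] at h1
  have h3 := mul_le_mul_of_nonneg_left h2 (Real.exp_pos (η / 3)).le
  have e2 : Real.exp (η / 3) * (Sf * (Real.exp (-η / 3) * T)) = Sf * T := by
    have : Real.exp (η / 3) * Real.exp (-η / 3) = 1 := by
      rw [← Real.exp_add, ← Real.exp_zero]
      congr 1
      ring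
    calc Real.exp (η / 3) * (Sf * (Real.exp (-η / 3) * T)) =
        (Real.exp (η / 3) * Real.exp (-η / 3)) * (Sf * T) := by ring
      _ = Sf * T := by rw [this, one_mul]
  rw [e2] at h3
  linarith

end Crest.Agent.R017.ETq548
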