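import Crest.Agent.R017.NtC3_320

/-!
# Row 17, RG (helper320): c-side moments with divisibility conditions, dilated sequences

* `MulCh`   : twists, multiplicative on primary elements, bounded by one
* `gC al δ e π χ m = [e ∣ m] [(m, π) = 1] al (δ m) χ m`
* `norm_CS_gC_dil` : dilation only shortens `δ`, `e`, the frequency stays
* `sum_gC_dil`, `gC_nt` : sums over frequencies, flagged lists
-/

set_option autoImplicit false
set_option linter.unusedSectionVars false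
set_option linter.unusedVariables false

noncomputable section

open Complex
open scoped ComplexConjugate

namespace Crest.Agent.R017.NtC320

open Crest.Agent.R012 Crest.Agent.R012.Eis Crest.Agent.R012.Gauss880
open Crest.Agent.R012.Mob705 hiding pb mem_pb
open Crest.Agent.R012.LS2 (S mem_S)
open Crest.Agent.R012.Weight600 (osc norm_osc osc_add_right pw norm_pw pw_mul)
open Crest.Agent.R012.Div277 (tau dvs mem_dvs isPrim_of_mem_dvs dvd_of_mem_dvs tau_le_rpow)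
open Crest.Agent.R017.CM106 Crest.Agent.R017.HP842 Crest.Agent.R017.FE47
open Crest.Agent.R017.Rough381 Crest.Agent.R017.Leg381
open Crest.Agent.R017.StA828 (gp gp_spec)
open Crest.Agent.R017.PX764 (n6 n6_mul)

/-- a twist -/
structure MulCh (χ : Eis → ℂ) : Prop where
  mul : ∀ a b, IsPrim a → IsPrim b → χ (a * b) = χ a * χ b
  le : ∀ a, IsPrim a → ‖χ a‖ ≤ 1

lemma nm_cast_pos {a : Eis} (ha : IsPrim a) : (0 : ℝ) < nm a := by
  exact_mod_cast nm_pos.2 ha.ne_zero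

lemma MulCh.one : MulCh (fun _ => 1) where
  mul := fun _ _ _ _ => by ring
  le := fun _ _ => by simp

lemma MulCh.times {χ ρ : Eis → ℂ} (h : MulCh χ) (h' : MulCh ρ) : MulCh (fun m => χ m * ρ m) where
  mul := fun a b ha hb => by rw [h.mul a b ha hb, h'.mul a b ha hb]; ring
  le := fun a ha => by
    rw [norm_mul]
    exact mul_le_one₀ (h.le a ha) (norm_nonneg _) (h'.le a ha)

lemma MulCh.conj {χ : Eis → ℂ} (h : MulCh χ) : MulCh (fun m => conj (χ m)) where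
  mul := fun a b ha hb => by rw [h.mul a b ha hb, map_mul]
  le := fun a ha => by rw [RCLike.norm_conj]; exact h.le a ha

lemma MulCh_sy (E : Eis) : MulCh (fun m => sy E m) where
  mul := fun a b ha hb => Sym645.syFacts.mul_right E a b ha hb
  le := fun a _ => CF61.norm_sy_le _ _

lemma MulCh_syR {B : Eis} (hB : IsPrim B) : MulCh (fun m => sy m B) where
  mul := fun a b _ _ => Char766.sy_mul_left hB
  le := fun a _ => CF61.norm_sy_le _ _

lemma MulCh_pw (t : ℝ) : MulCh (fun m => Weight600.pw t (nm m)) where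
  mul := fun a b ha hb => by
    rw [nm_mul, Nat.cast_mul, pw_mul (nm_cast_pos ha).ne' (nm_cast_pos hb).ne']
  le := fun a _ => by rw [norm_pw]

lemma MulCh_n6 : MulCh (fun m => (PX764.n6 m : ℂ)) where
  mul := fun a b _ _ => by rw [n6_mul, Complex.ofReal_mul]
  le := fun a ha => by
    rw [Complex.norm_real, Real.norm_eq_abs]
    unfold PX764.n6
    have h1 : (1 : ℝ) ≤ nm a := by exact_mod_cast nm_pos.2 ha.ne_zero
    rw [abs_of_nonneg (Real.rpow_nonneg (by linarith) _)]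
    exact Real.rpow_le_one_of_one_le_of_nonpos h1 (by norm_num)

open Classical in
/-- the c-side sequence with conditions -/
def gC (al : Eis → ℂ) (δ e π : Eis) (χ : Eis → ℂ) (m : Eis) : ℂ :=
  if e ∣ m ∧ IsCoprime m π then al (δ * m) * χ m else 0

lemma gC_ne {al : Eis → ℂ} {δ e π : Eis} {χ : Eis → ℂ} {m : Eis} (h : gC al δ e π χ m ≠ 0) :
    (e ∣ m ∧ IsCoprime m π) ∧ al (δ * m) ≠ 0 := by
  unfold gC at h
  split_ifs at h with h1
  · exact ⟨h1, left_ne_zero_of_mul h⟩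
  · exact absurd rfl h

lemma gC_fin {al : Eis → ℂ} (hal : (Function.support al).Finite) {δ : Eis} (hδ : δ ≠ 0)
    (e π : Eis) (χ : Eis → ℂ) : (Function.support (gC al δ e π χ)).Finite := by
  have hinj : Function.Injective (fun m : Eis => δ * m) := fun a b hab =>
    mul_left_cancel₀ hδ hab
  exact (hal.preimage hinj.injOn).subset fun m hm => (gC_ne hm).2

/-- the dilation in `gC` -/
theorem gC_dil {g δ e : Eis} (hg : IsPrim g) (hδ : IsPrim δ) (he : IsPrim e) (π : Eis)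
    {γ χ : Eis → ℂ} (hγ : ∀ m, γ m ≠ 0 → IsPrim m) (hχ : MulCh χ) :
    ∃ u : ℂ, ‖u‖ ≤ 1 ∧ gC (dil g γ) δ e π χ =
      fun n => u * dil (cg g δ) (gC γ (cB g δ) (cB (cg g δ) e) π χ) n := by
  classical
  have p1 := cg_prim hg hδ
  have q1 := cB_prim (g := g) hδ
  have q2 := cB_prim (g := cg g δ) he
  set G := cg g δ with hG
  refine ⟨if IsCoprime G π then χ G else 0, ?_, ?_⟩
  · split_ifs
    · exact hχ.le _ p1
    · simp
  funext n
  by_cases hn : G ∣ n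
  · obtain ⟨m, rfl⟩ := hn
    rw [dil_mul p1.ne_zero]
    have e1 : dil g γ (δ * (G * m)) = γ (cB g δ * m) := by
      have h1 : sub (dil g γ) δ (G * m) = dil G (sub γ (cB g δ)) (G * m) := by
        rw [sub_dil hg hδ]
      rw [dil_mul p1.ne_zero] at h1
      exact h1
    unfold gC
    rw [e1]
    have e2 : e ∣ G * m ↔ cB G e ∣ m := by
      have h1 := gp_cB (g := G) he
      have h2 := gp_cg (g := G) he
      have h3 := (cop (g := G) he)
      constructor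
      · intro h
        have h4 : gp G e * cB G e ∣ gp G e * (cg G e * m) := by
          rw [h1, ← mul_assoc, h2]; exact h
        have h5 : cB G e ∣ cg G e * m := (mul_dvd_mul_iff_left (gp_prim he).ne_zero).1 h4
        exact h3.symm.dvd_of_dvd_mul_left h5
      · rintro ⟨k, rfl⟩
        refine ⟨cg G e * k, ?_⟩
        calc G * (cB G e * k) = (gp G e * cg G e) * (cB G e * k) := by rw [h2]
          _ = (gp G e * cB G e) * (cg G e * k) := by ring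
          _ = e * (cg G e * k) := by rw [h1]
    have e3 : IsCoprime (G * m) π ↔ IsCoprime G π ∧ IsCoprime m π := IsCoprime.mul_left_iff
    by_cases h0 : γ (cB g δ * m) = 0
    · rw [h0]; simp
    · have hm : IsPrim m := IsPrim.of_mul_left (hγ _ h0) q1
      rw [hχ.mul G m p1 hm]
      by_cases ha : IsCoprime G π
      · by_cases hb : cB G e ∣ m ∧ IsCoprime m π
        · rw [if_pos ⟨e2.2 hb.1, e3.2 ⟨ha, hb.2⟩⟩, if_pos ha, if_pos hb]; ring
        · rw [if_neg hb, if_neg (fun h => hb ⟨e2.1 h.1, (e3.1 h.2).2⟩), mul_zero]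
      · rw [if_neg ha, if_neg (fun h => ha (e3.1 h.2).1), zero_mul]
  · rw [dil_of_not_dvd hn, mul_zero]
    unfold gC
    have h1 : dil g γ (δ * n) = 0 := by
      have h1 : sub (dil g γ) δ n = dil G (sub γ (cB g δ)) n := by rw [sub_dil hg hδ]
      rw [dil_of_not_dvd hn] at h1
      exact h1
    rw [h1, zero_mul, ite_self]

theorem norm_CS_gC_dil {g δ e : Eis} (hg : IsPrim g) (hδ : IsPrim δ) (he : IsPrim e) (π : Eis)
    {γ χ : Eis → ℂ} (hγ : ∀ m, γ m ≠ 0 → IsPrim m) (hχ : MulCh χ) (k : Eis) :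
    ‖CS (gC (dil g γ) δ e π χ) k‖ ≤ ‖CS (gC γ (cB g δ) (cB (cg g δ) e) π χ) k‖ := by
  obtain ⟨u, hu, h⟩ := gC_dil hg hδ he π hγ hχ
  have p1 := cg_prim hg hδ
  have q1 := cB_prim (g := g) hδ
  rw [h, CS_const_mul, CS_dil p1 (fun m hm => IsPrim.of_mul_left (hγ _ (gC_ne hm).2) q1),
    norm_mul, norm_mul]
  calc ‖u‖ * (‖sy k (cg g δ)‖ * _) ≤ 1 * (1 * _) := by
        gcongr
        exact CF61.norm_sy_le _ _
    _ = _ := by rw [one_mul, one_mul]

/-- the double counting lemma -/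
lemma sum2_cB_le {g : Eis} (hg : IsPrim g) {X Y : ℝ} (hX : 0 ≤ X) (hY : 0 ≤ Y)
    {F : Eis → Eis → ℝ} (hF : ∀ a b, 0 ≤ F a b) :
    ∑ δ ∈ S X, ∑ e ∈ S Y, F (cB g δ) (cB (cg g δ) e) ≤
      (tau g : ℝ) ^ 2 * ∑ δ ∈ S X, ∑ e ∈ S Y, F δ e := by
  calc ∑ δ ∈ S X, ∑ e ∈ S Y, F (cB g δ) (cB (cg g δ) e)
      ≤ ∑ δ ∈ S X, tau g * ∑ e ∈ S Y, F (cB g δ) e := by
        refine Finset.sum_le_sum fun δ hδ => ?_
        have h1 := ((mem_S hX).1 hδ).2.1
        have p1 := cg_prim hg h1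
        refine (sum_cB_le p1 hY (F := fun e => F (cB g δ) e) fun e => hF _ _).trans ?_
        refine mul_le_mul_of_nonneg_right ?_ (Finset.sum_nonneg fun _ _ => hF _ _)
        exact_mod_cast tau_le_of_dvd hg.ne_zero (cg_dvd h1)
    _ = tau g * ∑ δ ∈ S X, ∑ e ∈ S Y, F (cB g δ) e := by rw [← Finset.mul_sum]
    _ ≤ tau g * (tau g * ∑ δ ∈ S X, ∑ e ∈ S Y, F δ e) := by
        refine mul_le_mul_of_nonneg_left ?_ (Nat.cast_nonneg _)
        exact sum_cB_le hg hX (F := fun δ => ∑ e ∈ S Y, F δ e)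
          fun δ => Finset.sum_nonneg fun _ _ => hF _ _
    _ = _ := by ring

/-- **all subsequences**, weights on `(δ, e)` -/
theorem sum_gC_dil {g : Eis} (hg : IsPrim g) {γ χ : Eis → ℂ} (hγ : ∀ m, γ m ≠ 0 → IsPrim m)
    (hχ : MulCh χ) (π : Eis) {X Y : ℝ} (hX : 0 ≤ X) (hY : 0 ≤ Y) {w : Eis → Eis → ℝ}
    (hw0 : ∀ a b, 0 ≤ w a b) {C : ℝ} (hC : 0 ≤ C)
    (hw : ∀ δ e, IsPrim δ → IsPrim e → w δ e ≤ C * w (cB g δ) (cB (cg g δ) e))
    {κ : Type*} (K : Finset κ) {W : κ → ℝ} (hW : ∀ k ∈ K, 0 ≤ W k) (fr : κ → Eis) :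
    ∑ δ ∈ S X, ∑ e ∈ S Y, w δ e * ∑ k ∈ K, W k * ‖CS (gC (dil g γ) δ e π χ) (fr k)‖ ^ 2 ≤
      C * (tau g : ℝ) ^ 2 *
        ∑ δ ∈ S X, ∑ e ∈ S Y, w δ e * ∑ k ∈ K, W k * ‖CS (gC γ δ e π χ) (fr k)‖ ^ 2 := by
  set F : Eis → Eis → ℝ := fun δ e => w δ e * ∑ k ∈ K, W k * ‖CS (gC γ δ e π χ) (fr k)‖ ^ 2
    with hF
  have hF0 : ∀ a b, 0 ≤ F a b := fun a b => mul_nonneg (hw0 a b)
    (Finset.sum_nonneg fun k hk => mul_nonneg (hW k hk) (by positivity))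
  calc ∑ δ ∈ S X, ∑ e ∈ S Y, w δ e * ∑ k ∈ K, W k * ‖CS (gC (dil g γ) δ e π χ) (fr k)‖ ^ 2
      ≤ ∑ δ ∈ S X, ∑ e ∈ S Y, C * F (cB g δ) (cB (cg g δ) e) := by
        refine Finset.sum_le_sum fun δ hδ => Finset.sum_le_sum fun e he => ?_
        have h1 := ((mem_S hX).1 hδ).2.1
        have h2 := ((mem_S hY).1 he).2.1
        show _ ≤ C * (w (cB g δ) (cB (cg g δ) e) * _)
        rw [← mul_assoc]
        refine mul_le_mul (hw δ e h1 h2) ?_ (Finset.sum_nonneg fun k hk =>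
          mul_nonneg (hW k hk) (by positivity)) (mul_nonneg hC (hw0 _ _))
        refine Finset.sum_le_sum fun k hk => ?_
        refine mul_le_mul_of_nonneg_left ?_ (hW k hk)
        exact pow_le_pow_left₀ (norm_nonneg _) (norm_CS_gC_dil hg h1 h2 π hγ hχ _) 2
    _ = C * ∑ δ ∈ S X, ∑ e ∈ S Y, F (cB g δ) (cB (cg g δ) e) := by
        simp only [Finset.mul_sum]
    _ ≤ C * ((tau g : ℝ) ^ 2 * ∑ δ ∈ S X, ∑ e ∈ S Y, F δ e) :=
        mul_le_mul_of_nonneg_left (sum2_cB_le hg hX hY hF0) hC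
    _ = _ := by ring

/-- linearity -/
lemma Lin_gC {δ : Eis} (hδ : δ ≠ 0) (e π : Eis) (χ : Eis → ℂ) (k : Eis) :
    Lin (fun α => CS (gC α δ e π χ) k) := by
  classical
  intro κ T c β hβ
  show CS (gC (fun n => ∑ x ∈ T, c x * β x n) δ e π χ) k =
    ∑ x ∈ T, c x * CS (gC (β x) δ e π χ) k
  have e1 : gC (fun n => ∑ x ∈ T, c x * β x n) δ e π χ =
      fun n => ∑ x ∈ T, c x * gC (β x) δ e π χ n := by
    funext n
    unfold gC
    split_ifs with h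
    · rw [Finset.sum_mul]
      exact Finset.sum_congr rfl fun x _ => by ring
    · simp
  rw [e1, CS_sum T c (fun x hx => gC_fin (hβ x hx).fin hδ e π χ)]

variable {ι : Type} [Fintype ι] [DecidableEq ι]

/-- **c-side moments of the subsequences of a flagged list** -/
theorem gC_nt {h : ℝ → ℝ} {R : ℝ} (hR : ∀ u, cx h u ≠ 0 → |u| ≤ R) {s : ι → Pc}
    (hs : ∀ i, (s i).OK) {z D0 : ℝ} (hD : 1 ≤ D0) (f : ι → Bool) (q : Eis) {δ e : Eis}
    (hδ : IsPrim δ) (he : IsPrim e) (π : Eis) {χ : Eis → ℂ} (hχ : MulCh χ)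
    {κ : Type*} (K : Finset κ) {W : κ → ℝ} (hW : ∀ k ∈ K, 0 ≤ W k) (fr : κ → Eis)
    {M : ℝ} (hM0 : 0 ≤ M)
    (hM : ∀ x ∈ Tn ι D0, ∑ k ∈ K, W k * ‖CS (gC (sqc (q * ∏ i, x i) (al h (shS s x)))
      (cB (∏ i, x i) δ) (cB (cg (∏ i, x i) δ) e) π χ) (fr k)‖ ^ 2 ≤ M) :
    ∑ k ∈ K, W k * ‖CS (gC (sqc q (alf z D0 h s f)) δ e π χ) (fr k)‖ ^ 2 ≤
      ((100 * D0) ^ Fintype.card ι) ^ 2 * M := by
  refine nt_qf (ι := ι) (Φ := fun α => ∑ k ∈ K, W k * ‖CS (gC α δ e π χ) (fr k)‖ ^ 2)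
    (QF_of_lin K hW (Λ := fun k α => CS (gC α δ e π χ) (fr k))
      fun k _ => Lin_gC hδ.ne_zero e π χ (fr k)) hR hs (z := z) hD f q hM0 ?_
  intro x hx
  have hp := ((mem_Tn (by linarith)).1 hx)
  have hg : IsPrim (∏ i, x i) := prim_prod fun i => (hp i).1
  have hγ : ∀ m, sqc (q * ∏ i, x i) (al h (shS s x)) m ≠ 0 → IsPrim m :=
    (HP842.FS.sqc (FS_cv fun i => FS_pc hR (sh_OK (hs i) (hp i).1)) _).prim
  refine le_trans (Finset.sum_le_sum fun k hk => ?_) (hM x hx)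
  refine mul_le_mul_of_nonneg_left ?_ (hW k hk)
  exact pow_le_pow_left₀ (norm_nonneg _) (norm_CS_gC_dil hg hδ he π hγ hχ _) 2

/-- **all subsequences of a flagged list**, weights on `(δ, e)` -/
theorem sum_gC_nt {h : ℝ → ℝ} {R : ℝ} (hR : ∀ u, cx h u ≠ 0 → |u| ≤ R) {s : ι → Pc}
    (hs : ∀ i, (s i).OK) {z D0 : ℝ} (hD : 1 ≤ D0) (f : ι → Bool) (q : Eis) (π : Eis)
    {χ : Eis → ℂ} (hχ : MulCh χ) {X Y : ℝ} (hX : 0 ≤ X) (hY : 0 ≤ Y) {w : Eis → Eis → ℝ}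
    (hw0 : ∀ a b, 0 ≤ w a b) {C : ℝ} (hC : 0 ≤ C)
    (hw : ∀ x ∈ Tn ι D0, ∀ δ e, IsPrim δ → IsPrim e →
      w δ e ≤ C * w (cB (∏ i, x i) δ) (cB (cg (∏ i, x i) δ) e))
    {κ : Type*} (K : Finset κ) {W : κ → ℝ} (hW : ∀ k ∈ K, 0 ≤ W k) (fr : κ → Eis)
    {M : ℝ} (hM0 : 0 ≤ M)
    (hM : ∀ x ∈ Tn ι D0, ∑ δ ∈ S X, ∑ e ∈ S Y, w δ e * ∑ k ∈ K, W k *
      ‖CS (gC (sqc (q * ∏ i, x i) (al h (shS s x))) δ e π χ) (fr k)‖ ^ 2 ≤ M) :
    ∑ δ ∈ S X, ∑ e ∈ S Y, w δ e * ∑ k ∈ K, W k *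
      ‖CS (gC (sqc q (alf z D0 h s f)) δ e π χ) (fr k)‖ ^ 2 ≤
      C * lossN (Fintype.card ι) D0 * M := by
  have hQ : QF (fun α => ∑ δ ∈ S X, ∑ e ∈ S Y, w δ e * ∑ k ∈ K, W k *
      ‖CS (gC α δ e π χ) (fr k)‖ ^ 2) := by
    have h1 : ∀ δ ∈ S X, QF (fun α => ∑ e ∈ S Y, w δ e * ∑ k ∈ K, W k *
        ‖CS (gC α δ e π χ) (fr k)‖ ^ 2) := fun δ hδ =>
      QF_sum (S Y) (W := fun e => w δ e) (fun e _ => hw0 _ _)
        (Φ := fun e α => ∑ k ∈ K, W k * ‖CS (gC α δ e π χ) (fr k)‖ ^ 2)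
        fun e _ => QF_of_lin K hW (Λ := fun k α => CS (gC α δ e π χ) (fr k))
          fun k _ => Lin_gC ((mem_S hX).1 hδ).2.1.ne_zero e π χ (fr k)
    have h2 := QF_sum (S X) (W := fun _ => 1) (fun _ _ => zero_le_one)
      (Φ := fun δ α => ∑ e ∈ S Y, w δ e * ∑ k ∈ K, W k * ‖CS (gC α δ e π χ) (fr k)‖ ^ 2) h1
    simpa only [one_mul] using h2
  have h3 := nt_qf (ι := ι) hQ hR hs (z := z) hD f q
    (M := C * (100 ^ 2 * (D0 ^ Fintype.card ι) ^ 4) * M) (by positivity) ?_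
  · refine h3.trans (le_of_eq ?_)
    unfold lossN
    ring
  · intro x hx
    have hp := ((mem_Tn (by linarith)).1 hx)
    have hg : IsPrim (∏ i, x i) := prim_prod fun i => (hp i).1
    have hγ : ∀ m, sqc (q * ∏ i, x i) (al h (shS s x)) m ≠ 0 → IsPrim m :=
      (HP842.FS.sqc (FS_cv fun i => FS_pc hR (sh_OK (hs i) (hp i).1)) _).prim
    refine (sum_gC_dil hg hγ hχ π hX hY hw0 hC (hw x hx) K hW fr).trans ?_
    have h4 : (tau (∏ i, x i) : ℝ) ^ 2 ≤ 100 ^ 2 * (D0 ^ Fintype.card ι) ^ 4 := by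
      refine le_trans ?_ (tau_nm_le hD hx)
      have h5 : (1 : ℝ) ≤ (nm (∏ i, x i) : ℝ) ^ 2 := by
        have : (1 : ℝ) ≤ nm (∏ i, x i) := by exact_mod_cast nm_pos.2 hg.ne_zero
        exact one_le_pow₀ this
      exact le_mul_of_one_le_right (by positivity) h5
    refine mul_le_mul (mul_le_mul_of_nonneg_left h4 hC) (hM x hx) ?_ (by positivity)
    exact Finset.sum_nonneg fun δ _ => Finset.sum_nonneg fun e _ => mul_nonneg (hw0 _ _)
      (Finset.sum_nonneg fun k hk => mul_nonneg (hW k hk) (by positivity))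

end Crest.Agent.R017.NtC320
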