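import Crest.Agent.R017.PB_791
import Crest.Agent.R017.RX5c_298
import Crest.Agent.R017.NtC4_320

/-!
# Row 17, exceptional class, T.7 (helper791): the bias bounds for the sequence `xs` of RX5c_298

* `Tw d s0 M ps` : the first two pieces are lumps (kind `mo`, shape `one`), all lengths at least `s0`
* `xs_eq`   : `xs q z D0 P h d (p1 :: p2 :: l) = xr z D0 P h q p1 p2 l d`
* `pb_xs`   : the bias of `xs`
* `cs_xs`   : principal values of `xs`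
* `gC_xs`   : principal values of the subsequences `gC (xs ..) δ e π (tw s t)`, `s ≤ 1`
-/

set_option autoImplicit false

noncomputable section

open Complex MeasureTheory Filter Topology
open scoped ContDiff

namespace Crest.Agent.R017.ExD791

open Crest.Agent.R012 Crest.Agent.R012.Eis Crest.Agent.R012.Po581 Crest.Agent.R012.Gauss880
open Crest.Agent.R012.Weight600 (osc norm_osc)
open Crest.Agent.R012.PSer47 Crest.Agent.R012.Div277 Crest.Agent.R012.Mob705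
open Crest.Agent.R017.End699 Crest.Agent.R017.FE47 Crest.Agent.R017.Two939
open Crest.Agent.R017.TXC791
open Crest.Agent.R017.CM106 (CS TG FS)
open Crest.Agent.R017.TP320 (conv tw norm_tw tw_mul)
open Crest.Agent.R017.HP842 (Th sqc FS_conv UT Pc uv pc norm_uv_le)
open Crest.Agent.R017.Sup271 (NPm)
open Crest.Agent.R017.B770
open Crest.Agent.R017.Prov71 (Pq Kd chK)
open Crest.Agent.R017.Leg381 (Pf alF LF fpc fw natw)
open Crest.Agent.R017.OKi848 (OKi ok_pc)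
open Crest.Agent.R017.E1551 (sg tws)
open Crest.Agent.R017.PX764 (md n6)
open Crest.Agent.R017.RX241 (Md)
open Crest.Agent.R017.RG64 (Ht)
open Crest.Agent.R017.RX298 (xs zt rp)
open Crest.Agent.R017.NtC320 (gC)

/-- the first two pieces are lumps of the Moebius kind, of lengths at least `s0` before and after
the replacement by `z1 + z2 - d`, `d` -/
def Tw (d s0 M : ℝ) : List Pf → Prop
  | p1 :: p2 :: _ => (p1.1.u = .one ∧ p2.1.u = .one) ∧ (p1.1.kd = .mo ∧ p2.1.kd = .mo) ∧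
      ((nm p1.1.d : ℝ) ≤ M ∧ (nm p2.1.d : ℝ) ≤ M) ∧ (s0 ≤ p1.1.z ∧ s0 ≤ p2.1.z) ∧
      s0 ≤ p1.1.z + p2.1.z - d ∧ s0 ≤ d
  | _ => False

lemma zt_eq (d : ℝ) (p1 p2 : Pf) (l : List Pf) : zt d (p1 :: p2 :: l) = zet p1 p2 d := by
  show osc (p2.1.t - p1.1.t) (p2.1.z - d) = zet p1 p2 d
  unfold zet Weight600.osc
  rw [← Complex.exp_add]
  congr 1
  push_cast
  ring

lemma xs_eq (q : Eis) (z D0 : ℝ) (P : DPar) (h : ℝ → ℝ) (d : ℝ) (p1 p2 : Pf) (l : List Pf) :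
    xs q z D0 P h d (p1 :: p2 :: l) = xr z D0 P h q p1 p2 l d := by
  funext n
  unfold RX298.xs xr
  rw [zt_eq]
  rfl

lemma LF_le_tail {p1 p2 : Pf} {l : List Pf} (h1 : 0 ≤ p1.1.z) (h2 : 0 ≤ p2.1.z) :
    LF l ≤ LF (p1 :: p2 :: l) := by
  rw [LF_cons, LF_cons]
  linarith

lemma LF_nonneg {l : List Pf} (h : ∀ p ∈ l, 0 ≤ p.1.z) : 0 ≤ LF l := by
  unfold Leg381.LF
  refine List.sum_nonneg ?_
  intro x hx
  obtain ⟨p, hp, rfl⟩ := List.mem_map.1 hx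
  exact h p hp

/-- **(PB) for `xs`** -/
theorem pb_xs {h : ℝ → ℝ} {c : ℝ} (hpu : PU h c) (N : ℕ) {B : ℝ} (hB : 0 ≤ B) {ε : ℝ}
    (hε : 0 < ε) :
    ∃ C : ℝ, 1 ≤ C ∧ ∀ X : ℝ, 3 ≤ X → ∀ P : DPar, OKi P → HC P.n P.ψ → (nm P.n : ℝ) ≤ X ^ B →
      ¬ NPm P.n P.ψ P.l₂ 1 → ∀ z D0 : ℝ, 1 ≤ D0 →
      ∀ (ps : List Pf) (d s0 : ℝ), Tw d s0 (X ^ B) ps → ps.length ≤ N → (∀ p ∈ ps, 0 ≤ p.1.z) →
      LF ps ≤ B * Real.log X → ∀ j : Eis, j ≠ 0 → (nm j : ℝ) ≤ X ^ B →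
      ∀ (q g : Eis), q ≠ 0 → (nm q : ℝ) ≤ X ^ B → IsPrim g → (nm g : ℝ) ≤ X ^ B → ∀ t : ℝ,
      ‖Md (tws (sg (xs q z D0 P h d ps) g) t) j‖ ^ 2 ≤
        (C * X ^ ε * D0 ^ 4 * Ht ps ^ 6 * Real.exp (5 / 3 * LF ps)) *
          (nm g : ℝ) ^ (-(5 / 3) : ℝ) * min 1 ((nm g : ℝ) * Real.exp (-s0)) * (1 + |t|) ^ 12 := by
  obtain ⟨C, hC, hb⟩ := pb_ex hpu N hB hε
  refine ⟨C, hC, ?_⟩
  intro X hX P hP hψ hPn hnp z D0 hD0 ps d s0 hT hlen hz hL j hj hjX q g hq hqX hg hgX t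
  match ps, hT with
  | p1 :: p2 :: l, hT =>
    obtain ⟨⟨hu1, hu2⟩, ⟨hk1, hk2⟩, ⟨hd1, hd2⟩, ⟨hy1, hy2⟩, hy3, hy4⟩ := hT
    have hz1 : 0 ≤ p1.1.z := hz p1 (by simp)
    have hz2 : 0 ≤ p2.1.z := hz p2 (by simp)
    have hl0 : 0 ≤ LF l := LF_nonneg fun p hp => hz p (by simp [hp])
    have hs0 : s0 ≤ B * Real.log X := by
      rw [LF_cons, LF_cons] at hL
      linarith
    rw [xs_eq]
    exact hb X hX P hP hψ hPn hnp z D0 hD0 p1 p2 l hu1 hu2 hk1 hk2 hd1 hd2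
      ((by simp only [List.length_cons]; omega : l.length ≤ (p1 :: p2 :: l).length).trans hlen) ((LF_le_tail hz1 hz2).trans hL) j
      hj hjX d s0 hy1 hy2 hy3 hy4 hs0 q g hq hqX hg hgX t

/-- principal values of `xs` -/
theorem cs_xs {h : ℝ → ℝ} {c : ℝ} (hpu : PU h c) (N : ℕ) {B : ℝ} (hB : 0 ≤ B) {ε : ℝ}
    (hε : 0 < ε) :
    ∃ C : ℝ, 1 ≤ C ∧ ∀ X : ℝ, 3 ≤ X → ∀ P : DPar, OKi P → HC P.n P.ψ → (nm P.n : ℝ) ≤ X ^ B →
      ∀ z D0 : ℝ, 1 ≤ D0 →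
      ∀ (ps : List Pf) (d s0 : ℝ), Tw d s0 (X ^ B) ps → ps.length ≤ N → (∀ p ∈ ps, 0 ≤ p.1.z) →
      LF ps ≤ B * Real.log X → ∀ k : Eis, k ≠ 0 → (nm k : ℝ) ≤ X ^ B → ¬ NPm P.n P.ψ P.l₂ k →
      ∀ (q g : Eis), q ≠ 0 → (nm q : ℝ) ≤ X ^ B → IsPrim g → (nm g : ℝ) ≤ X ^ B → ∀ t : ℝ,
      ‖CS (tws (sg (xs q z D0 P h d ps) g) t) k‖ ≤
        (C * X ^ ε * D0 ^ 2 * Ht ps ^ 3 * Real.exp (LF ps)) *
          (nm g : ℝ)⁻¹ * Mg s0 g * (1 + |t|) ^ 6 := by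
  obtain ⟨C, hC, hb⟩ := cs_ex hpu N hB hε
  refine ⟨C, hC, ?_⟩
  intro X hX P hP hψ hPn z D0 hD0 ps d s0 hT hlen hz hL k hk hkX hnp q g hq hqX hg hgX t
  match ps, hT with
  | p1 :: p2 :: l, hT =>
    obtain ⟨⟨hu1, hu2⟩, ⟨hk1, hk2⟩, ⟨hd1, hd2⟩, ⟨hy1, hy2⟩, hy3, hy4⟩ := hT
    have hz1 : 0 ≤ p1.1.z := hz p1 (by simp)
    have hz2 : 0 ≤ p2.1.z := hz p2 (by simp)
    have hl0 : 0 ≤ LF l := LF_nonneg fun p hp => hz p (by simp [hp])
    have hs0 : s0 ≤ B * Real.log X := by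
      rw [LF_cons, LF_cons] at hL
      linarith
    rw [xs_eq]
    exact hb X hX P hP hψ hPn z D0 hD0 p1 p2 l hu1 hu2 hk1 hk2 hd1 hd2
      ((by simp only [List.length_cons]; omega : l.length ≤ (p1 :: p2 :: l).length).trans hlen) ((LF_le_tail hz1 hz2).trans hL) k
      hk hkX hnp d s0 hy1 hy2 hy3 hy4 hs0 q g hq hqX hg hgX t

/-! ### weights `nm(n)^{-s}` and a coprimality condition -/

lemma tw_eq (σ t : ℝ) {n : Eis} (hn : n ≠ 0) : tw σ t n = osc t (Real.log (nm n)) * ps σ n := by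
  have hn0 : (0 : ℝ) < nm n := by exact_mod_cast nm_pos.2 hn
  have hc : ((nm n : ℕ) : ℂ) ≠ 0 := by exact_mod_cast (nm_pos.2 hn).ne'
  unfold TP320.tw ps Weight600.osc
  rw [Complex.cpow_add _ _ hc]
  have e1 : ((nm n : ℕ) : ℂ) ^ (-(σ : ℂ)) = (((nm n : ℝ) ^ (-σ) : ℝ) : ℂ) := by
    rw [Complex.ofReal_cpow hn0.le]
    push_cast
    rfl
  have e2 : ((nm n : ℕ) : ℂ) ^ ((t : ℂ) * I) =
      Complex.exp (((t * Real.log (nm n) : ℝ) : ℂ) * I) := by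
    rw [Complex.cpow_def_of_ne_zero hc]
    have : Complex.log ((nm n : ℕ) : ℂ) = ((Real.log (nm n) : ℝ) : ℂ) := by
      rw [Complex.ofReal_log hn0.le]
      push_cast
      rfl
    rw [this]
    congr 1
    push_cast
    ring
  rw [e1, e2, mul_comm]

/-- principal values, weights `nm(n)^{-σ + it}` -/
theorem exd_CSs {h : ℝ → ℝ} {c : ℝ} (hpu : PU h c) (N : ℕ) {σ : ℝ} (hσ : σ ≤ 1) {B : ℝ}
    (hB : 0 ≤ B) {ε : ℝ} (hε : 0 < ε) :
    ∃ C : ℝ, 1 ≤ C ∧ ∀ X : ℝ, 3 ≤ X → ∀ P : DPar, OKi P → HC P.n P.ψ → (nm P.n : ℝ) ≤ X ^ B →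
      ∀ z D0 : ℝ, 1 ≤ D0 →
      ∀ (p1 p2 : Pf) (l : List Pf), p1.1.u = .one → p2.1.u = .one → p1.1.kd = .mo →
      p2.1.kd = .mo → (nm p1.1.d : ℝ) ≤ X ^ B → (nm p2.1.d : ℝ) ≤ X ^ B → l.length ≤ N →
      LF l ≤ B * Real.log X → ∀ k : Eis, k ≠ 0 → (nm k : ℝ) ≤ X ^ B → ¬ NPm P.n P.ψ P.l₂ k →
      ∀ δ d0 : ℝ, d0 ≤ p1.1.z → d0 ≤ p2.1.z → d0 ≤ p1.1.z + δ → d0 ≤ p2.1.z - δ →
      d0 ≤ B * Real.log X → ∀ (q g : Eis), q ≠ 0 → (nm q : ℝ) ≤ X ^ B → IsPrim g →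
      (nm g : ℝ) ≤ X ^ B → ∀ t : ℝ,
      ‖∑' n : Eis, sqc q (xL z D0 P h p1 p2 l δ) (g * n) *
          (osc t (Real.log (nm n)) * (ps σ n * sy k n))‖ ≤
        C * X ^ ε * D0 ^ 2 * ((1 + |p1.1.t + t|) * (1 + |p2.1.t + t|)) ^ 3 *
          ((Real.exp (LF (p1 :: p2 :: l)) / nm g) ^ (1 - σ) * Mg d0 g) := by
  obtain ⟨C, hC, hb⟩ := exd_list hpu N (σ := σ) hσ (B := 3 * B + 4) (by linarith) hε
  refine ⟨C, hC, ?_⟩
  intro X hX P hP hψ hPn z D0 hD0 p1 p2 l hu1 hu2 hk1 hk2 hd1 hd2 hlen hLl k hk hkX hnp δ d0 hy1 hy2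
    hy3 hy4 hd0 q g hq hqX hg hgX t
  have hX0 : 0 < X := by linarith
  have hX1 : 1 ≤ X := by linarith
  have hlX : 0 ≤ Real.log X := Real.log_nonneg hX1
  have up : X ^ B ≤ X ^ (3 * B + 4) := Real.rpow_le_rpow_of_exponent_le hX1 (by linarith)
  have hρ : ∀ d : Eis, (nm d : ℝ) ≤ X ^ B → (nm (P.n * (9 * k) * d) : ℝ) ≤ X ^ (3 * B + 4) := by
    intro d hd
    have hn9 : nm (9 : Eis) = 81 := by decide
    rw [nm_mul, nm_mul, nm_mul, hn9]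
    push_cast
    calc (nm P.n : ℝ) * (81 * nm k) * nm d ≤ X ^ B * (81 * X ^ B) * X ^ B := by gcongr
      _ = 81 * X ^ (3 * B) := by
          have : X ^ (3 * B) = X ^ B * X ^ B * X ^ B := by
            rw [← Real.rpow_add hX0, ← Real.rpow_add hX0]; congr 1; ring
          rw [this]; ring
      _ ≤ _ := rpow_five hX
  have hρ0 : ∀ d : Eis, d ≠ 0 → P.n * (9 * k) * d ≠ 0 := fun d hd =>
    mul_ne_zero (mul_ne_zero hψ.q0 (mul_ne_zero nine_ne hk)) hd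
  have hprin : ∀ p : Pf, p.1.kd = .mo → ∀ b, IsPrim b →
      (chK P p.1.kd b * prin0 p.1.d b) * sy k b = prin0 (P.n * (9 * k) * p.1.d) b := by
    intro p hp b hb'
    rw [hp]
    exact prin_hyp hψ hk hnp p.1.d hb'
  exact hb X hX P hP z D0 hD0 p1 p2 l hu1 hu2 hlen
    (hLl.trans (mul_le_mul_of_nonneg_right (by linarith) hlX)) (sy k) (Char766.isChar_sy k)
    _ _ (hρ0 _ p1.1.d0) (hρ0 _ p2.1.d0) (hρ _ hd1) (hρ _ hd2) (hprin p1 hk1) (hprin p2 hk2) δ d0 hy1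
    hy2 hy3 hy4 (hd0.trans (mul_le_mul_of_nonneg_right (by linarith) hlX)) q g hq (hqX.trans up) hg
    (hgX.trans up) t

/-- the part of `π` prime to `g` -/
lemma cop_part {π g : Eis} (hπ : π ≠ 0) : ∃ π', π' ∣ π ∧ π' ≠ 0 ∧ IsCoprime g π' ∧
    ∀ m, IsCoprime m g → (IsCoprime m π ↔ IsCoprime m π') := by
  classical
  have hfin : ({n : ℕ | ∃ d : Eis, d ∣ π ∧ IsCoprime g d ∧ nm d = n}).Finite := by
    refine (Set.finite_Iic (nm π)).subset ?_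
    rintro n ⟨d, hd, -, rfl⟩
    exact nm_le_of_dvd hπ hd
  have hne : ({n : ℕ | ∃ d : Eis, d ∣ π ∧ IsCoprime g d ∧ nm d = n}).Nonempty :=
    ⟨nm 1, 1, one_dvd _, isCoprime_one_right, rfl⟩
  obtain ⟨n, ⟨π', h1, h2, rfl⟩, hmax⟩ := hfin.exists_maximal hne
  have h0 : π' ≠ 0 := fun h => hπ (by rw [h] at h1; exact zero_dvd_iff.1 h1)
  refine ⟨π', h1, h0, h2, fun m hm => ⟨fun h => h.of_isCoprime_of_dvd_right h1, fun h => ?_⟩⟩
  refine isCoprime_of_prime_dvd (fun h' => hπ h'.2) fun p hp hpm hpπ => ?_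
  have hpg : IsCoprime p g := hm.of_isCoprime_of_dvd_left hpm
  by_cases hpp : p ∣ π'
  · exact hp.not_unit ((h.of_isCoprime_of_dvd_left hpm).isUnit_of_dvd' dvd_rfl hpp)
  · have hc : IsCoprime p π' := (Irreducible.coprime_iff_not_dvd hp.irreducible).2 hpp
    have hd : p * π' ∣ π := hc.mul_dvd hpπ h1
    have hle := hmax ⟨p * π', hd, hpg.symm.mul_right h2, rfl⟩
      (by
        rw [nm_mul]
        exact Nat.le_mul_of_pos_left _ (nm_pos.2 hp.ne_zero))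
    rw [nm_mul] at hle
    have hp2 : 2 ≤ nm p := by
      by_contra hlt
      have : nm p = 1 := by
        have := nm_pos.2 hp.ne_zero
        omega
      exact hp.not_unit (isUnit_iff.mpr this)
    have := nm_pos.2 h0
    nlinarith

/-- the subsequence of `sqc q x` -/
lemma gC_sqc {q δ e π π' k : Eis} {σ t : ℝ} {x : Eis → ℂ} (hx : ∀ n, x n ≠ 0 → IsPrim n)
    (he : IsPrim e) (hδ : IsPrim δ) (hgπ : IsCoprime (δ * e) π')
    (hππ : ∀ m, IsCoprime m (δ * e) → (IsCoprime m π ↔ IsCoprime m π')) (heπ : IsCoprime e π)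
    (hk : IsChar (sy k)) :
    CS (gC (sqc q x) δ e π (tw σ t)) k = tw σ t e * sy k e *
      ∑' n : Eis, sqc (q * π') x (δ * e * n) * (osc t (Real.log (nm n)) * (ps σ n * sy k n)) := by
  classical
  have he0 := he.ne_zero
  unfold CM106.CS
  have hinj : Function.Injective fun n : Eis => e * n := mul_right_injective₀ he0
  have hsup : Function.support (fun m => gC (sqc q x) δ e π (tw σ t) m * sy k m) ⊆
      Set.range fun n : Eis => e * n := by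
    intro m hm
    have h1 : gC (sqc q x) δ e π (tw σ t) m ≠ 0 := fun h => hm (by simp [h])
    obtain ⟨⟨⟨n, rfl⟩, -⟩, -⟩ := NtC320.gC_ne h1
    exact ⟨n, rfl⟩
  rw [← hinj.tsum_eq hsup, ← tsum_mul_left]
  refine tsum_congr fun n => ?_
  unfold NtC320.gC HP842.sqc
  by_cases hT : Th q (δ * (e * n)) = 0
  · have hT' : Th (q * π') (δ * e * n) = 0 := by
      by_contra h
      obtain ⟨h1, h2⟩ := Th_ne h
      have : Squarefree (δ * (e * n)) ∧ IsCoprime (δ * (e * n)) q := by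
        rw [← mul_assoc]
        exact ⟨h1, h2.of_mul_right_left⟩
      unfold HP842.Th at hT
      rw [if_pos this] at hT
      exact one_ne_zero hT
    rw [hT, hT']
    simp
  · obtain ⟨h1, h2⟩ := Th_ne hT
    rw [← mul_assoc] at h1 h2
    have h3 : IsCoprime n (δ * e) := ((squarefree_mul_iff.1 h1).1.isCoprime).symm
    have hn0 : n ≠ 0 := by
      rintro rfl
      rw [mul_zero] at h1
      exact not_squarefree_zero h1
    by_cases hc : IsCoprime n π'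
    · have hc' : IsCoprime n π := (hππ n h3).2 hc
      have hT' : Th (q * π') (δ * e * n) = 1 := by
        unfold HP842.Th
        rw [if_pos ⟨h1, h2.mul_right (hgπ.mul_left hc)⟩]
      have hT1 : Th q (δ * (e * n)) = 1 := by
        rw [← mul_assoc]
        unfold HP842.Th
        rw [if_pos ⟨h1, h2⟩]
      rw [if_pos ⟨dvd_mul_right e n, heπ.mul_left hc'⟩, hT', hT1, tw_mul, tw_eq σ t hn0]
      by_cases hx0 : x (δ * e * n) = 0
      · have hx1 : x (δ * (e * n)) = 0 := by rw [← mul_assoc]; exact hx0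
        rw [hx0, hx1]; ring
      · have hpn : IsPrim n := (hx _ hx0).of_mul_left (hδ.mul he)
        rw [hk.mul e n he hpn, mul_assoc δ e n]
        ring
    · have hc' : ¬ IsCoprime (e * n) π := fun h => hc ((hππ n h3).1 h.of_mul_left_right)
      have hT' : Th (q * π') (δ * e * n) = 0 := by
        unfold HP842.Th
        rw [if_neg]
        rintro ⟨-, h⟩
        exact hc (h.of_mul_left_right.of_mul_right_right)
      rw [if_neg fun h => hc' h.2, hT']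
      simp

lemma gC_eq_zero {α : Eis → ℂ} {δ e π k : Eis} {χ : Eis → ℂ} (h : ¬ IsCoprime e π) :
    CS (gC α δ e π χ) k = 0 := by
  unfold CM106.CS
  have : ∀ m : Eis, gC α δ e π χ m * sy k m = 0 := by
    intro m
    unfold NtC320.gC
    rw [if_neg, zero_mul]
    rintro ⟨h1, h2⟩
    exact h (h2.of_isCoprime_of_dvd_left h1)
  rw [tsum_congr this, tsum_zero]

lemma xL_prim {h : ℝ → ℝ} {R : ℝ} (hR : ∀ u, cx h u ≠ 0 → |u| ≤ R) {P : DPar} (hP : OKi P)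
    (z D0 : ℝ) (p1 p2 : Pf) (l : List Pf) (δ : ℝ) {n : Eis} (hn : xL z D0 P h p1 p2 l δ n ≠ 0) :
    IsPrim n := by
  unfold xL at hn
  by_cases h1 : alF z D0 P h (p1 :: p2 :: l) n = 0
  · refine (FS_alFi hR hP z D0 (shz δ p1 :: shz (-δ) p2 :: l)).prim n fun h2 => hn ?_
    rw [h1, h2]; ring
  · exact (FS_alFi hR hP z D0 _).prim n h1

/-- **principal values of the subsequences of `xs`** -/
theorem gC_xs {h : ℝ → ℝ} {c : ℝ} (hpu : PU h c) (N : ℕ) {σ : ℝ} (hσ : σ ≤ 1) {B : ℝ}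
    (hB : 0 ≤ B) {ε : ℝ} (hε : 0 < ε) :
    ∃ C : ℝ, 1 ≤ C ∧ ∀ X : ℝ, 3 ≤ X → ∀ P : DPar, OKi P → HC P.n P.ψ → (nm P.n : ℝ) ≤ X ^ B →
      ∀ z D0 : ℝ, 1 ≤ D0 →
      ∀ (ps : List Pf) (d s0 : ℝ), Tw d s0 (X ^ B) ps → ps.length ≤ N → (∀ p ∈ ps, 0 ≤ p.1.z) →
      LF ps ≤ B * Real.log X → ∀ k : Eis, k ≠ 0 → (nm k : ℝ) ≤ X ^ B → ¬ NPm P.n P.ψ P.l₂ k →
      ∀ (q δ e π : Eis), q ≠ 0 → (nm q : ℝ) ≤ X ^ B → IsPrim δ → (nm δ : ℝ) ≤ X ^ B →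
      IsPrim e → (nm e : ℝ) ≤ X ^ B → π ≠ 0 → (nm π : ℝ) ≤ X ^ B → ∀ t : ℝ,
      (nm e : ℝ) ^ σ * ‖CS (gC (xs q z D0 P h d ps) δ e π (tw σ t)) k‖ ≤
        (C * X ^ ε * D0 ^ 2 * Ht ps ^ 3) * (Real.exp (LF ps) / nm (δ * e)) ^ (1 - σ) *
          Mg s0 (δ * e) * (1 + |t|) ^ 6 := by
  obtain ⟨C, hC, hb⟩ := exd_CSs hpu N hσ (B := 2 * B) (by linarith) hε
  refine ⟨C, hC, ?_⟩
  intro X hX P hP hψ hPn z D0 hD0 ps d s0 hT hlen hz hL k hk hkX hnp q δ e π hq hqX hδ hδX he heX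
    hπ hπX t
  have hX0 : 0 < X := by linarith
  have hX1 : 1 ≤ X := by linarith
  have hlX : 0 ≤ Real.log X := Real.log_nonneg hX1
  have up : X ^ B ≤ X ^ (2 * B) := Real.rpow_le_rpow_of_exponent_le hX1 (by linarith)
  have up2 : X ^ (2 * B) = X ^ B * X ^ B := by rw [← Real.rpow_add hX0]; congr 1; ring
  have hne : (0 : ℝ) < nm e := by exact_mod_cast nm_pos.2 he.ne_zero
  have hMg0 : 0 ≤ Mg s0 (δ * e) := by unfold Mg; positivity
  have hHt1 := RG64.one_le_Ht ps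
  by_cases heπ : IsCoprime e π
  swap
  · rw [gC_eq_zero heπ, norm_zero, mul_zero]
    positivity
  match ps, hT with
  | p1 :: p2 :: l, hT =>
    obtain ⟨⟨hu1, hu2⟩, ⟨hk1, hk2⟩, ⟨hd1, hd2⟩, ⟨hy1, hy2⟩, hy3, hy4⟩ := hT
    have hz1 : 0 ≤ p1.1.z := hz p1 (by simp)
    have hz2 : 0 ≤ p2.1.z := hz p2 (by simp)
    have hl0 : 0 ≤ LF l := LF_nonneg fun p hp => hz p (by simp [hp])
    have hlog : B * Real.log X ≤ 2 * B * Real.log X :=
      mul_le_mul_of_nonneg_right (by linarith) hlX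
    have hs0 : s0 ≤ 2 * B * Real.log X := by
      rw [LF_cons, LF_cons] at hL
      linarith
    obtain ⟨π', hπd, hπ0, hgπ, hππ⟩ := cop_part (g := δ * e) hπ
    have hπX' : (nm π' : ℝ) ≤ X ^ B :=
      le_trans (by exact_mod_cast nm_le_of_dvd hπ hπd) hπX
    have hqπ : (nm (q * π') : ℝ) ≤ X ^ (2 * B) := by
      rw [nm_mul, up2]; push_cast; gcongr
    have hδe : (nm (δ * e) : ℝ) ≤ X ^ (2 * B) := by
      rw [nm_mul, up2]; push_cast; gcongr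
    have main := hb X hX P hP hψ (hPn.trans up) z D0 hD0 p1 p2 l hu1 hu2 hk1 hk2 (hd1.trans up)
      (hd2.trans up) ((by simp only [List.length_cons]; omega : l.length ≤ (p1 :: p2 :: l).length).trans hlen)
      (((LF_le_tail hz1 hz2).trans hL).trans hlog) k hk (hkX.trans up) hnp
      (p2.1.z - d) s0 hy1 hy2 (by linarith) (by linarith) hs0 (q * π') (δ * e)
      (mul_ne_zero hq hπ0) hqπ (hδ.mul he) hδe t
    obtain ⟨R, hR0, hR⟩ := exists_R (cs_cx hpu.cs)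
    have hgc := gC_sqc (q := q) (k := k) (σ := σ) (t := t) (x := xL z D0 P h p1 p2 l (p2.1.z - d))
      (fun n hn => xL_prim hR hP z D0 p1 p2 l _ hn) he hδ hgπ hππ heπ (Char766.isChar_sy k)
    rw [xs_eq, xr_eq, hgc, norm_mul, norm_mul, norm_tw σ t he]
    have hsy : ‖sy k e‖ ≤ 1 := (Char766.isChar_sy k).norm_le he
    have hee : (nm e : ℝ) ^ σ * (nm e : ℝ) ^ (-σ) = 1 := by
      rw [← Real.rpow_add hne, add_neg_cancel, Real.rpow_zero]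
    have hHt := two_le_Ht p1 p2 l
    have hTT : ((1 + |p1.1.t + t|) * (1 + |p2.1.t + t|)) ^ 3 ≤
        Ht (p1 :: p2 :: l) ^ 3 * (1 + |t|) ^ 6 := by
      calc ((1 + |p1.1.t + t|) * (1 + |p2.1.t + t|)) ^ 3
          ≤ (((1 + |p1.1.t|) * (1 + |p2.1.t|)) * (1 + |t|) ^ 2) ^ 3 :=
            pow_le_pow_left₀ (by positivity) (ht_le _ _ _) 3
        _ ≤ (Ht (p1 :: p2 :: l) * (1 + |t|) ^ 2) ^ 3 := by gcongr
        _ = _ := by ring
    set S : ℝ := ‖∑' n : Eis, sqc (q * π') (xL z D0 P h p1 p2 l (p2.1.z - d)) (δ * e * n) *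
      (osc t (Real.log (nm n)) * (ExD791.ps σ n * sy k n))‖ with hS
    have hS0 : 0 ≤ S := norm_nonneg _
    calc (nm e : ℝ) ^ σ * ((nm e : ℝ) ^ (-σ) * ‖sy k e‖ * S)
        = ((nm e : ℝ) ^ σ * (nm e : ℝ) ^ (-σ)) * (‖sy k e‖ * S) := by ring
      _ ≤ 1 * (1 * S) := by rw [hee]; gcongr
      _ = S := by ring
      _ ≤ _ := main
      _ ≤ C * X ^ ε * D0 ^ 2 * (Ht (p1 :: p2 :: l) ^ 3 * (1 + |t|) ^ 6) *
          ((Real.exp (LF (p1 :: p2 :: l)) / nm (δ * e)) ^ (1 - σ) * Mg s0 (δ * e)) := by gcongr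
      _ = _ := by ring

end Crest.Agent.R017.ExD791
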