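import Crest.Agent.R017.GE4_241

/-!
# Row 17, exceptional class: the rule (P'_ex) for closed families (helper241)
-/

set_option autoImplicit false

noncomputable section

open MeasureTheory Finset
open scoped ComplexConjugate

namespace Crest.Agent.R017.GE241

open Crest.Agent.R012
open Eis CharSum852 Gauss880 Tau671 Mob705 LS2 CR2 DualIneq811 MelSep811
open Crest.Agent.R017.PA842 (V Supp V_nonneg summable_V Lde_nonneg)
open Crest.Agent.R017.PM106 Crest.Agent.R017.PG106 Crest.Agent.R017.PI106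
open Crest.Agent.R017.CM106 (CS TG FS)
open Crest.Agent.R017.TP320 (VC VG Fam SplitAt tw sq)
open Crest.Agent.R017.GR106
open Crest.Agent.R017.PX764 (VR Rf Dk)
open Crest.Agent.R017.PX6 (DDT KKT DICt dsT iterExG)
open Crest.Agent.R017.PX5 (fq2)
open Div277 (tau dvs mem_dvs tau_le_rpow)

/-- **(P'_ex) for closed families** -/
theorem GE_rule {J : Type} {Φ : Fam J} {R A : ℝ} (hΦ : Φ.Ok R A) {ε ε' : ℝ} (hε : 0 < ε)
    (hε0 : 0 < ε') (hεε : ε' ≤ ε / 40) (hε1 : ε' ≤ 1 / 40) :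
    ∃ C : ℝ, 1 ≤ C ∧ ∀ X0 L a : ℝ, 1 ≤ X0 → 1 ≤ L → L ≤ X0 → 0 ≤ a →
      ∀ j : J, Real.exp (Φ.len j) ≤ X0 → ∀ q : Eis, IsPrim q →
      (∀ j' q', Φ.good j' → Φ.dom R j' j → Φ.len j' ≤ Φ.len j + R → IsPrim q' → q ∣ q' →
        (nm q' : ℝ) ≤ nm q * (C * X0) →
        VCN (C * X0 ^ ε * Real.exp (Φ.len j) ^ 2 / L) (TP320.sq q' (Φ.w j')) ≤
          a / L * Real.exp (Φ.len j + Φ.len j') * Φ.ht j' ^ 2) →
      VR (Real.exp (Φ.len j + R)) L (TP320.sq q (Φ.w j)) ≤ C * X0 ^ ε *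
        ((Real.exp (Φ.len j) + L + a) * Real.exp (Φ.len j) * Φ.ht j ^ 2 +
          KCr (Real.exp (Φ.len j + R)) L (Real.exp (Φ.len j + R) ^ ε')
            (TP320.sq q (Φ.w j))) := by
  have hR := hΦ.R0
  have hA := hΦ.A0
  set M : ℕ := ⌈A⌉₊ + 1 with hM
  have hMA : A + 1 ≤ M := by rw [hM]; push_cast; linarith [Nat.le_ceil A]
  have hM1 : 1 ≤ M := by omega
  obtain ⟨C1, hC1, hit⟩ := iterExG (σ := ε') hε0 (by linarith) hε0 hM1
  obtain ⟨C2, hC2, hbd⟩ := hΦ.bd ε' hε0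
  obtain ⟨C3, hC3, hsp⟩ := hΦ.split ε' (1 / 2 - ε') hε0
  obtain ⟨C4, hC4, htau⟩ := tau_le_rpow hε0
  set C5 : ℝ := 100 * (1 + 1 / ε') with hC5
  set C6 : ℝ := 1 + 1 / ε' with hC6
  set κ : ℝ := Real.exp R with hκ
  have hκ1 : 1 ≤ κ := Real.one_le_exp hR
  have hC50 : 0 ≤ C5 := by positivity
  have hC60 : 0 ≤ C6 := by positivity
  set P : ℝ := (2 : ℝ) ^ A * Real.pi with hP
  have hP0 : 0 ≤ P := by have := Real.pi_pos; positivity
  set Ct : ℝ := C1 * κ ^ 22 * (1 + 16 * C2 ^ 2 + 256 * P * (512 * C2 ^ 2 * C5 ^ 3 +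
      18 * C6 * C3 ^ 2 * C5 * C4)) with hCt
  set C : ℝ := 18 * κ ^ 6 + Ct with hC
  have hCt0 : 0 ≤ Ct := by positivity
  have hκ6 : 1 ≤ κ ^ 6 := one_le_pow₀ hκ1
  have hC1' : 1 ≤ C := by linarith
  refine ⟨C, hC1', fun X0 L a hX0 hL hLX ha j hj q hq HV => ?_⟩
  have hC0 : 0 ≤ C := by linarith
  have hX0p : 0 < X0 := by linarith
  have hLp : 0 < L := by linarith
  set E := Real.exp (Φ.len j) with hE
  have hEp : 0 < E := Real.exp_pos _
  set X := Real.exp (Φ.len j + R) with hX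
  have hXE : X = κ * E := by rw [hX, hκ, hE, ← Real.exp_add]; congr 1; ring
  have hht := hΦ.ht1 j
  have hRHS : 0 ≤ C * X0 ^ ε * ((E + L + a) * E * Φ.ht j ^ 2 + KCr X L (X ^ ε')
      (TP320.sq q (Φ.w j))) := by
    have := KCr_nonneg X L (X ^ ε') (TP320.sq q (Φ.w j))
    positivity
  have hwX : ∀ n, Φ.w j n ≠ 0 → (nm n : ℝ) ≤ X := by
    intro n hn
    have h1 := (abs_le.1 (hΦ.supp j n hn)).2
    have hn0 : (0 : ℝ) < nm n := by exact_mod_cast nm_pos.2 (hΦ.prim j n hn).ne_zero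
    rw [hX, ← Real.log_le_iff_le_exp hn0]
    linarith
  by_cases hX1 : 1 ≤ X
  swap
  · -- empty
    have h0 : TP320.sq q (Φ.w j) = fun _ => 0 := by
      funext n
      unfold TP320.sq
      split_ifs with h
      · by_contra h0
        have h1 := hwX n h0
        have h2 : (1 : ℝ) ≤ nm n := by exact_mod_cast nm_pos.2 h.1.ne_zero
        exact hX1 (h2.trans h1)
      · rfl
    have h1 : VR X L (TP320.sq q (Φ.w j)) = 0 := by
      rw [h0]
      unfold PX764.VR PX764.Rf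
      simp
    rw [h1]
    exact hRHS
  have hXX0 : X ≤ κ * X0 := by rw [hXE]; exact mul_le_mul_of_nonneg_left hj (by linarith)
  have hXp : 0 < X := by linarith
  set α := TP320.sq q (Φ.w j) with hα
  have hsupp : Supp α X := by
    intro n hn
    rw [mem_S hXp.le]
    rw [hα] at hn
    unfold TP320.sq at hn
    split_ifs at hn with h
    · exact ⟨hwX n hn, h.1, h.2.1⟩
    · exact absurd rfl hn
  set u := X0 ^ ε' with hu
  set v := X ^ ε' with hv
  set z := X0 ^ (3 * ε / 40) with hz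
  have hu1 : 1 ≤ u := Real.one_le_rpow hX0 hε0.le
  have hv1 : 1 ≤ v := Real.one_le_rpow hX1 hε0.le
  have hz1 : 1 ≤ z := Real.one_le_rpow hX0 (by positivity)
  have hκe : κ ^ ε' ≤ κ := by
    calc κ ^ ε' ≤ κ ^ (1 : ℝ) := Real.rpow_le_rpow_of_exponent_le hκ1 (by linarith)
      _ = κ := Real.rpow_one _
  have hvκ : v ≤ κ * u := by
    calc v ≤ (κ * X0) ^ ε' := Real.rpow_le_rpow hXp.le hXX0 hε0.le
      _ = κ ^ ε' * u := Real.mul_rpow (by linarith) hX0p.le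
      _ ≤ κ * u := mul_le_mul_of_nonneg_right hκe (by linarith)
  have hLu : L ^ ε' ≤ u := Real.rpow_le_rpow hLp.le hLX hε0.le
  have hXL : (X * L) ^ ε' ≤ κ * u ^ 2 := by
    rw [Real.mul_rpow hXp.le hLp.le]
    calc X ^ ε' * L ^ ε' ≤ (κ * u) * u := mul_le_mul hvκ hLu (by positivity) (by positivity)
      _ = _ := by ring
  have hα_bd : ∀ n, IsPrim n → ‖α n‖ ≤ C2 * v := by
    intro n hn
    rw [hα]
    unfold TP320.sq
    split_ifs with h
    · by_cases h0 : Φ.w j n = 0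
      · rw [h0, norm_zero]; positivity
      · refine (hbd j n).trans ?_
        refine mul_le_mul_of_nonneg_left ?_ (by linarith)
        exact Real.rpow_le_rpow (Nat.cast_nonneg _) (hwX n h0) hε0.le
    · rw [norm_zero]; positivity
  -- the frequencies
  set Λ0 : ℝ := 18 * κ ^ 6 * X0 ^ ε * E ^ 2 / L with hΛ0
  have hΛ0p : 0 ≤ Λ0 := by positivity
  have hΛle : Λ0 ≤ C * X0 ^ ε * E ^ 2 / L := by
    rw [hΛ0]
    have : 18 * κ ^ 6 ≤ C := by linarith
    gcongr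
  have hue : u ^ 5 ≤ X0 ^ ε := by
    rw [hu, ← Real.rpow_natCast, ← Real.rpow_mul hX0p.le]
    apply Real.rpow_le_rpow_of_exponent_le hX0
    push_cast
    linarith
  have hΛ : 18 * (X * L) ^ ε' * (X ^ ε') ^ 3 * X ^ 2 / L ≤ Λ0 := by
    rw [hΛ0]
    apply div_le_div_of_nonneg_right _ hLp.le
    have h1 : (X ^ ε') ^ 3 ≤ (κ * u) ^ 3 := pow_le_pow_left₀ (by positivity) hvκ 3
    calc 18 * (X * L) ^ ε' * (X ^ ε') ^ 3 * X ^ 2 ≤
          18 * (κ * u ^ 2) * (κ * u) ^ 3 * (κ * E) ^ 2 := by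
          rw [← hXE]
          gcongr
      _ = 18 * κ ^ 6 * u ^ 5 * E ^ 2 := by ring
      _ ≤ 18 * κ ^ 6 * X0 ^ ε * E ^ 2 := by gcongr
  set Tt : ℝ := C4 * (18 * κ ^ 6) * z with hTt
  have hT : ∀ r ∈ bl Λ0, (tau r : ℝ) ≤ Tt := by
    intro r hr
    have hr' := (mem_bl hΛ0p).1 hr
    refine (htau r hr'.1).trans ?_
    rw [hTt, mul_assoc]
    refine mul_le_mul_of_nonneg_left ?_ (by linarith)
    have h1 : (nm r : ℝ) ≤ (18 * κ ^ 6) * X0 ^ (ε + 2) := by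
      refine hr'.2.trans ?_
      rw [hΛ0, Real.rpow_add hX0p]
      have h2 : X0 ^ (2 : ℝ) = X0 ^ 2 := by rw [← Real.rpow_natCast]; norm_num
      rw [h2]
      calc 18 * κ ^ 6 * X0 ^ ε * E ^ 2 / L ≤ 18 * κ ^ 6 * X0 ^ ε * E ^ 2 :=
            div_le_self (by positivity) hL
        _ ≤ 18 * κ ^ 6 * X0 ^ ε * X0 ^ 2 := by gcongr
        _ = _ := by ring
    calc (nm r : ℝ) ^ ε' ≤ ((18 * κ ^ 6) * X0 ^ (ε + 2)) ^ ε' :=
          Real.rpow_le_rpow (Nat.cast_nonneg _) h1 hε0.le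
      _ = (18 * κ ^ 6) ^ ε' * X0 ^ ((ε + 2) * ε') := by
          rw [Real.mul_rpow (by positivity) (by positivity), ← Real.rpow_mul hX0p.le]
      _ ≤ (18 * κ ^ 6) * z := by
          refine mul_le_mul ?_ ?_ (by positivity) (by positivity)
          · calc (18 * κ ^ 6) ^ ε' ≤ (18 * κ ^ 6) ^ (1 : ℝ) :=
                  Real.rpow_le_rpow_of_exponent_le (by linarith) (by linarith)
              _ = _ := Real.rpow_one _
          · apply Real.rpow_le_rpow_of_exponent_le hX0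
            nlinarith
  have D : DatQ T411.NCube Φ R A ε' ε' C3 j q X L Λ0 a Tt (C5 * v) (C2 * v) :=
    { ok := hΦ
      sp := hsp
      σ0 := hε0.le
      ε0 := hε0.le
      hX := hX
      X1 := hX1
      L1 := hL
      Λ0 := hΛ0p
      a0 := ha
      T0 := by positivity
      hT := hT
      hS := S_inv_le hX1 hε0
      B0 := by positivity
      hB := hα_bd
      HV := by
        intro j' f hg hd hl hf
        have hf' := (mem_S hXp.le).1 hf
        have h1 := HV j' (q * f) hg hd hl (hq.mul hf'.2.1) (dvd_mul_right _ _) (by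
          rw [nm_mul, Nat.cast_mul]
          refine mul_le_mul_of_nonneg_left ?_ (Nat.cast_nonneg _)
          refine hf'.1.trans (hXX0.trans ?_)
          refine mul_le_mul_of_nonneg_right ?_ hX0p.le
          have : κ ≤ κ ^ 6 := le_self_pow₀ hκ1 (by norm_num)
          linarith)
        exact (VQ_mono _ hΛ0p hΛle _).trans h1 }
  have h2 := hit X L hX1 hL α hsupp
  have h3 := dual_allQ T411.NCube D hMA hΛ
  have h4 : ∑ h ∈ S X, ‖α h‖ ^ 2 ≤ 16 * (κ * E) * (C2 * v) ^ 2 := by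
    calc ∑ h ∈ S X, ‖α h‖ ^ 2 ≤ ∑ h ∈ S X, (C2 * v) ^ 2 := by
          refine Finset.sum_le_sum fun h hh => ?_
          exact pow_le_pow_left₀ (norm_nonneg _) (hα_bd h ((mem_S hXp.le).1 hh).2.1) 2
      _ = ((S X).card : ℝ) * (C2 * v) ^ 2 := by rw [Finset.sum_const, nsmul_eq_mul]
      _ ≤ (16 * X) * (C2 * v) ^ 2 :=
          mul_le_mul_of_nonneg_right (cardS_le hXp.le) (by positivity)
      _ = _ := by rw [hXE]
  have hKC := KCr_nonneg X L (X ^ ε') α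
  have h5 : VR X L α ≤ C1 * (κ * u ^ 2) * ((κ * E + L) * (∑ h ∈ S X, ‖α h‖ ^ 2) + v ^ 3 *
      ((16 * v) ^ 2 * ((K1 X L (C2 * v) ε' ε' (C5 * v) +
        K2 X C3 ε' ε' (Real.exp (Φ.len j + R)) (C5 * v) Tt a (Φ.ht j)) * P)) +
      KCr X L (X ^ ε') α) := by
    refine h2.trans ?_
    have e1 : X ^ (3 * ε') = v ^ 3 := by
      rw [hv, ← Real.rpow_natCast, ← Real.rpow_mul hXp.le]; congr 1; push_cast; ring
    have e2 : ∑ g ∈ S X, DDT M ε' (X / nm g) L (X ^ ε') ε' g (PA842.sub α g) =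
        ∑ g ∈ S X, DDGQ T411.NCube M ε' (X / nm g) L (X ^ ε') ε' α g :=
      Finset.sum_congr rfl fun g _ => DDT_sub_eq _ _ _ _ _ _ _ _
    rw [e1, e2]
    have e3 : (X + L) * ∑ h ∈ S X, ‖α h‖ ^ 2 +
        v ^ 3 * ∑ g ∈ S X, DDGQ T411.NCube M ε' (X / nm g) L (X ^ ε') ε' α g +
        ∑ g ∈ S X, KKT (X / nm g) L (X ^ ε') g (PA842.sub α g) ≤
        (κ * E + L) * (∑ h ∈ S X, ‖α h‖ ^ 2) + v ^ 3 *
      ((16 * v) ^ 2 * ((K1 X L (C2 * v) ε' ε' (C5 * v) +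
        K2 X C3 ε' ε' (Real.exp (Φ.len j + R)) (C5 * v) Tt a (Φ.ht j)) * P)) +
        KCr X L (X ^ ε') α := by
      rw [← hXE]
      refine add_le_add (add_le_add le_rfl (mul_le_mul_of_nonneg_left h3 (by positivity))) le_rfl
    have e4 : 0 ≤ (X + L) * ∑ h ∈ S X, ‖α h‖ ^ 2 +
        v ^ 3 * ∑ g ∈ S X, DDGQ T411.NCube M ε' (X / nm g) L (X ^ ε') ε' α g +
        ∑ g ∈ S X, KKT (X / nm g) L (X ^ ε') g (PA842.sub α g) := by
      have t1 : 0 ≤ ∑ g ∈ S X, DDGQ T411.NCube M ε' (X / nm g) L (X ^ ε') ε' α g :=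
        Finset.sum_nonneg fun g _ => by
          rw [← DDT_sub_eq]; exact PX6.DDT_nonneg _ _ _ hLp.le _ _ _ _
      have t2 : 0 ≤ ∑ g ∈ S X, KKT (X / nm g) L (X ^ ε') g (PA842.sub α g) := hKC
      have t3 : 0 ≤ (X + L) * ∑ h ∈ S X, ‖α h‖ ^ 2 :=
        mul_nonneg (by linarith) (Finset.sum_nonneg fun _ _ => by positivity)
      have t4 : 0 ≤ v ^ 3 := by positivity
      have := mul_nonneg t4 t1
      linarith
    exact mul_le_mul (mul_le_mul_of_nonneg_left hXL (by linarith)) e3 e4 (by positivity)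
  have hk1 : K1 X L (C2 * v) ε' ε' (C5 * v) ≤
      512 * (κ * u ^ 2) * ((C2 * v) ^ 2 * v ^ 2 * (C5 * v)) * (L * (κ * E)) * (C5 * v) ^ 2 := by
    unfold K1
    have e1 : X ^ (2 * ε') = v ^ 2 := by
      rw [hv, ← Real.rpow_natCast, ← Real.rpow_mul hXp.le]; congr 1; push_cast; ring
    rw [e1, ← hXE]
    have : 0 ≤ L * X := by positivity
    gcongr
  have hk2 : K2 X C3 ε' ε' (Real.exp (Φ.len j + R)) (C5 * v) Tt a (Φ.ht j) ≤
      C6 * v * (C3 ^ 2 * v ^ 4 * (κ * E) * ((C5 * v) * (C4 * (18 * κ ^ 6) * z) * a) *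
      Φ.ht j ^ 2) := by
    unfold K2
    have e1 : X ^ (2 * ε' + 2 * ε') = v ^ 4 := by
      rw [hv, ← Real.rpow_natCast, ← Real.rpow_mul hXp.le]; congr 1; push_cast; ring
    have e2 : Real.exp (Φ.len j + R) = κ * E := hXE
    rw [e1, e2]
    have h6 : Real.log X + 1 ≤ C6 * v := by
      have h3 : Real.log X ≤ X ^ ε' / ε' := Real.log_le_rpow_div hXp.le hε0
      calc Real.log X + 1 ≤ v / ε' + v := add_le_add h3 hv1
        _ = C6 * v := by rw [hC6]; ring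
    exact mul_le_mul_of_nonneg_right h6 (by positivity)
  have hS10 : 0 ≤ ∑ h ∈ S X, ‖α h‖ ^ 2 := Finset.sum_nonneg fun _ _ => by positivity
  have hkk : 0 ≤ K1 X L (C2 * v) ε' ε' (C5 * v) +
      K2 X C3 ε' ε' (Real.exp (Φ.len j + R)) (C5 * v) Tt a (Φ.ht j) := by
    have := D.T0
    have := Real.log_nonneg hX1
    unfold K1 K2
    positivity
  have fin := fin_arithX (by linarith) (by linarith) hC50 hC60 hP0 hκ1 hu1
    hv1 hvκ hz1 hLp.le hEp.le ha hht hKC hS10 hkk h4 hk1 hk2 h5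
  refine fin.trans ?_
  have huz : u ^ 17 * z ≤ X0 ^ ε := by
    rw [hu, hz, ← Real.rpow_natCast, ← Real.rpow_mul hX0p.le, ← Real.rpow_add hX0p]
    apply Real.rpow_le_rpow_of_exponent_le hX0
    push_cast
    linarith
  have hCC : Ct ≤ C := by linarith
  have : 0 ≤ (E + L + a) * E * Φ.ht j ^ 2 + KCr X L (X ^ ε') α := by positivity
  gcongr

end Crest.Agent.R017.GE241
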