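import Crest.Agent.R017.PE5_241

/-!
# Row 17, exceptional class: the rule (P_ex) for closed families (helper241)
-/

set_option autoImplicit false

noncomputable section

open Complex MeasureTheory
open scoped ComplexConjugate

namespace Crest.Agent.R017.PE241

open Crest.Agent.R012 Crest.Agent.R012.Eis Crest.Agent.R012.LS2 Crest.Agent.R012.Gauss880
open Crest.Agent.R012.Div277 Crest.Agent.R012.CR2
open Crest.Agent.R017.PA842 (V Supp)
open Crest.Agent.R017.CM106 (CS TG FS)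
open Crest.Agent.R017.TP320
open Crest.Agent.R017.GE241 (VQ VCN)
open Crest.Agent.R017.PX764 (Dk Vnc CRX Gh)

set_option maxHeartbeats 1000000

lemma VCN_eq_zero {K : ℝ} {w : Eis → ℂ} (h : w = 0) : VCN K w = 0 := by
  classical
  unfold GE241.VCN GE241.VQ
  rw [h]
  simp [CS_zero_seq]

/-- **(P_ex) for closed families** -/
theorem PE_rule {J : Type} {Φ : Fam J} {R A : ℝ} (hΦ : Φ.Ok R A) {ε δ : ℝ} (hδ : 0 < δ)
    (hδε : 20 * δ ≤ ε) (hδ20 : δ ≤ 1 / 20) :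
    ∃ C r : ℝ, 1 ≤ C ∧ 0 ≤ r ∧ ∀ X0 K a : ℝ, 3 ≤ X0 → 1 ≤ K → K ≤ X0 → 0 ≤ a →
      ∀ j : J, Real.exp (Φ.len j) ≤ X0 → ∀ q : Eis, IsPrim q → HypK Dk Φ C r ε X0 K a j q →
      VCN K (TP320.sq q (Φ.w j)) ≤ C * X0 ^ ε * ((Real.exp (Φ.len j) + K + K * a) *
        Real.exp (Φ.len j) * (Φ.ht j) ^ 2 + K * CRs (Real.exp (Φ.len j + R)) K
          (Real.exp (Φ.len j + R) ^ δ) (TP320.sq q (Φ.w j))) := by
  classical
  have hδ1 : δ ≤ 1 / 2 := by linarith
  have hpC := PX764.pC_pos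
  have hκ0 : (1 : ℝ) ≤ 1 + pC := by linarith
  obtain ⟨Cb, hCb, hbd⟩ := hΦ.bd δ hδ
  obtain ⟨Cs, hCs, hs⟩ := hΦ.split δ (1 / 2 - δ) hδ
  obtain ⟨Cτ, hCτ, hτ⟩ := tau_le_rpow hδ
  obtain ⟨Ch, hCh, hharm⟩ := harm_le hδ
  set M : ℕ := ⌈A⌉₊ + 1 with hM
  have hA0 := hΦ.A0
  have hR := hΦ.R0
  have hMA : A + 1 ≤ M := by rw [hM]; push_cast; linarith [Nat.le_ceil A]
  have hM1 : 1 ≤ M := by omega
  obtain ⟨C1, hC1, hiter⟩ := PX764.iterEx hδ hδ1 hδ hM1
  obtain ⟨C2, hC2, htriv⟩ := dual_trivial_K kok_Dk hδ hM1 hκ0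
  have hIM := IM_nonneg M A
  set c : ℝ := Real.exp R with hc
  have hc1 : 1 ≤ c := Real.one_le_exp hR
  set Um : ℝ := 256 * c ^ 2 * (Cs ^ 2 * c * IM M A) * (Cτ * (2 * Real.exp (1 + 4 * R))) *
    ((1 + 1 / δ) * c) with hUm
  have hUm0 : 0 ≤ Um := by
    have h1 : 0 ≤ Cs ^ 2 * c * IM M A := mul_nonneg (by positivity) hIM
    rw [hUm]; positivity
  set Ut : ℝ := 2 * C2 * Cb ^ 2 * c ^ 12 with hUt
  have hUt0 : 0 ≤ Ut := by positivity
  set U : ℝ := Um + Ut with hU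
  have hU0 : 0 ≤ U := by positivity
  set Cf : ℝ := Real.exp 1 * (C1 * c ^ 5 * (1 + 16 * Cb ^ 2 + U * Ch)) * c ^ 2 with hCf
  have hCf0 : 0 ≤ Cf := by positivity
  refine ⟨1 + 18 * Real.exp (1 + 3 * R) + Cf, 3 * R + 1, by
    have := Real.exp_pos (1 + 3 * R)
    linarith, by linarith, ?_⟩
  intro X0 K a hX0 hK1 hKX ha j hj q hq HG
  set CG : ℝ := 1 + 18 * Real.exp (1 + 3 * R) + Cf with hCG
  have hCG1 : 18 * Real.exp (1 + 3 * R) ≤ CG := by rw [hCG]; linarith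
  have hCGf : Cf ≤ CG := by
    have := Real.exp_pos (1 + 3 * R)
    rw [hCG]; linarith
  have hK0 : 0 < K := by linarith
  have hht := hΦ.ht1 j
  have hht2 : 1 ≤ (Φ.ht j) ^ 2 := one_le_pow₀ hht
  set X : ℝ := Real.exp (Φ.len j + R) with hX
  rcases lt_or_ge X 1 with hX1 | hX1
  · -- nothing
    have h0 : TP320.sq q (Φ.w j) = 0 := by
      funext n
      by_contra hn
      have h1 : TP320.sq q (Φ.w j) n ≠ 0 := hn
      unfold TP320.sq at h1
      split_ifs at h1 with hcn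
      · have h2 := (abs_le.1 (hΦ.supp j n h1)).2
        have h3 := log_nm_nonneg' hcn.1
        rw [hX, Real.exp_lt_one_iff] at hX1
        linarith
      · exact h1 rfl
    rw [VCN_eq_zero h0]
    have hX00 : 0 ≤ X0 := by linarith
    have hCG0 : 0 ≤ CG := hCf0.trans hCGf
    have := CRs_nonneg X K (X ^ δ) (TP320.sq q (Φ.w j))
    positivity
  have hXn : 0 ≤ X := by linarith
  have hXX : X ≤ Real.exp R * X0 := by
    rw [hX, Real.exp_add, mul_comm]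
    gcongr
  have hS : Sc2 δ R X0 K X := ⟨hX0, hK1, hKX, hX1, hXX⟩
  obtain ⟨f1, f2, f3, f4, f5⟩ := hS.facts hδ (by linarith) hR
  have hsupp : Supp (TP320.sq q (Φ.w j)) X := supp_sq hΦ q j le_rfl
  set W : ℝ := X0 ^ δ with hW
  set Y : ℝ := X ^ δ with hY
  have hY1 : 1 ≤ Y := Real.one_le_rpow hX1 hδ.le
  have hwb : ∀ h, ‖TP320.sq q (Φ.w j) h‖ ≤ Cb * (nm h : ℝ) ^ δ := by
    intro h
    unfold TP320.sq
    split_ifs
    · exact hbd j h
    · rw [norm_zero]; positivity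
  have h1 := VCN_le_Vnc hXn hK0 hsupp
  have h2 := hiter X K hX1 hK1 (TP320.sq q (Φ.w j)) hsupp
  have hdiag := diag_le hδ hX1 (by linarith : 0 ≤ Cb) hwb
  have hT3 : X ^ (3 * δ) ≤ (c * W) ^ 3 := by
    have e1 : X ^ (3 * δ) = Y ^ 3 := by
      rw [hY, ← Real.rpow_natCast, ← Real.rpow_mul hXn]; congr 1; push_cast; ring
    rw [e1]; gcongr
  have hlen2 : Real.exp (2 * δ * Φ.len j) ≤ W ^ 2 := by
    have e1 : Real.exp (2 * δ * Φ.len j) = Real.exp (Φ.len j) ^ (2 * δ) := by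
      rw [← Real.exp_mul]; congr 1; ring
    have e2 : W ^ 2 = X0 ^ (2 * δ) := by
      rw [hW, ← Real.rpow_natCast, ← Real.rpow_mul (by linarith)]; congr 1; push_cast; ring
    rw [e1, e2]
    exact Real.rpow_le_rpow (Real.exp_pos _).le hj (by positivity)
  have hW0 : 0 ≤ W := by linarith
  have hKa : 0 ≤ K * a := by positivity
  have hlogX : 0 ≤ Real.log X := Real.log_nonneg hX1
  -- one divisor
  have hone : ∀ g ∈ S X, DDK Dk M δ (X / nm g) K Y δ (PA842.sub (TP320.sq q (Φ.w j)) g) ≤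
      U * W ^ 13 * (K + K * a) * X * (Φ.ht j) ^ 2 * (1 / (nm g : ℝ)) := by
    intro g hg
    have hg' := (mem_S hXn).1 hg
    have hg1 := one_le_nm' hg'.2.1
    have hXg : X / nm g = X * (1 / (nm g : ℝ)) := by ring
    rcases le_or_gt K ((X / nm g) ^ 2) with hKg | hKg
    · have h3 := DDK_main kok_Dk hΦ hδ hδ1 (by linarith : 4 * δ ≤ ε) hM1 hMA (by linarith) hs hCτ hτ j hq
        hS hX ha le_rfl hCG1 HG hg hKg
      refine h3.trans ?_
      have hXg0 : 0 ≤ X / nm g := by positivity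
      have hP : 0 ≤ Cs ^ 2 * Real.exp R * IM M A := mul_nonneg (by positivity) hIM
      have hl1 : 0 ≤ Real.log X + 1 := by linarith
      have h4 : 256 * Y ^ 2 * (K * a * (X / nm g) * (Cs ^ 2 * Real.exp R * IM M A) *
          (Cτ * (2 * Real.exp (1 + 4 * R)) * W ^ 4) * Real.exp (2 * δ * Φ.len j) *
          (Real.log X + 1) * (Φ.ht j) ^ 2) ≤
          256 * (c * W) ^ 2 * (K * a * (X / nm g) * (Cs ^ 2 * Real.exp R * IM M A) *
          (Cτ * (2 * Real.exp (1 + 4 * R)) * W ^ 4) * W ^ 2 *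
          ((1 + 1 / δ) * (c * W)) * (Φ.ht j) ^ 2) := by
        have a1 : 0 ≤ K * a * (X / nm g) * (Cs ^ 2 * Real.exp R * IM M A) *
          (Cτ * (2 * Real.exp (1 + 4 * R)) * W ^ 4) :=
          mul_nonneg (mul_nonneg (mul_nonneg hKa hXg0) hP) (by positivity)
        have a2 : K * a * (X / nm g) * (Cs ^ 2 * Real.exp R * IM M A) *
          (Cτ * (2 * Real.exp (1 + 4 * R)) * W ^ 4) * Real.exp (2 * δ * Φ.len j) *
          (Real.log X + 1) * (Φ.ht j) ^ 2 ≤ K * a * (X / nm g) * (Cs ^ 2 * Real.exp R * IM M A) *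
          (Cτ * (2 * Real.exp (1 + 4 * R)) * W ^ 4) * W ^ 2 *
          ((1 + 1 / δ) * (c * W)) * (Φ.ht j) ^ 2 := by
          apply mul_le_mul_of_nonneg_right _ (by positivity)
          apply mul_le_mul _ f5 hl1 (by positivity)
          exact mul_le_mul_of_nonneg_left hlen2 a1
        have a3 : 0 ≤ K * a * (X / nm g) * (Cs ^ 2 * Real.exp R * IM M A) *
          (Cτ * (2 * Real.exp (1 + 4 * R)) * W ^ 4) * Real.exp (2 * δ * Φ.len j) *
          (Real.log X + 1) * (Φ.ht j) ^ 2 :=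
          mul_nonneg (mul_nonneg (mul_nonneg a1 (Real.exp_pos _).le) hl1) (by positivity)
        exact mul_le_mul (by gcongr) a2 a3 (by positivity)
      refine h4.trans ?_
      have h5 : 256 * (c * W) ^ 2 * (K * a * (X / nm g) * (Cs ^ 2 * Real.exp R * IM M A) *
          (Cτ * (2 * Real.exp (1 + 4 * R)) * W ^ 4) * W ^ 2 *
          ((1 + 1 / δ) * (c * W)) * (Φ.ht j) ^ 2) =
          Um * W ^ 9 * (K * a) * X * (Φ.ht j) ^ 2 * (1 / (nm g : ℝ)) := by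
        rw [hXg, hUm]; ring
      rw [h5]
      have e1 : W ^ 9 ≤ W ^ 13 := pow_le_pow_right₀ f1 (by norm_num)
      have e2 : Um ≤ U := by rw [hU]; linarith
      have e3 : K * a ≤ K + K * a := by linarith
      gcongr
    · have h3 := DDK_triv (A := A) hΦ hδ hδ1 (by linarith : 0 ≤ Cb) (by linarith : 0 ≤ C2) hbd htriv
        j q hS hX hg hKg.le
      refine h3.trans ?_
      have h5 : 2 * C2 * Cb ^ 2 * Real.exp R ^ 12 * (X0 ^ δ) ^ 13 * K * (X / nm g) =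
          Ut * W ^ 13 * (K + 0) * X * 1 * (1 / (nm g : ℝ)) := by
        rw [hXg, hUt]; ring
      rw [h5]
      have e2 : Ut ≤ U := by rw [hU]; linarith
      gcongr
  have hSG : ∑ g ∈ S X, DDK Dk M δ (X / nm g) K Y δ (PA842.sub (TP320.sq q (Φ.w j)) g) ≤
      U * W ^ 13 * (K + K * a) * X * (Ch * Y) * (Φ.ht j) ^ 2 := by
    refine (Finset.sum_le_sum hone).trans ?_
    rw [← Finset.mul_sum]
    have h3 := hharm X hX1
    have h4 : 0 ≤ U * W ^ 13 * (K + K * a) * X * (Φ.ht j) ^ 2 := by positivity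
    calc _ ≤ U * W ^ 13 * (K + K * a) * X * (Φ.ht j) ^ 2 * (Ch * Y) :=
          mul_le_mul_of_nonneg_left h3 h4
      _ = _ := by ring
  have hSG0 : 0 ≤ ∑ g ∈ S X, DDK Dk M δ (X / nm g) K Y δ (PA842.sub (TP320.sq q (Φ.w j)) g) :=
    Finset.sum_nonneg fun g _ => DDK_nonneg _ _ _ _ hK0.le _ _ _
  have hCR := CRs_nonneg X K Y (TP320.sq q (Φ.w j))
  have hPle : (X * K) ^ δ ≤ c * W ^ 2 := by
    rw [Real.mul_rpow hXn hK0.le]
    calc X ^ δ * K ^ δ ≤ (c * W) * W := by gcongr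
      _ = _ := by ring
  have hfin := alg_PX (C1 := C1) (W := W) (c := c) (K := K) (Y := Y) (X := X)
    (D := ∑ h ∈ S X, ‖TP320.sq q (Φ.w j) h‖ ^ 2) (T3 := X ^ (3 * δ)) (Cb := Cb) (U := U) (Ch := Ch)
    (H := (Φ.ht j) ^ 2) (a := a) (P := (X * K) ^ δ) (CR := CRs X K Y (TP320.sq q (Φ.w j)))
    (by linarith) f1 hc1 hK0.le (by linarith) f3 hXn (by linarith)
    (Finset.sum_nonneg fun _ _ => by positivity) hdiag (by positivity) hT3 hU0 (by linarith) hht2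
    ha hSG0 hSG (by positivity) hPle hCR
  have h6 : Vnc X K (TP320.sq q (Φ.w j)) ≤
      (C1 * c ^ 5 * (1 + 16 * Cb ^ 2 + U * Ch)) * W ^ 18 * ((X + K + K * a) * X * (Φ.ht j) ^ 2 +
        K * CRs X K Y (TP320.sq q (Φ.w j))) := by
    refine le_trans (h2.trans (le_of_eq ?_)) hfin
    unfold CRs
    simp only [DDR_eq, ← hY]
  have hW18 : W ^ 18 ≤ X0 ^ ε := by
    rw [hW, ← Real.rpow_natCast, ← Real.rpow_mul (by linarith)]
    apply Real.rpow_le_rpow_of_exponent_le (by linarith)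
    push_cast; linarith
  have hXc : X = c * Real.exp (Φ.len j) := by
    rw [hX, Real.exp_add]; ring
  set E : ℝ := Real.exp (Φ.len j) with hE
  have hE0 : 0 < E := Real.exp_pos _
  have h7 : (X + K + K * a) * X * (Φ.ht j) ^ 2 + K * CRs X K Y (TP320.sq q (Φ.w j)) ≤
      c ^ 2 * ((E + K + K * a) * E * (Φ.ht j) ^ 2 + K * CRs X K Y (TP320.sq q (Φ.w j))) := by
    have e1 : 1 ≤ c ^ 2 := one_le_pow₀ hc1
    have e2 : K * CRs X K Y (TP320.sq q (Φ.w j)) ≤ c ^ 2 * (K * CRs X K Y (TP320.sq q (Φ.w j))) :=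
      le_mul_of_one_le_left (by positivity) e1
    have e3 : X + K + K * a ≤ c * (E + K + K * a) := by
      have t1 : K ≤ c * K := le_mul_of_one_le_left hK0.le hc1
      have t2 : K * a ≤ c * (K * a) := le_mul_of_one_le_left hKa hc1
      rw [hXc]; linarith
    have e4 : (X + K + K * a) * X * (Φ.ht j) ^ 2 ≤
        (c * (E + K + K * a)) * (c * E) * (Φ.ht j) ^ 2 := by
      rw [← hXc]
      gcongr
    calc _ ≤ (c * (E + K + K * a)) * (c * E) * (Φ.ht j) ^ 2 +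
          c ^ 2 * (K * CRs X K Y (TP320.sq q (Φ.w j))) := add_le_add e4 e2
      _ = _ := by ring
  have h8 : 0 ≤ (E + K + K * a) * E * (Φ.ht j) ^ 2 + K * CRs X K Y (TP320.sq q (Φ.w j)) := by
    positivity
  calc VCN K (TP320.sq q (Φ.w j)) ≤ Real.exp 1 * Vnc X K (TP320.sq q (Φ.w j)) := h1
    _ ≤ Real.exp 1 * ((C1 * c ^ 5 * (1 + 16 * Cb ^ 2 + U * Ch)) * W ^ 18 *
        ((X + K + K * a) * X * (Φ.ht j) ^ 2 + K * CRs X K Y (TP320.sq q (Φ.w j)))) := by gcongr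
    _ ≤ Real.exp 1 * ((C1 * c ^ 5 * (1 + 16 * Cb ^ 2 + U * Ch)) * W ^ 18 *
        (c ^ 2 * ((E + K + K * a) * E * (Φ.ht j) ^ 2 +
          K * CRs X K Y (TP320.sq q (Φ.w j))))) := by gcongr
    _ = Cf * W ^ 18 * ((E + K + K * a) * E * (Φ.ht j) ^ 2 +
          K * CRs X K Y (TP320.sq q (Φ.w j))) := by
        rw [hCf]; ring
    _ ≤ CG * X0 ^ ε * ((E + K + K * a) * E * (Φ.ht j) ^ 2 +
          K * CRs X K Y (TP320.sq q (Φ.w j))) := by
        gcongr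

end Crest.Agent.R017.PE241
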