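import Crest.Agent.R017.XPX1_241
import Crest.Agent.R017.GE5_241
import Crest.Agent.R017.PE6_241
import Crest.Agent.R017.XRG4_106

/-!
# Row 17, exceptional class: the raw rules in BG form (helper241), part 2

* `cq` : the cost of a child, `chd_mk`, `cst_le`
* `RN P h l ps` : the noncube character side, `SDk P h l ps` : the Gauss side with kernel `Dk`
* `CrG`, `CrP` : the cross hypotheses
* `RuleAt` : an analytic rule for `r` pieces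
-/

set_option autoImplicit false

noncomputable section

open Complex
open scoped ComplexConjugate

namespace Crest.Agent.R017.XPX241

open Crest.Agent.R012 Crest.Agent.R012.Eis Crest.Agent.R012.LS2 Crest.Agent.R012.Gauss880
open Crest.Agent.R012.Div277 Crest.Agent.R012.Weight600
open Crest.Agent.R017.CM106 Crest.Agent.R017.FE47 Crest.Agent.R017.End699
open Crest.Agent.R017.B770
open Crest.Agent.R017.Prov71
open Crest.Agent.R017.HP842 (UT pc KS sqc Kg uv alL al ssub norm_uv_le pc_support)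
open Crest.Agent.R017.XP699 (Chd cst LL lf)
open Crest.Agent.R017.XHB411 (tl idt bl_neg)
open Crest.Agent.R017.GE241 (VQ VCN KCr VK)
open Crest.Agent.R017.PE241 (CRs VKn HypK)
open Crest.Agent.R017.PX764 (Dk)
open Crest.Agent.R017.XRG106 (tl_ofFn alL_ofFn)
open Crest.Agent.R012.T411 (NCube)

/-! ### the cost -/

/-- the cost of a child -/
def cq (p' p : Pq) : ℝ := max 1 ((1 + |p'.t|) / (1 + |p.t|))

lemma one_le_cq (p' p : Pq) : 1 ≤ cq p' p := le_max_left _ _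

lemma cq_self (p : Pq) : cq p p = 1 := by
  unfold cq
  have h : (0 : ℝ) < 1 + |p.t| := by positivity
  rw [div_self h.ne', max_self]

lemma cq_le {p' p : Pq} {W : ℝ} (hW : 1 ≤ W) (h : 1 + |p'.t| ≤ W * (1 + |p.t|)) : cq p' p ≤ W := by
  unfold cq
  have h0 : (0 : ℝ) < 1 + |p.t| := by positivity
  exact max_le hW ((div_le_iff₀ h0).2 h)

lemma one_le_s1 (p : Pq) : 1 ≤ Dq.s1 p := by
  rw [Dq_s1]
  linarith [abs_nonneg p.t]

lemma chd_mk {ρ b : ℝ} {p' p : Pq} (h1 : p'.kd = p.kd) (h2 : p.u = .one → p'.u = .one)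
    (h3 : 0 ≤ p'.z) (h4 : p'.z ≤ p.z + ρ) (h5 : (nm p'.d : ℝ) ≤ nm p.d * b) :
    Chd Dq cq ρ b p' p where
  kind := h1
  lump := fun h => ⟨h1.trans h.1, h2 h.2⟩
  len0 := h3
  len := h4
  s1 := by
    have h0 : (0 : ℝ) < 1 + |p.t| := by positivity
    rw [Dq_s1, Dq_s1]
    have h6 : (1 + |p'.t|) / (1 + |p.t|) ≤ cq p' p := le_max_right _ _
    rw [div_le_iff₀ h0] at h6
    linarith
  s2 := h5

lemma zipWith_ofFn {α β γ : Type*} (f : α → β → γ) {n : ℕ} (a : Fin n → α) (b : Fin n → β) :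
    List.zipWith f (List.ofFn a) (List.ofFn b) = List.ofFn fun i => f (a i) (b i) := by
  apply List.ext_get
  · simp
  · intro i h1 h2
    simp

lemma cst_ofFn {r : ℕ} (s' s : Fin r → Pq) :
    cst cq (List.ofFn s') (List.ofFn s) = ∏ i, cq (s' i) (s i) := by
  unfold XP699.cst
  rw [zipWith_ofFn, List.prod_ofFn]

lemma cst_le {r : ℕ} {s' s : Fin r → Pq} {W : Fin r → ℝ} (hW : ∀ i, 1 ≤ W i)
    (h : ∀ i, 1 + |(s' i).t| ≤ W i * (1 + |(s i).t|)) :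
    cst cq (List.ofFn s') (List.ofFn s) ≤ ∏ i, W i := by
  rw [cst_ofFn]
  exact Finset.prod_le_prod (fun i _ => by linarith [one_le_cq (s' i) (s i)])
    fun i _ => cq_le (hW i) (h i)

lemma LL_tl (ps : List Pq) : LL Dq ps = tl Dq ps := rfl

lemma LL_ofFn {r : ℕ} (s : Fin r → Pq) : LL Dq (List.ofFn s) = ∑ i, (s i).z := tl_ofFn s

lemma s1_ofFn {r : ℕ} (s : Fin r → Pq) :
    ((List.ofFn s).map Dq.s1).prod = ∏ i, (1 + |(s i).t|) := by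
  rw [List.map_ofFn, List.prod_ofFn]
  rfl

/-! ### the functionals -/

/-- the noncube character side -/
def RN (P : DPar) (h : ℝ → ℝ) (l : ℝ) (ps : List Pq) : ℝ := RQ NCube h l (ps.map (Pq.pc P))

/-- the Gauss side with the bias-corrected kernel -/
def SDk (P : DPar) (h : ℝ → ℝ) (l : ℝ) (ps : List Pq) : ℝ := SK Dk h l (ps.map (Pq.pc P))

lemma RN_nonneg (P : DPar) (h : ℝ → ℝ) (l : ℝ) (ps : List Pq) : 0 ≤ RN P h l ps :=
  RQ_nonneg _ _ _ _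

lemma SDk_nonneg (P : DPar) (h : ℝ → ℝ) (l : ℝ) (ps : List Pq) : 0 ≤ SDk P h l ps :=
  SK_nonneg _ _ _ _

open Classical in
lemma RN_ofFn {h : ℝ → ℝ} {P : DPar} {r : ℕ} (s : Fin r → Pq) (l : ℝ) :
    RN P h l (List.ofFn s) =
      ∑ k ∈ (bl (Real.exp l)).filter NCube, ∏ i, ‖CS (pc h ((s i).pc P)) k‖ ^ 2 := by
  unfold RN RQ
  refine Finset.sum_congr (by congr) fun k _ => ?_
  rw [List.map_map, List.map_ofFn, List.prod_ofFn]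
  rfl

lemma RN_ofFn' {h : ℝ → ℝ} (hh : Bump h) {P : DPar} (hP : P.OK) {r : ℕ} (s : Fin r → Pq) (l : ℝ) :
    RN P h l (List.ofFn s) = VCN (Real.exp l) (al h fun i => (s i).pc P) := by
  classical
  rw [RN_ofFn]
  unfold GE241.VCN GE241.VQ
  refine Finset.sum_congr (by congr) fun k _ => ?_
  rw [XRG106.CS_al hh hP, norm_prod, Finset.prod_pow]

lemma SDk_ofFn (P : DPar) (h : ℝ → ℝ) {r : ℕ} (s : Fin r → Pq) (l : ℝ) :
    SDk P h l (List.ofFn s) = VKn Dk (Real.exp l) (sqc 1 (al h fun i => (s i).pc P)) := by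
  unfold SDk SK PE241.VKn
  rw [alL_ofFn]

/-! ### the cross hypotheses -/

/-- cross terms of (P'_ex) -/
def CrG (h : ℝ → ℝ) (P : DPar) : Prop :=
  ∀ (r : ℕ) (ε R₀ : ℝ), 0 < ε → 0 ≤ R₀ → ∃ C A : ℝ, 0 ≤ C ∧ 0 ≤ A ∧
    ∀ (s : Fin r → Pq) (X L Y D : ℝ), 1 ≤ D → (∀ i, ¬ Dq.lump (s i) → Real.exp (s i).z ≤ D) →
      (∀ i, -R₀ ≤ (s i).z) → 1 ≤ X → 1 ≤ L → 1 ≤ Y →
      X ≤ Real.exp (R₀ + ∑ i, (s i).z) →
      PA842.Supp (sqc 1 (al h fun i => (s i).pc P)) X →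
      KCr X L Y (sqc 1 (al h fun i => (s i).pc P)) ≤
        C * (X * L * ∏ i, (nm (s i).d : ℝ)) ^ ε * D ^ 2 * Y ^ 2 *
          (∏ i, (1 + |(s i).t|)) ^ A * (X * (X + L))

/-- cross terms of (P_ex) -/
def CrP (h : ℝ → ℝ) (P : DPar) : Prop :=
  ∀ (r : ℕ) (ε R₀ : ℝ), 0 < ε → 0 ≤ R₀ → ∃ C A : ℝ, 0 ≤ C ∧ 0 ≤ A ∧
    ∀ (s : Fin r → Pq) (q : Eis) (X K Y D : ℝ), IsPrim q → 1 ≤ D →
      (∀ i, ¬ Dq.lump (s i) → Real.exp (s i).z ≤ D) → (∀ i, -R₀ ≤ (s i).z) →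
      1 ≤ X → 1 ≤ K → 1 ≤ Y → X ≤ Real.exp (R₀ + ∑ i, (s i).z) →
      PA842.Supp (sqc q (al h fun i => (s i).pc P)) X →
      K * CRs X K Y (sqc q (al h fun i => (s i).pc P)) ≤
        C * (X * K * nm q * ∏ i, (nm (s i).d : ℝ)) ^ ε * D ^ 2 *
          (∏ i, (1 + |(s i).t|)) ^ A * (X * (X + K))

/-! ### rules -/

/-- an analytic rule for `r` pieces -/
def RuleAt (Ψ Φ : ℝ → List Pq → ℝ) (Gs : Finset (Fin 4 → ℝ)) (cF : Fin 4 → ℝ) (r : ℕ)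
    (Bs B₀ ε M C ρ J : ℝ) : Prop :=
  ∀ (X : ℝ), 3 ≤ X → ∀ (k : ℝ) (s : Fin r → Pq), 0 ≤ k → k ≤ Real.log X →
    (∀ i, 0 ≤ (s i).z ∧ (s i).z ≤ Real.log X) → (∀ i, (nm (s i).d : ℝ) ≤ X ^ Bs) →
    ∀ Dd : ℝ, 1 ≤ Dd → (∀ i, ¬ Dq.lump (s i) → Real.exp (s i).z ≤ Dd) →
    ∀ Bd : ℝ, 0 ≤ Bd →
    (∀ (l : ℝ) (s' : Fin r → Pq), 0 ≤ l → (∀ i, Chd Dq cq ρ (C * X ^ B₀) (s' i) (s i)) →
      (∀ c ∈ Gs, lf c k (LL Dq (List.ofFn s)) l (LL Dq (List.ofFn s')) ≤ ρ + ε * Real.log X) →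
      Φ l (List.ofFn s') ≤ Bd * cst cq (List.ofFn s') (List.ofFn s) ^ M *
        Real.exp (lf cF k (LL Dq (List.ofFn s)) l (LL Dq (List.ofFn s')))) →
    Ψ k (List.ofFn s) ≤ C * X ^ ε * ((List.ofFn s).map Dq.s1).prod ^ J * Dd ^ 2 *
      (Real.exp (k + LL Dq (List.ofFn s)) + Bd)

lemma chd_mono {ρ ρ' b b' : ℝ} {p' p : Pq} (hρ : ρ ≤ ρ') (hb : b ≤ b')
    (h : Chd Dq cq ρ b p' p) : Chd Dq cq ρ' b' p' p where
  kind := h.kind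
  lump := h.lump
  len0 := h.len0
  len := h.len.trans (by linarith)
  s1 := h.s1
  s2 := h.s2.trans (by
    have : (0 : ℝ) ≤ Dq.s2 p := Nat.cast_nonneg _
    gcongr)

lemma RuleAt.mono {Ψ Φ : ℝ → List Pq → ℝ} {Gs : Finset (Fin 4 → ℝ)} {cF : Fin 4 → ℝ} {r : ℕ}
    {Bs B₀ ε M C ρ J C' ρ' J' : ℝ} (H : RuleAt Ψ Φ Gs cF r Bs B₀ ε M C ρ J) (hC0 : 0 ≤ C)
    (hC : C ≤ C') (hρ : ρ ≤ ρ') (hJ : J ≤ J') : RuleAt Ψ Φ Gs cF r Bs B₀ ε M C' ρ' J' := by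
  intro X hX k s hk hkX hs hd Dd hDd hDl Bd hBd hyp
  have hX0 : 0 < X := by linarith
  refine (H X hX k s hk hkX hs hd Dd hDd hDl Bd hBd fun l s' hl hch hG => ?_).trans ?_
  · refine hyp l s' hl (fun i => chd_mono hρ ?_ (hch i)) fun c hc => (hG c hc).trans (by linarith)
    have := Real.rpow_nonneg hX0.le B₀
    gcongr
  · have h1 : 1 ≤ ((List.ofFn s).map Dq.s1).prod := XP699.one_le_prod_s1 one_le_s1 _
    have h2 : ((List.ofFn s).map Dq.s1).prod ^ J ≤ ((List.ofFn s).map Dq.s1).prod ^ J' :=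
      Real.rpow_le_rpow_of_exponent_le h1 hJ
    have h3 : 0 ≤ Real.exp (k + LL Dq (List.ofFn s)) + Bd := by positivity
    have h4 : 0 ≤ X ^ ε := Real.rpow_nonneg hX0.le _
    have h5 : 0 ≤ C' := hC0.trans hC
    have h6 : 0 ≤ ((List.ofFn s).map Dq.s1).prod ^ J := Real.rpow_nonneg (by linarith) _
    exact mul_le_mul_of_nonneg_right (mul_le_mul_of_nonneg_right
      (mul_le_mul (mul_le_mul_of_nonneg_right hC h4) h2 h6
      (mul_nonneg h5 h4)) (by positivity)) h3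

/-- from families to lists -/
theorem rule_of_at {Ψ Φ : ℝ → List Pq → ℝ} {Gs : Finset (Fin 4 → ℝ)} {cF : Fin 4 → ℝ} {N : ℕ}
    {Bs B₀ ε M : ℝ}
    (H : ∀ r ≤ N, ∃ C ρ J : ℝ, 0 ≤ C ∧ 0 ≤ ρ ∧ 0 ≤ J ∧ RuleAt Ψ Φ Gs cF r Bs B₀ ε M C ρ J) :
    ∃ C r J : ℝ, 0 ≤ C ∧ 0 ≤ r ∧ 0 ≤ J ∧
      ∀ X : ℝ, 3 ≤ X → ∀ (k : ℝ) (ps : List Pq), 0 ≤ k → k ≤ Real.log X → ps.length ≤ N →
      (∀ p ∈ ps, 0 ≤ Dq.len p ∧ Dq.len p ≤ Real.log X) → (∀ p ∈ ps, Dq.s2 p ≤ X ^ Bs) →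
      ∀ Dd : ℝ, 1 ≤ Dd → (∀ p ∈ ps, ¬ Dq.lump p → Real.exp (Dq.len p) ≤ Dd) →
      ∀ Bd : ℝ, 0 ≤ Bd →
      (∀ (l : ℝ) (ps' : List Pq), 0 ≤ l → List.Forall₂ (Chd Dq cq r (C * X ^ B₀)) ps' ps →
        (∀ c ∈ Gs, lf c k (LL Dq ps) l (LL Dq ps') ≤ r + ε * Real.log X) →
        Φ l ps' ≤ Bd * cst cq ps' ps ^ M * Real.exp (lf cF k (LL Dq ps) l (LL Dq ps'))) →
      Ψ k ps ≤ C * X ^ ε * (ps.map Dq.s1).prod ^ J * Dd ^ 2 *
        (Real.exp (k + LL Dq ps) + Bd) := by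
  classical
  have H' : ∀ r : ℕ, ∃ C ρ J : ℝ, 0 ≤ C ∧ 0 ≤ ρ ∧ 0 ≤ J ∧
      (r ≤ N → RuleAt Ψ Φ Gs cF r Bs B₀ ε M C ρ J) := by
    intro r
    by_cases hr : r ≤ N
    · obtain ⟨C, ρ, J, h1, h2, h3, h4⟩ := H r hr
      exact ⟨C, ρ, J, h1, h2, h3, fun _ => h4⟩
    · exact ⟨0, 0, 0, le_rfl, le_rfl, le_rfl, fun h => absurd h hr⟩
  choose C ρ J hC hρ hJ HR using H'
  have hle : ∀ (f : ℕ → ℝ), (∀ n, 0 ≤ f n) → ∀ r ≤ N, f r ≤ ∑ r ∈ Finset.range (N + 1), f r :=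
    fun f hf r hr => Finset.single_le_sum (f := f) (fun i _ => hf i)
      (Finset.mem_range.2 (by omega))
  refine ⟨∑ r ∈ Finset.range (N + 1), C r, ∑ r ∈ Finset.range (N + 1), ρ r,
    ∑ r ∈ Finset.range (N + 1), J r, Finset.sum_nonneg fun i _ => hC i,
    Finset.sum_nonneg fun i _ => hρ i, Finset.sum_nonneg fun i _ => hJ i, ?_⟩
  intro X hX k ps hk hkX hlen hz hd Dd hDd hDl Bd hBd hyp
  have hR := ((HR ps.length hlen).mono (hC _) (hle C hC _ hlen) (hle ρ hρ _ hlen)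
    (hle J hJ _ hlen)) X hX k ps.get hk hkX (fun i => hz _ (List.get_mem _ _))
    (fun i => hd _ (List.get_mem _ _)) Dd hDd (fun i => hDl _ (List.get_mem _ _)) Bd hBd
  have e : List.ofFn ps.get = ps := List.ofFn_get ps
  rw [e] at hR
  refine hR fun l s' hl hch hG => hyp l (List.ofFn s') hl ?_ hG
  rw [List.forall₂_iff_get]
  refine ⟨by simp, fun i hi hi' => ?_⟩
  have := hch ⟨i, hi'⟩
  simpa using this

end Crest.Agent.R017.XPX241
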