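import Crest.Agent.R017.R4d_571
import Crest.Agent.R017.PBx_791
import Crest.Agent.R017.XPX2_241
import Crest.Agent.R017.Mono4_858

/-!
# Row 17, T.7, E3 for the exceptional class (helper116), part a: 571's chain with a frequency filter

* `grandXQ`, `natGcQ`, `natGXQ`, `flagGXQ`, `listRXQ` : helper571's `grandX` .. `listRX`
  (R3d_571, R3e_571) for the frequencies with `Q`
-/

set_option autoImplicit false
set_option maxHeartbeats 400000

noncomputable section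

open Complex
open scoped ComplexConjugate

namespace Crest.Agent.R017.RHX116

open Crest.Agent.R012 Crest.Agent.R012.Eis Crest.Agent.R012.LS2 Crest.Agent.R012.Gauss880
open Crest.Agent.R012.PSer47 (IsChar)
open Crest.Agent.R012.Div277 Crest.Agent.R012.Weight600
open Crest.Agent.R017.CM106 Crest.Agent.R017.FE47
open Crest.Agent.R017.B770
open Crest.Agent.R017.Prov71
open Crest.Agent.R017.HP842 (UT Pc pc KS sqc Th al alL ssub pc_support FS_cv FS_pc)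
open Crest.Agent.R017.TPOk571 (IP FP SD SD_w SD_len SD_ht sd_ok relU)
open Crest.Agent.R017.TP320 (Fam tw)
open Crest.Agent.R017.XHB411 (tl)
open Crest.Agent.R017.XRG106 (Rl RFp ip chd chd_pc tl_ofFn CS_al RFp_ofFn one_add_mul exists_rep
  rep CS_eq_zero)
open Crest.Agent.R017.NtC320 (gC gC_ne gC_fin MulCh Tn mem_Tn nm_prod_le cg cB cg_prim cB_prim
  gp_cg gp_cB cB_dvd cg_dvd gC_nt nt_qf QF_of_lin Lin_gC norm_CS_gC_dil prim_prod)
open Crest.Agent.R017.Rough381 (sh shS sh_OK)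
open Crest.Agent.R017.Leg381 (alf Pf alF LF alF_get LF_get)
open Crest.Agent.R017.StA828 (gp)
open Crest.Agent.R017.Mono858 (RQq)
open Crest.Agent.R017.R3571

variable {r : ℕ}

open Classical in
lemma RQq_ofFn {h : ℝ → ℝ} {P : DPar} {Q : Eis → Prop} {r : ℕ} (s : Fin r → Pq) {L : ℝ}
    (hL : 0 < L) : RQq Q P h (Real.log L) (List.ofFn s) =
      ∑ k ∈ (bl L).filter Q, ∏ i, ‖CS (pc h ((s i).pc P)) k‖ ^ 2 := by
  unfold Mono858.RQq RQ
  rw [Real.exp_log hL]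
  refine Finset.sum_congr rfl fun k _ => ?_
  rw [List.map_map, List.map_ofFn, List.prod_ofFn]
  rfl

open Classical in
/-- **child indices → natural lists**, coprimality and frequency depending on the index -/
theorem grandXQ {h : ℝ → ℝ} {c : ℝ} (hpu : PU h c) (μ : ℝ) (r : ℕ) {ρ : ℝ}
    (hρ : 0 ≤ ρ) {ε : ℝ} (hε : 0 < ε) :
    ∃ C : ℝ, 1 ≤ C ∧ ∀ C' : ℝ, C ≤ C' → ∀ (P : DPar), P.OK → ∀ (Q : Eis → Prop) (s : Fin r → Pq),
      (∀ i, 0 ≤ (s i).z) → ∀ j : Fin r → IP, Below P ρ j s →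
      ∀ {β : Type} (T : Finset β) (Wx : β → ℝ), (∀ x ∈ T, 0 ≤ Wx x) → ∀ (q fr : β → Eis),
      (∀ x ∈ T, q x ≠ 0) →
      ∀ X0 Q0 Λ B Tm : ℝ, 1 ≤ X0 → 1 ≤ Q0 → (∀ x ∈ T, (nm (q x) : ℝ) ≤ Q0) →
      (∀ i, Real.exp (s i).z ≤ X0) → 0 < Λ → 0 ≤ B → 0 ≤ Tm →
      (∀ x ∈ T, fr x ∈ (bl Λ).filter Q) →
      (∀ κ ∈ bl Λ, ∑ x ∈ T.filter (fun x => fr x = κ), Wx x ≤ Tm) →
      (∀ (s' : Fin r → Pq) (W : ℝ), 1 ≤ W → (∀ i, Rl C' W (s' i) (s i)) →
        tl Dq (List.ofFn s') ≤ ∑ i, (j i).z + C' →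
        RQq Q P h (Real.log Λ) (List.ofFn s') ≤
          B * Real.exp (tl Dq (List.ofFn s')) * W ^ (2 * μ)) →
      ∑ x ∈ T, Wx x * ‖CS (sqc (q x) (al h (fun i => (j i).pc))) (fr x)‖ ^ 2 ≤
        C' * Q0 ^ ε * X0 ^ ε * (Tm * B * Real.exp (∑ i, (j i).z) * Wt j ^ (2 * μ)) := by
  obtain ⟨R, hR0, hR⟩ := exists_R (cs_cx hpu.cs)
  obtain ⟨T0, C1, hC1, hT, hrep⟩ := exists_rep hpu hR
  obtain ⟨C3, hC3, hS⟩ := sq_nat_pc_ix r hR0 hε
  set Kr : ℝ := (C1 ^ 2) ^ r * Real.exp (r * (R + C1)) with hKr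
  have hKr1 : 1 ≤ Kr := by
    refine one_le_mul_of_one_le_of_one_le (one_le_pow₀ (one_le_pow₀ hC1)) ?_
    exact Real.one_le_exp (by positivity)
  have hE1 : 1 ≤ Real.exp ρ := Real.one_le_exp hρ
  have hE2 : 1 ≤ Real.exp R := Real.one_le_exp hR0
  have hEe : 1 ≤ Real.exp ρ ^ ε := Real.one_le_rpow hE1 hε.le
  have hr0 : (0 : ℝ) ≤ r := Nat.cast_nonneg r
  have hrR : 0 ≤ r * (R + C1) := by positivity
  have hK0 : 1 ≤ C3 * Real.exp ρ ^ ε * Kr :=
    one_le_mul_of_one_le_of_one_le (one_le_mul_of_one_le_of_one_le hC3 hEe) hKr1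
  refine ⟨C3 * Real.exp ρ ^ ε * Kr + (ρ + R + C1) + Real.exp ρ * Real.exp R + r * (R + C1), ?_, ?_⟩
  · have : 0 ≤ Real.exp ρ * Real.exp R := by positivity
    linarith
  intro C' hC' P hP Q s hs j hj β T Wx hWx q fr hq X0 Q0 Λ B Tm hX0 hQ0 hqQ hsX hΛ0 hB hTm0 hfr hTm hyp
  have hEE : 1 ≤ Real.exp ρ * Real.exp R := one_le_mul_of_one_le_of_one_le hE1 hE2
  have hC'a : C3 * Real.exp ρ ^ ε * Kr ≤ C' := by linarith
  have hC'b : ρ + C1 ≤ C' := by linarith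
  have hC'c : Real.exp ρ * Real.exp R ≤ C' := by linarith
  have hC'd : r * (R + C1) ≤ C' := by linarith
  have hC'0 : 1 ≤ C' := by linarith
  have hX00 : 0 < X0 := by linarith
  have hQ00 : 0 < Q0 := by linarith
  set W : ℝ := Wt j with hW
  have hW1 : 1 ≤ W := one_le_Wt j
  have hWi : ∀ i, 1 + |(j i).s| ≤ W := le_Wt j
  have hW0 : 0 < W := by linarith
  set B1 : ℝ := Tm * B * W ^ (2 * μ) * Kr with hB1
  have hB10 : 0 ≤ B1 := by positivity
  have key2 := hS h hR (Fin r) (by simp) (fun i => (j i).pc) (fun i => (j i).pc_OK)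
    (Real.exp ρ * X0) (one_le_mul_of_one_le_of_one_le hE1 hX0) (fun i => by
      show Real.exp (j i).z ≤ _
      calc Real.exp (j i).z ≤ Real.exp ((s i).z + ρ) := Real.exp_le_exp.2 (hj.z i)
        _ = Real.exp (s i).z * Real.exp ρ := Real.exp_add _ _
        _ ≤ X0 * Real.exp ρ := by
            have := hsX i
            gcongr
        _ = _ := mul_comm _ _) T Wx hWx q fr Q0 hq hqQ hQ0 B1 hB10 ?_
  · refine key2.trans ?_
    have e1 : ∏ i, ((j i).pc).Y = Real.exp (∑ i, (j i).z) := by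
      rw [Real.exp_sum]
      rfl
    rw [e1]
    have h7 : (Real.exp ρ * X0) ^ ε = Real.exp ρ ^ ε * X0 ^ ε :=
      Real.mul_rpow (Real.exp_pos _).le hX00.le
    rw [h7]
    have hp : 0 ≤ Q0 ^ ε * X0 ^ ε * (Tm * B * Real.exp (∑ i, (j i).z) * W ^ (2 * μ)) := by
      positivity
    calc C3 * Q0 ^ ε * (Real.exp ρ ^ ε * X0 ^ ε) * (B1 * Real.exp (∑ i, (j i).z))
        = (C3 * Real.exp ρ ^ ε * Kr) * (Q0 ^ ε * X0 ^ ε *
          (Tm * B * Real.exp (∑ i, (j i).z) * W ^ (2 * μ))) := by rw [hB1]; ring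
      _ ≤ C' * (Q0 ^ ε * X0 ^ ε *
          (Tm * B * Real.exp (∑ i, (j i).z) * W ^ (2 * μ))) := mul_le_mul_of_nonneg_right hC'a hp
      _ = _ := by ring
  -- the grandchildren
  intro b hb
  have hb0 : ∀ i, b i ≠ 0 := fun i => (hb i).ne_zero
  set g : Fin r → Pq := fun i => (chd (s i) (j i)).sub (b i) (hb0 i) with hg
  have hgz : ∀ i, (g i).z = (j i).z - Real.log (nm (b i)) := fun i => rfl
  have hlogb : ∀ i, 0 ≤ Real.log (nm (b i)) := fun i =>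
    Real.log_nonneg (by exact_mod_cast nm_pos.2 (hb0 i))
  have hgpc : ∀ i, (g i).pc P = ((j i).pc).sub (b i) := by
    intro i
    have hψ : (j i).ψ = (ip hP (s i)).ψ := Subtype.ext (hj.ψ i)
    rw [← chd_pc hP hψ]
    exact HP842.Pq_sub_pc P _ (hb0 i)
  have e2 : ssub (fun i => (j i).pc) b = fun i => (g i).pc P := by
    funext i
    rw [hgpc]
    rfl
  have hh : Bump h := ⟨R, hR⟩
  have hY : ∏ i, (ssub (fun i => (j i).pc) b i).Y = ∏ i, Real.exp (g i).z := by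
    rw [e2]
    rfl
  rw [hY, e2]
  have hr0' : 0 ≤ B1 * ∏ i, Real.exp (g i).z :=
    mul_nonneg hB10 (Finset.prod_nonneg fun i _ => (Real.exp_pos _).le)
  by_cases hneg : ∃ i, (g i).z < -R
  · obtain ⟨i, hi⟩ := hneg
    rw [Finset.sum_eq_zero]
    · exact hr0'
    intro k _
    rw [CS_al hh hP, Finset.prod_eq_zero (Finset.mem_univ i) (CS_eq_zero hR hP hi _)]
    simp
  push Not at hneg
  have hRl : ∀ i, Rl C' W (rep T0 (g i)) (s i) := by
    intro i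
    have hd1 : (1 : ℝ) ≤ nm (s i).d := by exact_mod_cast nm_pos.2 (s i).d0
    have hz1 : 1 ≤ Real.exp (s i).z := Real.one_le_exp (hs i)
    unfold rep
    by_cases hz : (g i).z < 0
    · rw [if_pos hz]
      obtain ⟨t1, t2, t3, t4, t5, t6⟩ := hT (g i).kd
      refine ⟨t1, fun _ => t2, t3, ?_, ?_, ?_⟩
      · linarith [hs i]
      · rw [t5, abs_zero, add_zero]
        exact one_le_mul_of_one_le_of_one_le hW1 (by linarith [abs_nonneg (s i).t])
      · refine t6.trans ?_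
        have : C1 ≤ C' := by linarith
        calc C1 ≤ C' * 1 * 1 := by linarith
          _ ≤ C' * nm (s i).d * Real.exp (s i).z := by gcongr
    · rw [if_neg hz]
      push Not at hz
      refine ⟨rfl, fun h1 => ?_, hz, ?_, ?_, ?_⟩
      · have h2 : (j i).u = .one := hj.one i h1
        show ((j i).u).sub (b i) = .one
        rw [h2]
        unfold HP842.UT.sub
        rw [if_neg]
        rintro ⟨h3, _⟩
        exact absurd h3 (by decide)
      · rw [hgz]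
        linarith [hj.z i, hlogb i]
      · show 1 + |(j i).t0 + (j i).s| ≤ _
        rw [hj.t0]
        exact one_add_mul (hWi i)
      · have h3 : (nm (g i).d : ℝ) ≤ nm (s i).d * nm (b i) := by
          have hb1 : (1 : ℝ) ≤ nm (b i) := by exact_mod_cast nm_pos.2 (hb0 i)
          have e5 : (g i).d = if (j i).u = .mu ∨ (j i).u = .sq then (s i).d * b i else (s i).d := by
            rfl
          rw [e5]
          split_ifs
          · rw [nm_mul]; push_cast; exact le_rfl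
          · exact le_mul_of_one_le_right (Nat.cast_nonneg _) hb1
        have h4 : (nm (b i) : ℝ) ≤ Real.exp ρ * Real.exp (s i).z := by
          have hbp : (0 : ℝ) < nm (b i) := by exact_mod_cast nm_pos.2 (hb0 i)
          rw [← Real.exp_add, ← Real.exp_log hbp]
          refine Real.exp_le_exp.2 ?_
          rw [hgz] at hz
          linarith [hj.z i]
        have h5 : Real.exp ρ ≤ C' := by
          refine le_trans ?_ hC'c
          exact le_mul_of_one_le_right (Real.exp_pos _).le hE2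
        calc (nm (g i).d : ℝ) ≤ nm (s i).d * nm (b i) := h3
          _ ≤ nm (s i).d * (Real.exp ρ * Real.exp (s i).z) := by gcongr
          _ ≤ nm (s i).d * (C' * Real.exp (s i).z) := by gcongr
          _ = _ := by ring
  have h9 : tl Dq (List.ofFn fun i => rep T0 (g i)) ≤ (∑ i, (g i).z) + r * (R + C1) := by
    rw [tl_ofFn]
    calc ∑ i, (rep T0 (g i)).z ≤ ∑ i, ((g i).z + (R + C1)) := by
          refine Finset.sum_le_sum fun i _ => ?_
          unfold rep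
          by_cases hz : (g i).z < 0
          · rw [if_pos hz]
            have := (hT (g i).kd).2.2.2.1
            linarith [hneg i]
          · rw [if_neg hz]
            linarith
      _ = _ := by
          rw [Finset.sum_add_distrib, Finset.sum_const, Finset.card_univ, Fintype.card_fin,
            nsmul_eq_mul]
  have h10 : ∑ i, (g i).z ≤ ∑ i, (j i).z :=
    Finset.sum_le_sum fun i _ => by rw [hgz]; linarith [hlogb i]
  have h8 := hyp (fun i => rep T0 (g i)) W hW1 hRl (by linarith)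
  rw [RQq_ofFn _ hΛ0] at h8
  calc ∑ x ∈ T, Wx x * ‖CS (al h fun i => (g i).pc P) (fr x)‖ ^ 2
      ≤ Tm * ∑ k ∈ (bl Λ).filter Q, ‖CS (al h fun i => (g i).pc P) k‖ ^ 2 :=
        sum_mult_le T Wx fr ((bl Λ).filter Q) hfr (fun κ hκ => hTm κ (Finset.mem_filter.1 hκ).1)
          (F := fun k => ‖CS (al h fun i => (g i).pc P) k‖ ^ 2) fun _ => by positivity
    _ ≤ Tm * ∑ k ∈ (bl Λ).filter Q, (C1 ^ 2) ^ r * ∏ i, ‖CS (pc h ((rep T0 (g i)).pc P)) k‖ ^ 2 := by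
        refine mul_le_mul_of_nonneg_left (Finset.sum_le_sum fun k hk => ?_) hTm0
        rw [CS_al hh hP, norm_prod, ← Finset.prod_pow]
        calc ∏ i, ‖CS (pc h ((g i).pc P)) k‖ ^ 2
            ≤ ∏ i, (C1 ^ 2 * ‖CS (pc h ((rep T0 (g i)).pc P)) k‖ ^ 2) := by
              refine Finset.prod_le_prod (fun i _ => by positivity) fun i _ => ?_
              rw [← mul_pow]
              exact pow_le_pow_left₀ (norm_nonneg _) (hrep P hP (g i) k) 2
          _ = _ := by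
              rw [Finset.prod_mul_distrib, Finset.prod_const, Finset.card_univ, Fintype.card_fin]
    _ = Tm * ((C1 ^ 2) ^ r * ∑ k ∈ (bl Λ).filter Q, ∏ i, ‖CS (pc h ((rep T0 (g i)).pc P)) k‖ ^ 2) := by
        rw [← Finset.mul_sum]
    _ ≤ Tm * ((C1 ^ 2) ^ r * (B * Real.exp (tl Dq (List.ofFn fun i => rep T0 (g i))) *
          W ^ (2 * μ))) := by gcongr
    _ ≤ Tm * ((C1 ^ 2) ^ r * (B * Real.exp ((∑ i, (g i).z) + r * (R + C1)) *
          W ^ (2 * μ))) := by gcongr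
    _ = B1 * ∏ i, Real.exp (g i).z := by
        rw [hB1, hKr, ← Real.exp_sum, Real.exp_add]
        ring


open Classical in
/-- **natural lists, one class**: the moments of the subsequences, everything depending on the
index -/
theorem natGcQ {h : ℝ → ℝ} {c : ℝ} (hpu : PU h c) {μ : ℝ} (hμ : 0 ≤ μ) (s0 : ℝ) (r : ℕ) {ε : ℝ}
    (hε : 0 < ε) :
    ∃ C : ℝ, 1 ≤ C ∧ ∀ (P : DPar), P.OK → ∀ (Q : Eis → Prop) (s : Fin r → Pq),
      (∀ i, 0 ≤ (s i).z) → ∀ j : Fin r → IP, Below P 0 j s → (∀ i, (j i).s = 0) →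
      ∀ {β : Type} (T : Finset β) (Wx : β → ℝ), (∀ x ∈ T, 0 ≤ Wx x) →
      ∀ (q : Eis) (δ e π fr : β → Eis), q ≠ 0 → (∀ x ∈ T, IsPrim (δ x)) →
      (∀ x ∈ T, IsPrim (e x)) → (∀ x ∈ T, π x ≠ 0) →
      ∀ X0 Λ t B Tm α : ℝ, 1 ≤ X0 → (nm q : ℝ) ≤ X0 → (∀ x ∈ T, (nm (δ x) : ℝ) ≤ X0) →
      (∀ x ∈ T, (nm (e x) : ℝ) ≤ X0) → (∀ x ∈ T, (nm (π x) : ℝ) ≤ X0) →
      (∀ i, Real.exp (s i).z ≤ X0) → 0 < Λ → 0 ≤ B → 0 ≤ Tm →
      0 ≤ α → Real.exp α ≤ X0 ^ (2 : ℝ) →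
      (∀ x ∈ T, α ≤ Real.log (nm (δ x * e x)) ∧ Real.log (nm (δ x * e x)) ≤ α + 1) →
      (∀ x ∈ T, fr x ∈ (bl Λ).filter Q) →
      (∀ κ ∈ bl Λ, ∑ x ∈ T.filter (fun x => fr x = κ), Wx x ≤ Tm) →
      (∀ (s' : Fin r → Pq) (W : ℝ), 1 ≤ W → (∀ i, Rl C W (s' i) (s i)) →
        tl Dq (List.ofFn s') ≤ ∑ i, (j i).z - α + C →
        RQq Q P h (Real.log Λ) (List.ofFn s') ≤
          B * Real.exp (tl Dq (List.ofFn s')) * W ^ (2 * μ)) →
      ∑ x ∈ T, Wx x * ((nm (e x) : ℝ) ^ s0 *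
        ‖CS (gC (sqc q (al h (fun i => (j i).pc))) (δ x) (e x) (π x) (tw s0 t)) (fr x)‖) ^ 2 ≤
        C * X0 ^ ε * (1 + |t|) ^ (2 * (r * μ)) * (Tm * B) *
          Real.exp ((1 - 2 * s0) * (∑ i, (j i).z - α)) := by
  obtain ⟨R, hR0, hR⟩ := exists_R (cs_cx hpu.cs)
  have hΦ := sd_ok hpu hR0 hR hμ r
  set Rt : ℝ := r * (2 * R + 3) with hRt
  have hRt0 : 0 ≤ Rt := by positivity
  set ε' : ℝ := ε / 9 with hε'
  have hε'0 : 0 < ε' := by positivity
  obtain ⟨C2, hC2, hsp⟩ := hΦ.split ε' s0 hε'0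
  obtain ⟨C3, hC3, hgr⟩ := grandXQ hpu μ r hRt0 hε'0
  have hE1 : 1 ≤ Real.exp Rt := Real.one_le_exp hRt0
  have hK : 1 ≤ C2 ^ 2 * C3 * Real.exp Rt :=
    one_le_mul_of_one_le_of_one_le (one_le_mul_of_one_le_of_one_le (one_le_pow₀ hC2) hC3) hE1
  refine ⟨C2 ^ 2 * C3 * Real.exp Rt + (C3 + Rt), by linarith, ?_⟩
  set C : ℝ := C2 ^ 2 * C3 * Real.exp Rt + (C3 + Rt) with hC
  intro P hP Q s hs j hj hjs β T Wx hWx q δ e π fr hq hδ he hπ X0 Λ t B Tm α hX0 hqX hδX heX hπX hsX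
    hΛ hB hTm0 hα0 hαX hα hfr hTm hyp
  have hX00 : 0 < X0 := by linarith
  have hδe : ∀ x ∈ T, IsPrim (δ x * e x) := fun x hx => (hδ x hx).mul (he x hx)
  set S0 : ℝ := ∑ i, (j i).z with hS0
  have hlen : (SD h μ r).len j = S0 := SD_len h μ r j
  have hht : (SD h μ r).ht j = 1 := by
    rw [SD_ht]
    refine Finset.prod_eq_one fun i _ => ?_
    rw [hjs i, abs_zero, add_zero, Real.one_rpow]
  have hwj : (SD h μ r).w j = al h (fun i => (j i).pc) := SD_w h μ r j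
  -- the support
  have hsupp : ∀ j' : Fin r → IP, ∀ b, (SD h μ r).w j' b ≠ 0 →
      (nm b : ℝ) ≤ Real.exp ((SD h μ r).len j' + Rt) := by
    intro j' b hb
    have hb0 : (0 : ℝ) < nm b := nm_cast_pos (hΦ.prim j' b hb).ne_zero
    rw [← Real.log_le_iff_le_exp hb0]
    have := (abs_le.1 (hΦ.supp j' b hb)).2
    linarith
  set X₁ : ℝ := Real.exp (|S0| + |α| + 2 * Rt) with hX₁
  have hX₁0 : 0 ≤ X₁ := (Real.exp_pos _).le
  have hw1 : ∀ n, (SD h μ r).w j n ≠ 0 → (nm n : ℝ) ≤ X₁ := fun n hn => (hsupp j n hn).trans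
    (Real.exp_le_exp.2 (by
      rw [hlen]; have := le_abs_self S0; have := abs_nonneg α; linarith))
  set N : β → Eis := fun x => q * (δ x * e x) * π x with hN
  have hN0 : ∀ x ∈ T, N x ≠ 0 := fun x hx =>
    mul_ne_zero (mul_ne_zero hq (hδe x hx).ne_zero) (hπ x hx)
  have hNX : ∀ x ∈ T, (nm (N x) : ℝ) ≤ X0 ^ (4 : ℝ) := by
    intro x hx
    have h1 := hδX x hx
    have h2 := heX x hx
    have h3 := hπX x hx
    rw [hN]
    simp only
    rw [nm_mul, nm_mul, nm_mul]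
    push_cast
    have h9 : X0 ^ (4 : ℝ) = X0 * (X0 * X0) * X0 := by
      rw [show (4 : ℝ) = ((4 : ℕ) : ℝ) by norm_num, Real.rpow_natCast]; ring
    rw [h9]
    gcongr
  have hQ1 : 1 ≤ X0 ^ (4 : ℝ) := Real.one_le_rpow hX0 (by norm_num)
  -- the bound of the children
  set M2 : ℝ := C3 * (X0 ^ (4 : ℝ)) ^ ε' * X0 ^ ε' * (Tm * B * Real.exp (S0 - α + Rt)) with hM2
  have hM20 : 0 ≤ M2 := by positivity
  have hchild : ∀ j', (SD h μ r).good j' → (SD h μ r).dom Rt j' j →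
      (SD h μ r).len j' ≤ (SD h μ r).len j - α + Rt →
      ∑ x ∈ T, Wx x * ‖CS (sqc (N x) ((SD h μ r).w j')) (fr x)‖ ^ 2 ≤
        M2 * (SD h μ r).ht j' ^ 2 := by
    intro j' _ hdom hl
    have hdom' : ∀ i, (j' i).z ≤ (j i).z + Rt ∧ (j' i).t0 = (j i).t0 ∧ (j' i).ψ = (j i).ψ ∧
      relU (j' i).u (j i).u := hdom
    have hlen' : (SD h μ r).len j' = ∑ i, (j' i).z := SD_len h μ r j'
    rw [hlen', hlen] at hl
    have hb : Below P Rt j' s := by
      refine ⟨fun i => ?_, fun i => ?_, fun i => ?_, fun i hi => ?_⟩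
      · have := hj.z i
        linarith [(hdom' i).1]
      · rw [(hdom' i).2.1, hj.t0]
      · rw [(hdom' i).2.2.1, hj.ψ]
      · have h2 := hj.one i hi
        rcases (hdom' i).2.2.2 with h3 | h3
        · rw [h3, h2]
        · rw [h2] at h3
          exact absurd h3.1 (by decide)
    rw [ht_sq]
    have h1 := hgr C3 le_rfl P hP Q s hs j' hb T Wx hWx N fr hN0 X0 (X0 ^ (4 : ℝ)) Λ B Tm hX0 hQ1 hNX
      hsX hΛ hB hTm0 hfr hTm (fun s' W hW hR' hl' => hyp s' W hW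
        (fun i => (hR' i).mono (by linarith)) (by linarith))
    have e1 : ∀ x, CS (sqc (N x) ((SD h μ r).w j')) (fr x) =
        CS (sqc (N x) (al h (fun i => (j' i).pc))) (fr x) := by
      intro x; rw [SD_w]
    rw [Finset.sum_congr rfl fun x _ => by rw [e1 x]]
    refine h1.trans ?_
    have h2 : Real.exp (∑ i, (j' i).z) ≤ Real.exp (S0 - α + Rt) := Real.exp_le_exp.2 hl
    have h3 : 0 ≤ Wt j' ^ (2 * μ) := Real.rpow_nonneg (by linarith [one_le_Wt j']) _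
    rw [hM2]
    calc C3 * (X0 ^ (4 : ℝ)) ^ ε' * X0 ^ ε' * (Tm * B * Real.exp (∑ i, (j' i).z) *
          Wt j' ^ (2 * μ))
        ≤ C3 * (X0 ^ (4 : ℝ)) ^ ε' * X0 ^ ε' * (Tm * B * Real.exp (S0 - α + Rt) *
          Wt j' ^ (2 * μ)) := by gcongr
      _ = _ := by ring
  -- the splitting
  have hcR : ∀ x ∈ T, ∀ b ∈ S X₁, cR (N x) (fr x) b ≠ 0 → IsPrim b ∧ IsCoprime (δ x * e x) b := by
    intro x _ b _ hb
    have h1 := cR_ne hb
    refine ⟨h1.1, ?_⟩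
    have h2 := h1.2.2
    rw [hN] at h2
    exact h2.of_mul_right_left.of_mul_right_right.symm
  have hspl := MoF106.split_sq' hsp T (fun x => δ x * e x) Wx hWx (S X₁)
    (fun x b => cR (N x) (fr x) b) j α t
    (fun x hx => ⟨hδe x hx, (hα x hx).1, (hα x hx).2⟩) hcR (M := Real.sqrt M2)
    (Real.sqrt_nonneg _) (fun j => zero_le_one.trans (hΦ.ht1 j)) (by
      intro j' hg hd hl hl2
      have hw2 : ∀ b, (SD h μ r).w j' b ≠ 0 → (nm b : ℝ) ≤ X₁ := by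
        intro b hb
        refine (hsupp j' b hb).trans (Real.exp_le_exp.2 ?_)
        rw [hlen] at hl
        have h3 := le_abs_self S0
        have h4 := neg_abs_le α
        linarith
      have e1 : ∀ x ∈ T, Wx x *
          ‖∑ b ∈ S X₁, (SD h μ r).w j' b * cR (N x) (fr x) b‖ ^ 2 =
            Wx x * ‖CS (sqc (N x) ((SD h μ r).w j')) (fr x)‖ ^ 2 := by
        intro x _
        congr 3
        unfold CM106.CS
        rw [tsum_eq_sum (s := S X₁)]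
        · refine Finset.sum_congr rfl fun b hb => ?_
          have hbp := ((mem_S hX₁0).1 hb).2.1
          unfold cR HP842.sqc
          rw [if_pos hbp]; ring
        · intro b hb
          by_contra h0
          have h1 : sqc (N x) ((SD h μ r).w j') b ≠ 0 := left_ne_zero_of_mul h0
          have h2 : (SD h μ r).w j' b ≠ 0 := right_ne_zero_of_mul h1
          have h3 : Th (N x) b ≠ 0 := left_ne_zero_of_mul h1
          apply hb
          rw [mem_S hX₁0]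
          refine ⟨hw2 b h2, hΦ.prim j' b h2, ?_⟩
          unfold HP842.Th at h3
          split_ifs at h3 with h4
          · exact h4.1
          · exact absurd rfl h3
      rw [Finset.sum_congr rfl e1, mul_pow, Real.sq_sqrt hM20]
      exact hchild j' hg hd hl)
  -- conclusion
  have h1 : ∑ x ∈ T, Wx x * ((nm (e x) : ℝ) ^ s0 *
        ‖CS (gC (sqc q (al h (fun i => (j i).pc))) (δ x) (e x) (π x) (tw s0 t)) (fr x)‖) ^ 2 ≤
      ∑ x ∈ T, Wx x *
        ‖∑ b ∈ S X₁, (SD h μ r).w j (δ x * e x * b) * tw s0 t b * cR (N x) (fr x) b‖ ^ 2 := by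
    refine Finset.sum_le_sum fun x hx => ?_
    have h2 := norm_CS_gC (w := (SD h μ r).w j) (fun n => hΦ.prim j n) hX₁0 hw1 q (hδ x hx)
      (he x hx) (π x) s0 t (fr x)
    have hne0 : (0 : ℝ) < nm (e x) := nm_cast_pos (he x hx).ne_zero
    rw [hwj] at h2 ⊢
    refine mul_le_mul_of_nonneg_left ?_ (hWx x hx)
    refine pow_le_pow_left₀ (by positivity) ?_ 2
    calc (nm (e x) : ℝ) ^ s0 *
          ‖CS (gC (sqc q (al h fun i => (j i).pc)) (δ x) (e x) (π x) (tw s0 t)) (fr x)‖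
        ≤ (nm (e x) : ℝ) ^ s0 * ((nm (e x) : ℝ) ^ (-s0) *
          ‖∑ b ∈ S X₁, al h (fun i => (j i).pc) (δ x * e x * b) * tw s0 t b *
            cR (q * (δ x * e x) * π x) (fr x) b‖) := mul_le_mul_of_nonneg_left h2 (by positivity)
      _ = ((nm (e x) : ℝ) ^ s0 * (nm (e x) : ℝ) ^ (-s0)) *
          ‖∑ b ∈ S X₁, al h (fun i => (j i).pc) (δ x * e x * b) * tw s0 t b *
            cR (q * (δ x * e x) * π x) (fr x) b‖ := by ring
      _ = _ := by
        rw [← Real.rpow_add hne0, add_neg_cancel, Real.rpow_zero, one_mul]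
  refine h1.trans (hspl.trans ?_)
  rw [hlen, hht, mul_one]
  have ht0 : (0 : ℝ) ≤ 1 + |t| := by positivity
  have e2 : ((1 + |t|) ^ (r * μ)) ^ 2 = (1 + |t|) ^ (2 * (r * μ)) := by
    rw [← Real.rpow_natCast, ← Real.rpow_mul ht0]; congr 1; push_cast; ring
  have e4 : Real.exp (ε' * |α|) ^ 2 ≤ X0 ^ (4 * ε') := by
    rw [abs_of_nonneg hα0, ← Real.exp_nat_mul]
    have h7 : Real.exp (((2 : ℕ) : ℝ) * (ε' * α)) = (Real.exp α) ^ (2 * ε') := by
      rw [← Real.exp_mul]; congr 1; push_cast; ring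
    rw [h7]
    calc (Real.exp α) ^ (2 * ε') ≤ (X0 ^ (2 : ℝ)) ^ (2 * ε') :=
          Real.rpow_le_rpow (by positivity) hαX (by positivity)
      _ = _ := by rw [← Real.rpow_mul hX00.le]; congr 1; ring
  have e5 : (X0 ^ (4 : ℝ)) ^ ε' = X0 ^ (4 * ε') := by rw [← Real.rpow_mul hX00.le]
  have e7 : X0 ^ (4 * ε') * X0 ^ (4 * ε') * X0 ^ ε' = X0 ^ ε := by
    rw [← Real.rpow_add hX00, ← Real.rpow_add hX00]; congr 1; rw [hε']; ring
  have e8 : Real.exp (-s0 * (S0 - α)) ^ 2 * Real.exp (S0 - α + Rt) =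
      Real.exp ((1 - 2 * s0) * (S0 - α)) * Real.exp Rt := by
    rw [← Real.exp_nat_mul, ← Real.exp_add, ← Real.exp_add]
    congr 1; push_cast; ring
  calc (C2 * Real.exp (ε' * |α|) * Real.exp (-s0 * (S0 - α)) *
        (1 + |t|) ^ (r * μ) * Real.sqrt M2) ^ 2
      = C2 ^ 2 * Real.exp (ε' * |α|) ^ 2 * Real.exp (-s0 * (S0 - α)) ^ 2 *
        ((1 + |t|) ^ (r * μ)) ^ 2 * (Real.sqrt M2 ^ 2) := by ring
    _ = C2 ^ 2 * Real.exp (ε' * |α|) ^ 2 * Real.exp (-s0 * (S0 - α)) ^ 2 *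
        (1 + |t|) ^ (2 * (r * μ)) * M2 := by rw [e2, Real.sq_sqrt hM20]
    _ ≤ C2 ^ 2 * X0 ^ (4 * ε') * Real.exp (-s0 * (S0 - α)) ^ 2 *
        (1 + |t|) ^ (2 * (r * μ)) * M2 := by gcongr
    _ = (C2 ^ 2 * C3) * (X0 ^ (4 * ε') * X0 ^ (4 * ε') * X0 ^ ε') *
        (1 + |t|) ^ (2 * (r * μ)) * (Tm * B) *
        (Real.exp (-s0 * (S0 - α)) ^ 2 * Real.exp (S0 - α + Rt)) := by rw [hM2, e5]; ring
    _ = (C2 ^ 2 * C3 * Real.exp Rt) * X0 ^ ε * (1 + |t|) ^ (2 * (r * μ)) * (Tm * B) *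
        Real.exp ((1 - 2 * s0) * (S0 - α)) := by rw [e7, e8]; ring
    _ ≤ C * X0 ^ ε * (1 + |t|) ^ (2 * (r * μ)) * (Tm * B) *
        Real.exp ((1 - 2 * s0) * (S0 - α)) := by
        have : C2 ^ 2 * C3 * Real.exp Rt ≤ C := by rw [hC]; linarith
        gcongr


open Classical in
/-- **natural lists**: the moments of the subsequences, everything depending on the index -/
theorem natGXQ {h : ℝ → ℝ} {c : ℝ} (hpu : PU h c) {μ : ℝ} (hμ : 0 ≤ μ) {s0 : ℝ}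
    (hs1 : s0 ≤ 1 / 2) (r : ℕ) {ε : ℝ} (hε : 0 < ε) :
    ∃ C : ℝ, 1 ≤ C ∧ ∀ (P : DPar), P.OK → ∀ (Q : Eis → Prop) (s : Fin r → Pq),
      (∀ i, 0 ≤ (s i).z) → ∀ j : Fin r → IP, Below P 0 j s → (∀ i, (j i).s = 0) →
      ∀ {β : Type} (T : Finset β) (Wx : β → ℝ), (∀ x ∈ T, 0 ≤ Wx x) →
      ∀ (q : Eis) (δ e π fr : β → Eis), q ≠ 0 → (∀ x ∈ T, IsPrim (δ x)) →
      (∀ x ∈ T, IsPrim (e x)) → (∀ x ∈ T, π x ≠ 0) →
      ∀ X0 Λ t B Tm A0 : ℝ, 1 ≤ X0 → (nm q : ℝ) ≤ X0 → (∀ x ∈ T, (nm (δ x) : ℝ) ≤ X0) →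
      (∀ x ∈ T, (nm (e x) : ℝ) ≤ X0) → (∀ x ∈ T, (nm (π x) : ℝ) ≤ X0) →
      (∀ i, Real.exp (s i).z ≤ X0) → 0 < Λ → 0 ≤ B → 0 ≤ Tm → 0 < A0 →
      (∀ x ∈ T, A0 ≤ nm (δ x) * nm (e x)) →
      (∀ x ∈ T, fr x ∈ (bl Λ).filter Q) →
      (∀ κ ∈ bl Λ, ∑ x ∈ T.filter (fun x => fr x = κ), Wx x ≤ Tm) →
      (∀ (s' : Fin r → Pq) (W : ℝ), 1 ≤ W → (∀ i, Rl C W (s' i) (s i)) →
        tl Dq (List.ofFn s') ≤ ∑ i, (j i).z - Real.log A0 + C →
        RQq Q P h (Real.log Λ) (List.ofFn s') ≤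
          B * Real.exp (tl Dq (List.ofFn s')) * W ^ (2 * μ)) →
      ∑ x ∈ T, Wx x * ((nm (e x) : ℝ) ^ s0 *
        ‖CS (gC (sqc q (al h (fun i => (j i).pc))) (δ x) (e x) (π x) (tw s0 t)) (fr x)‖) ^ 2 ≤
        C * X0 ^ ε * (1 + |t|) ^ (2 * (r * μ)) * (Tm * B) *
          (Real.exp (∑ i, (j i).z) / A0) ^ (1 - 2 * s0) := by
  obtain ⟨C, hC, H⟩ := natGcQ hpu hμ s0 r (ε := ε / 2) (by positivity)
  set K : ℝ := 4 / ε + 1 with hK
  have hK0 : 0 ≤ K := by positivity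
  have hK1 : 1 ≤ K := by
    have : 0 ≤ 4 / ε := by positivity
    rw [hK]; linarith
  refine ⟨K * C, one_le_mul_of_one_le_of_one_le hK1 hC, ?_⟩
  have hCK : C ≤ K * C := le_mul_of_one_le_left (by linarith) hK1
  intro P hP Q s hs j hj hjs β T Wx hWx q δ e π fr hq hδ he hπ X0 Λ t B Tm A0 hX0 hqX hδX heX hπX hsX
    hΛ hB hTm0 hA0 hA hfr hTm hyp
  have hX00 : 0 < X0 := by linarith
  have hlX : 0 ≤ Real.log X0 := Real.log_nonneg hX0
  set S0 : ℝ := ∑ i, (j i).z with hS0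
  set α0 : ℝ := max 0 (Real.log A0) with hα0
  have hα00 : 0 ≤ α0 := le_max_left _ _
  have hα0A : Real.log A0 ≤ α0 := le_max_right _ _
  set lg : β → ℝ := fun x => Real.log (nm (δ x * e x)) with hlg
  have hnde : ∀ x ∈ T, (0 : ℝ) < nm (δ x * e x) := fun x hx =>
    nm_cast_pos ((hδ x hx).mul (he x hx)).ne_zero
  have hlg0 : ∀ x ∈ T, α0 ≤ lg x := by
    intro x hx
    refine max_le (Real.log_nonneg (one_le_nm ((hδ x hx).mul (he x hx)).ne_zero)) ?_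
    refine Real.log_le_log hA0 ((hA x hx).trans (le_of_eq ?_))
    rw [nm_mul]; push_cast; rfl
  have hlgX : ∀ x ∈ T, lg x ≤ 2 * Real.log X0 := by
    intro x hx
    have h1 := hδX x hx
    have h2 := heX x hx
    have h3 : (nm (δ x * e x) : ℝ) ≤ X0 ^ 2 := by
      rw [nm_mul, pow_two]; push_cast
      exact mul_le_mul h1 h2 (Nat.cast_nonneg _) hX00.le
    calc lg x ≤ Real.log (X0 ^ 2) := Real.log_le_log (hnde x hx) h3
      _ = _ := by rw [Real.log_pow]; push_cast; ring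
  set Jn : ℕ := ⌊2 * Real.log X0⌋₊ with hJn
  set cl : β → ℕ := fun x => ⌊lg x - α0⌋₊ with hcl
  have hcl' : ∀ x ∈ T, cl x ∈ Finset.range (Jn + 1) := by
    intro x hx
    rw [Finset.mem_range, Nat.lt_succ_iff]
    exact Nat.floor_le_floor (by linarith [hlgX x hx])
  set E : ℝ := C * X0 ^ (ε / 2) * (1 + |t|) ^ (2 * (r * μ)) * (Tm * B) *
          Real.exp ((1 - 2 * s0) * (S0 - α0)) with hE
  have hE0 : 0 ≤ E := by positivity
  have hcls : ∀ k ∈ Finset.range (Jn + 1), ∑ x ∈ T.filter (fun x => cl x = k), Wx x *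
      ((nm (e x) : ℝ) ^ s0 *
        ‖CS (gC (sqc q (al h (fun i => (j i).pc))) (δ x) (e x) (π x) (tw s0 t)) (fr x)‖) ^ 2 ≤ E := by
    intro k _
    rcases (T.filter (fun x => cl x = k)).eq_empty_or_nonempty with hemp | ⟨x0, hx0⟩
    · rw [hemp, Finset.sum_empty]; exact hE0
    have hx0T := (Finset.mem_filter.1 hx0).1
    have hx0c : cl x0 = k := (Finset.mem_filter.1 hx0).2
    have hk : ∀ x ∈ T.filter (fun x => cl x = k), α0 + k ≤ lg x ∧ lg x ≤ α0 + k + 1 := by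
      intro x hx
      have h1 := (Finset.mem_filter.1 hx)
      have h2 : 0 ≤ lg x - α0 := by linarith [hlg0 x h1.1]
      have h3 := Nat.floor_le h2
      have h4 := Nat.lt_floor_add_one (lg x - α0)
      have h5 : (⌊lg x - α0⌋₊ : ℝ) = k := by exact_mod_cast h1.2
      rw [h5] at h3 h4
      constructor <;> linarith
    have hsub : T.filter (fun x => cl x = k) ⊆ T := Finset.filter_subset _ _
    have h1 := H P hP Q s hs j hj hjs (T.filter (fun x => cl x = k)) Wx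
      (fun x hx => hWx x (hsub hx)) q δ e π fr hq (fun x hx => hδ x (hsub hx))
      (fun x hx => he x (hsub hx)) (fun x hx => hπ x (hsub hx)) X0 Λ t B Tm (α0 + k) hX0 hqX
      (fun x hx => hδX x (hsub hx)) (fun x hx => heX x (hsub hx)) (fun x hx => hπX x (hsub hx))
      hsX hΛ hB hTm0 (by positivity) (by
        have h2 := (hk x0 hx0).1
        have h3 := hlgX x0 hx0T
        have h4 : X0 ^ (2 : ℝ) = Real.exp (2 * Real.log X0) := by
          rw [Real.rpow_def_of_pos hX00, mul_comm]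
        rw [h4]
        exact Real.exp_le_exp.2 (by linarith)) hk (fun x hx => hfr x (hsub hx))
      (fun κ hκ => by
        refine le_trans ?_ (hTm κ hκ)
        refine Finset.sum_le_sum_of_subset_of_nonneg ?_ fun x hx _ =>
          hWx x (Finset.mem_filter.1 hx).1
        exact Finset.filter_subset_filter _ hsub)
      (fun s' W hW hR' hl => hyp s' W hW (fun i => (hR' i).mono hCK) (by
        have : (0 : ℝ) ≤ k := Nat.cast_nonneg k
        linarith))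
    refine h1.trans ?_
    rw [hE]
    have h2 : Real.exp ((1 - 2 * s0) * (S0 - (α0 + k))) ≤ Real.exp ((1 - 2 * s0) * (S0 - α0)) := by
      refine Real.exp_le_exp.2 ?_
      have h3 : (0 : ℝ) ≤ k := Nat.cast_nonneg k
      have h4 : 0 ≤ 1 - 2 * s0 := by linarith
      exact mul_le_mul_of_nonneg_left (by linarith) h4
    gcongr
  have h1 : ∑ x ∈ T, Wx x * ((nm (e x) : ℝ) ^ s0 *
        ‖CS (gC (sqc q (al h (fun i => (j i).pc))) (δ x) (e x) (π x) (tw s0 t)) (fr x)‖) ^ 2 =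
      ∑ k ∈ Finset.range (Jn + 1), ∑ x ∈ T.filter (fun x => cl x = k), Wx x *
      ((nm (e x) : ℝ) ^ s0 *
        ‖CS (gC (sqc q (al h (fun i => (j i).pc))) (δ x) (e x) (π x) (tw s0 t)) (fr x)‖) ^ 2 :=
    (Finset.sum_fiberwise_of_maps_to hcl' _).symm
  rw [h1]
  refine (Finset.sum_le_sum hcls).trans ?_
  rw [Finset.sum_const, Finset.card_range, nsmul_eq_mul]
  have h2 : ((Jn + 1 : ℕ) : ℝ) ≤ K * X0 ^ (ε / 2) := by
    have h3 : (Jn : ℝ) ≤ 2 * Real.log X0 := Nat.floor_le (by linarith)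
    have h4 : Real.log X0 ≤ X0 ^ (ε / 2) / (ε / 2) := Real.log_le_rpow_div hX00.le (by positivity)
    have h5 : 1 ≤ X0 ^ (ε / 2) := Real.one_le_rpow hX0 (by positivity)
    push_cast
    calc (Jn : ℝ) + 1 ≤ 2 * (X0 ^ (ε / 2) / (ε / 2)) + X0 ^ (ε / 2) := by linarith
      _ = _ := by rw [hK]; field_simp; ring
  have h3 : Real.exp ((1 - 2 * s0) * (S0 - α0)) ≤ (Real.exp S0 / A0) ^ (1 - 2 * s0) := by
    have h4 : 0 ≤ 1 - 2 * s0 := by linarith
    have h5 : Real.exp (S0 - α0) ≤ Real.exp S0 / A0 := by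
      rw [Real.exp_sub]
      refine div_le_div_of_nonneg_left (Real.exp_pos _).le hA0 ?_
      calc A0 = Real.exp (Real.log A0) := (Real.exp_log hA0).symm
        _ ≤ _ := Real.exp_le_exp.2 hα0A
    calc Real.exp ((1 - 2 * s0) * (S0 - α0)) = (Real.exp (S0 - α0)) ^ (1 - 2 * s0) := by
          rw [← Real.exp_mul]; congr 1; ring
      _ ≤ _ := Real.rpow_le_rpow (by positivity) h5 h4
  have h6 : X0 ^ (ε / 2) * X0 ^ (ε / 2) = X0 ^ ε := by
    rw [← Real.rpow_add hX00]; congr 1; ring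
  calc ((Jn + 1 : ℕ) : ℝ) * E ≤ (K * X0 ^ (ε / 2)) * E := mul_le_mul_of_nonneg_right h2 hE0
    _ = K * C * (X0 ^ (ε / 2) * X0 ^ (ε / 2)) * (1 + |t|) ^ (2 * (r * μ)) * (Tm * B) *
        Real.exp ((1 - 2 * s0) * (S0 - α0)) := by rw [hE]; ring
    _ ≤ K * C * X0 ^ ε * (1 + |t|) ^ (2 * (r * μ)) * (Tm * B) *
        (Real.exp S0 / A0) ^ (1 - 2 * s0) := by
        rw [h6]
        gcongr



open Classical in
/-- **flagged families**, everything depending on the index -/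
theorem flagGXQ {h : ℝ → ℝ} {c : ℝ} (hpu : PU h c) {μ : ℝ} (hμ : 0 ≤ μ) {s0 : ℝ} (hs0 : 0 ≤ s0)
    (hs1 : s0 ≤ 1 / 2) (r : ℕ) {ε : ℝ} (hε : 0 < ε) :
    ∃ C : ℝ, 1 ≤ C ∧ ∀ (P : DPar), P.OK → ∀ (Q : Eis → Prop) (s : Fin r → Pq),
      (∀ i, 0 ≤ (s i).z) → ∀ (z D0 : ℝ) (fl : Fin r → Bool), 1 ≤ D0 →
      ∀ {β : Type} (T : Finset β) (Wx : β → ℝ), (∀ x ∈ T, 0 ≤ Wx x) →
      ∀ (q : Eis) (δ e π fr : β → Eis), q ≠ 0 → (∀ x ∈ T, IsPrim (δ x)) →
      (∀ x ∈ T, IsPrim (e x)) → (∀ x ∈ T, π x ≠ 0) →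
      ∀ X0 Λ t B Tm A0 : ℝ, 1 ≤ X0 → D0 ≤ X0 → (nm q : ℝ) ≤ X0 → (∀ x ∈ T, (nm (δ x) : ℝ) ≤ X0) →
      (∀ x ∈ T, (nm (e x) : ℝ) ≤ X0) → (∀ x ∈ T, (nm (π x) : ℝ) ≤ X0) →
      (∀ i, Real.exp (s i).z ≤ X0) → 0 < Λ → 0 ≤ B → 0 ≤ Tm → 0 < A0 →
      (∀ x ∈ T, A0 ≤ nm (δ x) * nm (e x)) →
      (∀ x ∈ T, fr x ∈ (bl Λ).filter Q) →
      (∀ κ ∈ bl Λ, ∑ x ∈ T.filter (fun x => fr x = κ), Wx x ≤ Tm) →
      (∀ (s' : Fin r → Pq) (W : ℝ), 1 ≤ W → (∀ i, Rl C W (s' i) (s i)) →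
        tl Dq (List.ofFn s') ≤ ∑ i, (s i).z - Real.log A0 + C →
        RQq Q P h (Real.log Λ) (List.ofFn s') ≤
          B * Real.exp (tl Dq (List.ofFn s')) * W ^ (2 * μ)) →
      ∑ x ∈ T, Wx x * ((nm (e x) : ℝ) ^ s0 *
        ‖CS (gC (sqc q (alf z D0 h (fun i => (s i).pc P) fl)) (δ x) (e x) (π x) (tw s0 t))
          (fr x)‖) ^ 2 ≤
        ((100 * D0) ^ r) ^ 2 * ((D0 ^ r) ^ (2 * s0) * (C * X0 ^ ε * (1 + |t|) ^ (2 * (r * μ)) *
          (Tm * B) * (Real.exp (∑ i, (s i).z) / A0) ^ (1 - 2 * s0))) := by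
  obtain ⟨R, hR0, hR⟩ := exists_R (cs_cx hpu.cs)
  have hr1 : (0 : ℝ) < (r : ℝ) + 1 := by positivity
  obtain ⟨C, hC, H⟩ := natGXQ hpu hμ hs1 r (ε := ε / (r + 1)) (by positivity)
  refine ⟨C, hC, ?_⟩
  intro P hP Q s hs z D0 fl hD0 β T Wx hWx q δ e π fr hq hδ he hπ X0 Λ t B Tm A0 hX0 hDX hqX hδX heX
    hπX hsX hΛ hB hTm0 hA0 hA hfr hTm hyp
  have hX00 : 0 < X0 := by linarith
  have hD00 : 0 < D0 := by linarith
  set S0 : ℝ := ∑ i, (s i).z with hS0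
  set M0 : ℝ := C * X0 ^ ε * (1 + |t|) ^ (2 * (r * μ)) *
          (Tm * B) * (Real.exp S0 / A0) ^ (1 - 2 * s0) with hM0'
  have hM00 : 0 ≤ M0 := by positivity
  have hsq : ∀ x ∈ T, ∀ a : ℝ, Wx x * ((nm (e x) : ℝ) ^ s0 * a) ^ 2 =
      (Wx x * (nm (e x) : ℝ) ^ (2 * s0)) * a ^ 2 := by
    intro x hx a
    have : (0 : ℝ) < nm (e x) := nm_cast_pos (he x hx).ne_zero
    rw [mul_pow, ← Real.rpow_natCast ((nm (e x) : ℝ) ^ s0), ← Real.rpow_mul this.le]
    rw [show s0 * ((2 : ℕ) : ℝ) = 2 * s0 by push_cast; ring]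
    ring
  rw [Finset.sum_congr rfl fun x hx => hsq x hx _]
  have key := gC_ntX (ι := Fin r) (h := h) hR (s := fun i => (s i).pc P) (fun i => (s i).ok hP)
    (z := z) hD0 fl q T (W := fun x => Wx x * (nm (e x) : ℝ) ^ (2 * s0))
    (fun x hx => mul_nonneg (hWx x hx) (by positivity)) δ e π fr hδ he (MulCh_tw hs0 t)
    (M := (D0 ^ r) ^ (2 * s0) * M0) (by positivity) ?_
  · rwa [Fintype.card_fin] at key
  intro g hg
  have hgp : ∀ i, IsPrim (g i) := fun i => ((mem_Tn hD00.le).1 hg i).1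
  have hG : IsPrim (∏ i, g i) := prim_prod hgp
  set G : Eis := ∏ i, g i with hGd
  have hGn : (nm G : ℝ) ≤ D0 ^ r := by
    have := nm_prod_le hD00.le hg
    rwa [Fintype.card_fin] at this
  have hG1 : (1 : ℝ) ≤ nm G := one_le_nm hG.ne_zero
  have hG0 : (0 : ℝ) < nm G := by linarith
  set X0' : ℝ := X0 ^ ((r : ℝ) + 1) with hX0'
  have hXX : X0 ≤ X0' := by
    rw [hX0']
    conv_lhs => rw [← Real.rpow_one X0]
    refine Real.rpow_le_rpow_of_exponent_le hX0 ?_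
    have : (0 : ℝ) ≤ r := Nat.cast_nonneg r
    linarith
  set δ' : β → Eis := fun x => cB G (δ x) with hδ'
  set e' : β → Eis := fun x => cB (cg G (δ x)) (e x) with he'
  have h1 := H P hP Q s hs (jx hP s g) (jx_below hP s hgp) (fun _ => rfl) T Wx hWx (q * G) δ' e' π fr
    (mul_ne_zero hq hG.ne_zero) (fun x hx => cB_prim (hδ x hx)) (fun x hx => cB_prim (he x hx)) hπ
    X0' Λ t B Tm (A0 / nm G) (hX0.trans hXX) (by
      rw [nm_mul, hX0', Real.rpow_add_one hX00.ne', Real.rpow_natCast]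
      push_cast
      calc (nm q : ℝ) * nm G ≤ X0 * D0 ^ r := by gcongr
        _ ≤ X0 * X0 ^ r := by gcongr
        _ = _ := by ring) (fun x hx => (nm_cB_le' (hδ x hx)).trans ((hδX x hx).trans hXX))
    (fun x hx => (nm_cB_le' (he x hx)).trans ((heX x hx).trans hXX))
    (fun x hx => (hπX x hx).trans hXX) (fun i => (hsX i).trans hXX) hΛ hB hTm0 (by positivity)
    (fun x hx => by
      rw [div_le_iff₀ hG0]
      have h2 := nm_cB_le hG (hδ x hx) (he x hx)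
      calc A0 ≤ nm (δ x) * nm (e x) := hA x hx
        _ ≤ nm G * (nm (cB G (δ x)) * nm (cB (cg G (δ x)) (e x))) := h2
        _ = _ := by ring) hfr hTm ?_
  · have e2 : X0' ^ (ε / (r + 1)) = X0 ^ ε := by
      rw [hX0', ← Real.rpow_mul hX00.le]
      congr 1
      field_simp
    rw [e2, sum_jx hP s hgp, ← hGd] at h1
    have e3 : Real.exp S0 / nm G / (A0 / nm G) = Real.exp S0 / A0 := by
      field_simp
    rw [← hS0, e3] at h1
    have e1 : (fun i => (jx hP s g i).pc) = shS (fun i => (s i).pc P) g := jx_pc hP s hgp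
    rw [e1] at h1
    calc ∑ x ∈ T, Wx x * (nm (e x) : ℝ) ^ (2 * s0) *
          ‖CS (gC (sqc (q * G) (al h (shS (fun i => (s i).pc P) g))) (cB G (δ x))
            (cB (cg G (δ x)) (e x)) (π x) (tw s0 t)) (fr x)‖ ^ 2
        ≤ ∑ x ∈ T, (D0 ^ r) ^ (2 * s0) * (Wx x * ((nm (e' x) : ℝ) ^ s0 *
          ‖CS (gC (sqc (q * G) (al h (shS (fun i => (s i).pc P) g))) (δ' x)
            (e' x) (π x) (tw s0 t)) (fr x)‖) ^ 2) := by
          refine Finset.sum_le_sum fun x hx => ?_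
          have p1 := cg_prim hG (hδ x hx)
          have q1 := cB_prim (g := cg G (δ x)) (he x hx)
          have hne' : (0 : ℝ) < nm (e' x) := nm_cast_pos q1.ne_zero
          have hne : (0 : ℝ) < nm (e x) := nm_cast_pos (he x hx).ne_zero
          have h3 : (nm (e x) : ℝ) ≤ D0 ^ r * nm (e' x) := by
            have e5 : (nm (e x) : ℝ) = nm (gp (cg G (δ x)) (e x)) * nm (cB (cg G (δ x)) (e x)) := by
              have := gp_cB (g := cg G (δ x)) (he x hx)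
              conv_lhs => rw [← this]
              rw [nm_mul]; push_cast; rfl
            have e6 : (nm (gp (cg G (δ x)) (e x)) : ℝ) ≤ nm G := by
              have h7 : gp (cg G (δ x)) (e x) ∣ G := by
                have h8 : gp (cg G (δ x)) (e x) ∣ cg G (δ x) := by
                  conv_rhs => rw [← gp_cg (g := cg G (δ x)) (he x hx)]
                  exact dvd_mul_right _ _
                exact h8.trans (cg_dvd (hδ x hx))
              exact_mod_cast Div277.nm_le_of_dvd hG.ne_zero h7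
            rw [e5]
            exact mul_le_mul_of_nonneg_right (e6.trans hGn) (Nat.cast_nonneg _)
          have h4 : (nm (e x) : ℝ) ^ (2 * s0) ≤ (D0 ^ r) ^ (2 * s0) * ((nm (e' x) : ℝ) ^ s0) ^ 2 := by
            have h5 : ((nm (e' x) : ℝ) ^ s0) ^ 2 = (nm (e' x) : ℝ) ^ (2 * s0) := by
              rw [← Real.rpow_natCast, ← Real.rpow_mul hne'.le]; congr 1; push_cast; ring
            rw [h5, ← Real.mul_rpow (by positivity) hne'.le]
            exact Real.rpow_le_rpow hne.le h3 (by linarith)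
          have hW0 := hWx x hx
          calc Wx x * (nm (e x) : ℝ) ^ (2 * s0) * ‖CS (gC (sqc (q * G)
                (al h (shS (fun i => (s i).pc P) g))) (cB G (δ x))
                (cB (cg G (δ x)) (e x)) (π x) (tw s0 t)) (fr x)‖ ^ 2
              ≤ Wx x * ((D0 ^ r) ^ (2 * s0) * ((nm (e' x) : ℝ) ^ s0) ^ 2) * ‖CS (gC (sqc (q * G)
                (al h (shS (fun i => (s i).pc P) g))) (cB G (δ x))
                (cB (cg G (δ x)) (e x)) (π x) (tw s0 t)) (fr x)‖ ^ 2 := by gcongr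
            _ = _ := by rw [hδ', he']; ring
      _ = (D0 ^ r) ^ (2 * s0) * ∑ x ∈ T, (Wx x * ((nm (e' x) : ℝ) ^ s0 *
          ‖CS (gC (sqc (q * G) (al h (shS (fun i => (s i).pc P) g))) (δ' x)
            (e' x) (π x) (tw s0 t)) (fr x)‖) ^ 2) := by rw [Finset.mul_sum]
      _ ≤ (D0 ^ r) ^ (2 * s0) * M0 := by
          refine mul_le_mul_of_nonneg_left ?_ (by positivity)
          rw [hM0']
          exact h1
  · intro s' W hW hR' hl
    refine hyp s' W hW hR' (hl.trans ?_)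
    have h7 : ∑ i, (jx hP s g i).z = S0 - Real.log (nm G) := by
      have h8 := sum_jx hP s hgp
      rw [← hGd] at h8
      have h9 := congrArg Real.log h8
      rwa [Real.log_exp, Real.log_div (Real.exp_pos _).ne' hG0.ne', Real.log_exp] at h9
    rw [h7, Real.log_div hA0.ne' hG0.ne']
    linarith

open Classical in
/-- **flagged lists**, everything depending on the index -/
theorem listRXQ {h : ℝ → ℝ} {c : ℝ} (hpu : PU h c) {μ : ℝ} (hμ : 0 ≤ μ) {s0 : ℝ} (hs0 : 0 ≤ s0)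
    (hs1 : s0 ≤ 1 / 2) (n : ℕ) {ε : ℝ} (hε : 0 < ε) :
    ∃ C : ℝ, 1 ≤ C ∧ ∀ (P : DPar), P.OK → ∀ (Q : Eis → Prop) (ps : List Pf), ps.length ≤ n →
      (∀ p ∈ ps, 0 ≤ p.1.z) → ∀ (z D0 : ℝ), 1 ≤ D0 →
      ∀ {β : Type} (T : Finset β) (Wx : β → ℝ), (∀ x ∈ T, 0 ≤ Wx x) →
      ∀ (q : Eis) (δ e π fr : β → Eis), q ≠ 0 → (∀ x ∈ T, IsPrim (δ x)) →
      (∀ x ∈ T, IsPrim (e x)) → (∀ x ∈ T, π x ≠ 0) →
      ∀ X0 Λ t B Tm A0 : ℝ, 1 ≤ X0 → D0 ≤ X0 → (nm q : ℝ) ≤ X0 → (∀ x ∈ T, (nm (δ x) : ℝ) ≤ X0) →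
      (∀ x ∈ T, (nm (e x) : ℝ) ≤ X0) → (∀ x ∈ T, (nm (π x) : ℝ) ≤ X0) →
      (∀ p ∈ ps, Real.exp p.1.z ≤ X0) → 0 < Λ → 0 ≤ B → 0 ≤ Tm → 0 < A0 →
      (∀ x ∈ T, A0 ≤ nm (δ x) * nm (e x)) →
      (∀ x ∈ T, fr x ∈ (bl Λ).filter Q) →
      (∀ κ ∈ bl Λ, ∑ x ∈ T.filter (fun x => fr x = κ), Wx x ≤ Tm) →
      (∀ (ps' : List Pq) (W : ℝ), 1 ≤ W → List.Forall₂ (Rl C W) ps' (ps.map Prod.fst) →
        tl Dq ps' ≤ LF ps - Real.log A0 + C →
        RQq Q P h (Real.log Λ) ps' ≤ B * Real.exp (tl Dq ps') * W ^ (2 * μ)) →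
      ∑ x ∈ T, Wx x * ((nm (e x) : ℝ) ^ s0 *
        ‖CS (gC (sqc q (alF z D0 P h ps)) (δ x) (e x) (π x) (tw s0 t)) (fr x)‖) ^ 2 ≤
        C * (D0 ^ n) ^ (2 + 2 * s0) * X0 ^ ε * (1 + |t|) ^ (2 * (n * μ)) *
          (Tm * B) * (Real.exp (LF ps) / A0) ^ (1 - 2 * s0) := by
  choose C hC H using fun r => flagGXQ hpu hμ hs0 hs1 r hε
  have hle : ∀ r ≤ n, C r ≤ ∑ r ∈ Finset.range (n + 1), C r := fun r hr =>
    Finset.single_le_sum (f := C) (fun i _ => by linarith [hC i]) (Finset.mem_range.2 (by omega))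
  have h100 : (1 : ℝ) ≤ (100 ^ n) ^ 2 := one_le_pow₀ (one_le_pow₀ (by norm_num))
  set C0 : ℝ := ∑ r ∈ Finset.range (n + 1), C r with hC0
  have hC01 : 1 ≤ C0 := (hC 0).trans (hle 0 (Nat.zero_le _))
  refine ⟨(100 ^ n) ^ 2 * C0, one_le_mul_of_one_le_of_one_le h100 hC01, ?_⟩
  intro P hP Q ps hlen hz z D0 hD0 β T Wx hWx q δ e π fr hq hδ he hπ X0 Λ t B Tm A0 hX0 hDX hqX hδX
    heX hπX hsX hΛ hB hTm0 hA0 hA hfr hTm hyp
  have hD00 : 0 < D0 := by linarith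
  set r := ps.length with hr
  have hCr : C r ≤ (100 ^ n) ^ 2 * C0 := (hle r hlen).trans (le_mul_of_one_le_left (by linarith) h100)
  have key := H r P hP Q (fun i => (ps.get i).1) (fun i => hz _ (List.get_mem _ _)) z D0
    (fun i => (ps.get i).2) hD0 T Wx hWx q δ e π fr hq hδ he hπ X0 Λ t B Tm A0 hX0 hDX hqX hδX heX
    hπX (fun i => hsX _ (List.get_mem _ _)) hΛ hB hTm0 hA0 hA hfr hTm ?_
  · rw [← alF_get, ← LF_get] at key
    refine key.trans ?_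
    have hX00 : 0 < X0 := by linarith
    have ht1 : (1 : ℝ) ≤ 1 + |t| := by linarith [abs_nonneg t]
    have h1 : ((100 * D0) ^ r) ^ 2 ≤ (100 ^ n) ^ 2 * (D0 ^ n) ^ (2 : ℝ) := by
      rw [Real.rpow_two, ← mul_pow, ← mul_pow]
      refine pow_le_pow_left₀ (by positivity) ?_ 2
      exact pow_le_pow_right₀ (by linarith) hlen
    have h2 : (D0 ^ r) ^ (2 * s0) ≤ (D0 ^ n) ^ (2 * s0) :=
      Real.rpow_le_rpow (by positivity) (pow_le_pow_right₀ hD0 hlen) (by linarith)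
    have h3 : (1 + |t|) ^ (2 * ((r : ℝ) * μ)) ≤ (1 + |t|) ^ (2 * ((n : ℝ) * μ)) := by
      refine Real.rpow_le_rpow_of_exponent_le ht1 ?_
      have : (r : ℝ) ≤ n := by exact_mod_cast hlen
      have := mul_le_mul_of_nonneg_right this hμ
      linarith
    have h4 : C r ≤ C0 := hle r hlen
    set V : ℝ := (Real.exp (LF ps) / A0) ^ (1 - 2 * s0) with hV
    have hV0 : 0 ≤ V := by positivity
    have hCr0 : 0 ≤ C r := by linarith [hC r]
    calc ((100 * D0) ^ r) ^ 2 * ((D0 ^ r) ^ (2 * s0) * (C r * X0 ^ ε *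
          (1 + |t|) ^ (2 * (r * μ)) * (Tm * B) * V))
        ≤ ((100 ^ n) ^ 2 * (D0 ^ n) ^ (2 : ℝ)) * ((D0 ^ n) ^ (2 * s0) * (C0 * X0 ^ ε *
          (1 + |t|) ^ (2 * (n * μ)) * (Tm * B) * V)) := by gcongr
      _ = (100 ^ n) ^ 2 * C0 * ((D0 ^ n) ^ (2 : ℝ) * (D0 ^ n) ^ (2 * s0)) * X0 ^ ε *
          (1 + |t|) ^ (2 * (n * μ)) * (Tm * B) * V := by ring
      _ = _ := by rw [← Real.rpow_add (by positivity)]
  · intro s' W hW hR' hl
    rw [← LF_get] at hl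
    refine hyp (List.ofFn s') W hW ?_ (by linarith)
    rw [List.forall₂_iff_get]
    refine ⟨by simp [hr], fun i hi hi' => ?_⟩
    have hi2 : i < r := by simpa using hi
    have := (hR' ⟨i, hi2⟩).mono hCr
    simpa using this


end Crest.Agent.R017.RHX116
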