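import Crest.Agent.R017.ETx1_71
import Crest.Agent.R017.ET3d_71

/-!
# Row 17, R8 / P1: the character side of one list in a window, non-principal `k` (helper71)

* **`cs_list`** : block `2^i ≤ N k ≤ 2^(i+1)`, exact point `(w, av, k)`, one real line
-/

set_option autoImplicit false
set_option linter.unusedVariables false

noncomputable section

open Finset
open scoped ComplexConjugate Classical

namespace Crest.Agent.R017.ETx71

open Crest.Agent.R012 Crest.Agent.R012.Eis Crest.Agent.R012.MC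
open Crest.Agent.R017.CM106
open Crest.Agent.R017.C70
open Crest.Agent.R017.HP842 (Pc pc sqc alL Th)
open Crest.Agent.R017.B770
open Crest.Agent.R017.FE47 (PU cx SM)
open Crest.Agent.R017.XG702 (Pcs BG)
open Crest.Agent.R017.Prov71
open Crest.Agent.R017.I1146 (LN)
open Crest.Agent.R017.End699
open Crest.Agent.R017.E5B71 Crest.Agent.R017.E5P571
open Crest.Agent.R017.ER911 Crest.Agent.R017.SC777 Crest.Agent.R017.ExpC702
open Crest.Agent.R017.ET71 Crest.Agent.R017.ET371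

lemma perm_vs (vs : Fin 3 → Pq) (qs : List Pq) (f : Equiv.Perm (Fin 3)) :
    (vs (f 0) :: vs (f 1) :: vs (f 2) :: qs).Perm (List.ofFn vs ++ qs) := by
  have h1 := f.ofFn_comp_perm vs
  have h2 : List.ofFn (vs ∘ f) = [vs (f 0), vs (f 1), vs (f 2)] := by
    simp [List.ofFn_succ]
  rw [h2] at h1
  exact h1.append_right qs

lemma sum_vs (w : Fin 3 → ℝ) (f : Equiv.Perm (Fin 3)) :
    w (f 0) + w (f 1) + w (f 2) = w 0 + w 1 + w 2 := by
  have := Equiv.sum_comp f w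
  rwa [Fin.sum_univ_three, Fin.sum_univ_three] at this

variable {Λ : Type*} {π : Λ → DPar} {h : ℝ → ℝ} {d : ℝ} {s' s₀ : EF}

set_option maxHeartbeats 1000000 in
/-- **the character side of one list** -/
theorem cs_list {c₀ : ℝ} (hpu : PU h c₀) (hP : ∀ lam, (π lam).OK)
    (Rc : ExpRules (7 / 8 + d) (ex Dq (fun lam => Rp (π lam) h)) s')
    (Rm : ExpRGFz (7 / 8 + d) (ex Dq (fun lam => Rp (π lam) h)) s' s₀)
    (hd : 0 ≤ d) (hd8 : d ≤ 1 / 8) {ε : ℝ} (hε : 0 < ε) :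
    ∃ σ : ℝ, 0 < σ ∧ ∀ (lam : Λ) (s : Eis), s ≠ 0 → ∀ (N : ℕ) (B : ℝ),
      ∃ (M : ℕ) (X₀ : ℝ), 1 < X₀ ∧ ∀ X : ℝ, X₀ ≤ X → ∀ (vs : Fin 3 → Pq) (qs : List Pq)
        (w : Fin 3 → ℝ) (av k : ℝ) (m : Eis) (i : ℕ) (H Ec : ℝ) (f : Equiv.Perm (Fin 3)),
      (∀ j, Dq.lump (vs j) ∧ 0 ≤ (vs j).z ∧ (nm (vs j).d : ℝ) ≤ X ^ B ∧ 1 + |(vs j).t| ≤ H) →
      (∀ j, |(vs j).z / Real.log X - w j| ≤ σ) → (∀ j, 0 ≤ w j ∧ w j ≤ 1) → qs.length ≤ N →
      (∀ p ∈ qs, p.kd = .am ∧ 0 ≤ p.z ∧ p.z ≤ σ * Real.log X ∧ (nm p.d : ℝ) ≤ X ^ B ∧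
        1 + |p.t| ≤ H) →
      |LN qs / Real.log X - av| ≤ σ → 0 ≤ av → av ≤ 1 → m ≠ 0 → (nm m : ℝ) ≤ X ^ B →
      |((i : ℝ) + 1) * Real.log 2 / Real.log X - k| ≤ σ → 0 ≤ k → k ≤ 1 → 1 ≤ H →
      (∀ c₁ c₂ c₃ b : ℝ, 0 ≤ c₁ → c₁ ≤ w (f 0) → 0 ≤ c₂ → c₂ ≤ w (f 1) → 0 ≤ c₃ →
        c₃ ≤ w (f 2) → 0 ≤ b → b ≤ av → E2p d k c₁ c₂ c₃ b ≤ c₁ + c₂ + c₃ + b + Ec) →
      ∑ κ ∈ (primBall (2 ^ (i + 1))).filter (fun κ => CbF κ ∧ (π lam).NP2 (s * κ)),
          ‖CS (sqc m (alL h ((List.ofFn vs ++ qs).map (Pt (π lam) s)))) κ‖ ^ 2 ≤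
        H ^ M * X ^ (w 0 + w 1 + w 2 + av + Ec + ε) := by
  obtain ⟨σ₀, hσ₀, G3⟩ := csAx hpu hP Rc Rm hd hd8 (ε := ε / 4) (by positivity)
  obtain ⟨η, hη, HU⟩ := E2p_unif d (ε := ε / 4) (by positivity)
  obtain ⟨σ, hσ, hσσ₀, hση, hσ4, hσε⟩ : ∃ σ : ℝ, 0 < σ ∧ σ ≤ σ₀ ∧ 2 * σ ≤ η ∧ σ ≤ 1 / 4 ∧
      σ ≤ ε / 16 :=
    ⟨min (min σ₀ (ε / 16)) (min (η / 2) (1 / 4)),
      lt_min (lt_min hσ₀ (by positivity)) (lt_min (by positivity) (by norm_num)),
      (min_le_left _ _).trans (min_le_left _ _), by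
        have := (min_le_right (min σ₀ (ε / 16)) (min (η / 2) (1 / 4))).trans (min_le_left _ _)
        linarith, (min_le_right _ _).trans (min_le_right _ _),
      (min_le_left _ _).trans (min_le_right _ _)⟩
  refine ⟨σ, hσ, fun lam s hs N B => ?_⟩
  obtain ⟨M, X₀, hX₀, G⟩ := G3 σ hσ hσσ₀ lam s hs N B
  refine ⟨M, X₀, hX₀, ?_⟩
  intro X hX vs qs w av k m i H Ec f hvs hw hw01 hlen hqs ha a0 a1 hm0 hmX hk k0 k1 hH Hc
  have hX1 : 1 < X := by linarith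
  have hX0 : 0 < X := by linarith
  set L := Real.log X with hL
  have hL0 : 0 < L := Real.log_pos hX1
  have hdv : ∀ {z c : ℝ}, z / L ≤ c → z ≤ c * L := fun h1 => (div_le_iff₀ hL0).1 h1
  have hlogp : Real.log ((2 : ℝ) ^ (i + 1)) = (i + 1) * Real.log 2 := by
    rw [Real.log_pow]
    push_cast
    rfl
  have hLam : LN qs = (qs.map Pq.z).sum := rfl
  have hfl : ⌊(2 : ℝ) ^ (i + 1)⌋₊ = 2 ^ (i + 1) := by
    have : ((2 : ℝ) ^ (i + 1)) = ((2 ^ (i + 1) : ℕ) : ℝ) := by push_cast; rfl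
    rw [this, Nat.floor_natCast]
  have hkx : ((i : ℝ) + 1) * Real.log 2 / L ≤ k + σ := by linarith [(abs_le.1 hk).2]
  have key := G X hX (vs (f 0)) (vs (f 1)) (vs (f 2)) qs m ((2 : ℝ) ^ (i + 1)) H
    (Ec + ε / 4) (by
      have aux : ∀ j, Dq.lump (vs j) ∧ 0 ≤ (vs j).z ∧ (vs j).z ≤ 2 * Real.log X ∧
          (nm (vs j).d : ℝ) ≤ X ^ B := by
        intro j
        obtain ⟨h1, h2, h3, h4⟩ := hvs j
        refine ⟨h1, h2, ?_, h3⟩
        rw [← hL]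
        refine hdv ?_
        linarith [(abs_le.1 (hw j)).2, (hw01 j).2]
      intro p' hp'
      simp only [List.mem_cons, List.not_mem_nil, or_false] at hp'
      rcases hp' with rfl | rfl | rfl
      · exact aux _
      · exact aux _
      · exact aux _) hlen (fun p hp => ⟨(hqs p hp).1, (hqs p hp).2.1, (hqs p hp).2.2.1,
        (hqs p hp).2.2.2.1⟩) (by
      rw [← hLam, ← hL]
      refine hdv ?_
      linarith [(abs_le.1 ha).2]) hm0 hmX (one_le_pow₀ (by norm_num)) (by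
      rw [Real.rpow_def_of_pos hX0, ← Real.exp_log (show (0 : ℝ) < 2 ^ (i + 1) by positivity),
        hlogp, ← hL]
      refine Real.exp_le_exp.2 ?_
      have := hdv hkx
      have h2 : (k + σ) * L ≤ 2 * L := mul_le_mul_of_nonneg_right (by linarith) hL0.le
      linarith) hH (by
      intro p' hp'
      simp only [List.mem_cons] at hp'
      rcases hp' with rfl | rfl | rfl | hp'
      · exact (hvs _).2.2.2
      · exact (hvs _).2.2.2
      · exact (hvs _).2.2.2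
      · exact (hqs p' hp').2.2.2.2) (by
      intro y₁ y₂ y₃ b y10 y11 y20 y21 y30 y31 b0 b1
      rw [← hL] at y11 y21 y31 b1 ⊢
      rw [hlogp]
      have h1 := E2p_slope (y₁ := y₁) (y₂ := y₂) (y₃ := y₃) (a := b) hd
        (show ((i : ℝ) + 1) * Real.log 2 / L + σ ≤ k + 2 * σ by linarith)
      refine h1.trans ?_
      have hy : ∀ {j : Fin 3} {y : ℝ}, y ≤ (vs j).z / L + σ → y ≤ w j + 2 * σ := by
        intro j y h1
        have h2 := (abs_le.1 (hw j)).2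
        linarith
      refine E2p_clamp HU (ρ := 2 * σ) k0 (by linarith) (by linarith) le_rfl hση (by linarith)
        (hw01 _).1 (by linarith [(hw01 (f 0)).2]) (hw01 _).1 (by linarith [(hw01 (f 1)).2])
        (hw01 _).1 (by linarith [(hw01 (f 2)).2]) a0 (by linarith) Hc y10 (hy y11) y20
        (hy y21) y30 (hy y31) b0 ?_
      have h2 := (abs_le.1 ha).2
      rw [hLam] at h2
      linarith)
  rw [hfl, alL_perm h ((perm_vs vs qs f).map (Pt (π lam) s))] at key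
  refine key.trans (mul_le_mul_of_nonneg_left ?_ (by positivity))
  refine Real.rpow_le_rpow_of_exponent_le hX1.le ?_
  have e1 : ((vs (f 0)).z + (vs (f 1)).z + (vs (f 2)).z + (qs.map Pq.z).sum) / L =
      (vs 0).z / L + (vs 1).z / L + (vs 2).z / L + LN qs / L := by
    have := sum_vs (fun j => (vs j).z) f
    rw [← hLam]
    have h2 : (vs (f 0)).z + (vs (f 1)).z + (vs (f 2)).z = (vs 0).z + (vs 1).z + (vs 2).z := this
    rw [h2]
    ring
  rw [← hL, e1]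
  linarith [(abs_le.1 (hw 0)).2, (abs_le.1 (hw 1)).2, (abs_le.1 (hw 2)).2, (abs_le.1 ha).2]

end Crest.Agent.R017.ETx71
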