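import Crest.Agent.R017.ET2a_71
import Crest.Agent.R017.XEx_298

/-!
# Row 17, class E: the sharp bound of the character side from the rules of `Rt` (helper986)

* **`bgn2t`** : twin of helper71's `bgn2`
-/

set_option autoImplicit false

noncomputable section

namespace Crest.Agent.R017.ETz986

open Crest.Agent.R012 Crest.Agent.R012.Eis
open Crest.Agent.R017.FE47 (PU)
open Crest.Agent.R017.CM106
open Crest.Agent.R017.XG702 (Pcs BG)
open Crest.Agent.R017.Prov71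
open Crest.Agent.R017.B770
open Crest.Agent.R017.ER911 Crest.Agent.R017.SC777 Crest.Agent.R017.ExpC702
open Crest.Agent.R017.XEx298 (Rt pinv_Rt triv_Rt Rt_R)
open Crest.Agent.R017.ET71

/-- cube-free admissible `k`, rules of `Rt` -/
theorem bgn2t {Λ : Type*} {π : Λ → DPar} {h : ℝ → ℝ} {d : ℝ} {s s₀ : EF} {c₀ : ℝ}
    (hpu : PU h c₀) (hP : ∀ lam, (π lam).OK)
    (R : ExpRules (7 / 8 + d) (ex Dq (fun lam => Rt (π lam) h)) s)
    (Rm : ExpRGFz (7 / 8 + d) (ex Dq (fun lam => Rt (π lam) h)) s s₀) (hd : 0 ≤ d)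
    (hd8 : d ≤ 1 / 8) {κ y₁ y₂ y₃ m a : ℝ} (hκ : 0 ≤ κ) (h1 : 0 ≤ y₁) (h2 : 0 ≤ y₂)
    (h3 : 0 ≤ y₃) (hm : 0 ≤ m) (ha : 0 ≤ a) :
    BG Dq (fun lam => Rp (π lam) h) κ [y₁, y₂, y₃] (wt m a) (E2 d κ y₁ y₂ y₃ m a) := by
  refine Rt_R (BG_of_ex (pinv_Rt π h) (triv_Rt hP hpu) hκ ⟨?_, hm, ha⟩ ?_)
  · intro y hy
    simp only [List.mem_cons, List.not_mem_nil, or_false] at hy
    rcases hy with rfl | rfl | rfl
    · exact h1
    · exact h2
    · exact h3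
  · exact r_E2 R Rm hd hd8 h1 h2 h3 hm ha hκ

end Crest.Agent.R017.ETz986
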