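import Crest.Agent.R017.ETx1_71
import Crest.Agent.R017.ET3c_71
import Crest.Agent.R017.ETz0_986

/-!
# Row 17, R8 / P1: the character side of one list, non-principal `k`, sharp form (helper71)

* `E2z` : 71's `E2`, without the term of the principal column
* **`csAy`**, **`cs_listy`** : twins of `csAy`, `cs_list`
-/

set_option autoImplicit false

noncomputable section

open Finset

namespace Crest.Agent.R017.ETy71

open Crest.Agent.R012 Crest.Agent.R012.Eis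
open Crest.Agent.R012.LS2 (bl mem_bl)
open Crest.Agent.R017.FE47 (PU SM)
open Crest.Agent.R017.CM106
open Crest.Agent.R017.XG702 (Pcs BG)
open Crest.Agent.R017.XT71 (Sys Win mx)
open Crest.Agent.R017.E5B71 (UB)
open Crest.Agent.R017.Prov71
open Crest.Agent.R017.B770
open Crest.Agent.R017.ER911 Crest.Agent.R017.SC777 Crest.Agent.R017.ExpC702
open Crest.Agent.R017.HP842 (Pc pc sqc al alL)
open Crest.Agent.R017.XPD571 (RX RP0)
open Crest.Agent.R017.UBT973 (UBs Wn Triv ubs_of_ub)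
open Crest.Agent.R017.XRG106 (Rl RFp ip ip_pc)
open Crest.Agent.R017.XHB411 (tl)
open Crest.Agent.R017.Mono858 (RQq)
open Crest.Agent.R017.E5B71 (Pt)
open Crest.Agent.R017.RM986
open Crest.Agent.R017.R3571 (Below)
open Crest.Agent.R017.C70 (CbF)
open Crest.Agent.R017.ET71 Crest.Agent.R017.ET371

section

variable {Λ : Type*} {π : Λ → DPar} {h : ℝ → ℝ} {d : ℝ} {s s₀ : EF}

/-- all `k` with `NP2 k` -/
theorem bgc2y {c₀ : ℝ} (hpu : PU h c₀) (hP : ∀ lam, (π lam).OK)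
    (R : ExpRules (7 / 8 + d) (ex Dq (fun lam => XEx298.Rt (π lam) h)) s)
    (Rm : ExpRGFz (7 / 8 + d) (ex Dq (fun lam => XEx298.Rt (π lam) h)) s s₀) (hd : 0 ≤ d)
    (hd8 : d ≤ 1 / 8) {κ y₁ y₂ y₃ m a : ℝ} (hκ : 0 ≤ κ) (h1 : 0 ≤ y₁) (h2 : 0 ≤ y₂)
    (h3 : 0 ≤ y₃) (hm : 0 ≤ m) (ha : 0 ≤ a) :
    BG Dq (fun lam => Rc (π lam) h) κ [y₁, y₂, y₃] (wt m a)
      (E2 d κ y₁ y₂ y₃ m a) := by
  refine BG_Rc hP (bump_of_cs hpu.cs) hκ fun i hi0 hi => ?_
  refine (ETz986.bgn2t hpu hP R Rm hd hd8 hi0 h1 h2 h3 hm ha).mono ?_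
  have e1 := E2_slope (y₁ := y₁) (y₂ := y₂) (y₃ := y₃) (m := m) (a := a) hd hi
  linarith

/-- the exponent, all shares -/
def E2n (d : ℝ) (q : (Fin 4 → ℝ) × (Kd → ℝ)) : ℝ :=
  E2 d (q.1 0) (q.1 1) (q.1 2) (q.1 3) (q.2 .mo) (q.2 .am)

lemma cont_E2n (d : ℝ) : Continuous (E2n d) := by
  have c0 := cont_co (ι := Fin 4) 0
  have c1 := cont_co (ι := Fin 4) 1
  have c2 := cont_co (ι := Fin 4) 2
  have c3 := cont_co (ι := Fin 4) 3
  have cm := cont_mo (ι := Fin 4)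
  have ca := cont_am (ι := Fin 4)
  have h1 : Continuous fun q : (Fin 4 → ℝ) × (Kd → ℝ) =>
      r3 d (q.1 0) (q.1 1) (q.1 2) (q.1 3) (q.2 .mo) (q.2 .am) := by
    unfold r3 rH rA hb eX fL
    fun_prop
  have h2 : Continuous fun q : (Fin 4 → ℝ) × (Kd → ℝ) =>
      FT d (q.1 0) (q.1 1 + q.1 2 + q.1 3 + (q.2 .mo + q.2 .am)) (q.1 3)
        (q.2 .mo + q.2 .am) := by
    unfold FT Yb
    fun_prop
  have h3 : Continuous fun q : (Fin 4 → ℝ) × (Kd → ℝ) =>
      E3s d (q.1 0) (q.1 1) (q.1 2) (q.1 3) (q.2 .mo + q.2 .am) := by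
    unfold E3s k1s K0s mn3
    fun_prop
  unfold E2n E2
  exact (h1.min h2).min h3

lemma E2n_down (hd : 0 ≤ d) (q : (Fin 4 → ℝ) × (Kd → ℝ)) {b : ℝ} (hb : 0 ≤ b) :
    E2n d (q.1, Function.update q.2 Kd.mo (q.2 Kd.mo - b)) ≤ E2n d q := by
  have e : (Function.update q.2 Kd.mo (q.2 Kd.mo - b)) Kd.am = q.2 Kd.am :=
    Function.update_of_ne (by decide) _ _
  unfold E2n
  simp only [Function.update_self, e]
  exact E2_mono hd (by linarith) le_rfl

/-- **uniform bound, all `k` with `NP2 k`** -/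
theorem ub_Rc2y {c₀ : ℝ} (hpu : PU h c₀) (hP : ∀ lam, (π lam).OK)
    (R : ExpRules (7 / 8 + d) (ex Dq (fun lam => XEx298.Rt (π lam) h)) s)
    (Rm : ExpRGFz (7 / 8 + d) (ex Dq (fun lam => XEx298.Rt (π lam) h)) s s₀) (hd : 0 ≤ d)
    (hd8 : d ≤ 1 / 8) (K : ℝ) (c : Λ → ℝ) :
    UB S3 Dq (M3 (fun lam => (π lam).NP2) π h c) (Bx K) ∅ (E2n d) := by
  refine um_of hpu hP _ c (bx_compact K) (fun q hq => ⟨fun i => (hq.1 i).1, fun t => (hq.2 t).1⟩)
    bx_down (cont_E2n d) (fun q _ b hb _ => E2n_down hd q hb) ?_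
  intro p m a hm ha hD
  have h0 := fun i => (hD.1 i).1
  exact bgc2y hpu hP R Rm hd hd8 (h0 0) (h0 1) (h0 2) (h0 3) hm ha

/-- **`UBs`, all `k` with `NP2 k`** -/
theorem ubs_Rc2y {c₀ : ℝ} (hpu : PU h c₀) (hP : ∀ lam, (π lam).OK)
    (R : ExpRules (7 / 8 + d) (ex Dq (fun lam => XEx298.Rt (π lam) h)) s)
    (Rm : ExpRGFz (7 / 8 + d) (ex Dq (fun lam => XEx298.Rt (π lam) h)) s s₀) (hd : 0 ≤ d)
    (hd8 : d ≤ 1 / 8) (K : ℝ) (c : Λ → ℝ) :
    UBs S3 Dq (M3 (fun lam => (π lam).NP2) π h c) (fB K) ∅ (E2n d) :=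
  ubs_of_ub (fB_cont K) (fB_compact K 1) (cont_E2n d) (triv3 hpu hP _ c K ∅)
    (by rw [fB_zero]; exact ub_Rc2y hpu hP R Rm hd hd8 K c)

/-- **plain form**, all `k` with `NP2 k` -/
theorem rm_Rc2y {c₀ : ℝ} (hpu : PU h c₀) (hP : ∀ lam, (π lam).OK)
    (R : ExpRules (7 / 8 + d) (ex Dq (fun lam => XEx298.Rt (π lam) h)) s)
    (Rm : ExpRGFz (7 / 8 + d) (ex Dq (fun lam => XEx298.Rt (π lam) h)) s s₀) (hd : 0 ≤ d)
    (hd8 : d ≤ 1 / 8) (K : ℝ) :
    Plain (fun lam => (π lam).NP2) π h K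
      (fun κ y₁ y₂ y₃ m a => E2 d κ y₁ y₂ y₃ m a) :=
  plain_of (E := fun κ y₁ y₂ y₃ m a => E2 d κ y₁ y₂ y₃ m a)
    (ubs_Rc2y hpu hP R Rm hd hd8 K fun _ => 0)

end

/-- exponent without the principal column -/
def E2z (d κ y₁ y₂ y₃ a : ℝ) : ℝ := E2 d κ y₁ y₂ y₃ 0 a

lemma E2z_slope {d κ κ' y₁ y₂ y₃ a : ℝ} (hd : 0 ≤ d) (h : κ' ≤ κ) :
    E2z d κ' y₁ y₂ y₃ a ≤ E2z d κ y₁ y₂ y₃ a := by
  unfold E2z
  have := E2_slope (d := d) (y₁ := y₁) (y₂ := y₂) (y₃ := y₃) (m := 0) (a := a) hd h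
  linarith

section

variable {Λ : Type*} {π : Λ → DPar} {h : ℝ → ℝ} {d : ℝ} {s s₀ : EF}

open Classical in
/-- **the character side, non-principal `k`** -/
theorem csAy {c₀ : ℝ} (hpu : PU h c₀) (hP : ∀ lam, (π lam).OK)
    (R : ExpRules (7 / 8 + d) (ex Dq (fun lam => XEx298.Rt (π lam) h)) s)
    (Rm : ExpRGFz (7 / 8 + d) (ex Dq (fun lam => XEx298.Rt (π lam) h)) s s₀)
    (hd : 0 ≤ d)
    (hd8 : d ≤ 1 / 8) {ε : ℝ} (hε : 0 < ε) :
    ∃ σ₀ : ℝ, 0 < σ₀ ∧ ∀ σ : ℝ, 0 < σ → σ ≤ σ₀ → ∀ (lam : Λ) (t : Eis), t ≠ 0 →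
      ∀ (N : ℕ) (B : ℝ),
      ∃ (M : ℕ) (X₀ : ℝ), 1 < X₀ ∧ ∀ X : ℝ, X₀ ≤ X → ∀ (u₁ u₂ u₃ : Pq) (ps : List Pq) (m : Eis)
        (L H Ec : ℝ),
      (∀ p ∈ [u₁, u₂, u₃], Dq.lump p ∧ 0 ≤ p.z ∧ p.z ≤ 2 * Real.log X ∧ (nm p.d : ℝ) ≤ X ^ B) →
      ps.length ≤ N →
      (∀ p ∈ ps, p.kd = .am ∧ 0 ≤ p.z ∧ p.z ≤ σ * Real.log X ∧ (nm p.d : ℝ) ≤ X ^ B) →
      (ps.map Pq.z).sum ≤ 2 * Real.log X → m ≠ 0 → (nm m : ℝ) ≤ X ^ B → 1 ≤ L → L ≤ X ^ (2 : ℝ) →
      1 ≤ H → (∀ p ∈ u₁ :: u₂ :: u₃ :: ps, 1 + |p.t| ≤ H) →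
      (∀ y₁ y₂ y₃ a : ℝ, 0 ≤ y₁ → y₁ ≤ u₁.z / Real.log X + σ → 0 ≤ y₂ →
        y₂ ≤ u₂.z / Real.log X + σ → 0 ≤ y₃ → y₃ ≤ u₃.z / Real.log X + σ → 0 ≤ a →
        a ≤ (ps.map Pq.z).sum / Real.log X + σ →
        E2z d (Real.log L / Real.log X + σ) y₁ y₂ y₃ a ≤ y₁ + y₂ + y₃ + a + Ec) →
      ∑ k ∈ (primBall ⌊L⌋₊).filter (fun k => CbF k ∧ (π lam).NP2 (t * k)),
          ‖CS (sqc m (alL h ((u₁ :: u₂ :: u₃ :: ps).map (Pt (π lam) t)))) k‖ ^ 2 ≤
        H ^ M * X ^ ((u₁.z + u₂.z + u₃.z + (ps.map Pq.z).sum) / Real.log X + Ec + ε) := by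
  classical
  set ε₁ : ℝ := ε / 8 with hε₁
  have hε₁0 : 0 < ε₁ := by positivity
  obtain ⟨σ₁, hσ₁, PL⟩ := rm_Rc2y hpu hP R Rm hd hd8 3 ε₁ hε₁0
  refine ⟨min (σ₁ / 2) (1 / 2), by positivity, fun σ hσ0 hσσ lam t ht N B => ?_⟩
  have hσ1 : σ ≤ σ₁ / 2 := hσσ.trans (min_le_left _ _)
  have hσ2 : σ ≤ 1 / 2 := hσσ.trans (min_le_right _ _)
  obtain ⟨M, X₁, hX₁, PX⟩ := PL lam N (|B| + 4)
  set δ₀ : ℝ := ε₁ / (|B| + 3) with hδ₀
  have hδ₀0 : 0 < δ₀ := by positivity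
  have hG := fun r : ℕ => RHX116.grandXQ hpu ((M : ℝ) / 2) r (ρ := 0) le_rfl hδ₀0
  choose C hC1 hC using hG
  set C' : ℝ := ∑ r ∈ range (N + 4), C r with hC'
  have hCr : ∀ r, r < N + 4 → C r ≤ C' := fun r hr =>
    single_le_sum (f := C) (fun i _ => by linarith [hC1 i]) (mem_range.2 hr)
  have hC'1 : 1 ≤ C' := (hC1 0).trans (hCr 0 (by omega))
  set τ : ℝ := Real.log (nm t) with hτ
  have hnt : (1 : ℝ) ≤ nm t := by exact_mod_cast nm_pos.2 ht
  have hτ0 : 0 ≤ τ := Real.log_nonneg hnt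
  obtain ⟨X₂, hX₂, HX₂⟩ := XSup271.exists_X hC'1 (ε := ε₁) hε₁0
  -- large X : constants against `σ log X`
  set X₃ : ℝ := Real.exp (((N + 3) * C' + τ + 1) / σ) with hX₃
  refine ⟨M, max X₁ (max X₂ X₃), lt_of_lt_of_le hX₁ (le_max_left _ _), ?_⟩
  intro X hX u₁ u₂ u₃ ps m L H Ec hu hN hps hsum hm0 hmX hL1 hLX hH hht hE
  have hXX₁ : X₁ ≤ X := (le_max_left _ _).trans hX
  have hXX₂ : X₂ ≤ X := ((le_max_left _ _).trans (le_max_right _ _)).trans hX
  have hXX₃ : X₃ ≤ X := ((le_max_right _ _).trans (le_max_right _ _)).trans hX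
  have hX1 : 1 < X := by linarith
  have hX0 : 0 < X := by linarith
  have hlX : 0 < Real.log X := Real.log_pos hX1
  have hbig : (N + 3) * C' + τ + 1 ≤ σ * Real.log X := by
    have h1 : ((N + 3) * C' + τ + 1) / σ ≤ Real.log X := by
      rw [← Real.log_exp (((N + 3) * C' + τ + 1) / σ)]
      exact Real.log_le_log (Real.exp_pos _) hXX₃
    rw [div_le_iff₀ hσ0] at h1
    linarith
  have hNC : 0 ≤ (N : ℝ) * C' := by positivity
  have hC'σ : C' ≤ σ * Real.log X := by nlinarith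
  have hτσ : τ ≤ σ * Real.log X := by nlinarith
  set l := u₁ :: u₂ :: u₃ :: ps with hl
  set r := l.length with hr
  have hr3 : r = ps.length + 3 := by rw [hr, hl]; rfl
  have hrN : r < N + 4 := by omega
  set sf : Fin r → Pq := fun i => l.get i with hsf
  have hofn : List.ofFn sf = l := List.ofFn_get l
  have hz0 : ∀ p ∈ l, 0 ≤ p.z := by
    intro p hp
    rw [hl] at hp
    simp only [List.mem_cons] at hp
    rcases hp with rfl | rfl | rfl | hp
    · exact (hu _ (by simp)).2.1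
    · exact (hu _ (by simp)).2.1
    · exact (hu _ (by simp)).2.1
    · exact (hps p hp).2.1
  have hz2 : ∀ p ∈ l, p.z ≤ 2 * Real.log X := by
    intro p hp
    rw [hl] at hp
    simp only [List.mem_cons] at hp
    rcases hp with rfl | rfl | rfl | hp
    · exact (hu _ (by simp)).2.2.1
    · exact (hu _ (by simp)).2.2.1
    · exact (hu _ (by simp)).2.2.1
    · have h1 := (hps p hp).2.2.1
      nlinarith
  have hdB : ∀ p ∈ l, (nm p.d : ℝ) ≤ X ^ B := by
    intro p hp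
    rw [hl] at hp
    simp only [List.mem_cons] at hp
    rcases hp with rfl | rfl | rfl | hp
    · exact (hu _ (by simp)).2.2.2
    · exact (hu _ (by simp)).2.2.2
    · exact (hu _ (by simp)).2.2.2
    · exact (hps p hp).2.2.2
  have hmem : ∀ i : Fin r, sf i ∈ l := fun i => List.get_mem l i
  set j : Fin r → TPOk571.IP := fun i => ip (hP lam) (sf i) with hj
  have hBel : Below (π lam) 0 j sf :=
    ⟨fun i => by show (sf i).z ≤ (sf i).z + 0; linarith, fun i => rfl, fun i => rfl,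
      fun i hi => hi⟩
  set Λ₀ : ℝ := (nm t : ℝ) * L with hΛ₀
  have hΛ1 : 1 ≤ Λ₀ := one_le_mul_of_one_le_of_one_le hnt hL1
  have hΛ0 : 0 < Λ₀ := by linarith
  have hlΛ : Real.log Λ₀ = τ + Real.log L := by
    rw [hΛ₀, Real.log_mul (by positivity) (by positivity)]
  have hlL0 : 0 ≤ Real.log L := Real.log_nonneg hL1
  have hlL2 : Real.log L ≤ 2 * Real.log X := by
    have := Real.log_le_log (by positivity) hLX
    rwa [Real.log_rpow hX0] at this
  set Bd : ℝ := H ^ M * X ^ (Ec + ε₁) with hBd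
  have hBd0 : 0 ≤ Bd := by positivity
  have hm1' : (1 : ℝ) ≤ nm m := by exact_mod_cast nm_pos.2 hm0
  have key := hC r C' (hCr r hrN) (π lam) (hP lam) (π lam).NP2 sf (fun i => hz0 _ (hmem i)) j hBel
    ((bl Λ₀).filter (π lam).NP2) (fun _ => 1) (fun _ _ => zero_le_one) (fun _ => m) id
    (fun _ _ => hm0)
    (X ^ (2 : ℝ)) (nm m : ℝ) Λ₀ Bd 1 (Real.one_le_rpow hX1.le (by norm_num)) hm1'
    (fun _ _ => le_rfl) (fun i => by
      rw [Real.rpow_def_of_pos hX0]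
      refine Real.exp_le_exp.2 ?_
      have := hz2 _ (hmem i)
      linarith) hΛ0 hBd0 zero_le_one (fun κ hκ => hκ) (fun κ _ => by
      rw [sum_const, nsmul_eq_mul, mul_one]
      have h1 : (((bl Λ₀).filter (π lam).NP2).filter fun x => id x = κ).card ≤ 1 := by
        rw [card_le_one]
        intro a ha b hb
        rw [mem_filter] at ha hb
        exact ha.2.trans hb.2.symm
      exact_mod_cast h1) ?_
  · -- conclusion
    have e1 : al h (fun i => (j i).pc) = alL h (l.map (Pq.pc (π lam))) := by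
      rw [← hofn, XRG106.alL_ofFn]
      congr 1
      funext i
      exact ip_pc (hP lam) (sf i)
    simp only [id, one_mul] at key
    rw [e1] at key
    have e2 : ∑ i, (j i).z = u₁.z + u₂.z + u₃.z + (ps.map Pq.z).sum := by
      have h5 : ∑ i, (j i).z = (l.map Pq.z).sum := by
        rw [← hofn, List.map_ofFn, List.sum_ofFn]
        rfl
      rw [h5, hl]
      simp only [List.map_cons, List.sum_cons]
      ring
    have e3 : R3571.Wt j = 1 := by
      unfold R3571.Wt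
      refine Finset.prod_eq_one fun i _ => ?_
      show 1 + |(0 : ℝ)| = 1
      simp
    rw [e2, e3, Real.one_rpow, mul_one] at key
    refine (sum_twQ_le h ht m l (π lam).NP2 (by linarith)).trans (key.trans ?_)
    have h6 : C' ≤ X ^ ε₁ := HX₂ X hXX₂
    have h7 : (nm m : ℝ) ^ δ₀ ≤ X ^ (|B| * δ₀) := by
      rw [Real.rpow_mul hX0.le]
      exact Real.rpow_le_rpow (Nat.cast_nonneg _) (hmX.trans
        (Real.rpow_le_rpow_of_exponent_le hX1.le (le_abs_self B))) hδ₀0.le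
    have h8 : (X ^ (2 : ℝ)) ^ δ₀ = X ^ (2 * δ₀) := (Real.rpow_mul hX0.le _ _).symm
    have h9 : Real.exp (u₁.z + u₂.z + u₃.z + (ps.map Pq.z).sum) =
        X ^ ((u₁.z + u₂.z + u₃.z + (ps.map Pq.z).sum) / Real.log X) := by
      rw [Real.rpow_def_of_pos hX0, mul_div_cancel₀ _ hlX.ne']
    rw [h8, h9]
    calc C' * (nm m : ℝ) ^ δ₀ * X ^ (2 * δ₀) *
          (Bd * X ^ ((u₁.z + u₂.z + u₃.z + (ps.map Pq.z).sum) / Real.log X))
        ≤ X ^ ε₁ * X ^ (|B| * δ₀) * X ^ (2 * δ₀) *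
          (Bd * X ^ ((u₁.z + u₂.z + u₃.z + (ps.map Pq.z).sum) / Real.log X)) := by gcongr
      _ = H ^ M * X ^ (ε₁ + |B| * δ₀ + 2 * δ₀ + (Ec + ε₁) +
          (u₁.z + u₂.z + u₃.z + (ps.map Pq.z).sum) / Real.log X) := by
          rw [hBd, Real.rpow_add hX0 (ε₁ + |B| * δ₀ + 2 * δ₀ + (Ec + ε₁)),
            Real.rpow_add hX0 (ε₁ + |B| * δ₀ + 2 * δ₀), Real.rpow_add hX0 (ε₁ + |B| * δ₀),
            Real.rpow_add hX0 ε₁]
          ring
      _ ≤ _ := by
          refine mul_le_mul_of_nonneg_left ?_ (by positivity)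
          refine Real.rpow_le_rpow_of_exponent_le hX1.le ?_
          have h10 : (|B| + 3) * δ₀ = ε₁ := by
            have h14 : |B| + 3 ≠ 0 := by positivity
            rw [hδ₀, mul_div_assoc', mul_div_cancel_left₀ _ h14]
          have h11 : ε = 8 * ε₁ := by rw [hε₁]; ring
          nlinarith
  -- the children
  intro s' W hW hRl htl
  have hlen : (List.ofFn s').length = r := List.length_ofFn
  -- the child list
  obtain ⟨v₁, v₂, v₃, qs, hvq⟩ : ∃ v₁ v₂ v₃ qs, List.ofFn s' = v₁ :: v₂ :: v₃ :: qs := by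
    rcases hs : List.ofFn s' with _ | ⟨v₁, _ | ⟨v₂, _ | ⟨v₃, qs⟩⟩⟩
    · rw [hs] at hlen; simp only [List.length_cons, List.length_nil] at hlen; omega
    · rw [hs] at hlen; simp only [List.length_cons, List.length_nil] at hlen; omega
    · rw [hs] at hlen; simp only [List.length_cons, List.length_nil] at hlen; omega
    · exact ⟨v₁, v₂, v₃, qs, rfl⟩
  have hF : List.Forall₂ (Rl C' W) (List.ofFn s') l := by
    rw [← hofn]
    rw [List.forall₂_iff_get]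
    refine ⟨by simp, fun i h1 h2 => ?_⟩
    simp only [List.get_eq_getElem, List.getElem_ofFn]
    exact hRl _
  rw [hvq, hl] at hF
  obtain ⟨r1, hF1⟩ := List.forall₂_cons.1 hF
  obtain ⟨r2, hF2⟩ := List.forall₂_cons.1 hF1
  obtain ⟨r3', hF3⟩ := List.forall₂_cons.1 hF2
  have hlump : ∀ {v u : Pq}, Rl C' W v u → Dq.lump u → Dq.lump v := by
    intro v u hr hu
    obtain ⟨h1, h2⟩ := (Dq_lump u).1 hu
    exact (Dq_lump v).2 ⟨hr.kd.trans h1, hr.one h2⟩
  have hdd : ∀ {v u : Pq}, Rl C' W v u → u.z ≤ 2 * Real.log X → (nm u.d : ℝ) ≤ X ^ B →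
      (nm v.d : ℝ) ≤ X ^ (|B| + 4) := by
    intro v u hr h1 h2
    refine hr.dd.trans ?_
    have h3 : C' ≤ X ^ (1 : ℝ) := by
      have h4 : C' ≤ Real.log X := by nlinarith
      rw [Real.rpow_one]
      exact h4.trans (Real.log_le_self hX0.le)
    have h5 : Real.exp u.z ≤ X ^ (2 : ℝ) := by
      rw [Real.rpow_def_of_pos hX0]
      exact Real.exp_le_exp.2 (by linarith)
    have h6 : (nm u.d : ℝ) ≤ X ^ |B| :=
      h2.trans (Real.rpow_le_rpow_of_exponent_le hX1.le (le_abs_self B))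
    calc C' * (nm u.d : ℝ) * Real.exp u.z ≤ X ^ (1 : ℝ) * X ^ |B| * X ^ (2 : ℝ) := by gcongr
      _ = X ^ (|B| + 3) := by
          rw [← Real.rpow_add hX0, ← Real.rpow_add hX0]; congr 1; ring
      _ ≤ _ := Real.rpow_le_rpow_of_exponent_le hX1.le (by linarith)
  have hm1 : u₁ ∈ l := by simp [hl]
  have hm2 : u₂ ∈ l := by simp [hl]
  have hm3 : u₃ ∈ l := by simp [hl]
  have hqs : ∀ v ∈ qs, ∃ u ∈ ps, Rl C' W v u := by
    intro v hv
    obtain ⟨n, hn, rfl⟩ := List.mem_iff_getElem.1 hv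
    have h1 := hF3.length_eq
    have h2 : n < ps.length := by omega
    exact ⟨ps[n], List.getElem_mem h2, (List.forall₂_iff_get.1 hF3).2 n hn h2⟩
  have hqsam : ∀ v ∈ qs, v.kd = .am := by
    intro v hv
    obtain ⟨u, hu', hr'⟩ := hqs v hv
    exact hr'.kd.trans (hps u hu').1
  have hqz : (qs.map Pq.z).sum ≤ (ps.map Pq.z).sum + N * C' := by
    have h1 : ∀ {a b : List Pq}, List.Forall₂ (Rl C' W) a b →
        (a.map Pq.z).sum ≤ (b.map Pq.z).sum + b.length * C' := by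
      intro a b hab
      induction hab with
      | nil => simp
      | @cons x y a b hxy _ ih =>
        have h3 := hxy.zle
        simp only [List.map_cons, List.sum_cons, List.length_cons]
        push_cast
        linarith
    have h2 := h1 hF3
    have h3 : (ps.length : ℝ) * C' ≤ N * C' := by
      have : (ps.length : ℝ) ≤ N := by exact_mod_cast hN
      exact mul_le_mul_of_nonneg_right this (by linarith)
    linarith
  have hqz0 : 0 ≤ (qs.map Pq.z).sum := List.sum_nonneg fun x hx => by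
    obtain ⟨v, hv, rfl⟩ := List.mem_map.1 hx
    obtain ⟨u, _, hr'⟩ := hqs v hv
    exact hr'.z0
  have hNσ : (N : ℝ) * C' ≤ σ * Real.log X := by nlinarith
  have hWH : 1 ≤ W * H := one_le_mul_of_one_le_of_one_le hW hH
  have hPL := PX X hXX₁ (Real.log Λ₀) v₁ v₂ v₃ qs (by
      intro p hp
      simp only [List.mem_cons, List.not_mem_nil, or_false] at hp
      have aux : ∀ {v u : Pq}, Rl C' W v u → u ∈ l → Dq.lump u →
          Dq.lump v ∧ 0 ≤ v.z ∧ v.z ≤ (3 + σ₁) * Real.log X ∧ (nm v.d : ℝ) ≤ X ^ (|B| + 4) := by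
        intro v u hr' hul hu'
        have h1 := hz2 u hul
        have h2 := hr'.zle
        refine ⟨hlump hr' hu', hr'.z0, ?_, hdd hr' h1 (hdB u hul)⟩
        nlinarith
      rcases hp with rfl | rfl | rfl
      · exact aux r1 hm1 (hu _ (by simp)).1
      · exact aux r2 hm2 (hu _ (by simp)).1
      · exact aux r3' hm3 (hu _ (by simp)).1) (by
      have : 0 ≤ Real.log Λ₀ := Real.log_nonneg hΛ1
      nlinarith) (by rw [hlΛ]; nlinarith) (by
      have := hF3.length_eq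
      omega) (by
      intro p hp
      obtain ⟨u, hu', hr'⟩ := hqs p hp
      have h1 := (hps u hu').2.2.1
      have h2 := hr'.zle
      have h3 : u ∈ l := by simp [hl, hu']
      refine ⟨kind_am_not_lump (hqsam p hp), hr'.z0, ?_, hdd hr' (hz2 u h3) (hdB u h3)⟩
      nlinarith) (by
      intro t'
      have h1 := mass_am (X := X) hqsam
      cases t' with
      | mo => rw [h1.1]; positivity
      | am =>
        rw [h1.2, div_le_iff₀ hlX]
        nlinarith) (W * H) hWH (by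
      intro p hp
      rw [← hvq] at hp
      obtain ⟨i, rfl⟩ := (List.mem_ofFn' _ _).1 hp
      have h1 := (hRl i).ht
      have h2 := hht (sf i) (hmem i)
      calc 1 + |(s' i).t| ≤ W * (1 + |(sf i).t|) := h1
        _ ≤ W * H := mul_le_mul_of_nonneg_left h2 (by linarith))
  have hRF : RQq (π lam).NP2 (π lam) h (Real.log Λ₀) (List.ofFn s') =
      RQ (π lam).NP2 h (Real.log Λ₀) ((v₁ :: v₂ :: v₃ :: qs).map (Pq.pc (π lam))) := by
    unfold Mono858.RQq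
    rw [hvq]
  rw [hRF]
  refine hPL.trans ?_
  have hmas := mass_am (X := X) hqsam
  rw [hmas.1, hmas.2]
  have e5 : tl Dq (List.ofFn s') = v₁.z + v₂.z + v₃.z + (qs.map Pq.z).sum := by
    have h5 : tl Dq (List.ofFn s') = ((List.ofFn s').map Pq.z).sum := rfl
    rw [h5, hvq]
    simp only [List.map_cons, List.sum_cons]
    ring
  have hdiv : ∀ {a b : ℝ}, a ≤ b + σ * Real.log X → a / Real.log X ≤ b / Real.log X + σ := by
    intro a b hab
    rw [div_le_iff₀ hlX, add_mul, div_mul_cancel₀ _ hlX.ne']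
    exact hab
  have hreal := hE (v₁.z / Real.log X) (v₂.z / Real.log X) (v₃.z / Real.log X)
    ((qs.map Pq.z).sum / Real.log X) (div_nonneg r1.z0 hlX.le)
    (hdiv (by linarith [r1.zle])) (div_nonneg r2.z0 hlX.le) (hdiv (by linarith [r2.zle]))
    (div_nonneg r3'.z0 hlX.le) (hdiv (by linarith [r3'.zle])) (div_nonneg hqz0 hlX.le)
    (hdiv (by linarith))
  have hκ : Real.log Λ₀ / Real.log X ≤ Real.log L / Real.log X + σ := by
    rw [hlΛ]
    exact hdiv (by linarith)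
  have hmono := E2z_slope (d := d) (y₁ := v₁.z / Real.log X) (y₂ := v₂.z / Real.log X)
    (y₃ := v₃.z / Real.log X) (a := (qs.map Pq.z).sum / Real.log X) hd hκ
  have hexp : E2 d (Real.log Λ₀ / Real.log X) (v₁.z / Real.log X) (v₂.z / Real.log X)
      (v₃.z / Real.log X) 0 ((qs.map Pq.z).sum / Real.log X) ≤
      tl Dq (List.ofFn s') / Real.log X + Ec := by
    rw [e5, add_div, add_div, add_div]
    exact hmono.trans hreal
  have h12 : (W * H) ^ M = H ^ M * W ^ (2 * ((M : ℝ) / 2)) := by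
    rw [mul_div_cancel₀ _ (two_ne_zero), Real.rpow_natCast, mul_pow, mul_comm]
  have h13 : Real.exp (tl Dq (List.ofFn s')) = X ^ (tl Dq (List.ofFn s') / Real.log X) := by
    rw [Real.rpow_def_of_pos hX0, mul_div_cancel₀ _ hlX.ne']
  have hW0 : 0 < W := by linarith
  rw [h12, hBd, h13]
  calc H ^ M * W ^ (2 * ((M : ℝ) / 2)) * X ^ (E2 d (Real.log Λ₀ / Real.log X)
        (v₁.z / Real.log X) (v₂.z / Real.log X) (v₃.z / Real.log X) 0
        ((qs.map Pq.z).sum / Real.log X) + ε₁)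
      ≤ H ^ M * W ^ (2 * ((M : ℝ) / 2)) * X ^ (tl Dq (List.ofFn s') / Real.log X + Ec + ε₁) := by
        refine mul_le_mul_of_nonneg_left ?_ (by positivity)
        exact Real.rpow_le_rpow_of_exponent_le hX1.le (by linarith)
    _ = _ := by
        rw [show tl Dq (List.ofFn s') / Real.log X + Ec + ε₁ =
          (Ec + ε₁) + tl Dq (List.ofFn s') / Real.log X by ring, Real.rpow_add hX0]
        ring

end

end Crest.Agent.R017.ETy71
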