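import Crest.Agent.R017.ETy1_71
import Crest.Agent.R017.ETx2_71

/-!
# Row 17, R8 / P1: the character side of one list in a window, non-principal `k` (helper71)

* **`cs_listy`** : block `2^i ≤ N k ≤ 2^(i+1)`, exact point `(w, av, k)`, one real line
-/

set_option autoImplicit false
set_option linter.unusedVariables false

noncomputable section

open Finset
open scoped ComplexConjugate Classical

namespace Crest.Agent.R017.ETy71

open Crest.Agent.R012 Crest.Agent.R012.Eis Crest.Agent.R012.MC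
open Crest.Agent.R017.CM106
open Crest.Agent.R017.C70
open Crest.Agent.R017.HP842 (Pc pc sqc alL Th)
open Crest.Agent.R017.B770
open Crest.Agent.R017.FE47 (PU cx SM)
open Crest.Agent.R017.XG702 (Pcs BG)
open Crest.Agent.R017.Prov71
open Crest.Agent.R017.I1146 (LN)
open Crest.Agent.R017.End699
open Crest.Agent.R017.E5B71 Crest.Agent.R017.E5P571
open Crest.Agent.R017.ER911 Crest.Agent.R017.SC777 Crest.Agent.R017.ExpC702
open Crest.Agent.R017.RM986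
open Crest.Agent.R017.ET71 Crest.Agent.R017.ET371 Crest.Agent.R017.ETx71

/-- the exponent, exact point -/
def E2g (d : ℝ) (q : Fin 5 → ℝ) : ℝ := E2z d (q 0) (q 1) (q 2) (q 3) (q 4)

lemma cont_E2g (d : ℝ) : Continuous (E2g d) := by
  have h1 : Continuous fun q : Fin 5 → ℝ => r3 d (q 0) (q 1) (q 2) (q 3) 0 (q 4) := by
    unfold r3 rH rA hb eX fL
    fun_prop
  have h2 : Continuous fun q : Fin 5 → ℝ =>
      FT d (q 0) (q 1 + q 2 + q 3 + (0 + q 4)) (q 3) (0 + q 4) := by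
    unfold FT Yb
    fun_prop
  have h3 : Continuous fun q : Fin 5 → ℝ => E3s d (q 0) (q 1) (q 2) (q 3) (0 + q 4) := by
    unfold E3s k1s K0s mn3
    fun_prop
  unfold E2g E2z E2
  exact (h1.min h2).min h3

theorem E2z_unif (d : ℝ) {ε : ℝ} (hε : 0 < ε) : ∃ η : ℝ, 0 < η ∧ ∀ q q' : Fin 5 → ℝ,
    (∀ i, 0 ≤ q i ∧ q i ≤ 4) → (∀ i, 0 ≤ q' i ∧ q' i ≤ 4) → (∀ i, |q i - q' i| ≤ η) →
    E2g d q ≤ E2g d q' + ε := by
  have hc : UniformContinuousOn (E2g d) (Set.Icc (fun _ => 0) (fun _ => 4)) :=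
    isCompact_Icc.uniformContinuousOn_of_continuous (cont_E2g d).continuousOn
  rw [Metric.uniformContinuousOn_iff] at hc
  obtain ⟨δ, hδ, H⟩ := hc ε hε
  refine ⟨δ / 2, by positivity, fun q q' hq hq' h => ?_⟩
  have := H q ⟨fun i => (hq i).1, fun i => (hq i).2⟩ q' ⟨fun i => (hq' i).1, fun i => (hq' i).2⟩
    (by
      rw [dist_pi_lt_iff hδ]
      intro i
      rw [Real.dist_eq]
      exact (h i).trans_lt (by linarith))
  rw [Real.dist_eq] at this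
  linarith [le_abs_self (E2g d q - E2g d q')]


/-- **children of a window by children of the exact point** -/
lemma E2z_clamp {d ε' η : ℝ} (HU : ∀ q q' : Fin 5 → ℝ, (∀ i, 0 ≤ q i ∧ q i ≤ 4) →
      (∀ i, 0 ≤ q' i ∧ q' i ≤ 4) → (∀ i, |q i - q' i| ≤ η) → E2g d q ≤ E2g d q' + ε')
    {k σ v₁ v₂ v₃ av ρ Ec : ℝ} (k0 : 0 ≤ k) (k1 : k ≤ 3) (σ0 : 0 ≤ σ) (hσρ : σ ≤ ρ)
    (hρη : ρ ≤ η) (hρ1 : ρ ≤ 1) (v10 : 0 ≤ v₁) (v11 : v₁ ≤ 3) (v20 : 0 ≤ v₂) (v21 : v₂ ≤ 3)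
    (v30 : 0 ≤ v₃) (v31 : v₃ ≤ 3) (a0 : 0 ≤ av) (a1 : av ≤ 3)
    (Hc : ∀ c₁ c₂ c₃ b : ℝ, 0 ≤ c₁ → c₁ ≤ v₁ → 0 ≤ c₂ → c₂ ≤ v₂ → 0 ≤ c₃ → c₃ ≤ v₃ →
      0 ≤ b → b ≤ av → E2z d k c₁ c₂ c₃ b ≤ c₁ + c₂ + c₃ + b + Ec)
    {y₁ y₂ y₃ a : ℝ} (y10 : 0 ≤ y₁) (y11 : y₁ ≤ v₁ + ρ) (y20 : 0 ≤ y₂) (y21 : y₂ ≤ v₂ + ρ)
    (y30 : 0 ≤ y₃) (y31 : y₃ ≤ v₃ + ρ) (b0 : 0 ≤ a) (b1 : a ≤ av + ρ) :
    E2z d (k + σ) y₁ y₂ y₃ a ≤ y₁ + y₂ + y₃ + a + (Ec + ε') := by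
  have hρ : 0 ≤ ρ := σ0.trans hσρ
  have cl : ∀ {y v : ℝ}, 0 ≤ y → y ≤ v + ρ → 0 ≤ v → 0 ≤ min y v ∧ min y v ≤ v ∧
      min y v ≤ y ∧ |y - min y v| ≤ ρ := by
    intro y v h1 h2 h3
    refine ⟨le_min h1 h3, min_le_right _ _, min_le_left _ _, ?_⟩
    rw [abs_of_nonneg (by linarith [min_le_left y v])]
    rcases min_choice y v with e | e <;> rw [e] <;> linarith
  obtain ⟨p1, p2, p3, p4⟩ := cl y10 y11 v10
  obtain ⟨q1, q2, q3, q4⟩ := cl y20 y21 v20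
  obtain ⟨r1, r2, r3, r4⟩ := cl y30 y31 v30
  obtain ⟨s1, s2, s3, s4⟩ := cl b0 b1 a0
  have h1 := HU ![k + σ, y₁, y₂, y₃, a] ![k, min y₁ v₁, min y₂ v₂, min y₃ v₃, min a av]
    (by
      intro i
      fin_cases i <;> simp <;> constructor <;> linarith)
    (by
      intro i
      fin_cases i
      · exact ⟨k0, by show k ≤ 4; linarith⟩
      · exact ⟨p1, by show min y₁ v₁ ≤ 4; linarith⟩
      · exact ⟨q1, by show min y₂ v₂ ≤ 4; linarith⟩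
      · exact ⟨r1, by show min y₃ v₃ ≤ 4; linarith⟩
      · exact ⟨s1, by show min a av ≤ 4; linarith⟩)
    (by
      intro i
      fin_cases i
      · show |k + σ - k| ≤ η
        rw [add_sub_cancel_left, abs_of_nonneg σ0]
        linarith
      · exact p4.trans hρη
      · exact q4.trans hρη
      · exact r4.trans hρη
      · exact s4.trans hρη)
  have h2 := Hc _ _ _ _ p1 p2 q1 q2 r1 r2 s1 s2
  have h3 : E2g d ![k + σ, y₁, y₂, y₃, a] = E2z d (k + σ) y₁ y₂ y₃ a := rfl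
  have h4 : E2g d ![k, min y₁ v₁, min y₂ v₂, min y₃ v₃, min a av] =
      E2z d k (min y₁ v₁) (min y₂ v₂) (min y₃ v₃) (min a av) := rfl
  rw [h3, h4] at h1
  linarith

variable {Λ : Type*} {π : Λ → DPar} {h : ℝ → ℝ} {d : ℝ} {s' s₀ : EF}

set_option maxHeartbeats 1000000 in
/-- **the character side of one list** -/
theorem cs_listy {c₀ : ℝ} (hpu : PU h c₀) (hP : ∀ lam, (π lam).OK)
    (Rc : ExpRules (7 / 8 + d) (ex Dq (fun lam => XEx298.Rt (π lam) h)) s')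
    (Rm : ExpRGFz (7 / 8 + d) (ex Dq (fun lam => XEx298.Rt (π lam) h)) s' s₀)
    (hd : 0 ≤ d) (hd8 : d ≤ 1 / 8) {ε : ℝ} (hε : 0 < ε) :
    ∃ σ : ℝ, 0 < σ ∧ ∀ (lam : Λ) (s : Eis), s ≠ 0 → ∀ (N : ℕ) (B : ℝ),
      ∃ (M : ℕ) (X₀ : ℝ), 1 < X₀ ∧ ∀ X : ℝ, X₀ ≤ X → ∀ (vs : Fin 3 → Pq) (qs : List Pq)
        (w : Fin 3 → ℝ) (av k : ℝ) (m : Eis) (i : ℕ) (H Ec : ℝ) (f : Equiv.Perm (Fin 3)),
      (∀ j, Dq.lump (vs j) ∧ 0 ≤ (vs j).z ∧ (nm (vs j).d : ℝ) ≤ X ^ B ∧ 1 + |(vs j).t| ≤ H) →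
      (∀ j, |(vs j).z / Real.log X - w j| ≤ σ) → (∀ j, 0 ≤ w j ∧ w j ≤ 1) → qs.length ≤ N →
      (∀ p ∈ qs, p.kd = .am ∧ 0 ≤ p.z ∧ p.z ≤ σ * Real.log X ∧ (nm p.d : ℝ) ≤ X ^ B ∧
        1 + |p.t| ≤ H) →
      |LN qs / Real.log X - av| ≤ σ → 0 ≤ av → av ≤ 1 → m ≠ 0 → (nm m : ℝ) ≤ X ^ B →
      |((i : ℝ) + 1) * Real.log 2 / Real.log X - k| ≤ σ → 0 ≤ k → k ≤ 1 → 1 ≤ H →
      (∀ c₁ c₂ c₃ b : ℝ, 0 ≤ c₁ → c₁ ≤ w (f 0) → 0 ≤ c₂ → c₂ ≤ w (f 1) → 0 ≤ c₃ →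
        c₃ ≤ w (f 2) → 0 ≤ b → b ≤ av → E2z d k c₁ c₂ c₃ b ≤ c₁ + c₂ + c₃ + b + Ec) →
      ∑ κ ∈ (primBall (2 ^ (i + 1))).filter (fun κ => CbF κ ∧ (π lam).NP2 (s * κ)),
          ‖CS (sqc m (alL h ((List.ofFn vs ++ qs).map (Pt (π lam) s)))) κ‖ ^ 2 ≤
        H ^ M * X ^ (w 0 + w 1 + w 2 + av + Ec + ε) := by
  obtain ⟨σ₀, hσ₀, G3⟩ := csAy hpu hP Rc Rm hd hd8 (ε := ε / 4) (by positivity)
  obtain ⟨η, hη, HU⟩ := E2z_unif d (ε := ε / 4) (by positivity)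
  obtain ⟨σ, hσ, hσσ₀, hση, hσ4, hσε⟩ : ∃ σ : ℝ, 0 < σ ∧ σ ≤ σ₀ ∧ 2 * σ ≤ η ∧ σ ≤ 1 / 4 ∧
      σ ≤ ε / 16 :=
    ⟨min (min σ₀ (ε / 16)) (min (η / 2) (1 / 4)),
      lt_min (lt_min hσ₀ (by positivity)) (lt_min (by positivity) (by norm_num)),
      (min_le_left _ _).trans (min_le_left _ _), by
        have := (min_le_right (min σ₀ (ε / 16)) (min (η / 2) (1 / 4))).trans (min_le_left _ _)
        linarith, (min_le_right _ _).trans (min_le_right _ _),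
      (min_le_left _ _).trans (min_le_right _ _)⟩
  refine ⟨σ, hσ, fun lam s hs N B => ?_⟩
  obtain ⟨M, X₀, hX₀, G⟩ := G3 σ hσ hσσ₀ lam s hs N B
  refine ⟨M, X₀, hX₀, ?_⟩
  intro X hX vs qs w av k m i H Ec f hvs hw hw01 hlen hqs ha a0 a1 hm0 hmX hk k0 k1 hH Hc
  have hX1 : 1 < X := by linarith
  have hX0 : 0 < X := by linarith
  set L := Real.log X with hL
  have hL0 : 0 < L := Real.log_pos hX1
  have hdv : ∀ {z c : ℝ}, z / L ≤ c → z ≤ c * L := fun h1 => (div_le_iff₀ hL0).1 h1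
  have hlogp : Real.log ((2 : ℝ) ^ (i + 1)) = (i + 1) * Real.log 2 := by
    rw [Real.log_pow]
    push_cast
    rfl
  have hLam : LN qs = (qs.map Pq.z).sum := rfl
  have hfl : ⌊(2 : ℝ) ^ (i + 1)⌋₊ = 2 ^ (i + 1) := by
    have : ((2 : ℝ) ^ (i + 1)) = ((2 ^ (i + 1) : ℕ) : ℝ) := by push_cast; rfl
    rw [this, Nat.floor_natCast]
  have hkx : ((i : ℝ) + 1) * Real.log 2 / L ≤ k + σ := by linarith [(abs_le.1 hk).2]
  have key := G X hX (vs (f 0)) (vs (f 1)) (vs (f 2)) qs m ((2 : ℝ) ^ (i + 1)) H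
    (Ec + ε / 4) (by
      have aux : ∀ j, Dq.lump (vs j) ∧ 0 ≤ (vs j).z ∧ (vs j).z ≤ 2 * Real.log X ∧
          (nm (vs j).d : ℝ) ≤ X ^ B := by
        intro j
        obtain ⟨h1, h2, h3, h4⟩ := hvs j
        refine ⟨h1, h2, ?_, h3⟩
        rw [← hL]
        refine hdv ?_
        linarith [(abs_le.1 (hw j)).2, (hw01 j).2]
      intro p' hp'
      simp only [List.mem_cons, List.not_mem_nil, or_false] at hp'
      rcases hp' with rfl | rfl | rfl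
      · exact aux _
      · exact aux _
      · exact aux _) hlen (fun p hp => ⟨(hqs p hp).1, (hqs p hp).2.1, (hqs p hp).2.2.1,
        (hqs p hp).2.2.2.1⟩) (by
      rw [← hLam, ← hL]
      refine hdv ?_
      linarith [(abs_le.1 ha).2]) hm0 hmX (one_le_pow₀ (by norm_num)) (by
      rw [Real.rpow_def_of_pos hX0, ← Real.exp_log (show (0 : ℝ) < 2 ^ (i + 1) by positivity),
        hlogp, ← hL]
      refine Real.exp_le_exp.2 ?_
      have := hdv hkx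
      have h2 : (k + σ) * L ≤ 2 * L := mul_le_mul_of_nonneg_right (by linarith) hL0.le
      linarith) hH (by
      intro p' hp'
      simp only [List.mem_cons] at hp'
      rcases hp' with rfl | rfl | rfl | hp'
      · exact (hvs _).2.2.2
      · exact (hvs _).2.2.2
      · exact (hvs _).2.2.2
      · exact (hqs p' hp').2.2.2.2) (by
      intro y₁ y₂ y₃ b y10 y11 y20 y21 y30 y31 b0 b1
      rw [← hL] at y11 y21 y31 b1 ⊢
      rw [hlogp]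
      have h1 := E2z_slope (y₁ := y₁) (y₂ := y₂) (y₃ := y₃) (a := b) hd
        (show ((i : ℝ) + 1) * Real.log 2 / L + σ ≤ k + 2 * σ by linarith)
      refine h1.trans ?_
      have hy : ∀ {j : Fin 3} {y : ℝ}, y ≤ (vs j).z / L + σ → y ≤ w j + 2 * σ := by
        intro j y h1
        have h2 := (abs_le.1 (hw j)).2
        linarith
      refine E2z_clamp HU (ρ := 2 * σ) k0 (by linarith) (by linarith) le_rfl hση (by linarith)
        (hw01 _).1 (by linarith [(hw01 (f 0)).2]) (hw01 _).1 (by linarith [(hw01 (f 1)).2])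
        (hw01 _).1 (by linarith [(hw01 (f 2)).2]) a0 (by linarith) Hc y10 (hy y11) y20
        (hy y21) y30 (hy y31) b0 ?_
      have h2 := (abs_le.1 ha).2
      rw [hLam] at h2
      linarith)
  rw [hfl, alL_perm h ((perm_vs vs qs f).map (Pt (π lam) s))] at key
  refine key.trans (mul_le_mul_of_nonneg_left ?_ (by positivity))
  refine Real.rpow_le_rpow_of_exponent_le hX1.le ?_
  have e1 : ((vs (f 0)).z + (vs (f 1)).z + (vs (f 2)).z + (qs.map Pq.z).sum) / L =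
      (vs 0).z / L + (vs 1).z / L + (vs 2).z / L + LN qs / L := by
    have := sum_vs (fun j => (vs j).z) f
    rw [← hLam]
    have h2 : (vs (f 0)).z + (vs (f 1)).z + (vs (f 2)).z = (vs 0).z + (vs 1).z + (vs 2).z := this
    rw [h2]
    ring
  rw [← hL, e1]
  linarith [(abs_le.1 (hw 0)).2, (abs_le.1 (hw 1)).2, (abs_le.1 (hw 2)).2, (abs_le.1 ha).2]

end Crest.Agent.R017.ETy71
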