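import Crest.Agent.R017.P1Q_904

/-!
# Row 17, R8: the class-form Gram sum at the families `q ∈ [3/5 k, 17/20 k]` (helper904)

Homogeneous (`k` = family of the parent, `D = d k`), tolerance `t`. `q` = family of the Gram sum,
`p` = length of the list, `um` = smallest lump, `v` = level, `δ` = removed divisor, `b` = common
divisor in the `T`-part, `e` in the `R`-part. The `T`-part and the `R`-part have no weight in `e`.
* `Gk` : the room (helper71's `Gk`), `RSm` = his `RSk`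
* `tL` : number of the `T`-side (`l`, `n` free, family `+ b / 2`), `hL` : the exponent of `H`
* `tL_le` : the `T`-lines with cubes; `sL_le` : the line `(H V³ / K²)^(1/3)`; `thL_le`
* `coreL`, `coreL2` : the structured part, second form
-/

set_option autoImplicit false
set_option linter.unusedVariables false

noncomputable section

namespace Crest.Agent.R017.P1L904

open Crest.Agent.R017.RnP571 (Dh)
open Crest.Agent.R017.P1Q904 (gQ gQ_cases min3_le)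

/-- character side at the family `q` -/
def RS0 (q p um x : ℝ) : ℝ :=
  max (q + p) (2 / 3 * q + 4 / 3 * p + max (um / 2) (4 / 15 * (um + x)))

/-- the same from the far claims -/
def RS1 (k q p um x : ℝ) : ℝ :=
  p + max q (max ((2 * q + max k (p + um)) / 3)
    (max ((q + 2 * p + max k (p + um) / 3) / 3) ((q + 3 * p - 5 / 12 * (p + um - x)) / 3)))

/-- character side -/
def RSm (k q p um x : ℝ) : ℝ := min (RS0 q p um x) (RS1 k q p um x)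

/-- the room -/
def Gk (N k q p um x D : ℝ) : ℝ :=
  2 * (k + p + max 0 (5 / 4 * N - k) - (k - q) / 3) + D / 2 - RSm k q p um x

/-- number of the `T`-side: level `l`, length `n`, `m` = smallest lump + share -/
def tL (K5 b l n m : ℝ) : ℝ :=
  min (max (2 * n) (4 / 3 * n + (max (K5 + b / 2) (3 / 2 * l) + l) / 3))
    (max (l + n + m) (5 / 3 * n + l / 3))

/-- the exponent of `H` -/
def hL (q v p δ x K5 G : ℝ) : ℝ :=
  max (2 * q + 4 * p - δ - 3 * G)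
    (min (2 * q + 2 * v + 3 * p + 2 * x - 4 * δ - 3 * G)
      (2 * q + 3 * p + max K5 (4 / 3 * p + 2 / 3 * x - 4 / 3 * δ) - 3 * G))

lemma RSm_le0 (k q p um x : ℝ) : RSm k q p um x ≤ q + p ∨
    RSm k q p um x ≤ 2 / 3 * q + 4 / 3 * p + um / 2 ∨
    RSm k q p um x ≤ 2 / 3 * q + 4 / 3 * p + 4 / 15 * (um + x) := by
  have h : RSm k q p um x ≤ RS0 q p um x := min_le_left _ _
  unfold RS0 at h
  rcases le_max_iff.1 h with h | h
  · exact Or.inl h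
  · rcases max_choice (um / 2) (4 / 15 * (um + x)) with h2 | h2
    · rw [h2] at h; exact Or.inr (Or.inl h)
    · rw [h2] at h; exact Or.inr (Or.inr h)

lemma RSm_le1 (k q p um x : ℝ) : RSm k q p um x ≤ q + p ∨
    RSm k q p um x ≤ p + (2 * q + k) / 3 ∨ RSm k q p um x ≤ p + (2 * q + (p + um)) / 3 ∨
    RSm k q p um x ≤ p + (q + 2 * p + k / 3) / 3 ∨
    RSm k q p um x ≤ p + (q + 2 * p + (p + um) / 3) / 3 ∨
    RSm k q p um x ≤ p + (q + 3 * p - 5 / 12 * (p + um - x)) / 3 := by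
  have h : RSm k q p um x ≤ RS1 k q p um x := min_le_right _ _
  unfold RS1 at h
  rcases max_choice q (max ((2 * q + max k (p + um)) / 3)
    (max ((q + 2 * p + max k (p + um) / 3) / 3) ((q + 3 * p - 5 / 12 * (p + um - x)) / 3)))
    with h1 | h1
  · rw [h1] at h; left; linarith
  rw [h1] at h
  rcases max_choice ((2 * q + max k (p + um)) / 3)
    (max ((q + 2 * p + max k (p + um) / 3) / 3) ((q + 3 * p - 5 / 12 * (p + um - x)) / 3))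
    with h2 | h2
  · rw [h2] at h
    rcases max_choice k (p + um) with h3 | h3
    · rw [h3] at h; right; left; exact h
    · rw [h3] at h; right; right; left; exact h
  rw [h2] at h
  rcases max_choice ((q + 2 * p + max k (p + um) / 3) / 3)
    ((q + 3 * p - 5 / 12 * (p + um - x)) / 3) with h4 | h4
  · rw [h4] at h
    rcases max_choice k (p + um) with h3 | h3
    · rw [h3] at h; right; right; right; left; exact h
    · rw [h3] at h; right; right; right; right; left; exact h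
  · rw [h4] at h; right; right; right; right; right; exact h

/-- closes against the target -/
theorem kE (N k q p um x D : ℝ) : (k - q) / 3 + (Gk N k q p um x D + (RSm k q p um x + D)) / 2 ≤
    k + p + max 0 (5 / 4 * N - k) + 3 / 4 * D := by
  unfold Gk; linarith

lemma tL_cases (K5 b l n m : ℝ) : (tL K5 b l n m ≤ l + n + m ∨ tL K5 b l n m ≤ 5 / 3 * n + l / 3) ∧
    (tL K5 b l n m ≤ 2 * n ∨ tL K5 b l n m ≤ 4 / 3 * n + (K5 + b / 2 + l) / 3 ∨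
      tL K5 b l n m ≤ 4 / 3 * n + (3 / 2 * l + l) / 3) := by
  unfold tL
  refine ⟨le_max_iff.1 (min_le_right _ _), ?_⟩
  rcases le_total (2 * n) (4 / 3 * n + (max (K5 + b / 2) (3 / 2 * l) + l) / 3) with h | h
  · rw [max_eq_right h]
    rcases le_total (K5 + b / 2) (3 / 2 * l) with h2 | h2
    · rw [max_eq_right h2]; exact Or.inr (Or.inr (min_le_left _ _))
    · rw [max_eq_left h2]; exact Or.inr (Or.inl (min_le_left _ _))
  · rw [max_eq_left h]; exact Or.inl (min_le_left _ _)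

lemma hL_ge (q v p δ x K5 G : ℝ) : 2 * q + 4 * p - δ - 3 * G ≤ hL q v p δ x K5 G ∧
    (2 * q + 2 * v + 3 * p + 2 * x - 4 * δ - 3 * G ≤ hL q v p δ x K5 G ∨
      (2 * q + 3 * p + K5 - 3 * G ≤ hL q v p δ x K5 G ∧
        2 * q + 3 * p + (4 / 3 * p + 2 / 3 * x - 4 / 3 * δ) - 3 * G ≤ hL q v p δ x K5 G)) := by
  unfold hL
  refine ⟨le_max_left _ _, ?_⟩
  rcases min_choice (2 * q + 2 * v + 3 * p + 2 * x - 4 * δ - 3 * G)
    (2 * q + 3 * p + max K5 (4 / 3 * p + 2 / 3 * x - 4 / 3 * δ) - 3 * G) with h | h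
  · left; rw [h]; exact le_max_right _ _
  · right; rw [h]
    have h1 := le_max_left K5 (4 / 3 * p + 2 / 3 * x - 4 / 3 * δ)
    have h2 := le_max_right K5 (4 / 3 * p + 2 / 3 * x - 4 / 3 * δ)
    have h3 := le_max_right (2 * q + 4 * p - δ - 3 * G)
      (2 * q + 3 * p + max K5 (4 / 3 * p + 2 / 3 * x - 4 / 3 * δ) - 3 * G)
    constructor <;> linarith

lemma hL_le (q v p δ x K5 G : ℝ) :
    (hL q v p δ x K5 G = 2 * q + 4 * p - δ - 3 * G ∧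
      (2 * q + 2 * v + 3 * p + 2 * x - 4 * δ - 3 * G ≤ 2 * q + 4 * p - δ - 3 * G ∨
        (2 * q + 3 * p + K5 - 3 * G ≤ 2 * q + 4 * p - δ - 3 * G ∧
          2 * q + 3 * p + (4 / 3 * p + 2 / 3 * x - 4 / 3 * δ) - 3 * G ≤
            2 * q + 4 * p - δ - 3 * G))) ∨
    (hL q v p δ x K5 G ≤ 2 * q + 2 * v + 3 * p + 2 * x - 4 * δ - 3 * G ∧
      (hL q v p δ x K5 G ≤ 2 * q + 3 * p + K5 - 3 * G ∨
        hL q v p δ x K5 G ≤ 2 * q + 3 * p + (4 / 3 * p + 2 / 3 * x - 4 / 3 * δ) - 3 * G)) := by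
  unfold hL
  rcases le_total (min (2 * q + 2 * v + 3 * p + 2 * x - 4 * δ - 3 * G)
    (2 * q + 3 * p + max K5 (4 / 3 * p + 2 / 3 * x - 4 / 3 * δ) - 3 * G))
    (2 * q + 4 * p - δ - 3 * G) with h | h
  · left
    refine ⟨max_eq_left h, ?_⟩
    rcases min_le_iff.1 h with h | h
    · exact Or.inl h
    · right
      have h1 := le_max_left K5 (4 / 3 * p + 2 / 3 * x - 4 / 3 * δ)
      have h2 := le_max_right K5 (4 / 3 * p + 2 / 3 * x - 4 / 3 * δ)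
      constructor <;> linarith
  · right
    rw [max_eq_right h]
    refine ⟨min_le_left _ _, ?_⟩
    rcases max_choice K5 (4 / 3 * p + 2 / 3 * x - 4 / 3 * δ) with h1 | h1
    · left; rw [h1]; exact min_le_right _ _
    · right; rw [h1]; exact min_le_right _ _

/-- the linear core of the `T`-lines with cubes -/
lemma coreT {k y₃ y₄ u x D t q p v δ b l n m x' h G K5 T : ℝ} (hD : Dh k y₃ y₄ u x D)
    (t0 : 0 ≤ t) (t1 : t ≤ k / 20000) (v1 : v ≤ 2 * (y₃ + y₄ + u) - k + 3 * x + t)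
    (v2 : v ≤ 3 / 4 * (y₃ + y₄ + u) + 3 * x + t) (δ0 : 0 ≤ δ) (b0 : 0 ≤ b)
    (hl : l ≤ v - 2 * δ + b + t) (x0' : 0 ≤ x') (x1' : x' ≤ x + t)
    (hn : n ≤ p - δ - b + t) (hm : 3 * (m - x') ≤ n - x')
    (hK : K5 = k ∨ K5 = 5 / 4 * (y₃ + y₄ + u)) (hK' : k ≤ K5)
    (hK'' : 5 / 4 * (y₃ + y₄ + u) ≤ K5) (hh0 : 2 * q + 4 * p - δ - 3 * G ≤ h)
    (hh : 2 * q + 2 * v + 3 * p + 2 * x - 4 * δ - 3 * G ≤ h ∨
      (2 * q + 3 * p + K5 - 3 * G ≤ h ∧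
        2 * q + 3 * p + (4 / 3 * p + 2 / 3 * x - 4 / 3 * δ) - 3 * G ≤ h))
    (hT1 : T ≤ l + n + m ∨ T ≤ 5 / 3 * n + l / 3)
    (hT2 : T ≤ 2 * n ∨ T ≤ 4 / 3 * n + (K5 + b / 2 + l) / 3 ∨
      T ≤ 4 / 3 * n + (3 / 2 * l + l) / 3) :
    2 / 3 * q - (h + p) / 3 + 4 / 3 * δ + b / 3 + T - l / 3 ≤ G + 10 * t := by
  obtain ⟨k0, u4, y43, u0, y3, N1, near, x0, adm, d0, d1⟩ := hD
  rcases hT1 with hT1 | hT1
  swap
  · linarith
  rcases hh with hh | ⟨h1, h2⟩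
  · linarith
  · rcases hT2 with hT2 | hT2 | hT2
    · linarith
    · linarith
    · rcases adm with ⟨a0, rfl | a1⟩ | ⟨a1, a2, a3⟩ <;> linarith

/-- **the `T`-lines with cubes** -/
theorem tL_le {k y₃ y₄ u x D t q p um v δ b l z₁ z₂ z₃ x' : ℝ} (hD : Dh k y₃ y₄ u x D)
    (t0 : 0 ≤ t) (t1 : t ≤ k / 20000) (v1 : v ≤ 2 * (y₃ + y₄ + u) - k + 3 * x + t)
    (v2 : v ≤ 3 / 4 * (y₃ + y₄ + u) + 3 * x + t) (δ0 : 0 ≤ δ) (b0 : 0 ≤ b)
    (hl : l ≤ v - 2 * δ + b + t) (x0' : 0 ≤ x') (x1' : x' ≤ x + t)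
    (hn : z₁ + z₂ + z₃ + x' ≤ p - δ - b + t) :
    2 / 3 * q - (hL q v p δ x (max k (5 / 4 * (y₃ + y₄ + u))) (Gk (y₃ + y₄ + u) k q p um x D) + p) / 3
      + 4 / 3 * δ + b / 3 + tL (max k (5 / 4 * (y₃ + y₄ + u))) b l (z₁ + z₂ + z₃ + x')
        (min z₁ (min z₂ z₃) + x') - l / 3 ≤ Gk (y₃ + y₄ + u) k q p um x D + 10 * t := by
  obtain ⟨hT1, hT2⟩ := tL_cases (max k (5 / 4 * (y₃ + y₄ + u))) b l (z₁ + z₂ + z₃ + x')
    (min z₁ (min z₂ z₃) + x')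
  have hm := min3_le z₁ z₂ z₃
  exact coreT hD t0 t1 v1 v2 δ0 b0 hl x0' x1' hn (by linarith) (max_choice _ _)
    (le_max_left _ _) (le_max_right _ _) (hL_ge _ _ _ _ _ _ _).1 (hL_ge _ _ _ _ _ _ _).2 hT1 hT2

set_option maxHeartbeats 4000000 in
/-- the linear core of the line `(H V³ / K²)^(1/3)` -/
lemma coreS {k y₃ y₄ u x D t q p um v δ b l n m x' G R K5 T : ℝ} (hD : Dh k y₃ y₄ u x D)
    (t0 : 0 ≤ t) (t1 : t ≤ k / 20000) (q0 : 3 / 5 * k - t ≤ q) (q1 : q ≤ 17 / 20 * k + t)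
    (p1 : p ≤ y₃ + y₄ + u + x + t) (um1 : um ≤ u + t) (um2 : 3 * um ≤ p + t)
    (v1 : v ≤ 2 * (y₃ + y₄ + u) - k + 3 * x + t)
    (v2 : v ≤ 3 / 4 * (y₃ + y₄ + u) + 3 * x + t) (δ0 : 0 ≤ δ) (b0 : 0 ≤ b)
    (hl : l ≤ v - 2 * δ + b + t) (x0' : 0 ≤ x') (x1' : x' ≤ x + t)
    (hn : n ≤ p - δ - b + t) (hm : 3 * (m - x') ≤ n - x')
    (hK : K5 = k ∨ K5 = 5 / 4 * (y₃ + y₄ + u)) (hK' : k ≤ K5) (hK'' : 5 / 4 * (y₃ + y₄ + u) ≤ K5)
    (hG : 2 * (k + p + (K5 - k) - (k - q) / 3) + D / 2 - R ≤ G)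
    (hR : R ≤ q + p ∨ R ≤ 2 / 3 * q + 4 / 3 * p + um / 2 ∨
      R ≤ 2 / 3 * q + 4 / 3 * p + 4 / 15 * (um + x))
    (hT1 : T ≤ l + n + m ∨ T ≤ 5 / 3 * n + l / 3)
    (hT2 : T ≤ 2 * n ∨ T ≤ 4 / 3 * n + (K5 + b / 2 + l) / 3 ∨
      T ≤ 4 / 3 * n + (3 / 2 * l + l) / 3) :
    2 / 3 * v + 2 * δ + T - p / 3 ≤ G + 10 * t := by
  obtain ⟨k0, u4, y43, u0, y3, N1, near, x0, adm, d0, d1⟩ := hD
  rcases hR with hR | hR | hR <;> rcases hK with rfl | rfl <;>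
  rcases hT1 with hT1 | hT1 <;> rcases hT2 with hT2 | hT2 | hT2 <;>
  rcases adm with ⟨a0, rfl | a1⟩ | ⟨a1, a2, a3⟩ <;> linarith

lemma Gk_eq (N k q p um x D : ℝ) : 2 * (k + p + (max k (5 / 4 * N) - k) - (k - q) / 3) + D / 2 -
    RSm k q p um x = Gk N k q p um x D := by
  unfold Gk
  rcases le_total k (5 / 4 * N) with h | h
  · rw [max_eq_right h, max_eq_right (by linarith)]
  · rw [max_eq_left h, max_eq_left (by linarith)]; ring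

/-- **the line `(H V³ / K²)^(1/3)`** -/
theorem sL_le {k y₃ y₄ u x D t q p um v δ b l z₁ z₂ z₃ x' : ℝ} (hD : Dh k y₃ y₄ u x D)
    (t0 : 0 ≤ t) (t1 : t ≤ k / 20000) (q0 : 3 / 5 * k - t ≤ q) (q1 : q ≤ 17 / 20 * k + t)
    (p1 : p ≤ y₃ + y₄ + u + x + t) (um1 : um ≤ u + t) (um2 : 3 * um ≤ p + t)
    (v1 : v ≤ 2 * (y₃ + y₄ + u) - k + 3 * x + t)
    (v2 : v ≤ 3 / 4 * (y₃ + y₄ + u) + 3 * x + t) (δ0 : 0 ≤ δ) (b0 : 0 ≤ b)
    (hl : l ≤ v - 2 * δ + b + t) (x0' : 0 ≤ x') (x1' : x' ≤ x + t)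
    (hn : z₁ + z₂ + z₃ + x' ≤ p - δ - b + t) :
    2 / 3 * v + 2 * δ + tL (max k (5 / 4 * (y₃ + y₄ + u))) b l (z₁ + z₂ + z₃ + x')
      (min z₁ (min z₂ z₃) + x') - p / 3 ≤ Gk (y₃ + y₄ + u) k q p um x D + 10 * t := by
  obtain ⟨hT1, hT2⟩ := tL_cases (max k (5 / 4 * (y₃ + y₄ + u))) b l (z₁ + z₂ + z₃ + x')
    (min z₁ (min z₂ z₃) + x')
  have hm := min3_le z₁ z₂ z₃
  exact coreS hD t0 t1 q0 q1 p1 um1 um2 v1 v2 δ0 b0 hl x0' x1' hn (by linarith) (max_choice _ _)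
    (le_max_left _ _) (le_max_right _ _) (Gk_eq _ _ _ _ _ _ _).le (RSm_le0 _ _ _ _ _) hT1 hT2

set_option maxHeartbeats 4000000 in
/-- the linear core of `H² V³ ≤ K²` -/
lemma coreTh {k y₃ y₄ u x D t q p um v δ h G R K5 : ℝ} (hD : Dh k y₃ y₄ u x D)
    (t0 : 0 ≤ t) (t1 : t ≤ k / 20000) (q0 : 3 / 5 * k - t ≤ q) (q1 : q ≤ 17 / 20 * k + t)
    (p0 : k / 2 - 2 * x - t ≤ p) (p1 : p ≤ y₃ + y₄ + u + x + t) (p2 : p ≤ y₃ + y₄ + um + x + t)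
    (um0 : 0 ≤ um) (um1 : um ≤ u + t) (um2 : 3 * um ≤ p + t)
    (v1 : v ≤ 2 * (y₃ + y₄ + u) - k + 3 * x + t)
    (v2 : v ≤ 3 / 4 * (y₃ + y₄ + u) + 3 * x + t) (δ0 : 0 ≤ δ)
    (hK : K5 = k ∨ K5 = 5 / 4 * (y₃ + y₄ + u)) (hK' : k ≤ K5) (hK'' : 5 / 4 * (y₃ + y₄ + u) ≤ K5)
    (hG : 2 * (k + p + (K5 - k) - (k - q) / 3) + D / 2 - R ≤ G)
    (hR : R ≤ q + p ∨ R ≤ p + (2 * q + k) / 3 ∨ R ≤ p + (2 * q + (p + um)) / 3 ∨
      R ≤ p + (q + 2 * p + k / 3) / 3 ∨ R ≤ p + (q + 2 * p + (p + um) / 3) / 3 ∨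
      R ≤ p + (q + 3 * p - 5 / 12 * (p + um - x)) / 3)
    (hh : h = 2 * q + 4 * p - δ - 3 * G ∨ h ≤ 2 * q + 3 * p + K5 - 3 * G ∨
        h ≤ 2 * q + 3 * p + (4 / 3 * p + 2 / 3 * x - 4 / 3 * δ) - 3 * G) :
    2 * h + 3 * v + k / 100 ≤ 2 * q := by
  obtain ⟨k0, u4, y43, u0, y3, N1, near, x0, adm, d0, d1⟩ := hD
  rcases hR with hR | hR | hR | hR | hR | hR <;> rcases hK with rfl | rfl <;>
  rcases hh with hh | hh | hh <;>
  rcases adm with ⟨a0, rfl | a1⟩ | ⟨a1, a2, a3⟩ <;> linarith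

/-- **`H² V³ ≤ K²`** -/
theorem thL_le {k y₃ y₄ u x D t q p um v δ : ℝ} (hD : Dh k y₃ y₄ u x D)
    (t0 : 0 ≤ t) (t1 : t ≤ k / 20000) (q0 : 3 / 5 * k - t ≤ q) (q1 : q ≤ 17 / 20 * k + t)
    (p0 : k / 2 - 2 * x - t ≤ p) (p1 : p ≤ y₃ + y₄ + u + x + t) (p2 : p ≤ y₃ + y₄ + um + x + t)
    (um0 : 0 ≤ um) (um1 : um ≤ u + t) (um2 : 3 * um ≤ p + t)
    (v1 : v ≤ 2 * (y₃ + y₄ + u) - k + 3 * x + t)
    (v2 : v ≤ 3 / 4 * (y₃ + y₄ + u) + 3 * x + t) (δ0 : 0 ≤ δ) :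
    2 * hL q v p δ x (max k (5 / 4 * (y₃ + y₄ + u))) (Gk (y₃ + y₄ + u) k q p um x D) + 3 * v +
      k / 100 ≤ 2 * q := by
  refine coreTh hD t0 t1 q0 q1 p0 p1 p2 um0 um1 um2 v1 v2 δ0 (max_choice _ _) (le_max_left _ _)
    (le_max_right _ _) (Gk_eq _ _ _ _ _ _ _).le (RSm_le1 _ _ _ _ _) ?_
  rcases hL_le q v p δ x (max k (5 / 4 * (y₃ + y₄ + u))) (Gk (y₃ + y₄ + u) k q p um x D)
    with ⟨h, -⟩ | ⟨-, h | h⟩
  · exact Or.inl h
  · exact Or.inr (Or.inl h)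
  · exact Or.inr (Or.inr h)

end Crest.Agent.R017.P1L904
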