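import Crest.Agent.R017.ETy2_71
import Crest.Agent.R017.ETk_548
import Crest.Agent.R017.P1L_904

/-!
# Row 17, exceptional class (helper71): exponents of the character half

* `ENx`, `ERx` : the exponent of a natural, of a replaced list
* `real_N`, `real_R` : the real line of `cs_listy`
* `CEX`, `CES` : the exponents of `CsGUc`
-/

set_option autoImplicit false
set_option linter.unusedVariables false

noncomputable section

open Finset
open scoped ComplexConjugate Classical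

namespace Crest.Agent.R017.ETy71

open Crest.Agent.R012 Crest.Agent.R012.Eis Crest.Agent.R012.MC
open Crest.Agent.R017.CM106
open Crest.Agent.R017.C70
open Crest.Agent.R017.B770
open Crest.Agent.R017.Prov71
open Crest.Agent.R017.XT71 (Sys Win mx)
open Crest.Agent.R017.E5B71 Crest.Agent.R017.E5P571 Crest.Agent.R017.E5L770
open Crest.Agent.R017.ExBox960 Crest.Agent.R017.ExP960 Crest.Agent.R017.P1X960
open Crest.Agent.R017.ER911 Crest.Agent.R017.SC777 Crest.Agent.R017.ExpC702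
open Crest.Agent.R017.RM986
open Crest.Agent.R017.GHR90 (DmH DmH.of)
open Crest.Agent.R017.P1V5176 (Dm5)
open Crest.Agent.R017.ET71 Crest.Agent.R017.ET371 Crest.Agent.R017.ETx71
open Crest.Agent.R017.P1L904 (RSm)

/-- smallest length -/
def mV (w : Fin 3 → ℝ) : ℝ := min (w 0) (min (w 1) (w 2))

/-- length of a list -/
def pV (w : Fin 3 → ℝ) (av : ℝ) : ℝ := w 0 + w 1 + w 2 + av

lemma RSm_eq (κ k p um x : ℝ) : RSm κ k p um x = RSk κ k p um x := rfl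

/-- exponent, small families -/
def ELx (d k v₂ p x : ℝ) : ℝ := k + p + (3 / 4 + 2 * d) * (min v₂ (p / 3) + x)

/-- exponent of a natural list -/
def ENx (d κ k p v₂ um x : ℝ) : ℝ :=
  if k ≤ 3 / 5 * κ then ELx d k v₂ p x else RSm κ k p um x + 9 / 10 * (d * κ)

/-- exponent of a replaced list -/
def ERx (d κ k p v₂ um x : ℝ) : ℝ :=
  if k ≤ 3 / 5 * κ then ELx d k v₂ p x else RS0k k p um x + 9 / 10 * (d * κ)

/-- small families -/
lemma E2z_lo {d k z₁ z₂ z₃ z c₁ c₂ c₃ b : ℝ} (hd : 0 ≤ d) (hk : 0 ≤ k)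
    (c10 : 0 ≤ c₁) (c1 : c₁ ≤ z₁) (c20 : 0 ≤ c₂) (c2 : c₂ ≤ z₂) (c30 : 0 ≤ c₃) (c3 : c₃ ≤ z₃)
    (b0 : 0 ≤ b) (b1 : b ≤ z) :
    E2z d k c₁ c₂ c₃ b ≤ c₁ + c₂ + c₃ + b +
      (k + (3 / 4 + 2 * d) * (min z₁ (min z₂ z₃) + z)) := by
  unfold E2z
  have h1 : E2 d k c₁ c₂ c₃ 0 b ≤ r3 d k c₁ c₂ c₃ 0 b :=
    (min_le_left _ _).trans (min_le_left _ _)
  have h2 := r3_le_904 (κ := k) (y₁ := c₁) (y₂ := c₂) (y₃ := c₃) (m := 0) (a := b) hd
  have h3 : min (fL c₁ k) (min (fL c₂ k) (fL c₃ k)) ≤ min z₁ (min z₂ z₃) :=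
    min_le_min ((fL_le' c10 hk).trans c1)
      (min_le_min ((fL_le' c20 hk).trans c2) ((fL_le' c30 hk).trans c3))
  have h4 : (3 / 4 + 2 * d) * (min (fL c₁ k) (min (fL c₂ k) (fL c₃ k)) + (0 + b)) ≤
      (3 / 4 + 2 * d) * (min z₁ (min z₂ z₃) + z) :=
    mul_le_mul_of_nonneg_left (by linarith) (by linarith)
  linarith

set_option maxHeartbeats 1000000 in
/-- **large families, replaced list** -/
theorem E2z_hiR {c d y₃ y₄ u x k z₁ z₂ z₃ z c₁ c₂ c₃ b M : ℝ} (hc : 0 < c)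
    (hD : DmH c (d * c) y₃ y₄ u x) (hd : 0 ≤ d) (k0 : 3 / 5 * c ≤ k)
    (hz : z₁ ≤ u ∨ z₂ ≤ u) (h31 : z₃ ≤ z₁) (h32 : z₃ ≤ z₂) (z30 : 0 ≤ z₃)
    (hzx : z ≤ x) (z0 : 0 ≤ z) (p0 : 3 / 10 * c ≤ z₁ + z₂ + z₃ + z)
    (hpN : z₁ + z₂ + z₃ ≤ y₃ + y₄ + u)
    (hM1 : z₃ / 2 ≤ M) (hM2 : 4 / 15 * (z₃ + z) ≤ M)
    (c10 : 0 ≤ c₁) (c1 : c₁ ≤ z₁) (c20 : 0 ≤ c₂) (c2 : c₂ ≤ z₂) (c30 : 0 ≤ c₃) (c3 : c₃ ≤ z₃)
    (b0 : 0 ≤ b) (b1 : b ≤ z) :
    E2z d k c₁ c₂ c₃ b ≤ c₁ + c₂ + c₃ + b +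
      max k (2 / 3 * k + 1 / 3 * (z₁ + z₂ + z₃ + z) + M) + 9 / 10 * (d * c) := by
  have hk : 0 ≤ k := by linarith
  obtain ⟨u4, y43, u0, hy3, N1, near, hx0, adm, d0, d1⟩ := hD
  have hx36 : x ≤ 1 / 36 * c := by
    rcases adm with h | ⟨h, -⟩ | ⟨h, -⟩ <;> linarith
  set T := max k (2 / 3 * k + 1 / 3 * (z₁ + z₂ + z₃ + z) + M) with hT
  have t1 : k ≤ T := le_max_left _ _
  have t2 : 2 / 3 * k + 1 / 3 * (z₁ + z₂ + z₃ + z) + M ≤ T := le_max_right _ _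
  unfold E2z
  rcases le_total (2 * (c₁ + c₂ + c₃ + b)) k with hs | hs
  · have h1 : E2 d k c₁ c₂ c₃ 0 b ≤ r3 d k c₁ c₂ c₃ 0 b :=
      (min_le_left _ _).trans (min_le_left _ _)
    have h2 := r3_short (d := d) hk c10 c20 c30 b0 hs
    linarith
  · -- the closed form
    have hcb : c₃ + b ≤ 9 / 32 * c := by
      rcases adm with h | ⟨h, h', h'', h'''⟩ | ⟨h, h'⟩ <;> linarith
    have hdw : 16 / 5 * d * (c₃ + b) ≤ 9 / 10 * (d * c) := by
      have : d * (c₃ + b) ≤ d * (9 / 32 * c) := mul_le_mul_of_nonneg_left hcb hd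
      linarith
    have hdw0 : 0 ≤ d * (c₃ + b) := mul_nonneg hd (by linarith)
    set n := c₁ + c₂ + c₃ + (0 + b) with hn
    have hn' : n = c₁ + c₂ + c₃ + b := by rw [hn]; ring
    rcases le_total (n - 3 / 4 * Yb n c₃ (0 + b)) k with hr | hr
    · -- `FT`
      have h1 : E2 d k c₁ c₂ c₃ 0 b ≤ FT d k n c₃ (0 + b) :=
        (min_le_left _ _).trans (min_le_right _ _)
      refine h1.trans ?_
      have hY2 : n / 3 + Yb n c₃ (0 + b) / 2 ≤ 1 / 3 * (z₁ + z₂ + z₃ + z) + M := by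
        have : Yb n c₃ (0 + b) ≤ 2 * (1 / 3 * (z₁ + z₂ + z₃ + z) + M - n / 3) := by
          unfold Yb
          refine max_le (by linarith) (max_le (by linarith) (max_le (by linarith) (by linarith)))
        linarith
      unfold FT
      have e1 : 16 / 5 * d * (c₃ + (0 + b)) = 16 / 5 * d * (c₃ + b) := by ring
      rw [e1]
      refine max_le (by linarith) (max_le (by linarith) (by linarith))
    · -- `rA`, no excess
      have h1 : E2 d k c₁ c₂ c₃ 0 b ≤ rA d k c₁ c₂ c₃ 0 b :=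
        (min_le_left _ _).trans ((min_le_left _ _).trans
          ((min_le_right _ _).trans (min_le_left _ _)))
      refine h1.trans ?_
      have f1 : fL c₁ k ≤ c₁ := fL_le' c10 hk
      have f2 : fL c₂ k ≤ c₂ := fL_le' c20 hk
      have f3 : fL c₃ k ≤ c₃ := fL_le' c30 hk
      have q1 := fL_half (y := c₁) hk
      have q2 := fL_half (y := c₂) hk
      have hsu : fL c₁ k + fL c₂ k ≤ k / 2 + u := by
        rcases hz with h | h <;> linarith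
      have hX : eX k (fL c₁ k + fL c₂ k) 0 b ≤ 0 := by
        unfold eX
        rcases adm with h | ⟨h, h', h'', h'''⟩ | ⟨h, h'⟩
        · exact (min_le_left _ _).trans (by linarith)
        · exact (min_le_right _ _).trans (max_le le_rfl (max_le (by linarith) (by linarith)))
        · exact (min_le_right _ _).trans (max_le le_rfl (max_le (by linarith) (by linarith)))
      have hY1 : c₃ ≤ Yb n c₃ (0 + b) := le_max_left _ _
      have g1 := min_le_left c₁ k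
      have g2 := min_le_left c₂ k
      have g3 := min_le_left c₃ k
      have g4 : (3 / 4 + 2 * d) * fL c₃ k ≤ 3 / 4 * c₃ + 2 * (d * c₃) := by
        have := mul_le_mul_of_nonneg_left f3 (show (0 : ℝ) ≤ 3 / 4 + 2 * d by linarith)
        linarith
      unfold rA
      linarith

lemma mV_le2 {w : Fin 3 → ℝ} {av v₂ : ℝ} (a0 : 0 ≤ av) (h2 : w 2 = v₂) :
    mV w ≤ min v₂ (pV w av / 3) := by
  have h3 : mV w ≤ w 0 := min_le_left _ _
  have h4 : mV w ≤ w 1 := (min_le_right _ _).trans (min_le_left _ _)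
  have h5 : mV w ≤ w 2 := (min_le_right _ _).trans (min_le_right _ _)
  unfold pV
  exact le_min (by linarith) (by linarith)

section
variable {c d y₃ y₄ u x k av : ℝ} {w : Fin 3 → ℝ} {f : Equiv.Perm (Fin 3)}

lemma real_lo (hd : 0 ≤ d) (k0 : 0 ≤ k) (a0 : 0 ≤ av) (ax : av ≤ x)
    (f3 : w (f 2) = mV w) :
    ∀ c₁ c₂ c₃ b : ℝ, 0 ≤ c₁ → c₁ ≤ w (f 0) → 0 ≤ c₂ → c₂ ≤ w (f 1) → 0 ≤ c₃ → c₃ ≤ w (f 2) →
      0 ≤ b → b ≤ av → E2z d k c₁ c₂ c₃ b ≤ c₁ + c₂ + c₃ + b +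
        (ELx d k (w 2) (pV w av) x - pV w av) := by
  intro c₁ c₂ c₃ b h3 h4 h5 h6 h7 h8 h9 h10
  have h := E2z_lo hd k0 h3 h4 h5 h6 h7 h8 h9 h10
  have h11 : min (w (f 0)) (min (w (f 1)) (w (f 2))) ≤ mV w := by
    rw [← f3]
    exact (min_le_right _ _).trans (min_le_right _ _)
  have h13 := mV_le2 a0 (rfl : w 2 = w 2)
  have h12 : (3 / 4 + 2 * d) * (min (w (f 0)) (min (w (f 1)) (w (f 2))) + av) ≤
      (3 / 4 + 2 * d) * (min (w 2) (pV w av / 3) + x) :=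
    mul_le_mul_of_nonneg_left (by linarith) (by linarith)
  unfold ELx
  linarith

/-- **natural lists** -/
theorem real_N (hc : 0 < c) (hD : DmH c (d * c) y₃ y₄ u x) (hd : 0 ≤ d) (k0 : 0 ≤ k)
    (w0 : ∀ j, 0 ≤ w j) (h0 : w 0 ≤ y₃) (h1 : w 1 ≤ y₄) (h2 : w 2 ≤ u)
    (a0 : 0 ≤ av) (ax : av ≤ x) (p0 : 3 / 10 * c ≤ pV w av)
    (f1 : w (f 2) ≤ w (f 0)) (f2 : w (f 2) ≤ w (f 1)) (f3 : w (f 2) = mV w) :
    ∀ c₁ c₂ c₃ b : ℝ, 0 ≤ c₁ → c₁ ≤ w (f 0) → 0 ≤ c₂ → c₂ ≤ w (f 1) → 0 ≤ c₃ → c₃ ≤ w (f 2) →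
      0 ≤ b → b ≤ av → E2z d k c₁ c₂ c₃ b ≤ c₁ + c₂ + c₃ + b +
        (ENx d c k (pV w av) (w 2) (mV w) x - pV w av) := by
  intro c₁ c₂ c₃ b h3 h4 h5 h6 h7 h8 h9 h10
  unfold ENx
  split_ifs with hk
  · exact real_lo hd k0 a0 ax f3 c₁ c₂ c₃ b h3 h4 h5 h6 h7 h8 h9 h10
  · push Not at hk
    have hsum := sum_vs w f
    obtain ⟨u4, y43, u0, hy3, N1, near, hx0, adm, d0, d1⟩ := id hD
    have hw3 : ∀ j, w j ≤ y₃ := by
      intro j
      fin_cases j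
      · exact h0
      · exact h1.trans y43
      · exact h2.trans (u4.trans y43)
    have hi := Ec_hi hc hD hd hk.le (hw3 _) (hw3 _) f1 f2 (w0 _) ax a0 (by
      rw [hsum]; exact p0) (by linarith) c₁ c₂ c₃ b h3 h4 h5 h6 h7 h8 h9 h10
    rw [hsum, f3] at hi
    have h11 : E2z d k c₁ c₂ c₃ b ≤ E2p d k c₁ c₂ c₃ b := le_max_left _ _
    rw [RSm_eq]
    unfold pV
    linarith

/-- **replaced lists** -/
theorem real_R (hc : 0 < c) (hD : DmH c (d * c) y₃ y₄ u x) (hd : 0 ≤ d) (k0 : 0 ≤ k)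
    (w0 : ∀ j, 0 ≤ w j) (h0 : w 0 ≤ u) (h2 : w 2 ≤ u) (hN : w 0 + w 1 + w 2 ≤ y₃ + y₄ + u)
    (a0 : 0 ≤ av) (ax : av ≤ x) (p0 : 3 / 10 * c ≤ pV w av)
    (f1 : w (f 2) ≤ w (f 0)) (f2 : w (f 2) ≤ w (f 1)) (f3 : w (f 2) = mV w) :
    ∀ c₁ c₂ c₃ b : ℝ, 0 ≤ c₁ → c₁ ≤ w (f 0) → 0 ≤ c₂ → c₂ ≤ w (f 1) → 0 ≤ c₃ → c₃ ≤ w (f 2) →
      0 ≤ b → b ≤ av → E2z d k c₁ c₂ c₃ b ≤ c₁ + c₂ + c₃ + b +
        (ERx d c k (pV w av) (w 2) (mV w) x - pV w av) := by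
  intro c₁ c₂ c₃ b h3 h4 h5 h6 h7 h8 h9 h10
  unfold ERx
  split_ifs with hk
  · exact real_lo hd k0 a0 ax f3 c₁ c₂ c₃ b h3 h4 h5 h6 h7 h8 h9 h10
  · push Not at hk
    have hsum := sum_vs w f
    have hz : w (f 0) ≤ u ∨ w (f 1) ≤ u := by
      by_cases h : f 0 = 1
      · right
        have h' : f 1 ≠ 1 := fun e => by
          have := f.injective (h.trans e.symm)
          exact absurd this (by decide)
        generalize f 1 = j at h'
        fin_cases j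
        · exact h0
        · exact absurd rfl h'
        · exact h2
      · left
        generalize f 0 = j at h
        fin_cases j
        · exact h0
        · exact absurd rfl h
        · exact h2
    have hi := E2z_hiR (M := max (w (f 2) / 2) (4 / 15 * (w (f 2) + x))) hc hD hd hk.le hz f1 f2
      (w0 _) ax a0 (by rw [hsum]; exact p0) (by rw [hsum]; exact hN) (le_max_left _ _)
      (le_trans (by linarith) (le_max_right _ _)) h3 h4 h5 h6 h7 h8 h9 h10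
    rw [hsum, f3] at hi
    have h12 : max k (2 / 3 * k + 1 / 3 * (w 0 + w 1 + w 2 + av) +
        max (mV w / 2) (4 / 15 * (mV w + x))) + pV w av ≤ RS0k k (pV w av) (mV w) x := by
      unfold RS0k pV
      rw [← max_add_add_right]
      exact max_le_max le_rfl (by linarith)
    linarith

end

section
variable (d : ℝ) (q : (I8X ⊕ Unit → ℝ) × (Kd → ℝ))

/-- the base point of a configuration -/
def bq : IX5 → ℝ := bp fun i => q.1 (.inl i)

/-- the shift of the pair -/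
def Dz : ℝ := cu (prX (bq q)) 2 - bq q (.inr 1)

/-- the natural lengths -/
def vN : Fin 3 → ℝ := ![q.1 (.inl (.inr 0)), q.1 (.inl (.inr 1)), q.1 (.inl (.inr 2))]

/-- the replaced lengths -/
def vR : Fin 3 → ℝ := ![q.1 (.inl (.inr 0)) - Dz q, q.1 (.inl (.inr 1)) + Dz q,
  q.1 (.inl (.inr 2))]

/-- the length of the lists -/
def pQ : ℝ := q.1 (.inl (.inr 0)) + q.1 (.inl (.inr 1)) + q.1 (.inl (.inr 2)) + q.2 .am

/-- **exponent of the character half, differences** -/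
def CEX : ℝ :=
  if q.1 (.inr ()) ≤ 3 / 5 * cκ (prX (bq q)) then
    q.1 (.inr ()) + pQ q +
      (3 / 4 + 2 * d) * (min (q.1 (.inl (.inr 2))) (pQ q / 3) + cx' (prX (bq q)))
  else max (RSm (cκ (prX (bq q))) (q.1 (.inr ())) (pQ q) (mV (vN q)) (cx' (prX (bq q))))
    (RS0k (q.1 (.inr ())) (pQ q) (mV (vR q)) (cx' (prX (bq q)))) +
    9 / 10 * (d * cκ (prX (bq q)))

/-- **exponent of the character half, single lists** -/
def CES : ℝ :=
  if q.1 (.inr ()) ≤ 3 / 5 * cκ (prX (bq q)) then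
    q.1 (.inr ()) + pQ q +
      (3 / 4 + 2 * d) * (min (q.1 (.inl (.inr 2))) (pQ q / 3) + cx' (prX (bq q)))
  else (if NatL (bq q) (q.1 (.inl (.inr 0))) (q.1 (.inl (.inr 1))) (q.1 (.inl (.inr 2))) then
      RSm (cκ (prX (bq q))) (q.1 (.inr ())) (pQ q) (mV (vN q)) (cx' (prX (bq q)))
    else RS0k (q.1 (.inr ())) (pQ q) (mV (vN q)) (cx' (prX (bq q)))) +
    9 / 10 * (d * cκ (prX (bq q)))

lemma pV_N : pV (vN q) (q.2 .am) = pQ q := rfl

lemma pV_R : pV (vR q) (q.2 .am) = pQ q := by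
  show q.1 (.inl (.inr 0)) - Dz q + (q.1 (.inl (.inr 1)) + Dz q) + q.1 (.inl (.inr 2)) +
    q.2 .am = pQ q
  unfold pQ
  ring

lemma EN_le_CEX : ENx d (cκ (prX (bq q))) (q.1 (.inr ())) (pQ q) (q.1 (.inl (.inr 2)))
    (mV (vN q)) (cx' (prX (bq q))) ≤ CEX d q := by
  unfold ENx CEX
  split_ifs
  · exact le_rfl
  · have := le_max_left (RSm (cκ (prX (bq q))) (q.1 (.inr ())) (pQ q) (mV (vN q))
      (cx' (prX (bq q)))) (RS0k (q.1 (.inr ())) (pQ q) (mV (vR q)) (cx' (prX (bq q))))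
    linarith

lemma ER_le_CEX : ERx d (cκ (prX (bq q))) (q.1 (.inr ())) (pQ q) (q.1 (.inl (.inr 2)))
    (mV (vR q)) (cx' (prX (bq q))) ≤ CEX d q := by
  unfold ERx CEX
  split_ifs
  · exact le_rfl
  · have := le_max_right (RSm (cκ (prX (bq q))) (q.1 (.inr ())) (pQ q) (mV (vN q))
      (cx' (prX (bq q)))) (RS0k (q.1 (.inr ())) (pQ q) (mV (vR q)) (cx' (prX (bq q))))
    linarith

lemma EN_eq_CES (h : NatL (bq q) (q.1 (.inl (.inr 0))) (q.1 (.inl (.inr 1)))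
    (q.1 (.inl (.inr 2)))) : ENx d (cκ (prX (bq q))) (q.1 (.inr ())) (pQ q)
      (q.1 (.inl (.inr 2))) (mV (vN q)) (cx' (prX (bq q))) = CES d q := by
  unfold ENx CES
  rw [if_pos h]
  rfl

lemma ER_eq_CES (h : ¬ NatL (bq q) (q.1 (.inl (.inr 0))) (q.1 (.inl (.inr 1)))
    (q.1 (.inl (.inr 2)))) : ERx d (cκ (prX (bq q))) (q.1 (.inr ())) (pQ q)
      (q.1 (.inl (.inr 2))) (mV (vN q)) (cx' (prX (bq q))) = CES d q := by
  unfold ERx CES
  rw [if_neg h]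
  rfl

end

end Crest.Agent.R017.ETy71
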