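import Crest.Agent.R017.ETy3_71
import Crest.Agent.R017.ExT2_764

/-!
# Row 17, exceptional class (helper71): 548's character half

* **`csGU_X`** : `CsGUc` for the differences (`alX`, `DifL`), exponent `CEX d`
* **`csGU_S`** : `CsGUc` for the single lists (`alS`, `SinL β`), exponent `CES d`
-/

set_option autoImplicit false
set_option linter.unusedVariables false

noncomputable section

open Finset
open scoped ComplexConjugate Classical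

namespace Crest.Agent.R017.ETy71

open Crest.Agent.R012 Crest.Agent.R012.Eis Crest.Agent.R012.MC
open Crest.Agent.R017.CM106
open Crest.Agent.R017.C70
open Crest.Agent.R017.HP842 (Pc pc sqc alL Th)
open Crest.Agent.R017.B770
open Crest.Agent.R017.FE47 (PU cx SM)
open Crest.Agent.R017.XG702 (Pcs BG)
open Crest.Agent.R017.Prov71
open Crest.Agent.R017.I1146 (LN)
open Crest.Agent.R017.XT71 (Sys Win mx)
open Crest.Agent.R017.End699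
open Crest.Agent.R017.Sf770
open Crest.Agent.R017.E5B71 Crest.Agent.R017.E5P571 Crest.Agent.R017.E5L770
open Crest.Agent.R017.ExBox960 Crest.Agent.R017.ExP960 Crest.Agent.R017.P1X960
open Crest.Agent.R017.P1l54 (ParOK)
open Crest.Agent.R017.P10X764 (alX)
open Crest.Agent.R017.ETd548 (BkX S8Xk CsG)
open Crest.Agent.R017.ETk548 (DomKc CsGUc)
open Crest.Agent.R017.ER911 Crest.Agent.R017.SC777 Crest.Agent.R017.ExpC702
open Crest.Agent.R017.GHR90 (DmH DmH.of)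
open Crest.Agent.R017.P1V5176 (Dm5)
open Crest.Agent.R017.ET71 Crest.Agent.R017.ET371 Crest.Agent.R017.ETx71

variable {Λ : Type*} {π : Λ → DPar} {h : ℝ → ℝ} {d : ℝ} {s' s₀ : EF}

/-! ### the difference -/

lemma cs_xD {R : ℝ} (hR : ∀ u, cx h u ≠ 0 → |u| ≤ R) {P : DPar} (hP : P.OK)
    (t : Eis) (vs : Fin 3 → Pq) (D : ℝ) (qs : List Pq) (m k : Eis) :
    ‖CS (fun n => xD h P t vs D qs n * prin0 m n) k‖ ^ 2 ≤
      2 * ‖CS (sqc m (alL h ((List.ofFn vs ++ qs).map (Pt P t)))) k‖ ^ 2 +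
      2 * ‖CS (sqc m (alL h ((List.ofFn (rzD vs D) ++ qs).map (Pt P t)))) k‖ ^ 2 := by
  have hfs : ∀ l : List Pq, FS (sqc m (alL h (l.map (Pt P t)))) := fun l =>
    HP842.FS.sqc (ExT764.FS_alL hR fun p hp => by
      obtain ⟨p', -, rfl⟩ := List.mem_map.1 hp
      exact P1l54.Pt_OK hP t p') m
  have e1 : (fun n => xD h P t vs D qs n * prin0 m n) =
      cmb (oc vs (vs 0).z (vs 1).z) (-oc vs ((vs 0).z - D) ((vs 1).z + D))
        (sqc m (alL h ((List.ofFn vs ++ qs).map (Pt P t))))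
        (sqc m (alL h ((List.ofFn (rzD vs D) ++ qs).map (Pt P t)))) := by
    rw [← sqc_prin0 m (alL h ((List.ofFn vs ++ qs).map (Pt P t))),
      ← sqc_prin0 m (alL h ((List.ofFn (rzD vs D) ++ qs).map (Pt P t)))]
    funext n
    unfold xD cmb
    simp only [Pi.add_apply, Pi.smul_apply, smul_eq_mul]
    ring
  rw [e1, CS_cmb (hfs _) (hfs _)]
  have h1 := norm_oc vs (vs 0).z (vs 1).z
  have h2 := norm_oc vs ((vs 0).z - D) ((vs 1).z + D)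
  set A := CS (sqc m (alL h ((List.ofFn vs ++ qs).map (Pt P t)))) k
  set B := CS (sqc m (alL h ((List.ofFn (rzD vs D) ++ qs).map (Pt P t)))) k
  have h3 : ‖oc vs (vs 0).z (vs 1).z * A + -oc vs ((vs 0).z - D) ((vs 1).z + D) * B‖ ≤
      ‖A‖ + ‖B‖ := by
    refine (norm_add_le _ _).trans ?_
    rw [norm_mul, norm_mul, norm_neg, h1, h2, one_mul, one_mul]
  calc _ ≤ (‖A‖ + ‖B‖) ^ 2 := pow_le_pow_left₀ (norm_nonneg _) h3 2
    _ ≤ _ := by nlinarith [sq_nonneg (‖A‖ - ‖B‖)]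

/-! ### one list, heights `X^δ'` -/

theorem cs_one {c₀ : ℝ} (hpu : PU h c₀) (hP : ∀ lam, (π lam).OK)
    (Rc : ExpRules (7 / 8 + d) (ex Dq (fun lam => XEx298.Rt (π lam) h)) s')
    (Rm : ExpRGFz (7 / 8 + d) (ex Dq (fun lam => XEx298.Rt (π lam) h)) s' s₀)
    (hd : 0 ≤ d) (hd8 : d ≤ 1 / 8) {ε : ℝ} (hε : 0 < ε) :
    ∃ σ : ℝ, 0 < σ ∧ ∀ (lam : Λ) (s : Eis), s ≠ 0 → ∀ (N : ℕ) (B : ℝ),
      ∃ δ' : ℝ, 0 < δ' ∧ ∃ X₀ : ℝ, 1 < X₀ ∧ ∀ X : ℝ, X₀ ≤ X → 4 ≤ X ^ ε ∧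
        ∀ (vs : Fin 3 → Pq) (qs : List Pq)
        (w : Fin 3 → ℝ) (av k : ℝ) (m : Eis) (i : ℕ) (Ec : ℝ) (f : Equiv.Perm (Fin 3)),
      (∀ j, Dq.lump (vs j) ∧ 0 ≤ (vs j).z ∧ (nm (vs j).d : ℝ) ≤ X ^ B ∧
        1 + |(vs j).t| ≤ X ^ δ') →
      (∀ j, |(vs j).z / Real.log X - w j| ≤ σ) → (∀ j, 0 ≤ w j ∧ w j ≤ 1) → qs.length ≤ N →
      (∀ p ∈ qs, p.kd = .am ∧ 0 ≤ p.z ∧ p.z ≤ σ * Real.log X ∧ (nm p.d : ℝ) ≤ X ^ B ∧
        1 + |p.t| ≤ X ^ δ') →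
      |LN qs / Real.log X - av| ≤ σ → 0 ≤ av → av ≤ 1 → m ≠ 0 → (nm m : ℝ) ≤ X ^ B →
      |((i : ℝ) + 1) * Real.log 2 / Real.log X - k| ≤ σ → 0 ≤ k → k ≤ 1 →
      (∀ c₁ c₂ c₃ b : ℝ, 0 ≤ c₁ → c₁ ≤ w (f 0) → 0 ≤ c₂ → c₂ ≤ w (f 1) → 0 ≤ c₃ →
        c₃ ≤ w (f 2) → 0 ≤ b → b ≤ av → E2z d k c₁ c₂ c₃ b ≤ c₁ + c₂ + c₃ + b + Ec) →
      ∑ κ ∈ (primBall (2 ^ (i + 1))).filter (fun κ => CbF κ ∧ (π lam).NP2 (s * κ)),
          ‖CS (sqc m (alL h ((List.ofFn vs ++ qs).map (Pt (π lam) s)))) κ‖ ^ 2 ≤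
        X ^ (w 0 + w 1 + w 2 + av + Ec + 2 * ε) := by
  obtain ⟨σ, hσ, G⟩ := cs_listy hpu hP Rc Rm hd hd8 hε
  refine ⟨σ, hσ, fun lam s hs N B => ?_⟩
  obtain ⟨M, X₁, hX₁, G⟩ := G lam s hs N B
  obtain ⟨X₂, hX₂, HX₂⟩ := XSup271.exists_X (show (1 : ℝ) ≤ 4 by norm_num) hε
  refine ⟨ε / (M + 1), by positivity, max X₁ X₂, lt_of_lt_of_le hX₁ (le_max_left _ _), ?_⟩
  intro X hX
  have hXX₁ : X₁ ≤ X := (le_max_left _ _).trans hX
  have hXX₂ : X₂ ≤ X := (le_max_right _ _).trans hX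
  refine ⟨HX₂ X hXX₂, ?_⟩
  intro vs qs w av k m i Ec f h1 h2 h3 h4 h5 h6 h7 h8 h9 h10 h11 h12 h13 h14
  have hX1 : 1 < X := by linarith
  have hX0 : 0 < X := by linarith
  have hM1 : (0 : ℝ) < (M : ℝ) + 1 := by positivity
  have hH : (1 : ℝ) ≤ X ^ (ε / (M + 1)) := Real.one_le_rpow hX1.le (by positivity)
  refine (G X hXX₁ vs qs w av k m i (X ^ (ε / (M + 1))) Ec f h1 h2 h3 h4 h5 h6 h7 h8 h9 h10 h11
    h12 h13 hH h14).trans ?_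
  rw [← Real.rpow_natCast, ← Real.rpow_mul hX0.le, ← Real.rpow_add hX0]
  refine Real.rpow_le_rpow_of_exponent_le hX1.le ?_
  have : ε / (M + 1) * M ≤ ε := by
    rw [div_mul_eq_mul_div, div_le_iff₀ hM1]
    nlinarith
  linarith

/-! ### the frame -/

/-- sizes of the window -/
lemma fr_win {X δ δ' B : ℝ} {N : ℕ} {a : BkX} {q : (I8X ⊕ Unit → ℝ) × (Kd → ℝ)}
    (hw : Win S8Xk q.1 δ N B δ' X a) :
    (∀ j, 1 + |(a.1.2.1 j).t| ≤ X ^ δ') ∧ (∀ j, (nm (a.1.2.1 j).d : ℝ) ≤ X ^ B) ∧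
    (nm a.2.2.2 : ℝ) ≤ X ^ B ∧ (∀ j, |(a.1.2.1 j).z / Real.log X - vN q j| ≤ δ) ∧
    |dz a.1.1 / Real.log X - Dz q| ≤ 2 * δ ∧
    |((a.2.2.1 : ℝ) + 1) * Real.log 2 / Real.log X - q.1 (.inr ())| ≤ δ := by
  have hs1 : max (S5X.s₁ a.1.1) (mx Dq.s1 (List.ofFn a.1.2.1)) ≤ X ^ δ' := hw.s₁
  have hs2 : max (max (S5X.s₂ a.1.1) (mx Dq.s2 (List.ofFn a.1.2.1))) (nm a.2.2.2 : ℝ) ≤
    X ^ B := hw.s₂
  have hev : ∀ i, |S8Xk.ev X a i - q.1 i| ≤ δ := hw.ev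
  refine ⟨fun j => ?_, fun j => ?_, (le_max_right _ _).trans hs2, fun j => ?_, ?_,
    hev (.inr ())⟩
  · exact (XT71.le_mx (f := Dq.s1) ((List.mem_ofFn' _ _).2 ⟨j, rfl⟩)).trans
      ((le_max_right _ _).trans hs1)
  · exact (XT71.le_mx (f := Dq.s2) ((List.mem_ofFn' _ _).2 ⟨j, rfl⟩)).trans
      ((le_max_right _ _).trans ((le_max_left _ _).trans hs2))
  · fin_cases j
    · exact hev (.inl (.inr 0))
    · exact hev (.inl (.inr 1))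
    · exact hev (.inl (.inr 2))
  · have hu2 : |(a.1.1.us 2).z / Real.log X - cu (prX (bq q)) 2| ≤ δ :=
      hev (.inl (.inl (.inl (.inr 2))))
    have hzs : |a.1.1.zs 2 / Real.log X - bq q (.inr 1)| ≤ δ := hev (.inl (.inl (.inr 1)))
    obtain ⟨a1, a2⟩ := abs_le.1 hu2
    obtain ⟨b1, b2⟩ := abs_le.1 hzs
    have e : dz a.1.1 / Real.log X = (a.1.1.us 2).z / Real.log X - a.1.1.zs 2 / Real.log X := by
      unfold dz
      rw [sub_div]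
    rw [e, abs_le]
    unfold Dz
    constructor <;> linarith

/-- facts of a configuration -/
lemma fr_dom {c β k₁ : ℝ} {Par : Set (Fin 3 ⊕ Fin 5 → ℝ)} {L : (IX5 → ℝ) → ℝ → ℝ → ℝ → Prop}
    (hk₁ : k₁ ≤ 1) (hPar : ∀ p ∈ Par, ParOK p)
    (hDm : ∀ p ∈ Par, Dm5 (cu p 2 / cκ p) (cu p 3 / cκ p) (cu p 4 / cκ p) (cx' p / cκ p) d)
    {q : (I8X ⊕ Unit → ℝ) × (Kd → ℝ)} (hq : q ∈ DomKc k₁ c β Par L) :
    ChC c β Par (bq q) (q.1 (.inl (.inr 0))) (q.1 (.inl (.inr 1))) (q.1 (.inl (.inr 2)))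
      (q.1 (.inl (.inr 3))) (q.2 .am) ∧
    L (bq q) (q.1 (.inl (.inr 0))) (q.1 (.inl (.inr 1))) (q.1 (.inl (.inr 2))) ∧
    8 / 9 ≤ cκ (prX (bq q)) ∧ cκ (prX (bq q)) ≤ 1 ∧
    DmH (cκ (prX (bq q))) (d * cκ (prX (bq q))) (cu (prX (bq q)) 2) (cu (prX (bq q)) 3)
      (cu (prX (bq q)) 4) (cx' (prX (bq q))) ∧
    0 ≤ q.1 (.inr ()) ∧ q.1 (.inr ()) ≤ 1 ∧ 3 / 10 * cκ (prX (bq q)) ≤ pQ q ∧
    cx' (prX (bq q)) ≤ 1 / 36 * cκ (prX (bq q)) := by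
  obtain ⟨⟨hC, hLd, hmo, hlen2⟩, k0, k1⟩ := hq
  have hC : ChC c β Par (bq q) (q.1 (.inl (.inr 0))) (q.1 (.inl (.inr 1))) (q.1 (.inl (.inr 2)))
      (q.1 (.inl (.inr 3))) (q.2 .am) := hC
  have hLd : L (bq q) (q.1 (.inl (.inr 0))) (q.1 (.inl (.inr 1))) (q.1 (.inl (.inr 2))) := hLd
  have hlen2 : cκ (prX (bq q)) / 2 ≤ q.1 (.inl (.inr 0)) + q.1 (.inl (.inr 1)) +
    q.1 (.inl (.inr 2)) + q.2 .am + 2 * cx' (prX (bq q)) := hlen2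
  have k1 : q.1 (.inr ()) ≤ k₁ * cκ (prX (bq q)) := k1
  have hp := hPar _ hC.par
  have h1 := hp.κ0
  have h2 := hp.κ1
  have hDH := DmH.of (d := d) (show 0 < cκ (prX (bq q)) by linarith) (hDm _ hC.par)
  have hx36 : cx' (prX (bq q)) ≤ 1 / 36 * cκ (prX (bq q)) := by
    have h3 := hDH.d0
    have h4 := hDH.d1
    have h5 := hDH.x0
    rcases hDH.adm with h | ⟨h, -⟩ | ⟨h, -⟩ <;> linarith
  have h3 : k₁ * cκ (prX (bq q)) ≤ 1 * cκ (prX (bq q)) :=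
    mul_le_mul_of_nonneg_right hk₁ (by linarith)
  refine ⟨hC, hLd, h1, h2, hDH, k0, by linarith, ?_, hx36⟩
  unfold pQ
  linarith

section
variable {c₀ : ℝ} (hpu : PU h c₀) (hP : ∀ lam, (π lam).OK)
  (Rc : ExpRules (7 / 8 + d) (ex Dq (fun lam => XEx298.Rt (π lam) h)) s')
  (Rm : ExpRGFz (7 / 8 + d) (ex Dq (fun lam => XEx298.Rt (π lam) h)) s' s₀)
  (hd : 0 ≤ d) (hd8 : d ≤ 1 / 8) {k₁ c β : ℝ} (hk₁ : k₁ ≤ 1) (hβ0 : 0 ≤ β)
  (hβ1 : β ≤ 17 / 100) {Par : Set (Fin 3 ⊕ Fin 5 → ℝ)} (hPar : ∀ p ∈ Par, ParOK p)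
  (hDm : ∀ p ∈ Par, Dm5 (cu p 2 / cκ p) (cu p 3 / cκ p) (cu p 4 / cκ p) (cx' p / cκ p) d)

include hpu hP Rc Rm hd hd8 hk₁ hβ0 hβ1 hPar hDm

set_option maxHeartbeats 1000000 in
/-- **character half, differences** -/
theorem csGU_X {R : ℝ} (hR : ∀ u, cx h u ≠ 0 → |u| ≤ R) :
    CsGUc k₁ π (alX π h) (fun lam a qs => okCX (π lam.1) lam.2 a qs ∧ okD a) c β Par DifL
      (CEX d) := by
  intro ε hε
  obtain ⟨σ, hσ, G⟩ := cs_one hpu hP Rc Rm hd hd8 (ε := ε / 3) (by positivity)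
  refine ⟨σ / 3, by positivity, ?_⟩
  rintro ⟨lam, s⟩ N B
  by_cases hs : s ∈ SM (π lam).n
  swap
  · refine ⟨1, one_pos, 2, by norm_num, ?_⟩
    intro X hX a qs _ _ q _ _ _ _ _
    unfold CsG
    rw [if_neg (fun hok => hs hok.1.1.2.1)]
    positivity
  obtain ⟨δ', hδ', X₀, hX₀, G⟩ := G lam s hs.1 N B
  refine ⟨δ', hδ', X₀, hX₀, ?_⟩
  intro X hX a qs hlen hgl q hq hw hm hg hl
  have hX1 : 1 < X := by linarith
  have hX0 : 0 < X := by linarith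
  by_cases hok : (okCX (π lam) s a.1 qs ∧ okD a.1) ∧ IsPrim a.2.2.2
  swap
  · unfold CsG
    rw [if_neg hok]
    positivity
  obtain ⟨⟨⟨hbok, hsm, hlmp, ham, hb0⟩, hzD⟩, hmp⟩ := id hok
  obtain ⟨h4, GG⟩ := G X hX
  have hL0 : 0 < Real.log X := Real.log_pos hX1
  obtain ⟨ht, hdd, hmX, hv, hDD, hkk⟩ := fr_win hw
  obtain ⟨hC, hLd, hκ0, hκ1, hDH, k0, k1, p0, hx36⟩ := fr_dom hk₁ hPar hDm hq
  obtain ⟨hN, hd1, hd2⟩ := hLd
  obtain ⟨n0, n1, n2⟩ := hN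
  have hgran : ∀ p ∈ qs, p.kd = .am ∧ 0 ≤ p.z ∧ p.z ≤ σ * Real.log X ∧
      (nm p.d : ℝ) ≤ X ^ B ∧ 1 + |p.t| ≤ X ^ δ' := by
    intro p hp
    obtain ⟨g1, g2, g3⟩ := hg p hp
    refine ⟨ham p hp, g3, ?_, g2, g1⟩
    rcases hgl p hp with h' | h'
    · exact absurd h' (kind_am_not_lump (ham p hp))
    · have h' : p.z / Real.log X ≤ σ / 3 := h'
      rw [div_le_iff₀ hL0] at h'
      have : 0 < σ * Real.log X := by positivity
      linarith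
  have hav : |LN qs / Real.log X - q.2 .am| ≤ σ := by
    have h1 := hm .am
    rw [(mass_am (X := X) ham).2] at h1
    have h2 : |LN qs / Real.log X - q.2 .am| ≤ σ / 3 := h1
    linarith
  have hDr := abs_le.1 hDD
  have hz0 := hC.zr 1
  have hzs0 : 0 ≤ bq q (.inr 1) := le_trans (by positivity) hz0.1
  obtain ⟨u4, y43, u0, hy3, N1, near, hx0, adm, dd0, dd1⟩ := id hDH
  have hDz : Dz q = cu (prX (bq q)) 2 - bq q (.inr 1) := rfl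
  have hvN01 : ∀ j, 0 ≤ vN q j ∧ vN q j ≤ 1 := by
    intro j
    fin_cases j
    · exact ⟨hC.v0, by show q.1 (.inl (.inr 0)) ≤ 1; linarith⟩
    · exact ⟨hC.v1, by show q.1 (.inl (.inr 1)) ≤ 1; linarith⟩
    · exact ⟨hC.v2, by show q.1 (.inl (.inr 2)) ≤ 1; linarith⟩
  have hvR01 : ∀ j, 0 ≤ vR q j ∧ vR q j ≤ 1 := by
    intro j
    fin_cases j
    · exact ⟨hd1, by show q.1 (.inl (.inr 0)) - Dz q ≤ 1; rw [hDz]; linarith [hz0.2]⟩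
    · exact ⟨hd2, by show q.1 (.inl (.inr 1)) + Dz q ≤ 1; rw [hDz]; linarith [hz0.2]⟩
    · exact ⟨hC.v2, by show q.1 (.inl (.inr 2)) ≤ 1; linarith⟩
  have hr : ∀ j, |(rzD a.1.2.1 (dz a.1.1) j).z / Real.log X - vR q j| ≤ σ := by
    intro j
    fin_cases j
    · show |((a.1.2.1 0).z - dz a.1.1) / Real.log X - (q.1 (.inl (.inr 0)) - Dz q)| ≤ σ
      have h1 : |(a.1.2.1 0).z / Real.log X - q.1 (.inl (.inr 0))| ≤ σ / 3 := hv 0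
      have h2 := abs_le.1 h1
      rw [sub_div, abs_le]
      constructor <;> linarith [h2.1, h2.2, hDr.1, hDr.2]
    · show |((a.1.2.1 1).z + dz a.1.1) / Real.log X - (q.1 (.inl (.inr 1)) + Dz q)| ≤ σ
      have h1 : |(a.1.2.1 1).z / Real.log X - q.1 (.inl (.inr 1))| ≤ σ / 3 := hv 1
      have h2 := abs_le.1 h1
      rw [add_div, abs_le]
      constructor <;> linarith [h2.1, h2.2, hDr.1, hDr.2]
    · have h1 : |(a.1.2.1 2).z / Real.log X - q.1 (.inl (.inr 2))| ≤ σ / 3 := hv 2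
      show |(a.1.2.1 2).z / Real.log X - q.1 (.inl (.inr 2))| ≤ σ
      linarith
  obtain ⟨f, f1, f2, f3⟩ := exists_perm (vN q)
  obtain ⟨f', f1', f2', f3'⟩ := exists_perm (vR q)
  have A := GG a.1.2.1 qs (vN q) (q.2 .am) (q.1 (.inr ())) a.2.2.2 a.2.2.1
    (ENx d (cκ (prX (bq q))) (q.1 (.inr ())) (pV (vN q) (q.2 .am)) (vN q 2) (mV (vN q))
      (cx' (prX (bq q))) - pV (vN q) (q.2 .am)) f
    (fun j => ⟨(hlmp j).1, (hlmp j).2, hdd j, ht j⟩) (fun j => (hv j).trans (by linarith))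
    hvN01 hlen hgran hav hC.x0 (by linarith [hC.x1]) hmp.ne_zero hmX
    (hkk.trans (by linarith)) k0 k1
    (real_N (by linarith) hDH hd k0 (fun j => (hvN01 j).1) n0 n1 n2 hC.x0 hC.x1 p0 f1 f2 f3)
  have Bb := GG (rzD a.1.2.1 (dz a.1.1)) qs (vR q) (q.2 .am) (q.1 (.inr ())) a.2.2.2 a.2.2.1
    (ERx d (cκ (prX (bq q))) (q.1 (.inr ())) (pV (vR q) (q.2 .am)) (vR q 2) (mV (vR q))
      (cx' (prX (bq q))) - pV (vR q) (q.2 .am)) f'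
    (by
      intro j
      fin_cases j
      · exact ⟨(hlmp 0).1, hzD.1, hdd 0, ht 0⟩
      · exact ⟨(hlmp 1).1, hzD.2, hdd 1, ht 1⟩
      · exact ⟨(hlmp 2).1, (hlmp 2).2, hdd 2, ht 2⟩) hr
    hvR01 hlen hgran hav hC.x0 (by linarith [hC.x1]) hmp.ne_zero hmX
    (hkk.trans (by linarith)) k0 k1
    (real_R (by linarith) hDH hd k0 (fun j => (hvR01 j).1) (by
        show q.1 (.inl (.inr 0)) - Dz q ≤ cu (prX (bq q)) 4
        rw [hDz]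
        linarith [hz0.2]) n2 (by
        show q.1 (.inl (.inr 0)) - Dz q + (q.1 (.inl (.inr 1)) + Dz q) + q.1 (.inl (.inr 2)) ≤ _
        linarith) hC.x0 hC.x1 (by rw [pV_R]; exact p0) f1' f2' f3')
  have hA : ∑ κ ∈ (primBall (2 ^ (a.2.2.1 + 1))).filter (fun κ => CbF κ ∧ (π lam).NP2 (s * κ)),
      ‖CS (sqc a.2.2.2 (alL h ((List.ofFn a.1.2.1 ++ qs).map (Pt (π lam) s)))) κ‖ ^ 2 ≤
      X ^ (CEX d q + 2 * (ε / 3)) := by
    refine A.trans (Real.rpow_le_rpow_of_exponent_le hX1.le ?_)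
    have h1 : ENx d (cκ (prX (bq q))) (q.1 (.inr ())) (pV (vN q) (q.2 .am)) (vN q 2)
      (mV (vN q)) (cx' (prX (bq q))) ≤ CEX d q := EN_le_CEX d q
    have h2 : pV (vN q) (q.2 .am) = vN q 0 + vN q 1 + vN q 2 + q.2 .am := rfl
    linarith
  have hB : ∑ κ ∈ (primBall (2 ^ (a.2.2.1 + 1))).filter (fun κ => CbF κ ∧ (π lam).NP2 (s * κ)),
      ‖CS (sqc a.2.2.2 (alL h ((List.ofFn (rzD a.1.2.1 (dz a.1.1)) ++ qs).map
        (Pt (π lam) s)))) κ‖ ^ 2 ≤ X ^ (CEX d q + 2 * (ε / 3)) := by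
    refine Bb.trans (Real.rpow_le_rpow_of_exponent_le hX1.le ?_)
    have h1 : ERx d (cκ (prX (bq q))) (q.1 (.inr ())) (pV (vR q) (q.2 .am)) (vR q 2)
      (mV (vR q)) (cx' (prX (bq q))) ≤ CEX d q := by
      rw [pV_R]
      exact ER_le_CEX d q
    have h2 : pV (vR q) (q.2 .am) = vR q 0 + vR q 1 + vR q 2 + q.2 .am := rfl
    linarith
  have e : CsG π (alX π h) (fun lam a qs => okCX (π lam.1) lam.2 a qs ∧ okD a) (lam, s) a qs =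
      ∑ k ∈ (primBall (2 ^ (a.2.2.1 + 1))).filter
        (fun k => (CbF k ∧ 2 ^ a.2.2.1 ≤ nm k) ∧ (π lam).NP2 (s * k)),
        ‖CS (fun n => xD h (π lam) s a.1.2.1 (dz a.1.1) qs n * prin0 a.2.2.2 n) k‖ ^ 2 :=
    if_pos hok
  rw [e]
  have hsub : (primBall (2 ^ (a.2.2.1 + 1))).filter
      (fun k => (CbF k ∧ 2 ^ a.2.2.1 ≤ nm k) ∧ (π lam).NP2 (s * k)) ⊆
      (primBall (2 ^ (a.2.2.1 + 1))).filter (fun k => CbF k ∧ (π lam).NP2 (s * k)) := by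
    intro k hk
    rw [mem_filter] at hk ⊢
    exact ⟨hk.1, hk.2.1.1, hk.2.2⟩
  refine (sum_le_sum_of_subset_of_nonneg hsub fun _ _ _ => by positivity).trans ?_
  refine (sum_le_sum fun k _ => cs_xD hR (hP lam) s a.1.2.1 (dz a.1.1) qs a.2.2.2 k).trans ?_
  rw [sum_add_distrib, ← mul_sum, ← mul_sum]
  have hp0 : 0 < X ^ (CEX d q + 2 * (ε / 3)) := Real.rpow_pos_of_pos hX0 _
  calc _ ≤ 4 * X ^ (CEX d q + 2 * (ε / 3)) := by linarith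
    _ ≤ X ^ (ε / 3) * X ^ (CEX d q + 2 * (ε / 3)) := mul_le_mul_of_nonneg_right h4 hp0.le
    _ = X ^ (CEX d q + ε) := by
      rw [← Real.rpow_add hX0]
      congr 1
      ring

set_option maxHeartbeats 1000000 in
/-- **character half, single lists** -/
theorem csGU_S :
    CsGUc k₁ π (fun (lam : Λ × Eis) (a : BcX) (qs : List Pq) =>
      sqc 1 (alL h ((List.ofFn a.2.1 ++ qs).map (Pt (π lam.1) lam.2))))
      (fun lam a qs => okCX (π lam.1) lam.2 a qs) c β Par (SinL β) (CES d) := by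
  intro ε hε
  obtain ⟨σ, hσ, G⟩ := cs_one hpu hP Rc Rm hd hd8 (ε := ε / 3) (by positivity)
  refine ⟨σ / 3, by positivity, ?_⟩
  rintro ⟨lam, s⟩ N B
  by_cases hs : s ∈ SM (π lam).n
  swap
  · refine ⟨1, one_pos, 2, by norm_num, ?_⟩
    intro X hX a qs _ _ q _ _ _ _ _
    unfold CsG
    rw [if_neg (fun hok => hs hok.1.2.1)]
    positivity
  obtain ⟨δ', hδ', X₀, hX₀, G⟩ := G lam s hs.1 N B
  refine ⟨δ', hδ', X₀, hX₀, ?_⟩
  intro X hX a qs hlen hgl q hq hw hm hg hl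
  have hX1 : 1 < X := by linarith
  have hX0 : 0 < X := by linarith
  by_cases hok : okCX (π lam) s a.1 qs ∧ IsPrim a.2.2.2
  swap
  · unfold CsG
    rw [if_neg hok]
    positivity
  obtain ⟨⟨hbok, hsm, hlmp, ham, hb0⟩, hmp⟩ := id hok
  obtain ⟨h4, GG⟩ := G X hX
  have hL0 : 0 < Real.log X := Real.log_pos hX1
  obtain ⟨ht, hdd, hmX, hv, hDD, hkk⟩ := fr_win hw
  obtain ⟨hC, hLd, hκ0, hκ1, hDH, k0, k1, p0, hx36⟩ := fr_dom hk₁ hPar hDm hq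
  have hgran : ∀ p ∈ qs, p.kd = .am ∧ 0 ≤ p.z ∧ p.z ≤ σ * Real.log X ∧
      (nm p.d : ℝ) ≤ X ^ B ∧ 1 + |p.t| ≤ X ^ δ' := by
    intro p hp
    obtain ⟨g1, g2, g3⟩ := hg p hp
    refine ⟨ham p hp, g3, ?_, g2, g1⟩
    rcases hgl p hp with h' | h'
    · exact absurd h' (kind_am_not_lump (ham p hp))
    · have h' : p.z / Real.log X ≤ σ / 3 := h'
      rw [div_le_iff₀ hL0] at h'
      have : 0 < σ * Real.log X := by positivity
      linarith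
  have hav : |LN qs / Real.log X - q.2 .am| ≤ σ := by
    have h1 := hm .am
    rw [(mass_am (X := X) ham).2] at h1
    have h2 : |LN qs / Real.log X - q.2 .am| ≤ σ / 3 := h1
    linarith
  have hz0 := hC.zr 1
  have hzs0 : 0 ≤ bq q (.inr 1) := le_trans (by positivity) hz0.1
  obtain ⟨u4, y43, u0, hy3, N1, near, hx0, adm, dd0, dd1⟩ := id hDH
  have c0 := hC.v0
  have c1 := hC.v1
  have c2 := hC.v2
  have hall : q.1 (.inl (.inr 0)) ≤ 1 ∧ q.1 (.inl (.inr 1)) ≤ 1 ∧ q.1 (.inl (.inr 2)) ≤ 1 := by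
    rcases hLd.1 with ⟨n0, n1, n2⟩ | ⟨n0, n1, n2⟩
    · exact ⟨by linarith, by linarith, by linarith⟩
    · exact ⟨by linarith [hz0.2], by linarith, by linarith⟩
  have hvN01 : ∀ j, 0 ≤ vN q j ∧ vN q j ≤ 1 := by
    intro j
    fin_cases j
    · exact ⟨hC.v0, hall.1⟩
    · exact ⟨hC.v1, hall.2.1⟩
    · exact ⟨hC.v2, hall.2.2⟩
  obtain ⟨f, f1, f2, f3⟩ := exists_perm (vN q)
  have key : ∀ c₁ c₂ c₃ b : ℝ, 0 ≤ c₁ → c₁ ≤ vN q (f 0) → 0 ≤ c₂ → c₂ ≤ vN q (f 1) → 0 ≤ c₃ →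
      c₃ ≤ vN q (f 2) → 0 ≤ b → b ≤ q.2 .am → E2z d (q.1 (.inr ())) c₁ c₂ c₃ b ≤
        c₁ + c₂ + c₃ + b + (CES d q - pV (vN q) (q.2 .am)) := by
    by_cases hN : NatL (bq q) (q.1 (.inl (.inr 0))) (q.1 (.inl (.inr 1))) (q.1 (.inl (.inr 2)))
    · rw [← EN_eq_CES d q hN]
      exact real_N (by linarith) hDH hd k0 (fun j => (hvN01 j).1) hN.1 hN.2.1 hN.2.2 hC.x0 hC.x1
        p0 f1 f2 f3
    · rcases hLd.1 with h1 | ⟨n0, n1, n2⟩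
      · exact absurd h1 hN
      · rw [← ER_eq_CES d q hN]
        exact real_R (by linarith) hDH hd k0 (fun j => (hvN01 j).1) (by
          show q.1 (.inl (.inr 0)) ≤ cu (prX (bq q)) 4
          linarith [hz0.2]) n2 (by
          show q.1 (.inl (.inr 0)) + q.1 (.inl (.inr 1)) + q.1 (.inl (.inr 2)) ≤ _
          linarith) hC.x0 hC.x1 p0 f1 f2 f3
  have A := GG a.1.2.1 qs (vN q) (q.2 .am) (q.1 (.inr ())) a.2.2.2 a.2.2.1
    (CES d q - pV (vN q) (q.2 .am)) f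
    (fun j => ⟨(hlmp j).1, (hlmp j).2, hdd j, ht j⟩) (fun j => (hv j).trans (by linarith))
    hvN01 hlen hgran hav hC.x0 (by linarith [hC.x1]) hmp.ne_zero hmX
    (hkk.trans (by linarith)) k0 k1 key
  have e : CsG π (fun (lam : Λ × Eis) (a : BcX) (qs : List Pq) =>
      sqc 1 (alL h ((List.ofFn a.2.1 ++ qs).map (Pt (π lam.1) lam.2))))
      (fun lam a qs => okCX (π lam.1) lam.2 a qs) (lam, s) a qs =
      ∑ k ∈ (primBall (2 ^ (a.2.2.1 + 1))).filter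
        (fun k => (CbF k ∧ 2 ^ a.2.2.1 ≤ nm k) ∧ (π lam).NP2 (s * k)),
        ‖CS (fun n => sqc 1 (alL h ((List.ofFn a.1.2.1 ++ qs).map (Pt (π lam) s))) n *
          prin0 a.2.2.2 n) k‖ ^ 2 :=
    if_pos hok
  rw [e, sqc_prin0]
  have hsub : (primBall (2 ^ (a.2.2.1 + 1))).filter
      (fun k => (CbF k ∧ 2 ^ a.2.2.1 ≤ nm k) ∧ (π lam).NP2 (s * k)) ⊆
      (primBall (2 ^ (a.2.2.1 + 1))).filter (fun k => CbF k ∧ (π lam).NP2 (s * k)) := by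
    intro k hk
    rw [mem_filter] at hk ⊢
    exact ⟨hk.1, hk.2.1.1, hk.2.2⟩
  refine (sum_le_sum_of_subset_of_nonneg hsub fun _ _ _ => by positivity).trans ?_
  refine A.trans (Real.rpow_le_rpow_of_exponent_le hX1.le ?_)
  have h2 : pV (vN q) (q.2 .am) = vN q 0 + vN q 1 + vN q 2 + q.2 .am := rfl
  linarith

end

end Crest.Agent.R017.ETy71
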