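import Crest.Agent.R017.ETy4_71
import Crest.Agent.R017.XEx_298
import Crest.Agent.R017.P1t_54
import Crest.Agent.R017.P1DomS_918

/-!
# Row 17, exceptional class (helper71): the character half at the exact square

* **`csX_S`**, **`csS_S`** : `CsGUc (7/8)` for the differences, for the single lists, parents
  `ParS A d`, `β = 17/100`, `c = d/4`; use with `π := fun lam => red (π lam)`
-/

set_option autoImplicit false
set_option linter.unusedVariables false

noncomputable section

open Finset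
open scoped ComplexConjugate Classical

namespace Crest.Agent.R017.ETy71

open Crest.Agent.R012 Crest.Agent.R012.Eis Crest.Agent.R012.MC
open Crest.Agent.R017.HP842 (Pc pc sqc alL Th)
open Crest.Agent.R017.B770
open Crest.Agent.R017.FE47 (PU cx SM)
open Crest.Agent.R017.XG702 (Pcs BG)
open Crest.Agent.R017.Prov71
open Crest.Agent.R017.E5B71 Crest.Agent.R017.E5P571 Crest.Agent.R017.E5L770
open Crest.Agent.R017.ExBox960 Crest.Agent.R017.ExP960 Crest.Agent.R017.P1X960
open Crest.Agent.R017.P1l54 (ParOK)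
open Crest.Agent.R017.P1t54 (ParS parOK_Sq5)
open Crest.Agent.R017.P10X764 (alX)
open Crest.Agent.R017.ETk548 (CsGUc)
open Crest.Agent.R017.ER911 Crest.Agent.R017.SC777
open Crest.Agent.R017.XEx298 (Rt)

variable {Λ : Type*} {π : Λ → DPar} {h : ℝ → ℝ} {d : ℝ} {s' s₀ : EF}

section
variable {c₀ : ℝ} (hpu : PU h c₀) (hP : ∀ lam, (π lam).OK)
  (Rc : ExpRules (7 / 8 + d) (ex Dq (fun lam => Rt (π lam) h)) s')
  (Rm : ExpRGFz (7 / 8 + d) (ex Dq (fun lam => Rt (π lam) h)) s' s₀)
  (hd : 0 ≤ d) (hd1 : d ≤ 1 / 42) {A : ℝ} (hA : 9 / 10 ≤ A) (hA0 : A ≤ 1)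
  (hA1 : 16 * (1 - A) ≤ d)

include hpu hP Rc Rm hd hd1 hA hA0 hA1

/-- **character half, differences, exact square** -/
theorem csX_S {R : ℝ} (hR : ∀ u, cx h u ≠ 0 → |u| ≤ R) :
    CsGUc (7 / 8) π (alX π h) (fun lam a qs => okCX (π lam.1) lam.2 a qs ∧ okD a) (d / 4)
      (17 / 100) (ParS A d) DifL (CEX d) :=
  csGU_X hpu hP Rc Rm hd (by linarith) (by norm_num) (by norm_num) (by norm_num)
    (fun p hp => parOK_Sq5 hA hp)
    (fun p hp => by
      obtain ⟨w, hw⟩ := hp
      exact hw.dm5 hd (by linarith) hA0 hA1) hR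

/-- **character half, single lists, exact square** -/
theorem csS_S :
    CsGUc (7 / 8) π (fun (lam : Λ × Eis) (a : BcX) (qs : List Pq) =>
      sqc 1 (alL h ((List.ofFn a.2.1 ++ qs).map (Pt (π lam.1) lam.2))))
      (fun lam a qs => okCX (π lam.1) lam.2 a qs) (d / 4) (17 / 100) (ParS A d)
      (SinL (17 / 100)) (CES d) :=
  csGU_S hpu hP Rc Rm hd (by linarith) (by norm_num) (by norm_num) (by norm_num)
    (fun p hp => parOK_Sq5 hA hp)
    (fun p hp => by
      obtain ⟨w, hw⟩ := hp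
      exact hw.dm5 hd (by linarith) hA0 hA1)

end

end Crest.Agent.R017.ETy71
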