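import Crest.Agent.R017.LfJ_986
import Crest.Agent.R017.E3Ux_744

/-!
# Row 17, T.4: the Gram error of the differences at the top data (helper986)

* **`e3x_of`** : the field `e3x` of `LuE`
-/

set_option autoImplicit false

noncomputable section

open Complex Filter Topology

namespace Crest.Agent.R017.EbA986

open Crest.Agent.R012 Crest.Agent.R012.Eis
open Crest.Agent.R017.FE47 Crest.Agent.R017.End699
open Crest.Agent.R017.B770 Crest.Agent.R017.BxH986
open Crest.Agent.R017.Prov71 Crest.Agent.R017.ER911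
open Crest.Agent.R017.E5B71 Crest.Agent.R017.ExP960
open Crest.Agent.R017.SC777
open Crest.Agent.R017.Fin4 Crest.Agent.R017.Fin5 Crest.Agent.R017.Fin6
open Crest.Agent.R017.P1l54 Crest.Agent.R017.P1t54
open Crest.Agent.R017.P10X764 (E3XU)
open Crest.Agent.R017.Red848 (red)
open Crest.Agent.R017.XS0298 (S0x S0K)
open Crest.Agent.R017.Sg986 (AA AA_lt AA_eq AA_ge)
open Crest.Agent.R017.NrX986 (NearAllX)

/-- **the Gram error of the differences** -/
theorem e3x_of {d : ℝ} (hd : 0 < d) (hd1 : d ≤ 1 / 42) {h : ℝ → ℝ} {c₀ : ℝ} (hpu : PU h c₀)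
    (hPF : PF Set.univ (7 / 8 + d)) (P : BunE d h) (G : RecE d h)
    (near : NearAllX d (ex Dq (fun lam => S0x (red (πE lam)) h))) {r : ℝ} (hr0 : 0 ≤ r)
    (hr : ∀ u : ℝ, cx h u ≠ 0 → |u| ≤ r) :
    E3XU (fun lam => red (πE lam)) h (1 / 64) (d / 4) r βX (ParS (AA d) d) (LS0 d) := by
  have hA := AA_ge hd1
  exact E3Ux744.e3xu_E hpu (fun lam => lam.2.1) (fun lam => XT6241.exc_piE lam) hd.le hd1
    (by linarith) (AA_lt hd).le (AA_eq d) hPF P.rules
    (TK708.allT_of P.rules G.toExpS0 hd.le (by linarith))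
    (NrX986.fe2G_D P.rules G hd.le (by linarith) near) hr0 hr

end Crest.Agent.R017.EbA986
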