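import Crest.Agent.R017.XLeX_679
import Crest.Agent.R017.StrDE_372

/-!
# Row 17, class E, the number `XNumUX` from the three closers (helper372)

* `xnc_or` : helper266's `xnumCX_or` for helper679's `XNC`, any value `Vf`
* `HBcE`, `LTcE` : the two closers of helper918's `ClXEX` that differ from class N
* `xnumUX_of3E` : `XNumUX` from `XNC` at the three closers
-/

set_option autoImplicit false

noncomputable section

open Complex Finset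
open scoped ComplexConjugate

namespace Crest.Agent.R017.XnE372

open Crest.Agent.R012 Crest.Agent.R012.Eis
open Crest.Agent.R012.Mob705 hiding pb mem_pb
open Crest.Agent.R012.LS2 (mem_S)
open Crest.Agent.R017.Sx545 (Sm)
open Crest.Agent.R017.CM106 (FS CS)
open Crest.Agent.R017.FE47 (PU SM)
open Crest.Agent.R017.C70 (OKJ)
open Crest.Agent.R017.End699 (HC)
open Crest.Agent.R017.B770
open Crest.Agent.R017.Prov71
open Crest.Agent.R017.E4352 (PrI Dat4 rd SSm tws)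
open Crest.Agent.R017.E4o502 (vD)
open Crest.Agent.R017.E5B71
open Crest.Agent.R017.E5L770
open Crest.Agent.R017.E5LX770 (SqLX)
open Crest.Agent.R017.ExP960 hiding alX
open Crest.Agent.R017.E5k54 (alb)
open Crest.Agent.R017.E4D164 hiding E4L
open Crest.Agent.R017.E4J352 hiding Win
open Crest.Agent.R017.E4U164
open Crest.Agent.R017.E4Df372
open Crest.Agent.R017.E4R70
open Crest.Agent.R017.E4RH858 (Pf pf Facts kl)
open Crest.Agent.R017.E4Dic352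
open Crest.Agent.R017.E4St352
open Crest.Agent.R017.JxG679 (vD_ne)
open Crest.Agent.R017.JxL679 (NatS)
open Crest.Agent.R017.JxP679
open Crest.Agent.R017.XSd512 (XMo)
open Crest.Agent.R017.YsU61 (TwOK)
open Crest.Agent.R017.EnX743 (TWa xJB)
open Crest.Agent.R017.Str699 (nu0)
open Crest.Agent.R017.XHn512
open Crest.Agent.R017.E4SE266
open Crest.Agent.R017.XLeX679 (XNC)

/-- **two closers** -/
theorem xnc_or {Λ : Type*} {π : Λ → DPar} {h : ℝ → ℝ}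
    {Vf : Cls → ℝ → ℝ → ℝ} {C₁ C₂ : ℝ → Cls → ℝ → ℝ → ℝ → ℝ → ℝ → Prop} {A d bb e0 r : ℝ} {Bf : ℕ → ℝ → ℝ → ℝ → ℝ}
    {Jf : ℝ → ℝ → ℝ → Finset (Eis × Eis)} (H₁ : XNC π h Vf C₁ A d bb e0 r Bf Jf)
    (H₂ : XNC π h Vf C₂ A d bb e0 r Bf Jf) :
    XNC π h Vf (fun κ z d N u x ex => C₁ κ z d N u x ex ∨ C₂ κ z d N u x ex) A d bb e0 r Bf Jf := by
  intro ε hε
  obtain ⟨η₁, hη₁, K₁⟩ := H₁ ε hε
  obtain ⟨η₂, hη₂, K₂⟩ := H₂ ε hε
  refine ⟨min η₁ η₂, lt_min hη₁ hη₂, ?_⟩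
  intro lam N B T hD hT
  obtain ⟨M₁, δ₁, hδ₁, X₁, hX₁, L₁⟩ := K₁ lam N B T hD hT
  obtain ⟨M₂, δ₂, hδ₂, X₂, hX₂, L₂⟩ := K₂ lam N B T hD hT
  refine ⟨max M₁ M₂, min δ₁ δ₂, lt_min hδ₁ hδ₂, max X₁ X₂, lt_max_of_lt_left hX₁, ?_⟩
  intro X hXX δ ε' hδ hε' a ps q hF ha hlam haP x hx hxl hne j h₁ h₂ tt htt ξ G hG c P β τ 𝒥 h𝒥 Oc hOc t ht
    f1 f2 f3' D1' Z'' l' m hS z' sc mx ex hN hok hky hmx hmx2 hC t' ht' Bm hBm1 hBm Bd hBd
  have hXX₁ : X₁ ≤ X := (le_max_left _ _).trans hXX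
  have hXX₂ : X₂ ≤ X := (le_max_right _ _).trans hXX
  have hX1 : 1 < X := hX₁.trans_le hXX₁
  have hX0 : 0 < X := by linarith
  have hξ : 1 ≤ 1 + |ξ| := by
    have := abs_nonneg ξ
    linarith
  have hmono : ∀ {η : ℝ}, min η₁ η₂ ≤ η → ∀ {bm : Eis → ℂ}, NatS Bm (X ^ min η₁ η₂ * Bm) bm →
      NatS Bm (X ^ η * Bm) bm := fun {η} h1 {bm} h2 =>
    natS_mono (by linarith) le_rfl (by positivity)
      (Real.rpow_le_rpow_of_exponent_le hX1.le h1) h2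
  have hBdm : ∀ {M' : ℕ}, M' ≤ max M₁ M₂ → ∀ E : ℝ,
      ((1 + |ξ|) ^ M') ^ 2 * X ^ E ≤ ((1 + |ξ|) ^ max M₁ M₂) ^ 2 * X ^ E := fun {M'} h1 E => by
    have h2 := pow_le_pow_right₀ hξ h1
    have h3 : (0 : ℝ) ≤ (1 + |ξ|) ^ M' := by positivity
    gcongr
  rcases hC with hC | hC
  · have key := L₁ X hXX₁ δ ε' (hδ.trans (min_le_left _ _)) (hε'.trans (min_le_left _ _)) a ps q
      (hF.mono hX1.le le_rfl (min_le_left _ _)) ha hlam haP x hx hxl hne j h₁ h₂ tt htt ξ G hG c P β τ 𝒥 h𝒥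
      Oc hOc t ht f1 f2 f3' D1' Z'' l' m hS z' sc mx ex (near_mono hN (min_le_left _ _)) hok hky hmx
      hmx2 hC t' ht' Bm hBm1 (hBm.trans (Real.rpow_le_rpow_of_exponent_le hX1.le
        (by linarith [min_le_left η₁ η₂]))) _ rfl
    have hle := hBdm (le_max_left M₁ M₂) (cκ (prX (dn q.1)) * (z'.k + 2 * z'.lam) +
        (cκ (prX (dn q.1)) * Vf z' (cN (prX (dn q.1)) / cκ (prX (dn q.1))) (cu (prX (dn q.1)) 4 / cκ (prX (dn q.1))) +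
          cκ (prX (dn q.1)) * (2 / 3 * d * z'.N1 (cN (prX (dn q.1)) / cκ (prX (dn q.1)))) + ex + ε))
    rw [← hBd] at hle
    exact ⟨fun h0 => (key.1 h0).trans hle,
      fun bm hbm => (key.2 bm fun o ho => hmono (min_le_left _ _) (hbm o ho)).trans hle⟩
  · have key := L₂ X hXX₂ δ ε' (hδ.trans (min_le_right _ _)) (hε'.trans (min_le_right _ _)) a ps q
      (hF.mono hX1.le le_rfl (min_le_right _ _)) ha hlam haP x hx hxl hne j h₁ h₂ tt htt ξ G hG c P β τ 𝒥 h𝒥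
      Oc hOc t ht f1 f2 f3' D1' Z'' l' m hS z' sc mx ex (near_mono hN (min_le_right _ _)) hok hky hmx
      hmx2 hC t' ht' Bm hBm1 (hBm.trans (Real.rpow_le_rpow_of_exponent_le hX1.le
        (by linarith [min_le_right η₁ η₂]))) _ rfl
    have hle := hBdm (le_max_right M₁ M₂) (cκ (prX (dn q.1)) * (z'.k + 2 * z'.lam) +
        (cκ (prX (dn q.1)) * Vf z' (cN (prX (dn q.1)) / cκ (prX (dn q.1))) (cu (prX (dn q.1)) 4 / cκ (prX (dn q.1))) +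
          cκ (prX (dn q.1)) * (2 / 3 * d * z'.N1 (cN (prX (dn q.1)) / cκ (prX (dn q.1)))) + ex + ε))
    rw [← hBd] at hle
    exact ⟨fun h0 => (key.1 h0).trans hle,
      fun bm hbm => (key.2 bm fun o ho => hmono (min_le_right _ _) (hbm o ho)).trans hle⟩


/-- the large sieve closer, class E -/
def HBcE (κ₀ : ℝ) (z : Cls) (_d N u x ex : ℝ) : Prop :=
  XHB (κ₀ * z.k) (κ₀ * z.v1) (κ₀ * z.d0E N u) (κ₀ * z.c12) (κ₀ * z.s1) x ex

/-- the closer with an `R`-part, class E -/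
def LTcE (κ₀ : ℝ) (z : Cls) (d N u x ex : ℝ) : Prop :=
  He918.XLTEX d (κ₀ * z.k) (κ₀ * z.v1) (κ₀ * z.N1 N) (κ₀ * (N - z.β)) (κ₀ * z.R1) (κ₀ * z.R2)
    (κ₀ * u) (κ₀ * z.lqt) (κ₀ * z.sh) (κ₀ * z.cnt) (κ₀ * z.tE N u) (κ₀ * (z.c12 + z.s1))
    (κ₀ * z.ff N u) (κ₀ * ((z.fF N u + z.ff N u) / 2)) (κ₀ * z.sgR) x ex

/-- **`XNumUX` from the three closers** -/
theorem xnumUX_of3E {Λ : Type*} {π : Λ → DPar} {h : ℝ → ℝ} {A d bb e0 r : ℝ}
    {Bf : ℕ → ℝ → ℝ → ℝ → ℝ} {Jf : ℝ → ℝ → ℝ → Finset (Eis × Eis)}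
    (H₁ : XNC π h E4Df372.VxE HBcE A d bb e0 r Bf Jf)
    (H₂ : XNC π h E4Df372.VxE LTcE A d bb e0 r Bf Jf)
    (H₃ : XNC π h E4Df372.VxE PVc A d bb e0 r Bf Jf) :
    E4Df372.XNumUX π h A d bb e0 r Bf Jf :=
  show XNC π h E4Df372.VxE He918.ClXEX A d bb e0 r Bf Jf from xnc_or H₁ (xnc_or H₂ H₃)

end Crest.Agent.R017.XnE372
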