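import Crest.Agent.R017.XTz_743
import Crest.Agent.R017.XHeX_266

/-!
# Row 17, block C70, leaf E4, class E (helper743): the `T`-numbers of the large sieve half

* `TNumE` : helper266's `TNumUX` with the values `tE`, `d0E`
* **`tnumE_of`** : `TNumE` from `VNE`
-/

set_option autoImplicit false
set_option linter.unusedVariables false

noncomputable section

open Complex Finset
open scoped ComplexConjugate

namespace Crest.Agent.R017.EnX743

open Crest.Agent.R012 Crest.Agent.R012.Eis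
open Crest.Agent.R012.Mob705 hiding pb mem_pb
open Crest.Agent.R012.LS2 (mem_S)
open Crest.Agent.R017.FE47 (PU SM cx)
open Crest.Agent.R017.C70 (OKJ)
open Crest.Agent.R017.HP842 (pc)
open Crest.Agent.R017.B770
open Crest.Agent.R017.Prov71
open Crest.Agent.R017.E5B71
open Crest.Agent.R017.E5L770
open Crest.Agent.R017.E5LX770 (SqLX)
open Crest.Agent.R017.ExP960 hiding alX
open Crest.Agent.R017.E5k54 (alb)
open Crest.Agent.R017.E1551 (Adm)
open Crest.Agent.R017.E4U164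
open Crest.Agent.R017.E4Df372
open Crest.Agent.R017.E4R70
open Crest.Agent.R017.E4Dic352
open Crest.Agent.R017.E4St352
open Crest.Agent.R017.E4SE266 (qX dn_qX frVX)
open Crest.Agent.R017.Bx918
open Crest.Agent.R017.Tc918
open Crest.Agent.R017.TEM792 (VN nL Xn)
open Crest.Agent.R017.TEX792 (LDX Sv adm_alX)
open Crest.Agent.R017.VFa436 (us3 T3_spec)
open Crest.Agent.R017.E4Us512 (Fr FrY nm_beta_le bdd_PU Y3_le fr_of_frLX)
open Crest.Agent.R017.XHn512 (TrNum tr_num fin_T)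

/-- `T`-exponent of the large sieve half, class E -/
def tExE (κ d : ℝ) (z : E4R70.Cls) (N u : ℝ) : ℝ :=
  κ * (z.tE N u + 2 / 3 * d * z.N1 N - (z.v + (N - z.β)) / 3)

/-- **the `T`-numbers of the `x`-side** (class E, values `tE`, `d0E`) : weights `1` and `nm y.1` -/
def TNumE {Λ : Type*} (π : Λ → DPar) (h : ℝ → ℝ) (A d bb e0 r : ℝ)
    (Bf : ℕ → ℝ → ℝ → ℝ → ℝ) (Jf : ℝ → ℝ → ℝ → Finset (Eis × Eis)) : Prop :=
  ∀ ε : ℝ, 0 < ε → ∃ η : ℝ, 0 < η ∧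
    ∀ (lam : Λ × Eis) (N : ℕ) (B : ℝ), ¬ (π lam.1).CaseD →
    ∃ δ' : ℝ, 0 < δ' ∧ ∃ X₀ : ℝ, 1 < X₀ ∧ ∀ X : ℝ, X₀ ≤ X → ∀ δ ε' : ℝ, δ ≤ η → ε' ≤ η →
    ∀ (a : BdX × ℕ) (ps : List Pq) (q : (Option IX5 → ℝ) × (Kd → ℝ)),
      FrLX A d bb δ δ' B X N a ps q → a.1.ok → lam.2 ∈ SM (π lam.1).n → a.1.okP (π lam.1) →
    ∀ x : Dt, x.OK (π lam.1) (Bf a.2) e0 r ε' X a.1.toBd → XLowX d X q x →
      (x.I Jf (bl a)).Nonempty → ∀ z' : E4R70.Cls,
      z'.Ok d (1 / cκ (prX (dn q.1))) (cN (prX (dn q.1)) / cκ (prX (dn q.1)))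
        (cM (prX (dn q.1)) / cκ (prX (dn q.1)))
        (q.2 .mo / cκ (prX (dn q.1))) (q.2 .am / cκ (prX (dn q.1)))
        (cx' (prX (dn q.1)) / cκ (prX (dn q.1))) →
      |z'.v - Real.log 2 * a.2 / (cκ (prX (dn q.1)) * Real.log X)| ≤ η →
      |z'.β - E4Dic352.lg (∏ i, x.β i) / (cκ (prX (dn q.1)) * Real.log X)| ≤ η →
      |z'.s - E4Dic352.lg x.e₀ / (cκ (prX (dn q.1)) * Real.log X)| ≤ η → ∀ b₀ : Eis,
      TWa (xJB Jf (bl a) x b₀) (omL a.2) (E4Df372.alX (π lam.1) h lam.2 a.1 x.β) x.e₀ 1 0 ≤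
        X ^ (tExE (cκ (prX (dn q.1))) d z' (cN (prX (dn q.1)) / cκ (prX (dn q.1)))
          (cu (prX (dn q.1)) 4 / cκ (prX (dn q.1))) + ε) ∧
      (TWa (xJB Jf (bl a) x b₀) (omL a.2) (E4Df372.alX (π lam.1) h lam.2 a.1 x.β) x.e₀ 1 1 ≤
        X ^ (tExE (cκ (prX (dn q.1))) d z' (cN (prX (dn q.1)) / cκ (prX (dn q.1)))
          (cu (prX (dn q.1)) 4 / cκ (prX (dn q.1))) +
          cκ (prX (dn q.1)) * z'.d0E (cN (prX (dn q.1)) / cκ (prX (dn q.1)))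
            (cu (prX (dn q.1)) 4 / cκ (prX (dn q.1))) + ε) ∨
        z'.v1 / 2 ≤ z'.d0E (cN (prX (dn q.1)) / cκ (prX (dn q.1)))
          (cu (prX (dn q.1)) 4 / cκ (prX (dn q.1))))

set_option maxHeartbeats 4000000 in
/-- **the `T`-numbers of the large sieve half, class E** -/
theorem tnumE_of {Λ : Type*} {π : Λ → DPar} {h : ℝ → ℝ} {c₀ : ℝ} (hh : PU h c₀) {A d : ℝ}
    (hV : VNE π h d) (hd : 0 ≤ d) (hd1 : d ≤ 1 / 42) (hA0 : 2 / 3 ≤ A) (hA : A ≤ 1)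
    (hA1 : 16 * (1 - A) ≤ d) {bb : ℝ} (hbb : bb = 17 / 100) (e0 r : ℝ)
    (Bf : ℕ → ℝ → ℝ → ℝ → ℝ)
    {Jf : ℝ → ℝ → ℝ → Finset (Eis × Eis)} (hJf : ∀ l N z, OKJ (Jf l N z)) :
    TNumE π h A d bb e0 r Bf Jf := by
  classical
  intro ε hε
  obtain ⟨η, hη, hη1, hη2⟩ : ∃ η : ℝ, 0 < η ∧ η ≤ 1 / 100 ∧ η ≤ ε / 300 :=
    ⟨min (1 / 100) (ε / 300), by positivity, min_le_left _ _, min_le_right _ _⟩
  refine ⟨η, hη, ?_⟩
  intro lam N B hD
  by_cases hlam : lam.2 ∈ SM (π lam.1).n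
  swap
  · exact ⟨1, one_pos, 2, by norm_num, fun X _ δ ε' _ _ a ps q _ _ h _ => absurd h hlam⟩
  obtain ⟨R, H₀, hR0, -, hR, -⟩ := bdd_PU hh
  obtain ⟨B₁, hB₁⟩ : ∃ B₁ : ℝ, B₁ = max B 4 := ⟨_, rfl⟩
  have hB3 : 4 ≤ B₁ := by rw [hB₁]; exact le_max_right _ _
  have hBB : B ≤ B₁ := by rw [hB₁]; exact le_max_left _ _
  obtain ⟨B', hB'⟩ : ∃ B' : ℝ, B' = 1 + B₁ + |e0| * B₁ := ⟨_, rfl⟩
  have hp0 : 0 ≤ |e0| * B₁ := mul_nonneg (abs_nonneg _) (by linarith)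
  have hB'1 : 1 ≤ B' := by rw [hB']; linarith
  have hB'2 : B₁ ≤ B' := by rw [hB']; linarith
  have hB'3 : |e0| * B₁ ≤ B' := by rw [hB']; linarith
  obtain ⟨K, hK⟩ : ∃ K : ℝ, K = 4 * B' + 1 := ⟨_, rfl⟩
  have hK1 : 1 ≤ K := by rw [hK]; linarith
  have hKB : B' ≤ K := by rw [hK]; linarith
  obtain ⟨M, GM⟩ := hV (ε / 8) (by positivity) (2 * K) (by linarith) lam.1
  obtain ⟨X₁, hX₁, G1⟩ := GM M le_rfl lam.2 hlam
  obtain ⟨X₂, hX₂, G2⟩ := twa_num (6 * R) (by positivity) (show 0 < ε / 8 by positivity) K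
    hK1 M
  refine ⟨ε / (8 * (M + 1)), by positivity,
    max (max X₁ X₂) (max (100 + Real.exp r) (Real.exp (Real.log 2 / η))),
    lt_max_of_lt_left (lt_max_of_lt_left hX₁), ?_⟩
  intro X hXX δ ε' hδ hε' a ps q hF ha hlam' haP x hx _ _ z' hok hv hb hs b₀
  have hXX₁ : X₁ ≤ X := ((le_max_left _ _).trans (le_max_left _ _)).trans hXX
  have hXX₂ : X₂ ≤ X := ((le_max_right _ _).trans (le_max_left _ _)).trans hXX
  have hXX₃ : 100 + Real.exp r ≤ X := ((le_max_left _ _).trans (le_max_right _ _)).trans hXX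
  have hXX₄ : Real.exp (Real.log 2 / η) ≤ X := ((le_max_right _ _).trans (le_max_right _ _)).trans hXX
  have her := Real.exp_pos r
  have hX100 : 100 ≤ X := by linarith
  have hX1 : 1 < X := by linarith
  have hX0 : 0 < X := by linarith
  have hL : 0 < Real.log X := Real.log_pos hX1
  have h2 : Real.log 2 ≤ η * Real.log X := by
    have h1 := Real.log_le_log (Real.exp_pos _) hXX₄
    rw [Real.log_exp, div_le_iff₀ hη] at h1
    linarith
  -- the box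
  have hdom := hF.dom
  unfold SqLX DomL at hdom
  have hSq : Sq5 A d (prX (dn q.1)) q.2 := hdom.1.1
  have hzr : ZR bb (dn q.1) := hdom.1.2
  have hv0 : 0 ≤ q.1 none := hdom.2.1
  have hκ89 := hSq.toNr5.κ0
  have hκ1 := hSq.toNr5.κ1
  have BX := bx4 hd (by linarith only [hd1]) hA hA1 hSq hv0 hF.low
  have V : FrV δ (Real.log X) (bl a) ps (qX q) := frVX hF hX1
  have hδ0 : 0 ≤ δ := (abs_nonneg _).trans (hF.win.ev none)
  obtain ⟨κ₀, hκ₀⟩ : ∃ κ₀ : ℝ, κ₀ = cκ (prX (dn q.1)) := ⟨_, rfl⟩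
  rw [← hκ₀] at hok hv hb hs hκ89 hκ1 BX ⊢
  have hκ0 : 0 < κ₀ := by linarith
  have hTr : TrNum κ₀ η (Real.log (2 * 2 ^ a.2) / Real.log X)
      (Real.log (nm x.e₀) / Real.log X) (nL X (u3 a.1) x.β) (Real.log 2 * a.2 / Real.log X) z'
      (cN (prX (dn q.1)) / κ₀) := tr_num hX1 V hδ hη.le h2 hκ0 hκ1 hv hb hs
  obtain ⟨y1, y2⟩ := y_of hSq
  rw [← hκ₀] at y1 y2
  -- sizes
  have hFrX := fr_of_frLX hA0 (by linarith) hX1 hF ha haP hBB hB3
  have hFr := hFrX.fr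
  have HY := hFr.toY (e0 := e0) (r := r) hX100 (by linarith) hB'1 hB'2 hB'3
  have hβ : ∀ i, IsPrim (x.β i) := (T3_spec hx.β).1
  have he₀ := (mem_S (Real.exp_pos _).le).mp hx.e₀
  have hXK : X ^ B' ≤ X ^ K := Real.rpow_le_rpow_of_exponent_le hX1.le hKB
  have hXK2 : X ^ K ≤ X ^ (2 * K) := Real.rpow_le_rpow_of_exponent_le hX1.le (by linarith)
  have hX4 : (X ^ B') ^ 4 ≤ X ^ K := by
    rw [← Real.rpow_natCast, ← Real.rpow_mul hX0.le]
    refine Real.rpow_le_rpow_of_exponent_le hX1.le ?_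
    push_cast
    rw [hK]
    linarith
  have hβK : ∀ i, (nm (x.β i) : ℝ) ≤ X ^ (2 * K) := by
    intro i
    have h1 := E4Us512.mem_PT (SSb54.mem_PTb.mp hx.β).1
    have h3 : (nm (x.β i) : ℝ) ≤ (X ^ B') ^ 4 := by
      refine le_trans ?_ (Y3_le HY)
      exact_mod_cast (mem_primBall.mp (h1 i)).1
    exact h3.trans (hX4.trans hXK2)
  have hB4 : B₁ * Real.log X ≤ 2 * K * Real.log X :=
    mul_le_mul_of_nonneg_right (by linarith only [hB'2, hKB, hK1]) hL.le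
  have hzK : ∀ j, (a.1.us j).z ≤ 2 * K * Real.log X := fun j => (hFr.u j).trans hB4
  have hzsK : ∀ j, a.1.zs j ≤ 2 * K * Real.log X := fun j => (hFrX.zs j).trans hB4
  have he₀K : (nm x.e₀ : ℝ) ≤ X ^ K := (he₀.1.trans HY.e0l).trans hXK
  have hiK : (2 * 2 ^ a.2 : ℝ) ≤ X ^ K := by
    have h1 : (2 ^ a.2 : ℝ) ≤ X ^ B' := HY.lv
    calc (2 * 2 ^ a.2 : ℝ) ≤ X * X ^ B' := by
          have : (2 : ℝ) ≤ X := by linarith
          gcongr
      _ = X ^ (1 + B') := by rw [Real.rpow_add hX0, Real.rpow_one]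
      _ ≤ X ^ K := Real.rpow_le_rpow_of_exponent_le hX1.le (by rw [hK]; linarith)
  have hδ'0 : 0 < ε / (8 * ((M : ℝ) + 1)) := by positivity
  have hH1 : 1 ≤ X ^ (ε / (8 * ((M : ℝ) + 1))) := Real.one_le_rpow hX1.le hδ'0.le
  -- the bias
  obtain ⟨wb, hwb⟩ : ∃ wb : ℝ, wb = Real.log (nm (∏ i, x.β i)) / Real.log X := ⟨_, rfl⟩
  obtain ⟨s₀, hs₀⟩ : ∃ s₀ : ℝ, s₀ = bb * κ₀ - δ - wb := ⟨_, rfl⟩
  obtain ⟨-, n2, n3, n4⟩ := hSq.anti
  have hu29 : 2 / 9 * κ₀ ≤ cu (prX (dn q.1)) 4 := by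
    have := BX.u0
    rw [le_div_iff₀ hκ0] at this
    exact this
  have hLD := ldx_of (K := 2 * K) (s₀ := s₀) hX1 hF ha hbb hδ0 (hδ.trans hη1)
    (by rw [← hκ₀]; exact hκ89) (by rw [← hκ₀]; exact hu29) n4 n3 (by linarith) hzK hzsK hβ hβK
    (by
      rw [← hκ₀, hs₀, hwb]
      have e1 : Real.log (nm (∏ i, x.β i)) / Real.log X * Real.log X =
        Real.log (nm (∏ i, x.β i)) := div_mul_cancel₀ _ hL.ne'
      rw [sub_mul, e1])
  -- the lumps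
  have u : ∀ i, (a.1.us i).z / Real.log X ≤ cu (prX (dn q.1)) i + η := by
    intro i
    have h1 : |(a.1.us i).z / Real.log X - cu (prX (dn q.1)) i| ≤ δ :=
      hF.win.ev (some (.inl (.inr i)))
    have h3 := (abs_le.mp h1).2
    linarith only [h3, hδ]
  have hz : ∀ i, (u3 a.1 i).z / Real.log X ≤ cu (prX (dn q.1)) 2 + η := by
    intro i
    have u2 := u 2
    have u3 := u 3
    have u4 := u 4
    fin_cases i
    · exact u2
    · exact u3.trans (by linarith)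
    · exact u4.trans (by linarith)
  have hu : ∃ i, (u3 a.1 i).z / Real.log X ≤ cu (prX (dn q.1)) 4 + η := ⟨2, u 4⟩
  have hz' : ∀ i, (u3' a.1 i).z / Real.log X ≤ 2 * K := by
    intro i
    rw [div_le_iff₀ hL]
    fin_cases i
    · exact hzsK 2
    · exact hzsK 3
    · exact hzK 4
  have hu' : ∃ i, (u3' a.1 i).z / Real.log X ≤ 17 / 100 + η := by
    refine ⟨0, ?_⟩
    have h1 : |a.1.zs 2 / Real.log X - dn q.1 (.inr 1)| ≤ δ := hF.win.ev (some (.inr 1))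
    have h3 := (abs_le.mp h1).2
    have h4 := (hzr 1).2
    rw [hbb] at h4
    show a.1.zs 2 / Real.log X ≤ _
    linarith only [h3, h4, hδ]
  have hVN := G1 X hXX₁ (X ^ (ε / (8 * ((M : ℝ) + 1)))) hH1 a.1 x.β s₀ hLD _ _ _ _ hz hu hz' hu'
  have hAdm := adm_alX hR0 hR (π lam.1) lam.2 ha hβ
  -- the true numbers
  obtain ⟨lv, hlv⟩ : ∃ lv, lv = Real.log (2 * 2 ^ a.2) / Real.log X := ⟨_, rfl⟩
  obtain ⟨e, he⟩ : ∃ e, e = Real.log (nm x.e₀) / Real.log X := ⟨_, rfl⟩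
  obtain ⟨nl, hnl⟩ : ∃ nl, nl = nL X (u3 a.1) x.β := ⟨_, rfl⟩
  rw [← hnl] at hVN
  rw [← hlv, ← he, ← hnl] at hTr
  have eκy : cu (prX (dn q.1)) 2 + η = κ₀ * (cu (prX (dn q.1)) 2 / κ₀) + η := by field_simp
  have eκu : cu (prX (dn q.1)) 4 + η = κ₀ * (cu (prX (dn q.1)) 4 / κ₀) + η := by field_simp
  -- the class against the data
  have near : ∀ {y c : ℝ}, |y - c / (κ₀ * Real.log X)| ≤ η → c / Real.log X ≤ κ₀ * y + η := by
    intro y c h
    obtain ⟨h1, -⟩ := abs_le.mp h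
    have e1 : κ₀ * (c / (κ₀ * Real.log X)) = c / Real.log X := by field_simp
    have h3 := mul_le_mul_of_nonneg_left h1 hκ0.le
    have h5 : κ₀ * η ≤ η := by nlinarith only [hκ1, hη]
    rw [mul_sub, e1] at h3
    linarith only [h3, h5]
  have hbe := near hb
  have hse := near hs
  have hwb' : wb ≤ κ₀ * z'.β + η := by rw [hwb]; exact hbe
  have hee : e ≤ κ₀ * z'.s + η := by rw [he]; exact hse
  have hs₀' : κ₀ * (17 / 100 - z'.β) - 2 * η ≤ s₀ := by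
    rw [hs₀, hbb]
    linarith only [hwb', hδ]
  obtain ⟨hN₁0, hLN, hown, hown', hGB, hu0, hu0', hFF, hFF2⟩ := cls_realX (z₂ := 2 * K) (lc := 0)
    BX (by field_simp) hok y1 y2 hκ89 hη hη1 hTr hη.le hs₀' hee
  rw [add_zero] at hLN hown hown' hGB hFF hFF2
  rw [← eκy, ← eκu] at hown
  obtain ⟨T₀, hT₀⟩ : ∃ T₀, T₀ = κ₀ * (z'.tE (cN (prX (dn q.1)) / κ₀) (cu (prX (dn q.1)) 4 / κ₀) +
      2 / 3 * d * z'.N1 (cN (prX (dn q.1)) / κ₀)) := ⟨_, rfl⟩
  rw [← hT₀] at hown hown' hGB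
  have hpos : ∀ ξ : ℝ, 2 * ξ ≤ lv → max 0 (nl - (e + ξ)) = nl - e - ξ := by
    intro ξ hξ
    have := hTr.e0
    rw [max_eq_right]
    · ring
    · linarith only [hξ, hLN, this]
  have hu17 : (17 / 100 : ℝ) ≤ cu (prX (dn q.1)) 4 := by
    have : 17 / 100 ≤ 2 / 9 * κ₀ := by linarith only [hκ89]
    exact this.trans hu29
  -- the two numbers
  have hF0 : ∀ ξ : ℝ, 0 ≤ ξ → 2 * ξ ≤ lv →
      max (max (GuN d (cu (prX (dn q.1)) 2 + η) (cu (prX (dn q.1)) 4 + η) (lv + e - 2 * ξ)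
        (max 0 (nl - (e + ξ)))) (GuN d (2 * K) (17 / 100 + η) (lv + e - 2 * ξ)
        (max 0 (nl - (e + ξ))))) (2 / 3 * (lv + e - 2 * ξ) + 5 / 3 * (nl - (e + ξ)) -
          max 0 (s₀ - (e + ξ))) + ε / 8 ≤ T₀ + 25 * η + ε / 8 - (2 + 0) * ξ := by
    intro ξ h0 h1
    rw [hpos ξ h1]
    have g1 := guN_child (z := cu (prX (dn q.1)) 2 + η) (u := cu (prX (dn q.1)) 4 + η)
      (v := lv + e) (n := nl - e) hd h0
    have g2 := guN_child (z := 2 * K) (u := 17 / 100 + η)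
      (v := lv + e) (n := nl - e) hd h0
    have g3 : 2 / 3 * (lv + e - 2 * ξ) + 5 / 3 * (nl - (e + ξ)) - max 0 (s₀ - (e + ξ)) ≤
        GB2 s₀ nl (lv + e) (nl - e) - 2 * ξ := by
      unfold GB2
      rw [show nl - (nl - e) = e by ring]
      have : max 0 (s₀ - e) - ξ ≤ max 0 (s₀ - (e + ξ)) := by
        rcases max_choice 0 (s₀ - e) with h | h
        · rw [h]
          exact le_trans (by linarith only [h0]) (le_max_left _ _)
        · rw [h]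
          exact le_trans (by linarith only []) (le_max_right _ _)
      linarith only [this]
    have : max (max (GuN d (cu (prX (dn q.1)) 2 + η) (cu (prX (dn q.1)) 4 + η)
        (lv + e - 2 * ξ) (nl - e - ξ)) (GuN d (2 * K) (17 / 100 + η) (lv + e - 2 * ξ)
        (nl - e - ξ))) (2 / 3 * (lv + e - 2 * ξ) + 5 / 3 * (nl - (e + ξ)) -
          max 0 (s₀ - (e + ξ))) ≤ T₀ + 25 * η - 2 * ξ :=
      max_le (max_le (by linarith only [g1, hown]) (by linarith only [g2, hown']))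
        (by linarith only [g3, hGB])
    linarith only [this]
  have hF1 : ∀ ξ : ℝ, 0 ≤ ξ → 2 * ξ ≤ lv →
      max (max (GuN d (cu (prX (dn q.1)) 2 + η) (cu (prX (dn q.1)) 4 + η) (lv + e - 2 * ξ)
        (max 0 (nl - (e + ξ)))) (GuN d (2 * K) (17 / 100 + η) (lv + e - 2 * ξ)
        (max 0 (nl - (e + ξ))))) (2 / 3 * (lv + e - 2 * ξ) + 5 / 3 * (nl - (e + ξ)) -
          max 0 (s₀ - (e + ξ))) + ε / 8 ≤
      max (lv + e + (nl - e) + min (cu (prX (dn q.1)) 4 + η) ((nl - e) / 3))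
        (5 / 3 * (nl - e) + 2 / 3 * (lv + e)) + ε / 8 - (2 + 1) * ξ := by
    intro ξ h0 h1
    rw [hpos ξ h1]
    have he0 := hTr.e0
    have g1 := guN_h1 (d := d) (z := cu (prX (dn q.1)) 2 + η) (u := cu (prX (dn q.1)) 4 + η)
      (v := lv + e) (n := nl - e) h0 (by linarith only [he0, h1])
    have g2 := guN_h1 (d := d) (z := 2 * K) (u := 17 / 100 + η)
      (v := lv + e) (n := nl - e) h0 (by linarith only [he0, h1])
    have m1 : min (17 / 100 + η) ((nl - e) / 3) ≤ min (cu (prX (dn q.1)) 4 + η) ((nl - e) / 3) :=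
      min_le_min (by linarith only [hu17]) le_rfl
    obtain ⟨Mx, hMx⟩ : ∃ Mx, Mx = max (lv + e + (nl - e) +
      min (cu (prX (dn q.1)) 4 + η) ((nl - e) / 3)) (5 / 3 * (nl - e) + 2 / 3 * (lv + e)) :=
      ⟨_, rfl⟩
    have a1 : lv + e + (nl - e) + min (cu (prX (dn q.1)) 4 + η) ((nl - e) / 3) ≤ Mx := by
      rw [hMx]; exact le_max_left _ _
    have a2 : 5 / 3 * (nl - e) + 2 / 3 * (lv + e) ≤ Mx := by
      rw [hMx]; exact le_max_right _ _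
    have a3 : max (lv + e + (nl - e) + min (17 / 100 + η) ((nl - e) / 3))
        (5 / 3 * (nl - e) + 2 / 3 * (lv + e)) ≤ Mx :=
      max_le (by linarith only [a1, m1]) a2
    rw [← hMx] at g1 ⊢
    have a4 := le_max_left 0 (s₀ - (e + ξ))
    have : max (max (GuN d (cu (prX (dn q.1)) 2 + η) (cu (prX (dn q.1)) 4 + η)
        (lv + e - 2 * ξ) (nl - e - ξ)) (GuN d (2 * K) (17 / 100 + η) (lv + e - 2 * ξ)
        (nl - e - ξ))) (2 / 3 * (lv + e - 2 * ξ) + 5 / 3 * (nl - (e + ξ)) -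
          max 0 (s₀ - (e + ξ))) ≤ Mx - 3 * ξ :=
      max_le (max_le g1 (by linarith only [g2, a3])) (by linarith only [a2, a4])
    linarith only [this]
  have hβ0 : (0 : ℝ) < nm (∏ i, x.β i) := by
    exact_mod_cast nm_pos.2 (Finset.prod_ne_zero_iff.2 fun i _ => (hβ i).ne_zero)
  have hXw : 0 < Xn (u3 a.1) x.β := TEM792.Xn_pos _ hβ
  have hYw : 0 ≤ Xn (u3 a.1) x.β * Real.exp (3 * R) := mul_nonneg hXw.le (Real.exp_pos _).le
  have hlXw : Real.log (Xn (u3 a.1) x.β) = nl * Real.log X := by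
    rw [hnl]
    unfold TEM792.nL TEM792.Xn
    rw [div_mul_cancel₀ _ hL.ne', Real.log_div (Real.exp_pos _).ne' hβ0.ne', Real.log_exp]
  have hw2 : Real.log 2 * a.2 = Real.log 2 * a.2 / Real.log X * Real.log X := by
    rw [div_mul_cancel₀ _ hL.ne']
  have hδM : ε / (8 * ((M : ℝ) + 1)) * M ≤ ε / 8 := by
    rw [div_mul_eq_mul_div, div_le_div_iff₀ (by positivity) (by norm_num)]
    have hM0 : ε * M ≤ ε * (M + 1) := mul_le_mul_of_nonneg_left (by linarith only []) hε.le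
    linarith only [hM0]
  have k0 := G2 X hXX₂ (X ^ (ε / (8 * ((M : ℝ) + 1)))) hH1 _ _ hYw hXw _ hAdm _ hVN Jf hJf (bl a)
    hiK (xJB Jf (bl a) x b₀) xJB_sub x.e₀ he₀.2.1 he₀K 0 (T₀ + 25 * η + ε / 8)
    (fun ξ h0 h1 => by
      have h1' : 2 * ξ ≤ lv := by rw [hlv]; exact h1
      have := hF0 ξ h0 h1'
      rw [hlv, he] at this
      exact this)
  have k1 := G2 X hXX₂ (X ^ (ε / (8 * ((M : ℝ) + 1)))) hH1 _ _ hYw hXw _ hAdm _ hVN Jf hJf (bl a)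
    hiK (xJB Jf (bl a) x b₀) xJB_sub x.e₀ he₀.2.1 he₀K 1
    (max (lv + e + (nl - e) + min (cu (prX (dn q.1)) 4 + η) ((nl - e) / 3))
        (5 / 3 * (nl - e) + 2 / 3 * (lv + e)) + ε / 8)
    (fun ξ h0 h1 => by
      have h1' : 2 * ξ ≤ lv := by rw [hlv]; exact h1
      have := hF1 ξ h0 h1'
      rw [hlv, he] at this ⊢
      exact this)
  refine ⟨k0.trans (fin_T hX1 hTr hXw hlXw hw2 hδM ?_ hη.le), ?_⟩
  · unfold tExE
    rw [hT₀]
    linarith only [hη2, hε]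
  · rcases le_total (max 0 (max (z'.v + z'.s + z'.N1 (cN (prX (dn q.1)) / κ₀) +
      z'.u1 (cN (prX (dn q.1)) / κ₀) (cu (prX (dn q.1)) 4 / κ₀))
        (5 / 3 * z'.N1 (cN (prX (dn q.1)) / κ₀) +
        2 / 3 * (z'.v + z'.s)) - z'.tE (cN (prX (dn q.1)) / κ₀) (cu (prX (dn q.1)) 4 / κ₀)))
      (z'.v1 / 2) with hc | hc
    · left
      refine k1.trans (fin_T hX1 hTr hXw hlXw hw2 hδM ?_ hη.le)
      obtain ⟨n1, hn1⟩ : ∃ n1, n1 = z'.N1 (cN (prX (dn q.1)) / κ₀) := ⟨_, rfl⟩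
      obtain ⟨Mx, hMx⟩ : ∃ Mx, Mx = max (z'.v + z'.s + z'.N1 (cN (prX (dn q.1)) / κ₀) +
            z'.u1 (cN (prX (dn q.1)) / κ₀) (cu (prX (dn q.1)) 4 / κ₀))
              (5 / 3 * z'.N1 (cN (prX (dn q.1)) / κ₀) + 2 / 3 * (z'.v + z'.s)) := ⟨_, rfl⟩
      have hd0 : z'.d0E (cN (prX (dn q.1)) / κ₀) (cu (prX (dn q.1)) 4 / κ₀) =
          max 0 (Mx - z'.tE (cN (prX (dn q.1)) / κ₀) (cu (prX (dn q.1)) 4 / κ₀)) := by
        unfold Cls.d0E
        rw [hMx]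
        exact min_eq_left hc
      have m0 : Mx - z'.tE (cN (prX (dn q.1)) / κ₀) (cu (prX (dn q.1)) 4 / κ₀) ≤
          z'.d0E (cN (prX (dn q.1)) / κ₀) (cu (prX (dn q.1)) 4 / κ₀) := by
        rw [hd0]; exact le_max_right _ _
      have m1 : z'.v + z'.s + n1 + z'.u1 (cN (prX (dn q.1)) / κ₀)
          (cu (prX (dn q.1)) 4 / κ₀) ≤ Mx := by
        rw [hMx, hn1]; exact le_max_left _ _
      have m2 : 5 / 3 * n1 + 2 / 3 * (z'.v + z'.s) ≤ Mx := by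
        rw [hMx, hn1]; exact le_max_right _ _
      have t1 := hTr.hL
      have t2 := hTr.hN1
      rw [← hn1] at t2
      have m3 := mul_le_mul_of_nonneg_left m0 hκ0.le
      have m4 := mul_le_mul_of_nonneg_left m1 hκ0.le
      have m5 := mul_le_mul_of_nonneg_left m2 hκ0.le
      have mu : min (cu (prX (dn q.1)) 4 + η) ((nl - e) / 3) ≤
          κ₀ * z'.u1 (cN (prX (dn q.1)) / κ₀) (cu (prX (dn q.1)) 4 / κ₀) + 2 * η :=
        u1_le hκ0.le (by rw [eκu]; linarith only [hη]) (by rw [← hn1]; linarith only [t2, hη])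
      have hmx : max (lv + e + (nl - e) + min (cu (prX (dn q.1)) 4 + η) ((nl - e) / 3))
          (5 / 3 * (nl - e) + 2 / 3 * (lv + e)) ≤ κ₀ * Mx + 11 * η :=
        max_le (by linarith only [t1, t2, m4, mu, hη]) (by linarith only [t1, t2, m5, hη])
      have hn10 : 0 ≤ κ₀ * n1 := by
        have g1 := lev_le BX hok
        have g2 := hok.v
        have g3 := hok.s
        rw [← hn1] at g1
        exact mul_nonneg hκ0.le (by linarith only [g1, g2, g3])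
      have hdn : 0 ≤ κ₀ * (2 / 3 * d * n1) := by
        have h9 : 0 ≤ d * (κ₀ * n1) := mul_nonneg hd hn10
        linarith only [h9]
      unfold tExE
      rw [← hn1]
      linarith only [hmx, m3, hdn, hη2, hη, hε]
    · right
      unfold Cls.d0E
      rw [min_eq_right hc]

end Crest.Agent.R017.EnX743
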