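import Crest.Agent.R017.XHiX_266
import Crest.Agent.R017.XUc_743

/-!
# Row 17, StrUX: the `T`-numbers of the large sieve half, class E (helper266)

* **`tnumEX_of`** : `TNumEX` from helper743's `VNE` (= helper743's `tnumE_of`)
-/

set_option autoImplicit false

noncomputable section

namespace Crest.Agent.R017.E4SE266

open Crest.Agent.R012 Crest.Agent.R012.Eis
open Crest.Agent.R017.FE47 (PU)
open Crest.Agent.R017.C70 (OKJ)
open Crest.Agent.R017.B770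
open Crest.Agent.R017.EnX743 (VNE)

/-- **the `T`-numbers of the large sieve half, class E** -/
theorem tnumEX_of {Λ : Type*} {π : Λ → DPar} {h : ℝ → ℝ} {c₀ : ℝ} (hh : PU h c₀) {A d bb : ℝ}
    (hV : VNE π h d) (hd : 0 ≤ d) (hd1 : d ≤ 1 / 42) (hA0 : 2 / 3 ≤ A) (hA : A ≤ 1)
    (hA1 : 16 * (1 - A) ≤ d) (hbb : bb = 17 / 100) (e0 r : ℝ) (Bf : ℕ → ℝ → ℝ → ℝ → ℝ)
    {Jf : ℝ → ℝ → ℝ → Finset (Eis × Eis)} (hJf : ∀ l N z, OKJ (Jf l N z)) :
    TNumEX π h A d bb e0 r Bf Jf :=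
  EnX743.tnumE_of hh hV hd hd1 hA0 hA hA1 hbb e0 r Bf hJf

end Crest.Agent.R017.E4SE266
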