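import Crest.Agent.R017.MXa_744

/-!
# Row 17, class E, x-side: the structured bound with two classes, twist on the test side (helper512)

* `PoHWxp` : helper744's `PoHWx` with the tests of `b ψ` and a support condition `G`
-/

set_option autoImplicit false

noncomputable section

open Complex MeasureTheory
open scoped ComplexConjugate Classical

namespace Crest.Agent.R017.MXp512

open Crest.Agent.R012 Crest.Agent.R012.Eis Crest.Agent.R012.MC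
open Crest.Agent.R012.LS2 (S mem_S bl mem_bl)
open Crest.Agent.R012.NonCube52 (Ker kv Good)
open Crest.Agent.R017.BD829 (TT EQ Win EQ_nonneg)
open Crest.Agent.R017.Mode405
open Crest.Agent.R017.PoHx72
open Crest.Agent.R017.MX744

/-- **the structured bound**, two classes of frequencies, tests of `b ψ`, support `G` -/
def PoHWxp (G : Eis → Prop) (ψ χ : Eis → ℂ) (w : ℝ → ℝ) : Prop :=
  ∀ R : ℝ, 0 ≤ R → ∀ a A : ℕ, 1 < A → ∀ ε : ℝ, 0 < ε → ∃ (C c : ℝ) (J : ℕ), 0 ≤ C ∧ 1 ≤ c ∧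
    ∀ Z N X lam : ℝ, 1 ≤ Z → 0 < N → N ≤ Z → 0 < X → X ≤ Z → 1 ≤ X * Z → 1 ≤ lam → lam ≤ Z →
      lam * Real.exp R < N →
    ∀ ka : Eis, IsPrim ka → (nm ka : ℝ) ≤ Z →
    ∀ {ι : Type} (Q : Finset ι) (b : ι → Eis → ℂ) (Xq : ι → ℝ),
      (∀ q ∈ Q, X / 64 ≤ Xq q ∧ Xq q ≤ X) →
      (∀ q ∈ Q, ∀ n, b q n ≠ 0 → n ∈ S Z) → (∀ q ∈ Q, ∀ n, b q n ≠ 0 → G n) →
      (∀ q ∈ Q, Win (b q) (Real.log N) R) →
    ∀ Pr : ι → Eis → Eis → Prop, (∀ q ∈ Q, PrOK (fun m => b q m * ψ m) (Pr q)) →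
    ∀ W : Bool → ℝ → ℝ, (∀ j, Slp a (W j)) →
      (∀ j γ φ x, Adm (N ^ 2) ka γ φ x → ∀ P : ℝ, 1 ≤ P →
        (nm γ : ℝ) * ∑ q ∈ Q, VIc A (fun m => b q m * ψ m) γ φ 1 P (Cls (Pr q γ) j) ≤
          W j (P * nm x)) →
    ∀ W1 : Bool → ℝ, (∀ j, 0 ≤ W1 j) → (∀ j, W j (c * Il N lam X) ≤ W1 j) →
    ∀ t : ℝ, ∑ q ∈ Q, ∑ κ ∈ KSa lam ka, ‖XS χ w (Xq q) t (b q) κ‖ ^ 2 ≤
      C * Z ^ ε * (1 + |t|) ^ J * ∑ j : Bool, (X * nfx j lam (Il N lam X) * W1 j)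

/-- the predicate of a sequence with smaller support -/
lemma PrOK.anti {b b' : Eis → ℂ} {Pr : Eis → Eis → Prop} (h : PrOK b Pr)
    (hb : ∀ m, b' m ≠ 0 → b m ≠ 0) : PrOK b' Pr where
  cub := h.cub
  hcp D H hD hH hm hP := by
    obtain ⟨m, hm⟩ := hm
    exact h.hcp D H hD hH ⟨m, hb _ hm⟩ hP
  inv := h.inv

end Crest.Agent.R017.MXp512
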