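import Crest.Agent.R017.PoXd_70
import Crest.Agent.R017.MXd_512

/-!
# Row 17, T.7 (class E), cube line, port P1: the structured bound with a Hecke character, both
classes of frequencies, all kernels (helper70)

* `VIc_tw` : the twist by `conj (k/·)` is a change of the frequency, in classes
* **`pohs_wHax`** : `pohs_wHx` for every `ka`
* **`pohwxp_H`** : `PoHWxp (prime to M) (ps χ l₀) (ps χ l₀) w` (helper512's literal)
-/

set_option autoImplicit false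

noncomputable section

open Complex MeasureTheory
open scoped ComplexConjugate Classical ContDiff

namespace Crest.Agent.R017.PoX70

open Crest.Agent.R012 Crest.Agent.R012.Eis Crest.Agent.R012.MC
open Crest.Agent.R012.LS2 (S mem_S bl mem_bl)
open Crest.Agent.R012.Mob705 (mu pdiv mem_pdiv)
open Crest.Agent.R012.Weight600 (osc pw norm_osc)
open Crest.Agent.R012.NonCube52 (Ker kv Good)
open Crest.Agent.R017.CM106 (CS TG)
open Crest.Agent.R017.E1551 (nmpos jb nm_ge_one)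
open Crest.Agent.R017.BD829
open Crest.Agent.R017.End699 (HC)
open Crest.Agent.R017.Mode405 (Slp Il VI XS KSa_sub)
open Crest.Agent.R017.PoH347
open Crest.Agent.R017.PoHx72
open Crest.Agent.R017.MXp512 (PoHWxp)
open Gauss880 (syG)

/-- the twist by `conj (k/·)` is a change of the frequency, class `Qk = Q (k ·)` -/
lemma VIc_tw (A : ℝ) {b : Eis → ℂ} (hb : ∀ n, b n ≠ 0 → IsPrim n) (ψ : Eis → ℂ) (k : Eis) {γ : Eis}
    (hγ : IsPrim γ) (φ : Eis) (P : ℝ) {Q Qk : Eis → Prop} (hQ : ∀ H, Qk H ↔ Q (k * H)) :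
    VIc A (fun m => b m * (ψ m * conj (sy k m))) γ φ 1 P Qk ≤
      VIc A (fun m => b m * ψ m) γ (k * φ) 1 P Q := by
  unfold VIc
  have e0 : (bl P).filter (fun j => Qk (j * φ)) = (bl P).filter (fun j => Q (j * (k * φ))) := by
    refine Finset.filter_congr fun j _ => ?_
    have e2 : j * (k * φ) = k * (j * φ) := by ring
    rw [hQ, e2]
  rw [e0]
  refine Finset.sum_le_sum fun j _ => ?_
  have e1 : (fun m : Eis => if IsCoprime m 1 then b (γ * m) * (ψ (γ * m) * conj (sy k (γ * m)))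
      else 0) = fun m => conj (sy k γ) * ((if IsCoprime m 1 then b (γ * m) * ψ (γ * m) else 0) *
        conj (sy k m)) := by
    funext m
    rw [if_pos isCoprime_one_right, if_pos isCoprime_one_right]
    by_cases h0 : b (γ * m) = 0
    · rw [h0]; ring
    · have hm : IsPrim m := IsPrim.of_mul_left (hb _ h0) hγ
      rw [syG.mul_right _ _ _ hγ hm, map_mul]
      ring
  have e2 : j * (k * φ) = k * (j * φ) := by ring
  rw [e1, EQ_tw A _ (fun m hm => ?_), e2]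
  · have h1 : ‖conj (sy k γ)‖ ^ 2 ≤ 1 := by
      rw [RCLike.norm_conj]
      exact pow_le_one₀ (norm_nonneg _) (Gauss880.norm_sy_le syG hγ)
    exact mul_le_of_le_one_left (EQ_nonneg _ _ _) h1
  · split_ifs at hm with hc
    · exact IsPrim.of_mul_left (hb _ (left_ne_zero_of_mul hm)) hγ
    · exact absurd rfl hm

lemma Cls_mulL (Pr : Eis → Prop) (k : Eis) (j : Bool) (H : Eis) :
    Cls (fun H => Pr (k * H)) j H ↔ Cls Pr j (k * H) := by
  unfold Cls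
  cases j <;> simp

/-- **the structured bound with a Hecke character, all kernels**, both classes of frequencies -/
theorem pohs_wHax {M : Eis} {χ : Eis → ℂ} (hχ : HC M χ) (l₀ : ℤ)
    {w₀ : ℝ → ℝ} (hw : Wgt w₀) {R : ℝ} (hR : 0 ≤ R) {a A : ℕ} (hA : 1 < A) {ε : ℝ} (hε : 0 < ε) :
    ∃ (C c : ℝ) (J : ℕ), 0 ≤ C ∧ 1 ≤ c ∧
    ∀ Z N X lam : ℝ, 1 ≤ Z → 0 < N → N ≤ Z → 0 < X → 1 ≤ X * Z → 1 ≤ lam → lam ≤ Z →
      lam * Real.exp R < N →
    ∀ {ι : Type} (Q : Finset ι) (b : ι → Eis → ℂ) (Xq : ι → ℝ),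
      (∀ q ∈ Q, X / 64 ≤ Xq q ∧ Xq q ≤ X) →
      (∀ q ∈ Q, ∀ n, b q n ≠ 0 → n ∈ S Z) → (∀ q ∈ Q, ∀ n, b q n ≠ 0 → IsCoprime n M) →
      (∀ q ∈ Q, Win (b q) (Real.log N) R) →
    ∀ (ka : Eis) (Pr : ι → Eis → Eis → Prop), (∀ q ∈ Q, ∀ D, D ≠ 0 → Cub (Pr q D)) →
      (∀ q ∈ Q, ∀ D H, IsPrim D → H ≠ 0 → (∃ m, b q (D * m) ≠ 0) → Pr q D H →
        ∃ s t, D ^ 2 * H * s = t ^ 3 ∧ IsCoprime s D) →
    ∀ W : Bool → ℝ → ℝ, (∀ j, Slp a (W j)) →
      (∀ j, HWx j A (N ^ 2) Q (fun q m => b q m * BDh681.ps χ l₀ m) ka Pr (W j)) →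
    ∀ W1 : Bool → ℝ, (∀ j, W j (c * Il N lam X) ≤ W1 j) →
    ∀ t : ℝ, ∑ q ∈ Q, ∑ κ ∈ KSa ka lam, ‖XS (BDh681.ps χ l₀) w₀ (Xq q) t (b q) κ‖ ^ 2 ≤
      C * Z ^ ε * (1 + |t|) ^ J * ∑ j : Bool, (X * nfx j lam (Il N lam X) * W1 j) := by
  have hM := hχ.q0
  set T : Finset (Eis × Eis) := pdiv M ×ˢ pdiv M with hT
  set kk : Eis × Eis → Eis := fun d => d.1 * d.2 ^ 2 with hkk
  have hkT : ∀ d ∈ T, IsPrim (kk d) ∧ kk d ∣ M ^ 3 := by
    intro d hd
    rw [hT, Finset.mem_product, mem_pdiv hM, mem_pdiv hM] at hd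
    refine ⟨hd.1.1.mul (hd.2.1.pow 2), ?_⟩
    have : M ^ 3 = M * M ^ 2 := by ring
    rw [this]
    exact mul_dvd_mul hd.1.2 (pow_dvd_pow_of_dvd hd.2.2 2)
  have H := fun (d : Eis × Eis) (hd : d ∈ T) =>
    pohs_wHx (HC_chs hχ (hkT d hd).1.ne_zero) l₀ hw hR (a := a) hA hε
  choose! Cd cd Jd h0 h1 hmain using H
  have hk1 : ∀ d ∈ T, (1 : ℝ) ≤ nm (kk d) := fun d hd => nm_ge_one (hkT d hd).1.ne_zero
  refine ⟨∑ d ∈ T, Cd d, 1 + ∑ d ∈ T, cd d * nm (kk d), ∑ d ∈ T, Jd d,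
    Finset.sum_nonneg h0, ?_, ?_⟩
  · have : 0 ≤ ∑ d ∈ T, cd d * nm (kk d) := Finset.sum_nonneg fun d hd => by
      have := h1 d hd
      have := hk1 d hd
      positivity
    linarith
  intro Z N X lam hZ hN hNZ hX hXZ hlam hlamZ hlamN ι Q b Xq hXq hb hbM hwb ka Pr hPr hcp W hW hHW
    W1 hW1 t
  have hZ0 : 0 < Z := by linarith
  have hI : 0 < Il N lam X := by unfold Il; positivity
  have ht1 : 1 ≤ 1 + |t| := by linarith [abs_nonneg t]
  set y : Eis := M * (9 * M ^ 3) with hy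
  have hyc : ∀ x : Eis, IsCoprime x M → IsCoprime x y := by
    intro x hx
    have h3 : IsCoprime x 3 := hx.of_isCoprime_of_dvd_right hχ.three
    have e9 : (9 : Eis) = 3 * 3 := by norm_num
    rw [hy, e9]
    exact hx.mul_right ((h3.mul_right h3).mul_right hx.pow_right)
  have hW10 : ∀ j, 0 ≤ W1 j := by
    intro j
    refine ((hW j).nonneg _ ?_).trans (hW1 j)
    have : 0 ≤ ∑ d ∈ T, cd d * nm (kk d) := Finset.sum_nonneg fun d hd => by
      have := h1 d hd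
      have := hk1 d hd
      positivity
    positivity
  set TT : ℝ := ∑ j : Bool, (X * nfx j lam (Il N lam X) * W1 j) with hTT
  have hTT0 : 0 ≤ TT := Finset.sum_nonneg fun j _ =>
    mul_nonneg (mul_nonneg hX.le (nfx_nonneg j (by linarith) hI.le)) (hW10 j)
  -- one part
  have hone : ∀ d ∈ T, ∑ q ∈ Q, ∑ κ ∈ KSa (ka * y) lam,
      ‖XS (BDh681.ps (chs χ (kk d)) l₀) w₀ (Xq q) t (b q) κ‖ ^ 2 ≤
      Cd d * Z ^ ε * (1 + |t|) ^ Jd d * TT := by
    intro d hd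
    obtain ⟨hkp, hkd⟩ := hkT d hd
    have hkn := nmpos hkp.ne_zero
    refine hmain d hd Z N X lam hZ hN hNZ hX hXZ hlam hlamZ hlamN Q b Xq hXq hb ?_ hwb
      (ka * y) ?_ (fun q D H => Pr q D (kk d * H)) ?_ ?_
      (fun j P => W j (nm (kk d) * P)) (fun j => slp_dil (hW j) hkn) ?_ W1 ?_ t
    · intro q hq n hn
      have h3 := hyc n (hbM q hq n hn)
      refine h3.of_isCoprime_of_dvd_right ?_
      exact mul_dvd_mul_left M (mul_dvd_mul_left 9 hkd)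
    · exact dvd_mul_of_dvd_right (mul_dvd_mul_left M (mul_dvd_mul_left 9 hkd)) ka
    · intro q hq D hD
      exact Cub.mul_left' (hPr q hq D hD) hkp.ne_zero
    · intro q hq D H hD hH hm hP
      obtain ⟨s, t', h3, h4⟩ := hcp q hq D (kk d * H) hD (mul_ne_zero hkp.ne_zero hH) hm hP
      obtain ⟨m, hm⟩ := hm
      have h5 : IsCoprime D M := (hbM q hq _ hm).of_mul_left_left
      have h6 : IsCoprime (kk d) D :=
        (h5.pow_right (n := 3)).symm.of_isCoprime_of_dvd_left hkd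
      refine ⟨kk d * s, t', ?_, h6.mul_left h4⟩
      rw [← h3]; ring
    · intro j γ φ x D hγ hc hφ hx hD hDN he P hP
      have h2 := hHW j γ (kk d * φ) (kk d * x) D hγ hc.of_mul_right_left
        (mul_ne_zero hkp.ne_zero hφ) (mul_ne_zero hkp.ne_zero hx) hD hDN
        (by rw [mul_assoc, he]; ring) P hP
      have e1 : P * ((nm (kk d * x) : ℕ) : ℝ) = nm (kk d) * (P * nm x) := by
        rw [nm_mul]; push_cast; ring
      rw [e1] at h2
      refine le_trans (mul_le_mul_of_nonneg_left (Finset.sum_le_sum fun q hq => ?_)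
        (Nat.cast_nonneg _)) h2
      have h3 := VIc_tw A (fun n hn => ((mem_S hZ0.le).1 (hb q hq n hn)).2.1) (BDh681.ps χ l₀)
        (kk d) hγ φ P (Q := Cls (Pr q γ) j) (Qk := Cls (fun H => Pr q γ (kk d * H)) j)
        (Cls_mulL (Pr q γ) (kk d) j)
      refine le_trans (le_of_eq ?_) h3
      congr 1
      funext m
      unfold BDh681.ps chs
      ring
    · intro j
      beta_reduce
      refine le_trans (slp_mono (hW j) (by have := h1 d hd; positivity) ?_) (hW1 j)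
      have h2 : cd d * nm (kk d) ≤ ∑ d ∈ T, cd d * nm (kk d) :=
        Finset.single_le_sum (f := fun d => cd d * (nm (kk d) : ℝ)) (fun d hd => by
          have := h1 d hd
          have := hk1 d hd
          positivity) hd
      calc (nm (kk d) : ℝ) * (cd d * Il N lam X) = (cd d * nm (kk d)) * Il N lam X := by ring
        _ ≤ (1 + ∑ d ∈ T, cd d * nm (kk d)) * Il N lam X := by
            refine mul_le_mul_of_nonneg_right ?_ hI.le
            linarith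
  -- the splitting
  have hsplit : ∀ q ∈ Q, ∑ κ ∈ KSa ka lam, ‖XS (BDh681.ps χ l₀) w₀ (Xq q) t (b q) κ‖ ^ 2 ≤
      ∑ d ∈ T, ∑ κ ∈ KSa (ka * y) lam,
        ‖XS (BDh681.ps (chs χ (kk d)) l₀) w₀ (Xq q) t (b q) κ‖ ^ 2 := by
    intro q _
    have hgood : ∀ κ ∈ KSa ka lam, Good κ := fun κ hκ =>
      (Mode405.mem_KS.mp (Finset.mem_filter.mp hκ).1).1
    set Φ : Ker → (Eis × Eis) × Ker := fun κ => (dM M κ, kM M κ) with hΦ
    set Hf : (Eis × Eis) × Ker → ℝ := fun z =>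
      ‖XS (BDh681.ps (chs χ (kk z.1)) l₀) w₀ (Xq q) t (b q) z.2‖ ^ 2 with hHf
    have hinj : Set.InjOn Φ (KSa ka lam : Set Ker) := by
      intro κ hκ κ' hκ' he
      obtain ⟨e1, e2⟩ := Prod.mk.inj he
      exact kM_inj hM (hgood κ hκ) (hgood κ' hκ') e1 e2
    have e1 : ∑ κ ∈ KSa ka lam, ‖XS (BDh681.ps χ l₀) w₀ (Xq q) t (b q) κ‖ ^ 2 =
        ∑ z ∈ (KSa ka lam).image Φ, Hf z := by
      rw [Finset.sum_image hinj]
      refine Finset.sum_congr rfl fun κ hκ => ?_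
      rw [XS_tw hM χ l₀ w₀ (Xq q) t (b q) (hgood κ hκ)]
    rw [e1]
    have e2 : ∑ d ∈ T, ∑ κ ∈ KSa (ka * y) lam,
        ‖XS (BDh681.ps (chs χ (kk d)) l₀) w₀ (Xq q) t (b q) κ‖ ^ 2 =
        ∑ z ∈ T ×ˢ KSa (ka * y) lam, Hf z := by
      rw [Finset.sum_product T (KSa (ka * y) lam) Hf]
    rw [e2]
    refine Finset.sum_le_sum_of_subset_of_nonneg ?_ fun z _ _ => by rw [hHf]; positivity
    intro z hz
    obtain ⟨κ, hκ, rfl⟩ := Finset.mem_image.mp hz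
    have hg := hgood κ hκ
    refine Finset.mem_product.mpr ⟨Finset.mem_product.mpr ⟨?_, ?_⟩, kM_mem hM hκ hyc⟩
    · exact (pM_spec hM hg.prim1 hg.sqf1).1
    · exact (pM_spec hM hg.prim2 hg.sqf2).1
  calc ∑ q ∈ Q, ∑ κ ∈ KSa ka lam, ‖XS (BDh681.ps χ l₀) w₀ (Xq q) t (b q) κ‖ ^ 2
      ≤ ∑ q ∈ Q, ∑ d ∈ T, ∑ κ ∈ KSa (ka * y) lam,
        ‖XS (BDh681.ps (chs χ (kk d)) l₀) w₀ (Xq q) t (b q) κ‖ ^ 2 := Finset.sum_le_sum hsplit
    _ = ∑ d ∈ T, ∑ q ∈ Q, ∑ κ ∈ KSa (ka * y) lam,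
        ‖XS (BDh681.ps (chs χ (kk d)) l₀) w₀ (Xq q) t (b q) κ‖ ^ 2 := Finset.sum_comm
    _ ≤ ∑ d ∈ T, Cd d * Z ^ ε * (1 + |t|) ^ (∑ d ∈ T, Jd d) * TT := by
        refine Finset.sum_le_sum fun d hd => (hone d hd).trans ?_
        have h2 := h0 d hd
        have h3 : (1 + |t|) ^ Jd d ≤ (1 + |t|) ^ (∑ d ∈ T, Jd d) :=
          pow_le_pow_right₀ ht1 (Finset.single_le_sum (f := Jd) (fun _ _ => Nat.zero_le _) hd)
        gcongr
    _ = _ := by
        simp only [← Finset.sum_mul]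

/-- **the bridge** : the structured bound with two classes of frequencies, Hecke character -/
theorem pohwxp_H {M : Eis} {χ : Eis → ℂ} (hχ : HC M χ) (l₀ : ℤ) {w₀ : ℝ → ℝ} (hw : Wgt w₀) :
    PoHWxp (fun n => IsCoprime n M) (BDh681.ps χ l₀) (BDh681.ps χ l₀) w₀ := by
  intro R hR a A hA ε hε
  obtain ⟨C, c, J, hC, hc, h⟩ := pohs_wHax hχ l₀ hw hR (a := a) hA hε
  refine ⟨C, c, J, hC, hc, ?_⟩
  intro Z N X lam hZ hN hNZ hX hXZ hXZ1 hlam hlamZ hLN ka hka hkaZ ι Q b Xq hXq hbS hbG hbW Pr hPr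
    W hW hWle W1 hW1 hW1le t
  have hZ0 : 0 < Z := by linarith
  have hne : ∀ q ∈ Q, ∀ n, b q n ≠ 0 → b q n * BDh681.ps χ l₀ n ≠ 0 := by
    intro q hq n hn
    refine mul_ne_zero hn fun h0 => ?_
    have h1 := norm_ps_eq hχ l₀ ((mem_S hZ0.le).1 (hbS q hq n hn)).2.1 (hbG q hq n hn)
    rw [h0, norm_zero] at h1
    exact zero_ne_one h1
  refine le_trans ?_ (h Z N X lam hZ hN hNZ hX hXZ1 hlam hlamZ hLN Q b Xq hXq hbS hbG hbW ka
    Pr (fun q hq D hD => (hPr q hq).cub D hD) (fun q hq D H hD hH hm hP => ?_) W hW ?_ W1 hW1le t)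
  · refine Finset.sum_le_sum fun q _ => ?_
    exact Finset.sum_le_sum_of_subset_of_nonneg (KSa_sub lam ka) fun _ _ _ => by positivity
  · obtain ⟨m, hm⟩ := hm
    exact (hPr q hq).hcp D H hD hH ⟨m, hne q hq _ hm⟩ hP
  · intro j γ φ x D hγ hc hφ hx hD hDN he P hP
    exact hWle j γ φ x ⟨hγ, hc, hφ, hx, D, hD, hDN, he⟩ P hP

end Crest.Agent.R017.PoX70
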