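import Crest.Agent.R017.RXm_770

/-!
# Row 17, x-side of E4, class E: the R-test with two numbers at the cells (helper770)

* `RXkx` : helper842's R-test of all the dilations, two classes
* `rxkx_of_RH` : `RXkx` from (RH) in two classes
* **`rx_glueGx`** : `RXkx` at the cells from (RH) in two classes, any sequence
-/

set_option autoImplicit false
set_option linter.unusedVariables false
set_option maxHeartbeats 1600000

noncomputable section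

open Complex MeasureTheory
open scoped ComplexConjugate

namespace Crest.Agent.R017.RXm770

open Crest.Agent.R012 Crest.Agent.R012.Eis Crest.Agent.R012.MC
open Crest.Agent.R012.LS2 (S mem_S bl mem_bl)
open Crest.Agent.R012.GLS106 (dec dec_spec)
open Crest.Agent.R012.Mob705 (pdiv mem_pdiv)
open Crest.Agent.R017.CM106 (CS TG FS)
open Crest.Agent.R017.BD829 (TT EQ EQ_nonneg)
open Crest.Agent.R017.Mode405 (VI bs Slp Mul1)
open Crest.Agent.R017.GrB829 (IsC)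
open Crest.Agent.R017.PX764 (n6)
open Crest.Agent.R017.E3D579 (bF bt b0 n6_nonneg)
open Crest.Agent.R017.R3571
open Crest.Agent.R017.PoHx72
open Crest.Agent.R017.MX744
open Crest.Agent.R017.RXn770 (b0_cube rq rm_rq qg)
open Crest.Agent.R017.E4zz92 (Tu PP PP_prim FF_eq)
open Crest.Agent.R017.E4X92
open Crest.Agent.R017.E4Xb681 (XC cb Nb0 Zc FI cell_FI FF_ne)

/-- **the R-test of all the dilations `κ F = κ₁ y`, two classes** (helper842) -/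
def RXkx (κ₁ : Eis) (ψ : Eis → ℂ) (aS A : ℕ) (c Z Nb₀ ν : ℝ) (R ρ : Eis) (b₀ : Eis → ℂ)
    (W1 : Bool → ℝ) : Prop :=
  ∀ κ F y : Eis, IsPrim κ → IsPrim F → Squarefree (κ * F) → κ * F = κ₁ * y → IsCoprime y R →
    (nm κ : ℝ) ≤ Z ^ 3 → (nm F : ℝ) ≤ Z ^ 5 → ∀ Z' Lt Y : ℝ, Z ≤ Z' → Nb₀ * nm κ ≤ Z' →
      (nm κ : ℝ) ≤ Z' → 1 ≤ Lt → 1 ≤ Y → Nb₀ * nm κ * Lt / Y * (nm F : ℝ) ^ 2 ≤ ν →
      ∃ (Prd : Eis → Eis → Prop) (W : Bool → ℝ → ℝ),
        PrOK (fun m => bF κ F b₀ m * ψ m) Prd ∧ IsPrim κ ∧ (∀ jj, Slp aS (W jj)) ∧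
        (∀ jj γ φ x, Adm ((Nb₀ * nm κ) ^ 2) κ γ φ x → ∀ P : ℝ, 0 < P →
          ∑ e ∈ pdiv (ρ * (κ * F)), (nm e : ℝ)⁻¹ * ((nm γ : ℝ) *
            VIc A (fun m => bs (bF κ F b₀) e m * ψ m) γ φ 1 (nm e * P / nm x)
              (Cls (PrS Prd e γ) jj)) ≤ W jj P) ∧
        ∀ jj, W jj (c * (Nb₀ * nm κ * Lt / Y)) ≤
          W1 jj * (if jj = true then (nm F : ℝ) ^ (-(1 / 3) : ℝ) else 1)

lemma RXkx.mono {κ₁ : Eis} {ψ : Eis → ℂ} {aS A : ℕ} {c Z Nb₀ ν ν' : ℝ} {R ρ : Eis} {b₀ : Eis → ℂ}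
    {W1 : Bool → ℝ} (h : RXkx κ₁ ψ aS A c Z Nb₀ ν' R ρ b₀ W1) (hν : ν ≤ ν') :
    RXkx κ₁ ψ aS A c Z Nb₀ ν R ρ b₀ W1 := by
  intro κ F y h1 h2 h3 h4 h5 k1 k2 Z' Lt Y g1 g2 g3 g4 g5 g6
  exact h κ F y h1 h2 h3 h4 h5 k1 k2 Z' Lt Y g1 g2 g3 g4 g5 (g6.trans hν)

lemma RXkx.mono_W {κ₁ : Eis} {ψ : Eis → ℂ} {aS A : ℕ} {c Z Nb₀ ν : ℝ} {R ρ : Eis} {b₀ : Eis → ℂ}
    {W1 W1' : Bool → ℝ} (h : RXkx κ₁ ψ aS A c Z Nb₀ ν R ρ b₀ W1) (hW : ∀ jj, W1 jj ≤ W1' jj) :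
    RXkx κ₁ ψ aS A c Z Nb₀ ν R ρ b₀ W1' := by
  intro κ F y h1 h2 h3 h4 h5 k1 k2 Z' Lt Y g1 g2 g3 g4 g5 g6
  obtain ⟨Prd, W, a1, a2, a3, a4, a5⟩ := h κ F y h1 h2 h3 h4 h5 k1 k2 Z' Lt Y g1 g2 g3 g4 g5 g6
  refine ⟨Prd, W, a1, a2, a3, a4, fun jj => (a5 jj).trans ?_⟩
  refine mul_le_mul_of_nonneg_right (hW jj) ?_
  split_ifs <;> positivity

lemma VIc_smul (A : ℝ) {c : ℂ} (hc : ‖c‖ ≤ 1) (b : Eis → ℂ) (γ φ : Eis) (P : ℝ) (Q : Eis → Prop) :
    VIc A (fun m => c * b m) γ φ 1 P Q ≤ VIc A b γ φ 1 P Q := by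
  classical
  unfold PoHx72.VIc
  refine Finset.sum_le_sum fun j _ => ?_
  have e1 : (fun m : Eis => if IsCoprime m 1 then c * b (γ * m) else 0) =
      fun m => c * (if IsCoprime m 1 then b (γ * m) else 0) := by
    funext m
    rw [if_pos isCoprime_one_right, if_pos isCoprime_one_right]
  rw [e1, E3D579.EQ_smul]
  exact mul_le_of_le_one_left (EQ_nonneg _ _ _) (pow_le_one₀ (norm_nonneg _) hc)

/-- the factor of the class -/
def fU (jj : Bool) (u : Eis) : ℝ := if jj = true then (nm u : ℝ) ^ 3 else 1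

lemma fU_pos (jj : Bool) {u : Eis} (hu : u ≠ 0) : 0 < fU jj u := by
  have h1 := nm_cast_pos hu
  unfold fU
  split_ifs <;> positivity

lemma fU_le (jj : Bool) {u : Eis} (hu : u ≠ 0) : fU jj u ≤ (nm u : ℝ) ^ 3 := by
  have h1 := one_le_nm hu
  unfold fU
  split_ifs
  · exact le_rfl
  · exact one_le_pow₀ h1

open Classical in
/-- **the R-test from (RH), two classes** -/
theorem rxkx_of_RH {A : ℕ} (hA : 1 < A) {ε : ℝ} (hε : 0 < ε) : ∃ C : ℝ, 0 ≤ C ∧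
    ∀ Z : ℝ, 1 ≤ Z → ∀ ψ : Eis → ℂ, Mul1 ψ →
    ∀ a : Eis → ℂ, FS a → (∀ n, a n ≠ 0 → Squarefree n) →
    ∀ u : Eis, u ≠ 0 → (∀ n, a n ≠ 0 → IsCoprime n u) →
    ∀ d e q g κ₁ c : Eis, IsPrim d → IsPrim e → IsPrim q → IsPrim g → IsC c →
    (nm q : ℝ) ≤ Z → (nm g : ℝ) ≤ Z → ∀ Nb : ℝ, 0 < Nb → Nb ≤ Z →
    ∀ (aS : ℕ) (W0 : Bool → ℝ → ℝ), (∀ jj, Slp aS (W0 jj)) →
      (∀ jj γ π, IsPrim γ → IsPrim π → (nm π : ℝ) ≤ Z ^ 50 → ∀ P : ℝ, 0 < P →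
        (nm γ : ℝ) * n6 γ ^ 2 * ∑ r ∈ (bl P).filter (Cls (Pu u) jj),
          RMm A (fun n => a n * conj (ψ n)) e γ π r ≤ W0 jj P) →
    ∀ (cc ν : ℝ) (R : Eis) (W1 : Bool → ℝ), 0 < cc → 0 < ν →
      (∀ jj, C * Z ^ ε * W0 jj (81 * (cc * ν * ((nm q : ℝ) ^ 2 * nm g)) * fU jj u) ≤ W1 jj) →
      RXkx κ₁ ψ aS A cc Z Nb ν R 1 (b0 a d e (q * c * g ^ 2)) W1 := by
  obtain ⟨C, hC, h⟩ := hWx_of_f (A := (A : ℝ)) (by exact_mod_cast hA) (ε := ε / 10) (by positivity)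
  refine ⟨C, hC, ?_⟩
  intro Z hZ ψ hψ a ha hsf u hu0 hau d e q g κ₁ c hd he hq hg hc hqZ hgZ Nb hNb hNbZ aS W0 hW0 hRH
    cc ν R W1 hcc hν0 hW1 κ F y hκ hF hsq hy hyR hκZ hFZ Z' Lt Y hZZ' hNκ hκZ' hLt hY hν
  have hZ0 : 0 < Z := by linarith
  have hκn := nm_cast_pos hκ.ne_zero
  have hFn := nm_cast_pos hF.ne_zero
  have hqn := nm_cast_pos hq.ne_zero
  have hgn := nm_cast_pos hg.ne_zero
  have hun := nm_cast_pos hu0
  have hF1 := one_le_nm hF.ne_zero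
  have hFs : Squarefree F := hsq.of_mul_right
  set a' : Eis → ℂ := fun n => a n * conj (ψ n) with ha'
  have hFa' : FS a' := E3D579.FS.mul_right ha _
  have hsf' : ∀ n, a' n ≠ 0 → Squarefree n := fun n hn => hsf n (left_ne_zero_of_mul hn)
  have hau' : ∀ n, a' n ≠ 0 → IsCoprime n u := fun n hn => hau n (left_ne_zero_of_mul hn)
  have hf0 : q * c * g ^ 2 ≠ 0 := mul_ne_zero (mul_ne_zero hq.ne_zero (c_ne hc))
    (pow_ne_zero _ hg.ne_zero)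
  set s : Bool → ℝ := fun jj => 81 * (sU jj u F * ((nm q : ℝ) ^ 2 * nm g)) with hs
  have hs0 : ∀ jj, 0 < s jj := fun jj => by
    have := sU_pos jj hu0 hF.ne_zero
    rw [hs]; positivity
  have hnm : (nm (q * g * κ * F) : ℝ) ≤ Z ^ 10 := by
    simp only [nm_mul]
    push_cast
    calc (nm q : ℝ) * nm g * nm κ * nm F ≤ Z * Z * Z ^ 3 * Z ^ 5 := by gcongr
      _ = Z ^ 10 := by ring
  have hZ10 : 1 ≤ Z ^ 10 := one_le_pow₀ hZ
  have hc0 : 0 ≤ C * Z ^ ε := by positivity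
  refine ⟨PrD (q * c * g ^ 2) F u, fun jj P => C * Z ^ ε * W0 jj (s jj * P),
    prD_ok hf0 hF.ne_zero hu0 _, hκ, ?_, ?_, ?_⟩
  · intro jj
    have h1 := PoH347.slp_dil (hW0 jj) (hs0 jj)
    refine ⟨fun P hP => mul_nonneg hc0 (h1.nonneg P hP), fun P' P hP' hPP => ?_, fun P hP => ?_⟩
    · have h2 := mul_le_mul_of_nonneg_left (h1.low P' P hP' hPP) hc0
      refine h2.trans (le_of_eq ?_)
      ring
    · have h2 := mul_le_mul_of_nonneg_left (h1.dbl P hP) hc0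
      refine h2.trans (le_of_eq ?_)
      ring
  · rintro jj γ φ x ⟨hγ, hγκ, hφ, hx, C3, hC3, hC3N, hid⟩ P hP
    have hxn := nm_cast_pos hx
    have hC3Z : (nm C3 : ℝ) ≤ (Z ^ 10) ^ 2 := by
      refine hC3N.trans ?_
      have h1 : Nb * nm κ ≤ Z ^ 4 := by
        calc Nb * nm κ ≤ Z * Z ^ 3 := by gcongr
          _ = Z ^ 4 := by ring
      calc (Nb * nm κ) ^ 2 ≤ (Z ^ 4) ^ 2 := pow_le_pow_left₀ (by positivity) h1 2
        _ ≤ (Z ^ 10) ^ 2 := pow_le_pow_left₀ (by positivity)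
            (pow_le_pow_right₀ hZ (by norm_num)) 2
    have h1 := h (Z ^ 10) hZ10 a' hFa' hsf' u hu0 hau' d e q g κ F c hd he hq hg hκ hF hFs hc hnm
      jj (W0 jj) (fun γ π h1 h2 h3 => hRH jj γ π h1 h2 (h3.trans (le_of_eq (by ring)))) γ φ x C3 hγ
      hγκ hφ hx hC3 hid hC3Z P hP
    have e0 : (Z ^ 10) ^ (ε / 10) = Z ^ ε := by
      rw [← Real.rpow_natCast, ← Real.rpow_mul hZ0.le]
      congr 1; push_cast; ring
    rw [e0] at h1
    have e1 : 81 * (P * (sU jj u F * (nm q : ℝ) ^ 2 * nm g)) = s jj * P := by rw [hs]; ring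
    rw [e1] at h1
    refine le_trans ?_ h1
    rw [one_mul]
    refine Finset.sum_le_sum fun s _ => ?_
    refine mul_le_mul_of_nonneg_left ?_ (by positivity)
    rw [RXt347.bF_psi hψ hκ ha]
    refine mul_le_mul_of_nonneg_left ?_ (Nat.cast_nonneg _)
    exact VIc_smul _ (hψ.le κ hκ) _ _ _ _ _
  · intro jj
    have hY0 : 0 < Y := by linarith
    have hLt0 : 0 < Lt := by linarith
    have hI0 : 0 < Nb * nm κ * Lt / Y := by positivity
    set I := Nb * nm κ * Lt / Y with hI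
    set Pm : ℝ := 81 * (cc * ν * ((nm q : ℝ) ^ 2 * nm g)) * fU jj u with hPm
    have hfu := fU_pos jj hu0
    have hPm0 : 0 < Pm := by positivity
    have hWP := (hW0 jj).nonneg Pm hPm0
    have hIF : I ≤ ν / (nm F : ℝ) ^ 2 := by
      rw [le_div_iff₀ (by positivity)]
      exact hν
    have hkey : W0 jj (s jj * (cc * I)) ≤
        W0 jj Pm * (if jj = true then (nm F : ℝ) ^ (-(1 / 3) : ℝ) else 1) := by
      cases jj with
      | false =>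
        rw [if_neg (by simp), mul_one]
        refine PoH347.slp_mono (hW0 false) (by have := hs0 false; positivity) ?_
        have e1 : s false * (cc * I) = 81 * (cc * (I * (nm F : ℝ) ^ 2) * ((nm q : ℝ) ^ 2 * nm g)) := by
          rw [hs]
          unfold sU
          simp only [Bool.false_eq_true, if_false]
          ring
        have e2 : Pm = 81 * (cc * ν * ((nm q : ℝ) ^ 2 * nm g)) := by
          rw [hPm]
          unfold fU
          simp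
        rw [e1, e2]
        gcongr
      | true =>
        rw [if_pos rfl]
        have hle : s true * (cc * I) ≤ Pm / (nm F : ℝ) ^ 3 := by
          have e1 : s true * (cc * I) =
              81 * (cc * I * ((nm q : ℝ) ^ 2 * nm g)) * (nm u : ℝ) ^ 3 / nm F := by
            rw [hs]
            unfold sU
            simp only [if_true]
            ring
          have e2 : Pm / (nm F : ℝ) ^ 3 =
              81 * (cc * (ν / (nm F : ℝ) ^ 2) * ((nm q : ℝ) ^ 2 * nm g)) * (nm u : ℝ) ^ 3 /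
                nm F := by
            rw [hPm]
            unfold fU
            simp only [if_true]
            field_simp
          rw [e1, e2]
          gcongr
        have hlt : s true * (cc * I) ≤ Pm := hle.trans (div_le_self hPm0.le (one_le_pow₀ hF1))
        have h0 : 0 < s true * (cc * I) := by have := hs0 true; positivity
        refine ((hW0 true).low _ _ h0 hlt).trans ?_
        rw [mul_comm]
        refine mul_le_mul_of_nonneg_left ?_ hWP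
        have h1 : s true * (cc * I) / Pm ≤ (nm F : ℝ) ^ (-1 : ℝ) := by
          rw [Real.rpow_neg_one, div_le_iff₀ hPm0]
          refine hle.trans ?_
          rw [div_eq_mul_inv, mul_comm]
          refine mul_le_mul_of_nonneg_right ?_ hPm0.le
          exact inv_anti₀ hFn (le_self_pow₀ hF1 (by norm_num))
        calc (s true * (cc * I) / Pm) ^ (1 / 3 : ℝ) ≤ ((nm F : ℝ) ^ (-1 : ℝ)) ^ (1 / 3 : ℝ) :=
              Real.rpow_le_rpow (by positivity) h1 (by norm_num)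
          _ = (nm F : ℝ) ^ (-(1 / 3) : ℝ) := by
              rw [← Real.rpow_mul hFn.le]; norm_num
    have hif : (0 : ℝ) ≤ (if jj = true then (nm F : ℝ) ^ (-(1 / 3) : ℝ) else 1) := by
      split_ifs <;> positivity
    calc C * Z ^ ε * W0 jj (s jj * (cc * I))
        ≤ C * Z ^ ε * (W0 jj Pm * (if jj = true then (nm F : ℝ) ^ (-(1 / 3) : ℝ) else 1)) :=
          mul_le_mul_of_nonneg_left hkey hc0
      _ = C * Z ^ ε * W0 jj Pm * (if jj = true then (nm F : ℝ) ^ (-(1 / 3) : ℝ) else 1) := by ring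
      _ ≤ _ := mul_le_mul_of_nonneg_right (hW1 jj) hif

open Classical in
/-- **(RH) of one sequence, two classes** -/
def RHx (A : ℕ) (K X : ℝ) (α ψ : Eis → ℂ) (u D e : Eis) (W0 : Bool → ℝ → ℝ) : Prop :=
  ∀ (jj : Bool) (γ φ : Eis), IsPrim γ → IsPrim φ → (nm φ : ℝ) ≤ X ^ (51 * K) → ∀ P : ℝ, 0 < P →
    (nm γ : ℝ) * n6 γ ^ 2 * ∑ k ∈ (bl P).filter (Cls (Pu u) jj),
      RMm A (fun m => α (D * m) * conj (ψ m)) e γ φ k ≤ W0 jj P

lemma RHx.mono {A : ℕ} {K K' X : ℝ} {α ψ : Eis → ℂ} {u D e : Eis} {W0 : Bool → ℝ → ℝ} (hX : 1 ≤ X)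
    (hK : K' ≤ K) (h : RHx A K X α ψ u D e W0) : RHx A K' X α ψ u D e W0 :=
  fun jj γ φ h1 h2 h3 => h jj γ φ h1 h2
    (h3.trans (Real.rpow_le_rpow_of_exponent_le hX (by linarith)))

/-- **the R-test from (RH)** -/
theorem rx_numGx {ε : ℝ} (hε : 0 < ε) {K : ℝ} (hK : 0 < K) {A : ℕ} (hA1 : 1 < A) {cc : ℝ}
    (hcc : 0 < cc) {u : Eis} (hu0 : u ≠ 0) :
    ∃ X₀ : ℝ, 1 < X₀ ∧ ∀ X : ℝ, X₀ ≤ X →
      ∀ (ψ α : Eis → ℂ), Mul1 ψ → FS α → (∀ n, α n ≠ 0 → Squarefree n) →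
      (∀ n, α n ≠ 0 → IsCoprime n u) →
      ∀ D e q g r κ₁ c : Eis, IsPrim D → IsPrim e → IsPrim q → IsPrim g → IsPrim r → IsC c →
      ∀ Z : ℝ, 1 ≤ Z → Z ≤ X ^ K → (nm q : ℝ) ≤ Z → (nm g : ℝ) ≤ Z → (nm r : ℝ) ≤ Z →
      ∀ Nb : ℝ, 0 < Nb → Nb ≤ Z → ∀ (ν i : ℝ) (R : Eis) (W1 : Bool → ℝ), 0 < ν →
      ν * ((nm q : ℝ) ^ 2 * nm g) ≤ X ^ i →
      ∀ (aS : ℕ) (W0 : Bool → ℝ → ℝ), (∀ jj, Slp aS (W0 jj)) → RHx A K X α ψ u D e W0 →
      (∀ jj, X ^ ε * W0 jj (X ^ (i + ε)) ≤ W1 jj) →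
      RXkx κ₁ ψ aS A cc Z Nb ν R 1
        (b0 (fun m => α (D * m)) D e (q * c * g ^ 2 * r ^ 3)) W1 := by
  classical
  obtain ⟨C, hC, H2⟩ := rxkx_of_RH hA1 (show 0 < ε / (2 * K) by positivity)
  have hun := nm_cast_pos hu0
  set C' : ℝ := max 1 (max C (81 * cc * (nm u : ℝ) ^ 3)) with hC'
  have hC'1 : 1 ≤ C' := le_max_left _ _
  have hC'0 : 0 < C' := by linarith
  refine ⟨max 2 (Real.exp (Real.log C' / (ε / 2))), lt_of_lt_of_le (by norm_num) (le_max_left _ _),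
    ?_⟩
  intro X hX ψ α hψ hα hsf hau D e q g r κ₁ c hDp he hq hg hr hc Z hZ hZK hqZ hgZ hrZ Nb hNb hNbZ ν
    i R W1 hν hi aS W0 hW0 hRH hW1
  have h2X : 2 ≤ X := (le_max_left _ _).trans hX
  have hX1 : 1 < X := by linarith
  have hX0 : 0 < X := by linarith
  have hε2 : 0 < ε / 2 := by positivity
  have hCX : C' ≤ X ^ (ε / 2) := by
    have h1 : Real.log C' / (ε / 2) ≤ Real.log X :=
      (Real.le_log_iff_exp_le hX0).2 ((le_max_right _ _).trans hX)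
    rw [div_le_iff₀ hε2] at h1
    rw [← Real.exp_log hC'0, Real.rpow_def_of_pos hX0]
    exact Real.exp_le_exp.2 (by linarith)
  have hqn := nm_cast_pos hq.ne_zero
  have hgn := nm_cast_pos hg.ne_zero
  set m0 : ℝ := ν * ((nm q : ℝ) ^ 2 * nm g) with hm0
  have hm00 : 0 < m0 := by positivity
  have h81 : 81 * cc * (nm u : ℝ) ^ 3 ≤ X ^ (ε / 2) :=
    ((le_max_right _ _).trans (le_max_right _ _)).trans hCX
  have hFD : FS (fun m => α (D * m)) := hα.sub hDp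
  rw [b0_cube _ (fun m hm => hFD.prim m hm)]
  have hFr : FS (rq r D fun m => α (D * m)) := by
    refine ⟨hFD.fin.subset fun m hm h0 => hm ?_, fun m hm => hFD.prim m fun h0 => hm ?_⟩
    · unfold rq
      beta_reduce
      rw [show α (D * m) = 0 from h0, ite_self]
    · unfold rq
      beta_reduce
      rw [h0, ite_self]
  refine H2 Z hZ ψ hψ (rq r D fun m => α (D * m)) hFr (fun n hn => ?_) u hu0 (fun n hn => ?_) D e
    q g κ₁ c hDp he hq hg hc hqZ hgZ Nb hNb hNbZ aS W0 hW0 (fun jj γ φ hγ hφ hφZ P hPP => ?_) cc ν R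
    W1 hcc hν (fun jj => ?_)
  · refine (hsf (D * n) fun h0 => hn ?_).of_mul_right
    unfold rq
    beta_reduce
    rw [h0, ite_self]
  · refine (hau (D * n) fun h0 => hn ?_).of_mul_left_right
    unfold rq
    beta_reduce
    rw [h0, ite_self]
  · have hφK : (nm (φ * r) : ℝ) ≤ X ^ (51 * K) := by
      rw [nm_mul]
      push_cast
      calc (nm φ : ℝ) * nm r ≤ (X ^ K) ^ 50 * X ^ K := by
            have h1 : (nm φ : ℝ) ≤ (X ^ K) ^ 50 :=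
              hφZ.trans (pow_le_pow_left₀ (by linarith) hZK 50)
            have h2 := hrZ.trans hZK
            gcongr
        _ = X ^ (K * 50 + K) := by
            rw [Real.rpow_add hX0, Real.rpow_mul hX0.le]; norm_cast
        _ ≤ X ^ (51 * K) := Real.rpow_le_rpow_of_exponent_le hX1.le (by linarith)
    refine le_trans ?_ (hRH jj γ (φ * r) hγ (hφ.mul hr) hφK P hPP)
    refine mul_le_mul_of_nonneg_left (Finset.sum_le_sum fun k _ => ?_) ?_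
    · exact rm_rq _ _ _ _ _ _ _ _ _
    · have := n6_nonneg γ
      positivity
  · refine le_trans ?_ (hW1 jj)
    have hfu := fU_pos jj hu0
    have hP1 : 81 * (cc * ν * ((nm q : ℝ) ^ 2 * nm g)) * fU jj u ≤ X ^ (i + ε) := by
      calc 81 * (cc * ν * ((nm q : ℝ) ^ 2 * nm g)) * fU jj u = 81 * cc * fU jj u * m0 := by
            rw [hm0]; ring
        _ ≤ 81 * cc * (nm u : ℝ) ^ 3 * m0 := by
            have := fU_le jj hu0
            gcongr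
        _ ≤ X ^ (ε / 2) * X ^ i := by gcongr
        _ = X ^ (ε / 2 + i) := (Real.rpow_add hX0 _ _).symm
        _ ≤ X ^ (i + ε) := Real.rpow_le_rpow_of_exponent_le hX1.le (by linarith)
    have hP0 : 0 < 81 * (cc * ν * ((nm q : ℝ) ^ 2 * nm g)) * fU jj u := by positivity
    have hPP : 0 < X ^ (i + ε) := by positivity
    have hWm : W0 jj (81 * (cc * ν * ((nm q : ℝ) ^ 2 * nm g)) * fU jj u) ≤
        W0 jj (X ^ (i + ε)) := by
      refine ((hW0 jj).low _ _ hP0 hP1).trans ?_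
      refine mul_le_of_le_one_left ((hW0 jj).nonneg _ hPP) ?_
      exact Real.rpow_le_one (by positivity) ((div_le_one hPP).2 hP1) (by norm_num)
    have hZε : Z ^ (ε / (2 * K)) ≤ X ^ (ε / 2) := by
      calc Z ^ (ε / (2 * K)) ≤ (X ^ K) ^ (ε / (2 * K)) :=
            Real.rpow_le_rpow (by linarith) hZK (by positivity)
        _ = X ^ (ε / 2) := by
            rw [← Real.rpow_mul hX0.le]
            congr 1
            field_simp
    have hCC : C ≤ X ^ (ε / 2) := ((le_max_left _ _).trans (le_max_right _ _)).trans hCX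
    have hW00 : 0 ≤ W0 jj (X ^ (i + ε)) := (hW0 jj).nonneg _ hPP
    have hW01 := (hW0 jj).nonneg _ hP0
    have hZ0 : 0 < Z := by linarith
    calc C * Z ^ (ε / (2 * K)) * W0 jj (81 * (cc * ν * ((nm q : ℝ) ^ 2 * nm g)) * fU jj u)
        ≤ X ^ (ε / 2) * X ^ (ε / 2) * W0 jj (X ^ (i + ε)) := by
          refine mul_le_mul (mul_le_mul hCC hZε (by positivity) (by positivity)) hWm hW01
            (by positivity)
      _ = X ^ ε * W0 jj (X ^ (i + ε)) := by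
          rw [← Real.rpow_add hX0]
          congr 2
          ring

/-- **`RXkx` at the cells from (RH) in two classes**, any sequence -/
theorem rx_glueGx {ε : ℝ} (hε : 0 < ε) {K : ℝ} (hK : 1 ≤ K) {A : ℕ} (hA1 : 1 < A) {cc R₀ : ℝ}
    (hcc : 0 < cc) {u : Eis} (hu0 : u ≠ 0) :
    ∃ X₀ : ℝ, 1 < X₀ ∧ ∀ X : ℝ, X₀ ≤ X →
      ∀ (x : XF) (a : Tu) (Nα Rw : ℝ), FS x.α → (∀ n, x.α n ≠ 0 → Squarefree n) →
      (∀ n, x.α n ≠ 0 → IsCoprime n u) →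
      IsC x.c₀ → IsPrim x.e₀ → x.Y ≤ X ^ K → XC x a Nα Rw →
      ∀ ψ : Eis → ℂ, Mul1 ψ →
      ∀ (nδ nμ : ℕ) (i : Eis × Eis), i ∈ x.cell a nδ nμ → ∀ (ν ih : ℝ) (W1 : Bool → ℝ), 0 < ν →
      ν * qg (PP (x.Sf a.q) x.g₁ a.ν (a.us * a.τ)) ≤ X ^ ih →
      ∀ (aS : ℕ) (W0 : Bool → ℝ → ℝ), (∀ jj, Slp aS (W0 jj)) →
      RHx A (37 * K) X x.α ψ u (x.g₂ * (a.w * (a.g * i.1))) x.e₀ W0 →
      (∀ jj, X ^ ε * W0 jj (X ^ (ih + ε)) ≤ W1 jj) →
      RXkx (a.h * a.u) ψ aS A cc (Zc R₀ x.Y ^ 3) (Nb0 x a Nα i.1) ν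
        (x.Rr a i) 1 (cb x a i.1) W1 := by
  classical
  have hK0 : 0 < K := by linarith
  obtain ⟨X₁, hX₁, H2⟩ := rx_numGx hε (K := 37 * K) (by linarith) hA1 hcc hu0
  set C' : ℝ := max 2 ((Real.exp R₀ + 16) ^ 3) with hC'
  refine ⟨max X₁ C', lt_of_lt_of_le hX₁ (le_max_left _ _), ?_⟩
  intro X hX x a Nα Rw hαF hαs hαu hc₀ he₀ hYK hx ψ hψ nδ nμ i hi ν ih W1 hν hih aS W0 hW0 hRH hW1
  have hXX : X₁ ≤ X := (le_max_left _ _).trans hX
  have hX1 : 1 < X := lt_of_lt_of_le hX₁ hXX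
  have hX0 : 0 < X := by linarith
  have hCX : C' ≤ X := (le_max_right _ _).trans hX
  have hRX : (Real.exp R₀ + 16) ^ 3 ≤ X := (le_max_right _ _).trans hCX
  have hY1 := hx.Y1
  have hfi := cell_FI hx hi
  have hFne := FF_ne hfi
  have hσ : IsPrim (a.us * a.τ) := hx.hs.hus.mul hx.τ
  have hFe : x.FFa a = x.c₀ * PP (x.Sf a.q) x.g₁ a.ν (a.us * a.τ) := by
    unfold XF.FFa
    rw [FF_eq]
  set Pq' := PP (x.Sf a.q) x.g₁ a.ν (a.us * a.τ) with hPq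
  have hP0 : Pq' ≠ 0 := fun h0 => hFne (by rw [hFe, h0, mul_zero])
  have hPp : IsPrim Pq' := PP_prim hx.S hx.g1 hx.ν hσ hP0
  obtain ⟨p1, p2, p3, s1, s2, hcc', hdec⟩ := dec_spec hPp
  set D : Eis := x.g₂ * (a.w * (a.g * i.1)) with hDd
  have hDp : IsPrim D := hx.g2.mul (hx.hs.hw.mul hfi.gδ)
  have hn1 : ∀ {y : Eis}, y ≠ 0 → (1 : ℝ) ≤ nm y := fun hy => by exact_mod_cast nm_pos.2 hy
  have nD := hn1 hDp.ne_zero
  have nu := hn1 hx.hs.hu.ne_zero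
  have nh := hn1 hx.h.ne_zero
  have nF := hn1 hFne
  have hnn := hfi.nn
  unfold XF.nn at hnn
  have hpos : (0 : ℝ) < nm (x.FFa a) * (nm D : ℝ) ^ 2 * (nm a.u * nm a.h) := by positivity
  rw [← hDd, div_le_div_iff₀ (by norm_num) hpos] at hnn
  have hPY : (nm Pq' : ℝ) ≤ 2 * x.Y := by
    have h1 : (nm Pq' : ℝ) ≤ nm (x.FFa a) := by
      rw [hFe, nm_mul]
      push_cast
      exact le_mul_of_one_le_left (Nat.cast_nonneg _) (hn1 hx.c0)
    have h2 : (nm (x.FFa a) : ℝ) * (nm D : ℝ) ^ 2 * (nm a.u * nm a.h) ≤ 2 * x.Y := by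
      have := hx.VY
      linarith
    refine h1.trans (le_trans ?_ h2)
    calc (nm (x.FFa a) : ℝ) = nm (x.FFa a) * 1 * (1 * 1) := by ring
      _ ≤ _ := by
          have h12 : (1 : ℝ) ≤ (nm D : ℝ) ^ 2 := one_le_pow₀ nD
          gcongr
  have hZc : 2 * x.Y ≤ Zc R₀ x.Y ^ 3 := by
    have h0 : 16 * x.Y ≤ Zc R₀ x.Y := by
      unfold E4Xb681.Zc
      have h1 : x.Y ≤ x.Y ^ 12 := le_self_pow₀ hY1 (by norm_num)
      have h2 := Real.exp_pos R₀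
      have h3 : (16 : ℝ) ≤ Real.exp R₀ + 16 := by linarith
      gcongr
    have h1 : (1 : ℝ) ≤ Zc R₀ x.Y := by linarith
    have h2 : Zc R₀ x.Y ≤ Zc R₀ x.Y ^ 3 := le_self_pow₀ h1 (by norm_num)
    linarith
  have hZ1 : 1 ≤ Zc R₀ x.Y ^ 3 := by linarith
  have hZK : Zc R₀ x.Y ^ 3 ≤ X ^ (37 * K) := by
    unfold E4Xb681.Zc
    rw [mul_pow, ← pow_mul]
    calc (Real.exp R₀ + 16) ^ 3 * x.Y ^ (12 * 3) ≤ X * (X ^ K) ^ (12 * 3) := by
          have := pow_le_pow_left₀ (by linarith : (0 : ℝ) ≤ x.Y) hYK (12 * 3)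
          gcongr
      _ = X ^ (1 + K * 36) := by
          rw [Real.rpow_add hX0, Real.rpow_one, Real.rpow_mul hX0.le]
          norm_cast
      _ ≤ _ := Real.rpow_le_rpow_of_exponent_le hX1.le (by linarith)
  have hPe : (nm Pq' : ℝ) = nm (dec Pq').1 * (nm (dec Pq').2.1 : ℝ) ^ 2 *
      (nm (dec Pq').2.2 : ℝ) ^ 3 := by
    conv_lhs => rw [hdec]
    rw [nm_mul, nm_mul, nm_pow, nm_pow]
    push_cast
    ring
  have nq := hn1 p1.ne_zero
  have ng := hn1 p2.ne_zero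
  have nr := hn1 p3.ne_zero
  have ng2 : (nm (dec Pq').2.1 : ℝ) ≤ (nm (dec Pq').2.1 : ℝ) ^ 2 := le_self_pow₀ ng (by norm_num)
  have nr3 : (nm (dec Pq').2.2 : ℝ) ≤ (nm (dec Pq').2.2 : ℝ) ^ 3 := le_self_pow₀ nr (by norm_num)
  have hqY : (nm (dec Pq').1 : ℝ) ≤ Zc R₀ x.Y ^ 3 := by
    refine le_trans ?_ (hPY.trans hZc)
    rw [hPe]
    calc (nm (dec Pq').1 : ℝ) = nm (dec Pq').1 * 1 * 1 := by ring
      _ ≤ _ := by
          have h1 : (1 : ℝ) ≤ (nm (dec Pq').2.1 : ℝ) ^ 2 := one_le_pow₀ ng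
          have h2 : (1 : ℝ) ≤ (nm (dec Pq').2.2 : ℝ) ^ 3 := one_le_pow₀ nr
          gcongr
  have hgY : (nm (dec Pq').2.1 : ℝ) ≤ Zc R₀ x.Y ^ 3 := by
    refine le_trans ?_ (hPY.trans hZc)
    rw [hPe]
    calc (nm (dec Pq').2.1 : ℝ) = 1 * nm (dec Pq').2.1 * 1 := by ring
      _ ≤ _ := by
          have h2 : (1 : ℝ) ≤ (nm (dec Pq').2.2 : ℝ) ^ 3 := one_le_pow₀ nr
          gcongr
  have hrY : (nm (dec Pq').2.2 : ℝ) ≤ Zc R₀ x.Y ^ 3 := by
    refine le_trans ?_ (hPY.trans hZc)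
    rw [hPe]
    calc (nm (dec Pq').2.2 : ℝ) = 1 * 1 * nm (dec Pq').2.2 := by ring
      _ ≤ _ := by
          have h1 : (1 : ℝ) ≤ (nm (dec Pq').2.1 : ℝ) ^ 2 := one_le_pow₀ ng
          gcongr
  have hNb0 : 0 < Nb0 x a Nα i.1 := by
    unfold E4Xb681.Nb0
    rw [← hDd]
    have := hx.Nα0
    positivity
  have hNbY : Nb0 x a Nα i.1 ≤ Zc R₀ x.Y ^ 3 := by
    unfold E4Xb681.Nb0
    rw [← hDd]
    have h1 : Nα / nm D ≤ Nα := div_le_self hx.Nα0.le nD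
    have := hx.NαY
    linarith
  have hkey := H2 X hXX ψ x.α hψ hαF hαs hαu D x.e₀ (dec Pq').1
    (dec Pq').2.1 (dec Pq').2.2 (a.h * a.u) x.c₀ hDp he₀ p1 p2 p3 hc₀
    (Zc R₀ x.Y ^ 3) hZ1 hZK hqY hgY hrY (Nb0 x a Nα i.1) hNb0 hNbY ν ih (x.Rr a i) W1 hν
    hih aS W0 hW0 hRH hW1
  have e1 : cb x a i.1 = b0 (fun m => x.α (D * m)) D x.e₀
      ((dec Pq').1 * x.c₀ * (dec Pq').2.1 ^ 2 * (dec Pq').2.2 ^ 3) := by
    unfold E4Xb681.cb
    rw [← hDd, hFe]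
    congr 1
    conv_lhs => rw [hdec]
    ring
  rw [e1]
  exact hkey

end Crest.Agent.R017.RXm770
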