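import Crest.Agent.R017.E3qx16_842
import Crest.Agent.R017.MXpc_512
import Crest.Agent.R017.RXma_770

/-!
# Row 17, x-side of E4, class E: `RXkx → RMk` (helper842)

* **`rmk_of_rxk`** : the modes of all the dilations from the R-test with two numbers, helper512's
  `modeExp_MB`
-/

set_option autoImplicit false
set_option linter.unusedVariables false
set_option maxHeartbeats 1000000

noncomputable section

open Complex MeasureTheory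
open scoped ComplexConjugate Classical ContDiff

namespace Crest.Agent.R017.E3qx842

open Crest.Agent.R012 Crest.Agent.R012.Eis Crest.Agent.R012.MC
open Crest.Agent.R012.LS2 (S mem_S bl mem_bl)
open Crest.Agent.R017.CM106 (CS TG FS)
open Crest.Agent.R012.Mob705 (pdiv mem_pdiv)
open Crest.Agent.R017.E1551 (nmpos nm_ge_one)
open Crest.Agent.R017.BD829
open Crest.Agent.R017.E3D579
open Crest.Agent.R017.Mode405
open Crest.Agent.R017.E3q681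
open Crest.Agent.R017.E3Su290 (MB T1)
open Crest.Agent.R017.PoHx72
open Crest.Agent.R017.MX744
open Crest.Agent.R017.MXp512 (PoHWxp modeExp_MB)
open Crest.Agent.R017.RXm770 (RXkx)

/-- **the modes of all the dilations from the R-test with two numbers** -/
theorem rmk_of_rxk {G : Eis → Prop} {ψ χ : Eis → ℂ} {w1 : ℝ → ℝ} (hχ : Mul1 χ) (hw1W : Wgt w1)
    (hP : PoHWxp G ψ χ (w6 w1)) {Rw : ℝ} (hRw : 0 ≤ Rw) (aS A : ℕ) (hA : 1 < A) {ε : ℝ}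
    (hε : 0 < ε) :
    ∃ (C₁ c cw0 : ℝ) (A₀ : ℕ), 0 ≤ C₁ ∧ 1 ≤ c ∧ 1 ≤ cw0 ∧ ∀ A' : ℝ, (A₀ : ℝ) ≤ A' →
      ∀ (κ₁ : Eis) (Z Nb₀ ν Lst : ℝ) (R ρ : Eis) (b₀ : Eis → ℂ) (W1 : Bool → ℝ),
      1 ≤ Z → FS b₀ → (∀ n, b₀ n ≠ 0 → n ∈ S Z) → Win b₀ (Real.log Nb₀) Rw → 0 < Nb₀ →
      (∀ jj, 0 ≤ W1 jj) → GXk κ₁ G R b₀ →
      (1 ≤ Lst → RXkx κ₁ ψ aS A c Z Nb₀ ν R ρ b₀ W1) →
      RMk χ w1 A' ε C₁ cw0 Rw κ₁ Z Nb₀ ν Lst R ρ b₀ W1 := by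
  obtain ⟨C₁, c, cw0, A₀, hC₁, hc, hcw0, key⟩ := modeExp_MB hχ hw1W hP hRw aS A hA hε
  refine ⟨C₁, c, cw0, A₀, hC₁, hc, hcw0, ?_⟩
  intro A' hA' κ₁ Z Nb₀ ν Lst R ρ b₀ W1 hZ hb hbS hbW hNb hW1 hGX hRX
  intro κ F y hκ hF hsq hκF hyR hκZ hFZ Z' Lt Y hZZ hNκ hκZ' hZ4 hY hYZ hLt hLtZ hLtL hLN hν
  have hZ0 : 0 < Z := by linarith
  have hZ'1 : 1 ≤ Z' := hZ.trans hZZ
  have nκ := nmpos hκ.ne_zero
  have nF := nmpos hF.ne_zero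
  have hκs : Squarefree κ := (squarefree_mul_iff.mp hsq).2.1
  obtain ⟨Prd, W, hPW⟩ : ∃ (Prd : Eis → Eis → Prop) (W : Bool → ℝ → ℝ), 1 ≤ Lt →
      PrOK (fun m => bF κ F b₀ m * ψ m) Prd ∧ (∀ jj, Slp aS (W jj)) ∧
        (∀ jj, W jj (c * Il (Nb₀ * nm κ) Lt Y) ≤ W1 jj * wF jj (nm F)) ∧
        (∀ jj γ φ x, Adm ((Nb₀ * nm κ) ^ 2) κ γ φ x → ∀ P : ℝ, 0 < P →
          ∑ e ∈ pdiv (ρ * (κ * F)), (nm e : ℝ)⁻¹ * ((nm γ : ℝ) *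
            VIc A (fun m => Mode405.bs (bF κ F b₀) e m * ψ m) γ φ 1 (nm e * P / nm x)
              (Cls (PrS Prd e γ) jj)) ≤ W jj P) := by
    by_cases h1 : 1 ≤ Lt
    · obtain ⟨Prd, W, a1, a2, a3, a4, a5⟩ := hRX (h1.trans hLtL) κ F y hκ hF hsq hκF hyR hκZ hFZ
        Z' Lt Y hZZ hNκ hκZ' h1 hY (hν h1)
      exact ⟨Prd, W, fun _ => ⟨a1, a3, fun jj => a5 jj, a4⟩⟩
    · exact ⟨fun _ _ => True, fun _ _ => 0, fun h2 => absurd h2 h1⟩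
  refine key A' hA' Z' (Nb₀ * nm κ) Y Lt hZ'1 (by positivity) hNκ hY hYZ hLt hLtZ (bF κ F b₀)
    (ρ * (κ * F)) κ (fun n hn => bF_S hκ hκs hb hZ0.le hbS (by
      calc (nm κ : ℝ) * Z ≤ Z ^ 3 * Z := by gcongr
        _ = Z ^ 4 := by ring
        _ ≤ Z' := hZ4) hn)
    (hGX κ F y hκ hF hsq hκF hyR) (bF_Win hκ hb hNb hbW) hκ hκZ' Prd W
    (fun jj => W1 jj * wF jj (nm F)) (fun jj => mul_nonneg (hW1 jj) (wF_nonneg jj nF.le)) ?_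
  intro h1
  obtain ⟨a1, a2, a3, a4⟩ := hPW h1
  exact ⟨hLN h1, a1, a2, a3, a4⟩

end Crest.Agent.R017.E3qx842
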