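import Crest.Agent.R017.RXmb_770


/-!
# Row 17, x-side of E4, class E: the R-part of the cells of `alX`, a cubic twist (helper770)

* `rm_psiX` : a cubic twist `ψ = sy κ₀` shifts the frequency
* `rx_glueXt` : `rx_glueX` at the twist `ψ`
* **`rx_clsX`** : helper347's `rx_cls` at `alX`, two numbers
-/

set_option autoImplicit false
set_option linter.unusedVariables false
set_option maxHeartbeats 1600000

noncomputable section

open Complex MeasureTheory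
open scoped ComplexConjugate

namespace Crest.Agent.R017.RXm770

open Crest.Agent.R012 Crest.Agent.R012.Eis Crest.Agent.R012.MC
open Crest.Agent.R012.LS2 (S mem_S bl mem_bl)
open Crest.Agent.R012.GLS106 (dec dec_spec)
open Crest.Agent.R017.CM106 (CS TG FS)
open Crest.Agent.R017.FE47
open Crest.Agent.R017.B770
open Crest.Agent.R017.Prov71
open Crest.Agent.R017.Mode405 (Slp Mul1 mul1_one)
open Crest.Agent.R017.GrB829 (IsC)
open Crest.Agent.R017.PX764 (n6)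
open Crest.Agent.R017.R3571
open Crest.Agent.R017.TEM792 (LD nL)
open Crest.Agent.R017.RXn770 (g3 g3_lip lev_lip LD_mono qg)
open Crest.Agent.R017.E4zz92 (Tu PP PP_prim FF_eq)
open Crest.Agent.R017.E4X92
open Crest.Agent.R017.E4Xb681 (XC cb Nb0 Zc FI cell_FI FF_ne)
open Crest.Agent.R017.ExP960 (BdX u3 u3')
open Crest.Agent.R017.E4Df372 (alX fs_alX)
open Crest.Agent.R017.Red848 (red Sh Exc exists_sh red_ok)
open Crest.Agent.R017.TEX792 (Sv xN alX_eq xN_ne)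
open Crest.Agent.R017.PoHx72 (Cls)
open Crest.Agent.R017.RXX502 (RClX rh_alXb cop_alX)

/-- the support of `alX` is prime to the modulus -/
lemma copn_alX {P : DPar} (hP : P.OK) (hE : Exc P) {k₀ : Eis} (hs : Sh P k₀) (h : ℝ → ℝ) (t : Eis)
    {a : BdX} (ha : a.ok) {β : Fin 3 → Eis} (hβ : ∀ i, IsPrim (β i)) :
    ∀ n, alX P h t a β n ≠ 0 → IsCoprime n P.n := by
  intro n hn
  rw [alX_eq hP hs h t ha hβ] at hn
  have h1 : xN h (red P) a β n ≠ 0 := by
    intro h0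
    apply hn
    beta_reduce
    unfold I1146.tw3
    rw [h0]; ring
  have hPr : (red P).OK := red_ok hP hE
  rcases xN_ne h1 with h2 | h2
  · exact TEX792.alb_cop hPr h2
  · exact TEX792.alb_cop hPr h2

/-- a cubic twist shifts the frequency -/
lemma rm_psiX (A : ℝ) {α ψ : Eis → ℂ} {κ₀ D γ : Eis} (hprim : ∀ n, α n ≠ 0 → IsPrim n)
    (hcop : ∀ n, α n ≠ 0 → IsCoprime n κ₀) (hD : IsPrim D) (hγ : IsPrim γ)
    (hψ : ∀ n, α (D * n) ≠ 0 → ψ n = sy κ₀ n) (e φ k : Eis) :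
    RMm A (fun m => α (D * m) * conj (ψ m)) e γ φ k ≤
      RMm A (fun m => α (D * m)) e γ φ (k * κ₀ ^ 2) := by
  have e1 : (fun m => α (D * m) * conj (ψ m)) = fun m => sy (κ₀ ^ 2) m * α (D * m) := by
    funext m
    by_cases h0 : α (D * m) = 0
    · rw [h0]; ring
    · have hm : IsPrim m := IsPrim.of_mul_left (hprim _ h0) hD
      have hc : IsCoprime m κ₀ := (hcop _ h0).of_mul_left_right
      rw [hψ m h0]
      have h1 : conj (sy κ₀ m) = sy (κ₀ ^ 2) m := by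
        rw [Char766.conj_sy hm, Char766.sy_pow_left hm]
      rw [h1]; ring
  rw [e1]
  have h2 := RXn770.RMm_sy A (s := κ₀ ^ 2) (a := fun m => α (D * m)) hγ
    (fun m hm => (IsPrim.of_mul_left (hprim _ hm) hD).of_mul_left hγ) e φ k
  rw [h2]
  exact mul_le_of_le_one_left (RMm_nonneg _ _ _ _ _ _)
    (pow_le_one₀ (norm_nonneg _) (PX764.norm_sy_le' hγ))

/-- **`RXkx` of `alX` at the cells, at the twist `ψ = sy κ₀`**, the two numbers -/
theorem rx_glueXt {Λ : Type*} {π : Λ → DPar} {h : ℝ → ℝ} {c₀ : ℝ} (hpu : PU h c₀)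
    (hP : ∀ lam, (π lam).OK) (hE : ∀ lam, Exc (π lam))
    {d : ℝ} (hd : 0 ≤ d) (hd8 : d ≤ 1 / 8) (HR : RClX π h d) (lam : Λ) {ε : ℝ} (hε : 0 < ε)
    {K : ℝ} (hK : 1 ≤ K) :
    ∃ M aS A₀ : ℕ, 1 ≤ aS ∧ ∀ k₀ : Eis, Sh (π lam) k₀ → ∀ t : Eis, t ∈ SM (π lam).n →
      ∀ κ₀ : Eis, κ₀ ∈ SM (π lam).n → ∀ ψ : Eis → ℂ, Mul1 ψ →
      (∀ n, IsPrim n → IsCoprime n (π lam).n → ψ n = sy κ₀ n) →
      ∀ cc R₀ : ℝ, 0 < cc → ∀ A : ℕ, A₀ ≤ A → 1 < A →
      ∃ X₀ : ℝ, 1 < X₀ ∧ ∀ X : ℝ, X₀ ≤ X → ∀ H : ℝ, 1 ≤ H →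
      ∀ (a : BdX) (β : Fin 3 → Eis), a.ok → LD X K H (u3 a) β → LD X K H (u3' a) β →
      ∀ s₀ : ℝ, Sv X s₀ a β →
      ∀ u : ℝ, (∃ i, (u3 a i).z ≤ u * Real.log X) → (∃ i, (u3' a i).z ≤ u * Real.log X) →
      ∀ (x : XF) (b : Tu) (Nα Rw : ℝ), x.α = alX (π lam) h t a β →
      IsC x.c₀ → IsPrim x.e₀ → (nm x.e₀ : ℝ) ≤ X ^ K → x.Y ≤ X ^ K → XC x b Nα Rw →
      ∀ (nδ nμ : ℕ) (i : Eis × Eis), i ∈ x.cell b nδ nμ → ∀ (ν ih E : ℝ) (W1 : Bool → ℝ), 0 < ν →
      ν ≤ X ^ (37 * K) → ν * qg (PP (x.Sf b.q) x.g₁ b.ν (b.us * b.τ)) ≤ X ^ ih →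
      0 < E → E ≤ nm (x.g₂ * (b.w * (b.g * i.1))) →
      H ^ M * X ^ (max ih (ih / 3) + g3 d u ih +
          2 / 3 * (nL X (u3 a) β - Real.log E / Real.log X) + ε) ≤ W1 false →
      H ^ M * X ^ (ih / 3 + (5 / 3 * (nL X (u3 a) β - Real.log E / Real.log X) -
          max 0 (s₀ - Real.log E / Real.log X)) + ε) ≤ W1 true →
      RXkx (b.h * b.u) ψ aS A cc (Zc R₀ x.Y ^ 3) (Nb0 x b Nα i.1) ν
        (x.Rr b i) 1 (cb x b i.1) W1 := by
  classical
  have hK0 : 0 < K := by linarith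
  obtain ⟨M, aS, A₀, haS, H1⟩ := rh_alXb hpu hP hE hd hd8 HR lam (show 0 < ε / 4 by positivity)
    (K := 51 * (37 * K) + 1) (by linarith)
  refine ⟨M, aS, A₀, haS, fun k₀ hsh t ht κ₀ hκ₀ ψ hψ hψe cc R₀ hcc A hA hA1 => ?_⟩
  obtain ⟨X₁, hX₁, H3⟩ := H1 k₀ hsh t ht
  have ht0 : t ≠ 0 := ht.1
  have hκ0 : κ₀ ≠ 0 := hκ₀.1
  have hk00 : k₀ ≠ 0 := hsh.k0
  have hu0 : t ^ 2 * k₀ ≠ 0 := mul_ne_zero (pow_ne_zero 2 ht0) hk00
  have hu1 : t ^ 2 * k₀ * κ₀ ≠ 0 := mul_ne_zero hu0 hκ0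
  set η : ℝ := min (ε / 16) 1 with hη
  have hη0 : 0 < η := lt_min (by linarith) one_pos
  have hη1 : η ≤ 1 := min_le_right _ _
  have hηε : η ≤ ε / 16 := min_le_left _ _
  obtain ⟨X₂, hX₂, H4⟩ := rx_glueGx hη0 hK hA1 (cc := cc) (R₀ := R₀) hcc hu1
  obtain ⟨R, hR0, hR⟩ := exists_R (cs_cx hpu.cs)
  have hBump : ∃ R : ℝ, ∀ u, cx h u ≠ 0 → |u| ≤ R := ⟨R, hR⟩
  set N0 : ℝ := (nm κ₀ : ℝ) ^ 2 with hN0
  have hN01 : 1 ≤ N0 := one_le_pow₀ (one_le_nm hκ0)
  have hN00 : 0 < N0 := by linarith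
  refine ⟨max (max X₁ X₂) (max 4 (Real.exp (Real.log N0 / η))), lt_max_of_lt_right
    (lt_max_of_lt_left (by norm_num)), ?_⟩
  intro X hX H hH a β ha hL1 hL2 s₀ hS u hu hu' x b Nα Rw hα hc₀ he₀ he₀K hYK hx nδ nμ i hi ν ih E
    W1 hν hνK hih hE0 hED hWf hWt
  have hXX1 : X₁ ≤ X := (le_max_left _ _).trans ((le_max_left _ _).trans hX)
  have hXX2 : X₂ ≤ X := (le_max_right _ _).trans ((le_max_left _ _).trans hX)
  have h4X : 4 ≤ X := (le_max_left _ _).trans ((le_max_right _ _).trans hX)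
  have hX1 : 1 < X := by linarith
  have hX0 : 0 < X := by linarith
  set L := Real.log X with hL
  have hL0 : 0 < L := Real.log_pos hX1
  have hN0X : N0 ≤ X ^ η := by
    have h1 : Real.log N0 / η ≤ L :=
      (Real.le_log_iff_exp_le hX0).2 ((le_max_right _ _).trans ((le_max_right _ _).trans hX))
    rw [div_le_iff₀ hη0] at h1
    rw [← Real.exp_log hN00, Real.rpow_def_of_pos hX0]
    exact Real.exp_le_exp.2 (by linarith)
  have hβ := hL1.bp
  have hn1 : ∀ {y : Eis}, y ≠ 0 → (1 : ℝ) ≤ nm y := fun hy => by exact_mod_cast nm_pos.2 hy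
  have hFS : FS (alX (π lam) h t a β) := fs_alX (hP lam) hBump hβ
  have hsq := sqf_alX (hP lam) hsh h t ha hβ
  have hcn := copn_alX (hP lam) (hE lam) hsh h t ha hβ
  have hcκ : ∀ n, alX (π lam) h t a β n ≠ 0 → IsCoprime n κ₀ := fun n hn =>
    FE47.SM.coprime hκ₀ (hcn n hn)
  have hcu : ∀ n, alX (π lam) h t a β n ≠ 0 → IsCoprime n (t ^ 2 * k₀ * κ₀) := fun n hn =>
    (cop_alX (hP lam) (hE lam) hsh h ht ha hβ n hn).symm.mul_right (hcκ n hn)
  -- the sizes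
  have hY1 := hx.Y1
  have hfi := cell_FI hx hi
  have hFne := FF_ne hfi
  have hσ : IsPrim (b.us * b.τ) := hx.hs.hus.mul hx.τ
  have hFe : x.FFa b = x.c₀ * PP (x.Sf b.q) x.g₁ b.ν (b.us * b.τ) := by
    unfold XF.FFa
    rw [FF_eq]
  set Pq' := PP (x.Sf b.q) x.g₁ b.ν (b.us * b.τ) with hPq
  have hP0 : Pq' ≠ 0 := fun h0 => hFne (by rw [hFe, h0, mul_zero])
  have hPp : IsPrim Pq' := PP_prim hx.S hx.g1 hx.ν hσ hP0
  obtain ⟨p1, p2, p3, s1, s2, hcc', hdec⟩ := dec_spec hPp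
  set D : Eis := x.g₂ * (b.w * (b.g * i.1)) with hDd
  have hDp : IsPrim D := hx.g2.mul (hx.hs.hw.mul hfi.gδ)
  have hnn := hfi.nn
  unfold XF.nn at hnn
  have nF := hn1 hFne
  have nD := hn1 hDp.ne_zero
  have nu := hn1 hx.hs.hu.ne_zero
  have nh := hn1 hx.h.ne_zero
  have hpos : (0 : ℝ) < nm (x.FFa b) * (nm D : ℝ) ^ 2 * (nm b.u * nm b.h) := by positivity
  rw [← hDd, div_le_div_iff₀ (by norm_num) hpos] at hnn
  have hV2 : (nm (x.FFa b) : ℝ) * (nm D : ℝ) ^ 2 * (nm b.u * nm b.h) ≤ 2 * X ^ K := by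
    have := hx.VY
    linarith
  have hXK0 : (0 : ℝ) < X ^ K := by positivity
  have h2K : 2 * X ^ K ≤ X ^ (2 * K) := by
    calc 2 * X ^ K ≤ X ^ K * X ^ K := by
          have h1 : X ^ (1 : ℝ) ≤ X ^ K := Real.rpow_le_rpow_of_exponent_le hX1.le hK
          rw [Real.rpow_one] at h1
          have h2 : (2 : ℝ) ≤ X ^ K := by linarith
          gcongr
      _ = X ^ (K + K) := (Real.rpow_add hX0 _ _).symm
      _ = _ := by ring_nf
  have hDK : (nm D : ℝ) ≤ X ^ (2 * K) := by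
    refine le_trans ?_ (hV2.trans h2K)
    calc (nm D : ℝ) = 1 * (nm D : ℝ) ^ 1 * (1 * 1) := by ring
      _ ≤ nm (x.FFa b) * (nm D : ℝ) ^ 2 * (nm b.u * nm b.h) := by
          have h12 : (nm D : ℝ) ^ 1 ≤ (nm D : ℝ) ^ 2 := pow_le_pow_right₀ nD (by norm_num)
          gcongr
  have hPK : (nm Pq' : ℝ) ≤ X ^ (2 * K) := by
    have h1 : (nm Pq' : ℝ) ≤ nm (x.FFa b) := by
      rw [hFe, nm_mul]
      push_cast
      exact le_mul_of_one_le_left (Nat.cast_nonneg _) (hn1 hx.c0)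
    refine h1.trans (le_trans ?_ (hV2.trans h2K))
    calc (nm (x.FFa b) : ℝ) = nm (x.FFa b) * 1 * (1 * 1) := by ring
      _ ≤ _ := by
          have h12 : (1 : ℝ) ≤ (nm D : ℝ) ^ 2 := one_le_pow₀ nD
          gcongr
  have hPe : (nm Pq' : ℝ) = nm (dec Pq').1 * (nm (dec Pq').2.1 : ℝ) ^ 2 *
      (nm (dec Pq').2.2 : ℝ) ^ 3 := by
    conv_lhs => rw [hdec]
    rw [nm_mul, nm_mul, nm_pow, nm_pow]
    push_cast
    ring
  have nq := hn1 p1.ne_zero
  have ng := hn1 p2.ne_zero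
  have nr := hn1 p3.ne_zero
  have hqg : qg Pq' ≤ X ^ (4 * K) := by
    have e1 : qg Pq' = (nm (dec Pq').1 : ℝ) ^ 2 * nm (dec Pq').2.1 := rfl
    have h3 : (1 : ℝ) ≤ (nm (dec Pq').2.2 : ℝ) ^ 3 := one_le_pow₀ nr
    have h4 : (nm (dec Pq').1 : ℝ) * (nm (dec Pq').2.1 : ℝ) ^ 2 ≤ nm Pq' := by
      rw [hPe]
      exact le_mul_of_one_le_right (by positivity) h3
    have h5 : (nm (dec Pq').2.1 : ℝ) ≤ ((nm (dec Pq').2.1 : ℝ) ^ 2) ^ 2 := by
      rw [← pow_mul]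
      exact le_self_pow₀ ng (by norm_num)
    calc qg Pq' = (nm (dec Pq').1 : ℝ) ^ 2 * nm (dec Pq').2.1 := e1
      _ ≤ (nm (dec Pq').1 : ℝ) ^ 2 * ((nm (dec Pq').2.1 : ℝ) ^ 2) ^ 2 := by gcongr
      _ = ((nm (dec Pq').1 : ℝ) * (nm (dec Pq').2.1 : ℝ) ^ 2) ^ 2 := by ring
      _ ≤ (X ^ (2 * K)) ^ 2 := by
          refine pow_le_pow_left₀ (by positivity) (h4.trans hPK) 2
      _ = X ^ (4 * K) := by
          rw [← Real.rpow_natCast, ← Real.rpow_mul hX0.le]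
          congr 1; push_cast; ring
  have hqg0 : 0 < qg Pq' := by
    have e1 : qg Pq' = (nm (dec Pq').1 : ℝ) ^ 2 * nm (dec Pq').2.1 := rfl
    rw [e1]
    have : (0 : ℝ) < nm (dec Pq').1 := by linarith
    have : (0 : ℝ) < nm (dec Pq').2.1 := by linarith
    positivity
  set m0 : ℝ := ν * qg Pq' with hm0
  have hm00 : 0 < m0 := by positivity
  set i0 : ℝ := Real.log m0 / L with hi0
  have hXi0 : X ^ i0 = m0 := by
    rw [hi0, Real.rpow_def_of_pos hX0, ← hL, mul_div_cancel₀ _ hL0.ne', Real.exp_log hm00]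
  have hi0h : i0 ≤ ih := by
    rw [hi0, div_le_iff₀ hL0]
    have h2 := Real.log_le_log hm00 hih
    rwa [Real.log_rpow hX0] at h2
  have hi0K : i0 ≤ 41 * K := by
    rw [hi0, div_le_iff₀ hL0]
    have h1 : m0 ≤ X ^ (41 * K) := by
      calc m0 ≤ X ^ (37 * K) * X ^ (4 * K) := by rw [hm0]; gcongr
        _ = X ^ (37 * K + 4 * K) := (Real.rpow_add hX0 _ _).symm
        _ = _ := by ring_nf
    have h2 := Real.log_le_log hm00 h1
    rwa [Real.log_rpow hX0] at h2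
  set P1 : ℝ := X ^ (i0 + 2 * η) with hP1
  have hP10 : 0 < P1 := by positivity
  have hP1K : P1 ≤ X ^ (51 * (37 * K) + 1) :=
    Real.rpow_le_rpow_of_exponent_le hX1.le (by linarith)
  have hP1l : Real.log P1 / L = i0 + 2 * η := by
    rw [hP1, Real.log_rpow hX0, mul_div_assoc, div_self hL0.ne', mul_one]
  have hD2K : (nm D : ℝ) ≤ X ^ (51 * (37 * K) + 1) :=
    hDK.trans (Real.rpow_le_rpow_of_exponent_le hX1.le (by linarith))
  have heK : (nm x.e₀ : ℝ) ≤ X ^ (51 * (37 * K) + 1) :=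
    he₀K.trans (Real.rpow_le_rpow_of_exponent_le hX1.le (by linarith))
  obtain ⟨W0, hW0, hRH, hW0f, hW0t⟩ := H3 X hXX1 H hH a β ha (LD_mono hX1 (by linarith) hL1)
    (LD_mono hX1 (by linarith) hL2) s₀ hS u hu hu' A (by exact_mod_cast hA) D x.e₀ hDp he₀ hD2K heK
    P1 hP10 hP1K
  rw [hP1l] at hW0f hW0t
  have hWd : ∀ jj, Slp aS fun P => W0 jj (N0 * P) := fun jj => PoH347.slp_dil (hW0 jj) hN00
  have hstep : ∀ jj, W0 jj (N0 * X ^ (i0 + η)) ≤ W0 jj P1 := by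
    intro jj
    refine PoH347.slp_mono (hW0 jj) (by positivity) ?_
    calc N0 * X ^ (i0 + η) ≤ X ^ η * X ^ (i0 + η) := by gcongr
      _ = P1 := by
          rw [← Real.rpow_add hX0, hP1]
          congr 1; ring
  refine H4 X hXX2 x b Nα Rw (by rw [hα]; exact hFS) (by rw [hα]; exact hsq)
    (by rw [hα]; exact hcu) hc₀ he₀ hYK hx ψ hψ nδ nμ i hi ν i0 W1 hν
    (le_of_eq hXi0.symm) aS (fun jj P => W0 jj (N0 * P)) hWd ?_ ?_
  · intro jj γ φ hγ hφ hφK P hPP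
    have hprim : ∀ n, x.α n ≠ 0 → IsPrim n := fun n hn => by
      rw [hα] at hn; exact hFS.prim n hn
    have hψD : ∀ n, x.α (D * n) ≠ 0 → ψ n = sy κ₀ n := by
      intro n hn
      refine hψe n (IsPrim.of_mul_left (hprim _ hn) hDp) ?_
      rw [hα] at hn
      exact (hcn _ hn).of_mul_left_right
    have hpt : ∀ k, RMm A (fun m => x.α (D * m) * conj (ψ m)) x.e₀ γ φ k ≤
        RMm A (fun m => x.α (D * m)) x.e₀ γ φ (k * κ₀ ^ 2) := fun k =>
      rm_psiX A hprim (fun n hn => hcκ n (by rw [hα] at hn; exact hn)) hDp hγ hψD x.e₀ φ k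
    have hinj : Set.InjOn (fun k : Eis => k * κ₀ ^ 2)
        ((bl P).filter (Cls (Pu (t ^ 2 * k₀ * κ₀)) jj) : Set Eis) :=
      fun u _ v _ huv => mul_right_cancel₀ (pow_ne_zero 2 hκ0) huv
    have hNP : 0 < N0 * P := by positivity
    have hsum : ∑ k ∈ (bl P).filter (Cls (Pu (t ^ 2 * k₀ * κ₀)) jj),
        RMm A (fun m => x.α (D * m) * conj (ψ m)) x.e₀ γ φ k ≤
        ∑ k ∈ (bl (N0 * P)).filter (Cls (Pu (t ^ 2 * k₀)) jj),
          RMm A (fun m => x.α (D * m)) x.e₀ γ φ k := by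
      calc _ ≤ ∑ k ∈ (bl P).filter (Cls (Pu (t ^ 2 * k₀ * κ₀)) jj),
            RMm A (fun m => x.α (D * m)) x.e₀ γ φ (k * κ₀ ^ 2) :=
            Finset.sum_le_sum fun k _ => hpt k
        _ = ∑ k ∈ ((bl P).filter (Cls (Pu (t ^ 2 * k₀ * κ₀)) jj)).image (fun k => k * κ₀ ^ 2),
            RMm A (fun m => x.α (D * m)) x.e₀ γ φ k := (Finset.sum_image hinj).symm
        _ ≤ _ := by
            refine Finset.sum_le_sum_of_subset_of_nonneg ?_ fun r _ _ => RMm_nonneg _ _ _ _ _ _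
            intro r hr
            obtain ⟨k, hk, rfl⟩ := Finset.mem_image.1 hr
            obtain ⟨hk1, hk2⟩ := Finset.mem_filter.1 hk
            rw [mem_bl hPP.le] at hk1
            refine Finset.mem_filter.2 ⟨?_, ?_⟩
            · rw [mem_bl hNP.le]
              refine ⟨mul_ne_zero hk1.1 (pow_ne_zero 2 hκ0), ?_⟩
              rw [nm_mul, nm_pow]
              push_cast
              rw [hN0, mul_comm]
              exact mul_le_mul_of_nonneg_left hk1.2 (by positivity)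
            · refine (MX744.Cls_iff jj ?_).1 hk2
              unfold Pu
              have e1 : k * (t ^ 2 * k₀ * κ₀) ^ 2 = k * κ₀ ^ 2 * (t ^ 2 * k₀) ^ 2 := by ring
              rw [e1]
    have h2 := hRH jj γ φ hγ hφ
      (hφK.trans (Real.rpow_le_rpow_of_exponent_le hX1.le (by linarith))) (N0 * P) hNP
    refine le_trans (mul_le_mul_of_nonneg_left hsum ?_) ?_
    · have := E3D579.n6_nonneg γ
      positivity
    · have e1 : (fun m => x.α (D * m)) = fun m => alX (π lam) h t a β (D * m) := by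
        rw [hα]
      rw [e1]
      exact h2
  · have hlE : Real.log E / L ≤ Real.log (nm D) / L :=
      div_le_div_of_nonneg_right (Real.log_le_log hE0 hED) hL0.le
    intro jj
    beta_reduce
    have hXη : 0 < X ^ η := by positivity
    refine (mul_le_mul_of_nonneg_left (hstep jj) hXη.le).trans ?_
    cases jj with
    | false =>
      refine le_trans ?_ hWf
      have h1 := lev_lip (d := d) (u := u) hd hd8 (show 0 ≤ 2 * η by linarith)
        (show i0 + 2 * η ≤ ih + 2 * η by linarith)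
      calc X ^ η * W0 false P1 ≤ X ^ η * (H ^ M * X ^ (max (i0 + 2 * η) ((i0 + 2 * η) / 3) +
            g3 d u (i0 + 2 * η) + 2 / 3 * (nL X (u3 a) β - Real.log (nm D) / L) + ε / 4)) := by
            gcongr
        _ = H ^ M * X ^ (η + (max (i0 + 2 * η) ((i0 + 2 * η) / 3) +
            g3 d u (i0 + 2 * η) + 2 / 3 * (nL X (u3 a) β - Real.log (nm D) / L) + ε / 4)) := by
            rw [Real.rpow_add hX0 η]; ring
        _ ≤ _ := by
            refine mul_le_mul_of_nonneg_left ?_ (by positivity)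
            refine Real.rpow_le_rpow_of_exponent_le hX1.le ?_
            linarith
    | true =>
      refine le_trans ?_ hWt
      have h2 : max 0 (s₀ - Real.log E / L) ≤ max (Real.log (nm x.e₀) / L)
          (s₀ - Real.log (nm D) / L) + (Real.log (nm D) / L - Real.log E / L) := by
        have h3 : 0 ≤ Real.log (nm x.e₀) / L :=
          div_nonneg (Real.log_nonneg (hn1 he₀.ne_zero)) hL0.le
        refine max_le ?_ ?_
        · have := le_max_left (Real.log (nm x.e₀) / L) (s₀ - Real.log (nm D) / L)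
          linarith
        · have := le_max_right (Real.log (nm x.e₀) / L) (s₀ - Real.log (nm D) / L)
          linarith
      calc X ^ η * W0 true P1 ≤ X ^ η * (H ^ M * X ^ ((i0 + 2 * η) / 3 +
            (5 / 3 * (nL X (u3 a) β - Real.log (nm D) / L) -
              max (Real.log (nm x.e₀) / L) (s₀ - Real.log (nm D) / L)) + ε / 4)) := by gcongr
        _ = H ^ M * X ^ (η + ((i0 + 2 * η) / 3 +
            (5 / 3 * (nL X (u3 a) β - Real.log (nm D) / L) -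
              max (Real.log (nm x.e₀) / L) (s₀ - Real.log (nm D) / L)) + ε / 4)) := by
            rw [Real.rpow_add hX0 η]; ring
        _ ≤ _ := by
            refine mul_le_mul_of_nonneg_left ?_ (by positivity)
            refine Real.rpow_le_rpow_of_exponent_le hX1.le ?_
            linarith

end Crest.Agent.R017.RXm770
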