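import Crest.Agent.R017.XLgE_347
import Crest.Agent.R017.E4Xmx_679
import Crest.Agent.R017.RMx_842
import Crest.Agent.R017.RXmc_770
import Crest.Agent.R017.PoXe_70

/-!
# Row 17, block C70, leaf E4 (x-side), class E: the cells of a frame, two numbers (helper347)

* `RPg` : the modes `RMk` of a cell under the support condition
* **`rxc_of`** : `RXCx` at the cells, from helper770's `rx_glueXt` and helper842's `rmk_of_rxk`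
* **`cells_frX`** : the cells at the data of one frame, class E
-/

set_option autoImplicit false
set_option linter.unusedVariables false
set_option maxHeartbeats 400000

noncomputable section

open Complex MeasureTheory Finset
open scoped ComplexConjugate

namespace Crest.Agent.R017.XLgX347

open Crest.Agent.R012 Crest.Agent.R012.Eis
open Crest.Agent.R012.LS2 (S mem_S)
open Crest.Agent.R017.Sx545 (Sm)
open Crest.Agent.R017.CM106 (CS FS)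
open Crest.Agent.R017.FE47 (PU SM hD)
open Crest.Agent.R017.End699 (HC prin0 hc_prin0)
open Crest.Agent.R017.Prov71
open Crest.Agent.R017.B770
open Crest.Agent.R017.C70 (CbF JC)
open Crest.Agent.R017.GrB829 (IsC)
open Crest.Agent.R017.E1551 (nmpos nm_ge_one)
open Crest.Agent.R017.Mode405 (nk Mul1 w6 wgt_w6)
open Crest.Agent.R017.E5B71
open Crest.Agent.R017.E5L770
open Crest.Agent.R017.E4U164
open Crest.Agent.R017.TEM792 (nL LD)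
open Crest.Agent.R017.TEX792 (Sv)
open Crest.Agent.R017.VFa436 (T3_spec)
open Crest.Agent.R017.ExP960 (BdX S5X IX5 prX prQ u3 u3')
open Crest.Agent.R017.E4Df372 (FrLX alX)
open Crest.Agent.R017.Red848 (red Sh Exc exists_sh red_ok)
open Crest.Agent.R017.YsU61 (TwOK)
open Crest.Agent.R017.RXX502 (RClX)
open Crest.Agent.R017.MXp512 (PoHWxp)
open Crest.Agent.R017.E4zc92
open Crest.Agent.R017.E4zz92 (Tu PP)
open Crest.Agent.R017.E4352 (PrI)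
open Crest.Agent.R017.E4579 (SupB)
open Crest.Agent.R017.E4X92
open Crest.Agent.R017.E4zg92 hiding XC
open Crest.Agent.R017.E4Xb681 (XC XS cb Nb0 Zc cell_FI Nbn Nbn_pos nk_PP FS_base cb_win cb_S AA)
open Crest.Agent.R017.E3q681 (GXk)
open Crest.Agent.R017.E3qx842 (RMk rmk_of_rxk)
open Crest.Agent.R017.E4Xhx679
open Crest.Agent.R017.E4Xmx679
open Crest.Agent.R017.XLgX679
open Crest.Agent.R017.RXn770 (qg LD_mono)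
open Crest.Agent.R017.RXm770 (rx_glueXt)
open Crest.Agent.R017.XLg347 (ihw Wb Wb_nonneg rpow_ihw Nn_ge En_le mesh_le gk e0_le)

/-- the modes of a cell under the support condition -/
def RPg (G : Eis → Prop) (χ : Eis → ℂ) (w1 : ℝ → ℝ) (A' : ℕ) (ε1 C₁ cw0 Rw : ℝ) : RPt :=
  fun x a i Nα ν L W1 => GXk (a.h * a.u) G (x.Rr a i) (cb x a i.1) →
    RPm χ w1 A' ε1 C₁ cw0 Rw x a i Nα ν L W1

lemma rpg_mono (G : Eis → Prop) (χ : Eis → ℂ) (w1 : ℝ → ℝ) (A' : ℕ) (ε1 C₁ cw0 Rw : ℝ) :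
    RPmono (RPg G χ w1 A' ε1 C₁ cw0 Rw) := by
  intro x a i Nα ν ν' L W1 hν h hG
  exact rpm_mono χ w1 A' ε1 C₁ cw0 Rw x a i Nα ν ν' L W1 hν (h hG)

lemma cxb_g {h : ℝ → ℝ} {χ : Eis → ℂ} {G : Eis → Prop} {Rw ε C cw : ℝ} {A' : ℕ} {w1 : ℝ → ℝ}
    {ε1 C₁ cw0 : ℝ} (H : CXB h χ G Rw ε C cw A' (RPm χ w1 A' ε1 C₁ cw0 Rw)) :
    CXB h χ G Rw ε C cw A' (RPg G χ w1 A' ε1 C₁ cw0 Rw) := by
  intro x a bm κ' k nδ nμ Nα q L W1 Mb τ₀ τg Om₀ h1 h2 h3 h4 h5 h6 h7 h8 h9 h10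
  refine H x a bm κ' k nδ nμ Nα q L W1 Mb τ₀ τg Om₀ h1 h2 h3 h4 h5 h6 h7 h8 h9
    (fun i hi hz => ?_)
  obtain ⟨a1, a2, a3, a4, a5⟩ := h10 i hi hz
  exact ⟨a1, a2, a3, a4 a5, a5⟩

/-- the numbers of the R-part, the two classes, at a gain `G` and a parameter `L` -/
def WfX (x : XF) (X H d u s₀ N ε Nα : ℝ) (M : ℕ) (jj : Bool) (n : Fin 12 → ℕ) (G L : ℝ) : ℝ :=
  if jj = true then H ^ M * X ^ (ihw x X Nα L G n / 3 +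
    (5 / 3 * (N - Real.log (x.En n) / Real.log X) -
      max 0 (s₀ - Real.log (x.En n) / Real.log X)) + ε)
  else Wb x X H d u N ε (ihw x X Nα L G n) M n

/-- **the R-part `RXCx` of the cells, class E** -/
theorem rxc_of {Λ : Type*} {π : Λ → DPar} {h : ℝ → ℝ} {c₀ : ℝ} (hpu : PU h c₀)
    (hP : ∀ lam, (π lam).OK) (hE : ∀ lam, Exc (π lam)) {d : ℝ} (hd : 0 ≤ d) (hd8 : d ≤ 1 / 8)
    (HR : RClX π h d) (lam : Λ) {κ₀ : Eis} (hκ : κ₀ ∈ SM (π lam).n) {χ : Eis → ℂ} (hχ : Mul1 χ)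
    (hχs : ∀ n, IsPrim n → IsCoprime n (π lam).n → χ n = sy κ₀ n) {G : Eis → Prop}
    {w1 : ℝ → ℝ} (hw1 : Crest.Agent.R012.MC.Wgt w1) (hPo : PoHWxp G χ χ (w6 w1)) {t : Eis}
    (ht : t ∈ SM (π lam).n) {Rw : ℝ} (hRw : 0 ≤ Rw) {ε ε1 : ℝ} (hε : 0 < ε) (hε1 : 0 < ε1)
    {K : ℝ} (hK : 1 ≤ K) :
    ∃ (M : ℕ) (C₁ cw0 : ℝ) (A₀ : ℕ), 0 ≤ C₁ ∧ 1 ≤ cw0 ∧ ∀ A' : ℕ, A₀ ≤ A' →
      ∃ X₀ : ℝ, 1 < X₀ ∧ ∀ X : ℝ, X₀ ≤ X → ∀ H : ℝ, 1 ≤ H →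
      ∀ (b : BdX) (β : Fin 3 → Eis), b.ok → LD X K H (u3 b) β → LD X K H (u3' b) β →
      ∀ s₀ : ℝ, Sv X s₀ b β →
      ∀ u : ℝ, (∃ i, (u3 b i).z ≤ u * Real.log X) → (∃ i, (u3' b i).z ≤ u * Real.log X) →
      ∀ (x : XF) (Nα : ℝ), x.α = alX (π lam) h t b β → IsC x.c₀ → IsPrim x.e₀ →
      (nm x.e₀ : ℝ) ≤ X ^ K → x.Y ≤ X ^ K → PrI x.M x.g₁ →
      RXCx (RPg G χ w1 A' ε1 C₁ cw0 Rw) x Nα Rw
        (fun jj n g L => WfX x X H d u s₀ (nL X (u3 b) β) ε Nα M jj n g L) := by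
  obtain ⟨k₀, hk⟩ := exists_sh (hP lam).ψ (hE lam)
  obtain ⟨M, aS, A₁, haS, H1⟩ := rx_glueXt hpu hP hE hd hd8 HR lam hε hK
  have hA1 : 1 < max A₁ 2 := lt_of_lt_of_le (by norm_num) (le_max_right _ _)
  obtain ⟨C₁, c, cw0, A₀, hC₁, hc, hcw0, H2⟩ := rmk_of_rxk hχ hw1 hPo hRw aS (max A₁ 2) hA1 hε1
  refine ⟨M, C₁, cw0, A₀, hC₁, hcw0, fun A' hA' => ?_⟩
  obtain ⟨X₁, hX₁, H3⟩ := H1 k₀ hk t ht κ₀ hκ χ hχ hχs c 3 (by linarith) (max A₁ 2)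
    (le_max_left _ _) hA1
  refine ⟨max X₁ 16384, lt_of_lt_of_le hX₁ (le_max_left _ _), ?_⟩
  intro X hX H hH b β hb hD hD' s₀ hS u hu hu' x Nα hα hc₀ he₀ he₀K hYK hg₁ a hx hσS hJ nδ nμ i
    hi A₂ hA₂ hA₂P g L W1 hg hgA hL hLN hW0 hW hGX
  have hXX : X₁ ≤ X := (le_max_left _ _).trans hX
  have hX1 : 1 < X := lt_of_lt_of_le hX₁ hXX
  have h16 : (16384 : ℝ) ≤ X := (le_max_right _ _).trans hX
  have hY1 := hx.Y1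
  have hY0 : 0 < x.Y := by linarith
  have hfi := cell_FI hx hi
  have hNb : 0 < Nbn x Nα (x.vec a nδ nμ) := Nbn_pos hx.Nα0 hx.g2.ne_zero _
  have hNn := Nn_ge hx hi
  have hNn0 : 0 < x.Nn (x.vec a nδ nμ) := by linarith
  obtain ⟨hE1, hE2⟩ := En_le hx hi
  have hν : 0 < 2048 * (Nbn x Nα (x.vec a nδ nμ) * L / x.Nn (x.vec a nδ nμ)) := by positivity
  have hDp : IsPrim (x.g₂ * (a.w * (a.g * i.1))) := hx.g2.mul (hx.hs.hw.mul hfi.gδ)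
  have hNb0 : 0 < Nb0 x a Nα i.1 := by
    unfold E4Xb681.Nb0
    have := hx.Nα0
    have := nmpos hDp.ne_zero
    positivity
  have hZY : x.Y ≤ Zc 3 x.Y ^ 3 := by
    have h0 : x.Y ≤ Zc 3 x.Y := by
      unfold E4Xb681.Zc
      have h1 : x.Y ≤ x.Y ^ 12 := le_self_pow₀ hY1 (by norm_num)
      have h2 := Real.exp_pos 3
      have h4 : (1 : ℝ) ≤ Real.exp 3 + 16 := by linarith
      calc x.Y = 1 * x.Y := (one_mul _).symm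
        _ ≤ (Real.exp 3 + 16) * x.Y ^ 12 := by gcongr
    have h1 : (1 : ℝ) ≤ Zc 3 x.Y := by linarith
    exact h0.trans (le_self_pow₀ h1 (by norm_num))
  have hZ1 : 1 ≤ Zc 3 x.Y ^ 3 := by linarith
  obtain ⟨p1, p2⟩ := nk_PP hx.S hg₁ hx.ν (hx.hs.hus.mul hx.τ) hσS hJ hx.c0 hA₂ hA₂P
  have e3 : (x.vec a nδ nμ) 3 = lg (PP (x.Sf a.q) x.g₁ a.ν (a.us * a.τ)) := rfl
  have hpos : 0 < 8192 * (Nbn x Nα (x.vec a nδ nμ) * L / x.Nn (x.vec a nδ nμ)) *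
      ((2 : ℝ) ^ (x.vec a nδ nμ) 3) ^ 2 / g := by positivity
  refine H2 A' (by exact_mod_cast hA') (a.h * a.u) (Zc 3 x.Y ^ 3) (Nb0 x a Nα i.1) _ L
    (x.Rr a i) 1 (cb x a i.1) W1 hZ1 (FS_base hx hfi.p1) (fun n hn => ?_) (cb_win hx hfi.p1) hNb0
    hW0 hGX (fun h1L => ?_)
  · obtain ⟨s1, s2, s3⟩ := (mem_S hY0.le).1 (cb_S hx hfi.p1 hn)
    exact (mem_S (by linarith)).2 ⟨s1.trans hZY, s2, s3⟩
  have w0 := hW h1L false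
  have w2 := hW h1L true
  refine H3 X hXX H hH b β hb hD hD' s₀ hS u hu hu' x a Nα Rw hα hc₀ he₀ he₀K hYK hx nδ nμ i hi _
    (ihw x X Nα L g (x.vec a nδ nμ)) (x.En (x.vec a nδ nμ)) W1 hν
    (mesh_le h16 hK hRw hx hi hYK hL (hLN h1L)) ?_ (by linarith) hE2 w0 w2
  rw [rpow_ihw hX1 hpos, RXn770.qg_eq p1, e3]
  calc 2048 * (Nbn x Nα (x.vec a nδ nμ) * L / x.Nn (x.vec a nδ nμ)) *
        nk (PP (x.Sf a.q) x.g₁ a.ν (a.us * a.τ) ^ 2)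
      ≤ 2048 * (Nbn x Nα (x.vec a nδ nμ) * L / x.Nn (x.vec a nδ nμ)) *
        (4 * ((2 : ℝ) ^ lg (PP (x.Sf a.q) x.g₁ a.ν (a.us * a.τ))) ^ 2 / g) := by
        refine mul_le_mul_of_nonneg_left (p2.trans ?_) hν.le
        gcongr
    _ = _ := by ring

/-- the modulus of a twist of the family -/
lemma mod_tw {P : DPar} (hP : P.OK) {t : (Eis → ℂ) × ℤ} (ht : TwOK P t) :
    ∃ M' : Eis, HC M' t.1 ∧ ∀ p : Eis, Prime p → p ∣ M' → p ∣ P.n₃ := by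
  rcases ht with rfl | ⟨⟨M', h0, hdvd, hrad, hη⟩, hl, hj⟩
  · exact ⟨P.n₃, hc_prin0 hP.χ₃.q0 hP.χ₃.three, fun _ _ h => h⟩
  · exact ⟨M', hη, hrad⟩

/-- **the cells at the data of one frame, class E** -/
theorem cells_frX {Λ : Type*} {π : Λ → DPar} {h : ℝ → ℝ} {c₀ : ℝ} (hpu : PU h c₀)
    (hP : ∀ lam, (π lam).OK) (hE : ∀ lam, Exc (π lam)) {d : ℝ} (hd : 0 ≤ d) (hd8 : d ≤ 1 / 8)
    (HR : RClX π h d) {A : ℝ} (hA : 2 / 3 ≤ A) (hA1 : 16 * (1 - A) ≤ d) {bb : ℝ}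
    (hbb : bb ≤ 17 / 100) (e0 r : ℝ) {Rw : ℝ} (hRw : 0 ≤ Rw) {ε : ℝ} (hε : 0 < ε)
    (lam : Λ × Eis) (N : ℕ) (B A1 : ℝ) (tt : (Eis → ℂ) × ℤ) (hD : ¬ (π lam.1).CaseD)
    (hs : lam.2 ∈ SM (π lam.1).n) (ht : TwOK (π lam.1) tt) :
    ∃ (Mη : Eis) (M : ℕ) (C cw : ℝ) (A' : ℕ) (X₀ : ℝ), HC Mη tt.1 ∧
      (∀ p : Eis, Prime p → p ∣ Mη → p ∣ (π lam.1).n₃) ∧ 0 ≤ C ∧ 1 ≤ cw ∧ 1 < A' ∧ 1 < X₀ ∧
      ∀ X : ℝ, X₀ ≤ X → ∀ δ δ' : ℝ, δ ≤ 1 / 2 → 0 ≤ δ' →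
      ∀ (a : BdX × ℕ) (ps : List Pq) (q : (Option IX5 → ℝ) × (Kd → ℝ)),
      FrLX A d bb δ δ' B X N a ps q → a.1.ok → a.1.okP (π lam.1) →
      ∀ (Bf : ℝ → ℝ → ℝ → ℝ) (ε' X' : ℝ) (x : Dt), x.OK (π lam.1) Bf e0 r ε' X' a.1.toBd →
      ∀ dd : XD, dd.x.α = alX (π lam.1) h lam.2 a.1 x.β → dd.x.Y ≤ (X ^ A1) ^ 3 →
      ∀ (OO : Finset (Eis × Eis)) (m : Fin 2 → Fin 3 → ℕ) (β₀ s₁ : Eis) (l : ℕ)
        (ξ Nα : ℝ), E4zg92.XC dd OO m β₀ → dd.x.V = 2 ^ l →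
        dd.x.g₀ = E4Bd783.gx tt.1 tt.2 ξ →
        dd.x.Om = (fun t => ((E5L770.wL l (Real.log t) : ℝ) : ℂ)) → XS dd.x Nα Rw →
        (∀ n, IsCoprime n dd.x.M → IsCoprime n Mη) →
        (∀ n, dd.x.α n ≠ 0 → IsCoprime n Mη) →
      ∀ (L : (Fin 12 → ℕ) → ℝ) (W1 : (Fin 12 → ℕ) → Eis × Eis → Bool → ℝ), (∀ n, 0 < L n) →
        (∀ n k jj, 0 ≤ W1 n k jj) →
        (∀ n, 1 ≤ L n → 8 * (L n * Real.exp Rw) < Nbn dd.x Nα n) →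
        (∀ n k, 1 ≤ L n → ∀ jj, WfX dd.x X (X ^ δ') d (cu (prX (dn q.1)) 4 + δ)
          (bb * cκ (prX (dn q.1)) - 3 * δ - Real.log (nm (∏ i, x.β i)) / Real.log X)
          (nL X (u3 a.1) x.β) ε Nα M jj n (gk m k) (L n) ≤ W1 n k jj) →
      ∀ (bm : Eis × Eis → Eis → ℂ) (Mb Ek : ℝ),
        dd.x.HO cw OO (vC dd.x dd.P dd.kk dd.κ') bm dd.kk dd.κ' dd.qc Mb Ek →
        Cells dd cw OO bm
          (fun i n k => AA dd.x (C * dd.x.Y ^ ε * (1 + |ξ|) ^ A') Nα (L n)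
            (We dd.x Nα (L n) (W1 n k) n) n i) s₁ := by
  obtain ⟨h0, κ₀, hκ, hκs⟩ := tw_exc (hP lam.1) (hE lam.1) hD ht
  obtain ⟨Mη, hη, hrad⟩ := mod_tw (hP lam.1) ht
  have hκn : κ₀ ∈ SM (π lam.1).n :=
    ⟨hκ.1, fun p hp hd => ((hP lam.1).rad p hp).1 (hκ.2 p hp hd)⟩
  have hχs : ∀ n, IsPrim n → IsCoprime n (π lam.1).n → BDh681.ps tt.1 tt.2 n = sy κ₀ n := by
    intro n hn hc
    have hc3 : IsCoprime n (π lam.1).n₃ := RXn770.cop_of_rad (hP lam.1).χ₃.q0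
      (fun p hp h' => ((hP lam.1).rad p hp).1 h') hc
    rw [h0, ← hκs n ⟨hn, hc3⟩]
    unfold BDh681.ps
    rw [End699.ang_zero', mul_one]
  obtain ⟨K₁, X₁, hK₁, hX₁, HL⟩ := ldX_of hA d bb e0 r N B
  obtain ⟨K, hK⟩ : ∃ K : ℝ, K = max K₁ (3 * A1) := ⟨_, rfl⟩
  have hKK : K₁ ≤ K := by rw [hK]; exact le_max_left _ _
  have hK3 : 3 * A1 ≤ K := by rw [hK]; exact le_max_right _ _
  have hK1 : 1 ≤ K := hK₁.trans hKK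
  obtain ⟨w1, hw1, -, ε1, hε1, HC1⟩ := cxb_of (PoH347.mul1_ps hη tt.2)
    (fun n => IsCoprime n Mη) hRw hε
  obtain ⟨M, C₁, cw0, A₀, hC₁, hcw0, H1⟩ := rxc_of hpu hP hE hd hd8 HR lam.1 hκn
    (PoH347.mul1_ps hη tt.2) hχs hw1 (PoX70.pohwxp_H hη tt.2 (wgt_w6 hw1)) hs hRw hε hε1 hK1
  have hA' : 1 < max A₀ 2 := lt_of_lt_of_le (by norm_num) (le_max_right _ _)
  obtain ⟨C, cw, hC, hcw, HX⟩ := HC1 hC₁ hcw0 hA'
  obtain ⟨X₂, hX₂, H2⟩ := H1 (max A₀ 2) (le_max_left _ _)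
  refine ⟨Mη, M, C * 1728, cw, max A₀ 2, max X₁ X₂, hη, hrad, by positivity, hcw, hA',
    lt_max_of_lt_left hX₁, ?_⟩
  intro X hX δ δ' hδ hδ' a ps q hFr ha haP Bf ε' X' x hx dd hα hY OO m β₀ s₁ l ξ Nα hXC hV hg₀
    hOm hS hcM hcα L W1 hL hW0 hLN hW bm Mb Ek HO
  have hX1' : X₁ ≤ X := (le_max_left _ _).trans hX
  have hX2' : X₂ ≤ X := (le_max_right _ _).trans hX
  have hX1 : 1 < X := lt_of_lt_of_le hX₁ hX1'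
  have hX0 : 0 < X := by linarith
  obtain ⟨hLD, hLD', he₀, he₀K, hβK, hβp⟩ := HL X hX1' δ δ' hδ a ps q hFr ha (π lam.1) haP Bf ε'
    X' x hx
  have hH : 1 ≤ X ^ δ' := Real.one_le_rpow hX1.le hδ'
  obtain ⟨hb1, hb2⟩ := botX hX1 hFr
  have hSv := svX_of hd hd8 hA1 hbb hX1 hFr ha hLD.bp
  have hYK : dd.x.Y ≤ X ^ K := by
    refine hY.trans ?_
    rw [← Real.rpow_natCast, ← Real.rpow_mul hX0.le]
    refine Real.rpow_le_rpow_of_exponent_le hX1.le ?_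
    push_cast
    linarith
  have hRX := H2 X hX2' (X ^ δ') hH a.1 x.β ha (LD_mono hX1 hKK hLD) (LD_mono hX1 hKK hLD') _ hSv _
    hb1 hb2 dd.x Nα hα hXC.h.c₀ hXC.h.e₀ ((e0_le hXC.h).trans hYK) hYK hXC.h.g₁
  exact cells_of_rxx hC (rpg_mono _ _ _ _ _ _ _ _) (cxb_g HX) dd OO m β₀ s₁ l ξ Nα hXC hV
    (fun y hy => by rw [hg₀]; exact E4Xb681.gx_eq tt.1 tt.2 ξ hy) hOm hS hcM hcα _ L W1 hRX hL
    hW0 hLN hW bm Mb Ek HO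

end Crest.Agent.R017.XLgX347
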