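import Crest.Agent.R017.XLhX_518
import Crest.Agent.R017.XLgF_347

/-!
# Row 17, block C70, leaf E4 (x-side), class E: helper518's `CelX` (helper347)

* **`celX_of`** : `CelX` from the R-rules of class E (`RClX`)
-/

set_option autoImplicit false
set_option linter.unusedVariables false
set_option maxHeartbeats 400000

noncomputable section

open Complex Finset
open scoped ComplexConjugate

namespace Crest.Agent.R017.XLgX347

open Crest.Agent.R012 Crest.Agent.R012.Eis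
open Crest.Agent.R017.FE47 (PU SM)
open Crest.Agent.R017.Prov71
open Crest.Agent.R017.B770
open Crest.Agent.R017.Red848 (Exc)
open Crest.Agent.R017.E5B71
open Crest.Agent.R017.E5L770
open Crest.Agent.R017.E4U164
open Crest.Agent.R017.TEM792 (nL)
open Crest.Agent.R017.ExP960 (BdX S5X IX5 prX prQ u3 u3')
open Crest.Agent.R017.RXX502 (RClX)
open Crest.Agent.R017.XLg347 (Wn Wn_eq)
open Crest.Agent.R017.XLhX518

/-- **the cells of class E** (helper518's `CelX`) -/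
theorem celX_of {Λ : Type*} {π : Λ → DPar} {h : ℝ → ℝ} {c₀ : ℝ} (hpu : PU h c₀)
    (hP : ∀ lam, (π lam).OK) (hE : ∀ lam, Exc (π lam)) {d : ℝ} (hd : 0 ≤ d) (hd8 : d ≤ 1 / 8)
    (HR : RClX π h d) {A : ℝ} (hA : 2 / 3 ≤ A) (hA1 : 16 * (1 - A) ≤ d) {bb : ℝ}
    (hbb : bb ≤ 17 / 100) (e0 r : ℝ) (Bf : ℕ → ℝ → ℝ → ℝ → ℝ) : CelX π h A d bb e0 r Bf := by
  intro Rw hRw ε hε lam N B A1 tt hD hs ht
  obtain ⟨Mη, M, C, cw, A', X₀, hη, hrad, hC, hcw, hA', hX₀, H⟩ := cells_frX hpu hP hE hd hd8 HR hA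
    hA1 hbb e0 r hRw hε lam N B A1 tt hD hs ht
  refine ⟨Mη, tt.1, tt.2, M, C, cw, A', X₀, hη, hrad, fun _ _ _ => rfl, hC, hcw, hA', hX₀, ?_⟩
  intro X hX δ δ' hδ hδ' a ps q hFr ha haP ε' X' x hx dd hα hY OO m β₀ s₁ l ξ Nα hXC hV hg₀ hOm
    hS hcM hcα L hL hLN bm Mb Ek HO
  have hX0 : 0 < X := by linarith
  refine H X hX δ δ' hδ hδ' a ps q hFr ha haP (Bf a.2) ε' X' x hx dd hα hY OO m β₀ s₁ l ξ Nα hXC
    hV hg₀ hOm hS hcM hcα L (WX dd.x X (X ^ δ') d (cu (prX (dn q.1)) 4 + δ) (s0X X bb δ q x)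
      (nL X (u3 a.1) x.β) ε Nα M m L) hL (fun n k jj => WX_nonneg hX0.le
      (Real.rpow_nonneg hX0.le _) _ _ _ _ _ _ _ _ _ _ _ _) hLN (fun n k h1 jj => ?_) bm Mb Ek HO
  refine le_of_eq ?_
  cases jj with
  | false =>
    unfold WfX WX
    rw [if_neg (by simp), if_neg (by simp), Wn_eq h1]
  | true =>
    unfold WfX WX Wc3 s0X
    rw [if_pos rfl, if_pos rfl, if_pos h1]

end Crest.Agent.R017.XLgX347
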