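import Crest.Agent.R017.XnG_518
import Crest.Agent.R017.XLgG_347
import Crest.Agent.R017.XHgX_266
import Crest.Agent.R017.XHhX_266

/-!
# Row 17, class E, the field `xn` of helper986's `LvE` (helper518)

* **`xnE_full`** : the number of the `x`-side at the top data, nothing open
-/

set_option autoImplicit false

noncomputable section

namespace Crest.Agent.R017.XnH518

open Crest.Agent.R012 Crest.Agent.R012.Eis
open Crest.Agent.R017.FE47 Crest.Agent.R017.End699
open Crest.Agent.R017.B770 Crest.Agent.R017.BxH986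
open Crest.Agent.R017.Prov71 hiding K0
open Crest.Agent.R017.ER911
open Crest.Agent.R017.E5B71
open Crest.Agent.R017.E5L770
open Crest.Agent.R017.E5LX770
open Crest.Agent.R017.SC777
open Crest.Agent.R017.Fin4 Crest.Agent.R017.Fin5 Crest.Agent.R017.Fin6
open Crest.Agent.R017.Red848 (red Exc)
open Crest.Agent.R017.PX764 (Dk)
open Crest.Agent.R017.XS0298 (S0x S0K)
open Crest.Agent.R017.Sg986 (AA AA_lt AA_eq AA_ge)
open Crest.Agent.R017.NrX986 (NearAllX)
open Crest.Agent.R017.TM708
open Crest.Agent.R017.E4Df372 (XNumUX)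
open Crest.Agent.R017.Sf770 (JS)

/-- **the field `xn` of helper986's `LvE`** -/
theorem xnE_full {d : ℝ} (hd : 0 < d) (hd1 : d ≤ 1 / 42) {h : ℝ → ℝ} {c₀ : ℝ} (hpu : PU h c₀)
    (hPF : PF Set.univ (7 / 8 + d)) (P : BunE d h) (G : RecE d h)
    (near : NearAllX d (ex Dq (fun lam => S0x (red (πE lam)) h))) (r : ℝ) :
    ∀ e : ℝ, 0 < e → e ≤ 1 / 64 →
      XNumUX πE h (AA d) d βX e r (bfE (d / 4)) (fun l N z => JS (nL l N z)) := by
  have hA := AA_ge (d := d) (by linarith)
  have hA' : 2 / 3 ≤ AA d := by linarith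
  exact XnG518.xnE hd hd1 hpu P G near r
    (fun e _ _ => XLgX347.celX_of hpu (fun lam => lam.2.1) (fun lam => XT6241.exc_piE lam) hd.le
      (by linarith) (SPXz521.rclXE hd hd1 hpu hPF P) hA' (AA_eq d) le_rfl e r (bfE (d / 4)))
    (fun e _ _ => E4SE266.xncH_of hpu (fun lam => lam.2.1) hA'
      (fun l N z => Sf770.okJ_JS (nL l N z))
      (E4SE266.tnumEX_of hpu (XnG518.vneE hd hd1 hpu P G near) hd.le hd1 hA' (AA_lt hd).le
        (AA_eq d) rfl e r (bfE (d / 4)) (fun l N z => Sf770.okJ_JS (nL l N z))))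

end Crest.Agent.R017.XnH518
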