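import Crest.Agent.R017.LfJ_986
import Crest.Agent.R017.EbA_986
import Crest.Agent.R017.E3Uz_744
import Crest.Agent.R017.XnH_518

/-!
# Row 17, T.4: fields of `LuE` at the top data (helper986)

* **`e3s_of`** : the field `e3s`
* `LwE d h r` : the remaining open leaves; `luE_of` : `LfJ986.LuE d h r`
-/

set_option autoImplicit false

noncomputable section

open Complex Filter Topology

namespace Crest.Agent.R017.EbC986

open Crest.Agent.R012 Crest.Agent.R012.Eis
open Crest.Agent.R017.FE47 Crest.Agent.R017.End699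
open Crest.Agent.R017.B770 Crest.Agent.R017.BxH986
open Crest.Agent.R017.Prov71 Crest.Agent.R017.ER911
open Crest.Agent.R017.E5B71 Crest.Agent.R017.ExP960
open Crest.Agent.R017.E5L770
open Crest.Agent.R017.SC777
open Crest.Agent.R017.Fin4 Crest.Agent.R017.Fin5 Crest.Agent.R017.Fin6
open Crest.Agent.R017.P1l54 Crest.Agent.R017.P1t54
open Crest.Agent.R017.P1X960
open Crest.Agent.R017.P10X764 (E2XU E3XU E2SU E3SU)
open Crest.Agent.R017.E5LX770
open Crest.Agent.R017.Red848 (red)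
open Crest.Agent.R017.PX764 (Dk)
open Crest.Agent.R017.XS0298 (S0x S0K)
open Crest.Agent.R017.Sg986 (AA AA_lt AA_eq AA_ge)
open Crest.Agent.R017.NrX986 (NearAllX)
open Crest.Agent.R017.Sf770 (JS)
open Crest.Agent.R017.E4U164 (low5)
open Crest.Agent.R017.E5H319 (LR)
open Crest.Agent.R017.HiD50 (HNDX loB hiB)

/-- **the Gram error of the single lists** -/
theorem e3s_of {d : ℝ} (hd : 0 < d) (hd1 : d ≤ 1 / 42) {h : ℝ → ℝ} {c₀ : ℝ} (hpu : PU h c₀)
    (hPF : PF Set.univ (7 / 8 + d)) (P : BunE d h) (G : RecE d h)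
    (near : NearAllX d (ex Dq (fun lam => S0x (red (πE lam)) h))) {r : ℝ} (hr0 : 0 ≤ r)
    (hr : ∀ u : ℝ, cx h u ≠ 0 → |u| ≤ r) :
    E3SU (fun lam => red (πE lam)) h (1 / 64) (d / 4) r βX (ParS (AA d) d) (LS0 d) := by
  have hA := AA_ge hd1
  exact E3Ux744.e3su_E hpu (fun lam => lam.2.1) (fun lam => XT6241.exc_piE lam) hd.le hd1
    (by linarith) (AA_lt hd).le (AA_eq d) hPF P.rules
    (TK708.allT_of P.rules G.toExpS0 hd.le (by linarith))
    (NrX986.fe2G_D P.rules G hd.le (by linarith) near) hr0 hr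

/-- **the open leaves of T.4** -/
structure LwE (d : ℝ) (h : ℝ → ℝ) (r : ℝ) : Prop where
  /-- the field of near-equal lists -/
  near : NearAllX d (ex Dq (fun lam => S0x (red (πE lam)) h))
  /-- cross error, differences -/
  e2x : E2XU (fun lam => red (πE lam)) h (1 / 64) (d / 4) r βX (ParS (AA d) d) (LS0 d)
  /-- cross error, single lists -/
  e2s : E2SU (fun lam => red (πE lam)) h (1 / 64) (d / 4) r βX (ParS (AA d) d) (LS0 d)
  /-- P1, mismatch: differences -/
  p1mx : P1MX (fun lam => red (πE lam)) h (1 / 64) (d / 4) βX (ParS (AA d) d) (LS0 d)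
  /-- single lists -/
  p1ms : P1MS (fun lam => red (πE lam)) h (1 / 64) (d / 4) βX (ParS (AA d) d) (LS0 d)
  /-- the high levels, one difference per band -/
  hi : ∀ j : ℕ, (j * (d / 8) + d / 2) / 4 < 1 / 64 →
    HNDX πE h ((j * (d / 8) + d / 2) / 4) (1 / 64) (d / 4) βX (ParS (AA d) d)
      (loB low5 ((j + 1) * (d / 8))) (hiB low5 (j * (d / 8))) (LR d)

/-- **`LuE` from the open leaves** -/
theorem luE_of {d : ℝ} (hd : 0 < d) (hd1 : d ≤ 1 / 42) {h : ℝ → ℝ} {c₀ : ℝ} (hpu : PU h c₀)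
    (hPF : PF Set.univ (7 / 8 + d)) (P : BunE d h) (G : RecE d h) {r : ℝ} (hr0 : 0 ≤ r)
    (hr : ∀ u : ℝ, cx h u ≠ 0 → |u| ≤ r) (H : LwE d h r) : LfJ986.LuE d h r :=
  { near := H.near
    e2x := H.e2x
    e3x := EbA986.e3x_of hd hd1 hpu hPF P G H.near hr0 hr
    e2s := H.e2s
    e3s := e3s_of hd hd1 hpu hPF P G H.near hr0 hr
    p1mx := H.p1mx
    p1ms := H.p1ms
    xn := XnH518.xnE_full hd hd1 hpu hPF P G H.near r
    hi := H.hi }

end Crest.Agent.R017.EbC986
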