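import Crest.Agent.R017.EnU_743

/-!
# Row 17, block C70, leaf E4 (helper743): weighted sums over one class

* `wr_le` : `nm(r)^(-1/3) nm(S ν)^(4/3) ≤ 3 wI`
* **`Cls.sum_c`** : `∑_{i ∈ I'} w o ‖c i‖² nm(r)^(-1/3) nm(S ν)^(4/3) W i.2`
-/

set_option autoImplicit false

noncomputable section

open Complex Finset
open scoped ComplexConjugate

namespace Crest.Agent.R017.EnX743

open Crest.Agent.R012 Crest.Agent.R012.Eis Crest.Agent.R012.GaussLoc283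
open Crest.Agent.R012.Mob705 hiding pb mem_pb
open Crest.Agent.R012.Div277
open Crest.Agent.R017.Sx545 (Sm)
open Crest.Agent.R017.C70 (CbF JC OKJ)
open Crest.Agent.R017.GrB829 (IsC)
open Crest.Agent.R017.E4K164 (dc dc_spec)
open Crest.Agent.R017.E5b54 (stj stj_spec)
open Crest.Agent.R017.E4v92

variable {J : Finset (Eis × Eis)} {I I' : Finset (Eis × (Eis × Eis))}
  {sE : Eis → Eis} {m : ℕ → ℕ → ℕ}

lemma nm_IsC {c : Eis} (hc : IsC c) : 1 ≤ nm c ∧ nm c ≤ 9 := by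
  rcases hc with rfl | rfl | rfl | rfl
  · exact ⟨by norm_num [nm], by norm_num [nm]⟩
  · constructor <;> decide
  · constructor <;> decide
  · constructor <;> decide

/-- the weight through `nm r` -/
lemma wr_le {S j : Eis} (hS : IsPrim S) (hj : JC j) :
    (nm (dc (stj S j)).2.1 : ℝ) ^ (-(1 : ℝ) / 3) *
        (nm (S * (dc (stj S j)).2.2) : ℝ) ^ ((4 : ℝ) / 3) ≤
      3 * (((nm S : ℝ) * (nm (nuS S j) : ℝ) ^ 2 * nm (eS S j)) * (nm j : ℝ) ^ (-(1 : ℝ) / 3)) := by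
  obtain ⟨s1, s2, -, -, -, -, -⟩ := dc_spec (stj_spec hS hj).1
  have h1 := wt_eq hS hj
  have hc0 := nm_pos' s1.ne_zero
  have hr0 := nm_pos' s2.ne_zero
  have hc9 : (nm (dc (stj S j)).1 : ℝ) ≤ 27 := by
    have : (nm (dc (stj S j)).1 : ℝ) ≤ 9 := by exact_mod_cast (nm_IsC s1).2
    linarith
  have h2 : (nm (dc (stj S j)).2.1 : ℝ) ^ (-(1 : ℝ) / 3) ≤
      3 * (nm (crS S j) : ℝ) ^ (-(1 : ℝ) / 3) := by
    have e1 : (nm (crS S j) : ℝ) = nm (dc (stj S j)).1 * nm (dc (stj S j)).2.1 := by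
      unfold crS
      rw [nm_mul]
      push_cast
      ring
    rw [e1, Real.mul_rpow hc0.le hr0.le]
    have h3 : (1 / 3 : ℝ) ≤ (nm (dc (stj S j)).1 : ℝ) ^ (-(1 : ℝ) / 3) := by
      have h4 : (27 : ℝ) ^ (-(1 : ℝ) / 3) ≤ (nm (dc (stj S j)).1 : ℝ) ^ (-(1 : ℝ) / 3) :=
        Real.rpow_le_rpow_of_nonpos hc0 hc9 (by norm_num)
      have h5 : (27 : ℝ) ^ (-(1 : ℝ) / 3) = 1 / 3 := by
        rw [show (27 : ℝ) = 3 ^ (3 : ℝ) by norm_num, ← Real.rpow_mul (by norm_num)]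
        norm_num
      rw [h5] at h4
      exact h4
    have h6 : 0 ≤ (nm (dc (stj S j)).2.1 : ℝ) ^ (-(1 : ℝ) / 3) := Real.rpow_nonneg hr0.le _
    calc (nm (dc (stj S j)).2.1 : ℝ) ^ (-(1 : ℝ) / 3)
        = 3 * ((1 / 3) * (nm (dc (stj S j)).2.1 : ℝ) ^ (-(1 : ℝ) / 3)) := by ring
      _ ≤ _ := by gcongr
  have e2 : (nm (S * (dc (stj S j)).2.2) : ℝ) ^ ((4 : ℝ) / 3) =
      ((nm S : ℝ) * nm (nuS S j)) ^ (4 / 3 : ℝ) := by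
    unfold nuS
    rw [nm_mul]
    push_cast
    ring
  rw [e2]
  have h7 : 0 ≤ ((nm S : ℝ) * nm (nuS S j)) ^ (4 / 3 : ℝ) := Real.rpow_nonneg (by positivity) _
  calc (nm (dc (stj S j)).2.1 : ℝ) ^ (-(1 : ℝ) / 3) * ((nm S : ℝ) * nm (nuS S j)) ^ (4 / 3 : ℝ)
      ≤ (3 * (nm (crS S j) : ℝ) ^ (-(1 : ℝ) / 3)) *
        ((nm S : ℝ) * nm (nuS S j)) ^ (4 / 3 : ℝ) := mul_le_mul_of_nonneg_right h2 h7
    _ = 3 * (((nm S : ℝ) * nm (nuS S j)) ^ (4 / 3 : ℝ) *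
        (nm (crS S j) : ℝ) ^ (-(1 : ℝ) / 3)) := by ring
    _ = _ := by rw [h1]

/-- the coefficients -/
lemma norm_jC_le {ε : Eis → ℂ} {om : Eis × Eis → ℂ} {α : Eis → ℂ} {e₀ : Eis}
    {i : Eis × (Eis × Eis)} (hd : IsPrim i.2.1) (hε : ‖ε i.1‖ ≤ 1) :
    ‖E4D164.jC sE (E4D164.cE ε om α e₀) i‖ ^ 2 ≤ ‖om i.2‖ ^ 2 * ‖E2440.TE α i.2 e₀‖ ^ 2 := by
  have h5 : ‖sy (sE i.1) i.2.1‖ ≤ 1 := E2440.norm_sy_le1 hd
  unfold E4D164.jC E4D164.cE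
  rw [norm_mul, norm_mul, norm_mul, ← mul_pow]
  refine pow_le_pow_left₀ (by positivity) ?_ 2
  calc ‖ε i.1‖ * (‖om i.2‖ * ‖E2440.TE α i.2 e₀‖) * ‖sy (sE i.1) i.2.1‖
      ≤ 1 * (‖om i.2‖ * ‖E2440.TE α i.2 e₀‖) * 1 := by gcongr
    _ = _ := by ring

/-- **the right side of the energy forms** (842) :
`∑_i w o ‖c i‖² nm(r)^(-1/3) nm(S ν)^(4/3) W` -/
theorem Cls.sum_c (h : Cls J I sE m) (hJ : OKJ J) (hI' : I' ⊆ I) {w : Eis × Eis → ℝ} {Om : ℝ}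
    (hOm0 : 0 ≤ Om) (hw : ∀ i ∈ I', 0 ≤ w (oI sE i))
    (hOm : ∀ i ∈ I', w (oI sE i) * ((nm (sE i.1) : ℝ) * nm (nuS (sE i.1) i.2.2)) ^ 2 ≤ Om)
    {J' : Finset (Eis × Eis)} (hJ' : ∀ i ∈ I', i.2 ∈ J') (hJJ : J' ⊆ J)
    {ε : Eis → ℂ} (hε : ∀ q, ‖ε q‖ ≤ 1) {om : Eis × Eis → ℂ} {α : Eis → ℂ} {e₀ : Eis}
    {W : Eis × Eis → ℝ} (hW : ∀ y ∈ J, 0 ≤ W y) :
    ∑ i ∈ I', w (oI sE i) * (W i.2 * (‖E4D164.jC sE (E4D164.cE ε om α e₀) i‖ ^ 2 *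
        ((nm (dc (E4D164.jJ sE i)).2.1 : ℝ) ^ (-(1 : ℝ) / 3) *
          (nm (E4D164.jS sE i * (dc (E4D164.jJ sE i)).2.2) : ℝ) ^ ((4 : ℝ) / 3)))) ≤
      4800 * (Om * 2 ^ (nEm m + m 1 0) / 2 ^ nSm m) *
        ∑ y ∈ J', (tau y.2 : ℝ) * ((nm y.2 : ℝ) ^ (-(1 : ℝ) / 3) *
          (W y * (‖om y‖ ^ 2 * ‖E2440.TE α y e₀‖ ^ 2))) := by
  have h1 : ∀ i ∈ I', w (oI sE i) * (W i.2 * (‖E4D164.jC sE (E4D164.cE ε om α e₀) i‖ ^ 2 *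
        ((nm (dc (E4D164.jJ sE i)).2.1 : ℝ) ^ (-(1 : ℝ) / 3) *
          (nm (E4D164.jS sE i * (dc (E4D164.jJ sE i)).2.2) : ℝ) ^ ((4 : ℝ) / 3)))) ≤
      3 * (w (oI sE i) * (wI sE i * (W i.2 * (‖om i.2‖ ^ 2 * ‖E2440.TE α i.2 e₀‖ ^ 2)))) := by
    intro i hi
    have hi1 := hI' hi
    have hiJ := h.J i hi1
    obtain ⟨F', hF⟩ := h.sf i hi1
    have h2 := wr_le hF.prim (hJ.jc _ hiJ)
    have h3 := norm_jC_le (sE := sE) (om := om) (α := α) (e₀ := e₀) (hJ.prim _ hiJ) (hε i.1)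
    have h4 := hW _ hiJ
    have h5 : 0 ≤ (nm (dc (E4D164.jJ sE i)).2.1 : ℝ) ^ (-(1 : ℝ) / 3) *
        (nm (E4D164.jS sE i * (dc (E4D164.jJ sE i)).2.2) : ℝ) ^ ((4 : ℝ) / 3) :=
      mul_nonneg (Real.rpow_nonneg (Nat.cast_nonneg _) _)
        (Real.rpow_nonneg (Nat.cast_nonneg _) _)
    have h6 : W i.2 * (‖E4D164.jC sE (E4D164.cE ε om α e₀) i‖ ^ 2 *
        ((nm (dc (E4D164.jJ sE i)).2.1 : ℝ) ^ (-(1 : ℝ) / 3) *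
          (nm (E4D164.jS sE i * (dc (E4D164.jJ sE i)).2.2) : ℝ) ^ ((4 : ℝ) / 3))) ≤
        W i.2 * ((‖om i.2‖ ^ 2 * ‖E2440.TE α i.2 e₀‖ ^ 2) * (3 * wI sE i)) := by
      refine mul_le_mul_of_nonneg_left ?_ h4
      exact mul_le_mul h3 h2 h5 (by positivity)
    refine (mul_le_mul_of_nonneg_left h6 (hw i hi)).trans (le_of_eq ?_)
    ring
  refine (sum_le_sum h1).trans ?_
  rw [← mul_sum]
  have h6 := h.sum_le hJ hI' hOm0 hw hOm hJ' hJJ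
    (G := fun y => W y * (‖om y‖ ^ 2 * ‖E2440.TE α y e₀‖ ^ 2))
    (fun y hy => mul_nonneg (hW y hy) (by positivity))
  refine (mul_le_mul_of_nonneg_left h6 (by norm_num)).trans (le_of_eq (by ring))

end Crest.Agent.R017.EnX743
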