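import Crest.Agent.R017.EnQ_743
import Crest.Agent.R017.EnW_743
import Crest.Agent.R017.Str3_699

/-!
# Row 17, block C70, leaf E4 (helper743): the class sums at a fixed `(2,0)`-part

For indices with `pP 1 0 S j = β₀` (`β₀ = b3 (S ν)`, 699) the number of `q` over one pair is
`≤ tau j`; the factor `2 ^ (m 1 0)` disappears.

* `Cls.card_qB`, **`Cls.sum_leB`**, **`Cls.sum_cB`**
* **`en_clwB`**, **`en_vXwB`**, **`en_vXB`**, **`hb_vXB`**, **`hb_vXBm`** (children `nm δ ≤ Dm`)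
-/

set_option autoImplicit false

noncomputable section

open Complex Finset
open scoped ComplexConjugate

namespace Crest.Agent.R017.EnX743

open Crest.Agent.R012 Crest.Agent.R012.Eis Crest.Agent.R012.GaussLoc283
open Crest.Agent.R012.Mob705 hiding pb mem_pb
open Crest.Agent.R012.Div277
open Crest.Agent.R012.LS2 (S mem_S)
open Crest.Agent.R017.Sx545 (Sm)
open Crest.Agent.R017.C70 (CbF JC OKJ)
open Crest.Agent.R017.End699 (HC)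
open Crest.Agent.R017.E4352 (PrI)
open Crest.Agent.R017.E5B71
open Crest.Agent.R017.B770 (DPar)
open Crest.Agent.R017.E4K164 (dc dc_spec)
open Crest.Agent.R017.E5b54 (stj stj_spec JC_cf JC_ne_zero)
open Crest.Agent.R017.E4U164
open Crest.Agent.R017.E5k54 (alb)
open Crest.Agent.R017.E5L770
open Crest.Agent.R017.JxB679 (Ex Ex_nonneg)

section cls

variable {M c₀ g β₀ : Eis} {J : Finset (Eis × Eis)} {I I' : Finset (Eis × (Eis × Eis))}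
  {sE : Eis → Eis} {m : ℕ → ℕ → ℕ}

open Classical in
/-- the number of `q` over one `y`, fixed `(2,0)`-part -/
lemma Cls.card_qB (h : Cls J I sE m) (hJ : OKJ J) (hI' : I' ⊆ I)
    (hB : ∀ i ∈ I', pP 1 0 (sE i.1) i.2.2 = β₀) {y : Eis × Eis} (hy : y ∈ J) :
    ((I'.filter (fun i => i.2 = y)).card : ℝ) ≤ tau y.2 := by
  have hj := hJ.jc _ hy
  have h1 : (I'.filter (fun i => i.2 = y)).card ≤ (dvs y.2).card := by
    have hex : ∀ i ∈ I'.filter (fun i => i.2 = y), ∃ c, IsPrim c ∧ c ∣ y.2 ∧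
        i.1 = β₀ * c := by
      intro i hi
      obtain ⟨hi1, hi2⟩ := mem_filter.mp hi
      obtain ⟨F', k1⟩ := h.sf i (hI' hi1)
      have k2 := hB i hi1
      rw [← hi2] at hj ⊢
      rw [← k2]
      exact q_split k1 hj
    choose! cf hcf using hex
    refine card_le_card_of_injOn cf (fun i hi => ?_) (fun i hi i' hi' e => ?_)
    · rw [mem_coe] at hi
      obtain ⟨k1, k2, -⟩ := hcf i hi
      exact (mem_dvs (JC_ne_zero hj)).mpr ⟨k1, k2⟩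
    · rw [mem_coe] at hi hi'
      obtain ⟨-, -, k3⟩ := hcf i hi
      obtain ⟨-, -, k3'⟩ := hcf i' hi'
      have e3 : i.1 = i'.1 := by rw [k3, k3', e]
      exact Prod.ext e3 ((mem_filter.mp hi).2.trans (mem_filter.mp hi').2.symm)
  unfold tau
  exact_mod_cast h1

/-- **weighted sums over one class, fixed `(2,0)`-part** -/
theorem Cls.sum_leB (h : Cls J I sE m) (hJ : OKJ J)
    (hI' : I' ⊆ I) (hB : ∀ i ∈ I', pP 1 0 (sE i.1) i.2.2 = β₀)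
    {w : Eis × Eis → ℝ} {Om : ℝ} (hOm0 : 0 ≤ Om)
    (hw : ∀ i ∈ I', 0 ≤ w (oI sE i))
    (hOm : ∀ i ∈ I', w (oI sE i) * ((nm (sE i.1) : ℝ) * nm (nuS (sE i.1) i.2.2)) ^ 2 ≤ Om)
    {J' : Finset (Eis × Eis)} (hJ' : ∀ i ∈ I', i.2 ∈ J') (hJJ : J' ⊆ J)
    {G : Eis × Eis → ℝ} (hG : ∀ y ∈ J, 0 ≤ G y) :
    ∑ i ∈ I', w (oI sE i) * (wI sE i * G i.2) ≤
      8 * (Om * 2 ^ nEm m / 2 ^ nSm m) *
        ∑ y ∈ J', (tau y.2 : ℝ) * ((nm y.2 : ℝ) ^ (-(1 : ℝ) / 3) * G y) := by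
  classical
  set A : ℝ := Om * (8 * 2 ^ nEm m) / 2 ^ nSm m with hA
  have hA0 : 0 ≤ A := by positivity
  set H : Eis × Eis → ℝ := fun y => (nm y.2 : ℝ) ^ (-(1 : ℝ) / 3) * G y with hH
  have hH0 : ∀ y ∈ J, 0 ≤ H y := fun y hy =>
    mul_nonneg (Real.rpow_nonneg (Nat.cast_nonneg _) _) (hG y hy)
  have h2 : ∀ i ∈ I', w (oI sE i) * (wI sE i * G i.2) ≤ A * H i.2 := by
    intro i hi
    have hi1 := hI' hi
    have h8 := hOm i hi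
    have hw0 := hw i hi
    obtain ⟨F', hF⟩ := h.sf i hi1
    have hSp : IsPrim (sE i.1) := hF.prim
    have h4 : (2 : ℝ) ^ nSm m ≤ nm (sE i.1) := by exact_mod_cast h.nm_S hJ hi1
    have h5 : (nm (eS (sE i.1) i.2.2) : ℝ) ≤ 8 * 2 ^ nEm m := by exact_mod_cast h.nm_e hJ hi1
    have h6 := nm_pos' hSp.ne_zero
    have h7 : (0 : ℝ) < 2 ^ nSm m := by positivity
    have h10 : w (oI sE i) * ((nm (sE i.1) : ℝ) * (nm (nuS (sE i.1) i.2.2) : ℝ) ^ 2 *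
        nm (eS (sE i.1) i.2.2)) ≤ A := by
      set s := (nm (sE i.1) : ℝ)
      set v := (nm (nuS (sE i.1) i.2.2) : ℝ)
      set e := (nm (eS (sE i.1) i.2.2) : ℝ)
      set u := w (oI sE i)
      have he : 0 ≤ e := Nat.cast_nonneg _
      calc u * (s * v ^ 2 * e) = (u * (s * v) ^ 2) * e / s := by
            field_simp
        _ ≤ Om * (8 * 2 ^ nEm m) / s := by
            gcongr
        _ ≤ A := by
            rw [hA]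
            exact div_le_div_of_nonneg_left (by positivity) h7 h4
    have h11 := hH0 _ (h.J i hi1)
    calc w (oI sE i) * (wI sE i * G i.2) =
          (w (oI sE i) * ((nm (sE i.1) : ℝ) * (nm (nuS (sE i.1) i.2.2) : ℝ) ^ 2 *
            nm (eS (sE i.1) i.2.2))) * H i.2 := by
            unfold wI
            rw [hH]
            ring
      _ ≤ _ := mul_le_mul_of_nonneg_right h10 h11
  refine (sum_le_sum h2).trans ?_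
  have h4 : ∑ i ∈ I', A * H i.2 =
      ∑ y ∈ J', ((I'.filter (fun i => i.2 = y)).card : ℝ) * (A * H y) := by
    rw [← sum_fiberwise_of_maps_to (s := I') (t := J') (g := fun i => i.2) hJ']
    refine sum_congr rfl fun y hy => ?_
    rw [sum_congr rfl (fun i hi => by rw [(mem_filter.mp hi).2]), sum_const, nsmul_eq_mul]
  rw [h4]
  have h5 : ∑ y ∈ J', ((I'.filter (fun i => i.2 = y)).card : ℝ) * (A * H y) ≤
      ∑ y ∈ J', A * ((tau y.2 : ℝ) * H y) := by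
    refine sum_le_sum fun y hy => ?_
    have h6 := h.card_qB hJ hI' hB (hJJ hy)
    calc ((I'.filter (fun i => i.2 = y)).card : ℝ) * (A * H y) ≤ tau y.2 * (A * H y) :=
          mul_le_mul_of_nonneg_right h6 (mul_nonneg hA0 (hH0 y (hJJ hy)))
      _ = _ := by ring
  refine h5.trans (le_of_eq ?_)
  rw [← mul_sum, hA]
  ring

/-- **the right side of the energy forms** (842), fixed `(2,0)`-part -/
theorem Cls.sum_cB (h : Cls J I sE m) (hJ : OKJ J) (hI' : I' ⊆ I)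
    (hB : ∀ i ∈ I', pP 1 0 (sE i.1) i.2.2 = β₀) {w : Eis × Eis → ℝ} {Om : ℝ}
    (hOm0 : 0 ≤ Om) (hw : ∀ i ∈ I', 0 ≤ w (oI sE i))
    (hOm : ∀ i ∈ I', w (oI sE i) * ((nm (sE i.1) : ℝ) * nm (nuS (sE i.1) i.2.2)) ^ 2 ≤ Om)
    {J' : Finset (Eis × Eis)} (hJ' : ∀ i ∈ I', i.2 ∈ J') (hJJ : J' ⊆ J)
    {ε : Eis → ℂ} (hε : ∀ q, ‖ε q‖ ≤ 1) {om : Eis × Eis → ℂ} {α : Eis → ℂ} {e₀ : Eis}
    {W : Eis × Eis → ℝ} (hW : ∀ y ∈ J, 0 ≤ W y) :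
    ∑ i ∈ I', w (oI sE i) * (W i.2 * (‖E4D164.jC sE (E4D164.cE ε om α e₀) i‖ ^ 2 *
        ((nm (dc (E4D164.jJ sE i)).2.1 : ℝ) ^ (-(1 : ℝ) / 3) *
          (nm (E4D164.jS sE i * (dc (E4D164.jJ sE i)).2.2) : ℝ) ^ ((4 : ℝ) / 3)))) ≤
      24 * (Om * 2 ^ nEm m / 2 ^ nSm m) *
        ∑ y ∈ J', (tau y.2 : ℝ) * ((nm y.2 : ℝ) ^ (-(1 : ℝ) / 3) *
          (W y * (‖om y‖ ^ 2 * ‖E2440.TE α y e₀‖ ^ 2))) := by
  have h1 : ∀ i ∈ I', w (oI sE i) * (W i.2 * (‖E4D164.jC sE (E4D164.cE ε om α e₀) i‖ ^ 2 *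
        ((nm (dc (E4D164.jJ sE i)).2.1 : ℝ) ^ (-(1 : ℝ) / 3) *
          (nm (E4D164.jS sE i * (dc (E4D164.jJ sE i)).2.2) : ℝ) ^ ((4 : ℝ) / 3)))) ≤
      3 * (w (oI sE i) * (wI sE i * (W i.2 * (‖om i.2‖ ^ 2 * ‖E2440.TE α i.2 e₀‖ ^ 2)))) := by
    intro i hi
    have hi1 := hI' hi
    have hiJ := h.J i hi1
    obtain ⟨F', hF⟩ := h.sf i hi1
    have h2 := wr_le hF.prim (hJ.jc _ hiJ)
    have h3 := norm_jC_le (sE := sE) (om := om) (α := α) (e₀ := e₀) (hJ.prim _ hiJ) (hε i.1)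
    have h4 := hW _ hiJ
    have h5 : 0 ≤ (nm (dc (E4D164.jJ sE i)).2.1 : ℝ) ^ (-(1 : ℝ) / 3) *
        (nm (E4D164.jS sE i * (dc (E4D164.jJ sE i)).2.2) : ℝ) ^ ((4 : ℝ) / 3) :=
      mul_nonneg (Real.rpow_nonneg (Nat.cast_nonneg _) _)
        (Real.rpow_nonneg (Nat.cast_nonneg _) _)
    have h6 : W i.2 * (‖E4D164.jC sE (E4D164.cE ε om α e₀) i‖ ^ 2 *
        ((nm (dc (E4D164.jJ sE i)).2.1 : ℝ) ^ (-(1 : ℝ) / 3) *
          (nm (E4D164.jS sE i * (dc (E4D164.jJ sE i)).2.2) : ℝ) ^ ((4 : ℝ) / 3))) ≤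
        W i.2 * ((‖om i.2‖ ^ 2 * ‖E2440.TE α i.2 e₀‖ ^ 2) * (3 * wI sE i)) := by
      refine mul_le_mul_of_nonneg_left ?_ h4
      exact mul_le_mul h3 h2 h5 (by positivity)
    refine (mul_le_mul_of_nonneg_left h6 (hw i hi)).trans (le_of_eq ?_)
    ring
  refine (sum_le_sum h1).trans ?_
  rw [← mul_sum]
  have h6 := h.sum_leB hJ hI' hB hOm0 hw hOm hJ' hJJ
    (G := fun y => W y * (‖om y‖ ^ 2 * ‖E2440.TE α y e₀‖ ^ 2))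
    (fun y hy => mul_nonneg (hW y hy) (by positivity))
  refine (mul_le_mul_of_nonneg_left h6 (by norm_num)).trans (le_of_eq (by ring))

open Classical in
/-- **the class form of the energy, fixed `(2,0)`-part** -/
theorem en_clwB {ψ : Eis → ℂ} (hψ : HC M ψ) (l : ℤ) {f : Eis} (hf : IsPrim f) (hJ : OKJ J)
    (h : Cls J I sE m) {ε : Eis → ℂ} (hε : ∀ q, ‖ε q‖ ≤ 1) {om : Eis × Eis → ℂ} {α : Eis → ℂ}
    {e₀ : Eis} (hg : g ≠ 0) {O : Finset (Eis × Eis)}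
    (hB : ∀ i ∈ I, oI sE i ∈ O → pP 1 0 (sE i.1) i.2.2 = β₀) {w : Eis × Eis → ℝ} {Om : ℝ}
    (hOm0 : 0 ≤ Om) (hw : ∀ o ∈ O, 0 ≤ w o)
    (hOm : ∀ o ∈ O, w o * (nm (o.1 * o.2) : ℝ) ^ 2 ≤ Om) {P : Eis × Eis → Finset Eis} {δ : Eis}
    (hδ : Squarefree δ) (hP : ∀ o ∈ O, ∀ X ∈ P o, δ ^ 2 ∣ X) :
    ∑ o ∈ O, w o * ∑ X ∈ P o, ‖E4D164.vI M ψ l f I (E4D164.jS sE) E4D164.jD
        (E4D164.jJ sE) (E4D164.jC sE (E4D164.cE ε om α e₀)) c₀ g o X‖ ^ 2 ≤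
      8 * (Om * 2 ^ nEm m / 2 ^ nSm m) *
        TSd J om α e₀ δ (fun y => (tau y.2 : ℝ)) := by
  have hI : ∀ i ∈ I, i.2 ∈ J ∧ IsPrim (sE i.1) := fun i hi =>
    ⟨h.J i hi, (h.sf i hi).choose_spec.prim⟩
  have hFb : ∀ S, (((I.image Prod.fst).filter (fun b => sE b = S)).card : ℝ) ≤ 1 := by
    intro S
    have h1 : ((I.image Prod.fst).filter (fun b => sE b = S)).card ≤ 1 := by
      rw [card_le_one]
      intro b hb b' hb'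
      obtain ⟨h1, h2⟩ := mem_filter.mp hb
      obtain ⟨h1', h2'⟩ := mem_filter.mp hb'
      obtain ⟨i, hi, rfl⟩ := mem_image.mp h1
      obtain ⟨i', hi', rfl⟩ := mem_image.mp h1'
      obtain ⟨F, k⟩ := h.sf i hi
      obtain ⟨F₁, k₁⟩ := h.sf i' hi'
      rw [h2] at k
      rw [h2'] at k₁
      exact q_unique k k₁
    exact_mod_cast h1
  have h1 := en_gen (M := M) (c₀ := c₀) (g := g) hψ l hf hJ hI (Fb := 1)
    (fun S => by convert hFb S) (ε := ε)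
    (fun i _ => hε i.1) (om := om) (α := α) (e₀ := e₀) hg (O := O) (w := w)
    hw (P := P) hδ hP
  rw [one_mul] at h1
  refine h1.trans ?_
  unfold TSd
  refine h.sum_leB hJ (β₀ := β₀) (filter_subset _ _) (fun i hi => ?_) hOm0 (fun i hi => ?_)
    (fun i hi => ?_) (fun i hi => ?_) (filter_subset _ _)
    (G := fun y => ‖om y‖ ^ 2 * ‖E2440.TE α y e₀‖ ^ 2) (fun y _ => by positivity)
  · exact hB i (mem_filter.mp hi).1 (mem_filter.mp hi).2.2.1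
  · exact hw _ (mem_filter.mp hi).2.2.1
  · have h3 := hOm _ (mem_filter.mp hi).2.2.1
    have h9 : (nm ((oI sE i).1 * (oI sE i).2) : ℝ) =
        (nm (sE i.1) : ℝ) * nm (nuS (sE i.1) i.2.2) := by
      unfold oI
      rw [nm_mul]
      push_cast
      ring
    rw [h9] at h3
    exact h3
  · obtain ⟨h3, h4, -⟩ := mem_filter.mp hi
    exact mem_filter.mpr ⟨h.J i h3, h4⟩

end cls

section Dt

variable {Λ : Type*} {π : Λ → DPar} {lam : Λ × Eis} {Jf : ℝ → ℝ → ℝ → Finset (Eis × Eis)}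
  {a : Bd × ℕ} {x : Dt} {Bf : ℝ → ℝ → ℝ → ℝ} {e0 r ε X : ℝ}

/-- `b3 (S ν)` is the `(2,0)`-part -/
lemma b3_i (hJf : ∀ l N z, OKJ (Jf l N z)) (hx : x.OK (π lam.1) Bf e0 r ε X a.1) (ha : a.1.ok)
    (haP : a.1.okP (π lam.1)) {i : Eis × (Eis × Eis)} (hi : i ∈ x.I Jf a) :
    Str699.b3 ((oI (sS x.g x.e₀ x.t) i).1 * (oI (sS x.g x.e₀ x.t) i).2) =
      pP 1 0 (sS x.g x.e₀ x.t i.1) i.2.2 := by
  have hC := cls_Dt (Jf := Jf) hx ha haP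
  obtain ⟨F', hF⟩ := hC.sf i hi
  obtain ⟨g1, g2, g3⟩ := (E5P571.mem_Gd ha.2.2).mp hx.g
  obtain ⟨t1, t2, -⟩ := (E5P571.mem_Gd (E4D164.tS_prim (E_prim hx haP)).ne_zero).mp hx.t
  obtain ⟨-, e1, e2⟩ := (mem_S (Real.exp_pos _).le).mp hx.e₀
  obtain ⟨q1, q2, q3, -⟩ := hx.Q _ (Dt.mem_I.mp hi).1.1
  have h1 := Str699.b3_eq ((okJ3 hJf a.1 a.2).jc _ (hC.J i hi)) hF.prim fun p hp =>
    Str699.mult_sS_le g1.1 g2 e1 e2 t1.1 t2 q1.1 q2 (q3.of_isCoprime_of_dvd_right g3) hp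
  rw [pS_eq] at h1
  exact h1

open Classical in
/-- **the energy of the x-side of the data at fixed `b3 (S ν)`**, weight `w` -/
theorem en_vXwB {M : Eis} {ψ : Eis → ℂ} (hψ0 : HC M ψ) (l : ℤ) (hJf : ∀ l N z, OKJ (Jf l N z))
    (hx : x.OK (π lam.1) Bf e0 r ε X a.1) (ha : a.1.ok) (haP : a.1.okP (π lam.1))
    (om : Eis × Eis → ℂ) (α : Eis → ℂ)
    (Oc : Finset (OD M (x.I Jf a) x.g x.e₀ x.t)) {β₀ : Eis}
    (hB : ∀ o ∈ Oc, Str699.b3 (o.1.1 * o.1.2) = β₀) {w : Eis × Eis → ℝ} {Om : ℝ}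
    (hOm0 : 0 ≤ Om) (hw : ∀ o ∈ Oc, 0 ≤ w o.1) (hOm : ∀ o ∈ Oc, w o.1 * lD o ^ 2 ≤ Om) (V : ℝ)
    {δ : Eis} (hδ : Squarefree δ) :
    ∑ o ∈ Oc, w o.1 *
        Ex V (vX M ψ l (x.I Jf a) om x.ph (x.E a.1) α x.g x.e₀ x.t x.c₀ x.g' o) δ ≤
      8 * (Om * 2 ^ x.nE / 2 ^ x.nS) *
        TSd (J3 Jf a.1 a.2) om α x.e₀ δ (fun y => (tau y.2 : ℝ)) := by
  have hE := E_prim hx haP
  have hψ := E4D164.hc_psE hψ0 hE
  have hf : IsPrim (E4D164.fN M (x.E a.1)) := (E4D164.fM_spec hψ0.q0 hE).2.1.1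
  have hC := cls_Dt (Jf := Jf) hx ha haP
  have hg : x.g' ≠ 0 := hx.g'.1.ne_zero
  set O : Finset (Eis × Eis) := Oc.map ⟨Subtype.val, Subtype.val_injective⟩ with hOdef
  have h1 := en_clwB (M := M) (c₀ := x.c₀) (g := x.g') (β₀ := β₀) hψ l hf
    (okJ3 hJf a.1 a.2) hC (ε := x.ph) hx.ph (om := om) (α := α) (e₀ := x.e₀)
    hg (O := O) (fun i hi hio => by
      obtain ⟨o', ho', ho2⟩ := mem_map.mp hio
      have h2 := hB o' ho'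
      have h3 : o'.1 = oI (sS x.g x.e₀ x.t) i := ho2
      rw [h3, b3_i hJf hx ha haP hi] at h2
      exact h2) (w := w) hOm0 (fun o ho => by
      obtain ⟨o', ho', rfl⟩ := mem_map.mp ho
      exact hw o' ho') (fun o ho => by
      obtain ⟨o', ho', rfl⟩ := mem_map.mp ho
      exact hOm o' ho') (P := fun _ => (primBall ⌊V⌋₊).filter (fun X => δ ^ 2 ∣ X)) hδ
    (fun o _ X hX => (mem_filter.mp hX).2)
  rw [hOdef, sum_map, nSm_mm, nEm_mm] at h1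
  exact h1

open Classical in
/-- **the energy of the x-side of the data at fixed `b3 (S ν)`** -/
theorem en_vXB {M : Eis} {ψ : Eis → ℂ} (hψ0 : HC M ψ) (l : ℤ) (hJf : ∀ l N z, OKJ (Jf l N z))
    (hx : x.OK (π lam.1) Bf e0 r ε X a.1) (ha : a.1.ok) (haP : a.1.okP (π lam.1))
    (om : Eis × Eis → ℂ) (α : Eis → ℂ)
    (Oc : Finset (OD M (x.I Jf a) x.g x.e₀ x.t)) {β₀ : Eis}
    (hB : ∀ o ∈ Oc, Str699.b3 (o.1.1 * o.1.2) = β₀) {Lm : ℝ} (hO : ∀ o ∈ Oc, lD o ≤ Lm) (V : ℝ)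
    {δ : Eis} (hδ : Squarefree δ) :
    ∑ o ∈ Oc, Ex V (vX M ψ l (x.I Jf a) om x.ph (x.E a.1) α x.g x.e₀ x.t x.c₀ x.g' o) δ ≤
      8 * (Lm ^ 2 * 2 ^ x.nE / 2 ^ x.nS) *
        TSd (J3 Jf a.1 a.2) om α x.e₀ δ (fun y => (tau y.2 : ℝ)) := by
  have h1 := en_vXwB hψ0 l hJf hx ha haP om α Oc hB (w := fun _ => 1) (sq_nonneg Lm)
    (fun _ _ => zero_le_one) (fun o ho => by
      rw [one_mul]
      exact pow_le_pow_left₀ (Nat.cast_nonneg _) (hO o ho) 2) V hδ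
  simp only [one_mul] at h1
  exact h1

open Classical in
/-- **the large sieve total at fixed `b3 (S ν)`**, three weights -/
theorem hb_vXB {M : Eis} {ψ : Eis → ℂ} (hψ0 : HC M ψ) (l : ℤ) (hJf : ∀ l N z, OKJ (Jf l N z))
    (hx : x.OK (π lam.1) Bf e0 r ε X a.1) (ha : a.1.ok) (haP : a.1.okP (π lam.1))
    (om : Eis × Eis → ℂ) (α : Eis → ℂ)
    (Oc : Finset (OD M (x.I Jf a) x.g x.e₀ x.t)) {β₀ : Eis}
    (hB : ∀ o ∈ Oc, Str699.b3 (o.1.1 * o.1.2) = β₀) {Lm : ℝ} (hO : ∀ o ∈ Oc, lD o ≤ Lm) (V : ℝ)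
    {A₁ A₂ A₃ T : ℝ} (h1 : 0 ≤ A₁) (h2 : 0 ≤ A₂) (h3 : 0 ≤ A₃)
    (hT : ∀ y ∈ J3 Jf a.1 a.2, om y ≠ 0 → (tau y.1 : ℝ) * tau y.2 ≤ T)
    {D : Finset Eis} (hD : ∀ δ ∈ D, IsPrim δ ∧ Squarefree δ) :
    ∑ δ ∈ D, (nm δ : ℝ) * (A₁ + A₂ / (nm δ : ℝ) ^ 2 + A₃ / (nm δ : ℝ) ^ ((4 : ℝ) / 3)) *
        ∑ o ∈ Oc, Ex V (vX M ψ l (x.I Jf a) om x.ph (x.E a.1) α x.g x.e₀ x.t x.c₀ x.g' o) δ ≤
      8 * (Lm ^ 2 * 2 ^ x.nE / 2 ^ x.nS) * (T *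
        (A₁ * TWa (J3 Jf a.1 a.2) om α x.e₀ 1 1 + (A₂ + A₃) *
          TWa (J3 Jf a.1 a.2) om α x.e₀ 1 0)) := by
  set Cc : ℝ := 8 * (Lm ^ 2 * 2 ^ x.nE / 2 ^ x.nS) with hCc
  have hCc0 : 0 ≤ Cc := by positivity
  have hJ := okJ3 hJf a.1 a.2
  have e1 : ∑ δ ∈ D, (nm δ : ℝ) * (A₁ + A₂ / (nm δ : ℝ) ^ 2 + A₃ / (nm δ : ℝ) ^ ((4 : ℝ) / 3)) *
        ∑ o ∈ Oc, Ex V (vX M ψ l (x.I Jf a) om x.ph (x.E a.1) α x.g x.e₀ x.t x.c₀ x.g' o) δ ≤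
      Cc * ∑ δ ∈ D, (nm δ : ℝ) * (A₁ + A₂ / (nm δ : ℝ) ^ 2 + A₃ / (nm δ : ℝ) ^ ((4 : ℝ) / 3)) *
        TSd (J3 Jf a.1 a.2) om α x.e₀ δ (fun y => (tau y.2 : ℝ)) := by
    rw [mul_sum]
    refine sum_le_sum fun δ hδ => ?_
    have k1 := en_vXB hψ0 l hJf hx ha haP om α Oc hB hO V (hD δ hδ).2
    have k2 : 0 ≤ (nm δ : ℝ) * (A₁ + A₂ / (nm δ : ℝ) ^ 2 + A₃ / (nm δ : ℝ) ^ ((4 : ℝ) / 3)) := by
      positivity
    refine (mul_le_mul_of_nonneg_left k1 k2).trans (le_of_eq ?_)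
    rw [hCc]
    ring
  refine e1.trans (mul_le_mul_of_nonneg_left ?_ hCc0)
  refine (sum_TSd hJ (W := fun y => (tau y.2 : ℝ)) (fun _ _ => Nat.cast_nonneg _) h1 h2 h3
    (fun δ hδ => (hD δ hδ).1)).trans ?_
  have e2 : T * (A₁ * TWa (J3 Jf a.1 a.2) om α x.e₀ 1 1 + (A₂ + A₃) *
      TWa (J3 Jf a.1 a.2) om α x.e₀ 1 0) = ∑ y ∈ J3 Jf a.1 a.2, T * ((A₁ * nm y.1 + A₂ + A₃) *
        ((nm y.2 : ℝ) ^ (-(1 : ℝ) / 3) * (‖om y‖ ^ 2 * ‖E2440.TE α y x.e₀‖ ^ 2))) := by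
    unfold TWa
    have e3 : (J3 Jf a.1 a.2).filter (fun y => (1 : Eis) ∣ y.1) = J3 Jf a.1 a.2 :=
      filter_true_of_mem fun y _ => one_dvd _
    rw [e3, ← mul_sum, mul_sum (s := J3 Jf a.1 a.2) (a := A₁), mul_sum (s := J3 Jf a.1 a.2),
      ← sum_add_distrib]
    congr 1
    refine sum_congr rfl fun y _ => ?_
    rw [Real.rpow_one, Real.rpow_zero, show (-(1 : ℝ) / 3) = (-(1 / 3) : ℝ) by norm_num]
    ring
  rw [e2]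
  refine sum_le_sum fun y hy => ?_
  have h0 : 0 ≤ (nm y.2 : ℝ) ^ (-(1 : ℝ) / 3) := Real.rpow_nonneg (Nat.cast_nonneg _) _
  by_cases hom : om y = 0
  · rw [hom, norm_zero]
    simp
  · exact mul_le_mul_of_nonneg_right (hT y hy hom) (by positivity)

/-- the weight of a divisor `≤ Dm` -/
lemma sum_wt_min {d : Eis} (hd : IsPrim d) {Dm : ℝ} (T : Finset Eis)
    (hT : ∀ δ ∈ T, IsPrim δ ∧ δ ∣ d ∧ (nm δ : ℝ) ≤ Dm)
    {A₁ A₂ A₃ : ℝ} (h1 : 0 ≤ A₁) (h2 : 0 ≤ A₂) (h3 : 0 ≤ A₃) (hD : 0 ≤ Dm) :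
    ∑ δ ∈ T, (nm δ : ℝ) * (A₁ + A₂ / (nm δ : ℝ) ^ 2 + A₃ / (nm δ : ℝ) ^ ((4 : ℝ) / 3)) ≤
      tau d * (A₁ * min (nm d : ℝ) Dm + A₂ + A₃) := by
  have key : ∀ δ ∈ T, (nm δ : ℝ) * (A₁ + A₂ / (nm δ : ℝ) ^ 2 + A₃ / (nm δ : ℝ) ^ ((4 : ℝ) / 3)) ≤
      A₁ * min (nm d : ℝ) Dm + A₂ + A₃ := by
    intro δ hδ
    obtain ⟨k1, k2, k3⟩ := hT δ hδ
    have n1 : (1 : ℝ) ≤ nm δ := E1551.nm_ge_one k1.ne_zero
    have n0 : (0 : ℝ) < nm δ := by linarith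
    have n2 : (nm δ : ℝ) ≤ nm d := by exact_mod_cast nm_le_of_dvd hd.ne_zero k2
    have t1 : (nm δ : ℝ) * A₁ ≤ A₁ * min (nm d : ℝ) Dm := by
      rw [mul_comm]; exact mul_le_mul_of_nonneg_left (le_min n2 k3) h1
    have t2 : (nm δ : ℝ) * (A₂ / (nm δ : ℝ) ^ 2) ≤ A₂ := by
      have : (nm δ : ℝ) * (A₂ / (nm δ : ℝ) ^ 2) = A₂ / nm δ := by field_simp
      rw [this]
      exact div_le_self h2 n1
    have t3 : (nm δ : ℝ) * (A₃ / (nm δ : ℝ) ^ ((4 : ℝ) / 3)) ≤ A₃ := by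
      have h4 : (nm δ : ℝ) ≤ (nm δ : ℝ) ^ ((4 : ℝ) / 3) := by
        conv_lhs => rw [← Real.rpow_one (nm δ : ℝ)]
        exact Real.rpow_le_rpow_of_exponent_le n1 (by norm_num)
      have h5 : (0 : ℝ) < (nm δ : ℝ) ^ ((4 : ℝ) / 3) := by linarith
      rw [mul_div_assoc', div_le_iff₀ h5, mul_comm]
      exact mul_le_mul_of_nonneg_left h4 h3
    calc (nm δ : ℝ) * (A₁ + A₂ / (nm δ : ℝ) ^ 2 + A₃ / (nm δ : ℝ) ^ ((4 : ℝ) / 3))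
        = (nm δ : ℝ) * A₁ + (nm δ : ℝ) * (A₂ / (nm δ : ℝ) ^ 2) +
          (nm δ : ℝ) * (A₃ / (nm δ : ℝ) ^ ((4 : ℝ) / 3)) := by ring
      _ ≤ _ := by linarith
  refine (sum_le_sum key).trans ?_
  rw [sum_const, nsmul_eq_mul]
  refine mul_le_mul_of_nonneg_right (card_ch_le hd.ne_zero T
    (fun δ hδ => ⟨(hT δ hδ).1, (hT δ hδ).2.1⟩)) ?_
  have : 0 ≤ min (nm d : ℝ) Dm := le_min (Nat.cast_nonneg _) hD
  positivity

open Classical in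
/-- **the sum over the children `nm δ ≤ Dm`** : three weights -/
theorem sum_TSdm {J : Finset (Eis × Eis)} (hJ : OKJ J) {om : Eis × Eis → ℂ} {α : Eis → ℂ}
    {e₀ : Eis} {W : Eis × Eis → ℝ} (hW : ∀ y ∈ J, 0 ≤ W y) {A₁ A₂ A₃ Dm : ℝ} (h1 : 0 ≤ A₁)
    (h2 : 0 ≤ A₂) (h3 : 0 ≤ A₃) (hD : 0 ≤ Dm) {T : Finset Eis}
    (hT : ∀ δ ∈ T, IsPrim δ ∧ (nm δ : ℝ) ≤ Dm) :
    ∑ δ ∈ T, (nm δ : ℝ) * (A₁ + A₂ / (nm δ : ℝ) ^ 2 + A₃ / (nm δ : ℝ) ^ ((4 : ℝ) / 3)) *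
        TSd J om α e₀ δ W ≤
      ∑ y ∈ J, (tau y.1 * W y) * ((A₁ * min (nm y.1 : ℝ) Dm + A₂ + A₃) *
        ((nm y.2 : ℝ) ^ (-(1 : ℝ) / 3) * (‖om y‖ ^ 2 * ‖E2440.TE α y e₀‖ ^ 2))) := by
  unfold TSd
  simp only [mul_sum, sum_filter]
  rw [sum_comm]
  refine sum_le_sum fun y hy => ?_
  have h0 : 0 ≤ W y * ((nm y.2 : ℝ) ^ (-(1 : ℝ) / 3) *
      (‖om y‖ ^ 2 * ‖E2440.TE α y e₀‖ ^ 2)) := by
    have := Real.rpow_nonneg (Nat.cast_nonneg (nm y.2) : (0 : ℝ) ≤ _) (-(1 : ℝ) / 3)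
    have := hW y hy
    positivity
  have h4 := sum_wt_min (hJ.prim y hy) (T.filter (fun δ => δ ∣ y.1))
    (fun δ hδ => ⟨(hT δ (mem_filter.mp hδ).1).1, (mem_filter.mp hδ).2,
      (hT δ (mem_filter.mp hδ).1).2⟩) h1 h2 h3 hD
  have h5 := mul_le_mul_of_nonneg_right h4 h0
  rw [sum_mul, sum_filter] at h5
  refine le_trans (le_of_eq (sum_congr rfl fun δ _ => ?_)) (h5.trans (le_of_eq (by ring)))
  split_ifs <;> ring

open Classical in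
/-- **the large sieve total at fixed `b3 (S ν)`, children `nm δ ≤ Dm`** -/
theorem hb_vXBm {M : Eis} {ψ : Eis → ℂ} (hψ0 : HC M ψ) (l : ℤ) (hJf : ∀ l N z, OKJ (Jf l N z))
    (hx : x.OK (π lam.1) Bf e0 r ε X a.1) (ha : a.1.ok) (haP : a.1.okP (π lam.1))
    (om : Eis × Eis → ℂ) (α : Eis → ℂ)
    (Oc : Finset (OD M (x.I Jf a) x.g x.e₀ x.t)) {β₀ : Eis}
    (hB : ∀ o ∈ Oc, Str699.b3 (o.1.1 * o.1.2) = β₀) {Lm : ℝ} (hO : ∀ o ∈ Oc, lD o ≤ Lm) (V : ℝ)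
    {A₁ A₂ A₃ T Dm : ℝ} (h1 : 0 ≤ A₁) (h2 : 0 ≤ A₂) (h3 : 0 ≤ A₃) (hDm : 0 ≤ Dm)
    (hT : ∀ y ∈ J3 Jf a.1 a.2, om y ≠ 0 → (tau y.1 : ℝ) * tau y.2 ≤ T)
    {D : Finset Eis} (hD : ∀ δ ∈ D, IsPrim δ ∧ Squarefree δ ∧ (nm δ : ℝ) ≤ Dm) :
    ∑ δ ∈ D, (nm δ : ℝ) * (A₁ + A₂ / (nm δ : ℝ) ^ 2 + A₃ / (nm δ : ℝ) ^ ((4 : ℝ) / 3)) *
        ∑ o ∈ Oc, Ex V (vX M ψ l (x.I Jf a) om x.ph (x.E a.1) α x.g x.e₀ x.t x.c₀ x.g' o) δ ≤
      8 * (Lm ^ 2 * 2 ^ x.nE / 2 ^ x.nS) * (T *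
        (A₁ * min (TWa (J3 Jf a.1 a.2) om α x.e₀ 1 1) (Dm * TWa (J3 Jf a.1 a.2) om α x.e₀ 1 0) +
          (A₂ + A₃) * TWa (J3 Jf a.1 a.2) om α x.e₀ 1 0)) := by
  set Cc : ℝ := 8 * (Lm ^ 2 * 2 ^ x.nE / 2 ^ x.nS) with hCc
  have hCc0 : 0 ≤ Cc := by positivity
  have hJ := okJ3 hJf a.1 a.2
  have e1 : ∑ δ ∈ D, (nm δ : ℝ) * (A₁ + A₂ / (nm δ : ℝ) ^ 2 + A₃ / (nm δ : ℝ) ^ ((4 : ℝ) / 3)) *
        ∑ o ∈ Oc, Ex V (vX M ψ l (x.I Jf a) om x.ph (x.E a.1) α x.g x.e₀ x.t x.c₀ x.g' o) δ ≤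
      Cc * ∑ δ ∈ D, (nm δ : ℝ) * (A₁ + A₂ / (nm δ : ℝ) ^ 2 + A₃ / (nm δ : ℝ) ^ ((4 : ℝ) / 3)) *
        TSd (J3 Jf a.1 a.2) om α x.e₀ δ (fun y => (tau y.2 : ℝ)) := by
    rw [mul_sum]
    refine sum_le_sum fun δ hδ => ?_
    have k1 := en_vXB hψ0 l hJf hx ha haP om α Oc hB hO V (hD δ hδ).2.1
    have k2 : 0 ≤ (nm δ : ℝ) * (A₁ + A₂ / (nm δ : ℝ) ^ 2 + A₃ / (nm δ : ℝ) ^ ((4 : ℝ) / 3)) := by
      positivity
    refine (mul_le_mul_of_nonneg_left k1 k2).trans (le_of_eq ?_)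
    rw [hCc]
    ring
  refine e1.trans (mul_le_mul_of_nonneg_left ?_ hCc0)
  refine (sum_TSdm hJ (W := fun y => (tau y.2 : ℝ)) (fun _ _ => Nat.cast_nonneg _) h1 h2 h3 hDm
    (fun δ hδ => ⟨(hD δ hδ).1, (hD δ hδ).2.2⟩)).trans ?_
  have e3 : (J3 Jf a.1 a.2).filter (fun y => (1 : Eis) ∣ y.1) = J3 Jf a.1 a.2 :=
    filter_true_of_mem fun y _ => one_dvd _
  set F : Eis × Eis → ℝ := fun y =>
    (nm y.2 : ℝ) ^ (-(1 : ℝ) / 3) * (‖om y‖ ^ 2 * ‖E2440.TE α y x.e₀‖ ^ 2) with hF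
  have hF0 : ∀ y, 0 ≤ F y := fun y =>
    mul_nonneg (Real.rpow_nonneg (Nat.cast_nonneg _) _) (by positivity)
  have w1 : TWa (J3 Jf a.1 a.2) om α x.e₀ 1 1 = ∑ y ∈ J3 Jf a.1 a.2, (nm y.1 : ℝ) * F y := by
    unfold TWa
    rw [e3]
    refine sum_congr rfl fun y _ => ?_
    rw [Real.rpow_one, hF, show (-(1 : ℝ) / 3) = (-(1 / 3) : ℝ) by norm_num]
  have w0 : TWa (J3 Jf a.1 a.2) om α x.e₀ 1 0 = ∑ y ∈ J3 Jf a.1 a.2, F y := by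
    unfold TWa
    rw [e3]
    refine sum_congr rfl fun y _ => ?_
    rw [Real.rpow_zero, hF, one_mul, show (-(1 : ℝ) / 3) = (-(1 / 3) : ℝ) by norm_num]
  have m1 : ∑ y ∈ J3 Jf a.1 a.2, min (nm y.1 : ℝ) Dm * F y ≤
      min (TWa (J3 Jf a.1 a.2) om α x.e₀ 1 1) (Dm * TWa (J3 Jf a.1 a.2) om α x.e₀ 1 0) := by
    rw [w1, w0, mul_sum]
    refine le_min (sum_le_sum fun y _ => ?_) (sum_le_sum fun y _ => ?_)
    · exact mul_le_mul_of_nonneg_right (min_le_left _ _) (hF0 y)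
    · exact mul_le_mul_of_nonneg_right (min_le_right _ _) (hF0 y)
  have m2 : T * (A₁ * (∑ y ∈ J3 Jf a.1 a.2, min (nm y.1 : ℝ) Dm * F y) +
      (A₂ + A₃) * TWa (J3 Jf a.1 a.2) om α x.e₀ 1 0) =
      ∑ y ∈ J3 Jf a.1 a.2, T * ((A₁ * min (nm y.1 : ℝ) Dm + A₂ + A₃) * F y) := by
    rw [w0, ← mul_sum, mul_sum (s := J3 Jf a.1 a.2) (a := A₁), mul_sum (s := J3 Jf a.1 a.2),
      ← sum_add_distrib]
    congr 1
    refine sum_congr rfl fun y _ => ?_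
    ring
  have m3 : ∑ y ∈ J3 Jf a.1 a.2, (tau y.1 * tau y.2 : ℝ) *
      ((A₁ * min (nm y.1 : ℝ) Dm + A₂ + A₃) * F y) ≤
      ∑ y ∈ J3 Jf a.1 a.2, T * ((A₁ * min (nm y.1 : ℝ) Dm + A₂ + A₃) * F y) := by
    refine sum_le_sum fun y hy => ?_
    have hm : 0 ≤ min (nm y.1 : ℝ) Dm := le_min (Nat.cast_nonneg _) hDm
    by_cases hom : om y = 0
    · have : F y = 0 := by rw [hF]; simp [hom]
      rw [this]
      simp
    · exact mul_le_mul_of_nonneg_right (hT y hy hom) (mul_nonneg (by positivity) (hF0 y))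
  by_cases hne : 0 ≤ T
  · refine m3.trans ?_
    rw [← m2]
    exact mul_le_mul_of_nonneg_left (add_le_add_left (mul_le_mul_of_nonneg_left m1 h1) _) hne
  · -- every `om y` is `0`
    have hz : ∀ y ∈ J3 Jf a.1 a.2, F y = 0 := by
      intro y hy
      by_contra hc
      have : om y ≠ 0 := fun h => hc (by rw [hF]; simp [h])
      have h9 := hT y hy this
      have : (0 : ℝ) ≤ (tau y.1 : ℝ) * tau y.2 := by positivity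
      exact hne (this.trans h9)
    have z1 : TWa (J3 Jf a.1 a.2) om α x.e₀ 1 0 = 0 := by
      rw [w0]; exact sum_eq_zero hz
    have z2 : TWa (J3 Jf a.1 a.2) om α x.e₀ 1 1 = 0 := by
      rw [w1]; exact sum_eq_zero fun y hy => by rw [hz y hy, mul_zero]
    rw [z1, z2, mul_zero, min_self, mul_zero, mul_zero, add_zero, mul_zero]
    refine le_of_eq (sum_eq_zero fun y hy => ?_)
    have := hz y hy
    rw [hF] at this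
    simp only at this
    rw [this]
    simp

end Dt

end Crest.Agent.R017.EnX743
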