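import Crest.Agent.R017.EnB_743

/-!
# Row 17, block C70, leaf E4 (helper743): the energies over the frequencies that occur

The `T`-sums of `EnB_743` run over `J3`; only the `y` that occur in the class count.

* `xJB` : the `y ∈ J3` with an index of the class over them, `b3 (S ν) = β₀`
* **`en_clwBJ`**, **`en_vXwBJ`**, **`hb_vXBJ`**
-/

set_option autoImplicit false

noncomputable section

open Complex Finset
open scoped ComplexConjugate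

namespace Crest.Agent.R017.EnX743

open Crest.Agent.R012 Crest.Agent.R012.Eis Crest.Agent.R012.GaussLoc283
open Crest.Agent.R012.Mob705 hiding pb mem_pb
open Crest.Agent.R012.Div277
open Crest.Agent.R012.LS2 (S mem_S)
open Crest.Agent.R017.Sx545 (Sm)
open Crest.Agent.R017.C70 (CbF JC OKJ)
open Crest.Agent.R017.End699 (HC)
open Crest.Agent.R017.E4352 (PrI)
open Crest.Agent.R017.E5B71
open Crest.Agent.R017.B770 (DPar)
open Crest.Agent.R017.E4K164 (dc dc_spec)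
open Crest.Agent.R017.E5b54 (stj stj_spec JC_cf JC_ne_zero)
open Crest.Agent.R017.E4U164
open Crest.Agent.R017.E5k54 (alb)
open Crest.Agent.R017.E5L770
open Crest.Agent.R017.JxB679 (Ex Ex_nonneg)

lemma okJ_sub {J J₁ : Finset (Eis × Eis)} (hJ : OKJ J) (h : J₁ ⊆ J) : OKJ J₁ :=
  ⟨fun x hx => hJ.prim x (h hx), fun x hx => hJ.sqf x (h hx), fun x hx => hJ.jc x (h hx)⟩

section cls

variable {M c₀ g β₀ : Eis} {J : Finset (Eis × Eis)} {I I' : Finset (Eis × (Eis × Eis))}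
  {sE : Eis → Eis} {m : ℕ → ℕ → ℕ}

open Classical in
/-- **the class form of the energy, fixed `(2,0)`-part, frequencies that occur** -/
theorem en_clwBJ {ψ : Eis → ℂ} (hψ : HC M ψ) (l : ℤ) {f : Eis} (hf : IsPrim f) (hJ : OKJ J)
    (h : Cls J I sE m) {ε : Eis → ℂ} (hε : ∀ q, ‖ε q‖ ≤ 1) {om : Eis × Eis → ℂ} {α : Eis → ℂ}
    {e₀ : Eis} (hg : g ≠ 0) {O : Finset (Eis × Eis)}
    (hB : ∀ i ∈ I, oI sE i ∈ O → pP 1 0 (sE i.1) i.2.2 = β₀) {J₁ : Finset (Eis × Eis)}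
    (hJ₁ : ∀ i ∈ I, oI sE i ∈ O → i.2 ∈ J₁) (hJJ : J₁ ⊆ J) {w : Eis × Eis → ℝ} {Om : ℝ}
    (hOm0 : 0 ≤ Om) (hw : ∀ o ∈ O, 0 ≤ w o)
    (hOm : ∀ o ∈ O, w o * (nm (o.1 * o.2) : ℝ) ^ 2 ≤ Om) {P : Eis × Eis → Finset Eis} {δ : Eis}
    (hδ : Squarefree δ) (hP : ∀ o ∈ O, ∀ X ∈ P o, δ ^ 2 ∣ X) :
    ∑ o ∈ O, w o * ∑ X ∈ P o, ‖E4D164.vI M ψ l f I (E4D164.jS sE) E4D164.jD
        (E4D164.jJ sE) (E4D164.jC sE (E4D164.cE ε om α e₀)) c₀ g o X‖ ^ 2 ≤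
      8 * (Om * 2 ^ nEm m / 2 ^ nSm m) *
        TSd J₁ om α e₀ δ (fun y => (tau y.2 : ℝ)) := by
  have hI : ∀ i ∈ I, i.2 ∈ J ∧ IsPrim (sE i.1) := fun i hi =>
    ⟨h.J i hi, (h.sf i hi).choose_spec.prim⟩
  have hFb : ∀ S, (((I.image Prod.fst).filter (fun b => sE b = S)).card : ℝ) ≤ 1 := by
    intro S
    have h1 : ((I.image Prod.fst).filter (fun b => sE b = S)).card ≤ 1 := by
      rw [card_le_one]
      intro b hb b' hb'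
      obtain ⟨h1, h2⟩ := mem_filter.mp hb
      obtain ⟨h1', h2'⟩ := mem_filter.mp hb'
      obtain ⟨i, hi, rfl⟩ := mem_image.mp h1
      obtain ⟨i', hi', rfl⟩ := mem_image.mp h1'
      obtain ⟨F, k⟩ := h.sf i hi
      obtain ⟨F₁, k₁⟩ := h.sf i' hi'
      rw [h2] at k
      rw [h2'] at k₁
      exact q_unique k k₁
    exact_mod_cast h1
  have h1 := en_gen (M := M) (c₀ := c₀) (g := g) hψ l hf hJ hI (Fb := 1)
    (fun S => by convert hFb S) (ε := ε)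
    (fun i _ => hε i.1) (om := om) (α := α) (e₀ := e₀) hg (O := O) (w := w)
    hw (P := P) hδ hP
  rw [one_mul] at h1
  refine h1.trans ?_
  unfold TSd
  refine h.sum_leB hJ (β₀ := β₀) (filter_subset _ _) (fun i hi => ?_) hOm0 (fun i hi => ?_)
    (fun i hi => ?_) (fun i hi => ?_) ((filter_subset _ _).trans hJJ)
    (G := fun y => ‖om y‖ ^ 2 * ‖E2440.TE α y e₀‖ ^ 2) (fun y _ => by positivity)
  · exact hB i (mem_filter.mp hi).1 (mem_filter.mp hi).2.2.1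
  · exact hw _ (mem_filter.mp hi).2.2.1
  · have h3 := hOm _ (mem_filter.mp hi).2.2.1
    have h9 : (nm ((oI sE i).1 * (oI sE i).2) : ℝ) =
        (nm (sE i.1) : ℝ) * nm (nuS (sE i.1) i.2.2) := by
      unfold oI
      rw [nm_mul]
      push_cast
      ring
    rw [h9] at h3
    exact h3
  · obtain ⟨h3, h4, -⟩ := mem_filter.mp hi
    exact mem_filter.mpr ⟨hJ₁ i h3 (mem_filter.mp hi).2.2.1, h4⟩

end cls

section Dt

variable {Λ : Type*} {π : Λ → DPar} {lam : Λ × Eis} {Jf : ℝ → ℝ → ℝ → Finset (Eis × Eis)}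
  {a : Bd × ℕ} {x : Dt} {Bf : ℝ → ℝ → ℝ → ℝ} {e0 r ε X : ℝ}

open Classical in
/-- **the frequencies that occur** in the class of `x` at `b3 (S ν) = β₀` -/
def xJB (Jf : ℝ → ℝ → ℝ → Finset (Eis × Eis)) (a : Bd × ℕ) (x : Dt) (β₀ : Eis) :
    Finset (Eis × Eis) :=
  (J3 Jf a.1 a.2).filter fun y => ∃ i ∈ x.I Jf a, i.2 = y ∧
    Str699.b3 ((oI (sS x.g x.e₀ x.t) i).1 * (oI (sS x.g x.e₀ x.t) i).2) = β₀

lemma xJB_sub {β₀ : Eis} : xJB Jf a x β₀ ⊆ J3 Jf a.1 a.2 := filter_subset _ _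

open Classical in
/-- **the energy of the x-side of the data at fixed `b3 (S ν)`**, weight `w` -/
theorem en_vXwBJ {M : Eis} {ψ : Eis → ℂ} (hψ0 : HC M ψ) (l : ℤ) (hJf : ∀ l N z, OKJ (Jf l N z))
    (hx : x.OK (π lam.1) Bf e0 r ε X a.1) (ha : a.1.ok) (haP : a.1.okP (π lam.1))
    (om : Eis × Eis → ℂ) (α : Eis → ℂ)
    (Oc : Finset (OD M (x.I Jf a) x.g x.e₀ x.t)) {β₀ : Eis}
    (hB : ∀ o ∈ Oc, Str699.b3 (o.1.1 * o.1.2) = β₀) {w : Eis × Eis → ℝ} {Om : ℝ}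
    (hOm0 : 0 ≤ Om) (hw : ∀ o ∈ Oc, 0 ≤ w o.1) (hOm : ∀ o ∈ Oc, w o.1 * lD o ^ 2 ≤ Om) (V : ℝ)
    {δ : Eis} (hδ : Squarefree δ) :
    ∑ o ∈ Oc, w o.1 *
        Ex V (vX M ψ l (x.I Jf a) om x.ph (x.E a.1) α x.g x.e₀ x.t x.c₀ x.g' o) δ ≤
      8 * (Om * 2 ^ x.nE / 2 ^ x.nS) *
        TSd (xJB Jf a x β₀) om α x.e₀ δ (fun y => (tau y.2 : ℝ)) := by
  have hE := E_prim hx haP
  have hψ := E4D164.hc_psE hψ0 hE
  have hf : IsPrim (E4D164.fN M (x.E a.1)) := (E4D164.fM_spec hψ0.q0 hE).2.1.1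
  have hC := cls_Dt (Jf := Jf) hx ha haP
  have hg : x.g' ≠ 0 := hx.g'.1.ne_zero
  set O : Finset (Eis × Eis) := Oc.map ⟨Subtype.val, Subtype.val_injective⟩ with hOdef
  have hb3 : ∀ i ∈ x.I Jf a, oI (sS x.g x.e₀ x.t) i ∈ O →
      Str699.b3 ((oI (sS x.g x.e₀ x.t) i).1 * (oI (sS x.g x.e₀ x.t) i).2) = β₀ := by
    intro i hi hio
    obtain ⟨o', ho', ho2⟩ := mem_map.mp hio
    have h2 := hB o' ho'
    have h3 : o'.1 = oI (sS x.g x.e₀ x.t) i := ho2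
    rw [h3] at h2
    exact h2
  have h1 := en_clwBJ (M := M) (c₀ := x.c₀) (g := x.g') (β₀ := β₀) hψ l hf
    (okJ3 hJf a.1 a.2) hC (ε := x.ph) hx.ph (om := om) (α := α) (e₀ := x.e₀)
    hg (O := O) (fun i hi hio => by
      rw [← b3_i hJf hx ha haP hi]
      exact hb3 i hi hio) (J₁ := xJB Jf a x β₀) (fun i hi hio =>
        mem_filter.mpr ⟨hC.J i hi, i, hi, rfl, hb3 i hi hio⟩) xJB_sub
    (w := w) hOm0 (fun o ho => by
      obtain ⟨o', ho', rfl⟩ := mem_map.mp ho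
      exact hw o' ho') (fun o ho => by
      obtain ⟨o', ho', rfl⟩ := mem_map.mp ho
      exact hOm o' ho') (P := fun _ => (primBall ⌊V⌋₊).filter (fun X => δ ^ 2 ∣ X)) hδ
    (fun o _ X hX => (mem_filter.mp hX).2)
  rw [hOdef, sum_map, nSm_mm, nEm_mm] at h1
  exact h1

open Classical in
/-- **the energy of the x-side of the data at fixed `b3 (S ν)`** -/
theorem en_vXBJ {M : Eis} {ψ : Eis → ℂ} (hψ0 : HC M ψ) (l : ℤ) (hJf : ∀ l N z, OKJ (Jf l N z))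
    (hx : x.OK (π lam.1) Bf e0 r ε X a.1) (ha : a.1.ok) (haP : a.1.okP (π lam.1))
    (om : Eis × Eis → ℂ) (α : Eis → ℂ)
    (Oc : Finset (OD M (x.I Jf a) x.g x.e₀ x.t)) {β₀ : Eis}
    (hB : ∀ o ∈ Oc, Str699.b3 (o.1.1 * o.1.2) = β₀) {Lm : ℝ} (hO : ∀ o ∈ Oc, lD o ≤ Lm) (V : ℝ)
    {δ : Eis} (hδ : Squarefree δ) :
    ∑ o ∈ Oc, Ex V (vX M ψ l (x.I Jf a) om x.ph (x.E a.1) α x.g x.e₀ x.t x.c₀ x.g' o) δ ≤
      8 * (Lm ^ 2 * 2 ^ x.nE / 2 ^ x.nS) *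
        TSd (xJB Jf a x β₀) om α x.e₀ δ (fun y => (tau y.2 : ℝ)) := by
  have h1 := en_vXwBJ hψ0 l hJf hx ha haP om α Oc hB (w := fun _ => 1) (sq_nonneg Lm)
    (fun _ _ => zero_le_one) (fun o ho => by
      rw [one_mul]
      exact pow_le_pow_left₀ (Nat.cast_nonneg _) (hO o ho) 2) V hδ
  simp only [one_mul] at h1
  exact h1

open Classical in
/-- **the large sieve total at fixed `b3 (S ν)`, children `nm δ ≤ Dm`, frequencies that occur** -/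
theorem hb_vXBJ {M : Eis} {ψ : Eis → ℂ} (hψ0 : HC M ψ) (l : ℤ) (hJf : ∀ l N z, OKJ (Jf l N z))
    (hx : x.OK (π lam.1) Bf e0 r ε X a.1) (ha : a.1.ok) (haP : a.1.okP (π lam.1))
    (om : Eis × Eis → ℂ) (α : Eis → ℂ)
    (Oc : Finset (OD M (x.I Jf a) x.g x.e₀ x.t)) {β₀ : Eis}
    (hB : ∀ o ∈ Oc, Str699.b3 (o.1.1 * o.1.2) = β₀) {Lm : ℝ} (hO : ∀ o ∈ Oc, lD o ≤ Lm) (V : ℝ)
    {A₁ A₂ A₃ T Dm : ℝ} (h1 : 0 ≤ A₁) (h2 : 0 ≤ A₂) (h3 : 0 ≤ A₃) (hDm : 0 ≤ Dm)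
    (hT : ∀ y ∈ J3 Jf a.1 a.2, om y ≠ 0 → (tau y.1 : ℝ) * tau y.2 ≤ T)
    {D : Finset Eis} (hD : ∀ δ ∈ D, IsPrim δ ∧ Squarefree δ ∧ (nm δ : ℝ) ≤ Dm) :
    ∑ δ ∈ D, (nm δ : ℝ) * (A₁ + A₂ / (nm δ : ℝ) ^ 2 + A₃ / (nm δ : ℝ) ^ ((4 : ℝ) / 3)) *
        ∑ o ∈ Oc, Ex V (vX M ψ l (x.I Jf a) om x.ph (x.E a.1) α x.g x.e₀ x.t x.c₀ x.g' o) δ ≤
      8 * (Lm ^ 2 * 2 ^ x.nE / 2 ^ x.nS) * (T *
        (A₁ * min (TWa (xJB Jf a x β₀) om α x.e₀ 1 1) (Dm * TWa (xJB Jf a x β₀) om α x.e₀ 1 0) +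
          (A₂ + A₃) * TWa (xJB Jf a x β₀) om α x.e₀ 1 0)) := by
  set Cc : ℝ := 8 * (Lm ^ 2 * 2 ^ x.nE / 2 ^ x.nS) with hCc
  have hCc0 : 0 ≤ Cc := by positivity
  have hJ := okJ_sub (okJ3 hJf a.1 a.2) (xJB_sub (x := x) (β₀ := β₀))
  have e1 : ∑ δ ∈ D, (nm δ : ℝ) * (A₁ + A₂ / (nm δ : ℝ) ^ 2 + A₃ / (nm δ : ℝ) ^ ((4 : ℝ) / 3)) *
        ∑ o ∈ Oc, Ex V (vX M ψ l (x.I Jf a) om x.ph (x.E a.1) α x.g x.e₀ x.t x.c₀ x.g' o) δ ≤
      Cc * ∑ δ ∈ D, (nm δ : ℝ) * (A₁ + A₂ / (nm δ : ℝ) ^ 2 + A₃ / (nm δ : ℝ) ^ ((4 : ℝ) / 3)) *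
        TSd (xJB Jf a x β₀) om α x.e₀ δ (fun y => (tau y.2 : ℝ)) := by
    rw [mul_sum]
    refine sum_le_sum fun δ hδ => ?_
    have k1 := en_vXBJ hψ0 l hJf hx ha haP om α Oc hB hO V (hD δ hδ).2.1
    have k2 : 0 ≤ (nm δ : ℝ) * (A₁ + A₂ / (nm δ : ℝ) ^ 2 + A₃ / (nm δ : ℝ) ^ ((4 : ℝ) / 3)) := by
      positivity
    refine (mul_le_mul_of_nonneg_left k1 k2).trans (le_of_eq ?_)
    rw [hCc]
    ring
  refine e1.trans (mul_le_mul_of_nonneg_left ?_ hCc0)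
  refine (sum_TSdm hJ (W := fun y => (tau y.2 : ℝ)) (fun _ _ => Nat.cast_nonneg _) h1 h2 h3 hDm
    (fun δ hδ => ⟨(hD δ hδ).1, (hD δ hδ).2.2⟩)).trans ?_
  have e3 : (xJB Jf a x β₀).filter (fun y => (1 : Eis) ∣ y.1) = xJB Jf a x β₀ :=
    filter_true_of_mem fun y _ => one_dvd _
  set F : Eis × Eis → ℝ := fun y =>
    (nm y.2 : ℝ) ^ (-(1 : ℝ) / 3) * (‖om y‖ ^ 2 * ‖E2440.TE α y x.e₀‖ ^ 2) with hF
  have hF0 : ∀ y, 0 ≤ F y := fun y =>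
    mul_nonneg (Real.rpow_nonneg (Nat.cast_nonneg _) _) (by positivity)
  have w1 : TWa (xJB Jf a x β₀) om α x.e₀ 1 1 = ∑ y ∈ xJB Jf a x β₀, (nm y.1 : ℝ) * F y := by
    unfold TWa
    rw [e3]
    refine sum_congr rfl fun y _ => ?_
    rw [Real.rpow_one, hF, show (-(1 : ℝ) / 3) = (-(1 / 3) : ℝ) by norm_num]
  have w0 : TWa (xJB Jf a x β₀) om α x.e₀ 1 0 = ∑ y ∈ xJB Jf a x β₀, F y := by
    unfold TWa
    rw [e3]
    refine sum_congr rfl fun y _ => ?_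
    rw [Real.rpow_zero, hF, one_mul, show (-(1 : ℝ) / 3) = (-(1 / 3) : ℝ) by norm_num]
  have m1 : ∑ y ∈ xJB Jf a x β₀, min (nm y.1 : ℝ) Dm * F y ≤
      min (TWa (xJB Jf a x β₀) om α x.e₀ 1 1) (Dm * TWa (xJB Jf a x β₀) om α x.e₀ 1 0) := by
    rw [w1, w0, mul_sum]
    refine le_min (sum_le_sum fun y _ => ?_) (sum_le_sum fun y _ => ?_)
    · exact mul_le_mul_of_nonneg_right (min_le_left _ _) (hF0 y)
    · exact mul_le_mul_of_nonneg_right (min_le_right _ _) (hF0 y)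
  have m2 : T * (A₁ * (∑ y ∈ xJB Jf a x β₀, min (nm y.1 : ℝ) Dm * F y) +
      (A₂ + A₃) * TWa (xJB Jf a x β₀) om α x.e₀ 1 0) =
      ∑ y ∈ xJB Jf a x β₀, T * ((A₁ * min (nm y.1 : ℝ) Dm + A₂ + A₃) * F y) := by
    rw [w0, ← mul_sum, mul_sum (s := xJB Jf a x β₀) (a := A₁), mul_sum (s := xJB Jf a x β₀),
      ← sum_add_distrib]
    congr 1
    refine sum_congr rfl fun y _ => ?_
    ring
  have m3 : ∑ y ∈ xJB Jf a x β₀, (tau y.1 * tau y.2 : ℝ) *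
      ((A₁ * min (nm y.1 : ℝ) Dm + A₂ + A₃) * F y) ≤
      ∑ y ∈ xJB Jf a x β₀, T * ((A₁ * min (nm y.1 : ℝ) Dm + A₂ + A₃) * F y) := by
    refine sum_le_sum fun y hy => ?_
    have hm : 0 ≤ min (nm y.1 : ℝ) Dm := le_min (Nat.cast_nonneg _) hDm
    by_cases hom : om y = 0
    · have : F y = 0 := by rw [hF]; simp [hom]
      rw [this]
      simp
    · exact mul_le_mul_of_nonneg_right (hT y (xJB_sub hy) hom) (mul_nonneg (by positivity) (hF0 y))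
  by_cases hne : 0 ≤ T
  · refine m3.trans ?_
    rw [← m2]
    exact mul_le_mul_of_nonneg_left (add_le_add_left (mul_le_mul_of_nonneg_left m1 h1) _) hne
  · -- every `om y` is `0`
    have hz : ∀ y ∈ xJB Jf a x β₀, F y = 0 := by
      intro y hy
      by_contra hc
      have : om y ≠ 0 := fun h => hc (by rw [hF]; simp [h])
      have h9 := hT y (xJB_sub hy) this
      have : (0 : ℝ) ≤ (tau y.1 : ℝ) * tau y.2 := by positivity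
      exact hne (this.trans h9)
    have z1 : TWa (xJB Jf a x β₀) om α x.e₀ 1 0 = 0 := by
      rw [w0]; exact sum_eq_zero hz
    have z2 : TWa (xJB Jf a x β₀) om α x.e₀ 1 1 = 0 := by
      rw [w1]; exact sum_eq_zero fun y hy => by rw [hz y hy, mul_zero]
    rw [z1, z2, mul_zero, min_self, mul_zero, mul_zero, add_zero, mul_zero]
    refine le_of_eq (sum_eq_zero fun y hy => ?_)
    have := hz y hy
    rw [hF] at this
    simp only at this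
    rw [this]
    simp

end Dt

end Crest.Agent.R017.EnX743
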