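import Crest.Agent.R017.EnR_743

/-!
# Row 17, block C70, leaf E4 (helper743): the support of the x-side in one class

* `Cls.le_nm_e`, `Cls.nm_S_le` : the other halves of the class sizes
* `vI_ne` : the datum behind a nonzero value, any index set
* **`supp_cls`** : primary, cube-free, size, and the `S`-part of `x`
-/

set_option autoImplicit false

noncomputable section

open Complex Finset
open scoped ComplexConjugate

namespace Crest.Agent.R017.EnX743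

open Crest.Agent.R012 Crest.Agent.R012.Eis Crest.Agent.R012.GaussLoc283
open Crest.Agent.R012.Mob705 hiding pb mem_pb
open Crest.Agent.R012.Div277
open Crest.Agent.R017.Sx545 (Sm)
open Crest.Agent.R017.C70 (CbF JC OKJ)
open Crest.Agent.R017.GrB829 (IsC)
open Crest.Agent.R017.End699 (HC)
open Crest.Agent.R017.E4352 (PrI)
open Crest.Agent.R017.E4K164 (dc dc_spec)
open Crest.Agent.R017.E5b54 (stj stj_spec JC_cf JC_ne_zero)
open Crest.Agent.R017.E4579 (SupB bpt bco bpt_prim bpt_sup bpt_dvd bpt_mul bpt_mul_bco bco_cop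
  bco_prim bpt_eq)
open Crest.Agent.R017.E4v92

/-! ### sizes -/

section loc

variable {S₀ j : Eis}

/-- the forced primes of the cube part -/
lemma dvd_eS (hS : IsPrim S₀) (hj : JC j) {p : Eis} (hp : IsPP p)
    (h3 : 3 ≤ multiplicity p j + multiplicity p S₀) : p ∣ eS S₀ j := by
  by_contra hpe
  have hd : p ^ 3 ∣ j * S₀ := by
    refine (pow_dvd_pow p h3).trans ?_
    rw [pow_add]
    exact mul_dvd_mul (pow_multiplicity_dvd p j) (pow_multiplicity_dvd p S₀)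
  rw [(eS_spec hS hj).2] at hd
  have hcop : IsCoprime (p ^ 3) (eS S₀ j ^ 3) :=
    ((hp.2.irreducible.coprime_iff_not_dvd).mpr hpe).pow
  exact (JC_cf (stj_spec hS hj).1).2 p hp.2 (hcop.dvd_of_dvd_mul_right hd)

lemma le_nm_e (hS : IsPrim S₀) (hj : JC j) :
    nm (pP 0 2 S₀ j) * (nm (pP 1 1 S₀ j) * nm (pP 1 2 S₀ j)) ≤ nm (eS S₀ j) := by
  classical
  have hd1 : Disjoint (pA 1 1 S₀ j) (pA 1 2 S₀ j) := by
    rw [Finset.disjoint_left]
    intro p hp hp'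
    have h1 := (mem_pA hp).2.2.2
    have h2 := (mem_pA hp').2.2.2
    omega
  have hd2 : Disjoint (pA 0 2 S₀ j) (pA 1 1 S₀ j ∪ pA 1 2 S₀ j) := by
    rw [Finset.disjoint_left]
    intro p hp hp'
    have h1 := (mem_pA hp).2.2.1
    rcases mem_union.mp hp' with h | h
    · have h2 := (mem_pA h).2.2.1
      omega
    · have h2 := (mem_pA h).2.2.1
      omega
  have hT : PPSet (pA 0 2 S₀ j ∪ (pA 1 1 S₀ j ∪ pA 1 2 S₀ j)) := by
    intro p hp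
    rcases mem_union.mp hp with h | h
    · exact (mem_pA h).1
    · rcases mem_union.mp h with h | h
      · exact (mem_pA h).1
      · exact (mem_pA h).1
  have h1 : ∏ p ∈ pA 0 2 S₀ j ∪ (pA 1 1 S₀ j ∪ pA 1 2 S₀ j), p ∣ eS S₀ j := by
    refine hT.prod_dvd.mpr fun p hp => ?_
    rcases mem_union.mp hp with h | h
    · obtain ⟨k1, -, k3, k4⟩ := mem_pA h
      exact dvd_eS hS hj k1 (by omega)
    · rcases mem_union.mp h with h | h
      · obtain ⟨k1, -, k3, k4⟩ := mem_pA h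
        exact dvd_eS hS hj k1 (by omega)
      · obtain ⟨k1, -, k3, k4⟩ := mem_pA h
        exact dvd_eS hS hj k1 (by omega)
  have h2 := nm_le_of_dvd (eS_spec hS hj).1.ne_zero h1
  rw [prod_union hd2, prod_union hd1, nm_mul, nm_mul] at h2
  exact h2

end loc

section cls

variable {M c₀ g : Eis} {J : Finset (Eis × Eis)} {I : Finset (Eis × (Eis × Eis))}
  {sE : Eis → Eis} {m : ℕ → ℕ → ℕ}

lemma Cls.le_nm_e (h : Cls J I sE m) (hJ : OKJ J) {i : Eis × (Eis × Eis)} (hi : i ∈ I) :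
    2 ^ nEm m ≤ nm (eS (sE i.1) i.2.2) := by
  obtain ⟨F', h1⟩ := h.sf i hi
  have hj := hJ.jc _ (h.J i hi)
  refine le_trans ?_ (EnX743.le_nm_e h1.prim hj)
  have l := h.lo i hi
  unfold nEm
  rw [pow_add, pow_add, mul_assoc]
  exact Nat.mul_le_mul (l 0 (by norm_num) 2 (by norm_num))
    (Nat.mul_le_mul (l 1 (by norm_num) 1 (by norm_num)) (l 1 (by norm_num) 2 (by norm_num)))

lemma Cls.nm_S_le (h : Cls J I sE m) (hJ : OKJ J) {i : Eis × (Eis × Eis)} (hi : i ∈ I) :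
    nm (sE i.1) ≤ 2 ^ (nSm m + 9) := by
  obtain ⟨F', h1⟩ := h.sf i hi
  have hj := hJ.jc _ (h.J i hi)
  have u := h.hi i hi
  have e : nm (sE i.1) = nm i.1 ^ 2 * nm F' := by rw [h1.S, nm_mul, nm_pow]
  rw [e, nm_q h1 hj, nm_F h1 hj]
  have e2 : 2 ^ (nSm m + 9) = (2 ^ (m 1 0 + 1) * 2 ^ (m 1 1 + 1) * 2 ^ (m 1 2 + 1)) ^ 2 *
      (2 ^ (m 0 0 + 1) * 2 ^ (m 0 1 + 1) * 2 ^ (m 0 2 + 1)) := by
    unfold nSm
    ring
  rw [e2]
  have a0 := (u 0 (by norm_num) 0 (by norm_num)).le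
  have a1 := (u 0 (by norm_num) 1 (by norm_num)).le
  have a2 := (u 0 (by norm_num) 2 (by norm_num)).le
  have b0 := (u 1 (by norm_num) 0 (by norm_num)).le
  have b1 := (u 1 (by norm_num) 1 (by norm_num)).le
  have b2 := (u 1 (by norm_num) 2 (by norm_num)).le
  exact Nat.mul_le_mul (Nat.pow_le_pow_left (Nat.mul_le_mul (Nat.mul_le_mul b0 b1) b2) 2)
    (Nat.mul_le_mul (Nat.mul_le_mul a0 a1) a2)

/-- the datum behind a nonzero value -/
lemma vI_ne {B : Type*} {ψ : Eis → ℂ} {l : ℤ} {f : Eis} {I : Finset (B × (Eis × Eis))}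
    {sE : B → Eis} (hJ : OKJ J) (hI : ∀ i ∈ I, i.2 ∈ J) {ε : B → ℂ} {om : Eis × Eis → ℂ}
    {α : Eis → ℂ} {e₀ : Eis} {o : Eis × Eis} {X : Eis}
    (h : E4D164.vI M ψ l f I (E4D164.jS sE) E4D164.jD (E4D164.jJ sE)
        (E4D164.jC sE (E4D164.cE ε om α e₀)) c₀ g o X ≠ 0) :
    Sm M X ∧ ∃ i ∈ I, sE i.1 = o.1 ∧ Cy (sE i.1) c₀ g o.2 i.2 X ∧
      IsCoprime i.2.2 i.2.1 ∧ IsCoprime (sE i.1) i.2.1 ∧ om i.2 ≠ 0 := by
  classical
  unfold E4D164.vI at h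
  obtain ⟨h1, i, hi, h2, h3⟩ := E4D164.pu_ne h
  unfold E4D164.II at hi
  obtain ⟨hi1, k1, k2, k3⟩ := mem_filter.mp hi
  obtain ⟨c1, c2, c3⟩ := cI_cop hJ (hI i hi1) h3
  exact ⟨h1, i, hi1, k2, ⟨k1, k3, h2⟩, c1, c2, c3⟩

/-- **the support of the x-side in one class** -/
theorem supp_cls {ψ : Eis → ℂ} {l : ℤ} {f : Eis} (hJ : OKJ J)
    (h : Cls J I sE m) {ε : Eis → ℂ} {om : Eis × Eis → ℂ} {α : Eis → ℂ}
    {e₀ : Eis} (hg : PrI M g) {V : ℝ}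
    (hV : ∀ y ∈ J, om y ≠ 0 → (nm (y.2 * y.1 ^ 2) : ℝ) ≤ V) {o : Eis × Eis}
    (ho : Sm M (o.1 * o.2)) {X : Eis}
    (hX : E4D164.vI M ψ l f I (E4D164.jS sE) E4D164.jD
        (E4D164.jJ sE) (E4D164.jC sE (E4D164.cE ε om α e₀)) c₀ g o X ≠ 0) :
    IsPrim X ∧ IsPrim o.1 ∧ CbF X ∧
      (nm X : ℝ) * (nm (o.1 * o.2) : ℝ) ^ 2 ≤ 2 ^ 27 * (V * 8 ^ nSm m / 8 ^ nEm m) ∧
      Squarefree (bpt o.1 X) ∧ 2 ^ (m 0 0 + m 1 2) ≤ nm (bpt o.1 X) ∧
      nm (bpt o.1 X) ≤ 2 ^ (m 0 0 + m 1 2 + 2) ∧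
      ∃ i ∈ I, sE i.1 = o.1 ∧ bpt o.1 X = pP 0 0 (sE i.1) i.2.2 * pP 1 2 (sE i.1) i.2.2 := by
  obtain ⟨h1, i, hi, e1, hC, c1, c2, hom⟩ := vI_ne hJ h.J hX
  have hiJ := h.J i hi
  obtain ⟨F', hF⟩ := h.sf i hi
  have hj := hJ.jc _ hiJ
  have hS := hF.prim
  obtain ⟨hj', e, he, hje⟩ := stj_spec hS hj
  obtain ⟨s1, s2, s3, s4, s5, s6, s7⟩ := dc_spec hj'
  obtain ⟨k1, k2, k3⟩ := hC
  have hd := hJ.prim _ hiJ
  have hds := hJ.sqf _ hiJ
  rw [← e1]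
  -- `r` is prime to `d`
  have hrd : IsCoprime (dc (stj (sE i.1) i.2.2)).2.1 i.2.1 := by
    have h3 : IsCoprime (stj (sE i.1) i.2.2 * e ^ 3) i.2.1 := by rw [← hje]; exact c1.mul_left c2
    refine h3.of_mul_left_left.of_isCoprime_of_dvd_left ?_
    conv_rhs => rw [s7]
    exact ⟨(dc (stj (sE i.1) i.2.2)).1 * (dc (stj (sE i.1) i.2.2)).2.2 ^ 2, by ring⟩
  have hgX : CbF (g * X) := by
    rw [← k3]
    exact GrE579.cbF_dec s3 hds hrd
  -- the `S`-part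
  have hSM : IsCoprime (sE i.1) M := by rw [e1]; exact ho.2.of_mul_left_left
  have hgS : IsCoprime g (sE i.1) := by
    refine isCoprime_of_prime_dvd (fun h' => hg.1.ne_zero h'.1) fun p hp h3 h4 => ?_
    exact hp.not_isUnit (hSM.isUnit_of_dvd' h4 (hg.2 p hp h3))
  have b1 : bpt (sE i.1) X = bpt (sE i.1) (dc (stj (sE i.1) i.2.2)).2.1 := by
    have b2 : bpt (sE i.1) (g * X) = bpt (sE i.1) X := by
      rw [(bpt_mul hS hg.1 h1.1).1, (bpt_cop_self hS hg.1 hgS).1, one_mul]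
    have b3 : bpt (sE i.1) (g * X) = bpt (sE i.1) (dc (stj (sE i.1) i.2.2)).2.1 := by
      rw [← k3, (bpt_mul hS s2 (hd.pow 2)).1, pow_two, (bpt_mul hS hd hd).1,
        (bpt_cop_self hS hd c2.symm).1, one_mul, mul_one]
    rw [← b2, b3]
  have b4 := bpt_r hF hj
  have l := h.lo i hi
  have u := h.hi i hi
  have l1 := l 0 (by norm_num) 0 (by norm_num)
  have l2 := l 1 (by norm_num) 2 (by norm_num)
  have u1 := (u 0 (by norm_num) 0 (by norm_num)).le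
  have u2 := (u 1 (by norm_num) 2 (by norm_num)).le
  refine ⟨h1.1, hS, fun p hp hp3 => hgX p hp (hp3.mul_left g), ?_, ?_, ?_, ?_, i, hi, rfl, ?_⟩
  · -- the size
    have z1 := size_X (c₀ := c₀) (g := g) hS hJ hiJ ⟨k1, k2, k3⟩
    have z2 := hV _ hiJ hom
    have z3 : (nm (sE i.1) : ℝ) ≤ 2 ^ (nSm m + 9) := by exact_mod_cast h.nm_S_le hJ hi
    have z4 : (2 : ℝ) ^ nEm m ≤ nm (eS (sE i.1) i.2.2) := by exact_mod_cast h.le_nm_e hJ hi
    have z5 : (1 : ℝ) ≤ nm (c₀ * g) := E1551.nm_ge_one (mul_ne_zero (k1 ▸ s1.ne_zero) hg.1.ne_zero)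
    have hV0 : 0 ≤ V := (Nat.cast_nonneg _).trans z2
    rw [nm_mul (sE i.1) o.2]
    push_cast
    set x := (nm X : ℝ)
    set s := (nm (sE i.1) : ℝ)
    set n := (nm o.2 : ℝ)
    set ee := (nm (eS (sE i.1) i.2.2) : ℝ)
    set c := (nm (c₀ * g) : ℝ)
    have hx0 : 0 ≤ x := Nat.cast_nonneg _
    have hs0 : 0 ≤ s := Nat.cast_nonneg _
    have hn0 : 0 ≤ n := Nat.cast_nonneg _
    have h2e : (0 : ℝ) < 2 ^ nEm m := by positivity
    have h8 : (8 : ℝ) ^ nEm m = (2 ^ nEm m) ^ 3 := by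
      rw [← pow_mul, mul_comm, pow_mul]; norm_num
    have h8' : ((2 : ℝ) ^ (nSm m + 9)) ^ 3 = 2 ^ 27 * 8 ^ nSm m := by
      have e2 : (8 : ℝ) ^ nSm m = 2 ^ (3 * nSm m) := by
        rw [pow_mul]; norm_num
      rw [e2, ← pow_mul, ← pow_add]
      congr 1
      omega
    rw [mul_div_assoc', le_div_iff₀ (by positivity)]
    calc x * (s * n) ^ 2 * 8 ^ nEm m = s ^ 2 * (1 * x * (n ^ 2 * (2 ^ nEm m) ^ 3)) := by
          rw [h8]; ring
      _ ≤ s ^ 2 * (c * x * (n ^ 2 * ee ^ 3)) := by gcongr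
      _ = s ^ 3 * nm (i.2.2 * i.2.1 ^ 2) := by rw [z1]; ring
      _ ≤ (2 ^ (nSm m + 9)) ^ 3 * V := by gcongr
      _ = 2 ^ 27 * (V * 8 ^ nSm m) := by rw [h8']; ring
  · rw [b1]
    exact s3.squarefree_of_dvd (bpt_dvd hS s2)
  · rw [b1, b4, nm_mul, pow_add]
    exact Nat.mul_le_mul l1 l2
  · rw [b1, b4, nm_mul]
    have e3 : 2 ^ (m 0 0 + m 1 2 + 2) = 2 ^ (m 0 0 + 1) * 2 ^ (m 1 2 + 1) := by ring
    rw [e3]
    exact Nat.mul_le_mul u1 u2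
  · rw [b1, b4]

end cls

end Crest.Agent.R017.EnX743
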