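import Crest.Agent.R017.EnV_743
import Crest.Agent.R017.EnS_743
import Crest.Agent.R017.E4Hk_842

/-!
# Row 17, block C70, leaf E4 (helper743): the large sieve total of the x-side of 164's data

* **`supp_vX`**, **`sig_vX`** : the support of `vX` and the hypothesis of 842's `sig_of`
* `TWa` : 792's `T`-sum with weight `nm d ^ a`
* **`hb_vX`** : `∑_δ nm δ (A₁ + A₂/nm δ² + A₃/nm δ^(4/3)) ∑_{o ∈ Oc} Ex V (v o) δ`
* **`hb_Qds`** : the same for 842's `Qds`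
-/

set_option autoImplicit false

noncomputable section

open Complex Finset
open scoped ComplexConjugate

namespace Crest.Agent.R017.EnX743

open Crest.Agent.R012 Crest.Agent.R012.Eis Crest.Agent.R012.GaussLoc283
open Crest.Agent.R012.Mob705 hiding pb mem_pb
open Crest.Agent.R012.Div277
open Crest.Agent.R012.LS2 (S mem_S)
open Crest.Agent.R017.Sx545 (Sm)
open Crest.Agent.R017.C70 (CbF JC OKJ)
open Crest.Agent.R017.End699 (HC)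
open Crest.Agent.R017.E4352 (PrI)
open Crest.Agent.R017.E5B71
open Crest.Agent.R017.B770 (DPar)
open Crest.Agent.R017.E4579 (SupB bpt)
open Crest.Agent.R017.E4U164
open Crest.Agent.R017.E5k54 (alb)
open Crest.Agent.R017.E5L770
open Crest.Agent.R017.JxB679 (Ex Ex_nonneg)
open Crest.Agent.R017.GHB842 (Qds)

variable {Λ : Type*}

/-- 792's `T`-sum with weight `nm d ^ a` -/
def TWa (J : Finset (Eis × Eis)) (om : Eis × Eis → ℂ) (α : Eis → ℂ) (e₀ δ : Eis) (a : ℝ) : ℝ := by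
  classical
  exact ∑ y ∈ J.filter (fun y => δ ∣ y.1), (nm y.1 : ℝ) ^ a * ((nm y.2 : ℝ) ^ (-(1 / 3) : ℝ) *
    (‖om y‖ ^ 2 * ‖E2440.TE α y e₀‖ ^ 2))

section Dt

variable {π : Λ → DPar} {lam : Λ × Eis} {Jf : ℝ → ℝ → ℝ → Finset (Eis × Eis)} {a : Bd × ℕ}
  {x : Dt} {Bf : ℝ → ℝ → ℝ → ℝ} {e0 r ε X : ℝ}

/-- `S ∣ q² g e₀ t` -/
lemma sS_dvd {q g e₀ t : Eis} (hq : IsPrim q) (hg : IsPrim g) (he : IsPrim e₀) (ht : IsPrim t) :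
    sS g e₀ t q ∣ q ^ 2 * g * e₀ * t := by
  have h1 : IsPrim (q ^ 2 * g) := (hq.pow 2).mul hg
  have h2 := DgA829.lc_prim h1 he
  refine (DgA829.lc_dvd h2 ht _).mpr ⟨(DgA829.lc_dvd h1 he _).mpr ⟨?_, ?_⟩, dvd_mul_left _ _⟩
  · exact (dvd_mul_right _ _).mul_right _
  · exact (dvd_mul_left _ _).mul_right _

/-- **the support of the x-side of the data** -/
theorem supp_vX {ψ : Eis → ℂ} {l : ℤ} (hJf : ∀ l N z, OKJ (Jf l N z))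
    (hx : x.OK (π lam.1) Bf e0 r ε X a.1) (ha : a.1.ok) (haP : a.1.okP (π lam.1))
    {om : Eis × Eis → ℂ} {α : Eis → ℂ} {V : ℝ}
    (hV : ∀ y ∈ J3 Jf a.1 a.2, om y ≠ 0 → (nm (y.2 * y.1 ^ 2) : ℝ) ≤ V)
    (o : OD (π lam.1).n₃ (x.I Jf a) x.g x.e₀ x.t) {y : Eis}
    (hy : vX (π lam.1).n₃ ψ l (x.I Jf a) om x.ph (x.E a.1) α x.g x.e₀ x.t x.c₀ x.g' o y ≠ 0) :
    IsPrim y ∧ IsPrim o.1.1 ∧ CbF y ∧
      (nm y : ℝ) * lD o ^ 2 ≤ 2 ^ 27 * (V * 8 ^ x.nS / 8 ^ x.nE) ∧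
      Squarefree (bpt o.1.1 y) ∧ 2 ^ (x.m 0 0 + x.m 1 2) ≤ nm (bpt o.1.1 y) ∧
      nm (bpt o.1.1 y) ≤ 2 ^ (x.m 0 0 + x.m 1 2 + 2) ∧
      ∃ i ∈ x.I Jf a, sS x.g x.e₀ x.t i.1 = o.1.1 ∧
        bpt o.1.1 y = pS 0 0 (sS x.g x.e₀ x.t i.1) i.2.2 * pS 1 2 (sS x.g x.e₀ x.t i.1) i.2.2 := by
  classical
  have hC := cls_Dt (Jf := Jf) hx ha haP
  have ho : Sm (π lam.1).n₃ (o.1.1 * o.1.2) := by
    have h := o.2
    unfold OD E4D164.OU at h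
    exact (mem_filter.mp h).2
  obtain ⟨h1, h2, h3, h4, h5, h6, h7, i, h8, h9, h10⟩ := supp_cls (okJ3 hJf a.1 a.2) hC hx.g'
    hV ho hy
  rw [nSm_mm, nEm_mm] at h4
  refine ⟨h1, h2, h3, h4, h5, h6, h7, i, h8, h9, ?_⟩
  rw [pS_eq, pS_eq]
  exact h10

/-- **842's hypothesis on `σ`** -/
theorem sig_vX {ψ : Eis → ℂ} {l : ℤ} (hJf : ∀ l N z, OKJ (Jf l N z))
    (hx : x.OK (π lam.1) Bf e0 r ε X a.1) (ha : a.1.ok) (haP : a.1.okP (π lam.1))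
    {om : Eis × Eis → ℂ} {α : Eis → ℂ} {V : ℝ}
    (hV : ∀ y ∈ J3 Jf a.1 a.2, om y ≠ 0 → (nm (y.2 * y.1 ^ 2) : ℝ) ≤ V)
    (o : OD (π lam.1).n₃ (x.I Jf a) x.g x.e₀ x.t) :
    ∀ y, vX (π lam.1).n₃ ψ l (x.I Jf a) om x.ph (x.E a.1) α x.g x.e₀ x.t x.c₀ x.g' o y ≠ 0 →
      Squarefree (bpt o.1.1 y) ∧ (2 : ℝ) ^ (x.m 0 0 + x.m 1 2) ≤ nm (bpt o.1.1 y) := by
  intro y hy
  obtain ⟨-, -, -, -, h5, h6, -⟩ := supp_vX hJf hx ha haP hV o hy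
  exact ⟨h5, by exact_mod_cast h6⟩

/-- the `g₀`-part divides the `S`-part -/
lemma bpt_dvd_bpt {g₀ S₀ y : Eis} (hg : IsPrim g₀) (hS : IsPrim S₀) (hy : IsPrim y)
    (h : ∀ p, Prime p → p ∣ g₀ → p ∣ S₀) : bpt g₀ y ∣ bpt S₀ y := by
  have h1 := E4579.bpt_prim hg hy
  have h2 : IsCoprime (bpt g₀ y) (E4579.bco S₀ y) := by
    refine isCoprime_of_prime_dvd (fun h' => h1.ne_zero h'.1) fun p hp h3 h4 => ?_
    have h5 := h p hp (E4579.bpt_sup hg hy p hp h3)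
    exact hp.not_isUnit ((E4579.bco_cop hS hy).isUnit_of_dvd' h4 h5)
  have h3 : bpt g₀ y ∣ bpt S₀ y * E4579.bco S₀ y := by
    rw [E4579.bpt_mul_bco hS hy]
    exact E4579.bpt_dvd hg hy
  exact h2.dvd_of_dvd_mul_right h3

/-- **the second `σ`** : the part of `x` at the primes of `g e₀ t` -/
theorem sig2_vX {ψ : Eis → ℂ} {l : ℤ} (hJf : ∀ l N z, OKJ (Jf l N z))
    (hx : x.OK (π lam.1) Bf e0 r ε X a.1) (ha : a.1.ok) (haP : a.1.okP (π lam.1))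
    {om : Eis × Eis → ℂ} {α : Eis → ℂ} {V : ℝ}
    (hV : ∀ y ∈ J3 Jf a.1 a.2, om y ≠ 0 → (nm (y.2 * y.1 ^ 2) : ℝ) ≤ V)
    (o : OD (π lam.1).n₃ (x.I Jf a) x.g x.e₀ x.t) :
    ∀ y, vX (π lam.1).n₃ ψ l (x.I Jf a) om x.ph (x.E a.1) α x.g x.e₀ x.t x.c₀ x.g' o y ≠ 0 →
      Squarefree (bpt (x.g * x.e₀ * x.t) y) ∧
        (2 : ℝ) ^ x.m 0 0 ≤ nm (bpt (x.g * x.e₀ * x.t) y) := by
  classical
  intro y hy
  obtain ⟨h1, h2, -, -, h5, -, -, i, h8, h9, h10⟩ := supp_vX hJf hx ha haP hV o hy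
  have hC := cls_Dt (Jf := Jf) hx ha haP
  obtain ⟨g1, g2, g3⟩ := (E5P571.mem_Gd ha.2.2).mp hx.g
  obtain ⟨t1, t2, -⟩ := (E5P571.mem_Gd (E4D164.tS_prim (E_prim hx haP)).ne_zero).mp hx.t
  obtain ⟨-, e1, e2⟩ := (mem_S (Real.exp_pos _).le).mp hx.e₀
  have hg₀ : IsPrim (x.g * x.e₀ * x.t) := (g1.1.mul e1).mul t1.1
  obtain ⟨⟨hiQ, -⟩, hcl⟩ := Dt.mem_I.mp h8
  obtain ⟨q1, q2, q3, -⟩ := hx.Q _ hiQ
  obtain ⟨F', hF⟩ := hC.sf i h8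
  -- the primes of `g e₀ t` divide `S`
  have hs1 : IsPrim (i.1 ^ 2 * x.g) := (q1.1.pow 2).mul g1.1
  have L1 := (DgA829.lc_dvd hs1 e1 (DgA829.lc (i.1 ^ 2 * x.g) x.e₀)).mp dvd_rfl
  have L2 : DgA829.lc (i.1 ^ 2 * x.g) x.e₀ ∣ sS x.g x.e₀ x.t i.1 ∧ x.t ∣ sS x.g x.e₀ x.t i.1 :=
    (DgA829.lc_dvd (DgA829.lc_prim hs1 e1) t1.1 _).mp dvd_rfl
  have k1 : x.g ∣ sS x.g x.e₀ x.t i.1 := (dvd_mul_left _ _).trans (L1.1.trans L2.1)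
  have k2 : x.e₀ ∣ sS x.g x.e₀ x.t i.1 := L1.2.trans L2.1
  have k3 : x.t ∣ sS x.g x.e₀ x.t i.1 := L2.2
  have hp1 : ∀ p, Prime p → p ∣ x.g * x.e₀ * x.t → p ∣ o.1.1 := by
    intro p hp hd
    rw [← h9]
    rcases hp.dvd_or_dvd hd with h | h
    · rcases hp.dvd_or_dvd h with h | h
      · exact h.trans k1
      · exact h.trans k2
    · exact h.trans k3
  have hdv := bpt_dvd_bpt hg₀ h2 h1 hp1
  refine ⟨h5.squarefree_of_dvd hdv, ?_⟩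
  -- the product of the class divides the part
  have hpp : pS 0 0 (sS x.g x.e₀ x.t i.1) i.2.2 ∣ bpt (x.g * x.e₀ * x.t) y := by
    have z1 : pS 0 0 (sS x.g x.e₀ x.t i.1) i.2.2 ∣ y :=
      (Dvd.intro _ h10.symm).trans (E4579.bpt_dvd h2 h1)
    rw [← E4579.bpt_mul_bco hg₀ h1] at z1
    have z2 : IsCoprime (pS 0 0 (sS x.g x.e₀ x.t i.1) i.2.2)
        (E4579.bco (x.g * x.e₀ * x.t) y) := by
      rw [pS_eq]
      refine isCoprime_of_prime_dvd (fun h' => pP_prim.ne_zero h'.1) fun p hp h3 h4 => ?_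
      have h6 : p ∣ x.g * x.e₀ * x.t := by
        unfold pP at h3
        obtain ⟨p', hp', h7⟩ := (hp.dvd_finsetProd_iff _).mp h3
        obtain ⟨w1, w2, w3, w4⟩ := mem_pA hp'
        have w5 : p ∣ p' := h7
        have w6 : p' ∣ p := (hp.associated_of_dvd w1.2 w5).symm.dvd
        have w7 : ¬ p' ∣ i.1 := fun w8 => by
          have := mult_q hF w1.2 w8
          rw [w3] at this
          norm_num at this
        have w9 : p' ∣ i.1 ^ 2 * x.g * x.e₀ * x.t := w2.trans (sS_dvd q1.1 g1.1 e1 t1.1)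
        refine w5.trans ?_
        rcases w1.2.dvd_or_dvd w9 with w | w
        · rcases w1.2.dvd_or_dvd w with w | w
          · rcases w1.2.dvd_or_dvd w with w | w
            · exact absurd (w1.2.dvd_of_dvd_pow w) w7
            · exact (w.mul_right _).mul_right _
          · exact (w.mul_left _).mul_right _
        · exact w.mul_left _
      exact hp.not_isUnit ((E4579.bco_cop hg₀ h1).isUnit_of_dvd' h4 h6)
    exact z2.dvd_of_dvd_mul_right z1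
  have z3 := nm_le_of_dvd (E4579.bpt_prim hg₀ h1).ne_zero hpp
  have z4 := (hcl 0 0).1
  exact_mod_cast z4.trans z3

open Classical in
/-- **the large sieve total**, three weights -/
theorem hb_vX {M : Eis} {ψ : Eis → ℂ} (hψ0 : HC M ψ) (l : ℤ) (hJf : ∀ l N z, OKJ (Jf l N z))
    (hx : x.OK (π lam.1) Bf e0 r ε X a.1) (ha : a.1.ok) (haP : a.1.okP (π lam.1))
    (om : Eis × Eis → ℂ) (α : Eis → ℂ)
    (Oc : Finset (OD M (x.I Jf a) x.g x.e₀ x.t)) {Lm : ℝ} (hO : ∀ o ∈ Oc, lD o ≤ Lm) (V : ℝ)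
    {A₁ A₂ A₃ T : ℝ} (h1 : 0 ≤ A₁) (h2 : 0 ≤ A₂) (h3 : 0 ≤ A₃)
    (hT : ∀ y ∈ J3 Jf a.1 a.2, om y ≠ 0 → (tau y.1 : ℝ) * tau y.2 ≤ T)
    {D : Finset Eis} (hD : ∀ δ ∈ D, IsPrim δ ∧ Squarefree δ) :
    ∑ δ ∈ D, (nm δ : ℝ) * (A₁ + A₂ / (nm δ : ℝ) ^ 2 + A₃ / (nm δ : ℝ) ^ ((4 : ℝ) / 3)) *
        ∑ o ∈ Oc, Ex V (vX M ψ l (x.I Jf a) om x.ph (x.E a.1) α x.g x.e₀ x.t x.c₀ x.g' o) δ ≤
      1600 * (Lm ^ 2 * 2 ^ (x.nE + x.m 1 0) / 2 ^ x.nS) * (T *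
        (A₁ * TWa (J3 Jf a.1 a.2) om α x.e₀ 1 1 + (A₂ + A₃) *
          TWa (J3 Jf a.1 a.2) om α x.e₀ 1 0)) := by
  set Cc : ℝ := 1600 * (Lm ^ 2 * 2 ^ (x.nE + x.m 1 0) / 2 ^ x.nS) with hCc
  have hCc0 : 0 ≤ Cc := by positivity
  have hJ := okJ3 hJf a.1 a.2
  have e1 : ∑ δ ∈ D, (nm δ : ℝ) * (A₁ + A₂ / (nm δ : ℝ) ^ 2 + A₃ / (nm δ : ℝ) ^ ((4 : ℝ) / 3)) *
        ∑ o ∈ Oc, Ex V (vX M ψ l (x.I Jf a) om x.ph (x.E a.1) α x.g x.e₀ x.t x.c₀ x.g' o) δ ≤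
      Cc * ∑ δ ∈ D, (nm δ : ℝ) * (A₁ + A₂ / (nm δ : ℝ) ^ 2 + A₃ / (nm δ : ℝ) ^ ((4 : ℝ) / 3)) *
        TSd (J3 Jf a.1 a.2) om α x.e₀ δ (fun y => (tau y.2 : ℝ)) := by
    rw [mul_sum]
    refine sum_le_sum fun δ hδ => ?_
    have k1 := en_vX hψ0 l hJf hx ha haP om α Oc hO V (hD δ hδ).2
    have k2 : 0 ≤ (nm δ : ℝ) * (A₁ + A₂ / (nm δ : ℝ) ^ 2 + A₃ / (nm δ : ℝ) ^ ((4 : ℝ) / 3)) := by
      positivity
    refine (mul_le_mul_of_nonneg_left k1 k2).trans (le_of_eq ?_)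
    rw [hCc]
    ring
  refine e1.trans (mul_le_mul_of_nonneg_left ?_ hCc0)
  refine (sum_TSd hJ (W := fun y => (tau y.2 : ℝ)) (fun _ _ => Nat.cast_nonneg _) h1 h2 h3
    (fun δ hδ => (hD δ hδ).1)).trans ?_
  have e2 : T * (A₁ * TWa (J3 Jf a.1 a.2) om α x.e₀ 1 1 + (A₂ + A₃) *
      TWa (J3 Jf a.1 a.2) om α x.e₀ 1 0) = ∑ y ∈ J3 Jf a.1 a.2, T * ((A₁ * nm y.1 + A₂ + A₃) *
        ((nm y.2 : ℝ) ^ (-(1 : ℝ) / 3) * (‖om y‖ ^ 2 * ‖E2440.TE α y x.e₀‖ ^ 2))) := by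
    unfold TWa
    have e3 : (J3 Jf a.1 a.2).filter (fun y => (1 : Eis) ∣ y.1) = J3 Jf a.1 a.2 :=
      filter_true_of_mem fun y _ => one_dvd _
    rw [e3, ← mul_sum, mul_sum (s := J3 Jf a.1 a.2) (a := A₁), mul_sum (s := J3 Jf a.1 a.2),
      ← sum_add_distrib]
    congr 1
    refine sum_congr rfl fun y _ => ?_
    rw [Real.rpow_one, Real.rpow_zero, show (-(1 : ℝ) / 3) = (-(1 / 3) : ℝ) by norm_num]
    ring
  rw [e2]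
  refine sum_le_sum fun y hy => ?_
  have h0 : 0 ≤ (nm y.2 : ℝ) ^ (-(1 : ℝ) / 3) := Real.rpow_nonneg (Nat.cast_nonneg _) _
  by_cases hom : om y = 0
  · rw [hom, norm_zero]
    simp
  · exact mul_le_mul_of_nonneg_right (hT y hy hom) (by positivity)

lemma Qds_le {K V B σ d : ℝ} (hK : 0 ≤ K) (hV : 0 ≤ V) (hB : 0 ≤ B) (hσ : 0 < σ) (hd : 0 < d) :
    Qds K V B σ d = K + V * B / d ^ 2 + (K * (V * B) / σ) ^ ((2 : ℝ) / 3) / d ^ ((4 : ℝ) / 3) := by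
  unfold Qds
  have e1 : K * (V * B / (σ * d ^ 2)) = K * (V * B) / σ / d ^ 2 := by field_simp
  have e2 : (d ^ 2) ^ ((2 : ℝ) / 3) = d ^ ((4 : ℝ) / 3) := by
    rw [← Real.rpow_natCast d 2, ← Real.rpow_mul hd.le]
    norm_num
  rw [e1, Real.div_rpow (by positivity) (by positivity), e2]

open Classical in
/-- **the large sieve total of 842's `Qds`** -/
theorem hb_Qds {M : Eis} {ψ : Eis → ℂ} (hψ0 : HC M ψ) (l : ℤ) (hJf : ∀ l N z, OKJ (Jf l N z))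
    (hx : x.OK (π lam.1) Bf e0 r ε X a.1) (ha : a.1.ok) (haP : a.1.okP (π lam.1))
    (om : Eis × Eis → ℂ) (α : Eis → ℂ)
    (Oc : Finset (OD M (x.I Jf a) x.g x.e₀ x.t)) {Lm : ℝ} (hO : ∀ o ∈ Oc, lD o ≤ Lm)
    {K V V' B σ T : ℝ} (hK : 0 ≤ K) (hV : 0 ≤ V) (hV' : 0 ≤ V') (hB : 0 ≤ B) (hσ : 0 < σ)
    (hT : ∀ y ∈ J3 Jf a.1 a.2, om y ≠ 0 → (tau y.1 : ℝ) * tau y.2 ≤ T) :
    ∑ δ ∈ S V, (nm δ : ℝ) * Qds K V' B σ (nm δ) *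
        ∑ o ∈ Oc, Ex V (vX M ψ l (x.I Jf a) om x.ph (x.E a.1) α x.g x.e₀ x.t x.c₀ x.g' o) δ ≤
      1600 * (Lm ^ 2 * 2 ^ (x.nE + x.m 1 0) / 2 ^ x.nS) * (T *
        (K * TWa (J3 Jf a.1 a.2) om α x.e₀ 1 1 +
          (V' * B + (K * (V' * B) / σ) ^ ((2 : ℝ) / 3)) *
            TWa (J3 Jf a.1 a.2) om α x.e₀ 1 0)) := by
  refine le_trans (le_of_eq (sum_congr rfl fun δ hδ => ?_)) (hb_vX hψ0 l hJf hx ha haP om α Oc
    hO V hK (by positivity) (by positivity) hT (D := S V) (fun δ hδ => ?_))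
  · have hd : IsPrim δ := ((mem_S hV).1 hδ).2.1
    rw [Qds_le hK hV' hB hσ (nm_pos' hd.ne_zero)]
  · exact ((mem_S hV).1 hδ).2

end Dt

end Crest.Agent.R017.EnX743
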