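import Crest.Agent.R017.EnU_743

/-!
# Row 17, block C70, leaf E4 (helper743): the `S`-part of the frequency

* `prime_r_iff` : for `p ∣ S`: `p ∣ r` iff the type of `p` is `(1,0)` or `(2,2)`
* **`bpt_r`** : `bpt S r = pP 0 0 S j * pP 1 2 S j`, `r` = squarefree part of the star
* `sum_dvs_le` : the divisor sums of the three weights
-/

set_option autoImplicit false

noncomputable section

open Complex Finset
open scoped ComplexConjugate

namespace Crest.Agent.R017.EnX743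

open Crest.Agent.R012 Crest.Agent.R012.Eis Crest.Agent.R012.GaussLoc283
open Crest.Agent.R012.Mob705 hiding pb mem_pb
open Crest.Agent.R012.Div277
open Crest.Agent.R012.LS2 (S mem_S)
open Crest.Agent.R017.C70 (CbF JC OKJ)
open Crest.Agent.R017.GrB829 (IsC)
open Crest.Agent.R017.E4K164 (dc dc_spec)
open Crest.Agent.R017.E5b54 (stj stj_spec JC_ne_zero)
open Crest.Agent.R017.E4579 (SupB bpt bco bpt_prim bpt_sup bpt_dvd bpt_mul bpt_mul_bco bco_cop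
  bco_prim bpt_eq)

variable {q F' S₀ j : Eis}

/-- the types of the primes of `r` -/
lemma prime_r_iff (h : SF2 q F' S₀) (hj : JC j) {p : Eis} (hp : IsPP p) (hpS : p ∣ S₀) :
    p ∣ (dc (stj S₀ j)).2.1 ↔ (multiplicity p S₀ = 0 + 1 ∧ multiplicity p j = 0) ∨
      (multiplicity p S₀ = 1 + 1 ∧ multiplicity p j = 2) := by
  have hS := h.prim
  have hj0 := JC_ne_zero hj
  obtain ⟨hj', e, he, hje⟩ := stj_spec hS hj
  obtain ⟨s1, s2, s3, s4, s5, s6, s7⟩ := dc_spec hj'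
  set c := (dc (stj S₀ j)).1
  set r := (dc (stj S₀ j)).2.1
  set ν := (dc (stj S₀ j)).2.2
  have hfin : ∀ x : Eis, x ≠ 0 → FiniteMultiplicity p x := fun x hx =>
    FiniteMultiplicity.of_not_isUnit hp.2.not_isUnit hx
  -- the two sides
  have e1 : multiplicity p (j * S₀) = multiplicity p j + multiplicity p S₀ :=
    multiplicity_mul hp.2 (hfin _ (mul_ne_zero hj0 hS.ne_zero))
  have e2 : multiplicity p (j * S₀) = multiplicity p r + 2 * multiplicity p ν +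
      3 * multiplicity p e := by
    have hc0 : multiplicity p c = 0 := by
      rw [multiplicity_eq_zero]
      intro hd
      exact hp.2.not_isUnit ((E4D164.cop_IsC s1 hp.1).isUnit_of_dvd' hd dvd_rfl)
    have hne : c * r * ν ^ 2 * e ^ 3 ≠ 0 :=
      mul_ne_zero (mul_ne_zero (mul_ne_zero s1.ne_zero s2.ne_zero) (pow_ne_zero 2 s4.ne_zero))
        (pow_ne_zero 3 he.ne_zero)
    have e3 : j * S₀ = c * r * ν ^ 2 * e ^ 3 := by rw [hje]; rw [← s7]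
    rw [e3, multiplicity_mul hp.2 (hfin _ hne), multiplicity_mul hp.2 (hfin _
      (mul_ne_zero (mul_ne_zero s1.ne_zero s2.ne_zero) (pow_ne_zero 2 s4.ne_zero))),
      multiplicity_mul hp.2 (hfin _ (mul_ne_zero s1.ne_zero s2.ne_zero)), hc0,
      FiniteMultiplicity.multiplicity_pow hp.2 (hfin _ s4.ne_zero),
      FiniteMultiplicity.multiplicity_pow hp.2 (hfin _ he.ne_zero)]
    ring
  have hr1 : multiplicity p r ≤ 1 := by
    by_contra h1
    push Not at h1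
    have h2 : p ^ 2 ∣ r := pow_dvd_of_le_multiplicity h1
    exact hp.2.not_isUnit (s3 p (by rwa [pow_two] at h2))
  have hν1 : multiplicity p ν ≤ 1 := by
    by_contra h1
    push Not at h1
    have h2 : p ^ 2 ∣ ν := pow_dvd_of_le_multiplicity h1
    exact hp.2.not_isUnit (s5 p (by rwa [pow_two] at h2))
  have hrν : multiplicity p r = 0 ∨ multiplicity p ν = 0 := by
    by_contra h1
    push Not at h1
    have h2 : p ∣ r := by
      by_contra h3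
      exact h1.1 (multiplicity_eq_zero.mpr h3)
    have h4 : p ∣ ν := by
      by_contra h3
      exact h1.2 (multiplicity_eq_zero.mpr h3)
    exact hp.2.not_isUnit (s6.isUnit_of_dvd' h2 h4)
  have hj3 := mult_j hj hp.2
  have hS12 : multiplicity p S₀ = 1 ∨ multiplicity p S₀ = 2 := by
    have h1 := hpS
    rw [h.S] at h1
    rcases hp.2.dvd_or_dvd h1 with h2 | h2
    · exact Or.inr (mult_q h hp.2 (hp.2.dvd_of_dvd_pow h2))
    · exact Or.inl (mult_F h hp.2 h2)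
  have hrd : p ∣ r ↔ multiplicity p r = 1 := by
    constructor
    · intro h1
      have : multiplicity p r ≠ 0 := fun h2 => (multiplicity_eq_zero.mp h2) h1
      omega
    · intro h1
      by_contra h2
      have := multiplicity_eq_zero.mpr h2
      omega
  rw [hrd]
  omega

/-- **the `S`-part of `r`** -/
theorem bpt_r (h : SF2 q F' S₀) (hj : JC j) :
    bpt S₀ (dc (stj S₀ j)).2.1 = pP 0 0 S₀ j * pP 1 2 S₀ j := by
  classical
  have hS := h.prim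
  obtain ⟨hj', -⟩ := stj_spec hS hj
  obtain ⟨s1, s2, s3, s4, s5, s6, s7⟩ := dc_spec hj'
  set r := (dc (stj S₀ j)).2.1 with hr
  have hB := bpt_prim hS s2
  have hBs : Squarefree (bpt S₀ r) := s3.squarefree_of_dvd (bpt_dvd hS s2)
  have key : pp (bpt S₀ r) = pA 0 0 S₀ j ∪ pA 1 2 S₀ j := by
    ext p
    rw [mem_pp hB.ne_zero, mem_union]
    unfold pA
    rw [mem_filter, mem_filter, mem_pp hS.ne_zero]
    constructor
    · rintro ⟨hp, hpB⟩
      have h1 : p ∣ r := hpB.trans (bpt_dvd hS s2)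
      have h2 : p ∣ S₀ := bpt_sup hS s2 p hp.2 hpB
      rcases (prime_r_iff h hj hp h2).mp h1 with h3 | h3
      · exact Or.inl ⟨⟨hp, h2⟩, h3⟩
      · exact Or.inr ⟨⟨hp, h2⟩, h3⟩
    · intro h1
      have h2 : (IsPP p ∧ p ∣ S₀) ∧ p ∣ r := by
        rcases h1 with ⟨h3, h4⟩ | ⟨h3, h4⟩
        · exact ⟨h3, (prime_r_iff h hj h3.1 h3.2).mpr (Or.inl h4)⟩
        · exact ⟨h3, (prime_r_iff h hj h3.1 h3.2).mpr (Or.inr h4)⟩
      obtain ⟨⟨hp, hpS⟩, hpr⟩ := h2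
      refine ⟨hp, ?_⟩
      rw [← bpt_mul_bco hS s2] at hpr
      rcases hp.2.dvd_or_dvd hpr with h3 | h3
      · exact h3
      · exact absurd ((bco_cop hS s2).isUnit_of_dvd' h3 hpS) hp.2.not_isUnit
  have hdis : Disjoint (pA 0 0 S₀ j) (pA 1 2 S₀ j) := by
    rw [Finset.disjoint_left]
    intro p hp hp'
    have h1 := (mem_pA hp).2.2.1
    have h2 := (mem_pA hp').2.2.1
    omega
  unfold pP
  rw [← prod_union hdis, ← key, prod_pp hB hBs]

/-! ### divisor sums -/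

/-- the children of `d` in a ball -/
lemma card_ch_le {d : Eis} (hd : d ≠ 0) (T : Finset Eis) (hT : ∀ δ ∈ T, IsPrim δ ∧ δ ∣ d) :
    (T.card : ℝ) ≤ tau d := by
  unfold tau
  exact_mod_cast card_le_card fun δ hδ => (mem_dvs hd).mpr ⟨(hT δ hδ).1, (hT δ hδ).2⟩

/-- the weight of a divisor -/
lemma sum_wt_le {d : Eis} (hd : IsPrim d) (T : Finset Eis) (hT : ∀ δ ∈ T, IsPrim δ ∧ δ ∣ d)
    {A₁ A₂ A₃ : ℝ} (h1 : 0 ≤ A₁) (h2 : 0 ≤ A₂) (h3 : 0 ≤ A₃) :
    ∑ δ ∈ T, (nm δ : ℝ) * (A₁ + A₂ / (nm δ : ℝ) ^ 2 + A₃ / (nm δ : ℝ) ^ ((4 : ℝ) / 3)) ≤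
      tau d * (A₁ * nm d + A₂ + A₃) := by
  have key : ∀ δ ∈ T, (nm δ : ℝ) * (A₁ + A₂ / (nm δ : ℝ) ^ 2 + A₃ / (nm δ : ℝ) ^ ((4 : ℝ) / 3)) ≤
      A₁ * nm d + A₂ + A₃ := by
    intro δ hδ
    obtain ⟨k1, k2⟩ := hT δ hδ
    have n1 : (1 : ℝ) ≤ nm δ := E1551.nm_ge_one k1.ne_zero
    have n0 : (0 : ℝ) < nm δ := by linarith
    have n2 : (nm δ : ℝ) ≤ nm d := by exact_mod_cast nm_le_of_dvd hd.ne_zero k2
    have t1 : (nm δ : ℝ) * A₁ ≤ A₁ * nm d := by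
      rw [mul_comm]; exact mul_le_mul_of_nonneg_left n2 h1
    have t2 : (nm δ : ℝ) * (A₂ / (nm δ : ℝ) ^ 2) ≤ A₂ := by
      have : (nm δ : ℝ) * (A₂ / (nm δ : ℝ) ^ 2) = A₂ / nm δ := by field_simp
      rw [this]
      exact div_le_self h2 n1
    have t3 : (nm δ : ℝ) * (A₃ / (nm δ : ℝ) ^ ((4 : ℝ) / 3)) ≤ A₃ := by
      have h4 : (nm δ : ℝ) ≤ (nm δ : ℝ) ^ ((4 : ℝ) / 3) := by
        conv_lhs => rw [← Real.rpow_one (nm δ : ℝ)]
        exact Real.rpow_le_rpow_of_exponent_le n1 (by norm_num)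
      have h5 : (0 : ℝ) < (nm δ : ℝ) ^ ((4 : ℝ) / 3) := by linarith
      rw [mul_div_assoc', div_le_iff₀ h5, mul_comm]
      exact mul_le_mul_of_nonneg_left h4 h3
    calc (nm δ : ℝ) * (A₁ + A₂ / (nm δ : ℝ) ^ 2 + A₃ / (nm δ : ℝ) ^ ((4 : ℝ) / 3))
        = (nm δ : ℝ) * A₁ + (nm δ : ℝ) * (A₂ / (nm δ : ℝ) ^ 2) +
          (nm δ : ℝ) * (A₃ / (nm δ : ℝ) ^ ((4 : ℝ) / 3)) := by ring
      _ ≤ _ := by linarith
  refine (sum_le_sum key).trans ?_
  rw [sum_const, nsmul_eq_mul]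
  exact mul_le_mul_of_nonneg_right (card_ch_le hd.ne_zero T hT) (by positivity)

open Classical in
/-- **the sum over the children** : three weights -/
theorem sum_TSd {J : Finset (Eis × Eis)} (hJ : OKJ J) {om : Eis × Eis → ℂ} {α : Eis → ℂ}
    {e₀ : Eis} {W : Eis × Eis → ℝ} (hW : ∀ y ∈ J, 0 ≤ W y) {A₁ A₂ A₃ : ℝ} (h1 : 0 ≤ A₁)
    (h2 : 0 ≤ A₂) (h3 : 0 ≤ A₃) {T : Finset Eis} (hT : ∀ δ ∈ T, IsPrim δ) :
    ∑ δ ∈ T, (nm δ : ℝ) * (A₁ + A₂ / (nm δ : ℝ) ^ 2 + A₃ / (nm δ : ℝ) ^ ((4 : ℝ) / 3)) *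
        TSd J om α e₀ δ W ≤
      ∑ y ∈ J, (tau y.1 * W y) * ((A₁ * nm y.1 + A₂ + A₃) * ((nm y.2 : ℝ) ^ (-(1 : ℝ) / 3) *
        (‖om y‖ ^ 2 * ‖E2440.TE α y e₀‖ ^ 2))) := by
  unfold TSd
  simp only [mul_sum, sum_filter]
  rw [sum_comm]
  refine sum_le_sum fun y hy => ?_
  have h0 : 0 ≤ W y * ((nm y.2 : ℝ) ^ (-(1 : ℝ) / 3) *
      (‖om y‖ ^ 2 * ‖E2440.TE α y e₀‖ ^ 2)) := by
    have := Real.rpow_nonneg (Nat.cast_nonneg (nm y.2) : (0 : ℝ) ≤ _) (-(1 : ℝ) / 3)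
    have := hW y hy
    positivity
  have h4 := sum_wt_le (hJ.prim y hy) (T.filter (fun δ => δ ∣ y.1))
    (fun δ hδ => ⟨hT δ (mem_filter.mp hδ).1, (mem_filter.mp hδ).2⟩) h1 h2 h3
  have h5 := mul_le_mul_of_nonneg_right h4 h0
  rw [sum_mul, sum_filter] at h5
  refine le_trans (le_of_eq (sum_congr rfl fun δ _ => ?_)) (h5.trans (le_of_eq (by ring)))
  split_ifs <;> ring

end Crest.Agent.R017.EnX743
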