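import Crest.Agent.R017.EnU_743
import Crest.Agent.R017.E4Uc_164
import Crest.Agent.R017.JxB_679

/-!
# Row 17, block C70, leaf E4 (helper743): the energy of the x-side of 164's data

* `cls_Dt` : the index set of the data is one class
* **`en_vX`**, **`en_Dt`** : `∑_{o ∈ Oc} Ex V (v o) δ` against the weighted `T`-sum,
  `N(S ν) ≤ Λ` on `Oc`;  **`en_vXw`**, `en_vX_pow` : with a weight `w o`
* `lD_ge` : `N(S ν) ≥ 2^nS`
-/

set_option autoImplicit false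

noncomputable section

open Complex Finset
open scoped ComplexConjugate

namespace Crest.Agent.R017.EnX743

open Crest.Agent.R012 Crest.Agent.R012.Eis Crest.Agent.R012.GaussLoc283
open Crest.Agent.R012.Mob705 hiding pb mem_pb
open Crest.Agent.R012.Div277
open Crest.Agent.R012.LS2 (S mem_S)
open Crest.Agent.R017.Sx545 (Sm)
open Crest.Agent.R017.C70 (CbF JC OKJ)
open Crest.Agent.R017.End699 (HC)
open Crest.Agent.R017.E5B71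
open Crest.Agent.R017.E5P571 (Gd mem_Gd)
open Crest.Agent.R017.B770 (DPar)
open Crest.Agent.R017.E4v92
open Crest.Agent.R017.E4U164
open Crest.Agent.R017.E5k54 (alb)
open Crest.Agent.R017.E5L770
open Crest.Agent.R017.JxB679 (Ex)

variable {Λ : Type*}

/-- the class numbers of the data -/
def mm (x : Dt) (a b : ℕ) : ℕ := if h : a < 2 ∧ b < 3 then x.m ⟨a, h.1⟩ ⟨b, h.2⟩ else 0

lemma mm_eq (x : Dt) (a : Fin 2) (b : Fin 3) : mm x a b = x.m a b := by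
  unfold mm
  rw [dif_pos ⟨a.2, b.2⟩]

lemma nSm_mm (x : Dt) : nSm (mm x) = x.nS := by
  unfold nSm Dt.nS
  rw [Fin.sum_univ_three, Fin.sum_univ_three]
  rfl

lemma nEm_mm (x : Dt) : nEm (mm x) = x.nE := rfl

lemma pS_eq (a : Fin 2) (b : Fin 3) (s j : Eis) : pS a b s j = pP (a : ℕ) (b : ℕ) s j := by
  classical
  unfold pS pP pA
  congr

section Dt

variable {π : Λ → DPar} {lam : Λ × Eis} {Jf : ℝ → ℝ → ℝ → Finset (Eis × Eis)} {a : Bd × ℕ}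
  {x : Dt} {Bf : ℝ → ℝ → ℝ → ℝ} {e0 r ε X : ℝ}

lemma E_prim (hx : x.OK (π lam.1) Bf e0 r ε X a.1) (haP : a.1.okP (π lam.1)) :
    IsPrim (x.E a.1) := haP.1.1.mul (T3_prim _ hx.β)

/-- the index set of the data is one class -/
lemma cls_Dt (hx : x.OK (π lam.1) Bf e0 r ε X a.1) (ha : a.1.ok) (haP : a.1.okP (π lam.1)) :
    Cls (J3 Jf a.1 a.2) (x.I Jf a) (sS x.g x.e₀ x.t) (mm x) where
  J i hi := (Dt.mem_I.mp hi).1.2
  sf i hi := by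
    obtain ⟨⟨h1, -⟩, -⟩ := Dt.mem_I.mp hi
    obtain ⟨q1, q2, q3, -⟩ := hx.Q _ h1
    obtain ⟨g1, g2, g3⟩ := (mem_Gd ha.2.2).mp hx.g
    obtain ⟨t1, t2, -⟩ := (mem_Gd (E4D164.tS_prim (E_prim hx haP)).ne_zero).mp hx.t
    obtain ⟨-, e1, e2⟩ := (mem_S (Real.exp_pos _).le).mp hx.e₀
    exact exists_SF2 q1.1 q2 g1.1 g2 (q3.of_isCoprime_of_dvd_right g3) e1 e2 t1.1 t2
  lo i hi b hb c hc := by
    have h := ((Dt.mem_I.mp hi).2 ⟨b, hb⟩ ⟨c, hc⟩).1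
    rw [pS_eq] at h
    unfold mm
    rw [dif_pos ⟨hb, hc⟩]
    exact h
  hi i hi b hb c hc := by
    have h := ((Dt.mem_I.mp hi).2 ⟨b, hb⟩ ⟨c, hc⟩).2
    rw [pS_eq] at h
    unfold mm
    rw [dif_pos ⟨hb, hc⟩]
    exact h

open Classical in
/-- **the energy of the x-side of the data**, any `om`, `α`, weight `w` on the outer index -/
theorem en_vXw {M : Eis} {ψ : Eis → ℂ} (hψ0 : HC M ψ) (l : ℤ) (hJf : ∀ l N z, OKJ (Jf l N z))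
    (hx : x.OK (π lam.1) Bf e0 r ε X a.1) (ha : a.1.ok) (haP : a.1.okP (π lam.1))
    (om : Eis × Eis → ℂ) (α : Eis → ℂ)
    (Oc : Finset (OD M (x.I Jf a) x.g x.e₀ x.t)) {w : Eis × Eis → ℝ} {Om : ℝ} (hOm0 : 0 ≤ Om)
    (hw : ∀ o ∈ Oc, 0 ≤ w o.1) (hOm : ∀ o ∈ Oc, w o.1 * lD o ^ 2 ≤ Om) (V : ℝ)
    {δ : Eis} (hδ : Squarefree δ) :
    ∑ o ∈ Oc, w o.1 *
        Ex V (vX M ψ l (x.I Jf a) om x.ph (x.E a.1) α x.g x.e₀ x.t x.c₀ x.g' o) δ ≤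
      1600 * (Om * 2 ^ (x.nE + x.m 1 0) / 2 ^ x.nS) *
        TSd (J3 Jf a.1 a.2) om α x.e₀ δ (fun y => (tau y.2 : ℝ)) := by
  have hE := E_prim hx haP
  have hψ := E4D164.hc_psE hψ0 hE
  have hf : IsPrim (E4D164.fN M (x.E a.1)) := (E4D164.fM_spec hψ0.q0 hE).2.1.1
  have hC := cls_Dt (Jf := Jf) hx ha haP
  have hg : x.g' ≠ 0 := hx.g'.1.ne_zero
  set O : Finset (Eis × Eis) := Oc.map ⟨Subtype.val, Subtype.val_injective⟩ with hOdef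
  have h1 := en_clw (M := M) (c₀ := x.c₀) (g := x.g') hψ l hf (okJ3 hJf a.1 a.2) hC
    (ε := x.ph) hx.ph (om := om) (α := α) (e₀ := x.e₀)
    hg (O := O) (w := w) hOm0 (fun o ho => by
      obtain ⟨o', ho', rfl⟩ := mem_map.mp ho
      exact hw o' ho') (fun o ho => by
      obtain ⟨o', ho', rfl⟩ := mem_map.mp ho
      exact hOm o' ho') (P := fun _ => (primBall ⌊V⌋₊).filter (fun X => δ ^ 2 ∣ X)) hδ
    (fun o _ X hX => (mem_filter.mp hX).2)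
  rw [hOdef, sum_map, nSm_mm, nEm_mm] at h1
  exact h1

open Classical in
/-- **the energy of the x-side of the data**, any `om`, `α` -/
theorem en_vX {M : Eis} {ψ : Eis → ℂ} (hψ0 : HC M ψ) (l : ℤ) (hJf : ∀ l N z, OKJ (Jf l N z))
    (hx : x.OK (π lam.1) Bf e0 r ε X a.1) (ha : a.1.ok) (haP : a.1.okP (π lam.1))
    (om : Eis × Eis → ℂ) (α : Eis → ℂ)
    (Oc : Finset (OD M (x.I Jf a) x.g x.e₀ x.t)) {Lm : ℝ} (hO : ∀ o ∈ Oc, lD o ≤ Lm) (V : ℝ)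
    {δ : Eis} (hδ : Squarefree δ) :
    ∑ o ∈ Oc, Ex V (vX M ψ l (x.I Jf a) om x.ph (x.E a.1) α x.g x.e₀ x.t x.c₀ x.g' o) δ ≤
      1600 * (Lm ^ 2 * 2 ^ (x.nE + x.m 1 0) / 2 ^ x.nS) *
        TSd (J3 Jf a.1 a.2) om α x.e₀ δ (fun y => (tau y.2 : ℝ)) := by
  have h1 := en_vXw hψ0 l hJf hx ha haP om α Oc (w := fun _ => 1) (sq_nonneg Lm)
    (fun _ _ => zero_le_one) (fun o ho => by
      rw [one_mul]
      exact pow_le_pow_left₀ (Nat.cast_nonneg _) (hO o ho) 2) V hδ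
  simp only [one_mul] at h1
  exact h1

open Classical in
/-- **the energy of 164's `x.v`** -/
theorem en_Dt {h : ℝ → ℝ} (hP : (π lam.1).OK) (hJf : ∀ l N z, OKJ (Jf l N z))
    (hx : x.OK (π lam.1) Bf e0 r ε X a.1) (ha : a.1.ok) (haP : a.1.okP (π lam.1))
    (Oc : Finset (x.O π lam Jf a)) {Lm : ℝ} (hO : ∀ o ∈ Oc, lD o ≤ Lm) (V : ℝ) {δ : Eis}
    (hδ : Squarefree δ) :
    ∑ o ∈ Oc, Ex V (x.v π h lam Jf a o) δ ≤
      1600 * (Lm ^ 2 * 2 ^ (x.nE + x.m 1 0) / 2 ^ x.nS) *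
        TSd (J3 Jf a.1 a.2) (omL a.2) (alb (f3 (π lam.1) h lam.2 a.1) x.β) x.e₀ δ
          (fun y => (tau y.2 : ℝ)) :=
  en_vX hP.χ₃.conj (π lam.1).l₃ hJf hx ha haP (omL a.2) _ Oc hO V hδ

open Classical in
lemma TSd_tau {J : Finset (Eis × Eis)} {om : Eis × Eis → ℂ} {α : Eis → ℂ} {e₀ δ : Eis} {T : ℝ}
    (hT : ∀ y ∈ J, om y ≠ 0 → (tau y.2 : ℝ) ≤ T) :
    TSd J om α e₀ δ (fun y => (tau y.2 : ℝ)) ≤ T *
      ∑ y ∈ J.filter (fun y => δ ∣ y.1), (nm y.2 : ℝ) ^ (-(1 / 3) : ℝ) *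
        (‖om y‖ ^ 2 * ‖E2440.TE α y e₀‖ ^ 2) := by
  unfold TSd
  rw [mul_sum]
  refine le_trans (sum_le_sum (g := fun y => T * ((nm y.2 : ℝ) ^ (-(1 / 3) : ℝ) *
    (‖om y‖ ^ 2 * ‖E2440.TE α y e₀‖ ^ 2))) fun y hy => ?_) (le_of_eq ?_)
  · have e1 : (-(1 : ℝ) / 3) = (-(1 / 3) : ℝ) := by norm_num
    rw [e1]
    have h0 : 0 ≤ (nm y.2 : ℝ) ^ (-(1 / 3) : ℝ) := Real.rpow_nonneg (Nat.cast_nonneg _) _
    by_cases hom : om y = 0
    · rw [hom, norm_zero]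
      simp
    · exact mul_le_mul_of_nonneg_right (hT y (mem_filter.mp hy).1 hom) (by positivity)
  · refine sum_congr ?_ fun _ _ => rfl
    ext y
    simp only [mem_filter]

/-- the lower bound of the outer parameter -/
lemma lD_ge (hJf : ∀ l N z, OKJ (Jf l N z)) {M : Eis}
    (hx : x.OK (π lam.1) Bf e0 r ε X a.1) (ha : a.1.ok) (haP : a.1.okP (π lam.1))
    (o : OD M (x.I Jf a) x.g x.e₀ x.t) : (2 : ℝ) ^ x.nS ≤ lD o := by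
  classical
  obtain ⟨o, ho⟩ := o
  have hC := cls_Dt (Jf := Jf) hx ha haP
  have ho' := ho
  unfold OD E4D164.OU at ho'
  obtain ⟨h1, -⟩ := mem_filter.mp ho'
  obtain ⟨i, hi, hio⟩ := mem_image.mp h1
  have h2 := hC.nm_S (okJ3 hJf a.1 a.2) hi
  rw [nSm_mm] at h2
  have h3 : (2 : ℝ) ^ x.nS ≤ nm (sS x.g x.e₀ x.t i.1) := by exact_mod_cast h2
  obtain ⟨F', hF⟩ := hC.sf i hi
  obtain ⟨h4, -⟩ := nuS_prim hF.prim ((okJ3 hJf a.1 a.2).jc _ (hC.J i hi))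
  have h5 : (1 : ℝ) ≤ nm (nuS (sS x.g x.e₀ x.t i.1) i.2.2) := E1551.nm_ge_one h4.ne_zero
  have h6 : (nm (o.1 * o.2) : ℝ) =
      (nm (sS x.g x.e₀ x.t i.1) : ℝ) * nm (nuS (sS x.g x.e₀ x.t i.1) i.2.2) := by
    rw [← hio]
    show (nm (sS x.g x.e₀ x.t i.1 * nuS (sS x.g x.e₀ x.t i.1) i.2.2) : ℝ) = _
    rw [nm_mul]
    push_cast
    ring
  show (2 : ℝ) ^ x.nS ≤ (nm (o.1 * o.2) : ℝ)
  rw [h6]
  exact h3.trans (le_mul_of_one_le_right (Nat.cast_nonneg _) h5)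

open Classical in
/-- weight `(lD o)^(-b)`, `b ≥ 2` -/
theorem en_vX_pow {M : Eis} {ψ : Eis → ℂ} (hψ0 : HC M ψ) (l : ℤ)
    (hJf : ∀ l N z, OKJ (Jf l N z))
    (hx : x.OK (π lam.1) Bf e0 r ε X a.1) (ha : a.1.ok) (haP : a.1.okP (π lam.1))
    (om : Eis × Eis → ℂ) (α : Eis → ℂ)
    (Oc : Finset (OD M (x.I Jf a) x.g x.e₀ x.t)) {b : ℝ} (hb : 2 ≤ b) (V : ℝ)
    {δ : Eis} (hδ : Squarefree δ) :
    ∑ o ∈ Oc, (lD o) ^ (-b) *
        Ex V (vX M ψ l (x.I Jf a) om x.ph (x.E a.1) α x.g x.e₀ x.t x.c₀ x.g' o) δ ≤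
      1600 * (((2 : ℝ) ^ x.nS) ^ (2 - b) * 2 ^ (x.nE + x.m 1 0) / 2 ^ x.nS) *
        TSd (J3 Jf a.1 a.2) om α x.e₀ δ (fun y => (tau y.2 : ℝ)) := by
  refine en_vXw hψ0 l hJf hx ha haP om α Oc (w := fun o => (nm (o.1 * o.2) : ℝ) ^ (-b))
    (by positivity) (fun _ _ => by positivity) (fun o ho => ?_) V hδ
  have h1 := lD_ge (M := M) hJf hx ha haP o
  have h2 : (0 : ℝ) < 2 ^ x.nS := by positivity
  have h3 : 0 < lD o := h2.trans_le h1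
  show lD o ^ (-b) * lD o ^ 2 ≤ _
  rw [← Real.rpow_natCast (lD o) 2, ← Real.rpow_add h3]
  have e1 : -b + ((2 : ℕ) : ℝ) = 2 - b := by push_cast; ring
  rw [e1]
  exact Real.rpow_le_rpow_of_nonpos h2 h1 (by linarith)

end Dt

end Crest.Agent.R017.EnX743
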