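import Crest.Agent.R017.E4v_92

/-!
# Row 17, block C70, leaf E4 (helper743): the energy of the x-side of the dictionary

* `vS_inj`  : the datum `y` of a frequency `X` is unique
* `en_vS`   : `Σ_X ‖vS X‖² ≤ Σ_y ‖c y‖²`
* `en_cY`   : the same with the coefficients of the dictionary, `δ² ∣ X`
-/

set_option autoImplicit false

noncomputable section

open Complex Finset
open scoped ComplexConjugate

namespace Crest.Agent.R017.EnX743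

open Crest.Agent.R012 Crest.Agent.R012.Eis Crest.Agent.R012.GaussLoc283
open Crest.Agent.R012.Mob705 hiding pb mem_pb
open Crest.Agent.R012.Div277
open Crest.Agent.R012.LS2 (S mem_S)
open Crest.Agent.R017.Sx545 (Sm)
open Crest.Agent.R017.C70 (CbF JC OKJ)
open Crest.Agent.R017.GrB829 (IsC)
open Crest.Agent.R017.CM106 (CS FS)
open Crest.Agent.R017.End699 (HC)
open Crest.Agent.R017.PX764 (n6 th Gh th_mul)
open Crest.Agent.R017.E4352 (tws PrI)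
open Crest.Agent.R017.E4K164 (dc dc_spec)
open Crest.Agent.R017.E5b54 (stj stj_spec stj_inj)
open Crest.Agent.R017.E4v92

variable {M S₀ c₀ g ν : Eis} {J : Finset (Eis × Eis)}

/-- the condition on `y` -/
def Cy (S₀ c₀ g ν : Eis) (y : Eis × Eis) (X : Eis) : Prop :=
  (dc (stj S₀ y.2)).1 = c₀ ∧ (dc (stj S₀ y.2)).2.2 = ν ∧
    (dc (stj S₀ y.2)).2.1 * y.1 ^ 2 = g * X

/-- the datum is unique -/
lemma vS_inj (hS : IsPrim S₀) (hJ : OKJ J) {y y' : Eis × Eis} (hy : y ∈ J) (hy' : y' ∈ J)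
    {X : Eis} (h : Cy S₀ c₀ g ν y X) (h' : Cy S₀ c₀ g ν y' X) : y = y' := by
  obtain ⟨h1, h2, h3⟩ := h
  obtain ⟨h1', h2', h3'⟩ := h'
  obtain ⟨s1, s2, s3, s4, s5, s6, s7⟩ := dc_spec (stj_spec hS (hJ.jc y hy)).1
  obtain ⟨t1, t2, t3, t4, t5, t6, t7⟩ := dc_spec (stj_spec hS (hJ.jc y' hy')).1
  obtain ⟨e1, e2⟩ := E3A164.eq_ng s2 s3 (hJ.prim y hy) t2 t3 (hJ.prim y' hy') (h3.trans h3'.symm)
  have e3 : stj S₀ y.2 = stj S₀ y'.2 := by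
    rw [s7, t7, h1, h1', h2, h2', e1]
  exact Prod.ext e2 (stj_inj hS (hJ.jc y hy) (hJ.jc y' hy') e3)

open Classical in
/-- **the energy of the push-forward** -/
theorem en_vS (hS : IsPrim S₀) (hJ : OKJ J) (hg : g ≠ 0) (c : Eis × Eis → ℂ) (P : Finset Eis) :
    ∑ X ∈ P, ‖vS M S₀ c₀ g ν J c X‖ ^ 2 ≤
      ∑ y ∈ J.filter (fun y => ∃ X ∈ P, Cy S₀ c₀ g ν y X), ‖c y‖ ^ 2 := by
  have h1 : ∀ X ∈ P, ‖vS M S₀ c₀ g ν J c X‖ ^ 2 ≤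
      ∑ y ∈ J.filter (fun y => Cy S₀ c₀ g ν y X), ‖c y‖ ^ 2 := by
    intro X hX
    unfold vS
    split_ifs with h
    · by_cases hne : (J.filter (fun y => Cy S₀ c₀ g ν y X)).Nonempty
      · obtain ⟨y₀, hy₀⟩ := hne
        have hF : J.filter (fun y => Cy S₀ c₀ g ν y X) = {y₀} := by
          refine eq_singleton_iff_unique_mem.mpr ⟨hy₀, fun y hy => ?_⟩
          rw [mem_filter] at hy hy₀
          exact vS_inj hS hJ hy.1 hy₀.1 hy.2 hy₀.2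
        have hF' : J.filter (fun y => (dc (stj S₀ y.2)).1 = c₀ ∧ (dc (stj S₀ y.2)).2.2 = ν ∧
            (dc (stj S₀ y.2)).2.1 * y.1 ^ 2 = g * X) = {y₀} := by
          rw [← hF]; ext y; rw [mem_filter, mem_filter]; exact Iff.rfl
        rw [hF', hF, sum_singleton, sum_singleton]
      · rw [not_nonempty_iff_eq_empty] at hne
        have hF' : J.filter (fun y => (dc (stj S₀ y.2)).1 = c₀ ∧ (dc (stj S₀ y.2)).2.2 = ν ∧
            (dc (stj S₀ y.2)).2.1 * y.1 ^ 2 = g * X) = ∅ := by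
          rw [← hne]; ext y; rw [mem_filter, mem_filter]; exact Iff.rfl
        rw [hF', hne, sum_empty, sum_empty, norm_zero]
        norm_num
    · rw [norm_zero]
      exact le_trans (by norm_num) (sum_nonneg fun _ _ => by positivity)
  refine (sum_le_sum h1).trans ?_
  rw [← sum_biUnion]
  · refine sum_le_sum_of_subset_of_nonneg (fun y hy => ?_) fun _ _ _ => by positivity
    obtain ⟨X, hX, hy'⟩ := mem_biUnion.mp hy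
    rw [mem_filter] at hy' ⊢
    exact ⟨hy'.1, X, hX, hy'.2⟩
  · intro X _ X' _ hne
    rw [Function.onFun, disjoint_left]
    intro y hy hy'
    rw [mem_filter] at hy hy'
    apply hne
    have h2 : g * X = g * X' := hy.2.2.2.symm.trans hy'.2.2.2
    exact mul_left_cancel₀ hg h2

/-- `δ² ∣ X` forces `δ ∣ y.1` -/
lemma dvd_of_Cy (hS : IsPrim S₀) (hJ : OKJ J) {y : Eis × Eis} (hy : y ∈ J)
    (hc : IsCoprime y.2 y.1 ∧ IsCoprime S₀ y.1) {X δ : Eis} (hδ : Squarefree δ)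
    (h : Cy S₀ c₀ g ν y X) (hd : δ ^ 2 ∣ X) : δ ∣ y.1 := by
  obtain ⟨h1, h2, h3⟩ := h
  obtain ⟨hj, e, he, hje⟩ := stj_spec hS (hJ.jc y hy)
  obtain ⟨s1, s2, s3, s4, s5, s6, s7⟩ := dc_spec hj
  have h4 : IsCoprime (stj S₀ y.2 * e ^ 3) y.1 := by rw [← hje]; exact hc.1.mul_left hc.2
  have hr : IsCoprime (dc (stj S₀ y.2)).2.1 y.1 := by
    refine h4.of_mul_left_left.of_isCoprime_of_dvd_left ?_
    conv_rhs => rw [s7]
    exact ⟨(dc (stj S₀ y.2)).1 * (dc (stj S₀ y.2)).2.2 ^ 2, by ring⟩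
  have h5 : δ ^ 2 ∣ (dc (stj S₀ y.2)).2.1 * y.1 ^ 2 := by
    rw [h3]; exact hd.trans (dvd_mul_left _ _)
  -- `δ` is prime to `r`
  have h6 : IsCoprime δ (dc (stj S₀ y.2)).2.1 := by
    refine isCoprime_of_prime_dvd (fun h => s2.ne_zero h.2) fun p hp hpδ hpr => ?_
    have hpy : IsCoprime p y.1 := hr.of_isCoprime_of_dvd_left hpr
    have h7 : p ^ 2 ∣ (dc (stj S₀ y.2)).2.1 * y.1 ^ 2 := (pow_dvd_pow_of_dvd hpδ 2).trans h5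
    have h8 : p ^ 2 ∣ (dc (stj S₀ y.2)).2.1 := (hpy.pow (m := 2) (n := 2)).dvd_of_dvd_mul_right h7
    exact hp.not_isUnit (s3 p (by rwa [pow_two] at h8))
  have h9 : δ ^ 2 ∣ y.1 ^ 2 := (h6.pow (m := 2) (n := 1)).dvd_of_dvd_mul_left (by rwa [pow_one])
  exact (hδ.dvd_pow_iff_dvd two_ne_zero).mp ((dvd_pow_self δ two_ne_zero).trans h9)

/-! ### the size of the coefficients -/

lemma n6_sq' (k : Eis) : n6 k ^ 2 = (nm k : ℝ) ^ (-(1 : ℝ) / 3) := by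
  unfold n6
  rw [← Real.rpow_natCast, ← Real.rpow_mul (Nat.cast_nonneg _)]
  congr 1
  norm_num

/-- the size of the theta value -/
lemma th_sq {c₀ r : Eis} (hc₀ : IsC c₀) (hr : IsPrim r) (hrq : Squarefree r) :
    ‖th (c₀ * r)‖ ^ 2 = (nm (c₀ * r) : ℝ) ^ (-(1 : ℝ) / 3) := by
  rw [E3s164.th_c_mul hc₀ hr hrq, norm_mul, norm_mul, RCLike.norm_conj,
    PX764.norm_Gh_one hr hrq (E4D164.cop_IsC hc₀ hr), one_mul, Complex.norm_real,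
    Real.norm_eq_abs, abs_of_nonneg (E3D579.n6_nonneg _), mul_pow, n6_sq', hc₀.norm_th, nm_mul,
    Nat.cast_mul, Real.mul_rpow (Nat.cast_nonneg _) (Nat.cast_nonneg _)]
  ring

open Classical in
/-- the cube of the star: `j * S = stj S j * (eS S j)³` -/
def eS (S j : Eis) : Eis :=
  if h : ∃ e, IsPrim e ∧ j * S = stj S j * e ^ 3 then h.choose else 1

lemma eS_spec {S j : Eis} (hS : IsPrim S) (hj : JC j) :
    IsPrim (eS S j) ∧ j * S = stj S j * eS S j ^ 3 := by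
  have h := (stj_spec hS hj).2
  unfold eS
  rw [dif_pos h]
  exact h.choose_spec

/-- the square part of the star -/
def nuS (S j : Eis) : Eis := (dc (stj S j)).2.2

/-- `c r` of the star -/
def crS (S j : Eis) : Eis := (dc (stj S j)).1 * (dc (stj S j)).2.1

lemma star_eq {S j : Eis} (hS : IsPrim S) (hj : JC j) :
    j * S = crS S j * nuS S j ^ 2 * eS S j ^ 3 := by
  obtain ⟨-, hje⟩ := eS_spec hS hj
  obtain ⟨-, -, -, -, -, -, s7⟩ := dc_spec (stj_spec hS hj).1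
  rw [hje]
  unfold crS nuS
  rw [← s7]

lemma nuS_prim {S j : Eis} (hS : IsPrim S) (hj : JC j) :
    IsPrim (nuS S j) ∧ Squarefree (nuS S j) := by
  obtain ⟨-, -, -, s4, s5, -, -⟩ := dc_spec (stj_spec hS hj).1
  exact ⟨s4, s5⟩

lemma crS_ne_zero {S j : Eis} (hS : IsPrim S) (hj : JC j) : crS S j ≠ 0 := by
  obtain ⟨s1, s2, -, -, -, -, -⟩ := dc_spec (stj_spec hS hj).1
  exact mul_ne_zero s1.ne_zero s2.ne_zero

lemma star_nm {S j : Eis} (hS : IsPrim S) (hj : JC j) :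
    (nm j : ℝ) * nm S = nm (crS S j) * (nm (nuS S j) : ℝ) ^ 2 * (nm (eS S j) : ℝ) ^ 3 := by
  rw [← Nat.cast_mul, ← nm_mul, star_eq hS hj]
  simp only [nm_mul, nm_pow]
  push_cast
  ring

lemma nm_pos' {x : Eis} (h : x ≠ 0) : (0 : ℝ) < nm x := E1551.nmpos h

/-- **the exact weight**: `(nm S nm ν)^(4/3) nm(c r)^(-1/3) = nm S (nm ν)² nm e (nm j)^(-1/3)` -/
lemma wt_eq {S j : Eis} (hS : IsPrim S) (hj : JC j) :
    ((nm S : ℝ) * nm (nuS S j)) ^ (4 / 3 : ℝ) * (nm (crS S j) : ℝ) ^ (-(1 : ℝ) / 3) =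
      (nm S : ℝ) * (nm (nuS S j) : ℝ) ^ 2 * nm (eS S j) * (nm j : ℝ) ^ (-(1 : ℝ) / 3) := by
  have hs := nm_pos' hS.ne_zero
  have hn := nm_pos' (nuS_prim hS hj).1.ne_zero
  have he := nm_pos' (eS_spec hS hj).1.ne_zero
  have hc := nm_pos' (crS_ne_zero hS hj)
  have hj0 := nm_pos' (E5b54.JC_ne_zero hj)
  have h := star_nm hS hj
  set a := (nm S : ℝ)
  set b := (nm (nuS S j) : ℝ)
  set e := (nm (eS S j) : ℝ)
  set c := (nm (crS S j) : ℝ)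
  set d := (nm j : ℝ)
  have h1 : (d * a) ^ (-(1 : ℝ) / 3) = c ^ (-(1 : ℝ) / 3) * b ^ (-(2 : ℝ) / 3) * e ^ (-1 : ℝ) := by
    rw [h, Real.mul_rpow (by positivity) (by positivity), Real.mul_rpow (by positivity)
      (by positivity), ← Real.rpow_natCast b, ← Real.rpow_natCast e, ← Real.rpow_mul hn.le,
      ← Real.rpow_mul he.le]
    norm_num
  have h2 : c ^ (-(1 : ℝ) / 3) = (d * a) ^ (-(1 : ℝ) / 3) * b ^ (2 / 3 : ℝ) * e := by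
    rw [h1]
    have e1 : b ^ (-(2 : ℝ) / 3) * b ^ (2 / 3 : ℝ) = 1 := by
      rw [← Real.rpow_add hn]; norm_num
    have e2 : e ^ (-1 : ℝ) * e = 1 := by
      rw [Real.rpow_neg_one]; exact inv_mul_cancel₀ he.ne'
    calc c ^ (-(1 : ℝ) / 3) = c ^ (-(1 : ℝ) / 3) * 1 * 1 := by ring
      _ = c ^ (-(1 : ℝ) / 3) * (b ^ (-(2 : ℝ) / 3) * b ^ (2 / 3 : ℝ)) * (e ^ (-1 : ℝ) * e) := by
        rw [e1, e2]
      _ = _ := by ring
  rw [h2, Real.mul_rpow hj0.le hs.le, Real.mul_rpow hs.le hn.le]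
  have e3 : a ^ (4 / 3 : ℝ) * a ^ (-(1 : ℝ) / 3) = a := by
    rw [← Real.rpow_add hs]; norm_num
  have e4 : b ^ (4 / 3 : ℝ) * b ^ (2 / 3 : ℝ) = b ^ 2 := by
    rw [← Real.rpow_add hn, ← Real.rpow_natCast]; norm_num
  calc a ^ (4 / 3 : ℝ) * b ^ (4 / 3 : ℝ) *
        (d ^ (-(1 : ℝ) / 3) * a ^ (-(1 : ℝ) / 3) * b ^ (2 / 3 : ℝ) * e) =
      (a ^ (4 / 3 : ℝ) * a ^ (-(1 : ℝ) / 3)) * (b ^ (4 / 3 : ℝ) * b ^ (2 / 3 : ℝ)) * e *
        d ^ (-(1 : ℝ) / 3) := by ring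
    _ = _ := by rw [e3, e4]

/-- the coefficient of the dictionary -/
lemma norm_cY_sq (hS : IsPrim S₀) (hJ : OKJ J) {e₀ : Eis} {om : Eis × Eis → ℂ}
    {α κ : Eis → ℂ} {y : Eis × Eis} (hy : y ∈ J) (h1 : (dc (stj S₀ y.2)).1 = c₀)
    (hκ : ‖κ y.1‖ ≤ 1) :
    ‖cY S₀ c₀ e₀ om α κ y‖ ^ 2 ≤ (nm (crS S₀ y.2) : ℝ) ^ (-(1 : ℝ) / 3) *
      (‖om y‖ ^ 2 * ‖E2440.TE α y e₀‖ ^ 2) := by
  obtain ⟨s1, s2, s3, -, -, -, -⟩ := dc_spec (stj_spec hS (hJ.jc y hy)).1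
  have h2 := th_sq s1 s2 s3
  unfold cY
  rw [norm_mul, norm_mul, RCLike.norm_conj, norm_mul, mul_pow, mul_pow, mul_pow, ← h1]
  rw [show ‖th ((dc (stj S₀ y.2)).1 * (dc (stj S₀ y.2)).2.1)‖ ^ 2 =
    (nm (crS S₀ y.2) : ℝ) ^ (-(1 : ℝ) / 3) from h2]
  have h3 : ‖κ y.1‖ ^ 2 ≤ 1 := pow_le_one₀ (norm_nonneg _) hκ
  have h4 : 0 ≤ (nm (crS S₀ y.2) : ℝ) ^ (-(1 : ℝ) / 3) := Real.rpow_nonneg (Nat.cast_nonneg _) _
  calc ‖om y‖ ^ 2 * ‖E2440.TE α y e₀‖ ^ 2 *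
        (‖κ y.1‖ ^ 2 * (nm (crS S₀ y.2) : ℝ) ^ (-(1 : ℝ) / 3))
      ≤ ‖om y‖ ^ 2 * ‖E2440.TE α y e₀‖ ^ 2 *
        (1 * (nm (crS S₀ y.2) : ℝ) ^ (-(1 : ℝ) / 3)) := by gcongr
    _ = _ := by ring

open Classical in
/-- **energy of the `x`-side at one outer index**, `δ² ∣ X` -/
theorem en_cY (hS : IsPrim S₀) (hJ : OKJ J) (hg : g ≠ 0) {e₀ : Eis}
    {om : Eis × Eis → ℂ} {α κ : Eis → ℂ} (hκ1 : ∀ d, IsPrim d → ‖κ d‖ ≤ 1)
    (hκ : ∀ d, IsPrim d → κ d ≠ 0 → IsCoprime S₀ d) {P : Finset Eis} {δ : Eis}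
    (hδ : Squarefree δ) (hP : ∀ X ∈ P, δ ^ 2 ∣ X) :
    ∑ X ∈ P, ‖vS M S₀ c₀ g ν J (cY S₀ c₀ e₀ om α κ) X‖ ^ 2 ≤
      ∑ y ∈ J.filter (fun y => δ ∣ y.1 ∧ (dc (stj S₀ y.2)).1 = c₀ ∧ nuS S₀ y.2 = ν),
        (nm (crS S₀ y.2) : ℝ) ^ (-(1 : ℝ) / 3) * (‖om y‖ ^ 2 * ‖E2440.TE α y e₀‖ ^ 2) := by
  refine (en_vS hS hJ hg _ P).trans ?_
  rw [sum_filter, sum_filter]
  refine sum_le_sum fun y hy => ?_
  have h0 : 0 ≤ (nm (crS S₀ y.2) : ℝ) ^ (-(1 : ℝ) / 3) *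
      (‖om y‖ ^ 2 * ‖E2440.TE α y e₀‖ ^ 2) := by
    have := Real.rpow_nonneg (Nat.cast_nonneg (nm (crS S₀ y.2)) : (0 : ℝ) ≤ _) (-(1 : ℝ) / 3)
    positivity
  by_cases h1 : cY S₀ c₀ e₀ om α κ y = 0
  · have h2 : ‖cY S₀ c₀ e₀ om α κ y‖ ^ 2 = 0 := by rw [h1, norm_zero]; norm_num
    rw [h2]
    split_ifs <;> first | exact h0 | exact le_rfl
  · by_cases h2 : ∃ X ∈ P, Cy S₀ c₀ g ν y X
    · obtain ⟨X, hX, hC⟩ := h2
      have h3 : δ ∣ y.1 := dvd_of_Cy hS hJ hy (cY_cop hκ (hJ.prim y hy) h1) hδ hC (hP X hX)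
      rw [if_pos ⟨X, hX, hC⟩, if_pos ⟨h3, hC.1, hC.2.1⟩]
      exact norm_cY_sq hS hJ hy hC.1 (hκ1 _ (hJ.prim y hy))
    · rw [if_neg h2]
      split_ifs
      · exact h0
      · exact le_rfl

lemma norm_KO_le {ψ : Eis → ℂ} (hψ : HC M ψ) (l : ℤ) {f S ν : Eis} (hf : IsPrim f)
    (hS : IsPrim S) (hν : IsPrim ν) :
    ‖KO ψ l f S ν‖ ^ 2 ≤ ((nm S : ℝ) * nm ν) ^ (4 / 3 : ℝ) := by
  have hp : IsPrim (S * ν) := hS.mul hν
  have h3 : ‖End699.tw ψ l (S * ν)‖ ≤ 1 := (hψ.isChar_tw l).norm_le hp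
  have h4 : ‖sy (S * ν) f‖ ≤ 1 := E2440.norm_sy_le1 hf
  have h7 : (0 : ℝ) ≤ (nm (S * ν) : ℝ) ^ (2 / 3 : ℝ) := by positivity
  have h8 : ((nm (S * ν) : ℝ) ^ (2 / 3 : ℝ)) ^ 2 = ((nm S : ℝ) * nm ν) ^ (4 / 3 : ℝ) := by
    rw [← Real.rpow_natCast, ← Real.rpow_mul (Nat.cast_nonneg _), nm_mul]
    push_cast
    norm_num
  unfold KO
  rw [norm_mul, norm_mul, RCLike.norm_conj, Complex.norm_real, Real.norm_of_nonneg h7, ← h8]
  refine pow_le_pow_left₀ (by positivity) ?_ 2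
  calc ‖End699.tw ψ l (S * ν)‖ * ‖sy (S * ν) f‖ * (nm (S * ν) : ℝ) ^ (2 / 3 : ℝ)
      ≤ 1 * 1 * (nm (S * ν) : ℝ) ^ (2 / 3 : ℝ) := by gcongr
    _ = _ := by ring

open Classical in
/-- the weighted `T`-sum over the children `δ ∣ d` -/
def TSd (J : Finset (Eis × Eis)) (om : Eis × Eis → ℂ) (α : Eis → ℂ) (e₀ δ : Eis)
    (W : Eis × Eis → ℝ) : ℝ :=
  ∑ y ∈ J.filter (fun y => δ ∣ y.1), W y * ((nm y.2 : ℝ) ^ (-(1 : ℝ) / 3) *
    (‖om y‖ ^ 2 * ‖E2440.TE α y e₀‖ ^ 2))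

open Classical in
/-- **the energy of 164's `vI`**, one outer index -/
theorem en_vI {B : Type*} {ψ : Eis → ℂ} (hψ : HC M ψ) (l : ℤ) {f : Eis} (hf : IsPrim f)
    {Q : Finset B} {sE : B → Eis} (hJ : OKJ J) {ε : B → ℂ} {om : Eis × Eis → ℂ} {α : Eis → ℂ}
    {e₀ : Eis} (hg : g ≠ 0) {o : Eis × Eis} (h1 : IsPrim o.1) (h2 : IsPrim o.2)
    {P : Finset Eis} {δ : Eis} (hδ : Squarefree δ) (hP : ∀ X ∈ P, δ ^ 2 ∣ X) :
    ∑ X ∈ P, ‖E4D164.vI M ψ l f (Q ×ˢ J) (E4D164.jS sE) E4D164.jD (E4D164.jJ sE)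
        (E4D164.jC sE (E4D164.cE ε om α e₀)) c₀ g o X‖ ^ 2 ≤
      ‖EB Q sE ε o.1‖ ^ 2 * ∑ y ∈ J.filter (fun y => δ ∣ y.1 ∧
        (dc (stj o.1 y.2)).1 = c₀ ∧ nuS o.1 y.2 = o.2),
        ((nm o.1 : ℝ) * (nm o.2 : ℝ) ^ 2 * nm (eS o.1 y.2)) * ((nm y.2 : ℝ) ^ (-(1 : ℝ) / 3) *
          (‖om y‖ ^ 2 * ‖E2440.TE α y e₀‖ ^ 2)) := by
  have e1 : ∀ X ∈ P, ‖E4D164.vI M ψ l f (Q ×ˢ J) (E4D164.jS sE) E4D164.jD (E4D164.jJ sE)
        (E4D164.jC sE (E4D164.cE ε om α e₀)) c₀ g o X‖ ^ 2 =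
      (‖EB Q sE ε o.1‖ ^ 2 * ‖KO ψ l f o.1 o.2‖ ^ 2) *
        ‖vS M o.1 c₀ g o.2 J (cY o.1 c₀ e₀ om α (fun d => conj (sy (o.1 * o.2) d))) X‖ ^ 2 := by
    intro X _
    rw [vI_eq hJ, norm_mul, norm_mul, mul_pow, mul_pow]
  rw [sum_congr rfl e1, ← mul_sum]
  have h3 := en_cY (M := M) (c₀ := c₀) (g := g) (ν := o.2) (J := J) (e₀ := e₀) (om := om)
    (α := α) (κ := fun d => conj (sy (o.1 * o.2) d)) h1 hJ hg
    (fun d hd => by rw [RCLike.norm_conj]; exact E2440.norm_sy_le1 hd)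
    (fun d hd h => kap_cop hd h) (P := P) hδ hP
  have h4 := norm_KO_le hψ l hf h1 h2
  have h5 : 0 ≤ ∑ y ∈ J.filter (fun y => δ ∣ y.1 ∧ (dc (stj o.1 y.2)).1 = c₀ ∧
      nuS o.1 y.2 = o.2), (nm (crS o.1 y.2) : ℝ) ^ (-(1 : ℝ) / 3) *
        (‖om y‖ ^ 2 * ‖E2440.TE α y e₀‖ ^ 2) := sum_nonneg fun y _ => by
    have := Real.rpow_nonneg (Nat.cast_nonneg (nm (crS o.1 y.2)) : (0 : ℝ) ≤ _) (-(1 : ℝ) / 3)
    positivity
  refine (mul_le_mul_of_nonneg_left h3 (by positivity)).trans ?_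
  refine (mul_le_mul_of_nonneg_right (mul_le_mul_of_nonneg_left h4 (by positivity)) h5).trans ?_
  rw [mul_assoc]
  refine mul_le_mul_of_nonneg_left ?_ (by positivity)
  rw [mul_sum]
  refine sum_le_sum fun y hy => ?_
  obtain ⟨hyJ, -, -, hν⟩ := mem_filter.mp hy
  have h6 := wt_eq h1 (hJ.jc y hyJ)
  rw [hν] at h6
  rw [← mul_assoc, h6]
  exact le_of_eq (by ring)

open Classical in
/-- **the energy of 164's `vI`, summed over the second coordinate** (weight `w ν` arbitrary) -/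
theorem en_sum {B : Type*} {ψ : Eis → ℂ} (hψ : HC M ψ) (l : ℤ) {f : Eis} (hf : IsPrim f)
    {Q : Finset B} {sE : B → Eis} (hJ : OKJ J) {ε : B → ℂ} {om : Eis × Eis → ℂ} {α : Eis → ℂ}
    {e₀ : Eis} (hg : g ≠ 0) {S : Eis} (hS : IsPrim S) {N : Finset Eis}
    (hN : ∀ ν ∈ N, IsPrim ν) {w : Eis → ℝ} (hw : ∀ ν ∈ N, 0 ≤ w ν)
    {P : Eis → Finset Eis} {δ : Eis} (hδ : Squarefree δ)
    (hP : ∀ ν ∈ N, ∀ X ∈ P ν, δ ^ 2 ∣ X) :
    ∑ ν ∈ N, w ν * ∑ X ∈ P ν, ‖E4D164.vI M ψ l f (Q ×ˢ J) (E4D164.jS sE) E4D164.jD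
        (E4D164.jJ sE) (E4D164.jC sE (E4D164.cE ε om α e₀)) c₀ g (S, ν) X‖ ^ 2 ≤
      ‖EB Q sE ε S‖ ^ 2 * ((nm S : ℝ) * TSd J om α e₀ δ (fun y =>
        if nuS S y.2 ∈ N ∧ (dc (stj S y.2)).1 = c₀ then
          w (nuS S y.2) * (nm (nuS S y.2) : ℝ) ^ 2 * nm (eS S y.2) else 0)) := by
  have h1 : ∀ ν ∈ N, w ν * ∑ X ∈ P ν, ‖E4D164.vI M ψ l f (Q ×ˢ J) (E4D164.jS sE) E4D164.jD
        (E4D164.jJ sE) (E4D164.jC sE (E4D164.cE ε om α e₀)) c₀ g (S, ν) X‖ ^ 2 ≤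
      ‖EB Q sE ε S‖ ^ 2 * ∑ y ∈ J.filter (fun y => δ ∣ y.1), if (dc (stj S y.2)).1 = c₀ ∧
        nuS S y.2 = ν then w ν * (((nm S : ℝ) * (nm ν : ℝ) ^ 2 * nm (eS S y.2)) *
          ((nm y.2 : ℝ) ^ (-(1 : ℝ) / 3) * (‖om y‖ ^ 2 * ‖E2440.TE α y e₀‖ ^ 2))) else 0 := by
    intro ν hν
    refine (mul_le_mul_of_nonneg_left (en_vI hψ l hf hJ hg (o := (S, ν)) hS (hN ν hν) hδ
      (hP ν hν)) (hw ν hν)).trans (le_of_eq ?_)
    dsimp only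
    rw [← sum_filter, filter_filter, mul_left_comm, mul_sum]
  refine (sum_le_sum h1).trans (le_of_eq ?_)
  rw [← mul_sum, sum_comm]
  congr 1
  unfold TSd
  rw [mul_sum]
  refine sum_congr rfl fun y _ => ?_
  dsimp only
  by_cases h2 : nuS S y.2 ∈ N ∧ (dc (stj S y.2)).1 = c₀
  · rw [if_pos h2, sum_eq_single_of_mem _ h2.1]
    · rw [if_pos ⟨h2.2, rfl⟩]
      ring
    · intro ν _ hne
      rw [if_neg (fun h => hne h.2.symm)]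
  · rw [if_neg h2]
    rw [zero_mul, mul_zero]
    refine sum_eq_zero fun ν hν => if_neg fun h => h2 ⟨by rw [h.2]; exact hν, h.1⟩

/-! ### supports -/

/-- the size of `X` -/
lemma size_X (hS : IsPrim S₀) (hJ : OKJ J) {y : Eis × Eis} (hy : y ∈ J) {X : Eis}
    (h : Cy S₀ c₀ g ν y X) :
    (nm (c₀ * g) : ℝ) * nm X * ((nm ν : ℝ) ^ 2 * (nm (eS S₀ y.2) : ℝ) ^ 3) =
      nm S₀ * nm (y.2 * y.1 ^ 2) := by
  obtain ⟨h1, h2, h3⟩ := h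
  have h4 := star_eq hS (hJ.jc y hy)
  have h5 : (c₀ * g) * X * (ν ^ 2 * eS S₀ y.2 ^ 3) = S₀ * (y.2 * y.1 ^ 2) := by
    unfold crS nuS at h4
    rw [h1, h2] at h4
    linear_combination (-(c₀ * ν ^ 2 * eS S₀ y.2 ^ 3)) * h3 - y.1 ^ 2 * h4
  have h6 := congrArg (fun x => (nm x : ℝ)) h5
  simp only [nm_mul, nm_pow] at h6 ⊢
  push_cast at h6 ⊢
  linarith

/-- **the support of `vI`** : primary, cube-free, `nm x ≤ nm S V / (nm ν)²` -/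
theorem supp_vI {B : Type*} {ψ : Eis → ℂ} {l : ℤ} {f : Eis} {Q : Finset B} {sE : B → Eis}
    (hJ : OKJ J) {ε : B → ℂ} {om : Eis × Eis → ℂ} {α : Eis → ℂ} {e₀ : Eis}
    {o : Eis × Eis} (h1 : IsPrim o.1) (h2 : IsPrim o.2) (hc₀ : IsC c₀) (hg : IsPrim g) {V : ℝ}
    (hV : ∀ y ∈ J, om y ≠ 0 → (nm (y.2 * y.1 ^ 2) : ℝ) ≤ V) {X : Eis}
    (h : E4D164.vI M ψ l f (Q ×ˢ J) (E4D164.jS sE) E4D164.jD (E4D164.jJ sE)
        (E4D164.jC sE (E4D164.cE ε om α e₀)) c₀ g o X ≠ 0) :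
    IsPrim X ∧ CbF X ∧ (nm X : ℝ) * ((nm o.2 : ℝ) ^ 2 * nm g) ≤ nm o.1 * V := by
  rw [vI_eq hJ] at h
  have h3 := right_ne_zero_of_mul h
  have h4 := vS_cbf h1 hJ (fun y hy hc => cY_cop (fun d hd h => kap_cop hd h)
    (hJ.prim y hy) hc) h3
  obtain ⟨h5, y, hy, k1, k2, k3, k4⟩ := vS_ne h3
  refine ⟨h5.1, fun p hp hd => h4 p hp (hd.mul_left g), ?_⟩
  have hom : om y ≠ 0 := by
    intro h0
    apply k4
    unfold cY
    rw [h0, zero_mul, map_zero, zero_mul]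
  have h6 := size_X (c₀ := c₀) (g := g) h1 hJ hy ⟨k1, k2, k3⟩
  have he : (1 : ℝ) ≤ nm (eS o.1 y.2) := E1551.nm_ge_one (eS_spec h1 (hJ.jc y hy)).1.ne_zero
  have hc1 : (1 : ℝ) ≤ nm c₀ := E1551.nm_ge_one hc₀.ne_zero
  have hX : (0 : ℝ) ≤ nm X := Nat.cast_nonneg _
  have hν : (0 : ℝ) ≤ nm o.2 := Nat.cast_nonneg _
  have hgn : (0 : ℝ) ≤ nm g := Nat.cast_nonneg _
  have hS0 : (0 : ℝ) ≤ nm o.1 := Nat.cast_nonneg _
  rw [nm_mul, Nat.cast_mul] at h6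
  calc (nm X : ℝ) * ((nm o.2 : ℝ) ^ 2 * nm g)
      ≤ (nm X : ℝ) * ((nm o.2 : ℝ) ^ 2 * nm g) * (nm c₀ * (nm (eS o.1 y.2) : ℝ) ^ 3) := by
        refine le_mul_of_one_le_right (by positivity) ?_
        have h7 : (1 : ℝ) ≤ (nm (eS o.1 y.2) : ℝ) ^ 3 := one_le_pow₀ he
        nlinarith
    _ = (nm o.1 : ℝ) * (nm (y.2 * y.1 ^ 2) : ℝ) := by rw [← h6]; ring
    _ ≤ (nm o.1 : ℝ) * V := mul_le_mul_of_nonneg_left (hV y hy hom) hS0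

/-! ### the cube part of the star -/

lemma exists_gcd' (l : Eis) {u : Eis} (hu : IsPrim u) :
    ∃ g l₁ u₁ : Eis, IsPrim g ∧ IsPrim u₁ ∧ l = g * l₁ ∧ u = g * u₁ ∧ IsCoprime l₁ u₁ := by
  set g0 := EuclideanDomain.gcd l u with hg
  have hg1 : g0 ∣ l := EuclideanDomain.gcd_dvd_left _ _
  have hg2 : g0 ∣ u := EuclideanDomain.gcd_dvd_right _ _
  have hgl : ¬ lam ∣ g0 := fun h => hu.not_lam_dvd (h.trans hg2)
  set e := prim g0 with he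
  have hep : IsPrim e := prim_isPrim hgl
  have hass : Associated g0 e := prim_associated g0
  obtain ⟨k1, hk1⟩ : e ∣ l := hass.symm.dvd.trans hg1
  obtain ⟨k2, hk2⟩ : e ∣ u := hass.symm.dvd.trans hg2
  have hp2 : IsPrim k2 := IsPrim.of_mul_left (hk2 ▸ hu) hep
  refine ⟨e, k1, k2, hep, hp2, hk1, hk2, ?_⟩
  have hbez := EuclideanDomain.gcd_eq_gcd_ab l u
  rw [← hg] at hbez
  obtain ⟨v, hv⟩ := hass
  refine ⟨v * EuclideanDomain.gcdA l u, v * EuclideanDomain.gcdB l u, ?_⟩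
  apply mul_left_cancel₀ hep.ne_zero
  calc e * (v * EuclideanDomain.gcdA l u * k1 + v * EuclideanDomain.gcdB l u * k2)
      = v * (e * k1 * EuclideanDomain.gcdA l u + e * k2 * EuclideanDomain.gcdB l u) := by
        ring
    _ = v * (l * EuclideanDomain.gcdA l u + u * EuclideanDomain.gcdB l u) := by
        rw [← hk1, ← hk2]
    _ = e * 1 := by rw [← hbez, ← hv]; ring

/-- `e³ ∣ q² S`, `q` squarefree, gives `e ∣ S` -/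
lemma cube_dvd {e q S : Eis} (he : IsPrim e) (hq : IsPrim q) (hqs : Squarefree q)
    (h : e ^ 3 ∣ q ^ 2 * S) : e ∣ S := by
  obtain ⟨g, e', q', hg, hq', h1, h2, h3⟩ := exists_gcd' e hq
  have hgq : IsCoprime g q' := by
    rw [h2] at hqs
    exact (squarefree_mul_iff.mp hqs).1.isCoprime
  have h4 : g * e' ^ 3 ∣ q' ^ 2 * S := by
    have h5 : g ^ 2 * (g * e' ^ 3) ∣ g ^ 2 * (q' ^ 2 * S) := by
      have e1 : g ^ 2 * (g * e' ^ 3) = e ^ 3 := by rw [h1]; ring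
      have e2 : g ^ 2 * (q' ^ 2 * S) = q ^ 2 * S := by rw [h2]; ring
      rw [e1, e2]; exact h
    exact (mul_dvd_mul_iff_left (pow_ne_zero 2 hg.ne_zero)).mp h5
  have h6 : IsCoprime (g * e' ^ 3) (q' ^ 2) := by
    refine IsCoprime.pow_right ?_
    exact hgq.mul_left h3.pow_left
  have h7 : g * e' ^ 3 ∣ S := h6.dvd_of_dvd_mul_left h4
  refine Dvd.dvd.trans ?_ h7
  rw [h1]
  exact mul_dvd_mul_left g (dvd_pow_self e' (by norm_num))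

/-- **`e ∣ S`** -/
lemma eS_dvd {S j : Eis} (hS : IsPrim S) (hj : JC j) : eS S j ∣ S := by
  obtain ⟨he, hje⟩ := eS_spec hS hj
  obtain ⟨s1, s2, s3, s4, s5, s6, s7⟩ := dc_spec hj
  have hq : IsPrim ((dc j).2.1 * (dc j).2.2) := s2.mul s4
  have hqs : Squarefree ((dc j).2.1 * (dc j).2.2) :=
    squarefree_mul_iff.mpr ⟨s6.isRelPrime, s3, s5⟩
  refine cube_dvd he hq hqs ?_
  have hce : IsCoprime (eS S j ^ 3) (dc j).1 := (E4D164.cop_IsC s1 (he.pow 3)).symm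
  have h1 : eS S j ^ 3 ∣ (dc j).1 * ((dc j).2.1 * (dc j).2.2 ^ 2 * S) := by
    have h2 : (dc j).1 * ((dc j).2.1 * (dc j).2.2 ^ 2 * S) = j * S := by
      conv_rhs => rw [s7]
      ring
    rw [h2, hje]
    exact dvd_mul_left _ _
  have h3 : eS S j ^ 3 ∣ (dc j).2.1 * (dc j).2.2 ^ 2 * S := hce.dvd_of_dvd_mul_left h1
  exact h3.trans ⟨(dc j).2.1, by ring⟩

/-- `e` is prime to everything prime to `j`, if the part of `S` there is cube-free -/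
lemma eS_cop {S j n : Eis} (hS : IsPrim S) (hj : JC j) (hn : n ≠ 0) (hjn : IsCoprime j n)
    (hSn : ∀ p, Prime p → p ∣ n → ¬ p ^ 3 ∣ S) : IsCoprime (eS S j) n := by
  obtain ⟨he, hje⟩ := eS_spec hS hj
  refine isCoprime_of_prime_dvd (fun h => hn h.2) fun p hp hpe hpn => ?_
  refine hSn p hp hpn ?_
  have h1 : p ^ 3 ∣ j * S := by rw [hje]; exact (pow_dvd_pow_of_dvd hpe 3).mul_left _
  have h2 : IsCoprime (p ^ 3) j := (hjn.symm.of_isCoprime_of_dvd_left hpn).pow_left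
  exact h2.dvd_of_dvd_mul_left h1

end Crest.Agent.R017.EnX743
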