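import Crest.Agent.R017.EnX_743

/-!
# Row 17, block C70, leaf E4 (helper743): the energy of the x-side, summed over the outer variables

* `en_O`   : `Σ_o w o Σ_X ‖vI o X‖²` through the weighted `T`-sums `TSd`
* `sum_e`  : `Σ_q nm(eS (Sf q) j) ≤ 100 N τ(j) Σ_{h ∣ F, h² ∣ j} nm h`
* `en_tot` : the class form
-/

set_option autoImplicit false

noncomputable section

open Complex Finset
open scoped ComplexConjugate

namespace Crest.Agent.R017.EnX743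

open Crest.Agent.R012 Crest.Agent.R012.Eis Crest.Agent.R012.GaussLoc283
open Crest.Agent.R012.Mob705 hiding pb mem_pb
open Crest.Agent.R012.Div277
open Crest.Agent.R017.Sx545 (Sm)
open Crest.Agent.R017.C70 (CbF JC OKJ)
open Crest.Agent.R017.End699 (HC)
open Crest.Agent.R017.GrB829 (IsC)
open Crest.Agent.R017.PX764 (n6 th Gh th_mul)
open Crest.Agent.R017.E4K164 (dc dc_spec)
open Crest.Agent.R017.E5b54 (stj stj_spec stj_inj JC_cf JC_ne_zero)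
open Crest.Agent.R017.E4v92

variable {M c₀ g : Eis} {J : Finset (Eis × Eis)}

lemma TSd_mono {om : Eis × Eis → ℂ} {α : Eis → ℂ} {e₀ δ : Eis} {W W' : Eis × Eis → ℝ}
    (h : ∀ y ∈ J, δ ∣ y.1 → W y ≤ W' y) : TSd J om α e₀ δ W ≤ TSd J om α e₀ δ W' := by
  classical
  unfold TSd
  refine sum_le_sum fun y hy => ?_
  obtain ⟨h1, h2⟩ := mem_filter.mp hy
  have h3 := Real.rpow_nonneg (Nat.cast_nonneg (nm y.2) : (0 : ℝ) ≤ _) (-(1 : ℝ) / 3)
  exact mul_le_mul_of_nonneg_right (h y h1 h2) (by positivity)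

lemma TSd_nonneg {om : Eis × Eis → ℂ} {α : Eis → ℂ} {e₀ δ : Eis} {W : Eis × Eis → ℝ}
    (h : ∀ y ∈ J, 0 ≤ W y) : 0 ≤ TSd J om α e₀ δ W := by
  classical
  unfold TSd
  refine sum_nonneg fun y hy => ?_
  have h3 := Real.rpow_nonneg (Nat.cast_nonneg (nm y.2) : (0 : ℝ) ≤ _) (-(1 : ℝ) / 3)
  have h4 := h y (mem_filter.mp hy).1
  positivity

lemma TSd_mul {om : Eis × Eis → ℂ} {α : Eis → ℂ} {e₀ δ : Eis} {W : Eis × Eis → ℝ} (a : ℝ) :
    a * TSd J om α e₀ δ W = TSd J om α e₀ δ (fun y => a * W y) := by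
  classical
  unfold TSd
  rw [mul_sum]
  exact sum_congr rfl fun y _ => by ring

lemma TSd_sum {ι : Type*} (I : Finset ι) {om : Eis × Eis → ℂ} {α : Eis → ℂ} {e₀ δ : Eis}
    {W : ι → Eis × Eis → ℝ} :
    ∑ i ∈ I, TSd J om α e₀ δ (W i) = TSd J om α e₀ δ (fun y => ∑ i ∈ I, W i y) := by
  classical
  unfold TSd
  rw [sum_comm]
  refine sum_congr rfl fun y _ => ?_
  rw [sum_mul]

open Classical in
/-- **the energy summed over all outer indices** -/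
theorem en_O {B : Type*} {ψ : Eis → ℂ} (hψ : HC M ψ) (l : ℤ) {f : Eis} (hf : IsPrim f)
    {Q : Finset B} {sE : B → Eis} (hJ : OKJ J) {ε : B → ℂ} {om : Eis × Eis → ℂ} {α : Eis → ℂ}
    {e₀ : Eis} (hg : g ≠ 0) {O : Finset (Eis × Eis)}
    (hO : ∀ o ∈ O, IsPrim o.1 ∧ IsPrim o.2) {w : Eis × Eis → ℝ} (hw : ∀ o ∈ O, 0 ≤ w o)
    {P : Eis × Eis → Finset Eis} {δ : Eis} (hδ : Squarefree δ)
    (hP : ∀ o ∈ O, ∀ X ∈ P o, δ ^ 2 ∣ X) :
    ∑ o ∈ O, w o * ∑ X ∈ P o, ‖E4D164.vI M ψ l f (Q ×ˢ J) (E4D164.jS sE) E4D164.jD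
        (E4D164.jJ sE) (E4D164.jC sE (E4D164.cE ε om α e₀)) c₀ g o X‖ ^ 2 ≤
      ∑ S ∈ O.image Prod.fst, ‖EB Q sE ε S‖ ^ 2 * ((nm S : ℝ) * TSd J om α e₀ δ (fun y =>
        if (S, nuS S y.2) ∈ O ∧ (dc (stj S y.2)).1 = c₀ then
          w (S, nuS S y.2) * (nm (nuS S y.2) : ℝ) ^ 2 * nm (eS S y.2) else 0)) := by
  rw [← sum_fiberwise_of_maps_to (t := O.image Prod.fst) (g := Prod.fst)
    (fun o ho => mem_image_of_mem _ ho)]
  refine sum_le_sum fun S hS => ?_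
  obtain ⟨o₁, ho₁, hS1⟩ := mem_image.mp hS
  have hSp : IsPrim S := hS1 ▸ (hO o₁ ho₁).1
  set N := (O.filter (fun o => o.1 = S)).image Prod.snd with hN
  have hmem : ∀ ν, ν ∈ N ↔ (S, ν) ∈ O := by
    intro ν
    rw [hN, mem_image]
    constructor
    · rintro ⟨o, ho, rfl⟩
      obtain ⟨h1, h2⟩ := mem_filter.mp ho
      rw [← h2]
      exact h1
    · intro h
      exact ⟨(S, ν), mem_filter.mpr ⟨h, rfl⟩, rfl⟩
  have e1 : ∑ o ∈ O.filter (fun o => o.1 = S), w o * ∑ X ∈ P o,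
      ‖E4D164.vI M ψ l f (Q ×ˢ J) (E4D164.jS sE) E4D164.jD
        (E4D164.jJ sE) (E4D164.jC sE (E4D164.cE ε om α e₀)) c₀ g o X‖ ^ 2 =
      ∑ ν ∈ N, w (S, ν) * ∑ X ∈ P (S, ν), ‖E4D164.vI M ψ l f (Q ×ˢ J) (E4D164.jS sE) E4D164.jD
        (E4D164.jJ sE) (E4D164.jC sE (E4D164.cE ε om α e₀)) c₀ g (S, ν) X‖ ^ 2 := by
    symm
    refine sum_bij (fun ν _ => (S, ν)) (fun ν hν => ?_) (fun ν _ ν' _ h => ?_)
      (fun o ho => ?_) (fun ν _ => rfl)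
    · exact mem_filter.mpr ⟨(hmem ν).mp hν, rfl⟩
    · exact (Prod.mk.inj h).2
    · obtain ⟨h1, h2⟩ := mem_filter.mp ho
      refine ⟨o.2, (hmem o.2).mpr ?_, ?_⟩
      · rw [← h2]; exact h1
      · rw [← h2]
  rw [e1]
  refine (en_sum hψ l hf hJ hg hSp (N := N) (fun ν hν => (hO _ ((hmem ν).mp hν)).2)
    (w := fun ν => w (S, ν)) (fun ν hν => hw _ ((hmem ν).mp hν)) (P := fun ν => P (S, ν)) hδ
    (fun ν hν => hP _ ((hmem ν).mp hν))).trans (le_of_eq ?_)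
  congr 3
  funext y
  simp only [hmem]

/-! ### the sum over `q` -/

lemma card_mul_le {c : Eis} (hc : IsPrim c) (N : ℕ) (T : Finset Eis)
    (hT : ∀ q ∈ T, c ∣ q ∧ IsPrim q ∧ nm q ≤ N) : (T.card : ℝ) ≤ 100 * (N / nm c) := by
  classical
  have hc0 : 0 < nm c := by
    have := nm_pos' hc.ne_zero
    exact_mod_cast this
  have h1 : T ⊆ (primBall (N / nm c)).image (fun q => c * q) := by
    intro q hq
    obtain ⟨⟨x, rfl⟩, h2, h3⟩ := hT q hq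
    refine mem_image.mpr ⟨x, mem_primBall.mpr ⟨?_, IsPrim.of_mul_left h2 hc⟩, rfl⟩
    rw [nm_mul] at h3
    exact (Nat.le_div_iff_mul_le hc0).mpr (by rw [mul_comm]; exact h3)
  calc (T.card : ℝ) ≤ ((primBall (N / nm c)).card : ℝ) := by
        exact_mod_cast (card_le_card h1).trans card_image_le
    _ ≤ 100 * ((N / nm c : ℕ) : ℝ) := Lat277.card_primBall_le _
    _ ≤ _ := mul_le_mul_of_nonneg_left Nat.cast_div_le (by norm_num)

/-- **the cube part of the star** for `S = q² F'` -/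
lemma eS_split {q F' S j : Eis} (hq : IsPrim q) (hqs : Squarefree q) (hF : IsPrim F')
    (hFs : Squarefree F') (hc : IsCoprime q F') (hS : S = q ^ 2 * F') (hj : JC j) :
    ∃ c h : Eis, IsPrim c ∧ IsPrim h ∧ eS S j = c * h ∧ c ∣ q ∧ c ∣ j ∧ h ∣ F' ∧ h ^ 2 ∣ j := by
  have hSp : IsPrim S := by rw [hS]; exact (hq.pow 2).mul hF
  obtain ⟨he, hje⟩ := eS_spec hSp hj
  obtain ⟨c, e', q', hcp, hq', h1, h2, h3⟩ := exists_gcd' (eS S j) hq
  have hdv : eS S j ^ 3 ∣ j * S := by rw [hje]; exact dvd_mul_left _ _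
  have hcf := (JC_cf hj).2
  have he'0 : e' ≠ 0 := by
    rintro rfl
    rw [mul_zero] at h1
    exact he.ne_zero h1
  -- `e'` is prime to `q`
  have h4 : IsCoprime e' q := by
    refine isCoprime_of_prime_dvd (fun h => hq.ne_zero h.2) fun p hp hpe hpq => ?_
    have h5 : p ∣ c := by
      rw [h2] at hpq
      rcases hp.dvd_or_dvd hpq with h | h
      · exact h
      · exact absurd (h3.isUnit_of_dvd' hpe h) hp.not_isUnit
    have h6 : p ^ 2 ∣ eS S j := by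
      rw [h1, pow_two]
      exact mul_dvd_mul h5 hpe
    have h7 : (p ^ 2) ^ 3 ∣ j * S := (pow_dvd_pow_of_dvd h6 3).trans hdv
    obtain ⟨q₁, hq₁⟩ := hpq
    have h8 : ¬ p ∣ q₁ := by
      rintro ⟨x, rfl⟩
      exact hp.not_isUnit (hqs p ⟨x, by rw [hq₁]; ring⟩)
    have h9 : ¬ p ∣ F' := fun h => hp.not_isUnit (hc.isUnit_of_dvd' ⟨q₁, hq₁⟩ h)
    have h10 : p ^ 2 * p ^ 4 ∣ p ^ 2 * (j * (q₁ ^ 2 * F')) := by
      have e1 : p ^ 2 * p ^ 4 = (p ^ 2) ^ 3 := by ring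
      have e2 : p ^ 2 * (j * (q₁ ^ 2 * F')) = j * S := by rw [hS, hq₁]; ring
      rw [e1, e2]
      exact h7
    have h11 : p ^ 4 ∣ j * (q₁ ^ 2 * F') :=
      (mul_dvd_mul_iff_left (pow_ne_zero 2 hp.ne_zero)).mp h10
    have h12 : IsCoprime (p ^ 4) (q₁ ^ 2 * F') := by
      refine IsCoprime.pow_left ?_
      rw [hp.irreducible.coprime_iff_not_dvd]
      intro h
      rcases hp.dvd_or_dvd h with h | h
      · exact h8 (hp.dvd_of_dvd_pow h)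
      · exact h9 h
    have h13 : p ^ 4 ∣ j := h12.dvd_of_dvd_mul_right h11
    exact hcf p hp ((pow_dvd_pow p (by norm_num)).trans h13)
  have he'p : IsPrim e' := IsPrim.of_mul_left (h1 ▸ he) hcp
  have h4' : IsCoprime e' c := by
    rw [h2] at h4
    exact h4.of_mul_right_left
  have hcq' : IsCoprime c q' := by
    rw [h2] at hqs
    exact (squarefree_mul_iff.mp hqs).1.isCoprime
  have hcF : IsCoprime c F' := hc.of_isCoprime_of_dvd_left ⟨q', h2⟩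
  refine ⟨c, e', hcp, he'p, h1, ⟨q', h2⟩, ?_, ?_, ?_⟩
  · -- `c ∣ j`
    have h5 : c ^ 2 * c ∣ c ^ 2 * (j * (q' ^ 2 * F')) := by
      have e2 : c ^ 2 * (j * (q' ^ 2 * F')) = j * S := by rw [hS, h2]; ring
      rw [e2]
      refine Dvd.dvd.trans ?_ hdv
      rw [h1]
      exact ⟨e' ^ 3, by ring⟩
    have h6 : c ∣ j * (q' ^ 2 * F') := (mul_dvd_mul_iff_left (pow_ne_zero 2 hcp.ne_zero)).mp h5
    exact (hcq'.pow_right.mul_right hcF).dvd_of_dvd_mul_right h6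
  · -- `e' ∣ F'`
    have h5 : e' ∣ q ^ 2 * F' := by
      rw [← hS]
      exact (Dvd.intro_left c h1.symm).trans (eS_dvd hSp hj)
    exact h4.pow_right.dvd_of_dvd_mul_left h5
  · -- `e'² ∣ j`
    have h5 : e' ∣ F' := by
      have h5 : e' ∣ q ^ 2 * F' := by
        rw [← hS]
        exact (Dvd.intro_left c h1.symm).trans (eS_dvd hSp hj)
      exact h4.pow_right.dvd_of_dvd_mul_left h5
    obtain ⟨F'', hF''⟩ := h5
    have h6 : e' ^ 3 ∣ (j * F') * q ^ 2 := by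
      have e2 : (j * F') * q ^ 2 = j * S := by rw [hS]; ring
      rw [e2]
      refine Dvd.dvd.trans ?_ hdv
      rw [h1]
      exact ⟨c ^ 3, by ring⟩
    have h7 : e' ^ 3 ∣ j * F' := (IsCoprime.pow h4 (m := 3) (n := 2)).dvd_of_dvd_mul_right h6
    have h8 : e' * e' ^ 2 ∣ e' * (j * F'') := by
      have e1 : e' * e' ^ 2 = e' ^ 3 := by ring
      have e2 : e' * (j * F'') = j * F' := by rw [hF'']; ring
      rw [e1, e2]
      exact h7
    have h9 : e' ^ 2 ∣ j * F'' := (mul_dvd_mul_iff_left he'0).mp h8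
    have h10 : IsCoprime e' F'' := by
      rw [hF''] at hFs
      exact (squarefree_mul_iff.mp hFs).1.isCoprime
    exact h10.pow_left.dvd_of_dvd_mul_right h9

open Classical in
/-- **the sum over `q`** : the cube part costs only its fixed part -/
theorem sum_e {F j : Eis} (hF : IsPrim F) (hFs : Squarefree F) (hj : JC j) {𝒬 : Finset Eis}
    {N : ℕ} (hQ : ∀ q ∈ 𝒬, IsPrim q ∧ Squarefree q ∧ nm q ≤ N) {Sf : Eis → Eis}
    (hS : ∀ q ∈ 𝒬, ∃ F', F' ∣ F ∧ IsPrim F' ∧ IsCoprime q F' ∧ Sf q = q ^ 2 * F') :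
    ∑ q ∈ 𝒬, (nm (eS (Sf q) j) : ℝ) ≤
      100 * N * tau j * ∑ h ∈ (dvs F).filter (fun h => h ^ 2 ∣ j), (nm h : ℝ) := by
  have hj0 := JC_ne_zero hj
  set A := ∑ h ∈ (dvs F).filter (fun h => h ^ 2 ∣ j), (nm h : ℝ) with hA
  have hA0 : 0 ≤ A := sum_nonneg fun _ _ => Nat.cast_nonneg _
  have h1 : ∀ q ∈ 𝒬, (nm (eS (Sf q) j) : ℝ) ≤
      ∑ c ∈ dvs j, if c ∣ q then (nm c : ℝ) * A else 0 := by
    intro q hq
    obtain ⟨F', k1, k2, k3, k4⟩ := hS q hq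
    obtain ⟨c, h, hc, hh, e1, e2, e3, e4, e5⟩ := eS_split (hQ q hq).1 (hQ q hq).2.1 k2
      (hFs.squarefree_of_dvd k1) k3 k4 hj
    have h2 : (nm h : ℝ) ≤ A := by
      rw [hA]
      exact single_le_sum (f := fun h => (nm h : ℝ)) (fun _ _ => Nat.cast_nonneg _)
        (mem_filter.mpr ⟨(mem_dvs hF.ne_zero).mpr ⟨hh, e4.trans k1⟩, e5⟩)
    have h3 : (if c ∣ q then (nm c : ℝ) * A else 0) ≤
        ∑ c ∈ dvs j, if c ∣ q then (nm c : ℝ) * A else 0 :=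
      single_le_sum (f := fun c => if c ∣ q then (nm c : ℝ) * A else 0)
        (fun c _ => by split_ifs <;> positivity) ((mem_dvs hj0).mpr ⟨hc, e3⟩)
    rw [if_pos e2] at h3
    refine le_trans ?_ h3
    rw [e1, nm_mul, Nat.cast_mul]
    exact mul_le_mul_of_nonneg_left h2 (Nat.cast_nonneg _)
  refine (sum_le_sum h1).trans ?_
  rw [sum_comm]
  have h4 : ∀ c ∈ dvs j, ∑ q ∈ 𝒬, (if c ∣ q then (nm c : ℝ) * A else 0) ≤ 100 * N * A := by
    intro c hc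
    have hcp := isPrim_of_mem_dvs hc
    rw [← sum_filter, sum_const, nsmul_eq_mul]
    have h5 := card_mul_le hcp N (𝒬.filter (fun q => c ∣ q)) (fun q hq => by
      obtain ⟨h6, h7⟩ := mem_filter.mp hq
      exact ⟨h7, (hQ q h6).1, (hQ q h6).2.2⟩)
    have h6 := nm_pos' hcp.ne_zero
    calc ((𝒬.filter (fun q => c ∣ q)).card : ℝ) * ((nm c : ℝ) * A)
        ≤ 100 * (N / nm c) * ((nm c : ℝ) * A) :=
          mul_le_mul_of_nonneg_right h5 (by positivity)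
      _ = 100 * N * A := by field_simp
  refine (sum_le_sum h4).trans (le_of_eq ?_)
  rw [sum_const, nsmul_eq_mul]
  show ((dvs j).card : ℝ) * (100 * N * A) = 100 * N * tau j * A
  unfold tau
  ring

open Classical in
/-- the coefficients of the outer set -/
lemma norm_EB_le {B : Type*} {Q : Finset B} {sE : B → Eis} {ε : B → ℂ}
    (hε : ∀ b ∈ Q, ‖ε b‖ ≤ 1) (S : Eis) :
    ‖EB Q sE ε S‖ ≤ ((Q.filter (fun b => sE b = S)).card : ℝ) := by
  unfold EB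
  refine (norm_sum_le _ _).trans ?_
  calc ∑ b ∈ Q.filter (fun b => sE b = S), ‖conj (ε b)‖
      ≤ ∑ b ∈ Q.filter (fun b => sE b = S), (1 : ℝ) := sum_le_sum fun b hb => by
        rw [RCLike.norm_conj]
        exact hε b (mem_filter.mp hb).1
    _ = _ := by rw [sum_const, nsmul_eq_mul, mul_one]

open Classical in
/-- the sum over the values of `S` through the sum over `b` -/
lemma sum_EB_le {B : Type*} {Q : Finset B} {sE : B → Eis} {ε : B → ℂ}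
    (hε : ∀ b ∈ Q, ‖ε b‖ ≤ 1) {T : Finset Eis} {Fb : ℝ}
    (hFb : ∀ S, ((Q.filter (fun b => sE b = S)).card : ℝ) ≤ Fb) {G : Eis → ℝ}
    (hG : ∀ S, 0 ≤ G S) :
    ∑ S ∈ T, ‖EB Q sE ε S‖ ^ 2 * G S ≤ Fb * ∑ b ∈ Q, G (sE b) := by
  have hFb0 : 0 ≤ Fb := (Nat.cast_nonneg _).trans (hFb 0)
  have h1 : ∀ S ∈ T, ‖EB Q sE ε S‖ ^ 2 * G S ≤
      ∑ b ∈ Q.filter (fun b => sE b = S), Fb * G (sE b) := by
    intro S _
    have h2 := norm_EB_le (sE := sE) hε S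
    have h3 : ∑ b ∈ Q.filter (fun b => sE b = S), Fb * G (sE b) =
        ((Q.filter (fun b => sE b = S)).card : ℝ) * (Fb * G S) := by
      rw [sum_congr rfl (fun b hb => by rw [(mem_filter.mp hb).2]), sum_const, nsmul_eq_mul]
    rw [h3]
    calc ‖EB Q sE ε S‖ ^ 2 * G S ≤ (((Q.filter (fun b => sE b = S)).card : ℝ) *
          ((Q.filter (fun b => sE b = S)).card : ℝ)) * G S := by
          refine mul_le_mul_of_nonneg_right ?_ (hG S)
          rw [pow_two]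
          exact mul_le_mul h2 h2 (norm_nonneg _) (Nat.cast_nonneg _)
      _ ≤ (((Q.filter (fun b => sE b = S)).card : ℝ) * Fb) * G S :=
          mul_le_mul_of_nonneg_right (mul_le_mul_of_nonneg_left (hFb S) (Nat.cast_nonneg _)) (hG S)
      _ = _ := by ring
  refine (sum_le_sum h1).trans ?_
  rw [mul_sum, ← sum_biUnion]
  · refine sum_le_sum_of_subset_of_nonneg (fun b hb => ?_)
      fun b _ _ => mul_nonneg hFb0 (hG _)
    obtain ⟨S, -, h2⟩ := mem_biUnion.mp hb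
    exact (mem_filter.mp h2).1
  · intro S _ S' _ hne
    rw [Function.onFun, disjoint_left]
    intro b hb hb'
    exact hne ((mem_filter.mp hb).2.symm.trans (mem_filter.mp hb').2)

open Classical in
/-- **the class form** : `w o * (nm S (nm ν)²) ≤ W₀` on the outer set, `sE q = q² F'`, `F' ∣ F` -/
theorem en_tot {ψ : Eis → ℂ} (hψ : HC M ψ) (l : ℤ) {f : Eis} (hf : IsPrim f)
    {𝒬 : Finset Eis} {sE : Eis → Eis} (hJ : OKJ J) {ε : Eis → ℂ} (hε : ∀ q ∈ 𝒬, ‖ε q‖ ≤ 1)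
    {om : Eis × Eis → ℂ} {α : Eis → ℂ} {e₀ : Eis} (hg : g ≠ 0) {O : Finset (Eis × Eis)}
    (hO : ∀ o ∈ O, IsPrim o.1 ∧ IsPrim o.2) {w : Eis × Eis → ℝ} (hw : ∀ o ∈ O, 0 ≤ w o)
    {W₀ : ℝ} (hW₀ : 0 ≤ W₀) (hwW : ∀ o ∈ O, w o * ((nm o.1 : ℝ) * (nm o.2 : ℝ) ^ 2) ≤ W₀)
    {P : Eis × Eis → Finset Eis} {δ : Eis} (hδ : Squarefree δ)
    (hP : ∀ o ∈ O, ∀ X ∈ P o, δ ^ 2 ∣ X) {F : Eis} (hF : IsPrim F) (hFs : Squarefree F) {N : ℕ}
    (hQ : ∀ q ∈ 𝒬, IsPrim q ∧ Squarefree q ∧ nm q ≤ N)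
    (hS : ∀ q ∈ 𝒬, ∃ F', F' ∣ F ∧ IsPrim F' ∧ IsCoprime q F' ∧ sE q = q ^ 2 * F') {Fb : ℝ}
    (hFb : ∀ S, ((𝒬.filter (fun q => sE q = S)).card : ℝ) ≤ Fb) :
    ∑ o ∈ O, w o * ∑ X ∈ P o, ‖E4D164.vI M ψ l f (𝒬 ×ˢ J) (E4D164.jS sE) E4D164.jD
        (E4D164.jJ sE) (E4D164.jC sE (E4D164.cE ε om α e₀)) c₀ g o X‖ ^ 2 ≤
      Fb * W₀ * (100 * N) * ∑ h ∈ dvs F, (nm h : ℝ) * TSd J om α e₀ δ (fun y =>
        if h ^ 2 ∣ y.2 then (tau y.2 : ℝ) else 0) := by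
  refine (en_O hψ l hf hJ hg hO hw hδ hP).trans ?_
  have hFb0 : 0 ≤ Fb := (Nat.cast_nonneg _).trans (hFb 0)
  -- one `S`
  have h1 : ∀ S ∈ O.image Prod.fst, ‖EB 𝒬 sE ε S‖ ^ 2 * ((nm S : ℝ) *
      TSd J om α e₀ δ (fun y => if (S, nuS S y.2) ∈ O ∧ (dc (stj S y.2)).1 = c₀ then
          w (S, nuS S y.2) * (nm (nuS S y.2) : ℝ) ^ 2 * nm (eS S y.2) else 0)) ≤
      ‖EB 𝒬 sE ε S‖ ^ 2 * (W₀ * TSd J om α e₀ δ (fun y => (nm (eS S y.2) : ℝ))) := by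
    intro S _
    refine mul_le_mul_of_nonneg_left ?_ (by positivity)
    rw [TSd_mul, TSd_mul]
    refine TSd_mono fun y _ _ => ?_
    split_ifs with h
    · have h2 := hwW _ h.1
      dsimp only at h2
      calc (nm S : ℝ) * (w (S, nuS S y.2) * (nm (nuS S y.2) : ℝ) ^ 2 * nm (eS S y.2))
          = w (S, nuS S y.2) * ((nm S : ℝ) * (nm (nuS S y.2) : ℝ) ^ 2) * nm (eS S y.2) := by ring
        _ ≤ W₀ * nm (eS S y.2) := mul_le_mul_of_nonneg_right h2 (Nat.cast_nonneg _)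
    · rw [mul_zero]
      positivity
  refine (sum_le_sum h1).trans ?_
  refine (sum_EB_le hε hFb (G := fun S => W₀ * TSd J om α e₀ δ
    (fun y => (nm (eS S y.2) : ℝ))) (fun S => mul_nonneg hW₀
      (TSd_nonneg fun y _ => Nat.cast_nonneg _))).trans ?_
  rw [← mul_sum, TSd_sum]
  have h2 : TSd J om α e₀ δ (fun y => ∑ q ∈ 𝒬, (nm (eS (sE q) y.2) : ℝ)) ≤
      TSd J om α e₀ δ (fun y => 100 * N * tau y.2 *
        ∑ h ∈ (dvs F).filter (fun h => h ^ 2 ∣ y.2), (nm h : ℝ)) :=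
    TSd_mono fun y hy _ => sum_e hF hFs (hJ.jc y hy) hQ hS
  have h3 : TSd J om α e₀ δ (fun y => 100 * N * tau y.2 *
        ∑ h ∈ (dvs F).filter (fun h => h ^ 2 ∣ y.2), (nm h : ℝ)) =
      (100 * N) * ∑ h ∈ dvs F, (nm h : ℝ) * TSd J om α e₀ δ (fun y =>
        if h ^ 2 ∣ y.2 then (tau y.2 : ℝ) else 0) := by
    simp only [TSd_mul]
    rw [TSd_sum, TSd_mul]
    congr 1
    funext y
    rw [sum_filter, mul_sum, mul_sum]
    refine sum_congr rfl fun h _ => ?_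
    split_ifs
    · ring
    · ring
  rw [h3] at h2
  calc Fb * (W₀ * TSd J om α e₀ δ (fun y => ∑ q ∈ 𝒬, (nm (eS (sE q) y.2) : ℝ)))
      ≤ Fb * (W₀ * ((100 * N) * ∑ h ∈ dvs F, (nm h : ℝ) * TSd J om α e₀ δ (fun y =>
        if h ^ 2 ∣ y.2 then (tau y.2 : ℝ) else 0))) := by gcongr
    _ = _ := by ring

end Crest.Agent.R017.EnX743
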