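import Crest.Agent.R017.EnY_743

/-!
# Row 17, block C70, leaf E4 (helper743): the energy of the x-side for an arbitrary index set

* `en_gen` : as `en_O`, for `vI` of ANY finite set `I` of pairs `(b, y)` (classes of `(q, j)`)
* `en_gtot` : the class form
-/

set_option autoImplicit false

noncomputable section

open Complex Finset
open scoped ComplexConjugate

namespace Crest.Agent.R017.EnX743

open Crest.Agent.R012 Crest.Agent.R012.Eis Crest.Agent.R012.GaussLoc283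
open Crest.Agent.R012.Mob705 hiding pb mem_pb
open Crest.Agent.R012.Div277
open Crest.Agent.R017.Sx545 (Sm)
open Crest.Agent.R017.C70 (CbF JC OKJ)
open Crest.Agent.R017.End699 (HC)
open Crest.Agent.R017.GrB829 (IsC)
open Crest.Agent.R017.PX764 (n6 th Gh th_mul)
open Crest.Agent.R017.E4K164 (dc dc_spec)
open Crest.Agent.R017.E5b54 (stj stj_spec stj_inj JC_cf JC_ne_zero)
open Crest.Agent.R017.E4v92

variable {M c₀ g : Eis} {J : Finset (Eis × Eis)}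

/-- the outer index of a datum -/
def oI {B : Type*} (sE : B → Eis) (i : B × (Eis × Eis)) : Eis × Eis :=
  (sE i.1, nuS (sE i.1) i.2.2)

/-- the weight of a datum, without `‖om‖² ‖TE‖²` -/
def wI {B : Type*} (sE : B → Eis) (i : B × (Eis × Eis)) : ℝ :=
  ((nm (sE i.1) : ℝ) * (nm (nuS (sE i.1) i.2.2) : ℝ) ^ 2 * nm (eS (sE i.1) i.2.2)) *
    (nm i.2.2 : ℝ) ^ (-(1 : ℝ) / 3)

lemma wI_nonneg {B : Type*} (sE : B → Eis) (i : B × (Eis × Eis)) : 0 ≤ wI sE i := by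
  unfold wI; positivity

/-- the coefficient -/
lemma norm_cI_le {B : Type*} {ψ : Eis → ℂ} (hψ : HC M ψ) (l : ℤ) {f : Eis} (hf : IsPrim f)
    {sE : B → Eis} (hJ : OKJ J) {ε : B → ℂ} {om : Eis × Eis → ℂ} {α : Eis → ℂ} {e₀ : Eis}
    {i : B × (Eis × Eis)} (hi : i.2 ∈ J) (hs : IsPrim (sE i.1)) (hε : ‖ε i.1‖ ≤ 1) :
    ‖E4D164.cI ψ l f (E4D164.jS sE) E4D164.jD (E4D164.jJ sE)
        (E4D164.jC sE (E4D164.cE ε om α e₀)) i‖ ^ 2 ≤
      wI sE i * (‖om i.2‖ ^ 2 * ‖E2440.TE α i.2 e₀‖ ^ 2) := by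
  obtain ⟨b, y⟩ := i
  dsimp only at hi hs hε
  obtain ⟨s1, s2, s3, s4, s5, s6, s7⟩ := dc_spec (stj_spec hs (hJ.jc y hi)).1
  have hd := hJ.prim y hi
  have h1 : ‖sy (dc (stj (sE b) y.2)).2.2 y.1‖ ≤ 1 := E2440.norm_sy_le1 hd
  have h2 := th_sq s1 s2 s3
  have h3 : ‖End699.tw ψ l (sE b * (dc (stj (sE b) y.2)).2.2)‖ ≤ 1 :=
    (hψ.isChar_tw l).norm_le (hs.mul s4)
  have h4 : ‖sy (sE b * (dc (stj (sE b) y.2)).2.2) f‖ ≤ 1 := E2440.norm_sy_le1 hf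
  have h5 : ‖sy (sE b) y.1‖ ≤ 1 := E2440.norm_sy_le1 hd
  have h7 : (0 : ℝ) ≤ (nm (sE b * (dc (stj (sE b) y.2)).2.2) : ℝ) ^ (2 / 3 : ℝ) := by positivity
  have h8 : ((nm (sE b * (dc (stj (sE b) y.2)).2.2) : ℝ) ^ (2 / 3 : ℝ)) ^ 2 =
      ((nm (sE b) : ℝ) * nm (nuS (sE b) y.2)) ^ (4 / 3 : ℝ) := by
    rw [← Real.rpow_natCast, ← Real.rpow_mul (Nat.cast_nonneg _), nm_mul]
    unfold nuS
    push_cast
    norm_num
  have h9 := wt_eq hs (hJ.jc y hi)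
  have h10 : ‖E4D164.cI ψ l f (E4D164.jS sE) E4D164.jD (E4D164.jJ sE)
        (E4D164.jC sE (E4D164.cE ε om α e₀)) (b, y)‖ =
      (‖ε b‖ * (‖om y‖ * ‖E2440.TE α y e₀‖) * ‖sy (sE b) y.1‖) *
        (‖sy (dc (stj (sE b) y.2)).2.2 y.1‖ *
          ‖th ((dc (stj (sE b) y.2)).1 * (dc (stj (sE b) y.2)).2.1)‖) *
        (‖End699.tw ψ l (sE b * (dc (stj (sE b) y.2)).2.2)‖ *
          ‖sy (sE b * (dc (stj (sE b) y.2)).2.2) f‖ *
          (nm (sE b * (dc (stj (sE b) y.2)).2.2) : ℝ) ^ (2 / 3 : ℝ)) := by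
    unfold E4D164.cI E4D164.jC E4D164.cE E4D164.jJ E4D164.jS E4D164.jD
    dsimp only
    simp only [norm_mul, RCLike.norm_conj, Complex.norm_real, Real.norm_of_nonneg h7]
  rw [h10]
  set T := ‖th ((dc (stj (sE b) y.2)).1 * (dc (stj (sE b) y.2)).2.1)‖ with hT
  set W := (nm (sE b * (dc (stj (sE b) y.2)).2.2) : ℝ) ^ (2 / 3 : ℝ) with hW
  have hT0 : 0 ≤ T := norm_nonneg _
  have h11 : (‖ε b‖ * (‖om y‖ * ‖E2440.TE α y e₀‖) * ‖sy (sE b) y.1‖) *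
        (‖sy (dc (stj (sE b) y.2)).2.2 y.1‖ * T) *
        (‖End699.tw ψ l (sE b * (dc (stj (sE b) y.2)).2.2)‖ *
          ‖sy (sE b * (dc (stj (sE b) y.2)).2.2) f‖ * W) ≤
      (1 * (‖om y‖ * ‖E2440.TE α y e₀‖) * 1) * (1 * T) * (1 * 1 * W) := by gcongr
  refine (pow_le_pow_left₀ (by positivity) h11 2).trans (le_of_eq ?_)
  calc ((1 * (‖om y‖ * ‖E2440.TE α y e₀‖) * 1) * (1 * T) * (1 * 1 * W)) ^ 2
      = (W ^ 2 * T ^ 2) * (‖om y‖ ^ 2 * ‖E2440.TE α y e₀‖ ^ 2) := by ring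
    _ = wI sE (b, y) * (‖om y‖ ^ 2 * ‖E2440.TE α y e₀‖ ^ 2) := by
        rw [h8, show T ^ 2 = (nm (crS (sE b) y.2) : ℝ) ^ (-(1 : ℝ) / 3) from h2, h9]
        rfl

/-- the coefficient vanishes outside the coprime pairs -/
lemma cI_cop {B : Type*} {ψ : Eis → ℂ} {l : ℤ} {f : Eis} {sE : B → Eis} (hJ : OKJ J)
    {ε : B → ℂ} {om : Eis × Eis → ℂ} {α : Eis → ℂ} {e₀ : Eis} {i : B × (Eis × Eis)}
    (hi : i.2 ∈ J)
    (h : E4D164.cI ψ l f (E4D164.jS sE) E4D164.jD (E4D164.jJ sE)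
        (E4D164.jC sE (E4D164.cE ε om α e₀)) i ≠ 0) :
    IsCoprime i.2.2 i.2.1 ∧ IsCoprime (sE i.1) i.2.1 ∧ om i.2 ≠ 0 := by
  obtain ⟨b, y⟩ := i
  unfold E4D164.cI E4D164.jC E4D164.cE E4D164.jJ E4D164.jS E4D164.jD at h
  dsimp only at h hi ⊢
  have h1 := left_ne_zero_of_mul (left_ne_zero_of_mul h)
  have h2 : ε b * (om y * E2440.TE α y e₀) * sy (sE b) y.1 ≠ 0 := by
    intro h0
    apply h1
    rw [h0, map_zero]
  have h3 := right_ne_zero_of_mul (right_ne_zero_of_mul (left_ne_zero_of_mul h2))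
  have h4 := left_ne_zero_of_mul (right_ne_zero_of_mul (left_ne_zero_of_mul h2))
  have h5 := right_ne_zero_of_mul h2
  refine ⟨E4D164.TE_cop h3, ?_, h4⟩
  by_contra hc
  exact h5 ((GaussLoc283.syAx.eq_zero (sE b) y.1 (hJ.prim y hi)).mpr hc)

open Classical in
/-- one value of `vI` -/
lemma vI_sq_le {B : Type*} {ψ : Eis → ℂ} (l : ℤ) {f : Eis}
    {I : Finset (B × (Eis × Eis))} {sE : B → Eis} (hJ : OKJ J)
    (hI : ∀ i ∈ I, i.2 ∈ J ∧ IsPrim (sE i.1)) {Fb : ℝ} (hFb : ∀ S,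
      (((I.image Prod.fst).filter (fun b => sE b = S)).card : ℝ) ≤ Fb) {c : B × (Eis × Eis) → ℂ}
    (o : Eis × Eis) (X : Eis) :
    ‖E4D164.vI M ψ l f I (E4D164.jS sE) E4D164.jD (E4D164.jJ sE) c c₀ g o X‖ ^ 2 ≤
      Fb * ∑ i ∈ I.filter (fun i => oI sE i = o ∧ Cy (sE i.1) c₀ g o.2 i.2 X),
        ‖E4D164.cI ψ l f (E4D164.jS sE) E4D164.jD (E4D164.jJ sE) c i‖ ^ 2 := by
  have hFb0 : 0 ≤ Fb := (Nat.cast_nonneg _).trans (hFb 0)
  set A := I.filter (fun i => oI sE i = o ∧ Cy (sE i.1) c₀ g o.2 i.2 X) with hA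
  unfold E4D164.vI E4D164.pu
  split_ifs with hX
  · have e1 : (E4D164.II I (E4D164.jS sE) (E4D164.jJ sE) c₀ o).filter
        (fun i => E4D164.XI E4D164.jD (E4D164.jJ sE) i = g * X) = A := by
      ext i
      rw [hA]
      unfold E4D164.II E4D164.XI E4D164.jJ E4D164.jS E4D164.jD oI Cy nuS
      simp only [mem_filter]
      constructor
      · rintro ⟨⟨h1, h2, h3, h4⟩, h5⟩
        exact ⟨h1, Prod.ext h3 h4, h2, h4, h5⟩
      · rintro ⟨h1, h2, h3, h4, h5⟩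
        have h6 := congrArg Prod.fst h2
        exact ⟨⟨h1, h3, h6, h4⟩, h5⟩
    rw [e1]
    have hcard : (A.card : ℝ) ≤ Fb := by
      refine le_trans ?_ (hFb o.1)
      have h2 : A.card ≤ ((I.image Prod.fst).filter (fun b => sE b = o.1)).card := by
        refine card_le_card_of_injOn (fun i => i.1) (fun i hi => ?_) (fun i hi i' hi' h => ?_)
        · rw [mem_coe, hA, mem_filter] at hi
          rw [mem_coe, mem_filter]
          exact ⟨mem_image_of_mem _ hi.1, congrArg Prod.fst hi.2.1⟩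
        · rw [mem_coe, hA, mem_filter] at hi hi'
          have hk := hI i hi.1
          have hk' := hI i' hi'.1
          have h3 := hi.2.2
          have h4 := hi'.2.2
          dsimp only at h
          rw [← h] at h4
          exact Prod.ext h (vS_inj hk.2 hJ hk.1 hk'.1 h3 h4)
      exact_mod_cast h2
    refine (pow_le_pow_left₀ (norm_nonneg _) (norm_sum_le _ _) 2).trans ?_
    refine sq_sum_le_card_mul_sum_sq.trans ?_
    exact mul_le_mul_of_nonneg_right hcard (sum_nonneg fun _ _ => by positivity)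
  · rw [norm_zero]
    have h3 : 0 ≤ Fb * ∑ i ∈ A,
        ‖E4D164.cI ψ l f (E4D164.jS sE) E4D164.jD (E4D164.jJ sE) c i‖ ^ 2 :=
      mul_nonneg hFb0 (sum_nonneg fun _ _ => by positivity)
    calc (0 : ℝ) ^ 2 = 0 := by norm_num
      _ ≤ _ := h3

open Classical in
/-- **the energy of the x-side for any index set** -/
theorem en_gen {B : Type*} {ψ : Eis → ℂ} (hψ : HC M ψ) (l : ℤ) {f : Eis} (hf : IsPrim f)
    {I : Finset (B × (Eis × Eis))} {sE : B → Eis} (hJ : OKJ J)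
    (hI : ∀ i ∈ I, i.2 ∈ J ∧ IsPrim (sE i.1)) {Fb : ℝ} (hFb : ∀ S,
      (((I.image Prod.fst).filter (fun b => sE b = S)).card : ℝ) ≤ Fb)
    {ε : B → ℂ} (hε : ∀ i ∈ I, ‖ε i.1‖ ≤ 1) {om : Eis × Eis → ℂ} {α : Eis → ℂ}
    {e₀ : Eis} (hg : g ≠ 0) {O : Finset (Eis × Eis)} {w : Eis × Eis → ℝ}
    (hw : ∀ o ∈ O, 0 ≤ w o) {P : Eis × Eis → Finset Eis} {δ : Eis} (hδ : Squarefree δ)
    (hP : ∀ o ∈ O, ∀ X ∈ P o, δ ^ 2 ∣ X) :
    ∑ o ∈ O, w o * ∑ X ∈ P o, ‖E4D164.vI M ψ l f I (E4D164.jS sE) E4D164.jD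
        (E4D164.jJ sE) (E4D164.jC sE (E4D164.cE ε om α e₀)) c₀ g o X‖ ^ 2 ≤
      Fb * ∑ i ∈ I.filter (fun i => δ ∣ i.2.1 ∧ oI sE i ∈ O ∧
          (dc (stj (sE i.1) i.2.2)).1 = c₀),
        w (oI sE i) * (wI sE i * (‖om i.2‖ ^ 2 * ‖E2440.TE α i.2 e₀‖ ^ 2)) := by
  have hFb0 : 0 ≤ Fb := (Nat.cast_nonneg _).trans (hFb 0)
  set c : B × (Eis × Eis) → ℂ := E4D164.jC sE (E4D164.cE ε om α e₀) with hc
  set F : B × (Eis × Eis) → ℝ := fun i =>
    ‖E4D164.cI ψ l f (E4D164.jS sE) E4D164.jD (E4D164.jJ sE) c i‖ ^ 2 with hF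
  -- pointwise
  have h1 : ∀ o ∈ O, w o * ∑ X ∈ P o, ‖E4D164.vI M ψ l f I (E4D164.jS sE) E4D164.jD
        (E4D164.jJ sE) c c₀ g o X‖ ^ 2 ≤
      ∑ X ∈ P o, ∑ i ∈ I, if oI sE i = o ∧ Cy (sE i.1) c₀ g o.2 i.2 X then
        w (oI sE i) * (Fb * F i) else 0 := by
    intro o ho
    rw [mul_sum]
    refine sum_le_sum fun X _ => ?_
    have h2 := vI_sq_le (M := M) (ψ := ψ) (c₀ := c₀) (g := g) (f := f) l hJ hI hFb (c := c) o X
    refine (mul_le_mul_of_nonneg_left h2 (hw o ho)).trans (le_of_eq ?_)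
    rw [mul_sum, mul_sum, sum_filter]
    refine sum_congr rfl fun i _ => ?_
    split_ifs with h
    · rw [h.1]
    · rfl
  refine (sum_le_sum h1).trans ?_
  -- exchange
  have h2 : ∑ o ∈ O, ∑ X ∈ P o, ∑ i ∈ I, (if oI sE i = o ∧ Cy (sE i.1) c₀ g o.2 i.2 X then
        w (oI sE i) * (Fb * F i) else 0) =
      ∑ i ∈ I, ∑ o ∈ O, ∑ X ∈ P o, (if oI sE i = o ∧ Cy (sE i.1) c₀ g o.2 i.2 X then
        w (oI sE i) * (Fb * F i) else 0) :=
    calc _ = ∑ o ∈ O, ∑ i ∈ I, ∑ X ∈ P o, (if oI sE i = o ∧ Cy (sE i.1) c₀ g o.2 i.2 X then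
          w (oI sE i) * (Fb * F i) else 0) := sum_congr rfl fun o _ => sum_comm
      _ = _ := sum_comm
  rw [h2, mul_sum, sum_filter]
  refine sum_le_sum fun i hi => ?_
  obtain ⟨hiJ, his⟩ := hI i hi
  have hFi : 0 ≤ F i := by rw [hF]; positivity
  by_cases h0 : F i = 0
  · have h3 : ∑ o ∈ O, ∑ X ∈ P o, (if oI sE i = o ∧ Cy (sE i.1) c₀ g o.2 i.2 X then
        w (oI sE i) * (Fb * F i) else 0) = 0 := by
      refine sum_eq_zero fun o _ => sum_eq_zero fun X _ => ?_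
      rw [h0]
      split_ifs <;> ring
    rw [h3]
    split_ifs with h
    · have := wI_nonneg sE i
      have := hw _ h.2.1
      positivity
    · exact le_rfl
  · have hne : E4D164.cI ψ l f (E4D164.jS sE) E4D164.jD (E4D164.jJ sE) c i ≠ 0 := by
      intro h
      apply h0
      rw [hF]
      dsimp only
      rw [h, norm_zero]
      norm_num
    obtain ⟨hc1, hc2, -⟩ := cI_cop hJ hiJ hne
    -- at most one `(o, X)`
    by_cases hex : ∃ o ∈ O, ∃ X ∈ P o, oI sE i = o ∧ Cy (sE i.1) c₀ g o.2 i.2 X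
    · obtain ⟨o₁, ho₁, X₁, hX₁, e1, e2⟩ := hex
      have hdvd : δ ∣ i.2.1 := dvd_of_Cy his hJ hiJ ⟨hc1, hc2⟩ hδ e2 (hP o₁ ho₁ X₁ hX₁)
      have hsum : ∑ o ∈ O, ∑ X ∈ P o, (if oI sE i = o ∧ Cy (sE i.1) c₀ g o.2 i.2 X then
          w (oI sE i) * (Fb * F i) else 0) ≤ w (oI sE i) * (Fb * F i) := by
        rw [sum_eq_single_of_mem o₁ ho₁]
        · rw [sum_eq_single_of_mem X₁ hX₁]
          · rw [if_pos ⟨e1, e2⟩]
          · intro X _ hne'
            rw [if_neg]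
            rintro ⟨-, h4⟩
            apply hne'
            have h5 : g * X = g * X₁ := h4.2.2.symm.trans e2.2.2
            exact mul_left_cancel₀ hg h5
        · intro o _ hne'
          refine sum_eq_zero fun X _ => if_neg ?_
          rintro ⟨h4, -⟩
          exact hne' (h4.symm.trans e1)
      have hmem : oI sE i ∈ O := by rw [e1]; exact ho₁
      rw [if_pos ⟨hdvd, hmem, e2.1⟩]
      refine hsum.trans ?_
      have h5 := norm_cI_le hψ l hf hJ (om := om) (α := α) (e₀ := e₀) hiJ his (hε i hi)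
      have h6 := hw _ hmem
      calc w (oI sE i) * (Fb * F i) ≤ w (oI sE i) * (Fb * (wI sE i *
            (‖om i.2‖ ^ 2 * ‖E2440.TE α i.2 e₀‖ ^ 2))) := by gcongr
        _ = _ := by ring
    · have h3 : ∑ o ∈ O, ∑ X ∈ P o, (if oI sE i = o ∧ Cy (sE i.1) c₀ g o.2 i.2 X then
          w (oI sE i) * (Fb * F i) else 0) = 0 := by
        refine sum_eq_zero fun o ho => sum_eq_zero fun X hX => if_neg fun h => hex ?_
        exact ⟨o, ho, X, hX, h⟩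
      rw [h3]
      split_ifs with h
      · have := wI_nonneg sE i
        have := hw _ h.2.1
        positivity
      · exact le_rfl

end Crest.Agent.R017.EnX743
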