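import Crest.Agent.R017.Glue_681

/-!
# Row 17, section A: the glue, part 2 (helper681)

* `opW W F (η, ζ) = ∑_{h ≠ 0} W h ∫ F (h η + x ζ) dx`, `PairW s W W' F F'`
* `PairW.tstep` : the two-term (T) step
* `pair_base` : from `FEPairN`
* `glueW` : the symmetrised big-cell law and `PairW` give `E_{a,F} = E_{a',F'}`
-/

set_option autoImplicit false

noncomputable section

open MeasureTheory Complex Set Filter
open scoped ENNReal ComplexConjugate Topology

namespace Crest.Agent.R017.Glue681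

open Crest.Agent.R012 Crest.Agent.R012.Eis Crest.Agent.R012.K695 Crest.Agent.R012.AU681
  Crest.Agent.R012.Parseval499 Crest.Agent.R017.Orth681 Crest.Agent.R017.Xn590 Crest.Agent.R017.F1

/-! ### Line integrals -/

/-- integral over a line. -/
def IL (F : Vec → ℂ) (M : K695.Frm) (h : ℂ) : ℂ := ∫ x : ℂ, F (h • M.1 + x • M.2)

/-- `F` continuous, `O((1+|u|²)^{-4})`. -/
structure Adm (F : Vec → ℂ) : Prop where
  cont : Continuous F
  dec : ∃ C : ℝ, ∀ u, ‖F u‖ ≤ C * ((1 + n2 u) ^ 4)⁻¹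

lemma adm_tst {s : ℂ} {F : Vec → ℂ} (h : TstN s F) : Adm F := ⟨h.cont, h.dec⟩

lemma Adm.scl {F : Vec → ℂ} (h : Adm F) {δ : ℂ} (hδ : δ ≠ 0) : Adm (scl δ F) where
  cont := by
    unfold F1.scl
    exact continuous_const.mul (h.cont.comp (continuous_const_smul _))
  dec := by
    have ht : TstN 1 (fun u => F u + F (-u)) ∨ True := Or.inr trivial
    obtain ⟨C, hC⟩ := h.dec
    have hδn : 0 < ‖δ‖ := norm_pos_iff.mpr hδ
    refine ⟨|C| * ((‖δ‖ ^ 2)⁻¹ * (1 + ‖δ‖ ^ 2) ^ 4), fun u => ?_⟩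
    have hn := n2_nonneg u
    have hn' := n2_nonneg (δ⁻¹ • u)
    unfold F1.scl
    rw [norm_mul, Complex.norm_real, Real.norm_of_nonneg (by positivity)]
    have h3 : ((1 + n2 (δ⁻¹ • u)) ^ 4)⁻¹ ≤ (1 + ‖δ‖ ^ 2) ^ 4 * ((1 + n2 u) ^ 4)⁻¹ := by
      rw [inv_eq_one_div, ← div_eq_mul_inv, div_le_div_iff₀ (by positivity) (by positivity),
        one_mul, ← mul_pow]
      apply pow_le_pow_left₀ (by positivity)
      rw [n2_smul, norm_inv, inv_pow]
      have h4 : ‖δ‖ ^ 2 * ((‖δ‖ ^ 2)⁻¹ * n2 u) = n2 u := by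
        field_simp
      have h7 : 0 ≤ (‖δ‖ ^ 2)⁻¹ * n2 u := by positivity
      nlinarith [sq_nonneg ‖δ‖]
    calc (‖δ‖ ^ 2)⁻¹ * ‖F (δ⁻¹ • u)‖ ≤ (‖δ‖ ^ 2)⁻¹ * (|C| * ((1 + n2 (δ⁻¹ • u)) ^ 4)⁻¹) := by
          gcongr
          refine (hC _).trans ?_
          gcongr
          exact le_abs_self C
      _ ≤ (‖δ‖ ^ 2)⁻¹ * (|C| * ((1 + ‖δ‖ ^ 2) ^ 4 * ((1 + n2 u) ^ 4)⁻¹)) := by gcongr
      _ = _ := by ring

/-- integrability on lines and the bound. -/
lemma norm_IL_le {F : Vec → ℂ} (hF : Adm F) {M : K695.Frm} (hM : det2 M ≠ 0) :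
    ∃ K : ℝ, 0 ≤ K ∧ ∀ h : ℂ, h ≠ 0 → ‖IL F M h‖ ≤ K * (‖h‖ ^ 4)⁻¹ := by
  obtain ⟨C, hC⟩ := hF.dec
  have hd : ‖det2 M‖ ≠ 0 := norm_ne_zero_iff.mpr hM
  refine ⟨|C| * (n2 M.2 / ‖det2 M‖ ^ 4 * c0.toReal), by
    have := n2_nonneg M.2
    positivity, fun h hh => ?_⟩
  have hn2 := n2_nonneg M.2
  have h1 := norm_integral_le_lintegral_norm (μ := volume) (fun x : ℂ => F (h • M.1 + x • M.2))
  refine h1.trans ?_
  have h2 : ∫⁻ x : ℂ, ENNReal.ofReal ‖F (h • M.1 + x • M.2)‖ ≤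
      ENNReal.ofReal |C| * (ENNReal.ofReal (n2 M.2 / ‖h * det2 M‖ ^ 4) * c0) := by
    refine (lintegral_mono (g := fun x => ENNReal.ofReal |C| * GE (h • M.1 + x • M.2))
      fun x => ?_).trans ?_
    · unfold GE GG
      simp only
      rw [← ENNReal.ofReal_mul (abs_nonneg C)]
      apply ENNReal.ofReal_le_ofReal
      refine (hC _).trans ?_
      have := n2_nonneg (h • M.1 + x • M.2)
      gcongr
      exact le_abs_self C
    · rw [lintegral_const_mul' _ _ ENNReal.ofReal_ne_top]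
      gcongr
      exact lint_hline hM hh
  have h3 : (ENNReal.ofReal |C| * (ENNReal.ofReal (n2 M.2 / ‖h * det2 M‖ ^ 4) * c0)).toReal =
      |C| * (n2 M.2 / ‖h * det2 M‖ ^ 4 * c0.toReal) := by
    rw [ENNReal.toReal_mul, ENNReal.toReal_mul, ENNReal.toReal_ofReal (abs_nonneg C),
      ENNReal.toReal_ofReal (by positivity)]
  have hc0 : c0 ≠ ∞ := c0_ne_top
  refine (ENNReal.toReal_mono (ENNReal.mul_ne_top ENNReal.ofReal_ne_top
    (ENNReal.mul_ne_top ENNReal.ofReal_ne_top hc0)) h2).trans (le_of_eq ?_)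
  rw [h3, norm_mul, mul_pow]
  have : ‖h‖ ≠ 0 := norm_ne_zero_iff.mpr hh
  field_simp

lemma summable_nm2 : Summable (fun h : Eis => ((nm h : ℝ) ^ 2)⁻¹) := by
  classical
  have h1 := ENNReal.summable_toReal hs2_ne_top
  have h2 : Summable (fun h : Eis => if h = 0 then 0 else ((nm h : ℝ) ^ 2)⁻¹) := by
    refine h1.congr fun h => ?_
    split_ifs
    · rfl
    · rw [ENNReal.toReal_ofReal (by positivity)]
  refine h2.congr fun h => ?_
  split_ifs with h0
  · rw [h0]; simp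
  · rfl

open Classical in
/-- `∑_{h ≠ 0} W h ∫ F (h η + x ζ) dx`. -/
def opW (W : Eis → ℂ) (F : Vec → ℂ) (M : K695.Frm) : ℂ :=
  ∑' h : Eis, (if h = 0 then 0 else W h * IL F M (toC h))

/-- bounded weights. -/
def Bdd (W : Eis → ℂ) : Prop := ∃ K : ℝ, ∀ h, ‖W h‖ ≤ K

open Classical in
lemma summable_opW {W : Eis → ℂ} (hW : Bdd W) {F : Vec → ℂ} (hF : Adm F) {M : K695.Frm}
    (hM : det2 M ≠ 0) : Summable (fun h : Eis => if h = 0 then 0 else W h * IL F M (toC h)) := by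
  obtain ⟨K, hK⟩ := hW
  obtain ⟨L, hL0, hL⟩ := norm_IL_le hF hM
  have hK0 : 0 ≤ K := (norm_nonneg _).trans (hK 0)
  refine Summable.of_norm_bounded (g := fun h => K * L * ((nm h : ℝ) ^ 2)⁻¹)
    (summable_nm2.mul_left _) fun h => ?_
  split_ifs with h0
  · rw [norm_zero]; positivity
  · have hhC : toC h ≠ 0 := by rwa [Ne, toC_eq_zero]
    rw [norm_mul]
    have e : (‖toC h‖ ^ 4)⁻¹ = ((nm h : ℝ) ^ 2)⁻¹ := by
      rw [← norm_toC_sq]; ring
    calc ‖W h‖ * ‖IL F M (toC h)‖ ≤ K * (L * (‖toC h‖ ^ 4)⁻¹) :=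
          mul_le_mul (hK h) (hL _ hhC) (norm_nonneg _) hK0
      _ = _ := by rw [e]; ring

/-! ### Linearity -/

lemma IL_integrable {F : Vec → ℂ} (hF : Adm F) {M : K695.Frm} (hM : det2 M ≠ 0) {h : ℂ}
    (hh : h ≠ 0) : Integrable (fun x : ℂ => F (h • M.1 + x • M.2)) := by
  obtain ⟨C, hC⟩ := hF.dec
  refine ⟨(hF.cont.comp (by fun_prop)).aestronglyMeasurable, ?_⟩
  refine lt_of_le_of_lt (lintegral_mono (g := fun x => ENNReal.ofReal |C| *
    GE (h • M.1 + x • M.2)) fun x => ?_) ?_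
  · simp only
    unfold GE GG
    rw [← ENNReal.ofReal_mul (abs_nonneg C), ← ofReal_norm]
    apply ENNReal.ofReal_le_ofReal
    refine (hC _).trans ?_
    have := n2_nonneg (h • M.1 + x • M.2)
    gcongr
    exact le_abs_self C
  · rw [lintegral_const_mul' _ _ ENNReal.ofReal_ne_top]
    refine (ENNReal.mul_ne_top ENNReal.ofReal_ne_top
      (ne_top_of_le_ne_top (ENNReal.mul_ne_top ENNReal.ofReal_ne_top c0_ne_top)
        (lint_hline hM hh))).lt_top

lemma IL_add {F G : Vec → ℂ} (hF : Adm F) (hG : Adm G) {M : K695.Frm} (hM : det2 M ≠ 0) {h : ℂ}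
    (hh : h ≠ 0) : IL (fun u => F u + G u) M h = IL F M h + IL G M h := by
  unfold IL
  exact integral_add (IL_integrable hF hM hh) (IL_integrable hG hM hh)

lemma IL_smul (c : ℂ) (F : Vec → ℂ) (M : K695.Frm) (h : ℂ) :
    IL (fun u => c * F u) M h = c * IL F M h := by
  unfold IL
  exact integral_const_mul _ _

lemma opW_addF {W : Eis → ℂ} (hW : Bdd W) {F G : Vec → ℂ} (hF : Adm F) (hG : Adm G)
    {M : K695.Frm} (hM : det2 M ≠ 0) :
    opW W (fun u => F u + G u) M = opW W F M + opW W G M := by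
  classical
  unfold opW
  rw [← (summable_opW hW hF hM).tsum_add (summable_opW hW hG hM)]
  refine tsum_congr fun h => ?_
  split_ifs with h0
  · ring
  · have hhC : toC h ≠ 0 := by rwa [Ne, toC_eq_zero]
    rw [IL_add hF hG hM hhC]
    ring

lemma opW_smulF (W : Eis → ℂ) (c : ℂ) (F : Vec → ℂ) (M : K695.Frm) :
    opW W (fun u => c * F u) M = c * opW W F M := by
  classical
  unfold opW
  rw [← tsum_mul_left]
  refine tsum_congr fun h => ?_
  rw [IL_smul]
  split_ifs <;> ring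

lemma opW_addW {W W1 : Eis → ℂ} (hW : Bdd W) (hW1 : Bdd W1) {F : Vec → ℂ} (hF : Adm F)
    {M : K695.Frm} (hM : det2 M ≠ 0) :
    opW (fun h => W h + W1 h) F M = opW W F M + opW W1 F M := by
  classical
  unfold opW
  rw [← (summable_opW hW hF hM).tsum_add (summable_opW hW1 hF hM)]
  refine tsum_congr fun h => ?_
  split_ifs <;> ring

lemma opW_smulW (W : Eis → ℂ) (c : ℂ) (F : Vec → ℂ) (M : K695.Frm) :
    opW (fun h => c * W h) F M = c * opW W F M := by
  classical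
  unfold opW
  rw [← tsum_mul_left]
  refine tsum_congr fun h => ?_
  split_ifs <;> ring

lemma opW_congr {W W1 : Eis → ℂ} (h : ∀ x, x ≠ 0 → W x = W1 x) (F : Vec → ℂ) (M : K695.Frm) :
    opW W F M = opW W1 F M := by
  classical
  unfold opW
  refine tsum_congr fun x => ?_
  split_ifs with h0
  · rfl
  · rw [h x h0]

/-! ### Dilations -/

/-- `[b] F (u) = |b|² F (b u)`. -/
def dil (b : ℂ) (F : Vec → ℂ) (u : Vec) : ℂ := ((‖b‖ ^ 2 : ℝ) : ℂ) * F (b • u)

lemma IL_dil {b : ℂ} (hb : b ≠ 0) (F : Vec → ℂ) (M : K695.Frm) (h : ℂ) :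
    IL (dil b F) M h = IL F M (b * h) := by
  unfold IL dil
  rw [integral_const_mul]
  have h1 := int_affine hb 0 (fun x : ℂ => F ((b * h) • M.1 + x • M.2))
  have h2 : ∀ x : ℂ, F (b • (h • M.1 + x • M.2)) = F ((b * h) • M.1 + (b * x + 0) • M.2) := by
    intro x
    rw [smul_add, smul_smul, smul_smul, add_zero]
  simp_rw [h2]
  rw [h1]
  have hn : ‖b‖ ≠ 0 := norm_ne_zero_iff.mpr hb
  have hn' : ((‖b‖ : ℝ) : ℂ) ≠ 0 := by exact_mod_cast hn
  push_cast
  field_simp

lemma IL_fst (b : ℂ) (F : Vec → ℂ) (M : K695.Frm) (h : ℂ) :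
    IL F (b • M.1, M.2) h = IL F M (b * h) := by
  unfold IL
  simp only
  refine integral_congr_ae (Filter.Eventually.of_forall fun x => ?_)
  simp only
  rw [smul_smul, mul_comm]

lemma det2_fst (b : ℂ) (M : K695.Frm) : det2 (b • M.1, M.2) = b * det2 M := by
  unfold det2
  simp
  ring

lemma scl_dil (δ b : ℂ) (F : Vec → ℂ) : scl δ (dil b F) = dil b (scl δ F) := by
  funext u
  simp only [F1.scl, dil, smul_smul]
  rw [mul_comm b]
  ring

lemma scl_mul {b : ℂ} (δ : ℂ) (F : Vec → ℂ) (u : Vec) :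
    scl (b * δ) F u = scl δ (dil b⁻¹ F) u := by
  unfold F1.scl dil
  rw [smul_smul, norm_mul, norm_inv, mul_inv, mul_pow, mul_inv, inv_pow]
  push_cast
  ring

lemma adm_dil {b : ℂ} (hb : b ≠ 0) {F : Vec → ℂ} (hF : Adm F) : Adm (dil b F) := by
  have h1 := hF.scl (inv_ne_zero hb)
  have h2 : dil b F = scl b⁻¹ F := by
    funext u
    unfold dil F1.scl
    rw [norm_inv, inv_pow, inv_inv, inv_inv]
  rw [h2]
  exact h1

lemma tst_dil {s b : ℂ} (hb : b ≠ 0) {F : Vec → ℂ} (hF : TstN s F) : TstN s (dil b F) where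
  cont := (adm_dil hb (adm_tst hF)).cont
  par u := by
    unfold dil
    rw [smul_neg, hF.par]
    ring
  dec := (adm_dil hb (adm_tst hF)).dec

lemma tst_add {s : ℂ} {F G : Vec → ℂ} (hF : TstN s F) (hG : TstN s G) :
    TstN s (fun u => F u + G u) where
  cont := hF.cont.add hG.cont
  par u := by rw [hF.par, hG.par]; ring
  dec := by
    obtain ⟨C, hC⟩ := hF.dec
    obtain ⟨D, hD⟩ := hG.dec
    exact ⟨C + D, fun u => (norm_add_le _ _).trans (by rw [add_mul]; exact add_le_add (hC u) (hD u))⟩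

lemma tst_smul {s : ℂ} (c : ℂ) {F : Vec → ℂ} (hF : TstN s F) : TstN s (fun u => c * F u) where
  cont := continuous_const.mul hF.cont
  par u := by rw [hF.par]; ring
  dec := by
    obtain ⟨C, hC⟩ := hF.dec
    refine ⟨‖c‖ * C, fun u => ?_⟩
    rw [norm_mul, mul_assoc]
    exact mul_le_mul_of_nonneg_left (hC u) (norm_nonneg c)

open Classical in
/-- `(b ∗ W)(h) = W (h / b)`. -/
def shf (b : Eis) (W : Eis → ℂ) (h : Eis) : ℂ := if hb : ∃ t, h = b * t then W hb.choose else 0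

lemma shf_mul {b : Eis} (hb : b ≠ 0) (W : Eis → ℂ) (t : Eis) : shf b W (b * t) = W t := by
  unfold shf
  have h : ∃ t', b * t = b * t' := ⟨t, rfl⟩
  rw [dif_pos h]
  congr 1
  exact (mul_left_cancel₀ hb h.choose_spec).symm

lemma shf_not {b h : Eis} (hb : ¬ b ∣ h) (W : Eis → ℂ) : shf b W h = 0 := by
  unfold shf
  rw [dif_neg]
  rintro ⟨t, ht⟩
  exact hb ⟨t, ht⟩

lemma bdd_shf {b : Eis} {W : Eis → ℂ} (hW : Bdd W) : Bdd (shf b W) := by
  obtain ⟨K, hK⟩ := hW
  refine ⟨K, fun h => ?_⟩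
  unfold shf
  split_ifs with hb
  · exact hK _
  · rw [norm_zero]; exact (norm_nonneg _).trans (hK 0)

lemma opW_shf {b : Eis} (hb : b ≠ 0) (W : Eis → ℂ) (F : Vec → ℂ) (M : K695.Frm) :
    opW (shf b W) F M = opW W F (toC b • M.1, M.2) := by
  classical
  unfold opW
  have hinj : Function.Injective (fun t : Eis => b * t) := mul_right_injective₀ hb
  rw [← hinj.tsum_eq (f := fun h : Eis => if h = 0 then 0 else shf b W h * IL F M (toC h))]
  · refine tsum_congr fun t => ?_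
    by_cases h0 : t = 0
    · rw [h0, mul_zero, if_pos rfl, if_pos rfl]
    · rw [if_neg (mul_ne_zero hb h0), if_neg h0, shf_mul hb, IL_fst, map_mul]
  · intro h hh
    rw [Function.mem_support] at hh
    by_contra hno
    apply hh
    split_ifs with h0
    · rfl
    · rw [shf_not (fun ⟨t, ht⟩ => hno ⟨t, ht.symm⟩), zero_mul]

/-! ### Pairs -/

/-- pairs of test functions for the weights `W, W'`. -/
structure PairW (s : ℂ) (W W' : Eis → ℂ) (F F' : Vec → ℂ) : Prop where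
  bW : Bdd W
  bW' : Bdd W'
  tst : TstN s F
  tst' : TstN s F'
  m1 : ∀ M : K695.Frm, det2 M ≠ 0 → opW W F M = scl (det2 M) F' M.2
  m2 : ∀ M : K695.Frm, det2 M ≠ 0 → opW W' (scl (det2 M) F') M = F M.2

lemma scl_add (δ : ℂ) (F G : Vec → ℂ) : scl δ (fun u => F u + G u) = fun u => scl δ F u + scl δ G u := by
  funext u; unfold F1.scl; ring

lemma scl_smul (δ c : ℂ) (F : Vec → ℂ) : scl δ (fun u => c * F u) = fun u => c * scl δ F u := by
  funext u; unfold F1.scl; ring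

/-- **The (T) step.** -/
theorem PairW.tstep {s : ℂ} {W0 W0' : Eis → ℂ} {F F' : Vec → ℂ} (hp : PairW s W0 W0' F F')
    {b : Eis} (hb : b ≠ 0) {y y' c c' k : ℂ} (hy : y * y' = 1) (hc : c * c' = 1)
    {W W' : Eis → ℂ} (bW : Bdd W) (bW' : Bdd W')
    (h1 : ∀ t, t ≠ 0 → W (b * t) + k * y * W t = c * (y * W0 t + k * W0 (b * t)))
    (h1n : ∀ h, ¬ b ∣ h → W h = c * (k * W0 h))
    (h2 : ∀ t, t ≠ 0 → W' (b * t) + k * y' * W' t = c' * (y' * W0' t + k * W0' (b * t)))
    (h2n : ∀ h, ¬ b ∣ h → W' h = c' * (k * W0' h)) :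
    PairW s W W' (fun u => F u + (k * y) * dil (toC b) F u)
      (fun u => c * (y * dil (toC b)⁻¹ F' u + k * F' u)) where
  bW := bW
  bW' := bW'
  tst := tst_add hp.tst (tst_smul _ (tst_dil (by rwa [Ne, toC_eq_zero]) hp.tst))
  tst' := tst_smul _ (tst_add (tst_smul _ (tst_dil (inv_ne_zero (by rwa [Ne, toC_eq_zero])) hp.tst'))
    (tst_smul _ hp.tst'))
  m1 M hM := by
    have hbC : toC b ≠ 0 := by rwa [Ne, toC_eq_zero]
    have hA := adm_tst hp.tst
    have hdM : det2 ((toC b • M.1, M.2) : K695.Frm) ≠ 0 := by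
      rw [det2_fst]; exact mul_ne_zero hbC hM
    -- left side
    rw [opW_addF bW hA (adm_tst (tst_smul _ (tst_dil hbC hp.tst))) hM, opW_smulF]
    have e1 : opW W (dil (toC b) F) M = opW (shf b W) F M := by
      rw [opW_shf hb]
      classical
      unfold opW
      refine tsum_congr fun h => ?_
      split_ifs
      · rfl
      · rw [IL_dil hbC, IL_fst]
    rw [e1, ← opW_smulW (shf b W), ← opW_addW bW (by
      obtain ⟨K, hK⟩ := bdd_shf (b := b) bW
      exact ⟨‖k * y‖ * K, fun h => by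
        rw [norm_mul]
        exact mul_le_mul_of_nonneg_left (hK h) (norm_nonneg _)⟩) hA hM]
    have e2 : opW (fun h => W h + k * y * shf b W h) F M =
        opW (fun h => c * (y * shf b W0 h + k * W0 h)) F M := by
      apply opW_congr
      intro h h0
      by_cases hd : b ∣ h
      · obtain ⟨t, rfl⟩ := hd
        rw [shf_mul hb, shf_mul hb]
        exact h1 t (right_ne_zero_of_mul h0)
      · rw [shf_not hd, shf_not hd, h1n h hd]
        ring
    rw [e2, opW_smulW, opW_addW (by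
      obtain ⟨K, hK⟩ := bdd_shf (b := b) hp.bW
      exact ⟨‖y‖ * K, fun h => by
        rw [norm_mul]
        exact mul_le_mul_of_nonneg_left (hK h) (norm_nonneg _)⟩) (by
      obtain ⟨K, hK⟩ := hp.bW
      exact ⟨‖k‖ * K, fun h => by
        rw [norm_mul]
        exact mul_le_mul_of_nonneg_left (hK h) (norm_nonneg _)⟩) hA hM, opW_smulW, opW_smulW,
      opW_shf hb, hp.m1 M hM, hp.m1 _ hdM, det2_fst, scl_mul]
    simp only
    unfold F1.scl
    ring
  m2 M hM := by
    have hbC : toC b ≠ 0 := by rwa [Ne, toC_eq_zero]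
    set δ := det2 M with hδ
    have hA : Adm (scl δ F') := (adm_tst hp.tst').scl hM
    -- the frame `(b⁻¹ η, ζ)`
    set X : K695.Frm := ((toC b)⁻¹ • M.1, M.2) with hX
    have hdX : det2 X = (toC b)⁻¹ * δ := det2_fst _ M
    have hX0 : det2 X ≠ 0 := by rw [hdX]; exact mul_ne_zero (inv_ne_zero hbC) hM
    have hbX : ((toC b • X.1, X.2) : K695.Frm) = M := by
      rw [hX]
      simp only [smul_smul, mul_inv_cancel₀ hbC, one_smul]
    have e0 : scl δ (fun u => c * (y * dil (toC b)⁻¹ F' u + k * F' u)) =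
        fun u => c * (y * dil (toC b)⁻¹ (scl δ F') u + k * scl δ F' u) := by
      rw [scl_smul, scl_add, scl_smul, scl_smul, scl_dil]
    rw [e0, opW_smulF, opW_addF bW' (by
      have := adm_dil (inv_ne_zero hbC) hA
      exact ⟨continuous_const.mul this.cont, by
        obtain ⟨C, hC⟩ := this.dec
        refine ⟨‖y‖ * C, fun u => ?_⟩
        rw [norm_mul, mul_assoc]
        exact mul_le_mul_of_nonneg_left (hC u) (norm_nonneg y)⟩) (by
      exact ⟨continuous_const.mul hA.cont, by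
        obtain ⟨C, hC⟩ := hA.dec
        refine ⟨‖k‖ * C, fun u => ?_⟩
        rw [norm_mul, mul_assoc]
        exact mul_le_mul_of_nonneg_left (hC u) (norm_nonneg k)⟩) hM, opW_smulF, opW_smulF]
    have e1 : opW W' (dil (toC b)⁻¹ (scl δ F')) M = opW W' (scl δ F') X := by
      classical
      unfold opW
      refine tsum_congr fun h => ?_
      split_ifs
      · rfl
      · rw [IL_dil (inv_ne_zero hbC), hX, IL_fst]
    have e2 : opW W' (scl δ F') M = opW (shf b W') (scl δ F') X := by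
      rw [opW_shf hb, hbX]
    have hbb : ∀ (r : ℂ) {U : Eis → ℂ}, Bdd U → Bdd (fun h => r * U h) := by
      intro r U hU
      obtain ⟨K, hK⟩ := hU
      exact ⟨‖r‖ * K, fun h => by
        rw [norm_mul]
        exact mul_le_mul_of_nonneg_left (hK h) (norm_nonneg _)⟩
    rw [e1, e2, ← opW_smulW, ← opW_smulW,
      ← opW_addW (hbb y bW') (hbb k (bdd_shf bW')) hA hX0]
    have e3 : opW (fun h => y * W' h + k * shf b W' h) (scl δ F') X =
        opW (fun h => c' * (shf b W0' h + (y * k) * W0' h)) (scl δ F') X := by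
      apply opW_congr
      intro h h0
      by_cases hd : b ∣ h
      · obtain ⟨t, rfl⟩ := hd
        rw [shf_mul hb, shf_mul hb]
        have := h2 t (right_ne_zero_of_mul h0)
        linear_combination y * this - (k * W' t) * hy + (c' * W0' t) * hy
      · rw [shf_not hd, shf_not hd, h2n h hd]
        ring
    rw [e3, opW_smulW, opW_addW (bdd_shf hp.bW') (hbb (y * k) hp.bW') hA hX0, opW_smulW,
      opW_shf hb, hbX, hp.m2 M hM]
    -- the remaining term
    have e4 : opW W0' (scl δ F') X = dil (toC b) F M.2 := by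
      set Z : K695.Frm := (toC b • X.1, toC b • X.2) with hZ
      have hdZ : det2 Z = toC b * δ := by
        have : det2 Z = toC b * (toC b * det2 X) := by
          rw [hZ]; unfold det2; simp; ring
        rw [this, hdX]
        field_simp
      have hZ0 : det2 Z ≠ 0 := by rw [hdZ]; exact mul_ne_zero hbC hM
      have h3 := hp.m2 Z hZ0
      have hn : ‖toC b‖ ≠ 0 := norm_ne_zero_iff.mpr hbC
      have hn' : ((‖toC b‖ : ℝ) : ℂ) ≠ 0 := by exact_mod_cast hn
      have h4 : opW W0' (scl (det2 Z) F') Z =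
          (((‖toC b‖ ^ 2)⁻¹ : ℝ) : ℂ) * opW W0' (scl δ F') X := by
        classical
        unfold opW
        rw [← tsum_mul_left]
        refine tsum_congr fun h => ?_
        have h5 : IL (scl (det2 Z) F') Z (toC h) =
            (((‖toC b‖ ^ 2)⁻¹ : ℝ) : ℂ) * IL (scl δ F') X (toC h) := by
          unfold IL
          rw [← integral_const_mul]
          refine integral_congr_ae (Filter.Eventually.of_forall fun x => ?_)
          simp only
          rw [hdZ, hZ]
          unfold F1.scl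
          simp only
          rw [norm_mul, mul_pow, mul_inv]
          have h6 : (toC b * δ)⁻¹ • (toC h • toC b • X.1 + x • toC b • X.2) =
              δ⁻¹ • (toC h • X.1 + x • X.2) := by
            rw [smul_comm (toC h), smul_comm x, ← smul_add, smul_smul]
            congr 1
            field_simp
          rw [h6]
          push_cast
          ring
        rw [h5]
        split_ifs <;> ring
      rw [h4] at h3
      unfold dil
      have hZ2 : Z.2 = toC b • M.2 := by rw [hZ, hX]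
      rw [hZ2] at h3
      rw [← h3]
      push_cast
      field_simp
    rw [e4]
    linear_combination (F M.2 + y * k * dil (toC b) F M.2) * hc

/-! ### Constants and the base pair -/

lemma Bdd.const_mul {W : Eis → ℂ} (hW : Bdd W) (r : ℂ) : Bdd (fun h => r * W h) := by
  obtain ⟨K, hK⟩ := hW
  exact ⟨‖r‖ * K, fun h => by
    rw [norm_mul]
    exact mul_le_mul_of_nonneg_left (hK h) (norm_nonneg _)⟩

/-- rescaling the second function. -/
lemma PairW.scale {s : ℂ} {W W' : Eis → ℂ} {F F' : Vec → ℂ} (hp : PairW s W W' F F') {r r' : ℂ}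
    (hr : r * r' = 1) :
    PairW s (fun h => r * W h) (fun h => r' * W' h) F (fun u => r * F' u) where
  bW := hp.bW.const_mul r
  bW' := hp.bW'.const_mul r'
  tst := hp.tst
  tst' := tst_smul r hp.tst'
  m1 M hM := by rw [opW_smulW, hp.m1 M hM, scl_smul]
  m2 M hM := by
    rw [opW_smulW, scl_smul, opW_smulF, hp.m2 M hM, ← mul_assoc, mul_comm r' r, hr, one_mul]

/-- sums of pairs for the same weights. -/
lemma PairW.add {s : ℂ} {W W' : Eis → ℂ} {F F' G G' : Vec → ℂ} (hp : PairW s W W' F F')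
    (hq : PairW s W W' G G') :
    PairW s W W' (fun u => F u + G u) (fun u => F' u + G' u) where
  bW := hp.bW
  bW' := hp.bW'
  tst := tst_add hp.tst hq.tst
  tst' := tst_add hp.tst' hq.tst'
  m1 M hM := by
    rw [opW_addF hp.bW (adm_tst hp.tst) (adm_tst hq.tst) hM, hp.m1 M hM, hq.m1 M hM, scl_add]
  m2 M hM := by
    rw [scl_add, opW_addF hp.bW' ((adm_tst hp.tst').scl hM) ((adm_tst hq.tst').scl hM) hM,
      hp.m2 M hM, hq.m2 M hM]

lemma PairW.smul {s : ℂ} {W W' : Eis → ℂ} {F F' : Vec → ℂ} (hp : PairW s W W' F F') (r : ℂ) :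
    PairW s W W' (fun u => r * F u) (fun u => r * F' u) where
  bW := hp.bW
  bW' := hp.bW'
  tst := tst_smul r hp.tst
  tst' := tst_smul r hp.tst'
  m1 M hM := by rw [opW_smulF, hp.m1 M hM, scl_smul]
  m2 M hM := by rw [scl_smul, opW_smulF, hp.m2 M hM]

/-- weights are only used at `h ≠ 0`. -/
lemma PairW.congr {s : ℂ} {W W' W1 W1' : Eis → ℂ} {F F' : Vec → ℂ} (hp : PairW s W W' F F')
    (b1 : Bdd W1) (b1' : Bdd W1') (h : ∀ x, x ≠ 0 → W1 x = W x) (h' : ∀ x, x ≠ 0 → W1' x = W' x) :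
    PairW s W1 W1' F F' where
  bW := b1
  bW' := b1'
  tst := hp.tst
  tst' := hp.tst'
  m1 M hM := by rw [opW_congr h]; exact hp.m1 M hM
  m2 M hM := by rw [opW_congr h']; exact hp.m2 M hM

/-- base weights: `w ξ(j) P(j)` at `e₀ jⁿ`, parity `s`, zero elsewhere. -/
structure BaseW (n : ℕ) (e0 : Eis) (s w : ℂ) (ξ : Eis → ℂ) (W : Eis → ℂ) : Prop where
  pow : ∀ j, j ≠ 0 → W (e0 * j ^ n) = w * (ξ j * (PL j : ℂ))
  par : ∀ h, W (-h) = s * W h
  supp : ∀ h, h ≠ 0 → W h ≠ 0 → ∃ j, h = e0 * j ^ n ∨ -h = e0 * j ^ n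

lemma IL_neg {s : ℂ} {F : Vec → ℂ} (hF : ∀ u, F (-u) = s * F u) (M : K695.Frm) (h : ℂ) :
    IL F M (-h) = s * IL F M h := by
  unfold IL
  rw [← integral_const_mul, ← integral_neg_eq_self (fun z : ℂ => F ((-h) • M.1 + z • M.2))]
  refine integral_congr_ae (Filter.Eventually.of_forall fun z => ?_)
  simp only
  rw [← hF]
  congr 1
  rw [neg_smul, neg_smul, neg_add]

lemma opW_base {n : ℕ} (hn0 : n ≠ 0) (hn : 3 ∣ n) {e0 : Eis} (he0 : e0 ≠ 0) {s w : ℂ}
    (hs : s = 1 ∨ s = -1) {ξ W : Eis → ℂ} (hb : BaseW n e0 s w ξ W) (hW : Bdd W) {F : Vec → ℂ}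
    (hF : Adm F) (hpar : ∀ u, F (-u) = s * F u) {M : K695.Frm} (hM : det2 M ≠ 0) {V : ℝ}
    (hV : V ≠ 0) {B : ℂ} (hw : w * (2 * V) = B) :
    opW W F M = MOpn n ξ V (toC e0) B F M := by
  classical
  have hss : s * s = 1 := by rcases hs with h | h <;> rw [h] <;> ring
  have hVC : (V : ℂ) ≠ 0 := by exact_mod_cast hV
  have hsum := summable_opW hW hF hM
  unfold opW MOpn
  rw [(tsum_powers hn0 hn he0 hsum ?_ ?_).2]
  · have e1 : ∀ j : Eis, (if j = 0 then (0 : ℂ) else
        (if e0 * j ^ n = 0 then 0 else W (e0 * j ^ n) * IL F M (toC (e0 * j ^ n)))) =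
        w * (if j = 0 then 0 else
          ξ j * ((PL j : ℂ) * ∫ x : ℂ, F ((toC e0 * toC j ^ n) • M.1 + x • M.2))) := by
      intro j
      by_cases hj : j = 0
      · rw [if_pos hj, if_pos hj, mul_zero]
      · rw [if_neg hj, if_neg hj, if_neg (mul_ne_zero he0 (pow_ne_zero n hj)), hb.pow j hj,
          map_mul, map_pow]
        unfold IL
        ring
    simp_rw [e1]
    rw [tsum_mul_left, ← hw]
    push_cast
    field_simp
    ring
  · intro h
    by_cases h0 : h = 0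
    · simp [h0]
    · rw [if_neg (neg_ne_zero.mpr h0), if_neg h0, hb.par, map_neg, IL_neg hpar]
      linear_combination (W h * IL F M (toC h)) * hss
  · intro h hne
    have h0 : h ≠ 0 := by
      rintro rfl
      exact hne (by simp)
    rw [if_neg h0] at hne
    obtain ⟨j, hj⟩ := hb.supp h h0 (left_ne_zero_of_mul hne)
    refine ⟨j, ?_, hj⟩
    rintro rfl
    rw [zero_pow hn0, mul_zero, neg_eq_zero, or_self] at hj
    exact h0 hj

/-- **Base pair.** -/
theorem pair_base {n : ℕ} (hn0 : n ≠ 0) (hn : 3 ∣ n) {e0 : Eis} (he0 : e0 ≠ 0) {s w w' : ℂ}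
    (hs : s = 1 ∨ s = -1) {ξ W W' : Eis → ℂ} (hb : BaseW n e0 s w ξ W)
    (hb' : BaseW n e0 s w' (fun j => conj (ξ j)) W') (hW : Bdd W) (hW' : Bdd W') {V : ℝ}
    (hV : V ≠ 0) {B B' : ℂ} (hw : w * (2 * V) = B) (hw' : w' * (2 * V) = B') {F F' : Vec → ℂ}
    (hF : FEPairN n s ξ V (toC e0) B B' F F') : PairW s W W' F F' where
  bW := hW
  bW' := hW'
  tst := hF.tst
  tst' := hF.tst'
  m1 M hM := by
    rw [opW_base hn0 hn he0 hs hb hW (adm_tst hF.tst) hF.tst.par hM hV hw]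
    exact hF.m1 M hM
  m2 M hM := by
    rw [opW_base hn0 hn he0 hs hb' hW' ((adm_tst hF.tst').scl hM)
      (fun u => scl_neg hF.tst' _ u) hM hV hw']
    exact hF.m2 M hM

open Classical in
/-- an explicit base weight. -/
def baseW (n : ℕ) (e0 : Eis) (s w : ℂ) (ξ : Eis → ℂ) (h : Eis) : ℂ :=
  if hj : ∃ j, j ≠ 0 ∧ h = e0 * j ^ n then w * (ξ hj.choose * (PL hj.choose : ℂ))
  else if hj : ∃ j, j ≠ 0 ∧ -h = e0 * j ^ n then s * (w * (ξ hj.choose * (PL hj.choose : ℂ))) else 0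

/-! ### The glue -/

/-- the local sum. -/
def SA (N : Eis) (a : Eis × Eis → ℂ) (g : SLE) (h : Eis) : ℂ :=
  sumMod (h * N) (fun y => a (rmulS (h, y) g))

/-- **Symmetrised big-cell law.** -/
def LawW (N : Eis) (χ : GN N → ℂ) (s : ℂ) (W : Eis → ℂ) (a a' : Eis × Eis → ℂ) : Prop :=
  ∀ g : SLE, Reg χ g → (a (br g) ≠ 0 ∨ a' (br g) ≠ 0) → ∀ h : Eis, h ≠ 0 →
    SA N a g h + s * SA N a g (-h) = 2 * ((nm h : ℂ) * (W h * a' (br g)))

lemma tsum_symm {f : Eis → ℂ} (hfs : Summable f) :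
    ∑' h, f h = (1 / 2 : ℂ) * ∑' h, (f h + f (-h)) := by
  have hfn : Summable (fun h => f (-h)) := (Equiv.neg Eis).summable_iff.mpr hfs
  rw [hfs.tsum_add hfn]
  have : ∑' h, f (-h) = ∑' h, f h := (Equiv.neg Eis).tsum_eq f
  rw [this]
  ring

/-- **Constant term with a symmetrised law.** -/
theorem ct_law {N : Eis} (hN : N ≠ 0) {χ : GN N → ℂ} {s : ℂ} {W : Eis → ℂ}
    {a a' : Eis × Eis → ℂ} (ha : Cof N χ a)
    (hlaw : LawW N χ s W a a') {H : ℂ → Vec → ℂ} (hH : TFD H)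
    (hHpar : ∀ δ u, H δ (-u) = s * H δ u) {g : SLE} (hg : Reg χ g)
    (hsup : a (br g) ≠ 0 ∨ a' (br g) ≠ 0) {M : K695.Frm} (hM : det2 M ≠ 0) :
    CT N g (ED a H) M =
      (covol (toC N) : ℂ) * ∑' y : Eis, a (rmulS (0, y) g) * H (det2 M) (toC y • M.2) +
      a' (br g) * opW W (H (det2 M)) M := by
  classical
  rw [ct_formula hN ha hH hg hM]
  congr 1
  set f : Eis → ℂ := fun h => if h = 0 then 0 else ((nm h : ℂ))⁻¹ *
        (sumMod (h * N) (fun y => a (rmulS (h, y) g)) *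
          ∫ z : ℂ, H (det2 M) (toC h • M.1 + z • M.2)) with hf
  have hfs : Summable f := summable_ct hN ha hH hg hM
  have e1 : ∑' h, f h = (1 / 2 : ℂ) * ∑' h, (f h + f (-h)) := tsum_symm hfs
  rw [e1]
  unfold opW
  rw [← tsum_mul_left, ← tsum_mul_left]
  refine tsum_congr fun h => ?_
  by_cases h0 : h = 0
  · rw [if_pos h0, h0, neg_zero, hf]
    simp only [if_true]
    ring
  · have hl := hlaw g hg hsup h h0
    unfold SA at hl
    have f1 : f h = ((nm h : ℂ))⁻¹ * (sumMod (h * N) (fun y => a (rmulS (h, y) g)) *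
        IL (H (det2 M)) M (toC h)) := by
      rw [hf]
      simp only
      rw [if_neg h0]
      rfl
    have f2 : f (-h) = ((nm h : ℂ))⁻¹ * (sumMod (-h * N) (fun y => a (rmulS (-h, y) g)) *
        (s * IL (H (det2 M)) M (toC h))) := by
      rw [hf]
      simp only
      rw [if_neg (neg_ne_zero.mpr h0), nm_neg, ← IL_neg (hHpar (det2 M)) M (toC h), ← map_neg]
      rfl
    rw [f1, f2, if_neg h0]
    have hnm : (nm h : ℂ) ≠ 0 := by exact_mod_cast (nm_pos.mpr h0).ne'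
    generalize sumMod (h * N) (fun y => a (rmulS (h, y) g)) = S1 at hl ⊢
    generalize sumMod (-h * N) (fun y => a (rmulS (-h, y) g)) = S2 at hl ⊢
    generalize IL (H (det2 M)) M (toC h) = I1
    generalize (nm h : ℂ) = n1 at hl hnm ⊢
    have e2 : (1 / 2 : ℂ) * (n1⁻¹ * (S1 * I1) + n1⁻¹ * (S2 * (s * I1))) =
        (1 / 2 : ℂ) * n1⁻¹ * I1 * (S1 + s * S2) := by ring
    rw [e2, hl]
    field_simp

/-- the unit term: `∑_y a(y r₀) F(y v) = ε a(r₀) F(v)`. -/
def UnitE (s ε : ℂ) (a a' : Eis × Eis → ℂ) : Prop :=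
  ∀ (g : SLE), (a (br g) ≠ 0 ∨ a' (br g) ≠ 0) → ∀ F : Vec → ℂ, (∀ u, F (-u) = s * F u) →
    ∀ v, ∑' y : Eis, a (rmulS (0, y) g) * F (toC y • v) = ε * (a (br g) * F v)

/-- only the unit `1` keeps the support. -/
def UnitOne (a a' : Eis × Eis → ℂ) : Prop :=
  ∀ (r : Eis × Eis) (y : Eis), (a r ≠ 0 ∨ a' r ≠ 0) →
    (a (y * r.1, y * r.2) ≠ 0 ∨ a' (y * r.1, y * r.2) ≠ 0) → y = 1

lemma unitE_of_one {s : ℂ} {a a' : Eis × Eis → ℂ} (h : UnitOne a a') : UnitE s 1 a a' := by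
  intro g hsup F _ v
  rw [tsum_eq_single (1 : Eis)]
  · have e1 : rmulS (0, 1) g = br g := by simp [rmulS, br]
    rw [e1, map_one, one_smul, one_mul]
  · intro y hy
    have : a (rmulS (0, y) g) = 0 := by
      by_contra hne
      apply hy
      refine h (br g) y hsup (Or.inl ?_)
      have : rmulS (0, y) g = (y * (br g).1, y * (br g).2) := by simp [rmulS, br]
      rwa [← this]
    rw [this, zero_mul]

lemma UnitOne.symm {a a' : Eis × Eis → ℂ} (h : UnitOne a a') : UnitOne a' a :=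
  fun r y h1 h2 => h r y h1.symm h2.symm

lemma unitE_of_pm {s : ℂ} (hs : s = 1 ∨ s = -1) {a a' : Eis × Eis → ℂ} (h : UnitPM a a')
    (hpar : ∀ r, a (-r) = s * a r) : UnitE s 2 a a' := by
  intro g hsup F hF v
  refine unit_term hs hpar (fun y hy => ?_) hF v
  refine h (br g) y hsup (Or.inl ?_)
  have : rmulS (0, y) g = (y * (br g).1, y * (br g).2) := by simp [rmulS, br]
  rwa [← this]

/-- **The glue**: symmetrised laws and a pair for the weights `W / (ε vol)` give the equality of the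
Eisenstein series. -/
theorem glueW {N : Eis} (hN : N ≠ 0) {χ : GN N → ℂ} (hχ : ∀ g, ‖χ g‖ = 1) {s ε : ℂ} (hε : ε ≠ 0)
    {W W' : Eis → ℂ} {a a' : Eis × Eis → ℂ} (ha : Cof N χ a) (ha' : Cof N χ a')
    (hlaw : LawW N χ s W a a') (hlaw' : LawW N χ s W' a' a)
    (hu : UnitE s ε a a') (hu' : UnitE s ε a' a) {F F' : Vec → ℂ}
    (hp : PairW s (fun h => (ε * covol (toC N))⁻¹ * W h) (fun h => (ε * covol (toC N))⁻¹ * W' h) F F')
    {M : K695.Frm} (hM : det2 M ≠ 0) : EC a F M = EC a' (scl (det2 M) F') M := by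
  have hNC : toC N ≠ 0 := by rwa [Ne, toC_eq_zero]
  have hcv : (covol (toC N) : ℂ) ≠ 0 := by exact_mod_cast (covol_pos hNC).ne'
  have hT : TFD (fun _ u => F u) := tfd_const hp.tst
  have hT' : TFD (fun δ u => scl δ F' u) := tfd_scl hp.tst'
  have key := eq_of_ct hN hχ ha ha' hT hT' ?_ hM
  · exact key
  · intro g hg hsup X hX
    rw [ct_law hN ha hlaw hT (fun _ u => hp.tst.par u) hg hsup hX,
      ct_law hN ha' hlaw' hT' (fun δ u => scl_neg hp.tst' δ u) hg hsup.symm hX,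
      hu g hsup F hp.tst.par,
      hu' g hsup.symm (fun u => scl (det2 X) F' u) (fun u => scl_neg hp.tst' _ u)]
    have h1 := hp.m1 X hX
    have h2 := hp.m2 X hX
    rw [opW_smulW] at h1 h2
    have e1 : opW W (fun u => F u) X = ε * covol (toC N) * scl (det2 X) F' X.2 := by
      rw [← h1]
      field_simp
    have e2 : opW W' (fun u => scl (det2 X) F' u) X = ε * covol (toC N) * F X.2 := by
      rw [← h2]
      field_simp
    rw [e1, e2]
    ring

end Crest.Agent.R017.Glue681
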