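import Crest.Agent.R017.XnU_590

/-!
Row 17, section F / A (helper590): (R2), the second half `M' F' = F` and the pair theorem.
-/

set_option autoImplicit false

noncomputable section

open Complex MeasureTheory Set Filter Topology
open scoped FourierTransform ContDiff SchwartzMap ComplexConjugate ENNReal

namespace Crest.Agent.R017.Xn590

open Crest.Agent.R012 Crest.Agent.R012.Eis Crest.Agent.R012.Po581 Crest.Agent.R012.K695
open Crest.Agent.R017.Xi590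
open Crest.Agent.R012.Four813 (phat)
open Crest.Agent.R017.F1 (PL scl)

variable {n : ℕ} {s : ℂ} {ξ : Eis → ℂ} {κ c : ℂ} {V : ℝ} {h0 B B' : ℂ} {f : ℂ → ℂ}

lemma Ctx.momW (h : Ctx n s ξ κ c V h0 B B' f) :
    ξ 0 * ∫ t : ℂ, powW (2 * (n - 1)) n f t = 0 := by
  rcases h.D.mom with h1 | h1
  · rw [h1, zero_mul]
  · have h2 := Xn960.mom1_zero n h.n0 h.cs.cont h1.1
    rw [show 2 * n - 2 = 2 * (n - 1) by omega] at h2
    unfold powW
    rw [h2, mul_zero]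

lemma Ctx.momX (h : Ctx n s ξ κ c V h0 B B' f) :
    ξ 0 * ∫ t : ℂ, powW (2 * n) n f t = 0 := by
  rcases h.D.mom with h1 | h1
  · rw [h1, zero_mul]
  · have h2 := Xn960.tate_zero' n h.n2 h.cs h1.2
    unfold powW
    rw [h2, mul_zero]

lemma ss_one (h : Ctx n s ξ κ c V h0 B B' f) : s * s = 1 := by
  rcases h.C.s1 with h3 | h3 <;> rw [h3] <;> norm_num

/-- the dual theta value -/
lemma dual_theta (h : Ctx n s ξ κ c V h0 B B' f) {x : ℂ} (hx : x ≠ 0) :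
    ∑' m : Eis, (if m = 0 then 0 else conj (ξ m) * hh n f (-(toC m ^ n / (x * κ ^ n)))) =
      6 * c⁻¹ * ((‖x‖ ^ 2 : ℝ) : ℂ) * (s * fPn n ξ f x) := by
  have hx' : -x ≠ 0 := neg_ne_zero.mpr hx
  set t := nrt n (-x) with ht
  have ht0 : t ≠ 0 := nrt_ne_zero h.n0 hx'
  have htn : t ^ n = -x := nrt_pow h.n0 _
  have htp : 0 < ‖t‖ := norm_pos_iff.mpr ht0
  have e1 : ∑' m : Eis, (if m = 0 then 0 else
      conj (ξ m) * hh n f (-(toC m ^ n / (x * κ ^ n)))) =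
      Th (fun k => conj (ξ k)) (fCS h.W) ((κ * t)⁻¹) := by
    unfold Th
    refine tsum_congr fun m => ?_
    split_ifs with hm
    · subst hm
      have : fCS h.W ((κ * t)⁻¹ * toC 0) = ∫ t : ℂ, powW (2 * (n - 1)) n f t := by
        rw [map_zero, mul_zero, fCS_apply]
        unfold fC
        congr 1
        ext m
        rw [zero_mul, neg_zero, eC_zero', mul_one]
        rfl
      rw [this]
      rcases mul_eq_zero.mp h.momW with h3 | h3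
      · simp only [h3, map_zero, zero_mul]
      · simp only [h3, mul_zero]
    · simp only
      congr 1
      rw [fCS_apply]
      show _ = fC (powW (2 * (n - 1)) n f) _
      rw [← hh_pow h.n0]
      congr 1
      rw [mul_pow, inv_pow, mul_pow, htn]
      have := h.X.κ0
      field_simp
  rw [e1]
  have h1 := h.X.th h.W ht0
  rw [Th_W h, htn, fPn_neg h] at h1
  have hc := h.X.c0
  have h2 : Th (fun k => conj (ξ k)) (fCS h.W) ((κ * t)⁻¹) =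
      c⁻¹ * ((‖t‖ ^ 2 : ℝ) : ℂ) * (c * ((((‖t‖ ^ 2)⁻¹ : ℝ) : ℂ) *
        Th (fun k => conj (ξ k)) (fCS h.W) ((κ * t)⁻¹))) := by
    have e3 : ((‖t‖ ^ 2 : ℝ) : ℂ) * (((‖t‖ ^ 2)⁻¹ : ℝ) : ℂ) = 1 := by
      rw [← Complex.ofReal_mul, mul_inv_cancel₀ (by positivity), Complex.ofReal_one]
    calc Th (fun k => conj (ξ k)) (fCS h.W) ((κ * t)⁻¹)
        = (c⁻¹ * c) * 1 * Th (fun k => conj (ξ k)) (fCS h.W) ((κ * t)⁻¹) := by
          rw [inv_mul_cancel₀ hc]; ring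
      _ = _ := by rw [← e3]; ring
  rw [h2, ← h1]
  have e4 : ((‖t‖ ^ 2 : ℝ) : ℂ) * ((‖t‖ ^ (2 * (n - 1)) : ℝ) : ℂ) = ((‖x‖ ^ 2 : ℝ) : ℂ) := by
    rw [← Complex.ofReal_mul, ← pow_add]
    congr 1
    have : 2 + 2 * (n - 1) = n * 2 := by have := h.n2; omega
    rw [this, pow_mul, norm_nrt_pow h.n0, norm_neg]
  calc _ = 6 * c⁻¹ * (((‖t‖ ^ 2 : ℝ) : ℂ) * ((‖t‖ ^ (2 * (n - 1)) : ℝ) : ℂ)) *
        (s * fPn n ξ f x) := by ring
    _ = _ := by rw [e4]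

/-- **(R2)** -/
theorem R2 (hdiv : DivSum) (h : Ctx n s ξ κ c V h0 B B' f) (hK : K2a n f) {x : ℂ} (hx : x ≠ 0) :
    bet V B' * ∑' j : Eis, (if j = 0 then 0 else conj (ξ j) * ((PL j : ℂ) *
      UU n ξ V h0 B f (h0 * toC j ^ n / x))) = ((‖x‖ ^ 2 : ℝ) : ℂ) * fPn n ξ f x := by
  obtain ⟨C, hC0, hC⟩ := hh_dec h
  have hxp : 0 < ‖x‖ := norm_pos_iff.mpr hx
  have hκp : 0 < ‖κ‖ := norm_pos_iff.mpr h.X.κ0
  set H : Eis → ℂ := fun m => conj (ξ m) * hh n f (-(toC m ^ n / (x * κ ^ n))) with hH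
  set L : ℝ := ‖x * κ ^ n‖ with hL
  have hLp : 0 < L := norm_pos_iff.mpr (mul_ne_zero hx (pow_ne_zero _ h.X.κ0))
  have hHb : ∀ m : Eis, m ≠ 0 → ‖H m‖ ≤ C * L ^ 2 * ((nm m : ℝ) ^ 2)⁻¹ := by
    intro m hm
    have hnm : (1 : ℝ) ≤ nm m := by exact_mod_cast nm_pos.mpr hm
    simp only [hH]
    rw [norm_mul, Complex.norm_conj]
    set w : ℂ := -(toC m ^ n / (x * κ ^ n)) with hw
    have hwn : ‖w‖ ^ 2 = (nm m : ℝ) ^ n / L ^ 2 := by
      rw [hw, norm_neg, norm_div, div_pow, norm_toC_pow_sq]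
    have h1 := hC w
    have h2 : (nm m : ℝ) ^ 2 / L ^ 2 ≤ (1 + ‖w‖) ^ 3 := by
      have h3 : (nm m : ℝ) ^ 2 ≤ (nm m : ℝ) ^ n := pow_le_pow_right₀ hnm h.n2
      calc (nm m : ℝ) ^ 2 / L ^ 2 ≤ (nm m : ℝ) ^ n / L ^ 2 := by gcongr
        _ = ‖w‖ ^ 2 := hwn.symm
        _ ≤ (1 + ‖w‖) ^ 2 := by
            gcongr
            linarith
        _ ≤ (1 + ‖w‖) ^ 3 := pow_le_pow_right₀ (by linarith [norm_nonneg w]) (by norm_num)
    have h4 : ‖hh n f w‖ * ((nm m : ℝ) ^ 2 / L ^ 2) ≤ C :=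
      (mul_le_mul_of_nonneg_left h2 (norm_nonneg _)).trans h1
    have h5 : ‖hh n f w‖ ≤ C * L ^ 2 * ((nm m : ℝ) ^ 2)⁻¹ := by
      rw [← div_eq_mul_inv, le_div_iff₀ (by positivity)]
      rw [mul_div_assoc', div_le_iff₀ (by positivity)] at h4
      exact h4
    calc ‖ξ m‖ * ‖hh n f w‖ ≤ 1 * (C * L ^ 2 * ((nm m : ℝ) ^ 2)⁻¹) := by
          gcongr
          exact h.X.le1 m
      _ = _ := one_mul _
  have hd := hdiv H (C * L ^ 2) hHb
  have hγ := gam_ne h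
  have e1 : ∑' j : Eis, (if j = 0 then 0 else conj (ξ j) * ((PL j : ℂ) *
      UU n ξ V h0 B f (h0 * toC j ^ n / x))) = gam n κ c V B *
      ∑' j : Eis, (if j = 0 then (0:ℂ) else (PL j : ℂ) * ∑' e : Eis,
        (if e = 0 then (0:ℂ) else ((nm e : ℂ))⁻¹ * H (j * e))) := by
    rw [← tsum_mul_left]
    refine tsum_congr fun j => ?_
    split_ifs with hj
    · rw [mul_zero]
    · have hjn := hm_ne h hj
      rw [UU_eq h hK (div_ne_zero hjn hx)]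
      unfold SS
      have e2 : ∀ k : Eis, conj (ξ j) * (wk ξ k *
          hh n f (-(h0 * toC j ^ n / x / ak n κ h0 k))) =
          (if k = 0 then (0:ℂ) else ((nm k : ℂ))⁻¹ * H (j * k)) := by
        intro k
        unfold wk
        split_ifs with hk
        · ring
        · have hkc := Po581.toC_ne_zero hk
          have e3 : h0 * toC j ^ n / x / ak n κ h0 k = toC (j * k) ^ n / (x * κ ^ n) := by
            unfold ak
            rw [map_mul, mul_pow]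
            have h6 := h.X.κ0
            have h7 := h.C.h0
            field_simp
          simp only [hH]
          rw [e3, h.X.mul, map_mul (starRingEnd ℂ)]
          push_cast
          ring
      have e4 : conj (ξ j) * ∑' k : Eis, wk ξ k *
          hh n f (-(h0 * toC j ^ n / x / ak n κ h0 k)) =
          ∑' k : Eis, (if k = 0 then (0:ℂ) else ((nm k : ℂ))⁻¹ * H (j * k)) := by
        rw [← tsum_mul_left]
        exact tsum_congr e2
      rw [← e4]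
      ring
  rw [e1, hd]
  simp only [hH]
  rw [dual_theta h hx]
  -- constants
  have hV : (V : ℂ) ≠ 0 := by exact_mod_cast h.C.V0.ne'
  have hc := h.X.c0
  have hcst := h.C.cst
  have hss := ss_one h
  unfold gam bet
  have e5 : B' * ((1 / (6 * V) : ℝ) : ℂ) * (B * ((1 / (6 * V) : ℝ) : ℂ) * c *
      ((‖κ‖ ^ 2 : ℝ) : ℂ) * ((n : ℂ) ^ 2 / 4) * (6 * (6 * c⁻¹ * ((‖x‖ ^ 2 : ℝ) : ℂ) *
        (s * fPn n ξ f x)))) =
      (B * B' * ((‖κ‖ ^ 2 : ℝ) : ℂ) * ((n : ℂ) ^ 2 / 4)) * (c * c⁻¹) *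
        (36 * ((1 / (6 * V) : ℝ) : ℂ) ^ 2) * (((‖x‖ ^ 2 : ℝ) : ℂ) * (s * fPn n ξ f x)) := by ring
  rw [e5, hcst, mul_inv_cancel₀ hc]
  have e6 : 36 * ((1 / (6 * V) : ℝ) : ℂ) ^ 2 = ((V : ℂ) ^ 2)⁻¹ := by
    push_cast
    field_simp
    norm_num
  rw [e6]
  calc s * (V : ℂ) ^ 2 * 1 * ((V : ℂ) ^ 2)⁻¹ * (((‖x‖ ^ 2 : ℝ) : ℂ) * (s * fPn n ξ f x))
      = (s * s) * ((V : ℂ) ^ 2 * ((V : ℂ) ^ 2)⁻¹) * (((‖x‖ ^ 2 : ℝ) : ℂ) * fPn n ξ f x) := by ring
    _ = _ := by rw [hss, mul_inv_cancel₀ (pow_ne_zero 2 hV)]; ring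

/-- **Second half of the pair theorem**: `M' F' = F`. -/
theorem second_half (hdiv : DivSum) (h : Ctx n s ξ κ c V h0 B B' f) (hK : K2a n f)
    (k : 𝓢(ℂ, ℂ)) (M : K695.Frm) (hM : det2 M ≠ 0) :
    MOpn n (fun j => conj (ξ j)) V h0 B' (scl (det2 M) (FOn n ξ V h0 B f k)) M =
      FPn n ξ f k M.2 := by
  unfold MOpn
  simp_rw [line_scl h h.momX k hM]
  unfold FPn
  by_cases hz : M.2.1 = 0
  · simp only [hz, if_true, mul_zero, ite_self, tsum_zero]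
    rw [fPn_zero h, zero_mul]
  · simp only [hz, if_false]
    have h1 := R2 hdiv h hK hz
    have hzp : 0 < ‖M.2.1‖ := norm_pos_iff.mpr hz
    have e1 : ∑' j : Eis, (if j = 0 then (0:ℂ) else conj (ξ j) * ((PL j : ℂ) *
        ((((‖M.2.1‖ ^ 2)⁻¹ : ℝ) : ℂ) * (k (M.2.2 / M.2.1) *
          UU n ξ V h0 B f (h0 * toC j ^ n / M.2.1))))) =
        ((((‖M.2.1‖ ^ 2)⁻¹ : ℝ) : ℂ) * k (M.2.2 / M.2.1)) *
        ∑' j : Eis, (if j = 0 then 0 else conj (ξ j) * ((PL j : ℂ) *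
          UU n ξ V h0 B f (h0 * toC j ^ n / M.2.1))) := by
      rw [← tsum_mul_left]
      refine tsum_congr fun j => ?_
      split_ifs
      · rw [mul_zero]
      · ring
    rw [e1]
    have e2 : (((‖M.2.1‖ ^ 2)⁻¹ : ℝ) : ℂ) * ((‖M.2.1‖ ^ 2 : ℝ) : ℂ) = 1 := by
      rw [← Complex.ofReal_mul, inv_mul_cancel₀ (by positivity), Complex.ofReal_one]
    calc B' * ((1 / (6 * V) : ℝ) : ℂ) * (((((‖M.2.1‖ ^ 2)⁻¹ : ℝ) : ℂ) * k (M.2.2 / M.2.1)) *
          ∑' j : Eis, (if j = 0 then 0 else conj (ξ j) * ((PL j : ℂ) *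
            UU n ξ V h0 B f (h0 * toC j ^ n / M.2.1))))
        = (((‖M.2.1‖ ^ 2)⁻¹ : ℝ) : ℂ) * k (M.2.2 / M.2.1) * (bet V B' *
          ∑' j : Eis, (if j = 0 then 0 else conj (ξ j) * ((PL j : ℂ) *
            UU n ξ V h0 B f (h0 * toC j ^ n / M.2.1)))) := by unfold bet; ring
      _ = ((((‖M.2.1‖ ^ 2)⁻¹ : ℝ) : ℂ) * ((‖M.2.1‖ ^ 2 : ℝ) : ℂ)) *
          (fPn n ξ f M.2.1 * k (M.2.2 / M.2.1)) := by rw [h1]; ring
      _ = _ := by rw [e2, one_mul]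

/-- **The pair theorem** from the divisor identity and K2a. -/
theorem pairThmN_of (hdiv : DivSum)
    (hK : ∀ (n : ℕ) (f : ℂ → ℂ), 2 ≤ n → CS f → K2a n f) : PairThmN := by
  intro n s ξ κ c V h0 B B' hX hC f k hf
  have h : Ctx n s ξ κ c V h0 B B' f := ⟨hX, hC, hf⟩
  exact ⟨FPn_tst h h.momW k, FOn_tst h h.momX k, fun M hM => first_half hdiv h k M hM,
    fun M hM => second_half hdiv h (hK n f h.n2 h.cs) k M hM⟩

theorem decThmN : DecThmN := by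
  intro n s ξ κ c V h0 B B' hX hC f hf A
  have h : Ctx n s ξ κ c V h0 B B' f := ⟨hX, hC, hf⟩
  obtain ⟨C, _, hC⟩ := fOn_dec h A
  exact ⟨C, hC⟩

theorem coefThmN : CoefThmN := by
  intro n s ξ κ c V h0 B B' hX hC f k hf c' ν hc' hν
  have h : Ctx n s ξ κ c V h0 B B' f := ⟨hX, hC, hf⟩
  have h1 := FOn_coef h h.momX k c' (ν / c')
  rw [mul_div_cancel₀ _ hc', fO1_ne (div_ne_zero hν hc')] at h1
  rw [← h1]
  congr 1
  ext x
  congr 2
  ring

end Crest.Agent.R017.Xn590
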