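import Crest.Agent.R017.Coef2_92
import Crest.Agent.R017.XnZ_590
import Crest.Agent.R017.XnAll_960
import Crest.Agent.R017.Glue2_681
import Crest.Agent.R017.XiI3_590

/-!
# Row 17, section A, end of A, part 1 (helper92)

Coefficient extraction for a finite family on the right side:
`EC a (FPn f₁ k) = ∑_k EC (a' k) (FOn (f' k) k)` on standard frames implies
`LS f₁ a = ∑_k RS (f' k) (a' k)`.
-/

set_option autoImplicit false

noncomputable section

open MeasureTheory Complex Set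
open scoped ComplexConjugate SchwartzMap

namespace Crest.Agent.R017.EndA92

open Crest.Agent.R012 Crest.Agent.R012.Eis Crest.Agent.R012.K695
open Crest.Agent.R012.Parseval499 Crest.Agent.R012.FourCoef499
open Crest.Agent.R012.Four813 (phat)
open Crest.Agent.R017.Xn590 Crest.Agent.R017.Coef92 Crest.Agent.R017.Orth681
open Crest.Agent.R017.Glue681

variable {n : ℕ} {s : ℂ} {ξ : Eis → ℂ} {V : ℝ} {h0 B B' : ℂ}

lemma continuous_stF : Continuous stF := by
  unfold stF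
  fun_prop

lemma continuous_EC_stF {F : Vec → ℂ} (hF : TstN s F) {a : Eis × Eis → ℂ}
    (hb : ∃ K : ℝ, ∀ r, ‖a r‖ ≤ K) : Continuous (fun x : ℂ => EC a F (stF x)) := by
  rw [continuous_iff_continuousAt]
  intro x
  have h1 := continuousAt_ED hb (tfd_const hF) (M := stF x) (by rw [det2_stF]; exact one_ne_zero)
  have h2 : ContinuousAt (fun y : ℂ => ED a (fun _ u => F u) (stF y)) x :=
    ContinuousAt.comp (f := stF) h1 continuous_stF.continuousAt
  exact h2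

lemma integrableOn_EC {F : Vec → ℂ} (hF : TstN s F) {a : Eis × Eis → ℂ}
    (hb : ∃ K : ℝ, ∀ r, ‖a r‖ ≤ K) (A ω : ℂ) :
    IntegrableOn (fun x : ℂ => EC a F (stF x) * eC (-(ω * x))) (par A) := by
  have hc : Continuous (fun x : ℂ => EC a F (stF x) * eC (-(ω * x))) :=
    (continuous_EC_stF hF hb).mul (Parseval499.continuous_eC.comp (by fun_prop))
  refine (hc.continuousOn.integrableOn_compact (isCompact_closedBall (0 : ℂ) (2 * ‖A‖))).mono_set ?_
  intro z hz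
  rw [mem_closedBall_zero_iff]
  exact norm_le_of_mem_par hz

/-- **Coefficients of a finite family.** -/
theorem coef_fam {κ c₁ : ℂ} (hξ : XiP ξ κ c₁) (hC : XnC n s κ V h0 B B') {K : Type*} [Fintype K]
    {a : Eis × Eis → ℂ} {a' : K → Eis × Eis → ℂ} {f₁ : ℂ → ℂ} {f' : K → ℂ → ℂ}
    (hf₁ : DatN n s ξ f₁) (hf' : ∀ k, DatN n s ξ (f' k))
    (hb : ∃ C : ℝ, ∀ r, ‖a r‖ ≤ C) (hb' : ∀ k, ∃ C : ℝ, ∀ r, ‖a' k r‖ ≤ C)
    {N ν : Eis} (hN : N ≠ 0) (hper : ∀ c, c ≠ 0 → PMod (N * c) (fun d => a (c, d)))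
    (hper' : ∀ k c, c ≠ 0 → PMod (N * c) (fun d => a' k (c, d)))
    (hFE : ∀ (k0 : 𝓢(ℂ, ℂ)) (x : ℂ), EC a (FPn n ξ f₁ k0) (stF x) =
      ∑ k, EC (a' k) (FOn n ξ V h0 B (f' k) k0) (stF x)) (hν : ν ≠ 0) :
    LS n ξ f₁ a N ν = ∑ k, RS n ξ V h0 B (f' k) (a' k) N ν := by
  obtain ⟨k0, hk⟩ := exists_phat_ne (frq (toC N) ν)
  obtain ⟨C, hC'⟩ := hb
  have hP := Xn960.pairThmN n s ξ κ c₁ V h0 B B' hξ hC f₁ k0 hf₁
  have hP' := fun k => Xn960.pairThmN n s ξ κ c₁ V h0 B B' hξ hC (f' k) k0 (hf' k)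
  have h1 := coef_FP (k := k0) (a := a) hP.tst hC' hN hper hν
  have h2 : ∀ k, ∫ x in par (toC N), EC (a' k) (FOn n ξ V h0 B (f' k) k0) (stF x) *
      eC (-(frq (toC N) ν * x)) = RS n ξ V h0 B (f' k) (a' k) N ν * phat k0 (frq (toC N) ν) := by
    intro k
    obtain ⟨C2, hC2⟩ := hb' k
    exact coef_FO (k := k0) (a := a' k) coefThmN hξ hC (hf' k) (hP' k).tst' hC2 hN (hper' k) hν
  have h3 : ∫ x in par (toC N), EC a (FPn n ξ f₁ k0) (stF x) * eC (-(frq (toC N) ν * x)) =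
      ∑ k, ∫ x in par (toC N), EC (a' k) (FOn n ξ V h0 B (f' k) k0) (stF x) *
        eC (-(frq (toC N) ν * x)) := by
    rw [← integral_finsetSum _ fun k _ => integrableOn_EC (hP' k).tst' (hb' k) _ _]
    refine integral_congr_ae (Filter.Eventually.of_forall fun x => ?_)
    simp only
    rw [hFE, Finset.sum_mul]
  rw [h1, Finset.sum_congr rfl fun k _ => h2 k, ← Finset.sum_mul] at h3
  exact mul_right_cancel₀ hk h3

end Crest.Agent.R017.EndA92
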