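import Crest.Agent.R017.OrthF_681

/-!
# Row 17, section A, part G (helper681): Fourier coefficients of `E_{a,H}` along a row (O2)

* `FT N g ν D M = ∫_{x mod N} D (g⁻¹ • (η + x v, v)) e(-ν x / (√-3 N)) dx`, `CT = FT 0`
* `ft_formula`, `ct_formula`
-/

set_option autoImplicit false

noncomputable section

open MeasureTheory Complex Set Filter
open scoped ENNReal ComplexConjugate Topology

namespace Crest.Agent.R017.Orth681

open Crest.Agent.R012 Crest.Agent.R012.Eis Crest.Agent.R012.K695 Crest.Agent.R012.AU681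
  Crest.Agent.R012.Parseval499

/-! ### Characters on the fundamental domain -/

lemma volume_box : (volume : Measure (Fin 2 → ℝ)) box = 1 := by
  have : box = Set.pi univ (fun i => Ioc ((0 : Fin 2 → ℝ) i) ((0 : Fin 2 → ℝ) i + 1)) := by
    ext x
    simp only [box, Set.mem_ofPred_eq, Set.mem_pi, Set.mem_univ, forall_true_left]
  rw [this, Real.volume_pi_Ioc]
  simp

lemma integral_par_const {a : ℂ} (ha : a ≠ 0) (c : ℂ) : ∫ _ in par a, c = (covol a : ℂ) * c := by
  rw [integral_par ha, integral_const, Measure.real, Measure.restrict_apply_univ, volume_box]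
  simp

/-- orthogonality of characters. -/
lemma integral_par_eC {a : ℂ} (ha : a ≠ 0) (ν : Eis) :
    ∫ x in par a, eC (-(frq a ν * x)) = if ν = 0 then (covol a : ℂ) else 0 := by
  classical
  have hc : (covol a : ℂ) ≠ 0 := by exact_mod_cast (covol_pos ha).ne'
  have h0 : fco a (fun _ => 1) 0 = 1 := by
    unfold fco
    have : ∀ z : ℂ, (1 : ℂ) * eC (-(frq a 0 * z)) = 1 := by
      intro z
      simp [frq, eC_zero]
    simp_rw [this]
    rw [integral_par_const ha, mul_one, inv_mul_cancel₀ hc]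
  have hfin : IsFiniteMeasure ((volume : Measure ℂ).restrict (par a)) :=
    ⟨by rw [Measure.restrict_apply_univ]; exact (vol_par_ne_top a).lt_top⟩
  have hm : MemLp (fun _ : ℂ => (1 : ℂ)) 2 (volume.restrict (par a)) := memLp_const 1
  have hs := hasSum_sq_fco ha hm
  have e1 : (covol a)⁻¹ * ∫ z in par a, ‖(fun _ : ℂ => (1 : ℂ)) z‖ ^ 2 = 1 := by
    simp only [norm_one, one_pow]
    rw [integral_par ha, integral_const, Measure.real, Measure.restrict_apply_univ, volume_box]
    simp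
    exact inv_mul_cancel₀ (covol_pos ha).ne'
  rw [e1] at hs
  split_ifs with hν
  · have := h0
    unfold fco at this
    subst hν
    simp only [one_mul] at this
    field_simp at this
    exact this
  · have h1 : fco a (fun _ => 1) ν = 0 := by
      by_contra hne
      have h2 := hs.summable.sum_le_tsum {0, ν} (fun _ _ => by positivity)
      rw [hs.tsum_eq, Finset.sum_pair (Ne.symm hν), h0] at h2
      have : 0 < ‖fco a (fun _ => 1) ν‖ ^ 2 := by positivity
      norm_num at h2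
      exact hne h2
    unfold fco at h1
    simp only [one_mul] at h1
    exact (mul_eq_zero.mp h1).resolve_left (inv_ne_zero hc)

/-! ### The Fourier integral -/

/-- `ν`-th Fourier integral of `D` along the bottom row of `g`. -/
def FT (N : Eis) (g : SLE) (ν : Eis) (D : K695.Frm → ℂ) (M : K695.Frm) : ℂ :=
  ∫ x in par (toC N), D (g⁻¹ • ((M.1 + x • M.2, M.2) : K695.Frm)) * eC (-(frq (toC N) ν * x))

lemma FT_zero (N : Eis) (g : SLE) (D : K695.Frm → ℂ) (M : K695.Frm) : FT N g 0 D M = CT N g D M := by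
  unfold FT CT
  refine integral_congr_ae (Filter.Eventually.of_forall fun x => ?_)
  simp [frq, eC_zero]

/-- row coordinates with respect to the matrix `g`. -/
def rEquiv (g : SLE) : Eis × Eis ≃ Eis × Eis where
  toFun r := rmulS r g
  invFun r := rmulS r g⁻¹
  left_inv r := by simp only [← rmulS_mul, mul_inv_cancel, rmulS_one]
  right_inv r := by simp only [← rmulS_mul, inv_mul_cancel, rmulS_one]

lemma ED_inv_smul (a : Eis × Eis → ℂ) (H : ℂ → Vec → ℂ) (g : SLE) (M : K695.Frm) :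
    ED a H (g⁻¹ • M) = ∑' q : Eis × Eis, a (rmulS q g) * H (det2 M) (rowv q M) := by
  unfold ED EC
  rw [← (rEquiv g).tsum_eq, det2_smul]
  refine tsum_congr fun q => ?_
  change a (rmulS q g) * H (det2 M) (rowv (rmulS q g) (g⁻¹ • M)) = _
  rw [rowv_smul, ← rmulS_mul, mul_inv_cancel, rmulS_one]

lemma rowv_line (q : Eis × Eis) (η v : Vec) (x : ℂ) :
    rowv q ((η + x • v, v) : K695.Frm) = toC q.1 • η + (toC q.1 * x + toC q.2) • v := by
  unfold rowv
  simp only [smul_add, add_smul, mul_smul]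
  abel

/-- coordinates of the first vector. -/
lemma eq_pz {M : K695.Frm} (hM : M.2 ≠ 0) : M.1 = pz M.2 (zc M, -det2 M) := by
  have hn : (n2 M.2 : ℂ) ≠ 0 := by
    rw [Ne, Complex.ofReal_eq_zero, n2_eq_zero]; exact hM
  unfold pz mact zc det2
  ext1
  · simp only [smul_eq_mul]
    field_simp
    rw [n2_cast]
    ring
  · simp only [smul_eq_mul]
    field_simp
    rw [n2_cast]
    ring

lemma line_pz {M : K695.Frm} (hM : M.2 ≠ 0) (h : ℂ) (z : ℂ) :
    h • M.1 + z • M.2 = pz M.2 (z + h * zc M, -(h * det2 M)) := by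
  conv_lhs => rw [eq_pz hM]
  unfold pz mact
  ext1 <;> simp <;> ring

lemma lint_hline {M : K695.Frm} (hM : det2 M ≠ 0) {h : ℂ} (hh : h ≠ 0) :
    ∫⁻ z : ℂ, GE (h • M.1 + z • M.2) ≤ ENNReal.ofReal (n2 M.2 / ‖h * det2 M‖ ^ 4) * c0 := by
  have hv : M.2 ≠ 0 := snd_ne_zero_of_det hM
  simp_rw [line_pz hv]
  rw [lintegral_add_right_eq_self (fun z => GE (pz M.2 (z, -(h * det2 M)))) (h * zc M)]
  have := lint_line hv (neg_ne_zero.mpr (mul_ne_zero hh hM))
  rwa [norm_neg] at this

/-- a unit multiple of a coprime row is the only coprime multiple. -/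
lemma unit_of_cop {a : Eis × Eis → ℂ} (hc : ∀ r, a r ≠ 0 → IsCoprime r.1 r.2) (g : SLE) {y : Eis}
    (h : a (rmulS (0, y) g) ≠ 0) : IsUnit y := by
  have h1 := cop_rmulS (r := rmulS (0, y) g) (hc _ h) g⁻¹
  rw [← rmulS_mul, mul_inv_cancel, rmulS_one] at h1
  exact isCoprime_zero_left.mp h1

open Classical in
/-- Total bound of the rows. -/
lemma rows_bound {N : Eis} (hN : N ≠ 0) {M : K695.Frm} (hM : det2 M ≠ 0) :
    ∑' q : Eis × Eis, (if q.1 = 0 then (if IsUnit q.2 then volume (par (toC N)) else 0) else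
      ∫⁻ x in par (toC N), GE (toC q.1 • M.1 + (toC q.1 * x + toC q.2) • M.2)) ≤
      nun * volume (par (toC N)) + nm N * c0 * hs2 * ENNReal.ofReal (n2 M.2 / ‖det2 M‖ ^ 4) := by
  rw [ENNReal.tsum_prod']
  have hd : ‖det2 M‖ ≠ 0 := norm_ne_zero_iff.mpr hM
  have hterm : ∀ h : Eis, ∑' y : Eis, (if h = 0 then (if IsUnit y then volume (par (toC N)) else 0) else
      ∫⁻ x in par (toC N), GE (toC h • M.1 + (toC h * x + toC y) • M.2)) ≤
      (if h = 0 then nun * volume (par (toC N)) else 0) +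
      (if h = 0 then 0 else ENNReal.ofReal (((nm h : ℝ) ^ 2)⁻¹)) *
        (nm N * c0 * ENNReal.ofReal (n2 M.2 / ‖det2 M‖ ^ 4)) := by
    intro h
    by_cases h0 : h = 0
    · simp only [if_pos h0, zero_mul, add_zero]
      have e : ∀ y : Eis, (if IsUnit y then volume (par (toC N)) else 0) =
          (if IsUnit y then (1 : ℝ≥0∞) else 0) * volume (par (toC N)) := by
        intro y
        split_ifs <;> simp
      simp_rw [e]
      rw [ENNReal.tsum_mul_right]
      gcongr
      exact tsum_unit_le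
    · simp only [if_neg h0, zero_add]
      have hhC : toC h ≠ 0 := by rwa [Ne, toC_eq_zero]
      rw [tile_lint hN h0 (fun z => GE (toC h • M.1 + z • M.2))]
      have h1 := lint_hline hM hhC
      calc (nm N : ℝ≥0∞) * ∫⁻ z, GE (toC h • M.1 + z • M.2)
          ≤ nm N * (ENNReal.ofReal (n2 M.2 / ‖toC h * det2 M‖ ^ 4) * c0) := by gcongr
        _ = _ := by
          have e : n2 M.2 / ‖toC h * det2 M‖ ^ 4 =
              ((nm h : ℝ) ^ 2)⁻¹ * (n2 M.2 / ‖det2 M‖ ^ 4) := by
            rw [norm_mul, mul_pow, ← norm_toC_sq]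
            have : ‖toC h‖ ≠ 0 := norm_ne_zero_iff.mpr hhC
            field_simp
          rw [e, ENNReal.ofReal_mul (by positivity)]
          ring
  refine (ENNReal.tsum_le_tsum hterm).trans ?_
  rw [ENNReal.tsum_add, ENNReal.tsum_mul_right]
  have e1 : ∑' h : Eis, (if h = 0 then nun * volume (par (toC N)) else 0) =
      nun * volume (par (toC N)) := tsum_ite_eq 0 _
  have e2 : (∑' h : Eis, (if h = 0 then 0 else ENNReal.ofReal (((nm h : ℝ) ^ 2)⁻¹))) *
      (nm N * c0 * ENNReal.ofReal (n2 M.2 / ‖det2 M‖ ^ 4)) =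
      nm N * c0 * hs2 * ENNReal.ofReal (n2 M.2 / ‖det2 M‖ ^ 4) := by
    change hs2 * _ = _
    ring
  rw [e1, e2]

/-- **Fourier coefficients (O2)**, with summability of the big-cell series. -/
theorem ft_formula' {N : Eis} (hN : N ≠ 0) {a : Eis × Eis → ℂ} (hb : ∃ K : ℝ, ∀ r, ‖a r‖ ≤ K)
    (hc : ∀ r, a r ≠ 0 → IsCoprime r.1 r.2) {H : ℂ → Vec → ℂ} (hH : TFD H) (g : SLE)
    (hper : ∀ h, PMod (h * N) (fun y => a (rmulS (h, y) g))) (ν : Eis)
    {M : K695.Frm} (hM : det2 M ≠ 0) :
    Summable (fun h : Eis => if h = 0 then 0 else ((nm h : ℂ))⁻¹ *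
      (sumMod (h * N) (fun y => a (rmulS (h, y) g) * eC (frq (toC (h * N)) ν * toC y)) *
        ∫ z : ℂ, H (det2 M) (toC h • M.1 + z • M.2) * eC (-(frq (toC (h * N)) ν * z)))) ∧
    FT N g ν (ED a H) M =
      (if ν = 0 then (covol (toC N) : ℂ) *
        ∑' y : Eis, a (rmulS (0, y) g) * H (det2 M) (toC y • M.2) else 0) +
      ∑' h : Eis, if h = 0 then 0 else ((nm h : ℂ))⁻¹ *
        (sumMod (h * N) (fun y => a (rmulS (h, y) g) * eC (frq (toC (h * N)) ν * toC y)) *
          ∫ z : ℂ, H (det2 M) (toC h • M.1 + z • M.2) * eC (-(frq (toC (h * N)) ν * z))) := by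
  classical
  have haN : toC N ≠ 0 := by rwa [Ne, toC_eq_zero]
  have hs3 := toC_s3_ne
  obtain ⟨K, hK⟩ := hb
  have hK0 : 0 ≤ K := (norm_nonneg _).trans (hK 0)
  set δ := det2 M with hδ
  -- the annulus
  have hδ0 : 0 < ‖δ‖ := norm_pos_iff.mpr hM
  set D : ℝ := ‖δ‖ + ‖δ‖⁻¹ with hD
  have hDm : δ ∈ An D := by
    constructor
    · have h1 : ‖δ‖⁻¹ * ‖δ‖ = 1 := inv_mul_cancel₀ hδ0.ne'
      rw [hD]
      nlinarith
    · rw [hD]
      have : 0 < ‖δ‖⁻¹ := by positivity
      linarith
  obtain ⟨C, hC⟩ := hH.dec D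
  have hCb : ∀ u, ‖H δ u‖ₑ ≤ ENNReal.ofReal |C| * GE u := by
    intro u
    unfold GE
    rw [← ENNReal.ofReal_mul (abs_nonneg C), ← ofReal_norm]
    apply ENNReal.ofReal_le_ofReal
    refine (hC δ hDm u).trans ?_
    exact mul_le_mul_of_nonneg_right (le_abs_self C) (GG_nonneg u)
  have hHc : Continuous (H δ) := by
    rw [← continuousOn_univ]
    have h1 : ContinuousOn (fun u : Vec => ((δ, u) : ℂ × Vec)) univ := by fun_prop
    exact hH.cont.comp h1 (fun _ _ => hM)
  -- terms
  let f : Eis × Eis → ℂ → ℂ := fun q x => a (rmulS q g) *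
    H δ (toC q.1 • M.1 + (toC q.1 * x + toC q.2) • M.2) * eC (-(frq (toC N) ν * x))
  have hfc : ∀ q, Continuous (f q) := by
    intro q
    refine (continuous_const.mul (hHc.comp ?_)).mul (continuous_eC.comp ?_)
    · fun_prop
    · fun_prop
  have hfE : ∀ x : ℂ, ED a H (g⁻¹ • ((M.1 + x • M.2, M.2) : K695.Frm)) * eC (-(frq (toC N) ν * x)) =
      ∑' q : Eis × Eis, f q x := by
    intro x
    rw [ED_inv_smul, ← tsum_mul_right]
    refine tsum_congr fun q => ?_
    have hd : det2 ((M.1 + x • M.2, M.2) : K695.Frm) = δ := by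
      rw [hδ]
      unfold det2
      simp
      ring
    rw [hd, rowv_line]
  have hfb : ∀ q : Eis × Eis, ∫⁻ x in par (toC N), ‖f q x‖ₑ ≤
      (ENNReal.ofReal K * ENNReal.ofReal |C|) *
      (if q.1 = 0 then (if IsUnit q.2 then volume (par (toC N)) else 0) else
      ∫⁻ x in par (toC N), GE (toC q.1 • M.1 + (toC q.1 * x + toC q.2) • M.2)) := by
    intro q
    have hKq : ‖a (rmulS q g)‖ₑ ≤ ENNReal.ofReal K := by
      rw [← ofReal_norm]; exact ENNReal.ofReal_le_ofReal (hK _)
    have hpt : ∀ x, ‖f q x‖ₑ ≤ (ENNReal.ofReal K * ENNReal.ofReal |C|) *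
        GE (toC q.1 • M.1 + (toC q.1 * x + toC q.2) • M.2) := by
      intro x
      change ‖a (rmulS q g) * H δ (toC q.1 • M.1 + (toC q.1 * x + toC q.2) • M.2) *
        eC (-(frq (toC N) ν * x))‖ₑ ≤ _
      rw [enorm_mul, enorm_mul, ← ofReal_norm (eC _), norm_eC, ENNReal.ofReal_one, mul_one, mul_assoc]
      exact mul_le_mul' hKq (hCb _)
    by_cases h0 : q.1 = 0
    · rw [if_pos h0]
      by_cases hu : IsUnit q.2
      · rw [if_pos hu]
        refine (lintegral_mono (g := fun _ => ENNReal.ofReal K * ENNReal.ofReal |C|) fun x => ?_).trans ?_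
        · refine (hpt x).trans ?_
          exact mul_le_of_le_one_right' (GE_le_one _)
        · rw [lintegral_const, Measure.restrict_apply_univ]
      · rw [if_neg hu, mul_zero]
        have ha0 : a (rmulS q g) = 0 := by
          by_contra hne
          apply hu
          have : q = (0, q.2) := Prod.ext h0 rfl
          rw [this] at hne
          exact unit_of_cop hc g hne
        have : ∀ x, f q x = 0 := by
          intro x
          change a (rmulS q g) * _ * _ = 0
          rw [ha0, zero_mul, zero_mul]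
        simp [this]
    · rw [if_neg h0, ← lintegral_const_mul' _ _
        (ENNReal.mul_ne_top ENNReal.ofReal_ne_top ENNReal.ofReal_ne_top)]
      exact lintegral_mono hpt
  have htot : ∑' q : Eis × Eis, ∫⁻ x in par (toC N), ‖f q x‖ₑ ≠ ∞ := by
    refine ne_top_of_le_ne_top ?_ (ENNReal.tsum_le_tsum hfb)
    rw [ENNReal.tsum_mul_left]
    refine ENNReal.mul_ne_top (ENNReal.mul_ne_top ENNReal.ofReal_ne_top ENNReal.ofReal_ne_top) ?_
    refine ne_top_of_le_ne_top ?_ (rows_bound hN hM)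
    refine ENNReal.add_ne_top.mpr ⟨ENNReal.mul_ne_top (ENNReal.natCast_ne_top _)
      (vol_par_ne_top _), ?_⟩
    exact ENNReal.mul_ne_top (ENNReal.mul_ne_top (ENNReal.mul_ne_top (ENNReal.natCast_ne_top _)
      c0_ne_top) hs2_ne_top) ENNReal.ofReal_ne_top
  -- interchange
  set φ : Eis × Eis → ℂ := fun q => ∫ x in par (toC N), f q x with hφ
  have hFT : FT N g ν (ED a H) M = ∑' q, φ q := by
    unfold FT
    simp_rw [hfE]
    rw [integral_tsum (fun q => (hfc q).aestronglyMeasurable) htot]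
  have hφs : Summable φ := by
    apply Summable.of_norm
    refine Summable.of_nonneg_of_le (fun _ => norm_nonneg _) (fun q => ?_)
      (ENNReal.summable_toReal htot)
    have h1 := norm_integral_le_lintegral_norm (μ := volume.restrict (par (toC N))) (f q)
    refine h1.trans (le_of_eq ?_)
    congr 1
    refine lintegral_congr fun z => ?_
    rw [ofReal_norm]
  have hh : ∀ h : Eis, h ≠ 0 → ∑' y : Eis, φ (h, y) = ((nm h : ℂ))⁻¹ *
      (sumMod (h * N) (fun y => a (rmulS (h, y) g) * eC (frq (toC (h * N)) ν * toC y)) *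
        ∫ z, H δ (toC h • M.1 + z • M.2) * eC (-(frq (toC (h * N)) ν * z))) := by
    intro h h0
    have hhC : toC h ≠ 0 := by rwa [Ne, toC_eq_zero]
    have hhN : toC (h * N) ≠ 0 := by rw [map_mul]; exact mul_ne_zero hhC haN
    let G : ℂ → ℂ := fun z => H δ (toC h • M.1 + z • M.2) * eC (-(frq (toC (h * N)) ν * z))
    have hGc : Continuous G := by
      refine (hHc.comp ?_).mul (continuous_eC.comp ?_)
      · fun_prop
      · fun_prop
    have hGi : Integrable G := by
      refine ⟨hGc.aestronglyMeasurable, ?_⟩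
      refine lt_of_le_of_lt (lintegral_mono (g := fun z => ENNReal.ofReal |C| *
        GE (toC h • M.1 + z • M.2)) fun z => ?_) ?_
      · change ‖H δ (toC h • M.1 + z • M.2) * eC (-(frq (toC (h * N)) ν * z))‖ₑ ≤ _
        rw [enorm_mul, ← ofReal_norm (eC _), norm_eC, ENNReal.ofReal_one, mul_one]
        exact hCb _
      · rw [lintegral_const_mul' _ _ ENNReal.ofReal_ne_top]
        refine (ENNReal.mul_ne_top ENNReal.ofReal_ne_top
          (ne_top_of_le_ne_top (ENNReal.mul_ne_top ENNReal.ofReal_ne_top c0_ne_top)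
            (lint_hline hM hhC))).lt_top
    have hp : PMod (h * N) (fun y => a (rmulS (h, y) g) * eC (frq (toC (h * N)) ν * toC y)) := by
      intro y t
      have h1 := hper h y t
      simp only at h1 ⊢
      rw [h1]
      congr 1
      rw [map_add, mul_add, eC_add, map_mul (toC) (h * N) t, eC_frq_period hhN, mul_one]
    have h3 := (tile_int hN h0 hp hGi).2
    rw [← mul_assoc, mul_comm (((nm h : ℂ))⁻¹), mul_assoc, ← h3]
    refine tsum_congr fun y => ?_
    rw [hφ]
    simp only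
    rw [← integral_const_mul]
    refine integral_congr_ae (Filter.Eventually.of_forall fun x => ?_)
    simp only
    change a (rmulS (h, y) g) * H δ (toC h • M.1 + (toC h * x + toC y) • M.2) *
      eC (-(frq (toC N) ν * x)) = a (rmulS (h, y) g) * eC (frq (toC (h * N)) ν * toC y) *
      (H δ (toC h • M.1 + (toC h * x + toC y) • M.2) * eC (-(frq (toC (h * N)) ν * (toC h * x + toC y))))
    have e1 : frq (toC (h * N)) ν * (toC h * x + toC y) =
        frq (toC N) ν * x + frq (toC (h * N)) ν * toC y := by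
      unfold frq
      rw [map_mul]
      field_simp
    have e2 : eC (frq (toC (h * N)) ν * toC y) * eC (-(frq (toC (h * N)) ν * (toC h * x + toC y))) =
        eC (-(frq (toC N) ν * x)) := by
      rw [← eC_add, e1]
      congr 1
      ring
    rw [← e2]
    ring
  have h00 : ∑' y : Eis, φ (0, y) = if ν = 0 then (covol (toC N) : ℂ) *
      ∑' y : Eis, a (rmulS (0, y) g) * H δ (toC y • M.2) else 0 := by
    have e : ∀ y : Eis, φ (0, y) = (a (rmulS (0, y) g) * H δ (toC y • M.2)) *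
        (if ν = 0 then (covol (toC N) : ℂ) else 0) := by
      intro y
      rw [← integral_par_eC haN ν, ← integral_const_mul, hφ]
      refine integral_congr_ae (Filter.Eventually.of_forall fun x => ?_)
      change a (rmulS (0, y) g) * H δ (toC 0 • M.1 + (toC 0 * x + toC y) • M.2) *
        eC (-(frq (toC N) ν * x)) = _
      simp
    simp_rw [e]
    rw [tsum_mul_right]
    split_ifs <;> ring
  have hsig := hφs.prod
  have hprod := hφs.tsum_prod
  have hfun : (fun h : Eis => if h = 0 then 0 else ((nm h : ℂ))⁻¹ *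
      (sumMod (h * N) (fun y => a (rmulS (h, y) g) * eC (frq (toC (h * N)) ν * toC y)) *
        ∫ z, H δ (toC h • M.1 + z • M.2) * eC (-(frq (toC (h * N)) ν * z)))) =
      fun h : Eis => if h = 0 then 0 else ∑' y : Eis, φ (h, y) := by
    funext h
    by_cases h0 : h = 0
    · rw [if_pos h0, if_pos h0]
    · rw [if_neg h0, if_neg h0, hh h h0]
  rw [hfun]
  refine ⟨?_, ?_⟩
  · have h5 := hsig.update 0 (0 : ℂ)
    refine h5.congr fun h => ?_
    by_cases h0 : h = 0
    · subst h0; simp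
    · rw [if_neg h0, Function.update_of_ne h0]
  · rw [hFT, hprod, hsig.tsum_eq_add_tsum_ite 0, h00]

/-! ### Regular rows -/

/-- `χ` is trivial on the stabiliser of the bottom row of `g`. -/
def Reg {N : Eis} (χ : GN N → ℂ) (g : SLE) : Prop :=
  ∀ t : Eis, χ ⟨g⁻¹ * up (N * t) * g, up_mem_conj g t⟩ = 1

lemma reg_of_ne {N : Eis} {χ : GN N → ℂ} {a : Eis × Eis → ℂ} (ha : Cof N χ a) {g : SLE}
    (h : a (br g) ≠ 0) : Reg χ g := by
  intro t
  have h1 := ha.equiv ⟨g⁻¹ * up (N * t) * g, up_mem_conj g t⟩ (br g)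
  have h2 : rmulS (br g) (g⁻¹ * up (N * t) * g) = br g := by
    rw [← br_mul, show g * (g⁻¹ * up (N * t) * g) = up (N * t) * g by group, br_up_mul]
  simp only at h1
  rw [h2] at h1
  have h3 : conj (χ ⟨g⁻¹ * up (N * t) * g, up_mem_conj g t⟩) = 1 := by
    have : (conj (χ ⟨g⁻¹ * up (N * t) * g, up_mem_conj g t⟩) - 1) * a (br g) = 0 := by
      rw [sub_mul, one_mul, ← h1, sub_self]
    rcases mul_eq_zero.mp this with h4 | h4
    · exact sub_eq_zero.mp h4
    · exact absurd h4 h
  have h4 := congrArg conj h3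
  rwa [Complex.conj_conj, map_one] at h4

lemma pmod_of_reg {N : Eis} {χ : GN N → ℂ} {a : Eis × Eis → ℂ} (ha : Cof N χ a) {g : SLE}
    (hg : Reg χ g) (h : Eis) : PMod (h * N) (fun y => a (rmulS (h, y) g)) := by
  intro y t
  simp only
  have e : rmulS (h, y + h * N * t) g = rmulS (rmulS (h, y) g) (g⁻¹ * up (N * t) * g) := by
    rw [← rmulS_mul, show g * (g⁻¹ * up (N * t) * g) = up (N * t) * g by group, rmulS_mul]
    congr 1
    simp only [rmulS, up, mk2_00, mk2_01, mk2_10, mk2_11]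
    ext1
    · simp
    · simp only; ring
  rw [e, ha.equiv ⟨g⁻¹ * up (N * t) * g, up_mem_conj g t⟩, hg t, map_one, one_mul]

/-- **Constant term formula (O2).** -/
theorem ct_formula {N : Eis} (hN : N ≠ 0) {χ : GN N → ℂ} {a : Eis × Eis → ℂ} (ha : Cof N χ a)
    {H : ℂ → Vec → ℂ} (hH : TFD H) {g : SLE} (hg : Reg χ g) {M : K695.Frm} (hM : det2 M ≠ 0) :
    CT N g (ED a H) M =
      (covol (toC N) : ℂ) * ∑' y : Eis, a (rmulS (0, y) g) * H (det2 M) (toC y • M.2) +
      ∑' h : Eis, if h = 0 then 0 else ((nm h : ℂ))⁻¹ *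
        (sumMod (h * N) (fun y => a (rmulS (h, y) g)) *
          ∫ z : ℂ, H (det2 M) (toC h • M.1 + z • M.2)) := by
  have h1 := (ft_formula' hN ha.bdd ha.cop hH g (pmod_of_reg ha hg) 0 hM).2
  rw [FT_zero, if_pos rfl] at h1
  rw [h1]
  congr 1
  refine tsum_congr fun h => ?_
  simp [frq, eC_zero]

lemma summable_ct {N : Eis} (hN : N ≠ 0) {χ : GN N → ℂ} {a : Eis × Eis → ℂ} (ha : Cof N χ a)
    {H : ℂ → Vec → ℂ} (hH : TFD H) {g : SLE} (hg : Reg χ g) {M : K695.Frm} (hM : det2 M ≠ 0) :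
    Summable (fun h : Eis => if h = 0 then 0 else ((nm h : ℂ))⁻¹ *
        (sumMod (h * N) (fun y => a (rmulS (h, y) g)) *
          ∫ z : ℂ, H (det2 M) (toC h • M.1 + z • M.2))) := by
  have h1 := (ft_formula' hN ha.bdd ha.cop hH g (pmod_of_reg ha hg) 0 hM).1
  refine h1.congr fun h => ?_
  simp [frq, eC_zero]

/-- **Fourier coefficients (O2)**. -/
theorem ft_formula {N : Eis} (hN : N ≠ 0) {χ : GN N → ℂ} {a : Eis × Eis → ℂ} (ha : Cof N χ a)
    {H : ℂ → Vec → ℂ} (hH : TFD H) {g : SLE} (hg : Reg χ g) (ν : Eis) {M : K695.Frm}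
    (hM : det2 M ≠ 0) :
    FT N g ν (ED a H) M =
      (if ν = 0 then (covol (toC N) : ℂ) *
        ∑' y : Eis, a (rmulS (0, y) g) * H (det2 M) (toC y • M.2) else 0) +
      ∑' h : Eis, if h = 0 then 0 else ((nm h : ℂ))⁻¹ *
        (sumMod (h * N) (fun y => a (rmulS (h, y) g) * eC (frq (toC (h * N)) ν * toC y)) *
          ∫ z : ℂ, H (det2 M) (toC h • M.1 + z • M.2) * eC (-(frq (toC (h * N)) ν * z))) :=
  (ft_formula' hN ha.bdd ha.cop hH g (pmod_of_reg ha hg) ν hM).2

/-- continuity along a horocycle. -/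
lemma continuous_line {a : Eis × Eis → ℂ} (hb : ∃ K : ℝ, ∀ r, ‖a r‖ ≤ K) {H : ℂ → Vec → ℂ}
    (hH : TFD H) (g : SLE) {M : K695.Frm} (hM : det2 M ≠ 0) :
    Continuous (fun x : ℂ => ED a H (g⁻¹ • ((M.1 + x • M.2, M.2) : K695.Frm))) := by
  rw [continuous_iff_continuousAt]
  intro x
  have hd : det2 (g⁻¹ • ((M.1 + x • M.2, M.2) : K695.Frm)) ≠ 0 := by
    rw [det2_smul]
    have : det2 ((M.1 + x • M.2, M.2) : K695.Frm) = det2 M := by
      unfold det2; simp; ring
    rwa [this]
  have h1 := continuousAt_ED hb hH hd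
  have h2 : Continuous (fun x : ℂ => g⁻¹ • ((M.1 + x • M.2, M.2) : K695.Frm)) := by
    refine (continuous_smulS g⁻¹).comp ?_
    fun_prop
  exact ContinuousAt.comp (f := fun x : ℂ => g⁻¹ • ((M.1 + x • M.2, M.2) : K695.Frm)) h1
    h2.continuousAt

lemma integrable_line {N : Eis} (_hN : N ≠ 0) {a : Eis × Eis → ℂ} (hb : ∃ K : ℝ, ∀ r, ‖a r‖ ≤ K)
    {H : ℂ → Vec → ℂ} (hH : TFD H) (g : SLE) {M : K695.Frm} (hM : det2 M ≠ 0) :
    IntegrableOn (fun x : ℂ => ED a H (g⁻¹ • ((M.1 + x • M.2, M.2) : K695.Frm))) (par (toC N)) := by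
  have hc := continuous_line hb hH g hM
  have hsub : ∃ R : ℝ, par (toC N) ⊆ Metric.closedBall (0 : ℂ) R := by
    have hK : IsCompact (Lm (toC N) '' Set.Icc (0 : Fin 2 → ℝ) 1) :=
      isCompact_Icc.image (continuous_Lm _)
    obtain ⟨R, hR⟩ := hK.isBounded.subset_closedBall 0
    refine ⟨R, fun z hz => hR ?_⟩
    obtain ⟨x, hx, rfl⟩ := hz
    refine ⟨x, ⟨fun i => (hx i).1.le, fun i => ?_⟩, rfl⟩
    have := (hx i).2
    simpa using this
  obtain ⟨R, hR⟩ := hsub
  exact (hc.continuousOn.integrableOn_compact (isCompact_closedBall (0 : ℂ) R)).mono_set hR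

/-- additivity of the constant term. -/
lemma CT_sum {N : Eis} (hN : N ≠ 0) {ι : Type*} [Fintype ι] {a : ι → Eis × Eis → ℂ}
    {H : ι → ℂ → Vec → ℂ} (hb : ∀ i, ∃ K : ℝ, ∀ r, ‖a i r‖ ≤ K) (hH : ∀ i, TFD (H i)) (g : SLE)
    {M : K695.Frm} (hM : det2 M ≠ 0) :
    CT N g (fun M => ∑ j, ED (a j) (H j) M) M = ∑ j, CT N g (ED (a j) (H j)) M := by
  unfold CT
  exact integral_finsetSum _ fun j _ => integrable_line hN (hb j) (hH j) g hM

lemma ED_neg (a : Eis × Eis → ℂ) (H : ℂ → Vec → ℂ) (M : K695.Frm) :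
    ED a (fun δ u => -H δ u) M = -ED a H M := by
  unfold ED EC
  rw [← tsum_neg]
  exact tsum_congr fun r => by ring

lemma TFD.neg {H : ℂ → Vec → ℂ} (hH : TFD H) : TFD (fun δ u => -H δ u) where
  cont := hH.cont.neg
  dec D := by
    obtain ⟨C, hC⟩ := hH.dec D
    exact ⟨C, fun δ hδ u => by rw [norm_neg]; exact hC δ hδ u⟩

/-- **Equality criterion**: two Eisenstein series with the same multiplier are equal if their
constant terms agree along all rows of both supports. -/
theorem eq_of_ct {N : Eis} (hN : N ≠ 0) {χ : GN N → ℂ} (hχ : ∀ g, ‖χ g‖ = 1)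
    {a a' : Eis × Eis → ℂ} {H H' : ℂ → Vec → ℂ} (ha : Cof N χ a) (ha' : Cof N χ a')
    (hH : TFD H) (hH' : TFD H')
    (h0 : ∀ g : SLE, Reg χ g → (a (br g) ≠ 0 ∨ a' (br g) ≠ 0) → ∀ M : K695.Frm, det2 M ≠ 0 →
      CT N g (ED a H) M = CT N g (ED a' H') M)
    {M : K695.Frm} (hM : det2 M ≠ 0) : ED a H M = ED a' H' M := by
  let A : Bool → Eis × Eis → ℂ := fun b => if b then a else a'
  let HH : Bool → ℂ → Vec → ℂ := fun b => if b then H else fun δ u => -H' δ u
  have hA : ∀ b, Cof N χ (A b) := by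
    intro b; cases b
    · exact ha'
    · exact ha
  have hHH : ∀ b, TFD (HH b) := by
    intro b; cases b
    · exact hH'.neg
    · exact hH
  have key := orth hN hχ hA hHH ?_ hM
  · rw [Fintype.sum_bool] at key
    change ED a H M + ED a' (fun δ u => -H' δ u) M = 0 at key
    rw [ED_neg] at key
    exact add_neg_eq_zero.mp key
  · intro b g hb M hM
    rw [CT_sum hN (fun i => (hA i).bdd) hHH g hM, Fintype.sum_bool]
    change CT N g (ED a H) M + CT N g (ED a' (fun δ u => -H' δ u)) M = 0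
    have hneg : CT N g (ED a' (fun δ u => -H' δ u)) M = -CT N g (ED a' H') M := by
      unfold CT
      rw [← integral_neg]
      refine integral_congr_ae (Filter.Eventually.of_forall fun x => ?_)
      exact ED_neg _ _ _
    have hr : a (br g) ≠ 0 ∨ a' (br g) ≠ 0 := by
      cases b
      · exact Or.inr hb
      · exact Or.inl hb
    have hreg : Reg χ g := reg_of_ne (hA b) hb
    rw [hneg, h0 g hreg hr M hM]
    ring

end Crest.Agent.R017.Orth681
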