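import Crest.Agent.R017.Rw1_266
import Crest.Agent.R017.OrthG_681
import Crest.Agent.R017.Coef1_92

/-!
# Row 17, sextic F2: `rowA` in the format of 681 (`Cof`) and 92 (`SC`)

* `cof_rowA` : `Cof N chiA (rowA N x g)`, `chiA γ = conj (kub6 γ)`
* `sum_rowA_rmulS` : the constant term sums in the form of `ft_formula`
* `SC_rowA` : the Fourier coefficients:
  `SC (rowA N x g) N ν c = nm N · g c · ((N √-3)/c)_6 · gs6 ν c` if `N ∣ x + ν`
-/

set_option autoImplicit false

noncomputable section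

open Complex
open scoped ComplexConjugate

namespace Crest.Agent.R017.Rw266

open Crest.Agent.R012 Crest.Agent.R012.Eis Crest.Agent.R012.Gauss880 Crest.Agent.R017.Loc266
open Crest.Agent.R017.Sx440 Crest.Agent.R017.Kub664 Crest.Agent.R017.Tw266
open Crest.Agent.R017.Orth681

variable {N : Eis}

lemma mem_GamN_of_GN {g : SLE} (h : g ∈ GN N) : g ∈ GamN N := by
  rw [mem_GN] at h
  rw [mem_GamN]
  exact ⟨h.1, h.2.1, h.2.2.1, h.2.2.2⟩

/-- the multiplier -/
def chiA (N : Eis) (g : GN N) : ℂ := conj (kub6 (g : SLE))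

lemma norm_chiA (hN : Lev N) (g : GN N) : ‖chiA N g‖ = 1 := by
  unfold chiA
  rw [RCLike.norm_conj]
  exact norm_kub6 (Dvd.dvd.trans ⟨6, by norm_num⟩ hN.d72) (mem_GamN_of_GN g.2)

/-- dependence on the row modulo `N` -/
lemma rowA_weight (hN : Lev N) {x : Eis} {g : Eis → ℂ} (hg : PMod N g) {c d c' d' : Eis}
    (h1 : N ∣ c' - c) (h2 : N ∣ d' - d) (hc : IsCoprime c N) :
    g c' * ea N x (d' * ivN N c') = g c * ea N x (d * ivN N c) := by
  have hc' : IsCoprime c' N := (cop_congr h1).mpr hc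
  rw [hg.congr h1]
  congr 1
  apply ea_congr_right hN.ne
  have h3 := ivN_congr hc' h1
  have : d' * ivN N c' - d * ivN N c = d' * (ivN N c' - ivN N c) + (d' - d) * ivN N c := by ring
  rw [this]
  exact dvd_add (h3.mul_left _) (h2.mul_right _)

theorem rowA_rmulS (hN : Lev N) {x : Eis} {g : Eis → ℂ} (hg : PMod N g) {γ : SLE}
    (hγ : γ ∈ GN N) (r : Eis × Eis) : rowA N x g (rmulS r γ) = kub6 γ * rowA N x g r := by
  classical
  obtain ⟨c, d⟩ := r
  have hγ' := mem_GN.mp hγ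
  obtain ⟨⟨t1, ht1⟩, ⟨t2, ht2⟩, ⟨t3, ht3⟩, ⟨t4, ht4⟩⟩ := hγ'
  set c' : Eis := (rmulS (c, d) γ).1 with hc'
  set d' : Eis := (rmulS (c, d) γ).2 with hd'
  have ec : c' = c * γ 0 0 + d * γ 1 0 := rfl
  have ed : d' = c * γ 0 1 + d * γ 1 1 := rfl
  have h1 : N ∣ c' - c := ⟨c * t1 + d * t3, by rw [ec]; linear_combination c * ht1 + d * ht3⟩
  have h2 : N ∣ d' - d := ⟨c * t2 + d * t4, by rw [ed]; linear_combination c * ht2 + d * ht4⟩
  have hiff : (Gd c' ∧ IsCoprime c' N) ↔ (Gd c ∧ IsCoprime c N) :=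
    and_congr (gd_congr (hN.d72.trans h1)) (cop_congr h1)
  unfold rowA
  change (if Gd c' ∧ IsCoprime c' N then g c' * ea N x (d' * ivN N c') * sy6 d' c' else 0) =
    kub6 γ * (if Gd c ∧ IsCoprime c N then g c * ea N x (d * ivN N c) * sy6 d c else 0)
  by_cases hc : Gd c ∧ IsCoprime c N
  · rw [if_pos hc, if_pos (hiff.mpr hc), rowA_weight hN hg h1 h2 hc.2]
    by_cases hcop : IsCoprime c d
    · have := sy6_row_mul_top hN.d72 (mem_GamN_of_GN hγ) (x := c) (y := d) hc.1.2 hc.1.g3 hcop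
      rw [← ec, ← ed] at this
      rw [this]; ring
    · have hcop' : ¬ IsCoprime d' c' := by
        intro h
        have h3 : IsCoprime (rmulS (c, d) γ).1 (rmulS (c, d) γ).2 := h.symm
        have h4 := cop_rmulS h3 γ⁻¹
        rw [← rmulS_mul, mul_inv_cancel, rmulS_one] at h4
        exact hcop h4
      rw [sy6_eq_zero hc.1.1 hc.1.2 (fun h => hcop h.symm),
        sy6_eq_zero (hiff.mpr hc).1.1 (hiff.mpr hc).1.2 hcop']
      ring
  · rw [if_neg hc, if_neg (fun h => hc (hiff.mp h)), mul_zero]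

theorem cof_rowA (hN : Lev N) (x : Eis) {g : Eis → ℂ} (hg : PMod N g)
    (hb : ∃ K : ℝ, ∀ c, ‖g c‖ ≤ K) : Cof N (chiA N) (rowA N x g) where
  bdd := by
    classical
    obtain ⟨K, hK⟩ := hb
    have hK0 : 0 ≤ K := (norm_nonneg _).trans (hK 0)
    refine ⟨K, fun r => ?_⟩
    unfold rowA
    split_ifs with hc
    · rw [norm_mul, norm_mul, norm_ea, mul_one]
      calc ‖g r.1‖ * ‖sy6 r.2 r.1‖ ≤ K * 1 :=
            mul_le_mul (hK _) (norm_sy6_le hc.1.1 hc.1.2 _) (norm_nonneg _) hK0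
        _ = K := mul_one K
    · rw [norm_zero]; exact hK0
  cop r hr := by
    classical
    unfold rowA at hr
    split_ifs at hr with hc
    · by_contra hcop
      apply hr
      rw [sy6_eq_zero hc.1.1 hc.1.2 (fun h => hcop h.symm), mul_zero]
    · exact absurd rfl hr
  equiv γ r := by
    rw [rowA_rmulS hN hg γ.2]
    unfold chiA
    rw [Complex.conj_conj]

lemma rowA_ne_zero {x : Eis} {g : Eis → ℂ} {r : Eis × Eis} (h : rowA N x g r ≠ 0) :
    Gd r.1 ∧ IsCoprime r.1 N := by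
  classical
  unfold rowA at h
  by_contra hc
  rw [if_neg hc] at h
  exact h rfl

/-- The constant term sums at the row `br σ`. -/
theorem sum_rowA_rmulS (hN : Lev N) {x : Eis} {ψ γ : Eis → ℂ} (hψ : IsCh N ψ) (hγ : Gm N γ)
    {hS h' : Eis} (D : Dec N hS h') (σ : SLE) (hc0 : Gd (br σ).1) (hc0N : IsCoprime (br σ).1 N) :
    sumMod (hS * h' * N) (fun y => rowA N x (fun c => ψ c * γ c) (rmulS (hS * h', y) σ)) =
      (nm hS * sumMod h' (fun y => sy6 y h') * GG N x (fun c => ψ c * γ c) hS h') *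
        rowA N x (gdual ψ γ hS) (br σ) := by
  have hdet : σ 0 0 * σ 1 1 - σ 0 1 * σ 1 0 = 1 := by
    have := σ.det_coe
    rw [Matrix.det_fin_two] at this
    exact this
  exact sum_rowA_gam hN hψ hγ D (A := σ 0 0) (B := σ 0 1) (c0 := σ 1 0) (d0 := σ 1 1)
    hdet hc0 hc0N

/-! ### Fourier coefficients -/

lemma gl_sy6 {c : Eis} (hc : Gd c) (ν : Eis) :
    gl (fun y => sy6 y c) ν c = sy6 sq3 c * gs6 ν c := by
  have hch := isCh_sy6 hc.1 hc.2
  have hsq : IsCoprime sq3 c := by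
    have h1 : IsCoprime (3 : Eis) c := by
      obtain ⟨t, ht⟩ := hc.1
      exact ⟨-t, 1, by linear_combination ht⟩
    have h2 : sq3 ∣ 3 := ⟨-sq3, by apply ext' <;> simp [sq3] <;> norm_num⟩
    exact IsCoprime.of_isCoprime_of_dvd_left h1 h2
  have h1 := gl_mul_of_coprime hc.ne hch ν hsq
  have h2 : gl (fun y => sy6 y c) (ν * sq3) c = gs6 ν c := by
    unfold gl gs6 gsum
    refine sumMod_congr fun y => ?_
    congr 1
    unfold ea
    congr 1
    rw [map_mul]
    have h3 := sq3C_ne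
    have h4 := toC_ne_zero hc.ne
    field_simp
  rw [← h2, h1, ← mul_assoc]
  have h5 : sy6 sq3 c * conj (sy6 sq3 c) = 1 := hch.mul_conj_self hc.ne hsq
  rw [h5, one_mul]

theorem SC_rowA (hN : Lev N) {x ν c : Eis} {g : Eis → ℂ} (hc : Gd c) (hcN : IsCoprime c N)
    (hx : N ∣ x + ν) :
    Coef92.SC (rowA N x g) N ν c = nm N * (g c * (sy6 (N * sq3) c * gs6 ν c)) := by
  classical
  unfold Coef92.SC
  have e1 : ∀ d, rowA N x g (c, d) *
      eC (toC ν * toC d / (toC Parseval499.s3 * toC (N * c))) =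
      g c * ea N x (d * ivN N c) * sy6 d c * ea (N * c) ν d := by
    intro d
    unfold rowA
    rw [if_pos ⟨hc, hcN⟩]
    rfl
  rw [sumMod_congr e1]
  have hch := isCh_sy6 hc.1 hc.2
  have hNc : N * c ≠ 0 := mul_ne_zero hN.ne hc.ne
  have hP : PMod (N * c) (fun d => g c * ea N x (d * ivN N c) * sy6 d c * ea (N * c) ν d) := by
    have p1 : PMod N (fun d => g c * ea N x (d * ivN N c)) := by
      intro d t
      beta_reduce
      congr 1
      exact ea_congr_right hN.ne ⟨t * ivN N c, by ring⟩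
    exact ((p1.mono (dvd_mul_right N c)).mul (hch.per.mono (dvd_mul_left c N))).mul
      (pmod_ea hNc ν)
  rw [sumMod_crt_mul (f := fun y => g c * ea N (x + ν) y)
    (g := fun y => sy6 N c * (sy6 y c * ea c ν y)) hN.ne hc.ne _ hcN.symm hP]
  · rw [sumMod_mul_left hN.ne, sumMod_ea hN.ne, if_pos hx, sumMod_mul_left hc.ne]
    have : sumMod c (fun y => sy6 y c * ea c ν y) = gl (fun y => sy6 y c) ν c := rfl
    rw [this, gl_sy6 hc, sy6_mul_left hc.1 hc.2]
    ring
  · intro y z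
    have f1 : ea N x ((c * y + N * z) * ivN N c) = ea N x y := by
      apply ea_congr_right hN.ne
      obtain ⟨t, ht⟩ := (ivN_spec hcN).2
      exact ⟨y * t + z * ivN N c, by linear_combination y * ht⟩
    have f2 : sy6 (c * y + N * z) c = sy6 N c * sy6 z c := by
      rw [← sy6_mul_left hc.1 hc.2]
      exact sy6_congr hc.1 hc.2 ⟨y, by ring⟩
    have f3 : ea (N * c) ν (c * y + N * z) = ea N ν y * ea c ν z := by
      unfold ea
      rw [← eC_add]
      congr 1
      have h3 := sq3C_ne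
      have h4 := toC_ne_zero hc.ne
      have h5 := toC_ne_zero hN.ne
      rw [map_add, map_mul, map_mul, map_mul]
      field_simp
    rw [f1, f2, f3, ea_add_left]
    ring

theorem SC_rowA_zero {x ν c : Eis} {g : Eis → ℂ} (hc : ¬ (Gd c ∧ IsCoprime c N))
    (hNc : N * c ≠ 0) : Coef92.SC (rowA N x g) N ν c = 0 := by
  classical
  unfold Coef92.SC
  rw [sumMod_congr (g := fun _ => 0) (fun d => ?_), sumMod_const hNc, mul_zero]
  unfold rowA
  rw [if_neg hc, zero_mul]

end Crest.Agent.R017.Rw266
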