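import Crest.Agent.R017.Wt3_92

/-!
# Row 17, section F: dual weights, uniformly in `τ` (helper92, AF3 part 4)

Coordinates `x = log y`.

* `UB w`: `‖w τ x‖ ≤ C (1+|τ|)^A e^{-N|x|}` for all `N`
* `RDF w`: `w τ` smooth, all derivatives `UB`; closure properties
* `rdf_vO`: the dual weight of `V_τ(y) = y^{iτ} V(y)` is `RDF`
-/

set_option autoImplicit false

noncomputable section

open MeasureTheory Complex Set Filter Topology
open scoped ContDiff SchwartzMap FourierTransform Nat NNReal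

namespace Crest.Agent.R017.Wt92

open Crest.Agent.R012 Crest.Agent.R012.Eis
open Crest.Agent.R017.Xn590
open Crest.Agent.R017.Xi590 (CS fCS fCS_apply sch_dec)
open Crest.Agent.R012.Po581 (fC)

/-! ### the classes -/

/-- uniform rapid decay. -/
def UB (w : ℝ → ℝ → ℂ) : Prop :=
  ∀ N : ℕ, ∃ (C : ℝ) (A : ℕ), 0 ≤ C ∧ ∀ τ x : ℝ, ‖w τ x‖ ≤ C * (1 + |τ|) ^ A * Real.exp (-(N * |x|))

lemma UB.add {w w' : ℝ → ℝ → ℂ} (h : UB w) (h' : UB w') : UB (fun τ x => w τ x + w' τ x) := by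
  intro N
  obtain ⟨C, A, hC, hb⟩ := h N
  obtain ⟨C', A', hC', hb'⟩ := h' N
  refine ⟨C + C', A + A', by positivity, fun τ x => ?_⟩
  have h1 := one_le_par τ
  have h2 : (1 + |τ|) ^ A ≤ (1 + |τ|) ^ (A + A') := pow_le_pow_right₀ h1 (by omega)
  have h3 : (1 + |τ|) ^ A' ≤ (1 + |τ|) ^ (A + A') := pow_le_pow_right₀ h1 (by omega)
  calc ‖w τ x + w' τ x‖ ≤ ‖w τ x‖ + ‖w' τ x‖ := norm_add_le _ _
    _ ≤ C * (1 + |τ|) ^ A * Real.exp (-(N * |x|)) +
        C' * (1 + |τ|) ^ A' * Real.exp (-(N * |x|)) := add_le_add (hb τ x) (hb' τ x)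
    _ ≤ C * (1 + |τ|) ^ (A + A') * Real.exp (-(N * |x|)) +
        C' * (1 + |τ|) ^ (A + A') * Real.exp (-(N * |x|)) := by gcongr
    _ = _ := by ring

lemma UB.of_le {w w' : ℝ → ℝ → ℂ} (h : UB w) {K : ℝ} {A₀ : ℕ} (hK : 0 ≤ K)
    (hle : ∀ τ x, ‖w' τ x‖ ≤ K * (1 + |τ|) ^ A₀ * ‖w τ x‖) : UB w' := by
  intro N
  obtain ⟨C, A, hC, hb⟩ := h N
  refine ⟨K * C, A₀ + A, by positivity, fun τ x => ?_⟩
  have h1 := one_le_par τ
  calc ‖w' τ x‖ ≤ K * (1 + |τ|) ^ A₀ * ‖w τ x‖ := hle τ x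
    _ ≤ K * (1 + |τ|) ^ A₀ * (C * (1 + |τ|) ^ A * Real.exp (-(N * |x|))) := by
        gcongr
        exact hb τ x
    _ = _ := by ring

lemma UB.const_mul {w : ℝ → ℝ → ℂ} (h : UB w) (c : ℂ) : UB (fun τ x => c * w τ x) :=
  h.of_le (K := ‖c‖) (A₀ := 0) (norm_nonneg _) fun τ x => by rw [norm_mul, pow_zero, mul_one]

lemma UB.tau_mul {w : ℝ → ℝ → ℂ} (h : UB w) : UB (fun τ x => (I * τ) * w τ x) :=
  h.of_le (K := 1) (A₀ := 1) zero_le_one fun τ x => by
    rw [norm_mul, norm_mul, Complex.norm_I, Complex.norm_real, Real.norm_eq_abs, one_mul, pow_one,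
      one_mul]
    have := norm_nonneg (w τ x)
    nlinarith

/-- `w τ` smooth and all derivatives uniformly rapidly decreasing. -/
structure RDF (w : ℝ → ℝ → ℂ) : Prop where
  smooth : ∀ τ, ContDiff ℝ ∞ (w τ)
  bd : ∀ m : ℕ, UB (fun τ x => iteratedDeriv m (w τ) x)

lemma RDF.add {w w' : ℝ → ℝ → ℂ} (h : RDF w) (h' : RDF w') : RDF (fun τ x => w τ x + w' τ x) where
  smooth τ := (h.smooth τ).add (h'.smooth τ)
  bd m := by
    have h1 := (h.bd m).add (h'.bd m)
    have h2 : (fun τ x => iteratedDeriv m (fun x => w τ x + w' τ x) x) =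
        fun τ x => iteratedDeriv m (w τ) x + iteratedDeriv m (w' τ) x := by
      funext τ x
      exact iteratedDeriv_fun_add ((h.smooth τ).contDiffAt.of_le (by exact_mod_cast le_top))
        ((h'.smooth τ).contDiffAt.of_le (by exact_mod_cast le_top))
    rw [h2]
    exact h1

lemma RDF.const_mul {w : ℝ → ℝ → ℂ} (h : RDF w) (c : ℂ) : RDF (fun τ x => c * w τ x) where
  smooth τ := contDiff_const.mul (h.smooth τ)
  bd m := by
    have h1 := (h.bd m).const_mul c
    have h2 : (fun τ x => iteratedDeriv m (fun x => c * w τ x) x) =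
        fun τ x => c * iteratedDeriv m (w τ) x := by
      funext τ x
      exact iteratedDeriv_const_mul_field c (w τ)
    rw [h2]
    exact h1

lemma RDF.zero : RDF (fun _ _ => 0) where
  smooth _ := contDiff_const
  bd m := by
    intro N
    refine ⟨0, 0, le_rfl, fun τ x => ?_⟩
    have : iteratedDeriv m (fun _ : ℝ => (0 : ℂ)) = fun _ => 0 := by
      funext y
      rw [iteratedDeriv_const]
      split_ifs <;> rfl
    simp only [this]
    simp

lemma RDF.sum {ι : Type*} {s : Finset ι} {w : ι → ℝ → ℝ → ℂ} (h : ∀ i ∈ s, RDF (w i)) :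
    RDF (fun τ x => ∑ i ∈ s, w i τ x) := by
  classical
  induction s using Finset.induction_on with
  | empty => simpa using RDF.zero
  | insert i s hi ih =>
    simp only [Finset.sum_insert hi]
    exact (h i (Finset.mem_insert_self _ _)).add
      (ih fun j hj => h j (Finset.mem_insert_of_mem hj))

lemma RDF.shift {w : ℝ → ℝ → ℂ} (h : RDF w) (s : ℝ) : RDF (fun τ x => w τ (x + s)) where
  smooth τ := (h.smooth τ).comp (contDiff_id.add contDiff_const)
  bd m := by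
    intro N
    obtain ⟨C, A, hC, hb⟩ := h.bd m N
    refine ⟨C * Real.exp (N * |s|), A, by positivity, fun τ x => ?_⟩
    have h2 : iteratedDeriv m (fun x => w τ (x + s)) x = iteratedDeriv m (w τ) (x + s) := by
      rw [iteratedDeriv_comp_add_const]
    simp only [h2]
    refine (hb τ (x + s)).trans ?_
    have h3 : Real.exp (-(N * |x + s|)) ≤ Real.exp (N * |s|) * Real.exp (-(N * |x|)) := by
      rw [← Real.exp_add]
      apply Real.exp_le_exp.mpr
      have h4 : |x| ≤ |x + s| + |s| := by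
        have := abs_sub (x + s) s
        rwa [add_sub_cancel_right] at this
      have h5 : (0 : ℝ) ≤ N := Nat.cast_nonneg N
      nlinarith
    calc C * (1 + |τ|) ^ A * Real.exp (-(N * |x + s|))
        ≤ C * (1 + |τ|) ^ A * (Real.exp (N * |s|) * Real.exp (-(N * |x|))) := by
          have := one_le_par τ
          gcongr
      _ = _ := by ring

lemma RDF.neg {w : ℝ → ℝ → ℂ} (h : RDF w) : RDF (fun τ x => w τ (-x)) where
  smooth τ := (h.smooth τ).comp contDiff_neg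
  bd m := by
    intro N
    obtain ⟨C, A, hC, hb⟩ := h.bd m N
    refine ⟨C, A, hC, fun τ x => ?_⟩
    have h2 : iteratedDeriv m (fun x => w τ (-x)) x = (-1 : ℝ) ^ m • iteratedDeriv m (w τ) (-x) := by
      rw [iteratedDeriv_comp_neg]
    simp only [h2]
    rw [norm_smul, norm_pow, norm_neg, norm_one, one_pow, one_mul]
    have := hb τ (-x)
    rwa [abs_neg] at this

/-- multiplication by `e^{σ x}`. -/
lemma RDF.exp_mul {w : ℝ → ℝ → ℂ} (h : RDF w) (σ : ℂ) :
    RDF (fun τ x => cexp (σ * x) * w τ x) := by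
  have hE : ContDiff ℝ ∞ (fun x : ℝ => cexp (σ * x)) :=
    (contDiff_const.mul Complex.ofRealCLM.contDiff).cexp
  have hder : ∀ i : ℕ, iteratedDeriv i (fun x : ℝ => cexp (σ * x)) =
      fun x : ℝ => σ ^ i * cexp (σ * x) := by
    intro i
    induction i with
    | zero => simp
    | succ i ih =>
      rw [iteratedDeriv_succ, ih]
      funext t
      have h1 : HasDerivAt (fun t : ℝ => σ * (t : ℂ)) (σ * 1) t :=
        (Complex.ofRealCLM.hasDerivAt (x := t)).const_mul σ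
      have h2 := (h1.cexp).const_mul (σ ^ i)
      rw [h2.deriv]
      ring
  refine ⟨fun τ => hE.mul (h.smooth τ), fun m => ?_⟩
  intro N
  -- integer bound for the exponential
  obtain ⟨M, hM⟩ := exists_nat_ge |σ.re|
  choose C A hC hb using fun i : ℕ => h.bd i (N + M)
  set S : ℝ := ∑ i ∈ Finset.range (m + 1), (m.choose i : ℝ) * ‖σ‖ ^ i * C (m - i) with hS
  set A' : ℕ := ∑ i ∈ Finset.range (m + 1), A i with hA'
  have hS0 : 0 ≤ S := Finset.sum_nonneg fun i _ => by have := hC (m - i); positivity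
  refine ⟨S, A', hS0, fun τ x => ?_⟩
  have h1 : ‖iteratedDeriv m (fun x : ℝ => cexp (σ * x) * w τ x) x‖ ≤
      ∑ i ∈ Finset.range (m + 1), (m.choose i : ℝ) *
        ‖iteratedDeriv i (fun x : ℝ => cexp (σ * x)) x‖ * ‖iteratedDeriv (m - i) (w τ) x‖ := by
    have := norm_iteratedFDeriv_mul_le (n := m) (N := ∞) hE (h.smooth τ) x
      (by exact_mod_cast le_top)
    simpa only [norm_iteratedFDeriv_eq_norm_iteratedDeriv] using this
  refine h1.trans ?_
  have hτ := one_le_par τ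
  have hexp : ‖cexp (σ * x)‖ * Real.exp (-(((N + M : ℕ) : ℝ) * |x|)) ≤ Real.exp (-(N * |x|)) := by
    rw [Complex.norm_exp, ← Real.exp_add]
    apply Real.exp_le_exp.mpr
    have e1 : (σ * x).re = σ.re * x := by simp
    rw [e1]
    have e2 : σ.re * x ≤ |σ.re| * |x| := by
      rw [← abs_mul]; exact le_abs_self _
    have e3 := abs_nonneg x
    push_cast
    nlinarith
  calc ∑ i ∈ Finset.range (m + 1), (m.choose i : ℝ) *
        ‖iteratedDeriv i (fun x : ℝ => cexp (σ * x)) x‖ * ‖iteratedDeriv (m - i) (w τ) x‖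
      ≤ ∑ i ∈ Finset.range (m + 1), (m.choose i : ℝ) * ‖σ‖ ^ i * C (m - i) *
          ((1 + |τ|) ^ A' * Real.exp (-(N * |x|))) := by
        refine Finset.sum_le_sum fun i hi => ?_
        rw [hder i]
        simp only
        rw [norm_mul, norm_pow]
        have hmi : m - i ∈ Finset.range (m + 1) := Finset.mem_range.mpr (by omega)
        have h2 : (1 + |τ|) ^ A (m - i) ≤ (1 + |τ|) ^ A' :=
          pow_le_pow_right₀ hτ (Finset.single_le_sum (f := A) (fun _ _ => Nat.zero_le _) hmi)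
        have h3 := hb (m - i) τ x
        have hCi := hC (m - i)
        calc (m.choose i : ℝ) * (‖σ‖ ^ i * ‖cexp (σ * x)‖) * ‖iteratedDeriv (m - i) (w τ) x‖
            ≤ (m.choose i : ℝ) * (‖σ‖ ^ i * ‖cexp (σ * x)‖) *
              (C (m - i) * (1 + |τ|) ^ A (m - i) * Real.exp (-(((N + M : ℕ) : ℝ) * |x|))) := by
              gcongr
          _ = (m.choose i : ℝ) * ‖σ‖ ^ i * C (m - i) * ((1 + |τ|) ^ A (m - i) *
              (‖cexp (σ * x)‖ * Real.exp (-(((N + M : ℕ) : ℝ) * |x|)))) := by ring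
          _ ≤ _ := by gcongr
    _ = S * (1 + |τ|) ^ A' * Real.exp (-(N * |x|)) := by
        rw [← Finset.sum_mul, ← hS]; ring

/-! ### the twisted weights -/

/-- `V_τ(y) = y^{iτ} V(y)`. -/
def Vt (V : ℝ → ℂ) (τ : ℝ) (y : ℝ) : ℂ := (y : ℂ) ^ (I * τ) * V y

lemma VD.rep {V : ℝ → ℂ} (h : VD V) : ∃ (Λ : ℝ → ℝ) (a b : ℝ), 0 < a ∧ a < b ∧ ContDiff ℝ ∞ Λ ∧
    (∀ y, y < a ∨ b < y → Λ y = 0) ∧
    ∀ τ y, Vt V τ y = cexp (I * ((τ * Λ y : ℝ) : ℂ)) * V y := by
  obtain ⟨a, b, ha, hab, hs⟩ := h.supp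
  have hb : 0 < b := ha.trans hab
  set β : ContDiffBump ((a + b) / 2 : ℝ) := ⟨(b - a) / 2, b / 2, by linarith, by linarith⟩ with hβ
  refine ⟨fun y => β y * Real.log y, a / 2, a / 2 + b, by linarith, by linarith, ?_, ?_, ?_⟩
  · rw [contDiff_iff_contDiffAt]
    intro y
    rcases le_or_gt y 0 with hy | hy
    · have h1 : (fun y => β y * Real.log y) =ᶠ[𝓝 y] fun _ => 0 := by
        filter_upwards [Iio_mem_nhds (show y < a / 2 by linarith)] with z hz
        have h2 : β z = 0 := by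
          apply β.zero_of_le_dist
          rw [Real.dist_eq]
          have h3 : z < a / 2 := hz
          rw [abs_of_neg (by linarith)]
          show b / 2 ≤ -(z - (a + b) / 2)
          linarith
        rw [h2, zero_mul]
      exact contDiffAt_const.congr_of_eventuallyEq h1
    · exact (β.contDiff.contDiffAt).mul (Real.contDiffAt_log.mpr hy.ne')
  · intro y hy
    have h2 : β y = 0 := by
      apply β.zero_of_le_dist
      rw [Real.dist_eq]
      show b / 2 ≤ |y - (a + b) / 2|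
      rcases hy with hy | hy
      · rw [abs_of_neg (by linarith)]
        linarith
      · rw [abs_of_pos (by linarith)]
        linarith
    simp only [h2, zero_mul]
  · intro τ y
    unfold Vt
    by_cases hy : y < a ∨ b < y
    · rw [hs y hy, mul_zero, mul_zero]
    · push Not at hy
      have hy0 : 0 < y := lt_of_lt_of_le ha hy.1
      have h2 : β y = 1 := by
        apply β.one_of_mem_closedBall
        rw [Metric.mem_closedBall, Real.dist_eq]
        show |y - (a + b) / 2| ≤ (b - a) / 2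
        rw [abs_le]
        constructor <;> linarith [hy.1, hy.2]
      have h3 : (y : ℂ) ≠ 0 := by exact_mod_cast hy0.ne'
      rw [Complex.cpow_def_of_ne_zero h3, ← Complex.ofReal_log hy0.le]
      congr 2
      simp only [h2]
      push_cast
      ring

lemma VD.Vt {V : ℝ → ℂ} (h : VD V) (τ : ℝ) : VD (Vt V τ) := by
  obtain ⟨Λ, a, b, ha, hab, hΛ, -, hrep⟩ := h.rep
  have h1 : Wt92.Vt V τ = fun y => cexp (I * ((τ * Λ y : ℝ) : ℂ)) * V y := by
    funext y; exact hrep τ y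
  rw [h1]
  refine h.mul_smooth ?_
  exact contDiff_cexpI.comp (contDiff_const.mul hΛ)

/-- `De (V_τ) = (De V)_τ + iτ V_τ`. -/
lemma De_Vt {V : ℝ → ℂ} (h : VD V) (τ : ℝ) :
    De (Vt V τ) = fun y => Vt (De V) τ y + (I * τ) * Vt V τ y := by
  obtain ⟨a, b, ha, hab, hs⟩ := h.supp
  funext y
  by_cases hy : y < a ∨ b < y
  · have h1 : Vt V τ =ᶠ[𝓝 y] fun _ => 0 := by
      rcases hy with hy | hy
      · filter_upwards [Iio_mem_nhds hy] with z hz
        unfold Vt; rw [hs z (Or.inl hz), mul_zero]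
      · filter_upwards [Ioi_mem_nhds hy] with z hz
        unfold Vt; rw [hs z (Or.inr hz), mul_zero]
    have h2 : V =ᶠ[𝓝 y] fun _ => 0 := by
      rcases hy with hy | hy
      · filter_upwards [Iio_mem_nhds hy] with z hz
        exact hs z (Or.inl hz)
      · filter_upwards [Ioi_mem_nhds hy] with z hz
        exact hs z (Or.inr hz)
    unfold De
    rw [h1.deriv_eq, h1.eq_of_nhds]
    unfold Vt
    simp only
    rw [h2.deriv_eq, h2.eq_of_nhds]
    simp
  · push Not at hy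
    have hy0 : 0 < y := lt_of_lt_of_le ha hy.1
    have h3 : (y : ℂ) ≠ 0 := by exact_mod_cast hy0.ne'
    have h4 : HasDerivAt (fun y : ℝ => (y : ℂ) ^ (I * τ)) ((I * τ) * (y : ℂ) ^ (I * τ - 1)) y := by
      by_cases hτ : (I * τ : ℂ) = 0
      · rw [hτ]
        simp only [Complex.cpow_zero, zero_mul]
        exact hasDerivAt_const _ _
      · exact hasDerivAt_ofReal_cpow_const hy0.ne' hτ
    have h5 := h4.mul (h.hasDerivAt y)
    have h6 : deriv (Vt V τ) y = (I * τ) * (y : ℂ) ^ (I * τ - 1) * V y +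
        (y : ℂ) ^ (I * τ) * deriv V y := h5.deriv
    unfold De
    rw [h6]
    unfold Vt
    simp only
    have h7 : (y : ℂ) ^ (I * τ - 1) * y = (y : ℂ) ^ (I * τ) := by
      rw [Complex.cpow_sub _ _ h3, Complex.cpow_one]
      field_simp
    linear_combination ((I * τ) * V y) * h7

/-! ### the zeroth derivative -/

section

variable {n : ℕ} {ξ : Eis → ℂ} {κ c : ℂ} {Vc : ℝ} {h0 B : ℂ} {l : ℤ}

lemma fOn_eq_Th {f : ℂ → ℂ} (hf : CS f) (hn : n ≠ 0) (hm : ξ 0 = 0 ∨ F1.Phi f 0 = 0) (u : ℂ) :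
    fOn n ξ Vc h0 B f u =
      (B * ((1 / (6 * Vc) : ℝ) : ℂ)) * Th ξ (powS n hn hf.Ph) (nrt n (u * h0)) := by
  classical
  unfold fOn Th
  congr 1
  refine tsum_congr fun m => ?_
  rw [powS_apply, hf.Ph_apply, mul_pow, nrt_pow hn]
  by_cases hm0 : m = 0
  · subst hm0
    rw [if_pos rfl, map_zero, zero_pow hn, mul_zero]
    rcases hm with h | h
    · rw [h, zero_mul]
    · have : Xi590.Phi f 0 = 0 := h
      rw [this, mul_zero]
  · rw [if_neg hm0]
    rfl

lemma integral_cs_Phi_zero (f : ℂ → ℂ) : F1.Phi f 0 = ∫ x, f x := by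
  unfold F1.Phi
  refine integral_congr_ae (Eventually.of_forall fun p => ?_)
  simp

/-- the base family `gI (wt V_τ l)`. -/
lemma pb_base {V : ℝ → ℂ} (h : VD V) (l : ℤ) : PB (fun τ => ((h.Vt τ).cs l).gI.S) := by
  obtain ⟨Λ, a, b, ha, hab, hΛ, hΛ0, hrep⟩ := h.rep
  have hb : 0 < b := ha.trans hab
  set L : ℂ → ℝ := fun s => Λ ((‖s‖ ^ 2)⁻¹) with hLd
  have hL : ContDiff ℝ ∞ L := by
    rw [contDiff_iff_contDiffAt]
    intro s
    by_cases hs : s = 0
    · subst hs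
      have h1 : L =ᶠ[𝓝 0] fun _ => 0 := by
        have h2 : 0 < Real.sqrt (b⁻¹) := Real.sqrt_pos.mpr (by positivity)
        filter_upwards [Metric.ball_mem_nhds (0 : ℂ) h2] with z hz
        simp only [hLd]
        by_cases hz0 : z = 0
        · subst hz0
          apply hΛ0
          left
          simp [ha]
        apply hΛ0
        right
        have hzp : 0 < ‖z‖ := norm_pos_iff.mpr hz0
        rw [mem_ball_zero_iff] at hz
        have h3 := pow_lt_pow_left₀ hz hzp.le two_ne_zero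
        rw [Real.sq_sqrt (by positivity)] at h3
        rw [lt_inv_comm₀ hb (by positivity)]
        exact h3
      exact contDiffAt_const.congr_of_eventuallyEq h1
    · have hsp : 0 < ‖s‖ := norm_pos_iff.mpr hs
      exact hΛ.contDiffAt.comp s (((contDiffAt_norm ℝ hs).pow 2).inv (by positivity))
  have hLc : HasCompactSupport L := by
    refine HasCompactSupport.intro (isCompact_closedBall (0 : ℂ) (Real.sqrt (a⁻¹))) fun s hs => ?_
    rw [mem_closedBall_zero_iff, not_le] at hs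
    have h3 := pow_lt_pow_left₀ hs (Real.sqrt_nonneg _) two_ne_zero
    rw [Real.sq_sqrt (by positivity)] at h3
    apply hΛ0
    left
    rw [inv_lt_comm₀ (lt_trans (by positivity) h3) ha]
    exact h3
  refine pb_mul (G₀ := (h.cs l).gI.S) hL (fun i => ?_) fun τ s => ?_
  · refine ⟨SchwartzMap.seminorm ℝ 0 i (hLc.toSchwartzMap hL), fun x => ?_⟩
    exact SchwartzMap.norm_iteratedFDeriv_le_seminorm ℝ (hLc.toSchwartzMap hL) i x
  · rw [CS.S_apply, CS.S_apply]
    unfold Xi590.gI wt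
    rw [hrep, norm_inv, inv_pow]
    ring

/-- uniform bound of the dual weight. -/
theorem ub_vO (hξ : XiP ξ κ c) {V : ℝ → ℂ} (h : VD V) (hn : n ≠ 0) (hh0 : h0 ≠ 0)
    (hl : ξ 0 = 0 ∨ l ≠ 0) : UB (fun τ x => vO n ξ Vc h0 B l (Vt V τ) x) := by
  intro N
  have hbase := pb_base h l
  have hR : PB (fun τ => powL n hn (fCL ((h.Vt τ).cs l).gI.S)) := (hbase.map fCL).map (powL n hn)
  have hFR : PB (fun τ => fCL (powL n hn (fCL ((h.Vt τ).cs l).gI.S))) := hR.map fCL
  set A₀ : ℕ := n * (2 * N) with hA₀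
  obtain ⟨C₁, A₁, hC₁, h₁⟩ := hR.sup (A₀ + 3)
  obtain ⟨C₂, A₂, hC₂, h₂⟩ := hFR.sup (A₀ + 5)
  obtain ⟨K, hK, hth⟩ := th_dec_explicit hξ A₀
  have hhp : 0 < ‖h0‖ := norm_pos_iff.mpr hh0
  set Bn : ℝ := ‖B * ((1 / (6 * Vc) : ℝ) : ℂ)‖ with hBn
  set H : ℝ := ‖h0‖ ^ (2 * N) + (‖h0‖ ^ (2 * N))⁻¹ with hH
  refine ⟨Bn * (K * (C₁ + C₂) * H), A₁ + A₂, by positivity, fun τ x => ?_⟩
  have hτ := one_le_par τ
  set S : ℝ := (C₁ + C₂) * (1 + |τ|) ^ (A₁ + A₂) with hS
  have hS0 : 0 ≤ S := by positivity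
  have hcs : CS (wt (Vt V τ) l) := (h.Vt τ).cs l
  set R : 𝓢(ℂ, ℂ) := powS n hn hcs.Ph with hRd
  have hRS : ∀ x, ‖R x‖ * (1 + ‖x‖) ^ (A₀ + 3) ≤ S := by
    intro x
    refine (h₁ τ x).trans ?_
    have : (1 + |τ|) ^ A₁ ≤ (1 + |τ|) ^ (A₁ + A₂) := pow_le_pow_right₀ hτ (by omega)
    rw [hS]
    calc C₁ * (1 + |τ|) ^ A₁ ≤ C₁ * (1 + |τ|) ^ (A₁ + A₂) := by gcongr
      _ ≤ (C₁ + C₂) * (1 + |τ|) ^ (A₁ + A₂) := by gcongr; linarith
  have hFS : ∀ x, ‖fCS R x‖ * (1 + ‖x‖) ^ (A₀ + 5) ≤ S := by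
    intro x
    refine (h₂ τ x).trans ?_
    have : (1 + |τ|) ^ A₂ ≤ (1 + |τ|) ^ (A₁ + A₂) := pow_le_pow_right₀ hτ (by omega)
    rw [hS]
    calc C₂ * (1 + |τ|) ^ A₂ ≤ C₂ * (1 + |τ|) ^ (A₁ + A₂) := by gcongr
      _ ≤ (C₁ + C₂) * (1 + |τ|) ^ (A₁ + A₂) := by gcongr; linarith
  have hR0 : ξ 0 * R 0 = 0 := by
    rcases hl with hl | hl
    · rw [hl, zero_mul]
    · have e1 : R 0 = F1.Phi (wt (Vt V τ) l) 0 := by
        rw [hRd, powS_apply, hcs.Ph_apply, zero_pow hn]
        rfl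
      rw [e1, integral_cs_Phi_zero, (rot_wt _ l).integral_eq_zero hl, mul_zero]
  have hRi : ξ 0 * ∫ z, R z = 0 := by
    rcases hl with hl | hl
    · rw [hl, zero_mul]
    · have e1 : ∫ z, R z = ∫ z : ℂ, F1.Phi (wt (Vt V τ) l) (z ^ n) := by
        refine integral_congr_ae (Eventually.of_forall fun z => ?_)
        simp only [hRd]
        rw [powS_apply, hcs.Ph_apply]
        rfl
      rw [e1, (rot_wt _ l).integral_Phi_pow hl hn, mul_zero]
  set u : ℂ := ((Real.exp (x / 2) : ℝ) : ℂ) with hu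
  have hu0 : u ≠ 0 := by rw [hu]; exact_mod_cast (Real.exp_pos _).ne'
  have huh : u * h0 ≠ 0 := mul_ne_zero hu0 hh0
  have hσ : nrt n (u * h0) ≠ 0 := nrt_ne_zero hn huh
  have hm : ξ 0 = 0 ∨ F1.Phi (wt (Vt V τ) l) 0 = 0 := by
    rcases hl with hl | hl
    · exact Or.inl hl
    · right
      rw [integral_cs_Phi_zero, (rot_wt _ l).integral_eq_zero hl]
  have hkey := hth R S hRS hFS hR0 hRi (nrt n (u * h0)) hσ
  have hpow : ‖nrt n (u * h0)‖ ^ A₀ = (Real.exp (x / 2)) ^ (2 * N) * ‖h0‖ ^ (2 * N) := by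
    rw [hA₀, pow_mul, norm_nrt_pow hn, norm_mul, mul_pow, hu, Complex.norm_real,
      Real.norm_of_nonneg (Real.exp_pos _).le]
  have hexp2 : (Real.exp (x / 2)) ^ (2 * N) = Real.exp (N * x) := by
    rw [← Real.exp_nat_mul]
    congr 1
    push_cast
    ring
  rw [hexp2] at hpow
  have hfin : ‖vO n ξ Vc h0 B l (Vt V τ) x‖ ≤ Bn * ‖Th ξ R (nrt n (u * h0))‖ := by
    unfold vO
    rw [fOn_eq_Th hcs hn hm, norm_mul]
  have hTh : ‖Th ξ R (nrt n (u * h0))‖ ≤ K * S * H * Real.exp (-(N * |x|)) := by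
    rcases le_total 0 x with hx | hx
    · rw [abs_of_nonneg hx]
      refine hkey.2.trans ?_
      rw [hpow, mul_inv, ← Real.exp_neg]
      have : (‖h0‖ ^ (2 * N))⁻¹ ≤ H := by rw [hH]; have : 0 ≤ ‖h0‖ ^ (2 * N) := by positivity
                                          linarith
      calc K * S * (Real.exp (-(N * x)) * (‖h0‖ ^ (2 * N))⁻¹)
          ≤ K * S * (Real.exp (-(N * x)) * H) := by gcongr
        _ = _ := by ring
    · rw [abs_of_nonpos hx]
      refine hkey.1.trans ?_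
      rw [hpow]
      have : ‖h0‖ ^ (2 * N) ≤ H := by rw [hH]; have : 0 ≤ (‖h0‖ ^ (2 * N))⁻¹ := by positivity
                                      linarith
      have e : -(N * -x) = N * x := by ring
      rw [e]
      calc K * S * (Real.exp (N * x) * ‖h0‖ ^ (2 * N))
          ≤ K * S * (Real.exp (N * x) * H) := by gcongr
        _ = _ := by ring
  calc ‖vO n ξ Vc h0 B l (Vt V τ) x‖ ≤ Bn * ‖Th ξ R (nrt n (u * h0))‖ := hfin
    _ ≤ Bn * (K * S * H * Real.exp (-(N * |x|))) := by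
        have : 0 ≤ Bn := norm_nonneg _
        gcongr
    _ = _ := by rw [hS]; ring

/-! ### linearity and all derivatives -/

lemma Phi_add {f g : ℂ → ℂ} (hf : CS f) (hg : CS g) (y : ℂ) :
    F1.Phi (fun x => f x + g x) y = F1.Phi f y + F1.Phi g y := by
  unfold F1.Phi
  have h1 : ∀ {f : ℂ → ℂ}, CS f → Integrable (fun p : ℂ => f p * eC (-(y / p))) := by
    intro f hf
    refine hf.integrable.mul_bdd (c := 1) (measurable_kern y).aestronglyMeasurable ?_
    exact Eventually.of_forall fun q => by rw [Parseval499.norm_eC]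
  rw [← integral_add (h1 hf) (h1 hg)]
  refine integral_congr_ae (Eventually.of_forall fun p => ?_)
  simp only
  ring

lemma Phi_smul (a : ℂ) (f : ℂ → ℂ) (y : ℂ) :
    F1.Phi (fun x => a * f x) y = a * F1.Phi f y := by
  unfold F1.Phi
  rw [← integral_const_mul]
  refine integral_congr_ae (Eventually.of_forall fun p => ?_)
  simp only
  ring

lemma summable_fOn {f : ℂ → ℂ} (hf : CS f) (hn : n ≠ 0) (hξ : ∀ a, ‖ξ a‖ ≤ 1) {t : ℂ}
    (ht : t ≠ 0) (hh0 : h0 ≠ 0) :
    Summable fun m : Eis => if m = 0 then (0 : ℂ) else ξ m * F1.Phi f (t * h0 * toC m ^ n) := by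
  obtain ⟨C, hC0, hC⟩ := Phi_dec hf 3
  have hδ : 0 < ‖t * h0‖ := norm_pos_iff.mpr (mul_ne_zero ht hh0)
  refine Summable.of_norm_bounded ((summable_dec3 hδ).mul_left C) fun m => ?_
  by_cases hm : m = 0
  · simp only [hm, if_true, norm_zero]
    positivity
  · rw [if_neg hm, norm_mul]
    have h1 := hC (t * h0 * toC m ^ n)
    have h2 := one_le_norm_toC hm
    have h3 : ‖t * h0‖ * ‖toC m‖ ≤ ‖t * h0 * toC m ^ n‖ := by
      rw [norm_mul (t * h0), norm_pow]
      have := le_self_pow₀ h2 hn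
      gcongr
    have h4 : ((1 + ‖t * h0 * toC m ^ n‖) ^ 3)⁻¹ ≤ ((1 + ‖t * h0‖ * ‖toC m‖) ^ 3)⁻¹ := by
      refine inv_anti₀ (by positivity) (pow_le_pow_left₀ (by positivity) ?_ 3)
      linarith
    calc ‖ξ m‖ * ‖F1.Phi f (t * h0 * toC m ^ n)‖
        ≤ 1 * (C * ((1 + ‖t * h0‖ * ‖toC m‖) ^ 3)⁻¹) :=
          mul_le_mul (hξ m) (h1.trans (by gcongr)) (norm_nonneg _) zero_le_one
      _ = _ := one_mul _

lemma fOn_add {f g : ℂ → ℂ} (hf : CS f) (hg : CS g) (hn : n ≠ 0) (hξ : ∀ a, ‖ξ a‖ ≤ 1) {t : ℂ}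
    (ht : t ≠ 0) (hh0 : h0 ≠ 0) :
    fOn n ξ Vc h0 B (fun x => f x + g x) t = fOn n ξ Vc h0 B f t + fOn n ξ Vc h0 B g t := by
  classical
  unfold fOn
  rw [← mul_add]
  congr 1
  have h1 := summable_fOn (n := n) (ξ := ξ) (h0 := h0) hf hn hξ ht hh0
  have h2 := summable_fOn (n := n) (ξ := ξ) (h0 := h0) hg hn hξ ht hh0
  rw [← Summable.tsum_add]
  · refine tsum_congr fun m => ?_
    by_cases hm : m = 0
    · simp [hm]
    · rw [if_neg hm, if_neg hm, if_neg hm, Phi_add hf hg]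
      ring
  · exact h1.congr fun m => by congr
  · exact h2.congr fun m => by congr

lemma fOn_smul (a : ℂ) (f : ℂ → ℂ) (t : ℂ) :
    fOn n ξ Vc h0 B (fun x => a * f x) t = a * fOn n ξ Vc h0 B f t := by
  classical
  unfold fOn
  have h1 : ∀ m : Eis, (if m = 0 then (0 : ℂ) else
      ξ m * F1.Phi (fun x => a * f x) (t * h0 * toC m ^ n)) =
      a * (if m = 0 then (0 : ℂ) else ξ m * F1.Phi f (t * h0 * toC m ^ n)) := by
    intro m
    by_cases hm : m = 0
    · simp [hm]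
    · rw [if_neg hm, if_neg hm, Phi_smul]
      ring
  rw [tsum_congr h1, tsum_mul_left]
  ring

lemma wt_add (V W : ℝ → ℂ) (l : ℤ) :
    wt (fun y => V y + W y) l = fun x => wt V l x + wt W l x := by
  funext x; unfold wt; ring

lemma wt_smul (a : ℂ) (V : ℝ → ℂ) (l : ℤ) : wt (fun y => a * V y) l = fun x => a * wt V l x := by
  funext x; unfold wt; ring

lemma vO_add {V W : ℝ → ℂ} (hV : VD V) (hW : VD W) (hn : n ≠ 0) (hξ : ∀ a, ‖ξ a‖ ≤ 1)
    (hh0 : h0 ≠ 0) (x : ℝ) :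
    vO n ξ Vc h0 B l (fun y => V y + W y) x = vO n ξ Vc h0 B l V x + vO n ξ Vc h0 B l W x := by
  unfold vO
  rw [wt_add, fOn_add (hV.cs l) (hW.cs l) hn hξ _ hh0]
  exact_mod_cast (Real.exp_pos _).ne'

lemma vO_smul (a : ℂ) (V : ℝ → ℂ) (x : ℝ) :
    vO n ξ Vc h0 B l (fun y => a * V y) x = a * vO n ξ Vc h0 B l V x := by
  unfold vO
  rw [wt_smul, fOn_smul]

lemma De_add {V W : ℝ → ℂ} (hV : VD V) (hW : VD W) :
    De (fun y => V y + W y) = fun y => De V y + De W y := by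
  funext y
  unfold De
  have h1 : deriv (fun y => V y + W y) y = deriv V y + deriv W y :=
    ((hV.hasDerivAt y).add (hW.hasDerivAt y)).deriv
  rw [h1]
  ring

lemma De_smul (a : ℂ) {V : ℝ → ℂ} (hV : VD V) : De (fun y => a * V y) = fun y => a * De V y := by
  funext y
  unfold De
  have h1 : deriv (fun y => a * V y) y = a * deriv V y := ((hV.hasDerivAt y).const_mul a).deriv
  rw [h1]
  ring

lemma De_iter_add {V W : ℝ → ℂ} (hV : VD V) (hW : VD W) (m : ℕ) :
    De^[m] (fun y => V y + W y) = fun y => (De^[m] V) y + (De^[m] W) y := by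
  induction m with
  | zero => rfl
  | succ m ih =>
    rw [Function.iterate_succ_apply', ih, De_add (hV.De_iter m) (hW.De_iter m),
      Function.iterate_succ_apply', Function.iterate_succ_apply']

lemma De_iter_smul (a : ℂ) {V : ℝ → ℂ} (hV : VD V) (m : ℕ) :
    De^[m] (fun y => a * V y) = fun y => a * (De^[m] V) y := by
  induction m with
  | zero => rfl
  | succ m ih =>
    rw [Function.iterate_succ_apply', ih, De_smul a (hV.De_iter m), Function.iterate_succ_apply']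

theorem ub_vO_iter (hξ : XiP ξ κ c) (hn : n ≠ 0) (hh0 : h0 ≠ 0) (hl : ξ 0 = 0 ∨ l ≠ 0) (m : ℕ) :
    ∀ {V : ℝ → ℂ}, VD V → UB (fun τ x => vO n ξ Vc h0 B l (De^[m] (Vt V τ)) x) := by
  induction m with
  | zero => intro V h; exact ub_vO hξ h hn hh0 hl
  | succ m ih =>
    intro V h
    have h1 := (ih h.De).add (ih h).tau_mul
    have h2 : (fun τ x => vO n ξ Vc h0 B l (De^[m + 1] (Vt V τ)) x) = fun τ x =>
        vO n ξ Vc h0 B l (De^[m] (Vt (De V) τ)) x +
          (I * τ) * vO n ξ Vc h0 B l (De^[m] (Vt V τ)) x := by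
      funext τ x
      rw [Function.iterate_succ_apply, De_Vt h, De_iter_add (h.De.Vt τ) ((h.Vt τ).const_mul _),
        vO_add ((h.De.Vt τ).De_iter m) (by
          rw [De_iter_smul _ (h.Vt τ)]
          exact ((h.Vt τ).De_iter m).const_mul _) hn hξ.le1 hh0,
        De_iter_smul _ (h.Vt τ), vO_smul]
    rw [h2]
    exact h1

/-- **the dual weight is `RDF`**. -/
theorem rdf_vO (hξ : XiP ξ κ c) {V : ℝ → ℂ} (h : VD V) (hn : n ≠ 0) (hh0 : h0 ≠ 0)
    (hl : ξ 0 = 0 ∨ l ≠ 0) : RDF (fun τ x => vO n ξ Vc h0 B l (Vt V τ) x) where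
  smooth τ := contDiff_vO (h.Vt τ) l hn hξ.le1 Vc hh0 B
  bd m := by
    have h1 := ub_vO_iter (Vc := Vc) (B := B) hξ hn hh0 hl m h
    have h2 : (fun τ x => iteratedDeriv m (fun x => vO n ξ Vc h0 B l (Vt V τ) x) x) =
        fun τ x => vO n ξ Vc h0 B l (De^[m] (Vt V τ)) x := by
      funext τ x
      have := iteratedDeriv_vO (h.Vt τ) l hn hξ.le1 Vc hh0 B m
      exact congrFun this x
    rw [h2]
    exact h1

end

end Crest.Agent.R017.Wt92
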