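import Crest.Agent.R017.EndA1_92
import Crest.Agent.R017.Wt4_92
import Crest.Agent.R017.AS0_590
import Crest.Agent.R017.Rw2_266

/-!
# Row 17, section A, end of A, part 2 (helper92): the left side

`conj (∑_c f_+(b c) S_a(ν; c)) = N(N) sph(b) |b|⁻¹ PsiE (Q / |b|²)`.
-/

set_option autoImplicit false

noncomputable section

open MeasureTheory Complex Set
open scoped ComplexConjugate SchwartzMap ContDiff

namespace Crest.Agent.R017.EndA92

open Crest.Agent.R012 Crest.Agent.R012.Eis Crest.Agent.R012.K695 Crest.Agent.R012.Gauss880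
open Crest.Agent.R012.Mob705
open Crest.Agent.R012.Parseval499 Crest.Agent.R012.FourCoef499
open Crest.Agent.R012.Four813 (phat)
open Crest.Agent.R017.Xn590 Crest.Agent.R017.Coef92 Crest.Agent.R017.Orth681
open Crest.Agent.R017.Glue681 Crest.Agent.R017.Wt92 Crest.Agent.R017.XiI590
open Crest.Agent.R017.B770 Crest.Agent.R017.A590 Crest.Agent.R017.Rw266
open Crest.Agent.R017.Sx440 Crest.Agent.R017.Sx545

/-! ### weights -/

lemma vd_sw {V : ℝ → ℂ} (h : SW V) : VD V where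
  smooth := h.smooth
  supp := by
    by_cases he : (tsupport V).Nonempty
    · obtain ⟨a, ha⟩ := h.cpt.isCompact.exists_isLeast he
      obtain ⟨b, hb⟩ := h.cpt.isCompact.exists_isGreatest he
      have ha0 : 0 < a := h.supp ha.1
      have hab : a ≤ b := ha.2 hb.1
      refine ⟨a, b + 1, ha0, by linarith, fun y hy => ?_⟩
      apply image_eq_zero_of_notMem_tsupport
      intro hmem
      have h1 := ha.2 hmem
      have h2 := hb.2 hmem
      rcases hy with hy | hy <;> linarith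
    · refine ⟨1, 2, one_pos, one_lt_two, fun y _ => ?_⟩
      apply image_eq_zero_of_notMem_tsupport
      exact fun hmem => he ⟨y, hmem⟩

/-- `conj V(y) y^{-1/2}` -/
def V1 (V : ℝ → ℂ) (y : ℝ) : ℂ := conj (V y) * ((y ^ (-(1 / 2) : ℝ) : ℝ) : ℂ)

lemma vd_V1 {V : ℝ → ℂ} (h : VD V) : VD (V1 V) where
  smooth := by
    obtain ⟨a, b, ha, hab, hs⟩ := h.supp
    rw [contDiff_iff_contDiffAt]
    intro y
    by_cases hy : 0 < y
    · unfold V1
      refine ContDiffAt.mul ?_ ?_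
      · exact (Complex.conjCLE.contDiff.comp h.smooth).contDiffAt
      · exact Complex.ofRealCLM.contDiff.contDiffAt.comp y
          (contDiffAt_id.rpow_const_of_ne hy.ne')
    · have hy' : y < a := lt_of_le_of_lt (not_lt.mp hy) ha
      have : V1 V =ᶠ[nhds y] fun _ => 0 := by
        filter_upwards [Iio_mem_nhds hy'] with x hx
        unfold V1
        rw [hs x (Or.inl hx), map_zero, zero_mul]
      exact contDiffAt_const.congr_of_eventuallyEq this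
  supp := by
    obtain ⟨a, b, ha, hab, hs⟩ := h.supp
    exact ⟨a, b, ha, hab, fun y hy => by unfold V1; rw [hs y hy, map_zero, zero_mul]⟩

/-- the test function at scale `Q` -/
def fQ (V : ℝ → ℂ) (L : ℤ) (τ Q : ℝ) (z : ℂ) : ℂ :=
  ((Q ^ (-(1 / 2) : ℝ) : ℝ) : ℂ) * wt (Vt (V1 V) (-τ)) L (z / ((Real.sqrt Q : ℝ) : ℂ))

lemma conj_sph (L : ℤ) {z : ℂ} (hz : z ≠ 0) : conj (sph L z) = sph (-L) z := by
  have hn := norm_sph L hz
  have h1 : sph (-L) z = (sph L z)⁻¹ := by unfold sph; rw [zpow_neg]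
  rw [h1, ← one_div, eq_div_iff (by
    intro h0
    rw [h0, norm_zero] at hn
    exact zero_ne_one hn), mul_comm, Complex.mul_conj, Complex.normSq_eq_norm_sq, hn]
  norm_num

lemma sph_div_pos (L : ℤ) (z : ℂ) {t : ℝ} (ht : 0 < t) : sph L (z / (t : ℂ)) = sph L z := by
  have h1 : z / (t : ℂ) = z * ((t⁻¹ : ℝ) : ℂ) := by push_cast; rw [div_eq_mul_inv]
  rw [h1, sph_mul, sph_of_pos L (inv_pos.mpr ht), mul_one]

lemma conj_fQ (V : ℝ → ℂ) (L : ℤ) (τ : ℝ) {Q : ℝ} (hQ : 0 < Q) {z : ℂ} (hz : z ≠ 0) :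
    conj (fQ V L τ Q z) =
      ((‖z‖ ^ 2 / Q : ℝ) : ℂ) ^ (I * τ) * V (‖z‖ ^ 2 / Q) * ((‖z‖⁻¹ : ℝ) : ℂ) * sph (-L) z := by
  have hq : 0 < Real.sqrt Q := Real.sqrt_pos.mpr hQ
  have hzn : 0 < ‖z‖ := norm_pos_iff.mpr hz
  have hy : ‖z / ((Real.sqrt Q : ℝ) : ℂ)‖ ^ 2 = ‖z‖ ^ 2 / Q := by
    rw [norm_div, Complex.norm_real, Real.norm_of_nonneg hq.le, div_pow, Real.sq_sqrt hQ.le]
  unfold fQ wt
  rw [hy, sph_div_pos L z hq]
  set y : ℝ := ‖z‖ ^ 2 / Q with hydef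
  have hy0 : 0 < y := by positivity
  have h1 : conj ((y : ℂ) ^ (I * ((-τ : ℝ) : ℂ))) = (y : ℂ) ^ (I * (τ : ℂ)) := by
    have h3 := Complex.cpow_conj (y : ℂ) (I * ((-τ : ℝ) : ℂ)) (by
      rw [Complex.arg_ofReal_of_nonneg hy0.le]
      exact Real.pi_pos.ne)
    rw [Complex.conj_ofReal] at h3
    rw [← h3]
    congr 1
    rw [map_mul, Complex.conj_I, Complex.conj_ofReal]
    push_cast
    ring
  unfold Vt V1
  rw [map_mul, map_mul, map_mul, map_mul, Complex.conj_conj, Complex.conj_ofReal,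
    Complex.conj_ofReal, h1, conj_sph L hz]
  have h2 : Q ^ (-(1 / 2) : ℝ) * y ^ (-(1 / 2) : ℝ) = ‖z‖⁻¹ := by
    rw [← Real.mul_rpow hQ.le hy0.le, hydef, mul_div_cancel₀ _ hQ.ne', Real.rpow_neg (by positivity),
      ← Real.sqrt_eq_rpow, Real.sqrt_sq hzn.le]
  rw [← h2]
  push_cast
  ring

lemma fQ_cs {V : ℝ → ℂ} (h : VD V) (L : ℤ) (τ : ℝ) {Q : ℝ} (hQ : 0 < Q) :
    Xi590.CS (fQ V L τ Q) := by
  have hq : ((Real.sqrt Q : ℝ) : ℂ) ≠ 0 := by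
    exact_mod_cast (Real.sqrt_pos.mpr hQ).ne'
  have h1 : Xi590.CS (wt (Vt (V1 V) (-τ)) L) := ((vd_V1 h).Vt (-τ)).cs L
  have h2 := cs_smul (cs_dil h1 (inv_ne_zero hq)) ((Q ^ (-(1 / 2) : ℝ) : ℝ) : ℂ)
  have e : fQ V L τ Q = fun x => ((Q ^ (-(1 / 2) : ℝ) : ℝ) : ℂ) *
      wt (Vt (V1 V) (-τ)) L ((((Real.sqrt Q : ℝ) : ℂ))⁻¹ * x) := by
    funext x
    unfold fQ
    rw [div_eq_inv_mul x]
  rw [e]
  exact h2

lemma fQ_dat {V : ℝ → ℂ} (h : VD V) {L : ℤ} (hL : L ≠ 0) (τ : ℝ) {Q : ℝ} (hQ : 0 < Q)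
    {n : ℕ} (hn : n ≠ 0) (ξ : Eis → ℂ) : DatN n ((-1) ^ L) ξ (fQ V L τ Q) := by
  have hq : ((Real.sqrt Q : ℝ) : ℂ) ≠ 0 := by
    exact_mod_cast (Real.sqrt_pos.mpr hQ).ne'
  have h1 : DatN n ((-1) ^ L) ξ (wt (Vt (V1 V) (-τ)) L) :=
    datN_wt ((vd_V1 h).Vt (-τ)) hn (Or.inr hL)
  have h2 := DatN.smul (DatN.dil hn h1 (inv_ne_zero hq)) ((Q ^ (-(1 / 2) : ℝ) : ℝ) : ℂ)
  have e : fQ V L τ Q = fun x => ((Q ^ (-(1 / 2) : ℝ) : ℝ) : ℂ) *
      wt (Vt (V1 V) (-τ)) L ((((Real.sqrt Q : ℝ) : ℂ))⁻¹ * x) := by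
    funext x
    unfold fQ
    rw [div_eq_inv_mul x]
  rw [e]
  exact h2

/-! ### finite support -/

lemma finite_nm_le (X : ℝ) : {c : Eis | (nm c : ℝ) ≤ X}.Finite := by
  refine (Finset.finite_toSet (ball ⌊X⌋₊)).subset fun c hc => ?_
  rw [Finset.mem_coe, mem_ball]
  exact Nat.le_floor hc

lemma one_le_norm_toC' {m : Eis} (hm : m ≠ 0) : 1 ≤ ‖toC m‖ := by
  have h1 : (1 : ℝ) ≤ nm m := by exact_mod_cast nm_pos.mpr hm
  rw [← norm_toC_sq] at h1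
  nlinarith [norm_nonneg (toC m)]

lemma finite_pairs {f : ℂ → ℂ} (hf : Xi590.CS f) {b : ℂ} (hb : b ≠ 0) :
    {p : Eis × Eis | p.1 ≠ 0 ∧ p.2 ≠ 0 ∧ f (toC p.2 ^ 6 * (b * toC p.1)) ≠ 0}.Finite := by
  obtain ⟨a, K, ha, haK, hs⟩ := hf.supp
  have hbn : 0 < ‖b‖ := norm_pos_iff.mpr hb
  have hKpos : 0 < K := ha.trans haK
  refine ((finite_nm_le ((K / ‖b‖) ^ 2)).prod (finite_nm_le ((K / ‖b‖) ^ 2))).subset ?_
  rintro ⟨c, e⟩ ⟨hc, he, hne⟩
  simp only at hc he hne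
  have h1 : ‖toC e ^ 6 * (b * toC c)‖ ≤ K := by
    by_contra hlt
    exact hne (hs _ (Or.inr (not_le.mp hlt)))
  rw [norm_mul, norm_mul, norm_pow] at h1
  have hc1 := one_le_norm_toC' hc
  have he1 := one_le_norm_toC' he
  have he6 : ‖toC e‖ ≤ ‖toC e‖ ^ 6 := le_self_pow₀ he1 (by norm_num)
  have he6' : 1 ≤ ‖toC e‖ ^ 6 := one_le_pow₀ he1
  have h2 : ‖toC c‖ ≤ K / ‖b‖ := by
    rw [le_div_iff₀ hbn]
    nlinarith [mul_pos hbn (lt_of_lt_of_le one_pos hc1)]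
  have h3 : ‖toC e‖ ≤ K / ‖b‖ := by
    rw [le_div_iff₀ hbn]
    calc ‖toC e‖ * ‖b‖ ≤ ‖toC e‖ ^ 6 * ‖b‖ := by gcongr
      _ ≤ ‖toC e‖ ^ 6 * (‖b‖ * ‖toC c‖) := by
          have : ‖b‖ ≤ ‖b‖ * ‖toC c‖ := le_mul_of_one_le_right hbn.le hc1
          gcongr
      _ ≤ K := h1
  simp only [Set.mem_prod, Set.mem_ofPred_eq]
  constructor
  · rw [← norm_toC_sq]; gcongr
  · rw [← norm_toC_sq]; gcongr

/-! ### evaluation of the left side -/

lemma ne_zero_of_sm {M c : Eis} (h : Sm M c) : c ≠ 0 := IsPrim.ne_zero h.1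

/-- one term -/
lemma term_eval {V : ℝ → ℂ} {ψ : Eis → ℂ} {l : ℤ} {τ Q : ℝ} (hQ : 0 < Q) {ν c e : Eis}
    (hc : c ≠ 0) (he : e ≠ 0) {x y : ℂ} (hx : x = ψ e ^ 6)
    (hy : y = ψ c * conj (sy 2 c) * LS848.eps2 c) {b : ℂ} (hb : b ≠ 0) :
    x * ((nm e : ℂ) ^ 5 * conj (fQ V (-(l + 1)) τ Q (toC e ^ 6 * (b * toC c)))) *
        (y * conj (gs6 ν c)) =
      (sph (l + 1) b * ((‖b‖⁻¹ : ℝ) : ℂ)) * (xiE ψ l e * (nm e : ℂ) ^ 2 *
        (End699.tw ψ l c * HN ν c *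
          (fun y : ℝ => (y : ℂ) ^ (I * τ) * V y) (nm c * (nm e : ℝ) ^ 6 / (Q / ‖b‖ ^ 2)))) := by
  have hcC : toC c ≠ 0 := Po581.toC_ne_zero hc
  have heC : toC e ≠ 0 := Po581.toC_ne_zero he
  have hz : toC e ^ 6 * (b * toC c) ≠ 0 := mul_ne_zero (pow_ne_zero 6 heC) (mul_ne_zero hb hcC)
  have hbn : 0 < ‖b‖ := norm_pos_iff.mpr hb
  rw [conj_fQ V _ τ hQ hz]
  have h1 : ‖toC e ^ 6 * (b * toC c)‖ ^ 2 / Q = nm c * (nm e : ℝ) ^ 6 / (Q / ‖b‖ ^ 2) := by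
    rw [norm_mul, norm_mul, norm_pow]
    have e1 := norm_toC_sq c
    have e2 := norm_toC_sq e
    rw [← e1, ← e2]
    field_simp
  have h2 : ((‖toC e ^ 6 * (b * toC c)‖⁻¹ : ℝ) : ℂ) =
      ((‖b‖⁻¹ : ℝ) : ℂ) * (((nm e : ℂ) ^ 3)⁻¹ * ((Real.sqrt (nm c) : ℝ) : ℂ)⁻¹) := by
    have e1 : ‖toC e‖ ^ 6 = (nm e : ℝ) ^ 3 := by rw [← norm_toC_sq]; ring
    have e2 : ‖toC c‖ = Real.sqrt (nm c) := by
      rw [← norm_toC_sq, Real.sqrt_sq (norm_nonneg _)]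
    rw [norm_mul, norm_mul, norm_pow, e1, e2]
    push_cast
    rw [mul_inv, mul_inv]
    ring
  have h3 : sph (-(-(l + 1))) (toC e ^ 6 * (b * toC c)) =
      sph (l + 1) (toC e) ^ 6 * (sph (l + 1) b * (sph l (toC c) * sph 1 (toC c))) := by
    rw [neg_neg, sph_mul, sph_mul, sph_add l 1 hcC]
    congr 1
    simp only [pow_succ, pow_zero, one_mul, sph_mul]
  have hne : (nm e : ℂ) ≠ 0 := by exact_mod_cast (nm_pos.mpr he).ne'
  have key : (nm e : ℂ) ^ 5 * ((nm e : ℂ) ^ 3)⁻¹ = (nm e : ℂ) ^ 2 := by field_simp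
  rw [h1, h2, h3, hx, hy]
  unfold xiE HN End699.tw
  rw [ang_eq, ang_eq, ang_eq, div_eq_mul_inv _ (((Real.sqrt (nm c) : ℝ) : ℂ)), ← key]
  simp only
  generalize ((((nm c : ℝ) * (nm e : ℝ) ^ 6 / (Q / ‖b‖ ^ 2) : ℝ) : ℂ) ^ (I * (τ : ℂ))) = t1
  generalize V ((nm c : ℝ) * (nm e : ℝ) ^ 6 / (Q / ‖b‖ ^ 2)) = t2
  generalize (((Real.sqrt (nm c) : ℝ) : ℂ))⁻¹ = t3
  generalize conj (gs6 ν c) = t4
  generalize conj (sy 2 c) = t5
  generalize LS848.eps2 c = t6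
  generalize sph 1 (toC c) = t7
  generalize sph l (toC c) = t8
  generalize sph (l + 1) b = t9
  generalize sph (l + 1) (toC e) = t10
  generalize ((‖b‖⁻¹ : ℝ) : ℂ) = t11
  generalize ((nm e : ℂ) ^ 3)⁻¹ = t12
  generalize ψ e = t13
  generalize ψ c = t14
  generalize (nm e : ℂ) ^ 5 = t15
  ring

open Classical in
/-- **the left side**, one dilate. -/
theorem left_eval {M N ν x : Eis} {ψ g ξ : Eis → ℂ} {V : ℝ → ℂ} {l : ℤ} {τ Q : ℝ}
    (hV : VD V) (hQ : 0 < Q) (hmul : ∀ a b, ξ (a * b) = ξ a * ξ b)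
    (hu : ∀ u, IsUnit u → ξ u = 1) (h3 : (3 : Eis) ∣ M) {k : ℕ} {μ : Fin k → ℂ} {d : Fin k → Eis}
    (hMob : Mob M k μ d) (hξψ : ∀ e, Sm M e → conj (ξ e) = ψ e ^ 6) (hN : Lev N)
    (hx : N ∣ x + ν) (hSm : ∀ c, Sm M c ↔ (Gd c ∧ IsCoprime c N))
    (hg : ∀ c, Sm M c → conj (g c * sy6 (N * sq3) c) = ψ c * conj (sy 2 c) * LS848.eps2 c)
    {b : ℂ} (hb : b ≠ 0) :
    conj (∑' c : Eis, if c = 0 then 0 else
        fPn 6 ξ (redf 6 ξ k μ d (fQ V (-(l + 1)) τ Q)) (b * toC c) * SC (rowA N x g) N ν c) =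
      (nm N : ℂ) * (sph (l + 1) b * ((‖b‖⁻¹ : ℝ) : ℂ)) *
        PsiE M (xiE ψ l) (End699.tw ψ l) ν (fun y => (y : ℂ) ^ (I * τ) * V y) (Q / ‖b‖ ^ 2) := by
  set f := fQ V (-(l + 1)) τ Q with hf
  have hfc : Xi590.CS f := fQ_cs hV _ τ hQ
  set G : Eis → Eis → ℂ := fun c e => if Sm M c ∧ Sm M e then
    conj (ξ e) * ((nm e : ℂ) ^ 5 * conj (f (toC e ^ 6 * (b * toC c)))) *
      (conj (g c * sy6 (N * sq3) c) * conj (gs6 ν c)) else 0 with hG
  have hfin : (Function.support (Function.uncurry G)).Finite := by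
    refine (finite_pairs hfc hb).subset ?_
    rintro ⟨c, e⟩ hne
    rw [Function.mem_support] at hne
    simp only [Function.uncurry_apply_pair, hG] at hne
    split_ifs at hne with hs
    · refine ⟨ne_zero_of_sm hs.1, ne_zero_of_sm hs.2, fun h0 => hne ?_⟩
      rw [h0, map_zero, mul_zero, mul_zero, zero_mul]
    · exact absurd rfl hne
  have hsum : Summable (Function.uncurry G) := summable_of_hasFiniteSupport hfin
  have e1 : conj (∑' c : Eis, if c = 0 then 0 else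
        fPn 6 ξ (redf 6 ξ k μ d f) (b * toC c) * SC (rowA N x g) N ν c) =
      (nm N : ℂ) * ∑' c : Eis, ∑' e : Eis, G c e := by
    rw [Complex.conj_tsum, ← tsum_mul_left]
    refine tsum_congr fun c => ?_
    by_cases hc : Sm M c
    · have hc0 := ne_zero_of_sm hc
      obtain ⟨hgd, hcop⟩ := (hSm c).mp hc
      rw [if_neg hc0, SC_rowA hN hgd hcop hx,
        fPn_redf_Sm (by norm_num) (dvd_refl 6) h3 hMob hmul hu hfc, map_mul, Complex.conj_tsum]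
      have e2 : ∀ e : Eis, G c e = conj (if Sm M e then ξ e * ((nm e : ℂ) ^ (6 - 1) *
          f (toC e ^ 6 * (b * toC c))) else 0) *
          (conj (g c * sy6 (N * sq3) c) * conj (gs6 ν c)) := by
        intro e
        simp only [hG]
        by_cases he : Sm M e
        · rw [if_pos ⟨hc, he⟩, if_pos he, map_mul conj (ξ e), map_mul conj ((nm e : ℂ) ^ (6 - 1)),
            map_pow, Complex.conj_natCast]
        · rw [if_neg (fun h => he h.2), if_neg he, map_zero, zero_mul]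
      rw [tsum_congr e2, tsum_mul_right]
      simp only [map_mul, Complex.conj_natCast]
      ring
    · have e2 : ∀ e : Eis, G c e = 0 := fun e => by
        simp only [hG]
        rw [if_neg (fun h => hc h.1)]
      rw [tsum_congr e2, tsum_zero, mul_zero]
      by_cases hc0 : c = 0
      · rw [if_pos hc0, map_zero]
      · rw [if_neg hc0, SC_rowA_zero (fun h => hc ((hSm c).mpr h)) (mul_ne_zero hN.ne hc0),
          mul_zero, map_zero]
  have e3 : ∑' c : Eis, ∑' e : Eis, G c e = ∑' e : Eis, ∑' c : Eis, G c e :=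
    (Summable.tsum_comm (f := G) hsum).symm
  rw [e1, e3, mul_assoc (nm N : ℂ)]
  congr 1
  unfold PsiE
  rw [← tsum_mul_left]
  refine tsum_congr fun e => ?_
  by_cases he : Sm M e
  · rw [if_pos he, ← tsum_mul_left, ← tsum_mul_left]
    refine tsum_congr fun c => ?_
    simp only [hG]
    by_cases hc : Sm M c
    · rw [if_pos ⟨hc, he⟩, if_pos hc]
      exact term_eval hQ (ne_zero_of_sm hc) (ne_zero_of_sm he) (hξψ e he) (hg c hc) hb
    · rw [if_neg (fun h => hc h.1), if_neg hc, mul_zero, mul_zero]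
  · rw [if_neg he, mul_zero]
    have e2 : ∀ c : Eis, G c e = 0 := fun c => by
      simp only [hG]
      rw [if_neg (fun h => he h.2)]
    rw [tsum_congr e2, tsum_zero]

end Crest.Agent.R017.EndA92
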