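import Crest.Agent.R017.EndA3_92
import Crest.Agent.R017.HcExp_266

/-!
# Row 17, section A, end of A, part 4 (helper92)

* `left_all` : the left side, all dilates
* `nzE` : the nonvanishing of the Euler factors at `2` and `λ`
-/

set_option autoImplicit false

noncomputable section

open MeasureTheory Complex Set Filter
open scoped ComplexConjugate SchwartzMap ContDiff Topology

namespace Crest.Agent.R017.EndA92

open Crest.Agent.R012 Crest.Agent.R012.Eis Crest.Agent.R012.K695 Crest.Agent.R012.Gauss880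
open Crest.Agent.R012.Mob705
open Crest.Agent.R012.Parseval499 Crest.Agent.R012.FourCoef499
open Crest.Agent.R017.Xn590 Crest.Agent.R017.Coef92 Crest.Agent.R017.Orth681
open Crest.Agent.R017.Glue681 Crest.Agent.R017.Wt92 Crest.Agent.R017.XiI590
open Crest.Agent.R017.B770 Crest.Agent.R017.A590 Crest.Agent.R017.Rw266
open Crest.Agent.R017.Sx440 Crest.Agent.R017.Sx545 Crest.Agent.R017.Loc266

variable {ξ : Eis → ℂ} {A B : ℕ}

/-! ### the left side -/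

lemma finite_left {f : ℂ → ℂ} (hf : Xi590.CS f) {b : ℂ} (hb : b ≠ 0) :
    {c : Eis | c ≠ 0 ∧ fPn 6 ξ f (b * toC c) ≠ 0}.Finite := by
  refine ((finite_pairs hf hb).image Prod.fst).subset ?_
  rintro c ⟨hc, hne⟩
  by_contra hcon
  apply hne
  unfold fPn
  have h1 : ∀ e : Eis, ξ e * ((nm e : ℂ) ^ (6 - 1) * f (toC e ^ 6 * (b * toC c))) = 0 := by
    intro e
    by_cases he : e = 0
    · subst he
      have : (nm (0 : Eis) : ℂ) = 0 := by
        rw [show nm (0 : Eis) = 0 from by decide]; simp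
      rw [this]; simp
    · by_cases h2 : f (toC e ^ 6 * (b * toC c)) = 0
      · rw [h2]; ring
      · exact absurd ⟨(c, e), ⟨hc, he, h2⟩, rfl⟩ hcon
  rw [tsum_congr h1, tsum_zero, mul_zero]

lemma summable_left {f : ℂ → ℂ} (hf : Xi590.CS f) {b : ℂ} (hb : b ≠ 0) (S : Eis → ℂ)
    [∀ c : Eis, Decidable (c = 0)] :
    Summable (fun c : Eis => if c = 0 then (0 : ℂ) else fPn 6 ξ f (b * toC c) * S c) := by
  refine summable_of_hasFiniteSupport ((finite_left (ξ := ξ) hf hb).subset ?_)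
  intro c hc
  rw [Function.mem_support] at hc
  split_ifs at hc with h0
  · exact absurd rfl hc
  · exact ⟨h0, fun h => hc (by rw [h, zero_mul])⟩

/-- left coefficients -/
def cE (N : Eis) (ξ : Eis → ℂ) (l : ℤ) (j : JJ A B) : ℂ :=
  (nm N : ℂ) * (conj (cL ξ j) * (((‖toC (mo j)‖ : ℝ) : ℂ) * sph (l + 1) (toC (mo j))))

/-- left dilations -/
def qE (j : JJ A B) : ℝ := ‖toC (mo j)‖ ^ 2

lemma one_le_qE (j : JJ A B) : 1 ≤ qE j := by
  unfold qE
  rw [norm_toC_sq]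
  exact_mod_cast nm_pos.mpr (mo_ne j)

open Classical in
/-- **the left side**, all dilates. -/
theorem left_all {M N ν x : Eis} {ψ g : Eis → ℂ} {V : ℝ → ℂ} {l : ℤ} {τ Q : ℝ}
    (hV : VD V) (hQ : 0 < Q) (hmul : ∀ a b, ξ (a * b) = ξ a * ξ b)
    (hu : ∀ u, IsUnit u → ξ u = 1) (h3 : (3 : Eis) ∣ M) {k : ℕ} {μ : Fin k → ℂ} {d : Fin k → Eis}
    (hMob : Mob M k μ d) (hξψ : ∀ e, Sm M e → conj (ξ e) = ψ e ^ 6) (hN : Lev N)
    (hx : N ∣ x + ν) (hSm : ∀ c, Sm M c ↔ (Gd c ∧ IsCoprime c N))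
    (hg : ∀ c, Sm M c → conj (g c * sy6 (N * sq3) c) = ψ c * conj (sy 2 c) * LS848.eps2 c) :
    conj (LS 6 ξ (fLw ξ A B (redf 6 ξ k μ d (fQ V (-(l + 1)) τ Q))) (rowA N x g) N ν) =
      ∑ j : JJ A B, cE N ξ l j *
        PsiE M (xiE ψ l) (End699.tw ψ l) ν (fun y => (y : ℂ) ^ (I * τ) * V y) (Q / qE j) := by
  set f := redf 6 ξ k μ d (fQ V (-(l + 1)) τ Q) with hf
  have hfc : Xi590.CS f := cs_lin (fQ_cs hV _ τ hQ) _ _ _ fun i _ => hMob.b_ne i
  have e1 : LS 6 ξ (fLw ξ A B f) (rowA N x g) N ν = ∑ j : JJ A B,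
      (cL ξ j * ((‖toC (mo j)‖ ^ 2 : ℝ) : ℂ)) * ∑' c : Eis, if c = 0 then 0 else
        fPn 6 ξ f (toC (mo j) * toC c) * SC (rowA N x g) N ν c := by
    unfold LS
    have e2 : ∀ c : Eis, (if c = 0 then 0 else
        fPn 6 ξ (fLw ξ A B f) (toC c) * SC (rowA N x g) N ν c) = ∑ j : JJ A B,
        (cL ξ j * ((‖toC (mo j)‖ ^ 2 : ℝ) : ℂ)) * (if c = 0 then 0 else
          fPn 6 ξ f (toC (mo j) * toC c) * SC (rowA N x g) N ν c) := by
      intro c
      by_cases hc : c = 0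
      · simp [hc]
      · rw [if_neg hc]
        unfold fLw
        rw [XiI590.fPn_lin (by norm_num) hfc _ _ _ (fun j _ => moC_ne j), Finset.sum_mul]
        refine Finset.sum_congr rfl fun j _ => ?_
        rw [if_neg hc]
        ring
    rw [tsum_congr e2, Summable.tsum_finsetSum (fun j _ =>
      (summable_left hfc (moC_ne j) _).mul_left _)]
    exact Finset.sum_congr rfl fun j _ => tsum_mul_left
  rw [e1, map_sum]
  refine Finset.sum_congr rfl fun j _ => ?_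
  rw [map_mul, left_eval hV hQ hmul hu h3 hMob hξψ hN hx hSm hg (moC_ne j), map_mul,
    Complex.conj_ofReal]
  unfold cE qE
  have hn : ‖toC (mo j)‖ ≠ 0 := norm_ne_zero_iff.mpr (moC_ne j)
  have e3 : ((‖toC (mo j)‖ ^ 2 : ℝ) : ℂ) * ((‖toC (mo j)‖⁻¹ : ℝ) : ℂ) =
      ((‖toC (mo j)‖ : ℝ) : ℂ) := by
    rw [← Complex.ofReal_mul]
    congr 1
    field_simp
  rw [← e3]
  ring

/-! ### nonvanishing -/

/-- `|z| (z/|z|)^k |z|^{2t}` -/
def Gz (k : ℤ) (t z : ℂ) : ℂ :=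
  (((‖z‖ : ℝ) : ℂ) * sph k z) * ((‖z‖ ^ 2 : ℝ) : ℂ) ^ t

lemma Gz_mul (k : ℤ) (t z z' : ℂ) : Gz k t (z * z') = Gz k t z * Gz k t z' := by
  unfold Gz
  rw [norm_mul, sph_mul, mul_pow, Complex.ofReal_mul, Complex.ofReal_mul (‖z‖ ^ 2),
    Complex.mul_cpow_ofReal_nonneg (by positivity) (by positivity)]
  ring

lemma Gz_one (k : ℤ) (t : ℂ) : Gz k t 1 = 1 := by
  unfold Gz
  rw [sph_of_norm_one k (by simp)]
  simp

lemma norm_Gz (k : ℤ) (t : ℂ) {z : ℂ} (hz : z ≠ 0) : ‖Gz k t z‖ = ‖z‖ * (‖z‖ ^ 2) ^ t.re := by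
  have hn : 0 < ‖z‖ := norm_pos_iff.mpr hz
  unfold Gz
  rw [norm_mul, norm_mul, norm_sph k hz, mul_one, Complex.norm_real, norm_norm,
    Complex.norm_cpow_eq_rpow_re_of_pos (by positivity)]

lemma sum_pg {x : ℂ} {q : ℝ} (hA : 6 < A) (G : ℕ → ℂ) :
    ∑ a : Fin A, conj (pg x q a) * G a = G 0 - conj x * ((1 / q : ℝ) : ℂ) * G 6 := by
  rw [Fin.sum_univ_eq_sum_range (fun a => conj (pg x q a) * G a) A]
  have hsub : ({0, 6} : Finset ℕ) ⊆ Finset.range A := by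
    intro a ha
    simp only [Finset.mem_insert, Finset.mem_singleton] at ha
    rw [Finset.mem_range]
    omega
  rw [← Finset.sum_subset hsub, Finset.sum_pair (by norm_num)]
  · unfold pg
    simp only [if_true, map_one, one_mul, map_neg, map_mul, Complex.conj_ofReal]
    norm_num
    ring
  · intro a _ ha
    simp only [Finset.mem_insert, Finset.mem_singleton, not_or] at ha
    unfold pg
    rw [if_neg ha.1, if_neg ha.2, map_zero, zero_mul]

lemma nz_one {x : ℂ} (hx : ‖x‖ ≤ 1) {p : Eis} (hp : 1 < nm p) (hA : 6 < A) (k : ℤ) {s : ℂ}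
    (hs : 5 / 6 < s.re) :
    ∑ a : Fin A, conj (pg x (nm p) a) * Gz k (1 / 6 - s) (toC p ^ (a : ℕ)) ≠ 0 := by
  have hp0 : p ≠ 0 := nm_pos.mp (by omega)
  have hpC : toC p ≠ 0 := Po581.toC_ne_zero hp0
  have hq : (1 : ℝ) < nm p := by exact_mod_cast hp
  have hq0 : (0 : ℝ) < nm p := by linarith
  rw [sum_pg hA (fun a => Gz k (1 / 6 - s) (toC p ^ a)), pow_zero, Gz_one]
  intro h
  have h1 : conj x * ((1 / (nm p : ℝ) : ℝ) : ℂ) * Gz k (1 / 6 - s) (toC p ^ 6) = 1 := by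
    linear_combination -h
  have h2 : ‖conj x * ((1 / (nm p : ℝ) : ℝ) : ℂ) * Gz k (1 / 6 - s) (toC p ^ 6)‖ < 1 := by
    rw [norm_mul, norm_mul, RCLike.norm_conj, Complex.norm_real,
      Real.norm_of_nonneg (by positivity), norm_Gz k _ (pow_ne_zero 6 hpC)]
    have e1 : ‖toC p ^ 6‖ = (nm p : ℝ) ^ (3 : ℝ) := by
      rw [norm_pow, show ‖toC p‖ ^ 6 = (‖toC p‖ ^ 2) ^ 3 by ring, norm_toC_sq]
      norm_cast
    have e2 : ((nm p : ℝ) ^ (3 : ℝ)) ^ 2 = (nm p : ℝ) ^ (6 : ℝ) := by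
      norm_cast
      ring
    have e3 : (1 / 6 - s).re = 1 / 6 - s.re := by
      simp
    rw [e1, e2, e3, ← Real.rpow_mul hq0.le, ← Real.rpow_add hq0, one_div,
      ← Real.rpow_neg_one, mul_assoc, ← Real.rpow_add hq0]
    have e4 : (nm p : ℝ) ^ (-1 + (3 + 6 * (1 / 6 - s.re)) : ℝ) < 1 := by
      apply Real.rpow_lt_one_of_one_lt_of_neg hq
      linarith
    calc ‖x‖ * (nm p : ℝ) ^ (-1 + (3 + 6 * (1 / 6 - s.re)) : ℝ)
        ≤ 1 * (nm p : ℝ) ^ (-1 + (3 + 6 * (1 / 6 - s.re)) : ℝ) := by gcongr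
      _ < 1 := by rw [one_mul]; exact e4
  rw [h1, norm_one] at h2
  exact lt_irrefl _ h2

lemma toC_mo_zero (a : Fin A) (b : Fin B) :
    toC (mo ((0, a, b) : JJ A B)) = toC 2 ^ (a : ℕ) * toC lam ^ (b : ℕ) := by
  unfold mo mj mon
  simp only [Fin.val_zero, pow_zero, one_mul, map_mul, map_pow]

/-- **nonvanishing** -/
theorem nzE {N : Eis} (hN : N ≠ 0) (hξ : ∀ a, ‖ξ a‖ ≤ 1) (hA : 6 < A) (hB : 6 < B) (l : ℤ) {s : ℂ}
    (hs : 5 / 6 < s.re) :
    ∑ j : JJ A B, cE N ξ l j * (qE j : ℂ) ^ (1 / 6 - s) ≠ 0 := by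
  have e1 : ∑ j : JJ A B, cE N ξ l j * (qE j : ℂ) ^ (1 / 6 - s) =
      (nm N : ℂ) * ((∑ a : Fin A, conj (pg (ξ 2) (nm 2) a) *
        Gz (l + 1) (1 / 6 - s) (toC 2 ^ (a : ℕ))) *
        ∑ b : Fin B, conj (pg (ξ lam) (nm lam) b) *
          Gz (l + 1) (1 / 6 - s) (toC lam ^ (b : ℕ))) := by
    rw [Fintype.sum_prod_type, Finset.sum_eq_single 0]
    · rw [Fintype.sum_prod_type, Finset.sum_mul_sum, Finset.mul_sum]
      refine Finset.sum_congr rfl fun a _ => ?_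
      rw [Finset.mul_sum]
      refine Finset.sum_congr rfl fun b _ => ?_
      have h1 : cL ξ ((0, a, b) : JJ A B) = pg (ξ 2) (nm 2) a * pg (ξ lam) (nm lam) b := by
        unfold cL lj
        rw [if_pos rfl]
      have h2 := Gz_mul (l + 1) (1 / 6 - s) (toC 2 ^ (a : ℕ)) (toC lam ^ (b : ℕ))
      rw [← toC_mo_zero] at h2
      unfold cE qE
      rw [h1, map_mul]
      have h3 : Gz (l + 1) (1 / 6 - s) (toC (mo ((0, a, b) : JJ A B))) =
        (((‖toC (mo ((0, a, b) : JJ A B))‖ : ℝ) : ℂ) *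
          sph (l + 1) (toC (mo ((0, a, b) : JJ A B)))) *
          ((‖toC (mo ((0, a, b) : JJ A B))‖ ^ 2 : ℝ) : ℂ) ^ (1 / 6 - s) := rfl
      calc (nm N : ℂ) * (conj (pg (ξ 2) (nm 2) a) * conj (pg (ξ lam) (nm lam) b) *
            (((‖toC (mo ((0, a, b) : JJ A B))‖ : ℝ) : ℂ) *
              sph (l + 1) (toC (mo ((0, a, b) : JJ A B))))) *
            ((‖toC (mo ((0, a, b) : JJ A B))‖ ^ 2 : ℝ) : ℂ) ^ (1 / 6 - s)
          = (nm N : ℂ) * (conj (pg (ξ 2) (nm 2) a) * conj (pg (ξ lam) (nm lam) b)) *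
            Gz (l + 1) (1 / 6 - s) (toC (mo ((0, a, b) : JJ A B))) := by rw [h3]; ring
        _ = _ := by rw [h2]; ring
    · intro i _ hi
      refine Finset.sum_eq_zero fun p _ => ?_
      have h1 : cL ξ ((i, p) : JJ A B) = 0 := by
        unfold cL lj
        rw [if_neg hi]
      unfold cE
      rw [h1, map_zero, zero_mul, mul_zero, zero_mul]
    · intro h; exact absurd (Finset.mem_univ _) h
  rw [e1]
  refine mul_ne_zero ?_ (mul_ne_zero ?_ ?_)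
  · exact_mod_cast (nm_pos.mpr hN).ne'
  · exact nz_one (hξ 2) (by decide) hA (l + 1) hs
  · exact nz_one (hξ lam) (by decide) hB (l + 1) hs

end Crest.Agent.R017.EndA92
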