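import Crest.Agent.R017.EndA_699
import Crest.Agent.R012.Bridge_666
import Crest.Prelude.Def_HeckeK3

/-!
# Row 17, end block (B): ideals of `O3` of norm `n` and primary elements

`finsum_ideal`: for `n = 3^j m`, `3 ∤ m`, the sum of `F I` over the ideals `I` of norm `n` is the
sum over primary `b` of norm `m` of `F (span {phi (λ^j b)})`.
-/

set_option autoImplicit false

noncomputable section

namespace Crest.Agent.R017.End699

open Crest.Agent.R012 Crest.Agent.R012.Eis Crest.Agent.R012.PSer47 Crest.Agent.R012.Bridge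
open Crest.NumberTheoryR.EisensteinField Crest.NumberTheoryR.CubicGauss

/-- the ideal of `O3` generated by `z` -/
def sp (z : Eis) : Ideal O3 := Ideal.span ({(phi z : O3)} : Set O3)

lemma sp_mul (x y : Eis) : sp (x * y) = sp x * sp y := by
  unfold sp
  rw [Ideal.span_singleton_mul_span_singleton, map_mul]

lemma sp_one : sp 1 = ⊤ := by
  unfold sp
  rw [map_one, Ideal.span_singleton_one]

lemma sp_pow (x : Eis) (k : ℕ) : sp (x ^ k) = sp x ^ k := by
  unfold sp
  rw [Ideal.span_singleton_pow, map_pow]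

lemma absNorm_sp (z : Eis) : Ideal.absNorm (sp z) = nm z := by
  unfold sp
  rw [Ideal.absNorm_span_singleton]
  exact eisNorm_phi z

lemma sp_eq_iff {x y : Eis} : sp x = sp y ↔ Associated x y := by
  unfold sp
  rw [Ideal.span_singleton_eq_span_singleton]
  constructor
  · intro h
    have h1 : phi x ∣ phi y := h.dvd
    have h2 : phi y ∣ phi x := h.symm.dvd
    rw [map_dvd_iff] at h1 h2
    exact associated_of_dvd_dvd h1 h2
  · intro h
    exact h.map phi

lemma exists_sp (I : Ideal O3) : ∃ z : Eis, I = sp z := by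
  have : (I.comap (phi : Eis →+* O3)).IsPrincipal := IsPrincipalIdealRing.principal _
  obtain ⟨z, hz⟩ := this
  refine ⟨z, ?_⟩
  unfold sp
  ext x
  obtain ⟨y, rfl⟩ := phi.surjective x
  rw [Ideal.mem_span_singleton, map_dvd_iff]
  have h1 : y ∈ I.comap (phi : Eis →+* O3) ↔ z ∣ y := by
    rw [hz]; exact Ideal.mem_span_singleton
  rw [← h1]; rfl

lemma exists_lam_decomp {z : Eis} (hz : z ≠ 0) :
    ∃ (j : ℕ) (b : Eis), IsPrim b ∧ Associated z (lam ^ j * b) := by
  have hfin : FiniteMultiplicity lam z := FiniteMultiplicity.of_prime_left prime_lam hz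
  obtain ⟨c, hc, hnc⟩ := hfin.exists_eq_pow_mul_and_not_dvd
  obtain ⟨b, hb, hcb⟩ := isPrim_of_associated_exists hnc
  refine ⟨multiplicity lam z, b, hb, ?_⟩
  have h := hcb.mul_left (lam ^ multiplicity lam z)
  rwa [← hc] at h

lemma ideal_decomp {I : Ideal O3} {n : ℕ} (hn : n ≠ 0) (h : Ideal.absNorm I = n) {j m : ℕ}
    (hjm : n = 3 ^ j * m) (h3 : ¬ 3 ∣ m) : ∃ b ∈ fib m, I = sp (lam ^ j * b) := by
  obtain ⟨z, rfl⟩ := exists_sp I
  rw [absNorm_sp] at h
  have hz : z ≠ 0 := by
    rintro rfl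
    rw [nm_zero] at h
    exact hn h.symm
  obtain ⟨i, b, hb, hzb⟩ := exists_lam_decomp hz
  have h1 : nm z = 3 ^ i * nm b := by
    rw [nm_eq_of_associated hzb, nm_mul, nm_pow, nm_lam]
  have hb3 : ¬ 3 ∣ nm b := by
    have := hb.nm_mod
    omega
  have h2 : 3 ^ i * nm b = 3 ^ j * m := by rw [← h1, h, hjm]
  have hij : i = j := by
    have e1 := congrArg (fun x => x.factorization 3) h2
    have hb0 : nm b ≠ 0 := fun h0 => hb3 (h0 ▸ dvd_zero 3)
    have hm0 : m ≠ 0 := fun h0 => h3 (h0 ▸ dvd_zero 3)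
    rw [Nat.factorization_mul (by positivity) hb0, Nat.factorization_mul (by positivity) hm0,
      Nat.Prime.factorization_pow Nat.prime_three, Nat.Prime.factorization_pow Nat.prime_three] at e1
    simpa [Nat.factorization_eq_zero_of_not_dvd hb3, Nat.factorization_eq_zero_of_not_dvd h3]
      using e1
  subst hij
  refine ⟨b, ?_, sp_eq_iff.mpr hzb⟩
  rw [mem_fib]
  exact ⟨Nat.eq_of_mul_eq_mul_left (by positivity) h2, hb⟩

theorem finsum_ideal (F : Ideal O3 → ℂ) {n : ℕ} (hn : n ≠ 0) {j m : ℕ}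
    (hjm : n = 3 ^ j * m) (h3 : ¬ 3 ∣ m) :
    (∑ᶠ I : Ideal O3, if Ideal.absNorm I = n then F I else 0) =
      ∑ b ∈ fib m, F (sp (lam ^ j * b)) := by
  classical
  have hinj : Set.InjOn (fun b : Eis => sp (lam ^ j * b)) (fib m : Set Eis) := by
    intro b hb c hc hbc
    rw [Finset.mem_coe, mem_fib] at hb hc
    have h1 : Associated (lam ^ j * b) (lam ^ j * c) := sp_eq_iff.mp hbc
    have h2 : Associated b c :=
      Associated.of_mul_left h1 (Associated.refl (lam ^ j)) (pow_ne_zero j lam_ne_zero)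
    exact hb.2.eq_of_associated hc.2 h2
  rw [← Finset.sum_image (f := F) (s := fib m) (g := fun b => sp (lam ^ j * b)) hinj]
  rw [finsum_eq_sum_of_support_subset (s := (fib m).image (fun b => sp (lam ^ j * b)))]
  · apply Finset.sum_congr rfl
    intro I hI
    rw [Finset.mem_image] at hI
    obtain ⟨b, hb, rfl⟩ := hI
    rw [mem_fib] at hb
    rw [if_pos]
    rw [absNorm_sp, nm_mul, nm_pow, nm_lam, hb.1, hjm]
  · intro I hI
    rw [Function.mem_support] at hI
    have hI' : Ideal.absNorm I = n := by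
      by_contra h
      exact hI (if_neg h)
    obtain ⟨b, hb, e⟩ := ideal_decomp hn hI' hjm h3
    rw [Finset.mem_coe, Finset.mem_image]
    exact ⟨b, hb, e.symm⟩

lemma exists_three_decomp {n : ℕ} (hn : n ≠ 0) : ∃ j m : ℕ, n = 3 ^ j * m ∧ ¬ 3 ∣ m := by
  obtain ⟨m, hm, h⟩ := Nat.exists_eq_pow_mul_and_not_dvd hn 3 (by norm_num)
  exact ⟨m, hm, h.2, h.1⟩

end Crest.Agent.R017.End699
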