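import Crest.Agent.R017.EndB_699

/-!
# Row 17, end block (C): the statement of S0022 follows from the statement of S0023
-/

set_option autoImplicit false

noncomputable section

namespace Crest.Agent.R017.End699

open Crest.Agent.R012 Crest.Agent.R012.Eis Crest.Agent.R012.PSer47 Crest.Agent.R012.Bridge
open Crest.NumberTheoryR.EisensteinField Crest.NumberTheoryR.CubicGauss
open scoped LSeries.notation

/-- the exact statement of S0023 -/
def S23 : Prop :=
  ∀ (m : Ideal O3), m ≠ ⊥ → ∀ ψ : RayClassChar m,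
    ∃ G : ℂ → ℂ, (∀ s : ℂ, 1 < s.re → G s = LSeries (coeff ψ) s) ∧
      ∀ s : ℂ, 7 / 8 < s.re → (¬ IsPrincipalChar ψ ∨ s ≠ 1) → DifferentiableAt ℂ G s ∧ G s ≠ 0

/-- the exact statement of S0022 -/
def S22 : Prop :=
  ∀ {N : ℕ} [NeZero N] (χ : DirichletCharacter ℂ N) (s : ℂ), (χ ≠ 1 ∨ s ≠ 1) → 7 / 8 < s.re →
    χ.LFunction s ≠ 0

lemma nm_one_add_mul (N : ℕ) (y : Eis) : ((nm (1 + (N : Eis) * y) : ℕ) : ZMod N) = 1 := by
  have h : ((nm (1 + (N : Eis) * y) : ℕ) : ZMod N) =
      (((nm (1 + (N : Eis) * y) : ℕ) : ℤ) : ZMod N) := by norm_cast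
  rw [h, nm_cast]
  have h1 : (1 + (N : Eis) * y).re = 1 + N * y.re := by
    simp
  have h2 : (1 + (N : Eis) * y).im = N * y.im := by
    simp
  rw [h1, h2]
  push_cast
  simp

lemma absNorm_cast_of_sub_one_mem {N : ℕ} {z : O3} (h : z - 1 ∈ Ideal.span ({(N : O3)} : Set O3)) :
    ((Ideal.absNorm (Ideal.span ({z} : Set O3)) : ℕ) : ZMod N) = 1 := by
  obtain ⟨x, rfl⟩ := phi.surjective z
  obtain ⟨t, ht⟩ := Ideal.mem_span_singleton.mp h
  obtain ⟨y, rfl⟩ := phi.surjective t
  have hx : x = 1 + (N : Eis) * y := by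
    apply phi.injective
    rw [map_add, map_one, map_mul, map_natCast, ← ht]; ring
  have : Ideal.absNorm (Ideal.span ({phi x} : Set O3)) = nm x := absNorm_sp x
  rw [this, hx]
  exact nm_one_add_mul N y

/-- `χ ∘ Norm` as a ray class character modulo `(N)` -/
def rayOf {N : ℕ} (χ : DirichletCharacter ℂ N) : RayClassChar (Ideal.span ({(N : O3)} : Set O3)) where
  toFun I := χ ((Ideal.absNorm I : ℕ) : ZMod N)
  map_mul I J := by rw [map_mul, Nat.cast_mul, map_mul]
  eq_zero_of_not_coprime I hI := by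
    by_contra h
    apply hI
    have hu : IsUnit ((Ideal.absNorm I : ℕ) : ZMod N) := by
      by_contra h'
      exact h (χ.map_nonunit h')
    rw [ZMod.isUnit_iff_coprime] at hu
    rw [Ideal.eq_top_iff_one]
    have h1 : IsCoprime ((Ideal.absNorm I : ℕ) : ℤ) (N : ℤ) := Nat.isCoprime_iff_coprime.mpr hu
    obtain ⟨a, b, hab⟩ := h1
    have h2 : ((a : ℤ) : O3) * ((Ideal.absNorm I : ℕ) : O3) + ((b : ℤ) : O3) * (N : O3) = 1 := by
      have := congrArg (Int.cast : ℤ → O3) hab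
      push_cast at this
      exact this
    rw [← h2]
    exact Submodule.add_mem_sup (I.mul_mem_left _ (Ideal.absNorm_mem I))
      (Ideal.mul_mem_left _ _ (Ideal.mem_span_singleton_self _))
  ne_zero_of_coprime I hI := by
    have h1 : (1 : O3) ∈ I ⊔ Ideal.span ({(N : O3)} : Set O3) := by rw [hI]; trivial
    obtain ⟨x, hx, y, hy, hxy⟩ := Submodule.mem_sup.mp h1
    have hx1 : x - 1 ∈ Ideal.span ({(N : O3)} : Set O3) := by
      have : x - 1 = -y := by rw [← hxy]; ring
      rw [this]; exact neg_mem hy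
    have h2 := absNorm_cast_of_sub_one_mem hx1
    have h3 : Ideal.absNorm I ∣ Ideal.absNorm (Ideal.span ({x} : Set O3)) :=
      Ideal.absNorm_dvd_absNorm_of_le ((Ideal.span_singleton_le_iff_mem _).mpr hx)
    obtain ⟨t, ht⟩ := h3
    rw [ht, Nat.cast_mul] at h2
    have hu : IsUnit ((Ideal.absNorm I : ℕ) : ZMod N) := IsUnit.of_mul_eq_one _ h2
    exact (hu.map χ).ne_zero
  map_span_of_sub_one_mem z hz := by
    rw [absNorm_cast_of_sub_one_mem hz, map_one]

/-- `χ₋₃` with complex values -/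
def chi3 : DirichletCharacter ℂ 3 :=
  MulChar.ringHomComp (quadraticChar (ZMod 3)) (Int.castRingHom ℂ)

lemma chi3_apply (n : ℕ) : chi3 (n : ZMod 3) = (qc n : ℂ) := rfl

/-- the character `χ χ₋₃` modulo `3 N` -/
def eta {N : ℕ} (χ : DirichletCharacter ℂ N) : DirichletCharacter ℂ (3 * N) :=
  (DirichletCharacter.changeLevel (Nat.dvd_mul_left N 3) χ) *
    (DirichletCharacter.changeLevel (Nat.dvd_mul_right 3 N) chi3)

lemma eta_apply {N : ℕ} (χ : DirichletCharacter ℂ N) (n : ℕ) :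
    eta χ (n : ZMod (3 * N)) = χ (n : ZMod N) * (qc n : ℂ) := by
  by_cases hu : IsUnit (n : ZMod (3 * N))
  · unfold eta
    rw [MulChar.coeToFun_mul, Pi.mul_apply]
    rw [← hu.unit_spec, DirichletCharacter.changeLevel_eq_cast_of_dvd,
      DirichletCharacter.changeLevel_eq_cast_of_dvd, hu.unit_spec, ZMod.cast_natCast
        (Nat.dvd_mul_left N 3), ZMod.cast_natCast (Nat.dvd_mul_right 3 N), chi3_apply]
  · rw [MulChar.map_nonunit _ hu]
    rw [ZMod.isUnit_iff_coprime] at hu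
    by_cases h3 : n % 3 = 0
    · rw [qc_zero h3]; simp
    · have h3' : Nat.Coprime n 3 := by
        rw [Nat.coprime_comm]
        exact (Nat.Prime.coprime_iff_not_dvd Nat.prime_three).mpr (fun h => h3 (by omega))
      have hN : ¬ Nat.Coprime n N := fun h => hu (Nat.Coprime.mul_right h3' h)
      rw [← ZMod.isUnit_iff_coprime] at hN
      rw [χ.map_nonunit hN, zero_mul]

lemma coeff_rayOf {N : ℕ} (χ : DirichletCharacter ℂ N) {n : ℕ} (hn : n ≠ 0) :
    coeff (rayOf χ) n = χ (n : ZMod N) * (rr n : ℂ) := by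
  obtain ⟨j, m, hjm, h3⟩ := exists_three_decomp hn
  unfold coeff
  rw [finsum_ideal (fun I => (rayOf χ).toFun I) hn hjm h3]
  have hval : ∀ b ∈ fib m, (rayOf χ).toFun (sp (lam ^ j * b)) = χ (n : ZMod N) := by
    intro b hb
    rw [mem_fib] at hb
    change χ ((Ideal.absNorm (sp (lam ^ j * b)) : ℕ) : ZMod N) = _
    rw [absNorm_sp, nm_mul, nm_pow, nm_lam, hb.1, ← hjm]
  rw [Finset.sum_congr rfl hval, Finset.sum_const, nsmul_eq_mul]
  have hm0 : m ≠ 0 := fun h0 => h3 (h0 ▸ dvd_zero 3)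
  have h4 : ((fib m).card : ℂ) = (rr n : ℂ) := by
    have h5 : (((fib m).card : ℕ) : ℤ) = rr n := by
      rw [hjm, rr_three_mul j h3]
      exact cnt_eq_rr hm0 h3
    rw [← h5]; simp
  rw [h4, mul_comm]

lemma coeff_rayOf_eq {N : ℕ} (χ : DirichletCharacter ℂ N) {n : ℕ} (hn : n ≠ 0) :
    coeff (rayOf χ) n =
      ((fun k : ℕ => χ (k : ZMod N)) ⍟ (fun k : ℕ => eta χ (k : ZMod (3 * N)))) n := by
  rw [coeff_rayOf χ hn, LSeries.convolution_def]
  simp only [eta_apply]
  have h1 : ∀ p ∈ n.divisorsAntidiagonal, χ ((p.1 : ℕ) : ZMod N) * (χ ((p.2 : ℕ) : ZMod N) *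
      (qc p.2 : ℂ)) = χ (n : ZMod N) * (qc p.2 : ℂ) := by
    intro p hp
    rw [Nat.mem_divisorsAntidiagonal] at hp
    rw [← hp.1, Nat.cast_mul, map_mul]; ring
  rw [Finset.sum_congr rfl h1, ← Finset.mul_sum,
    Nat.sum_divisorsAntidiagonal' (fun _ b => (qc b : ℂ))]
  unfold rr
  push_cast
  rfl

lemma LSeries_coeff_rayOf {N : ℕ} [NeZero N] (χ : DirichletCharacter ℂ N) {s : ℂ} (hs : 1 < s.re) :
    LSeries (coeff (rayOf χ)) s = χ.LFunction s * (eta χ).LFunction s := by
  have : NeZero (3 * N) := ⟨by have := NeZero.ne N; omega⟩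
  rw [DirichletCharacter.LFunction_eq_LSeries χ hs, DirichletCharacter.LFunction_eq_LSeries _ hs,
    ← LSeries_convolution' (DirichletCharacter.LSeriesSummable_of_one_lt_re χ hs)
      (DirichletCharacter.LSeriesSummable_of_one_lt_re (eta χ) hs)]
  exact LSeries_congr (fun {n} hn => coeff_rayOf_eq χ hn) s

/-- the half plane `Re s > 7/8` without the point `1` is preconnected -/
lemma isPreconnected_region : IsPreconnected {s : ℂ | 7 / 8 < s.re ∧ s ≠ 1} := by
  set A : Set ℂ := {s | 1 < s.re}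
  set B : Set ℂ := {s | 7 / 8 < s.re ∧ 0 < s.im}
  set C : Set ℂ := {s | 7 / 8 < s.re ∧ s.im < 0}
  set D : Set ℂ := {s | 7 / 8 < s.re ∧ s.re < 1}
  have hA : IsPreconnected A := (convex_halfSpace_re_gt 1).isPreconnected
  have hB : IsPreconnected B :=
    ((convex_halfSpace_re_gt (7 / 8)).inter (convex_halfSpace_im_gt 0)).isPreconnected
  have hC : IsPreconnected C :=
    ((convex_halfSpace_re_gt (7 / 8)).inter (convex_halfSpace_im_lt 0)).isPreconnected
  have hD : IsPreconnected D :=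
    ((convex_halfSpace_re_gt (7 / 8)).inter (convex_halfSpace_re_lt 1)).isPreconnected
  have hAB : IsPreconnected (A ∪ B) :=
    IsPreconnected.union (⟨2, 1⟩ : ℂ) (by simp [A]) (by simp [B]; norm_num) hA hB
  have hABC : IsPreconnected (A ∪ B ∪ C) :=
    IsPreconnected.union (⟨2, -1⟩ : ℂ) (Or.inl (by simp [A])) (by simp [C]; norm_num) hAB hC
  have hABCD : IsPreconnected (A ∪ B ∪ C ∪ D) :=
    IsPreconnected.union (⟨15 / 16, 1⟩ : ℂ) (Or.inl (Or.inr (by simp [B]; norm_num)))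
      (by simp [D]; norm_num) hABC hD
  have he : {s : ℂ | 7 / 8 < s.re ∧ s ≠ 1} = A ∪ B ∪ C ∪ D := by
    ext s
    simp only [A, B, C, D, Set.mem_ofPred_eq, Set.mem_union]
    constructor
    · rintro ⟨h1, h2⟩
      rcases lt_trichotomy s.im 0 with h | h | h
      · exact Or.inl (Or.inr ⟨h1, h⟩)
      · rcases lt_trichotomy s.re 1 with h' | h' | h'
        · exact Or.inr ⟨h1, h'⟩
        · exact absurd (Complex.ext h' (by simpa using h)) h2
        · exact Or.inl (Or.inl (Or.inl h'))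
      · exact Or.inl (Or.inl (Or.inr ⟨h1, h⟩))
    · rintro (((h | h) | h) | h)
      · exact ⟨by linarith, by rintro rfl; simp at h⟩
      · exact ⟨h.1, by rintro rfl; simp at h⟩
      · exact ⟨h.1, by rintro rfl; simp at h⟩
      · exact ⟨h.1, by rintro rfl; simp at h⟩
  rw [he]; exact hABCD

lemma isOpen_region : IsOpen {s : ℂ | 7 / 8 < s.re ∧ s ≠ 1} :=
  (isOpen_lt continuous_const Complex.continuous_re).inter isOpen_ne

/-- **S0022 follows from S0023** -/
theorem s22_of_s23 (h : S23) : S22 := by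
  intro N hN χ s hχ hs
  rcases le_or_gt 1 s.re with h1 | h1
  · exact χ.LFunction_ne_zero_of_one_le_re hχ h1
  have hs1 : s ≠ 1 := by rintro rfl; simp at h1
  have hm : Ideal.span ({(N : O3)} : Set O3) ≠ ⊥ := by
    rw [Ne, Ideal.span_singleton_eq_bot]
    exact_mod_cast NeZero.ne N
  obtain ⟨G, hG1, hG2⟩ := h _ hm (rayOf χ)
  have : NeZero (3 * N) := ⟨by have := NeZero.ne N; omega⟩
  set U : Set ℂ := {s : ℂ | 7 / 8 < s.re ∧ s ≠ 1}
  have hGan : AnalyticOnNhd ℂ G U := by
    apply DifferentiableOn.analyticOnNhd _ isOpen_region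
    intro z hz
    exact (hG2 z hz.1 (Or.inr hz.2)).1.differentiableWithinAt
  have hLan : AnalyticOnNhd ℂ (fun z => χ.LFunction z * (eta χ).LFunction z) U := by
    apply DifferentiableOn.analyticOnNhd _ isOpen_region
    intro z hz
    exact ((χ.differentiableAt_LFunction z (Or.inl hz.2)).mul
      ((eta χ).differentiableAt_LFunction z (Or.inl hz.2))).differentiableWithinAt
  have h2 : (2 : ℂ) ∈ U := ⟨by norm_num, by norm_num⟩
  have hev : G =ᶠ[nhds (2 : ℂ)] (fun z => χ.LFunction z * (eta χ).LFunction z) := by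
    have : {z : ℂ | 1 < z.re} ∈ nhds (2 : ℂ) :=
      (isOpen_lt continuous_const Complex.continuous_re).mem_nhds (by norm_num)
    filter_upwards [this] with z hz
    rw [hG1 z hz, LSeries_coeff_rayOf χ hz]
  have heq := hGan.eqOn_of_preconnected_of_eventuallyEq hLan isPreconnected_region h2 hev
  intro h0
  have h3 := heq (⟨hs, hs1⟩ : s ∈ U)
  simp only [h0, zero_mul] at h3
  exact (hG2 s hs (Or.inr hs1)).2 h3

end Crest.Agent.R017.End699
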