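import Mathlib

/-!
# Row 17, end block (D): zero-freeness from bounds for smoothed sums (Mellin transform)
-/

set_option autoImplicit false

noncomputable section

open Set MeasureTheory Filter Topology Asymptotics

namespace Crest.Agent.R017.End699

/-- admissible weights: measurable, bounded, zero beyond `β`. -/
structure Wt (W : ℝ → ℂ) (B β : ℝ) : Prop where
  meas : Measurable W
  bdd : ∀ y, ‖W y‖ ≤ B
  supp : ∀ y, β < y → W y = 0
  pos : 0 < β

/-- smoothed sums -/
def Msum (a : ℕ → ℂ) (W : ℝ → ℂ) (X : ℝ) : ℂ := ∑' n : ℕ, a n * W (n / X)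

namespace Wt

variable {W : ℝ → ℂ} {B β : ℝ} (h : Wt W B β)

include h

lemma nonneg : 0 ≤ B := (norm_nonneg _).trans (h.bdd 0)

lemma locInt : LocallyIntegrableOn W (Ioi 0) := by
  apply LocallyIntegrable.locallyIntegrableOn
  rw [locallyIntegrable_iff]
  intro k hk
  exact Measure.integrableOn_of_bounded (M := B) hk.measure_lt_top.ne
    h.meas.aestronglyMeasurable (Eventually.of_forall fun y => h.bdd y)

lemma isBigO_top (c : ℝ) : W =O[atTop] (fun x : ℝ => x ^ (-c)) := by
  have : W =ᶠ[atTop] (fun _ => (0 : ℂ)) := by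
    filter_upwards [eventually_gt_atTop β] with y hy
    exact h.supp y hy
  exact this.trans_isBigO (isBigO_zero _ _)

lemma isBigO_zero' : W =O[𝓝[>] 0] (fun x : ℝ => x ^ (-(0 : ℝ))) := by
  apply IsBigO.of_bound B
  filter_upwards with y
  simp only [neg_zero, Real.rpow_zero, norm_one, mul_one]
  exact h.bdd y

lemma convergent {s : ℂ} (hs : 0 < s.re) : MellinConvergent W s :=
  mellinConvergent_of_isBigO_rpow (a := s.re + 1) h.locInt (h.isBigO_top _) (by linarith)
    h.isBigO_zero' hs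

lemma differentiableAt {s : ℂ} (hs : 0 < s.re) : DifferentiableAt ℂ (mellin W) s :=
  mellin_differentiableAt_of_isBigO_rpow (a := s.re + 1) h.locInt (h.isBigO_top _) (by linarith)
    h.isBigO_zero' hs

/-- the absolute value of a weight -/
lemma abs : Wt (fun y => ((‖W y‖ : ℝ) : ℂ)) B β where
  meas := Complex.measurable_ofReal.comp h.meas.norm
  bdd y := by rw [Complex.norm_real, norm_norm]; exact h.bdd y
  supp y hy := by rw [h.supp y hy]; simp
  pos := h.pos

/-- `Msum` is a finite sum -/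
lemma Msum_eq (a : ℕ → ℂ) {X : ℝ} (hX : 0 < X) {N : ℕ} (hN : β * X < N + 1) :
    Msum a W X = ∑ n ∈ Finset.range (N + 1), a n * W (n / X) := by
  unfold Msum
  apply tsum_eq_sum
  intro n hn
  rw [Finset.mem_range, not_lt] at hn
  rw [h.supp, mul_zero]
  rw [lt_div_iff₀ hX]
  have : ((N + 1 : ℕ) : ℝ) ≤ (n : ℝ) := by exact_mod_cast hn
  push_cast at this
  linarith

lemma meas_term (n : ℕ) : Measurable (fun X : ℝ => W (n / X)) :=
  h.meas.comp (measurable_const.div measurable_id)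

lemma Msum_locInt (a : ℕ → ℂ) : LocallyIntegrableOn (Msum a W) (Ioi 0) := by
  rw [locallyIntegrableOn_iff (isLocallyClosed_Ioi)]
  intro K hK hKc
  obtain ⟨b, hb⟩ := hKc.isBounded.bddAbove
  obtain ⟨N, hN⟩ := exists_nat_gt (β * b)
  have hfin : IntegrableOn (fun X : ℝ => ∑ n ∈ Finset.range (N + 1), a n * W (n / X)) K := by
    unfold IntegrableOn
    apply integrable_finsetSum
    intro n _
    apply Integrable.const_mul
    exact Measure.integrableOn_of_bounded (M := B) hKc.measure_lt_top.ne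
      (h.meas_term n).aestronglyMeasurable (Eventually.of_forall fun y => h.bdd _)
  refine hfin.congr_fun ?_ hKc.measurableSet
  intro X hX
  have hX0 : 0 < X := hK hX
  simp only
  rw [h.Msum_eq a hX0]
  have : X ≤ b := hb hX
  have := mul_le_mul_of_nonneg_left this h.pos.le
  linarith

lemma Msum_small (a : ℕ → ℂ) (ha0 : a 0 = 0) {X : ℝ} (hX : 0 < X) (hX1 : β * X < 1) :
    Msum a W X = 0 := by
  rw [h.Msum_eq a hX (N := 0) (by simpa using hX1)]
  simp [ha0]

lemma Msum_isBigO_zero (a : ℕ → ℂ) (ha0 : a 0 = 0) (b : ℝ) :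
    Msum a W =O[𝓝[>] 0] (fun x : ℝ => x ^ (-b)) := by
  have hev : Msum a W =ᶠ[𝓝[>] 0] (fun _ => (0 : ℂ)) := by
    have h1 : Iio (1 / β) ∈ 𝓝 (0 : ℝ) := Iio_mem_nhds (by have := h.pos; positivity)
    filter_upwards [self_mem_nhdsWithin, mem_nhdsWithin_of_mem_nhds h1] with X hX hX1
    apply h.Msum_small a ha0 hX
    have : X < 1 / β := hX1
    rw [lt_div_iff₀ h.pos] at this
    linarith
  exact hev.trans_isBigO (isBigO_zero _ _)

/-- the Mellin transform of a term, with convergence -/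
lemma mellin_term {s : ℂ} (hs : 0 < s.re) {n : ℕ} (hn : n ≠ 0) :
    MellinConvergent (fun X : ℝ => W (n / X)) (-s) ∧
      mellin (fun X : ℝ => W (n / X)) (-s) = (n : ℂ) ^ (-s) * mellin W s := by
  have hn0 : (0 : ℝ) < n := by positivity
  have e : (fun X : ℝ => W (n / X)) = fun X : ℝ => (fun t : ℝ => W ((n : ℝ) * t)) X⁻¹ := by
    funext X; rw [div_eq_mul_inv]
  constructor
  · have h1 : MellinConvergent (fun t : ℝ => W ((n : ℝ) * t)) s :=
      (MellinConvergent.comp_mul_left hn0).mpr (h.convergent hs)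
    have h2 := (MellinConvergent.comp_rpow (f := fun t : ℝ => W ((n : ℝ) * t)) (s := -s)
      (a := -1) (by norm_num)).mpr (by
        have : (-s) / ((-1 : ℝ) : ℂ) = s := by push_cast; ring
        rw [this]; exact h1)
    rw [e]
    simpa only [Real.rpow_neg_one] using h2
  · have h3 := mellin_comp_inv (fun t : ℝ => W ((n : ℝ) * t)) (-s)
    rw [neg_neg, mellin_comp_mul_left _ _ hn0, smul_eq_mul] at h3
    rw [e, h3]
    simp

end Wt

section main

variable {a : ℕ → ℂ} {W : ℝ → ℂ} {B β : ℝ}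

lemma norm_integrand (s : ℂ) (n : ℕ) {X : ℝ} (hX : 0 < X) :
    ‖(X : ℂ) ^ (-s - 1) • (a n * W (n / X))‖ = ‖a n‖ * (X ^ (-s.re - 1) * ‖W (n / X)‖) := by
  rw [norm_smul, norm_mul, Complex.norm_cpow_eq_rpow_re_of_pos hX]
  simp only [Complex.sub_re, Complex.neg_re, Complex.one_re]
  ring

/-- the integral of the absolute value of a term -/
lemma integral_norm_term (h : Wt W B β) {s : ℂ} (hs : 0 < s.re) {n : ℕ} (hn : n ≠ 0) :
    ∫ X in Ioi (0 : ℝ), ‖(X : ℂ) ^ (-s - 1) • (a n * W (n / X))‖ =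
      ‖a n‖ * (n : ℝ) ^ (-s.re) * ∫ y in Ioi (0 : ℝ), y ^ (s.re - 1) * ‖W y‖ := by
  have h1 : ∫ X in Ioi (0 : ℝ), ‖(X : ℂ) ^ (-s - 1) • (a n * W (n / X))‖ =
      ∫ X in Ioi (0 : ℝ), ‖a n‖ * (X ^ (-s.re - 1) * ‖W (n / X)‖) :=
    setIntegral_congr_fun measurableSet_Ioi fun X hX => norm_integrand s n hX
  rw [h1, integral_const_mul, mul_assoc]
  congr 1
  have h2 := (h.abs.mellin_term (s := (s.re : ℂ)) (by simpa using hs) hn).2
  have key : ∀ (g : ℝ → ℝ) (r : ℝ), mellin (fun y => ((g y : ℝ) : ℂ)) (r : ℂ) =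
      ((∫ y in Ioi (0 : ℝ), y ^ (r - 1) * g y : ℝ) : ℂ) := by
    intro g r
    unfold mellin
    rw [← integral_complex_ofReal]
    apply setIntegral_congr_fun measurableSet_Ioi
    intro y hy
    have hy0 : (0 : ℝ) < y := hy
    simp only [smul_eq_mul]
    push_cast
    rw [Complex.ofReal_cpow hy0.le]
    push_cast
    rfl
  have e1 : -(s.re : ℂ) = ((-s.re : ℝ) : ℂ) := by push_cast; rfl
  have e2 : (n : ℂ) ^ (-(s.re : ℂ)) = (((n : ℝ) ^ (-s.re) : ℝ) : ℂ) := by
    rw [Complex.ofReal_cpow (by positivity)]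
    push_cast; rfl
  rw [e2, e1, key (fun X => ‖W (n / X)‖), key (fun y => ‖W y‖)] at h2
  exact_mod_cast h2

/-- **Mellin transform of smoothed sums** -/
theorem mellin_Msum (h : Wt W B β) (ha0 : a 0 = 0) {s : ℂ} (hs : 0 < s.re)
    (ha : LSeriesSummable a s) : mellin (Msum a W) (-s) = LSeries a s * mellin W s := by
  set F : ℕ → ℝ → ℂ := fun n X => (X : ℂ) ^ (-s - 1) • (a n * W (n / X)) with hF
  have hint : ∀ n, Integrable (F n) (volume.restrict (Ioi 0)) := by
    intro n
    rcases eq_or_ne n 0 with rfl | hn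
    · simp only [hF, ha0, zero_mul, smul_zero]
      exact integrable_zero _ _ _
    · have h1 := (h.mellin_term hs hn).1.const_smul (a n)
      simpa only [hF, MellinConvergent, IntegrableOn, smul_eq_mul] using h1
  have hval : ∀ n, ∫ X in Ioi (0 : ℝ), F n X = LSeries.term a s n * mellin W s := by
    intro n
    rcases eq_or_ne n 0 with rfl | hn
    · simp [hF, ha0]
    · have h1 := (h.mellin_term hs hn).2
      have h2 := mellin_const_smul (fun X : ℝ => W (n / X)) (-s) (a n)
      rw [LSeries.term_of_ne_zero hn, div_eq_mul_inv, ← Complex.cpow_neg, mul_assoc, ← h1,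
        ← smul_eq_mul (a n), ← h2]
      rfl
  have hsum : Summable fun n => ∫ X in Ioi (0 : ℝ), ‖F n X‖ := by
    have h1 : Summable fun n => ‖LSeries.term a s n‖ * ∫ y in Ioi (0 : ℝ), y ^ (s.re - 1) * ‖W y‖ :=
      ha.norm.mul_right _
    refine h1.congr fun n => ?_
    rcases eq_or_ne n 0 with rfl | hn
    · simp [hF, ha0]
    · rw [hF]
      simp only
      rw [integral_norm_term h hs hn, LSeries.term_of_ne_zero hn, norm_div,
        Complex.norm_natCast_cpow_of_pos (Nat.pos_of_ne_zero hn), Real.rpow_neg (by positivity)]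
      rw [div_eq_mul_inv]
  have h3 := hasSum_integral_of_summable_integral_norm hint hsum
  have h4 : ∀ X ∈ Ioi (0 : ℝ), ∑' n, F n X = (X : ℂ) ^ (-s - 1) • Msum a W X := by
    intro X _
    simp only [hF, Msum, smul_eq_mul]
    rw [tsum_mul_left]
  rw [setIntegral_congr_fun measurableSet_Ioi h4] at h3
  have h5 : HasSum (fun n => LSeries.term a s n * mellin W s) (LSeries a s * mellin W s) :=
    ha.LSeriesHasSum.mul_right _
  simp_rw [hval] at h3
  exact h3.unique h5

/-- analyticity of the Mellin transform of the smoothed sums -/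
theorem differentiableAt_mellin_Msum (h : Wt W B β) (ha0 : a 0 = 0) {θ C : ℝ}
    (hM : ∀ X : ℝ, 1 ≤ X → ‖Msum a W X‖ ≤ C * X ^ θ) {s : ℂ} (hs : θ < s.re) :
    DifferentiableAt ℂ (fun z => mellin (Msum a W) (-z)) s := by
  have h1 : DifferentiableAt ℂ (mellin (Msum a W)) (-s) := by
    refine mellin_differentiableAt_of_isBigO_rpow (a := -θ) (b := -s.re - 1)
      (h.Msum_locInt a) ?_ (by simpa using hs) (h.Msum_isBigO_zero a ha0 _) (by simp)
    apply IsBigO.of_bound C
    filter_upwards [eventually_ge_atTop 1] with X hX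
    rw [neg_neg, Real.norm_of_nonneg (by positivity)]
    exact hM X hX
  exact h1.comp s differentiableAt_id.neg

/-- the product of `L` with the Mellin transform of the smoothed sums of the coefficients of
`1 / L` is the Mellin transform of the weight -/
theorem L_mul_mellin (h : Wt W B β) (ha0 : a 0 = 0) {L : ℂ → ℂ} {θ C : ℝ} (hθ : 0 ≤ θ)
    {U : Set ℂ} (hU : IsOpen U) (hUc : IsPreconnected U) (hUθ : ∀ s ∈ U, θ < s.re)
    (h2 : (2 : ℂ) ∈ U) (hL : DifferentiableOn ℂ L U)
    (ha : ∀ s : ℂ, 1 < s.re → LSeriesSummable a s)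
    (hinv : ∀ s : ℂ, 1 < s.re → LSeries a s * L s = 1)
    (hM : ∀ X : ℝ, 1 ≤ X → ‖Msum a W X‖ ≤ C * X ^ θ) :
    ∀ s ∈ U, L s * mellin (Msum a W) (-s) = mellin W s := by
  have h3 : AnalyticOnNhd ℂ (fun s => L s * mellin (Msum a W) (-s)) U := by
    apply DifferentiableOn.analyticOnNhd _ hU
    intro s hs
    have h4 := (hL s hs).differentiableAt (hU.mem_nhds hs)
    exact (h4.mul (differentiableAt_mellin_Msum h ha0 hM (hUθ s hs))).differentiableWithinAt
  have h5 : AnalyticOnNhd ℂ (mellin W) U := by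
    apply DifferentiableOn.analyticOnNhd _ hU
    intro s hs
    exact (h.differentiableAt (by linarith [hUθ s hs])).differentiableWithinAt
  have hev : (fun s => L s * mellin (Msum a W) (-s)) =ᶠ[𝓝 (2 : ℂ)] mellin W := by
    have : {z : ℂ | 1 < z.re} ∈ 𝓝 (2 : ℂ) :=
      (isOpen_lt continuous_const Complex.continuous_re).mem_nhds (by norm_num)
    filter_upwards [this] with z hz
    have hz1 : 1 < z.re := hz
    rw [mellin_Msum h ha0 (by linarith) (ha z hz1)]
    have := hinv z hz1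
    linear_combination (mellin W z) * this
  exact h3.eqOn_of_preconnected_of_eventuallyEq h5 hUc h2 hev

/-- the half plane `Re s > θ` without the point `1` is preconnected -/
lemma isPreconnected_regionθ {θ : ℝ} (hθ : θ < 1) :
    IsPreconnected {s : ℂ | θ < s.re ∧ s ≠ 1} := by
  set A : Set ℂ := {s | 1 < s.re}
  set B : Set ℂ := {s | θ < s.re ∧ 0 < s.im}
  set C : Set ℂ := {s | θ < s.re ∧ s.im < 0}
  set D : Set ℂ := {s | θ < s.re ∧ s.re < 1}
  have hA : IsPreconnected A := (convex_halfSpace_re_gt 1).isPreconnected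
  have hB : IsPreconnected B :=
    ((convex_halfSpace_re_gt θ).inter (convex_halfSpace_im_gt 0)).isPreconnected
  have hC : IsPreconnected C :=
    ((convex_halfSpace_re_gt θ).inter (convex_halfSpace_im_lt 0)).isPreconnected
  have hD : IsPreconnected D :=
    ((convex_halfSpace_re_gt θ).inter (convex_halfSpace_re_lt 1)).isPreconnected
  have hAB : IsPreconnected (A ∪ B) :=
    IsPreconnected.union (⟨2, 1⟩ : ℂ) (by simp [A]) (by simp [B]; linarith) hA hB
  have hABC : IsPreconnected (A ∪ B ∪ C) :=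
    IsPreconnected.union (⟨2, -1⟩ : ℂ) (Or.inl (by simp [A])) (by simp [C]; linarith) hAB hC
  have hABCD : IsPreconnected (A ∪ B ∪ C ∪ D) :=
    IsPreconnected.union (⟨(1 + θ) / 2, 1⟩ : ℂ) (Or.inl (Or.inr (by simp [B]; linarith)))
      (by simp [D]; constructor <;> linarith) hABC hD
  have he : {s : ℂ | θ < s.re ∧ s ≠ 1} = A ∪ B ∪ C ∪ D := by
    ext s
    simp only [A, B, C, D, Set.mem_ofPred_eq, Set.mem_union]
    constructor
    · rintro ⟨h1, h2⟩
      rcases lt_trichotomy s.im 0 with h | h | h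
      · exact Or.inl (Or.inr ⟨h1, h⟩)
      · rcases lt_trichotomy s.re 1 with h' | h' | h'
        · exact Or.inr ⟨h1, h'⟩
        · exact absurd (Complex.ext h' (by simpa using h)) h2
        · exact Or.inl (Or.inl (Or.inl h'))
      · exact Or.inl (Or.inl (Or.inr ⟨h1, h⟩))
    · rintro (((h | h) | h) | h)
      · exact ⟨by linarith, by rintro rfl; simp at h⟩
      · exact ⟨h.1, by rintro rfl; simp at h⟩
      · exact ⟨h.1, by rintro rfl; simp at h⟩
      · exact ⟨h.1, by rintro rfl; simp at h⟩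
  rw [he]; exact hABCD

lemma isOpen_regionθ (θ : ℝ) : IsOpen {s : ℂ | θ < s.re ∧ s ≠ 1} :=
  (isOpen_lt continuous_const Complex.continuous_re).inter isOpen_ne

/-- zero-freeness at `s₀ ≠ 1` (principal case) -/
theorem ne_zero_of_Msum (h : Wt W B β) (ha0 : a 0 = 0) {L : ℂ → ℂ} {θ C : ℝ} (hθ : 0 ≤ θ)
    (hL : ∀ s : ℂ, θ < s.re → s ≠ 1 → DifferentiableAt ℂ L s)
    (ha : ∀ s : ℂ, 1 < s.re → LSeriesSummable a s)
    (hinv : ∀ s : ℂ, 1 < s.re → LSeries a s * L s = 1)
    (hM : ∀ X : ℝ, 1 ≤ X → ‖Msum a W X‖ ≤ C * X ^ θ) {s₀ : ℂ} (hs₀ : θ < s₀.re)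
    (h1 : s₀ ≠ 1) (hW : mellin W s₀ ≠ 0) : L s₀ ≠ 0 := by
  rcases lt_or_ge 1 s₀.re with h3 | h3
  · intro h0
    have := hinv s₀ h3
    rw [h0, mul_zero] at this
    exact zero_ne_one this
  rcases lt_or_ge θ 1 with hθ1 | hθ1
  · have h4 := L_mul_mellin h ha0 hθ (isOpen_regionθ θ) (isPreconnected_regionθ hθ1)
      (fun s hs => hs.1) ⟨by simp; linarith, by norm_num⟩
      (fun s hs => (hL s hs.1 hs.2).differentiableWithinAt) ha hinv hM s₀ ⟨hs₀, h1⟩
    intro h0
    rw [h0, zero_mul] at h4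
    exact hW h4.symm
  · exfalso; linarith

/-- zero-freeness in the whole half plane (no pole) -/
theorem ne_zero_of_Msum' (h : Wt W B β) (ha0 : a 0 = 0) {L : ℂ → ℂ} {θ C : ℝ} (hθ : 0 ≤ θ)
    (hL : ∀ s : ℂ, θ < s.re → DifferentiableAt ℂ L s)
    (ha : ∀ s : ℂ, 1 < s.re → LSeriesSummable a s)
    (hinv : ∀ s : ℂ, 1 < s.re → LSeries a s * L s = 1)
    (hM : ∀ X : ℝ, 1 ≤ X → ‖Msum a W X‖ ≤ C * X ^ θ) {s₀ : ℂ} (hs₀ : θ < s₀.re)
    (hW : mellin W s₀ ≠ 0) : L s₀ ≠ 0 := by
  rcases lt_or_ge 1 s₀.re with h3 | h3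
  · intro h0
    have := hinv s₀ h3
    rw [h0, mul_zero] at this
    exact zero_ne_one this
  have hθ1 : θ < 1 := by linarith
  have h4 := L_mul_mellin h ha0 hθ (U := {s : ℂ | θ < s.re})
    (isOpen_lt continuous_const Complex.continuous_re) (convex_halfSpace_re_gt θ).isPreconnected
    (fun s hs => hs) (by simp; linarith)
    (fun s hs => (hL s hs).differentiableWithinAt) ha hinv hM s₀ hs₀
  intro h0
  rw [h0, zero_mul] at h4
  exact hW h4.symm

end main

end Crest.Agent.R017.End699
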