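import Crest.Agent.R017.EndH_699

/-!
# Row 17, end block (H2): uniform bounds for smoothed Möbius sums in the family
-/

set_option autoImplicit false

noncomputable section

namespace Crest.Agent.R017.End699

section

open Complex Filter Topology MeasureTheory Set
open Crest.Agent.R017.Z2590

variable {ι : Type*}

/-- (Z2) of helper590 with a multiplier `g`. Uniform bound for smooth sums of the coefficients of `1/L` (twisted by `N^{-iτ}`)
when `L` has no zeros in `Re z > Θ`, `|Im z - τ| < T + 2`. `C` depends only on `Θ, A, B, ε`. -/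
theorem Z2g [Countable ι] {Θ A B ε : ℝ} (hΘ0 : 0 ≤ Θ) (hΘ : Θ < 1) (hA : 0 ≤ A) (hB : 1 ≤ B)
    (hε : 0 < ε) (hε1 : ε ≤ 1) :
    ∃ C : ℝ, 1 ≤ C ∧ ∀ (g L : ℂ → ℂ) (τ T q : ℝ), 1 ≤ q → 1 ≤ T → ZF L Θ A B τ T q →
      (∀ z : ℂ, 0 ≤ z.re → DifferentiableAt ℂ g z) → (∀ z : ℂ, 0 ≤ z.re → ‖g z‖ ≤ 1) →
      ∀ (a : ι → ℂ) (N : ι → ℝ), (∀ i, 0 < N i) → (Summable fun i => ‖a i‖ * N i ^ (-(2 : ℝ))) →
      (∀ t : ℝ, g (2 + t * I) * (L (2 + t * I))⁻¹ = ∑' i, a i * (N i : ℂ) ^ (-(2 + t * I : ℂ))) →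
      ∀ (m : ℕ) (w : ℝ → ℂ) (K : ℝ), WB w (m + 3) K → ∀ Q : ℝ, 1 ≤ Q →
      ‖∑' i, a i * (N i : ℂ) ^ (-(τ * I : ℂ)) * w (Real.log (N i / Q))‖ ≤
        C * K * (q * (1 + |τ|)) ^ ε * (Q ^ (Θ + ε) + Q ^ 2 * (T ^ (m + 1))⁻¹) := by
  obtain ⟨C, hC1, hC⟩ := Z1τ (Θ := Θ) hΘ0 hΘ hA hB hε
  refine ⟨4 * (3 * C + B), by linarith, ?_⟩
  intro g L τ T q hq hT hL hg hg1 a N hN hs hLs m w K hw Q hQ
  have hτ := abs_nonneg τ
  have hq1 : 1 ≤ q * (1 + |τ|) := by nlinarith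
  have hK0 : 0 ≤ K := hw.nn
  have hC0 : 0 < C := by linarith
  have hT0 : 0 < T := by linarith
  have hQ0 : 0 < Q := by linarith
  set M : ℝ := 3 * C * (q * (1 + |τ|)) ^ ε with hM
  have hqε : 1 ≤ (q * (1 + |τ|)) ^ ε := Real.one_le_rpow hq1 hε.le
  have him : ∀ w : ℂ, (w + τ * I).im - τ = w.im := fun w => by simp
  have hre : ∀ w : ℂ, (w + τ * I).re = w.re := fun w => by simp
  have hcpow : ∀ (i : ι) (s : ℂ), (N i : ℂ) ^ (-(τ * I : ℂ)) * (N i : ℂ) ^ (-s) =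
      (N i : ℂ) ^ (-(s + τ * I)) := by
    intro i s
    have hN' : (N i : ℂ) ≠ 0 := by exact_mod_cast (hN i).ne'
    rw [← Complex.cpow_add _ _ hN']
    congr 1
    ring
  have hn1 : ∀ i, ‖(N i : ℂ) ^ (-(τ * I : ℂ))‖ = 1 := by
    intro i
    rw [Complex.norm_cpow_eq_rpow_re_of_pos (hN i)]
    simp
  have key := smooth_sum_le (a := fun i => a i * (N i : ℂ) ^ (-(τ * I : ℂ))) (N := N) hN
    (by
      refine hs.congr fun i => ?_
      rw [norm_mul, hn1, mul_one])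
    (A := fun s => g (s + τ * I) * (L (s + τ * I))⁻¹) (σ₁ := Θ + ε) (T := T) (M := M) (B := B) (K := K) (Q := Q)
    (m := m) (w := w) hw hQ hT (by linarith) (by linarith)
    (by
      refine DifferentiableOn.mul ?_ (DifferentiableOn.inv ?_ ?_)
      · intro z hz
        refine DifferentiableAt.differentiableWithinAt ?_
        refine (hg (z + τ * I) (by rw [hre]; linarith [hz.1])).comp z (by fun_prop)
      · refine hL.hd.comp (by fun_prop) ?_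
        intro z hz
        refine ⟨?_, ?_⟩
        · rw [hre]; linarith [hz.1]
        · rw [him]; linarith [hz.2.2]
      · intro z hz
        refine hL.h0 _ ?_ ?_
        · rw [hre]; linarith [hz.1]
        · rw [him]; linarith [hz.2.2])
    (fun z h1 h2 h3 => by
      have h4 := (hC L τ T q hq hL (z + τ * I) (by rw [hre]; exact h1) (by rw [him]; exact h3)).2
      rw [him] at h4
      rw [norm_mul]
      refine (mul_le_of_le_one_left (norm_nonneg _)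
        (hg1 _ (by rw [hre]; linarith))).trans (h4.trans ?_)
      have h5 := abs_nonneg z.im
      rw [Real.mul_rpow (by positivity) (by positivity)]
      have h6 : (|z.im| + 3) ^ ε ≤ 3 * (1 + |z.im|) := by
        calc (|z.im| + 3) ^ ε ≤ (|z.im| + 3) ^ (1 : ℝ) :=
              Real.rpow_le_rpow_of_exponent_le (by linarith) hε1
          _ = |z.im| + 3 := Real.rpow_one _
          _ ≤ _ := by linarith
      calc C * ((q * (1 + |τ|)) ^ ε * (|z.im| + 3) ^ ε)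
          ≤ C * ((q * (1 + |τ|)) ^ ε * (3 * (1 + |z.im|))) := by gcongr
        _ = M * (1 + |z.im|) := by rw [hM]; ring)
    (fun t => by
      rw [norm_mul]
      exact (mul_le_of_le_one_left (norm_nonneg _) (hg1 _ (by simp))).trans
        (hL.bd _ (by simp; norm_num)).2)
    (fun t => by
      have e : (2 + t * I + τ * I : ℂ) = 2 + ((t + τ : ℝ) : ℂ) * I := by push_cast; ring
      rw [e, hLs (t + τ)]
      congr 1
      ext i
      rw [mul_assoc, hcpow, ← e])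
  refine key.trans ?_
  have h7 : 0 ≤ Q ^ 2 * (T ^ (m + 1))⁻¹ := by positivity
  have h8 : 0 ≤ Q ^ (Θ + ε) := by positivity
  have h9 : M + B ≤ (3 * C + B) * (q * (1 + |τ|)) ^ ε := by
    rw [hM]
    nlinarith
  have h10 : M ≤ (3 * C + B) * (q * (1 + |τ|)) ^ ε := by
    refine le_trans ?_ h9
    linarith
  calc 4 * K * (M * Q ^ (Θ + ε) + (M + B) * Q ^ 2 * (T ^ (m + 1))⁻¹)
      = 4 * K * (M * Q ^ (Θ + ε) + (M + B) * (Q ^ 2 * (T ^ (m + 1))⁻¹)) := by ring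
    _ ≤ 4 * K * (((3 * C + B) * (q * (1 + |τ|)) ^ ε) * Q ^ (Θ + ε) +
        ((3 * C + B) * (q * (1 + |τ|)) ^ ε) * (Q ^ 2 * (T ^ (m + 1))⁻¹)) := by gcongr
    _ = _ := by ring


end

open Crest.Agent.R012 Crest.Agent.R012.Eis Crest.Agent.R012.PSer47
open scoped ContDiff

/-- the function is zero-free in a box around height `τ` -/
def BoxFree (q : Eis) (χ : Eis → ℂ) (l : ℤ) (Θ τ T : ℝ) : Prop :=
  ∀ z : ℂ, Θ < z.re → |z.im - τ| < T + 2 → (NP q χ l ∨ z ≠ 1) → LH q χ l z ≠ 0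

/-- the positive real attached to `n` -/
def nn (n : ℕ) : ℝ := if n = 0 then 1 else n

lemma nn_pos (n : ℕ) : 0 < nn n := by
  unfold nn
  split_ifs with h
  · norm_num
  · exact_mod_cast Nat.pos_of_ne_zero h

lemma nn_of_ne {n : ℕ} (h : n ≠ 0) : nn n = n := by unfold nn; rw [if_neg h]

/-- **uniform bound for smoothed Möbius sums**, log weights -/
theorem moebius_bound (l : ℤ) {Θ ε : ℝ} (hΘ : 1 / 2 < Θ) (hΘ1 : Θ < 1) (hε : 0 < ε)
    (hε1 : ε ≤ 1) : ∃ C : ℝ, 1 ≤ C ∧ ∀ (q : Eis) (χ : Eis → ℂ), HC q χ → ∀ τ T : ℝ, 1 ≤ T →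
      BoxFree q χ l Θ τ T → ∀ (m : ℕ) (w : ℝ → ℂ) (K : ℝ), Z2590.WB w (m + 3) K →
      ∀ Q : ℝ, 1 ≤ Q → ∀ M : ℕ, (∀ n : ℕ, M < n → w (Real.log (n / Q)) = 0) →
      ‖∑ b ∈ primBall M, (muE b : ℂ) * tw χ l b * ((nm b : ℂ) ^ (-(τ * Complex.I : ℂ)) *
        w (Real.log (nm b / Q)))‖ ≤
        C * K * ((nm q : ℝ) * (1 + |τ|)) ^ ε * (Q ^ (Θ + ε) + Q ^ 2 * (T ^ (m + 1))⁻¹) := by
  obtain ⟨A, hA, hzf⟩ := zf_Lr l hΘ
  obtain ⟨C, hC1, hC⟩ := Z2g (ι := ℕ) (Θ := Θ) (A := A) (B := 9 * B0) (ε := ε) (by linarith) hΘ1 hA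
    (by have := one_le_B0; linarith) hε hε1
  refine ⟨C, hC1, fun q χ h τ T hT hbox m w K hw Q hQ M hM => ?_⟩
  have hq : (1 : ℝ) ≤ (nm q : ℝ) := by exact_mod_cast nm_pos.mpr h.q0
  set f : Eis → ℂ := fun b => (muE b : ℂ) * tw χ l b with hf
  have hfle : ∀ b, IsPrim b → ‖f b‖ ≤ 1 := fun b hb => norm_muE_mul_le (h.isChar_tw l) hb
  have key := hC (gr q χ l) (Lr q χ l) τ T (nm q) hq hT (hzf q χ h τ T hbox)
    (fun z hz => differentiableAt_gr hz) (fun z hz => norm_gr_le hz)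
    (push f) nn nn_pos ?_ ?_ m w K hw Q hQ
  · refine le_trans (le_of_eq ?_) key
    congr 1
    have h1 : ∑' n : ℕ, push f n * (nn n : ℂ) ^ (-(τ * Complex.I : ℂ)) *
        w (Real.log (nn n / Q)) = ∑ n ∈ Finset.range (M + 1), push f n *
          ((n : ℂ) ^ (-(τ * Complex.I : ℂ)) * w (Real.log (n / Q))) := by
      rw [tsum_eq_sum (s := Finset.range (M + 1))]
      · apply Finset.sum_congr rfl
        intro n _
        rcases eq_or_ne n 0 with rfl | hn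
        · simp
        · rw [nn_of_ne hn, mul_assoc]
          push_cast
          rfl
      · intro n hn
        rw [Finset.mem_range, not_lt] at hn
        have hn0 : n ≠ 0 := by omega
        rw [nn_of_ne hn0, hM n (by omega), mul_zero]
    rw [h1]
    exact (sum_push_weight f
      (fun n => (n : ℂ) ^ (-(τ * Complex.I : ℂ)) * w (Real.log (n / Q))) M).symm
  · have h2 := (LSer47.summable_push hfle (s := 2) (by norm_num)).norm
    refine h2.congr fun n => ?_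
    rcases eq_or_ne n 0 with rfl | hn
    · simp
    · rw [LSeries.term_of_ne_zero hn, norm_div,
        Complex.norm_natCast_cpow_of_pos (Nat.pos_of_ne_zero hn), nn_of_ne hn,
        Real.rpow_neg (by positivity), div_eq_mul_inv]
      norm_num
  · intro t
    set z : ℂ := 2 + t * Complex.I with hz
    have hzre : z.re = 2 := by simp [hz]
    have hz1 : z ≠ 1 := by
      intro h1
      rw [h1] at hzre
      simp at hzre
    rw [← inv_LH_eq (by rw [hzre]; norm_num) hz1]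
    have h1 := h.LSeries_mu_mul_LH l (s := z) (by rw [hzre]; norm_num)
    rw [← eq_inv_of_mul_eq_one_left h1]
    unfold LSeries
    apply tsum_congr
    intro n
    rcases eq_or_ne n 0 with rfl | hn
    · simp
    · rw [LSeries.term_of_ne_zero hn, nn_of_ne hn, Complex.cpow_neg, div_eq_mul_inv]
      push_cast
      rfl

/-- a smooth compactly supported weight on `(0, ∞)` in logarithmic scale -/
lemma log_weight {V : ℝ → ℂ} (h1 : ContDiff ℝ ∞ V) (h2 : HasCompactSupport V)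
    (h3 : tsupport V ⊆ Set.Ioi 0) :
    ContDiff ℝ ∞ (fun u : ℝ => V (Real.exp u)) ∧ HasCompactSupport (fun u : ℝ => V (Real.exp u)) := by
  refine ⟨h1.comp Real.contDiff_exp, ?_⟩
  have hK : IsCompact (Real.log '' tsupport V) := by
    apply h2.isCompact.image_of_continuousOn
    apply Real.continuousOn_log.mono
    intro x hx
    exact ne_of_gt (h3 hx)
  refine HasCompactSupport.intro hK fun u hu => ?_
  apply image_eq_zero_of_notMem_tsupport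
  intro h4
  exact hu ⟨Real.exp u, h4, Real.log_exp u⟩

/-- **uniform bound for smoothed Möbius sums** -/
theorem moebius_bound_V (l : ℤ) {Θ ε : ℝ} (hΘ : 1 / 2 < Θ) (hΘ1 : Θ < 1) (hε : 0 < ε)
    (hε1 : ε ≤ 1) (m : ℕ) {V : ℝ → ℂ} (h1 : ContDiff ℝ ∞ V) (h2 : HasCompactSupport V)
    (h3 : tsupport V ⊆ Set.Ioi 0) {β : ℝ} (hβ : ∀ y, β < y → V y = 0) :
    ∃ C : ℝ, 0 ≤ C ∧ ∀ (q : Eis) (χ : Eis → ℂ), HC q χ → ∀ τ T : ℝ, 1 ≤ T →
      BoxFree q χ l Θ τ T → ∀ Q : ℝ, 1 ≤ Q →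
      ‖∑ b ∈ primBall ⌊β * Q⌋₊, (muE b : ℂ) * tw χ l b * ((nm b : ℂ) ^ (-(τ * Complex.I : ℂ)) *
        V (nm b / Q))‖ ≤
        C * ((nm q : ℝ) * (1 + |τ|)) ^ ε * (Q ^ (Θ + ε) + Q ^ 2 * (T ^ (m + 1))⁻¹) := by
  obtain ⟨C, hC1, hC⟩ := moebius_bound l hΘ hΘ1 hε hε1
  obtain ⟨h4, h5⟩ := log_weight h1 h2 h3
  obtain ⟨K, hK⟩ := Z2590.exists_WB h4 h5 (m + 3)
  have hK0 := hK.nn
  refine ⟨C * K, by positivity, fun q χ h τ T hT hbox Q hQ => ?_⟩
  have hQ0 : 0 < Q := by linarith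
  have h6 := hC q χ h τ T hT hbox m _ K hK Q hQ ⌊β * Q⌋₊ ?_
  · refine le_trans (le_of_eq ?_) h6
    congr 1
    apply Finset.sum_congr rfl
    intro b hb
    rw [mem_primBall] at hb
    have hb0 : (0 : ℝ) < (nm b : ℝ) / Q := by
      have : (0 : ℝ) < (nm b : ℝ) := by exact_mod_cast nm_pos.mpr hb.2.ne_zero
      positivity
    rw [Real.exp_log hb0]
  · intro n hn
    have h7 : β * Q < n := Nat.lt_of_floor_lt hn
    have hn0 : (0 : ℝ) < n := by exact_mod_cast (Nat.zero_le _).trans_lt hn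
    rw [Real.exp_log (by positivity)]
    apply hβ
    rw [lt_div_iff₀ hQ0]
    exact h7


/-- no zeros in `Re z > Θ` (except the pole) -/
def Free (q : Eis) (χ : Eis → ℂ) (l : ℤ) (Θ : ℝ) : Prop :=
  ∀ z : ℂ, Θ < z.re → (NP q χ l ∨ z ≠ 1) → LH q χ l z ≠ 0

/-- **uniform bound for smoothed Möbius sums**, global version -/
theorem moebius_bound_global (l : ℤ) {Θ ε : ℝ} (hΘ : 1 / 2 < Θ) (hΘ1 : Θ < 1) (hε : 0 < ε)
    (hε1 : ε ≤ 1) {V : ℝ → ℂ} (h1 : ContDiff ℝ ∞ V) (h2 : HasCompactSupport V)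
    (h3 : tsupport V ⊆ Set.Ioi 0) {β : ℝ} (hβ : ∀ y, β < y → V y = 0) :
    ∃ C : ℝ, 0 ≤ C ∧ ∀ (q : Eis) (χ : Eis → ℂ), HC q χ → Free q χ l Θ → ∀ τ Q : ℝ, 1 ≤ Q →
      ‖∑ b ∈ primBall ⌊β * Q⌋₊, (muE b : ℂ) * tw χ l b * ((nm b : ℂ) ^ (-(τ * Complex.I : ℂ)) *
        V (nm b / Q))‖ ≤ C * ((nm q : ℝ) * (1 + |τ|)) ^ ε * Q ^ (Θ + ε) := by
  obtain ⟨C, hC0, hC⟩ := moebius_bound_V l hΘ hΘ1 hε hε1 0 h1 h2 h3 hβ
  refine ⟨2 * C, by positivity, fun q χ h hfree τ Q hQ => ?_⟩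
  have hQ2 : (1 : ℝ) ≤ Q ^ 2 := one_le_pow₀ hQ
  have key := hC q χ h τ (Q ^ 2) hQ2 (fun z hz _ => hfree z hz) Q hQ
  have e : Q ^ 2 * ((Q ^ 2) ^ (0 + 1))⁻¹ = 1 := by
    rw [zero_add, pow_one]
    exact mul_inv_cancel₀ (by positivity)
  rw [e] at key
  have h4 : (1 : ℝ) ≤ Q ^ (Θ + ε) := Real.one_le_rpow hQ (by linarith)
  have h5 : 0 ≤ C * ((nm q : ℝ) * (1 + |τ|)) ^ ε := by
    have := abs_nonneg τ
    positivity
  calc _ ≤ C * ((nm q : ℝ) * (1 + |τ|)) ^ ε * (Q ^ (Θ + ε) + 1) := key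
    _ ≤ C * ((nm q : ℝ) * (1 + |τ|)) ^ ε * (Q ^ (Θ + ε) + Q ^ (Θ + ε)) := by gcongr
    _ = _ := by ring

end Crest.Agent.R017.End699
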