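import Mathlib

/-!
Row 17, leaf Z1/Z3 (helper590): quantitative "no zeros ⇒ 1/L is small", uniformly in the conductor.

Abstract statements about a holomorphic function `L` on a disc; no number theory.
-/

open Complex Metric Set

namespace Crest.Agent.R017.Z1590

/-- A holomorphic, nowhere zero function on a disc has a holomorphic logarithm there, with the
principal value at the centre. -/
lemma exists_log_on_ball {L : ℂ → ℂ} {c : ℂ} {R : ℝ} (hR : 0 < R)
    (hd : DifferentiableOn ℂ L (ball c R)) (h0 : ∀ z ∈ ball c R, L z ≠ 0) :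
    ∃ f : ℂ → ℂ, DifferentiableOn ℂ f (ball c R) ∧ f c = Complex.log (L c) ∧
      ∀ z ∈ ball c R, Complex.exp (f z) = L z := by
  have hd' : DifferentiableOn ℂ (deriv L) (ball c R) := hd.deriv isOpen_ball
  have hq : DifferentiableOn ℂ (fun z => deriv L z / L z) (ball c R) := hd'.div hd h0
  obtain ⟨f, hfc, hf⟩ := hq.isExactOn_ball.with_val_at c (Complex.log (L c))
  have hfd : DifferentiableOn ℂ f (ball c R) :=
    fun z hz => (hf z hz).differentiableAt.differentiableWithinAt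
  refine ⟨f, hfd, hfc, ?_⟩
  have hc : c ∈ ball c R := mem_ball_self hR
  -- `L * exp (-f)` is constant
  have key : ∀ z ∈ ball c R, HasDerivAt (fun w => L w * Complex.exp (-f w)) 0 z := by
    intro z hz
    have h1 : HasDerivAt L (deriv L z) z :=
      ((hd z hz).differentiableAt (isOpen_ball.mem_nhds hz)).hasDerivAt
    have h2 : HasDerivAt (fun w => Complex.exp (-f w))
        (Complex.exp (-f z) * (-(deriv L z / L z))) z := (hf z hz).neg.cexp
    have h3 := h1.mul h2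
    have h4 : deriv L z * Complex.exp (-f z) + L z * (Complex.exp (-f z) *
        (-(deriv L z / L z))) = 0 := by
      have := h0 z hz
      field_simp
      ring
    rw [h4] at h3
    exact h3
  have hconst : ∀ z ∈ ball c R, L z * Complex.exp (-f z) = L c * Complex.exp (-f c) := by
    intro z hz
    exact isOpen_ball.is_const_of_deriv_eq_zero (convex_ball c R).isPreconnected
      (fun w hw => (key w hw).differentiableAt.differentiableWithinAt)
      (fun w hw => (key w hw).deriv) hz hc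
  intro z hz
  have h1 := hconst z hz
  have h2 : L c * Complex.exp (-f c) = 1 := by
    rw [hfc, Complex.exp_neg, Complex.exp_log (h0 c hc)]
    exact mul_inv_cancel₀ (h0 c hc)
  rw [h2] at h1
  have h3 : L z = Complex.exp (f z) := by
    have := congrArg (· * Complex.exp (f z)) h1
    simp only [mul_assoc, ← Complex.exp_add, neg_add_cancel, Complex.exp_zero, mul_one,
      one_mul] at this
    exact this
  exact h3.symm

/-- Borel–Carathéodory on a disc with arbitrary centre. -/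
lemma borelCaratheodory_center {f : ℂ → ℂ} {c : ℂ} {M R : ℝ} (hM : 0 < M) (hR : 0 < R)
    (hf : DifferentiableOn ℂ f (ball c R)) (hre : ∀ z ∈ ball c R, (f z).re ≤ M) {z : ℂ}
    (hz : z ∈ ball c R) :
    ‖f z‖ ≤ 2 * M * ‖z - c‖ / (R - ‖z - c‖) + ‖f c‖ * (R + ‖z - c‖) / (R - ‖z - c‖) := by
  have hmap : MapsTo (fun w : ℂ => c + w) (ball 0 R) (ball c R) := by
    intro w hw
    simpa [mem_ball, dist_eq_norm] using hw
  have hg : DifferentiableOn ℂ (fun w => f (c + w)) (ball 0 R) :=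
    hf.comp (by fun_prop) hmap
  have hzm : z - c ∈ ball (0 : ℂ) R := by
    simpa [mem_ball, dist_eq_norm] using hz
  have := Complex.borelCaratheodory (z := z - c) hM hg (fun w hw => hre _ (hmap hw)) hR hzm
  simpa using this

/-- Hadamard's three circles theorem (for a disc). -/
lemma three_circles {f : ℂ → ℂ} {c : ℂ} {R r₁ r₃ M₁ M₃ : ℝ} (hr₁ : 0 < r₁) (h13 : r₁ < r₃)
    (h3R : r₃ < R) (hf : DifferentiableOn ℂ f (ball c R))
    (h₁ : ∀ z, ‖z - c‖ = r₁ → ‖f z‖ ≤ M₁) (h₃ : ∀ z, ‖z - c‖ ≤ r₃ → ‖f z‖ ≤ M₃)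
    {z : ℂ} (hz₁ : r₁ ≤ ‖z - c‖) (hz₃ : ‖z - c‖ ≤ r₃) :
    ‖f z‖ ≤ M₁ ^ (1 - (Real.log ‖z - c‖ - Real.log r₁) / (Real.log r₃ - Real.log r₁)) *
      M₃ ^ ((Real.log ‖z - c‖ - Real.log r₁) / (Real.log r₃ - Real.log r₁)) := by
  have hr₃ : 0 < r₃ := hr₁.trans h13
  have hlog : Real.log r₁ < Real.log r₃ := Real.log_lt_log hr₁ h13
  have hzc : 0 < ‖z - c‖ := hr₁.trans_le hz₁
  have hzc0 : z - c ≠ 0 := norm_pos_iff.mp hzc
  set g : ℂ → ℂ := fun w => f (c + Complex.exp w) with hg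
  have hnorm : ∀ w : ℂ, ‖(c + Complex.exp w) - c‖ = Real.exp w.re := by
    intro w
    rw [add_sub_cancel_left, Complex.norm_exp]
  have hle : ∀ w : ℂ, w.re ≤ Real.log r₃ → ‖(c + Complex.exp w) - c‖ ≤ r₃ := by
    intro w hw
    rw [hnorm]
    calc Real.exp w.re ≤ Real.exp (Real.log r₃) := Real.exp_le_exp.mpr hw
      _ = r₃ := Real.exp_log hr₃
  have hmaps : MapsTo (fun w : ℂ => c + Complex.exp w) (re ⁻¹' Iic (Real.log r₃)) (ball c R) := by
    intro w hw
    rw [mem_ball, dist_eq_norm]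
    exact (hle w hw).trans_lt h3R
  have hopen : IsOpen {w : ℂ | c + Complex.exp w ∈ ball c R} :=
    isOpen_ball.preimage (by fun_prop)
  have hgd : DifferentiableOn ℂ g {w : ℂ | c + Complex.exp w ∈ ball c R} :=
    hf.comp (by fun_prop) (fun w hw => hw)
  have hcl : closure (Complex.HadamardThreeLines.verticalStrip (Real.log r₁) (Real.log r₃)) ⊆
      re ⁻¹' Iic (Real.log r₃) := by
    have h1 : IsClosed (re ⁻¹' Iic (Real.log r₃)) := isClosed_Iic.preimage continuous_re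
    refine closure_minimal ?_ h1
    intro w hw
    exact (show w.re ∈ Ioo _ _ from hw).2.le
  have hdc : DiffContOnCl ℂ g
      (Complex.HadamardThreeLines.verticalStrip (Real.log r₁) (Real.log r₃)) := by
    have : DifferentiableOn ℂ g
      (closure (Complex.HadamardThreeLines.verticalStrip (Real.log r₁) (Real.log r₃))) :=
      hgd.mono (fun w hw => hmaps (hcl hw))
    exact this.diffContOnCl
  have hb : BddAbove ((norm ∘ g) ''
      Complex.HadamardThreeLines.verticalClosedStrip (Real.log r₁) (Real.log r₃)) := by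
    refine ⟨M₃, ?_⟩
    rintro x ⟨w, hw, rfl⟩
    exact h₃ _ (hle w (show w.re ∈ Icc _ _ from hw).2)
  have h1' : ∀ w ∈ re ⁻¹' {Real.log r₁}, ‖g w‖ ≤ M₁ := by
    intro w hw
    refine h₁ _ ?_
    rw [hnorm, show w.re = Real.log r₁ from hw, Real.exp_log hr₁]
  have h3' : ∀ w ∈ re ⁻¹' {Real.log r₃}, ‖g w‖ ≤ M₃ := by
    intro w hw
    exact h₃ _ (hle w (le_of_eq hw))
  have hw0 : (Complex.log (z - c)).re = Real.log ‖z - c‖ := Complex.log_re _
  have hmem : Complex.log (z - c) ∈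
      Complex.HadamardThreeLines.verticalClosedStrip (Real.log r₁) (Real.log r₃) := by
    show (Complex.log (z - c)).re ∈ Icc _ _
    rw [hw0]
    exact ⟨Real.log_le_log hr₁ hz₁, Real.log_le_log hzc hz₃⟩
  have := Complex.HadamardThreeLines.norm_le_interp_of_mem_verticalClosedStrip' hlog hmem hdc hb
    h1' h3'
  rw [hw0] at this
  have hgz : g (Complex.log (z - c)) = f z := by
    simp only [hg]
    rw [Complex.exp_log hzc0]
    congr 1
    ring
  rw [hgz] at this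
  exact this

/-- The elementary inequality behind "`O(ℓ^a)` with `a<1` is `≤ ε ℓ + O(1)`". -/
lemma young_aux {a ε C₁ C₂ : ℝ} (ha0 : 0 < a) (ha1 : a < 1) (hε : 0 < ε) (hC₁ : 0 ≤ C₁)
    (hC₂ : 0 ≤ C₂) :
    ∃ K : ℝ, 0 ≤ K ∧ ∀ x : ℝ, 0 ≤ x → C₁ ^ (1 - a) * (C₂ * x) ^ a ≤ ε * x + K := by
  refine ⟨C₁ * (C₂ / ε) ^ (a / (1 - a)), by positivity, fun x hx => ?_⟩
  have h1a : 0 < 1 - a := by linarith
  have hK : 0 ≤ C₁ * (C₂ / ε) ^ (a / (1 - a)) := by positivity
  have h := Real.geom_mean_le_arith_mean2_weighted ha0.le h1a.le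
    (show 0 ≤ ε * x by positivity) hK (by ring)
  have e1 : (C₁ * (C₂ / ε) ^ (a / (1 - a))) ^ (1 - a) = C₁ ^ (1 - a) * (C₂ / ε) ^ a := by
    rw [Real.mul_rpow hC₁ (by positivity), ← Real.rpow_mul (by positivity)]
    congr 2
    field_simp
  have e2 : (ε * x) ^ a * (C₂ / ε) ^ a = (C₂ * x) ^ a := by
    rw [← Real.mul_rpow (by positivity) (by positivity)]
    congr 1
    field_simp
  calc C₁ ^ (1 - a) * (C₂ * x) ^ a
      = (ε * x) ^ a * (C₁ * (C₂ / ε) ^ (a / (1 - a))) ^ (1 - a) := by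
        rw [e1, ← e2]; ring
    _ ≤ a * (ε * x) + (1 - a) * (C₁ * (C₂ / ε) ^ (a / (1 - a))) := h
    _ ≤ 1 * (ε * x) + 1 * (C₁ * (C₂ / ε) ^ (a / (1 - a))) := by
        gcongr
        linarith
    _ = ε * x + C₁ * (C₂ / ε) ^ (a / (1 - a)) := by ring


/-- **Quantitative "no zeros ⇒ small logarithm" on a disc.** The constant `K` depends only on the
radii, on `A`, `B`, `ε`; not on `L`, the centre or the size parameter `ℓ` (`= log q`). -/
theorem abs_log_norm_le_of_zeroFree {r₀ r R A B ε : ℝ} (hr₀ : 0 < r₀) (hr₀r : r₀ ≤ r) (hrR : r < R)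
    (hA : 0 ≤ A) (hB : 1 ≤ B) (hε : 0 < ε) :
    ∃ K : ℝ, 0 ≤ K ∧ ∀ (L : ℂ → ℂ) (c : ℂ) (l : ℝ), 0 ≤ l →
      DifferentiableOn ℂ L (ball c R) → (∀ z ∈ ball c R, L z ≠ 0) →
      (∀ z ∈ ball c R, ‖L z‖ ≤ Real.exp (A * l)) →
      (∀ z ∈ ball c r₀, ‖L z‖ ≤ B ∧ ‖(L z)⁻¹‖ ≤ B) →
      ∀ z, ‖z - c‖ ≤ r → |Real.log ‖L z‖| ≤ ε * l + K := by
  -- parameters
  set r₁ : ℝ := r₀ / 2 with hr₁
  set r₃ : ℝ := (r + R) / 2 with hr₃
  have hr₁0 : 0 < r₁ := by positivity
  have h1r : r₁ < r := by rw [hr₁]; linarith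
  have hr3 : r < r₃ := by rw [hr₃]; linarith
  have h3R : r₃ < R := by rw [hr₃]; linarith
  have h13 : r₁ < r₃ := h1r.trans hr3
  have hR : 0 < R := by linarith
  have hlogB : 0 ≤ Real.log B := Real.log_nonneg hB
  have hpi : 0 < Real.pi := Real.pi_pos
  set D : ℝ := Real.log B + Real.pi with hD
  have hD0 : 0 < D := by positivity
  -- value on the small circle
  set C₁ : ℝ := 2 * (Real.log B + 1) * r₁ / (r₀ - r₁) + D * (r₀ + r₁) / (r₀ - r₁) with hC₁
  have hr01 : 0 < r₀ - r₁ := by rw [hr₁]; linarith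
  have hC₁0 : 0 < C₁ := by positivity
  have hR3 : 0 < R - r₃ := by linarith
  set C₂ : ℝ := C₁ + 2 * (A + 1) * r₃ / (R - r₃) + D * (R + r₃) / (R - r₃) with hC₂
  have hr₃0 : 0 < r₃ := hr₁0.trans h13
  have hC₂1 : C₁ ≤ C₂ := by
    have h1 : 0 ≤ 2 * (A + 1) * r₃ / (R - r₃) := by positivity
    have h2 : 0 ≤ D * (R + r₃) / (R - r₃) := by positivity
    rw [hC₂]; linarith
  have hC₂0 : 0 < C₂ := hC₁0.trans_le hC₂1
  have hlog13 : 0 < Real.log r₃ - Real.log r₁ := sub_pos.mpr (Real.log_lt_log hr₁0 h13)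
  set a : ℝ := (Real.log r - Real.log r₁) / (Real.log r₃ - Real.log r₁) with ha
  have ha0 : 0 < a := div_pos (sub_pos.mpr (Real.log_lt_log hr₁0 h1r)) hlog13
  have ha1 : a < 1 := by
    rw [ha, div_lt_one hlog13]
    have := Real.log_lt_log (hr₁0.trans h1r) hr3
    linarith
  obtain ⟨K, hK0, hK⟩ := young_aux (C₁ := C₁) (C₂ := C₂) ha0 ha1 hε hC₁0.le hC₂0.le
  refine ⟨K + ε + C₁, by positivity, ?_⟩
  intro L c l hl hd h0 hA' hB' z hz
  obtain ⟨f, hfd, hfc, hfe⟩ := exists_log_on_ball hR hd h0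
  have hcR : c ∈ ball c R := mem_ball_self hR
  have hc0 : c ∈ ball c r₀ := mem_ball_self hr₀
  have hre : ∀ w ∈ ball c R, (f w).re = Real.log ‖L w‖ := by
    intro w hw
    rw [← hfe w hw, Complex.norm_exp, Real.log_exp]
  have hBlog : ∀ w ∈ ball c r₀, |Real.log ‖L w‖| ≤ Real.log B := by
    intro w hw
    have hwR : w ∈ ball c R := ball_subset_ball (hr₀r.trans hrR.le) hw
    have hpos : 0 < ‖L w‖ := norm_pos_iff.mpr (h0 w hwR)
    rw [abs_le]
    constructor
    · have h1 := (hB' w hw).2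
      rw [norm_inv] at h1
      have h2 : Real.log (‖L w‖⁻¹) ≤ Real.log B := Real.log_le_log (by positivity) h1
      rw [Real.log_inv] at h2
      linarith
    · exact Real.log_le_log hpos (hB' w hw).1
  have hfcD : ‖f c‖ ≤ D := by
    rw [hfc]
    calc ‖Complex.log (L c)‖ ≤ |(Complex.log (L c)).re| + |(Complex.log (L c)).im| :=
          Complex.norm_le_abs_re_add_abs_im _
      _ ≤ Real.log B + Real.pi := by
          gcongr
          · rw [Complex.log_re]; exact hBlog c hc0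
          · rw [Complex.log_im]; exact Complex.abs_arg_le_pi _
  -- bound on the small disc
  have hsmall : ∀ w, ‖w - c‖ ≤ r₁ → ‖f w‖ ≤ C₁ := by
    intro w hw
    have hw0 : w ∈ ball c r₀ := by
      rw [mem_ball, dist_eq_norm]; linarith
    have hw1 : 0 < r₀ - ‖w - c‖ := by linarith
    have h := borelCaratheodory_center (f := f) (c := c) (M := Real.log B + 1) (R := r₀)
      (by linarith) hr₀ (hfd.mono (ball_subset_ball (hr₀r.trans hrR.le)))
      (fun v hv => by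
        rw [hre v (ball_subset_ball (hr₀r.trans hrR.le) hv)]
        have := (abs_le.mp (hBlog v hv)).2
        linarith) hw0
    calc ‖f w‖ ≤ 2 * (Real.log B + 1) * ‖w - c‖ / (r₀ - ‖w - c‖) +
          ‖f c‖ * (r₀ + ‖w - c‖) / (r₀ - ‖w - c‖) := h
      _ ≤ C₁ := by
          rw [hC₁]
          gcongr
  -- bound on the big disc
  have hbig : ∀ w, ‖w - c‖ ≤ r₃ → ‖f w‖ ≤ C₂ * (l + 1) := by
    intro w hw
    have hw0 : w ∈ ball c R := by
      rw [mem_ball, dist_eq_norm]; linarith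
    have hw1 : 0 < R - ‖w - c‖ := by linarith
    have hM0 : 0 < A * l + 1 := by positivity
    have h := borelCaratheodory_center (f := f) (c := c) (M := A * l + 1) (R := R)
      hM0 hR hfd
      (fun v hv => by
        rw [hre v hv]
        have h1 : 0 < ‖L v‖ := norm_pos_iff.mpr (h0 v hv)
        have h2 := Real.log_le_log h1 (hA' v hv)
        rw [Real.log_exp] at h2
        linarith) hw0
    calc ‖f w‖ ≤ 2 * (A * l + 1) * ‖w - c‖ / (R - ‖w - c‖) +
          ‖f c‖ * (R + ‖w - c‖) / (R - ‖w - c‖) := h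
      _ ≤ 2 * (A * l + 1) * r₃ / (R - r₃) + D * (R + r₃) / (R - r₃) := by
          gcongr
      _ ≤ 2 * ((A + 1) * (l + 1)) * r₃ / (R - r₃) + D * (R + r₃) / (R - r₃) * (l + 1) := by
          have h1 : A * l + 1 ≤ (A + 1) * (l + 1) := by nlinarith
          have h2 : 0 ≤ D * (R + r₃) / (R - r₃) := by positivity
          have h3 : D * (R + r₃) / (R - r₃) ≤ D * (R + r₃) / (R - r₃) * (l + 1) := by
            nlinarith
          gcongr
      _ = (2 * (A + 1) * r₃ / (R - r₃) + D * (R + r₃) / (R - r₃)) * (l + 1) := by ring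
      _ ≤ C₂ * (l + 1) := by
          gcongr
          rw [hC₂]; linarith
  have hzR : z ∈ ball c R := by
    rw [mem_ball, dist_eq_norm]; linarith
  rw [← hre z hzR]
  refine (Complex.abs_re_le_norm _).trans ?_
  rcases le_total ‖z - c‖ r₁ with h | h
  · have := hsmall z h
    have : 0 ≤ ε * l := by positivity
    linarith
  · have hz3 : ‖z - c‖ ≤ r₃ := hz.trans hr3.le
    have h3c := three_circles hr₁0 h13 h3R hfd (fun w hw => hsmall w hw.le) hbig h hz3
    set x : ℝ := (Real.log ‖z - c‖ - Real.log r₁) / (Real.log r₃ - Real.log r₁) with hx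
    have hxa : x ≤ a := by
      rw [hx, ha]
      have h5 := Real.log_le_log (hr₁0.trans_le h) hz
      exact div_le_div_of_nonneg_right (by linarith) hlog13.le
    have hM3 : 0 < C₂ * (l + 1) := by positivity
    have hmono : C₁ ^ (1 - x) * (C₂ * (l + 1)) ^ x ≤ C₁ ^ (1 - a) * (C₂ * (l + 1)) ^ a := by
      have hratio : 1 ≤ C₂ * (l + 1) / C₁ := by
        rw [le_div_iff₀ hC₁0]; nlinarith
      have e : ∀ y : ℝ, C₁ ^ (1 - y) * (C₂ * (l + 1)) ^ y = C₁ * (C₂ * (l + 1) / C₁) ^ y := by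
        intro y
        rw [Real.rpow_sub hC₁0, Real.rpow_one, Real.div_rpow hM3.le hC₁0.le]
        ring
      rw [e x, e a]
      gcongr
    have hfin := hK (l + 1) (by linarith)
    calc ‖f z‖ ≤ C₁ ^ (1 - x) * (C₂ * (l + 1)) ^ x := h3c
      _ ≤ C₁ ^ (1 - a) * (C₂ * (l + 1)) ^ a := hmono
      _ ≤ ε * (l + 1) + K := hfin
      _ ≤ ε * l + (K + ε + C₁) := by linarith

/-- **(Z3)** If `L` is holomorphic and zero-free on the disc `|z - (2 + it)| < 2 - Θ`, is bounded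
there by `q ^ A`, and `L^{±1}` is bounded by `B` in `Re z ≥ 5/4`, then `L^{±1} ≤ C q ^ ε` on the
disc `|z - (2 + it)| ≤ 2 - Θ - ε`. The constant depends only on `Θ, A, B, ε`. -/
theorem Z3 {Θ A B ε : ℝ} (hΘ : Θ < 1) (hA : 0 ≤ A) (hB : 1 ≤ B) (hε : 0 < ε) :
    ∃ C : ℝ, 1 ≤ C ∧ ∀ (L : ℂ → ℂ) (t q : ℝ), 1 ≤ q →
      DifferentiableOn ℂ L (ball (2 + t * I) (2 - Θ)) →
      (∀ z ∈ ball (2 + t * I : ℂ) (2 - Θ), L z ≠ 0) →
      (∀ z ∈ ball (2 + t * I : ℂ) (2 - Θ), ‖L z‖ ≤ q ^ A) →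
      (∀ z ∈ ball (2 + t * I : ℂ) (3 / 4), ‖L z‖ ≤ B ∧ ‖(L z)⁻¹‖ ≤ B) →
      ∀ z : ℂ, ‖z - (2 + t * I)‖ ≤ 2 - Θ - ε → ‖L z‖ ≤ C * q ^ ε ∧ ‖(L z)⁻¹‖ ≤ C * q ^ ε := by
  set r : ℝ := max (3 / 4) (2 - Θ - ε) with hr
  have hrR : r < 2 - Θ := by
    rw [hr]; exact max_lt (by linarith) (by linarith)
  obtain ⟨K, hK0, hK⟩ := abs_log_norm_le_of_zeroFree (r₀ := 3 / 4) (r := r) (R := 2 - Θ)
    (by norm_num) (le_max_left _ _) hrR hA hB hε
  refine ⟨Real.exp K, Real.one_le_exp hK0, ?_⟩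
  intro L t q hq hd h0 hA' hB' z hz
  have hq0 : 0 < q := by linarith
  have hl : 0 ≤ Real.log q := Real.log_nonneg hq
  have h := hK L (2 + t * I) (Real.log q) hl hd h0
    (fun w hw => by
      have := hA' w hw
      rwa [Real.rpow_def_of_pos hq0, mul_comm] at this) hB' z (hz.trans (le_max_right _ _))
  have hzb : z ∈ ball (2 + t * I : ℂ) (2 - Θ) := by
    rw [mem_ball, dist_eq_norm]; linarith
  have hpos : 0 < ‖L z‖ := norm_pos_iff.mpr (h0 z hzb)
  have hexp : Real.exp K * q ^ ε = Real.exp (ε * Real.log q + K) := by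
    rw [Real.rpow_def_of_pos hq0, ← Real.exp_add]
    congr 1; ring
  rw [hexp]
  rw [abs_le] at h
  constructor
  · rw [← Real.exp_log hpos]
    exact Real.exp_le_exp.mpr h.2
  · rw [norm_inv, ← Real.exp_log hpos, ← Real.exp_neg]
    exact Real.exp_le_exp.mpr (by linarith [h.1])


/-- **(Z1)** Uniform bound for `L^{±1}` in `Re z ≥ Θ + ε`, `|Im z| ≤ T`, for functions which are
holomorphic and zero-free in `Re z > Θ`, `|Im z| < T + 2` and of polynomial growth there.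
The constant depends only on `Θ, A, B, ε`; not on `L`, the conductor `q ≥ 1` or the height `T`. -/
theorem Z1 {Θ A B ε : ℝ} (hΘ0 : 0 ≤ Θ) (hΘ : Θ < 1) (hA : 0 ≤ A) (hB : 1 ≤ B) (hε : 0 < ε) :
    ∃ C : ℝ, 1 ≤ C ∧ ∀ (L : ℂ → ℂ) (T q : ℝ), 1 ≤ q →
      DifferentiableOn ℂ L {z : ℂ | Θ < z.re ∧ |z.im| < T + 2} →
      (∀ z : ℂ, Θ < z.re → |z.im| < T + 2 → L z ≠ 0) →
      (∀ z : ℂ, Θ < z.re → z.re ≤ 4 → |z.im| < T + 2 → ‖L z‖ ≤ (q * (|z.im| + 3)) ^ A) →
      (∀ z : ℂ, 5 / 4 ≤ z.re → |z.im| < T + 2 → ‖L z‖ ≤ B ∧ ‖(L z)⁻¹‖ ≤ B) →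
      ∀ z : ℂ, Θ + ε ≤ z.re → |z.im| ≤ T →
        ‖L z‖ ≤ C * (q * (|z.im| + 3)) ^ ε ∧ ‖(L z)⁻¹‖ ≤ C * (q * (|z.im| + 3)) ^ ε := by
  obtain ⟨C, hC1, hC⟩ := Z3 (Θ := Θ) hΘ hA hB hε
  have h2ε : 1 ≤ (2 : ℝ) ^ ε := Real.one_le_rpow (by norm_num) hε.le
  refine ⟨B * (C * 2 ^ ε), by nlinarith [one_le_mul_of_one_le_of_one_le hC1 h2ε], ?_⟩
  intro L T q hq hd h0 hA' hB' z hz hT
  have hy3 : 1 ≤ q * (|z.im| + 3) := by
    have := abs_nonneg z.im
    nlinarith
  have hyε : 1 ≤ (q * (|z.im| + 3)) ^ ε := Real.one_le_rpow hy3 hε.le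
  rcases le_total (5 / 4) z.re with h | h
  · have h1 := hB' z h (by linarith)
    have h2 : B ≤ B * (C * 2 ^ ε) * (q * (|z.im| + 3)) ^ ε := by
      have h3 : 1 ≤ (C * 2 ^ ε) * (q * (|z.im| + 3)) ^ ε :=
        one_le_mul_of_one_le_of_one_le (one_le_mul_of_one_le_of_one_le hC1 h2ε) hyε
      nlinarith
    exact ⟨h1.1.trans h2, h1.2.trans h2⟩
  · set t : ℝ := z.im with ht
    have hball : ∀ w ∈ ball (2 + t * I : ℂ) (2 - Θ), Θ < w.re ∧ w.re ≤ 4 ∧ |w.im| < T + 2 ∧
        |w.im| < |t| + 2 := by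
      intro w hw
      rw [mem_ball, dist_eq_norm] at hw
      have hre := Complex.abs_re_le_norm (w - (2 + t * I))
      have him := Complex.abs_im_le_norm (w - (2 + t * I))
      simp at hre him
      have hre' := abs_le.mp (hre.trans hw.le)
      have hre2 := abs_lt.mp (hre.trans_lt hw)
      have him2 := abs_lt.mp (him.trans_lt hw)
      have ha : |w.im| ≤ |w.im - t| + |t| := by
        calc |w.im| = |(w.im - t) + t| := by ring_nf
          _ ≤ _ := abs_add_le _ _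
      have hb : |w.im - t| < 2 - Θ := him.trans_lt hw
      refine ⟨by linarith, by linarith, by linarith, by linarith⟩
    have hq' : 1 ≤ 2 * (q * (|t| + 3)) := by linarith
    have key := hC L t (2 * (q * (|t| + 3))) hq'
      (hd.mono (fun w hw => ⟨(hball w hw).1, (hball w hw).2.2.1⟩))
      (fun w hw => h0 w (hball w hw).1 (hball w hw).2.2.1)
      (fun w hw => by
        have hb := hball w hw
        refine (hA' w hb.1 hb.2.1 hb.2.2.1).trans ?_
        refine Real.rpow_le_rpow (by positivity) ?_ hA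
        have h4 : |w.im| + 3 ≤ 2 * (|t| + 3) := by
          have := abs_nonneg t
          linarith [hb.2.2.2]
        calc q * (|w.im| + 3) ≤ q * (2 * (|t| + 3)) := by gcongr
          _ = 2 * (q * (|t| + 3)) := by ring)
      (fun w hw => by
        have hw' : w ∈ ball (2 + t * I : ℂ) (2 - Θ) :=
          ball_subset_ball (by linarith) hw
        have hb := hball w hw'
        rw [mem_ball, dist_eq_norm] at hw
        have hre := Complex.abs_re_le_norm (w - (2 + t * I))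
        simp at hre
        have hre2 := abs_lt.mp (hre.trans_lt hw)
        exact hB' w (by linarith) hb.2.2.1)
      z (by
        have : z - (2 + t * I) = ((z.re - 2 : ℝ) : ℂ) := by
          apply Complex.ext <;> simp [ht]
        rw [this, Complex.norm_real, Real.norm_eq_abs, abs_of_nonpos (by linarith)]
        linarith)
    have h5 : (2 * (q * (|t| + 3))) ^ ε = 2 ^ ε * (q * (|t| + 3)) ^ ε :=
      Real.mul_rpow (by norm_num) (by positivity)
    rw [h5] at key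
    have h6 : C * (2 ^ ε * (q * (|t| + 3)) ^ ε) ≤ B * (C * 2 ^ ε) * (q * (|t| + 3)) ^ ε := by
      have h7 : 0 ≤ C * 2 ^ ε * (q * (|t| + 3)) ^ ε := by positivity
      nlinarith
    exact ⟨key.1.trans h6, key.2.trans h6⟩

end Crest.Agent.R017.Z1590
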