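import Crest.Agent.R012.Weight_600
import Crest.Agent.R017.Z1_590

/-!
Row 17, leaf Z2 (helper590): from zero-free regions to smooth sums of the coefficients of `1/L`,
uniformly in the conductor.
-/

open Complex Metric Set MeasureTheory Filter Topology
open Crest.Agent.R012 Crest.Agent.R012.Weight600
open scoped ContDiff

namespace Crest.Agent.R017.Z2590

/-- `H w s = (1/2π) ∫ w(u) e^{su} du`; so `w(log x) = ∫ H w (σ+it) x^{-(σ+it)} dt`. -/
noncomputable def H (w : ℝ → ℂ) (s : ℂ) : ℂ := (1 / (2 * Real.pi) : ℂ) * ∫ u : ℝ, w u * cexp (s * u)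

/-- the tilted weight `w(u) e^{σ u}` -/
noncomputable def tilt (w : ℝ → ℂ) (σ : ℝ) (u : ℝ) : ℂ := w u * (Real.exp (σ * u) : ℂ)

lemma contDiff_tilt {w : ℝ → ℂ} (h : ContDiff ℝ ∞ w) (σ : ℝ) : ContDiff ℝ ∞ (tilt w σ) := by
  unfold tilt
  refine h.mul ?_
  have h1 : ContDiff ℝ ∞ (fun u : ℝ => Real.exp (σ * u)) := by fun_prop
  exact Complex.ofRealCLM.contDiff.comp h1

lemma hasCompactSupport_tilt {w : ℝ → ℂ} (h : HasCompactSupport w) (σ : ℝ) :
    HasCompactSupport (tilt w σ) := by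
  unfold tilt
  exact h.mul_right

lemma ker_tilt (w : ℝ → ℂ) (σ t : ℝ) : Weight600.ker (tilt w σ) (-t) = H w (σ + t * I) := by
  unfold Weight600.ker H tilt osc
  congr 1
  congr 1
  ext u
  rw [mul_assoc, Complex.ofReal_exp, ← Complex.exp_add]
  congr 2
  push_cast
  ring

/-- Mellin inversion on the line `Re s = σ`. -/
lemma inversion_H {w : ℝ → ℂ} (h1 : ContDiff ℝ ∞ w) (h2 : HasCompactSupport w) (σ u : ℝ) :
    ∫ t : ℝ, H w (σ + t * I) * cexp (-(σ + t * I) * u) = w u := by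
  have h := inversion_smooth (contDiff_tilt h1 σ) (hasCompactSupport_tilt h2 σ) u
  rw [← integral_neg_eq_self] at h
  have e : ∀ t : ℝ, Weight600.ker (tilt w σ) (-t) * osc (-t) u =
      (H w (σ + t * I) * cexp (-(σ + t * I) * u)) * (Real.exp (σ * u) : ℂ) := by
    intro t
    rw [ker_tilt]
    unfold osc
    rw [mul_assoc, Complex.ofReal_exp, ← Complex.exp_add]
    congr 2
    push_cast
    ring
  simp_rw [e] at h
  rw [integral_mul_const] at h
  unfold tilt at h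
  have hne : (Real.exp (σ * u) : ℂ) ≠ 0 := by
    exact_mod_cast (Real.exp_pos _).ne'
  exact mul_right_cancel₀ hne h

lemma integrable_H {w : ℝ → ℂ} (h1 : ContDiff ℝ ∞ w) (h2 : HasCompactSupport w) (σ : ℝ) :
    Integrable (fun t : ℝ => H w (σ + t * I)) := by
  have := (ker_integrable (contDiff_tilt h1 σ) (hasCompactSupport_tilt h2 σ)).comp_neg
  refine this.congr (Eventually.of_forall fun t => ?_)
  exact ker_tilt w σ t


lemma norm_const : ‖(1 / (2 * Real.pi) : ℂ)‖ = 1 / (2 * Real.pi) := by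
  rw [norm_div, norm_mul, norm_one, Complex.norm_real, Real.norm_of_nonneg Real.pi_pos.le]
  simp

/-- trivial bound for `H` -/
lemma norm_H_le {w : ℝ → ℂ} {b : ℝ} (hb : ∀ u, w u ≠ 0 → |u| ≤ b) (hi : Integrable w) (s : ℂ) :
    ‖H w s‖ ≤ Real.exp (|s.re| * b) * ∫ u, ‖w u‖ := by
  unfold H
  rw [norm_mul, norm_const]
  have h1 : ‖∫ u : ℝ, w u * cexp (s * u)‖ ≤ ∫ u, Real.exp (|s.re| * b) * ‖w u‖ := by
    refine norm_integral_le_of_norm_le (hi.norm.const_mul _) (Eventually.of_forall fun u => ?_)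
    rw [norm_mul, Complex.norm_exp, mul_comm]
    by_cases hw : w u = 0
    · simp [hw]
    · gcongr
      have h2 := hb u hw
      calc (s * (u : ℂ)).re = s.re * u := by simp
        _ ≤ |s.re * u| := le_abs_self _
        _ = |s.re| * |u| := abs_mul _ _
        _ ≤ |s.re| * b := by gcongr
  rw [integral_const_mul] at h1
  have h3 : 1 / (2 * Real.pi) ≤ 1 := by
    rw [div_le_one (by positivity)]
    nlinarith [Real.pi_gt_three]
  have h4 : 0 ≤ Real.exp (|s.re| * b) * ∫ u, ‖w u‖ := by positivity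
  calc 1 / (2 * Real.pi) * ‖∫ u : ℝ, w u * cexp (s * u)‖
      ≤ 1 * (Real.exp (|s.re| * b) * ∫ u, ‖w u‖) := by gcongr
    _ = _ := one_mul _

lemma H_deriv {w : ℝ → ℂ} (h1 : ContDiff ℝ ∞ w) (h2 : HasCompactSupport w) (s : ℂ) :
    H (deriv w) s = - s * H w s := by
  have hd : ContDiff ℝ ∞ (deriv w) := (contDiff_infty_iff_deriv.mp h1).2
  have hdw : ∀ u, HasDerivAt w (deriv w u) u :=
    fun u => ((contDiff_infty_iff_deriv.mp h1).1 u).hasDerivAt
  have hde : ∀ u : ℝ, HasDerivAt (fun u : ℝ => cexp (s * u)) (cexp (s * u) * s) u := by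
    intro u
    have h3 : HasDerivAt (fun u : ℝ => s * (u : ℂ)) s u := by
      simpa using (Complex.ofRealCLM.hasDerivAt (x := u)).const_mul s
    exact h3.cexp
  have hc : Continuous fun u : ℝ => cexp (s * u) := by fun_prop
  have hI : ∀ v : ℝ → ℂ, Continuous v → HasCompactSupport v →
      Integrable (fun u => v u * cexp (s * u)) := fun v hv hvs =>
    (hv.mul hc).integrable_of_hasCompactSupport hvs.mul_right
  have key := integral_mul_deriv_eq_deriv_mul_of_integrable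
    (u := w) (v := fun u : ℝ => cexp (s * u)) (u' := deriv w)
    (v' := fun u : ℝ => cexp (s * u) * s) (fun u _ => hdw u) (fun u _ => hde u)
    (by
      have := hI (fun u => w u * s) (by fun_prop) (h2.mul_right)
      refine this.congr (Eventually.of_forall fun u => ?_)
      simp only [Pi.mul_apply]
      ring)
    (hI _ hd.continuous h2.deriv) (hI _ h1.continuous h2)
  unfold H
  have e : ∫ u : ℝ, w u * (cexp (s * u) * s) = s * ∫ u : ℝ, w u * cexp (s * u) := by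
    rw [← integral_const_mul]
    congr 1
    ext u
    ring
  rw [e] at key
  have : ∫ u : ℝ, deriv w u * cexp (s * u) = - (s * ∫ u : ℝ, w u * cexp (s * u)) := by
    rw [key]; ring
  rw [this]
  ring

lemma H_iteratedDeriv {w : ℝ → ℂ} (h1 : ContDiff ℝ ∞ w) (h2 : HasCompactSupport w) (s : ℂ)
    (k : ℕ) : H (deriv^[k] w) s = (- s) ^ k * H w s := by
  induction k generalizing w with
  | zero => simp
  | succ k ih =>
    rw [Function.iterate_succ_apply, ih (contDiff_infty_iff_deriv.mp h1).2 h2.deriv,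
      H_deriv h1 h2]
    ring

/-- `K` bounds the weight `w` to order `k`: this is all that the results below use. -/
structure WB (w : ℝ → ℂ) (k : ℕ) (K : ℝ) : Prop where
  cd : ContDiff ℝ ∞ w
  cs : HasCompactSupport w
  nn : 0 ≤ K
  bd : ∀ s : ℂ, 0 ≤ s.re → s.re ≤ 2 → ‖H w s‖ * (1 + |s.im|) ^ k ≤ K

lemma deriv_iter_cd {w : ℝ → ℂ} (h1 : ContDiff ℝ ∞ w) (k : ℕ) : ContDiff ℝ ∞ (deriv^[k] w) := by
  induction k generalizing w with
  | zero => simpa
  | succ k ih => exact ih (contDiff_infty_iff_deriv.mp h1).2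

lemma deriv_iter_cs {w : ℝ → ℂ} (h1 : HasCompactSupport w) (k : ℕ) :
    HasCompactSupport (deriv^[k] w) := by
  induction k generalizing w with
  | zero => simpa
  | succ k ih => exact ih h1.deriv

lemma deriv_supp {w : ℝ → ℂ} {b : ℝ} (hb : ∀ u, w u ≠ 0 → |u| ≤ b) :
    ∀ u, deriv w u ≠ 0 → |u| ≤ b := by
  intro u hu
  by_contra hlt
  push Not at hlt
  apply hu
  have : w =ᶠ[𝓝 u] fun _ => 0 := by
    have h1 : ∀ᶠ v in 𝓝 u, b < |v| := (continuous_abs.tendsto u).eventually (lt_mem_nhds hlt)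
    filter_upwards [h1] with v hv
    by_contra hne
    exact absurd (hb v hne) (not_le.mpr hv)
  rw [this.deriv_eq]
  simp

lemma deriv_iter_supp {w : ℝ → ℂ} {b : ℝ} (hb : ∀ u, w u ≠ 0 → |u| ≤ b) (k : ℕ) :
    ∀ u, (deriv^[k] w) u ≠ 0 → |u| ≤ b := by
  induction k generalizing w with
  | zero => simpa
  | succ k ih => exact ih (deriv_supp hb)

/-- explicit bound: uniform over families of weights with bounded `L¹` norms of `w`, `w^{(k)}` -/
theorem WB_of {w : ℝ → ℂ} {b : ℝ} (h1 : ContDiff ℝ ∞ w) (hb0 : 0 ≤ b)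
    (hb : ∀ u, w u ≠ 0 → |u| ≤ b) (k : ℕ) :
    WB w k (2 ^ k * Real.exp (2 * b) * ((∫ u, ‖w u‖) + ∫ u, ‖(deriv^[k] w) u‖)) := by
  have h2 : HasCompactSupport w := by
    refine HasCompactSupport.intro (isCompact_Icc (a := -b) (b := b)) fun u hu => ?_
    by_contra hne
    exact hu (abs_le.mp (hb u hne))
  refine ⟨h1, h2, by positivity, fun s hs0 hs2 => ?_⟩
  have hi : ∀ j, Integrable (deriv^[j] w) := fun j =>
    (deriv_iter_cd h1 j).continuous.integrable_of_hasCompactSupport (deriv_iter_cs h2 j)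
  have hsb : Real.exp (|s.re| * b) ≤ Real.exp (2 * b) := by
    rw [abs_of_nonneg hs0]
    gcongr
  have hA : ‖H w s‖ ≤ Real.exp (2 * b) * ∫ u, ‖w u‖ := by
    refine (norm_H_le hb (hi 0) s).trans ?_
    gcongr
  have hB : |s.im| ^ k * ‖H w s‖ ≤ Real.exp (2 * b) * ∫ u, ‖(deriv^[k] w) u‖ := by
    have h3 := norm_H_le (deriv_iter_supp hb k) (hi k) s
    rw [H_iteratedDeriv h1 h2, norm_mul, norm_pow, norm_neg] at h3
    calc |s.im| ^ k * ‖H w s‖ ≤ ‖s‖ ^ k * ‖H w s‖ := by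
          gcongr
          exact Complex.abs_im_le_norm s
      _ ≤ _ := h3
      _ ≤ _ := by gcongr
  have h4 : (1 + |s.im|) ^ k ≤ 2 ^ k * (1 + |s.im| ^ k) := by
    have h5 := add_pow_le zero_le_one (abs_nonneg s.im) k
    rw [one_pow] at h5
    refine h5.trans ?_
    gcongr
    · norm_num
    · omega
  calc ‖H w s‖ * (1 + |s.im|) ^ k ≤ ‖H w s‖ * (2 ^ k * (1 + |s.im| ^ k)) := by gcongr
    _ = 2 ^ k * (‖H w s‖ + |s.im| ^ k * ‖H w s‖) := by ring
    _ ≤ 2 ^ k * (Real.exp (2 * b) * (∫ u, ‖w u‖) +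
          Real.exp (2 * b) * ∫ u, ‖(deriv^[k] w) u‖) := by gcongr
    _ = _ := by ring

/-- any fixed smooth compactly supported weight is fine -/
theorem exists_WB {w : ℝ → ℂ} (h1 : ContDiff ℝ ∞ w) (h2 : HasCompactSupport w) (k : ℕ) :
    ∃ K : ℝ, WB w k K := by
  obtain ⟨b, hb⟩ := h2.isCompact.isBounded.exists_norm_le
  refine ⟨_, WB_of (b := max b 0) h1 (le_max_right _ _) (fun u hu => ?_) k⟩
  exact (hb u (subset_tsupport _ hu)).trans (le_max_left _ _)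

lemma WB.integrable {w : ℝ → ℂ} (h1 : ContDiff ℝ ∞ w) (h2 : HasCompactSupport w) :
    Integrable w := h1.continuous.integrable_of_hasCompactSupport h2

/-- `H w` is entire -/
theorem differentiable_H {w : ℝ → ℂ} (h1 : ContDiff ℝ ∞ w) (h2 : HasCompactSupport w) :
    Differentiable ℂ (H w) := by
  intro s₀
  obtain ⟨b, hb⟩ := h2.isCompact.isBounded.exists_norm_le
  have hsupp : ∀ u, w u ≠ 0 → |u| ≤ b := fun u hu => hb u (subset_tsupport _ hu)
  have hw : Continuous w := h1.continuous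
  have hbound : Integrable fun u => ‖w u‖ * (|b| * Real.exp ((‖s₀‖ + 1) * |b|)) :=
    (WB.integrable h1 h2).norm.mul_const _
  have key := hasDerivAt_integral_of_dominated_loc_of_deriv_le (μ := (volume : Measure ℝ))
    (F := fun s u => w u * cexp (s * u)) (F' := fun s u => w u * (cexp (s * u) * u))
    (x₀ := s₀) (s := ball s₀ 1) (bound := fun u => ‖w u‖ * (|b| * Real.exp ((‖s₀‖ + 1) * |b|)))
    (ball_mem_nhds s₀ one_pos)
    (Eventually.of_forall fun s => (by fun_prop : Continuous fun u : ℝ =>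
      w u * cexp (s * u)).aestronglyMeasurable)
    (((hw.mul (by fun_prop : Continuous fun u : ℝ => cexp (s₀ * u)))).integrable_of_hasCompactSupport
      h2.mul_right)
    (by fun_prop : Continuous fun u : ℝ => w u * (cexp (s₀ * u) * u)).aestronglyMeasurable
    (Eventually.of_forall fun u s hs => by
      by_cases hu : w u = 0
      · simp [hu]
      · have hub : |u| ≤ |b| := (hsupp u hu).trans (le_abs_self b)
        rw [norm_mul, norm_mul, Complex.norm_exp, Complex.norm_real, Real.norm_eq_abs, mul_comm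
          (Real.exp _)]
        have hs' : ‖s‖ ≤ ‖s₀‖ + 1 := by
          have := norm_sub_norm_le s s₀
          rw [mem_ball, dist_eq_norm] at hs
          linarith
        gcongr
        calc (s * (u : ℂ)).re ≤ ‖s * (u : ℂ)‖ := Complex.re_le_norm _
          _ = ‖s‖ * |u| := by rw [norm_mul, Complex.norm_real, Real.norm_eq_abs]
          _ ≤ (‖s₀‖ + 1) * |b| := by gcongr)
    hbound
    (Eventually.of_forall fun u s _ => by
      have h3 : HasDerivAt (fun s : ℂ => s * (u : ℂ)) (u : ℂ) s := by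
        simpa using (hasDerivAt_id s).mul_const (u : ℂ)
      exact (h3.cexp).const_mul (w u))
  unfold H
  exact (key.2.differentiableAt).const_mul _


/-! ### Contour shift -/

lemma shift_bound {F : ℂ → ℂ} {σ₁ σ₂ T M : ℝ} (h12 : σ₁ ≤ σ₂) (hT : 0 ≤ T)
    (hF : DifferentiableOn ℂ F {z : ℂ | σ₁ ≤ z.re ∧ z.re ≤ σ₂ ∧ |z.im| ≤ T})
    (hM : ∀ z : ℂ, σ₁ ≤ z.re → z.re ≤ σ₂ → |z.im| = T → ‖F z‖ ≤ M) :
    ‖∫ t in (-T)..T, F (σ₂ + t * I)‖ ≤ ‖∫ t in (-T)..T, F (σ₁ + t * I)‖ + 2 * ((σ₂ - σ₁) * M) := by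
  have hsub : (uIcc σ₁ σ₂ ×ℂ uIcc (-T) T) ⊆ {z : ℂ | σ₁ ≤ z.re ∧ z.re ≤ σ₂ ∧ |z.im| ≤ T} := by
    intro z hz
    rw [uIcc_of_le h12, uIcc_of_le (by linarith : -T ≤ T)] at hz
    exact ⟨hz.1.1, hz.1.2, abs_le.mpr hz.2⟩
  have key := Complex.integral_boundary_rect_eq_zero_of_differentiableOn F
    (σ₁ + (-T : ℝ) * I) (σ₂ + (T : ℝ) * I) (by simpa using hF.mono hsub)
  simp only [add_re, ofReal_re, mul_re, I_re, mul_zero, ofReal_im, I_im, mul_one, sub_self,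
    add_zero, add_im, mul_im, zero_add, smul_eq_mul] at key
  have hI : ∀ z : ℂ, ‖I * z‖ = ‖z‖ := fun z => by rw [norm_mul, Complex.norm_I, one_mul]
  have hb : ∀ τ : ℝ, |τ| = T → ‖∫ x in σ₁..σ₂, F (x + τ * I)‖ ≤ (σ₂ - σ₁) * M := by
    intro τ hτ
    have := intervalIntegral.norm_integral_le_of_norm_le_const (a := σ₁) (b := σ₂)
      (f := fun x : ℝ => F (x + τ * I)) (C := M) (by
        intro x hx
        rw [uIoc_of_le h12] at hx
        exact hM _ (by simpa using hx.1.le) (by simpa using hx.2) (by simpa using hτ))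
    rw [abs_of_nonneg (by linarith : 0 ≤ σ₂ - σ₁)] at this
    linarith
  have h1 := hb (-T) (by rw [abs_neg, abs_of_nonneg hT])
  have h2 := hb T (abs_of_nonneg hT)
  have e : I * (∫ t in (-T)..T, F (σ₂ + t * I)) = I * (∫ t in (-T)..T, F (σ₁ + t * I)) -
      (∫ x in σ₁..σ₂, F (x + (-T : ℝ) * I)) + ∫ x in σ₁..σ₂, F (x + T * I) := by
    linear_combination key
  rw [← hI, e]
  calc _ ≤ ‖I * (∫ t in (-T)..T, F (σ₁ + t * I)) - (∫ x in σ₁..σ₂, F (x + (-T : ℝ) * I))‖ +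
        ‖∫ x in σ₁..σ₂, F (x + T * I)‖ := norm_add_le _ _
    _ ≤ ‖I * (∫ t in (-T)..T, F (σ₁ + t * I))‖ + ‖∫ x in σ₁..σ₂, F (x + (-T : ℝ) * I)‖ +
        ‖∫ x in σ₁..σ₂, F (x + T * I)‖ := by gcongr; exact norm_sub_le _ _
    _ ≤ _ := by rw [hI]; linarith

/-- `∫ (1+|t|)^{-2}`-type bound -/
lemma inv_sq_le (t : ℝ) : ((1 + |t|) ^ 2)⁻¹ ≤ (1 + t ^ 2)⁻¹ := by
  have : 1 + t ^ 2 ≤ (1 + |t|) ^ 2 := by
    have := abs_nonneg t
    nlinarith [sq_abs t]
  gcongr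

variable {ι : Type*}

/-- The sum as a line integral. -/
theorem sum_eq_integral [Countable ι] {a : ι → ℂ} {N : ι → ℝ} (hN : ∀ i, 0 < N i)
    {σ : ℝ} (hs : Summable fun i => ‖a i‖ * N i ^ (-σ)) {w : ℝ → ℂ}
    (h1 : ContDiff ℝ ∞ w) (h2 : HasCompactSupport w) {Q : ℝ} (hQ : 0 < Q) :
    ∑' i, a i * w (Real.log (N i / Q)) =
      ∫ t : ℝ, H w (σ + t * I) * (Q : ℂ) ^ (σ + t * I : ℂ) *
        ∑' i, a i * (N i : ℂ) ^ (-(σ + t * I : ℂ)) := by
  have hnorm : ∀ (i : ι) (t : ℝ), ‖a i * (N i : ℂ) ^ (-(σ + t * I : ℂ))‖ = ‖a i‖ * N i ^ (-σ) := by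
    intro i t
    rw [norm_mul, Complex.norm_cpow_eq_rpow_re_of_pos (hN i)]
    simp
  have hQn : ∀ t : ℝ, ‖(Q : ℂ) ^ (σ + t * I : ℂ)‖ = Q ^ σ := by
    intro t
    rw [Complex.norm_cpow_eq_rpow_re_of_pos hQ]
    simp
  set F : ι → ℝ → ℂ := fun i t => H w (σ + t * I) * (Q : ℂ) ^ (σ + t * I : ℂ) *
    (a i * (N i : ℂ) ^ (-(σ + t * I : ℂ))) with hF
  have hHi := integrable_H h1 h2 σ
  have hcQ : Continuous fun t : ℝ => (Q : ℂ) ^ (σ + t * I : ℂ) := by
    refine Continuous.const_cpow (by fun_prop) (Or.inl ?_)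
    exact_mod_cast hQ.ne'
  have hcN : ∀ i, Continuous fun t : ℝ => (N i : ℂ) ^ (-(σ + t * I : ℂ)) := by
    intro i
    refine Continuous.const_cpow (by fun_prop) (Or.inl ?_)
    exact_mod_cast (hN i).ne'
  have hFn : ∀ i t, ‖F i t‖ = ‖H w (σ + t * I)‖ * (Q ^ σ * (‖a i‖ * N i ^ (-σ))) := by
    intro i t
    simp only [hF]
    rw [norm_mul, norm_mul, hnorm, hQn]
    ring
  have hFi : ∀ i, Integrable (F i) := by
    intro i
    have : Integrable fun t : ℝ => H w (σ + t * I) * ((Q : ℂ) ^ (σ + t * I : ℂ) *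
        (a i * (N i : ℂ) ^ (-(σ + t * I : ℂ)))) := by
      refine hHi.mul_bdd (c := Q ^ σ * (‖a i‖ * N i ^ (-σ))) ?_ ?_
      · exact (hcQ.mul (continuous_const.mul (hcN i))).aestronglyMeasurable
      · exact Eventually.of_forall fun t => by rw [norm_mul, hQn, hnorm]
    refine this.congr (Eventually.of_forall fun t => ?_)
    simp only [hF]
    ring
  have hsum : Summable fun i => ∫ t, ‖F i t‖ := by
    simp_rw [hFn, integral_mul_const]
    exact (hs.mul_left _).mul_left _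
  have key := integral_tsum_of_summable_integral_norm hFi hsum
  have e1 : ∀ i, ∫ t, F i t = a i * w (Real.log (N i / Q)) := by
    intro i
    rw [← inversion_H h1 h2 σ (Real.log (N i / Q)), ← integral_const_mul]
    congr 1
    ext t
    simp only [hF]
    have hQ' : (Q : ℂ) ≠ 0 := by exact_mod_cast hQ.ne'
    have hN' : (N i : ℂ) ≠ 0 := by exact_mod_cast (hN i).ne'
    have e2 : cexp (-(σ + t * I) * (Real.log (N i / Q) : ℝ)) =
        (Q : ℂ) ^ (σ + t * I : ℂ) * (N i : ℂ) ^ (-(σ + t * I : ℂ)) := by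
      rw [Complex.cpow_def_of_ne_zero hQ', Complex.cpow_def_of_ne_zero hN', ← Complex.exp_add,
        Real.log_div (hN i).ne' hQ.ne', ← Complex.ofReal_log hQ.le, ← Complex.ofReal_log (hN i).le]
      congr 1
      push_cast
      ring
    rw [e2]
    ring
  simp_rw [← e1]
  rw [key]
  congr 1
  ext t
  simp only [hF]
  rw [tsum_mul_left]

/-- **General contour-shift bound.** `A(s) = Σ a_i N_i^{-s}` on `Re s = 2`, holomorphic in the
rectangle `σ₁ ≤ Re s ≤ 2`, `|Im s| ≤ T`, with `‖A s‖ ≤ M (1+|Im s|)` there. -/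
theorem smooth_sum_le [Countable ι] {a : ι → ℂ} {N : ι → ℝ} (hN : ∀ i, 0 < N i)
    (hs : Summable fun i => ‖a i‖ * N i ^ (-(2 : ℝ))) {A : ℂ → ℂ} {σ₁ T M B K Q : ℝ} {m : ℕ}
    {w : ℝ → ℂ} (hw : WB w (m + 3) K) (hQ : 1 ≤ Q) (hT : 1 ≤ T) (hσ0 : 0 ≤ σ₁) (hσ2 : σ₁ ≤ 2)
    (hA : DifferentiableOn ℂ A {z : ℂ | σ₁ ≤ z.re ∧ z.re ≤ 2 ∧ |z.im| ≤ T})
    (hAM : ∀ z : ℂ, σ₁ ≤ z.re → z.re ≤ 2 → |z.im| ≤ T → ‖A z‖ ≤ M * (1 + |z.im|))
    (hAB : ∀ t : ℝ, ‖A (2 + t * I)‖ ≤ B)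
    (hAs : ∀ t : ℝ, A (2 + t * I) = ∑' i, a i * (N i : ℂ) ^ (-(2 + t * I : ℂ))) :
    ‖∑' i, a i * w (Real.log (N i / Q))‖ ≤
      4 * K * (M * Q ^ σ₁ + (M + B) * Q ^ 2 * (T ^ (m + 1))⁻¹) := by
  have hQ0 : 0 < Q := by linarith
  have hT0 : 0 < T := by linarith
  have hK0 : 0 ≤ K := hw.nn
  have hB0 : 0 ≤ B := (norm_nonneg _).trans (hAB 0)
  have hM0 : 0 ≤ M := by
    have := hAM (2 + (0 : ℝ) * I) (by simpa using hσ2) (by simp) (by simpa using hT0.le)
    have h0 := (norm_nonneg _).trans this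
    simpa using h0
  have hsum := sum_eq_integral (σ := 2) hN hs hw.cd hw.cs hQ0
  set F : ℂ → ℂ := fun s => H w s * (Q : ℂ) ^ s * A s with hF
  have hFline : ∑' i, a i * w (Real.log (N i / Q)) = ∫ t : ℝ, F (2 + t * I) := by
    rw [hsum]
    congr 1
    ext t
    simp only [hF]
    rw [hAs]
    push_cast
    rfl
  rw [hFline]
  have hQn : ∀ s : ℂ, ‖(Q : ℂ) ^ s‖ = Q ^ s.re := fun s =>
    Complex.norm_cpow_eq_rpow_re_of_pos hQ0 s
  have hHb : ∀ s : ℂ, 0 ≤ s.re → s.re ≤ 2 → ‖H w s‖ ≤ K * ((1 + |s.im|) ^ (m + 3))⁻¹ := by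
    intro s h0 h2
    have := hw.bd s h0 h2
    have hp : 0 < (1 + |s.im|) ^ (m + 3) := by positivity
    rw [← div_eq_mul_inv, le_div_iff₀ hp]
    exact this
  -- splitting of the decay
  have hdec : ∀ (s : ℂ) (j : ℕ), 0 < (1 + |s.im|) ^ j := fun s j => by positivity
  -- pointwise bound in the rectangle
  have hrect : ∀ s : ℂ, σ₁ ≤ s.re → s.re ≤ 2 → |s.im| ≤ T →
      ‖F s‖ ≤ K * M * Q ^ s.re * ((1 + |s.im|) ^ (m + 2))⁻¹ := by
    intro s h1 h2 h3
    simp only [hF]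
    rw [norm_mul, norm_mul, hQn]
    have hH := hHb s (hσ0.trans h1) h2
    have hAA := hAM s h1 h2 h3
    have hpos : 0 < 1 + |s.im| := by positivity
    calc ‖H w s‖ * Q ^ s.re * ‖A s‖
        ≤ (K * ((1 + |s.im|) ^ (m + 3))⁻¹) * Q ^ s.re * (M * (1 + |s.im|)) := by gcongr
      _ = K * M * Q ^ s.re * (((1 + |s.im|) ^ (m + 3))⁻¹ * (1 + |s.im|)) := by ring
      _ = K * M * Q ^ s.re * ((1 + |s.im|) ^ (m + 2))⁻¹ := by
          congr 1
          rw [pow_succ (1 + |s.im|) (m + 2), mul_inv]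
          field_simp
  have hHd := differentiable_H hw.cd hw.cs
  have hFd : DifferentiableOn ℂ F {z : ℂ | σ₁ ≤ z.re ∧ z.re ≤ 2 ∧ |z.im| ≤ T} := by
    refine (DifferentiableOn.mul hHd.differentiableOn ?_).mul hA
    have : Differentiable ℂ fun s : ℂ => (Q : ℂ) ^ s := by
      intro s
      exact (differentiableAt_id).const_cpow (Or.inl (by exact_mod_cast hQ0.ne'))
    exact this.differentiableOn
  -- bound on the line Re s = 2
  have hline : ∀ t : ℝ, ‖F (2 + t * I)‖ ≤ K * B * Q ^ 2 * ((1 + |t|) ^ (m + 3))⁻¹ := by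
    intro t
    simp only [hF]
    rw [norm_mul, norm_mul, hQn]
    have hH := hHb (2 + t * I) (by simp) (by simp)
    have h2 : (2 + t * I : ℂ).re = 2 := by simp
    have h3 : (2 + t * I : ℂ).im = t := by simp
    rw [h3] at hH
    rw [h2]
    calc ‖H w (2 + t * I)‖ * Q ^ (2 : ℝ) * ‖A (2 + t * I)‖
        ≤ (K * ((1 + |t|) ^ (m + 3))⁻¹) * Q ^ (2 : ℝ) * B := by
          gcongr
          exact hAB t
      _ = _ := by rw [Real.rpow_two]; ring
  -- integrability on the line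
  have hFint : Integrable fun t : ℝ => F (2 + t * I) := by
    have hgi : Integrable fun t : ℝ => K * B * Q ^ 2 * (1 + t ^ 2)⁻¹ :=
      integrable_inv_one_add_sq.const_mul _
    refine hgi.mono' ?_ (Eventually.of_forall fun t => (hline t).trans ?_)
    · -- measurability: A on the line is a sum of continuous functions
      have hmA : AEStronglyMeasurable (fun t : ℝ => A (2 + t * I)) := by
        have : (fun t : ℝ => A (2 + t * I)) =
            fun t : ℝ => ∑' i, a i * (N i : ℂ) ^ (-(2 + t * I : ℂ)) := by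
          ext t; exact hAs t
        rw [this]
        have hcont : Continuous fun t : ℝ => ∑' i, a i * (N i : ℂ) ^ (-(2 + t * I : ℂ)) := by
          refine continuous_tsum (fun i => ?_) hs (fun i t => ?_)
          · refine continuous_const.mul (Continuous.const_cpow (by fun_prop) (Or.inl ?_))
            exact_mod_cast (hN i).ne'
          · rw [norm_mul, Complex.norm_cpow_eq_rpow_re_of_pos (hN i)]
            simp
        exact hcont.aestronglyMeasurable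
      have hc1 : Continuous fun t : ℝ => H w (2 + t * I) * (Q : ℂ) ^ (2 + t * I : ℂ) := by
        refine (hHd.continuous.comp (by fun_prop)).mul
          (Continuous.const_cpow (by fun_prop) (Or.inl ?_))
        exact_mod_cast hQ0.ne'
      exact hc1.aestronglyMeasurable.mul hmA
    · gcongr
      refine (le_trans ?_ (le_refl _) : 1 + t ^ 2 ≤ _)
      have h0 := abs_nonneg t
      have h1 : (1 + |t|) ^ 2 ≤ (1 + |t|) ^ (m + 3) :=
        pow_le_pow_right₀ (by linarith) (by omega)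
      have h2 : 1 + t ^ 2 ≤ (1 + |t|) ^ 2 := by nlinarith [sq_abs t]
      exact h2.trans h1
  -- split the line
  have hsplit : ∫ t : ℝ, F (2 + t * I) = (∫ t in Ioc (-T) T, F (2 + t * I)) +
      ∫ t in (Ioc (-T) T)ᶜ, F (2 + t * I) :=
    (integral_add_compl measurableSet_Ioc hFint).symm
  have hTle : -T ≤ T := by linarith
  -- tail
  have htail : ‖∫ t in (Ioc (-T) T)ᶜ, F (2 + t * I)‖ ≤
      K * B * Q ^ 2 * (T ^ (m + 1))⁻¹ * Real.pi := by
    have hgi : Integrable fun t : ℝ => K * B * Q ^ 2 * (T ^ (m + 1))⁻¹ * (1 + t ^ 2)⁻¹ :=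
      integrable_inv_one_add_sq.const_mul _
    have h1 : ‖∫ t in (Ioc (-T) T)ᶜ, F (2 + t * I)‖ ≤
        ∫ t in (Ioc (-T) T)ᶜ, K * B * Q ^ 2 * (T ^ (m + 1))⁻¹ * (1 + t ^ 2)⁻¹ := by
      refine norm_integral_le_of_norm_le hgi.integrableOn ?_
      refine (ae_restrict_mem measurableSet_Ioc.compl).mono fun t ht => ?_
      refine (hline t).trans ?_
      have htT : T ≤ |t| := by
        rw [mem_compl_iff, mem_Ioc, not_and_or, not_lt, not_le] at ht
        rcases ht with h | h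
        · rw [abs_of_nonpos (by linarith)]; linarith
        · rw [abs_of_pos (by linarith)]; exact h.le
      have h0 := abs_nonneg t
      have h3 : T ^ (m + 1) * (1 + t ^ 2) ≤ (1 + |t|) ^ (m + 3) := by
        have h4 : 1 + t ^ 2 ≤ (1 + |t|) ^ 2 := by nlinarith [sq_abs t]
        calc T ^ (m + 1) * (1 + t ^ 2) ≤ (1 + |t|) ^ (m + 1) * (1 + |t|) ^ 2 := by
              gcongr
              linarith
          _ = (1 + |t|) ^ (m + 3) := by ring
      have h5 : ((1 + |t|) ^ (m + 3))⁻¹ ≤ (T ^ (m + 1))⁻¹ * (1 + t ^ 2)⁻¹ := by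
        rw [← mul_inv]
        gcongr
      calc K * B * Q ^ 2 * ((1 + |t|) ^ (m + 3))⁻¹
          ≤ K * B * Q ^ 2 * ((T ^ (m + 1))⁻¹ * (1 + t ^ 2)⁻¹) := by gcongr
        _ = _ := by ring
    refine h1.trans ?_
    have h2 : ∫ t in (Ioc (-T) T)ᶜ, K * B * Q ^ 2 * (T ^ (m + 1))⁻¹ * (1 + t ^ 2)⁻¹ ≤
        ∫ t : ℝ, K * B * Q ^ 2 * (T ^ (m + 1))⁻¹ * (1 + t ^ 2)⁻¹ :=
      setIntegral_le_integral hgi (Eventually.of_forall fun t => by positivity)
    have h9 : ∫ t : ℝ, K * B * Q ^ 2 * (T ^ (m + 1))⁻¹ * (1 + t ^ 2)⁻¹ =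
        K * B * Q ^ 2 * (T ^ (m + 1))⁻¹ * Real.pi := by
      rw [integral_const_mul, integral_univ_inv_one_add_sq]
    exact h2.trans_eq h9
  -- main part
  have hmain : ‖∫ t in Ioc (-T) T, F (2 + t * I)‖ ≤
      K * M * Q ^ σ₁ * Real.pi + 4 * (K * M * Q ^ 2 * (T ^ (m + 1))⁻¹) := by
    rw [← intervalIntegral.integral_of_le hTle]
    have hshift := shift_bound (F := F) (σ₁ := σ₁) (σ₂ := 2) (T := T)
      (M := K * M * Q ^ 2 * (T ^ (m + 1))⁻¹) hσ2 hT0.le hFd (by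
        intro z h1 h2 h3
        refine (hrect z h1 h2 h3.le).trans ?_
        rw [h3]
        have h4 : Q ^ z.re ≤ Q ^ 2 := by
          rw [← Real.rpow_two]
          exact Real.rpow_le_rpow_of_exponent_le hQ h2
        have h5 : T ^ (m + 1) ≤ (1 + T) ^ (m + 2) := by
          calc T ^ (m + 1) ≤ (1 + T) ^ (m + 1) := by gcongr; linarith
            _ ≤ (1 + T) ^ (m + 2) := pow_le_pow_right₀ (by linarith) (by omega)
        gcongr)
    have hleft : ‖∫ t in (-T)..T, F (σ₁ + t * I)‖ ≤ K * M * Q ^ σ₁ * Real.pi := by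
      rw [intervalIntegral.integral_of_le hTle]
      have hgi : Integrable fun t : ℝ => K * M * Q ^ σ₁ * (1 + t ^ 2)⁻¹ :=
        integrable_inv_one_add_sq.const_mul _
      have h1 : ‖∫ t in Ioc (-T) T, F (σ₁ + t * I)‖ ≤
          ∫ t in Ioc (-T) T, K * M * Q ^ σ₁ * (1 + t ^ 2)⁻¹ := by
        refine norm_integral_le_of_norm_le hgi.integrableOn ?_
        refine (ae_restrict_mem measurableSet_Ioc).mono fun t ht => ?_
        have h2 := hrect (σ₁ + t * I) (by simp) (by simpa using hσ2)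
          (by simpa using abs_le.mpr ⟨ht.1.le, ht.2⟩)
        have e1 : (σ₁ + t * I : ℂ).re = σ₁ := by simp
        have e2 : (σ₁ + t * I : ℂ).im = t := by simp
        rw [e1, e2] at h2
        refine h2.trans ?_
        have h0 := abs_nonneg t
        have h3 : 1 + t ^ 2 ≤ (1 + |t|) ^ (m + 2) := by
          have h4 : 1 + t ^ 2 ≤ (1 + |t|) ^ 2 := by nlinarith [sq_abs t]
          exact h4.trans (pow_le_pow_right₀ (by linarith) (by omega))
        gcongr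
      refine h1.trans ?_
      have h2 : ∫ t in Ioc (-T) T, K * M * Q ^ σ₁ * (1 + t ^ 2)⁻¹ ≤
          ∫ t : ℝ, K * M * Q ^ σ₁ * (1 + t ^ 2)⁻¹ :=
        setIntegral_le_integral hgi (Eventually.of_forall fun t => by positivity)
      have h9 : ∫ t : ℝ, K * M * Q ^ σ₁ * (1 + t ^ 2)⁻¹ = K * M * Q ^ σ₁ * Real.pi := by
        rw [integral_const_mul, integral_univ_inv_one_add_sq]
      exact h2.trans_eq h9
    have h6 : 2 * ((2 - σ₁) * (K * M * Q ^ 2 * (T ^ (m + 1))⁻¹)) ≤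
        4 * (K * M * Q ^ 2 * (T ^ (m + 1))⁻¹) := by
      have : 0 ≤ K * M * Q ^ 2 * (T ^ (m + 1))⁻¹ := by positivity
      nlinarith
    have hshift' := hshift
    push_cast at hshift'
    linarith
  rw [hsplit]
  refine (norm_add_le _ _).trans ?_
  have hpi : Real.pi ≤ 4 := Real.pi_le_four
  have h7 : 0 ≤ K * M * Q ^ σ₁ := by positivity
  have h8 : 0 ≤ K * B * Q ^ 2 * (T ^ (m + 1))⁻¹ := by positivity
  calc _ ≤ (K * M * Q ^ σ₁ * Real.pi + 4 * (K * M * Q ^ 2 * (T ^ (m + 1))⁻¹)) +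
        K * B * Q ^ 2 * (T ^ (m + 1))⁻¹ * Real.pi := add_le_add hmain htail
    _ ≤ (K * M * Q ^ σ₁ * 4 + 4 * (K * M * Q ^ 2 * (T ^ (m + 1))⁻¹)) +
        K * B * Q ^ 2 * (T ^ (m + 1))⁻¹ * 4 := by gcongr
    _ = _ := by ring


/-- Hypotheses on an `L`-function (holomorphic and zero-free in `Re z > Θ`, `|Im z - τ| < T + 2`,
polynomial growth there, `L^{±1}` bounded by `B` in `Re z ≥ 5/4`). `q ≥ 1` is the size of the
conductor. -/
structure ZF (L : ℂ → ℂ) (Θ A B τ T q : ℝ) : Prop where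
  hd : DifferentiableOn ℂ L {z : ℂ | Θ < z.re ∧ |z.im - τ| < T + 2}
  h0 : ∀ z : ℂ, Θ < z.re → |z.im - τ| < T + 2 → L z ≠ 0
  gr : ∀ z : ℂ, Θ < z.re → z.re ≤ 4 → |z.im - τ| < T + 2 → ‖L z‖ ≤ (q * (|z.im| + 3)) ^ A
  bd : ∀ z : ℂ, 5 / 4 ≤ z.re → ‖L z‖ ≤ B ∧ ‖(L z)⁻¹‖ ≤ B

/-- (Z1) around height `τ`. -/
theorem Z1τ {Θ A B ε : ℝ} (hΘ0 : 0 ≤ Θ) (hΘ : Θ < 1) (hA : 0 ≤ A) (hB : 1 ≤ B) (hε : 0 < ε) :
    ∃ C : ℝ, 1 ≤ C ∧ ∀ (L : ℂ → ℂ) (τ T q : ℝ), 1 ≤ q → ZF L Θ A B τ T q →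
      ∀ z : ℂ, Θ + ε ≤ z.re → |z.im - τ| ≤ T →
        ‖L z‖ ≤ C * (q * (1 + |τ|) * (|z.im - τ| + 3)) ^ ε ∧
        ‖(L z)⁻¹‖ ≤ C * (q * (1 + |τ|) * (|z.im - τ| + 3)) ^ ε := by
  obtain ⟨C, hC1, hC⟩ := Z1590.Z1 (Θ := Θ) hΘ0 hΘ hA hB hε
  refine ⟨C, hC1, ?_⟩
  intro L τ T q hq hL z hz hT
  have hτ := abs_nonneg τ
  have hq' : 1 ≤ q * (1 + |τ|) := by nlinarith
  have him : ∀ w : ℂ, (w + τ * I).im - τ = w.im := fun w => by simp
  have hre : ∀ w : ℂ, (w + τ * I).re = w.re := fun w => by simp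
  have key := hC (fun w => L (w + τ * I)) T (q * (1 + |τ|)) hq'
    (by
      refine hL.hd.comp (by fun_prop) ?_
      intro w hw
      refine ⟨?_, ?_⟩
      · rw [hre]; exact hw.1
      · rw [him]; exact hw.2)
    (fun w h1 h2 => hL.h0 _ (by rwa [hre]) (by rwa [him]))
    (fun w h1 h2 h3 => by
      refine (hL.gr (w + τ * I) (by rwa [hre]) (by rwa [hre]) (by rwa [him])).trans ?_
      refine Real.rpow_le_rpow (by positivity) ?_ hA
      have e : (w + τ * I).im = w.im + τ := by simp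
      rw [e]
      have h5 : |w.im + τ| ≤ |w.im| + |τ| := abs_add_le _ _
      have h6 := abs_nonneg w.im
      calc q * (|w.im + τ| + 3) ≤ q * (|w.im| + |τ| + 3) := by gcongr
        _ ≤ q * ((1 + |τ|) * (|w.im| + 3)) := by
            gcongr
            nlinarith [mul_nonneg hτ h6]
        _ = _ := by ring)
    (fun w h1 _ => hL.bd _ (by rwa [hre]))
    (z - τ * I) (by simpa using hz) (by simpa using hT)
  simpa using key

/-- **(Z2)** Uniform bound for smooth sums of the coefficients of `1/L` (twisted by `N^{-iτ}`)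
when `L` has no zeros in `Re z > Θ`, `|Im z - τ| < T + 2`. `C` depends only on `Θ, A, B, ε`. -/
theorem Z2 [Countable ι] {Θ A B ε : ℝ} (hΘ0 : 0 ≤ Θ) (hΘ : Θ < 1) (hA : 0 ≤ A) (hB : 1 ≤ B)
    (hε : 0 < ε) (hε1 : ε ≤ 1) :
    ∃ C : ℝ, 1 ≤ C ∧ ∀ (L : ℂ → ℂ) (τ T q : ℝ), 1 ≤ q → 1 ≤ T → ZF L Θ A B τ T q →
      ∀ (a : ι → ℂ) (N : ι → ℝ), (∀ i, 0 < N i) → (Summable fun i => ‖a i‖ * N i ^ (-(2 : ℝ))) →
      (∀ t : ℝ, (L (2 + t * I))⁻¹ = ∑' i, a i * (N i : ℂ) ^ (-(2 + t * I : ℂ))) →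
      ∀ (m : ℕ) (w : ℝ → ℂ) (K : ℝ), WB w (m + 3) K → ∀ Q : ℝ, 1 ≤ Q →
      ‖∑' i, a i * (N i : ℂ) ^ (-(τ * I : ℂ)) * w (Real.log (N i / Q))‖ ≤
        C * K * (q * (1 + |τ|)) ^ ε * (Q ^ (Θ + ε) + Q ^ 2 * (T ^ (m + 1))⁻¹) := by
  obtain ⟨C, hC1, hC⟩ := Z1τ (Θ := Θ) hΘ0 hΘ hA hB hε
  refine ⟨4 * (3 * C + B), by linarith, ?_⟩
  intro L τ T q hq hT hL a N hN hs hLs m w K hw Q hQ
  have hτ := abs_nonneg τ
  have hq1 : 1 ≤ q * (1 + |τ|) := by nlinarith
  have hK0 : 0 ≤ K := hw.nn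
  have hC0 : 0 < C := by linarith
  have hT0 : 0 < T := by linarith
  have hQ0 : 0 < Q := by linarith
  set M : ℝ := 3 * C * (q * (1 + |τ|)) ^ ε with hM
  have hqε : 1 ≤ (q * (1 + |τ|)) ^ ε := Real.one_le_rpow hq1 hε.le
  have him : ∀ w : ℂ, (w + τ * I).im - τ = w.im := fun w => by simp
  have hre : ∀ w : ℂ, (w + τ * I).re = w.re := fun w => by simp
  have hcpow : ∀ (i : ι) (s : ℂ), (N i : ℂ) ^ (-(τ * I : ℂ)) * (N i : ℂ) ^ (-s) =
      (N i : ℂ) ^ (-(s + τ * I)) := by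
    intro i s
    have hN' : (N i : ℂ) ≠ 0 := by exact_mod_cast (hN i).ne'
    rw [← Complex.cpow_add _ _ hN']
    congr 1
    ring
  have hn1 : ∀ i, ‖(N i : ℂ) ^ (-(τ * I : ℂ))‖ = 1 := by
    intro i
    rw [Complex.norm_cpow_eq_rpow_re_of_pos (hN i)]
    simp
  have key := smooth_sum_le (a := fun i => a i * (N i : ℂ) ^ (-(τ * I : ℂ))) (N := N) hN
    (by
      refine hs.congr fun i => ?_
      rw [norm_mul, hn1, mul_one])
    (A := fun s => (L (s + τ * I))⁻¹) (σ₁ := Θ + ε) (T := T) (M := M) (B := B) (K := K) (Q := Q)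
    (m := m) (w := w) hw hQ hT (by linarith) (by linarith)
    (by
      refine DifferentiableOn.inv ?_ ?_
      · refine hL.hd.comp (by fun_prop) ?_
        intro z hz
        refine ⟨?_, ?_⟩
        · rw [hre]; linarith [hz.1]
        · rw [him]; linarith [hz.2.2]
      · intro z hz
        refine hL.h0 _ ?_ ?_
        · rw [hre]; linarith [hz.1]
        · rw [him]; linarith [hz.2.2])
    (fun z h1 h2 h3 => by
      have h4 := (hC L τ T q hq hL (z + τ * I) (by rw [hre]; exact h1) (by rw [him]; exact h3)).2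
      rw [him] at h4
      refine h4.trans ?_
      have h5 := abs_nonneg z.im
      rw [Real.mul_rpow (by positivity) (by positivity)]
      have h6 : (|z.im| + 3) ^ ε ≤ 3 * (1 + |z.im|) := by
        calc (|z.im| + 3) ^ ε ≤ (|z.im| + 3) ^ (1 : ℝ) :=
              Real.rpow_le_rpow_of_exponent_le (by linarith) hε1
          _ = |z.im| + 3 := Real.rpow_one _
          _ ≤ _ := by linarith
      calc C * ((q * (1 + |τ|)) ^ ε * (|z.im| + 3) ^ ε)
          ≤ C * ((q * (1 + |τ|)) ^ ε * (3 * (1 + |z.im|))) := by gcongr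
        _ = M * (1 + |z.im|) := by rw [hM]; ring)
    (fun t => (hL.bd _ (by simp; norm_num)).2)
    (fun t => by
      have e : (2 + t * I + τ * I : ℂ) = 2 + ((t + τ : ℝ) : ℂ) * I := by push_cast; ring
      rw [e, hLs (t + τ)]
      congr 1
      ext i
      rw [mul_assoc, hcpow, ← e])
  refine key.trans ?_
  have h7 : 0 ≤ Q ^ 2 * (T ^ (m + 1))⁻¹ := by positivity
  have h8 : 0 ≤ Q ^ (Θ + ε) := by positivity
  have h9 : M + B ≤ (3 * C + B) * (q * (1 + |τ|)) ^ ε := by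
    rw [hM]
    nlinarith
  have h10 : M ≤ (3 * C + B) * (q * (1 + |τ|)) ^ ε := by
    refine le_trans ?_ h9
    linarith
  calc 4 * K * (M * Q ^ (Θ + ε) + (M + B) * Q ^ 2 * (T ^ (m + 1))⁻¹)
      = 4 * K * (M * Q ^ (Θ + ε) + (M + B) * (Q ^ 2 * (T ^ (m + 1))⁻¹)) := by ring
    _ ≤ 4 * K * (((3 * C + B) * (q * (1 + |τ|)) ^ ε) * Q ^ (Θ + ε) +
        ((3 * C + B) * (q * (1 + |τ|)) ^ ε) * (Q ^ 2 * (T ^ (m + 1))⁻¹)) := by gcongr
    _ = _ := by ring

/-- **(Z2), global form.** No zeros in the whole half plane `Re z > Θ`: power saving `Q^{Θ+ε}`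
for the smooth sums, uniformly in the conductor `q` and the height `τ`. -/
theorem Z2_global [Countable ι] {Θ A B ε : ℝ} (hΘ0 : 0 ≤ Θ) (hΘ : Θ < 1) (hA : 0 ≤ A) (hB : 1 ≤ B)
    (hε : 0 < ε) (hε1 : ε ≤ 1) :
    ∃ C : ℝ, 1 ≤ C ∧ ∀ (L : ℂ → ℂ) (τ q : ℝ), 1 ≤ q → (∀ T : ℝ, 1 ≤ T → ZF L Θ A B τ T q) →
      ∀ (a : ι → ℂ) (N : ι → ℝ), (∀ i, 0 < N i) → (Summable fun i => ‖a i‖ * N i ^ (-(2 : ℝ))) →
      (∀ t : ℝ, (L (2 + t * I))⁻¹ = ∑' i, a i * (N i : ℂ) ^ (-(2 + t * I : ℂ))) →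
      ∀ (w : ℝ → ℂ) (K : ℝ), WB w 3 K → ∀ Q : ℝ, 1 ≤ Q →
      ‖∑' i, a i * (N i : ℂ) ^ (-(τ * I : ℂ)) * w (Real.log (N i / Q))‖ ≤
        C * K * (q * (1 + |τ|)) ^ ε * Q ^ (Θ + ε) := by
  obtain ⟨C, hC1, hC⟩ := Z2 (ι := ι) (Θ := Θ) hΘ0 hΘ hA hB hε hε1
  refine ⟨2 * C, by linarith, ?_⟩
  intro L τ q hq hL a N hN hs hLs w K hw Q hQ
  have hQ2 : (1 : ℝ) ≤ Q ^ 2 := one_le_pow₀ hQ
  have key := hC L τ (Q ^ 2) q hq hQ2 (hL _ hQ2) a N hN hs hLs 0 w K hw Q hQ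
  have hQ0 : 0 < Q := by linarith
  have e : Q ^ 2 * ((Q ^ 2) ^ (0 + 1))⁻¹ = 1 := by
    rw [zero_add, pow_one]
    exact mul_inv_cancel₀ (by positivity)
  rw [e] at key
  have h1 : (1 : ℝ) ≤ Q ^ (Θ + ε) := Real.one_le_rpow hQ (by linarith)
  have hK0 : 0 ≤ K := hw.nn
  have h2 : 0 ≤ C * K * (q * (1 + |τ|)) ^ ε := by
    have := abs_nonneg τ
    have : 0 ≤ q * (1 + |τ|) := by positivity
    positivity
  calc _ ≤ C * K * (q * (1 + |τ|)) ^ ε * (Q ^ (Θ + ε) + 1) := key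
    _ ≤ C * K * (q * (1 + |τ|)) ^ ε * (Q ^ (Θ + ε) + Q ^ (Θ + ε)) := by gcongr
    _ = _ := by ring

end Crest.Agent.R017.Z2590
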