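import Crest.Agent.R017.EndG_699
import Crest.Agent.R017.EndE3_699
import Crest.Agent.R017.Z2_590

/-!
# Row 17, end block (H): the functions `LH` and helper590's uniform bounds
-/

set_option autoImplicit false

noncomputable section

namespace Crest.Agent.R017.End699

open Crest.Agent.R012 Crest.Agent.R012.Eis Crest.Agent.R012.PSer47
open Crest.Agent.R001.SW (Sm E)

/-! ### the residue -/

lemma chi3_ne_one : chi3 ≠ 1 := by
  intro h
  have h1 := chi3_apply 2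
  rw [h, qc_two (by norm_num)] at h1
  have hu : IsUnit ((2 : ℕ) : ZMod 3) := by
    rw [ZMod.isUnit_iff_coprime]; norm_num
  rw [MulChar.one_apply hu] at h1
  norm_num at h1

lemma E_qc_eq {s : ℂ} (hs : 0 < s.re) : E (fun n => (qc n : ℂ)) s = chi3.LFunction s := by
  apply Crest.Agent.R001.SW.eq_of_eq_re_gt_one
    (Crest.Agent.R001.SW.differentiableOn_E norm_Sm_qc)
    (DirichletCharacter.differentiable_LFunction chi3_ne_one).differentiableOn _ hs
  intro z hz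
  rw [Crest.Agent.R001.SW.E_eq_LSeries norm_Sm_qc (by linarith) (summable_qc hz),
    DirichletCharacter.LFunction_eq_LSeries _ hz]
  exact LSeries_congr (fun {n} _ => (chi3_apply n).symm) z

lemma Lc1_one_ne_zero : Lc1 1 ≠ 0 := by
  unfold Lc1
  rw [E_qc_eq (by simp), riemannZeta₁_one]
  refine mul_ne_zero (mul_ne_zero ?_ one_ne_zero) ?_
  · rw [Complex.cpow_neg_one]
    norm_num
  · exact DirichletCharacter.LFunction_ne_zero_of_one_le_re chi3 (Or.inl chi3_ne_one) (by simp)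

/-- for a principal character the mean value does not vanish -/
lemma HC.cc_ne_zero {q : Eis} {χ : Eis → ℂ} (h : HC q χ) {l : ℤ} (hnp : ¬ NP q χ l) :
    cc q χ l ≠ 0 := by
  classical
  unfold NP at hnp
  push Not at hnp
  obtain ⟨hl, hχ⟩ := hnp
  subst hl
  unfold cc
  rw [if_pos rfl]
  unfold mden
  obtain ⟨k, hk, h1, -⟩ := sumMod_one_eq h.q0 h.three
  rw [h1]
  refine div_ne_zero ?_ (by exact_mod_cast hk.ne')
  obtain ⟨S, hS, -⟩ := P355.exists_small_crs h.q0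
  rw [sumMod_eq_sum hS h.pmod]
  have h2 : ∑ s ∈ S, ext χ s =
      (((S.filter (fun s => IsPrim s ∧ IsCoprime s q)).card : ℕ) : ℂ) := by
    rw [Finset.card_filter]
    push_cast
    apply Finset.sum_congr rfl
    intro s _
    unfold ext
    by_cases hs : IsPrim s
    · rw [if_pos hs]
      by_cases hc : IsCoprime s q
      · rw [hχ s hs hc, if_pos ⟨hs, hc⟩]
      · rw [h.van s hs hc, if_neg (fun h' => hc h'.2)]
    · rw [if_neg hs, if_neg (fun h' => hs h'.1)]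
  rw [h2]
  have h3 : 0 < (S.filter (fun s => IsPrim s ∧ IsCoprime s q)).card := by
    rw [Finset.card_pos]
    obtain ⟨s, ⟨hs, hd⟩, -⟩ := hS 1
    refine ⟨s, Finset.mem_filter.mpr ⟨hs, ?_, ?_⟩⟩
    · have : (3 : Eis) ∣ 1 - s := h.three.trans hd
      unfold IsPrim
      have e : s - 1 = -(1 - s) := by ring
      rw [e]
      exact (dvd_neg).mpr this
    · exact isCoprime_of_dvd_sub hd isCoprime_one_left
  exact_mod_cast h3.ne'

lemma HC.np_iff {q : Eis} {χ : Eis → ℂ} (h : HC q χ) {l : ℤ} : NP q χ l ↔ cc q χ l = 0 :=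
  ⟨fun hnp => hnp.cc_eq_zero h, fun h0 => by
    by_contra hnp
    exact h.cc_ne_zero hnp h0⟩

/-! ### the regularised function -/

/-- the multiplier -/
def gr (q : Eis) (χ : Eis → ℂ) (l : ℤ) (z : ℂ) : ℂ := if cc q χ l = 0 then 1 else (z - 1) / (z + 1)

/-- `gr * LH` -/
def Lr (q : Eis) (χ : Eis → ℂ) (l : ℤ) (z : ℂ) : ℂ :=
  if cc q χ l = 0 then LH q χ l z else LH1 q χ l z / (z + 1)

lemma z_add_one_ne {z : ℂ} (hz : 0 ≤ z.re) : z + 1 ≠ 0 := by
  intro h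
  have := congrArg Complex.re h
  simp at this
  linarith

lemma norm_sub_one_le_add_one {z : ℂ} (hz : 0 ≤ z.re) : ‖z - 1‖ ≤ ‖z + 1‖ := by
  rw [Complex.norm_def, Complex.norm_def]
  apply Real.sqrt_le_sqrt
  rw [Complex.normSq_apply, Complex.normSq_apply]
  simp only [Complex.sub_re, Complex.one_re, Complex.sub_im, Complex.one_im, sub_zero,
    Complex.add_re, Complex.add_im, add_zero]
  nlinarith

lemma norm_gr_le {q : Eis} {χ : Eis → ℂ} {l : ℤ} {z : ℂ} (hz : 0 ≤ z.re) :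
    ‖gr q χ l z‖ ≤ 1 := by
  unfold gr
  split_ifs
  · simp
  · rw [norm_div, div_le_one (norm_pos_iff.mpr (z_add_one_ne hz))]
    exact norm_sub_one_le_add_one hz

lemma differentiableAt_gr {q : Eis} {χ : Eis → ℂ} {l : ℤ} {z : ℂ} (hz : 0 ≤ z.re) :
    DifferentiableAt ℂ (gr q χ l) z := by
  by_cases hc : cc q χ l = 0
  · have : gr q χ l = fun _ => 1 := by funext w; simp [gr, hc]
    rw [this]; exact differentiableAt_const _
  · have : gr q χ l = fun w => (w - 1) / (w + 1) := by funext w; simp [gr, hc]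
    rw [this]
    exact (differentiableAt_id.sub_const 1).div (differentiableAt_id.add_const 1)
      (z_add_one_ne hz)

lemma gr_mul_LH {q : Eis} {χ : Eis → ℂ} {l : ℤ} {z : ℂ} (hz1 : z ≠ 1) :
    gr q χ l z * LH q χ l z = Lr q χ l z := by
  unfold gr Lr
  split_ifs
  · rw [one_mul]
  · rw [← LH1_eq hz1]; ring

lemma inv_LH_eq {q : Eis} {χ : Eis → ℂ} {l : ℤ} {z : ℂ} (hz : 0 ≤ z.re) (hz1 : z ≠ 1) :
    (LH q χ l z)⁻¹ = gr q χ l z * (Lr q χ l z)⁻¹ := by
  rw [← gr_mul_LH hz1, mul_inv, ← mul_assoc, mul_inv_cancel₀, one_mul]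
  unfold gr
  split_ifs
  · exact one_ne_zero
  · exact div_ne_zero (sub_ne_zero.mpr hz1) (z_add_one_ne hz)

namespace HC

variable {q : Eis} {χ : Eis → ℂ} (h : HC q χ)

include h

lemma differentiableAt_Lr (l : ℤ) {z : ℂ} (hz : 1 / 2 < z.re) :
    DifferentiableAt ℂ (Lr q χ l) z := by
  by_cases hc : cc q χ l = 0
  · have : Lr q χ l = LH q χ l := by funext w; simp [Lr, hc]
    rw [this]; exact h.differentiableAt_LH' l hc hz
  · have : Lr q χ l = fun w => LH1 q χ l w / (w + 1) := by funext w; simp [Lr, hc]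
    rw [this]
    exact (h.differentiableAt_LH1 l hz).div (differentiableAt_id.add_const 1)
      (z_add_one_ne (by linarith))

lemma Lr_one_ne_zero {l : ℤ} (hnp : ¬ NP q χ l) : Lr q χ l 1 ≠ 0 := by
  have hc := h.cc_ne_zero hnp
  unfold Lr
  rw [if_neg hc]
  unfold LH1
  rw [sub_self, zero_mul, zero_add]
  exact div_ne_zero (mul_ne_zero hc Lc1_one_ne_zero) (by norm_num)

lemma Lr_ne_zero {l : ℤ} {z : ℂ} (hz : 0 ≤ z.re) (h0 : NP q χ l ∨ z ≠ 1 → LH q χ l z ≠ 0) :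
    Lr q χ l z ≠ 0 := by
  by_cases hnp : NP q χ l
  · have hc := hnp.cc_eq_zero h
    unfold Lr
    rw [if_pos hc]
    exact h0 (Or.inl hnp)
  · by_cases hz1 : z = 1
    · rw [hz1]; exact h.Lr_one_ne_zero hnp
    · rw [← gr_mul_LH hz1]
      refine mul_ne_zero ?_ (h0 (Or.inr hz1))
      unfold gr
      rw [if_neg (h.cc_ne_zero hnp)]
      exact div_ne_zero (sub_ne_zero.mpr hz1) (z_add_one_ne hz)

end HC

/-- sum of `cnt n * n^{-5/4}` -/
def B0 : ℝ := 1 + ∑' n : ℕ, ‖LSeries.term (push fun _ => 1) ((5 / 4 : ℝ) : ℂ) n‖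

lemma one_le_B0 : 1 ≤ B0 := by
  unfold B0
  have : 0 ≤ ∑' n : ℕ, ‖LSeries.term (push fun _ => 1) ((5 / 4 : ℝ) : ℂ) n‖ :=
    tsum_nonneg fun _ => norm_nonneg _
  linarith

/-- absolutely convergent Dirichlet series are bounded on `Re z ≥ 5/4` -/
lemma norm_LSeries_push_le {f : Eis → ℂ} (hf : ∀ b, IsPrim b → ‖f b‖ ≤ 1) {z : ℂ}
    (hz : 5 / 4 ≤ z.re) : ‖LSeries (push f) z‖ ≤ B0 := by
  have hs1 : LSeriesSummable (push fun _ => 1) ((5 / 4 : ℝ) : ℂ) :=
    LSer47.summable_push (fun _ _ => by simp) (by simp; norm_num)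
  have hs2 : LSeriesSummable (push f) z := LSer47.summable_push hf (by linarith)
  unfold LSeries B0
  refine (norm_tsum_le_tsum_norm hs2.norm).trans ?_
  have h1 : ∑' n : ℕ, ‖LSeries.term (push f) z n‖ ≤
      ∑' n : ℕ, ‖LSeries.term (push fun _ => 1) ((5 / 4 : ℝ) : ℂ) n‖ := by
    refine Summable.tsum_le_tsum (fun n => ?_) hs2.norm hs1.norm
    rcases eq_or_ne n 0 with rfl | hn
    · simp
    have hn1 : (1 : ℝ) ≤ n := by exact_mod_cast Nat.one_le_iff_ne_zero.mpr hn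
    rw [LSeries.term_of_ne_zero hn, LSeries.term_of_ne_zero hn, norm_div, norm_div,
      Complex.norm_natCast_cpow_of_pos (Nat.pos_of_ne_zero hn),
      Complex.norm_natCast_cpow_of_pos (Nat.pos_of_ne_zero hn)]
    have h2 : ‖push f n‖ ≤ ‖push (fun _ => 1) n‖ := by
      refine (norm_push_le_card hf n).trans ?_
      simp [push]
    have h3 : (n : ℝ) ^ (((5 / 4 : ℝ) : ℂ)).re ≤ (n : ℝ) ^ z.re :=
      Real.rpow_le_rpow_of_exponent_le hn1 (by simpa using hz)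
    gcongr
  linarith

lemma B_bound {q : Eis} {χ : Eis → ℂ} (h : HC q χ) (l : ℤ) {z : ℂ} (hz : 5 / 4 ≤ z.re) :
    ‖LH q χ l z‖ ≤ B0 ∧ ‖(LH q χ l z)⁻¹‖ ≤ B0 := by
  have hz1 : 1 < z.re := by linarith
  constructor
  · rw [h.LH_eq l hz1]
    exact norm_LSeries_push_le (fun b hb => (h.isChar_tw l).norm_le hb) hz
  · have h1 := h.LSeries_mu_mul_LH l hz1
    have h2 : (LH q χ l z)⁻¹ = LSeries (push fun b => (muE b : ℂ) * tw χ l b) z :=
      (eq_inv_of_mul_eq_one_left h1).symm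
    rw [h2]
    exact norm_LSeries_push_le (fun b hb => norm_muE_mul_le (h.isChar_tw l) hb) hz

lemma Lr_bound {q : Eis} {χ : Eis → ℂ} (h : HC q χ) (l : ℤ) {z : ℂ} (hz : 5 / 4 ≤ z.re) :
    ‖Lr q χ l z‖ ≤ 9 * B0 ∧ ‖(Lr q χ l z)⁻¹‖ ≤ 9 * B0 := by
  have hz1 : z ≠ 1 := by rintro rfl; simp at hz; linarith
  have hz0 : 0 ≤ z.re := by linarith
  obtain ⟨h1, h2⟩ := B_bound h l hz
  have hB := one_le_B0
  rw [← gr_mul_LH hz1]
  constructor
  · rw [norm_mul]
    calc ‖gr q χ l z‖ * ‖LH q χ l z‖ ≤ 1 * B0 := by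
          gcongr
          exact norm_gr_le hz0
      _ ≤ 9 * B0 := by linarith
  · rw [mul_inv, norm_mul]
    have h3 : ‖(gr q χ l z)⁻¹‖ ≤ 9 := by
      unfold gr
      split_ifs
      · simp
      · rw [norm_inv, norm_div, inv_div]
        have h4 : 1 / 4 ≤ ‖z - 1‖ := by
          refine le_trans ?_ (Complex.re_le_norm _)
          simp; linarith
        have h5 : ‖z + 1‖ ≤ ‖z - 1‖ + 2 := by
          have e : z + 1 = (z - 1) + 2 := by ring
          rw [e]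
          refine (norm_add_le _ _).trans ?_
          simp
        rw [div_le_iff₀ (by linarith)]
        linarith
    calc ‖(gr q χ l z)⁻¹‖ * ‖(LH q χ l z)⁻¹‖ ≤ 9 * B0 := by gcongr

/-- growth -/
theorem Lr_growth (l : ℤ) {Θ : ℝ} (hΘ : 1 / 2 < Θ) : ∃ A : ℝ, 0 ≤ A ∧ ∀ (q : Eis) (χ : Eis → ℂ),
    HC q χ → ∀ z : ℂ, Θ < z.re → z.re ≤ 4 →
      ‖Lr q χ l z‖ ≤ ((nm q : ℝ) * (|z.im| + 3)) ^ A := by
  obtain ⟨C1, hC1, h1⟩ := norm_LH1_le l
  obtain ⟨C2, hC2, h2⟩ := norm_E_cf_le l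
  set T : ℝ := 1 + 1 / (Θ - 1 / 2) with hT
  have hT1 : 1 ≤ T := by
    have : 0 < 1 / (Θ - 1 / 2) := by
      have : 0 < Θ - 1 / 2 := by linarith
      positivity
    linarith
  obtain ⟨n, hn⟩ := pow_unbounded_of_one_lt (8 * (C1 + C2) * T) (by norm_num : (1 : ℝ) < 3)
  refine ⟨n + 3, by positivity, fun q χ h z hz hz4 => ?_⟩
  have hq : (1 : ℝ) ≤ (nm q : ℝ) := by exact_mod_cast nm_pos.mpr h.q0
  have hsq : Real.sqrt (nm q) ≤ (nm q : ℝ) := by
    rw [Real.sqrt_le_left (by linarith)]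
    nlinarith
  have ht := abs_nonneg z.im
  have hz12 : 1 / 2 < z.re := by linarith
  have hzn : ‖z‖ + 1 ≤ 2 * (|z.im| + 3) := by
    have h5 := Complex.norm_le_abs_re_add_abs_im z
    have h6 : |z.re| ≤ 4 := by rw [abs_of_nonneg (by linarith)]; exact hz4
    linarith
  have hTz : 1 + 1 / (z.re - 1 / 2) ≤ T := by
    rw [hT]
    have : 1 / (z.re - 1 / 2) ≤ 1 / (Θ - 1 / 2) :=
      one_div_le_one_div_of_le (by linarith) (by linarith)
    linarith
  have hTz0 : 0 < 1 + 1 / (z.re - 1 / 2) := by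
    have : 0 < z.re - 1 / 2 := by linarith
    positivity
  have hn0 := norm_nonneg z
  set X : ℝ := (nm q : ℝ) * (|z.im| + 3) with hX
  have hX3 : 3 ≤ X := by rw [hX]; nlinarith
  have hqX : (nm q : ℝ) * (|z.im| + 3) ^ 3 ≤ X ^ 3 := by
    rw [hX, mul_pow]
    have h7 : (nm q : ℝ) ≤ (nm q : ℝ) ^ 3 := by
      have := pow_le_pow_right₀ hq (show 1 ≤ 3 by norm_num)
      simpa using this
    gcongr
  have key : ‖Lr q χ l z‖ ≤ 8 * (C1 + C2) * T * X ^ 3 := by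
    unfold Lr
    split_ifs with hc
    · have h3 : LH q χ l z = E (cf q χ l) z := by unfold LH; rw [hc]; ring
      rw [h3]
      have h8 : (|z.im| + 3) ≤ (|z.im| + 3) ^ 3 := by
        have := pow_le_pow_right₀ (show (1 : ℝ) ≤ |z.im| + 3 by linarith) (show 1 ≤ 3 by norm_num)
        simpa using this
      calc ‖E (cf q χ l) z‖ ≤ C2 * Real.sqrt (nm q) * (‖z‖ + 1) * (1 + 1 / (z.re - 1 / 2)) :=
            h2 q χ h z hz12
        _ ≤ C2 * (nm q : ℝ) * (2 * (|z.im| + 3)) * T := by gcongr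
        _ = 2 * C2 * T * ((nm q : ℝ) * (|z.im| + 3)) := by ring
        _ ≤ 2 * C2 * T * ((nm q : ℝ) * (|z.im| + 3) ^ 3) := by gcongr
        _ ≤ 2 * C2 * T * X ^ 3 := by gcongr
        _ ≤ 8 * (C1 + C2) * T * X ^ 3 := by
            gcongr ?_ * T * X ^ 3
            linarith
    · have h4 : 1 ≤ ‖z + 1‖ := by
        refine le_trans ?_ (Complex.re_le_norm _)
        simp; linarith
      rw [norm_div]
      calc ‖LH1 q χ l z‖ / ‖z + 1‖ ≤ ‖LH1 q χ l z‖ / 1 := by gcongr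
        _ = ‖LH1 q χ l z‖ := div_one _
        _ ≤ C1 * Real.sqrt (nm q) * (‖z‖ + 1) ^ 3 * (1 + 1 / (z.re - 1 / 2)) := h1 q χ h z hz12
        _ ≤ C1 * (nm q : ℝ) * (2 * (|z.im| + 3)) ^ 3 * T := by gcongr
        _ = 8 * C1 * T * ((nm q : ℝ) * (|z.im| + 3) ^ 3) := by ring
        _ ≤ 8 * C1 * T * X ^ 3 := by gcongr
        _ ≤ 8 * (C1 + C2) * T * X ^ 3 := by
            gcongr ?_ * T * X ^ 3
            linarith
  refine key.trans ?_
  have h9 : 8 * (C1 + C2) * T ≤ X ^ n := by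
    calc 8 * (C1 + C2) * T ≤ 3 ^ n := hn.le
      _ ≤ X ^ n := by gcongr
  have h10 : X ^ ((n : ℝ) + 3) = X ^ n * X ^ 3 := by
    rw [Real.rpow_add (by linarith)]
    norm_cast
  rw [h10]
  gcongr

/-- helper590's hypotheses hold for the regularised function -/
theorem zf_Lr (l : ℤ) {Θ : ℝ} (hΘ : 1 / 2 < Θ) : ∃ A : ℝ, 0 ≤ A ∧ ∀ (q : Eis) (χ : Eis → ℂ),
    HC q χ → ∀ τ T : ℝ,
      (∀ z : ℂ, Θ < z.re → |z.im - τ| < T + 2 → (NP q χ l ∨ z ≠ 1) → LH q χ l z ≠ 0) →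
      Z2590.ZF (Lr q χ l) Θ A (9 * B0) τ T (nm q) := by
  obtain ⟨A, hA, hgr⟩ := Lr_growth l hΘ
  refine ⟨A, hA, fun q χ h τ T hz => ?_⟩
  refine ⟨?_, ?_, ?_, ?_⟩
  · intro z hz'
    exact (h.differentiableAt_Lr l (by linarith [hz'.1])).differentiableWithinAt
  · intro z h1 h2
    exact h.Lr_ne_zero (by linarith) (hz z h1 h2)
  · intro z h1 h2 _
    exact hgr q χ h z h1 h2
  · intro z h1
    exact Lr_bound h l h1

end Crest.Agent.R017.End699
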