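import Crest.Agent.R017.EndH2_699

/-!
# Row 17, end block (I): uniform bounds for smooth character sums, bootstrap
-/

set_option autoImplicit false

noncomputable section

namespace Crest.Agent.R017.End699

section

open Complex Filter Topology MeasureTheory Set
open Crest.Agent.R017.Z2590

variable {ι : Type*}

/-- (Z2) of helper590 for `L` instead of `1/L`. Uniform bound for smooth sums of the coefficients of `L` (twisted by `N^{-iτ}`)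
when `L` has no zeros in `Re z > Θ`, `|Im z - τ| < T + 2`. `C` depends only on `Θ, A, B, ε`. -/
theorem Z2L [Countable ι] {Θ A B ε : ℝ} (hΘ0 : 0 ≤ Θ) (hΘ : Θ < 1) (hA : 0 ≤ A) (hB : 1 ≤ B)
    (hε : 0 < ε) (hε1 : ε ≤ 1) :
    ∃ C : ℝ, 1 ≤ C ∧ ∀ (L : ℂ → ℂ) (τ T q : ℝ), 1 ≤ q → 1 ≤ T → ZF L Θ A B τ T q →
      ∀ (a : ι → ℂ) (N : ι → ℝ), (∀ i, 0 < N i) → (Summable fun i => ‖a i‖ * N i ^ (-(2 : ℝ))) →
      (∀ t : ℝ, L (2 + t * I) = ∑' i, a i * (N i : ℂ) ^ (-(2 + t * I : ℂ))) →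
      ∀ (m : ℕ) (w : ℝ → ℂ) (K : ℝ), WB w (m + 3) K → ∀ Q : ℝ, 1 ≤ Q →
      ‖∑' i, a i * (N i : ℂ) ^ (-(τ * I : ℂ)) * w (Real.log (N i / Q))‖ ≤
        C * K * (q * (1 + |τ|)) ^ ε * (Q ^ (Θ + ε) + Q ^ 2 * (T ^ (m + 1))⁻¹) := by
  obtain ⟨C, hC1, hC⟩ := Z1τ (Θ := Θ) hΘ0 hΘ hA hB hε
  refine ⟨4 * (3 * C + B), by linarith, ?_⟩
  intro L τ T q hq hT hL a N hN hs hLs m w K hw Q hQ
  have hτ := abs_nonneg τ
  have hq1 : 1 ≤ q * (1 + |τ|) := by nlinarith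
  have hK0 : 0 ≤ K := hw.nn
  have hC0 : 0 < C := by linarith
  have hT0 : 0 < T := by linarith
  have hQ0 : 0 < Q := by linarith
  set M : ℝ := 3 * C * (q * (1 + |τ|)) ^ ε with hM
  have hqε : 1 ≤ (q * (1 + |τ|)) ^ ε := Real.one_le_rpow hq1 hε.le
  have him : ∀ w : ℂ, (w + τ * I).im - τ = w.im := fun w => by simp
  have hre : ∀ w : ℂ, (w + τ * I).re = w.re := fun w => by simp
  have hcpow : ∀ (i : ι) (s : ℂ), (N i : ℂ) ^ (-(τ * I : ℂ)) * (N i : ℂ) ^ (-s) =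
      (N i : ℂ) ^ (-(s + τ * I)) := by
    intro i s
    have hN' : (N i : ℂ) ≠ 0 := by exact_mod_cast (hN i).ne'
    rw [← Complex.cpow_add _ _ hN']
    congr 1
    ring
  have hn1 : ∀ i, ‖(N i : ℂ) ^ (-(τ * I : ℂ))‖ = 1 := by
    intro i
    rw [Complex.norm_cpow_eq_rpow_re_of_pos (hN i)]
    simp
  have key := smooth_sum_le (a := fun i => a i * (N i : ℂ) ^ (-(τ * I : ℂ))) (N := N) hN
    (by
      refine hs.congr fun i => ?_
      rw [norm_mul, hn1, mul_one])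
    (A := fun s => L (s + τ * I)) (σ₁ := Θ + ε) (T := T) (M := M) (B := B) (K := K) (Q := Q)
    (m := m) (w := w) hw hQ hT (by linarith) (by linarith)
    (by
      refine hL.hd.comp (by fun_prop) ?_
      intro z hz
      refine ⟨?_, ?_⟩
      · rw [hre]; linarith [hz.1]
      · rw [him]; linarith [hz.2.2])
    (fun z h1 h2 h3 => by
      have h4 := (hC L τ T q hq hL (z + τ * I) (by rw [hre]; exact h1) (by rw [him]; exact h3)).1
      rw [him] at h4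
      refine h4.trans ?_
      have h5 := abs_nonneg z.im
      rw [Real.mul_rpow (by positivity) (by positivity)]
      have h6 : (|z.im| + 3) ^ ε ≤ 3 * (1 + |z.im|) := by
        calc (|z.im| + 3) ^ ε ≤ (|z.im| + 3) ^ (1 : ℝ) :=
              Real.rpow_le_rpow_of_exponent_le (by linarith) hε1
          _ = |z.im| + 3 := Real.rpow_one _
          _ ≤ _ := by linarith
      calc C * ((q * (1 + |τ|)) ^ ε * (|z.im| + 3) ^ ε)
          ≤ C * ((q * (1 + |τ|)) ^ ε * (3 * (1 + |z.im|))) := by gcongr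
        _ = M * (1 + |z.im|) := by rw [hM]; ring)
    (fun t => (hL.bd _ (by simp; norm_num)).1)
    (fun t => by
      have e : (2 + t * I + τ * I : ℂ) = 2 + ((t + τ : ℝ) : ℂ) * I := by push_cast; ring
      rw [e, hLs (t + τ)]
      congr 1
      ext i
      rw [mul_assoc, hcpow, ← e])
  refine key.trans ?_
  have h7 : 0 ≤ Q ^ 2 * (T ^ (m + 1))⁻¹ := by positivity
  have h8 : 0 ≤ Q ^ (Θ + ε) := by positivity
  have h9 : M + B ≤ (3 * C + B) * (q * (1 + |τ|)) ^ ε := by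
    rw [hM]
    nlinarith
  have h10 : M ≤ (3 * C + B) * (q * (1 + |τ|)) ^ ε := by
    refine le_trans ?_ h9
    linarith
  calc 4 * K * (M * Q ^ (Θ + ε) + (M + B) * Q ^ 2 * (T ^ (m + 1))⁻¹)
      = 4 * K * (M * Q ^ (Θ + ε) + (M + B) * (Q ^ 2 * (T ^ (m + 1))⁻¹)) := by ring
    _ ≤ 4 * K * (((3 * C + B) * (q * (1 + |τ|)) ^ ε) * Q ^ (Θ + ε) +
        ((3 * C + B) * (q * (1 + |τ|)) ^ ε) * (Q ^ 2 * (T ^ (m + 1))⁻¹)) := by gcongr
    _ = _ := by ring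


end


open Crest.Agent.R012 Crest.Agent.R012.Eis Crest.Agent.R012.PSer47
open scoped ContDiff

/-- **uniform bound for smooth character sums**, log weights (nonprincipal characters) -/
theorem smooth_bound (l : ℤ) {Θ ε : ℝ} (hΘ : 1 / 2 < Θ) (hΘ1 : Θ < 1) (hε : 0 < ε)
    (hε1 : ε ≤ 1) : ∃ C : ℝ, 1 ≤ C ∧ ∀ (q : Eis) (χ : Eis → ℂ), HC q χ → NP q χ l →
      ∀ τ T : ℝ, 1 ≤ T →
      BoxFree q χ l Θ τ T → ∀ (m : ℕ) (w : ℝ → ℂ) (K : ℝ), Z2590.WB w (m + 3) K →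
      ∀ Q : ℝ, 1 ≤ Q → ∀ M : ℕ, (∀ n : ℕ, M < n → w (Real.log (n / Q)) = 0) →
      ‖∑ b ∈ primBall M, tw χ l b * ((nm b : ℂ) ^ (-(τ * Complex.I : ℂ)) *
        w (Real.log (nm b / Q)))‖ ≤
        C * K * ((nm q : ℝ) * (1 + |τ|)) ^ ε * (Q ^ (Θ + ε) + Q ^ 2 * (T ^ (m + 1))⁻¹) := by
  obtain ⟨A, hA, hzf⟩ := zf_Lr l hΘ
  obtain ⟨C, hC1, hC⟩ := Z2L (ι := ℕ) (Θ := Θ) (A := A) (B := 9 * B0) (ε := ε) (by linarith) hΘ1 hA
    (by have := one_le_B0; linarith) hε hε1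
  refine ⟨C, hC1, fun q χ h hnp τ T hT hbox m w K hw Q hQ M hM => ?_⟩
  have hq : (1 : ℝ) ≤ (nm q : ℝ) := by exact_mod_cast nm_pos.mpr h.q0
  set f : Eis → ℂ := tw χ l with hf
  have hfle : ∀ b, IsPrim b → ‖f b‖ ≤ 1 := fun b hb => (h.isChar_tw l).norm_le hb
  have key := hC (Lr q χ l) τ T (nm q) hq hT (hzf q χ h τ T hbox)
    (push f) nn nn_pos ?_ ?_ m w K hw Q hQ
  · refine le_trans (le_of_eq ?_) key
    congr 1
    have h1 : ∑' n : ℕ, push f n * (nn n : ℂ) ^ (-(τ * Complex.I : ℂ)) *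
        w (Real.log (nn n / Q)) = ∑ n ∈ Finset.range (M + 1), push f n *
          ((n : ℂ) ^ (-(τ * Complex.I : ℂ)) * w (Real.log (n / Q))) := by
      rw [tsum_eq_sum (s := Finset.range (M + 1))]
      · apply Finset.sum_congr rfl
        intro n _
        rcases eq_or_ne n 0 with rfl | hn
        · simp
        · rw [nn_of_ne hn, mul_assoc]
          push_cast
          rfl
      · intro n hn
        rw [Finset.mem_range, not_lt] at hn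
        have hn0 : n ≠ 0 := by omega
        rw [nn_of_ne hn0, hM n (by omega), mul_zero]
    rw [h1]
    exact (sum_push_weight f
      (fun n => (n : ℂ) ^ (-(τ * Complex.I : ℂ)) * w (Real.log (n / Q))) M).symm
  · have h2 := (LSer47.summable_push hfle (s := 2) (by norm_num)).norm
    refine h2.congr fun n => ?_
    rcases eq_or_ne n 0 with rfl | hn
    · simp
    · rw [LSeries.term_of_ne_zero hn, norm_div,
        Complex.norm_natCast_cpow_of_pos (Nat.pos_of_ne_zero hn), nn_of_ne hn,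
        Real.rpow_neg (by positivity), div_eq_mul_inv]
      norm_num
  · intro t
    set z : ℂ := 2 + t * Complex.I with hz
    have hzre : z.re = 2 := by simp [hz]
    have hc := hnp.cc_eq_zero h
    have e1 : Lr q χ l z = LH q χ l z := by unfold Lr; rw [if_pos hc]
    rw [e1, h.LH_eq l (by rw [hzre]; norm_num)]
    unfold LSeries
    apply tsum_congr
    intro n
    rcases eq_or_ne n 0 with rfl | hn
    · simp
    · rw [LSeries.term_of_ne_zero hn, nn_of_ne hn, Complex.cpow_neg, div_eq_mul_inv]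
      push_cast
      rfl

/-- **uniform bound for smooth character sums** -/
theorem smooth_bound_V (l : ℤ) {Θ ε : ℝ} (hΘ : 1 / 2 < Θ) (hΘ1 : Θ < 1) (hε : 0 < ε)
    (hε1 : ε ≤ 1) (m : ℕ) {V : ℝ → ℂ} (h1 : ContDiff ℝ ∞ V) (h2 : HasCompactSupport V)
    (h3 : tsupport V ⊆ Set.Ioi 0) {β : ℝ} (hβ : ∀ y, β < y → V y = 0) :
    ∃ C : ℝ, 0 ≤ C ∧ ∀ (q : Eis) (χ : Eis → ℂ), HC q χ → NP q χ l → ∀ τ T : ℝ, 1 ≤ T →
      BoxFree q χ l Θ τ T → ∀ Q : ℝ, 1 ≤ Q →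
      ‖∑ b ∈ primBall ⌊β * Q⌋₊, tw χ l b * ((nm b : ℂ) ^ (-(τ * Complex.I : ℂ)) *
        V (nm b / Q))‖ ≤
        C * ((nm q : ℝ) * (1 + |τ|)) ^ ε * (Q ^ (Θ + ε) + Q ^ 2 * (T ^ (m + 1))⁻¹) := by
  obtain ⟨C, hC1, hC⟩ := smooth_bound l hΘ hΘ1 hε hε1
  obtain ⟨h4, h5⟩ := log_weight h1 h2 h3
  obtain ⟨K, hK⟩ := Z2590.exists_WB h4 h5 (m + 3)
  have hK0 := hK.nn
  refine ⟨C * K, by positivity, fun q χ h hnp τ T hT hbox Q hQ => ?_⟩
  have hQ0 : 0 < Q := by linarith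
  have h6 := hC q χ h hnp τ T hT hbox m _ K hK Q hQ ⌊β * Q⌋₊ ?_
  · refine le_trans (le_of_eq ?_) h6
    congr 1
    apply Finset.sum_congr rfl
    intro b hb
    rw [mem_primBall] at hb
    have hb0 : (0 : ℝ) < (nm b : ℝ) / Q := by
      have : (0 : ℝ) < (nm b : ℝ) := by exact_mod_cast nm_pos.mpr hb.2.ne_zero
      positivity
    rw [Real.exp_log hb0]
  · intro n hn
    have h7 : β * Q < n := Nat.lt_of_floor_lt hn
    have hn0 : (0 : ℝ) < n := by exact_mod_cast (Nat.zero_le _).trans_lt hn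
    rw [Real.exp_log (by positivity)]
    apply hβ
    rw [lt_div_iff₀ hQ0]
    exact h7

/-- **uniform bound for smooth character sums**, global version -/
theorem smooth_bound_global (l : ℤ) {Θ ε : ℝ} (hΘ : 1 / 2 < Θ) (hΘ1 : Θ < 1) (hε : 0 < ε)
    (hε1 : ε ≤ 1) {V : ℝ → ℂ} (h1 : ContDiff ℝ ∞ V) (h2 : HasCompactSupport V)
    (h3 : tsupport V ⊆ Set.Ioi 0) {β : ℝ} (hβ : ∀ y, β < y → V y = 0) :
    ∃ C : ℝ, 0 ≤ C ∧ ∀ (q : Eis) (χ : Eis → ℂ), HC q χ → NP q χ l → Free q χ l Θ →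
      ∀ τ Q : ℝ, 1 ≤ Q →
      ‖∑ b ∈ primBall ⌊β * Q⌋₊, tw χ l b * ((nm b : ℂ) ^ (-(τ * Complex.I : ℂ)) *
        V (nm b / Q))‖ ≤ C * ((nm q : ℝ) * (1 + |τ|)) ^ ε * Q ^ (Θ + ε) := by
  obtain ⟨C, hC0, hC⟩ := smooth_bound_V l hΘ hΘ1 hε hε1 0 h1 h2 h3 hβ
  refine ⟨2 * C, by positivity, fun q χ h hnp hfree τ Q hQ => ?_⟩
  have hQ2 : (1 : ℝ) ≤ Q ^ 2 := one_le_pow₀ hQ
  have key := hC q χ h hnp τ (Q ^ 2) hQ2 (fun z hz _ => hfree z hz) Q hQ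
  have e : Q ^ 2 * ((Q ^ 2) ^ (0 + 1))⁻¹ = 1 := by
    rw [zero_add, pow_one]
    exact mul_inv_cancel₀ (by positivity)
  rw [e] at key
  have h4 : (1 : ℝ) ≤ Q ^ (Θ + ε) := Real.one_le_rpow hQ (by linarith)
  have h5 : 0 ≤ C * ((nm q : ℝ) * (1 + |τ|)) ^ ε := by
    have := abs_nonneg τ
    positivity
  calc _ ≤ C * ((nm q : ℝ) * (1 + |τ|)) ^ ε * (Q ^ (Θ + ε) + 1) := key
    _ ≤ C * ((nm q : ℝ) * (1 + |τ|)) ^ ε * (Q ^ (Θ + ε) + Q ^ (Θ + ε)) := by gcongr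
    _ = _ := by ring

/-! ### The whole family -/

/-- all the functions with angular frequency in `S` are zero-free in `Re z > θ` -/
def PF (S : Set ℤ) (θ : ℝ) : Prop := ∀ l ∈ S, ∀ (q : Eis) (χ : Eis → ℂ), HC q χ → Free q χ l θ

lemma PF.mono {S : Set ℤ} {θ θ' : ℝ} (h : PF S θ) (hθ : θ ≤ θ') : PF S θ' :=
  fun l hl q χ hc z hz => h l hl q χ hc z (lt_of_le_of_lt hθ hz)

lemma pf_one (S : Set ℤ) : PF S 1 :=
  fun l _ _ _ hc _ hz _ => hc.LH_ne_zero_of_one_lt l hz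

/-- the condition is closed -/
lemma pf_of_forall {S : Set ℤ} {θ : ℝ} (h : ∀ θ' > θ, PF S θ') : PF S θ := by
  intro l hl q χ hc z hz
  exact h ((θ + z.re) / 2) (by linarith) l hl q χ hc z (by linarith)

/-- **bootstrap** -/
theorem pf_bootstrap {S : Set ℤ} {θ₀ : ℝ}
    (step : ∀ θ : ℝ, θ₀ < θ → θ ≤ 1 → PF S θ → ∃ δ > 0, PF S (θ - δ)) : PF S θ₀ := by
  by_contra hcon
  set A : Set ℝ := {θ | PF S θ} with hA
  have hne : A.Nonempty := ⟨1, pf_one S⟩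
  have hbdd : BddBelow A := by
    refine ⟨θ₀, fun θ hθ => ?_⟩
    by_contra hlt
    push Not at hlt
    exact hcon (PF.mono hθ hlt.le)
  set β := sInf A with hβ
  have hβ1 : β ≤ 1 := csInf_le hbdd (pf_one S)
  have hβF : PF S β := by
    apply pf_of_forall
    intro θ' hθ'
    obtain ⟨θ, hθ, hlt⟩ := exists_lt_of_csInf_lt hne hθ'
    exact PF.mono hθ hlt.le
  have hβ0 : θ₀ < β := by
    by_contra hle
    push Not at hle
    exact hcon (hβF.mono hle)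
  obtain ⟨δ, hδ, hδF⟩ := step β hβ0 hβ1 hβF
  have : β ≤ β - δ := csInf_le hbdd hδF
  linarith

/-- zero-freeness for all characters gives `NZ` -/
theorem nz_of_pf {S : Set ℤ} (h0 : (0 : ℤ) ∈ S) (h : PF S (7 / 8)) : NZ :=
  fun q χ hc _ z hz hor => h 0 h0 q χ hc z hz hor

/-- a family of bounds for smoothed Möbius sums gives zero-freeness -/
theorem free_of_bound {q : Eis} {χ : Eis → ℂ} (h : HC q χ) (l : ℤ) {θ : ℝ} (hθ : 1 / 2 ≤ θ)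
    (hM : ∀ V : ℝ → ℝ, ContDiff ℝ ∞ V → HasCompactSupport V → tsupport V ⊆ Set.Ioo 1 2 →
      (∀ y, 0 ≤ V y) → (∀ y, V y ≤ 1) → ∀ ε : ℝ, 0 < ε → ∃ C : ℝ, ∀ X : ℝ, 1 ≤ X →
        ‖∑ b ∈ primBall ⌊2 * X⌋₊, (muE b : ℂ) * tw χ l b * (V ((nm b : ℝ) / X) : ℂ)‖ ≤
          C * X ^ (θ + ε)) : Free q χ l θ := by
  intro s hs hor
  obtain ⟨V, h1, h2, h3, h4, h5, h6, h7⟩ := exists_bump (s₀ := s) (by linarith) (α := 1) (β := 2)
    (by norm_num) (by norm_num)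
  obtain ⟨C, hC⟩ := hM V h1 h2 h5 h3 h4 ((s.re - θ) / 2) (by linarith)
  exact LH_ne_zero h l h6 (θ := θ + (s.re - θ) / 2) (C := C) (by linarith) hC (by linarith) hor h7

/-- the same with the constant allowed to depend on everything and one exponent -/
theorem free_of_bound' {q : Eis} {χ : Eis → ℂ} (h : HC q χ) (l : ℤ) {θ : ℝ} (hθ : 1 / 2 ≤ θ)
    (hM : ∀ V : ℝ → ℝ, ContDiff ℝ ∞ V → HasCompactSupport V → tsupport V ⊆ Set.Ioo 1 2 →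
      (∀ y, 0 ≤ V y) → (∀ y, V y ≤ 1) → ∃ C : ℝ, ∀ X : ℝ, 1 ≤ X →
        ‖∑ b ∈ primBall ⌊2 * X⌋₊, (muE b : ℂ) * tw χ l b * (V ((nm b : ℝ) / X) : ℂ)‖ ≤
          C * X ^ θ) : Free q χ l θ := by
  intro s hs hor
  obtain ⟨V, h1, h2, h3, h4, h5, h6, h7⟩ := exists_bump (s₀ := s) (by linarith) (α := 1) (β := 2)
    (by norm_num) (by norm_num)
  obtain ⟨C, hC⟩ := hM V h1 h2 h5 h3 h4
  exact LH_ne_zero h l h6 (θ := θ) (C := C) hθ hC hs hor h7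

/-! ### Bounds valid for all `θ ≤ 1` -/

/-- trivial bound -/
lemma trivial_MS {f : Eis → ℂ} (hf : ∀ b, IsPrim b → ‖f b‖ ≤ 1) {V : ℝ → ℂ} {B β : ℝ}
    (hB : ∀ y, ‖V y‖ ≤ B) (hβ : 0 ≤ β) (τ : ℝ) {Q : ℝ} (hQ : 1 ≤ Q) :
    ‖∑ b ∈ primBall ⌊β * Q⌋₊, f b * ((nm b : ℂ) ^ (-(τ * Complex.I : ℂ)) *
        V (nm b / Q))‖ ≤ 18 * β * B * Q := by
  have hB0 : 0 ≤ B := (norm_nonneg _).trans (hB 0)
  calc ‖∑ b ∈ primBall ⌊β * Q⌋₊, f b * ((nm b : ℂ) ^ (-(τ * Complex.I : ℂ)) *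
        V (nm b / Q))‖ ≤ ∑ b ∈ primBall ⌊β * Q⌋₊, B := by
        refine norm_sum_le_of_le _ fun b hb => ?_
        rw [mem_primBall] at hb
        have h1 : ‖(nm b : ℂ) ^ (-(τ * Complex.I : ℂ))‖ = 1 := by
          rw [Complex.norm_natCast_cpow_of_pos (nm_pos.mpr hb.2.ne_zero)]
          simp
        rw [norm_mul, norm_mul, h1, one_mul]
        calc ‖f b‖ * ‖V (nm b / Q)‖ ≤ 1 * B := by
              gcongr
              · exact hf b hb.2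
              · exact hB _
          _ = B := one_mul _
    _ = (primBall ⌊β * Q⌋₊).card * B := by rw [Finset.sum_const, nsmul_eq_mul]
    _ ≤ (18 * (β * Q)) * B := by
        gcongr
        calc ((primBall ⌊β * Q⌋₊).card : ℝ) ≤ ((18 * ⌊β * Q⌋₊ : ℕ) : ℝ) := by
              exact_mod_cast card_primBall_le' _
          _ = 18 * (⌊β * Q⌋₊ : ℝ) := by push_cast; ring
          _ ≤ 18 * (β * Q) := by
              gcongr
              exact Nat.floor_le (by positivity)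
    _ = _ := by ring

lemma exists_bd {V : ℝ → ℂ} (h1 : ContDiff ℝ ∞ V) (h2 : HasCompactSupport V) :
    ∃ B : ℝ, ∀ y, ‖V y‖ ≤ B := h1.continuous.bounded_above_of_compact_support h2

/-- **uniform Möbius bound in the family**, all `1/2 < θ ≤ 1` -/
theorem pf_moebius {S : Set ℤ} {θ ε : ℝ} (hθ : 1 / 2 < θ) (hθ1 : θ ≤ 1) (hPF : PF S θ)
    (hε : 0 < ε) (hε1 : ε ≤ 1) {l : ℤ} (hl : l ∈ S) {V : ℝ → ℂ} (h1 : ContDiff ℝ ∞ V)
    (h2 : HasCompactSupport V) (h3 : tsupport V ⊆ Set.Ioi 0) {β : ℝ} (hβ0 : 0 ≤ β)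
    (hβ : ∀ y, β < y → V y = 0) :
    ∃ C : ℝ, 0 ≤ C ∧ ∀ (q : Eis) (χ : Eis → ℂ), HC q χ → ∀ τ Q : ℝ, 1 ≤ Q →
      ‖∑ b ∈ primBall ⌊β * Q⌋₊, (muE b : ℂ) * tw χ l b * ((nm b : ℂ) ^ (-(τ * Complex.I : ℂ)) *
        V (nm b / Q))‖ ≤ C * ((nm q : ℝ) * (1 + |τ|)) ^ ε * Q ^ (θ + ε) := by
  rcases lt_or_eq_of_le hθ1 with hlt | heq
  · obtain ⟨C, hC0, hC⟩ := moebius_bound_global l hθ hlt hε hε1 h1 h2 h3 hβ
    exact ⟨C, hC0, fun q χ h τ Q hQ => hC q χ h (hPF l hl q χ h) τ Q hQ⟩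
  · subst heq
    obtain ⟨B, hB⟩ := exists_bd h1 h2
    have hB0 : 0 ≤ B := (norm_nonneg _).trans (hB 0)
    refine ⟨18 * β * B, by positivity, fun q χ h τ Q hQ => ?_⟩
    refine (trivial_MS (fun b hb => norm_muE_mul_le (h.isChar_tw l) hb) hB hβ0 τ hQ).trans ?_
    have hq : (1 : ℝ) ≤ (nm q : ℝ) := by exact_mod_cast nm_pos.mpr h.q0
    have hτ := abs_nonneg τ
    have h4 : 1 ≤ ((nm q : ℝ) * (1 + |τ|)) ^ ε := Real.one_le_rpow (by nlinarith) hε.le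
    have h5 : Q ≤ Q ^ (1 + ε) := by
      calc Q = Q ^ (1 : ℝ) := (Real.rpow_one Q).symm
        _ ≤ Q ^ (1 + ε) := Real.rpow_le_rpow_of_exponent_le hQ (by linarith)
    calc 18 * β * B * Q ≤ 18 * β * B * Q ^ (1 + ε) := by gcongr
      _ ≤ 18 * β * B * ((nm q : ℝ) * (1 + |τ|)) ^ ε * Q ^ (1 + ε) := by
          exact mul_le_mul_of_nonneg_right
            (le_mul_of_one_le_right (show 0 ≤ 18 * β * B by positivity) h4) (by positivity)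

/-- **uniform bound for smooth character sums in the family**, all `1/2 < θ ≤ 1` -/
theorem pf_smooth {S : Set ℤ} {θ ε : ℝ} (hθ : 1 / 2 < θ) (hθ1 : θ ≤ 1) (hPF : PF S θ)
    (hε : 0 < ε) (hε1 : ε ≤ 1) {l : ℤ} (hl : l ∈ S) {V : ℝ → ℂ} (h1 : ContDiff ℝ ∞ V)
    (h2 : HasCompactSupport V) (h3 : tsupport V ⊆ Set.Ioi 0) {β : ℝ} (hβ0 : 0 ≤ β)
    (hβ : ∀ y, β < y → V y = 0) :
    ∃ C : ℝ, 0 ≤ C ∧ ∀ (q : Eis) (χ : Eis → ℂ), HC q χ → NP q χ l → ∀ τ Q : ℝ, 1 ≤ Q →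
      ‖∑ b ∈ primBall ⌊β * Q⌋₊, tw χ l b * ((nm b : ℂ) ^ (-(τ * Complex.I : ℂ)) *
        V (nm b / Q))‖ ≤ C * ((nm q : ℝ) * (1 + |τ|)) ^ ε * Q ^ (θ + ε) := by
  rcases lt_or_eq_of_le hθ1 with hlt | heq
  · obtain ⟨C, hC0, hC⟩ := smooth_bound_global l hθ hlt hε hε1 h1 h2 h3 hβ
    exact ⟨C, hC0, fun q χ h hnp τ Q hQ => hC q χ h hnp (hPF l hl q χ h) τ Q hQ⟩
  · subst heq
    obtain ⟨B, hB⟩ := exists_bd h1 h2
    have hB0 : 0 ≤ B := (norm_nonneg _).trans (hB 0)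
    refine ⟨18 * β * B, by positivity, fun q χ h _ τ Q hQ => ?_⟩
    refine (trivial_MS (fun b hb => (h.isChar_tw l).norm_le hb) hB hβ0 τ hQ).trans ?_
    have hq : (1 : ℝ) ≤ (nm q : ℝ) := by exact_mod_cast nm_pos.mpr h.q0
    have hτ := abs_nonneg τ
    have h4 : 1 ≤ ((nm q : ℝ) * (1 + |τ|)) ^ ε := Real.one_le_rpow (by nlinarith) hε.le
    have h5 : Q ≤ Q ^ (1 + ε) := by
      calc Q = Q ^ (1 : ℝ) := (Real.rpow_one Q).symm
        _ ≤ Q ^ (1 + ε) := Real.rpow_le_rpow_of_exponent_le hQ (by linarith)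
    calc 18 * β * B * Q ≤ 18 * β * B * Q ^ (1 + ε) := by gcongr
      _ ≤ 18 * β * B * ((nm q : ℝ) * (1 + |τ|)) ^ ε * Q ^ (1 + ε) := by
          exact mul_le_mul_of_nonneg_right
            (le_mul_of_one_le_right (show 0 ≤ 18 * β * B by positivity) h4) (by positivity)

end Crest.Agent.R017.End699
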