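import Crest.Agent.R017.EndD_699

/-!
# Row 17, end block (L): zero-freeness from bounds for smoothed sums, general version

Weights are rapidly decreasing at infinity and bounded near `0`; the Dirichlet series of the
coefficients is `E / L`.
-/

set_option autoImplicit false

noncomputable section

open Set MeasureTheory Filter Topology Asymptotics

namespace Crest.Agent.R017.End699

/-- rapidly decreasing weights on `(0, ∞)`, bounded near `0` -/
structure RW (W : ℝ → ℂ) : Prop where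
  meas : Measurable W
  dec : ∀ N : ℕ, ∃ B : ℝ, ∀ y : ℝ, 0 < y → ‖W y‖ ≤ B * y ^ (-(N : ℝ))

lemma Wt.rw {W : ℝ → ℂ} {B β : ℝ} (h : Wt W B β) : RW W where
  meas := h.meas
  dec N := by
    refine ⟨B * β ^ (N : ℝ), fun y hy => ?_⟩
    have hB := h.nonneg
    have hβ := h.pos
    by_cases hyβ : β < y
    · rw [h.supp y hyβ, norm_zero]
      positivity
    · push Not at hyβ
      calc ‖W y‖ ≤ B := h.bdd y
        _ = B * (y ^ (N : ℝ) * y ^ (-(N : ℝ))) := by
            rw [← Real.rpow_add hy]; simp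
        _ ≤ B * (β ^ (N : ℝ) * y ^ (-(N : ℝ))) := by
            gcongr
        _ = _ := by ring

namespace RW

variable {W : ℝ → ℂ} (h : RW W)

include h

lemma bdd : ∃ B : ℝ, 0 ≤ B ∧ ∀ y : ℝ, 0 < y → ‖W y‖ ≤ B := by
  obtain ⟨B, hB⟩ := h.dec 0
  have hB' : ∀ y : ℝ, 0 < y → ‖W y‖ ≤ B := by
    intro y hy
    have := hB y hy
    simpa using this
  exact ⟨B, (norm_nonneg _).trans (hB' 1 one_pos), hB'⟩

lemma locInt : LocallyIntegrableOn W (Ioi 0) := by
  rw [locallyIntegrableOn_iff isLocallyClosed_Ioi]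
  intro K hK hKc
  obtain ⟨B, hB0, hB⟩ := h.bdd
  refine Measure.integrableOn_of_bounded (M := B) hKc.measure_lt_top.ne
    h.meas.aestronglyMeasurable ?_
  filter_upwards [ae_restrict_mem hKc.measurableSet] with y hy
  exact hB y (hK hy)

lemma isBigO_top (N : ℕ) : W =O[atTop] (fun x : ℝ => x ^ (-(N : ℝ))) := by
  obtain ⟨B, hB⟩ := h.dec N
  apply IsBigO.of_bound B
  filter_upwards [eventually_gt_atTop 0] with y hy
  rw [Real.norm_of_nonneg (by positivity)]
  exact hB y hy

lemma isBigO_zero' : W =O[𝓝[>] 0] (fun x : ℝ => x ^ (-(0 : ℝ))) := by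
  obtain ⟨B, hB0, hB⟩ := h.bdd
  apply IsBigO.of_bound B
  filter_upwards [self_mem_nhdsWithin] with y hy
  simp only [neg_zero, Real.rpow_zero, norm_one, mul_one]
  exact hB y hy

lemma convergent {s : ℂ} (hs : 0 < s.re) : MellinConvergent W s := by
  obtain ⟨N, hN⟩ := exists_nat_gt s.re
  exact mellinConvergent_of_isBigO_rpow (a := (N : ℝ)) h.locInt (h.isBigO_top N) hN
    h.isBigO_zero' hs

lemma differentiableAt {s : ℂ} (hs : 0 < s.re) : DifferentiableAt ℂ (mellin W) s := by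
  obtain ⟨N, hN⟩ := exists_nat_gt s.re
  exact mellin_differentiableAt_of_isBigO_rpow (a := (N : ℝ)) h.locInt (h.isBigO_top N) hN
    h.isBigO_zero' hs

lemma abs : RW (fun y => ((‖W y‖ : ℝ) : ℂ)) where
  meas := Complex.measurable_ofReal.comp h.meas.norm
  dec N := by
    obtain ⟨B, hB⟩ := h.dec N
    refine ⟨B, fun y hy => ?_⟩
    rw [Complex.norm_real, norm_norm]; exact hB y hy

lemma meas_term (n : ℕ) : Measurable (fun X : ℝ => W (n / X)) :=
  h.meas.comp (measurable_const.div measurable_id)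

/-- the Mellin transform of a term, with convergence -/
lemma mellin_term {s : ℂ} (hs : 0 < s.re) {n : ℕ} (hn : n ≠ 0) :
    MellinConvergent (fun X : ℝ => W (n / X)) (-s) ∧
      mellin (fun X : ℝ => W (n / X)) (-s) = (n : ℂ) ^ (-s) * mellin W s := by
  have hn0 : (0 : ℝ) < n := by positivity
  have e : (fun X : ℝ => W (n / X)) = fun X : ℝ => (fun t : ℝ => W ((n : ℝ) * t)) X⁻¹ := by
    funext X; rw [div_eq_mul_inv]
  constructor
  · have h1 : MellinConvergent (fun t : ℝ => W ((n : ℝ) * t)) s :=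
      (MellinConvergent.comp_mul_left hn0).mpr (h.convergent hs)
    have h2 := (MellinConvergent.comp_rpow (f := fun t : ℝ => W ((n : ℝ) * t)) (s := -s)
      (a := -1) (by norm_num)).mpr (by
        have : (-s) / ((-1 : ℝ) : ℂ) = s := by push_cast; ring
        rw [this]; exact h1)
    rw [e]
    simpa only [Real.rpow_neg_one] using h2
  · have h3 := mellin_comp_inv (fun t : ℝ => W ((n : ℝ) * t)) (-s)
    rw [neg_neg, mellin_comp_mul_left _ _ hn0, smul_eq_mul] at h3
    rw [e, h3]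
    simp

end RW

section main

variable {a : ℕ → ℂ} {W : ℝ → ℂ}

/-- the integral of the absolute value of a term -/
lemma integral_norm_term' (h : RW W) {s : ℂ} (hs : 0 < s.re) {n : ℕ} (hn : n ≠ 0) :
    ∫ X in Ioi (0 : ℝ), ‖(X : ℂ) ^ (-s - 1) • (a n * W (n / X))‖ =
      ‖a n‖ * (n : ℝ) ^ (-s.re) * ∫ y in Ioi (0 : ℝ), y ^ (s.re - 1) * ‖W y‖ := by
  have h1 : ∫ X in Ioi (0 : ℝ), ‖(X : ℂ) ^ (-s - 1) • (a n * W (n / X))‖ =
      ∫ X in Ioi (0 : ℝ), ‖a n‖ * (X ^ (-s.re - 1) * ‖W (n / X)‖) :=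
    setIntegral_congr_fun measurableSet_Ioi fun X hX => norm_integrand s n hX
  rw [h1, integral_const_mul, mul_assoc]
  congr 1
  have h2 := (h.abs.mellin_term (s := (s.re : ℂ)) (by simpa using hs) hn).2
  have key : ∀ (g : ℝ → ℝ) (r : ℝ), mellin (fun y => ((g y : ℝ) : ℂ)) (r : ℂ) =
      ((∫ y in Ioi (0 : ℝ), y ^ (r - 1) * g y : ℝ) : ℂ) := by
    intro g r
    unfold mellin
    rw [← integral_complex_ofReal]
    apply setIntegral_congr_fun measurableSet_Ioi
    intro y hy
    have hy0 : (0 : ℝ) < y := hy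
    simp only [smul_eq_mul]
    push_cast
    rw [Complex.ofReal_cpow hy0.le]
    push_cast
    rfl
  have e1 : -(s.re : ℂ) = ((-s.re : ℝ) : ℂ) := by push_cast; rfl
  have e2 : (n : ℂ) ^ (-(s.re : ℂ)) = (((n : ℝ) ^ (-s.re) : ℝ) : ℂ) := by
    rw [Complex.ofReal_cpow (by positivity)]
    push_cast; rfl
  rw [e2, e1, key (fun X => ‖W (n / X)‖), key (fun y => ‖W y‖)] at h2
  exact_mod_cast h2

/-- **Mellin transform of smoothed sums**, rapidly decreasing weights -/
theorem mellin_Msum' (h : RW W) (ha0 : a 0 = 0) {s : ℂ} (hs : 0 < s.re)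
    (ha : LSeriesSummable a s) : mellin (Msum a W) (-s) = LSeries a s * mellin W s := by
  set F : ℕ → ℝ → ℂ := fun n X => (X : ℂ) ^ (-s - 1) • (a n * W (n / X)) with hF
  have hint : ∀ n, Integrable (F n) (volume.restrict (Ioi 0)) := by
    intro n
    rcases eq_or_ne n 0 with rfl | hn
    · simp only [hF, ha0, zero_mul, smul_zero]
      exact integrable_zero _ _ _
    · have h1 := (h.mellin_term hs hn).1.const_smul (a n)
      simpa only [hF, MellinConvergent, IntegrableOn, smul_eq_mul] using h1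
  have hval : ∀ n, ∫ X in Ioi (0 : ℝ), F n X = LSeries.term a s n * mellin W s := by
    intro n
    rcases eq_or_ne n 0 with rfl | hn
    · simp [hF, ha0]
    · have h1 := (h.mellin_term hs hn).2
      have h2 := mellin_const_smul (fun X : ℝ => W (n / X)) (-s) (a n)
      rw [LSeries.term_of_ne_zero hn, div_eq_mul_inv, ← Complex.cpow_neg, mul_assoc, ← h1,
        ← smul_eq_mul (a n), ← h2]
      rfl
  have hsum : Summable fun n => ∫ X in Ioi (0 : ℝ), ‖F n X‖ := by
    have h1 : Summable fun n => ‖LSeries.term a s n‖ * ∫ y in Ioi (0 : ℝ), y ^ (s.re - 1) * ‖W y‖ :=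
      ha.norm.mul_right _
    refine h1.congr fun n => ?_
    rcases eq_or_ne n 0 with rfl | hn
    · simp [hF, ha0]
    · rw [hF]
      simp only
      rw [integral_norm_term' h hs hn, LSeries.term_of_ne_zero hn, norm_div,
        Complex.norm_natCast_cpow_of_pos (Nat.pos_of_ne_zero hn), Real.rpow_neg (by positivity)]
      rw [div_eq_mul_inv]
  have h3 := hasSum_integral_of_summable_integral_norm hint hsum
  have h4 : ∀ X ∈ Ioi (0 : ℝ), ∑' n, F n X = (X : ℂ) ^ (-s - 1) • Msum a W X := by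
    intro X _
    simp only [hF, Msum, smul_eq_mul]
    rw [tsum_mul_left]
  rw [setIntegral_congr_fun measurableSet_Ioi h4] at h3
  have h5 : HasSum (fun n => LSeries.term a s n * mellin W s) (LSeries a s * mellin W s) :=
    ha.LSeriesHasSum.mul_right _
  simp_rw [hval] at h3
  exact h3.unique h5

/-- a term bound -/
lemma term_le {N : ℕ} {B : ℝ} (hB : ∀ y : ℝ, 0 < y → ‖W y‖ ≤ B * y ^ (-(N : ℝ)))
    (ha0 : a 0 = 0) {X : ℝ} (hX : 0 < X) (n : ℕ) :
    ‖a n * W (n / X)‖ ≤ B * X ^ N * ‖LSeries.term a (N : ℂ) n‖ := by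
  rcases eq_or_ne n 0 with rfl | hn
  · simp [ha0]
  · have hn0 : (0 : ℝ) < n := by positivity
    have h1 := hB (n / X) (by positivity)
    rw [norm_mul, LSeries.term_of_ne_zero hn, norm_div,
      Complex.norm_natCast_cpow_of_pos (Nat.pos_of_ne_zero hn), Complex.natCast_re,
      Real.rpow_natCast]
    rw [Real.rpow_neg (by positivity), Real.rpow_natCast, div_pow, inv_div] at h1
    calc ‖a n‖ * ‖W (n / X)‖ ≤ ‖a n‖ * (B * (X ^ N / (n : ℝ) ^ N)) := by gcongr
      _ = _ := by ring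

/-- polynomial bound -/
lemma Msum_le (h : RW W) (ha0 : a 0 = 0) {N : ℕ} (ha : LSeriesSummable a (N : ℂ)) :
    ∃ C : ℝ, ∀ X : ℝ, 0 < X → Summable (fun n : ℕ => a n * W (n / X)) ∧
      ‖Msum a W X‖ ≤ C * X ^ N := by
  obtain ⟨B, hB⟩ := h.dec N
  refine ⟨B * ∑' n : ℕ, ‖LSeries.term a (N : ℂ) n‖, fun X hX => ?_⟩
  have hs : Summable fun n : ℕ => B * X ^ N * ‖LSeries.term a (N : ℂ) n‖ := ha.norm.mul_left _
  have hle := fun n => term_le hB ha0 hX n
  have hs1 : Summable (fun n : ℕ => ‖a n * W (n / X)‖) :=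
    Summable.of_nonneg_of_le (fun _ => norm_nonneg _) hle hs
  refine ⟨hs1.of_norm, ?_⟩
  unfold Msum
  refine (norm_tsum_le_tsum_norm hs1).trans ((Summable.tsum_le_tsum hle hs1 hs).trans ?_)
  rw [tsum_mul_left]
  apply le_of_eq; ring

lemma Msum_aesm (h : RW W) (ha0 : a 0 = 0) {N : ℕ} (ha : LSeriesSummable a (N : ℂ)) :
    AEStronglyMeasurable (Msum a W) (volume.restrict (Ioi 0)) := by
  obtain ⟨C, hC⟩ := Msum_le h ha0 ha
  refine aestronglyMeasurable_of_tendsto_ae atTop
    (f := fun k X => ∑ n ∈ Finset.range k, a n * W (n / X)) ?_ ?_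
  · intro k
    apply Measurable.aestronglyMeasurable
    exact Finset.measurable_fun_sum _ fun n _ => (h.meas_term n).const_mul _
  · filter_upwards [ae_restrict_mem measurableSet_Ioi] with X hX
    exact (hC X hX).1.hasSum.tendsto_sum_nat

lemma Msum_locInt' (h : RW W) (ha0 : a 0 = 0) {N : ℕ} (ha : LSeriesSummable a (N : ℂ)) :
    LocallyIntegrableOn (Msum a W) (Ioi 0) := by
  rw [locallyIntegrableOn_iff isLocallyClosed_Ioi]
  intro K hK hKc
  obtain ⟨C, hC⟩ := Msum_le h ha0 ha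
  obtain ⟨b, hb⟩ := hKc.isBounded.bddAbove
  have hfin : IsFiniteMeasure (volume.restrict K) := ⟨by
    rw [Measure.restrict_apply_univ]; exact hKc.measure_lt_top⟩
  refine ⟨(Msum_aesm h ha0 ha).mono_measure (Measure.restrict_mono hK le_rfl),
    HasFiniteIntegral.of_bounded (C := |C| * |b| ^ N) ?_⟩
  filter_upwards [ae_restrict_mem hKc.measurableSet] with X hX
  have hX0 : 0 < X := hK hX
  have hXb : X ≤ |b| := (hb hX).trans (le_abs_self _)
  calc ‖Msum a W X‖ ≤ C * X ^ N := (hC X hX0).2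
    _ ≤ |C| * X ^ N := by gcongr; exact le_abs_self _
    _ ≤ |C| * |b| ^ N := by gcongr

lemma Msum_isBigO_zero' (h : RW W) (ha0 : a 0 = 0) {N : ℕ} (ha : LSeriesSummable a (N : ℂ)) :
    Msum a W =O[𝓝[>] 0] (fun x : ℝ => x ^ (-(-(N : ℝ)))) := by
  obtain ⟨C, hC⟩ := Msum_le h ha0 ha
  apply IsBigO.of_bound C
  filter_upwards [self_mem_nhdsWithin] with X hX
  have hX0 : (0 : ℝ) < X := hX
  rw [neg_neg, Real.rpow_natCast, Real.norm_of_nonneg (by positivity)]
  exact (hC X hX0).2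

/-- analyticity -/
theorem differentiableAt_mellin_Msum' (h : RW W) (ha0 : a 0 = 0) {σ : ℝ}
    (ha : ∀ s : ℂ, σ < s.re → LSeriesSummable a s) {θ C : ℝ}
    (hM : ∀ X : ℝ, 1 ≤ X → ‖Msum a W X‖ ≤ C * X ^ θ) {s : ℂ} (hs : θ < s.re) :
    DifferentiableAt ℂ (fun z => mellin (Msum a W) (-z)) s := by
  obtain ⟨N, hN⟩ := exists_nat_gt (max σ s.re)
  have hN1 : σ < N := (le_max_left _ _).trans_lt hN
  have hN2 : s.re < N := (le_max_right _ _).trans_lt hN
  have haN : LSeriesSummable a (N : ℂ) := ha _ (by simpa using hN1)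
  have h1 : DifferentiableAt ℂ (mellin (Msum a W)) (-s) := by
    refine mellin_differentiableAt_of_isBigO_rpow (a := -θ) (b := -(N : ℝ))
      (Msum_locInt' h ha0 haN) ?_ (by simpa using hs) (Msum_isBigO_zero' h ha0 haN)
      (by simpa using hN2)
    apply IsBigO.of_bound C
    filter_upwards [eventually_ge_atTop 1] with X hX
    rw [neg_neg, Real.norm_of_nonneg (by positivity)]
    exact hM X hX
  exact h1.comp s differentiableAt_id.neg

/-- **the general identity** -/
theorem L_mul_mellin' (h : RW W) (ha0 : a 0 = 0) {L E : ℂ → ℂ} {θ C σ : ℝ} (hθ : 0 ≤ θ)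
    {U : Set ℂ} (hU : IsOpen U) (hUc : IsPreconnected U) (hUθ : ∀ s ∈ U, θ < s.re)
    {s₁ : ℂ} (hs₁ : s₁ ∈ U) (hs₁σ : σ < s₁.re) (hL : DifferentiableOn ℂ L U)
    (hE : DifferentiableOn ℂ E U)
    (ha : ∀ s : ℂ, σ < s.re → LSeriesSummable a s)
    (hinv : ∀ s ∈ U, σ < s.re → LSeries a s * L s = E s)
    (hM : ∀ X : ℝ, 1 ≤ X → ‖Msum a W X‖ ≤ C * X ^ θ) :
    ∀ s ∈ U, L s * mellin (Msum a W) (-s) = E s * mellin W s := by
  have h3 : AnalyticOnNhd ℂ (fun s => L s * mellin (Msum a W) (-s)) U := by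
    apply DifferentiableOn.analyticOnNhd _ hU
    intro s hs
    have h4 := (hL s hs).differentiableAt (hU.mem_nhds hs)
    exact (h4.mul (differentiableAt_mellin_Msum' h ha0 ha hM (hUθ s hs))).differentiableWithinAt
  have h5 : AnalyticOnNhd ℂ (fun s => E s * mellin W s) U := by
    apply DifferentiableOn.analyticOnNhd _ hU
    intro s hs
    have h4 := (hE s hs).differentiableAt (hU.mem_nhds hs)
    exact (h4.mul (h.differentiableAt (by linarith [hUθ s hs]))).differentiableWithinAt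
  have hev : (fun s => L s * mellin (Msum a W) (-s)) =ᶠ[𝓝 s₁] fun s => E s * mellin W s := by
    have h6 : {z : ℂ | σ < z.re} ∈ 𝓝 s₁ :=
      (isOpen_lt continuous_const Complex.continuous_re).mem_nhds hs₁σ
    filter_upwards [h6, hU.mem_nhds hs₁] with z hz hzU
    have hz1 : σ < z.re := hz
    rw [mellin_Msum' h ha0 (by linarith [hUθ z hzU]) (ha z hz1)]
    have := hinv z hzU hz1
    linear_combination (mellin W z) * this
  exact h3.eqOn_of_preconnected_of_eventuallyEq h5 hUc hs₁ hev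

end main

end Crest.Agent.R017.End699
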