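import Crest.Agent.R017.EndM_699

/-!
# Row 17, end block (N): zero-freeness from bounds for smoothed sums over countable families
-/

set_option autoImplicit false

noncomputable section

open Set MeasureTheory Filter Topology Asymptotics

namespace Crest.Agent.R017.End699

variable {κ : Type*} {c : κ → ℂ} {ν : κ → ℝ} {W : ℝ → ℂ}

/-- the smoothed sum of a generalised Dirichlet series `∑ c_k ν_k^{-s}` -/
def Fsum (c : κ → ℂ) (ν : κ → ℝ) (W : ℝ → ℂ) (X : ℝ) : ℂ := ∑' k, c k * W (ν k / X)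

/-- the generalised Dirichlet series -/
def FL (c : κ → ℂ) (ν : κ → ℝ) (s : ℂ) : ℂ := ∑' k, c k * (ν k : ℂ) ^ (-s)

/-- absolute convergence at `σ` -/
def FC (c : κ → ℂ) (ν : κ → ℝ) (σ : ℝ) : Prop := Summable fun k => ‖c k‖ * ν k ^ (-σ)

/-- the Mellin transform of a term, with convergence -/
lemma RW.mellin_term' (h : RW W) {s : ℂ} (hs : 0 < s.re) {n : ℝ} (hn : 0 < n) :
    MellinConvergent (fun X : ℝ => W (n / X)) (-s) ∧
      mellin (fun X : ℝ => W (n / X)) (-s) = (n : ℂ) ^ (-s) * mellin W s := by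
  have e : (fun X : ℝ => W (n / X)) = fun X : ℝ => (fun t : ℝ => W (n * t)) X⁻¹ := by
    funext X; rw [div_eq_mul_inv]
  constructor
  · have h1 : MellinConvergent (fun t : ℝ => W (n * t)) s :=
      (MellinConvergent.comp_mul_left hn).mpr (h.convergent hs)
    have h2 := (MellinConvergent.comp_rpow (f := fun t : ℝ => W (n * t)) (s := -s)
      (a := -1) (by norm_num)).mpr (by
        have : (-s) / ((-1 : ℝ) : ℂ) = s := by push_cast; ring
        rw [this]; exact h1)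
    rw [e]
    simpa only [Real.rpow_neg_one] using h2
  · have h3 := mellin_comp_inv (fun t : ℝ => W (n * t)) (-s)
    rw [neg_neg, mellin_comp_mul_left _ _ hn, smul_eq_mul] at h3
    rw [e, h3]

/-- the integrand -/
lemma norm_integrandF (s : ℂ) (x : ℂ) (n : ℝ) {X : ℝ} (hX : X ∈ Ioi (0 : ℝ)) :
    ‖(X : ℂ) ^ (-s - 1) • (x * W (n / X))‖ = ‖x‖ * (X ^ (-s.re - 1) * ‖W (n / X)‖) := by
  rw [norm_smul, norm_mul, Complex.norm_cpow_eq_rpow_re_of_pos hX]
  simp only [Complex.sub_re, Complex.neg_re, Complex.one_re]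
  ring

/-- the integral of the absolute value of a term -/
lemma integral_norm_termF (h : RW W) {s : ℂ} (hs : 0 < s.re) (x : ℂ) {n : ℝ} (hn : 0 < n) :
    ∫ X in Ioi (0 : ℝ), ‖(X : ℂ) ^ (-s - 1) • (x * W (n / X))‖ =
      ‖x‖ * n ^ (-s.re) * ∫ y in Ioi (0 : ℝ), y ^ (s.re - 1) * ‖W y‖ := by
  have h1 : ∫ X in Ioi (0 : ℝ), ‖(X : ℂ) ^ (-s - 1) • (x * W (n / X))‖ =
      ∫ X in Ioi (0 : ℝ), ‖x‖ * (X ^ (-s.re - 1) * ‖W (n / X)‖) :=
    setIntegral_congr_fun measurableSet_Ioi fun X hX => norm_integrandF s x n hX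
  rw [h1, integral_const_mul, mul_assoc]
  congr 1
  have h2 := (h.abs.mellin_term' (s := (s.re : ℂ)) (by simpa using hs) hn).2
  have key : ∀ (g : ℝ → ℝ) (r : ℝ), mellin (fun y => ((g y : ℝ) : ℂ)) (r : ℂ) =
      ((∫ y in Ioi (0 : ℝ), y ^ (r - 1) * g y : ℝ) : ℂ) := by
    intro g r
    unfold mellin
    rw [← integral_complex_ofReal]
    apply setIntegral_congr_fun measurableSet_Ioi
    intro y hy
    have hy0 : (0 : ℝ) < y := hy
    simp only [smul_eq_mul]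
    push_cast
    rw [Complex.ofReal_cpow hy0.le]
    push_cast
    rfl
  have e1 : -(s.re : ℂ) = ((-s.re : ℝ) : ℂ) := by push_cast; rfl
  have e2 : (n : ℂ) ^ (-(s.re : ℂ)) = ((n ^ (-s.re) : ℝ) : ℂ) := by
    rw [Complex.ofReal_cpow hn.le]
    push_cast; rfl
  rw [e2, e1, key (fun X => ‖W (n / X)‖), key (fun y => ‖W y‖)] at h2
  exact_mod_cast h2

lemma norm_cpow_neg {x : ℝ} (hx : 0 < x) (s : ℂ) : ‖(x : ℂ) ^ (-s)‖ = x ^ (-s.re) := by
  rw [Complex.norm_cpow_eq_rpow_re_of_pos hx, Complex.neg_re]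

/-- **Mellin transform of smoothed sums over families** -/
theorem mellin_Fsum [Countable κ] (h : RW W) (hν : ∀ k, 0 < ν k) {s : ℂ} (hs : 0 < s.re)
    (ha : FC c ν s.re) : mellin (Fsum c ν W) (-s) = FL c ν s * mellin W s := by
  set F : κ → ℝ → ℂ := fun k X => (X : ℂ) ^ (-s - 1) • (c k * W (ν k / X)) with hF
  have hint : ∀ k, Integrable (F k) (volume.restrict (Ioi 0)) := by
    intro k
    have h1 := (h.mellin_term' hs (hν k)).1.const_smul (c k)
    simpa only [hF, MellinConvergent, IntegrableOn, smul_eq_mul] using h1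
  have hval : ∀ k, ∫ X in Ioi (0 : ℝ), F k X = c k * (ν k : ℂ) ^ (-s) * mellin W s := by
    intro k
    have h1 := (h.mellin_term' hs (hν k)).2
    have h2 := mellin_const_smul (fun X : ℝ => W (ν k / X)) (-s) (c k)
    rw [mul_assoc, ← h1, ← smul_eq_mul (c k), ← h2]
    rfl
  have hsum : Summable fun k => ∫ X in Ioi (0 : ℝ), ‖F k X‖ := by
    have h1 : Summable fun k => ‖c k‖ * ν k ^ (-s.re) *
        ∫ y in Ioi (0 : ℝ), y ^ (s.re - 1) * ‖W y‖ := ha.mul_right _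
    refine h1.congr fun k => ?_
    rw [hF]
    simp only
    rw [integral_norm_termF h hs _ (hν k)]
  have h3 := hasSum_integral_of_summable_integral_norm hint hsum
  have h4 : ∀ X ∈ Ioi (0 : ℝ), ∑' k, F k X = (X : ℂ) ^ (-s - 1) • Fsum c ν W X := by
    intro X _
    simp only [hF, Fsum, smul_eq_mul]
    rw [tsum_mul_left]
  rw [setIntegral_congr_fun measurableSet_Ioi h4] at h3
  have h5 : Summable fun k => c k * (ν k : ℂ) ^ (-s) := by
    apply Summable.of_norm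
    refine ha.congr fun k => ?_
    rw [norm_mul, norm_cpow_neg (hν k)]
  have h6 : HasSum (fun k => c k * (ν k : ℂ) ^ (-s) * mellin W s) (FL c ν s * mellin W s) :=
    h5.hasSum.mul_right _
  simp_rw [hval] at h3
  exact h3.unique h6

lemma FC.mono {σ σ' ν₀ : ℝ} (h : FC c ν σ) (hν₀ : 0 < ν₀) (hν : ∀ k, ν₀ ≤ ν k) (hσ : σ ≤ σ') :
    FC c ν σ' := by
  refine Summable.of_nonneg_of_le (fun k => ?_) (fun k => ?_) (h.mul_left (ν₀ ^ (-(σ' - σ))))
  · have := hν₀.trans_le (hν k); positivity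
  · have hk := hν₀.trans_le (hν k)
    have h1 : ν k ^ (-σ') = ν k ^ (-(σ' - σ)) * ν k ^ (-σ) := by
      rw [← Real.rpow_add hk]; ring_nf
    have h2 : ν k ^ (-(σ' - σ)) ≤ ν₀ ^ (-(σ' - σ)) :=
      Real.rpow_le_rpow_of_nonpos hν₀ (hν k) (by linarith)
    rw [h1]
    calc ‖c k‖ * (ν k ^ (-(σ' - σ)) * ν k ^ (-σ)) ≤ ‖c k‖ * (ν₀ ^ (-(σ' - σ)) * ν k ^ (-σ)) := by
          gcongr
      _ = _ := by ring

/-- a term bound -/
lemma termF_le {N : ℕ} {B : ℝ} (hB : ∀ y : ℝ, 0 < y → ‖W y‖ ≤ B * y ^ (-(N : ℝ)))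
    (hν : ∀ k, 0 < ν k) {X : ℝ} (hX : 0 < X) (k : κ) :
    ‖c k * W (ν k / X)‖ ≤ B * X ^ N * (‖c k‖ * ν k ^ (-(N : ℝ))) := by
  have hk := hν k
  have h1 := hB (ν k / X) (by positivity)
  rw [Real.div_rpow hk.le hX.le, Real.rpow_neg hX.le, Real.rpow_natCast, div_inv_eq_mul] at h1
  rw [norm_mul]
  calc ‖c k‖ * ‖W (ν k / X)‖ ≤ ‖c k‖ * (B * (ν k ^ (-(N : ℝ)) * X ^ N)) := by gcongr
    _ = _ := by ring

/-- polynomial bound -/
lemma Fsum_le (h : RW W) (hν : ∀ k, 0 < ν k) {N : ℕ} (ha : FC c ν N) :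
    ∃ C : ℝ, ∀ X : ℝ, 0 < X → Summable (fun k => c k * W (ν k / X)) ∧
      ‖Fsum c ν W X‖ ≤ C * X ^ N := by
  obtain ⟨B, hB⟩ := h.dec N
  refine ⟨B * ∑' k, ‖c k‖ * ν k ^ (-(N : ℝ)), fun X hX => ?_⟩
  have hs : Summable fun k => B * X ^ N * (‖c k‖ * ν k ^ (-(N : ℝ))) := ha.mul_left _
  have hle := fun k => termF_le (c := c) hB hν hX k
  have hs1 : Summable (fun k => ‖c k * W (ν k / X)‖) :=
    Summable.of_nonneg_of_le (fun _ => norm_nonneg _) hle hs
  refine ⟨hs1.of_norm, ?_⟩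
  unfold Fsum
  refine (norm_tsum_le_tsum_norm hs1).trans ((Summable.tsum_le_tsum hle hs1 hs).trans ?_)
  rw [tsum_mul_left]
  apply le_of_eq; ring

lemma Fsum_aesm [Countable κ] (h : RW W) (hν : ∀ k, 0 < ν k) {N : ℕ} (ha : FC c ν N) :
    AEStronglyMeasurable (Fsum c ν W) (volume.restrict (Ioi 0)) := by
  classical
  obtain ⟨C, hC⟩ := Fsum_le h hν ha
  refine aestronglyMeasurable_of_tendsto_ae (u := (atTop : Filter (Finset κ)))
    (f := fun S X => ∑ k ∈ S, c k * W (ν k / X)) ?_ ?_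
  · intro S
    apply Measurable.aestronglyMeasurable
    refine Finset.measurable_fun_sum _ fun k _ => ?_
    exact (h.meas.comp (measurable_const.div measurable_id)).const_mul _
  · filter_upwards [ae_restrict_mem measurableSet_Ioi] with X hX
    exact (hC X hX).1.hasSum

lemma Fsum_locInt [Countable κ] (h : RW W) (hν : ∀ k, 0 < ν k) {N : ℕ} (ha : FC c ν N) :
    LocallyIntegrableOn (Fsum c ν W) (Ioi 0) := by
  rw [locallyIntegrableOn_iff isLocallyClosed_Ioi]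
  intro K hK hKc
  obtain ⟨C, hC⟩ := Fsum_le h hν ha
  obtain ⟨b, hb⟩ := hKc.isBounded.bddAbove
  have hfin : IsFiniteMeasure (volume.restrict K) := ⟨by
    rw [Measure.restrict_apply_univ]; exact hKc.measure_lt_top⟩
  refine ⟨(Fsum_aesm h hν ha).mono_measure (Measure.restrict_mono hK le_rfl),
    HasFiniteIntegral.of_bounded (C := |C| * |b| ^ N) ?_⟩
  filter_upwards [ae_restrict_mem hKc.measurableSet] with X hX
  have hX0 : 0 < X := hK hX
  have hXb : X ≤ |b| := (hb hX).trans (le_abs_self _)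
  calc ‖Fsum c ν W X‖ ≤ C * X ^ N := (hC X hX0).2
    _ ≤ |C| * X ^ N := by gcongr; exact le_abs_self _
    _ ≤ |C| * |b| ^ N := by gcongr

lemma Fsum_isBigO_zero (h : RW W) (hν : ∀ k, 0 < ν k) {N : ℕ} (ha : FC c ν N) :
    Fsum c ν W =O[𝓝[>] 0] (fun x : ℝ => x ^ (-(-(N : ℝ)))) := by
  obtain ⟨C, hC⟩ := Fsum_le h hν ha
  apply IsBigO.of_bound C
  filter_upwards [self_mem_nhdsWithin] with X hX
  have hX0 : (0 : ℝ) < X := hX
  rw [neg_neg, Real.rpow_natCast, Real.norm_of_nonneg (by positivity)]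
  exact (hC X hX0).2

/-- analyticity -/
theorem differentiableAt_mellin_Fsum [Countable κ] (h : RW W) {ν₀ : ℝ} (hν₀ : 0 < ν₀)
    (hν : ∀ k, ν₀ ≤ ν k) {σ : ℝ} (ha : FC c ν σ) {θ C : ℝ}
    (hM : ∀ X : ℝ, 1 ≤ X → ‖Fsum c ν W X‖ ≤ C * X ^ θ) {s : ℂ} (hs : θ < s.re) :
    DifferentiableAt ℂ (fun z => mellin (Fsum c ν W) (-z)) s := by
  obtain ⟨N, hN⟩ := exists_nat_gt (max σ s.re)
  have hN1 : σ < N := (le_max_left _ _).trans_lt hN
  have hN2 : s.re < N := (le_max_right _ _).trans_lt hN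
  have haN : FC c ν (N : ℝ) := ha.mono hν₀ hν hN1.le
  have hν' : ∀ k, 0 < ν k := fun k => hν₀.trans_le (hν k)
  have h1 : DifferentiableAt ℂ (mellin (Fsum c ν W)) (-s) := by
    refine mellin_differentiableAt_of_isBigO_rpow (a := -θ) (b := -(N : ℝ))
      (Fsum_locInt h hν' haN) ?_ (by simpa using hs) (Fsum_isBigO_zero h hν' haN)
      (by simpa using hN2)
    apply IsBigO.of_bound C
    filter_upwards [eventually_ge_atTop 1] with X hX
    rw [neg_neg, Real.norm_of_nonneg (by positivity)]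
    exact hM X hX
  exact h1.comp s differentiableAt_id.neg

/-- **the general identity** for families -/
theorem L_mul_mellinF [Countable κ] (h : RW W) {ν₀ : ℝ} (hν₀ : 0 < ν₀) (hν : ∀ k, ν₀ ≤ ν k)
    {L E : ℂ → ℂ} {θ C σ : ℝ} (hθ : 0 ≤ θ)
    {U : Set ℂ} (hU : IsOpen U) (hUc : IsPreconnected U) (hUθ : ∀ s ∈ U, θ < s.re)
    {s₁ : ℂ} (hs₁ : s₁ ∈ U) (hs₁σ : σ < s₁.re) (hL : DifferentiableOn ℂ L U)
    (hE : DifferentiableOn ℂ E U) (ha : FC c ν σ)
    (hinv : ∀ s ∈ U, σ < s.re → FL c ν s * L s = E s)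
    (hM : ∀ X : ℝ, 1 ≤ X → ‖Fsum c ν W X‖ ≤ C * X ^ θ) :
    ∀ s ∈ U, L s * mellin (Fsum c ν W) (-s) = E s * mellin W s := by
  have h3 : AnalyticOnNhd ℂ (fun s => L s * mellin (Fsum c ν W) (-s)) U := by
    apply DifferentiableOn.analyticOnNhd _ hU
    intro s hs
    have h4 := (hL s hs).differentiableAt (hU.mem_nhds hs)
    exact (h4.mul
      (differentiableAt_mellin_Fsum h hν₀ hν ha hM (hUθ s hs))).differentiableWithinAt
  have h5 : AnalyticOnNhd ℂ (fun s => E s * mellin W s) U := by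
    apply DifferentiableOn.analyticOnNhd _ hU
    intro s hs
    have h4 := (hE s hs).differentiableAt (hU.mem_nhds hs)
    exact (h4.mul (h.differentiableAt (by linarith [hUθ s hs]))).differentiableWithinAt
  have hev : (fun s => L s * mellin (Fsum c ν W) (-s)) =ᶠ[𝓝 s₁] fun s => E s * mellin W s := by
    have h6 : {z : ℂ | σ < z.re} ∈ 𝓝 s₁ :=
      (isOpen_lt continuous_const Complex.continuous_re).mem_nhds hs₁σ
    filter_upwards [h6, hU.mem_nhds hs₁] with z hz hzU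
    have hz1 : σ < z.re := hz
    rw [mellin_Fsum h (fun k => hν₀.trans_le (hν k)) (by linarith [hUθ z hzU])
      (ha.mono hν₀ hν hz1.le)]
    have := hinv z hzU hz1
    linear_combination (mellin W z) * this
  exact h3.eqOn_of_preconnected_of_eventuallyEq h5 hUc hs₁ hev

/-- zero-freeness for families, one possible exceptional point -/
theorem ne_zero_F [Countable κ] (h : RW W) {ν₀ : ℝ} (hν₀ : 0 < ν₀) (hν : ∀ k, ν₀ ≤ ν k)
    {L E : ℂ → ℂ} {θ C σ : ℝ} (hθ : 0 ≤ θ) {p : ℂ}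
    (hL : ∀ s : ℂ, θ < s.re → s ≠ p → DifferentiableAt ℂ L s)
    (hE : ∀ s : ℂ, θ < s.re → s ≠ p → DifferentiableAt ℂ E s) (ha : FC c ν σ)
    (hinv : ∀ s : ℂ, σ < s.re → θ < s.re → s ≠ p → FL c ν s * L s = E s)
    (hM : ∀ X : ℝ, 1 ≤ X → ‖Fsum c ν W X‖ ≤ C * X ^ θ) {s₀ : ℂ} (hs₀ : θ < s₀.re)
    (h1 : s₀ ≠ p) (hE0 : E s₀ ≠ 0) (hW : mellin W s₀ ≠ 0) : L s₀ ≠ 0 := by
  set r : ℝ := max σ (max θ p.re) + 1 with hr
  have hr1 : σ < r := by rw [hr]; linarith [le_max_left σ (max θ p.re)]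
  have hr2 : θ < r := by
    rw [hr]; linarith [le_max_right σ (max θ p.re), le_max_left θ p.re]
  have hr3 : p.re < r := by
    rw [hr]; linarith [le_max_right σ (max θ p.re), le_max_right θ p.re]
  have hrp : (r : ℂ) ≠ p := by
    intro h2
    have := congrArg Complex.re h2
    rw [Complex.ofReal_re] at this
    linarith
  have h4 := L_mul_mellinF h hν₀ hν hθ (isOpen_half_sdiff θ p) (isPreconnected_half_sdiff θ p)
    (fun s hs => hs.1) (s₁ := (r : ℂ)) ⟨by rw [Complex.ofReal_re]; exact hr2, hrp⟩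
    (σ := σ) (by rw [Complex.ofReal_re]; exact hr1)
    (fun s hs => (hL s hs.1 hs.2).differentiableWithinAt)
    (fun s hs => (hE s hs.1 hs.2).differentiableWithinAt) ha
    (fun s hs hs1 => hinv s hs1 hs.1 hs.2) hM s₀ ⟨hs₀, h1⟩
  intro h0
  rw [h0, zero_mul] at h4
  exact mul_ne_zero hE0 hW h4.symm

/-- zero-freeness for families, no exceptional point -/
theorem ne_zero_F' [Countable κ] (h : RW W) {ν₀ : ℝ} (hν₀ : 0 < ν₀) (hν : ∀ k, ν₀ ≤ ν k)
    {L E : ℂ → ℂ} {θ C σ : ℝ} (hθ : 0 ≤ θ)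
    (hL : ∀ s : ℂ, θ < s.re → DifferentiableAt ℂ L s)
    (hE : ∀ s : ℂ, θ < s.re → DifferentiableAt ℂ E s) (ha : FC c ν σ)
    (hinv : ∀ s : ℂ, σ < s.re → θ < s.re → FL c ν s * L s = E s)
    (hM : ∀ X : ℝ, 1 ≤ X → ‖Fsum c ν W X‖ ≤ C * X ^ θ) {s₀ : ℂ} (hs₀ : θ < s₀.re)
    (hE0 : E s₀ ≠ 0) (hW : mellin W s₀ ≠ 0) : L s₀ ≠ 0 :=
  ne_zero_F h hν₀ hν hθ (p := ((θ - 1 : ℝ) : ℂ)) (fun s hs _ => hL s hs) (fun s hs _ => hE s hs) ha
    (fun s hs hs' _ => hinv s hs hs') hM hs₀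
    (by
      intro h2
      rw [h2, Complex.ofReal_re] at hs₀
      linarith) hE0 hW

end Crest.Agent.R017.End699
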