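import Crest.Agent.R017.EndN_699
import Crest.Agent.R017.EndE3_699
import Crest.Agent.R017.EndI_699
import Crest.Agent.R017.EndK_699

/-!
# Row 17, end block (O): Euler factors and change of modulus
-/

set_option autoImplicit false

noncomputable section

open Set Filter Topology

namespace Crest.Agent.R017.End699

open Crest.Agent.R012 Crest.Agent.R012.Eis Crest.Agent.R012.PSer47
open Crest.Agent.R012.Div277 (dvs mem_dvs)

/-- the finite Euler product `∏_{p ∣ D} (1 - ψ(p) N(p)^{-s})` -/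
def EF (ψ : Eis → ℂ) (D : Eis) (s : ℂ) : ℂ := ∏ p ∈ Mob705.pp D, (1 - ψ p * (nm p : ℂ) ^ (-s))

lemma EF_one (ψ : Eis → ℂ) (s : ℂ) : EF ψ 1 s = 1 := by
  unfold EF; rw [Mob705.pp_one]; simp

lemma norm_EF_term_lt {ψ : Eis → ℂ} (h : IsChar ψ) {p : Eis} (hp : Mob705.IsPP p) {s : ℂ}
    (hs : 0 < s.re) : ‖ψ p * (nm p : ℂ) ^ (-s)‖ < 1 := by
  rw [norm_mul, Complex.norm_natCast_cpow_of_pos (nm_pos.mpr hp.ne_zero), Complex.neg_re]
  have h1 : (1 : ℝ) < nm p := by exact_mod_cast hp.one_lt_nm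
  have h2 : (nm p : ℝ) ^ (-s.re) < 1 := Real.rpow_lt_one_of_one_lt_of_neg h1 (by linarith)
  have h3 : 0 ≤ (nm p : ℝ) ^ (-s.re) := by positivity
  calc ‖ψ p‖ * (nm p : ℝ) ^ (-s.re) ≤ 1 * (nm p : ℝ) ^ (-s.re) := by
        gcongr; exact h.norm_le hp.isPrim
    _ < 1 := by linarith

lemma EF_ne_zero {ψ : Eis → ℂ} (h : IsChar ψ) (D : Eis) {s : ℂ} (hs : 0 < s.re) :
    EF ψ D s ≠ 0 := by
  unfold EF
  rw [Finset.prod_ne_zero_iff]
  intro p hp h0
  have h1 := norm_EF_term_lt h (Mob705.isPP_of_mem_pp hp) hs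
  have h2 : ψ p * (nm p : ℂ) ^ (-s) = 1 := (sub_eq_zero.mp h0).symm
  rw [h2] at h1
  simp at h1

lemma differentiable_EF (ψ : Eis → ℂ) (D : Eis) : Differentiable ℂ (EF ψ D) := by
  unfold EF
  have h1 : ∀ p ∈ Mob705.pp D, Differentiable ℂ fun s : ℂ => 1 - ψ p * (nm p : ℂ) ^ (-s) := by
    intro p hp
    have hp' := Mob705.isPP_of_mem_pp hp
    have h2 : (nm p : ℂ) ≠ 0 := by exact_mod_cast (nm_pos.mpr hp'.ne_zero).ne'
    refine (differentiable_const _).sub ((differentiable_const _).mul ?_)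
    exact (differentiable_id.neg).const_cpow (Or.inl h2)
  exact Differentiable.fun_finsetProd h1

/-- lower bound -/
lemma norm_EF_inv_le {ψ : Eis → ℂ} (h : IsChar ψ) (D : Eis) {s : ℂ} (hs : 1 / 2 ≤ s.re) :
    ‖(EF ψ D s)⁻¹‖ ≤ 2 ^ (Mob705.pp D).card := by
  unfold EF
  rw [← Finset.prod_inv_distrib, norm_prod, ← Finset.prod_const]
  apply Finset.prod_le_prod (fun p _ => norm_nonneg _)
  intro p hp
  have hp' := Mob705.isPP_of_mem_pp hp
  rw [norm_inv]
  have h4 : (4 : ℝ) ≤ nm p := by exact_mod_cast hp'.four_le_nm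
  have h1 : ‖ψ p * (nm p : ℂ) ^ (-s)‖ ≤ 1 / 2 := by
    rw [norm_mul, Complex.norm_natCast_cpow_of_pos (nm_pos.mpr hp'.ne_zero), Complex.neg_re]
    have h5 : (nm p : ℝ) ^ (-s.re) ≤ (4 : ℝ) ^ (-(1 / 2 : ℝ)) := by
      calc (nm p : ℝ) ^ (-s.re) ≤ (nm p : ℝ) ^ (-(1 / 2 : ℝ)) := by
            apply Real.rpow_le_rpow_of_exponent_le (by linarith) (by linarith)
        _ ≤ (4 : ℝ) ^ (-(1 / 2 : ℝ)) :=
            Real.rpow_le_rpow_of_nonpos (by norm_num) h4 (by norm_num)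
    have h6 : (4 : ℝ) ^ (-(1 / 2 : ℝ)) = 1 / 2 := by
      rw [Real.rpow_neg (by norm_num), ← Real.sqrt_eq_rpow]
      rw [show (4 : ℝ) = 2 ^ 2 by norm_num, Real.sqrt_sq (by norm_num)]
      norm_num
    rw [h6] at h5
    calc ‖ψ p‖ * (nm p : ℝ) ^ (-s.re) ≤ 1 * (nm p : ℝ) ^ (-s.re) := by
          gcongr; exact h.norm_le hp'.isPrim
      _ ≤ 1 / 2 := by linarith
  have h2 : 1 / 2 ≤ ‖1 - ψ p * (nm p : ℂ) ^ (-s)‖ := by
    have h3 := norm_sub_norm_le (1 : ℂ) (ψ p * (nm p : ℂ) ^ (-s))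
    rw [norm_one] at h3
    linarith
  calc ‖1 - ψ p * (nm p : ℂ) ^ (-s)‖⁻¹ ≤ (1 / 2 : ℝ)⁻¹ := by gcongr
    _ = 2 := by norm_num

/-! ### the coprimality condition -/

lemma isChar_prin0 (D : Eis) : IsChar (prin0 D) where
  one := by unfold prin0; rw [if_pos isCoprime_one_left]
  mul := by
    intro a b _ _
    unfold prin0
    by_cases ha : IsCoprime a D
    · by_cases hb : IsCoprime b D
      · rw [if_pos ha, if_pos hb, if_pos (ha.mul_left hb), mul_one]
      · rw [if_neg hb, if_neg (fun h => hb h.of_mul_left_right), mul_zero]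
    · rw [if_neg ha, if_neg (fun h => ha h.of_mul_left_left), zero_mul]
  norm := by
    intro a _
    unfold prin0
    split_ifs
    · right; simp
    · left; rfl

lemma sum_padiv_cop {b D : Eis} (hb : IsPrim b) (hD : D ≠ 0) :
    ∑ p ∈ padiv b, (if p.1 ∈ dvs D then (muE p.1 : ℂ) else 0) = prin0 D b := by
  classical
  have h1 := sum_padiv hb (fun c => if c ∈ dvs D then (muE c : ℝ) else 0)
  have h2 : ∑ c ∈ pdiv b, (if c ∈ dvs D then (muE c : ℝ) else 0) =
      ∑ c ∈ dvs D, (if c ∣ b then (muE c : ℝ) else 0) := by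
    rw [← Finset.sum_filter, ← Finset.sum_filter]
    apply Finset.sum_congr _ (fun _ _ => rfl)
    ext c
    simp only [Finset.mem_filter, mem_pdiv hb.ne_zero, mem_dvs hD]
    tauto
  have h3 := Mob705.sum_muE_coprime hb hD
  have h4 : ∑ c ∈ dvs D, (if c ∣ b then (muE c : ℝ) else 0) = if IsCoprime b D then 1 else 0 := by
    have h5 := congrArg (Int.cast : ℤ → ℝ) h3
    push_cast at h5
    exact h5
  rw [h2, h4] at h1
  have h6 := congrArg Complex.ofReal h1
  have h7 : ∑ p ∈ padiv b, (if p.1 ∈ dvs D then (muE p.1 : ℂ) else 0) =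
      ((∑ p ∈ padiv b, (if p.1 ∈ dvs D then (muE p.1 : ℝ) else 0) : ℝ) : ℂ) := by
    rw [Complex.ofReal_sum]
    apply Finset.sum_congr rfl
    intro p _
    split_ifs <;> simp
  rw [h7, h6]
  unfold prin0
  split_ifs <;> simp

/-- the Möbius function restricted to the divisors of `D` -/
def mD (ψ : Eis → ℂ) (D c : Eis) : ℂ := if c ∈ dvs D then (muE c : ℂ) * ψ c else 0

lemma push_cop_eq {ψ : Eis → ℂ} (h : IsChar ψ) {D : Eis} (hD : D ≠ 0) {n : ℕ} (hn : n ≠ 0) :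
    (LSeries.convolution (push (mD ψ D)) (push ψ)) n = push (fun b => ψ b * prin0 D b) n := by
  rw [push_conv _ _ hn]
  unfold push
  apply Finset.sum_congr rfl
  intro b hb
  have hbp := (mem_fib.mp hb).2
  beta_reduce
  rw [← sum_padiv_cop hbp hD, Finset.mul_sum]
  apply Finset.sum_congr rfl
  intro p hp
  rw [mem_padiv] at hp
  unfold mD
  split_ifs
  · rw [← hp.1, h.mul _ _ hp.2.1 hp.2.2]; ring
  · ring

/-- the `L`-series of a finitely supported function -/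
lemma LSeriesHasSum_finite {S : Finset Eis} (hS : ∀ c ∈ S, IsPrim c) {f : Eis → ℂ}
    (hf : ∀ c, c ∉ S → f c = 0) (s : ℂ) :
    LSeriesHasSum (push f) s (∑ c ∈ S, f c * (nm c : ℂ) ^ (-s)) := by
  classical
  have h1 : ∀ n : ℕ, LSeries.term (push f) s n =
      ∑ c ∈ S, if n = nm c then f c * (nm c : ℂ) ^ (-s) else 0 := by
    intro n
    rcases eq_or_ne n 0 with rfl | hn
    · rw [LSeries.term_zero]
      symm
      apply Finset.sum_eq_zero
      intro c hc
      rw [if_neg]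
      intro h0
      exact (hS c hc).ne_zero (nm_eq_zero.mp h0.symm)
    · rw [LSeries.term_of_ne_zero hn, div_eq_mul_inv, ← Complex.cpow_neg]
      have h2 : push f n = ∑ c ∈ S, if n = nm c then f c else 0 := by
        unfold push
        rw [← Finset.sum_filter]
        have h3 : ∑ c ∈ fib n, f c = ∑ c ∈ (fib n).filter (fun c => c ∈ S), f c := by
          rw [Finset.sum_filter]
          apply Finset.sum_congr rfl
          intro c _
          split_ifs with h4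
          · rfl
          · exact hf c h4
        rw [h3]
        apply Finset.sum_congr _ (fun _ _ => rfl)
        ext c
        simp only [Finset.mem_filter, mem_fib]
        constructor
        · rintro ⟨⟨h4, _⟩, h5⟩; exact ⟨h5, h4.symm⟩
        · rintro ⟨h4, h5⟩; exact ⟨⟨h5.symm, hS c h4⟩, h4⟩
      rw [h2, Finset.sum_mul]
      apply Finset.sum_congr rfl
      intro c _
      split_ifs with h4
      · rw [h4]
      · rw [zero_mul]
  unfold LSeriesHasSum
  have h5 : HasSum (fun n : ℕ => ∑ c ∈ S, if n = nm c then f c * (nm c : ℂ) ^ (-s) else 0)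
      (∑ c ∈ S, f c * (nm c : ℂ) ^ (-s)) :=
    hasSum_sum fun c _ => hasSum_ite_eq (nm c) (f c * (nm c : ℂ) ^ (-s))
  have h6 : (fun n => LSeries.term (push f) s n) = fun n : ℕ =>
      ∑ c ∈ S, if n = nm c then f c * (nm c : ℂ) ^ (-s) else 0 := funext h1
  rw [← h6] at h5
  exact h5

lemma char_prod {ψ : Eis → ℂ} (h : IsChar ψ) (s : ℂ) (S : Finset Eis) (hS : Mob705.PPSet S) :
    ψ (∏ p ∈ S, p) * (nm (∏ p ∈ S, p) : ℂ) ^ (-s) = ∏ p ∈ S, (ψ p * (nm p : ℂ) ^ (-s)) := by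
  classical
  induction S using Finset.induction_on with
  | empty => simp [h.one]
  | insert a s' ha ih =>
    have hS' : Mob705.PPSet s' := hS.subset (Finset.subset_insert _ _)
    have hpa := hS a (Finset.mem_insert_self _ _)
    rw [Finset.prod_insert ha, Finset.prod_insert ha, ← ih hS', h.mul _ _ hpa.isPrim
      hS'.isPrim_prod, nm_mul, Nat.cast_mul, Complex.natCast_mul_natCast_cpow]
    ring

lemma LSeries_mD {ψ : Eis → ℂ} (h : IsChar ψ) {D : Eis} (hD : D ≠ 0) (s : ℂ) :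
    LSeriesHasSum (push (mD ψ D)) s (EF ψ D s) := by
  have h1 := LSeriesHasSum_finite (S := dvs D) (fun c hc => ((mem_dvs hD).mp hc).1)
    (f := mD ψ D) (fun c hc => if_neg hc) s
  have h2 : ∑ c ∈ dvs D, mD ψ D c * (nm c : ℂ) ^ (-s) = EF ψ D s := by
    have h3 := Mob705.sum_dvs_muE_mul hD (fun c => ψ c * (nm c : ℂ) ^ (-s))
      (fun S hS => char_prod h s S hS)
    unfold EF
    rw [← h3]
    apply Finset.sum_congr rfl
    intro c hc
    unfold mD
    rw [if_pos hc]; ring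
  rwa [h2] at h1

/-- removing Euler factors -/
theorem LSeries_cop {ψ : Eis → ℂ} (h : IsChar ψ) {D : Eis} (hD : D ≠ 0) {s : ℂ}
    (hs : 1 < s.re) :
    LSeries (push fun b => ψ b * prin0 D b) s = EF ψ D s * LSeries (push ψ) s := by
  have h1 := LSeries_mD h hD s
  rw [← h1.LSeries_eq, ← LSeries_convolution' h1.LSeriesSummable
    (LSer47.summable_push (fun _ hb => h.norm_le hb) hs)]
  exact (LSeries_congr (fun {n} hn => push_cop_eq h hD hn) s).symm

/-- removing Euler factors, Möbius version -/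
theorem LSeries_mu_cop {ψ : Eis → ℂ} (h : IsChar ψ) {D : Eis} (hD : D ≠ 0) {s : ℂ}
    (hs : 1 < s.re) :
    LSeries (push fun b => (muE b : ℂ) * (ψ b * prin0 D b)) s * EF ψ D s =
      LSeries (push fun b => (muE b : ℂ) * ψ b) s := by
  have h1 := LSeries_mu_mul (h.mul' (isChar_prin0 D)) hs
  have h2 := LSeries_mu_mul h hs
  rw [LSeries_cop h hD hs] at h1
  have h3 : LSeries (push ψ) s ≠ 0 := by
    intro h0
    rw [h0, mul_zero] at h2
    exact zero_ne_one h2
  apply mul_right_cancel₀ h3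
  rw [h2, ← h1]
  ring

/-! ### change of modulus -/

lemma tw_prin0 (χ : Eis → ℂ) (D : Eis) (l : ℤ) :
    tw (fun b => χ b * prin0 D b) l = fun b => tw χ l b * prin0 D b := by
  funext b
  unfold tw; ring

section

variable {q q' : Eis} {χ : Eis → ℂ}

/-- **change of modulus** -/
theorem LH_changeMod (h : HC q χ) (hq' : q' ≠ 0) (hd : q ∣ q') (l : ℤ) {s : ℂ}
    (hs : 1 / 2 < s.re) (h1 : NP q χ l ∨ s ≠ 1) :
    LH q' (fun b => χ b * prin0 q' b) l s = EF (tw χ l) q' s * LH q χ l s := by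
  have h' := h.changeMod hq' hd
  -- equality in the half plane of absolute convergence
  have hbig : ∀ z : ℂ, 1 < z.re →
      LH q' (fun b => χ b * prin0 q' b) l z = EF (tw χ l) q' z * LH q χ l z := by
    intro z hz
    rw [h'.LH_eq l hz, h.LH_eq l hz, tw_prin0]
    exact LSeries_cop (h.isChar_tw l) hq' hz
  have main : ∀ U : Set ℂ, IsOpen U → IsPreconnected U → (2 : ℂ) ∈ U →
      (∀ z ∈ U, DifferentiableAt ℂ (LH q' (fun b => χ b * prin0 q' b) l) z) →
      (∀ z ∈ U, DifferentiableAt ℂ (LH q χ l) z) → s ∈ U →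
      LH q' (fun b => χ b * prin0 q' b) l s = EF (tw χ l) q' s * LH q χ l s := by
    intro U hU hUc h2 hd1 hd2 hsU
    have h3 : AnalyticOnNhd ℂ (LH q' (fun b => χ b * prin0 q' b) l) U :=
      DifferentiableOn.analyticOnNhd (fun z hz => (hd1 z hz).differentiableWithinAt) hU
    have h4 : AnalyticOnNhd ℂ (fun z => EF (tw χ l) q' z * LH q χ l z) U :=
      DifferentiableOn.analyticOnNhd (fun z hz =>
        ((differentiable_EF _ _ z).mul (hd2 z hz)).differentiableWithinAt) hU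
    refine h3.eqOn_of_preconnected_of_eventuallyEq h4 hUc h2 ?_ hsU
    have h5 : {z : ℂ | 1 < z.re} ∈ 𝓝 (2 : ℂ) :=
      (isOpen_lt continuous_const Complex.continuous_re).mem_nhds (by norm_num)
    filter_upwards [h5] with z hz
    exact hbig z hz
  by_cases hs1 : s = 1
  · have hnp : NP q χ l := h1.resolve_right (fun h2 => h2 hs1)
    have hnp' := hnp.changeMod h hq'
    refine main {z : ℂ | 1 / 2 < z.re} (isOpen_lt continuous_const Complex.continuous_re)
      (convex_halfSpace_re_gt _).isPreconnected (by norm_num) ?_ ?_ hs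
    · intro z hz
      exact h'.differentiableAt_LH' l (hnp'.cc_eq_zero h') hz
    · intro z hz
      exact h.differentiableAt_LH' l (hnp.cc_eq_zero h) hz
  · refine main {z : ℂ | 1 / 2 < z.re ∧ z ≠ 1} (isOpen_regionθ _)
      (isPreconnected_regionθ (by norm_num)) ⟨by norm_num, by norm_num⟩ ?_ ?_ ⟨hs, hs1⟩
    · intro z hz
      exact h'.differentiableAt_LH l hz.1 hz.2
    · intro z hz
      exact h.differentiableAt_LH l hz.1 hz.2

theorem LH_ne_zero_of_changeMod (h : HC q χ) (hq' : q' ≠ 0) (hd : q ∣ q') (l : ℤ) {s : ℂ}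
    (hs : 1 / 2 < s.re) (h1 : NP q χ l ∨ s ≠ 1)
    (h0 : LH q' (fun b => χ b * prin0 q' b) l s ≠ 0) : LH q χ l s ≠ 0 := by
  rw [LH_changeMod h hq' hd l hs h1] at h0
  exact right_ne_zero_of_mul h0

theorem LH_changeMod_ne_zero (h : HC q χ) (hq' : q' ≠ 0) (hd : q ∣ q') (l : ℤ) {s : ℂ}
    (hs : 1 / 2 < s.re) (h1 : NP q χ l ∨ s ≠ 1) (h0 : LH q χ l s ≠ 0) :
    LH q' (fun b => χ b * prin0 q' b) l s ≠ 0 := by
  rw [LH_changeMod h hq' hd l hs h1]
  exact mul_ne_zero (EF_ne_zero (h.isChar_tw l) _ (by linarith)) h0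

theorem Free.of_changeMod {l : ℤ} {θ : ℝ} (hθ : 1 / 2 ≤ θ) (h : HC q χ) (hq' : q' ≠ 0)
    (hd : q ∣ q') (hf : Free q' (fun b => χ b * prin0 q' b) l θ) : Free q χ l θ := by
  intro z hz h1
  refine LH_ne_zero_of_changeMod h hq' hd l (by linarith) h1 (hf z hz ?_)
  rcases h1 with h1 | h1
  · exact Or.inl (h1.changeMod h hq')
  · exact Or.inr h1

/-- it is enough to treat characters of large modulus -/
theorem pf_of_changeMod {S : Set ℤ} {θ : ℝ} (hθ : 1 / 2 ≤ θ)
    (hf : ∀ l ∈ S, ∀ (q : Eis) (χ : Eis → ℂ), HC q χ → ∃ q', q' ≠ 0 ∧ q ∣ q' ∧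
      Free q' (fun b => χ b * prin0 q' b) l θ) : PF S θ := by
  intro l hl q χ h
  obtain ⟨q', h1, h2, h3⟩ := hf l hl q χ h
  exact h3.of_changeMod hθ h h1 h2

end

/-- **S0023 from the step**: the induction step may be proved pointwise, after enlarging the
modulus. -/
theorem s23_of_step (step : ∀ θ : ℝ, 7 / 8 < θ → θ ≤ 1 → PF Set.univ θ →
    ∃ δ > 0, ∀ (l : ℤ) (q : Eis) (χ : Eis → ℂ), HC q χ → ∀ ρ : ℂ, θ - δ < ρ.re → ρ.re ≤ θ →
      (NP q χ l ∨ ρ ≠ 1) → ∃ q', q' ≠ 0 ∧ q ∣ q' ∧ LH q' (fun b => χ b * prin0 q' b) l ρ ≠ 0) :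
    S23 := by
  apply s23_of_nz
  refine nz_of_pf (S := Set.univ) (Set.mem_univ 0) (pf_bootstrap fun θ hθ hθ1 hPF => ?_)
  obtain ⟨δ, hδ, hstep⟩ := step θ hθ hθ1 hPF
  refine ⟨min δ (θ - 7 / 8), lt_min hδ (by linarith), ?_⟩
  intro l _ q χ h z hz h1
  have hmin1 := min_le_left δ (θ - 7 / 8)
  have hmin2 := min_le_right δ (θ - 7 / 8)
  rcases lt_or_ge θ z.re with h2 | h2
  · exact hPF l (Set.mem_univ l) q χ h z h2 h1
  · obtain ⟨q', h3, h4, h5⟩ := hstep l q χ h z (by linarith) h2 h1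
    exact LH_ne_zero_of_changeMod h h3 h4 l (by linarith) h1 h5

/-- **S0022 from the step** -/
theorem s22_of_step (step : ∀ θ : ℝ, 7 / 8 < θ → θ ≤ 1 → PF Set.univ θ →
    ∃ δ > 0, ∀ (l : ℤ) (q : Eis) (χ : Eis → ℂ), HC q χ → ∀ ρ : ℂ, θ - δ < ρ.re → ρ.re ≤ θ →
      (NP q χ l ∨ ρ ≠ 1) → ∃ q', q' ≠ 0 ∧ q ∣ q' ∧ LH q' (fun b => χ b * prin0 q' b) l ρ ≠ 0) :
    S22 := s22_of_s23 (s23_of_step step)

end Crest.Agent.R017.End699
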