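import Crest.Agent.R017.EndO_699

/-!
# Row 17, end block (P): zero-freeness from bounds for families of Möbius sums
-/

set_option autoImplicit false

noncomputable section

open Set Filter Topology

namespace Crest.Agent.R017.End699

open Crest.Agent.R012 Crest.Agent.R012.Eis Crest.Agent.R012.PSer47

/-- primary elements -/
abbrev Pr : Type := {b : Eis // IsPrim b}

lemma ip_eq_indicator (F : Eis → ℂ) : ip F = ({b : Eis | IsPrim b} : Set Eis).indicator F := by
  funext b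
  by_cases hb : IsPrim b
  · rw [ip_of hb, Set.indicator_of_mem (by exact hb)]
  · rw [ip_of_not hb, Set.indicator_of_notMem (by exact hb)]

lemma hasSum_Pr_iff {F : Eis → ℂ} {a : ℂ} :
    HasSum (fun b : Pr => F b) a ↔ HasSum (ip F) a := by
  rw [ip_eq_indicator]
  exact hasSum_subtype_iff_indicator (s := {b : Eis | IsPrim b})

lemma summable_Pr_iff {F : Eis → ℂ} : Summable (fun b : Pr => F b) ↔ Summable (ip F) := by
  unfold Summable
  simp only [hasSum_Pr_iff]

lemma tsum_Pr (F : Eis → ℂ) : ∑' b : Pr, F b = ∑' b, ip F b := by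
  rw [ip_eq_indicator]
  exact tsum_subtype ({b : Eis | IsPrim b} : Set Eis) F

lemma AC.summable_Pr {e : Eis → ℂ} {σ : ℝ} (h : AC e σ) :
    Summable fun b : Pr => ‖e b‖ * (nm b.1 : ℝ) ^ (-σ) := by
  have h1 := h.comp_injective (i := (Subtype.val : Pr → Eis)) Subtype.val_injective
  refine h1.congr fun b => ?_
  simp only [Function.comp]
  rw [ip_of b.2]

/-- Dirichlet series as sums over primary elements -/
lemma AC.hasSum {f : Eis → ℂ} {σ : ℝ} (h : AC f σ) {s : ℂ} (hs : σ ≤ s.re) :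
    HasSum (fun b : Pr => f b * (nm b.1 : ℂ) ^ (-s)) (LSeries (push f) s) := by
  have h0 : AC f s.re := h.mono hs
  have hsum : Summable (ip fun b => f b * (nm b : ℂ) ^ (-s)) := by
    refine Summable.of_norm_bounded h0 fun b => ?_
    by_cases hb : IsPrim b
    · rw [ip_of hb, ip_of hb, norm_mul, Complex.norm_natCast_cpow_of_pos
        (nm_pos.mpr hb.ne_zero), Complex.neg_re]
    · rw [ip_of_not hb, ip_of_not hb]; simp
  have h1 := hsum.hasSum.tsum_fiberwise nm
  have h2 := hasSum_fiber (F := ip fun b => f b * (nm b : ℂ) ^ (-s)) (fun b hb => ip_of_not hb)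
  have e : (fun n : ℕ => ∑' b : (nm ⁻¹' {n} : Set Eis), ip (fun b => f b * (nm b : ℂ) ^ (-s)) b) =
      fun n : ℕ => LSeries.term (push f) s n := by
    funext n
    rw [(h2 n).tsum_eq]
    rcases eq_or_ne n 0 with rfl | hn
    · rw [fib_zero]; simp
    · rw [LSeries.term_of_ne_zero hn, div_eq_mul_inv, ← Complex.cpow_neg]
      unfold push
      rw [Finset.sum_mul]
      apply Finset.sum_congr rfl
      intro b hb
      obtain ⟨h3, h4⟩ := mem_fib.mp hb
      rw [ip_of h4, h3]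
  rw [e] at h1
  have h5 : ∑' b, ip (fun b => f b * (nm b : ℂ) ^ (-s)) b = LSeries (push f) s := by
    unfold LSeries
    exact h1.tsum_eq.symm
  have h6 : HasSum (ip fun b => f b * (nm b : ℂ) ^ (-s)) (LSeries (push f) s) := by
    rw [← h5]; exact hsum.hasSum
  exact hasSum_Pr_iff.mpr h6

/-- the `b`-coefficients with a coprimality condition -/
def gc (χ : Eis → ℂ) (l : ℤ) (α : ℝ) (D b : Eis) : ℂ := prin0 D b * gb χ l α b

lemma norm_prin0_le (D b : Eis) : ‖prin0 D b‖ ≤ 1 := by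
  unfold prin0; split_ifs <;> simp

lemma norm_gc_le (χ : Eis → ℂ) (l : ℤ) (α : ℝ) (D b : Eis) : ‖gc χ l α D b‖ ≤ ‖gb χ l α b‖ := by
  unfold gc
  rw [norm_mul]
  calc ‖prin0 D b‖ * ‖gb χ l α b‖ ≤ 1 * ‖gb χ l α b‖ := by
        gcongr; exact norm_prin0_le D b
    _ = _ := one_mul _

/-- the `L`-series of the `b`-coefficients -/
lemma HC.LSeries_gc {q : Eis} {χ : Eis → ℂ} (h : HC q χ) (l : ℤ) (α : ℝ) {D : Eis} (hD : D ≠ 0)
    {s : ℂ} (hs : 1 < s.re + α) :
    LSeries (push (gc χ l α D)) s * LH q χ l (s + α) = (EF (tw χ l) D (s + α))⁻¹ := by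
  have hs' : 1 < (s + (α : ℂ)).re := by simpa using hs
  have h1 := LSeries_mu_cop (h.isChar_tw l) hD hs'
  have h2 := h.LSeries_mu_mul_LH l hs'
  have h3 : LSeries (push (gc χ l α D)) s =
      LSeries (push fun b => (muE b : ℂ) * (tw χ l b * prin0 D b)) (s + α) := by
    have e1 : gc χ l α D = fun b => (muE b : ℂ) * (tw χ l b * prin0 D b) *
        (((nm b : ℝ) ^ (-α) : ℝ) : ℂ) := by
      funext b; unfold gc gb; ring
    unfold LSeries
    apply tsum_congr
    intro n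
    rcases eq_or_ne n 0 with rfl | hn
    · simp
    · rw [LSeries.term_of_ne_zero hn, LSeries.term_of_ne_zero hn, div_eq_mul_inv, div_eq_mul_inv]
      have e2 : push (gc χ l α D) n = push (fun b => (muE b : ℂ) * (tw χ l b * prin0 D b)) n *
          (((n : ℝ) ^ (-α) : ℝ) : ℂ) := by
        rw [e1]
        unfold push
        rw [Finset.sum_mul]
        apply Finset.sum_congr rfl
        intro b hb
        beta_reduce
        rw [(mem_fib.mp hb).1]
      rw [e2, mul_assoc]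
      congr 1
      rw [Complex.cpow_add _ _ (by exact_mod_cast hn), mul_inv,
        Complex.ofReal_cpow (by positivity)]
      push_cast
      rw [Complex.cpow_neg]
      ring
  have h4 : EF (tw χ l) D (s + α) ≠ 0 := EF_ne_zero (h.isChar_tw l) D (by linarith)
  rw [h3]
  apply eq_inv_of_mul_eq_one_left
  rw [← h2, ← h1]
  ring

section family

variable {ι : Type*} {q : Eis} {χ : Eis → ℂ} {e : ι → ℂ} {νi : ι → ℝ} {n : ι → Eis} {W : ℝ → ℂ}

/-- the Dirichlet series of the weights -/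
def EE (χ : Eis → ℂ) (l : ℤ) (α : ℝ) (e : ι → ℂ) (νi : ι → ℝ) (n : ι → Eis) (s : ℂ) : ℂ :=
  ∑' i, e i * (νi i : ℂ) ^ (-s) * (EF (tw χ l) (n i) (s + α))⁻¹

/-- absolute convergence -/
def EC (e : ι → ℂ) (νi : ι → ℝ) (n : ι → Eis) (θ : ℝ) : Prop :=
  Summable fun i => ‖e i‖ * νi i ^ (-θ) * 2 ^ (Mob705.pp (n i)).card

lemma norm_EE_term_le (h : HC q χ) (l : ℤ) {α : ℝ} (hν : ∀ i, 0 < νi i) {s : ℂ}
    (hs : 1 / 2 ≤ s.re + α) (i : ι) :
    ‖e i * (νi i : ℂ) ^ (-s) * (EF (tw χ l) (n i) (s + α))⁻¹‖ ≤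
      ‖e i‖ * νi i ^ (-s.re) * 2 ^ (Mob705.pp (n i)).card := by
  rw [norm_mul, norm_mul, norm_cpow_neg (hν i)]
  have := norm_EF_inv_le (h.isChar_tw l) (n i) (s := s + α) (by simpa using hs)
  have h2 := hν i
  gcongr

lemma EC.bound {θ ν₀ : ℝ} (hν₀ : 0 < ν₀) (hν : ∀ i, ν₀ ≤ νi i) {σ R : ℝ} (hθσ : θ ≤ σ)
    (hσR : σ ≤ R) (i : ι) :
    ‖e i‖ * νi i ^ (-σ) * 2 ^ (Mob705.pp (n i)).card ≤
      max 1 (ν₀ ^ (-(R - θ))) * (‖e i‖ * νi i ^ (-θ) * 2 ^ (Mob705.pp (n i)).card) := by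
  have hk := hν₀.trans_le (hν i)
  have h1 : νi i ^ (-σ) = νi i ^ (-(σ - θ)) * νi i ^ (-θ) := by
    rw [← Real.rpow_add hk]; ring_nf
  have h2 : νi i ^ (-(σ - θ)) ≤ max 1 (ν₀ ^ (-(R - θ))) := by
    rcases le_or_gt 1 (νi i) with h3 | h3
    · exact (Real.rpow_le_one_of_one_le_of_nonpos h3 (by linarith)).trans (le_max_left _ _)
    · refine le_trans ?_ (le_max_right _ _)
      calc νi i ^ (-(σ - θ)) ≤ νi i ^ (-(R - θ)) :=
            Real.rpow_le_rpow_of_exponent_ge hk h3.le (by linarith)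
        _ ≤ ν₀ ^ (-(R - θ)) := Real.rpow_le_rpow_of_nonpos hν₀ (hν i) (by linarith)
  rw [h1]
  calc ‖e i‖ * (νi i ^ (-(σ - θ)) * νi i ^ (-θ)) * 2 ^ (Mob705.pp (n i)).card
      ≤ ‖e i‖ * (max 1 (ν₀ ^ (-(R - θ))) * νi i ^ (-θ)) * 2 ^ (Mob705.pp (n i)).card := by
        gcongr
    _ = _ := by ring

lemma EC.mono {θ σ ν₀ : ℝ} (h : EC e νi n θ) (hν₀ : 0 < ν₀) (hν : ∀ i, ν₀ ≤ νi i)
    (hθσ : θ ≤ σ) : EC e νi n σ :=
  Summable.of_nonneg_of_le (fun i => by
    have := hν₀.trans_le (hν i); positivity) (fun i => EC.bound hν₀ hν hθσ le_rfl i)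
    (h.mul_left _)

lemma differentiableAt_EE (h : HC q χ) (l : ℤ) {α θ ν₀ : ℝ} (hν₀ : 0 < ν₀)
    (hν : ∀ i, ν₀ ≤ νi i) (hθα : 1 / 2 ≤ θ + α) (hs : EC e νi n θ) {s : ℂ} (hs1 : θ < s.re) :
    DifferentiableAt ℂ (EE χ l α e νi n) s := by
  set U : Set ℂ := {z | θ < z.re ∧ z.re < s.re + 1} with hU
  have hUo : IsOpen U := (isOpen_lt continuous_const Complex.continuous_re).inter
    (isOpen_lt Complex.continuous_re continuous_const)
  have hν' : ∀ i, 0 < νi i := fun i => hν₀.trans_le (hν i)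
  have h1 : DifferentiableOn ℂ (EE χ l α e νi n) U := by
    unfold EE
    refine Complex.differentiableOn_tsum_of_summable_norm
      (u := fun i => max 1 (ν₀ ^ (-(s.re + 1 - θ))) *
        (‖e i‖ * νi i ^ (-θ) * 2 ^ (Mob705.pp (n i)).card)) (hs.mul_left _) ?_ hUo ?_
    · intro i z hz
      apply DifferentiableAt.differentiableWithinAt
      have h2 : (νi i : ℂ) ≠ 0 := by exact_mod_cast (hν' i).ne'
      refine DifferentiableAt.mul (DifferentiableAt.mul (differentiableAt_const _) ?_) ?_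
      · exact differentiableAt_id.neg.const_cpow (Or.inl h2)
      · refine DifferentiableAt.inv ?_ (EF_ne_zero (h.isChar_tw l) _ ?_)
        · exact DifferentiableAt.comp z (f := fun w : ℂ => w + α) (g := EF (tw χ l) (n i))
            (differentiable_EF (tw χ l) (n i) _) (by fun_prop)
        · have := hz.1
          simp only [Complex.add_re, Complex.ofReal_re]
          linarith
    · intro i z hz
      refine (norm_EE_term_le h l hν' (by linarith [hz.1]) i).trans ?_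
      exact EC.bound hν₀ hν hz.1.le hz.2.le i
  exact (h1 s ⟨hs1, by linarith⟩).differentiableAt (hUo.mem_nhds ⟨hs1, by linarith⟩)

variable [Countable ι]

/-- **zero-freeness from bounds for families of Möbius sums** -/
theorem LH_ne_zero_of_family (h : HC q χ) (l : ℤ) {ν₀ : ℝ} (hν₀ : 0 < ν₀)
    (hν : ∀ i, ν₀ ≤ νi i) (hn : ∀ i, n i ≠ 0) (hW : RW W) {α θ C : ℝ} (hθ : 0 ≤ θ)
    (hθα : 1 / 2 ≤ θ + α) (hs : EC e νi n θ)
    (hM : ∀ Q : ℝ, 1 ≤ Q →
      ‖∑' i, e i * ∑' b, ip (fun b => gc χ l α (n i) b * W (νi i * nm b / Q)) b‖ ≤ C * Q ^ θ)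
    {ρ : ℂ} (hρ : θ + α < ρ.re) (h1 : NP q χ l ∨ ρ ≠ 1)
    (hE0 : EE χ l α e νi n (ρ - α) ≠ 0) (hm : mellin W (ρ - α) ≠ 0) : LH q χ l ρ ≠ 0 := by
  have hre : (ρ - α).re = ρ.re - α := by simp
  have hν' : ∀ i, 0 < νi i := fun i => hν₀.trans_le (hν i)
  set c : ι × Pr → ℂ := fun k => e k.1 * gc χ l α (n k.1) k.2 with hc
  set ν : ι × Pr → ℝ := fun k => νi k.1 * nm k.2.1 with hνdef
  have hnm : ∀ b : Pr, (1 : ℝ) ≤ nm b.1 := fun b => by exact_mod_cast nm_pos.mpr b.2.ne_zero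
  have hνk : ∀ k, ν₀ ≤ ν k := by
    intro k
    have h2 := hnm k.2
    have h3 := hν k.1
    have h4 := hν' k.1
    calc ν₀ ≤ νi k.1 * 1 := by rw [mul_one]; exact h3
      _ ≤ ν k := by simp only [hνdef]; gcongr
  -- absolute convergence
  set σ : ℝ := max θ (1 - α) + 1 with hσ
  have hσ1 : θ ≤ σ := by have := le_max_left θ (1 - α); linarith
  have hσ2 : 1 < σ + α := by have := le_max_right θ (1 - α); linarith
  have hg : AC (gb χ l α) σ := h.ac_gb l hσ2
  have hesum : ∀ σ' : ℝ, θ ≤ σ' → Summable fun i => ‖e i‖ * νi i ^ (-σ') := by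
    intro σ' hσ'
    refine Summable.of_nonneg_of_le (fun i => by have := hν' i; positivity) (fun i => ?_)
      (hs.mono hν₀ hν hσ')
    have h2 : (1 : ℝ) ≤ 2 ^ (Mob705.pp (n i)).card := one_le_pow₀ (by norm_num)
    have h3 : 0 ≤ ‖e i‖ * νi i ^ (-σ') := by have := hν' i; positivity
    nlinarith
  have hFC : FC c ν σ := by
    have h2 := (hesum σ hσ1).mul_of_nonneg hg.summable_Pr
      (fun i => by have := hν' i; positivity) (fun b => by positivity)
    refine Summable.of_nonneg_of_le (fun k => ?_) (fun k => ?_) h2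
    · have := hν₀.trans_le (hνk k); positivity
    · have h3 := hν' k.1
      have h4 := hnm k.2
      simp only [hc, hνdef]
      rw [norm_mul, Real.mul_rpow h3.le (by linarith)]
      have h5 := norm_gc_le χ l α (n k.1) k.2.1
      calc ‖e k.1‖ * ‖gc χ l α (n k.1) k.2‖ * (νi k.1 ^ (-σ) * (nm k.2.1 : ℝ) ^ (-σ))
          ≤ ‖e k.1‖ * ‖gb χ l α k.2‖ * (νi k.1 ^ (-σ) * (nm k.2.1 : ℝ) ^ (-σ)) := by gcongr
        _ = _ := by ring
  -- the Dirichlet series
  have hFL : ∀ s : ℂ, σ < s.re → FL c ν s * LH q χ l (s + α) = EE χ l α e νi n s := by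
    intro s hs1
    have hFCs : FC c ν s.re := hFC.mono hν₀ hνk hs1.le
    have hsm : Summable fun k => c k * (ν k : ℂ) ^ (-s) := by
      apply Summable.of_norm
      refine hFCs.congr fun k => ?_
      rw [norm_mul (c k), norm_cpow_neg (hν₀.trans_le (hνk k))]
    have hin : ∀ i, HasSum (fun b : Pr => c (i, b) * (ν (i, b) : ℂ) ^ (-s))
        (e i * (νi i : ℂ) ^ (-s) * LSeries (push (gc χ l α (n i))) s) := by
      intro i
      have h2 : AC (gc χ l α (n i)) s.re := by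
        have h3 := h.ac_gb l (σ := s.re) (by linarith) (α := α)
        refine Summable.of_nonneg_of_le (fun b => by positivity) (fun b => ?_) h3
        by_cases hb : IsPrim b
        · rw [ip_of hb, ip_of hb]
          have := norm_gc_le χ l α (n i) b
          gcongr
        · rw [ip_of_not hb, ip_of_not hb]
      have h4 := (h2.hasSum le_rfl).mul_left (e i * (νi i : ℂ) ^ (-s))
      have h5 : (fun b : Pr => c (i, b) * (ν (i, b) : ℂ) ^ (-s)) = fun b : Pr =>
          e i * (νi i : ℂ) ^ (-s) * (gc χ l α (n i) b * (nm b.1 : ℂ) ^ (-s)) := by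
        funext b
        simp only [hc, hνdef]
        have h6 : ((νi i * (nm b.1 : ℝ) : ℝ) : ℂ) ^ (-s) =
            (νi i : ℂ) ^ (-s) * (nm b.1 : ℂ) ^ (-s) := by
          have h7 := Complex.mul_cpow_ofReal_nonneg (hν' i).le
            (by have := hnm b; linarith : (0 : ℝ) ≤ (nm b.1 : ℝ)) (-s)
          push_cast at h7 ⊢
          exact h7
        rw [h6]; ring
      rw [h5]
      exact h4
    unfold FL
    rw [hsm.tsum_prod' (fun i => (hin i).summable)]
    unfold EE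
    rw [← tsum_mul_right]
    apply tsum_congr
    intro i
    rw [(hin i).tsum_eq, mul_assoc, h.LSeries_gc l α (hn i) (by linarith)]
  -- the smoothed sums
  have hFs : ∀ X : ℝ, 1 ≤ X → ‖Fsum c ν W X‖ ≤ C * X ^ θ := by
    intro X hX
    refine le_trans (le_of_eq ?_) (hM X hX)
    congr 1
    obtain ⟨N, hN⟩ := exists_nat_gt σ
    obtain ⟨C', hC'⟩ := Fsum_le hW (fun k => hν₀.trans_le (hνk k)) (N := N)
      (hFC.mono hν₀ hνk hN.le)
    have hsm := (hC' X (by linarith)).1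
    unfold Fsum
    rw [hsm.tsum_prod]
    apply tsum_congr
    intro i
    rw [← tsum_Pr, ← tsum_mul_left]
    apply tsum_congr
    intro b
    simp only [hc, hνdef]
    ring
  have key : LH q χ l ((ρ - α) + α) ≠ 0 := by
    rcases h1 with h1 | h1
    · refine ne_zero_F' hW hν₀ hνk (L := fun s => LH q χ l (s + α)) (E := EE χ l α e νi n) hθ ?_
        (fun s hs1 => differentiableAt_EE h l hν₀ hν hθα hs hs1) hFC
        (fun s hs1 _ => hFL s hs1) hFs (s₀ := ρ - α) (by rw [hre]; linarith) hE0 hm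
      intro s hs1
      have h2 : DifferentiableAt ℂ (LH q χ l) (s + α) :=
        h.differentiableAt_LH' l (h1.cc_eq_zero h) (by
          simp only [Complex.add_re, Complex.ofReal_re]; linarith)
      exact DifferentiableAt.comp s (f := fun z : ℂ => z + α) h2 (by fun_prop)
    · refine ne_zero_F hW hν₀ hνk (L := fun s => LH q χ l (s + α)) (E := EE χ l α e νi n) hθ
        (p := 1 - α) ?_ (fun s hs1 _ => differentiableAt_EE h l hν₀ hν hθα hs hs1) hFC
        (fun s hs1 _ _ => hFL s hs1) hFs (s₀ := ρ - α) (by rw [hre]; linarith) ?_ hE0 hm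
      · intro s hs1 hsp
        have h2 : DifferentiableAt ℂ (LH q χ l) (s + α) :=
          h.differentiableAt_LH l (by
            simp only [Complex.add_re, Complex.ofReal_re]; linarith) (by
            intro h3
            apply hsp
            linear_combination h3)
        exact DifferentiableAt.comp s (f := fun z : ℂ => z + α) h2 (by fun_prop)
      · intro h2
        apply h1
        linear_combination h2
  simpa using key

omit [Countable ι] in
/-- nonvanishing of the weight series when one term dominates -/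
lemma EE_ne_zero_of (h : HC q χ) (l : ℤ) {α ν₀ : ℝ} (hν₀ : 0 < ν₀) (hν : ∀ i, ν₀ ≤ νi i)
    {s : ℂ} (hs1 : 1 / 2 ≤ s.re + α) (hs : EC e νi n s.re) (i₀ : ι) (hi₀ : n i₀ = 1)
    (hdom : ∑' i : {i // i ≠ i₀}, ‖e i‖ * νi i ^ (-s.re) * 2 ^ (Mob705.pp (n i)).card <
      ‖e i₀‖ * νi i₀ ^ (-s.re)) : EE χ l α e νi n s ≠ 0 := by
  classical
  have hν' : ∀ i, 0 < νi i := fun i => hν₀.trans_le (hν i)
  have hle := norm_EE_term_le (e := e) (n := n) h l hν' hs1
  have hsm : Summable fun i => e i * (νi i : ℂ) ^ (-s) * (EF (tw χ l) (n i) (s + α))⁻¹ :=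
    Summable.of_norm_bounded hs hle
  have h1 := (hsm.tsum_eq_add_tsum_ite i₀)
  have h2 : ∑' i, (if i = i₀ then (0 : ℂ) else
      e i * (νi i : ℂ) ^ (-s) * (EF (tw χ l) (n i) (s + α))⁻¹) =
      ∑' i : {i // i ≠ i₀}, e i * (νi i : ℂ) ^ (-s) * (EF (tw χ l) (n i) (s + α))⁻¹ := by
    have h3 := tsum_subtype {i : ι | i ≠ i₀}
      (fun i => e i * (νi i : ℂ) ^ (-s) * (EF (tw χ l) (n i) (s + α))⁻¹)
    have h4 : ∑' i : {i // i ≠ i₀}, e i * (νi i : ℂ) ^ (-s) * (EF (tw χ l) (n i) (s + α))⁻¹ =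
        ∑' i : ({i : ι | i ≠ i₀} : Set ι),
          e i * (νi i : ℂ) ^ (-s) * (EF (tw χ l) (n i) (s + α))⁻¹ := rfl
    rw [h4, h3]
    apply tsum_congr
    intro i
    by_cases hi : i = i₀
    · rw [if_pos hi, Set.indicator_of_notMem (by simp [hi])]
    · rw [if_neg hi, Set.indicator_of_mem (by simpa using hi)]
  unfold EE
  rw [h1, h2, hi₀, EF_one, inv_one, mul_one]
  intro h0
  have h5 : ‖∑' i : {i // i ≠ i₀}, e i * (νi i : ℂ) ^ (-s) * (EF (tw χ l) (n i) (s + α))⁻¹‖ ≤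
      ∑' i : {i // i ≠ i₀}, ‖e i‖ * νi i ^ (-s.re) * 2 ^ (Mob705.pp (n i)).card := by
    have h6 : Summable fun i : {i // i ≠ i₀} =>
        ‖e i‖ * νi i ^ (-s.re) * 2 ^ (Mob705.pp (n i)).card := hs.subtype _
    exact tsum_of_norm_bounded h6.hasSum fun i => hle i
  have h7 : e i₀ * (νi i₀ : ℂ) ^ (-s) =
      -∑' i : {i // i ≠ i₀}, e i * (νi i : ℂ) ^ (-s) * (EF (tw χ l) (n i) (s + α))⁻¹ := by
    linear_combination h0
  have h8 : ‖e i₀ * (νi i₀ : ℂ) ^ (-s)‖ = ‖e i₀‖ * νi i₀ ^ (-s.re) := by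
    rw [norm_mul, norm_cpow_neg (hν' i₀)]
  rw [← h8, h7, norm_neg] at hdom
  linarith

end family

end Crest.Agent.R017.End699
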