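import Crest.Agent.R017.SideD_777

/-!
# Row 17, section D, C1 (helper177): the level rule for sides with many lumps of length at most `w`

`col_eq`: to bound the column `r i Z' m' a' ≤ n' + T` for every `Z'` with `p` lumps of length
at most `w` and granular mass at most `c`, it is enough to look at pairs `(X, u)`:
`5/6 w + X` = the largest normalised level exponent of a lump, `5/6 + u` = the granular density.
Closures: a second moment of `k` copies of one lump `| g`, or (LV) with `K` copies of one lump and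
granular fill up to the length `4/3 i`.
-/

set_option autoImplicit false

noncomputable section

namespace Crest.Agent.R017.Eq177

open Crest.Agent.R017.ER911

variable {θ : ℝ} {r s : EF}

/-- second moments of `k` equal lumps of length `a ≤ w` at the family `i`, up to `e` -/
def Mom (r : EF) (i w : ℝ) (k : ℕ) (g e : ℝ) : Prop :=
  ∀ a m m' : ℝ, 0 ≤ a → a ≤ w → a ≤ i → 0 ≤ m → 0 ≤ m' → m + m' ≤ g →
    r i (Multiset.replicate k a) m m' ≤ i + (k * a + m + m') + e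

theorem Mom.mono {i w g g' e e' : ℝ} {k : ℕ} (h : Mom r i w k g e) (hg : g' ≤ g) (he : e ≤ e') :
    Mom r i w k g' e' := fun a m m' h1 h2 h3 h4 h5 h6 =>
  (h a m m' h1 h2 h3 h4 h5 (h6.trans hg)).trans (by linarith)

/-- the closures at `(X, u)` -/
def Clo (r : EF) (i w T : ℝ) (p : ℕ) (c X u : ℝ) : Prop :=
  (∃ (k : ℕ) (g e : ℝ), 0 ≤ g ∧ Mom r i w k g e ∧
    i + e + (p - k) * (2 / 3 * w + 2 * X) + (c - g) * (2 / 3 + 2 * u) ≤ T) ∨
  (∃ K : ℕ, K * w ≤ 4 / 3 * i ∧ 0 ≤ K * X + (4 / 3 * i - K * w) * u ∧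
    4 / 9 * i - 2 * (K * X + (4 / 3 * i - K * w) * u) + p * (2 / 3 * w + 2 * X) +
      c * (2 / 3 + 2 * u) ≤ T)

theorem sum_replicate_single {N : ℕ} (b : Fin N) (k : ℕ) (y : Fin N → ℝ) :
    (∑ j, Multiset.replicate ((Pi.single b k : Fin N → ℕ) j) (y j)) =
      Multiset.replicate k (y b) := by
  rw [Finset.sum_eq_single b]
  · simp
  · intro j _ hj
    simp [Pi.single_eq_of_ne hj]
  · simp

theorem sum_single_mul {N : ℕ} (b : Fin N) (k : ℕ) (y : Fin N → ℝ) :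
    (∑ j, (((Pi.single b k : Fin N → ℕ) j : ℕ) : ℝ) * y j) = k * y b := by
  rw [Finset.sum_eq_single b]
  · simp
  · intro j _ hj
    simp [Pi.single_eq_of_ne hj]
  · simp

/-- **the level rule for lumps of length at most `w`** -/
theorem col_eq (L : ExpLv θ r) (hθ2 : 1 / 2 ≤ θ) {p : ℕ} (hp : 0 < p)
    {i w c T : ℝ} (hi : 0 ≤ i)
    (H0 : ∀ X : ℝ, X ≤ (θ - 5 / 6) * w → ∃ (k : ℕ) (e : ℝ), Mom r i w k 0 e ∧
      i + e + (p - k) * (2 / 3 * w + 2 * X) ≤ T)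
    (H : ∀ X u : ℝ, X ≤ (θ - 5 / 6) * w → -(1 / 3) ≤ u → u ≤ θ - 5 / 6 → Clo r i w T p c X u)
    {Z : Multiset ℝ} (hZp : Z.card = p) (hZ : ∀ y ∈ Z, 0 ≤ y ∧ y ≤ w ∧ y ≤ i) {m a : ℝ}
    (hm : 0 ≤ m) (ha : 0 ≤ a) (hma : m + a ≤ c) :
    r i Z m a ≤ (Z.sum + m + a) + T := by
  -- write `Z` as a family
  obtain ⟨Y, rfl⟩ : ∃ Y : Fin p → ℝ, Z = Finset.univ.val.map Y := by
    refine ⟨fun j => Z.toList.get (Fin.cast (by rw [Multiset.length_toList, hZp]) j), ?_⟩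
    rw [Fin.univ_val_map]
    conv_lhs => rw [← Multiset.coe_toList Z]
    congr 1
    subst hZp
    refine List.ext_get (by simp) ?_
    intro n h1 h2
    simp
  have hY : ∀ j, 0 ≤ Y j ∧ Y j ≤ w ∧ Y j ≤ i := fun j => hZ (Y j)
    (Multiset.mem_map.2 ⟨j, Finset.mem_univ_val j, rfl⟩)
  have hsumY : (Finset.univ.val.map Y).sum = ∑ j, Y j := rfl
  rw [hsumY]
  refine L.lev p Y i m a ((∑ j, Y j + m + a) + T) hi (fun j => ⟨(hY j).1, (hY j).2.2⟩) hm ha ?_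
  intro y x m₁ a₁ ω α hy hm0 hm1 ha0 ha1 hx hω hα
  have : Nonempty (Fin p) := ⟨⟨0, hp⟩⟩
  obtain ⟨b, hb⟩ := Finite.exists_max (fun j => x j + (w - y j) / 2)
  have hyw : ∀ j, y j ≤ w := fun j => (hy j).2.trans (hY j).2.1
  have hyi : ∀ j, y j ≤ i := fun j => (hy j).2.trans (hY j).2.2
  obtain ⟨X, hX⟩ : ∃ X, X = x b + (w - y b) / 2 - 5 / 6 * w := ⟨_, rfl⟩
  have hXw : X ≤ (θ - 5 / 6) * w := by
    have h1 := hx b
    have h2 := (hy b).1
    have h3 := hyw b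
    nlinarith
  have hxy : ∀ j, 2 * x j - y j ≤ 2 / 3 * w + 2 * X := by
    intro j
    have := hb j
    linarith
  have hsx : 2 * (∑ j, x j) - ∑ j, y j ≤ p * (2 / 3 * w + 2 * X) := by
    have h1 : ∑ j, (2 * x j - y j) ≤ ∑ _j : Fin p, (2 / 3 * w + 2 * X) :=
      Finset.sum_le_sum fun j _ => hxy j
    rw [Finset.sum_sub_distrib, ← Finset.mul_sum, Finset.sum_const, Finset.card_univ,
      Fintype.card_fin, nsmul_eq_mul] at h1
    exact h1
  have hsy : ∑ j, y j ≤ ∑ j, Y j := Finset.sum_le_sum fun j _ => (hy j).2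
  have hxb : y b - 2 * x b = -(2 / 3 * w + 2 * X) := by rw [hX]; ring
  have hω0 : m₁ = 0 → ω ≤ 0 := fun h => by rw [h] at hω; linarith
  have hα0 : a₁ = 0 → α ≤ 0 := fun h => by rw [h] at hα; linarith
  -- closure without granular mass
  have main0 : 2 * (ω + α) ≤ m₁ + a₁ →
      (∃ (n : Fin p → ℕ) (f g : ℝ), 0 ≤ f ∧ (m₁ = 0 → f = 0) ∧ 0 ≤ g ∧ (a₁ = 0 → g = 0) ∧
        r i (∑ j, Multiset.replicate (n j) (y j)) f g -
          2 * ((∑ j, (n j : ℝ) * x j) + f * (ω / m₁) + g * (α / a₁)) +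
          2 * ((∑ j, x j) + ω + α) ≤ (∑ j, Y j + m + a) + T) := by
    intro hωα
    obtain ⟨k, e, hMom, hk⟩ := H0 X hXw
    refine ⟨Pi.single b k, 0, 0, le_rfl, fun _ => rfl, le_rfl, fun _ => rfl, ?_⟩
    rw [sum_replicate_single, sum_single_mul]
    have h1 := hMom (y b) 0 0 (hy b).1 (hyw b) (hyi b) le_rfl le_rfl (by norm_num)
    have h2 : (k : ℝ) * (y b - 2 * x b) = k * (-(2 / 3 * w + 2 * X)) := by rw [hxb]
    have h3 : ((p : ℝ) - k) * (2 / 3 * w + 2 * X) =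
      p * (2 / 3 * w + 2 * X) - k * (2 / 3 * w + 2 * X) := by ring
    have h4 : (k : ℝ) * (y b - 2 * x b) = k * y b - 2 * (k * x b) := by ring
    rw [h4] at h2
    rw [h3] at hk
    have h5 : (k : ℝ) * (-(2 / 3 * w + 2 * X)) = -(k * (2 / 3 * w + 2 * X)) := by ring
    rw [h5] at h2
    linarith
  -- closures with granular mass of density `D`
  have mainG : ∀ D : ℝ, 1 / 2 ≤ D → D ≤ θ → 2 * (ω + α) ≤ 2 * D * (m₁ + a₁) →
      ((m₁ ≠ 0 ∧ ω / m₁ = D) ∨ (a₁ ≠ 0 ∧ α / a₁ = D)) →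
      (∃ (n : Fin p → ℕ) (f g : ℝ), 0 ≤ f ∧ (m₁ = 0 → f = 0) ∧ 0 ≤ g ∧ (a₁ = 0 → g = 0) ∧
        LVok θ i ((∑ j, (n j : ℝ) * y j) + f + g)
          ((∑ j, (n j : ℝ) * x j) + f * (ω / m₁) + g * (α / a₁)) ∧
        2 * (((∑ j, (n j : ℝ) * y j) + f + g) -
            ((∑ j, (n j : ℝ) * x j) + f * (ω / m₁) + g * (α / a₁))) +
          2 * ((∑ j, x j) + ω + α) ≤ (∑ j, Y j + m + a) + T) ∨
      (∃ (n : Fin p → ℕ) (f g : ℝ), 0 ≤ f ∧ (m₁ = 0 → f = 0) ∧ 0 ≤ g ∧ (a₁ = 0 → g = 0) ∧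
        r i (∑ j, Multiset.replicate (n j) (y j)) f g -
          2 * ((∑ j, (n j : ℝ) * x j) + f * (ω / m₁) + g * (α / a₁)) +
          2 * ((∑ j, x j) + ω + α) ≤ (∑ j, Y j + m + a) + T) := by
    intro D hD1 hD2 hωα htyp
    obtain ⟨u, hu⟩ : ∃ u, u = D - 5 / 6 := ⟨_, rfl⟩
    have hDu : D = 5 / 6 + u := by rw [hu]; ring
    have hgr : 2 * (ω + α) - (m₁ + a₁) ≤ c * (2 / 3 + 2 * u) := by
      have h1 : (m₁ + a₁) * (2 * D - 1) ≤ c * (2 * D - 1) :=
        mul_le_mul_of_nonneg_right (by linarith) (by linarith)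
      have h2 : c * (2 * D - 1) = c * (2 / 3 + 2 * u) := by rw [hDu]; ring
      linarith
    -- the granular filler of length `φ`
    have fill : ∀ φ : ℝ, 0 ≤ φ → ∃ f g : ℝ, 0 ≤ f ∧ (m₁ = 0 → f = 0) ∧ 0 ≤ g ∧
        (a₁ = 0 → g = 0) ∧ f + g = φ ∧ f * (ω / m₁) + g * (α / a₁) = φ * D := by
      intro φ hφ
      rcases htyp with ⟨h, h'⟩ | ⟨h, h'⟩
      · exact ⟨φ, 0, hφ, fun h0 => absurd h0 h, le_rfl, fun _ => rfl, by ring, by rw [h']; ring⟩
      · exact ⟨0, φ, le_rfl, fun _ => rfl, hφ, fun h0 => absurd h0 h, by ring, by rw [h']; ring⟩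
    rcases H X u hXw (by linarith) (by linarith) with ⟨k, g, e, hg, hMom, hk⟩ | ⟨K, hK, hval, hT⟩
    · right
      obtain ⟨f', g', hf, hf0, hg1, hg0, hs, hd⟩ := fill g hg
      refine ⟨Pi.single b k, f', g', hf, hf0, hg1, hg0, ?_⟩
      rw [sum_replicate_single, sum_single_mul]
      have h1 := hMom (y b) f' g' (hy b).1 (hyw b) (hyi b) hf hg1 hs.le
      have h2 : (k : ℝ) * y b - 2 * (k * x b) = -(k * (2 / 3 * w + 2 * X)) := by
        have : (k : ℝ) * (y b - 2 * x b) = k * (-(2 / 3 * w + 2 * X)) := by rw [hxb]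
        linarith
      have h3 : ((p : ℝ) - k) * (2 / 3 * w + 2 * X) =
        p * (2 / 3 * w + 2 * X) - k * (2 / 3 * w + 2 * X) := by ring
      have h4 : (c - g) * (2 / 3 + 2 * u) = c * (2 / 3 + 2 * u) - g * (2 / 3 + 2 * u) := by ring
      have h5 : 2 * (g * D) - g = g * (2 / 3 + 2 * u) := by rw [hDu]; ring
      have h6 : (k : ℝ) * x b + f' * (ω / m₁) + g' * (α / a₁) = k * x b + g * D := by
        rw [add_assoc, hd]
      rw [h6]
      rw [h3, h4] at hk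
      linarith
    · left
      have hwb := hyw b
      have hK0 : (0 : ℝ) ≤ K := Nat.cast_nonneg K
      have hyb := (hy b).1
      have hφ : 0 ≤ 4 / 3 * i - K * y b := by
        have : (K : ℝ) * y b ≤ K * w := mul_le_mul_of_nonneg_left hwb hK0
        linarith
      obtain ⟨f', g', hf, hf0, hg1, hg0, hs, hd⟩ := fill _ hφ
      refine ⟨Pi.single b K, f', g', hf, hf0, hg1, hg0, ?_⟩
      rw [sum_single_mul, sum_single_mul]
      have h6 : (K : ℝ) * x b + f' * (ω / m₁) + g' * (α / a₁) =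
          K * x b + (4 / 3 * i - K * y b) * D := by
        rw [add_assoc, hd]
      have h7 : (K : ℝ) * y b + f' + g' = 4 / 3 * i := by rw [add_assoc, hs]; ring
      rw [h6, h7]
      -- the level of the monomial
      have h8 : (K : ℝ) * x b + (4 / 3 * i - K * y b) * D = 5 / 6 * (4 / 3 * i) +
          (K * X + (4 / 3 * i - K * w) * u) + K * (w - y b) * (1 / 3 + u) := by
        rw [hDu, hX]; ring
      have h9 : 0 ≤ K * (w - y b) * (1 / 3 + u) :=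
        mul_nonneg (mul_nonneg hK0 (by linarith)) (by linarith)
      rw [h8]
      refine ⟨Or.inl ⟨le_rfl, by linarith⟩, ?_⟩
      linarith
  -- choose the granular density
  by_cases h12 : 2 * (ω + α) ≤ m₁ + a₁
  · exact Or.inr (Or.inl (main0 h12))
  · have h12 := not_le.mp h12
    have hmp : m₁ ≠ 0 ∨ a₁ ≠ 0 := by
      by_contra hcon
      rw [not_or, not_not, not_not] at hcon
      have h1 := hω0 hcon.1
      have h2 := hα0 hcon.2
      rw [hcon.1, hcon.2] at h12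
      linarith
    -- densities
    have key : ∀ D : ℝ, D ≤ θ → (ω ≤ D * m₁) → (α ≤ D * a₁) →
        ((m₁ ≠ 0 ∧ ω / m₁ = D) ∨ (a₁ ≠ 0 ∧ α / a₁ = D)) → 1 / 2 ≤ D := by
      intro D _ h1 h2 _
      by_contra hcon
      have hcon := not_le.mp hcon
      have h3 : D * m₁ ≤ 1 / 2 * m₁ := mul_le_mul_of_nonneg_right hcon.le hm0
      have h4 : D * a₁ ≤ 1 / 2 * a₁ := mul_le_mul_of_nonneg_right hcon.le ha0
      linarith
    have concl : ∀ D : ℝ, D ≤ θ → (ω ≤ D * m₁) → (α ≤ D * a₁) →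
        ((m₁ ≠ 0 ∧ ω / m₁ = D) ∨ (a₁ ≠ 0 ∧ α / a₁ = D)) → _ := fun D h0 h1 h2 h3 =>
      mainG D (key D h0 h1 h2 h3) h0 (by linarith [h1, h2]) h3
    have hωm : m₁ ≠ 0 → ω / m₁ * m₁ = ω := fun h => div_mul_cancel₀ ω h
    have hαm : a₁ ≠ 0 → α / a₁ * a₁ = α := fun h => div_mul_cancel₀ α h
    have hωθ : m₁ ≠ 0 → ω / m₁ ≤ θ := fun h => by
      have hpos : 0 < m₁ := lt_of_le_of_ne hm0 (Ne.symm h)
      rw [div_le_iff₀ hpos]; exact hω
    have hαθ : a₁ ≠ 0 → α / a₁ ≤ θ := fun h => by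
      have hpos : 0 < a₁ := lt_of_le_of_ne ha0 (Ne.symm h)
      rw [div_le_iff₀ hpos]; exact hα
    have fin : ∃ D : ℝ, D ≤ θ ∧ (ω ≤ D * m₁) ∧ (α ≤ D * a₁) ∧
        ((m₁ ≠ 0 ∧ ω / m₁ = D) ∨ (a₁ ≠ 0 ∧ α / a₁ = D)) := by
      by_cases hm' : m₁ = 0
      · have ha' : a₁ ≠ 0 := by
          rcases hmp with h | h
          · exact absurd hm' h
          · exact h
        refine ⟨α / a₁, hαθ ha', ?_, (hαm ha').ge, Or.inr ⟨ha', rfl⟩⟩
        rw [hm', mul_zero]; exact hω0 hm'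
      · by_cases ha' : a₁ = 0
        · refine ⟨ω / m₁, hωθ hm', (hωm hm').ge, ?_, Or.inl ⟨hm', rfl⟩⟩
          rw [ha', mul_zero]; exact hα0 ha'
        · rcases le_total (ω / m₁) (α / a₁) with h | h
          · refine ⟨α / a₁, hαθ ha', ?_, (hαm ha').ge, Or.inr ⟨ha', rfl⟩⟩
            calc ω = ω / m₁ * m₁ := (hωm hm').symm
              _ ≤ α / a₁ * m₁ := mul_le_mul_of_nonneg_right h hm0
          · refine ⟨ω / m₁, hωθ hm', (hωm hm').ge, ?_, Or.inl ⟨hm', rfl⟩⟩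
            calc α = α / a₁ * a₁ := (hαm ha').symm
              _ ≤ ω / m₁ * a₁ := mul_le_mul_of_nonneg_right h ha0
    obtain ⟨D, h0, h1, h2, h3⟩ := fin
    rcases concl D h0 h1 h2 h3 with h | h
    · exact Or.inl h
    · exact Or.inr (Or.inl h)

end Crest.Agent.R017.Eq177
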