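import Crest.Agent.R017.LBu2_180

/-!
# Row 17, C.REMg (LB), both classes (helper180): the lower bound with the compensated cross weight

* `gram_num` : the cut Gram sum by numbers, any smaller cut `Q`
* `LBE` : `2 cP K^(2/3) XJw ρ - SqQ ≤ C P^ε (...)`, the tail only for the compensated pieces
* `E1e_sc` : the three numbers of `E1e` at the second scale
-/

set_option autoImplicit false
set_option linter.unusedVariables false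

noncomputable section

open Complex MeasureTheory
open scoped ComplexConjugate Classical

namespace Crest.Agent.R017.LBu180

open Crest.Agent.R012 Crest.Agent.R012.Eis Crest.Agent.R012.MC
open Crest.Agent.R012.LS2 (S mem_S)
open Crest.Agent.R012.Mob705 (pdiv kap0)
open Crest.Agent.R012.Div277 (tau)
open Crest.Agent.R017.PX764 (Gh n6)
open Crest.Agent.R017.X6C180 (n13 GF)
open Crest.Agent.R017.CM106 (CS TG FS)
open Crest.Agent.R017.E1551 hiding tau Dg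
open Crest.Agent.R017.C70 (JW JC OKJ okJ_JW)
open Crest.Agent.R017.E2440 (TE Jb Qs prs C4 StE Fh)
open Crest.Agent.R017.EHu320 (EHc)
open Crest.Agent.R017.LB48 (CrP GrP summable_wR summable_wC)
open Crest.Agent.R017.I1146 (omr E2s c3 c3_nonneg LBw Dfw E1e E1e_le)
open Crest.Agent.R017.E3M829 (Cut Tal TC_Tal Sg gram_fin TF)
open Crest.Agent.R017.E3A164 (SteT Ys Fy)
open Crest.Agent.R017.DgB829 (HS HS_nonneg HS_le)
open Crest.Agent.R017.LBx48 hiding EHf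
open Crest.Agent.R017.WDec180 (WD sc sc_pos E2e cross_ex)
open Crest.Agent.R017.Ex385 (CrQ)
open Crest.Agent.R017.LBX180 (EHf EHc_sc e2x E1e_nonneg)

/-- 829's form of the cut Gram sum -/
lemma GrP_cut_eq {w : ℝ → ℝ} {K : ℝ} (E0 E1 : ℝ) (J : Finset (Eis × Eis)) (om : Eis × Eis → ℂ)
    (α : Eis → ℂ) : GrP w K (fun k => if Cut E1 k then StE E0 J om α k else 0) =
      ∑' k : Eis, if IsPrim k ∧ Cut E1 k then
        w ((nm k : ℝ) / K) * ‖SteT J om E0 (Tal α) k‖ ^ 2 else 0 := by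
  unfold LB48.GrP
  refine tsum_congr fun k => ?_
  rw [E3M829.SteT_Tal]
  beta_reduce
  by_cases h2 : IsPrim k
  · by_cases h3 : Cut E1 k
    · rw [if_pos h2, if_pos h3, if_pos ⟨h2, h3⟩]
    · rw [if_pos h2, if_neg h3, if_neg (fun h => h3 h.2)]
      simp
  · rw [if_neg h2, if_neg (fun h => h2 h.1)]

/-- **the cut Gram sum by numbers** -/
theorem gram_num {w : ℝ → ℝ} (hw : Wgt w) (hw0 : ∀ x, 0 ≤ w x) {R : ℝ} (hR : 0 ≤ R) {A : ℕ}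
    (hA : 2 ≤ A) {ε : ℝ} (hε : 0 < ε) : ∃ C : ℝ, 0 ≤ C ∧
    ∀ (P K X Y D Y₀ Z E0 E1 B : ℝ), 1 ≤ P → 0 < K → K ≤ P → 0 < X → 1 ≤ Y → Y ≤ P →
    0 ≤ D → D ≤ P → 0 < Z → Z ≤ P → 0 ≤ E0 → E0 ≤ Y → 1 ≤ B →
    ∀ α : Eis → ℂ, Adm Y X R α → ∀ om : Eis × Eis → ℂ, (∀ x, ‖om x‖ ≤ 1) →
    ∀ Q : Eis → Prop, (∀ k, IsPrim k → w (nm k / K) ≠ 0 → Q k → Cut E1 k) → ∀ OFF : ℝ,
    Sg w K B Z E1 (fun q t k₁ => ‖∑ y ∈ Ys (JW D Y₀ Z) E0 Z,
        Fy (JW D Y₀ Z) om (Tal α) q t k₁ y‖ ^ 2) ≤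
      Sg w K B Z E1 (fun q t k₁ => E3M829.Dg (JW D Y₀ Z) om (Tal α) E0 Z q t k₁) + OFF →
    GrP w K (fun k => if Q k then StE E0 (JW D Y₀ Z) om α k else 0) ≤
      c3 w K * (I1146.X3 Y E0 (JW D Y₀ Z) om α).re +
        (C * P ^ ε * ((Z / K ^ 2) ^ (1 / 6 : ℝ) + B⁻¹) * ((K / X) * EHs A K X Y Z E0 α) +
          OFF) := by
  obtain ⟨C₃, hC₃, H₃⟩ := TF_le R hR A hA
  obtain ⟨C₄, hC₄, H₄⟩ := gram_fin hw hw0 hε
  refine ⟨C₄ * C₃, by positivity, ?_⟩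
  intro P K X Y D Y₀ Z E0 E1 B hP1 hK hKP hX hY hYP hD hDP hZ hZP hE0 hE0Y hB α hα om hom Q hQ
    OFF hoff
  obtain ⟨I, hI⟩ := pow_unbounded_of_one_lt Z (by norm_num : (1 : ℝ) < 2)
  have hY0 : 0 ≤ Y := by linarith
  have hJok : OKJ (JW D Y₀ Z) := okJ_JW D Y₀ Z
  have hJm := fun x (hx : x ∈ JW D Y₀ Z) => I1146.JW_mem (Y₀ := Y₀) hD hZ hI x hx
  have a1 := H₄ K P Z E0 E1 B hK hP1 hKP hE0 (hE0Y.trans hYP) hZP hB (JW D Y₀ Z) hJok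
    (fun x hx => ((mem_S hD).1 (hJm x hx).1).1.trans hDP) (fun x hx => (hJm x hx).2.1) om (Tal α)
    (TC_Tal fun n hn => ((mem_S hY0).1 (hα.sup n hn)).2.2) OFF hoff
  rw [E3M829.XT_eq hE0 hE0Y, ← GrP_cut_eq] at a1
  have e2 : kap0 * K ^ (2 / 3 : ℝ) * E3M829.Iw w = c3 w K := by
    rw [I1146.Iw_eq]; unfold I1146.c3; ring
  rw [e2] at a1
  have a0 := GrP_le hw hw0 hK hQ (v := StE E0 (JW D Y₀ Z) om α)
  have c1 := H₃ Y X K D Y₀ Z E0 hY hX hK (1 / 2) om hom α hα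
  have c2 := H₃ Y X K D Y₀ Z E0 hY hX hK (-1) om hom α hα
  have d1 : EHc (fun n => (n : ℝ) ^ (1 / 2 : ℝ)) (fun e => e ∈ S E0) A K X Y Z α ≤
      EHs A K X Y Z E0 α := EHc_le_s (fun n hn => by
    have : (1 : ℝ) ≤ n := by exact_mod_cast hn
    calc (n : ℝ) ^ (1 / 2 : ℝ) ≤ (n : ℝ) ^ (1 : ℝ) :=
          Real.rpow_le_rpow_of_exponent_le this (by norm_num)
      _ = n := Real.rpow_one _) hY0 hK.le hX.le α
  have d2 : EHc (fun n => (n : ℝ) ^ (-1 : ℝ)) (fun e => e ∈ S E0) A K X Y Z α ≤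
      EHs A K X Y Z E0 α := EHc_le_s (fun n hn => by
    have : (1 : ℝ) ≤ n := by exact_mod_cast hn
    calc (n : ℝ) ^ (-1 : ℝ) ≤ (n : ℝ) ^ (1 : ℝ) :=
          Real.rpow_le_rpow_of_exponent_le this (by norm_num)
      _ = n := Real.rpow_one _) hY0 hK.le hX.le α
  have c1' := c1.trans (mul_le_mul_of_nonneg_left d1 (by positivity))
  have c2' := c2.trans (mul_le_mul_of_nonneg_left d2 (by positivity))
  refine a0.trans (a1.trans ?_)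
  have k1 : 0 ≤ (Z / K ^ 2) ^ (1 / 6 : ℝ) := by positivity
  have k2 : 0 ≤ B⁻¹ := by positivity
  have k3 : 0 ≤ C₄ * P ^ ε := by positivity
  have b1 := mul_le_mul_of_nonneg_left c1' k1
  have b2 := mul_le_mul_of_nonneg_left c2' k2
  have b3 := mul_le_mul_of_nonneg_left (add_le_add b1 b2) k3
  clear a1 a0 c1 c2 d1 d2 c1' c2' b1 b2
  linarith

/-- numbers -/
lemma asm_e {C₁ C₂ C₅ CG Q s t f e1 RR dg et OFF OFF' θ eh L e₂ e₃ G : ℝ} (h1 : 0 ≤ C₁)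
    (h2 : 0 ≤ C₂) (h5 : 0 ≤ C₅) (hG : 0 ≤ CG) (hQ : 1 ≤ Q) (hs : 0 ≤ s) (ht : 0 ≤ t)
    (hf : f ≤ s + t) (he1 : 0 ≤ e1) (hRR : 0 ≤ RR) (hdg : 0 ≤ dg) (het : 0 ≤ et)
    (hO : 0 ≤ OFF) (hO' : 0 ≤ OFF') (hθ : 0 < θ) (hθ1 : θ ≤ 1) (heh : 0 ≤ eh) (hehθ : eh ≤ θ)
    (hL0 : 0 ≤ L) (hL : L ≤ C₅ * Q)
    (he₂ : e₂ ≤ C₂ * L * ((θ * s + eh * f + e1) + RR) + dg + e₃ + et)
    (he₃ : e₃ ≤ CG * Q * 2 * (eh * s) + OFF') (hGd : G ≤ C₁ * Q * ((θ * s + θ⁻¹ * t) + e₂ + OFF)) :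
    G ≤ C₁ * (3 + 2 * C₂ * C₅ + 2 * CG) * (Q * Q) *
      ((θ * s + θ⁻¹ * t + e1) + RR + dg + et + OFF + OFF') := by
  have hθi : 1 ≤ θ⁻¹ := (one_le_inv₀ hθ).mpr hθ1
  set T := (θ * s + θ⁻¹ * t + e1) + RR + dg + et + OFF + OFF' with hT
  have p1 : 0 ≤ θ * s := by positivity
  have p2 : 0 ≤ θ⁻¹ * t := by positivity
  have hT0 : 0 ≤ T := by positivity
  have hQ0 : 0 ≤ Q := by linarith
  have q1 : eh * f ≤ θ * s + θ⁻¹ * t := by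
    have a1 : eh * f ≤ eh * (s + t) := mul_le_mul_of_nonneg_left hf heh
    have a2 : eh * s ≤ θ * s := mul_le_mul_of_nonneg_right hehθ hs
    have a3 : eh * t ≤ θ⁻¹ * t := mul_le_mul_of_nonneg_right (by linarith) ht
    linarith
  have q2 : (θ * s + eh * f + e1) + RR ≤ 2 * T := by
    rw [hT]; linarith
  have q3 : C₂ * L * ((θ * s + eh * f + e1) + RR) ≤ C₂ * (C₅ * Q) * (2 * T) := by
    have a1 : C₂ * L * ((θ * s + eh * f + e1) + RR) ≤ C₂ * L * (2 * T) :=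
      mul_le_mul_of_nonneg_left q2 (by positivity)
    have a2 : C₂ * L * (2 * T) ≤ C₂ * (C₅ * Q) * (2 * T) :=
      mul_le_mul_of_nonneg_right (mul_le_mul_of_nonneg_left hL h2) (by positivity)
    exact a1.trans a2
  have q4 : CG * Q * 2 * (eh * s) ≤ 2 * CG * (Q * T) := by
    have a2 : eh * s ≤ T := by
      have : eh * s ≤ θ * s := mul_le_mul_of_nonneg_right hehθ hs
      rw [hT]; linarith
    have a1 : CG * Q * 2 * (eh * s) ≤ CG * Q * 2 * T := mul_le_mul_of_nonneg_left a2 (by positivity)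
    linarith
  have q5 : T ≤ Q * T := le_mul_of_one_le_left hT0 hQ
  have q6 : e₂ ≤ (2 * C₂ * C₅ + 2 * CG + 1) * (Q * T) := by
    have a1 : dg + OFF' + et ≤ T := by rw [hT]; linarith
    linarith
  have q7 : (θ * s + θ⁻¹ * t) + e₂ + OFF ≤ (3 + 2 * C₂ * C₅ + 2 * CG) * (Q * T) := by
    have a1 : θ * s + θ⁻¹ * t ≤ T := by rw [hT]; linarith
    have a2 : OFF ≤ T := by rw [hT]; linarith
    linarith
  refine hGd.trans ((mul_le_mul_of_nonneg_left q7 (by positivity)).trans (le_of_eq ?_))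
  ring

set_option maxHeartbeats 1000000 in
/-- **(LB), both classes: compensated cross weight, any cut, tail for the compensated pieces** -/
theorem LBE {w : ℝ → ℝ} (hw : Wgt w) (hw0 : ∀ x, 0 ≤ w x) {N : ℕ} {M : ℝ} {F : ℕ → ℝ → ℂ}
    (hD : WD w N M F) {R : ℝ} (hR : 0 ≤ R) {A : ℕ} (hA : 2 ≤ A) {B₂ : ℝ} (hB₂ : 1 ≤ B₂)
    {ε : ℝ} (hε : 0 < ε) : ∃ C : ℝ, 0 ≤ C ∧
    ∀ (P K X Y D Y₀ Y₀' Y₁ Z E0 E1 B θ h : ℝ) (I : ℕ), 1 ≤ P → 0 < K → K ≤ P → 0 < X → 1 ≤ Y →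
    Y ≤ P → 0 ≤ D → D ≤ P → 0 < Y₁ → Y₁ ≤ Z → Z ≤ P → 0 ≤ E0 → E0 ≤ Y → 1 ≤ B → 0 < θ → θ ≤ 1 →
    B⁻¹ ≤ θ → (Z / K ^ 2) ^ (1 / 6 : ℝ) ≤ θ → 0 ≤ h → Real.exp (-(h / 3)) ≤ θ →
    (Z / (K * Real.exp (-h)) ^ 2) ^ (1 / 6 : ℝ) ≤ 1 → Z < 2 ^ I →
    ∀ α : Eis → ℂ, Adm Y X R α → ∀ Om ρ : ℕ → ℝ, (∀ n, ρ n = 2 * Om n - Om n ^ 2) →
    (∀ n, 0 ≤ Om n) → (∀ n, Om n ≤ 1) →
    ∀ Q : Eis → Prop, (∀ k, IsPrim k → w (nm k / K) ≠ 0 → Q k → Cut E1 k) →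
    (∀ k, IsPrim k → w (nm k / (K * Real.exp (-h))) ≠ 0 → Q k → Cut E1 k) →
    ∀ et OFF OFF' dg : ℝ, 0 ≤ OFF → 0 ≤ OFF' → 0 ≤ dg → E1551.Dg w K Y α ≤ dg →
    ∑ i ∈ Finset.range N, ‖CrQ (GF (Fh (F i) h)) (fun k => ¬ Q k) (sc K M i) α
      (StE E0 (JW D Y₀ Z) (omr Om) α)‖ ≤ et →
    Sg w K B Z E1 (fun q t k₁ => ‖∑ y ∈ Ys (JW D Y₀ Z) E0 Z,
        Fy (JW D Y₀ Z) (omr Om) (Tal α) q t k₁ y‖ ^ 2) ≤
      Sg w K B Z E1 (fun q t k₁ => E3M829.Dg (JW D Y₀ Z) (omr Om) (Tal α) E0 Z q t k₁) + OFF →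
    Sg w (K * Real.exp (-h)) B Z E1 (fun q t k₁ => ‖∑ y ∈ Ys (JW D Y₀ Z) E0 Z,
        Fy (JW D Y₀ Z) (omr Om) (Tal α) q t k₁ y‖ ^ 2) ≤
      Sg w (K * Real.exp (-h)) B Z E1
        (fun q t k₁ => E3M829.Dg (JW D Y₀ Z) (omr Om) (Tal α) E0 Z q t k₁) + OFF' →
    2 * cP w * K ^ (2 / 3 : ℝ) * (XJw ρ (JW D Y₀ Z) α).re - SqQ w K Q α ≤
      C * P ^ ε * (((K / X) * (θ * EHs A K X Y Z E0 α + θ⁻¹ * EHt A K X Y Z E0 α +
          Real.exp (-(2 * h / 3)) * E1e A B₂ (K * Real.exp (-h)) X Y Y Y₀' Y₁ α)) +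
        θ⁻¹ * ∑ i ∈ Finset.range N, REb α (sc K M i) (GF (Fh (F i) h)) (S D) I E0 Z Z +
        Real.exp (-(2 * h / 3)) * dg + et + OFF + Real.exp (h / 3) * OFF') := by
  have hε2 : 0 < ε / 2 := by positivity
  obtain ⟨C₁, hC₁, H₁⟩ := LBz1 hw hw0 hR hA hε2
  obtain ⟨C₂, hC₂, H₂⟩ := e2x hw hw0 hD hR hA hB₂
  obtain ⟨CG, hCG, HG⟩ := gram_num hw hw0 hR hA hε2
  obtain ⟨C₅, hC₅, H₅⟩ := PInv255.one_add_log_pow_le 1 (ε / 2) hε2
  refine ⟨C₁ * (3 + 2 * C₂ * C₅ + 2 * CG), by positivity, ?_⟩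
  intro P K X Y D Y₀ Y₀' Y₁ Z E0 E1 B θ h I hP1 hK hKP hX hY hYP hD0 hDP hY₁ hYZ hZP hE0 hE0Y hB
    hθ hθ1 hBθ hKθ hh hhθ hK'1 hI α hα Om ρ hρ h0 h1 Q hQ hQ' et OFF OFF' dg hOFF hOFF' hdg hDg
    hetb hoff hoff'
  have hZ : 0 < Z := by linarith
  have hK' : 0 < K * Real.exp (-h) := by positivity
  have hK'K : K * Real.exp (-h) ≤ K := mul_le_of_le_one_right hK.le (Real.exp_le_one_iff.mpr
    (by linarith))
  have hom1 : ∀ x, ‖omr Om x‖ ≤ 1 := by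
    intro x
    unfold I1146.omr
    rw [Complex.norm_real, Real.norm_of_nonneg (h0 _)]
    exact h1 _
  have hs0 : 0 ≤ EHs A K X Y Z E0 α := EHc_nonneg (fun n => Nat.cast_nonneg n) _ hK.le hX.le α
  have ht0 : 0 ≤ EHt A K X Y Z E0 α := EHc_nonneg (fun n => by positivity) _ hK.le hX.le α
  have hKX : 0 ≤ K / X := by positivity
  -- the Gram sum at the second scale
  have g1 := HG P (K * Real.exp (-h)) X Y D Y₀ Z E0 E1 B hP1 hK' (hK'K.trans hKP) hX hY hYP hD0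
    hDP hZ hZP hE0 hE0Y hB α hα (omr Om) hom1 Q hQ' OFF' hoff'
  set e₃ := CG * P ^ (ε / 2) * ((Z / (K * Real.exp (-h)) ^ 2) ^ (1 / 6 : ℝ) + B⁻¹) *
    ((K * Real.exp (-h) / X) * EHs A (K * Real.exp (-h)) X Y Z E0 α) + OFF' with he₃
  have hs1 : EHs A (K * Real.exp (-h)) X Y Z E0 α = Real.exp (h / 3) * EHs A K X Y Z E0 α := by
    unfold LBx48.EHs
    rw [EHc_sc (Real.exp_pos _).le _ _ hK.le, ← Real.exp_mul]
    congr 2
    ring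
  have hPe : 1 ≤ P ^ (ε / 2) := Real.one_le_rpow hP1 hε2.le
  have he₃0 : 0 ≤ e₃ := by
    rw [he₃, hs1]
    positivity
  have he₃b : Real.exp (h / 3) * |e₃| ≤
      CG * P ^ (ε / 2) * 2 * (Real.exp (-(h / 3)) * ((K / X) * EHs A K X Y Z E0 α)) +
        Real.exp (h / 3) * OFF' := by
    rw [abs_of_nonneg he₃0, he₃, hs1, mul_add]
    have hB1 : B⁻¹ ≤ 1 := inv_le_one_of_one_le₀ hB
    have c1 : CG * P ^ (ε / 2) * ((Z / (K * Real.exp (-h)) ^ 2) ^ (1 / 6 : ℝ) + B⁻¹) ≤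
        CG * P ^ (ε / 2) * 2 := mul_le_mul_of_nonneg_left (by linarith) (by positivity)
    have c2 : Real.exp (h / 3) * ((K * Real.exp (-h) / X) *
        (Real.exp (h / 3) * EHs A K X Y Z E0 α)) =
        Real.exp (-(h / 3)) * ((K / X) * EHs A K X Y Z E0 α) := by
      have e9 : Real.exp (h / 3) * Real.exp (-h) * Real.exp (h / 3) = Real.exp (-(h / 3)) := by
        rw [← Real.exp_add, ← Real.exp_add]; congr 1; ring
      rw [← e9]; ring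
    have c3 : 0 ≤ Real.exp (-(h / 3)) * ((K / X) * EHs A K X Y Z E0 α) := by positivity
    have c4 := mul_le_mul_of_nonneg_right c1 c3
    rw [← c2] at c4
    have c5 : Real.exp (h / 3) * (CG * P ^ (ε / 2) *
        ((Z / (K * Real.exp (-h)) ^ 2) ^ (1 / 6 : ℝ) + B⁻¹) *
        ((K * Real.exp (-h) / X) * (Real.exp (h / 3) * EHs A K X Y Z E0 α))) =
        CG * P ^ (ε / 2) * ((Z / (K * Real.exp (-h)) ^ 2) ^ (1 / 6 : ℝ) + B⁻¹) *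
        (Real.exp (h / 3) * ((K * Real.exp (-h) / X) *
        (Real.exp (h / 3) * EHs A K X Y Z E0 α))) := by ring
    rw [c5, ← c2]
    linarith
  -- the cross error
  have x1 := H₂ K X Y D Y₀ Y₀' Y₁ Z E0 h θ I hK hX hY hY₁ hYZ hh hD0 hE0 hθ hI α hα (omr Om)
    hom1 Q e₃ et g1 hetb
  obtain ⟨e₂, he₂⟩ : ∃ e : ℝ, e = C₂ * (1 + Real.log Y) * ((K / X) * (θ * EHs A K X Y Z E0 α +
          Real.exp (-(h / 3)) * EHf A K X Y Z α +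
          Real.exp (-(2 * h / 3)) * E1e A B₂ (K * Real.exp (-h)) X Y Y Y₀' Y₁ α) +
        θ⁻¹ * ∑ i ∈ Finset.range N, REb α (sc K M i) (GF (Fh (F i) h)) (S D) I E0 Z Z) +
        Real.exp (-(2 * h / 3)) * E1551.Dg w K Y α + Real.exp (h / 3) * |e₃| + et := ⟨_, rfl⟩
  rw [← he₂] at x1
  have z1 := H₁ P K X Y D Y₀ Z E0 E1 B θ hP1 hK hKP hX hY hYP hD0 hDP hZ hZP hE0 hE0Y hB hθ hθ1
    hBθ hKθ α hα Om ρ hρ h0 h1 Q hQ e₂ OFF hOFF x1 hoff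
  -- numbers
  have hf : EHf A K X Y Z α ≤ EHs A K X Y Z E0 α + EHt A K X Y Z E0 α := by
    have d0 := EHc_split (c := fun n => ((n : ℝ))⁻¹) (fun e => e ∈ S E0) (A := (A : ℝ)) (K := K)
      (X := X) (Y := Y) (Z := Z) α
    have d1 : EHc (fun n => ((n : ℝ))⁻¹) (fun e => e ∈ S E0) A K X Y Z α ≤
        EHs A K X Y Z E0 α := EHc_le_s (fun n hn => by
      have : (1 : ℝ) ≤ n := by exact_mod_cast hn
      exact (inv_le_one_of_one_le₀ this).trans this) (by linarith) hK.le hX.le α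
    have d2 : EHc (fun n => ((n : ℝ))⁻¹) (fun e => ¬ (e ∈ S E0)) A K X Y Z α =
        EHt A K X Y Z E0 α := rfl
    unfold LBX180.EHf
    rw [d0, d2]; linarith
  have hL : 1 + Real.log Y ≤ C₅ * P ^ (ε / 2) := by
    have h6 := H₅ P hP1
    rw [pow_one] at h6
    have h7 : Real.log Y ≤ Real.log P := Real.log_le_log (by linarith) hYP
    linarith
  have hE1 : 0 ≤ E1e A B₂ (K * Real.exp (-h)) X Y Y Y₀' Y₁ α := E1e_nonneg hK'.le hX.le hY₁.le α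
  have hr0 : 0 ≤ ∑ i ∈ Finset.range N, REb α (sc K M i) (GF (Fh (F i) h)) (S D) I E0 Z Z := by
    refine Finset.sum_nonneg fun i _ => ?_
    unfold LBx48.REb
    refine Finset.sum_nonneg fun δ _ => Finset.sum_nonneg fun j _ => Finset.sum_nonneg fun e _ => ?_
    have h9 : 0 ≤ (sc K M i) ^ (-(2 / 3) : ℝ) := Real.rpow_nonneg (sc_pos hK M i).le _
    positivity
  have het0 : 0 ≤ et := (Finset.sum_nonneg fun i _ => norm_nonneg _).trans hetb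
  have hPP : P ^ (ε / 2) * P ^ (ε / 2) = P ^ ε := by
    rw [← Real.rpow_add (by linarith)]; congr 1; ring
  have hlog := Real.log_nonneg hY
  have fin := asm_e (G := 2 * cP w * K ^ (2 / 3 : ℝ) * (XJw ρ (JW D Y₀ Z) α).re - SqQ w K Q α)
    (s := (K / X) * EHs A K X Y Z E0 α) (t := (K / X) * EHt A K X Y Z E0 α)
    (f := (K / X) * EHf A K X Y Z α)
    (e1 := (K / X) * (Real.exp (-(2 * h / 3)) * E1e A B₂ (K * Real.exp (-h)) X Y Y Y₀' Y₁ α))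
    (RR := θ⁻¹ * ∑ i ∈ Finset.range N, REb α (sc K M i) (GF (Fh (F i) h)) (S D) I E0 Z Z)
    (dg := Real.exp (-(2 * h / 3)) * dg) (L := 1 + Real.log Y)
    (OFF' := Real.exp (h / 3) * OFF') (e₃ := Real.exp (h / 3) * |e₃|)
    hC₁ hC₂ (by linarith) hCG hPe (mul_nonneg hKX hs0) (mul_nonneg hKX ht0)
    (by rw [← mul_add]; exact mul_le_mul_of_nonneg_left hf hKX)
    (mul_nonneg hKX (mul_nonneg (Real.exp_pos _).le hE1))
    (mul_nonneg (inv_pos.mpr hθ).le hr0) (mul_nonneg (Real.exp_pos _).le hdg) het0 hOFF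
    (mul_nonneg (Real.exp_pos _).le hOFF') hθ hθ1 (Real.exp_pos (-(h / 3))).le hhθ
    (by linarith) hL (e₂ := e₂) ?_ he₃b (z1.trans (le_of_eq ?_))
  · rw [hPP] at fin
    refine fin.trans (le_of_eq ?_)
    ring
  · have d9 : Real.exp (-(2 * h / 3)) * E1551.Dg w K Y α ≤ Real.exp (-(2 * h / 3)) * dg :=
      mul_le_mul_of_nonneg_left hDg (Real.exp_pos _).le
    rw [he₂]
    have e9 : C₂ * (1 + Real.log Y) * ((K / X) * (θ * EHs A K X Y Z E0 α +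
          Real.exp (-(h / 3)) * EHf A K X Y Z α +
          Real.exp (-(2 * h / 3)) * E1e A B₂ (K * Real.exp (-h)) X Y Y Y₀' Y₁ α) +
        θ⁻¹ * ∑ i ∈ Finset.range N, REb α (sc K M i) (GF (Fh (F i) h)) (S D) I E0 Z Z) =
        C₂ * (1 + Real.log Y) * ((θ * ((K / X) * EHs A K X Y Z E0 α) +
          Real.exp (-(h / 3)) * ((K / X) * EHf A K X Y Z α) +
          (K / X) * (Real.exp (-(2 * h / 3)) *
            E1e A B₂ (K * Real.exp (-h)) X Y Y Y₀' Y₁ α)) +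
        θ⁻¹ * ∑ i ∈ Finset.range N, REb α (sc K M i) (GF (Fh (F i) h)) (S D) I E0 Z Z) := by
      ring
    rw [e9]
    linarith
  · ring

end Crest.Agent.R017.LBu180
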