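import Crest.Agent.R017.LBh_48
import Crest.Agent.R017.CubS_813
import Crest.Agent.R017.LBE_180

/-!
# Row 17, the tail of (LB) by the complete `c`-sum (helper404), part A: the `l`-terms of the pieces

* `RLn` : the R-number of the `l`-terms of the compensated pieces
* `l_piece` : one weight
* `l_part` : all compensated pieces, by the T-functionals `EHs`, `EHf` and `RLn`
-/

set_option autoImplicit false
set_option linter.unusedVariables false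

noncomputable section

open Complex MeasureTheory
open scoped ComplexConjugate Classical

namespace Crest.Agent.R017.Et404

open Crest.Agent.R012 Crest.Agent.R012.Eis Crest.Agent.R012.MC
open Crest.Agent.R012.LS2 (S mem_S)
open Crest.Agent.R012.Mob705 (mu)
open Crest.Agent.R012.Div277 (tau dvs mem_dvs)
open Crest.Agent.R017.X6C180 (n13 cM GF)
open Crest.Agent.R017.X6545 (TF)
open Crest.Agent.R017.X6W180 (tf1_tf)
open Crest.Agent.R017.CM106 (CS FS)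
open Crest.Agent.R017.E1551 (Adm nmpos)
open Crest.Agent.R017.C70 (JW OKJ okJ_JW)
open Crest.Agent.R017.E2440 (TE StE StT TOK tok_TE StT_TE cM_nn Fh mellin_Fh)
open Crest.Agent.R017.DgB829 (HS HS_nonneg HS_le)
open Crest.Agent.R017.Ex385 (CrQ)
open Crest.Agent.R017.WDec180 (WD sc sc_pos)
open Crest.Agent.R017.LBx48 (AS BS AS_nonneg BS_nonneg AS_le EHs EHf REb REb_nonneg tail_l
  EHc_nonneg)
open Crest.Agent.R017.CubP813 (LTs NTs lamL rl rl_prim rl_sqf rl_dvd norm_lamL_le Qc)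

/-! ### the R-number -/

/-- the `l` of one piece -/
def Lset (X : ℕ) (L b₀ K : ℝ) : Finset Eis :=
  (primBall X).filter (fun l => L < (nm l : ℝ) ∧ (nm l : ℝ) ^ 3 ≤ b₀ * K)

/-- the R-number of one weight -/
def RL1 (F : ℝ → ℂ) (b₀ K L : ℝ) (X : ℕ) (α : Eis → ℂ) (D : ℝ) (I : ℕ) (E0 Z : ℝ) : ℝ :=
  ∑ l ∈ Lset X L b₀ K, (nm l : ℝ)⁻¹ * ∑ a ∈ dvs (rl l),
    REb (CubP813.alr α a (rl l / a)) (K / (nm l : ℝ) ^ 3) F
      ((S D).filter (fun δ => rl l / a ∣ δ)) I E0 Z Z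

/-- **the R-number of the `l`-terms of the compensated pieces** -/
def RLn (N : ℕ) (F : ℕ → ℝ → ℂ) (h M K L : ℝ) (X : ℕ) (α : Eis → ℂ) (D : ℝ) (I : ℕ)
    (E0 Z : ℝ) : ℝ :=
  ∑ i ∈ Finset.range N, RL1 (GF (Fh (F i) h)) (Real.exp 2) (sc K M i) L X α D I E0 Z

lemma RL1_nonneg {F : ℝ → ℂ} {b₀ K L : ℝ} (hK : 0 ≤ K) {X : ℕ} {α : Eis → ℂ} {D : ℝ} {I : ℕ}
    {E0 Z : ℝ} (hZ : 0 ≤ Z) : 0 ≤ RL1 F b₀ K L X α D I E0 Z :=
  Finset.sum_nonneg fun l _ => mul_nonneg (by positivity)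
    (Finset.sum_nonneg fun a _ => REb_nonneg (by positivity) hZ)

lemma RLn_nonneg {N : ℕ} {F : ℕ → ℝ → ℂ} {h M K L : ℝ} (hK : 0 < K) {X : ℕ} {α : Eis → ℂ}
    {D : ℝ} {I : ℕ} {E0 Z : ℝ} (hZ : 0 ≤ Z) : 0 ≤ RLn N F h M K L X α D I E0 Z :=
  Finset.sum_nonneg fun i _ => RL1_nonneg (sc_pos hK M i).le hZ

/-! ### one weight -/

/-- no `k` beyond the support -/
lemma LTs_zero {U : ℝ → ℂ} {b₀ K : ℝ} (hU : ∀ x, U x ≠ 0 → x ≤ b₀) (hK : 0 < K)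
    {P : Eis → Prop} {E0 : ℝ} {α : Eis → ℂ} {J : Finset (Eis × Eis)} {om : Eis × Eis → ℂ}
    {T : Eis × Eis → Eis → ℂ} {l : Eis} (hl : IsPrim l) (h : ¬ (nm l : ℝ) ^ 3 ≤ b₀ * K) :
    LTs U P K E0 α J om T l = 0 := by
  have hln := nmpos hl.ne_zero
  have hκ : 0 < K / (nm l : ℝ) ^ 3 := by positivity
  unfold CubP813.LTs
  refine Finset.sum_eq_zero fun a _ => ?_
  refine LBx48.CrQ_zero hU hκ ?_ _ _ _
  rw [one_div, inv_div, lt_div_iff₀ hK]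
  exact not_le.mp h

/-- **one weight** -/
theorem l_piece {ε : ℝ} (hε : 0 < ε) : ∃ C : ℝ, 0 ≤ C ∧
    ∀ (U : ℝ → ℂ) (b₀ P K Y D Y₀ Z E0 L θ : ℝ) (I X : ℕ), (∀ x, U x ≠ 0 → x ≤ b₀) →
    1 ≤ P → (X : ℝ) ≤ P → 0 < K → 0 ≤ Y → 0 ≤ D → 0 < Z → Z < 2 ^ I → 0 ≤ E0 → E0 ≤ Y →
    0 < L → 0 < θ → ∀ α : Eis → ℂ, (∀ n, α n ≠ 0 → n ∈ S Y) →
    ∀ om : Eis × Eis → ℂ, (∀ x, ‖om x‖ ≤ 1) →
    ‖∑ l ∈ (primBall X).filter (fun l => L < (nm l : ℝ)), (lamL L l : ℂ) *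
        LTs U (fun _ => True) K E0 α (JW D Y₀ Z) om (TE α) l‖ ≤
      C * P ^ ε * ((1 + cM * ‖mellin U ((2 / 3 : ℝ) : ℂ)‖ * HS Y) *
        (θ * (K ^ (2 / 3 : ℝ) * AS E0 (JW D Y₀ Z) α) +
          (θ * L)⁻¹ * (K ^ (2 / 3 : ℝ) * BS Y (JW D Y₀ Z) α)) +
        θ⁻¹ * RL1 U b₀ K L X α D I E0 Z) := by
  obtain ⟨C, hC, H⟩ := tail_l hε
  refine ⟨C, hC, ?_⟩
  intro U b₀ P K Y D Y₀ Z E0 L θ I X hU hP hXP hK hY hD hZ hI hE0 hEY hL hθ α hα om hom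
  have e1 : ∑ l ∈ (primBall X).filter (fun l => L < (nm l : ℝ)), (lamL L l : ℂ) *
        LTs U (fun _ => True) K E0 α (JW D Y₀ Z) om (TE α) l =
      ∑ l ∈ Lset X L b₀ K, (lamL L l : ℂ) *
        LTs U (fun _ => True) K E0 α (JW D Y₀ Z) om (TE α) l := by
    symm
    refine Finset.sum_subset ?_ ?_
    · intro l hl
      unfold Lset at hl
      rw [Finset.mem_filter] at hl ⊢
      exact ⟨hl.1, hl.2.1⟩
    · intro l hl hl'
      rw [Finset.mem_filter] at hl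
      have h1 : ¬ (nm l : ℝ) ^ 3 ≤ b₀ * K := by
        intro h
        apply hl'
        unfold Lset
        rw [Finset.mem_filter]
        exact ⟨hl.1, hl.2, h⟩
      rw [LTs_zero hU hK (mem_primBall.1 hl.1).2 h1, mul_zero]
  rw [e1]
  have h := H U b₀ P K Y D Y₀ Z E0 L θ I hU hP hK hY hD hZ hI hE0 hEY hL hθ α hα om hom
    (Lset X L b₀ K) rl (fun l => (lamL L l : ℂ)) (fun l hl => by
      unfold Lset at hl
      rw [Finset.mem_filter, mem_primBall] at hl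
      refine ⟨hl.1.2, hl.2.1.le, ?_, rl_prim l, rl_sqf l, rl_dvd l, norm_lamL_le L l⟩
      exact (Nat.cast_le.2 hl.1.1).trans hXP)
  exact h

/-! ### the compensated pieces -/

lemma GFh_supp {F : ℝ → ℂ} (hF : TF F) {h : ℝ} (hh : 0 ≤ h) (x : ℝ) (hx : GF (Fh F h) x ≠ 0) :
    x ≤ Real.exp 2 := by
  unfold X6C180.GF at hx
  split_ifs at hx with h0
  · by_contra hc
    apply hx
    have h1 : 2 < Real.log x := by rwa [Real.lt_log_iff_exp_lt h0, ← not_le]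
    unfold E2440.Fh
    rw [hF.supp _ (h1.trans_le (le_abs_self _)),
      hF.supp _ ((by linarith : 2 < Real.log x + h).trans_le (le_abs_self _))]
    ring
  · exact absurd rfl hx

lemma mellin_le {F : ℝ → ℂ} (hF : TF F) {h : ℝ} (hh : 0 ≤ h) :
    ‖mellin (GF (Fh F h)) ((2 / 3 : ℝ) : ℂ)‖ ≤ ‖mellin (GF F) ((2 / 3 : ℝ) : ℂ)‖ := by
  rw [mellin_Fh hF, norm_mul, Complex.norm_real]
  have h1 : Real.exp (-(h / 3)) ≤ 1 := Real.exp_le_one_iff.mpr (by linarith)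
  have h2 := Real.exp_pos (-(h / 3))
  refine mul_le_of_le_one_left (norm_nonneg _) ?_
  rw [Real.norm_eq_abs, abs_le]
  constructor <;> linarith

lemma sc_le {K M : ℝ} (hK : 0 < K) (hM : 0 ≤ M) {i N : ℕ} (hi : i ∈ Finset.range N) :
    sc K M i ≤ Real.exp N * K := by
  unfold WDec180.sc
  have h1 : (i : ℝ) ≤ N := by exact_mod_cast (Finset.mem_range.mp hi).le
  have h2 : Real.exp (i - M) ≤ Real.exp N := Real.exp_le_exp.mpr (by linarith)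
  calc K * Real.exp (i - M) ≤ K * Real.exp N := mul_le_mul_of_nonneg_left h2 hK.le
    _ = _ := mul_comm _ _

lemma real_lp {C₁ C₂ μ c E Q Q₂ kx s f θ θL k23 A B G R ki : ℝ} (hC₁ : 0 ≤ C₁) (hC₂ : 0 ≤ C₂)
    (hE : 0 ≤ E) (hQ : 1 ≤ Q) (hG0 : 0 ≤ G) (hG : G ≤ μ * Q) (hμ : 0 ≤ μ)
    (hki : ki ≤ E * k23) (hA : 0 ≤ A) (hB : 0 ≤ B) (hθ : 0 ≤ θ) (hθL : 0 ≤ θL)
    (hs : k23 * A ≤ C₂ * kx * s) (hf : k23 * B ≤ C₂ * kx * f) (hR : 0 ≤ R)
    (hkxs : 0 ≤ kx * s) (hkxf : 0 ≤ kx * f) :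
    C₁ * Q * (G * (θ * (ki * A) + θL * (ki * B)) + R) ≤
      C₁ * (μ * E * C₂ + 1) * (Q * Q) * ((θ * (kx * s) + θL * (kx * f)) + R) := by
  have a1 : ki * A ≤ E * (C₂ * (kx * s)) := by
    calc ki * A ≤ E * k23 * A := mul_le_mul_of_nonneg_right hki hA
      _ = E * (k23 * A) := by ring
      _ ≤ E * (C₂ * kx * s) := mul_le_mul_of_nonneg_left hs hE
      _ = _ := by ring
  have a2 : ki * B ≤ E * (C₂ * (kx * f)) := by
    calc ki * B ≤ E * k23 * B := mul_le_mul_of_nonneg_right hki hB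
      _ = E * (k23 * B) := by ring
      _ ≤ E * (C₂ * kx * f) := mul_le_mul_of_nonneg_left hf hE
      _ = _ := by ring
  set T := θ * (kx * s) + θL * (kx * f) with hT
  have hT0 : 0 ≤ T := by positivity
  have a3 : θ * (ki * A) + θL * (ki * B) ≤ E * C₂ * T := by
    have b1 := mul_le_mul_of_nonneg_left a1 hθ
    have b2 := mul_le_mul_of_nonneg_left a2 hθL
    calc θ * (ki * A) + θL * (ki * B) ≤ θ * (E * (C₂ * (kx * s))) + θL * (E * (C₂ * (kx * f))) :=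
          add_le_add b1 b2
      _ = _ := by rw [hT]; ring
  have hQ0 : 0 ≤ Q := by linarith
  have a4 : G * (θ * (ki * A) + θL * (ki * B)) ≤ μ * Q * (E * C₂ * T) := by
    calc G * (θ * (ki * A) + θL * (ki * B)) ≤ G * (E * C₂ * T) :=
          mul_le_mul_of_nonneg_left a3 hG0
      _ ≤ _ := mul_le_mul_of_nonneg_right hG (by positivity)
  have a5 : R ≤ Q * R := le_mul_of_one_le_left hR hQ
  have a6 : G * (θ * (ki * A) + θL * (ki * B)) + R ≤ Q * ((μ * E * C₂ + 1) * (T + R)) := by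
    have b1 : 0 ≤ Q * (μ * E * C₂ * R) := by positivity
    have b2 : 0 ≤ Q * T := by positivity
    calc G * (θ * (ki * A) + θL * (ki * B)) + R ≤ μ * Q * (E * C₂ * T) + Q * R :=
          add_le_add a4 a5
      _ ≤ μ * Q * (E * C₂ * T) + Q * R + (Q * (μ * E * C₂ * R) + Q * T) := by linarith
      _ = _ := by ring
  calc C₁ * Q * (G * (θ * (ki * A) + θL * (ki * B)) + R) ≤
        C₁ * Q * (Q * ((μ * E * C₂ + 1) * (T + R))) :=
        mul_le_mul_of_nonneg_left a6 (by positivity)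
    _ = _ := by ring

set_option maxHeartbeats 1000000 in
/-- **the `l`-terms of all compensated pieces** -/
theorem l_part {w : ℝ → ℝ} {N : ℕ} {M : ℝ} {F : ℕ → ℝ → ℂ} (hD : WD w N M F) {R : ℝ}
    (hR : 0 ≤ R) {A : ℕ} (hA : 2 ≤ A) {ε : ℝ} (hε : 0 < ε) : ∃ C : ℝ, 0 ≤ C ∧
    ∀ (P K Xx Y D Y₀ Z E0 L θ h : ℝ) (I X : ℕ), 1 ≤ P → (X : ℝ) ≤ P → 0 < K → 0 < Xx →
    1 ≤ Y → Y ≤ P → 0 ≤ D → 0 < Z → Z < 2 ^ I → 0 ≤ E0 → E0 ≤ Y → 0 < L → 0 < θ → 0 ≤ h →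
    ∀ α : Eis → ℂ, Adm Y Xx R α → ∀ om : Eis × Eis → ℂ, (∀ x, ‖om x‖ ≤ 1) →
    ∑ i ∈ Finset.range N, ‖∑ l ∈ (primBall X).filter (fun l => L < (nm l : ℝ)),
        (lamL L l : ℂ) * LTs (GF (Fh (F i) h)) (fun _ => True) (sc K M i) E0 α (JW D Y₀ Z) om
          (TE α) l‖ ≤
      C * P ^ ε * ((K / Xx) * (θ * EHs A K Xx Y Z E0 α + (θ * L)⁻¹ * EHf A K Xx Y Z α) +
        θ⁻¹ * RLn N F h M K L X α D I E0 Z) := by
  have hε2 : 0 < ε / 2 := by positivity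
  obtain ⟨C₁, hC₁, H₁⟩ := l_piece hε2
  obtain ⟨C₂, hC₂, H₂⟩ := AS_le R hR A hA
  obtain ⟨C₅, hC₅, H₅⟩ := PInv255.one_add_log_pow_le 1 (ε / 2) hε2
  set m : ℝ := ∑ i ∈ Finset.range N, ‖mellin (GF (F i)) ((2 / 3 : ℝ) : ℂ)‖ with hm
  have hm0 : 0 ≤ m := Finset.sum_nonneg fun _ _ => norm_nonneg _
  have hcM := cM_nn
  set μ : ℝ := 1 + cM * m * (200 * C₅) with hμ
  have hμ0 : 0 ≤ μ := by positivity
  set Ex := Real.exp (2 / 3 * N) with hEx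
  have hEx0 : 0 < Ex := Real.exp_pos _
  refine ⟨(N + 1) * (C₁ * (μ * Ex * C₂ + 1)), by positivity, ?_⟩
  intro P K Xx Y D Y₀ Z E0 L θ h I X hP hXP hK hXx hY hYP hD0 hZ hI hE0 hEY hL hθ hh α hα om hom
  have hY0 : 0 ≤ Y := by linarith
  have hs0 : 0 ≤ EHs A K Xx Y Z E0 α :=
    EHc_nonneg (fun n => Nat.cast_nonneg n) _ hK.le hXx.le α
  have hf0 : 0 ≤ EHf A K Xx Y Z α := EHc_nonneg (fun n => by positivity) _ hK.le hXx.le α
  have hKX : 0 ≤ K / Xx := by positivity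
  have hPe : 1 ≤ P ^ (ε / 2) := Real.one_le_rpow hP hε2.le
  have hAS := AS_nonneg E0 (JW D Y₀ Z) α
  have hBS := BS_nonneg Y (JW D Y₀ Z) α
  obtain ⟨g1, g2⟩ := H₂ Y Xx K D Y₀ Z E0 hY hXx hK hE0 hEY α hα
  have hHS := HS_nonneg Y
  have hHS1 : HS Y ≤ 200 * C₅ * P ^ (ε / 2) := by
    have h6 := H₅ P hP
    rw [pow_one] at h6
    have h7 : Real.log Y ≤ Real.log P := Real.log_le_log (by linarith) hYP
    have h8 := HS_le hY
    linarith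
  have hθi : 0 < θ⁻¹ := inv_pos.mpr hθ
  have hθL : 0 ≤ (θ * L)⁻¹ := by positivity
  have hone : ∀ i ∈ Finset.range N, ‖∑ l ∈ (primBall X).filter (fun l => L < (nm l : ℝ)),
        (lamL L l : ℂ) * LTs (GF (Fh (F i) h)) (fun _ => True) (sc K M i) E0 α (JW D Y₀ Z) om
          (TE α) l‖ ≤ C₁ * (μ * Ex * C₂ + 1) * (P ^ (ε / 2) * P ^ (ε / 2)) *
        ((θ * ((K / Xx) * EHs A K Xx Y Z E0 α) + (θ * L)⁻¹ * ((K / Xx) * EHf A K Xx Y Z α)) +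
          θ⁻¹ * RL1 (GF (Fh (F i) h)) (Real.exp 2) (sc K M i) L X α D I E0 Z) := by
    intro i hi
    have hFi := tf1_tf (hD.tf i)
    have hsc := sc_pos hK M i
    have h1 := H₁ (GF (Fh (F i) h)) (Real.exp 2) P (sc K M i) Y D Y₀ Z E0 L θ I X
      (GFh_supp hFi hh) hP hXP hsc hY0 hD0 hZ hI hE0 hEY hL hθ α hα.sup om hom
    refine h1.trans ?_
    have hmi : ‖mellin (GF (Fh (F i) h)) ((2 / 3 : ℝ) : ℂ)‖ ≤ m :=
      (mellin_le hFi hh).trans (Finset.single_le_sum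
        (f := fun i => ‖mellin (GF (F i)) ((2 / 3 : ℝ) : ℂ)‖) (fun _ _ => norm_nonneg _) hi)
    have hmi0 : 0 ≤ ‖mellin (GF (Fh (F i) h)) ((2 / 3 : ℝ) : ℂ)‖ := norm_nonneg _
    have hki : (sc K M i) ^ (2 / 3 : ℝ) ≤ Ex * K ^ (2 / 3 : ℝ) := by
      refine (Real.rpow_le_rpow hsc.le (sc_le hK hD.M0 hi) (by norm_num)).trans (le_of_eq ?_)
      rw [Real.mul_rpow (Real.exp_pos _).le hK.le, ← Real.exp_mul, hEx]
      congr 2
      ring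
    refine real_lp (μ := μ) (c := 0) (Q₂ := 0) hC₁ hC₂ hEx0.le hPe (by positivity) ?_ hμ0 hki hAS
      hBS hθ.le hθL ?_ ?_ (mul_nonneg hθi.le (RL1_nonneg hsc.le hZ.le)) (by positivity)
      (by positivity)
    · have h3 : cM * ‖mellin (GF (Fh (F i) h)) ((2 / 3 : ℝ) : ℂ)‖ * HS Y ≤
          cM * m * (200 * C₅ * P ^ (ε / 2)) := by gcongr
      rw [hμ]
      calc 1 + cM * ‖mellin (GF (Fh (F i) h)) ((2 / 3 : ℝ) : ℂ)‖ * HS Y ≤
            P ^ (ε / 2) + cM * m * (200 * C₅ * P ^ (ε / 2)) := add_le_add hPe h3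
        _ = _ := by ring
    · exact g1
    · exact g2
  refine (Finset.sum_le_sum hone).trans ?_
  rw [← Finset.mul_sum, Finset.sum_add_distrib, Finset.sum_const, Finset.card_range,
    nsmul_eq_mul, ← Finset.mul_sum]
  have hPP : P ^ (ε / 2) * P ^ (ε / 2) = P ^ ε := by
    rw [← Real.rpow_add (by linarith)]; congr 1; ring
  rw [hPP]
  have hr0 : 0 ≤ θ⁻¹ * RLn N F h M K L X α D I E0 Z :=
    mul_nonneg hθi.le (RLn_nonneg hK hZ.le)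
  set T := θ * ((K / Xx) * EHs A K Xx Y Z E0 α) + (θ * L)⁻¹ * ((K / Xx) * EHf A K Xx Y Z α)
    with hT
  have hT0 : 0 ≤ T := by positivity
  have e1 : (K / Xx) * (θ * EHs A K Xx Y Z E0 α + (θ * L)⁻¹ * EHf A K Xx Y Z α) = T := by
    rw [hT]; ring
  have e2 : ∑ i ∈ Finset.range N, RL1 (GF (Fh (F i) h)) (Real.exp 2) (sc K M i) L X α D I E0 Z =
      RLn N F h M K L X α D I E0 Z := rfl
  rw [e1, e2]
  have hN0 : (0 : ℝ) ≤ N := Nat.cast_nonneg _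
  have hc : 0 ≤ C₁ * (μ * Ex * C₂ + 1) * P ^ ε := by positivity
  have h9 : (N : ℝ) * T + θ⁻¹ * RLn N F h M K L X α D I E0 Z ≤
      (N + 1) * (T + θ⁻¹ * RLn N F h M K L X α D I E0 Z) := by
    nlinarith [mul_nonneg hN0 hr0]
  calc _ ≤ C₁ * (μ * Ex * C₂ + 1) * P ^ ε *
        ((N + 1) * (T + θ⁻¹ * RLn N F h M K L X α D I E0 Z)) :=
        mul_le_mul_of_nonneg_left h9 hc
    _ = _ := by ring

end Crest.Agent.R017.Et404
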