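import Crest.Agent.R017.GkBa_575
import Crest.Agent.R017.ET4d_90
import Crest.Agent.R017.ET3b_71
import Crest.Agent.R017.E3Ni_146
import Crest.Agent.R017.E3Kh_548

/-!
# Row 17, R8 (N.et) (helper575): the class half `GkB`

* **`GkB_of`** : helper71's `GkB` from the Gram form with the diagonal's own number (helper90's
  `gram_qE`), the joint numbers of the list (helper146's `cellT_of`, helper90's `jbc_of_cell`) and
  the structured part (helper90's `rn2_G`)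
-/

set_option autoImplicit false
set_option linter.unusedVariables false

noncomputable section

open Finset
open scoped ComplexConjugate Classical ContDiff

namespace Crest.Agent.R017.GkB575

open Crest.Agent.R012 Crest.Agent.R012.Eis Crest.Agent.R012.MC
open Crest.Agent.R012.LS2 (S mem_S bl mem_bl)
open Crest.Agent.R017.CM106
open Crest.Agent.R017.C70
open Crest.Agent.R017.HP842 (Pc pc sqc al alL)
open Crest.Agent.R017.B770
open Crest.Agent.R017.FE47 (PU cx SM)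
open Crest.Agent.R017.Prov71
open Crest.Agent.R017.ER911
open Crest.Agent.R017.ExpC702
open Crest.Agent.R017.XPD571 (RP0)
open Crest.Agent.R017.XG702 (Pcs BG)
open Crest.Agent.R017.Leg381 (Pf alF SF LF natl alF_natl)
open Crest.Agent.R017.I1146 (ChN LN cN SN Dom CellS LipS Adm_list dom_list ds)
open Crest.Agent.R017.E1551 (Adm)
open Crest.Agent.R017.E2440 (TE StE StT)
open Crest.Agent.R017.E3Z548 (FH FH_nonneg)
open Crest.Agent.R017.E3Kc548 (LI mem_LI)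
open Crest.Agent.R017.E3Kh548 (OmP contDiff_OmP OmP_bd OmP_win OmP_form)
open Crest.Agent.R017.E3N146 (ShT lipS_ShT cellT_of pd_mono mem_image_JW K5_eq)
open Crest.Agent.R017.TNj90 (JBc jbc_of_cell)
open Crest.Agent.R017.ET490 (lw0 lw1 LnT gram_qE)
open Crest.Agent.R017.E3Hf290 (RN2F)
open Crest.Agent.R017.Mode405 (Slp)
open Crest.Agent.R017.PX764 (n6)
open Crest.Agent.R017.R3571 (RMm)
open Crest.Agent.R017.RnP571 (Dh)
open Crest.Agent.R017.E5B71 (Pt)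
open Crest.Agent.R017.E5L770 (omP)
open Crest.Agent.R017.TM708 (T5 K5 FE2L PD R5)
open Crest.Agent.R017.P1L904 (RSm)
open Crest.Agent.R017.P1G90 (RG rn2_G)
open Crest.Agent.R017.ET371 (GkB GkE RSk)

lemma omP_form (n : ℕ) (x : Eis × Eis) :
    omP n x = 1 * (OmP n (Real.log (nm (x.2 * x.1 ^ 2))) * Weight600.pw 0 (nm x.2)) := by
  rw [← OmP_form]
  rfl

/-- the room of `GkE` minus the loss of the claims -/
lemma RG_of {d c N x P um k F : ℝ} (hF : F ≤ 5 / 9 * (d * c)) :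
    RG N c k P um x (d * c) (GkE d c N x P um k - F) := by
  unfold RG GkE
  have e : RSk c k P um x = RSm c k P um x := rfl
  rw [e]
  linarith

variable {Λ : Type*} {π : Λ → DPar} {h : ℝ → ℝ} {d : ℝ} {rr s₁ : EF}

set_option maxHeartbeats 8000000 in
/-- **the class half** -/
theorem GkB_of {c₀ : ℝ} (hpu : PU h c₀) (hP : ∀ lam, (π lam).OK) {Rh : ℝ} (hRh0 : 0 ≤ Rh)
    (hRh : ∀ u, cx h u ≠ 0 → |u| ≤ Rh)
    (R : ExpRules (7 / 8 + d) rr (ex Dq fun lam => Sp (π lam) h))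
    (R₁ : ExpRules (7 / 8 + d) (ex Dq (fun lam => Rp (π lam) h)) s₁)
    (hcolP : ∀ (i : ℝ) (u : List ℝ) (m a : ℝ), 0 ≤ i → Okl u m a →
      BG Dq (RP0 π h) i u (wt m a) (2 * a + 2 * (7 / 8 + d) * m))
    (hd : 0 ≤ d) (hd1 : d ≤ 1 / 40)
    {D5 : Set (Fin 5 → ℝ)} (hD : IsCompact D5) (hR : ∀ b ∈ D5, R5 b)
    (hDh : ∀ b ∈ D5, Dh (b 0) (b 1) (b 2) (b 3) (b 4) (d * b 0))
    (hb0 : ∀ b ∈ D5, 1 / 2 ≤ b 0) (hb1 : ∀ b ∈ D5, b 0 ≤ 1)
    (hx4 : ∀ b ∈ D5, b 4 ≤ 0 ∨ 5 / 2 * (b 1 + b 2 + b 3) + 4 * b 4 ≤ 2 * b 0)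
    {ℓ : (Fin 5 → ℝ) → ℝ} (hℓ : Continuous ℓ) (hℓ0 : ∀ b ∈ D5, 0 ≤ ℓ b)
    (hℓ1 : ∀ b ∈ D5, ℓ b ≤ 5 / 9 * (d * b 0))
    (hFE : FE2L (ex Dq fun lam => S0p (π lam) h) D5 ℓ) {e0 : ℝ} (he0 : 0 ≤ e0)
    (he1 : e0 ≤ 1 / 64) : GkB π h e0 d D5 := by
  intro ε hε
  obtain ⟨ε₁, hε₁⟩ : ∃ ε₁ : ℝ, ε₁ = min (ε / 400) (1 / 4000000) := ⟨_, rfl⟩
  have hε0 : 0 < ε₁ := by rw [hε₁]; exact lt_min (by linarith) (by norm_num)
  have hεa : ε₁ ≤ ε / 400 := by rw [hε₁]; exact min_le_left _ _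
  have hεb : ε₁ ≤ 1 / 4000000 := by rw [hε₁]; exact min_le_right _ _
  obtain ⟨τ₀, hτ₀, hτ₀ε, GT⟩ := cellT_of hpu hP R hd hd1 hD hR hℓ hℓ0 hFE hε0
  obtain ⟨τ₁, hτ₁, hτ₁ε, GR⟩ := rn2_G hpu hP R₁ hcolP hd (by linarith) hε0 (by linarith)
  obtain ⟨τ, hτe⟩ : ∃ τ : ℝ, τ = min (τ₀ / 16) (min τ₁ (ε₁ / 4)) := ⟨_, rfl⟩
  have hτ : 0 < τ := by
    rw [hτe]; exact lt_min (by linarith) (lt_min hτ₁ (by linarith))
  have hτa : τ ≤ τ₀ / 16 := by rw [hτe]; exact min_le_left _ _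
  have hτb : τ ≤ τ₁ := by rw [hτe]; exact (min_le_right _ _).trans (min_le_left _ _)
  have hτc : τ ≤ ε₁ / 4 := by rw [hτe]; exact (min_le_right _ _).trans (min_le_right _ _)
  refine ⟨τ, hτ, fun lam s hs N B => ?_⟩
  obtain ⟨B₂, hB₂⟩ : ∃ B₂ : ℝ, B₂ = max B 301 := ⟨_, rfl⟩
  have hBB : B ≤ B₂ := by rw [hB₂]; exact le_max_left _ _
  have hB2 : 301 ≤ B₂ := by rw [hB₂]; exact le_max_right _ _
  obtain ⟨M₀, GT⟩ := GT lam N B₂
  obtain ⟨M₁, a, A₀, ha, GR⟩ := GR lam s hs.1 N B₂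
  have hν1 : (1 : ℝ) ≤ (nm s : ℝ) ^ 2 :=
    one_le_pow₀ (by exact_mod_cast nm_pos.2 hs.1)
  obtain ⟨ν, hν⟩ : ∃ ν : ℝ, ν = (nm s : ℝ) ^ 2 := ⟨_, rfl⟩
  rw [← hν] at hν1
  obtain ⟨R0, hR0⟩ : ∃ R0 : ℝ, R0 = 2 * (((N + 3 : ℕ) : ℝ) * Rh) := ⟨_, rfl⟩
  have hR00 : 0 ≤ R0 := by rw [hR0]; positivity
  obtain ⟨CT, rT, hCT, hrT, HJ⟩ := jbc_of_cell hpu (N + 3) (ε := ε₁) (M := (M₀ : ℝ)) (B₂ := B₂)
    hε0 (Nat.cast_nonneg _) (by linarith) hν1 (Dd := ((ds s).card : ℝ)) (Nat.cast_nonneg _)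
    (L := 3) (by norm_num)
  obtain ⟨X₁, hX₁, GT⟩ := GT rT hrT
  obtain ⟨A₁, hA₁⟩ : ∃ A₁ : ℕ, A₁ = max A₀ 2 := ⟨_, rfl⟩
  have hA₁a : A₀ ≤ A₁ := by rw [hA₁]; exact le_max_left _ _
  have hA₁b : 1 < A₁ := by
    have : 2 ≤ A₁ := by rw [hA₁]; exact le_max_right _ _
    omega
  obtain ⟨Ag, c, Cg, hc, hCg, HG⟩ := gram_qE (ρ := 1 / 2) (by norm_num) (by norm_num) hR00 a A₁ hA₁b
    (ε := ε₁) (J := ((N + 3 : ℕ) : ℝ) * M₀) (B₂ := 2) (Lh := 4) hε0 (by positivity) (le_refl 2)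
    (by norm_num)
  obtain ⟨X₂, hX₂, GR⟩ := GR c hc
  obtain ⟨Mb, hMb0, hMb⟩ := OmP_bd (Ag + 2)
  obtain ⟨Ct, hCt⟩ : ∃ Ct : ℝ, Ct = Cg * (1 + Mb) ^ 2 * (2 * CT + 1) := ⟨_, rfl⟩
  have hMb1 : 1 ≤ (1 + Mb) ^ 2 := one_le_pow₀ (by linarith)
  have hCt1 : 1 ≤ Ct := by
    rw [hCt]
    exact one_le_mul_of_one_le_of_one_le (one_le_mul_of_one_le_of_one_le hCg hMb1) (by linarith)
  obtain ⟨L₀, hL₀⟩ : ∃ L₀ : ℝ, L₀ = (2 * Real.log c + 8 + Real.log ν +
    2 * (((N + 3 : ℕ) : ℝ) * Rh) + Real.log Ct) / τ := ⟨_, rfl⟩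
  refine ⟨M₀ + M₁, max (max X₁ X₂) (max 3 (Real.exp L₀)),
    (le_max_left _ _).trans (le_max_right _ _), ?_⟩
  intro X hX b hb us gs κ H hPD hlo i n m hm hmX hq1 hq2 hvn
  have hXX₁ : X₁ ≤ X := ((le_max_left _ _).trans (le_max_left _ _)).trans hX
  have hXX₂ : X₂ ≤ X := ((le_max_right _ _).trans (le_max_left _ _)).trans hX
  have hX3 : 3 ≤ X := ((le_max_left _ _).trans (le_max_right _ _)).trans hX
  have hXL : Real.exp L₀ ≤ X := ((le_max_right _ _).trans (le_max_right _ _)).trans hX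
  have hX0 : 0 < X := by linarith
  have hX1 : 1 < X := by linarith
  obtain ⟨L, hL⟩ : ∃ L, L = Real.log X := ⟨_, rfl⟩
  have hXe : X = Real.exp L := by rw [hL, Real.exp_log hX0]
  have hLL : L₀ ≤ L := by
    rw [hXe] at hXL
    exact Real.exp_le_exp.1 hXL
  have lc0 : 0 ≤ Real.log c := Real.log_nonneg hc
  have lν0 : 0 ≤ Real.log ν := Real.log_nonneg hν1
  have lC0 : 0 ≤ Real.log Ct := Real.log_nonneg hCt1
  have lR0 : 0 ≤ ((N + 3 : ℕ) : ℝ) * Rh := by positivity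
  have hbig : 2 * Real.log c + 8 + Real.log ν + 2 * (((N + 3 : ℕ) : ℝ) * Rh) +
      Real.log Ct ≤ τ * L := by
    rw [hL₀, div_le_iff₀ hτ] at hLL
    linarith
  have hL0 : 0 < L := by
    by_contra h0
    push Not at h0
    have := mul_nonpos_of_nonneg_of_nonpos hτ.le h0
    linarith
  have ml : ∀ {a b : ℝ}, a ≤ b → a * L ≤ b * L := fun h => mul_le_mul_of_nonneg_right h hL0.le
  rw [← hL] at hlo hq1 hq2 hvn ⊢
  have hRb := hR b hb
  have hDb := hDh b hb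
  have hb0b := hb0 b hb
  have hb1b := hb1 b hb
  have hx4b := hx4 b hb
  have hℓ0b := hℓ0 b hb
  have hℓ1b := hℓ1 b hb
  have hPD0 := pd_mono (B' := B₂) (by linarith) (by linarith : τ ≤ τ₀) hBB hPD
  have hPD1 := pd_mono (B' := B₂) (by linarith) hτb hBB hPD
  obtain ⟨ps, hps⟩ : ∃ ps, ps = [us 0, us 1, us 2] ++ gs := ⟨_, rfl⟩
  rw [← hps] at hlo ⊢
  obtain ⟨p, hp⟩ : ∃ p, p = LN ps := ⟨_, rfl⟩
  obtain ⟨um, hum⟩ : ∃ um, um = min (us 0).z (min (us 1).z (us 2).z) := ⟨_, rfl⟩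
  obtain ⟨q, hq⟩ : ∃ q : ℝ, q = (i + 1) * Real.log 2 := ⟨_, rfl⟩
  obtain ⟨vt, hvt⟩ : ∃ vt : ℝ, vt = 1 + n * Real.log 2 := ⟨_, rfl⟩
  obtain ⟨t, ht⟩ : ∃ t : ℝ, t = 10 * ε₁ * L := ⟨_, rfl⟩
  rw [← hq] at hq1 hq2
  rw [← hp] at hlo
  rw [← hp, ← hum, ← hq]
  obtain ⟨Gk, hGk⟩ : ∃ Gk : ℝ, Gk = GkE d (b 0 * L) ((b 1 + b 2 + b 3) * L) (b 4 * L) p um q :=
    ⟨_, rfl⟩
  rw [← hGk]
  obtain ⟨G, hG⟩ : ∃ G : ℝ, G = Gk - ℓ b * L := ⟨_, rfl⟩
  -- sizes
  have hεL : 0 < ε₁ * L := by positivity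
  have hτL : 0 < τ * L := by positivity
  have hτεL : τ * L ≤ ε₁ / 4 * L := ml hτc
  have hτ₀L : τ * L ≤ τ₀ / 16 * L := ml hτa
  have hεLb : ε₁ * L ≤ 1 / 4000000 * L := ml hεb
  have hτ₀εL : τ₀ * L ≤ ε₁ * L := ml hτ₀ε
  have hk1L : b 0 * L ≤ 1 * L := ml hb1b
  have hk0L : 1 / 2 * L ≤ b 0 * L := ml hb0b
  have z1 := hPD.z1
  have z2 := hPD.z2
  have z3 := hPD.z3
  have zx := hPD.x
  rw [← hL] at z1 z2 z3 zx
  have hpn : p = (us 0).z + (us 1).z + (us 2).z + LN gs := by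
    rw [hp, hps]
    unfold I1146.LN
    simp only [List.cons_append, List.nil_append, List.map_cons, List.sum_cons]
    ring
  have hgs0 : 0 ≤ LN gs := by
    unfold I1146.LN
    refine List.sum_nonneg fun x hx => ?_
    obtain ⟨p', hp', rfl⟩ := List.mem_map.1 hx
    exact (hPD.am p' hp').2.1
  have m0 : 0 ≤ um := by
    rw [hum]
    exact le_min (hPD.us0 0) (le_min (hPD.us0 1) (hPD.us0 2))
  have m1 : um ≤ (us 0).z := hum ▸ min_le_left _ _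
  have m2 : um ≤ (us 1).z := hum ▸ (min_le_right _ _).trans (min_le_left _ _)
  have m3 : um ≤ (us 2).z := hum ▸ (min_le_right _ _).trans (min_le_right _ _)
  have hDL := dh_mul hDb hL0
  have hbL1 := ml hDb.y43
  have hbL2 := ml hDb.u4
  have hp0 : 0 ≤ p := by
    rw [hpn]
    have := hPD.us0 0
    have := hPD.us0 1
    have := hPD.us0 2
    linarith
  have hx0L : 0 ≤ b 4 * L := hDL.x0
  have hp1 : p ≤ b 1 * L + b 2 * L + b 3 * L + b 4 * L + 4 * (τ * L) := by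
    rw [hpn]; linarith
  have hp2 : p ≤ b 1 * L + b 2 * L + um + b 4 * L + 4 * (τ * L) := by
    rw [hpn, hum]
    rcases min_choice (us 0).z (min (us 1).z (us 2).z) with hc | hc
    · rw [hc]; linarith
    · rw [hc]
      rcases min_choice (us 1).z (us 2).z with hc' | hc'
      · rw [hc']; linarith
      · rw [hc']; linarith
  have hum3 : 3 * um ≤ p := by rw [hpn]; linarith
  have hNe : (b 1 + b 2 + b 3) * L = b 1 * L + b 2 * L + b 3 * L := by ring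
  have mm1 := ml (min_le_left (2 * (b 1 + b 2 + b 3) - b 0) (3 / 4 * (b 1 + b 2 + b 3)))
  have mm2 := ml (min_le_right (2 * (b 1 + b 2 + b 3) - b 0) (3 / 4 * (b 1 + b 2 + b 3)))
  have hn0 : (0 : ℝ) ≤ n * Real.log 2 := by
    have := Real.log_pos (by norm_num : (1 : ℝ) < 2)
    positivity
  -- the frame
  have hFr : Fr (b 0 * L) (b 1 * L) (b 2 * L) (b 3 * L) (b 4 * L) (d * b 0 * L) t q p um vt G := by
    refine ⟨hDL, by rw [ht]; positivity, by rw [ht]; linarith, by rw [ht]; linarith,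
      by rw [ht]; linarith, by rw [ht]; linarith, by rw [ht]; linarith, by rw [ht]; linarith, m0,
      by rw [ht]; linarith, by rw [ht]; linarith, by rw [ht, hvt]; linarith,
      by rw [ht, hvt]; linarith, ?_⟩
    have h1 := RG_of (N := (b 1 + b 2 + b 3) * L) (x := b 4 * L) (P := p) (um := um) (k := q)
      (c := b 0 * L) (d := d) (F := ℓ b * L) (by have := ml hℓ1b; linarith)
    rw [← hGk, ← hG, hNe] at h1
    rw [mul_assoc]
    exact h1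
  have hK5L : max (b 0 * L) (5 / 4 * (b 1 * L + b 2 * L + b 3 * L)) = K5 b * L := by
    unfold TM708.K5
    rw [max_mul_of_nonneg _ _ hL0.le]
    congr 1
    ring
  -- the list
  have hlen : ps.length ≤ N + 3 := by
    rw [hps]
    simp only [List.length_append, List.length_cons, List.length_nil]
    have := hPD.len
    omega
  have hzz : ∀ p ∈ ps, 0 ≤ p.z ∧ p.z ≤ Real.log X := by
    have c5 := hDL.y3
    intro p' hp'
    rw [hps] at hp'
    simp only [List.cons_append, List.nil_append, List.mem_cons] at hp'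
    rw [← hL]
    rcases hp' with rfl | rfl | rfl | hp'
    · exact ⟨hPD.us0 0, by linarith⟩
    · exact ⟨hPD.us0 1, by linarith⟩
    · exact ⟨hPD.us0 2, by linarith⟩
    · obtain ⟨-, a2, a3, -⟩ := hPD.am p' hp'
      rw [← hL] at a3
      exact ⟨a2, by linarith⟩
  obtain ⟨Y, hY⟩ : ∃ Y, Y = Real.exp (LN ps + ((N + 3 : ℕ) : ℝ) * Rh) := ⟨_, rfl⟩
  have hadm₀ : Adm Y (Real.exp (LN ps)) (2 * (((N + 3 : ℕ) : ℝ) * Rh))
      (sqc 1 (alF 1 1 (π lam) h (natl ps))) := Adm_list hRh0 hRh (π lam) 1 hlen (by rw [hY])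
  have hdom := dom_list (hP lam) h hs 1 ps
  rw [← hν] at hdom
  obtain ⟨al, hal⟩ : ∃ al, al = sqc 1 (alL h (ps.map (Pt (π lam) s))) := ⟨_, rfl⟩
  rw [← hal] at hdom ⊢
  have hne : ∀ m, al m ≠ 0 → sqc 1 (alF 1 1 (π lam) h (natl ps)) m ≠ 0 := fun m hm h0 =>
    hm (norm_le_zero_iff.1 (by
      have := hdom.le m
      rw [h0, norm_zero] at this
      exact this))
  have hadm : Adm Y (Real.exp p) R0 al := by
    rw [hp, hR0]
    exact ⟨fun m hm => hadm₀.sup m (hne m hm), fun m hm => hadm₀.win m (hne m hm)⟩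
  have hYge : 1 ≤ Y := by rw [hY, ← hp]; exact Real.one_le_exp (by linarith)
  have hXp : ∀ y : ℝ, X ^ y = Real.exp (y * L) := fun y => by
    rw [hXe, ← Real.exp_mul, mul_comm]
  have hpL : p ≤ L := by
    have := hDL.N1
    have := hDL.y3
    have := hDL.near
    linarith
  have hYX2 : Y ≤ X ^ (2 : ℝ) := by
    rw [hY, hXp, ← hp]
    exact Real.exp_le_exp.2 (by linarith)
  have hYle : Y ≤ X ^ B₂ :=
    hYX2.trans (Real.rpow_le_rpow_of_exponent_le hX1.le (by linarith))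
  have hFS : FS al := {
    fin := (S Y).finite_toSet.subset fun n hn => hadm.sup n (Function.mem_support.1 hn)
    prim := fun n hn => ((mem_S (by linarith)).1 (hadm.sup n hn)).2.1 }
  have hsq : ∀ n, al n ≠ 0 → Squarefree n := fun n hn =>
    ((mem_S (by linarith)).1 (hadm.sup n hn)).2.2
  -- the joint numbers
  have hc0 : 0 < c := by linarith
  have hν0 : 0 < ν := by linarith
  have h2n : (2 : ℝ) ^ n = Real.exp (n * Real.log 2) := by
    rw [Real.exp_nat_mul, Real.exp_log (by norm_num)]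
  have hlogW : Real.log (c * Real.exp 2 * 2 ^ n * ν) = Real.log c + 2 + n * Real.log 2 +
      Real.log ν := by
    rw [Real.log_mul (by positivity) hν0.ne', Real.log_mul (by positivity) (by positivity),
      Real.log_mul hc0.ne' (Real.exp_pos _).ne', Real.log_exp, Real.log_pow]
  obtain ⟨T, hT⟩ : ∃ T, T = Real.log c + 2 + n * Real.log 2 + Real.log ν := ⟨_, rfl⟩
  have hb4 := hRb.x0
  have hvN : vt ≤ L := by
    rw [hvt]
    have := hDL.N1
    have := hDL.y3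
    have := hDL.near
    linarith
  have hT1 : T ≤ (T5 b + τ₀) * Real.log X := by
    rw [← hL]
    unfold TM708.T5
    rw [hT]
    linarith
  have hT2 : T ≤ (K5 b - (b 1 + b 2 + b 3) / 2 - b 4 + 3 * 0 + τ₀) * Real.log X := by
    have e1 : (K5 b - (b 1 + b 2 + b 3) / 2 - b 4 + 3 * 0 + τ₀) * L = K5 b * L -
        (b 1 * L + b 2 * L + b 3 * L) / 2 - b 4 * L + τ₀ * L := by ring
    rw [← hL, e1, ← hK5L, hT]
    have g1 := le_max_left (b 0 * L) (5 / 4 * (b 1 * L + b 2 * L + b 3 * L))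
    have g2 := le_max_right (b 0 * L) (5 / 4 * (b 1 * L + b 2 * L + b 3 * L))
    rcases hx4b with h4 | h4
    · have h5 : b 4 = 0 := le_antisymm h4 hb4
      rw [h5] at hvn ⊢
      linarith
    · have h5 := ml h4
      linarith
  have hz5 : |max (b 0 * L) (5 / 4 * (b 1 * L + b 2 * L + b 3 * L)) - K5 b * Real.log X| ≤
      τ₀ * Real.log X := by
    rw [hK5L, ← hL, sub_self, abs_zero]
    positivity
  have hcell := GT X hXX₁ b hb 1 us gs κ H hPD0 T 0 le_rfl hT1 hT2 M₀ le_rfl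
    (B₂ * Real.log X) (max (b 0 * L) (5 / 4 * (b 1 * L + b 2 * L + b 3 * L))) (b 4 * L) um hz5
    (by rw [← hL, sub_self, abs_zero]; positivity)
    (by rw [hum, ← hL]; nlinarith)
  rw [← hps, ← hp] at hcell
  obtain ⟨F, hF⟩ : ∃ F, F = H ^ M₀ * X ^ (0 + ℓ b + ε₁) := ⟨_, rfl⟩
  rw [← hF] at hcell
  have hH1 := hPD.H1
  have hH0 : 0 < H := by linarith
  have hF0 : 0 ≤ F := by rw [hF]; positivity
  have hJB := HJ X hX3 (π lam) (hP lam) 1 ps hlen hzz Y (c * Real.exp 2 * 2 ^ n) T F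
    (ShT (max (b 0 * L) (5 / 4 * (b 1 * L + b 2 * L + b 3 * L))) (b 4 * L) um p) hYge hYle
    (by
      rw [← Real.exp_log (by positivity : 0 < c * Real.exp 2 * 2 ^ n * ν), hlogW, hXe]
      refine Real.exp_le_exp.2 ?_
      have := hDL.N1
      have := hDL.y3
      have := hDL.near
      linarith)
    (by rw [hlogW, hT]) hF0 (lipS_ShT _ _ _ _) hcell al hdom
  -- the structured part
  have hGn : RG (b 1 + b 2 + b 3) (b 0) (q / L) (p / L) (um / L) (b 4) (d * b 0) (G / L) := by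
    have h1 := RG_mul (s := L⁻¹) (by positivity) hFr.hG
    have e : ∀ x : ℝ, x * L * L⁻¹ = x := fun x => by field_simp
    have e2 : (b 1 * L + b 2 * L + b 3 * L) * L⁻¹ = b 1 + b 2 + b 3 := by field_simp
    rw [e, e, e, e2] at h1
    simpa only [div_eq_mul_inv] using h1
  obtain ⟨hf, hhf⟩ : ∃ hf : ℕ → ℝ → ℝ, hf = fun (j : ℕ) (x : ℝ) => P1L904.hL q (j : ℝ) p x (b 4 * L)
    (max (b 0 * L) (5 / 4 * (b 1 * L + b 2 * L + b 3 * L))) G := ⟨_, rfl⟩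
  obtain ⟨E0, hE0⟩ : ∃ E0 : ℝ, E0 = Real.exp (e0 * κ) := ⟨_, rfl⟩
  obtain ⟨k1, k2⟩ := abs_le.1 hPD.k
  rw [← hL] at k1 k2
  have hκ0 : 0 ≤ κ := by linarith
  have heκ : e0 * κ ≤ 1 / 64 * κ := mul_le_mul_of_nonneg_right he1 hκ0
  have heκ0 : 0 ≤ e0 * κ := mul_nonneg he0 hκ0
  have hE01 : 1 ≤ E0 := by rw [hE0]; exact Real.one_le_exp heκ0
  have hlE0 : Real.log E0 = e0 * κ := by rw [hE0, Real.log_exp]
  have h2n1 : (1 : ℝ) ≤ 2 ^ n := one_le_pow₀ (by norm_num)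
  have hlev : ∀ j ∈ LI (1 / 10) (2 ^ n), (j : ℝ) ≤ vt := by
    intro j hj
    have h1 := (mem_LI hj).2.2
    rw [h2n, ← Real.exp_add] at h1
    rw [hvt]
    exact Real.exp_le_exp.1 h1
  have hKK : Real.exp q = 2 ^ (i + 1) := by
    rw [hq]
    have e1 : ((i : ℝ) + 1) * Real.log 2 = ((i + 1 : ℕ) : ℝ) * Real.log 2 := by push_cast; ring
    rw [e1, Real.exp_nat_mul, Real.exp_log (by norm_num)]
  obtain ⟨Ds, hDs⟩ : ∃ Ds : Finset Eis,
    Ds = (JW (Real.sqrt (2 ^ n)) (1 / 10) (2 ^ n)).image Prod.fst := ⟨_, rfl⟩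
  have hDsB : ∀ δ ∈ Ds, IsPrim δ ∧ (nm δ : ℝ) ≤ X ^ B₂ := by
    intro δ hδ
    rw [hDs] at hδ
    obtain ⟨a1, a2⟩ := mem_image_JW hδ
    refine ⟨a1, a2.trans ?_⟩
    rw [hXp, h2n]
    refine Real.exp_le_exp.2 ?_
    have : 301 * L ≤ B₂ * L := ml hB2
    linarith
  have hE0B : ∀ f ∈ S E0, IsPrim f ∧ (nm f : ℝ) ≤ X ^ B₂ ∧
      Real.log (nm f) ≤ (b 0 / 64 + ε₁) * Real.log X := by
    intro f hf'
    obtain ⟨g1, g2, -⟩ := (mem_S (by linarith)).1 hf'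
    have g3 : (0 : ℝ) < nm f := by exact_mod_cast nm_pos.2 g2.ne_zero
    refine ⟨g2, g1.trans ?_, ?_⟩
    · rw [hE0, hXp]
      refine Real.exp_le_exp.2 ?_
      have : 301 * L ≤ B₂ * L := ml hB2
      linarith
    · have g4 := Real.log_le_log g3 g1
      rw [hlE0] at g4
      rw [← hL]
      linarith
  have hGRi : ∀ j : ℕ, j ∈ LI (1 / 10) (2 ^ n) → ∃ W0 : Eis → Eis → ℝ → ℝ,
      (∀ d e, Slp a (W0 d e)) ∧
      (∀ δ ∈ Ds, ∀ f ∈ S E0, ∀ γ φ, IsPrim γ → IsPrim φ → (nm φ : ℝ) ≤ X ^ B₂ → ∀ P : ℝ, 0 < P →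
        (nm γ : ℝ) * n6 γ ^ 2 * ∑ k ∈ bl P, RMm A₁ (fun j => al (δ * j)) f γ φ k ≤ W0 δ f P) ∧
      ∀ δ ∈ Ds, ∀ f ∈ S E0,
        FH (Real.exp q) (Real.exp (hf j (Real.log (nm δ)))) (Real.exp j) *
          RN2F c (Real.exp q) (Real.exp j) (Real.exp p)
            (fun δ _ => Real.exp (hf j (Real.log (nm δ)))) W0 δ f ≤
        H ^ M₁ * X ^ (G / L + ε₁) / (nm δ * nm f) := by
    intro j hj
    have hjv := hlev j hj
    obtain ⟨W0, w1, w2, w3⟩ := GR X hXX₂ b 1 us gs κ H hPD1 hDb hb0b (by linarith) (by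
        rw [← hps, ← hp, ← hL]
        linarith) (Real.exp q) (Real.exp j) um (G / L)
      (fun δ _ => Real.exp (hf j (Real.log (nm δ)))) (Real.exp_pos _) (Real.exp_pos _)
      (fun _ _ => Real.exp_pos _) (by rw [Real.log_exp, ← hL]; linarith)
      (by rw [Real.log_exp, ← hL]; linarith)
      (by rw [Real.log_exp, ← hL]; linarith) hum
      (by rw [Real.log_exp, ← hL, ← hps, ← hp]; exact hGn)
      (fun δ f => δ ∈ Ds ∧ f ∈ S E0)
      (fun δ f hδf => ⟨(hDsB δ hδf.1).1, (hE0B f hδf.2).1, (hDsB δ hδf.1).2, (hE0B f hδf.2).2.1⟩)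
      (fun δ f hδf => (hE0B f hδf.2).2.2)
      (fun δ f hδf => by
        rw [← hps, ← hp, hXp, ← Real.exp_add, ← Real.exp_add, ← Real.exp_sub]
        refine Real.exp_le_exp.2 ?_
        have g1 : (1 : ℝ) ≤ nm δ := by exact_mod_cast nm_pos.2 (hDsB δ hδf.1).1.ne_zero
        have h1 := kx_g (v := (j : ℝ)) hFr hjv (Real.log_nonneg g1)
        have hj0 : (0 : ℝ) ≤ j := Nat.cast_nonneg _
        rw [hhf]
        beta_reduce
        linarith)
      (fun δ f hδf _ => by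
        rw [Real.log_exp, Real.log_exp, Real.log_exp, ← hps, ← hp, ← hL, hhf]
        beta_reduce
        have e : P1L904.hL (q / L) (j / L) (p / L) (Real.log (nm δ) / L) (b 4)
            (max (b 0) (5 / 4 * (b 1 + b 2 + b 3))) (G / L) * L =
            P1L904.hL q j p (Real.log (nm δ)) (b 4 * L)
              (max (b 0 * L) (5 / 4 * (b 1 * L + b 2 * L + b 3 * L))) G := by
          rw [← hL_mul hL0.le]
          have e1 : ∀ x : ℝ, x / L * L = x := fun x => by field_simp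
          rw [e1, e1, e1, e1, e1, max_mul_of_nonneg _ _ hL0.le]
          congr 2
          ring
        rw [add_mul, e]
        linarith)
    refine ⟨W0, w1, fun δ hδ f hf' γ φ h1 h2 h3 P hP => ?_, fun δ hδ f hf' => ?_⟩
    · have h4 := w2 A₁ hA₁a δ f ⟨hδ, hf'⟩ γ φ h1 h2 h3 P hP
      rw [← hps, ← hal] at h4
      exact h4
    · have h4 := w3 δ f ⟨hδ, hf'⟩
      rw [← hps, ← hp] at h4
      exact h4
  have hGRj : ∀ j : ℕ, ∃ W0 : Eis → Eis → ℝ → ℝ, (∀ d e, Slp a (W0 d e)) ∧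
      (j ∈ LI (1 / 10) (2 ^ n) → (∀ δ ∈ Ds, ∀ f ∈ S E0, ∀ γ φ, IsPrim γ → IsPrim φ →
        (nm φ : ℝ) ≤ X ^ B₂ → ∀ P : ℝ, 0 < P →
        (nm γ : ℝ) * n6 γ ^ 2 * ∑ k ∈ bl P, RMm A₁ (fun j => al (δ * j)) f γ φ k ≤ W0 δ f P) ∧
      ∀ δ ∈ Ds, ∀ f ∈ S E0,
        FH (Real.exp q) (Real.exp (hf j (Real.log (nm δ)))) (Real.exp j) *
          RN2F c (Real.exp q) (Real.exp j) (Real.exp p)
            (fun δ _ => Real.exp (hf j (Real.log (nm δ)))) W0 δ f ≤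
        H ^ M₁ * X ^ (G / L + ε₁) / (nm δ * nm f)) := by
    intro j
    by_cases hj : j ∈ LI (1 / 10) (2 ^ n)
    · obtain ⟨W0, w1, w2, w3⟩ := hGRi j hj
      exact ⟨W0, w1, fun _ => ⟨w2, w3⟩⟩
    · exact ⟨fun _ _ _ => 0, fun _ _ => ET4a548.Slp_zero a, fun h => absurd h hj⟩
  clear hGRi
  choose W0 hW1 hW2 using hGRj
  have hkL : b 0 * L ≤ L := by linarith only [hk1L]
  have hN1L := hDL.N1
  have hadmL := hDL.adm
  have hnL : n * Real.log 2 ≤ 2 / 3 * (b 0 * L) + 3 * (b 0 * L) / 100 := by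
    have h1 := hFr.v1
    have h2 := hFr.v2
    have h3 := hFr.t1
    have h4 := hDL.k0
    have h5 : b 4 * L ≤ 1 / 36 * b 0 * L := ml hRb.x1
    rw [hvt] at h1 h2
    linarith only [h1, h2, h3, h4, h5, hN1L]
  have hlc : Real.log c + 1 ≤ τ * L := by linarith only [hbig, lc0, lν0, lC0, lR0]
  have hτt : τ * L ≤ t := by rw [ht]; linarith only [hτεL, hεL]
  have hcX : c * Real.exp 2 ≤ X := by
    rw [← Real.exp_log hc0, ← Real.exp_add, hXe]
    refine Real.exp_le_exp.2 ?_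
    linarith only [hbig, lc0, lν0, lC0, lR0, hτεL, hεLb, hL0]
  have h2nX : (2 : ℝ) ^ n ≤ X := by
    rw [h2n, hXe]
    exact Real.exp_le_exp.2 (by linarith only [hnL, hkL, hL0])
  have hqX : Real.exp q ≤ X := by
    rw [hXe]
    exact Real.exp_le_exp.2 (by linarith only [hq2, hkL, hL0, hτεL, hεLb])
  have hcZ : ∀ x : ℝ, x ≤ c * X ^ 300 → x ≤ X ^ B₂ := by
    intro x hx
    have h1 : c ≤ X := (le_mul_of_one_le_right hc0.le
      (Real.one_le_exp (by norm_num))).trans hcX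
    calc x ≤ c * X ^ 300 := hx
      _ ≤ X * X ^ 300 := mul_le_mul_of_nonneg_right h1 (by positivity)
      _ = X ^ (301 : ℝ) := by
          rw [← pow_succ']
          norm_num
      _ ≤ X ^ B₂ := Real.rpow_le_rpow_of_exponent_le hX1.le hB2
  obtain ⟨Qe, hQe⟩ : ∃ Qe : ℝ, Qe = max 0 (vt - q) := ⟨_, rfl⟩
  have hQe0 : 0 ≤ Qe := by rw [hQe]; exact le_max_left _ _
  have hQe1 : vt - q ≤ Qe := by rw [hQe]; exact le_max_right _ _
  have key : ∀ KK : Finset Eis, (∀ u ∈ KK, IsPrim u ∧ CbF u ∧ 1 / 2 * Real.exp q ≤ nm u ∧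
      (nm u : ℝ) ≤ Real.exp q) →
      ∑ u ∈ KK, ‖StE E0 (JW (Real.sqrt (2 ^ n)) (1 / 10) (2 ^ n)) (omP n) al (m ^ 3 * u)‖ ^ 2 ≤
        Cg * (1 + Mb) ^ 2 * (1 + |(0 : ℝ)|) ^ Ag * X ^ ε₁ *
          (CT * X ^ ε₁ * F * (Real.exp Qe * Real.exp (G + 12 * t - Qe) +
            Real.exp (G + 12 * t)) + H ^ M₁ * X ^ (G / L + ε₁)) := by
    intro KK hKKm
    refine HG (OmP n) Mb hMb0 (contDiff_OmP n) (fun m hm x => hMb n m hm x) 0 1 (by simp) X hX3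
      hcX (Real.sqrt (2 ^ n)) (1 / 10) (2 ^ n) (omP n) al E0 (2 ^ n) Y q p (CT * X ^ ε₁ * F)
      (G + 12 * t) (G + 12 * t - Qe) (H ^ M₁ * X ^ (G / L + ε₁)) (Real.exp Qe) m KK hf W0
      (ShT (max (b 0 * L) (5 / 4 * (b 1 * L + b 2 * L + b 3 * L))) (b 4 * L) um p) hFS hsq hadm
      hYge hYX2 hm hmX (Real.sqrt_nonneg _) (by positivity) h2nX (fun x _ => omP_form n x)
      (fun _ _ m hm _ h => OmP_win hm h) (fun x _ => (P10146.omP_bd n x).1) ?_ hqX hKKm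
      (by positivity) h2nX ?_ hE01 ?_ ?_ ?_ ?_ hW1 ?_ (by positivity) (by positivity)
      (Real.one_le_exp hQe0) ?_ ?_ hJB ?_ ?_ ?_
    · rw [hq]
      have := Real.log_pos (by norm_num : (1 : ℝ) < 2)
      positivity
    · intro x hx
      have := (mem_filter.1 hx).1
      rw [mem_product, mem_ball] at this
      exact (Nat.cast_le.2 this.2).trans (Nat.floor_le (by positivity))
    · rw [hE0, hXe]
      exact Real.exp_le_exp.2 (by linarith only [heκ, k2, hkL, hτεL, hεLb, hL0])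
    · rw [hXe, ← Real.exp_nat_mul]
      refine Real.exp_le_exp.2 ?_
      push_cast
      linarith only [hpL, hL0]
    · intro j hj δ hδ
      have h1 := kx_g (v := (j : ℝ)) hFr (hlev j hj) hδ
      rw [hhf]
      beta_reduce
      linarith only [h1, hlc, hτεL, hεLb, hk0L, hL0]
    · intro j hj x y
      rw [hhf]
      exact hL_lip _ _ _ _ _ _ _ _
    · intro j hj δ hδ f hf' γ φ h1 h2 h3 P hP
      exact (hW2 j hj).1 δ (by rw [hDs]; exact hδ) f hf' γ φ h1 h2 (hcZ _ h3) P hP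
    · rw [h2n, hE0, ← Real.exp_nat_mul, ← Real.exp_sub, ← Real.exp_mul, ← Real.exp_mul,
        ← Real.exp_add]
      refine Real.exp_le_exp.2 ?_
      push_cast
      linarith only [heκ, k2, hkL, hτεL, hεLb, hL0, hnL, hq1, hQe0, hk0L]
    · rw [h2n, ← Real.exp_sub]
      refine Real.exp_le_exp.2 ?_
      linarith only [hQe1, hvt]
    · intro j hj δ hδ _
      rw [hhf]
      exact lnT_g hFr (hlev j hj) hδ (hlc.trans hτt)
    · intro j hj δ hδ _ b' l hb' hl hlv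
      have h1 := dia_g (E := Real.log E0) hFr (hlev j hj) hδ (hlc.trans hτt) hb' hl hlv
      rw [hQe]
      exact h1
    · intro j hj δ hδ f hf'
      exact (hW2 j hj).2 δ (by rw [hDs]; exact hδ) f hf'
  rw [← hE0]
  refine (key _ fun u hu => ?_).trans ?_
  · obtain ⟨h1, h2, h3⟩ := mem_filter.1 hu
    obtain ⟨h4, h5⟩ := mem_primBall.1 h1
    refine ⟨h5, h2, ?_, ?_⟩
    · rw [hKK, pow_succ]
      have h6 : ((2 ^ i : ℕ) : ℝ) ≤ nm u := by exact_mod_cast h3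
      push_cast at h6
      linarith only [h6]
    · rw [hKK]
      exact_mod_cast h4
  · have hHa : H ^ M₀ ≤ H ^ (M₀ + M₁) := pow_le_pow_right₀ hH1 (Nat.le_add_right _ _)
    have hHb : H ^ M₁ ≤ H ^ (M₀ + M₁) := pow_le_pow_right₀ hH1 (Nat.le_add_left _ _)
    have hHc : 0 < H ^ (M₀ + M₁) := by positivity
    have e0 : (1 + |(0 : ℝ)|) ^ Ag = 1 := by simp
    have e1 : Real.exp Qe * Real.exp (G + 12 * t - Qe) = Real.exp (G + 12 * t) := by
      rw [← Real.exp_add]; congr 1; ring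
    obtain ⟨Ee, hEe⟩ : ∃ Ee : ℝ, Ee = Real.exp (Gk + 122 * (ε₁ * L)) := ⟨_, rfl⟩
    have hEe0 : 0 < Ee := by rw [hEe]; exact Real.exp_pos _
    have hℓL : 0 ≤ ℓ b * L := mul_nonneg hℓ0b hL0.le
    have f1 : X ^ ε₁ * X ^ (0 + ℓ b + ε₁) * Real.exp (G + 12 * t) = Ee := by
      rw [hXp, hXp, hEe, ← Real.exp_add, ← Real.exp_add, hG, ht]
      congr 1
      ring
    have f2 : X ^ (G / L + ε₁) ≤ Ee := by
      rw [hXp, hEe, hG]
      refine Real.exp_le_exp.2 ?_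
      have e : ((Gk - ℓ b * L) / L + ε₁) * L = Gk - ℓ b * L + ε₁ * L := by field_simp
      rw [e]
      linarith only [hℓL, hεL]
    have f3 : CT * X ^ ε₁ * F * (Real.exp (G + 12 * t) + Real.exp (G + 12 * t)) ≤
        2 * CT * (H ^ (M₀ + M₁) * Ee) := by
      have e : CT * X ^ ε₁ * F * (Real.exp (G + 12 * t) + Real.exp (G + 12 * t)) =
          2 * CT * (H ^ M₀ * (X ^ ε₁ * X ^ (0 + ℓ b + ε₁) * Real.exp (G + 12 * t))) := by
        rw [hF]; ring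
      rw [e, f1]
      exact mul_le_mul_of_nonneg_left (mul_le_mul_of_nonneg_right hHa hEe0.le) (by positivity)
    have f4 : H ^ M₁ * X ^ (G / L + ε₁) ≤ H ^ (M₀ + M₁) * Ee :=
      mul_le_mul hHb f2 (by positivity) hHc.le
    have f5 : Ct ≤ X ^ ε₁ := by
      rw [hXp, ← Real.exp_log (by linarith only [hCt1] : (0 : ℝ) < Ct)]
      refine Real.exp_le_exp.2 ?_
      linarith only [hbig, lc0, lν0, lR0, hτεL, hεL]
    rw [e0, e1, mul_one]
    calc Cg * (1 + Mb) ^ 2 * X ^ ε₁ * (CT * X ^ ε₁ * F * (Real.exp (G + 12 * t) +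
          Real.exp (G + 12 * t)) + H ^ M₁ * X ^ (G / L + ε₁))
        ≤ Cg * (1 + Mb) ^ 2 * X ^ ε₁ * (2 * CT * (H ^ (M₀ + M₁) * Ee) +
          H ^ (M₀ + M₁) * Ee) :=
          mul_le_mul_of_nonneg_left (add_le_add f3 f4) (by positivity)
      _ = Ct * (X ^ ε₁ * (H ^ (M₀ + M₁) * Ee)) := by rw [hCt]; ring
      _ ≤ X ^ ε₁ * (X ^ ε₁ * (H ^ (M₀ + M₁) * Ee)) :=
          mul_le_mul_of_nonneg_right f5 (by positivity)
      _ = H ^ (M₀ + M₁) * (X ^ ε₁ * X ^ ε₁ * Ee) := by ring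
      _ ≤ H ^ (M₀ + M₁) * (X ^ ε * Real.exp Gk) := by
          refine mul_le_mul_of_nonneg_left ?_ hHc.le
          rw [hXp, hXp, hEe, ← Real.exp_add, ← Real.exp_add, ← Real.exp_add]
          refine Real.exp_le_exp.2 ?_
          have h1 : ε₁ * L ≤ ε / 400 * L := ml hεa
          linarith only [h1, hεL]
      _ = _ := by ring

end Crest.Agent.R017.GkB575
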