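import Crest.Agent.R017.Fin6_986
import Crest.Agent.R017.XCol_298
import Crest.Agent.R017.P1DomS_918
import Crest.Agent.R017.NrA_986
import Crest.Agent.R017.ET3d_71
import Crest.Agent.R017.E3W2_271
import Crest.Agent.R017.GkB_575

/-!
# Row 17, R8 / P1: `EtU` over the exact square, class N (helper146)

* `D5E d` : the compact domain of the parents (`κ ≤ 1`, helper90's `DmH`, helper571's `Dh`)
* `nearE` : the near part of the flat claims with `ℓ b = 2 d (N/3 + x)` (`≤ 5/9 d κ`)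
* **`etU_N`** : `EtU π h (1/64) (ParS A d) (LS0 d)` from the class half `GkB`
-/

set_option autoImplicit false

noncomputable section

namespace Crest.Agent.R017.EtN146

open Crest.Agent.R012 Crest.Agent.R012.Eis
open Crest.Agent.R017.FE47 Crest.Agent.R017.End699
open Crest.Agent.R017.B770 Crest.Agent.R017.BxH986
open Crest.Agent.R017.Prov71 Crest.Agent.R017.ER911
open Crest.Agent.R017.E5B71 Crest.Agent.R017.ExP960
open Crest.Agent.R017.E5L770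
open Crest.Agent.R017.SC777
open Crest.Agent.R017.Fin4 Crest.Agent.R017.Fin5 Crest.Agent.R017.Fin6
open Crest.Agent.R017.P1l54
open Crest.Agent.R017.P1t54 (ParS LS0 parOK_Sq5)
open Crest.Agent.R017.TM708 (T5 K5 R5 FE2L)
open Crest.Agent.R017.FN708
open Crest.Agent.R017.NE73
open Crest.Agent.R017.NrA986 (NearAll)
open Crest.Agent.R017.P10146 (D5 D5_compact bP bP_mem hx4_of EtU)
open Crest.Agent.R017.GHR90 (DmH)
open Crest.Agent.R017.RnP571 (Dh)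
open Crest.Agent.R017.P1V5176 (Dm5)
open Crest.Agent.R017.ET371 (GkB etU_of)

/-- **the domain of the parents** -/
def D5E (d : ℝ) : Set (Fin 5 → ℝ) :=
  {b | b ∈ D5 ∧ b 0 ≤ 1 ∧ DmH (b 0) (d * b 0) (b 1) (b 2) (b 3) (b 4) ∧
    Dh (b 0) (b 1) (b 2) (b 3) (b 4) (d * b 0) ∧
    (b 4 ≤ 0 ∨ 5 / 2 * (b 1 + b 2 + b 3) + 4 * b 4 ≤ 2 * b 0)}

/-- the loss -/
def ℓE (d : ℝ) (b : Fin 5 → ℝ) : ℝ := 2 * d * ((b 1 + b 2 + b 3) / 3 + b 4)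

lemma ℓE_cont (d : ℝ) : Continuous (ℓE d) := by
  unfold ℓE
  fun_prop

lemma D5E_compact (d : ℝ) : IsCompact (D5E d) := by
  have e : D5E d = D5 ∩ {b : Fin 5 → ℝ | b 0 ≤ 1 ∧
      (b 3 ≤ b 2 ∧ b 2 ≤ b 1 ∧ 2 / 9 * b 0 ≤ b 3 ∧ b 1 ≤ 2 / 7 * b 0 ∧
        b 1 + b 2 + b 3 ≤ 84 / 103 * b 0 ∧ 99 / 100 * b 0 ≤ b 1 + b 2 + 2 * b 3 ∧ 0 ≤ b 4 ∧
        (b 4 ≤ 0 ∨ (b 4 + 2 * (d * b 0) ≤ 1 / 36 * b 0 ∧
          b 4 + 7 / 10 * (b 1 + b 2 + b 3) ≤ 199 / 360 * b 0 ∧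
          b 1 + b 2 + b 3 + b 4 ≤ 15 / 19 * b 0 ∧ b 1 + b 4 ≤ 2 / 7 * b 0) ∨
          (8 * b 4 ≤ d * b 0 ∧ b 1 + b 2 + b 3 + b 4 ≤ 4 / 5 * b 0)) ∧
        0 ≤ d * b 0 ∧ d * b 0 ≤ 1 / 42 * b 0) ∧
      (11 / 50 * b 0 ≤ b 3 ∧ b 1 + b 4 ≤ 61 / 200 * b 0 ∧ b 1 + b 2 + b 3 ≤ 102 / 125 * b 0 ∧
        ((8 * b 4 ≤ d * b 0 ∧ (b 4 ≤ 0 ∨ b 1 + b 2 + b 3 + b 4 ≤ 4 / 5 * b 0)) ∨
          (3 / 4 * b 0 ≤ b 1 + b 2 + b 3 ∧ b 4 + 2 * (d * b 0) ≤ 1 / 36 * b 0 ∧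
            b 4 + 7 / 10 * (b 1 + b 2 + b 3) ≤ 199 / 360 * b 0)) ∧ d * b 0 ≤ 1 / 40 * b 0) ∧
      (b 4 ≤ 0 ∨ 5 / 2 * (b 1 + b 2 + b 3) + 4 * b 4 ≤ 2 * b 0)} := by
    ext b
    constructor
    · rintro ⟨h5, h1, ⟨a1, a2, a3, a4, a5, a6, a7, a8, a9, a10⟩,
        ⟨c1, c2, c3, c4, c5, c6, c7, c8, c9, c10, c11⟩, h4⟩
      refine ⟨h5, h1, ⟨a1, a2, a3, a4, a5, a6, a7, ?_, a9, a10⟩, ⟨c4, c5, c6, ?_, c11⟩, h4⟩
      · rcases a8 with h | h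
        · exact Or.inl h.le
        · exact Or.inr h
      · rcases c9 with ⟨h, h' | h'⟩ | h
        · exact Or.inl ⟨h, Or.inl h'.le⟩
        · exact Or.inl ⟨h, Or.inr h'⟩
        · exact Or.inr h
    · rintro ⟨h5, h1, ⟨a1, a2, a3, a4, a5, a6, a7, a8, a9, a10⟩, ⟨c4, c5, c6, c9, c11⟩, h4⟩
      have hk : 0 < b 0 := lt_of_lt_of_le (by norm_num) h5.2.2.1
      refine ⟨h5, h1, ⟨a1, a2, a3, a4, a5, a6, a7, ?_, a9, a10⟩,
        ⟨hk, a1, a2, c4, c5, c6, a6, a7, ?_, a9, c11⟩, h4⟩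
      · rcases a8 with h | h
        · exact Or.inl (le_antisymm h a7)
        · exact Or.inr h
      · rcases c9 with ⟨h, h' | h'⟩ | h
        · exact Or.inl ⟨h, Or.inl (le_antisymm h' a7)⟩
        · exact Or.inl ⟨h, Or.inr h'⟩
        · exact Or.inr h
  rw [e]
  refine D5_compact.inter_right ?_
  have hle : ∀ {f g : (Fin 5 → ℝ) → ℝ}, Continuous f → Continuous g → IsClosed {b | f b ≤ g b} :=
    fun hf hg => isClosed_le hf hg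
  have hA : ∀ {P Q : (Fin 5 → ℝ) → Prop}, IsClosed {b | P b} → IsClosed {b | Q b} →
      IsClosed {b | P b ∧ Q b} := fun h1 h2 => h1.inter h2
  have hO : ∀ {P Q : (Fin 5 → ℝ) → Prop}, IsClosed {b | P b} → IsClosed {b | Q b} →
      IsClosed {b | P b ∨ Q b} := fun h1 h2 => h1.union h2
  repeat' first
    | apply hA
    | apply hO
    | apply hle
    | fun_prop

/-- the facts about the parents -/
lemma D5E_dm {d : ℝ} {b : Fin 5 → ℝ} (hb : b ∈ D5E d) :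
    1 / 2 ≤ b 0 ∧ b 0 ≤ 1 ∧ Dm5 (b 1 / b 0) (b 2 / b 0) (b 3 / b 0) (b 4 / b 0) d := by
  obtain ⟨h5, h1, ⟨a1, a2, a3, a4, a5, a6, a7, a8, a9, a10⟩, -, -⟩ := hb
  have h23 : 2 / 3 ≤ b 0 := h5.2.2.1
  have hk : 0 < b 0 := by linarith
  have e3 : b 1 / b 0 + b 2 / b 0 + b 3 / b 0 = (b 1 + b 2 + b 3) / b 0 := by ring
  have e4 : b 1 / b 0 + b 2 / b 0 + 2 * (b 3 / b 0) = (b 1 + b 2 + 2 * b 3) / b 0 := by ring
  have e5 : b 1 / b 0 + b 2 / b 0 + b 3 / b 0 + b 4 / b 0 = (b 1 + b 2 + b 3 + b 4) / b 0 := by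
    ring
  have e6 : b 4 / b 0 + 2 * d = (b 4 + 2 * (d * b 0)) / b 0 := by field_simp
  have e7 : b 4 / b 0 + 7 / 10 * (b 1 / b 0 + b 2 / b 0 + b 3 / b 0) =
      (b 4 + 7 / 10 * (b 1 + b 2 + b 3)) / b 0 := by ring
  have e8 : b 1 / b 0 + b 4 / b 0 = (b 1 + b 4) / b 0 := by ring
  have e9 : 8 * (b 4 / b 0) = 8 * b 4 / b 0 := by ring
  refine ⟨by linarith, h1, ?_, ?_, ?_, ?_, ?_, ?_, ?_, ?_, ?_, ?_⟩
  · exact div_le_div_of_nonneg_right a1 hk.le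
  · exact div_le_div_of_nonneg_right a2 hk.le
  · rw [le_div_iff₀ hk]; exact a3
  · rw [div_le_iff₀ hk]; exact a4
  · rw [e3, div_le_iff₀ hk]; exact a5
  · rw [e4, le_div_iff₀ hk]; exact a6
  · positivity
  · rcases a8 with h | ⟨h1, h2, h3, h4⟩ | ⟨h1, h2⟩
    · left; rw [h, zero_div]
    · right; left
      refine ⟨?_, ?_, ?_, ?_⟩
      · rw [e6, div_le_iff₀ hk]; exact h1
      · rw [e7, div_le_iff₀ hk]; exact h2
      · rw [e5, div_le_iff₀ hk]; exact h3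
      · rw [e8, div_le_iff₀ hk]; exact h4
    · right; right
      refine ⟨?_, ?_⟩
      · rw [e9, div_le_iff₀ hk]; exact h1
      · rw [e5, div_le_iff₀ hk]; exact h2
  · exact nonneg_of_mul_nonneg_left a9 hk
  · exact le_of_mul_le_mul_right a10 hk

lemma D5E_l {d : ℝ} {b : Fin 5 → ℝ} (hb : b ∈ D5E d) :
    0 ≤ ℓE d b ∧ ℓE d b ≤ 5 / 9 * (d * b 0) := by
  have hd := (D5E_dm hb).2.2.d0
  obtain ⟨h5, h1, ⟨a1, a2, a3, a4, a5, a6, a7, a8, a9, a10⟩, -, -⟩ := hb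
  have h23 : 2 / 3 ≤ b 0 := h5.2.2.1
  have g : (b 1 + b 2 + b 3) / 3 + b 4 ≤ 5 / 18 * b 0 := by
    rcases a8 with h | ⟨h1, h2, h3, h4⟩ | ⟨h1, h2⟩ <;> linarith
  have g0 : 0 ≤ (b 1 + b 2 + b 3) / 3 + b 4 := by linarith
  have g1 : d * ((b 1 + b 2 + b 3) / 3 + b 4) ≤ d * (5 / 18 * b 0) :=
    mul_le_mul_of_nonneg_left g hd
  have g2 : 0 ≤ d * ((b 1 + b 2 + b 3) / 3 + b 4) := mul_nonneg hd g0
  unfold ℓE
  constructor <;> linarith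

/-- the exact square -/
lemma D5E_mem {A d : ℝ} (hd : 0 ≤ d) (hd1 : d ≤ 1 / 42) (hA : 9 / 10 ≤ A) (hA0 : A ≤ 1)
    (hA1 : 16 * (1 - A) ≤ d) {p : Fin 3 ⊕ Fin 5 → ℝ} (hp : p ∈ ParS A d) : bP p ∈ D5E d := by
  refine ⟨bP_mem hd (by linarith) hA1 hp, (parOK_Sq5 hA hp).κ1, ?_,
    E3W271.dh_of hd (by linarith) hA1 hp, hx4_of hd (by linarith) hA1 hp⟩
  obtain ⟨w, hw⟩ := hp
  exact DmH.of hw.κpos (hw.dm5 hd (by linarith) hA0 hA1)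

variable {d : ℝ} {r s s₀ : EF}

/-- **the near part of the flat claims** at the loss `2 d (N/3 + x)` -/
theorem nearE (R : ExpRules (7 / 8 + d) r s) (Rm : ExpRGFz (7 / 8 + d) r s s₀)
    (hd : 0 ≤ d) (hd8 : 8 * d ≤ 1) (hG : NearAll d s₀) : NearL s₀ (D5E d) (ℓE d) := by
  rintro b ⟨⟨hR5, h5s, k1, k2, b32, b21, hb1⟩, -⟩ v z₁ z₂ z₃ n hv h3 h32 h21 hn hz hs hnear hlev
  obtain ⟨k0, y1, y2, y3, x0, hN', x1, adm⟩ := hR5
  obtain ⟨K, hK⟩ : ∃ K, K = max (K5 b) (v + n / 2) := ⟨_, rfl⟩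
  have hK1 : K5 b ≤ K := by rw [hK]; exact le_max_left _ _
  have hK2 : v + n / 2 ≤ K := by rw [hK]; exact le_max_right _ _
  have hk1 : b 0 ≤ K5 b := le_max_left _ _
  have hk2 : 5 / 4 * (b 1 + b 2 + b 3) ≤ K5 b := le_max_right _ _
  have m1 := min_le_left (2 * (b 1 + b 2 + b 3) - b 0) (3 / 4 * (b 1 + b 2 + b 3))
  have m2 := min_le_right (2 * (b 1 + b 2 + b 3) - b 0) (3 / 4 * (b 1 + b 2 + b 3))
  have hz' : z₁ ≤ b 1 := by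
    refine hz.trans (max_le le_rfl (max_le b21 (b32.trans b21)))
  unfold TM708.T5 at hlev
  have hv3 : 3 * v ≤ 2 * K5 b := by
    rcases h5s with h | h
    · linarith
    · linarith
  have h := flat_own R Rm hd hd8 hG (K := K) (v := v) (z₁ := z₁) (z₂ := z₂) (z₃ := z₃) (n := n)
    (by linarith) h3 h32 h21 hn hv (Or.inl (by linarith)) (by linarith) hK2 (by linarith)
    (by linarith)
  rw [← hK]
  have h4 : d * z₃ ≤ d * ((b 1 + b 2 + b 3) / 3 + b 4) :=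
    mul_le_mul_of_nonneg_left (by linarith) hd
  unfold ℓE
  linarith

/-- **the flat claims** at the loss `2 d (N/3 + x)` -/
theorem fe2L_E (R : ExpRules (7 / 8 + d) r s) (Rm : ExpRGFz (7 / 8 + d) r s s₀)
    (hd : 0 ≤ d) (hd8 : 8 * d ≤ 1) (hG : NearAll d s₀) : FE2L s₀ (D5E d) (ℓE d) :=
  FE2L_of_near R Rm hd hd8 (fun _ hb => hb.1.1) (fun _ hb => hb.1.2.1) (fun _ _ => le_rfl)
    (nearE R Rm hd hd8 hG)

/-- **the class part of the free family over the exact square** -/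
theorem etU_N {Λ : Type} {π : Λ → DPar} {h : ℝ → ℝ} {c₀ : ℝ} (hpu : PU h c₀)
    (hP : ∀ lam, (π lam).OK) (hN : ∀ lam, ClN (π lam)) (hC : PM320.Clo π) {d : ℝ} (hd : 0 < d)
    (hd1 : d ≤ 1 / 42) (hPF : PF Set.univ (7 / 8 + d)) (hB : BunA d h) (hR : RecA d h)
    (hG : NearAll d (ex Dq (fun lam => S0p (π lam) h))) {Rh : ℝ} (hRh0 : 0 ≤ Rh)
    (hRh : ∀ u : ℝ, cx h u ≠ 0 → |u| ≤ Rh) {A : ℝ} (hA : 9 / 10 ≤ A) (hA0 : A ≤ 1)
    (hA1 : 16 * (1 - A) ≤ d) : EtU π h (1 / 64) (ParS A d) (LS0 d) := by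
  have P := hB _ π hP hN
  have G := hR _ π hP hN hC
  have hcol := Col298.colP (θ := 7 / 8 + d) (by linarith) (by linarith) hPF hpu π hP
    (fun lam k hk => hN lam k hk)
  have hFE := fe2L_E P.rules G hd.le (by linarith) hG
  have hgk : GkB π h (1 / 64) d (D5E d) :=
    GkB575.GkB_of hpu hP hRh0 hRh P.rules P.rules hcol hd.le (by linarith) (D5E_compact d)
      (fun b hb => hb.1.1) (fun b hb => hb.2.2.2.1) (fun b hb => (D5E_dm hb).1)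
      (fun b hb => (D5E_dm hb).2.1) (fun b hb => hb.2.2.2.2) (ℓE_cont d)
      (fun b hb => (D5E_l hb).1) (fun b hb => (D5E_l hb).2) hFE (by norm_num) le_rfl
  exact etU_of hpu hRh0 hRh hP P.rules P.rules G hcol hd.le (by linarith) (D5E_compact d)
    (fun b hb => D5E_dm hb) (ℓE_cont d) (fun b hb => (D5E_l hb).1)
    (fun b hb => by
      have h1 := (D5E_l hb).2
      have h2 : 0 ≤ d * b 0 := mul_nonneg hd.le (by linarith [(D5E_dm hb).1])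
      linarith)
    hFE hgk (fun p hp => parOK_Sq5 hA hp)
    (fun p hp => D5E_mem hd.le hd1 hA hA0 hA1 hp) (fun p hp => le_rfl)

end Crest.Agent.R017.EtN146
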