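import Crest.Agent.R017.ExBox3_960

/-!
# Row 17, exceptional class, absolute shapes (helper968), part A: lists outside the near-equal class

* `perm_idx`, `idx_ofFn` : indices of the lumps of a permuted list
* `Repl` : the three replaced shapes;  `near_repl` = helper960's `near_A`, `near_B`, `near_AB`
* `allowed_abs` : the lumps of a replaced list are not near-equal
-/

set_option autoImplicit false

namespace Crest.Agent.R017.ExAb968

open Crest.Agent.R017.ExBox960


lemma perm_idx {α ι : Type*} {L us gs : List α} {I : List ι} {F : ι → α} (hI : I.Nodup)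
    (h0 : List.Forall₂ (fun q i => F i = q) L I) (h : L.Perm (us ++ gs)) :
    ∃ f : Fin us.length → ι, Function.Injective f ∧ ∀ i, F (f i) = us.get i := by
  obtain ⟨v, hv1, hv2⟩ := List.perm_comp_forall₂ h.symm h0
  have hnd : v.Nodup := hv2.nodup_iff.2 hI
  rw [List.forall₂_iff_get] at hv1
  obtain ⟨hlen, hv1⟩ := hv1
  have hlu : us.length ≤ v.length := by
    rw [← hlen, List.length_append]; omega
  refine ⟨fun i => v.get ⟨i, lt_of_lt_of_le i.2 hlu⟩, fun a b hab => ?_, fun i => ?_⟩
  · have h6 := hnd.get_inj_iff.1 hab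
    rw [Fin.mk.injEq] at h6
    exact Fin.ext h6
  · have hi : (i : ℕ) < (us ++ gs).length := by rw [List.length_append]; omega
    have h3 := hv1 i hi (lt_of_lt_of_le i.2 hlu)
    rw [h3]
    simp [List.getElem_append_left]

/-- index type of `List.ofFn us ++ ps` -/
lemma idx_ofFn {α : Type*} {n : ℕ} (us : Fin n → α) (ps : List α) :
    ∃ I : List (Fin n ⊕ Fin ps.length), I.Nodup ∧
      List.Forall₂ (fun q i => Sum.elim us ps.get i = q) (List.ofFn us ++ ps) I := by
  refine ⟨(List.finRange n).map Sum.inl ++ (List.finRange ps.length).map Sum.inr, ?_, ?_⟩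
  · refine List.Nodup.append ((List.nodup_finRange n).map Sum.inl_injective)
      ((List.nodup_finRange _).map Sum.inr_injective) ?_
    intro x h1 h2
    rw [List.mem_map] at h1 h2
    obtain ⟨a, _, rfl⟩ := h1
    obtain ⟨b, _, hb⟩ := h2
    simp at hb
  · have h1 : List.Forall₂ (fun q i => Sum.elim us ps.get i = q) (List.ofFn us)
        ((List.finRange n).map Sum.inl) := by
      rw [List.forall₂_map_right_iff, List.forall₂_iff_get]
      refine ⟨by simp, fun i h1 h2 => by simp⟩
    have h2 : List.Forall₂ (fun q i => Sum.elim us ps.get i = q) ps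
        ((List.finRange ps.length).map Sum.inr) := by
      rw [List.forall₂_map_right_iff, List.forall₂_iff_get]
      refine ⟨by simp, fun i h1 h2 => by simp⟩
    exact List.rel_append h1 h2


/-- the replaced lengths: `d` = short length -/
def Repl (v v' : Fin 5 → ℝ) (d : ℝ) : Prop :=
  (v' 0 = v 0 ∧ v' 1 = v 1 ∧ v' 2 = d ∧ v' 4 = v 4) ∨
  (v' 0 = d ∧ v' 2 = v 2 ∧ v' 3 = v 3 ∧ v' 4 = v 4) ∨
  (v' 0 = d ∧ v' 2 = d ∧ v' 4 = v 4)

theorem near_repl {ι : Type*} [Fintype ι] [DecidableEq ι] {w w' : ι → ℝ} {s : Fin 5 → ι}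
    {v v' : Fin 5 → ℝ} {T K d : ℝ} (D : NData w s T K d) (h1 : ∀ j, w (s j) = v j)
    (h2 : ∀ j, w' (s j) = v' j) (h3 : ∀ x, x ∉ Set.range s → w' x = w x) (hR : Repl v v' d)
    {u : Fin 5 → ι} (hu : Function.Injective u) (hua : ∀ a b, a ≤ b → w' (u b) ≤ w' (u a)) :
    w' (u 2) + w' (u 3) + 2 * w' (u 4) < K := by
  have key : ∀ (S : Fin 5 → Prop), (∀ j, S j → w' (s j) = w (s j)) →
      ∀ x, (∀ j, ¬ S j → x ≠ s j) → w' x = w x := by
    intro S hS x hx
    by_cases hxr : x ∈ Set.range s
    · obtain ⟨j, rfl⟩ := hxr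
      exact hS j (by by_contra h; exact hx j h rfl)
    · exact h3 x hxr
  rcases hR with ⟨a0, a1, a2, a4⟩ | ⟨a0, a2, a3, a4⟩ | ⟨a0, a2, a4⟩
  · refine near_A D (by rw [h2, a2]) (fun x x2 x3 => ?_) hu hua
    refine key (fun j => j ≠ 2 ∧ j ≠ 3) (fun j hj => ?_) x (fun j hj => ?_)
    · rw [h1, h2]
      fin_cases j
      · exact a0
      · exact a1
      · exact absurd rfl hj.1
      · exact absurd rfl hj.2
      · exact a4
    · have : j = 2 ∨ j = 3 := by
        by_contra h; push Not at h; exact hj ⟨h.1, h.2⟩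
      rcases this with rfl | rfl
      · exact x2
      · exact x3
  · refine near_B D (by rw [h2, a0]) (fun x x0 x1 => ?_) hu hua
    refine key (fun j => j ≠ 0 ∧ j ≠ 1) (fun j hj => ?_) x (fun j hj => ?_)
    · rw [h1, h2]
      fin_cases j
      · exact absurd rfl hj.1
      · exact absurd rfl hj.2
      · exact a2
      · exact a3
      · exact a4
    · have : j = 0 ∨ j = 1 := by
        by_contra h; push Not at h; exact hj ⟨h.1, h.2⟩
      rcases this with rfl | rfl
      · exact x0
      · exact x1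
  · refine near_AB D (by rw [h2, a0]) (by rw [h2, a2]) (fun x x0 x1 x2 x3 => ?_) hu hua
    refine key (fun j => j = 4) (fun j hj => ?_) x (fun j hj => ?_)
    · rw [h1, h2, hj, a4]
    · fin_cases j
      · exact x0
      · exact x1
      · exact x2
      · exact x3
      · exact absurd rfl hj


open Classical in
theorem allowed_abs {α : Type*} (nl : α → ℝ) (lump : α → Prop) {us' : Fin 5 → α} {ps : List α}
    {v v' : Fin 5 → ℝ} {K T d δ k : ℝ}
    (hv0 : ∀ j, 0 ≤ v j) (hva : ∀ a b, a ≤ b → v b ≤ v a) (hR : Repl v v' d) (hδ : 0 ≤ δ)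
    (h1 : ∀ j, nl (us' j) ≤ v' j + δ)
    (hps0 : ∀ p ∈ ps, lump p → 0 ≤ nl p) (hps : ∀ p ∈ ps, lump p → nl p ≤ v 4 + δ)
    (hT : ∑ j, v j + (ps.map fun p => if lump p then nl p else 0).sum ≤ T)
    (near : K ≤ v 2 + v 3 + 2 * v 4) (n1 : T / 2 - K / 8 + 2 * d < K) (n2 : 2 * T < 3 * K)
    (n3 : 4 * d < K) (hk : K + 4 * δ ≤ k)
    {us gs : List α} (hp : (List.ofFn us' ++ ps).Perm (us ++ gs)) (hl : ∀ p ∈ us, lump p)
    (s : Fin 5 → Fin us.length) (hs : Function.Injective s) :
    ∃ σ : Equiv.Perm (Fin 5), nl (us.get (s (σ 2))) + nl (us.get (s (σ 3))) +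
      2 * nl (us.get (s (σ 4))) ≤ k := by
  obtain ⟨I, hI, hIF⟩ := idx_ofFn us' ps
  obtain ⟨f, hf, hfv⟩ := perm_idx hI hIF hp
  -- the values
  let F : α → ℝ := fun p => if lump p then min (nl p) (v 4) else 0
  let w : Fin 5 ⊕ Fin ps.length → ℝ := Sum.elim v (fun i => max 0 (F (ps.get i)))
  let w' : Fin 5 ⊕ Fin ps.length → ℝ := Sum.elim v' (fun i => max 0 (F (ps.get i)))
  have hF4 : ∀ p, max 0 (F p) ≤ v 4 := by
    intro p
    refine max_le (hv0 4) ?_
    simp only [F]
    split_ifs with h
    · exact min_le_right _ _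
    · exact hv0 4
  have D : NData w (Sum.inl : Fin 5 → Fin 5 ⊕ Fin ps.length) T K d := by
    refine ⟨?_, Sum.inl_injective, fun a b hab => hva a b hab, ?_, ?_, near, n1, n2, n3⟩
    · rintro (i | i)
      · exact hv0 i
      · exact le_max_left _ _
    · rintro (i | i) hi
      · exact absurd ⟨i, rfl⟩ hi
      · exact hF4 _
    · rw [Fintype.sum_sum_type]
      have e : ∑ i : Fin ps.length, w (Sum.inr i) = (ps.map fun p => max 0 (F p)).sum := by
        have := Fin.sum_univ_fun_getElem ps (fun p => max 0 (F p))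
        simpa [w] using this
      rw [e]
      refine le_trans ?_ hT
      have e2 : (ps.map fun p => max 0 (F p)).sum ≤
          (ps.map fun p => if lump p then nl p else 0).sum := by
        refine List.sum_le_sum fun p hp => ?_
        simp only [F]
        split_ifs with h
        · exact max_le (hps0 p hp h) (min_le_left _ _)
        · exact le_of_eq (max_self 0)
      have e3 : ∑ j, w (Sum.inl j) = ∑ j, v j := rfl
      rw [e3]
      linarith
  -- actual lengths
  have hle : ∀ i, nl (us.get i) ≤ w' (f i) + δ := by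
    intro i
    have h2 := hfv i
    have h3 := hl _ (List.get_mem us i)
    rw [← h2] at h3 ⊢
    generalize f i = x at h3 ⊢
    rcases x with j | j
    · exact h1 j
    · have h4 : lump (ps.get j) := h3
      have h5 : w' (Sum.inr j) = max 0 (min (nl (ps.get j)) (v 4)) := by
        simp only [w', Sum.elim_inr, F]
        rw [if_pos h4]
      rw [h5]
      have h6 := hps _ (List.get_mem ps j) h4
      show nl (ps.get j) ≤ _
      have h7 := le_max_right 0 (min (nl (ps.get j)) (v 4))
      rcases le_total (nl (ps.get j)) (v 4) with h8 | h8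
      · rw [min_eq_left h8] at h7 ⊢
        linarith
      · rw [min_eq_right h8] at h7 ⊢
        linarith
  -- sort
  let g : Fin 5 → ℝᵒᵈ := fun i => OrderDual.toDual (w' (f (s i)))
  set σ := Tuple.sort g with hσ
  have hmono : Monotone (g ∘ σ) := Tuple.monotone_sort g
  refine ⟨σ, ?_⟩
  have h9 := near_repl (w' := w') D (v' := v') (v := v) (fun _ => rfl) (fun _ => rfl)
    (fun x hx => by
      rcases x with x | x
      · exact absurd ⟨x, rfl⟩ hx
      · rfl) hR (u := fun i => f (s (σ i))) (hf.comp (hs.comp σ.injective))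
    (fun a b hab => OrderDual.toDual_le_toDual.1 (hmono hab))
  have i2 := hle (s (σ 2))
  have i3 := hle (s (σ 3))
  have i4 := hle (s (σ 4))
  have h10 : w' (f (s (σ 2))) + w' (f (s (σ 3))) + 2 * w' (f (s (σ 4))) < K := h9
  linarith

end Crest.Agent.R017.ExAb968
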