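import Crest.Agent.R017.ExPr1_791

/-!
# Row 17, D.box, exceptional class: completion to all `k` (2) (helper791)

* `bxDD_princ` : the `k`-sum over the `k` with `NP2 k` false, two differences of shapes
* `ex_princ` : the same below `TgB` (exponents)
-/

set_option autoImplicit false
set_option linter.unusedVariables false

noncomputable section

open MeasureTheory Complex Set
open scoped ComplexConjugate ContDiff

namespace Crest.Agent.R017.ExPr791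

open Crest.Agent.R012 Crest.Agent.R012.Eis Crest.Agent.R012.Mob705 Crest.Agent.R012.Gauss880
open Crest.Agent.R012.PSer47 (IsChar)
open Crest.Agent.R012.Div277 (tau dvs tau_le_rpow)
open Crest.Agent.R012.LS2 (bl)
open Crest.Agent.R017.End699 Crest.Agent.R017.Sx440 Crest.Agent.R017.Sx545
open Crest.Agent.R017.Asm986 Crest.Agent.R017.HBS271
open Crest.Agent.R017.Sup271 Crest.Agent.R017.B770
open Crest.Agent.R017.ExBox960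

/-- the number of `k` with `NP2 k` false -/
lemma card_not_np2 (P : DPar) (hP : P.OK) {N : ℕ} (hN : 1 ≤ N) (S : Finset Eis)
    (hS : ∀ k ∈ S, k ∈ ball N ∧ k ≠ 0 ∧ ¬ P.NP2 k) :
    (S.card : ℝ) ≤ 36 * (N : ℝ) ^ (1 / 3 : ℝ) := by
  classical
  have h1 := BoxP271.card_npm hP.ψ P.l₂ hN (S.filter fun k => ¬ NPm P.n P.ψ P.l₂ k) (by
    intro k hk
    rw [Finset.mem_filter] at hk
    exact ⟨(hS k hk.1).1, (hS k hk.1).2.1, hk.2⟩)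
  have h2 := NatP401.card_principal hP.φ P.l₁ hN (S.filter fun k => ¬ NPk P.n P.φ P.l₁ k) (by
    intro k hk
    rw [Finset.mem_filter] at hk
    exact ⟨(hS k hk.1).1, (hS k hk.1).2.1, hk.2⟩)
  have h3 : S ⊆ (S.filter fun k => ¬ NPm P.n P.ψ P.l₂ k) ∪
      (S.filter fun k => ¬ NPk P.n P.φ P.l₁ k) := by
    intro k hk
    have h := (hS k hk).2.2
    unfold DPar.NP2 at h
    rw [Finset.mem_union, Finset.mem_filter, Finset.mem_filter]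
    tauto
  have h4 : (S.card : ℝ) ≤ (S.filter fun k => ¬ NPm P.n P.ψ P.l₂ k).card +
      (S.filter fun k => ¬ NPk P.n P.φ P.l₁ k).card := by
    exact_mod_cast (Finset.card_le_card h3).trans (Finset.card_union_le _ _)
  linarith

/-- a difference of two shapes at every `k` with `NP2 k` false -/
theorem D2_le (P : DPar) (hP : P.OK) {ε : ℝ} (hε : 0 < ε) :
    ∃ (C : ℝ) (J : ℕ), 1 ≤ C ∧ ∀ k d : Eis, k ≠ 0 → d ≠ 0 → ¬ P.NP2 k →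
      ∀ (t : ℝ) (m m' a b : ℕ), a + b = m + m' → a ≤ m → a ≤ m' →
      ‖D2 (P.ch d t k) m m' a b‖ ≤
        C * ((nm d : ℝ) * nm k) ^ ε * (1 + |t|) ^ J * Real.exp b := by
  obtain ⟨C1, hC1, h1⟩ := D2_npm_not hP.ψ P.l₂ hε
  obtain ⟨C2, J2, hC2, h2⟩ := D2_cube hP.φ hP.ψ P.l₂ P.l₁ hε
  refine ⟨C1 + C2, J2 + 6, by linarith, ?_⟩
  intro k d hk hd hnp t m m' a b hab ham ham'
  have ht : 1 ≤ 1 + |t| := by linarith [abs_nonneg t]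
  have hX0 : 0 ≤ ((nm d : ℝ) * nm k) ^ ε := by positivity
  have hb1 : 1 ≤ Real.exp (b : ℝ) := Real.one_le_exp (by positivity)
  by_cases hm : NPm P.n P.ψ P.l₂ k
  · have hnk : ¬ NPk P.n P.φ P.l₁ k := fun h => hnp ⟨h, hm⟩
    refine (h2 k d hk hd hnk hm t m m' a b).trans ?_
    have h3 : (1 + |t|) ^ J2 ≤ (1 + |t|) ^ (J2 + 6) := pow_le_pow_right₀ ht (by omega)
    calc C2 * ((nm d : ℝ) * nm k) ^ ε * (1 + |t|) ^ J2
        ≤ (C1 + C2) * ((nm d : ℝ) * nm k) ^ ε * (1 + |t|) ^ (J2 + 6) * 1 := by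
          rw [mul_one]
          gcongr
          linarith
      _ ≤ _ := by gcongr
  · refine (h1 k d hk hd hm t m m' a b hab ham ham').trans ?_
    have h3 : (1 + |t|) ^ 6 ≤ (1 + |t|) ^ (J2 + 6) := pow_le_pow_right₀ ht (by omega)
    gcongr
    linarith

/-- the remaining scales -/
lemma sum_rest {j : ℕ} (c : Fin (j - 1) ⊕ Fin j → ℕ)
    {i₀ i₁ i₂ i₃ : Fin (j - 1)} (h01 : i₀ ≠ i₁) (h23 : i₂ ≠ i₃) (h02 : i₀ ≠ i₂) (h03 : i₀ ≠ i₃)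
    (h12 : i₁ ≠ i₂) (h13 : i₁ ≠ i₃) :
    ∑ i ∈ Finset.univ \ ({i₀, i₁, i₂, i₃} : Finset (Fin (j - 1))), (c (Sum.inl i) : ℝ) =
      ∑ i, (c (Sum.inl i) : ℝ) - c (Sum.inl i₀) - c (Sum.inl i₁) - c (Sum.inl i₂) -
        c (Sum.inl i₃) := by
  have h := Finset.sum_sdiff (Finset.subset_univ ({i₀, i₁, i₂, i₃} : Finset (Fin (j - 1))))
    (f := fun i => (c (Sum.inl i) : ℝ))
  rw [Finset.sum_insert (by simp [h01, h02, h03]), Finset.sum_insert (by simp [h12, h13]),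
    Finset.sum_insert (by simp [h23]), Finset.sum_singleton] at h
  linarith

open Classical in
/-- **the `k` with `NP2 k` false, two differences of shapes** -/
theorem bxDD_princ {r : ℕ} (P : DPar) (hP : P.OK) (L : ℕ) {ε : ℝ} (hε : 0 < ε) :
    ∃ C A : ℝ, 0 ≤ C ∧ 0 ≤ A ∧
    ∀ (y Q₀ : ℝ), 0 < Q₀ → ∀ κ : ℝ, ∀ (J : Finset (Fin r)) (H : ℝ), 0 < H →
    ∀ d₁ d₂ d₃ e : Eis, d₂ ≠ 0 → IsPrim e →
    ∀ (t₁ t₂ τ z : ℝ) (𝒟 : Finset Eis), (∀ q ∈ 𝒟, IsPrim q) →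
    ∀ u : Eis → ℝ, (∀ q, 0 ≤ u q) →
    ∀ j : ℕ, j ≤ L → ∀ c : Fin (j - 1) ⊕ Fin j → ℕ, ∀ i₀ i₁ i₂ i₃ : Fin (j - 1),
      i₀ ≠ i₁ → i₂ ≠ i₃ → i₀ ≠ i₂ → i₀ ≠ i₃ → i₁ ≠ i₂ → i₁ ≠ i₃ →
    ∀ a b a' b' : ℕ, a + b = c (Sum.inl i₂) + c (Sum.inl i₃) →
      a' + b' = c (Sum.inl i₀) + c (Sum.inl i₁) → a ≤ c (Sum.inl i₂) → a ≤ c (Sum.inl i₃) →
      a' ≤ c (Sum.inl i₀) → a' ≤ c (Sum.inl i₁) →
      ∑ q ∈ 𝒟, ‖bxDD P (fun k => ¬ P.NP2 k) r y Q₀ (κ - u q) J H d₁ d₂ d₃ e t₁ t₂ τ z c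
          i₀ i₁ i₂ i₃ a b a' b' q‖ ≤
        C * ((nm d₂ : ℝ) * (1 + H)) ^ ε * (1 + |t₂|) ^ A *
          (H ^ (1 / 3 : ℝ) * (CJ r y Q₀ J * Real.exp κ) *
            Real.exp (∑ i, (c (Sum.inl i) : ℝ) + ∑ i, (c (Sum.inr i) : ℝ) - a - a')) := by
  have hs : 0 < ε / 3 := by positivity
  obtain ⟨Cd, Jd, hCd, hD⟩ := D2_le P hP hs
  obtain ⟨Ca, hCa, ham⟩ := norm_am_triv P hP r
  obtain ⟨Ct, hCt1, hCt⟩ := tau_le_rpow hs
  obtain ⟨β, hβ1, hβ⟩ := Asm986.sw_bound hP.U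
  obtain ⟨BU, hBU0, hBU⟩ := BoxP271.sw_bdd hP.U
  set G : ℝ := (18 * Real.exp 1) ^ (2 * L) with hG
  have h18 : (1 : ℝ) ≤ 18 * Real.exp 1 := by
    have := Real.add_one_le_exp (1 : ℝ)
    linarith
  set K0 : ℝ := (nm P.n₃ * BU) * (Ca * (Cd * Cd * G)) with hK0
  have hK00 : 0 ≤ K0 := by positivity
  refine ⟨K0 * (36 * β * Ct) * β ^ ε, (2 * Jd : ℕ), by positivity, by positivity, ?_⟩
  intro y Q₀ hQ₀ κ J H hH d₁ d₂ d₃ e hd₂ he t₁ t₂ τ z 𝒟 h𝒟 u hu j hj c i₀ i₁ i₂ i₃ h01 h23 h02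
    h03 h12 h13 a b a' b' hab hab' ha2 ha3 ha0 ha1
  have hCJ := BoxP271.CJ_pos (r := r) (y := y) hQ₀ J
  have hm2 : (1 : ℝ) ≤ nm d₂ := by exact_mod_cast nm_pos.mpr hd₂
  have hT1 : 1 ≤ 1 + |t₂| := by linarith [abs_nonneg t₂]
  set T : ℝ := 1 + |t₂| with hT
  set N : ℕ := ⌊β * H⌋₊ with hN
  have hNβ : (N : ℝ) ≤ β * H := Nat.floor_le (by positivity)
  set Z : ℝ := (nm d₂ : ℝ) * (β * (1 + H)) with hZ
  have hβH : β * H ≤ β * (1 + H) := by nlinarith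
  have hZ1 : 1 ≤ Z := by
    have h1 : 1 ≤ β * (1 + H) := by nlinarith
    rw [hZ]; nlinarith
  set E : ℝ := Real.exp (∑ i, (c (Sum.inl i) : ℝ) + ∑ i, (c (Sum.inr i) : ℝ) - a - a') with hE
  set W : ℝ := K0 * ((Z ^ (ε / 3) * T ^ Jd) * (Z ^ (ε / 3) * T ^ Jd)) *
    (CJ r y Q₀ J * Real.exp κ) * E with hW
  have hW0 : 0 ≤ W := by positivity
  have hZk : ∀ k : Eis, nm k ≤ N → ((nm d₂ : ℝ) * nm k) ^ (ε / 3) ≤ Z ^ (ε / 3) := by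
    intro k hk
    refine Real.rpow_le_rpow (by positivity) ?_ hs.le
    have : (nm k : ℝ) ≤ N := by exact_mod_cast hk
    rw [hZ]
    gcongr
    linarith
  have hq := BoxP271.sum_q_le (N := N) (𝒟 := 𝒟) h𝒟
    (c1 := fun k => True) (c2 := fun k => P.NP2 k)
    (F := fun q k => P.wk τ H k * (prin0 d₃ k * sy k e) *
      (P.am r y Q₀ (κ - u q) J d₁ t₁ k *
        (D2 (P.ch d₂ t₂ k) (c (Sum.inl i₀)) (c (Sum.inl i₁)) a' b' *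
          D2 (P.ch d₂ t₂ k) (c (Sum.inl i₂)) (c (Sum.inl i₃)) a b *
            GCr (P.ch d₂ t₂ k) z c {i₀, i₁, i₂, i₃})))
    (W := W) hW0 ?_ ?_
  rotate_left
  · intro q k hk
    have h0 : P.U (nm k / H) = 0 := by
      by_contra hne
      have h1 := (hβ _ hne).2
      rw [div_le_iff₀ hH] at h1
      have h2 : nm k ≤ N := Nat.le_floor h1
      omega
    unfold DPar.wk
    rw [h0]; ring
  · intro q hq k hk hc hkN
    have b1 := BoxP271.norm_wk_le P hP hBU τ H hk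
    have b2 : ‖prin0 d₃ k * sy k e‖ ≤ 1 := by
      rw [norm_mul]
      refine mul_le_one₀ ?_ (norm_nonneg _) (BoxP271.norm_sy_le' k e he)
      unfold prin0; split_ifs <;> simp
    have b3 : ‖P.am r y Q₀ (κ - u q) J d₁ t₁ k‖ ≤ Ca * (Real.exp κ * CJ r y Q₀ J) := by
      refine (ham y Q₀ (κ - u q) hQ₀ J d₁ t₁ k).trans ?_
      have := hu q
      gcongr
      linarith
    have b4 : ‖D2 (P.ch d₂ t₂ k) (c (Sum.inl i₀)) (c (Sum.inl i₁)) a' b'‖ ≤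
        Cd * (Z ^ (ε / 3) * T ^ Jd) * Real.exp b' := by
      refine (hD k d₂ hk hd₂ hc.2 t₂ _ _ a' b' hab' ha0 ha1).trans ?_
      have := hZk k hkN
      calc _ ≤ Cd * Z ^ (ε / 3) * T ^ Jd * Real.exp b' := by gcongr
        _ = _ := by ring
    have b5 : ‖D2 (P.ch d₂ t₂ k) (c (Sum.inl i₂)) (c (Sum.inl i₃)) a b‖ ≤
        Cd * (Z ^ (ε / 3) * T ^ Jd) * Real.exp b := by
      refine (hD k d₂ hk hd₂ hc.2 t₂ _ _ a b hab ha2 ha3).trans ?_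
      have := hZk k hkN
      calc _ ≤ Cd * Z ^ (ε / 3) * T ^ Jd * Real.exp b := by gcongr
        _ = _ := by ring
    have b6 : ‖GCr (P.ch d₂ t₂ k) z c {i₀, i₁, i₂, i₃}‖ ≤ G *
        Real.exp (∑ i ∈ Finset.univ \ ({i₀, i₁, i₂, i₃} : Finset (Fin (j - 1))),
          (c (Sum.inl i) : ℝ) + ∑ i, (c (Sum.inr i) : ℝ)) := by
      refine (norm_GCr_le hP.ψ P.l₂ t₂ d₂ k z c _).trans ?_
      gcongr
      rw [hG]
      exact pow_le_pow_right₀ h18 (by omega)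
    have b7 : ‖P.wk τ H k * (prin0 d₃ k * sy k e)‖ ≤ (nm P.n₃ * BU) * 1 := by
      rw [norm_mul]
      exact mul_le_mul b1 b2 (norm_nonneg _) (by positivity)
    have b8 := mul_le_mul (mul_le_mul b4 b5 (norm_nonneg _) (by positivity)) b6 (norm_nonneg _)
      (by positivity)
    rw [← norm_mul, ← norm_mul] at b8
    have b9 := mul_le_mul b3 b8 (norm_nonneg _) (by positivity)
    rw [← norm_mul] at b9
    have b10 := mul_le_mul b7 b9 (norm_nonneg _) (by positivity)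
    rw [← norm_mul] at b10
    refine b10.trans (le_of_eq ?_)
    have hEE : E = Real.exp b' * Real.exp b *
        Real.exp (∑ i ∈ Finset.univ \ ({i₀, i₁, i₂, i₃} : Finset (Fin (j - 1))),
          (c (Sum.inl i) : ℝ) + ∑ i, (c (Sum.inr i) : ℝ)) := by
      rw [hE, ← Real.exp_add, ← Real.exp_add, sum_rest c h01 h23 h02 h03 h12 h13]
      congr 1
      have g1 : (a : ℝ) + b = c (Sum.inl i₂) + c (Sum.inl i₃) := by exact_mod_cast hab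
      have g2 : (a' : ℝ) + b' = c (Sum.inl i₀) + c (Sum.inl i₁) := by exact_mod_cast hab'
      linarith
    rw [hW, hK0, hEE]; ring
  have hq' : ∑ q ∈ 𝒟, ‖bxDD P (fun k => ¬ P.NP2 k) r y Q₀ (κ - u q) J H d₁ d₂ d₃ e t₁ t₂ τ z c
      i₀ i₁ i₂ i₃ a b a' b' q‖ ≤
      W * ∑ k ∈ (ball N).filter (fun k => k ≠ 0 ∧ (True ∧ ¬ P.NP2 k)), (tau k : ℝ) := by
    refine le_trans (le_of_eq ?_) (hq.trans (le_of_eq ?_))
    · refine Finset.sum_congr rfl fun q hq => ?_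
      unfold bxDD bxG
      congr 1
      refine tsum_congr fun k => ?_
      simp only [true_and]
    · congr!
  refine hq'.trans ?_
  -- number of `k`
  have hS : ∑ k ∈ (ball N).filter (fun k => k ≠ 0 ∧ (True ∧ ¬ P.NP2 k)), (tau k : ℝ) ≤
      (36 * β * Ct) * (Z ^ (ε / 3) * H ^ (1 / 3 : ℝ)) := by
    have h1 : ∀ k ∈ (ball N).filter (fun k => k ≠ 0 ∧ (True ∧ ¬ P.NP2 k)),
        (tau k : ℝ) ≤ Ct * Z ^ (ε / 3) := by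
      intro k hk
      rw [Finset.mem_filter, mem_ball] at hk
      refine (hCt k hk.2.1).trans ?_
      have h2 : (nm k : ℝ) ≤ (nm d₂ : ℝ) * nm k := by
        have : (0 : ℝ) ≤ nm k := by positivity
        nlinarith
      have h3 : (nm k : ℝ) ^ (ε / 3) ≤ ((nm d₂ : ℝ) * nm k) ^ (ε / 3) :=
        Real.rpow_le_rpow (by positivity) h2 hs.le
      have h4 := h3.trans (hZk k hk.1)
      gcongr
    refine (Finset.sum_le_card_nsmul _ _ _ h1).trans ?_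
    rw [nsmul_eq_mul]
    by_cases hN1 : 1 ≤ N
    · have h2 := card_not_np2 P hP hN1 ((ball N).filter (fun k => k ≠ 0 ∧ (True ∧ ¬ P.NP2 k))) (by
          intro k hk
          rw [Finset.mem_filter] at hk
          exact ⟨hk.1, hk.2.1, hk.2.2.2⟩)
      have h3 : (N : ℝ) ^ (1 / 3 : ℝ) ≤ β * H ^ (1 / 3 : ℝ) := by
        calc (N : ℝ) ^ (1 / 3 : ℝ) ≤ (β * H) ^ (1 / 3 : ℝ) := by gcongr
          _ = β ^ (1 / 3 : ℝ) * H ^ (1 / 3 : ℝ) := Real.mul_rpow (by linarith) hH.le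
          _ ≤ β * H ^ (1 / 3 : ℝ) := by
              gcongr
              calc β ^ (1 / 3 : ℝ) ≤ β ^ (1 : ℝ) :=
                    Real.rpow_le_rpow_of_exponent_le hβ1 (by norm_num)
                _ = β := Real.rpow_one β
      calc _ ≤ (36 * (N : ℝ) ^ (1 / 3 : ℝ)) * (Ct * Z ^ (ε / 3)) := by gcongr
        _ ≤ (36 * (β * H ^ (1 / 3 : ℝ))) * (Ct * Z ^ (ε / 3)) := by gcongr
        _ = _ := by ring
    · have hN0 : N = 0 := by omega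
      have hemp : (ball N).filter (fun k => k ≠ 0 ∧ (True ∧ ¬ P.NP2 k)) = ∅ := by
        rw [Finset.filter_eq_empty_iff]
        intro k hk hc
        rw [mem_ball, hN0] at hk
        exact absurd (nm_pos.mpr hc.1) (by omega)
      rw [hemp, Finset.card_empty]
      simp only [Nat.cast_zero, zero_mul]
      positivity
  refine (mul_le_mul_of_nonneg_left hS hW0).trans (le_of_eq ?_)
  have hZ3 : Z ^ (ε / 3) * Z ^ (ε / 3) * Z ^ (ε / 3) = β ^ ε * ((nm d₂ : ℝ) * (1 + H)) ^ ε := by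
    have hZ0 : 0 < Z := by linarith
    rw [← Real.rpow_add hZ0, ← Real.rpow_add hZ0, ← Real.mul_rpow (by linarith) (by positivity)]
    have e1 : ε / 3 + ε / 3 + ε / 3 = ε := by ring
    rw [e1, hZ]
    congr 1
    ring
  have hTT : T ^ ((2 * Jd : ℕ) : ℝ) = T ^ Jd * T ^ Jd := by
    rw [Real.rpow_natCast, two_mul, pow_add]
  rw [hTT]
  calc W * ((36 * β * Ct) * (Z ^ (ε / 3) * H ^ (1 / 3 : ℝ)))
      = K0 * (36 * β * Ct) * (Z ^ (ε / 3) * Z ^ (ε / 3) * Z ^ (ε / 3)) * (T ^ Jd * T ^ Jd) *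
        (H ^ (1 / 3 : ℝ) * (CJ r y Q₀ J * Real.exp κ) * E) := by rw [hW]; ring
    _ = _ := by rw [hZ3]; ring

/-! ### exponents -/

/-- the exponent computation: the first monomial of `TgB` -/
lemma first_mono {θ y₀ η η₂ β g₀ Q₀ Q H c : ℝ} (hQ₀ : 1 ≤ Q₀) (hQ : 0 < Q) (hQQ : Q ≤ Q₀)
    (hH : 0 < H) (hc : 0 < c) (hcy : Real.log c ≤ y₀ * Real.log Q₀) (hβ : 0 ≤ β)
    (hH2 : g₀ * Real.log Q₀ ≤ Real.log H)
    (hpar : 1 + η + 2 / 3 * (1 / 2 + y₀) ≤ (2 / 3 + 2 * β) * g₀ + θ) :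
    H ^ (1 / 3 : ℝ) * Q * c * Real.exp (-(2 * β * Real.log H)) ≤
      TgB θ η η₂ y₀ Q₀ Q H c := by
  have hQ₀0 : 0 < Q₀ := by linarith
  have hL0 : 0 ≤ Real.log Q₀ := Real.log_nonneg hQ₀
  have hlQ : Real.log Q ≤ Real.log Q₀ := Real.log_le_log hQ hQQ
  unfold TgB
  have hpos : 0 ≤ Q₀ ^ (-η) * ((H / Q₀ ^ (1 / 2 + y₀)) ^ (1 / 2 : ℝ) *
      (Q / Q₀) ^ (3 / 4 : ℝ) * (c / Q₀ ^ y₀) ^ (1 / 4 : ℝ)) +
      Q₀ ^ (-η₂) * ((H / Q₀ ^ (1 / 2 + y₀)) ^ (1 / 6 : ℝ) * (Q / Q₀) ^ θ *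
        (c / Q₀ ^ y₀) ^ θ) := by positivity
  have key : H ^ (1 / 3 : ℝ) * Q * c * Real.exp (-(2 * β * Real.log H)) ≤
      Q₀ ^ ((1 / 2 + y₀) / 3 + y₀ + θ) * (Q₀ ^ (-η) * (H / Q₀ ^ (1 / 2 + y₀) *
        (Q / Q₀) ^ (1 / 2 : ℝ) * (c / Q₀ ^ y₀) ^ (1 / 2 : ℝ))) := by
    obtain ⟨lh, rfl⟩ : ∃ x, Real.exp x = H := ⟨_, Real.exp_log hH⟩
    obtain ⟨lq, rfl⟩ : ∃ x, Real.exp x = Q := ⟨_, Real.exp_log hQ⟩
    obtain ⟨lc, rfl⟩ : ∃ x, Real.exp x = c := ⟨_, Real.exp_log hc⟩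
    obtain ⟨l0, rfl⟩ : ∃ x, Real.exp x = Q₀ := ⟨_, Real.exp_log hQ₀0⟩
    simp only [Real.log_exp] at hL0 hlQ hcy hH2 ⊢
    simp only [← Real.exp_mul, ← Real.exp_add, ← Real.exp_sub]
    apply Real.exp_le_exp.mpr
    have h1 : (2 / 3 + 2 * β) * (g₀ * l0) ≤ (2 / 3 + 2 * β) * lh :=
      mul_le_mul_of_nonneg_left hH2 (by linarith)
    have h2 := mul_le_mul_of_nonneg_right hpar hL0
    nlinarith
  refine key.trans ?_
  refine mul_le_mul_of_nonneg_left ?_ (by positivity)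
  linarith [hpos]

open Classical in
/-- **completion to all `k`, exceptional class** : the `k`-sum over the `k` with `NP2 k` false
with two differences of shapes (`a = a' = ⌊β log H⌋₊`) is below `TgB`. -/
theorem ex_princ {θ : ℝ} {r : ℕ} {y δ η : ℝ} (hr : 0 < r) (hy : 0 ≤ y) (hδ : 0 ≤ δ)
    (hyδ : y + δ < 1) (hη : η ≤ 1 / 2) {β a₀ : ℝ} (hβ : 0 ≤ β) (ha₀ : 0 ≤ a₀)
    (hpar : 1 + η + 2 / 3 * (1 / 2 + (y + δ)) ≤ (2 / 3 + 2 * β) * (a₀ * (1 / 2 + y)) + θ)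
    (P : DPar) (hP : P.OK) (L : ℕ) {ε C₁ : ℝ} (hε : 0 < ε) (hC₁ : 0 < C₁) :
    ∃ C A : ℝ, 0 ≤ C ∧ 0 ≤ A ∧
    ∀ (Q₀ Q : ℝ), 1 ≤ Q → Q ≤ Q₀ → ∀ κ : ℝ, κ ≤ δ * Real.log Q₀ →
    ∀ (J : Finset (Fin r)) (H : ℝ), 0 < H → H ≤ Q₀ ^ (1 / 2 + (y + δ) + η) →
    ∀ d₁ d₂ d₃ e : Eis, d₁ ≠ 0 → d₂ ≠ 0 → d₃ ≠ 0 → Sm P.n e →
    ∀ (t₁ t₂ τ : ℝ) (𝒟 : Finset Eis), (∀ q ∈ 𝒟, Sm P.n q ∧ Squarefree q) →
    ∀ u : Eis → ℝ, (∀ q, 0 ≤ u q) → ∀ z : ℝ,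
    ∀ j : ℕ, j ≤ L → ∀ c : Fin (j - 1) ⊕ Fin j → ℕ,
      ∑ i, (c (Sum.inl i) : ℝ) + ∑ i, (c (Sum.inr i) : ℝ) ≤ Real.log Q + C₁ →
      a₀ * ((1 / 2 + y) * Real.log Q₀) ≤ Real.log H →
    ∀ i₀ i₁ i₂ i₃ : Fin (j - 1),
      i₀ ≠ i₁ → i₂ ≠ i₃ → i₀ ≠ i₂ → i₀ ≠ i₃ → i₁ ≠ i₂ → i₁ ≠ i₃ →
    ∀ b b' : ℕ, ⌊β * Real.log H⌋₊ + b = c (Sum.inl i₂) + c (Sum.inl i₃) →
      ⌊β * Real.log H⌋₊ + b' = c (Sum.inl i₀) + c (Sum.inl i₁) →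
      ⌊β * Real.log H⌋₊ ≤ c (Sum.inl i₀) → ⌊β * Real.log H⌋₊ ≤ c (Sum.inl i₁) →
      ⌊β * Real.log H⌋₊ ≤ c (Sum.inl i₂) → ⌊β * Real.log H⌋₊ ≤ c (Sum.inl i₃) →
      ∑ q ∈ 𝒟, ‖bxDD P (fun k => ¬ P.NP2 k) r y Q₀ (κ - u q) J H d₁ d₂ d₃ e t₁ t₂ τ z c
          i₀ i₁ i₂ i₃ ⌊β * Real.log H⌋₊ b ⌊β * Real.log H⌋₊ b' q‖ ≤
        C * ((nm d₁ : ℝ) * nm d₂ * nm d₃ * nm e * Q₀) ^ ε * (1 + |t₁| + |t₂| + |τ|) ^ A *
          TgB θ η (if δ / 2 * Real.log Q₀ ≤ κ then η else -η) (y + δ) Q₀ Q H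
            (CJ r y Q₀ J * Real.exp κ) := by
  obtain ⟨C, A, hC, hA, h1⟩ := bxDD_princ (r := r) P hP L (ε := ε / 3) (by positivity)
  refine ⟨C * 2 ^ (ε / 3) * Real.exp (C₁ + 2), A, by positivity, hA, ?_⟩
  intro Q₀ Q hQ hQQ κ hκ2 J H hH hH2 d₁ d₂ d₃ e hd₁ hd₂ hd₃ he t₁ t₂ τ 𝒟 h𝒟 u hu z j hj c hc
    hHa i₀ i₁ i₂ i₃ h01 h23 h02 h03 h12 h13 b b' hb hb' g0 g1 g2 g3
  have hQ₀ : 1 ≤ Q₀ := hQ.trans hQQ
  have hQ₀0 : 0 < Q₀ := by linarith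
  have hQ0 : 0 < Q := by linarith
  have hL0 : 0 ≤ Real.log Q₀ := Real.log_nonneg hQ₀
  have hCJ := BoxP271.CJ_pos (r := r) (y := y) hQ₀0 J
  set a : ℕ := ⌊β * Real.log H⌋₊ with ha
  have h2 := h1 y Q₀ hQ₀0 κ J H hH d₁ d₂ d₃ e hd₂ he.1 t₁ t₂ τ z 𝒟 (fun q hq => (h𝒟 q hq).1.1)
    u hu j hj c i₀ i₁ i₂ i₃ h01 h23 h02 h03 h12 h13 a b a b' hb hb' g2 g3 g0 g1
  refine h2.trans ?_
  have hm1 : (1 : ℝ) ≤ nm d₁ := by exact_mod_cast nm_pos.mpr hd₁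
  have hm2 : (1 : ℝ) ≤ nm d₂ := by exact_mod_cast nm_pos.mpr hd₂
  have hm3 : (1 : ℝ) ≤ nm d₃ := by exact_mod_cast nm_pos.mpr hd₃
  have hm4 : (1 : ℝ) ≤ nm e := by exact_mod_cast nm_pos.mpr he.1.ne_zero
  set X : ℝ := (nm d₁ : ℝ) * nm d₂ * nm d₃ * nm e * Q₀ with hX
  obtain ⟨hXQ, hXd1, hXd2⟩ := BoxP271.X_facts hm1 hm2 hm3 hm4 hQ₀
  rw [← hX] at hXQ hXd1 hXd2
  have hX1 : 1 ≤ X := hQ₀.trans hXQ
  have a1 := abs_nonneg t₁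
  have a2 := abs_nonneg t₂
  have a3 := abs_nonneg τ
  have hHQ : H ≤ Q₀ ^ 2 := by
    refine hH2.trans ?_
    rw [← Real.rpow_natCast]
    refine Real.rpow_le_rpow_of_exponent_le hQ₀ ?_
    push_cast
    linarith
  -- the `ε`-factor
  have e1 : ((nm d₂ : ℝ) * (1 + H)) ^ (ε / 3) ≤ 2 ^ (ε / 3) * X ^ ε := by
    have h3 : (nm d₂ : ℝ) * (1 + H) ≤ 2 * X ^ 3 := by
      have h4 : 1 + H ≤ 2 * X ^ 2 := by
        have h5 : Q₀ ^ 2 ≤ X ^ 2 := by gcongr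
        have h6 : 1 ≤ X ^ 2 := one_le_pow₀ hX1
        linarith
      calc (nm d₂ : ℝ) * (1 + H) ≤ X * (2 * X ^ 2) := by gcongr
        _ = _ := by ring
    calc ((nm d₂ : ℝ) * (1 + H)) ^ (ε / 3) ≤ (2 * X ^ 3) ^ (ε / 3) :=
          Real.rpow_le_rpow (by positivity) h3 (by positivity)
      _ = 2 ^ (ε / 3) * (X ^ 3) ^ (ε / 3) := Real.mul_rpow (by norm_num) (by positivity)
      _ = 2 ^ (ε / 3) * X ^ ε := by
          congr 1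
          rw [← Real.rpow_natCast, ← Real.rpow_mul (by linarith)]
          congr 1
          push_cast
          ring
  have e2 : (1 + |t₂|) ^ A ≤ (1 + |t₁| + |t₂| + |τ|) ^ A :=
    Real.rpow_le_rpow (by positivity) (by linarith) hA
  -- the main factor
  have hcy : Real.log (CJ r y Q₀ J * Real.exp κ) ≤ (y + δ) * Real.log Q₀ := by
    rw [Real.log_mul hCJ.ne' (Real.exp_ne_zero _), Real.log_exp]
    have h3 : Real.log (CJ r y Q₀ J) ≤ y * Real.log Q₀ := by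
      rw [← Real.log_rpow hQ₀0]
      exact Real.log_le_log hCJ (BoxP271.CJ_le hr hy hQ₀ J)
    linarith
  have hTg := first_mono (θ := θ) (y₀ := y + δ) (η := η)
    (η₂ := if δ / 2 * Real.log Q₀ ≤ κ then η else -η) (β := β) (g₀ := a₀ * (1 / 2 + y))
    (c := CJ r y Q₀ J * Real.exp κ) hQ₀ hQ0 hQQ hH (by positivity) hcy hβ
    (by linarith [hHa]) hpar
  have hfl : β * Real.log H - 1 ≤ a := by
    have := (Nat.lt_floor_add_one (β * Real.log H)).le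
    rw [← ha] at this
    linarith
  have e3 : Real.exp (∑ i, (c (Sum.inl i) : ℝ) + ∑ i, (c (Sum.inr i) : ℝ) - a - a) ≤
      Real.exp (C₁ + 2) * (Q * Real.exp (-(2 * β * Real.log H))) := by
    have e4 : Q * Real.exp (-(2 * β * Real.log H)) =
        Real.exp (Real.log Q + -(2 * β * Real.log H)) := by
      rw [Real.exp_add, Real.exp_log hQ0]
    rw [e4, ← Real.exp_add]
    apply Real.exp_le_exp.mpr
    linarith
  calc C * ((nm d₂ : ℝ) * (1 + H)) ^ (ε / 3) * (1 + |t₂|) ^ A *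
        (H ^ (1 / 3 : ℝ) * (CJ r y Q₀ J * Real.exp κ) *
          Real.exp (∑ i, (c (Sum.inl i) : ℝ) + ∑ i, (c (Sum.inr i) : ℝ) - a - a))
      ≤ C * (2 ^ (ε / 3) * X ^ ε) * (1 + |t₁| + |t₂| + |τ|) ^ A *
        (H ^ (1 / 3 : ℝ) * (CJ r y Q₀ J * Real.exp κ) *
          (Real.exp (C₁ + 2) * (Q * Real.exp (-(2 * β * Real.log H))))) := by gcongr
    _ = C * 2 ^ (ε / 3) * Real.exp (C₁ + 2) * X ^ ε * (1 + |t₁| + |t₂| + |τ|) ^ A *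
        (H ^ (1 / 3 : ℝ) * Q * (CJ r y Q₀ J * Real.exp κ) *
          Real.exp (-(2 * β * Real.log H))) := by ring
    _ ≤ _ := by gcongr

/-! ### completion -/

open Classical in
lemma bxG_compl {P : DPar} (hP : P.OK) (N : Eis → Prop) (r : ℕ) (y Q₀ κ : ℝ) (J : Finset (Fin r))
    {H : ℝ} (hH : 0 < H) (d₁ d₃ e : Eis) (t₁ τ : ℝ) (G : Eis → ℂ) (q : Eis) :
    bxG P N r y Q₀ κ J H d₁ d₃ e t₁ τ G q =
      bxG P (fun _ => True) r y Q₀ κ J H d₁ d₃ e t₁ τ G q -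
        bxG P (fun k => ¬ N k) r y Q₀ κ J H d₁ d₃ e t₁ τ G q := by
  obtain ⟨β, hβ, hβU⟩ := Bx986.exists_supp hP.U
  rw [bxG_eq P N hβ hβU _ _ _ _ _ hH, bxG_eq P _ hβ hβU _ _ _ _ _ hH,
    bxG_eq P _ hβ hβU _ _ _ _ _ hH, ← Finset.sum_sub_distrib]
  refine Finset.sum_congr rfl fun k _ => ?_
  by_cases h1 : q ^ 2 ∣ k <;> by_cases h2 : N k <;> simp [h1, h2]

/-- **completion to all `k`** -/
theorem bxDD_compl {P : DPar} (hP : P.OK) (r : ℕ) (y Q₀ κ : ℝ) (J : Finset (Fin r)) {H : ℝ}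
    (hH : 0 < H) (d₁ d₂ d₃ e : Eis) (t₁ t₂ τ z : ℝ) {j : ℕ} (c : Fin (j - 1) ⊕ Fin j → ℕ)
    (i₀ i₁ i₂ i₃ : Fin (j - 1)) (a b a' b' : ℕ) (q : Eis) :
    ‖bxDD P P.NP2 r y Q₀ κ J H d₁ d₂ d₃ e t₁ t₂ τ z c i₀ i₁ i₂ i₃ a b a' b' q‖ ≤
      ‖bxDD P (fun _ => True) r y Q₀ κ J H d₁ d₂ d₃ e t₁ t₂ τ z c i₀ i₁ i₂ i₃ a b a' b' q‖ +
      ‖bxDD P (fun k => ¬ P.NP2 k) r y Q₀ κ J H d₁ d₂ d₃ e t₁ t₂ τ z c i₀ i₁ i₂ i₃ a b a' b' q‖ := by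
  unfold bxDD
  rw [bxG_compl hP P.NP2 r y Q₀ κ J hH]
  exact norm_sub_le _ _

end Crest.Agent.R017.ExPr791
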