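import Crest.Agent.R017.ExP1_960
import Crest.Agent.R017.E5S2_271
import Crest.Agent.R017.ExPr_791

/-!
# Row 17, exceptional class, absolute shapes (helper968), part B: pointwise

* `NN P h qs k` : product of the absolute values of the pieces at `k`
* `usR a x y` : the marked pieces of a double difference, pairs replaced
* `shapes_le` : `|AX| |BXm| |PC am|` at `k` by the four shapes at `t k`
* `dp_le` : a difference of two shapes at every `k` with `NP2 k` false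
* `princ_le` : the `k` with `NP2 (t k)` false
* `NN_le_Bc` : a shape over the `k` with `NP2 (t k)`
-/

set_option autoImplicit false

noncomputable section

open Set Complex
open scoped ComplexConjugate

namespace Crest.Agent.R017.ExAb968

open Crest.Agent.R012 Crest.Agent.R012.Eis Crest.Agent.R012.Mob705
open Crest.Agent.R012.LS2 (bl mem_bl)
open Crest.Agent.R017.CM106 Crest.Agent.R017.FE47 Crest.Agent.R017.End699
open Crest.Agent.R017.UM71
open Crest.Agent.R017.HP842 (Pc pc)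
open Crest.Agent.R017.B770 Crest.Agent.R017.Prov71
open Crest.Agent.R017.SU770 (tw1 CS_tw)
open Crest.Agent.R017.E5T54 Crest.Agent.R017.E5P571 Crest.Agent.R017.E5B71
open Crest.Agent.R017.BadK271
open Crest.Agent.R017.Two939 (P Po Df)
open Crest.Agent.R017.Sup271 (NPm)
open Crest.Agent.R017.ExPr791
open Crest.Agent.R017.ExBox960 Crest.Agent.R017.ExP960


/-! ### products of absolute values -/

/-- product of the absolute values of the pieces at `k` -/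
def NN (P : DPar) (h : ℝ → ℝ) (qs : List Pq) (k : Eis) : ℝ :=
  (qs.map fun p => ‖CS (pc h (p.pc P)) k‖).prod

lemma NN_nonneg (P : DPar) (h : ℝ → ℝ) (qs : List Pq) (k : Eis) : 0 ≤ NN P h qs k := by
  unfold NN
  refine List.prod_nonneg fun a ha => ?_
  obtain ⟨p, _, rfl⟩ := List.mem_map.1 ha
  exact norm_nonneg _

@[simp] lemma NN_nil (P : DPar) (h : ℝ → ℝ) (k : Eis) : NN P h [] k = 1 := rfl

lemma NN_cons (P : DPar) (h : ℝ → ℝ) (p : Pq) (qs : List Pq) (k : Eis) :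
    NN P h (p :: qs) k = ‖CS (pc h (p.pc P)) k‖ * NN P h qs k := rfl

lemma NN_append (P : DPar) (h : ℝ → ℝ) (ps qs : List Pq) (k : Eis) :
    NN P h (ps ++ qs) k = NN P h ps k * NN P h qs k := by
  unfold NN; rw [List.map_append, List.prod_append]

lemma norm_PC (P : DPar) (h : ℝ → ℝ) (t k : Eis) (qs : List Pq) :
    ‖PC h (qs.map (Pt P t)) k‖ = NN P h qs (t * k) := by
  unfold PC NN
  induction qs with
  | nil => simp
  | cons p qs ih =>
    simp only [List.map_cons, List.prod_cons, norm_mul] at ih ⊢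
    rw [ih]
    congr 1
    rw [CS_tw]
    rfl

lemma NN_split (P : DPar) (h : ℝ → ℝ) (ps : List Pq) (k : Eis) :
    NN P h ps k = NN P h (moL ps) k * NN P h (amL ps) k := by
  induction ps with
  | nil => simp [moL, amL]
  | cons p ps ih =>
    unfold moL amL at ih ⊢
    cases hk : p.kd with
    | mo =>
      rw [List.filter_cons_of_pos (by simp [hk]), List.filter_cons_of_neg (by simp [hk]), NN_cons,
        NN_cons, ih, mul_assoc]
    | am =>
      rw [List.filter_cons_of_neg (by simp [hk]), List.filter_cons_of_pos (by simp [hk]), NN_cons,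
        NN_cons, ih]
      ring

/-! ### replaced pieces -/

/-- the piece with log-length `Z` -/
def rz (p : Pq) (Z : ℝ) : Pq := ⟨p.kd, p.u, p.d, p.d0, Z, p.t⟩

@[simp] lemma rz_kd (p : Pq) (Z : ℝ) : (rz p Z).kd = p.kd := rfl
@[simp] lemma rz_u (p : Pq) (Z : ℝ) : (rz p Z).u = p.u := rfl
@[simp] lemma rz_d (p : Pq) (Z : ℝ) : (rz p Z).d = p.d := rfl
@[simp] lemma rz_z (p : Pq) (Z : ℝ) : (rz p Z).z = Z := rfl
@[simp] lemma rz_t (p : Pq) (Z : ℝ) : (rz p Z).t = p.t := rfl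

/-- the marked pieces, pairs replaced -/
def usR (a : BdX) (x y : Bool) : Fin 5 → Pq :=
  ![bif x then rz (a.us 0) (a.zs 0) else a.us 0, bif x then rz (a.us 1) (a.zs 1) else a.us 1,
    bif y then rz (a.us 2) (a.zs 2) else a.us 2, bif y then rz (a.us 3) (a.zs 3) else a.us 3,
    a.us 4]

lemma norm_Co (h : ℝ → ℝ) (p : Pc) (k : Eis) : ‖Co h p k‖ = ‖CS (pc h p) k‖ := by
  unfold Co
  rw [norm_mul, Weight600.norm_osc, one_mul]

lemma Co_tw (P : DPar) (h : ℝ → ℝ) (t k : Eis) (p : Pq) :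
    Co h (Pt P t p) k = Co h (p.pc P) (t * k) := by
  unfold Co
  rw [CS_tw]
  rfl

lemma Dp_tw (P : DPar) (h : ℝ → ℝ) (t k : Eis) (p p' : Pq) (Z Z' : ℝ) :
    Dp h (Pt P t p) (Pt P t p') (Real.exp Z) (Real.exp Z') k =
      Dp h (p.pc P) (p'.pc P) (Real.exp Z) (Real.exp Z') (t * k) := by
  have e1 := Co_tw P h t k p
  have e2 := Co_tw P h t k p'
  have e3 : Co h ⟨(Pt P t p).u, (Pt P t p).ψ, Real.exp Z, (Pt P t p).t⟩ k =
      Co h ⟨(p.pc P).u, (p.pc P).ψ, Real.exp Z, (p.pc P).t⟩ (t * k) := Co_tw P h t k (rz p Z)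
  have e4 : Co h ⟨(Pt P t p').u, (Pt P t p').ψ, Real.exp Z', (Pt P t p').t⟩ k =
      Co h ⟨(p'.pc P).u, (p'.pc P).ψ, Real.exp Z', (p'.pc P).t⟩ (t * k) := Co_tw P h t k (rz p' Z')
  unfold Dp
  rw [e1, e2, e3, e4]

/-- a difference by its two shapes -/
lemma norm_Dp_le (P : DPar) (h : ℝ → ℝ) (k : Eis) (p p' : Pq) (Z Z' : ℝ) :
    ‖Dp h (p.pc P) (p'.pc P) (Real.exp Z) (Real.exp Z') k‖ ≤
      ‖CS (pc h (p.pc P)) k‖ * ‖CS (pc h (p'.pc P)) k‖ +
        ‖CS (pc h ((rz p Z).pc P)) k‖ * ‖CS (pc h ((rz p' Z').pc P)) k‖ := by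
  unfold Dp
  refine (norm_sub_le _ _).trans (le_of_eq ?_)
  rw [norm_mul, norm_mul, norm_Co, norm_Co, norm_Co, norm_Co]
  rfl

lemma NN_five (P : DPar) (h : ℝ → ℝ) (a : BdX) (x y : Bool) (ps : List Pq) (k : Eis) :
    NN P h (List.ofFn (usR a x y) ++ ps) k =
      ((‖CS (pc h ((usR a x y 0).pc P)) k‖ * ‖CS (pc h ((usR a x y 1).pc P)) k‖) *
        (‖CS (pc h ((usR a x y 2).pc P)) k‖ * ‖CS (pc h ((usR a x y 3).pc P)) k‖)) *
        ‖CS (pc h ((a.us 4).pc P)) k‖ * (NN P h (moL ps) k * NN P h (amL ps) k) := by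
  rw [NN_append, NN_split P h ps]
  congr 1
  unfold NN
  simp only [List.ofFn_succ, List.ofFn_zero, List.map_cons, List.map_nil, List.prod_cons,
    List.prod_nil]
  have e4 : usR a x y (Fin.succ (Fin.succ (Fin.succ (Fin.succ 0)))) = a.us 4 := rfl
  have e3 : usR a x y (Fin.succ (Fin.succ (Fin.succ 0))) = usR a x y 3 := rfl
  have e2 : usR a x y (Fin.succ (Fin.succ 0)) = usR a x y 2 := rfl
  have e1 : usR a x y (Fin.succ 0) = usR a x y 1 := rfl
  rw [e4, e3, e2, e1]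
  ring

/-- **the four shapes** -/
theorem shapes_le (P : DPar) (h : ℝ → ℝ) (t : Eis) (a : BdX) (ps : List Pq) (k : Eis) :
    ‖AX h P t a k‖ * (‖BXm h P t a ps k‖ * ‖PC h ((amL ps).map (Pt P t)) k‖) ≤
      NN P h (List.ofFn (usR a false false) ++ ps) (t * k) +
        (NN P h (List.ofFn (usR a false true) ++ ps) (t * k) +
          NN P h (List.ofFn (usR a true false) ++ ps) (t * k) +
            NN P h (List.ofFn (usR a true true) ++ ps) (t * k)) := by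
  have hA : ‖AX h P t a k‖ =
      ‖Dp h ((a.us 2).pc P) ((a.us 3).pc P) (Real.exp (a.zs 2)) (Real.exp (a.zs 3)) (t * k)‖ *
        ‖CS (pc h ((a.us 4).pc P)) (t * k)‖ := by
    unfold AX
    rw [norm_mul, Dp_tw, CS_tw]
    rfl
  have hB : ‖BXm h P t a ps k‖ =
      ‖Dp h ((a.us 0).pc P) ((a.us 1).pc P) (Real.exp (a.zs 0)) (Real.exp (a.zs 1)) (t * k)‖ *
        NN P h (moL ps) (t * k) := by
    unfold BXm BX
    rw [norm_mul, Dp_tw, norm_PC]
  rw [hA, hB, norm_PC]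
  simp only [NN_five]
  have d1 := norm_Dp_le P h (t * k) (a.us 2) (a.us 3) (a.zs 2) (a.zs 3)
  have d0 := norm_Dp_le P h (t * k) (a.us 0) (a.us 1) (a.zs 0) (a.zs 1)
  set D1 := ‖Dp h ((a.us 2).pc P) ((a.us 3).pc P) (Real.exp (a.zs 2)) (Real.exp (a.zs 3)) (t * k)‖
  set D0 := ‖Dp h ((a.us 0).pc P) ((a.us 1).pc P) (Real.exp (a.zs 0)) (Real.exp (a.zs 1)) (t * k)‖
  have f : ∀ (x y : Bool), usR a x y 0 = (bif x then rz (a.us 0) (a.zs 0) else a.us 0) ∧
      usR a x y 1 = (bif x then rz (a.us 1) (a.zs 1) else a.us 1) ∧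
      usR a x y 2 = (bif y then rz (a.us 2) (a.zs 2) else a.us 2) ∧
      usR a x y 3 = (bif y then rz (a.us 3) (a.zs 3) else a.us 3) :=
    fun x y => ⟨rfl, rfl, rfl, rfl⟩
  simp only [(f _ _).1, (f _ _).2.1, (f _ _).2.2.1, (f _ _).2.2.2, cond_true, cond_false]
  set n0 := ‖CS (pc h ((a.us 0).pc P)) (t * k)‖
  set n1 := ‖CS (pc h ((a.us 1).pc P)) (t * k)‖
  set n2 := ‖CS (pc h ((a.us 2).pc P)) (t * k)‖
  set n3 := ‖CS (pc h ((a.us 3).pc P)) (t * k)‖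
  set n4 := ‖CS (pc h ((a.us 4).pc P)) (t * k)‖
  set r0 := ‖CS (pc h ((rz (a.us 0) (a.zs 0)).pc P)) (t * k)‖
  set r1 := ‖CS (pc h ((rz (a.us 1) (a.zs 1)).pc P)) (t * k)‖
  set r2 := ‖CS (pc h ((rz (a.us 2) (a.zs 2)).pc P)) (t * k)‖
  set r3 := ‖CS (pc h ((rz (a.us 3) (a.zs 3)).pc P)) (t * k)‖
  set m := NN P h (moL ps) (t * k)
  set c := NN P h (amL ps) (t * k)
  have hm : 0 ≤ m := NN_nonneg _ _ _ _
  have hc : 0 ≤ c := NN_nonneg _ _ _ _
  calc D1 * n4 * (D0 * m * c) = (D0 * D1) * (n4 * (m * c)) := by ring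
    _ ≤ ((n0 * n1 + r0 * r1) * (n2 * n3 + r2 * r3)) * (n4 * (m * c)) := by
        refine mul_le_mul_of_nonneg_right ?_ (by positivity)
        exact mul_le_mul d0 d1 (norm_nonneg _) (by positivity)
    _ = _ := by ring

/-! ### the `k` with `NP2 k` false -/

/-- the value of a lump as a smooth sum -/
lemma Co_lump {P : DPar} (hP : P.OK) (h : ℝ → ℝ) (k : Eis) (p : Pq) (hp : Dq.lump p) :
    Co h (p.pc P) k = Po h (fun b => P.ψ b * prin0 (P.n * p.d) b) P.l₂ k (Real.exp p.z) p.t := by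
  rw [Dq_lump] at hp
  unfold Co Po Two939.P
  simp only [Pq.pc_Y, Pq.pc_t, Real.log_exp]
  congr 1
  rw [SupPc271.CS_pc]
  simp only [Pq.pc_Y, Pq.pc_t, Real.log_exp]
  refine PS_congr (fun b hb => ?_) _ _
  simp only [Pq.pc_u, Pq.pc_ψ, hp.2, hp.1, chK, HP842.uv]
  unfold XK
  beta_reduce
  by_cases hc : IsCoprime b P.n
  · have e2 : prin0 (P.n * p.d) b = prin0 p.d b := by
      unfold prin0
      by_cases h2 : IsCoprime b p.d
      · rw [if_pos h2, if_pos (hc.mul_right h2)]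
      · rw [if_neg h2, if_neg fun h => h2 h.of_mul_right_right]
    rw [e2]; ring
  · rw [hP.ψ.van b hb hc]; ring

/-- **a difference of two shapes at every `k` with `NP2 k` false** -/
theorem dp_le {P : DPar} (hP : P.OK) {h : ℝ → ℝ} {c : ℝ} (hpu : PU h c) {ε : ℝ} (hε : 0 < ε) :
    ∃ C : ℝ, 1 ≤ C ∧ ∀ k : Eis, k ≠ 0 → ¬ P.NP2 k → ∀ p p' : Pq, Dq.lump p → Dq.lump p' →
      p.d = p'.d → ∀ Z Z' : ℝ, Z + Z' = p.z + p'.z → 0 ≤ Z' → Z ≤ Z' → p.z ≤ Z' → p'.z ≤ Z' →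
      ∀ M T : ℝ, (nm p.d : ℝ) * nm k ≤ M → 1 ≤ T → 1 + |p.t| ≤ T → 1 + |p'.t| ≤ T →
      ‖Dp h (p.pc P) (p'.pc P) (Real.exp Z) (Real.exp Z') k‖ ≤
        C * M ^ ε * T ^ 8 * Real.exp Z' := by
  obtain ⟨C1, hC1, h1⟩ := TXC791.Df_le hpu hε
  obtain ⟨Ca, hCa, ha⟩ := one_bad (cd_cx hpu.cd) (cs_cx hpu.cs) hP.φ hP.ψ P.l₁ P.l₂
    (half_pos hε)
  obtain ⟨Cb, hCb, hb⟩ := CS_triv hpu
  have hn : (1 : ℝ) ≤ nm P.n := by exact_mod_cast nm_pos.mpr hP.ψ.q0
  have hnε : (1 : ℝ) ≤ ((nm P.n : ℝ) ^ 2) ^ ε := Real.one_le_rpow (one_le_pow₀ hn) hε.le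
  have hC10 : 0 ≤ C1 * ((nm P.n : ℝ) ^ 2) ^ ε * 4 := by positivity
  refine ⟨C1 * ((nm P.n : ℝ) ^ 2) ^ ε * 4 + 2 * (Ca * Cb) ^ 2, by nlinarith, ?_⟩
  intro k hk hnp p p' hp hp' hdd Z Z' hZ hZ0 hZ1 hZ2 hZ3 M T hM hT hpT hpT'
  have hd1 : (1 : ℝ) ≤ nm p.d := by exact_mod_cast nm_pos.mpr p.d0
  have hk1 : (1 : ℝ) ≤ nm k := by exact_mod_cast nm_pos.mpr hk
  have hM1 : 1 ≤ M := le_trans (one_le_mul_of_one_le_of_one_le hd1 hk1) hM
  have hMε : 1 ≤ M ^ ε := Real.one_le_rpow hM1 hε.le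
  have hE : 1 ≤ Real.exp Z' := Real.one_le_exp hZ0
  have hT8 : 1 ≤ T ^ 8 := one_le_pow₀ hT
  by_cases hm : NPm P.n P.ψ P.l₂ k
  · have hnk : ¬ NPk P.n P.φ P.l₁ k := fun h' => hnp ⟨h', hm⟩
    have hbad : Bad P k := ⟨hm, hnk⟩
    set E := Ca * Cb * M ^ (ε / 2) * T ^ 4 with hEd
    have hone : ∀ q : Pq, Dq.lump q → q.d = p.d → 1 + |q.t| ≤ T →
        ‖CS (pc h (q.pc P)) k‖ ≤ E := by
      intro q hq hqd hqT
      have h2 := piece_q P hP (M := M) (half_pos hε) hCa hCb ha hb hT hk hbad (p := q)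
        (by rw [hqd]; exact hM) hqT
      rw [norm_Vp, zl_of_lump hq, Real.exp_zero, mul_one] at h2
      exact h2
    have g1 := hone p hp rfl hpT
    have g2 := hone p' hp' hdd.symm hpT'
    have g3 := hone (rz p Z) hp rfl hpT
    have g4 := hone (rz p' Z') hp' hdd.symm hpT'
    refine (norm_Dp_le P h k p p' Z Z').trans ?_
    have hE0 : 0 ≤ E := by positivity
    have hEE : E * E = (Ca * Cb) ^ 2 * M ^ ε * T ^ 8 := by
      have : M ^ (ε / 2) * M ^ (ε / 2) = M ^ ε := by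
        rw [← Real.rpow_add (by linarith)]; congr 1; ring
      rw [hEd, ← this]; ring
    calc _ ≤ E * E + E * E := by gcongr
      _ = 2 * (Ca * Cb) ^ 2 * M ^ ε * T ^ 8 * 1 := by rw [hEE]; ring
      _ ≤ (C1 * ((nm P.n : ℝ) ^ 2) ^ ε * 4 + 2 * (Ca * Cb) ^ 2) * M ^ ε * T ^ 8 *
          Real.exp Z' := by
          gcongr
          linarith
  · have e1 : Dp h (p.pc P) (p'.pc P) (Real.exp Z) (Real.exp Z') k =
        Df h (fun b => P.ψ b * prin0 (P.n * p.d) b) P.l₂ k (Real.exp p.z) (Real.exp p'.z)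
          (Real.exp Z) (Real.exp Z') p.t p'.t := by
      have q1 := Co_lump hP h k p hp
      have q2 := Co_lump hP h k p' hp'
      have q3 := Co_lump hP h k (rz p Z) hp
      have q4 := Co_lump hP h k (rz p' Z') hp'
      rw [← hdd] at q2
      simp only [rz_d, rz_z, rz_t] at q3 q4
      rw [← hdd] at q4
      unfold Dp Df
      rw [q1, q2, ← q3, ← q4]
      rfl
    rw [e1]
    have hN : Real.exp p.z * Real.exp p'.z = Real.exp Z * Real.exp Z' := by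
      rw [← Real.exp_add, ← Real.exp_add, hZ]
    have h2 := h1 _ _ (hc_mul_prin hP.ψ p.d0) P.l₂ k hk (npm_mul hm) (Real.exp p.z)
      (Real.exp p'.z) (Real.exp Z) (Real.exp Z') p.t p'.t (Real.exp_pos _) (Real.exp_pos _)
      (Real.exp_pos _) (Real.exp_pos _) hN
    refine h2.trans ?_
    have e2 : (TXC791.sk (P.n * (P.n * p.d)) k) ^ ε ≤ ((nm P.n : ℝ) ^ 2) ^ ε * M ^ ε := by
      rw [← Real.mul_rpow (by positivity) (by linarith)]
      refine Real.rpow_le_rpow (by unfold TXC791.sk; positivity) ?_ hε.le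
      unfold TXC791.sk
      rw [nm_mul, nm_mul]; push_cast
      calc (nm P.n : ℝ) * ((nm P.n : ℝ) * nm p.d) * nm k =
            (nm P.n : ℝ) ^ 2 * ((nm p.d : ℝ) * nm k) := by ring
        _ ≤ _ := by gcongr
    have e3 : ((1 + |p.t|) * (1 + |p'.t|)) ^ 3 ≤ T ^ 8 := by
      calc ((1 + |p.t|) * (1 + |p'.t|)) ^ 3 ≤ (T * T) ^ 3 := by gcongr
        _ = T ^ 6 := by ring
        _ ≤ T ^ 8 := pow_le_pow_right₀ hT (by norm_num)
    have h3 : min (Real.exp p.z * Real.exp p'.z)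
        (Real.exp p.z + Real.exp p'.z + Real.exp Z + Real.exp Z') ≤ 4 * Real.exp Z' := by
      refine (min_le_right _ _).trans ?_
      have i1 := Real.exp_le_exp.mpr hZ2
      have i2 := Real.exp_le_exp.mpr hZ3
      have i3 := Real.exp_le_exp.mpr hZ1
      linarith
    have h30 : 0 ≤ min (Real.exp p.z * Real.exp p'.z)
        (Real.exp p.z + Real.exp p'.z + Real.exp Z + Real.exp Z') := le_min (by positivity)
          (by positivity)
    have hsk0 : 0 ≤ (TXC791.sk (P.n * (P.n * p.d)) k) ^ ε := by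
      unfold TXC791.sk; positivity
    calc C1 * (TXC791.sk (P.n * (P.n * p.d)) k) ^ ε * ((1 + |p.t|) * (1 + |p'.t|)) ^ 3 *
          min (Real.exp p.z * Real.exp p'.z)
            (Real.exp p.z + Real.exp p'.z + Real.exp Z + Real.exp Z')
        ≤ C1 * (((nm P.n : ℝ) ^ 2) ^ ε * M ^ ε) * T ^ 8 * (4 * Real.exp Z') := by
          gcongr
      _ = (C1 * ((nm P.n : ℝ) ^ 2) ^ ε * 4) * M ^ ε * T ^ 8 * Real.exp Z' := by ring
      _ ≤ _ := by
          gcongr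
          have : 0 ≤ (Ca * Cb) ^ 2 := by positivity
          linarith

lemma NN_triv {P : DPar} (hP : P.OK) {h : ℝ → ℝ} {Cb : ℝ} (hCb : 1 ≤ Cb)
    (hb : ∀ (p : Pc) (k : Eis), (∀ b, IsPrim b → ‖p.ψ b‖ ≤ 1) → 0 < p.Y →
      ‖CS (pc h p) k‖ ≤ Cb * p.Y) (qs : List Pq) (k : Eis) :
    NN P h qs k ≤ Cb ^ qs.length * Real.exp ((qs.map fun p => p.z).sum) := by
  induction qs with
  | nil => simp
  | cons p qs ih =>
    rw [NN_cons, List.length_cons, pow_succ, List.map_cons, List.sum_cons, Real.exp_add]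
    have h1 : ‖CS (pc h (p.pc P)) k‖ ≤ Cb * Real.exp p.z := by
      refine hb (p.pc P) k (fun b hb' => ?_) (Real.exp_pos _)
      rw [Pq.pc_ψ]
      simp only
      rw [norm_mul]
      refine mul_le_one₀ (norm_chK_le hP p.kd hb') (norm_nonneg _) ?_
      unfold prin0; split_ifs <;> simp
    have h2 := mul_le_mul h1 ih (NN_nonneg _ _ _ _) (by positivity)
    refine h2.trans (le_of_eq ?_)
    ring

/-- mapping `k ↦ t k` -/
lemma sum_tw {t : Eis} (ht : t ≠ 0) {S S' : Finset Eis} (hS : ∀ k ∈ S, t * k ∈ S')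
    {F : Eis → ℝ} (hF : ∀ k, 0 ≤ F k) : ∑ k ∈ S, F (t * k) ≤ ∑ k ∈ S', F k := by
  classical
  have e1 : ∑ k ∈ S, F (t * k) = ∑ k ∈ S.image (fun k => t * k), F k := by
    rw [Finset.sum_image]
    intro a _ b _ hab
    exact mul_left_cancel₀ ht hab
  rw [e1]
  refine Finset.sum_le_sum_of_subset_of_nonneg ?_ fun _ _ _ => hF _
  intro x hx
  obtain ⟨k, hk, rfl⟩ := Finset.mem_image.1 hx
  exact hS k hk

open Classical in
/-- **a shape over the `k` with `NP2 (t k)`** -/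
theorem NN_le_Bc (P : DPar) (h : ℝ → ℝ) {t : Eis} (ht : t ≠ 0) {X : ℕ} {l : ℝ}
    (hl : (nm t : ℝ) * X ≤ Real.exp l) (cond : Eis → Prop) (qs : List Pq) :
    ∑ k ∈ (PB P.n X).filter (fun k => cond k ∧ P.NP2 (t * k)), NN P h qs (t * k) ≤
      Bc P h l qs := by
  unfold Bc BQ
  have e : ∀ k, (((qs.map (Pq.pc P)).map fun p => ‖CS (pc h p) k‖).prod) = NN P h qs k := by
    intro k
    unfold NN
    rw [List.map_map]
    rfl
  simp only [e]
  refine sum_tw ht (fun k hk => ?_) fun k => NN_nonneg _ _ _ _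
  rw [Finset.mem_filter, mem_PB] at hk
  rw [Finset.mem_filter, mem_bl (Real.exp_pos _).le]
  refine ⟨⟨mul_ne_zero ht hk.1.2.1.ne_zero, ?_⟩, hk.2.2⟩
  rw [nm_mul]
  push_cast
  refine le_trans ?_ hl
  have : (nm k : ℝ) ≤ X := by exact_mod_cast hk.1.1
  gcongr

open Classical in
/-- **the `k` with `NP2 (t k)` false** -/
theorem princ_le {P : DPar} (hP : P.OK) {h : ℝ → ℝ} {c : ℝ} (hpu : PU h c) (N : ℕ) {ε : ℝ}
    (hε : 0 < ε) : ∃ C : ℝ, 0 ≤ C ∧ ∀ (t : Eis), t ≠ 0 → ∀ (K : ℕ) (L M T : ℝ), 1 ≤ L →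
      (nm t : ℝ) * K ≤ L → 1 ≤ M → 1 ≤ T → ∀ (a : BdX) (ps : List Pq), a.ok → ps.length ≤ N →
      (∀ i, (nm (a.us i).d : ℝ) ≤ M ∧ 1 + |(a.us i).t| ≤ T) →
      a.zs 0 ≤ a.zs 1 → a.zs 2 ≤ a.zs 3 → (a.us 0).z ≤ a.zs 1 → (a.us 1).z ≤ a.zs 1 →
      (a.us 2).z ≤ a.zs 3 → (a.us 3).z ≤ a.zs 3 →
      ∑ k ∈ (PB P.n K).filter (fun k => ¬ P.NP2 (t * k)), ‖AX h P t a k‖ *
        (‖BXm h P t a ps k‖ * ‖PC h ((amL ps).map (Pt P t)) k‖) ≤
      C * (M * L) ^ ε * T ^ 16 * (L ^ (1 / 3 : ℝ) *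
        Real.exp (a.zs 1 + a.zs 3 + (a.us 4).z + (ps.map fun p => p.z).sum)) := by
  obtain ⟨C1, hC1, h1⟩ := dp_le hP hpu (half_pos hε)
  obtain ⟨Cb, hCb, hb⟩ := CS_triv hpu
  refine ⟨36 * (C1 * C1 * (Cb * Cb ^ N)), by positivity, ?_⟩
  intro t ht K L M T hL hKL hM hT a ps hok hps hus g1 g2 g3 g4 g5 g6
  set S := (PB P.n K).filter (fun k => ¬ P.NP2 (t * k)) with hS
  have hnt : (1 : ℝ) ≤ nm t := by exact_mod_cast nm_pos.mpr ht
  have hT16 : (1 : ℝ) ≤ T ^ 16 := one_le_pow₀ hT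
  have hML : 1 ≤ M * L := one_le_mul_of_one_le_of_one_le hM hL
  set E : ℝ := (M * L) ^ (ε / 2) * T ^ 8 with hE
  have hE0 : 0 ≤ E := by positivity
  set Y : ℝ := Real.exp (a.zs 1 + a.zs 3 + (a.us 4).z + (ps.map fun p => p.z).sum) with hY
  have hlump := hok.base.1
  have hz1 : 0 ≤ a.zs 1 := hok.z0 1
  have hz3 : 0 ≤ a.zs 3 := hok.z0 3
  have hone : ∀ k ∈ S, ‖AX h P t a k‖ *
      (‖BXm h P t a ps k‖ * ‖PC h ((amL ps).map (Pt P t)) k‖) ≤
        (C1 * C1 * (Cb * Cb ^ N)) * (E * E) * Y := by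
    intro k hk
    rw [hS, Finset.mem_filter, mem_PB] at hk
    have hk0 : t * k ≠ 0 := mul_ne_zero ht hk.1.2.1.ne_zero
    have hkL : (nm (t * k) : ℝ) ≤ L := by
      rw [nm_mul]
      push_cast
      refine le_trans ?_ hKL
      have : (nm k : ℝ) ≤ K := by exact_mod_cast hk.1.1
      gcongr
    have hkM : ∀ i, (nm (a.us i).d : ℝ) * nm (t * k) ≤ M * L := fun i => by
      have := (hus i).1
      gcongr
    have q1 := h1 (t * k) hk0 hk.2 (a.us 0) (a.us 1) (hlump 0).1 (hlump 1).1 (hok.md 0 1)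
      (a.zs 0) (a.zs 1) hok.s01 hz1 g1 g3 g4 (M * L) T (hkM 0) hT (hus 0).2 (hus 1).2
    have q2 := h1 (t * k) hk0 hk.2 (a.us 2) (a.us 3) (hlump 2).1 (hlump 3).1 (hok.md 2 3)
      (a.zs 2) (a.zs 3) hok.s23 hz3 g2 g5 g6 (M * L) T (hkM 2) hT (hus 2).2 (hus 3).2
    have q3 := NN_triv hP hCb hb [a.us 4] (t * k)
    have q4 := NN_triv hP hCb hb ps (t * k)
    have hA : ‖AX h P t a k‖ =
        ‖Dp h ((a.us 2).pc P) ((a.us 3).pc P) (Real.exp (a.zs 2)) (Real.exp (a.zs 3)) (t * k)‖ *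
          NN P h [a.us 4] (t * k) := by
      unfold AX
      rw [norm_mul, Dp_tw, NN_cons, NN_nil, mul_one, CS_tw]
      rfl
    have hB : ‖BXm h P t a ps k‖ =
        ‖Dp h ((a.us 0).pc P) ((a.us 1).pc P) (Real.exp (a.zs 0)) (Real.exp (a.zs 1)) (t * k)‖ *
          NN P h (moL ps) (t * k) := by
      unfold BXm BX
      rw [norm_mul, Dp_tw, norm_PC]
    rw [hA, hB, norm_PC]
    set D1 := ‖Dp h ((a.us 2).pc P) ((a.us 3).pc P) (Real.exp (a.zs 2)) (Real.exp (a.zs 3)) (t * k)‖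
    set D0 := ‖Dp h ((a.us 0).pc P) ((a.us 1).pc P) (Real.exp (a.zs 0)) (Real.exp (a.zs 1)) (t * k)‖
    have e5 : D1 * NN P h [a.us 4] (t * k) * (D0 * NN P h (moL ps) (t * k) *
        NN P h (amL ps) (t * k)) = D1 * (D0 * (NN P h [a.us 4] (t * k) * NN P h ps (t * k))) := by
      rw [NN_split P h ps]; ring
    rw [e5]
    have q5 : NN P h ps (t * k) ≤ Cb ^ N * Real.exp ((ps.map fun p => p.z).sum) := by
      refine q4.trans ?_
      have := pow_le_pow_right₀ hCb hps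
      gcongr
    have q6 : NN P h [a.us 4] (t * k) ≤ Cb * Real.exp (a.us 4).z := by
      simpa using q3
    have n0 : 0 ≤ D0 := norm_nonneg _
    have n5 : 0 ≤ NN P h ps (t * k) := NN_nonneg _ _ _ _
    have n4 : 0 ≤ NN P h [a.us 4] (t * k) := NN_nonneg _ _ _ _
    calc D1 * (D0 * (NN P h [a.us 4] (t * k) * NN P h ps (t * k)))
        ≤ (C1 * (M * L) ^ (ε / 2) * T ^ 8 * Real.exp (a.zs 3)) *
          ((C1 * (M * L) ^ (ε / 2) * T ^ 8 * Real.exp (a.zs 1)) *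
            ((Cb * Real.exp (a.us 4).z) * (Cb ^ N * Real.exp ((ps.map fun p => p.z).sum)))) := by
          gcongr
      _ = _ := by
          rw [hE, hY, Real.exp_add, Real.exp_add, Real.exp_add]
          ring
  have hcard : (S.card : ℝ) ≤ 36 * L ^ (1 / 3 : ℝ) := by
    have hL1 : 1 ≤ ⌊L⌋₊ := by rwa [Nat.one_le_floor_iff]
    have h2 := card_not_np2 P hP hL1 (S.image fun k => t * k) fun x hx => by
      obtain ⟨k, hk, rfl⟩ := Finset.mem_image.1 hx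
      rw [hS, Finset.mem_filter, mem_PB] at hk
      refine ⟨?_, mul_ne_zero ht hk.1.2.1.ne_zero, hk.2⟩
      rw [mem_ball]
      refine Nat.le_floor ?_
      rw [nm_mul]
      push_cast
      refine le_trans ?_ hKL
      have : (nm k : ℝ) ≤ K := by exact_mod_cast hk.1.1
      gcongr
    rw [Finset.card_image_of_injective _ (mul_right_injective₀ ht)] at h2
    refine h2.trans ?_
    have h3 : (⌊L⌋₊ : ℝ) ≤ L := Nat.floor_le (by linarith)
    gcongr
  have hEE : E * E = (M * L) ^ ε * T ^ 16 := by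
    have : (M * L) ^ (ε / 2) * (M * L) ^ (ε / 2) = (M * L) ^ ε := by
      rw [← Real.rpow_add (by linarith)]; congr 1; ring
    rw [hE, ← this]; ring
  calc _ ≤ ∑ _k ∈ S, (C1 * C1 * (Cb * Cb ^ N)) * (E * E) * Y := Finset.sum_le_sum hone
    _ = S.card * ((C1 * C1 * (Cb * Cb ^ N)) * (E * E) * Y) := by
        rw [Finset.sum_const, nsmul_eq_mul]
    _ ≤ (36 * L ^ (1 / 3 : ℝ)) * ((C1 * C1 * (Cb * Cb ^ N)) * (E * E) * Y) := by
        refine mul_le_mul_of_nonneg_right hcard ?_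
        positivity
    _ = _ := by rw [hEE]; ring

end Crest.Agent.R017.ExAb968
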