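import Crest.Agent.R017.ExAbA_968
import Crest.Agent.R017.ExAbB_968
import Crest.Agent.R017.E5A_71

/-!
# Row 17, exceptional class, absolute shapes (helper968), part C: windows

* `AbX cond` : the absolute sum of a double difference over the `k` with `cond`
* `NatF cond` : the natural shape over the `k` with `cond` and `NP2 (t k)`
* `nr5_low`, `princ_exp` : real inequalities for `Nr5`
* `allowed_repl` : the replaced lists are allowed
* `abX_ub` : `NatF`, `TopC` ==> `UB` of `AbX`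
-/

set_option autoImplicit false

noncomputable section

open Set Complex
open scoped ComplexConjugate

namespace Crest.Agent.R017.ExAb968

open Crest.Agent.R012 Crest.Agent.R012.Eis Crest.Agent.R012.Mob705
open Crest.Agent.R012.LS2 (bl mem_bl)
open Crest.Agent.R017.CM106 Crest.Agent.R017.FE47 Crest.Agent.R017.End699
open Crest.Agent.R017.XG702 (Pcs Good_mono)
open Crest.Agent.R017.XT71 (Sys Win mx one_le_mx le_mx)
open Crest.Agent.R017.XF71 (const_le_rpow)
open Crest.Agent.R017.UM71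
open Crest.Agent.R017.HP842 (Pc pc)
open Crest.Agent.R017.B770 Crest.Agent.R017.Prov71
open Crest.Agent.R017.SU770 (tw1 CS_tw)
open Crest.Agent.R017.E5T54 Crest.Agent.R017.E5P571 Crest.Agent.R017.E5B71
open Crest.Agent.R017.ExBox960 Crest.Agent.R017.ExP960
open Crest.Agent.R017.BxE986 (allowed TopC AL)
open Crest.Agent.R017.Cone59 (Tg)

/-! ### functionals -/

section
variable {Λ : Type*} (π : Λ → DPar) (h : ℝ → ℝ)

open Classical in
/-- the absolute sum of a double difference over the `k` with `cond` -/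
def AbX (cond : Λ × Eis → ℝ → Eis → Prop) (R : Λ → ℝ) (lam : Λ × Eis) (a : BdX)
    (ps : List Pq) : ℝ :=
  if a.ok ∧ lam.2 ∈ SM (π lam.1).n then
    ∑ k ∈ (PB (π lam.1).n ⌊Real.exp (a.l + R lam.1)⌋₊).filter (fun k => cond lam a.l k),
      ‖AX h (π lam.1) lam.2 a k‖ *
        (‖BXm h (π lam.1) lam.2 a ps k‖ * ‖PC h ((amL ps).map (Pt (π lam.1) lam.2)) k‖)
  else 0

open Classical in
/-- the natural shape over the `k` with `cond` and `NP2 (t k)` -/
def NatF (cond : Λ × Eis → ℝ → Eis → Prop) (R : Λ → ℝ) (lam : Λ × Eis) (a : Bd)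
    (ps : List Pq) : ℝ :=
  if a.ok ∧ lam.2 ∈ SM (π lam.1).n then
    ∑ k ∈ (PB (π lam.1).n ⌊Real.exp (a.l + R lam.1)⌋₊).filter
      (fun k => cond lam a.l k ∧ (π lam.1).NP2 (lam.2 * k)),
        NN (π lam.1) h (List.ofFn a.us ++ ps) (lam.2 * k)
  else 0

end

/-! ### real inequalities -/

lemma nr5_low {A : ℝ} {p : Fin 3 ⊕ Fin 5 → ℝ} {w : Kd → ℝ} (hA : 199 / 200 ≤ A)
    (h : Nr5 A p w) : 14 / 100 ≤ cu p 4 ∧ 18 / 100 ≤ cu p 3 := by
  have h1 := h.near
  have h2 := h.q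
  have h3 := h.w0 .mo
  have h4 := h.κ0
  obtain ⟨a1, a2, a3, a4⟩ := h.anti
  unfold cN at h1
  unfold cN E5B71.cM at h2
  have h5 : 199 / 200 * (8 / 9) ≤ A * cκ p := by nlinarith
  constructor <;> linarith

lemma T5_ge {θ : ℝ} (hθ : 7 / 8 ≤ θ) (p : Fin 3 ⊕ Fin 5 → ℝ) (w : Kd → ℝ) :
    cκ p + (cN p + cM p + w .mo + w .am) / 2 ≤ T5 θ (p, w) := by
  unfold T5 Tg
  simp only
  have := le_max_left ((cκ p - 1) + (cN p + cM p + w .mo - (2 - 2 * (1 / 3))) / 2 +
    (w .am - 1 / 3) / 2) (max ((cκ p - 1) / 2 + 3 / 4 * (cN p + cM p + w .mo - (2 - 2 * (1 / 3))) +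
      1 / 4 * (w .am - 1 / 3)) ((cκ p - 1) / 6 + θ * (cN p + cM p + w .mo - (2 - 2 * (1 / 3))) +
      θ * (w .am - 1 / 3)))
  linarith

/-- the exponent of the principal `k` -/
lemma princ_exp {A θ : ℝ} (hθ : 7 / 8 ≤ θ) {p : Fin 3 ⊕ Fin 5 → ℝ} {w : Kd → ℝ} (h : Nr5 A p w)
    {p0 p1 : ℝ} (h0 : 17 / 100 * cκ p ≤ p0) (h1 : 17 / 100 * cκ p ≤ p1) :
    cκ p / 3 + (cN p + cM p + w .mo) + w .am - p0 - p1 + 3 / 50 ≤ T5 θ (p, w) := by
  have h2 := T5_ge hθ p w
  have h3 := h.q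
  have h4 := h.c
  have h5 := h.κ0
  linarith

/-! ### the replaced lists -/

/-- the configuration of the marked pieces, pairs replaced; `p0, p1` = short lengths -/
def vR (v : Fin 5 → ℝ) (p0 p1 : ℝ) (x y : Bool) : Fin 5 → ℝ :=
  ![bif x then 17 / 100 else v 0, bif x then v 0 + v 1 - p0 else v 1,
    bif y then 17 / 100 else v 2, bif y then v 2 + v 3 - p1 else v 3, v 4]

lemma repl_vR (v : Fin 5 → ℝ) (p0 p1 : ℝ) {x y : Bool} (hxy : x = true ∨ y = true) :
    Repl v (vR v p0 p1 x y) (17 / 100) := by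
  unfold Repl
  cases x <;> cases y
  · simp at hxy
  · left; exact ⟨rfl, rfl, rfl, rfl⟩
  · right; left; exact ⟨rfl, rfl, rfl, rfl⟩
  · right; right; exact ⟨rfl, rfl, rfl⟩

lemma usR_lump {a : BdX} (hok : a.ok) (x y : Bool) (i : Fin 5) : Dq.lump (usR a x y i) := by
  have hl := fun i => (hok.base.1 i).1
  fin_cases i
  · cases x
    · exact hl 0
    · exact hl 0
  · cases x
    · exact hl 1
    · exact hl 1
  · cases y
    · exact hl 2
    · exact hl 2
  · cases y
    · exact hl 3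
    · exact hl 3
  · exact hl 4

lemma usR_d (a : BdX) (x y : Bool) (i : Fin 5) : (usR a x y i).d = (a.us i).d := by
  fin_cases i <;> cases x <;> cases y <;> rfl

lemma usR_t (a : BdX) (x y : Bool) (i : Fin 5) : (usR a x y i).t = (a.us i).t := by
  fin_cases i <;> cases x <;> cases y <;> rfl

lemma usR_z0 {a : BdX} (hok : a.ok) (x y : Bool) (i : Fin 5) : 0 ≤ (usR a x y i).z := by
  have hl := fun i => (hok.base.1 i).2
  have hz := hok.z0
  fin_cases i
  · cases x
    · exact hl 0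
    · exact hz 0
  · cases x
    · exact hl 1
    · exact hz 1
  · cases y
    · exact hl 2
    · exact hz 2
  · cases y
    · exact hl 3
    · exact hz 3
  · exact hl 4

lemma usR_sum {a : BdX} (hok : a.ok) (x y : Bool) :
    (usR a x y 0).z + (usR a x y 1).z + (usR a x y 2).z + (usR a x y 3).z + (usR a x y 4).z =
      (a.us 0).z + (a.us 1).z + (a.us 2).z + (a.us 3).z + (a.us 4).z := by
  have e1 : (usR a x y 0).z + (usR a x y 1).z = (a.us 0).z + (a.us 1).z := by
    cases x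
    · rfl
    · exact hok.s01
  have e2 : (usR a x y 2).z + (usR a x y 3).z = (a.us 2).z + (a.us 3).z := by
    cases y
    · rfl
    · exact hok.s23
  have e3 : (usR a x y 4).z = (a.us 4).z := rfl
  rw [e3]
  linarith

lemma usR_ff (a : BdX) : usR a false false = a.us := by
  funext i
  fin_cases i <;> rfl

lemma usR_nl {a : BdX} (hok : a.ok) {X : ℝ} (hX : 0 < Real.log X) {p : IX5 → ℝ} {δ : ℝ}
    (hw : ∀ i, |S5X.ev X a i - p i| ≤ δ) (hβ : ∀ i : Fin 2, p (.inr i) ≤ 17 / 100) (x y : Bool)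
    (j : Fin 5) : Dq.nl X (usR a x y j) ≤
      vR (cu (prX p)) (p (.inr 0)) (p (.inr 1)) x y j + 3 * δ := by
  have hδ : 0 ≤ δ := (abs_nonneg _).trans (hw (.inr 0))
  have hu : ∀ i : Fin 5, |Dq.nl X (a.us i) - cu (prX p) i| ≤ δ := fun i => hw (.inl (.inr i))
  have hz0 : |a.zs 0 / Real.log X - p (.inr 0)| ≤ δ := hw (.inr 0)
  have hz2 : |a.zs 2 / Real.log X - p (.inr 1)| ≤ δ := hw (.inr 1)
  have b0 := abs_le.1 (hu 0)
  have b1 := abs_le.1 (hu 1)
  have b2 := abs_le.1 (hu 2)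
  have b3 := abs_le.1 (hu 3)
  have b4 := abs_le.1 (hu 4)
  have c0 := abs_le.1 hz0
  have c2 := abs_le.1 hz2
  have β0 := hβ 0
  have β1 := hβ 1
  have s1 : a.zs 1 / Real.log X = Dq.nl X (a.us 0) + Dq.nl X (a.us 1) - a.zs 0 / Real.log X := by
    have : a.zs 1 = (a.us 0).z + (a.us 1).z - a.zs 0 := by linarith [hok.s01]
    rw [this, sub_div, add_div]
    rfl
  have s3 : a.zs 3 / Real.log X = Dq.nl X (a.us 2) + Dq.nl X (a.us 3) - a.zs 2 / Real.log X := by
    have : a.zs 3 = (a.us 2).z + (a.us 3).z - a.zs 2 := by linarith [hok.s23]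
    rw [this, sub_div, add_div]
    rfl
  fin_cases j
  · cases x
    · change Dq.nl X (a.us 0) ≤ cu (prX p) 0 + 3 * δ
      linarith
    · change a.zs 0 / Real.log X ≤ 17 / 100 + 3 * δ
      linarith
  · cases x
    · change Dq.nl X (a.us 1) ≤ cu (prX p) 1 + 3 * δ
      linarith
    · change a.zs 1 / Real.log X ≤ cu (prX p) 0 + cu (prX p) 1 - p (.inr 0) + 3 * δ
      rw [s1]
      linarith
  · cases y
    · change Dq.nl X (a.us 2) ≤ cu (prX p) 2 + 3 * δ
      linarith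
    · change a.zs 2 / Real.log X ≤ 17 / 100 + 3 * δ
      linarith
  · cases y
    · change Dq.nl X (a.us 3) ≤ cu (prX p) 3 + 3 * δ
      linarith
    · change a.zs 3 / Real.log X ≤ cu (prX p) 2 + cu (prX p) 3 - p (.inr 1) + 3 * δ
      rw [s3]
      linarith
  · change Dq.nl X (a.us 4) ≤ cu (prX p) 4 + 3 * δ
    linarith

/-- sums over the marked pieces -/
lemma mass_ofFn {us : Fin 5 → Pq} (h : ∀ i, (us i).kd = .mo) (X : ℝ) :
    Dq.mass X (List.ofFn us) .mo = Dq.nl X (us 0) + Dq.nl X (us 1) + Dq.nl X (us 2) +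
      Dq.nl X (us 3) + Dq.nl X (us 4) ∧ Dq.mass X (List.ofFn us) .am = 0 := by
  have h' : ∀ i, Dq.kind (us i) = .mo := h
  have e4 : us (Fin.succ (Fin.succ (Fin.succ (Fin.succ 0)))) = us 4 := rfl
  have e3 : us (Fin.succ (Fin.succ (Fin.succ 0))) = us 3 := rfl
  have e2 : us (Fin.succ (Fin.succ 0)) = us 2 := rfl
  have e1 : us (Fin.succ 0) = us 1 := rfl
  constructor
  · simp only [List.ofFn_succ, List.ofFn_zero, Pcs.mass_cons, Pcs.mass_nil, h', if_true]
    rw [e4, e3, e2, e1]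
    ring
  · simp only [List.ofFn_succ, List.ofFn_zero, Pcs.mass_cons, Pcs.mass_nil, h']
    simp

lemma usR_mass {a : BdX} (hok : a.ok) (x y : Bool) (X : ℝ) (ps : List Pq) (t : Kd) :
    Dq.mass X (List.ofFn (usR a x y) ++ ps) t = Dq.mass X (List.ofFn a.us ++ ps) t := by
  rw [Pcs.mass_append, Pcs.mass_append]
  congr 1
  have h1 := mass_ofFn (us := usR a x y) (fun i => (usR_lump hok x y i).1) X
  have h2 := mass_ofFn (us := a.us) (fun i => (hok.base.1 i).1.1) X
  cases t with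
  | am => rw [h1.2, h2.2]
  | mo =>
    rw [h1.1, h2.1]
    have h3 := usR_sum hok x y
    have e : ∀ q : Pq, Dq.nl X q = q.z / Real.log X := fun _ => rfl
    simp only [e]
    rw [← add_div, ← add_div, ← add_div, ← add_div, h3, add_div, add_div, add_div, add_div]

/-- lumps have Möbius mass -/
lemma lump_mass_le {X : ℝ} {ps : List Pq} (h0 : ∀ p ∈ ps, 0 ≤ Dq.nl X p) [DecidablePred Dq.lump] :
    (ps.map fun p => if Dq.lump p then Dq.nl X p else 0).sum ≤ Dq.mass X ps .mo := by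
  unfold Pcs.mass
  refine List.sum_le_sum fun p hp => ?_
  by_cases h : Dq.lump p
  · rw [if_pos h, if_pos (show Dq.kind p = .mo from h.1)]
  · rw [if_neg h]
    split_ifs
    exacts [h0 p hp, le_rfl]

open Classical in
/-- **the replaced lists are allowed** -/
theorem allowed_repl {A : ℝ} (hA : 199 / 200 ≤ A) (hA1 : A ≤ 1) {p : IX5 → ℝ} {w : Kd → ℝ}
    (hN : Nr5 A (prX p) w) (hβ : ∀ i : Fin 2, p (.inr i) ≤ 17 / 100) {δ : ℝ} (hδ : 0 ≤ δ)
    (hδ1 : δ ≤ 1 / 50000) {X : ℝ} (hX : 0 < Real.log X) {a : BdX} (hok : a.ok)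
    (hw : ∀ i, |S5X.ev X a i - p i| ≤ δ) {ps : List Pq} (h0 : ∀ q ∈ ps, 0 ≤ Dq.nl X q)
    (hal : ∀ q ∈ ps, Dq.lump q → Dq.nl X q ≤ Dq.nl X (a.us 4))
    (hm : |Dq.mass X ps .mo - w .mo| ≤ δ) {k : ℝ} (hk1 : cκ (prX p) - δ ≤ k)
    (hk2 : k ≤ cκ (prX p) + 2 * δ) {x y : Bool} (hxy : x = true ∨ y = true) :
    allowed (AL (9 / 10) 1 ![0, 0, 1, 1, 2]) k X (List.ofFn (usR a x y) ++ ps) := by
  intro us gs hp hl
  rcases le_or_gt k (9 / 10) with hk | hk
  · exact Or.inl hk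
  refine Or.inr fun s hs => ?_
  have hlow := nr5_low hA hN
  obtain ⟨a1, a2, a3, a4⟩ := hN.anti
  have hnear := hN.near
  have hq := hN.q
  have hκ1 := hN.κ1
  have hmm := abs_le.1 hm
  set v := cu (prX p) with hv
  have hv0 : ∀ j, 0 ≤ v j := by
    intro j
    fin_cases j
    · change 0 ≤ v 0; linarith [hlow.1]
    · change 0 ≤ v 1; linarith [hlow.1]
    · change 0 ≤ v 2; linarith [hlow.1]
    · change 0 ≤ v 3; linarith [hlow.1]
    · change 0 ≤ v 4; linarith [hlow.1]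
  have hva : ∀ i j, i ≤ j → v j ≤ v i := by
    have h5 : Antitone v := by
      refine Fin.antitone_iff_succ_le.2 fun i => ?_
      fin_cases i
      · exact a1
      · exact a2
      · exact a3
      · exact a4
    exact fun i j hij => h5 hij
  have hκk : 9 / 10 - 2 * δ ≤ cκ (prX p) := by linarith
  have hAκ : 199 / 200 * cκ (prX p) ≤ A * cκ (prX p) := by
    have : 0 ≤ cκ (prX p) := by linarith [hN.κ0]
    nlinarith
  have hAκ1 : A * cκ (prX p) ≤ cκ (prX p) := by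
    have : 0 ≤ cκ (prX p) := by linarith [hN.κ0]
    nlinarith
  have hsum : ∑ j, v j = cN (prX p) + cM (prX p) := by
    rw [Fin.sum_univ_five]
    unfold cN E5B71.cM
    ring
  have hu4 : Dq.nl X (a.us 4) ≤ v 4 + δ := by
    have := (abs_le.1 (hw (.inl (.inr 4)))).2
    change Dq.nl X (a.us 4) - v 4 ≤ δ at this
    linarith
  obtain ⟨σ, hσ⟩ := allowed_abs (Dq.nl X) Dq.lump (us' := usR a x y) (ps := ps) (v := v)
    (v' := vR v (p (.inr 0)) (p (.inr 1)) x y) (K := A * cκ (prX p) - 20 * δ)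
    (T := 4 / 3 + δ) (d := 17 / 100) (δ := 3 * δ) (k := k) hv0 hva (repl_vR v _ _ hxy)
    (by linarith) (fun j => usR_nl hok hX hw hβ x y j) (fun q hq _ => h0 q hq)
    (fun q hq hql => (hal q hq hql).trans (by linarith))
    (by
      have h6 := lump_mass_le (X := X) h0
      rw [hsum]
      linarith)
    (by
      unfold cN at hnear
      linarith)
    (by linarith) (by linarith) (by linarith) (by linarith) hp hl s hs
  refine ⟨σ, ?_⟩
  have e : ∑ i, (![0, 0, 1, 1, 2] : Fin 5 → ℝ) i * Dq.nl X (us.get (s (σ i))) =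
      Dq.nl X (us.get (s (σ 2))) + Dq.nl X (us.get (s (σ 3))) +
        2 * Dq.nl X (us.get (s (σ 4))) := by
    rw [Fin.sum_univ_five]
    simp [Matrix.cons_val_zero, Matrix.cons_val_one]
  change ∑ i, (![0, 0, 1, 1, 2] : Fin 5 → ℝ) i * Dq.nl X (us.get (s (σ i))) ≤ 1 * k
  rw [e]
  linarith

end Crest.Agent.R017.ExAb968
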