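import Crest.Agent.R017.ExAbC_968

/-!
# Row 17, exceptional class, absolute shapes (helper968), part D: uniform bounds

* `abX_ub` : `NatF`, `TopC` ==> `UB` of `AbX`
-/

set_option autoImplicit false

noncomputable section

open Set Complex
open scoped ComplexConjugate

namespace Crest.Agent.R017.ExAb968

open Crest.Agent.R012 Crest.Agent.R012.Eis Crest.Agent.R012.Mob705
open Crest.Agent.R017.CM106 Crest.Agent.R017.FE47 Crest.Agent.R017.End699
open Crest.Agent.R017.XG702 (Pcs Good_mono)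
open Crest.Agent.R017.XT71 (Sys Win mx one_le_mx le_mx)
open Crest.Agent.R017.XF71 (const_le_rpow)
open Crest.Agent.R017.UM71
open Crest.Agent.R017.HP842 (Pc pc)
open Crest.Agent.R017.B770 Crest.Agent.R017.Prov71
open Crest.Agent.R017.E5T54 Crest.Agent.R017.E5P571 Crest.Agent.R017.E5B71
open Crest.Agent.R017.ExBox960 Crest.Agent.R017.ExP960
open Crest.Agent.R017.BxE986 (allowed TopC AL)
open Crest.Agent.R017.Cone59 (Tg)

lemma sum_z {X : ℝ} (hX : Real.log X ≠ 0) (ps : List Pq) :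
    (ps.map fun p => p.z).sum = (Dq.mass X ps .mo + Dq.mass X ps .am) * Real.log X := by
  induction ps with
  | nil => simp
  | cons p ps ih =>
    rw [List.map_cons, List.sum_cons, Pcs.mass_cons, Pcs.mass_cons, ih]
    have e : Dq.nl X p * Real.log X = p.z := by
      change p.z / Real.log X * Real.log X = p.z
      rw [div_mul_cancel₀ _ hX]
    have hk : Dq.kind p = .mo ∨ Dq.kind p = .am := by
      cases h : Dq.kind p
      · exact Or.inl rfl
      · exact Or.inr rfl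
    rcases hk with hk | hk
    · rw [hk]
      simp only [if_true, reduceCtorEq, if_false]
      linarith
    · rw [hk]
      simp only [if_true, reduceCtorEq, if_false]
      linarith

/-- an ok datum in a window: comparison of the lengths -/
lemma zs_cmp {A : ℝ} (hA : 199 / 200 ≤ A) {p : IX5 → ℝ} {w : Kd → ℝ}
    (hN : Nr5 A (prX p) w) (hβ : ∀ i : Fin 2, p (.inr i) ≤ 17 / 100) {δ : ℝ}
    (hδ1 : δ ≤ 1 / 50000) {X : ℝ} (hX : 0 < Real.log X) {a : BdX} (hok : a.ok)
    (hw : ∀ i, |S5X.ev X a i - p i| ≤ δ) :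
    a.zs 0 ≤ a.zs 1 ∧ a.zs 2 ≤ a.zs 3 ∧ (a.us 0).z ≤ a.zs 1 ∧ (a.us 1).z ≤ a.zs 1 ∧
      (a.us 2).z ≤ a.zs 3 ∧ (a.us 3).z ≤ a.zs 3 := by
  have hlow := nr5_low hA hN
  obtain ⟨a1, a2, a3, a4⟩ := hN.anti
  have hu : ∀ i : Fin 5, |(a.us i).z / Real.log X - cu (prX p) i| ≤ δ :=
    fun i => hw (.inl (.inr i))
  have hz0 : |a.zs 0 / Real.log X - p (.inr 0)| ≤ δ := hw (.inr 0)
  have hz2 : |a.zs 2 / Real.log X - p (.inr 1)| ≤ δ := hw (.inr 1)
  have b0 := abs_le.1 (hu 0)
  have b1 := abs_le.1 (hu 1)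
  have b2 := abs_le.1 (hu 2)
  have b3 := abs_le.1 (hu 3)
  have c0 := abs_le.1 hz0
  have c2 := abs_le.1 hz2
  have β0 := hβ 0
  have β1 := hβ 1
  have key : ∀ u v : ℝ, u / Real.log X ≤ v / Real.log X → u ≤ v := fun u v huv => by
    rwa [div_le_div_iff_of_pos_right hX] at huv
  have s0 : a.zs 0 ≤ (a.us 0).z := key _ _ (by linarith)
  have s1 : a.zs 0 ≤ (a.us 1).z := key _ _ (by linarith)
  have s2 : a.zs 2 ≤ (a.us 2).z := key _ _ (by linarith)
  have s3 : a.zs 2 ≤ (a.us 3).z := key _ _ (by linarith)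
  have e1 := hok.s01
  have e2 := hok.s23
  refine ⟨?_, ?_, ?_, ?_, ?_, ?_⟩ <;> linarith

open Classical in
/-- **the absolute sums of the double differences** -/
theorem abX_ub {Λ : Type*} {π : Λ → DPar} {h : ℝ → ℝ} {c : ℝ} (hP : ∀ lam, (π lam).OK)
    (hpu : PU h c) {A θ μ : ℝ} (hθ : 7 / 8 ≤ θ) (hA : 199 / 200 ≤ A) (hA1 : A ≤ 1)
    {cond : Λ × Eis → ℝ → Eis → Prop} {R : Λ → ℝ}
    {Dom : Set ((Fin 3 ⊕ Fin 5 → ℝ) × (Kd → ℝ))} (hDom : ∀ q ∈ Dom, Nr5 A q.1 q.2)
    (hn : UB S5 Dq (NatF π h cond R) Dom al5 (fun q => T5 θ q - μ))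
    (hT : TopC θ (1 / 3) μ (AL (9 / 10) 1 ![0, 0, 1, 1, 2]) π h) (hμ : μ ≤ 1 / 20) :
    UB S5X Dq (AbX π h cond R) (liftD (17 / 100) Dom) alX (fun q => T5 θ (prQ q) - μ) := by
  intro ε hε
  obtain ⟨δ1, hδ1, K1⟩ := hn (ε / 2) (by linarith)
  obtain ⟨δ2, hδ2, K2⟩ := hT
  set δ := min (min δ1 (δ2 / 8)) (1 / 50000) with hδdef
  have hδ0 : 0 < δ := lt_min (lt_min hδ1 (by linarith)) (by norm_num)
  have d1 : δ ≤ δ1 := (min_le_left _ _).trans (min_le_left _ _)
  have d2 : δ ≤ δ2 / 8 := (min_le_left _ _).trans (min_le_right _ _)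
  have d3 : δ ≤ 1 / 50000 := min_le_right _ _
  clear_value δ
  refine ⟨δ, hδ0, fun lam N B => ?_⟩
  obtain ⟨ρ1, hρ1, X1, hX1, L1⟩ := K1 lam N B
  obtain ⟨ρ2, hρ2, X2, hX2, L2⟩ := K2 lam.1 (N + 5) B
  have hB3 : 0 < |B| + 3 := by positivity
  set ε₂ : ℝ := (1 / 1000) / (|B| + 3) with hε₂
  have hε₂0 : 0 < ε₂ := by positivity
  have hεB : (|B| + 3) * ε₂ = 1 / 1000 := by
    rw [hε₂, mul_div_cancel₀ _ hB3.ne']
  clear_value ε₂
  obtain ⟨C, hC, L3⟩ := princ_le (hP lam.1) hpu N hε₂0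
  set ρ := min (min ρ1 ρ2) (1 / 20000) with hρdef
  have hρ0 : 0 < ρ := lt_min (lt_min hρ1 hρ2) (by norm_num)
  have r1 : ρ ≤ ρ1 := (min_le_left _ _).trans (min_le_left _ _)
  have r2 : ρ ≤ ρ2 := (min_le_left _ _).trans (min_le_right _ _)
  have r3 : ρ ≤ 1 / 20000 := min_le_right _ _
  clear_value ρ
  obtain ⟨X3, hX3, L4⟩ := const_le_rpow (C := 1 + (3 + C)) (ε := ε / 2) (by linarith)
  set W : ℝ := |R lam.1 + Real.log (nm lam.2)| with hW
  have hW0 : 0 ≤ W := abs_nonneg _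
  refine ⟨ρ, hρ0, max (max X1 X2) (max X3 (Real.exp (W / δ))),
    lt_of_lt_of_le hX1 ((le_max_left _ _).trans (le_max_left _ _)), ?_⟩
  intro X hX a ps hlen hlump q hq hw hmass hgood hal
  have x1 : X1 ≤ X := ((le_max_left _ _).trans (le_max_left _ _)).trans hX
  have x2 : X2 ≤ X := ((le_max_right _ _).trans (le_max_left _ _)).trans hX
  have x3 : X3 ≤ X := ((le_max_left _ _).trans (le_max_right _ _)).trans hX
  have x4 : Real.exp (W / δ) ≤ X := ((le_max_right _ _).trans (le_max_right _ _)).trans hX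
  have hX1' : 1 < X := by linarith
  have hXp : 0 < X := by linarith
  have hlog : 0 < Real.log X := Real.log_pos hX1'
  obtain ⟨p, w⟩ := q
  have hN : Nr5 A (prX p) w := hDom _ hq.1
  have hZR : ZR (17 / 100) p := hq.2
  have hκ0 := hN.κ0
  have hκ1 := hN.κ1
  simp only at hw hmass
  set T := T5 θ (prX p, w) with hTdef
  have hgoal : T5 θ (prQ (p, w)) - μ + ε = T - μ + ε := rfl
  simp only [hgoal]
  by_cases hok : a.ok ∧ lam.2 ∈ SM (π lam.1).n
  swap
  · unfold AbX
    rw [if_neg hok]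
    positivity
  have ht0 : lam.2 ≠ 0 := hok.2.1
  set P := π lam.1 with hPdef
  set t := lam.2 with htdef
  have hβ : ∀ i : Fin 2, p (.inr i) ≤ 17 / 100 := fun i => (hZR i).2
  -- the family
  have hWX : W / Real.log X ≤ δ := by
    rw [div_le_iff₀ hlog]
    have h1 : W / δ ≤ Real.log X := by
      rw [← Real.log_exp (W / δ)]
      exact Real.log_le_log (Real.exp_pos _) x4
    rw [div_le_iff₀ hδ0] at h1
    linarith
  have hl := abs_le.1 (hw.ev (.inl (.inl 0)))
  change -δ ≤ a.l / Real.log X - cκ (prX p) ∧ a.l / Real.log X - cκ (prX p) ≤ δ at hl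
  set l' : ℝ := a.l + W with hl'
  set k : ℝ := l' / Real.log X with hk
  have hkl : k * Real.log X = l' := by rw [hk, div_mul_cancel₀ _ hlog.ne']
  have hkk : k = a.l / Real.log X + W / Real.log X := by rw [hk, hl', add_div]
  have hWX0 : 0 ≤ W / Real.log X := div_nonneg hW0 hlog.le
  have hk1 : cκ (prX p) - δ ≤ k := by linarith [hl.1]
  have hk2 : k ≤ cκ (prX p) + 2 * δ := by linarith [hl.2]
  have hnt : (0 : ℝ) < nm t := by exact_mod_cast nm_pos.mpr ht0
  set K : ℕ := ⌊Real.exp (a.l + R lam.1)⌋₊ with hK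
  have hKl : (nm t : ℝ) * K ≤ Real.exp l' := by
    have h1 : (K : ℝ) ≤ Real.exp (a.l + R lam.1) := Nat.floor_le (Real.exp_pos _).le
    calc (nm t : ℝ) * K ≤ nm t * Real.exp (a.l + R lam.1) := by gcongr
      _ = Real.exp (Real.log (nm t) + (a.l + R lam.1)) := by
          rw [Real.exp_add (Real.log (nm t)), Real.exp_log hnt]
      _ ≤ Real.exp l' := by
          apply Real.exp_le_exp.2
          have := le_abs_self (R lam.1 + Real.log (nm t))
          rw [hl', hW]
          linarith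
  -- the shapes
  have hlow := nr5_low hA hN
  obtain ⟨a1, a2, a3, a4⟩ := hN.anti
  have hw0 := hN.w0
  have hqq := hN.q
  have hDD := hN.D
  have he0 := hN.e0
  have hcc := hN.c
  have hsum0 : 0 ≤ cN (prX p) + E5B71.cM (prX p) := by
    unfold cN E5B71.cM
    linarith [hlow.1, hlow.2]
  have hnl0 : ∀ q ∈ ps, 0 ≤ Dq.nl X q := fun q hq => div_nonneg (hgood q hq).2.2 hlog.le
  have hal' : ∀ q ∈ ps, Dq.lump q → Dq.nl X q ≤ Dq.nl X (a.us 4) := fun q hq hql =>
    hal q hq hql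
  have hum : |Dq.mass X (List.ofFn a.us ++ ps) .mo - (cN (prX p) + E5B71.cM (prX p) + w .mo)| ≤
      6 * δ := by
    have h2 := mass_ofFn (us := a.us) (fun i => (hok.1.base.1 i).1.1) X
    rw [Pcs.mass_append, h2.1]
    have b := fun i : Fin 5 => abs_le.1 (hw.ev (.inl (.inr i)))
    have b' : ∀ i : Fin 5, -δ ≤ Dq.nl X (a.us i) - cu (prX p) i ∧
        Dq.nl X (a.us i) - cu (prX p) i ≤ δ := b
    have hm := abs_le.1 (hmass .mo)
    unfold cN E5B71.cM
    rw [abs_le]
    constructor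
    · linarith [(b' 0).1, (b' 1).1, (b' 2).1, (b' 3).1, (b' 4).1, hm.1]
    · linarith [(b' 0).2, (b' 1).2, (b' 2).2, (b' 3).2, (b' 4).2, hm.2]
  have hua : |Dq.mass X (List.ofFn a.us ++ ps) .am - w .am| ≤ δ := by
    have h2 := mass_ofFn (us := a.us) (fun i => (hok.1.base.1 i).1.1) X
    rw [Pcs.mass_append, h2.2, zero_add]
    exact hmass .am
  have hs1 : ∀ i, Dq.s1 (a.us i) ≤ X ^ ρ := fun i => by
    refine le_trans ?_ hw.s₁
    refine le_trans (le_mx (List.mem_ofFn.2 ⟨i, rfl⟩)) (le_max_right _ _)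
  have hs2 : ∀ i, Dq.s2 (a.us i) ≤ X ^ B := fun i => by
    refine le_trans ?_ hw.s₂
    refine le_trans (le_mx (List.mem_ofFn.2 ⟨i, rfl⟩)) (le_max_right _ _)
  have hshape : ∀ x y : Bool, (x = true ∨ y = true) →
      ∑ k ∈ (PB P.n K).filter (fun k => cond lam a.l k ∧ P.NP2 (t * k)),
        NN P h (List.ofFn (usR a x y) ++ ps) (t * k) ≤ X ^ (T - μ) := by
    intro x y hxy
    refine (NN_le_Bc P h ht0 hKl (cond lam a.l) _).trans ?_
    have h5 := L2 X x2 k (List.ofFn (usR a x y) ++ ps)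
      (by rw [List.length_append, List.length_ofFn]; omega)
      (fun q hq => by
        rcases List.mem_append.1 hq with h6 | h6
        · obtain ⟨i, rfl⟩ := List.mem_ofFn.1 h6
          exact Or.inl (usR_lump hok.1 x y i)
        · exact (hlump q h6).imp id fun h' => h'.trans (by linarith))
      (allowed_repl hA hA1 hN hβ hδ0.le d3 hlog hok.1 hw.ev hnl0 hal' (hmass .mo) hk1 hk2 hxy)
      (cκ (prX p)) (cN (prX p) + E5B71.cM (prX p) + w .mo) (w .am) (by linarith) hκ1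
      (by linarith [hw0 .mo]) (by linarith) (hw0 .am) hcc (by linarith)
      (by rw [abs_le]; constructor <;> linarith)
      (by rw [usR_mass hok.1]; exact hum.trans (by linarith))
      (by rw [usR_mass hok.1]; exact hua.trans (by linarith))
      (fun q hq => by
        rcases List.mem_append.1 hq with h6 | h6
        · obtain ⟨i, rfl⟩ := List.mem_ofFn.1 h6
          refine ⟨?_, ?_, usR_z0 hok.1 x y i⟩
          · rw [Dq_s1, usR_t]
            exact (hs1 i).trans (Real.rpow_le_rpow_of_exponent_le hX1'.le r2)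
          · rw [Dq_s2, usR_d]
            exact hs2 i
        · exact ⟨(hgood q h6).1.trans (Real.rpow_le_rpow_of_exponent_le hX1'.le r2),
            (hgood q h6).2⟩)
    rw [hkl] at h5
    exact h5
  -- the natural shape
  have hnat : ∑ k ∈ (PB P.n K).filter (fun k => cond lam a.l k ∧ P.NP2 (t * k)),
        NN P h (List.ofFn a.us ++ ps) (t * k) ≤ X ^ (T - μ + ε / 2) := by
    have h5 := L1 X x1 a.toBd ps hlen (fun q hq => (hlump q hq).imp id fun h' => h'.trans d1)
      (prX p, w) hq.1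
      ⟨fun i => (hw.ev (.inl i)).trans d1,
        hw.g.trans (Real.rpow_le_rpow_of_exponent_le hX1'.le d1), hw.n,
        hw.s₁.trans (Real.rpow_le_rpow_of_exponent_le hX1'.le r1), hw.s₂⟩
      (fun t => (hmass t).trans d1) (Good_mono hX1'.le hgood r1)
      (fun q hq hql => hal q hq hql)
    unfold NatF at h5
    rw [if_pos ⟨hok.1.base, hok.2⟩] at h5
    exact h5
  -- the principal part
  have hpr : ∑ k ∈ (PB P.n K).filter (fun k => ¬ P.NP2 (t * k)), ‖AX h P t a k‖ *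
        (‖BXm h P t a ps k‖ * ‖PC h ((amL ps).map (Pt P t)) k‖) ≤ C * X ^ (T - μ) := by
    obtain ⟨g1, g2, g3, g4, g5, g6⟩ := zs_cmp hA hN hβ d3 hlog hok.1 hw.ev
    have hl'0 : 0 ≤ l' := by
      have : 0 ≤ k := by linarith
      rw [← hkl]
      positivity
    have h5 := L3 t ht0 K (Real.exp l') (X ^ |B|) (X ^ ρ) (Real.one_le_exp hl'0) hKl
      (Real.one_le_rpow hX1'.le (abs_nonneg B)) (Real.one_le_rpow hX1'.le hρ0.le) a ps hok.1 hlen
      (fun i => ⟨(hs2 i).trans (Real.rpow_le_rpow_of_exponent_le hX1'.le (le_abs_self B)),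
        hs1 i⟩) g1 g2 g3 g4 g5 g6
    refine h5.trans ?_
    have eL : Real.exp l' = X ^ k := by
      rw [Real.rpow_def_of_pos hXp, mul_comm, hkl]
    have e1 : (X ^ |B| * Real.exp l') ^ ε₂ ≤ X ^ (1 / 1000 : ℝ) := by
      rw [eL, ← Real.rpow_add hXp, ← Real.rpow_mul hXp.le]
      refine Real.rpow_le_rpow_of_exponent_le hX1'.le ?_
      have : (|B| + k) * ε₂ ≤ (|B| + 3) * ε₂ := by
        refine mul_le_mul_of_nonneg_right ?_ hε₂0.le
        linarith
      linarith
    have e2 : (X ^ ρ) ^ 16 ≤ X ^ (1 / 1000 : ℝ) := by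
      rw [← Real.rpow_natCast (X ^ ρ) 16, ← Real.rpow_mul hXp.le]
      refine Real.rpow_le_rpow_of_exponent_le hX1'.le ?_
      push_cast
      linarith
    have e3 : Real.exp l' ^ (1 / 3 : ℝ) = X ^ (k / 3) := by
      rw [eL, ← Real.rpow_mul hXp.le]
      congr 1
      ring
    have b := fun i : Fin 5 => abs_le.1 (hw.ev (.inl (.inr i)))
    have b' : ∀ i : Fin 5, -δ ≤ (a.us i).z / Real.log X - cu (prX p) i ∧
        (a.us i).z / Real.log X - cu (prX p) i ≤ δ := b
    have hz0 : |a.zs 0 / Real.log X - p (.inr 0)| ≤ δ := hw.ev (.inr 0)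
    have hz2 : |a.zs 2 / Real.log X - p (.inr 1)| ≤ δ := hw.ev (.inr 1)
    have c0 := abs_le.1 hz0
    have c2 := abs_le.1 hz2
    have hm1 := abs_le.1 (hmass .mo)
    have hm2 := abs_le.1 (hmass .am)
    have e4 : Real.exp (a.zs 1 + a.zs 3 + (a.us 4).z + (ps.map fun p => p.z).sum) ≤
        X ^ ((cN (prX p) + E5B71.cM (prX p) + w .mo) + w .am - p (.inr 0) - p (.inr 1) + 9 * δ) := by
      rw [Real.rpow_def_of_pos hXp]
      apply Real.exp_le_exp.2
      rw [sum_z hlog.ne']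
      have s1 : a.zs 1 = ((a.us 0).z / Real.log X + (a.us 1).z / Real.log X -
          a.zs 0 / Real.log X) * Real.log X := by
        rw [sub_mul, add_mul, div_mul_cancel₀ _ hlog.ne', div_mul_cancel₀ _ hlog.ne',
          div_mul_cancel₀ _ hlog.ne']
        linarith [hok.1.s01]
      have s3 : a.zs 3 = ((a.us 2).z / Real.log X + (a.us 3).z / Real.log X -
          a.zs 2 / Real.log X) * Real.log X := by
        rw [sub_mul, add_mul, div_mul_cancel₀ _ hlog.ne', div_mul_cancel₀ _ hlog.ne',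
          div_mul_cancel₀ _ hlog.ne']
        linarith [hok.1.s23]
      have s4 : (a.us 4).z = (a.us 4).z / Real.log X * Real.log X := by
        rw [div_mul_cancel₀ _ hlog.ne']
      rw [s1, s3, s4, ← add_mul, ← add_mul, ← add_mul, mul_comm (Real.log X)]
      refine mul_le_mul_of_nonneg_right ?_ hlog.le
      unfold cN E5B71.cM
      linarith [(b' 0).2, (b' 1).2, (b' 2).2, (b' 3).2, (b' 4).2]
    have hexp := princ_exp hθ hN (hZR 0).1 (hZR 1).1
    calc C * (X ^ |B| * Real.exp l') ^ ε₂ * (X ^ ρ) ^ 16 * (Real.exp l' ^ (1 / 3 : ℝ) *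
          Real.exp (a.zs 1 + a.zs 3 + (a.us 4).z + (ps.map fun p => p.z).sum))
        ≤ C * X ^ (1 / 1000 : ℝ) * X ^ (1 / 1000 : ℝ) * (X ^ (k / 3) *
          X ^ ((cN (prX p) + E5B71.cM (prX p) + w .mo) + w .am - p (.inr 0) - p (.inr 1) + 9 * δ)) := by
          rw [e3]
          gcongr
      _ = C * X ^ (1 / 1000 + 1 / 1000 + (k / 3 + ((cN (prX p) + E5B71.cM (prX p) + w .mo) + w .am -
          p (.inr 0) - p (.inr 1) + 9 * δ))) := by
          rw [Real.rpow_add hXp (1 / 1000 + 1 / 1000), Real.rpow_add hXp (1 / 1000 : ℝ),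
            Real.rpow_add hXp (k / 3)]
          ring
      _ ≤ C * X ^ (T - μ) := by
          refine mul_le_mul_of_nonneg_left ?_ hC
          refine Real.rpow_le_rpow_of_exponent_le hX1'.le ?_
          linarith
  -- all
  have hsplit : AbX π h cond R lam a ps ≤
      ∑ k ∈ (PB P.n K).filter (fun k => cond lam a.l k ∧ P.NP2 (t * k)), ‖AX h P t a k‖ *
        (‖BXm h P t a ps k‖ * ‖PC h ((amL ps).map (Pt P t)) k‖) +
      ∑ k ∈ (PB P.n K).filter (fun k => ¬ P.NP2 (t * k)), ‖AX h P t a k‖ *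
        (‖BXm h P t a ps k‖ * ‖PC h ((amL ps).map (Pt P t)) k‖) := by
    unfold AbX
    rw [if_pos hok, ← Finset.sum_filter_add_sum_filter_not _ (fun k => P.NP2 (t * k)),
      Finset.filter_filter, Finset.filter_filter]
    refine add_le_add le_rfl ?_
    refine Finset.sum_le_sum_of_subset_of_nonneg (fun x hx => ?_) fun _ _ _ => by positivity
    rw [Finset.mem_filter] at hx ⊢
    exact ⟨hx.1, hx.2.2⟩
  have hgood' : ∑ k ∈ (PB P.n K).filter (fun k => cond lam a.l k ∧ P.NP2 (t * k)),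
      ‖AX h P t a k‖ * (‖BXm h P t a ps k‖ * ‖PC h ((amL ps).map (Pt P t)) k‖) ≤
      X ^ (T - μ + ε / 2) + (X ^ (T - μ) + X ^ (T - μ) + X ^ (T - μ)) := by
    refine (Finset.sum_le_sum fun k _ => shapes_le P h t a ps k).trans ?_
    rw [Finset.sum_add_distrib, Finset.sum_add_distrib, Finset.sum_add_distrib, usR_ff]
    exact add_le_add hnat (add_le_add (add_le_add (hshape false true (Or.inr rfl))
      (hshape true false (Or.inl rfl))) (hshape true true (Or.inl rfl)))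
  have hVV : X ^ (T - μ) ≤ X ^ (T - μ + ε / 2) :=
    Real.rpow_le_rpow_of_exponent_le hX1'.le (by linarith)
  calc AbX π h cond R lam a ps ≤ _ := hsplit
    _ ≤ (X ^ (T - μ + ε / 2) + (X ^ (T - μ) + X ^ (T - μ) + X ^ (T - μ))) + C * X ^ (T - μ) :=
        add_le_add hgood' hpr
    _ ≤ (X ^ (T - μ + ε / 2) + (X ^ (T - μ + ε / 2) + X ^ (T - μ + ε / 2) +
        X ^ (T - μ + ε / 2))) + C * X ^ (T - μ + ε / 2) := by gcongr
    _ = (1 + (3 + C)) * X ^ (T - μ + ε / 2) := by ring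
    _ ≤ X ^ (ε / 2) * X ^ (T - μ + ε / 2) :=
        mul_le_mul_of_nonneg_right (L4 X x3) (by positivity)
    _ = X ^ (T - μ + ε) := by
        rw [← Real.rpow_add hXp]
        congr 1
        ring

end Crest.Agent.R017.ExAb968
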