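import Crest.Agent.R017.ExAbD_968

/-!
# Row 17, exceptional class, absolute shapes (helper968), part E: `TailCUX`, `AbsUX`

* `TailN` : the tail of the box over the `k` with `NP2 (t k)`
* `tailCUX_of`, `absUX_of` : the two leaves of helper960's `primUX_of`
-/

set_option autoImplicit false

noncomputable section

open Set Complex
open scoped ComplexConjugate

namespace Crest.Agent.R017.ExAb968

open Crest.Agent.R012 Crest.Agent.R012.Eis Crest.Agent.R012.Mob705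
open Crest.Agent.R017.CM106 Crest.Agent.R017.FE47 Crest.Agent.R017.End699
open Crest.Agent.R017.XG702 (Pcs Good_mono)
open Crest.Agent.R017.XT71 (Sys Win mx one_le_mx le_mx)
open Crest.Agent.R017.XF71 (const_le_rpow)
open Crest.Agent.R017.UM71
open Crest.Agent.R017.HP842 (Pc pc)
open Crest.Agent.R017.B770 Crest.Agent.R017.Prov71
open Crest.Agent.R017.E5T54 Crest.Agent.R017.E5P571 Crest.Agent.R017.E5B71
open Crest.Agent.R017.ExBox960 Crest.Agent.R017.ExP960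
open Crest.Agent.R017.BxE986 (allowed TopC AL)
open Crest.Agent.R017.Cone59 (Tg)

section
variable {Λ : Type*} (π : Λ → DPar) (h : ℝ → ℝ)

/-- the complement of the cut -/
def cCut (lam : Λ × Eis) (l : ℝ) (k : Eis) : Prop := ¬ cutN (π lam.1) lam.2 l k

/-- no condition -/
def cT (_ : Λ × Eis) (_ : ℝ) (_ : Eis) : Prop := True

open Classical in
/-- **tail of the box over the `k` with `NP2 (t k)`** -/
def TailN (R : Λ → ℝ) (lam : Λ × Eis) (a : Bd) (ps : List Pq) : ℝ :=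
  if a.ok ∧ lam.2 ∈ SM (π lam.1).n then
    ∑ k ∈ (PB (π lam.1).n ⌊Real.exp (a.l + R lam.1)⌋₊).filter
        (fun k => (π lam.1).NP2 (lam.2 * k) ∧ ¬ cutE (Real.exp (a.l / 20)) k),
      ‖PC h ((as3 a).map (Pt (π lam.1) lam.2)) k‖ *
      (‖PC h ((bs2 a ps).map (Pt (π lam.1) lam.2)) k‖ *
        ‖PC h ((amL ps).map (Pt (π lam.1) lam.2)) k‖)
  else 0

end

section
variable {Λ : Type*} {π : Λ → DPar} {h : ℝ → ℝ}

/-- the natural shape as three products -/
lemma NN_natural (P : DPar) (a : Bd) (ps : List Pq) (t k : Eis) :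
    NN P h (List.ofFn a.us ++ ps) (t * k) = ‖PC h ((as3 a).map (Pt P t)) k‖ *
      (‖PC h ((bs2 a ps).map (Pt P t)) k‖ * ‖PC h ((amL ps).map (Pt P t)) k‖) := by
  rw [norm_PC, norm_PC, norm_PC, NN_append, NN_split P h ps]
  unfold as3 bs2
  have e4 : a.us (Fin.succ (Fin.succ (Fin.succ (Fin.succ 0)))) = a.us 4 := rfl
  have e3 : a.us (Fin.succ (Fin.succ (Fin.succ 0))) = a.us 3 := rfl
  have e2 : a.us (Fin.succ (Fin.succ 0)) = a.us 2 := rfl
  have e1 : a.us (Fin.succ 0) = a.us 1 := rfl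
  simp only [List.ofFn_succ, List.ofFn_zero, NN_cons, NN_nil]
  rw [e4, e3, e2, e1]
  ring

open Classical in
lemma natF_eq_tailN (R : Λ → ℝ) : NatF π h (cCut π) R = TailN π h R := by
  funext lam a ps
  unfold NatF TailN
  by_cases hok : a.ok ∧ lam.2 ∈ SM (π lam.1).n
  · rw [if_pos hok, if_pos hok]
    refine Finset.sum_congr ?_ fun k _ => NN_natural _ _ _ _ _
    refine Finset.filter_congr fun k _ => ?_
    unfold cCut cutN
    tauto
  · rw [if_neg hok, if_neg hok]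

/-- **the natural shape in terms of `Bc`** -/
lemma natF_le_Bc (cond : Λ × Eis → ℝ → Eis → Prop) (R : Λ → ℝ) (lam : Λ × Eis) (a : Bd)
    (ps : List Pq) (ht : lam.2 ≠ 0) : NatF π h cond R lam a ps ≤
      Bc (π lam.1) h (a.l + (R lam.1 + Real.log (nm lam.2))) (List.ofFn a.us ++ ps) := by
  unfold NatF
  split_ifs with hok
  · refine NN_le_Bc _ h ht ?_ _ _
    have hnt : (0 : ℝ) < nm lam.2 := by exact_mod_cast nm_pos.mpr ht
    have h1 : ((⌊Real.exp (a.l + R lam.1)⌋₊ : ℕ) : ℝ) ≤ Real.exp (a.l + R lam.1) :=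
      Nat.floor_le (Real.exp_pos _).le
    calc (nm lam.2 : ℝ) * (⌊Real.exp (a.l + R lam.1)⌋₊ : ℕ) ≤
          nm lam.2 * Real.exp (a.l + R lam.1) := by gcongr
      _ = Real.exp (Real.log (nm lam.2) + (a.l + R lam.1)) := by
          rw [Real.exp_add (Real.log (nm lam.2)), Real.exp_log hnt]
      _ = _ := by congr 1; ring
  · exact BQ_nonneg _ _ _ _

/-- **TailCUX** -/
theorem tailCUX_of {c : ℝ} (hP : ∀ lam, (π lam).OK) (hpu : PU h c) {A d μ : ℝ} (hd : 0 ≤ d)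
    (hA : 199 / 200 ≤ A) (hA1 : A ≤ 1)
    (hn : ∀ R : Λ → ℝ, (∀ lam, 0 ≤ R lam) →
      UB S5 Dq (TailN π h R) (SqD A d) al5 (fun q => T5 (7 / 8 + d) q - μ))
    (hT : TopC (7 / 8 + d) (1 / 3) μ (AL (9 / 10) 1 ![0, 0, 1, 1, 2]) π h) (hμ : μ ≤ 1 / 20) :
    TailCUX π h (7 / 8 + d) A d (17 / 100) μ := by
  intro R hR
  have h1 := abX_ub hP hpu (θ := 7 / 8 + d) (by linarith) hA hA1 (cond := cCut π) (R := R)
    (Dom := SqD A d) (fun q hq => hq.toNr5) (by rw [natF_eq_tailN]; exact hn R hR) hT hμ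
  have e : AbX π h (cCut π) R = TailCX π h R := by
    classical
    funext lam a ps
    unfold AbX TailCX
    by_cases hok : a.ok ∧ lam.2 ∈ SM (π lam.1).n
    · rw [if_pos hok, if_pos hok]
      refine Finset.sum_congr ?_ fun _ _ => rfl
      ext k
      rw [Finset.mem_filter, Finset.mem_filter]
      exact Iff.rfl
    · rw [if_neg hok, if_neg hok]
  rwa [e] at h1

open Classical in
/-- **the signed sum, absolutely** -/
theorem primX_abs {ε : ℝ} (hε : 0 < ε) : ∃ C : ℝ, 0 ≤ C ∧ ∀ (lam : Λ × Eis) (R : Λ → ℝ)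
    (CU : ℝ), 0 ≤ CU →
    (∀ (τ H : ℝ) (k : Eis), 0 < H → SU770.DPar.wp (π lam.1) τ H k ≠ 0 →
      (nm k : ℝ) ≤ Real.exp (R lam.1) * H) →
    (∀ (τ H : ℝ) (k : Eis), IsPrim k → ‖SU770.DPar.wp (π lam.1) τ H k‖ ≤ CU) →
    ∀ (a : BdX) (ps : List Pq), 0 ≤ a.l + R lam.1 →
      PrimX π h lam a ps ≤ CU * (C * Real.exp (a.l + R lam.1) ^ ε * AbX π h cT R lam a ps) := by
  obtain ⟨C, hC, hτ⟩ := Div277.tau_le_rpow hε
  refine ⟨C, by linarith, ?_⟩
  intro lam R CU hCU hsupp hbd a ps hl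
  have hAb : 0 ≤ AbX π h cT R lam a ps := by
    unfold AbX
    split_ifs
    exacts [Finset.sum_nonneg fun _ _ => by positivity, le_rfl]
  unfold PrimX
  by_cases hok : a.ok ∧ lam.2 ∈ SM (π lam.1).n ∧ a.okP (π lam.1)
  swap
  · rw [if_neg hok]
    positivity
  rw [if_pos hok]
  set P := π lam.1 with hPdef
  set t := lam.2 with ht
  set Kx := Real.exp (a.l + R lam.1) with hKx
  have hKx1 : 1 ≤ Kx := Real.one_le_exp hl
  set X := ⌊Kx⌋₊ with hX
  set W : Eis → ℂ := fun k => if IsPrim k then Wt P a.toBd k else 0 with hW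
  have hW1 : ∀ k, W k ≠ 0 → nm k ≤ X := by
    intro k hk
    have h1 : Wt P a.toBd k ≠ 0 := by
      intro h0
      apply hk
      simp only [hW, h0, ite_self]
    have := hsupp a.τ (Real.exp a.l) k (Real.exp_pos _) h1
    refine Nat.le_floor ?_
    rwa [← Real.exp_add, add_comm] at this
  have hW2 : ∀ k, ‖W k‖ ≤ CU := by
    intro k
    simp only [hW]
    split_ifs with hk
    · exact hbd a.τ (Real.exp a.l) k hk
    · simpa using hCU
  have hT : ∀ k, IsPrim k → nm k ≤ X → (Div277.tau k : ℝ) ≤ C * Kx ^ ε := by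
    intro k hk hkX
    refine (hτ k hk.ne_zero).trans ?_
    have h1 : (nm k : ℝ) ≤ Kx := (Nat.cast_le.2 hkX).trans (Nat.floor_le (by linarith))
    gcongr
  have hD : ∀ q ∈ a.𝒟, IsPrim q := fun q hq => (hok.2.2.2.2 q hq).1.1
  set F : Eis → ℂ := fun k => AX h P t a k * (BXm h P t a ps k *
        conj (PC h ((amL ps).map (Pt P t)) k)) with hF
  have e1 : ∀ q ∈ a.𝒟, ‖SgF P.n (Wt P a.toBd) a.d₃ a.e F q‖ ≤ CU * AS P.n X F (q ^ 2) := by
    intro q _
    have e2 : SgF P.n (Wt P a.toBd) a.d₃ a.e F q = SgF P.n W a.d₃ a.e F q := by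
      unfold SgF
      refine tsum_congr fun k => ?_
      split_ifs with hk
      · simp only [hW, if_pos hk.1]
      · rfl
    rw [e2]
    exact norm_SgF_le_abs hW1 hW2 _ _ _
  have hAbE : AbX π h cT R lam a ps = ∑ k ∈ PB P.n X, ‖F k‖ := by
    unfold AbX
    rw [if_pos ⟨hok.1, hok.2.1⟩]
    refine Finset.sum_congr ?_ fun k _ => ?_
    · ext k
      rw [Finset.mem_filter]
      exact ⟨fun hk => hk.1, fun hk => ⟨hk, trivial⟩⟩
    · simp only [hF, norm_mul, RCLike.norm_conj]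
      rfl
  calc ∑ q ∈ a.𝒟, ‖SgF P.n (Wt P a.toBd) a.d₃ a.e F q‖
      ≤ ∑ q ∈ a.𝒟, CU * AS P.n X F (q ^ 2) := Finset.sum_le_sum e1
    _ = CU * ∑ q ∈ a.𝒟, AS P.n X F (q ^ 2) := by rw [Finset.mul_sum]
    _ ≤ CU * (C * Kx ^ ε * ∑ k ∈ PB P.n X, ‖F k‖) := by
        refine mul_le_mul_of_nonneg_left ?_ hCU
        exact sum_AS_le hT F hD
    _ = _ := by rw [hAbE]

/-- **AbsUX** -/
theorem absUX_of {c : ℝ} (hP : ∀ lam, (π lam).OK) (hpu : PU h c) {A d μ : ℝ} (hd : 0 ≤ d)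
    (hA : 199 / 200 ≤ A) (hA1 : A ≤ 1)
    (hn : ∀ R : Λ → ℝ, (∀ lam, 0 ≤ R lam) →
      UB S5 Dq (NatF π h cT R) (AbD A d) al5 (fun q => T5 (7 / 8 + d) q - μ))
    (hT : TopC (7 / 8 + d) (1 / 3) μ (AL (9 / 10) 1 ![0, 0, 1, 1, 2]) π h) (hμ : μ ≤ 1 / 20) :
    AbsUX π h (7 / 8 + d) A d (17 / 100) μ := by
  intro ε hε
  choose R CU hR hCU hsupp hbd using fun lam => wp_bd (hP lam)
  obtain ⟨C, hC, key⟩ := primX_abs (π := π) (h := h) (ε := ε / 8) (by linarith)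
  have h1 := abX_ub hP hpu (θ := 7 / 8 + d) (by linarith) hA hA1 (cond := cT) (R := R)
    (Dom := AbD A d) (fun q hq => hq.toNr5) (hn R hR) hT hμ
  obtain ⟨δ1, hδ1, K1⟩ := h1 (ε / 4) (by linarith)
  refine ⟨min δ1 (1 / 2), lt_min hδ1 (by norm_num), fun lam N B => ?_⟩
  obtain ⟨ρ1, hρ1, X1, hX1, L1⟩ := K1 lam N B
  obtain ⟨X2, hX2, L2⟩ := const_le_rpow
    (C := CU lam.1 * C * Real.exp (R lam.1) ^ (ε / 8)) (ε := ε / 4) (by linarith)
  refine ⟨ρ1, hρ1, max X1 X2, lt_of_lt_of_le hX1 (le_max_left _ _), ?_⟩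
  intro X hX a ps hlen hlump q hq hw hmass hgood hal
  have x1 : X1 ≤ X := (le_max_left _ _).trans hX
  have x2 : X2 ≤ X := (le_max_right _ _).trans hX
  have hX1' : 1 < X := by linarith
  have hXp : 0 < X := by linarith
  have hlog : 0 < Real.log X := Real.log_pos hX1'
  have hN : Nr5 A (prX q.1) q.2 := hq.1.toNr5
  have hκ0 := hN.κ0
  have hκ1 := hN.κ1
  have dle : min δ1 (1 / 2) ≤ δ1 := min_le_left _ _
  have dle2 : min δ1 (1 / 2) ≤ (1 / 2 : ℝ) := min_le_right _ _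
  have b1 := L1 X x1 a ps hlen (fun g hg => (hlump g hg).imp id fun h => h.trans dle) q hq
    (hw.mono hX1'.le dle le_rfl le_rfl le_rfl) (fun t => (hmass t).trans dle) hgood hal
  have hl := abs_le.1 (hw.ev (.inl (.inl 0)))
  change -(min δ1 (1 / 2)) ≤ a.l / Real.log X - cκ (prX q.1) ∧
    a.l / Real.log X - cκ (prX q.1) ≤ min δ1 (1 / 2) at hl
  have hl0 : 0 ≤ a.l := by
    have h2 : 0 ≤ a.l / Real.log X := by linarith [hl.1]
    rw [le_div_iff₀ hlog, zero_mul] at h2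
    exact h2
  have hl1 : a.l / Real.log X ≤ 2 := by linarith [hl.2]
  have hexp : Real.exp a.l ≤ X ^ (2 : ℝ) := by
    rw [Real.rpow_def_of_pos hXp, Real.exp_le_exp]
    rw [div_le_iff₀ hlog] at hl1
    linarith
  have hKx : Real.exp (a.l + R lam.1) ^ (ε / 8) ≤ Real.exp (R lam.1) ^ (ε / 8) * X ^ (ε / 4) := by
    rw [Real.exp_add, mul_comm, Real.mul_rpow (Real.exp_pos _).le (Real.exp_pos _).le]
    refine mul_le_mul_of_nonneg_left ?_ (by positivity)
    calc Real.exp a.l ^ (ε / 8) ≤ (X ^ (2 : ℝ)) ^ (ε / 8) :=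
          Real.rpow_le_rpow (Real.exp_pos _).le hexp (by linarith)
      _ = X ^ (ε / 4) := by rw [← Real.rpow_mul hXp.le]; congr 1; ring
  have hCU0 : 0 ≤ CU lam.1 := by linarith [hCU lam.1]
  have h3 := key lam R (CU lam.1) hCU0 (fun τ H k hH hk => (hsupp lam.1 τ H k hH hk).1)
    (hbd lam.1) a ps (by linarith [hR lam.1])
  have hAb : 0 ≤ AbX π h cT R lam a ps := by
    unfold AbX
    split_ifs
    exacts [Finset.sum_nonneg fun _ _ => by positivity, le_rfl]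
  calc PrimX π h lam a ps ≤ _ := h3
    _ ≤ CU lam.1 * (C * (Real.exp (R lam.1) ^ (ε / 8) * X ^ (ε / 4)) *
        X ^ (T5 (7 / 8 + d) (prQ q) - μ + ε / 4)) := by gcongr
    _ = (CU lam.1 * C * Real.exp (R lam.1) ^ (ε / 8)) * X ^ (ε / 4) *
        X ^ (T5 (7 / 8 + d) (prQ q) - μ + ε / 4) := by ring
    _ ≤ X ^ (ε / 4) * X ^ (ε / 4) * X ^ (T5 (7 / 8 + d) (prQ q) - μ + ε / 4) := by
        have := L2 X x2
        gcongr
    _ ≤ X ^ (T5 (7 / 8 + d) (prQ q) - μ + ε) := by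
        rw [← Real.rpow_add hXp, ← Real.rpow_add hXp]
        exact Real.rpow_le_rpow_of_exponent_le hX1'.le (by linarith)

end

end Crest.Agent.R017.ExAb968
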