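import Crest.Agent.R017.ExP1_960
import Crest.Agent.R017.E5A2_71

/-!
# Row 17, exceptional class, P8a (helper960) : `primUX_of`

71's `primU_of` for the double differences: `P1X`, `StrUX`, `TailUX`, `TailCUX`, `MomUX`, `AbsUX`
give `PrimUX`.
-/

set_option autoImplicit false

noncomputable section

open Set Complex
open scoped ComplexConjugate

namespace Crest.Agent.R017.ExP960

open Crest.Agent.R012 Crest.Agent.R012.Eis Crest.Agent.R012.Mob705
open Crest.Agent.R017.CM106 Crest.Agent.R017.FE47 Crest.Agent.R017.End699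
open Crest.Agent.R017.Sx545 (Sm)
open Crest.Agent.R017.XG702 (Pcs Good_mono)
open Crest.Agent.R017.XT71 (Sys Win mx one_le_mx)
open Crest.Agent.R017.XF71 (const_le_rpow)
open Crest.Agent.R017.UM71
open Crest.Agent.R017.HP842 (Pc pc)
open Crest.Agent.R017.B770 Crest.Agent.R017.Prov71
open Crest.Agent.R017.SU770 (tw1)
open Crest.Agent.R017.E5T54 Crest.Agent.R017.E5P571 Crest.Agent.R017.E5B71
open Crest.Agent.R017.ExBox960

/-! ### coordinates -/

/-- change of the share -/
def upX (p : IX5 → ℝ) (x : ℝ) : IX5 → ℝ := Function.update p (.inl (.inl 1)) x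

@[simp] lemma prX_upX (p : IX5 → ℝ) (x : ℝ) : prX (upX p x) = upx (prX p) x := by
  funext i
  unfold prX upX upx
  by_cases hi : i = .inl 1
  · subst hi; simp
  · rw [Function.update_of_ne hi, Function.update_of_ne (by simpa using hi)]

@[simp] lemma prQ_upX (p : IX5 → ℝ) (x : ℝ) (w : Kd → ℝ) : prQ (upX p x, w) = (upx (prX p) x, w) := by
  unfold prQ; rw [prX_upX]

lemma ZR.upX {β : ℝ} {p : IX5 → ℝ} (h : ZR β p) (x : ℝ) : ZR β (upX p x) := by
  intro i
  have h1 := h i
  rw [prX_upX, cκ_upx]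
  have e : ExP960.upX p x (.inr i) = p (.inr i) := by
    unfold ExP960.upX
    rw [Function.update_of_ne (by simp)]
  rw [e]
  exact h1

lemma BdX.ok.setz {a : BdX} (h : a.ok) {z : ℝ} (hz : 0 ≤ z) : (a.setz z).ok :=
  ⟨⟨h.base.1, hz, h.base.2.2⟩, h.z0, h.s01, h.s23, h.md⟩

lemma winX_setz {p : IX5 → ℝ} {δ : ℝ} {N : ℕ} {B ρ X : ℝ} {a : BdX} {z x : ℝ}
    (h : Win S5X p δ N B ρ X a) (hz : |z / Real.log X - x| ≤ δ) :
    Win S5X (upX p x) δ N B ρ X (a.setz z) := by
  refine ⟨?_, h.g, h.n, h.s₁, h.s₂⟩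
  rintro ((i | i) | i)
  · fin_cases i
    · have := h.ev (.inl (.inl 0))
      simpa [S5X, S5, BdX.setz, Bd.setz, upX, Function.update] using this
    · simpa [S5X, S5, BdX.setz, Bd.setz, upX, Function.update] using hz
    · have := h.ev (.inl (.inl 2))
      simpa [S5X, S5, BdX.setz, Bd.setz, upX, Function.update] using this
  · have := h.ev (.inl (.inr i))
    simpa [S5X, S5, BdX.setz, Bd.setz, upX, Function.update] using this
  · have := h.ev (.inr i)
    simpa [S5X, S5, BdX.setz, Bd.setz, upX, Function.update] using this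

/-! ### homogeneity -/

lemma SgF_congr {n : Eis} {W W' : Eis → ℂ} {c : ℂ} (d₃ e : Eis) (F : Eis → ℂ)
    (q : Eis) (hW : ∀ k, IsPrim k → IsCoprime k n → W k = c * W' k) :
    SgF n W d₃ e F q = c * SgF n W' d₃ e F q := by
  classical
  unfold SgF
  rw [← tsum_mul_left]
  refine tsum_congr fun k => ?_
  split_ifs with hk
  · rw [hW k hk.1 hk.2.1]; ring
  · simp

section
variable {Λ : Type*} {π : Λ → DPar} {h : ℝ → ℝ}

open Classical in
/-- **the inequality at one datum** -/
theorem primX_le {ε : ℝ} (hε : 0 < ε) : ∃ C : ℝ, 0 ≤ C ∧ ∀ (lam : Λ × Eis),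
    (π lam.1).OK → ∀ (R : Λ → ℝ) (CU : ℝ), 1 ≤ CU →
    (∀ (τ H : ℝ) (k : Eis), 0 < H → SU770.DPar.wp (π lam.1) τ H k ≠ 0 →
      (nm k : ℝ) ≤ Real.exp (R lam.1) * H ∧ Real.exp (-R lam.1) * H ≤ nm k) →
    (∀ (τ H : ℝ) (k : Eis), IsPrim k → ‖SU770.DPar.wp (π lam.1) τ H k‖ ≤ CU) →
    ∀ (Sf : SFX Λ) (a : BdX) (ps q₁ q₂ : List Pq) (z : ℝ), 0 ≤ z → 0 ≤ a.l + R lam.1 →
      amL ps = q₁ ++ q₂ →
      PrimX π h lam a ps ≤ CU * (C * Real.exp (a.l + R lam.1) ^ ε *
        (Real.sqrt (ErrX π h Sf R lam (a.setz z) q₁) *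
            Real.sqrt (MomX π h R lam (a.setz z) (moL ps ++ q₂)) +
          (TailCX π h R lam (a.setz z) ps + (TailSX π h Sf R lam (a.setz z) ps +
            TailCX π h R lam (a.setz z) ps)))) +
        MidX π h Sf lam (a.setz z) ps := by
  obtain ⟨C, hC, key⟩ := sgF_split hε
  refine ⟨C, hC, ?_⟩
  intro lam hP R CU hCU hsupp hbd Sf a ps q₁ q₂ z hz hl hq
  by_cases hok : a.ok ∧ lam.2 ∈ SM (π lam.1).n ∧ a.okP (π lam.1)
  swap
  · have h0 : PrimX π h lam a ps = 0 := by unfold PrimX; rw [if_neg hok]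
    rw [h0]
    have hnn : ∀ (c : Prop) [Decidable c] (x : ℝ), 0 ≤ x → 0 ≤ if c then x else (0 : ℝ) :=
      fun c _ x hx => by split_ifs; exacts [hx, le_rfl]
    have t1 : 0 ≤ TailCX π h R lam (a.setz z) ps := by
      unfold TailCX; exact hnn _ _ (Finset.sum_nonneg fun _ _ => by positivity)
    have t2 : 0 ≤ TailSX π h Sf R lam (a.setz z) ps := by
      unfold TailSX; exact hnn _ _ (Finset.sum_nonneg fun _ _ => by positivity)
    have t3 : 0 ≤ MidX π h Sf lam (a.setz z) ps := by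
      unfold MidX
      exact hnn _ _ (Finset.sum_nonneg fun _ _ => Finset.sum_nonneg fun _ _ => norm_nonneg _)
    have : 0 ≤ CU := by linarith
    positivity
  have hok' : (a.setz z).ok := hok.1.setz hz
  set P := π lam.1 with hPdef
  set t := lam.2 with ht
  set W : Eis → ℂ := Wt P a.toBd with hWdef
  set W' : Eis → ℂ := fun k => if IsPrim k then W k / CU else 0 with hW'
  have hCU0 : (CU : ℂ) ≠ 0 := by
    have : (0 : ℝ) < CU := by linarith
    exact_mod_cast this.ne'
  have hWW : ∀ k, IsPrim k → IsCoprime k P.n → W k = (CU : ℂ) * W' k := by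
    intro k hk _
    simp only [hW', if_pos hk]
    field_simp
  set Kx := Real.exp (a.l + R lam.1) with hKx
  have hKx1 : 1 ≤ Kx := Real.one_le_exp hl
  have hW1 : ∀ k, W' k ≠ 0 → (nm k : ℝ) ≤ Kx := by
    intro k hk
    have h1 : W k ≠ 0 := by
      intro h0
      apply hk
      simp only [hW', h0, zero_div, ite_self]
    have := (hsupp a.τ (Real.exp a.l) k (Real.exp_pos _) h1).1
    rwa [← Real.exp_add, add_comm] at this
  have hWlow : ∀ k, ¬ Real.exp (a.l - R lam.1) ≤ nm k → W k = 0 := by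
    intro k hk
    by_contra h1
    have := (hsupp a.τ (Real.exp a.l) k (Real.exp_pos _) h1).2
    rw [← Real.exp_add, neg_add_eq_sub] at this
    exact hk this
  set G : Eis → ℂ := fun k => if Real.exp (a.l - R lam.1) ≤ nm k then Sf.at lam (a.setz z) k
    else AX h P t a k with hG
  have hW2 : ∀ k, ‖W' k‖ ≤ 1 := by
    intro k
    simp only [hW']
    split_ifs with hk
    · have hCn : ‖(CU : ℂ)‖ = CU := by
        rw [Complex.norm_real, Real.norm_eq_abs, abs_of_nonneg (by linarith)]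
      rw [norm_div, hCn, div_le_one (by linarith)]
      exact hbd a.τ (Real.exp a.l) k hk
    · simp
  have hD : ∀ q ∈ a.𝒟, IsPrim q := fun q hq => (hok.2.2.2.2 q hq).1.1
  have main := key P.n a.d₃ a.e W' Kx a.𝒟 (cutN P t a.l) (AX h P t a) (BXm h P t a ps)
    (PC h (q₁.map (Pt P t))) (PC h (q₂.map (Pt P t))) G
    hok.1.base.2.2 hKx1 hW1 hW2 hD
  have hamp : ∀ k, PC h ((amL ps).map (Pt P t)) k =
      PC h (q₁.map (Pt P t)) k * PC h (q₂.map (Pt P t)) k := by
    intro k
    rw [hq, List.map_append, PC_append]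
  have hprim : PrimX π h lam a ps = CU * ∑ q ∈ a.𝒟, ‖SgF P.n W' a.d₃ a.e
      (fun k => AX h P t a k * (BXm h P t a ps k *
        conj (PC h (q₁.map (Pt P t)) k * PC h (q₂.map (Pt P t)) k))) q‖ := by
    unfold PrimX
    rw [if_pos hok, Finset.mul_sum]
    refine Finset.sum_congr rfl fun q _ => ?_
    simp only [← hPdef, ← ht, hamp]
    rw [SgF_congr a.d₃ a.e _ q hWW, norm_mul, Complex.norm_real, Real.norm_eq_abs,
      abs_of_nonneg (by linarith)]
  have hmid : MidX π h Sf lam (a.setz z) ps = CU * ∑ q ∈ a.𝒟.filter (fun q => IsCoprime q a.d₃),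
      ∑ g ∈ Gd P.n a.d₃, ‖E5P571.MS P.n W' a.e (fun k => G k *
        (BXm h P t a ps k *
          conj (PC h (q₁.map (Pt P t)) k * PC h (q₂.map (Pt P t)) k))) (q ^ 2 * g)‖ := by
    unfold MidX
    rw [if_pos ⟨hok', hok.2.1, hok.2.2⟩, Finset.mul_sum]
    refine Finset.sum_congr rfl fun q _ => ?_
    rw [Finset.mul_sum]
    refine Finset.sum_congr rfl fun g _ => ?_
    simp only [← hPdef, ← ht, hamp]
    have e0 : E5P571.MS P.n W a.e (fun k => Sf.at lam (a.setz z) k * (BXm h P t a ps k *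
          conj (PC h (q₁.map (Pt P t)) k * PC h (q₂.map (Pt P t)) k))) (q ^ 2 * g) =
        E5P571.MS P.n W a.e (fun k => G k * (BXm h P t a ps k *
          conj (PC h (q₁.map (Pt P t)) k * PC h (q₂.map (Pt P t)) k))) (q ^ 2 * g) := by
      unfold E5P571.MS
      refine tsum_congr fun k => ?_
      split_ifs with hk
      · by_cases hlo : Real.exp (a.l - R lam.1) ≤ nm k
        · simp only [hG, if_pos hlo]
        · rw [hWlow k hlo]; ring
      · rfl
    have := MS_congr (n := P.n) (W := W) (W' := W') (c := (CU : ℂ)) a.e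
      (fun k => G k * (BXm h P t a ps k *
          conj (PC h (q₁.map (Pt P t)) k * PC h (q₂.map (Pt P t)) k))) (q ^ 2 * g) hWW
    refine (congrArg norm (e0.trans this)).trans ?_
    rw [norm_mul, Complex.norm_real, Real.norm_eq_abs, abs_of_nonneg (by linarith)]
  -- the three positive functionals
  have herr : ∑ k ∈ (PB P.n ⌊Kx⌋₊).filter (cutN P t a.l),
      ‖AX h P t a k - G k‖ ^ 2 *
        ‖PC h (q₁.map (Pt P t)) k‖ ^ 2 ≤ ErrX π h Sf R lam (a.setz z) q₁ := by
    unfold ErrX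
    rw [if_pos ⟨hok', hok.2.1, fun p hp => (mem_amL.1 (hq ▸ List.mem_append_left _ hp)).2⟩]
    have e1 : ∑ k ∈ (PB P.n ⌊Kx⌋₊).filter (cutN P t a.l),
        ‖AX h P t a k - G k‖ ^ 2 * ‖PC h (q₁.map (Pt P t)) k‖ ^ 2 =
        ∑ k ∈ ((PB P.n ⌊Kx⌋₊).filter (cutN P t a.l)).filter
          (fun k => Real.exp (a.l - R lam.1) ≤ nm k),
        ‖AX h P t a k - Sf.at lam (a.setz z) k‖ ^ 2 *
          ‖PC h (q₁.map (Pt P t)) k‖ ^ 2 := by
      rw [Finset.sum_filter (s := (PB P.n ⌊Kx⌋₊).filter (cutN P t a.l))]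
      refine Finset.sum_congr rfl fun k _ => ?_
      by_cases hlo : Real.exp (a.l - R lam.1) ≤ nm k
      · simp only [hG, if_pos hlo]
      · simp only [hG, if_neg hlo, sub_self, norm_zero]
        simp
    rw [e1]
    refine Finset.sum_le_sum_of_subset_of_nonneg ?_ fun _ _ _ => by positivity
    intro k hk
    rw [Finset.mem_filter, Finset.mem_filter] at hk
    rw [Finset.mem_filter]
    exact ⟨hk.1.1, hk.1.2.1, hk.2⟩
  have hmom : ∑ k ∈ (PB P.n ⌊Kx⌋₊).filter (cutN P t a.l),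
      ‖BXm h P t a ps k * PC h (q₂.map (Pt P t)) k‖ ^ 2 ≤
        MomX π h R lam (a.setz z) (moL ps ++ q₂) := by
    unfold MomX
    rw [if_pos ⟨hok', hok.2.1⟩]
    calc ∑ k ∈ (PB P.n ⌊Kx⌋₊).filter (cutN P t a.l),
          ‖BXm h P t a ps k * PC h (q₂.map (Pt P t)) k‖ ^ 2
        = ∑ k ∈ (PB P.n ⌊Kx⌋₊).filter (cutN P t a.l),
          ‖BX h P t a k * PC h ((moL ps ++ q₂).map (Pt P t)) k‖ ^ 2 := by
          refine Finset.sum_congr rfl fun k _ => ?_
          rw [List.map_append, PC_append]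
          unfold BXm
          rw [mul_assoc]
      _ ≤ _ := by
          refine Finset.sum_le_sum_of_subset_of_nonneg ?_ fun _ _ _ => by positivity
          intro k hk
          rw [Finset.mem_filter] at hk ⊢
          exact ⟨hk.1, hk.2.2⟩
  have htc : ∑ k ∈ (PB P.n ⌊Kx⌋₊).filter (fun k => ¬ cutN P t a.l k),
      ‖AX h P t a k‖ * (‖BXm h P t a ps k‖ * ‖PC h (q₁.map (Pt P t)) k *
        PC h (q₂.map (Pt P t)) k‖) = TailCX π h R lam (a.setz z) ps := by
    unfold TailCX
    rw [if_pos ⟨hok', hok.2.1⟩]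
    refine Finset.sum_congr rfl fun k _ => ?_
    simp only [← hPdef, ← ht, hamp]
    rfl
  have hts : ∑ k ∈ (PB P.n ⌊Kx⌋₊).filter (fun k => ¬ cutN P t a.l k),
      ‖G k‖ * (‖BXm h P t a ps k‖ * ‖PC h (q₁.map (Pt P t)) k *
        PC h (q₂.map (Pt P t)) k‖) ≤ TailSX π h Sf R lam (a.setz z) ps +
          TailCX π h R lam (a.setz z) ps := by
    rw [← htc]
    unfold TailSX
    rw [if_pos ⟨hok', hok.2.1⟩]
    have e1 : ∑ k ∈ (PB P.n ⌊Kx⌋₊).filter (fun k => ¬ cutN P t a.l k),
        (if Real.exp (a.l - R lam.1) ≤ nm k then ‖Sf.at lam (a.setz z) k‖ *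
          (‖BXm h P t a ps k‖ * ‖PC h (q₁.map (Pt P t)) k *
            PC h (q₂.map (Pt P t)) k‖) else 0) =
        ∑ k ∈ (PB (π lam.1).n ⌊Real.exp ((a.setz z).l + R lam.1)⌋₊).filter
            (fun k => ¬ cutN (π lam.1) lam.2 (a.setz z).l k ∧
              Real.exp ((a.setz z).l - R lam.1) ≤ nm k),
          ‖Sf.at lam (a.setz z) k‖ *
          (‖BXm h (π lam.1) lam.2 (a.setz z) ps k‖ *
            ‖PC h ((amL ps).map (Pt (π lam.1) lam.2)) k‖) := by
      rw [← Finset.sum_filter, Finset.filter_filter]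
      refine Finset.sum_congr rfl fun k _ => ?_
      simp only [← hPdef, ← ht, hamp]
      rfl
    rw [← e1, ← Finset.sum_add_distrib]
    refine Finset.sum_le_sum fun k _ => ?_
    simp only [hG]
    split_ifs
    · exact le_add_of_nonneg_right (by positivity)
    · exact le_add_of_nonneg_left le_rfl
  rw [htc] at main
  rw [hprim, hmid]
  have hCU' : 0 ≤ CU := by linarith
  have e1 := mul_le_mul_of_nonneg_left main hCU'
  have e2 := mul_le_mul (Real.sqrt_le_sqrt herr) (Real.sqrt_le_sqrt hmom) (Real.sqrt_nonneg _)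
    (Real.sqrt_nonneg _)
  have hCK : 0 ≤ C * Kx ^ ε := by positivity
  have e3 := mul_le_mul_of_nonneg_left e2 (mul_nonneg hCU' hCK)
  have e4 := mul_le_mul_of_nonneg_left hts (mul_nonneg hCU' hCK)
  calc _ ≤ _ := e1
    _ ≤ _ := by
      rw [mul_add, mul_add]
      nlinarith [e3, e4]

open Classical in
/-- **P8a** -/
theorem primUX_of (hP : ∀ lam, (π lam).OK) {Sf : SFX Λ} {A d β μ μ' : ℝ} (hd : 0 < d)
    (hd1 : d ≤ 1 / 8) (hA : A ≤ 1) (hA1 : 16 * (1 - A) ≤ d) (h1 : P1X π h Sf A d β)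
    (hs : StrUX π h (7 / 8 + d) Sf A d β μ) (ht : TailUX π h (7 / 8 + d) Sf A d β μ)
    (hc : TailCUX π h (7 / 8 + d) A d β μ) (hm : MomUX π h A d β) (ha : AbsUX π h (7 / 8 + d) A d β μ)
    (hμ : μ' ≤ μ) (hμd : μ' ≤ d / 9) : PrimUX π h (7 / 8 + d) A β μ' := by
  intro ε hε
  choose R CU hR hCU hsupp hbd using fun lam => wp_bd (hP lam)
  obtain ⟨C, hC, key⟩ := primX_le (π := π) (h := h) (ε := ε / 8) (by linarith)
  have hε4 : 0 < ε / 4 := by linarith
  obtain ⟨δ1, hδ1, K1⟩ := h1 R hR (ε / 4) hε4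
  obtain ⟨δ2, hδ2, K2⟩ := hs (ε / 4) hε4
  obtain ⟨δ3, hδ3, K3⟩ := ht R hR (ε / 4) hε4
  obtain ⟨δ4, hδ4, K4⟩ := hc R hR (ε / 4) hε4
  obtain ⟨δ5, hδ5, K5⟩ := hm R hR (ε / 4) hε4
  obtain ⟨δ6, hδ6, K6⟩ := ha ε hε
  set D := min (min (min δ1 δ2) (min δ3 δ4)) (min (min δ5 δ6) (1 / 2)) with hDdef
  have hD : 0 < D := lt_min (lt_min (lt_min hδ1 hδ2) (lt_min hδ3 hδ4))
    (lt_min (lt_min hδ5 hδ6) (by norm_num))
  have hD1 : D ≤ δ1 := (min_le_left _ _).trans ((min_le_left _ _).trans (min_le_left _ _))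
  have hD2 : D ≤ δ2 := (min_le_left _ _).trans ((min_le_left _ _).trans (min_le_right _ _))
  have hD3 : D ≤ δ3 := (min_le_left _ _).trans ((min_le_right _ _).trans (min_le_left _ _))
  have hD4 : D ≤ δ4 := (min_le_left _ _).trans ((min_le_right _ _).trans (min_le_right _ _))
  have hD5 : D ≤ δ5 := (min_le_right _ _).trans ((min_le_left _ _).trans (min_le_left _ _))
  have hD6 : D ≤ δ6 := (min_le_right _ _).trans ((min_le_left _ _).trans (min_le_right _ _))
  have hDh : D ≤ 1 / 2 := (min_le_right _ _).trans (min_le_right _ _)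
  refine ⟨D / 4, by linarith, fun lam N B => ?_⟩
  obtain ⟨ρ1, hρ1, X1, hX1, L1⟩ := K1 lam N B
  obtain ⟨ρ2, hρ2, X2, hX2, L2⟩ := K2 lam N B
  obtain ⟨ρ3, hρ3, X3, hX3, L3⟩ := K3 lam N B
  obtain ⟨ρ4, hρ4, X4, hX4, L4⟩ := K4 lam N B
  obtain ⟨ρ5, hρ5, X5, hX5, L5⟩ := K5 lam N B
  obtain ⟨ρ6, hρ6, X6, hX6, L6⟩ := K6 lam N B
  set ρ := min (min (min ρ1 ρ2) (min ρ3 ρ4)) (min ρ5 ρ6) with hρdef
  have hρ : 0 < ρ := lt_min (lt_min (lt_min hρ1 hρ2) (lt_min hρ3 hρ4)) (lt_min hρ5 hρ6)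
  have r1 : ρ ≤ ρ1 := (min_le_left _ _).trans ((min_le_left _ _).trans (min_le_left _ _))
  have r2 : ρ ≤ ρ2 := (min_le_left _ _).trans ((min_le_left _ _).trans (min_le_right _ _))
  have r3 : ρ ≤ ρ3 := (min_le_left _ _).trans ((min_le_right _ _).trans (min_le_left _ _))
  have r4 : ρ ≤ ρ4 := (min_le_left _ _).trans ((min_le_right _ _).trans (min_le_right _ _))
  have r5 : ρ ≤ ρ5 := (min_le_right _ _).trans (min_le_left _ _)
  have r6 : ρ ≤ ρ6 := (min_le_right _ _).trans (min_le_right _ _)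
  obtain ⟨X7, hX7, L7⟩ := const_le_rpow
    (C := 4 * (CU lam.1 * C * Real.exp (R lam.1) ^ (ε / 8)) + 1) (ε := ε / 4) hε4
  refine ⟨ρ, hρ, max (max (max X1 X2) (max X3 X4)) (max (max X5 X6) X7),
    lt_of_lt_of_le hX1 ((le_max_left _ _).trans ((le_max_left _ _).trans (le_max_left _ _))), ?_⟩
  intro X hX a ps hlen hlump q hq hw hmass hgood hal
  have x1 : X1 ≤ X := ((le_max_left _ _).trans ((le_max_left _ _).trans (le_max_left _ _))).trans hX
  have x2 : X2 ≤ X := ((le_max_right _ _).trans ((le_max_left _ _).trans (le_max_left _ _))).trans hX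
  have x3 : X3 ≤ X := ((le_max_left _ _).trans ((le_max_right _ _).trans (le_max_left _ _))).trans hX
  have x4 : X4 ≤ X :=
    ((le_max_right _ _).trans ((le_max_right _ _).trans (le_max_left _ _))).trans hX
  have x5 : X5 ≤ X := ((le_max_left _ _).trans ((le_max_left _ _).trans (le_max_right _ _))).trans hX
  have x6 : X6 ≤ X :=
    ((le_max_right _ _).trans ((le_max_left _ _).trans (le_max_right _ _))).trans hX
  have x7 : X7 ≤ X := ((le_max_right _ _).trans (le_max_right _ _)).trans hX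
  have hX1' : 1 < X := by linarith
  have hXp : 0 < X := by linarith
  have hlog : 0 < Real.log X := Real.log_pos hX1'
  obtain ⟨p, w⟩ := q
  have hN : Nr5 A (prX p) w := hq.1.1
  have hZR : ZR β p := hq.2
  have hκ1 := hN.κ1
  rcases cert5 hd.le hd1 hA hA1 hN with hab | ⟨x, hsq⟩
  · -- absolute
    refine (L6 X x6 a ps hlen (fun g hg => (hlump g hg).imp id fun h => h.trans (by linarith))
      (p, w) ⟨hab, hZR⟩ (hw.mono hX1'.le (by linarith) le_rfl le_rfl r6)
      (fun t => (hmass t).trans (by linarith)) (Good_mono hX1'.le hgood r6) hal).trans ?_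
    refine Real.rpow_le_rpow_of_exponent_le hX1'.le ?_
    simp only
    linarith
  -- the signed case
  have hx0 : 0 ≤ x := by simpa using hsq.x0
  have hxc : x ≤ w .am := by simpa using hsq.xc
  -- the amplifier list
  set L := amL ps with hL
  have hLm : ∀ g ∈ L, g ∈ ps ∧ g.kd = .am := fun g hg => mem_amL.1 hg
  have hnl0 : ∀ g ∈ ps, 0 ≤ Dq.nl X g := fun g hg => div_nonneg (hgood g hg).2.2 hlog.le
  have hLs : ∀ g ∈ L, Dq.nl X g ≤ D / 4 := by
    intro g hg
    obtain ⟨h2, h3⟩ := hLm g hg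
    rcases hlump g h2 with h4 | h4
    · exact absurd h4.1 (by rw [h3]; simp)
    · exact h4
  have hLsum : (L.map (Dq.nl X)).sum = Dq.mass X ps .am := by
    have e1 := mass_kd (X := X) (ps := L) (κ := .am) (fun g hg => (hLm g hg).2) .am
    have e2 := mass_amL X ps .am
    rw [if_pos rfl] at e1 e2
    rw [← e1, hL, e2]
  have hSam := abs_le.1 (hmass .am)
  simp only at hSam
  have hS0 : 0 ≤ (L.map (Dq.nl X)).sum := List.sum_nonneg (by
    intro y hy
    obtain ⟨g, hg, rfl⟩ := List.mem_map.1 hy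
    exact hnl0 g (hLm g hg).1)
  obtain ⟨q₁, q₂, hq12, hq1, hq2⟩ := exists_prefix (Dq.nl X) L
    (fun g hg => hnl0 g (hLm g hg).1) hLs (by linarith) (min x (L.map (Dq.nl X)).sum)
    (le_min hx0 hS0) (min_le_right _ _)
  have hm1 : |(q₁.map (Dq.nl X)).sum - x| ≤ D / 2 := by
    rw [abs_le]
    constructor
    · have : x - D / 4 ≤ min x (L.map (Dq.nl X)).sum := le_min (by linarith) (by
        rw [hLsum]; linarith [hSam.1])
      linarith
    · linarith [hq2.trans (min_le_left _ _)]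
  set z := (q₁.map fun g => g.z).sum with hz
  have hzn : z / Real.log X = (q₁.map (Dq.nl X)).sum := by
    rw [hz]
    clear hq12 hq1 hq2 hm1 hz
    induction q₁ with
    | nil => simp
    | cons g gs ih =>
      simp only [List.map_cons, List.sum_cons]
      rw [add_div, ih]; rfl
  have hz0 : 0 ≤ z := by
    have h2 : 0 ≤ z / Real.log X := by
      rw [hzn]
      refine List.sum_nonneg ?_
      intro y hy
      obtain ⟨g, hg, rfl⟩ := List.mem_map.1 hy
      exact hnl0 g (hLm g (by rw [hq12]; exact List.mem_append_left _ hg)).1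
    rw [le_div_iff₀ hlog, zero_mul] at h2
    exact h2
  have hq1m : ∀ g ∈ q₁, g ∈ ps ∧ g.kd = .am := fun g hg =>
    hLm g (by rw [hq12]; exact List.mem_append_left _ hg)
  have hq2m : ∀ g ∈ q₂, g ∈ ps ∧ g.kd = .am := fun g hg =>
    hLm g (by rw [hq12]; exact List.mem_append_right _ hg)
  have hlens := length_moL ps
  rw [← hL, hq12, List.length_append] at hlens
  -- the windows
  have hwz : Win S5X (upX p x) (D / 2) N B ρ X (a.setz z) :=
    winX_setz (hw.mono hX1'.le (by linarith) le_rfl le_rfl le_rfl) (by rw [hzn]; exact hm1)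
  have hal' : ∀ g ∈ ps, Dq.lump g → (S5X.ev X (a.setz z), Dq.nl X g) ∈ alX := by
    intro g hg hgl
    have := hal g hg hgl
    exact this
  have hlump' : ∀ δ : ℝ, D ≤ δ → ∀ g ∈ ps, Dq.lump g ∨ Dq.nl X g ≤ δ := fun δ hδ g hg =>
    (hlump g hg).imp id fun h => h.trans (by linarith)
  have hsq' : (upX p x, w) ∈ liftD β (SqD A d) := ⟨by rw [prQ_upX]; exact hsq, hZR.upX x⟩
  -- the five bounds
  have b2 := L2 X x2 (a.setz z) ps hlen (hlump' _ hD2) (upX p x, w) hsq'
    (hwz.mono hX1'.le (by linarith) le_rfl le_rfl r2) (fun t => (hmass t).trans (by linarith))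
    (Good_mono hX1'.le hgood r2) hal'
  have b3 := L3 X x3 (a.setz z) ps hlen (hlump' _ hD3) (upX p x, w) hsq'
    (hwz.mono hX1'.le (by linarith) le_rfl le_rfl r3) (fun t => (hmass t).trans (by linarith))
    (Good_mono hX1'.le hgood r3) hal'
  have b4 := L4 X x4 (a.setz z) ps hlen (hlump' _ hD4) (upX p x, w) hsq'
    (hwz.mono hX1'.le (by linarith) le_rfl le_rfl r4) (fun t => (hmass t).trans (by linarith))
    (Good_mono hX1'.le hgood r4) hal'
  set v' : Kd → ℝ := fun t => match t with | .mo => 0 | .am => x with hv'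
  have b1 := L1 X x1 (a.setz z) q₁ (by omega)
    (fun g hg => (hlump' _ hD1 g (hq1m g hg).1)) (upX p x, v') ⟨by rw [prQ_upX]; exact ⟨⟨w, hsq⟩, rfl, by simp [hv']⟩, hZR.upX x⟩
    (hwz.mono hX1'.le (by linarith) le_rfl le_rfl r1) (fun t => by
      rw [mass_kd (κ := .am) (fun g hg => (hq1m g hg).2) t]
      cases t with
      | mo => simp [hv']; linarith
      | am => simp only [if_true, hv']; linarith)
    (Good_mono hX1'.le (fun g hg => hgood g (hq1m g hg).1) r1)
    (fun g hg hgl => absurd hgl.1 (by rw [(hq1m g hg).2]; simp))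
  set v : Kd → ℝ := fun t => match t with | .mo => w .mo | .am => w .am - x with hv
  have hmem5 : ∀ g ∈ moL ps ++ q₂, g ∈ ps := by
    intro g hg
    rcases List.mem_append.1 hg with h2 | h2
    · exact (mem_moL.1 h2).1
    · exact (hq2m g h2).1
  have hvN : (upX p x, v) ∈ liftD β (MoD A) := by
    refine ⟨?_, hZR.upX x⟩
    rw [prQ_upX]
    refine ⟨?_, ?_, ?_, ?_, hsq.κ31, ?_⟩
    · have e : (fun t : Kd => match t with
          | .mo => v .mo
          | .am => v .am + cx' (upx (prX p) x)) = w := by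
        funext t
        cases t
        · rfl
        · simp [hv]
      have h9 := hN.upx x
      rw [← e] at h9
      exact h9
    · simpa using hx0
    · simp only [hv]; linarith
    · have hκp : 0 < cκ (prX p) := hN.κpos
      have hadm := hsq.tl.adm.2.2
      simp only [cκ_upx, cN_upx, cx_upx] at hadm ⊢
      rcases hadm with h2 | h2
      · left
        rw [div_eq_zero_iff] at h2
        rcases h2 with h2 | h2
        · exact h2.le
        · exact absurd h2 hκp.ne'
      · right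
        rw [← add_div, div_le_iff₀ hκp] at h2
        exact h2
    · simpa [hv] using hsq.a12
  have b5 := L5 X x5 (a.setz z) (moL ps ++ q₂) (by rw [List.length_append]; omega)
    (fun g hg => (hlump' _ hD5 g (hmem5 g hg))) (upX p x, v) hvN
    (hwz.mono hX1'.le (by linarith) le_rfl le_rfl r5) (fun t => by
      rw [Pcs.mass_append, mass_moL, mass_kd (κ := .am) (fun g hg => (hq2m g hg).2) t]
      have hsum : (L.map (Dq.nl X)).sum = (q₁.map (Dq.nl X)).sum + (q₂.map (Dq.nl X)).sum := by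
        rw [hq12, List.map_append, List.sum_append]
      cases t with
      | mo =>
        have := hmass .mo
        simp only [if_true, hv] at this ⊢
        rw [if_neg (by simp)]
        simp only [add_zero]
        linarith
      | am =>
        rw [if_neg (by simp), if_pos rfl]
        simp only [hv, zero_add]
        have h3 := abs_le.1 hm1
        rw [hLsum] at hsum
        rw [abs_le]
        constructor <;> linarith [hSam.1, hSam.2, h3.1, h3.2])
    (Good_mono hX1'.le (fun g hg => hgood g (hmem5 g hg)) r5)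
    (fun g hg hgl => hal' g (hmem5 g hg) hgl)
  -- the family
  have hκw := abs_le.1 (hw.ev (.inl (.inl 0)))
  have hev0 : S5X.ev X a (.inl (.inl 0)) = a.l / Real.log X := by simp [S5X, S5]
  rw [hev0] at hκw
  change -(D / 4) ≤ a.l / Real.log X - cκ (prX p) ∧ a.l / Real.log X - cκ (prX p) ≤ D / 4 at hκw
  have hl1 : a.l / Real.log X ≤ 2 := by linarith [hκw.2]
  have hl0 : 0 ≤ a.l := by
    have h2 : 0 ≤ a.l / Real.log X := by linarith [hκw.1, hN.κ0]
    rw [le_div_iff₀ hlog, zero_mul] at h2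
    exact h2
  have hexp : Real.exp a.l ≤ X ^ (2 : ℝ) := by
    rw [Real.rpow_def_of_pos hXp, Real.exp_le_exp]
    rw [div_le_iff₀ hlog] at hl1
    linarith
  have hKx : Real.exp (a.l + R lam.1) ^ (ε / 8) ≤ Real.exp (R lam.1) ^ (ε / 8) * X ^ (ε / 4) := by
    rw [Real.exp_add, mul_comm, Real.mul_rpow (Real.exp_pos _).le (Real.exp_pos _).le]
    refine mul_le_mul_of_nonneg_left ?_ (by positivity)
    calc Real.exp a.l ^ (ε / 8) ≤ (X ^ (2 : ℝ)) ^ (ε / 8) :=
          Real.rpow_le_rpow (Real.exp_pos _).le hexp (by linarith)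
      _ = X ^ (ε / 4) := by rw [← Real.rpow_mul hXp.le]; congr 1; ring
  -- the error term
  have hkey := key_exp (v := v) (v' := v') hsq hd.le rfl (by simp only [hv, cx_upx])
  have hT5 : T5 (7 / 8 + d) (upx (prX p) x, w) = T5 (7 / 8 + d) (prX p, w) := by
    unfold T5; simp only [cκ_upx, cN_upx, cM_upx]
  rw [hT5] at hkey
  simp only [prQ_upX] at b1 b2 b3 b4 b5
  simp only [hT5] at b2 b3 b4
  set T := T5 (7 / 8 + d) (prX p, w) with hT
  have hsqrt : Real.sqrt (ErrX π h Sf R lam (a.setz z) q₁) *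
      Real.sqrt (MomX π h R lam (a.setz z) (moL ps ++ q₂)) ≤ X ^ (T - μ' + ε / 4) := by
    have s1 : Real.sqrt (ErrX π h Sf R lam (a.setz z) q₁) ≤
        X ^ ((E1x d (upx (prX p) x, v') + ε / 4) / 2) := by
      refine (Real.sqrt_le_sqrt b1).trans (le_of_eq ?_)
      rw [Real.sqrt_eq_rpow, ← Real.rpow_mul hXp.le]; congr 1; ring
    have s2 : Real.sqrt (MomX π h R lam (a.setz z) (moL ps ++ q₂)) ≤
        X ^ ((E2x d (upx (prX p) x, v) + ε / 4) / 2) := by
      refine (Real.sqrt_le_sqrt b5).trans (le_of_eq ?_)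
      rw [Real.sqrt_eq_rpow, ← Real.rpow_mul hXp.le]; congr 1; ring
    calc _ ≤ X ^ ((E1x d (upx (prX p) x, v') + ε / 4) / 2) * X ^ ((E2x d (upx (prX p) x, v) + ε / 4) / 2) :=
          mul_le_mul s1 s2 (Real.sqrt_nonneg _) (by positivity)
      _ = X ^ ((E1x d (upx (prX p) x, v') + E2x d (upx (prX p) x, v)) / 2 + ε / 4) := by
          rw [← Real.rpow_add hXp]; congr 1; ring
      _ ≤ _ := Real.rpow_le_rpow_of_exponent_le hX1'.le (by linarith)
  have hm4 : X ^ (T - μ + ε / 4) ≤ X ^ (T - μ' + ε / 4) :=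
    Real.rpow_le_rpow_of_exponent_le hX1'.le (by linarith)
  have hfin := key lam (hP lam.1) R (CU lam.1) (hCU lam.1) (hsupp lam.1) (hbd lam.1) Sf a ps q₁ q₂
    z hz0 (by linarith [hR lam.1]) hq12
  set Z := X ^ (T - μ' + ε / 4) with hZ
  have hZ0 : 0 ≤ Z := by positivity
  have hsum : Real.sqrt (ErrX π h Sf R lam (a.setz z) q₁) *
            Real.sqrt (MomX π h R lam (a.setz z) (moL ps ++ q₂)) +
          (TailCX π h R lam (a.setz z) ps + (TailSX π h Sf R lam (a.setz z) ps +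
            TailCX π h R lam (a.setz z) ps)) ≤ 4 * Z := by
    linarith [b4.trans hm4, b3.trans hm4]
  have hCUn : 0 ≤ CU lam.1 := by linarith [hCU lam.1]
  have hXe : 1 ≤ X ^ (ε / 4) := Real.one_le_rpow hX1'.le hε4.le
  calc PrimX π h lam a ps ≤ _ := hfin
    _ ≤ CU lam.1 * (C * (Real.exp (R lam.1) ^ (ε / 8) * X ^ (ε / 4)) * (4 * Z)) + Z := by
        refine add_le_add ?_ (b2.trans hm4)
        refine mul_le_mul_of_nonneg_left ?_ hCUn
        have hs0 : 0 ≤ 4 * Z := by linarith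
        exact mul_le_mul (mul_le_mul_of_nonneg_left hKx hC) hsum (by
          have t1 : 0 ≤ TailCX π h R lam (a.setz z) ps := by
            unfold TailCX
            split_ifs
            exacts [Finset.sum_nonneg fun _ _ => by positivity, le_rfl]
          have t2 : 0 ≤ TailSX π h Sf R lam (a.setz z) ps := by
            unfold TailSX
            split_ifs
            exacts [Finset.sum_nonneg fun _ _ => by positivity, le_rfl]
          positivity) (by positivity)
    _ = (4 * (CU lam.1 * C * Real.exp (R lam.1) ^ (ε / 8))) * X ^ (ε / 4) * Z + 1 * Z := by ring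
    _ ≤ (4 * (CU lam.1 * C * Real.exp (R lam.1) ^ (ε / 8))) * X ^ (ε / 4) * Z +
        X ^ (ε / 4) * Z := add_le_add le_rfl (mul_le_mul_of_nonneg_right hXe hZ0)
    _ = (4 * (CU lam.1 * C * Real.exp (R lam.1) ^ (ε / 8)) + 1) * X ^ (ε / 4) * Z := by ring
    _ ≤ X ^ (ε / 4) * X ^ (ε / 4) * Z :=
        mul_le_mul_of_nonneg_right (mul_le_mul_of_nonneg_right (L7 X x7) (by positivity)) hZ0
    _ ≤ X ^ (T - μ' + ε) := by
        rw [hZ, ← Real.rpow_add hXp, ← Real.rpow_add hXp]
        exact Real.rpow_le_rpow_of_exponent_le hX1'.le (by linarith)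

end

end Crest.Agent.R017.ExP960
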