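import Crest.Agent.R017.E5M_372
import Crest.Agent.R017.ExP1_960

/-!
# Row 17, P8 of the exceptional class: `MomUX` (helper372)

* `momUX_372` : the second moment of the two-lump side with a difference of two shapes
  (960's `MomUX`), from `momU_372` and helper61's `ymB` for the replaced pair (the pair has the
  same total length, and the closed form only sees the total length)
-/

set_option autoImplicit false

noncomputable section

open Set

namespace Crest.Agent.R017.E5M372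

open Crest.Agent.R012 Crest.Agent.R012.Eis
open Crest.Agent.R012.LS2 (bl mem_bl)
open Crest.Agent.R012.Weight600 (osc norm_osc)
open Crest.Agent.R017.CM106
open Crest.Agent.R017.FE47 (PU)
open Crest.Agent.R017.XG702 (Pcs BG)
open Crest.Agent.R017.XT71 (Sys Win)
open Crest.Agent.R017.UM71
open Crest.Agent.R017.HP842 (Pc pc)
open Crest.Agent.R017.B770 Crest.Agent.R017.Prov71
open Crest.Agent.R017.ER911 Crest.Agent.R017.ExpC702
open Crest.Agent.R017.E5B71 Crest.Agent.R017.YM61 Crest.Agent.R017.UBR61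
open Crest.Agent.R017.SU770 (tw1 CS_tw)
open Crest.Agent.R017.E5T54 Crest.Agent.R017.E5P571
open Crest.Agent.R017.ExBox960 Crest.Agent.R017.ExP960

variable {Λ : Type*} {π : Λ → DPar} {h : ℝ → ℝ}

/-- a piece with another length -/
def setz (p : Pq) (z : ℝ) : Pq := { p with z := z }

lemma Pt_setz (P : DPar) (t : Eis) (p : Pq) (z : ℝ) :
    Pt P t (setz p z) = ⟨(Pt P t p).u, (Pt P t p).ψ, Real.exp z, (Pt P t p).t⟩ := rfl

lemma norm_Dp_le (h : ℝ → ℝ) (p p' : Pc) (Z Z' : ℝ) (k : Eis) :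
    ‖Dp h p p' Z Z' k‖ ≤ ‖CS (pc h p) k‖ * ‖CS (pc h p') k‖ +
      ‖CS (pc h ⟨p.u, p.ψ, Z, p.t⟩) k‖ * ‖CS (pc h ⟨p'.u, p'.ψ, Z', p'.t⟩) k‖ := by
  unfold Dp Co
  refine (norm_sub_le _ _).trans (le_of_eq ?_)
  simp only [norm_mul, norm_osc, one_mul]

/-- the two shapes of the two-lump side -/
def shL (a : BdX) : List Pq := [a.us 0, a.us 1]

def shR (a : BdX) : List Pq := [setz (a.us 0) (a.zs 0), setz (a.us 1) (a.zs 1)]

lemma norm_BX_le (P : DPar) (t : Eis) (a : BdX) (ps : List Pq) (k : Eis) :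
    ‖BX h P t a k * PC h (ps.map (Pt P t)) k‖ ^ 2 ≤
      2 * (((shL a ++ ps).map (GG P h (t * k))).prod) ^ 2 +
        2 * (((shR a ++ ps).map (GG P h (t * k))).prod) ^ 2 := by
  have h1 := norm_Dp_le h (Pt P t (a.us 0)) (Pt P t (a.us 1)) (Real.exp (a.zs 0))
    (Real.exp (a.zs 1)) k
  rw [← Pt_setz, ← Pt_setz] at h1
  have g : ∀ p : Pq, ‖CS (pc h (Pt P t p)) k‖ = GG P h (t * k) p := by
    intro p
    unfold GG Pt
    rw [CS_tw]
  simp only [g] at h1
  have h2 : ‖BX h P t a k * PC h (ps.map (Pt P t)) k‖ ≤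
      ((shL a ++ ps).map (GG P h (t * k))).prod + ((shR a ++ ps).map (GG P h (t * k))).prod := by
    rw [norm_mul, norm_PC]
    have h3 : ‖BX h P t a k‖ ≤ GG P h (t * k) (a.us 0) * GG P h (t * k) (a.us 1) +
        GG P h (t * k) (setz (a.us 0) (a.zs 0)) * GG P h (t * k) (setz (a.us 1) (a.zs 1)) := h1
    refine (mul_le_mul_of_nonneg_right h3 (prodGG_nonneg _ _ _ _)).trans (le_of_eq ?_)
    simp only [shL, shR, List.cons_append, List.nil_append, List.map_cons, List.prod_cons]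
    ring
  have h4 := prodGG_nonneg P h (t * k) (shL a ++ ps)
  have h5 := prodGG_nonneg P h (t * k) (shR a ++ ps)
  calc _ ≤ (((shL a ++ ps).map (GG P h (t * k))).prod +
        ((shR a ++ ps).map (GG P h (t * k))).prod) ^ 2 :=
        pow_le_pow_left₀ (norm_nonneg _) h2 2
    _ ≤ _ := by
        nlinarith [sq_nonneg (((shL a ++ ps).map (GG P h (t * k))).prod -
          ((shR a ++ ps).map (GG P h (t * k))).prod)]

/-- **`MomX` in terms of the complete character side** -/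
theorem momX_le (R : Λ → ℝ) (lam : Λ × Eis) (a : BdX) (ps : List Pq) :
    MomX π h R lam a ps ≤ 2 * Rc (π lam.1) h (a.l + shf R lam) (shL a ++ ps) +
      2 * Rc (π lam.1) h (a.l + shf R lam) (shR a ++ ps) := by
  classical
  have n1 := Rc_nonneg (π lam.1) h (a.l + shf R lam) (shL a ++ ps)
  have n2 := Rc_nonneg (π lam.1) h (a.l + shf R lam) (shR a ++ ps)
  unfold MomX
  split_ifs with hc
  · have ht : lam.2 ≠ 0 := hc.2.1
    have key : ∀ qs : List Pq,
        ∑ k ∈ (PB (π lam.1).n ⌊Real.exp (a.l + R lam.1)⌋₊).filter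
          (fun k => (π lam.1).NP2 (lam.2 * k)), ((qs.map (GG (π lam.1) h (lam.2 * k))).prod) ^ 2 ≤
          Rc (π lam.1) h (a.l + shf R lam) qs := by
      intro qs
      have h1 := sum_PB_le (n := (π lam.1).n) ht (Y := a.l + R lam.1)
        (Q' := fun k => (π lam.1).NP2 (lam.2 * k)) (Q := (π lam.1).NP2) (fun k _ hk => hk)
        (F := fun k => ((qs.map (GG (π lam.1) h k)).prod) ^ 2)
        (fun k => by positivity)
      have e1 : a.l + R lam.1 + Real.log (nm lam.2) = a.l + shf R lam := by unfold shf; ring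
      rw [e1] at h1
      refine h1.trans (le_of_eq ?_)
      unfold Rc RQ
      refine Finset.sum_congr (by congr) fun k _ => ?_
      rw [sq_prod]
    refine (Finset.sum_le_sum fun k _ => norm_BX_le (π lam.1) lam.2 a ps k).trans ?_
    rw [Finset.sum_add_distrib, ← Finset.mul_sum, ← Finset.mul_sum]
    have k1 := key (shL a ++ ps)
    have k2 := key (shR a ++ ps)
    linarith
  · linarith

/-- the datum of the replaced pair -/
def toY2R (a : BdX) : Y2 := ⟨a.l, setz (a.us 0) (a.zs 0), setz (a.us 1) (a.zs 1)⟩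

/-- **`MomUX`** -/
theorem momUX_372 {c₀ d A β : ℝ} {r s : EF} (hpu : PU h c₀) (hP : ∀ lam, (π lam).OK)
    (R : ExpRules (7 / 8 + d) r s) (C : ExpC r (ex Dq (fun lam => Rc (π lam) h))) (hd : 0 ≤ d)
    (hA : 99 / 100 ≤ A) (hβ0 : 0 ≤ β) (hβ : β ≤ 2 / 5) : MomUX π h A d β := by
  intro Rf _
  have C' : ExpC r (ex Dq (fun lam : Λ × Eis => Rc (π lam.1) h)) :=
    expC_comp (XHB411.triv_Rc hP hpu) (fun lam : Λ × Eis => lam.1) C
  have hU := ymB (π := fun lam : Λ × Eis => π lam.1) hpu (fun lam => hP lam.1) (shf Rf) R C' hd 2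
  intro ε hε
  obtain ⟨δ, hδ, K⟩ := hU (ε / 2) (by linarith)
  refine ⟨δ / 3, by positivity, fun lam N B => ?_⟩
  obtain ⟨δ', hδ', X₀, hX₀, K'⟩ := K lam N B
  obtain ⟨X₁, hX₁, HX₁⟩ := XSup271.exists_X (C := 4) (by norm_num) (ε := ε / 2) (by linarith)
  refine ⟨δ', hδ', max X₀ X₁, lt_of_lt_of_le hX₀ (le_max_left _ _),
    fun X hX a ps h1 h2 q hq hw hm hg hl => ?_⟩
  have hXX : X₀ ≤ X := (le_max_left _ _).trans hX
  have hX4 := HX₁ X ((le_max_right _ _).trans hX)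
  have hX1 : (1 : ℝ) < X := by linarith
  have hX0 : (0 : ℝ) < X := by linarith
  have hL : 0 < Real.log X := Real.log_pos hX1
  by_cases hok : a.ok
  swap
  · have : MomX π h Rf lam a ps = 0 := by
      unfold MomX; rw [if_neg fun h' => hok h'.1]
    rw [this]
    exact Real.rpow_nonneg hX0.le _
  refine (momX_le Rf lam a ps).trans ?_
  obtain ⟨hq1, hZ⟩ := hq
  obtain ⟨p, hp⟩ : ∃ p, p = prX q.1 := ⟨_, rfl⟩
  have hq2 : (p, q.2) ∈ MoD A := by rw [hp]; exact hq1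
  have hpq : prQ q = (p, q.2) := by rw [hp]; rfl
  show _ ≤ X ^ (E2x d (prQ q) + ε)
  rw [hpq]
  have hwb : Win S5 p (δ / 3) N B δ' X a.toBd := by
    rw [hp]
    exact ⟨fun i => hw.ev (.inl i), hw.g, hw.n, hw.s₁, hw.s₂⟩
  unfold ZR at hZ
  rw [← hp] at hZ
  clear hp hpq hq1
  obtain ⟨hN, hx, ham, _, h31, h12⟩ := hq2
  obtain ⟨a1, a2, a3, a4, a5, a6, a7, a8, a9⟩ := hN
  obtain ⟨b1, b2, b3, b4⟩ := a3
  have hmo : 0 ≤ q.2 .mo := a4 .mo
  simp only at a6 a7 a9
  -- real facts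
  have hk : 0 < cκ p := by linarith
  have hAk : 99 / 100 * cκ p ≤ A * cκ p := mul_le_mul_of_nonneg_right hA hk.le
  have hNN : 297 / 400 * cκ p ≤ cN p := by
    unfold cN at a5 ⊢; linarith
  have hMN : 2 * cN p ≤ 3 * cM p := by unfold cN cM; linarith
  have hM : cM p = cu p 0 + cu p 1 := rfl
  have hu1 : 0 ≤ cu p 1 := by unfold cN at hNN; linarith
  have hu0 : 0 ≤ cu p 0 := by linarith
  have hM2 : cu p 0 + cu p 1 ≤ 2 := by linarith
  have hb := hZ 0
  have hb0 : 0 ≤ q.1 (.inr 0) := (mul_nonneg hβ0 hk.le).trans hb.1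
  have hb1 : q.1 (.inr 0) ≤ cM p := by linarith [hb.2]
  -- the two points
  have hDom : ∀ y₁ y₂ : ℝ, 0 ≤ y₁ → 0 ≤ y₂ → y₁ + y₂ = cM p →
      ((![cκ p, y₁, y₂] : Fin 3 → ℝ), q.2) ∈ DomB 2 := by
    intro y₁ y₂ hy1 hy2 hy
    refine ⟨⟨fun i => ?_, fun t => ?_⟩, ?_, ?_⟩
    · fin_cases i
      · exact ⟨hk.le, by simp; linarith⟩
      · exact ⟨hy1, by simp; linarith⟩
      · exact ⟨hy2, by simp; linarith⟩
    · cases t
      · exact ⟨hmo, by linarith⟩
      · exact ⟨ham, by simp only; linarith⟩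
    · show 27 * q.2 .mo ≤ 8 * (cκ p - (y₁ + y₂))
      linarith
    · show 5 * cκ p ≤ 14 * (y₁ + y₂)
      linarith
  have hgu := good_us hwb hok.base
  have ev0 := hwb.ev (.inr 0)
  have ev1 := hwb.ev (.inr 1)
  have evz := hw.ev (.inr 0)
  have hz1 : a.zs 1 / Real.log X = (a.us 0).z / Real.log X + (a.us 1).z / Real.log X -
      a.zs 0 / Real.log X := by
    rw [← add_div, ← sub_div]
    congr 1
    linarith [hok.s01]
  have hwL : Win S2 (![cκ p, cu p 0, cu p 1] : Fin 3 → ℝ) δ N B δ' X (toY2 a.toBd) := by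
    refine ⟨fun i => ?_, hw.g.trans ?_, hw.n, ?_, ?_⟩
    · fin_cases i
      · exact (hwb.ev (.inl 0)).trans (by linarith)
      · exact ev0.trans (by linarith)
      · exact ev1.trans (by linarith)
    · exact Real.rpow_le_rpow_of_exponent_le hX1.le (by linarith)
    · exact max_le (hgu 0).1 (hgu 1).1
    · exact max_le (hgu 0).2.1 (hgu 1).2.1
  have hwR : Win S2 (![cκ p, q.1 (.inr 0), cM p - q.1 (.inr 0)] : Fin 3 → ℝ) δ N B δ' X
      (toY2R a) := by
    refine ⟨fun i => ?_, hw.g.trans ?_, hw.n, ?_, ?_⟩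
    · fin_cases i
      · exact (hwb.ev (.inl 0)).trans (by linarith)
      · exact evz.trans (by linarith)
      · show |a.zs 1 / Real.log X - (cM p - q.1 (.inr 0))| ≤ δ
        rw [hz1]
        have e0 : |(a.us 0).z / Real.log X - cu p 0| ≤ δ / 3 := ev0
        have e1 : |(a.us 1).z / Real.log X - cu p 1| ≤ δ / 3 := ev1
        have e2 : |a.zs 0 / Real.log X - q.1 (.inr 0)| ≤ δ / 3 := evz
        rw [abs_le] at e0 e1 e2 ⊢
        constructor <;> linarith [e0.1, e0.2, e1.1, e1.2, e2.1, e2.2]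
    · exact Real.rpow_le_rpow_of_exponent_le hX1.le (by linarith)
    · exact max_le (hgu 0).1 (hgu 1).1
    · exact max_le (hgu 0).2.1 (hgu 1).2.1
  have d3 : δ / 3 ≤ δ := by linarith
  have hps : ∀ p ∈ ps, Dq.lump p ∨ Dq.nl X p ≤ δ := fun p hp => (h2 p hp).imp id fun h => h.trans d3
  have keyL := K' X hXX (toY2 a.toBd) ps h1 hps _ (hDom _ _ hu0 hu1 rfl) hwL
    (fun t => (hm t).trans d3) hg (fun _ _ _ => trivial)
  have keyR := K' X hXX (toY2R a) ps h1 hps _ (hDom _ _ hb0 (by linarith) (by ring)) hwR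
    (fun t => (hm t).trans d3) hg (fun _ _ _ => trivial)
  have e1 : YMFs (fun lam : Λ × Eis => π lam.1) h (shf Rf) lam (toY2 a.toBd) ps =
      Rc (π lam.1) h (a.l + shf Rf lam) (shL a ++ ps) := by
    unfold YMFs mkF
    rw [if_pos (show (toY2 a.toBd).ok from ⟨hok.base.1 0, hok.base.1 1⟩)]
    rfl
  have e2 : YMFs (fun lam : Λ × Eis => π lam.1) h (shf Rf) lam (toY2R a) ps =
      Rc (π lam.1) h (a.l + shf Rf lam) (shR a ++ ps) := by
    unfold YMFs mkF
    rw [if_pos (show (toY2R a).ok from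
      ⟨⟨(hok.base.1 0).1, hok.z0 0⟩, ⟨(hok.base.1 1).1, hok.z0 1⟩⟩)]
    rfl
  rw [e1] at keyL
  rw [e2] at keyR
  have eE : ∀ y₁ y₂ : ℝ, y₁ + y₂ = cM p →
      EB d (cκ p) (y₁ + y₂) (q.2 .mo) (q.2 .am) = E2x d (p, q.2) := by
    intro y₁ y₂ hy
    rw [hy]
    unfold EB E2x
    ring
  have fL : X ^ (EB d (cκ p) (cu p 0 + cu p 1) (q.2 .mo) (q.2 .am) + ε / 2) =
      X ^ (E2x d (p, q.2) + ε / 2) := by rw [eE _ _ rfl]
  have fR : X ^ (EB d (cκ p) (q.1 (.inr 0) + (cM p - q.1 (.inr 0))) (q.2 .mo) (q.2 .am) + ε / 2) =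
      X ^ (E2x d (p, q.2) + ε / 2) := by rw [eE _ _ (by ring)]
  have kL : Rc (π lam.1) h (a.l + shf Rf lam) (shL a ++ ps) ≤ X ^ (E2x d (p, q.2) + ε / 2) :=
    keyL.trans (le_of_eq fL)
  have kR : Rc (π lam.1) h (a.l + shf Rf lam) (shR a ++ ps) ≤ X ^ (E2x d (p, q.2) + ε / 2) :=
    keyR.trans (le_of_eq fR)
  calc _ ≤ 4 * X ^ (E2x d (p, q.2) + ε / 2) := by linarith
    _ ≤ X ^ (ε / 2) * X ^ (E2x d (p, q.2) + ε / 2) :=
        mul_le_mul_of_nonneg_right hX4 (Real.rpow_nonneg hX0.le _)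
    _ = X ^ (E2x d (p, q.2) + ε) := by rw [← Real.rpow_add hX0]; congr 1; ring

end Crest.Agent.R017.E5M372
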