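import Crest.Agent.R017.ExAbE_968
import Crest.Agent.R017.ExP2_960
import Crest.Agent.R017.E5D_71
import Crest.Agent.R017.E5C_372
import Crest.Agent.R017.MomX_372

/-!
# Row 17, exceptional class, absolute shapes (helper968), part F: `PrimUX` from its list-level inputs

* `natF_ub` : helper71's `bcU_of` for the natural shape
* `tailN_ub` : helper372's `tailN_372` for the tail over the `k` with `NP2`
* `primUX_E` : `P1X`, `StrUX`, `TailUX`, `TopC` and the coverage ==> `PrimUX`, `β = 17/100`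
-/

set_option autoImplicit false

noncomputable section

open Set Complex
open scoped ComplexConjugate

namespace Crest.Agent.R017.ExAb968

open Crest.Agent.R012 Crest.Agent.R012.Eis Crest.Agent.R012.Mob705
open Crest.Agent.R017.CM106 Crest.Agent.R017.FE47 Crest.Agent.R017.End699
open Crest.Agent.R017.XG702 (Pcs Good_mono)
open Crest.Agent.R017.XT71 (Sys Win mx one_le_mx le_mx)
open Crest.Agent.R017.UM71 Crest.Agent.R017.UBR61
open Crest.Agent.R017.HP842 (Pc pc)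
open Crest.Agent.R017.B770 Crest.Agent.R017.Prov71 Crest.Agent.R017.ER911
open Crest.Agent.R017.E5T54 Crest.Agent.R017.E5P571 Crest.Agent.R017.E5B71
open Crest.Agent.R017.ExBox960 Crest.Agent.R017.ExP960
open Crest.Agent.R017.BxE986 (allowed TopC AL)
open Crest.Agent.R017.Cone59 Crest.Agent.R017.CovM59 Crest.Agent.R017.CovBig954
open Crest.Agent.R017.R8C918 Crest.Agent.R017.ExpC702

section
variable {Λ : Type*} {π : Λ → DPar} {h : ℝ → ℝ}

lemma ofFn_mk5 (a : Bd) : List.ofFn a.us = mk5 a := by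
  simp [mk5, List.ofFn_succ]

/-- **the natural shape on the absolute boxes** -/
theorem natF_ub {c₀ : ℝ} (hpu : PU h c₀) (hP : ∀ lam, (π lam).OK) {A d μ : ℝ}
    (hA : 95 / 100 ≤ A) (hd : 0 < d) (hd1 : d ≤ 1 / 8)
    (H : AbsR A d (7 / 8 * d) μ (ex Dq (fun lam => Bc (π lam) h)))
    (cond : Λ × Eis → ℝ → Eis → Prop) (R : Λ → ℝ) :
    UB S5 Dq (NatF π h cond R) (AbD A d) al5 (fun q => T5 (7 / 8 + d) q - μ) := by
  have h1 := bcU_of hpu hP hA hd hd1 H (fun lam => R lam.1 + Real.log (nm lam.2))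
  have key : ∀ (lam : Λ × Eis) (a : Bd) (ps : List Pq), NatF π h cond R lam a ps ≤
      BcF π h (fun lam => R lam.1 + Real.log (nm lam.2)) lam a ps := by
    intro lam a ps
    by_cases hok : a.ok ∧ lam.2 ∈ SM (π lam.1).n
    · have h2 := natF_le_Bc (π := π) (h := h) cond R lam a ps hok.2.1
      unfold BcF mkF
      rw [if_pos (show V5 a from hok.1.1)]
      change NatF π h cond R lam a ps ≤
        Bc (π lam.1) h (a.l + (R lam.1 + Real.log (nm lam.2))) (mk5 a ++ ps)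
      rw [← ofFn_mk5]
      exact h2
    · have h0 : NatF π h cond R lam a ps = 0 := by unfold NatF; rw [if_neg hok]
      rw [h0]
      exact mkF_nonneg (fun lam l ps => TopC702.Bc_nonneg _ _ _ _) _ _ _
  intro ε hε
  obtain ⟨δ, hδ, K⟩ := h1 ε hε
  refine ⟨δ, hδ, fun lam N B => ?_⟩
  obtain ⟨δ', hδ', X₀, hX₀, K'⟩ := K lam N B
  exact ⟨δ', hδ', X₀, hX₀, fun X hX a ps h1 h2 q hq hw hm hg hl =>
    (key lam a ps).trans (K' X hX a ps h1 h2 q hq hw hm hg hl)⟩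

/-- **the tail over the `k` with `NP2`** -/
theorem tailN_ub {c₀ : ℝ} (hpu : PU h c₀) (hP : ∀ lam, (π lam).OK) {A d : ℝ} {r s : EF}
    (Ru : ExpRules (7 / 8 + d) r s) (C : ExpC r (ex Dq (fun lam => Rc (π lam) h))) (hd : 0 ≤ d)
    (hd1 : d ≤ 1 / 8) (hA : 99 / 100 ≤ A) (R : Λ → ℝ) :
    UB S5 Dq (TailN π h R) (SqD A d) al5 (fun q => T5 (7 / 8 + d) q - d / 9) :=
  E5M372.tailN_372 hpu hP Ru C hd hd1 hA le_rfl R

lemma ubX_mono {A' Pc' ι' τ' Λ' : Type*} [DecidableEq τ'] {S : Sys A' ι'} {D : Pcs Pc' τ'}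
    {Ψ : Λ' → A' → List Pc' → ℝ} {Dom : Set ((ι' → ℝ) × (τ' → ℝ))}
    {al : Set ((ι' → ℝ) × ℝ)} {E : (ι' → ℝ) × (τ' → ℝ) → ℝ} {μ μ' : ℝ} (hμ : μ' ≤ μ)
    (H : UB S D Ψ Dom al (fun q => E q - μ)) : UB S D Ψ Dom al (fun q => E q - μ') := by
  intro ε hε
  obtain ⟨δ, hδ, K⟩ := H ε hε
  refine ⟨δ, hδ, fun lam N B => ?_⟩
  obtain ⟨δ', hδ', X₀, hX₀, K'⟩ := K lam N B
  refine ⟨δ', hδ', X₀, hX₀, fun X hX a ps h1 h2 q hq hw hm hg hl =>
    (K' X hX a ps h1 h2 q hq hw hm hg hl).trans ?_⟩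
  exact Real.rpow_le_rpow_of_exponent_le (by linarith) (by linarith)

lemma topC_mono {θ g μ μ' : ℝ} {Al : ∀ n, Set (ℝ × (Fin n → ℝ))} (hμ : μ' ≤ μ)
    (H : TopC θ g μ Al π h) : TopC θ g μ' Al π h := by
  obtain ⟨δ, hδ, K⟩ := H
  refine ⟨δ, hδ, fun lam N B => ?_⟩
  obtain ⟨δ', hδ', X₀, hX₀, K'⟩ := K lam N B
  refine ⟨δ', hδ', X₀, hX₀, fun X hX k ps h1 h2 h3 hh q c a1 a2 a3 a4 a5 a6 a7 a8 a9 a10 a11 =>
    (K' X hX k ps h1 h2 h3 hh q c a1 a2 a3 a4 a5 a6 a7 a8 a9 a10 a11).trans ?_⟩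
  exact Real.rpow_le_rpow_of_exponent_le (by linarith) (by linarith)

/-- **the signed theorem over primary `k` for the double differences**, any class -/
theorem primUX_E {c₀ : ℝ} (hpu : PU h c₀) (hP : ∀ lam, (π lam).OK) {d : ℝ} (hd : 0 < d)
    (hd1 : d ≤ 1 / 8) {e₀ t₀ μc : ℝ} (ht0 : 0 ≤ t₀) (ht3 : t₀ ≤ 1 / 3) (hμc : 0 < μc)
    (he : 2 * e₀ + (2 * (7 / 8 + d) - 1) * t₀ + μc ≤ b2 (7 / 8 + d))
    (Hcov : ∀ r s s₀ rc bc : EF, ProvE (7 / 8 + d) r s s₀ rc bc → CoreL e₀ t₀ rc)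
    {r s s₀ : EF} (P : ProvE (7 / 8 + d) r s s₀ (ex Dq (fun lam => Rc (π lam) h))
      (ex Dq (fun lam => Bc (π lam) h))) {Sf : SFX Λ} {A μ : ℝ} (hA : A ≤ 1)
    (hA1 : 16 * (1 - A) ≤ d) (hA99 : 199 / 200 ≤ A) (hμ : 0 < μ) (h1 : P1X π h Sf A d (17 / 100))
    (h2 : StrUX π h (7 / 8 + d) Sf A d (17 / 100) μ)
    (h3 : TailUX π h (7 / 8 + d) Sf A d (17 / 100) μ)
    (hT : TopC (7 / 8 + d) (1 / 3) μ (AL (9 / 10) 1 ![0, 0, 1, 1, 2]) π h) :
    ∃ μ' : ℝ, 0 < μ' ∧ PrimUX π h (7 / 8 + d) A (17 / 100) μ' := by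
  have hS := nearS_of hd.le (by linarith) ht0 ht3 hμc.le he Hcov P (by linarith : 99 / 100 ≤ A)
  have hR := absR_of_nearS (by linarith) hS
  set μ₁ := min (d / 10) (2 / 5 * μc) with hμ₁
  have hμ₁0 : 0 < μ₁ := lt_min (by linarith) (by linarith)
  set μ₂ := min (min μ₁ (1 / 20)) (min μ (d / 9)) with hμ₂
  have hμ₂0 : 0 < μ₂ := lt_min (lt_min hμ₁0 (by norm_num)) (lt_min hμ (by linarith))
  have m1 : μ₂ ≤ μ₁ := (min_le_left _ _).trans (min_le_left _ _)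
  have m2 : μ₂ ≤ 1 / 20 := (min_le_left _ _).trans (min_le_right _ _)
  have m3 : μ₂ ≤ μ := (min_le_right _ _).trans (min_le_left _ _)
  have m4 : μ₂ ≤ d / 9 := (min_le_right _ _).trans (min_le_right _ _)
  have hT' := topC_mono m3 hT
  have hab : AbsUX π h (7 / 8 + d) A d (17 / 100) μ₂ := absUX_of hP hpu hd.le hA99 hA
    (fun R _ => ubX_mono m1 (natF_ub hpu hP (by linarith) hd (by linarith) hR cT R)) hT' m2
  have htc : TailCUX π h (7 / 8 + d) A d (17 / 100) μ₂ := tailCUX_of hP hpu hd.le hA99 hA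
    (fun R _ => ubX_mono m4 (tailN_ub hpu hP P.rules P.cpl hd.le (by linarith) (by linarith) R))
    hT' m2
  have h5 : MomUX π h A d (17 / 100) := E5M372.momUX_372 hpu hP P.rules P.cpl hd.le
    (by linarith) (by norm_num) (by norm_num)
  exact ⟨μ₂, hμ₂0, primUX_of hP hd (by linarith) hA hA1 h1 (ubX_mono m3 h2)
    (fun R hR' => ubX_mono m3 (h3 R hR')) htc h5 hab le_rfl m4⟩

end

end Crest.Agent.R017.ExAb968
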