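import Crest.Agent.R017.BoxEv_271
import Crest.Agent.R017.BxS_986

/-!
# Row 17, D.box, exceptional class: the top split (helper960)

* `rep c i i' a b`  : the scales `c` with the smooth scales `i, i'` replaced by `a, b`
* `GC_rep`          : the product of the pieces of the replaced box
* `D2`              : the difference of two shapes
* `GC_split`        : `GC c - GC c^A - GC c^B + GC c^{AB} = D2 * D2 * rest`
* `bxG`             : the `k`-sum of `DPar.bx` with an arbitrary function of `k`, `bx_eq_bxG`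
* `bxDD`, `bx_split`: `bx c = bxDD + bx c^A + bx c^B - bx c^{AB}`
-/

set_option autoImplicit false
set_option linter.unusedVariables false

noncomputable section

open MeasureTheory Complex Set
open scoped ComplexConjugate ContDiff

namespace Crest.Agent.R017.ExBox960

open Crest.Agent.R012 Crest.Agent.R012.Eis Crest.Agent.R012.Mob705 Crest.Agent.R012.Gauss880
open Crest.Agent.R012.LS2 (bl)
open Crest.Agent.R017.End699 Crest.Agent.R017.Sx440 Crest.Agent.R017.Sx545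
open Crest.Agent.R017.Asm986 Crest.Agent.R017.HB645 Crest.Agent.R017.HBS271
open Crest.Agent.R017.Sup271 Crest.Agent.R017.B770 Crest.Agent.R017.Bx986

/-! ### replaced scales -/

/-- the smooth scales `i, i'` are replaced by `a, b` -/
def rep {j : ℕ} (c : Fin (j - 1) ⊕ Fin j → ℕ) (i i' : Fin (j - 1)) (a b : ℕ) :
    Fin (j - 1) ⊕ Fin j → ℕ :=
  Function.update (Function.update c (Sum.inl i) a) (Sum.inl i') b

section rep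

variable {j : ℕ} (c : Fin (j - 1) ⊕ Fin j → ℕ) {i i' : Fin (j - 1)} (a b : ℕ)

lemma rep_inr (x : Fin j) : rep c i i' a b (Sum.inr x) = c (Sum.inr x) := by
  unfold rep
  rw [Function.update_of_ne (by simp), Function.update_of_ne (by simp)]

lemma rep_fst (h : i ≠ i') : rep c i i' a b (Sum.inl i) = a := by
  unfold rep
  rw [Function.update_of_ne (by simpa using h), Function.update_self]

lemma rep_snd : rep c i i' a b (Sum.inl i') = b := by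
  unfold rep
  rw [Function.update_self]

lemma rep_ne {x : Fin (j - 1)} (h : x ≠ i) (h' : x ≠ i') :
    rep c i i' a b (Sum.inl x) = c (Sum.inl x) := by
  unfold rep
  rw [Function.update_of_ne (by simpa using h'), Function.update_of_ne (by simpa using h)]

/-- products over the smooth pieces -/
lemma prod_rep {M : Type*} [CommMonoid M] (f : ℕ → M) (h : i ≠ i') (S : Finset (Fin (j - 1)))
    (hi : i ∈ S) (hi' : i' ∈ S) :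
    ∏ x ∈ S, f (rep c i i' a b (Sum.inl x)) =
      f a * f b * ∏ x ∈ (S.erase i).erase i', f (c (Sum.inl x)) := by
  rw [← Finset.mul_prod_erase S _ hi, ← Finset.mul_prod_erase (S.erase i) _
    (Finset.mem_erase.2 ⟨h.symm, hi'⟩), rep_fst c a b h, rep_snd, mul_assoc]
  congr 2
  refine Finset.prod_congr rfl fun x hx => ?_
  rw [Finset.mem_erase, Finset.mem_erase] at hx
  rw [rep_ne c a b hx.2.1 hx.1]

lemma sum_rep (h : i ≠ i') (f : ℕ → ℝ) :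
    ∑ x, f (rep c i i' a b (Sum.inl x)) =
      f a + f b + ∑ x ∈ (Finset.univ.erase i).erase i', f (c (Sum.inl x)) := by
  rw [← Finset.add_sum_erase Finset.univ _ (Finset.mem_univ i),
    ← Finset.add_sum_erase (Finset.univ.erase i) _
      (Finset.mem_erase.2 ⟨h.symm, Finset.mem_univ _⟩), rep_fst c a b h, rep_snd, add_assoc]
  congr 2
  refine Finset.sum_congr rfl fun x hx => ?_
  rw [Finset.mem_erase, Finset.mem_erase] at hx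
  rw [rep_ne c a b hx.2.1 hx.1]

lemma rep_self : rep c i i' (c (Sum.inl i)) (c (Sum.inl i')) = c := by
  funext x
  rcases x with x | x
  · by_cases h : x = i'
    · subst h; rw [rep_snd]
    · by_cases h2 : x = i
      · subst h2; rw [rep_fst c _ _ h]
      · rw [rep_ne c _ _ h2 h]
  · rw [rep_inr]

end rep

/-! ### the product of the pieces -/

/-- the pieces of the box except the smooth ones in `S` -/
def GCr (ψ : Eis → ℂ) (z : ℝ) {j : ℕ} (c : Fin (j - 1) ⊕ Fin j → ℕ) (S : Finset (Fin (j - 1))) :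
    ℂ :=
  (∏ i ∈ Finset.univ \ S, PS ψ (c (Sum.inl i)) 0) * ∏ i, PM ψ z (c (Sum.inr i)) 0

/-- the difference of two shapes -/
def D2 (ψ : Eis → ℂ) (m m' a b : ℕ) : ℂ := PS ψ m 0 * PS ψ m' 0 - PS ψ a 0 * PS ψ b 0

lemma GC_rep (ψ : Eis → ℂ) (z : ℝ) {j : ℕ} (c : Fin (j - 1) ⊕ Fin j → ℕ) {i i' : Fin (j - 1)}
    (h : i ≠ i') (a b : ℕ) :
    GC ψ z (rep c i i' a b) 0 = PS ψ a 0 * PS ψ b 0 * GCr ψ z c {i, i'} := by
  unfold GC GCr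
  rw [prod_rep c a b (fun n => PS ψ n 0) h Finset.univ (Finset.mem_univ _) (Finset.mem_univ _)]
  have e : (Finset.univ.erase i).erase i' = Finset.univ \ ({i, i'} : Finset (Fin (j - 1))) := by
    ext x
    simp only [Finset.mem_erase, Finset.mem_univ, Finset.mem_sdiff, Finset.mem_insert,
      Finset.mem_singleton]
    tauto
  rw [e]
  simp only [rep_inr]
  ring

lemma GC_rep' (ψ : Eis → ℂ) (z : ℝ) {j : ℕ} (c : Fin (j - 1) ⊕ Fin j → ℕ) {i i' : Fin (j - 1)}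
    (h : i ≠ i') :
    GC ψ z c 0 = PS ψ (c (Sum.inl i)) 0 * PS ψ (c (Sum.inl i')) 0 * GCr ψ z c {i, i'} := by
  have := GC_rep ψ z c h (c (Sum.inl i)) (c (Sum.inl i'))
  rwa [rep_self] at this

/-- the remaining pieces of a replaced box -/
lemma GCr_rep (ψ : Eis → ℂ) (z : ℝ) {j : ℕ} (c : Fin (j - 1) ⊕ Fin j → ℕ)
    {i₀ i₁ i₂ i₃ : Fin (j - 1)} (h01 : i₀ ≠ i₁) (h23 : i₂ ≠ i₃) (h02 : i₀ ≠ i₂) (h03 : i₀ ≠ i₃)
    (h12 : i₁ ≠ i₂) (h13 : i₁ ≠ i₃) (a b : ℕ) :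
    GCr ψ z (rep c i₂ i₃ a b) {i₀, i₁} = PS ψ a 0 * PS ψ b 0 * GCr ψ z c {i₀, i₁, i₂, i₃} := by
  unfold GCr
  rw [prod_rep c a b (fun n => PS ψ n 0) h23 (Finset.univ \ {i₀, i₁})
    (by simp [h02.symm, h12.symm]) (by simp [h03.symm, h13.symm])]
  have e : ((Finset.univ \ ({i₀, i₁} : Finset (Fin (j - 1)))).erase i₂).erase i₃ =
      Finset.univ \ ({i₀, i₁, i₂, i₃} : Finset (Fin (j - 1))) := by
    ext x
    simp only [Finset.mem_erase, Finset.mem_univ, Finset.mem_sdiff, Finset.mem_insert,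
      Finset.mem_singleton]
    tauto
  rw [e]
  simp only [rep_inr]
  ring

lemma GCr_pair (ψ : Eis → ℂ) (z : ℝ) {j : ℕ} (c : Fin (j - 1) ⊕ Fin j → ℕ)
    {i₀ i₁ i₂ i₃ : Fin (j - 1)} (h01 : i₀ ≠ i₁) (h23 : i₂ ≠ i₃) (h02 : i₀ ≠ i₂) (h03 : i₀ ≠ i₃)
    (h12 : i₁ ≠ i₂) (h13 : i₁ ≠ i₃) :
    GCr ψ z c {i₀, i₁} =
      PS ψ (c (Sum.inl i₂)) 0 * PS ψ (c (Sum.inl i₃)) 0 * GCr ψ z c {i₀, i₁, i₂, i₃} := by
  have := GCr_rep ψ z c h01 h23 h02 h03 h12 h13 (c (Sum.inl i₂)) (c (Sum.inl i₃))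
  rwa [rep_self] at this

/-- **the double difference** -/
theorem GC_split (ψ : Eis → ℂ) (z : ℝ) {j : ℕ} (c : Fin (j - 1) ⊕ Fin j → ℕ)
    {i₀ i₁ i₂ i₃ : Fin (j - 1)} (h01 : i₀ ≠ i₁) (h23 : i₂ ≠ i₃) (h02 : i₀ ≠ i₂) (h03 : i₀ ≠ i₃)
    (h12 : i₁ ≠ i₂) (h13 : i₁ ≠ i₃) (a b a' b' : ℕ) :
    GC ψ z c 0 = D2 ψ (c (Sum.inl i₀)) (c (Sum.inl i₁)) a' b' *
        D2 ψ (c (Sum.inl i₂)) (c (Sum.inl i₃)) a b * GCr ψ z c {i₀, i₁, i₂, i₃} +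
      GC ψ z (rep c i₂ i₃ a b) 0 + GC ψ z (rep c i₀ i₁ a' b') 0 -
        GC ψ z (rep (rep c i₂ i₃ a b) i₀ i₁ a' b') 0 := by
  rw [GC_rep ψ z (rep c i₂ i₃ a b) h01 a' b', GCr_rep ψ z c h01 h23 h02 h03 h12 h13 a b,
    GC_rep ψ z c h01 a' b', GC_rep ψ z c h23 a b, GC_rep' ψ z c h01,
    GCr_pair ψ z c h01 h23 h02 h03 h12 h13]
  have e : GCr ψ z c {i₂, i₃} =
      PS ψ (c (Sum.inl i₀)) 0 * PS ψ (c (Sum.inl i₁)) 0 * GCr ψ z c {i₀, i₁, i₂, i₃} := by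
    rw [GCr_pair ψ z c h23 h01 h02.symm h12.symm h03.symm h13.symm]
    congr 2
    ext x
    simp only [Finset.mem_insert, Finset.mem_singleton]
    tauto
  rw [e]
  unfold D2
  ring

/-! ### the sum over `k` -/

open Classical in
/-- the `k`-sum of `DPar.bx` with an arbitrary function of `k`; condition `N k` on `k` -/
def bxG (P : DPar) (N : Eis → Prop) (r : ℕ) (y Q₀ κ : ℝ) (J : Finset (Fin r)) (H : ℝ)
    (d₁ d₃ e : Eis) (t₁ τ : ℝ) (G : Eis → ℂ) (q : Eis) : ℂ :=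
  ∑' k : Eis, if k ≠ 0 ∧ q ^ 2 ∣ k ∧ N k then
    P.wk τ H k * (prin0 d₃ k * sy k e) * (P.am r y Q₀ κ J d₁ t₁ k * G k) else 0

lemma bx_eq_bxG (P : DPar) (r : ℕ) (y Q₀ κ : ℝ) (J : Finset (Fin r)) (H : ℝ)
    (d₁ d₂ d₃ e : Eis) (t₁ t₂ τ z : ℝ) {j : ℕ} (c : Fin (j - 1) ⊕ Fin j → ℕ) (q : Eis) :
    P.bx r y Q₀ κ J H d₁ d₂ d₃ e t₁ t₂ τ z c q =
      bxG P P.NP2 r y Q₀ κ J H d₁ d₃ e t₁ τ (fun k => GC (P.ch d₂ t₂ k) z c 0) q := rfl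

open Classical in
/-- the sum over `k` is a finite sum -/
lemma bxG_eq (P : DPar) (N : Eis → Prop) {β : ℝ} (hβ : 0 < β) (hβU : ∀ x, β < x → P.U x = 0)
    (r : ℕ) (y Q₀ κ : ℝ) (J : Finset (Fin r)) {H : ℝ} (hH : 0 < H)
    (d₁ d₃ e : Eis) (t₁ τ : ℝ) (G : Eis → ℂ) (q : Eis) :
    bxG P N r y Q₀ κ J H d₁ d₃ e t₁ τ G q =
      ∑ k ∈ bl (β * H), if q ^ 2 ∣ k ∧ N k then
        P.wk τ H k * (prin0 d₃ k * sy k e) * (P.am r y Q₀ κ J d₁ t₁ k * G k) else 0 := by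
  have hβH : 0 < β * H := mul_pos hβ hH
  unfold bxG
  rw [tsum_eq_sum (s := bl (β * H))]
  · refine Finset.sum_congr rfl fun k hk => ?_
    rw [mem_bl' hβH.le] at hk
    by_cases hc : q ^ 2 ∣ k ∧ N k
    · rw [if_pos ⟨hk.2, hc⟩, if_pos hc]
    · rw [if_neg fun h => hc h.2, if_neg hc]
  · intro k hk
    split_ifs with hc
    · have h2 : β * H < nm k := by
        by_contra h3
        exact hk ((mem_bl' hβH.le).2 ⟨not_lt.1 h3, hc.1⟩)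
      have h3 : P.U (nm k / H) = 0 := hβU _ (by rwa [lt_div_iff₀ hH])
      unfold DPar.wk
      rw [h3]
      simp
    · rfl

lemma bxG_add {P : DPar} (hP : P.OK) (N : Eis → Prop) (r : ℕ) (y Q₀ κ : ℝ) (J : Finset (Fin r))
    {H : ℝ} (hH : 0 < H) (d₁ d₃ e : Eis) (t₁ τ : ℝ) (F G : Eis → ℂ) (q : Eis) :
    bxG P N r y Q₀ κ J H d₁ d₃ e t₁ τ (fun k => F k + G k) q =
      bxG P N r y Q₀ κ J H d₁ d₃ e t₁ τ F q + bxG P N r y Q₀ κ J H d₁ d₃ e t₁ τ G q := by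
  classical
  obtain ⟨β, hβ, hβU⟩ := exists_supp hP.U
  rw [bxG_eq P N hβ hβU _ _ _ _ _ hH, bxG_eq P N hβ hβU _ _ _ _ _ hH,
    bxG_eq P N hβ hβU _ _ _ _ _ hH, ← Finset.sum_add_distrib]
  refine Finset.sum_congr rfl fun k _ => ?_
  split_ifs
  · ring
  · simp

lemma bxG_sub {P : DPar} (hP : P.OK) (N : Eis → Prop) (r : ℕ) (y Q₀ κ : ℝ) (J : Finset (Fin r))
    {H : ℝ} (hH : 0 < H) (d₁ d₃ e : Eis) (t₁ τ : ℝ) (F G : Eis → ℂ) (q : Eis) :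
    bxG P N r y Q₀ κ J H d₁ d₃ e t₁ τ (fun k => F k - G k) q =
      bxG P N r y Q₀ κ J H d₁ d₃ e t₁ τ F q - bxG P N r y Q₀ κ J H d₁ d₃ e t₁ τ G q := by
  classical
  obtain ⟨β, hβ, hβU⟩ := exists_supp hP.U
  rw [bxG_eq P N hβ hβU _ _ _ _ _ hH, bxG_eq P N hβ hβU _ _ _ _ _ hH,
    bxG_eq P N hβ hβU _ _ _ _ _ hH, ← Finset.sum_sub_distrib]
  refine Finset.sum_congr rfl fun k _ => ?_
  split_ifs
  · ring
  · simp

/-- the box sum with two differences of shapes: `(i₀, i₁) → (a', b')`, `(i₂, i₃) → (a, b)` -/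
def bxDD (P : DPar) (N : Eis → Prop) (r : ℕ) (y Q₀ κ : ℝ) (J : Finset (Fin r)) (H : ℝ)
    (d₁ d₂ d₃ e : Eis) (t₁ t₂ τ z : ℝ) {j : ℕ} (c : Fin (j - 1) ⊕ Fin j → ℕ)
    (i₀ i₁ i₂ i₃ : Fin (j - 1)) (a b a' b' : ℕ) (q : Eis) : ℂ :=
  bxG P N r y Q₀ κ J H d₁ d₃ e t₁ τ (fun k =>
    D2 (P.ch d₂ t₂ k) (c (Sum.inl i₀)) (c (Sum.inl i₁)) a' b' *
      D2 (P.ch d₂ t₂ k) (c (Sum.inl i₂)) (c (Sum.inl i₃)) a b *
        GCr (P.ch d₂ t₂ k) z c {i₀, i₁, i₂, i₃}) q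

/-- **the split of the box sum** -/
theorem bx_split {P : DPar} (hP : P.OK) (r : ℕ) (y Q₀ κ : ℝ) (J : Finset (Fin r))
    {H : ℝ} (hH : 0 < H) (d₁ d₂ d₃ e : Eis) (t₁ t₂ τ z : ℝ) {j : ℕ}
    (c : Fin (j - 1) ⊕ Fin j → ℕ) {i₀ i₁ i₂ i₃ : Fin (j - 1)} (h01 : i₀ ≠ i₁) (h23 : i₂ ≠ i₃)
    (h02 : i₀ ≠ i₂) (h03 : i₀ ≠ i₃) (h12 : i₁ ≠ i₂) (h13 : i₁ ≠ i₃) (a b a' b' : ℕ) (q : Eis) :
    P.bx r y Q₀ κ J H d₁ d₂ d₃ e t₁ t₂ τ z c q =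
      bxDD P P.NP2 r y Q₀ κ J H d₁ d₂ d₃ e t₁ t₂ τ z c i₀ i₁ i₂ i₃ a b a' b' q +
      P.bx r y Q₀ κ J H d₁ d₂ d₃ e t₁ t₂ τ z (rep c i₂ i₃ a b) q +
      P.bx r y Q₀ κ J H d₁ d₂ d₃ e t₁ t₂ τ z (rep c i₀ i₁ a' b') q -
      P.bx r y Q₀ κ J H d₁ d₂ d₃ e t₁ t₂ τ z (rep (rep c i₂ i₃ a b) i₀ i₁ a' b') q := by
  rw [bx_eq_bxG, bx_eq_bxG, bx_eq_bxG, bx_eq_bxG, bxDD, ← bxG_add hP _ _ _ _ _ _ hH,
    ← bxG_add hP _ _ _ _ _ _ hH, ← bxG_sub hP _ _ _ _ _ _ hH]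
  congr 1
  funext k
  exact GC_split (P.ch d₂ t₂ k) z c h01 h23 h02 h03 h12 h13 a b a' b'

/-- the norm form -/
theorem norm_bx_le {P : DPar} (hP : P.OK) (r : ℕ) (y Q₀ κ : ℝ) (J : Finset (Fin r))
    {H : ℝ} (hH : 0 < H) (d₁ d₂ d₃ e : Eis) (t₁ t₂ τ z : ℝ) {j : ℕ}
    (c : Fin (j - 1) ⊕ Fin j → ℕ) {i₀ i₁ i₂ i₃ : Fin (j - 1)} (h01 : i₀ ≠ i₁) (h23 : i₂ ≠ i₃)
    (h02 : i₀ ≠ i₂) (h03 : i₀ ≠ i₃) (h12 : i₁ ≠ i₂) (h13 : i₁ ≠ i₃) (a b a' b' : ℕ) (q : Eis) :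
    ‖P.bx r y Q₀ κ J H d₁ d₂ d₃ e t₁ t₂ τ z c q‖ ≤
      ‖bxDD P P.NP2 r y Q₀ κ J H d₁ d₂ d₃ e t₁ t₂ τ z c i₀ i₁ i₂ i₃ a b a' b' q‖ +
      ‖P.bx r y Q₀ κ J H d₁ d₂ d₃ e t₁ t₂ τ z (rep c i₂ i₃ a b) q‖ +
      ‖P.bx r y Q₀ κ J H d₁ d₂ d₃ e t₁ t₂ τ z (rep c i₀ i₁ a' b') q‖ +
      ‖P.bx r y Q₀ κ J H d₁ d₂ d₃ e t₁ t₂ τ z (rep (rep c i₂ i₃ a b) i₀ i₁ a' b') q‖ := by
  rw [bx_split hP r y Q₀ κ J hH d₁ d₂ d₃ e t₁ t₂ τ z c h01 h23 h02 h03 h12 h13 a b a' b' q]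
  refine (norm_sub_le _ _).trans (add_le_add (((norm_add_le _ _).trans ?_)) le_rfl)
  exact add_le_add (norm_add_le _ _) le_rfl

end Crest.Agent.R017.ExBox960
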