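import Crest.Agent.R017.ExBox1_960
import Crest.Agent.R017.BxE3_986

/-!
# Row 17, D.box, exceptional class: definitions of the reduction (helper960)

* `Top5 A H c s`    : `s` = the five largest smooth pieces, near-equal
* `BOX3d`, `EvDD`   : the box inequality for the double differences `bxDD`
-/

set_option autoImplicit false
set_option linter.unusedVariables false

noncomputable section

open MeasureTheory Complex Set Filter Topology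
open scoped ComplexConjugate ContDiff

namespace Crest.Agent.R017.ExBox960

open Crest.Agent.R012 Crest.Agent.R012.Eis Crest.Agent.R012.Mob705 Crest.Agent.R012.Gauss880
open Crest.Agent.R012.LS2 (bl)
open Crest.Agent.R017.End699 Crest.Agent.R017.Sx440 Crest.Agent.R017.Sx545
open Crest.Agent.R017.Asm986 Crest.Agent.R017.HB645 Crest.Agent.R017.HBS271
open Crest.Agent.R017.Sup271 Crest.Agent.R017.B770 Crest.Agent.R017.Bx986

/-- weights of the near-equal condition -/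
def w5 : Fin 5 → ℝ := ![0, 0, 1, 1, 2]

/-- the five largest smooth pieces of a near-equal box -/
structure Top5 (A H : ℝ) {j : ℕ} (c : Fin (j - 1) ⊕ Fin j → ℕ) (s : Fin 5 → Fin (j - 1)) :
    Prop where
  inj : Function.Injective s
  anti : ∀ a b, a ≤ b → c (.inl (s b)) ≤ c (.inl (s a))
  top : ∀ i, i ∉ Set.range s → c (.inl i) ≤ c (.inl (s 4))
  near : A * Real.log H ≤ ∑ i, w5 i * (c (.inl (s i)) : ℝ)

/-- **the box inequality for the double differences** of the near-equal boxes;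
`N P k` : condition on `k` (`P.NP2 k` or `True`); short scale `⌊β log H⌋` -/
def BOX3d (θ : ℝ) (r : ℕ) (y δ η : ℝ) (L : ℕ) (Pk : DPar → Prop) (N : DPar → Eis → Prop)
    (a₀ A β : ℝ) : Prop :=
  ∀ P : DPar, P.OK → Pk P → ∀ ε C₁ : ℝ, 0 < ε → 0 < C₁ → ∃ C A' X₀ : ℝ, 0 ≤ C ∧ 0 ≤ A' ∧
    ∀ (Q₀ Q : ℝ), 1 ≤ Q → Q ≤ Q₀ → ∀ κ : ℝ, -1 ≤ κ → κ ≤ δ * Real.log Q₀ →
    ∀ (J : Finset (Fin r)) (H : ℝ), 0 < H → H ≤ Q₀ ^ (1 / 2 + (y + δ) + η) →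
    ∀ d₁ d₂ d₃ e : Eis, d₁ ≠ 0 → d₂ ≠ 0 → d₃ ≠ 0 → Sm P.n e →
      (∀ p : Eis, Prime p → p ∣ e → p ^ 5 ∣ e) →
      Q * nm e ≤ C₁ * Q₀ * (CJ r y Q₀ J * Real.exp κ / Q₀ ^ (y + δ)) →
    ∀ (t₁ t₂ τ : ℝ) (𝒟 : Finset Eis), (∀ q ∈ 𝒟, Sm P.n q ∧ Squarefree q) →
    ∀ u : Eis → ℝ, (∀ q, 0 ≤ u q ∧ u q ≤ C₁) →
    ∀ z : ℕ, 1 ≤ z → Real.log z ≤ Real.log Q / L + C₁ →
    ∀ j : ℕ, 1 ≤ j → j ≤ L → ∀ c : Fin (j - 1) ⊕ Fin j → ℕ,
      |∑ i, (c (Sum.inl i) : ℝ) + ∑ i, (c (Sum.inr i) : ℝ) - Real.log Q| ≤ C₁ →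
      (∀ i : Fin j, (c (Sum.inr i) : ℝ) ≤ Real.log Q / L + C₁) →
      X₀ ≤ Real.log H → a₀ * ((1 / 2 + y) * Real.log Q₀) ≤ Real.log H →
      ∀ s : Fin 5 → Fin (j - 1), Top5 A H c s →
      ∑ q ∈ 𝒟, ‖bxDD P (N P) r y Q₀ (κ - u q) J H d₁ d₂ d₃ e t₁ t₂ τ z c
          (s 0) (s 1) (s 2) (s 3)
          ⌊β * Real.log H⌋₊ (c (.inl (s 2)) + c (.inl (s 3)) - ⌊β * Real.log H⌋₊)
          ⌊β * Real.log H⌋₊ (c (.inl (s 0)) + c (.inl (s 1)) - ⌊β * Real.log H⌋₊) q‖ ≤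
        C * ((nm d₁ : ℝ) * nm d₂ * nm d₃ * nm e * Q₀) ^ ε * (1 + |t₁| + |t₂| + |τ|) ^ A' *
          TgB θ η (if δ / 2 * Real.log Q₀ ≤ κ then η else -η) (y + δ) Q₀ Q H
            (CJ r y Q₀ J * Real.exp κ)

/-- the inequality for the double differences, for all large `r`, small `δ`, small `η`, large `L` -/
def EvDD (θ y : ℝ) (Pk : DPar → Prop) (N : DPar → Eis → Prop) (a₀ A β : ℝ) : Prop :=
  ∀ᶠ r : ℕ in atTop, ∀ᶠ δ : ℝ in 𝓝[>] 0, ∀ᶠ η : ℝ in 𝓝[>] 0, ∀ᶠ L : ℕ in atTop,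
    BOX3d θ r y δ η L Pk N a₀ A β

end Crest.Agent.R017.ExBox960
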