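import Crest.Agent.R017.ExBox2_960

/-!
# Row 17, D.box, exceptional class: combinatorics of the replaced scales (helper960)

* `exists_three`, `exists_top5` : order statistics
* `near_A`, `near_B`, `near_AB` : the replaced scales are not near-equal
-/

set_option autoImplicit false
set_option linter.unusedVariables false
set_option linter.unusedSectionVars false

noncomputable section

open Set

namespace Crest.Agent.R017.ExBox960

section order

variable {ι : Type*}

/-- three of five distinct indices avoid two given ones -/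
lemma exists_three {v : ι → ℝ} {s : Fin 5 → ι} (hs : Function.Injective s)
    (ha : ∀ a b, a ≤ b → v (s b) ≤ v (s a)) (a b : ι) :
    ∃ e f g : ι, e ≠ f ∧ e ≠ g ∧ f ≠ g ∧ (e ≠ a ∧ e ≠ b) ∧ (f ≠ a ∧ f ≠ b) ∧ (g ≠ a ∧ g ≠ b) ∧
      v g ≤ v f ∧ v f ≤ v e ∧ v (s 2) + v (s 3) + 2 * v (s 4) ≤ v e + v f + 2 * v g := by
  classical
  set F : Finset (Fin 5) := Finset.univ.filter fun i => s i ≠ a ∧ s i ≠ b with hF
  have hcard : 3 ≤ F.card := by
    have h1 : (Finset.univ.filter fun i => s i = a).card ≤ 1 := by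
      rw [Finset.card_le_one]
      intro x hx y hy
      rw [Finset.mem_filter] at hx hy
      exact hs (hx.2.trans hy.2.symm)
    have h2 : (Finset.univ.filter fun i => s i = b).card ≤ 1 := by
      rw [Finset.card_le_one]
      intro x hx y hy
      rw [Finset.mem_filter] at hx hy
      exact hs (hx.2.trans hy.2.symm)
    have h3 : (Finset.univ : Finset (Fin 5)) ⊆ F ∪ ((Finset.univ.filter fun i => s i = a) ∪
        (Finset.univ.filter fun i => s i = b)) := by
      intro x _
      rw [hF, Finset.mem_union, Finset.mem_union, Finset.mem_filter, Finset.mem_filter,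
        Finset.mem_filter]
      by_cases h1 : s x = a
      · exact Or.inr (Or.inl ⟨Finset.mem_univ _, h1⟩)
      by_cases h2 : s x = b
      · exact Or.inr (Or.inr ⟨Finset.mem_univ _, h2⟩)
      exact Or.inl ⟨Finset.mem_univ _, h1, h2⟩
    have h4 := Finset.card_le_card h3
    have h5 := Finset.card_union_le F ((Finset.univ.filter fun i => s i = a) ∪
        (Finset.univ.filter fun i => s i = b))
    have h6 := Finset.card_union_le (Finset.univ.filter fun i => s i = a)
        (Finset.univ.filter fun i => s i = b)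
    rw [Finset.card_univ, Fintype.card_fin] at h4
    omega
  obtain ⟨G, hG, hGc⟩ := Finset.exists_subset_card_eq hcard
  set em := G.orderEmbOfFin hGc with hem
  have hmem : ∀ i, em i ∈ F := fun i => hG (G.orderEmbOfFin_mem hGc i)
  have hlt : ∀ i j, i < j → em i < em j := fun i j h => em.strictMono h
  have h01 := hlt 0 1 (by decide)
  have h12 := hlt 1 2 (by decide)
  have hne : ∀ i, s (em i) ≠ a ∧ s (em i) ≠ b := by
    intro i
    have := hmem i
    rw [hF, Finset.mem_filter] at this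
    exact this.2
  have l01 : (em 0 : ℕ) < em 1 := h01
  have l12 : (em 1 : ℕ) < em 2 := h12
  have b0 := (em 0).2
  have b1 := (em 1).2
  have b2 := (em 2).2
  have e2 : em 0 ≤ 2 := by rw [Fin.le_def]; show (em 0 : ℕ) ≤ 2; omega
  have e3 : em 1 ≤ 3 := by rw [Fin.le_def]; show (em 1 : ℕ) ≤ 3; omega
  have e4 : em 2 ≤ 4 := by rw [Fin.le_def]; show (em 2 : ℕ) ≤ 4; omega
  refine ⟨s (em 0), s (em 1), s (em 2), fun h => h01.ne (hs h), fun h => (h01.trans h12).ne (hs h),
    fun h => h12.ne (hs h), hne 0, hne 1, hne 2, ha _ _ h12.le, ha _ _ h01.le, ?_⟩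
  have a1 := ha _ _ e2
  have a2 := ha _ _ e3
  have a3 := ha _ _ e4
  linarith

/-- one of the three is the special index `x` -/
lemma three_special {v : ι → ℝ} {a b e f g x : ι} {d : ℝ} (hef : e ≠ f) (heg : e ≠ g) (hfg : f ≠ g)
    (he : e ≠ a ∧ e ≠ b) (hf : f ≠ a ∧ f ≠ b) (hg : g ≠ a ∧ g ≠ b) (h1 : v g ≤ v f)
    (h2 : v f ≤ v e) (hx : v x = d) (h : e = x ∨ f = x ∨ g = x) :
    ∃ p q : ι, p ≠ q ∧ (p ≠ a ∧ p ≠ b ∧ p ≠ x) ∧ (q ≠ a ∧ q ≠ b ∧ q ≠ x) ∧
      v e + v f + 2 * v g ≤ v p + v q + 2 * d ∧ v g ≤ d := by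
  rcases h with h | h | h
  · subst h
    exact ⟨f, g, hfg, ⟨hf.1, hf.2, hef.symm⟩, ⟨hg.1, hg.2, heg.symm⟩, by linarith, by linarith⟩
  · subst h
    exact ⟨e, g, heg, ⟨he.1, he.2, hef⟩, ⟨hg.1, hg.2, hfg.symm⟩, by linarith, by linarith⟩
  · subst h
    exact ⟨e, f, hef, ⟨he.1, he.2, heg⟩, ⟨hf.1, hf.2, hfg⟩, by linarith, by linarith⟩

end order

/-- the five largest pieces -/
lemma exists_top5 {n : ℕ} (c : Fin n → ℕ) {s' : Fin 5 → Fin n} (hs' : Function.Injective s')
    (ha' : ∀ a b, a ≤ b → c (s' b) ≤ c (s' a)) :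
    ∃ s : Fin 5 → Fin n, Function.Injective s ∧ (∀ a b, a ≤ b → c (s b) ≤ c (s a)) ∧
      (∀ i, i ∉ Set.range s → c i ≤ c (s 4)) ∧ ∀ b, c (s' b) ≤ c (s b) := by
  classical
  have hn : 5 ≤ n := by
    have := Fintype.card_le_of_injective s' hs'
    simpa using this
  set σ : Equiv.Perm (Fin n) := Tuple.sort (fun i => OrderDual.toDual (c i)) with hσ
  have hmono : ∀ i k : Fin n, i ≤ k → c (σ k) ≤ c (σ i) := by
    intro i k hik
    have := Tuple.monotone_sort (fun i => OrderDual.toDual (c i)) hik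
    exact this
  refine ⟨fun b => σ ⟨b, lt_of_lt_of_le b.2 hn⟩, ?_, ?_, ?_, ?_⟩
  · intro a b hab
    have := σ.injective hab
    rw [Fin.mk.injEq] at this
    exact Fin.ext this
  · intro a b hab
    exact hmono _ _ (by rw [Fin.le_def]; exact hab)
  · intro i hi
    have h1 : ¬ ((σ.symm i : ℕ) < 5) := by
      intro h
      apply hi
      refine ⟨⟨σ.symm i, h⟩, ?_⟩
      simp
    have h2 := hmono ⟨4, by omega⟩ (σ.symm i) (by rw [Fin.le_def]; show 4 ≤ (σ.symm i : ℕ); omega)
    rw [Equiv.apply_symm_apply] at h2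
    exact h2
  · intro b
    obtain ⟨i, hib, hi⟩ : ∃ i : Fin 5, i ≤ b ∧ (b : ℕ) ≤ (σ.symm (s' i) : ℕ) := by
      by_contra hcon
      push Not at hcon
      have h1 : (Finset.Iic b).card ≤ (Finset.range (b : ℕ)).card := by
        refine Finset.card_le_card_of_injOn (fun i => (σ.symm (s' i) : ℕ)) ?_ ?_
        · intro i hi
          have hi' : i ≤ b := by simpa using hi
          have := hcon i hi'
          simpa using this
        · intro i _ k _ hik
          exact hs' (σ.symm.injective (Fin.ext hik))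
      rw [Finset.card_range, Fin.card_Iic] at h1
      omega
    calc c (s' b) ≤ c (s' i) := ha' _ _ hib
      _ = c (σ (σ.symm (s' i))) := by rw [Equiv.apply_symm_apply]
      _ ≤ _ := hmono _ _ (by rw [Fin.le_def]; exact hi)

/-! ### the replaced scales are not near-equal -/

section near

variable {ι : Type*} [Fintype ι] [DecidableEq ι] {v v' : ι → ℝ} {s : Fin 5 → ι} {T K d : ℝ}

/-- data: `s` = the five largest, `T` ≥ total, `K ≤ v₂ + v₃ + 2 v₄`, and the three numerical
conditions -/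
structure NData (v : ι → ℝ) (s : Fin 5 → ι) (T K d : ℝ) : Prop where
  nn : ∀ i, 0 ≤ v i
  inj : Function.Injective s
  anti : ∀ a b, a ≤ b → v (s b) ≤ v (s a)
  top : ∀ i, i ∉ Set.range s → v i ≤ v (s 4)
  tot : ∑ i, v i ≤ T
  near : K ≤ v (s 2) + v (s 3) + 2 * v (s 4)
  n1 : T / 2 - K / 8 + 2 * d < K
  n2 : 2 * T < 3 * K
  n3 : 4 * d < K

lemma NData.five (D : NData v s T K d) :
    v (s 0) + v (s 1) + v (s 2) + v (s 3) + v (s 4) ≤ T := by
  have h1 : ∑ i ∈ Finset.univ.image s, v i ≤ ∑ i, v i :=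
    Finset.sum_le_sum_of_subset_of_nonneg (Finset.subset_univ _) fun i _ _ => D.nn i
  rw [Finset.sum_image fun a _ b _ h => D.inj h, Fin.sum_univ_five] at h1
  exact h1.trans D.tot

lemma NData.six (D : NData v s T K d) {x : ι} (hx : x ∉ Set.range s) :
    v x ≤ T - (v (s 0) + v (s 1) + v (s 2) + v (s 3) + v (s 4)) := by
  have hx' : x ∉ Finset.univ.image s := by
    intro h
    apply hx
    rw [Finset.mem_image] at h
    obtain ⟨i, _, hi⟩ := h
    exact ⟨i, hi⟩
  have h1 : ∑ i ∈ insert x (Finset.univ.image s), v i ≤ ∑ i, v i :=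
    Finset.sum_le_sum_of_subset_of_nonneg (Finset.subset_univ _) fun i _ _ => D.nn i
  rw [Finset.sum_insert hx', Finset.sum_image fun a _ b _ h => D.inj h, Fin.sum_univ_five] at h1
  linarith [D.tot]

lemma NData.le4 (D : NData v s T K d) {x : ι} (h0 : x ≠ s 0) (h1 : x ≠ s 1) (h2 : x ≠ s 2)
    (h3 : x ≠ s 3) : v x ≤ v (s 4) := by
  by_cases hx : x ∈ Set.range s
  · obtain ⟨i, rfl⟩ := hx
    fin_cases i
    · exact absurd rfl h0
    · exact absurd rfl h1
    · exact absurd rfl h2
    · exact absurd rfl h3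
    · exact le_rfl
  · exact D.top x hx

lemma NData.i1 (D : NData v s T K d) : v (s 1) + v (s 4) + 2 * d < K := by
  have h := D.five
  have a1 := D.anti 0 1 (by decide)
  have a2 := D.anti 1 2 (by decide)
  have a3 := D.anti 2 3 (by decide)
  have a4 := D.anti 3 4 (by decide)
  have := D.near
  have := D.n1
  linarith

lemma NData.i2 (D : NData v s T K d) :
    v (s 1) + v (s 4) + 2 * (T - (v (s 0) + v (s 1) + v (s 2) + v (s 3) + v (s 4))) < K := by
  have h := D.five
  have a1 := D.anti 0 1 (by decide)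
  have a2 := D.anti 1 2 (by decide)
  have a3 := D.anti 2 3 (by decide)
  have a4 := D.anti 3 4 (by decide)
  have := D.near
  have := D.n2
  linarith

/-- a pair avoiding `s 0, s 2, s 3` -/
lemma NData.pair (D : NData v s T K d) {p q : ι} (hpq : p ≠ q)
    (hp0 : p ≠ s 0) (hp2 : p ≠ s 2) (hp3 : p ≠ s 3) (hq0 : q ≠ s 0) (hq2 : q ≠ s 2)
    (hq3 : q ≠ s 3) : v p + v q ≤ v (s 1) + v (s 4) := by
  have a41 := D.anti 1 4 (by decide)
  by_cases hp1 : p = s 1
  · have hq1 : q ≠ s 1 := fun h => hpq (hp1.trans h.symm)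
    have := D.le4 hq0 hq1 hq2 hq3
    rw [hp1]; linarith
  · have h1 := D.le4 hp0 hp1 hp2 hp3
    by_cases hq1 : q = s 1
    · rw [hq1]; linarith
    · have := D.le4 hq0 hq1 hq2 hq3
      linarith

/-- a pair avoiding `s 0, s 1, s 2` -/
lemma NData.pair' (D : NData v s T K d) {p q : ι} (hpq : p ≠ q)
    (hp0 : p ≠ s 0) (hp1 : p ≠ s 1) (hp2 : p ≠ s 2) (hq0 : q ≠ s 0) (hq1 : q ≠ s 1)
    (hq2 : q ≠ s 2) : v p + v q ≤ v (s 1) + v (s 4) := by
  have a31 := D.anti 1 3 (by decide)
  have a41 := D.anti 1 4 (by decide)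
  by_cases hp3 : p = s 3
  · have hq3 : q ≠ s 3 := fun h => hpq (hp3.trans h.symm)
    have := D.le4 hq0 hq1 hq2 hq3
    rw [hp3]; linarith
  · have h1 := D.le4 hp0 hp1 hp2 hp3
    by_cases hq3 : q = s 3
    · rw [hq3]; linarith
    · have := D.le4 hq0 hq1 hq2 hq3
      linarith

/-- one of three distinct indices avoiding three of the five is not among the five -/
lemma rest_of_three {e f g : ι} (hef : e ≠ f) (heg : e ≠ g) (hfg : f ≠ g) {x y : ι}
    (R : ι → Prop) (he : e = x ∨ e = y ∨ R e) (hf : f = x ∨ f = y ∨ R f)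
    (hg : g = x ∨ g = y ∨ R g) : R e ∨ R f ∨ R g := by
  by_contra hcon
  push Not at hcon
  obtain ⟨h1, h2, h3⟩ := hcon
  rcases he with he | he | he
  · rcases hf with hf | hf | hf
    · exact hef (he.trans hf.symm)
    · rcases hg with hg | hg | hg
      · exact heg (he.trans hg.symm)
      · exact hfg (hf.trans hg.symm)
      · exact h3 hg
    · exact h2 hf
  · rcases hf with hf | hf | hf
    · rcases hg with hg | hg | hg
      · exact hfg (hf.trans hg.symm)
      · exact heg (he.trans hg.symm)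
      · exact h3 hg
    · exact hef (he.trans hf.symm)
    · exact h2 hf
  · exact h1 he

/-- **A** : the pair `(s 2, s 3)` is replaced -/
theorem near_A (D : NData v s T K d) (h2 : v' (s 2) = d)
    (hv : ∀ x, x ≠ s 2 → x ≠ s 3 → v' x = v x) {u : Fin 5 → ι} (hu : Function.Injective u)
    (hua : ∀ a b, a ≤ b → v' (u b) ≤ v' (u a)) :
    v' (u 2) + v' (u 3) + 2 * v' (u 4) < K := by
  obtain ⟨e, f, g, hef, heg, hfg, he, hf, hg, o1, o2, hle⟩ := exists_three hu hua (s 3) (s 0)
  by_cases h : e = s 2 ∨ f = s 2 ∨ g = s 2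
  · obtain ⟨p, q, hpq, hp, hq, hle2, _⟩ := three_special hef heg hfg he hf hg o1 o2 h2 h
    rw [hv p hp.2.2 hp.1, hv q hq.2.2 hq.1] at hle2
    have := D.pair hpq hp.2.1 hp.2.2 hp.1 hq.2.1 hq.2.2 hq.1
    linarith [D.i1]
  · push Not at h
    obtain ⟨h2e, h2f, h2g⟩ := h
    have hR := rest_of_three hef heg hfg (x := s 1) (y := s 4) (fun x => x ∉ Set.range s) (by
      by_contra hcon
      push Not at hcon
      obtain ⟨c1, c2, i, rfl⟩ := hcon
      fin_cases i
      · exact he.2 rfl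
      · exact c1 rfl
      · exact h2e rfl
      · exact he.1 rfl
      · exact c2 rfl) (by
      by_contra hcon
      push Not at hcon
      obtain ⟨c1, c2, i, rfl⟩ := hcon
      fin_cases i
      · exact hf.2 rfl
      · exact c1 rfl
      · exact h2f rfl
      · exact hf.1 rfl
      · exact c2 rfl) (by
      by_contra hcon
      push Not at hcon
      obtain ⟨c1, c2, i, rfl⟩ := hcon
      fin_cases i
      · exact hg.2 rfl
      · exact c1 rfl
      · exact h2g rfl
      · exact hg.1 rfl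
      · exact c2 rfl)
    rw [hv e h2e he.1, hv f h2f hf.1, hv g h2g hg.1] at hle
    rw [hv g h2g hg.1, hv f h2f hf.1] at o1
    rw [hv e h2e he.1, hv f h2f hf.1] at o2
    have hg' : v g ≤ T - (v (s 0) + v (s 1) + v (s 2) + v (s 3) + v (s 4)) := by
      rcases hR with h | h | h
      · exact (o1.trans o2).trans (D.six h)
      · exact o1.trans (D.six h)
      · exact D.six h
    have := D.pair hef he.2 h2e he.1 hf.2 h2f hf.1
    linarith [D.i2]

/-- **B** : the pair `(s 0, s 1)` is replaced -/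
theorem near_B (D : NData v s T K d) (h0 : v' (s 0) = d)
    (hv : ∀ x, x ≠ s 0 → x ≠ s 1 → v' x = v x) {u : Fin 5 → ι} (hu : Function.Injective u)
    (hua : ∀ a b, a ≤ b → v' (u b) ≤ v' (u a)) :
    v' (u 2) + v' (u 3) + 2 * v' (u 4) < K := by
  obtain ⟨e, f, g, hef, heg, hfg, he, hf, hg, o1, o2, hle⟩ := exists_three hu hua (s 1) (s 2)
  by_cases h : e = s 0 ∨ f = s 0 ∨ g = s 0
  · obtain ⟨p, q, hpq, hp, hq, hle2, _⟩ := three_special hef heg hfg he hf hg o1 o2 h0 h
    rw [hv p hp.2.2 hp.1, hv q hq.2.2 hq.1] at hle2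
    have := D.pair' hpq hp.2.2 hp.1 hp.2.1 hq.2.2 hq.1 hq.2.1
    linarith [D.i1]
  · push Not at h
    obtain ⟨h0e, h0f, h0g⟩ := h
    have hR := rest_of_three hef heg hfg (x := s 3) (y := s 4) (fun x => x ∉ Set.range s) (by
      by_contra hcon
      push Not at hcon
      obtain ⟨c1, c2, i, rfl⟩ := hcon
      fin_cases i
      · exact h0e rfl
      · exact he.1 rfl
      · exact he.2 rfl
      · exact c1 rfl
      · exact c2 rfl) (by
      by_contra hcon
      push Not at hcon
      obtain ⟨c1, c2, i, rfl⟩ := hcon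
      fin_cases i
      · exact h0f rfl
      · exact hf.1 rfl
      · exact hf.2 rfl
      · exact c1 rfl
      · exact c2 rfl) (by
      by_contra hcon
      push Not at hcon
      obtain ⟨c1, c2, i, rfl⟩ := hcon
      fin_cases i
      · exact h0g rfl
      · exact hg.1 rfl
      · exact hg.2 rfl
      · exact c1 rfl
      · exact c2 rfl)
    rw [hv e h0e he.1, hv f h0f hf.1, hv g h0g hg.1] at hle
    rw [hv g h0g hg.1, hv f h0f hf.1] at o1
    rw [hv e h0e he.1, hv f h0f hf.1] at o2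
    have hg' : v g ≤ T - (v (s 0) + v (s 1) + v (s 2) + v (s 3) + v (s 4)) := by
      rcases hR with h | h | h
      · exact (o1.trans o2).trans (D.six h)
      · exact o1.trans (D.six h)
      · exact D.six h
    have := D.pair' hef h0e he.1 he.2 h0f hf.1 hf.2
    linarith [D.i2]

/-- **AB** : both pairs are replaced -/
theorem near_AB (D : NData v s T K d) (h0 : v' (s 0) = d) (h2 : v' (s 2) = d)
    (hv : ∀ x, x ≠ s 0 → x ≠ s 1 → x ≠ s 2 → x ≠ s 3 → v' x = v x) {u : Fin 5 → ι}
    (hu : Function.Injective u) (hua : ∀ a b, a ≤ b → v' (u b) ≤ v' (u a)) :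
    v' (u 2) + v' (u 3) + 2 * v' (u 4) < K := by
  obtain ⟨e, f, g, hef, heg, hfg, he, hf, hg, o1, o2, hle⟩ := exists_three hu hua (s 1) (s 3)
  have a41 := D.anti 1 4 (by decide)
  -- every other value is at most `max (v (s 4)) d`
  have hM : ∀ x, x ≠ s 1 → x ≠ s 3 → v' x ≤ max (v (s 4)) d := by
    intro x h1 h3
    by_cases hx0 : x = s 0
    · rw [hx0, h0]; exact le_max_right _ _
    by_cases hx2 : x = s 2
    · rw [hx2, h2]; exact le_max_right _ _
    rw [hv x hx0 h1 hx2 h3]
    exact (D.le4 hx0 h1 hx2 h3).trans (le_max_left _ _)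
  have hfin : ∀ p q : ι, (p ≠ s 1 ∧ p ≠ s 3) → (q ≠ s 1 ∧ q ≠ s 3) →
      v' p + v' q + 2 * d < K := by
    intro p q hp hq
    have := hM p hp.1 hp.2
    have := hM q hq.1 hq.2
    rcases le_total (v (s 4)) d with h | h
    · rw [max_eq_right h] at *
      linarith [D.n3]
    · rw [max_eq_left h] at *
      linarith [D.i1]
  by_cases hA : e = s 0 ∨ f = s 0 ∨ g = s 0
  · obtain ⟨p, q, hpq, hp, hq, hle2, _⟩ := three_special hef heg hfg he hf hg o1 o2 h0 hA
    have := hfin p q ⟨hp.1, hp.2.1⟩ ⟨hq.1, hq.2.1⟩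
    linarith
  by_cases hB : e = s 2 ∨ f = s 2 ∨ g = s 2
  · obtain ⟨p, q, hpq, hp, hq, hle2, _⟩ := three_special hef heg hfg he hf hg o1 o2 h2 hB
    have := hfin p q ⟨hp.1, hp.2.1⟩ ⟨hq.1, hq.2.1⟩
    linarith
  push Not at hA hB
  have hR := rest_of_three hef heg hfg (x := s 4) (y := s 4) (fun x => x ∉ Set.range s) (by
      by_contra hcon
      push Not at hcon
      obtain ⟨c1, c2, i, rfl⟩ := hcon
      fin_cases i
      · exact hA.1 rfl
      · exact he.1 rfl
      · exact hB.1 rfl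
      · exact he.2 rfl
      · exact c2 rfl) (by
      by_contra hcon
      push Not at hcon
      obtain ⟨c1, c2, i, rfl⟩ := hcon
      fin_cases i
      · exact hA.2.1 rfl
      · exact hf.1 rfl
      · exact hB.2.1 rfl
      · exact hf.2 rfl
      · exact c2 rfl) (by
      by_contra hcon
      push Not at hcon
      obtain ⟨c1, c2, i, rfl⟩ := hcon
      fin_cases i
      · exact hA.2.2 rfl
      · exact hg.1 rfl
      · exact hB.2.2 rfl
      · exact hg.2 rfl
      · exact c2 rfl)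
  rw [hv e hA.1 he.1 hB.1 he.2, hv f hA.2.1 hf.1 hB.2.1 hf.2, hv g hA.2.2 hg.1 hB.2.2 hg.2] at hle
  rw [hv g hA.2.2 hg.1 hB.2.2 hg.2, hv f hA.2.1 hf.1 hB.2.1 hf.2] at o1
  rw [hv e hA.1 he.1 hB.1 he.2, hv f hA.2.1 hf.1 hB.2.1 hf.2] at o2
  have hg' : v g ≤ T - (v (s 0) + v (s 1) + v (s 2) + v (s 3) + v (s 4)) := by
    rcases hR with h | h | h
    · exact (o1.trans o2).trans (D.six h)
    · exact o1.trans (D.six h)
    · exact D.six h
  have h4e := D.le4 hA.1 he.1 hB.1 he.2
  have h4f := D.le4 hA.2.1 hf.1 hB.2.1 hf.2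
  linarith [D.i2]

end near

end Crest.Agent.R017.ExBox960
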