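import Crest.Agent.R017.ExBox3_960
import Crest.Agent.R017.BxE5_986

/-!
# Row 17, D.box, exceptional class: boxes of bounded size (helper960)

* `norm_GC_triv`, `norm_am_triv` : trivial bounds
* `box_small` : the box inequality for bounded `Q₀`, `H ≥ 1`
-/

set_option autoImplicit false
set_option linter.unusedVariables false

noncomputable section

open MeasureTheory Complex Set Filter Topology
open scoped ComplexConjugate ContDiff

namespace Crest.Agent.R017.ExBox960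

open Crest.Agent.R012 Crest.Agent.R012.Eis Crest.Agent.R012.Mob705 Crest.Agent.R012.Gauss880
open Crest.Agent.R012.PSer47
open Crest.Agent.R012.LS2 (bl)
open Crest.Agent.R017.End699 Crest.Agent.R017.Sx440 Crest.Agent.R017.Sx545
open Crest.Agent.R017.Asm986 Crest.Agent.R017.HB645 Crest.Agent.R017.HBS271
open Crest.Agent.R017.Sup271 Crest.Agent.R017.B770 Crest.Agent.R017.Bx986
open Crest.Agent.R017.BoxP271

lemma card_pb_le (s : ℝ) : ((primBall ⌊Real.exp (s + 1)⌋₊).card : ℝ) ≤ 18 * Real.exp (s + 1) := by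
  have h := card_primBall_le' ⌊Real.exp (s + 1)⌋₊
  calc ((primBall ⌊Real.exp (s + 1)⌋₊).card : ℝ) ≤ ((18 * ⌊Real.exp (s + 1)⌋₊ : ℕ) : ℝ) := by
        exact_mod_cast h
    _ = 18 * (⌊Real.exp (s + 1)⌋₊ : ℝ) := by push_cast; ring
    _ ≤ _ := by
        gcongr
        exact Nat.floor_le (Real.exp_pos _).le

lemma norm_cM_le (z : ℝ) (b : Eis) : ‖cM z b‖ ≤ 1 := by
  unfold HB645.cM
  rw [norm_mul]
  have h1 : ‖((muE b : ℤ) : ℂ)‖ ≤ 1 := by
    have h : |muE b| ≤ 1 := by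
      rw [Mob705.abs_muE]
      split_ifs <;> norm_num
    rw [Complex.norm_intCast]
    exact_mod_cast h
  have h2 : ‖(((1 - sg (Real.log (nm b) - Real.log z) : ℝ)) : ℂ)‖ ≤ 1 := by
    rw [Complex.norm_real, Real.norm_eq_abs, abs_le]
    have a := sg_nonneg (Real.log (nm b) - Real.log z)
    have b' := sg_le_one (Real.log (nm b) - Real.log z)
    constructor <;> linarith
  calc _ ≤ 1 * 1 := mul_le_mul h1 h2 (norm_nonneg _) zero_le_one
    _ = 1 := one_mul _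

lemma norm_piece (g : Eis → ℂ) (s : ℕ) (hg : ∀ b, IsPrim b → ‖g b‖ ≤ 1) :
    ‖∑ b ∈ primBall ⌊Real.exp (s + 1)⌋₊, g b * Weight600.pw 0 (nm b) *
      (hh (Real.log (nm b) - s) : ℂ)‖ ≤ 18 * Real.exp 1 * Real.exp s := by
  refine (norm_sum_le _ _).trans ?_
  have h1 : ∀ b ∈ primBall ⌊Real.exp (s + 1)⌋₊, ‖g b * Weight600.pw 0 (nm b) *
      (hh (Real.log (nm b) - s) : ℂ)‖ ≤ 1 := by
    intro b hb
    have hb' := (mem_primBall.mp hb).2
    rw [Box271.pw_zero, mul_one, norm_mul, Complex.norm_real, Real.norm_eq_abs,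
      abs_of_nonneg (hh_nonneg _)]
    calc _ ≤ 1 * 1 := mul_le_mul (hg b hb') (hh_le_one _) (hh_nonneg _) zero_le_one
      _ = 1 := one_mul _
  refine (Finset.sum_le_card_nsmul _ _ _ h1).trans ?_
  rw [nsmul_eq_mul, mul_one]
  refine (card_pb_le s).trans (le_of_eq ?_)
  rw [Real.exp_add]
  ring

/-- trivial bound of the product of the pieces of a box -/
lemma norm_GC_triv {P : DPar} (hP : P.OK) (d₂ : Eis) (t₂ z : ℝ) {j : ℕ}
    (c : Fin (j - 1) ⊕ Fin j → ℕ) (k : Eis) :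
    ‖GC (P.ch d₂ t₂ k) z c 0‖ ≤ (18 * Real.exp 1) ^ (2 * j) * Real.exp (∑ i, (c i : ℝ)) := by
  have hch := Box271.isChar_ch P hP d₂ t₂ k
  have h1 : ∀ i : Fin (j - 1), ‖PS (P.ch d₂ t₂ k) (c (Sum.inl i)) 0‖ ≤
      18 * Real.exp 1 * Real.exp (c (Sum.inl i)) := fun i => by
    unfold HB645.PS
    exact norm_piece _ _ fun b hb => hch.norm_le hb
  have h2 : ∀ i : Fin j, ‖PM (P.ch d₂ t₂ k) z (c (Sum.inr i)) 0‖ ≤
      18 * Real.exp 1 * Real.exp (c (Sum.inr i)) := fun i => by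
    unfold HB645.PM
    refine norm_piece (fun b => cM z b * P.ch d₂ t₂ k b) _ fun b hb => ?_
    rw [norm_mul]
    calc _ ≤ 1 * 1 := mul_le_mul (norm_cM_le _ _) (hch.norm_le hb) (norm_nonneg _) zero_le_one
      _ = 1 := one_mul _
  have hE : 1 ≤ 18 * Real.exp 1 := by
    have := Real.one_le_exp (zero_le_one (α := ℝ))
    linarith
  unfold GC
  rw [norm_mul, norm_prod, norm_prod, Fintype.sum_sum_type, Real.exp_add, Real.exp_sum,
    Real.exp_sum]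
  have h3 : ∏ i : Fin (j - 1), ‖PS (P.ch d₂ t₂ k) (c (Sum.inl i)) 0‖ ≤
      (18 * Real.exp 1) ^ (j - 1) * ∏ i : Fin (j - 1), Real.exp (c (Sum.inl i)) := by
    calc _ ≤ ∏ i : Fin (j - 1), (18 * Real.exp 1 * Real.exp (c (Sum.inl i))) :=
          Finset.prod_le_prod (fun _ _ => norm_nonneg _) fun i _ => h1 i
      _ = _ := by rw [Finset.prod_mul_distrib, Finset.prod_const, Finset.card_univ,
          Fintype.card_fin]
  have h4 : ∏ i : Fin j, ‖PM (P.ch d₂ t₂ k) z (c (Sum.inr i)) 0‖ ≤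
      (18 * Real.exp 1) ^ j * ∏ i : Fin j, Real.exp (c (Sum.inr i)) := by
    calc _ ≤ ∏ i : Fin j, (18 * Real.exp 1 * Real.exp (c (Sum.inr i))) :=
          Finset.prod_le_prod (fun _ _ => norm_nonneg _) fun i _ => h2 i
      _ = _ := by rw [Finset.prod_mul_distrib, Finset.prod_const, Finset.card_univ,
          Fintype.card_fin]
  have p1 : 0 ≤ ∏ i : Fin (j - 1), Real.exp (c (Sum.inl i) : ℝ) :=
    Finset.prod_nonneg fun _ _ => (Real.exp_pos _).le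
  have p2 : 0 ≤ ∏ i : Fin j, Real.exp (c (Sum.inr i) : ℝ) :=
    Finset.prod_nonneg fun _ _ => (Real.exp_pos _).le
  calc _ ≤ ((18 * Real.exp 1) ^ (j - 1) * ∏ i : Fin (j - 1), Real.exp (c (Sum.inl i))) *
        ((18 * Real.exp 1) ^ j * ∏ i : Fin j, Real.exp (c (Sum.inr i))) :=
        mul_le_mul h3 h4 (Finset.prod_nonneg fun _ _ => norm_nonneg _) (by positivity)
    _ = (18 * Real.exp 1) ^ (j - 1 + j) * ((∏ i : Fin (j - 1), Real.exp (c (Sum.inl i))) *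
        ∏ i : Fin j, Real.exp (c (Sum.inr i))) := by rw [pow_add]; ring
    _ ≤ _ := mul_le_mul_of_nonneg_right (pow_le_pow_right₀ hE (by omega)) (by positivity)

lemma norm_amc_le {P : DPar} (hP : P.OK) (d₁ : Eis) (t₁ : ℝ) (k : Eis) {c : Eis}
    (hc : IsPrim c) : ‖twt P.φ P.l₁ t₁ c * prin0 d₁ c * conj (sy k c)‖ ≤ 1 := by
  have h := ((isChar_twt hP.φ P.l₁ t₁).mul' (isChar_prin0 d₁)).norm_le hc
  have h2 : ‖conj (sy k c)‖ ≤ 1 := by
    rw [RCLike.norm_conj]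
    exact (Char766.isChar_sy k).norm_le hc
  rw [norm_mul]
  calc _ ≤ 1 * 1 := mul_le_mul h h2 (norm_nonneg _) zero_le_one
    _ = 1 := one_mul _

/-- trivial bound of the amplifier, bounded size -/
lemma norm_am_triv {P : DPar} (hP : P.OK) (r : ℕ) {y δ : ℝ} (hy : 0 ≤ y) (hδ : 0 ≤ δ) (X₁ : ℝ) :
    ∃ C : ℝ, 0 ≤ C ∧ ∀ (Q₀ κ : ℝ), 1 ≤ Q₀ → Real.log Q₀ ≤ X₁ → κ ≤ δ * Real.log Q₀ →
      ∀ (J : Finset (Fin r)) (d₁ : Eis) (t₁ : ℝ) (k : Eis),
      ‖P.am r y Q₀ κ J d₁ t₁ k‖ ≤ C := by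
  classical
  obtain ⟨B₀, hB₀⟩ := hP.h₀.cd.continuous.bounded_above_of_compact_support (HW.cpt hP.h₀)
  obtain ⟨B, hB⟩ := hP.h.cd.continuous.bounded_above_of_compact_support (HW.cpt hP.h)
  have hB₀0 : 0 ≤ B₀ := (norm_nonneg _).trans (hB₀ 0)
  have hB0 : 0 ≤ B := (norm_nonneg _).trans (hB 0)
  set E : ℝ := max 1 (18 * Real.exp (y / r * X₁ + 3 * r + 1) * B) with hE
  have hE1 : 1 ≤ E := le_max_left _ _
  refine ⟨18 * Real.exp (δ * X₁ + 1) * B₀ * E ^ r, by positivity, ?_⟩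
  intro Q₀ κ hQ₀ hX hκ J d₁ t₁ k
  have hL0 : 0 ≤ Real.log Q₀ := Real.log_nonneg hQ₀
  unfold DPar.am Amp
  rw [norm_mul, norm_prod]
  have h1 : ‖AS P.h₀ κ (fun c => twt P.φ P.l₁ t₁ c * prin0 d₁ c * conj (sy k c))‖ ≤
      18 * Real.exp (δ * X₁ + 1) * B₀ := by
    refine (norm_AS_le hB₀ (fun b hb => norm_amc_le hP d₁ t₁ k hb) κ).trans ?_
    have : κ + 1 ≤ δ * X₁ + 1 := by
      have := mul_le_mul_of_nonneg_left hX hδ
      linarith
    gcongr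
  have h2 : ∀ i ∈ J, ‖AP P.h (kap r y Q₀ i) (fun c => twt P.φ P.l₁ t₁ c * prin0 d₁ c *
      conj (sy k c))‖ ≤ E := by
    intro i _
    refine le_trans ?_ (le_max_right _ _)
    unfold AP
    refine (norm_sum_le _ _).trans ?_
    have h3 : ∀ c ∈ prS (kap r y Q₀ i), ‖twt P.φ P.l₁ t₁ c * prin0 d₁ c * conj (sy k c) *
        P.h (Real.log (nm c) - kap r y Q₀ i)‖ ≤ B := by
      intro c hc
      unfold prS at hc
      rw [Finset.mem_filter, mem_primBall] at hc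
      rw [norm_mul]
      calc _ ≤ 1 * B := mul_le_mul (norm_amc_le hP d₁ t₁ k hc.1.2) (hB _) (norm_nonneg _)
            zero_le_one
        _ = B := one_mul _
    refine (Finset.sum_le_card_nsmul _ _ _ h3).trans ?_
    rw [nsmul_eq_mul]
    refine mul_le_mul_of_nonneg_right ?_ hB0
    have h4 : ((prS (kap r y Q₀ i)).card : ℝ) ≤ 18 * Real.exp (kap r y Q₀ i + 1) := by
      refine le_trans ?_ (card_pb_le _)
      unfold prS
      exact_mod_cast Finset.card_filter_le _ _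
    refine h4.trans ?_
    have h5 : kap r y Q₀ i + 1 ≤ y / r * X₁ + 3 * r + 1 := by
      unfold kap
      have e1 : ((i : ℕ) : ℝ) ≤ r := by exact_mod_cast i.2.le
      have e2 : y / r * Real.log Q₀ ≤ y / r * X₁ :=
        mul_le_mul_of_nonneg_left hX (by positivity)
      linarith
    gcongr
  have h3 : ∏ i ∈ J, ‖AP P.h (kap r y Q₀ i) (fun c => twt P.φ P.l₁ t₁ c * prin0 d₁ c *
      conj (sy k c))‖ ≤ E ^ r := by
    calc _ ≤ ∏ _i ∈ J, E := Finset.prod_le_prod (fun _ _ => norm_nonneg _) h2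
      _ = E ^ J.card := by rw [Finset.prod_const]
      _ ≤ _ := pow_le_pow_right₀ hE1 (by
          have := Finset.card_le_univ J
          rwa [Fintype.card_fin] at this)
  exact mul_le_mul h1 h3 (Finset.prod_nonneg fun _ _ => norm_nonneg _) (by positivity)

/-- **boxes of bounded size** -/
theorem box_small {θ : ℝ} (hθ : 0 ≤ θ) (hθ1 : θ ≤ 1) (r : ℕ) {y δ η : ℝ} (hy : 0 < y)
    (hδ : 0 < δ) (hη : 0 ≤ η) (hη1 : η ≤ 1 / 16) (L : ℕ) {P : DPar} (hP : P.OK) {C₁ : ℝ}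
    (hC₁ : 0 < C₁) (X₁ : ℝ) : ∃ C : ℝ, 0 ≤ C ∧
    ∀ (Q₀ Q : ℝ), 1 ≤ Q → Q ≤ Q₀ → Real.log Q₀ ≤ X₁ → ∀ κ : ℝ, -1 ≤ κ → κ ≤ δ * Real.log Q₀ →
    ∀ (J : Finset (Fin r)) (H : ℝ), 1 ≤ H → Real.log H ≤ X₁ →
    ∀ d₁ d₂ d₃ e : Eis, IsPrim e →
    ∀ (t₁ t₂ τ : ℝ) (𝒟 : Finset Eis), (∀ q ∈ 𝒟, IsPrim q) →
    ∀ u : Eis → ℝ, (∀ q, 0 ≤ u q ∧ u q ≤ C₁) →
    ∀ z : ℝ, ∀ j : ℕ, j ≤ L → ∀ c : Fin (j - 1) ⊕ Fin j → ℕ,
      |∑ i, (c (Sum.inl i) : ℝ) + ∑ i, (c (Sum.inr i) : ℝ) - Real.log Q| ≤ C₁ →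
      ∑ q ∈ 𝒟, ‖P.bx r y Q₀ (κ - u q) J H d₁ d₂ d₃ e t₁ t₂ τ z c q‖ ≤
        C * TgB θ η (if δ / 2 * Real.log Q₀ ≤ κ then η else -η) (y + δ) Q₀ Q H
            (CJ r y Q₀ J * Real.exp κ) := by
  classical
  obtain ⟨Cb, β, hCb, hβ, hb⟩ := bx_abs_tau P hP (ε := 1) one_pos
  obtain ⟨Ca, hCa, ha⟩ := norm_am_triv hP r hy.le hδ.le X₁
  set G : ℝ := (18 * Real.exp 1) ^ (2 * L) * Real.exp (X₁ + C₁) with hG
  have hG0 : 0 ≤ G := by positivity
  set W : ℝ := Cb * (β * Real.exp X₁) ^ (1 : ℝ) * ((16 * (β * Real.exp X₁)) * (Ca * G)) with hW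
  have hW0 : 0 ≤ W := by positivity
  refine ⟨W * Real.exp 1, by positivity, ?_⟩
  intro Q₀ Q hQ hQQ hX κ hκ1 hκ2 J H hH hHX d₁ d₂ d₃ e he t₁ t₂ τ 𝒟 h𝒟 u hu z j hj c hc
  have hQ₀ : 1 ≤ Q₀ := hQ.trans hQQ
  have hH0 : 0 < H := by linarith
  have hHe : H ≤ Real.exp X₁ := by
    rw [← Real.exp_log hH0]; exact Real.exp_le_exp.2 hHX
  have hE : 1 ≤ 18 * Real.exp 1 := by
    have := Real.one_le_exp (zero_le_one (α := ℝ))
    linarith
  have hsum : ∑ i, (c i : ℝ) ≤ X₁ + C₁ := by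
    rw [Fintype.sum_sum_type]
    have h1 := (abs_le.1 hc).2
    have h2 : Real.log Q ≤ Real.log Q₀ := Real.log_le_log (by linarith) hQQ
    linarith
  have hGC : ∀ k, ‖GC (P.ch d₂ t₂ k) z c 0‖ ≤ G := fun k => by
    refine (norm_GC_triv hP d₂ t₂ z c k).trans ?_
    exact mul_le_mul (pow_le_pow_right₀ hE (by omega)) (Real.exp_le_exp.2 hsum)
      (Real.exp_pos _).le (by positivity)
  have h1 := hb r Q₀ κ y J H hH0 d₁ d₂ d₃ e he t₁ t₂ τ z 𝒟 h𝒟 u j c (fun _ => Ca)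
    (fun k _ _ q _ _ => ha Q₀ (κ - u q) hQ₀ hX (by linarith [(hu q).1]) J d₁ t₁ k)
    (fun _ => hCa)
  have hβH : 0 ≤ β * H := by positivity
  have h2 : ∑ k ∈ (bl (β * H)).filter (fun k => P.NP2 k), Ca * ‖GC (P.ch d₂ t₂ k) z c 0‖ ≤
      (16 * (β * H)) * (Ca * G) := by
    calc _ ≤ ∑ k ∈ (bl (β * H)).filter (fun k => P.NP2 k), Ca * G :=
          Finset.sum_le_sum fun k _ => mul_le_mul_of_nonneg_left (hGC k) hCa
      _ = ((bl (β * H)).filter (fun k => P.NP2 k)).card * (Ca * G) := by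
          rw [Finset.sum_const, nsmul_eq_mul]
      _ ≤ _ := by
          refine mul_le_mul_of_nonneg_right ?_ (by positivity)
          refine le_trans ?_ (CR2.card_bl_le hβH)
          exact_mod_cast Finset.card_filter_le _ _
  have h3 : ∑ q ∈ 𝒟, ‖P.bx r y Q₀ (κ - u q) J H d₁ d₂ d₃ e t₁ t₂ τ z c q‖ ≤ W := by
    refine h1.trans ?_
    rw [hW]
    have e1 : (β * H) ^ (1 : ℝ) ≤ (β * Real.exp X₁) ^ (1 : ℝ) := by
      rw [Real.rpow_one, Real.rpow_one]; gcongr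
    have e2 : (16 * (β * H)) * (Ca * G) ≤ (16 * (β * Real.exp X₁)) * (Ca * G) := by gcongr
    refine mul_le_mul (mul_le_mul_of_nonneg_left e1 hCb) (h2.trans e2) ?_ (by positivity)
    exact Finset.sum_nonneg fun _ _ => by positivity
  refine h3.trans ?_
  have hCC : (0 : ℝ) < CJ r y Q₀ J * Real.exp κ :=
    mul_pos (BoxP271.CJ_pos (by linarith) J) (Real.exp_pos _)
  have hlC : -1 ≤ Real.log (CJ r y Q₀ J * Real.exp κ) := by
    rw [Real.log_mul (BoxP271.CJ_pos (by linarith) J).ne' (Real.exp_pos _).ne', Real.log_exp]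
    have : 0 ≤ Real.log (CJ r y Q₀ J) := by
      apply Real.log_nonneg
      unfold CJ
      exact Real.one_le_rpow hQ₀ (by positivity)
    linarith
  have h4 := BxE986.one_le_TgB (θ := θ) (y := y) (δ := δ) (η := η)
    (η₂ := if δ / 2 * Real.log Q₀ ≤ κ then η else -η) (Q₀ := Q₀) (Q := Q) (H := H)
    (Cc := CJ r y Q₀ J * Real.exp κ) (β := 1) hθ hθ1 hy hδ hη1
    (by split_ifs <;> linarith) hQ₀ hQ hH0 one_pos (by linarith) hCC hlC
  rw [Real.log_one, abs_zero, zero_add] at h4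
  calc W = W * 1 := (mul_one _).symm
    _ ≤ W * (Real.exp 1 * _) := mul_le_mul_of_nonneg_left h4 hW0
    _ = _ := by ring

end Crest.Agent.R017.ExBox960
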