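import Crest.Agent.R017.ExBox4_960

/-!
# Row 17, D.box, exceptional class: the reduction to double differences (helper960)

* `evBox_of_dd` : `EvDD` + the boxes outside `NE` ⟹ the boxes in `NE`
-/

set_option autoImplicit false
set_option linter.unusedVariables false

noncomputable section

open MeasureTheory Complex Set Filter Topology
open scoped ComplexConjugate ContDiff

namespace Crest.Agent.R017.ExBox960

open Crest.Agent.R012 Crest.Agent.R012.Eis Crest.Agent.R012.Mob705 Crest.Agent.R012.Gauss880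
open Crest.Agent.R012.LS2 (bl)
open Crest.Agent.R017.End699 Crest.Agent.R017.Sx440 Crest.Agent.R017.Sx545
open Crest.Agent.R017.Asm986 Crest.Agent.R017.HB645 Crest.Agent.R017.HBS271
open Crest.Agent.R017.Sup271 Crest.Agent.R017.B770 Crest.Agent.R017.Bx986
open Crest.Agent.R017.BoxP271 Crest.Agent.R017.Box271
open Crest.Agent.R017.BxE986 (NE)

lemma sum_w5 (f : Fin 5 → ℝ) : ∑ i, w5 i * f i = f 2 + f 3 + 2 * f 4 := by
  rw [Fin.sum_univ_five]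
  simp [w5]

/-- a box in `NE` has the five largest pieces near-equal -/
lemma top5_of_NE {a₀ A y : ℝ} {r : ℕ} {Q₀ Q κ : ℝ} {J : Finset (Fin r)} {H : ℝ} {j : ℕ}
    {c : Fin (j - 1) ⊕ Fin j → ℕ} (h : NE a₀ A y w5 r Q₀ Q κ J H j c) :
    ∃ s : Fin 5 → Fin (j - 1), Top5 A H c s := by
  obtain ⟨h1, s', hs', ha', hn⟩ := h
  obtain ⟨s, hs, ha, ht, hd⟩ := exists_top5 (fun i => c (.inl i)) hs' ha'
  refine ⟨s, hs, ha, ht, hn.trans ?_⟩
  rw [sum_w5 (fun i => (c (.inl (s' i)) : ℝ)), sum_w5 (fun i => (c (.inl (s i)) : ℝ))]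
  have h2 : (c (.inl (s' 2)) : ℝ) ≤ c (.inl (s 2)) := by exact_mod_cast hd 2
  have h3 : (c (.inl (s' 3)) : ℝ) ≤ c (.inl (s 3)) := by exact_mod_cast hd 3
  have h4 : (c (.inl (s' 4)) : ℝ) ≤ c (.inl (s 4)) := by exact_mod_cast hd 4
  linarith

section facts

variable {A H T : ℝ} {j : ℕ} {c : Fin (j - 1) ⊕ Fin j → ℕ} {s : Fin 5 → Fin (j - 1)}

lemma Top5.ne (h : Top5 A H c s) {a b : Fin 5} (hab : a ≠ b) : s a ≠ s b := fun h' => hab (h.inj h')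

/-- the real data of a near-equal box -/
lemma Top5.data (h : Top5 A H c s) {d : ℝ} (hT : ∑ i, (c (.inl i) : ℝ) ≤ T)
    (n1 : T / 2 - A * Real.log H / 8 + 2 * d < A * Real.log H) (n2 : 2 * T < 3 * (A * Real.log H))
    (n3 : 4 * d < A * Real.log H) :
    NData (fun i => (c (.inl i) : ℝ)) s T (A * Real.log H) d where
  nn := fun i => Nat.cast_nonneg _
  inj := h.inj
  anti := fun a b hab => by exact_mod_cast h.anti a b hab
  top := fun i hi => by exact_mod_cast h.top i hi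
  tot := hT
  near := by
    have := h.near
    rw [sum_w5 (fun i => (c (.inl (s i)) : ℝ))] at this
    exact this
  n1 := n1
  n2 := n2
  n3 := n3

/-- the smallest of the five -/
lemma Top5.s4_ge (h : Top5 A H c s) (hT : ∑ i, (c (.inl i) : ℝ) ≤ T) :
    2 * (A * Real.log H) - T ≤ 3 * (c (.inl (s 4)) : ℝ) := by
  have h1 : ∑ i ∈ Finset.univ.image s, (c (.inl i) : ℝ) ≤ ∑ i, (c (.inl i) : ℝ) :=
    Finset.sum_le_sum_of_subset_of_nonneg (Finset.subset_univ _) fun i _ _ => Nat.cast_nonneg _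
  rw [Finset.sum_image fun a _ b _ h' => h.inj h', Fin.sum_univ_five] at h1
  have hn := h.near
  rw [sum_w5 (fun i => (c (.inl (s i)) : ℝ))] at hn
  have a1 : (c (.inl (s 1)) : ℝ) ≤ c (.inl (s 0)) := by exact_mod_cast h.anti 0 1 (by decide)
  have a2 : (c (.inl (s 2)) : ℝ) ≤ c (.inl (s 1)) := by exact_mod_cast h.anti 1 2 (by decide)
  have a3 : (c (.inl (s 3)) : ℝ) ≤ c (.inl (s 2)) := by exact_mod_cast h.anti 2 3 (by decide)
  have a4 : (c (.inl (s 4)) : ℝ) ≤ c (.inl (s 3)) := by exact_mod_cast h.anti 3 4 (by decide)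
  linarith

/-- the pairs are long -/
lemma Top5.pair_ge (h : Top5 A H c s) :
    A * Real.log H ≤ 2 * ((c (.inl (s 2)) : ℝ) + c (.inl (s 3))) ∧
    A * Real.log H ≤ 2 * ((c (.inl (s 0)) : ℝ) + c (.inl (s 1))) := by
  have hn := h.near
  rw [sum_w5 (fun i => (c (.inl (s i)) : ℝ))] at hn
  have a1 : (c (.inl (s 1)) : ℝ) ≤ c (.inl (s 0)) := by exact_mod_cast h.anti 0 1 (by decide)
  have a2 : (c (.inl (s 2)) : ℝ) ≤ c (.inl (s 1)) := by exact_mod_cast h.anti 1 2 (by decide)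
  have a3 : (c (.inl (s 3)) : ℝ) ≤ c (.inl (s 2)) := by exact_mod_cast h.anti 2 3 (by decide)
  have a4 : (c (.inl (s 4)) : ℝ) ≤ c (.inl (s 3)) := by exact_mod_cast h.anti 3 4 (by decide)
  constructor <;> linarith

end facts

/-- the sum of the smooth scales is unchanged -/
lemma sum_rep_eq {j : ℕ} (c : Fin (j - 1) ⊕ Fin j → ℕ) {i i' : Fin (j - 1)} (h : i ≠ i') {a : ℕ}
    (ha : a ≤ c (.inl i) + c (.inl i')) :
    ∑ x, (rep c i i' a (c (.inl i) + c (.inl i') - a) (.inl x) : ℝ) = ∑ x, (c (.inl x) : ℝ) := by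
  rw [sum_rep c a _ h (fun n => (n : ℝ))]
  have := sum_rep c (c (.inl i)) (c (.inl i')) h (fun n => (n : ℝ))
  rw [rep_self] at this
  rw [this, Nat.cast_sub ha]
  push_cast
  ring

/-- the replaced scales are outside `NE` -/
lemma not_NE {a₀ A y : ℝ} {r : ℕ} {Q₀ Q κ : ℝ} {J : Finset (Fin r)} {H : ℝ} {j : ℕ}
    {c' : Fin (j - 1) ⊕ Fin j → ℕ}
    (h : ∀ u : Fin 5 → Fin (j - 1), Function.Injective u →
      (∀ a b, a ≤ b → (c' (.inl (u b)) : ℝ) ≤ c' (.inl (u a))) →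
      (c' (.inl (u 2)) : ℝ) + c' (.inl (u 3)) + 2 * c' (.inl (u 4)) < A * Real.log H) :
    ¬ NE a₀ A y w5 r Q₀ Q κ J H j c' := by
  rintro ⟨_, u, hu, hua, hn⟩
  rw [sum_w5 (fun i => (c' (.inl (u i)) : ℝ))] at hn
  have := h u hu fun a b hab => by exact_mod_cast hua a b hab
  linarith

theorem box3p_of_dd {θ : ℝ} (hθ : 0 ≤ θ) (hθ1 : θ ≤ 1) {r : ℕ} {y δ η : ℝ} (hy : 0 < y)
    (hδ : 0 < δ) (hη : 0 < η) (hη1 : η ≤ 1 / 16) {L : ℕ} {Pk : DPar → Prop} {a₀ A β : ℝ}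
    (ha₀ : 0 < a₀) (hβ : 0 ≤ β) (h1 : 2 < 3 * A * (a₀ * (1 / 2 + y)))
    (h2 : 1 + 4 * β * (a₀ * (1 / 2 + y)) < 9 / 4 * A * (a₀ * (1 / 2 + y)))
    (h3 : 4 * β < A)
    (hdd : BOX3d θ r y δ η L Pk (fun P => P.NP2) a₀ A β)
    (habs : BOX3p θ r y δ η L Pk (fun Q₀ Q κ J H j c => ¬ NE a₀ A y w5 r Q₀ Q κ J H j c)) :
    BOX3p θ r y δ η L Pk (NE a₀ A y w5 r) := by
  intro P hP hPk ε C₁ hε hC₁
  obtain ⟨Cd, Ad, X₀, hCd, hAd, hd⟩ := hdd P hP hPk ε C₁ hε hC₁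
  obtain ⟨Ca, Aa, hCa, hAa, ha⟩ := habs P hP hPk ε C₁ hε hC₁
  set g : ℝ := a₀ * (1 / 2 + y) with hg
  have hg0 : 0 < g := by positivity
  -- margins
  set m1 : ℝ := 3 * A - 2 / g with hm1
  have hm1' : 0 < m1 := by
    rw [hm1, sub_pos, div_lt_iff₀ hg0]; linarith
  set m2 : ℝ := 9 / 8 * A - 1 / (2 * g) - 2 * β with hm2
  have hm2' : 0 < m2 := by
    have e : m2 = (9 / 4 * A * g - (1 + 4 * β * g)) / (2 * g) := by
      rw [hm2]; field_simp; ring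
    rw [e]; exact div_pos (by linarith) (by positivity)
  set X₂ : ℝ := max (max X₀ 1) (max (2 * C₁ / m1 + 1) (C₁ / 2 / m2 + 1)) with hX₂
  have hX0 : X₀ ≤ X₂ := (le_max_left _ _).trans (le_max_left _ _)
  have hX1 : 1 ≤ X₂ := (le_max_right _ _).trans (le_max_left _ _)
  have hXa : 2 * C₁ / m1 + 1 ≤ X₂ := (le_max_left _ _).trans (le_max_right _ _)
  have hXb : C₁ / 2 / m2 + 1 ≤ X₂ := (le_max_right _ _).trans (le_max_right _ _)
  obtain ⟨Cs, hCs, hs⟩ := box_small hθ hθ1 r hy hδ hη.le hη1 L hP hC₁ (max X₂ (X₂ / g))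
  refine ⟨max Cs (Cd + 3 * Ca), max Ad Aa, le_max_of_le_left hCs, le_max_of_le_left hAd, ?_⟩
  intro Q₀ Q hQ hQQ κ hκ1 hκ2 J H hH hH2 d₁ d₂ d₃ e hd₁ hd₂ hd₃ he he5 hQe t₁ t₂ τ 𝒟 h𝒟 u hu z
    hz hlz j hj hjL c hc hc2 hcls
  have hQ0 : 0 < Q := by linarith
  have hQ₀ : 1 ≤ Q₀ := hQ.trans hQQ
  have hQ₀0 : 0 < Q₀ := by linarith
  have hL0 : 0 ≤ Real.log Q₀ := Real.log_nonneg hQ₀
  have hCJ := BoxP271.CJ_pos (r := r) (y := y) hQ₀0 J
  set Tg := TgB θ η (if δ / 2 * Real.log Q₀ ≤ κ then η else -η) (y + δ) Q₀ Q H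
    (CJ r y Q₀ J * Real.exp κ) with hTg
  have hTg0 : 0 ≤ Tg := TgB_nonneg' hQ₀0.le hQ0.le hH.le (by positivity)
  have hT1 : 1 ≤ 1 + |t₁| + |t₂| + |τ| := by
    linarith [abs_nonneg t₁, abs_nonneg t₂, abs_nonneg τ]
  have hnm : ∀ x : Eis, x ≠ 0 → (1 : ℝ) ≤ nm x := fun x hx => by exact_mod_cast nm_pos.mpr hx
  have hX : 1 ≤ (nm d₁ : ℝ) * nm d₂ * nm d₃ * nm e * Q₀ := by
    have e1 := hnm d₁ hd₁
    have e2 := hnm d₂ hd₂
    have e3 := hnm d₃ hd₃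
    have e4 := hnm e he.1.ne_zero
    exact one_le_mul_of_one_le_of_one_le (one_le_mul_of_one_le_of_one_le
      (one_le_mul_of_one_le_of_one_le (one_le_mul_of_one_le_of_one_le e1 e2) e3) e4) hQ₀
  have hgl : g * Real.log Q₀ ≤ Real.log H := by
    have := hcls.1
    rw [hg]; linarith
  have hl0 : 0 ≤ Real.log H := (mul_nonneg hg0.le hL0).trans hgl
  have hlQ : Real.log Q₀ ≤ Real.log H / g := by
    rw [le_div_iff₀ hg0]; linarith
  rcases lt_or_ge (Real.log H) X₂ with hsm | hbig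
  · -- bounded size
    have hH1 : 1 ≤ H := by
      by_contra hcon
      push Not at hcon
      have := Real.log_neg hH hcon
      linarith
    have h4 := hs Q₀ Q hQ hQQ (hlQ.trans ((div_le_div_of_nonneg_right hsm.le hg0.le).trans
      (le_max_right _ _))) κ hκ1 hκ2 J H hH1 (hsm.le.trans (le_max_left _ _)) d₁ d₂ d₃ e he.1
      t₁ t₂ τ 𝒟 (fun q hq => (h𝒟 q hq).1.1) u hu z j hjL c hc
    refine h4.trans ?_
    have h5 : 1 ≤ ((nm d₁ : ℝ) * nm d₂ * nm d₃ * nm e * Q₀) ^ ε := Real.one_le_rpow hX hε.le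
    have h6 : 1 ≤ (1 + |t₁| + |t₂| + |τ|) ^ max Ad Aa :=
      Real.one_le_rpow hT1 (le_max_of_le_left hAd)
    have h7 : 1 ≤ ((nm d₁ : ℝ) * nm d₂ * nm d₃ * nm e * Q₀) ^ ε *
        (1 + |t₁| + |t₂| + |τ|) ^ max Ad Aa := one_le_mul_of_one_le_of_one_le h5 h6
    calc Cs * Tg ≤ (max Cs (Cd + 3 * Ca) * (((nm d₁ : ℝ) * nm d₂ * nm d₃ * nm e * Q₀) ^ ε *
          (1 + |t₁| + |t₂| + |τ|) ^ max Ad Aa)) * Tg := by
          refine mul_le_mul_of_nonneg_right ?_ hTg0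
          calc Cs = Cs * 1 := (mul_one _).symm
            _ ≤ _ := mul_le_mul (le_max_left _ _) h7 zero_le_one (le_max_of_le_left hCs)
      _ = _ := by ring
  · -- large size
    obtain ⟨s, hs5⟩ := top5_of_NE hcls
    set l := Real.log H with hl
    have hl1 : 1 ≤ l := hX1.trans hbig
    set a : ℕ := ⌊β * l⌋₊ with haf
    have hadef : (a : ℝ) ≤ β * l := Nat.floor_le (mul_nonneg hβ hl0)
    set T : ℝ := l / g + C₁ with hT
    have hTsum : ∑ i, (c (.inl i) : ℝ) ≤ T := by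
      have h4 := (abs_le.1 hc).2
      have h5 : Real.log Q ≤ Real.log Q₀ := Real.log_le_log hQ0 hQQ
      have h6 : 0 ≤ ∑ i, (c (Sum.inr i) : ℝ) := Finset.sum_nonneg fun _ _ => Nat.cast_nonneg _
      rw [hT]; linarith
    have n2 : 2 * T < 3 * (A * l) := by
      have h4 : 2 * C₁ < m1 * l := by
        have h5 : 2 * C₁ / m1 < l := by linarith
        rw [div_lt_iff₀ hm1'] at h5
        rw [mul_comm m1 l]; exact h5
      have e : 3 * (A * l) - 2 * T = m1 * l - 2 * C₁ := by rw [hm1, hT]; ring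
      linarith
    have n1 : T / 2 - A * l / 8 + 2 * (a : ℝ) < A * l := by
      have h4 : C₁ / 2 < m2 * l := by
        have h5 : C₁ / 2 / m2 < l := by linarith
        rw [div_lt_iff₀ hm2'] at h5
        rw [mul_comm m2 l]; exact h5
      have e : A * l - (T / 2 - A * l / 8 + 2 * (β * l)) = m2 * l - C₁ / 2 := by
        rw [hm2, hT]; field_simp; ring
      linarith
    have n3 : 4 * (a : ℝ) < A * l := by
      have : 4 * β * l < A * l := mul_lt_mul_of_pos_right h3 (by linarith)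
      linarith
    have D := hs5.data hTsum n1 n2 n3
    obtain ⟨p23, p01⟩ := hs5.pair_ge
    have ha23 : a ≤ c (.inl (s 2)) + c (.inl (s 3)) := by
      have : (a : ℝ) ≤ ((c (.inl (s 2)) + c (.inl (s 3)) : ℕ) : ℝ) := by
        push_cast; linarith [Nat.cast_nonneg (α := ℝ) a]
      exact_mod_cast this
    have ha01 : a ≤ c (.inl (s 0)) + c (.inl (s 1)) := by
      have : (a : ℝ) ≤ ((c (.inl (s 0)) + c (.inl (s 1)) : ℕ) : ℝ) := by
        push_cast; linarith [Nat.cast_nonneg (α := ℝ) a]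
      exact_mod_cast this
    have n01 : s 0 ≠ s 1 := hs5.ne (by decide)
    have n23 : s 2 ≠ s 3 := hs5.ne (by decide)
    have n02 : s 0 ≠ s 2 := hs5.ne (by decide)
    have n03 : s 0 ≠ s 3 := hs5.ne (by decide)
    have n12 : s 1 ≠ s 2 := hs5.ne (by decide)
    have n13 : s 1 ≠ s 3 := hs5.ne (by decide)
    set cA := rep c (s 2) (s 3) a (c (.inl (s 2)) + c (.inl (s 3)) - a) with hcA
    set cB := rep c (s 0) (s 1) a (c (.inl (s 0)) + c (.inl (s 1)) - a) with hcB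
    set cC := rep cA (s 0) (s 1) a (c (.inl (s 0)) + c (.inl (s 1)) - a) with hcC
    have eA0 : cA (.inl (s 0)) = c (.inl (s 0)) := rep_ne c _ _ n02 n03
    have eA1 : cA (.inl (s 1)) = c (.inl (s 1)) := rep_ne c _ _ n12 n13
    have sA : ∑ i, (cA (.inl i) : ℝ) = ∑ i, (c (.inl i) : ℝ) := sum_rep_eq c n23 ha23
    have sB : ∑ i, (cB (.inl i) : ℝ) = ∑ i, (c (.inl i) : ℝ) := sum_rep_eq c n01 ha01
    have sC : ∑ i, (cC (.inl i) : ℝ) = ∑ i, (c (.inl i) : ℝ) := by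
      have := sum_rep_eq cA n01 (a := a) (by rw [eA0, eA1]; exact ha01)
      rw [eA0, eA1] at this
      rw [hcC, this, sA]
    have iA : ∀ i, cA (.inr i) = c (.inr i) := fun i => rep_inr c _ _ i
    have iB : ∀ i, cB (.inr i) = c (.inr i) := fun i => rep_inr c _ _ i
    have iC : ∀ i, cC (.inr i) = c (.inr i) := fun i => by rw [hcC, rep_inr, iA]
    -- outside `NE`
    have NA : ¬ NE a₀ A y w5 r Q₀ Q κ J H j cA := not_NE fun u hu hua =>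
      near_A (v' := fun i => (cA (.inl i) : ℝ)) D (by
        show ((cA (.inl (s 2)) : ℕ) : ℝ) = a
        rw [hcA, rep_fst c _ _ n23]) (fun x hx2 hx3 => by
        show ((cA (.inl x) : ℕ) : ℝ) = c (.inl x)
        rw [hcA, rep_ne c _ _ hx2 hx3]) hu hua
    have NB : ¬ NE a₀ A y w5 r Q₀ Q κ J H j cB := not_NE fun u hu hua =>
      near_B (v' := fun i => (cB (.inl i) : ℝ)) D (by
        show ((cB (.inl (s 0)) : ℕ) : ℝ) = a
        rw [hcB, rep_fst c _ _ n01]) (fun x hx0 hx1 => by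
        show ((cB (.inl x) : ℕ) : ℝ) = c (.inl x)
        rw [hcB, rep_ne c _ _ hx0 hx1]) hu hua
    have NC : ¬ NE a₀ A y w5 r Q₀ Q κ J H j cC := not_NE fun u hu hua =>
      near_AB (v' := fun i => (cC (.inl i) : ℝ)) D (by
        show ((cC (.inl (s 0)) : ℕ) : ℝ) = a
        rw [hcC, rep_fst cA _ _ n01]) (by
        show ((cC (.inl (s 2)) : ℕ) : ℝ) = a
        rw [hcC, rep_ne cA _ _ n02.symm n12.symm, hcA, rep_fst c _ _ n23])
        (fun x hx0 hx1 hx2 hx3 => by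
        show ((cC (.inl x) : ℕ) : ℝ) = c (.inl x)
        rw [hcC, rep_ne cA _ _ hx0 hx1, hcA, rep_ne c _ _ hx2 hx3]) hu hua
    -- the four inequalities
    have q0 := hd Q₀ Q hQ hQQ κ hκ1 hκ2 J H hH hH2 d₁ d₂ d₃ e hd₁ hd₂ hd₃ he he5 hQe t₁ t₂ τ 𝒟
      h𝒟 u hu z hz hlz j hj hjL c hc hc2 (hX0.trans hbig) hcls.1 s hs5
    have qA := ha Q₀ Q hQ hQQ κ hκ1 hκ2 J H hH hH2 d₁ d₂ d₃ e hd₁ hd₂ hd₃ he he5 hQe t₁ t₂ τ 𝒟
      h𝒟 u hu z hz hlz j hj hjL cA (by simp only [iA]; rw [sA]; exact hc)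
      (fun i => by rw [iA]; exact hc2 i) NA
    have qB := ha Q₀ Q hQ hQQ κ hκ1 hκ2 J H hH hH2 d₁ d₂ d₃ e hd₁ hd₂ hd₃ he he5 hQe t₁ t₂ τ 𝒟
      h𝒟 u hu z hz hlz j hj hjL cB (by simp only [iB]; rw [sB]; exact hc)
      (fun i => by rw [iB]; exact hc2 i) NB
    have qC := ha Q₀ Q hQ hQQ κ hκ1 hκ2 J H hH hH2 d₁ d₂ d₃ e hd₁ hd₂ hd₃ he he5 hQe t₁ t₂ τ 𝒟
      h𝒟 u hu z hz hlz j hj hjL cC (by simp only [iC]; rw [sC]; exact hc)
      (fun i => by rw [iC]; exact hc2 i) NC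
    have hX0' : 0 ≤ (nm d₁ : ℝ) * nm d₂ * nm d₃ * nm e * Q₀ := by linarith
    have q0' := q0.trans (rhs_mono le_rfl hCd (le_max_left Ad Aa) hX0' hT1 hTg0)
    have qA' := qA.trans (rhs_mono le_rfl hCa (le_max_right Ad Aa) hX0' hT1 hTg0)
    have qB' := qB.trans (rhs_mono le_rfl hCa (le_max_right Ad Aa) hX0' hT1 hTg0)
    have qC' := qC.trans (rhs_mono le_rfl hCa (le_max_right Ad Aa) hX0' hT1 hTg0)
    set U : ℝ := ((nm d₁ : ℝ) * nm d₂ * nm d₃ * nm e * Q₀) ^ ε *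
      (1 + |t₁| + |t₂| + |τ|) ^ max Ad Aa * Tg with hU
    have hU0 : 0 ≤ U := by
      have : 0 ≤ (1 + |t₁| + |t₂| + |τ|) ^ max Ad Aa := Real.rpow_nonneg (by linarith) _
      have : 0 ≤ ((nm d₁ : ℝ) * nm d₂ * nm d₃ * nm e * Q₀) ^ ε := Real.rpow_nonneg hX0' _
      positivity
    calc ∑ q ∈ 𝒟, ‖P.bx r y Q₀ (κ - u q) J H d₁ d₂ d₃ e t₁ t₂ τ z c q‖
        ≤ ∑ q ∈ 𝒟, (‖bxDD P P.NP2 r y Q₀ (κ - u q) J H d₁ d₂ d₃ e t₁ t₂ τ z c
            (s 0) (s 1) (s 2) (s 3) a (c (.inl (s 2)) + c (.inl (s 3)) - a)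
            a (c (.inl (s 0)) + c (.inl (s 1)) - a) q‖ +
          ‖P.bx r y Q₀ (κ - u q) J H d₁ d₂ d₃ e t₁ t₂ τ z cA q‖ +
          ‖P.bx r y Q₀ (κ - u q) J H d₁ d₂ d₃ e t₁ t₂ τ z cB q‖ +
          ‖P.bx r y Q₀ (κ - u q) J H d₁ d₂ d₃ e t₁ t₂ τ z cC q‖) :=
          Finset.sum_le_sum fun q _ => norm_bx_le hP r y Q₀ (κ - u q) J hH d₁ d₂ d₃ e t₁ t₂ τ z c
            n01 n23 n02 n03 n12 n13 _ _ _ _ q
      _ ≤ Cd * U + Ca * U + Ca * U + Ca * U := by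
          rw [Finset.sum_add_distrib, Finset.sum_add_distrib, Finset.sum_add_distrib]
          refine add_le_add (add_le_add (add_le_add ?_ ?_) ?_) ?_
          · exact q0'.trans (le_of_eq (by rw [hU]; ring))
          · exact qA'.trans (le_of_eq (by rw [hU]; ring))
          · exact qB'.trans (le_of_eq (by rw [hU]; ring))
          · exact qC'.trans (le_of_eq (by rw [hU]; ring))
      _ = (Cd + 3 * Ca) * U := by ring
      _ ≤ max Cs (Cd + 3 * Ca) * U := mul_le_mul_of_nonneg_right (le_max_right _ _) hU0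
      _ = _ := by rw [hU]; ring

/-- **the reduction**: double differences and the boxes outside `NE` give the boxes in `NE` -/
theorem evBox_of_dd {θ : ℝ} (hθ : 0 ≤ θ) (hθ1 : θ ≤ 1) {y : ℝ} (hy : 0 < y)
    {Pk : DPar → Prop} {a₀ A β : ℝ}
    (ha₀ : 0 < a₀) (hβ : 0 ≤ β) (h1 : 2 < 3 * A * (a₀ * (1 / 2 + y)))
    (h2 : 1 + 4 * β * (a₀ * (1 / 2 + y)) < 9 / 4 * A * (a₀ * (1 / 2 + y)))
    (h3 : 4 * β < A) (hdd : EvDD θ y Pk (fun P => P.NP2) a₀ A β)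
    (habs : EvBox θ y Pk (fun r Q₀ Q κ J H j c => ¬ NE a₀ A y w5 r Q₀ Q κ J H j c)) :
    EvBox θ y Pk (fun r => NE a₀ A y w5 r) := by
  unfold EvBox EvDD at *
  filter_upwards [hdd, habs] with r e1 e2
  filter_upwards [e1, e2, self_mem_nhdsWithin] with δ f1 f2 f3
  filter_upwards [f1, f2, Ioc_mem_nhdsGT (show (0 : ℝ) < 1 / 16 by norm_num)] with η g1 g2 g3
  filter_upwards [g1, g2] with L i1 i2
  exact box3p_of_dd hθ hθ1 hy f3 g3.1 g3.2 ha₀ hβ h1 h2 h3 i1 i2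

/-- the whole exceptional class from the two parts -/
theorem evBox_all_of_dd {θ : ℝ} (hθ : 0 ≤ θ) (hθ1 : θ ≤ 1) {y : ℝ} (hy : 0 < y)
    {Pk : DPar → Prop} {a₀ A β : ℝ}
    (ha₀ : 0 < a₀) (hβ : 0 ≤ β) (h1 : 2 < 3 * A * (a₀ * (1 / 2 + y)))
    (h2 : 1 + 4 * β * (a₀ * (1 / 2 + y)) < 9 / 4 * A * (a₀ * (1 / 2 + y)))
    (h3 : 4 * β < A) (hdd : EvDD θ y Pk (fun P => P.NP2) a₀ A β)
    (habs : EvBox θ y Pk (fun r Q₀ Q κ J H j c => ¬ NE a₀ A y w5 r Q₀ Q κ J H j c)) :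
    EvBox θ y Pk (fun _ _ _ _ _ _ _ _ => True) :=
  EvBox.split (fun r => NE a₀ A y w5 r) (evBox_of_dd hθ hθ1 hy ha₀ hβ h1 h2 h3 hdd habs) habs

/-- the numerical conditions at `y = 1/4`, `a₀ = 179/200`, `A = 999/1000`, `β = 17/100` -/
example : (2 : ℝ) < 3 * (999 / 1000) * (179 / 200 * (1 / 2 + 1 / 4)) ∧
    (1 : ℝ) + 4 * (17 / 100) * (179 / 200 * (1 / 2 + 1 / 4)) <
      9 / 4 * (999 / 1000) * (179 / 200 * (1 / 2 + 1 / 4)) ∧ (4 : ℝ) * (17 / 100) < 999 / 1000 := by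
  norm_num

end Crest.Agent.R017.ExBox960
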