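import Crest.Agent.R017.ExBox1_960
import Crest.Agent.R017.BxT_986

/-!
# Row 17, D.box, exceptional class: separation of a difference of shapes (helper960)

* `gg_rel`, `gval_rel` : partition of unity relative to the scale, values at the own scale
* `avg`                : averages of linear forms, signed
* `sepS_dd`            : separation of `gval y₀ * gval y₁ - gval z₀ * gval z₁`, `y₀ + y₁ = z₀ + z₁`
* `Co`, `Dp`           : a piece at its own scale, the difference of two shapes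
-/

set_option autoImplicit false
set_option linter.unusedVariables false
set_option linter.unusedSectionVars false

noncomputable section

open Complex MeasureTheory Filter Topology
open scoped ComplexConjugate ContDiff

namespace Crest.Agent.R017.ExBox960

open Crest.Agent.R012 Crest.Agent.R012.Eis Crest.Agent.R012.Mob705
open Crest.Agent.R012.LS2 (bl)
open Crest.Agent.R012.Weight600 (osc norm_osc ker)
open Crest.Agent.R012.PSer47 (IsChar)
open Crest.Agent.R017.CM106 Crest.Agent.R017.FE47 Crest.Agent.R017.End699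
open Crest.Agent.R017.HSep813 Crest.Agent.R017.HP842 Crest.Agent.R017.B770
open Crest.Agent.R017.HB645 Crest.Agent.R017.Sup271 Crest.Agent.R017.Asm986
open Crest.Agent.R017.HBS271 Crest.Agent.R017.BoxP271 Crest.Agent.R017.Bx986

/-! ### relative partition of unity -/

/-- the shift number `n` of the relative grid -/
def sh (c R : ℝ) (n : ℕ) : ℝ := c * n - c * ⌈R / c⌉₊

/-- the relative grid -/
def rg (c R : ℝ) : Finset ℕ := grid c (c * ⌈R / c⌉₊) (2 * R)

lemma mem_rg {c R : ℝ} (hc : 0 < c) {n : ℕ} : n ∈ rg c R ↔ |sh c R n| ≤ 2 * R := by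
  unfold rg sh
  rw [mem_grid hc]

lemma card_rg {c R : ℝ} (hc : 0 < c) (hR : 0 ≤ R) : ((rg c R).card : ℝ) ≤ 2 * (2 * R) / c + 1 :=
  card_grid hc (by positivity)

lemma gg_rel {h : ℝ → ℝ} {c : ℝ} (hpu : PU h c) {w : ℝ → ℂ} {R : ℝ}
    (hR : ∀ u, cx h u ≠ 0 → |u| ≤ R) (hw : SWt w R) (y t : ℝ) (b : Eis) :
    gg w (Real.exp y) t b = ∑ n ∈ rg c R, ∫ u : ℝ, (ker w u * osc u (-y)) *
      gw h (Real.exp (y + sh c R n)) (t + u) b := by
  have hc := hpu.cpos
  set x := Real.log (nm b) with hx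
  have hR' : ∀ u, h u ≠ 0 → |u| ≤ R := fun u hu => hR u (by
    unfold cx
    exact_mod_cast hu)
  have hn0 : R ≤ c * (⌈R / c⌉₊ : ℝ) := by
    have := Nat.le_ceil (R / c)
    rwa [div_le_iff₀ hc, mul_comm] at this
  have h2 : w (x - y) = ∑ n ∈ rg c R, (h (x - (y + sh c R n)) : ℂ) * w (x - y) := by
    by_cases hw0 : w (x - y) = 0
    · rw [hw0]; simp
    have hxy := hw.rad _ hw0
    have hv : 0 ≤ (x - y) + c * (⌈R / c⌉₊ : ℝ) := by
      have := (abs_le.1 hxy).1
      linarith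
    have h1 := hpu.one _ hv
    have e : ∀ n : ℕ, (x - y) + c * (⌈R / c⌉₊ : ℝ) - c * n = x - (y + sh c R n) := by
      intro n; unfold sh; ring
    have h3 : ∑' n : ℕ, h ((x - y) + c * (⌈R / c⌉₊ : ℝ) - c * n) =
        ∑ n ∈ rg c R, h (x - (y + sh c R n)) := by
      rw [tsum_eq_sum (s := rg c R)]
      · exact Finset.sum_congr rfl fun n _ => by rw [e n]
      · intro n hn
        by_contra h0
        apply hn
        rw [mem_rg hc]
        rw [e n] at h0
        have ha := hR' _ h0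
        have : sh c R n = (x - y) - (x - (y + sh c R n)) := by ring
        rw [this]
        calc |(x - y) - (x - (y + sh c R n))| ≤ |x - y| + |x - (y + sh c R n)| := abs_sub _ _
          _ ≤ 2 * R := by linarith
    rw [h1] at h3
    rw [← Finset.sum_mul, ← Complex.ofReal_sum, ← h3, Complex.ofReal_one, one_mul]
  have hinv := Weight600.inversion_smooth hw.cd hw.cs (x - y)
  have key : ∀ n : ℕ, ∫ u : ℝ, (ker w u * osc u (-y)) *
      gw h (Real.exp (y + sh c R n)) (t + u) b =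
      osc t x * ((h (x - (y + sh c R n)) : ℂ) * w (x - y)) := by
    intro n
    have e1 : ∀ u : ℝ, (ker w u * osc u (-y)) *
        gw h (Real.exp (y + sh c R n)) (t + u) b =
        (ker w u * osc u (x - y)) * (osc t x * (h (x - (y + sh c R n)) : ℂ)) := by
      intro u
      unfold gw cx
      rw [Real.log_exp, Weight600.osc_add_left, ← hx]
      have e2 : osc u (x - y) = osc u x * osc u (-y) := by
        rw [← Weight600.osc_add_right]; rfl
      rw [e2]
      ring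
    simp_rw [e1]
    rw [integral_mul_const, hinv]
    ring
  rw [Finset.sum_congr rfl fun n _ => key n, ← Finset.mul_sum]
  unfold gg
  rw [← hx, Real.log_exp]
  conv_lhs => rw [h2]

/-- a linear form at its own scale -/
def Lo (h : ℝ → ℝ) (N : ℕ) (φ : Eis → ℂ) (y t : ℝ) : ℂ :=
  osc t (-y) * LF h (primBall N) id φ (Real.exp y) t

lemma osc_cancel (t y : ℝ) : osc t y * osc t (-y) = 1 := by
  rw [← Weight600.osc_add_right, add_neg_cancel, Weight600.osc_zero_right]

lemma LF_eq_Lo (h : ℝ → ℝ) (N : ℕ) (φ : Eis → ℂ) (y t : ℝ) :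
    LF h (primBall N) id φ (Real.exp y) t = osc t y * Lo h N φ y t := by
  unfold Lo
  rw [← mul_assoc, osc_cancel, one_mul]

lemma continuous_Lo (h : ℝ → ℝ) (N : ℕ) (φ : Eis → ℂ) (y : ℝ) : Continuous (Lo h N φ y) := by
  unfold Lo
  exact (Weight600.continuous_osc_left _).mul (continuous_LF _ _ _ _ _)

lemma norm_Lo_le {h : ℝ → ℝ} {A : ℝ} (hA : ∀ u, ‖cx h u‖ ≤ A) (N : ℕ) (φ : Eis → ℂ) (y t : ℝ) :
    ‖Lo h N φ y t‖ ≤ ∑ b ∈ primBall N, ‖φ b‖ * A := by
  unfold Lo
  rw [norm_mul, norm_osc, one_mul]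
  exact norm_LF_le hA _ _ _ _ _

lemma exists_Lo_bd {h : ℝ → ℝ} {c : ℝ} (hpu : PU h c) (N : ℕ) (φ : Eis → ℂ) :
    ∃ A, ∀ y t, ‖Lo h N φ y t‖ ≤ A := by
  obtain ⟨A, hA⟩ : ∃ A, ∀ u, ‖cx h u‖ ≤ A :=
    (cs_cx hpu.cs).exists_bound_of_continuous (cd_cx hpu.cd).continuous
  exact ⟨_, fun y t => norm_Lo_le hA N φ y t⟩

lemma integrable_ker_osc {w : ℝ → ℂ} {R : ℝ} (hw : SWt w R) (t x : ℝ) {F : ℝ → ℂ}
    (hF : Continuous F) {A : ℝ} (hA : ∀ s, ‖F s‖ ≤ A) :
    Integrable fun s : ℝ => (ker w s * osc (t + s) x) * F s := by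
  have hki := Weight600.ker_integrable hw.cd hw.cs
  have h1 : Integrable fun s : ℝ => ker w s * osc (t + s) x :=
    hki.mul_bdd (c := 1) ((Weight600.continuous_osc_left x).comp
      (continuous_const.add continuous_id)).aestronglyMeasurable
      (Eventually.of_forall fun u => (norm_osc _ _).le)
  exact h1.mul_bdd (c := A) hF.aestronglyMeasurable (Eventually.of_forall hA)

/-- **values relative to the own scale** -/
lemma gval_rel {h : ℝ → ℝ} {c : ℝ} (hpu : PU h c) {w : ℝ → ℂ} {R : ℝ}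
    (hR : ∀ u, cx h u ≠ 0 → |u| ≤ R) (hw : SWt w R) (N : ℕ) (d : Pc) (y : ℝ) (k : Eis) :
    gval w N d y k = osc d.t y * ∑ n ∈ rg c R, ∫ s : ℝ, (ker w s * osc (d.t + s) (sh c R n)) *
      Lo h N (φc d k) (y + sh c R n) (d.t + s) := by
  have hki := Weight600.ker_integrable hw.cd hw.cs
  obtain ⟨A, hA⟩ : ∃ A, ∀ u, ‖cx h u‖ ≤ A :=
    (cs_cx hpu.cs).exists_bound_of_continuous (cd_cx hpu.cd).continuous
  have hint : ∀ (n : ℕ) (b : Eis), Integrable (fun s : ℝ =>
      (ker w s * osc s (-y)) * (φc d k b * gw h (Real.exp (y + sh c R n)) (d.t + s) b)) := by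
    intro n b
    refine (integrable_mul_osc hki _).mul_bdd (c := ‖φc d k b‖ * A)
      ((continuous_const.mul ((continuous_gw h (Real.exp (y + sh c R n)) b).comp
        (continuous_const.add continuous_id)))).aestronglyMeasurable
      (Eventually.of_forall fun u => ?_)
    rw [norm_mul]
    exact mul_le_mul_of_nonneg_left (norm_gw_le hA _ _ _) (norm_nonneg _)
  unfold gval
  have e1 : ∀ b ∈ primBall N, φc d k b * gg w (Real.exp y) d.t b =
      ∑ n ∈ rg c R, ∫ s : ℝ, (ker w s * osc s (-y)) *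
        (φc d k b * gw h (Real.exp (y + sh c R n)) (d.t + s) b) := by
    intro b _
    rw [gg_rel hpu hR hw y d.t b, Finset.mul_sum]
    refine Finset.sum_congr rfl fun n _ => ?_
    rw [← integral_const_mul]
    congr 1
    funext s
    ring
  rw [Finset.sum_congr rfl e1, Finset.sum_comm, Finset.mul_sum]
  refine Finset.sum_congr rfl fun n _ => ?_
  rw [← integral_finsetSum _ fun b _ => hint n b, ← integral_const_mul]
  congr 1
  funext s
  rw [← Finset.mul_sum]
  have e2 : ∑ b ∈ primBall N, φc d k b * gw h (Real.exp (y + sh c R n)) (d.t + s) b =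
      LF h (primBall N) id (φc d k) (Real.exp (y + sh c R n)) (d.t + s) := rfl
  rw [e2, LF_eq_Lo]
  have e3 : osc s (-y) * osc (d.t + s) (y + sh c R n) =
      osc d.t y * osc (d.t + s) (sh c R n) := by
    rw [Weight600.osc_add_right, Weight600.osc_add_left d.t s y]
    have := osc_cancel s y
    calc osc s (-y) * (osc d.t y * osc s y * osc (d.t + s) (sh c R n)) =
        (osc s y * osc s (-y)) * (osc d.t y * osc (d.t + s) (sh c R n)) := by ring
      _ = _ := by rw [this, one_mul]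
  calc ker w s * osc s (-y) * (osc (d.t + s) (y + sh c R n) *
        Lo h N (φc d k) (y + sh c R n) (d.t + s))
      = ker w s * (osc s (-y) * osc (d.t + s) (y + sh c R n)) *
        Lo h N (φc d k) (y + sh c R n) (d.t + s) := by ring
    _ = _ := by rw [e3]; ring

/-! ### averages -/

/-- **averages of linear forms, signed** -/
theorem avg {w : ℝ → ℂ} {R : ℝ} (hw : SWt w R) (M : ℝ) : ∃ C : ℝ, 0 ≤ C ∧
    ∀ {ξ ι : Type} (X : Finset ξ) (K : Finset ι) (S : Finset ℕ) (t : ℝ) (σ : ℕ → ℝ)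
      (F : ℕ → ℝ → ι → ℂ) (a : ξ → ι → ℂ) (B : ℝ), 0 ≤ B →
      (∀ n i, Continuous fun s => F n s i) → (∀ n i, ∃ A, ∀ s, ‖F n s i‖ ≤ A) →
      (∀ n ∈ S, ∀ s, ∑ x ∈ X, ‖∑ i ∈ K, a x i * F n s i‖ ≤ B * (1 + |s|) ^ M) →
      ∑ x ∈ X, ‖∑ i ∈ K, a x i * ∑ n ∈ S, ∫ s : ℝ, (ker w s * osc (t + s) (σ n)) * F n s i‖ ≤
        S.card * (C * B) := by
  obtain ⟨C, hC, hmom⟩ := sum_int_le hw M
  refine ⟨C, hC, ?_⟩
  intro ξ ι X K S t σ F a B hB hcont hbd hyp
  have hint : ∀ n i, Integrable fun s : ℝ => (ker w s * osc (t + s) (σ n)) * F n s i := by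
    intro n i
    obtain ⟨A, hA⟩ := hbd n i
    exact integrable_ker_osc hw t (σ n) (hcont n i) hA
  have hsc : ∀ n x, Continuous fun s => ∑ i ∈ K, a x i * F n s i := fun n x =>
    continuous_finsetSum _ fun i _ => continuous_const.mul (hcont n i)
  have hsb : ∀ n x, ∃ A, ∀ s, ‖∑ i ∈ K, a x i * F n s i‖ ≤ A := by
    intro n x
    choose A hA using fun i => hbd n i
    refine ⟨∑ i ∈ K, ‖a x i‖ * A i, fun s => ?_⟩
    refine (norm_sum_le _ _).trans (Finset.sum_le_sum fun i _ => ?_)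
    rw [norm_mul]
    exact mul_le_mul_of_nonneg_left (hA i s) (norm_nonneg _)
  have h1 : ∀ x ∈ X, ‖∑ i ∈ K, a x i * ∑ n ∈ S, ∫ s : ℝ, (ker w s * osc (t + s) (σ n)) *
      F n s i‖ ≤ ∑ n ∈ S, ∫ s : ℝ, ‖ker w s‖ * ‖∑ i ∈ K, a x i * F n s i‖ := by
    intro x _
    have e2 : ∑ i ∈ K, a x i * ∑ n ∈ S, ∫ s : ℝ, (ker w s * osc (t + s) (σ n)) * F n s i =
        ∑ n ∈ S, ∫ s : ℝ, (ker w s * osc (t + s) (σ n)) * ∑ i ∈ K, a x i * F n s i := by
      calc _ = ∑ i ∈ K, ∑ n ∈ S, ∫ s : ℝ, a x i * ((ker w s * osc (t + s) (σ n)) * F n s i) := by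
            refine Finset.sum_congr rfl fun i _ => ?_
            rw [Finset.mul_sum]
            refine Finset.sum_congr rfl fun n _ => ?_
            rw [integral_const_mul]
        _ = ∑ n ∈ S, ∑ i ∈ K, ∫ s : ℝ, a x i * ((ker w s * osc (t + s) (σ n)) * F n s i) :=
            Finset.sum_comm
        _ = _ := by
            refine Finset.sum_congr rfl fun n _ => ?_
            rw [← integral_finsetSum _ fun i _ => (hint n i).const_mul _]
            congr 1
            funext s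
            rw [Finset.mul_sum]
            exact Finset.sum_congr rfl fun i _ => by ring
    rw [e2]
    refine (norm_sum_le _ _).trans (Finset.sum_le_sum fun n _ => ?_)
    refine (norm_integral_le_integral_norm _).trans (le_of_eq ?_)
    congr 1
    funext s
    rw [norm_mul, norm_mul, norm_osc, mul_one]
  have h2 : ∑ x ∈ X, ‖∑ i ∈ K, a x i * ∑ n ∈ S, ∫ s : ℝ, (ker w s * osc (t + s) (σ n)) *
      F n s i‖ ≤ ∑ n ∈ S, ∑ x ∈ X, (1 : ℝ) *
      ∫ s : ℝ, ‖ker w s‖ * ‖∑ i ∈ K, a x i * F n s i‖ := by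
    rw [Finset.sum_comm]
    refine Finset.sum_le_sum fun x hx => ?_
    simp only [one_mul]
    exact h1 x hx
  refine h2.trans ?_
  have h3 : ∀ n ∈ S, ∑ x ∈ X, (1 : ℝ) * ∫ s : ℝ, ‖ker w s‖ * ‖∑ i ∈ K, a x i * F n s i‖ ≤
      C * B := by
    intro n hn
    refine hmom X (fun _ => 1) (fun x s => ∑ i ∈ K, a x i * F n s i) B (fun _ => zero_le_one)
      hB (fun x => hsc n x) (fun x => hsb n x) (fun s => ?_)
    simp only [one_mul]
    exact hyp n hn s
  refine (Finset.sum_le_sum h3).trans ?_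
  rw [Finset.sum_const, nsmul_eq_mul]

/-- **separation of a difference of two shapes** -/
theorem sepS_dd {h : ℝ → ℝ} {c : ℝ} (hpu : PU h c) {w : ℝ → ℂ} {R : ℝ} (hR0 : 0 ≤ R)
    (hR : ∀ u, cx h u ≠ 0 → |u| ≤ R) (hw : SWt w R) (M : ℝ) :
    ∃ C : ℝ, 0 ≤ C ∧ ∀ {ξ ι : Type} (X : Finset ξ) (K : Finset ι) (k : ι → Eis) (d : Pc)
      (y₀ y₁ z₀ z₁ : ℝ) (N : ℕ), y₀ + y₁ = z₀ + z₁ → ∀ (a : ξ → ι → ℂ) (B : ℝ), 0 ≤ B →
      (∀ σ σ' s s' : ℝ, |σ| ≤ 2 * R → |σ'| ≤ 2 * R →
        ∑ x ∈ X, ‖∑ i ∈ K, a x i *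
          (Lo h N (φc d (k i)) (y₀ + σ) (d.t + s) * Lo h N (φc d (k i)) (y₁ + σ') (d.t + s') -
            Lo h N (φc d (k i)) (z₀ + σ) (d.t + s) * Lo h N (φc d (k i)) (z₁ + σ') (d.t + s'))‖ ≤
          B * ((1 + |s|) ^ M * (1 + |s'|) ^ M)) →
      ∑ x ∈ X, ‖∑ i ∈ K, a x i * (gval w N d y₀ (k i) * gval w N d y₁ (k i) -
        gval w N d z₀ (k i) * gval w N d z₁ (k i))‖ ≤ C * B := by
  obtain ⟨C0, hC0, hav⟩ := avg hw M
  have hc := hpu.cpos
  set W := 2 * (2 * R) / c + 1 with hW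
  have hW0 : 0 ≤ W := by positivity
  have hcard : ((rg c R).card : ℝ) ≤ W := card_rg hc hR0
  refine ⟨W * (C0 * (W * C0)), by positivity, ?_⟩
  intro ξ ι X K k d y₀ y₁ z₀ z₁ N hyz a B hB hyp
  set f : ℝ → ℕ → ℝ → ι → ℂ := fun y n s i =>
    Lo h N (φc d (k i)) (y + sh c R n) (d.t + s) with hf
  have hfc : ∀ y n i, Continuous fun s => f y n s i := fun y n i =>
    (continuous_Lo _ _ _ _).comp (continuous_const.add continuous_id)
  have hfb : ∀ i, ∃ A, ∀ y n s, ‖f y n s i‖ ≤ A := by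
    intro i
    obtain ⟨A, hA⟩ := exists_Lo_bd hpu N (φc d (k i))
    exact ⟨A, fun y n s => hA _ _⟩
  set g : ℝ → ι → ℂ := fun y i => ∑ n ∈ rg c R, ∫ s : ℝ,
    (ker w s * osc (d.t + s) (sh c R n)) * f y n s i with hg
  have hgv : ∀ y i, gval w N d y (k i) = osc d.t y * g y i := fun y i =>
    gval_rel hpu hR hw N d y (k i)
  have hint : ∀ y n i, Integrable fun s : ℝ =>
      (ker w s * osc (d.t + s) (sh c R n)) * f y n s i := by
    intro y n i
    obtain ⟨A, hA⟩ := hfb i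
    exact integrable_ker_osc hw d.t (sh c R n) (hfc y n i) (hA y n)
  -- the inner bracket
  set G : ℕ → ℝ → ι → ℂ := fun n s i => f y₀ n s i * g y₁ i - f z₀ n s i * g z₁ i with hG
  have e1 : ∀ i, gval w N d y₀ (k i) * gval w N d y₁ (k i) -
      gval w N d z₀ (k i) * gval w N d z₁ (k i) = osc d.t (y₀ + y₁) *
      ∑ n ∈ rg c R, ∫ s : ℝ, (ker w s * osc (d.t + s) (sh c R n)) * G n s i := by
    intro i
    have e2 : ∑ n ∈ rg c R, ∫ s : ℝ, (ker w s * osc (d.t + s) (sh c R n)) * G n s i =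
        g y₀ i * g y₁ i - g z₀ i * g z₁ i := by
      have e3 : ∀ n ∈ rg c R, ∫ s : ℝ, (ker w s * osc (d.t + s) (sh c R n)) * G n s i =
          (∫ s : ℝ, (ker w s * osc (d.t + s) (sh c R n)) * f y₀ n s i) * g y₁ i -
          (∫ s : ℝ, (ker w s * osc (d.t + s) (sh c R n)) * f z₀ n s i) * g z₁ i := by
        intro n _
        rw [← integral_mul_const, ← integral_mul_const,
          ← integral_sub ((hint y₀ n i).mul_const _) ((hint z₀ n i).mul_const _)]
        congr 1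
        funext s
        rw [hG]
        ring
      rw [Finset.sum_congr rfl e3, Finset.sum_sub_distrib, ← Finset.sum_mul, ← Finset.sum_mul]
    rw [e2, hgv, hgv, hgv, hgv, mul_sub]
    have e4 : osc d.t (y₀ + y₁) = osc d.t y₀ * osc d.t y₁ := Weight600.osc_add_right _ _ _
    have e5 : osc d.t (y₀ + y₁) = osc d.t z₀ * osc d.t z₁ := by
      rw [hyz]; exact Weight600.osc_add_right _ _ _
    calc osc d.t y₀ * g y₀ i * (osc d.t y₁ * g y₁ i) - osc d.t z₀ * g z₀ i * (osc d.t z₁ * g z₁ i)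
        = (osc d.t y₀ * osc d.t y₁) * (g y₀ i * g y₁ i) -
          (osc d.t z₀ * osc d.t z₁) * (g z₀ i * g z₁ i) := by ring
      _ = _ := by rw [← e4, ← e5]
  have e6 : ∑ x ∈ X, ‖∑ i ∈ K, a x i * (gval w N d y₀ (k i) * gval w N d y₁ (k i) -
        gval w N d z₀ (k i) * gval w N d z₁ (k i))‖ =
      ∑ x ∈ X, ‖∑ i ∈ K, a x i *
        ∑ n ∈ rg c R, ∫ s : ℝ, (ker w s * osc (d.t + s) (sh c R n)) * G n s i‖ := by
    refine Finset.sum_congr rfl fun x _ => ?_
    have e7 : ∑ i ∈ K, a x i * (gval w N d y₀ (k i) * gval w N d y₁ (k i) -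
        gval w N d z₀ (k i) * gval w N d z₁ (k i)) = osc d.t (y₀ + y₁) * ∑ i ∈ K, a x i *
        ∑ n ∈ rg c R, ∫ s : ℝ, (ker w s * osc (d.t + s) (sh c R n)) * G n s i := by
      rw [Finset.mul_sum]
      exact Finset.sum_congr rfl fun i _ => by rw [e1 i]; ring
    rw [e7, norm_mul, norm_osc, one_mul]
  rw [e6]
  have hGc : ∀ n i, Continuous fun s => G n s i := fun n i => by
    rw [hG]
    exact ((hfc y₀ n i).mul continuous_const).sub ((hfc z₀ n i).mul continuous_const)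
  have hGb : ∀ n i, ∃ A, ∀ s, ‖G n s i‖ ≤ A := by
    intro n i
    obtain ⟨A, hA⟩ := hfb i
    refine ⟨A * ‖g y₁ i‖ + A * ‖g z₁ i‖, fun s => ?_⟩
    rw [hG]
    refine (norm_sub_le _ _).trans ?_
    rw [norm_mul, norm_mul]
    exact add_le_add (mul_le_mul_of_nonneg_right (hA _ _ _) (norm_nonneg _))
      (mul_le_mul_of_nonneg_right (hA _ _ _) (norm_nonneg _))
  have h1 := hav X K (rg c R) d.t (sh c R) G a (W * C0 * B) (by positivity) hGc hGb (by
    intro n hn s
    have hσ := (mem_rg hc).1 hn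
    set F : ℕ → ℝ → ι → ℂ := fun n' s' i =>
      f y₀ n s i * f y₁ n' s' i - f z₀ n s i * f z₁ n' s' i with hF
    have e8 : ∀ i, G n s i = ∑ n' ∈ rg c R, ∫ s' : ℝ,
        (ker w s' * osc (d.t + s') (sh c R n')) * F n' s' i := by
      intro i
      have e9 : ∀ n' ∈ rg c R, ∫ s' : ℝ, (ker w s' * osc (d.t + s') (sh c R n')) * F n' s' i =
          f y₀ n s i * (∫ s' : ℝ, (ker w s' * osc (d.t + s') (sh c R n')) * f y₁ n' s' i) -
          f z₀ n s i * (∫ s' : ℝ, (ker w s' * osc (d.t + s') (sh c R n')) * f z₁ n' s' i) := by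
        intro n' _
        rw [← integral_const_mul, ← integral_const_mul,
          ← integral_sub ((hint y₁ n' i).const_mul _) ((hint z₁ n' i).const_mul _)]
        congr 1
        funext s'
        rw [hF]
        ring
      rw [Finset.sum_congr rfl e9, Finset.sum_sub_distrib, ← Finset.mul_sum, ← Finset.mul_sum]
    have h2 := hav X K (rg c R) d.t (sh c R) F a (B * (1 + |s|) ^ M)
      (mul_nonneg hB (Real.rpow_nonneg (by positivity) _))
      (fun n' i => by
        rw [hF]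
        exact (continuous_const.mul (hfc y₁ n' i)).sub (continuous_const.mul (hfc z₁ n' i)))
      (fun n' i => by
        obtain ⟨A, hA⟩ := hfb i
        refine ⟨‖f y₀ n s i‖ * A + ‖f z₀ n s i‖ * A, fun s' => ?_⟩
        rw [hF]
        refine (norm_sub_le _ _).trans ?_
        rw [norm_mul, norm_mul]
        exact add_le_add (mul_le_mul_of_nonneg_left (hA _ _ _) (norm_nonneg _))
          (mul_le_mul_of_nonneg_left (hA _ _ _) (norm_nonneg _)))
      (fun n' hn' s' => by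
        have h3 := hyp (sh c R n) (sh c R n') s s' hσ ((mem_rg hc).1 hn')
        calc _ ≤ B * ((1 + |s|) ^ M * (1 + |s'|) ^ M) := h3
          _ = _ := by ring)
    calc ∑ x ∈ X, ‖∑ i ∈ K, a x i * G n s i‖
        = ∑ x ∈ X, ‖∑ i ∈ K, a x i * ∑ n' ∈ rg c R, ∫ s' : ℝ,
          (ker w s' * osc (d.t + s') (sh c R n')) * F n' s' i‖ := by
          refine Finset.sum_congr rfl fun x _ => ?_
          congr 1
          exact Finset.sum_congr rfl fun i _ => by rw [e8 i]
      _ ≤ (rg c R).card * (C0 * (B * (1 + |s|) ^ M)) := h2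
      _ ≤ W * (C0 * (B * (1 + |s|) ^ M)) := by
          refine mul_le_mul_of_nonneg_right hcard ?_
          have : 0 ≤ (1 + |s|) ^ M := Real.rpow_nonneg (by positivity) _
          positivity
      _ = _ := by ring)
  calc _ ≤ (rg c R).card * (C0 * (W * C0 * B)) := h1
    _ ≤ W * (C0 * (W * C0 * B)) := mul_le_mul_of_nonneg_right hcard (by positivity)
    _ = _ := by ring

/-! ### the pieces at their own scale -/

/-- the value of a piece at its own scale -/
def Co (h : ℝ → ℝ) (p : Pc) (k : Eis) : ℂ := osc p.t (-Real.log p.Y) * CS (pc h p) k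

/-- **the difference of two shapes** `(p, p') - (p with length Z, p' with length Z')` -/
def Dp (h : ℝ → ℝ) (p p' : Pc) (Z Z' : ℝ) (k : Eis) : ℂ :=
  Co h p k * Co h p' k - Co h ⟨p.u, p.ψ, Z, p.t⟩ k * Co h ⟨p'.u, p'.ψ, Z', p'.t⟩ k

lemma Co_eq_Lo {h : ℝ → ℝ} {R : ℝ} (hR : ∀ u, cx h u ≠ 0 → |u| ≤ R) (d : Pc) (y t : ℝ) {N : ℕ}
    (hN : Real.exp (y + R) ≤ N) (k : Eis) :
    Co h ⟨d.u, d.ψ, Real.exp y, t⟩ k = Lo h N (φc d k) y t := by
  unfold Co Lo
  dsimp only
  rw [Real.log_exp, CS_pc_eq hR ⟨d.u, d.ψ, Real.exp y, t⟩ (by dsimp only; rwa [Real.log_exp]) k]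
  rfl

end Crest.Agent.R017.ExBox960
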