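import Crest.Agent.R017.ExBox2_960
import Crest.Agent.R017.ExBox6_960

/-!
# Row 17, D.box, exceptional class: the signed bridge for double differences (helper960)

* `pS P d₂ y t`  : a smooth piece of the Möbius sum, log-length `y`, height `t`
* `dsR P d₂ t₂ c S` : the pieces of the box except the smooth ones in `S`
* `DV`           : value of the double difference, four shifted pieces
* `bxDD_signed`  : **the signed bridge**
-/

set_option autoImplicit false
set_option linter.unusedVariables false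
set_option linter.unusedSectionVars false

noncomputable section

open Complex MeasureTheory Filter Topology
open scoped ComplexConjugate ContDiff

namespace Crest.Agent.R017.ExBox960

open Crest.Agent.R012 Crest.Agent.R012.Eis Crest.Agent.R012.Mob705
open Crest.Agent.R012.LS2 (bl)
open Crest.Agent.R012.Weight600 (osc norm_osc ker)
open Crest.Agent.R012.PSer47 (IsChar)
open Crest.Agent.R017.CM106 Crest.Agent.R017.FE47 Crest.Agent.R017.End699
open Crest.Agent.R017.HSep813 Crest.Agent.R017.HP842 Crest.Agent.R017.B770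
open Crest.Agent.R017.HB645 Crest.Agent.R017.Sup271 Crest.Agent.R017.Asm986
open Crest.Agent.R017.HBS271 Crest.Agent.R017.BoxP271 Crest.Agent.R017.Bx986

/-- a smooth piece of the Möbius sum -/
def pS (P : DPar) (d₂ : Eis) (y t : ℝ) : Pc := ⟨.one, χS P d₂, Real.exp y, t⟩

/-- the pieces of the box except the smooth ones in `S` -/
def dsR (P : DPar) (d₂ : Eis) (t₂ : ℝ) {j : ℕ} (c : Fin (j - 1) ⊕ Fin j → ℕ)
    (S : Finset (Fin (j - 1))) : List Pc :=
  ((Finset.univ \ S).toList.map fun i => pS P d₂ (c (Sum.inl i)) t₂) ++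
    List.ofFn fun i : Fin j => (⟨.mu, χS P d₂, Real.exp (c (Sum.inr i)), t₂⟩ : Pc)

/-- the values of these pieces -/
def VR (P : DPar) (d₂ : Eis) (t₂ z : ℝ) (N : ℕ) {j : ℕ} (c : Fin (j - 1) ⊕ Fin j → ℕ)
    (S : Finset (Fin (j - 1))) : List ((Eis → Eis → ℂ) × Pc) :=
  ((Finset.univ \ S).toList.map fun i =>
      ((fun _ k : Eis => gval hC N (pS P d₂ (c (Sum.inl i)) t₂) (c (Sum.inl i)) k),
        pS P d₂ (c (Sum.inl i)) t₂)) ++
    List.ofFn fun i : Fin j =>
      ((fun _ k : Eis => mval N ⟨.mu, χS P d₂, Real.exp (c (Sum.inr i)), t₂⟩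
        (c (Sum.inr i)) z k), (⟨.mu, χS P d₂, Real.exp (c (Sum.inr i)), t₂⟩ : Pc))

lemma VR_snd (P : DPar) (d₂ : Eis) (t₂ z : ℝ) (N : ℕ) {j : ℕ} (c : Fin (j - 1) ⊕ Fin j → ℕ)
    (S : Finset (Fin (j - 1))) : (VR P d₂ t₂ z N c S).map Prod.snd = dsR P d₂ t₂ c S := by
  unfold VR dsR
  simp only [List.map_append, List.map_ofFn, List.map_map]
  rfl

lemma VR_length (P : DPar) (d₂ : Eis) (t₂ z : ℝ) (N : ℕ) {j : ℕ}
    (c : Fin (j - 1) ⊕ Fin j → ℕ) (S : Finset (Fin (j - 1))) :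
    (VR P d₂ t₂ z N c S).length ≤ (j - 1) + j := by
  unfold VR
  rw [List.length_append, List.length_map, List.length_ofFn, Finset.length_toList]
  have := Finset.card_le_univ (Finset.univ \ S)
  rw [Fintype.card_fin] at this
  omega

lemma PS_gval (P : DPar) (d₂ : Eis) (t₂ : ℝ) (κ : ℕ) {N : ℕ} (hN : Real.exp (κ + 1) ≤ N)
    (k : Eis) (y : ℝ) : PS (P.ch d₂ t₂ k) κ 0 = gval hC N (pS P d₂ y t₂) κ k :=
  PS_eq_gval P d₂ t₂ (Real.exp y) κ hN k

lemma VR_prod (P : DPar) (d₂ : Eis) (t₂ z : ℝ) (N : ℕ) {j : ℕ} (c : Fin (j - 1) ⊕ Fin j → ℕ)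
    (S : Finset (Fin (j - 1))) (hc : ∀ i, Real.exp (c i + 1) ≤ N) (q k : Eis) :
    ((VR P d₂ t₂ z N c S).map fun x => x.1 q k).prod = GCr (P.ch d₂ t₂ k) z c S := by
  unfold VR GCr
  simp only [List.map_append, List.map_ofFn, List.prod_append, List.prod_ofFn,
    Function.comp_apply, List.map_map]
  congr 1
  · rw [← Finset.prod_map_toList]
    congr 1
    refine List.map_congr_left fun i _ => ?_
    exact (PS_gval P d₂ t₂ (c (Sum.inl i)) (hc _) k _).symm
  · exact Finset.prod_congr rfl fun i _ => by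
      rw [PM_eq_mval P d₂ t₂ (Real.exp (c (Sum.inr i))) z (c (Sum.inr i)) (hc _) k]

lemma GCr_insert (ψ : Eis → ℂ) (z : ℝ) {j : ℕ} (c : Fin (j - 1) ⊕ Fin j → ℕ)
    (S : Finset (Fin (j - 1))) {i : Fin (j - 1)} (hi : i ∉ S) :
    GCr ψ z c S = PS ψ (c (Sum.inl i)) 0 * GCr ψ z c (insert i S) := by
  unfold GCr
  rw [← mul_assoc, ← Finset.mul_prod_erase (Finset.univ \ S) _ (by simpa using hi : i ∈ _)]
  congr 3
  ext x
  simp only [Finset.mem_erase, Finset.mem_univ, Finset.mem_sdiff, Finset.mem_insert]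
  tauto

/-- value of the double difference: pairs `(y₀, y₁) → (z₀, z₁)`, `(y₂, y₃) → (z₂, z₃)`, common
shifts `σ`, heights `t₂ + v` -/
def DV (P : DPar) (h : ℝ → ℝ) (d₂ : Eis) (t₂ : ℝ) (y z σ v : Fin 4 → ℝ) (k : Eis) : ℂ :=
  Dp h (pS P d₂ (y 0 + σ 0) (t₂ + v 0)) (pS P d₂ (y 1 + σ 1) (t₂ + v 1))
      (Real.exp (z 0 + σ 0)) (Real.exp (z 1 + σ 1)) k *
    Dp h (pS P d₂ (y 2 + σ 2) (t₂ + v 2)) (pS P d₂ (y 3 + σ 3) (t₂ + v 3))
      (Real.exp (z 2 + σ 2)) (Real.exp (z 3 + σ 3)) k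

open Classical in
/-- the signed separated sum of a double difference -/
def TD (P : DPar) (N : Eis → Prop) (h : ℝ → ℝ) (τ H : ℝ) (d₂ d₃ e : Eis) (t₂ : ℝ)
    (y z σ v : Fin 4 → ℝ) (ps qs : List Pc) (q : Eis) : ℂ :=
  ∑' k : Eis, if k ≠ 0 ∧ q ^ 2 ∣ k ∧ N k then
    P.wk τ H k * (prin0 d₃ k * sy k e) * (DV P h d₂ t₂ y z σ v k *
      ((ps.map fun p => CS (pc h p) k).prod * conj ((qs.map fun p => CS (pc h p) k).prod))) else 0

open Classical in
/-- **the signed bridge for double differences** -/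
theorem bxDD_signed (P : DPar) (hP : P.OK) (Nc : Eis → Prop) {h : ℝ → ℝ} {c₀ : ℝ} (hpu : PU h c₀)
    {R : ℝ} (hR1 : 1 ≤ R) (hR : ∀ u, cx h u ≠ 0 → |u| ≤ R) {M : ℝ} (hM : 0 ≤ M) {C₁ : ℝ}
    (hC₁ : 0 ≤ C₁) (r L : ℕ) : ∃ C : ℝ, 0 ≤ C ∧
    ∀ (Q₀ κ y : ℝ) (J : Finset (Fin r)) (H : ℝ), 0 < H →
    ∀ (d₁ d₂ d₃ e : Eis) (t₁ t₂ τ z : ℝ) (𝒟 : Finset Eis) (u : Eis → ℝ),
      (∀ q, 0 ≤ u q ∧ u q ≤ C₁) →
    ∀ j : ℕ, j ≤ L → ∀ (c : Fin (j - 1) ⊕ Fin j → ℕ) (s : Fin 5 → Fin (j - 1)),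
      Function.Injective s → ∀ a b a' b' : ℕ,
      c (.inl (s 0)) + c (.inl (s 1)) = a' + b' → c (.inl (s 2)) + c (.inl (s 3)) = a + b →
    ∀ (B : ℝ), 0 ≤ B →
      (∀ (σ v : Fin 4 → ℝ), (∀ i, |σ i| ≤ 2 * R) → ∀ p₄ : Pc,
        Nr (2 * R + C₁) p₄ (pS P d₂ (c (.inl (s 4))) t₂) → ∀ ps qs : List Pc,
        List.Forall₂ (Nr (2 * R + C₁)) ps (dsR P d₂ t₂ c {s 4, s 0, s 1, s 2, s 3}) →
        List.Forall₂ (Nr (2 * R + C₁)) qs (dsA P r y Q₀ κ J d₁ t₁) →
        ∑ q ∈ 𝒟, ‖TD P Nc h τ H d₂ d₃ e t₂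
          ![c (.inl (s 0)), c (.inl (s 1)), c (.inl (s 2)), c (.inl (s 3))] ![a', b', a, b] σ v
          (p₄ :: ps) qs q‖ ≤
          B * ((∏ i, (1 + |v i|) ^ M) *
            (cost M (p₄ :: ps) (pS P d₂ (c (.inl (s 4))) t₂ ::
              dsR P d₂ t₂ c {s 4, s 0, s 1, s 2, s 3}) * cost M qs (dsA P r y Q₀ κ J d₁ t₁)))) →
      ∑ q ∈ 𝒟, ‖bxDD P Nc r y Q₀ (κ - u q) J H d₁ d₂ d₃ e t₁ t₂ τ z c (s 0) (s 1) (s 2) (s 3)
        a b a' b' q‖ ≤ C * B := by
  have hR0 : 0 ≤ R := by linarith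
  have hh0 : SWt (fun v => conj (P.h₀ v)) R :=
    let h := swt_conj (swt_of_hw hP.h₀); ⟨h.cd, h.cs, fun u hu => (h.rad u hu).trans hR1⟩
  have hh1 : SWt (fun v => conj (P.h v)) R :=
    let h := swt_conj (swt_of_hw hP.h); ⟨h.cd, h.cs, fun u hu => (h.rad u hu).trans hR1⟩
  have hhC : SWt hC R := ⟨swt_hC.cd, swt_hC.cs, fun u hu => (swt_hC.rad u hu).trans hR1⟩
  obtain ⟨A1, hA1, s1⟩ := sepS_w hpu hR0 hR hhC hC₁ M
  obtain ⟨A2, hA2, s2⟩ := sepS_mu hpu hR1 hR hM
  obtain ⟨A3, hA3, s3⟩ := sepS_w hpu hR0 hR hh0 hC₁ M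
  obtain ⟨A4, hA4, s4⟩ := sepS_w hpu hR0 hR hh1 hC₁ M
  obtain ⟨A5, hA5, s5⟩ := sepS_dd hpu hR0 hR hhC M
  obtain ⟨β, hβ, hβU⟩ := exists_supp hP.U
  set A := 1 + A1 + A2 + A3 + A4 with hA
  have hA1' : 1 ≤ A := by rw [hA]; linarith
  have hA0 : 0 ≤ A := by linarith
  refine ⟨A5 * (A5 * (A ^ (2 * L) * A ^ (r + 1))), by positivity, ?_⟩
  intro Q₀ κ y J H hH d₁ d₂ d₃ e t₁ t₂ τ z 𝒟 u hu j hj c s hs a b a' b' h01 h23 B hB hyp
  have hβH : 0 < β * H := mul_pos hβ hH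
  obtain ⟨N, hN⟩ : ∃ N : ℕ, ∀ x ∈ (Finset.univ.image fun i => (c i : ℝ)) ∪ {κ} ∪
      (Finset.univ.image fun i => kap r y Q₀ i) ∪ {(a : ℝ), (b : ℝ), (a' : ℝ), (b' : ℝ)},
      Real.exp (x + 3 * R + C₁) ≤ N := by
    obtain ⟨m, hm⟩ := ((Finset.univ.image fun i => (c i : ℝ)) ∪ {κ} ∪
      (Finset.univ.image fun i => kap r y Q₀ i) ∪
        {(a : ℝ), (b : ℝ), (a' : ℝ), (b' : ℝ)}).bddAbove
    refine ⟨⌈Real.exp (m + 3 * R + C₁)⌉₊, fun x hx => ?_⟩
    refine le_trans (Real.exp_le_exp.2 ?_) (Nat.le_ceil _)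
    have := hm (Finset.mem_coe.2 hx)
    linarith
  have hNc : ∀ i, Real.exp (c i + 3 * R + C₁) ≤ N := fun i => hN _ (by simp)
  have hNκ : Real.exp (κ + 3 * R + C₁) ≤ N := hN _ (by simp)
  have hNJ : ∀ i, Real.exp (kap r y Q₀ i + 3 * R + C₁) ≤ N := fun i => hN _ (by simp)
  have hNa : Real.exp (a + 3 * R + C₁) ≤ N := hN _ (by simp)
  have hNb : Real.exp (b + 3 * R + C₁) ≤ N := hN _ (by simp)
  have hNa' : Real.exp (a' + 3 * R + C₁) ≤ N := hN _ (by simp)
  have hNb' : Real.exp (b' + 3 * R + C₁) ≤ N := hN _ (by simp)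
  set K : Finset Eis := bl (β * H) with hK
  -- the coefficients
  set al : Eis → Eis → ℂ := fun q k => if k ≠ 0 ∧ q ^ 2 ∣ k ∧ Nc k then
    P.wk τ H k * (prin0 d₃ k * sy k e) else 0 with hal
  have hzero : ∀ q k, k ∉ K → al q k = 0 := by
    intro q k hk
    rw [hal]
    dsimp only
    split_ifs with hc
    · have h2 : β * H < nm k := by
        by_contra h3
        exact hk ((mem_bl' hβH.le).2 ⟨not_lt.1 h3, hc.1⟩)
      have h3 : P.U (nm k / H) = 0 := hβU _ (by rwa [lt_div_iff₀ hH])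
      unfold DPar.wk
      rw [h3]
      simp
    · rfl
  have hts : ∀ (q : Eis) (F : Eis → ℂ), (∑' k : Eis, if k ≠ 0 ∧ q ^ 2 ∣ k ∧ Nc k then
      P.wk τ H k * (prin0 d₃ k * sy k e) * F k else 0) = ∑ k ∈ K, al q k * F k := by
    intro q F
    rw [tsum_eq_sum (s := K)]
    · refine Finset.sum_congr rfl fun k _ => ?_
      rw [hal]
      dsimp only
      split_ifs <;> simp
    · intro k hk
      have h1 := hzero q k hk
      rw [hal] at h1
      dsimp only at h1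
      split_ifs with hc
      · rw [if_pos hc] at h1
        rw [h1, zero_mul]
      · rfl
  have hc1 : ∀ i, Real.exp ((c i : ℝ) + 1) ≤ N := fun i =>
    (Real.exp_le_exp.2 (by linarith)).trans (hNc i)
  have hprodA := VA_prod P hP r y Q₀ κ u J d₁ t₁ N
    (fun q => (Real.exp_le_exp.2 (by linarith [(hu q).1])).trans hNκ)
    (fun i => (Real.exp_le_exp.2 (by linarith)).trans (hNJ i))
  -- the descriptor of the smooth pieces
  set d : Pc := pS P d₂ 0 t₂ with hd
  have hdt : d.t = t₂ := rfl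
  -- abbreviations
  set VL : List ((Eis → Eis → ℂ) × Pc) :=
    ((fun _ k : Eis => gval hC N (pS P d₂ (c (Sum.inl (s 4))) t₂) (c (Sum.inl (s 4))) k),
        pS P d₂ (c (Sum.inl (s 4))) t₂) :: VR P d₂ t₂ z N c {s 4, s 0, s 1, s 2, s 3} with hVL
  set VAl := VA P r y Q₀ κ u J d₁ t₁ N with hVAl
  have hs4 : s 4 ∉ ({s 0, s 1, s 2, s 3} : Finset (Fin (j - 1))) := by
    simp only [Finset.mem_insert, Finset.mem_singleton, hs.eq_iff, not_or]
    decide
  have hVLp : ∀ q k, (VL.map fun x => x.1 q k).prod =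
      GCr (P.ch d₂ t₂ k) z c {s 0, s 1, s 2, s 3} := by
    intro q k
    rw [hVL, List.map_cons, List.prod_cons, VR_prod P d₂ t₂ z N c _ hc1 q k,
      GCr_insert _ _ _ _ hs4, PS_gval P d₂ t₂ (c (Sum.inl (s 4))) (hc1 _) k]
  set D01 : Eis → ℂ := fun k => gval hC N d (c (.inl (s 0))) k * gval hC N d (c (.inl (s 1))) k -
    gval hC N d a' k * gval hC N d b' k with hD01
  set D23 : Eis → ℂ := fun k => gval hC N d (c (.inl (s 2))) k * gval hC N d (c (.inl (s 3))) k -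
    gval hC N d a k * gval hC N d b k with hD23
  have eD01 : ∀ k, D2 (P.ch d₂ t₂ k) (c (.inl (s 0))) (c (.inl (s 1))) a' b' = D01 k := by
    intro k
    unfold D2
    rw [hD01, PS_gval P d₂ t₂ _ (hc1 _) k 0, PS_gval P d₂ t₂ _ (hc1 _) k 0,
      PS_gval P d₂ t₂ a' ((Real.exp_le_exp.2 (by linarith)).trans hNa') k 0,
      PS_gval P d₂ t₂ b' ((Real.exp_le_exp.2 (by linarith)).trans hNb') k 0]
  have eD23 : ∀ k, D2 (P.ch d₂ t₂ k) (c (.inl (s 2))) (c (.inl (s 3))) a b = D23 k := by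
    intro k
    unfold D2
    rw [hD23, PS_gval P d₂ t₂ _ (hc1 _) k 0, PS_gval P d₂ t₂ _ (hc1 _) k 0,
      PS_gval P d₂ t₂ a ((Real.exp_le_exp.2 (by linarith)).trans hNa) k 0,
      PS_gval P d₂ t₂ b ((Real.exp_le_exp.2 (by linarith)).trans hNb) k 0]
  have h1 : ∑ q ∈ 𝒟, ‖bxDD P Nc r y Q₀ (κ - u q) J H d₁ d₂ d₃ e t₁ t₂ τ z c (s 0) (s 1) (s 2) (s 3)
        a b a' b' q‖ =
      ∑ q ∈ 𝒟, ‖∑ k ∈ K, (al q k * conj ((VAl.map fun x => x.1 q k).prod) * D23 k *
        (VL.map fun x => x.1 q k).prod) * D01 k‖ := by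
    refine Finset.sum_congr rfl fun q _ => ?_
    unfold bxDD bxG
    rw [hts q (fun k => P.am r y Q₀ (κ - u q) J d₁ t₁ k *
      (D2 (P.ch d₂ t₂ k) (c (.inl (s 0))) (c (.inl (s 1))) a' b' *
        D2 (P.ch d₂ t₂ k) (c (.inl (s 2))) (c (.inl (s 3))) a b *
          GCr (P.ch d₂ t₂ k) z c {s 0, s 1, s 2, s 3}))]
    congr 1
    refine Finset.sum_congr rfl fun k _ => ?_
    rw [hVLp, hprodA, Complex.conj_conj, eD01, eD23]
    ring
  rw [h1]
  have hsepL : ∀ w ∈ VL, SepS h M (2 * R + C₁) A 𝒟 K (fun k => k) w.1 w.2 := by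
    intro w hw
    have key : ∀ i : Fin (j - 1), SepS h M (2 * R + C₁) A 𝒟 K (fun k => k)
        (fun _ k : Eis => gval hC N (pS P d₂ (c (Sum.inl i)) t₂) (c (Sum.inl i)) k)
        (pS P d₂ (c (Sum.inl i)) t₂) := fun i =>
      (s1 𝒟 K (fun k => k) (pS P d₂ (c (Sum.inl i)) t₂)
        (fun _ => (c (Sum.inl i) : ℝ)) N (fun _ _ => by
          unfold pS; dsimp only; rw [Real.log_exp]; simpa using hC₁)
        (by unfold pS; dsimp only; rw [Real.log_exp]; exact hNc _)).mono le_rfl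
          (by rw [hA]; linarith)
    rw [hVL, List.mem_cons] at hw
    rcases hw with rfl | hw
    · exact key (s 4)
    unfold VR at hw
    rw [List.mem_append, List.mem_map, List.mem_ofFn'] at hw
    rcases hw with ⟨i, _, rfl⟩ | ⟨i, rfl⟩
    · exact key i
    · exact (s2 𝒟 K (fun k => k) ⟨.mu, χS P d₂, Real.exp (c (Sum.inr i)), t₂⟩ (c (Sum.inr i)) z N
        (by simp) (by
          rw [Real.log_exp]
          exact (Real.exp_le_exp.2 (by linarith)).trans (hNc (Sum.inr i)))).mono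
        (by linarith) (by rw [hA]; linarith)
  have hsepA : ∀ w ∈ VAl, SepS h M (2 * R + C₁) A 𝒟 K (fun k => k) w.1 w.2 := by
    intro w hw
    rw [hVAl] at hw
    unfold VA at hw
    rw [List.mem_cons, List.mem_map] at hw
    rcases hw with rfl | ⟨i, _, rfl⟩
    · exact (s3 𝒟 K (fun k => k) ⟨.sq, χA P d₁, Real.exp κ, -t₁⟩
        (fun q => κ - u q) N (fun q _ => by
          rw [Real.log_exp]
          have := hu q
          rw [abs_le]
          constructor <;> linarith)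
        (by rw [Real.log_exp]; exact hNκ)).mono le_rfl (by rw [hA]; linarith)
    · exact (s4 𝒟 K (fun k => k) ⟨.pr, χA P d₁, Real.exp (kap r y Q₀ i), -t₁⟩
        (fun _ => kap r y Q₀ i) N (fun _ _ => by simpa using hC₁)
        (by rw [Real.log_exp]; exact hNJ _)).mono le_rfl (by rw [hA]; linarith)
  -- lists
  set dL : List Pc := pS P d₂ (c (.inl (s 4))) t₂ :: dsR P d₂ t₂ c {s 4, s 0, s 1, s 2, s 3}
    with hdL
  have hVLs : VL.map Prod.snd = dL := by
    rw [hVL, List.map_cons, VR_snd]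
  have hl1 : VL.length ≤ 2 * L := by
    have hj5 : 5 ≤ j - 1 := by
      have := Fintype.card_le_of_injective s hs
      simpa using this
    rw [hVL, List.length_cons]
    unfold VR
    rw [List.length_append, List.length_map, List.length_ofFn, Finset.length_toList,
      Finset.card_sdiff_of_subset (Finset.subset_univ _), Finset.card_univ, Fintype.card_fin]
    have : 1 ≤ ({s 4, s 0, s 1, s 2, s 3} : Finset (Fin (j - 1))).card :=
      Finset.card_pos.2 ⟨s 4, by simp⟩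
    omega
  have hl2 : VAl.length ≤ r + 1 := by
    rw [hVAl, VA_length]
    have : J.card ≤ r := by
      have := Finset.card_le_univ J
      rwa [Fintype.card_fin] at this
    omega
  have hexpN : ∀ (x : ℝ) (σ : ℝ), Real.exp (x + 3 * R + C₁) ≤ N → |σ| ≤ 2 * R →
      Real.exp (x + σ + R) ≤ N := by
    intro x σ hx hσ
    refine (Real.exp_le_exp.2 ?_).trans hx
    have := (abs_le.1 hσ).2
    linarith
  have hM0 : ∀ x : ℝ, 0 ≤ (1 + |x|) ^ M := fun x => Real.rpow_nonneg (by positivity) _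
  -- final hypothesis, in terms of `Lo`
  have hfin : ∀ (σ v : Fin 4 → ℝ), (∀ i, |σ i| ≤ 2 * R) →
      ∑ q ∈ 𝒟, ‖∑ k ∈ K, (al q k * conj ((VAl.map fun x => x.1 q k).prod) *
        DV P h d₂ t₂ ![c (.inl (s 0)), c (.inl (s 1)), c (.inl (s 2)), c (.inl (s 3))]
          ![a', b', a, b] σ v k) * (VL.map fun x => x.1 q k).prod‖ ≤
      A ^ (2 * L) * A ^ (r + 1) * B * ∏ i, (1 + |v i|) ^ M := by
    intro σ v hσ
    have hv0 : 0 ≤ ∏ i, (1 + |v i|) ^ M := Finset.prod_nonneg fun i _ => hM0 _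
    have h2 := sepS_prod hA0 𝒟 K (fun k => k) VL hsepL
      (fun q k => al q k * conj ((VAl.map fun x => x.1 q k).prod) *
        DV P h d₂ t₂ ![c (.inl (s 0)), c (.inl (s 1)), c (.inl (s 2)), c (.inl (s 3))]
          ![a', b', a, b] σ v k)
      (A ^ VAl.length * (B * ∏ i, (1 + |v i|) ^ M)) (by positivity) (fun ps hps => by
        rw [hVLs] at hps ⊢
        rw [hdL] at hps
        cases hps with
        | @cons p₄ _ ps' _ hp₄ hps' =>
        have h3 := sepS_prod hA0 𝒟 K (fun k => k) VAl hsepA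
          (fun q k => conj (al q k *
            DV P h d₂ t₂ ![c (.inl (s 0)), c (.inl (s 1)), c (.inl (s 2)), c (.inl (s 3))]
              ![a', b', a, b] σ v k * ((p₄ :: ps').map fun p => CS (pc h p) k).prod))
          (B * (∏ i, (1 + |v i|) ^ M) * cost M (p₄ :: ps') dL)
          (mul_nonneg (mul_nonneg hB hv0) (cost_nonneg _ _ _)) (fun qs hqs => by
            rw [hVAl, VA_snd] at hqs ⊢
            have h4 := hyp σ v hσ p₄ hp₄ ps' qs hps' hqs
            calc ∑ q ∈ 𝒟, ‖∑ k ∈ K, conj (al q k *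
                  DV P h d₂ t₂ ![c (.inl (s 0)), c (.inl (s 1)), c (.inl (s 2)), c (.inl (s 3))]
                    ![a', b', a, b] σ v k * ((p₄ :: ps').map fun p => CS (pc h p) k).prod) *
                  (qs.map fun p => CS (pc h p) k).prod‖
                = ∑ q ∈ 𝒟, ‖TD P Nc h τ H d₂ d₃ e t₂
                  ![c (.inl (s 0)), c (.inl (s 1)), c (.inl (s 2)), c (.inl (s 3))]
                  ![a', b', a, b] σ v (p₄ :: ps') qs q‖ := by
                  refine Finset.sum_congr rfl fun q _ => ?_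
                  unfold TD
                  rw [hts q (fun k => DV P h d₂ t₂
                    ![c (.inl (s 0)), c (.inl (s 1)), c (.inl (s 2)), c (.inl (s 3))]
                    ![a', b', a, b] σ v k * (((p₄ :: ps').map fun p => CS (pc h p) k).prod *
                      conj ((qs.map fun p => CS (pc h p) k).prod))), ← Complex.norm_conj, map_sum]
                  congr 1
                  refine Finset.sum_congr rfl fun k _ => ?_
                  rw [map_mul, Complex.conj_conj]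
                  ring
              _ ≤ _ := h4
              _ = _ := by rw [hdL]; ring)
        calc ∑ q ∈ 𝒟, ‖∑ k ∈ K, al q k * conj ((VAl.map fun x => x.1 q k).prod) *
              DV P h d₂ t₂ ![c (.inl (s 0)), c (.inl (s 1)), c (.inl (s 2)), c (.inl (s 3))]
                ![a', b', a, b] σ v k * ((p₄ :: ps').map fun p => CS (pc h p) k).prod‖
            = ∑ q ∈ 𝒟, ‖∑ k ∈ K, conj (al q k *
              DV P h d₂ t₂ ![c (.inl (s 0)), c (.inl (s 1)), c (.inl (s 2)), c (.inl (s 3))]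
                ![a', b', a, b] σ v k * ((p₄ :: ps').map fun p => CS (pc h p) k).prod) *
              (VAl.map fun x => x.1 q k).prod‖ := by
              refine Finset.sum_congr rfl fun q _ => ?_
              rw [← Complex.norm_conj, map_sum]
              congr 1
              refine Finset.sum_congr rfl fun k _ => ?_
              rw [map_mul, map_mul, map_mul, Complex.conj_conj, map_mul, map_mul]
              ring
          _ ≤ _ := h3
          _ = _ := by ring)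
    refine h2.trans ?_
    calc A ^ VL.length * (A ^ VAl.length * (B * ∏ i, (1 + |v i|) ^ M))
        ≤ A ^ (2 * L) * (A ^ (r + 1) * (B * ∏ i, (1 + |v i|) ^ M)) := by
          have i1 := pow_le_pow_right₀ hA1' hl1
          have i2 := pow_le_pow_right₀ hA1' hl2
          gcongr
      _ = _ := by ring
  -- the pair (2, 3), for a separated pair (0, 1)
  have h23' : ∀ (σ₀ σ₁ v₀ v₁ : ℝ), |σ₀| ≤ 2 * R → |σ₁| ≤ 2 * R →
      ∑ q ∈ 𝒟, ‖∑ k ∈ K, (al q k * conj ((VAl.map fun x => x.1 q k).prod) *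
        (VL.map fun x => x.1 q k).prod *
          (Lo h N (φc d k) (c (.inl (s 0)) + σ₀) (d.t + v₀) *
            Lo h N (φc d k) (c (.inl (s 1)) + σ₁) (d.t + v₁) -
          Lo h N (φc d k) (a' + σ₀) (d.t + v₀) * Lo h N (φc d k) (b' + σ₁) (d.t + v₁))) *
        D23 k‖ ≤ A5 * (A ^ (2 * L) * A ^ (r + 1)) * B * ((1 + |v₀|) ^ M * (1 + |v₁|) ^ M) := by
    intro σ₀ σ₁ v₀ v₁ hσ₀ hσ₁
    have h5 := s5 𝒟 K (fun k => k) d (c (.inl (s 2))) (c (.inl (s 3))) a b N
      (by exact_mod_cast h23)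
      (fun q k => al q k * conj ((VAl.map fun x => x.1 q k).prod) *
        (VL.map fun x => x.1 q k).prod *
          (Lo h N (φc d k) (c (.inl (s 0)) + σ₀) (d.t + v₀) *
            Lo h N (φc d k) (c (.inl (s 1)) + σ₁) (d.t + v₁) -
          Lo h N (φc d k) (a' + σ₀) (d.t + v₀) * Lo h N (φc d k) (b' + σ₁) (d.t + v₁)))
      (A ^ (2 * L) * A ^ (r + 1) * B * ((1 + |v₀|) ^ M * (1 + |v₁|) ^ M))
      (mul_nonneg (by positivity) (mul_nonneg (hM0 _) (hM0 _))) (by
        intro σ₂ σ₃ v₂ v₃ hσ₂ hσ₃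
        have h6 := hfin ![σ₀, σ₁, σ₂, σ₃] ![v₀, v₁, v₂, v₃] (by
          intro i; fin_cases i
          · exact hσ₀
          · exact hσ₁
          · exact hσ₂
          · exact hσ₃)
        have h7 : ∀ k, DV P h d₂ t₂
            ![(c (.inl (s 0)) : ℝ), c (.inl (s 1)), c (.inl (s 2)), c (.inl (s 3))]
            ![(a' : ℝ), b', a, b] ![σ₀, σ₁, σ₂, σ₃] ![v₀, v₁, v₂, v₃] k =
            (Lo h N (φc d k) (c (.inl (s 0)) + σ₀) (d.t + v₀) *
              Lo h N (φc d k) (c (.inl (s 1)) + σ₁) (d.t + v₁) -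
            Lo h N (φc d k) (a' + σ₀) (d.t + v₀) * Lo h N (φc d k) (b' + σ₁) (d.t + v₁)) *
            (Lo h N (φc d k) (c (.inl (s 2)) + σ₂) (d.t + v₂) *
              Lo h N (φc d k) (c (.inl (s 3)) + σ₃) (d.t + v₃) -
            Lo h N (φc d k) (a + σ₂) (d.t + v₂) * Lo h N (φc d k) (b + σ₃) (d.t + v₃)) := by
          intro k
          rw [← Co_eq_Lo hR d _ _ (hexpN _ _ (hNc _) hσ₀) k,
            ← Co_eq_Lo hR d _ _ (hexpN _ _ (hNc _) hσ₁) k,
            ← Co_eq_Lo hR d _ _ (hexpN _ _ hNa' hσ₀) k,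
            ← Co_eq_Lo hR d _ _ (hexpN _ _ hNb' hσ₁) k,
            ← Co_eq_Lo hR d _ _ (hexpN _ _ (hNc _) hσ₂) k,
            ← Co_eq_Lo hR d _ _ (hexpN _ _ (hNc _) hσ₃) k,
            ← Co_eq_Lo hR d _ _ (hexpN _ _ hNa hσ₂) k,
            ← Co_eq_Lo hR d _ _ (hexpN _ _ hNb hσ₃) k]
          rfl
        have h8 : ∏ i, (1 + |(![v₀, v₁, v₂, v₃] : Fin 4 → ℝ) i|) ^ M =
            (1 + |v₀|) ^ M * (1 + |v₁|) ^ M * ((1 + |v₂|) ^ M * (1 + |v₃|) ^ M) := by
          rw [Fin.prod_univ_four]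
          simp only [Matrix.cons_val_zero, Matrix.cons_val_one, Matrix.cons_val]
          ring
        rw [h8] at h6
        refine le_trans (le_of_eq ?_) (h6.trans (le_of_eq (by ring)))
        refine Finset.sum_congr rfl fun q _ => ?_
        congr 1
        refine Finset.sum_congr rfl fun k _ => ?_
        rw [h7 k]
        ring)
    refine h5.trans (le_of_eq ?_)
    ring
  -- the pair (0, 1)
  have h9 := s5 𝒟 K (fun k => k) d (c (.inl (s 0))) (c (.inl (s 1))) a' b' N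
    (by exact_mod_cast h01)
    (fun q k => al q k * conj ((VAl.map fun x => x.1 q k).prod) * D23 k *
      (VL.map fun x => x.1 q k).prod)
    (A5 * (A ^ (2 * L) * A ^ (r + 1)) * B) (by positivity) (by
      intro σ₀ σ₁ v₀ v₁ hσ₀ hσ₁
      refine le_trans (le_of_eq ?_) (h23' σ₀ σ₁ v₀ v₁ hσ₀ hσ₁)
      refine Finset.sum_congr rfl fun q _ => ?_
      congr 1
      refine Finset.sum_congr rfl fun k _ => ?_
      ring)
  refine h9.trans (le_of_eq ?_)
  ring

end Crest.Agent.R017.ExBox960
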