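import Crest.Agent.R017.ExBox7_960
import Crest.Agent.R017.E5T_54

/-!
# Row 17, D.box, exceptional class: the signed theorem for double differences, literal (helper960)

* `Dq2 P h p p' Z Z' k` : the difference of two shapes, provider pieces, replaced log-lengths `Z, Z'`
* `SgX` : the signed sum of a double difference (all `k ≠ 0`)
* `MkX` : the marked data of a near-equal box with replaced lengths
* `TopDD` : **the signed theorem** (interface: `TopDD → EvDD`)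
-/

set_option autoImplicit false

noncomputable section

open MeasureTheory Complex Set
open scoped ComplexConjugate ContDiff

namespace Crest.Agent.R017.ExBox960

open Crest.Agent.R012 Crest.Agent.R012.Eis Crest.Agent.R012.Mob705 Crest.Agent.R012.Gauss880
open Crest.Agent.R017.CM106 Crest.Agent.R017.FE47 Crest.Agent.R017.End699
open Crest.Agent.R017.Sx545 (Sm)
open Crest.Agent.R017.XG702 (Pcs BG)
open Crest.Agent.R017.HP842 (Pc pc)
open Crest.Agent.R017.ER911 Crest.Agent.R017.B770 Crest.Agent.R017.Prov71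
open Crest.Agent.R017.Cone59 (Tg)
open Crest.Agent.R017.E5T54

/-- **the difference of two shapes**, provider pieces; `Z, Z'` = the replaced log-lengths -/
def Dq2 (P : DPar) (h : ℝ → ℝ) (p p' : Pq) (Z Z' : ℝ) (k : Eis) : ℂ :=
  Dp h (p.pc P) (p'.pc P) (Real.exp Z) (Real.exp Z') k

/-- the double difference of the marked pieces -/
def DX (P : DPar) (h : ℝ → ℝ) (us : Fin 5 → Pq) (zs : Fin 4 → ℝ) (k : Eis) : ℂ :=
  Dq2 P h (us 0) (us 1) (zs 0) (zs 1) k * Dq2 P h (us 2) (us 3) (zs 2) (zs 3) k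

open Classical in
/-- **the signed sum of a double difference** over the multiples `k ≠ 0` of `q²` -/
def SgX (P : DPar) (h : ℝ → ℝ) (τ H : ℝ) (d₃ e : Eis) (us : Fin 5 → Pq) (zs : Fin 4 → ℝ)
    (ps : List Pq) (q : Eis) : ℂ :=
  ∑' k : Eis, if k ≠ 0 ∧ q ^ 2 ∣ k then
    P.wk τ H k * (prin0 d₃ k * sy k e) * (DX P h us zs k * VV P h (us 4 :: ps) k) else 0

/-- the marked data of a near-equal box: `A`, short scale `β`, tolerance `δ` (exponents, base `X`),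
`κ = log H / log X` -/
structure MkX (A β δ κ X : ℝ) (us : Fin 5 → Pq) (zs : Fin 4 → ℝ) (ps : List Pq) : Prop where
  lump : ∀ i, Dq.lump (us i)
  md : ∀ i j, (us i).d = (us j).d
  anti : ∀ i j, i ≤ j → Dq.nl X (us j) ≤ Dq.nl X (us i) + δ
  top : ∀ p ∈ ps, Dq.lump p → Dq.nl X p ≤ Dq.nl X (us 4) + δ
  near : A * κ ≤ Dq.nl X (us 2) + Dq.nl X (us 3) + 2 * Dq.nl X (us 4)
  s01 : zs 0 + zs 1 = (us 0).z + (us 1).z
  s23 : zs 2 + zs 3 = (us 2).z + (us 3).z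
  z0 : |zs 0 / Real.log X - β * κ| ≤ δ
  z2 : |zs 2 / Real.log X - β * κ| ≤ δ
  mdL : ∀ p ∈ ps, Dq.lump p → p.d = (us 4).d

/-- **the signed theorem for double differences**. `g = y / (1/2 + y)` -/
def TopDD {Λ : Type*} (θ g μ' a₀ A β : ℝ) (π : Λ → DPar) (h : ℝ → ℝ) : Prop :=
  ∃ δ : ℝ, 0 < δ ∧ ∀ (lam : Λ) (N : ℕ) (B : ℝ), ∃ δ' : ℝ, 0 < δ' ∧ ∃ X₀ : ℝ, 1 < X₀ ∧
    ∀ X : ℝ, X₀ ≤ X → ∀ (H : ℝ), 0 < H → ∀ (us : Fin 5 → Pq) (zs : Fin 4 → ℝ) (ps : List Pq),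
      ps.length ≤ N → (∀ p ∈ ps, Dq.lump p ∨ Dq.nl X p ≤ δ) →
      Dq.Good X δ' B (List.ofFn us ++ ps) →
      a₀ ≤ Real.log H / Real.log X → MkX A β δ (Real.log H / Real.log X) X us zs ps →
      ∀ (d₃ e : Eis), d₃ ≠ 0 → (nm d₃ : ℝ) ≤ X ^ B → Sm (π lam).n e →
        (∀ p : Eis, Prime p → p ∣ e → p ^ 5 ∣ e) →
      ∀ τ : ℝ, 1 + |τ| ≤ X ^ δ' →
      ∀ 𝒟 : Finset Eis, (∀ q ∈ 𝒟, Sm (π lam).n q ∧ Squarefree q) →
      ∀ hh q c : ℝ, 0 ≤ hh → hh ≤ 1 → 0 ≤ q → q ≤ 2 - 2 * g → 0 ≤ c → c ≤ g →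
        q + Real.log (nm e) / Real.log X - c ≤ 2 - 3 * g + δ →
        |Real.log H / Real.log X - hh| ≤ δ →
        |Dq.mass X (List.ofFn us ++ ps) .mo - q| ≤ δ →
        |Dq.mass X (List.ofFn us ++ ps) .am - c| ≤ δ →
        ∑ r ∈ 𝒟, ‖SgX (π lam) h τ H d₃ e us zs ps r‖ ≤ X ^ (Tg θ g hh q c - μ')

end Crest.Agent.R017.ExBox960
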