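import Crest.Agent.R017.ExBox9b_385

/-!
# Row 17, D.box, exceptional class, P7x (helper385), part 3: the theorem

* `TD_eq_SgX` : a term of the bridge is a signed double difference of provider pieces
* `BOX3d_of_top`, `evDD_of_topDD`
-/

set_option autoImplicit false
set_option linter.unusedSectionVars false
set_option linter.unusedVariables false

noncomputable section

open Complex Filter Topology
open scoped ComplexConjugate ContDiff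

namespace Crest.Agent.R017.Ex385

open Crest.Agent.R012 Crest.Agent.R012.Eis Crest.Agent.R012.Mob705
open Crest.Agent.R017.CM106 Crest.Agent.R017.FE47 Crest.Agent.R017.End699
open Crest.Agent.R017.HP842 Crest.Agent.R017.B770 Crest.Agent.R017.Sx545
open Crest.Agent.R017.Bx986 Crest.Agent.R017.Prov71 Crest.Agent.R017.BxE986
open Crest.Agent.R017.BxH986
open Crest.Agent.R017.XG702 (Pcs BG)
open Crest.Agent.R017.Cone59 (Tg)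
open Crest.Agent.R017.E5T54 Crest.Agent.R017.ExBox960

/-- the marked pieces of a configuration -/
def usX {d₂ : Eis} (h₂ : d₂ ≠ 0) (t₂ : ℝ) (y σ v : Fin 4 → ℝ) (u4 : Pq) : Fin 5 → Pq :=
  ![⟨.mo, .one, d₂, h₂, y 0 + σ 0, t₂ + v 0⟩, ⟨.mo, .one, d₂, h₂, y 1 + σ 1, t₂ + v 1⟩,
    ⟨.mo, .one, d₂, h₂, y 2 + σ 2, t₂ + v 2⟩, ⟨.mo, .one, d₂, h₂, y 3 + σ 3, t₂ + v 3⟩, u4]

/-- the replaced lengths of a configuration -/
def zsX (z σ : Fin 4 → ℝ) : Fin 4 → ℝ := fun i => z i + σ i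

lemma DV_eq_DX (P : DPar) (h : ℝ → ℝ) {d₂ : Eis} (h₂ : d₂ ≠ 0) (t₂ : ℝ) (y z σ v : Fin 4 → ℝ)
    (u4 : Pq) (k : Eis) : DV P h d₂ t₂ y z σ v k = DX P h (usX h₂ t₂ y σ v u4) (zsX z σ) k := rfl

/-- **a term of the bridge** -/
lemma TD_eq_SgX (P : DPar) (h : ℝ → ℝ) (τ H : ℝ) {d₂ : Eis} (h₂ : d₂ ≠ 0) (d₃ e : Eis) (t₂ : ℝ)
    (y z σ v : Fin 4 → ℝ) {ps qs : List Pc} {u4 : Pq} {gs : List Pq}
    (hv : ∀ k, VV P h (u4 :: gs) k = (ps.map fun p => CS (pc h p) k).prod *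
        conj ((qs.map fun p => CS (pc h p) k).prod)) (q : Eis) :
    TD P (fun _ => True) h τ H d₂ d₃ e t₂ y z σ v ps qs q =
      SgX P h τ H d₃ e (usX h₂ t₂ y σ v u4) (zsX z σ) gs q := by
  unfold TD SgX
  refine tsum_congr fun k => ?_
  by_cases hc : k ≠ 0 ∧ q ^ 2 ∣ k
  · rw [if_pos ⟨hc.1, hc.2, trivial⟩, if_pos hc, DV_eq_DX P h h₂ t₂ y z σ v u4 k]
    have e4 : usX h₂ t₂ y σ v u4 4 = u4 := rfl
    rw [e4, hv k]
  · have hc' : ¬ (k ≠ 0 ∧ q ^ 2 ∣ k ∧ True) := fun h => hc ⟨h.1, h.2.1⟩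
    rw [if_neg hc', if_neg hc]

lemma costQ_usX (M : ℝ) {d₁ d₂ : Eis} (h₁ : d₁ ≠ 0) (h₂ : d₂ ≠ 0) (r : ℕ) (y Q₀ κ t₁ t₂ : ℝ)
    {j : ℕ} (c : Fin (j - 1) ⊕ Fin j → ℕ) (J : Finset (Fin r)) (s : Fin 5 → Fin (j - 1))
    (yy σ v : Fin 4 → ℝ) (u4 : Pq) (gs : List Pq) :
    costQ M (List.ofFn (usX h₂ t₂ yy σ v u4) ++ gs)
      ((Il5 s r J).map (dsc h₁ h₂ r y Q₀ κ t₁ t₂ c)) =
    (∏ i, (1 + |v i|) ^ M) * costQ M (u4 :: gs) (dsc h₁ h₂ r y Q₀ κ t₁ t₂ c (.inl (s 4)) ::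
      (IlR s r J).map (dsc h₁ h₂ r y Q₀ κ t₁ t₂ c)) := by
  have e1 : List.ofFn (usX h₂ t₂ yy σ v u4) ++ gs =
      (⟨.mo, .one, d₂, h₂, yy 0 + σ 0, t₂ + v 0⟩ : Pq) :: ⟨.mo, .one, d₂, h₂, yy 1 + σ 1, t₂ + v 1⟩ ::
      ⟨.mo, .one, d₂, h₂, yy 2 + σ 2, t₂ + v 2⟩ :: ⟨.mo, .one, d₂, h₂, yy 3 + σ 3, t₂ + v 3⟩ ::
      u4 :: gs := rfl
  have e2 : (Il5 s r J).map (dsc h₁ h₂ r y Q₀ κ t₁ t₂ c) =
      dsc h₁ h₂ r y Q₀ κ t₁ t₂ c (.inl (s 0)) :: dsc h₁ h₂ r y Q₀ κ t₁ t₂ c (.inl (s 1)) ::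
      dsc h₁ h₂ r y Q₀ κ t₁ t₂ c (.inl (s 2)) :: dsc h₁ h₂ r y Q₀ κ t₁ t₂ c (.inl (s 3)) ::
      dsc h₁ h₂ r y Q₀ κ t₁ t₂ c (.inl (s 4)) ::
      (IlR s r J).map (dsc h₁ h₂ r y Q₀ κ t₁ t₂ c) := rfl
  rw [e1, e2, costQ_cons, costQ_cons, costQ_cons, costQ_cons, Fin.prod_univ_four]
  simp only [dsc, add_sub_cancel_left]
  ring

/-- **the box inequality for the double differences from the signed theorem**, one parameter -/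
theorem box_of_topX {θ μ' y : ℝ} (hθ : 0 ≤ θ) (hθ1 : θ ≤ 1) (hμ : 0 < μ') (hy : 0 < y)
    (hy1 : y ≤ 1) {a₀ A A₀ β : ℝ} (ha₀ : 0 < a₀) (hA : A₀ < A) (hβ : 0 < β) (hβA : 4 * β < A₀)
    (h1 : 1 < 2 * A * (a₀ * (1 / 2 + y))) {Λ : Type*} {π : Λ → DPar} (hπ : ∀ lam, (π lam).OK)
    {h : ℝ → ℝ} {c₀ : ℝ} (hpu : PU h c₀) (hneg : Neg h)
    (ht : TopDD θ (y / (1 / 2 + y)) μ' a₀ A₀ β π h) {Pk : DPar → Prop}
    (hPk : ∀ P : DPar, P.OK → Pk P → ∃ lam, π lam = P) :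
    ∃ d₀ : ℝ, 0 < d₀ ∧ ∀ (r : ℕ) (δ η : ℝ) (L : ℕ), 0 < r → y / r ≤ d₀ → 0 < δ → δ ≤ d₀ →
      0 < η → η ≤ d₀ → 1 ≤ L → 1 / (L : ℝ) ≤ d₀ →
      BOX3d θ r y δ η L Pk (fun _ _ => True) a₀ A β := by
  obtain ⟨dt, hdt, ht⟩ := ht
  refine ⟨min (dt / 16) (min (μ' / 16) (1 / 16)), by positivity, ?_⟩
  intro r δ η L hr hyr hδ hδd hη hηd hL hLd P hP hP' ε C₁ hε hC₁
  obtain ⟨lam, rfl⟩ := hPk P hP hP'
  have m1 : min (dt / 16) (min (μ' / 16) (1 / 16)) ≤ dt / 16 := min_le_left _ _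
  have m2 : min (dt / 16) (min (μ' / 16) (1 / 16)) ≤ μ' / 16 :=
    (min_le_right _ _).trans (min_le_left _ _)
  have m3 : min (dt / 16) (min (μ' / 16) (1 / 16)) ≤ 1 / 16 :=
    (min_le_right _ _).trans (min_le_right _ _)
  obtain ⟨R₀, hR₀⟩ := bump_of_cs hpu.cs
  set R := max R₀ 1 with hRdef
  have hR1 : 1 ≤ R := le_max_right _ _
  have hR : ∀ u, cx h u ≠ 0 → |u| ≤ R := fun u hu => (hR₀ u hu).trans (le_max_left _ _)
  obtain ⟨δ', hδ', X₀, hX₀, htop⟩ := ht lam (2 * L + r + 1) (24 / ε)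
  have hM0 : 0 ≤ 12 / δ' := by positivity
  obtain ⟨C, hC, hbx⟩ := bxDD_signed (π lam) (hπ lam) (fun _ => True) hpu hR1 hR hM0 hC₁.le r L
  obtain ⟨C₀, hC₀, hb⟩ := norm_CS_pc_le hpu
  obtain ⟨Ct, βU, hCt, hβU, htr⟩ := SgX_triv (π lam) (hπ lam) hneg hC₀ hb
  set ρ := 2 * R + C₁ with hρdef
  have hρ1 : 1 ≤ ρ := by rw [hρdef]; linarith
  obtain ⟨C', Xh, hC', hone⟩ := one_cfgX (θ := θ) (μ' := μ') (y := y) hθ hθ1 hμ hy hy1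
    (a₀ := a₀) (A := A) (A₀ := A₀) (β := β) hdt ha₀ hA hβ h1 (hπ lam) hneg hε hδ' hX₀ htop hC₀
    hCt hβU htr hρ1 hC₁ hr hL le_rfl hδ hη (by linarith) (by linarith) (by linarith)
    (by linarith) (by linarith) (by linarith) (by linarith) (by linarith)
  refine ⟨C * C', 12 / δ', max Xh 1, by positivity, hM0, ?_⟩
  intro Q₀ Q hQ hQQ κ hκ1 hκ2 J H hH hH2 d₁ d₂ d₃ e hd₁ hd₂ hd₃ he he5 hQe t₁ t₂ τ 𝒟 h𝒟 u hu z
    hz hlz j hj hjL c hc hc2 hXh hal s hs5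
  have hQ₀1 : 1 ≤ Q₀ := hQ.trans hQQ
  have hQ₀0 : 0 < Q₀ := by linarith
  have hQ0 : 0 < Q := by linarith
  have hl1 : 1 ≤ Real.log H := (le_max_right _ _).trans hXh
  have hl0 : 0 < Real.log H := by linarith
  have hCJ : 0 < CJ r y Q₀ J * Real.exp κ := mul_pos (BoxP271.CJ_pos hQ₀0 J) (Real.exp_pos _)
  set Tb := TgB θ η (if δ / 2 * Real.log Q₀ ≤ κ then η else -η) (y + δ) Q₀ Q H
    (CJ r y Q₀ J * Real.exp κ) with hTb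
  have hTb0 : 0 ≤ Tb := Box271.TgB_nonneg' hQ₀0.le hQ0.le hH.le hCJ.le
  have hne : (1 : ℝ) ≤ nm e := by exact_mod_cast nm_pos.2 he.1.ne_zero
  have n1 : (1 : ℝ) ≤ nm d₁ := by exact_mod_cast nm_pos.2 hd₁
  have n2 : (1 : ℝ) ≤ nm d₂ := by exact_mod_cast nm_pos.2 hd₂
  have n3 : (1 : ℝ) ≤ nm d₃ := by exact_mod_cast nm_pos.2 hd₃
  have n12 : (1 : ℝ) ≤ (nm d₁ : ℝ) * nm d₂ := one_le_mul_of_one_le_of_one_le n1 n2
  have n123 : (1 : ℝ) ≤ (nm d₁ : ℝ) * nm d₂ * nm d₃ := one_le_mul_of_one_le_of_one_le n12 n3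
  set B₁ := C' * ((nm d₁ : ℝ) * nm d₂ * nm d₃) ^ (ε / 2) *
    (1 + |t₁| + |t₂| + |τ|) ^ (12 / δ') * Tb with hB₁
  have hB₁0 : 0 ≤ B₁ := by positivity
  -- the short scale
  set a : ℕ := ⌊β * Real.log H⌋₊ with ha
  have hβl : 0 ≤ β * Real.log H := by positivity
  have ha1 : (a : ℝ) ≤ β * Real.log H := Nat.floor_le hβl
  have ha2 : β * Real.log H < a + 1 := Nat.lt_floor_add_one _
  obtain ⟨p23, p01⟩ := hs5.pair_ge
  have hAl : 4 * (β * Real.log H) ≤ A * Real.log H := by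
    have : 4 * β ≤ A := by linarith
    calc 4 * (β * Real.log H) = 4 * β * Real.log H := by ring
      _ ≤ _ := mul_le_mul_of_nonneg_right this hl0.le
  have ha23 : a ≤ c (.inl (s 2)) + c (.inl (s 3)) := by
    have : (a : ℝ) ≤ ((c (.inl (s 2)) + c (.inl (s 3)) : ℕ) : ℝ) := by
      push_cast; linarith
    exact_mod_cast this
  have ha01 : a ≤ c (.inl (s 0)) + c (.inl (s 1)) := by
    have : (a : ℝ) ≤ ((c (.inl (s 0)) + c (.inl (s 1)) : ℕ) : ℝ) := by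
      push_cast; linarith
    exact_mod_cast this
  set b : ℕ := c (.inl (s 2)) + c (.inl (s 3)) - a with hbdef
  set b' : ℕ := c (.inl (s 0)) + c (.inl (s 1)) - a with hb'def
  have hab : c (.inl (s 2)) + c (.inl (s 3)) = a + b := by omega
  have hab' : c (.inl (s 0)) + c (.inl (s 1)) = a + b' := by omega
  have hmain := hbx Q₀ κ y J H hH d₁ d₂ d₃ e t₁ t₂ τ z 𝒟 u hu j hjL c s hs5.inj a b a b' hab'
    hab B₁ hB₁0 (by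
      intro σ v hσ p₄ hp₄ ps qs hps hqs
      obtain ⟨u4, gs, g1, g2, g3, g4⟩ := cfg (π lam) hd₁ hd₂ r y Q₀ κ t₁ t₂ c J s (12 / δ') hp₄
        hps hqs h
      rw [g4, ← costQ_usX (12 / δ') hd₁ hd₂ r y Q₀ κ t₁ t₂ c J s
        ![c (.inl (s 0)), c (.inl (s 1)), c (.inl (s 2)), c (.inl (s 3))] σ v u4 gs]
      have hcfg : CfgX hd₁ hd₂ r y Q₀ κ t₁ t₂ ρ (β * Real.log H) c J s
          (usX hd₂ t₂ ![c (.inl (s 0)), c (.inl (s 1)), c (.inl (s 2)), c (.inl (s 3))] σ v u4)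
          (zsX ![a, b', a, b] σ) gs := by
        have hρσ : ∀ (x : ℝ) i, |x + σ i - x| ≤ ρ := fun x i => by
          rw [add_sub_cancel_left]
          refine (hσ i).trans ?_
          rw [hρdef]; linarith
        refine ⟨fun i => ?_, g2, ?_, ?_, ?_, ?_⟩
        · fin_cases i
          · exact ⟨rfl, rfl, hρσ _ 0, rfl⟩
          · exact ⟨rfl, rfl, hρσ _ 1, rfl⟩
          · exact ⟨rfl, rfl, hρσ _ 2, rfl⟩
          · exact ⟨rfl, rfl, hρσ _ 3, rfl⟩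
          · exact g1
        · show |(a : ℝ) + σ 0 - β * Real.log H| ≤ ρ + 1
          have := abs_le.1 (hσ 0)
          rw [abs_le, hρdef]
          constructor <;> linarith
        · show |(a : ℝ) + σ 2 - β * Real.log H| ≤ ρ + 1
          have := abs_le.1 (hσ 2)
          rw [abs_le, hρdef]
          constructor <;> linarith
        · show (a : ℝ) + σ 0 + ((b' : ℝ) + σ 1) =
            (c (.inl (s 0)) : ℝ) + σ 0 + ((c (.inl (s 1)) : ℝ) + σ 1)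
          have : ((c (.inl (s 0)) : ℕ) : ℝ) + (c (.inl (s 1)) : ℕ) = (a : ℝ) + b' := by
            exact_mod_cast hab'
          linarith
        · show (a : ℝ) + σ 2 + ((b : ℝ) + σ 3) =
            (c (.inl (s 2)) : ℝ) + σ 2 + ((c (.inl (s 3)) : ℝ) + σ 3)
          have : ((c (.inl (s 2)) : ℕ) : ℝ) + (c (.inl (s 3)) : ℕ) = (a : ℝ) + b := by
            exact_mod_cast hab
          linarith
      have h5 := hone Q₀ Q hQ hQQ κ hκ1 hκ2 J H hH hH2 d₁ d₂ d₃ e hd₁ hd₂ hd₃ he he5 hQe t₁ t₂ τ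
        𝒟 h𝒟 j hj hjL c hc hc2 ((le_max_left _ _).trans hXh) hal s hs5 _ _ _ hcfg
      refine le_trans (le_of_eq ?_) h5
      refine Finset.sum_congr rfl fun q _ => ?_
      rw [TD_eq_SgX (π lam) h τ H hd₂ d₃ e t₂ _ _ σ v g3 q])
  refine hmain.trans ?_
  have hX1 : ((nm d₁ : ℝ) * nm d₂ * nm d₃) ^ (ε / 2) ≤
      ((nm d₁ : ℝ) * nm d₂ * nm d₃ * nm e * Q₀) ^ ε := by
    have h2 : (nm d₁ : ℝ) * nm d₂ * nm d₃ ≤ (nm d₁ : ℝ) * nm d₂ * nm d₃ * nm e * Q₀ := by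
      have h3 : (1 : ℝ) ≤ (nm e : ℝ) * Q₀ := one_le_mul_of_one_le_of_one_le hne hQ₀1
      calc (nm d₁ : ℝ) * nm d₂ * nm d₃ = (nm d₁ : ℝ) * nm d₂ * nm d₃ * 1 := by ring
        _ ≤ (nm d₁ : ℝ) * nm d₂ * nm d₃ * ((nm e : ℝ) * Q₀) := by gcongr
        _ = _ := by ring
    calc ((nm d₁ : ℝ) * nm d₂ * nm d₃) ^ (ε / 2) ≤ ((nm d₁ : ℝ) * nm d₂ * nm d₃) ^ ε :=
          Real.rpow_le_rpow_of_exponent_le n123 (by linarith)
      _ ≤ _ := Real.rpow_le_rpow (by positivity) h2 hε.le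
  calc C * B₁ = C * C' * ((nm d₁ : ℝ) * nm d₂ * nm d₃) ^ (ε / 2) *
        (1 + |t₁| + |t₂| + |τ|) ^ (12 / δ') * Tb := by rw [hB₁]; ring
    _ ≤ _ := by
        have p1 : 0 ≤ C * C' := by positivity
        gcongr

/-- **P7x**: the inequality `EvDD` (all `k`) from the signed theorem `TopDD` -/
theorem evDD_of_topDD {Λ : Type*} {θ μ' y a₀ A A₀ β : ℝ} (hθ : 0 ≤ θ) (hθ1 : θ ≤ 1)
    (hμ : 0 < μ') (hy : 0 < y) (hy1 : y ≤ 1) (ha₀ : 0 < a₀) (hA : A₀ < A) (hβ : 0 < β)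
    (hβA : 4 * β < A₀) (h1 : 1 < 2 * A * (a₀ * (1 / 2 + y))) {π : Λ → DPar}
    (hπ : ∀ lam, (π lam).OK) {h : ℝ → ℝ} {c₀ : ℝ} (hpu : PU h c₀) (hneg : Neg h)
    (ht : TopDD θ (y / (1 / 2 + y)) μ' a₀ A₀ β π h) {Pk : DPar → Prop}
    (hPk : ∀ P : DPar, P.OK → Pk P → ∃ lam, π lam = P) :
    EvDD θ y Pk (fun _ _ => True) a₀ A β := by
  obtain ⟨d₀, hd₀, H⟩ := box_of_topX hθ hθ1 hμ hy hy1 ha₀ hA hβ hβA h1 hπ hpu hneg ht hPk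
  unfold EvDD
  have e1 : ∀ᶠ r : ℕ in atTop, y / (r : ℝ) ≤ d₀ := by
    have : Tendsto (fun r : ℕ => y / (r : ℝ)) atTop (𝓝 0) := tendsto_const_div_atTop_nhds_zero_nat y
    exact (this.eventually (gt_mem_nhds hd₀)).mono fun r hr => le_of_lt hr
  have e2 : ∀ᶠ L : ℕ in atTop, 1 / (L : ℝ) ≤ d₀ := by
    have : Tendsto (fun r : ℕ => 1 / (r : ℝ)) atTop (𝓝 0) := tendsto_const_div_atTop_nhds_zero_nat 1
    exact (this.eventually (gt_mem_nhds hd₀)).mono fun r hr => le_of_lt hr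
  have e3 : ∀ᶠ δ : ℝ in 𝓝[>] 0, 0 < δ ∧ δ ≤ d₀ := by
    have h1 : Set.Ioo (0 : ℝ) d₀ ∈ 𝓝[>] (0 : ℝ) := Ioo_mem_nhdsGT hd₀
    filter_upwards [h1] with δ hδ
    exact ⟨hδ.1, hδ.2.le⟩
  filter_upwards [e1, eventually_gt_atTop 0] with r hr1 hr0
  filter_upwards [e3] with δ hδ
  filter_upwards [e3] with η hη
  filter_upwards [e2, eventually_ge_atTop 1] with L hL1 hL0
  exact H r δ η L hr0 hr1 hδ.1 hδ.2 hη.1 hη.2 hL0 hL1

end Crest.Agent.R017.Ex385
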