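import Crest.Agent.R017.ExBox8_960
import Crest.Agent.R017.ExBox5_960
import Crest.Agent.R017.BxH4_986

/-!
# Row 17, D.box, exceptional class, P7x (helper385), part 1: lists and trivial bounds

* `IlR`, `Il5` : the indices of a box, the five marked ones first
* `cfg` : a shifted configuration is a list of provider pieces
* `SgX_triv` : the trivial bound of the signed double differences
-/

set_option autoImplicit false
set_option linter.unusedSectionVars false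
set_option linter.unusedVariables false

noncomputable section

open Complex Filter Topology
open scoped ComplexConjugate ContDiff

namespace Crest.Agent.R017.Ex385

open Crest.Agent.R012 Crest.Agent.R012.Eis Crest.Agent.R012.Mob705
open Crest.Agent.R012.LS2 (bl)
open Crest.Agent.R012.Div277 (tau dvs mem_dvs tau_le_rpow)
open Crest.Agent.R017.CM106 Crest.Agent.R017.FE47 Crest.Agent.R017.End699
open Crest.Agent.R017.HP842 Crest.Agent.R017.B770 Crest.Agent.R017.Sx545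
open Crest.Agent.R017.HBS271 Crest.Agent.R017.BoxP271
open Crest.Agent.R017.Bx986 Crest.Agent.R017.Prov71 Crest.Agent.R017.BxE986
open Crest.Agent.R017.BxH986
open Crest.Agent.R017.XG702 (Pcs BG)
open Crest.Agent.R017.Cone59 (Tg)
open Crest.Agent.R017.E5T54 Crest.Agent.R017.ExBox960

/-! ### indices -/

section idx

variable {j : ℕ} (s : Fin 5 → Fin (j - 1)) (r : ℕ) (J : Finset (Fin r))

/-- the smooth indices outside the five marked ones -/
def SR : Finset (Fin (j - 1)) := Finset.univ \ {s 4, s 0, s 1, s 2, s 3}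

/-- the indices of the pieces outside the five marked ones, Möbius side -/
def IlM : List (Ix j r) :=
  (SR s).toList.map (fun i => Sum.inl i) ++ List.ofFn fun i : Fin j => Sum.inr (Sum.inl i)

/-- the indices of the pieces outside the five marked ones -/
def IlR : List (Ix j r) := IlM s r ++ IlA j r J

/-- the indices of a box, the five marked ones first -/
def Il5 : List (Ix j r) := (List.ofFn fun i : Fin 5 => (Sum.inl (s i) : Ix j r)) ++ IlR s r J

lemma mem_SR (x : Fin (j - 1)) : x ∈ SR s ↔ x ∉ Set.range s := by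
  unfold SR
  simp only [Finset.mem_sdiff, Finset.mem_univ, true_and, Finset.mem_insert,
    Finset.mem_singleton, not_or, Set.mem_range, not_exists]
  constructor
  · rintro ⟨h4, h0, h1, h2, h3⟩ i
    fin_cases i
    · exact fun h => h0 h.symm
    · exact fun h => h1 h.symm
    · exact fun h => h2 h.symm
    · exact fun h => h3 h.symm
    · exact fun h => h4 h.symm
  · intro h
    exact ⟨fun h' => h 4 h'.symm, fun h' => h 0 h'.symm, fun h' => h 1 h'.symm,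
      fun h' => h 2 h'.symm, fun h' => h 3 h'.symm⟩

lemma perm_smooth (hs : Function.Injective s) :
    (List.ofFn s ++ (SR s).toList).Perm (List.finRange (j - 1)) := by
  rw [List.perm_ext_iff_of_nodup]
  · intro x
    rw [List.mem_append, List.mem_ofFn, Finset.mem_toList, mem_SR]
    simp only [List.mem_finRange, iff_true]
    exact em _
  · rw [List.nodup_append]
    refine ⟨List.nodup_ofFn.2 hs, Finset.nodup_toList _, ?_⟩
    intro a ha b hb
    rw [List.mem_ofFn] at ha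
    rw [Finset.mem_toList, mem_SR] at hb
    rintro rfl
    exact hb ha
  · exact List.nodup_finRange _

lemma Il5_perm (hs : Function.Injective s) : (Il5 s r J).Perm (Il j r J) := by
  rw [Il_eq]
  unfold Il5 IlR IlM IlS
  rw [← List.append_assoc, ← List.append_assoc]
  refine List.Perm.append_right _ (List.Perm.append_right _ ?_)
  have h := (perm_smooth s hs).map (fun i => (Sum.inl i : Ix j r))
  rw [List.map_append, List.map_ofFn] at h
  have e : (List.finRange (j - 1)).map (fun i => (Sum.inl i : Ix j r)) =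
      List.ofFn fun i : Fin (j - 1) => (Sum.inl i : Ix j r) := (List.ofFn_eq_map).symm
  rw [e] at h
  exact h

end idx

/-! ### provider pieces -/

section pq

variable (P : DPar) {d₁ d₂ : Eis} (h₁ : d₁ ≠ 0) (h₂ : d₂ ≠ 0) (r : ℕ) (y Q₀ κ t₁ t₂ : ℝ) {j : ℕ}
  (c : Fin (j - 1) ⊕ Fin j → ℕ)

lemma dsR_eq (s : Fin 5 → Fin (j - 1)) :
    dsR P d₂ t₂ c {s 4, s 0, s 1, s 2, s 3} =
      ((IlM s r).map (dsc h₁ h₂ r y Q₀ κ t₁ t₂ c)).map (Pq.pc P) := by
  have hS : χS P d₂ = fun b => chK P .mo b * prin0 d₂ b := rfl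
  unfold dsR IlM pS SR
  simp only [List.map_append, List.map_ofFn, List.map_map, hS]
  rfl

lemma kd_IlM (s : Fin 5 → Fin (j - 1)) :
    ∀ d ∈ (Sum.inl (s 4) :: IlM s r).map (dsc h₁ h₂ r y Q₀ κ t₁ t₂ c), d.kd = .mo := by
  intro d hd
  obtain ⟨x, hx, rfl⟩ := List.mem_map.1 hd
  unfold IlM at hx
  rw [List.mem_cons, List.mem_append, List.mem_map, List.mem_ofFn] at hx
  rcases hx with rfl | ⟨i, _, rfl⟩ | ⟨i, rfl⟩ <;> rfl

lemma kd_IlA (J : Finset (Fin r)) :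
    ∀ d ∈ (IlA j r J).map (dsc h₁ h₂ r y Q₀ κ t₁ t₂ c), d.kd = .am := by
  intro d hd
  obtain ⟨x, hx, rfl⟩ := List.mem_map.1 hd
  unfold IlA at hx
  rw [List.mem_cons, List.mem_map] at hx
  rcases hx with rfl | ⟨i, _, rfl⟩ <;> rfl

/-- **a shifted configuration is a list of provider pieces** -/
lemma cfg (J : Finset (Fin r)) (s : Fin 5 → Fin (j - 1)) {ρ : ℝ} (M : ℝ) {p₄ : Pc}
    {ps qs : List Pc} (hp₄ : Nr ρ p₄ (pS P d₂ (c (.inl (s 4))) t₂))
    (hps : List.Forall₂ (Nr ρ) ps (dsR P d₂ t₂ c {s 4, s 0, s 1, s 2, s 3}))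
    (hqs : List.Forall₂ (Nr ρ) qs (dsA P r y Q₀ κ J d₁ t₁)) (h : ℝ → ℝ) :
    ∃ (u4 : Pq) (gs : List Pq), NrQ ρ u4 (dsc h₁ h₂ r y Q₀ κ t₁ t₂ c (.inl (s 4))) ∧
      List.Forall₂ (NrQ ρ) gs ((IlR s r J).map (dsc h₁ h₂ r y Q₀ κ t₁ t₂ c)) ∧
      (∀ k, VV P h (u4 :: gs) k = ((p₄ :: ps).map fun p => CS (pc h p) k).prod *
        conj ((qs.map fun p => CS (pc h p) k).prod)) ∧
      cost M (p₄ :: ps) (pS P d₂ (c (.inl (s 4))) t₂ ::
        dsR P d₂ t₂ c {s 4, s 0, s 1, s 2, s 3}) * cost M qs (dsA P r y Q₀ κ J d₁ t₁) =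
        costQ M (u4 :: gs) (dsc h₁ h₂ r y Q₀ κ t₁ t₂ c (.inl (s 4)) ::
          (IlR s r J).map (dsc h₁ h₂ r y Q₀ κ t₁ t₂ c)) := by
  have e1 : pS P d₂ (c (.inl (s 4))) t₂ :: dsR P d₂ t₂ c {s 4, s 0, s 1, s 2, s 3} =
      ((Sum.inl (s 4) :: IlM s r).map (dsc h₁ h₂ r y Q₀ κ t₁ t₂ c)).map (Pq.pc P) := by
    rw [dsR_eq P h₁ h₂ r y Q₀ κ t₁ t₂ c s, List.map_cons, List.map_cons]
    rfl
  have hps' : List.Forall₂ (Nr ρ) (p₄ :: ps) (pS P d₂ (c (.inl (s 4))) t₂ ::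
      dsR P d₂ t₂ c {s 4, s 0, s 1, s 2, s 3}) := List.Forall₂.cons hp₄ hps
  rw [e1] at hps' ⊢
  rw [BxH986.dsA_eq P h₁ h₂ r y Q₀ κ J t₁ t₂ c] at hqs ⊢
  obtain ⟨Q1, a1, a2, a3⟩ := exists_pq P M _ _ hps'
  obtain ⟨Q2, b1, b2, b3⟩ := exists_pq P M _ qs hqs
  have k1 := kd_of_forall₂ a2 (kd_IlM h₁ h₂ r y Q₀ κ t₁ t₂ c s)
  have k2 := kd_of_forall₂ b2 (kd_IlA h₁ h₂ r y Q₀ κ t₁ t₂ c J)
  have v1 : ∀ k, VV P h (Q1 ++ Q2) k = ((p₄ :: ps).map fun p => CS (pc h p) k).prod *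
        conj ((qs.map fun p => CS (pc h p) k).prod) := fun k => by
    rw [VV_append, VV_mo P h k k1, VV_am P h k k2, a1, b1]
  have v2 : costQ M (Q1 ++ Q2) ((Sum.inl (s 4) :: IlM s r).map (dsc h₁ h₂ r y Q₀ κ t₁ t₂ c) ++
      (IlA j r J).map (dsc h₁ h₂ r y Q₀ κ t₁ t₂ c)) =
      costQ M Q1 ((Sum.inl (s 4) :: IlM s r).map (dsc h₁ h₂ r y Q₀ κ t₁ t₂ c)) *
        costQ M Q2 ((IlA j r J).map (dsc h₁ h₂ r y Q₀ κ t₁ t₂ c)) :=
    costQ_append M a2.length_eq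
  rw [List.map_cons] at a2 v2
  obtain ⟨u4, Q1', hu, hQ1', rfl⟩ := List.forall₂_cons_right_iff.1 a2
  refine ⟨u4, Q1' ++ Q2, hu, ?_, v1, ?_⟩
  · unfold IlR
    rw [List.map_append]
    exact List.rel_append hQ1' b2
  · rw [a3, b3]
    unfold IlR
    rw [List.map_append]
    exact v2.symm

end pq

/-! ### total lengths -/

/-- the total lengths after a shift -/
lemma LM_near {ρ : ℝ} (hρ : 0 ≤ ρ) (t : Kd) {qs ds : List Pq}
    (h : List.Forall₂ (NrQ ρ) qs ds) : |LM t qs - LM t ds| ≤ ds.length * ρ := by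
  induction h with
  | nil => simp
  | @cons q d qs ds hq _ ih =>
    rw [List.length_cons, LM_cons, LM_cons, hq.kd]
    push_cast
    split_ifs
    · have : q.z + LM t qs - (d.z + LM t ds) = (LM t qs - LM t ds) + (q.z - d.z) := by ring
      rw [this]
      refine (abs_add_le _ _).trans ?_
      linarith [hq.z]
    · have : (0 : ℝ) + LM t qs - (0 + LM t ds) = LM t qs - LM t ds := by ring
      rw [this]; linarith

lemma LM_perm (t : Kd) {ps qs : List Pq} (h : ps.Perm qs) : LM t ps = LM t qs := by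
  unfold LM; exact (h.map _).sum_eq

/-- the sum of all lengths -/
lemma LM_total (qs : List Pq) : LM .mo qs + LM .am qs = (qs.map fun q => q.z).sum := by
  induction qs with
  | nil => simp
  | cons q qs ih =>
    rw [LM_cons, LM_cons, List.map_cons, List.sum_cons, ← ih]
    cases hk : q.kd <;> simp <;> ring

lemma PL_nonneg_eq {qs : List Pq} (h : ∀ q ∈ qs, 0 ≤ q.z) :
    PL qs = (qs.map fun q => q.z).sum := by
  unfold PL
  congr 1
  exact List.map_congr_left fun q hq => max_eq_right (h q hq)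

/-! ### trivial bounds -/

lemma norm_Co {h : ℝ → ℝ} (p : Pc) (k : Eis) : ‖Co h p k‖ = ‖CS (pc h p) k‖ := by
  unfold Co
  rw [norm_mul, Weight600.norm_osc, one_mul]

/-- a product of two pieces, total length -/
lemma norm_Co_mul {h : ℝ → ℝ} (hn : Neg h) {C : ℝ} (hC : 1 ≤ C)
    (hb : ∀ p : Pc, p.OK → ∀ k : Eis, ‖CS (pc h p) k‖ ≤ C * max 1 p.Y) {p p' : Pc} (hp : p.OK)
    (hp' : p'.OK) (k : Eis) :
    ‖Co h p k * Co h p' k‖ ≤ C ^ 2 * Real.exp (Real.log p.Y + Real.log p'.Y) := by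
  rw [norm_mul, norm_Co, norm_Co]
  by_cases h1 : Real.log p.Y < 0
  · rw [CS_pc_neg hn h1, norm_zero, zero_mul]; positivity
  by_cases h2 : Real.log p'.Y < 0
  · rw [CS_pc_neg hn h2, norm_zero, mul_zero]; positivity
  push Not at h1 h2
  have e : ∀ {x : ℝ}, 0 < x → 0 ≤ Real.log x → max 1 x = Real.exp (Real.log x) := by
    intro x hx hl
    rw [Real.exp_log hx]
    refine max_eq_right ?_
    by_contra hc
    push Not at hc
    exact absurd (Real.log_neg hx hc) (not_lt.2 hl)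
  have g1 := hb p hp k
  have g2 := hb p' hp' k
  rw [e hp.Y0 h1] at g1
  rw [e hp'.Y0 h2] at g2
  calc _ ≤ (C * Real.exp (Real.log p.Y)) * (C * Real.exp (Real.log p'.Y)) :=
        mul_le_mul g1 g2 (norm_nonneg _) (by positivity)
    _ = _ := by rw [Real.exp_add]; ring

/-- the trivial bound of a difference of shapes -/
lemma norm_Dq2 {P : DPar} (hP : P.OK) {h : ℝ → ℝ} (hn : Neg h) {C : ℝ} (hC : 1 ≤ C)
    (hb : ∀ p : Pc, p.OK → ∀ k : Eis, ‖CS (pc h p) k‖ ≤ C * max 1 p.Y) {p p' : Pq} {Z Z' : ℝ}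
    (hz : Z + Z' = p.z + p'.z) (k : Eis) :
    ‖Dq2 P h p p' Z Z' k‖ ≤ 2 * C ^ 2 * Real.exp (p.z + p'.z) := by
  unfold Dq2 Dp
  refine (norm_sub_le _ _).trans ?_
  have h1 := norm_Co_mul hn hC hb (Pq.ok hP p) (Pq.ok hP p') k
  have h2 := norm_Co_mul hn hC hb
    (p := ⟨(p.pc P).u, (p.pc P).ψ, Real.exp Z, (p.pc P).t⟩)
    (p' := ⟨(p'.pc P).u, (p'.pc P).ψ, Real.exp Z', (p'.pc P).t⟩)
    ⟨(Pq.ok hP p).ch, Real.exp_pos _⟩ ⟨(Pq.ok hP p').ch, Real.exp_pos _⟩ k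
  rw [Pq.pc_Y, Pq.pc_Y, Real.log_exp, Real.log_exp] at h1
  dsimp only at h2
  rw [Real.log_exp, Real.log_exp, hz] at h2
  linarith

/-- the trivial bound of the summand -/
lemma norm_DXV {P : DPar} (hP : P.OK) {h : ℝ → ℝ} (hn : Neg h) {C : ℝ} (hC : 1 ≤ C)
    (hb : ∀ p : Pc, p.OK → ∀ k : Eis, ‖CS (pc h p) k‖ ≤ C * max 1 p.Y) {us : Fin 5 → Pq}
    {zs : Fin 4 → ℝ} {gs : List Pq} (h01 : zs 0 + zs 1 = (us 0).z + (us 1).z)
    (h23 : zs 2 + zs 3 = (us 2).z + (us 3).z) (hg : ∀ q ∈ us 4 :: gs, 0 ≤ q.z) (k : Eis) :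
    ‖DX P h us zs k * VV P h (us 4 :: gs) k‖ ≤ 4 * (C ^ (gs.length + 5) *
      Real.exp (LM .mo (List.ofFn us ++ gs) + LM .am (List.ofFn us ++ gs))) := by
  have h1 := norm_Dq2 hP hn hC hb h01 k
  have h2 := norm_Dq2 hP hn hC hb h23 k
  have h3 := norm_VV_le hP hC hb k (us 4 :: gs)
  rw [PL_nonneg_eq hg, List.map_cons, List.sum_cons, List.length_cons] at h3
  rw [LM_total, List.map_append, List.sum_append, List.map_ofFn, List.sum_ofFn,
    Fin.sum_univ_five]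
  unfold DX
  rw [norm_mul, norm_mul]
  have hC0 : 0 ≤ C := by linarith
  calc _ ≤ (2 * C ^ 2 * Real.exp ((us 0).z + (us 1).z)) *
        (2 * C ^ 2 * Real.exp ((us 2).z + (us 3).z)) *
        (C ^ (gs.length + 1) * Real.exp ((us 4).z + (gs.map fun q => q.z).sum)) := by
        refine mul_le_mul (mul_le_mul h1 h2 (norm_nonneg _) (by positivity)) h3 (norm_nonneg _)
          (by positivity)
    _ = 4 * (C ^ (gs.length + 5) * (Real.exp ((us 0).z + (us 1).z) *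
        Real.exp ((us 2).z + (us 3).z) * Real.exp ((us 4).z + (gs.map fun q => q.z).sum))) := by
        ring
    _ = _ := by
        rw [← Real.exp_add, ← Real.exp_add]
        simp only [Function.comp_apply]
        congr 3
        ring

open Classical in
/-- **the trivial bound of a signed sum over all `k ≠ 0`** -/
theorem SgG_triv (P : DPar) (hP : P.OK) :
    ∃ C β : ℝ, 0 ≤ C ∧ 0 < β ∧ ∀ (τ H : ℝ), 0 < H → ∀ (d₃ e : Eis), IsPrim e →
      ∀ (𝒟 : Finset Eis), (∀ q ∈ 𝒟, IsPrim q) → ∀ (G : Eis → ℂ) (T : ℝ), 0 ≤ T →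
      (∀ k, ‖G k‖ ≤ T) →
      ∑ q ∈ 𝒟, ‖∑' k : Eis, if k ≠ 0 ∧ q ^ 2 ∣ k then
        P.wk τ H k * (prin0 d₃ k * sy k e) * G k else 0‖ ≤ C * (β * H) ^ (2 : ℝ) * T := by
  obtain ⟨β, hβ, hβU⟩ := exists_supp hP.U
  obtain ⟨BU, hBU0, hBU⟩ := sw_bdd hP.U
  obtain ⟨Cτ, hCτ, hτ⟩ := tau_le_rpow (one_pos : (0 : ℝ) < 1)
  set W : ℝ := nm P.n₃ * BU with hW
  have hW0 : 0 ≤ W := by positivity
  refine ⟨W * Cτ * 16, β, by positivity, hβ, ?_⟩
  intro τ H hH d₃ e he 𝒟 h𝒟 G T hT0 hV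
  have hβH : 0 < β * H := mul_pos hβ hH
  have e0 : ∀ q : Eis, (∑' k : Eis, if k ≠ 0 ∧ q ^ 2 ∣ k then
      P.wk τ H k * (prin0 d₃ k * sy k e) * G k else 0) =
      ∑ k ∈ bl (β * H), if k ≠ 0 ∧ q ^ 2 ∣ k then
      P.wk τ H k * (prin0 d₃ k * sy k e) * G k else 0 := by
    intro q
    refine tsum_eq_sum fun k hk => ?_
    split_ifs with hc
    · have h2 : β * H < nm k := by
        by_contra h3
        exact hk ((mem_bl' hβH.le).2 ⟨not_lt.1 h3, hc.1⟩)
      have h3 : P.U (nm k / H) = 0 := hβU _ (by rwa [lt_div_iff₀ hH])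
      unfold DPar.wk
      rw [h3]
      simp
    · rfl
  have h1 : ∀ q ∈ 𝒟, ‖∑' k : Eis, if k ≠ 0 ∧ q ^ 2 ∣ k then
      P.wk τ H k * (prin0 d₃ k * sy k e) * G k else 0‖ ≤ ∑ k ∈ bl (β * H),
      if q ^ 2 ∣ k then W * T else 0 := by
    intro q hq
    rw [e0]
    refine (norm_sum_le _ _).trans (Finset.sum_le_sum fun k hk => ?_)
    rw [mem_bl' hβH.le] at hk
    by_cases hc : k ≠ 0 ∧ q ^ 2 ∣ k
    · rw [if_pos hc, if_pos hc.2, norm_mul, norm_mul, norm_mul]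
      have w1 := norm_wk_le P hP hBU τ H hk.2
      have w2 : ‖prin0 d₃ k‖ ≤ 1 := by
        unfold prin0; split_ifs <;> simp
      have w3 := norm_sy_le' k e he
      have w4 : ‖P.wk τ H k‖ * (‖prin0 d₃ k‖ * ‖sy k e‖) ≤ W * (1 * 1) := by
        rw [hW]; gcongr
      calc _ ≤ W * (1 * 1) * T := mul_le_mul w4 (hV k) (norm_nonneg _) (by positivity)
        _ = _ := by ring
    · rw [if_neg hc, norm_zero]
      split_ifs <;> positivity
  refine (Finset.sum_le_sum h1).trans ?_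
  rw [Finset.sum_comm]
  have h2 : ∀ k ∈ bl (β * H), (∑ q ∈ 𝒟, if q ^ 2 ∣ k then W * T else 0) ≤
      Cτ * (β * H) ^ (1 : ℝ) * (W * T) := by
    intro k hk
    rw [mem_bl' hβH.le] at hk
    rw [← Finset.sum_filter, Finset.sum_const, nsmul_eq_mul]
    refine mul_le_mul_of_nonneg_right ?_ (by positivity)
    have h6 : (𝒟.filter (fun q => q ^ 2 ∣ k)) ⊆ dvs k := by
      intro q hq
      rw [Finset.mem_filter] at hq
      rw [mem_dvs hk.2]
      exact ⟨h𝒟 q hq.1, (dvd_pow_self q two_ne_zero).trans hq.2⟩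
    have h7 : ((𝒟.filter (fun q => q ^ 2 ∣ k)).card : ℝ) ≤ tau k := by
      unfold Div277.tau
      exact_mod_cast Finset.card_le_card h6
    refine h7.trans ((hτ k hk.2).trans ?_)
    have : (nm k : ℝ) ^ (1 : ℝ) ≤ (β * H) ^ (1 : ℝ) :=
      Real.rpow_le_rpow (by positivity) hk.1 zero_le_one
    gcongr
  refine (Finset.sum_le_sum h2).trans ?_
  rw [Finset.sum_const, nsmul_eq_mul]
  have h3 := CR2.card_bl_le hβH.le
  calc ((bl (β * H)).card : ℝ) * (Cτ * (β * H) ^ (1 : ℝ) * (W * T))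
      ≤ (16 * (β * H)) * (Cτ * (β * H) ^ (1 : ℝ) * (W * T)) :=
        mul_le_mul_of_nonneg_right h3 (by positivity)
    _ = _ := by
        rw [Real.rpow_one, Real.rpow_two]; ring

/-- **the trivial bound of the signed double differences** -/
theorem SgX_triv (P : DPar) (hP : P.OK) {h : ℝ → ℝ} (hn : Neg h) {C₀ : ℝ} (hC₀ : 1 ≤ C₀)
    (hb : ∀ p : Pc, p.OK → ∀ k : Eis, ‖CS (pc h p) k‖ ≤ C₀ * max 1 p.Y) :
    ∃ C β : ℝ, 0 ≤ C ∧ 0 < β ∧ ∀ (τ H : ℝ), 0 < H → ∀ (d₃ e : Eis), IsPrim e →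
      ∀ (𝒟 : Finset Eis), (∀ q ∈ 𝒟, IsPrim q) → ∀ (us : Fin 5 → Pq) (zs : Fin 4 → ℝ)
      (gs : List Pq), zs 0 + zs 1 = (us 0).z + (us 1).z → zs 2 + zs 3 = (us 2).z + (us 3).z →
      (∀ q ∈ us 4 :: gs, 0 ≤ q.z) →
      ∑ q ∈ 𝒟, ‖SgX P h τ H d₃ e us zs gs q‖ ≤ C * (β * H) ^ (2 : ℝ) * (C₀ ^ (gs.length + 5) *
        Real.exp (LM .mo (List.ofFn us ++ gs) + LM .am (List.ofFn us ++ gs))) := by
  obtain ⟨C, β, hC, hβ, H⟩ := SgG_triv P hP
  refine ⟨4 * C, β, by positivity, hβ, ?_⟩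
  intro τ H' hH d₃ e he 𝒟 h𝒟 us zs gs h01 h23 hg
  have hC0 : 0 ≤ C₀ := by linarith
  have h1 := H τ H' hH d₃ e he 𝒟 h𝒟 (fun k => DX P h us zs k * VV P h (us 4 :: gs) k)
    (4 * (C₀ ^ (gs.length + 5) *
      Real.exp (LM .mo (List.ofFn us ++ gs) + LM .am (List.ofFn us ++ gs)))) (by positivity)
    (norm_DXV hP hn hC₀ hb h01 h23 hg)
  refine le_trans (le_of_eq ?_) (h1.trans (le_of_eq (by ring)))
  rfl

/-- a piece of negative length among the last ones -/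
lemma SgX_zero {P : DPar} {h : ℝ → ℝ} (hn : Neg h) {τ H : ℝ} {d₃ e : Eis} {us : Fin 5 → Pq}
    {zs : Fin 4 → ℝ} {gs : List Pq} (hg : ∃ q ∈ us 4 :: gs, q.z < 0) (q : Eis) :
    SgX P h τ H d₃ e us zs gs q = 0 := by
  unfold SgX
  refine (tsum_congr fun k => ?_).trans tsum_zero
  rw [VV_zero hn hg k]
  simp

end Crest.Agent.R017.Ex385
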