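import Crest.Agent.R017.ExBox9a_385

/-!
# Row 17, D.box, exceptional class, P7x (helper385), part 2: one shifted configuration

* `TopXAt`, `one_cfgX`
-/

set_option autoImplicit false
set_option linter.unusedSectionVars false
set_option linter.unusedVariables false

noncomputable section

open Complex Filter Topology
open scoped ComplexConjugate ContDiff

namespace Crest.Agent.R017.Ex385

open Crest.Agent.R012 Crest.Agent.R012.Eis Crest.Agent.R012.Mob705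
open Crest.Agent.R017.CM106 Crest.Agent.R017.FE47 Crest.Agent.R017.End699
open Crest.Agent.R017.HP842 Crest.Agent.R017.B770 Crest.Agent.R017.Sx545
open Crest.Agent.R017.Bx986 Crest.Agent.R017.Prov71 Crest.Agent.R017.BxE986
open Crest.Agent.R017.BxH986
open Crest.Agent.R017.XG702 (Pcs BG)
open Crest.Agent.R017.Cone59 (Tg)
open Crest.Agent.R017.E5T54 Crest.Agent.R017.ExBox960

/-- the signed theorem for double differences at one `P`, one `N`, one `B` -/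
def TopXAt (θ g μ' a₀ A β : ℝ) (P : DPar) (h : ℝ → ℝ) (N : ℕ) (B dt δ' X₀ : ℝ) : Prop :=
  ∀ X : ℝ, X₀ ≤ X → ∀ (H : ℝ), 0 < H → ∀ (us : Fin 5 → Pq) (zs : Fin 4 → ℝ) (ps : List Pq),
    ps.length ≤ N → (∀ p ∈ ps, Dq.lump p ∨ Dq.nl X p ≤ dt) →
    Dq.Good X δ' B (List.ofFn us ++ ps) →
    a₀ ≤ Real.log H / Real.log X → MkX A β dt (Real.log H / Real.log X) X us zs ps →
    ∀ (d₃ e : Eis), d₃ ≠ 0 → (nm d₃ : ℝ) ≤ X ^ B → Sm P.n e →
      (∀ p : Eis, Prime p → p ∣ e → p ^ 5 ∣ e) →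
    ∀ τ : ℝ, 1 + |τ| ≤ X ^ δ' →
    ∀ 𝒟 : Finset Eis, (∀ q ∈ 𝒟, Sm P.n q ∧ Squarefree q) →
    ∀ hh q c : ℝ, 0 ≤ hh → hh ≤ 1 → 0 ≤ q → q ≤ 2 - 2 * g → 0 ≤ c → c ≤ g →
      q + Real.log (nm e) / Real.log X - c ≤ 2 - 3 * g + dt →
      |Real.log H / Real.log X - hh| ≤ dt →
      |Dq.mass X (List.ofFn us ++ ps) .mo - q| ≤ dt →
      |Dq.mass X (List.ofFn us ++ ps) .am - c| ≤ dt →
      ∑ r ∈ 𝒟, ‖SgX P h τ H d₃ e us zs ps r‖ ≤ X ^ (Tg θ g hh q c - μ')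

/-- the shifted data of a configuration -/
structure CfgX {d₁ d₂ : Eis} (h₁ : d₁ ≠ 0) (h₂ : d₂ ≠ 0) (r : ℕ) (y Q₀ κ t₁ t₂ ρ a : ℝ) {j : ℕ}
    (c : Fin (j - 1) ⊕ Fin j → ℕ) (J : Finset (Fin r)) (s : Fin 5 → Fin (j - 1))
    (us : Fin 5 → Pq) (zs : Fin 4 → ℝ) (gs : List Pq) : Prop where
  hus : ∀ i, NrQ ρ (us i) (dsc h₁ h₂ r y Q₀ κ t₁ t₂ c (.inl (s i)))
  hgs : List.Forall₂ (NrQ ρ) gs ((IlR s r J).map (dsc h₁ h₂ r y Q₀ κ t₁ t₂ c))
  z0 : |zs 0 - a| ≤ ρ + 1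
  z2 : |zs 2 - a| ≤ ρ + 1
  s01 : zs 0 + zs 1 = (us 0).z + (us 1).z
  s23 : zs 2 + zs 3 = (us 2).z + (us 3).z

lemma forall₂_ofFn' {α β : Type*} {R : α → β → Prop} : ∀ {n : ℕ} {g : Fin n → α} {f : Fin n → β},
    (∀ i, R (g i) (f i)) → List.Forall₂ R (List.ofFn g) (List.ofFn f)
  | 0, g, f, h => by simp
  | n + 1, g, f, h => by
    rw [List.ofFn_succ, List.ofFn_succ]
    exact List.Forall₂.cons (h 0) (forall₂_ofFn' fun i => h i.succ)

section cfgx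

variable {d₁ d₂ : Eis} {h₁ : d₁ ≠ 0} {h₂ : d₂ ≠ 0} {r : ℕ} {y Q₀ κ t₁ t₂ ρ a : ℝ} {j : ℕ}
  {c : Fin (j - 1) ⊕ Fin j → ℕ} {J : Finset (Fin r)} {s : Fin 5 → Fin (j - 1)}
  {us : Fin 5 → Pq} {zs : Fin 4 → ℝ} {gs : List Pq}

/-- the whole list -/
lemma CfgX.full (C : CfgX h₁ h₂ r y Q₀ κ t₁ t₂ ρ a c J s us zs gs) :
    List.Forall₂ (NrQ ρ) (List.ofFn us ++ gs)
      ((Il5 s r J).map (dsc h₁ h₂ r y Q₀ κ t₁ t₂ c)) := by
  unfold Il5
  rw [List.map_append, List.map_ofFn]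
  exact List.rel_append (forall₂_ofFn' C.hus) C.hgs

/-- the whole list in the order of the box -/
lemma CfgX.perm (C : CfgX h₁ h₂ r y Q₀ κ t₁ t₂ ρ a c J s us zs gs) (hs : Function.Injective s) :
    ∃ qs : List Pq, (List.ofFn us ++ gs).Perm qs ∧
      List.Forall₂ (NrQ ρ) qs ((Il j r J).map (dsc h₁ h₂ r y Q₀ κ t₁ t₂ c)) := by
  have h1 := C.full
  have h2 : ((Il5 s r J).map (dsc h₁ h₂ r y Q₀ κ t₁ t₂ c)).Perm
      ((Il j r J).map (dsc h₁ h₂ r y Q₀ κ t₁ t₂ c)) := (Il5_perm s r J hs).map _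
  have h3 : Relation.Comp (List.Forall₂ (NrQ ρ)) List.Perm (List.ofFn us ++ gs)
      ((Il j r J).map (dsc h₁ h₂ r y Q₀ κ t₁ t₂ c)) := ⟨_, h1, h2⟩
  rw [List.forall₂_comp_perm_eq_perm_comp_forall₂] at h3
  obtain ⟨qs, h4, h5⟩ := h3
  exact ⟨qs, h4, h5⟩

/-- the marks -/
lemma CfgX.mkX (C : CfgX h₁ h₂ r y Q₀ κ t₁ t₂ ρ a c J s us zs gs) {A A₀ β H X dt : ℝ}
    (hs : Top5 A H c s) (hρ : 1 ≤ ρ) (hdt : 0 < dt) (ha : a = β * Real.log H) (hX : 1 < X)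
    (hl0 : 0 ≤ Real.log H) (e1 : 2 * ρ ≤ dt * Real.log X) (e2 : 4 * ρ ≤ (A - A₀) * Real.log H) :
    MkX A₀ β dt (Real.log H / Real.log X) X us zs gs := by
  have hK0 : 0 < Real.log X := Real.log_pos hX
  have nlz : ∀ p : Pq, Dq.nl X p = p.z / Real.log X := fun p => by
    unfold Pcs.nl; rw [Dq_len]
  have hz : ∀ i, |(us i).z - (c (.inl (s i)) : ℝ)| ≤ ρ := fun i => (C.hus i).z
  refine ⟨fun i => ?_, fun i j' => ?_, fun i j' hij => ?_, fun p hp hl => ?_, ?_, C.s01, C.s23,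
    ?_, ?_, fun p hp hl => ?_⟩
  · rw [Dq_lump]
    exact ⟨(C.hus i).kd, (C.hus i).u⟩
  · rw [(C.hus i).md, (C.hus j').md]
    rfl
  · have h1 := abs_le.1 (hz i)
    have h2 := abs_le.1 (hz j')
    have h3 : (c (.inl (s j')) : ℝ) ≤ c (.inl (s i)) := by exact_mod_cast hs.anti i j' hij
    rw [nlz, nlz, div_add' _ _ _ hK0.ne', div_le_div_iff_of_pos_right hK0]
    linarith
  · obtain ⟨d, hd, hR⟩ := forall₂_mem_left C.hgs hp
    obtain ⟨x, hx, rfl⟩ := List.mem_map.1 hd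
    rw [Dq_lump] at hl
    unfold IlR IlM at hx
    rw [List.mem_append, List.mem_append, List.mem_map, List.mem_ofFn] at hx
    rcases hx with (⟨i, hi, rfl⟩ | ⟨i, rfl⟩) | hx
    · rw [Finset.mem_toList, mem_SR] at hi
      have h3 : (c (.inl i) : ℝ) ≤ c (.inl (s 4)) := by exact_mod_cast hs.top i hi
      have h1 : |p.z - (c (.inl i) : ℝ)| ≤ ρ := hR.z
      have h1' := abs_le.1 h1
      have h2 := abs_le.1 (hz 4)
      rw [nlz, nlz, div_add' _ _ _ hK0.ne', div_le_div_iff_of_pos_right hK0]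
      linarith
    · have := hR.u
      rw [hl.2] at this
      simp [dsc] at this
    · unfold IlA at hx
      rw [List.mem_cons, List.mem_map] at hx
      have := hR.kd
      rw [hl.1] at this
      rcases hx with rfl | ⟨i, _, rfl⟩ <;> simp [dsc] at this
  · have hn := hs.near
    rw [sum_w5 (fun i => (c (.inl (s i)) : ℝ))] at hn
    have h2 := (abs_le.1 (hz 2)).1
    have h3 := (abs_le.1 (hz 3)).1
    have h4 := (abs_le.1 (hz 4)).1
    rw [nlz, nlz, nlz]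
    have e3 : (us 2).z / Real.log X + (us 3).z / Real.log X + 2 * ((us 4).z / Real.log X) =
        ((us 2).z + (us 3).z + 2 * (us 4).z) / Real.log X := by ring
    rw [e3, ← mul_div_assoc, div_le_div_iff_of_pos_right hK0]
    linarith
  · have h1 : zs 0 / Real.log X - β * (Real.log H / Real.log X) = (zs 0 - a) / Real.log X := by
      rw [ha]; ring
    rw [h1, abs_div, abs_of_pos hK0, div_le_iff₀ hK0]
    linarith [C.z0]
  · have h1 : zs 2 / Real.log X - β * (Real.log H / Real.log X) = (zs 2 - a) / Real.log X := by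
      rw [ha]; ring
    rw [h1, abs_div, abs_of_pos hK0, div_le_iff₀ hK0]
    linarith [C.z2]
  · obtain ⟨d, hd, hR⟩ := forall₂_mem_left C.hgs hp
    obtain ⟨x, hx, rfl⟩ := List.mem_map.1 hd
    rw [Dq_lump] at hl
    unfold IlR IlM at hx
    rw [List.mem_append, List.mem_append, List.mem_map, List.mem_ofFn] at hx
    rcases hx with (⟨i, hi, rfl⟩ | ⟨i, rfl⟩) | hx
    · rw [hR.md, (C.hus 4).md]
      rfl
    · have := hR.u
      rw [hl.2] at this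
      simp [dsc] at this
    · unfold IlA at hx
      rw [List.mem_cons, List.mem_map] at hx
      have := hR.kd
      rw [hl.1] at this
      rcases hx with rfl | ⟨i, _, rfl⟩ <;> simp [dsc] at this

end cfgx

set_option maxHeartbeats 1000000 in
/-- **one shifted configuration** -/
theorem one_cfgX {θ μ' y : ℝ} (hθ : 0 ≤ θ) (hθ1 : θ ≤ 1) (hμ : 0 < μ') (hy : 0 < y)
    (hy1 : y ≤ 1) {dt : ℝ} {a₀ A A₀ β : ℝ} (hdt : 0 < dt) (ha₀ : 0 < a₀) (hA : A₀ < A)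
    (hβ : 0 < β) (h1 : 1 < 2 * A * (a₀ * (1 / 2 + y)))
    {P : DPar} (hP : P.OK) {h : ℝ → ℝ} (hneg : Neg h) {N : ℕ} {ε δ' X₀ : ℝ} (hε : 0 < ε)
    (hδ' : 0 < δ') (hX₀ : 1 < X₀)
    (htop : TopXAt θ (y / (1 / 2 + y)) μ' a₀ A₀ β P h N (24 / ε) dt δ' X₀)
    {C₀ : ℝ} (hC₀ : 1 ≤ C₀) {Ct βU : ℝ} (hCt : 0 ≤ Ct) (hβU : 0 < βU)
    (htr : ∀ (τ H : ℝ), 0 < H → ∀ (d₃ e : Eis), IsPrim e →
      ∀ (𝒟 : Finset Eis), (∀ q ∈ 𝒟, IsPrim q) → ∀ (us : Fin 5 → Pq) (zs : Fin 4 → ℝ)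
      (gs : List Pq), zs 0 + zs 1 = (us 0).z + (us 1).z → zs 2 + zs 3 = (us 2).z + (us 3).z →
      (∀ q ∈ us 4 :: gs, 0 ≤ q.z) →
      ∑ q ∈ 𝒟, ‖SgX P h τ H d₃ e us zs gs q‖ ≤ Ct * (βU * H) ^ (2 : ℝ) * (C₀ ^ (gs.length + 5) *
        Real.exp (LM .mo (List.ofFn us ++ gs) + LM .am (List.ofFn us ++ gs))))
    {ρ C₁ : ℝ} (hρ : 1 ≤ ρ) (hC₁ : 0 < C₁)
    {r L : ℕ} (hr : 0 < r) (hL : 1 ≤ L) (hN : 2 * L + r + 1 ≤ N)
    {δ η : ℝ} (hδ : 0 < δ) (hη : 0 < η) (hyr : 16 * (y / r) ≤ dt) (hδ1 : 16 * δ ≤ dt)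
    (hη1 : 16 * η ≤ dt) (hL1 : 16 * (1 / (L : ℝ)) ≤ dt) (hδ2 : 16 * δ ≤ μ') (hη2 : 16 * η ≤ μ')
    (hδ3 : 16 * δ ≤ 1) (hη3 : 16 * η ≤ 1) : ∃ C' Xh : ℝ, 0 ≤ C' ∧
    ∀ (Q₀ Q : ℝ), 1 ≤ Q → Q ≤ Q₀ → ∀ κ : ℝ, -1 ≤ κ → κ ≤ δ * Real.log Q₀ →
    ∀ (J : Finset (Fin r)) (H : ℝ), 0 < H → H ≤ Q₀ ^ (1 / 2 + (y + δ) + η) →
    ∀ (d₁ d₂ d₃ e : Eis) (h₁ : d₁ ≠ 0) (h₂ : d₂ ≠ 0), d₃ ≠ 0 → Sm P.n e →
      (∀ p : Eis, Prime p → p ∣ e → p ^ 5 ∣ e) →
      Q * nm e ≤ C₁ * Q₀ * (CJ r y Q₀ J * Real.exp κ / Q₀ ^ (y + δ)) →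
    ∀ (t₁ t₂ τ : ℝ) (𝒟 : Finset Eis), (∀ q ∈ 𝒟, Sm P.n q ∧ Squarefree q) →
    ∀ (j : ℕ), 1 ≤ j → j ≤ L → ∀ c : Fin (j - 1) ⊕ Fin j → ℕ,
      |∑ i, (c (Sum.inl i) : ℝ) + ∑ i, (c (Sum.inr i) : ℝ) - Real.log Q| ≤ C₁ →
      (∀ i : Fin j, (c (Sum.inr i) : ℝ) ≤ Real.log Q / L + C₁) →
      Xh ≤ Real.log H → a₀ * ((1 / 2 + y) * Real.log Q₀) ≤ Real.log H →
    ∀ s : Fin 5 → Fin (j - 1), Top5 A H c s →
    ∀ (us : Fin 5 → Pq) (zs : Fin 4 → ℝ) (gs : List Pq),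
      CfgX h₁ h₂ r y Q₀ κ t₁ t₂ ρ (β * Real.log H) c J s us zs gs →
      ∑ q ∈ 𝒟, ‖SgX P h τ H d₃ e us zs gs q‖ ≤ C' * ((nm d₁ : ℝ) * nm d₂ * nm d₃) ^ (ε / 2) *
        (1 + |t₁| + |t₂| + |τ|) ^ (12 / δ') *
        TgB θ η (if δ / 2 * Real.log Q₀ ≤ κ then η else -η) (y + δ) Q₀ Q H
            (CJ r y Q₀ J * Real.exp κ) *
          costQ (12 / δ') (List.ofFn us ++ gs)
            ((Il5 s r J).map (dsc h₁ h₂ r y Q₀ κ t₁ t₂ c)) := by
  classical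
  have hρ0 : 0 ≤ ρ := by linarith
  set E₁ : ℝ := N * (ρ + 1) + C₁ + 3 * r * r with hE₁
  have hE₁0 : 0 ≤ E₁ := by positivity
  set b : ℝ := |Real.log βU| with hbdef
  set E₂ : ℝ := 2 * E₁ + |Real.log C₁| + 2 * b with hE₂
  have hb0 : 0 ≤ b := abs_nonneg _
  have hE₂0 : 0 ≤ E₂ := by positivity
  have hg₀ : 0 < a₀ * (1 / 2 + y) := by positivity
  set g₀ : ℝ := a₀ * (1 / 2 + y) with hg₀def
  set m : ℝ := 2 * A - 1 / g₀ with hm
  have hm0 : 0 < m := by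
    rw [hm, sub_pos, div_lt_iff₀ hg₀]; exact h1
  have hAA : 0 < (A - A₀) * a₀ := mul_pos (by linarith) ha₀
  set Ks : ℝ := |Real.log X₀| + 2 * E₂ / dt + 2 * (C₁ + ρ + 3 * r) / dt +
    4 * ρ / ((A - A₀) * a₀) with hKs
  have k1 : 0 ≤ |Real.log X₀| := abs_nonneg _
  have k2 : 0 ≤ 2 * E₂ / dt := by positivity
  have k3 : 0 ≤ 2 * (C₁ + ρ + 3 * r) / dt := by positivity
  have k4 : 0 ≤ 4 * ρ / ((A - A₀) * a₀) := by positivity
  have k5 : 0 ≤ (3 * ρ + C₁) / m := by positivity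
  have hKs0 : 0 ≤ Ks := by rw [hKs]; linarith
  set Xh : ℝ := 2 * Ks + b + 1 + (3 * ρ + C₁) / m with hXh
  set C' : ℝ := (Ct + 1) * C₀ ^ N * Real.exp E₂ * Real.exp (b + 1) with hC'
  have hC₀0 : 0 < C₀ := by linarith
  have hC'0 : 0 ≤ C' := by positivity
  refine ⟨C', Xh, hC'0, ?_⟩
  intro Q₀ Q hQ hQQ κ hκ1 hκ2 J H hH hH2 d₁ d₂ d₃ e h₁ h₂ h₃ he he5 hQe t₁ t₂ τ 𝒟 h𝒟 j hj hjL c
    hc hc2 hXl hal s hs5 us zs gs hcfg
  have hQ₀1 : 1 ≤ Q₀ := hQ.trans hQQ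
  have hQ₀0 : 0 < Q₀ := by linarith
  have hQ0 : 0 < Q := by linarith
  have hM0 : 0 ≤ 12 / δ' := by positivity
  set L₀ := Real.log Q₀ with hL₀
  have hL0 : 0 ≤ L₀ := Real.log_nonneg hQ₀1
  have hl1 : 1 ≤ Real.log H := by linarith
  have hl0 : 0 < Real.log H := by linarith
  set full := List.ofFn us ++ gs with hfull
  set ds5 := (Il5 s r J).map (dsc h₁ h₂ r y Q₀ κ t₁ t₂ c) with hds5
  set ds := (Il j r J).map (dsc h₁ h₂ r y Q₀ κ t₁ t₂ c) with hds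
  have hF5 := hcfg.full
  rw [← hfull, ← hds5] at hF5
  obtain ⟨qs, hperm, hqs⟩ := hcfg.perm hs5.inj
  rw [← hfull] at hperm
  rw [← hds] at hqs
  have hCJ : 0 < CJ r y Q₀ J * Real.exp κ := mul_pos (BoxP271.CJ_pos hQ₀0 J) (Real.exp_pos _)
  set Tb := TgB θ η (if δ / 2 * Real.log Q₀ ≤ κ then η else -η) (y + δ) Q₀ Q H
    (CJ r y Q₀ J * Real.exp κ) with hTb
  have hη₂ : (if δ / 2 * Real.log Q₀ ≤ κ then η else -η) ≤ η := by split_ifs <;> linarith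
  have hTb0 : 0 ≤ Tb := Box271.TgB_nonneg' hQ₀0.le hQ0.le hH.le hCJ.le
  have n1 : (1 : ℝ) ≤ nm d₁ := by exact_mod_cast nm_pos.2 h₁
  have n2 : (1 : ℝ) ≤ nm d₂ := by exact_mod_cast nm_pos.2 h₂
  have n3 : (1 : ℝ) ≤ nm d₃ := by exact_mod_cast nm_pos.2 h₃
  have n12 : (1 : ℝ) ≤ (nm d₁ : ℝ) * nm d₂ := one_le_mul_of_one_le_of_one_le n1 n2
  have n123 : (1 : ℝ) ≤ (nm d₁ : ℝ) * nm d₂ * nm d₃ := one_le_mul_of_one_le_of_one_le n12 n3
  set D := ((nm d₁ : ℝ) * nm d₂ * nm d₃) ^ (ε / 2) with hD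
  have hD1 : 1 ≤ D := Real.one_le_rpow n123 (by positivity)
  have hT1 : 1 ≤ 1 + |t₁| + |t₂| + |τ| := by
    linarith [abs_nonneg t₁, abs_nonneg t₂, abs_nonneg τ]
  set TM := (1 + |t₁| + |t₂| + |τ|) ^ (12 / δ') with hTM
  have hTM1 : 1 ≤ TM := Real.one_le_rpow hT1 hM0
  have hco1 := one_le_costQ hM0 full ds5
  set co := costQ (12 / δ') full ds5 with hco
  have hβH0 : 0 < βU * H := mul_pos hβU hH
  set S := ∑ q ∈ 𝒟, ‖SgX P h τ H d₃ e us zs gs q‖ with hS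
  -- lengths of lists
  have hlen : full.length ≤ N := by
    have h3 := hqs.length_eq
    rw [hds, List.length_map] at h3
    have h4 := Il_length j r J
    have h5 := hperm.length_eq
    omega
  have hlen5 : gs.length + 5 = full.length := by
    rw [hfull, List.length_append, List.length_ofFn]; omega
  have hlends : (ds.length : ℝ) ≤ N := by
    have h3 := hqs.length_eq
    have h5 := hperm.length_eq
    rw [← h3, ← h5]; exact_mod_cast hlen
  -- pieces of negative length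
  by_cases hz : ∃ p ∈ us 4 :: gs, p.z < 0
  · have : S = 0 := by
      rw [hS]
      refine Finset.sum_eq_zero fun q _ => ?_
      rw [norm_eq_zero]
      exact SgX_zero hneg hz q
    rw [this]; positivity
  push Not at hz
  have htr1 := htr τ H hH d₃ e he.1 𝒟 (fun q hq => (h𝒟 q hq).1.1) us zs gs hcfg.s01 hcfg.s23 hz
  rw [← hS, ← hfull, hlen5] at htr1
  -- lengths
  have hlQ1 : Real.log Q ≤ L₀ := Real.log_le_log hQ0 hQQ
  have hlH1 : Real.log H ≤ (1 / 2 + (y + δ) + η) * L₀ := by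
    have := Real.log_le_log hH hH2
    rwa [Real.log_rpow hQ₀0] at this
  have hlg : L₀ ≤ Real.log H / g₀ := by
    rw [le_div_iff₀ hg₀, hg₀def]
    linarith
  have hTsum : ∑ i, (c (.inl i) : ℝ) ≤ Real.log H / g₀ + C₁ := by
    have h4 := (abs_le.1 hc).2
    have h6 : 0 ≤ ∑ i, (c (Sum.inr i) : ℝ) := Finset.sum_nonneg fun _ _ => Nat.cast_nonneg _
    linarith
  have hc4 : ρ ≤ (c (.inl (s 4)) : ℝ) := by
    have h4 := hs5.s4_ge hTsum
    have h5 : (3 * ρ + C₁) / m ≤ Real.log H := by linarith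
    rw [div_le_iff₀ hm0] at h5
    have h6 : Real.log H * m = 2 * (A * Real.log H) - Real.log H / g₀ := by
      rw [hm]; ring
    linarith
  have hus0 : ∀ i, 0 ≤ (us i).z := by
    intro i
    have h4 : |(us i).z - (c (.inl (s i)) : ℝ)| ≤ ρ := (hcfg.hus i).z
    have h5 := (abs_le.1 h4).1
    have h6 : (c (.inl (s 4)) : ℝ) ≤ c (.inl (s i)) := by
      exact_mod_cast hs5.anti i 4 (Fin.le_last i)
    linarith
  have hfull0 : ∀ q ∈ full, 0 ≤ q.z := by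
    intro q hq
    rw [hfull, List.mem_append, List.mem_ofFn] at hq
    rcases hq with ⟨i, rfl⟩ | hq
    · exact hus0 i
    · exact hz q (List.mem_cons_of_mem _ hq)
  have hlC : Real.log (CJ r y Q₀ J * Real.exp κ) = y / r * J.card * L₀ + κ := log_CJ hQ₀0 J
  have hlC1 : -1 ≤ Real.log (CJ r y Q₀ J * Real.exp κ) := by
    rw [hlC]
    have : 0 ≤ y / r * J.card * L₀ := by positivity
    linarith
  have hbH : 1 ≤ βU * H := by
    rw [← Real.log_nonneg_iff hβH0, Real.log_mul hβU.ne' hH.ne']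
    have := neg_abs_le (Real.log βU)
    linarith
  have hone := one_le_TgB (θ := θ) (y := y) (δ := δ) (η := η)
    (η₂ := if δ / 2 * Real.log Q₀ ≤ κ then η else -η) (Q₀ := Q₀) (Q := Q) (H := H) (β := βU)
    (Cc := CJ r y Q₀ J * Real.exp κ) hθ hθ1 hy hδ (by linarith) hη₂ hQ₀1 hQ hH hβU hbH hCJ hlC1
  rw [← hTb, ← hbdef] at hone
  have hk1 := LM_near hρ0 .mo hqs
  have hk2 := LM_near hρ0 .am hqs
  rw [← LM_perm .mo hperm] at hk1
  rw [← LM_perm .am hperm] at hk2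
  have e1 : LM .mo ds = ∑ i, (c (.inl i) : ℝ) + ∑ i, (c (.inr i) : ℝ) :=
    LM_mo h₁ h₂ r y Q₀ κ t₁ t₂ c J
  have e2 : LM .am ds = κ + ∑ i ∈ J, B770.kap r y Q₀ i := LM_am h₁ h₂ r y Q₀ κ t₁ t₂ c J
  have hNρ : (ds.length : ℝ) * ρ ≤ N * (ρ + 1) := by
    have : ρ ≤ ρ + 1 := by linarith
    gcongr
  have hr3 : (0 : ℝ) ≤ 3 * r * r := by positivity
  have hmo : |LM .mo full - Real.log Q| ≤ E₁ := by
    have h3 : LM .mo full - Real.log Q = (LM .mo full - LM .mo ds) +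
      (∑ i, (c (.inl i) : ℝ) + ∑ i, (c (.inr i) : ℝ) - Real.log Q) := by rw [e1]; ring
    rw [h3]
    refine (abs_add_le _ _).trans ?_
    linarith
  have hkap : |∑ i ∈ J, B770.kap r y Q₀ i - y / r * J.card * L₀| ≤ 3 * r * r := by
    have h3 : ∑ i ∈ J, B770.kap r y Q₀ i - y / r * J.card * L₀ = ∑ i ∈ J, 3 * ((i : ℕ) : ℝ) := by
      unfold B770.kap
      rw [Finset.sum_add_distrib, Finset.sum_const, nsmul_eq_mul]
      ring
    rw [h3, abs_of_nonneg (Finset.sum_nonneg fun i _ => by positivity)]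
    have hcard : (J.card : ℝ) ≤ r := by
      have : J.card ≤ r := by simpa using J.card_le_univ
      exact_mod_cast this
    calc ∑ i ∈ J, 3 * ((i : ℕ) : ℝ) ≤ ∑ i ∈ J, 3 * (r : ℝ) := by
          refine Finset.sum_le_sum fun i _ => ?_
          have : ((i : ℕ) : ℝ) ≤ r := by exact_mod_cast i.2.le
          linarith
      _ = J.card * (3 * r) := by rw [Finset.sum_const, nsmul_eq_mul]
      _ ≤ r * (3 * r) := by gcongr
      _ = 3 * r * r := by ring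
  have ham : |LM .am full - Real.log (CJ r y Q₀ J * Real.exp κ)| ≤ E₁ := by
    have h3 : LM .am full - Real.log (CJ r y Q₀ J * Real.exp κ) =
      (LM .am full - LM .am ds) + (∑ i ∈ J, B770.kap r y Q₀ i - y / r * J.card * L₀) := by
      rw [e2, hlC]; ring
    rw [h3]
    refine (abs_add_le _ _).trans ?_
    linarith
  have hkp0 : ∀ t, 0 ≤ LM t full := by
    intro t
    unfold LM
    refine List.sum_nonneg ?_
    intro x hx
    obtain ⟨q, hq, rfl⟩ := List.mem_map.1 hx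
    split_ifs
    · exact hfull0 q hq
    · exact le_rfl
  have hlC2 : Real.log (CJ r y Q₀ J * Real.exp κ) ≤ (y + δ) * L₀ := by
    rw [hlC]
    have h1 : ((J.card : ℕ) : ℝ) ≤ r := by
      have : J.card ≤ r := by simpa using J.card_le_univ
      exact_mod_cast this
    have hr' : (0 : ℝ) < r := by exact_mod_cast hr
    have h2 : y / r * J.card ≤ y := by
      rw [div_mul_eq_mul_div, div_le_iff₀ hr']
      exact mul_le_mul_of_nonneg_left h1 hy.le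
    have h3 : y / r * J.card * L₀ ≤ y * L₀ := mul_le_mul_of_nonneg_right h2 hL0
    have h4 : (y + δ) * L₀ = y * L₀ + δ * L₀ := by ring
    rw [h4]; linarith
  have hlogβH : Real.log (βU * H) ≤ b + Real.log H := by
    rw [Real.log_mul hβU.ne' hH.ne']
    linarith [le_abs_self (Real.log βU)]
  have habsC := abs_nonneg (Real.log C₁)
  -- the trivial bound
  have htriv : S ≤ (Ct + 1) * C₀ ^ N * Real.exp E₂ * Real.exp (6 * L₀) := by
    refine htr1.trans ?_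
    have h3 : 2 * Real.log (βU * H) + (LM .mo full + LM .am full) ≤ E₂ + 6 * L₀ := by
      have u1 := (abs_le.1 hmo).2
      have u2 := (abs_le.1 ham).2
      have u3 : (1 / 2 + (y + δ) + η) * L₀ = L₀ / 2 + y * L₀ + δ * L₀ + η * L₀ := by ring
      have u4 : (y + δ) * L₀ = y * L₀ + δ * L₀ := by ring
      have u5 : y * L₀ ≤ 1 * L₀ := mul_le_mul_of_nonneg_right hy1 hL0
      have u6 : 16 * δ * L₀ ≤ 1 * L₀ := mul_le_mul_of_nonneg_right hδ3 hL0
      have u7 : 16 * η * L₀ ≤ 1 * L₀ := mul_le_mul_of_nonneg_right hη3 hL0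
      linarith
    have h4 : (βU * H) ^ (2 : ℝ) * Real.exp (LM .mo full + LM .am full) ≤
        Real.exp (E₂ + 6 * L₀) := by
      rw [Real.rpow_def_of_pos hβH0, ← Real.exp_add]
      exact Real.exp_le_exp.2 (by linarith)
    have h5 : C₀ ^ full.length ≤ C₀ ^ N := pow_le_pow_right₀ hC₀ hlen
    calc Ct * (βU * H) ^ (2 : ℝ) * (C₀ ^ full.length * Real.exp (LM .mo full + LM .am full))
        = Ct * C₀ ^ full.length * ((βU * H) ^ (2 : ℝ) * Real.exp (LM .mo full + LM .am full)) := by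
          ring
      _ ≤ (Ct + 1) * C₀ ^ N * Real.exp (E₂ + 6 * L₀) := by
          have : Ct ≤ Ct + 1 := by linarith
          gcongr
      _ = _ := by rw [Real.exp_add]; ring
  -- how the trivial bound is used
  have huse : Real.exp (6 * L₀) ≤ D * TM * co → S ≤ C' * D * TM * Tb * co := by
    intro hZ
    calc S ≤ (Ct + 1) * C₀ ^ N * Real.exp E₂ * Real.exp (6 * L₀) * 1 := by rw [mul_one]; exact htriv
      _ ≤ (Ct + 1) * C₀ ^ N * Real.exp E₂ * (D * TM * co) * (Real.exp (b + 1) * Tb) := by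
          have h6 : 0 ≤ D * TM * co := by positivity
          gcongr
      _ = _ := by rw [hC']; ring
  -- large `Q₀`
  have hlX' : Real.log (Q₀ ^ (1 / 2 + y)) = (1 / 2 + y) * L₀ := Real.log_rpow hQ₀0 _
  set X := Q₀ ^ (1 / 2 + y) with hX
  have hX0 : 0 < X := Real.rpow_pos_of_pos hQ₀0 _
  have hyL : 0 ≤ y * L₀ := by positivity
  have hKK : Ks ≤ Real.log X := by
    have u3 : (1 / 2 + (y + δ) + η) * L₀ = L₀ / 2 + y * L₀ + δ * L₀ + η * L₀ := by ring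
    have u6 : 16 * δ * L₀ ≤ 1 * L₀ := mul_le_mul_of_nonneg_right hδ3 hL0
    have u7 : 16 * η * L₀ ≤ 1 * L₀ := mul_le_mul_of_nonneg_right hη3 hL0
    have u8 : (1 / 2 + y) * L₀ = L₀ / 2 + y * L₀ := by ring
    rw [hlX', u8]
    linarith
  have hL2K : L₀ ≤ 2 * Real.log X := by rw [hlX']; linarith
  have hq2 : |Real.log X₀| ≤ Ks := by rw [hKs]; linarith
  have hq3 : 2 * E₂ ≤ dt * Ks := by
    have h5 : 2 * E₂ / dt ≤ Ks := by rw [hKs]; linarith
    rw [div_le_iff₀ hdt] at h5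
    linarith
  have hq4 : 2 * (C₁ + ρ + 3 * r) ≤ dt * Ks := by
    have h5 : 2 * (C₁ + ρ + 3 * r) / dt ≤ Ks := by rw [hKs]; linarith
    rw [div_le_iff₀ hdt] at h5
    linarith
  have hal' : a₀ * Real.log X ≤ Real.log H := by rw [hlX']; exact hal
  have hq5 : 4 * ρ ≤ (A - A₀) * Real.log H := by
    have h5 : 4 * ρ / ((A - A₀) * a₀) ≤ Ks := by rw [hKs]; linarith
    have h6 := h5.trans hKK
    rw [div_le_iff₀ hAA] at h6
    calc 4 * ρ ≤ Real.log X * ((A - A₀) * a₀) := h6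
      _ = (A - A₀) * (a₀ * Real.log X) := by ring
      _ ≤ _ := mul_le_mul_of_nonneg_left hal' (by linarith)
  have hKpos : 0 < Real.log X := by
    have : 0 < Real.log X₀ := Real.log_pos hX₀
    have := le_abs_self (Real.log X₀)
    linarith
  have hX1 : 1 < X := (Real.log_pos_iff hX0.le).1 hKpos
  have hXX₀ : X₀ ≤ X := by
    rw [← Real.log_le_log_iff (by linarith) hX0]
    exact (le_abs_self _).trans (hq2.trans hKK)
  have hL0' : 0 < L₀ := by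
    rcases hL0.lt_or_eq with h | h
    · exact h
    · rw [← h, mul_zero] at hlX'; linarith
  have hQ₀1' : 1 < Q₀ := (Real.log_pos_iff hQ₀0.le).1 hL0'
  have hdtK : dt * Ks ≤ dt * Real.log X := mul_le_mul_of_nonneg_left hKK hdt.le
  have h12 : Real.exp (6 * L₀) ≤ Real.exp (12 * Real.log X) := Real.exp_le_exp.2 (by linarith)
  -- large moduli
  have hlarge : X ^ (24 / ε) < (nm d₁ : ℝ) * nm d₂ * nm d₃ → S ≤ C' * D * TM * Tb * co := by
    intro hqd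
    refine huse ?_
    have h6 : (X ^ (24 / ε)) ^ (ε / 2) ≤ D :=
      Real.rpow_le_rpow (Real.rpow_nonneg hX0.le _) hqd.le (by positivity)
    have h7 : (X ^ (24 / ε)) ^ (ε / 2) = Real.exp (12 * Real.log X) := by
      rw [← Real.rpow_mul hX0.le, Real.rpow_def_of_pos hX0]
      congr 1
      field_simp
      ring
    have h8 : Real.exp (6 * L₀) ≤ D := h12.trans (h7 ▸ h6)
    calc Real.exp (6 * L₀) ≤ D := h8
      _ = D * 1 * 1 := by ring
      _ ≤ D * TM * co := by gcongr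
  by_cases hmod : ∃ q ∈ full, X ^ (24 / ε) < (nm q.d : ℝ)
  · obtain ⟨q, hq, hqd⟩ := hmod
    refine hlarge (hqd.trans_le ((nm_d_le h₁ h₂ hqs q (hperm.mem_iff.1 hq)).trans ?_))
    exact le_mul_of_one_le_right (by positivity) n3
  push Not at hmod
  by_cases hmod3 : X ^ (24 / ε) < (nm d₃ : ℝ)
  · exact hlarge (hmod3.trans_le (le_mul_of_one_le_left (by positivity) n12))
  push Not at hmod3
  -- large heights
  have hbigt : ∀ T : ℝ, X ^ δ' < T → T ^ (12 / δ') ≤ TM * co → S ≤ C' * D * TM * Tb * co := by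
    intro T hT hT2
    refine huse ?_
    have h6 : (X ^ δ') ^ (12 / δ') ≤ T ^ (12 / δ') :=
      Real.rpow_le_rpow (Real.rpow_nonneg hX0.le _) hT.le hM0
    have h7 : (X ^ δ') ^ (12 / δ') = Real.exp (12 * Real.log X) := by
      rw [← Real.rpow_mul hX0.le, Real.rpow_def_of_pos hX0]
      congr 1
      field_simp
    have h8 : Real.exp (6 * L₀) ≤ TM * co := h12.trans ((h7 ▸ h6).trans hT2)
    calc Real.exp (6 * L₀) ≤ TM * co := h8
      _ = 1 * TM * co := by ring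
      _ ≤ D * TM * co := by gcongr
  by_cases hht : ∃ q ∈ full, X ^ δ' < 1 + |q.t|
  · obtain ⟨q, hq, hqt⟩ := hht
    refine hbigt _ hqt ?_
    have hT1' : 1 ≤ 1 + |t₁| + |t₂| := by linarith [abs_nonneg t₁, abs_nonneg t₂]
    have hdt5 : ∀ d ∈ ds5, 1 + |d.t| ≤ 1 + |t₁| + |t₂| := by
      intro d hd
      refine dsc_t_le h₁ h₂ (r := r) (y := y) (Q₀ := Q₀) (κ := κ) (t₁ := t₁) (t₂ := t₂) (c := c)
        (J := J) d ?_
      have h2 : ds5.Perm ((Il j r J).map (dsc h₁ h₂ r y Q₀ κ t₁ t₂ c)) :=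
        (Il5_perm s r J hs5.inj).map _
      exact h2.mem_iff.1 hd
    have h5 := height_le hM0 hT1' hF5 hdt5 q hq
    refine h5.trans (mul_le_mul_of_nonneg_right ?_ (by positivity))
    exact Real.rpow_le_rpow (by linarith) (by linarith [abs_nonneg τ]) hM0
  push Not at hht
  by_cases hhτ : X ^ δ' < 1 + |τ|
  · refine hbigt _ hhτ ?_
    calc (1 + |τ|) ^ (12 / δ') ≤ TM := Real.rpow_le_rpow (by positivity)
          (by linarith [abs_nonneg t₁, abs_nonneg t₂]) hM0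
      _ ≤ TM * co := le_mul_of_one_le_right (by linarith) hco1
  push Not at hhτ
  -- the main case
  have hgood : Dq.Good X δ' (24 / ε) full := fun q hq => ⟨hht q hq, hmod q hq, hfull0 q hq⟩
  have hgr : ∀ q ∈ gs, Dq.lump q ∨ Dq.nl X q ≤ dt := by
    intro q hq
    have hq' : q ∈ qs := hperm.mem_iff.1 (by rw [hfull]; exact List.mem_append_right _ hq)
    refine gran (Q := Q) (C₁ := C₁) (δ := δ) (L := L) h₁ h₂ hX1 hqs hκ2 hc2 ?_ ?_ ?_ q hq'
    · have h5 : Real.log Q / L ≤ L₀ * (1 / (L : ℝ)) := by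
        rw [mul_one_div]
        exact div_le_div_of_nonneg_right hlQ1 (Nat.cast_nonneg _)
      have h6 : L₀ * (1 / (L : ℝ)) ≤ (2 * Real.log X) * (dt / 16) := by
        have : 1 / (L : ℝ) ≤ dt / 16 := by linarith
        gcongr
      have h7 : (0 : ℝ) ≤ 3 * r := by positivity
      have h8 : 0 ≤ dt * Real.log X := by positivity
      linarith
    · have h6 : δ * L₀ ≤ (dt / 16) * (2 * Real.log X) := by
        have : δ ≤ dt / 16 := by linarith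
        gcongr
      have h7 : (0 : ℝ) ≤ 3 * r := by positivity
      have h8 : 0 ≤ dt * Real.log X := by positivity
      linarith
    · have h6 : y / r * L₀ ≤ (dt / 16) * (2 * Real.log X) := by
        have : y / r ≤ dt / 16 := by linarith
        gcongr
      have h8 : 0 ≤ dt * Real.log X := by positivity
      linarith
  have hmk : MkX A₀ β dt (Real.log H / Real.log X) X us zs gs := by
    refine hcfg.mkX hs5 hρ hdt rfl hX1 hl0.le ?_ hq5
    have h7 : (0 : ℝ) ≤ 3 * r := by positivity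
    linarith
  have hak : a₀ ≤ Real.log H / Real.log X := by rwa [le_div_iff₀ hKpos]
  have hgsN : gs.length ≤ N := by omega
  have ne1 : (1 : ℝ) ≤ nm e := by exact_mod_cast nm_pos.2 he.1.ne_zero
  have hEe : 0 ≤ Real.log (nm e) := Real.log_nonneg ne1
  have hQe' : Real.log Q + Real.log (nm e) ≤ |Real.log C₁| + Real.log Q₀ +
      Real.log (CJ r y Q₀ J * Real.exp κ) - (y + δ) * Real.log Q₀ := by
    have h1 := Real.log_le_log (by positivity) hQe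
    rw [Real.log_mul hQ0.ne' (by positivity),
      Real.log_mul (by positivity) (div_pos hCJ (Real.rpow_pos_of_pos hQ₀0 _)).ne',
      Real.log_mul hC₁.ne' hQ₀0.ne', Real.log_div hCJ.ne' (Real.rpow_pos_of_pos hQ₀0 _).ne',
      Real.log_rpow hQ₀0] at h1
    have := le_abs_self (Real.log C₁)
    linarith
  have hmain := box_mainS (θ := θ) (μ' := μ') (y := y) (dt := dt) (r := r) (δ := δ) (η := η)
    (X := X) (Q₀ := Q₀) (Q := Q) (H := H) (κ := κ) (C₁ := C₁)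
    (E₁ := E₁) (Ee := Real.log (nm e)) (S := S) (J := J) (ps := full) hθ hθ1 hμ hy hy1 hr hδ hη
    (by linarith) (by linarith) hX1 hlX' hQ₀1' hQ hQQ hH hl0.le hH2 hκ2 hC₁ hEe hQe' hE₁0 (hkp0 _)
    (hkp0 _) hmo ham (by linarith) (fun hh q c' g1 g2 g3 g4 g5 g6 g7 g8 g9 g10 =>
      htop X hXX₀ H hH us zs gs hgsN hgr hgood hak hmk d₃ e h₃ hmod3 he he5 τ hhτ 𝒟 h𝒟 hh q c' g1
        g2 g3 g4 g5 g6 g7 g8 g9 g10) hη₂
  rw [← hTb] at hmain
  calc S ≤ Real.exp (2 * E₁) * Tb := hmain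
    _ ≤ Real.exp E₂ * Tb := by
        have h5 : Real.exp (2 * E₁) ≤ Real.exp E₂ := Real.exp_le_exp.2 (by linarith)
        gcongr
    _ = 1 * 1 * Real.exp E₂ * 1 * (1 * Tb) := by ring
    _ ≤ (Ct + 1) * C₀ ^ N * Real.exp E₂ * Real.exp (b + 1) * (D * TM * co * Tb) := by
        have h5 : 1 ≤ Real.exp (b + 1) := Real.one_le_exp (by positivity)
        have h6 : (1 : ℝ) ≤ Ct + 1 := by linarith
        have h7 : (1 : ℝ) ≤ C₀ ^ N := one_le_pow₀ hC₀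
        have h8 : 1 ≤ D * TM * co :=
          one_le_mul_of_one_le_of_one_le (one_le_mul_of_one_le_of_one_le hD1 hTM1) hco1
        gcongr
    _ = _ := by rw [hC']; ring

end Crest.Agent.R017.Ex385
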