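import Crest.Agent.R017.TPDefs_320

/-!
# Row 17, side-level rule (P): closed families of sequences (helper320)

`Fam J`      : a family of sequences on the primary elements with log-length, height weight, and
               a relation `dom r j' j` ("`j'` is a shortening of `j`, up to `r`")
`Fam.Ok R A` : closedness: for `(a, b) = 1`, `a` in a dyadic class, the values `w j (a b)` are
               absolutely convex combinations of `κ(a) w j' (b)`, where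
               `len j - log a - R - 1 ≤ len j' ≤ len j - log a + R`
`Fam.mul`    : product of families (Dirichlet convolution); `Fam.mul_ok`
-/

set_option autoImplicit false

noncomputable section

open Complex
open scoped ComplexConjugate

namespace Crest.Agent.R017.TP320

open Crest.Agent.R012 Crest.Agent.R012.Eis Crest.Agent.R012.LS2 Crest.Agent.R012.Gauss880
open Crest.Agent.R012.Div277
open Crest.Agent.R017.Two939 (cfa)
open Crest.Agent.R017.CM106 (CS TG FS)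

/-- the twist `nm(b)^(-s0 + iτ)` -/
def tw (s0 τ : ℝ) (b : Eis) : ℂ := (nm b : ℂ) ^ (-(s0 : ℂ) + (τ : ℂ) * I)

lemma one_le_nm' {b : Eis} (hb : IsPrim b) : (1 : ℝ) ≤ nm b := by
  exact_mod_cast nm_pos.2 hb.ne_zero

lemma tw_mul (s0 τ : ℝ) (a b : Eis) : tw s0 τ (a * b) = tw s0 τ a * tw s0 τ b := by
  unfold tw
  rw [nm_mul, Nat.cast_mul]
  have h1 : ((nm a : ℕ) : ℂ) = ((nm a : ℝ) : ℂ) := by push_cast; rfl
  have h2 : ((nm b : ℕ) : ℂ) = ((nm b : ℝ) : ℂ) := by push_cast; rfl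
  rw [h1, h2, Complex.mul_cpow_ofReal_nonneg (by positivity) (by positivity)]

lemma norm_tw (s0 τ : ℝ) {b : Eis} (hb : IsPrim b) : ‖tw s0 τ b‖ = (nm b : ℝ) ^ (-s0) := by
  unfold tw
  rw [Complex.norm_natCast_cpow_of_pos (nm_pos.2 hb.ne_zero)]
  simp

/-- a family of sequences -/
structure Fam (J : Type) where
  w : J → Eis → ℂ
  len : J → ℝ
  ht : J → ℝ
  good : J → Prop
  dom : ℝ → J → J → Prop

/-- the splitting property -/
def SplitAt {J : Type} (Φ : Fam J) (R A ε s0 C : ℝ) : Prop :=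
  ∀ (j : J) (α τ : ℝ) (ι : Type) [Fintype ι] (T : Finset (Eis × Eis))
    (v : Eis → Eis → EuclideanSpace ℂ ι) (M : ℝ), 0 ≤ M →
    (∀ p ∈ T, IsPrim p.1 ∧ IsPrim p.2 ∧ IsCoprime p.1 p.2 ∧
      α ≤ Real.log (nm p.1) ∧ Real.log (nm p.1) ≤ α + 1) →
    (∀ κ : Eis → ℂ, (∀ a, ‖κ a‖ ≤ 1) → ∀ j', Φ.good j' → Φ.dom R j' j →
      Φ.len j' ≤ Φ.len j - α + R → Φ.len j - α - R - 1 ≤ Φ.len j' →
      ‖∑ p ∈ T, (κ p.1 * Φ.w j' p.2) • v p.1 p.2‖ ≤ M * Φ.ht j') →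
    ‖∑ p ∈ T, (Φ.w j (p.1 * p.2) * tw s0 τ p.2) • v p.1 p.2‖ ≤
      C * Real.exp (ε * |α|) * Real.exp (-s0 * (Φ.len j - α)) * (1 + |τ|) ^ A * M * Φ.ht j

/-- closed families -/
structure Fam.Ok {J : Type} (Φ : Fam J) (R A : ℝ) : Prop where
  R0 : 0 ≤ R
  A0 : 0 ≤ A
  ht1 : ∀ j, 1 ≤ Φ.ht j
  prim : ∀ j n, Φ.w j n ≠ 0 → IsPrim n
  supp : ∀ j n, Φ.w j n ≠ 0 → |Real.log (nm n) - Φ.len j| ≤ R
  bd : ∀ ε : ℝ, 0 < ε → ∃ C : ℝ, 1 ≤ C ∧ ∀ j n, ‖Φ.w j n‖ ≤ C * (nm n : ℝ) ^ ε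
  dom_refl : ∀ j, Φ.dom 0 j j
  dom_mono : ∀ r r' j j', r ≤ r' → Φ.dom r j' j → Φ.dom r' j' j
  dom_trans : ∀ r r' j j' j'', Φ.dom r j' j → Φ.dom r' j'' j' → Φ.dom (r + r') j'' j
  split : ∀ ε s0 : ℝ, 0 < ε → ∃ C : ℝ, 1 ≤ C ∧ SplitAt Φ R A ε s0 C

/-- product of families -/
def Fam.mul {J₁ J₂ : Type} (Φ : Fam J₁) (Ψ : Fam J₂) : Fam (J₁ × J₂) where
  w j := conv (Φ.w j.1) (Ψ.w j.2)
  len j := Φ.len j.1 + Ψ.len j.2
  ht j := Φ.ht j.1 * Ψ.ht j.2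
  good j := Φ.good j.1 ∧ Ψ.good j.2
  dom r j' j := Φ.dom r j'.1 j.1 ∧ Ψ.dom r j'.2 j.2

/-! ### divisors of coprime products -/

lemma cop_dvs {a n a1 b1 : Eis} (h : IsCoprime a n) (ha : a1 ∈ dvs a) (hb : b1 ∈ dvs n) :
    IsCoprime a1 b1 :=
  (h.of_isCoprime_of_dvd_left (dvd_of_mem_dvs ha)).of_isCoprime_of_dvd_right (dvd_of_mem_dvs hb)

lemma prim_eq_of_dvd {x y : Eis} (hx : IsPrim x) (hy : IsPrim y) (h1 : x ∣ y) (h2 : y ∣ x) :
    x = y := by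
  have h3 : Associated x y := associated_of_dvd_dvd h1 h2
  exact IsPrim.eq_of_associated hx hy h3

lemma quot_prim {n d : Eis} (hn : IsPrim n) (hd : d ∈ dvs n) : IsPrim (n / d) := by
  have h1 := mul_div_of_mem hd
  have h2 := isPrim_of_mem_dvs hd
  exact IsPrim.of_mul_left (h1.symm ▸ hn) h2

lemma div_mul_div {a n a1 b1 : Eis} (ha : a1 ∈ dvs a) (hb : b1 ∈ dvs n) :
    (a * n) / (a1 * b1) = (a / a1) * (n / b1) := by
  have h1 := mul_div_of_mem ha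
  have h2 := mul_div_of_mem hb
  have h3 : a * n = (a1 * b1) * ((a / a1) * (n / b1)) := by
    conv_lhs => rw [← h1, ← h2]
    ring
  conv_lhs => rw [h3]
  exact mul_div_left' (mul_ne_zero (isPrim_of_mem_dvs ha).ne_zero (isPrim_of_mem_dvs hb).ne_zero)

lemma sum_dvs_mul {E : Type*} [AddCommMonoid E] {a n : Eis} (ha : IsPrim a) (hn : IsPrim n)
    (h : IsCoprime a n) (F : Eis → E) :
    ∑ d ∈ dvs (a * n), F d = ∑ a1 ∈ dvs a, ∑ b1 ∈ dvs n, F (a1 * b1) := by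
  classical
  rw [← Finset.sum_product']
  symm
  apply Finset.sum_bij (fun p _ => p.1 * p.2)
  · intro p hp
    rw [Finset.mem_product] at hp
    rw [mem_dvs (mul_ne_zero ha.ne_zero hn.ne_zero)]
    exact ⟨(isPrim_of_mem_dvs hp.1).mul (isPrim_of_mem_dvs hp.2),
      mul_dvd_mul (dvd_of_mem_dvs hp.1) (dvd_of_mem_dvs hp.2)⟩
  · intro p hp q hq hpq
    rw [Finset.mem_product] at hp hq
    have hpq' : p.1 * p.2 = q.1 * q.2 := hpq
    have c1 : IsCoprime p.1 q.2 := cop_dvs h hp.1 hq.2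
    have c2 : IsCoprime q.1 p.2 := cop_dvs h hq.1 hp.2
    have d1 : p.1 ∣ q.1 := c1.dvd_of_dvd_mul_right (hpq' ▸ dvd_mul_right _ _)
    have d2 : q.1 ∣ p.1 := c2.dvd_of_dvd_mul_right (hpq' ▸ dvd_mul_right _ _)
    have e1 := prim_eq_of_dvd (isPrim_of_mem_dvs hp.1) (isPrim_of_mem_dvs hq.1) d1 d2
    have e2 : p.2 = q.2 := by
      apply mul_left_cancel₀ (isPrim_of_mem_dvs hp.1).ne_zero
      rw [hpq', e1]
    exact Prod.ext e1 e2
  · intro d hd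
    obtain ⟨a1, b1, h1, h2, h3, h4, h5⟩ := exists_prim_factor (isPrim_of_mem_dvs hd)
      (dvd_of_mem_dvs hd)
    exact ⟨(a1, b1), Finset.mem_product.2 ⟨(mem_dvs ha.ne_zero).2 ⟨h1, h3⟩,
      (mem_dvs hn.ne_zero).2 ⟨h2, h4⟩⟩, h5.symm⟩
  · intro p _
    rfl

/-- convolution at coprime products -/
lemma conv_mul_cop (w1 w2 : Eis → ℂ) {a n : Eis} (ha : IsPrim a) (hn : IsPrim n)
    (h : IsCoprime a n) : conv w1 w2 (a * n) =
      ∑ a1 ∈ dvs a, ∑ b1 ∈ dvs n, w1 (a1 * b1) * w2 ((a / a1) * (n / b1)) := by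
  unfold conv
  rw [sum_dvs_mul ha hn h]
  refine Finset.sum_congr rfl fun a1 h1 => Finset.sum_congr rfl fun b1 h2 => ?_
  rw [div_mul_div h1 h2]

end Crest.Agent.R017.TP320
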