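import Crest.Agent.R017.TXC1_791
import Crest.Agent.R017.FY1_813
import Crest.Agent.R017.TPFam_320
import Crest.Agent.R017.HPL_842

/-!
# Row 17, exceptional class: principal values of shape differences (1) (helper791)

`SQ w F r x t` : smooth sum over squarefree primary elements prime to `r`, weighted by `F`,
own scale.  `SQ_one_asymp` : `SQ w 1 r x t = c e^x mv w t + O(τ(r) (1+|t|)^3 e^{sx})` for `s > 1/2`.
-/

set_option autoImplicit false

noncomputable section

open Complex MeasureTheory Filter Topology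
open scoped ContDiff

namespace Crest.Agent.R017.ExD791

open Crest.Agent.R012 Crest.Agent.R012.Eis Crest.Agent.R012.Po581 Crest.Agent.R012.Gauss880
open Crest.Agent.R012.Weight600 (osc norm_osc)
open Crest.Agent.R012.PSer47 Crest.Agent.R012.Div277 Crest.Agent.R012.Mob705
open Crest.Agent.R017.End699 Crest.Agent.R017.FE47 Crest.Agent.R017.Two939
open Crest.Agent.R017.TXC791

/-- the smooth weight at its own scale -/
def Hk (w : ℝ → ℂ) (x t : ℝ) (n : Eis) : ℂ :=
  osc t (Real.log (nm n) - x) * w (Real.log (nm n) - x)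

/-- sum over the squarefree primary elements prime to `r`, weighted by `F` -/
def SQ (w : ℝ → ℂ) (F : Eis → ℂ) (r : Eis) (x t : ℝ) : ℂ :=
  ∑' n : Eis, TP320.sq r F n * Hk w x t n

lemma exp_sub_log {d : Eis} (hd : IsPrim d) (x : ℝ) :
    Real.exp (x - Real.log (nm d)) = Real.exp x / nm d := by
  have := one_le_nm hd
  rw [Real.exp_sub, Real.exp_log (by linarith)]

lemma log_nm_sq {d : Eis} (hd : IsPrim d) : Real.log (nm (d ^ 2)) = 2 * Real.log (nm d) := by
  rw [FY813.nm_sq, Real.log_pow]; norm_num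

/-- coprime sums: main term and two bounds -/
theorem PS_prin_asymp {w : ℝ → ℂ} (hw1 : ContDiff ℝ ∞ w) (hw2 : HasCompactSupport w) :
    ∃ C : ℝ, 0 ≤ C ∧ ∀ r : Eis, r ≠ 0 → ∃ γ : ℂ, ‖γ‖ ≤ tau r ∧ ∀ s : ℝ, 0 ≤ s → s ≤ 1 →
      ∀ κ t : ℝ, ‖osc t (-κ) * PS w (prin0 r) κ t - γ * ((Real.exp κ : ℂ) * mv w t)‖ ≤
        C * tau r * (1 + |t|) ^ 3 * Real.exp (s * κ) := by
  classical
  obtain ⟨C1, hC1, h1⟩ := PS_one_asymp hw1 hw2
  obtain ⟨C2, hC2, h2⟩ := mv_le hw1 hw2
  obtain ⟨C3, hC3, h3⟩ := norm_PS_le hw1.continuous hw2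
  refine ⟨C1 + (C3 + C2), by positivity, fun r hr => ?_⟩
  have hmu : ∀ d : Eis, ‖(muE d : ℂ)‖ ≤ 1 := by
    intro d
    rw [Complex.norm_intCast]
    have := abs_muE_le d
    exact_mod_cast this
  have hγ : ‖∑ d ∈ dvs r, (muE d : ℂ) * ((nm d : ℝ)⁻¹ : ℝ)‖ ≤ tau r := by
    calc ‖∑ d ∈ dvs r, (muE d : ℂ) * ((nm d : ℝ)⁻¹ : ℝ)‖
        ≤ ∑ d ∈ dvs r, ‖(muE d : ℂ) * ((nm d : ℝ)⁻¹ : ℝ)‖ := norm_sum_le _ _
      _ ≤ ∑ d ∈ dvs r, (1 : ℝ) := by
          refine Finset.sum_le_sum fun d hd => ?_
          have hd1 := one_le_nm (Div277.isPrim_of_mem_dvs hd)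
          rw [norm_mul, Complex.norm_real, Real.norm_of_nonneg (by positivity)]
          calc ‖(muE d : ℂ)‖ * (nm d : ℝ)⁻¹ ≤ 1 * 1 := by
                gcongr
                · exact hmu d
                · exact inv_le_one_of_one_le₀ hd1
            _ = 1 := by ring
      _ = tau r := by
          rw [Finset.sum_const, nsmul_eq_mul, mul_one]; rfl
  refine ⟨∑ d ∈ dvs r, (muE d : ℂ) * ((nm d : ℝ)⁻¹ : ℝ), hγ, fun s hs0 hs1 κ t => ?_⟩
  have hT : 1 ≤ (1 + |t|) ^ 3 := one_le_pow₀ (by linarith [abs_nonneg t])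
  have hτ1 : (1 : ℝ) ≤ tau r := by exact_mod_cast one_le_tau hr
  have hχ : ∀ b, IsPrim b → ‖prin0 r b‖ ≤ 1 := fun b hb => (isChar_prin0 r).norm_le hb
  rcases le_total 0 κ with hκ | hκ
  · have e0 : PS w (prin0 r) κ t = PS w (fun b => if IsCoprime b r then (1 : ℂ) else 0) κ t := by
      refine PS_congr (fun b _ => ?_) _ _
      unfold prin0
      split_ifs <;> rfl
    have e1 : osc t (-κ) * PS w (prin0 r) κ t = ∑ d ∈ dvs r, (muE d : ℂ) *
        (osc t (-(κ - Real.log (nm d))) * PS w (fun _ => 1) (κ - Real.log (nm d)) t) := by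
      rw [e0, PS_cop hw2 PSer47.isChar_one hr, Finset.mul_sum]
      refine Finset.sum_congr rfl fun d hd => ?_
      have e2 : osc t (-(κ - Real.log (nm d))) = osc t (-κ) * osc t (Real.log (nm d)) := by
        rw [← Weight600.osc_add_right]; congr 1; ring
      rw [e2]; ring
    have e3 : (∑ d ∈ dvs r, (muE d : ℂ) * ((nm d : ℝ)⁻¹ : ℝ)) * ((Real.exp κ : ℂ) * mv w t) =
        ∑ d ∈ dvs r, (muE d : ℂ) * ((Real.exp (κ - Real.log (nm d)) : ℂ) * mv w t) := by
      rw [Finset.sum_mul]
      refine Finset.sum_congr rfl fun d hd => ?_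
      have e4 : Real.exp (κ - Real.log (nm d)) = Real.exp κ * (nm d : ℝ)⁻¹ := by
        rw [exp_sub_log (Div277.isPrim_of_mem_dvs hd)]; rfl
      rw [e4]
      push_cast
      ring
    rw [e1, e3, ← Finset.sum_sub_distrib]
    have hexp : 1 ≤ Real.exp (s * κ) := Real.one_le_exp (by positivity)
    calc ‖∑ d ∈ dvs r, ((muE d : ℂ) *
          (osc t (-(κ - Real.log (nm d))) * PS w (fun _ => 1) (κ - Real.log (nm d)) t) -
          (muE d : ℂ) * ((Real.exp (κ - Real.log (nm d)) : ℂ) * mv w t))‖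
        ≤ ∑ d ∈ dvs r, C1 * (1 + |t|) ^ 3 := by
          refine (norm_sum_le _ _).trans (Finset.sum_le_sum fun d hd => ?_)
          rw [← mul_sub, norm_mul]
          have h5 := h1 (κ - Real.log (nm d)) t
          calc ‖(muE d : ℂ)‖ * ‖osc t (-(κ - Real.log (nm d))) *
                PS w (fun _ => 1) (κ - Real.log (nm d)) t -
                (Real.exp (κ - Real.log (nm d)) : ℂ) * mv w t‖
              ≤ 1 * (C1 * (1 + |t|) ^ 3) := by
                gcongr
                exact hmu d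
            _ = _ := one_mul _
      _ = tau r * (C1 * (1 + |t|) ^ 3) := by
          rw [Finset.sum_const, nsmul_eq_mul]; rfl
      _ = C1 * tau r * (1 + |t|) ^ 3 * 1 := by ring
      _ ≤ (C1 + (C3 + C2)) * tau r * (1 + |t|) ^ 3 * Real.exp (s * κ) := by
          gcongr
          linarith
  · have hexp : Real.exp κ ≤ Real.exp (s * κ) := Real.exp_le_exp.mpr (by nlinarith)
    calc ‖osc t (-κ) * PS w (prin0 r) κ t -
          (∑ d ∈ dvs r, (muE d : ℂ) * ((nm d : ℝ)⁻¹ : ℝ)) * ((Real.exp κ : ℂ) * mv w t)‖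
        ≤ ‖osc t (-κ) * PS w (prin0 r) κ t‖ +
          ‖(∑ d ∈ dvs r, (muE d : ℂ) * ((nm d : ℝ)⁻¹ : ℝ)) * ((Real.exp κ : ℂ) * mv w t)‖ :=
          norm_sub_le _ _
      _ ≤ C3 * Real.exp κ + tau r * (Real.exp κ * C2) := by
          rw [norm_mul, norm_osc, one_mul, norm_mul, norm_mul, Complex.norm_real,
            Real.norm_of_nonneg (Real.exp_pos κ).le]
          gcongr
          · exact h3 _ hχ κ t
          · exact h2 t
      _ ≤ (C3 + C2) * tau r * 1 * Real.exp (s * κ) := by
          have q1 : C3 * Real.exp κ ≤ C3 * tau r * Real.exp (s * κ) := by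
            calc C3 * Real.exp κ = C3 * 1 * Real.exp κ := by ring
              _ ≤ _ := by gcongr
          have q2 : tau r * (Real.exp κ * C2) ≤ C2 * tau r * Real.exp (s * κ) := by
            calc (tau r : ℝ) * (Real.exp κ * C2) = C2 * tau r * Real.exp κ := by ring
              _ ≤ _ := by gcongr
          calc _ ≤ C3 * tau r * Real.exp (s * κ) + C2 * tau r * Real.exp (s * κ) := add_le_add q1 q2
            _ = _ := by ring
      _ ≤ (C1 + (C3 + C2)) * tau r * (1 + |t|) ^ 3 * Real.exp (s * κ) := by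
          have q0 : C3 + C2 ≤ C1 + (C3 + C2) := by linarith
          exact mul_le_mul_of_nonneg_right (mul_le_mul (mul_le_mul_of_nonneg_right q0
            (by positivity)) hT (by positivity) (by positivity)) (Real.exp_pos _).le

open Classical in
/-- opening the squarefree condition, fixed range -/
theorem FS_eqN {w : ℝ → ℂ} {Ξ : Eis → ℂ} (hΞ : IsChar Ξ) {κ : ℝ} (t : ℝ) {N : ℕ}
    (hN : ∀ b : Eis, IsPrim b → w (Real.log (nm b) - κ) ≠ 0 → b ∈ primBall N) :
    FY813.FS w Ξ κ t = ∑ d ∈ primBall N, (muE d : ℂ) * (Ξ (d ^ 2) *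
      osc t (Real.log (nm (d ^ 2))) * PS w Ξ (κ - Real.log (nm (d ^ 2))) t) := by
  have e1 : ∀ b : Eis, End699.ext (fun b => if Squarefree b then Ξ b else 0) b *
      (osc t (Real.log (nm b)) * w (Real.log (nm b) - κ)) =
      ∑ d ∈ primBall N, (muE d : ℂ) * (if d ^ 2 ∣ b then End699.ext Ξ b *
        (osc t (Real.log (nm b)) * w (Real.log (nm b) - κ)) else 0) := by
    intro b
    by_cases hb : IsPrim b
    · by_cases h0 : w (Real.log (nm b) - κ) = 0
      · rw [h0]; simp
      · have hbN := hN b hb h0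
        have h := sum_muE_sq hb
        have hsub : ∑ d ∈ dvs b, (if d ^ 2 ∣ b then muE d else 0) =
            ∑ d ∈ primBall N, (if d ^ 2 ∣ b then muE d else 0) := by
          refine Finset.sum_subset ?_ ?_
          · intro d hd
            have h1 := isPrim_of_mem_dvs hd
            have h2 := dvd_of_mem_dvs hd
            rw [mem_primBall] at hbN ⊢
            exact ⟨(nm_le_of_dvd hb.ne_zero h2).trans hbN.1, h1⟩
          · intro d hd hnd
            rw [if_neg]
            intro h2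
            apply hnd
            rw [mem_primBall] at hd
            rw [mem_dvs hb.ne_zero]
            exact ⟨hd.2, (dvd_pow_self d two_ne_zero).trans h2⟩
        rw [hsub] at h
        have h' : (∑ d ∈ primBall N, (muE d : ℂ) * (if d ^ 2 ∣ b then (1 : ℂ) else 0)) =
            if Squarefree b then 1 else 0 := by
          have h2 := congrArg (fun z : ℤ => (z : ℂ)) h
          simp only [Int.cast_sum] at h2
          have h3 : ((if Squarefree b then (1 : ℤ) else 0 : ℤ) : ℂ) =
              if Squarefree b then 1 else 0 := by split_ifs <;> simp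
          rw [← h3, ← h2]
          refine Finset.sum_congr rfl fun d _ => ?_
          split_ifs <;> simp
        have e2 : ∑ d ∈ primBall N, (muE d : ℂ) * (if d ^ 2 ∣ b then End699.ext Ξ b *
          (osc t (Real.log (nm b)) * w (Real.log (nm b) - κ)) else 0) =
          (∑ d ∈ primBall N, (muE d : ℂ) * (if d ^ 2 ∣ b then (1 : ℂ) else 0)) * (End699.ext Ξ b *
          (osc t (Real.log (nm b)) * w (Real.log (nm b) - κ))) := by
          rw [Finset.sum_mul]
          refine Finset.sum_congr rfl fun d _ => ?_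
          split_ifs <;> ring
        rw [e2, h']
        simp only [End699.ext, if_pos hb]
        split_ifs <;> ring
    · simp [End699.ext, hb]
  unfold FY813.FS PS
  rw [tsum_congr e1, Summable.tsum_finsetSum]
  · refine Finset.sum_congr rfl fun d hd => ?_
    have hdp : IsPrim d := (mem_primBall.mp hd).2
    have hd2 : IsPrim (d ^ 2) := by rw [sq]; exact hdp.mul hdp
    rw [tsum_mul_left, tsum_dvd hΞ hd2]
    rfl
  · intro d _
    refine Summable.mul_left _ ?_
    refine summable_of_ne_finset_zero (s := primBall N) fun b hb => ?_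
    by_cases hp : IsPrim b
    · by_cases h0 : w (Real.log (nm b) - κ) = 0
      · rw [h0]; simp
      · exact absurd (hN b hp h0) hb
    · simp [End699.ext, hp]

/-- the terms outside the range vanish -/
lemma PS_out {w : ℝ → ℂ} {Ξ : Eis → ℂ} {κ : ℝ} (t : ℝ) {N : ℕ}
    (hN : ∀ b : Eis, IsPrim b → w (Real.log (nm b) - κ) ≠ 0 → b ∈ primBall N) {d : Eis}
    (hd : IsPrim d) (hdN : d ∉ primBall N) : PS w Ξ (κ - Real.log (nm (d ^ 2))) t = 0 := by
  unfold PS
  refine (tsum_congr fun b => ?_).trans tsum_zero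
  by_cases hb : IsPrim b
  · have h0 : w (Real.log (nm b) - (κ - Real.log (nm (d ^ 2)))) = 0 := by
      by_contra h0
      have hd2 : IsPrim (d ^ 2) := by rw [sq]; exact hd.mul hd
      have h1 := hN (b * d ^ 2) (hb.mul hd2) (by
        have e1 : Real.log (nm (b * d ^ 2)) = Real.log (nm b) + Real.log (nm (d ^ 2)) := by
          rw [nm_mul]
          push_cast
          have h1 := one_le_nm hb
          have h2 := one_le_nm hd2
          rw [Real.log_mul (by linarith) (by linarith)]
        rw [e1]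
        have e2 : Real.log (nm b) + Real.log (nm (d ^ 2)) - κ =
          Real.log (nm b) - (κ - Real.log (nm (d ^ 2))) := by ring
        rw [e2]; exact h0)
      apply hdN
      rw [mem_primBall] at h1 ⊢
      refine ⟨le_trans (nm_le_of_dvd (hb.mul hd2).ne_zero ?_) h1.1, hd⟩
      exact (dvd_pow_self d two_ne_zero).trans (dvd_mul_left _ _)
    rw [h0]; simp
  · simp [End699.ext, hb]

open Classical in
/-- the sum over squarefree elements in terms of `FY813.FS` -/
lemma SQ_one_eq (w : ℝ → ℂ) (r : Eis) (x t : ℝ) :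
    SQ w (fun _ => 1) r x t = osc t (-x) * FY813.FS w (prin0 r) x t := by
  unfold SQ FY813.FS PS
  rw [← tsum_mul_left]
  refine tsum_congr fun n => ?_
  unfold TP320.sq Hk End699.ext prin0
  have e2 : osc t (Real.log (nm n) - x) = osc t (-x) * osc t (Real.log (nm n)) := by
    rw [← Weight600.osc_add_right]; congr 1; ring
  rw [e2]
  by_cases h1 : IsPrim n <;> by_cases h2 : Squarefree n <;> by_cases h3 : IsCoprime n r <;>
    simp [h1, h2, h3] <;> ring

/-- **asymptotics over squarefree elements prime to `r`** -/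
theorem SQ_one_asymp {w : ℝ → ℂ} (hw1 : ContDiff ℝ ∞ w) (hw2 : HasCompactSupport w) {s : ℝ}
    (hs : 1 / 2 < s) (hs1 : s ≤ 1) :
    ∃ C : ℝ, 0 ≤ C ∧ ∀ r : Eis, r ≠ 0 → ∃ c : ℂ, ‖c‖ ≤ C * tau r ∧
      ∀ x t : ℝ, ‖SQ w (fun _ => 1) r x t - c * ((Real.exp x : ℂ) * mv w t)‖ ≤
        C * tau r * (1 + |t|) ^ 3 * Real.exp (s * x) := by
  classical
  obtain ⟨C1, hC1, h1⟩ := PS_prin_asymp hw1 hw2
  have hs2 : Summable fun z : Eis => (nm z : ℝ) ^ (-(2 : ℝ)) :=
    LatSum413.summable_nm_rpow (s := 2) (by norm_num)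
  have hs3 : Summable fun z : Eis => (nm z : ℝ) ^ (-(2 * s)) :=
    LatSum413.summable_nm_rpow (s := 2 * s) (by linarith)
  set Z2 := ∑' z : Eis, (nm z : ℝ) ^ (-(2 : ℝ)) with hZ2
  set Zs := ∑' z : Eis, (nm z : ℝ) ^ (-(2 * s)) with hZs
  have hZ20 : 0 ≤ Z2 := tsum_nonneg fun z => by positivity
  have hZs0 : 0 ≤ Zs := tsum_nonneg fun z => by positivity
  refine ⟨Z2 + C1 * Zs, by positivity, fun r hr => ?_⟩
  obtain ⟨γ, hγ, hP⟩ := h1 r hr
  have hmu : ∀ d : Eis, ‖(muE d : ℂ)‖ ≤ 1 := by
    intro d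
    rw [Complex.norm_intCast]
    have := abs_muE_le d
    exact_mod_cast this
  set cf : Eis → ℂ := fun d => if IsPrim d then (muE d : ℂ) * (prin0 r (d ^ 2) *
    (γ * (((nm d : ℝ) ^ (-(2 : ℝ)) : ℝ) : ℂ))) else 0 with hcf
  have hcfb : ∀ d, ‖cf d‖ ≤ tau r * (nm d : ℝ) ^ (-(2 : ℝ)) := by
    intro d
    rw [hcf]
    by_cases hd : IsPrim d
    · simp only [if_pos hd]
      have hd2 : IsPrim (d ^ 2) := by rw [sq]; exact hd.mul hd
      rw [norm_mul, norm_mul, norm_mul, Complex.norm_real, Real.norm_of_nonneg (by positivity)]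
      calc ‖(muE d : ℂ)‖ * (‖prin0 r (d ^ 2)‖ * (‖γ‖ * (nm d : ℝ) ^ (-(2 : ℝ))))
          ≤ 1 * (1 * (tau r * (nm d : ℝ) ^ (-(2 : ℝ)))) := by
            gcongr
            · exact hmu d
            · exact (isChar_prin0 r).norm_le hd2
        _ = _ := by ring
    · simp only [if_neg hd, norm_zero]; positivity
  have hcfs : Summable cf := Summable.of_norm_bounded (hs2.mul_left _) hcfb
  have hτ0 : (0 : ℝ) ≤ tau r := by positivity
  refine ⟨∑' d, cf d, ?_, fun x t => ?_⟩
  · refine (tsum_of_norm_bounded (hs2.mul_left _).hasSum hcfb).trans ?_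
    rw [tsum_mul_left, ← hZ2]
    have : 0 ≤ C1 * Zs * tau r := by positivity
    nlinarith
  · obtain ⟨N, hN⟩ := PS_support hw2 x
    -- the terms
    set T : Eis → ℂ := fun d => if IsPrim d then (muE d : ℂ) * (prin0 r (d ^ 2) *
      (osc t (-(x - Real.log (nm (d ^ 2)))) * PS w (prin0 r) (x - Real.log (nm (d ^ 2))) t)) else 0
      with hT
    have e1 : SQ w (fun _ => 1) r x t = ∑' d, T d := by
      rw [SQ_one_eq, FS_eqN (isChar_prin0 r) t hN, tsum_eq_sum (s := primBall N)]
      · rw [Finset.mul_sum]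
        refine Finset.sum_congr rfl fun d hd => ?_
        rw [hT]
        simp only [if_pos (mem_primBall.mp hd).2]
        have e2 : osc t (-(x - Real.log (nm (d ^ 2)))) = osc t (-x) * osc t (Real.log (nm (d ^ 2))) := by
          rw [← Weight600.osc_add_right]; congr 1; ring
        rw [e2]; ring
      · intro d hd
        rw [hT]
        by_cases hdp : IsPrim d
        · simp only [if_pos hdp]
          rw [PS_out t hN hdp hd]; simp
        · simp only [if_neg hdp]
    have hTs : Summable T := by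
      refine summable_of_ne_finset_zero (s := primBall N) fun d hd => ?_
      rw [hT]
      by_cases hdp : IsPrim d
      · simp only [if_pos hdp]
        rw [PS_out t hN hdp hd]; simp
      · simp only [if_neg hdp]
    have e3 : SQ w (fun _ => 1) r x t - (∑' d, cf d) * ((Real.exp x : ℂ) * mv w t) =
        ∑' d, (T d - cf d * ((Real.exp x : ℂ) * mv w t)) := by
      rw [e1, ← tsum_mul_right, hTs.tsum_sub (hcfs.mul_right _)]
    rw [e3]
    have hb : ∀ d, ‖T d - cf d * ((Real.exp x : ℂ) * mv w t)‖ ≤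
        (C1 * tau r * (1 + |t|) ^ 3 * Real.exp (s * x)) * (nm d : ℝ) ^ (-(2 * s)) := by
      intro d
      by_cases hd : IsPrim d
      · have hd2 : IsPrim (d ^ 2) := by rw [sq]; exact hd.mul hd
        have hn1 := one_le_nm hd
        have hn0 : (0 : ℝ) < nm d := by linarith
        have e4 : T d - cf d * ((Real.exp x : ℂ) * mv w t) = (muE d : ℂ) * (prin0 r (d ^ 2) *
            (osc t (-(x - Real.log (nm (d ^ 2)))) * PS w (prin0 r) (x - Real.log (nm (d ^ 2))) t -
              γ * ((Real.exp (x - Real.log (nm (d ^ 2))) : ℂ) * mv w t))) := by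
          rw [hT, hcf]
          simp only [if_pos hd]
          have e5 : Real.exp (x - Real.log (nm (d ^ 2))) = Real.exp x * (nm d : ℝ) ^ (-(2 : ℝ)) := by
            rw [exp_sub_log hd2, FY813.nm_sq, Real.rpow_neg hn0.le, Real.rpow_two]
            rfl
          rw [e5]
          push_cast
          ring
        rw [e4, norm_mul, norm_mul]
        have h5 := hP s (by linarith) hs1 (x - Real.log (nm (d ^ 2))) t
        have e6 : Real.exp (s * (x - Real.log (nm (d ^ 2)))) =
            Real.exp (s * x) * (nm d : ℝ) ^ (-(2 * s)) := by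
          rw [log_nm_sq hd, Real.rpow_def_of_pos hn0, ← Real.exp_add]
          congr 1; ring
        rw [e6] at h5
        calc ‖(muE d : ℂ)‖ * (‖prin0 r (d ^ 2)‖ * _) ≤ 1 * (1 * (C1 * tau r * (1 + |t|) ^ 3 *
              (Real.exp (s * x) * (nm d : ℝ) ^ (-(2 * s))))) := by
              gcongr
              · exact hmu d
              · exact (isChar_prin0 r).norm_le hd2
          _ = _ := by ring
      · have e4 : T d - cf d * ((Real.exp x : ℂ) * mv w t) = 0 := by
          rw [hT, hcf]; simp [hd]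
        rw [e4, norm_zero]; positivity
    refine (tsum_of_norm_bounded (hs3.mul_left _).hasSum hb).trans ?_
    rw [tsum_mul_left, ← hZs]
    have : 0 ≤ Z2 * tau r * (1 + |t|) ^ 3 * Real.exp (s * x) := by positivity
    nlinarith

/-- trivial bound -/
theorem norm_SQ_le {w : ℝ → ℂ} (h1 : Continuous w) (h2 : HasCompactSupport w) :
    ∃ C : ℝ, 0 ≤ C ∧ ∀ (F : Eis → ℂ) (r : Eis), (∀ n, IsPrim n → ‖F n‖ ≤ 1) → ∀ x t : ℝ,
      ‖SQ w F r x t‖ ≤ C * Real.exp x := by
  classical
  obtain ⟨C, hC, hb⟩ := norm_PS_le h1 h2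
  refine ⟨C, hC, fun F r hF x t => ?_⟩
  have e1 : SQ w F r x t = osc t (-x) *
      PS w (fun b => if Squarefree b ∧ IsCoprime b r then F b else 0) x t := by
    unfold SQ PS
    rw [← tsum_mul_left]
    refine tsum_congr fun n => ?_
    unfold TP320.sq Hk End699.ext
    have e2 : osc t (Real.log (nm n) - x) = osc t (-x) * osc t (Real.log (nm n)) := by
      rw [← Weight600.osc_add_right]; congr 1; ring
    rw [e2]
    by_cases h1 : IsPrim n <;> by_cases h2 : Squarefree n <;> by_cases h3 : IsCoprime n r <;>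
      simp [h1, h2, h3] <;> ring
  rw [e1, norm_mul, norm_osc, one_mul]
  refine hb _ (fun b hb' => ?_) x t
  split_ifs
  · exact hF b hb'
  · simp

end Crest.Agent.R017.ExD791
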