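import Crest.Agent.R017.ExD1_791

/-!
# Row 17, exceptional class: principal values of shape differences (2) (helper791)

`Fl T D r F` : on the squarefree elements prime to `r`, `F n = ∑_{e ∣ n} u e`, `‖u‖ ≤ T`, `nm e ≤ D`.
`SQ_asymp` : asymptotics of `SQ w F r`; `PR` : pair sums with coprime variables;
`PR_sub_le`, `norm_PR_sub_le` : differences of two shapes.
-/

set_option autoImplicit false

noncomputable section

open Complex MeasureTheory Filter Topology
open scoped ContDiff

namespace Crest.Agent.R017.ExD791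

open Crest.Agent.R012 Crest.Agent.R012.Eis Crest.Agent.R012.Po581 Crest.Agent.R012.Gauss880
open Crest.Agent.R012.Weight600 (osc norm_osc)
open Crest.Agent.R012.PSer47 Crest.Agent.R012.Div277 Crest.Agent.R012.Mob705
open Crest.Agent.R017.End699 Crest.Agent.R017.FE47 Crest.Agent.R017.Two939
open Crest.Agent.R017.TXC791

/-- divisor sums -/
def Fl (T D : ℝ) (r : Eis) (F : Eis → ℂ) : Prop :=
  ∃ u : Eis → ℂ, (∀ e, IsPrim e → ‖u e‖ ≤ T) ∧ (∀ e, IsPrim e → u e ≠ 0 → (nm e : ℝ) ≤ D) ∧
    ∀ n, IsPrim n → Squarefree n → IsCoprime n r → F n = ∑ e ∈ dvs n, u e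

lemma norm_mu_le (d : Eis) : ‖(muE d : ℂ)‖ ≤ 1 := by
  rw [Complex.norm_intCast]
  have := abs_muE_le d
  exact_mod_cast this

lemma Hk_mul (w : ℝ → ℂ) (x t : ℝ) {e n : Eis} (he : IsPrim e) (hn : IsPrim n) :
    Hk w x t (e * n) = Hk w (x - Real.log (nm e)) t n := by
  unfold Hk
  have e1 : Real.log (nm (e * n)) = Real.log (nm e) + Real.log (nm n) := by
    rw [nm_mul]
    push_cast
    have h1 := one_le_nm he
    have h2 := one_le_nm hn
    rw [Real.log_mul (by linarith) (by linarith)]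
  rw [e1]
  have e2 : Real.log (nm e) + Real.log (nm n) - x = Real.log (nm n) - (x - Real.log (nm e)) := by
    ring
  rw [e2]

open Classical in
lemma sq_mul {e : Eis} (he : IsPrim e) (n r : Eis) (F : Eis → ℂ) :
    TP320.sq r F (e * n) = if Squarefree e ∧ IsCoprime e r then
      TP320.sq (r * e) (fun m => F (e * m)) n else 0 := by
  unfold TP320.sq
  have key : (IsPrim (e * n) ∧ Squarefree (e * n) ∧ IsCoprime (e * n) r) ↔
      (Squarefree e ∧ IsCoprime e r) ∧ (IsPrim n ∧ Squarefree n ∧ IsCoprime n (r * e)) := by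
    rw [P355.isPrim_mul_iff he, squarefree_mul_iff, IsCoprime.mul_left_iff, IsCoprime.mul_right_iff]
    constructor
    · rintro ⟨h1, ⟨h2, h3, h4⟩, h5, h6⟩
      exact ⟨⟨h3, h5⟩, h1, h4, h6, h2.isCoprime.symm⟩
    · rintro ⟨⟨h3, h5⟩, h1, h4, h6, h2⟩
      exact ⟨h1, ⟨h2.symm.isRelPrime, h3, h4⟩, h5, h6⟩
  by_cases h1 : Squarefree e ∧ IsCoprime e r
  · rw [if_pos h1]
    by_cases h2 : IsPrim n ∧ Squarefree n ∧ IsCoprime n (r * e)
    · rw [if_pos h2, if_pos (key.2 ⟨h1, h2⟩)]
    · rw [if_neg h2, if_neg fun h => h2 (key.1 h).2]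
  · rw [if_neg h1, if_neg fun h => h1 (key.1 h).1]

lemma sq_prim {r : Eis} {F : Eis → ℂ} {n : Eis} (h : ¬ IsPrim n) : TP320.sq r F n = 0 := by
  classical
  unfold TP320.sq
  rw [if_neg fun h' => h h'.1]

lemma sq_congr {r : Eis} {F F' : Eis → ℂ}
    (h : ∀ n, IsPrim n → Squarefree n → IsCoprime n r → F n = F' n) (n : Eis) :
    TP320.sq r F n = TP320.sq r F' n := by
  classical
  unfold TP320.sq
  split_ifs with h1
  · exact h n h1.1 h1.2.1 h1.2.2
  · rfl

lemma supp_sqHk {w : ℝ → ℂ} {x : ℝ} {N : ℕ}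
    (hN : ∀ b : Eis, IsPrim b → w (Real.log (nm b) - x) ≠ 0 → b ∈ primBall N) (t : ℝ) (r : Eis)
    (F : Eis → ℂ) {n : Eis} (hn : n ∉ primBall N) : TP320.sq r F n * Hk w x t n = 0 := by
  by_cases hp : IsPrim n
  · have : w (Real.log (nm n) - x) = 0 := by
      by_contra h0
      exact hn (hN n hp h0)
    unfold Hk
    rw [this]; simp
  · rw [sq_prim hp, zero_mul]

open Classical in
lemma SQ_dvd (w : ℝ → ℂ) (F : Eis → ℂ) (r : Eis) {e : Eis} (he : IsPrim e) (x t : ℝ) :
    ∑' n : Eis, (if e ∣ n then TP320.sq r F n * Hk w x t n else 0) =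
      if Squarefree e ∧ IsCoprime e r then
        SQ w (fun m => F (e * m)) (r * e) (x - Real.log (nm e)) t else 0 := by
  rw [← CM106.tsum_mult he.ne_zero (fun n => TP320.sq r F n * Hk w x t n)]
  unfold SQ
  split_ifs with h
  · refine tsum_congr fun n => ?_
    rw [sq_mul he, if_pos h]
    by_cases hn : IsPrim n
    · rw [Hk_mul w x t he hn]
    · rw [sq_prim hn, zero_mul, zero_mul]
  · refine (tsum_congr fun n => ?_).trans tsum_zero
    rw [sq_mul he, if_neg h, zero_mul]

open Classical in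
lemma sum_dvs_ball {u : Eis → ℂ} {D : ℝ} (hu : ∀ e, IsPrim e → u e ≠ 0 → (nm e : ℝ) ≤ D)
    {n : Eis} (hn : n ≠ 0) :
    ∑ e ∈ dvs n, u e = ∑ e ∈ primBall ⌊D⌋₊, if e ∣ n then u e else 0 := by
  rw [← Finset.sum_filter]
  symm
  apply Finset.sum_subset
  · intro e he
    rw [Finset.mem_filter, mem_primBall] at he
    rw [mem_dvs hn]
    exact ⟨he.1.2, he.2⟩
  · intro e he hne
    by_contra h0
    apply hne
    rw [mem_dvs hn] at he
    rw [Finset.mem_filter, mem_primBall]
    exact ⟨⟨Nat.le_floor (hu e he.1 h0), he.1⟩, he.2⟩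

open Classical in
lemma SQ_open {w : ℝ → ℂ} (hw : HasCompactSupport w) {r : Eis} {F u : Eis → ℂ} {D : ℝ}
    (hu : ∀ e, IsPrim e → u e ≠ 0 → (nm e : ℝ) ≤ D)
    (hF : ∀ n, IsPrim n → Squarefree n → IsCoprime n r → F n = ∑ e ∈ dvs n, u e) (x t : ℝ) :
    SQ w F r x t = ∑ e ∈ primBall ⌊D⌋₊, (if Squarefree e ∧ IsCoprime e r then
      u e * SQ w (fun _ => 1) (r * e) (x - Real.log (nm e)) t else 0) := by
  obtain ⟨N, hN⟩ := PS_support hw x
  have e1 : ∀ n : Eis, TP320.sq r F n * Hk w x t n = ∑ e ∈ primBall ⌊D⌋₊,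
      u e * (if e ∣ n then TP320.sq r (fun _ => 1) n * Hk w x t n else 0) := by
    intro n
    by_cases h : IsPrim n ∧ Squarefree n ∧ IsCoprime n r
    · have h1 : TP320.sq r F n = F n := by unfold TP320.sq; rw [if_pos h]
      have h2 : TP320.sq r (fun _ => (1 : ℂ)) n = 1 := by unfold TP320.sq; rw [if_pos h]
      rw [h1, h2, one_mul, hF n h.1 h.2.1 h.2.2, sum_dvs_ball hu h.1.ne_zero, Finset.sum_mul]
      refine Finset.sum_congr rfl fun e _ => ?_
      split_ifs <;> ring
    · have h1 : TP320.sq r F n = 0 := by unfold TP320.sq; rw [if_neg h]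
      have h2 : TP320.sq r (fun _ => (1 : ℂ)) n = 0 := by unfold TP320.sq; rw [if_neg h]
      rw [h1, h2]
      simp
  unfold SQ
  rw [tsum_congr e1, Summable.tsum_finsetSum]
  · refine Finset.sum_congr rfl fun e he => ?_
    rw [tsum_mul_left, SQ_dvd w _ r (mem_primBall.mp he).2]
    split_ifs
    · rfl
    · rw [mul_zero]
  · intro e _
    refine Summable.mul_left _ (summable_of_ne_finset_zero (s := primBall N) fun n hn => ?_)
    rw [supp_sqHk hN t r _ hn]; simp

/-- **asymptotics of weighted sums** -/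
theorem SQ_asymp {w : ℝ → ℂ} (hw1 : ContDiff ℝ ∞ w) (hw2 : HasCompactSupport w) {s : ℝ}
    (hs : 1 / 2 < s) (hs1 : s ≤ 1) :
    ∃ C : ℝ, 0 ≤ C ∧ ∀ (T D : ℝ) (r : Eis) (F : Eis → ℂ), 0 ≤ T → 0 ≤ D → r ≠ 0 → Fl T D r F →
      (∃ c : ℂ, ‖c‖ ≤ C * T * D * tau r ∧
        ∀ x t : ℝ, ‖SQ w F r x t - c * ((Real.exp x : ℂ) * mv w t)‖ ≤
          C * T * D * tau r * (1 + |t|) ^ 3 * Real.exp (s * x)) ∧
        ∀ x t : ℝ, ‖SQ w F r x t‖ ≤ C * T * D * Real.exp x := by
  classical
  obtain ⟨C1, hC1, h1⟩ := SQ_one_asymp hw1 hw2 hs hs1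
  obtain ⟨C2, hC2, h2⟩ := tau_le_rpow (ε := 1 / 2) (by norm_num)
  obtain ⟨C3, hC3, h3⟩ := norm_SQ_le hw1.continuous hw2
  refine ⟨18 * (C1 * C2 + C3), by positivity, ?_⟩
  intro T D r F hT hD hr hF
  obtain ⟨u, hu1, hu2, hu3⟩ := hF
  have hcard : ((primBall ⌊D⌋₊).card : ℝ) ≤ 18 * D := by
    have h4 : ((primBall ⌊D⌋₊).card : ℝ) ≤ ((18 * ⌊D⌋₊ : ℕ) : ℝ) := by
      exact_mod_cast card_primBall_le' _
    refine h4.trans ?_
    push_cast
    gcongr
    exact Nat.floor_le hD
  have hre : ∀ e ∈ primBall ⌊D⌋₊, r * e ≠ 0 := fun e he =>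
    mul_ne_zero hr (mem_primBall.mp he).2.ne_zero
  have hτ : ∀ e ∈ primBall ⌊D⌋₊, (tau (r * e) : ℝ) * (nm e : ℝ) ^ (-s) ≤ C2 * tau r := by
    intro e he
    have hep := (mem_primBall.mp he).2
    have hn1 := one_le_nm hep
    have h4 : (tau (r * e) : ℝ) ≤ tau r * tau e := by exact_mod_cast tau_mul_le r e
    have h5 := h2 e hep.ne_zero
    calc (tau (r * e) : ℝ) * (nm e : ℝ) ^ (-s)
        ≤ (tau r * (C2 * (nm e : ℝ) ^ (1 / 2 : ℝ))) * (nm e : ℝ) ^ (-(1 / 2) : ℝ) := by
          gcongr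
          exact h4.trans (by gcongr)
      _ = C2 * tau r * ((nm e : ℝ) ^ (1 / 2 : ℝ) * (nm e : ℝ) ^ (-(1 / 2) : ℝ)) := by ring
      _ = _ := by
          rw [← Real.rpow_add (by linarith)]; norm_num
  constructor
  · choose! c hc hb using h1
    refine ⟨∑ e ∈ primBall ⌊D⌋₊, (if Squarefree e ∧ IsCoprime e r then
      u e * (c (r * e) * (((nm e : ℝ)⁻¹ : ℝ) : ℂ)) else 0), ?_, fun x t => ?_⟩
    · calc ‖∑ e ∈ primBall ⌊D⌋₊, (if Squarefree e ∧ IsCoprime e r then
            u e * (c (r * e) * (((nm e : ℝ)⁻¹ : ℝ) : ℂ)) else 0)‖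
          ≤ ∑ e ∈ primBall ⌊D⌋₊, T * (C1 * (C2 * tau r)) := by
            refine (norm_sum_le _ _).trans (Finset.sum_le_sum fun e he => ?_)
            have hep := (mem_primBall.mp he).2
            have hn1 := one_le_nm hep
            split_ifs
            · rw [norm_mul, norm_mul, Complex.norm_real, Real.norm_of_nonneg (by positivity)]
              have h5 := hc (r * e) (hre e he)
              have h6 : (nm e : ℝ)⁻¹ ≤ (nm e : ℝ) ^ (-s) := by
                rw [← Real.rpow_neg_one]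
                exact Real.rpow_le_rpow_of_exponent_le hn1 (by linarith)
              calc ‖u e‖ * (‖c (r * e)‖ * (nm e : ℝ)⁻¹)
                  ≤ T * ((C1 * tau (r * e)) * (nm e : ℝ) ^ (-s)) := by
                    gcongr
                    exact hu1 e hep
                _ = T * (C1 * (tau (r * e) * (nm e : ℝ) ^ (-s))) := by ring
                _ ≤ _ := mul_le_mul_of_nonneg_left (mul_le_mul_of_nonneg_left (hτ e he) hC1) hT
            · rw [norm_zero]; positivity
        _ = (primBall ⌊D⌋₊).card * (T * (C1 * (C2 * tau r))) := by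
            rw [Finset.sum_const, nsmul_eq_mul]
        _ ≤ (18 * D) * (T * (C1 * (C2 * tau r))) := by gcongr
        _ ≤ _ := by
            have : 0 ≤ 18 * C3 * T * D * tau r := by positivity
            nlinarith
    · have e1 : SQ w F r x t - (∑ e ∈ primBall ⌊D⌋₊, (if Squarefree e ∧ IsCoprime e r then
          u e * (c (r * e) * (((nm e : ℝ)⁻¹ : ℝ) : ℂ)) else 0)) * ((Real.exp x : ℂ) * mv w t) =
          ∑ e ∈ primBall ⌊D⌋₊, (if Squarefree e ∧ IsCoprime e r then
            u e * (SQ w (fun _ => 1) (r * e) (x - Real.log (nm e)) t -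
              c (r * e) * ((Real.exp (x - Real.log (nm e)) : ℂ) * mv w t)) else 0) := by
        rw [SQ_open hw2 hu2 hu3, Finset.sum_mul, ← Finset.sum_sub_distrib]
        refine Finset.sum_congr rfl fun e he => ?_
        split_ifs
        · have e4 : Real.exp (x - Real.log (nm e)) = Real.exp x * (nm e : ℝ)⁻¹ := by
            rw [exp_sub_log (mem_primBall.mp he).2]; rfl
          rw [e4]
          push_cast
          ring
        · ring
      rw [e1]
      calc ‖∑ e ∈ primBall ⌊D⌋₊, (if Squarefree e ∧ IsCoprime e r then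
            u e * (SQ w (fun _ => 1) (r * e) (x - Real.log (nm e)) t -
              c (r * e) * ((Real.exp (x - Real.log (nm e)) : ℂ) * mv w t)) else 0)‖
          ≤ ∑ e ∈ primBall ⌊D⌋₊, T * (C1 * (C2 * tau r) * (1 + |t|) ^ 3 * Real.exp (s * x)) := by
            refine (norm_sum_le _ _).trans (Finset.sum_le_sum fun e he => ?_)
            have hep := (mem_primBall.mp he).2
            have hn1 := one_le_nm hep
            split_ifs
            · rw [norm_mul]
              have h5 := hb (r * e) (hre e he) (x - Real.log (nm e)) t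
              have h6 : Real.exp (s * (x - Real.log (nm e))) =
                  Real.exp (s * x) * (nm e : ℝ) ^ (-s) := by
                rw [Real.rpow_def_of_pos (by linarith), ← Real.exp_add]
                congr 1; ring
              rw [h6] at h5
              calc ‖u e‖ * ‖SQ w (fun _ => 1) (r * e) (x - Real.log (nm e)) t -
                    c (r * e) * ((Real.exp (x - Real.log (nm e)) : ℂ) * mv w t)‖
                  ≤ T * (C1 * tau (r * e) * (1 + |t|) ^ 3 *
                      (Real.exp (s * x) * (nm e : ℝ) ^ (-s))) := by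
                    gcongr
                    exact hu1 e hep
                _ = T * (C1 * (tau (r * e) * (nm e : ℝ) ^ (-s)) * (1 + |t|) ^ 3 *
                      Real.exp (s * x)) := by ring
                _ ≤ _ := mul_le_mul_of_nonneg_left (mul_le_mul_of_nonneg_right
                    (mul_le_mul_of_nonneg_right (mul_le_mul_of_nonneg_left (hτ e he) hC1)
                    (by positivity)) (Real.exp_pos _).le) hT
            · rw [norm_zero]; positivity
        _ = (primBall ⌊D⌋₊).card * (T * (C1 * (C2 * tau r) * (1 + |t|) ^ 3 * Real.exp (s * x))) := by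
            rw [Finset.sum_const, nsmul_eq_mul]
        _ ≤ (18 * D) * (T * (C1 * (C2 * tau r) * (1 + |t|) ^ 3 * Real.exp (s * x))) := by gcongr
        _ ≤ _ := by
            have : 0 ≤ 18 * C3 * T * D * tau r * (1 + |t|) ^ 3 * Real.exp (s * x) := by positivity
            nlinarith
  · intro x t
    rw [SQ_open hw2 hu2 hu3]
    calc ‖∑ e ∈ primBall ⌊D⌋₊, (if Squarefree e ∧ IsCoprime e r then
          u e * SQ w (fun _ => 1) (r * e) (x - Real.log (nm e)) t else 0)‖
        ≤ ∑ e ∈ primBall ⌊D⌋₊, T * (C3 * Real.exp x) := by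
          refine (norm_sum_le _ _).trans (Finset.sum_le_sum fun e he => ?_)
          have hep := (mem_primBall.mp he).2
          have hn1 := one_le_nm hep
          split_ifs
          · rw [norm_mul]
            have h5 := h3 (fun _ => 1) (r * e) (fun _ _ => by simp) (x - Real.log (nm e)) t
            have h6 : Real.exp (x - Real.log (nm e)) ≤ Real.exp x := by
              apply Real.exp_le_exp.mpr
              have := Real.log_nonneg hn1
              linarith
            calc ‖u e‖ * ‖SQ w (fun _ => 1) (r * e) (x - Real.log (nm e)) t‖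
                ≤ T * (C3 * Real.exp (x - Real.log (nm e))) := by
                  gcongr
                  exact hu1 e hep
              _ ≤ _ := by gcongr
          · rw [norm_zero]; positivity
      _ = (primBall ⌊D⌋₊).card * (T * (C3 * Real.exp x)) := by
          rw [Finset.sum_const, nsmul_eq_mul]
      _ ≤ (18 * D) * (T * (C3 * Real.exp x)) := by gcongr
      _ ≤ _ := by
          have : 0 ≤ 18 * (C1 * C2) * T * D * Real.exp x := by positivity
          nlinarith

/-- the class is stable under shifts -/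
lemma Fl_sub {T D : ℝ} {r : Eis} {F : Eis → ℂ} (hF : Fl T D r F) {a : Eis}
    (ha : IsPrim a) (hsq : Squarefree a) (hc : IsCoprime a r) :
    Fl (T * tau a) D (r * a) (fun n => F (a * n)) := by
  classical
  obtain ⟨u, hu1, hu2, hu3⟩ := hF
  refine ⟨fun e => ∑ b ∈ dvs a, u (b * e), fun e he => ?_, fun e he h0 => ?_,
    fun n hn hns hnc => ?_⟩
  · calc ‖∑ b ∈ dvs a, u (b * e)‖ ≤ ∑ b ∈ dvs a, T :=
          (norm_sum_le _ _).trans (Finset.sum_le_sum fun b hb =>
            hu1 _ ((isPrim_of_mem_dvs hb).mul he))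
      _ = T * tau a := by rw [Finset.sum_const, nsmul_eq_mul, mul_comm]; rfl
  · obtain ⟨b, hb, hb0⟩ := Finset.exists_ne_zero_of_sum_ne_zero h0
    have h1 := hu2 _ ((isPrim_of_mem_dvs hb).mul he) hb0
    have h2 := one_le_nm (isPrim_of_mem_dvs hb)
    have h3 := one_le_nm he
    rw [nm_mul] at h1
    push_cast at h1
    nlinarith
  · rw [IsCoprime.mul_right_iff] at hnc
    have h1 : IsCoprime a n := hnc.2.symm
    have h2 : Squarefree (a * n) := squarefree_mul_iff.2 ⟨h1.isRelPrime, hsq, hns⟩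
    have h3 : F (a * n) = ∑ e ∈ dvs n, ∑ b ∈ dvs a, u (b * e) := by
      rw [hu3 _ (ha.mul hn) h2 (IsCoprime.mul_left hc hnc.1), TP320.sum_dvs_mul ha hn h1,
        Finset.sum_comm]
    exact h3

open Classical in
/-- pair sums with coprime variables -/
def PR (w : ℝ → ℂ) (F1 F2 : Eis → ℂ) (r1 r2 : Eis) (x1 x2 t1 t2 : ℝ) : ℂ :=
  ∑' p : Eis × Eis, (TP320.sq r1 F1 p.1 * Hk w x1 t1 p.1) * (TP320.sq r2 F2 p.2 * Hk w x2 t2 p.2) *
    (if IsCoprime p.1 p.2 then 1 else 0)

open Classical in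
lemma PR_open {w : ℝ → ℂ} {x1 x2 : ℝ} {N : ℕ}
    (hN1 : ∀ b : Eis, IsPrim b → w (Real.log (nm b) - x1) ≠ 0 → b ∈ primBall N)
    (hN2 : ∀ b : Eis, IsPrim b → w (Real.log (nm b) - x2) ≠ 0 → b ∈ primBall N)
    (F1 F2 : Eis → ℂ) (r1 r2 : Eis) (t1 t2 : ℝ) :
    PR w F1 F2 r1 r2 x1 x2 t1 t2 = ∑ a ∈ primBall N, (muE a : ℂ) *
      ((if Squarefree a ∧ IsCoprime a r1 then
        SQ w (fun m => F1 (a * m)) (r1 * a) (x1 - Real.log (nm a)) t1 else 0) *
      (if Squarefree a ∧ IsCoprime a r2 then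
        SQ w (fun m => F2 (a * m)) (r2 * a) (x2 - Real.log (nm a)) t2 else 0)) := by
  set f : Eis → ℂ := fun n => TP320.sq r1 F1 n * Hk w x1 t1 n with hf
  set g : Eis → ℂ := fun n => TP320.sq r2 F2 n * Hk w x2 t2 n with hg
  have hf0 : ∀ n, n ∉ primBall N → f n = 0 := fun n hn => supp_sqHk hN1 t1 r1 F1 hn
  have hg0 : ∀ n, n ∉ primBall N → g n = 0 := fun n hn => supp_sqHk hN2 t2 r2 F2 hn
  have e1 : ∀ p : Eis × Eis, f p.1 * g p.2 * (if IsCoprime p.1 p.2 then 1 else 0) =
      ∑ a ∈ primBall N, (muE a : ℂ) * ((if a ∣ p.1 then f p.1 else 0) *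
        (if a ∣ p.2 then g p.2 else 0)) := by
    intro p
    by_cases h1 : p.1 ∈ primBall N
    · by_cases h2 : p.2 ∈ primBall N
      · have hp1 := (mem_primBall.mp h1).2
        have hp2 := (mem_primBall.mp h2).2
        have h := sum_muE_coprime hp1 hp2.ne_zero
        have h' : (∑ a ∈ primBall N, (muE a : ℂ) * ((if a ∣ p.1 then (1 : ℂ) else 0) *
            (if a ∣ p.2 then (1 : ℂ) else 0))) = if IsCoprime p.1 p.2 then 1 else 0 := by
          have h3 := congrArg (fun z : ℤ => (z : ℂ)) h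
          simp only [Int.cast_sum] at h3
          have h4 : ((if IsCoprime p.1 p.2 then (1 : ℤ) else 0 : ℤ) : ℂ) =
              if IsCoprime p.1 p.2 then 1 else 0 := by split_ifs <;> simp
          rw [← h4, ← h3]
          symm
          have h5 : ∑ a ∈ dvs p.2, (((if a ∣ p.1 then muE a else 0 : ℤ)) : ℂ) =
              ∑ a ∈ dvs p.2, (muE a : ℂ) * ((if a ∣ p.1 then (1 : ℂ) else 0) *
            (if a ∣ p.2 then (1 : ℂ) else 0)) := by
            refine Finset.sum_congr rfl fun a ha => ?_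
            rw [if_pos (dvd_of_mem_dvs ha)]
            split_ifs <;> simp
          rw [h5]
          apply Finset.sum_subset
          · intro a ha
            rw [mem_dvs hp2.ne_zero] at ha
            rw [mem_primBall] at h2 ⊢
            exact ⟨(nm_le_of_dvd hp2.ne_zero ha.2).trans h2.1, ha.1⟩
          · intro a ha hna
            have : ¬ a ∣ p.2 := fun hd => hna ((mem_dvs hp2.ne_zero).2
              ⟨(mem_primBall.mp ha).2, hd⟩)
            rw [if_neg this]; simp
        rw [← h', Finset.mul_sum]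
        refine Finset.sum_congr rfl fun a _ => ?_
        split_ifs <;> ring
      · rw [hg0 _ h2]; simp
    · rw [hf0 _ h1]; simp
  have e2 : PR w F1 F2 r1 r2 x1 x2 t1 t2 = ∑' p : Eis × Eis, f p.1 * g p.2 *
      (if IsCoprime p.1 p.2 then 1 else 0) := rfl
  rw [e2, tsum_congr e1]
  have hsf : ∀ a : Eis, Summable fun n : Eis => ‖(if a ∣ n then f n else 0)‖ := fun a =>
    summable_of_ne_finset_zero (s := primBall N) fun n hn => by rw [hf0 n hn]; simp
  have hsg : ∀ a : Eis, Summable fun n : Eis => ‖(if a ∣ n then g n else 0)‖ := fun a =>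
    summable_of_ne_finset_zero (s := primBall N) fun n hn => by rw [hg0 n hn]; simp
  rw [Summable.tsum_finsetSum]
  · refine Finset.sum_congr rfl fun a ha => ?_
    have hap := (mem_primBall.mp ha).2
    rw [tsum_mul_left, ← tsum_mul_tsum_of_summable_norm (hsf a) (hsg a)]
    rw [hf, hg]
    simp only
    rw [SQ_dvd w F1 r1 hap, SQ_dvd w F2 r2 hap]
  · intro a _
    refine Summable.mul_left _ ?_
    refine summable_of_ne_finset_zero (s := primBall N ×ˢ primBall N) fun p hp => ?_
    rw [Finset.mem_product, not_and_or] at hp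
    rcases hp with hp | hp
    · rw [hf0 _ hp]; simp
    · rw [hg0 _ hp]; simp

end Crest.Agent.R017.ExD791
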