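import Crest.Agent.R017.ExD2_791

/-!
# Row 17, exceptional class: principal values of shape differences (3) (helper791)

`PR_sub_le` : difference of the pair sums of two shapes `(x1, x2)`, `(x1 + δ, x2 - δ)`.
-/

set_option autoImplicit false

noncomputable section

open Complex MeasureTheory Filter Topology
open scoped ContDiff

namespace Crest.Agent.R017.ExD791

open Crest.Agent.R012 Crest.Agent.R012.Eis Crest.Agent.R012.Po581 Crest.Agent.R012.Gauss880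
open Crest.Agent.R012.Weight600 (osc norm_osc)
open Crest.Agent.R012.PSer47 Crest.Agent.R012.Div277 Crest.Agent.R012.Mob705
open Crest.Agent.R017.End699 Crest.Agent.R017.FE47 Crest.Agent.R017.Two939
open Crest.Agent.R017.TXC791

/-- the product of two asymptotic expansions, difference of two shapes -/
lemma prod_diff {c1 c2 m1 m2 S1 S2 S1' S2' : ℂ} {K1 K2 C2 A1 A2 A1' A2' E1 E2 E1' E2' U : ℝ}
    (hA : A1 * A2 = A1' * A2') (hA1 : 0 ≤ A1) (hA2 : 0 ≤ A2) (hA1' : 0 ≤ A1') (hA2' : 0 ≤ A2')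
    (hE1 : 0 ≤ E1) (hE1' : 0 ≤ E1') (hC2 : 0 ≤ C2) (hK1 : 0 ≤ K1) (hK2 : 0 ≤ K2)
    (hc1 : ‖c1‖ ≤ K1) (hc2 : ‖c2‖ ≤ K2) (hm1 : ‖m1‖ ≤ C2) (hm2 : ‖m2‖ ≤ C2)
    (h1 : ‖S1 - c1 * ((A1 : ℂ) * m1)‖ ≤ K1 * E1) (h2 : ‖S2 - c2 * ((A2 : ℂ) * m2)‖ ≤ K2 * E2)
    (h1' : ‖S1' - c1 * ((A1' : ℂ) * m1)‖ ≤ K1 * E1')
    (h2' : ‖S2' - c2 * ((A2' : ℂ) * m2)‖ ≤ K2 * E2')
    (u1 : A1 * E2 ≤ U) (u2 : E1 * A2 ≤ U) (u3 : E1 * E2 ≤ U)
    (u1' : A1' * E2' ≤ U) (u2' : E1' * A2' ≤ U) (u3' : E1' * E2' ≤ U) :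
    ‖S1 * S2 - S1' * S2'‖ ≤ K1 * K2 * ((4 * C2 + 2) * U) := by
  have one : ∀ {x y z : ℂ} {A B E E' : ℝ}, 0 ≤ A → 0 ≤ B → 0 ≤ E → ‖x‖ ≤ K1 * E → ‖y‖ ≤ K2 * E' →
      A * E' ≤ U → E * B ≤ U → E * E' ≤ U →
      ‖(c1 * ((A : ℂ) * m1)) * y + x * (c2 * ((B : ℂ) * m2)) + x * y‖ ≤
        K1 * K2 * ((2 * C2 + 1) * U) := by
    intro x y z A B E E' hA hB hE hx hy v1 v2 v3
    have g1 : ‖c1 * ((A : ℂ) * m1)‖ ≤ K1 * (A * C2) := by
      rw [norm_mul, norm_mul, Complex.norm_real, Real.norm_of_nonneg hA]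
      gcongr
    have g2 : ‖c2 * ((B : ℂ) * m2)‖ ≤ K2 * (B * C2) := by
      rw [norm_mul, norm_mul, Complex.norm_real, Real.norm_of_nonneg hB]
      gcongr
    have hKE : 0 ≤ K2 * E' := (norm_nonneg _).trans hy
    calc ‖(c1 * ((A : ℂ) * m1)) * y + x * (c2 * ((B : ℂ) * m2)) + x * y‖
        ≤ ‖c1 * ((A : ℂ) * m1)‖ * ‖y‖ + ‖x‖ * ‖c2 * ((B : ℂ) * m2)‖ + ‖x‖ * ‖y‖ := by
          rw [← norm_mul, ← norm_mul, ← norm_mul]
          exact (norm_add_le _ _).trans (add_le_add_left (norm_add_le _ _) _)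
      _ ≤ (K1 * (A * C2)) * (K2 * E') + (K1 * E) * (K2 * (B * C2)) + (K1 * E) * (K2 * E') := by
          gcongr
      _ = K1 * K2 * (C2 * (A * E') + C2 * (E * B) + E * E') := by ring
      _ ≤ K1 * K2 * (C2 * U + C2 * U + U) := by gcongr
      _ = _ := by ring
  have hAc : (A1 : ℂ) * A2 = (A1' : ℂ) * A2' := by exact_mod_cast hA
  set a1 := S1 - c1 * ((A1 : ℂ) * m1) with ha1
  set a2 := S2 - c2 * ((A2 : ℂ) * m2) with ha2
  set b1 := S1' - c1 * ((A1' : ℂ) * m1) with hb1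
  set b2 := S2' - c2 * ((A2' : ℂ) * m2) with hb2
  have e1 : S1 * S2 - S1' * S2' =
      ((c1 * ((A1 : ℂ) * m1)) * a2 + a1 * (c2 * ((A2 : ℂ) * m2)) + a1 * a2) -
        ((c1 * ((A1' : ℂ) * m1)) * b2 + b1 * (c2 * ((A2' : ℂ) * m2)) + b1 * b2) := by
    have p1 : S1 = c1 * ((A1 : ℂ) * m1) + a1 := by rw [ha1]; ring
    have p2 : S2 = c2 * ((A2 : ℂ) * m2) + a2 := by rw [ha2]; ring
    have p3 : S1' = c1 * ((A1' : ℂ) * m1) + b1 := by rw [hb1]; ring
    have p4 : S2' = c2 * ((A2' : ℂ) * m2) + b2 := by rw [hb2]; ring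
    rw [p1, p2, p3, p4]
    linear_combination (c1 * c2 * m1 * m2) * hAc
  rw [e1]
  refine (norm_sub_le _ _).trans ?_
  have j1 := one (z := 0) hA1 hA2 hE1 h1 h2 u1 u2 u3
  have j2 := one (z := 0) hA1' hA2' hE1' h1' h2' u1' u2' u3'
  calc _ ≤ K1 * K2 * ((2 * C2 + 1) * U) + K1 * K2 * ((2 * C2 + 1) * U) := add_le_add j1 j2
    _ = _ := by ring

set_option maxHeartbeats 2000000 in
/-- **differences of two shapes, pair sums with coprime variables** -/
theorem PR_sub_le {w : ℝ → ℂ} (hw1 : ContDiff ℝ ∞ w) (hw2 : HasCompactSupport w) {s : ℝ}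
    (hs : 1 / 2 < s) (hs1 : s ≤ 1) :
    ∃ C : ℝ, 0 ≤ C ∧ ∀ (T1 T2 D : ℝ) (r1 r2 : Eis) (F1 F2 : Eis → ℂ), 0 ≤ T1 → 0 ≤ T2 → 0 ≤ D →
      r1 ≠ 0 → r2 ≠ 0 → Fl T1 D r1 F1 → Fl T2 D r2 F2 → ∀ x1 x2 δ t1 t2 : ℝ,
        ‖PR w F1 F2 r1 r2 x1 x2 t1 t2 - PR w F1 F2 r1 r2 (x1 + δ) (x2 - δ) t1 t2‖ ≤
          C * (T1 * T2) * D ^ 2 * Real.exp (x1 + x2) ∧
        ∀ d : ℝ, 0 ≤ d → d ≤ x1 → d ≤ x2 → d ≤ x1 + δ → d ≤ x2 - δ →
          ‖PR w F1 F2 r1 r2 x1 x2 t1 t2 - PR w F1 F2 r1 r2 (x1 + δ) (x2 - δ) t1 t2‖ ≤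
            C * (T1 * T2) * D ^ 2 * (tau r1 * tau r2) * ((1 + |t1|) * (1 + |t2|)) ^ 3 *
              (Real.exp (x1 + x2) * Real.exp (-((1 - s) * d))) := by
  classical
  obtain ⟨C1, hC1, h1⟩ := SQ_asymp hw1 hw2 hs hs1
  obtain ⟨C2, hC2, h2⟩ := mv_le hw1 hw2
  obtain ⟨C3, hC3, h3⟩ := tau_le_rpow (ε := (2 * s - 1) / 8) (by linarith)
  have hsum : Summable fun z : Eis => (nm z : ℝ) ^ (-(s + 1 / 2)) :=
    LatSum413.summable_nm_rpow (s := s + 1 / 2) (by linarith)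
  set Zs := ∑' z : Eis, (nm z : ℝ) ^ (-(s + 1 / 2)) with hZs
  have hZs0 : 0 ≤ Zs := tsum_nonneg fun z => by positivity
  refine ⟨(2 * C1 ^ 2 + C1 ^ 2 * (4 * C2 + 2)) * C3 ^ 4 * Zs, by positivity, ?_⟩
  intro T1 T2 D r1 r2 F1 F2 hT1 hT2 hD hr1 hr2 hF1 hF2 x1 x2 δ t1 t2
  -- a common range
  obtain ⟨N1, hN1⟩ := PS_support hw2 x1
  obtain ⟨N2, hN2⟩ := PS_support hw2 x2
  obtain ⟨N3, hN3⟩ := PS_support hw2 (x1 + δ)
  obtain ⟨N4, hN4⟩ := PS_support hw2 (x2 - δ)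
  set N := N1 + N2 + N3 + N4 with hN
  have up : ∀ {M : ℕ} {b : Eis}, M ≤ N → b ∈ primBall M → b ∈ primBall N := by
    intro M b hM hb
    rw [mem_primBall] at hb ⊢
    exact ⟨hb.1.trans hM, hb.2⟩
  have o1 := PR_open (N := N) (fun b hb h => up (by omega) (hN1 b hb h))
    (fun b hb h => up (by omega) (hN2 b hb h)) F1 F2 r1 r2 t1 t2
  have o2 := PR_open (N := N) (fun b hb h => up (by omega) (hN3 b hb h))
    (fun b hb h => up (by omega) (hN4 b hb h)) F1 F2 r1 r2 t1 t2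
  rw [o1, o2, ← Finset.sum_sub_distrib]
  -- the tau factor
  have hta : ∀ a : Eis, IsPrim a → (tau a : ℝ) ^ 4 * (nm a : ℝ) ^ (-(2 * s)) ≤
      C3 ^ 4 * (nm a : ℝ) ^ (-(s + 1 / 2)) := by
    intro a ha
    have hn1 := one_le_nm ha
    have hn0 : (0 : ℝ) < nm a := by linarith
    have h5 := h3 a ha.ne_zero
    calc (tau a : ℝ) ^ 4 * (nm a : ℝ) ^ (-(2 * s))
        ≤ (C3 * (nm a : ℝ) ^ ((2 * s - 1) / 8)) ^ 4 * (nm a : ℝ) ^ (-(2 * s)) := by gcongr
      _ = C3 ^ 4 * (((nm a : ℝ) ^ ((2 * s - 1) / 8)) ^ 4 * (nm a : ℝ) ^ (-(2 * s))) := by ring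
      _ = _ := by
          congr 1
          rw [← Real.rpow_natCast ((nm a : ℝ) ^ ((2 * s - 1) / 8)), ← Real.rpow_mul hn0.le,
            ← Real.rpow_add hn0]
          congr 1
          push_cast; ring
  -- termwise estimates
  have term : ∀ a ∈ primBall N, ∀ G : ℝ, 0 ≤ G → (Squarefree a → IsCoprime a r1 → IsCoprime a r2 →
      ‖SQ w (fun m => F1 (a * m)) (r1 * a) (x1 - Real.log (nm a)) t1 *
        SQ w (fun m => F2 (a * m)) (r2 * a) (x2 - Real.log (nm a)) t2 -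
        SQ w (fun m => F1 (a * m)) (r1 * a) (x1 + δ - Real.log (nm a)) t1 *
        SQ w (fun m => F2 (a * m)) (r2 * a) (x2 - δ - Real.log (nm a)) t2‖ ≤
          G * ((tau a : ℝ) ^ 4 * (nm a : ℝ) ^ (-(2 * s)))) →
      ‖(muE a : ℂ) * ((if Squarefree a ∧ IsCoprime a r1 then
          SQ w (fun m => F1 (a * m)) (r1 * a) (x1 - Real.log (nm a)) t1 else 0) *
        (if Squarefree a ∧ IsCoprime a r2 then
          SQ w (fun m => F2 (a * m)) (r2 * a) (x2 - Real.log (nm a)) t2 else 0)) -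
        (muE a : ℂ) * ((if Squarefree a ∧ IsCoprime a r1 then
          SQ w (fun m => F1 (a * m)) (r1 * a) (x1 + δ - Real.log (nm a)) t1 else 0) *
        (if Squarefree a ∧ IsCoprime a r2 then
          SQ w (fun m => F2 (a * m)) (r2 * a) (x2 - δ - Real.log (nm a)) t2 else 0))‖ ≤
        (G * C3 ^ 4) * (nm a : ℝ) ^ (-(s + 1 / 2)) := by
    intro a ha G hG h
    have hap := (mem_primBall.mp ha).2
    by_cases q1 : Squarefree a ∧ IsCoprime a r1
    · by_cases q2 : Squarefree a ∧ IsCoprime a r2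
      · rw [if_pos q1, if_pos q2, if_pos q1, if_pos q2, ← mul_sub, norm_mul]
        calc ‖(muE a : ℂ)‖ * _ ≤ 1 * (G * ((tau a : ℝ) ^ 4 * (nm a : ℝ) ^ (-(2 * s)))) := by
              gcongr
              · exact norm_mu_le a
              · exact h q1.1 q1.2 q2.2
          _ ≤ 1 * (G * (C3 ^ 4 * (nm a : ℝ) ^ (-(s + 1 / 2)))) :=
              mul_le_mul_of_nonneg_left (mul_le_mul_of_nonneg_left (hta a hap) hG) zero_le_one
          _ = _ := by ring
      · simp only [if_neg q2, mul_zero, sub_zero, norm_zero]; positivity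
    · simp only [if_neg q1, zero_mul, mul_zero, sub_zero, norm_zero]; positivity
  have fin : ∀ G : ℝ, 0 ≤ G → ∑ a ∈ primBall N, (G * C3 ^ 4) * (nm a : ℝ) ^ (-(s + 1 / 2)) ≤
      G * C3 ^ 4 * Zs := by
    intro G hG
    rw [← Finset.mul_sum]
    exact mul_le_mul_of_nonneg_left (hsum.sum_le_tsum _ fun z _ => by positivity) (by positivity)
  constructor
  · -- trivial bound
    set G := 2 * C1 ^ 2 * (T1 * T2) * D ^ 2 * Real.exp (x1 + x2) with hG
    have hG0 : 0 ≤ G := by positivity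
    refine (norm_sum_le _ _).trans ((Finset.sum_le_sum fun a ha => term a ha G hG0 ?_).trans
      ((fin G hG0).trans ?_))
    · intro hsq hc1 hc2
      have hap := (mem_primBall.mp ha).2
      have hn1 := one_le_nm hap
      have hn0 : (0 : ℝ) < nm a := by linarith
      have hτ1 : (1 : ℝ) ≤ tau a := by exact_mod_cast one_le_tau hap.ne_zero
      have i1 := (h1 (T1 * tau a) D (r1 * a) _ (by positivity) hD (mul_ne_zero hr1 hap.ne_zero)
        (Fl_sub hF1 hap hsq hc1)).2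
      have i2 := (h1 (T2 * tau a) D (r2 * a) _ (by positivity) hD (mul_ne_zero hr2 hap.ne_zero)
        (Fl_sub hF2 hap hsq hc2)).2
      have e5 : Real.exp (x1 + δ) * Real.exp (x2 - δ) = Real.exp x1 * Real.exp x2 := by
        rw [← Real.exp_add, ← Real.exp_add]; congr 1; ring
      calc _ ≤ (C1 * (T1 * tau a) * D * Real.exp (x1 - Real.log (nm a))) *
            (C1 * (T2 * tau a) * D * Real.exp (x2 - Real.log (nm a))) +
            (C1 * (T1 * tau a) * D * Real.exp (x1 + δ - Real.log (nm a))) *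
            (C1 * (T2 * tau a) * D * Real.exp (x2 - δ - Real.log (nm a))) := by
            refine (norm_sub_le _ _).trans ?_
            rw [norm_mul, norm_mul]
            gcongr
            · exact i1 _ _
            · exact i2 _ _
            · exact i1 _ _
            · exact i2 _ _
        _ = C1 ^ 2 * (T1 * T2) * D ^ 2 * (Real.exp x1 * Real.exp x2 +
              Real.exp (x1 + δ) * Real.exp (x2 - δ)) * ((tau a : ℝ) ^ 2 * ((nm a : ℝ) ^ 2)⁻¹) := by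
            rw [exp_sub_log hap, exp_sub_log hap, exp_sub_log hap, exp_sub_log hap]
            field_simp
        _ = G * ((tau a : ℝ) ^ 2 * ((nm a : ℝ) ^ 2)⁻¹) := by
            rw [e5, hG, Real.exp_add]; ring
        _ ≤ G * ((tau a : ℝ) ^ 4 * (nm a : ℝ) ^ (-(2 * s))) := by
            gcongr
            · norm_num
            · rw [← Real.rpow_natCast, ← Real.rpow_neg hn0.le]
              exact Real.rpow_le_rpow_of_exponent_le hn1 (by push_cast; linarith)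
    · rw [hG]
      have : 0 ≤ C1 ^ 2 * (4 * C2 + 2) * C3 ^ 4 * Zs * (T1 * T2) * D ^ 2 * Real.exp (x1 + x2) := by
        positivity
      nlinarith
  · intro d hd0 hd1 hd2 hd3 hd4
    set TT := ((1 + |t1|) * (1 + |t2|)) ^ 3 with hTT
    set U0 := Real.exp (x1 + x2) * Real.exp (-((1 - s) * d)) with hU0
    set G := C1 ^ 2 * (T1 * T2) * D ^ 2 * (tau r1 * tau r2) * TT * ((4 * C2 + 2) * U0) with hG
    have hG0 : 0 ≤ G := by positivity
    refine (norm_sum_le _ _).trans ((Finset.sum_le_sum fun a ha => term a ha G hG0 ?_).trans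
      ((fin G hG0).trans ?_))
    · intro hsq hc1 hc2
      have hap := (mem_primBall.mp ha).2
      have hn1 := one_le_nm hap
      have hn0 : (0 : ℝ) < nm a := by linarith
      have hτ1 : (1 : ℝ) ≤ tau a := by exact_mod_cast one_le_tau hap.ne_zero
      obtain ⟨c1, hcc1, i1⟩ := (h1 (T1 * tau a) D (r1 * a) _ (by positivity) hD
        (mul_ne_zero hr1 hap.ne_zero) (Fl_sub hF1 hap hsq hc1)).1
      obtain ⟨c2, hcc2, i2⟩ := (h1 (T2 * tau a) D (r2 * a) _ (by positivity) hD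
        (mul_ne_zero hr2 hap.ne_zero) (Fl_sub hF2 hap hsq hc2)).1
      set n := (nm a : ℝ) with hn
      set K1 := C1 * T1 * D * tau r1 * (tau a : ℝ) ^ 2 * (1 + |t1|) ^ 3 with hK1
      set K2 := C1 * T2 * D * tau r2 * (tau a : ℝ) ^ 2 * (1 + |t2|) ^ 3 with hK2
      have hK10 : 0 ≤ K1 := by positivity
      have hK20 : 0 ≤ K2 := by positivity
      have ht1 : 1 ≤ (1 + |t1|) ^ 3 := one_le_pow₀ (by linarith [abs_nonneg t1])
      have ht2 : 1 ≤ (1 + |t2|) ^ 3 := one_le_pow₀ (by linarith [abs_nonneg t2])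
      have tm1 : (tau (r1 * a) : ℝ) ≤ tau r1 * tau a := by exact_mod_cast tau_mul_le r1 a
      have tm2 : (tau (r2 * a) : ℝ) ≤ tau r2 * tau a := by exact_mod_cast tau_mul_le r2 a
      have b1 : C1 * (T1 * tau a) * D * tau (r1 * a) * (1 + |t1|) ^ 3 ≤ K1 := by
        calc C1 * (T1 * tau a) * D * tau (r1 * a) * (1 + |t1|) ^ 3
            ≤ C1 * (T1 * tau a) * D * (tau r1 * tau a) * (1 + |t1|) ^ 3 := by gcongr
          _ = K1 := by rw [hK1]; ring
      have b2 : C1 * (T2 * tau a) * D * tau (r2 * a) * (1 + |t2|) ^ 3 ≤ K2 := by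
        calc C1 * (T2 * tau a) * D * tau (r2 * a) * (1 + |t2|) ^ 3
            ≤ C1 * (T2 * tau a) * D * (tau r2 * tau a) * (1 + |t2|) ^ 3 := by gcongr
          _ = K2 := by rw [hK2]; ring
      have kc1 : ‖c1‖ ≤ K1 := by
        refine hcc1.trans (le_trans ?_ b1)
        exact le_mul_of_one_le_right (by positivity) ht1
      have kc2 : ‖c2‖ ≤ K2 := by
        refine hcc2.trans (le_trans ?_ b2)
        exact le_mul_of_one_le_right (by positivity) ht2
      have k1 : ∀ x, ‖SQ w (fun m => F1 (a * m)) (r1 * a) (x - Real.log (nm a)) t1 -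
          c1 * ((Real.exp (x - Real.log (nm a)) : ℂ) * mv w t1)‖ ≤
          K1 * Real.exp (s * (x - Real.log (nm a))) := fun x =>
        (i1 (x - Real.log (nm a)) t1).trans (mul_le_mul_of_nonneg_right b1 (Real.exp_pos _).le)
      have k2 : ∀ x, ‖SQ w (fun m => F2 (a * m)) (r2 * a) (x - Real.log (nm a)) t2 -
          c2 * ((Real.exp (x - Real.log (nm a)) : ℂ) * mv w t2)‖ ≤
          K2 * Real.exp (s * (x - Real.log (nm a))) := fun x =>
        (i2 (x - Real.log (nm a)) t2).trans (mul_le_mul_of_nonneg_right b2 (Real.exp_pos _).le)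
      -- the exponents
      set L := Real.log (nm a) with hL
      have hL0 : 0 ≤ L := Real.log_nonneg hn1
      set U := U0 * n ^ (-(2 * s)) with hU
      have hUe : U = Real.exp ((x1 + x2) - (1 - s) * d - 2 * s * L) := by
        rw [hU, hU0, Real.rpow_def_of_pos hn0, ← Real.exp_add, ← Real.exp_add]
        congr 1; ring
      have key : ∀ y1 y2 : ℝ, y1 + y2 = x1 + x2 → d ≤ y1 → d ≤ y2 →
          Real.exp (y1 - L) * Real.exp (s * (y2 - L)) ≤ U ∧
          Real.exp (s * (y1 - L)) * Real.exp (y2 - L) ≤ U ∧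
          Real.exp (s * (y1 - L)) * Real.exp (s * (y2 - L)) ≤ U := by
        intro y1 y2 hy h1 h2
        rw [hUe, ← Real.exp_add, ← Real.exp_add, ← Real.exp_add]
        have g1 : 0 ≤ (1 - s) * (y1 - d) := mul_nonneg (by linarith) (by linarith)
        have g2 : 0 ≤ (1 - s) * (y2 - d) := mul_nonneg (by linarith) (by linarith)
        have g3 : 0 ≤ (1 - s) * L := mul_nonneg (by linarith) hL0
        have g4 : 0 ≤ (1 - s) * d := mul_nonneg (by linarith) hd0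
        refine ⟨Real.exp_le_exp.mpr ?_, Real.exp_le_exp.mpr ?_, Real.exp_le_exp.mpr ?_⟩ <;>
          rw [← hy] <;> nlinarith
      obtain ⟨v1, v2, v3⟩ := key x1 x2 rfl hd1 hd2
      obtain ⟨v1', v2', v3'⟩ := key (x1 + δ) (x2 - δ) (by ring) hd3 hd4
      have fin2 := prod_diff (U := U) (C2 := C2) (K1 := K1) (K2 := K2)
        (A1 := Real.exp (x1 - L)) (A2 := Real.exp (x2 - L)) (A1' := Real.exp (x1 + δ - L))
        (A2' := Real.exp (x2 - δ - L)) (by
          rw [← Real.exp_add, ← Real.exp_add]; congr 1; ring) (Real.exp_pos _).le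
        (Real.exp_pos _).le (Real.exp_pos _).le (Real.exp_pos _).le
        (Real.exp_pos (s * (x1 - L))).le (Real.exp_pos (s * (x1 + δ - L))).le hC2 hK10 hK20
        kc1 kc2 (h2 t1) (h2 t2) (k1 x1) (k2 x2) (k1 (x1 + δ)) (k2 (x2 - δ))
        v1 v2 v3 v1' v2' v3'
      refine fin2.trans (le_of_eq ?_)
      rw [hK1, hK2, hG, hU, hTT, mul_pow]
      ring
    · rw [hG]
      have : 0 ≤ 2 * C1 ^ 2 * C3 ^ 4 * Zs * (T1 * T2) * D ^ 2 * (tau r1 * tau r2) * TT * U0 := by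
        positivity
      nlinarith

end Crest.Agent.R017.ExD791
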