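import Crest.Agent.R017.ExD3_791

/-!
# Row 17, exceptional class: principal values of shape differences (4) (helper791)

The algebra: `∑_n (sqc q (conv W v)) (g n) Φ(n)` as a sum over the splittings of `g`.
-/

set_option autoImplicit false

noncomputable section

open Complex MeasureTheory Filter Topology
open scoped ContDiff

namespace Crest.Agent.R017.ExD791

open Crest.Agent.R012 Crest.Agent.R012.Eis Crest.Agent.R012.Po581 Crest.Agent.R012.Gauss880
open Crest.Agent.R012.Weight600 (osc norm_osc)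
open Crest.Agent.R012.PSer47 Crest.Agent.R012.Div277 Crest.Agent.R012.Mob705
open Crest.Agent.R017.End699 Crest.Agent.R017.FE47 Crest.Agent.R017.Two939
open Crest.Agent.R017.TXC791
open Crest.Agent.R017.CM106 (CS TG FS)
open Crest.Agent.R017.TP320 (conv)
open Crest.Agent.R017.HP842 (Th sqc FS_conv)

lemma Th_mul (q x y : Eis) : Th q (x * y) = Th q x * Th (q * x) y := by
  classical
  unfold Th
  have key : (Squarefree (x * y) ∧ IsCoprime (x * y) q) ↔
      (Squarefree x ∧ IsCoprime x q) ∧ (Squarefree y ∧ IsCoprime y (q * x)) := by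
    rw [squarefree_mul_iff, IsCoprime.mul_left_iff, IsCoprime.mul_right_iff]
    constructor
    · rintro ⟨⟨h1, h2, h3⟩, h4, h5⟩
      exact ⟨⟨h2, h4⟩, h3, h5, h1.isCoprime.symm⟩
    · rintro ⟨⟨h2, h4⟩, h3, h5, h1⟩
      exact ⟨⟨h1.symm.isRelPrime, h2, h3⟩, h4, h5⟩
  by_cases h1 : Squarefree x ∧ IsCoprime x q
  · by_cases h2 : Squarefree y ∧ IsCoprime y (q * x)
    · rw [if_pos h1, if_pos h2, if_pos (key.2 ⟨h1, h2⟩), one_mul]
    · rw [if_neg h2, if_neg fun h => h2 (key.1 h).2, mul_zero]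
  · rw [if_neg h1, if_neg fun h => h1 (key.1 h).1, zero_mul]

lemma Th_ne {q x : Eis} (h : Th q x ≠ 0) : Squarefree x ∧ IsCoprime x q := by
  classical
  by_contra h0
  apply h
  unfold Th
  rw [if_neg h0]

lemma norm_Th_le (q x : Eis) : ‖Th q x‖ ≤ 1 := by
  classical
  unfold Th
  split_ifs <;> simp

lemma FS.subm {α : Eis → ℂ} (h : FS α) {g : Eis} (hg : IsPrim g) : FS (fun m => α (g * m)) :=
  CM106.FS.sub h hg

lemma conv_np {α β : Eis → ℂ} (hα : FS α) (hβ : FS β) {n : Eis} (hn : ¬ IsPrim n) :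
    conv α β n = 0 := by
  by_contra h
  exact hn ((FS_conv hα hβ).prim n h)

/-- splitting at `g` -/
lemma tsum_conv_split {α β : Eis → ℂ} (hα : FS α) (hβ : FS β) {g : Eis} (hg : IsPrim g)
    {Θ : Eis → ℂ} (hΘ : ∀ n, IsPrim n → Θ n ≠ 0 → IsCoprime g n) :
    ∑' n : Eis, conv α β (g * n) * Θ n = ∑ a ∈ dvs g, ∑' p : Eis × Eis,
      α (a * p.1) * β ((g / a) * p.2) * Θ (p.1 * p.2) := by
  classical
  have hga : ∀ a ∈ dvs g, IsPrim (g / a) := fun a ha => TP320.quot_prim hg ha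
  have e1 : ∀ n : Eis, conv α β (g * n) * Θ n = ∑ a ∈ dvs g,
      conv (fun m => α (a * m)) (fun m => β ((g / a) * m)) n * Θ n := by
    intro n
    by_cases hn : IsPrim n
    · by_cases h0 : Θ n = 0
      · rw [h0]; simp
      · rw [TP320.conv_mul_cop α β hg hn (hΘ n hn h0), Finset.sum_mul]
        rfl
    · have hgn : ¬ IsPrim (g * n) := fun h => hn ((P355.isPrim_mul_iff hg).mp h)
      rw [conv_np hα hβ hgn, zero_mul]
      symm
      refine Finset.sum_eq_zero fun a ha => ?_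
      rw [conv_np (FS.subm hα (isPrim_of_mem_dvs ha)) (FS.subm hβ (hga a ha)) hn, zero_mul]
  rw [tsum_congr e1, Summable.tsum_finsetSum]
  · refine Finset.sum_congr rfl fun a ha => ?_
    exact TP320.tsum_conv (FS.subm hα (isPrim_of_mem_dvs ha)) (FS.subm hβ (hga a ha)) Θ
  · intro a ha
    exact (FS_conv (FS.subm hα (isPrim_of_mem_dvs ha)) (FS.subm hβ (hga a ha))).summable Θ

lemma fs_sub {α β : Eis → ℂ} (hα : FS α) (hβ : FS β) : FS (fun n => α n - β n) where
  fin := (hα.fin.union hβ.fin).subset fun n hn => by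
    by_contra h
    rw [Set.mem_union, not_or] at h
    apply hn
    have h1 : α n = 0 := by
      by_contra h0; exact h.1 h0
    have h2 : β n = 0 := by
      by_contra h0; exact h.2 h0
    simp [h1, h2]
  prim := fun n hn => by
    by_cases h1 : α n = 0
    · by_cases h2 : β n = 0
      · exact absurd (by simp [h1, h2]) hn
      · exact hβ.prim n h2
    · exact hα.prim n h1

/-- finite support: the double sum over pairs as an iterated sum -/
lemma tsum_pair {α β : Eis → ℂ} (hα : FS α) (hβ : FS β) (K : Eis → Eis → ℂ) :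
    ∑' p : Eis × Eis, α p.1 * β p.2 * K p.1 p.2 = ∑' m : Eis, β m * ∑' n : Eis, α n * K n m := by
  classical
  set A := hα.fin.toFinset
  set B := hβ.fin.toFinset
  have hA : ∀ n, n ∉ A → α n = 0 := fun n hn => by
    by_contra h0; exact hn (hα.fin.mem_toFinset.2 h0)
  have hB : ∀ n, n ∉ B → β n = 0 := fun n hn => by
    by_contra h0; exact hn (hβ.fin.mem_toFinset.2 h0)
  rw [tsum_eq_sum (s := A ×ˢ B), tsum_eq_sum (s := B), Finset.sum_product_right]
  · refine Finset.sum_congr rfl fun m _ => ?_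
    rw [tsum_eq_sum (s := A), Finset.mul_sum]
    · exact Finset.sum_congr rfl fun n _ => by ring
    · intro n hn
      rw [hA n hn, zero_mul]
  · intro m hm
    rw [hB m hm, zero_mul]
  · intro p hp
    rw [Finset.mem_product, not_and_or] at hp
    rcases hp with hp | hp
    · rw [hA _ hp]; ring
    · rw [hB _ hp]; ring

/-- summability of pair sums -/
lemma summable_pair {α β : Eis → ℂ} (hα : FS α) (hβ : FS β) (K : Eis × Eis → ℂ) :
    Summable fun p : Eis × Eis => α p.1 * β p.2 * K p := by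
  classical
  refine summable_of_ne_finset_zero (s := hα.fin.toFinset ×ˢ hβ.fin.toFinset) fun p hp => ?_
  rw [Finset.mem_product, not_and_or] at hp
  rcases hp with hp | hp
  · have : α p.1 = 0 := by
      by_contra h0; exact hp (hα.fin.mem_toFinset.2 h0)
    rw [this]; ring
  · have : β p.2 = 0 := by
      by_contra h0; exact hp (hβ.fin.mem_toFinset.2 h0)
    rw [this]; ring

/-- **the splitting identity** -/
theorem main_id {f1 f2 f1' f2' v : Eis → ℂ} (h1 : FS f1) (h2 : FS f2) (h1' : FS f1')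
    (h2' : FS f2') (hv : FS v) {q g : Eis} (hg : IsPrim g) (Φ : Eis → ℂ) :
    ∑' n : Eis, sqc q (conv (fun n => conv f1 f2 n - conv f1' f2' n) v) (g * n) * Φ n =
      ∑ a ∈ dvs g, ∑' m : Eis, v ((g / a) * m) * ∑ b ∈ dvs a,
        ((∑' p : Eis × Eis, f1 (b * p.1) * f2 ((a / b) * p.2) *
            (Th q (g * (p.1 * p.2 * m)) * Φ (p.1 * p.2 * m))) -
          ∑' p : Eis × Eis, f1' (b * p.1) * f2' ((a / b) * p.2) *
            (Th q (g * (p.1 * p.2 * m)) * Φ (p.1 * p.2 * m))) := by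
  classical
  have hW : FS (fun n => conv f1 f2 n - conv f1' f2' n) := fs_sub (FS_conv h1 h2) (FS_conv h1' h2')
  have e1 : ∑' n : Eis, sqc q (conv (fun n => conv f1 f2 n - conv f1' f2' n) v) (g * n) * Φ n =
      ∑' n : Eis, conv (fun n => conv f1 f2 n - conv f1' f2' n) v (g * n) *
        (Th q (g * n) * Φ n) := by
    refine tsum_congr fun n => ?_
    unfold sqc; ring
  have hcop : ∀ x y : Eis, Th q (g * (x * y)) ≠ 0 → IsCoprime g x := by
    intro x y h
    have h3 := (squarefree_mul_iff.1 (Th_ne h).1).1.isCoprime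
    exact h3.of_isCoprime_of_dvd_right (dvd_mul_right x y)
  rw [e1, tsum_conv_split hW hv hg]
  · refine Finset.sum_congr rfl fun a ha => ?_
    have hap := isPrim_of_mem_dvs ha
    have had := dvd_of_mem_dvs ha
    have hga : IsPrim (g / a) := TP320.quot_prim hg ha
    rw [tsum_pair (FS.subm hW hap) (FS.subm hv hga)
      (fun x y => Th q (g * (x * y)) * Φ (x * y))]
    refine tsum_congr fun m => ?_
    congr 1
    have e2 : ∀ x : Eis, (conv f1 f2 (a * x) - conv f1' f2' (a * x)) *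
        (Th q (g * (x * m)) * Φ (x * m)) =
        conv f1 f2 (a * x) * (Th q (g * (x * m)) * Φ (x * m)) -
        conv f1' f2' (a * x) * (Th q (g * (x * m)) * Φ (x * m)) := fun x => by ring
    rw [tsum_congr e2, Summable.tsum_sub]
    · rw [tsum_conv_split h1 h2 hap, tsum_conv_split h1' h2' hap, ← Finset.sum_sub_distrib]
      · intro n _ hn
        have h3 : Th q (g * (n * m)) ≠ 0 := left_ne_zero_of_mul hn
        exact (hcop n m h3).of_isCoprime_of_dvd_left had
      · intro n _ hn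
        have h3 : Th q (g * (n * m)) ≠ 0 := left_ne_zero_of_mul hn
        exact (hcop n m h3).of_isCoprime_of_dvd_left had
    · exact (FS.subm (FS_conv h1 h2) hap).summable _
    · exact (FS.subm (FS_conv h1' h2') hap).summable _
  · intro n _ hn
    have h3 : Th q (g * n) ≠ 0 := left_ne_zero_of_mul hn
    have h4 := hcop n 1 (by rwa [mul_one])
    exact h4

/-- a piece at its own scale -/
def fp (w : ℝ → ℂ) (X F : Eis → ℂ) (y t : ℝ) (n : Eis) : ℂ :=
  End699.ext X n * F n * Hk w y t n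

lemma FS_fp {w : ℝ → ℂ} (hw : HasCompactSupport w) (X F : Eis → ℂ) (y t : ℝ) :
    FS (fp w X F y t) where
  fin := by
    obtain ⟨N, hN⟩ := PS_support hw y
    refine (primBall N).finite_toSet.subset fun n hn => ?_
    have hn' : fp w X F y t n ≠ 0 := hn
    unfold fp at hn'
    have h1 : End699.ext X n ≠ 0 := fun h => hn' (by rw [h]; ring)
    have h2 : IsPrim n := by
      by_contra h; exact h1 (by simp [End699.ext, h])
    refine hN n h2 fun h => hn' ?_
    unfold Hk
    rw [h]; ring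
  prim := fun n hn => by
    by_contra h
    exact hn (by unfold fp; simp [End699.ext, h])

/-- the weights recombine -/
lemma Hk_twist (w : ℝ → ℂ) (x t t' : ℝ) (n : Eis) :
    Hk w x t n * osc t' (Real.log (nm n)) = osc t' x * Hk w x (t + t') n := by
  unfold Hk
  have e1 : osc t' (Real.log (nm n)) = osc t' x * osc t' (Real.log (nm n) - x) := by
    rw [← Weight600.osc_add_right]; congr 1; ring
  rw [e1, Weight600.osc_add_left]
  ring

lemma log_nm_mul {a b : Eis} (ha : IsPrim a) (hb : IsPrim b) :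
    Real.log (nm (a * b)) = Real.log (nm a) + Real.log (nm b) := by
  rw [nm_mul]
  push_cast
  have h1 := one_le_nm ha
  have h2 := one_le_nm hb
  rw [Real.log_mul (by linarith) (by linarith)]

/-- **the inner sum** -/
theorem inner_eq {w : ℝ → ℂ} {X1 X2 Ψ : Eis → ℂ} (hX1 : IsChar X1)
    (hX2 : IsChar X2) (hΨ : IsChar Ψ) {ρ1 ρ2 : Eis}
    (hp1 : ∀ b, IsPrim b → X1 b * Ψ b = prin0 ρ1 b) (hp2 : ∀ b, IsPrim b → X2 b * Ψ b = prin0 ρ2 b)
    (F1 F2 : Eis → ℂ) {q g b1 b2 m : Eis} (hb1 : IsPrim b1) (hb2 : IsPrim b2) (hm : IsPrim m)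
    (y1 y2 t1 t2 t : ℝ) :
    ∑' p : Eis × Eis, fp w X1 F1 y1 t1 (b1 * p.1) * fp w X2 F2 y2 t2 (b2 * p.2) *
        (Th q (g * (p.1 * p.2 * m)) * (osc t (Real.log (nm (p.1 * p.2 * m))) * Ψ (p.1 * p.2 * m))) =
      (Th q (g * m) * (osc t (Real.log (nm m)) * Ψ m) * (X1 b1 * X2 b2) *
        osc t ((y1 - Real.log (nm b1)) + (y2 - Real.log (nm b2)))) *
        PR w (fun n => F1 (b1 * n)) (fun n => F2 (b2 * n)) (q * (g * m) * ρ1) (q * (g * m) * ρ2)
          (y1 - Real.log (nm b1)) (y2 - Real.log (nm b2)) (t1 + t) (t2 + t) := by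
  classical
  unfold PR
  rw [← tsum_mul_left]
  refine tsum_congr fun p => ?_
  by_cases h1 : IsPrim p.1
  swap
  · have h3 : ¬ IsPrim (b1 * p.1) := fun h => h1 ((P355.isPrim_mul_iff hb1).mp h)
    rw [sq_prim h1]
    unfold fp
    simp [End699.ext, h3]
  by_cases h2 : IsPrim p.2
  swap
  · have h3 : ¬ IsPrim (b2 * p.2) := fun h => h2 ((P355.isPrim_mul_iff hb2).mp h)
    rw [sq_prim h2]
    unfold fp
    simp [End699.ext, h3]
  have eT : Th q (g * (p.1 * p.2 * m)) = Th q (g * m) * Th (q * (g * m)) (p.1 * p.2) := by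
    rw [← Th_mul]; congr 1; ring
  have eO : osc t (Real.log (nm (p.1 * p.2 * m))) = osc t (Real.log (nm p.1)) *
      osc t (Real.log (nm p.2)) * osc t (Real.log (nm m)) := by
    rw [log_nm_mul (h1.mul h2) hm, log_nm_mul h1 h2, Weight600.osc_add_right,
      Weight600.osc_add_right]
  have eΨ : Ψ (p.1 * p.2 * m) = Ψ p.1 * Ψ p.2 * Ψ m := by
    rw [hΨ.mul _ _ (h1.mul h2) hm, hΨ.mul _ _ h1 h2]
  have ef1 : fp w X1 F1 y1 t1 (b1 * p.1) * (osc t (Real.log (nm p.1)) * Ψ p.1) =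
      X1 b1 * osc t (y1 - Real.log (nm b1)) * (prin0 ρ1 p.1 * F1 (b1 * p.1) *
        Hk w (y1 - Real.log (nm b1)) (t1 + t) p.1) := by
    unfold fp
    have hb : IsPrim (b1 * p.1) := hb1.mul h1
    simp only [End699.ext, if_pos hb]
    rw [Hk_mul w y1 t1 hb1 h1, hX1.mul _ _ hb1 h1, ← hp1 _ h1]
    have := Hk_twist w (y1 - Real.log (nm b1)) t1 t p.1
    linear_combination (X1 b1 * X1 p.1 * F1 (b1 * p.1) * Ψ p.1) * this
  have ef2 : fp w X2 F2 y2 t2 (b2 * p.2) * (osc t (Real.log (nm p.2)) * Ψ p.2) =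
      X2 b2 * osc t (y2 - Real.log (nm b2)) * (prin0 ρ2 p.2 * F2 (b2 * p.2) *
        Hk w (y2 - Real.log (nm b2)) (t2 + t) p.2) := by
    unfold fp
    have hb : IsPrim (b2 * p.2) := hb2.mul h2
    simp only [End699.ext, if_pos hb]
    rw [Hk_mul w y2 t2 hb2 h2, hX2.mul _ _ hb2 h2, ← hp2 _ h2]
    have := Hk_twist w (y2 - Real.log (nm b2)) t2 t p.2
    linear_combination (X2 b2 * X2 p.2 * F2 (b2 * p.2) * Ψ p.2) * this
  have eS : Th (q * (g * m)) (p.1 * p.2) * (prin0 ρ1 p.1 * F1 (b1 * p.1)) *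
      (prin0 ρ2 p.2 * F2 (b2 * p.2)) =
      TP320.sq (q * (g * m) * ρ1) (fun n => F1 (b1 * n)) p.1 *
      TP320.sq (q * (g * m) * ρ2) (fun n => F2 (b2 * n)) p.2 *
      (if IsCoprime p.1 p.2 then 1 else 0) := by
    unfold Th prin0 TP320.sq
    have k1 : IsCoprime p.1 (q * (g * m) * ρ1) ↔ IsCoprime p.1 (q * (g * m)) ∧ IsCoprime p.1 ρ1 :=
      IsCoprime.mul_right_iff
    have k2 : IsCoprime p.2 (q * (g * m) * ρ2) ↔ IsCoprime p.2 (q * (g * m)) ∧ IsCoprime p.2 ρ2 :=
      IsCoprime.mul_right_iff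
    have hr : IsRelPrime p.1 p.2 ↔ IsCoprime p.1 p.2 := ⟨fun h => h.isCoprime, fun h => h.isRelPrime⟩
    rw [squarefree_mul_iff, IsCoprime.mul_left_iff, k1, k2, hr]
    clear k1 k2 hr eT eO eΨ ef1 ef2
    by_cases c1 : Squarefree p.1 <;> by_cases c2 : Squarefree p.2 <;>
      by_cases c3 : IsCoprime p.1 p.2 <;> by_cases c4 : IsCoprime p.1 (q * (g * m)) <;>
      by_cases c5 : IsCoprime p.2 (q * (g * m)) <;> by_cases c6 : IsCoprime p.1 ρ1 <;>
      by_cases c7 : IsCoprime p.2 ρ2 <;> simp [c1, c2, c3, c4, c5, c6, c7, h1, h2]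
  rw [eT, eO, eΨ, Weight600.osc_add_right]
  calc _ = Th q (g * m) * (osc t (Real.log (nm m)) * Ψ m) * Th (q * (g * m)) (p.1 * p.2) *
        (fp w X1 F1 y1 t1 (b1 * p.1) * (osc t (Real.log (nm p.1)) * Ψ p.1)) *
        (fp w X2 F2 y2 t2 (b2 * p.2) * (osc t (Real.log (nm p.2)) * Ψ p.2)) := by ring
    _ = Th q (g * m) * (osc t (Real.log (nm m)) * Ψ m) * (X1 b1 * osc t (y1 - Real.log (nm b1))) *
        (X2 b2 * osc t (y2 - Real.log (nm b2))) * (Th (q * (g * m)) (p.1 * p.2) *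
          (prin0 ρ1 p.1 * F1 (b1 * p.1)) * (prin0 ρ2 p.2 * F2 (b2 * p.2))) *
        Hk w (y1 - Real.log (nm b1)) (t1 + t) p.1 * Hk w (y2 - Real.log (nm b2)) (t2 + t) p.2 := by
        rw [ef1, ef2]; ring
    _ = _ := by rw [eS]; ring

end Crest.Agent.R017.ExD791
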