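import Crest.Agent.R017.ExD4_791

/-!
# Row 17, exceptional class: principal values of shape differences (5) (helper791)

`exd_gen` : general form.
-/

set_option autoImplicit false

noncomputable section

open Complex MeasureTheory Filter Topology
open scoped ContDiff

namespace Crest.Agent.R017.ExD791

open Crest.Agent.R012 Crest.Agent.R012.Eis Crest.Agent.R012.Po581 Crest.Agent.R012.Gauss880
open Crest.Agent.R012.Weight600 (osc norm_osc)
open Crest.Agent.R012.PSer47 Crest.Agent.R012.Div277 Crest.Agent.R012.Mob705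
open Crest.Agent.R017.End699 Crest.Agent.R017.FE47 Crest.Agent.R017.Two939
open Crest.Agent.R017.TXC791
open Crest.Agent.R017.CM106 (CS TG FS)
open Crest.Agent.R017.TP320 (conv)
open Crest.Agent.R017.HP842 (Th sqc FS_conv)

lemma Fl.mono {T D : ℝ} {r r' : Eis} {F : Eis → ℂ} (h : Fl T D r F) (hr : r ∣ r') :
    Fl T D r' F := by
  obtain ⟨u, h1, h2, h3⟩ := h
  exact ⟨u, h1, h2, fun n hn hs hc => h3 n hn hs (hc.of_isCoprime_of_dvd_right hr)⟩

/-- the saving -/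
def Mn (s : ℝ) (d0 : ℝ) (g : Eis) : ℝ := min 1 ((nm g : ℝ) ^ (1 - s) * Real.exp (-((1 - s) * d0)))

set_option maxHeartbeats 2000000 in
/-- the inner difference -/
theorem inner_le {w : ℝ → ℂ} (hw1 : ContDiff ℝ ∞ w) (hw2 : HasCompactSupport w) {s : ℝ}
    (hs : 1 / 2 < s) (hs1 : s ≤ 1) :
    ∃ C : ℝ, 0 ≤ C ∧ ∀ X1 X2 Ψ : Eis → ℂ, IsChar X1 → IsChar X2 → IsChar Ψ →
      ∀ ρ1 ρ2 : Eis, ρ1 ≠ 0 → ρ2 ≠ 0 → (∀ b, IsPrim b → X1 b * Ψ b = prin0 ρ1 b) →
      (∀ b, IsPrim b → X2 b * Ψ b = prin0 ρ2 b) → ∀ (T D : ℝ) (F1 F2 : Eis → ℂ), 0 ≤ T → 0 ≤ D →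
      Fl T D 1 F1 → Fl T D 1 F2 → ∀ y1 y2 δ t1 t2 d0 : ℝ, d0 ≤ y1 → d0 ≤ y2 → d0 ≤ y1 + δ →
      d0 ≤ y2 - δ → ∀ (q g : Eis), q ≠ 0 → IsPrim g → ∀ (a b m : Eis), a ∈ dvs g → b ∈ dvs a →
      IsPrim m → ∀ t : ℝ,
      ‖(∑' p : Eis × Eis, fp w X1 F1 y1 t1 (b * p.1) * fp w X2 F2 y2 t2 ((a / b) * p.2) *
          (Th q (g * (p.1 * p.2 * m)) * (osc t (Real.log (nm (p.1 * p.2 * m))) *
            Ψ (p.1 * p.2 * m)))) -
        ∑' p : Eis × Eis, fp w X1 F1 (y1 + δ) t1 (b * p.1) *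
          fp w X2 F2 (y2 - δ) t2 ((a / b) * p.2) *
          (Th q (g * (p.1 * p.2 * m)) * (osc t (Real.log (nm (p.1 * p.2 * m))) *
            Ψ (p.1 * p.2 * m)))‖ ≤
        C * (T ^ 2 * D ^ 2) * ((tau q : ℝ) ^ 2 * (tau g : ℝ) ^ 4 * (tau m : ℝ) ^ 2 *
          (tau ρ1 * tau ρ2)) * ((1 + |t1 + t|) * (1 + |t2 + t|)) ^ 3 *
          (Real.exp (y1 + y2) / nm a * Mn s d0 g) := by
  classical
  obtain ⟨C, hC, hb⟩ := PR_sub_le hw1 hw2 hs hs1
  refine ⟨C, hC, ?_⟩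
  intro X1 X2 Ψ hX1 hX2 hΨ ρ1 ρ2 hρ1 hρ2 hp1 hp2 T D F1 F2 hT hD hF1 hF2 y1 y2 δ t1 t2 d0 hy1 hy2
    hy3 hy4 q g hq hg a b m ha hb' hm t
  have hap := isPrim_of_mem_dvs ha
  have had := dvd_of_mem_dvs ha
  have hbp := isPrim_of_mem_dvs hb'
  have hbd := dvd_of_mem_dvs hb'
  have hcp : IsPrim (a / b) := TP320.quot_prim hap hb'
  have hab : b * (a / b) = a := TP320.mul_div_of_mem hb'
  have hcd : (a / b) ∣ a := ⟨b, by rw [mul_comm]; exact hab.symm⟩
  rw [inner_eq hX1 hX2 hΨ hp1 hp2 F1 F2 hbp hcp hm, inner_eq hX1 hX2 hΨ hp1 hp2 F1 F2 hbp hcp hm]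
  set x1 := y1 - Real.log (nm b) with hx1
  set x2 := y2 - Real.log (nm (a / b)) with hx2
  have e1 : y1 + δ - Real.log (nm b) = x1 + δ := by rw [hx1]; ring
  have e2 : y2 - δ - Real.log (nm (a / b)) = x2 - δ := by rw [hx2]; ring
  rw [e1, e2]
  have e3 : x1 + δ + (x2 - δ) = x1 + x2 := by ring
  rw [e3, ← mul_sub, norm_mul]
  set cst := Th q (g * m) * (osc t (Real.log (nm m)) * Ψ m) * (X1 b * X2 (a / b)) * osc t (x1 + x2)
    with hcst
  have hc1 : ‖cst‖ ≤ 1 := by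
    rw [hcst, norm_mul, norm_mul, norm_mul, norm_mul, norm_mul, norm_osc, norm_osc, one_mul, mul_one]
    calc ‖Th q (g * m)‖ * ‖Ψ m‖ * (‖X1 b‖ * ‖X2 (a / b)‖) ≤ 1 * 1 * (1 * 1) := by
          gcongr
          · exact norm_Th_le _ _
          · exact hΨ.norm_le hm
          · exact hX1.norm_le hbp
          · exact hX2.norm_le hcp
      _ = 1 := by ring
  set RHS := C * (T ^ 2 * D ^ 2) * ((tau q : ℝ) ^ 2 * (tau g : ℝ) ^ 4 * (tau m : ℝ) ^ 2 *
          (tau ρ1 * tau ρ2)) * ((1 + |t1 + t|) * (1 + |t2 + t|)) ^ 3 *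
          (Real.exp (y1 + y2) / nm a * Mn s d0 g) with hRHS
  have hMn0 : 0 ≤ Mn s d0 g := by unfold Mn; positivity
  have hRHS0 : 0 ≤ RHS := by positivity
  by_cases hTh : Th q (g * m) = 0
  · have : cst = 0 := by rw [hcst, hTh]; ring
    rw [this, norm_zero, zero_mul]; exact hRHS0
  · obtain ⟨hsq, hcq⟩ := Th_ne hTh
    have hsg : Squarefree g := hsq.squarefree_of_dvd (dvd_mul_right g m)
    have hsa : Squarefree a := hsg.squarefree_of_dvd had
    have hsb : Squarefree b := hsa.squarefree_of_dvd hbd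
    have hsc : Squarefree (a / b) := hsa.squarefree_of_dvd hcd
    have hbg : b ∣ g := hbd.trans had
    have hcg : (a / b) ∣ g := hcd.trans had
    have hr1 : q * (g * m) * ρ1 ≠ 0 :=
      mul_ne_zero (mul_ne_zero hq (mul_ne_zero hg.ne_zero hm.ne_zero)) hρ1
    have hr2 : q * (g * m) * ρ2 ≠ 0 :=
      mul_ne_zero (mul_ne_zero hq (mul_ne_zero hg.ne_zero hm.ne_zero)) hρ2
    have gd1 : g ∣ q * (g * m) * ρ1 := ⟨q * m * ρ1, by ring⟩
    have gd2 : g ∣ q * (g * m) * ρ2 := ⟨q * m * ρ2, by ring⟩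
    have G1 : Fl (T * tau b) D (q * (g * m) * ρ1) (fun n => F1 (b * n)) :=
      (Fl_sub hF1 hbp hsb isCoprime_one_right).mono (by rw [one_mul]; exact hbg.trans gd1)
    have G2 : Fl (T * tau (a / b)) D (q * (g * m) * ρ2) (fun n => F2 ((a / b) * n)) :=
      (Fl_sub hF2 hcp hsc isCoprime_one_right).mono (by rw [one_mul]; exact hcg.trans gd2)
    obtain ⟨i1, i2⟩ := hb (T * tau b) (T * tau (a / b)) D _ _ _ _ (by positivity) (by positivity) hD
      hr1 hr2 G1 G2 x1 x2 δ (t1 + t) (t2 + t)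
    -- sizes
    have hg0 := hg.ne_zero
    have tb : (tau b : ℝ) ≤ tau g := by exact_mod_cast tau_le_of_dvd hg0 hbg
    have tc : (tau (a / b) : ℝ) ≤ tau g := by exact_mod_cast tau_le_of_dvd hg0 hcg
    have hτ : ∀ ρ : Eis, (tau (q * (g * m) * ρ) : ℝ) ≤ tau q * (tau g * tau m) * tau ρ := by
      intro ρ
      have k1 : (tau (q * (g * m) * ρ) : ℝ) ≤ tau (q * (g * m)) * tau ρ := by
        exact_mod_cast tau_mul_le _ _
      have k2 : (tau (q * (g * m)) : ℝ) ≤ tau q * tau (g * m) := by exact_mod_cast tau_mul_le _ _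
      have k3 : (tau (g * m) : ℝ) ≤ tau g * tau m := by exact_mod_cast tau_mul_le _ _
      calc (tau (q * (g * m) * ρ) : ℝ) ≤ tau (q * (g * m)) * tau ρ := k1
        _ ≤ (tau q * tau (g * m)) * tau ρ := by gcongr
        _ ≤ _ := by gcongr
    have h1τ : ∀ x : Eis, x ≠ 0 → (1 : ℝ) ≤ tau x := fun x hx => by exact_mod_cast one_le_tau hx
    have hTT1 : 1 ≤ ((1 + |t1 + t|) * (1 + |t2 + t|)) ^ 3 :=
      one_le_pow₀ (one_le_mul_of_one_le_of_one_le (by linarith [abs_nonneg (t1 + t)])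
        (by linarith [abs_nonneg (t2 + t)]))
    set TT := ((1 + |t1 + t|) * (1 + |t2 + t|)) ^ 3 with hTT
    have hexp : Real.exp (x1 + x2) = Real.exp (y1 + y2) / nm a := by
      have : x1 + x2 = y1 + y2 - Real.log (nm a) := by
        rw [hx1, hx2]
        conv_rhs => rw [← hab, log_nm_mul hbp hcp]
        ring
      rw [this, exp_sub_log hap]
    rw [hexp] at i1 i2
    set E := Real.exp (y1 + y2) / nm a with hE
    have hE0 : 0 ≤ E := by positivity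
    have hng1 : (1 : ℝ) ≤ nm g := one_le_nm hg
    -- trivial version
    have B0 : C * (T * tau b * (T * tau (a / b))) * D ^ 2 * E ≤
        C * (T ^ 2 * D ^ 2) * ((tau q : ℝ) ^ 2 * (tau g : ℝ) ^ 4 * (tau m : ℝ) ^ 2 *
          (tau ρ1 * tau ρ2)) * TT * (E * 1) := by
      have k1 : (tau b : ℝ) * tau (a / b) ≤ (tau q : ℝ) ^ 2 * (tau g : ℝ) ^ 4 * (tau m : ℝ) ^ 2 *
          (tau ρ1 * tau ρ2) * TT := by
        have l1 : (1 : ℝ) ≤ (tau q : ℝ) ^ 2 := one_le_pow₀ (h1τ q hq)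
        have l2 : (1 : ℝ) ≤ (tau m : ℝ) ^ 2 := one_le_pow₀ (h1τ m hm.ne_zero)
        have l3 : (1 : ℝ) ≤ tau ρ1 * tau ρ2 :=
          one_le_mul_of_one_le_of_one_le (h1τ _ hρ1) (h1τ _ hρ2)
        have l4 : (1 : ℝ) ≤ (tau g : ℝ) ^ 2 := one_le_pow₀ (h1τ g hg0)
        calc (tau b : ℝ) * tau (a / b) ≤ tau g * tau g := by gcongr
          _ = 1 * (tau g ^ 2 * 1) * 1 * 1 * 1 := by ring
          _ ≤ (tau q : ℝ) ^ 2 * ((tau g : ℝ) ^ 2 * (tau g : ℝ) ^ 2) * (tau m : ℝ) ^ 2 *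
              (tau ρ1 * tau ρ2) * TT := by gcongr
          _ = _ := by ring
      calc C * (T * tau b * (T * tau (a / b))) * D ^ 2 * E =
            (C * (T ^ 2 * D ^ 2) * E) * (tau b * tau (a / b)) := by ring
        _ ≤ (C * (T ^ 2 * D ^ 2) * E) * ((tau q : ℝ) ^ 2 * (tau g : ℝ) ^ 4 * (tau m : ℝ) ^ 2 *
          (tau ρ1 * tau ρ2) * TT) := by gcongr
        _ = _ := by ring
    have fin0 : ‖cst‖ * ‖PR w (fun n => F1 (b * n)) (fun n => F2 (a / b * n)) (q * (g * m) * ρ1)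
          (q * (g * m) * ρ2) x1 x2 (t1 + t) (t2 + t) -
        PR w (fun n => F1 (b * n)) (fun n => F2 (a / b * n)) (q * (g * m) * ρ1)
          (q * (g * m) * ρ2) (x1 + δ) (x2 - δ) (t1 + t) (t2 + t)‖ ≤
        ‖PR w (fun n => F1 (b * n)) (fun n => F2 (a / b * n)) (q * (g * m) * ρ1)
          (q * (g * m) * ρ2) x1 x2 (t1 + t) (t2 + t) -
        PR w (fun n => F1 (b * n)) (fun n => F2 (a / b * n)) (q * (g * m) * ρ1)
          (q * (g * m) * ρ2) (x1 + δ) (x2 - δ) (t1 + t) (t2 + t)‖ :=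
      mul_le_of_le_one_left (norm_nonneg _) hc1
    refine fin0.trans ?_
    have hMnE : Mn s d0 g = min 1 (Real.exp (-((1 - s) * (d0 - Real.log (nm g))))) := by
      unfold Mn
      congr 1
      rw [Real.rpow_def_of_pos (by linarith), ← Real.exp_add]
      congr 1; ring
    rcases le_total 0 (d0 - Real.log (nm g)) with hd | hd
    · have hM2 : Mn s d0 g = Real.exp (-((1 - s) * (d0 - Real.log (nm g)))) := by
        rw [hMnE, min_eq_right]
        rw [Real.exp_le_one_iff]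
        have : 0 ≤ (1 - s) * (d0 - Real.log (nm g)) := mul_nonneg (by linarith) hd
        linarith
      have lb : Real.log (nm b) ≤ Real.log (nm g) :=
        Real.log_le_log (by linarith [one_le_nm hbp]) (by exact_mod_cast nm_le_of_dvd hg0 hbg)
      have lc : Real.log (nm (a / b)) ≤ Real.log (nm g) :=
        Real.log_le_log (by linarith [one_le_nm hcp]) (by exact_mod_cast nm_le_of_dvd hg0 hcg)
      have i3 := i2 (d0 - Real.log (nm g)) hd (by rw [hx1]; linarith) (by rw [hx2]; linarith)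
        (by rw [hx1]; linarith) (by rw [hx2]; linarith)
      refine i3.trans ?_
      rw [hRHS, hM2]
      calc C * (T * tau b * (T * tau (a / b))) * D ^ 2 *
            (tau (q * (g * m) * ρ1) * tau (q * (g * m) * ρ2)) * TT *
            (E * Real.exp (-((1 - s) * (d0 - Real.log (nm g)))))
          ≤ C * (T * tau g * (T * tau g)) * D ^ 2 *
            ((tau q * (tau g * tau m) * tau ρ1) * (tau q * (tau g * tau m) * tau ρ2)) * TT *
            (E * Real.exp (-((1 - s) * (d0 - Real.log (nm g))))) := by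
            gcongr
            · exact hτ ρ1
            · exact hτ ρ2
        _ = _ := by ring
    · have hM2 : Mn s d0 g = 1 := by
        rw [hMnE, min_eq_left]
        rw [Real.one_le_exp_iff]
        have : 0 ≤ (1 - s) * -(d0 - Real.log (nm g)) := mul_nonneg (by linarith) (by linarith)
        linarith
      refine i1.trans (B0.trans (le_of_eq ?_))
      rw [hRHS, hM2]

set_option maxHeartbeats 1000000 in
/-- **principal values of shape differences, general form** -/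
theorem exd_gen {w : ℝ → ℂ} (hw1 : ContDiff ℝ ∞ w) (hw2 : HasCompactSupport w) {s : ℝ}
    (hs : 1 / 2 < s) (hs1 : s ≤ 1) :
    ∃ C : ℝ, 0 ≤ C ∧ ∀ X1 X2 Ψ : Eis → ℂ, IsChar X1 → IsChar X2 → IsChar Ψ →
      ∀ ρ1 ρ2 : Eis, ρ1 ≠ 0 → ρ2 ≠ 0 → (∀ b, IsPrim b → X1 b * Ψ b = prin0 ρ1 b) →
      (∀ b, IsPrim b → X2 b * Ψ b = prin0 ρ2 b) → ∀ (T D : ℝ) (F1 F2 : Eis → ℂ), 0 ≤ T → 0 ≤ D →
      Fl T D 1 F1 → Fl T D 1 F2 → ∀ y1 y2 δ t1 t2 d0 : ℝ, d0 ≤ y1 → d0 ≤ y2 → d0 ≤ y1 + δ →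
      d0 ≤ y2 - δ → ∀ v : Eis → ℂ, FS v → ∀ (q g : Eis), q ≠ 0 → IsPrim g → ∀ V : ℝ,
      (∀ a, IsPrim a → a ∣ g → ∑' m : Eis, ‖v (a * m)‖ * (tau m : ℝ) ^ 2 ≤ V / nm a) → ∀ t : ℝ,
      ‖∑' n : Eis, sqc q (conv (fun n => conv (fp w X1 F1 y1 t1) (fp w X2 F2 y2 t2) n -
          conv (fp w X1 F1 (y1 + δ) t1) (fp w X2 F2 (y2 - δ) t2) n) v) (g * n) *
          (osc t (Real.log (nm n)) * Ψ n)‖ ≤
        C * (T ^ 2 * D ^ 2) * ((tau q : ℝ) ^ 2 * (tau g : ℝ) ^ 6 * (tau ρ1 * tau ρ2)) *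
          ((1 + |t1 + t|) * (1 + |t2 + t|)) ^ 3 *
          ((Real.exp (y1 + y2) * V / nm g) * Mn s d0 g) := by
  classical
  obtain ⟨C, hC, hb⟩ := inner_le hw1 hw2 hs hs1
  refine ⟨C, hC, ?_⟩
  intro X1 X2 Ψ hX1 hX2 hΨ ρ1 ρ2 hρ1 hρ2 hp1 hp2 T D F1 F2 hT hD hF1 hF2 y1 y2 δ t1 t2 d0 hy1 hy2
    hy3 hy4 v hv q g hq hg V hV t
  have hMn0 : 0 ≤ Mn s d0 g := by unfold Mn; positivity
  set TT := ((1 + |t1 + t|) * (1 + |t2 + t|)) ^ 3 with hTT
  have hTT0 : 0 ≤ TT := by positivity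
  rw [main_id (FS_fp hw2 X1 F1 y1 t1) (FS_fp hw2 X2 F2 y2 t2) (FS_fp hw2 X1 F1 (y1 + δ) t1)
    (FS_fp hw2 X2 F2 (y2 - δ) t2) hv hg (fun n => osc t (Real.log (nm n)) * Ψ n)]
  set K := C * (T ^ 2 * D ^ 2) * ((tau q : ℝ) ^ 2 * (tau g : ℝ) ^ 4 * (tau ρ1 * tau ρ2)) * TT *
    Mn s d0 g with hK
  have hK0 : 0 ≤ K := by positivity
  have hng : (0 : ℝ) < nm g := by linarith [one_le_nm hg]
  -- for one `a`
  have one : ∀ a ∈ dvs g, ‖∑' m : Eis, v ((g / a) * m) * ∑ b ∈ dvs a,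
        ((∑' p : Eis × Eis, fp w X1 F1 y1 t1 (b * p.1) * fp w X2 F2 y2 t2 ((a / b) * p.2) *
            (Th q (g * (p.1 * p.2 * m)) * (osc t (Real.log (nm (p.1 * p.2 * m))) *
              Ψ (p.1 * p.2 * m)))) -
          ∑' p : Eis × Eis, fp w X1 F1 (y1 + δ) t1 (b * p.1) *
            fp w X2 F2 (y2 - δ) t2 ((a / b) * p.2) *
            (Th q (g * (p.1 * p.2 * m)) * (osc t (Real.log (nm (p.1 * p.2 * m))) *
              Ψ (p.1 * p.2 * m))))‖ ≤ tau g * K * (Real.exp (y1 + y2) * V / nm g) := by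
    intro a ha
    have hap := isPrim_of_mem_dvs ha
    have had := dvd_of_mem_dvs ha
    have hga : IsPrim (g / a) := TP320.quot_prim hg ha
    have hgm : a * (g / a) = g := TP320.mul_div_of_mem ha
    have hna : (0 : ℝ) < nm a := by linarith [one_le_nm hap]
    have hnga : (0 : ℝ) < nm (g / a) := by linarith [one_le_nm hga]
    have hfin : Summable fun m : Eis => ‖v ((g / a) * m)‖ * (tau m : ℝ) ^ 2 := by
      refine summable_of_ne_finset_zero (s := (FS.subm hv hga).fin.toFinset) fun m hm => ?_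
      have : v ((g / a) * m) = 0 := by
        by_contra h0
        exact hm ((FS.subm hv hga).fin.mem_toFinset.2 h0)
      rw [this, norm_zero, zero_mul]
    have hsV := hV (g / a) hga ⟨a, by rw [mul_comm]; exact hgm.symm⟩
    have hbd : ∀ m : Eis, ‖v ((g / a) * m) * ∑ b ∈ dvs a,
        ((∑' p : Eis × Eis, fp w X1 F1 y1 t1 (b * p.1) * fp w X2 F2 y2 t2 ((a / b) * p.2) *
            (Th q (g * (p.1 * p.2 * m)) * (osc t (Real.log (nm (p.1 * p.2 * m))) *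
              Ψ (p.1 * p.2 * m)))) -
          ∑' p : Eis × Eis, fp w X1 F1 (y1 + δ) t1 (b * p.1) *
            fp w X2 F2 (y2 - δ) t2 ((a / b) * p.2) *
            (Th q (g * (p.1 * p.2 * m)) * (osc t (Real.log (nm (p.1 * p.2 * m))) *
              Ψ (p.1 * p.2 * m))))‖ ≤
        (tau g * K * (Real.exp (y1 + y2) / nm a)) * (‖v ((g / a) * m)‖ * (tau m : ℝ) ^ 2) := by
      intro m
      rw [norm_mul]
      by_cases hv0 : v ((g / a) * m) = 0
      · rw [hv0]; simp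
      have hm : IsPrim m := (FS.subm hv hga).prim m hv0
      calc ‖v ((g / a) * m)‖ * _ ≤ ‖v ((g / a) * m)‖ * (∑ _b ∈ dvs a,
            C * (T ^ 2 * D ^ 2) * ((tau q : ℝ) ^ 2 * (tau g : ℝ) ^ 4 * (tau m : ℝ) ^ 2 *
              (tau ρ1 * tau ρ2)) * TT * (Real.exp (y1 + y2) / nm a * Mn s d0 g)) := by
            gcongr
            refine (norm_sum_le _ _).trans (Finset.sum_le_sum fun b hb' => ?_)
            exact hb X1 X2 Ψ hX1 hX2 hΨ ρ1 ρ2 hρ1 hρ2 hp1 hp2 T D F1 F2 hT hD hF1 hF2 y1 y2 δ t1 t2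
              d0 hy1 hy2 hy3 hy4 q g hq hg a b m ha hb' hm t
        _ = (tau a * K * (Real.exp (y1 + y2) / nm a)) *
            (‖v ((g / a) * m)‖ * (tau m : ℝ) ^ 2) := by
            rw [Finset.sum_const, nsmul_eq_mul, hK]
            have : (((dvs a).card : ℕ) : ℝ) = tau a := rfl
            rw [this]; ring
        _ ≤ _ := by
            gcongr
            exact_mod_cast tau_le_of_dvd hg.ne_zero had
    refine (tsum_of_norm_bounded (hfin.mul_left _).hasSum hbd).trans ?_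
    rw [tsum_mul_left]
    calc (tau g * K * (Real.exp (y1 + y2) / nm a)) *
          ∑' m : Eis, ‖v ((g / a) * m)‖ * (tau m : ℝ) ^ 2
        ≤ (tau g * K * (Real.exp (y1 + y2) / nm a)) * (V / nm (g / a)) := by gcongr
      _ = _ := by
          have : (nm g : ℝ) = nm a * nm (g / a) := by
            rw [← Nat.cast_mul, ← nm_mul, hgm]
          rw [this]
          field_simp
  calc _ ≤ ∑ a ∈ dvs g, tau g * K * (Real.exp (y1 + y2) * V / nm g) :=
        (norm_sum_le _ _).trans (Finset.sum_le_sum one)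
    _ = tau g * (tau g * K * (Real.exp (y1 + y2) * V / nm g)) := by
        rw [Finset.sum_const, nsmul_eq_mul]; rfl
    _ = _ := by rw [hK]; ring

end Crest.Agent.R017.ExD791
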