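import Crest.Agent.R017.Leg_381
import Crest.Agent.R017.Rough2_381

/-!
# Row 17, RG3 (helper381): flagged pieces, splitting of natural pieces

* `fpc z D0 h P f` : the piece `P`, times `natw z D0` if the flag `f` is `true`
* `TG_leg` : exact splitting of the natural pieces of a family
* `leg_split` : **analytic splitting**: children = (flag `true`, smooth part `≤ D0`) or
  (flag `false`, smooth part `> D0`)
-/

set_option autoImplicit false
set_option linter.unusedSectionVars false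
set_option linter.unusedVariables false

noncomputable section

open Complex
open scoped ComplexConjugate

namespace Crest.Agent.R017.Leg381

open Crest.Agent.R012 Crest.Agent.R012.Eis Crest.Agent.R012.LS2 Crest.Agent.R012.Gauss880
open Crest.Agent.R012.Mob705
open Crest.Agent.R012.Div277 (tau dvs mem_dvs isPrim_of_mem_dvs dvd_of_mem_dvs tau_le_rpow)
open Crest.Agent.R017.CM106 Crest.Agent.R017.HP842 Crest.Agent.R017.FE47
open Crest.Agent.R017.End699 Crest.Agent.R017.XC858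
open Crest.Agent.R017.HSep813 (gw norm_gw_le MF sep_list)
open Crest.Agent.R017.Prov71 (CubeFree)
open Crest.Agent.R017.TP320 (mul_div_of_mem mul_div_left')
open Crest.Agent.R017.Rough381

lemma nm_le_of_dvd' {d n : Eis} (hn : n ≠ 0) (h : d ∣ n) : nm d ≤ nm n := by
  obtain ⟨c, rfl⟩ := h
  rw [nm_mul]
  exact Nat.le_mul_of_pos_right _ (nm_pos.2 (right_ne_zero_of_mul hn))

/-- the weight of a flag -/
def fw (z D0 : ℝ) (f : Bool) (n : Eis) : ℂ := if f = true then natw z D0 n else 1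

/-- a flagged piece -/
def fpc (z D0 : ℝ) (h : ℝ → ℝ) (P : Pc) (f : Bool) (n : Eis) : ℂ := pc h P n * fw z D0 f n

open Classical in
/-- the flag of the cofactor -/
def nf (D0 : ℝ) (f : Bool) (x : Eis) : Bool := f || decide ((nm x : ℝ) ≤ D0)

open Classical in
/-- the coefficient of the part which is taken out -/
def cg (z D0 : ℝ) (f : Bool) (x : Eis) : ℂ :=
  if f = true then (if x = 1 then 1 else 0) else cf z D0 x

lemma norm_cg_le (z D0 : ℝ) (f : Bool) {x : Eis} (hx : x ≠ 0) : ‖cg z D0 f x‖ ≤ tau x := by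
  unfold cg
  split_ifs
  · rw [norm_one]; exact one_le_tau hx
  · rw [norm_zero]; exact Nat.cast_nonneg _
  · exact norm_cf_le z D0 hx

lemma cg_small {z D0 : ℝ} (hD : 1 ≤ D0) {f : Bool} {x : Eis} (hx : IsPrim x)
    (h : cg z D0 f x ≠ 0) : (nm x : ℝ) ≤ D0 * D0 := by
  by_contra hcon
  rw [not_le] at hcon
  have hD2 : 1 ≤ D0 * D0 := by nlinarith
  have h1 : x ≠ 1 := by
    rintro rfl
    rw [nm_one, Nat.cast_one] at hcon
    linarith
  apply h
  unfold cg cf
  split_ifs with h2 h3 h4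
  · rfl
  · exfalso; nlinarith
  · exact ct_eq_zero_large hx hcon h1
  · rfl

lemma cg_eq_zero {z D0 : ℝ} {f : Bool} {x : Eis} (h : ¬ Sm z x) : cg z D0 f x = 0 := by
  unfold cg
  split_ifs with h1 h2
  · exfalso; apply h; rw [h2]; exact Sm_one z
  · rfl
  · unfold cf; rw [if_neg h]

/-- the identity for one entry -/
lemma fw_eq {z D0 : ℝ} {f : Bool} {n : Eis} (hn : IsPrim n) :
    fw z D0 f n = ∑ x ∈ dvs n, cg z D0 f x * fw z D0 (nf D0 f x) (n / x) := by
  classical
  cases f with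
  | true =>
    have h1 : (1 : Eis) ∈ dvs n := (mem_dvs hn.ne_zero).2 ⟨isPrim_one, one_dvd n⟩
    rw [Finset.sum_eq_single 1]
    · unfold cg nf fw
      simp only [if_true, Bool.true_or, one_mul]
      have : n / 1 = n := by
        have := mul_div_of_mem h1
        rwa [one_mul] at this
      rw [this]
    · intro x _ hx
      unfold cg
      rw [if_pos rfl, if_neg hx, zero_mul]
    · intro h; exact absurd h1 h
  | false =>
    have h := leg_one (z := z) (D0 := D0) hn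
    have e : fw z D0 false n = 1 := by unfold fw; simp
    rw [e, ← h]
    refine Finset.sum_congr rfl fun x _ => ?_
    unfold cg nf fw wx
    simp only [Bool.false_or, decide_eq_true_eq, Bool.false_eq_true, if_false]

variable {ι : Type} [Fintype ι] [DecidableEq ι]

/-- the sequence of a flagged family -/
def alf (z D0 : ℝ) (h : ℝ → ℝ) (s : ι → Pc) (f : ι → Bool) : Eis → ℂ :=
  cv fun i => fpc z D0 h (s i) (f i)

lemma Bd_fpc {h : ℝ → ℝ} {R : ℝ} (hR : ∀ u, cx h u ≠ 0 → |u| ≤ R) {s : ι → Pc}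
    (hs : ∀ i, 0 < (s i).Y) {X : ℕ} (hX : ∀ i, (s i).Y * Real.exp R ≤ X) (z D0 : ℝ)
    (f : ι → Bool) : Bd X (fun i => fpc z D0 h (s i) (f i)) := by
  intro i b hb
  exact Bd_pc hR (hs i) (hX i) (left_ne_zero_of_mul hb)

/-- **exact splitting of the natural pieces** -/
theorem TG_leg {h : ℝ → ℝ} {R : ℝ} (hR : ∀ u, cx h u ≠ 0 → |u| ≤ R) {s : ι → Pc}
    (hs : ∀ i, (s i).OK) {X : ℕ} (hX : ∀ i, (s i).Y * Real.exp R ≤ X) (z D0 : ℝ) (f : ι → Bool)
    (q l : Eis) :
    TG (sqc q (alf z D0 h s f)) l =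
      ∑ x ∈ smT ι X z, Th q (∏ i, x i) * (G (∏ i, x i) * conj (sy l (∏ i, x i))) *
        scS s x * (∏ i, cg z D0 (f i) (x i)) *
        TG (sqc q (alf z D0 h (shS s x) (fun i => nf D0 (f i) (x i)))) (l * ∏ i, x i) := by
  classical
  set A := Fintype.piFinset (fun _ : ι => primBall X) with hA
  have hbd := Bd_fpc hR (fun i => (hs i).Y0) hX z D0 f
  set F : Eis → Eis → ℂ := fun l n => Th q n * (G n * conj (sy l n)) with hF
  unfold alf
  rw [TG_sqc_eq, sum_cv hbd (F l)]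
  -- the full sum over all primary tuples
  have hall : ∑ x ∈ smT ι X z, Th q (∏ i, x i) * (G (∏ i, x i) * conj (sy l (∏ i, x i))) *
        scS s x * (∏ i, cg z D0 (f i) (x i)) *
        TG (sqc q (cv fun i => fpc z D0 h (shS s x i) (nf D0 (f i) (x i)))) (l * ∏ i, x i) =
      ∑ x ∈ A, ∑ y ∈ A, (∏ i, (cg z D0 (f i) (x i) * fw z D0 (nf D0 (f i) (x i)) (y i) *
        pc h (s i) (x i * y i))) * F l (∏ i, x i * y i) := by
    have hsub : smT ι X z ⊆ A := by
      unfold smT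
      exact Finset.filter_subset _ _
    have hz : ∀ x ∈ A, x ∉ smT ι X z → (∑ y ∈ A, (∏ i, (cg z D0 (f i) (x i) *
        fw z D0 (nf D0 (f i) (x i)) (y i) * pc h (s i) (x i * y i))) *
        F l (∏ i, x i * y i)) = 0 := by
      intro x hx hx'
      have : ∃ i, ¬ Sm z (x i) := by
        by_contra hcon
        push Not at hcon
        apply hx'
        unfold smT
        rw [Finset.mem_filter]
        exact ⟨hx, hcon⟩
      obtain ⟨i, hi⟩ := this
      refine Finset.sum_eq_zero fun y _ => ?_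
      rw [Finset.prod_eq_zero (Finset.mem_univ i), zero_mul]
      rw [cg_eq_zero hi]; ring
    rw [← Finset.sum_subset hsub hz]
    refine Finset.sum_congr rfl fun x hx => ?_
    rw [mem_smT] at hx
    have hxp : ∀ i, IsPrim (x i) := fun i => (hx i).1.2
    have hbd' : Bd X (fun i => fpc z D0 h (shS s x i) (nf D0 (f i) (x i))) := by
      refine Bd_fpc hR (fun i => (sh_OK (hs i) (hxp i)).Y0) (fun i => ?_) z D0 _
      exact (mul_le_mul_of_nonneg_right (sh_Y_le (hs i).Y0 (hxp i)) (Real.exp_pos _).le).trans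
        (hX i)
    rw [TG_sqc_eq, sum_cv hbd' (F (l * ∏ i, x i)), Finset.mul_sum]
    refine Finset.sum_congr rfl fun y hy => ?_
    rw [hA, Fintype.mem_piFinset] at hy
    have hyp : ∀ i, IsPrim (y i) := fun i => (mem_primBall.1 (hy i)).2
    have e2 : ∏ i, x i * y i = (∏ i, x i) * ∏ i, y i := Finset.prod_mul_distrib
    have e3 : F l (∏ i, x i * y i) = F l (∏ i, x i) * F (l * ∏ i, x i) (∏ i, y i) := by
      rw [e2]
      exact Th_Kg_mul q l (isPrim_prod hxp) (isPrim_prod hyp)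
    rw [e3]
    by_cases hc : IsCoprime (∏ i, x i) (∏ i, y i)
    · have hci : ∀ i, IsCoprime (x i) (y i) := fun i =>
        (hc.of_isCoprime_of_dvd_left (Finset.dvd_prod_of_mem _ (Finset.mem_univ i))
          ).of_isCoprime_of_dvd_right (Finset.dvd_prod_of_mem _ (Finset.mem_univ i))
      have e4 : ∏ i, (cg z D0 (f i) (x i) * fw z D0 (nf D0 (f i) (x i)) (y i) *
          pc h (s i) (x i * y i)) = scS s x * (∏ i, cg z D0 (f i) (x i)) *
          ∏ i, fpc z D0 h (shS s x i) (nf D0 (f i) (x i)) (y i) := by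
        unfold scS
        rw [← Finset.prod_mul_distrib, ← Finset.prod_mul_distrib]
        refine Finset.prod_congr rfl fun i _ => ?_
        rw [pc_mul h (hs i).ch (hs i).Y0 (hxp i), pc_sub_rough (s i) (hci i)]
        unfold fpc shS
        ring
      rw [e4, hF]
      ring
    · have h2 : F (l * ∏ i, x i) (∏ i, y i) = 0 := by
        have : sy (l * ∏ i, x i) (∏ i, y i) = 0 := by
          refine (syG.eq_zero _ _ (isPrim_prod hyp)).2 fun h' => hc ?_
          exact h'.of_mul_left_right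
        rw [hF]
        show Th q (∏ i, y i) * (G (∏ i, y i) * conj (sy (l * ∏ i, x i) (∏ i, y i))) = 0
        rw [this]; simp
      rw [h2]; ring
  rw [hall]
  -- the left side
  have hlhs : ∀ b ∈ A, (∏ i, fpc z D0 h (s i) (f i) (b i)) * F l (∏ i, b i) =
      ∑ x ∈ Fintype.piFinset (fun i => dvs (b i)), (∏ i, (cg z D0 (f i) (x i) *
        fw z D0 (nf D0 (f i) (x i)) (b i / x i) * pc h (s i) (x i * (b i / x i)))) *
        F l (∏ i, x i * (b i / x i)) := by
    intro b hb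
    rw [hA, Fintype.mem_piFinset] at hb
    have hbp : ∀ i, IsPrim (b i) := fun i => (mem_primBall.1 (hb i)).2
    have e1 : ∀ i, fpc z D0 h (s i) (f i) (b i) = ∑ x ∈ dvs (b i),
        cg z D0 (f i) x * fw z D0 (nf D0 (f i) x) (b i / x) * pc h (s i) (b i) := by
      intro i
      unfold fpc
      rw [fw_eq (hbp i), Finset.mul_sum]
      exact Finset.sum_congr rfl fun x _ => by ring
    rw [Finset.prod_congr rfl fun i _ => e1 i, Finset.prod_univ_sum, Finset.sum_mul]
    refine Finset.sum_congr rfl fun x hx => ?_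
    rw [Fintype.mem_piFinset] at hx
    have e5 : ∀ i, x i * (b i / x i) = b i := fun i => mul_div_of_mem (hx i)
    simp only [e5]
  rw [Finset.sum_congr rfl hlhs, ← Finset.sum_product', Finset.sum_sigma']
  symm
  refine Finset.sum_bij_ne_zero (fun p _ _ => ⟨fun i => p.1 i * p.2 i, p.1⟩) ?_ ?_ ?_ ?_
  · rintro ⟨x, y⟩ hp hne
    rw [Finset.mem_product, Fintype.mem_piFinset, Fintype.mem_piFinset] at hp
    have hxp : ∀ i, IsPrim (x i) := fun i => (mem_primBall.1 (hp.1 i)).2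
    have hyp : ∀ i, IsPrim (y i) := fun i => (mem_primBall.1 (hp.2 i)).2
    have h1 : ∀ i, pc h (s i) (x i * y i) ≠ 0 := fun i => right_ne_zero_of_mul
      (Finset.prod_ne_zero_iff.1 (left_ne_zero_of_mul hne) i (Finset.mem_univ i))
    rw [Finset.mem_sigma, Fintype.mem_piFinset, Fintype.mem_piFinset]
    refine ⟨fun i => Bd_pc hR (hs i).Y0 (hX i) (h1 i), fun i => ?_⟩
    exact (mem_dvs ((hxp i).mul (hyp i)).ne_zero).2 ⟨hxp i, dvd_mul_right _ _⟩
  · rintro ⟨x, y⟩ hp _ ⟨x', y'⟩ hp' _ e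
    rw [Finset.mem_product, Fintype.mem_piFinset, Fintype.mem_piFinset] at hp hp'
    simp only [Sigma.mk.injEq, heq_eq_eq] at e
    obtain ⟨e1, e2⟩ := e
    have e2' : x = x' := e2
    subst e2'
    have : y = y' := by
      funext i
      have h0 := (mem_primBall.1 (hp.1 i)).2.ne_zero
      have h1 : x i * y i = x i * y' i := congrFun e1 i
      exact mul_left_cancel₀ h0 h1
    rw [this]
  · rintro ⟨b, x⟩ hp hne
    rw [Finset.mem_sigma, Fintype.mem_piFinset, Fintype.mem_piFinset] at hp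
    obtain ⟨hb, hx⟩ := hp
    have hb' : ∀ i, b i ∈ primBall X := hb
    have hx' : ∀ i, x i ∈ dvs (b i) := hx
    have hbp : ∀ i, IsPrim (b i) := fun i => (mem_primBall.1 (hb' i)).2
    have hdiv : ∀ (i : ι) (d : Eis), d ∈ dvs (b i) → d ∈ primBall X := by
      intro i d hd
      rw [mem_primBall]
      refine ⟨?_, isPrim_of_mem_dvs hd⟩
      exact (nm_le_of_dvd' (hbp i).ne_zero (dvd_of_mem_dvs hd)).trans (mem_primBall.1 (hb' i)).1
    have hmul : ∀ i, x i * (b i / x i) = b i := fun i => mul_div_of_mem (hx' i)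
    refine ⟨(x, fun i => b i / x i), ?_, ?_, ?_⟩
    · rw [Finset.mem_product, Fintype.mem_piFinset, Fintype.mem_piFinset]
      exact ⟨fun i => hdiv i _ (hx' i), fun i => hdiv i _ (div_mem_dvs (hbp i) (hx' i))⟩
    · exact hne
    · simp only [hmul]
  · rintro ⟨x, y⟩ hp hne
    rw [Finset.mem_product, Fintype.mem_piFinset, Fintype.mem_piFinset] at hp
    have e : ∀ i, x i * y i / x i = y i := fun i =>
      mul_div_left' (mem_primBall.1 (hp.1 i)).2.ne_zero
    simp only [e]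

open Classical in
/-- the arithmetical coefficient of the flagged sequence -/
def phl (z D0 : ℝ) (s : ι → Pc) (v : ι → UT) (f : ι → Bool) (q j : Eis) (b : ι → Eis) : ℂ :=
  (∏ i, if IsPrim (b i) then uv (v i) (b i) * (s i).ψ (b i) * fw z D0 (f i) (b i) else 0) *
    (Th q (∏ i, b i) * (G (∏ i, b i) * conj (sy j (∏ i, b i))))

lemma MF_phl {h : ℝ → ℝ} {R : ℝ} (hR : ∀ u, cx h u ≠ 0 → |u| ≤ R) (z D0 : ℝ) (s : ι → Pc)
    (v : ι → UT) (f : ι → Bool) (q j : Eis) {X : ℕ} {Y : ι → ℝ} (hY0 : ∀ i, 0 < Y i)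
    (hY : ∀ i, Y i * Real.exp R ≤ X) (t : ι → ℝ) :
    MF h (Fintype.piFinset fun _ : ι => primBall X) (phl z D0 s v f q j) Y t =
      TG (sqc q (alf z D0 h (cellP s v Y t) f)) j := by
  classical
  have hbd : Bd X (fun i => fpc z D0 h (cellP s v Y t i) (f i)) :=
    Bd_fpc hR (s := cellP s v Y t) hY0 hY z D0 f
  unfold alf
  rw [TG_sqc_eq, sum_cv hbd (fun n => Th q n * (G n * conj (sy j n)))]
  unfold MF phl
  refine Finset.sum_congr rfl fun b hb => ?_
  have e : ∀ i, (if IsPrim (b i) then uv (v i) (b i) * (s i).ψ (b i) * fw z D0 (f i) (b i)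
      else 0) * gw h (Y i) (t i) (b i) = fpc z D0 h (cellP s v Y t i) (f i) (b i) := by
    intro i
    unfold fpc pc cellP
    by_cases h1 : IsPrim (b i)
    · rw [if_pos h1, if_pos h1]; ring
    · rw [if_neg h1, if_neg h1]; ring
  rw [← Finset.prod_congr rfl fun i _ => e i, Finset.prod_mul_distrib]
  ring

/-- **one cell**: separation of the lengths and counting -/
theorem cell_bound_f {h : ℝ → ℝ} {c : ℝ} (hpu : PU h c) {R : ℝ} (hR0 : 0 ≤ R)
    (hR : ∀ u, cx h u ≠ 0 → |u| ≤ R) (M : ℝ) : ∃ C : ℝ, 0 ≤ C ∧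
    ∀ (ι : Type) [Fintype ι] [DecidableEq ι] (s : ι → Pc), (∀ i, (s i).OK) →
    ∀ (z D0 : ℝ) (f : ι → Bool) (q : Eis) (L : ℝ), 0 ≤ L →
    ∀ (v : ι → UT) (n : ι → ℕ) (K : Finset (Eis × (ι → Eis))),
    (∀ p ∈ K, p.1 ∈ bl L ∧ CubeFree p.1 ∧ (∀ i, IsPrim (p.2 i)) ∧ Squarefree (∏ i, p.2 i) ∧
      IsCoprime p.1 (∏ i, p.2 i) ∧ ∀ i, |Real.log (nm (p.2 i)) - n i| ≤ 1) →
    ∀ B D : ℝ, 0 ≤ B → 0 ≤ D →
    (∀ j : Eis, j ≠ 0 → (nm j : ℝ) ≤ L * Real.exp (∑ i, ((n i : ℝ) + 1)) →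
      (tau j : ℝ) ^ Fintype.card ι ≤ D) →
    (∀ Y t : ι → ℝ, (∀ i, 1 ≤ Y i ∧ |Real.log (Y i) - (Real.log (s i).Y - n i)| ≤ 2 * R + 1) →
      VF (L * Real.exp (∑ i, ((n i : ℝ) + 1))) (sqc q (alf z D0 h (cellP s v Y t) f)) ≤
        B * ∏ i, (1 + |t i - (s i).t|) ^ M) →
    ∑ p ∈ K, ‖TG (sqc q (alf z D0 h (cellP s v (fun i => (s i).Y / nm (p.2 i))
      (fun i => (s i).t)) f)) (p.1 * ∏ i, p.2 i)‖ ^ 2 ≤ C ^ Fintype.card ι * (D * B) := by
  classical
  obtain ⟨C, hC, H⟩ := sep_list hpu hR0 hR (ρ := 1) zero_le_one M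
  refine ⟨C, hC, ?_⟩
  intro ι _ _ s hs z D0 f q L hL v n K hK B D hB hD hτ hyp
  set Λ := L * Real.exp (∑ i, ((n i : ℝ) + 1)) with hΛ
  have hΛ0 : 0 ≤ Λ := mul_nonneg hL (Real.exp_pos _).le
  -- a common support
  obtain ⟨X, hX⟩ : ∃ X : ℕ, ∀ i, (s i).Y * Real.exp (2 * R + 1) * Real.exp R ≤ X := by
    refine ⟨⌈∑ i, (s i).Y * Real.exp (2 * R + 1) * Real.exp R⌉₊, fun i => ?_⟩
    refine le_trans ?_ (Nat.le_ceil _)
    exact Finset.single_le_sum (f := fun i => (s i).Y * Real.exp (2 * R + 1) * Real.exp R)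
      (fun i _ => by have := (hs i).Y0; positivity) (Finset.mem_univ i)
  have h1R : (1 : ℝ) ≤ Real.exp (2 * R + 1) := Real.one_le_exp (by linarith)
  have hT : ∀ b ∈ Fintype.piFinset (fun _ : ι => primBall X), ∀ i, b i ≠ 0 := by
    intro b hb i
    rw [Fintype.mem_piFinset] at hb
    exact (mem_primBall.1 (hb i)).2.ne_zero
  -- lengths on the grid
  have hYX : ∀ (Y : ι → ℝ), (∀ i, 0 < Y i ∧
      |Real.log (Y i) - (Real.log (s i).Y - n i)| ≤ 2 * R + 1) →
      ∀ i, Y i * Real.exp R ≤ X := by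
    intro Y hY i
    refine le_trans ?_ (hX i)
    refine mul_le_mul_of_nonneg_right ?_ (Real.exp_pos _).le
    obtain ⟨h1, h2⟩ := hY i
    have h3 := (abs_le.1 h2).2
    have h4 : (0 : ℝ) ≤ n i := Nat.cast_nonneg _
    calc Y i = Real.exp (Real.log (Y i)) := (Real.exp_log h1).symm
      _ ≤ Real.exp (Real.log (s i).Y + (2 * R + 1)) := Real.exp_le_exp.2 (by linarith)
      _ = (s i).Y * Real.exp (2 * R + 1) := by rw [Real.exp_add, Real.exp_log (hs i).Y0]
  have key := H ι (Eis × (ι → Eis)) K (Fintype.piFinset fun _ : ι => primBall X) hT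
    (fun p => phl z D0 s v f q (p.1 * ∏ i, p.2 i)) (fun p i => (s i).Y / nm (p.2 i))
    (fun i => Real.log (s i).Y - n i) (fun i => (s i).t) (D * B) (mul_nonneg hD hB)
    (by
      intro p hp i
      obtain ⟨_, _, h3, _, _, h6⟩ := hK p hp
      have h7 : (0 : ℝ) < nm (p.2 i) := by exact_mod_cast nm_pos.2 (h3 i).ne_zero
      show |Real.log ((s i).Y / nm (p.2 i)) - (Real.log (s i).Y - n i)| ≤ 1
      rw [Real.log_div (hs i).Y0.ne' h7.ne']
      have h8 := h6 i
      have h9 : Real.log (s i).Y - Real.log (nm (p.2 i)) - (Real.log (s i).Y - n i) =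
          -(Real.log (nm (p.2 i)) - n i) := by ring
      rw [h9, abs_neg]
      exact h8)
    (by
      intro m τ hm
      have hY : ∀ i, 0 < Real.exp (c * m i) ∧
          |Real.log (Real.exp (c * m i)) - (Real.log (s i).Y - n i)| ≤ 2 * R + 1 := by
        intro i
        refine ⟨Real.exp_pos _, ?_⟩
        rw [Real.log_exp]
        exact hm i
      have e1 : ∀ p ∈ K, ‖MF h (Fintype.piFinset fun _ : ι => primBall X)
          (phl z D0 s v f q (p.1 * ∏ i, p.2 i)) (fun i => Real.exp (c * m i))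
          (fun i => (s i).t + τ i)‖ ^ 2 =
          ‖TG (sqc q (alf z D0 h (cellP s v (fun i => Real.exp (c * m i))
            (fun i => (s i).t + τ i)) f)) (p.1 * ∏ i, p.2 i)‖ ^ 2 := by
        intro p _
        rw [MF_phl hR z D0 s v f q _ (fun i => (hY i).1) (hYX _ hY)]
      rw [Finset.sum_congr rfl e1]
      set w := sqc q (alf z D0 h (cellP s v (fun i => Real.exp (c * m i))
        (fun i => (s i).t + τ i)) f) with hw
      refine (merge_tuple hL (Real.exp_pos (∑ i, ((n i : ℝ) + 1))).le K ?_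
        (fun j => ‖TG w j‖ ^ 2) (fun _ => by positivity)).trans ?_
      · intro p hp
        obtain ⟨h1, h2, h3, h4, h5, h6⟩ := hK p hp
        refine ⟨h1, h3, ?_, cubeFree_mul h2 h4 (isPrim_prod h3).ne_zero h5⟩
        rw [nm_prodI, Real.exp_sum]
        push_cast
        refine Finset.prod_le_prod (fun _ _ => Nat.cast_nonneg _) fun i _ => ?_
        have h7 : (0 : ℝ) < nm (p.2 i) := by exact_mod_cast nm_pos.2 (h3 i).ne_zero
        have h8 := (abs_le.1 (h6 i)).2
        calc (nm (p.2 i) : ℝ) = Real.exp (Real.log (nm (p.2 i))) := (Real.exp_log h7).symm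
          _ ≤ _ := Real.exp_le_exp.2 (by linarith)
      · have h7 : ∑ j ∈ (bl Λ).filter CubeFree, (tau j : ℝ) ^ Fintype.card ι * ‖TG w j‖ ^ 2 ≤
            D * VF Λ w := by
          unfold VF
          rw [Finset.mul_sum]
          refine Finset.sum_le_sum fun j hj => ?_
          have hj' := Finset.mem_filter.1 hj
          have hj2 := (mem_bl hΛ0).1 hj'.1
          exact mul_le_mul_of_nonneg_right (hτ j hj2.1 hj2.2) (by positivity)
        refine h7.trans ?_
        have h8 := hyp (fun i => Real.exp (c * m i)) (fun i => (s i).t + τ i)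
          (fun i => ⟨Real.one_le_exp (mul_nonneg hpu.cpos.le (Nat.cast_nonneg _)), (hY i).2⟩)
        have h9 : ∏ i, (1 + |(s i).t + τ i - (s i).t|) ^ M = ∏ i, (1 + |τ i|) ^ M := by
          refine Finset.prod_congr rfl fun i _ => ?_
          rw [add_sub_cancel_left]
        rw [h9] at h8
        calc D * VF Λ w ≤ D * (B * ∏ i, (1 + |τ i|) ^ M) := mul_le_mul_of_nonneg_left h8 hD
          _ = D * B * ∏ i, (1 + |τ i|) ^ M := by ring)
  refine le_trans (le_of_eq ?_) key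
  refine Finset.sum_congr rfl fun p hp => ?_
  obtain ⟨_, _, h3, _, _, h6⟩ := hK p hp
  rw [MF_phl hR z D0 s v f q _ ?_ ?_]
  · intro i
    have h7 : (0 : ℝ) < nm (p.2 i) := by exact_mod_cast nm_pos.2 (h3 i).ne_zero
    exact div_pos (hs i).Y0 h7
  · intro i
    have h7 : (1 : ℝ) ≤ nm (p.2 i) := by exact_mod_cast nm_pos.2 (h3 i).ne_zero
    have hYi := (hs i).Y0
    refine le_trans ?_ (hX i)
    refine mul_le_mul_of_nonneg_right ?_ (Real.exp_pos _).le
    calc (s i).Y / nm (p.2 i) ≤ (s i).Y := div_le_self hYi.le h7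
      _ = (s i).Y * 1 := (mul_one _).symm
      _ ≤ _ := mul_le_mul_of_nonneg_left h1R hYi.le

open Classical in
/-- the key of a tuple: which entries are `1`, the new flags, and the logarithmic sizes -/
def keyf (D0 : ℝ) (f : ι → Bool) (x : ι → Eis) : (ι → Bool) × (ι → Bool) × (ι → ℕ) :=
  (fun i => decide (x i = 1), fun i => nf D0 (f i) (x i), fun i => ⌊Real.log (nm (x i))⌋₊)

lemma shS_eq' (D0 : ℝ) (f : ι → Bool) (s : ι → Pc) (x : ι → Eis) :
    shS s x = cellP s (vk s (keyf D0 f x).1) (fun i => (s i).Y / nm (x i)) (fun i => (s i).t) :=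
  shS_eq s x

open Classical in
/-- **splitting of the natural pieces, without loss** -/
theorem leg_split {h : ℝ → ℝ} {c : ℝ} (hpu : PU h c) {R : ℝ} (hR0 : 0 ≤ R)
    (hR : ∀ u, cx h u ≠ 0 → |u| ≤ R) (M : ℝ) : ∃ C : ℝ, 1 ≤ C ∧
    ∀ (ι : Type) [Fintype ι] [DecidableEq ι] (s : ι → Pc), (∀ i, (s i).OK) →
    ∀ (X : ℕ), 1 ≤ X → (∀ i, (s i).Y * Real.exp R ≤ X) →
    ∀ (z D0 : ℝ) (f : ι → Bool) (q : Eis) (L : ℝ), 0 ≤ L → ∀ B D T : ℝ, 0 ≤ B → 0 ≤ D → 1 ≤ T →
    (∀ x : Eis, x ≠ 0 → (nm x : ℝ) ≤ X → (tau x : ℝ) ≤ T) →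
    (∀ j : Eis, j ≠ 0 → (nm j : ℝ) ≤ L * (Real.exp 1 * X) ^ Fintype.card ι →
      (tau j : ℝ) ^ Fintype.card ι ≤ D) →
    (∀ (b g : ι → Bool) (n : ι → ℕ) (Y t : ι → ℝ), (∀ i, (n i : ℝ) ≤ Real.log X) →
      (∀ i, f i = true → g i = true ∧ n i = 0) →
      (∀ i, f i = false → g i = true → Real.exp (n i) ≤ D0) →
      (∀ i, g i = false → D0 < Real.exp (n i + 1)) →
      (1 ≤ D0 → ∀ i, Real.exp (n i) ≤ D0 * D0) →
      (∀ i, 1 ≤ Y i ∧ |Real.log (Y i) - (Real.log (s i).Y - n i)| ≤ 2 * R + 1) →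
      VF (L * Real.exp (∑ i, ((n i : ℝ) + 1))) (sqc q (alf z D0 h (cellP s (vk s b) Y t) g)) ≤
        B * Real.exp (-∑ i, ((n i : ℝ) + 1)) * ∏ i, (1 + |t i - (s i).t|) ^ M) →
    VF L (sqc q (alf z D0 h s f)) ≤
      (C * T ^ 2 * (Real.log X + 1) ^ 2) ^ Fintype.card ι * (D * B) := by
  obtain ⟨C, hC, H⟩ := cell_bound_f hpu hR0 hR M
  refine ⟨1600 * (C + 1), by linarith, ?_⟩
  intro ι _ _ s hs X hX1 hX z D0 f q L hL B D T hB hD hT1 hTτ hτ hyp
  have hX1' : (1 : ℝ) ≤ X := by exact_mod_cast hX1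
  have hlog0 : 0 ≤ Real.log X := Real.log_nonneg hX1'
  have hT0 : 0 ≤ T := by linarith
  set k := Fintype.card ι with hk
  set N := ⌊Real.log X⌋₊ with hN
  have hNle : (N : ℝ) ≤ Real.log X := Nat.floor_le hlog0
  -- cells
  set Cs : Finset ((ι → Bool) × (ι → Bool) × (ι → ℕ)) :=
    Finset.univ ×ˢ Finset.univ ×ˢ Fintype.piFinset (fun _ : ι => Finset.range (N + 1)) with hCs
  have hcard : (Cs.card : ℝ) ≤ (4 * (Real.log X + 1)) ^ k := by
    rw [hCs, Finset.card_product, Finset.card_product, Finset.card_univ, Fintype.card_piFinset]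
    simp only [Fintype.card_fun, Fintype.card_bool, Finset.card_range, Finset.prod_const,
      Finset.card_univ]
    push_cast
    rw [← hk, ← mul_assoc, ← mul_pow, ← mul_pow]
    have : (2 * 2 * ((N : ℝ) + 1)) ≤ 4 * (Real.log X + 1) := by linarith
    exact pow_le_pow_left₀ (by positivity) this k
  have hmaps : ∀ x ∈ smT ι X z, keyf D0 f x ∈ Cs := by
    intro x hx
    rw [mem_smT] at hx
    rw [hCs, Finset.mem_product, Finset.mem_product, Fintype.mem_piFinset]
    refine ⟨Finset.mem_univ _, Finset.mem_univ _, fun i => ?_⟩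
    rw [Finset.mem_range, Nat.lt_succ_iff]
    show ⌊Real.log (nm (x i))⌋₊ ≤ N
    refine Nat.floor_le_floor (Real.log_le_log ?_ ?_)
    · exact_mod_cast nm_pos.2 (hx i).1.2.ne_zero
    · exact_mod_cast (hx i).1.1
  set a : Eis → (ι → Eis) → ℂ := fun l x =>
    Th q (∏ i, x i) * (G (∏ i, x i) * conj (sy l (∏ i, x i))) * scS s x *
      ∏ i, cg z D0 (f i) (x i) with ha
  set g : Eis → (ι → Eis) → ℂ := fun l x =>
    TG (sqc q (alf z D0 h (shS s x) (fun i => nf D0 (f i) (x i)))) (l * ∏ i, x i) with hg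
  set S : (ι → Bool) × (ι → Bool) × (ι → ℕ) → Finset (ι → Eis) := fun c =>
    (smT ι X z).filter (fun x => keyf D0 f x = c) with hS
  have hSm : ∀ c x, x ∈ S c ↔ x ∈ smT ι X z ∧ keyf D0 f x = c := fun c x => Finset.mem_filter
  have hTG : ∀ l, TG (sqc q (alf z D0 h s f)) l = ∑ c ∈ Cs, ∑ x ∈ S c, a l x * g l x := by
    intro l
    rw [TG_leg hR hs hX z D0 f q l, ← Finset.sum_fiberwise_of_maps_to hmaps]
  have hnorm : ∀ l x, x ∈ smT ι X z → ‖a l x‖ ≤ T ^ k := by
    intro l x hx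
    rw [mem_smT] at hx
    rw [ha]
    show ‖Th q (∏ i, x i) * (G (∏ i, x i) * conj (sy l (∏ i, x i))) * scS s x *
      ∏ i, cg z D0 (f i) (x i)‖ ≤ T ^ k
    rw [norm_mul, norm_prod]
    calc ‖Th q (∏ i, x i) * (G (∏ i, x i) * conj (sy l (∏ i, x i))) * scS s x‖ *
          ∏ i, ‖cg z D0 (f i) (x i)‖ ≤ 1 * ∏ _i : ι, T := by
          refine mul_le_mul (norm_coef_le hs fun i => (hx i).1.2) ?_
            (Finset.prod_nonneg fun _ _ => norm_nonneg _) zero_le_one
          refine Finset.prod_le_prod (fun _ _ => norm_nonneg _) fun i _ => ?_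
          have h0 := (hx i).1.2.ne_zero
          exact (norm_cg_le z D0 (f i) h0).trans (hTτ _ h0 (by exact_mod_cast (hx i).1.1))
      _ = T ^ k := by rw [Finset.prod_const, Finset.card_univ, one_mul]
  -- the number of tuples in a cell
  have hSc : ∀ c ∈ Cs, ((S c).card : ℝ) ≤ 100 ^ k * Real.exp (∑ i, ((c.2.2 i : ℝ) + 1)) := by
    intro c hc
    have hsub : S c ⊆ Fintype.piFinset (fun i => primBall ⌊Real.exp ((c.2.2 i : ℝ) + 1)⌋₊) := by
      intro x hx
      rw [hSm, mem_smT] at hx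
      rw [Fintype.mem_piFinset]
      intro i
      rw [mem_primBall]
      refine ⟨?_, (hx.1 i).1.2⟩
      have h1 : c.2.2 i = ⌊Real.log (nm (x i))⌋₊ := by rw [← hx.2]; rfl
      have h7 : (0 : ℝ) < nm (x i) := by exact_mod_cast nm_pos.2 (hx.1 i).1.2.ne_zero
      rw [Nat.le_floor_iff (Real.exp_pos _).le]
      have h2 := Nat.lt_floor_add_one (Real.log (nm (x i)))
      rw [← h1] at h2
      calc (nm (x i) : ℝ) = Real.exp (Real.log (nm (x i))) := (Real.exp_log h7).symm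
        _ ≤ _ := Real.exp_le_exp.2 h2.le
    calc ((S c).card : ℝ) ≤ ((Fintype.piFinset
          (fun i => primBall ⌊Real.exp ((c.2.2 i : ℝ) + 1)⌋₊)).card : ℝ) := by
          exact_mod_cast Finset.card_le_card hsub
      _ = ∏ i, ((primBall ⌊Real.exp ((c.2.2 i : ℝ) + 1)⌋₊).card : ℝ) := by
          rw [Fintype.card_piFinset]; push_cast; rfl
      _ ≤ ∏ i, (100 * Real.exp ((c.2.2 i : ℝ) + 1)) := by
          refine Finset.prod_le_prod (fun _ _ => Nat.cast_nonneg _) fun i _ => ?_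
          refine (Lat277.card_primBall_le _).trans ?_
          have := Nat.floor_le (Real.exp_pos ((c.2.2 i : ℝ) + 1)).le
          linarith
      _ = 100 ^ k * Real.exp (∑ i, ((c.2.2 i : ℝ) + 1)) := by
          rw [Finset.prod_mul_distrib, Finset.prod_const, Finset.card_univ, Real.exp_sum]
  -- the family of a cell
  set K : (ι → Bool) × (ι → Bool) × (ι → ℕ) → Finset (Eis × (ι → Eis)) := fun c =>
    (((bl L).filter CubeFree) ×ˢ S c).filter
      (fun p => (Squarefree (∏ i, p.2 i) ∧ IsCoprime p.1 (∏ i, p.2 i)) ∧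
        ∏ i, cg z D0 (f i) (p.2 i) ≠ 0) with hKd
  have hDB : 0 ≤ D * B := mul_nonneg hD hB
  have hcell : ∀ c ∈ Cs, ∑ l ∈ (bl L).filter CubeFree, ∑ x ∈ S c, ‖a l x‖ ^ 2 * ‖g l x‖ ^ 2 ≤
      (T ^ k) ^ 2 * (C ^ k * (D * (B * Real.exp (-∑ i, ((c.2.2 i : ℝ) + 1))))) := by
    intro c hc
    have hc2 : ∀ i, (c.2.2 i : ℝ) ≤ Real.log X := by
      intro i
      rw [hCs, Finset.mem_product, Finset.mem_product, Fintype.mem_piFinset] at hc
      have h1 := Finset.mem_range.1 (hc.2.2 i)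
      have h2 : (c.2.2 i : ℝ) ≤ N := by exact_mod_cast Nat.lt_succ_iff.1 h1
      linarith
    have hmem : ∀ p ∈ K c, p.1 ∈ bl L ∧ CubeFree p.1 ∧ (∀ i, IsPrim (p.2 i)) ∧
        Squarefree (∏ i, p.2 i) ∧ IsCoprime p.1 (∏ i, p.2 i) ∧
        (∀ i, (c.2.2 i : ℝ) ≤ Real.log (nm (p.2 i)) ∧
          Real.log (nm (p.2 i)) < c.2.2 i + 1) ∧ keyf D0 f p.2 = c ∧
        ∀ i, cg z D0 (f i) (p.2 i) ≠ 0 := by
      intro p hp
      rw [hKd, Finset.mem_filter, Finset.mem_product, Finset.mem_filter, hSm, mem_smT] at hp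
      refine ⟨hp.1.1.1, hp.1.1.2, fun i => (hp.1.2.1 i).1.2, hp.2.1.1, hp.2.1.2, fun i => ?_,
        hp.1.2.2, fun i => Finset.prod_ne_zero_iff.1 hp.2.2 i (Finset.mem_univ i)⟩
      have h1 : c.2.2 i = ⌊Real.log (nm (p.2 i))⌋₊ := by rw [← hp.1.2.2]; rfl
      have h7 : (1 : ℝ) ≤ nm (p.2 i) := by
        exact_mod_cast nm_pos.2 (hp.1.2.1 i).1.2.ne_zero
      have h8 := Nat.lt_floor_add_one (Real.log (nm (p.2 i)))
      have h9 := Nat.floor_le (Real.log_nonneg h7)
      rw [← h1] at h8 h9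
      exact ⟨h9, h8⟩
    have e1 : ∑ l ∈ (bl L).filter CubeFree, ∑ x ∈ S c, ‖a l x‖ ^ 2 * ‖g l x‖ ^ 2 ≤
        (T ^ k) ^ 2 * ∑ p ∈ K c, ‖g p.1 p.2‖ ^ 2 := by
      rw [← Finset.sum_product' ((bl L).filter CubeFree) (S c)
        (fun l x => ‖a l x‖ ^ 2 * ‖g l x‖ ^ 2), hKd, Finset.mul_sum, Finset.sum_filter]
      refine Finset.sum_le_sum fun p hp => ?_
      rw [Finset.mem_product, hSm] at hp
      have hp2 := hp.2.1
      rw [mem_smT] at hp2
      have hxp : ∀ i, IsPrim (p.2 i) := fun i => (hp2 i).1.2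
      split_ifs with hc'
      · refine mul_le_mul_of_nonneg_right ?_ (by positivity)
        exact pow_le_pow_left₀ (norm_nonneg _) (hnorm _ _ hp.2.1) 2
      · have : a p.1 p.2 = 0 := by
          by_cases h1 : Squarefree (∏ i, p.2 i) ∧ IsCoprime p.1 (∏ i, p.2 i)
          · have h2 : ∏ i, cg z D0 (f i) (p.2 i) = 0 := by
              by_contra h3; exact hc' ⟨h1, h3⟩
            rw [ha]
            show _ * ∏ i, cg z D0 (f i) (p.2 i) = 0
            rw [h2, mul_zero]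
          · rw [ha]
            show Th q (∏ i, p.2 i) * (G (∏ i, p.2 i) * conj (sy p.1 (∏ i, p.2 i))) * scS s p.2 *
              ∏ i, cg z D0 (f i) (p.2 i) = 0
            rw [coef_zero hxp h1, zero_mul]
        rw [this]; simp
    refine e1.trans (mul_le_mul_of_nonneg_left ?_ (by positivity))
    rcases (K c).eq_empty_or_nonempty with hemp | hne
    · rw [hemp, Finset.sum_empty]
      have := Real.exp_pos (-∑ i, ((c.2.2 i : ℝ) + 1))
      positivity
    have e2 : ∑ p ∈ K c, ‖g p.1 p.2‖ ^ 2 =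
        ∑ p ∈ K c, ‖TG (sqc q (alf z D0 h (cellP s (vk s c.1) (fun i => (s i).Y / nm (p.2 i))
          (fun i => (s i).t)) c.2.1)) (p.1 * ∏ i, p.2 i)‖ ^ 2 := by
      refine Finset.sum_congr rfl fun p hp => ?_
      have h1 := (hmem p hp).2.2.2.2.2.2.1
      have h2 : (fun i => nf D0 (f i) (p.2 i)) = c.2.1 := by rw [← h1]; rfl
      rw [hg]
      show ‖TG (sqc q (alf z D0 h (shS s p.2) (fun i => nf D0 (f i) (p.2 i))))
        (p.1 * ∏ i, p.2 i)‖ ^ 2 = _
      rw [h2, shS_eq' D0 f, h1]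
    rw [e2]
    refine H ι s hs z D0 c.2.1 q L hL (vk s c.1) c.2.2 (K c) (fun p hp => ?_)
      (B * Real.exp (-∑ i, ((c.2.2 i : ℝ) + 1))) D (mul_nonneg hB (Real.exp_pos _).le) hD ?_ ?_
    · obtain ⟨h1, h2, h3, h4, h5, h6, _, _⟩ := hmem p hp
      refine ⟨h1, h2, h3, h4, h5, fun i => ?_⟩
      rw [abs_le]
      constructor <;> linarith [(h6 i).1, (h6 i).2]
    · intro j hj0 hj
      refine hτ j hj0 (hj.trans ?_)
      refine mul_le_mul_of_nonneg_left ?_ hL
      rw [Real.exp_sum]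
      have : ∀ i ∈ (Finset.univ : Finset ι), Real.exp ((c.2.2 i : ℝ) + 1) ≤ Real.exp 1 * X := by
        intro i _
        rw [Real.exp_add, mul_comm]
        refine mul_le_mul_of_nonneg_left ?_ (Real.exp_pos _).le
        calc Real.exp (c.2.2 i : ℝ) ≤ Real.exp (Real.log X) := Real.exp_le_exp.2 (hc2 i)
          _ = X := Real.exp_log (by linarith)
      calc ∏ i, Real.exp ((c.2.2 i : ℝ) + 1) ≤ ∏ _i : ι, (Real.exp 1 * X) :=
            Finset.prod_le_prod (fun _ _ => (Real.exp_pos _).le) this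
        _ = (Real.exp 1 * X) ^ k := by rw [Finset.prod_const, Finset.card_univ]
    · intro Y t hY
      obtain ⟨p, hp⟩ := hne
      obtain ⟨_, _, h3, _, _, h6, h7, h8⟩ := hmem p hp
      have hfl : ∀ i, c.2.1 i = nf D0 (f i) (p.2 i) := fun i => by rw [← h7]; rfl
      have hpos : ∀ i, (0 : ℝ) < nm (p.2 i) := fun i => by exact_mod_cast nm_pos.2 (h3 i).ne_zero
      refine hyp c.1 c.2.1 c.2.2 Y t hc2 ?_ ?_ ?_ ?_ hY
      · intro i hi
        refine ⟨by rw [hfl i, hi]; rfl, ?_⟩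
        have h9 := h8 i
        unfold cg at h9
        rw [if_pos hi] at h9
        have h10 : p.2 i = 1 := by
          by_contra hcon
          rw [if_neg hcon] at h9
          exact h9 rfl
        have h11 := (h6 i).1
        rw [h10] at h11
        simp only [nm_one, Nat.cast_one, Real.log_one] at h11
        exact_mod_cast le_antisymm h11 (Nat.cast_nonneg _)
      · intro i hi hgi
        rw [hfl i, hi] at hgi
        unfold nf at hgi
        rw [Bool.false_or, decide_eq_true_eq] at hgi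
        refine le_trans ?_ hgi
        calc Real.exp (c.2.2 i) ≤ Real.exp (Real.log (nm (p.2 i))) :=
              Real.exp_le_exp.2 (h6 i).1
          _ = _ := Real.exp_log (hpos i)
      · intro i hgi
        rw [hfl i] at hgi
        unfold nf at hgi
        rw [Bool.or_eq_false_iff, decide_eq_false_iff_not, not_le] at hgi
        refine hgi.2.trans ?_
        calc (nm (p.2 i) : ℝ) = Real.exp (Real.log (nm (p.2 i))) := (Real.exp_log (hpos i)).symm
          _ < _ := Real.exp_lt_exp.2 (h6 i).2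
      · intro hD1 i
        refine le_trans ?_ (cg_small hD1 (h3 i) (h8 i))
        calc Real.exp (c.2.2 i) ≤ Real.exp (Real.log (nm (p.2 i))) :=
              Real.exp_le_exp.2 (h6 i).1
          _ = _ := Real.exp_log (hpos i)
  -- assembly
  have hmain : ∀ l, ‖TG (sqc q (alf z D0 h s f)) l‖ ^ 2 ≤
      (Cs.card : ℝ) * ∑ c ∈ Cs, ((S c).card : ℝ) * ∑ x ∈ S c, ‖a l x‖ ^ 2 * ‖g l x‖ ^ 2 := by
    intro l
    rw [hTG l]
    refine (CR2.norm_sum_sq_le_card Cs _).trans ?_
    refine mul_le_mul_of_nonneg_left ?_ (Nat.cast_nonneg _)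
    refine Finset.sum_le_sum fun c _ => ?_
    refine (CR2.norm_sum_sq_le_card (S c) _).trans (le_of_eq ?_)
    congr 1
    refine Finset.sum_congr rfl fun x _ => ?_
    rw [norm_mul, mul_pow]
  calc VF L (sqc q (alf z D0 h s f))
      ≤ ∑ l ∈ (bl L).filter CubeFree, (Cs.card : ℝ) *
          ∑ c ∈ Cs, ((S c).card : ℝ) * ∑ x ∈ S c, ‖a l x‖ ^ 2 * ‖g l x‖ ^ 2 :=
        Finset.sum_le_sum fun l _ => hmain l
    _ = (Cs.card : ℝ) * ∑ c ∈ Cs, ((S c).card : ℝ) *
          ∑ l ∈ (bl L).filter CubeFree, ∑ x ∈ S c, ‖a l x‖ ^ 2 * ‖g l x‖ ^ 2 := by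
        rw [← Finset.mul_sum, Finset.sum_comm]
        congr 1
        refine Finset.sum_congr rfl fun c _ => ?_
        rw [Finset.mul_sum]
    _ ≤ (Cs.card : ℝ) * ∑ c ∈ Cs, (T ^ k) ^ 2 * ((100 * (C + 1)) ^ k * (D * B)) := by
        refine mul_le_mul_of_nonneg_left ?_ (Nat.cast_nonneg _)
        refine Finset.sum_le_sum fun c hc => ?_
        have h1 := hSc c hc
        have h2 := hcell c hc
        have h3 : 0 ≤ ∑ l ∈ (bl L).filter CubeFree, ∑ x ∈ S c, ‖a l x‖ ^ 2 * ‖g l x‖ ^ 2 :=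
          Finset.sum_nonneg fun _ _ => Finset.sum_nonneg fun _ _ => by positivity
        calc ((S c).card : ℝ) * _ ≤ (100 ^ k * Real.exp (∑ i, ((c.2.2 i : ℝ) + 1))) *
              ((T ^ k) ^ 2 * (C ^ k * (D * (B * Real.exp (-∑ i, ((c.2.2 i : ℝ) + 1)))))) :=
              mul_le_mul h1 h2 h3 (by positivity)
          _ = (T ^ k) ^ 2 * (100 ^ k * C ^ k * (D * B)) *
              (Real.exp (∑ i, ((c.2.2 i : ℝ) + 1)) *
              Real.exp (-∑ i, ((c.2.2 i : ℝ) + 1))) := by ring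
          _ = (T ^ k) ^ 2 * (100 ^ k * C ^ k * (D * B)) := by
              rw [← Real.exp_add, add_neg_cancel, Real.exp_zero, mul_one]
          _ ≤ (T ^ k) ^ 2 * (100 ^ k * (C + 1) ^ k * (D * B)) := by
              have : C ^ k ≤ (C + 1) ^ k := pow_le_pow_left₀ hC (by linarith) k
              gcongr
          _ = _ := by rw [mul_pow]
    _ = (Cs.card : ℝ) * (Cs.card : ℝ) * ((T ^ k) ^ 2 * ((100 * (C + 1)) ^ k * (D * B))) := by
        rw [Finset.sum_const, nsmul_eq_mul]; ring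
    _ ≤ (4 * (Real.log X + 1)) ^ k * (4 * (Real.log X + 1)) ^ k *
          ((T ^ k) ^ 2 * ((100 * (C + 1)) ^ k * (D * B))) := by
        have h5 : (0 : ℝ) ≤ (T ^ k) ^ 2 * ((100 * (C + 1)) ^ k * (D * B)) := by positivity
        refine mul_le_mul_of_nonneg_right ?_ h5
        exact mul_le_mul hcard hcard (Nat.cast_nonneg _) (by positivity)
    _ = (1600 * (C + 1) * T ^ 2 * (Real.log X + 1) ^ 2) ^ k * (D * B) := by
        rw [← mul_pow, ← pow_mul, mul_comm k 2, pow_mul, ← mul_assoc, ← mul_assoc, ← mul_pow,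
          ← mul_pow]
        congr 2
        ring


end Crest.Agent.R017.Leg381
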