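import Crest.Agent.R017.TX1_939

/-!
# Row 17: shape differences as a closed family (2) (helper939)

`df h χ l μ : Fam DI`, `df_ok`
-/

set_option autoImplicit false

noncomputable section

open Complex MeasureTheory
open scoped ComplexConjugate ContDiff

namespace Crest.Agent.R017.TP320

open Crest.Agent.R012 Crest.Agent.R012.Eis Crest.Agent.R012.LS2 Crest.Agent.R012.Gauss880
open Crest.Agent.R012.Div277 Crest.Agent.R012.Weight600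
open Crest.Agent.R012.PSer47 Crest.Agent.R017.End699 Crest.Agent.R017.FE47
open Crest.Agent.R017.Two939 (cfa cfa_mul cfa_prim)

/-- index of a difference of two shapes: `(z1, z2)` and `(z1 + δ, z2 - δ)` -/
structure DI where
  z1 : ℝ
  z2 : ℝ
  δ : ℝ
  s1 : ℝ
  s2 : ℝ
  t1 : ℝ
  t2 : ℝ

/-- the difference sequence -/
def dw (h : ℝ → ℝ) (χ : Eis → ℂ) (l : ℤ) (z1 z2 δ t1 t2 : ℝ) (n : Eis) : ℂ :=
  conv (co h χ l z1 t1) (co h χ l z2 t2) n -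
    conv (co h χ l (z1 + δ) t1) (co h χ l (z2 - δ) t2) n

/-- the family of the differences -/
def df (h : ℝ → ℝ) (χ : Eis → ℂ) (l : ℤ) (μ : ℝ) : Fam DI where
  w j := dw h χ l j.z1 j.z2 j.δ (j.t1 + j.s1) (j.t2 + j.s2)
  len j := j.z1 + j.z2
  ht j := (1 + |j.s1|) ^ μ * (1 + |j.s2|) ^ μ
  good _ := True
  dom r j' j := j'.z1 ≤ j.z1 + r ∧ j'.z2 ≤ j.z2 + r ∧ j'.δ = j.δ ∧ j'.t1 = j.t1 ∧ j'.t2 = j.t2

def sg (i : Bool) : ℂ := if i then -1 else 1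
def th (δ : ℝ) (i : Bool) : ℝ := if i then δ else 0

lemma norm_sg (i : Bool) : ‖sg i‖ = 1 := by
  cases i <;> simp [sg]

lemma dw_eq (h : ℝ → ℝ) (χ : Eis → ℂ) (l : ℤ) (z1 z2 δ t1 t2 : ℝ) (n : Eis) :
    dw h χ l z1 z2 δ t1 t2 n =
      ∑ i : Bool, sg i * conv (co h χ l (z1 + th δ i) t1) (co h χ l (z2 - th δ i) t2) n := by
  rw [Fintype.sum_bool]
  unfold dw sg th
  simp
  ring

/-- both variables at once -/
lemma two_var {h : ℝ → ℝ} {c : ℝ} (hpu : PU h c) {Mo : Eis} {χ : Eis → ℂ} (hχ : HC Mo χ)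
    (l : ℤ) {R : ℝ} (hR0 : 0 ≤ R) (hR : ∀ u, cx h u ≠ 0 → |u| ≤ R) {μ : ℝ} (hμ : 0 ≤ μ)
    (s0 : ℝ) : ∃ C : ℝ, 1 ≤ C ∧ ∀ {X : Type} {ι : Type} [Fintype ι] (V : Finset X)
    (a1 b1 a2 b2 : X → Eis) (y1 y2 : X → ℝ) (v : X → EuclideanSpace ℂ ι)
    (α1 α2 τ t1 t2 t10 t20 M : ℝ), 0 ≤ M →
    (∀ x ∈ V, IsPrim (a1 x) ∧ IsPrim (b1 x) ∧ |Real.log (nm (a1 x)) - α1| ≤ 1) →
    (∀ x ∈ V, IsPrim (a2 x) ∧ IsPrim (b2 x) ∧ |Real.log (nm (a2 x)) - α2| ≤ 1) →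
    (∀ κ1 κ2 : Eis → ℂ, (∀ a, ‖κ1 a‖ ≤ 1) → (∀ a, ‖κ2 a‖ ≤ 1) → ∀ ζ1 ζ2 t1' t2' : ℝ,
      |ζ1 + α1| ≤ 2 * R + 1 + c → |ζ2 + α2| ≤ 2 * R + 1 + c →
      ‖∑ x ∈ V, ((κ1 (a1 x) * co h χ l (y1 x + ζ1) t1' (b1 x)) *
        (κ2 (a2 x) * co h χ l (y2 x + ζ2) t2' (b2 x))) • v x‖ ≤
        M * ((1 + |t1' - t10|) ^ μ * (1 + |t2' - t20|) ^ μ)) →
    ‖∑ x ∈ V, ((co h χ l (y1 x) t1 (a1 x * b1 x) * tws s0 τ (y1 x) (b1 x)) *
      (co h χ l (y2 x) t2 (a2 x * b2 x) * tws s0 τ (y2 x) (b2 x))) • v x‖ ≤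
      C * Real.exp (s0 * (α1 + α2)) * (1 + |τ|) ^ (2 * μ) * M *
        ((1 + |t1 - t10|) ^ μ * (1 + |t2 - t20|) ^ μ) := by
  obtain ⟨C, hC1, hC⟩ := one_var hpu hχ l hR0 hR hμ s0
  have hC0 : 0 ≤ C := by linarith
  refine ⟨C * C, by nlinarith, ?_⟩
  intro X ι _ V a1 b1 a2 b2 y1 y2 v α1 α2 τ t1 t2 t10 t20 M hM hV1 hV2 hb
  have e1 : ∑ x ∈ V, ((co h χ l (y1 x) t1 (a1 x * b1 x) * tws s0 τ (y1 x) (b1 x)) *
      (co h χ l (y2 x) t2 (a2 x * b2 x) * tws s0 τ (y2 x) (b2 x))) • v x =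
      ∑ x ∈ V, (co h χ l (y1 x) t1 (a1 x * b1 x) * tws s0 τ (y1 x) (b1 x)) •
        ((co h χ l (y2 x) t2 (a2 x * b2 x) * tws s0 τ (y2 x) (b2 x)) • v x) :=
    Finset.sum_congr rfl fun x _ => by rw [smul_smul]
  rw [e1]
  have key := hC V a1 b1 y1 (fun x => (co h χ l (y2 x) t2 (a2 x * b2 x) *
    tws s0 τ (y2 x) (b2 x)) • v x) α1 τ t1 t10
    (C * Real.exp (s0 * α2) * (1 + |τ|) ^ μ * M * (1 + |t2 - t20|) ^ μ) (by positivity) hV1 ?_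
  · refine key.trans (le_of_eq ?_)
    have e2 : Real.exp (s0 * (α1 + α2)) = Real.exp (s0 * α1) * Real.exp (s0 * α2) := by
      rw [← Real.exp_add]; congr 1; ring
    have e3 : (1 + |τ|) ^ (2 * μ) = (1 + |τ|) ^ μ * (1 + |τ|) ^ μ := by
      rw [← Real.rpow_add (by positivity)]; congr 1; ring
    rw [e2, e3]
    ring
  · intro κ1 hκ1 ζ1 t1' hζ1
    have e2 : ∑ x ∈ V, (κ1 (a1 x) * co h χ l (y1 x + ζ1) t1' (b1 x)) •
        ((co h χ l (y2 x) t2 (a2 x * b2 x) * tws s0 τ (y2 x) (b2 x)) • v x) =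
        ∑ x ∈ V, (co h χ l (y2 x) t2 (a2 x * b2 x) * tws s0 τ (y2 x) (b2 x)) •
          ((κ1 (a1 x) * co h χ l (y1 x + ζ1) t1' (b1 x)) • v x) :=
      Finset.sum_congr rfl fun x _ => by rw [smul_smul, smul_smul, mul_comm]
    rw [e2]
    have key2 := hC V a2 b2 y2 (fun x => (κ1 (a1 x) * co h χ l (y1 x + ζ1) t1' (b1 x)) • v x)
      α2 τ t2 t20 (M * (1 + |t1' - t10|) ^ μ) (by positivity) hV2 ?_
    · refine key2.trans (le_of_eq ?_)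
      ring
    · intro κ2 hκ2 ζ2 t2' hζ2
      have e3 : ∑ x ∈ V, (κ2 (a2 x) * co h χ l (y2 x + ζ2) t2' (b2 x)) •
          ((κ1 (a1 x) * co h χ l (y1 x + ζ1) t1' (b1 x)) • v x) =
          ∑ x ∈ V, ((κ1 (a1 x) * co h χ l (y1 x + ζ1) t1' (b1 x)) *
            (κ2 (a2 x) * co h χ l (y2 x + ζ2) t2' (b2 x))) • v x :=
        Finset.sum_congr rfl fun x _ => by rw [smul_smul, mul_comm]
      rw [e3]
      refine (hb κ1 κ2 hκ1 hκ2 ζ1 ζ2 t1' t2' hζ1 hζ2).trans (le_of_eq ?_)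
      ring

open Classical in
/-- opening the difference -/
lemma open_dw {h : ℝ → ℝ} {χ : Eis → ℂ} {l : ℤ} {ι : Type} [Fintype ι] {T : Finset (Eis × Eis)}
    (hT : ∀ p ∈ T, IsPrim p.1 ∧ IsPrim p.2 ∧ IsCoprime p.1 p.2)
    (s0 τ z1 z2 δ t1 t2 : ℝ) (v : Eis → Eis → EuclideanSpace ℂ ι) :
    ∑ p ∈ T, (dw h χ l z1 z2 δ t1 t2 (p.1 * p.2) * tw s0 τ p.2) • v p.1 p.2 =
    ∑ u ∈ QS T, ∑ i : Bool, (((Real.exp (-s0 * (z1 + z2)) : ℂ) * osc τ (z1 + z2)) *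
      ((co h χ l (z1 + th δ i) t1 (u.1.1 * u.1.2) * tws s0 τ (z1 + th δ i) u.1.2) *
      (co h χ l (z2 - th δ i) t2 (u.2.1 * u.2.2) * tws s0 τ (z2 - th δ i) u.2.2))) •
      (sg i • v (u.1.1 * u.2.1) (u.1.2 * u.2.2)) := by
  have e1 : ∀ p ∈ T, (dw h χ l z1 z2 δ t1 t2 (p.1 * p.2) * tw s0 τ p.2) • v p.1 p.2 =
      ∑ i : Bool, (conv (co h χ l (z1 + th δ i) t1) (co h χ l (z2 - th δ i) t2) (p.1 * p.2) *
        tw s0 τ p.2) • (sg i • v p.1 p.2) := by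
    intro p _
    rw [dw_eq, Finset.sum_mul, Finset.sum_smul]
    refine Finset.sum_congr rfl fun i _ => ?_
    rw [smul_smul]
    congr 1
    ring
  rw [Finset.sum_congr rfl e1, Finset.sum_comm]
  have e2 : ∀ i : Bool, ∑ p ∈ T, (conv (co h χ l (z1 + th δ i) t1)
      (co h χ l (z2 - th δ i) t2) (p.1 * p.2) * tw s0 τ p.2) • (sg i • v p.1 p.2) =
      ∑ u ∈ QS T, (((Real.exp (-s0 * (z1 + z2)) : ℂ) * osc τ (z1 + z2)) *
      ((co h χ l (z1 + th δ i) t1 (u.1.1 * u.1.2) * tws s0 τ (z1 + th δ i) u.1.2) *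
      (co h χ l (z2 - th δ i) t2 (u.2.1 * u.2.2) * tws s0 τ (z2 - th δ i) u.2.2))) •
      (sg i • v (u.1.1 * u.2.1) (u.1.2 * u.2.2)) := by
    intro i
    rw [sum_open hT s0 τ _ _ (fun a b => sg i • v a b)]
    refine Finset.sum_congr rfl fun u hu => ?_
    obtain ⟨f1, f2, f3, f4, f5, f6, f7, f8⟩ := QS_facts hT hu
    congr 1
    rw [tw_eq_tws s0 τ (z1 + th δ i) f3, tw_eq_tws s0 τ (z2 - th δ i) f5]
    have e3 : Real.exp (-s0 * (z1 + z2)) =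
        Real.exp (-s0 * (z1 + th δ i)) * Real.exp (-s0 * (z2 - th δ i)) := by
      rw [← Real.exp_add]; congr 1; ring
    have e4 : osc τ (z1 + z2) = osc τ (z1 + th δ i) * osc τ (z2 - th δ i) := by
      rw [← osc_add_right]; congr 1; ring
    rw [e3, e4]
    push_cast
    ring
  rw [Finset.sum_congr rfl fun i _ => e2 i, Finset.sum_comm]

open Classical in
lemma class_dw {h : ℝ → ℝ} {χ : Eis → ℂ} {l : ℤ} {ι : Type} [Fintype ι] {T : Finset (Eis × Eis)}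
    (hT : ∀ p ∈ T, IsPrim p.1 ∧ IsPrim p.2 ∧ IsCoprime p.1 p.2)
    (P : Eis → Eis → Prop) (κ1 κ2 : Eis → ℂ) (z1 z2 δ t1 t2 : ℝ)
    (v : Eis → Eis → EuclideanSpace ℂ ι) :
    ∑ x ∈ ((QS T).filter (fun u => P u.1.1 u.2.1)) ×ˢ (Finset.univ : Finset Bool),
      ((κ1 x.1.1.1 * co h χ l (z1 + th δ x.2) t1 x.1.1.2) *
        (κ2 x.1.2.1 * co h χ l (z2 - th δ x.2) t2 x.1.2.2)) •
        (sg x.2 • v (x.1.1.1 * x.1.2.1) (x.1.1.2 * x.1.2.2)) =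
    ∑ p ∈ T, ((∑ a1 ∈ dvs p.1, if P a1 (p.1 / a1) then κ1 a1 * κ2 (p.1 / a1) else 0) *
      dw h χ l z1 z2 δ t1 t2 p.2) • v p.1 p.2 := by
  rw [Finset.sum_product, Finset.sum_comm]
  have e1 : ∀ i : Bool, ∑ u ∈ (QS T).filter (fun u => P u.1.1 u.2.1),
      ((κ1 u.1.1 * co h χ l (z1 + th δ i) t1 u.1.2) *
        (κ2 u.2.1 * co h χ l (z2 - th δ i) t2 u.2.2)) •
        (sg i • v (u.1.1 * u.2.1) (u.1.2 * u.2.2)) =
      ∑ p ∈ T, ((∑ a1 ∈ dvs p.1, if P a1 (p.1 / a1) then κ1 a1 * κ2 (p.1 / a1) else 0) *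
        conv (co h χ l (z1 + th δ i) t1) (co h χ l (z2 - th δ i) t2) p.2) • (sg i • v p.1 p.2) :=
    fun i => sum_class hT P κ1 κ2 _ _ (fun a b => sg i • v a b)
  rw [Finset.sum_congr rfl fun i _ => e1 i, Finset.sum_comm]
  refine Finset.sum_congr rfl fun p _ => ?_
  rw [dw_eq, Finset.mul_sum, Finset.sum_smul]
  refine Finset.sum_congr rfl fun i _ => ?_
  rw [smul_smul]
  congr 1
  ring

open Classical in
lemma class_boundD {h : ℝ → ℝ} {c : ℝ} {χ : Eis → ℂ} {l : ℤ} {R : ℝ} (hc : 0 < c) (hR0 : 0 ≤ R)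
    {μ : ℝ} (hμ : 0 ≤ μ) {s0 C1 : ℝ} (hC1 : 1 ≤ C1)
    (h2v : ∀ {X : Type} {ι : Type} [Fintype ι] (V : Finset X)
    (a1 b1 a2 b2 : X → Eis) (y1 y2 : X → ℝ) (v : X → EuclideanSpace ℂ ι)
    (α1 α2 τ t1 t2 t10 t20 M : ℝ), 0 ≤ M →
    (∀ x ∈ V, IsPrim (a1 x) ∧ IsPrim (b1 x) ∧ |Real.log (nm (a1 x)) - α1| ≤ 1) →
    (∀ x ∈ V, IsPrim (a2 x) ∧ IsPrim (b2 x) ∧ |Real.log (nm (a2 x)) - α2| ≤ 1) →
    (∀ κ1 κ2 : Eis → ℂ, (∀ a, ‖κ1 a‖ ≤ 1) → (∀ a, ‖κ2 a‖ ≤ 1) → ∀ ζ1 ζ2 t1' t2' : ℝ,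
      |ζ1 + α1| ≤ 2 * R + 1 + c → |ζ2 + α2| ≤ 2 * R + 1 + c →
      ‖∑ x ∈ V, ((κ1 (a1 x) * co h χ l (y1 x + ζ1) t1' (b1 x)) *
        (κ2 (a2 x) * co h χ l (y2 x + ζ2) t2' (b2 x))) • v x‖ ≤
        M * ((1 + |t1' - t10|) ^ μ * (1 + |t2' - t20|) ^ μ)) →
    ‖∑ x ∈ V, ((co h χ l (y1 x) t1 (a1 x * b1 x) * tws s0 τ (y1 x) (b1 x)) *
      (co h χ l (y2 x) t2 (a2 x * b2 x) * tws s0 τ (y2 x) (b2 x))) • v x‖ ≤
      C1 * Real.exp (s0 * (α1 + α2)) * (1 + |τ|) ^ (2 * μ) * M *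
        ((1 + |t1 - t10|) ^ μ * (1 + |t2 - t20|) ^ μ))
    {ε Cτ : ℝ} (hε : 0 < ε) (hCτ : 1 ≤ Cτ)
    (hτ : ∀ n : Eis, n ≠ 0 → (tau n : ℝ) ≤ Cτ * (nm n : ℝ) ^ ε)
    (j : DI) (α τ : ℝ) {ι : Type} [Fintype ι] (T : Finset (Eis × Eis))
    (v : Eis → Eis → EuclideanSpace ℂ ι) (M : ℝ) (hM : 0 ≤ M)
    (hT : ∀ p ∈ T, IsPrim p.1 ∧ IsPrim p.2 ∧ IsCoprime p.1 p.2 ∧
      α ≤ Real.log (nm p.1) ∧ Real.log (nm p.1) ≤ α + 1)
    (hb : ∀ κ : Eis → ℂ, (∀ a, ‖κ a‖ ≤ 1) → ∀ j', (df h χ l μ).good j' →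
      (df h χ l μ).dom (2 * (2 * R + 1 + c) + 3) j' j →
      (df h χ l μ).len j' ≤ (df h χ l μ).len j - α + (2 * (2 * R + 1 + c) + 3) →
      (df h χ l μ).len j - α - (2 * (2 * R + 1 + c) + 3) - 1 ≤ (df h χ l μ).len j' →
      ‖∑ p ∈ T, (κ p.1 * (df h χ l μ).w j' p.2) • v p.1 p.2‖ ≤ M * (df h χ l μ).ht j')
    (P : Eis → Eis → Prop) (i : ℕ) (α2 : ℝ) (hα2' : -2 ≤ α2) (hα1 : α - 1 ≤ i + α2)
    (hα2 : i + α2 ≤ α)
    (hP : ∀ u ∈ QS T, P u.1.1 u.2.1 → (i : ℝ) ≤ Real.log (nm u.1.1) ∧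
      Real.log (nm u.1.1) ≤ i + 1 ∧ α2 ≤ Real.log (nm u.2.1) ∧ Real.log (nm u.2.1) ≤ α2 + 1) :
    ‖∑ u ∈ (QS T).filter (fun u => P u.1.1 u.2.1), ∑ i : Bool,
      (((Real.exp (-s0 * (j.z1 + j.z2)) : ℂ) * osc τ (j.z1 + j.z2)) *
      ((co h χ l (j.z1 + th j.δ i) (j.t1 + j.s1) (u.1.1 * u.1.2) *
        tws s0 τ (j.z1 + th j.δ i) u.1.2) *
      (co h χ l (j.z2 - th j.δ i) (j.t2 + j.s2) (u.2.1 * u.2.2) *
        tws s0 τ (j.z2 - th j.δ i) u.2.2))) •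
      (sg i • v (u.1.1 * u.2.1) (u.1.2 * u.2.2))‖ ≤
    (C1 * Cτ * Real.exp (ε * (|α| + 1)) * Real.exp |s0|) *
      Real.exp (-s0 * ((df h χ l μ).len j - α)) * (1 + |τ|) ^ (2 * μ) * M *
        (df h χ l μ).ht j := by
  have hT3 : ∀ p ∈ T, IsPrim p.1 ∧ IsPrim p.2 ∧ IsCoprime p.1 p.2 := fun p hp =>
    ⟨(hT p hp).1, (hT p hp).2.1, (hT p hp).2.2.1⟩
  set D := Cτ * Real.exp (ε * (|α| + 1)) with hD
  have hD0 : 0 < D := by positivity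
  set V := ((QS T).filter (fun u => P u.1.1 u.2.1)) ×ˢ (Finset.univ : Finset Bool) with hV
  set Ec : ℂ := (Real.exp (-s0 * (j.z1 + j.z2)) : ℂ) * osc τ (j.z1 + j.z2) with hEc
  have hEn : ‖Ec‖ = Real.exp (-s0 * (j.z1 + j.z2)) := by
    rw [hEc, norm_mul, norm_osc, mul_one, Complex.norm_real, Real.norm_of_nonneg
      (Real.exp_pos _).le]
  have e0 : ∑ u ∈ (QS T).filter (fun u => P u.1.1 u.2.1), ∑ i : Bool,
      (Ec * ((co h χ l (j.z1 + th j.δ i) (j.t1 + j.s1) (u.1.1 * u.1.2) *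
        tws s0 τ (j.z1 + th j.δ i) u.1.2) *
      (co h χ l (j.z2 - th j.δ i) (j.t2 + j.s2) (u.2.1 * u.2.2) *
        tws s0 τ (j.z2 - th j.δ i) u.2.2))) •
      (sg i • v (u.1.1 * u.2.1) (u.1.2 * u.2.2)) =
      Ec • ∑ x ∈ V, ((co h χ l (j.z1 + th j.δ x.2) (j.t1 + j.s1) (x.1.1.1 * x.1.1.2) *
        tws s0 τ (j.z1 + th j.δ x.2) x.1.1.2) *
      (co h χ l (j.z2 - th j.δ x.2) (j.t2 + j.s2) (x.1.2.1 * x.1.2.2) *
        tws s0 τ (j.z2 - th j.δ x.2) x.1.2.2)) •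
      (sg x.2 • v (x.1.1.1 * x.1.2.1) (x.1.1.2 * x.1.2.2)) := by
    rw [hV, Finset.sum_product, Finset.smul_sum]
    refine Finset.sum_congr rfl fun u _ => ?_
    rw [Finset.smul_sum]
    refine Finset.sum_congr rfl fun i _ => ?_
    rw [smul_smul Ec]
  rw [e0, norm_smul, hEn]
  have hfac : ∀ x ∈ V, IsPrim x.1.1.1 ∧ IsPrim x.1.1.2 ∧ IsPrim x.1.2.1 ∧ IsPrim x.1.2.2 ∧
      P x.1.1.1 x.1.2.1 ∧ x.1 ∈ QS T := by
    intro x hx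
    rw [hV, Finset.mem_product, Finset.mem_filter] at hx
    obtain ⟨f1, f2, f3, f4, f5, f6, f7, f8⟩ := QS_facts hT3 hx.1.1
    exact ⟨f2, f3, f4, f5, hx.1.2, hx.1.1⟩
  have key := h2v V (fun x => x.1.1.1) (fun x => x.1.1.2) (fun x => x.1.2.1) (fun x => x.1.2.2)
    (fun x => j.z1 + th j.δ x.2) (fun x => j.z2 - th j.δ x.2)
    (fun x => sg x.2 • v (x.1.1.1 * x.1.2.1) (x.1.1.2 * x.1.2.2)) (i : ℝ) α2 τ (j.t1 + j.s1)
    (j.t2 + j.s2) j.t1 j.t2 (D * M) (by positivity) ?_ ?_ ?_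
  · have e1 : (df h χ l μ).len j = j.z1 + j.z2 := rfl
    have e2 : (df h χ l μ).ht j = (1 + |j.s1|) ^ μ * (1 + |j.s2|) ^ μ := rfl
    rw [e1, e2]
    have e3 : j.t1 + j.s1 - j.t1 = j.s1 := by ring
    have e4 : j.t2 + j.s2 - j.t2 = j.s2 := by ring
    rw [e3, e4] at key
    have b3 : Real.exp (-s0 * (j.z1 + j.z2)) * Real.exp (s0 * (i + α2)) ≤
        Real.exp |s0| * Real.exp (-s0 * (j.z1 + j.z2 - α)) := by
      rw [← Real.exp_add, ← Real.exp_add]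
      apply Real.exp_le_exp.2
      have h4 : s0 * (i + α2 - α) ≤ |s0| := by
        have h5 : |s0 * (i + α2 - α)| ≤ |s0| * 1 := by
          rw [abs_mul]
          gcongr
          rw [abs_le]; constructor <;> linarith
        linarith [le_abs_self (s0 * (i + α2 - α))]
      nlinarith
    calc Real.exp (-s0 * (j.z1 + j.z2)) * _
        ≤ Real.exp (-s0 * (j.z1 + j.z2)) * (C1 * Real.exp (s0 * (i + α2)) *
          (1 + |τ|) ^ (2 * μ) * (D * M) * ((1 + |j.s1|) ^ μ * (1 + |j.s2|) ^ μ)) := by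
          gcongr
      _ = C1 * D * (Real.exp (-s0 * (j.z1 + j.z2)) * Real.exp (s0 * (i + α2))) *
          (1 + |τ|) ^ (2 * μ) * M * ((1 + |j.s1|) ^ μ * (1 + |j.s2|) ^ μ) := by ring
      _ ≤ C1 * D * (Real.exp |s0| * Real.exp (-s0 * (j.z1 + j.z2 - α))) *
          (1 + |τ|) ^ (2 * μ) * M * ((1 + |j.s1|) ^ μ * (1 + |j.s2|) ^ μ) := by gcongr
      _ = _ := by rw [hD]; ring
  · intro x hx
    obtain ⟨f2, f3, f4, f5, hPx, hQ⟩ := hfac x hx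
    obtain ⟨g1, g2, g3, g4⟩ := hP x.1 hQ hPx
    refine ⟨f2, f3, ?_⟩
    rw [abs_le]; constructor <;> linarith
  · intro x hx
    obtain ⟨f2, f3, f4, f5, hPx, hQ⟩ := hfac x hx
    obtain ⟨g1, g2, g3, g4⟩ := hP x.1 hQ hPx
    refine ⟨f4, f5, ?_⟩
    rw [abs_le]; constructor <;> linarith
  · intro κ1 κ2 hκ1 hκ2 ζ1 ζ2 t1' t2' hζ1 hζ2
    have e5 : ∑ x ∈ V, ((κ1 x.1.1.1 * co h χ l (j.z1 + th j.δ x.2 + ζ1) t1' x.1.1.2) *
        (κ2 x.1.2.1 * co h χ l (j.z2 - th j.δ x.2 + ζ2) t2' x.1.2.2)) •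
        (sg x.2 • v (x.1.1.1 * x.1.2.1) (x.1.1.2 * x.1.2.2)) =
        ∑ x ∈ V, ((κ1 x.1.1.1 * co h χ l ((j.z1 + ζ1) + th j.δ x.2) t1' x.1.1.2) *
        (κ2 x.1.2.1 * co h χ l ((j.z2 + ζ2) - th j.δ x.2) t2' x.1.2.2)) •
        (sg x.2 • v (x.1.1.1 * x.1.2.1) (x.1.1.2 * x.1.2.2)) := by
      refine Finset.sum_congr rfl fun x _ => ?_
      rw [show j.z1 + th j.δ x.2 + ζ1 = (j.z1 + ζ1) + th j.δ x.2 by ring,
        show j.z2 - th j.δ x.2 + ζ2 = (j.z2 + ζ2) - th j.δ x.2 by ring]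
    rw [e5, hV, class_dw hT3 P κ1 κ2 (j.z1 + ζ1) (j.z2 + ζ2) j.δ t1' t2' v]
    set κ : Eis → ℂ := fun a => if IsPrim a ∧ Real.log (nm a) ≤ α + 1 then
      (D : ℂ)⁻¹ * ∑ a1 ∈ dvs a, (if P a1 (a / a1) then κ1 a1 * κ2 (a / a1) else 0) else 0 with hκ
    have hκ1' : ∀ a, ‖κ a‖ ≤ 1 := by
      intro a
      simp only [hκ]
      by_cases ha : IsPrim a ∧ Real.log (nm a) ≤ α + 1
      · rw [if_pos ha, norm_mul, norm_inv, Complex.norm_real, Real.norm_of_nonneg hD0.le]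
        rw [inv_mul_le_iff₀ hD0, mul_one]
        have t1 : ‖∑ a1 ∈ dvs a, (if P a1 (a / a1) then κ1 a1 * κ2 (a / a1) else 0)‖ ≤
            (tau a : ℝ) := by
          refine (norm_sum_le _ _).trans ?_
          calc ∑ a1 ∈ dvs a, ‖(if P a1 (a / a1) then κ1 a1 * κ2 (a / a1) else 0)‖
              ≤ ∑ a1 ∈ dvs a, (1 : ℝ) := by
                refine Finset.sum_le_sum fun a1 _ => ?_
                split_ifs
                · rw [norm_mul]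
                  calc ‖κ1 a1‖ * ‖κ2 (a / a1)‖ ≤ 1 * 1 :=
                        mul_le_mul (hκ1 _) (hκ2 _) (norm_nonneg _) zero_le_one
                    _ = 1 := one_mul _
                · simp
            _ = tau a := by rw [Finset.sum_const, nsmul_eq_mul, mul_one]; rfl
        refine t1.trans ((hτ a ha.1.ne_zero).trans ?_)
        rw [hD]
        apply mul_le_mul_of_nonneg_left _ (by linarith)
        have hn := one_le_nm' ha.1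
        rw [Real.rpow_def_of_pos (by linarith)]
        apply Real.exp_le_exp.2
        rw [mul_comm]
        have := le_abs_self α
        apply mul_le_mul_of_nonneg_left _ hε.le
        linarith [ha.2]
      · rw [if_neg ha]; simp
    set j' : DI := ⟨j.z1 + ζ1, j.z2 + ζ2, j.δ, t1' - j.t1, t2' - j.t2, j.t1, j.t2⟩ with hj'
    have ew : (df h χ l μ).w j' = dw h χ l (j.z1 + ζ1) (j.z2 + ζ2) j.δ t1' t2' := by
      have q1 : (df h χ l μ).w j' = dw h χ l (j.z1 + ζ1) (j.z2 + ζ2) j.δ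
        (j.t1 + (t1' - j.t1)) (j.t2 + (t2' - j.t2)) := rfl
      rw [q1]
      congr 1 <;> ring
    have e1 : ∑ p ∈ T, ((∑ a1 ∈ dvs p.1, if P a1 (p.1 / a1) then κ1 a1 * κ2 (p.1 / a1) else 0) *
        dw h χ l (j.z1 + ζ1) (j.z2 + ζ2) j.δ t1' t2' p.2) • v p.1 p.2 =
        (D : ℂ) • ∑ p ∈ T, (κ p.1 * (df h χ l μ).w j' p.2) • v p.1 p.2 := by
      rw [Finset.smul_sum]
      refine Finset.sum_congr rfl fun p hp => ?_
      rw [smul_smul]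
      congr 1
      have hp1 : IsPrim p.1 ∧ Real.log (nm p.1) ≤ α + 1 := ⟨(hT p hp).1, (hT p hp).2.2.2.2⟩
      simp only [hκ]
      rw [if_pos hp1, ew]
      have hDc : (D : ℂ) ≠ 0 := by exact_mod_cast hD0.ne'
      field_simp
    rw [e1, norm_smul, Complex.norm_real, Real.norm_of_nonneg hD0.le]
    rw [abs_le] at hζ1 hζ2
    have hi0 : (0 : ℝ) ≤ i := Nat.cast_nonneg i
    have hb' := hb κ hκ1' j' trivial
      ⟨by simp only [hj']; linarith [hζ1.2], by simp only [hj']; linarith [hζ2.2], rfl, rfl, rfl⟩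
      (by
        have e3 : (df h χ l μ).len j' = (j.z1 + ζ1) + (j.z2 + ζ2) := rfl
        have e4 : (df h χ l μ).len j = j.z1 + j.z2 := rfl
        rw [e3, e4]
        linarith [hζ1.2, hζ2.2]) (by
        have e3 : (df h χ l μ).len j' = (j.z1 + ζ1) + (j.z2 + ζ2) := rfl
        have e4 : (df h χ l μ).len j = j.z1 + j.z2 := rfl
        rw [e3, e4]
        linarith [hζ1.1, hζ2.1])
    have e5 : (df h χ l μ).ht j' = (1 + |t1' - j.t1|) ^ μ * (1 + |t2' - j.t2|) ^ μ := rfl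
    rw [e5] at hb'
    calc D * ‖∑ p ∈ T, (κ p.1 * (df h χ l μ).w j' p.2) • v p.1 p.2‖
        ≤ D * (M * ((1 + |t1' - j.t1|) ^ μ * (1 + |t2' - j.t2|) ^ μ)) := by gcongr
      _ = _ := by ring

end Crest.Agent.R017.TP320
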