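import Crest.Agent.R017.ExD5_791
import Crest.Agent.R017.TX2_939
import Crest.Agent.R017.Leg2_381

/-!
# Row 17, exceptional class: principal values of shape differences (6) (helper791)

`exd_Z` : the general form with all divisor functions in `Z^ε`;
`exd_k` : for the members `k` of the family with `χ sy_k ang^l` principal;
`exd_dw` : for 939's difference of shapes `dw`.
-/

set_option autoImplicit false

noncomputable section

open Complex MeasureTheory Filter Topology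
open scoped ContDiff

namespace Crest.Agent.R017.ExD791

open Crest.Agent.R012 Crest.Agent.R012.Eis Crest.Agent.R012.Po581 Crest.Agent.R012.Gauss880
open Crest.Agent.R012.Weight600 (osc norm_osc)
open Crest.Agent.R012.PSer47 Crest.Agent.R012.Div277 Crest.Agent.R012.Mob705
open Crest.Agent.R017.End699 Crest.Agent.R017.FE47 Crest.Agent.R017.Two939
open Crest.Agent.R017.TXC791
open Crest.Agent.R017.CM106 (CS TG FS)
open Crest.Agent.R017.TP320 (conv)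
open Crest.Agent.R017.HP842 (Th sqc FS_conv)
open Crest.Agent.R017.Sup271 (NPm)

/-! ### the classes of weights -/

lemma Fl.up {T D D' : ℝ} {r : Eis} {F : Eis → ℂ} (h : Fl T D r F) (hD : D ≤ D') :
    Fl T D' r F := by
  obtain ⟨u, h1, h2, h3⟩ := h
  exact ⟨u, h1, fun e he h0 => (h2 e he h0).trans hD, h3⟩

lemma Fl_one : Fl 1 1 1 (fun _ => 1) := by
  classical
  refine ⟨fun e => if e = 1 then 1 else 0, fun e _ => ?_, fun e _ h => ?_, fun n hn _ _ => ?_⟩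
  · beta_reduce
    split_ifs <;> simp
  · have : e = 1 := by
      by_contra h0; exact h (if_neg h0)
    rw [this]
    have : nm (1 : Eis) = 1 := by decide
    rw [this]; norm_num
  · rw [Finset.sum_eq_single 1]
    · simp
    · intro e _ he
      simp [he]
    · intro h
      exact absurd (one_mem_dvs hn.ne_zero) h

lemma Fl_natw (z D0 : ℝ) : Fl 1 D0 1 (Leg381.natw z D0) := by
  classical
  refine ⟨fun e => if Rough381.Sm z e ∧ (nm e : ℝ) ≤ D0 then (muE e : ℂ) else 0, fun e _ => ?_,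
    fun e _ h => ?_, fun n _ _ _ => rfl⟩
  · beta_reduce
    split_ifs
    · exact norm_mu_le e
    · simp
  · by_contra h0
    exact h (if_neg fun h' => h0 h'.2)

lemma Fl_fw (z : ℝ) {D0 : ℝ} (hD : 1 ≤ D0) (f : Bool) : Fl 1 D0 1 (Leg381.fw z D0 f) := by
  cases f
  · have : Leg381.fw z D0 false = fun _ => 1 := by
      funext n; unfold Leg381.fw; simp
    rw [this]; exact Fl_one.up hD
  · have : Leg381.fw z D0 true = Leg381.natw z D0 := by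
      funext n; unfold Leg381.fw; simp
    rw [this]; exact Fl_natw z D0

/-- 939's piece -/
lemma co_eq_fp (h : ℝ → ℝ) (χ : Eis → ℂ) (l : ℤ) (y t : ℝ) :
    TP320.co h χ l y t = fp (cx h) (fun b => χ b * ang l b) (fun _ => 1) y t := by
  funext b
  unfold TP320.co fp Hk End699.ext
  split_ifs <;> ring

lemma prin0_mul (a b n : Eis) : prin0 a n * prin0 b n = prin0 (a * b) n := by
  classical
  unfold prin0
  rw [IsCoprime.mul_right_iff]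
  by_cases h1 : IsCoprime n a <;> by_cases h2 : IsCoprime n b <;> simp [h1, h2]

lemma prin_hyp {M : Eis} {χ : Eis → ℂ} (hχ : HC M χ) {l : ℤ} {k : Eis} (hk : k ≠ 0)
    (hp : ¬ NPm M χ l k) (m : Eis) {b : Eis} (hb : IsPrim b) :
    (χ b * ang l b * prin0 m b) * sy k b = prin0 (M * (9 * k) * m) b := by
  classical
  unfold NPm NP at hp
  push Not at hp
  obtain ⟨hl, hbb⟩ := hp
  subst hl
  have hc := Sup271.HC.mul_sy hχ hk
  rw [← prin0_mul]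
  have e1 : ang 0 b = 1 := by simp [ang]
  have e2 : χ b * sy k b = prin0 (M * (9 * k)) b := by
    unfold prin0
    split_ifs with h1
    · exact hbb b hb h1
    · exact hc.van b hb h1
  rw [← e2, e1]
  ring

/-- the saving, final form -/
def Mg (d0 : ℝ) (g : Eis) : ℝ := min 1 ((nm g : ℝ) ^ (1 / 2 : ℝ) * Real.exp (-(d0 / 2)))

lemma Mn_le {e : ℝ} (he : 0 ≤ e) {d0 Z : ℝ} (hZ1 : 1 ≤ Z) (hd0 : Real.exp d0 ≤ Z) {g : Eis}
    (hg : IsPrim g) : Mn (1 / 2 + e) d0 g ≤ Z ^ e * Mg d0 g := by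
  unfold Mn Mg
  have hng := one_le_nm hg
  have hZe : 1 ≤ Z ^ e := Real.one_le_rpow hZ1 he
  have h1 : (nm g : ℝ) ^ (1 - (1 / 2 + e)) * Real.exp (-((1 - (1 / 2 + e)) * d0)) ≤
      Z ^ e * ((nm g : ℝ) ^ (1 / 2 : ℝ) * Real.exp (-(d0 / 2))) := by
    have h2 : (nm g : ℝ) ^ (1 - (1 / 2 + e)) ≤ (nm g : ℝ) ^ (1 / 2 : ℝ) :=
      Real.rpow_le_rpow_of_exponent_le hng (by linarith)
    have h3 : Real.exp (-((1 - (1 / 2 + e)) * d0)) = Real.exp (-(d0 / 2)) * (Real.exp d0) ^ e := by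
      rw [← Real.exp_mul, ← Real.exp_add]; congr 1; ring
    have h4 : (Real.exp d0) ^ e ≤ Z ^ e := Real.rpow_le_rpow (Real.exp_pos _).le hd0 he
    rw [h3]
    calc (nm g : ℝ) ^ (1 - (1 / 2 + e)) * (Real.exp (-(d0 / 2)) * (Real.exp d0) ^ e)
        ≤ (nm g : ℝ) ^ (1 / 2 : ℝ) * (Real.exp (-(d0 / 2)) * Z ^ e) := by gcongr
      _ = _ := by ring
  rw [mul_min_of_nonneg _ _ (by positivity), mul_one]
  exact min_le_min hZe h1

set_option maxHeartbeats 1000000 in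
/-- **general form, divisor functions absorbed** -/
theorem exd_Z {w : ℝ → ℂ} (hw1 : ContDiff ℝ ∞ w) (hw2 : HasCompactSupport w) {ε : ℝ}
    (hε : 0 < ε) :
    ∃ C : ℝ, 1 ≤ C ∧ ∀ X1 X2 Ψ : Eis → ℂ, IsChar X1 → IsChar X2 → IsChar Ψ →
      ∀ ρ1 ρ2 : Eis, ρ1 ≠ 0 → ρ2 ≠ 0 → (∀ b, IsPrim b → X1 b * Ψ b = prin0 ρ1 b) →
      (∀ b, IsPrim b → X2 b * Ψ b = prin0 ρ2 b) → ∀ (T D : ℝ) (F1 F2 : Eis → ℂ), 0 ≤ T → 0 ≤ D →
      Fl T D 1 F1 → Fl T D 1 F2 → ∀ y1 y2 δ t1 t2 d0 : ℝ, d0 ≤ y1 → d0 ≤ y2 → d0 ≤ y1 + δ →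
      d0 ≤ y2 - δ → ∀ v : Eis → ℂ, FS v → ∀ (q g : Eis), q ≠ 0 → IsPrim g → ∀ V : ℝ,
      (∀ a, IsPrim a → a ∣ g → ∑' m : Eis, ‖v (a * m)‖ ≤ V / nm a) → ∀ Z : ℝ, 1 ≤ Z →
      (nm ρ1 : ℝ) ≤ Z → (nm ρ2 : ℝ) ≤ Z → (nm q : ℝ) ≤ Z → (nm g : ℝ) ≤ Z → Real.exp d0 ≤ Z →
      (∀ n, v n ≠ 0 → (nm n : ℝ) ≤ Z) → ∀ t : ℝ,
      ‖∑' n : Eis, sqc q (conv (fun n => conv (fp w X1 F1 y1 t1) (fp w X2 F2 y2 t2) n -
          conv (fp w X1 F1 (y1 + δ) t1) (fp w X2 F2 (y2 - δ) t2) n) v) (g * n) *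
          (osc t (Real.log (nm n)) * Ψ n)‖ ≤
        C * Z ^ ε * (T ^ 2 * D ^ 2) * ((1 + |t1 + t|) * (1 + |t2 + t|)) ^ 3 *
          ((Real.exp (y1 + y2) * V / nm g) * Mg d0 g) := by
  classical
  set e := min (ε / 13) (1 / 2) with he
  have he0 : 0 < e := by rw [he]; exact lt_min (by positivity) (by norm_num)
  have he1 : e ≤ 1 / 2 := min_le_right _ _
  have he2 : 13 * e ≤ ε := by
    have : e ≤ ε / 13 := min_le_left _ _
    linarith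
  obtain ⟨C, hC, hb⟩ := exd_gen hw1 hw2 (s := 1 / 2 + e) (by linarith) (by linarith)
  obtain ⟨C1, hC1, hτ⟩ := tau_le_rpow he0
  refine ⟨1 + C * C1 ^ 12, by
    have : 0 ≤ C * C1 ^ 12 := by positivity
    linarith, ?_⟩
  intro X1 X2 Ψ hX1 hX2 hΨ ρ1 ρ2 hρ1 hρ2 hp1 hp2 T D F1 F2 hT hD hF1 hF2 y1 y2 δ t1 t2 d0 hy1 hy2
    hy3 hy4 v hv q g hq hg V hV Z hZ1 hZρ1 hZρ2 hZq hZg hZd hZv t
  have hτZ : ∀ x : Eis, x ≠ 0 → (nm x : ℝ) ≤ Z → (tau x : ℝ) ≤ C1 * Z ^ e := by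
    intro x hx hxZ
    refine (hτ x hx).trans ?_
    gcongr
  set E := Z ^ e with hE
  have hE1 : 1 ≤ E := Real.one_le_rpow hZ1 he0.le
  have hV0 : 0 ≤ V := by
    have h1 := hV 1 isPrim_one (one_dvd g)
    have h2 : 0 ≤ ∑' m : Eis, ‖v (1 * m)‖ := tsum_nonneg fun _ => norm_nonneg _
    have h3 : nm (1 : Eis) = 1 := by decide
    rw [h3] at h1
    have : V / ((1 : ℕ) : ℝ) = V := by norm_num
    linarith
  have hV' : ∀ a, IsPrim a → a ∣ g → ∑' m : Eis, ‖v (a * m)‖ * (tau m : ℝ) ^ 2 ≤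
      ((C1 * E) ^ 2 * V) / nm a := by
    intro a ha had
    have hs0 : Summable fun m : Eis => ‖v (a * m)‖ := by
      refine summable_of_ne_finset_zero (s := (FS.subm hv ha).fin.toFinset) fun m hm => ?_
      have : v (a * m) = 0 := by
        by_contra h0
        exact hm ((FS.subm hv ha).fin.mem_toFinset.2 h0)
      rw [this, norm_zero]
    have hle : ∀ m : Eis, ‖v (a * m)‖ * (tau m : ℝ) ^ 2 ≤ (C1 * E) ^ 2 * ‖v (a * m)‖ := by
      intro m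
      by_cases h0 : v (a * m) = 0
      · rw [h0]; simp
      · have hmp : IsPrim m := (FS.subm hv ha).prim m h0
        have hnm : (nm m : ℝ) ≤ Z := by
          refine le_trans ?_ (hZv _ h0)
          exact_mod_cast nm_le_of_dvd (ha.mul hmp).ne_zero (dvd_mul_left m a)
        have := hτZ m hmp.ne_zero hnm
        rw [mul_comm]
        gcongr
    have hs1 : Summable fun m : Eis => ‖v (a * m)‖ * (tau m : ℝ) ^ 2 :=
      Summable.of_nonneg_of_le (fun m => by positivity) hle (hs0.mul_left _)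
    calc ∑' m : Eis, ‖v (a * m)‖ * (tau m : ℝ) ^ 2 ≤ ∑' m : Eis, (C1 * E) ^ 2 * ‖v (a * m)‖ :=
          hs1.tsum_le_tsum hle (hs0.mul_left _)
      _ = (C1 * E) ^ 2 * ∑' m : Eis, ‖v (a * m)‖ := tsum_mul_left
      _ ≤ (C1 * E) ^ 2 * (V / nm a) := by
          gcongr
          exact hV a ha had
      _ = _ := by ring
  have main := hb X1 X2 Ψ hX1 hX2 hΨ ρ1 ρ2 hρ1 hρ2 hp1 hp2 T D F1 F2 hT hD hF1 hF2 y1 y2 δ t1 t2 d0
    hy1 hy2 hy3 hy4 v hv q g hq hg _ hV' t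
  refine main.trans ?_
  have hMg0 : 0 ≤ Mg d0 g := by unfold Mg; positivity
  have hMn0 : 0 ≤ Mn (1 / 2 + e) d0 g := by unfold Mn; positivity
  have hMn := Mn_le he0.le hZ1 hZd hg
  rw [← hE] at hMn
  set TT := ((1 + |t1 + t|) * (1 + |t2 + t|)) ^ 3 with hTT
  have hTT0 : 0 ≤ TT := by positivity
  have q1 : (tau q : ℝ) ^ 2 * (tau g : ℝ) ^ 6 * (tau ρ1 * tau ρ2) ≤ (C1 * E) ^ 10 := by
    calc (tau q : ℝ) ^ 2 * (tau g : ℝ) ^ 6 * (tau ρ1 * tau ρ2)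
        ≤ (C1 * E) ^ 2 * (C1 * E) ^ 6 * ((C1 * E) * (C1 * E)) := by
          gcongr
          · exact hτZ q hq hZq
          · exact hτZ g hg.ne_zero hZg
          · exact hτZ ρ1 hρ1 hZρ1
          · exact hτZ ρ2 hρ2 hZρ2
      _ = _ := by ring
  have hE13 : E ^ 13 ≤ Z ^ ε := by
    rw [hE, ← Real.rpow_natCast, ← Real.rpow_mul (by linarith)]
    exact Real.rpow_le_rpow_of_exponent_le hZ1 (by push_cast; linarith)
  calc C * (T ^ 2 * D ^ 2) * ((tau q : ℝ) ^ 2 * (tau g : ℝ) ^ 6 * (tau ρ1 * tau ρ2)) * TT *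
        ((Real.exp (y1 + y2) * ((C1 * E) ^ 2 * V) / nm g) * Mn (1 / 2 + e) d0 g)
      ≤ C * (T ^ 2 * D ^ 2) * (C1 * E) ^ 10 * TT *
        ((Real.exp (y1 + y2) * ((C1 * E) ^ 2 * V) / nm g) * (E * Mg d0 g)) := by gcongr
    _ = (C * C1 ^ 12) * E ^ 13 * (T ^ 2 * D ^ 2) * TT *
        ((Real.exp (y1 + y2) * V / nm g) * Mg d0 g) := by ring
    _ ≤ (1 + C * C1 ^ 12) * Z ^ ε * (T ^ 2 * D ^ 2) * TT *
        ((Real.exp (y1 + y2) * V / nm g) * Mg d0 g) := by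
        have : C * C1 ^ 12 ≤ 1 + C * C1 ^ 12 := by linarith
        gcongr

/-- **for the members of the family** -/
theorem exd_k {w : ℝ → ℂ} (hw1 : ContDiff ℝ ∞ w) (hw2 : HasCompactSupport w) {ε : ℝ}
    (hε : 0 < ε) :
    ∃ C : ℝ, 1 ≤ C ∧ ∀ (M : Eis) (χ : Eis → ℂ), HC M χ → ∀ (l : ℤ) (k m1 m2 : Eis), k ≠ 0 →
      m1 ≠ 0 → m2 ≠ 0 → ¬ NPm M χ l k → ∀ (T D : ℝ) (F1 F2 : Eis → ℂ), 0 ≤ T → 0 ≤ D →
      Fl T D 1 F1 → Fl T D 1 F2 → ∀ y1 y2 δ t1 t2 d0 : ℝ, d0 ≤ y1 → d0 ≤ y2 → d0 ≤ y1 + δ →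
      d0 ≤ y2 - δ → ∀ v : Eis → ℂ, FS v → ∀ (q g : Eis), q ≠ 0 → IsPrim g → ∀ V : ℝ,
      (∀ a, IsPrim a → a ∣ g → ∑' m : Eis, ‖v (a * m)‖ ≤ V / nm a) → ∀ Z : ℝ, 1 ≤ Z →
      (nm M : ℝ) ≤ Z → (nm k : ℝ) ≤ Z → (nm m1 : ℝ) ≤ Z → (nm m2 : ℝ) ≤ Z → (nm q : ℝ) ≤ Z →
      (nm g : ℝ) ≤ Z → Real.exp d0 ≤ Z → (∀ n, v n ≠ 0 → (nm n : ℝ) ≤ Z) → ∀ t : ℝ,
      ‖∑' n : Eis, sqc q (conv (fun n =>
          conv (fp w (fun b => χ b * ang l b * prin0 m1 b) F1 y1 t1)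
            (fp w (fun b => χ b * ang l b * prin0 m2 b) F2 y2 t2) n -
          conv (fp w (fun b => χ b * ang l b * prin0 m1 b) F1 (y1 + δ) t1)
            (fp w (fun b => χ b * ang l b * prin0 m2 b) F2 (y2 - δ) t2) n) v) (g * n) *
          (osc t (Real.log (nm n)) * sy k n)‖ ≤
        C * Z ^ ε * (T ^ 2 * D ^ 2) * ((1 + |t1 + t|) * (1 + |t2 + t|)) ^ 3 *
          ((Real.exp (y1 + y2) * V / nm g) * Mg d0 g) := by
  obtain ⟨C, hC, hb⟩ := exd_Z hw1 hw2 (ε := ε / 3) (by positivity)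
  refine ⟨C * 81 ^ (ε / 3), one_le_mul_of_one_le_of_one_le hC
    (Real.one_le_rpow (by norm_num) (by positivity)), ?_⟩
  intro M χ hχ l k m1 m2 hk hm1 hm2 hp T D F1 F2 hT hD hF1 hF2 y1 y2 δ t1 t2 d0 hy1 hy2 hy3 hy4
    v hv q g hq hg V hV Z hZ1 hZM hZk hZm1 hZm2 hZq hZg hZd hZv t
  have hZ0 : 0 ≤ Z := by linarith
  have hX : ∀ m, IsChar (fun b => χ b * ang l b * prin0 m b) := fun m =>
    (hχ.char.mul' (ang_isChar l)).mul' (isChar_prin0 m)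
  have h9 : (9 : Eis) ≠ 0 := nine_ne
  have hρ : ∀ m : Eis, m ≠ 0 → M * (9 * k) * m ≠ 0 := fun m hm =>
    mul_ne_zero (mul_ne_zero hχ.q0 (mul_ne_zero h9 hk)) hm
  have hn9 : nm (9 : Eis) = 81 := by decide
  have hZZ : Z ≤ 81 * Z ^ 3 := by nlinarith [pow_le_pow_right₀ hZ1 (show 1 ≤ 3 by norm_num)]
  have hρZ : ∀ m : Eis, (nm m : ℝ) ≤ Z → (nm (M * (9 * k) * m) : ℝ) ≤ 81 * Z ^ 3 := by
    intro m hm
    rw [nm_mul, nm_mul, nm_mul, hn9]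
    push_cast
    calc (nm M : ℝ) * (81 * nm k) * nm m ≤ Z * (81 * Z) * Z := by gcongr
      _ = _ := by ring
  have main := hb _ _ (sy k) (hX m1) (hX m2) (Char766.isChar_sy k) _ _ (hρ m1 hm1) (hρ m2 hm2)
    (fun b hb' => prin_hyp hχ hk hp m1 hb') (fun b hb' => prin_hyp hχ hk hp m2 hb') T D F1 F2 hT hD
    hF1 hF2 y1 y2 δ t1 t2 d0 hy1 hy2 hy3 hy4 v hv q g hq hg V hV (81 * Z ^ 3) (by linarith)
    (hρZ m1 hZm1) (hρZ m2 hZm2) (hZq.trans hZZ) (hZg.trans hZZ) (hZd.trans hZZ)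
    (fun n hn => (hZv n hn).trans hZZ) t
  have e1 : (81 * Z ^ 3) ^ (ε / 3) = 81 ^ (ε / 3) * Z ^ ε := by
    rw [Real.mul_rpow (by norm_num) (by positivity), ← Real.rpow_natCast, ← Real.rpow_mul hZ0]
    congr 2
    push_cast; ring
  rw [e1] at main
  refine main.trans (le_of_eq ?_)
  ring

/-- **939's difference of shapes** -/
theorem exd_dw {h : ℝ → ℝ} {c : ℝ} (hpu : PU h c) {ε : ℝ} (hε : 0 < ε) :
    ∃ C : ℝ, 1 ≤ C ∧ ∀ (M : Eis) (χ : Eis → ℂ), HC M χ → ∀ (l : ℤ) (k : Eis), k ≠ 0 →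
      ¬ NPm M χ l k → ∀ y1 y2 δ t1 t2 d0 : ℝ, d0 ≤ y1 → d0 ≤ y2 → d0 ≤ y1 + δ →
      d0 ≤ y2 - δ → ∀ v : Eis → ℂ, FS v → ∀ (q g : Eis), q ≠ 0 → IsPrim g → ∀ V : ℝ,
      (∀ a, IsPrim a → a ∣ g → ∑' m : Eis, ‖v (a * m)‖ ≤ V / nm a) → ∀ Z : ℝ, 1 ≤ Z →
      (nm M : ℝ) ≤ Z → (nm k : ℝ) ≤ Z → (nm q : ℝ) ≤ Z →
      (nm g : ℝ) ≤ Z → Real.exp d0 ≤ Z → (∀ n, v n ≠ 0 → (nm n : ℝ) ≤ Z) → ∀ t : ℝ,
      ‖∑' n : Eis, sqc q (conv (TP320.dw h χ l y1 y2 δ t1 t2) v) (g * n) *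
          (osc t (Real.log (nm n)) * sy k n)‖ ≤
        C * Z ^ ε * ((1 + |t1 + t|) * (1 + |t2 + t|)) ^ 3 *
          ((Real.exp (y1 + y2) * V / nm g) * Mg d0 g) := by
  obtain ⟨C, hC, hb⟩ := exd_k (cd_cx hpu.cd) (cs_cx hpu.cs) hε
  refine ⟨C, hC, ?_⟩
  intro M χ hχ l k hk hp y1 y2 δ t1 t2 d0 hy1 hy2 hy3 hy4 v hv q g hq hg V hV Z hZ1 hZM hZk hZq hZg
    hZd hZv t
  have h1 : (nm (1 : Eis) : ℝ) ≤ Z := by
    have : nm (1 : Eis) = 1 := by decide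
    rw [this]; simpa using hZ1
  have main := hb M χ hχ l k 1 1 hk one_ne_zero one_ne_zero hp 1 1 (fun _ => 1) (fun _ => 1)
    zero_le_one zero_le_one Fl_one Fl_one y1 y2 δ t1 t2 d0 hy1 hy2 hy3 hy4 v hv q g hq hg V hV Z hZ1
    hZM hZk h1 h1 hZq hZg hZd hZv t
  have e1 : (fun b : Eis => χ b * ang l b * prin0 1 b) = fun b => χ b * ang l b := by
    funext b
    unfold prin0
    rw [if_pos isCoprime_one_right, mul_one]
  have e2 : (fun n => conv (fp (cx h) (fun b => χ b * ang l b * prin0 1 b) (fun _ => 1) y1 t1)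
      (fp (cx h) (fun b => χ b * ang l b * prin0 1 b) (fun _ => 1) y2 t2) n -
      conv (fp (cx h) (fun b => χ b * ang l b * prin0 1 b) (fun _ => 1) (y1 + δ) t1)
      (fp (cx h) (fun b => χ b * ang l b * prin0 1 b) (fun _ => 1) (y2 - δ) t2) n) =
      TP320.dw h χ l y1 y2 δ t1 t2 := by
    funext n
    unfold TP320.dw
    rw [e1, co_eq_fp, co_eq_fp, co_eq_fp, co_eq_fp]
  rw [e2] at main
  refine main.trans (le_of_eq ?_)
  ring

/-- the size of the rest, from a supremum and a support -/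
lemma V_of_sup {v : Eis → ℂ} (hv : FS v) {B E : ℝ} (hB : 0 ≤ B) (hE : 0 ≤ E)
    (hb : ∀ n, ‖v n‖ ≤ B) (hs : ∀ n, v n ≠ 0 → (nm n : ℝ) ≤ E) {a : Eis} (ha : IsPrim a) :
    ∑' m : Eis, ‖v (a * m)‖ ≤ (18 * B * E) / nm a := by
  classical
  have hna : (0 : ℝ) < nm a := by linarith [one_le_nm ha]
  rw [tsum_eq_sum (s := primBall ⌊E / nm a⌋₊)]
  · calc ∑ m ∈ primBall ⌊E / nm a⌋₊, ‖v (a * m)‖ ≤ ∑ _m ∈ primBall ⌊E / nm a⌋₊, B :=
          Finset.sum_le_sum fun m _ => hb _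
      _ = (primBall ⌊E / nm a⌋₊).card * B := by rw [Finset.sum_const, nsmul_eq_mul]
      _ ≤ (18 * (E / nm a)) * B := by
          gcongr
          have h4 : ((primBall ⌊E / nm a⌋₊).card : ℝ) ≤ ((18 * ⌊E / nm a⌋₊ : ℕ) : ℝ) := by
            exact_mod_cast card_primBall_le' _
          refine h4.trans ?_
          push_cast
          gcongr
          exact Nat.floor_le (by positivity)
      _ = _ := by ring
  · intro m hm
    have : v (a * m) = 0 := by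
      by_contra h0
      apply hm
      have hmp : IsPrim m := (FS.subm hv ha).prim m h0
      rw [mem_primBall]
      refine ⟨Nat.le_floor ?_, hmp⟩
      have h1 := hs _ h0
      rw [nm_mul] at h1
      push_cast at h1
      rw [le_div_iff₀ hna]
      linarith
    rw [this, norm_zero]

end Crest.Agent.R017.ExD791
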