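import Crest.Agent.R017.XRG2_106

/-!
# Row 17, exceptional class: data with characters only (helper848)

* `OKi P` : the two characters of the kinds are characters (weaker than `P.OK`)
* the `OKi` versions of the lemmas on pieces of `ProvI_71`, `XHB4_411`, `XRG1_106`, `XRG2_106`
-/

set_option autoImplicit false

noncomputable section

open Complex
open scoped ComplexConjugate

namespace Crest.Agent.R017.OKi848

open Crest.Agent.R012 Crest.Agent.R012.Eis Crest.Agent.R012.LS2 Crest.Agent.R012.Gauss880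
open Crest.Agent.R012.PSer47 (IsChar ang_isChar)
open Crest.Agent.R012.Div277 Crest.Agent.R012.Weight600
open Crest.Agent.R017.CM106 Crest.Agent.R017.FE47 Crest.Agent.R017.End699
open Crest.Agent.R017.B770
open Crest.Agent.R017.Prov71
open Crest.Agent.R017.HP842 (UT Pc pc KS sqc Kg uv alL al ssub norm_uv_le pc_support)
open Crest.Agent.R017.HSep813 (gw norm_gw_le)
open Crest.Agent.R017.TPOk571 (IP FP SD SD_w SD_len SD_ht sd_ok AC relU)
open Crest.Agent.R017.XRG106 (rep chd alL_ofFn norm_pc_le norm_CS_le exists_mod)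

/-- the characters of the kinds are characters -/
def OKi (P : DPar) : Prop := ∀ t : Kd, IsChar (chK P t)

lemma OKi.of {P : DPar} (hP : P.OK) : OKi P := isChar_chK hP

lemma ok_pc {P : DPar} (hP : OKi P) (p : Pq) : (p.pc P).OK where
  ch := (hP p.kd).mul' (HP842.prin0_isChar p.d)
  Y0 := Real.exp_pos _

lemma ok_map {P : DPar} (hP : OKi P) (ps : List Pq) : ∀ p ∈ ps.map (Pq.pc P), p.OK := by
  intro p hp
  obtain ⟨x, _, rfl⟩ := List.mem_map.1 hp
  exact ok_pc hP x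

/-- **test pieces** -/
theorem exists_test {h : ℝ → ℝ} {c : ℝ} (hpu : PU h c) {R : ℝ}
    (hR : ∀ u, cx h u ≠ 0 → |u| ≤ R) : ∃ (D : Eis) (z η : ℝ) (hD : D ≠ 0), 0 ≤ z ∧ 0 < η ∧
      ∀ (P : DPar), OKi P → ∀ (kd : Kd) (k : Eis),
        ‖CS (pc h ((⟨kd, .one, D, hD, z, 0⟩ : Pq).pc P)) k‖ = η := by
  classical
  obtain ⟨n, hn⟩ : ∃ n : ℕ, h (0 - c * n) ≠ 0 := by
    by_contra hc
    push Not at hc
    have h1 := hpu.one 0 le_rfl
    rw [tsum_congr hc, tsum_zero] at h1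
    exact zero_ne_one h1
  set z : ℝ := c * n with hz
  have hz0 : 0 ≤ z := mul_nonneg hpu.cpos.le (Nat.cast_nonneg n)
  obtain ⟨D, hD, hkill⟩ := exists_mod ⌈Real.exp R * Real.exp z⌉₊
  refine ⟨D, z, ‖cx h (0 - z)‖, hD, hz0, ?_, ?_⟩
  · rw [norm_pos_iff]
    unfold cx
    exact_mod_cast hn
  intro P hP kd k
  have hok := ok_pc hP (⟨kd, .one, D, hD, z, 0⟩ : Pq)
  unfold CM106.CS
  rw [tsum_eq_single 1]
  · have e1 : pc h ((⟨kd, .one, D, hD, z, 0⟩ : Pq).pc P) 1 = cx h (0 - z) := by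
      unfold HP842.pc
      rw [if_pos isPrim_one, hok.ch.one]
      simp only [Pq.pc_u, Pq.pc_Y, Pq.pc_t]
      unfold gw
      rw [osc_zero_left]
      simp [uv]
    rw [e1, Sym645.sy_one_right, mul_one]
  · intro m hm
    have e1 : pc h ((⟨kd, .one, D, hD, z, 0⟩ : Pq).pc P) m = 0 := by
      by_contra h0
      obtain ⟨h1, h2⟩ := pc_support hR hok.Y0 h0
      simp only [Pq.pc_Y] at h2
      have h3 : prin0 D m = 0 := by
        refine hkill m h1 hm ?_
        exact_mod_cast h2.trans (Nat.le_ceil _)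
      apply h0
      unfold HP842.pc
      rw [if_pos h1]
      simp only [Pq.pc_ψ]
      rw [h3]
      ring
    rw [e1, zero_mul]

/-- **replacement** -/
theorem exists_rep {h : ℝ → ℝ} {c : ℝ} (hpu : PU h c) {R : ℝ}
    (hR : ∀ u, cx h u ≠ 0 → |u| ≤ R) : ∃ (T : Kd → Pq) (C : ℝ), 1 ≤ C ∧
      (∀ kd, (T kd).kd = kd ∧ (T kd).u = .one ∧ 0 ≤ (T kd).z ∧ (T kd).z ≤ C ∧ (T kd).t = 0 ∧
        (nm (T kd).d : ℝ) ≤ C) ∧
      ∀ (P : DPar), OKi P → ∀ (p : Pq) (k : Eis),
        ‖CS (pc h (p.pc P)) k‖ ≤ C * ‖CS (pc h ((rep T p).pc P)) k‖ := by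
  classical
  obtain ⟨D, z, η, hD, hz, hη, ht⟩ := exists_test hpu hR
  obtain ⟨H1, hH1⟩ := (cs_cx hpu.cs).exists_bound_of_continuous (cd_cx hpu.cd).continuous
  set H0 : ℝ := max 1 H1 with hH0d
  have hH01 : 1 ≤ H0 := le_max_left _ _
  have hH : ∀ u, ‖cx h u‖ ≤ H0 := fun u => (hH1 u).trans (le_max_right _ _)
  set M : ℝ := ((primBall ⌈Real.exp R⌉₊).card : ℝ) * H0 with hM
  have hM0 : 0 ≤ M := by positivity
  refine ⟨fun kd => ⟨kd, .one, D, hD, z, 0⟩, max 1 (max z (max (nm D) (M / η))),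
    le_max_left _ _, ?_, ?_⟩
  · intro kd
    refine ⟨rfl, rfl, hz, ?_, rfl, ?_⟩
    · exact (le_max_left _ _).trans (le_max_right _ _)
    · exact (le_max_left _ _).trans ((le_max_right _ _).trans (le_max_right _ _))
  · intro P hP p k
    have hC1 : 1 ≤ max 1 (max z (max (nm D : ℝ) (M / η))) := le_max_left _ _
    have hC2 : M / η ≤ max 1 (max z (max (nm D : ℝ) (M / η))) :=
      (le_max_right _ _).trans ((le_max_right _ _).trans (le_max_right _ _))
    unfold XRG106.rep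
    by_cases hp : p.z < 0
    · rw [if_pos hp, ht P hP]
      have h1 : ‖CS (pc h (p.pc P)) k‖ ≤ M := by
        refine norm_CS_le (A := primBall ⌈Real.exp R⌉₊) (fun m hm => ?_)
          (fun m hm => (mem_primBall.1 hm).2) (norm_pc_le (by linarith) hH (ok_pc hP p)) k
        obtain ⟨h1, h2⟩ := pc_support hR (ok_pc hP p).Y0 hm
        rw [mem_primBall]
        refine ⟨?_, h1⟩
        simp only [Pq.pc_Y] at h2
        have h3 : (nm m : ℝ) ≤ Real.exp R := h2.trans (by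
          have : Real.exp p.z ≤ 1 := Real.exp_le_one_iff.2 hp.le
          have h4 := Real.exp_pos R
          nlinarith)
        exact_mod_cast h3.trans (Nat.le_ceil _)
      refine h1.trans ?_
      rw [div_le_iff₀ hη] at hC2
      exact hC2
    · rw [if_neg hp]
      exact le_mul_of_one_le_left (norm_nonneg _) hC1

/-- pieces of length `< -R` vanish -/
lemma CS_eq_zero {h : ℝ → ℝ} {R : ℝ} (hR : ∀ u, cx h u ≠ 0 → |u| ≤ R) {P : DPar} (hP : OKi P)
    {p : Pq} (hp : p.z < -R) (k : Eis) : CS (pc h (p.pc P)) k = 0 := by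
  unfold CM106.CS
  rw [tsum_congr (g := fun _ => 0), tsum_zero]
  intro m
  have : pc h (p.pc P) m = 0 := by
    by_contra h0
    obtain ⟨h1, h2⟩ := pc_support hR (ok_pc hP p).Y0 h0
    simp only [Pq.pc_Y] at h2
    have h3 : (1 : ℝ) ≤ nm m := by exact_mod_cast nm_pos.2 h1.ne_zero
    have h4 : Real.exp R * Real.exp p.z < 1 := by
      rw [← Real.exp_add, Real.exp_lt_one_iff]
      linarith
    linarith
  rw [this, zero_mul]

/-- the index of a piece -/
def ip {P : DPar} (hP : OKi P) (p : Pq) : IP := ⟨p.u, ⟨(p.pc P).ψ, (ok_pc hP p).ch⟩, p.z, 0, p.t⟩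

lemma ip_pc {P : DPar} (hP : OKi P) (p : Pq) : (ip hP p).pc = p.pc P := by
  unfold TPOk571.IP.pc ip Pq.pc
  simp

lemma chd_pc {P : DPar} (hP : OKi P) {p : Pq} {j : IP} (hψ : j.ψ = (ip hP p).ψ) :
    (chd p j).pc P = j.pc := by
  have h1 : j.ψ.1 = (p.pc P).ψ := by rw [hψ]; rfl
  have h2 : ((chd p j).pc P).ψ = j.ψ.1 := by rw [h1]; rfl
  unfold TPOk571.IP.pc
  rw [← h2]
  rfl

lemma CS_al {h : ℝ → ℝ} (hh : Bump h) {P : DPar} (hP : OKi P) {r : ℕ} (s : Fin r → Pq) (k : Eis) :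
    CS (al h (fun i => (s i).pc P)) k = ∏ i, CS (pc h ((s i).pc P)) k := by
  rw [← alL_ofFn, CS_alL hh (ok_map hP _), List.map_map, List.map_ofFn, List.prod_ofFn]
  rfl

end Crest.Agent.R017.OKi848
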