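import Crest.Agent.R017.XC1_858

/-!
# Row 17, sides: rule (C) for lists of sequences and general kernels (helper858)

* `tsum_conv'`, `conv_assoc`, `conv_comm`, `oneS_conv`, `conv_oneS`
* `cvL fs` : convolution of a list of sequences; `cvL_append`, `cvL_perm`, `FS_cvL`, `CS_cvL`
* `KS_sqc_conv` : exact split for every kernel with `Ker`
* `ruleC_K`, `ruleC_L` : rule (C) for every kernel with `Ker`
* `cvL_Cf`, `l2_cvL` : size of the convolution of a list
-/

set_option autoImplicit false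

noncomputable section

open Complex
open scoped ComplexConjugate

namespace Crest.Agent.R017.XC858

open Crest.Agent.R012 Crest.Agent.R012.Eis Crest.Agent.R012.LS2 Crest.Agent.R012.Gauss880
open Crest.Agent.R012.Div277 (tau dvs mem_dvs tau_le_rpow)
open Crest.Agent.R017.CM106 Crest.Agent.R017.HP842
open Crest.Agent.R017.TP320 (conv VG VC VG_nonneg VG_mono tsum_conv)
open Crest.Agent.R017.LBp744 (oneS mulS Cf)

/-! ### the convolution is associative and commutative -/

lemma FS_conv {a b : Eis → ℂ} (ha : FS a) (hb : FS b) : FS (conv a b) :=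
  LBp744.FS.mulS ha hb

lemma tsum_fs {a : Eis → ℂ} (ha : FS a) (f : Eis → ℂ) :
    ∑' n : Eis, a n * f n = ∑ n ∈ ha.fin.toFinset, a n * f n := LBp744.tsum_FS ha f

/-- sums over a convolution, nested form -/
lemma tsum_conv' {a b : Eis → ℂ} (ha : FS a) (hb : FS b) (f : Eis → ℂ) :
    ∑' n, conv a b n * f n = ∑' x, a x * ∑' y, b y * f (x * y) := by
  classical
  rw [tsum_conv ha hb]
  set A := ha.fin.toFinset with hA
  set B := hb.fin.toFinset with hB
  rw [tsum_eq_sum (s := A ×ˢ B), Finset.sum_product, tsum_fs ha, ← hA]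
  · refine Finset.sum_congr rfl fun x _ => ?_
    rw [tsum_fs hb, ← hB, Finset.mul_sum]
    exact Finset.sum_congr rfl fun y _ => by ring
  · intro p hp
    by_contra h0
    apply hp
    rw [Finset.mem_product]
    have h3 := left_ne_zero_of_mul h0
    exact ⟨ha.fin.mem_toFinset.2 (left_ne_zero_of_mul h3),
      hb.fin.mem_toFinset.2 (right_ne_zero_of_mul h3)⟩

/-- sequences are determined by their sums -/
lemma ext_tsum {a b : Eis → ℂ} (h : ∀ f : Eis → ℂ, ∑' n, a n * f n = ∑' n, b n * f n) : a = b := by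
  classical
  funext m
  have h1 := h fun n => if n = m then 1 else 0
  have key : ∀ c : Eis → ℂ, ∑' n, c n * (if n = m then (1 : ℂ) else 0) = c m := by
    intro c
    rw [tsum_eq_single m]
    · rw [if_pos rfl, mul_one]
    · intro n hn
      rw [if_neg hn, mul_zero]
  rwa [key, key] at h1

theorem conv_assoc {a b c : Eis → ℂ} (ha : FS a) (hb : FS b) (hc : FS c) :
    conv (conv a b) c = conv a (conv b c) := by
  refine ext_tsum fun f => ?_
  rw [tsum_conv' (FS_conv ha hb) hc, tsum_conv' ha hb, tsum_conv' ha (FS_conv hb hc)]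
  refine tsum_congr fun x => ?_
  rw [tsum_conv' hb hc]
  congr 1
  refine tsum_congr fun y => ?_
  congr 1
  refine tsum_congr fun z => ?_
  rw [mul_assoc x y z]

theorem conv_comm {a b : Eis → ℂ} (ha : FS a) (hb : FS b) : conv a b = conv b a := by
  refine ext_tsum fun f => ?_
  rw [tsum_conv ha hb, tsum_conv hb ha]
  rw [← (Equiv.prodComm Eis Eis).tsum_eq fun p : Eis × Eis => b p.1 * a p.2 * f (p.1 * p.2)]
  refine tsum_congr fun p => ?_
  show a p.1 * b p.2 * f (p.1 * p.2) = b p.2 * a p.1 * f (p.2 * p.1)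
  rw [mul_comm p.2 p.1]; ring

lemma tsum_oneS (f : Eis → ℂ) : ∑' n, oneS n * f n = f 1 := by
  rw [tsum_eq_single (1 : Eis)]
  · unfold LBp744.oneS; rw [if_pos rfl, one_mul]
  · intro n hn
    unfold LBp744.oneS; rw [if_neg hn, zero_mul]

theorem oneS_conv {a : Eis → ℂ} (ha : FS a) : conv oneS a = a := by
  refine ext_tsum fun f => ?_
  rw [tsum_conv' LBp744.FS.oneS ha, tsum_oneS]
  refine tsum_congr fun n => ?_
  rw [one_mul]

theorem conv_oneS {a : Eis → ℂ} (ha : FS a) : conv a oneS = a := by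
  rw [conv_comm ha LBp744.FS.oneS, oneS_conv ha]

/-- the convolution of a list of sequences -/
def cvL : List (Eis → ℂ) → Eis → ℂ
  | [] => oneS
  | f :: fs => conv f (cvL fs)

@[simp] lemma cvL_nil : cvL [] = oneS := rfl

@[simp] lemma cvL_cons (f : Eis → ℂ) (fs : List (Eis → ℂ)) : cvL (f :: fs) = conv f (cvL fs) := rfl

lemma FS_cvL {fs : List (Eis → ℂ)} (h : ∀ f ∈ fs, FS f) : FS (cvL fs) := by
  induction fs with
  | nil => exact LBp744.FS.oneS
  | cons f fs ih =>
    exact FS_conv (h f List.mem_cons_self) (ih fun g hg => h g (List.mem_cons_of_mem _ hg))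

theorem cvL_append {fs gs : List (Eis → ℂ)} (hf : ∀ f ∈ fs, FS f) (hg : ∀ f ∈ gs, FS f) :
    cvL (fs ++ gs) = conv (cvL fs) (cvL gs) := by
  induction fs with
  | nil => rw [List.nil_append, cvL_nil, oneS_conv (FS_cvL hg)]
  | cons f fs ih =>
    have h1 := ih fun g hg => hf g (List.mem_cons_of_mem _ hg)
    rw [List.cons_append, cvL_cons, h1, cvL_cons,
      conv_assoc (hf f List.mem_cons_self) (FS_cvL fun g hg => hf g (List.mem_cons_of_mem _ hg))
        (FS_cvL hg)]

theorem cvL_perm {fs gs : List (Eis → ℂ)} (hp : fs.Perm gs) (hf : ∀ f ∈ fs, FS f) :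
    cvL fs = cvL gs := by
  induction hp with
  | nil => rfl
  | cons f hp ih =>
    rw [cvL_cons, cvL_cons, ih fun g hg => hf g (List.mem_cons_of_mem _ hg)]
  | swap f g l =>
    have h1 : FS g := hf g (by simp)
    have h2 : FS f := hf f (by simp)
    have h3 : FS (cvL l) := FS_cvL fun x hx => hf x (by simp [hx])
    rw [cvL_cons, cvL_cons, cvL_cons, cvL_cons, ← conv_assoc h1 h2 h3, conv_comm h1 h2,
      conv_assoc h2 h1 h3]
  | trans h1 _ ih1 ih2 =>
    rw [ih1 hf, ih2 fun g hg => hf g (h1.mem_iff.mpr hg)]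

lemma CS_cvL {fs : List (Eis → ℂ)} (h : ∀ f ∈ fs, FS f) (k : Eis) :
    CS (cvL fs) k = (fs.map fun f => CS f k).prod := by
  induction fs with
  | nil => rw [cvL_nil, LBp744.CS_oneS]; simp
  | cons f fs ih =>
    have h1 : FS f := h f List.mem_cons_self
    have h2 : ∀ g ∈ fs, FS g := fun g hg => h g (List.mem_cons_of_mem _ hg)
    rw [cvL_cons, List.map_cons, List.prod_cons, ← ih h2]
    exact LBp744.CS_mulS h1 (FS_cvL h2) k

/-! ### rule (C) for every kernel -/

variable {K : Eis → Eis → ℂ}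

/-- the pointwise identity behind rule (C) -/
lemma Th_K_mul (hK : Ker K) (q l : Eis) {x y : Eis} (hx : IsPrim x) (hy : IsPrim y) :
    Th q (x * y) * K l (x * y) =
      (Th q x * (G x * conj (sy l x))) * (Th q y * K (l * x) y) := by
  by_cases hc : IsCoprime x y
  · rw [Th_mul hc]
    by_cases hs : Squarefree x
    · rw [hK.mul l x y hx hs hy]; ring
    · have h3 : Th q x = 0 := by
        unfold Th
        rw [if_neg (fun h => hs h.1)]
      rw [h3]; ring
  · have h1 : ¬ Squarefree (x * y) := by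
      intro h
      rw [squarefree_mul_iff] at h
      exact hc (isRelPrime_iff_isCoprime.1 h.1)
    have h2 : K (l * x) y = 0 := by
      refine hK.cop (l * x) y hy fun h' => hc ?_
      exact (h'.symm.of_mul_left_right)
    have h3 : Th q (x * y) = 0 := by
      unfold Th
      rw [if_neg (fun h => h1 h.1)]
    rw [h3, h2]; ring

/-- **exact split along a convolution**, every kernel -/
theorem KS_sqc_conv (hK : Ker K) {a b : Eis → ℂ} (ha : FS a) (hb : FS b) (q l : Eis) :
    KS K (sqc q (conv a b)) l =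
      ∑ x ∈ ha.fin.toFinset, sqc q a x * (G x * conj (sy l x)) * KS K (sqc q b) (l * x) := by
  classical
  have e1 : KS K (sqc q (conv a b)) l = ∑' n, conv a b n * (Th q n * K l n) := by
    unfold KS sqc
    exact tsum_congr fun n => by ring
  rw [e1, tsum_conv' ha hb, tsum_fs ha]
  refine Finset.sum_congr rfl fun x hx => ?_
  have hx' : IsPrim x := ha.prim x (ha.fin.mem_toFinset.1 hx)
  unfold KS
  rw [mul_assoc, ← tsum_mul_left, ← tsum_mul_left, ← tsum_mul_left]
  refine tsum_congr fun y => ?_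
  by_cases hy : b y = 0
  · unfold sqc; rw [hy]; ring
  · rw [Th_K_mul hK q l hx' (hb.prim _ hy)]
    unfold sqc; ring

/-- second moment with a kernel -/
def VK (K : Eis → Eis → ℂ) (L : ℝ) (α : Eis → ℂ) : ℝ := ∑ x ∈ bl L, ‖KS K α x‖ ^ 2

lemma VK_nonneg (K : Eis → Eis → ℂ) (L : ℝ) (α : Eis → ℂ) : 0 ≤ VK K L α :=
  Finset.sum_nonneg fun _ _ => by positivity

lemma VK_mono (K : Eis → Eis → ℂ) {L L' : ℝ} (hL : 0 ≤ L) (h : L ≤ L') (α : Eis → ℂ) :
    VK K L α ≤ VK K L' α :=
  Finset.sum_le_sum_of_subset_of_nonneg (TP320.bl_mono hL h) fun _ _ _ => by positivity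

/-- **rule (C)**, every kernel -/
theorem ruleC_K (hK : Ker K) {B L : ℝ} (hB : 0 ≤ B) (hL : 0 ≤ L) {a b : Eis → ℂ} (ha : FS a)
    (hBa : ∀ n, a n ≠ 0 → (nm n : ℝ) ≤ B) (hb : FS b) (q : Eis) :
    VK K L (sqc q (conv a b)) ≤
      (∑' n, ‖a n‖ ^ 2) * ∑ r ∈ bl (L * B), (tau r : ℝ) * ‖KS K (sqc q b) r‖ ^ 2 := by
  classical
  set A := ha.fin.toFinset with hA
  have hmA : ∀ x ∈ A, IsPrim x ∧ (nm x : ℝ) ≤ B := fun x hx => by
    have : a x ≠ 0 := ha.fin.mem_toFinset.1 hx
    exact ⟨ha.prim x this, hBa x this⟩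
  have hts : ∑' n, ‖a n‖ ^ 2 = ∑ n ∈ A, ‖a n‖ ^ 2 := by
    refine tsum_eq_sum fun n hn => ?_
    have : a n = 0 := by
      by_contra h; exact hn (ha.fin.mem_toFinset.2 h)
    rw [this]; simp
  rw [hts]
  unfold VK
  calc ∑ l ∈ bl L, ‖KS K (sqc q (conv a b)) l‖ ^ 2
      ≤ ∑ l ∈ bl L, (∑ x ∈ A, ‖a x‖ ^ 2) * ∑ x ∈ A, ‖KS K (sqc q b) (l * x)‖ ^ 2 := by
        refine Finset.sum_le_sum fun l _ => ?_
        rw [KS_sqc_conv hK ha hb]
        refine (cauchy A (fun x => sqc q a x * (G x * conj (sy l x)))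
          (fun x => KS K (sqc q b) (l * x))).trans ?_
        refine mul_le_mul_of_nonneg_right ?_ (Finset.sum_nonneg fun _ _ => by positivity)
        refine Finset.sum_le_sum fun x hx => ?_
        refine pow_le_pow_left₀ (norm_nonneg _) ?_ 2
        rw [norm_mul]
        calc ‖sqc q a x‖ * ‖G x * conj (sy l x)‖ ≤ ‖a x‖ * 1 :=
              mul_le_mul (norm_sqc_le q a x) (norm_Gsy_le (hmA x hx).1) (norm_nonneg _)
                (norm_nonneg _)
          _ = ‖a x‖ := mul_one _
    _ = (∑ x ∈ A, ‖a x‖ ^ 2) * ∑ x ∈ A, ∑ l ∈ bl L, ‖KS K (sqc q b) (l * x)‖ ^ 2 := by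
        rw [← Finset.mul_sum, Finset.sum_comm]
    _ ≤ _ := by
        refine mul_le_mul_of_nonneg_left ?_ (Finset.sum_nonneg fun _ _ => by positivity)
        exact merge hB hL hmA (fun r => ‖KS K (sqc q b) r‖ ^ 2) fun r => by positivity

/-! ### sizes -/

/-- `Cf` up to a constant factor -/
lemma cvL_Cf {X : ℝ} (hX : 0 ≤ X) {Y : (Eis → ℂ) → ℝ} {fs : List (Eis → ℂ)}
    (h : ∀ f ∈ fs, Cf 0 (X * Y f) f) (hY : ∀ f ∈ fs, 0 ≤ Y f) :
    Cf fs.length (X ^ fs.length * (fs.map Y).prod) (cvL fs) := by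
  induction fs with
  | nil => simpa using LBp744.Cf.oneS
  | cons f fs ih =>
    have h1 := ih (fun g hg => h g (List.mem_cons_of_mem _ hg))
      (fun g hg => hY g (List.mem_cons_of_mem _ hg))
    have h2 := LBp744.Cf.mulS (h f List.mem_cons_self) h1
      (mul_nonneg hX (hY f List.mem_cons_self))
    have e : 0 + fs.length + 1 = (f :: fs).length := by simp
    rw [e] at h2
    have e2 : X * Y f * (X ^ fs.length * (fs.map Y).prod) =
        X ^ (f :: fs).length * ((f :: fs).map Y).prod := by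
      rw [List.length_cons, List.map_cons, List.prod_cons, pow_succ]; ring
    rw [e2] at h2
    exact h2

end Crest.Agent.R017.XC858
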