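import Crest.Agent.R017.ExD6_791
import Crest.Agent.R017.XC2_858
import Crest.Agent.R017.OKi_848
import Crest.Agent.R017.Leg3_381

/-!
# Row 17, exceptional class: principal values of shape differences (7) (helper791)

`exd_sig` : weights `nm(n)^{-σ + it}`;
`alF_supp`, `norm_alF_le`, `alF_V` : sizes of flagged lists.
-/

set_option autoImplicit false

noncomputable section

open Complex MeasureTheory Filter Topology
open scoped ContDiff

namespace Crest.Agent.R017.ExD791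

open Crest.Agent.R012 Crest.Agent.R012.Eis Crest.Agent.R012.Po581 Crest.Agent.R012.Gauss880
open Crest.Agent.R012.Weight600 (osc norm_osc)
open Crest.Agent.R012.PSer47 Crest.Agent.R012.Div277 Crest.Agent.R012.Mob705
open Crest.Agent.R017.End699 Crest.Agent.R017.FE47 Crest.Agent.R017.Two939
open Crest.Agent.R017.TXC791
open Crest.Agent.R017.CM106 (CS TG FS)
open Crest.Agent.R017.TP320 (conv)
open Crest.Agent.R017.HP842 (Th sqc FS_conv UT Pc uv pc norm_uv_le)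
open Crest.Agent.R017.Sup271 (NPm)
open Crest.Agent.R017.B770
open Crest.Agent.R017.Prov71 (Pq Kd chK)
open Crest.Agent.R017.Leg381 (Pf alF LF fpc fw natw)
open Crest.Agent.R017.OKi848 (OKi ok_pc)

/-! ### the weights `nm(n)^{-σ}` -/

/-- `nm(n)^{-σ}` -/
def ps (σ : ℝ) (n : Eis) : ℂ := (((nm n : ℝ) ^ (-σ) : ℝ) : ℂ)

lemma ps_mul (σ : ℝ) (a b : Eis) : ps σ (a * b) = ps σ a * ps σ b := by
  unfold ps
  rw [nm_mul]
  push_cast
  rw [Real.mul_rpow (Nat.cast_nonneg _) (Nat.cast_nonneg _)]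
  push_cast
  rfl

lemma ps_ne (σ : ℝ) {a : Eis} (ha : a ≠ 0) : ps σ a ≠ 0 := by
  unfold ps
  have : (0 : ℝ) < nm a := by exact_mod_cast nm_pos.2 ha
  exact_mod_cast (Real.rpow_pos_of_pos this _).ne'

lemma norm_ps (σ : ℝ) (a : Eis) : ‖ps σ a‖ = (nm a : ℝ) ^ (-σ) := by
  unfold ps
  rw [Complex.norm_real, Real.norm_of_nonneg (by positivity)]

/-- the modified weight -/
def wS (w : ℝ → ℂ) (σ : ℝ) (u : ℝ) : ℂ := w u * ((Real.exp (-(σ * u)) : ℝ) : ℂ)

lemma wS_cd {w : ℝ → ℂ} (hw : ContDiff ℝ ∞ w) (σ : ℝ) : ContDiff ℝ ∞ (wS w σ) := by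
  unfold wS
  refine hw.mul ?_
  exact Complex.ofRealCLM.contDiff.comp
    (Real.contDiff_exp.comp ((contDiff_const.mul contDiff_id).neg))

lemma wS_cs {w : ℝ → ℂ} (hw : HasCompactSupport w) (σ : ℝ) : HasCompactSupport (wS w σ) :=
  hw.mul_right

lemma Hk_sig (w : ℝ → ℂ) (σ x t : ℝ) {n : Eis} (hn : n ≠ 0) :
    Hk w x t n * ps σ n = ((Real.exp (-(σ * x)) : ℝ) : ℂ) * Hk (wS w σ) x t n := by
  unfold Hk wS ps
  have h1 : (0 : ℝ) < nm n := by exact_mod_cast nm_pos.2 hn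
  have e1 : (nm n : ℝ) ^ (-σ) = Real.exp (-(σ * x)) * Real.exp (-(σ * (Real.log (nm n) - x))) := by
    rw [Real.rpow_def_of_pos h1, ← Real.exp_add]
    congr 1; ring
  rw [e1]
  push_cast
  ring

lemma fp_sig (w : ℝ → ℂ) (X F : Eis → ℂ) (σ y t : ℝ) (n : Eis) :
    fp w X F y t n * ps σ n = ((Real.exp (-(σ * y)) : ℝ) : ℂ) * fp (wS w σ) X F y t n := by
  unfold fp
  by_cases hn : n = 0
  · subst hn
    have : End699.ext X (0 : Eis) = 0 := by
      unfold End699.ext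
      rw [if_neg fun h => h.ne_zero rfl]
    rw [this]; simp
  · have := Hk_sig w σ y t hn
    linear_combination (End699.ext X n * F n) * this

lemma conv_sig (σ : ℝ) (a b : Eis → ℂ) (n : Eis) :
    conv (fun n => a n * ps σ n) (fun n => b n * ps σ n) n = conv a b n * ps σ n := by
  unfold TP320.conv
  rw [Finset.sum_mul]
  refine Finset.sum_congr rfl fun d hd => ?_
  have h1 := TP320.mul_div_of_mem hd
  have h2 : ps σ n = ps σ d * ps σ (n / d) := by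
    conv_lhs => rw [← h1]
    exact ps_mul σ _ _
  rw [h2]; ring

lemma conv_smul2 (c1 c2 : ℂ) (a b : Eis → ℂ) (n : Eis) :
    conv (fun n => c1 * a n) (fun n => c2 * b n) n = (c1 * c2) * conv a b n := by
  unfold TP320.conv
  rw [Finset.mul_sum]
  exact Finset.sum_congr rfl fun d _ => by ring

set_option maxHeartbeats 1000000 in
/-- **weights `nm(n)^{-σ+it}`** -/
theorem exd_sig {w : ℝ → ℂ} (hw1 : ContDiff ℝ ∞ w) (hw2 : HasCompactSupport w) (σ : ℝ) {ε : ℝ}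
    (hε : 0 < ε) :
    ∃ C : ℝ, 1 ≤ C ∧ ∀ X1 X2 Ψ : Eis → ℂ, IsChar X1 → IsChar X2 → IsChar Ψ →
      ∀ ρ1 ρ2 : Eis, ρ1 ≠ 0 → ρ2 ≠ 0 → (∀ b, IsPrim b → X1 b * Ψ b = prin0 ρ1 b) →
      (∀ b, IsPrim b → X2 b * Ψ b = prin0 ρ2 b) → ∀ (T D : ℝ) (F1 F2 : Eis → ℂ), 0 ≤ T → 0 ≤ D →
      Fl T D 1 F1 → Fl T D 1 F2 → ∀ y1 y2 δ t1 t2 d0 : ℝ, d0 ≤ y1 → d0 ≤ y2 → d0 ≤ y1 + δ →
      d0 ≤ y2 - δ → ∀ v : Eis → ℂ, FS v → ∀ (q g : Eis), q ≠ 0 → IsPrim g → ∀ V : ℝ,
      (∀ a, IsPrim a → a ∣ g → ∑' m : Eis, ‖v (a * m)‖ * (nm (a * m) : ℝ) ^ (-σ) ≤ V / nm a) →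
      ∀ Z : ℝ, 1 ≤ Z → (nm ρ1 : ℝ) ≤ Z → (nm ρ2 : ℝ) ≤ Z → (nm q : ℝ) ≤ Z → (nm g : ℝ) ≤ Z →
      Real.exp d0 ≤ Z → (∀ n, v n ≠ 0 → (nm n : ℝ) ≤ Z) → ∀ t : ℝ,
      ‖∑' n : Eis, sqc q (conv (fun n => conv (fp w X1 F1 y1 t1) (fp w X2 F2 y2 t2) n -
          conv (fp w X1 F1 (y1 + δ) t1) (fp w X2 F2 (y2 - δ) t2) n) v) (g * n) *
          (osc t (Real.log (nm n)) * (ps σ n * Ψ n))‖ ≤
        C * Z ^ ε * (T ^ 2 * D ^ 2) * ((1 + |t1 + t|) * (1 + |t2 + t|)) ^ 3 *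
          (((nm g : ℝ) ^ σ * Real.exp ((1 - σ) * (y1 + y2)) * V / nm g) * Mg d0 g) := by
  obtain ⟨C, hC, hb⟩ := exd_Z (wS_cd hw1 σ) (wS_cs hw2 σ) hε
  refine ⟨C, hC, ?_⟩
  intro X1 X2 Ψ hX1 hX2 hΨ ρ1 ρ2 hρ1 hρ2 hp1 hp2 T D F1 F2 hT hD hF1 hF2 y1 y2 δ t1 t2 d0 hy1 hy2
    hy3 hy4 v hv q g hq hg V hV Z hZ1 hZρ1 hZρ2 hZq hZg hZd hZv t
  have hvs : FS (fun n => v n * ps σ n) :=
    ⟨hv.fin.subset fun n hn => left_ne_zero_of_mul hn,
      fun n hn => hv.prim n (left_ne_zero_of_mul hn)⟩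
  have hsum : ∀ a, IsPrim a → a ∣ g → ∑' m : Eis, ‖v (a * m) * ps σ (a * m)‖ ≤ V / nm a := by
    intro a ha had
    refine le_trans (le_of_eq ?_) (hV a ha had)
    refine tsum_congr fun m => ?_
    rw [norm_mul, norm_ps]
  have main := hb X1 X2 Ψ hX1 hX2 hΨ ρ1 ρ2 hρ1 hρ2 hp1 hp2 T D F1 F2 hT hD hF1 hF2 y1 y2 δ t1 t2 d0
    hy1 hy2 hy3 hy4 (fun n => v n * ps σ n) hvs q g hq hg V hsum Z hZ1 hZρ1 hZρ2 hZq hZg hZd
    (fun n hn => hZv n (left_ne_zero_of_mul hn)) t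
  -- the identity
  have hW : ∀ n : Eis, (conv (fp w X1 F1 y1 t1) (fp w X2 F2 y2 t2) n -
      conv (fp w X1 F1 (y1 + δ) t1) (fp w X2 F2 (y2 - δ) t2) n) * ps σ n =
      ((Real.exp (-(σ * (y1 + y2))) : ℝ) : ℂ) *
      (conv (fp (wS w σ) X1 F1 y1 t1) (fp (wS w σ) X2 F2 y2 t2) n -
      conv (fp (wS w σ) X1 F1 (y1 + δ) t1) (fp (wS w σ) X2 F2 (y2 - δ) t2) n) := by
    intro n
    have k : ∀ a b : ℝ, conv (fp w X1 F1 a t1) (fp w X2 F2 b t2) n * ps σ n =
        ((Real.exp (-(σ * (a + b))) : ℝ) : ℂ) *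
          conv (fp (wS w σ) X1 F1 a t1) (fp (wS w σ) X2 F2 b t2) n := by
      intro a b
      rw [← conv_sig]
      have e1 : (fun n => fp w X1 F1 a t1 n * ps σ n) =
          fun n => ((Real.exp (-(σ * a)) : ℝ) : ℂ) * fp (wS w σ) X1 F1 a t1 n :=
        funext fun n => fp_sig w X1 F1 σ a t1 n
      have e2 : (fun n => fp w X2 F2 b t2 n * ps σ n) =
          fun n => ((Real.exp (-(σ * b)) : ℝ) : ℂ) * fp (wS w σ) X2 F2 b t2 n :=
        funext fun n => fp_sig w X2 F2 σ b t2 n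
      rw [e1, e2, conv_smul2]
      have e3 : Real.exp (-(σ * (a + b))) = Real.exp (-(σ * a)) * Real.exp (-(σ * b)) := by
        rw [← Real.exp_add]; congr 1; ring
      rw [e3]
      push_cast
      ring
    rw [sub_mul, k y1 y2, k (y1 + δ) (y2 - δ)]
    have e4 : y1 + δ + (y2 - δ) = y1 + y2 := by ring
    rw [e4]; ring
  have hid : ∀ n : Eis, sqc q (conv (fun n => conv (fp w X1 F1 y1 t1) (fp w X2 F2 y2 t2) n -
          conv (fp w X1 F1 (y1 + δ) t1) (fp w X2 F2 (y2 - δ) t2) n) v) (g * n) *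
          (osc t (Real.log (nm n)) * (ps σ n * Ψ n)) =
      ((ps σ g)⁻¹ * ((Real.exp (-(σ * (y1 + y2))) : ℝ) : ℂ)) *
      (sqc q (conv (fun n => conv (fp (wS w σ) X1 F1 y1 t1) (fp (wS w σ) X2 F2 y2 t2) n -
          conv (fp (wS w σ) X1 F1 (y1 + δ) t1) (fp (wS w σ) X2 F2 (y2 - δ) t2) n)
          (fun n => v n * ps σ n)) (g * n) * (osc t (Real.log (nm n)) * Ψ n)) := by
    intro n
    have hg0 := ps_ne σ hg.ne_zero
    have e1 : conv (fun n => conv (fp w X1 F1 y1 t1) (fp w X2 F2 y2 t2) n -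
          conv (fp w X1 F1 (y1 + δ) t1) (fp w X2 F2 (y2 - δ) t2) n) v (g * n) * ps σ (g * n) =
        ((Real.exp (-(σ * (y1 + y2))) : ℝ) : ℂ) *
        conv (fun n => conv (fp (wS w σ) X1 F1 y1 t1) (fp (wS w σ) X2 F2 y2 t2) n -
          conv (fp (wS w σ) X1 F1 (y1 + δ) t1) (fp (wS w σ) X2 F2 (y2 - δ) t2) n)
          (fun n => v n * ps σ n) (g * n) := by
      rw [← conv_sig]
      have e2 : (fun n => (conv (fp w X1 F1 y1 t1) (fp w X2 F2 y2 t2) n -
          conv (fp w X1 F1 (y1 + δ) t1) (fp w X2 F2 (y2 - δ) t2) n) * ps σ n) =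
          fun n => ((Real.exp (-(σ * (y1 + y2))) : ℝ) : ℂ) *
          (conv (fp (wS w σ) X1 F1 y1 t1) (fp (wS w σ) X2 F2 y2 t2) n -
          conv (fp (wS w σ) X1 F1 (y1 + δ) t1) (fp (wS w σ) X2 F2 (y2 - δ) t2) n) :=
        funext hW
      have e3 : (fun n => v n * ps σ n) = fun n => (1 : ℂ) * (v n * ps σ n) := by
        funext n; ring
      rw [e2]
      conv_lhs => rw [e3]
      rw [conv_smul2, mul_one]
    unfold HP842.sqc
    rw [ps_mul] at e1
    field_simp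
    linear_combination (Th q (g * n) * osc t (Real.log (nm n)) * Ψ n) * e1
  rw [tsum_congr hid, tsum_mul_left, norm_mul]
  have hng := one_le_nm hg
  have e5 : ‖(ps σ g)⁻¹ * ((Real.exp (-(σ * (y1 + y2))) : ℝ) : ℂ)‖ =
      (nm g : ℝ) ^ σ * Real.exp (-(σ * (y1 + y2))) := by
    rw [norm_mul, norm_inv, norm_ps, Complex.norm_real, Real.norm_of_nonneg (Real.exp_pos _).le,
      Real.rpow_neg (by linarith), inv_inv]
  rw [e5]
  refine (mul_le_mul_of_nonneg_left main (by positivity)).trans (le_of_eq ?_)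
  have e6 : Real.exp ((1 - σ) * (y1 + y2)) = Real.exp (-(σ * (y1 + y2))) * Real.exp (y1 + y2) := by
    rw [← Real.exp_add]; congr 1; ring
  rw [e6]
  ring

/-! ### sizes of flagged lists -/

lemma norm_fw_le (z D0 : ℝ) (f : Bool) {n : Eis} (hn : n ≠ 0) : ‖fw z D0 f n‖ ≤ tau n := by
  unfold Leg381.fw
  split_ifs
  · exact Leg381.norm_natw_le z D0 n
  · rw [norm_one]; exact_mod_cast one_le_tau hn

lemma norm_pc_le' {h : ℝ → ℝ} {A : ℝ} (hA0 : 0 ≤ A) (hA : ∀ u, ‖cx h u‖ ≤ A) {P : Pc} (hP : P.OK)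
    (b : Eis) : ‖pc h P b‖ ≤ A := XRG106.norm_pc_le hA0 hA hP b

lemma FS_fpc {h : ℝ → ℝ} {R : ℝ} (hR : ∀ u, cx h u ≠ 0 → |u| ≤ R) {P : Pc} (hP : P.OK)
    (z D0 : ℝ) (f : Bool) : FS (fpc z D0 h P f) := by
  have h1 := HP842.FS_pc hR hP
  refine ⟨h1.fin.subset fun n hn => ?_, fun n hn => h1.prim n ?_⟩
  · exact left_ne_zero_of_mul hn
  · exact left_ne_zero_of_mul hn

lemma alF_cons (z D0 : ℝ) (P : DPar) (h : ℝ → ℝ) (p : Pf) (l : List Pf) :
    alF z D0 P h (p :: l) = conv (fpc z D0 h (p.1.pc P) p.2) (alF z D0 P h l) := rfl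

lemma FS_alFi {h : ℝ → ℝ} {R : ℝ} (hR : ∀ u, cx h u ≠ 0 → |u| ≤ R) {P : DPar} (hP : OKi P)
    (z D0 : ℝ) (l : List Pf) : FS (alF z D0 P h l) := by
  unfold Leg381.alF
  refine HP842.FS_cvL fun f hf => ?_
  obtain ⟨p, _, rfl⟩ := List.mem_map.1 hf
  exact FS_fpc hR (ok_pc hP p.1) z D0 p.2

/-- support and size -/
lemma alF_size {h : ℝ → ℝ} {R A : ℝ} (hR : ∀ u, cx h u ≠ 0 → |u| ≤ R) (hA1 : 1 ≤ A)
    (hA : ∀ u, ‖cx h u‖ ≤ A) {P : DPar} (hP : OKi P) (z D0 : ℝ) (l : List Pf) :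
    (∀ n, alF z D0 P h l n ≠ 0 → (nm n : ℝ) ≤ Real.exp (R * l.length + LF l)) ∧
      ∀ n, IsPrim n → ‖alF z D0 P h l n‖ ≤ (A * (tau n : ℝ) ^ 2) ^ l.length := by
  classical
  induction l with
  | nil =>
    constructor
    · intro n hn
      have h1 : n = 1 := by
        by_contra h0
        exact hn (HP842.dl_ne h0)
      have h2 : nm (1 : Eis) = 1 := by decide
      rw [h1, h2]
      simp [Leg381.LF]
    · intro n _
      have e1 : alF z D0 P h [] n = HP842.dl n := rfl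
      rw [e1]
      by_cases h0 : n = 1
      · rw [h0, HP842.dl_one]; simp
      · rw [HP842.dl_ne h0]; simp
  | cons p l ih =>
    obtain ⟨ih1, ih2⟩ := ih
    have eLF : LF (p :: l) = p.1.z + LF l := by
      unfold Leg381.LF; rw [List.map_cons, List.sum_cons]
    constructor
    · intro n hn
      rw [alF_cons] at hn
      unfold TP320.conv at hn
      obtain ⟨d, hd, h0⟩ := Finset.exists_ne_zero_of_sum_ne_zero hn
      have h1 : fpc z D0 h (p.1.pc P) p.2 d ≠ 0 := left_ne_zero_of_mul h0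
      have h2 : alF z D0 P h l (n / d) ≠ 0 := right_ne_zero_of_mul h0
      have h3 := (HP842.pc_support hR (ok_pc hP p.1).Y0 (left_ne_zero_of_mul h1)).2
      have h4 := ih1 _ h2
      have h5 := TP320.mul_div_of_mem hd
      have h6 : (nm n : ℝ) = nm d * nm (n / d) := by
        rw [← Nat.cast_mul, ← nm_mul, h5]
      rw [h6, eLF, List.length_cons]
      have h7 : (nm d : ℝ) ≤ Real.exp R * Real.exp p.1.z := h3
      calc (nm d : ℝ) * nm (n / d) ≤ (Real.exp R * Real.exp p.1.z) *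
            Real.exp (R * l.length + LF l) := by gcongr
        _ = _ := by
            rw [← Real.exp_add, ← Real.exp_add]
            congr 1
            push_cast; ring
    · intro n hn
      rw [alF_cons, List.length_cons]
      unfold TP320.conv
      have hτ1 : (1 : ℝ) ≤ tau n := by exact_mod_cast one_le_tau hn.ne_zero
      calc ‖∑ d ∈ dvs n, fpc z D0 h (p.1.pc P) p.2 d * alF z D0 P h l (n / d)‖
          ≤ ∑ d ∈ dvs n, (A * tau n) * (A * (tau n : ℝ) ^ 2) ^ l.length := by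
            refine (norm_sum_le _ _).trans (Finset.sum_le_sum fun d hd => ?_)
            have hdp := isPrim_of_mem_dvs hd
            have hdd := dvd_of_mem_dvs hd
            have hqp : IsPrim (n / d) := TP320.quot_prim hn hd
            have h5 := TP320.mul_div_of_mem hd
            have hqd : (n / d) ∣ n := ⟨d, by rw [mul_comm]; exact h5.symm⟩
            have t1 : (tau d : ℝ) ≤ tau n := by exact_mod_cast tau_le_of_dvd hn.ne_zero hdd
            have t2 : (tau (n / d) : ℝ) ≤ tau n := by exact_mod_cast tau_le_of_dvd hn.ne_zero hqd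
            have h6 : ‖fpc z D0 h (p.1.pc P) p.2 d‖ ≤ A * tau n := by
              unfold Leg381.fpc
              rw [norm_mul]
              have := norm_pc_le' (by linarith) hA (ok_pc hP p.1) d
              have h7 := norm_fw_le z D0 p.2 hdp.ne_zero
              calc _ ≤ A * tau d := by gcongr
                _ ≤ _ := by gcongr
            have h8 : ‖alF z D0 P h l (n / d)‖ ≤ (A * (tau n : ℝ) ^ 2) ^ l.length := by
              refine (ih2 _ hqp).trans ?_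
              gcongr
            rw [norm_mul]
            gcongr
        _ = tau n * ((A * tau n) * (A * (tau n : ℝ) ^ 2) ^ l.length) := by
            rw [Finset.sum_const, nsmul_eq_mul]; rfl
        _ = _ := by ring

end Crest.Agent.R017.ExD791
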