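import Crest.Agent.R017.ExD7_791

/-!
# Row 17, exceptional class: principal values of shape differences (8) (helper791)

`xL z D0 P h p1 p2 l δ` : the list `p1 :: p2 :: l` minus the list with the first two lengths
replaced by `z1 + δ`, `z2 - δ` (centred heights);
`exd_list` : its principal values, weights `nm(n)^{-σ+it}`.
-/

set_option autoImplicit false

noncomputable section

open Complex MeasureTheory Filter Topology
open scoped ContDiff

namespace Crest.Agent.R017.ExD791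

open Crest.Agent.R012 Crest.Agent.R012.Eis Crest.Agent.R012.Po581 Crest.Agent.R012.Gauss880
open Crest.Agent.R012.Weight600 (osc norm_osc)
open Crest.Agent.R012.PSer47 Crest.Agent.R012.Div277 Crest.Agent.R012.Mob705
open Crest.Agent.R017.End699 Crest.Agent.R017.FE47 Crest.Agent.R017.Two939
open Crest.Agent.R017.TXC791
open Crest.Agent.R017.CM106 (CS TG FS)
open Crest.Agent.R017.TP320 (conv)
open Crest.Agent.R017.HP842 (Th sqc FS_conv UT Pc uv pc norm_uv_le)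
open Crest.Agent.R017.Sup271 (NPm)
open Crest.Agent.R017.B770
open Crest.Agent.R017.Prov71 (Pq Kd chK)
open Crest.Agent.R017.Leg381 (Pf alF LF fpc fw natw)
open Crest.Agent.R017.OKi848 (OKi ok_pc)

/-- shift of the length -/
def shz (δ : ℝ) (p : Pf) : Pf := ({p.1 with z := p.1.z + δ}, p.2)

/-- the difference of two lists, centred heights -/
def xL (z D0 : ℝ) (P : DPar) (h : ℝ → ℝ) (p1 p2 : Pf) (l : List Pf) (δ : ℝ) (n : Eis) : ℂ :=
  alF z D0 P h (p1 :: p2 :: l) n -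
    (osc p1.1.t (-δ) * osc p2.1.t δ) * alF z D0 P h (shz δ p1 :: shz (-δ) p2 :: l) n

/-- a flagged lump at its own scale -/
lemma fpc_eq_fp {h : ℝ → ℝ} {P : DPar} (z D0 : ℝ) {p : Pf} (hu : p.1.u = .one) (n : Eis) :
    fpc z D0 h (p.1.pc P) p.2 n = osc p.1.t p.1.z *
      fp (cx h) (fun b => chK P p.1.kd b * prin0 p.1.d b) (fw z D0 p.2) p.1.z p.1.t n := by
  unfold Leg381.fpc HP842.pc fp Hk HSep813.gw End699.ext
  by_cases hn : IsPrim n
  · rw [if_pos hn, if_pos hn]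
    simp only [Prov71.Pq.pc_u, Prov71.Pq.pc_Y, Prov71.Pq.pc_t, Prov71.Pq.pc_ψ, hu, Real.log_exp]
    have e1 : osc p.1.t (Real.log (nm n)) = osc p.1.t p.1.z * osc p.1.t (Real.log (nm n) - p.1.z) := by
      rw [← Weight600.osc_add_right]; congr 1; ring
    rw [e1]
    unfold HP842.uv
    ring
  · rw [if_neg hn, if_neg hn]; ring

/-- the difference of two lists at their own scales -/
lemma xL_eq {h : ℝ → ℝ} {R : ℝ} (hR : ∀ u, cx h u ≠ 0 → |u| ≤ R)
    {P : DPar} (hP : OKi P) (z D0 : ℝ)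
    {p1 p2 : Pf} (hu1 : p1.1.u = .one) (hu2 : p2.1.u = .one) (l : List Pf) (δ : ℝ) (n : Eis) :
    xL z D0 P h p1 p2 l δ n = (osc p1.1.t p1.1.z * osc p2.1.t p2.1.z) *
      conv (fun n =>
        conv (fp (cx h) (fun b => chK P p1.1.kd b * prin0 p1.1.d b) (fw z D0 p1.2) p1.1.z p1.1.t)
          (fp (cx h) (fun b => chK P p2.1.kd b * prin0 p2.1.d b) (fw z D0 p2.2) p2.1.z p2.1.t) n -
        conv (fp (cx h) (fun b => chK P p1.1.kd b * prin0 p1.1.d b) (fw z D0 p1.2) (p1.1.z + δ)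
            p1.1.t)
          (fp (cx h) (fun b => chK P p2.1.kd b * prin0 p2.1.d b) (fw z D0 p2.2) (p2.1.z - δ)
            p2.1.t) n) (alF z D0 P h l) n := by
  have hv := FS_alFi hR hP z D0 l
  have key : ∀ q1 q2 : Pf, q1.1.u = .one → q2.1.u = .one → alF z D0 P h (q1 :: q2 :: l) n =
      (osc q1.1.t q1.1.z * osc q2.1.t q2.1.z) * conv (conv
        (fp (cx h) (fun b => chK P q1.1.kd b * prin0 q1.1.d b) (fw z D0 q1.2) q1.1.z q1.1.t)
        (fp (cx h) (fun b => chK P q2.1.kd b * prin0 q2.1.d b) (fw z D0 q2.2) q2.1.z q2.1.t))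
        (alF z D0 P h l) n := by
    intro q1 q2 h1 h2
    rw [alF_cons, alF_cons, ← XC858.conv_assoc (FS_fpc hR (ok_pc hP q1.1) z D0 q1.2)
      (FS_fpc hR (ok_pc hP q2.1) z D0 q2.2) hv]
    have e1 : fpc z D0 h (q1.1.pc P) q1.2 = fun n => osc q1.1.t q1.1.z *
      fp (cx h) (fun b => chK P q1.1.kd b * prin0 q1.1.d b) (fw z D0 q1.2) q1.1.z q1.1.t n :=
      funext fun n => fpc_eq_fp z D0 h1 n
    have e2 : fpc z D0 h (q2.1.pc P) q2.2 = fun n => osc q2.1.t q2.1.z *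
      fp (cx h) (fun b => chK P q2.1.kd b * prin0 q2.1.d b) (fw z D0 q2.2) q2.1.z q2.1.t n :=
      funext fun n => fpc_eq_fp z D0 h2 n
    rw [e1, e2]
    have e3 : conv (fun n => osc q1.1.t q1.1.z *
        fp (cx h) (fun b => chK P q1.1.kd b * prin0 q1.1.d b) (fw z D0 q1.2) q1.1.z q1.1.t n)
        (fun n => osc q2.1.t q2.1.z *
        fp (cx h) (fun b => chK P q2.1.kd b * prin0 q2.1.d b) (fw z D0 q2.2) q2.1.z q2.1.t n) =
        fun n => (osc q1.1.t q1.1.z * osc q2.1.t q2.1.z) * conv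
        (fp (cx h) (fun b => chK P q1.1.kd b * prin0 q1.1.d b) (fw z D0 q1.2) q1.1.z q1.1.t)
        (fp (cx h) (fun b => chK P q2.1.kd b * prin0 q2.1.d b) (fw z D0 q2.2) q2.1.z q2.1.t) n :=
      funext fun n => conv_smul2 _ _ _ _ n
    rw [e3]
    have e4 : alF z D0 P h l = fun n => (1 : ℂ) * alF z D0 P h l n := by
      funext n; ring
    conv_lhs => rw [e4]
    rw [conv_smul2, mul_one]
  unfold xL
  rw [key p1 p2 hu1 hu2, key (shz δ p1) (shz (-δ) p2) hu1 hu2]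
  have s1 : (shz δ p1).1.z = p1.1.z + δ := rfl
  have s2 : (shz (-δ) p2).1.z = p2.1.z - δ := by
    show p2.1.z + -δ = p2.1.z - δ
    ring
  have s3 : (shz δ p1).1.t = p1.1.t := rfl
  have s4 : (shz (-δ) p2).1.t = p2.1.t := rfl
  have s5 : (shz δ p1).1.kd = p1.1.kd := rfl
  have s6 : (shz (-δ) p2).1.kd = p2.1.kd := rfl
  have s7 : (shz δ p1).1.d = p1.1.d := rfl
  have s8 : (shz (-δ) p2).1.d = p2.1.d := rfl
  have s9 : (shz δ p1).2 = p1.2 := rfl
  have s10 : (shz (-δ) p2).2 = p2.2 := rfl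
  rw [s1, s2, s3, s4, s5, s6, s7, s8, s9, s10]
  have o1 : osc p1.1.t (-δ) * osc p1.1.t (p1.1.z + δ) = osc p1.1.t p1.1.z := by
    rw [← Weight600.osc_add_right]; congr 1; ring
  have o2 : osc p2.1.t δ * osc p2.1.t (p2.1.z - δ) = osc p2.1.t p2.1.z := by
    rw [← Weight600.osc_add_right]; congr 1; ring
  have hsub : ∀ a b v : Eis → ℂ, conv (fun n => a n - b n) v n = conv a v n - conv b v n := by
    intro a b v
    unfold TP320.conv
    rw [← Finset.sum_sub_distrib]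
    exact Finset.sum_congr rfl fun d _ => by ring
  rw [hsub, ← o1, ← o2]
  ring

/-- sum of `‖v (a m)‖ nm(a m)^{-σ}` -/
lemma V_of_sup_sig {v : Eis → ℂ} (hv : FS v) {σ : ℝ} (hσ : σ ≤ 1) {B E : ℝ} (hB : 0 ≤ B)
    (hE : 0 ≤ E) (hb : ∀ n, ‖v n‖ ≤ B) (hs : ∀ n, v n ≠ 0 → (nm n : ℝ) ≤ E) {Z : ℝ} (hZ : 1 ≤ Z)
    (hEZ : E ≤ Z) {a : Eis} (ha : IsPrim a) :
    ∑' m : Eis, ‖v (a * m)‖ * (nm (a * m) : ℝ) ^ (-σ) ≤
      (B * E ^ (1 - σ) * (100 * (1 + Real.log Z))) / nm a := by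
  classical
  have hna1 := one_le_nm ha
  have hna : (0 : ℝ) < nm a := by linarith
  have hlZ : 0 ≤ Real.log Z := Real.log_nonneg hZ
  have hE1 : 0 ≤ E ^ (1 - σ) := Real.rpow_nonneg hE _
  rw [tsum_eq_sum (s := primBall ⌊E / nm a⌋₊)]
  · calc ∑ m ∈ primBall ⌊E / nm a⌋₊, ‖v (a * m)‖ * (nm (a * m) : ℝ) ^ (-σ)
        ≤ ∑ m ∈ primBall ⌊E / nm a⌋₊, (B * E ^ (1 - σ) / nm a) * (1 / (nm m : ℝ)) := by
          refine Finset.sum_le_sum fun m hm => ?_
          rw [mem_primBall] at hm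
          have hm1 := one_le_nm hm.2
          have hm0 : (0 : ℝ) < nm m := by linarith
          have h1 : (nm m : ℝ) ≤ E / nm a := by
            have h2 : ((nm m : ℕ) : ℝ) ≤ (⌊E / nm a⌋₊ : ℝ) := by exact_mod_cast hm.1
            exact h2.trans (Nat.floor_le (by positivity))
          have h2 : (nm (a * m) : ℝ) ≤ E := by
            rw [nm_mul]; push_cast
            rw [le_div_iff₀ hna] at h1
            linarith
          have h3 : (0 : ℝ) < nm (a * m) := by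
            rw [nm_mul]; push_cast; positivity
          have h4 : (nm (a * m) : ℝ) ^ (-σ) ≤ E ^ (1 - σ) * (1 / (nm a * nm m)) := by
            have e1 : (nm (a * m) : ℝ) ^ (-σ) =
                (nm (a * m) : ℝ) ^ (1 - σ) * (nm (a * m) : ℝ)⁻¹ := by
              rw [← Real.rpow_neg_one, ← Real.rpow_add h3]; congr 1; ring
            rw [e1]
            have e2 : (nm (a * m) : ℝ)⁻¹ = 1 / (nm a * nm m) := by
              rw [nm_mul]; push_cast; rw [one_div]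
            rw [e2]
            have : (nm (a * m) : ℝ) ^ (1 - σ) ≤ E ^ (1 - σ) :=
              Real.rpow_le_rpow h3.le h2 (by linarith)
            gcongr
          calc ‖v (a * m)‖ * (nm (a * m) : ℝ) ^ (-σ)
              ≤ B * (E ^ (1 - σ) * (1 / (nm a * nm m))) := by
                gcongr
                exact hb _
            _ = _ := by field_simp
      _ = (B * E ^ (1 - σ) / nm a) * ∑ m ∈ primBall ⌊E / nm a⌋₊, 1 / (nm m : ℝ) := by
          rw [Finset.mul_sum]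
      _ ≤ (B * E ^ (1 - σ) / nm a) * (100 * (1 + Real.log Z)) := by
          gcongr
          refine (sum_inv_primBall_le _).trans ?_
          have h5 : Real.log (⌊E / nm a⌋₊ : ℝ) ≤ Real.log Z := by
            rcases Nat.eq_zero_or_pos ⌊E / nm a⌋₊ with h0 | h0
            · rw [h0]; simpa using hlZ
            · apply Real.log_le_log (by exact_mod_cast h0)
              calc ((⌊E / nm a⌋₊ : ℕ) : ℝ) ≤ E / nm a := Nat.floor_le (by positivity)
                _ ≤ E := div_le_self hE hna1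
                _ ≤ Z := hEZ
          linarith
      _ = _ := by ring
  · intro m hm
    have : v (a * m) = 0 := by
      by_contra h0
      apply hm
      have hmp : IsPrim m := (FS.subm hv ha).prim m h0
      rw [mem_primBall]
      refine ⟨Nat.le_floor ?_, hmp⟩
      have h1 := hs _ h0
      rw [nm_mul] at h1
      push_cast at h1
      rw [le_div_iff₀ hna]
      linarith
    rw [this, norm_zero, zero_mul]

lemma LF_cons (p : Pf) (l : List Pf) : LF (p :: l) = p.1.z + LF l := by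
  unfold Leg381.LF; rw [List.map_cons, List.sum_cons]

set_option maxHeartbeats 2000000 in
/-- **principal values of the difference of two lists** -/
theorem exd_list {h : ℝ → ℝ} {c : ℝ} (hpu : PU h c) (N : ℕ) {σ : ℝ} (hσ : σ ≤ 1) {B : ℝ}
    (hB : 0 ≤ B) {ε : ℝ} (hε : 0 < ε) :
    ∃ C : ℝ, 1 ≤ C ∧ ∀ X : ℝ, 3 ≤ X → ∀ P : DPar, OKi P → ∀ z D0 : ℝ, 1 ≤ D0 →
      ∀ (p1 p2 : Pf) (l : List Pf), p1.1.u = .one → p2.1.u = .one → l.length ≤ N →
      LF l ≤ B * Real.log X → ∀ Ψ : Eis → ℂ, IsChar Ψ → ∀ ρ1 ρ2 : Eis, ρ1 ≠ 0 → ρ2 ≠ 0 →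
      (nm ρ1 : ℝ) ≤ X ^ B → (nm ρ2 : ℝ) ≤ X ^ B →
      (∀ b, IsPrim b → (chK P p1.1.kd b * prin0 p1.1.d b) * Ψ b = prin0 ρ1 b) →
      (∀ b, IsPrim b → (chK P p2.1.kd b * prin0 p2.1.d b) * Ψ b = prin0 ρ2 b) →
      ∀ δ d0 : ℝ, d0 ≤ p1.1.z → d0 ≤ p2.1.z → d0 ≤ p1.1.z + δ → d0 ≤ p2.1.z - δ →
      d0 ≤ B * Real.log X → ∀ (q g : Eis), q ≠ 0 → (nm q : ℝ) ≤ X ^ B → IsPrim g →
      (nm g : ℝ) ≤ X ^ B → ∀ t : ℝ,
      ‖∑' n : Eis, sqc q (xL z D0 P h p1 p2 l δ) (g * n) *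
          (osc t (Real.log (nm n)) * (ps σ n * Ψ n))‖ ≤
        C * X ^ ε * D0 ^ 2 * ((1 + |p1.1.t + t|) * (1 + |p2.1.t + t|)) ^ 3 *
          ((Real.exp (LF (p1 :: p2 :: l)) / nm g) ^ (1 - σ) * Mg d0 g) := by
  classical
  obtain ⟨R, hR0, hR⟩ := exists_R (cs_cx hpu.cs)
  obtain ⟨A, hA0, hA⟩ := exists_sup (cd_cx hpu.cd).continuous (cs_cx hpu.cs)
  set A1 := max A 1 with hA1
  have hA11 : 1 ≤ A1 := le_max_right _ _
  have hA1b : ∀ u, ‖cx h u‖ ≤ A1 := fun u => (hA u).trans (le_max_left _ _)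
  set e1 := ε / (3 * (B + 1)) with he1
  have he10 : 0 < e1 := by rw [he1]; positivity
  obtain ⟨C0, hC0, hb⟩ := exd_sig (cd_cx hpu.cd) (cs_cx hpu.cs) σ he10
  set e2 := ε / (3 * (B + 1) * (2 * N + 1)) with he2
  have he20 : 0 < e2 := by rw [he2]; positivity
  obtain ⟨C1, hC1, hτ⟩ := tau_le_rpow he20
  set K := Real.exp (R * N) with hK
  have hK1 : 1 ≤ K := Real.one_le_exp (by positivity)
  set C3 := 100 * (1 + 1 / e1) with hC3
  have hC31 : 1 ≤ C3 := by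
    have : 0 ≤ 1 / e1 := by positivity
    rw [hC3]; linarith
  have hKe1 : 1 ≤ K ^ e1 := Real.one_le_rpow hK1 he10.le
  have hKs : 1 ≤ K ^ (1 - σ) := Real.one_le_rpow hK1 (by linarith)
  have hCA : 1 ≤ (A1 * (C1 * K ^ e2) ^ 2) ^ N := by
    refine one_le_pow₀ ?_
    have h1 : 1 ≤ C1 * K ^ e2 :=
      one_le_mul_of_one_le_of_one_le hC1 (Real.one_le_rpow hK1 he20.le)
    exact one_le_mul_of_one_le_of_one_le hA11 (one_le_pow₀ h1)
  refine ⟨C0 * K ^ e1 * ((A1 * (C1 * K ^ e2) ^ 2) ^ N * K ^ (1 - σ) * (C3 * K ^ e1)), ?_, ?_⟩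
  · refine one_le_mul_of_one_le_of_one_le (one_le_mul_of_one_le_of_one_le hC0 hKe1) ?_
    exact one_le_mul_of_one_le_of_one_le (one_le_mul_of_one_le_of_one_le hCA hKs)
      (one_le_mul_of_one_le_of_one_le hC31 hKe1)
  intro X hX3 P hP z D0 hD0 p1 p2 l hu1 hu2 hlen hLl Ψ hΨ ρ1 ρ2 hρ1 hρ2 hZρ1 hZρ2 hp1 hp2 δ d0 hy1
    hy2 hy3 hy4 hd0 q g hq hqX hg hgX t
  have hX1 : 1 ≤ X := by linarith
  have hX0 : 0 < X := by linarith
  have hXB1 : 1 ≤ X ^ B := Real.one_le_rpow hX1 hB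
  set Z := K * X ^ B with hZ
  have hXBZ : X ^ B ≤ Z := le_mul_of_one_le_left (by positivity) hK1
  have hZ1 : 1 ≤ Z := hXB1.trans hXBZ
  have hZ0 : 0 < Z := by linarith
  have hexpB : Real.exp (B * Real.log X) = X ^ B := by
    rw [Real.rpow_def_of_pos hX0]; congr 1; ring
  -- powers of Z
  have hZe1 : Z ^ e1 ≤ K ^ e1 * X ^ (ε / 3) := by
    rw [hZ, Real.mul_rpow (by positivity) (by positivity), ← Real.rpow_mul hX0.le]
    gcongr
    rw [he1, mul_div_assoc', div_le_div_iff₀ (by positivity) (by norm_num)]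
    nlinarith
  have hZe2 : (Z ^ e2) ^ (2 * N) ≤ (K ^ e2) ^ (2 * N) * X ^ (ε / 3) := by
    have e3 : (X ^ B) ^ e2 = X ^ (B * e2) := (Real.rpow_mul hX0.le _ _).symm
    rw [hZ, Real.mul_rpow (by positivity) (by positivity), mul_pow, e3]
    have e4 : (X ^ (B * e2)) ^ (2 * N) = X ^ (B * e2 * (2 * N)) := by
      rw [← Real.rpow_natCast, ← Real.rpow_mul hX0.le]; push_cast; ring_nf
    rw [e4]
    gcongr
    rw [he2]
    have hN0 : (0 : ℝ) ≤ N := Nat.cast_nonneg _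
    have e5 : B * (ε / (3 * (B + 1) * (2 * N + 1))) * (2 * N) =
        (ε / 3) * ((B * (2 * N)) / ((B + 1) * (2 * N + 1))) := by field_simp
    rw [e5]
    have e6 : (B * (2 * N)) / ((B + 1) * (2 * N + 1)) ≤ 1 := by
      rw [div_le_one (by positivity)]
      nlinarith
    calc (ε / 3) * ((B * (2 * N)) / ((B + 1) * (2 * N + 1))) ≤ (ε / 3) * 1 := by gcongr
      _ = _ := mul_one _
  -- the rest
  obtain ⟨hs1, hs2⟩ := alF_size hR hA11 hA1b hP z D0 l
  have hv := FS_alFi hR hP z D0 l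
  set E := Real.exp (R * l.length + LF l) with hE
  have hEZ : E ≤ Z := by
    rw [hE, hZ, hK, ← hexpB, ← Real.exp_add]
    apply Real.exp_le_exp.mpr
    have : (l.length : ℝ) ≤ N := by exact_mod_cast hlen
    have := mul_le_mul_of_nonneg_left this hR0
    linarith
  have hEK : E ≤ K * Real.exp (LF l) := by
    rw [hE, hK, ← Real.exp_add]
    apply Real.exp_le_exp.mpr
    have : (l.length : ℝ) ≤ N := by exact_mod_cast hlen
    have := mul_le_mul_of_nonneg_left this hR0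
    linarith
  set Bv := (A1 * (C1 * Z ^ e2) ^ 2) ^ N with hBv
  have hCZ1 : 1 ≤ C1 * Z ^ e2 :=
    one_le_mul_of_one_le_of_one_le hC1 (Real.one_le_rpow hZ1 he20.le)
  have hACZ : 1 ≤ A1 * (C1 * Z ^ e2) ^ 2 :=
    one_le_mul_of_one_le_of_one_le hA11 (one_le_pow₀ hCZ1)
  have hBv0 : 0 ≤ Bv := by positivity
  have hvb : ∀ n, ‖alF z D0 P h l n‖ ≤ Bv := by
    intro n
    by_cases h0 : alF z D0 P h l n = 0
    · rw [h0, norm_zero]; exact hBv0
    · have hnp := hv.prim n h0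
      refine (hs2 n hnp).trans ?_
      have h1 : (tau n : ℝ) ≤ C1 * Z ^ e2 := by
        refine (hτ n hnp.ne_zero).trans ?_
        gcongr
        exact (hs1 n h0).trans hEZ
      calc (A1 * (tau n : ℝ) ^ 2) ^ l.length ≤ (A1 * (C1 * Z ^ e2) ^ 2) ^ l.length := by gcongr
        _ ≤ _ := pow_le_pow_right₀ hACZ hlen
  have hV := fun (a : Eis) (ha : IsPrim a) (_ : a ∣ g) =>
    V_of_sup_sig hv hσ hBv0 (Real.exp_pos _).le hvb hs1 hZ1 hEZ ha
  have hexpd : Real.exp d0 ≤ Z := by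
    refine le_trans ?_ hXBZ
    rw [← hexpB]; exact Real.exp_le_exp.mpr hd0
  have hX1c : ∀ p : Pf, IsChar (fun b => chK P p.1.kd b * prin0 p.1.d b) := fun p =>
    (hP p.1.kd).mul' (isChar_prin0 p.1.d)
  have main := hb _ _ Ψ (hX1c p1) (hX1c p2) hΨ ρ1 ρ2 hρ1 hρ2 hp1 hp2 1 D0 (fw z D0 p1.2)
    (fw z D0 p2.2) zero_le_one (by linarith) (Fl_fw z hD0 p1.2) (Fl_fw z hD0 p2.2) p1.1.z p2.1.z δ
    p1.1.t p2.1.t d0 hy1 hy2 hy3 hy4 (alF z D0 P h l) hv q g hq hg _ hV Z hZ1 (hZρ1.trans hXBZ)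
    (hZρ2.trans hXBZ) (hqX.trans hXBZ) (hgX.trans hXBZ) hexpd
    (fun n hn => (hs1 n hn).trans hEZ) t
  -- the sequence
  have hseq : ∀ n : Eis, sqc q (xL z D0 P h p1 p2 l δ) (g * n) *
          (osc t (Real.log (nm n)) * (ps σ n * Ψ n)) =
      (osc p1.1.t p1.1.z * osc p2.1.t p2.1.z) * (sqc q (conv (fun n =>
        conv (fp (cx h) (fun b => chK P p1.1.kd b * prin0 p1.1.d b) (fw z D0 p1.2) p1.1.z p1.1.t)
          (fp (cx h) (fun b => chK P p2.1.kd b * prin0 p2.1.d b) (fw z D0 p2.2) p2.1.z p2.1.t) n -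
        conv (fp (cx h) (fun b => chK P p1.1.kd b * prin0 p1.1.d b) (fw z D0 p1.2) (p1.1.z + δ)
            p1.1.t)
          (fp (cx h) (fun b => chK P p2.1.kd b * prin0 p2.1.d b) (fw z D0 p2.2) (p2.1.z - δ)
            p2.1.t) n) (alF z D0 P h l)) (g * n) *
          (osc t (Real.log (nm n)) * (ps σ n * Ψ n))) := by
    intro n
    unfold HP842.sqc
    rw [xL_eq hR hP z D0 hu1 hu2 l δ]
    ring
  rw [tsum_congr hseq, tsum_mul_left, norm_mul, norm_mul, norm_osc, norm_osc, one_mul, one_mul]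
  refine main.trans ?_
  have hMg0 : 0 ≤ Mg d0 g := by unfold Mg; positivity
  set TT := ((1 + |p1.1.t + t|) * (1 + |p2.1.t + t|)) ^ 3 with hTT
  have hTT0 : 0 ≤ TT := by positivity
  have hng := one_le_nm hg
  have hng0 : (0 : ℝ) < nm g := by linarith
  -- log Z
  have hlog : 100 * (1 + Real.log Z) ≤ C3 * (K ^ e1 * X ^ (ε / 3)) := by
    have h1 := poly_log_le 1 hZ1 he10
    rw [pow_one, pow_one] at h1
    refine h1.trans ?_
    rw [hC3]
    push_cast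
    gcongr
  have hBvX : Bv ≤ (A1 * (C1 * K ^ e2) ^ 2) ^ N * X ^ (ε / 3) := by
    have e3 : Bv = A1 ^ N * C1 ^ (2 * N) * (Z ^ e2) ^ (2 * N) := by
      rw [hBv, mul_pow, ← pow_mul, mul_pow]; ring
    have e4 : (A1 * (C1 * K ^ e2) ^ 2) ^ N = A1 ^ N * C1 ^ (2 * N) * (K ^ e2) ^ (2 * N) := by
      rw [mul_pow, ← pow_mul, mul_pow]; ring
    rw [e3, e4, mul_assoc (A1 ^ N * C1 ^ (2 * N))]
    gcongr
  have hE1s : E ^ (1 - σ) ≤ K ^ (1 - σ) * Real.exp ((1 - σ) * LF l) := by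
    have h1 : E ^ (1 - σ) ≤ (K * Real.exp (LF l)) ^ (1 - σ) :=
      Real.rpow_le_rpow (Real.exp_pos _).le hEK (by linarith)
    refine h1.trans (le_of_eq ?_)
    rw [Real.mul_rpow (by positivity) (by positivity), ← Real.exp_mul (LF l)]
    congr 2; ring
  have hfinal : (Real.exp (LF (p1 :: p2 :: l)) / nm g) ^ (1 - σ) =
      (nm g : ℝ) ^ σ * Real.exp ((1 - σ) * (p1.1.z + p2.1.z)) * Real.exp ((1 - σ) * LF l) / nm g := by
    rw [Real.div_rpow (Real.exp_pos _).le hng0.le, ← Real.exp_mul, LF_cons, LF_cons,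
      Real.rpow_sub hng0, Real.rpow_one]
    have e3 : Real.exp ((p1.1.z + (p2.1.z + LF l)) * (1 - σ)) =
        Real.exp ((1 - σ) * (p1.1.z + p2.1.z)) * Real.exp ((1 - σ) * LF l) := by
      rw [← Real.exp_add]; congr 1; ring
    rw [e3]
    field_simp
  rw [hfinal]
  have hX3e : X ^ (ε / 3) * X ^ (ε / 3) * X ^ (ε / 3) = X ^ ε := by
    rw [← Real.rpow_add hX0, ← Real.rpow_add hX0]; congr 1; ring
  have hC30 : 0 ≤ C3 := by linarith
  have hlZ : 0 ≤ 100 * (1 + Real.log Z) := by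
    have := Real.log_nonneg hZ1
    linarith
  calc C0 * Z ^ e1 * (1 ^ 2 * D0 ^ 2) * TT *
        (((nm g : ℝ) ^ σ * Real.exp ((1 - σ) * (p1.1.z + p2.1.z)) *
          (Bv * E ^ (1 - σ) * (100 * (1 + Real.log Z))) / nm g) * Mg d0 g)
      ≤ C0 * (K ^ e1 * X ^ (ε / 3)) * (1 ^ 2 * D0 ^ 2) * TT *
        (((nm g : ℝ) ^ σ * Real.exp ((1 - σ) * (p1.1.z + p2.1.z)) *
          (((A1 * (C1 * K ^ e2) ^ 2) ^ N * X ^ (ε / 3)) *
            (K ^ (1 - σ) * Real.exp ((1 - σ) * LF l)) * (C3 * (K ^ e1 * X ^ (ε / 3)))) / nm g) *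
              Mg d0 g) := by
        have hEs0 : 0 ≤ E ^ (1 - σ) := by positivity
        gcongr
    _ = (C0 * K ^ e1 * ((A1 * (C1 * K ^ e2) ^ 2) ^ N * K ^ (1 - σ) * (C3 * K ^ e1))) *
        (X ^ (ε / 3) * X ^ (ε / 3) * X ^ (ε / 3)) * D0 ^ 2 * TT *
        (((nm g : ℝ) ^ σ * Real.exp ((1 - σ) * (p1.1.z + p2.1.z)) *
          Real.exp ((1 - σ) * LF l) / nm g) * Mg d0 g) := by ring
    _ = _ := by rw [hX3e]

end Crest.Agent.R017.ExD791
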