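import Crest.Agent.R017.ExD8_791
import Crest.Agent.R017.RGc_64
import Crest.Agent.R017.PX1_764

/-!
# Row 17, exceptional class: principal values of shape differences (9) (helper791)

* `exd_CS`   : `CS (tws (sg (sqc q x) g) t) k`, `x` the difference of two lists, `k` principal
* `exd_bias` : `∑ tws (sg (sqc q x) g) t n * md j n` (the bias of the difference)
-/

set_option autoImplicit false

noncomputable section

open Complex MeasureTheory Filter Topology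
open scoped ContDiff

namespace Crest.Agent.R017.ExD791

open Crest.Agent.R012 Crest.Agent.R012.Eis Crest.Agent.R012.Po581 Crest.Agent.R012.Gauss880
open Crest.Agent.R012.Weight600 (osc norm_osc)
open Crest.Agent.R012.PSer47 Crest.Agent.R012.Div277 Crest.Agent.R012.Mob705
open Crest.Agent.R017.End699 Crest.Agent.R017.FE47 Crest.Agent.R017.Two939
open Crest.Agent.R017.TXC791
open Crest.Agent.R017.CM106 (CS TG FS)
open Crest.Agent.R017.TP320 (conv)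
open Crest.Agent.R017.HP842 (Th sqc FS_conv UT Pc uv pc norm_uv_le)
open Crest.Agent.R017.Sup271 (NPm)
open Crest.Agent.R017.B770
open Crest.Agent.R017.Prov71 (Pq Kd chK)
open Crest.Agent.R017.Leg381 (Pf alF LF fpc fw natw)
open Crest.Agent.R017.OKi848 (OKi ok_pc)
open Crest.Agent.R017.E1551 (sg tws)
open Crest.Agent.R017.PX764 (md n6)

lemma rpow_five {X : ℝ} (hX : 3 ≤ X) {a : ℝ} : 81 * X ^ a ≤ X ^ (a + 4) := by
  have hX0 : 0 < X := by linarith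
  rw [Real.rpow_add hX0]
  have h1 : (81 : ℝ) ≤ X ^ (4 : ℝ) := by
    have : (3 : ℝ) ^ (4 : ℝ) ≤ X ^ (4 : ℝ) := Real.rpow_le_rpow (by norm_num) hX (by norm_num)
    refine le_trans ?_ this
    norm_num
  have h2 : 0 ≤ X ^ a := by positivity
  nlinarith

/-- **principal values at the members of the family** -/
theorem exd_CS {h : ℝ → ℝ} {c : ℝ} (hpu : PU h c) (N : ℕ) {B : ℝ} (hB : 0 ≤ B) {ε : ℝ}
    (hε : 0 < ε) :
    ∃ C : ℝ, 1 ≤ C ∧ ∀ X : ℝ, 3 ≤ X → ∀ P : DPar, OKi P → HC P.n P.ψ → (nm P.n : ℝ) ≤ X ^ B →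
      ∀ z D0 : ℝ, 1 ≤ D0 →
      ∀ (p1 p2 : Pf) (l : List Pf), p1.1.u = .one → p2.1.u = .one → p1.1.kd = .mo →
      p2.1.kd = .mo → (nm p1.1.d : ℝ) ≤ X ^ B → (nm p2.1.d : ℝ) ≤ X ^ B → l.length ≤ N →
      LF l ≤ B * Real.log X → ∀ k : Eis, k ≠ 0 → (nm k : ℝ) ≤ X ^ B → ¬ NPm P.n P.ψ P.l₂ k →
      ∀ δ d0 : ℝ, d0 ≤ p1.1.z → d0 ≤ p2.1.z → d0 ≤ p1.1.z + δ → d0 ≤ p2.1.z - δ →
      d0 ≤ B * Real.log X → ∀ (q g : Eis), q ≠ 0 → (nm q : ℝ) ≤ X ^ B → IsPrim g →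
      (nm g : ℝ) ≤ X ^ B → ∀ t : ℝ,
      ‖CS (tws (sg (sqc q (xL z D0 P h p1 p2 l δ)) g) t) k‖ ≤
        C * X ^ ε * D0 ^ 2 * ((1 + |p1.1.t + t|) * (1 + |p2.1.t + t|)) ^ 3 *
          ((Real.exp (LF (p1 :: p2 :: l)) / nm g) * Mg d0 g) := by
  obtain ⟨C, hC, hb⟩ := exd_list hpu N (σ := 0) (by norm_num) (B := 3 * B + 4) (by linarith) hε
  refine ⟨C, hC, ?_⟩
  intro X hX P hP hψ hPn z D0 hD0 p1 p2 l hu1 hu2 hk1 hk2 hd1 hd2 hlen hLl k hk hkX hnp δ d0 hy1 hy2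
    hy3 hy4 hd0 q g hq hqX hg hgX t
  have hX0 : 0 < X := by linarith
  have hX1 : 1 ≤ X := by linarith
  have hlX : 0 ≤ Real.log X := Real.log_nonneg hX1
  have up : X ^ B ≤ X ^ (3 * B + 4) := Real.rpow_le_rpow_of_exponent_le hX1 (by linarith)
  have hρ : ∀ d : Eis, (nm d : ℝ) ≤ X ^ B → (nm (P.n * (9 * k) * d) : ℝ) ≤ X ^ (3 * B + 4) := by
    intro d hd
    have hn9 : nm (9 : Eis) = 81 := by decide
    rw [nm_mul, nm_mul, nm_mul, hn9]
    push_cast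
    calc (nm P.n : ℝ) * (81 * nm k) * nm d ≤ X ^ B * (81 * X ^ B) * X ^ B := by gcongr
      _ = 81 * X ^ (3 * B) := by
          have : X ^ (3 * B) = X ^ B * X ^ B * X ^ B := by
            rw [← Real.rpow_add hX0, ← Real.rpow_add hX0]; congr 1; ring
          rw [this]; ring
      _ ≤ _ := rpow_five hX
  have hρ0 : ∀ d : Eis, d ≠ 0 → P.n * (9 * k) * d ≠ 0 := fun d hd =>
    mul_ne_zero (mul_ne_zero hψ.q0 (mul_ne_zero nine_ne hk)) hd
  have hprin : ∀ p : Pf, p.1.kd = .mo → ∀ b, IsPrim b →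
      (chK P p.1.kd b * prin0 p.1.d b) * sy k b = prin0 (P.n * (9 * k) * p.1.d) b := by
    intro p hp b hb'
    rw [hp]
    exact prin_hyp hψ hk hnp p.1.d hb'
  have main := hb X hX P hP z D0 hD0 p1 p2 l hu1 hu2 hlen
    (hLl.trans (mul_le_mul_of_nonneg_right (by linarith) hlX)) (sy k) (Char766.isChar_sy k)
    _ _ (hρ0 _ p1.1.d0) (hρ0 _ p2.1.d0) (hρ _ hd1) (hρ _ hd2) (hprin p1 hk1) (hprin p2 hk2) δ d0 hy1
    hy2 hy3 hy4 (hd0.trans (mul_le_mul_of_nonneg_right (by linarith) hlX)) q g hq (hqX.trans up) hg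
    (hgX.trans up) t
  have e1 : CS (tws (sg (sqc q (xL z D0 P h p1 p2 l δ)) g) t) k =
      ∑' n : Eis, sqc q (xL z D0 P h p1 p2 l δ) (g * n) *
          (osc t (Real.log (nm n)) * (ps 0 n * sy k n)) := by
    unfold CM106.CS E1551.tws E1551.sg Weight600.pw
    refine tsum_congr fun n => ?_
    have : ps 0 n = 1 := by unfold ps; simp
    rw [this]; ring
  rw [e1]
  refine main.trans (le_of_eq ?_)
  rw [sub_zero, Real.rpow_one]

/-- **the bias of the difference of two lists** -/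
theorem exd_bias {h : ℝ → ℝ} {c : ℝ} (hpu : PU h c) (N : ℕ) {B : ℝ} (hB : 0 ≤ B) {ε : ℝ}
    (hε : 0 < ε) :
    ∃ C : ℝ, 1 ≤ C ∧ ∀ X : ℝ, 3 ≤ X → ∀ P : DPar, OKi P → HC P.n P.ψ → (nm P.n : ℝ) ≤ X ^ B →
      ¬ NPm P.n P.ψ P.l₂ 1 → ∀ z D0 : ℝ, 1 ≤ D0 →
      ∀ (p1 p2 : Pf) (l : List Pf), p1.1.u = .one → p2.1.u = .one → p1.1.kd = .mo →
      p2.1.kd = .mo → (nm p1.1.d : ℝ) ≤ X ^ B → (nm p2.1.d : ℝ) ≤ X ^ B → l.length ≤ N →
      LF l ≤ B * Real.log X → ∀ j : Eis, j ≠ 0 → (nm j : ℝ) ≤ X ^ B →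
      ∀ δ d0 : ℝ, d0 ≤ p1.1.z → d0 ≤ p2.1.z → d0 ≤ p1.1.z + δ → d0 ≤ p2.1.z - δ →
      d0 ≤ B * Real.log X → ∀ (q g : Eis), q ≠ 0 → (nm q : ℝ) ≤ X ^ B → IsPrim g →
      (nm g : ℝ) ≤ X ^ B → ∀ t : ℝ,
      ‖∑' n : Eis, tws (sg (sqc q (xL z D0 P h p1 p2 l δ)) g) t n * (md j n : ℂ)‖ ≤
        C * X ^ ε * D0 ^ 2 * ((1 + |p1.1.t + t|) * (1 + |p2.1.t + t|)) ^ 3 *
          ((Real.exp (LF (p1 :: p2 :: l)) / nm g) ^ (5 / 6 : ℝ) * Mg d0 g) := by
  classical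
  obtain ⟨C, hC, hb⟩ := exd_list hpu N (σ := 1 / 6) (by norm_num) (B := 3 * B + 4) (by linarith) hε
  refine ⟨C, hC, ?_⟩
  intro X hX P hP hψ hPn hnp z D0 hD0 p1 p2 l hu1 hu2 hk1 hk2 hd1 hd2 hlen hLl j hj hjX δ d0 hy1 hy2
    hy3 hy4 hd0 q g hq hqX hg hgX t
  have hX0 : 0 < X := by linarith
  have hX1 : 1 ≤ X := by linarith
  have hlX : 0 ≤ Real.log X := Real.log_nonneg hX1
  have up : X ^ B ≤ X ^ (3 * B + 4) := Real.rpow_le_rpow_of_exponent_le hX1 (by linarith)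
  have hρ : ∀ d : Eis, (nm d : ℝ) ≤ X ^ B →
      (nm (P.n * (9 * 1) * d * j) : ℝ) ≤ X ^ (3 * B + 4) := by
    intro d hd
    have hn9 : nm ((9 : Eis) * 1) = 81 := by decide
    rw [nm_mul, nm_mul, nm_mul, hn9]
    push_cast
    calc (nm P.n : ℝ) * 81 * nm d * nm j ≤ X ^ B * 81 * X ^ B * X ^ B := by gcongr
      _ = 81 * X ^ (3 * B) := by
          have : X ^ (3 * B) = X ^ B * X ^ B * X ^ B := by
            rw [← Real.rpow_add hX0, ← Real.rpow_add hX0]; congr 1; ring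
          rw [this]; ring
      _ ≤ _ := rpow_five hX
  have hρ0 : ∀ d : Eis, d ≠ 0 → P.n * (9 * 1) * d * j ≠ 0 := fun d hd =>
    mul_ne_zero (mul_ne_zero (mul_ne_zero hψ.q0 (mul_ne_zero nine_ne one_ne_zero)) hd) hj
  have hprin : ∀ p : Pf, p.1.kd = .mo → ∀ b, IsPrim b →
      (chK P p.1.kd b * prin0 p.1.d b) * prin0 j b = prin0 (P.n * (9 * 1) * p.1.d * j) b := by
    intro p hp b hb'
    rw [hp, ← prin0_mul (P.n * (9 * 1) * p.1.d) j, ← prin_hyp hψ one_ne_zero hnp p.1.d hb',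
      Char766.sy_one_left hb', mul_one]
    rfl
  have main := hb X hX P hP z D0 hD0 p1 p2 l hu1 hu2 hlen
    (hLl.trans (mul_le_mul_of_nonneg_right (by linarith) hlX)) (prin0 j) (isChar_prin0 j)
    _ _ (hρ0 _ p1.1.d0) (hρ0 _ p2.1.d0) (hρ _ hd1) (hρ _ hd2) (hprin p1 hk1) (hprin p2 hk2) δ d0 hy1
    hy2 hy3 hy4 (hd0.trans (mul_le_mul_of_nonneg_right (by linarith) hlX)) q g hq (hqX.trans up) hg
    (hgX.trans up) t
  have e1 : ∀ n : Eis, tws (sg (sqc q (xL z D0 P h p1 p2 l δ)) g) t n * (md j n : ℂ) =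
      sqc q (xL z D0 P h p1 p2 l δ) (g * n) *
          (osc t (Real.log (nm n)) * (ps (1 / 6) n * prin0 j n)) := by
    intro n
    unfold E1551.tws E1551.sg Weight600.pw
    by_cases h0 : Th q (g * n) = 0
    · unfold HP842.sqc
      rw [h0]; ring
    · have hsq : Squarefree n := (Th_ne h0).1.squarefree_of_dvd (dvd_mul_left n g)
      have e2 : (md j n : ℂ) = ps (1 / 6) n * prin0 j n := by
        unfold PX764.md PX764.n6 ps End699.prin0
        have e3 : (-(1 : ℝ) / 6) = -(1 / 6) := by norm_num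
        by_cases hc : IsCoprime n j
        · rw [if_pos ⟨hsq, hc⟩, if_pos hc, mul_one, e3]
        · rw [if_neg fun h' => hc h'.2, if_neg hc, mul_zero]
          simp
      rw [e2]; ring
  rw [tsum_congr e1]
  refine main.trans (le_of_eq ?_)
  norm_num

/-- at the reduced datum the `mo`-character is principal -/
lemma npm_prin {n : Eis} (c : Eis) : ¬ NPm n (prin0 n) 0 (c ^ 3) := by
  unfold NPm NP
  push Not
  refine ⟨rfl, fun a ha hac => ?_⟩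
  have h1 : IsCoprime a n := hac.of_isCoprime_of_dvd_right ⟨9 * c ^ 3, by ring⟩
  have h2 : IsCoprime a c := hac.of_isCoprime_of_dvd_right ⟨n * 9 * c ^ 2, by ring⟩
  have h3 : prin0 n a = 1 := by
    unfold End699.prin0
    rw [if_pos h1]
  rw [h3, Char766.sy_cube_left ha h2.symm, mul_one]

lemma npm_prin_one {n : Eis} : ¬ NPm n (prin0 n) 0 1 := by
  have := npm_prin (n := n) 1
  simpa using this

end Crest.Agent.R017.ExD791
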