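import Crest.Agent.R017.ExP5b_271

/-!
# Row 17, exceptional class, P5x (helper271), part 3: `TopDD` from `PrimUX` and `AbsDD`

* `topDD_of_topPX` : the exponents
* `topDD_of_primUX` : **the signed theorem for double differences**
-/

set_option autoImplicit false

noncomputable section

open Complex Filter Topology
open scoped ContDiff ComplexConjugate

namespace Crest.Agent.R017.ExP5x271

open Crest.Agent.R012 Crest.Agent.R012.Eis Crest.Agent.R012.Gauss880
open Crest.Agent.R012.LS2 (bl mem_bl)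
open Crest.Agent.R012.Mob705
open Crest.Agent.R017.CM106 (CS)
open Crest.Agent.R017.End699 Crest.Agent.R017.FE47
open Crest.Agent.R017.B770 Crest.Agent.R017.Sup271 Crest.Agent.R017.Bx986
open Crest.Agent.R017.HP842 (UT Pc pc)
open Crest.Agent.R017.SU770
open Crest.Agent.R017.Prov71 Crest.Agent.R017.XG702
open Crest.Agent.R017.E5T54 Crest.Agent.R017.E5B71
open Crest.Agent.R017.Sx545 (Sm)
open Crest.Agent.R017.E5P571 (SgF PC)
open Crest.Agent.R017.ExBox960 Crest.Agent.R017.ExP960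
open Crest.Agent.R017.E5S271
open Crest.Agent.R017.Cone59 (Tg)

lemma mkX_mono {A β δ δ₁ κ X : ℝ} {us : Fin 5 → Pq} {zs : Fin 4 → ℝ} {ps : List Pq}
    (hδ : δ ≤ δ₁) (h : MkX A β δ κ X us zs ps) : MkX A β δ₁ κ X us zs ps where
  lump := h.lump
  md := h.md
  anti i j hij := (h.anti i j hij).trans (by linarith)
  top p hp hl := (h.top p hp hl).trans (by linarith)
  near := h.near
  s01 := h.s01
  s23 := h.s23
  z0 := h.z0.trans hδ
  z2 := h.z2.trans hδ
  mdL := h.mdL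

set_option maxHeartbeats 1000000 in
/-- **the signed theorem for double differences** : long families signed, short ones absolute -/
theorem topDD_of_topPX {Λ : Type*} {θ μ₁ μ₂ μ' a₀' A β : ℝ} {π : Λ → DPar} {h : ℝ → ℝ}
    (hπ : ∀ lam, (π lam).OK) (hθ : 0 ≤ θ) (ha₀' : 0 < a₀') (ha₁ : a₀' < 9 / 10)
    (hμ1 : μ' < μ₁) (hμ2 : μ' < μ₂) (hTP : TopPX θ μ₁ a₀' A β π h) (hAb : AbsDD θ A β μ₂ π h) :
    TopDD θ (1 / 3) μ' (179 / 200) A β π h := by
  obtain ⟨δP, hδP, HP⟩ := hTP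
  obtain ⟨δC, hδC, HC⟩ := hAb
  set δ : ℝ := min (min δP δC) (min (1 / 1000) a₀') with hδ
  have hδ0 : 0 < δ := by positivity
  have hδ1 : δ ≤ δP := (min_le_left _ _).trans (min_le_left _ _)
  have hδ2 : δ ≤ δC := (min_le_left _ _).trans (min_le_right _ _)
  have hδ3 : δ ≤ 1 / 1000 := (min_le_right _ _).trans (min_le_left _ _)
  have hδ4 : δ ≤ a₀' := (min_le_right _ _).trans (min_le_right _ _)
  clear_value δ
  refine ⟨δ, hδ0, fun lam N B => ?_⟩
  have hP := hπ lam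
  have hn0 : (π lam).n ≠ 0 := hP.φ.q0
  obtain ⟨T, hT1, hT2⟩ := exists_reps hn0
  -- representatives
  have hrep : ∃ rep : Eis → Eis, ∀ s ∈ SM (π lam).n, rep s ∈ T ∧ SameTw (π lam).n s (rep s) := by
    classical
    refine ⟨fun s => if h : s ∈ SM (π lam).n then (hT2 s h).choose else 0, fun s hs => ?_⟩
    simp only [dif_pos hs]
    exact (hT2 s hs).choose_spec
  obtain ⟨rep, hrep⟩ := hrep
  -- constants of the long families
  choose! dP hdP xP hxP HP1 using fun t (ht : t ∈ SM (π lam).n) => HP lam t ht N B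
  obtain ⟨δP', hδP', hmin⟩ := exists_pos_min T dP fun t ht => hdP t (hT1 t ht)
  obtain ⟨XP, hXP⟩ := exists_max' T xP
  obtain ⟨MT, hMT⟩ := exists_max' T fun t => (nm t : ℝ)
  -- constants of the short families
  obtain ⟨δC', hδC', XC, hXC, HC1⟩ := HC lam N B
  obtain ⟨b, hb, hbU⟩ := exists_supp hP.U
  set μm : ℝ := min μ₁ μ₂ with hμm
  have hμm1 : μm ≤ μ₁ := min_le_left _ _
  have hμm2 : μm ≤ μ₂ := min_le_right _ _
  have hμm4 : μ' < μm := lt_min hμ1 hμ2
  clear_value μm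
  set μd : ℝ := μm - μ' with hμd
  have hμd0 : 0 < μd := by linarith
  set ε : ℝ := min (μd / 8) (1 / 8) with hε
  have hε0 : 0 < ε := by positivity
  have hε1 : 4 * ε ≤ μd / 2 := by
    have : ε ≤ μd / 8 := min_le_left _ _
    linarith
  have hε3 : ε ≤ 1 := by
    have : ε ≤ 1 / 8 := min_le_right _ _
    linarith
  clear_value ε
  obtain ⟨C₁, hC₁, hshort⟩ := short_leX hP hb hbU hε0
  obtain ⟨C₃, hC₃, hcard⟩ := card_SU hε0 hn0
  set δ' : ℝ := min δP' δC' with hδ'
  have hδ'0 : 0 < δ' := by positivity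
  have hδ'1 : δ' ≤ δP' := min_le_left _ _
  have hδ'2 : δ' ≤ δC' := min_le_right _ _
  clear_value δ'
  -- the sizes
  set M₀ : ℝ := (|MT| + 1) * b with hM₀
  have hM₀0 : 0 < M₀ := by positivity
  clear_value M₀
  set D₁ : ℝ := 1 + C₁ * 2 with hD₁
  have hD₁0 : 0 ≤ C₁ * 2 := by positivity
  set D₃ : ℝ := nm (π lam).n₃ * (C₃ * b ^ ε) * D₁ + 1 with hD₃
  have hD₁1 : 1 ≤ D₁ := by linarith
  have hD₃1 : 1 ≤ D₃ := by
    have : 0 ≤ nm (π lam).n₃ * (C₃ * b ^ ε) * D₁ := by positivity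
    linarith
  obtain ⟨X₄, hX₄, HX₄⟩ := XSup271.exists_X hD₃1 (ε := μd / 2) (by positivity)
  set Λ₀ : ℝ := |Real.log M₀| with hΛ₀
  have hΛ₀0 : 0 ≤ Λ₀ := abs_nonneg _
  have haa : 0 < 9 / 10 - a₀' := by linarith
  set Y₀ : ℝ := Real.exp (Λ₀ / (9 / 10 - a₀') + Λ₀ / δC) with hY₀
  refine ⟨δ', hδ'0, max (max XP XC) (max X₄ Y₀), lt_of_lt_of_le hXC
    ((le_max_right _ _).trans (le_max_left _ _)), ?_⟩
  intro X hX H hH us zs ps hlen hlump hgood ha₀X hmk d₃ e hd₃ hd₃' he he5 τ hτ 𝒟 h𝒟 hh q c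
    hh0 hh1 hq0 hq1 hc0 hc1 hqc hk hm1 hm2
  have hXX1 : XP ≤ X := ((le_max_left _ _).trans (le_max_left _ _)).trans hX
  have hXX2 : XC ≤ X := ((le_max_right _ _).trans (le_max_left _ _)).trans hX
  have hXX3 : X₄ ≤ X := ((le_max_left _ _).trans (le_max_right _ _)).trans hX
  have hXX4 : Y₀ ≤ X := ((le_max_right _ _).trans (le_max_right _ _)).trans hX
  have hX1 : 1 < X := lt_of_lt_of_le hXC hXX2
  have hX0 : 0 < X := by linarith
  have hlX : 0 < Real.log X := Real.log_pos hX1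
  have hq1' : q ≤ 4 / 3 := by linarith
  have hqc' : q + Real.log (nm e) / Real.log X - c ≤ 1 + δ := by linarith
  have hlog : Λ₀ / (9 / 10 - a₀') + Λ₀ / δC ≤ Real.log X := by
    rw [← Real.log_exp (Λ₀ / (9 / 10 - a₀') + Λ₀ / δC)]
    exact Real.log_le_log (Real.exp_pos _) hXX4
  have hΛ1 : Λ₀ / Real.log X ≤ 9 / 10 - a₀' := by
    rw [div_le_iff₀ hlX]
    have h1 : Λ₀ / (9 / 10 - a₀') ≤ Real.log X := le_trans (by
      have : 0 ≤ Λ₀ / δC := by positivity
      linarith) hlog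
    rw [div_le_iff₀ haa] at h1
    linarith
  have hΛ2 : Λ₀ / Real.log X ≤ δC := by
    rw [div_le_iff₀ hlX]
    have h1 : Λ₀ / δC ≤ Real.log X := le_trans (by
      have : 0 ≤ Λ₀ / (9 / 10 - a₀') := by positivity
      linarith) hlog
    rw [div_le_iff₀ hδC] at h1
    linarith
  set k : ℝ := Real.log H / Real.log X with hkdef
  have hHX : H = X ^ k := by
    rw [Real.rpow_def_of_pos hX0, hkdef, mul_div_cancel₀ _ hlX.ne', Real.exp_log hH]
  have hk' := abs_le.1 hk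
  have hk2 : k ≤ 2 := by linarith
  have hk0 : 0 ≤ k := by linarith
  have he1 : (1 : ℝ) ≤ nm e := by exact_mod_cast nm_pos.mpr he.1.ne_zero
  have hle : 0 ≤ Real.log (nm e) / Real.log X := div_nonneg (Real.log_nonneg he1) hlX.le
  set V : ℝ := X ^ (Tg θ (1 / 3) hh q c - μm) with hV
  have hV0 : 0 < V := by positivity
  have hX2ε : 1 ≤ X ^ (2 * ε) := Real.one_le_rpow hX1.le (by positivity)
  set G : Eis → ℂ := GX (π lam) h us zs ps with hG
  -- one `S`-unit
  have key : ∀ s ∈ SU (π lam).n ⌊b * H⌋₊,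
      ∑ r ∈ 𝒟, ‖SgF (π lam).n (DPar.wp (π lam) τ (H / nm s)) d₃ e (fun x => G (rep s * x)) r‖ ≤
        D₁ * X ^ (2 * ε) * V := by
    intro s hs
    obtain ⟨hs1, hs2⟩ := mem_SU.mp hs
    obtain ⟨ht, hst⟩ := hrep s hs2
    have htn := hT1 _ ht
    have hsn : (1 : ℝ) ≤ nm s := by exact_mod_cast nm_pos.mpr hs2.1
    have hsH : (nm s : ℝ) ≤ b * H :=
      le_trans (by exact_mod_cast hs1) (Nat.floor_le (by positivity))
    have hK0 : 0 < H / nm s := by positivity
    have hls : 0 ≤ Real.log (nm s) := Real.log_nonneg hsn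
    have hkK : Real.log (H / nm s) / Real.log X = k - Real.log (nm s) / Real.log X := by
      rw [Real.log_div hH.ne' (by positivity), sub_div]
    have hσ0 : 0 ≤ Real.log (nm s) / Real.log X := div_nonneg hls hlX.le
    set σ : ℝ := Real.log (nm s) / Real.log X with hσ
    rcases le_or_gt a₀' (k - σ) with hlong | hsh
    · -- a long family
      have h1 := HP1 (rep s) htn X ((hXP _ ht).trans hXX1) (H / nm s) k hK0 us zs ps hlen
        (fun p hp => (hlump p hp).imp id fun h => h.trans hδ1)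
        (fun p hp => ⟨(hgood p hp).1.trans (Real.rpow_le_rpow_of_exponent_le hX1.le
          (hδ'1.trans (hmin _ ht))), (hgood p hp).2⟩) (by rw [hkK]; exact hlong)
        (by rw [hkK]; linarith) (mkX_mono hδ1 hmk) d₃ e hd₃ hd₃' he he5 τ
        (hτ.trans (Real.rpow_le_rpow_of_exponent_le hX1.le (hδ'1.trans (hmin _ ht)))) 𝒟 h𝒟
        (hh - σ) hh q c (by linarith) (by linarith) hh1 hq0 hq1' hc0 hc1 (by linarith)
        (by
          rw [hkK]
          have e0 : k - σ - (hh - σ) = k - hh := by ring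
          rw [e0]
          exact hk.trans hδ1) (hk.trans hδ1) (hm1.trans hδ1) (hm2.trans hδ1)
      refine h1.trans ?_
      have h2 : Tg θ (1 / 3) (hh - σ) q c ≤ Tg θ (1 / 3) hh q c :=
        Tg_mono hθ (by linarith) le_rfl
      calc X ^ (Tg θ (1 / 3) (hh - σ) q c - μ₁) ≤ V :=
            Real.rpow_le_rpow_of_exponent_le hX1.le (by linarith)
        _ = 1 * 1 * V := by ring
        _ ≤ D₁ * X ^ (2 * ε) * V := by gcongr
    · -- a short family
      have ht0 : rep s ≠ 0 := htn.1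
      have h1 := hshort G (rep s) ht0 (H / nm s) hK0 τ d₃ e he.1 𝒟 (fun q hq => (h𝒟 q hq).1.1)
      refine h1.trans ?_
      have hnt : (1 : ℝ) ≤ nm (rep s) := by exact_mod_cast nm_pos.mpr ht0
      set L : ℝ := nm (rep s) * (b * (H / nm s)) with hL
      have hL1 : 1 ≤ L := by
        have h2 : 1 ≤ b * (H / nm s) := by
          rw [← mul_div_assoc, le_div_iff₀ (by positivity), one_mul]
          exact hsH
        exact one_le_mul_of_one_le_of_one_le hnt h2
      have hL0 : 0 < L := by linarith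
      have hLM : L ≤ M₀ * (H / nm s) := by
        have h2 : (nm (rep s) : ℝ) ≤ |MT| + 1 := by
          have := hMT _ ht
          have := le_abs_self MT
          linarith
        rw [hL, hM₀, mul_assoc]
        gcongr
      have hlogL : Real.log L / Real.log X ≤ Λ₀ / Real.log X + (k - σ) := by
        have h2 : Real.log L ≤ Real.log M₀ + Real.log (H / nm s) := by
          rw [← Real.log_mul hM₀0.ne' hK0.ne']
          exact Real.log_le_log hL0 hLM
        have h3 : Real.log L ≤ Λ₀ + Real.log (H / nm s) := by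
          have := le_abs_self (Real.log M₀)
          linarith
        rw [← hkK, ← add_div]
        gcongr
      have h5 := HC1 X hXX2 H hH us zs ps hlen (fun p hp => (hlump p hp).imp id fun h =>
        h.trans hδ2) (fun p hp => ⟨(hgood p hp).1.trans
          (Real.rpow_le_rpow_of_exponent_le hX1.le hδ'2), (hgood p hp).2⟩) ha₀X
        (mkX_mono hδ2 hmk) hh q c hh0 hh1 hq0 hq1' hc0 hc1 (by linarith) (hk.trans hδ2)
        (hm1.trans hδ2) (hm2.trans hδ2) L hL1 (by linarith) (by linarith)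
      have h7 : ∑ k ∈ bl L, ‖G k‖ ≤ V := by
        refine le_trans (le_of_eq ?_) (h5.trans
          (Real.rpow_le_rpow_of_exponent_le hX1.le (by linarith)))
        rfl
      have h11 : (1 + H / nm s) ^ ε ≤ 2 * X ^ (2 * ε) := by
        have h12 : 1 + H / nm s ≤ 2 * X ^ (2 : ℝ) := by
          have h13 : H / nm s ≤ H := div_le_self hH.le hsn
          have h14 : H ≤ X ^ (2 : ℝ) := by
            rw [hHX]; exact Real.rpow_le_rpow_of_exponent_le hX1.le hk2
          have h15 : 1 ≤ X ^ (2 : ℝ) := Real.one_le_rpow hX1.le (by norm_num)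
          linarith
        calc (1 + H / nm s) ^ ε ≤ (2 * X ^ (2 : ℝ)) ^ ε := by gcongr
          _ = 2 ^ ε * X ^ (2 * ε) := by
              rw [Real.mul_rpow (by norm_num) (by positivity), ← Real.rpow_mul hX0.le]
          _ ≤ 2 ^ (1 : ℝ) * X ^ (2 * ε) := by
              have : (2 : ℝ) ^ ε ≤ 2 ^ (1 : ℝ) :=
                Real.rpow_le_rpow_of_exponent_le (by norm_num) hε3
              gcongr
          _ = _ := by rw [Real.rpow_one]
      calc C₁ * (1 + H / nm s) ^ ε * ∑ k ∈ bl L, ‖G k‖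
          ≤ C₁ * (2 * X ^ (2 * ε)) * V := by gcongr
        _ = (C₁ * 2) * X ^ (2 * ε) * V := by ring
        _ ≤ D₁ * X ^ (2 * ε) * V := by
            have : C₁ * 2 ≤ D₁ := by linarith
            gcongr
  -- all
  have htot : ∑ r ∈ 𝒟, ‖SgX (π lam) h τ H d₃ e us zs ps r‖ ≤ nm (π lam).n₃ *
      ∑ s ∈ SU (π lam).n ⌊b * H⌋₊, ∑ r ∈ 𝒟, ‖SgF (π lam).n (DPar.wp (π lam) τ (H / nm s)) d₃ e
        (fun x => G (rep s * x)) r‖ := by
    rw [Finset.sum_comm, Finset.mul_sum]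
    refine Finset.sum_le_sum fun r hr => ?_
    rw [SgX_eq_SgK]
    exact norm_SgK_le hP hb hbU hH τ d₃ he.1
      (fun s hs x => GX_same hP h us zs ps (hrep s hs).2 x) (h𝒟 r hr).1
  have hcardB : ((SU (π lam).n ⌊b * H⌋₊).card : ℝ) ≤ C₃ * b ^ ε * X ^ (2 * ε) := by
    refine (hcard _).trans ?_
    have h1 : ((⌊b * H⌋₊ : ℕ) : ℝ) ≤ b * X ^ (2 : ℝ) := by
      refine (Nat.floor_le (by positivity)).trans ?_
      have h14 : H ≤ X ^ (2 : ℝ) := by
        rw [hHX]; exact Real.rpow_le_rpow_of_exponent_le hX1.le hk2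
      gcongr
    calc C₃ * ((⌊b * H⌋₊ : ℕ) : ℝ) ^ ε ≤ C₃ * (b * X ^ (2 : ℝ)) ^ ε := by gcongr
      _ = C₃ * b ^ ε * X ^ (2 * ε) := by
          rw [Real.mul_rpow hb.le (by positivity), ← Real.rpow_mul hX0.le]
          ring
  refine htot.trans ?_
  calc (nm (π lam).n₃ : ℝ) * ∑ s ∈ SU (π lam).n ⌊b * H⌋₊, ∑ r ∈ 𝒟,
        ‖SgF (π lam).n (DPar.wp (π lam) τ (H / nm s)) d₃ e (fun x => G (rep s * x)) r‖
      ≤ nm (π lam).n₃ * ∑ _s ∈ SU (π lam).n ⌊b * H⌋₊, D₁ * X ^ (2 * ε) * V := by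
        gcongr with s hs
        exact key s hs
    _ = nm (π lam).n₃ * ((SU (π lam).n ⌊b * H⌋₊).card * (D₁ * X ^ (2 * ε) * V)) := by
        rw [Finset.sum_const, nsmul_eq_mul]
    _ ≤ nm (π lam).n₃ * ((C₃ * b ^ ε * X ^ (2 * ε)) * (D₁ * X ^ (2 * ε) * V)) := by gcongr
    _ = (nm (π lam).n₃ * (C₃ * b ^ ε) * D₁) * (X ^ (2 * ε) * X ^ (2 * ε)) * V := by ring
    _ ≤ D₃ * X ^ (μd / 2) * V := by
        have h1 : nm (π lam).n₃ * (C₃ * b ^ ε) * D₁ ≤ D₃ := by linarith
        have h2 : X ^ (2 * ε) * X ^ (2 * ε) ≤ X ^ (μd / 2) := by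
          rw [← Real.rpow_add hX0]
          exact Real.rpow_le_rpow_of_exponent_le hX1.le (by linarith)
        gcongr
    _ ≤ X ^ (μd / 2) * X ^ (μd / 2) * V := by
        have := HX₄ X hXX3
        gcongr
    _ = X ^ (Tg θ (1 / 3) hh q c - μ') := by
        rw [hV, ← Real.rpow_add hX0, ← Real.rpow_add hX0]
        congr 1
        rw [hμd]
        ring

/-- **the signed theorem for double differences** from helper960's `PrimUX` and the absolute
statement for the short families -/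
theorem topDD_of_primUX {Λ : Type*} {θ A A' β μ₁ μ₂ μ' : ℝ} {π : Λ → DPar} {h : ℝ → ℝ}
    (hπ : ∀ lam, (π lam).OK) (hθ : 0 ≤ θ) (hβ : 0 < β) (hβ1 : β ≤ 1 / 5) (hA9 : 9 / 10 ≤ A)
    (hA'0 : 0 ≤ A') (hA : A' < A) (hA1 : A ≤ 1) (hμ1 : μ' < μ₁) (hμ2 : μ' < μ₂)
    (hU : PrimUX π h θ A' β μ₁) (hAb : AbsDD θ A β μ₂ π h) :
    TopDD θ (1 / 3) μ' (179 / 200) A β π h := by
  obtain ⟨μ, h1, h2⟩ := exists_between hμ1
  obtain ⟨a₀, h3, h4, h5⟩ := topPX_of_primUX hθ hβ hβ1 hA9 hA'0 hA hA1 h2 hU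
  exact topDD_of_topPX hπ hθ (by linarith) h4 h1 hμ2 h5 hAb

end Crest.Agent.R017.ExP5x271
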