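import Crest.Agent.R017.ExP1_960
import Crest.Agent.R017.E5T3_271

/-!
# Row 17, exceptional class, P5x (helper271), part 1: from all `k` to primary `k`

* `SgK`, `SgK_eq`, `norm_SgK_le` : exact splitting over the `S`-units, any value function `G`
* `short_leX` : a short family in terms of the absolute values
* `GX`, `GX_same`, `GX_tw` : the value of a double difference, its twist
* `AbsDD` : the absolute statement for the short families (helper935)
-/

set_option autoImplicit false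

noncomputable section

open Complex Filter Topology
open scoped ContDiff ComplexConjugate

namespace Crest.Agent.R017.ExP5x271

open Crest.Agent.R012 Crest.Agent.R012.Eis Crest.Agent.R012.Gauss880
open Crest.Agent.R012.LS2 (bl mem_bl)
open Crest.Agent.R012.PSer47 Crest.Agent.R012.Div277 Crest.Agent.R012.Mob705
open Crest.Agent.R017.CM106 (CS)
open Crest.Agent.R017.End699 Crest.Agent.R017.FE47 Crest.Agent.R017.Two939
open Crest.Agent.R017.B770 Crest.Agent.R017.Sup271 Crest.Agent.R017.Bx986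
open Crest.Agent.R017.HP842 (UT Pc pc)
open Crest.Agent.R017.SU770
open Crest.Agent.R017.Prov71 Crest.Agent.R017.XG702 Crest.Agent.R017.ER911
open Crest.Agent.R017.E5T54 Crest.Agent.R017.E5B71
open Crest.Agent.R017.Sx545 (Sm)
open Crest.Agent.R017.BoxP271 (norm_sy_le' sw_bdd)
open Crest.Agent.R017.E5P571 (SgF PC)
open Crest.Agent.R017.ExBox960 Crest.Agent.R017.ExP960
open Crest.Agent.R017.E5S271
open Crest.Agent.R017.Cone59 (Tg)

open Classical in
/-- the signed sum over all `k ≠ 0` with values `G` -/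
def SgK (P : DPar) (τ H : ℝ) (d₃ e : Eis) (G : Eis → ℂ) (q : Eis) : ℂ :=
  ∑' k : Eis, if k ≠ 0 ∧ q ^ 2 ∣ k then P.wk τ H k * (prin0 d₃ k * sy k e) * G k else 0

open Classical in
/-- **exact splitting over the `S`-units** -/
theorem SgK_eq {P : DPar} (hP : P.OK) {β : ℝ} (hβ : 0 < β) (hβU : ∀ x, β < x → P.U x = 0)
    {H : ℝ} (hH : 0 < H) (τ : ℝ) (d₃ : Eis) {e : Eis} (he : IsPrim e) (G : Eis → ℂ)
    {q : Eis} (hq : Sm P.n q) :
    SgK P τ H d₃ e G q = ∑ s ∈ SU P.n ⌊β * H⌋₊, (DPar.ws P τ s * (prin0 d₃ s * sy s e)) *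
      SgF P.n (DPar.wp P τ (H / nm s)) d₃ e (fun k => G (s * k)) q := by
  have h3 : (3 : Eis) ∣ P.n := Dvd.dvd.trans ⟨12, by norm_num⟩ hP.n36
  set F : Eis → ℂ := fun k => if q ^ 2 ∣ k then
    P.wk τ H k * (prin0 d₃ k * sy k e) * G k else 0 with hF
  have hFz : ∀ k, F k ≠ 0 → nm k ≤ ⌊β * H⌋₊ := by
    intro k hk
    rw [Nat.le_floor_iff (by positivity)]
    by_contra hne
    push Not at hne
    apply hk
    have h3' : P.U (nm k / H) = 0 := hβU _ (by rwa [lt_div_iff₀ hH])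
    simp only [hF]
    unfold DPar.wk
    rw [h3']
    simp
  have e1 : SgK P τ H d₃ e G q = ∑' k : Eis, if k ≠ 0 then F k else 0 := by
    unfold SgK
    refine tsum_congr fun k => ?_
    simp only [hF]
    by_cases h1 : k ≠ 0 <;> by_cases h2 : q ^ 2 ∣ k <;> simp [h1, h2]
  rw [e1, tsum_split h3 F hFz]
  refine Finset.sum_congr rfl fun s hs => ?_
  unfold SgF
  rw [← tsum_mul_left]
  refine tsum_congr fun k => ?_
  have hsn := (mem_SU.mp hs).2
  by_cases hk : IsPrim k ∧ IsCoprime k P.n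
  swap
  · rw [if_neg hk, if_neg (fun h' => hk ⟨h'.1, h'.2.1⟩), mul_zero]
  rw [if_pos hk]
  have hqs : IsCoprime (q ^ 2) s := by
    have := FE47.SM.coprime hsn hq.2
    exact this.pow_left
  have hdvd : q ^ 2 ∣ s * k ↔ q ^ 2 ∣ k := ⟨fun h' => hqs.dvd_of_dvd_mul_left h',
    fun h' => h'.mul_left s⟩
  simp only [hF]
  by_cases hqk : q ^ 2 ∣ k
  · rw [if_pos (hdvd.mpr hqk), if_pos ⟨hk.1, hk.2, hqk⟩, wk_mul hP τ H s hk.1 hk.2,
      L5.prin0_mul_right, Char766.sy_mul_left he]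
    ring
  · rw [if_neg fun h' => hqk (hdvd.mp h'), if_neg fun h' => hqk h'.2.2, mul_zero]

/-- **P5x**: the signed sum from the signed sums over primary `k` -/
theorem norm_SgK_le {P : DPar} (hP : P.OK) {β : ℝ} (hβ : 0 < β) (hβU : ∀ x, β < x → P.U x = 0)
    {rep : Eis → Eis} {H : ℝ} (hH : 0 < H) (τ : ℝ) (d₃ : Eis) {e : Eis} (he : IsPrim e)
    {G : Eis → ℂ} (hG : ∀ s ∈ SM P.n, ∀ k, G (s * k) = G (rep s * k))
    {q : Eis} (hq : Sm P.n q) :
    ‖SgK P τ H d₃ e G q‖ ≤ nm P.n₃ * ∑ s ∈ SU P.n ⌊β * H⌋₊,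
      ‖SgF P.n (DPar.wp P τ (H / nm s)) d₃ e (fun k => G (rep s * k)) q‖ := by
  classical
  rw [SgK_eq hP hβ hβU hH τ d₃ he G hq, Finset.mul_sum]
  refine (norm_sum_le _ _).trans (Finset.sum_le_sum fun s hs => ?_)
  have hsn := (mem_SU.mp hs).2
  have e1 : (fun k => G (s * k)) = fun k => G (rep s * k) := funext fun k => hG s hsn k
  rw [e1, norm_mul]
  refine mul_le_mul_of_nonneg_right ?_ (norm_nonneg _)
  rw [norm_mul]
  have h1 := norm_ws_le hP.χ₃ τ hsn.1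
  have h2 : ‖prin0 d₃ s * sy s e‖ ≤ 1 := by
    rw [norm_mul]
    refine mul_le_one₀ ?_ (norm_nonneg _) (norm_sy_le' s e he)
    unfold prin0; split_ifs <;> simp
  calc ‖DPar.ws P τ s‖ * ‖prin0 d₃ s * sy s e‖ ≤ nm P.n₃ * 1 := by gcongr
    _ = _ := mul_one _

open Classical in
/-- **a short family**, any value function : `L = nm t β K` -/
theorem short_leX {P : DPar} (hP : P.OK) {β : ℝ}
    (hβ : 0 < β) (hβU : ∀ x, β < x → P.U x = 0) {ε : ℝ} (hε : 0 < ε) :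
    ∃ C : ℝ, 0 ≤ C ∧ ∀ (G : Eis → ℂ) (t : Eis), t ≠ 0 → ∀ K : ℝ, 0 < K → ∀ (τ : ℝ) (d₃ e : Eis),
      IsPrim e → ∀ (𝒟 : Finset Eis), (∀ q ∈ 𝒟, IsPrim q) →
      ∑ q ∈ 𝒟, ‖SgF P.n (DPar.wp P τ K) d₃ e (fun k => G (t * k)) q‖ ≤
        C * (1 + K) ^ ε * ∑ k ∈ bl (nm t * (β * K)), ‖G k‖ := by
  obtain ⟨BU, hBU0, hBU⟩ := sw_bdd hP.U
  obtain ⟨Cτ, hCτ, hτ⟩ := tau_le_rpow hε
  refine ⟨BU * (Cτ * (1 + β) ^ ε), by positivity, ?_⟩
  intro G₀ t ht K hK τ d₃ e he 𝒟 h𝒟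
  have hβK : 0 < β * K := by positivity
  have ht1 : (1 : ℝ) ≤ nm t := by exact_mod_cast nm_pos.mpr ht
  set L : ℝ := nm t * (β * K) with hL
  have hL0 : 0 < L := by positivity
  set G : Eis → ℝ := fun k => ‖G₀ (t * k)‖ with hG
  -- one `q`
  have h1 : ∀ q ∈ 𝒟, ‖SgF P.n (DPar.wp P τ K) d₃ e (fun k => G₀ (t * k)) q‖ ≤
      ∑ k ∈ pbn P.n (β * K), if q ^ 2 ∣ k then BU * G k else 0 := by
    intro q _
    unfold SgF
    rw [tsum_eq_sum (s := pbn P.n (β * K))]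
    · refine (norm_sum_le _ _).trans (Finset.sum_le_sum fun k hk => ?_)
      obtain ⟨_, hk1, hk2⟩ := (mem_pbn hβK.le).1 hk
      by_cases hqk : q ^ 2 ∣ k
      · rw [if_pos ⟨hk1, hk2, hqk⟩, if_pos hqk, norm_mul, norm_mul]
        have w1 := norm_wp_le hP hBU τ K hk1
        have w2 : ‖prin0 d₃ k * sy k e‖ ≤ 1 := by
          rw [norm_mul]
          refine mul_le_one₀ ?_ (norm_nonneg _) (norm_sy_le' k e he)
          unfold prin0; split_ifs <;> simp
        calc ‖DPar.wp P τ K k‖ * ‖prin0 d₃ k * sy k e‖ * ‖G₀ (t * k)‖ ≤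
            BU * 1 * ‖G₀ (t * k)‖ := by gcongr
          _ = BU * G k := by rw [mul_one]
      · rw [if_neg fun h' => hqk h'.2.2, if_neg hqk, norm_zero]
    · intro k hk
      split_ifs with hc
      · have h2 : β * K < nm k := by
          by_contra h3
          exact hk ((mem_pbn hβK.le).2 ⟨not_lt.1 h3, hc.1, hc.2.1⟩)
        have h3 : P.U (nm k / K) = 0 := hβU _ (by rwa [lt_div_iff₀ hK])
        unfold DPar.wp
        rw [h3]
        simp
      · rfl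
  have hcount : ∀ k ∈ pbn P.n (β * K), ((𝒟.filter fun q => q ^ 2 ∣ k).card : ℝ) ≤
      Cτ * ((1 + β) ^ ε * (1 + K) ^ ε) := by
    intro k hk
    obtain ⟨hkK, hk1, hk2⟩ := (mem_pbn hβK.le).1 hk
    have h2 : (𝒟.filter fun q => q ^ 2 ∣ k).card ≤ tau k := by
      unfold tau
      refine Finset.card_le_card fun q hq => ?_
      rw [Finset.mem_filter] at hq
      rw [mem_dvs hk1.ne_zero]
      exact ⟨h𝒟 q hq.1, (dvd_pow_self q two_ne_zero).trans hq.2⟩
    calc ((𝒟.filter fun q => q ^ 2 ∣ k).card : ℝ) ≤ tau k := by exact_mod_cast h2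
      _ ≤ Cτ * (nm k : ℝ) ^ ε := hτ k hk1.ne_zero
      _ ≤ Cτ * ((1 + β) ^ ε * (1 + K) ^ ε) := by
          rw [← Real.mul_rpow (by positivity) (by positivity)]
          have h3 : (nm k : ℝ) ≤ (1 + β) * (1 + K) := by nlinarith
          gcongr
  calc ∑ q ∈ 𝒟, ‖SgF P.n (DPar.wp P τ K) d₃ e (fun k => G₀ (t * k)) q‖
      ≤ ∑ q ∈ 𝒟, ∑ k ∈ pbn P.n (β * K), (if q ^ 2 ∣ k then BU * G k else 0) :=
        Finset.sum_le_sum h1
    _ = ∑ k ∈ pbn P.n (β * K), ∑ q ∈ 𝒟, (if q ^ 2 ∣ k then BU * G k else 0) := Finset.sum_comm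
    _ = ∑ k ∈ pbn P.n (β * K), ((𝒟.filter fun q => q ^ 2 ∣ k).card : ℝ) * (BU * G k) := by
        refine Finset.sum_congr rfl fun k _ => ?_
        rw [← Finset.sum_filter, Finset.sum_const, nsmul_eq_mul]
    _ ≤ ∑ k ∈ pbn P.n (β * K), (Cτ * ((1 + β) ^ ε * (1 + K) ^ ε)) * (BU * G k) := by
        refine Finset.sum_le_sum fun k hk => ?_
        refine mul_le_mul_of_nonneg_right (hcount k hk) ?_
        positivity
    _ = BU * (Cτ * (1 + β) ^ ε) * (1 + K) ^ ε * ∑ k ∈ pbn P.n (β * K), G k := by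
        rw [Finset.mul_sum]
        refine Finset.sum_congr rfl fun k _ => ?_
        ring
    _ ≤ _ := by
        refine mul_le_mul_of_nonneg_left ?_ (by positivity)
        have e1 : ∑ k ∈ pbn P.n (β * K), G k =
            ∑ k ∈ (pbn P.n (β * K)).image (fun k => t * k), ‖G₀ k‖ := by
          rw [Finset.sum_image]
          intro a _ b _ hab
          exact mul_left_cancel₀ ht hab
        rw [e1]
        refine Finset.sum_le_sum_of_subset_of_nonneg ?_ fun _ _ _ => norm_nonneg _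
        intro x hx
        obtain ⟨k, hk, rfl⟩ := Finset.mem_image.1 hx
        obtain ⟨hkK, hk1, _⟩ := (mem_pbn hβK.le).1 hk
        rw [mem_bl hL0.le]
        refine ⟨mul_ne_zero ht hk1.ne_zero, ?_⟩
        rw [nm_mul, Nat.cast_mul, hL]
        gcongr

/-! ### the double difference -/

/-- the value of a double difference -/
def GX (P : DPar) (h : ℝ → ℝ) (us : Fin 5 → Pq) (zs : Fin 4 → ℝ) (ps : List Pq) (k : Eis) : ℂ :=
  DX P h us zs k * VV P h (us 4 :: ps) k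

lemma SgX_eq_SgK (P : DPar) (h : ℝ → ℝ) (τ H : ℝ) (d₃ e : Eis) (us : Fin 5 → Pq) (zs : Fin 4 → ℝ)
    (ps : List Pq) (q : Eis) :
    SgX P h τ H d₃ e us zs ps q = SgK P τ H d₃ e (GX P h us zs ps) q := rfl

lemma Co_tw (h : ℝ → ℝ) (p : Pc) (t k : Eis) : Co h p (t * k) = Co h (tw1 p t) k := by
  unfold Co
  rw [CS_tw]
  rfl

/-- the twist of a difference -/
lemma Dp_tw (h : ℝ → ℝ) (p p' : Pc) (Z Z' : ℝ) (t k : Eis) :
    Dp h p p' Z Z' (t * k) = Dp h (tw1 p t) (tw1 p' t) Z Z' k := by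
  unfold Dp
  rw [Co_tw, Co_tw, Co_tw, Co_tw]
  rfl

lemma pc_van {P : DPar} (hP : P.OK) (p : Pq) {b : Eis} (hb : IsPrim b) (hc : ¬ IsCoprime b P.n) :
    (p.pc P).ψ b = 0 := by
  rw [Pq.pc_ψ]
  simp only
  rw [chK_van hP _ hb hc, zero_mul]

lemma Co_same {P : DPar} (h : ℝ → ℝ) {p : Pc}
    (hp : ∀ b, IsPrim b → ¬ IsCoprime b P.n → p.ψ b = 0) {s t : Eis} (hst : SameTw P.n s t)
    (k : Eis) : Co h p (s * k) = Co h p (t * k) := by
  unfold Co
  rw [CS_same h hp hst k]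

lemma Dp_same {P : DPar} (h : ℝ → ℝ) {p p' : Pc}
    (hp : ∀ b, IsPrim b → ¬ IsCoprime b P.n → p.ψ b = 0)
    (hp' : ∀ b, IsPrim b → ¬ IsCoprime b P.n → p'.ψ b = 0) (Z Z' : ℝ) {s t : Eis}
    (hst : SameTw P.n s t) (k : Eis) : Dp h p p' Z Z' (s * k) = Dp h p p' Z Z' (t * k) := by
  unfold Dp
  rw [Co_same h hp hst k, Co_same h hp' hst k,
    Co_same (p := ⟨p.u, p.ψ, Z, p.t⟩) h hp hst k, Co_same (p := ⟨p'.u, p'.ψ, Z', p'.t⟩) h hp' hst k]

/-- the value of a double difference depends on the twist only -/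
theorem GX_same {P : DPar} (hP : P.OK) (h : ℝ → ℝ) (us : Fin 5 → Pq) (zs : Fin 4 → ℝ)
    (ps : List Pq) {s t : Eis} (hst : SameTw P.n s t) (k : Eis) :
    GX P h us zs ps (s * k) = GX P h us zs ps (t * k) := by
  unfold GX DX Dq2
  rw [VV_same hP h _ hst k,
    Dp_same h (fun b hb hc => pc_van hP _ hb hc) (fun b hb hc => pc_van hP _ hb hc) _ _ hst k,
    Dp_same h (fun b hb hc => pc_van hP _ hb hc) (fun b hb hc => pc_van hP _ hb hc) _ _ hst k]

open Classical in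
/-- **the value at `t k`** in the form of helper960's `PrimX` -/
theorem GX_tw (P : DPar) (h : ℝ → ℝ) (a : BdX) (hl : Dq.lump (a.us 4)) (ps : List Pq) (t k : Eis) :
    GX P h a.us a.zs ps (t * k) = AX h P t a k * (BXm h P t a ps k *
      conj (PC h ((amL ps).map (Pt P t)) k)) := by
  have h4 : (a.us 4).kd = .mo := by
    rw [Dq_lump] at hl
    exact hl.1
  have e1 : VV P h (a.us 4 :: ps) (t * k) = CS (pc h (Pt P t (a.us 4))) k *
      (PC h ((moL ps).map (Pt P t)) k * conj (PC h ((amL ps).map (Pt P t)) k)) := by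
    have e : VV P h (a.us 4 :: ps) (t * k) = Vp P h (t * k) (a.us 4) * VV P h ps (t * k) := by
      simp [VV]
    have e3 : Vp P h (t * k) (a.us 4) = CS (pc h (Pt P t (a.us 4))) k := by
      unfold Pt
      rw [← CS_tw]
      unfold Vp
      rw [h4]
    have e5 : (moL ps).map (Pt P t) = moP P t ps := by
      unfold moL moP Pt
      congr 1
    have e6 : (amL ps).map (Pt P t) = amP P t ps := by
      unfold amL amP Pt
      congr 1
    rw [e, e3, VV_tw, e5, e6]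
    rfl
  unfold GX DX Dq2 AX BXm BX
  rw [e1, Dp_tw, Dp_tw]
  unfold Pt
  ring

/-- the value depends on the list `us 4 :: ps` only -/
lemma GX_swap (P : DPar) (h : ℝ → ℝ) {us us' : Fin 5 → Pq} (hu : ∀ i, i ≠ 4 → us' i = us i)
    (zs : Fin 4 → ℝ) {ps ps' : List Pq} (hp : (us 4 :: ps).Perm (us' 4 :: ps')) (k : Eis) :
    GX P h us' zs ps' k = GX P h us zs ps k := by
  unfold GX DX VV
  rw [hu 0 (by decide), hu 1 (by decide), hu 2 (by decide), hu 3 (by decide),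
    (hp.map (Vp P h k)).prod_eq]

/-! ### the absolute statement -/

/-- **the absolute statement for the short families** (helper935) -/
def AbsDD {Λ : Type*} (θ A β μ' : ℝ) (π : Λ → DPar) (h : ℝ → ℝ) : Prop :=
  ∃ δ : ℝ, 0 < δ ∧ ∀ (lam : Λ) (N : ℕ) (B : ℝ), ∃ δ' : ℝ, 0 < δ' ∧ ∃ X₀ : ℝ, 1 < X₀ ∧
    ∀ X : ℝ, X₀ ≤ X → ∀ (H : ℝ), 0 < H → ∀ (us : Fin 5 → Pq) (zs : Fin 4 → ℝ) (ps : List Pq),
      ps.length ≤ N → (∀ p ∈ ps, Dq.lump p ∨ Dq.nl X p ≤ δ) →
      Dq.Good X δ' B (List.ofFn us ++ ps) →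
      179 / 200 ≤ Real.log H / Real.log X → MkX A β δ (Real.log H / Real.log X) X us zs ps →
      ∀ hh q c : ℝ, 0 ≤ hh → hh ≤ 1 → 0 ≤ q → q ≤ 4 / 3 → 0 ≤ c → c ≤ 1 / 3 →
        q - c ≤ 1 + δ →
        |Real.log H / Real.log X - hh| ≤ δ →
        |Dq.mass X (List.ofFn us ++ ps) .mo - q| ≤ δ →
        |Dq.mass X (List.ofFn us ++ ps) .am - c| ≤ δ →
      ∀ L : ℝ, 1 ≤ L → Real.log L / Real.log X ≤ 9 / 10 →
        Real.log L / Real.log X ≤ Real.log H / Real.log X + δ →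
        ∑ k ∈ bl L, ‖DX (π lam) h us zs k * VV (π lam) h (us 4 :: ps) k‖ ≤
          X ^ (Tg θ (1 / 3) hh q c - μ')

end Crest.Agent.R017.ExP5x271
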