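import Crest.Agent.R017.ExP5a_271

/-!
# Row 17, exceptional class, P5x (helper271), part 2: long families from helper960's `PrimUX`

* `swap_top` : the fifth marked piece can be taken as the longest smooth piece of the rest
* `run_min` : almost antitone lengths are near antitone lengths
* `TopPX` : the signed theorem over primary `k`, long families; `topPX_of_primUX`
-/

set_option autoImplicit false

noncomputable section

open Complex Filter Topology
open scoped ContDiff ComplexConjugate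

namespace Crest.Agent.R017.ExP5x271

open Crest.Agent.R012 Crest.Agent.R012.Eis Crest.Agent.R012.Gauss880
open Crest.Agent.R012.Mob705
open Crest.Agent.R017.CM106 (CS)
open Crest.Agent.R017.End699 Crest.Agent.R017.FE47
open Crest.Agent.R017.B770 Crest.Agent.R017.Bx986
open Crest.Agent.R017.HP842 (UT Pc pc)
open Crest.Agent.R017.SU770
open Crest.Agent.R017.Prov71 Crest.Agent.R017.XG702
open Crest.Agent.R017.XT71 (Sys Win mx)
open Crest.Agent.R017.E5T54 Crest.Agent.R017.E5B71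
open Crest.Agent.R017.Sx545 (Sm)
open Crest.Agent.R017.E5P571 (SgF PC)
open Crest.Agent.R017.ExBox960 Crest.Agent.R017.ExP960
open Crest.Agent.R017.E5S271
open Crest.Agent.R017.Cone59 (Tg)

open Classical in
/-- **the fifth marked piece can be taken as the longest smooth piece of the rest** -/
theorem swap_top {X δ : ℝ} (hδ : 0 ≤ δ) {u : Pq} {ps : List Pq} (hl : Dq.lump u)
    (top : ∀ p ∈ ps, Dq.lump p → Dq.nl X p ≤ Dq.nl X u + δ)
    (md : ∀ p ∈ ps, Dq.lump p → p.d = u.d) :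
    ∃ (u' : Pq) (ps' : List Pq), (u :: ps).Perm (u' :: ps') ∧ Dq.lump u' ∧
      Dq.nl X u ≤ Dq.nl X u' ∧ Dq.nl X u' ≤ Dq.nl X u + δ ∧ u'.d = u.d ∧
      ∀ p ∈ ps', Dq.lump p → Dq.nl X p ≤ Dq.nl X u' := by
  set S : Finset Pq := (((u :: ps).filter fun p => Dq.lump p)).toFinset with hS
  have hmem : ∀ p, p ∈ S ↔ p ∈ u :: ps ∧ Dq.lump p := by
    intro p
    rw [hS, List.mem_toFinset, List.mem_filter, decide_eq_true_eq]
  have hu : u ∈ S := (hmem u).2 ⟨List.mem_cons_self, hl⟩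
  obtain ⟨m, hm, hmax⟩ := S.exists_max_image (fun p => Dq.nl X p) ⟨u, hu⟩
  obtain ⟨hm1, hm2⟩ := (hmem m).1 hm
  refine ⟨m, (u :: ps).erase m, List.perm_cons_erase hm1, hm2, hmax u hu, ?_, ?_, ?_⟩
  · rcases List.mem_cons.1 hm1 with rfl | h
    · linarith
    · exact top m h hm2
  · rcases List.mem_cons.1 hm1 with rfl | h
    · rfl
    · exact md m h hm2
  · intro p hp hlp
    exact hmax p ((hmem p).2 ⟨List.mem_of_mem_erase hp, hlp⟩)

/-- **almost antitone lengths are near antitone lengths** -/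
theorem run_min {n : Fin 5 → ℝ} {δ : ℝ} (h : ∀ i j, i ≤ j → n j ≤ n i + δ) :
    ∃ m : Fin 5 → ℝ, (∀ i, m i ≤ n i ∧ n i - δ ≤ m i) ∧ m 1 ≤ m 0 ∧ m 2 ≤ m 1 ∧ m 3 ≤ m 2 ∧
      m 4 ≤ m 3 := by
  have hne : ∀ i : Fin 5, (Finset.Iic i).Nonempty := fun i => ⟨i, Finset.mem_Iic.2 le_rfl⟩
  set m : Fin 5 → ℝ := fun i => (Finset.Iic i).inf' (hne i) n with hm
  have hanti : ∀ i j, i ≤ j → m j ≤ m i := fun i j hij =>
    Finset.inf'_mono n (Finset.Iic_subset_Iic.2 hij) (hne i)
  refine ⟨m, fun i => ⟨Finset.inf'_le n (Finset.mem_Iic.2 le_rfl), ?_⟩, hanti 0 1 (by decide),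
    hanti 1 2 (by decide), hanti 2 3 (by decide), hanti 3 4 (by decide)⟩
  rw [hm]
  simp only
  rw [Finset.le_inf'_iff]
  intro j hj
  have := h j i (Finset.mem_Iic.1 hj)
  linarith

/-- **the signed theorem over the primary `k`** : family `K`, twist `t` (an `S`-unit); the marks
belong to a family of exponent `k ≥ log K / log X` -/
def TopPX {Λ : Type*} (θ μ' a₀ A β : ℝ) (π : Λ → DPar) (h : ℝ → ℝ) : Prop :=
  ∃ δ : ℝ, 0 < δ ∧ ∀ (lam : Λ) (t : Eis), t ∈ SM (π lam).n → ∀ (N : ℕ) (B : ℝ),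
    ∃ δ' : ℝ, 0 < δ' ∧ ∃ X₀ : ℝ, 1 < X₀ ∧
    ∀ X : ℝ, X₀ ≤ X → ∀ (K k : ℝ), 0 < K → ∀ (us : Fin 5 → Pq) (zs : Fin 4 → ℝ) (ps : List Pq),
      ps.length ≤ N → (∀ p ∈ ps, Dq.lump p ∨ Dq.nl X p ≤ δ) →
      Dq.Good X δ' B (List.ofFn us ++ ps) →
      a₀ ≤ Real.log K / Real.log X → Real.log K / Real.log X ≤ k → MkX A β δ k X us zs ps →
      ∀ (d₃ e : Eis), d₃ ≠ 0 → (nm d₃ : ℝ) ≤ X ^ B → Sm (π lam).n e →
        (∀ p : Eis, Prime p → p ∣ e → p ^ 5 ∣ e) →
      ∀ τ : ℝ, 1 + |τ| ≤ X ^ δ' →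
      ∀ 𝒟 : Finset Eis, (∀ q ∈ 𝒟, Sm (π lam).n q ∧ Squarefree q) →
      ∀ hh hk q c : ℝ, 0 ≤ hh → hh ≤ hk → hk ≤ 1 → 0 ≤ q → q ≤ 4 / 3 → 0 ≤ c → c ≤ 1 / 3 →
        q + Real.log (nm e) / Real.log X - c ≤ 1 + δ →
        |Real.log K / Real.log X - hh| ≤ δ → |k - hk| ≤ δ →
        |Dq.mass X (List.ofFn us ++ ps) .mo - q| ≤ δ →
        |Dq.mass X (List.ofFn us ++ ps) .am - c| ≤ δ →
        ∑ r ∈ 𝒟, ‖SgF (π lam).n (DPar.wp (π lam) τ K) d₃ e
          (fun x => GX (π lam) h us zs ps (t * x)) r‖ ≤ X ^ (Tg θ (1 / 3) hh q c - μ')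

set_option maxHeartbeats 1000000 in
open Classical in
/-- **the signed theorem over the primary `k`** from the uniform bound; the family starts
slightly below `9/10`. -/
theorem topPX_of_primUX {Λ : Type*} {θ A A' β μ μ' : ℝ} {π : Λ → DPar} {h : ℝ → ℝ} (hθ : 0 ≤ θ)
    (hβ : 0 < β) (hβ1 : β ≤ 1 / 5) (hA9 : 9 / 10 ≤ A) (hA'0 : 0 ≤ A')
    (hA : A' < A) (hA1 : A ≤ 1) (hμ : μ' < μ) (H : PrimUX π h θ A' β μ) :
    ∃ a₀ : ℝ, 4 / 5 ≤ a₀ ∧ a₀ < 9 / 10 ∧ TopPX θ μ' a₀ A β π h := by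
  set η : ℝ := μ - μ' with hη
  have hη0 : 0 < η := by linarith
  obtain ⟨δU, hδU, HU⟩ := H (η / 4) (by positivity)
  set δ : ℝ := min (min (δU / 4) (η / 16)) (min ((A - A') / 60) (min (1 / 200) (β / 10))) with hδ
  have hAA : 0 < A - A' := by linarith
  have hδ0 : 0 < δ := by positivity
  have hδ1 : δ ≤ δU / 4 := (min_le_left _ _).trans (min_le_left _ _)
  have hδ2 : δ ≤ η / 16 := (min_le_left _ _).trans (min_le_right _ _)
  have hδ3 : δ ≤ (A - A') / 60 := (min_le_right _ _).trans (min_le_left _ _)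
  have hδ4 : δ ≤ 1 / 200 := (min_le_right _ _).trans ((min_le_right _ _).trans (min_le_left _ _))
  have hδ5 : δ ≤ β / 10 := (min_le_right _ _).trans ((min_le_right _ _).trans (min_le_right _ _))
  clear_value δ
  refine ⟨9 / 10 - δ, by linarith, by linarith, δ, hδ0, fun lam t ht N B => ?_⟩
  obtain ⟨δ', hδ', X₀, hX₀, HU1⟩ := HU (lam, t) N |B|
  refine ⟨δ', hδ', X₀, hX₀, ?_⟩
  intro X hX K k hK us zs ps hlen hlump hgood ha₀ hKk hmk d₃ e hd₃ hd₃' he he5 τ hτ 𝒟 h𝒟 hh hk q c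
    hh0 hhk hk1 hq0 hq1 hc0 hc1 hqc hK1 hk2 hm1 hm2
  have hX1 : 1 < X := by linarith
  have hX0 : 0 < X := by linarith
  have hlX : 0 < Real.log X := Real.log_pos hX1
  -- the swap
  obtain ⟨u', ps', hperm, hl', hu1, hu2, hu3, htop⟩ := swap_top (X := X) hδ0.le (hmk.lump 4)
    hmk.top hmk.mdL
  set vs : Fin 5 → Pq := Function.update us 4 u' with hvs
  have v4 : vs 4 = u' := by rw [hvs, Function.update_self]
  have vi : ∀ i, i ≠ 4 → vs i = us i := fun i hi => by rw [hvs, Function.update_of_ne hi]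
  have v0 := vi 0 (by decide)
  have v1 := vi 1 (by decide)
  have v2 := vi 2 (by decide)
  have v3 := vi 3 (by decide)
  have hpermF : (List.ofFn us ++ ps).Perm (List.ofFn vs ++ ps') := by
    have e1 : List.ofFn us ++ ps = us 0 :: us 1 :: us 2 :: us 3 :: (us 4 :: ps) := by
      simp [List.ofFn_succ]
    have e2 : List.ofFn vs ++ ps' = us 0 :: us 1 :: us 2 :: us 3 :: (u' :: ps') := by
      have : List.ofFn vs = [vs 0, vs 1, vs 2, vs 3, vs 4] := by
        simp [List.ofFn_succ]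
      rw [this, v0, v1, v2, v3, v4]
      rfl
    rw [e1, e2]
    exact (((hperm.cons _).cons _).cons _).cons _
  have hl : ∀ i, Dq.lump (vs i) := by
    intro i
    by_cases hi : i = 4
    · rw [hi, v4]; exact hl'
    · rw [vi i hi]; exact hmk.lump i
  have hd : ∀ i, (vs i).d = (us 4).d := by
    intro i
    by_cases hi : i = 4
    · rw [hi, v4]; exact hu3
    · rw [vi i hi]; exact hmk.md i 4
  have hK1' := abs_le.1 hK1
  have hk2' := abs_le.1 hk2
  have hgood' : ∀ p ∈ List.ofFn vs ++ ps', Dq.s1 p ≤ X ^ δ' ∧ Dq.s2 p ≤ X ^ B ∧ 0 ≤ Dq.len p :=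
    fun p hp => hgood p (hpermF.symm.subset hp)
  have hgoodu : ∀ i, Dq.s1 (vs i) ≤ X ^ δ' ∧ Dq.s2 (vs i) ≤ X ^ B ∧ 0 ≤ Dq.len (vs i) := fun i =>
    hgood' _ (List.mem_append_left _ ((List.mem_ofFn' _ _).2 ⟨i, rfl⟩))
  have hgoodg : ∀ p ∈ ps', Dq.s1 p ≤ X ^ δ' ∧ Dq.s2 p ≤ X ^ B ∧ 0 ≤ Dq.len p := fun p hp =>
    hgood' _ (List.mem_append_right _ hp)
  obtain ⟨hmass1, hmass2⟩ := mass_five (X := X) hpermF hl
  have hgmo : 0 ≤ Dq.mass X ps' .mo := mass_nonneg (D := Dq) (fun p hp => by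
    unfold Pcs.nl
    exact div_nonneg (hgoodg p hp).2.2 hlX.le) _
  have he1 : (1 : ℝ) ≤ nm e := by exact_mod_cast nm_pos.mpr he.1.ne_zero
  have hle : 0 ≤ Real.log (nm e) / Real.log X := div_nonneg (Real.log_nonneg he1) hlX.le
  have h1B : (1 : ℝ) ≤ X ^ |B| := Real.one_le_rpow hX1.le (abs_nonneg B)
  have hBB : X ^ B ≤ X ^ |B| := Real.rpow_le_rpow_of_exponent_le hX1.le (le_abs_self B)
  have h1δ : (1 : ℝ) ≤ X ^ δ' := Real.one_le_rpow hX1.le hδ'.le
  -- the lengths
  set n : Fin 5 → ℝ := fun i => Dq.nl X (vs i) with hn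
  have hn4 : Dq.nl X (us 4) ≤ n 4 := by
    rw [hn]; simp only; rw [v4]; exact hu1
  have hn4' : n 4 ≤ Dq.nl X (us 4) + δ := by
    rw [hn]; simp only; rw [v4]; exact hu2
  have hni : ∀ i, i ≠ 4 → n i = Dq.nl X (us i) := fun i hi => by
    rw [hn]; simp only; rw [vi i hi]
  have hord : ∀ i j, i ≤ j → n j ≤ n i + 2 * δ := by
    intro i j hij
    by_cases hj : j = 4
    · subst hj
      by_cases hi : i = 4
      · subst hi; linarith
      · have := hmk.anti i 4 hij
        rw [hni i hi]; linarith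
    · have hi : i ≠ 4 := by
        rintro rfl
        apply hj
        exact le_antisymm (Fin.le_last j) hij
      have := hmk.anti i j hij
      rw [hni i hi, hni j hj]; linarith
  obtain ⟨m, hm, ho1, ho2, ho3, ho4⟩ := run_min hord
  have hnn : ∀ i, n i = Dq.nl X (vs i) := fun i => rfl
  have hnear : A * k ≤ n 2 + n 3 + 2 * n 4 := by
    have := hmk.near
    rw [hni 2 (by decide), hni 3 (by decide)]
    linarith
  clear_value n
  -- the datum
  set a : BdX := ⟨⟨Real.log K, 0, vs, d₃, e, τ, 𝒟⟩, zs⟩ with ha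
  -- the exact configuration
  set κ : ℝ := max hh (9 / 10) with hκ
  have hκ1 : hh ≤ κ := le_max_left _ _
  have hκ2 : 9 / 10 ≤ κ := le_max_right _ _
  have hκ3 : κ ≤ 1 := max_le (hhk.trans hk1) (by norm_num)
  have hκ4 : κ - hh ≤ 2 * δ := by
    rcases max_choice hh (9 / 10) with h4 | h4
    · rw [hκ, h4]; linarith
    · rw [hκ, h4]; linarith
  have hκ5 : |Real.log K / Real.log X - κ| ≤ δ := by
    rw [abs_le]
    rcases max_choice hh (9 / 10) with h4 | h4
    · rw [hκ, h4]; exact hK1'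
    · rw [hκ, h4]
      have h5 : hh ≤ 9 / 10 := by
        have := le_max_left hh (9 / 10 : ℝ)
        rwa [h4] at this
      constructor <;> linarith
  set ζ : ℝ := max hk (9 / 10) with hζ
  have hζ1 : κ ≤ ζ := max_le_max hhk le_rfl
  have hζ3 : ζ ≤ 1 := max_le hk1 (by norm_num)
  have hζ5 : |k - ζ| ≤ δ := by
    rw [abs_le]
    rcases max_choice hk (9 / 10) with h4 | h4
    · rw [hζ, h4]; exact hk2'
    · rw [hζ, h4]
      have h5 : hk ≤ 9 / 10 := by
        have := le_max_left hk (9 / 10 : ℝ)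
        rwa [h4] at this
      constructor <;> linarith
  clear_value κ ζ
  have hk8 : 4 / 5 ≤ k := by linarith
  set p : IX5 → ℝ := Sum.elim (Sum.elim ![κ, 0, Real.log (nm e) / Real.log X]
    (fun i => m i - δ)) ![β * ζ, β * ζ] with hp
  set w : Kd → ℝ := fun t => match t with | .mo => Dq.mass X ps' .mo | .am => c with hw
  have hpκ : cκ (prX p) = κ := rfl
  have hpx : cx' (prX p) = 0 := rfl
  have hpe : ce (prX p) = Real.log (nm e) / Real.log X := rfl
  have hpu : ∀ i, cu (prX p) i = m i - δ := fun i => rfl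
  have hwm : w .mo = Dq.mass X ps' .mo := rfl
  have hwa : w .am = c := rfl
  have hm1' := abs_le.1 hm1
  have hm2' := abs_le.1 hm2
  have hmass1' : Dq.mass X (List.ofFn us ++ ps) .mo = n 0 + n 1 + n 2 + n 3 + n 4 +
      Dq.mass X ps' .mo := by
    rw [hmass1, Fin.sum_univ_five, hnn, hnn, hnn, hnn, hnn]
  have hsumn : n 0 + n 1 + n 2 + n 3 + n 4 + Dq.mass X ps' .mo ≤ q + δ := by
    rw [← hmass1']; linarith
  have q0 := hm 0
  have q1 := hm 1
  have q2 := hm 2
  have q3 := hm 3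
  have q4 := hm 4
  have hNr : Nr5 A' (prX p) w := by
    refine ⟨by rw [hpκ]; linarith, by rw [hpκ]; linarith, ?_, ?_, ?_, ?_, ?_, ?_, ?_⟩
    · simp only [hpu]
      exact ⟨by linarith, by linarith, by linarith, by linarith⟩
    · intro t
      cases t with
      | mo => exact hgmo
      | am => exact hc0
    · rw [hpκ]
      simp only [cN, hpu]
      have h5 : |Real.log K / Real.log X - κ| ≤ 3 * δ := by linarith
      have h6 : A * (Real.log K / Real.log X) ≤ n 2 + n 3 + 2 * n 4 := by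
        refine le_trans ?_ hnear
        exact mul_le_mul_of_nonneg_left hKk (by linarith)
      have h7 := near_exp hA'0 hA hA1 (δ := 3 * δ) (by linarith) (by linarith) (by linarith) h5 h6
      linarith
    · simp only [cN, E5B71.cM, hpu, hwm]
      linarith
    · rw [hwa]; linarith
    · rw [hpe]; exact hle
    · simp only [cN, E5B71.cM, hpu, hwm, hwa, hpe]
      linarith
  have hZR : ZR β p := by
    intro i
    have e1 : p (.inr i) = β * ζ := by
      fin_cases i <;> rfl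
    rw [e1, hpκ]
    constructor
    · exact mul_le_mul_of_nonneg_left hζ1 hβ.le
    · calc β * ζ ≤ β * 1 := mul_le_mul_of_nonneg_left hζ3 hβ.le
        _ = β := mul_one β
  have hdom : (p, w) ∈ liftD β (NrD A') := ⟨⟨hNr, hpx⟩, hZR⟩
  have hzz : ∀ z : ℝ, |z / Real.log X - β * k| ≤ δ → |z / Real.log X - β * ζ| ≤ δU := by
    intro z hz
    have h1 : |β * k - β * ζ| ≤ δ := by
      rw [← mul_sub, abs_mul, abs_of_pos hβ]
      calc β * |k - ζ| ≤ 1 * δ := by
            refine mul_le_mul (by linarith) hζ5 (abs_nonneg _) (by norm_num)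
        _ = δ := one_mul δ
    calc |z / Real.log X - β * ζ| = |(z / Real.log X - β * k) + (β * k - β * ζ)| := by ring_nf
      _ ≤ |z / Real.log X - β * k| + |β * k - β * ζ| := abs_add_le _ _
      _ ≤ δU := by linarith
  have hev : ∀ i, |S5X.ev X a i - p i| ≤ δU := by
    rintro ((i | i) | i)
    · fin_cases i
      · exact hκ5.trans (by linarith)
      · show |(0 : ℝ) / Real.log X - 0| ≤ δU
        simpa using hδU.le
      · show |Real.log (nm e) / Real.log X - Real.log (nm e) / Real.log X| ≤ δU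
        simpa using hδU.le
    · show |Dq.nl X (vs i) - (m i - δ)| ≤ δU
      rw [← hnn, abs_le]
      have := hm i
      constructor <;> linarith
    · fin_cases i
      · exact hzz _ hmk.z0
      · exact hzz _ hmk.z2
  have hwin : Win S5X p δU N |B| δ' X a := by
    refine ⟨hev, Real.one_le_rpow hX1.le hδU.le, Nat.zero_le _, ?_, ?_⟩
    · exact max_le hτ (mx_ofFn_le h1δ fun i => (hgoodu i).1)
    · exact max_le (hd₃'.trans hBB) (mx_ofFn_le h1B fun i => (hgoodu i).2.1.trans hBB)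
  have hlen' : ps'.length ≤ N := by
    have := hperm.length_eq
    simp only [List.length_cons] at this
    omega
  have hU := HU1 X hX a ps' hlen' (fun p hp => by
      rcases List.mem_cons.1 (hperm.symm.subset (List.mem_cons_of_mem _ hp)) with h1 | h1
      · left; rw [h1]; exact hmk.lump 4
      · exact (hlump p h1).imp id fun h => h.trans (by linarith)) (p, w) hdom hwin (by
      intro t
      cases t with
      | mo =>
        show |Dq.mass X ps' .mo - Dq.mass X ps' .mo| ≤ δU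
        simpa using hδU.le
      | am =>
        show |Dq.mass X ps' .am - c| ≤ δU
        rw [← hmass2]
        exact hm2.trans (by linarith))
    (fun p hp => ⟨(hgoodg p hp).1, (hgoodg p hp).2.1.trans hBB, (hgoodg p hp).2.2⟩)
    (fun p hp hlp => by
      show Dq.nl X p ≤ Dq.nl X (vs 4)
      rw [v4]
      exact htop p hp hlp)
  -- the functional
  have hz : ∀ i, 0 ≤ zs i := by
    have nlz : ∀ p : Pq, p.z = Dq.nl X p * Real.log X := fun p => by
      unfold Pcs.nl
      rw [Dq_len, div_mul_cancel₀ _ hlX.ne']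
    have b1 : β * k ≤ 1 / 5 * k := mul_le_mul_of_nonneg_right hβ1 (by linarith)
    have b2 : 10 * δ * (4 / 5) ≤ β * k := by
      refine mul_le_mul (by linarith) hk8 (by norm_num) hβ.le
    have b3 : 9 / 10 * k ≤ A * k := mul_le_mul_of_nonneg_right hA9 (by linarith)
    have a0 := abs_le.1 hmk.z0
    have a2 := abs_le.1 hmk.z2
    have c0 : 0 ≤ zs 0 := by
      have h1 : 0 ≤ zs 0 / Real.log X := by linarith
      have h2 := mul_nonneg h1 hlX.le
      rwa [div_mul_cancel₀ _ hlX.ne'] at h2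
    have c2 : 0 ≤ zs 2 := by
      have h1 : 0 ≤ zs 2 / Real.log X := by linarith
      have h2 := mul_nonneg h1 hlX.le
      rwa [div_mul_cancel₀ _ hlX.ne'] at h2
    have o4 := hord 2 4 (by decide)
    have o34 := hord 3 4 (by decide)
    have o02 := hord 0 2 (by decide)
    have o13 := hord 1 3 (by decide)
    have c1 : 0 ≤ zs 1 := by
      have h1 : zs 0 / Real.log X ≤ n 0 + n 1 := by linarith
      rw [div_le_iff₀ hlX] at h1
      have h2 := hmk.s01
      rw [nlz (us 0), nlz (us 1), ← hni 0 (by decide), ← hni 1 (by decide)] at h2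
      linarith
    have c3 : 0 ≤ zs 3 := by
      have h1 : zs 2 / Real.log X ≤ n 2 + n 3 := by linarith
      rw [div_le_iff₀ hlX] at h1
      have h2 := hmk.s23
      rw [nlz (us 2), nlz (us 3), ← hni 2 (by decide), ← hni 3 (by decide)] at h2
      linarith
    intro i
    fin_cases i
    · exact c0
    · exact c1
    · exact c2
    · exact c3
  have hok : a.ok := by
    refine ⟨⟨fun i => ⟨hl i, (hgoodu i).2.2⟩, le_rfl, hd₃⟩, hz, ?_, ?_, ?_⟩
    · show zs 0 + zs 1 = (vs 0).z + (vs 1).z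
      rw [v0, v1]; exact hmk.s01
    · show zs 2 + zs 3 = (vs 2).z + (vs 3).z
      rw [v2, v3]; exact hmk.s23
    · intro i j
      show (vs i).d = (vs j).d
      rw [hd i, hd j]
  have hPF : PrimX π h (lam, t) a ps' = ∑ r ∈ 𝒟, ‖SgF (π lam).n (DPar.wp (π lam) τ K) d₃ e
      (fun x => GX (π lam) h us zs ps (t * x)) r‖ := by
    unfold PrimX
    rw [if_pos ⟨hok, ht, he, he5, h𝒟⟩]
    refine Finset.sum_congr rfl fun r _ => ?_
    have hW : E5B71.Wt (π lam) a.toBd = DPar.wp (π lam) τ K := by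
      unfold E5B71.Wt
      show DPar.wp (π lam) τ (Real.exp (Real.log K)) = _
      rw [Real.exp_log hK]
    have hG : (fun x => AX h (π lam) t a x * (BXm h (π lam) t a ps' x *
        conj (PC h ((amL ps').map (Pt (π lam) t)) x))) =
        fun x => GX (π lam) h us zs ps (t * x) := by
      funext x
      rw [← GX_tw (π lam) h a (hl 4) ps' t x]
      show GX (π lam) h vs zs ps' (t * x) = _
      exact GX_swap (π lam) h vi zs (by rw [v4]; exact hperm) (t * x)
    show ‖SgF (π lam).n (E5B71.Wt (π lam) a.toBd) d₃ e (fun x => AX h (π lam) t a x *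
      (BXm h (π lam) t a ps' x * conj (PC h ((amL ps').map (Pt (π lam) t)) x))) r‖ = _
    rw [hW, hG]
  rw [hPF] at hU
  refine hU.trans ?_
  refine Real.rpow_le_rpow_of_exponent_le hX1.le ?_
  have h10 : T5 θ (prQ (p, w)) ≤ Tg θ (1 / 3) hh q c + 2 * δ := by
    have h11 : cN (prX p) + E5B71.cM (prX p) + w .mo ≤ q := by
      simp only [cN, E5B71.cM, hpu, hwm]
      linarith
    have h12 : T5 θ (prQ (p, w)) = Tg θ (1 / 3) (hh + (κ - hh))
        (cN (prX p) + E5B71.cM (prX p) + w .mo) c := by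
      have e13 : hh + (κ - hh) = κ := by ring
      rw [e13]
      rfl
    rw [h12]
    calc Tg θ (1 / 3) (hh + (κ - hh)) (cN (prX p) + E5B71.cM (prX p) + w .mo) c
        ≤ Tg θ (1 / 3) hh (cN (prX p) + E5B71.cM (prX p) + w .mo) c + (κ - hh) :=
          Tg_lip (by linarith)
      _ ≤ Tg θ (1 / 3) hh q c + 2 * δ := add_le_add (Tg_mono hθ le_rfl h11) hκ4
  linarith

end Crest.Agent.R017.ExP5x271
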