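import Crest.Agent.R017.ExBox8_960
import Crest.Agent.R017.E5T3_271

/-!
# Row 17, exceptional class, part P5x: the short families in absolute values (helper935)

* `rz`, `shp` : the four shapes of a double difference
* `sum_GX_le` : the absolute sum over all `k` : the four shapes at the `k` with `NP2 k`, and the
  `k` with `NP2 k` false
* `DpLe` : bound of a difference at the `k` with `NP2 k` false
* `absX` : the short families
-/

set_option autoImplicit false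

noncomputable section

open Complex MeasureTheory Filter Topology
open scoped ContDiff ComplexConjugate

namespace Crest.Agent.R017.ExP5s935

open Crest.Agent.R012 Crest.Agent.R012.Eis Crest.Agent.R012.Gauss880
open Crest.Agent.R012.LS2 (bl mem_bl)
open Crest.Agent.R012.PSer47 Crest.Agent.R012.Mob705
open Crest.Agent.R017.CM106 (CS)
open Crest.Agent.R017.End699 Crest.Agent.R017.FE47
open Crest.Agent.R017.B770 Crest.Agent.R017.Sup271 Crest.Agent.R017.Bx986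
open Crest.Agent.R017.HP842 (UT Pc pc)
open Crest.Agent.R017.Prov71 Crest.Agent.R017.XG702 Crest.Agent.R017.ER911
open Crest.Agent.R017.E5T54 Crest.Agent.R017.BadK271
open Crest.Agent.R017.BxE986
open Crest.Agent.R017.E5S271 Crest.Agent.R017.ExBox960
open Crest.Agent.R017.Sx545 (Sm)
open Crest.Agent.R017.Cone59 (Tg)

/-! ### the four shapes -/

/-- the piece with length `Z` -/
def rz (p : Pq) (Z : ℝ) : Pq := ⟨p.kd, p.u, p.d, p.d0, Z, p.t⟩

/-- the four shapes -/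
def shp (us : Fin 5 → Pq) (zs : Fin 4 → ℝ) (a b : Bool) : Fin 5 → Pq :=
  ![cond a (rz (us 0) (zs 0)) (us 0), cond a (rz (us 1) (zs 1)) (us 1),
    cond b (rz (us 2) (zs 2)) (us 2), cond b (rz (us 3) (zs 3)) (us 3), us 4]

lemma shp_kd (us : Fin 5 → Pq) (zs : Fin 4 → ℝ) (a b : Bool) (i : Fin 5) :
    (shp us zs a b i).kd = (us i).kd := by
  fin_cases i <;> cases a <;> cases b <;> rfl

lemma shp_u (us : Fin 5 → Pq) (zs : Fin 4 → ℝ) (a b : Bool) (i : Fin 5) :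
    (shp us zs a b i).u = (us i).u := by
  fin_cases i <;> cases a <;> cases b <;> rfl

lemma shp_d (us : Fin 5 → Pq) (zs : Fin 4 → ℝ) (a b : Bool) (i : Fin 5) :
    (shp us zs a b i).d = (us i).d := by
  fin_cases i <;> cases a <;> cases b <;> rfl

lemma shp_t (us : Fin 5 → Pq) (zs : Fin 4 → ℝ) (a b : Bool) (i : Fin 5) :
    (shp us zs a b i).t = (us i).t := by
  fin_cases i <;> cases a <;> cases b <;> rfl

lemma shp_lump {us : Fin 5 → Pq} {zs : Fin 4 → ℝ} (hl : ∀ i, Dq.lump (us i)) (a b : Bool)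
    (i : Fin 5) : Dq.lump (shp us zs a b i) := by
  have h := hl i
  rw [Dq_lump] at h ⊢
  rw [shp_kd, shp_u]
  exact h

lemma shp_z {us : Fin 5 → Pq} {zs : Fin 4 → ℝ} (hu : ∀ i, 0 ≤ (us i).z) (hz : ∀ i, 0 ≤ zs i)
    (a b : Bool) (i : Fin 5) : 0 ≤ (shp us zs a b i).z := by
  fin_cases i <;> cases a <;> cases b <;>
    first | exact hu _ | exact hz _

lemma sum_shp {us : Fin 5 → Pq} {zs : Fin 4 → ℝ} (h01 : zs 0 + zs 1 = (us 0).z + (us 1).z)
    (h23 : zs 2 + zs 3 = (us 2).z + (us 3).z) (a b : Bool) :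
    ∑ i, (shp us zs a b i).z = ∑ i, (us i).z := by
  rw [Fin.sum_univ_five, Fin.sum_univ_five]
  cases a <;> cases b <;> simp [shp, rz] <;> linarith

lemma mass_shp {X : ℝ} {us : Fin 5 → Pq} {zs : Fin 4 → ℝ} {gs : List Pq}
    (hl : ∀ i, Dq.lump (us i)) (h01 : zs 0 + zs 1 = (us 0).z + (us 1).z)
    (h23 : zs 2 + zs 3 = (us 2).z + (us 3).z) (a b : Bool) (t : Kd) :
    Dq.mass X (List.ofFn (shp us zs a b) ++ gs) t = Dq.mass X (List.ofFn us ++ gs) t := by
  have h1 := mass_five (X := X) (List.Perm.refl (List.ofFn (shp us zs a b) ++ gs))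
    (shp_lump hl a b)
  have h2 := mass_five (X := X) (List.Perm.refl (List.ofFn us ++ gs)) hl
  cases t with
  | mo =>
    rw [h1.1, h2.1]
    congr 1
    have e : ∀ vs : Fin 5 → Pq, ∑ i, Dq.nl X (vs i) = (∑ i, (vs i).z) / Real.log X := by
      intro vs
      rw [Finset.sum_div]
      rfl
    rw [e, e, sum_shp h01 h23]
  | am => rw [h1.2, h2.2]

/-! ### values -/

/-- norm of a value -/
def nc (P : DPar) (h : ℝ → ℝ) (k : Eis) (p : Pq) : ℝ := ‖CS (pc h (p.pc P)) k‖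

lemma nc_nonneg (P : DPar) (h : ℝ → ℝ) (k : Eis) (p : Pq) : 0 ≤ nc P h k p := norm_nonneg _

lemma norm_Co (h : ℝ → ℝ) (p : Pc) (k : Eis) : ‖Co h p k‖ = ‖CS (pc h p) k‖ := by
  unfold Co
  rw [norm_mul, Weight600.norm_osc, one_mul]

lemma norm_Dq2_le (P : DPar) (h : ℝ → ℝ) (p p' : Pq) (Z Z' : ℝ) (k : Eis) :
    ‖Dq2 P h p p' Z Z' k‖ ≤
      nc P h k p * nc P h k p' + nc P h k (rz p Z) * nc P h k (rz p' Z') := by
  unfold Dq2 Dp
  refine (norm_sub_le _ _).trans ?_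
  rw [norm_mul, norm_mul, norm_Co, norm_Co, norm_Co, norm_Co]
  exact le_rfl

lemma norm_VV' (P : DPar) (h : ℝ → ℝ) (ps : List Pq) (k : Eis) :
    ‖VV P h ps k‖ = (ps.map (nc P h k)).prod := by
  unfold VV
  rw [norm_list_prod, List.map_map]
  congr 1
  refine List.map_congr_left fun p _ => ?_
  exact norm_Vp P h k p

lemma norm_GX_le (P : DPar) (h : ℝ → ℝ) (us : Fin 5 → Pq) (zs : Fin 4 → ℝ) (ps : List Pq)
    (k : Eis) : ‖DX P h us zs k * VV P h (us 4 :: ps) k‖ ≤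
      ∑ a : Bool, ∑ b : Bool, ‖VV P h (List.ofFn (shp us zs a b) ++ ps) k‖ := by
  have h1 := norm_Dq2_le P h (us 0) (us 1) (zs 0) (zs 1) k
  have h2 := norm_Dq2_le P h (us 2) (us 3) (zs 2) (zs 3) k
  have e : ∀ a b : Bool, ‖VV P h (List.ofFn (shp us zs a b) ++ ps) k‖ =
      (nc P h k (shp us zs a b 0) * nc P h k (shp us zs a b 1)) *
        (nc P h k (shp us zs a b 2) * nc P h k (shp us zs a b 3)) * ‖VV P h (us 4 :: ps) k‖ := by
    intro a b
    rw [norm_VV', norm_VV', List.map_append, List.prod_append, List.map_ofFn, List.prod_ofFn,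
      Fin.prod_univ_five, List.map_cons, List.prod_cons]
    have e4 : shp us zs a b 4 = us 4 := rfl
    simp only [Function.comp_apply, e4]
    ring
  have hA := nc_nonneg P h k (us 0)
  have hB := nc_nonneg P h k (us 1)
  have hC := nc_nonneg P h k (rz (us 0) (zs 0))
  have hD := nc_nonneg P h k (rz (us 1) (zs 1))
  unfold DX
  rw [norm_mul, norm_mul]
  simp only [Fintype.sum_bool, e]
  calc ‖Dq2 P h (us 0) (us 1) (zs 0) (zs 1) k‖ * ‖Dq2 P h (us 2) (us 3) (zs 2) (zs 3) k‖ *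
        ‖VV P h (us 4 :: ps) k‖
      ≤ (nc P h k (us 0) * nc P h k (us 1) +
          nc P h k (rz (us 0) (zs 0)) * nc P h k (rz (us 1) (zs 1))) *
        (nc P h k (us 2) * nc P h k (us 3) +
          nc P h k (rz (us 2) (zs 2)) * nc P h k (rz (us 3) (zs 3))) *
        ‖VV P h (us 4 :: ps) k‖ := by gcongr
    _ = _ := by
        simp only [shp, cond_true, cond_false, Matrix.cons_val_zero, Matrix.cons_val_one,
          Matrix.cons_val]
        ring

open Classical in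
/-- **the absolute sum** : four shapes at the `k` with `NP2 k`, and the other `k` -/
lemma sum_GX_le (P : DPar) (h : ℝ → ℝ) (us : Fin 5 → Pq) (zs : Fin 4 → ℝ) (ps : List Pq)
    {L : ℝ} (hL : 0 < L) :
    ∑ k ∈ bl L, ‖DX P h us zs k * VV P h (us 4 :: ps) k‖ ≤
      (∑ a : Bool, ∑ b : Bool, Bc P h (Real.log L) (List.ofFn (shp us zs a b) ++ ps)) +
      ∑ k ∈ (bl L).filter (fun k => ¬ P.NP2 k),
        ‖DX P h us zs k * VV P h (us 4 :: ps) k‖ := by
  rw [← Finset.sum_filter_add_sum_filter_not (bl L) P.NP2]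
  refine add_le_add ?_ le_rfl
  refine (Finset.sum_le_sum fun k _ => norm_GX_le P h us zs ps k).trans (le_of_eq ?_)
  rw [Finset.sum_comm]
  refine Finset.sum_congr rfl fun a _ => ?_
  rw [Finset.sum_comm]
  refine Finset.sum_congr rfl fun b _ => ?_
  unfold Bc BQ
  rw [Real.exp_log hL]
  refine Finset.sum_congr rfl fun k _ => ?_
  rw [norm_VV]

/-- the trivial bound of a list -/
lemma norm_VV_triv {P : DPar} (hP : P.OK) {h : ℝ → ℝ} {Cb : ℝ} (hCb : 1 ≤ Cb)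
    (hb : ∀ (p : Pc) (k : Eis), (∀ b, IsPrim b → ‖p.ψ b‖ ≤ 1) → 0 < p.Y →
      ‖CS (pc h p) k‖ ≤ Cb * p.Y) (k : Eis) (qs : List Pq) :
    ‖VV P h qs k‖ ≤ Cb ^ qs.length * Real.exp ((qs.map fun p => p.z).sum) := by
  rw [norm_VV']
  induction qs with
  | nil => simp
  | cons p qs ih =>
    have h1 : nc P h k p ≤ Cb * Real.exp p.z := by
      refine hb (p.pc P) k (fun b hb' => ?_) (Real.exp_pos _)
      rw [Pq.pc_ψ]
      simp only
      rw [norm_mul]
      refine mul_le_one₀ (norm_chK_le hP p.kd hb') (norm_nonneg _) ?_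
      unfold prin0; split_ifs <;> simp
    rw [List.map_cons, List.prod_cons, List.map_cons, List.sum_cons, Real.exp_add,
      List.length_cons, pow_succ]
    have h2 : 0 ≤ (qs.map (nc P h k)).prod := List.prod_nonneg fun a ha => by
      obtain ⟨p, _, rfl⟩ := List.mem_map.1 ha
      exact nc_nonneg _ _ _ _
    calc nc P h k p * (qs.map (nc P h k)).prod ≤ (Cb * Real.exp p.z) *
          (Cb ^ qs.length * Real.exp ((qs.map fun p => p.z).sum)) := by gcongr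
      _ = _ := by ring

/-! ### the `k` with `NP2 k` false -/

/-- bound of a difference at the `k` with `NP2 k` false -/
def DpLe (P : DPar) (h : ℝ → ℝ) : Prop := ∀ ε : ℝ, 0 < ε → ∃ (C : ℝ) (J : ℕ), 1 ≤ C ∧
  ∀ k : Eis, k ≠ 0 → ¬ P.NP2 k → ∀ p p' : Pq, Dq.lump p → Dq.lump p' → p.d = p'.d →
    ∀ Z Z' : ℝ, Z + Z' = p.z + p'.z → 0 ≤ Z → Z ≤ p.z → Z ≤ p'.z →
      ‖Dq2 P h p p' Z Z' k‖ ≤
        C * ((nm p.d : ℝ) * nm k) ^ ε * ((1 + |p.t|) * (1 + |p'.t|)) ^ J * Real.exp Z'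

/-- the summand at a `k` with `NP2 k` false -/
lemma GX_princ {P : DPar} (hP : P.OK) {h : ℝ → ℝ} {C₂ Cb ε M T : ℝ} {J : ℕ} (hC₂ : 1 ≤ C₂)
    (hCb : 1 ≤ Cb) (hε : 0 < ε)
    (hb : ∀ (p : Pc) (k : Eis), (∀ b, IsPrim b → ‖p.ψ b‖ ≤ 1) → 0 < p.Y →
      ‖CS (pc h p) k‖ ≤ Cb * p.Y)
    (hD : ∀ k : Eis, k ≠ 0 → ¬ P.NP2 k → ∀ p p' : Pq, Dq.lump p → Dq.lump p' → p.d = p'.d →
      ∀ Z Z' : ℝ, Z + Z' = p.z + p'.z → 0 ≤ Z → Z ≤ p.z → Z ≤ p'.z →
      ‖Dq2 P h p p' Z Z' k‖ ≤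
        C₂ * ((nm p.d : ℝ) * nm k) ^ ε * ((1 + |p.t|) * (1 + |p'.t|)) ^ J * Real.exp Z')
    {k : Eis} (hk : k ≠ 0) (hnp : ¬ P.NP2 k) {us : Fin 5 → Pq} {zs : Fin 4 → ℝ} {ps : List Pq}
    (hl : ∀ i, Dq.lump (us i)) (hmd : ∀ i j, (us i).d = (us j).d)
    (hM : ∀ i, (nm (us i).d : ℝ) * nm k ≤ M) (hT : ∀ i, 1 + |(us i).t| ≤ T)
    (h01 : zs 0 + zs 1 = (us 0).z + (us 1).z) (h23 : zs 2 + zs 3 = (us 2).z + (us 3).z)
    (z0 : 0 ≤ zs 0) (z00 : zs 0 ≤ (us 0).z) (z01 : zs 0 ≤ (us 1).z)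
    (z2 : 0 ≤ zs 2) (z22 : zs 2 ≤ (us 2).z) (z23 : zs 2 ≤ (us 3).z) :
    ‖DX P h us zs k * VV P h (us 4 :: ps) k‖ ≤
      C₂ ^ 2 * Cb ^ (ps.length + 1) * (M ^ ε) ^ 2 * T ^ (4 * J) *
        Real.exp (zs 1 + zs 3 + ((us 4).z + (ps.map fun p => p.z).sum)) := by
  have hM0 : ∀ i, 0 ≤ (nm (us i).d : ℝ) * nm k := fun i => by positivity
  have hM0' : 0 ≤ M := (hM0 0).trans (hM 0)
  have hT0 : 0 ≤ T := le_trans (by positivity) (hT 0)
  have key : ∀ i j, ∀ Z Z' : ℝ, Z + Z' = (us i).z + (us j).z → 0 ≤ Z → Z ≤ (us i).z →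
      Z ≤ (us j).z → ‖Dq2 P h (us i) (us j) Z Z' k‖ ≤ C₂ * M ^ ε * (T * T) ^ J * Real.exp Z' := by
    intro i j Z Z' e1 e2 e3 e4
    refine (hD k hk hnp _ _ (hl i) (hl j) (hmd i j) Z Z' e1 e2 e3 e4).trans ?_
    have h1 := hM i
    have h2 := hT i
    have h3 := hT j
    have h4 := hM0 i
    gcongr
  have h1 := key 0 1 (zs 0) (zs 1) h01 z0 z00 z01
  have h2 := key 2 3 (zs 2) (zs 3) h23 z2 z22 z23
  have h3 := norm_VV_triv hP hCb hb k (us 4 :: ps)
  rw [List.map_cons, List.sum_cons, List.length_cons] at h3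
  unfold DX
  rw [norm_mul, norm_mul]
  calc _ ≤ (C₂ * M ^ ε * (T * T) ^ J * Real.exp (zs 1)) *
        (C₂ * M ^ ε * (T * T) ^ J * Real.exp (zs 3)) *
        (Cb ^ (ps.length + 1) * Real.exp ((us 4).z + (ps.map fun p => p.z).sum)) := by
        gcongr
    _ = C₂ ^ 2 * Cb ^ (ps.length + 1) * (M ^ ε) ^ 2 * ((T * T) ^ J * (T * T) ^ J) *
        (Real.exp (zs 1) * Real.exp (zs 3) *
          Real.exp ((us 4).z + (ps.map fun p => p.z).sum)) := by ring
    _ = _ := by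
        rw [← Real.exp_add, ← Real.exp_add, ← mul_pow]
        congr 2
        rw [show T * T * (T * T) = T ^ 4 by ring, ← pow_mul]

/-- the number of `k` with `NP2 k` false (helper791) -/
lemma card_not_np2 (P : DPar) (hP : P.OK) {L : ℝ} (hL : 1 ≤ L) (S : Finset Eis)
    (hS : ∀ k ∈ S, k ∈ bl L ∧ ¬ P.NP2 k) : (S.card : ℝ) ≤ 36 * L ^ (1 / 3 : ℝ) := by
  classical
  have hN : 1 ≤ ⌊L⌋₊ := by rwa [Nat.one_le_floor_iff]
  have hb : ∀ k ∈ S, k ∈ ball ⌊L⌋₊ ∧ k ≠ 0 := by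
    intro k hk
    have h1 := (hS k hk).1
    rw [mem_bl (by linarith)] at h1
    rw [mem_ball]
    exact ⟨Nat.le_floor h1.2, h1.1⟩
  have h1 := BoxP271.card_npm hP.ψ P.l₂ hN (S.filter fun k => ¬ NPm P.n P.ψ P.l₂ k) (by
    intro k hk
    rw [Finset.mem_filter] at hk
    exact ⟨(hb k hk.1).1, (hb k hk.1).2, hk.2⟩)
  have h2 := NatP401.card_principal hP.φ P.l₁ hN (S.filter fun k => ¬ NPk P.n P.φ P.l₁ k) (by
    intro k hk
    rw [Finset.mem_filter] at hk
    exact ⟨(hb k hk.1).1, (hb k hk.1).2, hk.2⟩)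
  have h3 : S ⊆ (S.filter fun k => ¬ NPm P.n P.ψ P.l₂ k) ∪
      (S.filter fun k => ¬ NPk P.n P.φ P.l₁ k) := by
    intro k hk
    have h := (hS k hk).2
    unfold DPar.NP2 at h
    rw [Finset.mem_union, Finset.mem_filter, Finset.mem_filter]
    tauto
  have h4 : (S.card : ℝ) ≤ (S.filter fun k => ¬ NPm P.n P.ψ P.l₂ k).card +
      (S.filter fun k => ¬ NPk P.n P.φ P.l₁ k).card := by
    exact_mod_cast (Finset.card_le_card h3).trans (Finset.card_union_le _ _)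
  have h5 : (⌊L⌋₊ : ℝ) ^ (1 / 3 : ℝ) ≤ L ^ (1 / 3 : ℝ) :=
    Real.rpow_le_rpow (by positivity) (Nat.floor_le (by linarith)) (by norm_num)
  linarith

/-! ### exponents -/

lemma princ_exp {θ hh q c : ℝ} (hθ : 7 / 8 ≤ θ) (hθ1 : θ ≤ 1) (hh0 : 89 / 100 ≤ hh)
    (hq : q ≤ 4 / 3) (hc : c ≤ 1 / 3) : q + c + 1 / 10 ≤ Tg θ (1 / 3) hh q c := by
  have h1 : 1 / 3 + 1 / 3 + θ * (2 - 2 * (1 / 3)) +
      ((hh - 1) / 6 + θ * (q - (2 - 2 * (1 / 3))) + θ * (c - 1 / 3)) ≤ Tg θ (1 / 3) hh q c := by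
    unfold Tg
    gcongr
    exact (le_max_right _ _).trans (le_max_right _ _)
  nlinarith

/-- positions of the short lengths -/
lemma geo {A β κ δ n0 n1 n2 n3 n4 y0 y2 m q : ℝ} (hA : 99 / 100 ≤ A) (hβ : 1 / 6 ≤ β)
    (hβ1 : β ≤ 9 / 50) (hκ : 179 / 200 ≤ κ) (hδ0 : 0 ≤ δ) (hδ : δ ≤ 1 / 1000)
    (a01 : n1 ≤ n0 + δ) (a12 : n2 ≤ n1 + δ) (a23 : n3 ≤ n2 + δ)
    (a34 : n4 ≤ n3 + δ) (h4 : 0 ≤ n4) (hm : 0 ≤ m)
    (near : A * κ ≤ n2 + n3 + 2 * n4) (hs : n0 + n1 + n2 + n3 + n4 + m ≤ q + δ) (hq : q ≤ 4 / 3)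
    (b0 : |y0 - β * κ| ≤ δ) (b2 : |y2 - β * κ| ≤ δ) :
    (0 ≤ y0 ∧ y0 ≤ n0 ∧ y0 ≤ n1) ∧ (0 ≤ y2 ∧ y2 ≤ n2 ∧ y2 ≤ n3) := by
  have h1 : 99 / 100 * κ ≤ A * κ := mul_le_mul_of_nonneg_right hA (by linarith)
  have h2 : 1 / 6 * κ ≤ β * κ := mul_le_mul_of_nonneg_right hβ (by linarith)
  have h3 : β * κ ≤ 9 / 50 * κ := mul_le_mul_of_nonneg_right hβ1 (by linarith)
  have h5 := abs_le.1 b0
  have h6 := abs_le.1 b2
  refine ⟨⟨by linarith, by linarith, by linarith⟩, by linarith, by linarith, by linarith⟩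

lemma mass_total (X : ℝ) (ps : List Pq) :
    Dq.mass X ps .mo + Dq.mass X ps .am = (ps.map fun p => p.z).sum / Real.log X := by
  induction ps with
  | nil => simp
  | cons p ps ih =>
    rw [Pcs.mass_cons, Pcs.mass_cons, List.map_cons, List.sum_cons, add_div, ← ih, Dq_kind]
    have e : Dq.nl X p = p.z / Real.log X := rfl
    rw [e]
    cases p.kd <;> simp <;> ring

/-- **the short families, absolute values** (the interface with helper271) -/
def AbsX {Λ : Type*} (θ A β μ' : ℝ) (π : Λ → DPar) (h : ℝ → ℝ) : Prop :=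
  ∃ δ : ℝ, 0 < δ ∧ ∀ (lam : Λ) (N : ℕ) (B : ℝ), ∃ δ' : ℝ, 0 < δ' ∧ ∃ X₀ : ℝ, 1 < X₀ ∧
    ∀ X : ℝ, X₀ ≤ X → ∀ (H : ℝ), 0 < H → ∀ (us : Fin 5 → Pq) (zs : Fin 4 → ℝ) (ps : List Pq),
      ps.length ≤ N → (∀ p ∈ ps, Dq.lump p ∨ Dq.nl X p ≤ δ) →
      Dq.Good X δ' B (List.ofFn us ++ ps) →
      179 / 200 ≤ Real.log H / Real.log X → MkX A β δ (Real.log H / Real.log X) X us zs ps →
      ∀ hh q c : ℝ, 0 ≤ hh → hh ≤ 1 → 0 ≤ q → q ≤ 4 / 3 → 0 ≤ c → c ≤ 1 / 3 →
        q - c ≤ 1 + δ → |Real.log H / Real.log X - hh| ≤ δ →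
        |Dq.mass X (List.ofFn us ++ ps) .mo - q| ≤ δ →
        |Dq.mass X (List.ofFn us ++ ps) .am - c| ≤ δ →
      ∀ L : ℝ, 1 ≤ L → Real.log L / Real.log X ≤ 9 / 10 →
        Real.log L / Real.log X ≤ Real.log H / Real.log X + δ →
        ∑ k ∈ bl L, ‖DX (π lam) h us zs k * VV (π lam) h (us 4 :: ps) k‖ ≤
          X ^ (Tg θ (1 / 3) hh q c - μ')

set_option maxHeartbeats 1000000 in
open Classical in
/-- **the short families, absolute values** -/
theorem absX_of {Λ : Type*} {θ A β μ : ℝ} {π : Λ → DPar} {h : ℝ → ℝ} {c₀ : ℝ} (hpu : PU h c₀)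
    (hπ : ∀ lam, (π lam).OK) (hdp : ∀ lam, DpLe (π lam) h) (hθ : 7 / 8 ≤ θ) (hθ1 : θ ≤ 1)
    (hA : 99 / 100 ≤ A) (hβ : 1 / 6 ≤ β) (hβ1 : β ≤ 9 / 50) (hμ : 0 < μ)
    (hT : TopC θ (1 / 3) μ (AL (9 / 10) 1 E5S271.w5) π h) :
    ∃ μ' : ℝ, 0 < μ' ∧ AbsX θ A β μ' π h := by
  obtain ⟨δC, hδC, HC⟩ := hT
  set μ' : ℝ := min (μ / 2) (1 / 40) with hμ'
  have hμ'0 : 0 < μ' := by positivity
  have hμ'1 : μ' ≤ μ / 2 := min_le_left _ _
  have hμ'2 : μ' ≤ 1 / 40 := min_le_right _ _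
  clear_value μ'
  refine ⟨μ', hμ'0, ?_⟩
  set δ : ℝ := min (δC / 4) (1 / 1000) with hδ
  have hδ0 : 0 < δ := by positivity
  have hδ1 : δ ≤ δC / 4 := min_le_left _ _
  have hδ2 : δ ≤ 1 / 1000 := min_le_right _ _
  clear_value δ
  refine ⟨δ, hδ0, fun lam N B => ?_⟩
  have hP := hπ lam
  have hB0 : 0 ≤ |B| := abs_nonneg B
  set ε : ℝ := (1 / 300) / (2 * (|B| + 1)) with hε
  have hε0 : 0 < ε := by positivity
  have hεB : 2 * ((|B| + 1) * ε) ≤ 1 / 300 := by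
    have h1 : (2 * (|B| + 1)) * ε = 1 / 300 := by
      rw [hε, mul_div_cancel₀ _ (by positivity)]
    linarith
  clear_value ε
  obtain ⟨C₂, J, hC₂, hD⟩ := hdp lam ε hε0
  obtain ⟨Cb, hCb, hb⟩ := CS_triv hpu
  obtain ⟨δC', hδC', XC, hXC, HC1⟩ := HC lam (N + 5) |B|
  set δ' : ℝ := min δC' ((1 / 300) / (4 * J + 1)) with hδ'
  have hδ'0 : 0 < δ' := by positivity
  have hδ'1 : δ' ≤ δC' := min_le_left _ _
  have hδ'2 : 4 * J * δ' ≤ 1 / 300 := by
    have h1 : δ' ≤ (1 / 300) / (4 * J + 1) := min_le_right _ _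
    have h2 : (4 * J + 1 : ℝ) * δ' ≤ 1 / 300 := by
      rw [mul_comm]
      rwa [le_div_iff₀ (by positivity)] at h1
    linarith
  clear_value δ'
  have hC₂0 : 0 ≤ C₂ := by linarith
  have hCb0 : 0 ≤ Cb := by linarith
  set D' : ℝ := 36 * (C₂ ^ 2 * Cb ^ (N + 1)) with hD'
  have hD'0 : 0 ≤ D' := by positivity
  have hD1 : 1 ≤ 4 + D' := by linarith
  obtain ⟨X₁, hX₁, HX₁⟩ := XSup271.exists_X hD1 hμ'0
  refine ⟨δ', hδ'0, max XC X₁, lt_of_lt_of_le hXC (le_max_left _ _), ?_⟩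
  intro X hX H hH us zs ps hlen hlump hgood hκa hmk hh q c hh0 hh1 hq0 hq1 hc0 hc1 hqc hk hm1 hm2
    L hL1 hL9 hLκ
  have hXX1 : XC ≤ X := (le_max_left _ _).trans hX
  have hXX2 : X₁ ≤ X := (le_max_right _ _).trans hX
  have hX1 : 1 < X := lt_of_lt_of_le hXC hXX1
  have hX0 : 0 < X := by linarith
  have hlX : 0 < Real.log X := Real.log_pos hX1
  have hL0 : 0 < L := by linarith
  set κ : ℝ := Real.log H / Real.log X with hκdef
  set kL : ℝ := Real.log L / Real.log X with hkL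
  have hkL0 : 0 ≤ kL := div_nonneg (Real.log_nonneg hL1) hlX.le
  have hkLX : kL * Real.log X = Real.log L := div_mul_cancel₀ _ hlX.ne'
  have hLX : L = X ^ kL := by
    rw [Real.rpow_def_of_pos hX0, mul_comm, hkLX, Real.exp_log hL0]
  have hk' := abs_le.1 hk
  have hm1' := abs_le.1 hm1
  have hm2' := abs_le.1 hm2
  -- the pieces
  have hgu : ∀ i, us i ∈ List.ofFn us ++ ps := fun i =>
    List.mem_append_left _ ((List.mem_ofFn' _ _).2 ⟨i, rfl⟩)
  have hgp : ∀ p ∈ ps, p ∈ List.ofFn us ++ ps := fun p hp => List.mem_append_right _ hp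
  have hzu : ∀ i, 0 ≤ (us i).z := fun i => (hgood _ (hgu i)).2.2
  have hnu : ∀ i, 0 ≤ Dq.nl X (us i) := fun i => div_nonneg (hzu i) hlX.le
  obtain ⟨hmo, ham⟩ := mass_five (X := X) (List.Perm.refl (List.ofFn us ++ ps)) hmk.lump
  rw [Fin.sum_univ_five] at hmo
  have hpm : 0 ≤ Dq.mass X ps .mo := mass_nonneg (D := Dq) (fun p hp => by
    unfold Pcs.nl
    exact div_nonneg (hgood _ (hgp p hp)).2.2 hlX.le) _
  obtain ⟨⟨y00, y01, y02⟩, y20, y21, y22⟩ := geo hA hβ hβ1 hκa hδ0.le hδ2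
    (hmk.anti 0 1 (by decide)) (hmk.anti 1 2 (by decide)) (hmk.anti 2 3 (by decide))
    (hmk.anti 3 4 (by decide)) (hnu 4) hpm hmk.near (q := q) (by linarith) hq1 hmk.z0 hmk.z2
  have cv : ∀ {x y : ℝ}, x / Real.log X ≤ y / Real.log X → x ≤ y := fun h =>
    (div_le_div_iff_of_pos_right hlX).1 h
  have cv0 : ∀ {y : ℝ}, 0 ≤ y / Real.log X → 0 ≤ y := fun {y} h => by
    have : 0 / Real.log X ≤ y / Real.log X := by rwa [zero_div]
    exact cv this
  have w00 : 0 ≤ zs 0 := cv0 y00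
  have w01 : zs 0 ≤ (us 0).z := cv y01
  have w02 : zs 0 ≤ (us 1).z := cv y02
  have w20 : 0 ≤ zs 2 := cv0 y20
  have w21 : zs 2 ≤ (us 2).z := cv y21
  have w22 : zs 2 ≤ (us 3).z := cv y22
  have hzs : ∀ i, 0 ≤ zs i := by
    intro i
    have h1 := hmk.s01
    have h2 := hmk.s23
    have h3 := hzu 1
    have h4 := hzu 3
    fin_cases i
    · exact w00
    · show 0 ≤ zs 1
      linarith
    · exact w20
    · show 0 ≤ zs 3
      linarith
  -- the shapes
  have hBc : ∀ a b : Bool, Bc (π lam) h (Real.log L) (List.ofFn (shp us zs a b) ++ ps) ≤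
      X ^ (Tg θ (1 / 3) hh q c - 2 * μ') := by
    intro a b
    set q' : ℝ := min q (c + 1) with hq'
    have hq'1 : q' ≤ q := min_le_left _ _
    have hq'2 : q' ≤ c + 1 := min_le_right _ _
    have hq'3 : 0 ≤ q' := le_min hq0 (by linarith)
    have hq'4 : q - q' ≤ δ := by
      rcases min_choice q (c + 1) with h4 | h4
      · rw [hq', h4]; linarith
      · rw [hq', h4]; linarith
    clear_value q'
    set h' : ℝ := min kL hh with hh'
    have hh'1 : h' ≤ hh := min_le_right _ _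
    have hh'0 : 0 ≤ h' := le_min hkL0 hh0
    have hh'3 : kL - h' ≤ 2 * δ := by
      rcases min_choice kL hh with h4 | h4
      · rw [hh', h4]; linarith
      · rw [hh', h4]; linarith
    have hh'4 : h' ≤ kL := min_le_left _ _
    clear_value h'
    have h5 := HC1 X hXX1 kL (List.ofFn (shp us zs a b) ++ ps)
      (by rw [List.length_append, List.length_ofFn]; omega)
      (fun p hp => by
        rcases List.mem_append.1 hp with hp | hp
        · obtain ⟨i, rfl⟩ := (List.mem_ofFn' _ _).1 hp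
          exact Or.inl (shp_lump hmk.lump a b i)
        · exact (hlump p hp).imp id fun h => h.trans (by linarith))
      (fun us gs _ _ => Or.inl hL9) h' q' c hh'0 (by linarith) hq'3
      (by linarith) hc0 (by linarith) (by linarith)
      (by rw [abs_of_nonneg (by linarith)]; linarith)
      (by
        rw [mass_shp hmk.lump hmk.s01 hmk.s23, abs_le]
        constructor <;> linarith)
      (by
        rw [mass_shp hmk.lump hmk.s01 hmk.s23]
        exact hm2.trans (by linarith))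
      (fun p hp => by
        have hB1 : X ^ δ' ≤ X ^ δC' := Real.rpow_le_rpow_of_exponent_le hX1.le hδ'1
        have hB2 : X ^ B ≤ X ^ |B| := Real.rpow_le_rpow_of_exponent_le hX1.le (le_abs_self B)
        rcases List.mem_append.1 hp with hp | hp
        · obtain ⟨i, rfl⟩ := (List.mem_ofFn' _ _).1 hp
          have hg := hgood _ (hgu i)
          refine ⟨?_, ?_, shp_z hzu hzs a b i⟩
          · rw [Dq_s1, shp_t]
            exact hg.1.trans hB1
          · rw [Dq_s2, shp_d]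
            exact hg.2.1.trans hB2
        · have hg := hgood _ (hgp p hp)
          exact ⟨hg.1.trans hB1, hg.2.1.trans hB2, hg.2.2⟩)
    rw [hkLX] at h5
    have h6 : Tg θ (1 / 3) h' q' c ≤ Tg θ (1 / 3) hh q c := Tg_mono (by linarith) hh'1 hq'1
    exact h5.trans (Real.rpow_le_rpow_of_exponent_le hX1.le (by linarith))
  -- the principal `k`
  have hpr : ∑ k ∈ (bl L).filter (fun k => ¬ (π lam).NP2 k),
      ‖DX (π lam) h us zs k * VV (π lam) h (us 4 :: ps) k‖ ≤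
        D' * X ^ (Tg θ (1 / 3) hh q c - 2 * μ') := by
    set E : ℝ := zs 1 + zs 3 + ((us 4).z + (ps.map fun p => p.z).sum) with hE
    set V : ℝ := C₂ ^ 2 * Cb ^ (N + 1) * X ^ (1 / 300 : ℝ) * X ^ (1 / 300 : ℝ) * Real.exp E with hV
    have hone : ∀ k ∈ (bl L).filter (fun k => ¬ (π lam).NP2 k),
        ‖DX (π lam) h us zs k * VV (π lam) h (us 4 :: ps) k‖ ≤ V := by
      intro k hkS
      rw [Finset.mem_filter, mem_bl hL0.le] at hkS
      obtain ⟨⟨hk0, hkL'⟩, hnp⟩ := hkS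
      have hM : ∀ i, (nm (us i).d : ℝ) * nm k ≤ X ^ (|B| + 1) := by
        intro i
        have h1 : (nm (us i).d : ℝ) ≤ X ^ |B| := (hgood _ (hgu i)).2.1.trans
          (Real.rpow_le_rpow_of_exponent_le hX1.le (le_abs_self B))
        have h2 : (nm k : ℝ) ≤ X ^ (1 : ℝ) := by
          refine hkL'.trans ?_
          rw [hLX]
          exact Real.rpow_le_rpow_of_exponent_le hX1.le (by linarith)
        rw [Real.rpow_add hX0]
        gcongr
      refine (GX_princ hP hC₂ hCb hε0 hb hD hk0 hnp hmk.lump hmk.md hM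
        (fun i => (hgood _ (hgu i)).1) hmk.s01 hmk.s23 w00 w01 w02 w20 w21 w22).trans ?_
      have e1 : ((X ^ (|B| + 1)) ^ ε) ^ 2 ≤ X ^ (1 / 300 : ℝ) := by
        rw [← Real.rpow_natCast _ 2, ← Real.rpow_mul hX0.le, ← Real.rpow_mul hX0.le]
        refine Real.rpow_le_rpow_of_exponent_le hX1.le ?_
        push_cast
        linarith
      have e2 : (X ^ δ') ^ (4 * J) ≤ X ^ (1 / 300 : ℝ) := by
        rw [← Real.rpow_natCast, ← Real.rpow_mul hX0.le]
        refine Real.rpow_le_rpow_of_exponent_le hX1.le ?_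
        push_cast
        linarith
      have e3 : Cb ^ (ps.length + 1) ≤ Cb ^ (N + 1) := pow_le_pow_right₀ hCb (by omega)
      rw [hV]
      gcongr
    have hcard := card_not_np2 (π lam) hP hL1 ((bl L).filter (fun k => ¬ (π lam).NP2 k))
      (fun k hk => Finset.mem_filter.1 hk)
    have hV0 : 0 ≤ V := by positivity
    have hexpE : Real.exp E ≤ X ^ (q + c + 4 * δ - κ / 3) := by
      rw [Real.rpow_def_of_pos hX0]
      refine Real.exp_le_exp.2 ?_
      have h1 : E / Real.log X ≤ q + c + 4 * δ - κ / 3 := by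
        have e1 := mass_total X ps
        have e2 : E / Real.log X = Dq.nl X (us 0) + Dq.nl X (us 1) + Dq.nl X (us 2) +
            Dq.nl X (us 3) + Dq.nl X (us 4) + (Dq.mass X ps .mo + Dq.mass X ps .am) -
            zs 0 / Real.log X - zs 2 / Real.log X := by
          rw [e1]
          unfold Pcs.nl
          simp only [Dq_len]
          rw [hE]
          have h3 := hmk.s01
          have h4 := hmk.s23
          field_simp
          linarith
        have h5 := abs_le.1 hmk.z0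
        have h6 := abs_le.1 hmk.z2
        have h7 : 1 / 6 * κ ≤ β * κ := mul_le_mul_of_nonneg_right hβ (by linarith)
        rw [e2]
        linarith
      rw [div_le_iff₀ hlX] at h1
      linarith
    have hL3 : L ^ (1 / 3 : ℝ) = X ^ (kL / 3) := by
      nth_rewrite 1 [hLX]
      rw [← Real.rpow_mul hX0.le]
      congr 1
      ring
    have hpe := princ_exp hθ hθ1 (hh := hh) (by linarith) hq1 hc1
    calc ∑ k ∈ (bl L).filter (fun k => ¬ (π lam).NP2 k),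
          ‖DX (π lam) h us zs k * VV (π lam) h (us 4 :: ps) k‖
        ≤ ∑ _k ∈ (bl L).filter (fun k => ¬ (π lam).NP2 k), V := Finset.sum_le_sum hone
      _ = ((bl L).filter (fun k => ¬ (π lam).NP2 k)).card * V := by
          rw [Finset.sum_const, nsmul_eq_mul]
      _ ≤ 36 * L ^ (1 / 3 : ℝ) * V := by gcongr
      _ = D' * (X ^ (kL / 3) * X ^ (1 / 300 : ℝ) * X ^ (1 / 300 : ℝ) * Real.exp E) := by
          rw [hL3, hV, hD']
          ring
      _ ≤ D' * (X ^ (kL / 3) * X ^ (1 / 300 : ℝ) * X ^ (1 / 300 : ℝ) *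
            X ^ (q + c + 4 * δ - κ / 3)) := by gcongr
      _ = D' * X ^ (kL / 3 + 1 / 300 + 1 / 300 + (q + c + 4 * δ - κ / 3)) := by
          rw [← Real.rpow_add hX0, ← Real.rpow_add hX0, ← Real.rpow_add hX0]
      _ ≤ D' * X ^ (Tg θ (1 / 3) hh q c - 2 * μ') := by
          refine mul_le_mul_of_nonneg_left ?_ hD'0
          exact Real.rpow_le_rpow_of_exponent_le hX1.le (by linarith)
  -- all
  refine (sum_GX_le (π lam) h us zs ps hL0).trans ?_
  set W : ℝ := X ^ (Tg θ (1 / 3) hh q c - 2 * μ') with hW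
  have hW0 : 0 ≤ W := by positivity
  have h4 : ∑ a : Bool, ∑ b : Bool, Bc (π lam) h (Real.log L)
      (List.ofFn (shp us zs a b) ++ ps) ≤ 4 * W := by
    rw [Fintype.sum_bool, Fintype.sum_bool, Fintype.sum_bool]
    have h1 := hBc true true
    have h2 := hBc true false
    have h3 := hBc false true
    have h5 := hBc false false
    linarith
  calc _ ≤ 4 * W + D' * W := add_le_add h4 hpr
    _ = (4 + D') * W := by ring
    _ ≤ X ^ μ' * W := mul_le_mul_of_nonneg_right (HX₁ X hXX2) hW0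
    _ = X ^ (Tg θ (1 / 3) hh q c - μ') := by
        rw [hW, ← Real.rpow_add hX0]
        congr 1
        ring

end Crest.Agent.R017.ExP5s935
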