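import Crest.Agent.R017.ExP5s_935
import Crest.Agent.R017.ExP5a_271
import Crest.Agent.R017.ExAbB_968

/-!
# Row 17, exceptional class, part P5x: the short families in absolute values, final (helper935)

* `dpLe_of` : helper968's `dp_le` in the form of `ExP5s_935`
* `absDD_of` : helper271's `AbsDD` from the absolute theorem `TopC`
-/

set_option autoImplicit false

noncomputable section

open Complex

namespace Crest.Agent.R017.ExP5s935

open Crest.Agent.R012 Crest.Agent.R012.Eis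
open Crest.Agent.R017.End699 Crest.Agent.R017.FE47
open Crest.Agent.R017.B770 Crest.Agent.R017.Prov71
open Crest.Agent.R017.BxE986

theorem dpLe_of {P : DPar} (hP : P.OK) {h : ℝ → ℝ} {c : ℝ} (hpu : PU h c) : DpLe P h := by
  intro ε hε
  obtain ⟨C, hC, H⟩ := ExAb968.dp_le hP hpu hε
  refine ⟨C, 8, hC, fun k hk hnp p p' hp hp' hd Z Z' e1 e2 e3 e4 => ?_⟩
  have a1 : 1 ≤ 1 + |p.t| := by linarith [abs_nonneg p.t]
  have a2 : 1 ≤ 1 + |p'.t| := by linarith [abs_nonneg p'.t]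
  exact H k hk hnp p p' hp hp' hd Z Z' e1 (by linarith) (by linarith) (by linarith) (by linarith)
    _ _ le_rfl (one_le_mul_of_one_le_of_one_le a1 a2) (le_mul_of_one_le_right (by linarith) a2)
    (le_mul_of_one_le_left (by linarith) a1)

/-- **the short families, absolute values** : helper271's `AbsDD` from `TopC` -/
theorem absDD_of {Λ : Type*} {θ A β μ : ℝ} {π : Λ → DPar} {h : ℝ → ℝ} {c₀ : ℝ} (hpu : PU h c₀)
    (hπ : ∀ lam, (π lam).OK) (hθ : 7 / 8 ≤ θ) (hθ1 : θ ≤ 1)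
    (hA : 99 / 100 ≤ A) (hβ : 1 / 6 ≤ β) (hβ1 : β ≤ 9 / 50) (hμ : 0 < μ)
    (hT : TopC θ (1 / 3) μ (AL (9 / 10) 1 E5S271.w5) π h) :
    ∃ μ' : ℝ, 0 < μ' ∧ ExP5x271.AbsDD θ A β μ' π h := by
  obtain ⟨μ', h1, h2⟩ := absX_of hpu hπ (fun lam => dpLe_of (hπ lam) hpu) hθ hθ1 hA hβ hβ1 hμ hT
  exact ⟨μ', h1, h2⟩

end Crest.Agent.R017.ExP5s935
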