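import Crest.Agent.R017.ExP5_271
import Crest.Agent.R017.ExP5t_935

/-!
# Row 17, exceptional class, P5x (helper271), part 4: the link

* `primUX_mono`
* `p5x_of` : the field `p5x` of helper986's `Fin5`: `PrimUX` and `TopC` imply `TopDD`
-/

set_option autoImplicit false

noncomputable section

open Complex Filter Topology

namespace Crest.Agent.R017.ExP5x271

open Crest.Agent.R012 Crest.Agent.R012.Eis
open Crest.Agent.R017.FE47 Crest.Agent.R017.End699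
open Crest.Agent.R017.B770 Crest.Agent.R017.BxE986
open Crest.Agent.R017.Prov71 Crest.Agent.R017.ER911
open Crest.Agent.R017.E5B71
open Crest.Agent.R017.ExBox960 Crest.Agent.R017.ExP960

/-- a smaller domain -/
theorem primUX_mono {Λ : Type*} {θ A A' β μ : ℝ} {π : Λ → DPar} {h : ℝ → ℝ} (hA : A ≤ A')
    (H : PrimUX π h θ A β μ) : PrimUX π h θ A' β μ := by
  intro ε hε
  obtain ⟨δ, hδ, H1⟩ := H ε hε
  refine ⟨δ, hδ, fun lam N B => ?_⟩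
  obtain ⟨δ', hδ', X₀, hX₀, H2⟩ := H1 lam N B
  refine ⟨δ', hδ', X₀, hX₀, fun X hX a ps hlen hl q hq => H2 X hX a ps hlen hl q ?_⟩
  obtain ⟨⟨⟨n1, n2, n3, n4, n5, n6, n7, n8, n9⟩, hx⟩, hz⟩ := hq
  refine ⟨⟨⟨n1, n2, n3, n4, ?_, n6, n7, n8, n9⟩, hx⟩, hz⟩
  refine le_trans ?_ n5
  exact mul_le_mul_of_nonneg_right hA (by linarith)

/-- **the signed theorem for double differences** from `PrimUX` and the absolute theorem -/
theorem topDD_of {Λ : Type*} {θ : ℝ} (hθ : 7 / 8 ≤ θ) (hθ1 : θ ≤ 1) {π : Λ → DPar}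
    {h : ℝ → ℝ} {c₀ : ℝ} (hpu : PU h c₀) (hπ : ∀ lam, (π lam).OK) {β : ℝ} (hβ : 1 / 6 ≤ β)
    (hβ1 : β ≤ 9 / 50) {A μ₁ μT : ℝ} (hA : A < 1) (hμ₁ : 0 < μ₁) (hμT : 0 < μT)
    (hU : PrimUX π h θ A β μ₁) (hT : TopC θ (1 / 3) μT (AL (9 / 10) 1 ![0, 0, 1, 1, 2]) π h) :
    ∃ μ' A₀ : ℝ, 0 < μ' ∧ 3 / 4 < A₀ ∧ A₀ < 1 ∧ TopDD θ (1 / 3) μ' (179 / 200) A₀ β π h := by
  obtain ⟨A₀, h1, h2⟩ := exists_between (max_lt hA (show (999 / 1000 : ℝ) < 1 by norm_num))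
  have h3 : A < A₀ := lt_of_le_of_lt (le_max_left _ _) h1
  have h4 : 999 / 1000 < A₀ := lt_of_le_of_lt (le_max_right _ _) h1
  have h5 : max A 0 < A₀ := max_lt h3 (by linarith)
  obtain ⟨μ₂, hμ₂, hAb⟩ := ExP5s935.absDD_of (A := A₀) (β := β) hpu hπ hθ hθ1 (by linarith) hβ
    hβ1 hμT hT
  have hm : 0 < min μ₁ μ₂ := lt_min hμ₁ hμ₂
  have m1 : min μ₁ μ₂ ≤ μ₁ := min_le_left _ _
  have m2 : min μ₁ μ₂ ≤ μ₂ := min_le_right _ _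
  exact ⟨min μ₁ μ₂ / 2, A₀, by linarith, by linarith, h2,
    topDD_of_primUX hπ (by linarith) (by linarith) (by linarith) (by linarith)
      (le_max_right A 0) h5 h2.le (by linarith) (by linarith)
      (primUX_mono (le_max_left A 0) hU) hAb⟩

/-- **the field `p5x`** of helper986's `Fin5` -/
theorem p5x_of {Λ : Type*} {θ : ℝ} (hθ : 7 / 8 ≤ θ) (hθ1 : θ ≤ 1) {π : Λ → DPar}
    {h : ℝ → ℝ} {c₀ : ℝ} (hpu : PU h c₀) (hπ : ∀ lam, (π lam).OK) :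
    ∀ A μ₁ μT : ℝ, A < 1 → 0 < μ₁ → 0 < μT → PrimUX π h θ A (17 / 100) μ₁ →
      TopC θ (1 / 3) μT (AL (9 / 10) 1 ![0, 0, 1, 1, 2]) π h →
      ∃ μ' A₀ : ℝ, 0 < μ' ∧ 3 / 4 < A₀ ∧ A₀ < 1 ∧
        TopDD θ (1 / 3) μ' (179 / 200) A₀ (17 / 100) π h :=
  fun _ _ _ hA hμ₁ hμT hU hT =>
    topDD_of hθ hθ1 hpu hπ (by norm_num) (by norm_num) hA hμ₁ hμT hU hT

end Crest.Agent.R017.ExP5x271
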