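import Crest.Agent.R017.ExBox1_960
import Crest.Agent.R017.BoxP3_271
import Crest.Agent.R017.TXC1_791
import Crest.Agent.R017.One_PVs_61

/-!
# Row 17, D.box, exceptional class: completion to all `k` (1), pointwise bounds (helper791)

* `D2_npm_not` : a difference of two shapes at `k` with `ψ χ_k` principal
* `PS_cube`, `D2_cube` : smooth pieces / differences at `k = n₀ z³`, `ψ χ_k` nonprincipal
* trivial bounds of `GCr`, `AS`, `Amp`
-/

set_option autoImplicit false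

noncomputable section

open MeasureTheory Complex Set
open scoped ComplexConjugate ContDiff

namespace Crest.Agent.R017.ExPr791

open Crest.Agent.R012 Crest.Agent.R012.Eis Crest.Agent.R012.Mob705 Crest.Agent.R012.Gauss880
open Crest.Agent.R012.PSer47 (IsChar)
open Crest.Agent.R012.Weight600 (osc norm_osc pw norm_pw)
open Crest.Agent.R012.LS2 (bl)
open Crest.Agent.R017.End699 Crest.Agent.R017.Sx440 Crest.Agent.R017.Sx545
open Crest.Agent.R017.Asm986 Crest.Agent.R017.HBS271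
open Crest.Agent.R017.Sup271 Crest.Agent.R017.B770
open Crest.Agent.R017.ExBox960
open Crest.Agent.R017.FE47 (PU cx XK)
open Crest.Agent.R017.Two939 (P Po Df)

/-! ### the weight -/

lemma pu_hh : PU HB645.hh 1 where
  cpos := one_pos
  cd := HB645.contDiff_hh
  cs := by
    refine HasCompactSupport.intro (isCompact_Icc (a := (-1 : ℝ)) (b := 1)) fun u hu => ?_
    by_contra h
    have h1 := abs_le.mp (HB645.abs_lt_of_hh h).le
    exact hu h1
  one := fun v hv => by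
    obtain ⟨K, hK⟩ := exists_nat_ge v
    rw [tsum_eq_sum (s := Finset.range (K + 1))]
    · simpa using HB645.sum_hh_eq_one hv hK
    · intro n hn
      rw [Finset.mem_range, not_lt] at hn
      refine HB645.hh_left ?_
      have h1 : ((K : ℝ) + 1) ≤ n := by exact_mod_cast hn
      linarith

/-- the characters of the Möbius sum -/
abbrev chf (ψ : Eis → ℂ) (l : ℤ) (t : ℝ) (d k : Eis) : Eis → ℂ :=
  fun b => twt ψ l t b * prin0 d b * sy k b

lemma ch_eq (P : DPar) (d₂ : Eis) (t₂ : ℝ) (k : Eis) :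
    P.ch d₂ t₂ k = chf P.ψ P.l₂ t₂ d₂ k := rfl

lemma hc_mul_prin {n : Eis} {ψ : Eis → ℂ} (hψ : HC n ψ) {d : Eis} (hd : d ≠ 0) :
    HC (n * (n * d)) (fun b => ψ b * prin0 (n * d) b) := by
  have h1 := hc_prin0 (mul_ne_zero hψ.q0 hd) (hψ.three.mul_right d)
  exact hψ.mul h1

/-- a smooth piece of the box as `Po` -/
lemma PS_eq_P {n : Eis} {ψ : Eis → ℂ} (hψ : HC n ψ) (l : ℤ) (t : ℝ) (d k : Eis) (s : ℕ) :
    HB645.PS (chf ψ l t d k) s 0 =
      P HB645.hh (fun b => ψ b * prin0 (n * d) b) l k (Real.exp s) t := by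
  have e1 : chf ψ l t d k = fun b => twt ψ l t b * (prin0 d b * sy k b) := by
    funext b; simp only [chf]; ring
  rw [e1, FY61.PSn_eq]
  unfold P
  rw [Real.log_exp]
  refine FE47.PS_congr (fun b hb => ?_) _ _
  unfold XK
  beta_reduce
  by_cases hc : IsCoprime b n
  · have e2 : prin0 (n * d) b = prin0 d b := by
      unfold prin0
      by_cases h2 : IsCoprime b d
      · rw [if_pos h2, if_pos (hc.mul_right h2)]
      · rw [if_neg h2, if_neg fun h => h2 h.of_mul_right_right]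
    rw [e2]; ring
  · rw [hψ.van b hb hc]; ring

/-- a difference of the box as `Df` -/
lemma D2_eq_Df {n : Eis} {ψ : Eis → ℂ} (hψ : HC n ψ) (l : ℤ) (t : ℝ) (d k : Eis)
    {m m' a b : ℕ} (h : a + b = m + m') :
    ‖D2 (chf ψ l t d k) m m' a b‖ =
      ‖Df HB645.hh (fun b => ψ b * prin0 (n * d) b) l k (Real.exp m) (Real.exp m')
        (Real.exp a) (Real.exp b) t t‖ := by
  unfold D2 Df Po
  simp only [PS_eq_P hψ, Real.log_exp]
  set f := P HB645.hh (fun b => ψ b * prin0 (n * d) b) l k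
  have e1 : osc t (-(m : ℝ)) * osc t (-(m' : ℝ)) = osc t (-(a : ℝ)) * osc t (-(b : ℝ)) := by
    rw [← Weight600.osc_add_right, ← Weight600.osc_add_right]
    congr 1
    have : (a : ℝ) + b = m + m' := by exact_mod_cast h
    linarith
  have e2 : osc t (-(m : ℝ)) * f (Real.exp m) t * (osc t (-(m' : ℝ)) * f (Real.exp m') t) -
      osc t (-(a : ℝ)) * f (Real.exp a) t * (osc t (-(b : ℝ)) * f (Real.exp b) t) =
      (osc t (-(m : ℝ)) * osc t (-(m' : ℝ))) * (f (Real.exp m) t * f (Real.exp m') t -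
        f (Real.exp a) t * f (Real.exp b) t) := by
    rw [mul_sub]
    nth_rewrite 2 [e1]
    ring
  rw [e2, norm_mul, norm_mul, norm_osc, norm_osc, one_mul, one_mul]

lemma npm_mul {n : Eis} {ψ : Eis → ℂ} {l : ℤ} {d k : Eis} (h : ¬ NPm n ψ l k) :
    ¬ NPm (n * (n * d)) (fun b => ψ b * prin0 (n * d) b) l k := by
  unfold NPm NP at h ⊢
  push Not at h ⊢
  refine ⟨h.1, fun a ha hc => ?_⟩
  have h1 : IsCoprime a (n * (n * d)) := hc.of_mul_right_left
  have h2 : IsCoprime a (9 * k) := hc.of_mul_right_right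
  have h3 : IsCoprime a (n * d) := h1.of_mul_right_right
  have h4 := h.2 a ha (h3.of_mul_right_left.mul_right h2)
  unfold prin0
  rw [if_pos h3, mul_one]
  exact h4

/-- **a difference of two shapes at `k` with `ψ χ_k` principal** -/
theorem D2_npm_not {n : Eis} {ψ : Eis → ℂ} (hψ : HC n ψ) (l : ℤ) {ε : ℝ} (hε : 0 < ε) :
    ∃ C : ℝ, 1 ≤ C ∧ ∀ k d : Eis, k ≠ 0 → d ≠ 0 → ¬ NPm n ψ l k → ∀ (t : ℝ) (m m' a b : ℕ),
      a + b = m + m' → a ≤ m → a ≤ m' →
      ‖D2 (chf ψ l t d k) m m' a b‖ ≤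
        C * ((nm d : ℝ) * nm k) ^ ε * (1 + |t|) ^ (6 : ℕ) * Real.exp b := by
  obtain ⟨C, hC, h1⟩ := TXC791.Df_le pu_hh hε
  refine ⟨C * ((nm n : ℝ) ^ 2) ^ ε * 4, ?_, ?_⟩
  · have hn : (1 : ℝ) ≤ nm n := by exact_mod_cast nm_pos.mpr hψ.q0
    have : (1 : ℝ) ≤ ((nm n : ℝ) ^ 2) ^ ε := Real.one_le_rpow (one_le_pow₀ hn) hε.le
    nlinarith
  intro k d hk hd hnp t m m' a b hab ham ham'
  rw [D2_eq_Df hψ l t d k hab]
  have hN : Real.exp (m : ℝ) * Real.exp m' = Real.exp a * Real.exp b := by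
    rw [← Real.exp_add, ← Real.exp_add]
    congr 1
    have : (a : ℝ) + b = m + m' := by exact_mod_cast hab
    linarith
  have h2 := h1 _ _ (hc_mul_prin hψ hd) l k hk (npm_mul hnp) (Real.exp m) (Real.exp m')
    (Real.exp a) (Real.exp b) t t (Real.exp_pos _) (Real.exp_pos _) (Real.exp_pos _)
    (Real.exp_pos _) hN
  refine h2.trans ?_
  have e1 : (TXC791.sk (n * (n * d)) k) ^ ε = ((nm n : ℝ) ^ 2) ^ ε * ((nm d : ℝ) * nm k) ^ ε := by
    rw [← Real.mul_rpow (by positivity) (by positivity)]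
    congr 1
    unfold TXC791.sk
    rw [nm_mul, nm_mul]; push_cast; ring
  have e2 : ((1 + |t|) * (1 + |t|)) ^ 3 = (1 + |t|) ^ (6 : ℕ) := by ring
  have hmb : m ≤ b := by omega
  have hmb' : m' ≤ b := by omega
  have hab' : a ≤ b := by omega
  have h3 : min (Real.exp (m : ℝ) * Real.exp m')
      (Real.exp (m : ℝ) + Real.exp m' + Real.exp a + Real.exp b) ≤ 4 * Real.exp b := by
    refine (min_le_right _ _).trans ?_
    have i1 : Real.exp (m : ℝ) ≤ Real.exp b := Real.exp_le_exp.mpr (by exact_mod_cast hmb)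
    have i2 : Real.exp (m' : ℝ) ≤ Real.exp b := Real.exp_le_exp.mpr (by exact_mod_cast hmb')
    have i3 : Real.exp (a : ℝ) ≤ Real.exp b := Real.exp_le_exp.mpr (by exact_mod_cast hab')
    linarith
  rw [e1, e2]
  calc C * (((nm n : ℝ) ^ 2) ^ ε * ((nm d : ℝ) * nm k) ^ ε) * (1 + |t|) ^ (6 : ℕ) *
        min (Real.exp (m : ℝ) * Real.exp m') (Real.exp m + Real.exp m' + Real.exp a + Real.exp b)
      ≤ C * (((nm n : ℝ) ^ 2) ^ ε * ((nm d : ℝ) * nm k) ^ ε) * (1 + |t|) ^ (6 : ℕ) *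
        (4 * Real.exp b) := by gcongr
    _ = _ := by ring

/-! ### the other class -/

/-- **smooth pieces at `k = n₀ z³` with `ψ χ_k` nonprincipal** -/
theorem PS_cube {n : Eis} {ψ : Eis → ℂ} (hψ : HC n ψ) (l : ℤ) {n₀ : Eis} (hn₀ : n₀ ≠ 0)
    {ε : ℝ} (hε : 0 < ε) :
    ∃ (C : ℝ) (J : ℕ), 1 ≤ C ∧ ∀ z : Eis, z ≠ 0 → NPm n ψ l (n₀ * z ^ 3) → ∀ d : Eis, d ≠ 0 →
      ∀ (t : ℝ) (s : ℕ), ‖HB645.PS (chf ψ l t d (n₀ * z ^ 3)) s 0‖ ≤
        C * ((nm d : ℝ) * nm (n₀ * z ^ 3)) ^ ε * (1 + |t|) ^ J := by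
  obtain ⟨C, J, hC, h1⟩ := FY61.PS_npm hψ l hε
  refine ⟨1 + C * (nm n₀ : ℝ) ^ ε * (nm n₀ : ℝ) ^ (1 / 2 : ℝ), J, by
    have : 0 ≤ C * (nm n₀ : ℝ) ^ ε * (nm n₀ : ℝ) ^ (1 / 2 : ℝ) := by positivity
    linarith, ?_⟩
  intro z hz hnp d hd t s
  have hnp' : NPm n ψ l n₀ := by
    unfold NPm NP at hnp ⊢
    rcases hnp with h | ⟨a, ha, hc, hne⟩
    · exact Or.inl h
    · refine Or.inr ⟨a, ha, ?_, ?_⟩
      · refine hc.of_isCoprime_of_dvd_right ?_
        exact ⟨z ^ 3, by ring⟩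
      · have hcz : IsCoprime z a := by
          refine (hc.of_isCoprime_of_dvd_right ?_).symm
          exact ⟨n * 9 * n₀ * z ^ 2, by ring⟩
        beta_reduce at hne ⊢
        rw [Char766.sy_mul_left ha, Char766.sy_cube_left ha hcz, mul_one] at hne
        exact hne
  have hzd : d * z ≠ 0 := mul_ne_zero hd hz
  have h2 := h1 n₀ hn₀ hnp' (d * z) hzd t s
  have e1 : HB645.PS (chf ψ l t d (n₀ * z ^ 3)) s 0 =
      HB645.PS (fun b => twt ψ l t b * prin0 (d * z) b * sy n₀ b) s 0 := by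
    unfold HB645.PS
    refine Finset.sum_congr rfl fun b hb => ?_
    have hbp := (mem_primBall.mp hb).2
    congr 2
    simp only [chf]
    rw [Char766.sy_mul_left hbp]
    unfold prin0
    by_cases hz' : IsCoprime b z
    · rw [Char766.sy_cube_left hbp hz'.symm, mul_one]
      by_cases hd' : IsCoprime b d
      · rw [if_pos hd', if_pos (hd'.mul_right hz')]
      · rw [if_neg hd', if_neg fun h : IsCoprime b (d * z) => hd' h.of_mul_right_left]
    · rw [Char766.sy_eq_zero hbp fun h' => hz'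
        (h'.of_isCoprime_of_dvd_left (dvd_pow_self z three_ne_zero)).symm,
        if_neg (c := IsCoprime b (d * z)) fun h' => hz' h'.of_mul_right_right]
      simp
  rw [e1]
  refine h2.trans ?_
  have hz1 : (1 : ℝ) ≤ nm z := by exact_mod_cast nm_pos.mpr hz
  have hn1 : (1 : ℝ) ≤ nm n₀ := by exact_mod_cast nm_pos.mpr hn₀
  have h3 : (nm (d * z) : ℝ) * nm n₀ ≤ (nm n₀ : ℝ) * ((nm d : ℝ) * nm (n₀ * z ^ 3)) := by
    rw [nm_mul, nm_mul, nm_pow]
    push_cast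
    have h4 : (nm z : ℝ) ≤ (nm z : ℝ) ^ 3 := by
      calc (nm z : ℝ) = (nm z : ℝ) ^ 1 := (pow_one _).symm
        _ ≤ _ := pow_le_pow_right₀ hz1 (by norm_num)
    calc (nm d : ℝ) * nm z * nm n₀ ≤ (nm d : ℝ) * (nm z : ℝ) ^ 3 * nm n₀ := by gcongr
      _ = 1 * ((nm d : ℝ) * (nm n₀ * (nm z : ℝ) ^ 3)) := by ring
      _ ≤ _ := by gcongr
  have h5 : ((nm (d * z) : ℝ) * nm n₀) ^ ε ≤
      (nm n₀ : ℝ) ^ ε * ((nm d : ℝ) * nm (n₀ * z ^ 3)) ^ ε := by
    rw [← Real.mul_rpow (by positivity) (by positivity)]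
    exact Real.rpow_le_rpow (by positivity) h3 hε.le
  calc C * ((nm (d * z) : ℝ) * nm n₀) ^ ε * (1 + |t|) ^ J * (nm n₀ : ℝ) ^ (1 / 2 : ℝ)
      ≤ C * ((nm n₀ : ℝ) ^ ε * ((nm d : ℝ) * nm (n₀ * z ^ 3)) ^ ε) * (1 + |t|) ^ J *
        (nm n₀ : ℝ) ^ (1 / 2 : ℝ) := by gcongr
    _ = (C * (nm n₀ : ℝ) ^ ε * (nm n₀ : ℝ) ^ (1 / 2 : ℝ)) *
        ((nm d : ℝ) * nm (n₀ * z ^ 3)) ^ ε * (1 + |t|) ^ J := by ring
    _ ≤ _ := by
        gcongr
        linarith

/-- **a difference of two shapes at `k` with `φ conj χ_k` principal, `ψ χ_k` nonprincipal** -/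
theorem D2_cube {n : Eis} {φ ψ : Eis → ℂ} (hφ : HC n φ) (hψ : HC n ψ) (l l' : ℤ)
    {ε : ℝ} (hε : 0 < ε) :
    ∃ (C : ℝ) (J : ℕ), 1 ≤ C ∧ ∀ k d : Eis, k ≠ 0 → d ≠ 0 → ¬ NPk n φ l' k → NPm n ψ l k →
      ∀ (t : ℝ) (m m' a b : ℕ), ‖D2 (chf ψ l t d k) m m' a b‖ ≤
        C * ((nm d : ℝ) * nm k) ^ ε * (1 + |t|) ^ J := by
  obtain ⟨n₀, hn₀, hform⟩ := BoxP271.principal_form hφ l'
  obtain ⟨C, J, hC, h1⟩ := PS_cube hψ l hn₀ (half_pos hε)
  refine ⟨2 * C ^ 2, 2 * J, by nlinarith, ?_⟩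
  intro k d hk hd hnk hnm t m m' a b
  obtain ⟨z, hz, rfl⟩ := hform k hk hnk
  have h2 := h1 z hz hnm d hd t
  unfold D2
  set X : ℝ := (nm d : ℝ) * nm (n₀ * z ^ 3) with hX
  have hX0 : 0 < X := by
    have h3 : (0 : ℝ) < nm d := by exact_mod_cast nm_pos.mpr hd
    have h4 : (0 : ℝ) < nm (n₀ * z ^ 3) := by exact_mod_cast nm_pos.mpr hk
    positivity
  have hXX : X ^ (ε / 2) * X ^ (ε / 2) = X ^ ε := by
    rw [← Real.rpow_add hX0]; congr 1; ring
  refine (norm_sub_le _ _).trans ?_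
  rw [norm_mul, norm_mul]
  calc _ ≤ (C * X ^ (ε / 2) * (1 + |t|) ^ J) * (C * X ^ (ε / 2) * (1 + |t|) ^ J) +
        (C * X ^ (ε / 2) * (1 + |t|) ^ J) * (C * X ^ (ε / 2) * (1 + |t|) ^ J) := by
        gcongr
        · exact h2 m
        · exact h2 m'
        · exact h2 a
        · exact h2 b
    _ = 2 * C ^ 2 * (X ^ (ε / 2) * X ^ (ε / 2)) * (1 + |t|) ^ (2 * J) := by ring
    _ = _ := by rw [hXX]

/-! ### trivial bounds -/

/-- trivial bound of a piece -/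
lemma norm_PG_triv {g : Eis → ℂ} (hg : ∀ b, IsPrim b → ‖g b‖ ≤ 1) (κ : ℕ) :
    ‖HB645.PG g κ 0‖ ≤ 18 * Real.exp (κ + 1) := by
  unfold HB645.PG
  refine (norm_sum_le _ _).trans ?_
  have h1 : ∀ b ∈ primBall ⌊Real.exp (κ + 1)⌋₊,
      ‖g b * Weight600.pw 0 (nm b) * (HB645.hh (Real.log (nm b) - κ) : ℂ)‖ ≤ 1 := by
    intro b hb
    rw [norm_mul, norm_mul, norm_pw, mul_one, Complex.norm_real,
      Real.norm_of_nonneg (HB645.hh_nonneg _)]
    exact mul_le_one₀ (hg b (mem_primBall.mp hb).2) (HB645.hh_nonneg _) (HB645.hh_le_one _)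
  refine (Finset.sum_le_card_nsmul _ _ _ h1).trans ?_
  rw [nsmul_eq_mul, mul_one]
  calc ((primBall ⌊Real.exp ((κ : ℝ) + 1)⌋₊).card : ℝ)
      ≤ ((18 * ⌊Real.exp ((κ : ℝ) + 1)⌋₊ : ℕ) : ℝ) := by
        exact_mod_cast R012.PSer47.card_primBall_le' _
    _ = 18 * (⌊Real.exp ((κ : ℝ) + 1)⌋₊ : ℝ) := by push_cast; ring
    _ ≤ _ := by
        gcongr
        exact Nat.floor_le (Real.exp_pos _).le

lemma norm_chf_le {n : Eis} {ψ : Eis → ℂ} (hψ : HC n ψ) (l : ℤ) (t : ℝ) (d k : Eis) {b : Eis}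
    (hb : IsPrim b) : ‖chf ψ l t d k b‖ ≤ 1 := by
  have h1 := (isChar_twt hψ l t).norm_le hb
  have h2 := (isChar_prin0 d).norm_le hb
  have h3 := (Char766.isChar_sy k).norm_le hb
  simp only [chf]
  rw [norm_mul, norm_mul]
  exact mul_le_one₀ (mul_le_one₀ h1 (norm_nonneg _) h2) (norm_nonneg _) h3

lemma norm_cM_le (z : ℝ) (b : Eis) : ‖HB645.cM z b‖ ≤ 1 := by
  unfold HB645.cM
  rw [norm_mul, Complex.norm_real]
  refine mul_le_one₀ ?_ (norm_nonneg _) ?_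
  · rw [Complex.norm_intCast]
    have := abs_muE_le b
    exact_mod_cast this
  · rw [Real.norm_eq_abs, abs_le]
    have h1 := HB645.sg_nonneg (Real.log (nm b) - Real.log z)
    have h2 := HB645.sg_le_one (Real.log (nm b) - Real.log z)
    constructor <;> linarith

/-- trivial bound of the remaining pieces -/
lemma norm_GCr_le {n : Eis} {ψ : Eis → ℂ} (hψ : HC n ψ) (l : ℤ) (t : ℝ) (d k : Eis) (z : ℝ)
    {j : ℕ} (c : Fin (j - 1) ⊕ Fin j → ℕ) (S : Finset (Fin (j - 1))) :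
    ‖GCr (chf ψ l t d k) z c S‖ ≤ (18 * Real.exp 1) ^ (2 * j) *
      Real.exp (∑ i ∈ Finset.univ \ S, (c (Sum.inl i) : ℝ) + ∑ i, (c (Sum.inr i) : ℝ)) := by
  have h18 : (1 : ℝ) ≤ 18 * Real.exp 1 := by
    have := Real.add_one_le_exp (1 : ℝ)
    linarith
  unfold GCr
  rw [norm_mul, norm_prod, norm_prod]
  have h1 : ∏ i ∈ Finset.univ \ S, ‖HB645.PS (chf ψ l t d k) (c (Sum.inl i)) 0‖ ≤
      (18 * Real.exp 1) ^ j * Real.exp (∑ i ∈ Finset.univ \ S, (c (Sum.inl i) : ℝ)) := by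
    calc ∏ i ∈ Finset.univ \ S, ‖HB645.PS (chf ψ l t d k) (c (Sum.inl i)) 0‖
        ≤ ∏ i ∈ Finset.univ \ S, (18 * Real.exp 1) * Real.exp (c (Sum.inl i)) := by
          refine Finset.prod_le_prod (fun i _ => norm_nonneg _) fun i _ => ?_
          refine (norm_PG_triv (fun b hb => norm_chf_le hψ l t d k hb) _).trans (le_of_eq ?_)
          rw [Real.exp_add]; ring
      _ = (18 * Real.exp 1) ^ (Finset.univ \ S).card *
          Real.exp (∑ i ∈ Finset.univ \ S, (c (Sum.inl i) : ℝ)) := by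
          rw [Finset.prod_mul_distrib, Finset.prod_const, Real.exp_sum]
      _ ≤ _ := by
          gcongr
          refine (Finset.card_le_univ _).trans ?_
          rw [Fintype.card_fin]; omega
  have h2 : ∏ i, ‖HB645.PM (chf ψ l t d k) z (c (Sum.inr i)) 0‖ ≤
      (18 * Real.exp 1) ^ j * Real.exp (∑ i, (c (Sum.inr i) : ℝ)) := by
    calc ∏ i, ‖HB645.PM (chf ψ l t d k) z (c (Sum.inr i)) 0‖
        ≤ ∏ i, (18 * Real.exp 1) * Real.exp (c (Sum.inr i)) := by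
          refine Finset.prod_le_prod (fun i _ => norm_nonneg _) fun i _ => ?_
          refine (norm_PG_triv (g := fun b => HB645.cM z b * chf ψ l t d k b)
            (fun b hb => ?_) _).trans (le_of_eq ?_)
          · rw [norm_mul]
            exact mul_le_one₀ (norm_cM_le z b) (norm_nonneg _) (norm_chf_le hψ l t d k hb)
          · rw [Real.exp_add]; ring
      _ = (18 * Real.exp 1) ^ j * Real.exp (∑ i, (c (Sum.inr i) : ℝ)) := by
          rw [Finset.prod_mul_distrib, Finset.prod_const, Real.exp_sum, Finset.card_univ,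
            Fintype.card_fin]
  calc _ ≤ ((18 * Real.exp 1) ^ j * Real.exp (∑ i ∈ Finset.univ \ S, (c (Sum.inl i) : ℝ))) *
        ((18 * Real.exp 1) ^ j * Real.exp (∑ i, (c (Sum.inr i) : ℝ))) := by gcongr
    _ = _ := by rw [Real.exp_add]; ring

/-- trivial bound of the amplifier -/
lemma norm_Amp_triv {h : ℝ → ℂ} {B : ℝ} (hB1 : 1 ≤ B) (hB : ∀ u, ‖h u‖ ≤ B) {f : Eis → ℂ}
    (hf : ∀ b, IsPrim b → ‖f b‖ ≤ 1) {r : ℕ} {y Q₀ : ℝ} (hQ : 0 < Q₀)
    (J : Finset (Fin r)) :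
    ‖Amp h r y Q₀ J f‖ ≤ (18 * Real.exp (3 * r + 1) * B) ^ r * CJ r y Q₀ J := by
  classical
  have h1 : ∀ κ : ℝ, ‖AP h κ f‖ ≤ 18 * Real.exp (κ + 1) * B := by
    intro κ
    unfold AP
    refine (norm_sum_le _ _).trans ?_
    have h2 : ∀ p ∈ prS κ, ‖f p * h (Real.log (nm p) - κ)‖ ≤ B := by
      intro p hp
      unfold prS at hp
      rw [Finset.mem_filter, mem_primBall] at hp
      rw [norm_mul]
      calc _ ≤ 1 * B := mul_le_mul (hf p hp.1.2) (hB _) (norm_nonneg _) zero_le_one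
        _ = B := one_mul _
    refine (Finset.sum_le_card_nsmul _ _ _ h2).trans ?_
    rw [nsmul_eq_mul]
    refine mul_le_mul_of_nonneg_right ?_ (by linarith)
    have h3 : (prS κ).card ≤ 18 * ⌊Real.exp (κ + 1)⌋₊ := by
      unfold prS
      exact (Finset.card_filter_le _ _).trans (R012.PSer47.card_primBall_le' _)
    calc ((prS κ).card : ℝ) ≤ ((18 * ⌊Real.exp (κ + 1)⌋₊ : ℕ) : ℝ) := by exact_mod_cast h3
      _ = 18 * (⌊Real.exp (κ + 1)⌋₊ : ℝ) := by push_cast; ring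
      _ ≤ _ := by
          gcongr
          exact Nat.floor_le (Real.exp_pos _).le
  have hK1 : 1 ≤ 18 * Real.exp (3 * r + 1) * B := by
    have : 1 ≤ Real.exp (3 * (r : ℝ) + 1) := Real.one_le_exp (by positivity)
    nlinarith
  unfold Amp
  rw [norm_prod]
  calc ∏ i ∈ J, ‖AP h (B770.kap r y Q₀ i) f‖
      ≤ ∏ i ∈ J, (18 * Real.exp (3 * r + 1) * B) * Real.exp (y / r * Real.log Q₀) := by
        refine Finset.prod_le_prod (fun i _ => norm_nonneg _) fun i _ => ?_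
        refine (h1 _).trans ?_
        have e1 : B770.kap r y Q₀ i + 1 = (3 * (i : ℕ) + 1) + y / r * Real.log Q₀ := by
          unfold B770.kap; ring
        rw [e1, Real.exp_add (3 * ((i : ℕ) : ℝ) + 1)]
        have hi : ((i : ℕ) : ℝ) ≤ r := by exact_mod_cast i.2.le
        have h2 : Real.exp (3 * ((i : ℕ) : ℝ) + 1) ≤ Real.exp (3 * r + 1) :=
          Real.exp_le_exp.mpr (by linarith)
        calc 18 * (Real.exp (3 * ((i : ℕ) : ℝ) + 1) * Real.exp (y / r * Real.log Q₀)) * B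
            ≤ 18 * (Real.exp (3 * r + 1) * Real.exp (y / r * Real.log Q₀)) * B := by gcongr
          _ = _ := by ring
    _ = (18 * Real.exp (3 * r + 1) * B) ^ J.card * Real.exp (y / r * Real.log Q₀) ^ J.card := by
        rw [Finset.prod_const, mul_pow]
    _ = (18 * Real.exp (3 * r + 1) * B) ^ J.card * CJ r y Q₀ J := by
        congr 1
        unfold CJ
        rw [← Real.exp_nat_mul, Real.rpow_def_of_pos hQ]
        congr 1
        ring
    _ ≤ _ := by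
        have hCJ := BoxP271.CJ_pos (r := r) (y := y) hQ J
        gcongr
        refine (Finset.card_le_univ _).trans ?_
        rw [Fintype.card_fin]

/-- trivial bound of the whole amplifier -/
lemma norm_am_triv (P : DPar) (hP : P.OK) (r : ℕ) : ∃ C : ℝ, 1 ≤ C ∧
    ∀ (y Q₀ κ : ℝ), 0 < Q₀ → ∀ (J : Finset (Fin r)) (d₁ : Eis) (t₁ : ℝ) (k : Eis),
      ‖P.am r y Q₀ κ J d₁ t₁ k‖ ≤ C * (Real.exp κ * CJ r y Q₀ J) := by
  obtain ⟨B0, hB0⟩ := hP.h₀.cd.continuous.bounded_above_of_compact_support (BoxP271.HW.cpt hP.h₀)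
  obtain ⟨B1, hB1⟩ := hP.h.cd.continuous.bounded_above_of_compact_support (BoxP271.HW.cpt hP.h)
  set B := 1 + |B0| + |B1| with hB
  have hBp : 1 ≤ B := by
    have := abs_nonneg B0
    have := abs_nonneg B1
    linarith
  have hb0 : ∀ u, ‖P.h₀ u‖ ≤ B := fun u => (hB0 u).trans (by
    have := le_abs_self B0
    have := abs_nonneg B1
    linarith)
  have hb1 : ∀ u, ‖P.h u‖ ≤ B := fun u => (hB1 u).trans (by
    have := le_abs_self B1
    have := abs_nonneg B0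
    linarith)
  refine ⟨1 + 18 * Real.exp 1 * B * (18 * Real.exp (3 * r + 1) * B) ^ r, by
    have : 0 ≤ 18 * Real.exp 1 * B * (18 * Real.exp (3 * (r : ℝ) + 1) * B) ^ r := by positivity
    linarith, ?_⟩
  intro y Q₀ κ hQ J d₁ t₁ k
  have hf : ∀ b, IsPrim b → ‖twt P.φ P.l₁ t₁ b * prin0 d₁ b * conj (sy k b)‖ ≤ 1 := by
    intro b hb
    have h1 := (isChar_twt hP.φ P.l₁ t₁).norm_le hb
    have h2 := (isChar_prin0 d₁).norm_le hb
    have h3 := (Char766.isChar_sy k).norm_le hb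
    rw [norm_mul, norm_mul, RCLike.norm_conj]
    exact mul_le_one₀ (mul_le_one₀ h1 (norm_nonneg _) h2) (norm_nonneg _) h3
  have h1 := BoxP271.norm_AS_le hb0 hf κ
  have h2 := norm_Amp_triv hBp hb1 hf (r := r) (y := y) hQ J
  have hCJ := BoxP271.CJ_pos (r := r) (y := y) hQ J
  unfold DPar.am
  rw [norm_mul]
  calc _ ≤ (18 * Real.exp (κ + 1) * B) * ((18 * Real.exp (3 * r + 1) * B) ^ r * CJ r y Q₀ J) := by
        gcongr
    _ = (18 * Real.exp 1 * B * (18 * Real.exp (3 * r + 1) * B) ^ r) *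
        (Real.exp κ * CJ r y Q₀ J) := by rw [Real.exp_add]; ring
    _ ≤ _ := by
        gcongr
        linarith

end Crest.Agent.R017.ExPr791
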