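import Crest.Agent.R017.ExPr_791
import Crest.Agent.R017.ExBox2_960

/-!
# Row 17, D.box, exceptional class: completion to all `k` (3) (helper791)

* `evDD_of_true` : `EvDD` over all `k` gives `EvDD` over the `k` with `NP2`
-/

set_option autoImplicit false

noncomputable section

open MeasureTheory Complex Set Filter Topology
open scoped ComplexConjugate ContDiff

namespace Crest.Agent.R017.ExPr791

open Crest.Agent.R012 Crest.Agent.R012.Eis Crest.Agent.R012.Mob705 Crest.Agent.R012.Gauss880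
open Crest.Agent.R017.End699 Crest.Agent.R017.Sx440 Crest.Agent.R017.Sx545
open Crest.Agent.R017.Asm986 Crest.Agent.R017.HBS271
open Crest.Agent.R017.Sup271 Crest.Agent.R017.B770
open Crest.Agent.R017.ExBox960

/-- the fourth largest smooth piece of a near-equal box is long -/
lemma top5_long {A β g₀ S C₁ lH : ℝ} {x : Fin 5 → ℝ}
    (hx : ∀ a b, a ≤ b → x b ≤ x a) (hsum : ∑ i, x i ≤ S) (hS : S ≤ lH / g₀ + C₁)
    (hnear : A * lH ≤ ∑ i, w5 i * x i)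
    (hβ : β * lH ≤ ((3 * A - 1 / g₀) * lH - C₁) / 7) : β * lH ≤ x 3 := by
  have e1 : ∑ i, w5 i * x i = x 2 + x 3 + 2 * x 4 := by
    rw [Fin.sum_univ_five]
    simp [w5]
  have e2 : ∑ i, x i = x 0 + x 1 + x 2 + x 3 + x 4 := Fin.sum_univ_five _
  rw [e1] at hnear
  rw [e2] at hsum
  have h43 := hx 3 4 (by decide)
  have h21 := hx 1 2 (by decide)
  have h20 := hx 0 2 (by decide)
  have e3 : lH / g₀ = 1 / g₀ * lH := by ring
  rw [e3] at hS
  nlinarith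

/-- **completion to all `k`** for the double differences (exceptional class) -/
theorem evDD_of_true {θ y : ℝ} {Pk : DPar → Prop} {a₀ A β : ℝ} (hy : 0 ≤ y) (hy1 : y < 1)
    (ha₀ : 0 < a₀) (hβ : 0 ≤ β) (hβ2 : β < (3 * A - 1 / (a₀ * (1 / 2 + y))) / 7)
    (hpar : 1 + 2 / 3 * (1 / 2 + y) < (2 / 3 + 2 * β) * (a₀ * (1 / 2 + y)) + θ)
    (h : EvDD θ y Pk (fun _ _ => True) a₀ A β) : EvDD θ y Pk (fun P => P.NP2) a₀ A β := by
  unfold EvDD at h ⊢
  filter_upwards [h, Filter.eventually_gt_atTop 0] with r h2 hr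
  set gap : ℝ := (2 / 3 + 2 * β) * (a₀ * (1 / 2 + y)) + θ - 1 - 2 / 3 * (1 / 2 + y) with hgap
  have hgap0 : 0 < gap := by rw [hgap]; linarith
  have hδ1 : ∀ᶠ δ : ℝ in 𝓝[>] 0, δ < min (1 - y) (gap / 2) :=
    mem_nhdsWithin_of_mem_nhds (Iio_mem_nhds (by
      rw [lt_min_iff]; constructor <;> linarith))
  have hη1 : ∀ᶠ η : ℝ in 𝓝[>] 0, η < min (1 / 2) (gap / 2) :=
    mem_nhdsWithin_of_mem_nhds (Iio_mem_nhds (by
      rw [lt_min_iff]; constructor <;> linarith))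
  have hpos : ∀ᶠ δ : ℝ in 𝓝[>] 0, 0 < δ := self_mem_nhdsWithin
  filter_upwards [h2, hδ1, hpos] with δ h3 hδ hδ0
  filter_upwards [h3, hη1, hpos] with η h4 hη hη0
  filter_upwards [h4] with L h5
  rw [lt_min_iff] at hδ hη
  have hpar' : 1 + η + 2 / 3 * (1 / 2 + (y + δ)) ≤
      (2 / 3 + 2 * β) * (a₀ * (1 / 2 + y)) + θ := by
    have := hδ.2
    have := hη.2
    rw [hgap] at *
    linarith
  intro P hP hPk ε C₁ hε hC₁
  obtain ⟨C, A', X₀, hC, hA', h6⟩ := h5 P hP hPk ε C₁ hε hC₁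
  obtain ⟨C2, A2, hC2, hA2, h7⟩ := ex_princ (θ := θ) (r := r) (y := y) (δ := δ) (η := η) hr hy
    hδ0.le (by linarith [hδ.1]) hη.1.le hβ ha₀.le hpar' P hP L hε hC₁
  set g₀ : ℝ := a₀ * (1 / 2 + y) with hg₀
  have hg0 : 0 < g₀ := by positivity
  set D : ℝ := (3 * A - 1 / g₀) / 7 - β with hD
  have hD0 : 0 < D := by rw [hD]; linarith
  refine ⟨C + C2, max A' A2, max X₀ (C₁ / 7 / D), by linarith, le_max_of_le_left hA', ?_⟩
  intro Q₀ Q hQ hQQ κ hκ1 hκ2 J H hH hH2 d₁ d₂ d₃ e hd₁ hd₂ hd₃ he he5 hQe t₁ t₂ τ 𝒟 h𝒟 u hu z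
    hz hlz j hj hjL c hc hc2 hX hHa s hs
  have hX1 := (le_max_left _ _).trans hX
  have hX2 := (le_max_right _ _).trans hX
  rw [div_le_iff₀ hD0] at hX2
  have hQ₀0 : 0 < Q₀ := by linarith
  have hQ0 : 0 < Q := by linarith
  have h8 := h6 Q₀ Q hQ hQQ κ hκ1 hκ2 J H hH hH2 d₁ d₂ d₃ e hd₁ hd₂ hd₃ he he5 hQe t₁ t₂ τ 𝒟 h𝒟
    u hu z hz hlz j hj hjL c hc hc2 hX1 hHa s hs
  -- the scales
  have hHa' : g₀ * Real.log Q₀ ≤ Real.log H := by rw [hg₀]; linarith [hHa]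
  have hcs : ∑ i, (c (Sum.inl i) : ℝ) + ∑ i, (c (Sum.inr i) : ℝ) ≤ Real.log Q + C₁ := by
    have := (abs_le.mp hc).2
    linarith
  have hsum5 : ∑ i, (c (Sum.inl (s i)) : ℝ) ≤ Real.log H / g₀ + C₁ := by
    have i1 : ∑ i, (c (Sum.inl (s i)) : ℝ) ≤ ∑ i, (c (Sum.inl i) : ℝ) := by
      have i0 := Finset.sum_map Finset.univ ⟨s, hs.inj⟩ (fun i => (c (Sum.inl i) : ℝ))
      refine (le_of_eq i0.symm).trans ?_
      exact Finset.sum_le_sum_of_subset_of_nonneg (Finset.subset_univ _)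
        fun i _ _ => by positivity
    have i2 : 0 ≤ ∑ i, (c (Sum.inr i) : ℝ) := Finset.sum_nonneg fun i _ => by positivity
    have i3 : Real.log Q ≤ Real.log Q₀ := Real.log_le_log hQ0 hQQ
    have i4 : Real.log Q₀ ≤ Real.log H / g₀ := by
      rw [le_div_iff₀ hg0]; linarith
    linarith
  have hlong := top5_long (A := A) (β := β) (g₀ := g₀) (S := Real.log H / g₀ + C₁) (C₁ := C₁)
    (lH := Real.log H) (x := fun i => (c (Sum.inl (s i)) : ℝ))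
    (fun a b hab => by exact_mod_cast hs.anti a b hab) hsum5 le_rfl hs.near (by
      rw [hD] at hX2
      linarith)
  have hH0 : 0 ≤ Real.log H := by
    have : 0 ≤ Real.log Q₀ := Real.log_nonneg (by linarith)
    have : 0 ≤ g₀ * Real.log Q₀ := by positivity
    linarith
  have g3 : ⌊β * Real.log H⌋₊ ≤ c (Sum.inl (s 3)) := by
    have : (⌊β * Real.log H⌋₊ : ℝ) ≤ c (Sum.inl (s 3)) :=
      (Nat.floor_le (by positivity)).trans hlong
    exact_mod_cast this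
  have g2 := g3.trans (hs.anti 2 3 (by decide))
  have g1 := g3.trans (hs.anti 1 3 (by decide))
  have g0 := g3.trans (hs.anti 0 3 (by decide))
  have n01 : s 0 ≠ s 1 := fun h => by simpa using hs.inj h
  have n23 : s 2 ≠ s 3 := fun h => by simpa using hs.inj h
  have n02 : s 0 ≠ s 2 := fun h => by simpa using hs.inj h
  have n03 : s 0 ≠ s 3 := fun h => by simpa using hs.inj h
  have n12 : s 1 ≠ s 2 := fun h => by simpa using hs.inj h
  have n13 : s 1 ≠ s 3 := fun h => by simpa using hs.inj h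
  have h9 := h7 Q₀ Q hQ hQQ κ hκ2 J H hH hH2 d₁ d₂ d₃ e hd₁ hd₂ hd₃ he t₁ t₂ τ 𝒟 h𝒟 u
    (fun q => (hu q).1) z j hjL c hcs (by linarith [hHa]) (s 0) (s 1) (s 2) (s 3) n01 n23 n02 n03
    n12 n13 (c (.inl (s 2)) + c (.inl (s 3)) - ⌊β * Real.log H⌋₊)
    (c (.inl (s 0)) + c (.inl (s 1)) - ⌊β * Real.log H⌋₊) (by omega) (by omega) g0 g1 g2 g3
  refine (Finset.sum_le_sum fun q _ => bxDD_compl hP r y Q₀ (κ - u q) J hH d₁ d₂ d₃ e t₁ t₂ τ z c
    (s 0) (s 1) (s 2) (s 3) _ _ _ _ q).trans ?_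
  rw [Finset.sum_add_distrib]
  refine (add_le_add h8 h9).trans ?_
  have hm1 : (1 : ℝ) ≤ nm d₁ := by exact_mod_cast nm_pos.mpr hd₁
  have hm2 : (1 : ℝ) ≤ nm d₂ := by exact_mod_cast nm_pos.mpr hd₂
  have hm3 : (1 : ℝ) ≤ nm d₃ := by exact_mod_cast nm_pos.mpr hd₃
  have hm4 : (1 : ℝ) ≤ nm e := by exact_mod_cast nm_pos.mpr he.1.ne_zero
  have hT1 : 1 ≤ 1 + |t₁| + |t₂| + |τ| := by
    linarith [abs_nonneg t₁, abs_nonneg t₂, abs_nonneg τ]
  have hCJ := BoxP271.CJ_pos (r := r) (y := y) hQ₀0 J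
  have hTg0 : 0 ≤ TgB θ η (if δ / 2 * Real.log Q₀ ≤ κ then η else -η) (y + δ) Q₀ Q H
    (CJ r y Q₀ J * Real.exp κ) := Box271.TgB_nonneg' hQ₀0.le hQ0.le hH.le (by positivity)
  have hp1 : (1 + |t₁| + |t₂| + |τ|) ^ A' ≤ (1 + |t₁| + |t₂| + |τ|) ^ max A' A2 :=
    Real.rpow_le_rpow_of_exponent_le hT1 (le_max_left _ _)
  have hp2 : (1 + |t₁| + |t₂| + |τ|) ^ A2 ≤ (1 + |t₁| + |t₂| + |τ|) ^ max A' A2 :=
    Real.rpow_le_rpow_of_exponent_le hT1 (le_max_right _ _)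
  rw [add_mul, add_mul, add_mul]
  gcongr

end Crest.Agent.R017.ExPr791
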