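import Crest.Agent.R017.ExRed2_848
import Crest.Agent.R017.XEx_298

/-!
# Row 17, exceptional class: reduction to principal Möbius character (helper848), part 3

* `NPm_iff`, `NPk_iff`, `NP2_iff` : the sets of frequencies correspond exactly
* `NPm_iff_ncube` : the Möbius character of `P` at `k` is principal iff `k k₀²` is a cube
* `RN_BG`, `RN_BG'` : the character sides `RQ NCube + idt` of `red P` and
  `RQ (NCube (· k₀²)) + idt` of `P` have the same exponents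
-/

set_option autoImplicit false

noncomputable section

open Complex
open scoped ComplexConjugate

namespace Crest.Agent.R017.Red848

open Crest.Agent.R012 Crest.Agent.R012.Eis Crest.Agent.R012.LS2 Crest.Agent.R012.Gauss880
open Crest.Agent.R017.CM106 Crest.Agent.R017.FE47 Crest.Agent.R017.End699
open Crest.Agent.R017.Sup271
open Crest.Agent.R017.XG702 (Pcs BG)
open Crest.Agent.R017.ER911
open Crest.Agent.R017.B770
open Crest.Agent.R017.Prov71
open Crest.Agent.R017.XHB411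
open Crest.Agent.R017.XEx298
open Crest.Agent.R017.HP842 (UT Pc pc)

variable {P : DPar} {k₀ : Eis}

/-- more frequencies -/
lemma NP_shift {n k : Eis} {χ χ' : Eis → ℂ} {l : ℤ} (j : ℕ)
    (hc : ∀ a, IsPrim a → IsCoprime a (n * (9 * (k * k₀ ^ j))) → IsCoprime a (n * (9 * k)))
    (he : ∀ a, IsPrim a → IsCoprime a n → χ' a = χ a)
    (h : NP (n * (9 * (k * k₀ ^ j))) χ' l) : NP (n * (9 * k)) χ l := by
  rcases h with h | ⟨a, ha, h1, hne⟩
  · exact Or.inl h
  · refine Or.inr ⟨a, ha, hc a ha h1, ?_⟩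
    rw [← he a ha h1.of_mul_right_left]
    exact hne

lemma cop_of_shift {n k a : Eis} {j : ℕ} (h : IsCoprime a (n * (9 * (k * k₀ ^ j)))) :
    IsCoprime a (n * (9 * k)) := by
  refine h.of_isCoprime_of_dvd_right ?_
  exact mul_dvd_mul_left n (mul_dvd_mul_left 9 (dvd_mul_right k _))

lemma Sh.conj_eq (hs : Sh P k₀) {a : Eis} (ha : IsPrim a) (h1 : IsCoprime a P.n) :
    conj (sy k₀ a) = sy k₀ a ^ 2 := by
  linear_combination (sy k₀ a ^ 2) * hs.norm ha h1 - conj (sy k₀ a) * hs.cube ha h1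

theorem NPm_iff (hs : Sh P k₀) {k : Eis} :
    NPm P.n P.ψ P.l₂ k ↔ NPm (red P).n (red P).ψ (red P).l₂ (k * k₀ ^ 2) := by
  refine ⟨NPm_red' hs, fun h => ?_⟩
  rw [hs.l₂]
  refine NP_shift (k₀ := k₀) 2 (fun a _ h1 => cop_of_shift h1) (fun a ha h1 => ?_) h
  show prin0 P.n a * sy (k * k₀ ^ 2) a = P.ψ a * sy k a
  unfold End699.prin0
  rw [if_pos h1, one_mul, Char766.sy_mul_left ha, Char766.sy_pow_left ha, hs.ψ a ha h1,
    hs.conj_eq ha h1]
  ring

theorem NPk_iff (hs : Sh P k₀) {k : Eis} :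
    NPk P.n P.φ P.l₁ k ↔ NPk (red P).n (red P).φ (red P).l₁ (k * k₀ ^ 2) := by
  refine ⟨NPk_red' hs, fun h => ?_⟩
  refine NP_shift (k₀ := k₀) 2 (fun a _ h1 => cop_of_shift h1) (fun a ha h1 => ?_) h
  show P.φ a * P.ψ a * conj (sy (k * k₀ ^ 2) a) = P.φ a * conj (sy k a)
  rw [hs.ψ a ha h1, Char766.sy_mul_left ha, Char766.sy_pow_left ha]
  simp only [map_mul, map_pow]
  have h4 := congrArg conj (hs.cube ha h1)
  rw [map_pow, map_one] at h4
  linear_combination P.φ a * conj (sy k a) * h4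

theorem NP2_iff (hs : Sh P k₀) {k : Eis} : P.NP2 k ↔ (red P).NP2 (k * k₀ ^ 2) :=
  and_congr (NPk_iff hs) (NPm_iff hs)

/-- **the exceptional frequencies of `P`** -/
theorem NPm_iff_ncube (hs : Sh P k₀) (hn : P.n ≠ 0) {k : Eis} (hk : k ≠ 0) :
    NPm P.n P.ψ P.l₂ k ↔ T411.NCube (k * k₀ ^ 2) := by
  rw [NPm_iff hs]
  exact NPm_red_iff hn (mul_ne_zero hk (pow_ne_zero 2 hs.k0))

/-! ### the character sides -/

lemma idt_shift {Z : ℝ → List Pq → Prop} (hZ : ∀ l l' ps, l ≤ l' → Z l ps → Z l' ps) {c : ℝ}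
    (hc : 0 ≤ c) (l : ℝ) (ps : List Pq) : idt Z l ps ≤ idt Z (l + c) ps := by
  unfold XHB411.idt
  split_ifs with h1 h2
  · exact Real.exp_le_exp.2 (by linarith)
  · exact absurd ⟨by linarith [h1.1], hZ _ _ _ (by linarith) h1.2⟩ h2
  · exact (Real.exp_pos _).le
  · exact le_rfl

lemma log_nm_nonneg {k : Eis} (hk : k ≠ 0) : 0 ≤ Real.log (nm k) :=
  Real.log_nonneg (by exact_mod_cast nm_pos.2 hk)

variable {Lam : Type*} {π : Lam → DPar} {h : ℝ → ℝ}

/-- **`P` from `red P`** -/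
theorem RN_BG (hP : ∀ lam, (π lam).OK) {kk : Lam → Eis} (hs : ∀ lam, Sh (π lam) (kk lam))
    {Z : ℝ → List Pq → Prop} (hZ : ∀ l l' ps, l ≤ l' → Z l ps → Z l' ps) {κ : ℝ}
    {u : List ℝ} {w : Kd → ℝ} {e : ℝ}
    (H : BG Dq (fun lam l ps => RQ T411.NCube h l (ps.map (Pq.pc (red (π lam)))) + idt Z l ps)
      κ u w e) :
    BG Dq (fun lam l ps => RQ (fun k => T411.NCube (k * kk lam ^ 2)) h l
      (ps.map (Pq.pc (π lam))) + idt Z l ps) κ u w e := by
  refine BG_shift (fun lam => Real.log (nm (kk lam ^ 2))) (fun lam l ps => ?_) H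
  exact add_le_add (RQ_red' (hs lam) (hP lam).φ (hP lam).ψ (fun _ _ hk => hk) h l ps)
    (idt_shift hZ (log_nm_nonneg (pow_ne_zero 2 (hs lam).k0)) l ps)

/-- **`red P` from `P`** -/
theorem RN_BG' (hP : ∀ lam, (π lam).OK) {kk : Lam → Eis} (hs : ∀ lam, Sh (π lam) (kk lam))
    {Z : ℝ → List Pq → Prop} (hZ : ∀ l l' ps, l ≤ l' → Z l ps → Z l' ps) {κ : ℝ}
    {u : List ℝ} {w : Kd → ℝ} {e : ℝ}
    (H : BG Dq (fun lam l ps => RQ (fun k => T411.NCube (k * kk lam ^ 2)) h l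
      (ps.map (Pq.pc (π lam))) + idt Z l ps) κ u w e) :
    BG Dq (fun lam l ps => RQ T411.NCube h l (ps.map (Pq.pc (red (π lam)))) + idt Z l ps)
      κ u w e := by
  refine BG_shift (fun lam => Real.log (nm (kk lam))) (fun lam l ps => ?_) H
  refine add_le_add (RQ_red (hs lam) (hP lam).φ (hP lam).ψ (fun k hk0 hk => ?_) h l ps)
    (idt_shift hZ (log_nm_nonneg (hs lam).k0) l ps)
  refine ⟨mul_ne_zero (mul_ne_zero hk0 (hs lam).k0) (pow_ne_zero 2 (hs lam).k0), ?_⟩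
  intro m hm
  have hk1 : k * kk lam * kk lam ^ 2 = k * (kk lam) ^ 3 := by ring
  rw [hk1] at hm
  have hd : kk lam ∣ m := by
    have h1 : kk lam ^ 3 ∣ m ^ 3 := ⟨k, by rw [← hm]; ring⟩
    exact (IsIntegrallyClosed.pow_dvd_pow_iff (by norm_num)).1 h1
  obtain ⟨t, rfl⟩ := hd
  refine hk.2 t ?_
  have h2 : kk lam ^ 3 ≠ 0 := pow_ne_zero 3 (hs lam).k0
  refine mul_right_cancel₀ h2 ?_
  rw [hm]; ring

end Crest.Agent.R017.Red848
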