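import Crest.Agent.R017.PsiEx_545
import Crest.Agent.R017.ProvI_71
import Crest.Agent.R017.BoxDefs_271

/-!
# Row 17, exceptional class: reduction to principal Möbius character (helper848), part 1

* `Exc P` : exceptional data; `red P` : the reduced data (`ψ` principal, `φ ψ` in the amplifier)
* `chK_red` : `chK (red P) = chK P · (k₀/·)` on primary elements
* `CS_red`, `CS_red'` : the frequency shifts `k ↦ k k₀` and `k ↦ k k₀²`
* `NP2_red`, `NP2_red'`, `NPm_red`, `NPm_red'`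
* `RQ_red`, `RQ_red'`, `BQ_red`, `BQ_red'`
-/

set_option autoImplicit false

noncomputable section

open Complex
open scoped ComplexConjugate

namespace Crest.Agent.R017.Red848

open Crest.Agent.R012 Crest.Agent.R012.Eis Crest.Agent.R012.LS2 Crest.Agent.R012.Gauss880
open Crest.Agent.R012.PSer47 (IsChar ang_isChar)
open Crest.Agent.R012.Mob705 Crest.Agent.R012.Div277 Crest.Agent.R012.Char766
open Crest.Agent.R017.CM106 Crest.Agent.R017.FE47 Crest.Agent.R017.End699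
open Crest.Agent.R017.Sup271
open Crest.Agent.R017.B770
open Crest.Agent.R017.Prov71
open Crest.Agent.R017.HP842 (UT Pc pc)

/-- exceptional data : some `ψ χ_k` is principal -/
def Exc (P : DPar) : Prop := ∃ k : Eis, k ≠ 0 ∧ ¬ NPm P.n P.ψ P.l₂ k

/-- **the reduced data** -/
def red (P : DPar) : DPar := { P with ψ := prin0 P.n, φ := fun b => P.φ b * P.ψ b, l₂ := 0 }

@[simp] lemma red_n (P : DPar) : (red P).n = P.n := rfl
@[simp] lemma red_ψ (P : DPar) : (red P).ψ = prin0 P.n := rfl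
@[simp] lemma red_φ (P : DPar) : (red P).φ = fun b => P.φ b * P.ψ b := rfl
@[simp] lemma red_l₁ (P : DPar) : (red P).l₁ = P.l₁ := rfl
@[simp] lemma red_l₂ (P : DPar) : (red P).l₂ = 0 := rfl
@[simp] lemma red_l₃ (P : DPar) : (red P).l₃ = P.l₃ := rfl

/-- **shift data** : `ψ = conj (k₀/·)` on everything prime to `n` -/
structure Sh (P : DPar) (k₀ : Eis) : Prop where
  k0 : k₀ ≠ 0
  pr : ∀ p, Mob705.IsPP p → p ∣ k₀ → p ∣ P.n
  ψ : ∀ b, IsPrim b → IsCoprime b P.n → P.ψ b = conj (sy k₀ b)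
  l₂ : P.l₂ = 0

theorem exists_sh {P : DPar} (hψ : HC P.n P.ψ) (hE : Exc P) : ∃ k₀, Sh P k₀ := by
  obtain ⟨k, hk, hn⟩ := hE
  obtain ⟨h1, k₀, h2, h3, h4⟩ := PsiEx545.psi_form hψ hk hn
  exact ⟨k₀, h2, h3, h4, h1⟩

lemma hc_mul {n : Eis} {φ ψ : Eis → ℂ} (hφ : HC n φ) (hψ : HC n ψ) :
    HC n (fun b => φ b * ψ b) where
  q0 := hφ.q0
  three := hφ.three
  char := hφ.char.mul' hψ.char
  per a b ha hb h := by rw [hφ.per a b ha hb h, hψ.per a b ha hb h]
  van a ha h := by rw [hφ.van a ha h, zero_mul]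

variable {P : DPar} {k₀ : Eis}

lemma Sh.cop (hs : Sh P k₀) {b : Eis} (hb : IsPrim b) (hbn : IsCoprime b P.n) :
    IsCoprime b k₀ := by
  rw [isCoprime_iff_pp hb]
  intro p hpp hpb hpk
  exact hpp.prime.not_isUnit (hbn.isUnit_of_dvd' hpb (hs.pr p hpp hpk))

lemma Sh.norm (hs : Sh P k₀) {b : Eis} (hb : IsPrim b) (hbn : IsCoprime b P.n) :
    sy k₀ b * conj (sy k₀ b) = 1 := by
  rw [Complex.mul_conj, Complex.normSq_eq_norm_sq,
    Char766.norm_sy hb (hs.cop hb hbn).symm]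
  norm_num

lemma Sh.cube (hs : Sh P k₀) {b : Eis} (hb : IsPrim b) (hbn : IsCoprime b P.n) :
    sy k₀ b ^ 3 = 1 := Char766.sy_cube hb (hs.cop hb hbn).symm

lemma chK_zero (hφ : HC P.n P.φ) (hψ : HC P.n P.ψ) (t : Kd) {b : Eis} (hb : IsPrim b)
    (hbn : ¬ IsCoprime b P.n) : chK P t b = 0 := by
  cases t with
  | mo => show P.ψ b * ang P.l₂ b = 0; rw [hψ.van b hb hbn, zero_mul]
  | am => show conj (P.φ b * ang P.l₁ b) = 0; rw [hφ.van b hb hbn, zero_mul, map_zero]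

/-- **the characters of the reduced data** -/
theorem chK_red (hs : Sh P k₀) (hφ : HC P.n P.φ) (hψ : HC P.n P.ψ) (t : Kd) {b : Eis}
    (hb : IsPrim b) : chK (red P) t b = chK P t b * sy k₀ b := by
  by_cases hbn : IsCoprime b P.n
  · have h1 := hs.norm hb hbn
    cases t with
    | mo =>
      show prin0 P.n b * ang 0 b = P.ψ b * ang P.l₂ b * sy k₀ b
      rw [hs.ψ b hb hbn, hs.l₂]
      unfold End699.prin0
      rw [if_pos hbn]
      linear_combination (-ang 0 b) * h1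
    | am =>
      show conj (P.φ b * P.ψ b * ang P.l₁ b) = conj (P.φ b * ang P.l₁ b) * sy k₀ b
      rw [hs.ψ b hb hbn]
      simp only [map_mul, Complex.conj_conj]
      ring
  · rw [chK_zero hφ hψ t hb hbn, zero_mul]
    cases t with
    | mo =>
      show prin0 P.n b * ang 0 b = 0
      unfold End699.prin0
      rw [if_neg hbn, zero_mul]
    | am =>
      show conj (P.φ b * P.ψ b * ang P.l₁ b) = 0
      rw [hφ.van b hb hbn, zero_mul, zero_mul, map_zero]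

lemma isChar_red (hφ : HC P.n P.φ) (hψ : HC P.n P.ψ) (t : Kd) : IsChar (chK (red P) t) := by
  cases t with
  | mo => exact (hc_prin0 hψ.q0 hψ.three).char.mul' (ang_isChar 0)
  | am => exact ((hφ.char.mul' hψ.char).mul' (ang_isChar P.l₁)).conj

/-! ### pieces -/

lemma pc_red (hs : Sh P k₀) (hφ : HC P.n P.φ) (hψ : HC P.n P.ψ) (h : ℝ → ℝ) (p : Pq) (b : Eis) :
    pc h (p.pc (red P)) b = pc h (p.pc P) b * sy k₀ b := by
  classical
  unfold HP842.pc
  by_cases hb : IsPrim b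
  · rw [if_pos hb, if_pos hb]
    simp only [Pq.pc_u, Pq.pc_Y, Pq.pc_t, Pq.pc_ψ]
    rw [chK_red hs hφ hψ p.kd hb]
    ring
  · rw [if_neg hb, if_neg hb, zero_mul]

lemma pc_zero (hφ : HC P.n P.φ) (hψ : HC P.n P.ψ) (h : ℝ → ℝ) (p : Pq) {b : Eis}
    (hb : ¬ (IsPrim b ∧ IsCoprime b P.n)) : pc h (p.pc P) b = 0 := by
  classical
  unfold HP842.pc
  by_cases hp : IsPrim b
  · rw [if_pos hp]
    have h1 : ¬ IsCoprime b P.n := fun h => hb ⟨hp, h⟩
    simp only [Pq.pc_ψ]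
    rw [chK_zero hφ hψ p.kd hp h1]
    ring
  · rw [if_neg hp]

/-- **the frequency shift `k ↦ k k₀`** -/
theorem CS_red (hs : Sh P k₀) (hφ : HC P.n P.φ) (hψ : HC P.n P.ψ) (h : ℝ → ℝ) (p : Pq) (k : Eis) :
    CS (pc h (p.pc (red P))) k = CS (pc h (p.pc P)) (k * k₀) := by
  unfold CM106.CS
  refine tsum_congr fun b => ?_
  rw [pc_red hs hφ hψ]
  by_cases hb : IsPrim b ∧ IsCoprime b P.n
  · rw [Char766.sy_mul_left hb.1]
    ring
  · rw [pc_zero hφ hψ h p hb, zero_mul, zero_mul, zero_mul]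

/-- **the frequency shift `k ↦ k k₀²`** -/
theorem CS_red' (hs : Sh P k₀) (hφ : HC P.n P.φ) (hψ : HC P.n P.ψ) (h : ℝ → ℝ) (p : Pq) (k : Eis) :
    CS (pc h (p.pc P)) k = CS (pc h (p.pc (red P))) (k * k₀ ^ 2) := by
  unfold CM106.CS
  refine tsum_congr fun b => ?_
  rw [pc_red hs hφ hψ]
  by_cases hb : IsPrim b ∧ IsCoprime b P.n
  · rw [Char766.sy_mul_left hb.1, Char766.sy_pow_left hb.1]
    linear_combination (-(pc h (p.pc P) b * sy k b)) * hs.cube hb.1 hb.2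
  · rw [pc_zero hφ hψ h p hb, zero_mul, zero_mul, zero_mul]

/-! ### nonprincipal characters -/

lemma Sh.cop_mod (hs : Sh P k₀) {a k : Eis} (ha : IsPrim a)
    (h : IsCoprime a (P.n * (9 * k))) (j : ℕ) : IsCoprime a (P.n * (9 * (k * k₀ ^ j))) := by
  have h1 := h.of_mul_right_left
  have h2 := h.of_mul_right_right
  exact h1.mul_right (h2.of_mul_right_left.mul_right
    (h2.of_mul_right_right.mul_right (hs.cop ha h1).pow_right))

theorem NPm_red' (hs : Sh P k₀) {k : Eis} (h : NPm P.n P.ψ P.l₂ k) :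
    NPm (red P).n (red P).ψ (red P).l₂ (k * k₀ ^ 2) := by
  rcases h with h | ⟨a, ha, hc, hne⟩
  · exact absurd hs.l₂ h
  · refine Or.inr ⟨a, ha, hs.cop_mod ha hc 2, ?_⟩
    have h1 := hc.of_mul_right_left
    show prin0 P.n a * sy (k * k₀ ^ 2) a ≠ 1
    intro h2
    apply hne
    unfold End699.prin0 at h2
    rw [if_pos h1, one_mul, Char766.sy_mul_left ha, Char766.sy_pow_left ha] at h2
    show P.ψ a * sy k a = 1
    rw [hs.ψ a ha h1]
    have h3 := hs.norm ha h1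
    have h4 := hs.cube ha h1
    have h5 : conj (sy k₀ a) = sy k₀ a ^ 2 := by
      linear_combination (sy k₀ a ^ 2) * h3 - conj (sy k₀ a) * h4
    rw [h5, mul_comm]
    exact h2

theorem NPm_red (hs : Sh P k₀) {k : Eis} (h : NPm (red P).n (red P).ψ (red P).l₂ k) :
    NPm P.n P.ψ P.l₂ (k * k₀) := by
  rcases h with h | ⟨a, ha, hc, hne⟩
  · exact absurd rfl h
  · refine Or.inr ⟨a, ha, ?_, ?_⟩
    · have := hs.cop_mod ha hc 1
      rwa [pow_one] at this
    have h1 : IsCoprime a P.n := hc.of_mul_right_left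
    show P.ψ a * sy (k * k₀) a ≠ 1
    intro h2
    apply hne
    rw [hs.ψ a ha h1, Char766.sy_mul_left ha] at h2
    show prin0 P.n a * sy k a = 1
    unfold End699.prin0
    rw [if_pos h1, one_mul]
    linear_combination h2 - sy k a * hs.norm ha h1

theorem NPk_red' (hs : Sh P k₀) {k : Eis} (h : NPk P.n P.φ P.l₁ k) :
    NPk (red P).n (red P).φ (red P).l₁ (k * k₀ ^ 2) := by
  rcases h with h | ⟨a, ha, hc, hne⟩
  · exact Or.inl h
  · refine Or.inr ⟨a, ha, hs.cop_mod ha hc 2, ?_⟩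
    have h1 := hc.of_mul_right_left
    show P.φ a * P.ψ a * conj (sy (k * k₀ ^ 2) a) ≠ 1
    intro h2
    apply hne
    rw [hs.ψ a ha h1, Char766.sy_mul_left ha, Char766.sy_pow_left ha] at h2
    simp only [map_mul, map_pow] at h2
    show P.φ a * conj (sy k a) = 1
    have h4 := congrArg conj (hs.cube ha h1)
    rw [map_pow, map_one] at h4
    linear_combination h2 - P.φ a * conj (sy k a) * h4

theorem NPk_red (hs : Sh P k₀) {k : Eis} (h : NPk (red P).n (red P).φ (red P).l₁ k) :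
    NPk P.n P.φ P.l₁ (k * k₀) := by
  rcases h with h | ⟨a, ha, hc, hne⟩
  · exact Or.inl h
  · refine Or.inr ⟨a, ha, ?_, ?_⟩
    · have := hs.cop_mod ha hc 1
      rwa [pow_one] at this
    have h1 : IsCoprime a P.n := hc.of_mul_right_left
    show P.φ a * conj (sy (k * k₀) a) ≠ 1
    intro h2
    apply hne
    show P.φ a * P.ψ a * conj (sy k a) = 1
    rw [Char766.sy_mul_left ha, map_mul] at h2
    rw [hs.ψ a ha h1]
    linear_combination h2

theorem NP2_red' (hs : Sh P k₀) {k : Eis} (h : P.NP2 k) : (red P).NP2 (k * k₀ ^ 2) :=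
  ⟨NPk_red' hs h.1, NPm_red' hs h.2⟩

theorem NP2_red (hs : Sh P k₀) {k : Eis} (h : (red P).NP2 k) : P.NP2 (k * k₀) :=
  ⟨NPk_red hs h.1, NPm_red hs h.2⟩

/-! ### sums over `k` -/

lemma inj_mul {c : Eis} (hc : c ≠ 0) : Function.Injective fun k : Eis => k * c :=
  fun _ _ h => mul_right_cancel₀ hc h

lemma sum_shift {Q Q' : Eis → Prop} {c : Eis} (hc : c ≠ 0) (hQ : ∀ k, k ≠ 0 → Q k → Q' (k * c))
    {f g : Eis → ℝ} (hg : ∀ k, 0 ≤ g k) (hfg : ∀ k, f k = g (k * c)) (l : ℝ) [DecidablePred Q]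
    [DecidablePred Q'] :
    ∑ k ∈ (bl (Real.exp l)).filter Q, f k ≤
      ∑ k ∈ (bl (Real.exp (l + Real.log (nm c)))).filter Q', g k := by
  classical
  have hc1 : (0 : ℝ) < nm c := by exact_mod_cast nm_pos.2 hc
  calc ∑ k ∈ (bl (Real.exp l)).filter Q, f k
      = ∑ k ∈ ((bl (Real.exp l)).filter Q).image (fun k => k * c), g k := by
        rw [Finset.sum_image fun a _ b _ h => inj_mul hc h]
        exact Finset.sum_congr rfl fun k _ => hfg k
    _ ≤ _ := by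
        refine Finset.sum_le_sum_of_subset_of_nonneg ?_ fun k _ _ => hg k
        intro x hx
        obtain ⟨k, hk, rfl⟩ := Finset.mem_image.1 hx
        rw [Finset.mem_filter, mem_bl (Real.exp_pos _).le] at hk
        rw [Finset.mem_filter, mem_bl (Real.exp_pos _).le]
        refine ⟨⟨mul_ne_zero hk.1.1 hc, ?_⟩, hQ k hk.1.1 hk.2⟩
        rw [nm_mul, Nat.cast_mul, Real.exp_add, Real.exp_log hc1]
        exact mul_le_mul_of_nonneg_right hk.1.2 hc1.le

lemma prod_nn {h : ℝ → ℝ} (j : ℕ) (ps : List Pc) (k : Eis) :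
    0 ≤ (ps.map fun p => ‖CS (pc h p) k‖ ^ j).prod := by
  refine List.prod_nonneg ?_
  intro a ha
  obtain ⟨p, _, rfl⟩ := List.mem_map.1 ha
  positivity

/-- **character side, `P` from `red P`** -/
theorem RQ_red' (hs : Sh P k₀) (hφ : HC P.n P.φ) (hψ : HC P.n P.ψ) {Q Q' : Eis → Prop}
    (hQ : ∀ k, k ≠ 0 → Q k → Q' (k * k₀ ^ 2)) (h : ℝ → ℝ) (l : ℝ) (ps : List Pq) :
    RQ Q h l (ps.map (Pq.pc P)) ≤
      RQ Q' h (l + Real.log (nm (k₀ ^ 2))) (ps.map (Pq.pc (red P))) := by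
  classical
  unfold RQ
  refine sum_shift (pow_ne_zero 2 hs.k0) hQ (fun k => prod_nn 2 _ k) (fun k => ?_) l
  rw [List.map_map, List.map_map]
  congr 1
  refine List.map_congr_left fun p _ => ?_
  show ‖CS (pc h (p.pc P)) k‖ ^ 2 = ‖CS (pc h (p.pc (red P))) (k * k₀ ^ 2)‖ ^ 2
  rw [CS_red' hs hφ hψ]

/-- **character side, `red P` from `P`** -/
theorem RQ_red (hs : Sh P k₀) (hφ : HC P.n P.φ) (hψ : HC P.n P.ψ) {Q Q' : Eis → Prop}
    (hQ : ∀ k, k ≠ 0 → Q k → Q' (k * k₀)) (h : ℝ → ℝ) (l : ℝ) (ps : List Pq) :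
    RQ Q h l (ps.map (Pq.pc (red P))) ≤
      RQ Q' h (l + Real.log (nm k₀)) (ps.map (Pq.pc P)) := by
  classical
  unfold RQ
  refine sum_shift hs.k0 hQ (fun k => prod_nn 2 _ k) (fun k => ?_) l
  rw [List.map_map, List.map_map]
  congr 1
  refine List.map_congr_left fun p _ => ?_
  show ‖CS (pc h (p.pc (red P))) k‖ ^ 2 = ‖CS (pc h (p.pc P)) (k * k₀)‖ ^ 2
  rw [CS_red hs hφ hψ]

/-- **box functional, `P` from `red P`** -/
theorem BQ_red' (hs : Sh P k₀) (hφ : HC P.n P.φ) (hψ : HC P.n P.ψ) {Q Q' : Eis → Prop}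
    (hQ : ∀ k, k ≠ 0 → Q k → Q' (k * k₀ ^ 2)) (h : ℝ → ℝ) (l : ℝ) (ps : List Pq) :
    BQ Q h l (ps.map (Pq.pc P)) ≤
      BQ Q' h (l + Real.log (nm (k₀ ^ 2))) (ps.map (Pq.pc (red P))) := by
  classical
  unfold BQ
  refine sum_shift (pow_ne_zero 2 hs.k0) hQ (fun k => ?_) (fun k => ?_) l
  · refine List.prod_nonneg fun a ha => ?_
    obtain ⟨p, _, rfl⟩ := List.mem_map.1 ha
    positivity
  rw [List.map_map, List.map_map]
  congr 1
  refine List.map_congr_left fun p _ => ?_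
  show ‖CS (pc h (p.pc P)) k‖ = ‖CS (pc h (p.pc (red P))) (k * k₀ ^ 2)‖
  rw [CS_red' hs hφ hψ]

/-- **box functional, `red P` from `P`** -/
theorem BQ_red (hs : Sh P k₀) (hφ : HC P.n P.φ) (hψ : HC P.n P.ψ) {Q Q' : Eis → Prop}
    (hQ : ∀ k, k ≠ 0 → Q k → Q' (k * k₀)) (h : ℝ → ℝ) (l : ℝ) (ps : List Pq) :
    BQ Q h l (ps.map (Pq.pc (red P))) ≤
      BQ Q' h (l + Real.log (nm k₀)) (ps.map (Pq.pc P)) := by
  classical
  unfold BQ
  refine sum_shift hs.k0 hQ (fun k => ?_) (fun k => ?_) l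
  · refine List.prod_nonneg fun a ha => ?_
    obtain ⟨p, _, rfl⟩ := List.mem_map.1 ha
    positivity
  rw [List.map_map, List.map_map]
  congr 1
  refine List.map_congr_left fun p _ => ?_
  show ‖CS (pc h (p.pc (red P))) k‖ = ‖CS (pc h (p.pc P)) (k * k₀)‖
  rw [CS_red hs hφ hψ]

theorem Rc_red (hs : Sh P k₀) (hφ : HC P.n P.φ) (hψ : HC P.n P.ψ) (h : ℝ → ℝ) (l : ℝ)
    (ps : List Pq) : Rc P h l ps ≤ Rc (red P) h (l + Real.log (nm (k₀ ^ 2))) ps :=
  RQ_red' hs hφ hψ (fun _ _ hk => NP2_red' hs hk) h l ps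

end Crest.Agent.R017.Red848
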