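import Crest.Agent.R017.ExP1_960
import Crest.Agent.R017.E5L_770

/-!
# Row 17, exceptional class: the structured function of the double difference (helper960)

* `oc`, `rz` : the phases and the replaced pieces
* `difX` : difference of a structured function (71's `SF`) at the natural and the replaced pieces
* `SfJX`, `SfPX`, `SfVX` : 770's `SfJ`, `SfP`, `SfV` for differences
* `AX_eq` : the three-lump side through products of character sums
* `midX_lev`, `tailSX_lev` : the level split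
-/

set_option autoImplicit false

noncomputable section

open Finset Complex
open scoped ComplexConjugate ContDiff

namespace Crest.Agent.R017.ExP960

open Crest.Agent.R012 Crest.Agent.R012.Eis
open Crest.Agent.R012.Mob705 hiding pb mem_pb
open Crest.Agent.R012.LS2 (S mem_S)
open Crest.Agent.R012.Weight600 (osc norm_osc)
open Crest.Agent.R017.PX764 (th Gh n6)
open Crest.Agent.R017.CM106 (CS FS sub)
open Crest.Agent.R017.FE47
open Crest.Agent.R017.HP842 (Pc pc)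
open Crest.Agent.R017.B770 Crest.Agent.R017.Prov71
open Crest.Agent.R017.SU770 (tw1)
open Crest.Agent.R017.E2440 (TE StE)
open Crest.Agent.R017.E5B71 Crest.Agent.R017.E5P571 Crest.Agent.R017.E5L770
open Crest.Agent.R017.ExBox960

/-- a piece with another length -/
def stz (p : Pq) (Z : ℝ) : Pq := { p with z := Z }

/-- the phases of the pair -/
def oc (ps : Fin 3 → Pq) (Z Z' : ℝ) : ℂ := osc (ps 0).t (-Z) * osc (ps 1).t (-Z')

/-- the replaced pieces -/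
def rz (ps : Fin 3 → Pq) (Z Z' : ℝ) : Fin 3 → Pq := ![stz (ps 0) Z, stz (ps 1) Z', ps 2]

lemma norm_oc (ps : Fin 3 → Pq) (Z Z' : ℝ) : ‖oc ps Z Z'‖ = 1 := by
  unfold oc
  rw [norm_mul, norm_osc, norm_osc, mul_one]

section
variable {Λ : Type*} (π : Λ → DPar) (h : ℝ → ℝ)

/-- **difference of a structured function** -/
def difX (Sf : SF Λ) : SFX Λ := fun lam t l ps Z Z' z k =>
  oc ps (ps 0).z (ps 1).z * Sf lam t l ps z k - oc ps Z Z' * Sf lam t l (rz ps Z Z') z k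

/-- the structured function of the double difference, general data -/
def SfJX (e0 r : ℝ) (Bf : ℝ → ℝ → ℝ → ℝ) (Jf : ℝ → ℝ → ℝ → Finset (Eis × Eis))
    (omf : ℝ → ℝ → ℝ → Eis × Eis → ℂ) : SFX Λ := difX (SfJ π h e0 r Bf Jf omf)

/-- one level -/
def SfVX (e0 r : ℝ) (Bf : ℝ → ℝ → ℝ → ℝ) (Jf : ℝ → ℝ → ℝ → Finset (Eis × Eis)) (i : ℕ) : SFX Λ :=
  difX (SfV π h e0 r Bf Jf i)

/-- **the structured function of the double difference** -/
def SfPX (e0 r : ℝ) (Bf : ℝ → ℝ → ℝ → ℝ) (Jf : ℝ → ℝ → ℝ → Finset (Eis × Eis))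
    (nf : ℝ → ℝ → ℝ → ℕ) : SFX Λ := difX (SfP π h e0 r Bf Jf nf)

/-- the three pieces -/
def u3 (a : BdX) : Fin 3 → Pq := ![a.us 2, a.us 3, a.us 4]

/-- the three pieces with the replaced pair -/
def u3' (a : BdX) : Fin 3 → Pq := ![stz (a.us 2) (a.zs 2), stz (a.us 3) (a.zs 3), a.us 4]

/-- the two phases -/
def ph (a : BdX) : ℂ := oc (u3 a) (a.us 2).z (a.us 3).z
def ph' (a : BdX) : ℂ := oc (u3 a) (a.zs 2) (a.zs 3)

lemma norm_ph (a : BdX) : ‖ph a‖ = 1 := norm_oc _ _ _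
lemma norm_ph' (a : BdX) : ‖ph' a‖ = 1 := norm_oc _ _ _

lemma rz_u3 (a : BdX) : rz (u3 a) (a.zs 2) (a.zs 3) = u3' a := rfl

lemma difX_at (Sf : SF Λ) (lam : Λ × Eis) (a : BdX) (k : Eis) :
    (difX Sf).at lam a k = ph a * Sf lam.1 lam.2 a.l (u3 a) a.z k -
      ph' a * Sf lam.1 lam.2 a.l (u3' a) a.z k := rfl

lemma Pt_stz (P : DPar) (t : Eis) (p : Pq) (Z : ℝ) :
    Pt P t (stz p Z) = ⟨(Pt P t p).u, (Pt P t p).ψ, Real.exp Z, (Pt P t p).t⟩ := rfl

lemma Pt_Y (P : DPar) (t : Eis) (p : Pq) : (Pt P t p).Y = Real.exp p.z := rfl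
lemma Pt_t (P : DPar) (t : Eis) (p : Pq) : (Pt P t p).t = p.t := rfl

/-- **the three-lump side through products of character sums** -/
theorem AX_eq (P : DPar) (t : Eis) (a : BdX) (k : Eis) :
    AX h P t a k = ph a * ∏ j, CS (pc h (Pt P t (u3 a j))) k -
      ph' a * ∏ j, CS (pc h (Pt P t (u3' a j))) k := by
  rw [Fin.prod_univ_three, Fin.prod_univ_three]
  have e1 : AX h P t a k =
      (osc (a.us 2).t (-Real.log (Real.exp (a.us 2).z)) * CS (pc h (Pt P t (a.us 2))) k *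
          (osc (a.us 3).t (-Real.log (Real.exp (a.us 3).z)) * CS (pc h (Pt P t (a.us 3))) k) -
        osc (a.us 2).t (-Real.log (Real.exp (a.zs 2))) *
            CS (pc h (Pt P t (stz (a.us 2) (a.zs 2)))) k *
          (osc (a.us 3).t (-Real.log (Real.exp (a.zs 3))) *
            CS (pc h (Pt P t (stz (a.us 3) (a.zs 3)))) k)) * CS (pc h (Pt P t (a.us 4))) k := rfl
  have e2 : ph a = osc (a.us 2).t (-(a.us 2).z) * osc (a.us 3).t (-(a.us 3).z) := rfl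
  have e3 : ph' a = osc (a.us 2).t (-a.zs 2) * osc (a.us 3).t (-a.zs 3) := rfl
  rw [e1, e2, e3]
  simp only [Real.log_exp, u3, u3', Matrix.cons_val_zero, Matrix.cons_val_one,
    Matrix.cons_val_two, Matrix.head_cons, Matrix.tail_cons, Matrix.cons_val]
  ring

/-! ### the level split -/

lemma sum_u3 (a : BdX) : ∑ i, (u3 a i).z = a3 a.toBd := by
  rw [Fin.sum_univ_three]; rfl

lemma sum_u3' {a : BdX} (ha : a.ok) : ∑ i, (u3' a i).z = a3 a.toBd := by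
  rw [Fin.sum_univ_three]
  show a.zs 2 + a.zs 3 + (a.us 4).z = _
  rw [ha.s23]; rfl

/-- linearity at a datum -/
theorem difX_sum {κ : Type*} (I : Finset κ) (Sf : SF Λ) (Sfi : κ → SF Λ) (lam : Λ × Eis) (a : BdX)
    (h1 : ∀ k, Sf lam.1 lam.2 a.l (u3 a) a.z k = ∑ i ∈ I, Sfi i lam.1 lam.2 a.l (u3 a) a.z k)
    (h2 : ∀ k, Sf lam.1 lam.2 a.l (u3' a) a.z k = ∑ i ∈ I, Sfi i lam.1 lam.2 a.l (u3' a) a.z k)
    (k : Eis) : (difX Sf).at lam a k = ∑ i ∈ I, (difX (Sfi i)).at lam a k := by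
  simp only [difX_at]
  rw [h1, h2, sum_sub_distrib, mul_sum, mul_sum]

theorem midX_le_sum {κ : Type*} {lam : Λ × Eis} (hP : (π lam.1).OK) (a : BdX) (ps : List Pq)
    (I : Finset κ) (Sf : SFX Λ) (Sfi : κ → SFX Λ)
    (hS : a.ok → ∀ k, SFX.at Sf lam a k = ∑ i ∈ I, SFX.at (Sfi i) lam a k) :
    MidX π h Sf lam a ps ≤ ∑ i ∈ I, MidX π h (Sfi i) lam a ps := by
  classical
  unfold MidX
  split_ifs with hc
  · obtain ⟨R, C, hR, hC, hs, -⟩ := wp_bd hP
    have hW : ∀ k, Wt (π lam.1) a.toBd k ≠ 0 → nm k ≤ ⌊Real.exp R * Real.exp a.l⌋₊ :=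
      fun k hk => Nat.le_floor (hs _ _ k (Real.exp_pos _) hk).1
    have h1 : ∀ s : Eis, ‖MS (π lam.1).n (Wt (π lam.1) a.toBd) a.e (fun k => Sf.at lam a k *
        (BXm h (π lam.1) lam.2 a ps k * conj (PC h ((amL ps).map (Pt (π lam.1) lam.2)) k))) s‖ ≤
        ∑ i ∈ I, ‖MS (π lam.1).n (Wt (π lam.1) a.toBd) a.e (fun k => (Sfi i).at lam a k *
        (BXm h (π lam.1) lam.2 a ps k * conj (PC h ((amL ps).map (Pt (π lam.1) lam.2)) k))) s‖ := by
      intro s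
      simp_rw [hS hc.1]
      rw [MS_sum hW I (fun i k => (Sfi i).at lam a k)]
      exact norm_sum_le _ _
    refine (Finset.sum_le_sum fun q _ => Finset.sum_le_sum fun g _ => h1 (q ^ 2 * g)).trans
      (le_of_eq ?_)
    rw [Finset.sum_congr rfl fun q _ => Finset.sum_comm, Finset.sum_comm]
  · simp

theorem tailSX_le_sum {κ : Type*} (R : Λ → ℝ) (lam : Λ × Eis) (a : BdX) (ps : List Pq)
    (I : Finset κ) (Sf : SFX Λ) (Sfi : κ → SFX Λ)
    (hS : a.ok → ∀ k, SFX.at Sf lam a k = ∑ i ∈ I, SFX.at (Sfi i) lam a k) :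
    TailSX π h Sf R lam a ps ≤ ∑ i ∈ I, TailSX π h (Sfi i) R lam a ps := by
  classical
  unfold TailSX
  split_ifs with hc
  · rw [Finset.sum_comm]
    refine Finset.sum_le_sum fun k _ => ?_
    rw [hS hc.1, ← Finset.sum_mul]
    exact mul_le_mul_of_nonneg_right (norm_sum_le _ _) (by positivity)
  · simp

lemma SfP_lev (e0 r : ℝ) (Bf : ℝ → ℝ → ℝ → ℝ) (Jf : ℝ → ℝ → ℝ → Finset (Eis × Eis))
    (nf : ℝ → ℝ → ℝ → ℕ) (lam : Λ) (t : Eis) (l : ℝ) (ps : Fin 3 → Pq) (z : ℝ) (k : Eis) :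
    SfP π h e0 r Bf Jf nf lam t l ps z k =
      ∑ i ∈ range (nf l (∑ i, (ps i).z) z), SfV π h e0 r Bf Jf i lam t l ps z k := by
  unfold SfP SfV SfJ
  rw [← Finset.mul_sum]
  congr 1
  rw [← SSb_sum]
  exact SSb_congr _ _ _ _ (fun _ _ => rfl) _

/-- **the level split of the structured function** -/
theorem SfPX_lev (e0 r : ℝ) (Bf : ℝ → ℝ → ℝ → ℝ) (Jf : ℝ → ℝ → ℝ → Finset (Eis × Eis))
    (nf : ℝ → ℝ → ℝ → ℕ) (lam : Λ × Eis) (a : BdX) (ha : a.ok) (k : Eis) :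
    (SfPX π h e0 r Bf Jf nf).at lam a k =
      ∑ i ∈ range (nf a.l (a3 a.toBd) a.z), (SfVX π h e0 r Bf Jf i).at lam a k := by
  refine difX_sum _ _ _ lam a (fun k => ?_) (fun k => ?_) k
  · rw [SfP_lev, sum_u3]
  · rw [SfP_lev, sum_u3' ha]

/-- **the level split of the middle term** -/
theorem midX_lev (e0 r : ℝ) (Bf : ℝ → ℝ → ℝ → ℝ) (Jf : ℝ → ℝ → ℝ → Finset (Eis × Eis))
    (nf : ℝ → ℝ → ℝ → ℕ) {lam : Λ × Eis} (hP : (π lam.1).OK) (a : BdX) (ps : List Pq) :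
    MidX π h (SfPX π h e0 r Bf Jf nf) lam a ps ≤
      ∑ i ∈ range (nf a.l (a3 a.toBd) a.z), MidX π h (SfVX π h e0 r Bf Jf i) lam a ps :=
  midX_le_sum π h hP a ps _ _ _ fun ha k => SfPX_lev π h e0 r Bf Jf nf lam a ha k

/-- **the level split of the tail** -/
theorem tailSX_lev (e0 r : ℝ) (Bf : ℝ → ℝ → ℝ → ℝ) (Jf : ℝ → ℝ → ℝ → Finset (Eis × Eis))
    (nf : ℝ → ℝ → ℝ → ℕ) (R : Λ → ℝ) (lam : Λ × Eis) (a : BdX) (ps : List Pq) :
    TailSX π h (SfPX π h e0 r Bf Jf nf) R lam a ps ≤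
      ∑ i ∈ range (nf a.l (a3 a.toBd) a.z), TailSX π h (SfVX π h e0 r Bf Jf i) R lam a ps :=
  tailSX_le_sum π h R lam a ps _ _ _ fun ha k => SfPX_lev π h e0 r Bf Jf nf lam a ha k

end

end Crest.Agent.R017.ExP960
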