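import Crest.Agent.R017.DkB_848
import Crest.Agent.R017.E1zc_551
import Crest.Agent.R017.LegK10_381

/-!
# Row 17, exceptional class, T.7, leaf X2 (helper241): from the Gauss kernel to `Dk` and back

For sequences `a`, `b` and `x = a - b` (two shapes):
(`x = a - ζ b` with a constant `ζ`, `‖ζ‖ ≤ 1`)
* `Bs L w`, `BJ ..` : the bias terms `∑ ‖th j‖² ‖∑ w n md j n‖²`
* `VF_x_le`, `VK_back`, `JB_x_le` : the conversions
* `Bs_le`, `BJ_le` : the bias terms from a pointwise bound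
-/

set_option autoImplicit false

noncomputable section

open Complex
open scoped ComplexConjugate Classical

namespace Crest.Agent.R017.RX241

open Crest.Agent.R012 Crest.Agent.R012.Eis Crest.Agent.R012.MC
open Crest.Agent.R012.LS2 (S mem_S bl mem_bl)
open Crest.Agent.R012.Div277 (tau dvs mem_dvs tau_le_rpow)
open Crest.Agent.R012.Weight600 (pw)
open Crest.Agent.R017.CM106 (TG FS)
open Crest.Agent.R017.HP842 (KS Kg KS_Kg)
open Crest.Agent.R017.PX764 (Dk th md pC_pos)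
open Crest.Agent.R017.Prov71 (CubeFree)
open Crest.Agent.R017.Rough381 (VF)
open Crest.Agent.R017.E1551 (sg tws JB yv BU mem_BU CF)
open Crest.Agent.R017.LegK545 (VK SFK JBK JBK_Kg VK_Kg VK_nonneg)

/-! ### the functionals -/

/-- the value of the bias at `j` -/
def Md (w : Eis → ℂ) (j : Eis) : ℂ := ∑' n : Eis, w n * (md j n : ℂ)

/-- the bias of the cube-free second moment -/
def Bs (L : ℝ) (w : Eis → ℂ) : ℝ :=
  ∑ j ∈ (bl L).filter CubeFree, ‖th j‖ ^ 2 * ‖Md w j‖ ^ 2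

/-- the bias of the joint block -/
def BJ (Y : ℝ) (w : Eis → ℂ) (Q : Eis → Prop) (h : Eis) (B V t : ℝ) : ℝ :=
  ∑ U ∈ (S Y).filter (fun U => B / 2 < nm U ∧ nm U ≤ B ∧ Q U),
    ∑ κ ∈ BU V U, ‖th (κ * U)‖ ^ 2 * ‖Md (tws (sg w (h * U)) t) (κ * U)‖ ^ 2

lemma JBK_nonneg (K : Eis → Eis → ℂ) (Y : ℝ) (w : Eis → ℂ) (Q : Eis → Prop) (h : Eis)
    (B V t : ℝ) : 0 ≤ JBK K Y w Q h B V t :=
  Finset.sum_nonneg fun _ _ => Finset.sum_nonneg fun _ _ => by positivity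

lemma Bs_nonneg (L : ℝ) (w : Eis → ℂ) : 0 ≤ Bs L w :=
  Finset.sum_nonneg fun _ _ => by positivity

/-! ### finite support -/

lemma fs_tws {w : Eis → ℂ} (hw : FS w) (t : ℝ) : FS (tws w t) where
  fin := hw.fin.subset fun n hn h0 => hn (by
    show w n * pw t (nm n) = 0
    have h0' : w n = 0 := h0
    rw [h0', zero_mul])
  prim := fun m hm => hw.prim m fun h0 => hm (by
    show w m * pw t (nm m) = 0
    rw [h0, zero_mul])

lemma fs_sg {w : Eis → ℂ} (hw : FS w) {g : Eis} (hg : IsPrim g) : FS (sg w g) :=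
  CM106.FS.sub hw hg

lemma fs_ts {w : Eis → ℂ} (hw : FS w) {g : Eis} (hg : IsPrim g) (t : ℝ) : FS (tws (sg w g) t) :=
  fs_tws (fs_sg hw hg) t

lemma KS_sub (K : Eis → Eis → ℂ) {a b x : Eis → ℂ} {ζ : ℂ} (ha : FS a) (hb : FS b)
    (hx : ∀ n, x n = a n - ζ * b n) (j : Eis) : KS K x j = KS K a j - ζ * KS K b j := by
  unfold KS
  rw [← tsum_mul_left,
    ← (ha.summable fun n => K j n).tsum_sub ((hb.summable fun n => K j n).mul_left ζ)]
  refine tsum_congr fun n => ?_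
  rw [hx n]
  ring

lemma fs_diff {a b x : Eis → ℂ} {ζ : ℂ} (ha : FS a) (hb : FS b) (hx : ∀ n, x n = a n - ζ * b n) :
    FS x where
  fin := (ha.fin.union hb.fin).subset fun n hn => by
    by_contra h
    rw [Set.mem_union, not_or] at h
    apply hn
    have h1 : a n = 0 := by
      by_contra h0
      exact h.1 h0
    have h2 : b n = 0 := by
      by_contra h0
      exact h.2 h0
    rw [hx n, h1, h2, mul_zero, sub_zero]
  prim := fun m hm => by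
    by_cases h1 : a m = 0
    · exact hb.prim m fun h0 => hm (by rw [hx m, h1, h0, mul_zero, sub_zero])
    · exact ha.prim m h1

lemma ts_sub {a b x : Eis → ℂ} {ζ : ℂ} (hx : ∀ n, x n = a n - ζ * b n) (g : Eis) (t : ℝ)
    (n : Eis) : tws (sg x g) t n = tws (sg a g) t n - ζ * tws (sg b g) t n := by
  show x (g * n) * pw t (nm n) = a (g * n) * pw t (nm n) - ζ * (b (g * n) * pw t (nm n))
  rw [hx]
  ring

/-- **the two kernels** -/
lemma TG_eq {w : Eis → ℂ} (hw : FS w) (j : Eis) :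
    TG w j = KS Dk w j + (pC : ℂ) * th j * Md w j := by
  have h1 := Dk848.KS_Dk hw j
  rw [KS_Kg] at h1
  unfold Md
  linear_combination -h1

lemma TG_x {a b x : Eis → ℂ} {ζ : ℂ} (ha : FS a) (hb : FS b) (hx : ∀ n, x n = a n - ζ * b n)
    (j : Eis) : TG x j = KS Dk a j - ζ * KS Dk b j + (pC : ℂ) * th j * Md x j := by
  rw [TG_eq (fs_diff ha hb hx) j, KS_sub Dk ha hb hx]

lemma sq3 (u v w : ℂ) : ‖u - v + w‖ ^ 2 ≤ 3 * (‖u‖ ^ 2 + ‖v‖ ^ 2 + ‖w‖ ^ 2) := by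
  have h1 : ‖u - v + w‖ ≤ ‖u‖ + ‖v‖ + ‖w‖ :=
    (norm_add_le _ _).trans (add_le_add_left (norm_sub_le _ _) _)
  have h2 := norm_nonneg (u - v + w)
  nlinarith [sq_nonneg (‖u‖ - ‖v‖), sq_nonneg (‖u‖ - ‖w‖), sq_nonneg (‖v‖ - ‖w‖)]

lemma norm_pth (j : Eis) (z : ℂ) : ‖(pC : ℂ) * th j * z‖ ^ 2 = pC ^ 2 * (‖th j‖ ^ 2 * ‖z‖ ^ 2) := by
  rw [norm_mul, norm_mul, Complex.norm_real, Real.norm_eq_abs, abs_of_pos pC_pos]
  ring

lemma norm_zeta {ζ z : ℂ} (hζ : ‖ζ‖ ≤ 1) : ‖ζ * z‖ ^ 2 ≤ ‖z‖ ^ 2 := by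
  rw [norm_mul]
  have := norm_nonneg z
  have h1 : ‖ζ‖ * ‖z‖ ≤ ‖z‖ := mul_le_of_le_one_left this hζ
  exact pow_le_pow_left₀ (by positivity) h1 2

/-! ### the conversions -/

/-- pointwise, Gauss kernel from `Dk` -/
lemma TG_sq_le {a b x : Eis → ℂ} {ζ : ℂ} (hζ : ‖ζ‖ ≤ 1) (ha : FS a) (hb : FS b)
    (hx : ∀ n, x n = a n - ζ * b n) (j : Eis) :
    ‖TG x j‖ ^ 2 ≤ 3 * (‖KS Dk a j‖ ^ 2 + ‖KS Dk b j‖ ^ 2 +
      pC ^ 2 * (‖th j‖ ^ 2 * ‖Md x j‖ ^ 2)) := by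
  rw [TG_x ha hb hx, ← norm_pth]
  refine (sq3 _ _ _).trans ?_
  have := norm_zeta (z := KS Dk b j) hζ
  linarith

/-- pointwise, `Dk` from the Gauss kernel -/
lemma KS_sq_le {a b x : Eis → ℂ} {ζ : ℂ} (hζ : ‖ζ‖ ≤ 1) (ha : FS a) (hb : FS b)
    (hx : ∀ n, x n = a n - ζ * b n) (j : Eis) :
    ‖KS Dk a j‖ ^ 2 ≤ 3 * (‖TG x j‖ ^ 2 + ‖KS Dk b j‖ ^ 2 +
      pC ^ 2 * (‖th j‖ ^ 2 * ‖Md x j‖ ^ 2)) := by
  have h1 : KS Dk a j = TG x j - (-(ζ * KS Dk b j)) + (-((pC : ℂ) * th j * Md x j)) := by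
    rw [TG_x ha hb hx]; ring
  have h2 := sq3 (TG x j) (-(ζ * KS Dk b j)) (-((pC : ℂ) * th j * Md x j))
  rw [← h1, norm_neg, norm_neg, norm_pth] at h2
  have := norm_zeta (z := KS Dk b j) hζ
  linarith

/-- **T-moment of the difference from the R-moments of the two shapes** -/
theorem VF_x_le {a b x : Eis → ℂ} {ζ : ℂ} (hζ : ‖ζ‖ ≤ 1) (ha : FS a) (hb : FS b)
    (hx : ∀ n, x n = a n - ζ * b n) (L : ℝ) :
    VF L x ≤ 3 * (VK Dk L a + VK Dk L b + pC ^ 2 * Bs L x) := by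
  rw [← VK_Kg]
  unfold VK Bs
  rw [Finset.mul_sum, ← Finset.sum_add_distrib, ← Finset.sum_add_distrib, Finset.mul_sum]
  exact Finset.sum_le_sum fun j _ => TG_sq_le hζ ha hb hx j

/-- the same for the twisted sub-sequences -/
theorem VF_xg_le {a b x : Eis → ℂ} {ζ : ℂ} (hζ : ‖ζ‖ ≤ 1) (ha : FS a) (hb : FS b)
    (hx : ∀ n, x n = a n - ζ * b n) {g : Eis} (hg : IsPrim g) (t L : ℝ) :
    VF L (tws (sg x g) t) ≤ 3 * (VK Dk L (tws (sg a g) t) + VK Dk L (tws (sg b g) t) +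
      pC ^ 2 * Bs L (tws (sg x g) t)) :=
  VF_x_le hζ (fs_ts ha hg t) (fs_ts hb hg t) (ts_sub hx g t) L

/-- **back : R-moment of the first shape** -/
theorem VK_back {a b x : Eis → ℂ} {ζ : ℂ} (hζ : ‖ζ‖ ≤ 1) (ha : FS a) (hb : FS b)
    (hx : ∀ n, x n = a n - ζ * b n) (L : ℝ) :
    VK Dk L a ≤ 3 * (VF L x + VK Dk L b + pC ^ 2 * Bs L x) := by
  rw [← VK_Kg]
  unfold VK Bs
  rw [Finset.mul_sum, ← Finset.sum_add_distrib, ← Finset.sum_add_distrib, Finset.mul_sum]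
  exact Finset.sum_le_sum fun j _ => KS_sq_le hζ ha hb hx j

/-- **joint blocks** -/
theorem JB_x_le {a b x : Eis → ℂ} {ζ : ℂ} (hζ : ‖ζ‖ ≤ 1) (ha : FS a) (hb : FS b)
    (hx : ∀ n, x n = a n - ζ * b n) {Y : ℝ} (hY : 0 ≤ Y) (Q : Eis → Prop) {h : Eis}
    (hh : IsPrim h) (B V t : ℝ) :
    JB Y x Q h B V t ≤ 3 * (JBK Dk Y a Q h B V t + JBK Dk Y b Q h B V t +
      pC ^ 2 * BJ Y x Q h B V t) := by
  rw [← JBK_Kg]
  unfold JBK BJ
  rw [Finset.mul_sum, ← Finset.sum_add_distrib, ← Finset.sum_add_distrib, Finset.mul_sum]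
  refine Finset.sum_le_sum fun U hU => ?_
  have hUp : IsPrim U := ((mem_S hY).1 (Finset.mem_filter.1 hU).1).2.1
  rw [Finset.mul_sum, ← Finset.sum_add_distrib, ← Finset.sum_add_distrib, Finset.mul_sum]
  exact Finset.sum_le_sum fun κ _ => TG_sq_le hζ (fs_ts ha (hh.mul hUp) t)
    (fs_ts hb (hh.mul hUp) t) (ts_sub hx (h * U) t) (κ * U)

/-! ### the bias -/

/-- **the bias from a pointwise bound** -/
theorem Bs_le : ∃ C : ℝ, 0 ≤ C ∧ ∀ (L E : ℝ) (w : Eis → ℂ), 1 ≤ L →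
    (∀ j, CubeFree j → (nm j : ℝ) ≤ L → ‖Md w j‖ ^ 2 ≤ E) → Bs L w ≤ C * L ^ ((2 : ℝ) / 3) * E := by
  obtain ⟨C, hC, h⟩ := Dk848.sum_th_sq
  refine ⟨C, hC, fun L E w hL hE => ?_⟩
  have hL0 : (0 : ℝ) ≤ L := by linarith
  have hE0 : 0 ≤ E := by
    have h1 : CubeFree (1 : Eis) := ⟨one_ne_zero, fun p hp hd => by
      have : p ∣ 1 := (dvd_pow_self p (by norm_num : (3 : ℕ) ≠ 0)).trans hd
      exact hp.not_isUnit (isUnit_of_dvd_one this)⟩
    refine (by positivity : (0 : ℝ) ≤ ‖Md w 1‖ ^ 2).trans (hE 1 h1 ?_)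
    have : nm (1 : Eis) = 1 := by decide
    rw [this]; simpa using hL
  unfold Bs
  calc ∑ j ∈ (bl L).filter CubeFree, ‖th j‖ ^ 2 * ‖Md w j‖ ^ 2
      ≤ ∑ j ∈ (bl L).filter CubeFree, ‖th j‖ ^ 2 * E := by
        refine Finset.sum_le_sum fun j hj => ?_
        obtain ⟨h1, h2⟩ := Finset.mem_filter.1 hj
        have := hE j h2 ((mem_bl hL0).1 h1).2
        gcongr
    _ ≤ ∑ j ∈ bl L, ‖th j‖ ^ 2 * E :=
        Finset.sum_le_sum_of_subset_of_nonneg (Finset.filter_subset _ _) fun _ _ _ => by positivity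
    _ = (∑ j ∈ bl L, ‖th j‖ ^ 2) * E := by rw [Finset.sum_mul]
    _ ≤ (C * L ^ ((2 : ℝ) / 3)) * E := by
        gcongr
        exact h L hL

/-- joint sums of the theta coefficients -/
lemma sum_th_joint {ε : ℝ} (hε : 0 < ε) : ∃ C : ℝ, 0 ≤ C ∧ ∀ (Y B V : ℝ) (Q : Eis → Prop),
    0 ≤ Y → 1 ≤ B → 1 ≤ V →
    ∑ U ∈ (S Y).filter (fun U => B / 2 < nm U ∧ nm U ≤ B ∧ Q U), ∑ κ ∈ BU V U,
      ‖th (κ * U)‖ ^ 2 ≤ C * (V * B) ^ ε * (V * B) ^ ((2 : ℝ) / 3) := by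
  obtain ⟨C, hC, h⟩ := Dk848.sum_th_sq
  obtain ⟨C1, hC1, hτ⟩ := tau_le_rpow hε
  refine ⟨C1 * C, by positivity, fun Y B V Q hY hB hV => ?_⟩
  have hVB : 1 ≤ V * B := one_le_mul_of_one_le_of_one_le hV hB
  have hVB0 : 0 ≤ V * B := by linarith
  set Us := (S Y).filter (fun U => B / 2 < nm U ∧ nm U ≤ B ∧ Q U) with hUs
  have hUp : ∀ U ∈ Us, IsPrim U ∧ (nm U : ℝ) ≤ B := fun U hU => by
    obtain ⟨h1, h2⟩ := Finset.mem_filter.1 hU
    exact ⟨((mem_S hY).1 h1).2.1, h2.2.1⟩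
  -- regrouping
  have h1 : ∑ U ∈ Us, ∑ κ ∈ BU V U, ‖th (κ * U)‖ ^ 2 =
      ∑ x ∈ Us.sigma (fun U => BU V U), ‖th (x.2 * x.1)‖ ^ 2 := by
    rw [Finset.sum_sigma]
  rw [h1]
  have hmap : ∀ x ∈ Us.sigma (fun U => BU V U), x.2 * x.1 ∈ bl (V * B) := by
    intro x hx
    obtain ⟨h2, h3⟩ := Finset.mem_sigma.1 hx
    obtain ⟨⟨h4, h5⟩, h6⟩ := mem_BU.1 h3
    obtain ⟨h7, h8⟩ := hUp _ h2
    refine (mem_bl hVB0).2 ⟨mul_ne_zero h4.1 h7.ne_zero, ?_⟩
    rw [nm_mul]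
    push_cast
    gcongr
  rw [← Finset.sum_fiberwise_of_maps_to hmap]
  calc ∑ j ∈ bl (V * B), ∑ x ∈ (Us.sigma (fun U => BU V U)).filter (fun x => x.2 * x.1 = j),
        ‖th (x.2 * x.1)‖ ^ 2
      ≤ ∑ j ∈ bl (V * B), (C1 * (V * B) ^ ε) * ‖th j‖ ^ 2 := by
        refine Finset.sum_le_sum fun j hj => ?_
        obtain ⟨hj0, hjL⟩ := (mem_bl hVB0).1 hj
        calc ∑ x ∈ (Us.sigma (fun U => BU V U)).filter (fun x => x.2 * x.1 = j),
              ‖th (x.2 * x.1)‖ ^ 2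
            = ∑ x ∈ (Us.sigma (fun U => BU V U)).filter (fun x => x.2 * x.1 = j), ‖th j‖ ^ 2 := by
              refine Finset.sum_congr rfl fun x hx => ?_
              rw [(Finset.mem_filter.1 hx).2]
          _ = ((Us.sigma (fun U => BU V U)).filter (fun x => x.2 * x.1 = j)).card * ‖th j‖ ^ 2 := by
              rw [Finset.sum_const, nsmul_eq_mul]
          _ ≤ (C1 * (V * B) ^ ε) * ‖th j‖ ^ 2 := by
              gcongr
              calc (((Us.sigma (fun U => BU V U)).filter (fun x => x.2 * x.1 = j)).card : ℝ)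
                  ≤ ((dvs j).card : ℝ) := by
                    have : ((Us.sigma (fun U => BU V U)).filter (fun x => x.2 * x.1 = j)).card ≤
                        (dvs j).card := by
                      refine Finset.card_le_card_of_injOn (fun x => x.1) ?_ ?_
                      · intro x hx
                        obtain ⟨h2, h3⟩ := Finset.mem_filter.1 (Finset.mem_coe.1 hx)
                        obtain ⟨h4, -⟩ := Finset.mem_sigma.1 h2
                        exact Finset.mem_coe.2 ((mem_dvs hj0).2 ⟨(hUp _ h4).1,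
                          ⟨x.2, by rw [← h3]; ring⟩⟩)
                      · intro x hx y hy hxy
                        obtain ⟨h2, h3⟩ := Finset.mem_filter.1 (Finset.mem_coe.1 hx)
                        obtain ⟨h2', h3'⟩ := Finset.mem_filter.1 (Finset.mem_coe.1 hy)
                        obtain ⟨h4, -⟩ := Finset.mem_sigma.1 h2
                        obtain ⟨U, κ⟩ := x
                        obtain ⟨U', κ'⟩ := y
                        have e1 : U = U' := hxy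
                        subst e1
                        have e2 : κ * U = κ' * U := by
                          have : κ * U = j := h3
                          have : κ' * U = j := h3'
                          simp_all
                        have e3 : κ = κ' := mul_right_cancel₀ (hUp _ h4).1.ne_zero e2
                        subst e3
                        rfl
                    exact_mod_cast this
                _ = (tau j : ℝ) := rfl
                _ ≤ C1 * (nm j : ℝ) ^ ε := hτ j hj0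
                _ ≤ C1 * (V * B) ^ ε := by gcongr
    _ = (C1 * (V * B) ^ ε) * ∑ j ∈ bl (V * B), ‖th j‖ ^ 2 := by rw [Finset.mul_sum]
    _ ≤ (C1 * (V * B) ^ ε) * (C * (V * B) ^ ((2 : ℝ) / 3)) := by
        gcongr
        exact h _ hVB
    _ = _ := by ring

/-- **the bias of a joint block from a pointwise bound** -/
theorem BJ_le {ε : ℝ} (hε : 0 < ε) : ∃ C : ℝ, 0 ≤ C ∧ ∀ (Y B V E t : ℝ) (Q : Eis → Prop)
    (h : Eis) (w : Eis → ℂ), 0 ≤ Y → 1 ≤ B → 1 ≤ V → 0 ≤ E →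
    (∀ U ∈ S Y, B / 2 < nm U → (nm U : ℝ) ≤ B → Q U → ∀ κ ∈ BU V U,
      ‖Md (tws (sg w (h * U)) t) (κ * U)‖ ^ 2 ≤ E) →
    BJ Y w Q h B V t ≤ C * (V * B) ^ ε * (V * B) ^ ((2 : ℝ) / 3) * E := by
  obtain ⟨C, hC, H⟩ := sum_th_joint hε
  refine ⟨C, hC, fun Y B V E t Q h w hY hB hV hE hyp => ?_⟩
  unfold BJ
  calc ∑ U ∈ (S Y).filter (fun U => B / 2 < nm U ∧ nm U ≤ B ∧ Q U),
        ∑ κ ∈ BU V U, ‖th (κ * U)‖ ^ 2 * ‖Md (tws (sg w (h * U)) t) (κ * U)‖ ^ 2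
      ≤ ∑ U ∈ (S Y).filter (fun U => B / 2 < nm U ∧ nm U ≤ B ∧ Q U),
          ∑ κ ∈ BU V U, ‖th (κ * U)‖ ^ 2 * E := by
        refine Finset.sum_le_sum fun U hU => Finset.sum_le_sum fun κ hκ => ?_
        obtain ⟨h1, h2, h3, h4⟩ := Finset.mem_filter.1 hU
        have := hyp U h1 h2 h3 h4 κ hκ
        gcongr
    _ = (∑ U ∈ (S Y).filter (fun U => B / 2 < nm U ∧ nm U ≤ B ∧ Q U),
          ∑ κ ∈ BU V U, ‖th (κ * U)‖ ^ 2) * E := by
        rw [Finset.sum_mul]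
        exact Finset.sum_congr rfl fun U _ => by rw [Finset.sum_mul]
    _ ≤ _ := by
        gcongr
        exact H Y B V Q hY hB hV

end Crest.Agent.R017.RX241
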