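import Crest.Agent.R017.ExD9_791
import Crest.Agent.R017.RX2_241

/-!
# Row 17, exceptional class, T.7 (helper791): the pointwise bias bound (PB)

`xr z D0 P h q p1 p2 l d` : `sqc q (alF (p1 :: p2 :: l)) - ζ sqc q (alF (p1' :: p2' :: l))`,
lengths `z1 + z2 - d`, `d` of the first two pieces, `ζ = osc t1 (-(z2 - d)) * osc t2 (z2 - d)`;
`pb_ex` : `‖Md (tws (sg x g) t) j‖² ≤ E (nm g)^{-5/3} min 1 (nm g e^{-s0}) (1+|t|)^12`;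
`cs_ex` : the same for `CS .. k`, `k` principal.
-/

set_option autoImplicit false

noncomputable section

open Complex MeasureTheory Filter Topology
open scoped ContDiff

namespace Crest.Agent.R017.ExD791

open Crest.Agent.R012 Crest.Agent.R012.Eis Crest.Agent.R012.Po581 Crest.Agent.R012.Gauss880
open Crest.Agent.R012.Weight600 (osc norm_osc)
open Crest.Agent.R012.PSer47 Crest.Agent.R012.Div277 Crest.Agent.R012.Mob705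
open Crest.Agent.R017.End699 Crest.Agent.R017.FE47 Crest.Agent.R017.Two939
open Crest.Agent.R017.TXC791
open Crest.Agent.R017.CM106 (CS TG FS)
open Crest.Agent.R017.TP320 (conv)
open Crest.Agent.R017.HP842 (Th sqc FS_conv UT Pc uv pc norm_uv_le)
open Crest.Agent.R017.Sup271 (NPm)
open Crest.Agent.R017.B770
open Crest.Agent.R017.Prov71 (Pq Kd chK)
open Crest.Agent.R017.Leg381 (Pf alF LF fpc fw natw)
open Crest.Agent.R017.OKi848 (OKi ok_pc)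
open Crest.Agent.R017.E1551 (sg tws)
open Crest.Agent.R017.PX764 (md n6)
open Crest.Agent.R017.RX241 (Md)
open Crest.Agent.R017.RG64 (Ht)

/-- the piece with a new length -/
def setz (y : ℝ) (p : Pf) : Pf := ({p.1 with z := y}, p.2)

/-- the unimodular factor of the replaced list -/
def zet (p1 p2 : Pf) (d : ℝ) : ℂ := osc p1.1.t (-(p2.1.z - d)) * osc p2.1.t (p2.1.z - d)

lemma norm_zet (p1 p2 : Pf) (d : ℝ) : ‖zet p1 p2 d‖ = 1 := by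
  unfold zet; rw [norm_mul, norm_osc, norm_osc, one_mul]

/-- the difference of a list and the replaced list -/
def xr (z D0 : ℝ) (P : DPar) (h : ℝ → ℝ) (q : Eis) (p1 p2 : Pf) (l : List Pf) (d : ℝ) (n : Eis) : ℂ :=
  sqc q (alF z D0 P h (p1 :: p2 :: l)) n - zet p1 p2 d *
    sqc q (alF z D0 P h (setz (p1.1.z + p2.1.z - d) p1 :: setz d p2 :: l)) n

lemma xr_eq (z D0 : ℝ) (P : DPar) (h : ℝ → ℝ) (q : Eis) (p1 p2 : Pf) (l : List Pf) (d : ℝ) :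
    xr z D0 P h q p1 p2 l d = sqc q (xL z D0 P h p1 p2 l (p2.1.z - d)) := by
  funext n
  have e1 : shz (p2.1.z - d) p1 = setz (p1.1.z + p2.1.z - d) p1 := by
    unfold shz setz
    have : p1.1.z + (p2.1.z - d) = p1.1.z + p2.1.z - d := by ring
    rw [this]
  have e2 : shz (-(p2.1.z - d)) p2 = setz d p2 := by
    unfold shz setz
    have : p2.1.z + -(p2.1.z - d) = d := by ring
    rw [this]
  unfold xr xL zet HP842.sqc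
  rw [e1, e2]
  ring

lemma ht_le (t1 t2 t : ℝ) : (1 + |t1 + t|) * (1 + |t2 + t|) ≤
    ((1 + |t1|) * (1 + |t2|)) * (1 + |t|) ^ 2 := by
  have h1 : 1 + |t1 + t| ≤ (1 + |t1|) * (1 + |t|) := by
    have := abs_add_le t1 t
    nlinarith [abs_nonneg t1, abs_nonneg t]
  have h2 : 1 + |t2 + t| ≤ (1 + |t2|) * (1 + |t|) := by
    have := abs_add_le t2 t
    nlinarith [abs_nonneg t2, abs_nonneg t]
  calc (1 + |t1 + t|) * (1 + |t2 + t|) ≤ ((1 + |t1|) * (1 + |t|)) * ((1 + |t2|) * (1 + |t|)) := by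
        gcongr
    _ = _ := by ring

lemma two_le_Ht (p1 p2 : Pf) (l : List Pf) :
    (1 + |p1.1.t|) * (1 + |p2.1.t|) ≤ Ht (p1 :: p2 :: l) := by
  rw [RG64.Ht_cons, RG64.Ht_cons, ← mul_assoc]
  exact le_mul_of_one_le_right (by positivity) (RG64.one_le_Ht l)

lemma Mg_sq (d0 : ℝ) (g : Eis) : Mg d0 g ^ 2 = min 1 ((nm g : ℝ) * Real.exp (-d0)) := by
  unfold Mg
  have hn : (0 : ℝ) ≤ nm g := Nat.cast_nonneg _
  set a := (nm g : ℝ) ^ (1 / 2 : ℝ) * Real.exp (-(d0 / 2)) with ha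
  have ha0 : 0 ≤ a := by positivity
  have ha2 : a ^ 2 = (nm g : ℝ) * Real.exp (-d0) := by
    rw [ha, mul_pow, ← Real.rpow_natCast ((nm g : ℝ) ^ (1 / 2 : ℝ)), ← Real.rpow_mul hn,
      ← Real.exp_nat_mul]
    norm_num
    left; ring
  rw [← ha2]
  rcases le_total 1 a with h | h
  · rw [min_eq_left h, min_eq_left (one_le_pow₀ h)]; norm_num
  · rw [min_eq_right h, min_eq_right (pow_le_one₀ ha0 h)]

/-- **(PB)** -/
theorem pb_ex {h : ℝ → ℝ} {c : ℝ} (hpu : PU h c) (N : ℕ) {B : ℝ} (hB : 0 ≤ B) {ε : ℝ}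
    (hε : 0 < ε) :
    ∃ C : ℝ, 1 ≤ C ∧ ∀ X : ℝ, 3 ≤ X → ∀ P : DPar, OKi P → HC P.n P.ψ → (nm P.n : ℝ) ≤ X ^ B →
      ¬ NPm P.n P.ψ P.l₂ 1 → ∀ z D0 : ℝ, 1 ≤ D0 →
      ∀ (p1 p2 : Pf) (l : List Pf), p1.1.u = .one → p2.1.u = .one → p1.1.kd = .mo →
      p2.1.kd = .mo → (nm p1.1.d : ℝ) ≤ X ^ B → (nm p2.1.d : ℝ) ≤ X ^ B → l.length ≤ N →
      LF l ≤ B * Real.log X → ∀ j : Eis, j ≠ 0 → (nm j : ℝ) ≤ X ^ B →
      ∀ d s0 : ℝ, s0 ≤ p1.1.z → s0 ≤ p2.1.z → s0 ≤ p1.1.z + p2.1.z - d → s0 ≤ d →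
      s0 ≤ B * Real.log X → ∀ (q g : Eis), q ≠ 0 → (nm q : ℝ) ≤ X ^ B → IsPrim g →
      (nm g : ℝ) ≤ X ^ B → ∀ t : ℝ,
      ‖Md (tws (sg (xr z D0 P h q p1 p2 l d) g) t) j‖ ^ 2 ≤
        (C * X ^ ε * D0 ^ 4 * Ht (p1 :: p2 :: l) ^ 6 * Real.exp (5 / 3 * LF (p1 :: p2 :: l))) *
          (nm g : ℝ) ^ (-(5 / 3) : ℝ) * min 1 ((nm g : ℝ) * Real.exp (-s0)) * (1 + |t|) ^ 12 := by
  obtain ⟨C, hC, hb⟩ := exd_bias hpu N hB (ε := ε / 2) (by positivity)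
  refine ⟨C ^ 2, one_le_pow₀ hC, ?_⟩
  intro X hX P hP hψ hPn hnp z D0 hD0 p1 p2 l hu1 hu2 hk1 hk2 hd1 hd2 hlen hLl j hj hjX d s0 hy1 hy2
    hy3 hy4 hs0 q g hq hqX hg hgX t
  have main := hb X hX P hP hψ hPn hnp z D0 hD0 p1 p2 l hu1 hu2 hk1 hk2 hd1 hd2 hlen hLl j hj hjX
    (p2.1.z - d) s0 hy1 hy2 (by linarith) (by linarith) hs0 q g hq hqX hg hgX t
  rw [← xr_eq] at main
  have hX0 : 0 < X := by linarith
  have hng := one_le_nm hg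
  have hng0 : (0 : ℝ) < nm g := by linarith
  have h0 : 0 ≤ ‖Md (tws (sg (xr z D0 P h q p1 p2 l d) g) t) j‖ := norm_nonneg _
  have hHt := two_le_Ht p1 p2 l
  have hHt1 := RG64.one_le_Ht (p1 :: p2 :: l)
  have hMg0 : 0 ≤ Mg s0 g := by unfold Mg; positivity
  have hT : ((1 + |p1.1.t + t|) * (1 + |p2.1.t + t|)) ^ 6 ≤
      Ht (p1 :: p2 :: l) ^ 6 * (1 + |t|) ^ 12 := by
    calc ((1 + |p1.1.t + t|) * (1 + |p2.1.t + t|)) ^ 6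
        ≤ (((1 + |p1.1.t|) * (1 + |p2.1.t|)) * (1 + |t|) ^ 2) ^ 6 :=
          pow_le_pow_left₀ (by positivity) (ht_le _ _ _) 6
      _ ≤ (Ht (p1 :: p2 :: l) * (1 + |t|) ^ 2) ^ 6 := by gcongr
      _ = _ := by ring
  have hE : ((Real.exp (LF (p1 :: p2 :: l)) / nm g) ^ (5 / 6 : ℝ)) ^ 2 =
      Real.exp (5 / 3 * LF (p1 :: p2 :: l)) * (nm g : ℝ) ^ (-(5 / 3) : ℝ) := by
    rw [← Real.rpow_natCast, ← Real.rpow_mul (by positivity), Real.div_rpow (Real.exp_pos _).le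
      hng0.le, ← Real.exp_mul, Real.rpow_neg hng0.le, div_eq_mul_inv]
    norm_num
    left; ring
  have hXe : (X ^ (ε / 2)) ^ 2 = X ^ ε := by
    rw [← Real.rpow_natCast, ← Real.rpow_mul hX0.le]; congr 1; push_cast; ring
  calc ‖Md (tws (sg (xr z D0 P h q p1 p2 l d) g) t) j‖ ^ 2
      ≤ (C * X ^ (ε / 2) * D0 ^ 2 * ((1 + |p1.1.t + t|) * (1 + |p2.1.t + t|)) ^ 3 *
          ((Real.exp (LF (p1 :: p2 :: l)) / nm g) ^ (5 / 6 : ℝ) * Mg s0 g)) ^ 2 :=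
        pow_le_pow_left₀ h0 main 2
    _ = C ^ 2 * (X ^ (ε / 2)) ^ 2 * D0 ^ 4 * ((1 + |p1.1.t + t|) * (1 + |p2.1.t + t|)) ^ 6 *
          (((Real.exp (LF (p1 :: p2 :: l)) / nm g) ^ (5 / 6 : ℝ)) ^ 2 * Mg s0 g ^ 2) := by ring
    _ ≤ C ^ 2 * (X ^ (ε / 2)) ^ 2 * D0 ^ 4 * (Ht (p1 :: p2 :: l) ^ 6 * (1 + |t|) ^ 12) *
          (((Real.exp (LF (p1 :: p2 :: l)) / nm g) ^ (5 / 6 : ℝ)) ^ 2 * Mg s0 g ^ 2) := by gcongr
    _ = _ := by rw [hXe, hE, Mg_sq]; ring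

/-- principal values, squared -/
theorem cs_ex {h : ℝ → ℝ} {c : ℝ} (hpu : PU h c) (N : ℕ) {B : ℝ} (hB : 0 ≤ B) {ε : ℝ}
    (hε : 0 < ε) :
    ∃ C : ℝ, 1 ≤ C ∧ ∀ X : ℝ, 3 ≤ X → ∀ P : DPar, OKi P → HC P.n P.ψ → (nm P.n : ℝ) ≤ X ^ B →
      ∀ z D0 : ℝ, 1 ≤ D0 →
      ∀ (p1 p2 : Pf) (l : List Pf), p1.1.u = .one → p2.1.u = .one → p1.1.kd = .mo →
      p2.1.kd = .mo → (nm p1.1.d : ℝ) ≤ X ^ B → (nm p2.1.d : ℝ) ≤ X ^ B → l.length ≤ N →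
      LF l ≤ B * Real.log X → ∀ k : Eis, k ≠ 0 → (nm k : ℝ) ≤ X ^ B → ¬ NPm P.n P.ψ P.l₂ k →
      ∀ d s0 : ℝ, s0 ≤ p1.1.z → s0 ≤ p2.1.z → s0 ≤ p1.1.z + p2.1.z - d → s0 ≤ d →
      s0 ≤ B * Real.log X → ∀ (q g : Eis), q ≠ 0 → (nm q : ℝ) ≤ X ^ B → IsPrim g →
      (nm g : ℝ) ≤ X ^ B → ∀ t : ℝ,
      ‖CS (tws (sg (xr z D0 P h q p1 p2 l d) g) t) k‖ ≤
        (C * X ^ ε * D0 ^ 2 * Ht (p1 :: p2 :: l) ^ 3 * Real.exp (LF (p1 :: p2 :: l))) *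
          (nm g : ℝ)⁻¹ * Mg s0 g * (1 + |t|) ^ 6 := by
  obtain ⟨C, hC, hb⟩ := exd_CS hpu N hB hε
  refine ⟨C, hC, ?_⟩
  intro X hX P hP hψ hPn z D0 hD0 p1 p2 l hu1 hu2 hk1 hk2 hd1 hd2 hlen hLl k hk hkX hnp d s0 hy1 hy2
    hy3 hy4 hs0 q g hq hqX hg hgX t
  have main := hb X hX P hP hψ hPn z D0 hD0 p1 p2 l hu1 hu2 hk1 hk2 hd1 hd2 hlen hLl k hk hkX hnp
    (p2.1.z - d) s0 hy1 hy2 (by linarith) (by linarith) hs0 q g hq hqX hg hgX t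
  rw [← xr_eq] at main
  have hHt := two_le_Ht p1 p2 l
  have hMg0 : 0 ≤ Mg s0 g := by unfold Mg; positivity
  have hT : ((1 + |p1.1.t + t|) * (1 + |p2.1.t + t|)) ^ 3 ≤
      Ht (p1 :: p2 :: l) ^ 3 * (1 + |t|) ^ 6 := by
    calc ((1 + |p1.1.t + t|) * (1 + |p2.1.t + t|)) ^ 3
        ≤ (((1 + |p1.1.t|) * (1 + |p2.1.t|)) * (1 + |t|) ^ 2) ^ 3 :=
          pow_le_pow_left₀ (by positivity) (ht_le _ _ _) 3
      _ ≤ (Ht (p1 :: p2 :: l) * (1 + |t|) ^ 2) ^ 3 := by gcongr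
      _ = _ := by ring
  refine main.trans ?_
  calc C * X ^ ε * D0 ^ 2 * ((1 + |p1.1.t + t|) * (1 + |p2.1.t + t|)) ^ 3 *
          ((Real.exp (LF (p1 :: p2 :: l)) / nm g) * Mg s0 g)
      ≤ C * X ^ ε * D0 ^ 2 * (Ht (p1 :: p2 :: l) ^ 3 * (1 + |t|) ^ 6) *
          ((Real.exp (LF (p1 :: p2 :: l)) / nm g) * Mg s0 g) := by gcongr
    _ = _ := by rw [div_eq_mul_inv]; ring

end Crest.Agent.R017.ExD791
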