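import Crest.Agent.R017.ExT2_764
import Crest.Agent.R017.PB_791

/-!
# Row 17, T.4 (helper764): bias of a difference of families

* `cv_list` : families on any finite type as lists
* `al_pair` : `al h s = alL h (s i1 :: s i2 :: rest)`
* `bias_al`, `cs_al` : bias / principal values of `sqc q (al h s) - ζ sqc q (al h s')`
* `pbh_al` : the same in the form `PBh`
-/

set_option autoImplicit false
set_option linter.unusedSectionVars false

noncomputable section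

open Complex MeasureTheory Filter Topology
open scoped ContDiff

namespace Crest.Agent.R017.ExT764

open Crest.Agent.R012 Crest.Agent.R012.Eis Crest.Agent.R012.Po581 Crest.Agent.R012.Gauss880
open Crest.Agent.R012.Weight600 (osc norm_osc)
open Crest.Agent.R012.PSer47 Crest.Agent.R012.Div277 Crest.Agent.R012.Mob705
open Crest.Agent.R017.End699 Crest.Agent.R017.FE47 Crest.Agent.R017.Two939
open Crest.Agent.R017.TXC791
open Crest.Agent.R017.CM106 (CS TG FS)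
open Crest.Agent.R017.TP320 (conv)
open Crest.Agent.R017.HP842 (Th sqc FS_conv UT Pc uv pc alL alL_cons alL_nil al cv cvL Tu mem_Tu)
open Crest.Agent.R017.E1551 (sg tws)
open Crest.Agent.R017.PX764 (md n6)
open Crest.Agent.R017.RX241 (Md)
open Crest.Agent.R017.ExD791

variable {τ : Type*} [Fintype τ] [DecidableEq τ]

/-! ### families as lists -/

lemma cv_comp {σ : Type*} [Fintype σ] [DecidableEq σ] (e : σ ≃ τ) (f : τ → Eis → ℂ) :
    cv (fun i => f (e i)) = cv f := by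
  funext b
  unfold HP842.cv
  refine Finset.sum_bij' (fun x _ => fun j => x (e.symm j)) (fun x _ => fun i => x (e i))
    ?_ ?_ ?_ ?_ ?_
  · intro x hx
    rw [mem_Tu] at hx ⊢
    refine ⟨fun j => hx.1 _, ?_⟩
    rw [← hx.2]
    exact Equiv.prod_comp e.symm x
  · intro x hx
    rw [mem_Tu] at hx ⊢
    refine ⟨fun j => hx.1 _, ?_⟩
    rw [← hx.2]
    exact Equiv.prod_comp e x
  · intro x _
    funext i
    simp
  · intro x _
    funext i
    simp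
  · intro x _
    rw [← Equiv.prod_comp e (fun j => f j (x (e.symm j)))]
    refine Finset.prod_congr rfl fun i _ => ?_
    simp

lemma cv_list {l : List τ} (hn : l.Nodup) (hl : ∀ i, i ∈ l) (f : τ → Eis → ℂ) :
    cv f = cvL (l.map f) := by
  rw [← cv_comp (List.Nodup.getEquivOfForallMemList l hn hl) f, HP842.cv_eq_cvL]
  congr 1
  have e1 : (fun i => f ((List.Nodup.getEquivOfForallMemList l hn hl) i)) =
      fun i : Fin l.length => f (l.get i) := rfl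
  rw [e1]
  conv_rhs => rw [← List.ofFn_get l]
  rw [List.map_ofFn]
  rfl

/-- the rest of the family -/
def rst (s : τ → Pc) (i1 i2 : τ) : List Pc :=
  (((Finset.univ.erase i1).erase i2).toList).map s

lemma al_pair {i1 i2 : τ} (h12 : i1 ≠ i2) (h : ℝ → ℝ) (s : τ → Pc) :
    al h s = alL h (s i1 :: s i2 :: rst s i1 i2) := by
  have hnd : (i1 :: i2 :: ((Finset.univ.erase i1).erase i2).toList).Nodup := by
    rw [List.nodup_cons, List.nodup_cons]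
    refine ⟨?_, ?_, Finset.nodup_toList _⟩
    · simp [h12]
    · simp
  have hmem : ∀ i, i ∈ (i1 :: i2 :: ((Finset.univ.erase i1).erase i2).toList) := by
    intro i
    simp only [List.mem_cons, Finset.mem_toList, Finset.mem_erase, Finset.mem_univ]
    tauto
  unfold HP842.al HP842.alL
  rw [cv_list hnd hmem, List.map_cons, List.map_cons, List.map_cons, List.map_cons]
  unfold rst
  rw [List.map_map]
  rfl

/-- two families which differ by a shift of the lengths at `i1`, `i2` -/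
structure Shf (s s' : τ → Pc) (i1 i2 : τ) (δ : ℝ) : Prop where
  ne : i1 ≠ i2
  e1 : s' i1 = shY δ (s i1)
  e2 : s' i2 = shY (-δ) (s i2)
  e3 : ∀ i, i ≠ i1 → i ≠ i2 → s' i = s i

lemma Shf.rst {s s' : τ → Pc} {i1 i2 : τ} {δ : ℝ} (hs : Shf s s' i1 i2 δ) :
    rst s' i1 i2 = rst s i1 i2 := by
  unfold ExT764.rst
  refine List.map_congr_left fun i hi => ?_
  rw [Finset.mem_toList, Finset.mem_erase, Finset.mem_erase] at hi
  exact hs.e3 i hi.2.1 hi.1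

lemma Shf.OK {s s' : τ → Pc} {i1 i2 : τ} {δ : ℝ} (hs : Shf s s' i1 i2 δ) (h : ∀ i, (s i).OK)
    (i : τ) : (s' i).OK := by
  by_cases h1 : i = i1
  · rw [h1, hs.e1]; exact shY_OK (h i1)
  · by_cases h2 : i = i2
    · rw [h2, hs.e2]; exact shY_OK (h i2)
    · rw [hs.e3 i h1 h2]; exact h i

/-- the difference of the two families -/
def xA (h : ℝ → ℝ) (q : Eis) (s s' : τ → Pc) (i1 i2 : τ) (δ : ℝ) (n : Eis) : ℂ :=
  sqc q (al h s) n - zeP (s i1) (s i2) δ * sqc q (al h s') n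

lemma xA_eq (h : ℝ → ℝ) (q : Eis) {s s' : τ → Pc} {i1 i2 : τ} {δ : ℝ} (hs : Shf s s' i1 i2 δ) :
    xA h q s s' i1 i2 δ = sqc q (xP h (s i1) (s i2) (rst s i1 i2) δ) := by
  funext n
  unfold xA HP842.sqc xP
  rw [al_pair hs.ne h s, al_pair hs.ne h s', hs.rst, hs.e1, hs.e2]
  ring

lemma LP_rst {s : τ → Pc} {i1 i2 : τ} :
    LP (rst s i1 i2) = ∑ i ∈ (Finset.univ.erase i1).erase i2, Real.log (s i).Y := by
  unfold LP rst
  rw [List.map_map]
  exact Finset.sum_map_toList _ _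

lemma LP_all {s : τ → Pc} {i1 i2 : τ} (h12 : i1 ≠ i2) :
    LP (s i1 :: s i2 :: rst s i1 i2) = ∑ i, Real.log (s i).Y := by
  rw [LP_cons, LP_cons, LP_rst]
  rw [← Finset.add_sum_erase Finset.univ _ (Finset.mem_univ i1),
    ← Finset.add_sum_erase (Finset.univ.erase i1) _
      (Finset.mem_erase.2 ⟨h12.symm, Finset.mem_univ i2⟩)]

lemma length_rst {s : τ → Pc} {i1 i2 : τ} : (rst s i1 i2).length ≤ Fintype.card τ := by
  unfold rst
  rw [List.length_map, Finset.length_toList]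
  exact Finset.card_le_univ _

lemma rst_OK {s : τ → Pc} (hs : ∀ i, (s i).OK) {i1 i2 : τ} : ∀ p ∈ rst s i1 i2, p.OK := by
  intro p hp
  obtain ⟨i, -, rfl⟩ := List.mem_map.1 hp
  exact hs i

set_option maxHeartbeats 1000000 in
/-- **the bias of the difference of two families** -/
theorem bias_al {h : ℝ → ℝ} {c : ℝ} (hpu : PU h c) (N : ℕ) {B : ℝ} (hB : 0 ≤ B) {ε : ℝ}
    (hε : 0 < ε) :
    ∃ C : ℝ, 1 ≤ C ∧ ∀ (τ : Type) [Fintype τ] [DecidableEq τ], Fintype.card τ ≤ N →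
      ∀ X : ℝ, 3 ≤ X → ∀ (s s' : τ → Pc) (i1 i2 : τ) (δ : ℝ), Shf s s' i1 i2 δ →
      (∀ i, (s i).OK) → (s i1).u = .one → (s i2).u = .one →
      ∑ i ∈ (Finset.univ.erase i1).erase i2, Real.log (s i).Y ≤ B * Real.log X →
      ∀ ρ1 ρ2 : Eis, ρ1 ≠ 0 → ρ2 ≠ 0 → (nm ρ1 : ℝ) ≤ X ^ B → (nm ρ2 : ℝ) ≤ X ^ B →
      (∀ b, IsPrim b → (s i1).ψ b = prin0 ρ1 b) → (∀ b, IsPrim b → (s i2).ψ b = prin0 ρ2 b) →
      ∀ j : Eis, j ≠ 0 → (nm j : ℝ) ≤ X ^ B →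
      ∀ d0 : ℝ, d0 ≤ Real.log (s i1).Y → d0 ≤ Real.log (s i2).Y → d0 ≤ Real.log (s i1).Y + δ →
      d0 ≤ Real.log (s i2).Y - δ → d0 ≤ B * Real.log X → ∀ (q g : Eis), q ≠ 0 →
      (nm q : ℝ) ≤ X ^ B → IsPrim g → (nm g : ℝ) ≤ X ^ B → ∀ t : ℝ,
      ‖Md (tws (sg (xA h q s s' i1 i2 δ) g) t) j‖ ≤
        C * X ^ ε * ((1 + |(s i1).t + t|) * (1 + |(s i2).t + t|)) ^ 3 *
          ((Real.exp (∑ i, Real.log (s i).Y) / nm g) ^ (5 / 6 : ℝ) * Mg d0 g) := by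
  classical
  obtain ⟨C, hC, hb⟩ := exd_pc hpu N (σ := 1 / 6) (by norm_num) (B := 2 * B) (by linarith) hε
  refine ⟨C, hC, ?_⟩
  intro τ _ _ hcard X hX s s' i1 i2 δ hs hok hu1 hu2 hL ρ1 ρ2 hρ1 hρ2 hn1 hn2 hp1 hp2 j hj hjX d0 hy1
    hy2 hy3 hy4 hd0 q g hq hqX hg hgX t
  have hX0 : 0 < X := by linarith
  have hX1 : 1 ≤ X := by linarith
  have hlX : 0 ≤ Real.log X := Real.log_nonneg hX1
  have up : X ^ B ≤ X ^ (2 * B) := Real.rpow_le_rpow_of_exponent_le hX1 (by linarith)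
  have hρ : ∀ d : Eis, (nm d : ℝ) ≤ X ^ B → (nm (d * j) : ℝ) ≤ X ^ (2 * B) := by
    intro d hd
    rw [nm_mul]
    push_cast
    have : X ^ (2 * B) = X ^ B * X ^ B := by rw [← Real.rpow_add hX0]; congr 1; ring
    rw [this]
    gcongr
  have hprin : ∀ (p : Pc) (d : Eis), (∀ b, IsPrim b → p.ψ b = prin0 d b) → ∀ b, IsPrim b →
      p.ψ b * prin0 j b = prin0 (d * j) b := by
    intro p d hp b hb'
    rw [hp b hb', prin0_mul]
  have hcomm : ∀ x : ℝ, x ≤ B * Real.log X → x ≤ 2 * B * Real.log X := fun x hx =>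
    hx.trans (mul_le_mul_of_nonneg_right (by linarith) hlX)
  have main := hb X hX (s i1) (s i2) (rst s i1 i2) (hok i1) (hok i2) (rst_OK hok) hu1 hu2
    (length_rst.trans hcard) (by rw [LP_rst]; exact hcomm _ hL) (prin0 j) (isChar_prin0 j)
    (ρ1 * j) (ρ2 * j) (mul_ne_zero hρ1 hj) (mul_ne_zero hρ2 hj) (hρ _ hn1) (hρ _ hn2)
    (hprin _ _ hp1) (hprin _ _ hp2) δ d0 hy1 hy2 hy3 hy4 (hcomm _ hd0) q g hq (hqX.trans up) hg
    (hgX.trans up) t
  rw [← xA_eq h q hs, LP_all hs.ne] at main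
  have e1 : ∀ n : Eis, tws (sg (xA h q s s' i1 i2 δ) g) t n * (md j n : ℂ) =
      xA h q s s' i1 i2 δ (g * n) *
          (osc t (Real.log (nm n)) * (ps (1 / 6) n * prin0 j n)) := by
    intro n
    rw [xA_eq h q hs]
    unfold E1551.tws E1551.sg Weight600.pw
    by_cases h0 : Th q (g * n) = 0
    · unfold HP842.sqc
      rw [h0]; ring
    · have hsq : Squarefree n := (Th_ne h0).1.squarefree_of_dvd (dvd_mul_left n g)
      have e2 : (md j n : ℂ) = ps (1 / 6) n * prin0 j n := by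
        unfold PX764.md PX764.n6 ps End699.prin0
        have e3 : (-(1 : ℝ) / 6) = -(1 / 6) := by norm_num
        by_cases hc : IsCoprime n j
        · rw [if_pos ⟨hsq, hc⟩, if_pos hc, mul_one, e3]
        · rw [if_neg fun h' => hc h'.2, if_neg hc, mul_zero]
          simp
      rw [e2]; ring
  unfold RX241.Md
  rw [tsum_congr e1]
  refine main.trans (le_of_eq ?_)
  norm_num

set_option maxHeartbeats 1000000 in
/-- **principal values of the difference of two families** -/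
theorem cs_al {h : ℝ → ℝ} {c : ℝ} (hpu : PU h c) (N : ℕ) {B : ℝ} (hB : 0 ≤ B) {ε : ℝ}
    (hε : 0 < ε) :
    ∃ C : ℝ, 1 ≤ C ∧ ∀ (τ : Type) [Fintype τ] [DecidableEq τ], Fintype.card τ ≤ N →
      ∀ X : ℝ, 3 ≤ X → ∀ (s s' : τ → Pc) (i1 i2 : τ) (δ : ℝ), Shf s s' i1 i2 δ →
      (∀ i, (s i).OK) → (s i1).u = .one → (s i2).u = .one →
      ∑ i ∈ (Finset.univ.erase i1).erase i2, Real.log (s i).Y ≤ B * Real.log X →
      ∀ ρ1 ρ2 : Eis, ρ1 ≠ 0 → ρ2 ≠ 0 → (nm ρ1 : ℝ) ≤ X ^ B → (nm ρ2 : ℝ) ≤ X ^ B →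
      ∀ k : Eis, (∀ b, IsPrim b → (s i1).ψ b * sy k b = prin0 ρ1 b) →
      (∀ b, IsPrim b → (s i2).ψ b * sy k b = prin0 ρ2 b) →
      ∀ d0 : ℝ, d0 ≤ Real.log (s i1).Y → d0 ≤ Real.log (s i2).Y → d0 ≤ Real.log (s i1).Y + δ →
      d0 ≤ Real.log (s i2).Y - δ → d0 ≤ B * Real.log X → ∀ (q g : Eis), q ≠ 0 →
      (nm q : ℝ) ≤ X ^ B → IsPrim g → (nm g : ℝ) ≤ X ^ B → ∀ t : ℝ,
      ‖CS (tws (sg (xA h q s s' i1 i2 δ) g) t) k‖ ≤
        C * X ^ ε * ((1 + |(s i1).t + t|) * (1 + |(s i2).t + t|)) ^ 3 *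
          (Real.exp (∑ i, Real.log (s i).Y) / nm g * Mg d0 g) := by
  classical
  obtain ⟨C, hC, hb⟩ := exd_pc hpu N (σ := 0) (by norm_num) hB hε
  refine ⟨C, hC, ?_⟩
  intro τ _ _ hcard X hX s s' i1 i2 δ hs hok hu1 hu2 hL ρ1 ρ2 hρ1 hρ2 hn1 hn2 k hp1 hp2 d0 hy1
    hy2 hy3 hy4 hd0 q g hq hqX hg hgX t
  have main := hb X hX (s i1) (s i2) (rst s i1 i2) (hok i1) (hok i2) (rst_OK hok) hu1 hu2
    (length_rst.trans hcard) (by rw [LP_rst]; exact hL) (sy k) (Char766.isChar_sy k)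
    ρ1 ρ2 hρ1 hρ2 hn1 hn2 hp1 hp2 δ d0 hy1 hy2 hy3 hy4 hd0 q g hq hqX hg hgX t
  rw [← xA_eq h q hs, LP_all hs.ne] at main
  have e1 : CS (tws (sg (xA h q s s' i1 i2 δ) g) t) k =
      ∑' n : Eis, xA h q s s' i1 i2 δ (g * n) *
          (osc t (Real.log (nm n)) * (ps 0 n * sy k n)) := by
    unfold CM106.CS E1551.tws E1551.sg Weight600.pw
    refine tsum_congr fun n => ?_
    have : ps 0 n = 1 := by unfold ps; simp
    rw [this]; ring
  rw [e1]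
  refine main.trans (le_of_eq ?_)
  rw [sub_zero, Real.rpow_one]

set_option maxHeartbeats 1000000 in
/-- **`PBh` for the difference of two families** -/
theorem pbh_al {h : ℝ → ℝ} {c : ℝ} (hpu : PU h c) (N : ℕ) {B : ℝ} (hB : 0 ≤ B) {ε : ℝ}
    (hε : 0 < ε) :
    ∃ C : ℝ, 1 ≤ C ∧ ∀ (τ : Type) [Fintype τ] [DecidableEq τ], Fintype.card τ ≤ N →
      ∀ X : ℝ, 3 ≤ X → ∀ (s s' : τ → Pc) (i1 i2 : τ) (δ : ℝ), Shf s s' i1 i2 δ →
      (∀ i, (s i).OK) → (s i1).u = .one → (s i2).u = .one →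
      ∑ i ∈ (Finset.univ.erase i1).erase i2, Real.log (s i).Y ≤ B * Real.log X →
      ∀ ρ1 ρ2 : Eis, ρ1 ≠ 0 → ρ2 ≠ 0 → (nm ρ1 : ℝ) ≤ X ^ B → (nm ρ2 : ℝ) ≤ X ^ B →
      (∀ b, IsPrim b → (s i1).ψ b = prin0 ρ1 b) → (∀ b, IsPrim b → (s i2).ψ b = prin0 ρ2 b) →
      ∀ d0 : ℝ, d0 ≤ Real.log (s i1).Y → d0 ≤ Real.log (s i2).Y → d0 ≤ Real.log (s i1).Y + δ →
      d0 ≤ Real.log (s i2).Y - δ → d0 ≤ B * Real.log X → ∀ q : Eis, q ≠ 0 →
      (nm q : ℝ) ≤ X ^ B → ∀ P J : ℝ, P ≤ X ^ B → 12 ≤ J →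
      PBh (xA h q s s' i1 i2 δ)
        (C * X ^ ε * ((1 + |(s i1).t|) * (1 + |(s i2).t|)) ^ 6 *
          Real.exp (5 / 3 * ∑ i, Real.log (s i).Y)) (Real.exp (-d0)) J P := by
  obtain ⟨C, hC, hb⟩ := bias_al hpu N hB (ε := ε / 2) (by positivity)
  refine ⟨C ^ 2, one_le_pow₀ hC, ?_⟩
  intro τ _ _ hcard X hX s s' i1 i2 δ hs hok hu1 hu2 hL ρ1 ρ2 hρ1 hρ2 hn1 hn2 hp1 hp2 d0 hy1
    hy2 hy3 hy4 hd0 q hq hqX P J hP hJ g hg hgP j hj hjP t
  have main := hb τ hcard X hX s s' i1 i2 δ hs hok hu1 hu2 hL ρ1 ρ2 hρ1 hρ2 hn1 hn2 hp1 hp2 j hj.1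
    (hjP.trans hP) d0 hy1 hy2 hy3 hy4 hd0 q g hq hqX hg (hgP.trans hP) t
  have hX0 : 0 < X := by linarith
  have hng := one_le_nm hg
  have hng0 : (0 : ℝ) < nm g := by linarith
  have hMg0 : 0 ≤ Mg d0 g := by unfold Mg; positivity
  set H := (1 + |(s i1).t|) * (1 + |(s i2).t|) with hH
  have hH0 : 0 ≤ H := by positivity
  have hT : ((1 + |(s i1).t + t|) * (1 + |(s i2).t + t|)) ^ 6 ≤ H ^ 6 * (1 + |t|) ^ 12 := by
    calc ((1 + |(s i1).t + t|) * (1 + |(s i2).t + t|)) ^ 6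
        ≤ (H * (1 + |t|) ^ 2) ^ 6 := pow_le_pow_left₀ (by positivity) (ht_le _ _ _) 6
      _ = _ := by ring
  set L := ∑ i, Real.log (s i).Y with hL'
  have hE : ((Real.exp L / nm g) ^ (5 / 6 : ℝ)) ^ 2 =
      Real.exp (5 / 3 * L) * (nm g : ℝ) ^ (-(5 / 3) : ℝ) := by
    rw [← Real.rpow_natCast, ← Real.rpow_mul (by positivity), Real.div_rpow (Real.exp_pos _).le
      hng0.le, ← Real.exp_mul, Real.rpow_neg hng0.le, div_eq_mul_inv]
    norm_num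
    left
    ring
  have hX2 : (X ^ (ε / 2)) ^ 2 = X ^ ε := by
    rw [← Real.rpow_natCast, ← Real.rpow_mul hX0.le]; congr 1; push_cast; ring
  have hTJ : (1 + |t|) ^ 12 ≤ (1 + |t|) ^ J := by
    rw [← Real.rpow_natCast]
    refine Real.rpow_le_rpow_of_exponent_le (by linarith [abs_nonneg t]) ?_
    push_cast
    exact hJ
  have hm0 : 0 ≤ min 1 ((nm g : ℝ) * Real.exp (-d0)) := by positivity
  calc ‖Md (tws (sg (xA h q s s' i1 i2 δ) g) t) j‖ ^ 2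
      ≤ (C * X ^ (ε / 2) * ((1 + |(s i1).t + t|) * (1 + |(s i2).t + t|)) ^ 3 *
          ((Real.exp L / nm g) ^ (5 / 6 : ℝ) * Mg d0 g)) ^ 2 :=
        pow_le_pow_left₀ (norm_nonneg _) main 2
    _ = C ^ 2 * (X ^ (ε / 2)) ^ 2 * ((1 + |(s i1).t + t|) * (1 + |(s i2).t + t|)) ^ 6 *
          (((Real.exp L / nm g) ^ (5 / 6 : ℝ)) ^ 2 * Mg d0 g ^ 2) := by ring
    _ ≤ C ^ 2 * X ^ ε * (H ^ 6 * (1 + |t|) ^ 12) *
          ((Real.exp (5 / 3 * L) * (nm g : ℝ) ^ (-(5 / 3) : ℝ)) *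
            min 1 ((nm g : ℝ) * Real.exp (-d0))) := by
        rw [hX2, hE, Mg_sq]
        gcongr
    _ ≤ C ^ 2 * X ^ ε * (H ^ 6 * (1 + |t|) ^ J) *
          ((Real.exp (5 / 3 * L) * (nm g : ℝ) ^ (-(5 / 3) : ℝ)) *
            min 1 ((nm g : ℝ) * Real.exp (-d0))) := by gcongr
    _ = _ := by ring

end Crest.Agent.R017.ExT764
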