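import Crest.Agent.R017.ExT3_764
import Crest.Agent.R017.P1f_54

/-!
# Row 17, T.4 (helper764): children of shifted families

* `chS_shf` : the children of `s'` are the shifted children of `s`
* `zeP_chS`, `chS_u`, `chS_prin`
-/

set_option autoImplicit false
set_option linter.unusedSectionVars false

noncomputable section

open Complex MeasureTheory Filter Topology
open scoped ContDiff

namespace Crest.Agent.R017.ExT764

open Crest.Agent.R012 Crest.Agent.R012.Eis
open Crest.Agent.R017.End699 Crest.Agent.R017.FE47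
open Crest.Agent.R017.HP842 (Th sqc UT Pc uv pc al)
open Crest.Agent.R017.ExD791 (prin0_mul)

/-! ### the children -/

open Crest.Agent.R017.P1f54 (ch1 chS chS_OK)
open Crest.Agent.R017.Rough381 (sh)

lemma ch_shY {δ : ℝ} (p : Pc) (a m : Eis) :
    (sh (shY δ p) a).cop m = shY δ ((sh p a).cop m) := by
  show (⟨p.u.sub a, fun b => p.ψ b * prin0 m b, p.Y * Real.exp δ / nm a, p.t⟩ : Pc) =
    ⟨p.u.sub a, fun b => p.ψ b * prin0 m b, p.Y / nm a * Real.exp δ, p.t⟩
  congr 1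
  ring

variable {ι κ : Type*} [Fintype ι] [Fintype κ] [DecidableEq ι] [DecidableEq κ]

/-- the children of the shifted family are the shifted children -/
theorem chS_shf {s s' : ι ⊕ κ → Pc} {i1 i2 : ι ⊕ κ} {δ : ℝ} (hs : Shf s s' i1 i2 δ)
    (γ : ι → Eis) (β : κ → Eis) (g : Eis) (x : ι → Eis) (y : κ → Eis) :
    Shf (chS s γ β g x y) (chS s' γ β g x y) i1 i2 δ := by
  have key : ∀ (i : ι ⊕ κ) (e : ℝ), s' i = shY e (s i) →
      chS s' γ β g x y i = shY e (chS s γ β g x y i) := by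
    rintro (i | j) e he
    · show (sh (s' (.inl i)) (γ i * x i)).cop _ = shY e ((sh (s (.inl i)) (γ i * x i)).cop _)
      rw [he]
      exact ch_shY _ _ _
    · show (sh (s' (.inr j)) (β j * y j)).cop _ = shY e ((sh (s (.inr j)) (β j * y j)).cop _)
      rw [he]
      exact ch_shY _ _ _
  refine ⟨hs.ne, key i1 δ hs.e1, key i2 (-δ) hs.e2, fun i h1 h2 => ?_⟩
  rcases i with i | j
  · show (sh (s' (.inl i)) (γ i * x i)).cop _ = (sh (s (.inl i)) (γ i * x i)).cop _
    rw [hs.e3 _ h1 h2]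
  · show (sh (s' (.inr j)) (β j * y j)).cop _ = (sh (s (.inr j)) (β j * y j)).cop _
    rw [hs.e3 _ h1 h2]

/-- the unimodular factor is the same for all children -/
theorem zeP_chS (s : ι ⊕ κ → Pc) (i1 i2 : ι ⊕ κ) (δ : ℝ)
    (γ : ι → Eis) (β : κ → Eis) (g : Eis) (x : ι → Eis) (y : κ → Eis) :
    zeP (chS s γ β g x y i1) (chS s γ β g x y i2) δ = zeP (s i1) (s i2) δ := by
  have key : ∀ i : ι ⊕ κ, (chS s γ β g x y i).t = (s i).t := by
    rintro (i | j) <;> rfl
  unfold zeP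
  rw [key, key]

lemma sub_one {u : UT} (hu : u = .one) (a : Eis) : u.sub a = .one := by
  subst hu
  unfold HP842.UT.sub
  rw [if_neg]
  simp

lemma chS_u {s : ι ⊕ κ → Pc} {i : ι ⊕ κ} (hu : (s i).u = .one)
    (γ : ι → Eis) (β : κ → Eis) (g : Eis) (x : ι → Eis) (y : κ → Eis) :
    (chS s γ β g x y i).u = .one := by
  rcases i with i | j
  · exact sub_one hu _
  · exact sub_one hu _

/-- the modulus of a child -/
def mdC (γ : ι → Eis) (β : κ → Eis) (g : Eis) : ι ⊕ κ → Eis :=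
  Sum.elim (fun _ => (∏ i, γ i) * g) (fun _ => (∏ j, β j) * g)

lemma chS_psi (s : ι ⊕ κ → Pc) (i : ι ⊕ κ)
    (γ : ι → Eis) (β : κ → Eis) (g : Eis) (x : ι → Eis) (y : κ → Eis) (b : Eis) :
    (chS s γ β g x y i).ψ b = (s i).ψ b * prin0 (mdC γ β g i) b := by
  rcases i with i | j <;> rfl

lemma chS_prin {s : ι ⊕ κ → Pc} {i : ι ⊕ κ} {ρ : Eis} {Ψ : Eis → ℂ}
    (hp : ∀ b, IsPrim b → (s i).ψ b * Ψ b = prin0 ρ b)
    (γ : ι → Eis) (β : κ → Eis) (g : Eis) (x : ι → Eis) (y : κ → Eis) {b : Eis} (hb : IsPrim b) :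
    (chS s γ β g x y i).ψ b * Ψ b = prin0 (ρ * mdC γ β g i) b := by
  rw [chS_psi, ← prin0_mul, ← hp b hb]
  ring

end Crest.Agent.R017.ExT764
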