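import Mathlib

/-!
# Row 17, section D: the exponent rules (helper911)

A side is a multiset `Y` of smooth lengths (lumps), a Möbius granular mass `m` and an amplifier
mass `a` (all granular pieces tiny).
`r κ Y m a` : exponent of the second moment of the character side over the **cube-free** `k`,
`nm k ~ X^κ`, in a fixed set `Q` (closed under taking the cube-free part, no cubes);
`s κ Y m a` : Gauss sum side, all `l ≠ 0` (base = any large parameter; lengths in the same base).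

The fields are stated so that the provider may take the exponents of the side itself or the
hereditary ones (sup over all shortenings of the pieces).  Every closure theorem only uses the
fields.
Granular statements are limits: mesh of the granular pieces `→ 0`, their number fixed before `X₀`.

* `Sh`            : shortenings of the smooth pieces
* `ExpRules θ`    : HB, TF, P, P', C, F, SUP
* `ExpLB θ`       : the B-line
* `ExpLv θ`       : level rule with powers (Hölder / LV)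
* `ExpBox θ`      : absolute boxes, outer level rule
* `ExpS0`, `ExpRem` : cube-free (mixed) families on the Gauss side, (REM) for three smooth pieces
* `ExpPad`        : adding a smooth piece of length `0`
* `ExpRules.poisG3`: the field `poisG` in the form of v2.3
-/

set_option autoImplicit false

namespace Crest.Agent.R017.ER911

/-- exponent function of a family and a side: `κ`, lumps, Möbius mass, amplifier mass -/
abbrev EF := ℝ → Multiset ℝ → ℝ → ℝ → ℝ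

/-- shortening of the smooth pieces (same number of pieces, lengths `0` allowed) -/
def Sh (Y' Y : Multiset ℝ) : Prop := Multiset.Rel (fun a b => 0 ≤ a ∧ a ≤ b) Y' Y

/-- nonnegative side -/
def Ok (Y : Multiset ℝ) (m a : ℝ) : Prop := (∀ y ∈ Y, 0 ≤ y) ∧ 0 ≤ m ∧ 0 ≤ a

/-- the plain rules, `r` character side, `s` Gauss sum side -/
structure ExpRules (θ : ℝ) (r s : EF) : Prop where
  /-- (HB) large sieve (square parts and cube parts included) -/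
  hbC : ∀ (κ : ℝ) (Y : Multiset ℝ) (m a : ℝ), 0 ≤ κ → Ok Y m a →
    r κ Y m a ≤ max (κ + (Y.sum + m + a)) (max (2 * (Y.sum + m + a) + κ / 3)
      ((Y.sum + m + a) + 2 / 3 * (κ + (Y.sum + m + a))))
  hbG : ∀ (κ : ℝ) (Y : Multiset ℝ) (m a : ℝ), 0 ≤ κ → Ok Y m a →
    s κ Y m a ≤ max (κ + (Y.sum + m + a)) (max (2 * (Y.sum + m + a) + κ / 3)
      ((Y.sum + m + a) + 2 / 3 * (κ + (Y.sum + m + a))))
  /-- (TF) two-factor theorem -/
  tf : ∀ κ y₁ y₂ : ℝ, 0 ≤ y₁ → 0 ≤ y₂ → y₁ ≤ κ → y₂ ≤ κ → r κ {y₁, y₂} 0 0 ≤ κ + (y₁ + y₂)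
  /-- (P) character side to Gauss side (clean form: all shortenings, own dual family) -/
  poisC : ∀ (κ : ℝ) (Y : Multiset ℝ) (m a E : ℝ), 0 ≤ κ → Ok Y m a →
    κ + (Y.sum + m + a) ≤ E → 2 * (Y.sum + m + a) ≤ E →
    (∀ (Y' : Multiset ℝ) (m' a' i : ℝ), Sh Y' Y → 0 ≤ m' → m' ≤ m → 0 ≤ a' → a' ≤ a → 0 ≤ i →
      i ≤ 2 * (Y'.sum + m' + a') - κ →
      κ + (Y.sum + m + a) - 2 * (Y'.sum + m' + a') + s i Y' m' a' +
        (2 * (Y'.sum + m' + a') - κ - i) / 3 ≤ E) →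
    ∀ κ' : ℝ, 0 ≤ κ' → κ' ≤ κ → r κ' Y m a + (κ - κ') / 3 ≤ E
  /-- (P') Gauss side to character side (106: everything merged, the family is the unshortened
  `2n - κ` for every shortening): noncube columns (families shorter than a smooth piece are empty)
  and the cube column -/
  poisG : ∀ (κ : ℝ) (Y : Multiset ℝ) (m a E : ℝ), 0 ≤ κ → Ok Y m a →
    κ + (Y.sum + m + a) ≤ E →
    (∀ (Y' : Multiset ℝ) (m' a' i : ℝ), Sh Y' Y → 0 ≤ m' → m' ≤ m → 0 ≤ a' → a' ≤ a → 0 ≤ i →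
      (∀ y ∈ Y', y ≤ i) → i ≤ 2 * (Y.sum + m + a) - κ →
      κ - (Y'.sum + m' + a') + r i Y' m' a' + (2 * (Y.sum + m + a) - κ - i) / 3 ≤ E) →
    (∀ (Y' : Multiset ℝ) (m' a' : ℝ), Sh Y' Y → 0 ≤ m' → m' ≤ m → 0 ≤ a' → a' ≤ a →
      κ ≤ 2 * (Y.sum + m + a) →
      κ - (Y'.sum + m' + a') + (2 * (Y.sum + m + a) - κ) / 3 + 2 * a' + 2 * θ * m' ≤ E) →
    ∀ κ' : ℝ, 0 ≤ κ' → κ' ≤ κ → s κ' Y m a + (κ - κ') / 3 ≤ E
  /-- (C) Cauchy on the Gauss side: granular mass, or one smooth piece, goes to the family -/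
  cau : ∀ (κ : ℝ) (Y : Multiset ℝ) (m a b c : ℝ), 0 ≤ κ → Ok Y m a → 0 ≤ b → b ≤ m → 0 ≤ c →
    c ≤ a → s κ Y m a ≤ (b + c) + s (κ + (b + c)) Y (m - b) (a - c)
  cauS : ∀ (κ y : ℝ) (Y : Multiset ℝ) (m a : ℝ), 0 ≤ κ → 0 ≤ y → Ok Y m a →
    s κ (y ::ₘ Y) m a ≤ y + s (κ + y) Y m a
  /-- (F) functional equation of one smooth piece (`t` : exponent of the square part) -/
  flip : ∀ (κ y : ℝ) (Y : Multiset ℝ) (m a E : ℝ), 0 ≤ κ → 0 ≤ y → Ok Y m a →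
    (∀ y' : ℝ, 0 ≤ y' → y' ≤ y → 2 * y' ≤ κ → r κ (y' ::ₘ Y) m a ≤ E) →
    (∀ y' t : ℝ, y' ≤ y → y' ≤ κ → κ ≤ 2 * y' → 0 ≤ t → t ≤ κ - y' →
      2 * y' - κ + t + r κ ((κ - t - y') ::ₘ Y) m a ≤ E) →
    r κ (y ::ₘ Y) m a ≤ E
  /-- (SUP) pointwise bound of granular mass and of one smooth piece -/
  sup : ∀ (κ : ℝ) (Y : Multiset ℝ) (m a b c : ℝ), 0 ≤ κ → Ok Y m a → 0 ≤ b → b ≤ m → 0 ≤ c →
    c ≤ a → r κ Y m a ≤ 2 * θ * (b + c) + r κ Y (m - b) (a - c)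
  supS : ∀ (κ y : ℝ) (Y : Multiset ℝ) (m a : ℝ), 0 ≤ κ → 0 ≤ y → Ok Y m a →
    r κ (y ::ₘ Y) m a ≤ 2 * θ * y + r κ Y m a
  /-- a smooth piece of length `0` is trivial -/
  zero : ∀ (κ : ℝ) (Y : Multiset ℝ) (m a : ℝ), 0 ≤ κ → Ok Y m a →
    r κ (0 ::ₘ Y) m a ≤ r κ Y m a
  zeroG : ∀ (κ : ℝ) (Y : Multiset ℝ) (m a : ℝ), 0 ≤ κ → Ok Y m a →
    s κ (0 ::ₘ Y) m a ≤ s κ Y m a

/-- (LB) the B-line: `(Y, m₀, a₀)` a sub-side containing all smooth pieces, of relative length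
`≥ 5/6`, ideal up to `e`; if the smooth pieces are longer than `4/3 κ` their product must be
ideal. -/
structure ExpLB (θ : ℝ) (r : EF) : Prop where
  lb : ∀ (e κ : ℝ) (Y : Multiset ℝ) (m a m₀ a₀ : ℝ), 0 ≤ e → 0 ≤ κ → Ok Y m a →
    (∀ y ∈ Y, y ≤ κ) → 0 ≤ m₀ → m₀ ≤ m → 0 ≤ a₀ → a₀ ≤ a → 5 * κ ≤ 6 * (Y.sum + m₀ + a₀) →
    r κ Y m₀ a₀ ≤ κ + (Y.sum + m₀ + a₀) + e →
    (4 * κ < 3 * Y.sum → r κ Y 0 0 ≤ κ + Y.sum) →
    r κ Y m a ≤ max (5 / 3 * (Y.sum + m + a) + 4 / 9 * κ + e)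
      (2 * θ * (Y.sum + m + a) + 8 / 3 * (1 - θ) * κ)

/-- a monomial of length `l` and level `v` over a family `κ` is counted by Halász–Montgomery:
the number of `k` with this level is at most `X^{2 (l - v)}` ((LV), lengths `≥ 4/3 κ`, density
`≥ 5/6`; (LV'), any length, by the pointwise bound for the pair sums) -/
def LVok (θ κ l v : ℝ) : Prop :=
  (4 / 3 * κ ≤ l ∧ 5 / 6 * l ≤ v) ∨ (2 - θ) * l + (2 * θ - 1) * κ ≤ 2 * v

/-- (Lv) level rule with powers. `x j` level of the smooth piece `y j` (`|P_j(k)| ~ X^{x j}`),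
`ω`, `α` levels of the two granular products (any reals below the sup levels); a monomial =
multiplicities `n j` of the smooth pieces and granular masses `f`, `g` (powers allowed); it is
counted either by (LV) or by a second moment, or trivially. The hypothesis is for all
shortenings. -/
structure ExpLv (θ : ℝ) (r : EF) : Prop where
  lev : ∀ (N : ℕ) (Y : Fin N → ℝ) (κ M A E : ℝ), 0 ≤ κ → (∀ j, 0 ≤ Y j ∧ Y j ≤ κ) → 0 ≤ M →
    0 ≤ A →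
    (∀ (y x : Fin N → ℝ) (m a ω α : ℝ), (∀ j, 0 ≤ y j ∧ y j ≤ Y j) → 0 ≤ m → m ≤ M →
      0 ≤ a → a ≤ A → (∀ j, x j ≤ θ * y j) → ω ≤ θ * m → α ≤ θ * a →
      -- Halász–Montgomery
      (∃ (n : Fin N → ℕ) (f g : ℝ), 0 ≤ f ∧ (m = 0 → f = 0) ∧ 0 ≤ g ∧ (a = 0 → g = 0) ∧
        LVok θ κ ((∑ j, (n j : ℝ) * y j) + f + g)
          ((∑ j, (n j : ℝ) * x j) + f * (ω / m) + g * (α / a)) ∧
        2 * (((∑ j, (n j : ℝ) * y j) + f + g) -
            ((∑ j, (n j : ℝ) * x j) + f * (ω / m) + g * (α / a))) +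
          2 * ((∑ j, x j) + ω + α) ≤ E) ∨
      -- second moment of a monomial
      (∃ (n : Fin N → ℕ) (f g : ℝ), 0 ≤ f ∧ (m = 0 → f = 0) ∧ 0 ≤ g ∧ (a = 0 → g = 0) ∧
        r κ (∑ j, Multiset.replicate (n j) (y j)) f g -
          2 * ((∑ j, (n j : ℝ) * x j) + f * (ω / m) + g * (α / a)) +
          2 * ((∑ j, x j) + ω + α) ≤ E) ∨
      -- all `k`
      κ + 2 * ((∑ j, x j) + ω + α) ≤ E) →
    r κ (Finset.univ.val.map Y) M A ≤ E

/-- the absolute box `bx κ Y m a` (exponent of `∑_k ∏ |P(k)|`, same set of `k`), and the outer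
level rule: monomials with powers, counted by second moments (`r` over lists with repetitions). -/
structure ExpBox (θ : ℝ) (r bx : EF) : Prop where
  sup : ∀ (κ : ℝ) (Y : Multiset ℝ) (m a b c : ℝ), 0 ≤ κ → Ok Y m a → 0 ≤ b → b ≤ m → 0 ≤ c →
    c ≤ a → bx κ Y m a ≤ θ * (b + c) + bx κ Y (m - b) (a - c)
  supS : ∀ (κ y : ℝ) (Y : Multiset ℝ) (m a : ℝ), 0 ≤ κ → 0 ≤ y → Ok Y m a →
    bx κ (y ::ₘ Y) m a ≤ θ * y + bx κ Y m a
  outer : ∀ (N : ℕ) (u : Fin N → ℝ) (κ m a E : ℝ), 0 ≤ κ → (∀ j, 0 ≤ u j) → 0 ≤ m → 0 ≤ a →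
    (∀ (x : Fin N → ℝ) (ω α : ℝ), (∀ j, x j ≤ θ * u j) → ω ≤ θ * m → α ≤ θ * a →
      (∃ (n : Fin N → ℕ) (f g : ℝ), 0 ≤ f ∧ (m = 0 → f = 0) ∧ 0 ≤ g ∧ (a = 0 → g = 0) ∧
        r κ (∑ j, Multiset.replicate (n j) (u j)) f g -
          2 * ((∑ j, (n j : ℝ) * x j) + f * (ω / m) + g * (α / a)) +
          ((∑ j, x j) + ω + α) ≤ E) ∨
      κ + ((∑ j, x j) + ω + α) ≤ E) →
    bx κ (Finset.univ.val.map u) m a ≤ E

/-- `s₀` = cube-free families `j = j₀ j₁²` (all signs, conductor of `χ_j` at most `κ`); the cube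
part is the slope `1/3` of the field `cube`; (C) keeps the family cube-free. -/
structure ExpS0 (s s₀ : EF) : Prop where
  le : ∀ (κ : ℝ) (Y : Multiset ℝ) (m a : ℝ), 0 ≤ κ → Ok Y m a → s₀ κ Y m a ≤ s κ Y m a
  cube : ∀ (κ : ℝ) (Y : Multiset ℝ) (m a E : ℝ), 0 ≤ κ → Ok Y m a →
    (∀ u : ℝ, 0 ≤ u → 3 * u ≤ κ → u + s₀ (κ - 3 * u) Y m a ≤ E) → s κ Y m a ≤ E
  cau : ∀ (κ : ℝ) (Y : Multiset ℝ) (m a b c : ℝ), 0 ≤ κ → Ok Y m a → 0 ≤ b → b ≤ m → 0 ≤ c →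
    c ≤ a → s₀ κ Y m a ≤ (b + c) + s₀ (κ + (b + c)) Y (m - b) (a - c)
  cauS : ∀ (κ y : ℝ) (Y : Multiset ℝ) (m a : ℝ), 0 ≤ κ → 0 ≤ y → Ok Y m a →
    s₀ κ (y ::ₘ Y) m a ≤ y + s₀ (κ + y) Y m a

/-- (REM, joint) positivity of the exact square in the family `K`, `n ≤ K ≤ 2 n`, side of length
`n = y₁ + y₂ + y₃ + m + a` with three smooth pieces `≥ n/5`. Top level `A = 2 n - K`; `v ≥ A` any
level with `3 v ≤ 2 K` (`K = 2 n - v` : flat bound; `v > A` : above the top). The bound is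
`E + (v' - A)⁺ / 3` with any `E ≥ 2 n` such that the character side over the complete family
`v + n - K` (cube-free `i` with slope `1/3`, and cube column) is at most
`E - ((v + n - K) - (K - n))⁺ / 3`. The hypothesis is for all sides with `z₁ + z₂ ≤ y₁ + y₂`,
`z₃ ≤ y₃` (shortenings, and the replaced sides of the exceptional class; `hT`, `hT'` serve the
exceptional class). -/
structure ExpRem (θ : ℝ) (r s s₀ : EF) : Prop extends ExpS0 s s₀ where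
  rem : ∀ (K v y₁ y₂ y₃ m a n E T : ℝ), 0 ≤ m → 0 ≤ a → 0 ≤ n →
    n = y₁ + y₂ + y₃ + m + a → n ≤ 5 * y₁ → n ≤ 5 * y₂ → n ≤ 5 * y₃ →
    n ≤ K → K ≤ 2 * n → 2 * n ≤ K + v → K ≤ v + n → 3 * v ≤ 2 * K → 2 * n ≤ E →
    T = E + (v + K - 2 * n) / 3 → v + n + n / 5 ≤ T → 2 * v + 2 * n + n / 5 + (m + a) ≤ 2 * T →
    (∀ z₁ z₂ z₃ m' a' i : ℝ, 0 ≤ z₁ → 0 ≤ z₂ → 0 ≤ z₃ → z₁ + z₂ ≤ y₁ + y₂ → z₃ ≤ y₃ →
      0 ≤ m' → m' ≤ m → 0 ≤ a' → a' ≤ a → z₁ ≤ i → z₂ ≤ i → z₃ ≤ i → i ≤ v + n - K →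
      r i {z₁, z₂, z₃} m' a' + (v + n - K - i) / 3 + max 0 ((v + 2 * n - 2 * K) / 3) ≤ E) →
    2 * a + 2 * θ * m + (v + n - K) / 3 + max 0 ((v + 2 * n - 2 * K) / 3) ≤ E →
    ∀ v' : ℝ, 0 ≤ v' → v' ≤ v →
      s₀ v' {y₁, y₂, y₃} m a ≤ E + max 0 ((v' + K - 2 * n) / 3)

/-- adding a smooth piece of length `0` (for the use of the theorems on `{y₁, y₂, ..}` with fewer
pieces; provider: `Pad_911`) -/
structure ExpPad (r : EF) : Prop where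
  pad : ∀ (κ : ℝ) (Y : Multiset ℝ) (m a : ℝ), 0 ≤ κ → Ok Y m a →
    r κ Y m a ≤ r κ (0 ::ₘ Y) m a

/-! ### first consequences -/

variable {θ : ℝ} {r s : EF}

theorem ExpPad.pair (P : ExpPad r) {κ y m a : ℝ} (hκ : 0 ≤ κ) (hy : 0 ≤ y) (hm : 0 ≤ m)
    (ha : 0 ≤ a) : r κ {y} m a ≤ r κ {y, 0} m a := by
  have h := P.pad κ {y} m a hκ
    ⟨fun z hz => by rw [Multiset.mem_singleton] at hz; rw [hz]; exact hy, hm, ha⟩
  have e : (0 ::ₘ {y} : Multiset ℝ) = {y, 0} := by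
    rw [Multiset.insert_eq_cons, ← Multiset.singleton_add, ← Multiset.singleton_add, add_comm]
  rwa [e] at h

theorem ExpPad.empty (P : ExpPad r) {κ m a : ℝ} (hκ : 0 ≤ κ) (hm : 0 ≤ m) (ha : 0 ≤ a) :
    r κ 0 m a ≤ r κ {0, 0} m a := by
  have h := P.pad κ 0 m a hκ ⟨fun z hz => absurd hz (Multiset.notMem_zero z), hm, ha⟩
  have h2 := P.pad κ (0 ::ₘ 0) m a hκ ⟨fun z hz => by
    rw [Multiset.mem_cons] at hz
    rcases hz with rfl | hz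
    · exact le_rfl
    · exact absurd hz (Multiset.notMem_zero z), hm, ha⟩
  exact h.trans h2

/-- a zero lump in front of a sum -/
theorem ExpPad.cons (P : ExpPad r) {κ m a : ℝ} {Y : Multiset ℝ} (hκ : 0 ≤ κ) (hY : Ok Y m a)
    (n : ℕ) : r κ Y m a ≤ r κ (Multiset.replicate n 0 + Y) m a := by
  induction n with
  | zero => simp
  | succ n ih =>
    refine ih.trans ?_
    rw [Multiset.replicate_succ, Multiset.cons_add]
    refine P.pad κ _ m a hκ ⟨fun y hy => ?_, hY.2.1, hY.2.2⟩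
    rcases Multiset.mem_add.1 hy with h | h
    · rw [Multiset.eq_of_mem_replicate h]
    · exact hY.1 y h

theorem Sh.sum_le {Y' Y : Multiset ℝ} (h : Sh Y' Y) : Y'.sum ≤ Y.sum := by
  refine Multiset.sum_le_sum_of_rel_le ?_
  exact h.mono fun a _ b _ hab => hab.2

theorem Sh.nonneg {Y' Y : Multiset ℝ} (h : Sh Y' Y) : ∀ y ∈ Y', 0 ≤ y := by
  intro y hy
  obtain ⟨b, _, hb⟩ := Multiset.exists_mem_of_rel_of_mem h hy
  exact hb.1

theorem Sh.sum_nonneg {Y' Y : Multiset ℝ} (h : Sh Y' Y) : 0 ≤ Y'.sum :=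
  Multiset.sum_nonneg h.nonneg

theorem Sh.ok {Y' Y : Multiset ℝ} {m' a' : ℝ} (h : Sh Y' Y) (hm : 0 ≤ m') (ha : 0 ≤ a') :
    Ok Y' m' a' := ⟨h.nonneg, hm, ha⟩

theorem Sh.refl {Y : Multiset ℝ} (h : ∀ y ∈ Y, 0 ≤ y) : Sh Y Y :=
  Multiset.rel_refl_of_refl_on fun y hy => ⟨h y hy, le_rfl⟩

theorem Sh.trans {X Y Z : Multiset ℝ} (h : Sh X Y) (h' : Sh Y Z) : Sh X Z := by
  have : IsTrans ℝ (fun a b : ℝ => 0 ≤ a ∧ a ≤ b) := ⟨fun a b c h1 h2 => ⟨h1.1, h1.2.trans h2.2⟩⟩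
  exact Multiset.Rel.trans _ h h'

theorem Sh.card {Y' Y : Multiset ℝ} (h : Sh Y' Y) : Y'.card = Y.card :=
  Multiset.card_eq_card_of_rel h

theorem Sh.cons {a y : ℝ} {Y' Y : Multiset ℝ} (h0 : 0 ≤ a) (h1 : a ≤ y) (h : Sh Y' Y) :
    Sh (a ::ₘ Y') (y ::ₘ Y) := Multiset.Rel.cons ⟨h0, h1⟩ h

theorem Sh.of_cons {Y' Y : Multiset ℝ} {y : ℝ} (h : Sh Y' (y ::ₘ Y)) :
    ∃ (a : ℝ) (Z : Multiset ℝ), Y' = a ::ₘ Z ∧ 0 ≤ a ∧ a ≤ y ∧ Sh Z Y := by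
  unfold Sh at h
  rw [Multiset.rel_cons_right] at h
  obtain ⟨a, Z, h1, h2, rfl⟩ := h
  exact ⟨a, Z, rfl, h1.1, h1.2, h2⟩

theorem Sh.zero {Y' : Multiset ℝ} (h : Sh Y' 0) : Y' = 0 := by
  unfold Sh at h
  rwa [Multiset.rel_zero_right] at h

theorem Sh.pair {Y' : Multiset ℝ} {y₁ y₂ : ℝ} (h : Sh Y' {y₁, y₂}) :
    ∃ a₁ a₂ : ℝ, Y' = {a₁, a₂} ∧ 0 ≤ a₁ ∧ a₁ ≤ y₁ ∧ 0 ≤ a₂ ∧ a₂ ≤ y₂ := by
  obtain ⟨a₁, Z, rfl, h1, h2, h3⟩ := Sh.of_cons (Y := {y₂}) (y := y₁) h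
  obtain ⟨a₂, Z2, rfl, h4, h5, h6⟩ := Sh.of_cons (Y := 0) (y := y₂) h3
  rw [h6.zero]
  exact ⟨a₁, a₂, rfl, h1, h2, h4, h5⟩

/-- splitting a shortening along a sum of multisets -/
theorem Sh.of_add {Y' Y V : Multiset ℝ} (h : Sh Y' (Y + V)) :
    ∃ Y₁ V₁ : Multiset ℝ, Y' = Y₁ + V₁ ∧ Sh Y₁ Y ∧ Sh V₁ V := by
  unfold Sh at h
  rw [Multiset.rel_add_right] at h
  obtain ⟨Y₁, V₁, h1, h2, rfl⟩ := h
  exact ⟨Y₁, V₁, rfl, h1, h2⟩

/-- (C) with a whole multiset of smooth pieces -/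
theorem ExpRules.cauV (R : ExpRules θ r s) (κ : ℝ) (Y V : Multiset ℝ) (m a : ℝ) (hκ : 0 ≤ κ)
    (hY : Ok Y m a) (hV : ∀ y ∈ V, 0 ≤ y) : s κ (V + Y) m a ≤ V.sum + s (κ + V.sum) Y m a := by
  induction V using Multiset.induction_on generalizing κ with
  | empty => simp
  | cons v V ih =>
    have hv : 0 ≤ v := hV v (Multiset.mem_cons_self v V)
    have hV' : ∀ y ∈ V, 0 ≤ y := fun y hy => hV y (Multiset.mem_cons_of_mem hy)
    have h1 := R.cauS κ v (V + Y) m a hκ hv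
      ⟨fun y hy => by
        rcases Multiset.mem_add.1 hy with h | h
        · exact hV' y h
        · exact hY.1 y h, hY.2.1, hY.2.2⟩
    have h2 := ih (κ + v) (by linarith) hV'
    rw [Multiset.cons_add, Multiset.sum_cons]
    have e : κ + (v + V.sum) = κ + v + V.sum := by ring
    rw [e]
    linarith

/-- (P') in the form of v2.3 (two kinds of columns) -/
theorem ExpRules.poisG3 (R : ExpRules θ r s) (κ : ℝ) (Y : Multiset ℝ) (m a E : ℝ) (hκ : 0 ≤ κ)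
    (hY : Ok Y m a) (hE : κ + (Y.sum + m + a) ≤ E)
    (hcol : ∀ (Y' : Multiset ℝ) (m' a' i : ℝ), Sh Y' Y → 0 ≤ m' → m' ≤ m → 0 ≤ a' → a' ≤ a →
      0 ≤ i → (∀ y ∈ Y', y ≤ i) → i ≤ 2 * (Y'.sum + m' + a') - κ →
      κ + (Y.sum + m + a) - 2 * (Y'.sum + m' + a') + r i Y' m' a' +
        (2 * (Y'.sum + m' + a') - κ - i) / 3 ≤ E)
    (hcol' : ∀ (Y' : Multiset ℝ) (m' a' i : ℝ), Sh Y' Y → 0 ≤ m' → m' ≤ m → 0 ≤ a' → a' ≤ a →
      0 ≤ i → (∀ y ∈ Y', y ≤ i) → 2 * (Y'.sum + m' + a') - κ ≤ i →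
      i ≤ 2 * (Y.sum + m + a) - κ →
      (Y.sum + m + a) - (Y'.sum + m' + a') + r i Y' m' a' + (κ - i) / 2 ≤ E)
    (hcube : ∀ (Y' : Multiset ℝ) (m' a' : ℝ), Sh Y' Y → 0 ≤ m' → m' ≤ m → 0 ≤ a' → a' ≤ a →
      κ ≤ 2 * (Y.sum + m + a) →
      κ + (Y.sum + m + a) - 2 * (Y'.sum + m' + a') + (2 * (Y'.sum + m' + a') - κ) / 3 +
        2 * a' + 2 * θ * m' ≤ E) (κ' : ℝ) (hκ' : 0 ≤ κ') (hκκ : κ' ≤ κ) :
    s κ' Y m a + (κ - κ') / 3 ≤ E := by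
  refine R.poisG κ Y m a E hκ hY hE ?_ ?_ κ' hκ' hκκ
  · intro Y' m' a' i h hm0 hm1 ha0 ha1 hi hy hi2
    have hs := h.sum_le
    rcases le_total i (2 * (Y'.sum + m' + a') - κ) with hc | hc
    · have := hcol Y' m' a' i h hm0 hm1 ha0 ha1 hi hy hc
      linarith
    · have := hcol' Y' m' a' i h hm0 hm1 ha0 ha1 hi hy hc hi2
      linarith
  · intro Y' m' a' h hm0 hm1 ha0 ha1 hk
    have hs := h.sum_le
    have := hcube Y' m' a' h hm0 hm1 ha0 ha1 hk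
    linarith

end Crest.Agent.R017.ER911
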