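import Crest.Agent.R017.XCub_71

/-!
# Row 17: `ExpS0` from the box rules (helper986)
-/

set_option autoImplicit false

noncomputable section

namespace Crest.Agent.R017.ProvS986

open Crest.Agent.R012 Crest.Agent.R012.Eis Crest.Agent.R012.LS2
open Crest.Agent.R017.XG702 (Pcs BG)
open Crest.Agent.R017.ER911
open Crest.Agent.R017.Prov71

/-- **`ExpS0` from the box rules** -/
theorem expS0_of {Pc Lam : Type*} {D : Pcs Pc Kd} {S S₀ : Lam → ℝ → List Pc → ℝ}
    (permS : Pinv S) (permS₀ : Pinv S₀) (trivS : Triv D S)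
    (le : ∀ lam l ps, S₀ lam l ps ≤ S lam l ps)
    (cube : ∀ (κ : ℝ) (u : List ℝ) (m a E : ℝ), 0 ≤ κ → Okl u m a →
      (∀ i, 0 ≤ i → i ≤ κ → BG D S₀ i u (wt m a) (E - (κ - i) / 3)) → BG D S κ u (wt m a) E)
    (cau : ∀ (κ : ℝ) (u : List ℝ) (m a b c e : ℝ), 0 ≤ κ → Okl u m a → 0 ≤ b → b ≤ m → 0 ≤ c →
      c ≤ a → BG D S₀ (κ + (b + c)) u (wt (m - b) (a - c)) e → BG D S₀ κ u (wt m a) ((b + c) + e))
    (cauS : ∀ (κ y : ℝ) (u : List ℝ) (m a e : ℝ), 0 ≤ κ → 0 ≤ y → Okl u m a →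
      BG D S₀ (κ + y) u (wt m a) e → BG D S₀ κ (y :: u) (wt m a) (y + e)) :
    ExpS0 (ex D S) (ex D S₀) := by
  have trivS₀ : Triv D S₀ := fun κ u m a hκ hu => by
    obtain ⟨e, he⟩ := trivS κ u m a hκ hu
    exact ⟨e, he.comp le⟩
  refine ⟨?_, ?_, ?_, ?_⟩
  · intro κ Y m a hκ hY
    have h1 := ex_spec permS trivS (κ := κ) hκ (okl_of hY)
    have h2 := ex_le' (D := D) (Ψ := S₀) (ex_nonneg (D := D) (Ψ := S) κ Y.toList m a)
      (h1.comp le)
    rwa [Multiset.coe_toList] at h2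
  · intro κ Y m a E hκ hY hch
    have h := cube κ Y.toList m a E hκ (okl_of hY) (fun i hi0 hi1 => by
      have h1 := hch ((κ - i) / 3) (by linarith) (by linarith)
      have e : κ - 3 * ((κ - i) / 3) = i := by ring
      rw [e] at h1
      refine BG_of_ex permS₀ trivS₀ hi0 (okl_of hY) ?_
      rw [Multiset.coe_toList]
      linarith)
    have h0 : 0 ≤ E := by
      have h1 := hch 0 le_rfl (by linarith)
      have := ex_nonneg (D := D) (Ψ := S₀) (κ - 3 * 0) Y m a
      linarith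
    exact ex_le' h0 h
  · intro κ Y m a b c hκ hY hb0 hb1 hc0 hc1
    have h0 : Okl Y.toList (m - b) (a - c) :=
      ⟨(okl_of hY).1, by linarith, by linarith⟩
    have h1 := ex_spec permS₀ trivS₀ (κ := κ + (b + c)) (by linarith) h0
    have h2 := cau κ Y.toList m a b c _ hκ (okl_of hY) hb0 hb1 hc0 hc1 h1
    have h3 := ex_le' (D := D) (Ψ := S₀) (by
      have := ex_nonneg (D := D) (Ψ := S₀) (κ + (b + c)) Y.toList (m - b) (a - c)
      linarith) h2
    rwa [Multiset.coe_toList] at h3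
  · intro κ y Y m a hκ hy hY
    have h1 := ex_spec permS₀ trivS₀ (κ := κ + y) (by linarith) (okl_of hY)
    have h2 := cauS κ y Y.toList m a _ hκ hy (okl_of hY) h1
    have h3 := ex_le permS₀ (by
      have := ex_nonneg (D := D) (Ψ := S₀) (κ + y) Y.toList m a
      linarith) h2
    rw [← Multiset.cons_coe, Multiset.coe_toList] at h3
    exact h3

end Crest.Agent.R017.ProvS986
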