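import Crest.Agent.R017.C1Id_61
import Crest.Agent.R017.Ey_645

/-!
# Row 17, section D: five pure lumps behind a short `X` (helper645)

* `col_pure` : the level rule for pure lumps (no granular mass), in excess coordinates.
* `five` : side `X` (lumps and granular mass, length `≤ ξ`) `·` five lumps `≤ w`, ideal for
  `ξ ≤ 2/3 κ - 4.033 w`, `15 ξ ≤ 13 κ - 83 w`.
* `sid6` : `{w^6 | 0}` for `κ ≥ 7.55 w`.
-/

set_option autoImplicit false

noncomputable section

namespace Crest.Agent.R017.Five645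

open Crest.Agent.R017.ER911 Crest.Agent.R017.SC777 Crest.Agent.R017.CE645
open Crest.Agent.R017.C161 Crest.Agent.R017.C1S744

variable {θ d : ℝ} {r s : EF}

/-- **the level rule for pure lumps** -/
theorem col_pure (Lv : ExpLv θ r) (hθ : 1 / 2 ≤ θ) {Z : Multiset ℝ} {i T w : ℝ} {p : ℕ}
    (hi : 0 ≤ i) (hZ : ∀ y ∈ Z, 0 ≤ y ∧ y ≤ i ∧ y ≤ w) (hp : Multiset.card Z ≤ p) (hT : i ≤ T)
    (H : ∀ y φ : ℝ, 0 ≤ y → y ≤ w → y ≤ i → 0 ≤ φ → φ ≤ (2 * θ - 1) * y →
      (∃ k : ℕ, LVe θ i (k * y) (k * φ) ∧ k * y + ((p : ℝ) - k) * φ ≤ T) ∨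
      (∃ (k : ℕ) (e : ℝ), r i (Multiset.replicate k y) 0 0 ≤ i + k * y + e ∧
        i + e + ((p : ℝ) - k) * φ ≤ T)) :
    r i Z 0 0 ≤ Z.sum + T := by
  obtain ⟨Y, hY⟩ := CE645.exists_fin Z
  have hYj : ∀ j, 0 ≤ Y j ∧ Y j ≤ i ∧ Y j ≤ w := by
    intro j
    refine hZ _ ?_
    rw [← hY]; exact Multiset.mem_map_of_mem Y (Finset.mem_univ_val j)
  have hsum : Z.sum = ∑ j, Y j := by
    conv_lhs => rw [← hY]
    rfl
  have hcard : ((Multiset.card Z : ℕ) : ℝ) ≤ (p : ℝ) := by exact_mod_cast hp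
  have key := col_phi Lv hθ Y (i := i) (M := 0) (A := 0) (T := T) hi
    (fun j => ⟨(hYj j).1, (hYj j).2.1⟩) le_rfl le_rfl ?_
  · rw [hY] at key
    rw [hsum]
    linarith
  · intro y φ δ hy hφ hδ0 hδ1
    rcases Nat.eq_zero_or_pos (Multiset.card Z) with h0 | h0
    · -- no lumps
      refine Or.inr (Or.inr ?_)
      have : IsEmpty (Fin (Multiset.card Z)) := by rw [h0]; infer_instance
      simp [hT]
    · have : Nonempty (Fin (Multiset.card Z)) := ⟨⟨0, h0⟩⟩
      obtain ⟨b, hb⟩ := Finite.exists_max φ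
      have hsφ : ∑ j, φ j ≤ (Multiset.card Z : ℝ) * φ b := by
        have := Finset.sum_le_card_nsmul Finset.univ φ (φ b) fun j _ => hb j
        rw [Finset.card_univ, Fintype.card_fin, nsmul_eq_mul] at this
        exact this
      rcases lt_or_ge (φ b) 0 with hneg | hpos
      · refine Or.inr (Or.inr ?_)
        have : (Multiset.card Z : ℝ) * φ b ≤ 0 :=
          mul_nonpos_of_nonneg_of_nonpos (Nat.cast_nonneg _) hneg.le
        linarith
      · have hsφ' : ∑ j, φ j ≤ (p : ℝ) * φ b :=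
          hsφ.trans (mul_le_mul_of_nonneg_right hcard hpos)
        rcases H (y b) (φ b) (hy b).1 ((hy b).2.trans (hYj b).2.2) ((hy b).2.trans (hYj b).2.1)
          hpos (hφ b) with ⟨k, hLV, hle⟩ | ⟨k, e, hr, hle⟩
        · refine Or.inl ⟨Pi.single b k, 0, le_rfl, fun _ => rfl, ?_, ?_⟩
          · rw [sum_single, sum_single]
            simpa using hLV
          · rw [sum_single, sum_single]
            linarith
        · refine Or.inr (Or.inl ⟨Pi.single b k, 0, e, le_rfl, fun _ => rfl, ?_, ?_⟩)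
          · rw [rep_single]
            have hs : (Multiset.replicate k (y b)).sum = k * y b := by
              rw [Multiset.sum_replicate, nsmul_eq_mul]
            constructor <;> · rw [hs]; linarith
          · rw [sum_single]
            linarith

/-- `{y^4 | 0}` at every family -/
theorem four0 (R : ExpRules (7 / 8 + d) r s) (hd : 0 ≤ d) {y i : ℝ} (hy : 0 ≤ y) (hi : 0 ≤ i) :
    r i (Multiset.replicate 4 y) 0 0 ≤ i + 4 * y + (max 0 (2 / 3 * (5 * y - i)) + 2 * d * y) := by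
  have hsum : (Multiset.replicate 4 y).sum = 4 * y := by
    rw [Multiset.sum_replicate, nsmul_eq_mul]; norm_num
  have base : ∀ κ : ℝ, 5 * y ≤ κ → Idl r y κ 4 0 (2 * d * y) := by
    intro κ hκ
    refine idl_T6 R hd (g := 0) 1 1 hy (by linarith) le_rfl le_rfl ?_ ?_ ?_ ?_ ?_
    · push_cast; linarith
    · push_cast; linarith
    · push_cast; linarith
    · push_cast; linarith
    · push_cast; linarith
  have mem : ∀ z ∈ Multiset.replicate 4 y, 0 ≤ z ∧ z ≤ y := fun z hz => by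
    rw [Multiset.eq_of_mem_replicate hz]; exact ⟨hy, le_rfl⟩
  rcases le_total (5 * y) i with h | h
  · have := (base i h).at (Multiset.card_replicate _ _) mem le_rfl le_rfl (by norm_num) hi
    rw [hsum] at this
    have h0 : 0 ≤ max 0 (2 / 3 * (5 * y - i)) := le_max_left _ _
    linarith
  · have := ((base (5 * y) le_rfl).down (κ₁ := i) h le_rfl).at (Multiset.card_replicate _ _) mem
      le_rfl le_rfl (by norm_num) hi
    rw [hsum] at this
    have h0 : 2 / 3 * (5 * y - i) ≤ max 0 (2 / 3 * (5 * y - i)) := le_max_right _ _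
    linarith

/-- one column: five pure lumps, target `τ + i/3` -/
theorem five_col (R : ExpRules (7 / 8 + d) r s) (L : ExpLv (7 / 8 + d) r) (hd : 0 ≤ d)
    {Z : Multiset ℝ} {i w τ F : ℝ} (hw : 0 < w) (hi : 0 ≤ i)
    (hZ : ∀ y ∈ Z, 0 ≤ y ∧ y ≤ i ∧ y ≤ w) (hc : Multiset.card Z ≤ 5) (hτ : 4033 / 1000 * w ≤ τ)
    (hI : i ≤ 8 * τ - 83 / 3 * w) (hi5 : i ≤ 5 * w) (hF : 6 * d * w ≤ F) :
    r i Z 0 0 ≤ Z.sum + (τ + i / 3 + F) := by
  have hdw : 0 ≤ d * w := mul_nonneg hd hw.le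
  refine col_pure L (by linarith) (p := 5) hi hZ hc (by linarith) ?_
  intro y φ hy hyw hyi hφ0 hφ
  have hdy : d * y ≤ d * w := mul_le_mul_of_nonneg_left hyw hd
  have hdi : d * i ≤ d * (5 * w) := mul_le_mul_of_nonneg_left hi5 hd
  have hdy0 : 0 ≤ d * y := mul_nonneg hd hy
  have hdi0 : 0 ≤ d * i := mul_nonneg hd hi
  have hφ' : φ ≤ 3 / 4 * y + 2 * (d * y) := by linarith
  -- the fourth moment
  by_cases hM : φ ≤ τ + F - 2 * (d * y) - 10 / 3 * y ∧ φ ≤ τ + F - 2 * (d * y) - 2 / 3 * i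
  · refine Or.inr ⟨4, max 0 (2 / 3 * (5 * y - i)) + 2 * d * y,
      (four0 R hd hy hi).trans (le_of_eq (by push_cast; ring)), ?_⟩
    push_cast
    rcases le_total (5 * y) i with h | h
    · rw [max_eq_left (by linarith)]; linarith [hM.2]
    · rw [max_eq_right (by linarith)]; linarith [hM.1]
  · have hφ1 : τ + F - 2 * (d * y) - 10 / 3 * y < φ := by
      by_contra hcon
      push Not at hcon
      refine hM ⟨hcon, ?_⟩
      linarith
    have hy1 : 9876 / 10000 * w ≤ y := by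
      by_contra hcon
      push Not at hcon
      linarith
    left
    rcases le_total i (3 / 2 * y) with h1 | h1
    · refine ⟨2, Or.inl ⟨?_, ?_⟩, ?_⟩
      · push_cast; linarith
      · push_cast; linarith
      · push_cast; linarith
    rcases le_total i (9 / 4 * y) with h2 | h2
    · refine ⟨3, Or.inl ⟨?_, ?_⟩, ?_⟩
      · push_cast; linarith
      · push_cast; linarith
      · push_cast; linarith
    rcases le_total i (3 * y) with h3 | h3
    · refine ⟨4, Or.inl ⟨?_, ?_⟩, ?_⟩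
      · push_cast; linarith
      · push_cast; linarith
      · push_cast; linarith
    rcases le_total i (15 / 4 * y) with h4 | h4
    · refine ⟨5, Or.inl ⟨?_, ?_⟩, ?_⟩
      · push_cast; linarith
      · push_cast; linarith
      · push_cast; linarith
    -- five copies, the form below `4/3 i`
    by_cases h5 : (1 - (7 / 8 + d)) * (5 * y) + (2 * (7 / 8 + d) - 1) * i ≤ 5 * φ
    · refine ⟨5, Or.inr ?_, ?_⟩
      · push_cast; exact h5
      · push_cast; linarith
    push Not at h5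
    rcases le_total i (9 / 2 * y) with h6 | h6
    · refine ⟨6, Or.inl ⟨?_, ?_⟩, ?_⟩
      · push_cast; linarith
      · push_cast; linarith
      · push_cast; linarith
    · refine ⟨6, Or.inr ?_, ?_⟩
      · push_cast; linarith
      · push_cast; linarith

/-- **five pure lumps behind `X`**, `|X| ≤ ξ` -/
theorem five (R : ExpRules (7 / 8 + d) r s) (L : ExpLv (7 / 8 + d) r) (hd : 0 ≤ d)
    {κ w ξ b b' F : ℝ} {V Y : Multiset ℝ} (hw : 0 < w) (hκ : 15 / 2 * w ≤ κ) (hκ8 : κ ≤ 8 * w)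
    (hξ1 : ξ ≤ 2 / 3 * κ - 4033 / 1000 * w) (hξ2 : 15 * ξ ≤ 13 * κ - 83 * w)
    (hξ3 : κ - 5 * w ≤ 3 * ξ) (hV : ∀ y ∈ V, 0 ≤ y) (hY : ∀ y ∈ Y, 0 ≤ y ∧ y ≤ w)
    (hYc : Multiset.card Y = 5) (hb : 0 ≤ b) (hb' : 0 ≤ b') (hx : V.sum + b + b' ≤ ξ)
    (hF : 6 * d * w ≤ F) : ∀ κ' : ℝ, 0 ≤ κ' → κ' ≤ κ →
      r κ' (V + Y) b b' + (κ - κ') / 3 ≤ κ + (V.sum + Y.sum + b + b') + F := by
  have hdw : 0 ≤ d * w := mul_nonneg hd hw.le
  have hF0 : 0 ≤ F := by linarith
  have hYs : Y.sum ≤ 5 * w := by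
    have := Multiset.sum_le_card_nsmul Y w fun y hy => (hY y hy).2
    rw [hYc, nsmul_eq_mul] at this
    push_cast at this
    exact this
  have hC : ColX (7 / 8 + d) r κ ξ F Y 0 0 := by
    refine ⟨?_, ?_⟩
    · intro Z' m' a' i hZ' hm0 hm1 ha0 ha1 hi hyi hii
      have hm' : m' = 0 := le_antisymm hm1 hm0
      have ha' : a' = 0 := le_antisymm ha1 ha0
      subst hm' ha'
      have hc : Multiset.card Z' ≤ 5 := by rw [hZ'.card, hYc]
      have := five_col R L hd (Z := Z') (i := i) (w := w) (τ := 2 / 3 * κ - ξ) (F := F) hw hi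
        (fun y hy => by
          obtain ⟨z, hz, hyz⟩ := Multiset.exists_mem_of_rel_of_mem hZ' hy
          exact ⟨hyz.1, hyi y hy, hyz.2.trans (hY z hz).2⟩) hc (by linarith) (by linarith)
        (by linarith) hF
      linarith
    · intro Z' m' a' hZ' hm0 hm1 ha0 ha1 _
      have hm' : m' = 0 := le_antisymm hm1 hm0
      have ha' : a' = 0 := le_antisymm ha1 ha0
      subst hm' ha'
      have := hZ'.sum_nonneg
      linarith
  intro κ' h0 h1
  have key := side_xi R (κ := κ) (ξ := ξ) (m := 0) (b := b) (a := 0) (b' := b') (F := F) (V := V)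
    (Z := Y) (by linarith) hV (fun y hy => (hY y hy).1) le_rfl hb le_rfl hb' hF0 hx
    (by linarith) hC κ' h0 h1
  simpa using key

/-- `{w^6 | 0}` for `κ ≥ 7.55 w` -/
theorem sid6 (R : ExpRules (7 / 8 + d) r s) (L : ExpLv (7 / 8 + d) r) (hd : 0 ≤ d)
    {κ w F : ℝ} (hw : 0 < w) (hκ : 151 / 20 * w ≤ κ) (hκ8 : κ ≤ 8 * w) (hF : 6 * d * w ≤ F) :
    Sid r κ 6 w 0 F := by
  intro Y m a hYc hY hm ha hma
  have hm' : m = 0 := by linarith
  have ha' : a = 0 := by linarith
  subst hm' ha'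
  obtain ⟨v, hvY⟩ := Multiset.card_pos_iff_exists_mem.1 (show 0 < Multiset.card Y by omega)
  obtain ⟨Z, rfl⟩ := Multiset.exists_cons_of_mem hvY
  have hZc : Multiset.card Z = 5 := by
    rw [Multiset.card_cons] at hYc; omega
  have hv := hY v (Multiset.mem_cons_self v Z)
  have hZ : ∀ y ∈ Z, 0 ≤ y ∧ y ≤ w := fun y hy => hY y (Multiset.mem_cons_of_mem hy)
  intro κ' h0 h1
  have key := five R L hd (κ := κ) (w := w) (ξ := w) (b := 0) (b' := 0) (F := F) (V := {v})
    (Y := Z) hw (by linarith) hκ8 (by linarith) (by linarith) (by linarith)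
    (fun y hy => by rw [Multiset.mem_singleton] at hy; rw [hy]; exact hv.1) hZ hZc le_rfl le_rfl
    (by simpa using hv.2) hF κ' h0 h1
  rw [Multiset.singleton_add, Multiset.sum_singleton] at key
  rw [Multiset.sum_cons]
  exact key

end Crest.Agent.R017.Five645
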