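import Crest.Agent.R017.C1win_393
import Crest.Agent.R017.C1w2_83
import Crest.Agent.R017.C1w9_83
import Crest.Agent.R017.C1w8_73
import Crest.Agent.R017.C1w1b_61
import Crest.Agent.R017.C1ch_744
import Crest.Agent.R017.Five_645

/-!
# Row 17, section D: `E_y` (helper645)

The windows of 61, 73, 83, 393, the chain of 744 and the ceil sides of 708 give:

* `win_one`, `win2_all` : `Win r κ w ((4/3 d - μ) κ)` for `κ ≥ 27/4 w` outside
  `15/2 w < κ < 151/20 w`;
* `ey2` : the point `(2/(3 y) copies of y; 0; 1/6 - t/2)`, `0 < y ≤ 20/151` or `2/15 ≤ y ≤ 4/27`.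
-/

set_option autoImplicit false

noncomputable section

namespace Crest.Agent.R017.Ey2_645

open Crest.Agent.R017.ER911 Crest.Agent.R017.Hull741 Crest.Agent.R017.CovM59
open Crest.Agent.R017.SC777 Crest.Agent.R017.ExpC702 Crest.Agent.R017.ColG59
open Crest.Agent.R017.C1S744 Crest.Agent.R017.Ey645

variable {r s rc : EF} {d μ : ℝ}

/-- exact pair, unit `w = 1` -/
theorem of_exact1 {κ F : ℝ} {q : ℕ} (hκ : 6 ≤ κ) (h1 : (q : ℝ) ≤ 2 / 3 * κ)
    (h2 : 2 / 3 * κ ≤ (q : ℝ) + 1) (H0 : Sid r κ q 1 (5 / 6 * κ - q) F)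
    (H1 : Sid r κ (q + 1) 1 (5 / 6 * κ - ((q : ℝ) + 1)) F) : Win r κ 1 F := by
  refine Win.of_exact (q := q) one_pos (by linarith) (by linarith) (by linarith) ?_ ?_
  · rw [mul_one]; exact H0
  · rw [mul_one]; exact H1

/-- the window `[151/20, 61/8]` -/
theorem win_five (R : ExpRules (7 / 8 + d) r s) (L : ExpLv (7 / 8 + d) r) (hd : 0 ≤ d)
    (hμ2 : 9 * μ ≤ d) {κ : ℝ} (h1 : 151 / 20 ≤ κ) (h2 : κ ≤ 61 / 8) :
    Win r κ 1 ((4 / 3 * d - μ) * κ) := by
  have H5 := C161.idl5vF (w := 1) (κ := κ) R L hd hμ2 one_pos (by linarith) (by linarith)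
  have H6 := Five645.sid6 (w := 1) (κ := κ) (F := (4 / 3 * d - μ) * κ) R L hd one_pos
    (by linarith) (by linarith) (by
      have h3 : μ * κ ≤ d / 9 * κ := mul_le_mul_of_nonneg_right (by linarith) (by linarith)
      have h4 : d * (151 / 20) ≤ d * κ := mul_le_mul_of_nonneg_left h1 hd
      linarith)
  have h0 := mul_nonneg (sub_nonneg.2 h1) (sub_nonneg.2 h2)
  refine ⟨5, 5 / 6 * κ - 5 + 1 / 16, 0, 2 / 3 * κ - 5, by linarith, by linarith, ?_, by linarith,
    le_rfl, ?_, H6, ?_⟩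
  · push_cast; ring
  · exact Sid.mono H5 (by linarith) le_rfl
  · linarith

/-- **all windows**, unit `w = 1` -/
theorem win_one (R : ExpRules (7 / 8 + d) r s) (L : ExpLv (7 / 8 + d) r) (hd : 0 ≤ d)
    (hμ : 0 ≤ μ) (hμ1 : 240 * μ ≤ 1 - 8 * d) (hμ2 : 9 * μ ≤ d) {κ : ℝ} (h27 : 27 / 4 ≤ κ)
    (hh : κ ≤ 15 / 2 ∨ 151 / 20 ≤ κ) : Win r κ 1 ((4 / 3 * d - μ) * κ) := by
  have hd8 : d ≤ 1 / 8 := by linarith
  have hμ1' : 72 * μ ≤ 1 - 8 * d := by linarith
  have one : (0 : ℝ) < 1 := one_pos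
  have H6 : ∀ κ : ℝ, 33 / 4 ≤ κ → κ ≤ 9 → Sid r κ 6 1 (5 / 6 * κ - 6) ((4 / 3 * d - μ) * κ) := by
    intro κ h1 h2
    have := C161.idl6F (w := 1) (κ := κ) R L hd hd8 hμ2 one (by linarith) (by linarith)
    exact Sid.mono this (by linarith) le_rfl
  have ch : ∀ q : ℕ, 5 ≤ q → ∀ κ : ℝ, 3 / 2 * q - 3 / 4 ≤ κ → κ ≤ 3 / 2 * q + 2 →
      Sid r κ q 1 (5 / 6 * κ - q) ((4 / 3 * d - μ) * κ) := by
    intro q hq κ h1 h2
    have := chain (w := 1) R L hd hμ hμ1' hμ2 one (fun κ h1 h2 =>
      (H6 κ (by linarith) (by linarith)).mono (by linarith) le_rfl) q hq κ (by linarith)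
      (by linarith)
    exact this.mono (by linarith) le_rfl
  have H8 : ∀ κ : ℝ, 21 / 2 ≤ κ → κ ≤ 45 / 4 → Sid r κ 8 1 (5 / 6 * κ - 8)
      ((4 / 3 * d - μ) * κ) := by
    intro κ h1 h2
    have := C1w873.idl8F (w := 1) (κ := κ) R L hd (by linarith) hμ2 one (by linarith)
      (by linarith)
    exact Sid.mono this (by linarith) le_rfl
  rcases le_or_gt κ (15 / 2) with h75 | h75
  · -- `4, 5`
    refine of_exact1 (q := 4) (by linarith) (by push_cast; linarith) (by push_cast; linarith) ?_ ?_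
    · exact (sid4 (κ := κ) R hd hμ2 one (by linarith) (by linarith)).mono
        (by push_cast; linarith) le_rfl
    · exact (sid5 (κ := κ) R L hd hμ hμ1' hμ2 one (by linarith) (by linarith)).mono
        (by push_cast; linarith) le_rfl
  have h755 : 151 / 20 ≤ κ := by
    rcases hh with h | h
    · linarith
    · exact h
  rcases le_total κ (61 / 8) with h76 | h76
  · exact win_five R L hd hμ2 h755 h76
  rcases le_total κ (33 / 4) with h82 | h82
  · exact C1W393.win1 R L hd hd8 hμ2 one (by linarith) (by linarith)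
  rcases le_total κ 9 with h9 | h9
  · -- `5, 6`
    refine of_exact1 (q := 5) (by linarith) (by push_cast; linarith) (by push_cast; linarith) ?_ ?_
    · exact (ch 5 (by norm_num) κ (by push_cast; linarith) (by push_cast; linarith))
    · exact (H6 κ h82 h9).mono (by push_cast; linarith) le_rfl
  rcases le_total κ (39 / 4) with h97 | h97
  · exact C1w2_83.win2 R L hd hμ hμ1' hμ2 κ 1 one (by linarith) (by linarith)
  rcases le_total κ (21 / 2) with h10 | h10
  · -- `6, 7`
    refine of_exact1 (q := 6) (by linarith) (by push_cast; linarith) (by push_cast; linarith) ?_ ?_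
    · exact ch 6 (by norm_num) κ (by push_cast; linarith) (by push_cast; linarith)
    · exact (ch 7 (by norm_num) κ (by push_cast; linarith) (by push_cast; linarith)).mono
        (by push_cast; linarith) le_rfl
  rcases le_total κ 12 with h12 | h12
  · -- `7, 8`
    refine of_exact1 (q := 7) (by linarith) (by push_cast; linarith) (by push_cast; linarith) ?_ ?_
    · exact ch 7 (by norm_num) κ (by push_cast; linarith) (by push_cast; linarith)
    · rcases le_total κ (45 / 4) with h11 | h11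
      · exact (H8 κ h10 h11).mono (by push_cast; linarith) le_rfl
      · exact (ch 8 (by norm_num) κ (by push_cast; linarith) (by push_cast; linarith)).mono
          (by push_cast; linarith) le_rfl
  rcases le_total κ (51 / 4) with h51 | h51
  · exact C1w9_83.win9 R L hd hμ hμ1' hμ2 κ 1 one (by linarith) (by linarith)
  rcases le_total κ (27 / 2) with h13 | h13
  · -- `8, 9`
    refine of_exact1 (q := 8) (by linarith) (by push_cast; linarith) (by push_cast; linarith) ?_ ?_
    · exact ch 8 (by norm_num) κ (by push_cast; linarith) (by push_cast; linarith)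
    · exact (ch 9 (by norm_num) κ (by push_cast; linarith) (by push_cast; linarith)).mono
        (by push_cast; linarith) le_rfl
  rcases le_total κ 15 with h15 | h15
  · -- `9, 10`
    refine of_exact1 (q := 9) (by linarith) (by push_cast; linarith) (by push_cast; linarith) ?_ ?_
    · exact ch 9 (by norm_num) κ (by push_cast; linarith) (by push_cast; linarith)
    · rcases le_total κ (57 / 4) with h14 | h14
      · have := up (κ := κ - 3) (c := 5 / 6 * (κ - 3) - 8) (q := 8) R L hd hμ hμ1' hμ2 one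
          (by norm_num) (by linarith) (by linarith) (by push_cast; linarith) (by linarith)
          (H8 (κ - 3) (by linarith) (by linarith))
        have e : κ - 3 + 3 * 1 = κ := by ring
        rw [e] at this
        exact this.mono (by push_cast; linarith) le_rfl
      · exact (ch 10 (by norm_num) κ (by push_cast; linarith) (by push_cast; linarith)).mono
          (by push_cast; linarith) le_rfl
  · -- `q = ⌊2/3 κ⌋`
    obtain ⟨q, hq⟩ : ∃ q : ℕ, q = ⌊2 / 3 * κ⌋₊ := ⟨_, rfl⟩
    have hq1 : (q : ℝ) ≤ 2 / 3 * κ := by rw [hq]; exact Nat.floor_le (by linarith)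
    have hq2 : 2 / 3 * κ < q + 1 := by rw [hq]; exact Nat.lt_floor_add_one _
    have hq5 : 5 ≤ q := by
      by_contra hlt
      have : (q : ℝ) ≤ 4 := by exact_mod_cast (by omega : q ≤ 4)
      linarith
    refine of_exact1 (q := q) (by linarith) hq1 hq2.le ?_ ?_
    · exact ch q hq5 κ (by linarith) (by linarith)
    · have := ceil15 (q := q + 1) (κ := κ) R L hd hμ hμ1 hμ2 H6 h15 (by push_cast; linarith)
        (by push_cast; linarith)
      exact this.mono (by push_cast; linarith) le_rfl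

/-- **all windows** -/
theorem win2_all (R : ExpRules (7 / 8 + d) r s) (L : ExpLv (7 / 8 + d) r) (hd : 0 ≤ d)
    (hμ : 0 ≤ μ) (hμ1 : 240 * μ ≤ 1 - 8 * d) (hμ2 : 9 * μ ≤ d) {κ w : ℝ} (hw : 0 < w)
    (h27 : 27 / 4 * w ≤ κ) (hh : κ ≤ 15 / 2 * w ∨ 151 / 20 * w ≤ κ) :
    Win r κ w ((4 / 3 * d - μ) * κ) := by
  have h := C1w2_83.win_unscale hw (win_one (R.scale hw) (L.scale hw) hd hμ hμ1 hμ2
    (κ := κ / w) (by rw [le_div_iff₀ hw]; exact h27) (by
      rcases hh with h | h
      · left; rw [div_le_iff₀ hw]; exact h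
      · right; rw [le_div_iff₀ hw]; exact h))
  have e1 : w * (κ / w) = κ := by field_simp
  have e2 : w * ((4 / 3 * d - μ) * (κ / w)) = (4 / 3 * d - μ) * κ := by field_simp
  rw [e1, e2] at h
  exact h

/-- **`E_y`**, `0 < y ≤ 20/151` or `2/15 ≤ y ≤ 4/27` -/
theorem ey2 (C : ExpC r rc) (R : ExpRules (7 / 8 + d) r s) (L : ExpLv (7 / 8 + d) r)
    (hd : 0 ≤ d) (hμ : 0 ≤ μ) (hμ1 : 240 * μ ≤ 1 - 8 * d) (hμ2 : 9 * μ ≤ d) {y t e₀ : ℝ}
    (hy : 0 < y) (hy1 : y ≤ 4 / 27) (hh : y ≤ 20 / 151 ∨ 2 / 15 ≤ y) (ht : 0 ≤ t)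
    (ht3 : t ≤ 1 / 3) (he : 4 / 3 * d - μ ≤ e₀) :
    ((fun _ => 2 / (3 * y), 0, 1 / 6 - t / 2) : Mon 1) ∈ Hull (Col rc e₀ (fun _ : Fin 1 => y)) :=
  ey_of_win C hy ht ht3 he (by
    have := win2_all R L hd hμ hμ1 hμ2 (κ := 1) hy (by linarith) (by
      rcases hh with h | h
      · right; linarith
      · left; linarith)
    rw [mul_one] at this
    exact this)

end Crest.Agent.R017.Ey2_645
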