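import Crest.Agent.R017.F1Ser_180

/-!
# Row 17, section F, part 3 (helper180): the constant term coefficients

`Ac c = Σ_{d mod 3c} a2 (c, d)`; `Ac c + Ac (-c) = 3 N(c) P(n)` if `c = n³`, `0` otherwise.
-/

set_option autoImplicit false

noncomputable section

open MeasureTheory Complex Set

namespace Crest.Agent.R017.F1

open Crest.Agent.R012 Crest.Agent.R012.Eis Crest.Agent.R012.Sym645 Crest.Agent.R012.Mob705
open Crest.Agent.R012.K695 (SyAPI Gam ga gb gc gd kub rmul rowv act det2 n2 Vec EC allEquiv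
  mkGam ga_prim gb_dvd gc_dvd gd_prim det_eq kub_mul_conj sy_rmul IsRow nU)

lemma three_mul_ne {c : Eis} (hc : c ≠ 0) : (3 * c : Eis) ≠ 0 := mul_ne_zero three_ne_zero' hc

lemma pmod_a2 (c : Eis) : PMod (3 * c) (fun d => a2 (c, d)) := by
  intro d t
  have h1 := a2_rmul (nU t) (c, d)
  rw [K695.Gram988.kub_nU syAPI, map_one, one_mul, K695.Gram988.rmul_nU] at h1
  change a2 (c, d + 3 * c * t) = a2 (c, d)
  exact h1

/-- `Σ_{d mod 3c} a2 (c, d)`. -/
def Ac (c : Eis) : ℂ := sumMod (3 * c) (fun d => a2 (c, d))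

lemma norm_Ac_le {c : Eis} (hc : c ≠ 0) : ‖Ac c‖ ≤ 9 * nm c := by
  have := norm_sumMod_le (three_mul_ne hc) (f := fun d => a2 (c, d)) (B := 1)
    (fun d => norm_a2_le _)
  unfold Ac
  refine this.trans (le_of_eq ?_)
  rw [nm_mul, Eis.nm_three]
  push_cast
  ring

lemma Ac_three {c : Eis} (hc : c ≠ 0) (h3 : (3 : Eis) ∣ c) :
    Ac c = (starRingEnd ℂ) (CharSum852.Ssum c) := by
  classical
  unfold Ac CharSum852.Ssum
  rw [sumMod_star (three_mul_ne hc)]
  apply sumMod_congr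
  intro d
  unfold CharSum852.fS
  by_cases hd : IsPrim d
  · rw [if_pos hd, a2_three h3 hd]
  · rw [if_neg hd, map_zero]
    exact a2_zero (fun h => hd h.2) (fun h => not_three_prim h.1 h3)

lemma ind_L (d : Eis) {c : Eis} (hc : IsPrim c) (x : ℂ) :
    open Classical in (if inL d then x else 0) =
      (if (3 : Eis) ∣ d then x else 0) + (if (3 : Eis) ∣ d + c then x else 0) +
        (if (3 : Eis) ∣ d + c * 2 then x else 0) := by
  classical
  obtain ⟨t, ht⟩ := hc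
  have h1 : (3 : Eis) ∣ d + c ↔ (3 : Eis) ∣ d + 1 :=
    three_dvd_congr ⟨t, by linear_combination ht⟩
  have h2 : (3 : Eis) ∣ d + c * 2 ↔ (3 : Eis) ∣ d + 2 :=
    three_dvd_congr ⟨2 * t, by linear_combination 2 * ht⟩
  have k0 := Eis.three_dvd_iff (z := d)
  have k1 := Eis.three_dvd_iff (z := d + 1)
  have k2 := Eis.three_dvd_iff (z := d + 2)
  simp only [QuadraticAlgebra.re_add, QuadraticAlgebra.im_add, QuadraticAlgebra.re_one,
    QuadraticAlgebra.im_one, Eis.ofNat_re, Eis.ofNat_im, add_zero] at k1 k2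
  by_cases hL : inL d
  · unfold inL at hL
    have h3 : d.re % 3 = 0 ∨ d.re % 3 = 1 ∨ d.re % 3 = 2 := by omega
    have hL' : inL d := hL
    rcases h3 with h3 | h3 | h3
    · have e0 : (3 : Eis) ∣ d := k0.mpr (by omega)
      have e1 : ¬ (3 : Eis) ∣ d + c := fun h => by have := k1.mp (h1.mp h); omega
      have e2 : ¬ (3 : Eis) ∣ d + c * 2 := fun h => by have := k2.mp (h2.mp h); omega
      rw [if_pos hL', if_pos e0, if_neg e1, if_neg e2]; ring
    · have e0 : ¬ (3 : Eis) ∣ d := fun h => by have := k0.mp h; omega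
      have e1 : ¬ (3 : Eis) ∣ d + c := fun h => by have := k1.mp (h1.mp h); omega
      have e2 : (3 : Eis) ∣ d + c * 2 := h2.mpr (k2.mpr (by omega))
      rw [if_pos hL', if_neg e0, if_neg e1, if_pos e2]; ring
    · have e0 : ¬ (3 : Eis) ∣ d := fun h => by have := k0.mp h; omega
      have e1 : (3 : Eis) ∣ d + c := h1.mpr (k1.mpr (by omega))
      have e2 : ¬ (3 : Eis) ∣ d + c * 2 := fun h => by have := k2.mp (h2.mp h); omega
      rw [if_pos hL', if_neg e0, if_pos e1, if_neg e2]; ring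
  · have hL' := hL
    unfold inL at hL
    have e0 : ¬ (3 : Eis) ∣ d := fun h => by have := k0.mp h; omega
    have e1 : ¬ (3 : Eis) ∣ d + c := fun h => by have := k1.mp (h1.mp h); omega
    have e2 : ¬ (3 : Eis) ∣ d + c * 2 := fun h => by have := k2.mp (h2.mp h); omega
    rw [if_neg hL', if_neg e0, if_neg e1, if_neg e2]; ring

lemma Ac_prim {c : Eis} (hc : IsPrim c) : Ac c = (starRingEnd ℂ) (3 * Cusp852.Sinf c) := by
  classical
  have h3c := three_mul_ne hc.ne_zero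
  set f : Eis → ℂ := fun d => if (3 : Eis) ∣ d then sy d c else 0 with hf
  have hper : PMod (3 * c) f := by
    intro x t
    simp only [hf]
    have e1 : ((3 : Eis) ∣ x + 3 * c * t) ↔ (3 : Eis) ∣ x := by
      rw [mul_assoc]; exact dvd_add_left (Dvd.intro _ rfl)
    have e2 : sy (x + 3 * c * t) c = sy x c :=
      sy_congr (prim_nm_mod hc) ⟨3 * t, by ring⟩
    rw [e2]
    simp only [e1]
  have hS : Cusp852.Sinf c = sumMod (3 * c) f := rfl
  have h1 := sumMod_shift h3c hper c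
  have h2 := sumMod_shift h3c hper (c * 2)
  have h3 : sumMod (3 * c) (fun d => if inL d then sy d c else 0) = 3 * Cusp852.Sinf c := by
    have e : ∀ d : Eis, (if inL d then sy d c else 0) =
        f d + f (d + c) + f (d + c * 2) := by
      intro d
      rw [ind_L d hc]
      have s1 : sy (d + c) c = sy d c := sy_congr (prim_nm_mod hc) ⟨1, by ring⟩
      have s2 : sy (d + c * 2) c = sy d c := sy_congr (prim_nm_mod hc) ⟨2, by ring⟩
      simp only [hf, s1, s2]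
    rw [sumMod_congr e, sumMod_add h3c, sumMod_add h3c, h1, h2, hS]
    ring
  rw [← h3, sumMod_star h3c]
  unfold Ac
  apply sumMod_congr
  intro d
  by_cases hd : inL d
  · rw [if_pos hd, a2_two (r := (c, d)) hc hd]
  · rw [if_neg hd, map_zero]
    exact a2_zero (fun h => not_three_prim hc h.1) (fun h => hd h.2)

lemma Ac_zero {c : Eis} (hc : c ≠ 0) (h3 : ¬ (3 : Eis) ∣ c) (hp : ¬ IsPrim c) : Ac c = 0 := by
  unfold Ac
  rw [sumMod_congr (g := fun _ => 0)
    (fun d => a2_zero (fun h => h3 h.1) (fun h => hp h.1)), sumMod_const (three_mul_ne hc),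
    mul_zero]

/-! ### Units and `PE` -/

lemma pp_unit {u : Eis} (hu : IsUnit u) : pp u = ∅ := by
  rw [Finset.eq_empty_iff_forall_notMem]
  intro p hp
  rw [mem_pp hu.ne_zero] at hp
  exact hp.1.2.not_isUnit (isUnit_of_dvd_unit hp.2 hu)

lemma PE_unit_mul {u m : Eis} (hu : IsUnit u) (hm : m ≠ 0) : PE (u * m) = PE m := by
  unfold PE
  rw [pp_mul hu.ne_zero hm, pp_unit hu, Finset.empty_union]

lemma PE_lam_mul {m : Eis} (hm : m ≠ 0) : PE (lam * m) = PE m := by
  unfold PE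
  rw [pp_mul lam_ne_zero hm, Gram858.pp_lam, Finset.empty_union]

lemma PE_neg {m : Eis} (hm : m ≠ 0) : PE (-m) = PE m := by
  have := PE_unit_mul (u := -1) isUnit_one.neg hm
  simpa using this

lemma PL_nonneg (n : Eis) : 0 ≤ PL n := by
  classical
  unfold PL
  have := (PE_pos n).le
  split_ifs <;> positivity

lemma PL_le_one (n : Eis) : PL n ≤ 1 := by
  classical
  unfold PL
  have h1 := (PE_pos n).le
  have h2 := PE_le_one n
  split_ifs <;> linarith

lemma unit_cube {u : Eis} (hu : IsUnit u) : u ^ 3 = 1 ∨ u ^ 3 = -1 := by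
  obtain ⟨i, -, rfl | rfl⟩ := isUnit_exists hu
  · left; rw [← pow_mul, mul_comm, pow_mul, w_cube, one_pow]
  · right
    have : (-w ^ i) ^ 3 = -((w ^ 3) ^ i) := by ring
    rw [this, w_cube, one_pow]

/-! ### The symmetrised constant term coefficients -/

/-- value on a cube. -/
theorem Ac_sym_cube {n : Eis} (hn : n ≠ 0) :
    Ac (n ^ 3) + Ac (-(n ^ 3)) = ((3 * nm (n ^ 3) * PL n : ℝ) : ℂ) := by
  classical
  by_cases hl : lam ∣ n
  · obtain ⟨m, rfl⟩ := hl
    have hm : m ≠ 0 := right_ne_zero_of_mul hn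
    have hc : (lam * m) ^ 3 ≠ 0 := pow_ne_zero 3 hn
    have h3 : (3 : Eis) ∣ (lam * m) ^ 3 := by
      have h1 : (lam * m) ^ 3 = lam ^ 2 * (lam * m ^ 3) := by ring
      rw [h1]
      exact three_dvd_lam_sq.mul_right _
    have e : -((lam * m) ^ 3) = (lam * (-m)) ^ 3 := by ring
    have h3' : (3 : Eis) ∣ (lam * (-m)) ^ 3 := by rw [← e]; exact (dvd_neg).mpr h3
    have hm' : -m ≠ 0 := neg_ne_zero.mpr hm
    have hn' : lam * (-m) ≠ 0 := mul_ne_zero lam_ne_zero hm'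
    rw [Ac_three hc h3, e, Ac_three (pow_ne_zero 3 hn') h3', CharSum852.Ssum_cube syFacts hn,
      CharSum852.Ssum_cube syFacts hn', Gram858.psi_lam_cube hm, Gram858.psi_lam_cube hm',
      PE_neg hm, Complex.conj_ofReal, Complex.conj_ofReal, ← e, nm_neg]
    unfold PL
    rw [if_pos (Dvd.intro _ rfl), PE_lam_mul hm]
    push_cast
    ring
  · obtain ⟨u, hu⟩ := exists_unit_mul_isPrim hl
    set n0 : Eis := u * n with hn0
    have hn00 : n0 ≠ 0 := hu.ne_zero
    have hnu : n = ((u⁻¹ : Eisˣ) : Eis) * n0 := by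
      rw [hn0, ← mul_assoc, Units.inv_mul, one_mul]
    have hP : PL n = PE n0 := by
      unfold PL
      rw [if_neg hl, one_mul, hn0, PE_unit_mul u.isUnit hn]
    have hcube : IsPrim (n0 ^ 3) := hu.pow 3
    have hA : Ac (n0 ^ 3) = ((3 * nm (n0 ^ 3) * PE n0 : ℝ) : ℂ) := by
      rw [Ac_prim hcube, Cusp852.Sinf_cube syFacts hu, Theta131.psi_cube hu, map_mul,
        Complex.conj_ofReal]
      have : (starRingEnd ℂ) 3 = 3 := by
        rw [Complex.conj_eq_iff_real]; exact ⟨3, by norm_num⟩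
      rw [this]
      push_cast
      ring
    have hA' : Ac (-(n0 ^ 3)) = 0 :=
      Ac_zero (neg_ne_zero.mpr hcube.ne_zero)
        (fun h => not_three_prim hcube ((dvd_neg).mp h)) (not_prim_neg hcube)
    have hn3 : nm (n ^ 3) = nm (n0 ^ 3) := by
      rw [nm_pow, nm_pow, hnu, nm_mul, isUnit_iff.mp (u⁻¹).isUnit, one_mul]
    rw [hn3, hP]
    rcases unit_cube (u⁻¹).isUnit with h | h
    · have e : n ^ 3 = n0 ^ 3 := by rw [hnu, mul_pow, h, one_mul]
      rw [e, hA, hA', add_zero]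
    · have e : n ^ 3 = -(n0 ^ 3) := by rw [hnu, mul_pow, h]; ring
      rw [e, neg_neg, hA, hA', zero_add]

/-- vanishing outside the cubes. -/
theorem Ac_not_cube {c : Eis} (hc : c ≠ 0) (hn : ¬ ∃ e, c = e ^ 3) : Ac c = 0 := by
  by_cases h3 : (3 : Eis) ∣ c
  · rw [Ac_three hc h3, CharSum852.Ssum_eq_zero syFacts hc h3 hn, map_zero]
  · by_cases hp : IsPrim c
    · rw [Ac_prim hp, Cusp852.Sinf_eq_zero syFacts hp hn, mul_zero, map_zero]
    · exact Ac_zero hc h3 hp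

lemma not_cube_neg {c : Eis} (hn : ¬ ∃ e, c = e ^ 3) : ¬ ∃ e, -c = e ^ 3 := by
  rintro ⟨e, he⟩
  exact hn ⟨-e, by linear_combination -he⟩

/-- summability along cubes. -/
lemma summable_cubes {g : Eis → ℂ} (h0 : g 0 = 0) (hs : Summable g) :
    Summable fun m : Eis => g (m ^ 3) := by
  classical
  have hfib := hs.norm
  refine Summable.of_norm ?_
  refine summable_of_sum_le (c := 3 * ∑' c, ‖g c‖) (fun _ => norm_nonneg _) ?_
  intro S
  have h5 : ∑ m ∈ S, ‖g (m ^ 3)‖ = ∑ c ∈ S.image (fun m => m ^ 3),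
      ((S.filter (fun m => m ^ 3 = c)).card : ℝ) * ‖g c‖ := by
    rw [← Finset.sum_fiberwise_of_maps_to (t := S.image (fun m => m ^ 3))
      (g := fun m : Eis => m ^ 3) (fun m hm => Finset.mem_image_of_mem _ hm)]
    refine Finset.sum_congr rfl fun c _ => ?_
    rw [Finset.sum_congr rfl (g := fun _ => ‖g c‖)
      (fun m hm => by rw [(Finset.mem_filter.mp hm).2])]
    rw [Finset.sum_const, nsmul_eq_mul]
  rw [h5]
  have h6 : ∀ c ∈ S.image (fun m => m ^ 3),
      ((S.filter (fun m => m ^ 3 = c)).card : ℝ) * ‖g c‖ ≤ 3 * ‖g c‖ := by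
    intro c hc
    obtain ⟨e, -, rfl⟩ := Finset.mem_image.mp hc
    by_cases he : e = 0
    · subst he; simp [h0]
    have h7 : (S.filter (fun m => m ^ 3 = e ^ 3)) ⊆ {e, w * e, w ^ 2 * e} := by
      intro m hm
      have := Gram858.cube_eq_iff.mp (Finset.mem_filter.mp hm).2
      simpa using this
    have h8 : (S.filter (fun m => m ^ 3 = e ^ 3)).card ≤ 3 :=
      (Finset.card_le_card h7).trans Finset.card_le_three
    have : ((S.filter (fun m => m ^ 3 = e ^ 3)).card : ℝ) ≤ 3 := by exact_mod_cast h8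
    gcongr
  calc ∑ c ∈ S.image (fun m => m ^ 3), ((S.filter (fun m => m ^ 3 = c)).card : ℝ) * ‖g c‖
      ≤ ∑ c ∈ S.image (fun m => m ^ 3), 3 * ‖g c‖ := Finset.sum_le_sum h6
    _ = 3 * ∑ c ∈ S.image (fun m => m ^ 3), ‖g c‖ := by rw [Finset.mul_sum]
    _ ≤ 3 * ∑' c, ‖g c‖ := by
      gcongr
      exact hfib.sum_le_tsum _ (fun _ _ => norm_nonneg _)

/-- the constant term summand. -/
def gAc (G : Eis → ℂ) (c : Eis) : ℂ := if c = 0 then 0 else Ac c * ((nm c : ℝ)⁻¹ : ℝ) * G c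

lemma norm_gAc_le (G : Eis → ℂ) (c : Eis) : ‖gAc G c‖ ≤ 9 * ‖G c‖ := by
  classical
  unfold gAc
  by_cases hc : c = 0
  · simp [hc]
  rw [if_neg hc, norm_mul, norm_mul, Complex.norm_real, norm_inv, Real.norm_natCast]
  have h1 := norm_Ac_le hc
  have h2 : (0 : ℝ) < nm c := by exact_mod_cast nm_pos.mpr hc
  calc ‖Ac c‖ * (nm c : ℝ)⁻¹ * ‖G c‖ ≤ (9 * nm c) * (nm c : ℝ)⁻¹ * ‖G c‖ := by gcongr
    _ = 9 * ‖G c‖ := by field_simp

lemma summable_gAc {G : Eis → ℂ} (hs : Summable fun c : Eis => ‖G c‖) : Summable (gAc G) :=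
  Summable.of_norm_bounded (hs.mul_left 9) (norm_gAc_le G)

/-- the cube summand. -/
def gPL (G : Eis → ℂ) (n : Eis) : ℂ := if n = 0 then 0 else (PL n : ℂ) * G (n ^ 3)

lemma gAc_sym {G : Eis → ℂ} (hG : ∀ c, G (-c) = G c) {c : Eis} (hc : c ≠ 0) :
    gAc G c + gAc G (-c) = (Ac c + Ac (-c)) * ((nm c : ℝ)⁻¹ : ℝ) * G c := by
  unfold gAc
  rw [if_neg hc, if_neg (neg_ne_zero.mpr hc), nm_neg, hG]
  ring

lemma gAc_zero (G : Eis → ℂ) : gAc G 0 = 0 := by simp [gAc]

lemma gAc_cube {G : Eis → ℂ} (hG : ∀ c, G (-c) = G c) (n : Eis) :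
    gAc G (n ^ 3) + gAc G (-(n ^ 3)) = 3 * gPL G n := by
  by_cases hn : n = 0
  · subst hn; simp [gAc, gPL]
  have hc : n ^ 3 ≠ 0 := pow_ne_zero 3 hn
  rw [gAc_sym hG hc, Ac_sym_cube hn]
  unfold gPL
  rw [if_neg hn]
  have h4 : (nm (n ^ 3) : ℝ) ≠ 0 := by
    exact_mod_cast (nm_pos.mpr hc).ne'
  have h5 : (((nm (n ^ 3) : ℝ)⁻¹ : ℝ) : ℂ) * ((3 * nm (n ^ 3) * PL n : ℝ) : ℂ) =
      ((3 * PL n : ℝ) : ℂ) := by
    rw [← Complex.ofReal_mul]
    congr 1
    field_simp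
  calc ((3 * nm (n ^ 3) * PL n : ℝ) : ℂ) * (((nm (n ^ 3) : ℝ)⁻¹ : ℝ) : ℂ) * G (n ^ 3)
      = ((((nm (n ^ 3) : ℝ)⁻¹ : ℝ) : ℂ) * ((3 * nm (n ^ 3) * PL n : ℝ) : ℂ)) * G (n ^ 3) := by
        ring
    _ = _ := by rw [h5]; push_cast; ring

lemma summable_neg_arg {g : Eis → ℂ} (h : Summable g) : Summable (fun c => g (-c)) :=
  h.comp_injective (i := fun c : Eis => -c) neg_injective

lemma tsum_neg_arg (g : Eis → ℂ) : ∑' c, g (-c) = ∑' c, g c :=
  (Equiv.neg Eis).tsum_eq g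

/-- **the constant term sum**: `Σ_{c ≠ 0} A(c)/N(c) G(c) = (1/2) Σ_{n ≠ 0} P(n) G(n³)`
for even `G` with summability. -/
theorem tsum_Ac {G : Eis → ℂ} (hG : ∀ c, G (-c) = G c)
    (hs : Summable fun c : Eis => ‖G c‖) :
    ∑' c : Eis, gAc G c = (1 / 2) * ∑' n : Eis, gPL G n := by
  classical
  have s1 := summable_gAc hs
  have s2 : Summable (fun c => gAc G (-c)) := summable_neg_arg s1
  have h2 : ∑' c, gAc G (-c) = ∑' c, gAc G c := tsum_neg_arg (gAc G)
  obtain ⟨g, hg⟩ : ∃ g : Eis → ℂ, g = fun c => gAc G c + gAc G (-c) := ⟨_, rfl⟩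
  have hg' : ∀ c, g c = gAc G c + gAc G (-c) := fun c => by rw [hg]
  have s3 : Summable g := by rw [hg]; exact s1.add s2
  have h3 : ∑' c, g c = 2 * ∑' c, gAc G c := by
    rw [hg, s1.tsum_add s2, h2, two_mul]
  have h0 : g 0 = 0 := by rw [hg', neg_zero, gAc_zero, add_zero]
  have hcub : ∀ c, g c ≠ 0 → ∃ e, c = e ^ 3 := by
    intro c hgc
    have hc : c ≠ 0 := by rintro rfl; exact hgc h0
    by_contra hn
    apply hgc
    rw [hg', gAc_sym hG hc, Ac_not_cube hc hn,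
      Ac_not_cube (neg_ne_zero.mpr hc) (not_cube_neg hn), add_zero, zero_mul, zero_mul]
  have h9 := Gram858.tsum_cubes h0 hcub (summable_cubes h0 s3)
  have h10 : ∑' n : Eis, g (n ^ 3) = 3 * ∑' n : Eis, gPL G n := by
    rw [← tsum_mul_left]
    exact tsum_congr fun n => by rw [hg']; exact gAc_cube hG n
  rw [h3, h10] at h9
  linear_combination (1 / 2 : ℂ) * h9

end Crest.Agent.R017.F1
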