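import Crest.Agent.R017.F1Eq5_180
import Crest.Agent.R017.XnAll_960
import Crest.Agent.R017.Coef2_92

/-!
# Row 17, section F, part 10 (helper180): the clean functional equation at level 3, one frequency

For `Dat f` and every `u ≠ 0`
`C(u; f_+ - 9 f_+(λ³ ·)) = (2/3) C(u; N⁻¹ f°(u/·)) + (e(θ) + e(-θ)) C(u; N⁻¹ g(u/·))
  + Σ_δ Lam(δ,u) N(δ)⁻¹ C(δ u; N⁻¹ g(u/(δ ·)))`,
`C(u; φ) = Σ_{d ≡ 1 (3)} conj (gs u d) φ(d)`, `θ = u/(3√-3)`, `g(y) = (f°(y/(3√-3)) - f°(y))/3`.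
-/

set_option autoImplicit false

noncomputable section

open MeasureTheory Complex Set

namespace Crest.Agent.R017.F1

open Crest.Agent.R012 Crest.Agent.R012.Eis
open Crest.Agent.R012.K695 (det2 n2 Vec EC rowv)
open Crest.Agent.R012.Parseval499 (par covol frq s3 measurableSet_par
  continuous_eC covol_pos toC_s3_ne)
open Crest.Agent.R012.Four813 (phat)
open scoped ComplexConjugate

theorem pairThm : PairThm := Xi499.pairThm_of_X (Xn590.pairThmX_of_N Xn960.pairThmN)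
theorem coefThm : CoefThm := Xi499.coefThm_of_X (Xn590.coefThmX_of_N Xn590.coefThmN)
theorem decThm : DecThm := Xi499.decThm_of_X (Xn590.decThmX_of_N Xn590.decThmN)

lemma integrable_EC {a : Eis × Eis → ℂ} (hb : ∀ r, ‖a r‖ ≤ 1) {F : Vec → ℂ} (hF : Tst F)
    {M : K695.Frm} (hM : det2 M ≠ 0) (u : Eis) :
    Integrable (fun z => EC a F (mU z M) * eC (-(frq 3 u * z))) (volume.restrict (par 3)) := by
  obtain ⟨C, hC⟩ := hF.dec
  have h3 : (3 : ℂ) ≠ 0 := by norm_num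
  have e1 : ∀ z : ℂ, EC a F (mU z M) * eC (-(frq 3 u * z)) = ∑' r, trm a F M u r z := by
    intro z
    simp only [EC, trm]
    rw [tsum_mul_right]
  have hs := (summable_e0 hM).mul_left C
  have hcont : ContinuousOn (fun z => EC a F (mU z M) * eC (-(frq 3 u * z))) (par 3) := by
    refine (continuousOn_tsum (fun r => (continuous_trm hF a M u r).continuousOn) hs
      (fun r z hz => norm_trm_le hC hb hM u r hz)).congr ?_
    intro z _
    exact e1 z
  refine Integrable.of_bound (C := ∑' r : Eis × Eis, C * (((1 + e0 M * (nm r.1 : ℝ)) ^ 2)⁻¹ *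
      ((1 + e0 M * (nm r.2 : ℝ)) ^ 2)⁻¹)) (hcont.aestronglyMeasurable (measurableSet_par h3)) ?_
  rw [ae_restrict_iff' (measurableSet_par h3)]
  refine Filter.Eventually.of_forall fun z hz => ?_
  rw [e1]
  exact tsum_of_norm_bounded hs.hasSum (fun r => norm_trm_le hC hb hM u r hz)

/-- the standard frame. -/
def M0 : K695.Frm := ((1, 0), (0, 1))

lemma det2_M0 : det2 M0 = 1 := by simp [det2, M0]

lemma M0_add (z : ℂ) : M0.1 + z • M0.2 = ((1 : ℂ), z) := by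
  simp [M0]

/-! ### slices -/

lemma int_not {u : Eis} : ¬ Integrable (fun z : ℂ => eC (-(frq 3 u * z))) := by
  intro hi
  have h1 := hi.norm
  simp only [R012.norm_eC] at h1
  rw [integrable_const_iff] at h1
  rcases h1 with h1 | h1
  · exact one_ne_zero h1
  · have := h1.measure_univ_lt_top
    simp at this

lemma slice_P {f : ℂ → ℂ} (k : SchwartzMap ℂ ℂ) {w : ℂ} (hw : w ≠ 0) (ω : ℂ) :
    ∫ z : ℂ, FP f k (w • ((1 : ℂ), z)) * eC (-(ω * z)) = phat k ω * fP f w := by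
  unfold FP phat
  rw [mul_comm, ← integral_const_mul]
  refine integral_congr_ae (Filter.Eventually.of_forall fun z => ?_)
  simp only [Prod.smul_mk, smul_eq_mul, mul_one]
  rw [mul_div_cancel_left₀ _ hw]
  ring

lemma slice_O {f : ℂ → ℂ} (hf : Dat f) (k : SchwartzMap ℂ ℂ) {w : ℂ} (hw : w ≠ 0) {ω : ℂ}
    (hω : ω ≠ 0) :
    ∫ z : ℂ, FO f k (w • ((1 : ℂ), z)) * eC (-(ω * z)) =
      phat k ω * ((((‖w‖ ^ 2)⁻¹ : ℝ) : ℂ) * fO f (ω / w)) := by
  have h1 := coefThm f k hf w ω hw hω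
  rw [Four813.integral_comp_mul_left' hw] at h1
  have hn : (‖w‖ ^ 2 : ℝ) ≠ 0 := by positivity
  have h2 : ∫ x : ℂ, FO f k (w, w * x) * eC (-(ω * (w * x) / w)) =
      ∫ z : ℂ, FO f k (w • ((1 : ℂ), z)) * eC (-(ω * z)) := by
    refine integral_congr_ae (Filter.Eventually.of_forall fun x => ?_)
    simp only [Prod.smul_mk, smul_eq_mul, mul_one]
    congr 3
    field_simp
  rw [h2, Complex.real_smul] at h1
  have h3 : (((‖w‖ ^ 2)⁻¹ : ℝ) : ℂ) * ((‖w‖ ^ 2 : ℝ) : ℂ) = 1 := by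
    rw [← Complex.ofReal_mul, inv_mul_cancel₀ hn, Complex.ofReal_one]
  calc _ = ((((‖w‖ ^ 2)⁻¹ : ℝ) : ℂ) * ((‖w‖ ^ 2 : ℝ) : ℂ)) *
        ∫ z : ℂ, FO f k (w • ((1 : ℂ), z)) * eC (-(ω * z)) := by rw [h3, one_mul]
    _ = (((‖w‖ ^ 2)⁻¹ : ℝ) : ℂ) * (((‖w‖ ^ 2 : ℝ) : ℂ) *
        ∫ z : ℂ, FO f k (w • ((1 : ℂ), z)) * eC (-(ω * z))) := by ring
    _ = _ := by rw [h1]; ring

/-- the function attached to a linear combination. -/
def Hf (f : ℂ → ℂ) (c : Fin 4 → ℂ) (ω w : ℂ) : ℂ :=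
  c 0 * fP f w + c 1 * fP f (al * w) + c 2 * ((((‖w‖ ^ 2)⁻¹ : ℝ) : ℂ) * fO f (ω / w)) +
    c 3 * (27 * ((((‖w‖ ^ 2)⁻¹ : ℝ) : ℂ) * fO f (ω * al / w)))

lemma norm_al2 : ‖al‖ ^ 2 = 27 := by
  have := norm_lam3
  unfold al
  rw [this]

lemma smul_one_z_ne {w : ℂ} (hw : w ≠ 0) : w • ((0 : ℂ), (1 : ℂ)) ≠ 0 := by
  intro h
  have := congrArg Prod.snd h
  simp at this
  exact hw this

lemma Tst.int_slice {F : Vec → ℂ} (hF : Tst F) {w : ℂ} (hw : w ≠ 0) (ω : ℂ) :
    Integrable fun z : ℂ => F (w • ((1 : ℂ), z)) * eC (-(ω * z)) := by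
  have h1 := hF.integrable_line (w • ((1 : ℂ), (0 : ℂ))) (smul_one_z_ne hw)
  have h2 : Integrable fun z : ℂ => F (w • ((1 : ℂ), z)) := by
    refine h1.congr (Filter.Eventually.of_forall fun z => ?_)
    simp only [Prod.smul_mk, smul_eq_mul, mul_one, mul_zero, Prod.mk_add_mk, add_zero, zero_add]
    rw [mul_comm z w]
  refine h2.mul_bdd (c := 1) ?_ ?_
  · exact (continuous_eC.comp (by fun_prop)).aestronglyMeasurable
  · exact Filter.Eventually.of_forall fun z => (R012.norm_eC _).le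

lemma integral_add4 {g0 g1 g2 g3 : ℂ → ℂ} (h0 : Integrable g0) (h1 : Integrable g1)
    (h2 : Integrable g2) (h3 : Integrable g3) :
    ∫ z, (g0 z + g1 z + g2 z + g3 z) = (∫ z, g0 z) + (∫ z, g1 z) + (∫ z, g2 z) + ∫ z, g3 z := by
  rw [integral_add (f := fun z => g0 z + g1 z + g2 z) ((h0.add h1).add h2) h3,
    integral_add (f := fun z => g0 z + g1 z) (h0.add h1) h2, integral_add h0 h1]

lemma slice_Lc {f : ℂ → ℂ} (hf : Dat f) (k : SchwartzMap ℂ ℂ) (c : Fin 4 → ℂ) {w : ℂ}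
    (hw : w ≠ 0) {ω : ℂ} (hω : ω ≠ 0) :
    ∫ z : ℂ, Lc (FP f k) (FO f k) c 1 (w • ((1 : ℂ), z)) * eC (-(ω * z)) =
      phat k ω * Hf f c ω w := by
  have hp := pairThm f k hf
  have hal := al_ne
  have haw : al * w ≠ 0 := mul_ne_zero hal hw
  have haw' : al⁻¹ * w ≠ 0 := mul_ne_zero (inv_ne_zero hal) hw
  have i0 := (hp.tst.int_slice hw ω).const_mul (c 0)
  have i1 := (hp.tst.int_slice haw ω).const_mul (c 1)
  have i2 := (hp.tst'.int_slice hw ω).const_mul (c 2)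
  have i3 := (hp.tst'.int_slice haw' ω).const_mul (c 3)
  have e : ∀ z : ℂ, Lc (FP f k) (FO f k) c 1 (w • ((1 : ℂ), z)) * eC (-(ω * z)) =
      c 0 * (FP f k (w • ((1 : ℂ), z)) * eC (-(ω * z))) +
      c 1 * (FP f k ((al * w) • ((1 : ℂ), z)) * eC (-(ω * z))) +
      c 2 * (FO f k (w • ((1 : ℂ), z)) * eC (-(ω * z))) +
      c 3 * (FO f k ((al⁻¹ * w) • ((1 : ℂ), z)) * eC (-(ω * z))) := by
    intro z
    unfold Lc dil scl
    simp only [norm_one, inv_one, smul_smul, one_pow, Complex.ofReal_one, one_mul]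
    ring
  simp only [e]
  rw [integral_add4 i0 i1 i2 i3,
    integral_const_mul, integral_const_mul, integral_const_mul, integral_const_mul,
    slice_P k hw, slice_P k haw, slice_O hf k hw hω, slice_O hf k haw' hω]
  have e3 : ‖al⁻¹ * w‖ ^ 2 = ‖w‖ ^ 2 / 27 := by
    rw [norm_mul, norm_inv, mul_pow, inv_pow, norm_al2]; ring
  have e4 : ω / (al⁻¹ * w) = ω * al / w := by field_simp
  rw [e3, e4]
  unfold Hf
  have e5 : ((((‖w‖ ^ 2 / 27)⁻¹ : ℝ)) : ℂ) = 27 * (((‖w‖ ^ 2)⁻¹ : ℝ) : ℂ) := by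
    rw [inv_div]; push_cast; ring
  rw [e5]
  ring

lemma pmod_a4 (j : Fin 4) (c : Eis) : PMod (3 * c) (fun d => a4 j (c, d)) := by
  fin_cases j
  · exact pmod_aI c
  · exact pmod_aF 0 c
  · exact pmod_aF 1 c
  · exact pmod_aF (-1) c

lemma frq3_ne {u : Eis} (hu : u ≠ 0) : frq 3 u ≠ 0 := by
  unfold frq
  exact div_ne_zero (by rwa [Ne, toC_eq_zero]) (mul_ne_zero (by norm_num) toC_s3_ne)

/-- **the identity of the `u`-th Fourier coefficients.** -/
theorem four_sum {f : ℂ → ℂ} (hf : Dat f) {u : Eis} (hu : u ≠ 0) :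
    open Classical in
    (∑ j, ∑' c : Eis, (if c = 0 then 0 else SC (a4 j) u c * Hf f (cv j) (frq 3 u) (toC c)) = 0) ∧
    ∀ j, Summable (fun c : Eis => (if c = 0 then 0 else
      SC (a4 j) u c * Hf f (cv j) (frq 3 u) (toC c))) := by
  classical
  obtain ⟨k, hk⟩ := Coef92.exists_phat_ne (frq 3 u)
  have hp := pairThm f k hf
  have hω := frq3_ne hu
  have hdet : det2 M0 ≠ 0 := by rw [det2_M0]; exact one_ne_zero
  have hT : ∀ j, Tst (Lc (FP f k) (FO f k) (cv j) 1) := fun j =>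
    tst_Lc hp.tst hp.tst' (cv j) one_ne_zero
  have hc : ∀ j, ∀ c : Eis, SC (a4 j) u c *
      ∫ z : ℂ, Lc (FP f k) (FO f k) (cv j) 1 (toC c • (M0.1 + z • M0.2)) * eC (-(frq 3 u * z)) =
      phat k (frq 3 u) * (if c = 0 then 0 else
        SC (a4 j) u c * Hf f (cv j) (frq 3 u) (toC c)) := by
    intro j c
    by_cases h0 : c = 0
    · subst h0
      rw [if_pos rfl, mul_zero]
      have : ∫ z : ℂ, Lc (FP f k) (FO f k) (cv j) 1 (toC 0 • (M0.1 + z • M0.2)) *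
          eC (-(frq 3 u * z)) = 0 := by
        simp only [map_zero, zero_smul]
        rw [integral_const_mul, integral_undef int_not, mul_zero]
      rw [this, mul_zero]
    · rw [if_neg h0]
      have h0' : toC c ≠ 0 := by rwa [Ne, toC_eq_zero]
      simp only [M0_add]
      rw [slice_Lc hf k (cv j) h0' hω]
      ring
  have hC := fun j => coef_EC (norm_a4_le j) (fun c _ => pmod_a4 j c) (hT j) hdet hu
  have hsum : ∀ j, Summable (fun c : Eis => (if c = 0 then 0 else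
      SC (a4 j) u c * Hf f (cv j) (frq 3 u) (toC c))) := by
    intro j
    have h1 := (hC j).2
    simp only [hc] at h1
    exact (summable_mul_left_iff hk).mp h1
  refine ⟨?_, hsum⟩
  have hz : ∀ z : ℂ, ∑ j, EC (a4 j) (Lc (FP f k) (FO f k) (cv j) 1) (mU z M0) = 0 := by
    intro z
    have h1 := level3_sum hp (M := mU z M0) (by rw [det2_mU]; exact hdet)
    unfold Orth681.ED at h1
    rwa [det2_mU, det2_M0] at h1
  have h2 : ∑ j, ∫ z in par 3, EC (a4 j) (Lc (FP f k) (FO f k) (cv j) 1) (mU z M0) *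
      eC (-(frq 3 u * z)) = 0 := by
    rw [← integral_finsetSum]
    · have : ∀ z : ℂ, ∑ j, EC (a4 j) (Lc (FP f k) (FO f k) (cv j) 1) (mU z M0) *
          eC (-(frq 3 u * z)) = 0 := by
        intro z
        rw [← Finset.sum_mul, hz, zero_mul]
      simp only [this, integral_zero]
    · intro j _
      exact integrable_EC (norm_a4_le j) (hT j) hdet u
  have h3 : ∀ j, ∫ z in par 3, EC (a4 j) (Lc (FP f k) (FO f k) (cv j) 1) (mU z M0) *
      eC (-(frq 3 u * z)) = phat k (frq 3 u) * ∑' c : Eis, (if c = 0 then 0 else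
        SC (a4 j) u c * Hf f (cv j) (frq 3 u) (toC c)) := by
    intro j
    rw [(hC j).1, ← tsum_mul_left]
    exact tsum_congr (hc j)
  simp only [h3] at h2
  rw [← Finset.mul_sum] at h2
  rcases mul_eq_zero.mp h2 with h4 | h4
  · exact absurd h4 hk
  · exact h4

end Crest.Agent.R017.F1
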