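import Crest.Agent.R017.F1Eq_180

/-!
# Row 17, section F, part 7 (helper180): the constant term sums of the level-3 series
-/

set_option autoImplicit false

noncomputable section

open MeasureTheory Complex Set

namespace Crest.Agent.R017.F1

open Crest.Agent.R012 Crest.Agent.R012.Eis Crest.Agent.R012.Sym645 Crest.Agent.R012.Mob705
open Crest.Agent.R012.K695 (det2 n2 Vec EC rowv Gam kub rmul)
open Crest.Agent.R012.Parseval499 (par covol frq s3 covol_pos)
open Crest.Agent.R017.Orth681

/-- the sum of `aI (h, ·)`. -/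
def AA (h : Eis) : ℂ := sumMod (3 * h) (fun y => aI (h, y))
/-- the sum of `aF 0 (h, ·)`. -/
def AP (h : Eis) : ℂ := sumMod (3 * h) (fun y => aF 0 (h, y))

lemma SC_zero (a : Eis × Eis → ℂ) (c : Eis) : SC a 0 c = sumMod (3 * c) (fun y => a (c, y)) := by
  unfold SC
  refine sumMod_congr fun y => ?_
  rw [map_zero, zero_mul, zero_div, R012.eC_zero, mul_one]

lemma sum_aF {t : Eis} (ht : inL t) {h : Eis} (h0 : h ≠ 0) :
    sumMod (3 * h) (fun y => aF t (h, y)) = AP h := by
  unfold AP
  rw [← SC_zero, ← SC_zero]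
  by_cases hp : IsPrim h
  · rw [SC_aF hp ht, SC_aF_zero hp, mul_zero, map_zero, zero_div, R012.eC_zero, one_mul]
  · rw [SC_aF_not_prim h0 hp, SC_aF_not_prim h0 hp]

lemma assoc_neg (h : Eis) : Associated (3 * -h) (3 * h) :=
  ⟨-1, by simp⟩

lemma sum_neg_arg {h : Eis} (h0 : h ≠ 0) {f : Eis → ℂ} (hf : PMod (3 * -h) f) :
    sumMod (3 * h) f = sumMod (3 * -h) f :=
  (sumMod_associated (three_mul_ne (neg_ne_zero.mpr h0)) (assoc_neg h) hf).symm

/-! ### pointwise identities -/

lemma inL3 {s : Eis} (hs : s = 0 ∨ s = 1 ∨ s = -1) : inL s := by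
  rcases hs with rfl | rfl | rfl <;> simp [inL]

lemma pt_same {s : Eis} (hs : inL s) (h y : Eis) : aF s (y, -h + y * s) = aI (h, y) := by
  classical
  by_cases hy : IsPrim y
  · rw [aF_prim hy hs]
    have e : (3 : Eis) ∣ -h + y * s - s * y ↔ (3 : Eis) ∣ h := by
      have : -h + y * s - s * y = -h := by ring
      rw [this, dvd_neg]
    have e2 : sy (-h + y * s) y = sy h y := by
      rw [sy_congr (prim_nm_mod hy) (y := -h) ⟨s, by ring⟩, sy_neg (prim_nm_mod hy)]
    simp only [e, e2]
    by_cases h3 : (3 : Eis) ∣ h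
    · rw [if_pos h3, aI_dvd h3, if_pos hy]
    · rw [if_neg h3, aI_not_dvd h3]
  · rw [aF_not_prim hy]
    by_cases h3 : (3 : Eis) ∣ h
    · rw [aI_dvd h3, if_neg hy]
    · rw [aI_not_dvd h3]

lemma sy_sub_self {c d : Eis} (hc : (3 : Eis) ∣ c) (hd : IsPrim d) : sy c (d - c) = sy c d := by
  have hd' : IsPrim (d - c) := by
    have := CharSum852.isPrim_add hd ((dvd_neg).mpr hc)
    rwa [← sub_eq_add_neg] at this
  rw [← sy_add_self hc hd', sub_add_cancel]

lemma pt_inf {s : Eis} (hs : s = 0 ∨ s = 1 ∨ s = -1) (h y : Eis) :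
    aI (y, -h + y * s) = aF 0 (-h, y) := by
  classical
  by_cases h3 : (3 : Eis) ∣ y
  · rw [aI_dvd h3]
    have e : IsPrim (-h + y * s) ↔ IsPrim (-h) := prim_congr (by
      have : -h + y * s - -h = y * s := by ring
      rw [this]; exact h3.mul_right s)
    simp only [e]
    by_cases hp : IsPrim (-h)
    · rw [if_pos hp, aF_prim hp (by simp [inL]), if_pos (by simpa using h3)]
      congr 1
      rcases hs with rfl | rfl | rfl
      · rw [mul_zero, add_zero]
      · rw [mul_one, sy_add_self h3 hp]
      · have : -h + y * -1 = -h - y := by ring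
        rw [this, sy_sub_self h3 hp]
    · rw [if_neg hp, aF_not_prim hp]
  · rw [aI_not_dvd h3]
    by_cases hp : IsPrim (-h)
    · rw [aF_prim hp (by simp [inL]), if_neg]
      simpa using h3
    · rw [aF_not_prim hp]

lemma pt_ne {s t e : Eis} (ht : inL t) (hst : (3 : Eis) ∣ (s - t) - e) (he : e = 1 ∨ e = -1)
    (h y : Eis) : aF t (y, -h + y * s) = aF 1 (e * h, y) := by
  classical
  have hee : e * e = 1 := by rcases he with rfl | rfl <;> ring
  have hcond : (3 : Eis) ∣ -h + y * s - t * y ↔ (3 : Eis) ∣ y - 1 * (e * h) := by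
    obtain ⟨k, hk⟩ := hst
    have h1 : (3 : Eis) ∣ -h + y * s - t * y ↔ (3 : Eis) ∣ e * y - h :=
      three_dvd_congr ⟨y * k, by linear_combination y * hk⟩
    rw [h1]
    constructor
    · rintro ⟨m, hm⟩; exact ⟨e * m, by linear_combination e * hm - y * hee⟩
    · rintro ⟨m, hm⟩; exact ⟨e * m, by linear_combination e * hm + h * hee⟩
  by_cases hy : IsPrim y
  · rw [aF_prim hy ht]
    have e2 : sy (-h + y * s) y = sy h y := by
      rw [sy_congr (prim_nm_mod hy) (y := -h) ⟨s, by ring⟩, sy_neg (prim_nm_mod hy)]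
    simp only [hcond, e2]
    by_cases hc : (3 : Eis) ∣ y - 1 * (e * h)
    · have hp : IsPrim (e * h) := by
        have : (3 : Eis) ∣ y - e * h := by simpa using hc
        exact (prim_congr this).mp hy
      rw [if_pos hc, aF_prim hp (by simp [inL]), if_pos hc, sy_reciprocity hy hp]
      rcases he with rfl | rfl
      · rw [one_mul]
      · rw [neg_one_mul, sy_neg (prim_nm_mod hy)]
    · rw [if_neg hc]
      by_cases hp : IsPrim (e * h)
      · rw [aF_prim hp (by simp [inL]), if_neg hc]
      · rw [aF_not_prim hp]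
  · rw [aF_not_prim hy]
    by_cases hp : IsPrim (e * h)
    · rw [aF_prim hp (by simp [inL]), if_neg]
      intro hc
      apply hy
      have : (3 : Eis) ∣ y - e * h := by simpa using hc
      exact (prim_congr this).mpr hp
    · rw [aF_not_prim hp]

/-! ### the sums -/

/-- the residue attached to an index. -/
def t4 (i : Fin 4) : Eis := ![0, 0, 1, -1] i

lemma t4_cases (i : Fin 4) : t4 i = 0 ∨ t4 i = 1 ∨ t4 i = -1 := by
  fin_cases i
  · left; rfl
  · left; rfl
  · right; left; rfl
  · right; right; rfl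

lemma a4_pos {i : Fin 4} (hi : i ≠ 0) : a4 i = aF (t4 i) := by
  fin_cases i
  · exact absurd rfl hi
  · rfl
  · rfl
  · rfl

lemma g4_pos {i : Fin 4} (hi : i ≠ 0) : g4 i = gt (t4 i) := by
  fin_cases i
  · exact absurd rfl hi
  · rfl
  · rfl
  · rfl

lemma diff_cases {i j : Fin 4} (hi : i ≠ 0) (hj : j ≠ 0) (hij : i ≠ j) :
    ∃ e : Eis, (e = 1 ∨ e = -1) ∧ (3 : Eis) ∣ (t4 i - t4 j) - e := by
  fin_cases i <;> fin_cases j <;> first
    | exact absurd rfl hi
    | exact absurd rfl hj
    | exact absurd rfl hij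
    | skip
  · exact ⟨-1, Or.inr rfl, ⟨0, by simp [t4]⟩⟩
  · exact ⟨1, Or.inl rfl, ⟨0, by simp [t4]⟩⟩
  · exact ⟨1, Or.inl rfl, ⟨0, by simp [t4]⟩⟩
  · exact ⟨-1, Or.inr rfl, ⟨1, by simp only [t4]; simp; ring⟩⟩
  · exact ⟨-1, Or.inr rfl, ⟨0, by simp [t4]⟩⟩
  · exact ⟨1, Or.inl rfl, ⟨-1, by simp only [t4]; simp; ring⟩⟩

lemma sumW_same (i : Fin 4) (h : Eis) :
    sumMod (h * 3) (fun y => a4 i (rmulS (h, y) (g4 i))) = AA h := by
  rw [mul_comm]
  unfold AA
  refine sumMod_congr fun y => ?_
  by_cases hi : i = 0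
  · subst hi
    have : g4 0 = 1 := rfl
    rw [this, rmulS_one]; rfl
  · rw [a4_pos hi, g4_pos hi, rmulS_gt]
    exact pt_same (inL3 (t4_cases i)) h y

lemma sumW_ne {i j : Fin 4} (hij : i ≠ j) :
    (∀ h : Eis, h ≠ 0 → sumMod (h * 3) (fun y => a4 j (rmulS (h, y) (g4 i))) = AP h) ∨
    (∀ h : Eis, h ≠ 0 → sumMod (h * 3) (fun y => a4 j (rmulS (h, y) (g4 i))) = AP (-h)) := by
  by_cases hi : i = 0
  · subst hi
    left
    intro h h0
    have hj : j ≠ 0 := hij.symm
    rw [mul_comm, ← sum_aF (inL3 (t4_cases j)) h0]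
    refine sumMod_congr fun y => ?_
    have : g4 0 = 1 := rfl
    rw [this, rmulS_one, a4_pos hj]
  · by_cases hj : j = 0
    · subst hj
      right
      intro h h0
      rw [mul_comm]
      unfold AP
      rw [← sum_neg_arg h0 (pmod_aF 0 (-h))]
      refine sumMod_congr fun y => ?_
      rw [g4_pos hi, rmulS_gt]
      exact pt_inf (t4_cases i) h y
    · obtain ⟨e, he, h3⟩ := diff_cases hi hj hij
      have hpt : ∀ h y, a4 j (rmulS (h, y) (g4 i)) = aF 1 (e * h, y) := by
        intro h y
        rw [g4_pos hi, a4_pos hj, rmulS_gt]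
        exact pt_ne (inL3 (t4_cases j)) h3 he h y
      rcases he with rfl | rfl
      · left
        intro h h0
        rw [mul_comm, ← sum_aF (t := 1) (by simp [inL]) h0]
        refine sumMod_congr fun y => ?_
        rw [hpt, one_mul]
      · right
        intro h h0
        rw [mul_comm, ← sum_aF (t := 1) (by simp [inL]) (neg_ne_zero.mpr h0),
          ← sum_neg_arg h0 (pmod_aF 1 (-h))]
        refine sumMod_congr fun y => ?_
        rw [hpt, neg_one_mul]

/-- the zero row. -/
lemma zero_row (i j : Fin 4) (H : Vec → ℂ) (v : Vec) :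
    ∑' y : Eis, a4 j (rmulS (0, y) (g4 i)) * H (toC y • v) = if i = j then H v else 0 := by
  classical
  have hval : ∀ y : Eis, a4 j (rmulS (0, y) (g4 i)) = if y = 1 then (if i = j then 1 else 0) else 0 := by
    intro y
    by_cases hy1 : y = 1
    · subst hy1
      rw [if_pos rfl]
      by_cases hij : i = j
      · subst hij
        rw [if_pos rfl]
        have := a4_g4 i
        have e : rmulS (0, 1) (g4 i) = br (g4 i) := by
          unfold rmulS br; ext1 <;> simp
        rw [e, this]
      · rw [if_neg hij]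
        by_cases hi : i = 0
        · subst hi
          have hj : j ≠ 0 := fun h => hij h.symm
          have e1 : g4 0 = 1 := rfl
          rw [e1, rmulS_one, a4_pos hj]
          exact aF_not_prim (by simp [IsPrim, Eis.three_dvd_iff]) _ _
        · rw [g4_pos hi, rmulS_gt]
          simp only [neg_zero, zero_add, one_mul]
          by_cases hj : j = 0
          · subst hj
            exact aI_not_dvd (by simp [Eis.three_dvd_iff]) _
          · obtain ⟨e, he, h3⟩ := diff_cases hi hj hij
            have := pt_ne (inL3 (t4_cases j)) h3 he 0 1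
            rw [a4_pos hj]
            simp only [neg_zero, zero_add, one_mul, mul_zero] at this
            rw [this]
            exact aF_not_prim (by simp [IsPrim, Eis.three_dvd_iff]) _ _
    · rw [if_neg hy1]
      by_contra hne
      have hu := unit_of_cop (fun r hr => a2_cop (a4_ne hr)) (g4 i) hne
      apply hy1
      -- `y` is primary
      have hp : IsPrim y := by
        by_contra hp
        apply hne
        by_cases hi : i = 0
        · subst hi
          have e1 : g4 0 = 1 := rfl
          rw [e1, rmulS_one]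
          by_cases hj : j = 0
          · subst hj
            change aI (0, y) = 0
            rw [aI_dvd (dvd_zero _), if_neg hp]
          · rw [a4_pos hj]
            exact aF_not_prim (by simp [IsPrim, Eis.three_dvd_iff]) _ _
        · rw [g4_pos hi, rmulS_gt]
          by_cases hj : j = 0
          · subst hj
            change aI (y, -0 + y * t4 i) = 0
            rw [pt_inf (t4_cases i) 0 y, neg_zero]
            exact aF_not_prim (by simp [IsPrim, Eis.three_dvd_iff]) _ _
          · rw [a4_pos hj]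
            exact aF_not_prim hp _ _
      exact K695.prim_eq_one_of_isUnit hp hu
  simp only [hval]
  rw [tsum_eq_single 1]
  · rw [if_pos rfl, map_one, one_smul]
    split_ifs <;> simp
  · intro y hy
    rw [if_neg hy, zero_mul]

end Crest.Agent.R017.F1
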