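import Crest.Agent.R017.F1Eq2_180

/-!
# Row 17, section F, part 8 (helper180): the two constant term operators `SA`, `SB` of level 3
-/

set_option autoImplicit false

noncomputable section

open MeasureTheory Complex Set
open scoped ENNReal

namespace Crest.Agent.R017.F1

open Crest.Agent.R012 Crest.Agent.R012.Eis Crest.Agent.R012.Sym645 Crest.Agent.R012.Mob705
open Crest.Agent.R012.K695 (det2 n2 Vec EC rowv Gam kub rmul)
open Crest.Agent.R012.Parseval499 (par covol frq s3 covol_pos)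
open Crest.Agent.R017.Orth681

/-- the line integral. -/
def RH (F : Vec → ℂ) (M : K695.Frm) (h : ℂ) : ℂ := ∫ z : ℂ, F (h • M.1 + z • M.2)

lemma RH_neg {F : Vec → ℂ} (hF : ∀ u, F (-u) = F u) (M : K695.Frm) (h : ℂ) :
    RH F M (-h) = RH F M h := by
  unfold RH
  rw [← integral_neg_eq_self (fun z : ℂ => F (-h • M.1 + z • M.2))]
  refine integral_congr_ae (Filter.Eventually.of_forall fun z => ?_)
  simp only
  rw [← hF (h • M.1 + z • M.2)]
  congr 1
  rw [neg_smul, neg_smul, neg_add]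

lemma RH_bound {F : Vec → ℂ} (hF : Tst F) {M : K695.Frm} (hM : det2 M ≠ 0) :
    ∃ K : ℝ, 0 ≤ K ∧ ∀ h : ℂ, h ≠ 0 → ‖RH F M h‖ ≤ K * (‖h‖ ^ 4)⁻¹ := by
  obtain ⟨C, hC⟩ := hF.dec
  have hC0 := tst_const_nonneg hC
  refine ⟨C * (n2 M.2 / ‖det2 M‖ ^ 4 * c0.toReal), by have := n2_nonneg' M.2; positivity,
    fun h hh => ?_⟩
  have h1 : ‖RH F M h‖ ≤ (∫⁻ z : ℂ, ‖F (h • M.1 + z • M.2)‖ₑ).toReal := by
    unfold RH
    exact norm_integral_le_lintegral_norm _ |>.trans (le_of_eq (by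
      congr 1
      refine lintegral_congr fun z => ?_
      rw [ofReal_norm]))
  refine h1.trans ?_
  have h2 : ∫⁻ z : ℂ, ‖F (h • M.1 + z • M.2)‖ₑ ≤
      ENNReal.ofReal C * (ENNReal.ofReal (n2 M.2 / ‖h * det2 M‖ ^ 4) * c0) := by
    refine (lintegral_mono (g := fun z : ℂ => ENNReal.ofReal C * GE (h • M.1 + z • M.2))
      fun z => ?_).trans ?_
    · simp only
      rw [← ofReal_norm]
      unfold GE GG
      rw [← ENNReal.ofReal_mul hC0]
      exact ENNReal.ofReal_le_ofReal (hC _)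
    · rw [lintegral_const_mul' _ _ ENNReal.ofReal_ne_top]
      gcongr
      exact lint_hline hM hh
  have hfin : ENNReal.ofReal C * (ENNReal.ofReal (n2 M.2 / ‖h * det2 M‖ ^ 4) * c0) ≠ ∞ :=
    ENNReal.mul_ne_top ENNReal.ofReal_ne_top
      (ENNReal.mul_ne_top ENNReal.ofReal_ne_top c0_ne_top)
  refine (ENNReal.toReal_mono hfin h2).trans (le_of_eq ?_)
  have hn := n2_nonneg' M.2
  rw [ENNReal.toReal_mul, ENNReal.toReal_mul, ENNReal.toReal_ofReal hC0,
    ENNReal.toReal_ofReal (by positivity), norm_mul]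
  have hd : ‖det2 M‖ ≠ 0 := norm_ne_zero_iff.mpr hM
  have hh' : ‖h‖ ≠ 0 := norm_ne_zero_iff.mpr hh
  field_simp

/-! ### values at cubes -/

lemma AA_eq {h : Eis} (h3 : (3 : Eis) ∣ h) : AA h = Ac h := by
  unfold AA Ac
  refine sumMod_congr fun y => ?_
  unfold aI
  rw [if_pos h3]

lemma AA_zero {h : Eis} (h0 : h ≠ 0) (h3 : ¬ (3 : Eis) ∣ h) : AA h = 0 := by
  unfold AA
  rw [sumMod_congr (g := fun _ => 0) (fun y => aI_not_dvd h3 y), sumMod_const (three_mul_ne h0),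
    mul_zero]

lemma AP_zero {h : Eis} (h0 : h ≠ 0) (hp : ¬ IsPrim h) : AP h = 0 := by
  unfold AP
  rw [sumMod_congr (g := fun _ => 0) (fun y => aF_not_prim hp 0 y), sumMod_const (three_mul_ne h0),
    mul_zero]

lemma Ac_split {h : Eis} (h0 : h ≠ 0) : Ac h = AA h + 3 * AP h := by
  have h3 := three_mul_ne h0
  unfold Ac
  rw [sumMod_congr (g := fun y => aI (h, y) + (aF 0 (h, y) + aF 1 (h, y) + aF (-1) (h, y)))
    (fun y => a2_eq_sum (h, y)), sumMod_add h3, sumMod_add h3, sumMod_add h3,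
    sum_aF (t := 0) (by simp [inL]) h0, sum_aF (t := 1) (by simp [inL]) h0,
    sum_aF (t := -1) (by simp [inL]) h0]
  unfold AA
  ring

lemma AP_prim {h : Eis} (hp : IsPrim h) : AP h = (1 / 3) * Ac h := by
  rw [Ac_split hp.ne_zero, AA_zero hp.ne_zero (not_three_prim hp)]
  ring

lemma three_dvd_cube {n : Eis} (h : lam ∣ n) : (3 : Eis) ∣ n ^ 3 := by
  obtain ⟨m, rfl⟩ := h
  have h1 : (lam * m) ^ 3 = lam ^ 2 * (lam * m ^ 3) := by ring
  rw [h1]
  exact three_dvd_lam_sq.mul_right _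

lemma not_three_dvd_cube {n : Eis} (h : ¬ lam ∣ n) : ¬ (3 : Eis) ∣ n ^ 3 := fun h3 =>
  h (prime_lam.dvd_of_dvd_pow (lam_dvd_three.trans h3))

lemma AA_cube {n : Eis} (hn : n ≠ 0) (hl : lam ∣ n) :
    AA (n ^ 3) = ((nm (n ^ 3) * PE n : ℝ) : ℂ) := by
  rw [AA_eq (three_dvd_cube hl)]
  obtain ⟨m, rfl⟩ := hl
  have hm : m ≠ 0 := right_ne_zero_of_mul hn
  rw [Ac_three (pow_ne_zero 3 hn) (three_dvd_cube (Dvd.intro _ rfl)),
    CharSum852.Ssum_cube syFacts hn, Gram858.psi_lam_cube hm, Complex.conj_ofReal, PE_lam_mul hm]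

lemma AP_cube {n : Eis} (hn : ¬ lam ∣ n) (hp : IsPrim (n ^ 3)) :
    AP (n ^ 3) = ((nm (n ^ 3) * PE n : ℝ) : ℂ) := by
  have hn0 : n ≠ 0 := by rintro rfl; exact hn (dvd_zero _)
  have h1 := Ac_sym_cube hn0
  rw [Ac_zero (neg_ne_zero.mpr hp.ne_zero) (fun h => not_three_prim hp ((dvd_neg).mp h))
    (not_prim_neg hp), add_zero] at h1
  rw [AP_prim hp, h1]
  unfold PL
  rw [if_neg hn]
  push_cast
  ring

/-! ### the operators -/

/-- `PE n · RH (n³)`. -/
def gx (F : Vec → ℂ) (M : K695.Frm) (n : Eis) : ℂ := (PE n : ℂ) * RH F M (toC n ^ 3)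

open Classical in
/-- the operator `A`. -/
def SA (F : Vec → ℂ) (M : K695.Frm) : ℂ :=
  (1 / 6) * ∑' n : Eis, (if lam ∣ n then 0 else gx F M n)

open Classical in
/-- the operator `B`. -/
def SB (F : Vec → ℂ) (M : K695.Frm) : ℂ :=
  (1 / 3) * ∑' n : Eis, (if n = 0 then 0 else if lam ∣ n then gx F M n else 0)

lemma gx_neg {F : Vec → ℂ} (hF : ∀ u, F (-u) = F u) (M : K695.Frm) {n : Eis} (hn : n ≠ 0) :
    gx F M (-n) = gx F M n := by
  unfold gx
  rw [PE_neg hn, map_neg, show (-toC n) ^ 3 = -(toC n ^ 3) by ring, RH_neg hF]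

lemma summable_gx {F : Vec → ℂ} (hF : Tst F) {M : K695.Frm} (hM : det2 M ≠ 0) :
    open Classical in Summable fun n : Eis => if n = 0 then 0 else gx F M n := by
  classical
  obtain ⟨K, hK, hb⟩ := RH_bound hF hM
  refine Summable.of_norm_bounded ((Theta131.summable_nm_two).mul_left (4 * K)) fun n => ?_
  by_cases hn : n = 0
  · rw [if_pos hn, norm_zero]; positivity
  rw [if_neg hn]
  have h1 : (1 : ℝ) ≤ nm n := by exact_mod_cast nm_pos.mpr hn
  have hnC : toC n ≠ 0 := by rwa [Ne, toC_eq_zero]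
  unfold gx
  rw [norm_mul, Complex.norm_real]
  have hPE : ‖PE n‖ ≤ 1 := by
    rw [Real.norm_eq_abs, abs_of_nonneg (PE_pos n).le]
    exact PE_le_one n
  have h2 := hb (toC n ^ 3) (pow_ne_zero 3 hnC)
  have h3 : ‖toC n ^ 3‖ ^ 4 = (nm n : ℝ) ^ 6 := by
    rw [norm_pow, ← norm_toC_sq]; ring
  rw [h3] at h2
  calc ‖PE n‖ * ‖RH F M (toC n ^ 3)‖ ≤ 1 * (K * ((nm n : ℝ) ^ 6)⁻¹) := by gcongr
    _ = K * ((nm n : ℝ) ^ 6)⁻¹ := one_mul _
    _ ≤ 4 * K * ((1 + (nm n : ℝ)) ^ 2)⁻¹ := by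
      have h4 : ((nm n : ℝ) ^ 6)⁻¹ ≤ 4 * ((1 + (nm n : ℝ)) ^ 2)⁻¹ := by
        rw [inv_eq_one_div, inv_eq_one_div, mul_one_div, div_le_div_iff₀ (by positivity)
          (by positivity), one_mul]
        have h5 : (1 + (nm n : ℝ)) ^ 2 ≤ 4 * (nm n : ℝ) ^ 2 := by nlinarith
        have h6 : (nm n : ℝ) ^ 2 ≤ (nm n : ℝ) ^ 6 := pow_le_pow_right₀ h1 (by norm_num)
        linarith
      calc K * ((nm n : ℝ) ^ 6)⁻¹ ≤ K * (4 * ((1 + (nm n : ℝ)) ^ 2)⁻¹) := by gcongr
        _ = _ := by ring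

lemma summable_if {F : Vec → ℂ} (hF : Tst F) {M : K695.Frm} (hM : det2 M ≠ 0) (P : Eis → Prop)
    (h0 : ¬ P 0) :
    open Classical in Summable fun n : Eis => if P n then gx F M n else 0 := by
  classical
  refine Summable.of_norm_bounded (summable_gx hF hM).norm fun n => ?_
  by_cases hP : P n
  · have hn : n ≠ 0 := by rintro rfl; exact h0 hP
    rw [if_pos hP, if_neg hn]
  · rw [if_neg hP, norm_zero]; positivity

open Classical in
/-- the summand over `h`. -/
def hs (F : Vec → ℂ) (M : K695.Frm) (V : Eis → ℂ) (h : Eis) : ℂ :=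
  if h = 0 then 0 else ((nm h : ℂ))⁻¹ * (V h * RH F M (toC h))

lemma hs_congr (F : Vec → ℂ) (M : K695.Frm) {V V' : Eis → ℂ} (h : ∀ x, x ≠ 0 → V x = V' x)
    (x : Eis) : hs F M V x = hs F M V' x := by
  unfold hs
  by_cases hx : x = 0
  · rw [if_pos hx, if_pos hx]
  · rw [if_neg hx, if_neg hx, h x hx]

lemma AA_zero' (h : Eis) (h3 : ¬ (3 : Eis) ∣ h) : AA h = 0 :=
  AA_zero (by rintro rfl; exact h3 (dvd_zero _)) h3

lemma sum_AA {F : Vec → ℂ} (hF : Tst F) {M : K695.Frm} (hM : det2 M ≠ 0) :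
    ∑' h : Eis, hs F M AA h = SB F M := by
  classical
  have hcube : ∀ m : Eis, hs F M AA (m ^ 3) =
      if (m ≠ 0 ∧ lam ∣ m) then gx F M m else 0 := by
    intro m
    unfold hs
    by_cases hm : m = 0
    · subst hm; simp
    · have hm3 : m ^ 3 ≠ 0 := pow_ne_zero 3 hm
      rw [if_neg hm3]
      by_cases hl : lam ∣ m
      · rw [if_pos ⟨hm, hl⟩, AA_cube hm hl, map_pow]
        unfold gx
        have : (nm (m ^ 3) : ℂ) ≠ 0 := by exact_mod_cast (nm_pos.mpr hm3).ne'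
        push_cast
        field_simp
      · rw [if_neg (fun h => hl h.2), AA_zero' _ (not_three_dvd_cube hl)]; ring
  have hsupp : ∀ c, hs F M AA c ≠ 0 → ∃ e, c = e ^ 3 := by
    intro c hc
    by_contra hn
    apply hc
    unfold hs
    by_cases h0 : c = 0
    · rw [if_pos h0]
    · rw [if_neg h0]
      by_cases h3 : (3 : Eis) ∣ c
      · rw [AA_eq h3, Ac_not_cube h0 hn]; ring
      · rw [AA_zero h0 h3]; ring
  have hsm := summable_if hF hM (fun m => m ≠ 0 ∧ lam ∣ m) (fun h => h.1 rfl)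
  rw [Gram858.tsum_cubes (by simp [hs]) hsupp (hsm.congr fun m => by rw [hcube m]; congr)]
  unfold SB
  congr 1
  refine tsum_congr fun m => ?_
  rw [hcube]
  by_cases hm : m = 0
  · simp [hm]
  · by_cases hl : lam ∣ m
    · simp [hm, hl]
    · simp [hm, hl]

lemma prim_or_neg {m : Eis} (hm : ¬ lam ∣ m) : IsPrim (m ^ 3) ∨ IsPrim (-(m ^ 3)) := by
  obtain ⟨u, hu⟩ := exists_unit_mul_isPrim hm
  have h1 : IsPrim ((u * m) ^ 3) := hu.pow 3
  rcases unit_cube u.isUnit with h | h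
  · left; rwa [mul_pow, h, one_mul] at h1
  · right; rwa [mul_pow, h, neg_one_mul] at h1

lemma sum_AP {F : Vec → ℂ} (hF : Tst F) {M : K695.Frm} (hM : det2 M ≠ 0) :
    ∑' h : Eis, hs F M AP h = SA F M := by
  classical
  have hlam : ∀ m : Eis, IsPrim (m ^ 3) → ¬ lam ∣ m := fun m h hl =>
    not_three_prim h (three_dvd_cube hl)
  have hcube : ∀ m : Eis, hs F M AP (m ^ 3) = if IsPrim (m ^ 3) then gx F M m else 0 := by
    intro m
    unfold hs
    by_cases hm : m = 0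
    · subst hm
      rw [if_pos (by ring), if_neg]
      intro h
      exact h.ne_zero (by ring)
    · have hm3 : m ^ 3 ≠ 0 := pow_ne_zero 3 hm
      rw [if_neg hm3]
      by_cases hp : IsPrim (m ^ 3)
      · rw [if_pos hp, AP_cube (hlam m hp) hp, map_pow]
        unfold gx
        have : (nm (m ^ 3) : ℂ) ≠ 0 := by exact_mod_cast (nm_pos.mpr hm3).ne'
        push_cast
        field_simp
      · rw [if_neg hp, AP_zero hm3 hp]; ring
  have hsupp : ∀ c, hs F M AP c ≠ 0 → ∃ e, c = e ^ 3 := by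
    intro c hc
    by_contra hn
    apply hc
    unfold hs
    by_cases h0 : c = 0
    · rw [if_pos h0]
    · rw [if_neg h0]
      by_cases hp : IsPrim c
      · rw [AP_prim hp, Ac_not_cube h0 hn]; ring
      · rw [AP_zero h0 hp]; ring
  have hs1 := summable_if hF hM (fun m => IsPrim (m ^ 3)) (fun h => h.ne_zero (by ring))
  have hs2 := summable_if hF hM (fun m => IsPrim (-(m ^ 3))) (fun h => h.ne_zero (by ring))
  rw [Gram858.tsum_cubes (by simp [hs]) hsupp (by simpa only [hcube] using hs1)]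
  have e1 : ∑' m : Eis, hs F M AP (m ^ 3) =
      ∑' m : Eis, if IsPrim (-(m ^ 3)) then gx F M m else 0 := by
    rw [← tsum_neg_arg (fun m => hs F M AP (m ^ 3))]
    refine tsum_congr fun m => ?_
    rw [hcube, show (-m) ^ 3 = -(m ^ 3) by ring]
    by_cases hp : IsPrim (-(m ^ 3))
    · rw [if_pos hp, if_pos hp]
      have hm : m ≠ 0 := by rintro rfl; exact hp.ne_zero (by ring)
      exact gx_neg hF.even M hm
    · rw [if_neg hp, if_neg hp]
  have e2 : ∑' m : Eis, hs F M AP (m ^ 3) = ∑' m : Eis, if IsPrim (m ^ 3) then gx F M m else 0 :=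
    tsum_congr hcube
  have e3 : 2 * ∑' m : Eis, hs F M AP (m ^ 3) =
      ∑' n : Eis, (if lam ∣ n then 0 else gx F M n) := by
    rw [two_mul]
    nth_rewrite 1 [e2]
    rw [e1, ← hs1.tsum_add hs2]
    refine tsum_congr fun m => ?_
    by_cases hl : lam ∣ m
    · have h3 := three_dvd_cube hl
      rw [if_pos hl, if_neg (fun h => not_three_prim h h3),
        if_neg (fun h => not_three_prim h ((dvd_neg).mpr h3)), add_zero]
    · rw [if_neg hl]
      rcases prim_or_neg hl with h | h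
      · rw [if_pos h, if_neg (not_prim_neg h), add_zero]
      · have h' : ¬ IsPrim (m ^ 3) := by
          have := not_prim_neg h
          rwa [neg_neg] at this
        rw [if_neg h', if_pos h, zero_add]
  unfold SA
  rw [← e3]
  ring

lemma hs_neg {F : Vec → ℂ} (hF : ∀ u, F (-u) = F u) (M : K695.Frm) (V : Eis → ℂ) (h : Eis) :
    hs F M V (-h) = hs F M (fun h => V (-h)) h := by
  unfold hs
  by_cases h0 : h = 0
  · rw [if_pos h0, if_pos (by rw [h0, neg_zero])]
  · rw [if_neg h0, if_neg (neg_ne_zero.mpr h0), nm_neg, map_neg, RH_neg hF]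

lemma sum_AP_neg {F : Vec → ℂ} (hF : Tst F) {M : K695.Frm} (hM : det2 M ≠ 0) :
    ∑' h : Eis, hs F M (fun h => AP (-h)) h = SA F M := by
  rw [← sum_AP hF hM, ← tsum_neg_arg (hs F M AP)]
  exact tsum_congr fun h => (hs_neg hF.even M AP h).symm

/-! ### the constant terms -/

/-- **constant terms** of the four series along the four cusps. -/
theorem CT4 (i j : Fin 4) {H : ℂ → Vec → ℂ} (hH : TFD H) {M : K695.Frm} (hM : det2 M ≠ 0)
    (hT : Tst (H (det2 M))) :
    CT 3 (g4 i) (ED (a4 j) H) M =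
      if i = j then (covol 3 : ℂ) * H (det2 M) M.2 + SB (H (det2 M)) M
      else SA (H (det2 M)) M := by
  classical
  have h30 : (3 : Eis) ≠ 0 := three_ne_zero'
  rw [ct_formula h30 (cof4 j) hH (reg4 i) hM, zero_row, toC_three']
  have e : ∀ h : Eis, (if h = 0 then 0 else ((nm h : ℂ))⁻¹ *
        (sumMod (h * 3) (fun y => a4 j (rmulS (h, y) (g4 i))) *
          ∫ z : ℂ, H (det2 M) (toC h • M.1 + z • M.2))) =
      hs (H (det2 M)) M (fun h => sumMod (h * 3) (fun y => a4 j (rmulS (h, y) (g4 i)))) h :=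
    fun h => rfl
  rw [tsum_congr e]
  by_cases hij : i = j
  · subst hij
    rw [if_pos rfl, if_pos rfl, ← sum_AA hT hM]
    congr 1
    exact tsum_congr fun h => hs_congr _ _ (fun x _ => sumW_same i x) h
  · rw [if_neg hij, if_neg hij, mul_zero, zero_add]
    rcases sumW_ne hij with hw | hw
    · rw [← sum_AP hT hM]
      exact tsum_congr fun h => hs_congr _ _ hw h
    · rw [← sum_AP_neg hT hM]
      exact tsum_congr fun h => hs_congr _ _ hw h

end Crest.Agent.R017.F1
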