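import Crest.Agent.R017.F1Eq3_180

/-!
# Row 17, section F, part 9 (helper180): **the functional equation of the level-3 series**
-/

set_option autoImplicit false

noncomputable section

open MeasureTheory Complex Set
open scoped ENNReal

namespace Crest.Agent.R017.F1

open Crest.Agent.R012 Crest.Agent.R012.Eis Crest.Agent.R012.Sym645 Crest.Agent.R012.Mob705
open Crest.Agent.R012.K695 (det2 n2 Vec EC rowv Gam kub rmul)
open Crest.Agent.R012.Parseval499 (par covol frq s3 covol_pos)
open Crest.Agent.R017.Orth681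

/-! ### closure properties of test functions -/

/-- dilation. -/
def dil (a : ℂ) (F : Vec → ℂ) (u : Vec) : ℂ := F (a • u)

lemma Tst.dil {F : Vec → ℂ} (hF : Tst F) {a : ℂ} (ha : a ≠ 0) : Tst (dil a F) where
  cont := hF.cont.comp (by fun_prop)
  even u := by unfold F1.dil; rw [smul_neg, hF.even]
  dec := by
    obtain ⟨C, hC⟩ := hF.dec
    have hC0 := tst_const_nonneg hC
    have ha' : 0 < ‖a‖ ^ 2 := by positivity
    set k : ℝ := min 1 (‖a‖ ^ 2) with hk
    have hk0 : 0 < k := lt_min one_pos ha'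
    refine ⟨C * (k ^ 4)⁻¹, fun u => (hC _).trans ?_⟩
    rw [mul_assoc, n2_smul', ← mul_inv, ← mul_pow]
    have hn := n2_nonneg' u
    gcongr
    have h1 : k * 1 ≤ 1 := by rw [mul_one]; exact min_le_left _ _
    have h2 : k * n2 u ≤ ‖a‖ ^ 2 * n2 u := by
      gcongr
      exact min_le_right _ _
    calc k * (1 + n2 u) = k * 1 + k * n2 u := by ring
      _ ≤ 1 + ‖a‖ ^ 2 * n2 u := add_le_add h1 h2

lemma Tst.const_mul {F : Vec → ℂ} (hF : Tst F) (c : ℂ) : Tst (fun u => c * F u) where
  cont := continuous_const.mul hF.cont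
  even u := by rw [hF.even]
  dec := by
    obtain ⟨C, hC⟩ := hF.dec
    refine ⟨‖c‖ * C, fun u => ?_⟩
    rw [norm_mul, mul_assoc]
    gcongr
    exact hC u

lemma Tst.add {F G : Vec → ℂ} (hF : Tst F) (hG : Tst G) : Tst (fun u => F u + G u) where
  cont := hF.cont.add hG.cont
  even u := by rw [hF.even, hG.even]
  dec := by
    obtain ⟨C, hC⟩ := hF.dec
    obtain ⟨D, hD⟩ := hG.dec
    refine ⟨C + D, fun u => (norm_add_le _ _).trans ?_⟩
    rw [add_mul]
    exact add_le_add (hC u) (hD u)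

lemma Tst.scl {F : Vec → ℂ} (hF : Tst F) {δ : ℂ} (hδ : δ ≠ 0) : Tst (scl δ F) :=
  (hF.dil (inv_ne_zero hδ)).const_mul _

/-! ### linearity -/

lemma RH_add {F G : Vec → ℂ} (hF : Tst F) (hG : Tst G) {M : K695.Frm} (hM : det2 M ≠ 0) (h : ℂ) :
    RH (fun u => F u + G u) M h = RH F M h + RH G M h := by
  unfold RH
  exact integral_add (hF.integrable_line _ (K695.snd_ne_zero_of_det hM))
    (hG.integrable_line _ (K695.snd_ne_zero_of_det hM))

lemma RH_mul (c : ℂ) (F : Vec → ℂ) (M : K695.Frm) (h : ℂ) :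
    RH (fun u => c * F u) M h = c * RH F M h := by
  unfold RH
  exact integral_const_mul _ _

lemma SA_mul (c : ℂ) (F : Vec → ℂ) (M : K695.Frm) : SA (fun u => c * F u) M = c * SA F M := by
  classical
  have e : (∑' n : Eis, if lam ∣ n then 0 else gx (fun u => c * F u) M n) =
      c * ∑' n : Eis, if lam ∣ n then 0 else gx F M n := by
    rw [← tsum_mul_left]
    refine tsum_congr fun n => ?_
    unfold gx
    rw [RH_mul]
    split_ifs <;> ring
  unfold SA
  rw [e]; ring

lemma SB_mul (c : ℂ) (F : Vec → ℂ) (M : K695.Frm) : SB (fun u => c * F u) M = c * SB F M := by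
  classical
  have e : (∑' n : Eis, if n = 0 then 0 else if lam ∣ n then gx (fun u => c * F u) M n else 0) =
      c * ∑' n : Eis, if n = 0 then 0 else if lam ∣ n then gx F M n else 0 := by
    rw [← tsum_mul_left]
    refine tsum_congr fun n => ?_
    unfold gx
    rw [RH_mul]
    split_ifs <;> ring
  unfold SB
  rw [e]; ring

lemma summable_A {F : Vec → ℂ} (hF : Tst F) {M : K695.Frm} (hM : det2 M ≠ 0) :
    open Classical in Summable fun n : Eis => if lam ∣ n then 0 else gx F M n := by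
  classical
  refine (summable_if hF hM (fun n => ¬ lam ∣ n) (by simp)).congr fun n => ?_
  by_cases h : lam ∣ n
  · rw [if_pos h, if_neg (by simpa using h)]
  · rw [if_neg h, if_pos h]

lemma summable_B {F : Vec → ℂ} (hF : Tst F) {M : K695.Frm} (hM : det2 M ≠ 0) :
    open Classical in
    Summable fun n : Eis => if n = 0 then 0 else if lam ∣ n then gx F M n else 0 := by
  classical
  refine (summable_if hF hM (fun n => n ≠ 0 ∧ lam ∣ n) (fun h => h.1 rfl)).congr fun n => ?_
  by_cases h : n = 0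
  · rw [if_pos h, if_neg (fun h' => h'.1 h)]
  · by_cases h' : lam ∣ n
    · rw [if_neg h, if_pos h', if_pos ⟨h, h'⟩]
    · rw [if_neg h, if_neg h', if_neg (fun h'' => h' h''.2)]

lemma SA_add {F G : Vec → ℂ} (hF : Tst F) (hG : Tst G) {M : K695.Frm} (hM : det2 M ≠ 0) :
    SA (fun u => F u + G u) M = SA F M + SA G M := by
  classical
  unfold SA
  rw [← mul_add, ← (summable_A hF hM).tsum_add (summable_A hG hM)]
  congr 1
  refine tsum_congr fun n => ?_
  unfold gx
  rw [RH_add hF hG hM]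
  split_ifs <;> ring

lemma SB_add {F G : Vec → ℂ} (hF : Tst F) (hG : Tst G) {M : K695.Frm} (hM : det2 M ≠ 0) :
    SB (fun u => F u + G u) M = SB F M + SB G M := by
  classical
  unfold SB
  rw [← mul_add, ← (summable_B hF hM).tsum_add (summable_B hG hM)]
  congr 1
  refine tsum_congr fun n => ?_
  unfold gx
  rw [RH_add hF hG hM]
  split_ifs <;> ring

/-! ### the relation between `SA` and `SB` -/

lemma norm_lam3 : ‖toC lam ^ 3‖ ^ 2 = 27 := by
  rw [norm_pow, ← pow_mul, mul_comm 3 2, pow_mul, norm_toC_sq]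
  have : (nm lam : ℝ) = 3 := by
    have h : nm lam = 3 := Eis.nm_lam
    rw [h]; norm_num
  rw [this]; norm_num

lemma lam3_ne : toC lam ^ 3 ≠ 0 := by
  intro h
  have := norm_lam3
  rw [h] at this
  norm_num at this

lemma RH_lam (F : Vec → ℂ) (M : K695.Frm) (h : ℂ) :
    RH F M (toC lam ^ 3 * h) = 27 * RH (dil (toC lam ^ 3) F) M h := by
  have h1 := Gram858.integral_mul_left' lam3_ne
    (fun z : ℂ => F ((toC lam ^ 3 * h) • M.1 + z • M.2))
  rw [norm_lam3, Complex.real_smul] at h1
  have h2 : RH (dil (toC lam ^ 3) F) M h =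
      ∫ z : ℂ, F ((toC lam ^ 3 * h) • M.1 + (toC lam ^ 3 * z) • M.2) := by
    unfold RH dil
    refine integral_congr_ae (Filter.Eventually.of_forall fun z => ?_)
    simp only
    rw [smul_add, smul_smul, smul_smul]
  rw [h2, h1]
  unfold RH
  push_cast
  ring

lemma sum_all {F : Vec → ℂ} (hF : Tst F) {M : K695.Frm} (hM : det2 M ≠ 0) :
    open Classical in 2 * SA F M + SB F M =
      (1 / 3) * ∑' n : Eis, (if n = 0 then 0 else gx F M n) := by
  classical
  have e : ∑' n : Eis, (if n = 0 then 0 else gx F M n) =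
      (∑' n : Eis, if lam ∣ n then 0 else gx F M n) +
      ∑' n : Eis, (if n = 0 then 0 else if lam ∣ n then gx F M n else 0) := by
    rw [← (summable_A hF hM).tsum_add (summable_B hF hM)]
    refine tsum_congr fun n => ?_
    by_cases h : n = 0
    · subst h; simp
    · by_cases h' : lam ∣ n
      · simp [h, h']
      · simp [h, h']
  rw [e]
  unfold SA SB
  ring

/-- `SB F = 27 (2 SA + SB) (F ∘ λ³)`. -/
theorem star {F : Vec → ℂ} (hF : Tst F) {M : K695.Frm} (hM : det2 M ≠ 0) :
    SB F M = 27 * (2 * SA (dil (toC lam ^ 3) F) M + SB (dil (toC lam ^ 3) F) M) := by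
  classical
  rw [sum_all (hF.dil lam3_ne) hM]
  have hinj : Function.Injective (fun m : Eis => lam * m) := mul_right_injective₀ lam_ne_zero
  have h1 : ∑' n : Eis, (if n = 0 then 0 else if lam ∣ n then gx F M n else 0) =
      ∑' m : Eis, 27 * (if m = 0 then 0 else gx (dil (toC lam ^ 3) F) M m) := by
    rw [← hinj.tsum_eq]
    · refine tsum_congr fun m => ?_
      by_cases hm : m = 0
      · subst hm; simp
      · have hlm : lam * m ≠ 0 := mul_ne_zero lam_ne_zero hm
        simp only [hlm, if_false, if_neg hm, dvd_mul_right, if_true]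
        unfold gx
        rw [PE_lam_mul hm, map_mul, mul_pow, RH_lam]
        ring
    · intro n hn
      rw [Function.mem_support] at hn
      by_cases h0 : n = 0
      · exact absurd (by simp [h0]) hn
      · by_cases hl : lam ∣ n
        · obtain ⟨m, rfl⟩ := hl; exact ⟨m, rfl⟩
        · exact absurd (by simp [h0, hl]) hn
  unfold SB
  rw [h1, tsum_mul_left]
  ring

/-- `3 SA + SB = covol · MOp`. -/
theorem MOp_eq {F : Vec → ℂ} (hF : Tst F) {M : K695.Frm} (hM : det2 M ≠ 0) :
    3 * SA F M + SB F M = (covol 3 : ℂ) * MOp F M := by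
  classical
  have e : ∑' n : Eis, (if n = 0 then 0 else
      (PL n : ℂ) * ∫ x : ℂ, F ((toC n ^ 3) • M.1 + x • M.2)) =
      6 * SA F M + 2 * SB F M := by
    unfold SA SB
    have e1 : 6 * (1 / 6 * ∑' n : Eis, (if lam ∣ n then 0 else gx F M n)) +
        2 * (1 / 3 * ∑' n : Eis, (if n = 0 then 0 else if lam ∣ n then gx F M n else 0)) =
        (∑' n : Eis, (if lam ∣ n then 0 else gx F M n)) +
        ∑' n : Eis, (2 / 3) * (if n = 0 then 0 else if lam ∣ n then gx F M n else 0) := by
      rw [tsum_mul_left]; ring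
    rw [e1, ← (summable_A hF hM).tsum_add ((summable_B hF hM).mul_left (2 / 3))]
    refine tsum_congr fun n => ?_
    by_cases h : n = 0
    · subst h; simp
    · by_cases h' : lam ∣ n
      · simp only [h, h', if_false, if_true]
        unfold gx PL RH
        rw [if_pos h']
        push_cast
        ring
      · simp only [h, h', if_false]
        unfold gx PL RH
        rw [if_neg h']
        push_cast
        ring
  unfold MOp
  rw [e]
  have h3 : ‖(3 : ℂ)‖ = 3 := by norm_num
  have hs : (Real.sqrt 3 : ℂ) ≠ 0 := by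
    rw [Ne, Complex.ofReal_eq_zero]
    positivity
  unfold covol vL
  rw [h3]
  push_cast
  field_simp
  ring

/-! ### consequences of `FEPair` -/

/-- the dilated frame. -/
def mD (a : ℂ) (M : K695.Frm) : K695.Frm := (a • M.1, a • M.2)

lemma det2_mD (a : ℂ) (M : K695.Frm) : det2 (mD a M) = a ^ 2 * det2 M := by
  unfold det2 mD
  simp only [Prod.smul_fst, Prod.smul_snd, smul_eq_mul]
  ring

lemma MOp_dil (a : ℂ) (F : Vec → ℂ) (M : K695.Frm) : MOp (dil a F) M = MOp F (mD a M) := by
  unfold MOp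
  congr 1
  refine tsum_congr fun n => ?_
  split_ifs
  · rfl
  · congr 1
    refine integral_congr_ae (Filter.Eventually.of_forall fun x => ?_)
    simp only [dil, mD]
    rw [smul_add, smul_comm a, smul_comm a x]

variable {F F' : Vec → ℂ}

lemma FEPair.x3 (h : FEPair F F') {M : K695.Frm} (hM : det2 M ≠ 0) {a : ℂ} (ha : a ≠ 0) :
    MOp (dil a F) M = (((‖a‖ ^ 4)⁻¹ : ℝ) : ℂ) * dil a⁻¹ (scl (det2 M) F') M.2 := by
  have hd : det2 (mD a M) ≠ 0 := by rw [det2_mD]; exact mul_ne_zero (pow_ne_zero 2 ha) hM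
  rw [MOp_dil, h.m1 _ hd, det2_mD]
  unfold scl dil mD
  simp only
  have e1 : (a ^ 2 * det2 M)⁻¹ • a • M.2 = (det2 M)⁻¹ • a⁻¹ • M.2 := by
    rw [smul_smul, smul_smul]
    congr 1
    field_simp
  rw [e1, norm_mul, norm_pow]
  push_cast
  ring

lemma FEPair.x4 (h : FEPair F F') {M : K695.Frm} (hM : det2 M ≠ 0) {a : ℂ} (ha : a ≠ 0) :
    MOp (dil a⁻¹ (scl (det2 M) F')) M = ((‖a‖ ^ 4 : ℝ) : ℂ) * dil a F M.2 := by
  have hd : det2 (mD a M) ≠ 0 := by rw [det2_mD]; exact mul_ne_zero (pow_ne_zero 2 ha) hM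
  have h1 : MOp (dil a (scl (det2 (mD a M)) F')) M = F (a • M.2) := by
    rw [MOp_dil, h.m2 _ hd]; rfl
  have h2 : dil a⁻¹ (scl (det2 M) F') = fun u =>
      ((‖a‖ ^ 4 : ℝ) : ℂ) * dil a (scl (det2 (mD a M)) F') u := by
    funext u
    rw [det2_mD]
    have e1 : (a ^ 2 * det2 M)⁻¹ • a • u = (det2 M)⁻¹ • a⁻¹ • u := by
      rw [smul_smul, smul_smul]
      congr 1
      field_simp
    simp only [scl, dil]
    rw [e1, norm_mul, norm_pow]
    have hna : ‖a‖ ≠ 0 := norm_ne_zero_iff.mpr ha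
    rw [← mul_assoc, ← Complex.ofReal_mul]
    congr 2
    field_simp
  have h3 : MOp (fun u => ((‖a‖ ^ 4 : ℝ) : ℂ) * dil a (scl (det2 (mD a M)) F') u) M =
      ((‖a‖ ^ 4 : ℝ) : ℂ) * MOp (dil a (scl (det2 (mD a M)) F')) M := by
    generalize dil a (scl (det2 (mD a M)) F') = G
    classical
    have e : (∑' n : Eis, if n = 0 then 0 else (PL n : ℂ) *
        ∫ x : ℂ, (((‖a‖ ^ 4 : ℝ) : ℂ) * G ((toC n ^ 3) • M.1 + x • M.2))) =
        ((‖a‖ ^ 4 : ℝ) : ℂ) * ∑' n : Eis, if n = 0 then 0 else (PL n : ℂ) *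
        ∫ x : ℂ, G ((toC n ^ 3) • M.1 + x • M.2) := by
      rw [← tsum_mul_left]
      refine tsum_congr fun n => ?_
      split_ifs
      · rw [mul_zero]
      · rw [integral_const_mul]; ring
    unfold MOp
    rw [e]; ring
  rw [h2, h3, h1]
  rfl

end Crest.Agent.R017.F1
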