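import Crest.Agent.R017.F1Eq4_180

/-!
# Row 17, section F, part 10 (helper180): **the functional equation of the level-3 series**

`level3` : for `FEPair F F'` and every frame `M` with `δ = det M ≠ 0`,
`E_{aF 0}(F - 9 F∘λ³) = (2/81) E_{aF 0}(F'_δ∘λ⁻³) + Σ_{a = aI, aF 1, aF (-1)} E_a ((1/3) F'_δ - (1/81) F'_δ∘λ⁻³)`.
-/

set_option autoImplicit false

noncomputable section

open MeasureTheory Complex Set
open scoped ENNReal

namespace Crest.Agent.R017.F1

open Crest.Agent.R012 Crest.Agent.R012.Eis Crest.Agent.R012.Sym645 Crest.Agent.R012.Mob705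
open Crest.Agent.R012.K695 (det2 n2 Vec EC rowv Gam kub rmul)
open Crest.Agent.R012.Parseval499 (par covol frq s3 covol_pos)
open Crest.Agent.R017.Orth681

/-! ### test functions depending on the determinant -/

lemma tfd_const {F : Vec → ℂ} (hF : Tst F) : TFD (fun _ u => F u) where
  cont := (hF.cont.comp continuous_snd).continuousOn
  dec D := by
    obtain ⟨C, hC⟩ := hF.dec
    exact ⟨C, fun δ _ u => hC u⟩

lemma tfd_scl {F : Vec → ℂ} (hF : Tst F) {b : ℂ} (hb : b ≠ 0) :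
    TFD (fun δ u => dil b (scl δ F) u) where
  cont := by
    intro p hp
    have hp' : p.1 ≠ 0 := hp
    apply ContinuousAt.continuousWithinAt
    unfold dil scl
    refine ContinuousAt.mul ?_ ?_
    · have h1 : ContinuousAt (fun p : ℂ × Vec => (‖p.1‖ ^ 2)⁻¹) p :=
        ((continuous_fst.norm.pow 2).continuousAt).inv₀
          (pow_ne_zero 2 (norm_ne_zero_iff.mpr hp'))
      exact (Complex.continuous_ofReal.continuousAt).comp h1
    · have h1 : ContinuousAt (fun p : ℂ × Vec => p.1⁻¹ • b • p.2) p :=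
        (ContinuousAt.inv₀ continuousAt_fst hp').smul (by fun_prop)
      exact (hF.cont.continuousAt).comp h1
  dec D := by
    obtain ⟨C, hC⟩ := hF.dec
    have hC0 := tst_const_nonneg hC
    by_cases hD : 0 < D
    · have hb' : 0 < ‖b‖ ^ 2 / D ^ 2 := by positivity
      set k : ℝ := min 1 (‖b‖ ^ 2 / D ^ 2) with hk
      have hk0 : 0 < k := lt_min one_pos hb'
      refine ⟨D ^ 2 * C * (k ^ 4)⁻¹, fun δ hδ u => ?_⟩
      obtain ⟨h1, h2⟩ := hδ
      have hδ0 : 0 < ‖δ‖ := by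
        by_contra h
        push Not at h
        have := norm_nonneg δ
        have h0 : ‖δ‖ = 0 := le_antisymm h this
        rw [h0, mul_zero] at h1
        linarith
      have hn := n2_nonneg' u
      unfold dil scl
      rw [norm_mul, Complex.norm_real, norm_inv, norm_pow, norm_norm]
      have e1 : (‖δ‖ ^ 2)⁻¹ ≤ D ^ 2 := by
        rw [inv_le_comm₀ (by positivity) (by positivity), inv_eq_one_div,
          div_le_iff₀ (by positivity)]
        nlinarith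
      have e2 : ‖F (δ⁻¹ • b • u)‖ ≤ C * ((k ^ 4)⁻¹ * GG u) := by
        refine (hC _).trans ?_
        rw [n2_smul', n2_smul', norm_inv]
        unfold GG
        rw [← mul_inv, ← mul_pow]
        gcongr
        have h5 : k * 1 ≤ 1 := by rw [mul_one]; exact min_le_left _ _
        have h6 : k * n2 u ≤ ‖δ‖⁻¹ ^ 2 * (‖b‖ ^ 2 * n2 u) := by
          have h7 : k ≤ ‖b‖ ^ 2 / D ^ 2 := min_le_right _ _
          have h8 : ‖b‖ ^ 2 / D ^ 2 ≤ ‖δ‖⁻¹ ^ 2 * ‖b‖ ^ 2 := by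
            rw [inv_pow, inv_mul_eq_div]
            gcongr
          calc k * n2 u ≤ (‖δ‖⁻¹ ^ 2 * ‖b‖ ^ 2) * n2 u := by gcongr; exact h7.trans h8
            _ = _ := by ring
        calc k * (1 + n2 u) = k * 1 + k * n2 u := by ring
          _ ≤ 1 + ‖δ‖⁻¹ ^ 2 * (‖b‖ ^ 2 * n2 u) := add_le_add h5 h6
      calc (‖δ‖ ^ 2)⁻¹ * ‖F (δ⁻¹ • b • u)‖ ≤ D ^ 2 * (C * ((k ^ 4)⁻¹ * GG u)) := by gcongr
        _ = _ := by ring
    · refine ⟨0, fun δ hδ u => ?_⟩
      exfalso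
      obtain ⟨h1, h2⟩ := hδ
      push Not at hD
      have := mul_nonneg (neg_nonneg.mpr hD) (norm_nonneg δ)
      linarith

lemma tfd_add {H H' : ℂ → Vec → ℂ} (h : TFD H) (h' : TFD H') :
    TFD (fun δ u => H δ u + H' δ u) where
  cont := h.cont.add h'.cont
  dec D := by
    obtain ⟨C, hC⟩ := h.dec D
    obtain ⟨C', hC'⟩ := h'.dec D
    refine ⟨C + C', fun δ hδ u => (norm_add_le _ _).trans ?_⟩
    rw [add_mul]
    exact add_le_add (hC δ hδ u) (hC' δ hδ u)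

lemma tfd_mul {H : ℂ → Vec → ℂ} (h : TFD H) (c : ℂ) : TFD (fun δ u => c * H δ u) where
  cont := continuousOn_const.mul h.cont
  dec D := by
    obtain ⟨C, hC⟩ := h.dec D
    refine ⟨‖c‖ * C, fun δ hδ u => ?_⟩
    rw [norm_mul, mul_assoc]
    gcongr
    exact hC δ hδ u

/-! ### the family -/

/-- `λ³`. -/
def al : ℂ := toC lam ^ 3

lemma al_ne : al ≠ 0 := lam3_ne

lemma norm_al4 : ‖al‖ ^ 4 = 729 := by
  have := norm_lam3
  have h : ‖al‖ ^ 4 = (‖toC lam ^ 3‖ ^ 2) ^ 2 := by unfold al; ring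
  rw [h, this]; norm_num

/-- linear combinations. -/
def Lc (F F' : Vec → ℂ) (c : Fin 4 → ℂ) (δ : ℂ) (u : Vec) : ℂ :=
  c 0 * F u + c 1 * dil al F u + c 2 * scl δ F' u + c 3 * dil al⁻¹ (scl δ F') u

lemma tfd_Lc {F F' : Vec → ℂ} (hF : Tst F) (hF' : Tst F') (c : Fin 4 → ℂ) : TFD (Lc F F' c) := by
  unfold Lc
  refine tfd_add (tfd_add (tfd_add (tfd_mul (tfd_const hF) _)
    (tfd_mul (tfd_const (hF.dil al_ne)) _)) (tfd_mul ?_ _)) (tfd_mul ?_ _)
  · have := tfd_scl hF' (b := 1) one_ne_zero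
    simpa only [dil, one_smul] using this
  · exact tfd_scl hF' (inv_ne_zero al_ne)

lemma tst_Lc {F F' : Vec → ℂ} (hF : Tst F) (hF' : Tst F') (c : Fin 4 → ℂ) {δ : ℂ} (hδ : δ ≠ 0) :
    Tst (Lc F F' c δ) := by
  unfold Lc
  exact (((hF.const_mul _).add ((hF.dil al_ne).const_mul _)).add
    ((hF'.scl hδ).const_mul _)).add (((hF'.scl hδ).dil (inv_ne_zero al_ne)).const_mul _)

lemma SA_Lc {F F' : Vec → ℂ} (hF : Tst F) (hF' : Tst F') (c : Fin 4 → ℂ) {M : K695.Frm}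
    (hM : det2 M ≠ 0) :
    SA (Lc F F' c (det2 M)) M = c 0 * SA F M + c 1 * SA (dil al F) M +
      c 2 * SA (scl (det2 M) F') M + c 3 * SA (dil al⁻¹ (scl (det2 M) F')) M := by
  have h0 := hF.const_mul (c 0)
  have h1 := (hF.dil al_ne).const_mul (c 1)
  have h2 := (hF'.scl hM).const_mul (c 2)
  have h3 := ((hF'.scl hM).dil (inv_ne_zero al_ne)).const_mul (c 3)
  unfold Lc
  rw [SA_add ((h0.add h1).add h2) h3 hM, SA_add (h0.add h1) h2 hM, SA_add h0 h1 hM,
    SA_mul, SA_mul, SA_mul, SA_mul]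

lemma SB_Lc {F F' : Vec → ℂ} (hF : Tst F) (hF' : Tst F') (c : Fin 4 → ℂ) {M : K695.Frm}
    (hM : det2 M ≠ 0) :
    SB (Lc F F' c (det2 M)) M = c 0 * SB F M + c 1 * SB (dil al F) M +
      c 2 * SB (scl (det2 M) F') M + c 3 * SB (dil al⁻¹ (scl (det2 M) F')) M := by
  have h0 := hF.const_mul (c 0)
  have h1 := (hF.dil al_ne).const_mul (c 1)
  have h2 := (hF'.scl hM).const_mul (c 2)
  have h3 := ((hF'.scl hM).dil (inv_ne_zero al_ne)).const_mul (c 3)
  unfold Lc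
  rw [SB_add ((h0.add h1).add h2) h3 hM, SB_add (h0.add h1) h2 hM, SB_add h0 h1 hM,
    SB_mul, SB_mul, SB_mul, SB_mul]

/-- the coefficient vectors. -/
def cv (j : Fin 4) : Fin 4 → ℂ := if j = 1 then ![1, -9, 0, -2 / 81] else ![0, 0, -1 / 3, 1 / 81]

/-- **vanishing of the constant terms** at the representatives. -/
lemma ct_zero {F F' : Vec → ℂ} (h : FEPair F F') (i : Fin 4) {M : K695.Frm} (hM : det2 M ≠ 0) :
    CT 3 (g4 i) (fun M => ∑ j, ED (a4 j) (Lc F F' (cv j)) M) M = 0 := by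
  have h30 : (3 : Eis) ≠ 0 := three_ne_zero'
  have hF := h.tst
  have hF' := h.tst'
  rw [CT_sum h30 (fun j => (cof4 j).bdd) (fun j => tfd_Lc hF hF' (cv j)) (g4 i) hM]
  have e : ∀ j, CT 3 (g4 i) (ED (a4 j) (Lc F F' (cv j))) M =
      if i = j then (covol 3 : ℂ) * Lc F F' (cv j) (det2 M) M.2 + SB (Lc F F' (cv j) (det2 M)) M
      else SA (Lc F F' (cv j) (det2 M)) M := fun j =>
    CT4 i j (tfd_Lc hF hF' (cv j)) hM (tst_Lc hF hF' (cv j) hM)
  rw [Finset.sum_congr rfl fun j _ => e j]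
  -- the relations
  have r1 : 3 * SA F M + SB F M = (covol 3 : ℂ) * scl (det2 M) F' M.2 := by
    rw [MOp_eq hF hM, h.m1 M hM]
  have r2 : 3 * SA (scl (det2 M) F') M + SB (scl (det2 M) F') M = (covol 3 : ℂ) * F M.2 := by
    rw [MOp_eq (hF'.scl hM) hM, h.m2 M hM]
  have r3 : 3 * SA (dil al F) M + SB (dil al F) M =
      (covol 3 : ℂ) * (1 / 729 * dil al⁻¹ (scl (det2 M) F') M.2) := by
    rw [MOp_eq (hF.dil al_ne) hM, h.x3 hM al_ne, norm_al4]
    push_cast; ring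
  have r4 : 3 * SA (dil al⁻¹ (scl (det2 M) F')) M + SB (dil al⁻¹ (scl (det2 M) F')) M =
      (covol 3 : ℂ) * (729 * dil al F M.2) := by
    rw [MOp_eq ((hF'.scl hM).dil (inv_ne_zero al_ne)) hM, h.x4 hM al_ne, norm_al4]
    push_cast; ring
  have r5 : SB F M = 27 * (2 * SA (dil al F) M + SB (dil al F) M) := star hF hM
  have r6 : SB (dil al⁻¹ (scl (det2 M) F')) M =
      27 * (2 * SA (scl (det2 M) F') M + SB (scl (det2 M) F') M) := by
    have := star ((hF'.scl hM).dil (inv_ne_zero al_ne)) hM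
    have e2 : dil (toC lam ^ 3) (dil al⁻¹ (scl (det2 M) F')) = scl (det2 M) F' := by
      funext u
      unfold dil
      change scl (det2 M) F' (al⁻¹ • al • u) = _
      rw [smul_smul, inv_mul_cancel₀ al_ne, one_smul]
    rw [e2] at this
    exact this
  have hL : ∀ c : Fin 4 → ℂ, Lc F F' c (det2 M) M.2 = c 0 * F M.2 + c 1 * dil al F M.2 +
      c 2 * scl (det2 M) F' M.2 + c 3 * dil al⁻¹ (scl (det2 M) F') M.2 := fun c => rfl
  have c1 : cv 1 = ![1, -9, 0, -2 / 81] := by simp [cv]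
  have c0 : cv 0 = ![0, 0, -1 / 3, 1 / 81] := by simp [cv]
  have c2 : cv 2 = ![0, 0, -1 / 3, 1 / 81] := by simp [cv]
  have c3 : cv 3 = ![0, 0, -1 / 3, 1 / 81] := by simp [cv]
  rw [Fin.sum_univ_four]
  simp only [SA_Lc hF hF' _ hM, SB_Lc hF hF' _ hM, hL, c0, c1, c2, c3]
  simp only [Matrix.cons_val_zero, Matrix.cons_val_one, Matrix.cons_val]
  fin_cases i
  · simp only [Fin.zero_eta, Fin.isValue, if_true, Fin.reduceEq, if_false]
    linear_combination (1 / 3 : ℂ) * r1 - (9 : ℂ) * r3 - (1 / 3 : ℂ) * r5 + (1 / 81 : ℂ) * r6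
  · simp only [Fin.mk_one, Fin.isValue, if_true, Fin.reduceEq, if_false]
    linear_combination -r2 + (1 / 81 : ℂ) * r4 + (18 : ℂ) * r3 + r5 - (1 / 27 : ℂ) * r6
  · simp only [Fin.reduceFinMk, Fin.isValue, if_true, Fin.reduceEq, if_false]
    linear_combination (1 / 3 : ℂ) * r1 - (9 : ℂ) * r3 - (1 / 3 : ℂ) * r5 + (1 / 81 : ℂ) * r6
  · simp only [Fin.reduceFinMk, Fin.isValue, if_true, Fin.reduceEq, if_false]
    linear_combination (1 / 3 : ℂ) * r1 - (9 : ℂ) * r3 - (1 / 3 : ℂ) * r5 + (1 / 81 : ℂ) * r6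

/-- **The functional equation of the level-3 series.** -/
theorem level3_sum {F F' : Vec → ℂ} (h : FEPair F F') {M : K695.Frm} (hM : det2 M ≠ 0) :
    ∑ j, ED (a4 j) (Lc F F' (cv j)) M = 0 := by
  refine orth three_ne_zero' norm_chi3 cof4 (fun j => tfd_Lc h.tst h.tst' (cv j)) ?_ hM
  intro i g hg M hM
  obtain ⟨x, γ, rfl⟩ := red4 hg
  rw [CT_red (Eqv.sum fun j => eqv_ED j _), ct_zero h i (by rwa [det2_smul]), mul_zero]

end Crest.Agent.R017.F1
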