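import Crest.Agent.R017.F1Fou_180
import Crest.Agent.R017.FE2_47
import Crest.Agent.R012.GaussInst_880

/-!
# Row 17, section F, part 5 (helper180): the local sums of the four cusp classes of level 3

`aI` : rows `3 ∣ c`;  `aF t` : rows `3 ∤ c`, `d ≡ t c (mod 3)`  (`t = 0, 1, -1`).
`SC_aF`, `SC_aI` : evaluation of `SC` by `conj (gs u c)` and the `λ`-sums `Lam δ u`.
-/

set_option autoImplicit false

noncomputable section

open MeasureTheory Complex Set

namespace Crest.Agent.R017.F1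

open Crest.Agent.R012 Crest.Agent.R012.Eis Crest.Agent.R012.Sym645
open Crest.Agent.R012.K695 (det2 n2 Vec EC rowv)
open Crest.Agent.R012.Parseval499 (par covol frq s3 toC_s3_ne eC_toC_div_s3)
open Crest.Agent.R012.CharSum852 (SyFacts)
open Crest.Agent.R017.FE47 (SM BM)

open Classical in
/-- rows with `3 ∣ c`. -/
def aI (r : Eis × Eis) : ℂ := if (3 : Eis) ∣ r.1 then a2 r else 0

open Classical in
/-- rows with `3 ∤ c`, `d ≡ t c`. -/
def aF (t : Eis) (r : Eis × Eis) : ℂ :=
  if ¬ (3 : Eis) ∣ r.1 ∧ (3 : Eis) ∣ r.2 - t * r.1 then a2 r else 0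

lemma norm_aI_le (r : Eis × Eis) : ‖aI r‖ ≤ 1 := by
  unfold aI
  split_ifs
  · exact norm_a2_le r
  · simp

lemma norm_aF_le (t : Eis) (r : Eis × Eis) : ‖aF t r‖ ≤ 1 := by
  unfold aF
  split_ifs
  · exact norm_a2_le r
  · simp

lemma pmod_aI (c : Eis) : PMod (3 * c) (fun d => aI (c, d)) := by
  intro d t
  have h : a2 (c, d + 3 * c * t) = a2 (c, d) := pmod_a2 c d t
  simp only [aI]
  rw [h]

lemma pmod_aF (s c : Eis) : PMod (3 * c) (fun d => aF s (c, d)) := by
  intro d t
  simp only [aF]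
  have e : (3 : Eis) ∣ d + 3 * c * t - s * c ↔ (3 : Eis) ∣ d - s * c :=
    three_dvd_congr ⟨c * t, by ring⟩
  have h : a2 (c, d + 3 * c * t) = a2 (c, d) := pmod_a2 c d t
  by_cases h1 : ¬ (3 : Eis) ∣ c ∧ (3 : Eis) ∣ d - s * c
  · rw [if_pos h1, if_pos ⟨h1.1, e.mpr h1.2⟩, h]
  · rw [if_neg h1, if_neg (fun h2 => h1 ⟨h2.1, e.mp h2.2⟩)]

lemma aF_prim {c : Eis} (hc : IsPrim c) {t : Eis} (ht : inL t) (d : Eis) :
    open Classical in aF t (c, d) =
      if (3 : Eis) ∣ d - t * c then (starRingEnd ℂ) (sy d c) else 0 := by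
  classical
  unfold aF
  by_cases h : (3 : Eis) ∣ d - t * c
  · rw [if_pos ⟨not_three_prim hc, h⟩, if_pos h]
    have hd : inL d := by
      have h1 : inL (t * c) := by
        have h2 : (3 : Eis) ∣ t * c - t := by
          obtain ⟨s, hs⟩ := hc
          exact ⟨t * s, by linear_combination t * hs⟩
        exact (inL_congr h2).mpr ht
      exact (inL_congr h).mpr h1
    exact a2_two (r := (c, d)) hc hd
  · rw [if_neg (fun h' => h h'.2), if_neg h]

lemma aF_not_prim {c : Eis} (hc : ¬ IsPrim c) (t d : Eis) : aF t (c, d) = 0 := by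
  unfold aF
  by_cases h : (3 : Eis) ∣ c
  · rw [if_neg (fun h' => h'.1 h)]
  · split_ifs
    · exact a2_zero (fun h' => h h'.1) (fun h' => hc h'.1)
    · rfl

lemma aI_dvd {c : Eis} (hc : (3 : Eis) ∣ c) (d : Eis) :
    open Classical in aI (c, d) = if IsPrim d then (starRingEnd ℂ) (sy c d) else 0 := by
  classical
  unfold aI
  rw [if_pos hc]
  by_cases hd : IsPrim d
  · rw [if_pos hd, a2_three hc hd]
  · rw [if_neg hd]
    exact a2_zero (fun h => hd h.2) (fun h => not_three_prim h.1 hc)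

lemma aI_not_dvd {c : Eis} (hc : ¬ (3 : Eis) ∣ c) (d : Eis) : aI (c, d) = 0 := by
  unfold aI
  rw [if_neg hc]

lemma a2_eq_sum (r : Eis × Eis) : a2 r = aI r + (aF 0 r + aF 1 r + aF (-1) r) := by
  classical
  obtain ⟨c, d⟩ := r
  by_cases h3 : (3 : Eis) ∣ c
  · have h : ∀ t, aF t (c, d) = 0 := fun t => by
      unfold aF; rw [if_neg (fun h => h.1 h3)]
    rw [h, h, h]
    unfold aI
    rw [if_pos h3]; ring
  · rw [aI_not_dvd h3]
    by_cases hc : IsPrim c
    · rw [aF_prim hc (by simp [inL]), aF_prim hc (by simp [inL]), aF_prim hc (by simp [inL])]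
      have e0 : (3 : Eis) ∣ d - 0 * c ↔ (3 : Eis) ∣ d := by rw [zero_mul, sub_zero]
      have e1 : (3 : Eis) ∣ d - 1 * c ↔ (3 : Eis) ∣ d + c * 2 :=
        three_dvd_congr ⟨-c, by ring⟩
      have e2 : (3 : Eis) ∣ d - (-1) * c ↔ (3 : Eis) ∣ d + c :=
        three_dvd_congr ⟨0, by ring⟩
      have h := ind_L d hc ((starRingEnd ℂ) (sy d c))
      simp only [e0, e1, e2]
      by_cases hd : inL d
      · rw [if_pos hd] at h
        rw [a2_two (r := (c, d)) hc hd]
        linear_combination h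
      · rw [if_neg hd] at h
        rw [a2_zero (fun h' => h3 h'.1) (fun h' => hd h'.2)]
        linear_combination h
    · rw [aF_not_prim hc, aF_not_prim hc, aF_not_prim hc,
        a2_zero (fun h' => h3 h'.1) (fun h' => hc h'.1)]
      ring

/-! ### The finite cusps -/

lemma toC_three' : toC (3 : Eis) = 3 := map_ofNat toC 3

lemma pmod_eC3 {c : Eis} (hc : c ≠ 0) (u : Eis) :
    PMod c (fun d => eC (toC u * toC d / (toC s3 * toC c))) := by
  intro x t
  have hcC : toC c ≠ 0 := by rwa [Ne, toC_eq_zero]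
  have hs := toC_s3_ne
  have e : toC u * toC (x + c * t) / (toC s3 * toC c) =
      toC u * toC x / (toC s3 * toC c) + toC (u * t) / toC s3 := by
    rw [map_add, map_mul, map_mul]
    field_simp
  simp only [e]
  rw [R012.eC_add, eC_toC_div_s3, mul_one]

lemma sum3 (g : Eis → ℂ) (hg : PMod 3 g) :
    sumMod 3 (fun x => open Classical in if (3 : Eis) ∣ x then g x else 0) = g 0 := by
  classical
  have hper : PMod 3 (fun x => if (3 : Eis) ∣ x then g x else 0) := by
    intro x t
    simp only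
    have e : (3 : Eis) ∣ x + 3 * t ↔ (3 : Eis) ∣ x := three_dvd_congr ⟨t, by ring⟩
    rw [hg x t]
    simp only [e]
  have hS := isCRS_crs three_ne_zero'
  rw [sumMod_eq_sum hS hper]
  obtain ⟨s, ⟨hs1, hs2⟩, hs3⟩ := hS 0
  have hs2' : (3 : Eis) ∣ s := by
    have : (0 : Eis) - s = -s := by ring
    rwa [this, dvd_neg] at hs2
  rw [Finset.sum_eq_single s]
  · rw [if_pos hs2']
    exact hg.congr (by rwa [sub_zero])
  · intro b hb hne
    rw [if_neg]
    intro h
    exact hne (hs3 b ⟨hb, by rwa [zero_sub, dvd_neg]⟩)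
  · intro h; exact absurd hs1 h

lemma SC_aF_zero {c : Eis} (hc : IsPrim c) (u : Eis) :
    SC (aF 0) u c = (starRingEnd ℂ) (gs u c) := by
  classical
  have hc0 := hc.ne_zero
  have h30 : (3 : Eis) ≠ 0 := three_ne_zero'
  have hcC : toC c ≠ 0 := by rwa [Ne, toC_eq_zero]
  have hs := toC_s3_ne
  unfold SC
  have hF : PMod (3 * c) (fun d => aF 0 (c, d) *
      eC (toC u * toC d / (toC s3 * toC (3 * c)))) :=
    (pmod_aF 0 c).mul (pmod_eC3 (three_mul_ne hc0) u)
  rw [sumMod_crt_mul (c := 3) (d := c) (f := fun x => if (3 : Eis) ∣ x then 1 else 0)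
    (g := fun y => 1 * (starRingEnd ℂ) (sy (3 * y) c) * eC (toC u * toC y / (toC s3 * toC c)))
    h30 hc0 _ hc.isCoprime_three.symm hF]
  · rw [sum3 (fun _ => 1) (fun _ _ => rfl), one_mul,
      FourCoef499.bracket syFacts hc 1 u, one_mul]
  · intro x y
    rw [aF_prim hc (by simp [inL])]
    have e1 : ((3 : Eis) ∣ c * x + 3 * y - 0 * c) ↔ (3 : Eis) ∣ x := by
      rw [zero_mul, sub_zero, three_dvd_congr (y := c * x) ⟨y, by ring⟩]
      constructor
      · intro h; exact hc.isCoprime_three.symm.dvd_of_dvd_mul_left h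
      · intro h; exact h.mul_left c
    have e2 : sy (c * x + 3 * y) c = sy (3 * y) c :=
      sy_congr (prim_nm_mod hc) ⟨x, by ring⟩
    simp only [e1, e2]
    by_cases h : (3 : Eis) ∣ x
    · rw [if_pos h, if_pos h]
      obtain ⟨t, rfl⟩ := h
      have e3 : toC u * toC (c * (3 * t) + 3 * y) / (toC s3 * toC (3 * c)) =
          toC (u * t) / toC s3 + toC u * toC y / (toC s3 * toC c) := by
        simp only [map_add, map_mul, toC_three']
        field_simp
      rw [e3, R012.eC_add, eC_toC_div_s3]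
      ring
    · rw [if_neg h, if_neg h]; ring

/-- **finite cusps**. -/
theorem SC_aF {c : Eis} (hc : IsPrim c) {t : Eis} (ht : inL t) (u : Eis) :
    SC (aF t) u c = eC (toC (t * u) / (toC s3 * 3)) * (starRingEnd ℂ) (gs u c) := by
  classical
  have hc0 := hc.ne_zero
  have h3c := three_mul_ne hc0
  have hcC : toC c ≠ 0 := by rwa [Ne, toC_eq_zero]
  have hs := toC_s3_ne
  have hF : PMod (3 * c) (fun d => aF t (c, d) *
      eC (toC u * toC d / (toC s3 * toC (3 * c)))) :=
    (pmod_aF t c).mul (pmod_eC3 h3c u)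
  rw [← SC_aF_zero hc u]
  unfold SC
  rw [← sumMod_shift h3c hF (t * c), ← sumMod_mul_left h3c]
  refine sumMod_congr fun x => ?_
  rw [aF_prim hc ht, aF_prim hc (by simp [inL])]
  have e1 : (3 : Eis) ∣ x + t * c - t * c ↔ (3 : Eis) ∣ x - 0 * c := by
    rw [zero_mul, sub_zero, add_sub_cancel_right]
  have e2 : sy (x + t * c) c = sy x c := sy_congr (prim_nm_mod hc) ⟨t, by ring⟩
  simp only [e1, e2]
  have e3 : toC u * toC (x + t * c) / (toC s3 * toC (3 * c)) =
      toC (t * u) / (toC s3 * 3) + toC u * toC x / (toC s3 * toC (3 * c)) := by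
    simp only [map_add, map_mul, toC_three']
    field_simp
    ring
  rw [e3, R012.eC_add]
  ring

lemma SC_aF_not_prim {c : Eis} (hc0 : c ≠ 0) (hc : ¬ IsPrim c) (t u : Eis) :
    SC (aF t) u c = 0 := by
  unfold SC
  rw [sumMod_congr (g := fun _ => 0) (fun d => by rw [aF_not_prim hc, zero_mul]),
    sumMod_const (three_mul_ne hc0), mul_zero]

lemma SC_aI_not_dvd {c : Eis} (hc0 : c ≠ 0) (hc : ¬ (3 : Eis) ∣ c) (u : Eis) :
    SC aI u c = 0 := by
  unfold SC
  rw [sumMod_congr (g := fun _ => 0) (fun d => by rw [aI_not_dvd hc, zero_mul]),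
    sumMod_const (three_mul_ne hc0), mul_zero]

/-! ### The infinite cusp -/

open Classical in
/-- the local sum at `λ`. -/
def Lam (δ u : Eis) : ℂ :=
  sumMod (3 * δ) (fun x => (if IsPrim x then (starRingEnd ℂ) (sy δ x) else 0) *
    eC (toC u * toC x / (toC s3 * toC (3 * δ))))

lemma SM3_coprime {δ b : Eis} (hδ : δ ∈ SM 3) (hb : IsPrim b) : IsCoprime δ b :=
  (FE47.SM.coprime hδ hb.isCoprime_three).symm

lemma prim_mul_iff {b x : Eis} (hb : IsPrim b) : IsPrim (b * x) ↔ IsPrim x :=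
  ⟨fun h => h.of_mul_left hb, fun h => hb.mul h⟩

lemma pmod_row {δ : Eis} (h3 : (3 : Eis) ∣ δ) {x : Eis} (hx : IsPrim x) (y : Eis) :
    sy δ (x + 3 * δ * y) = sy δ x := by
  have h := pmod_aI δ x y
  have hx' : IsPrim (x + 3 * δ * y) := CharSum852.isPrim_add hx ⟨δ * y, by ring⟩
  simp only at h
  rw [aI_dvd h3, aI_dvd h3, if_pos hx, if_pos hx'] at h
  exact (starRingEnd ℂ).injective h

theorem SC_aI {δ b : Eis} (h3 : (3 : Eis) ∣ δ) (hδ : δ ∈ SM 3) (hb : IsPrim b) (u : Eis) :
    SC aI u (δ * b) = Lam δ u * (starRingEnd ℂ) (gs (δ * u) b) := by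
  classical
  have hδ0 : δ ≠ 0 := hδ.1
  have hb0 := hb.ne_zero
  have hcop := SM3_coprime hδ hb
  have h3δ0 : (3 * δ : Eis) ≠ 0 := three_mul_ne hδ0
  have hcop3 : IsCoprime (3 * δ) b := hb.isCoprime_three.symm.mul_left hcop
  have hδC : toC δ ≠ 0 := by rwa [Ne, toC_eq_zero]
  have hbC : toC b ≠ 0 := by rwa [Ne, toC_eq_zero]
  have hs := toC_s3_ne
  have hb3 := prim_nm_mod hb
  unfold SC
  have e0 : (3 * (δ * b) : Eis) = (3 * δ) * b := by ring
  have hF : PMod (3 * δ * b) (fun d => aI (δ * b, d) *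
      eC (toC u * toC d / (toC s3 * toC (3 * (δ * b))))) := by
    rw [← e0]
    exact (pmod_aI (δ * b)).mul (pmod_eC3 (three_mul_ne (mul_ne_zero hδ0 hb0)) u)
  rw [e0]
  rw [e0] at hF
  rw [sumMod_crt_mul (c := 3 * δ) (d := b)
    (f := fun x => (if IsPrim x then (starRingEnd ℂ) (sy δ x) else 0) *
      eC (toC u * toC x / (toC s3 * toC (3 * δ))))
    (g := fun y => ((starRingEnd ℂ) (sy δ b) * (starRingEnd ℂ) (sy δ b)) *
      (starRingEnd ℂ) (sy (3 * y) b) * eC (toC u * toC y / (toC s3 * toC b)))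
    h3δ0 hb0 _ hcop3 hF]
  · rw [FourCoef499.bracket syFacts hb _ u]
    have h1 : gs (δ * u) b = (starRingEnd ℂ) (sy δ b) * gs u b := by
      rw [mul_comm]
      exact Gauss880.gs_mul_of_coprime Gauss880.syG hb u hcop
    have h2 : (starRingEnd ℂ) (sy δ b) * (starRingEnd ℂ) (sy δ b) = sy δ b := by
      have hc := sy_cube hb3 hcop
      have hn := norm_sy_of_isCoprime hb3 hcop
      have h4 : sy δ b * (starRingEnd ℂ) (sy δ b) = 1 := by
        rw [Complex.mul_conj, Complex.normSq_eq_norm_sq, hn]; norm_num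
      have h5 : (starRingEnd ℂ) (sy δ b) = sy δ b ^ 2 := by
        have : sy δ b ≠ 0 := by
          intro h0; rw [h0] at hc; norm_num at hc
        have h6 : sy δ b * (starRingEnd ℂ) (sy δ b) = sy δ b * sy δ b ^ 2 := by
          rw [h4, ← pow_succ', hc]
        exact mul_left_cancel₀ this h6
      rw [h5]
      linear_combination (sy δ b) * hc
    rw [h1, h2, map_mul (starRingEnd ℂ), Complex.conj_conj]
    rfl
  · intro x y
    have h3b : (3 : Eis) ∣ δ * b := h3.mul_right b
    rw [aI_dvd h3b]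
    have e1 : IsPrim (b * x + 3 * δ * y) ↔ IsPrim x := by
      rw [prim_congr (y := b * x) ⟨δ * y, by ring⟩, prim_mul_iff hb]
    simp only [e1]
    by_cases hx : IsPrim x
    · rw [if_pos hx, if_pos hx]
      have hbx : IsPrim (b * x) := hb.mul hx
      have hD : IsPrim (b * x + 3 * δ * y) := e1.mpr hx
      have k1 : sy (δ * b) (b * x + 3 * δ * y) = sy δ (b * x + 3 * δ * y) *
          sy b (b * x + 3 * δ * y) := sy_mul_left (prim_nm_mod hD) _ _
      have k2 : sy δ (b * x + 3 * δ * y) = sy δ b * sy δ x := by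
        rw [pmod_row h3 hbx, sy_mul_right _ hb0 hx.ne_zero]
      have k3 : sy b (b * x + 3 * δ * y) = sy δ b * sy (3 * y) b := by
        rw [sy_reciprocity hb hD]
        have k4 : sy (b * x + 3 * δ * y) b = sy (δ * (3 * y)) b :=
          sy_congr hb3 ⟨x, by ring⟩
        rw [k4, sy_mul_left hb3]
      have e3 : toC u * toC (b * x + 3 * δ * y) / (toC s3 * toC (3 * δ * b)) =
          toC u * toC x / (toC s3 * toC (3 * δ)) + toC u * toC y / (toC s3 * toC b) := by
        simp only [map_add, map_mul, toC_three']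
        field_simp
      rw [k1, k2, k3, e3, R012.eC_add, map_mul, map_mul, map_mul]
      ring
    · rw [if_neg hx, if_neg hx]; ring

lemma norm_Lam_le {δ : Eis} (hδ : δ ≠ 0) (u : Eis) : ‖Lam δ u‖ ≤ 9 * nm δ := by
  classical
  unfold Lam
  refine (norm_sumMod_le (three_mul_ne hδ) (B := 1) fun x => ?_).trans (le_of_eq ?_)
  · rw [norm_mul, R012.norm_eC, mul_one]
    split_ifs with h
    · rw [RCLike.norm_conj]
      exact norm_sy_le_one (prim_nm_mod h) _
    · simp
  · rw [nm_mul, Eis.nm_three]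
    push_cast
    ring

/-- `Lam δ u = 0` unless `δ ∣ 3 u`. -/
theorem Lam_eq_zero {δ u : Eis} (h3 : (3 : Eis) ∣ δ) (hδ : δ ∈ SM 3) (h : ¬ δ ∣ 3 * u) :
    Lam δ u = 0 := by
  classical
  have hδ0 : δ ≠ 0 := hδ.1
  have hδC : toC δ ≠ 0 := by rwa [Ne, toC_eq_zero]
  have hs := toC_s3_ne
  have hF : PMod (3 * δ) (fun x => (if IsPrim x then (starRingEnd ℂ) (sy δ x) else 0) *
      eC (toC u * toC x / (toC s3 * toC (3 * δ)))) := by
    refine PMod.mul (fun x t => ?_) (pmod_eC3 (three_mul_ne hδ0) u)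
    have h := pmod_aI δ x t
    simp only at h
    rw [aI_dvd h3, aI_dvd h3] at h
    exact h
  obtain ⟨t, ht⟩ : ∃ t : Eis, eC (toC (3 * u) / (toC s3 * toC δ) * toC t) ≠ 1 := by
    by_contra hcon
    push Not at hcon
    have hcon' : ∀ x : Eis, eC (toC (3 * u) * toC x / toC (s3 * δ)) = 1 := by
      intro x
      rw [← hcon x]
      congr 1
      rw [map_mul toC s3 δ]
      field_simp
    obtain ⟨s, hs'⟩ := dvd_of_eC_eq_one (c := s3 * δ) (mul_ne_zero sq3_ne_zero hδ0) hcon'
    apply h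
    have hs30 : (sq3 : Eis) ≠ 0 := sq3_ne_zero
    have e : sq3 * (3 * u) = sq3 * (δ * s) := by
      rw [hs']
      have : s3 = sq3 := rfl
      rw [this]; ring
    exact ⟨s, mul_left_cancel₀ hs30 e⟩
  have hshift := sumMod_shift (three_mul_ne hδ0) hF (9 * t)
  have e : ∀ x : Eis, (if IsPrim (x + 9 * t) then (starRingEnd ℂ) (sy δ (x + 9 * t)) else 0) *
      eC (toC u * toC (x + 9 * t) / (toC s3 * toC (3 * δ))) =
      eC (toC (3 * u) / (toC s3 * toC δ) * toC t) *
      ((if IsPrim x then (starRingEnd ℂ) (sy δ x) else 0) *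
        eC (toC u * toC x / (toC s3 * toC (3 * δ)))) := by
    intro x
    have e1 : IsPrim (x + 9 * t) ↔ IsPrim x := prim_congr ⟨3 * t, by ring⟩
    have e2 : toC u * toC (x + 9 * t) / (toC s3 * toC (3 * δ)) =
        toC (3 * u) / (toC s3 * toC δ) * toC t + toC u * toC x / (toC s3 * toC (3 * δ)) := by
      have h9 : toC (9 : Eis) = 9 := map_ofNat toC 9
      simp only [map_add, map_mul, toC_three', h9]
      field_simp
      ring
    rw [e2, R012.eC_add]
    simp only [e1]
    by_cases hx : IsPrim x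
    · rw [if_pos hx, if_pos hx]
      have hx' := e1.mpr hx
      have e3 : sy δ (x + 9 * t) = sy δ x := by
        obtain ⟨k, v, m, hv, hm, hdec⟩ := exists_lam_decomp hδ0
        have h9 : (9 : Eis) ∣ (x + 9 * t) - x := ⟨t, by ring⟩
        have hm1 : m = 1 := by
          have hmu : IsUnit m := by
            by_contra hmu
            obtain ⟨p, hp', hpm⟩ := WfDvdMonoid.exists_irreducible_factor hmu hm.ne_zero
            have hp : Prime p := hp'.prime
            have h1 : p ∣ δ := by rw [hdec]; exact (hpm.mul_left _).mul_left _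
            have h2 : p ∣ 3 := hδ.2 p hp h1
            exact hp.not_isUnit (hm.isCoprime_three.isUnit_of_dvd' hpm h2)
          exact K695.prim_eq_one_of_isUnit hm hmu
        rw [hdec, hm1, mul_one, sy_mul_left (prim_nm_mod hx'), sy_mul_left (prim_nm_mod hx),
          sy_pow_left (prim_nm_mod hx'), sy_pow_left (prim_nm_mod hx),
          sy_lam_congr hx' hx h9, sy_unit_congr hv hx' hx h9]
      rw [e3]; ring
    · rw [if_neg hx, if_neg hx]; ring
  rw [sumMod_congr e, sumMod_mul_left (three_mul_ne hδ0)] at hshift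
  have h2 : (eC (toC (3 * u) / (toC s3 * toC δ) * toC t) - 1) * Lam δ u = 0 := by
    unfold Lam
    linear_combination hshift
  rcases mul_eq_zero.mp h2 with h4 | h4
  · exact absurd (sub_eq_zero.mp h4) ht
  · exact h4

end Crest.Agent.R017.F1
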