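import Crest.Agent.R017.OrthG_681
import Crest.Agent.R017.F1Lam_180

/-!
# Row 17, section F, part 6 (helper180): the functional equation of the level-3 series

The four coefficient functions `aI, aF 0, aF 1, aF (-1)` on the rows, their constant terms, and
(with `FEPair F F'`) the identity
`E_{aF 0}(F - 9 F∘λ³) = (2/81) E_{aF 0}(F'_δ∘λ⁻³) + Σ_{j ≠ 0} E_{a_j}((1/3) F'_δ - (1/81) F'_δ∘λ⁻³)`.
-/

set_option autoImplicit false

noncomputable section

open MeasureTheory Complex Set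

namespace Crest.Agent.R017.F1

open Crest.Agent.R012 Crest.Agent.R012.Eis Crest.Agent.R012.Sym645
open Crest.Agent.R012.K695 (det2 n2 Vec EC rowv Gam kub rmul kub_mul kub_mul_conj norm_kub)
open Crest.Agent.R012.Parseval499 (par covol frq s3 covol_pos)
open Crest.Agent.R017.Orth681

/-! ### The multiplier -/

/-- `Γ(3)` in the two conventions. -/
def toG (g : GN 3) : Gam := ⟨g.1, by
  have h := mem_GN.mp g.2
  exact ⟨h.1, h.2.1, h.2.2.1, h.2.2.2⟩⟩

lemma rmulS_toG (r : Eis × Eis) (g : GN 3) : rmulS r (g : SLE) = rmul r (toG g) := rfl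

/-- the Kubota multiplier. -/
def chi3 (g : GN 3) : ℂ := kub (toG g)

lemma norm_chi3 (g : GN 3) : ‖chi3 g‖ = 1 := norm_kub syAPI _

/-- the four coefficient functions. -/
def a4 (i : Fin 4) : Eis × Eis → ℂ := ![aI, aF 0, aF 1, aF (-1)] i

lemma a4_ne {i : Fin 4} {r : Eis × Eis} (h : a4 i r ≠ 0) : a2 r ≠ 0 := by
  intro h0
  apply h
  fin_cases i <;> simp [a4, aI, aF, h0]

lemma norm_a4_le (i : Fin 4) (r : Eis × Eis) : ‖a4 i r‖ ≤ 1 := by
  fin_cases i
  · exact norm_aI_le r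
  · exact norm_aF_le 0 r
  · exact norm_aF_le 1 r
  · exact norm_aF_le (-1) r

lemma a2_cop {r : Eis × Eis} (h : a2 r ≠ 0) : IsCoprime r.1 r.2 := by
  by_contra hc
  exact h (by unfold a2; rw [if_neg hc])

lemma aI_rmul (g : Gam) (r : Eis × Eis) : aI (rmul r g) = (starRingEnd ℂ) (kub g) * aI r := by
  classical
  unfold aI
  by_cases h : (3 : Eis) ∣ r.1
  · rw [if_pos h, if_pos ((three_dvd_congr (rmul_fst_sub r g)).mpr h), a2_rmul]
  · rw [if_neg h, if_neg (fun h' => h ((three_dvd_congr (rmul_fst_sub r g)).mp h')), mul_zero]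

lemma aF_rmul (t : Eis) (g : Gam) (r : Eis × Eis) :
    aF t (rmul r g) = (starRingEnd ℂ) (kub g) * aF t r := by
  classical
  have h1 := rmul_fst_sub r g
  have h2 := rmul_snd_sub r g
  have e : (¬ (3 : Eis) ∣ (rmul r g).1 ∧ (3 : Eis) ∣ (rmul r g).2 - t * (rmul r g).1) ↔
      (¬ (3 : Eis) ∣ r.1 ∧ (3 : Eis) ∣ r.2 - t * r.1) := by
    rw [three_dvd_congr h1]
    have h3 : (3 : Eis) ∣ ((rmul r g).2 - t * (rmul r g).1) - (r.2 - t * r.1) := by
      have : ((rmul r g).2 - t * (rmul r g).1) - (r.2 - t * r.1) =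
          ((rmul r g).2 - r.2) - t * ((rmul r g).1 - r.1) := by ring
      rw [this]
      exact dvd_sub h2 (h1.mul_left t)
    rw [three_dvd_congr h3]
  unfold aF
  by_cases h : (¬ (3 : Eis) ∣ r.1 ∧ (3 : Eis) ∣ r.2 - t * r.1)
  · rw [if_pos h, if_pos (e.mpr h), a2_rmul]
  · rw [if_neg h, if_neg (fun h' => h (e.mp h')), mul_zero]

lemma cof4 (i : Fin 4) : Cof 3 chi3 (a4 i) where
  bdd := ⟨1, norm_a4_le i⟩
  cop r h := a2_cop (a4_ne h)
  equiv g r := by
    rw [rmulS_toG]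
    fin_cases i
    · exact aI_rmul _ _
    · exact aF_rmul _ _ _
    · exact aF_rmul _ _ _
    · exact aF_rmul _ _ _

/-! ### Representatives of the cusps -/

/-- the matrix `(0, -1; 1, t)`. -/
def gt (t : Eis) : SLE := mk2 0 (-1) 1 t (by ring)

/-- the representatives. -/
def g4 (i : Fin 4) : SLE := ![1, gt 0, gt 1, gt (-1)] i

lemma br_g4_zero : br (g4 0) = (0, 1) := by simp [g4, br]
lemma br_gt (t : Eis) : br (gt t) = (1, t) := rfl

lemma aI_base : aI (0, 1) = 1 := by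
  rw [aI_dvd (dvd_zero _), if_pos K695.isPrim_one]
  simp [sy_one_right]

lemma aF_base {t : Eis} (ht : inL t) : aF t (1, t) = 1 := by
  rw [aF_prim K695.isPrim_one ht, if_pos (by simp)]
  simp [sy_one_right]

lemma a4_g4 (i : Fin 4) : a4 i (br (g4 i)) = 1 := by
  fin_cases i
  · change aI (br (g4 0)) = 1
    rw [br_g4_zero]; exact aI_base
  · change aF 0 (1, 0) = 1
    exact aF_base (by simp [inL])
  · change aF 1 (1, 1) = 1
    exact aF_base (by simp [inL])
  · change aF (-1) (1, -1) = 1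
    exact aF_base (by simp [inL])

lemma reg4 (i : Fin 4) : Reg chi3 (g4 i) :=
  reg_of_ne (cof4 i) (by rw [a4_g4]; exact one_ne_zero)

/-- a matrix with bottom row `≡ (0,1)`. -/
lemma split_up {h : SLE} (h0 : (3 : Eis) ∣ h 1 0) (h1 : (3 : Eis) ∣ h 1 1 - 1) :
    up (-(h 0 1)) * h ∈ GN 3 := by
  have hd := sdet h
  rw [mem_GN]
  simp only [Matrix.SpecialLinearGroup.coe_mul, Matrix.mul_apply, Fin.sum_univ_two, up, mk2_00,
    mk2_01, mk2_10, mk2_11, one_mul, zero_mul, zero_add]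
  refine ⟨?_, ?_, h0, h1⟩
  · have : h 0 0 + -h 0 1 * h 1 0 - 1 = -(h 0 0 * (h 1 1 - 1)) := by linear_combination hd
    rw [this, dvd_neg]
    exact h1.mul_left _
  · have : h 0 1 + -h 0 1 * h 1 1 = -(h 0 1 * (h 1 1 - 1)) := by ring
    rw [this, dvd_neg]
    exact h1.mul_left _

lemma red_aux {g g0 : SLE} (h0 : (3 : Eis) ∣ (g * g0⁻¹) 1 0) (h1 : (3 : Eis) ∣ (g * g0⁻¹) 1 1 - 1) :
    ∃ (x : Eis) (γ : GN 3), g = up x * g0 * (γ : SLE) := by
  set h : SLE := g * g0⁻¹ with hh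
  set k : SLE := up (-(h 0 1)) * h with hk
  have hkN : k ∈ GN 3 := split_up h0 h1
  have hn : (GN 3).Normal := (redN 3).normal_ker
  have h2 : g0⁻¹ * k * g0 ∈ GN 3 := by simpa using hn.conj_mem _ hkN g0⁻¹
  refine ⟨h 0 1, ⟨g0⁻¹ * k * g0, h2⟩, ?_⟩
  have h3 : up (h 0 1) * k = h := by
    rw [hk, ← mul_assoc, up_mul, add_neg_cancel, up_zero, one_mul]
  calc g = h * g0 := by rw [hh]; group
    _ = up (h 0 1) * k * g0 := by rw [h3]
    _ = up (h 0 1) * g0 * (g0⁻¹ * k * g0) := by group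

lemma br_mul_inv (g g0 : SLE) : ((g * g0⁻¹) 1 0, (g * g0⁻¹) 1 1) = rmulS (br g) g0⁻¹ :=
  br_mul g g0⁻¹

lemma gt_inv (t : Eis) : (gt t)⁻¹ = mk2 t 1 (-1) 0 (by ring) := by
  rw [inv_eq_iff_mul_eq_one]
  apply sext <;> simp [gt, Matrix.SpecialLinearGroup.coe_mul, Matrix.mul_apply, Fin.sum_univ_two]

lemma rmulS_gt_inv (t : Eis) (r : Eis × Eis) : rmulS r (gt t)⁻¹ = (r.1 * t - r.2, r.1) := by
  rw [gt_inv]
  unfold rmulS
  ext1 <;> simp <;> ring

lemma rmulS_gt (t : Eis) (r : Eis × Eis) : rmulS r (gt t) = (r.2, -r.1 + r.2 * t) := by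
  unfold rmulS gt
  ext1 <;> simp

/-- reduction to the representatives. -/
lemma red4 {i : Fin 4} {g : SLE} (h : a4 i (br g) ≠ 0) :
    ∃ (x : Eis) (γ : GN 3), g = up x * g4 i * (γ : SLE) := by
  classical
  have hF : ∀ t : Eis, aF t (br g) ≠ 0 → ∃ (x : Eis) (γ : GN 3), g = up x * gt t * (γ : SLE) := by
    intro t ht
    have hp : IsPrim (br g).1 := by
      by_contra hc
      exact ht (aF_not_prim hc t _)
    have h3 : (3 : Eis) ∣ (br g).2 - t * (br g).1 := by
      by_contra hc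
      apply ht
      unfold aF
      rw [if_neg (fun h' => hc h'.2)]
    have hb := br_mul_inv g (gt t)
    rw [rmulS_gt_inv] at hb
    have e1 : (g * (gt t)⁻¹) 1 0 = (br g).1 * t - (br g).2 := congrArg Prod.fst hb
    have e2 : (g * (gt t)⁻¹) 1 1 = (br g).1 := congrArg Prod.snd hb
    apply red_aux
    · rw [e1]
      have : (br g).1 * t - (br g).2 = -((br g).2 - t * (br g).1) := by ring
      rw [this, dvd_neg]; exact h3
    · rw [e2]; exact hp
  fin_cases i
  · have h' : aI (br g) ≠ 0 := h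
    have h3 : (3 : Eis) ∣ (br g).1 := by
      by_contra hc
      exact h' (aI_not_dvd hc _)
    have hp : IsPrim (br g).2 := by
      by_contra hc
      apply h'
      have := aI_dvd h3 (br g).2
      rw [if_neg hc] at this
      exact this
    have : ∃ (x : Eis) (γ : GN 3), g = up x * 1 * (γ : SLE) := by
      apply red_aux
      · rw [inv_one, mul_one]; exact h3
      · rw [inv_one, mul_one]; exact hp
    simpa [g4] using this
  · exact hF 0 h
  · exact hF 1 h
  · exact hF (-1) h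

/-- equivariant functions. -/
def Eqv (D : K695.Frm → ℂ) : Prop := ∀ (γ : GN 3) (M : K695.Frm), D ((γ : SLE) • M) = chi3 γ * D M

lemma eqv_ED (i : Fin 4) (H : ℂ → Vec → ℂ) : Eqv (ED (a4 i) H) := fun γ M =>
  ED_smul norm_chi3 (cof4 i) H γ M

lemma Eqv.sum {ι : Type*} [Fintype ι] {D : ι → K695.Frm → ℂ} (h : ∀ i, Eqv (D i)) :
    Eqv (fun M => ∑ i, D i M) := fun γ M => by
  simp only [h _ γ M, Finset.mul_sum]

lemma CT_red {D : K695.Frm → ℂ} (hD : Eqv D) (x : Eis) (g0 : SLE) (γ : GN 3) (M : K695.Frm) :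
    CT 3 (up x * g0 * (γ : SLE)) D M = chi3 γ⁻¹ * CT 3 g0 D (up (-x) • M) := by
  unfold CT
  rw [← integral_const_mul]
  refine integral_congr_ae (Filter.Eventually.of_forall fun z => ?_)
  simp only
  have e1 : (up x * g0 * (γ : SLE))⁻¹ • ((M.1 + z • M.2, M.2) : K695.Frm) =
      ((γ⁻¹ : GN 3) : SLE) • (g0⁻¹ • (up (-x) • ((M.1 + z • M.2, M.2) : K695.Frm))) := by
    rw [← mul_smul, ← mul_smul]
    congr 1
    rw [mul_inv_rev, mul_inv_rev, up_inv]
    simp only [Subgroup.coe_inv, mul_assoc]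
  have e2 : up (-x) • ((M.1 + z • M.2, M.2) : K695.Frm) =
      (((up (-x) • M).1 + z • (up (-x) • M).2, (up (-x) • M).2) : K695.Frm) := by
    rw [up_smul, up_smul]
    ext1
    · simp only; abel
    · rfl
  rw [e1, e2, hD]

end Crest.Agent.R017.F1
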