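import Crest.Agent.R017.F1CT_180
import Crest.Agent.R012.FourCoef_499

/-!
# Row 17, section F, part 4 (helper180): Fourier coefficients of row series of level 3

`coef_EC` : for coefficients `a` on the rows with `d ↦ a (c, d)` periodic mod `3c`, the Fourier
coefficient of `z ↦ E_{a,F}(η + z ζ, ζ)` on `ℂ / 3ℤ[ω]` at `u ≠ 0` is
`Σ_{c ≠ 0} SC a u c · ∫_ℂ F (c (η + z ζ)) e(-u z/(3√-3)) dz`.
-/

set_option autoImplicit false

noncomputable section

open MeasureTheory Complex Set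

namespace Crest.Agent.R017.F1

open Crest.Agent.R012 Crest.Agent.R012.Eis
open Crest.Agent.R012.K695 (det2 n2 Vec EC rowv)
open Crest.Agent.R012.Parseval499 (par covol frq s3 measurableSet_par eC_frq_period
  continuous_eC covol_pos fco toC_s3_ne)
open Crest.Agent.R012.FourCoef499 (norm_le_of_mem_par tsum_integral_row)

/-- The sum attached to the modulus `c`. -/
def SC (a : Eis × Eis → ℂ) (u c : Eis) : ℂ :=
  sumMod (3 * c) (fun d => a (c, d) * eC (toC u * toC d / (toC s3 * toC (3 * c))))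

lemma n2_add_le (u v : Vec) : n2 (u + v) ≤ 2 * n2 u + 2 * n2 v := by
  unfold n2
  have h : ∀ a b : ℂ, ‖a + b‖ ^ 2 ≤ 2 * ‖a‖ ^ 2 + 2 * ‖b‖ ^ 2 := by
    intro a b
    have h1 := norm_add_le a b
    have h2 : ‖a + b‖ ^ 2 ≤ (‖a‖ + ‖b‖) ^ 2 := pow_le_pow_left₀ (norm_nonneg _) h1 2
    nlinarith [sq_nonneg (‖a‖ - ‖b‖)]
  have h1 := h u.1 v.1
  have h2 := h u.2 v.2
  simp only [Prod.fst_add, Prod.snd_add]
  linarith

lemma n2_smul' (z : ℂ) (u : Vec) : n2 (z • u) = ‖z‖ ^ 2 * n2 u := by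
  unfold n2
  simp only [Prod.smul_fst, Prod.smul_snd, smul_eq_mul, norm_mul]
  ring

lemma n2_neg' (u : Vec) : n2 (-u) = n2 u := by simp [n2]

lemma n2_pos {u : Vec} (hu : u ≠ 0) : 0 < n2 u :=
  lt_of_le_of_ne (n2_nonneg' u) (fun h => hu (K695.n2_eq_zero.mp h.symm))

/-- a test function along a line. -/
lemma line_bound (v : Vec) {ζ : Vec} (hζ : ζ ≠ 0) :
    ∃ K : ℝ, 0 < K ∧ ∀ z : ℂ, ((1 + n2 (v + z • ζ)) ^ 4)⁻¹ ≤ K * (1 + ‖z‖) ^ (-(8 : ℝ)) := by
  have hz := n2_pos hζ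
  set A : ℝ := max 2 (max (2 * n2 v + 1) (4 * (1 + 2 * n2 v) / n2 ζ)) with hA
  set B : ℝ := 2 * (1 + 2 * n2 v) + 4 / n2 ζ * (1 + 2 * n2 v) + 4 / n2 ζ + 2 with hB
  have hv := n2_nonneg' v
  have hBpos : 0 < B := by positivity
  refine ⟨B ^ 4, by positivity, fun z => ?_⟩
  have h0 : z • ζ = (v + z • ζ) + (-v) := by abel
  have h1 : ‖z‖ ^ 2 * n2 ζ ≤ 2 * n2 (v + z • ζ) + 2 * n2 v := by
    rw [← n2_smul', h0]
    refine (n2_add_le _ _).trans ?_
    rw [n2_neg', ← h0]
  have hw := n2_nonneg' (v + z • ζ)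
  have h2 : ‖z‖ ^ 2 ≤ (2 * n2 (v + z • ζ) + 2 * n2 v) / n2 ζ := by
    rwa [le_div_iff₀ hz]
  have h3 : (1 + ‖z‖) ^ 2 ≤ B * (1 + n2 (v + z • ζ)) := by
    have h4 : (1 + ‖z‖) ^ 2 ≤ 2 + 2 * ‖z‖ ^ 2 := by nlinarith [sq_nonneg (1 - ‖z‖)]
    have h5 : 2 + 2 * ‖z‖ ^ 2 ≤ 2 + 2 * ((2 * n2 (v + z • ζ) + 2 * n2 v) / n2 ζ) := by linarith
    have h6 : 2 + 2 * ((2 * n2 (v + z • ζ) + 2 * n2 v) / n2 ζ) =
        2 + 4 / n2 ζ * n2 (v + z • ζ) + 4 / n2 ζ * n2 v := by ring
    have h7 : 0 < 4 / n2 ζ := by positivity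
    have h8 : B * (1 + n2 (v + z • ζ)) = 2 * (1 + 2 * n2 v) + 4 / n2 ζ * (1 + 2 * n2 v) + 4 / n2 ζ
        + 2 + (2 * (1 + 2 * n2 v) + 4 / n2 ζ * (1 + 2 * n2 v) + 4 / n2 ζ + 2) *
          n2 (v + z • ζ) := by rw [hB]; ring
    rw [h8]
    have h9 : 0 ≤ 4 / n2 ζ * n2 v := by positivity
    have h10 : 0 ≤ (2 * (1 + 2 * n2 v) + 4 / n2 ζ * (1 + 2 * n2 v) + 2) * n2 (v + z • ζ) := by
      positivity
    nlinarith
  have h4 : (1 + ‖z‖) ^ 8 ≤ B ^ 4 * (1 + n2 (v + z • ζ)) ^ 4 := by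
    calc (1 + ‖z‖) ^ 8 = ((1 + ‖z‖) ^ 2) ^ 4 := by ring
      _ ≤ (B * (1 + n2 (v + z • ζ))) ^ 4 := pow_le_pow_left₀ (by positivity) h3 4
      _ = _ := by ring
  have h5 : (1 + ‖z‖) ^ (-(8 : ℝ)) = ((1 + ‖z‖) ^ 8)⁻¹ := by
    rw [Real.rpow_neg (by positivity)]
    norm_cast
  rw [h5, inv_eq_one_div, ← div_eq_mul_inv, div_le_div_iff₀ (by positivity) (by positivity)]
  linarith

lemma Tst.integrable_line {F : Vec → ℂ} (hF : Tst F) (v : Vec) {ζ : Vec} (hζ : ζ ≠ 0) :
    Integrable fun z : ℂ => F (v + z • ζ) := by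
  obtain ⟨C, hC⟩ := hF.dec
  obtain ⟨K, hK, hb⟩ := line_bound v hζ
  have hC0 := tst_const_nonneg hC
  have hi : Integrable (fun z : ℂ => (C * K) * (1 + ‖z‖) ^ (-(8 : ℝ))) := by
    apply Integrable.const_mul
    apply integrable_one_add_norm
    rw [Complex.finrank_real_complex]; norm_num
  refine hi.mono' ?_ ?_
  · exact (hF.cont.comp (by fun_prop)).aestronglyMeasurable
  · refine Filter.Eventually.of_forall fun z => (hC _).trans ?_
    rw [mul_assoc]
    gcongr
    exact hb z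

/-- the character is orthogonal to constants. -/
lemma integral_par_eC {u : Eis} (hu : u ≠ 0) : ∫ z in par 3, eC (-(frq 3 u * z)) = 0 := by
  have h3 : (3 : ℂ) ≠ 0 := by norm_num
  have hvol : (volume : Measure ℂ).real (par 3) = covol 3 := by
    have := Parseval499.integral_par h3 (fun _ => (1 : ℝ))
    simp only [integral_const, MeasurableSet.univ, measureReal_restrict_apply, univ_inter,
      smul_eq_mul, mul_one] at this
    rw [this]
    have hb : (volume : Measure (Fin 2 → ℝ)).real Parseval499.box = 1 := by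
      have hbox : Parseval499.box = Set.pi univ (fun i : Fin 2 => Ioc (0 : ℝ) 1) := by
        ext x; simp [Parseval499.box]
      rw [hbox, measureReal_def, Real.volume_pi_Ioc]
      simp
    rw [hb, mul_one]
  have hfin : volume (par 3) ≠ ⊤ := by
    intro h
    have : (volume : Measure ℂ).real (par 3) = 0 := by
      rw [measureReal_def, h]; simp
    rw [hvol] at this
    exact (covol_pos h3).ne' this
  have : IsFiniteMeasure ((volume : Measure ℂ).restrict (par 3)) :=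
    ⟨by rw [Measure.restrict_apply_univ]; exact lt_top_iff_ne_top.mpr hfin⟩
  have hm : MemLp (fun _ : ℂ => (1 : ℂ)) 2 (volume.restrict (par 3)) := memLp_const 1
  have hs := Parseval499.hasSum_sq_fco h3 hm
  have hR : (covol 3)⁻¹ * ∫ z in par 3, ‖(1 : ℂ)‖ ^ 2 = 1 := by
    simp only [norm_one, one_pow, integral_const, MeasurableSet.univ, measureReal_restrict_apply,
      univ_inter, smul_eq_mul, mul_one]
    rw [hvol, inv_mul_cancel₀ (covol_pos h3).ne']
  rw [hR] at hs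
  have h0 : fco 3 (fun _ => (1 : ℂ)) 0 = 1 := by
    unfold fco
    simp only [frq, map_zero, zero_div, zero_mul, neg_zero, one_mul]
    rw [Parseval499.eC_zero]
    simp only [integral_const, MeasurableSet.univ, measureReal_restrict_apply,
      univ_inter]
    rw [hvol, Complex.real_smul, mul_one, inv_mul_cancel₀]
    exact_mod_cast (covol_pos h3).ne'
  classical
  have hle := sum_le_hasSum ({0, u} : Finset Eis) (fun _ _ => by positivity) hs
  rw [Finset.sum_pair hu.symm, h0] at hle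
  have h1 : ‖fco 3 (fun _ => (1 : ℂ)) u‖ ^ 2 ≤ 0 := by
    have : ‖(1 : ℂ)‖ ^ 2 = 1 := by norm_num
    linarith
  have h2 : fco 3 (fun _ => (1 : ℂ)) u = 0 := by
    rw [← norm_eq_zero]
    nlinarith [norm_nonneg (fco 3 (fun _ => (1 : ℂ)) u)]
  unfold fco at h2
  have h3' : (covol 3 : ℂ)⁻¹ ≠ 0 := inv_ne_zero (by exact_mod_cast (covol_pos h3).ne')
  simpa [h3'] using h2

/-- `(η, ζ) ↦ (η + z ζ, ζ)`. -/
def mU (z : ℂ) (M : K695.Frm) : K695.Frm := (M.1 + z • M.2, M.2)

lemma det2_mU (z : ℂ) (M : K695.Frm) : det2 (mU z M) = det2 M := by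
  unfold det2 mU
  simp only [Prod.fst_add, Prod.snd_add, Prod.smul_fst, Prod.smul_snd, smul_eq_mul]
  ring

lemma rowv_mU (r : Eis × Eis) (z : ℂ) (M : K695.Frm) :
    rowv r (mU z M) = toC r.1 • (M.1 + z • M.2) + toC r.2 • M.2 := rfl

/-- lower bound of `ee` on the parallelogram. -/
def e0 (M : K695.Frm) : ℝ := ‖det2 M‖ ^ 2 / (2 * n2 M.1 + 73 * n2 M.2)

lemma e0_pos {M : K695.Frm} (hM : det2 M ≠ 0) : 0 < e0 M := by
  have h2 := K695.snd_ne_zero_of_det hM
  have h3 := n2_pos h2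
  have h4 := n2_nonneg' M.1
  have h7 : 0 < ‖det2 M‖ := norm_pos_iff.mpr hM
  unfold e0
  positivity

lemma e0_le {M : K695.Frm} (hM : det2 M ≠ 0) {z : ℂ} (hz : z ∈ par 3) :
    e0 M ≤ ee (mU z M) := by
  have h2 := n2_pos (K695.snd_ne_zero_of_det hM)
  have h4 := n2_nonneg' M.1
  have h1 : ‖z‖ ≤ 6 := by
    have := norm_le_of_mem_par hz
    have h3 : ‖(3 : ℂ)‖ = 3 := by norm_num
    rw [h3] at this; linarith
  have h5 : ‖z‖ ^ 2 ≤ 36 := by nlinarith [norm_nonneg z]
  unfold e0 ee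
  rw [det2_mU]
  have h6 : n2 (mU z M).1 ≤ 2 * n2 M.1 + 72 * n2 M.2 := by
    unfold mU
    refine (n2_add_le _ _).trans ?_
    rw [n2_smul']
    nlinarith
  have h7 : (mU z M).2 = M.2 := rfl
  rw [h7]
  have h8 : 0 ≤ n2 (mU z M).1 := n2_nonneg' _
  apply div_le_div_of_nonneg_left (by positivity) (by linarith)
  linarith

lemma dec_par {M : K695.Frm} (hM : det2 M ≠ 0) {z : ℂ} (hz : z ∈ par 3) (r : Eis × Eis) :
    ((1 + n2 (rowv r (mU z M))) ^ 4)⁻¹ ≤
      ((1 + e0 M * (nm r.1 : ℝ)) ^ 2)⁻¹ * ((1 + e0 M * (nm r.2 : ℝ)) ^ 2)⁻¹ := by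
  have h0 := e0_pos hM
  have h1 := e0_le hM hz
  have hM' : det2 (mU z M) ≠ 0 := by rw [det2_mU]; exact hM
  refine (dec_row_le r hM').trans ?_
  have h2 : (0 : ℝ) ≤ nm r.1 := Nat.cast_nonneg _
  have h3 : (0 : ℝ) ≤ nm r.2 := Nat.cast_nonneg _
  gcongr

lemma summable_e0 {M : K695.Frm} (hM : det2 M ≠ 0) :
    Summable fun r : Eis × Eis =>
      ((1 + e0 M * (nm r.1 : ℝ)) ^ 2)⁻¹ * ((1 + e0 M * (nm r.2 : ℝ)) ^ 2)⁻¹ :=
  (summable_one_add (e0_pos hM)).mul_of_nonneg (summable_one_add (e0_pos hM))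
    (fun _ => by positivity) (fun _ => by positivity)

instance finPar : IsFiniteMeasure ((volume : Measure ℂ).restrict (par 3)) := by
  refine ⟨?_⟩
  rw [Measure.restrict_apply_univ]
  refine (measure_mono (t := Metric.closedBall (0 : ℂ) 6) fun z hz => ?_).trans_lt
    measure_closedBall_lt_top
  have := norm_le_of_mem_par hz
  have h3 : ‖(3 : ℂ)‖ = 3 := by norm_num
  rw [h3] at this
  rw [mem_closedBall_zero_iff]; linarith

/-- one term. -/
def trm (a : Eis × Eis → ℂ) (F : Vec → ℂ) (M : K695.Frm) (u : Eis) (r : Eis × Eis) (z : ℂ) : ℂ :=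
  a r * F (rowv r (mU z M)) * eC (-(frq 3 u * z))

lemma continuous_rowv_mU (r : Eis × Eis) (M : K695.Frm) :
    Continuous fun z : ℂ => rowv r (mU z M) := by
  simp only [rowv_mU]
  fun_prop

lemma continuous_trm {F : Vec → ℂ} (hF : Tst F) (a : Eis × Eis → ℂ) (M : K695.Frm) (u : Eis)
    (r : Eis × Eis) : Continuous (trm a F M u r) := by
  unfold trm
  exact (continuous_const.mul (hF.cont.comp (continuous_rowv_mU r M))).mul
    (continuous_eC.comp (by fun_prop))

lemma norm_trm_le {F : Vec → ℂ} {C : ℝ} (hC : ∀ u, ‖F u‖ ≤ C * ((1 + n2 u) ^ 4)⁻¹)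
    {a : Eis × Eis → ℂ} (hb : ∀ r, ‖a r‖ ≤ 1) {M : K695.Frm} (hM : det2 M ≠ 0) (u : Eis)
    (r : Eis × Eis) {z : ℂ} (hz : z ∈ par 3) :
    ‖trm a F M u r z‖ ≤ C * (((1 + e0 M * (nm r.1 : ℝ)) ^ 2)⁻¹ *
      ((1 + e0 M * (nm r.2 : ℝ)) ^ 2)⁻¹) := by
  unfold trm
  rw [norm_mul, norm_mul, norm_eC, mul_one]
  have h0 := tst_const_nonneg hC
  calc ‖a r‖ * ‖F (rowv r (mU z M))‖ ≤ 1 * (C * ((1 + n2 (rowv r (mU z M))) ^ 4)⁻¹) := by
        gcongr
        · exact hb r
        · exact hC _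
    _ ≤ _ := by
        rw [one_mul]
        gcongr
        exact dec_par hM hz r

lemma integrable_trm {F : Vec → ℂ} (hF : Tst F) {a : Eis × Eis → ℂ} (hb : ∀ r, ‖a r‖ ≤ 1)
    {M : K695.Frm} (hM : det2 M ≠ 0) (u : Eis) (r : Eis × Eis) :
    Integrable (trm a F M u r) (volume.restrict (par 3)) := by
  obtain ⟨C, hC⟩ := hF.dec
  refine Integrable.of_bound (C := C * (((1 + e0 M * (nm r.1 : ℝ)) ^ 2)⁻¹ *
      ((1 + e0 M * (nm r.2 : ℝ)) ^ 2)⁻¹)) (continuous_trm hF a M u r).aestronglyMeasurable ?_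
  rw [ae_restrict_iff' (measurableSet_par (by norm_num : (3 : ℂ) ≠ 0))]
  exact Filter.Eventually.of_forall fun z hz => norm_trm_le hC hb hM u r hz

lemma summable_trm {F : Vec → ℂ} (hF : Tst F) {a : Eis × Eis → ℂ} (hb : ∀ r, ‖a r‖ ≤ 1)
    {M : K695.Frm} (hM : det2 M ≠ 0) (u : Eis) :
    Summable fun r => ∫ z in par 3, ‖trm a F M u r z‖ := by
  obtain ⟨C, hC⟩ := hF.dec
  refine Summable.of_nonneg_of_le (fun r => integral_nonneg fun z => norm_nonneg _) (fun r => ?_)
    (((summable_e0 hM).mul_left C).mul_left ((volume : Measure ℂ).real (par 3)))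
  have h1 := norm_setIntegral_le_of_norm_le_const (μ := volume) (s := par 3)
    (f := fun z => ‖trm a F M u r z‖) (C := C * (((1 + e0 M * (nm r.1 : ℝ)) ^ 2)⁻¹ *
      ((1 + e0 M * (nm r.2 : ℝ)) ^ 2)⁻¹)) ?_ ?_
  · rw [Real.norm_eq_abs, abs_of_nonneg (integral_nonneg fun z => norm_nonneg _)] at h1
    rw [mul_comm]; exact h1
  · have := (finPar).measure_univ_lt_top
    rwa [Measure.restrict_apply_univ] at this
  · intro z hz
    rw [norm_norm]
    exact norm_trm_le hC hb hM u r hz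

/-- **Fourier coefficients of a row series** of level 3 at `u ≠ 0`. -/
theorem coef_EC {a : Eis × Eis → ℂ} (hb : ∀ r, ‖a r‖ ≤ 1)
    (hper : ∀ c : Eis, c ≠ 0 → PMod (3 * c) (fun d => a (c, d))) {F : Vec → ℂ} (hF : Tst F)
    {M : K695.Frm} (hM : det2 M ≠ 0) {u : Eis} (hu : u ≠ 0) :
    ∫ z in par 3, EC a F (mU z M) * eC (-(frq 3 u * z)) =
      ∑' c : Eis, (SC a u c * ∫ z : ℂ, F (toC c • (M.1 + z • M.2)) * eC (-(frq 3 u * z))) ∧
    Summable (fun c : Eis =>
      (SC a u c * ∫ z : ℂ, F (toC c • (M.1 + z • M.2)) * eC (-(frq 3 u * z)))) := by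
  have h3 : (3 : ℂ) ≠ 0 := by norm_num
  have hsum := summable_trm hF hb hM u
  have hhs := hasSum_integral_of_summable_integral_norm (integrable_trm hF hb hM u) hsum
  have hsn : Summable fun r => ∫ z in par 3, trm a F M u r z := hhs.summable
  have e1 : ∫ z in par 3, EC a F (mU z M) * eC (-(frq 3 u * z)) =
      ∫ z in par 3, ∑' r, trm a F M u r z := by
    refine integral_congr_ae (Filter.Eventually.of_forall fun z => ?_)
    simp only [EC, trm]
    rw [tsum_mul_right]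
  have hin : ∀ c : Eis, ∑' d : Eis, ∫ z in par 3, trm a F M u (c, d) z =
      (SC a u c * ∫ z : ℂ, F (toC c • (M.1 + z • M.2)) * eC (-(frq 3 u * z))) := by
    intro c
    by_cases hc : c = 0
    · subst hc
      have hz : ∀ d : Eis, ∫ z in par 3, trm a F M u (0, d) z = 0 := by
        intro d
        have : ∀ z : ℂ, trm a F M u (0, d) z = (a (0, d) * F (toC d • M.2)) *
            eC (-(frq 3 u * z)) := by
          intro z
          unfold trm
          rw [rowv_mU]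
          simp only [map_zero, zero_smul, zero_add]
        simp only [this]
        rw [integral_const_mul, integral_par_eC hu, mul_zero]
      rw [tsum_congr hz, tsum_zero]
      have : ∫ z : ℂ, F (toC 0 • (M.1 + z • M.2)) * eC (-(frq 3 u * z)) =
          F 0 * ∫ z : ℂ, eC (-(frq 3 u * z)) := by
        simp only [map_zero, zero_smul]
        rw [integral_const_mul]
      rw [this]
      have hni : ¬ Integrable (fun z : ℂ => eC (-(frq 3 u * z))) := by
        intro hi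
        have h1 := hi.norm
        simp only [norm_eC] at h1
        rw [integrable_const_iff] at h1
        rcases h1 with h1 | h1
        · exact one_ne_zero h1
        · have := h1.measure_univ_lt_top
          simp at this
      rw [integral_undef hni, mul_zero, mul_zero]
    · have hc3 : (3 * c : Eis) ≠ 0 := mul_ne_zero three_ne_zero' hc
      have hcC : toC c ≠ 0 := by rwa [Ne, toC_eq_zero]
      have hv : toC c • M.2 ≠ 0 := smul_ne_zero hcC (K695.snd_ne_zero_of_det hM)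
      have hint : Integrable fun z : ℂ => F (toC c • (M.1 + z • M.2)) := by
        have := hF.integrable_line (toC c • M.1) hv
        refine this.congr (Filter.Eventually.of_forall fun z => ?_)
        simp only [smul_add]
        rw [smul_comm z (toC c) M.2]
      have h := tsum_integral_row hc3 h3 (hper c hc) hint u
      unfold SC
      rw [← h]
      refine tsum_congr fun d => ?_
      rw [← integral_const_mul]
      refine integral_congr_ae (Filter.Eventually.of_forall fun z => ?_)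
      simp only [trm, rowv_mU]
      rw [mul_assoc]
      congr 3
      have e2 : z + 3 * (toC d / toC (3 * c)) = z + toC d / toC c := by
        rw [map_mul]
        have : toC (3 : Eis) = 3 := map_ofNat toC 3
        rw [this]
        field_simp
      rw [e2, add_smul, smul_add, smul_add, smul_add, smul_smul (toC c) (toC d / toC c)]
      rw [mul_div_cancel₀ _ hcC]
      abel
  constructor
  · rw [e1, ← hhs.tsum_eq, hsn.tsum_prod]
    exact tsum_congr hin
  · have := hsn.prod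
    refine this.congr fun c => ?_
    exact hin c

end Crest.Agent.R017.F1
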