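import Crest.Agent.R017.F1Pol1_180

/-!
# Row 17, section F (helper180): identification of the polar coefficient, part 2
-/

set_option autoImplicit false

noncomputable section

open MeasureTheory Complex Set Filter Topology

namespace Crest.Agent.R017.F1

open Crest.Agent.R012 Crest.Agent.R012.Eis Crest.Agent.R012.Sym645
open Crest.Agent.R012.Parseval499 (frq s3)
open scoped ComplexConjugate

/-- `Σ N(d)⁻²` -/
def Z2 : ℝ := ∑' d : Eis, ((nm d : ℝ) ^ 2)⁻¹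

lemma Z2_nonneg : 0 ≤ Z2 := tsum_nonneg fun d => by positivity

/-! ### interchange -/

theorem Cg_fL {f : ℂ → ℂ} (hf : Ev f) (u : Eis) : open Classical in
    Cg u (fL f) = ∑' e : Eis, if IsPrim e then
      ((nm e : ℂ) ^ 2) * Cg u (fun x => f (toC e ^ 3 * x)) else 0 := by
  classical
  obtain ⟨a, b, ha, hab, hs⟩ := hf.supp
  obtain ⟨B, hB⟩ := hf.bdd
  have hB0 : 0 ≤ B := (norm_nonneg _).trans (hB 0)
  set T : Eis → Eis → ℂ := fun d e => if IsPrim d then conj (gs u d) *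
    (if IsPrim e then ((nm e : ℂ) ^ 2) * f (toC e ^ 3 * toC d) else 0) else 0 with hT
  have hb : ∀ x : Eis × Eis, ‖Function.uncurry T x‖ ≤
      B * b ^ 6 * ((((nm x.1 : ℝ) ^ 2)⁻¹) * (((nm x.2 : ℝ) ^ 2)⁻¹)) := by
    rintro ⟨d, e⟩
    have hb0 : 0 < b := ha.trans hab
    have hR : 0 ≤ B * b ^ 6 * ((((nm d : ℝ) ^ 2)⁻¹) * (((nm e : ℝ) ^ 2)⁻¹)) := by positivity
    simp only [Function.uncurry, hT]
    by_cases hd : IsPrim d
    · rw [if_pos hd]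
      by_cases he : IsPrim e
      · rw [if_pos he]
        have hd1 : (1 : ℝ) ≤ nm d := by exact_mod_cast nm_pos.mpr hd.ne_zero
        have he1 : (1 : ℝ) ≤ nm e := by exact_mod_cast nm_pos.mpr he.ne_zero
        by_cases hx : b < ‖toC e ^ 3 * toC d‖
        · rw [hs _ (Or.inr hx), mul_zero, mul_zero, norm_zero]
          exact hR
        · push Not at hx
          have hz : (nm e : ℝ) ^ 3 * nm d ≤ b ^ 2 := by
            have h1 : ‖toC e ^ 3 * toC d‖ ^ 2 = (nm e : ℝ) ^ 3 * nm d := by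
              rw [norm_mul, norm_pow, mul_pow, ← norm_toC_sq, ← norm_toC_sq]; ring
            rw [← h1]
            gcongr
          have h1 := norm_gs_le' u hd
          have h2 := hB (toC e ^ 3 * toC d)
          rw [norm_mul, RCLike.norm_conj, norm_mul, norm_pow, Complex.norm_natCast]
          have h3 : ‖gs u d‖ * ((nm e : ℝ) ^ 2 * ‖f (toC e ^ 3 * toC d)‖) ≤
              nm d * ((nm e : ℝ) ^ 2 * B) := by gcongr
          refine h3.trans ?_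
          have h4 : ((nm e : ℝ) ^ 3 * nm d) ^ 3 ≤ (b ^ 2) ^ 3 := by gcongr
          have h5 : (nm d : ℝ) * (nm e : ℝ) ^ 2 ≤ b ^ 6 * ((((nm d : ℝ) ^ 2)⁻¹) *
              (((nm e : ℝ) ^ 2)⁻¹)) := by
            rw [← mul_inv, ← div_eq_mul_inv, le_div_iff₀ (by positivity)]
            have h6 : (nm d : ℝ) * (nm e : ℝ) ^ 2 * ((nm d : ℝ) ^ 2 * (nm e : ℝ) ^ 2) =
                (nm d : ℝ) ^ 3 * (nm e : ℝ) ^ 4 := by ring
            have h7 : (nm e : ℝ) ^ 4 ≤ (nm e : ℝ) ^ 9 := pow_le_pow_right₀ he1 (by norm_num)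
            rw [h6]
            calc (nm d : ℝ) ^ 3 * (nm e : ℝ) ^ 4 ≤ (nm d : ℝ) ^ 3 * (nm e : ℝ) ^ 9 := by gcongr
              _ = ((nm e : ℝ) ^ 3 * nm d) ^ 3 := by ring
              _ ≤ (b ^ 2) ^ 3 := h4
              _ = b ^ 6 := by ring
          calc (nm d : ℝ) * ((nm e : ℝ) ^ 2 * B) = B * (nm d * (nm e : ℝ) ^ 2) := by ring
            _ ≤ B * (b ^ 6 * ((((nm d : ℝ) ^ 2)⁻¹) * (((nm e : ℝ) ^ 2)⁻¹))) := by gcongr
            _ = _ := by ring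
      · rw [if_neg he, mul_zero, norm_zero]
        exact hR
    · rw [if_neg hd, norm_zero]
      exact hR
  have hsum : Summable (Function.uncurry T) := by
    refine Summable.of_norm_bounded
      ((summable_inv_nm_sq.mul_of_nonneg summable_inv_nm_sq (fun _ => by positivity)
        (fun _ => by positivity)).mul_left (B * b ^ 6)) hb
  have e1 : Cg u (fL f) = ∑' d, ∑' e, T d e := by
    unfold Cg
    refine tsum_congr fun d => ?_
    by_cases hd : IsPrim d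
    · rw [if_pos hd, fL_eq_prim hf, ← tsum_mul_left]
      refine tsum_congr fun e => ?_
      simp only [hT]
      rw [if_pos hd]
    · rw [if_neg hd]
      simp only [hT]
      rw [tsum_congr (fun e => if_neg hd), tsum_zero]
  rw [e1, ← hsum.tsum_comm]
  refine tsum_congr fun e => ?_
  by_cases he : IsPrim e
  · rw [if_pos he]
    unfold Cg
    rw [← tsum_mul_left]
    refine tsum_congr fun d => ?_
    simp only [hT]
    rw [if_pos he]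
    split_ifs
    · ring
    · rw [mul_zero]
  · rw [if_neg he]
    simp only [hT]
    rw [tsum_congr (g := fun _ => (0 : ℂ)) (fun d => by rw [if_neg he, mul_zero, ite_self]),
      tsum_zero]

/-! ### the dual side is small -/

lemma Cg_rc_le (u : Eis) {φ : ℂ → ℂ} {C : ℝ} (hC0 : 0 ≤ C)
    (h : ∀ y : ℂ, y ≠ 0 → ‖φ y‖ ≤ C * ‖y‖ ^ 4) {v : ℂ} (hv : v ≠ 0) :
    ‖Cg u (rc φ v)‖ ≤ C * ‖v‖ ^ 4 * Z2 := by
  classical
  unfold Cg Z2
  rw [← tsum_mul_left]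
  refine tsum_of_norm_bounded (summable_inv_nm_sq.mul_left _).hasSum fun d => ?_
  by_cases hd : IsPrim d
  · rw [if_pos hd, norm_mul, RCLike.norm_conj]
    have hd0 := hd.ne_zero
    have hdp : (0 : ℝ) < nm d := by exact_mod_cast nm_pos.mpr hd0
    have hdC : toC d ≠ 0 := by rwa [Ne, toC_eq_zero]
    have hn : 0 < ‖toC d‖ := norm_pos_iff.mpr hdC
    have h1 := norm_gs_le' u hd
    have h2 := h (v / toC d) (div_ne_zero hv hdC)
    unfold rc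
    rw [norm_mul, Complex.norm_real, Real.norm_of_nonneg (by positivity)]
    rw [norm_div, div_pow] at h2
    have h3 : ‖toC d‖ ^ 4 = (nm d : ℝ) ^ 2 := by rw [← norm_toC_sq]; ring
    rw [h3] at h2
    rw [norm_toC_sq]
    calc ‖gs u d‖ * (((nm d : ℝ))⁻¹ * ‖φ (v / toC d)‖)
        ≤ nm d * (((nm d : ℝ))⁻¹ * (C * (‖v‖ ^ 4 / (nm d : ℝ) ^ 2))) := by gcongr
      _ = C * ‖v‖ ^ 4 * ((nm d : ℝ) ^ 2)⁻¹ := by field_simp
  · rw [if_neg hd, norm_zero]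
    positivity

lemma gg_le {φ : ℂ → ℂ} {C : ℝ} (hC0 : 0 ≤ C)
    (h : ∀ y : ℂ, y ≠ 0 → ‖φ y‖ ≤ C * ‖y‖ ^ 4) : ∀ y : ℂ, y ≠ 0 → ‖gg φ y‖ ≤ C * ‖y‖ ^ 4 := by
  intro y hy
  have hs : (3 * toC s3 : ℂ) ≠ 0 := mul_ne_zero (by norm_num) Parseval499.toC_s3_ne
  have h1 := h y hy
  have h2 := h (y / (3 * toC s3)) (div_ne_zero hy hs)
  rw [norm_div] at h2
  have h3 : ‖y‖ / ‖(3 * toC s3 : ℂ)‖ ≤ ‖y‖ := div_le_self (norm_nonneg _) norm_s33
  have h4 : (‖y‖ / ‖(3 * toC s3 : ℂ)‖) ^ 4 ≤ ‖y‖ ^ 4 := by gcongr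
  have h5 : ‖φ (y / (3 * toC s3))‖ ≤ C * ‖y‖ ^ 4 := h2.trans (by gcongr)
  unfold gg
  have h6 : ‖(1 / 3 : ℂ)‖ = 1 / 3 := by
    rw [show (1 / 3 : ℂ) = ((1 / 3 : ℝ) : ℂ) by push_cast; ring, Complex.norm_real,
      Real.norm_of_nonneg (by norm_num)]
  rw [norm_mul, h6]
  have h7 := norm_sub_le (φ (y / (3 * toC s3))) (φ y)
  have h8 : 0 ≤ C * ‖y‖ ^ 4 := by positivity
  linarith

/-- bound for the dual functional. -/
lemma Du_le {u : Eis} (hu : u ≠ 0) : ∃ K : ℝ, 0 ≤ K ∧ ∀ (φ : ℂ → ℂ) (C : ℝ), 0 ≤ C →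
    (∀ y : ℂ, y ≠ 0 → ‖φ y‖ ≤ C * ‖y‖ ^ 4) → ‖Du u φ‖ ≤ K * C := by
  have huC : toC u ≠ 0 := by rwa [Ne, toC_eq_zero]
  have hZ := Z2_nonneg
  refine ⟨2 / 3 * (‖toC u‖ ^ 4 * Z2) + 2 * (‖toC u‖ ^ 4 * Z2) +
    ∑ δ ∈ Dl u, ‖Lam δ u‖ * ((nm δ : ℝ)⁻¹ * (‖toC u / toC δ‖ ^ 4 * Z2)), ?_, ?_⟩
  · have : 0 ≤ ∑ δ ∈ Dl u, ‖Lam δ u‖ * ((nm δ : ℝ)⁻¹ * (‖toC u / toC δ‖ ^ 4 * Z2)) :=
      Finset.sum_nonneg fun δ _ => by positivity
    positivity
  intro φ C hC0 h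
  have hg := gg_le hC0 h
  unfold Du
  have t1 : ‖(2 / 3 : ℂ) * Cg u (rc φ (toC u))‖ ≤ 2 / 3 * (‖toC u‖ ^ 4 * Z2) * C := by
    have h6 : ‖(2 / 3 : ℂ)‖ = 2 / 3 := by
      rw [show (2 / 3 : ℂ) = ((2 / 3 : ℝ) : ℂ) by push_cast; ring, Complex.norm_real,
        Real.norm_of_nonneg (by norm_num)]
    rw [norm_mul, h6]
    have := Cg_rc_le u hC0 h huC
    nlinarith
  have t2 : ‖(eC (frq 3 u) + eC (-frq 3 u)) * Cg u (rc (gg φ) (toC u))‖ ≤
      2 * (‖toC u‖ ^ 4 * Z2) * C := by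
    rw [norm_mul]
    have h1 : ‖eC (frq 3 u) + eC (-frq 3 u)‖ ≤ 2 := by
      refine (norm_add_le _ _).trans ?_
      rw [R012.norm_eC, R012.norm_eC]; norm_num
    have h2 := Cg_rc_le u hC0 hg huC
    have h3 : 0 ≤ C * ‖toC u‖ ^ 4 * Z2 := by positivity
    calc _ ≤ 2 * (C * ‖toC u‖ ^ 4 * Z2) := by gcongr
      _ = _ := by ring
  have t3 : ‖∑ δ ∈ Dl u, Lam δ u * (((nm δ : ℝ)⁻¹ : ℝ) : ℂ) *
      Cg (δ * u) (rc (gg φ) (toC u / toC δ))‖ ≤
      (∑ δ ∈ Dl u, ‖Lam δ u‖ * ((nm δ : ℝ)⁻¹ * (‖toC u / toC δ‖ ^ 4 * Z2))) * C := by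
    rw [Finset.sum_mul]
    refine (norm_sum_le _ _).trans (Finset.sum_le_sum fun δ hδ => ?_)
    rw [norm_mul, norm_mul, Complex.norm_real, Real.norm_of_nonneg (by positivity)]
    have h2 := Cg_rc_le (δ * u) hC0 hg (Dl_ne hu hδ)
    calc _ ≤ ‖Lam δ u‖ * (nm δ : ℝ)⁻¹ * (C * ‖toC u / toC δ‖ ^ 4 * Z2) := by gcongr
      _ = _ := by ring
  refine (norm_add_le _ _).trans ?_
  refine (add_le_add ((norm_add_le _ _).trans (add_le_add t1 t2)) t3).trans (le_of_eq ?_)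
  ring

end Crest.Agent.R017.F1
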