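import Crest.Agent.R017.F1Pol2_180

/-!
# Row 17, section F (helper180): identification of the polar coefficient, part 3
-/

set_option autoImplicit false

noncomputable section

open MeasureTheory Complex Set Filter Topology

namespace Crest.Agent.R017.F1

open Crest.Agent.R012 Crest.Agent.R012.Eis Crest.Agent.R012.Sym645
open scoped ComplexConjugate ContDiff

/-- `x ↦ V(|x|²)` -/
def rV (V : ℝ → ℂ) (x : ℂ) : ℂ := V (‖x‖ ^ 2)

lemma ev_rV {V : ℝ → ℂ} (h : M49.Wt V) : Ev (rV V) where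
  smooth := h.smooth.comp (contDiff_norm_sq ℝ)
  supp := by
    obtain ⟨a, b, ha, hab, hs⟩ := h.supp
    refine ⟨Real.sqrt a, Real.sqrt b, Real.sqrt_pos.mpr ha, Real.sqrt_lt_sqrt ha.le hab,
      fun x hx => hs _ ?_⟩
    rcases hx with hx | hx
    · left
      exact (Real.lt_sqrt (norm_nonneg _)).mp hx
    · right
      exact (Real.sqrt_lt' (lt_of_le_of_lt (Real.sqrt_nonneg _) hx)).mp hx
  even x := by unfold rV; rw [norm_neg]

/-- `A(Y) = Σ_d conj gs(u,d) V(N d / Y)`. -/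
def AV (V : ℝ → ℂ) (u : Eis) (Y : ℝ) : ℂ := Cg u (fun x => V (‖x‖ ^ 2 / Y))

/-- the weight for `SS` -/
def vV (V : ℝ → ℂ) (y : ℝ) : ℂ := ((Real.sqrt y : ℝ) : ℂ) * conj (V y)

lemma wt_vV {V : ℝ → ℂ} (h : M49.Wt V) : M49.Wt (vV V) where
  smooth := by
    obtain ⟨a, b, ha, hab, hs⟩ := h.supp
    rw [contDiff_iff_contDiffAt]
    intro x
    rcases lt_or_ge x a with hx | hx
    · have h0 : vV V =ᶠ[𝓝 x] fun _ => 0 := by
        filter_upwards [gt_mem_nhds hx] with y hy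
        simp [vV, hs y (Or.inl hy)]
      exact (contDiffAt_const (c := (0 : ℂ))).congr_of_eventuallyEq h0
    · have hx0 : x ≠ 0 := (ha.trans_le hx).ne'
      unfold vV
      refine ContDiffAt.mul ?_ ?_
      · exact Complex.ofRealCLM.contDiff.contDiffAt.comp x (Real.contDiffAt_sqrt hx0)
      · exact (Complex.conjCLE.contDiff.comp h.smooth).contDiffAt
  supp := by
    obtain ⟨a, b, ha, hab, hs⟩ := h.supp
    exact ⟨a, b, ha, hab, fun x hx => by unfold vV; rw [hs x hx, map_zero, mul_zero]⟩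

lemma AV_eq (V : ℝ → ℂ) (u : Eis) {Y : ℝ} (hY : 0 < Y) :
    AV V u Y = ((Real.sqrt Y : ℝ) : ℂ) * conj (M49.SS 0 0 (vV V) u Y) := by
  classical
  unfold AV Cg M49.SS
  rw [Complex.conj_tsum, ← tsum_mul_left]
  refine tsum_congr fun d => ?_
  by_cases hd : IsPrim d
  · rw [if_pos hd, if_pos hd]
    have hN : (0 : ℝ) < nm d := by exact_mod_cast nm_pos.mpr hd.ne_zero
    have h1 : (nm d : ℂ) ^ (((0 : ℝ) : ℂ) * Complex.I) = 1 := by
      rw [Complex.ofReal_zero, zero_mul, Complex.cpow_zero]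
    rw [h1, mul_one, P355.ang_zero, mul_one]
    simp only [norm_toC_sq]
    unfold vV
    rw [map_mul, map_mul, map_div₀, Complex.conj_ofReal, Complex.conj_ofReal, Complex.conj_conj,
      Real.sqrt_div hN.le]
    have e1 : Real.sqrt Y ≠ 0 := (Real.sqrt_pos.mpr hY).ne'
    have e2 : Real.sqrt (nm d) ≠ 0 := (Real.sqrt_pos.mpr hN).ne'
    have e1' : ((Real.sqrt Y : ℝ) : ℂ) ≠ 0 := by exact_mod_cast e1
    have e2' : ((Real.sqrt (nm d) : ℝ) : ℂ) ≠ 0 := by exact_mod_cast e2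
    push_cast
    field_simp
  · rw [if_neg hd, if_neg hd, map_zero, mul_zero]

lemma mellin_vV (V : ℝ → ℂ) :
    conj (mellin (vV V) ((5 / 6 : ℝ) : ℂ)) = mellin V ((4 / 3 : ℝ) : ℂ) := by
  unfold mellin
  rw [← integral_conj]
  refine setIntegral_congr_fun measurableSet_Ioi fun t ht => ?_
  have ht0 : (0 : ℝ) < t := ht
  have e1 : ((t : ℂ)) ^ (((5 / 6 : ℝ) : ℂ) - 1) = ((t ^ ((5 / 6 : ℝ) - 1) : ℝ) : ℂ) := by
    rw [Complex.ofReal_cpow ht0.le]; push_cast; rfl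
  have e2 : ((t : ℂ)) ^ (((4 / 3 : ℝ) : ℂ) - 1) = ((t ^ ((4 / 3 : ℝ) - 1) : ℝ) : ℂ) := by
    rw [Complex.ofReal_cpow ht0.le]; push_cast; rfl
  simp only [smul_eq_mul]
  rw [e1, e2]
  unfold vV
  rw [map_mul, map_mul, Complex.conj_ofReal, Complex.conj_ofReal, Complex.conj_conj, ← mul_assoc,
    ← Complex.ofReal_mul, Real.sqrt_eq_rpow, ← Real.rpow_add ht0]
  norm_num

lemma AV_bd {ρ : Eis → ℂ} (hMS : M49.MS ρ) {V : ℝ → ℂ} (hV : M49.Wt V) (u : Eis) :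
    ∃ C : ℝ, 0 ≤ C ∧ ∀ Y : ℝ, 0 < Y →
      ‖AV V u Y - conj (ρ u) * mellin V ((4 / 3 : ℝ) : ℂ) * ((Y ^ (4 / 3 : ℝ) : ℝ) : ℂ)‖ ≤
        C * Y ^ (7 / 6 : ℝ) := by
  classical
  obtain ⟨C, hC⟩ := hMS 0 (vV V) (wt_vV hV) (1 / 3) (by norm_num)
  obtain ⟨a, b, ha, hab, hs⟩ := hV.supp
  set N : ℕ := nm u + 1 with hN
  have hN1 : 1 ≤ N := by omega
  have hmem : u ∈ ball N := by rw [mem_ball]; omega
  have hNpos : (0 : ℝ) < N := by exact_mod_cast hN1
  set b' : ℝ := max b 1 with hb'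
  have hb1 : 1 ≤ b' := le_max_right _ _
  set M : ℂ := conj (ρ u) * mellin V ((4 / 3 : ℝ) : ℂ) with hM
  set K : ℝ := |C| * (b' + 1) ^ (1 / 3 : ℝ) * (N : ℝ) ^ (1 / 3 : ℝ) * N with hK
  have hK0 : 0 ≤ K := by positivity
  refine ⟨Real.sqrt K + ‖M‖, by positivity, fun Y hY => ?_⟩
  have hpos : (0 : ℝ) < Y ^ (7 / 6 : ℝ) := Real.rpow_pos_of_pos hY _
  rcases lt_or_ge Y (1 / b') with hlt | hge
  · -- the sum is empty
    have h0 : AV V u Y = 0 := by
      unfold AV Cg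
      rw [tsum_congr (g := fun _ => (0 : ℂ)), tsum_zero]
      intro d
      split_ifs with hd
      · simp only [norm_toC_sq]
        rw [hs, mul_zero]
        right
        have hd1 : (1 : ℝ) ≤ nm d := by exact_mod_cast nm_pos.mpr hd.ne_zero
        rw [lt_div_iff₀ hY]
        have h2 : b' * Y < 1 := by
          rw [lt_div_iff₀ (by linarith)] at hlt
          linarith
        have h3 : b * Y ≤ b' * Y := by
          have := le_max_left b 1
          gcongr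
        linarith
      · rfl
    rw [h0, zero_sub, norm_neg, norm_mul, Complex.norm_real,
      Real.norm_of_nonneg (Real.rpow_nonneg hY.le _)]
    have hY1 : Y ≤ 1 := by
      have : 1 / b' ≤ 1 := by rw [div_le_one (by linarith)]; exact hb1
      linarith
    have h1 : Y ^ (4 / 3 : ℝ) ≤ Y ^ (7 / 6 : ℝ) :=
      Real.rpow_le_rpow_of_exponent_ge hY hY1 (by norm_num)
    calc ‖M‖ * Y ^ (4 / 3 : ℝ) ≤ ‖M‖ * Y ^ (7 / 6 : ℝ) := by gcongr
      _ ≤ (Real.sqrt K + ‖M‖) * Y ^ (7 / 6 : ℝ) := by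
        gcongr
        linarith [Real.sqrt_nonneg K]
  · have h1 := hC N Y 0 hN1 hY
    have h2 := (Finset.single_le_sum (f := fun h : Eis =>
      ‖M49.SS 0 0 (vV V) h Y - (if (0 : ℤ) = 0 then
        ρ h * mellin (vV V) ((5 : ℂ) / 6 + ((0 : ℝ) : ℂ) * Complex.I) *
          (Y : ℂ) ^ ((5 : ℂ) / 6 + ((0 : ℝ) : ℂ) * Complex.I)
        else 0)‖ ^ 2) (fun _ _ => sq_nonneg _) hmem).trans h1
    simp only [if_true, Complex.ofReal_zero, zero_mul, add_zero] at h2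
    have e1 : ((5 : ℂ) / 6) = (((5 / 6 : ℝ)) : ℂ) := by push_cast; ring
    rw [e1, ← Complex.ofReal_cpow hY.le] at h2
    set E : ℂ := M49.SS 0 0 (vV V) u Y - ρ u * mellin (vV V) (((5 / 6 : ℝ)) : ℂ) *
      ((Y ^ (5 / 6 : ℝ) : ℝ) : ℂ) with hE
    have e2 : AV V u Y - M * ((Y ^ (4 / 3 : ℝ) : ℝ) : ℂ) = ((Real.sqrt Y : ℝ) : ℂ) * conj E := by
      rw [AV_eq V u hY, hE, map_sub, map_mul, map_mul, Complex.conj_ofReal, mellin_vV, hM]
      have e3 : ((Y ^ (4 / 3 : ℝ) : ℝ) : ℂ) =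
          ((Real.sqrt Y : ℝ) : ℂ) * ((Y ^ (5 / 6 : ℝ) : ℝ) : ℂ) := by
        rw [← Complex.ofReal_mul, Real.sqrt_eq_rpow, ← Real.rpow_add hY]
        norm_num
      rw [e3]
      ring
    rw [e2, norm_mul, RCLike.norm_conj, Complex.norm_real, Real.norm_of_nonneg (Real.sqrt_nonneg _)]
    have h3 : ‖E‖ ^ 2 ≤ K * Y ^ (4 / 3 : ℝ) := by
      refine h2.trans ?_
      have e4 : ((0 : ℝ) ^ 2) = 0 := by norm_num
      rw [e4, abs_zero, add_zero, add_zero, one_mul]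
      have h5 : 1 + Y ≤ (b' + 1) * Y := by
        rw [div_le_iff₀ (by linarith)] at hge
        linarith
      have h6 : ((1 + Y) * N) ^ (1 / 3 : ℝ) ≤ (b' + 1) ^ (1 / 3 : ℝ) * Y ^ (1 / 3 : ℝ) *
          (N : ℝ) ^ (1 / 3 : ℝ) := by
        rw [← Real.mul_rpow (by linarith) hY.le, ← Real.mul_rpow (by positivity) hNpos.le]
        gcongr
      have h7 : Y ^ (4 / 3 : ℝ) = Y ^ (1 / 3 : ℝ) * Y := by
        nth_rewrite 3 [← Real.rpow_one Y]
        rw [← Real.rpow_add hY]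
        norm_num
      rw [h7, hK]
      calc C * ((1 + Y) * N) ^ (1 / 3 : ℝ) * (N * Y)
          ≤ |C| * ((b' + 1) ^ (1 / 3 : ℝ) * Y ^ (1 / 3 : ℝ) * (N : ℝ) ^ (1 / 3 : ℝ)) * (N * Y) := by
            gcongr
            exact le_abs_self C
        _ = _ := by ring
    have h8 : (Real.sqrt Y * ‖E‖) ^ 2 ≤ (Real.sqrt K * Y ^ (7 / 6 : ℝ)) ^ 2 := by
      rw [mul_pow, mul_pow, Real.sq_sqrt hY.le, Real.sq_sqrt hK0]
      have h9 : (Y ^ (7 / 6 : ℝ)) ^ 2 = Y * Y ^ (4 / 3 : ℝ) := by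
        rw [← Real.rpow_natCast, ← Real.rpow_mul hY.le]
        nth_rewrite 2 [← Real.rpow_one Y]
        rw [← Real.rpow_add hY]
        norm_num
      rw [h9]
      calc Y * ‖E‖ ^ 2 ≤ Y * (K * Y ^ (4 / 3 : ℝ)) := by gcongr
        _ = _ := by ring
    have h10 : Real.sqrt Y * ‖E‖ ≤ Real.sqrt K * Y ^ (7 / 6 : ℝ) :=
      (pow_le_pow_iff_left₀ (by positivity) (by positivity) two_ne_zero).mp h8
    refine h10.trans ?_
    gcongr
    linarith [norm_nonneg M]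

end Crest.Agent.R017.F1
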