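import Crest.Agent.R017.F1Pol3_180

/-!
# Row 17, section F (helper180): identification of the polar coefficient, part 4
-/

set_option autoImplicit false

noncomputable section

open MeasureTheory Complex Set Filter Topology

namespace Crest.Agent.R017.F1

open Crest.Agent.R012 Crest.Agent.R012.Eis Crest.Agent.R012.Sym645
open Crest.Agent.R017.Xi590 Crest.Agent.R017.Xn590
open scoped ComplexConjugate ContDiff

lemma summable_nm_32' : Summable fun e : Eis => (nm e : ℝ) ^ (-(3 / 2) : ℝ) :=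
  LatSum413.summable_nm_rpow (by norm_num)

lemma summable_prim_2 : open Classical in
    Summable fun m : Eis => (if IsPrim m then 1 / (nm m : ℝ) ^ 2 else 0) := by
  classical
  refine Summable.of_nonneg_of_le (fun e => by split_ifs <;> positivity) (fun e => ?_)
    summable_inv_nm_sq
  split_ifs
  · rw [one_div]
  · positivity

/-- the sum over `e` of the main formula. -/
lemma Cg_dl_asym {ρ : Eis → ℂ} (hMS : M49.MS ρ) {V : ℝ → ℂ} (hV : M49.Wt V) (u : Eis) :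
    ∃ C : ℝ, 0 ≤ C ∧ ∀ t : ℝ, 1 ≤ t →
      ‖Cg u (fL (dl ((t ^ 3 : ℝ) : ℂ) (rV V))) -
        (M49.zeta2 : ℂ) * conj (ρ u) * mellin V ((4 / 3 : ℝ) : ℂ) * ((t ^ 8 : ℝ) : ℂ)‖ ≤
        C * t ^ 7 := by
  classical
  obtain ⟨C, hC0, hC⟩ := AV_bd hMS hV u
  set M : ℂ := conj (ρ u) * mellin V ((4 / 3 : ℝ) : ℂ) with hM
  set S : ℝ := ∑' e : Eis, (nm e : ℝ) ^ (-(3 / 2) : ℝ) with hS
  have hS0 : 0 ≤ S := tsum_nonneg fun e => Real.rpow_nonneg (Nat.cast_nonneg _) _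
  refine ⟨C * S, by positivity, fun t ht => ?_⟩
  have ht0 : 0 < t := by linarith
  have hw : (((t ^ 3 : ℝ)) : ℂ) ≠ 0 := by
    have : t ^ 3 ≠ 0 := by positivity
    exact_mod_cast this
  rw [Cg_fL ((ev_rV hV).dl hw)]
  have e1 : ∀ e : Eis, (if IsPrim e then ((nm e : ℂ) ^ 2) *
      Cg u (fun x => dl ((t ^ 3 : ℝ) : ℂ) (rV V) (toC e ^ 3 * x)) else 0) =
      if IsPrim e then ((nm e : ℂ) ^ 2) * AV V u (t ^ 6 / (nm e : ℝ) ^ 3) else 0 := by
    intro e
    by_cases he : IsPrim e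
    · rw [if_pos he, if_pos he]
      congr 1
      unfold AV dl rV
      congr 1
      funext x
      congr 1
      have hN : (0 : ℝ) < nm e := by exact_mod_cast nm_pos.mpr he.ne_zero
      rw [norm_div, norm_mul, norm_pow, Complex.norm_real, Real.norm_of_nonneg (by positivity),
        div_pow, mul_pow]
      have h2 : (‖toC e‖ ^ 3) ^ 2 = (nm e : ℝ) ^ 3 := by rw [← norm_toC_sq]; ring
      rw [h2]
      field_simp
    · rw [if_neg he, if_neg he]
  rw [tsum_congr e1]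
  have e2 : (M49.zeta2 : ℂ) * conj (ρ u) * mellin V ((4 / 3 : ℝ) : ℂ) * ((t ^ 8 : ℝ) : ℂ) =
      ∑' e : Eis, M * ((t ^ 8 : ℝ) : ℂ) * (((if IsPrim e then 1 / (nm e : ℝ) ^ 2 else 0) : ℝ) : ℂ) := by
    rw [tsum_mul_left, ← Complex.ofReal_tsum]
    unfold M49.zeta2
    rw [hM]
    ring
  have hterm : ∀ e : Eis, ‖(if IsPrim e then ((nm e : ℂ) ^ 2) * AV V u (t ^ 6 / (nm e : ℝ) ^ 3)
      else 0) - M * ((t ^ 8 : ℝ) : ℂ) * (((if IsPrim e then 1 / (nm e : ℝ) ^ 2 else 0) : ℝ) : ℂ)‖ ≤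
      C * t ^ 7 * (nm e : ℝ) ^ (-(3 / 2) : ℝ) := by
    intro e
    by_cases he : IsPrim e
    · rw [if_pos he, if_pos he]
      have hN : (0 : ℝ) < nm e := by exact_mod_cast nm_pos.mpr he.ne_zero
      set Y : ℝ := t ^ 6 / (nm e : ℝ) ^ 3 with hY
      have hYp : 0 < Y := by positivity
      have h43 : Y ^ (4 / 3 : ℝ) = t ^ 8 / (nm e : ℝ) ^ 4 := by
        rw [hY, Real.div_rpow (by positivity) (by positivity)]
        congr 1
        · rw [← Real.rpow_natCast, ← Real.rpow_natCast, ← Real.rpow_mul ht0.le]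
          norm_num
        · rw [← Real.rpow_natCast, ← Real.rpow_natCast, ← Real.rpow_mul hN.le]
          norm_num
      have h76 : Y ^ (7 / 6 : ℝ) = t ^ 7 * (nm e : ℝ) ^ (-(7 / 2) : ℝ) := by
        rw [hY, Real.div_rpow (by positivity) (by positivity), Real.rpow_neg hN.le,
          ← div_eq_mul_inv]
        congr 1
        · rw [← Real.rpow_natCast, ← Real.rpow_natCast, ← Real.rpow_mul ht0.le]
          norm_num
        · rw [← Real.rpow_natCast, ← Real.rpow_mul hN.le]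
          norm_num
      have h2 := hC Y hYp
      have e3 : ((nm e : ℂ) ^ 2) * AV V u Y - M * ((t ^ 8 : ℝ) : ℂ) *
          (((1 / (nm e : ℝ) ^ 2 : ℝ)) : ℂ) =
          ((nm e : ℂ) ^ 2) * (AV V u Y - M * ((Y ^ (4 / 3 : ℝ) : ℝ) : ℂ)) := by
        rw [h43]
        have hNc : (nm e : ℂ) ≠ 0 := by exact_mod_cast (by exact_mod_cast hN.ne' : nm e ≠ 0)
        push_cast
        field_simp
      rw [e3, norm_mul, norm_pow, Complex.norm_natCast]
      calc (nm e : ℝ) ^ 2 * ‖AV V u Y - M * ((Y ^ (4 / 3 : ℝ) : ℝ) : ℂ)‖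
          ≤ (nm e : ℝ) ^ 2 * (C * Y ^ (7 / 6 : ℝ)) := by gcongr
        _ = C * t ^ 7 * ((nm e : ℝ) ^ 2 * (nm e : ℝ) ^ (-(7 / 2) : ℝ)) := by rw [h76]; ring
        _ = C * t ^ 7 * (nm e : ℝ) ^ (-(3 / 2) : ℝ) := by
          rw [← Real.rpow_natCast (nm e : ℝ) 2, ← Real.rpow_add hN]
          norm_num
    · rw [if_neg he, if_neg he, Complex.ofReal_zero, mul_zero, sub_zero, norm_zero]
      have : 0 ≤ (nm e : ℝ) ^ (-(3 / 2) : ℝ) := Real.rpow_nonneg (Nat.cast_nonneg _) _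
      positivity
  have hs2 : Summable fun e : Eis => M * ((t ^ 8 : ℝ) : ℂ) *
      (((if IsPrim e then 1 / (nm e : ℝ) ^ 2 else 0) : ℝ) : ℂ) := by
    refine Summable.mul_left _ ?_
    exact (Complex.hasSum_ofReal.mpr summable_prim_2.hasSum).summable
  have hsd := Summable.of_norm_bounded (summable_nm_32'.mul_left (C * t ^ 7)) hterm
  have hs1 : Summable fun e : Eis => (if IsPrim e then ((nm e : ℂ) ^ 2) *
      AV V u (t ^ 6 / (nm e : ℝ) ^ 3) else 0) := by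
    refine (hsd.add hs2).congr fun e => ?_
    ring
  rw [e2, ← hs1.tsum_sub hs2]
  refine (tsum_of_norm_bounded (summable_nm_32'.mul_left (C * t ^ 7)).hasSum hterm).trans
    (le_of_eq ?_)
  rw [tsum_mul_left]
  ring

/-- **The polar coefficient.** -/
theorem polar_eq {ρ : Eis → ℂ} (hMS : M49.MS ρ) {V : ℝ → ℂ} (hV : M49.Wt V) {u : Eis}
    (hu : u ≠ 0) :
    ce2 u * mB (rV V) = (M49.zeta2 : ℂ) * conj (ρ u) * mellin V ((4 / 3 : ℝ) : ℂ) := by
  obtain ⟨C, hC0, hC⟩ := Cg_dl_asym hMS hV u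
  obtain ⟨K, hK0, hK⟩ := Du_le hu
  obtain ⟨W, hW0, hW⟩ := Wf_dec (ev_rV hV).cs 4
  set D : ℂ := ce2 u * mB (rV V) -
    (M49.zeta2 : ℂ) * conj (ρ u) * mellin V ((4 / 3 : ℝ) : ℂ) with hD
  have key : ∀ t : ℝ, 1 ≤ t → ‖D‖ * t ≤ C + K * W := by
    intro t ht
    have ht0 : 0 < t := by linarith
    set w : ℂ := ((t ^ 3 : ℝ) : ℂ) with hw
    have hwn : ‖w‖ = t ^ 3 := by
      rw [hw, Complex.norm_real, Real.norm_of_nonneg (by positivity)]
    have hw0 : w ≠ 0 := by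
      rw [← norm_pos_iff, hwn]; positivity
    have h1 := starF ((ev_rV hV).dl hw0) hu
    have hB : mB (dl w (rV V)) = ((t ^ 8 : ℝ) : ℂ) * mB (rV V) := by
      rw [mB_dl _ hw0]
      have h3 : ‖nrt 3 w‖ ^ 3 = t ^ 3 := by rw [norm_nrt3, hwn]
      have h4 : ‖nrt 3 w‖ = t := (pow_left_inj₀ (norm_nonneg _) ht0.le (by norm_num)).mp h3
      rw [h4]
    have h2 := hK (Wf (dl w (rV V))) W hW0 (fun y hy => by
      rw [Wf_dl _ hw0, norm_mul, Complex.norm_real, Real.norm_of_nonneg (by positivity), hwn]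
      have := hW (y / w) (div_ne_zero hy hw0)
      rw [norm_div, hwn, div_pow] at this
      have ht6 : 1 ≤ t ^ 6 := one_le_pow₀ ht
      calc (t ^ 3) ^ 2 * ‖Wf (rV V) (y / w)‖ ≤ (t ^ 3) ^ 2 * (W * (‖y‖ ^ 4 / (t ^ 3) ^ 4)) := by
            gcongr
        _ = W * ‖y‖ ^ 4 * (1 / t ^ 6) := by field_simp
        _ ≤ W * ‖y‖ ^ 4 * 1 := by
            gcongr
            rw [div_le_one (by positivity)]
            exact ht6
        _ = _ := by ring)
    have h3 := hC t ht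
    rw [← hw] at h3
    rw [h1, hB] at h3
    have e1 : D * ((t ^ 8 : ℝ) : ℂ) = (ce2 u * (((t ^ 8 : ℝ) : ℂ) * mB (rV V)) +
        Du u (Wf (dl w (rV V))) - (M49.zeta2 : ℂ) * conj (ρ u) *
        mellin V ((4 / 3 : ℝ) : ℂ) * ((t ^ 8 : ℝ) : ℂ)) - Du u (Wf (dl w (rV V))) := by
      rw [hD]; ring
    have h4 : ‖D‖ * t ^ 8 ≤ C * t ^ 7 + K * W := by
      have : ‖D * ((t ^ 8 : ℝ) : ℂ)‖ = ‖D‖ * t ^ 8 := by
        rw [norm_mul, Complex.norm_real, Real.norm_of_nonneg (by positivity)]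
      rw [← this, e1]
      exact (norm_sub_le _ _).trans (add_le_add h3 h2)
    have ht7 : 1 ≤ t ^ 7 := one_le_pow₀ ht
    have h5 : ‖D‖ * t * t ^ 7 ≤ (C + K * W) * t ^ 7 := by
      calc ‖D‖ * t * t ^ 7 = ‖D‖ * t ^ 8 := by ring
        _ ≤ C * t ^ 7 + K * W := h4
        _ ≤ C * t ^ 7 + K * W * t ^ 7 := by
            have : 0 ≤ K * W := by positivity
            nlinarith
        _ = _ := by ring
    exact le_of_mul_le_mul_right h5 (by positivity)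
  have hD0 : D = 0 := by
    by_contra hne
    have hp : 0 < ‖D‖ := norm_pos_iff.mpr hne
    have hq : 0 ≤ C + K * W := by positivity
    have h1 := key ((C + K * W) / ‖D‖ + 1) (by
      have : 0 ≤ (C + K * W) / ‖D‖ := by positivity
      linarith)
    rw [mul_add, mul_div_cancel₀ _ hp.ne', mul_one] at h1
    linarith
  rw [hD, sub_eq_zero] at hD0
  exact hD0

/-- `mB` of a radial function. -/
theorem mB_rV {V : ℝ → ℂ} (hV : M49.Wt V) :
    mB (rV V) = ((Xn960.gamN 3 * (Real.pi / 3) : ℝ) : ℂ) * mellin V ((4 / 3 : ℝ) : ℂ) := by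
  have h1 := Xn960.tate_pow 3 (by norm_num) (ev_rV hV).cs
  have h2 : mB (rV V) = ∫ m : ℂ, Xi590.Phi (rV V) (m ^ 3) := rfl
  rw [← h2] at h1
  rw [h1]
  have e1 : ∫ t : ℂ, ((‖t‖ ^ (2 * 3) : ℝ) : ℂ) * rV V (t ^ 3) =
      ∫ t : ℂ, (fun s : ℝ => ((s ^ 3 : ℝ) : ℂ) * V (s ^ 3)) (‖t‖ ^ 2) := by
    congr 1
    ext t
    unfold rV
    simp only
    rw [norm_pow, ← pow_mul, ← pow_mul]
  have e1' := Schw922.integral_radial (fun s : ℝ => ((s ^ 3 : ℝ) : ℂ) * V (s ^ 3))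
  rw [e1, e1']
  have h3 := integral_comp_rpow_Ioi_of_pos (g := fun y : ℝ => ((y ^ (1 / 3 : ℝ) : ℝ) : ℂ) * V y)
    (p := 3) (by norm_num)
  have h4 : ∫ x in Ioi (0 : ℝ), ((3 : ℝ) * x ^ ((3 : ℝ) - 1)) •
      ((((x ^ (3 : ℝ)) ^ (1 / 3 : ℝ) : ℝ) : ℂ) * V (x ^ (3 : ℝ))) =
      3 * ∫ x in Ioi (0 : ℝ), ((x ^ 3 : ℝ) : ℂ) * V (x ^ 3) := by
    rw [← integral_const_mul]
    refine setIntegral_congr_fun measurableSet_Ioi (fun x hx => ?_)
    have hx0 : (0 : ℝ) < x := hx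
    rw [← Real.rpow_mul hx0.le, show (3 : ℝ) * (1 / 3) = 1 by norm_num, Real.rpow_one,
      show (3 : ℝ) - 1 = ((2 : ℕ) : ℝ) by norm_num, Real.rpow_natCast,
      show (3 : ℝ) = ((3 : ℕ) : ℝ) by norm_num, Real.rpow_natCast, Complex.real_smul]
    push_cast
    ring
  rw [h4] at h3
  have h5 : mellin V ((4 / 3 : ℝ) : ℂ) =
      ∫ y in Ioi (0 : ℝ), ((y ^ (1 / 3 : ℝ) : ℝ) : ℂ) * V y := by
    unfold mellin
    refine setIntegral_congr_fun measurableSet_Ioi fun t ht => ?_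
    have ht0 : (0 : ℝ) < t := ht
    have e2 : ((t : ℂ)) ^ (((4 / 3 : ℝ) : ℂ) - 1) = ((t ^ (1 / 3 : ℝ) : ℝ) : ℂ) := by
      rw [show (1 / 3 : ℝ) = (4 / 3 : ℝ) - 1 by norm_num, Complex.ofReal_cpow ht0.le]
      push_cast; rfl
    simp only [smul_eq_mul]
    rw [e2]
  rw [h5, ← h3]
  push_cast
  ring

/-- `k_P = 3 ζ₂ / (π γ₃)`. -/
def kP : ℝ := 3 * M49.zeta2 / (Real.pi * Xn960.gamN 3)

lemma zeta2_pos : 0 < M49.zeta2 := by
  classical
  unfold M49.zeta2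
  refine summable_prim_2.tsum_pos (fun i => by split_ifs <;> positivity) (1 : Eis) ?_
  rw [if_pos isPrim_one, nm_one]
  norm_num

lemma kP_pos : 0 < kP := by
  have h1 := zeta2_pos
  have h2 := Xn960.gamN_pos 3 (by norm_num)
  have h3 := Real.pi_pos
  unfold kP
  positivity

/-- the weight `bmp` -/
def bV (t : ℝ) : ℂ := ((bmp t : ℝ) : ℂ)

lemma wt_bV : M49.Wt bV where
  smooth := Complex.ofRealCLM.contDiff.comp bmp.contDiff
  supp := ⟨1, 4, one_pos, by norm_num, fun x hx => by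
    unfold bV
    rw [bmp_zero, Complex.ofReal_zero]
    rcases hx with hx | hx
    · left; linarith
    · right; linarith⟩

/-- **`ce2 u = k_P conj (ρ u)`**. -/
theorem ce2_eq {ρ : Eis → ℂ} (hMS : M49.MS ρ) {u : Eis} (hu : u ≠ 0) :
    ce2 u = (kP : ℂ) * conj (ρ u) := by
  have h1 := polar_eq hMS wt_bV hu
  have h2 := mB_rV wt_bV
  have h3 : mB (rV bV) = cB := mB_bf'
  have hm : mellin bV ((4 / 3 : ℝ) : ℂ) ≠ 0 := by
    intro h
    rw [h, mul_zero, h3] at h2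
    have := cB_pos
    have h4 : (cB : ℂ) ≠ 0 := by exact_mod_cast this.ne'
    exact h4 h2
  rw [h2, mul_left_comm, mul_comm _ (mellin bV _)] at h1
  have hg := Xn960.gamN_pos 3 (by norm_num)
  have hp := Real.pi_pos
  have hne : ((Xn960.gamN 3 * (Real.pi / 3) : ℝ) : ℂ) ≠ 0 := by
    have : Xn960.gamN 3 * (Real.pi / 3) ≠ 0 := by positivity
    exact_mod_cast this
  have h5 : ((Xn960.gamN 3 * (Real.pi / 3) : ℝ) : ℂ) * ce2 u = (M49.zeta2 : ℂ) * conj (ρ u) := by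
    refine mul_right_cancel₀ hm ?_
    rw [← h1]; ring
  have h6 : ((Xn960.gamN 3 * (Real.pi / 3) : ℝ) : ℂ) * (kP : ℂ) = (M49.zeta2 : ℂ) := by
    rw [← Complex.ofReal_mul]
    congr 1
    unfold kP
    field_simp
  refine mul_left_cancel₀ hne ?_
  rw [h5, ← mul_assoc, h6]

/-- **F1, final form** : the functional equation with the residue function `ρ` of R012. -/
theorem starR {ρ : Eis → ℂ} (hMS : M49.MS ρ) {f : ℂ → ℂ} (hf : Ev f) {u : Eis} (hu : u ≠ 0) :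
    Cg u (fL f) = (kP : ℂ) * conj (ρ u) * mB f + Du u (Wf f) := by
  rw [starF hf hu, ce2_eq hMS hu]

end Crest.Agent.R017.F1
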