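import Crest.Agent.R017.F1Defs_180
import Crest.Agent.R012.SymK_645
import Crest.Agent.R012.GramN_858
import Crest.Agent.R012.Cusp_852

/-!
# Row 17, section F, part 1 (helper180): the `Γ₂`-rows and the coefficients `a2`
-/

set_option autoImplicit false

noncomputable section

open MeasureTheory Complex Set

namespace Crest.Agent.R017.F1

open Crest.Agent.R012 Crest.Agent.R012.Eis Crest.Agent.R012.Sym645
open Crest.Agent.R012.K695 (SyAPI Gam ga gb gc gd kub rmul rowv act det2 n2 Vec EC allEquiv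
  mkGam ga_prim gb_dvd gc_dvd gd_prim det_eq kub_mul_conj sy_rmul IsRow)

/-- `z ∈ ℤ + 3 ℤ[ω]`. -/
def inL (z : Eis) : Prop := (3 : ℤ) ∣ z.im

lemma inL_add {x y : Eis} (hx : inL x) (hy : inL y) : inL (x + y) := by
  unfold inL at *; simpa using dvd_add hx hy

lemma inL_neg {x : Eis} : inL (-x) ↔ inL x := by
  unfold inL; simp

lemma inL_prim {x : Eis} (hx : IsPrim x) : inL x := (R012.isPrim_iff.mp hx).2

lemma inL_three {x : Eis} (hx : (3 : Eis) ∣ x) : inL x := (Eis.three_dvd_iff.mp hx).2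

lemma not_prim_neg {x : Eis} (hx : IsPrim x) : ¬ IsPrim (-x) := by
  intro h
  have h1 := (R012.isPrim_iff.mp hx).1
  have h2 := (R012.isPrim_iff.mp h).1
  simp at h2
  omega

lemma not_three_prim {x : Eis} (hx : IsPrim x) : ¬ (3 : Eis) ∣ x := by
  intro h
  have h1 := (R012.isPrim_iff.mp hx).1
  have h2 := (Eis.three_dvd_iff.mp h).1
  omega

/-- an element of `L` is `≡ 0`, primary, or minus primary. -/
lemma inL_cases {x : Eis} (hx : inL x) : (3 : Eis) ∣ x ∨ IsPrim x ∨ IsPrim (-x) := by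
  unfold inL at hx
  rw [Eis.three_dvd_iff, R012.isPrim_iff, R012.isPrim_iff]
  simp only [QuadraticAlgebra.re_neg, QuadraticAlgebra.im_neg, dvd_neg]
  omega

/-! ### Translation by `1` -/

lemma sy_w_add {d q : Eis} (hd : IsPrim d) (hd' : IsPrim (d + 3 * q)) :
    sy w (d + 3 * q) = sy w d * wC ^ (-(q.re + q.im)) := by
  rw [sy_w_prim hd, sy_w_prim hd', ← zpow_add₀ wC_ne_zero]
  congr 1
  have h1 := R012.isPrim_iff.mp hd
  simp
  omega

lemma sy_lam_add {d q : Eis} (hd : IsPrim d) (hd' : IsPrim (d + 3 * q)) :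
    sy lam (d + 3 * q) = sy lam d * wC ^ q.re := by
  rw [sy_lam hd, sy_lam hd', ← zpow_add₀ wC_ne_zero]
  congr 1
  have h1 := R012.isPrim_iff.mp hd
  simp
  omega

/-- the numerical congruence behind `κ(n(1)) = 1`. -/
lemma expo_key {k i : ℕ} (hi : i < 3) {u m q : Eis} (hu : u = w ^ i ∨ u = -w ^ i)
    (hm : IsPrim m) (hc : lam ^ k * (u * m) = 3 * q) :
    (3 : ℤ) ∣ (k : ℤ) * q.re - (i : ℤ) * (q.re + q.im) := by
  have hul : ¬ lam ∣ u * m := by
    intro h
    have hun : IsUnit u := by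
      rcases hu with rfl | rfl
      · exact isUnit_w.pow i
      · exact (isUnit_w.pow i).neg
    have h2 : lam ∣ m := (hun.dvd_mul_left).mp h
    exact hm.not_lam_dvd h2
  -- `2 ≤ k`
  have hk : 2 ≤ k := by
    by_contra hlt
    have h1 : lam ^ 2 ∣ lam ^ k * (u * m) := by
      rw [hc]; exact lam_sq_dvd_three.mul_right _
    have hk1 : k ≤ 1 := by omega
    have h2 : lam ^ 2 = lam ^ k * lam ^ (2 - k) := by rw [← pow_add]; congr 1; omega
    rw [h2] at h1
    have h3 : lam ^ (2 - k) ∣ u * m :=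
      (mul_dvd_mul_iff_left (pow_ne_zero k lam_ne_zero)).mp h1
    have h4 : lam ∣ lam ^ (2 - k) := dvd_pow_self _ (by omega)
    exact hul (h4.trans h3)
  obtain ⟨k', rfl⟩ : ∃ k', k = k' + 2 := ⟨k - 2, by omega⟩
  have hq : q = -w * (lam ^ k' * (u * m)) := by
    have h3 : (3 : Eis) * q = 3 * (-w * (lam ^ k' * (u * m))) := by
      rw [← hc, pow_add, lam_sq]; ring
    exact mul_left_cancel₀ three_ne_zero' h3
  obtain ⟨t, ht⟩ := hm
  have hm1 : m = 1 + 3 * t := by linear_combination ht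
  have e2 : w ^ 2 = (⟨-1, -1⟩ : Eis) := by
    rw [w_sq]; apply ext' <;> simp
  -- reduce to `q0 = -w lam^k' u`
  have hq0 : q = -w * lam ^ k' * u + 3 * (-w * lam ^ k' * u * t) := by
    rw [hq, hm1]; ring
  set q0 := -w * lam ^ k' * u with hq0d
  have hr : q.re = q0.re + 3 * (q0 * t).re := by rw [hq0]; simp
  have him : q.im = q0.im + 3 * (q0 * t).im := by rw [hq0]; simp
  have key : (3 : ℤ) ∣ ((k' + 2 : ℕ) : ℤ) * q0.re - (i : ℤ) * (q0.re + q0.im) := by
    rcases Nat.lt_or_ge k' 2 with h2 | h2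
    · interval_cases k' <;> interval_cases i <;> rcases hu with rfl | rfl <;>
        simp [hq0d, e2, lam]
    · obtain ⟨j, rfl⟩ : ∃ j, k' = j + 2 := ⟨k' - 2, by omega⟩
      have h3 : (3 : Eis) ∣ q0 := by
        rw [hq0d, pow_add]
        exact Dvd.dvd.mul_right (Dvd.dvd.mul_left (three_dvd_lam_sq.mul_left _) _) _
      obtain ⟨h4, h5⟩ := Eis.three_dvd_iff.mp h3
      exact dvd_sub (h4.mul_left _) ((dvd_add h4 h5).mul_left _)
  rw [hr, him]
  obtain ⟨s, hs⟩ := key
  refine ⟨s + ((k' + 2 : ℕ) : ℤ) * (q0 * t).re - (i : ℤ) * ((q0 * t).re + (q0 * t).im), ?_⟩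
  linear_combination hs

/-- `(c/(d+c)) = (c/d)` for `3 ∣ c`. -/
theorem sy_add_self {c d : Eis} (hc : (3 : Eis) ∣ c) (hd : IsPrim d) :
    sy c (d + c) = sy c d := by
  have hd' : IsPrim (d + c) := CharSum852.isPrim_add hd hc
  by_cases hc0 : c = 0
  · simp [hc0]
  obtain ⟨k, u, m, hu, hm, hcd⟩ := CharSum852.exists_decomp hc0
  obtain ⟨i, hi, hui⟩ := isUnit_exists hu
  obtain ⟨q, hq⟩ := hc
  have h3 := prim_nm_mod hd
  have h3' := prim_nm_mod hd'
  have hmc : m ∣ c := by rw [hcd]; exact (dvd_mul_left _ _).mul_left _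
  have e1 : sy m (d + c) = sy m d := by
    rw [sy_reciprocity hm hd', sy_reciprocity hm hd]
    exact sy_congr (prim_nm_mod hm) (by simpa using hmc)
  have e2 : sy u (d + c) = sy u d * (wC ^ (-(q.re + q.im))) ^ i := by
    rw [sy_unit_left h3' i hui, sy_unit_left h3 i hui]
    have := sy_w_add (q := q) hd (by rw [← hq]; exact hd')
    rw [← hq] at this
    rw [this, mul_pow]
  have e3 : sy lam (d + c) = sy lam d * wC ^ q.re := by
    have := sy_lam_add (q := q) hd (by rw [← hq]; exact hd')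
    rwa [← hq] at this
  have hk := expo_key hi hui hm (by rw [← hcd, hq])
  have e4 : (wC ^ q.re) ^ k * (wC ^ (-(q.re + q.im))) ^ i = 1 := by
    rw [← zpow_natCast, ← zpow_natCast, ← zpow_mul, ← zpow_mul, ← zpow_add₀ wC_ne_zero]
    have := wC_zpow_mod (q.re * (k : ℤ) + -(q.re + q.im) * (i : ℤ)) 0 (by
      have h9 : q.re * (k : ℤ) + -(q.re + q.im) * (i : ℤ) - 0 =
        (k : ℤ) * q.re - (i : ℤ) * (q.re + q.im) := by ring
      rw [h9]; exact hk)
    rw [this, zpow_zero]
  have e5 : sy c (d + c) = sy lam (d + c) ^ k * (sy u (d + c) * sy m (d + c)) := by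
    have h : sy c (d + c) = sy (lam ^ k * (u * m)) (d + c) :=
      congrArg (fun z => sy z (d + c)) hcd
    rw [h, sy_mul_left h3', sy_pow_left h3', sy_mul_left h3']
  have e6 : sy c d = sy lam d ^ k * (sy u d * sy m d) := by
    have h : sy c d = sy (lam ^ k * (u * m)) d := congrArg (fun z => sy z d) hcd
    rw [h, sy_mul_left h3, sy_pow_left h3, sy_mul_left h3]
  rw [e5, e6, e1, e2, e3, mul_pow]
  linear_combination (sy lam d ^ k * (sy u d * sy m d)) * e4

/-! ### The coefficients -/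

open Classical in
/-- Coefficients of the `Γ₂`-series: rows `(c, d)`, both coordinates in `L = ℤ + 3 ℤ[ω]`,
up to sign. -/
def a2 (r : Eis × Eis) : ℂ :=
  if IsCoprime r.1 r.2 then
    (if (3 : Eis) ∣ r.1 then (if IsPrim r.2 then (starRingEnd ℂ) (sy r.1 r.2) else 0)
    else (if IsPrim r.1 ∧ inL r.2 then (starRingEnd ℂ) (sy r.2 r.1) else 0)) else 0

lemma a2_row {r : Eis × Eis} (h : IsRow r) : a2 r = (starRingEnd ℂ) (sy r.1 r.2) := by
  classical
  unfold a2
  rw [if_pos h.1, if_pos h.2.1, if_pos h.2.2]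

lemma a2_two {r : Eis × Eis} (h : IsPrim r.1) (h2 : inL r.2) :
    a2 r = (starRingEnd ℂ) (sy r.2 r.1) := by
  classical
  unfold a2
  by_cases hc : IsCoprime r.1 r.2
  · rw [if_pos hc, if_neg (not_three_prim h), if_pos ⟨h, h2⟩]
  · rw [if_neg hc, (sy_eq_zero_iff (prim_nm_mod h)).mpr (fun h' => hc h'.symm), map_zero]

lemma a2_three {c d : Eis} (h : (3 : Eis) ∣ c) (h2 : IsPrim d) :
    a2 (c, d) = (starRingEnd ℂ) (sy c d) := by
  classical
  by_cases hc : IsCoprime c d
  · exact a2_row ⟨hc, h, h2⟩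
  · unfold a2
    rw [if_neg hc, (sy_eq_zero_iff (prim_nm_mod h2)).mpr hc, map_zero]

lemma a2_zero {r : Eis × Eis} (h1 : ¬ ((3 : Eis) ∣ r.1 ∧ IsPrim r.2))
    (h2 : ¬ (IsPrim r.1 ∧ inL r.2)) : a2 r = 0 := by
  classical
  unfold a2
  by_cases h3 : IsCoprime r.1 r.2
  · rw [if_pos h3]
    by_cases h4 : (3 : Eis) ∣ r.1
    · rw [if_pos h4, if_neg (fun h5 => h1 ⟨h4, h5⟩)]
    · rw [if_neg h4, if_neg h2]
  · rw [if_neg h3]

lemma norm_a2_le (r : Eis × Eis) : ‖a2 r‖ ≤ 1 := by
  classical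
  unfold a2
  split_ifs with h3 h4 h5 h6
  · rw [RCLike.norm_conj, norm_sy_of_isCoprime (prim_nm_mod h5) h3]
  · simp
  · rw [RCLike.norm_conj, norm_sy_of_isCoprime (prim_nm_mod h6.1) h3.symm]
  · simp
  · simp

/-! ### Equivariance -/

/-- `(b/a) = (c/d)` on `Γ(3)`. -/
lemma kubS (g : Gam) : sy (gb g) (ga g) = kub g := by
  have h1 : kub g * kub g⁻¹ = 1 := by
    rw [← K695.kub_mul syAPI, mul_inv_cancel, K695.kub_one syAPI]
  have h2 : kub g⁻¹ = sy (gc g) (ga g) := by
    unfold kub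
    rw [K695.gc_inv, K695.gd_inv, sy_neg (prim_nm_mod (ga_prim g))]
  have h3 : sy (gb g) (ga g) * sy (gc g) (ga g) = 1 := by
    rw [← sy_mul_left (prim_nm_mod (ga_prim g))]
    rw [syAPI.congr (gb g * gc g) (-1) (ga g) (ga_prim g) ⟨gd g, by
      linear_combination (-1 : Eis) * det_eq g⟩]
    exact syAPI.neg_one _ (ga_prim g)
  rw [h2] at h1
  have h4 : sy (gc g) (ga g) ≠ 0 := right_ne_zero_of_mul_eq_one h1
  exact mul_right_cancel₀ h4 (h3.trans h1.symm)

/-- `S g S⁻¹`. -/
def cjS (g : Gam) : Gam :=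
  mkGam (gd g) (-gc g) (-gb g) (ga g) (by linear_combination det_eq g) (gd_prim g)
    ((dvd_neg).mpr (gc_dvd g)) ((dvd_neg).mpr (gb_dvd g)) (ga_prim g)

/-- `T g T⁻¹`. -/
def cjT (g : Gam) : Gam :=
  mkGam (ga g + gc g) (gb g + gd g - ga g - gc g) (gc g) (gd g - gc g)
    (by linear_combination det_eq g) (CharSum852.isPrim_add (ga_prim g) (gc_dvd g))
    (by
      have h1 := ga_prim g
      have h2 := gd_prim g
      unfold IsPrim at h1 h2
      have : gb g + gd g - ga g - gc g = gb g + ((gd g - 1) - (ga g - 1)) - gc g := by ring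
      rw [this]
      exact dvd_sub (dvd_add (gb_dvd g) (dvd_sub h2 h1)) (gc_dvd g))
    (gc_dvd g) (by
      have := CharSum852.isPrim_add (gd_prim g) ((dvd_neg).mpr (gc_dvd g))
      rwa [← sub_eq_add_neg] at this)

lemma kub_cjS (g : Gam) : kub (cjS g) = kub g := by
  rw [← kubS g]
  unfold kub cjS
  rw [K695.gc_mk, K695.gd_mk, sy_neg (prim_nm_mod (ga_prim g))]

lemma kub_cjT (g : Gam) : kub (cjT g) = kub g := by
  unfold kub cjT
  rw [K695.gc_mk, K695.gd_mk]
  have h : IsPrim (gd g - gc g) := by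
    have := CharSum852.isPrim_add (gd_prim g) ((dvd_neg).mpr (gc_dvd g))
    rwa [← sub_eq_add_neg] at this
  have := sy_add_self (gc_dvd g) h
  rw [sub_add_cancel] at this
  exact this.symm

lemma rmul_fst_sub (r : Eis × Eis) (g : Gam) : (3 : Eis) ∣ (rmul r g).1 - r.1 := by
  have h := ga_prim g
  unfold IsPrim at h
  have : (rmul r g).1 - r.1 = r.1 * (ga g - 1) + r.2 * gc g := by
    simp only [rmul]; ring
  rw [this]
  exact dvd_add (h.mul_left _) ((gc_dvd g).mul_left _)

lemma rmul_snd_sub (r : Eis × Eis) (g : Gam) : (3 : Eis) ∣ (rmul r g).2 - r.2 := by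
  have h := gd_prim g
  unfold IsPrim at h
  have : (rmul r g).2 - r.2 = r.2 * (gd g - 1) + r.1 * gb g := by
    simp only [rmul]; ring
  rw [this]
  exact dvd_add (h.mul_left _) ((gb_dvd g).mul_left _)

lemma three_dvd_congr {x y : Eis} (h : (3 : Eis) ∣ x - y) : (3 : Eis) ∣ x ↔ (3 : Eis) ∣ y := by
  constructor
  · intro h1; have := dvd_sub h1 h; simpa using this
  · intro h1; have := dvd_add h h1; simpa using this

lemma prim_congr {x y : Eis} (h : (3 : Eis) ∣ x - y) : IsPrim x ↔ IsPrim y := by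
  unfold IsPrim
  constructor
  · intro h1
    have := dvd_sub h1 h
    have e : x - 1 - (x - y) = y - 1 := by ring
    rwa [e] at this
  · intro h1
    have := dvd_add h h1
    have e : x - y + (y - 1) = x - 1 := by ring
    rwa [e] at this

lemma inL_congr {x y : Eis} (h : (3 : Eis) ∣ x - y) : inL x ↔ inL y := by
  have h1 := (Eis.three_dvd_iff.mp h).2
  unfold inL
  simp only [QuadraticAlgebra.im_sub] at h1
  omega

/-- the law for rows with primary first coordinate. -/
lemma sy_two_base {c d : Eis} (hc : IsPrim c) (hd : (3 : Eis) ∣ d) (hcop : IsCoprime c d)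
    (g : Gam) : sy (rmul (c, d) g).2 (rmul (c, d) g).1 = kub g * sy d c := by
  have hrow : IsRow (-d, c) := ⟨hcop.symm.neg_left, (dvd_neg).mpr hd, hc⟩
  have h1 := sy_rmul syAPI hrow (cjS g)
  have e1 : (rmul (-d, c) (cjS g)).1 = -(rmul (c, d) g).2 := by
    simp only [rmul, cjS, K695.ga_mk, K695.gc_mk]; ring
  have e2 : (rmul (-d, c) (cjS g)).2 = (rmul (c, d) g).1 := by
    simp only [rmul, cjS, K695.gb_mk, K695.gd_mk]; ring
  have hp : IsPrim (rmul (c, d) g).1 := (prim_congr (rmul_fst_sub (c, d) g)).mpr hc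
  rw [e1, e2, kub_cjS, sy_neg (prim_nm_mod hp)] at h1
  simp only at h1
  rw [h1, sy_neg (prim_nm_mod hc)]
  ring

lemma sy_two_step {c d : Eis} (hc : IsPrim c)
    (h : ∀ g : Gam, sy (rmul (c, d) g).2 (rmul (c, d) g).1 = kub g * sy d c) (g : Gam) :
    sy (rmul (c, d + c) g).2 (rmul (c, d + c) g).1 = kub g * sy (d + c) c := by
  have h1 := h (cjT g)
  have e1 : (rmul (c, d) (cjT g)).1 = (rmul (c, d + c) g).1 := by
    simp only [rmul, cjT, K695.ga_mk, K695.gc_mk]; ring
  have e2 : (rmul (c, d) (cjT g)).2 = (rmul (c, d + c) g).2 - (rmul (c, d + c) g).1 := by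
    simp only [rmul, cjT, K695.gb_mk, K695.gd_mk]; ring
  have hp : IsPrim (rmul (c, d + c) g).1 := (prim_congr (rmul_fst_sub (c, d + c) g)).mpr hc
  rw [e1, e2, kub_cjT] at h1
  have h2 : sy ((rmul (c, d + c) g).2 - (rmul (c, d + c) g).1) (rmul (c, d + c) g).1 =
      sy (rmul (c, d + c) g).2 (rmul (c, d + c) g).1 :=
    sy_congr (prim_nm_mod hp) ⟨-1, by ring⟩
  have h3 : sy (d + c) c = sy d c := sy_congr (prim_nm_mod hc) ⟨1, by ring⟩
  rw [h2] at h1
  rw [h1, h3]

lemma sy_two {c d : Eis} (hc : IsPrim c) (hd : inL d) (hcop : IsCoprime c d) (g : Gam) :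
    sy (rmul (c, d) g).2 (rmul (c, d) g).1 = kub g * sy d c := by
  have hcop' : ∀ t : Eis, IsCoprime c (d + c * t) := fun t =>
    (Cusp852.isCoprime_add_mul).mpr hcop
  have hc1 := R012.isPrim_iff.mp hc
  rcases inL_cases hd with h | h | h
  · exact sy_two_base hc h hcop g
  · have h0 : (3 : Eis) ∣ d - c := by
      have := dvd_sub h hc
      have e : d - 1 - (c - 1) = d - c := by ring
      rwa [e] at this
    have hb := sy_two_base hc h0 (by simpa [sub_eq_add_neg] using hcop' (-1))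
    have := sy_two_step hc hb g
    rwa [sub_add_cancel] at this
  · have h0 : (3 : Eis) ∣ d + c := by
      have := dvd_sub hc h
      have e : c - 1 - (-d - 1) = d + c := by ring
      rwa [e] at this
    -- `d = (d + c - 3c) + c + c`
    have h1 : (3 : Eis) ∣ d - c - c := by
      have := dvd_sub h0 (Dvd.intro c rfl : (3 : Eis) ∣ 3 * c)
      have e : d + c - 3 * c = d - c - c := by ring
      rwa [e] at this
    have hb := sy_two_base hc h1 (by
      have := hcop' (-2)
      have e : d + c * -2 = d - c - c := by ring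
      rwa [e] at this)
    have h2 := sy_two_step hc hb
    rw [sub_add_cancel] at h2
    have := sy_two_step hc h2 g
    rwa [sub_add_cancel] at this

lemma isCoprime_rmul {r : Eis × Eis} (g : Gam) :
    IsCoprime (rmul r g).1 (rmul r g).2 ↔ IsCoprime r.1 r.2 := by
  have key : ∀ (r : Eis × Eis) (g : Gam), IsCoprime r.1 r.2 →
      IsCoprime (rmul r g).1 (rmul r g).2 := by
    rintro r g ⟨p, q, hpq⟩
    refine ⟨p * gd g - q * gb g, q * ga g - p * gc g, ?_⟩
    simp only [rmul]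
    linear_combination (p * r.1 + q * r.2) * det_eq g + hpq
  refine ⟨fun h => ?_, key r g⟩
  have := key (rmul r g) g⁻¹ h
  rwa [← K695.rmul_mul, mul_inv_cancel, K695.rmul_one] at this

/-- **equivariance of the coefficients**. -/
theorem a2_rmul (g : Gam) (r : Eis × Eis) :
    a2 (rmul r g) = (starRingEnd ℂ) (kub g) * a2 r := by
  classical
  have h1 := rmul_fst_sub r g
  have h2 := rmul_snd_sub r g
  by_cases hcop : IsCoprime r.1 r.2
  swap
  · unfold a2
    rw [if_neg (fun h => hcop ((isCoprime_rmul g).mp h)), if_neg hcop, mul_zero]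
  by_cases ht1 : (3 : Eis) ∣ r.1 ∧ IsPrim r.2
  · have hr : IsRow r := ⟨hcop, ht1.1, ht1.2⟩
    rw [a2_row hr, a2_row (K695.isRow_rmul hr g), sy_rmul syAPI hr, map_mul]
    ring
  by_cases ht2 : IsPrim r.1 ∧ inL r.2
  · rw [a2_two ht2.1 ht2.2, a2_two ((prim_congr h1).mpr ht2.1) ((inL_congr h2).mpr ht2.2)]
    have := sy_two ht2.1 ht2.2 hcop g
    rw [this, map_mul]
  · rw [a2_zero ht1 ht2, a2_zero, mul_zero]
    · rw [three_dvd_congr h1, prim_congr h2]; exact ht1
    · rw [prim_congr h1, inL_congr h2]; exact ht2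

lemma a2_T (c d : Eis) : a2 (c, d + c) = a2 (c, d) := by
  classical
  by_cases h3 : (3 : Eis) ∣ c
  · by_cases hd : IsPrim d
    · have hd' : IsPrim (d + c) := CharSum852.isPrim_add hd h3
      rw [a2_three h3 hd, a2_three h3 hd', sy_add_self h3 hd]
    · have hd' : ¬ IsPrim (d + c) := by
        rwa [prim_congr (y := d) (by simpa using h3)]
      have hc : ¬ IsPrim c := fun h => not_three_prim h h3
      rw [a2_zero (fun h => hd' h.2) (fun h => hc h.1), a2_zero (fun h => hd h.2) (fun h => hc h.1)]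
  · by_cases hc : IsPrim c
    · by_cases hd : inL d
      · rw [a2_two (r := (c, d)) hc hd, a2_two (r := (c, d + c)) hc (inL_add hd (inL_prim hc))]
        simp only
        rw [sy_congr (prim_nm_mod hc) (x := d + c) (y := d) ⟨1, by ring⟩]
      · have hd' : ¬ inL (d + c) := by
          intro h
          apply hd
          have := inL_add h (inL_neg.mpr (inL_prim hc))
          simpa using this
        rw [a2_zero (fun h => h3 h.1) (fun h => hd' h.2), a2_zero (fun h => h3 h.1) (fun h => hd h.2)]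
    · rw [a2_zero (fun h => h3 h.1) (fun h => hc h.1), a2_zero (fun h => h3 h.1) (fun h => hc h.1)]

/-- invariance under `S`, up to sign. -/
lemma a2_S (c d : Eis) : a2 (-d, c) + a2 (d, -c) = a2 (c, d) + a2 (-c, -d) := by
  classical
  by_cases hcop : IsCoprime c d
  swap
  · have h1 : ¬ IsCoprime (-d) c := fun h => hcop ((IsCoprime.neg_left_iff d c).mp h).symm
    have h2 : ¬ IsCoprime d (-c) := fun h => hcop ((IsCoprime.neg_right_iff d c).mp h).symm
    have h3 : ¬ IsCoprime (-c) (-d) := fun h => hcop ((IsCoprime.neg_neg_iff c d).mp h)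
    unfold a2
    simp only
    rw [if_neg h1, if_neg h2, if_neg h3, if_neg hcop]
  by_cases hcL : inL c
  swap
  · have k1 : ¬ (3 : Eis) ∣ c := fun h => hcL (inL_three h)
    have k2 : ¬ IsPrim c := fun h => hcL (inL_prim h)
    have k3 : ¬ inL (-c) := fun h => hcL (inL_neg.mp h)
    have k4 : ¬ IsPrim (-c) := fun h => k3 (inL_prim h)
    have k5 : ¬ (3 : Eis) ∣ -c := fun h => k1 ((dvd_neg).mp h)
    rw [a2_zero (fun h => k2 h.2) (fun h => hcL h.2), a2_zero (fun h => k4 h.2) (fun h => k3 h.2),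
      a2_zero (fun h => k1 h.1) (fun h => k2 h.1), a2_zero (fun h => k5 h.1) (fun h => k4 h.1)]
  by_cases hdL : inL d
  swap
  · have k1 : ¬ (3 : Eis) ∣ d := fun h => hdL (inL_three h)
    have k2 : ¬ IsPrim d := fun h => hdL (inL_prim h)
    have k3 : ¬ inL (-d) := fun h => hdL (inL_neg.mp h)
    have k4 : ¬ IsPrim (-d) := fun h => k3 (inL_prim h)
    have k5 : ¬ (3 : Eis) ∣ -d := fun h => k1 ((dvd_neg).mp h)
    rw [a2_zero (fun h => k5 h.1) (fun h => k4 h.1), a2_zero (fun h => k1 h.1) (fun h => k2 h.1),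
      a2_zero (fun h => k2 h.2) (fun h => hdL h.2), a2_zero (fun h => k4 h.2) (fun h => k3 h.2)]
  have hcL' := inL_neg.mpr hcL
  have hdL' := inL_neg.mpr hdL
  have hcop3 : ¬ ((3 : Eis) ∣ c ∧ (3 : Eis) ∣ d) := by
    rintro ⟨h1, h2⟩
    have h3 := hcop.isUnit_of_dvd' h1 h2
    rw [isUnit_iff, Eis.nm_three] at h3
    omega
  have z1 : ∀ {x y : Eis}, ¬ (3 : Eis) ∣ x → ¬ IsPrim x → a2 (x, y) = 0 := fun hx hy =>
    a2_zero (fun h => hx h.1) (fun h => hy h.1)
  have z2 : ∀ {x y : Eis}, (3 : Eis) ∣ x → ¬ IsPrim y → a2 (x, y) = 0 := fun hx hy =>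
    a2_zero (fun h => hy h.2) (fun h => not_three_prim h.1 hx)
  have nn : ∀ {x : Eis}, IsPrim (-x) → ¬ IsPrim x := fun h h' => not_prim_neg h' h
  have n3 : ∀ {x : Eis}, IsPrim (-x) → ¬ (3 : Eis) ∣ x := fun h h' =>
    not_three_prim h ((dvd_neg).mpr h')
  rcases inL_cases hcL with hc | hc | hc
  · rcases inL_cases hdL with hd | hd | hd
    · exact absurd ⟨hc, hd⟩ hcop3
    · -- 3 | c, d prim
      rw [z1 (fun h => not_three_prim hd ((dvd_neg).mp h)) (not_prim_neg hd),
        a2_two (r := (d, -c)) hd hcL', a2_three hc hd, z2 ((dvd_neg).mpr hc) (not_prim_neg hd)]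
      simp only
      rw [sy_neg (prim_nm_mod hd)]
      ring
    · rw [a2_two (r := (-d, c)) hd hcL, z1 (n3 hd) (nn hd), z2 hc (nn hd),
        a2_three ((dvd_neg).mpr hc) hd]
      simp only
      rw [sy_neg (prim_nm_mod hd)]
      ring
  · rcases inL_cases hdL with hd | hd | hd
    · rw [a2_three ((dvd_neg).mpr hd) hc, z2 hd (not_prim_neg hc), a2_two (r := (c, d)) hc hdL,
        z1 (fun h => not_three_prim hc ((dvd_neg).mp h)) (not_prim_neg hc)]
      simp only
      rw [sy_neg (prim_nm_mod hc)]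
    · rw [z1 (fun h => not_three_prim hd ((dvd_neg).mp h)) (not_prim_neg hd),
        a2_two (r := (d, -c)) hd hcL', a2_two (r := (c, d)) hc hdL,
        z1 (fun h => not_three_prim hc ((dvd_neg).mp h)) (not_prim_neg hc)]
      simp only
      rw [sy_neg (prim_nm_mod hd), sy_reciprocity hc hd]
      ring
    · rw [a2_two (r := (-d, c)) hd hcL, z1 (n3 hd) (nn hd), a2_two (r := (c, d)) hc hdL,
        z1 (fun h => not_three_prim hc ((dvd_neg).mp h)) (not_prim_neg hc)]
      simp only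
      rw [sy_reciprocity hc hd, sy_neg (prim_nm_mod hc)]
  · rcases inL_cases hdL with hd | hd | hd
    · rw [z2 ((dvd_neg).mpr hd) (nn hc), a2_three hd hc, z1 (n3 hc) (nn hc),
        a2_two (r := (-c, -d)) hc hdL']
      simp only
      rw [sy_neg (prim_nm_mod hc)]
    · rw [z1 (fun h => not_three_prim hd ((dvd_neg).mp h)) (not_prim_neg hd),
        a2_two (r := (d, -c)) hd hcL', z1 (n3 hc) (nn hc), a2_two (r := (-c, -d)) hc hdL']
      simp only
      rw [sy_reciprocity hc hd, sy_neg (prim_nm_mod hc)]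
    · rw [a2_two (r := (-d, c)) hd hcL, z1 (n3 hd) (nn hd), z1 (n3 hc) (nn hc),
        a2_two (r := (-c, -d)) hc hdL']
      simp only
      rw [← sy_neg (prim_nm_mod hd) c, sy_reciprocity hc hd]
      ring

end Crest.Agent.R017.F1
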