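import Crest.Agent.R017.F1Cln2_180

/-!
# Row 17, section F, part 12 (helper180): `f°` without moment conditions

* `Ev f` : smooth, even, supported in an annulus; `mA f = ∫ f`, `mB f = ∫ Φ_f(m³)`
* `Wf f y = f°(y) + b₀ ∫ f - b₀ (2/√3) |y|^{-2/3} mB f`, rapidly decreasing at `0`
-/

set_option autoImplicit false

noncomputable section

open MeasureTheory Complex Set Filter Topology
open scoped SchwartzMap

namespace Crest.Agent.R017.F1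

open Crest.Agent.R012 Crest.Agent.R012.Eis Crest.Agent.R012.Po581
open Crest.Agent.R017.Xi590 Crest.Agent.R017.Xn590

/-- smooth, even, supported in an annulus. -/
structure Ev (f : ℂ → ℂ) : Prop where
  smooth : ContDiff ℝ ((⊤ : ℕ∞) : WithTop ℕ∞) f
  supp : ∃ a b : ℝ, 0 < a ∧ a < b ∧ ∀ x, ‖x‖ < a ∨ b < ‖x‖ → f x = 0
  even : ∀ x, f (-x) = f x

lemma Ev.cs {f : ℂ → ℂ} (h : Ev f) : CS f := ⟨h.smooth, h.supp⟩

/-- first moment -/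
def mA (f : ℂ → ℂ) : ℂ := ∫ x : ℂ, f x

/-- second moment -/
def mB (f : ℂ → ℂ) : ℂ := ∫ m : ℂ, F1.Phi f (m ^ 3)

lemma Ev.dat {f : ℂ → ℂ} (h : Ev f) (h1 : mA f = 0) (h2 : mB f = 0) : Dat f :=
  ⟨h.smooth, h.supp, h.even, h1, h2⟩

lemma Dat.ev {f : ℂ → ℂ} (h : Dat f) : Ev f := ⟨h.smooth, h.supp, h.even⟩

/-! ### lattice sums without the origin -/

/-- `Σ_{m ≠ 0} R(σ m)` -/
def Ts (R : 𝓢(ℂ, ℂ)) (σ : ℂ) : ℂ := by
  classical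
  exact ∑' m : Eis, if m = 0 then 0 else R (σ * toC m)

/-- indicator of `m ≠ 0`. -/
def nz (m : Eis) : ℂ := by
  classical
  exact if m = 0 then 0 else 1

lemma norm_nz_le (m : Eis) : ‖nz m‖ ≤ 1 := by
  unfold nz
  split_ifs <;> simp

lemma nz_zero : nz 0 = 0 := by simp [nz]

lemma nz_mul (R : 𝓢(ℂ, ℂ)) (σ : ℂ) (m : Eis) : open Classical in
    nz m * R (σ * toC m) = if m = 0 then 0 else R (σ * toC m) := by
  unfold nz
  split_ifs <;> simp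

lemma Ts_eq (R : 𝓢(ℂ, ℂ)) (σ : ℂ) : Ts R σ = ∑' m : Eis, nz m * R (σ * toC m) := by
  classical
  unfold Ts
  exact tsum_congr fun m => (nz_mul R σ m).symm

lemma Ts_dec (R : 𝓢(ℂ, ℂ)) (A : ℕ) : ∃ C : ℝ, 0 ≤ C ∧ ∀ σ : ℂ, 1 ≤ ‖σ‖ →
    ‖Ts R σ‖ ≤ C * (‖σ‖ ^ A)⁻¹ := by
  obtain ⟨C, hC0, hC⟩ := lat_dec R A
  refine ⟨C, hC0, fun σ hσ => ?_⟩
  rw [Ts_eq]
  exact (hC nz norm_nz_le (by rw [nz_zero, zero_mul]) σ hσ).2

lemma Ts_summable (R : 𝓢(ℂ, ℂ)) {σ : ℂ} (hσ : σ ≠ 0) : open Classical in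
    Summable fun m : Eis => if m = 0 then 0 else R (σ * toC m) := by
  classical
  refine Summable.of_norm_bounded (summable_dil R hσ) fun m => ?_
  split_ifs
  · rw [norm_zero]; positivity
  · exact le_rfl

lemma Ts_bd (R : 𝓢(ℂ, ℂ)) {δ : ℝ} (hδ : 0 < δ) : ∃ K : ℝ, 0 ≤ K ∧ ∀ σ : ℂ, δ ≤ ‖σ‖ →
    ‖Ts R σ‖ ≤ K := by
  have hδ0 : (δ : ℂ) ≠ 0 := by exact_mod_cast hδ.ne'
  obtain ⟨C, hC0, hC⟩ := Ts_dec (dilS (δ : ℂ) hδ0 R) 0
  refine ⟨C, hC0, fun σ hσ => ?_⟩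
  have h1 : Ts R σ = Ts (dilS (δ : ℂ) hδ0 R) (σ / δ) := by
    unfold Ts
    refine tsum_congr fun m => ?_
    rw [dilS_apply]
    have : (δ : ℂ) * (σ / δ * toC m) = σ * toC m := by field_simp
    rw [this]
  rw [h1]
  have h2 := hC (σ / δ) (by
    rw [norm_div, Complex.norm_real, Real.norm_of_nonneg hδ.le, le_div_iff₀ hδ]
    linarith)
  simpa using h2

/-- `κ = √-3` -/
def kap3 : ℂ := toC R012.sq3

lemma kap3_ne : kap3 ≠ 0 := by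
  unfold kap3
  rw [Ne, toC_eq_zero]
  decide

lemma norm_kap3 : ‖kap3‖ ^ 2 = 3 := by
  unfold kap3
  rw [norm_toC_sq]
  have : nm R012.sq3 = 3 := by decide
  rw [this]; norm_num

/-- Poisson summation. -/
lemma Ts_pois (R : 𝓢(ℂ, ℂ)) {τ : ℂ} (hτ : τ ≠ 0) :
    R 0 + Ts R τ = ((2 / Real.sqrt 3 : ℝ) : ℂ) * ((((‖τ‖ ^ 2)⁻¹ : ℝ) : ℂ) *
      (fCS R 0 + Ts (fCS R) ((kap3 * τ)⁻¹))) := by
  classical
  have key : ∀ (S : 𝓢(ℂ, ℂ)) {σ : ℂ}, σ ≠ 0 → Th (fun _ => 1) S σ = S 0 + Ts S σ := by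
    intro S σ hσ
    unfold Th Ts
    have hs : Summable fun m : Eis => S (σ * toC m) := (summable_dil S hσ).of_norm
    simp only [one_mul]
    rw [hs.tsum_eq_add_tsum_ite 0, map_zero, mul_zero]
  have h := (xiP_of_D Xi499.xiD_one).th R hτ
  have e1 : (toC R012.sq3 * toC 1 : ℂ) = kap3 := by rw [map_one, mul_one]; rfl
  have e2 : (((2 / (Real.sqrt 3 * nm 1) : ℝ) : ℂ) * 1) = ((2 / Real.sqrt 3 : ℝ) : ℂ) := by
    have : nm 1 = 1 := by decide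
    rw [this]; simp
  rw [e1, e2, key R hτ] at h
  have h2 : Th (fun k => (starRingEnd ℂ) ((fun _ => (1 : ℂ)) k)) (fCS R) ((kap3 * τ)⁻¹) =
      fCS R 0 + Ts (fCS R) ((kap3 * τ)⁻¹) := by
    rw [← key (fCS R) (inv_ne_zero (mul_ne_zero kap3_ne hτ))]
    simp
  rw [h2] at h
  exact h

/-! ### `f°` for general `f` -/

/-- `1/(6 vol)` -/
def b0 : ℝ := 1 / (6 * vL)

lemma vL_pos : 0 < vL := by unfold vL; positivity

lemma b0_pos : 0 < b0 := by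
  have := vL_pos
  unfold b0; positivity

/-- `m ↦ Φ(m³)`. -/
def Ps {f : ℂ → ℂ} (h : CS f) : 𝓢(ℂ, ℂ) := powS 3 (by norm_num) h.Ph

lemma Ps_apply {f : ℂ → ℂ} (h : CS f) (m : ℂ) : Ps h m = F1.Phi f (m ^ 3) := by
  unfold Ps
  rw [powS_apply, CS.Ph_apply]
  rfl

lemma Ps_zero {f : ℂ → ℂ} (h : CS f) : Ps h 0 = mA f := by
  rw [Ps_apply, zero_pow (by norm_num)]
  exact Xn590.Phi_zero f

lemma fCS_Ps_zero {f : ℂ → ℂ} (h : CS f) : fCS (Ps h) 0 = mB f := by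
  rw [fCS_apply]
  unfold fC mB
  congr 1
  ext z
  rw [zero_mul, neg_zero, eC_zero', mul_one, Ps_apply]

lemma fO_eq_Ts {f : ℂ → ℂ} (h : CS f) (u : ℂ) : fO f u = (b0 : ℂ) * Ts (Ps h) (nrt 3 u) := by
  classical
  unfold fO Ts b0
  congr 1
  refine tsum_congr fun m => ?_
  rw [Ps_apply, mul_pow, nrt_pow (by norm_num)]

/-- `f°` with its two singular terms at `0` removed. -/
def Wf (f : ℂ → ℂ) (y : ℂ) : ℂ :=
  fO f y + (b0 : ℂ) * mA f -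
    ((b0 * (2 / Real.sqrt 3) * (‖nrt 3 y‖ ^ 2)⁻¹ : ℝ) : ℂ) * mB f

lemma Wf_eq {f : ℂ → ℂ} (h : CS f) {y : ℂ} (hy : y ≠ 0) :
    Wf f y = ((b0 * (2 / Real.sqrt 3) * (‖nrt 3 y‖ ^ 2)⁻¹ : ℝ) : ℂ) *
      Ts (fCS (Ps h)) ((kap3 * nrt 3 y)⁻¹) := by
  have h1 := Ts_pois (Ps h) (nrt_ne_zero (n := 3) (by norm_num) hy)
  rw [Ps_zero, fCS_Ps_zero] at h1
  unfold Wf
  rw [fO_eq_Ts h]
  push_cast at h1 ⊢
  linear_combination (b0 : ℂ) * h1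

lemma Wf_dat {f : ℂ → ℂ} (h : Dat f) : Wf f = fO f := by
  funext y
  unfold Wf
  have h1 : mA f = 0 := h.mom1
  have h2 : mB f = 0 := h.mom2
  rw [h1, h2]
  ring

lemma norm_nrt3 (y : ℂ) : ‖nrt 3 y‖ ^ 3 = ‖y‖ := norm_nrt_pow (by norm_num) y

lemma fO_inf {f : ℂ → ℂ} (h : CS f) (A : ℕ) : ∃ C : ℝ, 0 ≤ C ∧ ∀ y : ℂ, 1 ≤ ‖y‖ →
    ‖fO f y‖ ≤ C * (‖y‖ ^ A)⁻¹ := by
  obtain ⟨C, hC0, hC⟩ := Ts_dec (Ps h) (3 * A)
  have hb := b0_pos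
  refine ⟨b0 * C, by positivity, fun y hy => ?_⟩
  have h1 : 1 ≤ ‖nrt 3 y‖ := by
    have h2 := norm_nrt3 y
    by_contra h3
    push Not at h3
    have h4 : ‖nrt 3 y‖ ^ 3 < 1 := pow_lt_one₀ (norm_nonneg _) h3 (by norm_num)
    linarith
  have h2 := hC _ h1
  rw [pow_mul, norm_nrt3] at h2
  rw [fO_eq_Ts h, norm_mul, Complex.norm_real, Real.norm_of_nonneg hb.le, mul_assoc]
  gcongr

lemma fO_bd {f : ℂ → ℂ} (h : CS f) {δ : ℝ} (hδ : 0 < δ) : ∃ C : ℝ, 0 ≤ C ∧ ∀ y : ℂ, δ ≤ ‖nrt 3 y‖ →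
    ‖fO f y‖ ≤ C := by
  obtain ⟨C, hC0, hC⟩ := Ts_bd (Ps h) hδ
  have hb := b0_pos
  refine ⟨b0 * C, by positivity, fun y hy => ?_⟩
  rw [fO_eq_Ts h, norm_mul, Complex.norm_real, Real.norm_of_nonneg hb.le]
  have := hC _ hy
  gcongr

/-- `W` is rapidly decreasing at `0`, bounded at infinity. -/
lemma Wf_dec {f : ℂ → ℂ} (h : CS f) (A : ℕ) : ∃ C : ℝ, 0 ≤ C ∧ ∀ y : ℂ, y ≠ 0 →
    ‖Wf f y‖ ≤ C * ‖y‖ ^ A := by
  obtain ⟨C1, hC1, h1⟩ := Ts_dec (fCS (Ps h)) (3 * A + 2)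
  have hb := b0_pos
  set K : ℝ := ‖kap3‖ with hK
  have hKp : 0 < K := norm_pos_iff.mpr kap3_ne
  have hs3 : 0 < 2 / Real.sqrt 3 := by positivity
  obtain ⟨C2, hC2, h2⟩ := fO_bd h (inv_pos.mpr hKp)
  set B : ℝ := C2 + b0 * ‖mA f‖ + b0 * (2 / Real.sqrt 3) * K ^ 2 * ‖mB f‖ with hB
  have hB0 : 0 ≤ B := by positivity
  refine ⟨b0 * (2 / Real.sqrt 3) * C1 * K ^ (3 * A + 2) + B * K ^ (3 * A), by positivity,
    fun y hy => ?_⟩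
  have hτ : nrt 3 y ≠ 0 := nrt_ne_zero (by norm_num) hy
  set t : ℝ := ‖nrt 3 y‖ with ht
  have htp : 0 < t := norm_pos_iff.mpr hτ
  have hty : ‖y‖ = t ^ 3 := (norm_nrt3 y).symm
  rw [hty, ← pow_mul]
  rcases le_or_gt (K * t) 1 with hc | hc
  · rw [Wf_eq h hy, norm_mul, Complex.norm_real, Real.norm_of_nonneg (by positivity)]
    have h3 := h1 ((kap3 * nrt 3 y)⁻¹) (by
      rw [norm_inv, norm_mul]
      exact (one_le_inv₀ (by positivity)).mpr hc)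
    rw [norm_inv, norm_mul, inv_pow, inv_inv] at h3
    calc b0 * (2 / Real.sqrt 3) * (t ^ 2)⁻¹ * ‖Ts (fCS (Ps h)) ((kap3 * nrt 3 y)⁻¹)‖
        ≤ b0 * (2 / Real.sqrt 3) * (t ^ 2)⁻¹ * (C1 * (K * t) ^ (3 * A + 2)) := by gcongr
      _ = b0 * (2 / Real.sqrt 3) * C1 * K ^ (3 * A + 2) * t ^ (3 * A) := by
          rw [mul_pow, pow_add t]
          field_simp
      _ ≤ _ := by
          gcongr
          exact le_add_of_nonneg_right (by positivity)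
  · have h3 : K⁻¹ ≤ t := by
      rw [inv_le_iff_one_le_mul₀ hKp, mul_comm]
      exact hc.le
    have h4 := h2 y h3
    have h5 : (t ^ 2)⁻¹ ≤ K ^ 2 := by
      rw [inv_le_iff_one_le_mul₀ (by positivity)]
      have : 1 ≤ (K * t) ^ 2 := one_le_pow₀ hc.le
      calc 1 ≤ (K * t) ^ 2 := this
        _ = _ := by ring
    have h6 : ‖Wf f y‖ ≤ B := by
      unfold Wf
      refine (norm_sub_le _ _).trans ?_
      refine (add_le_add (norm_add_le _ _) le_rfl).trans ?_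
      rw [norm_mul, norm_mul, Complex.norm_real, Complex.norm_real, Real.norm_of_nonneg hb.le,
        Real.norm_of_nonneg (by positivity)]
      rw [hB]
      gcongr
    have h7 : 1 ≤ K ^ (3 * A) * t ^ (3 * A) := by
      rw [← mul_pow]; exact one_le_pow₀ hc.le
    calc ‖Wf f y‖ ≤ B := h6
      _ ≤ B * (K ^ (3 * A) * t ^ (3 * A)) := le_mul_of_one_le_right hB0 h7
      _ = B * K ^ (3 * A) * t ^ (3 * A) := by ring
      _ ≤ _ := by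
          gcongr
          exact le_add_of_nonneg_left (by positivity)

end Crest.Agent.R017.F1
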