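import Crest.Agent.R017.F1Star1_180

/-!
# Row 17, section F, part 13 (helper180): the functional equation without moment conditions, up to
two constants

`Cg u (fL f) = ce1 u * mA f + ce2 u * mB f + Du u (Wf f)` for every `Ev f`.
-/

set_option autoImplicit false

noncomputable section

open MeasureTheory Complex Set Filter Topology
open scoped SchwartzMap

namespace Crest.Agent.R017.F1

open Crest.Agent.R012 Crest.Agent.R012.Eis Crest.Agent.R012.Po581
open Crest.Agent.R012.Parseval499 (frq s3 toC_s3_ne)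
open Crest.Agent.R017.Xi590 Crest.Agent.R017.Xn590

/-! ### the dual functional -/

/-- `(φ(y/(3√-3)) - φ(y))/3` -/
def gg (φ : ℂ → ℂ) (y : ℂ) : ℂ := (1 / 3 : ℂ) * (φ (y / (3 * toC s3)) - φ y)

/-- the dual side -/
def Du (u : Eis) (φ : ℂ → ℂ) : ℂ :=
  (2 / 3 : ℂ) * Cg u (rc φ (toC u)) +
    (eC (frq 3 u) + eC (-frq 3 u)) * Cg u (rc (gg φ) (toC u)) +
    ∑ δ ∈ Dl u, Lam δ u * (((nm δ : ℝ)⁻¹ : ℝ) : ℂ) * Cg (δ * u) (rc (gg φ) (toC u / toC δ))

/-- decay at `0` -/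
def P4 (φ : ℂ → ℂ) : Prop := ∃ C : ℝ, ∀ y : ℂ, y ≠ 0 → ‖φ y‖ ≤ C * ‖y‖ ^ 4

lemma P4.add {φ ψ : ℂ → ℂ} (h : P4 φ) (h' : P4 ψ) : P4 (fun y => φ y + ψ y) := by
  obtain ⟨C, hC⟩ := h
  obtain ⟨C', hC'⟩ := h'
  exact ⟨C + C', fun y hy => (norm_add_le _ _).trans (by
    rw [add_mul]; exact add_le_add (hC y hy) (hC' y hy))⟩

lemma P4.const_mul {φ : ℂ → ℂ} (h : P4 φ) (a : ℂ) : P4 (fun y => a * φ y) := by
  obtain ⟨C, hC⟩ := h
  refine ⟨‖a‖ * C, fun y hy => ?_⟩
  rw [norm_mul, mul_assoc]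
  exact mul_le_mul_of_nonneg_left (hC y hy) (norm_nonneg _)

lemma P4.dil {φ : ℂ → ℂ} (h : P4 φ) {b : ℂ} (hb : b ≠ 0) : P4 (fun y => φ (y / b)) := by
  obtain ⟨C, hC⟩ := h
  refine ⟨C * (‖b‖ ^ 4)⁻¹, fun y hy => ?_⟩
  refine (hC _ (div_ne_zero hy hb)).trans (le_of_eq ?_)
  rw [norm_div, div_pow]; ring

lemma P4.gg {φ : ℂ → ℂ} (h : P4 φ) : P4 (gg φ) := by
  have hs : (3 * toC s3 : ℂ) ≠ 0 := mul_ne_zero (by norm_num) toC_s3_ne
  have := ((h.dil hs).add (h.const_mul (-1))).const_mul (1 / 3 : ℂ)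
  have e : F1.gg φ = fun y => (1 / 3 : ℂ) * (φ (y / (3 * toC s3)) + -1 * φ y) := by
    funext y; unfold F1.gg; ring
  rw [e]
  exact this

lemma P4.dc {φ : ℂ → ℂ} (h : P4 φ) {v : ℂ} (hv : v ≠ 0) : Dc (rc φ v) := by
  obtain ⟨C, hC⟩ := h
  exact rc_dc hC hv

lemma rc_add (φ ψ : ℂ → ℂ) (v : ℂ) :
    rc (fun y => φ y + ψ y) v = fun x => rc φ v x + rc ψ v x := by
  funext x; unfold rc; ring

lemma rc_const_mul (a : ℂ) (φ : ℂ → ℂ) (v : ℂ) :
    rc (fun y => a * φ y) v = fun x => a * rc φ v x := by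
  funext x; unfold rc; ring

lemma gg_add (φ ψ : ℂ → ℂ) : gg (fun y => φ y + ψ y) = fun y => gg φ y + gg ψ y := by
  funext y; unfold gg; ring

lemma gg_const_mul (a : ℂ) (φ : ℂ → ℂ) : gg (fun y => a * φ y) = fun y => a * gg φ y := by
  funext y; unfold gg; ring

lemma Dl_ne {u δ : Eis} (hu : u ≠ 0) (h : δ ∈ Dl u) : toC u / toC δ ≠ 0 := by
  rw [mem_Dl hu] at h
  have : δ ≠ 0 := h.1.1
  refine div_ne_zero (by rwa [Ne, toC_eq_zero]) (by rwa [Ne, toC_eq_zero])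

lemma Du_add {u : Eis} (hu : u ≠ 0) {φ ψ : ℂ → ℂ} (h : P4 φ) (h' : P4 ψ) :
    Du u (fun y => φ y + ψ y) = Du u φ + Du u ψ := by
  have huC : toC u ≠ 0 := by rwa [Ne, toC_eq_zero]
  unfold Du
  rw [rc_add, Cg_add u (h.dc huC) (h'.dc huC), gg_add, rc_add,
    Cg_add u (h.gg.dc huC) (h'.gg.dc huC)]
  have : ∑ δ ∈ Dl u, Lam δ u * (((nm δ : ℝ)⁻¹ : ℝ) : ℂ) *
      Cg (δ * u) (rc (fun y => gg φ y + gg ψ y) (toC u / toC δ)) =
      ∑ δ ∈ Dl u, (Lam δ u * (((nm δ : ℝ)⁻¹ : ℝ) : ℂ) *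
        Cg (δ * u) (rc (gg φ) (toC u / toC δ)) + Lam δ u * (((nm δ : ℝ)⁻¹ : ℝ) : ℂ) *
        Cg (δ * u) (rc (gg ψ) (toC u / toC δ))) := by
    refine Finset.sum_congr rfl fun δ hδ => ?_
    have := Dl_ne hu hδ
    rw [rc_add, Cg_add _ (h.gg.dc this) (h'.gg.dc this)]
    ring
  rw [this, Finset.sum_add_distrib]
  ring

lemma Du_const_mul (u : Eis) (a : ℂ) (φ : ℂ → ℂ) : Du u (fun y => a * φ y) = a * Du u φ := by
  unfold Du
  rw [rc_const_mul, Cg_const_mul, gg_const_mul, rc_const_mul, Cg_const_mul]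
  have : ∑ δ ∈ Dl u, Lam δ u * (((nm δ : ℝ)⁻¹ : ℝ) : ℂ) *
      Cg (δ * u) (rc (fun y => a * gg φ y) (toC u / toC δ)) =
      a * ∑ δ ∈ Dl u, Lam δ u * (((nm δ : ℝ)⁻¹ : ℝ) : ℂ) *
        Cg (δ * u) (rc (gg φ) (toC u / toC δ)) := by
    rw [Finset.mul_sum]
    refine Finset.sum_congr rfl fun δ hδ => ?_
    rw [rc_const_mul, Cg_const_mul]
    ring
  rw [this]
  ring

theorem clean3' {f : ℂ → ℂ} (hf : Dat f) {u : Eis} (hu : u ≠ 0) : Cg u (fL f) = Du u (fO f) :=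
  clean3 hf hu

/-! ### linearity in `f` -/

section

variable {f g : ℂ → ℂ}

lemma Ev.zero_eq (h : Ev f) : f 0 = 0 := h.cs.zero

lemma Ev.add (h : Ev f) (h' : Ev g) : Ev (fun x => f x + g x) where
  smooth := h.smooth.add h'.smooth
  supp := by
    obtain ⟨a, b, ha, hab, hs⟩ := h.supp
    obtain ⟨a', b', ha', hab', hs'⟩ := h'.supp
    refine ⟨min a a', max b b', lt_min ha ha', ?_, fun x hx => ?_⟩
    · exact (min_le_left _ _).trans_lt (hab.trans_le (le_max_left _ _))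
    · rcases hx with hx | hx
      · rw [hs x (Or.inl (hx.trans_le (min_le_left _ _))),
          hs' x (Or.inl (hx.trans_le (min_le_right _ _))), add_zero]
      · rw [hs x (Or.inr ((le_max_left _ _).trans_lt hx)),
          hs' x (Or.inr ((le_max_right _ _).trans_lt hx)), add_zero]
  even x := by rw [h.even, h'.even]

lemma Ev.const_mul (h : Ev f) (a : ℂ) : Ev (fun x => a * f x) where
  smooth := contDiff_const.mul h.smooth
  supp := by
    obtain ⟨a', b, ha, hab, hs⟩ := h.supp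
    exact ⟨a', b, ha, hab, fun x hx => by rw [hs x hx, mul_zero]⟩
  even x := by rw [h.even]

lemma Ev.bdd (h : Ev f) : ∃ B : ℝ, ∀ x, ‖f x‖ ≤ B := by
  obtain ⟨C, hC⟩ := h.cs.cs.exists_bound_of_continuous h.cs.cont
  exact ⟨C, hC⟩

lemma int_Phi (h : Ev f) (y : ℂ) : Integrable fun p : ℂ => f p * eC (-(y / p)) := by
  refine h.cs.integrable.mul_bdd (c := 1) ?_ ?_
  · have : Measurable fun p : ℂ => eC (-(y / p)) :=
      Parseval499.continuous_eC.measurable.comp (by fun_prop)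
    exact this.aestronglyMeasurable
  · exact Filter.Eventually.of_forall fun z => (R012.norm_eC _).le

lemma Phi_add (h : Ev f) (h' : Ev g) (y : ℂ) :
    F1.Phi (fun x => f x + g x) y = F1.Phi f y + F1.Phi g y := by
  unfold F1.Phi
  rw [← integral_add (int_Phi h y) (int_Phi h' y)]
  congr 1
  ext p
  ring

lemma Phi_const_mul (a : ℂ) (f : ℂ → ℂ) (y : ℂ) :
    F1.Phi (fun x => a * f x) y = a * F1.Phi f y := by
  unfold F1.Phi
  rw [← integral_const_mul]
  congr 1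
  ext p
  ring

lemma mA_add (h : Ev f) (h' : Ev g) : mA (fun x => f x + g x) = mA f + mA g :=
  integral_add h.cs.integrable h'.cs.integrable

lemma mA_const_mul (a : ℂ) (f : ℂ → ℂ) : mA (fun x => a * f x) = a * mA f :=
  integral_const_mul _ _

lemma mB_add (h : Ev f) (h' : Ev g) : mB (fun x => f x + g x) = mB f + mB g := by
  unfold mB
  have h1 : Integrable fun m : ℂ => F1.Phi f (m ^ 3) := by
    refine (Ps h.cs).integrable.congr (Filter.Eventually.of_forall fun m => ?_)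
    exact Ps_apply h.cs m
  have h2 : Integrable fun m : ℂ => F1.Phi g (m ^ 3) := by
    refine (Ps h'.cs).integrable.congr (Filter.Eventually.of_forall fun m => ?_)
    exact Ps_apply h'.cs m
  rw [← integral_add h1 h2]
  congr 1
  ext m
  exact Phi_add h h' _

lemma mB_const_mul (a : ℂ) (f : ℂ → ℂ) : mB (fun x => a * f x) = a * mB f := by
  unfold mB
  rw [← integral_const_mul]
  congr 1
  ext m
  exact Phi_const_mul a f _

lemma fO_add (h : Ev f) (h' : Ev g) {u : ℂ} (hu : u ≠ 0) :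
    fO (fun x => f x + g x) u = fO f u + fO g u := by
  classical
  have key : ∀ {f : ℂ → ℂ} (h : Ev f), Summable fun m : Eis =>
      (if m = 0 then 0 else F1.Phi f (u * toC m ^ 3)) := by
    intro f h
    refine (Ts_summable (Ps h.cs) (nrt_ne_zero (n := 3) (by norm_num) hu)).congr fun m => ?_
    rw [Ps_apply, mul_pow, nrt_pow (by norm_num)]
  unfold fO
  rw [← mul_add, ← (key h).tsum_add (key h')]
  congr 1
  refine tsum_congr fun m => ?_
  split_ifs
  · rw [add_zero]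
  · exact Phi_add h h' _

lemma fO_const_mul (a : ℂ) (f : ℂ → ℂ) (u : ℂ) : fO (fun x => a * f x) u = a * fO f u := by
  classical
  unfold fO
  rw [mul_left_comm, ← tsum_mul_left (a := a)]
  congr 1
  refine tsum_congr fun m => ?_
  split_ifs
  · rw [mul_zero]
  · exact Phi_const_mul a f _

lemma Wf_add (h : Ev f) (h' : Ev g) {u : ℂ} (hu : u ≠ 0) :
    Wf (fun x => f x + g x) u = Wf f u + Wf g u := by
  unfold Wf
  rw [fO_add h h' hu, mA_add h h', mB_add h h']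
  ring

lemma Wf_const_mul (a : ℂ) (f : ℂ → ℂ) (u : ℂ) : Wf (fun x => a * f x) u = a * Wf f u := by
  unfold Wf
  rw [fO_const_mul, mA_const_mul, mB_const_mul]
  ring

lemma summable_fP (h : Ev f) (x : ℂ) :
    Summable fun e : Eis => ((nm e : ℂ) ^ 2) * f (toC e ^ 3 * x) := by
  obtain ⟨a, b, ha, hab, hs⟩ := h.supp
  by_cases hx : x = 0
  · subst hx
    have : (fun e : Eis => ((nm e : ℂ) ^ 2) * f (toC e ^ 3 * 0)) = fun _ => 0 := by
      funext e; rw [mul_zero, h.zero_eq, mul_zero]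
    rw [this]; exact summable_zero
  · have hxp : 0 < ‖x‖ := norm_pos_iff.mpr hx
    refine summable_of_ne_finset_zero (s := ball ⌈b / ‖x‖⌉₊) fun e he => ?_
    rw [mem_ball, not_le] at he
    have he0 : e ≠ 0 := by rintro rfl; simp at he
    have h1 := norm_toC_ge he0
    rw [hs _ (Or.inr ?_), mul_zero]
    rw [norm_mul, norm_pow]
    have h2 : ‖toC e‖ ^ 2 = nm e := norm_toC_sq e
    have h3 : b / ‖x‖ < nm e := by
      have := Nat.le_ceil (b / ‖x‖)
      have h4 : ((⌈b / ‖x‖⌉₊ : ℕ) : ℝ) < nm e := by exact_mod_cast he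
      linarith
    have h4 : ‖toC e‖ ^ 2 ≤ ‖toC e‖ ^ 3 := pow_le_pow_right₀ h1 (by norm_num)
    rw [div_lt_iff₀ hxp] at h3
    calc b < nm e * ‖x‖ := h3
      _ ≤ ‖toC e‖ ^ 3 * ‖x‖ := by rw [← h2]; gcongr

lemma fP_add (h : Ev f) (h' : Ev g) (x : ℂ) : fP (fun x => f x + g x) x = fP f x + fP g x := by
  unfold fP
  rw [← mul_add, ← (summable_fP h x).tsum_add (summable_fP h' x)]
  congr 1
  refine tsum_congr fun e => ?_
  ring

lemma fP_const_mul (a : ℂ) (f : ℂ → ℂ) (x : ℂ) : fP (fun x => a * f x) x = a * fP f x := by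
  unfold fP
  rw [mul_left_comm, ← tsum_mul_left (a := a)]
  congr 1
  refine tsum_congr fun e => ?_
  ring

lemma fL_add (h : Ev f) (h' : Ev g) (x : ℂ) : fL (fun x => f x + g x) x = fL f x + fL g x := by
  unfold fL
  rw [fP_add h h', fP_add h h']
  ring

lemma fL_const_mul (a : ℂ) (f : ℂ → ℂ) (x : ℂ) : fL (fun x => a * f x) x = a * fL f x := by
  unfold fL
  rw [fP_const_mul, fP_const_mul]
  ring

lemma Ev.fL_dc (hf : Ev f) : Dc (fL f) := by
  obtain ⟨a, b, ha, hab, hs⟩ := hf.supp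
  obtain ⟨B, hB⟩ := hf.bdd
  obtain ⟨K, hK⟩ := fP_bdd (fun x hx => hs x (Or.inr hx)) hB
  have hal := norm_al_ge
  refine Dc_of_supp (b := b) (B := K + 9 * K) (fun x hx => ?_) (fun x hx => ?_)
  · unfold fL
    rw [fP_zero_of_large (fun x hx => hs x (Or.inr hx)) hx,
      fP_zero_of_large (fun x hx => hs x (Or.inr hx)), mul_zero, sub_zero]
    rw [norm_mul]
    have := norm_nonneg x
    nlinarith
  · unfold fL
    have h1 := hK x hx
    have h2 := hK (al * x) (by rw [norm_mul]; nlinarith [norm_nonneg x])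
    refine (norm_sub_le _ _).trans ?_
    rw [norm_mul]
    have : ‖(9 : ℂ)‖ = 9 := by norm_num
    rw [this]
    linarith

lemma Ev.Wf_p4 (h : Ev f) : P4 (Wf f) := by
  obtain ⟨C, _, hC⟩ := Wf_dec h.cs 4
  exact ⟨C, hC⟩

end

/-- the defect -/
def Def (u : Eis) (f : ℂ → ℂ) : ℂ := Cg u (fL f) - Du u (Wf f)

lemma Du_congr {u : Eis} (hu : u ≠ 0) {φ ψ : ℂ → ℂ} (h : ∀ y, y ≠ 0 → φ y = ψ y) :
    Du u φ = Du u ψ := by
  have huC : toC u ≠ 0 := by rwa [Ne, toC_eq_zero]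
  have hs : (3 * toC s3 : ℂ) ≠ 0 := mul_ne_zero (by norm_num) toC_s3_ne
  have hg : ∀ y, y ≠ 0 → gg φ y = gg ψ y := by
    intro y hy
    unfold gg
    rw [h y hy, h _ (div_ne_zero hy hs)]
  have hr : ∀ {φ ψ : ℂ → ℂ} (_ : ∀ y, y ≠ 0 → φ y = ψ y) (r : Eis) {v : ℂ}, v ≠ 0 →
      Cg r (rc φ v) = Cg r (rc ψ v) := by
    intro φ ψ h r v hv
    refine Cg_congr r fun d hd => ?_
    have hd0 : toC d ≠ 0 := by
      rw [Ne, toC_eq_zero]; exact hd.ne_zero
    unfold rc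
    rw [h _ (div_ne_zero hv hd0)]
  unfold Du
  rw [hr h u huC, hr hg u huC]
  congr 1
  refine Finset.sum_congr rfl fun δ hδ => ?_
  rw [hr hg _ (Dl_ne hu hδ)]

lemma Def_add {u : Eis} (hu : u ≠ 0) {f g : ℂ → ℂ} (h : Ev f) (h' : Ev g) :
    Def u (fun x => f x + g x) = Def u f + Def u g := by
  unfold Def
  have e1 : Cg u (fL (fun x => f x + g x)) = Cg u (fL f) + Cg u (fL g) := by
    have : fL (fun x => f x + g x) = fun x => fL f x + fL g x := by
      funext x; exact fL_add h h' x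
    rw [this, Cg_add u h.fL_dc h'.fL_dc]
  have e2 : Du u (Wf (fun x => f x + g x)) = Du u (Wf f) + Du u (Wf g) := by
    rw [← Du_add hu h.Wf_p4 h'.Wf_p4]
    exact Du_congr hu fun y hy => Wf_add h h' hy
  rw [e1, e2]
  ring

lemma Def_const_mul (u : Eis) (a : ℂ) (f : ℂ → ℂ) : Def u (fun x => a * f x) = a * Def u f := by
  unfold Def
  have e1 : fL (fun x => a * f x) = fun x => a * fL f x := by
    funext x; exact fL_const_mul a f x
  have e2 : Wf (fun x => a * f x) = fun x => a * Wf f x := by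
    funext x; exact Wf_const_mul a f x
  rw [e1, e2, Cg_const_mul, Du_const_mul]
  ring

lemma Def_dat {u : Eis} (hu : u ≠ 0) {f : ℂ → ℂ} (h : Dat f) : Def u f = 0 := by
  unfold Def
  rw [Wf_dat h, clean3' h hu, sub_self]

end Crest.Agent.R017.F1
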