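import Crest.Agent.R017.F1Star2_180

/-!
# Row 17, section F, part 14 (helper180): dilations, the two constants
-/

set_option autoImplicit false

noncomputable section

open MeasureTheory Complex Set Filter Topology
open scoped SchwartzMap

namespace Crest.Agent.R017.F1

open Crest.Agent.R012 Crest.Agent.R012.Eis Crest.Agent.R012.Po581
open Crest.Agent.R012.Parseval499 (frq s3 toC_s3_ne)
open Crest.Agent.R017.Xi590 Crest.Agent.R017.Xn590

/-! ### dilations -/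

/-- `f(x/w)` -/
def dl (w : ℂ) (f : ℂ → ℂ) (x : ℂ) : ℂ := f (x / w)

section

variable {f : ℂ → ℂ} {w : ℂ}

lemma Ev.dl (h : Ev f) (hw : w ≠ 0) : Ev (dl w f) where
  smooth := h.smooth.comp (contDiff_id.div_const w)
  supp := by
    obtain ⟨a, b, ha, hab, hs⟩ := h.supp
    have hwp : 0 < ‖w‖ := norm_pos_iff.mpr hw
    refine ⟨a * ‖w‖, b * ‖w‖, by positivity, by gcongr, fun x hx => ?_⟩
    unfold F1.dl
    refine hs _ ?_
    rw [norm_div]
    rcases hx with hx | hx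
    · left; rwa [div_lt_iff₀ hwp]
    · right; rwa [lt_div_iff₀ hwp]
  even x := by unfold F1.dl; rw [neg_div, h.even]

lemma mA_dl (f : ℂ → ℂ) (hw : w ≠ 0) : mA (dl w f) = ((‖w‖ ^ 2 : ℝ) : ℂ) * mA f := by
  unfold mA
  rw [Four813.integral_comp_mul_left' hw, Complex.real_smul]
  congr 2
  ext z
  unfold F1.dl
  rw [mul_div_cancel_left₀ _ hw]

lemma Phi_dl (f : ℂ → ℂ) (hw : w ≠ 0) (y : ℂ) :
    F1.Phi (dl w f) y = ((‖w‖ ^ 2 : ℝ) : ℂ) * F1.Phi f (y / w) := by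
  unfold F1.Phi
  rw [Four813.integral_comp_mul_left' hw, Complex.real_smul]
  congr 2
  ext z
  unfold F1.dl
  rw [mul_div_cancel_left₀ _ hw]
  congr 3
  rw [div_div]

lemma fO_dl (f : ℂ → ℂ) (hw : w ≠ 0) (u : ℂ) :
    fO (dl w f) u = ((‖w‖ ^ 2 : ℝ) : ℂ) * fO f (u / w) := by
  classical
  unfold fO
  rw [mul_left_comm, ← tsum_mul_left (a := ((‖w‖ ^ 2 : ℝ) : ℂ))]
  congr 1
  refine tsum_congr fun m => ?_
  split_ifs
  · rw [mul_zero]
  · rw [Phi_dl f hw]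
    congr 2
    ring

lemma mB_dl (f : ℂ → ℂ) (hw : w ≠ 0) :
    mB (dl w f) = ((‖nrt 3 w‖ ^ 8 : ℝ) : ℂ) * mB f := by
  have ht : nrt 3 w ≠ 0 := nrt_ne_zero (by norm_num) hw
  unfold mB
  rw [Four813.integral_comp_mul_left' ht, Complex.real_smul, ← integral_const_mul,
    ← integral_const_mul]
  congr 1
  ext m
  rw [Phi_dl f hw, mul_pow, nrt_pow (by norm_num), mul_div_cancel_left₀ _ hw,
    ← norm_nrt3 w]
  push_cast
  ring

lemma norm_nrt_div (y w : ℂ) : ‖nrt 3 (y / w)‖ = ‖nrt 3 y‖ / ‖nrt 3 w‖ := by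
  have h1 : ‖nrt 3 (y / w)‖ ^ 3 = (‖nrt 3 y‖ / ‖nrt 3 w‖) ^ 3 := by
    rw [div_pow, norm_nrt3, norm_nrt3, norm_nrt3, norm_div]
  exact (pow_left_inj₀ (norm_nonneg _) (by positivity) (by norm_num)).mp h1

lemma Wf_dl (f : ℂ → ℂ) (hw : w ≠ 0) (y : ℂ) :
    Wf (dl w f) y = ((‖w‖ ^ 2 : ℝ) : ℂ) * Wf f (y / w) := by
  have ht : 0 < ‖nrt 3 w‖ := norm_pos_iff.mpr (nrt_ne_zero (by norm_num) hw)
  unfold Wf
  rw [fO_dl f hw, mA_dl f hw, mB_dl f hw, norm_nrt_div]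
  have e : ((b0 * (2 / Real.sqrt 3) * (‖nrt 3 y‖ ^ 2)⁻¹ : ℝ) : ℂ) *
      (((‖nrt 3 w‖ ^ 8 : ℝ) : ℂ) * mB f) = ((‖w‖ ^ 2 : ℝ) : ℂ) *
      (((b0 * (2 / Real.sqrt 3) * ((‖nrt 3 y‖ / ‖nrt 3 w‖) ^ 2)⁻¹ : ℝ) : ℂ) * mB f) := by
    rw [← mul_assoc, ← mul_assoc, ← Complex.ofReal_mul, ← Complex.ofReal_mul]
    congr 2
    rw [← norm_nrt3 w, div_pow]
    field_simp
  rw [e]
  ring

lemma fP_dl (f : ℂ → ℂ) (w x : ℂ) : fP (dl w f) x = fP f (x / w) := by
  unfold fP dl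
  congr 1
  refine tsum_congr fun e => ?_
  rw [mul_div_assoc]

lemma fL_dl (f : ℂ → ℂ) (w x : ℂ) : fL (dl w f) x = fL f (x / w) := by
  unfold fL
  rw [fP_dl, fP_dl, mul_div_assoc]

end

/-! ### the base function -/

/-- a bump function on `ℝ`. -/
def bmp : ContDiffBump (5 / 2 : ℝ) := ⟨1 / 2, 1, by norm_num, by norm_num⟩

/-- radial bump function supported in `1 ≤ |x| ≤ 2`. -/
def bf (x : ℂ) : ℂ := ((bmp (‖x‖ ^ 2) : ℝ) : ℂ)

lemma bmp_zero {t : ℝ} (h : t ≤ 3 / 2 ∨ 7 / 2 ≤ t) : bmp t = 0 := by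
  apply bmp.zero_of_le_dist
  have : bmp.rOut = 1 := rfl
  rw [this, Real.dist_eq]
  rcases h with h | h
  · rw [abs_of_nonpos (by linarith)]; linarith
  · rw [abs_of_nonneg (by linarith)]; linarith

lemma ev_bf : Ev bf where
  smooth := Complex.ofRealCLM.contDiff.comp (bmp.contDiff.comp (contDiff_norm_sq ℝ))
  supp := by
    refine ⟨1, 2, one_pos, one_lt_two, fun x hx => ?_⟩
    unfold bf
    rw [bmp_zero, Complex.ofReal_zero]
    rcases hx with hx | hx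
    · left; nlinarith [norm_nonneg x]
    · right; nlinarith
  even x := by unfold bf; rw [norm_neg]

lemma bf_sqrt : bf ((Real.sqrt (5 / 2) : ℝ) : ℂ) = 1 := by
  unfold bf
  rw [Complex.norm_real, Real.norm_of_nonneg (Real.sqrt_nonneg _), Real.sq_sqrt (by norm_num)]
  have : bmp (5 / 2 : ℝ) = 1 := bmp.one_of_mem_closedBall (by
    rw [Metric.mem_closedBall, dist_self]; exact bmp.rIn_pos.le)
  rw [this, Complex.ofReal_one]

/-- a positivity lemma -/
lemma int_pos {g : ℂ → ℝ} (hc : Continuous g) (hs : HasCompactSupport g) (h0 : ∀ x, 0 ≤ g x)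
    {x : ℂ} (hx : g x ≠ 0) : 0 < ∫ x, g x := by
  exact hc.integral_pos_of_hasCompactSupport_nonneg_nonzero (x := x) hs h0 hx

lemma mA_bf : ∃ A : ℝ, 0 < A ∧ mA bf = A := by
  refine ⟨∫ x : ℂ, bmp (‖x‖ ^ 2), ?_, ?_⟩
  · have hc : Continuous fun x : ℂ => bmp (‖x‖ ^ 2) := bmp.continuous.comp (by fun_prop)
    refine int_pos hc ?_ (fun x => bmp.nonneg) (x := ((Real.sqrt (5 / 2) : ℝ) : ℂ)) ?_
    · refine HasCompactSupport.intro (isCompact_closedBall (0 : ℂ) 2) fun x hx => ?_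
      rw [mem_closedBall_zero_iff, not_le] at hx
      exact bmp_zero (Or.inr (by nlinarith))
    · have := bf_sqrt
      unfold bf at this
      rw [Complex.ofReal_eq_one] at this
      rw [this]; exact one_ne_zero
  · unfold mA bf
    exact integral_complex_ofReal

lemma mB_bf : ∃ B : ℝ, 0 < B ∧ mB bf = B := by
  have h1 := Xn960.tate_pow 3 (by norm_num) ev_bf.cs
  have h2 : mB bf = ∫ m : ℂ, Xi590.Phi bf (m ^ 3) := rfl
  rw [← h2] at h1
  set g : ℂ → ℝ := fun t => ‖t‖ ^ (2 * 3) * bmp (‖t ^ 3‖ ^ 2) with hg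
  have e1 : ∫ t : ℂ, ((‖t‖ ^ (2 * 3) : ℝ) : ℂ) * bf (t ^ 3) = ((∫ t : ℂ, g t : ℝ) : ℂ) := by
    rw [← integral_complex_ofReal]
    congr 1
    ext t
    rw [hg]
    unfold bf
    push_cast
    ring
  rw [e1] at h1
  have hpos : 0 < ∫ t : ℂ, g t := by
    have hc : Continuous g := by
      rw [hg]
      exact (continuous_norm.pow _).mul (bmp.continuous.comp (by fun_prop))
    have h3 : ((Real.sqrt (5 / 2) : ℝ) : ℂ) ≠ 0 := by
      have : 0 < Real.sqrt (5 / 2) := Real.sqrt_pos.mpr (by norm_num)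
      exact_mod_cast this.ne'
    refine int_pos hc ?_ (fun x => ?_) (x := nrt 3 ((Real.sqrt (5 / 2) : ℝ) : ℂ)) ?_
    · refine HasCompactSupport.intro (isCompact_closedBall (0 : ℂ) 2) fun x hx => ?_
      rw [mem_closedBall_zero_iff, not_le] at hx
      rw [hg]
      simp only
      rw [bmp_zero (Or.inr ?_), mul_zero]
      rw [norm_pow]
      have h4 : (2 : ℝ) ^ 3 ≤ ‖x‖ ^ 3 := by gcongr
      nlinarith
    · rw [hg]
      have := bmp.nonneg (x := ‖x ^ 3‖ ^ 2)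
      positivity
    · rw [hg]
      simp only
      rw [nrt_pow (by norm_num)]
      have h4 := bf_sqrt
      unfold bf at h4
      rw [Complex.ofReal_eq_one] at h4
      rw [h4, mul_one]
      have h5 : 0 < ‖nrt 3 ((Real.sqrt (5 / 2) : ℝ) : ℂ)‖ :=
        norm_pos_iff.mpr (nrt_ne_zero (by norm_num) h3)
      positivity
  have hgam := Xn960.gamN_pos 3 (by norm_num)
  refine ⟨Xn960.gamN 3 * ∫ t : ℂ, g t, by positivity, ?_⟩
  rw [h1]
  push_cast
  rfl

lemma mA_dl8 (f : ℂ → ℂ) : mA (dl 8 f) = 64 * mA f := by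
  rw [mA_dl f (by norm_num)]
  norm_num

lemma mB_dl8 (f : ℂ → ℂ) : mB (dl 8 f) = 256 * mB f := by
  rw [mB_dl f (by norm_num)]
  have h1 : ‖nrt 3 (8 : ℂ)‖ ^ 3 = 2 ^ 3 := by
    rw [norm_nrt3]; norm_num
  have h2 : ‖nrt 3 (8 : ℂ)‖ = 2 := (pow_left_inj₀ (norm_nonneg _) (by norm_num) (by norm_num)).mp h1
  rw [h2]
  norm_num

/-- normalising constants -/
def cA : ℝ := mA_bf.choose

/-- normalising constants -/
def cB : ℝ := mB_bf.choose

lemma cA_pos : 0 < cA := mA_bf.choose_spec.1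

lemma cB_pos : 0 < cB := mB_bf.choose_spec.1

lemma mA_bf' : mA bf = cA := mA_bf.choose_spec.2

lemma mB_bf' : mB bf = cB := mB_bf.choose_spec.2

/-- `mA = 1`, `mB = 0` -/
def ch1 (x : ℂ) : ℂ := ((256 / (192 * cA) : ℝ) : ℂ) * bf x + (((-1) / (192 * cA) : ℝ) : ℂ) * dl 8 bf x

/-- `mA = 0`, `mB = 1` -/
def ch2 (x : ℂ) : ℂ := (((-64) / (192 * cB) : ℝ) : ℂ) * bf x + ((1 / (192 * cB) : ℝ) : ℂ) * dl 8 bf x

lemma ev_ch1 : Ev ch1 := (ev_bf.const_mul _).add ((ev_bf.dl (by norm_num)).const_mul _)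

lemma ev_ch2 : Ev ch2 := (ev_bf.const_mul _).add ((ev_bf.dl (by norm_num)).const_mul _)

lemma mA_comb (a b : ℂ) : mA (fun x => a * bf x + b * dl 8 bf x) = (a + 64 * b) * cA := by
  rw [mA_add (ev_bf.const_mul _) ((ev_bf.dl (by norm_num)).const_mul _), mA_const_mul,
    mA_const_mul, mA_dl8, mA_bf']
  ring

lemma mB_comb (a b : ℂ) : mB (fun x => a * bf x + b * dl 8 bf x) = (a + 256 * b) * cB := by
  rw [mB_add (ev_bf.const_mul _) ((ev_bf.dl (by norm_num)).const_mul _), mB_const_mul,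
    mB_const_mul, mB_dl8, mB_bf']
  ring

lemma mA_ch1 : mA ch1 = 1 := by
  have h := cA_pos
  have h' : (cA : ℂ) ≠ 0 := by exact_mod_cast h.ne'
  unfold ch1
  rw [mA_comb]
  push_cast
  field_simp
  norm_num

lemma mB_ch1 : mB ch1 = 0 := by
  have h := cA_pos
  have h' : (cA : ℂ) ≠ 0 := by exact_mod_cast h.ne'
  unfold ch1
  rw [mB_comb]
  push_cast
  field_simp
  norm_num

lemma mA_ch2 : mA ch2 = 0 := by
  have h := cB_pos
  have h' : (cB : ℂ) ≠ 0 := by exact_mod_cast h.ne'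
  unfold ch2
  rw [mA_comb]
  push_cast
  field_simp
  norm_num

lemma mB_ch2 : mB ch2 = 1 := by
  have h := cB_pos
  have h' : (cB : ℂ) ≠ 0 := by exact_mod_cast h.ne'
  unfold ch2
  rw [mB_comb]
  push_cast
  field_simp
  norm_num

/-- the coefficient of the centre term -/
def ce1 (u : Eis) : ℂ := Def u ch1

/-- the coefficient of the polar term -/
def ce2 (u : Eis) : ℂ := Def u ch2

/-- the functional equation up to two constants. -/
theorem Def_eq {u : Eis} (hu : u ≠ 0) {f : ℂ → ℂ} (hf : Ev f) :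
    Def u f = ce1 u * mA f + ce2 u * mB f := by
  have h1 := (ev_ch1.const_mul (-mA f)).add (ev_ch2.const_mul (-mB f))
  have h2 := hf.add h1
  have hA : mA (fun x => f x + (-mA f * ch1 x + -mB f * ch2 x)) = 0 := by
    rw [mA_add hf h1, mA_add (ev_ch1.const_mul _) (ev_ch2.const_mul _), mA_const_mul,
      mA_const_mul, mA_ch1, mA_ch2]
    ring
  have hB : mB (fun x => f x + (-mA f * ch1 x + -mB f * ch2 x)) = 0 := by
    rw [mB_add hf h1, mB_add (ev_ch1.const_mul _) (ev_ch2.const_mul _), mB_const_mul,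
      mB_const_mul, mB_ch1, mB_ch2]
    ring
  have h3 := Def_dat hu (h2.dat hA hB)
  rw [Def_add hu hf h1, Def_add hu (ev_ch1.const_mul _) (ev_ch2.const_mul _), Def_const_mul,
    Def_const_mul] at h3
  unfold ce1 ce2
  linear_combination h3

end Crest.Agent.R017.F1
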