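import Crest.Agent.R017.F1Star3_180

/-!
# Row 17, section F, part 15 (helper180): multiplicative convolutions of the sums over `d`
-/

set_option autoImplicit false

noncomputable section

open MeasureTheory Complex Set Filter Topology

namespace Crest.Agent.R017.F1

open Crest.Agent.R012 Crest.Agent.R012.Eis

lemma exp_neg_abs_le (x : ℝ) : Real.exp (-|x|) ≤ 4 * (1 + ‖x‖) ^ (-(2 : ℝ)) := by
  have h1 : (1 + ‖x‖) ^ (-(2 : ℝ)) = ((1 + |x|) ^ 2)⁻¹ := by
    rw [Real.rpow_neg (by positivity), Real.norm_eq_abs]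
    norm_cast
  rw [h1, Real.exp_neg, inv_eq_one_div, ← div_eq_mul_inv, div_le_div_iff₀ (Real.exp_pos _)
    (by positivity)]
  have h2 : 1 + |x| / 2 ≤ Real.exp (|x| / 2) := by
    have := Real.add_one_le_exp (|x| / 2); linarith
  have h3 : Real.exp |x| = Real.exp (|x| / 2) ^ 2 := by
    rw [← Real.exp_nat_mul]; congr 1; push_cast; ring
  have h4 := abs_nonneg x
  have h5 : (1 + |x| / 2) ^ 2 ≤ Real.exp (|x| / 2) ^ 2 := by gcongr
  rw [h3]
  nlinarith

lemma integrable_exp_neg_abs : Integrable fun x : ℝ => Real.exp (-|x|) := by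
  have h1 : Integrable (fun x : ℝ => 4 * (1 + ‖x‖) ^ (-(2 : ℝ))) := by
    apply Integrable.const_mul
    apply integrable_one_add_norm
    simp
  refine h1.mono' (by fun_prop) (Eventually.of_forall fun x => ?_)
  rw [Real.norm_of_nonneg (Real.exp_pos _).le]
  exact exp_neg_abs_le x

/-- the class of functions on `ℝ` used: continuous, bounded by `C` and `C e^{-6y}`. -/
structure Q6 (ψ : ℝ → ℂ) : Prop where
  cont : Continuous ψ
  bd : ∃ C : ℝ, 0 ≤ C ∧ ∀ y, ‖ψ y‖ ≤ C ∧ ‖ψ y‖ ≤ C * Real.exp (-6 * y)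

lemma Q6.bd4 {ψ : ℝ → ℂ} (h : Q6 ψ) : ∃ C : ℝ, 0 ≤ C ∧ ∀ y, ‖ψ y‖ ≤ C ∧
    ‖ψ y‖ ≤ C * Real.exp (-6 * y) ∧ ‖ψ y‖ ≤ C * Real.exp (-4 * y) := by
  obtain ⟨C, hC0, hC⟩ := h.bd
  refine ⟨C, hC0, fun y => ⟨(hC y).1, (hC y).2, ?_⟩⟩
  rcases le_or_gt 0 y with hy | hy
  · refine (hC y).2.trans ?_
    gcongr
    linarith
  · refine (hC y).1.trans ?_
    have : 1 ≤ Real.exp (-4 * y) := Real.one_le_exp (by linarith)
    nlinarith

/-- `c_d = conj (gs v d)/N d` for primary `d` -/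
def cd (v d : Eis) : ℂ := by
  classical
  exact if IsPrim d then (starRingEnd ℂ) (gs v d) * (((nm d : ℝ)⁻¹ : ℝ) : ℂ) else 0

lemma norm_cd_le (v d : Eis) : ‖cd v d‖ ≤ 1 := by
  classical
  unfold cd
  split_ifs with h
  · rw [norm_mul, RCLike.norm_conj, Complex.norm_real, Real.norm_of_nonneg (by positivity)]
    have h1 := norm_gs_le' v h
    have h2 : (0 : ℝ) < nm d := by exact_mod_cast nm_pos.mpr h.ne_zero
    rw [← div_eq_mul_inv, div_le_one h2]
    exact h1
  · simp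

lemma cd_zero {v d : Eis} (h : ¬ IsPrim d) : cd v d = 0 := by
  classical
  unfold cd; rw [if_neg h]

/-- `log |d|` -/
def lg (d : Eis) : ℝ := Real.log ‖toC d‖

lemma exp_lg {d : Eis} (hd : d ≠ 0) : Real.exp (lg d) = ‖toC d‖ := by
  unfold lg
  exact Real.exp_log (norm_pos_iff.mpr (by rwa [Ne, toC_eq_zero]))

lemma exp_lg4 {d : Eis} (hd : d ≠ 0) : Real.exp (-4 * lg d) = ((nm d : ℝ) ^ 2)⁻¹ := by
  have : Real.exp (-4 * lg d) = (Real.exp (lg d) ^ 4)⁻¹ := by
    rw [← Real.exp_nat_mul, ← Real.exp_neg]; congr 1; push_cast; ring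
  rw [this, exp_lg hd, ← norm_toC_sq]
  ring

/-- `S_v[ψ](x) = Σ_d c_d ψ(log|d| - x)` -/
def SS (v : Eis) (ψ : ℝ → ℂ) (x : ℝ) : ℂ := ∑' d : Eis, cd v d * ψ (lg d - x)

lemma summable_cd (v : Eis) : Summable fun d : Eis => ‖cd v d‖ * Real.exp (-4 * lg d) := by
  refine Summable.of_nonneg_of_le (fun d => by positivity) (fun d => ?_) summable_inv_nm_sq
  by_cases h : IsPrim d
  · rw [exp_lg4 h.ne_zero]
    have := norm_cd_le v d
    have h2 : (0 : ℝ) ≤ ((nm d : ℝ) ^ 2)⁻¹ := by positivity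
    nlinarith
  · rw [cd_zero h, norm_zero, zero_mul]
    positivity

/-- pointwise bound -/
lemma term_le {ψ : ℝ → ℂ} {C : ℝ} (hC : ∀ y, ‖ψ y‖ ≤ C * Real.exp (-4 * y)) (v d : Eis) (x : ℝ) :
    ‖cd v d * ψ (lg d - x)‖ ≤ C * Real.exp (4 * x) * (‖cd v d‖ * Real.exp (-4 * lg d)) := by
  rw [norm_mul]
  have h1 := hC (lg d - x)
  have h2 : Real.exp (-4 * (lg d - x)) = Real.exp (-4 * lg d) * Real.exp (4 * x) := by
    rw [← Real.exp_add]; congr 1; ring
  rw [h2] at h1
  calc ‖cd v d‖ * ‖ψ (lg d - x)‖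
      ≤ ‖cd v d‖ * (C * (Real.exp (-4 * lg d) * Real.exp (4 * x))) := by gcongr
    _ = _ := by ring

lemma SS_summable {ψ : ℝ → ℂ} (h : Q6 ψ) (v : Eis) (x : ℝ) :
    Summable fun d : Eis => cd v d * ψ (lg d - x) := by
  obtain ⟨C, hC0, hC⟩ := h.bd4
  exact Summable.of_norm_bounded ((summable_cd v).mul_left (C * Real.exp (4 * x)))
    (fun d => term_le (fun y => (hC y).2.2) v d x)

lemma SS_le {ψ : ℝ → ℂ} (h : Q6 ψ) (v : Eis) : ∃ K : ℝ, 0 ≤ K ∧ ∀ x, ‖SS v ψ x‖ ≤
    K * Real.exp (4 * x) := by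
  obtain ⟨C, hC0, hC⟩ := h.bd4
  refine ⟨C * ∑' d : Eis, ‖cd v d‖ * Real.exp (-4 * lg d), ?_, fun x => ?_⟩
  · exact mul_nonneg hC0 (tsum_nonneg fun d => by positivity)
  · have := tsum_of_norm_bounded ((summable_cd v).mul_left (C * Real.exp (4 * x))).hasSum
      (fun d => term_le (fun y => (hC y).2.2) v d x)
    rw [tsum_mul_left] at this
    refine this.trans (le_of_eq ?_)
    ring

lemma SS_cont {ψ : ℝ → ℂ} (h : Q6 ψ) (v : Eis) : Continuous (SS v ψ) := by
  obtain ⟨C, hC0, hC⟩ := h.bd4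
  rw [continuous_iff_continuousAt]
  intro x0
  have h1 : ContinuousOn (SS v ψ) (Iio (x0 + 1)) := by
    refine continuousOn_tsum (u := fun d : Eis => C * Real.exp (4 * (x0 + 1)) *
      (‖cd v d‖ * Real.exp (-4 * lg d))) (fun d => ?_) ((summable_cd v).mul_left _)
      (fun d x hx => ?_)
    · exact (continuous_const.mul (h.cont.comp (by fun_prop))).continuousOn
    · refine (term_le (fun y => (hC y).2.2) v d x).trans ?_
      have hx' : x < x0 + 1 := hx
      gcongr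
  exact h1.continuousAt (Iio_mem_nhds (by linarith))

/-- bound for the convolution terms -/
lemma conv_le {ψ ψ' : ℝ → ℂ} {C C' : ℝ} (hC0 : 0 ≤ C) (hC0' : 0 ≤ C')
    (hC : ∀ y, ‖ψ y‖ ≤ C * Real.exp (-4 * y))
    (hC' : ∀ y, ‖ψ' y‖ ≤ C' ∧ ‖ψ' y‖ ≤ C' * Real.exp (-6 * y)) (D x : ℝ) :
    ‖ψ (D - x) * ψ' x‖ ≤ C * C' * Real.exp (-4 * D) * Real.exp (-|x|) := by
  rw [norm_mul]
  have h1 := hC (D - x)
  have h2 : Real.exp (-4 * (D - x)) = Real.exp (-4 * D) * Real.exp (4 * x) := by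
    rw [← Real.exp_add]; congr 1; ring
  rw [h2] at h1
  rcases le_or_gt 0 x with hx | hx
  · rw [abs_of_nonneg hx]
    have h3 : Real.exp (4 * x) * Real.exp (-6 * x) ≤ Real.exp (-x) := by
      rw [← Real.exp_add]
      apply Real.exp_le_exp.mpr
      linarith
    calc ‖ψ (D - x)‖ * ‖ψ' x‖
        ≤ (C * (Real.exp (-4 * D) * Real.exp (4 * x))) * (C' * Real.exp (-6 * x)) := by
          gcongr
          exact (hC' x).2
      _ = C * C' * Real.exp (-4 * D) * (Real.exp (4 * x) * Real.exp (-6 * x)) := by ring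
      _ ≤ _ := by gcongr
  · rw [abs_of_neg hx, neg_neg]
    have h3 : Real.exp (4 * x) ≤ Real.exp x := Real.exp_le_exp.mpr (by linarith)
    calc ‖ψ (D - x)‖ * ‖ψ' x‖ ≤ (C * (Real.exp (-4 * D) * Real.exp (4 * x))) * C' := by
          gcongr
          exact (hC' x).1
      _ = C * C' * Real.exp (-4 * D) * Real.exp (4 * x) := by ring
      _ ≤ _ := by gcongr

lemma conv_integrable {ψ ψ' : ℝ → ℂ} (h : Q6 ψ) (h' : Q6 ψ') (D : ℝ) :
    Integrable fun x => ψ (D - x) * ψ' x := by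
  obtain ⟨C, hC0, hC⟩ := h.bd4
  obtain ⟨C', hC0', hC'⟩ := h'.bd4
  refine (integrable_exp_neg_abs.const_mul (C * C' * Real.exp (-4 * D))).mono' ?_
    (Eventually.of_forall fun x => ?_)
  · exact ((h.cont.comp (by fun_prop)).mul h'.cont).aestronglyMeasurable
  · exact conv_le hC0 hC0' (fun y => (hC y).2.2) (fun y => ⟨(hC' y).1, (hC' y).2.1⟩) D x

lemma SS_conv {ψ ψ' : ℝ → ℂ} (h : Q6 ψ) (h' : Q6 ψ') (v : Eis) (X : ℝ) :
    ∫ x, SS v ψ (X + x) * ψ' x = ∑' d : Eis, cd v d * ∫ x, ψ (lg d - X - x) * ψ' x := by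
  obtain ⟨C, hC0, hC⟩ := h.bd4
  obtain ⟨C', hC0', hC'⟩ := h'.bd4
  set F : Eis → ℝ → ℂ := fun d x => cd v d * (ψ (lg d - X - x) * ψ' x) with hF
  have hint : ∀ d, Integrable (F d) := fun d => (conv_integrable h h' (lg d - X)).const_mul _
  have hsum : Summable fun d => ∫ x, ‖F d x‖ := by
    refine Summable.of_nonneg_of_le (fun d => integral_nonneg fun x => norm_nonneg _) (fun d => ?_)
      ((summable_cd v).mul_left (C * C' * Real.exp (4 * X) * ∫ x : ℝ, Real.exp (-|x|)))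
    have h1 : ∀ x, ‖F d x‖ ≤ (‖cd v d‖ * (C * C' * Real.exp (-4 * (lg d - X)))) *
        Real.exp (-|x|) := by
      intro x
      rw [hF]
      simp only
      rw [norm_mul]
      have := conv_le hC0 hC0' (fun y => (hC y).2.2) (fun y => ⟨(hC' y).1, (hC' y).2.1⟩)
        (lg d - X) x
      calc ‖cd v d‖ * ‖ψ (lg d - X - x) * ψ' x‖
          ≤ ‖cd v d‖ * (C * C' * Real.exp (-4 * (lg d - X)) * Real.exp (-|x|)) := by gcongr
        _ = _ := by ring
    calc ∫ x, ‖F d x‖ ≤ ∫ x, (‖cd v d‖ * (C * C' * Real.exp (-4 * (lg d - X)))) *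
        Real.exp (-|x|) :=
          integral_mono (hint d).norm (integrable_exp_neg_abs.const_mul _) h1
      _ = (‖cd v d‖ * (C * C' * Real.exp (-4 * (lg d - X)))) * ∫ x : ℝ, Real.exp (-|x|) :=
          integral_const_mul _ _
      _ = _ := by
          have : Real.exp (-4 * (lg d - X)) = Real.exp (-4 * lg d) * Real.exp (4 * X) := by
            rw [← Real.exp_add]; congr 1; ring
          rw [this]
          ring
  have h2 := (hasSum_integral_of_summable_integral_norm hint hsum).tsum_eq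
  have h3 : ∀ d, ∫ x, F d x = cd v d * ∫ x, ψ (lg d - X - x) * ψ' x := fun d =>
    integral_const_mul _ _
  rw [← tsum_congr h3, h2]
  refine integral_congr_ae (Eventually.of_forall fun x => ?_)
  simp only
  unfold SS
  rw [← tsum_mul_right]
  refine tsum_congr fun d => ?_
  rw [hF]
  simp only
  rw [show lg d - (X + x) = lg d - X - x by ring]
  ring

/-- **commutation** -/
theorem SS_comm {ψ ψ' : ℝ → ℂ} (h : Q6 ψ) (h' : Q6 ψ') (v : Eis) (X : ℝ) :
    ∫ x, SS v ψ (X + x) * ψ' x = ∫ x, SS v ψ' (X + x) * ψ x := by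
  rw [SS_conv h h', SS_conv h' h]
  refine tsum_congr fun d => ?_
  congr 1
  have := integral_sub_left_eq_self (fun x => ψ (lg d - X - x) * ψ' x) volume (lg d - X)
  rw [← this]
  refine integral_congr_ae (Eventually.of_forall fun x => ?_)
  simp only
  rw [show lg d - X - (lg d - X - x) = x by ring]
  ring

lemma SS_integrable {ψ ψ' : ℝ → ℂ} (h : Q6 ψ) (h' : Q6 ψ') (v : Eis) (X : ℝ) :
    Integrable fun x => SS v ψ (X + x) * ψ' x := by
  obtain ⟨K, hK0, hK⟩ := SS_le h v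
  obtain ⟨C', hC0', hC'⟩ := h'.bd4
  refine (integrable_exp_neg_abs.const_mul (K * C' * Real.exp (4 * X))).mono' ?_
    (Eventually.of_forall fun x => ?_)
  · exact (((SS_cont h v).comp (by fun_prop)).mul h'.cont).aestronglyMeasurable
  · rw [norm_mul]
    have h1 := hK (X + x)
    have h2 : Real.exp (4 * (X + x)) = Real.exp (4 * X) * Real.exp (4 * x) := by
      rw [← Real.exp_add]; congr 1; ring
    rw [h2] at h1
    rcases le_or_gt 0 x with hx | hx
    · rw [abs_of_nonneg hx]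
      have h3 : Real.exp (4 * x) * Real.exp (-6 * x) ≤ Real.exp (-x) := by
        rw [← Real.exp_add]
        apply Real.exp_le_exp.mpr
        linarith
      calc ‖SS v ψ (X + x)‖ * ‖ψ' x‖
          ≤ (K * (Real.exp (4 * X) * Real.exp (4 * x))) * (C' * Real.exp (-6 * x)) := by
            gcongr
            exact (hC' x).2.1
        _ = K * C' * Real.exp (4 * X) * (Real.exp (4 * x) * Real.exp (-6 * x)) := by ring
        _ ≤ _ := by gcongr
    · rw [abs_of_neg hx, neg_neg]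
      have h3 : Real.exp (4 * x) ≤ Real.exp x := Real.exp_le_exp.mpr (by linarith)
      calc ‖SS v ψ (X + x)‖ * ‖ψ' x‖ ≤ (K * (Real.exp (4 * X) * Real.exp (4 * x))) * C' := by
            gcongr
            exact (hC' x).1
        _ = K * C' * Real.exp (4 * X) * Real.exp (4 * x) := by ring
        _ ≤ _ := by gcongr

/-- functions with limits `0` at `-∞` and `ℓ` at `+∞` (`Up`), `B₀` at `-∞` and `0` at `+∞` (`Dn`) -/
def Up (A : ℝ → ℂ) (ℓ : ℂ) : Prop := ∃ C : ℝ, 0 ≤ C ∧ ∀ x, ‖A x - (if 0 ≤ x then ℓ else 0)‖ ≤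
  C * Real.exp (-|x|)

def Dn (B : ℝ → ℂ) (B0 : ℂ) : Prop := ∃ C : ℝ, 0 ≤ C ∧ ∀ x, ‖B x - (if x ≤ 0 then B0 else 0)‖ ≤
  C * Real.exp (-|x|)

theorem asym {A B : ℝ → ℂ} {ℓ B0 : ℂ} (hA : Up A ℓ) (hB : Dn B B0) (hAc : Continuous A)
    (hBc : Continuous B) :
    ∃ K : ℝ, ∀ X : ℝ, 0 ≤ X → ‖(∫ x, A (X + x) * B x) - ℓ * B0 * (X : ℂ)‖ ≤ K := by
  obtain ⟨C, hC0, hC⟩ := hA
  obtain ⟨C', hC0', hC'⟩ := hB
  set J : ℝ := ∫ x : ℝ, Real.exp (-|x|) with hJ
  refine ⟨C * (‖B0‖ + C') * J + ‖ℓ‖ * C' * J, fun X hX => ?_⟩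
  set I : ℝ → ℂ := fun x => if -X ≤ x ∧ x ≤ 0 then ℓ * B0 else 0 with hI
  have hIs : I = (Icc (-X) 0).indicator (fun _ => ℓ * B0) := by
    funext x
    by_cases h : x ∈ Icc (-X) 0
    · rw [indicator_of_mem h]
      exact if_pos h
    · rw [indicator_of_notMem h]
      exact if_neg h
  have hIi : Integrable I := by
    rw [hIs]
    refine (integrable_indicator_iff measurableSet_Icc).mpr ?_
    exact continuousOn_const.integrableOn_compact isCompact_Icc
  have hII : ∫ x, I x = ℓ * B0 * (X : ℂ) := by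
    rw [hIs, integral_indicator measurableSet_Icc, setIntegral_const]
    rw [measureReal_def, Real.volume_Icc, sub_neg_eq_add, zero_add,
      ENNReal.toReal_ofReal hX, Complex.real_smul]
    ring
  have e1 : Integrable fun x : ℝ => Real.exp (-|X + x|) := by
    have := integrable_exp_neg_abs.comp_add_left X
    exact this
  have hbd : ∀ x, ‖A (X + x) * B x - I x‖ ≤ C * (‖B0‖ + C') * Real.exp (-|X + x|) +
      ‖ℓ‖ * C' * Real.exp (-|x|) := by
    intro x
    have h1 := hC (X + x)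
    have h2 := hC' x
    set a : ℂ := if 0 ≤ X + x then ℓ else 0 with ha
    set b : ℂ := if x ≤ 0 then B0 else 0 with hb
    have h3 : I x = a * b := by
      rw [hI, ha, hb]
      simp only
      by_cases h4 : 0 ≤ X + x
      · by_cases h5 : x ≤ 0
        · rw [if_pos ⟨by linarith, h5⟩, if_pos h4, if_pos h5]
        · rw [if_neg (fun h => h5 h.2), if_neg h5, mul_zero]
      · rw [if_neg (fun h => h4 (by linarith [h.1])), if_neg h4, zero_mul]
    have h6 : ‖a‖ ≤ ‖ℓ‖ := by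
      rw [ha]; split_ifs
      · exact le_rfl
      · rw [norm_zero]; positivity
    have h7 : ‖b‖ ≤ ‖B0‖ := by
      rw [hb]; split_ifs
      · exact le_rfl
      · rw [norm_zero]; positivity
    have h8 : ‖B x‖ ≤ ‖B0‖ + C' := by
      have h9 : B x = b + (B x - b) := by ring
      have h10 : Real.exp (-|x|) ≤ 1 := Real.exp_le_one_iff.mpr (by simp)
      rw [h9]
      refine (norm_add_le _ _).trans ?_
      have : ‖B x - b‖ ≤ C' := h2.trans (by nlinarith)
      linarith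
    have h9 : A (X + x) * B x - I x = (A (X + x) - a) * B x + a * (B x - b) := by
      rw [h3]; ring
    rw [h9]
    refine (norm_add_le _ _).trans ?_
    rw [norm_mul, norm_mul]
    calc ‖A (X + x) - a‖ * ‖B x‖ + ‖a‖ * ‖B x - b‖
        ≤ (C * Real.exp (-|X + x|)) * (‖B0‖ + C') + ‖ℓ‖ * (C' * Real.exp (-|x|)) := by
          gcongr
      _ = _ := by ring
  have hmaj : Integrable fun x : ℝ => C * (‖B0‖ + C') * Real.exp (-|X + x|) +
      ‖ℓ‖ * C' * Real.exp (-|x|) := (e1.const_mul _).add (integrable_exp_neg_abs.const_mul _)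
  have hdi : Integrable fun x => A (X + x) * B x - I x := by
    refine hmaj.mono' ?_ (Eventually.of_forall hbd)
    exact (((hAc.comp (by fun_prop)).mul hBc).aestronglyMeasurable).sub hIi.aestronglyMeasurable
  have hAB : Integrable fun x => A (X + x) * B x := by
    have := hdi.add hIi
    refine this.congr (Eventually.of_forall fun x => ?_)
    simp
  have h1 : (∫ x, A (X + x) * B x) - ℓ * B0 * (X : ℂ) = ∫ x, (A (X + x) * B x - I x) := by
    rw [integral_sub hAB hIi, hII]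
  rw [h1]
  calc ‖∫ x, (A (X + x) * B x - I x)‖ ≤ ∫ x, (C * (‖B0‖ + C') * Real.exp (-|X + x|) +
      ‖ℓ‖ * C' * Real.exp (-|x|)) := norm_integral_le_of_norm_le hmaj (Eventually.of_forall hbd)
    _ = C * (‖B0‖ + C') * (∫ x : ℝ, Real.exp (-|X + x|)) + ‖ℓ‖ * C' * J := by
        rw [integral_add (e1.const_mul _) (integrable_exp_neg_abs.const_mul _),
          integral_const_mul, integral_const_mul]
    _ = _ := by
        have : ∫ x : ℝ, Real.exp (-|X + x|) = J :=
          integral_add_left_eq_self (fun x : ℝ => Real.exp (-|x|)) X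
        rw [this]

end Crest.Agent.R017.F1
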