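import Crest.Agent.R017.F1Star4_180

/-!
# Row 17, section F, part 16 (helper180): radial functions; behaviour of `f_L` and `W` at `0`, `∞`
-/

set_option autoImplicit false

noncomputable section

open MeasureTheory Complex Set Filter Topology
open scoped SchwartzMap

namespace Crest.Agent.R017.F1

open Crest.Agent.R012 Crest.Agent.R012.Eis Crest.Agent.R012.Po581
open Crest.Agent.R012.Parseval499 (frq s3 toC_s3_ne)
open Crest.Agent.R017.Xi590 Crest.Agent.R017.Xn590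

/-- radial functions -/
def Rad (φ : ℂ → ℂ) : Prop := ∀ x y : ℂ, ‖x‖ = ‖y‖ → φ x = φ y

lemma rad_bf : Rad bf := fun x y h => by unfold bf; rw [h]

lemma Rad.dl {φ : ℂ → ℂ} (h : Rad φ) (w : ℂ) : Rad (dl w φ) := fun x y hxy => by
  unfold F1.dl
  exact h _ _ (by rw [norm_div, norm_div, hxy])

lemma Rad.add {φ ψ : ℂ → ℂ} (h : Rad φ) (h' : Rad ψ) : Rad (fun x => φ x + ψ x) :=
  fun x y hxy => by simp only; rw [h x y hxy, h' x y hxy]

lemma Rad.const_mul {φ : ℂ → ℂ} (h : Rad φ) (a : ℂ) : Rad (fun x => a * φ x) :=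
  fun x y hxy => by simp only; rw [h x y hxy]

lemma rad_ch1 : Rad ch1 := (rad_bf.const_mul _).add ((rad_bf.dl 8).const_mul _)

lemma Rad.Phi {f : ℂ → ℂ} (h : Rad f) : Rad (F1.Phi f) := by
  intro x y hxy
  by_cases hx : x = 0
  · subst hx
    rw [norm_zero] at hxy
    have : y = 0 := norm_eq_zero.mp hxy.symm
    rw [this]
  · have hy : y ≠ 0 := by
      rintro rfl
      rw [norm_zero] at hxy
      exact hx (norm_eq_zero.mp hxy)
    have hz : x / y ≠ 0 := div_ne_zero hx hy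
    have hn : ‖x / y‖ = 1 := by
      rw [norm_div, hxy, div_self (norm_ne_zero_iff.mpr hy)]
    unfold F1.Phi
    rw [Four813.integral_comp_mul_left' hz, hn, one_pow, one_smul]
    congr 1
    ext z
    rw [h (x / y * z) z (by rw [norm_mul, hn, one_mul])]
    congr 3
    by_cases h0 : z = 0
    · subst h0; simp
    · field_simp

lemma Rad.fO {f : ℂ → ℂ} (h : Rad f) : Rad (fO f) := by
  classical
  intro x y hxy
  unfold F1.fO
  congr 1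
  refine tsum_congr fun m => ?_
  split_ifs
  · rfl
  · exact h.Phi _ _ (by rw [norm_mul, norm_mul, hxy])

lemma norm_nrt_congr {x y : ℂ} (h : ‖x‖ = ‖y‖) : ‖nrt 3 x‖ = ‖nrt 3 y‖ := by
  refine (pow_left_inj₀ (norm_nonneg _) (norm_nonneg _) (n := 3) (by norm_num)).mp ?_
  rw [norm_nrt3, norm_nrt3, h]

lemma Rad.Wf {f : ℂ → ℂ} (h : Rad f) : Rad (Wf f) := by
  intro x y hxy
  unfold F1.Wf
  rw [h.fO x y hxy, norm_nrt_congr hxy]

lemma Rad.gg {φ : ℂ → ℂ} (h : Rad φ) : Rad (gg φ) := by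
  intro x y hxy
  unfold F1.gg
  rw [h x y hxy, h (x / (3 * toC s3)) (y / (3 * toC s3)) (by rw [norm_div, norm_div, hxy])]

lemma Rad.fP {f : ℂ → ℂ} (h : Rad f) : Rad (fP f) := by
  intro x y hxy
  unfold F1.fP
  congr 1
  refine tsum_congr fun e => ?_
  rw [h (toC e ^ 3 * x) (toC e ^ 3 * y) (by rw [norm_mul, norm_mul, hxy])]

lemma Rad.fL {f : ℂ → ℂ} (h : Rad f) : Rad (fL f) := by
  intro x y hxy
  unfold F1.fL
  rw [h.fP x y hxy, h.fP (al * x) (al * y) (by rw [norm_mul, norm_mul, hxy])]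

/-! ### continuity of `Ts` -/

lemma Ts_cont (R : 𝓢(ℂ, ℂ)) {σ : ℂ} (hσ : σ ≠ 0) : ContinuousAt (Ts R) σ := by
  classical
  have hp : 0 < ‖σ‖ := norm_pos_iff.mpr hσ
  obtain ⟨C, hC0, hC⟩ := sch_dec R 3
  set d : ℝ := min 1 (‖σ‖ / 2) with hd
  have hd0 : 0 < d := lt_min one_pos (by positivity)
  have hS : {v : ℂ | ‖σ‖ / 2 < ‖v‖} ∈ 𝓝 σ :=
    (isOpen_lt continuous_const continuous_norm).mem_nhds (by
      show ‖σ‖ / 2 < ‖σ‖
      linarith)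
  have hc : ContinuousOn (Ts R) {v : ℂ | ‖σ‖ / 2 < ‖v‖} := by
    refine continuousOn_tsum (u := fun m : Eis => C * (d ^ 3)⁻¹ * ((1 + ‖toC m‖) ^ 3)⁻¹)
      (fun m => ?_) (summable_inv3.mul_left _) (fun m v hv => ?_)
    · split_ifs with hm
      · exact continuousOn_const
      · exact (R.continuous.comp (continuous_id.mul continuous_const)).continuousOn
    · split_ifs with hm
      · rw [norm_zero]; positivity
      · refine dil_bound hC hd0 (min_le_left _ _) (norm_nonneg _) ?_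
        rw [norm_mul]
        have hv' : ‖σ‖ / 2 < ‖v‖ := hv
        gcongr
        exact (min_le_right _ _).trans hv'.le
  exact hc.continuousAt hS

/-! ### `f_L` near `0` -/

/-- `‖t‖⁴ f(t³)` as a Schwartz function -/
def Wp {f : ℂ → ℂ} (h : CS f) : 𝓢(ℂ, ℂ) := (CS_powW h 4 (n := 3) (by norm_num)).S

lemma Wp_apply {f : ℂ → ℂ} (h : CS f) (t : ℂ) : Wp h t = ((‖t‖ ^ 4 : ℝ) : ℂ) * f (t ^ 3) := rfl

lemma Wp_zero {f : ℂ → ℂ} (h : CS f) : Wp h 0 = 0 := by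
  rw [Wp_apply]; simp

lemma fCS_Wp_zero {f : ℂ → ℂ} (h : CS f) : fCS (Wp h) 0 = (1 / 3 : ℂ) * mA f := by
  have h1 := Xn960.mom1_pow 3 (by norm_num) h.cont
  have h2 : fCS (Wp h) 0 = ∫ t : ℂ, ((‖t‖ ^ (2 * 3 - 2) : ℝ) : ℂ) * f (t ^ 3) := by
    rw [fCS_apply]
    unfold fC
    congr 1
    ext z
    rw [zero_mul, neg_zero, eC_zero', mul_one, Wp_apply]
  rw [h2]
  unfold mA
  rw [h1]
  push_cast
  ring

/-- `Θ(t) = ‖t‖⁶ f_+(t³)` -/
def Tht {f : ℂ → ℂ} (h : CS f) (t : ℂ) : ℂ := ((1 / 6 * ‖t‖ ^ 2 : ℝ) : ℂ) * Ts (Wp h) t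

lemma Ts_Wp {f : ℂ → ℂ} (h : CS f) (t : ℂ) :
    Ts (Wp h) t = 6 * (((‖t‖ ^ 4 : ℝ) : ℂ) * fP f (t ^ 3)) := by
  classical
  unfold Ts fP
  have e1 : ∀ m : Eis, (if m = 0 then 0 else Wp h (t * toC m)) =
      ((‖t‖ ^ 4 : ℝ) : ℂ) * ((nm m : ℂ) ^ 2 * f (toC m ^ 3 * t ^ 3)) := by
    intro m
    have h4 : ‖toC m‖ ^ 4 = (nm m : ℝ) ^ 2 := by
      rw [← norm_toC_sq]; ring
    split_ifs with hm
    · subst hm
      simp
    · rw [Wp_apply, norm_mul, mul_pow, h4, mul_pow, mul_comm (t ^ 3) (toC m ^ 3)]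
      push_cast
      ring
  simp_rw [e1]
  rw [tsum_mul_left]
  ring

lemma Tht_eq {f : ℂ → ℂ} (h : CS f) (t : ℂ) :
    Tht h t = ((‖t‖ ^ 6 : ℝ) : ℂ) * fP f (t ^ 3) := by
  unfold Tht
  rw [Ts_Wp]
  push_cast
  ring

lemma sqrt3_mul : Real.sqrt 3 * Real.sqrt 3 = 3 := Real.mul_self_sqrt (by norm_num)

lemma b0_eq : b0 = 1 / 6 * (2 / Real.sqrt 3) * (1 / 3) := by
  unfold b0 vL
  have h : 0 < Real.sqrt 3 := by positivity
  field_simp

lemma Tht_pois {f : ℂ → ℂ} (h : CS f) {t : ℂ} (ht : t ≠ 0) :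
    Tht h t = (b0 : ℂ) * mA f + ((1 / 6 * (2 / Real.sqrt 3) : ℝ) : ℂ) *
      Ts (fCS (Wp h)) ((kap3 * t)⁻¹) := by
  have h1 := Ts_pois (Wp h) ht
  rw [Wp_zero, zero_add, fCS_Wp_zero] at h1
  unfold Tht
  rw [h1, b0_eq]
  have hp : (‖t‖ ^ 2 : ℝ) ≠ 0 := by
    have := norm_pos_iff.mpr ht
    positivity
  have e : (((1 / 6 * ‖t‖ ^ 2 : ℝ)) : ℂ) * (((2 / Real.sqrt 3 : ℝ) : ℂ) *
      ((((‖t‖ ^ 2)⁻¹ : ℝ) : ℂ) * (1 / 3 * mA f + Ts (fCS (Wp h)) (kap3 * t)⁻¹))) =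
      ((1 / 6 * ‖t‖ ^ 2 * (2 / Real.sqrt 3) * (‖t‖ ^ 2)⁻¹ : ℝ) : ℂ) *
        (1 / 3 * mA f + Ts (fCS (Wp h)) (kap3 * t)⁻¹) := by
    push_cast; ring
  rw [e]
  have e2 : 1 / 6 * ‖t‖ ^ 2 * (2 / Real.sqrt 3) * (‖t‖ ^ 2)⁻¹ = 1 / 6 * (2 / Real.sqrt 3) := by
    field_simp
  rw [e2]
  push_cast
  ring

lemma Tht_bd {f : ℂ → ℂ} (h : CS f) : ∃ C : ℝ, 0 ≤ C ∧ ∀ t : ℂ, t ≠ 0 →
    ‖Tht h t‖ ≤ C ∧ ‖Tht h t‖ ≤ C * (‖t‖ ^ 18)⁻¹ ∧ ‖Tht h t - (b0 : ℂ) * mA f‖ ≤ C * ‖t‖ ^ 3 := by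
  have hb := b0_pos
  obtain ⟨C1, hC1, h1⟩ := Ts_dec (Wp h) 20
  obtain ⟨C2, hC2, h2⟩ := Ts_dec (fCS (Wp h)) 3
  set K : ℝ := ‖kap3‖ with hK
  have hKp : 0 < K := norm_pos_iff.mpr kap3_ne
  have hK1 : 1 ≤ K := by
    have := norm_kap3
    nlinarith
  have hs3 : 0 < 2 / Real.sqrt 3 := by positivity
  obtain ⟨C3, hC3, h3⟩ := Ts_bd (Wp h) (inv_pos.mpr hKp)
  set c3 : ℝ := 1 / 6 * (2 / Real.sqrt 3) with hc3
  have hc3p : 0 < c3 := by positivity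
  -- large
  have big : ∀ t : ℂ, 1 ≤ ‖t‖ → ‖Tht h t‖ ≤ C1 * (‖t‖ ^ 18)⁻¹ := by
    intro t ht
    have htp : 0 < ‖t‖ := by linarith
    unfold Tht
    rw [norm_mul, Complex.norm_real, Real.norm_of_nonneg (by positivity)]
    calc 1 / 6 * ‖t‖ ^ 2 * ‖Ts (Wp h) t‖ ≤ 1 * ‖t‖ ^ 2 * (C1 * (‖t‖ ^ 20)⁻¹) := by
          gcongr
          · norm_num
          · exact h1 t ht
      _ = C1 * (‖t‖ ^ 18)⁻¹ := by field_simp
  -- small
  have small : ∀ t : ℂ, t ≠ 0 → K * ‖t‖ ≤ 1 → ‖Tht h t - (b0 : ℂ) * mA f‖ ≤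
      c3 * C2 * K ^ 3 * ‖t‖ ^ 3 := by
    intro t ht htK
    have htp : 0 < ‖t‖ := norm_pos_iff.mpr ht
    rw [Tht_pois h ht, add_sub_cancel_left, norm_mul, Complex.norm_real,
      Real.norm_of_nonneg hc3p.le]
    have h4 := h2 ((kap3 * t)⁻¹) (by
      rw [norm_inv, norm_mul]
      exact (one_le_inv₀ (by positivity)).mpr htK)
    rw [norm_inv, norm_mul, inv_pow, inv_inv, mul_pow] at h4
    calc c3 * ‖Ts (fCS (Wp h)) (kap3 * t)⁻¹‖ ≤ c3 * (C2 * (K ^ 3 * ‖t‖ ^ 3)) := by gcongr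
      _ = _ := by ring
  -- middle
  have mid : ∀ t : ℂ, t ≠ 0 → 1 ≤ K * ‖t‖ → ‖t‖ ≤ 1 → ‖Tht h t‖ ≤ C3 := by
    intro t ht htK ht1
    have h4 := h3 t (by rw [inv_le_iff_one_le_mul₀ hKp, mul_comm]; exact htK)
    unfold Tht
    rw [norm_mul, Complex.norm_real, Real.norm_of_nonneg (by positivity)]
    have h5 : 1 / 6 * ‖t‖ ^ 2 ≤ 1 := by nlinarith [norm_nonneg t]
    calc 1 / 6 * ‖t‖ ^ 2 * ‖Ts (Wp h) t‖ ≤ 1 * C3 := by gcongr
      _ = C3 := one_mul _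
  set m : ℝ := b0 * ‖mA f‖ with hm
  have hm0 : 0 ≤ m := by positivity
  have hm' : ‖(b0 : ℂ) * mA f‖ = m := by
    rw [norm_mul, Complex.norm_real, Real.norm_of_nonneg hb.le]
  set B : ℝ := C1 + C3 + m + c3 * C2 with hB
  have hB0 : 0 ≤ B := by positivity
  have small' : ∀ t : ℂ, t ≠ 0 → K * ‖t‖ ≤ 1 → ‖Tht h t‖ ≤ m + c3 * C2 := by
    intro t ht htK
    have h4 := small t ht htK
    have h5 : Tht h t = (Tht h t - (b0 : ℂ) * mA f) + (b0 : ℂ) * mA f := by ring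
    rw [h5]
    refine (norm_add_le _ _).trans ?_
    rw [hm']
    have h6 : K ^ 3 * ‖t‖ ^ 3 ≤ 1 := by
      rw [← mul_pow]; exact pow_le_one₀ (by positivity) htK
    have h7 : c3 * C2 * K ^ 3 * ‖t‖ ^ 3 ≤ c3 * C2 := by
      calc c3 * C2 * K ^ 3 * ‖t‖ ^ 3 = c3 * C2 * (K ^ 3 * ‖t‖ ^ 3) := by ring
        _ ≤ c3 * C2 * 1 := by gcongr
        _ = _ := mul_one _
    linarith
  have all : ∀ t : ℂ, t ≠ 0 → ‖Tht h t‖ ≤ B := by
    intro t ht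
    have htp : 0 < ‖t‖ := norm_pos_iff.mpr ht
    rcases le_or_gt (K * ‖t‖) 1 with hc | hc
    · have := small' t ht hc
      rw [hB]; linarith
    · rcases le_or_gt ‖t‖ 1 with h5 | h5
      · have := mid t ht hc.le h5
        have h6 : 0 ≤ c3 * C2 := by positivity
        rw [hB]; linarith
      · have h6 := big t h5.le
        have h7 : (‖t‖ ^ 18)⁻¹ ≤ 1 := inv_le_one_of_one_le₀ (one_le_pow₀ h5.le)
        have h8 : C1 * (‖t‖ ^ 18)⁻¹ ≤ C1 := by nlinarith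
        have h9 : 0 ≤ c3 * C2 := by positivity
        rw [hB]; linarith
  refine ⟨B + (B + m) * K ^ 3 + c3 * C2 * K ^ 3, by positivity, fun t ht => ⟨?_, ?_, ?_⟩⟩
  · have := all t ht
    have h4 : 0 ≤ (B + m) * K ^ 3 + c3 * C2 * K ^ 3 := by positivity
    linarith
  · have htp : 0 < ‖t‖ := norm_pos_iff.mpr ht
    have h4 : 0 ≤ (B + m) * K ^ 3 + c3 * C2 * K ^ 3 := by positivity
    rcases le_or_gt ‖t‖ 1 with h5 | h5
    · have h6 : 1 ≤ (‖t‖ ^ 18)⁻¹ := (one_le_inv₀ (by positivity)).mpr (pow_le_one₀ htp.le h5)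
      have := all t ht
      nlinarith
    · have h6 := big t h5.le
      have h7 : C1 ≤ B + (B + m) * K ^ 3 + c3 * C2 * K ^ 3 := by
        have : 0 ≤ c3 * C2 := by positivity
        rw [hB] at h4 ⊢; linarith
      exact h6.trans (by gcongr)
  · have htp : 0 < ‖t‖ := norm_pos_iff.mpr ht
    rcases le_or_gt (K * ‖t‖) 1 with hc | hc
    · refine (small t ht hc).trans ?_
      have : 0 ≤ B + (B + m) * K ^ 3 := by positivity
      gcongr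
      linarith
    · have h5 : ‖Tht h t - (b0 : ℂ) * mA f‖ ≤ B + m := by
        refine (norm_sub_le _ _).trans ?_
        rw [hm']
        exact add_le_add (all t ht) le_rfl
      have h6 : 1 ≤ K ^ 3 * ‖t‖ ^ 3 := by rw [← mul_pow]; exact one_le_pow₀ hc.le
      calc ‖Tht h t - (b0 : ℂ) * mA f‖ ≤ B + m := h5
        _ ≤ (B + m) * (K ^ 3 * ‖t‖ ^ 3) := le_mul_of_one_le_right (by positivity) h6
        _ = (B + m) * K ^ 3 * ‖t‖ ^ 3 := by ring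
        _ ≤ _ := by
            have : 0 ≤ c3 * C2 * K ^ 3 := by positivity
            gcongr
            linarith

end Crest.Agent.R017.F1
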