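import Crest.Agent.R017.F1Star5_180

/-!
# Row 17, section F, part 17 (helper180): the centre term vanishes
-/

set_option autoImplicit false

noncomputable section

open MeasureTheory Complex Set Filter Topology
open scoped SchwartzMap

namespace Crest.Agent.R017.F1

open Crest.Agent.R012 Crest.Agent.R012.Eis Crest.Agent.R012.Po581
open Crest.Agent.R012.Parseval499 (frq s3 toC_s3_ne)
open Crest.Agent.R017.Xi590 Crest.Agent.R017.Xn590

/-- radial functions with limit `B` at infinity, rapidly decreasing at `0`. -/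
structure Wc (φ : ℂ → ℂ) (B : ℂ) : Prop where
  rad : Rad φ
  cont : ∀ c : ℝ, 0 < c → Continuous fun y : ℝ => φ ((c * Real.exp (-y) : ℝ) : ℂ)
  bd : ∃ C : ℝ, 0 ≤ C ∧ ∀ y : ℂ, y ≠ 0 → ‖φ y‖ ≤ C ∧ ‖φ y‖ ≤ C * ‖y‖ ^ 6 ∧
    ‖φ y - B‖ ≤ C * ‖y‖⁻¹

lemma fO_cube {f : ℂ → ℂ} (h : CS f) (t : ℂ) : fO f (t ^ 3) = (b0 : ℂ) * Ts (Ps h) t := by
  classical
  unfold fO Ts b0
  congr 1
  refine tsum_congr fun m => ?_
  rw [Ps_apply, mul_pow]

/-- real cube roots -/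
lemma exists_cbrt {c : ℝ} (hc : 0 < c) : ∃ r : ℝ, 0 < r ∧ r ^ 3 = c :=
  ⟨c ^ ((1 : ℝ) / 3), by positivity, by
    rw [← Real.rpow_natCast, ← Real.rpow_mul hc.le]
    norm_num⟩

lemma exp_third (y : ℝ) : Real.exp (y / 3) ^ 3 = Real.exp y := by
  rw [← Real.exp_nat_mul]; congr 1; push_cast; ring

lemma Wf_ch1_eq (y : ℂ) : Wf ch1 y = fO ch1 y + (b0 : ℂ) := by
  unfold Wf
  rw [mA_ch1, mB_ch1]
  ring

lemma Wc_W : Wc (Wf ch1) (b0 : ℂ) where
  rad := rad_ch1.Wf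
  cont := by
    intro c hc
    obtain ⟨r, hr, hrc⟩ := exists_cbrt hc
    have e : (fun y : ℝ => Wf ch1 ((c * Real.exp (-y) : ℝ) : ℂ)) = fun y : ℝ =>
        (b0 : ℂ) * Ts (Ps ev_ch1.cs) ((r * Real.exp (-y / 3) : ℝ) : ℂ) + (b0 : ℂ) := by
      funext y
      rw [Wf_ch1_eq, ← fO_cube ev_ch1.cs]
      congr 2
      rw [← Complex.ofReal_pow, mul_pow, hrc, exp_third]
    rw [e]
    rw [continuous_iff_continuousAt]
    intro y
    have h1 : ((r * Real.exp (-y / 3) : ℝ) : ℂ) ≠ 0 := by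
      have : 0 < r * Real.exp (-y / 3) := by positivity
      exact_mod_cast this.ne'
    have h2 : ContinuousAt (fun y : ℝ => ((r * Real.exp (-y / 3) : ℝ) : ℂ)) y := by
      apply Continuous.continuousAt
      exact Complex.continuous_ofReal.comp (by fun_prop)
    exact (continuousAt_const.mul
      (ContinuousAt.comp (f := fun y : ℝ => ((r * Real.exp (-y / 3) : ℝ) : ℂ)) (Ts_cont _ h1)
        h2)).add continuousAt_const
  bd := by
    obtain ⟨C1, hC1, h1⟩ := Wf_dec ev_ch1.cs 0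
    obtain ⟨C2, hC2, h2⟩ := Wf_dec ev_ch1.cs 6
    obtain ⟨C3, hC3, h3⟩ := fO_inf ev_ch1.cs 1
    have hb := b0_pos
    refine ⟨C1 + C2 + C3 + b0, by positivity, fun y hy => ?_⟩
    have hyp : 0 < ‖y‖ := norm_pos_iff.mpr hy
    have a1 := h1 y hy
    rw [pow_zero, mul_one] at a1
    have a2 := h2 y hy
    refine ⟨by linarith, a2.trans ?_, ?_⟩
    · gcongr
      linarith
    · rcases le_or_gt 1 ‖y‖ with hc | hc
      · have a3 := h3 y hc
        rw [pow_one] at a3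
        rw [Wf_ch1_eq, add_sub_cancel_right]
        refine a3.trans ?_
        gcongr
        linarith
      · have h4 : 1 ≤ ‖y‖⁻¹ := (one_le_inv₀ hyp).mpr hc.le
        have h5 : ‖Wf ch1 y - (b0 : ℂ)‖ ≤ C1 + b0 := by
          refine (norm_sub_le _ _).trans ?_
          rw [Complex.norm_real, Real.norm_of_nonneg hb.le]
          linarith
        calc _ ≤ C1 + b0 := h5
          _ ≤ (C1 + C2 + C3 + b0) * 1 := by linarith
          _ ≤ _ := by gcongr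

lemma norm_s33 : 1 ≤ ‖(3 * toC s3 : ℂ)‖ := by
  have h := lam_cube
  have h1 : ‖(3 * toC s3 : ℂ)‖ = ‖al‖ := by
    unfold al
    rw [h, norm_neg]
  rw [h1]
  exact norm_al_ge

lemma Wc.gg {φ : ℂ → ℂ} {B : ℂ} (h : Wc φ B) : Wc (gg φ) 0 where
  rad := h.rad.gg
  cont := by
    intro c hc
    have hs := norm_s33
    set K : ℝ := ‖(3 * toC s3 : ℂ)‖ with hK
    have hKp : 0 < K := by linarith
    have e : (fun y : ℝ => F1.gg φ ((c * Real.exp (-y) : ℝ) : ℂ)) = fun y : ℝ =>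
        (1 / 3 : ℂ) * (φ (((c / K) * Real.exp (-y) : ℝ) : ℂ) - φ ((c * Real.exp (-y) : ℝ) : ℂ)) := by
      funext y
      unfold F1.gg
      rw [h.rad (((c * Real.exp (-y) : ℝ) : ℂ) / (3 * toC s3)) (((c / K) * Real.exp (-y) : ℝ) : ℂ)]
      rw [norm_div, Complex.norm_real, Complex.norm_real, Real.norm_of_nonneg (by positivity),
        Real.norm_of_nonneg (by positivity), ← hK]
      ring
    rw [e]
    exact continuous_const.mul ((h.cont _ (by positivity)).sub (h.cont c hc))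
  bd := by
    obtain ⟨C, hC0, hC⟩ := h.bd
    have hs := norm_s33
    set K : ℝ := ‖(3 * toC s3 : ℂ)‖ with hK
    have hKp : 0 < K := by linarith
    have hs0 : (3 * toC s3 : ℂ) ≠ 0 := norm_pos_iff.mp hKp
    refine ⟨C * (1 + K), by positivity, fun y hy => ?_⟩
    have hyp : 0 < ‖y‖ := norm_pos_iff.mpr hy
    have h1 := hC y hy
    have h2 := hC (y / (3 * toC s3)) (div_ne_zero hy hs0)
    rw [norm_div, ← hK] at h2
    have h3 : ‖(1 / 3 : ℂ)‖ = 1 / 3 := by norm_num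
    have e1 : ‖F1.gg φ y‖ ≤ ‖φ (y / (3 * toC s3))‖ + ‖φ y‖ := by
      unfold F1.gg
      rw [norm_mul, h3]
      have := norm_sub_le (φ (y / (3 * toC s3))) (φ y)
      have a1 := norm_nonneg (φ (y / (3 * toC s3)))
      have a2 := norm_nonneg (φ y)
      linarith
    refine ⟨?_, ?_, ?_⟩
    · -- bounded
      have : ‖F1.gg φ y‖ ≤ 2 * C := e1.trans (by linarith [h1.1, h2.1])
      nlinarith
    · have h4 : (‖y‖ / K) ^ 6 ≤ ‖y‖ ^ 6 := by
        gcongr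
        exact div_le_self hyp.le hs
      have : ‖F1.gg φ y‖ ≤ 2 * C * ‖y‖ ^ 6 := by
        refine e1.trans ?_
        have := h1.2.1
        have := h2.2.1
        nlinarith
      calc ‖F1.gg φ y‖ ≤ C * (1 + 1) * ‖y‖ ^ 6 := by linarith
        _ ≤ _ := by gcongr
    · rw [sub_zero]
      have e2 : F1.gg φ y = (1 / 3 : ℂ) * ((φ (y / (3 * toC s3)) - B) - (φ y - B)) := by
        unfold F1.gg; ring
      have e3 : ‖F1.gg φ y‖ ≤ ‖φ (y / (3 * toC s3)) - B‖ + ‖φ y - B‖ := by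
        rw [e2, norm_mul, h3]
        have := norm_sub_le (φ (y / (3 * toC s3)) - B) (φ y - B)
        have a1 := norm_nonneg (φ (y / (3 * toC s3)) - B)
        have a2 := norm_nonneg (φ y - B)
        linarith
      refine e3.trans ?_
      have h5 := h1.2.2
      have h6 := h2.2.2
      rw [inv_div] at h6
      calc ‖φ (y / (3 * toC s3)) - B‖ + ‖φ y - B‖ ≤ C * (K / ‖y‖) + C * ‖y‖⁻¹ := add_le_add h6 h5
        _ = C * (1 + K) * ‖y‖⁻¹ := by ring

/-- `ψ(y) = φ(c e^{-y})` -/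
def psiW (φ : ℂ → ℂ) (c : ℝ) (y : ℝ) : ℂ := φ ((c * Real.exp (-y) : ℝ) : ℂ)

lemma Wc.q6 {φ : ℂ → ℂ} {B : ℂ} (h : Wc φ B) {c : ℝ} (hc : 0 < c) : Q6 (psiW φ c) where
  cont := h.cont c hc
  bd := by
    obtain ⟨C, hC0, hC⟩ := h.bd
    refine ⟨C * (1 + c ^ 6), by positivity, fun y => ?_⟩
    have hp : 0 < c * Real.exp (-y) := by positivity
    have hne : ((c * Real.exp (-y) : ℝ) : ℂ) ≠ 0 := by exact_mod_cast hp.ne'
    obtain ⟨h1, h2, _⟩ := hC _ hne
    rw [Complex.norm_real, Real.norm_of_nonneg hp.le] at h2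
    unfold psiW
    constructor
    · refine h1.trans ?_
      have : 0 < c ^ 6 := by positivity
      nlinarith
    · refine h2.trans ?_
      have h3 : Real.exp (-y) ^ 6 = Real.exp (-6 * y) := by
        rw [← Real.exp_nat_mul]; congr 1; push_cast; ring
      rw [mul_pow, h3]
      have : 0 < Real.exp (-6 * y) := Real.exp_pos _
      have h4 : C * (c ^ 6 * Real.exp (-6 * y)) = C * c ^ 6 * Real.exp (-6 * y) := by ring
      rw [h4]
      gcongr
      linarith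

lemma Wc.dn {φ : ℂ → ℂ} {B : ℂ} (h : Wc φ B) {c : ℝ} (hc : 0 < c) : Dn (psiW φ c) B := by
  obtain ⟨C, hC0, hC⟩ := h.bd
  refine ⟨C * (c⁻¹ + c ^ 6), by positivity, fun y => ?_⟩
  have hp : 0 < c * Real.exp (-y) := by positivity
  have hne : ((c * Real.exp (-y) : ℝ) : ℂ) ≠ 0 := by exact_mod_cast hp.ne'
  obtain ⟨_, h2, h3⟩ := hC _ hne
  rw [Complex.norm_real, Real.norm_of_nonneg hp.le] at h2 h3
  unfold psiW
  rcases le_or_gt y 0 with hy | hy
  · rw [if_pos hy, abs_of_nonpos hy, neg_neg]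
    refine h3.trans ?_
    rw [mul_inv, ← Real.exp_neg, neg_neg]
    have : 0 < Real.exp y := Real.exp_pos _
    have h4 : C * (c⁻¹ * Real.exp y) = C * c⁻¹ * Real.exp y := by ring
    rw [h4]
    gcongr
    have : 0 < c ^ 6 := by positivity
    linarith
  · rw [if_neg (not_le.mpr hy), sub_zero, abs_of_pos hy]
    refine h2.trans ?_
    have h3 : Real.exp (-y) ^ 6 = Real.exp (-6 * y) := by
      rw [← Real.exp_nat_mul]; congr 1; push_cast; ring
    rw [mul_pow, h3]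
    have h5 : Real.exp (-6 * y) ≤ Real.exp (-y) := Real.exp_le_exp.mpr (by linarith)
    calc C * (c ^ 6 * Real.exp (-6 * y)) ≤ C * (c ^ 6 * Real.exp (-y)) := by gcongr
      _ = C * c ^ 6 * Real.exp (-y) := by ring
      _ ≤ _ := by
          gcongr
          have : 0 < c⁻¹ := by positivity
          linarith

/-- `ψ(y) = e^{2y} f_L(e^y)` -/
def psiZ (y : ℝ) : ℂ := ((Real.exp (2 * y) : ℝ) : ℂ) * fL ch1 ((Real.exp y : ℝ) : ℂ)

lemma psiZ_eq (y : ℝ) : psiZ y = Tht ev_ch1.cs ((Real.exp (y / 3) : ℝ) : ℂ) -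
    (1 / 3 : ℂ) * Tht ev_ch1.cs (toC lam * ((Real.exp (y / 3) : ℝ) : ℂ)) := by
  have h6 : Real.exp (y / 3) ^ 6 = Real.exp (2 * y) := by
    rw [← Real.exp_nat_mul]; congr 1; push_cast; ring
  have e1 : ((Real.exp (y / 3) : ℝ) : ℂ) ^ 3 = ((Real.exp y : ℝ) : ℂ) := by
    rw [← Complex.ofReal_pow, exp_third]
  have e2 : (toC lam * ((Real.exp (y / 3) : ℝ) : ℂ)) ^ 3 = al * ((Real.exp y : ℝ) : ℂ) := by
    rw [mul_pow, e1]; rfl
  have e3 : ‖toC lam‖ ^ 6 = 27 := by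
    have := norm_al2
    unfold al at this
    rw [norm_pow] at this
    calc ‖toC lam‖ ^ 6 = (‖toC lam‖ ^ 3) ^ 2 := by ring
      _ = 27 := this
  rw [Tht_eq, Tht_eq, e1, e2, norm_mul, mul_pow, e3, Complex.norm_real,
    Real.norm_of_nonneg (Real.exp_pos _).le, h6]
  unfold psiZ fL
  push_cast
  ring

lemma lam_norm : 1 ≤ ‖toC lam‖ ∧ ‖toC lam‖ ^ 3 ≤ 6 := by
  have h1 := norm_al2
  unfold al at h1
  rw [norm_pow] at h1
  have h0 := norm_nonneg (toC lam)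
  constructor
  · by_contra h
    push Not at h
    have : ‖toC lam‖ ^ 3 ≤ 1 := pow_le_one₀ h0 h.le
    have h2 : 0 ≤ ‖toC lam‖ ^ 3 := by positivity
    nlinarith
  · by_contra h
    push Not at h
    nlinarith

lemma psiZ_aux (y : ℝ) : ((Real.exp (y / 3) : ℝ) : ℂ) ≠ 0 ∧
    toC lam * ((Real.exp (y / 3) : ℝ) : ℂ) ≠ 0 ∧
    ‖((Real.exp (y / 3) : ℝ) : ℂ)‖ = Real.exp (y / 3) ∧
    (Real.exp (y / 3) ≤ ‖toC lam * ((Real.exp (y / 3) : ℝ) : ℂ)‖ ∧
    ‖toC lam * ((Real.exp (y / 3) : ℝ) : ℂ)‖ ^ 3 ≤ 6 * Real.exp y) := by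
  have h0 : 0 < Real.exp (y / 3) := Real.exp_pos _
  have h1 : ((Real.exp (y / 3) : ℝ) : ℂ) ≠ 0 := by exact_mod_cast h0.ne'
  have hl := lam_norm
  have h2 : ‖((Real.exp (y / 3) : ℝ) : ℂ)‖ = Real.exp (y / 3) := by
    rw [Complex.norm_real, Real.norm_of_nonneg h0.le]
  have h3 : toC lam ≠ 0 := norm_pos_iff.mp (by linarith [hl.1])
  refine ⟨h1, mul_ne_zero h3 h1, h2, ?_, ?_⟩
  · rw [norm_mul, h2]; nlinarith [hl.1]
  · rw [norm_mul, h2, mul_pow, exp_third]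
    have := Real.exp_pos y
    nlinarith [hl.2]

lemma psiZ_q6 : Q6 psiZ where
  cont := by
    have e : psiZ = fun y : ℝ => Tht ev_ch1.cs ((Real.exp (y / 3) : ℝ) : ℂ) -
        (1 / 3 : ℂ) * Tht ev_ch1.cs (toC lam * ((Real.exp (y / 3) : ℝ) : ℂ)) :=
      funext psiZ_eq
    have hT : ∀ t : ℂ, t ≠ 0 → ContinuousAt (Tht ev_ch1.cs) t := by
      intro t ht
      unfold Tht
      refine ContinuousAt.mul ?_ (Ts_cont _ ht)
      apply Continuous.continuousAt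
      fun_prop
    have hl : toC lam ≠ 0 := by
      intro h
      have := al_ne
      unfold al at this
      rw [h] at this
      simp at this
    rw [e, continuous_iff_continuousAt]
    intro y
    have h1 : ((Real.exp (y / 3) : ℝ) : ℂ) ≠ 0 := by exact_mod_cast (Real.exp_pos _).ne'
    have h2 : ContinuousAt (fun y : ℝ => ((Real.exp (y / 3) : ℝ) : ℂ)) y := by
      apply Continuous.continuousAt
      exact Complex.continuous_ofReal.comp (by fun_prop)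
    have h3 : ContinuousAt (fun y : ℝ => toC lam * ((Real.exp (y / 3) : ℝ) : ℂ)) y :=
      continuousAt_const.mul h2
    exact (ContinuousAt.comp (f := fun y : ℝ => ((Real.exp (y / 3) : ℝ) : ℂ)) (hT _ h1) h2).sub
      (continuousAt_const.mul (ContinuousAt.comp
        (f := fun y : ℝ => toC lam * ((Real.exp (y / 3) : ℝ) : ℂ)) (hT _ (mul_ne_zero hl h1)) h3))
  bd := by
    obtain ⟨C, hC0, hC⟩ := Tht_bd ev_ch1.cs
    refine ⟨2 * C, by positivity, fun y => ?_⟩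
    obtain ⟨t1, t2, n1, n2⟩ := psiZ_aux y
    have a1 := hC _ t1
    have a2 := hC _ t2
    rw [psiZ_eq]
    have e1 : ‖Tht ev_ch1.cs ((Real.exp (y / 3) : ℝ) : ℂ) -
        (1 / 3 : ℂ) * Tht ev_ch1.cs (toC lam * ((Real.exp (y / 3) : ℝ) : ℂ))‖ ≤
        ‖Tht ev_ch1.cs ((Real.exp (y / 3) : ℝ) : ℂ)‖ +
        ‖Tht ev_ch1.cs (toC lam * ((Real.exp (y / 3) : ℝ) : ℂ))‖ := by
      refine (norm_sub_le _ _).trans ?_
      rw [norm_mul]
      have h3 : ‖(1 / 3 : ℂ)‖ = 1 / 3 := by norm_num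
      rw [h3]
      have := norm_nonneg (Tht ev_ch1.cs (toC lam * ((Real.exp (y / 3) : ℝ) : ℂ)))
      linarith
    constructor
    · refine e1.trans ?_
      linarith [a1.1, a2.1]
    · refine e1.trans ?_
      have b1 := a1.2.1
      have b2 := a2.2.1
      rw [n1] at b1
      have h4 : (Real.exp (y / 3) ^ 18)⁻¹ = Real.exp (-6 * y) := by
        rw [← Real.exp_nat_mul, ← Real.exp_neg]; congr 1; push_cast; ring
      have h5 : (‖toC lam * ((Real.exp (y / 3) : ℝ) : ℂ)‖ ^ 18)⁻¹ ≤ (Real.exp (y / 3) ^ 18)⁻¹ := by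
        have : 0 < Real.exp (y / 3) := Real.exp_pos _
        gcongr
        exact n2.1
      rw [h4] at h5 b1
      have h6 : C * (‖toC lam * ((Real.exp (y / 3) : ℝ) : ℂ)‖ ^ 18)⁻¹ ≤
          C * Real.exp (-6 * y) := by gcongr
      linarith

lemma psiZ_dn : Dn psiZ ((2 / 3 : ℂ) * (b0 : ℂ)) := by
  obtain ⟨C, hC0, hC⟩ := Tht_bd ev_ch1.cs
  obtain ⟨C', hC0', hC'⟩ := psiZ_q6.bd
  refine ⟨3 * C + C', by positivity, fun y => ?_⟩
  rcases le_or_gt y 0 with hy | hy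
  · rw [if_pos hy, abs_of_nonpos hy, neg_neg]
    obtain ⟨t1, t2, n1, n2⟩ := psiZ_aux y
    have a1 := (hC _ t1).2.2
    have a2 := (hC _ t2).2.2
    rw [n1, exp_third, mA_ch1, mul_one] at a1
    rw [mA_ch1, mul_one] at a2
    have e : psiZ y - (2 / 3 : ℂ) * (b0 : ℂ) =
        (Tht ev_ch1.cs ((Real.exp (y / 3) : ℝ) : ℂ) - (b0 : ℂ)) -
        (1 / 3 : ℂ) * (Tht ev_ch1.cs (toC lam * ((Real.exp (y / 3) : ℝ) : ℂ)) - (b0 : ℂ)) := by
      rw [psiZ_eq]; ring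
    rw [e]
    refine (norm_sub_le _ _).trans ?_
    rw [norm_mul]
    have h3 : ‖(1 / 3 : ℂ)‖ = 1 / 3 := by norm_num
    rw [h3]
    have h4 : ‖toC lam * ((Real.exp (y / 3) : ℝ) : ℂ)‖ ^ 3 ≤ 6 * Real.exp y := n2.2
    have h5 : 0 < Real.exp y := Real.exp_pos _
    calc ‖Tht ev_ch1.cs ((Real.exp (y / 3) : ℝ) : ℂ) - (b0 : ℂ)‖ + 1 / 3 *
        ‖Tht ev_ch1.cs (toC lam * ((Real.exp (y / 3) : ℝ) : ℂ)) - (b0 : ℂ)‖
        ≤ C * Real.exp y + 1 / 3 * (C * (6 * Real.exp y)) := by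
          gcongr
          exact a2.trans (by gcongr)
      _ = 3 * C * Real.exp y := by ring
      _ ≤ _ := by
          gcongr
          linarith
  · rw [if_neg (not_le.mpr hy), sub_zero, abs_of_pos hy]
    refine (hC' y).2.trans ?_
    have h5 : Real.exp (-6 * y) ≤ Real.exp (-y) := Real.exp_le_exp.mpr (by linarith)
    calc C' * Real.exp (-6 * y) ≤ C' * Real.exp (-y) := by gcongr
      _ ≤ _ := by
          gcongr
          linarith

/-! ### the sums -/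

lemma exp_ne (x : ℝ) : ((Real.exp x : ℝ) : ℂ) ≠ 0 := by exact_mod_cast (Real.exp_pos x).ne'

lemma Cg_psiW {φ : ℂ → ℂ} (h : Rad φ) (r : Eis) {c : ℂ} (x : ℝ) :
    Cg r (rc (fun y => φ (y * ((Real.exp x : ℝ) : ℂ))) c) = SS r (psiW φ ‖c‖) x := by
  classical
  unfold Cg SS
  refine tsum_congr fun d => ?_
  by_cases hd : IsPrim d
  · rw [if_pos hd]
    unfold cd rc psiW
    rw [if_pos hd, norm_toC_sq]
    simp only
    have hd0 := hd.ne_zero
    have hp : 0 < ‖toC d‖ := norm_pos_iff.mpr (by rwa [Ne, toC_eq_zero])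
    rw [h (c / toC d * ((Real.exp x : ℝ) : ℂ)) ((‖c‖ * Real.exp (-(lg d - x)) : ℝ) : ℂ)]
    · ring
    · rw [norm_mul, norm_div, Complex.norm_real, Complex.norm_real,
        Real.norm_of_nonneg (Real.exp_pos _).le, Real.norm_of_nonneg (by positivity),
        show -(lg d - x) = x - lg d by ring, Real.exp_sub, exp_lg hd0]
      ring
  · rw [if_neg hd, cd_zero hd, zero_mul]

lemma Cg_psiZ (r : Eis) (x : ℝ) :
    Cg r (fL (dl ((Real.exp x : ℝ) : ℂ) ch1)) = ((Real.exp (2 * x) : ℝ) : ℂ) * SS r psiZ x := by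
  classical
  unfold Cg SS
  rw [← tsum_mul_left]
  refine tsum_congr fun d => ?_
  by_cases hd : IsPrim d
  · rw [if_pos hd]
    unfold cd psiZ
    rw [if_pos hd, fL_dl]
    have hd0 := hd.ne_zero
    have hp : 0 < ‖toC d‖ := norm_pos_iff.mpr (by rwa [Ne, toC_eq_zero])
    rw [rad_ch1.fL (toC d / ((Real.exp x : ℝ) : ℂ)) ((Real.exp (lg d - x) : ℝ) : ℂ)]
    · have e1 : Real.exp (2 * (lg d - x)) = (nm d : ℝ) * (Real.exp (2 * x))⁻¹ := by
        rw [← Real.exp_neg, show (2 * (lg d - x) : ℝ) = lg d + lg d + -(2 * x) by ring,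
          Real.exp_add, Real.exp_add, exp_lg hd0, ← norm_toC_sq]
        ring
      rw [e1]
      have h2 : ((nm d : ℝ) : ℂ) ≠ 0 := by
        have : (0 : ℝ) < nm d := by exact_mod_cast nm_pos.mpr hd0
        exact_mod_cast this.ne'
      have h3 := exp_ne (2 * x)
      push_cast at h2 h3 ⊢
      field_simp
    · rw [norm_div, Complex.norm_real, Complex.norm_real,
        Real.norm_of_nonneg (Real.exp_pos _).le, Real.norm_of_nonneg (Real.exp_pos _).le,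
        Real.exp_sub, exp_lg hd0]
  · rw [if_neg hd, cd_zero hd, zero_mul, mul_zero]

/-- `U(x) = D_u(W(· e^x))` -/
def UU (u : Eis) (x : ℝ) : ℂ := Du u (fun y => Wf ch1 (y * ((Real.exp x : ℝ) : ℂ)))

lemma eqA {r : Eis} (hr : r ≠ 0) (x : ℝ) : SS r psiZ x = ce1 r + UU r (-x) := by
  have h1 := Def_eq hr (ev_ch1.dl (exp_ne x))
  have h2 : mB (dl ((Real.exp x : ℝ) : ℂ) ch1) = 0 := by
    rw [mB_dl _ (exp_ne x), mB_ch1, mul_zero]
  rw [mA_dl _ (exp_ne x), h2, mA_ch1, mul_one, mul_zero, add_zero] at h1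
  unfold Def at h1
  rw [Cg_psiZ] at h1
  have e1 : ‖((Real.exp x : ℝ) : ℂ)‖ ^ 2 = Real.exp (2 * x) := by
    rw [Complex.norm_real, Real.norm_of_nonneg (Real.exp_pos _).le, ← Real.exp_nat_mul]
    congr 1
  have e2 : Wf (dl ((Real.exp x : ℝ) : ℂ) ch1) = fun y => ((Real.exp (2 * x) : ℝ) : ℂ) *
      Wf ch1 (y * ((Real.exp (-x) : ℝ) : ℂ)) := by
    funext y
    rw [Wf_dl _ (exp_ne x), e1]
    congr 2
    rw [Real.exp_neg, Complex.ofReal_inv, div_eq_mul_inv]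
  rw [e2, Du_const_mul, e1] at h1
  have h3 := exp_ne (2 * x)
  unfold UU
  have h4 : ((Real.exp (2 * x) : ℝ) : ℂ) * (SS r psiZ x - (ce1 r +
      Du r (fun y => Wf ch1 (y * ((Real.exp (-x) : ℝ) : ℂ))))) = 0 := by
    linear_combination h1
  rcases mul_eq_zero.mp h4 with h5 | h5
  · exact absurd h5 h3
  · exact sub_eq_zero.mp h5

lemma gg_dil (φ : ℂ → ℂ) (b : ℂ) : gg (fun y => φ (y * b)) = fun y => gg φ (y * b) := by
  funext y
  unfold gg
  simp only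
  rw [show y / (3 * toC s3) * b = y * b / (3 * toC s3) by ring]

lemma eqB (u : Eis) (x : ℝ) : UU u x =
    (2 / 3 : ℂ) * SS u (psiW (Wf ch1) ‖toC u‖) x +
    (eC (frq 3 u) + eC (-frq 3 u)) * SS u (psiW (gg (Wf ch1)) ‖toC u‖) x +
    ∑ δ ∈ Dl u, Lam δ u * (((nm δ : ℝ)⁻¹ : ℝ) : ℂ) *
      SS (δ * u) (psiW (gg (Wf ch1)) ‖toC u / toC δ‖) x := by
  unfold UU Du
  rw [Cg_psiW Wc_W.rad, gg_dil, Cg_psiW Wc_W.gg.rad]
  congr 1
  refine Finset.sum_congr rfl fun δ _ => ?_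
  rw [Cg_psiW Wc_W.gg.rad]

lemma toC_norm_pos {u : Eis} (hu : u ≠ 0) : 0 < ‖toC u‖ :=
  norm_pos_iff.mpr (by rwa [Ne, toC_eq_zero])

lemma Dl_pos {u δ : Eis} (hu : u ≠ 0) (h : δ ∈ Dl u) : 0 < ‖toC u / toC δ‖ :=
  norm_pos_iff.mpr (Dl_ne hu h)

lemma UU_le {u : Eis} (hu : u ≠ 0) : ∃ K : ℝ, 0 ≤ K ∧ ∀ x, ‖UU u x‖ ≤ K * Real.exp (4 * x) := by
  classical
  obtain ⟨K1, hK1, h1⟩ := SS_le (Wc_W.q6 (toC_norm_pos hu)) u
  obtain ⟨K2, hK2, h2⟩ := SS_le (Wc_W.gg.q6 (toC_norm_pos hu)) u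
  have h3 : ∀ δ : Eis, ∃ K : ℝ, 0 ≤ K ∧ (δ ∈ Dl u → ∀ x,
      ‖SS (δ * u) (psiW (gg (Wf ch1)) ‖toC u / toC δ‖) x‖ ≤ K * Real.exp (4 * x)) := by
    intro δ
    by_cases hδ : δ ∈ Dl u
    · obtain ⟨K, hK, h⟩ := SS_le (Wc_W.gg.q6 (Dl_pos hu hδ)) (δ * u)
      exact ⟨K, hK, fun _ => h⟩
    · exact ⟨0, le_rfl, fun h => absurd h hδ⟩
  choose K3 hK3 h3 using h3
  refine ⟨‖(2 / 3 : ℂ)‖ * K1 + ‖eC (frq 3 u) + eC (-frq 3 u)‖ * K2 +
    ∑ δ ∈ Dl u, ‖Lam δ u * (((nm δ : ℝ)⁻¹ : ℝ) : ℂ)‖ * K3 δ, ?_, fun x => ?_⟩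
  · have : 0 ≤ ∑ δ ∈ Dl u, ‖Lam δ u * (((nm δ : ℝ)⁻¹ : ℝ) : ℂ)‖ * K3 δ :=
      Finset.sum_nonneg fun δ _ => mul_nonneg (norm_nonneg _) (hK3 δ)
    positivity
  · rw [eqB]
    have e0 : ∀ a b c d : ℝ, (a + b + c) * d = (a * d + b * d) + c * d := by intros; ring
    rw [e0, Finset.sum_mul]
    refine (norm_add_le _ _).trans (add_le_add ((norm_add_le _ _).trans (add_le_add ?_ ?_))
      ((norm_sum_le _ _).trans (Finset.sum_le_sum fun δ hδ => ?_)))
    · rw [norm_mul, mul_assoc]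
      exact mul_le_mul_of_nonneg_left (h1 x) (norm_nonneg _)
    · rw [norm_mul, mul_assoc]
      exact mul_le_mul_of_nonneg_left (h2 x) (norm_nonneg _)
    · rw [norm_mul, mul_assoc]
      exact mul_le_mul_of_nonneg_left (h3 δ hδ x) (norm_nonneg _)

lemma UU_eq {u : Eis} (hu : u ≠ 0) (x : ℝ) : UU u x = SS u psiZ (-x) - ce1 u := by
  rw [eqA hu, neg_neg]; ring

lemma SS_up {r : Eis} (hr : r ≠ 0) : Up (SS r psiZ) (ce1 r) := by
  obtain ⟨K, hK, h⟩ := SS_le psiZ_q6 r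
  obtain ⟨K', hK', h'⟩ := UU_le hr
  refine ⟨K + K', by positivity, fun x => ?_⟩
  rcases le_or_gt 0 x with hx | hx
  · rw [if_pos hx, abs_of_nonneg hx, eqA hr, add_sub_cancel_left]
    refine (h' (-x)).trans ?_
    have h5 : Real.exp (4 * -x) ≤ Real.exp (-x) := Real.exp_le_exp.mpr (by linarith)
    calc K' * Real.exp (4 * -x) ≤ K' * Real.exp (-x) := by gcongr
      _ ≤ _ := by
          gcongr
          linarith
  · rw [if_neg (not_le.mpr hx), abs_of_neg hx, neg_neg, sub_zero]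
    refine (h x).trans ?_
    have h5 : Real.exp (4 * x) ≤ Real.exp x := Real.exp_le_exp.mpr (by linarith)
    calc K * Real.exp (4 * x) ≤ K * Real.exp x := by gcongr
      _ ≤ _ := by
          gcongr
          linarith

lemma UU_up {u : Eis} (hu : u ≠ 0) : Up (UU u) (-ce1 u) := by
  obtain ⟨K, hK, h⟩ := SS_le psiZ_q6 u
  obtain ⟨K', hK', h'⟩ := UU_le hu
  refine ⟨K + K', by positivity, fun x => ?_⟩
  rcases le_or_gt 0 x with hx | hx
  · rw [if_pos hx, abs_of_nonneg hx, UU_eq hu, sub_neg_eq_add, sub_add_cancel]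
    refine (h (-x)).trans ?_
    have h5 : Real.exp (4 * -x) ≤ Real.exp (-x) := Real.exp_le_exp.mpr (by linarith)
    calc K * Real.exp (4 * -x) ≤ K * Real.exp (-x) := by gcongr
      _ ≤ _ := by
          gcongr
          linarith
  · rw [if_neg (not_le.mpr hx), abs_of_neg hx, neg_neg, sub_zero]
    refine (h' x).trans ?_
    have h5 : Real.exp (4 * x) ≤ Real.exp x := Real.exp_le_exp.mpr (by linarith)
    calc K' * Real.exp (4 * x) ≤ K' * Real.exp x := by gcongr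
      _ ≤ _ := by
          gcongr
          linarith

/-! ### linear asymptotics -/

/-- `g(X) = c X + O(1)` -/
def Asy (g : ℝ → ℂ) (c : ℂ) : Prop := ∃ K : ℝ, ∀ X : ℝ, 0 ≤ X → ‖g X - c * (X : ℂ)‖ ≤ K

lemma Asy.add {g g' : ℝ → ℂ} {c c' : ℂ} (h : Asy g c) (h' : Asy g' c') :
    Asy (fun X => g X + g' X) (c + c') := by
  obtain ⟨K, hK⟩ := h
  obtain ⟨K', hK'⟩ := h'
  refine ⟨K + K', fun X hX => ?_⟩
  have e : g X + g' X - (c + c') * (X : ℂ) = (g X - c * (X : ℂ)) + (g' X - c' * (X : ℂ)) := by ring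
  rw [e]
  exact (norm_add_le _ _).trans (add_le_add (hK X hX) (hK' X hX))

lemma Asy.const_mul {g : ℝ → ℂ} {c : ℂ} (h : Asy g c) (a : ℂ) :
    Asy (fun X => a * g X) (a * c) := by
  obtain ⟨K, hK⟩ := h
  refine ⟨‖a‖ * K, fun X hX => ?_⟩
  have e : a * g X - a * c * (X : ℂ) = a * (g X - c * (X : ℂ)) := by ring
  rw [e, norm_mul]
  exact mul_le_mul_of_nonneg_left (hK X hX) (norm_nonneg _)

lemma Asy.sum {ι : Type*} {s : Finset ι} {g : ι → ℝ → ℂ} {c : ι → ℂ}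
    (h : ∀ i ∈ s, Asy (g i) (c i)) : Asy (fun X => ∑ i ∈ s, g i X) (∑ i ∈ s, c i) := by
  classical
  induction s using Finset.induction_on with
  | empty => exact ⟨0, fun X _ => by simp⟩
  | insert a s ha ih =>
    have h1 := (h a (Finset.mem_insert_self a s)).add
      (ih fun i hi => h i (Finset.mem_insert_of_mem hi))
    rw [Finset.sum_insert ha]
    have e : (fun X => ∑ i ∈ insert a s, g i X) = fun X => g a X + ∑ i ∈ s, g i X := by
      funext X; rw [Finset.sum_insert ha]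
    rw [e]
    exact h1

lemma Asy.unique {g : ℝ → ℂ} {c c' : ℂ} (h : Asy g c) (h' : Asy g c') : c = c' := by
  obtain ⟨K, hK⟩ := h
  obtain ⟨K', hK'⟩ := h'
  by_contra hne
  have hp : 0 < ‖c - c'‖ := norm_pos_iff.mpr (sub_ne_zero.mpr hne)
  set X : ℝ := (|K| + |K'| + 1) / ‖c - c'‖ with hX
  have hX0 : 0 ≤ X := by positivity
  have e : (c - c') * (X : ℂ) = (g X - c' * (X : ℂ)) - (g X - c * (X : ℂ)) := by ring
  have h1 : ‖(c - c') * (X : ℂ)‖ ≤ K' + K := by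
    rw [e]
    exact (norm_sub_le _ _).trans (add_le_add (hK' X hX0) (hK X hX0))
  rw [norm_mul, Complex.norm_real, Real.norm_of_nonneg hX0, hX, mul_div_cancel₀ _ hp.ne'] at h1
  have h2 := le_abs_self K
  have h3 := le_abs_self K'
  linarith

lemma asy_comp {r : Eis} (hr : r ≠ 0) {φ : ℂ → ℂ} {B : ℂ} (h : Wc φ B) {c : ℝ} (hc : 0 < c) :
    Asy (fun X => ∫ x, SS r (psiW φ c) (X + x) * psiZ x) (ce1 r * B) := by
  have h1 := asym (SS_up hr) (h.dn hc) (SS_cont psiZ_q6 r) (h.q6 hc).cont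
  obtain ⟨K, hK⟩ := h1
  refine ⟨K, fun X hX => ?_⟩
  simp only
  rw [SS_comm (h.q6 hc) psiZ_q6]
  exact hK X hX

lemma UU_cont {u : Eis} (hu : u ≠ 0) : Continuous (UU u) := by
  have : UU u = fun x => SS u psiZ (-x) - ce1 u := funext (UU_eq hu)
  rw [this]
  exact ((SS_cont psiZ_q6 u).comp continuous_neg).sub continuous_const

/-- **The centre term vanishes.** -/
theorem ce1_eq_zero {u : Eis} (hu : u ≠ 0) : ce1 u = 0 := by
  classical
  have hb := b0_pos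
  have L := asym (UU_up hu) psiZ_dn (UU_cont hu) psiZ_q6.cont
  have L' : Asy (fun X => ∫ x, UU u (X + x) * psiZ x) (-ce1 u * ((2 / 3 : ℂ) * (b0 : ℂ))) := L
  -- the right side
  have R1 := (asy_comp hu Wc_W (toC_norm_pos hu)).const_mul (2 / 3 : ℂ)
  have R2 := (asy_comp hu Wc_W.gg (toC_norm_pos hu)).const_mul (eC (frq 3 u) + eC (-frq 3 u))
  have R3 := Asy.sum (s := Dl u) (g := fun δ X => Lam δ u * (((nm δ : ℝ)⁻¹ : ℝ) : ℂ) *
    ∫ x, SS (δ * u) (psiW (gg (Wf ch1)) ‖toC u / toC δ‖) (X + x) * psiZ x)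
    (c := fun δ => Lam δ u * (((nm δ : ℝ)⁻¹ : ℝ) : ℂ) * (ce1 (δ * u) * 0)) (fun δ hδ => by
      have hδ0 : δ * u ≠ 0 := mul_ne_zero ((mem_Dl hu).mp hδ).1.1 hu
      exact (asy_comp hδ0 Wc_W.gg (Dl_pos hu hδ)).const_mul _)
  have R := (R1.add R2).add R3
  have e : ∀ X : ℝ, ∫ x, UU u (X + x) * psiZ x =
      (2 / 3 : ℂ) * (∫ x, SS u (psiW (Wf ch1) ‖toC u‖) (X + x) * psiZ x) +
      (eC (frq 3 u) + eC (-frq 3 u)) *
        (∫ x, SS u (psiW (gg (Wf ch1)) ‖toC u‖) (X + x) * psiZ x) +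
      ∑ δ ∈ Dl u, Lam δ u * (((nm δ : ℝ)⁻¹ : ℝ) : ℂ) *
        ∫ x, SS (δ * u) (psiW (gg (Wf ch1)) ‖toC u / toC δ‖) (X + x) * psiZ x := by
    intro X
    have i1 := (SS_integrable (Wc_W.q6 (toC_norm_pos hu)) psiZ_q6 u X).const_mul (2 / 3 : ℂ)
    have i2 := (SS_integrable (Wc_W.gg.q6 (toC_norm_pos hu)) psiZ_q6 u X).const_mul
      (eC (frq 3 u) + eC (-frq 3 u))
    have i3 : ∀ δ ∈ Dl u, Integrable (fun x => Lam δ u * (((nm δ : ℝ)⁻¹ : ℝ) : ℂ) *
        (SS (δ * u) (psiW (gg (Wf ch1)) ‖toC u / toC δ‖) (X + x) * psiZ x)) := fun δ hδ =>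
      (SS_integrable (Wc_W.gg.q6 (Dl_pos hu hδ)) psiZ_q6 (δ * u) X).const_mul _
    have e1 : ∀ x, UU u (X + x) * psiZ x =
        ((2 / 3 : ℂ) * (SS u (psiW (Wf ch1) ‖toC u‖) (X + x) * psiZ x) +
        (eC (frq 3 u) + eC (-frq 3 u)) *
          (SS u (psiW (gg (Wf ch1)) ‖toC u‖) (X + x) * psiZ x)) +
        ∑ δ ∈ Dl u, Lam δ u * (((nm δ : ℝ)⁻¹ : ℝ) : ℂ) *
          (SS (δ * u) (psiW (gg (Wf ch1)) ‖toC u / toC δ‖) (X + x) * psiZ x) := by
      intro x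
      rw [eqB, add_mul, add_mul, Finset.sum_mul]
      congr 1
      · ring
      · refine Finset.sum_congr rfl fun δ _ => ?_
        ring
    simp only [e1]
    rw [integral_add (f := fun x => (2 / 3 : ℂ) * (SS u (psiW (Wf ch1) ‖toC u‖) (X + x) * psiZ x) +
        (eC (frq 3 u) + eC (-frq 3 u)) *
          (SS u (psiW (gg (Wf ch1)) ‖toC u‖) (X + x) * psiZ x)) (i1.add i2)
        (integrable_finsetSum _ i3), integral_add i1 i2, integral_const_mul, integral_const_mul,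
      integral_finsetSum _ i3]
    congr 1
    refine Finset.sum_congr rfl fun δ _ => ?_
    rw [integral_const_mul]
  have e' : (fun X => ∫ x, UU u (X + x) * psiZ x) = fun X =>
      (2 / 3 : ℂ) * (∫ x, SS u (psiW (Wf ch1) ‖toC u‖) (X + x) * psiZ x) +
      (eC (frq 3 u) + eC (-frq 3 u)) *
        (∫ x, SS u (psiW (gg (Wf ch1)) ‖toC u‖) (X + x) * psiZ x) +
      ∑ δ ∈ Dl u, Lam δ u * (((nm δ : ℝ)⁻¹ : ℝ) : ℂ) *
        ∫ x, SS (δ * u) (psiW (gg (Wf ch1)) ‖toC u / toC δ‖) (X + x) * psiZ x := funext e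
  rw [e'] at L'
  have h := L'.unique R
  simp only [mul_zero, Finset.sum_const_zero, add_zero] at h
  have hb' : (b0 : ℂ) ≠ 0 := by exact_mod_cast hb.ne'
  have h2 : ce1 u * ((4 / 3 : ℂ) * (b0 : ℂ)) = 0 := by linear_combination -h
  rcases mul_eq_zero.mp h2 with h3 | h3
  · exact h3
  · exfalso
    exact (mul_ne_zero (by norm_num) hb') h3

/-- **The functional equation for every even test function.** -/
theorem starF {f : ℂ → ℂ} (hf : Ev f) {u : Eis} (hu : u ≠ 0) :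
    Cg u (fL f) = ce2 u * mB f + Du u (Wf f) := by
  have h := Def_eq hu hf
  rw [ce1_eq_zero hu, zero_mul, zero_add] at h
  unfold Def at h
  linear_combination h

end Crest.Agent.R017.F1
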