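import Mathlib
import Crest.Agent.R012.Poisson_581
import Crest.Agent.R012.PoissonS_581
import Crest.Agent.R012.Weight_600

/-!
# Row 17: functional equation of the smooth family sums (3): test functions on `ℂ`

`Ad a` : `a` smooth with compact support in `ℂ ∖ {0}`; `tws a τ z = a(z) |z|^{2iτ}`; decay of the
Fourier transform `fC (tws a τ)` with polynomial dependence on `τ`.
-/

set_option autoImplicit false

noncomputable section

open Complex MeasureTheory Filter Topology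
open scoped SchwartzMap ContDiff

namespace Crest.Agent.R017.FE47

open Crest.Agent.R012 Crest.Agent.R012.Eis Crest.Agent.R012.Po581
open Crest.Agent.R012.Weight600 (osc norm_osc)

/-- smooth with compact support in `ℂ ∖ {0}` -/
structure Ad (a : ℂ → ℂ) : Prop where
  smooth : ContDiff ℝ ∞ a
  cpt : HasCompactSupport a
  zero : a =ᶠ[𝓝 0] 0

namespace Ad

variable {a b : ℂ → ℂ}

lemma congr (ha : Ad a) (h : ∀ z, b z = a z) : Ad b := by
  have : b = a := funext h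
  rw [this]; exact ha

lemma mul (ha : Ad a) (hb : ∀ z ≠ 0, ContDiffAt ℝ ∞ b z) : Ad (fun z => a z * b z) where
  smooth := by
    rw [contDiff_iff_contDiffAt]
    intro z
    by_cases hz : z = 0
    · subst hz
      have h : (fun z => a z * b z) =ᶠ[𝓝 0] fun _ => 0 := by
        filter_upwards [ha.zero] with z hz
        simp [hz]
      exact contDiffAt_const.congr_of_eventuallyEq h
    · exact ha.smooth.contDiffAt.mul (hb z hz)
  cpt := ha.cpt.mul_right
  zero := by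
    filter_upwards [ha.zero] with z hz
    simp [hz]

lemma add (ha : Ad a) (hb : Ad b) : Ad (fun z => a z + b z) where
  smooth := ha.smooth.add hb.smooth
  cpt := ha.cpt.add hb.cpt
  zero := by
    filter_upwards [ha.zero, hb.zero] with z h1 h2
    simp [h1, h2]

lemma sub (ha : Ad a) (hb : Ad b) : Ad (fun z => a z - b z) where
  smooth := ha.smooth.sub hb.smooth
  cpt := ha.cpt.sub hb.cpt
  zero := by
    filter_upwards [ha.zero, hb.zero] with z h1 h2
    simp [h1, h2]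

lemma const_mul (ha : Ad a) (c : ℂ) : Ad (fun z => c * a z) :=
  (ha.mul (b := fun _ => c) fun _ _ => contDiffAt_const).congr fun z => by ring

lemma fder (ha : Ad a) (v : ℂ) : Ad (fun z => fderiv ℝ a z v) where
  smooth := by
    have h : ContDiff ℝ ∞ (fderiv ℝ a) := ha.smooth.fderiv_right (by simp)
    exact h.clm_apply contDiff_const
  cpt := ha.cpt.fderiv_apply (𝕜 := ℝ) v
  zero := by
    have h := ha.zero.fderiv (𝕜 := ℝ)
    filter_upwards [h] with z hz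
    rw [hz]
    simp

/-- `∂ = ∂_x - i ∂_y` -/
def _root_.Crest.Agent.R017.FE47.wd (f : ℂ → ℂ) (z : ℂ) : ℂ := fderiv ℝ f z 1 - I * fderiv ℝ f z I

lemma wd (ha : Ad a) : Ad (FE47.wd a) := (ha.fder 1).sub ((ha.fder I).const_mul I)

lemma continuous (ha : Ad a) : Continuous a := ha.smooth.continuous

lemma integrable (ha : Ad a) : Integrable a :=
  ha.continuous.integrable_of_hasCompactSupport ha.cpt

/-- as a Schwartz function -/
def toS (ha : Ad a) : 𝓢(ℂ, ℂ) := ha.cpt.toSchwartzMap ha.smooth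

lemma toS_apply (ha : Ad a) (z : ℂ) : ha.toS z = a z := rfl

lemma coe_toS (ha : Ad a) : (ha.toS : ℂ → ℂ) = a := rfl

end Ad

/-- `|z|^{2iτ}` -/
def oz (τ : ℝ) (z : ℂ) : ℂ := osc τ (Real.log (‖z‖ ^ 2))

lemma norm_oz (τ : ℝ) (z : ℂ) : ‖oz τ z‖ = 1 := norm_osc _ _

lemma oz_zero (z : ℂ) : oz 0 z = 1 := Weight600.osc_zero_left _

lemma contDiffAt_log_norm {z : ℂ} (hz : z ≠ 0) :
    ContDiffAt ℝ ∞ (fun z : ℂ => Real.log (‖z‖ ^ 2)) z := by
  refine ContDiffAt.log ?_ (by positivity)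
  exact (contDiff_norm_sq ℝ).contDiffAt

lemma contDiffAt_oz (τ : ℝ) {z : ℂ} (hz : z ≠ 0) : ContDiffAt ℝ ∞ (oz τ) z := by
  unfold oz osc
  have h := contDiffAt_log_norm hz
  have h2 : ContDiffAt ℝ ∞ (fun z : ℂ => ((τ * Real.log (‖z‖ ^ 2) : ℝ) : ℂ)) z :=
    Complex.ofRealCLM.contDiff.contDiffAt.comp z (contDiffAt_const.mul h)
  exact (h2.mul contDiffAt_const).cexp

lemma contDiffAt_inv' {z : ℂ} (hz : z ≠ 0) : ContDiffAt ℝ ∞ (fun z : ℂ => z⁻¹) z :=
  contDiffAt_inv ℝ hz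

/-- the twist `a(z) |z|^{2iτ}` -/
def tws (a : ℂ → ℂ) (τ : ℝ) (z : ℂ) : ℂ := a z * oz τ z

lemma Ad.tws {a : ℂ → ℂ} (ha : Ad a) (τ : ℝ) : Ad (FE47.tws a τ) :=
  ha.mul fun _ hz => contDiffAt_oz τ hz

lemma norm_tws (a : ℂ → ℂ) (τ : ℝ) (z : ℂ) : ‖tws a τ z‖ = ‖a z‖ := by
  unfold tws; rw [norm_mul, norm_oz, mul_one]

lemma hasFDerivAt_log_norm {z : ℂ} (hz : z ≠ 0) (v : ℂ) :
    fderiv ℝ (fun z : ℂ => Real.log (‖z‖ ^ 2)) z v = 2 * (z.re * v.re + z.im * v.im) / ‖z‖ ^ 2 := by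
  have h1 : HasFDerivAt (fun z : ℂ => ‖z‖ ^ 2) (2 • innerSL ℝ z) z :=
    (hasStrictFDerivAt_norm_sq z).hasFDerivAt
  have h2 := h1.log (by positivity)
  rw [h2.fderiv]
  simp only [_root_.smul_apply, coe_innerSL_apply, smul_eq_mul, nsmul_eq_mul]
  have h3 : inner ℝ z v = z.re * v.re + z.im * v.im := by
    rw [Complex.inner]; simp; ring
  rw [h3]
  push_cast
  ring

lemma fderiv_oz (τ : ℝ) {z : ℂ} (hz : z ≠ 0) (v : ℂ) :
    fderiv ℝ (oz τ) z v =
      oz τ z * (((τ * (2 * (z.re * v.re + z.im * v.im) / ‖z‖ ^ 2) : ℝ) : ℂ) * I) := by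
  have h0 : HasFDerivAt (fun z : ℂ => Real.log (‖z‖ ^ 2)) (fderiv ℝ (fun z : ℂ => Real.log (‖z‖ ^ 2)) z) z :=
    ((contDiffAt_log_norm hz).differentiableAt (by simp)).hasFDerivAt
  have h1 : HasFDerivAt (fun z : ℂ => ((τ * Real.log (‖z‖ ^ 2) : ℝ) : ℂ)) _ z :=
    Complex.ofRealCLM.hasFDerivAt.comp z (h0.const_mul τ)
  have h2 := (h1.mul_const I).cexp
  have h3 : oz τ = fun x => cexp (((τ * Real.log (‖x‖ ^ 2) : ℝ) : ℂ) * I) := rfl
  rw [h3, h2.fderiv]
  simp only [_root_.smul_apply, ContinuousLinearMap.comp_apply,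
    Complex.ofRealCLM_apply, smul_eq_mul]
  rw [hasFDerivAt_log_norm hz]
  push_cast
  ring

lemma wd_oz (τ : ℝ) {z : ℂ} (hz : z ≠ 0) : wd (oz τ) z = (2 * τ * I) * (oz τ z * z⁻¹) := by
  unfold wd
  rw [fderiv_oz τ hz, fderiv_oz τ hz]
  have h1 : (z⁻¹ : ℂ) = ((z.re / ‖z‖ ^ 2 : ℝ) : ℂ) - ((z.im / ‖z‖ ^ 2 : ℝ) : ℂ) * I := by
    apply Complex.ext
    · rw [Complex.inv_re, Complex.normSq_eq_norm_sq]
      simp only [sub_re, ofReal_re, mul_re, ofReal_im, I_re, I_im]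
      ring
    · rw [Complex.inv_im, Complex.normSq_eq_norm_sq]
      simp only [sub_im, ofReal_re, mul_im, ofReal_im, I_re, I_im]
      ring
  rw [h1]
  simp only [one_re, one_im, I_re, I_im, mul_one, mul_zero, add_zero, zero_add]
  push_cast
  ring_nf
  try rw [I_sq]
  try ring_nf

lemma wd_mul {a b : ℂ → ℂ} {z : ℂ} (ha : DifferentiableAt ℝ a z) (hb : DifferentiableAt ℝ b z) :
    wd (fun z => a z * b z) z = wd a z * b z + a z * wd b z := by
  unfold wd
  have h : fderiv ℝ (fun z => a z * b z) z = a z • fderiv ℝ b z + b z • fderiv ℝ a z :=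
    (ha.hasFDerivAt.mul hb.hasFDerivAt).fderiv
  rw [h]
  simp only [_root_.add_apply, _root_.smul_apply, smul_eq_mul]
  ring

lemma wd_tws {a : ℂ → ℂ} (ha : Ad a) (τ : ℝ) (z : ℂ) :
    wd (tws a τ) z = tws (wd a) τ z + (2 * τ * I) * tws (fun z => a z * z⁻¹) τ z := by
  by_cases hz : z = 0
  · subst hz
    have h1 : wd (tws a τ) 0 = 0 := (ha.tws τ).wd.zero.self_of_nhds
    have h2 : tws (wd a) τ 0 = 0 := (ha.wd.tws τ).zero.self_of_nhds
    have h3 : tws (fun z => a z * z⁻¹) τ 0 = 0 :=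
      ((ha.mul fun _ hz => contDiffAt_inv' hz).tws τ).zero.self_of_nhds
    rw [h1, h2, h3]; ring
  · have h := wd_mul (a := a) (b := oz τ) (z := z) (ha.smooth.differentiable (by simp) z)
      ((contDiffAt_oz τ hz).differentiableAt (by simp))
    have e : wd (tws a τ) z = wd (fun z => a z * oz τ z) z := rfl
    rw [e, h, wd_oz τ hz]
    unfold tws
    ring

/-! ### decay of the Fourier transform -/

lemma hasFDerivAt_eC (ξ z v : ℂ) :
    fderiv ℝ (fun z => eC (-(ξ * z))) z v =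
      eC (-(ξ * z)) * (-((4 * Real.pi * (ξ * v).re : ℝ) : ℂ) * I) := by
  have e : (fun z => eC (-(ξ * z))) =
      fun z => cexp (((-(4 * Real.pi)) * (ξ * z).re : ℝ) * I) := by
    funext z
    rw [eC_eq, neg_re]
    congr 1
    push_cast
    ring
  have h1 : HasFDerivAt (fun z : ℂ => (ξ * z).re) (Complex.reCLM.comp (ContinuousLinearMap.mul ℝ ℂ ξ)) z :=
    (Complex.reCLM.comp (ContinuousLinearMap.mul ℝ ℂ ξ)).hasFDerivAt
  have h2 : HasFDerivAt (fun z : ℂ => (((-(4 * Real.pi)) * (ξ * z).re : ℝ) : ℂ)) _ z :=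
    Complex.ofRealCLM.hasFDerivAt.comp z (h1.const_mul _)
  have h3 := (h2.mul_const I).cexp
  have e2 : eC (-(ξ * z)) = cexp (((-(4 * Real.pi)) * (ξ * z).re : ℝ) * I) := congrFun e z
  rw [e2, e, h3.fderiv]
  simp only [_root_.smul_apply, ContinuousLinearMap.comp_apply,
    Complex.ofRealCLM_apply, smul_eq_mul, Complex.reCLM_apply, ContinuousLinearMap.mul_apply']
  push_cast
  ring

lemma differentiable_eC (ξ : ℂ) : Differentiable ℝ (fun z => eC (-(ξ * z))) := by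
  unfold eC
  fun_prop

lemma wd_eC (ξ z : ℂ) : wd (fun z => eC (-(ξ * z))) z = -(4 * Real.pi * I * ξ) * eC (-(ξ * z)) := by
  unfold wd
  rw [hasFDerivAt_eC, hasFDerivAt_eC]
  have h1 : (ξ * 1).re = ξ.re := by simp
  have h2 : (ξ * I).re = -ξ.im := by simp
  rw [h1, h2]
  have h5 : (ξ.re : ℂ) + ξ.im * I = ξ := Complex.re_add_im ξ
  push_cast
  linear_combination (-(4 * Real.pi * I) * eC (-(ξ * z))) * h5

lemma Ad.integrable_mul_eC {a : ℂ → ℂ} (ha : Ad a) (ξ : ℂ) :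
    Integrable (fun z => a z * eC (-(ξ * z))) := by
  refine (ha.continuous.mul ?_).integrable_of_hasCompactSupport ha.cpt.mul_right
  exact eC_continuous.comp (by fun_prop)

theorem fC_wd {a : ℂ → ℂ} (ha : Ad a) (ξ : ℂ) : fC (wd a) ξ = (4 * Real.pi * I * ξ) * fC a ξ := by
  have key : ∀ v : ℂ, ∫ z, fderiv ℝ a z v * eC (-(ξ * z)) =
      - ∫ z, a z * fderiv ℝ (fun z => eC (-(ξ * z))) z v := by
    intro v
    have h := integral_mul_fderiv_eq_neg_fderiv_mul_of_integrable (μ := (volume : Measure ℂ))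
      (f := a) (g := fun z => eC (-(ξ * z))) (v := v) ?_ ?_ ?_ ?_ ?_
    · rw [h, neg_neg]
    · exact (ha.fder v).integrable_mul_eC ξ
    · have e : (fun z => a z * fderiv ℝ (fun z => eC (-(ξ * z))) z v) =
          fun z => (a z * eC (-(ξ * z))) * (-((4 * Real.pi * (ξ * v).re : ℝ) : ℂ) * I) := by
        funext z; rw [hasFDerivAt_eC]; ring
      rw [e]
      exact (ha.integrable_mul_eC ξ).mul_const _
    · exact ha.integrable_mul_eC ξ
    · intro z _; exact ha.smooth.differentiable (by simp) z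
    · intro z _; exact differentiable_eC ξ z
  have h1 : fC (wd a) ξ = (∫ z, fderiv ℝ a z 1 * eC (-(ξ * z))) -
      I * ∫ z, fderiv ℝ a z I * eC (-(ξ * z)) := by
    unfold fC wd
    rw [← integral_const_mul, ← integral_sub ((ha.fder 1).integrable_mul_eC ξ)
      (((ha.fder I).integrable_mul_eC ξ).const_mul I)]
    congr 1
    funext z
    ring
  have h2 : ∀ v : ℂ, ∫ z, a z * fderiv ℝ (fun z => eC (-(ξ * z))) z v =
      (-((4 * Real.pi * (ξ * v).re : ℝ) : ℂ) * I) * fC a ξ := by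
    intro v
    unfold fC
    rw [← integral_const_mul]
    congr 1
    funext z
    rw [hasFDerivAt_eC]; ring
  rw [h1, key, key, h2, h2]
  have h3 : (ξ * 1).re = ξ.re := by simp
  have h4 : (ξ * I).re = -ξ.im := by simp
  rw [h3, h4]
  have h5 : (ξ.re : ℂ) + ξ.im * I = ξ := Complex.re_add_im ξ
  push_cast
  linear_combination (4 * Real.pi * I * fC a ξ) * h5

lemma norm_fC_le {f : ℂ → ℂ} (ξ : ℂ) : ‖fC f ξ‖ ≤ ∫ z, ‖f z‖ := by
  unfold fC
  refine (norm_integral_le_integral_norm _).trans (le_of_eq ?_)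
  congr 1
  funext z
  rw [norm_mul, eC_norm, mul_one]

/-- polynomial decay, uniform in the twist -/
theorem fC_tws_decay (A : ℕ) : ∀ a : ℂ → ℂ, Ad a → ∃ C : ℝ, 0 ≤ C ∧ ∀ (τ : ℝ) (ξ : ℂ),
    ‖ξ‖ ^ A * ‖fC (tws a τ) ξ‖ ≤ C * (1 + |τ|) ^ A := by
  induction A with
  | zero =>
    intro a _
    refine ⟨∫ z, ‖a z‖, by positivity, fun τ ξ => ?_⟩
    have h := norm_fC_le (f := tws a τ) ξ
    simp only [norm_tws] at h
    simpa using h
  | succ A ih =>
    intro a ha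
    obtain ⟨C1, hC1, h1⟩ := ih _ ha.wd
    obtain ⟨C2, hC2, h2⟩ := ih _ (ha.mul fun _ hz => contDiffAt_inv' hz)
    refine ⟨C1 + 2 * C2, by positivity, fun τ ξ => ?_⟩
    have h3 : fC (wd (tws a τ)) ξ = fC (tws (wd a) τ) ξ +
        (2 * τ * I) * fC (tws (fun z => a z * z⁻¹) τ) ξ := by
      unfold fC
      rw [← integral_const_mul, ← integral_add ((ha.wd.tws τ).integrable_mul_eC ξ)
        ((((ha.mul fun _ hz => contDiffAt_inv' hz).tws τ).integrable_mul_eC ξ).const_mul _)]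
      congr 1
      funext z
      rw [wd_tws ha]
      ring
    rw [fC_wd (ha.tws τ)] at h3
    have h4 : ‖(4 * Real.pi * I * ξ) * fC (tws a τ) ξ‖ = 4 * Real.pi * (‖ξ‖ * ‖fC (tws a τ) ξ‖) := by
      rw [norm_mul, norm_mul, norm_mul, norm_mul, norm_I, Complex.norm_real,
        Real.norm_of_nonneg Real.pi_pos.le]
      simp; ring
    have h5 : 1 ≤ 4 * Real.pi := by nlinarith [Real.pi_gt_three]
    have h6 : ‖ξ‖ * ‖fC (tws a τ) ξ‖ ≤ ‖fC (tws (wd a) τ) ξ‖ +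
        2 * |τ| * ‖fC (tws (fun z => a z * z⁻¹) τ) ξ‖ := by
      have h7 : ‖ξ‖ * ‖fC (tws a τ) ξ‖ ≤ 4 * Real.pi * (‖ξ‖ * ‖fC (tws a τ) ξ‖) :=
        le_mul_of_one_le_left (by positivity) h5
      rw [← h4, h3] at h7
      refine h7.trans ((norm_add_le _ _).trans ?_)
      rw [norm_mul, norm_mul, norm_mul, norm_I, Complex.norm_real, Real.norm_eq_abs]
      simp
    calc ‖ξ‖ ^ (A + 1) * ‖fC (tws a τ) ξ‖ = ‖ξ‖ ^ A * (‖ξ‖ * ‖fC (tws a τ) ξ‖) := by ring
      _ ≤ ‖ξ‖ ^ A * (‖fC (tws (wd a) τ) ξ‖ +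
        2 * |τ| * ‖fC (tws (fun z => a z * z⁻¹) τ) ξ‖) := by gcongr
      _ = ‖ξ‖ ^ A * ‖fC (tws (wd a) τ) ξ‖ +
          2 * |τ| * (‖ξ‖ ^ A * ‖fC (tws (fun z => a z * z⁻¹) τ) ξ‖) := by ring
      _ ≤ C1 * (1 + |τ|) ^ A + 2 * |τ| * (C2 * (1 + |τ|) ^ A) := by
        exact add_le_add (h1 τ ξ) (mul_le_mul_of_nonneg_left (h2 τ ξ) (by positivity))
      _ ≤ (C1 + 2 * C2) * (1 + |τ|) ^ (A + 1) := by
        have : 0 ≤ (1 + |τ|) ^ A := by positivity
        have h8 : 0 ≤ |τ| := abs_nonneg τ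
        rw [pow_succ]
        nlinarith [mul_nonneg (mul_nonneg hC1 this) h8, mul_nonneg (mul_nonneg hC2 this) h8,
          mul_nonneg hC2 this]

end Crest.Agent.R017.FE47
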