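import Crest.Agent.R017.FE5_47
import Crest.Agent.R012.LatW_413

/-!
# Row 17: functional equation of the smooth family sums (6): majorant of the dual radial sum

`PU h c` : `h` smooth real with compact support and `∑_n h(v - c n) = 1` for `v ≥ 0`.
`DR_bound` : `|DR Ξ (tws a τ) y| ≤ C (1+|τ|)^J ∑_n (1 + e^{cn-y})^{-A} TN h Ξ (cn) K`.
-/

set_option autoImplicit false

noncomputable section

open Complex MeasureTheory Filter Topology
open scoped SchwartzMap ContDiff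

namespace Crest.Agent.R017.FE47

open Crest.Agent.R012 Crest.Agent.R012.Eis Crest.Agent.R012.Po581 Crest.Agent.R012.Gauss880
open Crest.Agent.R012.PSer47
open Crest.Agent.R012.Weight600 (osc norm_osc)
open Crest.Agent.R017.End699

/-- smooth partition of unity on `[0, ∞)` with step `c` -/
structure PU (h : ℝ → ℝ) (c : ℝ) : Prop where
  cpos : 0 < c
  cd : ContDiff ℝ ∞ h
  cs : HasCompactSupport h
  one : ∀ v : ℝ, 0 ≤ v → ∑' n : ℕ, h (v - c * n) = 1

/-- complex version -/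
def cx (h : ℝ → ℝ) (u : ℝ) : ℂ := (h u : ℂ)

/-- averaged absolute value of the smooth sums at the logarithmic scale `κ` -/
def TN (h : ℝ → ℝ) (Ξ : Eis → ℂ) (K : ℕ) (κ : ℝ) : ℝ :=
  ∫ t : ℝ, ((1 + |t|) ^ K)⁻¹ * ‖PS (cx h) Ξ κ t‖

lemma TN_nonneg (h : ℝ → ℝ) (Ξ : Eis → ℂ) (K : ℕ) (κ : ℝ) : 0 ≤ TN h Ξ K κ :=
  integral_nonneg fun _ => by positivity

lemma one_le_nm {b : Eis} (hb : IsPrim b) : (1 : ℝ) ≤ nm b := by
  have := nm_pos.mpr hb.ne_zero
  exact_mod_cast this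

lemma log_nm_nonneg {b : Eis} (hb : IsPrim b) : 0 ≤ Real.log (nm b) :=
  Real.log_nonneg (one_le_nm hb)

lemma exists_R {w : ℝ → ℂ} (h2 : HasCompactSupport w) :
    ∃ R : ℝ, 0 ≤ R ∧ ∀ u, w u ≠ 0 → |u| ≤ R := by
  obtain ⟨R, hR⟩ := h2.isCompact.isBounded.exists_norm_le
  exact ⟨max R 0, le_max_right _ _, fun u hu =>
    (hR u (subset_tsupport _ hu)).trans (le_max_left _ _)⟩

lemma exists_R' {w : ℝ → ℝ} (h2 : HasCompactSupport w) :
    ∃ R : ℝ, 0 ≤ R ∧ ∀ u, w u ≠ 0 → |u| ≤ R := by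
  obtain ⟨R, hR⟩ := h2.isCompact.isBounded.exists_norm_le
  exact ⟨max R 0, le_max_right _ _, fun u hu =>
    (hR u (subset_tsupport _ hu)).trans (le_max_left _ _)⟩

lemma exists_sup {w : ℝ → ℂ} (h1 : Continuous w) (h2 : HasCompactSupport w) :
    ∃ H : ℝ, 0 ≤ H ∧ ∀ u, ‖w u‖ ≤ H := by
  obtain ⟨H, hH⟩ := h2.exists_bound_of_continuous h1
  exact ⟨max H 0, le_max_right _ _, fun u => (hH u).trans (le_max_left _ _)⟩

/-- `PS` is a finite sum -/
lemma PS_eq_sum {w : ℝ → ℂ} {R : ℝ} (hR : ∀ u, w u ≠ 0 → |u| ≤ R) (Ξ : Eis → ℂ) (κ t : ℝ) {N : ℕ}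
    (hN : Real.exp (κ + R) < N + 1) :
    PS w Ξ κ t = ∑ b ∈ primBall N, Ξ b * (osc t (Real.log (nm b)) * w (Real.log (nm b) - κ)) := by
  unfold PS
  rw [tsum_eq_sum (s := primBall N)]
  · refine Finset.sum_congr rfl fun b hb => ?_
    rw [mem_primBall] at hb
    simp only [End699.ext, if_pos hb.2]
  · intro b hb
    by_cases hp : IsPrim b
    · have h1 : N < nm b := by
        by_contra hh
        exact hb (mem_primBall.mpr ⟨not_lt.mp hh, hp⟩)
      have h2 : w (Real.log (nm b) - κ) = 0 := by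
        by_contra hh
        have h3 := (abs_le.mp (hR _ hh)).2
        have h4 : Real.log (nm b) ≤ κ + R := by linarith
        have h5 : (nm b : ℝ) ≤ Real.exp (κ + R) := by
          rwa [← Real.log_le_iff_le_exp (by have := one_le_nm hp; linarith)]
        have h6 : (N : ℝ) + 1 ≤ nm b := by exact_mod_cast h1
        linarith
      rw [h2]; simp
    · simp [End699.ext, hp]

/-- trivial bound -/
lemma norm_PS_le {w : ℝ → ℂ} (h1 : Continuous w) (h2 : HasCompactSupport w) :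
    ∃ C : ℝ, 0 ≤ C ∧ ∀ Ξ : Eis → ℂ, (∀ b, IsPrim b → ‖Ξ b‖ ≤ 1) → ∀ κ t : ℝ,
      ‖PS w Ξ κ t‖ ≤ C * Real.exp κ := by
  obtain ⟨R, hR0, hR⟩ := exists_R h2
  obtain ⟨H, hH0, hH⟩ := exists_sup h1 h2
  refine ⟨18 * Real.exp R * H, by positivity, fun Ξ hΞ κ t => ?_⟩
  rw [PS_eq_sum hR Ξ κ t (N := ⌊Real.exp (κ + R)⌋₊) (Nat.lt_floor_add_one _)]
  refine (norm_sum_le _ _).trans ?_
  calc ∑ b ∈ primBall ⌊Real.exp (κ + R)⌋₊, ‖Ξ b * (osc t (Real.log (nm b)) * w (Real.log (nm b) - κ))‖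
      ≤ ∑ b ∈ primBall ⌊Real.exp (κ + R)⌋₊, H := by
        refine Finset.sum_le_sum fun b hb => ?_
        rw [mem_primBall] at hb
        rw [norm_mul, norm_mul, norm_osc, one_mul]
        calc ‖Ξ b‖ * ‖w (Real.log (nm b) - κ)‖ ≤ 1 * H := by
              gcongr
              · exact hΞ b hb.2
              · exact hH _
          _ = H := one_mul H
    _ = (primBall ⌊Real.exp (κ + R)⌋₊).card * H := by rw [Finset.sum_const, nsmul_eq_mul]
    _ ≤ (18 * Real.exp (κ + R)) * H := by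
        gcongr
        have h3 : ((primBall ⌊Real.exp (κ + R)⌋₊).card : ℝ) ≤ ((18 * ⌊Real.exp (κ + R)⌋₊ : ℕ) : ℝ) := by
          exact_mod_cast card_primBall_le' _
        refine h3.trans ?_
        push_cast
        gcongr
        exact Nat.floor_le (Real.exp_pos _).le
    _ = 18 * Real.exp R * H * Real.exp κ := by rw [Real.exp_add]; ring

lemma continuous_PS {w : ℝ → ℂ} (h2 : HasCompactSupport w) (Ξ : Eis → ℂ) (κ : ℝ) :
    Continuous fun t => PS w Ξ κ t := by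
  obtain ⟨R, hR0, hR⟩ := exists_R h2
  have : (fun t => PS w Ξ κ t) = fun t => ∑ b ∈ primBall ⌊Real.exp (κ + R)⌋₊,
      Ξ b * (osc t (Real.log (nm b)) * w (Real.log (nm b) - κ)) := by
    funext t
    exact PS_eq_sum hR Ξ κ t (Nat.lt_floor_add_one _)
  rw [this]
  refine continuous_finsetSum _ fun b _ => ?_
  exact continuous_const.mul ((Weight600.continuous_osc_left _).mul continuous_const)

lemma cs_cx {h : ℝ → ℝ} (hh : HasCompactSupport h) : HasCompactSupport (cx h) :=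
  hh.comp_left (g := fun x : ℝ => (x : ℂ)) (by simp)

lemma cd_cx {h : ℝ → ℝ} (hh : ContDiff ℝ ∞ h) : ContDiff ℝ ∞ (cx h) :=
  Complex.ofRealCLM.contDiff.comp hh

lemma integrable_wt {K : ℕ} (hK : 2 ≤ K) : Integrable (fun t : ℝ => ((1 + |t|) ^ K)⁻¹) := by
  have h := integrable_inv_one_add_sq
  refine h.mono' ?_ (Eventually.of_forall fun t => ?_)
  · refine Continuous.aestronglyMeasurable ?_
    refine Continuous.inv₀ (by fun_prop) (fun t => by positivity)
  · rw [Real.norm_of_nonneg (by positivity)]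
    apply inv_anti₀ (by positivity)
    have h1 : 1 ≤ 1 + |t| := by linarith [abs_nonneg t]
    calc 1 + t ^ 2 ≤ (1 + |t|) ^ 2 := by nlinarith [abs_nonneg t, sq_abs t]
      _ ≤ (1 + |t|) ^ K := pow_le_pow_right₀ h1 hK

lemma integrable_TN {h : ℝ → ℝ} (hc : Continuous h) (hs : HasCompactSupport h) {K : ℕ}
    (hK : 2 ≤ K) {Ξ : Eis → ℂ} (hΞ : ∀ b, IsPrim b → ‖Ξ b‖ ≤ 1) (κ : ℝ) :
    Integrable (fun t : ℝ => ((1 + |t|) ^ K)⁻¹ * ‖PS (cx h) Ξ κ t‖) := by
  have hcx : Continuous (cx h) := Complex.continuous_ofReal.comp hc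
  obtain ⟨C, hC, hb⟩ := norm_PS_le hcx (cs_cx hs)
  refine (integrable_wt hK).mul_bdd (c := C * Real.exp κ)
    (continuous_PS (cs_cx hs) Ξ κ).norm.aestronglyMeasurable (Eventually.of_forall fun t => ?_)
  rw [norm_norm]
  exact hb Ξ hΞ κ t

/-- trivial bound for `TN` -/
lemma TN_le {h : ℝ → ℝ} (hc : Continuous h) (hs : HasCompactSupport h) {K : ℕ} (hK : 2 ≤ K) :
    ∃ C : ℝ, 0 ≤ C ∧ ∀ Ξ : Eis → ℂ, (∀ b, IsPrim b → ‖Ξ b‖ ≤ 1) → ∀ κ : ℝ,
      TN h Ξ K κ ≤ C * Real.exp κ := by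
  have hcx : Continuous (cx h) := Complex.continuous_ofReal.comp hc
  obtain ⟨C, hC, hb⟩ := norm_PS_le hcx (cs_cx hs)
  have hw : 0 ≤ ∫ t : ℝ, ((1 + |t|) ^ K)⁻¹ := integral_nonneg fun _ => by positivity
  refine ⟨(∫ t : ℝ, ((1 + |t|) ^ K)⁻¹) * C, by positivity, fun Ξ hΞ κ => ?_⟩
  unfold TN
  calc ∫ t : ℝ, ((1 + |t|) ^ K)⁻¹ * ‖PS (cx h) Ξ κ t‖
      ≤ ∫ t : ℝ, ((1 + |t|) ^ K)⁻¹ * (C * Real.exp κ) := by
        apply integral_mono (integrable_TN hc hs hK hΞ κ) ((integrable_wt hK).mul_const _)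
        intro t
        exact mul_le_mul_of_nonneg_left (hb Ξ hΞ κ t) (by positivity)
    _ = (∫ t : ℝ, ((1 + |t|) ^ K)⁻¹) * C * Real.exp κ := by
        rw [integral_mul_const]; ring

lemma PS_conj (h : ℝ → ℝ) (Ξ : Eis → ℂ) (κ t : ℝ) :
    PS (cx h) (fun b => (starRingEnd ℂ) (Ξ b)) κ t = (starRingEnd ℂ) (PS (cx h) Ξ κ (-t)) := by
  unfold PS
  rw [Complex.conj_tsum]
  refine tsum_congr fun b => ?_
  simp only [End699.ext, cx]
  split_ifs
  · rw [map_mul, map_mul, Weight600.osc_neg_left, Complex.conj_conj, Complex.conj_ofReal]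
  · simp

lemma integrable_mul_osc {κ : ℝ → ℂ} (hκ : Integrable κ) (u : ℝ) :
    Integrable (fun t => κ t * osc t u) :=
  hκ.mul_bdd (c := 1) (Weight600.continuous_osc_left u).aestronglyMeasurable
    (Eventually.of_forall fun _ => (norm_osc _ _).le)

/-- one block of the partition -/
lemma block_eq {h : ℝ → ℝ} (hs : HasCompactSupport h) {f : ℂ → ℂ} {χ : ℝ → ℂ}
    (hχ : ∀ u, h u ≠ 0 → χ u = 1) (Ξ : Eis → ℂ) (κ₀ y : ℝ) {κ : ℝ → ℂ} (hκi : Integrable κ)
    (hκ : ∀ v, ∫ t, κ t * osc t v = χ v * rad f (v + (κ₀ - y))) :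
    ∑' b : Eis, End699.ext (fun b => (starRingEnd ℂ) (Ξ b)) b *
      ((h (Real.log (nm b) - κ₀) : ℂ) * rad f (Real.log (nm b) - y)) =
      ∫ t, κ t * (osc t (-κ₀) * (starRingEnd ℂ) (PS (cx h) Ξ κ₀ (-t))) := by
  obtain ⟨R, hR0, hR⟩ := exists_R (cs_cx hs)
  set N := ⌊Real.exp (κ₀ + R)⌋₊ with hN
  have hN' : Real.exp (κ₀ + R) < N + 1 := Nat.lt_floor_add_one _
  have e0 : ∀ t, (starRingEnd ℂ) (PS (cx h) Ξ κ₀ (-t)) =
      PS (cx h) (fun b => (starRingEnd ℂ) (Ξ b)) κ₀ t := fun t => (PS_conj h Ξ κ₀ t).symm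
  have e1 : ∑' b : Eis, End699.ext (fun b => (starRingEnd ℂ) (Ξ b)) b *
      ((h (Real.log (nm b) - κ₀) : ℂ) * rad f (Real.log (nm b) - y)) =
      ∑ b ∈ primBall N, (starRingEnd ℂ) (Ξ b) *
      ((h (Real.log (nm b) - κ₀) : ℂ) * rad f (Real.log (nm b) - y)) := by
    rw [tsum_eq_sum (s := primBall N)]
    · refine Finset.sum_congr rfl fun b hb => ?_
      rw [mem_primBall] at hb
      simp only [End699.ext, if_pos hb.2]
    · intro b hb
      by_cases hp : IsPrim b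
      · have h1 : N < nm b := by
          by_contra hh
          exact hb (mem_primBall.mpr ⟨not_lt.mp hh, hp⟩)
        have h2 : (h (Real.log (nm b) - κ₀) : ℂ) = 0 := by
          by_contra hh
          have h3 := (abs_le.mp (hR _ hh)).2
          have h4 : Real.log (nm b) ≤ κ₀ + R := by linarith
          have h5 : (nm b : ℝ) ≤ Real.exp (κ₀ + R) := by
            rwa [← Real.log_le_iff_le_exp (by have := one_le_nm hp; linarith)]
          have h6 : (N : ℝ) + 1 ≤ nm b := by exact_mod_cast h1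
          linarith
        rw [h2]; simp
      · simp [End699.ext, hp]
  have e2 : ∀ b : Eis, (starRingEnd ℂ) (Ξ b) *
      ((h (Real.log (nm b) - κ₀) : ℂ) * rad f (Real.log (nm b) - y)) =
      ∫ t, κ t * osc t (Real.log (nm b) - κ₀) *
        ((starRingEnd ℂ) (Ξ b) * (h (Real.log (nm b) - κ₀) : ℂ)) := by
    intro b
    rw [integral_mul_const, hκ]
    by_cases h0 : h (Real.log (nm b) - κ₀) = 0
    · rw [h0]; simp
    · rw [hχ _ h0, one_mul]
      have : Real.log (nm b) - κ₀ + (κ₀ - y) = Real.log (nm b) - y := by ring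
      rw [this]
      ring
  rw [e1, Finset.sum_congr rfl fun b _ => e2 b, ← integral_finsetSum]
  · congr 1
    funext t
    rw [e0, PS_eq_sum hR _ κ₀ t hN', Finset.mul_sum, Finset.mul_sum]
    refine Finset.sum_congr rfl fun b _ => ?_
    have e3 : osc t (Real.log (nm b) - κ₀) = osc t (-κ₀) * osc t (Real.log (nm b)) := by
      rw [← Weight600.osc_add_right]; congr 1; ring
    rw [e3]
    unfold cx
    ring
  · intro b _
    exact (integrable_mul_osc hκi _).mul_const _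

lemma exp_log_nm {b : Eis} (hb : IsPrim b) : Real.exp (Real.log (nm b)) = nm b :=
  Real.exp_log (by have := one_le_nm hb; linarith)

lemma summable_wt {h : ℝ → ℝ} (hc : Continuous h) (hs : HasCompactSupport h) {c : ℝ} (hc0 : 0 < c)
    {A K : ℕ} (hA : 2 ≤ A) (hK : 2 ≤ K) {Ξ : Eis → ℂ} (hΞ : ∀ b, IsPrim b → ‖Ξ b‖ ≤ 1) (y : ℝ) :
    Summable (fun n : ℕ => ((1 + Real.exp (c * n - y)) ^ A)⁻¹ * TN h Ξ K (c * n)) := by
  obtain ⟨C, hC, hb⟩ := TN_le hc hs hK
  have hg : Summable (fun n : ℕ => (C * Real.exp (2 * y)) * Real.exp (-c) ^ n) :=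
    (summable_geometric_of_lt_one (Real.exp_pos _).le (Real.exp_lt_one_iff.mpr (by linarith))).mul_left _
  refine Summable.of_nonneg_of_le (fun n => mul_nonneg (by positivity) (TN_nonneg _ _ _ _))
    (fun n => ?_) hg
  have h1 : (1 + Real.exp (c * n - y)) ^ A ≥ Real.exp (2 * (c * n - y)) := by
    have h2 : 1 ≤ 1 + Real.exp (c * n - y) := by linarith [Real.exp_pos (c * n - y)]
    calc Real.exp (2 * (c * n - y)) = Real.exp (c * n - y) ^ 2 := by
          rw [← Real.exp_nat_mul]; congr 1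
      _ ≤ (1 + Real.exp (c * n - y)) ^ 2 := by
          gcongr; linarith
      _ ≤ (1 + Real.exp (c * n - y)) ^ A := pow_le_pow_right₀ h2 hA
  calc ((1 + Real.exp (c * n - y)) ^ A)⁻¹ * TN h Ξ K (c * n)
      ≤ (Real.exp (2 * (c * n - y)))⁻¹ * (C * Real.exp (c * n)) := by
        exact mul_le_mul (inv_anti₀ (Real.exp_pos _) h1) (hb Ξ hΞ _) (TN_nonneg _ _ _ _)
          (by positivity)
    _ = (C * Real.exp (2 * y)) * Real.exp (-c) ^ n := by
        rw [← Real.exp_neg, ← Real.exp_nat_mul]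
        have : Real.exp (-(2 * (c * n - y))) * (C * Real.exp (c * n)) =
          C * (Real.exp (-(2 * (c * n - y))) * Real.exp (c * n)) := by ring
        rw [this, mul_assoc, ← Real.exp_add, ← Real.exp_add]
        congr 2
        ring

/-- **Majorant of the dual radial sum.** -/
theorem DR_bound {a : ℂ → ℂ} (ha : Ad a) {h : ℝ → ℝ} {c : ℝ} (hpu : PU h c) {A K : ℕ}
    (hA : 3 ≤ A) (hK : 2 ≤ K) : ∃ (C : ℝ) (J : ℕ), 0 ≤ C ∧ ∀ (Ξ : Eis → ℂ),
      (∀ b, IsPrim b → ‖Ξ b‖ ≤ 1) → ∀ τ y : ℝ,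
      ‖DR Ξ (tws a τ) y‖ ≤ C * (1 + |τ|) ^ J *
        ∑' n : ℕ, ((1 + Real.exp (c * n - y)) ^ A)⁻¹ * TN h Ξ K (c * n) := by
  have hcc : Continuous h := hpu.cd.continuous
  obtain ⟨R, hR0, hR⟩ := exists_R' hpu.cs
  obtain ⟨H, hH0, hH⟩ := exists_sup (Complex.continuous_ofReal.comp hcc) (cs_cx hpu.cs)
  have hab : (-R - 1 : ℝ) ≤ R + 1 := by linarith
  have hχ1 : ContDiff ℝ ∞ (Weight600.cutC (-R - 1) (R + 1) 1) := Weight600.contDiff_cutC
  have hχ2 : HasCompactSupport (Weight600.cutC (-R - 1) (R + 1) 1) :=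
    Weight600.hasCompactSupport_cutC (by norm_num) hab
  have hχ3 : ∀ u, h u ≠ 0 → Weight600.cutC (-R - 1) (R + 1) 1 u = 1 := by
    intro u hu
    have h1 := abs_le.mp (hR u hu)
    unfold Weight600.cutC
    rw [Weight600.cutL_eq_one (by norm_num) (by linarith) (by linarith)]
    simp
  obtain ⟨C, J, hC, hsep⟩ := rad_sep ha hχ1 hχ2 A K
  refine ⟨C, J, hC, fun Ξ hΞ τ y => ?_⟩
  -- the double family
  set F : Eis → ℕ → ℂ := fun b n => End699.ext (fun b => (starRingEnd ℂ) (Ξ b)) b *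
      ((h (Real.log (nm b) - c * n) : ℂ) * rad (tws a τ) (Real.log (nm b) - y)) with hF
  obtain ⟨C1, hC1, hd⟩ := rj_decay a ha 0 3
  have hsum : Summable (Function.uncurry F) := by
    have hs1 : Summable (fun b : Eis => (nm b : ℝ) ^ (-(2 : ℝ))) :=
      LatSum413.summable_nm_rpow (by norm_num)
    have hs2 : Summable (fun n : ℕ => Real.exp (-c) ^ n) :=
      summable_geometric_of_lt_one (Real.exp_pos _).le (Real.exp_lt_one_iff.mpr (by linarith [hpu.cpos]))
    have hs3 := (hs1.mul_of_nonneg hs2 (fun _ => by positivity) (fun _ => by positivity)).mul_left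
      (H * Real.exp R * (C1 * (1 + |τ|) ^ (0 + 2 * 3)) * Real.exp (3 * y))
    refine Summable.of_norm_bounded hs3 ?_
    rintro ⟨b, n⟩
    simp only [Function.uncurry, hF]
    by_cases hp : IsPrim b
    · simp only [End699.ext, if_pos hp]
      rw [norm_mul, norm_mul, RCLike.norm_conj]
      have hnb := one_le_nm hp
      have h1 : ‖(h (Real.log (nm b) - c * n) : ℂ)‖ ≤ H * (Real.exp R * nm b * Real.exp (-c) ^ n) := by
        by_cases h0 : h (Real.log (nm b) - c * n) = 0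
        · rw [h0]; simp; positivity
        · have h2 := (abs_le.mp (hR _ h0)).1
          have h3 : 1 ≤ Real.exp R * nm b * Real.exp (-c) ^ n := by
            rw [← exp_log_nm hp, ← Real.exp_nat_mul, ← Real.exp_add, ← Real.exp_add]
            apply Real.one_le_exp
            linarith
          calc ‖(h (Real.log (nm b) - c * n) : ℂ)‖ ≤ H := hH _
            _ = H * 1 := by ring
            _ ≤ _ := by gcongr
      have h4 : ‖rad (tws a τ) (Real.log (nm b) - y)‖ ≤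
          C1 * (1 + |τ|) ^ (0 + 2 * 3) * (Real.exp (3 * y) * (nm b : ℝ) ^ (-(3 : ℝ))) := by
        have h5 := hd τ (Real.log (nm b) - y)
        rw [rj_zero] at h5
        have h6 : (nm b : ℝ) ^ 3 * Real.exp (-(3 * y)) ≤ (1 + Real.exp (Real.log (nm b) - y)) ^ 3 := by
          rw [Real.exp_sub, exp_log_nm hp]
          calc (nm b : ℝ) ^ 3 * Real.exp (-(3 * y)) = (nm b / Real.exp y) ^ 3 := by
                rw [div_pow, ← Real.exp_nat_mul, Real.exp_neg]
                push_cast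
                rw [div_eq_mul_inv]
            _ ≤ (1 + nm b / Real.exp y) ^ 3 := by gcongr; linarith
        have h7 : ‖rad (tws a τ) (Real.log (nm b) - y)‖ * ((nm b : ℝ) ^ 3 * Real.exp (-(3 * y))) ≤
            C1 * (1 + |τ|) ^ (0 + 2 * 3) :=
          (mul_le_mul_of_nonneg_left h6 (norm_nonneg _)).trans h5
        have h8 : (nm b : ℝ) ^ (-(3 : ℝ)) = ((nm b : ℝ) ^ 3)⁻¹ := by
          rw [Real.rpow_neg (by positivity)]
          congr 1
          exact_mod_cast Real.rpow_natCast (nm b : ℝ) 3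
        rw [h8]
        have h9 : 0 < (nm b : ℝ) ^ 3 := by positivity
        have h10 : 0 < Real.exp (-(3 * y)) := Real.exp_pos _
        have h11 : Real.exp (3 * y) = (Real.exp (-(3 * y)))⁻¹ := by rw [Real.exp_neg, inv_inv]
        rw [h11, ← mul_inv, mul_comm (Real.exp (-(3 * y))) _, ← div_eq_mul_inv,
          le_div_iff₀ (by positivity)]
        exact h7
      have h12 : (nm b : ℝ) ^ (-(2 : ℝ)) = nm b * (nm b : ℝ) ^ (-(3 : ℝ)) := by
        have hnb' : (0 : ℝ) < nm b := by linarith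
        rw [← Real.rpow_one_add' hnb'.le (by norm_num)]
        norm_num
      rw [h12]
      calc ‖Ξ b‖ * (‖(h (Real.log (nm b) - c * n) : ℂ)‖ * ‖rad (tws a τ) (Real.log (nm b) - y)‖)
          ≤ 1 * ((H * (Real.exp R * nm b * Real.exp (-c) ^ n)) *
            (C1 * (1 + |τ|) ^ (0 + 2 * 3) * (Real.exp (3 * y) * (nm b : ℝ) ^ (-(3 : ℝ))))) := by
            gcongr
            exact hΞ b hp
        _ = _ := by ring
    · simp only [End699.ext, if_neg hp]
      rw [zero_mul, norm_zero]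
      positivity
  have hDR : DR Ξ (tws a τ) y = ∑' n : ℕ, ∑' b : Eis, F b n := by
    rw [Summable.tsum_comm hsum]
    unfold DR
    refine tsum_congr fun b => ?_
    by_cases hp : IsPrim b
    · have h1 := hpu.one _ (log_nm_nonneg hp)
      have h2 : ∑' n : ℕ, (h (Real.log (nm b) - c * n) : ℂ) = 1 := by
        rw [← Complex.ofReal_tsum, h1]; simp
      simp only [hF]
      rw [tsum_mul_left, tsum_mul_right, h2, one_mul]
    · simp [hF, End699.ext, hp]
  have hblock : ∀ n : ℕ, ‖∑' b : Eis, F b n‖ ≤ C * (1 + |τ|) ^ J *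
      (((1 + Real.exp (c * n - y)) ^ A)⁻¹ * TN h Ξ K (c * n)) := by
    intro n
    obtain ⟨κ, hκc, hκi, hκb, hκ⟩ := hsep τ (c * n - y)
    have h1 := block_eq hpu.cs hχ3 Ξ (c * n) y hκi hκ
    simp only [hF]
    rw [h1]
    have hTi := integrable_TN hcc hpu.cs hK hΞ (c * n)
    have h2 : ∫ t : ℝ, ((1 + |t|) ^ K)⁻¹ * ‖PS (cx h) Ξ (c * n) (-t)‖ = TN h Ξ K (c * n) := by
      have := integral_neg_eq_self (fun t : ℝ => ((1 + |t|) ^ K)⁻¹ * ‖PS (cx h) Ξ (c * n) t‖)
        (volume : Measure ℝ)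
      simp only [abs_neg] at this
      exact this
    have hTi' : Integrable (fun t : ℝ => ((1 + |t|) ^ K)⁻¹ * ‖PS (cx h) Ξ (c * n) (-t)‖) := by
      have := hTi.comp_neg
      simpa only [abs_neg] using this
    calc ‖∫ t, κ t * (osc t (-(c * n)) * (starRingEnd ℂ) (PS (cx h) Ξ (c * n) (-t)))‖
        ≤ ∫ t, ‖κ t * (osc t (-(c * n)) * (starRingEnd ℂ) (PS (cx h) Ξ (c * n) (-t)))‖ :=
          norm_integral_le_integral_norm _
      _ ≤ ∫ t, (C * (1 + |τ|) ^ J * ((1 + Real.exp (c * n - y)) ^ A)⁻¹) *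
            (((1 + |t|) ^ K)⁻¹ * ‖PS (cx h) Ξ (c * n) (-t)‖) := by
          apply integral_mono_of_nonneg (Eventually.of_forall fun _ => norm_nonneg _)
            (hTi'.const_mul _)
          refine Eventually.of_forall fun t => ?_
          simp only
          rw [norm_mul, norm_mul, norm_osc, one_mul, RCLike.norm_conj]
          calc ‖κ t‖ * ‖PS (cx h) Ξ (c * n) (-t)‖ ≤
              (C * (1 + |τ|) ^ J * ((1 + Real.exp (c * n - y)) ^ A)⁻¹ * ((1 + |t|) ^ K)⁻¹) *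
                ‖PS (cx h) Ξ (c * n) (-t)‖ := by
                gcongr
                exact hκb t
            _ = _ := by ring
      _ = C * (1 + |τ|) ^ J * (((1 + Real.exp (c * n - y)) ^ A)⁻¹ * TN h Ξ K (c * n)) := by
          rw [integral_const_mul, h2]; ring
  have hS := (summable_wt hcc hpu.cs hpu.cpos (by omega : 2 ≤ A) hK hΞ y).mul_left (C * (1 + |τ|) ^ J)
  rw [hDR, ← tsum_mul_left]
  exact tsum_of_norm_bounded hS.hasSum hblock

end Crest.Agent.R017.FE47
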