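import Crest.Agent.R017.FE6_47

/-!
# Row 17: functional equation of the smooth family sums (7): the majorant

`UM ε M = ∑_{e ∈ SM M} N(e)^{-ε}`, `FE_major`: the majorant form of the functional equation,
`PV` : Pólya–Vinogradov / rapid decay.
-/

set_option autoImplicit false

noncomputable section

open Complex MeasureTheory Filter Topology
open scoped SchwartzMap ContDiff

namespace Crest.Agent.R017.FE47

open Crest.Agent.R012 Crest.Agent.R012.Eis Crest.Agent.R012.Po581 Crest.Agent.R012.Gauss880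
open Crest.Agent.R012.PSer47
open Crest.Agent.R012.Weight600 (osc norm_osc)
open Crest.Agent.R017.End699

/-! ### summability over `SM M` -/

lemma summable_of_surj {α β : Type*} {f : α → ℝ} (g : β → α) (hg : Function.Surjective g)
    (h : Summable (f ∘ g)) : Summable f := by
  have h1 : f = (f ∘ g) ∘ (Function.surjInv hg) := by
    funext a
    simp [Function.comp, Function.surjInv_eq hg]
  rw [h1]
  exact h.comp_injective (Function.injective_surjInv hg)

theorem summable_SM {ε : ℝ} (hε : 0 < ε) {M : Eis} (hM : M ≠ 0) :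
    Summable (fun e : SM M => (nm (e : Eis) : ℝ) ^ (-ε)) := by
  induction M using UniqueFactorizationMonoid.induction_on_prime with
  | h₁ => exact absurd rfl hM
  | h₂ u hu =>
    have hfin : (SM u).Finite := by
      refine (ball 1).finite_toSet.subset fun e he => ?_
      have hue : IsUnit e := by
        by_contra hne
        obtain ⟨p, hp, hpe⟩ := WfDvdMonoid.exists_irreducible_factor hne he.1
        exact hp.not_isUnit (isUnit_of_dvd_unit (he.2 p hp.prime hpe) hu)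
      rw [Finset.mem_coe, mem_ball]
      exact (isUnit_iff.mp hue).le
    have := hfin.to_subtype
    exact Summable.of_finite
  | h₃ a p ha hp ih =>
    have ih := ih ha
    have h2 : (2 : ℝ) ≤ nm p := by exact_mod_cast two_le_nm_of_prime hp
    have hr : (nm p : ℝ) ^ (-ε) < 1 := Real.rpow_lt_one_of_one_lt_of_neg (by linarith) (by linarith)
    have hg : Summable (fun k : ℕ => ((nm p : ℝ) ^ (-ε)) ^ k) :=
      summable_geometric_of_lt_one (by positivity) hr
    have hprod := hg.mul_of_nonneg ih (fun _ => by positivity) (fun _ => by positivity)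
    let g : ℕ × SM a → SM (p * a) := fun x => ⟨p ^ x.1 * x.2.1, by
      refine ⟨mul_ne_zero (pow_ne_zero _ hp.ne_zero) x.2.2.1, fun q hq hd => ?_⟩
      rcases hq.dvd_or_dvd hd with h | h
      · exact (hq.dvd_of_dvd_pow h).mul_right a
      · exact (x.2.2.2 q hq h).mul_left p⟩
    refine summable_of_surj g ?_ ?_
    · rintro ⟨e, he0, he⟩
      obtain ⟨e', h1, h3⟩ := (FiniteMultiplicity.of_prime_left hp he0).exists_eq_pow_mul_and_not_dvd
      have he'0 : e' ≠ 0 := by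
        rintro rfl
        exact h3 (dvd_zero _)
      refine ⟨(multiplicity p e, ⟨e', he'0, fun q hq hqe => ?_⟩), ?_⟩
      · have h4 : q ∣ p * a := he q hq (h1 ▸ hqe.mul_left _)
        rcases hq.dvd_or_dvd h4 with h5 | h5
        · exfalso
          have h6 : Associated q p := (hq.dvd_prime_iff_associated hp).mp h5
          exact h3 (h6.symm.dvd.trans hqe)
        · exact h5
      · apply Subtype.ext
        exact h1.symm
    · refine hprod.congr fun x => ?_
      simp only [Function.comp, g]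
      rw [nm_mul, nm_pow]
      push_cast
      rw [Real.mul_rpow (by positivity) (by positivity), ← Real.rpow_natCast,
        ← Real.rpow_natCast, ← Real.rpow_mul (by positivity), ← Real.rpow_mul (by positivity)]
      ring_nf

/-- `∑_{e ∈ SM M} N(e)^{-ε}` -/
def UM (ε : ℝ) (M : Eis) : ℝ := ∑' e : SM M, (nm (e : Eis) : ℝ) ^ (-ε)

lemma UM_nonneg (ε : ℝ) (M : Eis) : 0 ≤ UM ε M := tsum_nonneg fun _ => by positivity

/-- the weight of the dual scales -/
def wz (ε : ℝ) (A : ℕ) (z : ℝ) : ℝ := z ^ (-ε) * ((1 + z) ^ A)⁻¹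

lemma wz_nonneg {ε : ℝ} {A : ℕ} {z : ℝ} (hz : 0 ≤ z) : 0 ≤ wz ε A z := by
  unfold wz; positivity

lemma weight_le {ε : ℝ} (hε : 0 < ε) (hε1 : ε ≤ 1) (A : ℕ) {z m N : ℝ} (hz : 0 < z) (hm : 1 ≤ m)
    (hN : 1 ≤ N) : ((1 + z * m / N) ^ (A + 1))⁻¹ ≤ N ^ (A + 1) * m ^ (-ε) * wz ε A z := by
  have hN0 : 0 < N := by linarith
  have hm0 : 0 < m := by linarith
  have h1 : (z * m) ^ ε ≤ N * (1 + z * m / N) := by
    have h2 : (z * m) ^ ε ≤ 1 + z * m := by
      rcases le_total (z * m) 1 with h | h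
      · calc (z * m) ^ ε ≤ 1 ^ ε := Real.rpow_le_rpow (by positivity) h hε.le
          _ = 1 := Real.one_rpow _
          _ ≤ 1 + z * m := by linarith [mul_pos hz hm0]
      · calc (z * m) ^ ε ≤ (z * m) ^ (1 : ℝ) := Real.rpow_le_rpow_of_exponent_le h hε1
          _ = z * m := Real.rpow_one _
          _ ≤ 1 + z * m := by linarith
    calc (z * m) ^ ε ≤ 1 + z * m := h2
      _ ≤ N + z * m := by linarith
      _ = N * (1 + z * m / N) := by field_simp
  have h3 : 1 + z ≤ N * (1 + z * m / N) := by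
    have : N * (1 + z * m / N) = N + z * m := by field_simp
    rw [this]
    nlinarith
  have hx : 0 < 1 + z * m / N := by positivity
  have h4 : (z * m) ^ ε * (1 + z) ^ A ≤ (N * (1 + z * m / N)) ^ (A + 1) := by
    rw [pow_succ, mul_comm]
    gcongr
  have hzm : 0 < (z * m) ^ ε := Real.rpow_pos_of_pos (by positivity) _
  have h5 : m ^ (-ε) * wz ε A z = ((z * m) ^ ε * (1 + z) ^ A)⁻¹ := by
    unfold wz
    rw [Real.rpow_neg hm0.le, Real.rpow_neg hz.le, Real.mul_rpow hz.le hm0.le, mul_inv, mul_inv]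
    ring
  rw [mul_assoc, h5, mul_pow] at *
  rw [← div_eq_mul_inv, le_div_iff₀ (by positivity), inv_mul_le_iff₀ (by positivity)]
  linarith [h4]

/-! ### sums over the scales -/

lemma scale_sum {δ c : ℝ} (hδ : 0 < δ) (hc : 0 < c) : ∃ B : ℝ, 0 ≤ B ∧ ∀ a : ℝ,
    Summable (fun n : ℕ => Real.exp (-(δ * |c * n + a|))) ∧
    ∑' n : ℕ, Real.exp (-(δ * |c * n + a|)) ≤ B := by
  obtain ⟨r, hr⟩ : ∃ r, r = Real.exp (-(δ * c)) := ⟨_, rfl⟩
  have hr0 : 0 ≤ r := by rw [hr]; exact (Real.exp_pos _).le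
  have hr1 : r < 1 := by rw [hr]; exact Real.exp_lt_one_iff.mpr (by linarith [mul_pos hδ hc])
  have hZ : Summable (fun j : ℤ => r ^ j.natAbs) := by
    refine Summable.of_nat_of_neg ?_ ?_
    · simpa using summable_geometric_of_lt_one hr0 hr1
    · simpa using summable_geometric_of_lt_one hr0 hr1
  refine ⟨Real.exp (δ * c) * ∑' j : ℤ, r ^ j.natAbs, by positivity, fun a => ?_⟩
  set m : ℤ := ⌊-a / c⌋ with hm
  have hle : ∀ n : ℕ, Real.exp (-(δ * |c * n + a|)) ≤ Real.exp (δ * c) * r ^ ((n : ℤ) - m).natAbs := by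
    intro n
    rw [hr, ← Real.exp_nat_mul, ← Real.exp_add]
    apply Real.exp_le_exp.mpr
    have h1 : (m : ℝ) ≤ -a / c := Int.floor_le _
    have h2 : -a / c < m + 1 := Int.lt_floor_add_one _
    have h3 : ((((n : ℤ) - m).natAbs : ℕ) : ℝ) = |(n : ℝ) - m| := by
      rw [Nat.cast_natAbs]; push_cast; rfl
    rw [h3]
    have h4 : |(n : ℝ) - m| ≤ |(n : ℝ) - (-a / c)| + 1 := by
      have : (n : ℝ) - m = ((n : ℝ) - (-a / c)) + (-a / c - m) := by ring
      rw [this]
      refine (abs_add_le _ _).trans ?_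
      gcongr
      rw [abs_le]; constructor <;> linarith
    have h5 : |c * n + a| = c * |(n : ℝ) - (-a / c)| := by
      rw [← abs_of_pos hc, ← abs_mul, abs_of_pos hc]
      congr 1
      field_simp
      ring
    rw [h5]
    have h6 := mul_le_mul_of_nonneg_left h4 (mul_pos hδ hc).le
    linarith
  have hinj : Function.Injective (fun n : ℕ => (n : ℤ) - m) := by
    intro x y hxy
    have hxy' : (x : ℤ) - m = (y : ℤ) - m := hxy
    omega
  have hsh : Summable (fun n : ℕ => r ^ ((n : ℤ) - m).natAbs) :=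
    hZ.comp_injective hinj
  have hs : Summable (fun n : ℕ => Real.exp (-(δ * |c * n + a|))) :=
    Summable.of_nonneg_of_le (fun _ => (Real.exp_pos _).le) hle (hsh.mul_left _)
  refine ⟨hs, ?_⟩
  calc ∑' n : ℕ, Real.exp (-(δ * |c * n + a|))
      ≤ ∑' n : ℕ, Real.exp (δ * c) * r ^ ((n : ℤ) - m).natAbs :=
        hs.tsum_le_tsum hle (hsh.mul_left _)
    _ = Real.exp (δ * c) * ∑' n : ℕ, r ^ ((n : ℤ) - m).natAbs := by rw [tsum_mul_left]
    _ ≤ Real.exp (δ * c) * ∑' j : ℤ, r ^ j.natAbs := by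
        refine mul_le_mul_of_nonneg_left ?_ (Real.exp_pos _).le
        exact tsum_comp_le_tsum_of_inj hZ (fun _ => pow_nonneg hr0 _) hinj

lemma wz_exp_le {ε : ℝ} (hε : 0 < ε) (hε1 : ε < 1) {A : ℕ} (hA : 1 ≤ A) {c : ℝ} (hc : 0 < c)
    (s : ℝ) (n : ℕ) : wz ε A (Real.exp (c * n + s)) * Real.exp (c * n) ≤
      (Real.exp (-s) * ((1 + Real.exp s) ^ (A - 1))⁻¹) *
        Real.exp (-(min ε (1 - ε) * |c * n + s|)) := by
  unfold wz
  set z := Real.exp (c * n + s) with hz
  have hz0 : 0 < z := Real.exp_pos _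
  have e1 : Real.exp (c * n) = z * Real.exp (-s) := by
    rw [hz, ← Real.exp_add]; congr 1; ring
  have h1 : Real.exp s ≤ z := Real.exp_le_exp.mpr (by nlinarith [mul_nonneg hc.le (Nat.cast_nonneg (α := ℝ) n)])
  obtain ⟨B, rfl⟩ : ∃ B, A = B + 1 := ⟨A - 1, by omega⟩
  simp only [Nat.add_sub_cancel]
  have h2 : ((1 + z) ^ (B + 1))⁻¹ ≤ ((1 + Real.exp s) ^ B)⁻¹ * (1 + z)⁻¹ := by
    rw [← mul_inv, pow_succ]
    apply inv_anti₀ (by positivity)
    gcongr
  have h3 : z ^ (-ε) * z * (1 + z)⁻¹ ≤ Real.exp (-(min ε (1 - ε) * |c * n + s|)) := by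
    have e2 : z ^ (-ε) * z = z ^ (1 - ε) := by
      rw [← Real.rpow_add_one hz0.ne']; congr 1; ring
    have e3 : ∀ x : ℝ, z ^ x = Real.exp ((c * n + s) * x) := fun x => by
      rw [hz, ← Real.exp_mul]
    rcases le_total 0 (c * n + s) with h | h
    · rw [abs_of_nonneg h]
      calc z ^ (-ε) * z * (1 + z)⁻¹ = z ^ (-ε) * (z / (1 + z)) := by rw [div_eq_mul_inv]; ring
        _ ≤ z ^ (-ε) * 1 := by
          gcongr
          rw [div_le_one (by positivity)]; linarith
        _ = Real.exp ((c * n + s) * (-ε)) := by rw [mul_one, e3]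
        _ ≤ _ := by
          apply Real.exp_le_exp.mpr
          nlinarith [min_le_left ε (1 - ε)]
    · rw [abs_of_nonpos h, e2]
      calc z ^ (1 - ε) * (1 + z)⁻¹ ≤ z ^ (1 - ε) * 1 := by
            gcongr
            rw [inv_le_one₀ (by positivity)]; linarith
        _ = Real.exp ((c * n + s) * (1 - ε)) := by rw [mul_one, e3]
        _ ≤ _ := by
          apply Real.exp_le_exp.mpr
          nlinarith [min_le_right ε (1 - ε)]
  calc z ^ (-ε) * ((1 + z) ^ (B + 1))⁻¹ * Real.exp (c * n)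
      ≤ z ^ (-ε) * (((1 + Real.exp s) ^ B)⁻¹ * (1 + z)⁻¹) * Real.exp (c * n) := by gcongr
    _ = (Real.exp (-s) * ((1 + Real.exp s) ^ B)⁻¹) * (z ^ (-ε) * z * (1 + z)⁻¹) := by
        rw [e1]; ring
    _ ≤ _ := by gcongr

lemma summable_wz {h : ℝ → ℝ} (hcn : Continuous h) (hs : HasCompactSupport h) {c : ℝ} (hc0 : 0 < c)
    {ε : ℝ} (hε : 0 < ε) (hε1 : ε < 1) {A K : ℕ} (hA : 1 ≤ A) (hK : 2 ≤ K) {Ξ : Eis → ℂ}
    (hΞ : ∀ b, IsPrim b → ‖Ξ b‖ ≤ 1) (s : ℝ) :
    Summable (fun n : ℕ => wz ε A (Real.exp (c * n + s)) * TN h Ξ K (c * n)) := by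
  obtain ⟨C, hC, hb⟩ := TN_le hcn hs hK
  obtain ⟨B, hB, hsum⟩ := scale_sum (δ := min ε (1 - ε)) (lt_min hε (by linarith)) hc0
  refine Summable.of_nonneg_of_le (fun n => mul_nonneg (wz_nonneg (Real.exp_pos _).le)
    (TN_nonneg _ _ _ _)) (fun n => ?_) ((hsum s).1.mul_left
      (C * (Real.exp (-s) * ((1 + Real.exp s) ^ (A - 1))⁻¹)))
  calc wz ε A (Real.exp (c * n + s)) * TN h Ξ K (c * n)
      ≤ wz ε A (Real.exp (c * n + s)) * (C * Real.exp (c * n)) :=
        mul_le_mul_of_nonneg_left (hb Ξ hΞ _) (wz_nonneg (Real.exp_pos _).le)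
    _ = C * (wz ε A (Real.exp (c * n + s)) * Real.exp (c * n)) := by ring
    _ ≤ C * ((Real.exp (-s) * ((1 + Real.exp s) ^ (A - 1))⁻¹) *
        Real.exp (-(min ε (1 - ε) * |c * n + s|))) :=
        mul_le_mul_of_nonneg_left (wz_exp_le hε hε1 hA hc0 s n) hC
    _ = _ := by ring

lemma norm_XK_le {M c : Eis} {χ κ : Eis → ℂ} (h : HC M χ) (hc : c ≠ 0) (hκ : IsCh c κ) (l : ℤ)
    (b : Eis) (hb : IsPrim b) : ‖XK χ κ l b‖ ≤ 1 := by
  unfold XK
  rw [norm_mul, norm_mul]
  have h1 := h.char.norm_le hb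
  have h2 := hκ.norm_le_one hc b
  have h3 : ‖ang l b‖ ≤ 1 := (ang_isChar l).norm_le hb
  calc ‖χ b‖ * ‖κ b‖ * ‖ang l b‖ ≤ 1 * 1 * 1 := by gcongr
    _ = 1 := by ring

/-- **The majorant form of the functional equation** (U1').  `e^k` is the length, `N(c₁)` the
conductor of `κ`; dual scales `e^{cn}` with the weight `wz` of `e^{cn + k} / N(c₁)`. -/
theorem FE_major {w : ℝ → ℂ} (hw1 : ContDiff ℝ ∞ w) (hw2 : HasCompactSupport w) (l : ℤ)
    {h : ℝ → ℝ} {c : ℝ} (hpu : PU h c) {A K : ℕ} (hA : 2 ≤ A) (hK : 2 ≤ K) {ε : ℝ} (hε : 0 < ε)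
    (hε1 : ε < 1) : ∃ (C : ℝ) (J : ℕ), 0 ≤ C ∧ ∀ (M : Eis) (χ : Eis → ℂ), HC M χ →
      ∀ (c₁ : Eis) (κ : Eis → ℂ), IsPrim c₁ → IsCoprime c₁ M → IsCh c₁ κ → Primitive c₁ κ →
      κ 0 = 0 → ∀ k t : ℝ,
      ‖PS w (XK χ κ l) k t‖ ≤ C * (1 + |t|) ^ J * ((3 * nm M) ^ (A + 1) * UM ε M) *
        (Real.exp k / Real.sqrt (nm c₁)) *
          ∑' n : ℕ, wz ε A (Real.exp (c * n + k) / nm c₁) * TN h (XK χ κ l) K (c * n) := by
  obtain ⟨C, J, hC, hD⟩ := DR_bound (ad_gf hw1 hw2 l) hpu (A := A + 1) (K := K) (by omega) hK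
  refine ⟨2 * C, J, by positivity, fun M χ hχ c₁ κ hc₁ hcop hκ hp hκ0 k t => ?_⟩
  obtain ⟨ε₁, η, hε₁, hη, heq⟩ := PS_eq_dual hw1 hw2 hχ hc₁ hcop hκ hp hκ0 l k t
  have hΞ := norm_XK_le hχ hc₁.ne_zero hκ l
  have hcn := hpu.cd.continuous
  have hM0 : (0 : ℝ) < nm M := by
    have := nm_pos.mpr hχ.q0
    exact_mod_cast this
  have hM1 : (1 : ℝ) ≤ nm M := by
    have := nm_pos.mpr hχ.q0
    exact_mod_cast this
  have hc0 : (0 : ℝ) < nm c₁ := by
    have := nm_pos.mpr hc₁.ne_zero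
    exact_mod_cast this
  set V := ∑' n : ℕ, wz ε A (Real.exp (c * n + k) / nm c₁) * TN h (XK χ κ l) K (c * n) with hV
  have hshift : ∀ n : ℕ, Real.exp (c * n + k) / nm c₁ = Real.exp (c * n + (k - Real.log (nm c₁))) := by
    intro n
    rw [← add_sub_assoc, Real.exp_sub, Real.exp_log hc0]
  have hVs : Summable (fun n : ℕ => wz ε A (Real.exp (c * n + k) / nm c₁) *
      TN h (XK χ κ l) K (c * n)) := by
    simp only [hshift]
    exact summable_wz hcn hpu.cs hpu.cpos hε hε1 (by omega) hK hΞ _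
  have hbound : ∀ e : SM M, ‖η e * DR (XK χ κ l) (gt w l t)
      (Real.log (3 * nm M * nm c₁) - k - Real.log (nm (e : Eis)))‖ ≤
      (C * (1 + |t|) ^ J * (3 * nm M) ^ (A + 1) * V) * (nm (e : Eis) : ℝ) ^ (-ε) := by
    intro e
    have hne : (1 : ℝ) ≤ nm (e : Eis) := by
      have := nm_pos.mpr e.2.1
      exact_mod_cast this
    have hne0 : (0 : ℝ) < nm (e : Eis) := by linarith
    set y := Real.log (3 * nm M * nm c₁) - k - Real.log (nm (e : Eis)) with hy
    have hD' := hD (XK χ κ l) hΞ t y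
    have hS1 := FE47.summable_wt hcn hpu.cs hpu.cpos (A := A + 1) (K := K) (by omega) hK hΞ y
    have hle : ∑' n : ℕ, ((1 + Real.exp (c * n - y)) ^ (A + 1))⁻¹ * TN h (XK χ κ l) K (c * n) ≤
        ((3 * nm M) ^ (A + 1) * (nm (e : Eis) : ℝ) ^ (-ε)) * V := by
      rw [hV, ← tsum_mul_left]
      refine hS1.tsum_le_tsum (fun n => ?_) (hVs.mul_left _)
      have e1 : Real.exp (c * n - y) = (Real.exp (c * n + k) / nm c₁) * nm (e : Eis) / (3 * nm M) := by
        rw [hy]
        have : c * n - (Real.log (3 * nm M * nm c₁) - k - Real.log (nm (e : Eis))) =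
          (c * n + k + Real.log (nm (e : Eis))) - Real.log (3 * nm M * nm c₁) := by ring
        rw [this, Real.exp_sub, Real.exp_add _ (Real.log (nm (e : Eis))), Real.exp_log hne0,
          Real.exp_log (by positivity)]
        field_simp
      rw [e1]
      have h1 := weight_le hε hε1.le A (z := Real.exp (c * n + k) / nm c₁) (by positivity) hne
        (N := 3 * nm M) (by linarith)
      calc ((1 + Real.exp (c * n + k) / nm c₁ * nm (e : Eis) / (3 * nm M)) ^ (A + 1))⁻¹ *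
            TN h (XK χ κ l) K (c * n)
          ≤ ((3 * nm M) ^ (A + 1) * (nm (e : Eis) : ℝ) ^ (-ε) *
            wz ε A (Real.exp (c * n + k) / nm c₁)) * TN h (XK χ κ l) K (c * n) :=
            mul_le_mul_of_nonneg_right h1 (TN_nonneg _ _ _ _)
        _ = _ := by ring
    rw [norm_mul]
    calc ‖η e‖ * ‖DR (XK χ κ l) (gt w l t) y‖ ≤ 1 * (C * (1 + |t|) ^ J *
          (((3 * nm M) ^ (A + 1) * (nm (e : Eis) : ℝ) ^ (-ε)) * V)) := by
          refine mul_le_mul (hη e) (hD'.trans ?_) (norm_nonneg _) (by norm_num)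
          exact mul_le_mul_of_nonneg_left hle (by positivity)
      _ = _ := by ring
  have hsumE := (summable_SM hε hχ.q0).mul_left (C * (1 + |t|) ^ J * (3 * nm M) ^ (A + 1) * V)
  have hn := tsum_of_norm_bounded hsumE.hasSum hbound
  rw [tsum_mul_left] at hn
  have hVn : 0 ≤ V := tsum_nonneg fun n => mul_nonneg (wz_nonneg (by positivity)) (TN_nonneg _ _ _ _)
  have hUn := UM_nonneg ε M
  have hsc : (0 : ℝ) < Real.sqrt (nm c₁) := Real.sqrt_pos.mpr hc0
  have h3 : (1 : ℝ) ≤ Real.sqrt 3 := by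
    rw [Real.one_le_sqrt]; norm_num
  rw [heq, norm_mul, norm_mul, Complex.norm_real, Real.norm_of_nonneg (by positivity)]
  calc 2 * Real.exp k / (Real.sqrt 3 * Real.sqrt (nm c₁)) * ‖ε₁‖ *
        ‖∑' e : SM M, η e * DR (XK χ κ l) (gt w l t)
          (Real.log (3 * nm M * nm c₁) - k - Real.log (nm (e : Eis)))‖
      ≤ 2 * Real.exp k / (1 * Real.sqrt (nm c₁)) * 1 *
        (C * (1 + |t|) ^ J * (3 * nm M) ^ (A + 1) * V * UM ε M) := by
        gcongr
        exact hn
    _ = _ := by ring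

end Crest.Agent.R017.FE47
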