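import Crest.Agent.R017.FE8_47

/-!
# Row 17: functional equation of the smooth family sums (9): mean squares, cubic families

`FE_ms`: mean-square form of the functional equation, arbitrary nonnegative weights.
`kap h₁ h₂`: the primitive cubic characters `b ↦ (b/h₁)₃ conj (b/h₂)₃`.
-/

set_option autoImplicit false

noncomputable section

open Complex MeasureTheory Filter Topology
open scoped SchwartzMap ContDiff

namespace Crest.Agent.R017.FE47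

open Crest.Agent.R012 Crest.Agent.R012.Eis Crest.Agent.R012.Po581 Crest.Agent.R012.Gauss880
open Crest.Agent.R012.PSer47
open Crest.Agent.R012.Weight600 (osc norm_osc)
open Crest.Agent.R017.End699

/-- a member of the family: a character `χ` mod `M` times a primitive character `κ` mod `c`. -/
structure Mem (M : Eis) (χ : Eis → ℂ) (c : Eis) (κ : Eis → ℂ) : Prop where
  hc : HC M χ
  prim : IsPrim c
  cop : IsCoprime c M
  ch : IsCh c κ
  primitive : Primitive c κ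
  zero : κ 0 = 0

lemma Mem.norm_le {M : Eis} {χ : Eis → ℂ} {c : Eis} {κ : Eis → ℂ} (h : Mem M χ c κ) (l : ℤ)
    (b : Eis) (hb : IsPrim b) : ‖XK χ κ l b‖ ≤ 1 := norm_XK_le h.hc h.prim.ne_zero h.ch l b hb

/-- pointwise square form, conductor at most `Q` and at least `Q / λ` -/
theorem FE_sq {w : ℝ → ℂ} (hw1 : ContDiff ℝ ∞ w) (hw2 : HasCompactSupport w) (l : ℤ)
    {h : ℝ → ℝ} {c : ℝ} (hpu : PU h c) {A K : ℕ} (hA : 2 ≤ A) (hK : 2 ≤ K) {ε : ℝ} (hε : 0 < ε)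
    (hε1 : ε < 1) : ∃ (C : ℝ) (J : ℕ), 0 ≤ C ∧ ∀ (M : Eis) (χ : Eis → ℂ) (c₁ : Eis) (κ : Eis → ℂ),
      Mem M χ c₁ κ → ∀ Q lam' : ℝ, 0 < Q → Q ≤ lam' * nm c₁ → (nm c₁ : ℝ) ≤ Q → ∀ k t : ℝ,
      ‖PS w (XK χ κ l) k t‖ ^ 2 ≤ C * (1 + |t|) ^ J * cM A ε M ^ 2 *
        (lam' * Real.exp (2 * k) / Q * (Q / Real.exp k) ^ ε) *
          ∑' n : ℕ, wz ε A (Real.exp (c * n + k) / Q) * TN2 h (XK χ κ l) K (c * n) := by
  obtain ⟨C, J, hC, hF⟩ := FE_major hw1 hw2 l hpu (A := A) (K := K) hA hK hε hε1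
  have hI : 0 ≤ ∫ t : ℝ, ((1 + |t|) ^ K)⁻¹ := integral_nonneg fun _ => by positivity
  have hr1 : Real.exp (-(c * ε)) < 1 := Real.exp_lt_one_iff.mpr (by linarith [mul_pos hpu.cpos hε])
  have hr2 : 0 ≤ (1 - Real.exp (-(c * ε)))⁻¹ := inv_nonneg.mpr (by linarith)
  refine ⟨C ^ 2 * ((1 - Real.exp (-(c * ε)))⁻¹ * ∫ t : ℝ, ((1 + |t|) ^ K)⁻¹), 2 * J, by positivity,
    fun M χ c₁ κ hm Q lam' hQ hQ1 hQ2 k t => ?_⟩
  have hΞ := hm.norm_le l
  have hc0 : (0 : ℝ) < nm c₁ := by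
    have := nm_pos.mpr hm.prim.ne_zero
    exact_mod_cast this
  have hlam : 0 < lam' := by
    by_contra hneg
    have := mul_nonpos_of_nonpos_of_nonneg (not_lt.mp hneg) hc0.le
    linarith
  have hsc : (0 : ℝ) < Real.sqrt (nm c₁) := Real.sqrt_pos.mpr hc0
  set s := k - Real.log Q with hs
  have hshift : ∀ n : ℕ, Real.exp (c * n + k) / Q = Real.exp (c * n + s) := by
    intro n
    rw [hs, ← add_sub_assoc, Real.exp_sub, Real.exp_log hQ]
  have hes : Real.exp (-(s * ε)) = (Q / Real.exp k) ^ ε := by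
    have : Q / Real.exp k = Real.exp (-s) := by
      rw [hs, neg_sub, Real.exp_sub, Real.exp_log hQ]
    rw [this, ← Real.exp_mul]
    congr 1; ring
  simp only [hshift]
  have hV1 := summable_wz hpu.cd.continuous hpu.cs hpu.cpos hε hε1 (A := A) (by omega) hK hΞ s
  have h1 : ∑' n : ℕ, wz ε A (Real.exp (c * n + k) / nm c₁) * TN h (XK χ κ l) K (c * n) ≤
      ∑' n : ℕ, wz ε A (Real.exp (c * n + s)) * TN h (XK χ κ l) K (c * n) := by
    have hle : ∀ n : ℕ, wz ε A (Real.exp (c * n + k) / nm c₁) * TN h (XK χ κ l) K (c * n) ≤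
        wz ε A (Real.exp (c * n + s)) * TN h (XK χ κ l) K (c * n) := by
      intro n
      rw [← hshift]
      refine mul_le_mul_of_nonneg_right (wz_anti hε A (by positivity) ?_) (TN_nonneg _ _ _ _)
      gcongr
    refine Summable.tsum_le_tsum hle ?_ hV1
    exact Summable.of_nonneg_of_le (fun n => mul_nonneg (wz_nonneg (by positivity))
      (TN_nonneg _ _ _ _)) hle hV1
  set V := ∑' n : ℕ, wz ε A (Real.exp (c * n + s)) * TN h (XK χ κ l) K (c * n) with hV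
  have hVn : 0 ≤ V := tsum_nonneg fun n => mul_nonneg (wz_nonneg (by positivity)) (TN_nonneg _ _ _ _)
  have hcs := sq_sum_le hpu.cd.continuous hpu.cs hpu.cpos hε hε1 hA hK hΞ s
  rw [← hV] at hcs
  have hW := (summable_wz' hpu.cpos hε A s).2
  have hW0 : 0 ≤ ∑' n : ℕ, wz ε A (Real.exp (c * n + s)) :=
    tsum_nonneg fun n => wz_nonneg (by positivity)
  have hY0 : 0 ≤ ∑' n : ℕ, wz ε A (Real.exp (c * n + s)) * TN2 h (XK χ κ l) K (c * n) :=
    tsum_nonneg fun n => mul_nonneg (wz_nonneg (by positivity)) (TN2_nonneg _ _ _ _)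
  set Y := ∑' n : ℕ, wz ε A (Real.exp (c * n + s)) * TN2 h (XK χ κ l) K (c * n) with hY
  have hcMn := cM_nonneg A ε M
  have h2 : ‖PS w (XK χ κ l) k t‖ ≤ C * (1 + |t|) ^ J * cM A ε M *
      (Real.exp k / Real.sqrt (nm c₁)) * V := by
    refine (hF M χ hm.hc c₁ κ hm.prim hm.cop hm.ch hm.primitive hm.zero k t).trans ?_
    have hcM' : (3 * (nm M : ℝ)) ^ (A + 1) * UM ε M = cM A ε M := rfl
    rw [hcM']
    gcongr
  have h3 : (Real.exp k / Real.sqrt (nm c₁)) ^ 2 ≤ lam' * Real.exp (2 * k) / Q := by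
    rw [div_pow, Real.sq_sqrt hc0.le, ← Real.exp_nat_mul, div_le_div_iff₀ hc0 hQ]
    push_cast
    nlinarith [Real.exp_pos (2 * k)]
  calc ‖PS w (XK χ κ l) k t‖ ^ 2 ≤ (C * (1 + |t|) ^ J * cM A ε M *
      (Real.exp k / Real.sqrt (nm c₁)) * V) ^ 2 := by gcongr
    _ = C ^ 2 * (1 + |t|) ^ (2 * J) * cM A ε M ^ 2 * (Real.exp k / Real.sqrt (nm c₁)) ^ 2 * V ^ 2 := by
        rw [pow_mul' (1 + |t|) 2 J]; ring
    _ ≤ C ^ 2 * (1 + |t|) ^ (2 * J) * cM A ε M ^ 2 * (lam' * Real.exp (2 * k) / Q) *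
        (((Real.exp (-(s * ε)) * (1 - Real.exp (-(c * ε)))⁻¹) * ∫ t : ℝ, ((1 + |t|) ^ K)⁻¹) * Y) := by
        gcongr
        refine hcs.trans ?_
        gcongr
    _ = _ := by rw [hes]; ring

/-- **Mean-square form** (U2'), arbitrary nonnegative weights `B i`. -/
theorem FE_ms {w : ℝ → ℂ} (hw1 : ContDiff ℝ ∞ w) (hw2 : HasCompactSupport w) (l : ℤ)
    {h : ℝ → ℝ} {c : ℝ} (hpu : PU h c) {A K : ℕ} (hA : 2 ≤ A) (hK : 2 ≤ K) {ε : ℝ} (hε : 0 < ε)
    (hε1 : ε < 1) : ∃ (C : ℝ) (J : ℕ), 0 ≤ C ∧ ∀ (ι : Type) (S : Finset ι) (B : ι → ℝ)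
      (M : ι → Eis) (χ : ι → Eis → ℂ) (c₁ : ι → Eis) (κ : ι → Eis → ℂ),
      (∀ i ∈ S, 0 ≤ B i) → (∀ i ∈ S, Mem (M i) (χ i) (c₁ i) (κ i)) → ∀ Q lam' D : ℝ, 0 < Q →
      (∀ i ∈ S, Q ≤ lam' * nm (c₁ i) ∧ (nm (c₁ i) : ℝ) ≤ Q) → (∀ i ∈ S, cM A ε (M i) ≤ D) →
      ∀ k t : ℝ,
      ∑ i ∈ S, B i * ‖PS w (XK (χ i) (κ i) l) k t‖ ^ 2 ≤ C * (1 + |t|) ^ J * D ^ 2 *
        (lam' * Real.exp (2 * k) / Q * (Q / Real.exp k) ^ ε) *
          ∑' n : ℕ, wz ε A (Real.exp (c * n + k) / Q) *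
            ∫ t' : ℝ, ((1 + |t'|) ^ K)⁻¹ *
              ∑ i ∈ S, B i * ‖PS (cx h) (XK (χ i) (κ i) l) (c * n) t'‖ ^ 2 := by
  obtain ⟨C, J, hC, hF⟩ := FE_sq hw1 hw2 l hpu (A := A) (K := K) hA hK hε hε1
  refine ⟨C, J, hC, fun ι S B M χ c₁ κ hB hm Q lam' D hQ hQc hD k t => ?_⟩
  rcases S.eq_empty_or_nonempty with hS | hS
  · subst hS
    simp
  obtain ⟨i₀, hi₀⟩ := hS
  have hlam : 0 ≤ lam' := by
    have hc0 : (0 : ℝ) < nm (c₁ i₀) := by
      have := nm_pos.mpr (hm i₀ hi₀).prim.ne_zero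
      exact_mod_cast this
    by_contra hneg
    have := mul_nonpos_of_nonpos_of_nonneg (not_le.mp hneg).le hc0.le
    linarith [(hQc i₀ hi₀).1]
  have hsum : ∀ i ∈ S, Summable fun n : ℕ => wz ε A (Real.exp (c * n + k) / Q) *
      TN2 h (XK (χ i) (κ i) l) K (c * n) := by
    intro i hi
    have h1 := summable_wz2 hpu.cd.continuous hpu.cs hpu.cpos hε hA hK ((hm i hi).norm_le l)
      (k - Real.log Q)
    have hshift : ∀ n : ℕ, Real.exp (c * n + k) / Q = Real.exp (c * n + (k - Real.log Q)) := by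
      intro n
      rw [← add_sub_assoc, Real.exp_sub, Real.exp_log hQ]
    simp only [hshift]
    exact h1
  have e1 : ∑' n : ℕ, wz ε A (Real.exp (c * n + k) / Q) *
            ∫ t' : ℝ, ((1 + |t'|) ^ K)⁻¹ *
              ∑ i ∈ S, B i * ‖PS (cx h) (XK (χ i) (κ i) l) (c * n) t'‖ ^ 2 =
      ∑ i ∈ S, B i * ∑' n : ℕ, wz ε A (Real.exp (c * n + k) / Q) *
        TN2 h (XK (χ i) (κ i) l) K (c * n) := by
    have e2 : ∀ n : ℕ, wz ε A (Real.exp (c * n + k) / Q) *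
            ∫ t' : ℝ, ((1 + |t'|) ^ K)⁻¹ *
              ∑ i ∈ S, B i * ‖PS (cx h) (XK (χ i) (κ i) l) (c * n) t'‖ ^ 2 =
        ∑ i ∈ S, B i * (wz ε A (Real.exp (c * n + k) / Q) * TN2 h (XK (χ i) (κ i) l) K (c * n)) := by
      intro n
      have e3 : ∫ t' : ℝ, ((1 + |t'|) ^ K)⁻¹ *
              ∑ i ∈ S, B i * ‖PS (cx h) (XK (χ i) (κ i) l) (c * n) t'‖ ^ 2 =
          ∑ i ∈ S, B i * TN2 h (XK (χ i) (κ i) l) K (c * n) := by
        have e4 : (fun t' : ℝ => ((1 + |t'|) ^ K)⁻¹ *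
              ∑ i ∈ S, B i * ‖PS (cx h) (XK (χ i) (κ i) l) (c * n) t'‖ ^ 2) =
            fun t' : ℝ => ∑ i ∈ S, B i * (((1 + |t'|) ^ K)⁻¹ *
              ‖PS (cx h) (XK (χ i) (κ i) l) (c * n) t'‖ ^ 2) := by
          funext t'
          rw [Finset.mul_sum]
          exact Finset.sum_congr rfl fun i _ => by ring
        rw [e4, integral_finsetSum]
        · exact Finset.sum_congr rfl fun i _ => by rw [integral_const_mul]; rfl
        · intro i hi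
          exact (integrable_TN2 hpu.cd.continuous hpu.cs hK ((hm i hi).norm_le l) _).const_mul _
      rw [e3, Finset.mul_sum]
      exact Finset.sum_congr rfl fun i _ => by ring
    rw [tsum_congr e2, Summable.tsum_finsetSum fun i hi => (hsum i hi).mul_left _]
    exact Finset.sum_congr rfl fun i _ => by rw [tsum_mul_left]
  rw [e1, Finset.mul_sum]
  refine Finset.sum_le_sum fun i hi => ?_
  have h1 := hF (M i) (χ i) (c₁ i) (κ i) (hm i hi) Q lam' hQ (hQc i hi).1 (hQc i hi).2 k t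
  have hY0 : 0 ≤ ∑' n : ℕ, wz ε A (Real.exp (c * n + k) / Q) * TN2 h (XK (χ i) (κ i) l) K (c * n) :=
    tsum_nonneg fun n => mul_nonneg (wz_nonneg (by positivity)) (TN2_nonneg _ _ _ _)
  have hcM := cM_nonneg A ε (M i)
  calc B i * ‖PS w (XK (χ i) (κ i) l) k t‖ ^ 2
      ≤ B i * (C * (1 + |t|) ^ J * cM A ε (M i) ^ 2 *
        (lam' * Real.exp (2 * k) / Q * (Q / Real.exp k) ^ ε) *
          ∑' n : ℕ, wz ε A (Real.exp (c * n + k) / Q) * TN2 h (XK (χ i) (κ i) l) K (c * n)) :=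
        mul_le_mul_of_nonneg_left h1 (hB i hi)
    _ ≤ B i * (C * (1 + |t|) ^ J * D ^ 2 *
        (lam' * Real.exp (2 * k) / Q * (Q / Real.exp k) ^ ε) *
          ∑' n : ℕ, wz ε A (Real.exp (c * n + k) / Q) * TN2 h (XK (χ i) (κ i) l) K (c * n)) := by
        refine mul_le_mul_of_nonneg_left ?_ (hB i hi)
        have h5 := hD i hi
        gcongr
    _ = _ := by ring

/-! ### the cubic families -/

/-- `b ↦ (b/h₁)₃ conj (b/h₂)₃` -/
def kap (h₁ h₂ : Eis) (b : Eis) : ℂ := sy b h₁ * (starRingEnd ℂ) (sy b h₂)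

lemma primitive_conj {c : Eis} {χ : Eis → ℂ} (hc : c ≠ 0) (h : Primitive c χ) :
    Primitive c (fun x => (starRingEnd ℂ) (χ x)) := by
  intro r hr
  have h1 := conj_gsum (χ := χ) hc (-r)
  rw [neg_neg, h (-r) (fun hh => hr (by simpa using hh.neg_left)), map_zero] at h1
  exact h1.symm

lemma isCh_kap {h₁ h₂ : Eis} (p₁ : IsPrim h₁) (p₂ : IsPrim h₂) : IsCh (h₁ * h₂) (kap h₁ h₂) :=
  (isCh_sy syG p₁).mul_char (isCh_sy syG p₂).conj

theorem primitive_kap {h₁ h₂ : Eis} (p₁ : IsPrim h₁) (p₂ : IsPrim h₂) (s₁ : Squarefree h₁)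
    (s₂ : Squarefree h₂) (hcop : IsCoprime h₁ h₂) : Primitive (h₁ * h₂) (kap h₁ h₂) :=
  Primitive.mul p₁.ne_zero p₂.ne_zero hcop (isCh_sy syG p₁) (isCh_sy syG p₂).conj
    (primitive_sy syG p₁ s₁) (primitive_conj p₂.ne_zero (primitive_sy syG p₂ s₂))

/-- the members of the cubic family -/
theorem mem_kap {M : Eis} {χ : Eis → ℂ} (hχ : HC M χ) {h₁ h₂ : Eis} (p₁ : IsPrim h₁)
    (p₂ : IsPrim h₂) (s₁ : Squarefree h₁) (s₂ : Squarefree h₂) (hcop : IsCoprime h₁ h₂)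
    (hM : IsCoprime (h₁ * h₂) M) (hne : h₁ * h₂ ≠ 1) : Mem M χ (h₁ * h₂) (kap h₁ h₂) where
  hc := hχ
  prim := p₁.mul p₂
  cop := hM
  ch := isCh_kap p₁ p₂
  primitive := primitive_kap p₁ p₂ s₁ s₂ hcop
  zero := by
    refine (isCh_kap p₁ p₂).zero 0 fun h => hne ?_
    have hu : IsUnit (h₁ * h₂) := isCoprime_zero_left.mp h
    exact (p₁.mul p₂).eq_of_associated isPrim_one (associated_one_iff_isUnit.mpr hu)

/-- on primary elements `kap h₁ h₂` is the residue symbol of `h₁ h₂²`. -/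
theorem kap_eq_sy {h₁ h₂ b : Eis} (p₁ : IsPrim h₁) (p₂ : IsPrim h₂) (hb : IsPrim b) :
    kap h₁ h₂ b = sy (h₁ * h₂ ^ 2) b := by
  unfold kap
  rw [Char766.sy_mul_left hb, Char766.sy_pow_left hb, Sym645.sy_reciprocity hb p₁,
    Sym645.sy_reciprocity hb p₂, Char766.conj_sy hb]

end Crest.Agent.R017.FE47
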