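import Crest.Agent.R017.NEz_911
import Crest.Agent.R017.D5X_939

/-!
# Row 17, class E: the flat claims on `D5X` (helper939)

* `fe2LX_of` : `FE2L` on `D5X`, loss `3/4 d b 0`, from the near field
-/

set_option autoImplicit false
set_option linter.unusedVariables false

noncomputable section

open Set

namespace Crest.Agent.R017.D5X939

open Crest.Agent.R017.ER911
open Crest.Agent.R017.TM708 (T5 K5 R5 FE2L)
open Crest.Agent.R017.FN708
open Crest.Agent.R017.SC777
open Crest.Agent.R017.NE73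
open Crest.Agent.R017.NEx911
open Crest.Agent.R017.TK708 (FE2G FE2G_iff)

variable {d : ℝ} {r s s₀ : EF}

/-- **the flat claims of class E on `D5X`** from the near field -/
theorem fe2LX_of (R : ExpRules (7 / 8 + d) r s) (Rm : ExpRGFz (7 / 8 + d) r s s₀)
    (hd : 0 ≤ d) (hd8 : 8 * d ≤ 1)
    (hG : ∀ κ S y₁ y₂ y₃ : ℝ, NearDom κ S y₁ y₂ y₃ →
      NEFx s₀ κ S y₁ y₂ y₃ (2 * d * ((y₁ + y₂ + y₃) / 3))) :
    FE2L s₀ D5X fun b => 3 / 4 * d * b 0 := by
  refine FE2G_iff.1 (fe2G_of_nex R Rm hd hd8 (fun b hb => RF_of hb.1 hb.2.1) ?_ ?_ hG)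
  · intro b hb hn
    have m1 : mnb b ≤ b 1 := min_le_left _ _
    have m2 : mnb b ≤ b 2 := (min_le_right _ _).trans (min_le_left _ _)
    have m3 : mnb b ≤ b 3 := (min_le_right _ _).trans (min_le_right _ _)
    rcases hb.2.2.2.2 with (h | h | h) | ⟨h1, h2, h3⟩
    · exfalso; linarith
    · exfalso; linarith
    · exfalso; linarith
    · rcases max_choice (b 1) (max (b 2) (b 3)) with h | h <;> rw [h]
      · exact h1
      · rcases max_choice (b 2) (b 3) with h | h <;> rw [h]
        · exact h2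
        · exact h3
  · intro b hb
    have h1 := hb.1.hN
    have h2 := hb.1.x1
    have h3 := hb.1.k0
    have h4 : (b 1 + b 2 + b 3) / 3 + b 4 ≤ 3 / 8 * b 0 := by linarith
    have := mul_le_mul_of_nonneg_left h4 (show 0 ≤ 2 * d by linarith)
    linarith

end Crest.Agent.R017.D5X939
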