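import Crest.Agent.R017.FNEg_708

/-!
# Row 17, R8 / P1M: any claim on the children at the exponent level, for actual lists (helper436)

* `ne_gen`    : a continuous bound `G b v z₁ z₂ z₃ w` for the exponent `ex Dq Φ v {z₁, z₂, z₃} 0 w`
  on the range of the children of all `b ∈ D5` holds for actual lists
* `child_gen` : the same for the children of a parent near `b ∈ D5` (`child_le` with `G`)
-/

set_option autoImplicit false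
set_option linter.unusedSectionVars false

noncomputable section

open Set

namespace Crest.Agent.R017.FEx436

open Crest.Agent.R012 Crest.Agent.R012.Eis
open Crest.Agent.R017.FE47 (PU)
open Crest.Agent.R017.CM106
open Crest.Agent.R017.XG702 (Pcs BG)
open Crest.Agent.R017.XT71 (Sys Win mx le_mx one_le_mx)
open Crest.Agent.R017.Prov71
open Crest.Agent.R017.B770
open Crest.Agent.R017.ER911
open Crest.Agent.R017.HP842 (Pc pc sqc alL KS Ker)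
open Crest.Agent.R017.UBT973 (UBs Wn)
open Crest.Agent.R017.TM708
open Crest.Agent.R017.TK708
open Crest.Agent.R017.I1146 (ChN LN cN SN FlatO FlatL Tail)

variable {Λ : Type*} {π : Λ → DPar} {h : ℝ → ℝ} {d : ℝ} {Φ : Λ → ℝ → List Pq → ℝ} {n : ℕ}
  {Tf : (Fin 5 → ℝ) → ℝ}

/-- the bound at the coordinates -/
def GG (G : (Fin 5 → ℝ) → ℝ → ℝ → ℝ → ℝ → ℝ → ℝ) (q : (Fin 5 ⊕ Fin 4 → ℝ) × (Kd → ℝ)) : ℝ :=
  G (b5 q) (q.1 (.inr 0)) (q.1 (.inr 1)) (q.1 (.inr 2)) (q.1 (.inr 3)) (q.2 .am)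

/-- `G` is continuous in all variables -/
def ContG (G : (Fin 5 → ℝ) → ℝ → ℝ → ℝ → ℝ → ℝ → ℝ) : Prop :=
  Continuous fun p : (Fin 5 → ℝ) × ℝ × ℝ × ℝ × ℝ × ℝ =>
    G p.1 p.2.1 p.2.2.1 p.2.2.2.1 p.2.2.2.2.1 p.2.2.2.2.2

/-- **a claim on the children at the exponent level** -/
def ClG (s : EF) (D5 : Set (Fin 5 → ℝ)) (Tf : (Fin 5 → ℝ) → ℝ)
    (G : (Fin 5 → ℝ) → ℝ → ℝ → ℝ → ℝ → ℝ → ℝ) : Prop :=
  ∀ b ∈ D5, ∀ v z₁ z₂ z₃ w : ℝ, 0 ≤ v → 0 ≤ z₁ → z₁ ≤ b 1 → 0 ≤ z₂ → z₂ ≤ b 2 → 0 ≤ z₃ →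
    z₃ ≤ b 3 → 0 ≤ w → w ≤ b 4 →
    v ≤ Tf b + (b 1 + b 2 + b 3 + b 4 - (z₁ + z₂ + z₃ + w)) →
    s v {z₁, z₂, z₃} 0 w ≤ G b v z₁ z₂ z₃ w

lemma GG_cont {G : (Fin 5 → ℝ) → ℝ → ℝ → ℝ → ℝ → ℝ → ℝ} (hG : ContG G) :
    Continuous (GG G) := by
  refine hG.comp (f := fun q : (Fin 5 ⊕ Fin 4 → ℝ) × (Kd → ℝ) => ((b5 q, q.1 (.inr 0),
    q.1 (.inr 1), q.1 (.inr 2), q.1 (.inr 3), q.2 .am) : (Fin 5 → ℝ) × ℝ × ℝ × ℝ × ℝ × ℝ)) ?_
  refine b5_cont.prodMk ?_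
  fun_prop

/-- **for actual lists** -/
theorem ne_gen (hW : Wd Φ) (hTf : Continuous Tf) {D5 : Set (Fin 5 → ℝ)} (hD : IsCompact D5)
    {G : (Fin 5 → ℝ) → ℝ → ℝ → ℝ → ℝ → ℝ → ℝ} (hG : ContG G) (hC : ClG (ex Dq Φ) D5 Tf G)
    {ε : ℝ} (hε : 0 < ε) :
    ∃ σ : ℝ, 0 < σ ∧ ∀ (lam : Λ) (N : ℕ) (B : ℝ), ∃ (M : ℕ) (X₀ : ℝ), 1 < X₀ ∧
      ∀ X : ℝ, X₀ ≤ X → ∀ b ∈ D5, ∀ (a : T3) (ps : List Pq), a.ok → ps.length ≤ N →
      (∀ p ∈ ps, p.kd = .am ∧ 0 ≤ p.z ∧ p.z ≤ σ * Real.log X ∧ (nm p.d : ℝ) ≤ X ^ B) →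
      S3.s₂ a ≤ X ^ B → 0 ≤ a.l → (a.us 0).z ≤ (b 1 + σ) * Real.log X →
      (a.us 1).z ≤ (b 2 + σ) * Real.log X → (a.us 2).z ≤ (b 3 + σ) * Real.log X →
      (ps.map fun p => p.z).sum ≤ (b 4 + σ) * Real.log X →
      a.l ≤ (Tf b + (b 1 + b 2 + b 3 + b 4) + σ) * Real.log X -
        ((a.us 0).z + (a.us 1).z + (a.us 2).z + (ps.map fun p => p.z).sum) →
      ∀ K : ℝ, 1 ≤ K → S3.s₁ a ≤ K → (∀ p ∈ ps, 1 + |p.t| ≤ K) →
        Φ lam a.l ((a.mk' ++ ps).map (Pq.tw a.q)) ≤ K ^ M * X ^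
          (G b (a.l / Real.log X) ((a.us 0).z / Real.log X) ((a.us 1).z / Real.log X)
            ((a.us 2).z / Real.log X) ((ps.map fun p => p.z).sum / Real.log X) + ε) := by
  rcases D5.eq_empty_or_nonempty with rfl | hne
  · exact ⟨1, one_pos, fun lam N B => ⟨0, 2, by norm_num, fun X _ b hb => absurd hb
      (Set.notMem_empty _)⟩⟩
  have hcompact := fG_compact hTf hD hne
  have hcont := fG_cont hTf D5
  have hsub : {q | fG Tf D5 q ≤ 0} ⊆ {q | fG Tf D5 q ≤ 1} := fun q hq =>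
    le_trans (show fG Tf D5 q ≤ 0 from hq) zero_le_one
  have hDom : IsCompact {q | fG Tf D5 q ≤ 0} :=
    hcompact.of_isClosed_subset (isClosed_le hcont continuous_const) hsub
  rcases ({q | fG Tf D5 q ≤ 0} : Set _).eq_empty_or_nonempty with h0 | hneD
  · obtain ⟨τ, hτ, hτ1, hnear⟩ := UBT973.near_slack hcont hcompact one_pos
    refine ⟨τ, hτ, fun lam N B => ⟨0, 2, by norm_num, fun X hX b hb a ps ha hN hps hs2 hl hz1 hz2
      hz3 hw hlev => ?_⟩⟩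
    obtain ⟨p, hp, -⟩ := hnear _ (fG_data (by linarith) hτ.le hb ha
      (fun p hp => ⟨(hps p hp).1, (hps p hp).2.1⟩) hl hz1 hz2 hz3 hw hlev).2.2
    have : p ∈ {q | fG Tf D5 q ≤ 0} := hp
    rw [h0] at this
    exact absurd this (Set.notMem_empty _)
  have hmem : ∀ {q : (Fin 5 ⊕ Fin 4 → ℝ) × (Kd → ℝ)}, fG Tf D5 q ≤ 0 → b5 q ∈ D5 := by
    intro q hq
    have h1 := (fG_le.1 hq).1.1
    have h2 : b5 q ∈ {q | Metric.infDist q D5 ≤ 0} := h1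
    rwa [infDist_zero hD.isClosed hne] at h2
  obtain ⟨σ, hσ, F⟩ := tmg_nearW (n := 5) hW (fun _ => 0) hDom hneD (fun q hq => by
      obtain ⟨⟨h1, h2, h3⟩, ⟨h4, h5⟩, ⟨h6, h7⟩, ⟨h8, h9⟩, ⟨h10, h11⟩, h12, h13⟩ := fG_le.1 hq
      simp only [neg_zero] at h2 h4 h6 h8 h10 h12
      refine ⟨fun i => ?_, fun t => ?_⟩
      · fin_cases i
        · exact h2
        · exact h4
        · exact h6
        · exact h8
      · cases t
        · exact h10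
        · exact h12) (GG_cont hG) (fun q hq => by
      have hb := hmem hq
      obtain ⟨⟨h1, h2, h3⟩, ⟨h4, h5⟩, ⟨h6, h7⟩, ⟨h8, h9⟩, ⟨h10, h11⟩, h12, h13⟩ := fG_le.1 hq
      simp only [neg_zero, add_zero] at h2 h3 h4 h5 h6 h7 h8 h9 h10 h11 h12 h13
      have e0 : q.2 .mo = 0 := le_antisymm h11 h10
      rw [e0]
      exact hC (b5 q) hb _ _ _ _ _ h2 h4 h5 h6 h7 h8 h9 h12 h13 h3)
    hε
  obtain ⟨τ, hτ, hτ1, hnear⟩ := UBT973.near_slack hcont hcompact hσ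
  refine ⟨min σ τ, lt_min hσ hτ, fun lam N B => ?_⟩
  obtain ⟨M, X₀, hX₀, H⟩ := F lam N B
  refine ⟨M, X₀, hX₀, fun X hX b hb a ps ha hN hps hs2 hl hz1 hz2 hz3 hw hlev K hK hs1 hpt => ?_⟩
  have hX1 : 1 < X := by linarith
  have hL : 0 < Real.log X := Real.log_pos hX1
  have hτ' : min σ τ ≤ τ := min_le_right _ _
  have hmu : ∀ {c : ℝ}, (c + min σ τ) * Real.log X ≤ (c + τ) * Real.log X := fun {c} =>
    mul_le_mul_of_nonneg_right (by linarith) hL.le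
  obtain ⟨hqb, q4, hf⟩ := fG_data hX1 hτ.le hb ha (fun p hp => ⟨(hps p hp).1, (hps p hp).2.1⟩) hl
    (hz1.trans hmu) (hz2.trans hmu) (hz3.trans hmu) (hw.trans hmu)
    (hlev.trans (sub_le_sub_right hmu _))
  obtain ⟨p, hp, hpd⟩ := hnear _ hf
  have key := H X hX (fun i => b i * Real.log X) a ps ha hN (fun p hp => ⟨(hps p hp).1, by
      unfold Pcs.nl
      rw [div_le_iff₀ hL]
      exact (hps p hp).2.2.1.trans (mul_le_mul_of_nonneg_right (min_le_left _ _) hL.le)⟩) hs2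
    (fun p hp => ⟨(hps p hp).2.2.2, (hps p hp).2.1⟩) ⟨p, hp, hpd.le⟩ K hK hs1 hpt
  unfold GG at key
  rw [hqb] at key
  have e1 : ((S3e 5).ev X (fun i => b i * Real.log X, a), Dq.mass X ps).2 Kd.am =
    (ps.map fun p => p.z).sum / Real.log X := q4
  rw [e1, add_zero] at key
  exact key

/-- **any claim on the children, for actual children** -/
theorem child_gen (hW : Wd Φ) (hTf : Continuous Tf) {D5 : Set (Fin 5 → ℝ)} (hD : IsCompact D5)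
    {G : (Fin 5 → ℝ) → ℝ → ℝ → ℝ → ℝ → ℝ → ℝ} (hG : ContG G) (hC : ClG (ex Dq Φ) D5 Tf G)
    {ε : ℝ} (hε : 0 < ε) :
    ∃ σ : ℝ, 0 < σ ∧ ∀ (lam : Λ) (N : ℕ) (B : ℝ), ∃ M : ℕ, ∀ r : ℝ, 0 ≤ r → ∃ X₀ : ℝ, 1 < X₀ ∧
      ∀ X : ℝ, X₀ ≤ X → ∀ b ∈ D5, ∀ (q : Eis) (us : Fin 3 → Pq) (gs : List Pq) (κ H : ℝ),
      PD X (σ / 2) B H N b q us gs κ → ∀ g : Eis, IsPrim g → (nm g : ℝ) ≤ X ^ B →
      ∀ (l : ℝ) (ps' : List Pq), 0 ≤ l →
      List.Forall₂ (ChN r) ps' ([us 0, us 1, us 2] ++ gs) →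
      l + LN ps' ≤ (Tf b + (b 1 + b 2 + b 3 + b 4) + σ) * Real.log X →
      ∃ z₁ z₂ z₃ w : ℝ, 0 ≤ z₁ ∧ 0 ≤ z₂ ∧ 0 ≤ z₃ ∧ 0 ≤ w ∧ z₁ ≤ (us 0).z + r ∧
        z₂ ≤ (us 1).z + r ∧ z₃ ≤ (us 2).z + r ∧ w ≤ LN gs + N * r ∧
        z₁ + z₂ + z₃ + w = LN ps' ∧ (ps'.take 3).map Pq.z = [z₁, z₂, z₃] ∧
        w = LN (ps'.drop 3) ∧
        tq Φ lam (q * g) l ps' ≤ (cN ps' ([us 0, us 1, us 2] ++ gs) * H) ^ M *
          Real.exp (Real.log X * G b (l / Real.log X) (z₁ / Real.log X) (z₂ / Real.log X)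
            (z₃ / Real.log X) (w / Real.log X) + ε * Real.log X) := by
  obtain ⟨σ, hσ, F⟩ := ne_gen hW hTf hD hG hC hε
  refine ⟨σ, hσ, fun lam N B => ?_⟩
  obtain ⟨M, X₀, hX₀, G1⟩ := F lam N (|B| + |B|)
  refine ⟨M, fun r hr => ⟨max X₀ (Real.exp (2 * ((N + 1) * r) / σ)),
    lt_of_lt_of_le hX₀ (le_max_left _ _), ?_⟩⟩
  intro X hX b hb q us gs κ H hPD g hg hgB l ps' hl hch hlev
  have hX0' : X₀ ≤ X := (le_max_left _ _).trans hX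
  have hX1 : 1 < X := by linarith
  obtain ⟨a, gs', ha1, ha2, hps', haok, hlen, hgs', hs2, hs1, hKt, hz, hw0, hw, hLN, hK1⟩ :=
    child_data (l := l) hX1 hPD hr hg hgB hch
  set L := Real.log X with hLd
  have hL : 0 < L := Real.log_pos hX1
  have hrL : (N + 1) * r ≤ σ / 2 * L := by
    have h1 : Real.exp (2 * ((N + 1) * r) / σ) ≤ X := (le_max_right _ _).trans hX
    have h2 : 2 * ((N + 1) * r) / σ ≤ L := by
      have := Real.log_le_log (Real.exp_pos _) h1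
      rwa [Real.log_exp] at this
    rw [div_le_iff₀ hσ] at h2
    linarith
  have hN0 : (0 : ℝ) ≤ N := Nat.cast_nonneg N
  have hr1 : r ≤ σ / 2 * L := by nlinarith
  have hNr : (N : ℝ) * r ≤ σ / 2 * L := by nlinarith
  have hzz : ∀ {y c z : ℝ}, z ≤ (c + σ / 2) * L → y ≤ z + r → y ≤ (c + σ) * L := by
    intro y c z h1 h2
    linarith
  have hx := hPD.x
  rw [← hLd] at hx
  have key := G1 X hX0' b hb a gs' haok hlen (fun p hp => ⟨(hgs' p hp).1, (hgs' p hp).2.1, by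
      have := (hgs' p hp).2.2.1
      linarith, (hgs' p hp).2.2.2⟩) hs2 (by rw [ha1]; exact hl) (hzz hPD.z1 (hz 0).2)
    (hzz hPD.z2 (hz 1).2) (hzz hPD.z3 (hz 2).2) (by
      show LN gs' ≤ _
      linarith) (by
      rw [hLN] at hlev
      rw [ha1]
      show l ≤ _ - ((a.us 0).z + (a.us 1).z + (a.us 2).z + LN gs')
      linarith) _ hK1 hs1 hKt
  refine ⟨(a.us 0).z, (a.us 1).z, (a.us 2).z, LN gs', (hz 0).1, (hz 1).1, (hz 2).1, hw0,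
    (hz 0).2, (hz 1).2, (hz 2).2, hw, hLN.symm, by rw [hps']; rfl, by rw [hps']; rfl, ?_⟩
  rw [ha1, ha2, ← hps'] at key
  refine key.trans (le_of_eq ?_)
  congr 1
  rw [rpow_exp hX1, ← hLd]
  congr 1
  rw [mul_add, mul_comm L ε]
  rfl

end Crest.Agent.R017.FEx436
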