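import Crest.Agent.R017.FEx_436

/-!
# Row 17, R8 / P1M: claims on the children, rules (helper436)

* `clG_mono`, `clG_min`
* `clG_cau` : extraction of `c ≤ w` of the granular part (`ExpS0.cau`)
* `clG_ex`  : extraction of the whole granular part
-/

set_option autoImplicit false
set_option linter.unusedSectionVars false

noncomputable section

open Set

namespace Crest.Agent.R017.FEx436

open Crest.Agent.R012 Crest.Agent.R012.Eis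
open Crest.Agent.R017.CM106
open Crest.Agent.R017.ER911
open Crest.Agent.R017.TM708
open Crest.Agent.R017.TK708

variable {s s₀ : EF} {D5 : Set (Fin 5 → ℝ)} {Tf : (Fin 5 → ℝ) → ℝ}
  {G G' : (Fin 5 → ℝ) → ℝ → ℝ → ℝ → ℝ → ℝ → ℝ}

theorem clG_mono (H : ClG s D5 Tf G)
    (h : ∀ b ∈ D5, ∀ v z₁ z₂ z₃ w : ℝ, 0 ≤ v → 0 ≤ z₁ → z₁ ≤ b 1 → 0 ≤ z₂ → z₂ ≤ b 2 → 0 ≤ z₃ →
      z₃ ≤ b 3 → 0 ≤ w → w ≤ b 4 →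
      v ≤ Tf b + (b 1 + b 2 + b 3 + b 4 - (z₁ + z₂ + z₃ + w)) →
      G b v z₁ z₂ z₃ w ≤ G' b v z₁ z₂ z₃ w) : ClG s D5 Tf G' :=
  fun b hb v z₁ z₂ z₃ w h0 h1 h1' h2 h2' h3 h3' h4 h4' hv =>
    (H b hb v z₁ z₂ z₃ w h0 h1 h1' h2 h2' h3 h3' h4 h4' hv).trans
      (h b hb v z₁ z₂ z₃ w h0 h1 h1' h2 h2' h3 h3' h4 h4' hv)

theorem clG_min (H : ClG s D5 Tf G) (H' : ClG s D5 Tf G') :
    ClG s D5 Tf fun b v z₁ z₂ z₃ w => min (G b v z₁ z₂ z₃ w) (G' b v z₁ z₂ z₃ w) :=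
  fun b hb v z₁ z₂ z₃ w h0 h1 h1' h2 h2' h3 h3' h4 h4' hv =>
    le_min (H b hb v z₁ z₂ z₃ w h0 h1 h1' h2 h2' h3 h3' h4 h4' hv)
      (H' b hb v z₁ z₂ z₃ w h0 h1 h1' h2 h2' h3 h3' h4 h4' hv)

/-- `tAll` -/
theorem clG_tAll {d : ℝ} (hA : AllT d s) :
    ClG s D5 Tf fun _ v z₁ z₂ z₃ w => tAll d v z₁ z₂ z₃ w :=
  fun b hb v z₁ z₂ z₃ w h0 h1 _ h2 _ h3 _ h4 _ _ => by
    have := hA v z₁ z₂ z₃ 0 w h0 h1 h2 h3 le_rfl h4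
    rwa [zero_add] at this

/-- **extraction of a part of the granular part** : `c b v z₁ z₂ z₃ w ∈ [0, w]` -/
theorem clG_cau (h0 : ExpS0 s s₀) (H : ClG s₀ D5 Tf G)
    {c : (Fin 5 → ℝ) → ℝ → ℝ → ℝ → ℝ → ℝ → ℝ}
    (hc : ∀ b v z₁ z₂ z₃ w, 0 ≤ w → 0 ≤ c b v z₁ z₂ z₃ w ∧ c b v z₁ z₂ z₃ w ≤ w) :
    ClG s₀ D5 Tf fun b v z₁ z₂ z₃ w => c b v z₁ z₂ z₃ w +
      G b (v + c b v z₁ z₂ z₃ w) z₁ z₂ z₃ (w - c b v z₁ z₂ z₃ w) := by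
  intro b hb v z₁ z₂ z₃ w hv h1 h1' h2 h2' h3 h3' h4 h4' hlev
  obtain ⟨hc0, hc1⟩ := hc b v z₁ z₂ z₃ w h4
  set y := c b v z₁ z₂ z₃ w
  have key := h0.cau v {z₁, z₂, z₃} 0 w 0 y hv (R8T70.ok_triple h1 h2 h3 le_rfl h4) le_rfl le_rfl
    hc0 hc1
  rw [zero_add, sub_zero] at key
  have h5 := H b hb (v + y) z₁ z₂ z₃ (w - y) (by linarith) h1 h1' h2 h2' h3 h3' (by linarith)
    (by linarith) (by linarith)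
  linarith

/-- **extraction of the whole granular part** : a claim for the lists without granular part -/
theorem clG_ex (h0 : ExpS0 s s₀) {F : (Fin 5 → ℝ) → ℝ → ℝ → ℝ → ℝ → ℝ}
    (H : ∀ b ∈ D5, ∀ v z₁ z₂ z₃ : ℝ, 0 ≤ v → 0 ≤ z₁ → z₁ ≤ b 1 → 0 ≤ z₂ → z₂ ≤ b 2 → 0 ≤ z₃ →
      z₃ ≤ b 3 → v ≤ Tf b + (b 1 + b 2 + b 3 + b 4 - (z₁ + z₂ + z₃)) →
      s₀ v {z₁, z₂, z₃} 0 0 ≤ F b v z₁ z₂ z₃) :
    ClG s₀ D5 Tf fun b v z₁ z₂ z₃ w => w + F b (v + w) z₁ z₂ z₃ := by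
  intro b hb v z₁ z₂ z₃ w hv h1 h1' h2 h2' h3 h3' h4 h4' hlev
  have key := h0.cau v {z₁, z₂, z₃} 0 w 0 w hv (R8T70.ok_triple h1 h2 h3 le_rfl h4) le_rfl le_rfl
    h4 le_rfl
  rw [zero_add, sub_zero, sub_self] at key
  have h5 := H b hb (v + w) z₁ z₂ z₃ (by linarith) h1 h1' h2 h2' h3 h3' (by linarith)
  linarith

/-! ### continuity -/

theorem ContG.min (hG : ContG G) (hG' : ContG G') :
    ContG fun b v z₁ z₂ z₃ w => min (G b v z₁ z₂ z₃ w) (G' b v z₁ z₂ z₃ w) :=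
  Continuous.min hG hG'

theorem contG_tAll (d : ℝ) : ContG fun _ v z₁ z₂ z₃ w => tAll d v z₁ z₂ z₃ w := by
  unfold ContG tAll tCT3 tCP3 tP3 tHB tCT tCP tP gv
  fun_prop

theorem contG_cau {c : (Fin 5 → ℝ) → ℝ → ℝ → ℝ → ℝ → ℝ → ℝ} (hG : ContG G) (hc : ContG c) :
    ContG fun b v z₁ z₂ z₃ w => c b v z₁ z₂ z₃ w +
      G b (v + c b v z₁ z₂ z₃ w) z₁ z₂ z₃ (w - c b v z₁ z₂ z₃ w) := by
  unfold ContG at *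
  refine hc.add (hG.comp (f := fun p : (Fin 5 → ℝ) × ℝ × ℝ × ℝ × ℝ × ℝ =>
    ((p.1, p.2.1 + c p.1 p.2.1 p.2.2.1 p.2.2.2.1 p.2.2.2.2.1 p.2.2.2.2.2, p.2.2.1, p.2.2.2.1,
      p.2.2.2.2.1, p.2.2.2.2.2 - c p.1 p.2.1 p.2.2.1 p.2.2.2.1 p.2.2.2.2.1 p.2.2.2.2.2) :
      (Fin 5 → ℝ) × ℝ × ℝ × ℝ × ℝ × ℝ)) ?_)
  have h1 : Continuous fun p : (Fin 5 → ℝ) × ℝ × ℝ × ℝ × ℝ × ℝ =>
      p.2.1 + c p.1 p.2.1 p.2.2.1 p.2.2.2.1 p.2.2.2.2.1 p.2.2.2.2.2 :=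
    (by fun_prop : Continuous fun p : (Fin 5 → ℝ) × ℝ × ℝ × ℝ × ℝ × ℝ => p.2.1).add hc
  have h2 : Continuous fun p : (Fin 5 → ℝ) × ℝ × ℝ × ℝ × ℝ × ℝ =>
      p.2.2.2.2.2 - c p.1 p.2.1 p.2.2.1 p.2.2.2.1 p.2.2.2.2.1 p.2.2.2.2.2 :=
    (by fun_prop : Continuous fun p : (Fin 5 → ℝ) × ℝ × ℝ × ℝ × ℝ × ℝ =>
      p.2.2.2.2.2).sub hc
  exact continuous_fst.prodMk (h1.prodMk ((by fun_prop : Continuous fun p : (Fin 5 → ℝ) × ℝ × ℝ ×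
    ℝ × ℝ × ℝ => p.2.2.1).prodMk ((by fun_prop : Continuous fun p : (Fin 5 → ℝ) × ℝ × ℝ ×
    ℝ × ℝ × ℝ => p.2.2.2.1).prodMk ((by fun_prop : Continuous fun p : (Fin 5 → ℝ) × ℝ × ℝ ×
    ℝ × ℝ × ℝ => p.2.2.2.2.1).prodMk h2))))

theorem contG_ex {F : (Fin 5 → ℝ) → ℝ → ℝ → ℝ → ℝ → ℝ}
    (hF : Continuous fun p : (Fin 5 → ℝ) × ℝ × ℝ × ℝ × ℝ =>
      F p.1 p.2.1 p.2.2.1 p.2.2.2.1 p.2.2.2.2) :
    ContG fun b v z₁ z₂ z₃ w => w + F b (v + w) z₁ z₂ z₃ := by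
  unfold ContG
  refine Continuous.add (by fun_prop) (hF.comp (f := fun p : (Fin 5 → ℝ) × ℝ × ℝ × ℝ × ℝ × ℝ =>
    ((p.1, p.2.1 + p.2.2.2.2.2, p.2.2.1, p.2.2.2.1, p.2.2.2.2.1) :
      (Fin 5 → ℝ) × ℝ × ℝ × ℝ × ℝ)) (by fun_prop))

/-- restriction of the domain -/
theorem ClG.anti {D' : Set (Fin 5 → ℝ)} (H : ClG s D5 Tf G) (hD : D' ⊆ D5) : ClG s D' Tf G :=
  fun b hb => H b (hD hb)

end Crest.Agent.R017.FEx436
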