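import Crest.Agent.R017.FEy_436

/-!
# Row 17, R8 / P1M: the children with extraction of the granular part (helper436)

* `clG_FE`   : the flat claims as a claim on the children
* `GX`       : the number, extracted and not extracted, and `tAll`
* `child_ex` : the moments of the children, `GX`
-/

set_option autoImplicit false
set_option linter.unusedSectionVars false

noncomputable section

open Set

namespace Crest.Agent.R017.FEx436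

open Crest.Agent.R012 Crest.Agent.R012.Eis
open Crest.Agent.R017.CM106
open Crest.Agent.R017.ER911
open Crest.Agent.R017.B770
open Crest.Agent.R017.Prov71
open Crest.Agent.R017.TM708
open Crest.Agent.R017.TK708
open Crest.Agent.R017.I1146 (ChN LN cN SN FlatO FlatL Tail)

variable {s s₀ : EF} {D5 : Set (Fin 5 → ℝ)} {Kf Tf ℓ : (Fin 5 → ℝ) → ℝ}

/-- the flat claims -/
theorem clG_FE (H : FE2G s D5 Kf Tf ℓ) :
    ClG s D5 Tf fun b v z₁ z₂ z₃ w => eW (Kf b) v (z₁ + z₂ + z₃ + w) w + ℓ b :=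
  H

/-- the flat claims after extraction of the granular part -/
theorem clG_FEx (h0 : ExpS0 s s₀) (hD4 : ∀ b ∈ D5, 0 ≤ b 4) (H : FE2G s₀ D5 Kf Tf ℓ) :
    ClG s₀ D5 Tf fun b v z₁ z₂ z₃ w => w + (eW (Kf b) (v + w) (z₁ + z₂ + z₃) 0 + ℓ b) := by
  refine clG_ex (F := fun b v z₁ z₂ z₃ => eW (Kf b) v (z₁ + z₂ + z₃) 0 + ℓ b) h0 ?_
  intro b hb v z₁ z₂ z₃ hv h1 h1' h2 h2' h3 h3' hlev
  have := H b hb v z₁ z₂ z₃ 0 hv h1 h1' h2 h2' h3 h3' le_rfl (hD4 b hb)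
    (by rw [add_zero]; exact hlev)
  rwa [add_zero] at this

/-- **the number of a child** : not extracted, extracted, `tAll` -/
def GX (d : ℝ) (Kf ℓ : (Fin 5 → ℝ) → ℝ) (b : Fin 5 → ℝ) (v z₁ z₂ z₃ w : ℝ) : ℝ :=
  min (min (eW (Kf b) v (z₁ + z₂ + z₃ + w) w + ℓ b)
    (w + (eW (Kf b) (v + w) (z₁ + z₂ + z₃) 0 + ℓ b))) (tAll d v z₁ z₂ z₃ w)

lemma eW_cont4 : Continuous fun p : ℝ × ℝ × ℝ × ℝ => eW p.1 p.2.1 p.2.2.1 p.2.2.2 := by
  unfold eW kW eH eF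
  fun_prop

theorem contG_GX {d : ℝ} (hKf : Continuous Kf) (hℓ : Continuous ℓ) : ContG (GX d Kf ℓ) := by
  have hb : Continuous fun p : (Fin 5 → ℝ) × ℝ × ℝ × ℝ × ℝ × ℝ => Kf p.1 :=
    hKf.comp continuous_fst
  have hl : Continuous fun p : (Fin 5 → ℝ) × ℝ × ℝ × ℝ × ℝ × ℝ => ℓ p.1 :=
    hℓ.comp continuous_fst
  have hT := contG_tAll d
  unfold ContG at *
  unfold GX
  refine Continuous.min (Continuous.min (Continuous.add ?_ hl)
    (Continuous.add (by fun_prop) (Continuous.add ?_ hl))) hT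
  · unfold eW kW eH eF
    fun_prop
  · unfold eW kW eH eF
    fun_prop

variable {Λ : Type*} {Φ : Λ → ℝ → List Pq → ℝ} {d : ℝ}

/-- the claim -/
theorem clG_GX (h0 : ExpS0 s (ex Dq Φ)) (hA : AllT d (ex Dq Φ)) (hD4 : ∀ b ∈ D5, 0 ≤ b 4)
    (H : FE2G (ex Dq Φ) D5 Kf Tf ℓ) : ClG (ex Dq Φ) D5 Tf (GX d Kf ℓ) :=
  clG_min (clG_min (clG_FE H) (clG_FEx h0 hD4 H)) (clG_tAll hA)

/-- **the moments of the children, with extraction** -/
theorem child_ex (hW : Wd Φ) (h0 : ExpS0 s (ex Dq Φ)) (hA : AllT d (ex Dq Φ))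
    (hKf : Continuous Kf) (hTf : Continuous Tf) (hD : IsCompact D5)
    (hD4 : ∀ b ∈ D5, 0 ≤ b 4) (hℓ : Continuous ℓ) (H : FE2G (ex Dq Φ) D5 Kf Tf ℓ)
    {ε : ℝ} (hε : 0 < ε) :
    ∃ σ : ℝ, 0 < σ ∧ ∀ (lam : Λ) (N : ℕ) (B : ℝ), ∃ M : ℕ, ∀ r : ℝ, 0 ≤ r → ∃ X₀ : ℝ, 1 < X₀ ∧
      ∀ X : ℝ, X₀ ≤ X → ∀ b ∈ D5, ∀ (q : Eis) (us : Fin 3 → Pq) (gs : List Pq) (κ H : ℝ),
      PD X (σ / 2) B H N b q us gs κ → ∀ g : Eis, IsPrim g → (nm g : ℝ) ≤ X ^ B →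
      ∀ (l : ℝ) (ps' : List Pq), 0 ≤ l →
      List.Forall₂ (ChN r) ps' ([us 0, us 1, us 2] ++ gs) →
      l + LN ps' ≤ (Tf b + (b 1 + b 2 + b 3 + b 4) + σ) * Real.log X →
      ∃ z₁ z₂ z₃ w : ℝ, 0 ≤ z₁ ∧ 0 ≤ z₂ ∧ 0 ≤ z₃ ∧ 0 ≤ w ∧ z₁ ≤ (us 0).z + r ∧
        z₂ ≤ (us 1).z + r ∧ z₃ ≤ (us 2).z + r ∧ w ≤ LN gs + N * r ∧
        z₁ + z₂ + z₃ + w = LN ps' ∧ (ps'.take 3).map Pq.z = [z₁, z₂, z₃] ∧
        w = LN (ps'.drop 3) ∧
        tq Φ lam (q * g) l ps' ≤ (cN ps' ([us 0, us 1, us 2] ++ gs) * H) ^ M *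
          Real.exp (min (min (eW (Real.log X * Kf b) l (LN ps') w + Real.log X * ℓ b)
            (w + (eW (Real.log X * Kf b) (l + w) (z₁ + z₂ + z₃) 0 + Real.log X * ℓ b)))
            (tAll d l z₁ z₂ z₃ w) + ε * Real.log X) := by
  obtain ⟨σ, hσ, G⟩ := child_gen hW hTf hD (contG_GX (d := d) hKf hℓ)
    (clG_GX h0 hA hD4 H) hε
  refine ⟨σ, hσ, fun lam N B => ?_⟩
  obtain ⟨M, G⟩ := G lam N B
  refine ⟨M, fun r hr => ?_⟩
  obtain ⟨X₀, hX₀, G⟩ := G r hr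
  refine ⟨X₀, hX₀, fun X hX b hb q us gs κ H hPD g hg hgB l ps' hl hch hlev => ?_⟩
  obtain ⟨z₁, z₂, z₃, w, h1, h2, h3, h4, h5, h6, h7, h8, h9, h10, h11, h12⟩ :=
    G X hX b hb q us gs κ H hPD g hg hgB l ps' hl hch hlev
  refine ⟨z₁, z₂, z₃, w, h1, h2, h3, h4, h5, h6, h7, h8, h9, h10, h11, h12.trans (le_of_eq ?_)⟩
  congr 1
  have hX1 : 1 < X := hX₀.trans_le hX
  have hL : 0 < Real.log X := Real.log_pos hX1
  set L := Real.log X with hLd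
  have e0 : ∀ y : ℝ, L * (y / L) = y := fun y => by field_simp
  have eWh : ∀ K v n u : ℝ, L * eW K (v / L) (n / L) (u / L) = eW (L * K) v n u := by
    intro K v n u
    unfold eW
    rw [← eH_hom hL.le, e0, e0]
    congr 1
    unfold kW
    rw [mul_max_of_nonneg _ _ hL.le]
    congr 1
    have : L * (v / L + (n / L + u / L) / 2) = L * (v / L) + (L * (n / L) + L * (u / L)) / 2 := by
      ring
    rw [this, e0, e0, e0]
  have e2 : L * tAll d (l / L) (z₁ / L) (z₂ / L) (z₃ / L) (w / L) = tAll d l z₁ z₂ z₃ w := by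
    rw [← tAll_hom hL.le, e0, e0, e0, e0, e0]
  have e3 : z₁ / L + z₂ / L + z₃ / L + w / L = LN ps' / L := by
    rw [← h9]; ring
  have e4 : L * (w / L + (eW (Kf b) (l / L + w / L) (z₁ / L + z₂ / L + z₃ / L) 0 + ℓ b)) =
      w + (eW (L * Kf b) (l + w) (z₁ + z₂ + z₃) 0 + L * ℓ b) := by
    have e5 : l / L + w / L = (l + w) / L := by ring
    have e6 : z₁ / L + z₂ / L + z₃ / L = (z₁ + z₂ + z₃) / L := by ring
    have e7 : (0 : ℝ) = 0 / L := by rw [zero_div]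
    rw [e5, e6, mul_add, mul_add, e0]
    nth_rewrite 1 [e7]
    rw [eWh]
  congr 1
  congr 1
  unfold GX
  rw [mul_min_of_nonneg _ _ hL.le, mul_min_of_nonneg _ _ hL.le, e2, e4, e3, mul_add, eWh]

end Crest.Agent.R017.FEx436
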