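import Crest.Agent.R017.TM_708

/-!
# Row 17, R8 / P1: the T-inputs of `(I1)` (helper708), real side

* `eF K' v n` : closed form of the flat claims (family `K'`, level `v`, length `n`)
* `eF_flat`   : the flat claim with the factor `e^b`
* `eF_tail`   : the tail above the plateau
* `tP3_tail`  : the tail with `b ≥ κ/20 - c`, from `P'` alone
`t` = tolerance
-/

set_option autoImplicit false
set_option linter.unusedVariables false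

noncomputable section

namespace Crest.Agent.R017.TM708

/-- closed form of the flat claims -/
def eF (K' v n : ℝ) : ℝ := max (2 * n) (4 / 3 * n + (max K' (3 / 2 * v) + v) / 3)

theorem eF_cont : Continuous fun q : ℝ × ℝ × ℝ => eF q.1 q.2.1 q.2.2 := by
  unfold eF; fun_prop

/-- the same with the large sieve bound of the very short children -/
def eH (K' v n : ℝ) : ℝ := max (eF K' v n) (v + n)

theorem eH_cont : Continuous fun q : ℝ × ℝ × ℝ => eH q.1 q.2.1 q.2.2 := by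
  unfold eH eF; fun_prop

theorem eF_le_eH (K' v n : ℝ) : eF K' v n ≤ eH K' v n := le_max_left _ _

/-- the own family of a list of length `n` with the share `w` at the level `v` -/
def kW (K v n w : ℝ) : ℝ := max K (v + (n + w) / 2)

/-- the flat claim with the free family -/
def eW (K v n w : ℝ) : ℝ := eH (kW K v n w) v n

theorem kW_cont : Continuous fun q : ℝ × ℝ × ℝ × ℝ => kW q.1 q.2.1 q.2.2.1 q.2.2.2 := by
  unfold kW; fun_prop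

theorem eW_cont : Continuous fun q : ℝ × ℝ × ℝ × ℝ => eW q.1 q.2.1 q.2.2.1 q.2.2.2 := by
  unfold eW
  exact eH_cont.comp (kW_cont.prodMk ((by fun_prop :
    Continuous fun q : ℝ × ℝ × ℝ × ℝ => q.2.1).prodMk (by fun_prop)))

theorem eH_monoK {K K' v n : ℝ} (h : K ≤ K') : eH K v n ≤ eH K' v n := by
  unfold eH eF
  refine max_le_max (max_le_max le_rfl ?_) le_rfl
  have : max K (3 / 2 * v) ≤ max K' (3 / 2 * v) := max_le_max h le_rfl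
  linarith

theorem eH_le_eW (K v n w : ℝ) : eH K v n ≤ eW K v n w := eH_monoK (le_max_left _ _)

/-- the own family stays below `K₁` -/
theorem eW_le {K K₁ v n w : ℝ} (h : K ≤ K₁) (h' : v + (n + w) / 2 ≤ K₁) :
    eW K v n w ≤ eH K₁ v n := eH_monoK (max_le h h')

/-- the same with an error -/
theorem eH_addK {K c v n : ℝ} (hc : 0 ≤ c) : eH (K + c) v n ≤ eH K v n + c / 3 := by
  unfold eH eF
  have h1 : max (K + c) (3 / 2 * v) ≤ max K (3 / 2 * v) + c := by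
    rw [← max_add_add_right]
    exact max_le_max le_rfl (by linarith)
  have h2 := le_max_left (2 * n) (4 / 3 * n + (max K (3 / 2 * v) + v) / 3)
  have h3 := le_max_right (2 * n) (4 / 3 * n + (max K (3 / 2 * v) + v) / 3)
  have h4 := le_max_left (max (2 * n) (4 / 3 * n + (max K (3 / 2 * v) + v) / 3)) (v + n)
  have h5 := le_max_right (max (2 * n) (4 / 3 * n + (max K (3 / 2 * v) + v) / 3)) (v + n)
  refine max_le (max_le (by linarith) (by linarith)) (by linarith)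

theorem eF_mono {K' v v' n n' : ℝ} (hv : v' ≤ v) (hn : n' ≤ n) : eF K' v' n' ≤ eF K' v n := by
  unfold eF
  refine max_le_max (by linarith) ?_
  have : max K' (3 / 2 * v') ≤ max K' (3 / 2 * v) := max_le_max le_rfl (by linarith)
  linarith

/-- the flat claim of a child : removed part `b` besides the divisor `γ` -/
theorem eF_flat {κ K' L T γ b l n t : ℝ} (ht : 0 ≤ t) (hL : K' ≤ κ + 3 * L) (hκ : κ ≤ K')
    (hγ : 0 ≤ γ) (hb : 0 ≤ b) (hT : T ≤ 2 / 3 * K' + t) (hl : l ≤ T - 2 * γ + b + t) :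
    eF K' l n ≤ 2 * n + max 0 ((l - 2 * n + κ) / 3) + b + L + t := by
  unfold eF
  have h0 := le_max_left 0 ((l - 2 * n + κ) / 3)
  have h1 := le_max_right 0 ((l - 2 * n + κ) / 3)
  refine max_le (by linarith) ?_
  rcases max_cases K' (3 / 2 * l) with ⟨h, h2⟩ | ⟨h, h2⟩ <;> rw [h] <;> linarith

/-- the tail above the plateau `T₀` -/
theorem eF_tail {κ K' L T T₀ γ b c l n p t : ℝ} (ht : 0 ≤ t) (hL : K' ≤ κ + 3 * L) (hκ : κ ≤ K')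
    (hb : 0 ≤ b) (hc : 0 ≤ c) (hcγ : 2 * c ≤ γ) (hT : T + c ≤ 2 / 3 * K' + t)
    (hl : l ≤ T - 2 * γ + 5 * c + b + t) (hn : n ≤ p - γ - b + t)
    (hp : 2 * p - κ ≤ T₀ + 3 * L + t) (hl0 : T₀ ≤ l - b + 2 * γ - 2 * c + t) :
    eF K' l n ≤ 4 / 3 * n + (l + κ) / 3 + 2 * b + L + 2 * t := by
  unfold eF
  refine max_le (by linarith) ?_
  rcases max_cases K' (3 / 2 * l) with ⟨h, h2⟩ | ⟨h, h2⟩ <;> rw [h] <;> linarith

/-- flat claim with the levels `+ 5 c` of the mismatch -/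
theorem eH_flat {κ K' L T γ b c l n t p : ℝ} (ht : 0 ≤ t) (hL : K' ≤ κ + 3 * L) (hκ : κ ≤ K')
    (hb : 0 ≤ b) (hc : 0 ≤ c) (hcγ : 2 * c ≤ γ) (hT : T + c ≤ 2 / 3 * K' + t)
    (hl : l ≤ T - 2 * γ + 5 * c + b + t)
    (hn : p - γ - b ≤ n + t) (hp : 2 * T + 4 * c ≤ p + κ + t) :
    eH K' l n ≤ 2 * n + max 0 ((l - 2 * n + κ) / 3) + b + L + 2 * t := by
  unfold eH eF
  have h0 := le_max_left 0 ((l - 2 * n + κ) / 3)
  have h1 := le_max_right 0 ((l - 2 * n + κ) / 3)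
  refine max_le (max_le (by linarith) ?_) (by linarith)
  rcases max_cases K' (3 / 2 * l) with ⟨h, h2⟩ | ⟨h, h2⟩ <;> rw [h] <;> linarith

theorem eH_tail {κ K' L T T₀ γ b c l n p t : ℝ} (ht : 0 ≤ t) (hL : K' ≤ κ + 3 * L) (hκ : κ ≤ K')
    (hb : 0 ≤ b) (hc : 0 ≤ c) (hcγ : 2 * c ≤ γ) (hT : T + c ≤ 2 / 3 * K' + t)
    (hl : l ≤ T - 2 * γ + 5 * c + b + t) (hn : n ≤ p - γ - b + t)
    (hp : 2 * p - κ ≤ T₀ + 3 * L + t) (hl0 : T₀ ≤ l - b + 2 * γ - 2 * c + t)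
    (hn' : p - γ - b ≤ n + t) (hpT : 2 * T + 4 * c ≤ p + κ + t) :
    eH K' l n ≤ 4 / 3 * n + (l + κ) / 3 + 2 * b + L + 2 * t := by
  unfold eH
  refine max_le (eF_tail ht hL hκ hb hc hcγ hT hl hn hp hl0) ?_
  linarith

/-- the large sieve branch is redundant -/
theorem eH_eq_eF {K' v n : ℝ} (h : 2 * v ≤ n + K') : eH K' v n = eF K' v n := by
  unfold eH
  refine max_eq_left ?_
  unfold eF
  refine le_trans ?_ (le_max_right _ _)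
  have := le_max_left K' (3 / 2 * v)
  linarith

/-- Cauchy in the shortest lump -/
theorem tCT_le {v A B C w V : ℝ} (h1 : v + (A + B + C + w) + (C + w) ≤ V)
    (h2 : 5 / 3 * (A + B + C + w) - (C + w) / 3 + v / 3 ≤ V) : tCT v A B C w ≤ V := by
  unfold tCT
  rcases le_total (A + B) (v + (C + w)) with h | h
  · rw [gv_of_le h]; linarith
  · rw [gv_of_ge h]; linarith

/-- the moment of a list from Cauchy in the shortest lump -/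
theorem tAll_le_C {d v z₁ z₂ z₃ w V : ℝ} (h : ∀ C : ℝ, 0 ≤ C → 3 * C ≤ z₁ + z₂ + z₃ →
      v + (z₁ + z₂ + z₃ + w) + (C + w) ≤ V ∧
      5 / 3 * (z₁ + z₂ + z₃ + w) - (C + w) / 3 + v / 3 ≤ V) (h1 : 0 ≤ z₁) (h2 : 0 ≤ z₂)
    (h3 : 0 ≤ z₃) : tAll d v z₁ z₂ z₃ w ≤ V := by
  have key := tAll_le_CT3 d v z₁ z₂ z₃ w
  unfold tCT3 at key
  have hC : ∀ A B C : ℝ, A + B + C = z₁ + z₂ + z₃ → 0 ≤ C → 3 * C ≤ z₁ + z₂ + z₃ →
      tCT v A B C w ≤ V := by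
    intro A B C hs hC0 hC3
    obtain ⟨g1, g2⟩ := h C hC0 hC3
    exact tCT_le (by linarith) (by linarith)
  rcases le_total z₃ z₁ with a1 | a1
  · rcases le_total z₃ z₂ with a2 | a2
    · exact (key.trans (min_le_left _ _)).trans (hC z₁ z₂ z₃ rfl h3 (by linarith))
    · exact (key.trans (min_le_right _ _)).trans ((min_le_right _ _).trans
        (hC z₃ z₁ z₂ (by ring) h2 (by linarith)))
  · rcases le_total z₁ z₂ with a2 | a2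
    · exact (key.trans (min_le_right _ _)).trans ((min_le_left _ _).trans
        (hC z₂ z₃ z₁ (by ring) h1 (by linarith)))
    · exact (key.trans (min_le_right _ _)).trans ((min_le_right _ _).trans
        (hC z₃ z₁ z₂ (by ring) h2 (by linarith)))

/-- the tail with `b ≥ κ / 64` -/
theorem mix_tail {κ K' L N x d T γ b l n p t z₁ z₂ z₃ w : ℝ} (ht : 0 ≤ t) (hκ0 : 0 ≤ κ)
    (hL0 : 0 ≤ L) (hL : K' ≤ κ + 3 * L) (hκ : κ ≤ K') (hN : N ≤ 102 / 125 * κ)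
    (hx : 0 ≤ x) (hx1 : x ≤ 1 / 36 * κ) (hadm : x ≤ 0 ∨ N + x ≤ 4 / 5 * κ) (hγ : 0 ≤ γ)
    (hb : κ / 64 ≤ b + t) (hb0 : 0 ≤ b) (h1 : 0 ≤ z₁) (h2 : 0 ≤ z₂) (h3 : 0 ≤ z₃) (hw : 0 ≤ w)
    (hwx : w ≤ x + t) (hs : z₁ + z₂ + z₃ + w = n) (hn : n ≤ N + x - γ - b + t)
    (hT : T ≤ 2 / 3 * K' + t) (hl : l ≤ T - 2 * γ + b + t)
    (hn' : p - γ - b ≤ n + t) (hpT : 2 * T ≤ p + κ + t) :
    min (eH K' l n) (tAll d l z₁ z₂ z₃ w) ≤
      4 / 3 * n + (l + κ) / 3 + 2 * b + L + 10 * t := by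
  rcases le_or_gt (2 * n - κ - 6 * b) l with h | h
  · refine (min_le_left _ _).trans ?_
    unfold eH eF
    refine max_le (max_le (by linarith) ?_) (by linarith)
    rcases max_cases K' (3 / 2 * l) with ⟨h, h2⟩ | ⟨h, h2⟩ <;> rw [h] <;> linarith
  · refine (min_le_right _ _).trans (tAll_le_C (fun C hC0 hC3 => ?_) h1 h2 h3)
    constructor
    · rcases hadm with h4 | h4 <;> linarith
    · rcases hadm with h4 | h4 <;> linarith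

/-- the cells of the `T`-numbers, flat form -/
theorem mix_sflat {κ K' L T γ b l n t p E : ℝ} (ht : 0 ≤ t) (hκ0 : 0 ≤ κ)
    (hL0 : 0 ≤ L) (hL : K' ≤ κ + 3 * L) (hκ : κ ≤ K') (hγ : 0 ≤ γ) (hb0 : 0 ≤ b) (hE : 0 ≤ E)
    (hE1 : E ≤ κ / 20 + t) (hTE : T + E ≤ 2 / 3 * κ + t) (hl : l ≤ T - 2 * γ + b + t)
    (hn : n ≤ p - γ - b + t) (hn' : p - γ - b ≤ n + t) (hp : 4 / 9 * κ ≤ p + t) :
    eH K' l n ≤ 2 * p + max 0 ((l + 2 * γ - b - 2 * p + κ) / 3) - 2 * γ - b +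
      2 * max 0 (b - E) + L + 10 * t := by
  have h0 := le_max_left 0 ((l + 2 * γ - b - 2 * p + κ) / 3)
  have h1 := le_max_right 0 ((l + 2 * γ - b - 2 * p + κ) / 3)
  have h2 := le_max_left 0 (b - E)
  have h3 := le_max_right 0 (b - E)
  unfold eH eF
  refine max_le (max_le (by linarith) ?_) (by linarith)
  rcases max_cases K' (3 / 2 * l) with ⟨h, h2⟩ | ⟨h, h2⟩ <;> rw [h] <;> linarith

/-- the cells of the `T`-numbers, slope form with `h = κ / 10` -/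
theorem mix_slope {κ K' L N x d T γ b l n p t E z₁ z₂ z₃ w : ℝ} (ht : 0 ≤ t) (hκ0 : 0 ≤ κ)
    (hL0 : 0 ≤ L) (hL : K' ≤ κ + 3 * L) (hκ : κ ≤ K') (hN : N ≤ 102 / 125 * κ)
    (hx : 0 ≤ x) (hx1 : x ≤ 1 / 36 * κ) (hadm : x ≤ 0 ∨ N + x ≤ 4 / 5 * κ) (hγ : 0 ≤ γ)
    (hb0 : 0 ≤ b) (hE : 0 ≤ E) (hE1 : E ≤ κ / 20 + t)
    (h1 : 0 ≤ z₁) (h2 : 0 ≤ z₂) (h3 : 0 ≤ z₃) (hw : 0 ≤ w)
    (hwx : w ≤ x + t) (hs : z₁ + z₂ + z₃ + w = n) (hn : n ≤ N + x - γ - b + t)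
    (hT : T ≤ 2 / 3 * κ + t) (hl : l ≤ T - 2 * γ + b + t) (hnp : n ≤ p - γ - b + t)
    (hn' : p - γ - b ≤ n + t) (hp : 4 / 9 * κ ≤ p + t) (hpT : 2 * T ≤ p + κ - κ / 10 + t) :
    min (eH K' l n) (tAll d l z₁ z₂ z₃ w) ≤
      4 / 3 * p + (l + 2 * γ - b + κ) / 3 + κ / 30 - 2 * γ - b + 2 * max 0 (b - E) + L +
        10 * t := by
  have h0 := le_max_left 0 (b - E)
  have h0' := le_max_right 0 (b - E)
  rcases le_or_gt (2 * n - κ - κ / 10) l with h | h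
  · refine (min_le_left _ _).trans ?_
    unfold eH eF
    refine max_le (max_le (by linarith) ?_) (by linarith)
    rcases max_cases K' (3 / 2 * l) with ⟨h, h2⟩ | ⟨h, h2⟩ <;> rw [h] <;> linarith
  · refine (min_le_right _ _).trans (tAll_le_C (fun C hC0 hC3 => ?_) h1 h2 h3)
    constructor
    · rcases hadm with h4 | h4 <;> linarith
    · rcases hadm with h4 | h4 <;> linarith

theorem tP_tail {κ N x d T γ b c l p t z₁ z₂ z₃ w : ℝ} (ht : 0 ≤ t) (hκ : 0 ≤ κ) (hd : 0 ≤ d)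
    (hd1 : d ≤ 1 / 40) (hN : N ≤ 102 / 125 * κ) (hx : 0 ≤ x) (hx1 : x ≤ 1 / 36 * κ)
    (hadm : x ≤ 0 ∨ (N + x ≤ 4 / 5 * κ ∧ 2 * N + 5 * x ≤ 59 / 36 * κ)) (hb : 0 ≤ b) (hc : 0 ≤ c)
    (hcx : c ≤ x) (hcγ : 2 * c ≤ γ) (hE : κ / 20 ≤ b + c + t) (h1 : 0 ≤ z₁) (h2 : 0 ≤ z₂)
    (h3 : 0 ≤ z₃) (hw : 0 ≤ w) (h31 : z₃ ≤ z₁) (h32 : z₃ ≤ z₂) (hwx : w ≤ x + t)
    (hn : z₁ + z₂ + z₃ + w ≤ N + x - γ - b + t) (hT : T ≤ 23 / 36 * κ + t)
    (hl : l ≤ T - 2 * γ + 5 * c + b + t) (hp : κ / 2 - 2 * x ≤ p + t)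
    (hnp : p - γ - b ≤ z₁ + z₂ + z₃ + w + t) :
    tP d l z₁ z₂ z₃ w ≤ 4 / 3 * (z₁ + z₂ + z₃ + w) + (l + κ) / 3 + 2 * b + 10 * t := by
  unfold tP
  rw [gv_eq]
  have hdM : ∀ M : ℝ, 0 ≤ M → 24 / 5 * d * (M + w) ≤ 3 / 25 * (M + w) := fun M hM => by
    have : 0 ≤ (1 / 40 - d) * (M + w) := mul_nonneg (by linarith) (by linarith)
    nlinarith
  refine max_le (by linarith) ?_
  rcases max_cases z₃ (2 * w) with ⟨h, h4⟩ | ⟨h, h4⟩ <;> rw [h]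
  · have := hdM z₃ h3
    rcases hadm with h5 | ⟨h5, h6⟩ <;> linarith
  · have := hdM (2 * w) (by linarith)
    rcases hadm with h5 | ⟨h5, h6⟩ <;> linarith

theorem tAll_tail {κ N x d T γ b c l p t z₁ z₂ z₃ w : ℝ} (ht : 0 ≤ t) (hκ : 0 ≤ κ) (hd : 0 ≤ d)
    (hd1 : d ≤ 1 / 40) (hN : N ≤ 102 / 125 * κ) (hx : 0 ≤ x) (hx1 : x ≤ 1 / 36 * κ)
    (hadm : x ≤ 0 ∨ (N + x ≤ 4 / 5 * κ ∧ 2 * N + 5 * x ≤ 59 / 36 * κ)) (hb : 0 ≤ b) (hc : 0 ≤ c)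
    (hcx : c ≤ x) (hcγ : 2 * c ≤ γ) (hE : κ / 20 ≤ b + c + t) (h1 : 0 ≤ z₁) (h2 : 0 ≤ z₂)
    (h3 : 0 ≤ z₃) (hw : 0 ≤ w) (hwx : w ≤ x + t)
    (hn : z₁ + z₂ + z₃ + w ≤ N + x - γ - b + t) (hT : T ≤ 23 / 36 * κ + t)
    (hl : l ≤ T - 2 * γ + 5 * c + b + t) (hp : κ / 2 - 2 * x ≤ p + t)
    (hnp : p - γ - b ≤ z₁ + z₂ + z₃ + w + t) :
    tAll d l z₁ z₂ z₃ w ≤ 4 / 3 * (z₁ + z₂ + z₃ + w) + (l + κ) / 3 + 2 * b + 10 * t := by
  have key := tAll_le_P3 d l z₁ z₂ z₃ w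
  unfold tP3 at key
  rcases le_total z₃ z₁ with a1 | a1
  · rcases le_total z₃ z₂ with a2 | a2
    · exact (key.trans (min_le_left _ _)).trans (tP_tail ht hκ hd hd1 hN hx hx1 hadm hb hc hcx hcγ
        hE h1 h2 h3 hw a1 a2 hwx hn hT hl hp hnp)
    · have := (key.trans (min_le_right _ _)).trans ((min_le_right _ _).trans
        (tP_tail (z₁ := z₃) (z₂ := z₁) (z₃ := z₂) ht hκ hd hd1 hN hx hx1 hadm hb hc hcx hcγ
        hE h3 h1 h2 hw a2 (a2.trans a1) hwx (by linarith) hT hl hp (by linarith)))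
      linarith
  · rcases le_total z₁ z₂ with a2 | a2
    · have := (key.trans (min_le_right _ _)).trans ((min_le_left _ _).trans
        (tP_tail (z₁ := z₂) (z₂ := z₃) (z₃ := z₁) ht hκ hd hd1 hN hx hx1 hadm hb hc hcx hcγ
        hE h2 h3 h1 hw a2 a1 hwx (by linarith) hT hl hp (by linarith)))
      linarith
    · have := (key.trans (min_le_right _ _)).trans ((min_le_right _ _).trans
        (tP_tail (z₁ := z₃) (z₂ := z₁) (z₃ := z₂) ht hκ hd hd1 hN hx hx1 hadm hb hc hcx hcγ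
        hE h3 h1 h2 hw (a2.trans a1) a2 hwx (by linarith) hT hl hp (by linarith)))
      linarith

/-! ### the cells with the free family : `K₁ = ` a bound of `kW` -/

/-- bound of the own family in a cell -/
theorem kW_cell {K' κ L T γ b c l n w x N t : ℝ} (ht : 0 ≤ t) (hL : K' ≤ κ + 3 * L) (hb : 0 ≤ b)
    (hcγ : 2 * c ≤ γ) (hγ : 0 ≤ γ) (hc : 0 ≤ c)
    (hTN : T + N / 2 + x ≤ κ + 3 * L + t) (hl : l ≤ T - 2 * γ + 5 * c + b + t)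
    (hn : n ≤ N + x - γ - b + t) (hw : w ≤ x + t) :
    kW K' l n w ≤ κ + 3 * L + b / 2 + 3 * t := by
  unfold kW
  exact max_le (by linarith) (by linarith)

/-- flat claim with the levels `+ 5 c` of the mismatch -/
theorem eW_flat {κ K' K₁ L T γ b c l n t p : ℝ} (ht : 0 ≤ t)
    (hK₁ : K₁ ≤ κ + 3 * L + b / 2 + 3 * t) (hL : K' ≤ κ + 3 * L)
    (hb : 0 ≤ b) (hc : 0 ≤ c) (hcγ : 2 * c ≤ γ) (hT : T + c ≤ 2 / 3 * K' + t)
    (hl : l ≤ T - 2 * γ + 5 * c + b + t) (hL0 : 0 ≤ L)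
    (hn : p - γ - b ≤ n + t) (hp : 2 * T + 4 * c ≤ p + κ + t) :
    eH K₁ l n ≤ 2 * n + max 0 ((l - 2 * n + κ) / 3) + b + L + 2 * t := by
  unfold eH eF
  have h0 := le_max_left 0 ((l - 2 * n + κ) / 3)
  have h1 := le_max_right 0 ((l - 2 * n + κ) / 3)
  refine max_le (max_le (by linarith) ?_) (by linarith)
  rcases max_cases K₁ (3 / 2 * l) with ⟨h, h2⟩ | ⟨h, h2⟩ <;> rw [h] <;> linarith

theorem eW_tail {κ K' K₁ L T T₀ γ b c l n p t : ℝ} (ht : 0 ≤ t)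
    (hK₁ : K₁ ≤ κ + 3 * L + b / 2 + 3 * t) (hL : K' ≤ κ + 3 * L)
    (hb : 0 ≤ b) (hc : 0 ≤ c) (hcγ : 2 * c ≤ γ) (hT : T + c ≤ 2 / 3 * K' + t)
    (hl : l ≤ T - 2 * γ + 5 * c + b + t) (hn : n ≤ p - γ - b + t)
    (hp : 2 * p - κ ≤ T₀ + 3 * L + t) (hl0 : T₀ ≤ l - b + 2 * γ - 2 * c + t)
    (hn' : p - γ - b ≤ n + t) (hpT : 2 * T + 4 * c ≤ p + κ + t) (hL0 : 0 ≤ L) :
    eH K₁ l n ≤ 4 / 3 * n + (l + κ) / 3 + 2 * b + L + 2 * t := by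
  unfold eH eF
  refine max_le (max_le (by linarith) ?_) (by linarith)
  rcases max_cases K₁ (3 / 2 * l) with ⟨h, h2⟩ | ⟨h, h2⟩ <;> rw [h] <;> linarith

/-- the tail with `b ≥ κ / 64` -/
theorem mixW_tail {κ K' K₁ L N x d T γ b l n p t z₁ z₂ z₃ w : ℝ} (ht : 0 ≤ t) (hκ0 : 0 ≤ κ)
    (hK₁ : K₁ ≤ κ + 3 * L + b / 2 + 3 * t)
    (hL0 : 0 ≤ L) (hL : K' ≤ κ + 3 * L) (hκ : κ ≤ K') (hN : N ≤ 102 / 125 * κ)
    (hx : 0 ≤ x) (hx1 : x ≤ 1 / 36 * κ) (hadm : x ≤ 0 ∨ N + x ≤ 4 / 5 * κ) (hγ : 0 ≤ γ)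
    (hb : κ / 64 ≤ b + t) (hb0 : 0 ≤ b) (h1 : 0 ≤ z₁) (h2 : 0 ≤ z₂) (h3 : 0 ≤ z₃) (hw : 0 ≤ w)
    (hwx : w ≤ x + t) (hs : z₁ + z₂ + z₃ + w = n) (hn : n ≤ N + x - γ - b + t)
    (hT : T ≤ 2 / 3 * K' + t) (hl : l ≤ T - 2 * γ + b + t)
    (hn' : p - γ - b ≤ n + t) (hpT : 2 * T ≤ p + κ + t) :
    min (eH K₁ l n) (tAll d l z₁ z₂ z₃ w) ≤
      4 / 3 * n + (l + κ) / 3 + 2 * b + L + 10 * t := by
  rcases le_or_gt (2 * n - κ - 6 * b) l with h | h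
  · refine (min_le_left _ _).trans ?_
    unfold eH eF
    refine max_le (max_le (by linarith) ?_) (by linarith)
    rcases max_cases K₁ (3 / 2 * l) with ⟨h, h2⟩ | ⟨h, h2⟩ <;> rw [h] <;> linarith
  · refine (min_le_right _ _).trans (tAll_le_C (fun C hC0 hC3 => ?_) h1 h2 h3)
    constructor
    · rcases hadm with h4 | h4 <;> linarith
    · rcases hadm with h4 | h4 <;> linarith

/-- the cells of the `T`-numbers, flat form -/
theorem mixW_sflat {κ K' K₁ L T γ b l n t p E : ℝ} (ht : 0 ≤ t) (hκ0 : 0 ≤ κ)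
    (hK₁ : K₁ ≤ κ + 3 * L + b / 2 + 3 * t)
    (hL0 : 0 ≤ L) (hL : K' ≤ κ + 3 * L) (hκ : κ ≤ K') (hγ : 0 ≤ γ) (hb0 : 0 ≤ b) (hE : 0 ≤ E)
    (hE1 : E ≤ κ / 20 + t) (hTE : T + E ≤ 2 / 3 * κ + t) (hl : l ≤ T - 2 * γ + b + t)
    (hn : n ≤ p - γ - b + t) (hn' : p - γ - b ≤ n + t) (hp : 4 / 9 * κ ≤ p + t) :
    eH K₁ l n ≤ 2 * p + max 0 ((l + 2 * γ - b - 2 * p + κ) / 3) - 2 * γ - 5 / 6 * b +
      2 * max 0 (b - E) + L + 10 * t := by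
  have h0 := le_max_left 0 ((l + 2 * γ - b - 2 * p + κ) / 3)
  have h1 := le_max_right 0 ((l + 2 * γ - b - 2 * p + κ) / 3)
  have h2 := le_max_left 0 (b - E)
  have h3 := le_max_right 0 (b - E)
  unfold eH eF
  refine max_le (max_le (by linarith) ?_) (by linarith)
  rcases max_cases K₁ (3 / 2 * l) with ⟨h, h2⟩ | ⟨h, h2⟩ <;> rw [h] <;> linarith

/-- the cells of the `T`-numbers, slope form with `h = κ / 10` -/
theorem mixW_slope {κ K' K₁ L N x d T γ b l n p t E z₁ z₂ z₃ w : ℝ} (ht : 0 ≤ t) (hκ0 : 0 ≤ κ)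
    (hK₁ : K₁ ≤ κ + 3 * L + b / 2 + 3 * t)
    (hL0 : 0 ≤ L) (hL : K' ≤ κ + 3 * L) (hκ : κ ≤ K') (hN : N ≤ 102 / 125 * κ)
    (hx : 0 ≤ x) (hx1 : x ≤ 1 / 36 * κ) (hadm : x ≤ 0 ∨ N + x ≤ 4 / 5 * κ) (hγ : 0 ≤ γ)
    (hb0 : 0 ≤ b) (hE : 0 ≤ E) (hE1 : E ≤ κ / 20 + t)
    (h1 : 0 ≤ z₁) (h2 : 0 ≤ z₂) (h3 : 0 ≤ z₃) (hw : 0 ≤ w)
    (hwx : w ≤ x + t) (hs : z₁ + z₂ + z₃ + w = n) (hn : n ≤ N + x - γ - b + t)
    (hT : T ≤ 2 / 3 * κ + t) (hl : l ≤ T - 2 * γ + b + t) (hnp : n ≤ p - γ - b + t)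
    (hn' : p - γ - b ≤ n + t) (hp : 4 / 9 * κ ≤ p + t) (hpT : 2 * T ≤ p + κ - κ / 10 + t) :
    min (eH K₁ l n) (tAll d l z₁ z₂ z₃ w) ≤
      4 / 3 * p + (l + 2 * γ - b + κ) / 3 + κ / 30 - 2 * γ - 5 / 6 * b + 2 * max 0 (b - E) + L +
        10 * t := by
  have h0 := le_max_left 0 (b - E)
  have h0' := le_max_right 0 (b - E)
  rcases le_or_gt (2 * n - κ - κ / 10) l with h | h
  · refine (min_le_left _ _).trans ?_
    unfold eH eF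
    refine max_le (max_le (by linarith) ?_) (by linarith)
    rcases max_cases K₁ (3 / 2 * l) with ⟨h, h2⟩ | ⟨h, h2⟩ <;> rw [h] <;> linarith
  · refine (min_le_right _ _).trans (tAll_le_C (fun C hC0 hC3 => ?_) h1 h2 h3)
    constructor
    · rcases hadm with h4 | h4 <;> linarith
    · rcases hadm with h4 | h4 <;> linarith

end Crest.Agent.R017.TM708
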