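import Crest.Agent.R017.TMG_708
import Crest.Agent.R017.FNEr_708

/-!
# Row 17, R8 / P1: the T-inputs of `(I1)` (helper708), the moments near a compact set of parents

parent coordinates `b = (κ, y₃, y₄, u, x)` in units of `log X`; children: `0 ≤ z_i ≤ y_i`, amplifier
share `≤ x`, level `≤ T5 b +` (what is missing in the length)

* `FE2`     : the flat claims as inequalities for the exponent function
* `ne_near` : both closed forms (flat and `tAll`) for actual lists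
-/

set_option autoImplicit false
set_option linter.unusedSectionVars false

noncomputable section

open Set

namespace Crest.Agent.R017.TM708

open Crest.Agent.R012 Crest.Agent.R012.Eis
open Crest.Agent.R017.FE47 (PU)
open Crest.Agent.R017.CM106
open Crest.Agent.R017.XG702 (Pcs BG)
open Crest.Agent.R017.XT71 (Sys Win mx le_mx one_le_mx)
open Crest.Agent.R017.Prov71
open Crest.Agent.R017.B770
open Crest.Agent.R017.ER911
open Crest.Agent.R017.HP842 (Pc pc)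

/-- the level bound of the flat claims -/
def T5 (b : Fin 5 → ℝ) : ℝ :=
  min (2 * (b 1 + b 2 + b 3) - b 0) (3 / 4 * (b 1 + b 2 + b 3)) + 5 * b 4

/-- the family of the flat claims -/
def K5 (b : Fin 5 → ℝ) : ℝ := max (b 0) (5 / 4 * (b 1 + b 2 + b 3))

/-- **the flat claims at the exponent level** : parents `b = (κ, y₃, y₄, u, x) ∈ D5`, all children,
all levels up to `T5 b +` (missing length), free family `kW`, loss `ℓ b` -/
def FE2L (s : EF) (D5 : Set (Fin 5 → ℝ)) (ℓ : (Fin 5 → ℝ) → ℝ) : Prop :=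
  ∀ b ∈ D5, ∀ v z₁ z₂ z₃ w : ℝ, 0 ≤ v → 0 ≤ z₁ → z₁ ≤ b 1 → 0 ≤ z₂ → z₂ ≤ b 2 → 0 ≤ z₃ →
    z₃ ≤ b 3 → 0 ≤ w → w ≤ b 4 →
    v ≤ T5 b + (b 1 + b 2 + b 3 + b 4 - (z₁ + z₂ + z₃ + w)) →
    s v {z₁, z₂, z₃} 0 w ≤ eW (K5 b) v (z₁ + z₂ + z₃ + w) w + ℓ b

/-- the same without loss -/
def FE2 (s : EF) (D5 : Set (Fin 5 → ℝ)) : Prop :=
  ∀ b ∈ D5, ∀ v z₁ z₂ z₃ w : ℝ, 0 ≤ v → 0 ≤ z₁ → z₁ ≤ b 1 → 0 ≤ z₂ → z₂ ≤ b 2 → 0 ≤ z₃ →
    z₃ ≤ b 3 → 0 ≤ w → w ≤ b 4 →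
    v ≤ T5 b + (b 1 + b 2 + b 3 + b 4 - (z₁ + z₂ + z₃ + w)) →
    s v {z₁, z₂, z₃} 0 w ≤ eW (K5 b) v (z₁ + z₂ + z₃ + w) w

theorem FE2.toL {s : EF} {D5 : Set (Fin 5 → ℝ)} (H : FE2 s D5) : FE2L s D5 fun _ => 0 := by
  intro b hb v z₁ z₂ z₃ w h1 h2 h3 h4 h5 h6 h7 h8 h9 h10
  rw [add_zero]
  exact H b hb v z₁ z₂ z₃ w h1 h2 h3 h4 h5 h6 h7 h8 h9 h10

theorem FE2L.mono {s : EF} {D5 : Set (Fin 5 → ℝ)} {ℓ ℓ' : (Fin 5 → ℝ) → ℝ} (H : FE2L s D5 ℓ)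
    (h : ∀ b ∈ D5, ℓ b ≤ ℓ' b) : FE2L s D5 ℓ' := by
  intro b hb v z₁ z₂ z₃ w h1 h2 h3 h4 h5 h6 h7 h8 h9 h10
  have := H b hb v z₁ z₂ z₃ w h1 h2 h3 h4 h5 h6 h7 h8 h9 h10
  have := h b hb
  linarith

/-- the parent coordinates -/
def b5 (q : (Fin 5 ⊕ Fin 4 → ℝ) × (Kd → ℝ)) : Fin 5 → ℝ := fun i => q.1 (.inl i)

/-- total length of the child -/
def n5 (q : (Fin 5 ⊕ Fin 4 → ℝ) × (Kd → ℝ)) : ℝ :=
  q.1 (.inr 1) + q.1 (.inr 2) + q.1 (.inr 3) + q.2 .am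

lemma b5_cont : Continuous b5 := by unfold b5; fun_prop
lemma n5_cont : Continuous n5 := by unfold n5; fun_prop
lemma T5_cont : Continuous T5 := by unfold T5; fun_prop
lemma K5_cont : Continuous K5 := by unfold K5; fun_prop

/-- constraint function -/
def f5 (D5 : Set (Fin 5 → ℝ)) (q : (Fin 5 ⊕ Fin 4 → ℝ) × (Kd → ℝ)) : ℝ :=
  max (max (Metric.infDist (b5 q) D5) (max (-q.1 (.inr 0))
      (q.1 (.inr 0) - (T5 (b5 q) + (b5 q 1 + b5 q 2 + b5 q 3 + b5 q 4 - n5 q)))))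
    (max (max (max (-q.1 (.inr 1)) (q.1 (.inr 1) - b5 q 1))
      (max (-q.1 (.inr 2)) (q.1 (.inr 2) - b5 q 2)))
    (max (max (-q.1 (.inr 3)) (q.1 (.inr 3) - b5 q 3))
      (max (max (-q.2 .mo) (q.2 .mo)) (max (-q.2 .am) (q.2 .am - b5 q 4)))))

lemma f5_cont (D5 : Set (Fin 5 → ℝ)) : Continuous (f5 D5) := by
  have h1 : Continuous fun q : (Fin 5 ⊕ Fin 4 → ℝ) × (Kd → ℝ) => Metric.infDist (b5 q) D5 :=
    (Metric.continuous_infDist_pt D5).comp b5_cont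
  have h2 : Continuous fun q : (Fin 5 ⊕ Fin 4 → ℝ) × (Kd → ℝ) => T5 (b5 q) :=
    T5_cont.comp b5_cont
  have h3 := n5_cont
  have h4 : ∀ i, Continuous fun q : (Fin 5 ⊕ Fin 4 → ℝ) × (Kd → ℝ) => b5 q i := fun i =>
    (continuous_apply i).comp b5_cont
  unfold f5
  fun_prop

lemma f5_le {D5 : Set (Fin 5 → ℝ)} {s : ℝ} {q : (Fin 5 ⊕ Fin 4 → ℝ) × (Kd → ℝ)} :
    f5 D5 q ≤ s ↔ (Metric.infDist (b5 q) D5 ≤ s ∧ -s ≤ q.1 (.inr 0) ∧
      q.1 (.inr 0) ≤ T5 (b5 q) + (b5 q 1 + b5 q 2 + b5 q 3 + b5 q 4 - n5 q) + s) ∧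
      (-s ≤ q.1 (.inr 1) ∧ q.1 (.inr 1) ≤ b5 q 1 + s) ∧
      (-s ≤ q.1 (.inr 2) ∧ q.1 (.inr 2) ≤ b5 q 2 + s) ∧
      (-s ≤ q.1 (.inr 3) ∧ q.1 (.inr 3) ≤ b5 q 3 + s) ∧
      (-s ≤ q.2 .mo ∧ q.2 .mo ≤ s) ∧ (-s ≤ q.2 .am ∧ q.2 .am ≤ b5 q 4 + s) := by
  unfold f5
  simp only [max_le_iff]
  constructor
  · rintro ⟨⟨h1, h2, h3⟩, ⟨⟨h4, h5⟩, h6, h7⟩, ⟨h8, h9⟩, ⟨h10, h11⟩, h12, h13⟩
    refine ⟨⟨h1, ?_, ?_⟩, ⟨?_, ?_⟩, ⟨?_, ?_⟩, ⟨?_, ?_⟩, ⟨?_, ?_⟩, ?_, ?_⟩ <;> linarith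
  · rintro ⟨⟨h1, h2, h3⟩, ⟨h4, h5⟩, ⟨h6, h7⟩, ⟨h8, h9⟩, ⟨h10, h11⟩, h12, h13⟩
    refine ⟨⟨h1, ?_, ?_⟩, ⟨⟨?_, ?_⟩, ?_, ?_⟩, ⟨?_, ?_⟩, ⟨?_, ?_⟩, ?_, ?_⟩ <;> linarith

lemma f5_compact {D5 : Set (Fin 5 → ℝ)} (hD : IsCompact D5) (hne : D5.Nonempty) :
    IsCompact {q | f5 D5 q ≤ 1} := by
  obtain ⟨K, hK⟩ := (infDist_one hD hne).isBounded.exists_norm_le
  have hK0 : 0 ≤ K := by
    obtain ⟨b, hb⟩ := hne
    exact (norm_nonneg b).trans (hK b (by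
      rw [Set.mem_ofPred_eq]
      have : Metric.infDist b D5 = 0 := Metric.infDist_zero_of_mem hb
      rw [this]; norm_num))
  refine IsCompact.of_isClosed_subset (s := (Set.pi Set.univ fun _ => Set.Icc (-(20 * K + 20))
    (20 * K + 20)) ×ˢ (Set.pi Set.univ fun _ => Set.Icc (-(20 * K + 20)) (20 * K + 20)))
    ((isCompact_univ_pi fun _ => isCompact_Icc).prod
      (isCompact_univ_pi fun _ => isCompact_Icc))
    (isClosed_le (f5_cont D5) continuous_const) ?_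
  intro q hq
  rw [Set.mem_ofPred_eq, f5_le] at hq
  obtain ⟨⟨h1, h2, h3⟩, ⟨h4, h5⟩, ⟨h6, h7⟩, ⟨h8, h9⟩, ⟨h10, h11⟩, h12, h13⟩ := hq
  have hb : ∀ i, |b5 q i| ≤ K := fun i => (norm_le_pi_norm (b5 q) i).trans (hK _ h1)
  have a0 := abs_le.1 (hb 0)
  have a1 := abs_le.1 (hb 1)
  have a2 := abs_le.1 (hb 2)
  have a3 := abs_le.1 (hb 3)
  have a4 := abs_le.1 (hb 4)
  have hT : T5 (b5 q) ≤ 10 * K := by
    unfold T5
    have := min_le_left (2 * (b5 q 1 + b5 q 2 + b5 q 3) - b5 q 0)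
      (3 / 4 * (b5 q 1 + b5 q 2 + b5 q 3))
    have h9 := min_le_right (2 * (b5 q 1 + b5 q 2 + b5 q 3) - b5 q 0)
      (3 / 4 * (b5 q 1 + b5 q 2 + b5 q 3))
    linarith
  have hn : -4 ≤ n5 q := by unfold n5; linarith
  refine ⟨fun i _ => ?_, fun t _ => ?_⟩
  · rcases i with i | i
    · have := abs_le.1 (hb i)
      have e : q.1 (.inl i) = b5 q i := rfl
      rw [e]
      exact ⟨by linarith, by linarith⟩
    · fin_cases i
      · exact ⟨by simpa using (by linarith : -(20 * K + 20) ≤ q.1 (.inr 0)),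
          by simpa using (by linarith : q.1 (.inr 0) ≤ 20 * K + 20)⟩
      · exact ⟨by simpa using (by linarith : -(20 * K + 20) ≤ q.1 (.inr 1)),
          by simpa using (by linarith : q.1 (.inr 1) ≤ 20 * K + 20)⟩
      · exact ⟨by simpa using (by linarith : -(20 * K + 20) ≤ q.1 (.inr 2)),
          by simpa using (by linarith : q.1 (.inr 2) ≤ 20 * K + 20)⟩
      · exact ⟨by simpa using (by linarith : -(20 * K + 20) ≤ q.1 (.inr 3)),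
          by simpa using (by linarith : q.1 (.inr 3) ≤ 20 * K + 20)⟩
  · cases t
    · exact ⟨by linarith, by linarith⟩
    · exact ⟨by linarith, by linarith⟩

/-- the closed form : minimum of the flat claim and `tAll` -/
def E5 (d : ℝ) (ℓ : (Fin 5 → ℝ) → ℝ) (q : (Fin 5 ⊕ Fin 4 → ℝ) × (Kd → ℝ)) : ℝ :=
  min (eW (K5 (b5 q)) (q.1 (.inr 0)) (n5 q) (q.2 .am) + ℓ (b5 q))
    (tAll d (q.1 (.inr 0)) (q.1 (.inr 1)) (q.1 (.inr 2)) (q.1 (.inr 3)) (q.2 .am))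

lemma E5_cont (d : ℝ) {ℓ : (Fin 5 → ℝ) → ℝ} (hℓ : Continuous ℓ) : Continuous (E5 d ℓ) := by
  have h1 : Continuous fun q : (Fin 5 ⊕ Fin 4 → ℝ) × (Kd → ℝ) => K5 (b5 q) :=
    K5_cont.comp b5_cont
  have h2 := n5_cont
  refine Continuous.min (Continuous.add ?_ (hℓ.comp b5_cont)) ?_
  · exact eW_cont.comp (h1.prodMk ((by fun_prop :
      Continuous fun q : (Fin 5 ⊕ Fin 4 → ℝ) × (Kd → ℝ) => q.1 (.inr 0)).prodMk
      (h2.prodMk (by fun_prop))))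
  · unfold tAll tCT3 tCP3 tP3 tHB tCT tCP tP gv
    fun_prop

variable {Λ : Type*} {π : Λ → DPar} {h : ℝ → ℝ} {d : ℝ} {r : EF}

/-- `S0p` at most `Sp` at the exponent level -/
lemma ex_S0p_le {c₀ : ℝ} (hpu : PU h c₀) (hP : ∀ lam, (π lam).OK) {v m a : ℝ} {Y : Multiset ℝ}
    (hv : 0 ≤ v) (hY : Ok Y m a) :
    ex Dq (fun lam => S0p (π lam) h) v Y m a ≤ ex Dq (fun lam => Sp (π lam) h) v Y m a := by
  have h1 := ex_spec (pinv_Sp π h) (XHB411.triv_Sp hP hpu) hv (okl_of hY)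
  rw [Multiset.coe_toList] at h1
  exact ex_le' (ex_nonneg _ _ _ _) (h1.comp fun lam l ps => S0p_le (π lam) h l ps)

lemma triv_S0p {c₀ : ℝ} (hpu : PU h c₀) (hP : ∀ lam, (π lam).OK) :
    Prov71.Triv Dq (fun lam => S0p (π lam) h) := fun κ u m a hκ hu => by
  obtain ⟨e, he⟩ := XHB411.triv_Sp hP hpu κ u m a hκ hu
  exact ⟨e, he.comp fun lam l ps => S0p_le (π lam) h l ps⟩

lemma mass_mo_zero {X : ℝ} {ps : List Pq} (h : ∀ p ∈ ps, p.kd = .am) : Dq.mass X ps .mo = 0 := by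
  induction ps with
  | nil => rfl
  | cons p ps ih =>
    rw [Pcs.mass_cons, ih fun q hq => h q (List.mem_cons_of_mem _ hq), add_zero, if_neg]
    rw [Dq_kind, h p List.mem_cons_self]
    exact fun h => by cases h

/-- actual lists satisfy the constraints up to the tolerance -/
lemma f5_data {D5 : Set (Fin 5 → ℝ)} {X τ : ℝ} (hX1 : 1 < X) (hτ : 0 ≤ τ) {b : Fin 5 → ℝ}
    (hb : b ∈ D5) {a : T3} {ps : List Pq} (ha : a.ok) (hps : ∀ p ∈ ps, p.kd = .am ∧ 0 ≤ p.z)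
    (hl : 0 ≤ a.l) (hz1 : (a.us 0).z ≤ (b 1 + τ) * Real.log X)
    (hz2 : (a.us 1).z ≤ (b 2 + τ) * Real.log X) (hz3 : (a.us 2).z ≤ (b 3 + τ) * Real.log X)
    (hw : (ps.map fun p => p.z).sum ≤ (b 4 + τ) * Real.log X)
    (hlev : a.l ≤ (T5 b + (b 1 + b 2 + b 3 + b 4) + τ) * Real.log X -
        ((a.us 0).z + (a.us 1).z + (a.us 2).z + (ps.map fun p => p.z).sum)) :
    b5 ((S3e 5).ev X (fun i => b i * Real.log X, a), Dq.mass X ps) = b ∧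
    Dq.mass X ps .am = (ps.map fun p => p.z).sum / Real.log X ∧
    f5 D5 ((S3e 5).ev X (fun i => b i * Real.log X, a), Dq.mass X ps) ≤ τ := by
  have hL : 0 < Real.log X := Real.log_pos hX1
  have hm := mass_mo_zero (X := X) fun p hp => (hps p hp).1
  have hsum := BadK271.sum_z_eq hX1 ps
  rw [hm, zero_add] at hsum
  have ham : (ps.map fun p => p.z).sum / Real.log X = Dq.mass X ps .am := by
    rw [hsum]; field_simp
  set q : (Fin 5 ⊕ Fin 4 → ℝ) × (Kd → ℝ) :=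
    ((S3e 5).ev X (fun i => b i * Real.log X, a), Dq.mass X ps) with hq
  have hqb : b5 q = b := by
    funext i
    show b i * Real.log X / Real.log X = b i
    field_simp
  have q0 : q.1 (.inr 0) = a.l / Real.log X := rfl
  have q1 : q.1 (.inr 1) = (a.us 0).z / Real.log X := rfl
  have q2 : q.1 (.inr 2) = (a.us 1).z / Real.log X := rfl
  have q3 : q.1 (.inr 3) = (a.us 2).z / Real.log X := rfl
  have q4 : q.2 .am = (ps.map fun p => p.z).sum / Real.log X := ham.symm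
  have q5 : q.2 .mo = 0 := hm
  have hdv : ∀ {y c : ℝ}, y ≤ (c + τ) * Real.log X → y / Real.log X ≤ c + τ := by
    intro y c hy
    rwa [div_le_iff₀ hL]
  have hnn : ∀ {y : ℝ}, 0 ≤ y → -τ ≤ y / Real.log X := fun hy => by
    have := div_nonneg hy hL.le
    linarith
  refine ⟨hqb, ham.symm, ?_⟩
  rw [f5_le, hqb]
  have hn : n5 q = ((a.us 0).z + (a.us 1).z + (a.us 2).z + (ps.map fun p => p.z).sum) /
      Real.log X := by
    unfold n5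
    rw [q1, q2, q3, q4]
    ring
  rw [hn, q0, q1, q2, q3, q4, q5]
  refine ⟨⟨?_, hnn hl, ?_⟩, ⟨hnn (ha.1 0).2, hdv hz1⟩, ⟨hnn (ha.1 1).2, hdv hz2⟩,
    ⟨hnn (ha.1 2).2, hdv hz3⟩, ⟨by linarith, hτ⟩, hnn (List.sum_nonneg fun x hx => ?_),
    hdv hw⟩
  · rw [Metric.infDist_zero_of_mem hb]; exact hτ
  · rw [div_le_iff₀ hL]
    have e : (T5 b + (b 1 + b 2 + b 3 + b 4 - ((a.us 0).z + (a.us 1).z + (a.us 2).z +
        (ps.map fun p => p.z).sum) / Real.log X) + τ) * Real.log X =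
        (T5 b + (b 1 + b 2 + b 3 + b 4) + τ) * Real.log X - ((a.us 0).z + (a.us 1).z +
          (a.us 2).z + (ps.map fun p => p.z).sum) := by
      field_simp
      ring
    rw [e]
    exact hlev
  · obtain ⟨p, hp, rfl⟩ := List.mem_map.1 hx
    exact (hps p hp).2

/-- **both closed forms for actual lists** : `b` = parent coordinates in units of `log X`; the
lengths of the child within `σ log X` of the conditions -/
theorem ne_near {c₀ : ℝ} (hpu : PU h c₀) (hP : ∀ lam, (π lam).OK)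
    (R : ExpRules (7 / 8 + d) r (ex Dq fun lam => Sp (π lam) h)) (hd : 0 ≤ d) (hd1 : d ≤ 1 / 8)
    {D5 : Set (Fin 5 → ℝ)} (hD : IsCompact D5) {ℓ : (Fin 5 → ℝ) → ℝ} (hℓ : Continuous ℓ)
    (hFE : FE2L (ex Dq fun lam => S0p (π lam) h) D5 ℓ) {ε : ℝ} (hε : 0 < ε) :
    ∃ σ : ℝ, 0 < σ ∧ ∀ (lam : Λ) (N : ℕ) (B : ℝ), ∃ (M : ℕ) (X₀ : ℝ), 1 < X₀ ∧
      ∀ X : ℝ, X₀ ≤ X → ∀ b ∈ D5, ∀ (a : T3) (ps : List Pq), a.ok → ps.length ≤ N →
      (∀ p ∈ ps, p.kd = .am ∧ 0 ≤ p.z ∧ p.z ≤ σ * Real.log X ∧ (nm p.d : ℝ) ≤ X ^ B) →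
      S3.s₂ a ≤ X ^ B → 0 ≤ a.l → (a.us 0).z ≤ (b 1 + σ) * Real.log X →
      (a.us 1).z ≤ (b 2 + σ) * Real.log X → (a.us 2).z ≤ (b 3 + σ) * Real.log X →
      (ps.map fun p => p.z).sum ≤ (b 4 + σ) * Real.log X →
      a.l ≤ (T5 b + (b 1 + b 2 + b 3 + b 4) + σ) * Real.log X -
        ((a.us 0).z + (a.us 1).z + (a.us 2).z + (ps.map fun p => p.z).sum) →
      ∀ K : ℝ, 1 ≤ K → S3.s₁ a ≤ K → (∀ p ∈ ps, 1 + |p.t| ≤ K) →
        S0p (π lam) h a.l ((a.mk' ++ ps).map (Pq.tw a.q)) ≤ K ^ M * X ^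
          (min (eW (K5 b) (a.l / Real.log X) ((a.us 0).z / Real.log X + (a.us 1).z / Real.log X +
              (a.us 2).z / Real.log X + (ps.map fun p => p.z).sum / Real.log X)
              ((ps.map fun p => p.z).sum / Real.log X) + ℓ b)
            (tAll d (a.l / Real.log X) ((a.us 0).z / Real.log X) ((a.us 1).z / Real.log X)
              ((a.us 2).z / Real.log X) ((ps.map fun p => p.z).sum / Real.log X)) + ε) := by
  rcases D5.eq_empty_or_nonempty with rfl | hne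
  · exact ⟨1, one_pos, fun lam N B => ⟨0, 2, by norm_num, fun X _ b hb => absurd hb
      (Set.notMem_empty _)⟩⟩
  have hsub : {q | f5 D5 q ≤ 0} ⊆ {q | f5 D5 q ≤ 1} := fun q hq =>
    le_trans (show f5 D5 q ≤ 0 from hq) zero_le_one
  have hDom : IsCompact {q | f5 D5 q ≤ 0} :=
    (f5_compact hD hne).of_isClosed_subset (isClosed_le (f5_cont D5) continuous_const) hsub
  rcases ({q | f5 D5 q ≤ 0} : Set _).eq_empty_or_nonempty with h0 | hneD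
  · obtain ⟨τ, hτ, hτ1, hnear⟩ := UBT973.near_slack (f5_cont D5) (f5_compact hD hne) one_pos
    refine ⟨τ, hτ, fun lam N B => ⟨0, 2, by norm_num, fun X hX b hb a ps ha hN hps hs2 hl hz1 hz2
      hz3 hw hlev => ?_⟩⟩
    obtain ⟨p, hp, -⟩ := hnear _ (f5_data (by linarith) hτ.le hb ha
      (fun p hp => ⟨(hps p hp).1, (hps p hp).2.1⟩) hl hz1 hz2 hz3 hw hlev).2.2
    have : p ∈ {q | f5 D5 q ≤ 0} := hp
    rw [h0] at this
    exact absurd this (Set.notMem_empty _)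
  have hmem : ∀ {q : (Fin 5 ⊕ Fin 4 → ℝ) × (Kd → ℝ)}, f5 D5 q ≤ 0 → b5 q ∈ D5 := by
    intro q hq
    have h1 := (f5_le.1 hq).1.1
    have h2 : b5 q ∈ {q | Metric.infDist q D5 ≤ 0} := h1
    rwa [infDist_zero hD.isClosed hne] at h2
  obtain ⟨σ, hσ, G⟩ := tmg_near (n := 5) hpu hP (fun lam l ps => S0p_le (π lam) h l ps)
    (pinv_S0p π h) (triv_S0p hpu hP) (fun _ => 0) hDom hneD (fun q hq => by
      obtain ⟨⟨h1, h2, h3⟩, ⟨h4, h5⟩, ⟨h6, h7⟩, ⟨h8, h9⟩, ⟨h10, h11⟩, h12, h13⟩ := f5_le.1 hq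
      simp only [neg_zero] at h2 h4 h6 h8 h10 h12
      refine ⟨fun i => ?_, fun t => ?_⟩
      · fin_cases i
        · exact h2
        · exact h4
        · exact h6
        · exact h8
      · cases t
        · exact h10
        · exact h12) (E5_cont d hℓ) (fun q hq => by
      have hb := hmem hq
      obtain ⟨⟨h1, h2, h3⟩, ⟨h4, h5⟩, ⟨h6, h7⟩, ⟨h8, h9⟩, ⟨h10, h11⟩, h12, h13⟩ := f5_le.1 hq
      simp only [neg_zero, add_zero] at h2 h3 h4 h5 h6 h7 h8 h9 h10 h11 h12 h13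
      have e0 : q.2 .mo = 0 := le_antisymm h11 h10
      rw [e0]
      refine le_min ?_ ?_
      · exact hFE (b5 q) hb _ _ _ _ _ h2 h4 h5 h6 h7 h8 h9 h12 h13 h3
      · have := s_tAll R hd hd1 (m := 0) h4 h6 h8 le_rfl h12 h2
        rw [zero_add] at this
        exact (ex_S0p_le hpu hP h2 (R8T70.ok_triple h4 h6 h8 le_rfl h12)).trans this)
    hε
  obtain ⟨τ, hτ, hτ1, hnear⟩ := UBT973.near_slack (f5_cont D5) (f5_compact hD hne) hσ
  refine ⟨min σ τ, lt_min hσ hτ, fun lam N B => ?_⟩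
  obtain ⟨M, X₀, hX₀, H⟩ := G lam N B
  refine ⟨M, X₀, hX₀, fun X hX b hb a ps ha hN hps hs2 hl hz1 hz2 hz3 hw hlev K hK hs1 hpt => ?_⟩
  have hX1 : 1 < X := by linarith
  have hL : 0 < Real.log X := Real.log_pos hX1
  have hτ' : min σ τ ≤ τ := min_le_right _ _
  have hmu : ∀ {c : ℝ}, (c + min σ τ) * Real.log X ≤ (c + τ) * Real.log X := fun {c} =>
    mul_le_mul_of_nonneg_right (by linarith) hL.le
  obtain ⟨hqb, q4, hf⟩ := f5_data hX1 hτ.le hb ha (fun p hp => ⟨(hps p hp).1, (hps p hp).2.1⟩) hl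
    (hz1.trans hmu) (hz2.trans hmu) (hz3.trans hmu) (hw.trans hmu)
    (hlev.trans (sub_le_sub_right hmu _))
  obtain ⟨p, hp, hpd⟩ := hnear _ hf
  have key := H X hX (fun i => b i * Real.log X) a ps ha hN (fun p hp => ⟨(hps p hp).1, by
      unfold Pcs.nl
      rw [div_le_iff₀ hL]
      exact (hps p hp).2.2.1.trans (mul_le_mul_of_nonneg_right (min_le_left _ _) hL.le)⟩) hs2
    (fun p hp => ⟨(hps p hp).2.2.2, (hps p hp).2.1⟩) ⟨p, hp, hpd.le⟩ K hK hs1 hpt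
  unfold E5 n5 at key
  rw [hqb] at key
  have e1 : ((S3e 5).ev X (fun i => b i * Real.log X, a), Dq.mass X ps).2 Kd.am =
    (ps.map fun p => p.z).sum / Real.log X := q4
  rw [e1, add_zero] at key
  exact key

end Crest.Agent.R017.TM708
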