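import Crest.Agent.R017.FNEb_708

/-!
# Row 17, R8 / P1: the T-inputs of `(I1)` for every kernel (helper708), part 1

The same as `FNEa_708`, `FNEb_708` for an arbitrary functional `Φ` (`Wd Φ`), arbitrary family `Kf`
and level bound `Tf`:

* `Wd`          : the three properties of the functional; `wd_N`, `wd_K`
* `AllT`        : `tAll` at the exponent level
* `FE2G`        : the flat claims (`FE2L = FE2G` at `K5`, `T5`)
* `ne_nearG`    : both closed forms for actual lists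
* `box_near`    : `tAll` without any condition on the level
-/

set_option autoImplicit false
set_option linter.unusedSectionVars false

noncomputable section

open Set

namespace Crest.Agent.R017.TK708

open Crest.Agent.R012 Crest.Agent.R012.Eis
open Crest.Agent.R017.FE47 (PU)
open Crest.Agent.R017.CM106
open Crest.Agent.R017.XG702 (Pcs BG)
open Crest.Agent.R017.XT71 (Sys Win mx le_mx one_le_mx)
open Crest.Agent.R017.Prov71
open Crest.Agent.R017.B770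
open Crest.Agent.R017.ER911
open Crest.Agent.R017.HP842 (Pc pc sqc alL KS Ker)
open Crest.Agent.R017.UBT973 (UBs Wn)
open Crest.Agent.R017.TM708
open Crest.Agent.R017.I1146 (ChN LN cN SN FlatO FlatL Tail)

variable {Λ : Type*} {π : Λ → DPar} {h : ℝ → ℝ} {d : ℝ} {Φ : Λ → ℝ → List Pq → ℝ} {n : ℕ}
  {Kf Tf : (Fin 5 → ℝ) → ℝ}

/-- **the functionals** -/
structure Wd (Φ : Λ → ℝ → List Pq → ℝ) : Prop where
  inv : Pinv Φ
  triv : Prov71.Triv Dq Φ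
  bd : ∃ A C : ℝ, 0 ≤ A ∧ 1 ≤ C ∧ ∀ (lam : Λ) (l : ℝ) (ps : List Pq),
    Φ lam l ps ≤ A * C ^ (2 * ps.length) * Real.exp (l + 2 * (ps.map Pq.z).sum)

/-- class N -/
theorem wd_N {c₀ : ℝ} (hpu : PU h c₀) (hP : ∀ lam, (π lam).OK) :
    Wd (fun lam => S0p (π lam) h) where
  inv := pinv_S0p π h
  triv := triv_S0p hpu hP
  bd := by
    obtain ⟨C, hC, hb⟩ := UBT973.triv_Sp (h := h) hpu.cd.continuous hpu.cs
    exact ⟨100, C, by norm_num, hC, fun lam l ps =>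
      (S0p_le (π lam) h l ps).trans (hb _ (hP lam) l ps)⟩

/-- `tAll` at the exponent level -/
def AllT (d : ℝ) (s : EF) : Prop :=
  ∀ v z₁ z₂ z₃ m a : ℝ, 0 ≤ v → 0 ≤ z₁ → 0 ≤ z₂ → 0 ≤ z₃ → 0 ≤ m → 0 ≤ a →
    s v {z₁, z₂, z₃} m a ≤ tAll d v z₁ z₂ z₃ (m + a)

/-- from the rules -/
theorem allT_of {r s s₀ : EF} (R : ExpRules (7 / 8 + d) r s) (h0 : ExpS0 s s₀) (hd : 0 ≤ d)
    (hd1 : d ≤ 1 / 8) : AllT d s₀ := by
  intro v z₁ z₂ z₃ m a hv h1 h2 h3 hm ha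
  exact (h0.le _ _ _ _ hv (R8T70.ok_triple h1 h2 h3 hm ha)).trans
    (s_tAll R hd hd1 h1 h2 h3 hm ha hv)

/-- class N -/
theorem allT_N {c₀ : ℝ} (hpu : PU h c₀) (hP : ∀ lam, (π lam).OK) {r : EF}
    (R : ExpRules (7 / 8 + d) r (ex Dq fun lam => Sp (π lam) h)) (hd : 0 ≤ d) (hd1 : d ≤ 1 / 8) :
    AllT d (ex Dq fun lam => S0p (π lam) h) := by
  intro v z₁ z₂ z₃ m a hv h1 h2 h3 hm ha
  exact (ex_S0p_le hpu hP hv (R8T70.ok_triple h1 h2 h3 hm ha)).trans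
    (s_tAll R hd hd1 h1 h2 h3 hm ha hv)

/-- **the flat claims at the exponent level**, family `Kf`, level bound `Tf` -/
def FE2G (s : EF) (D5 : Set (Fin 5 → ℝ)) (Kf Tf ℓ : (Fin 5 → ℝ) → ℝ) : Prop :=
  ∀ b ∈ D5, ∀ v z₁ z₂ z₃ w : ℝ, 0 ≤ v → 0 ≤ z₁ → z₁ ≤ b 1 → 0 ≤ z₂ → z₂ ≤ b 2 → 0 ≤ z₃ →
    z₃ ≤ b 3 → 0 ≤ w → w ≤ b 4 →
    v ≤ Tf b + (b 1 + b 2 + b 3 + b 4 - (z₁ + z₂ + z₃ + w)) →
    s v {z₁, z₂, z₃} 0 w ≤ eW (Kf b) v (z₁ + z₂ + z₃ + w) w + ℓ b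

lemma FE2G_iff {s : EF} {D5 : Set (Fin 5 → ℝ)} {ℓ : (Fin 5 → ℝ) → ℝ} :
    FE2G s D5 K5 T5 ℓ ↔ FE2L s D5 ℓ := Iff.rfl

/-! ### `UBs` for a functional -/

/-- trivial bound -/
theorem tmg_trivW (hW : Wd Φ) (c : Λ → ℝ)
    {f : (Fin n ⊕ Fin 4 → ℝ) × (Kd → ℝ) → ℝ} (hf : IsCompact {q | f q ≤ 1}) :
    UBT973.Triv (S3e n) Dq (TMG Φ c n) f ∅ := by
  obtain ⟨A, C, hA, hC, hb⟩ := hW.bd
  refine UBT973.triv_of_exp hf
    (G := fun q => q.1 (.inr 0) + 2 * (q.1 (.inr 1) + q.1 (.inr 2) + q.1 (.inr 3)) +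
      2 * (q.2 .mo + q.2 .am))
    (by fun_prop) fun lam N B => ?_
  refine ⟨A * C ^ (2 * (3 + N)) * Real.exp |c lam|, 0, fun X hX b ps hw H hH _ _ => ?_⟩
  have hX1 : (1 : ℝ) < X := by linarith
  have hX0 : (0 : ℝ) < X := by linarith
  have hl : Real.log X ≠ 0 := (Real.log_pos hX1).ne'
  rw [pow_zero, mul_one]
  unfold TMG TMP
  set a := b.2 with hab
  split_ifs with ha
  · refine (hb _ _ _).trans ?_
    have hz : ∀ p : Pq, (p.tw a.q).z = p.z := fun p => by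
      have := tws_tw.len a.q p ha.2
      simpa only [Dq_len] using this
    have e1 : (((a.mk' ++ ps).map (Pq.tw a.q)).map Pq.z).sum =
        (a.us 0).z + (a.us 1).z + (a.us 2).z + (ps.map fun p => p.z).sum := by
      rw [List.map_map]
      have : (Pq.z ∘ Pq.tw a.q) = fun p => p.z := funext hz
      rw [this, List.map_append, List.sum_append]
      simp [T3.mk', add_assoc]
    have e2 := BadK271.sum_z_eq hX1 ps
    have e3 : ∀ i, (a.us i).z = Real.log X * Dq.nl X (a.us i) := fun i => by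
      unfold Pcs.nl
      rw [Dq_len]
      field_simp
    rw [e1, e2, List.length_map, List.length_append]
    have h1 : C ^ (2 * (a.mk'.length + ps.length)) ≤ C ^ (2 * (3 + N)) := by
      refine pow_le_pow_right₀ hC ?_
      have := hw.len
      have h3 : a.mk'.length = 3 := rfl
      omega
    have h2 : Real.exp (a.l + c lam + 2 * ((a.us 0).z + (a.us 1).z + (a.us 2).z +
        Real.log X * (Dq.mass X ps .mo + Dq.mass X ps .am))) ≤ Real.exp |c lam| *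
        X ^ (S3.ev X a 0 + 2 * (S3.ev X a 1 + S3.ev X a 2 + S3.ev X a 3) +
          2 * (Dq.mass X ps .mo + Dq.mass X ps .am)) := by
      rw [Real.rpow_def_of_pos hX0, ← Real.exp_add]
      refine Real.exp_le_exp.2 ?_
      have f0 : S3.ev X a 0 = a.l / Real.log X := rfl
      have f1 : S3.ev X a 1 = Dq.nl X (a.us 0) := rfl
      have f2 : S3.ev X a 2 = Dq.nl X (a.us 1) := rfl
      have f3 : S3.ev X a 3 = Dq.nl X (a.us 2) := rfl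
      rw [f0, f1, f2, f3, e3 0, e3 1, e3 2]
      have g := le_abs_self (c lam)
      have g2 : Real.log X * (a.l / Real.log X) = a.l := by field_simp
      nlinarith
    calc A * C ^ (2 * (a.mk'.length + ps.length)) * Real.exp (a.l + c lam +
          2 * ((a.us 0).z + (a.us 1).z + (a.us 2).z +
            Real.log X * (Dq.mass X ps .mo + Dq.mass X ps .am)))
        ≤ A * C ^ (2 * (3 + N)) * (Real.exp |c lam| *
          X ^ (S3.ev X a 0 + 2 * (S3.ev X a 1 + S3.ev X a 2 + S3.ev X a 3) +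
            2 * (Dq.mass X ps .mo + Dq.mass X ps .am))) := by
          refine mul_le_mul (mul_le_mul_of_nonneg_left h1 hA) h2 (Real.exp_pos _).le
            (by positivity)
      _ = A * C ^ (2 * (3 + N)) * Real.exp |c lam| * X ^ ((S3e n).ev X b (.inr 0) +
            2 * ((S3e n).ev X b (.inr 1) + (S3e n).ev X b (.inr 2) + (S3e n).ev X b (.inr 3)) +
            2 * (Dq.mass X ps .mo + Dq.mass X ps .am)) := by
          rw [mul_assoc (A * C ^ (2 * (3 + N)))]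
          rfl
  · have := Real.rpow_nonneg hX0.le ((S3e n).ev X b (.inr 0) +
            2 * ((S3e n).ev X b (.inr 1) + (S3e n).ev X b (.inr 2) + (S3e n).ev X b (.inr 3)) +
            2 * (Dq.mass X ps .mo + Dq.mass X ps .am))
    have hC0 : 0 ≤ C := by linarith
    positivity

/-- **`UBs` from an inequality for the exponents** -/
theorem tmgs_W (hW : Wd Φ) (c : Λ → ℝ) {Dom : Set ((Fin n ⊕ Fin 4 → ℝ) × (Kd → ℝ))}
    (hDom : IsCompact Dom) (hne : Dom.Nonempty)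
    (hnn : ∀ q ∈ Dom, (∀ i, 0 ≤ q.1 (.inr i)) ∧ ∀ t, 0 ≤ q.2 t)
    {E : (Fin n ⊕ Fin 4 → ℝ) × (Kd → ℝ) → ℝ} (hE : Continuous E)
    (H : ∀ q ∈ Dom, ex Dq Φ (q.1 (.inr 0)) {q.1 (.inr 1), q.1 (.inr 2), q.1 (.inr 3)} (q.2 .mo)
      (q.2 .am) ≤ E q) :
    UBs (S3e n) Dq (TMG Φ c n) (fun q => Metric.infDist q Dom) ∅ E :=
  UBT973.ubs_of_ub (Metric.continuous_infDist_pt Dom) (infDist_one hDom hne) hE
    (tmg_trivW hW c (infDist_one hDom hne)) (by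
    rw [infDist_zero hDom.isClosed hne]
    exact tmg_of hW.inv hW.triv c hDom hnn hE H)

/-- **the same, unfolded** -/
theorem tmg_nearW (hW : Wd Φ) (c : Λ → ℝ) {Dom : Set ((Fin n ⊕ Fin 4 → ℝ) × (Kd → ℝ))}
    (hDom : IsCompact Dom) (hne : Dom.Nonempty)
    (hnn : ∀ q ∈ Dom, (∀ i, 0 ≤ q.1 (.inr i)) ∧ ∀ t, 0 ≤ q.2 t)
    {E : (Fin n ⊕ Fin 4 → ℝ) × (Kd → ℝ) → ℝ} (hE : Continuous E)
    (H : ∀ q ∈ Dom, ex Dq Φ (q.1 (.inr 0)) {q.1 (.inr 1), q.1 (.inr 2), q.1 (.inr 3)} (q.2 .mo)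
      (q.2 .am) ≤ E q) {ε : ℝ} (hε : 0 < ε) :
    ∃ σ : ℝ, 0 < σ ∧ ∀ (lam : Λ) (N : ℕ) (B : ℝ), ∃ (M : ℕ) (X₀ : ℝ), 1 < X₀ ∧
      ∀ X : ℝ, X₀ ≤ X → ∀ (b : Fin n → ℝ) (a : T3) (ps : List Pq), a.ok → ps.length ≤ N →
      (∀ p ∈ ps, p.kd = .am ∧ Dq.nl X p ≤ σ) → S3.s₂ a ≤ X ^ B →
      (∀ p ∈ ps, (nm p.d : ℝ) ≤ X ^ B ∧ 0 ≤ p.z) →
      (∃ q ∈ Dom, dist ((S3e n).ev X (b, a), Dq.mass X ps) q ≤ σ) →
      ∀ K : ℝ, 1 ≤ K → S3.s₁ a ≤ K → (∀ p ∈ ps, 1 + |p.t| ≤ K) →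
        Φ lam (a.l + c lam) ((a.mk' ++ ps).map (Pq.tw a.q)) ≤
          K ^ M * X ^ (E ((S3e n).ev X (b, a), Dq.mass X ps) + ε) := by
  obtain ⟨σ, hσ, G⟩ := tmgs_W hW c hDom hne hnn hE H ε hε
  refine ⟨σ, hσ, fun lam N B => ?_⟩
  obtain ⟨M, X₀, hX₀, G1⟩ := G lam N B
  refine ⟨M, X₀, hX₀, fun X hX b a ps ha hN hg hs2 hp hd K hK hs1 hp1 => ?_⟩
  have hX1 : 1 < X := by linarith
  have key := G1 X hX (b, a) ps hN (fun p hp => Or.inr (hg p hp).2)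
    (Real.one_le_rpow hX1.le hσ.le) (Nat.zero_le _) hs2 (fun p hp' => hp p hp') (by
      obtain ⟨q, hq, hqd⟩ := hd
      exact (Metric.infDist_le_dist_of_mem hq).trans hqd)
    (fun p hp' hl => by
      have h1 := (hg p hp').1
      have h2 := hl.1
      rw [h1] at h2
      cases h2) K hK hs1 (fun p hp' => hp1 p hp')
  unfold TMG TMP at key
  rwa [if_pos ha] at key

/-! ### `tAll` without condition on the level -/

/-- the box -/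
def bx (B : ℝ) : Set ((Fin 0 ⊕ Fin 4 → ℝ) × (Kd → ℝ)) :=
  (Set.pi Set.univ fun _ => Set.Icc 0 B) ×ˢ (Set.pi Set.univ fun _ => Set.Icc 0 B)

/-- **`tAll` for actual lists**, lengths and level at most `B₁ log X` -/
theorem box_near (hW : Wd Φ) (hA : AllT d (ex Dq Φ)) {B₁ : ℝ} (hB₁ : 0 ≤ B₁) {ε : ℝ}
    (hε : 0 < ε) :
    ∃ σ : ℝ, 0 < σ ∧ ∀ (lam : Λ) (N : ℕ) (B : ℝ), ∃ (M : ℕ) (X₀ : ℝ), 1 < X₀ ∧
      ∀ X : ℝ, X₀ ≤ X → ∀ (a : T3) (ps : List Pq), a.ok → ps.length ≤ N →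
      (∀ p ∈ ps, p.kd = .am ∧ 0 ≤ p.z ∧ p.z ≤ σ * Real.log X ∧ (nm p.d : ℝ) ≤ X ^ B) →
      S3.s₂ a ≤ X ^ B → 0 ≤ a.l → a.l ≤ B₁ * Real.log X → (∀ i, (a.us i).z ≤ B₁ * Real.log X) →
      (ps.map fun p => p.z).sum ≤ B₁ * Real.log X →
      ∀ K : ℝ, 1 ≤ K → S3.s₁ a ≤ K → (∀ p ∈ ps, 1 + |p.t| ≤ K) →
        Φ lam a.l ((a.mk' ++ ps).map (Pq.tw a.q)) ≤ K ^ M * X ^
          (tAll d (a.l / Real.log X) ((a.us 0).z / Real.log X) ((a.us 1).z / Real.log X)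
              ((a.us 2).z / Real.log X) ((ps.map fun p => p.z).sum / Real.log X) + ε) := by
  obtain ⟨σ, hσ, G⟩ := tmg_nearW (n := 0) hW (fun _ => 0) (Dom := bx B₁)
    ((isCompact_univ_pi fun _ => isCompact_Icc).prod
      (isCompact_univ_pi fun _ => isCompact_Icc))
    ⟨(fun _ => 0, fun _ => 0), ⟨fun i _ => ⟨le_rfl, hB₁⟩, fun i _ => ⟨le_rfl, hB₁⟩⟩⟩
    (fun q hq => ⟨fun i => (hq.1 (.inr i) (Set.mem_univ _)).1, fun t =>
      (hq.2 t (Set.mem_univ _)).1⟩)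
    (E := fun q => tAll d (q.1 (.inr 0)) (q.1 (.inr 1)) (q.1 (.inr 2)) (q.1 (.inr 3))
      (q.2 .mo + q.2 .am)) (by
      unfold tAll tCT3 tCP3 tP3 tHB tCT tCP tP gv
      fun_prop) (fun q hq => by
      have h1 : ∀ i, 0 ≤ q.1 (.inr i) := fun i => (hq.1 (.inr i) (Set.mem_univ _)).1
      have h2 : ∀ t, 0 ≤ q.2 t := fun t => (hq.2 t (Set.mem_univ _)).1
      exact hA _ _ _ _ _ _ (h1 0) (h1 1) (h1 2) (h1 3) (h2 _) (h2 _)) hε
  refine ⟨σ, hσ, fun lam N B => ?_⟩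
  obtain ⟨M, X₀, hX₀, H⟩ := G lam N B
  refine ⟨M, X₀, hX₀, fun X hX a ps ha hN hps hs2 hl hl1 hz hw K hK hs1 hpt => ?_⟩
  have hX1 : 1 < X := by linarith
  have hL : 0 < Real.log X := Real.log_pos hX1
  have hm := mass_mo_zero (X := X) fun p hp => (hps p hp).1
  have hsum := BadK271.sum_z_eq hX1 ps
  rw [hm, zero_add] at hsum
  have ham : Dq.mass X ps .am = (ps.map fun p => p.z).sum / Real.log X := by
    rw [hsum]; field_simp
  have hs0 : 0 ≤ (ps.map fun p => p.z).sum := List.sum_nonneg fun x hx => by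
    obtain ⟨p, hp, rfl⟩ := List.mem_map.1 hx
    exact (hps p hp).2.1
  have hdv : ∀ {y : ℝ}, 0 ≤ y → y ≤ B₁ * Real.log X → y / Real.log X ∈ Set.Icc 0 B₁ :=
    fun h0 h1 => ⟨div_nonneg h0 hL.le, (div_le_iff₀ hL).2 h1⟩
  have key := H X hX (fun i => i.elim0) a ps ha hN (fun p hp => ⟨(hps p hp).1, by
      unfold Pcs.nl
      rw [div_le_iff₀ hL]
      exact (hps p hp).2.2.1⟩) hs2
    (fun p hp => ⟨(hps p hp).2.2.2, (hps p hp).2.1⟩)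
    ⟨((S3e 0).ev X (fun i => i.elim0, a), Dq.mass X ps), ⟨fun i _ => by
      rcases i with i | i
      · exact i.elim0
      · fin_cases i
        · exact hdv hl hl1
        · exact hdv (ha.1 0).2 (hz 0)
        · exact hdv (ha.1 1).2 (hz 1)
        · exact hdv (ha.1 2).2 (hz 2), fun t _ => by
      cases t
      · show Dq.mass X ps .mo ∈ Set.Icc 0 B₁
        rw [hm]; exact ⟨le_rfl, hB₁⟩
      · show Dq.mass X ps .am ∈ Set.Icc 0 B₁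
        rw [ham]; exact hdv hs0 hw⟩, by rw [dist_self]; exact hσ.le⟩ K hK hs1 hpt
  have key' : Φ lam (a.l + 0) ((a.mk' ++ ps).map (Pq.tw a.q)) ≤ K ^ M * X ^
      (tAll d (a.l / Real.log X) ((a.us 0).z / Real.log X) ((a.us 1).z / Real.log X)
        ((a.us 2).z / Real.log X) (Dq.mass X ps .mo + Dq.mass X ps .am) + ε) := key
  rw [add_zero, hm, zero_add, ham] at key'
  exact key'

/-! ### both closed forms near a compact set of parents -/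

/-- constraint function -/
def fG (Tf : (Fin 5 → ℝ) → ℝ) (D5 : Set (Fin 5 → ℝ))
    (q : (Fin 5 ⊕ Fin 4 → ℝ) × (Kd → ℝ)) : ℝ :=
  max (max (Metric.infDist (b5 q) D5) (max (-q.1 (.inr 0))
      (q.1 (.inr 0) - (Tf (b5 q) + (b5 q 1 + b5 q 2 + b5 q 3 + b5 q 4 - n5 q)))))
    (max (max (max (-q.1 (.inr 1)) (q.1 (.inr 1) - b5 q 1))
      (max (-q.1 (.inr 2)) (q.1 (.inr 2) - b5 q 2)))
    (max (max (-q.1 (.inr 3)) (q.1 (.inr 3) - b5 q 3))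
      (max (max (-q.2 .mo) (q.2 .mo)) (max (-q.2 .am) (q.2 .am - b5 q 4)))))

lemma fG_cont (hTf : Continuous Tf) (D5 : Set (Fin 5 → ℝ)) : Continuous (fG Tf D5) := by
  have h1 : Continuous fun q : (Fin 5 ⊕ Fin 4 → ℝ) × (Kd → ℝ) => Metric.infDist (b5 q) D5 :=
    (Metric.continuous_infDist_pt D5).comp b5_cont
  have h2 : Continuous fun q : (Fin 5 ⊕ Fin 4 → ℝ) × (Kd → ℝ) => Tf (b5 q) :=
    hTf.comp b5_cont
  have h3 := n5_cont
  have h4 : ∀ i, Continuous fun q : (Fin 5 ⊕ Fin 4 → ℝ) × (Kd → ℝ) => b5 q i := fun i =>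
    (continuous_apply i).comp b5_cont
  unfold fG
  fun_prop

lemma fG_le {D5 : Set (Fin 5 → ℝ)} {s : ℝ} {q : (Fin 5 ⊕ Fin 4 → ℝ) × (Kd → ℝ)} :
    fG Tf D5 q ≤ s ↔ (Metric.infDist (b5 q) D5 ≤ s ∧ -s ≤ q.1 (.inr 0) ∧
      q.1 (.inr 0) ≤ Tf (b5 q) + (b5 q 1 + b5 q 2 + b5 q 3 + b5 q 4 - n5 q) + s) ∧
      (-s ≤ q.1 (.inr 1) ∧ q.1 (.inr 1) ≤ b5 q 1 + s) ∧
      (-s ≤ q.1 (.inr 2) ∧ q.1 (.inr 2) ≤ b5 q 2 + s) ∧
      (-s ≤ q.1 (.inr 3) ∧ q.1 (.inr 3) ≤ b5 q 3 + s) ∧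
      (-s ≤ q.2 .mo ∧ q.2 .mo ≤ s) ∧ (-s ≤ q.2 .am ∧ q.2 .am ≤ b5 q 4 + s) := by
  unfold fG
  simp only [max_le_iff]
  constructor
  · rintro ⟨⟨h1, h2, h3⟩, ⟨⟨h4, h5⟩, h6, h7⟩, ⟨h8, h9⟩, ⟨h10, h11⟩, h12, h13⟩
    refine ⟨⟨h1, ?_, ?_⟩, ⟨?_, ?_⟩, ⟨?_, ?_⟩, ⟨?_, ?_⟩, ⟨?_, ?_⟩, ?_, ?_⟩ <;> linarith
  · rintro ⟨⟨h1, h2, h3⟩, ⟨h4, h5⟩, ⟨h6, h7⟩, ⟨h8, h9⟩, ⟨h10, h11⟩, h12, h13⟩
    refine ⟨⟨h1, ?_, ?_⟩, ⟨⟨?_, ?_⟩, ?_, ?_⟩, ⟨?_, ?_⟩, ⟨?_, ?_⟩, ?_, ?_⟩ <;> linarith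

lemma fG_compact (hTf : Continuous Tf) {D5 : Set (Fin 5 → ℝ)} (hD : IsCompact D5)
    (hne : D5.Nonempty) : IsCompact {q | fG Tf D5 q ≤ 1} := by
  obtain ⟨K, hK⟩ := (infDist_one hD hne).isBounded.exists_norm_le
  have hK0 : 0 ≤ K := by
    obtain ⟨b, hb⟩ := hne
    exact (norm_nonneg b).trans (hK b (by
      rw [Set.mem_ofPred_eq]
      have : Metric.infDist b D5 = 0 := Metric.infDist_zero_of_mem hb
      rw [this]; norm_num))
  obtain ⟨T, hT⟩ := (infDist_one hD hne).exists_bound_of_continuousOn hTf.continuousOn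
  have hT0 : 0 ≤ T := by
    obtain ⟨b, hb⟩ := hne
    refine (norm_nonneg (Tf b)).trans (hT b ?_)
    rw [Set.mem_ofPred_eq]
    have : Metric.infDist b D5 = 0 := Metric.infDist_zero_of_mem hb
    rw [this]; norm_num
  refine IsCompact.of_isClosed_subset (s := (Set.pi Set.univ fun _ => Set.Icc
    (-(20 * K + T + 20)) (20 * K + T + 20)) ×ˢ (Set.pi Set.univ fun _ => Set.Icc
    (-(20 * K + T + 20)) (20 * K + T + 20)))
    ((isCompact_univ_pi fun _ => isCompact_Icc).prod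
      (isCompact_univ_pi fun _ => isCompact_Icc))
    (isClosed_le (fG_cont hTf D5) continuous_const) ?_
  intro q hq
  rw [Set.mem_ofPred_eq, fG_le] at hq
  obtain ⟨⟨h1, h2, h3⟩, ⟨h4, h5⟩, ⟨h6, h7⟩, ⟨h8, h9⟩, ⟨h10, h11⟩, h12, h13⟩ := hq
  have hb : ∀ i, |b5 q i| ≤ K := fun i => (norm_le_pi_norm (b5 q) i).trans (hK _ h1)
  have hTq := (abs_le.1 ((Real.norm_eq_abs _).symm.le.trans (hT (b5 q) h1))).2
  have a0 := abs_le.1 (hb 0)
  have a1 := abs_le.1 (hb 1)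
  have a2 := abs_le.1 (hb 2)
  have a3 := abs_le.1 (hb 3)
  have a4 := abs_le.1 (hb 4)
  have hn : -4 ≤ n5 q := by unfold n5; linarith
  refine ⟨fun i _ => ?_, fun t _ => ?_⟩
  · rcases i with i | i
    · have := abs_le.1 (hb i)
      have e : q.1 (.inl i) = b5 q i := rfl
      rw [e]
      exact ⟨by linarith, by linarith⟩
    · fin_cases i
      · exact ⟨by simpa using (by linarith : -(20 * K + T + 20) ≤ q.1 (.inr 0)),
          by simpa using (by linarith : q.1 (.inr 0) ≤ 20 * K + T + 20)⟩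
      · exact ⟨by simpa using (by linarith : -(20 * K + T + 20) ≤ q.1 (.inr 1)),
          by simpa using (by linarith : q.1 (.inr 1) ≤ 20 * K + T + 20)⟩
      · exact ⟨by simpa using (by linarith : -(20 * K + T + 20) ≤ q.1 (.inr 2)),
          by simpa using (by linarith : q.1 (.inr 2) ≤ 20 * K + T + 20)⟩
      · exact ⟨by simpa using (by linarith : -(20 * K + T + 20) ≤ q.1 (.inr 3)),
          by simpa using (by linarith : q.1 (.inr 3) ≤ 20 * K + T + 20)⟩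
  · cases t
    · exact ⟨by linarith, by linarith⟩
    · exact ⟨by linarith, by linarith⟩

/-- the closed form -/
def EG (d : ℝ) (Kf ℓ : (Fin 5 → ℝ) → ℝ) (q : (Fin 5 ⊕ Fin 4 → ℝ) × (Kd → ℝ)) : ℝ :=
  min (eW (Kf (b5 q)) (q.1 (.inr 0)) (n5 q) (q.2 .am) + ℓ (b5 q))
    (tAll d (q.1 (.inr 0)) (q.1 (.inr 1)) (q.1 (.inr 2)) (q.1 (.inr 3)) (q.2 .am))

lemma EG_cont (d : ℝ) (hKf : Continuous Kf) {ℓ : (Fin 5 → ℝ) → ℝ} (hℓ : Continuous ℓ) :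
    Continuous (EG d Kf ℓ) := by
  have h1 : Continuous fun q : (Fin 5 ⊕ Fin 4 → ℝ) × (Kd → ℝ) => Kf (b5 q) :=
    hKf.comp b5_cont
  have h2 := n5_cont
  refine Continuous.min (Continuous.add ?_ (hℓ.comp b5_cont)) ?_
  · exact eW_cont.comp (h1.prodMk ((by fun_prop :
      Continuous fun q : (Fin 5 ⊕ Fin 4 → ℝ) × (Kd → ℝ) => q.1 (.inr 0)).prodMk
      (h2.prodMk (by fun_prop))))
  · unfold tAll tCT3 tCP3 tP3 tHB tCT tCP tP gv
    fun_prop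

/-- actual lists satisfy the constraints up to the tolerance -/
lemma fG_data {D5 : Set (Fin 5 → ℝ)} {X τ : ℝ} (hX1 : 1 < X) (hτ : 0 ≤ τ) {b : Fin 5 → ℝ}
    (hb : b ∈ D5) {a : T3} {ps : List Pq} (ha : a.ok) (hps : ∀ p ∈ ps, p.kd = .am ∧ 0 ≤ p.z)
    (hl : 0 ≤ a.l) (hz1 : (a.us 0).z ≤ (b 1 + τ) * Real.log X)
    (hz2 : (a.us 1).z ≤ (b 2 + τ) * Real.log X) (hz3 : (a.us 2).z ≤ (b 3 + τ) * Real.log X)
    (hw : (ps.map fun p => p.z).sum ≤ (b 4 + τ) * Real.log X)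
    (hlev : a.l ≤ (Tf b + (b 1 + b 2 + b 3 + b 4) + τ) * Real.log X -
        ((a.us 0).z + (a.us 1).z + (a.us 2).z + (ps.map fun p => p.z).sum)) :
    b5 ((S3e 5).ev X (fun i => b i * Real.log X, a), Dq.mass X ps) = b ∧
    Dq.mass X ps .am = (ps.map fun p => p.z).sum / Real.log X ∧
    fG Tf D5 ((S3e 5).ev X (fun i => b i * Real.log X, a), Dq.mass X ps) ≤ τ := by
  have hL : 0 < Real.log X := Real.log_pos hX1
  have hm := mass_mo_zero (X := X) fun p hp => (hps p hp).1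
  have hsum := BadK271.sum_z_eq hX1 ps
  rw [hm, zero_add] at hsum
  have ham : (ps.map fun p => p.z).sum / Real.log X = Dq.mass X ps .am := by
    rw [hsum]; field_simp
  set q : (Fin 5 ⊕ Fin 4 → ℝ) × (Kd → ℝ) :=
    ((S3e 5).ev X (fun i => b i * Real.log X, a), Dq.mass X ps) with hq
  have hqb : b5 q = b := by
    funext i
    show b i * Real.log X / Real.log X = b i
    field_simp
  have q0 : q.1 (.inr 0) = a.l / Real.log X := rfl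
  have q1 : q.1 (.inr 1) = (a.us 0).z / Real.log X := rfl
  have q2 : q.1 (.inr 2) = (a.us 1).z / Real.log X := rfl
  have q3 : q.1 (.inr 3) = (a.us 2).z / Real.log X := rfl
  have q4 : q.2 .am = (ps.map fun p => p.z).sum / Real.log X := ham.symm
  have q5 : q.2 .mo = 0 := hm
  have hdv : ∀ {y c : ℝ}, y ≤ (c + τ) * Real.log X → y / Real.log X ≤ c + τ := by
    intro y c hy
    rwa [div_le_iff₀ hL]
  have hnn : ∀ {y : ℝ}, 0 ≤ y → -τ ≤ y / Real.log X := fun hy => by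
    have := div_nonneg hy hL.le
    linarith
  refine ⟨hqb, ham.symm, ?_⟩
  rw [fG_le, hqb]
  have hn : n5 q = ((a.us 0).z + (a.us 1).z + (a.us 2).z + (ps.map fun p => p.z).sum) /
      Real.log X := by
    unfold n5
    rw [q1, q2, q3, q4]
    ring
  rw [hn, q0, q1, q2, q3, q4, q5]
  refine ⟨⟨?_, hnn hl, ?_⟩, ⟨hnn (ha.1 0).2, hdv hz1⟩, ⟨hnn (ha.1 1).2, hdv hz2⟩,
    ⟨hnn (ha.1 2).2, hdv hz3⟩, ⟨by linarith, hτ⟩, hnn (List.sum_nonneg fun x hx => ?_),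
    hdv hw⟩
  · rw [Metric.infDist_zero_of_mem hb]; exact hτ
  · rw [div_le_iff₀ hL]
    have e : (Tf b + (b 1 + b 2 + b 3 + b 4 - ((a.us 0).z + (a.us 1).z + (a.us 2).z +
        (ps.map fun p => p.z).sum) / Real.log X) + τ) * Real.log X =
        (Tf b + (b 1 + b 2 + b 3 + b 4) + τ) * Real.log X - ((a.us 0).z + (a.us 1).z +
          (a.us 2).z + (ps.map fun p => p.z).sum) := by
      field_simp
      ring
    rw [e]
    exact hlev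
  · obtain ⟨p, hp, rfl⟩ := List.mem_map.1 hx
    exact (hps p hp).2

/-- **both closed forms for actual lists** -/
theorem ne_nearG (hW : Wd Φ) (hA : AllT d (ex Dq Φ)) (hKf : Continuous Kf) (hTf : Continuous Tf)
    {D5 : Set (Fin 5 → ℝ)} (hD : IsCompact D5) {ℓ : (Fin 5 → ℝ) → ℝ} (hℓ : Continuous ℓ)
    (hFE : FE2G (ex Dq Φ) D5 Kf Tf ℓ) {ε : ℝ} (hε : 0 < ε) :
    ∃ σ : ℝ, 0 < σ ∧ ∀ (lam : Λ) (N : ℕ) (B : ℝ), ∃ (M : ℕ) (X₀ : ℝ), 1 < X₀ ∧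
      ∀ X : ℝ, X₀ ≤ X → ∀ b ∈ D5, ∀ (a : T3) (ps : List Pq), a.ok → ps.length ≤ N →
      (∀ p ∈ ps, p.kd = .am ∧ 0 ≤ p.z ∧ p.z ≤ σ * Real.log X ∧ (nm p.d : ℝ) ≤ X ^ B) →
      S3.s₂ a ≤ X ^ B → 0 ≤ a.l → (a.us 0).z ≤ (b 1 + σ) * Real.log X →
      (a.us 1).z ≤ (b 2 + σ) * Real.log X → (a.us 2).z ≤ (b 3 + σ) * Real.log X →
      (ps.map fun p => p.z).sum ≤ (b 4 + σ) * Real.log X →
      a.l ≤ (Tf b + (b 1 + b 2 + b 3 + b 4) + σ) * Real.log X -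
        ((a.us 0).z + (a.us 1).z + (a.us 2).z + (ps.map fun p => p.z).sum) →
      ∀ K : ℝ, 1 ≤ K → S3.s₁ a ≤ K → (∀ p ∈ ps, 1 + |p.t| ≤ K) →
        Φ lam a.l ((a.mk' ++ ps).map (Pq.tw a.q)) ≤ K ^ M * X ^
          (min (eW (Kf b) (a.l / Real.log X) ((a.us 0).z / Real.log X + (a.us 1).z / Real.log X +
              (a.us 2).z / Real.log X + (ps.map fun p => p.z).sum / Real.log X)
              ((ps.map fun p => p.z).sum / Real.log X) + ℓ b)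
            (tAll d (a.l / Real.log X) ((a.us 0).z / Real.log X) ((a.us 1).z / Real.log X)
              ((a.us 2).z / Real.log X) ((ps.map fun p => p.z).sum / Real.log X)) + ε) := by
  rcases D5.eq_empty_or_nonempty with rfl | hne
  · exact ⟨1, one_pos, fun lam N B => ⟨0, 2, by norm_num, fun X _ b hb => absurd hb
      (Set.notMem_empty _)⟩⟩
  have hcompact := fG_compact hTf hD hne
  have hcont := fG_cont hTf D5
  have hsub : {q | fG Tf D5 q ≤ 0} ⊆ {q | fG Tf D5 q ≤ 1} := fun q hq =>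
    le_trans (show fG Tf D5 q ≤ 0 from hq) zero_le_one
  have hDom : IsCompact {q | fG Tf D5 q ≤ 0} :=
    hcompact.of_isClosed_subset (isClosed_le hcont continuous_const) hsub
  rcases ({q | fG Tf D5 q ≤ 0} : Set _).eq_empty_or_nonempty with h0 | hneD
  · obtain ⟨τ, hτ, hτ1, hnear⟩ := UBT973.near_slack hcont hcompact one_pos
    refine ⟨τ, hτ, fun lam N B => ⟨0, 2, by norm_num, fun X hX b hb a ps ha hN hps hs2 hl hz1 hz2
      hz3 hw hlev => ?_⟩⟩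
    obtain ⟨p, hp, -⟩ := hnear _ (fG_data (by linarith) hτ.le hb ha
      (fun p hp => ⟨(hps p hp).1, (hps p hp).2.1⟩) hl hz1 hz2 hz3 hw hlev).2.2
    have : p ∈ {q | fG Tf D5 q ≤ 0} := hp
    rw [h0] at this
    exact absurd this (Set.notMem_empty _)
  have hmem : ∀ {q : (Fin 5 ⊕ Fin 4 → ℝ) × (Kd → ℝ)}, fG Tf D5 q ≤ 0 → b5 q ∈ D5 := by
    intro q hq
    have h1 := (fG_le.1 hq).1.1
    have h2 : b5 q ∈ {q | Metric.infDist q D5 ≤ 0} := h1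
    rwa [infDist_zero hD.isClosed hne] at h2
  obtain ⟨σ, hσ, G⟩ := tmg_nearW (n := 5) hW (fun _ => 0) hDom hneD (fun q hq => by
      obtain ⟨⟨h1, h2, h3⟩, ⟨h4, h5⟩, ⟨h6, h7⟩, ⟨h8, h9⟩, ⟨h10, h11⟩, h12, h13⟩ := fG_le.1 hq
      simp only [neg_zero] at h2 h4 h6 h8 h10 h12
      refine ⟨fun i => ?_, fun t => ?_⟩
      · fin_cases i
        · exact h2
        · exact h4
        · exact h6
        · exact h8
      · cases t
        · exact h10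
        · exact h12) (EG_cont d hKf hℓ) (fun q hq => by
      have hb := hmem hq
      obtain ⟨⟨h1, h2, h3⟩, ⟨h4, h5⟩, ⟨h6, h7⟩, ⟨h8, h9⟩, ⟨h10, h11⟩, h12, h13⟩ := fG_le.1 hq
      simp only [neg_zero, add_zero] at h2 h3 h4 h5 h6 h7 h8 h9 h10 h11 h12 h13
      have e0 : q.2 .mo = 0 := le_antisymm h11 h10
      rw [e0]
      refine le_min ?_ ?_
      · exact hFE (b5 q) hb _ _ _ _ _ h2 h4 h5 h6 h7 h8 h9 h12 h13 h3
      · have := hA _ _ _ _ 0 _ h2 h4 h6 h8 le_rfl h12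
        rw [zero_add] at this
        exact this)
    hε
  obtain ⟨τ, hτ, hτ1, hnear⟩ := UBT973.near_slack hcont hcompact hσ
  refine ⟨min σ τ, lt_min hσ hτ, fun lam N B => ?_⟩
  obtain ⟨M, X₀, hX₀, H⟩ := G lam N B
  refine ⟨M, X₀, hX₀, fun X hX b hb a ps ha hN hps hs2 hl hz1 hz2 hz3 hw hlev K hK hs1 hpt => ?_⟩
  have hX1 : 1 < X := by linarith
  have hL : 0 < Real.log X := Real.log_pos hX1
  have hτ' : min σ τ ≤ τ := min_le_right _ _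
  have hmu : ∀ {c : ℝ}, (c + min σ τ) * Real.log X ≤ (c + τ) * Real.log X := fun {c} =>
    mul_le_mul_of_nonneg_right (by linarith) hL.le
  obtain ⟨hqb, q4, hf⟩ := fG_data hX1 hτ.le hb ha (fun p hp => ⟨(hps p hp).1, (hps p hp).2.1⟩) hl
    (hz1.trans hmu) (hz2.trans hmu) (hz3.trans hmu) (hw.trans hmu)
    (hlev.trans (sub_le_sub_right hmu _))
  obtain ⟨p, hp, hpd⟩ := hnear _ hf
  have key := H X hX (fun i => b i * Real.log X) a ps ha hN (fun p hp => ⟨(hps p hp).1, by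
      unfold Pcs.nl
      rw [div_le_iff₀ hL]
      exact (hps p hp).2.2.1.trans (mul_le_mul_of_nonneg_right (min_le_left _ _) hL.le)⟩) hs2
    (fun p hp => ⟨(hps p hp).2.2.2, (hps p hp).2.1⟩) ⟨p, hp, hpd.le⟩ K hK hs1 hpt
  unfold EG n5 at key
  rw [hqb] at key
  have e1 : ((S3e 5).ev X (fun i => b i * Real.log X, a), Dq.mass X ps).2 Kd.am =
    (ps.map fun p => p.z).sum / Real.log X := q4
  rw [e1, add_zero] at key
  exact key

/-! ### children -/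

/-- the functional at a list prime to `q` -/
def tq (Φ : Λ → ℝ → List Pq → ℝ) (lam : Λ) (q : Eis) (l : ℝ) (ps : List Pq) : ℝ :=
  Φ lam l (ps.map (Pq.tw q))

/-- the shape of a child of a parent near the region -/
lemma child_data {X τ B H r : ℝ} {N : ℕ} {b : Fin 5 → ℝ} {q : Eis} {us : Fin 3 → Pq}
    {gs : List Pq} {κ : ℝ} (hX : 1 < X) (hPD : PD X τ B H N b q us gs κ) (hr : 0 ≤ r) {g : Eis}
    (hg : IsPrim g) (hgB : (nm g : ℝ) ≤ X ^ B) {l : ℝ} {ps' : List Pq}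
    (hch : List.Forall₂ (ChN r) ps' ([us 0, us 1, us 2] ++ gs)) :
    ∃ (a : T3) (gs' : List Pq), a.l = l ∧ a.q = q * g ∧ ps' = a.mk' ++ gs' ∧ a.ok ∧
      gs'.length ≤ N ∧ (∀ p ∈ gs', p.kd = .am ∧ 0 ≤ p.z ∧ p.z ≤ τ * Real.log X + r ∧
        (nm p.d : ℝ) ≤ X ^ (|B| + |B|)) ∧ S3.s₂ a ≤ X ^ (|B| + |B|) ∧
      S3.s₁ a ≤ cN ps' ([us 0, us 1, us 2] ++ gs) * H ∧
      (∀ p ∈ gs', 1 + |p.t| ≤ cN ps' ([us 0, us 1, us 2] ++ gs) * H) ∧
      (∀ i, 0 ≤ (a.us i).z ∧ (a.us i).z ≤ (us i).z + r) ∧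
      0 ≤ LN gs' ∧ LN gs' ≤ LN gs + N * r ∧
      LN ps' = (a.us 0).z + (a.us 1).z + (a.us 2).z + LN gs' ∧
      1 ≤ cN ps' ([us 0, us 1, us 2] ++ gs) * H := by
  have hX0 : 0 < X := by linarith
  have hch0 := hch
  simp only [List.cons_append, List.nil_append] at hch
  obtain ⟨v0, l1, c0, hx1, rfl⟩ := List.forall₂_cons_right_iff.1 hch
  obtain ⟨v1, l2, c1, hx2, rfl⟩ := List.forall₂_cons_right_iff.1 hx1
  obtain ⟨v2, gs', c2, hx3, rfl⟩ := List.forall₂_cons_right_iff.1 hx2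
  have hqg : q * g ≠ 0 := mul_ne_zero hPD.q0 hg.ne_zero
  have hBB : X ^ B ≤ X ^ |B| := Real.rpow_le_rpow_of_exponent_le hX.le (le_abs_self B)
  have hB1 : 1 ≤ X ^ |B| := Real.one_le_rpow hX.le (abs_nonneg B)
  have hB2 : X ^ |B| ≤ X ^ (|B| + |B|) :=
    Real.rpow_le_rpow_of_exponent_le hX.le (by linarith [abs_nonneg B])
  have hBs : X ^ B ≤ X ^ (|B| + |B|) := hBB.trans hB2
  set K := cN (v0 :: v1 :: v2 :: gs') ([us 0, us 1, us 2] ++ gs) * H with hK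
  have hc1 := one_le_cN hch0
  have hK1 : 1 ≤ K := by
    have := hPD.H1
    nlinarith
  have hKt : ∀ p ∈ v0 :: v1 :: v2 :: gs', 1 + |p.t| ≤ K := by
    refine ht_child (by linarith [hPD.H1]) hch0 ?_
    intro p hp
    rcases List.mem_append.1 hp with hp | hp
    · simp only [List.mem_cons, List.not_mem_nil, or_false] at hp
      rcases hp with rfl | rfl | rfl <;> exact hPD.usH _
    · exact (hPD.am p hp).2.2.2.2
  have hgs' : ∀ p ∈ gs', p.kd = .am ∧ 0 ≤ p.z ∧ p.z ≤ τ * Real.log X + r ∧ (nm p.d : ℝ) ≤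
      X ^ (|B| + |B|) := by
    intro p hp
    obtain ⟨p₀, hp₀, hc⟩ := mem_child hx3 p hp
    obtain ⟨a1, a2, a3, a4, -⟩ := hPD.am p₀ hp₀
    exact ⟨hc.1.trans a1, hc.2.2.2.1, by linarith [hc.2.2.2.2], by rw [hc.2.1]; exact a4.trans hBs⟩
  have hLgs := LN_child hx3
  have hlen : gs'.length ≤ N := by rw [hx3.length_eq]; exact hPD.len
  have hw0 : 0 ≤ LN gs' := by
    unfold LN
    refine List.sum_nonneg fun x hx => ?_
    obtain ⟨p, hp, rfl⟩ := List.mem_map.1 hx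
    exact (hgs' p hp).2.1
  have hLN : LN (v0 :: v1 :: v2 :: gs') = v0.z + v1.z + v2.z + LN gs' := by
    unfold LN
    simp only [List.map_cons, List.sum_cons]
    ring
  set a : T3 := ⟨l, ![v0, v1, v2], q * g⟩ with ha
  have hmk : a.mk' = [v0, v1, v2] := rfl
  have haok : a.ok := by
    refine ⟨fun i => ?_, hqg⟩
    fin_cases i
    · exact ⟨⟨c0.1.trans (hPD.lump 0).1, c0.2.2.1 (hPD.lump 0).2⟩, c0.2.2.2.1⟩
    · exact ⟨⟨c1.1.trans (hPD.lump 1).1, c1.2.2.1 (hPD.lump 1).2⟩, c1.2.2.2.1⟩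
    · exact ⟨⟨c2.1.trans (hPD.lump 2).1, c2.2.2.1 (hPD.lump 2).2⟩, c2.2.2.2.1⟩
  have hs2 : S3.s₂ a ≤ X ^ (|B| + |B|) := by
    refine max_le ?_ ?_
    · show (nm (q * g) : ℝ) ≤ _
      rw [nm_mul, Real.rpow_add hX0]
      push_cast
      exact mul_le_mul (hPD.qB.trans hBB) (hgB.trans hBB) (Nat.cast_nonneg _) (by positivity)
    · rw [XT71.mx_le (hB1.trans hB2), hmk]
      intro p hp
      simp only [List.mem_cons, List.not_mem_nil, or_false] at hp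
      rcases hp with rfl | rfl | rfl
      · rw [Dq_s2, c0.2.1]; exact (hPD.usB 0).trans hBs
      · rw [Dq_s2, c1.2.1]; exact (hPD.usB 1).trans hBs
      · rw [Dq_s2, c2.2.1]; exact (hPD.usB 2).trans hBs
  have hs1 : S3.s₁ a ≤ K := by
    show mx Dq.s1 a.mk' ≤ K
    rw [XT71.mx_le hK1, hmk]
    intro p hp
    refine hKt p ?_
    simp only [List.mem_cons, List.not_mem_nil, or_false] at hp ⊢
    tauto
  refine ⟨a, gs', rfl, rfl, rfl, haok, hlen, hgs', hs2, hs1, fun p hp => hKt p (by simp [hp]),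
    fun i => ?_, hw0, ?_, hLN, hK1⟩
  · fin_cases i
    · exact ⟨c0.2.2.2.1, c0.2.2.2.2⟩
    · exact ⟨c1.2.2.2.1, c1.2.2.2.2⟩
    · exact ⟨c2.2.2.2.1, c2.2.2.2.2⟩
  · have h2 : (gs.length : ℝ) * r ≤ N * r :=
      mul_le_mul_of_nonneg_right (by exact_mod_cast hPD.len) hr
    linarith

/-- **the moments of the children** -/
theorem child_leG (hW : Wd Φ) (hA : AllT d (ex Dq Φ)) (hKf : Continuous Kf) (hTf : Continuous Tf)
    {D5 : Set (Fin 5 → ℝ)} (hD : IsCompact D5) {ℓ : (Fin 5 → ℝ) → ℝ} (hℓ : Continuous ℓ)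
    (hFE : FE2G (ex Dq Φ) D5 Kf Tf ℓ) {ε : ℝ} (hε : 0 < ε) :
    ∃ σ : ℝ, 0 < σ ∧ ∀ (lam : Λ) (N : ℕ) (B : ℝ), ∃ M : ℕ, ∀ r : ℝ, 0 ≤ r → ∃ X₀ : ℝ, 1 < X₀ ∧
      ∀ X : ℝ, X₀ ≤ X → ∀ b ∈ D5, ∀ (q : Eis) (us : Fin 3 → Pq) (gs : List Pq) (κ H : ℝ),
      PD X (σ / 2) B H N b q us gs κ → ∀ g : Eis, IsPrim g → (nm g : ℝ) ≤ X ^ B →
      ∀ (l : ℝ) (ps' : List Pq), 0 ≤ l →
      List.Forall₂ (ChN r) ps' ([us 0, us 1, us 2] ++ gs) →
      l + LN ps' ≤ (Tf b + (b 1 + b 2 + b 3 + b 4) + σ) * Real.log X →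
      ∃ z₁ z₂ z₃ w : ℝ, 0 ≤ z₁ ∧ 0 ≤ z₂ ∧ 0 ≤ z₃ ∧ 0 ≤ w ∧ z₁ ≤ (us 0).z + r ∧
        z₂ ≤ (us 1).z + r ∧ z₃ ≤ (us 2).z + r ∧ w ≤ LN gs + N * r ∧
        z₁ + z₂ + z₃ + w = LN ps' ∧
        tq Φ lam (q * g) l ps' ≤ (cN ps' ([us 0, us 1, us 2] ++ gs) * H) ^ M *
          Real.exp (min (eW (Real.log X * Kf b) l (LN ps') w + Real.log X * ℓ b)
            (tAll d l z₁ z₂ z₃ w) + ε * Real.log X) := by
  obtain ⟨σ, hσ, G⟩ := ne_nearG hW hA hKf hTf hD hℓ hFE hε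
  refine ⟨σ, hσ, fun lam N B => ?_⟩
  obtain ⟨M, X₀, hX₀, G1⟩ := G lam N (|B| + |B|)
  refine ⟨M, fun r hr => ⟨max X₀ (Real.exp (2 * ((N + 1) * r) / σ)),
    lt_of_lt_of_le hX₀ (le_max_left _ _), ?_⟩⟩
  intro X hX b hb q us gs κ H hPD g hg hgB l ps' hl hch hlev
  have hX0' : X₀ ≤ X := (le_max_left _ _).trans hX
  have hX1 : 1 < X := by linarith
  obtain ⟨a, gs', ha1, ha2, hps', haok, hlen, hgs', hs2, hs1, hKt, hz, hw0, hw, hLN, hK1⟩ :=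
    child_data (l := l) hX1 hPD hr hg hgB hch
  set L := Real.log X with hLd
  have hL : 0 < L := Real.log_pos hX1
  have hrL : (N + 1) * r ≤ σ / 2 * L := by
    have h1 : Real.exp (2 * ((N + 1) * r) / σ) ≤ X := (le_max_right _ _).trans hX
    have h2 : 2 * ((N + 1) * r) / σ ≤ L := by
      have := Real.log_le_log (Real.exp_pos _) h1
      rwa [Real.log_exp] at this
    rw [div_le_iff₀ hσ] at h2
    linarith
  have hN0 : (0 : ℝ) ≤ N := Nat.cast_nonneg N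
  have hr1 : r ≤ σ / 2 * L := by nlinarith
  have hNr : (N : ℝ) * r ≤ σ / 2 * L := by nlinarith
  have hzz : ∀ {y c z : ℝ}, z ≤ (c + σ / 2) * L → y ≤ z + r → y ≤ (c + σ) * L := by
    intro y c z h1 h2
    linarith
  have hx := hPD.x
  rw [← hLd] at hx
  have key := G1 X hX0' b hb a gs' haok hlen (fun p hp => ⟨(hgs' p hp).1, (hgs' p hp).2.1, by
      have := (hgs' p hp).2.2.1
      linarith, (hgs' p hp).2.2.2⟩) hs2 (by rw [ha1]; exact hl) (hzz hPD.z1 (hz 0).2)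
    (hzz hPD.z2 (hz 1).2) (hzz hPD.z3 (hz 2).2) (by
      show LN gs' ≤ _
      linarith) (by
      rw [hLN] at hlev
      rw [ha1]
      show l ≤ _ - ((a.us 0).z + (a.us 1).z + (a.us 2).z + LN gs')
      linarith) _ hK1 hs1 hKt
  refine ⟨(a.us 0).z, (a.us 1).z, (a.us 2).z, LN gs', (hz 0).1, (hz 1).1, (hz 2).1, hw0,
    (hz 0).2, (hz 1).2, (hz 2).2, hw, hLN.symm, ?_⟩
  rw [ha1, ha2, ← hps'] at key
  refine key.trans (le_of_eq ?_)
  congr 1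
  rw [rpow_exp hX1, ← hLd]
  congr 1
  have e0 : ∀ y : ℝ, L * (y / L) = y := fun y => by field_simp
  have e1 : L * eW (Kf b) (l / L) ((a.us 0).z / L + (a.us 1).z / L + (a.us 2).z / L +
      LN gs' / L) (LN gs' / L) = eW (L * Kf b) l (LN ps') (LN gs') := by
    rw [← eW_hom hL.le, e0, e0, hLN]
    congr 1
    rw [← add_div, ← add_div, ← add_div, e0]
  have e2 : L * tAll d (l / L) ((a.us 0).z / L) ((a.us 1).z / L) ((a.us 2).z / L)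
      (LN gs' / L) = tAll d l (a.us 0).z (a.us 1).z (a.us 2).z (LN gs') := by
    rw [← tAll_hom hL.le, e0, e0, e0, e0, e0]
  rw [← e1, ← e2, mul_add, mul_min_of_nonneg _ _ hL.le, mul_add]
  show _ = _ + ε * L
  rw [mul_comm ε L]
  rfl

/-- **the moments of the children, no condition on the level** : all coordinates of the parent
and the level at most `B₁` -/
theorem child_tAllG (hW : Wd Φ) (hA : AllT d (ex Dq Φ)) {B₁ : ℝ} (hB₁ : 0 ≤ B₁) {ε : ℝ}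
    (hε : 0 < ε) :
    ∃ σ : ℝ, 0 < σ ∧ ∀ (lam : Λ) (N : ℕ) (B : ℝ), ∃ M : ℕ, ∀ r : ℝ, 0 ≤ r → ∃ X₀ : ℝ, 1 < X₀ ∧
      ∀ X : ℝ, X₀ ≤ X → ∀ b : Fin 5 → ℝ, (∀ i, b i ≤ B₁) →
      ∀ (q : Eis) (us : Fin 3 → Pq) (gs : List Pq) (κ H : ℝ),
      PD X (σ / 2) B H N b q us gs κ → ∀ g : Eis, IsPrim g → (nm g : ℝ) ≤ X ^ B →
      ∀ (l : ℝ) (ps' : List Pq), 0 ≤ l → l ≤ B₁ * Real.log X →
      List.Forall₂ (ChN r) ps' ([us 0, us 1, us 2] ++ gs) →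
      ∃ z₁ z₂ z₃ w : ℝ, 0 ≤ z₁ ∧ 0 ≤ z₂ ∧ 0 ≤ z₃ ∧ 0 ≤ w ∧ z₁ ≤ (us 0).z + r ∧
        z₂ ≤ (us 1).z + r ∧ z₃ ≤ (us 2).z + r ∧ w ≤ LN gs + N * r ∧
        z₁ + z₂ + z₃ + w = LN ps' ∧
        tq Φ lam (q * g) l ps' ≤ (cN ps' ([us 0, us 1, us 2] ++ gs) * H) ^ M *
          Real.exp (tAll d l z₁ z₂ z₃ w + ε * Real.log X) := by
  obtain ⟨σ₀, hσ₀, G⟩ := box_near (B₁ := B₁ + 1) hW hA (by linarith) hε
  set σ := min σ₀ 1 with hσd
  have hσ : 0 < σ := lt_min hσ₀ one_pos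
  have hσ1 : σ ≤ 1 := min_le_right _ _
  have hσσ : σ ≤ σ₀ := min_le_left _ _
  refine ⟨σ, hσ, fun lam N B => ?_⟩
  obtain ⟨M, X₀, hX₀, G1⟩ := G lam N (|B| + |B|)
  refine ⟨M, fun r hr => ⟨max X₀ (Real.exp (2 * ((N + 1) * r) / σ)),
    lt_of_lt_of_le hX₀ (le_max_left _ _), ?_⟩⟩
  intro X hX b hb q us gs κ H hPD g hg hgB l ps' hl hlB hch
  have hX0' : X₀ ≤ X := (le_max_left _ _).trans hX
  have hX1 : 1 < X := by linarith
  obtain ⟨a, gs', ha1, ha2, hps', haok, hlen, hgs', hs2, hs1, hKt, hz, hw0, hw, hLN, hK1⟩ :=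
    child_data (l := l) hX1 hPD hr hg hgB hch
  set L := Real.log X with hLd
  have hL : 0 < L := Real.log_pos hX1
  have hrL : (N + 1) * r ≤ σ / 2 * L := by
    have h1 : Real.exp (2 * ((N + 1) * r) / σ) ≤ X := (le_max_right _ _).trans hX
    have h2 : 2 * ((N + 1) * r) / σ ≤ L := by
      have := Real.log_le_log (Real.exp_pos _) h1
      rwa [Real.log_exp] at this
    rw [div_le_iff₀ hσ] at h2
    linarith
  have hN0 : (0 : ℝ) ≤ N := Nat.cast_nonneg N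
  have hr1 : r ≤ σ / 2 * L := by nlinarith
  have hNr : (N : ℝ) * r ≤ σ / 2 * L := by nlinarith
  have hσL : σ * L ≤ L := by nlinarith
  have hσL' : σ * L ≤ σ₀ * L := mul_le_mul_of_nonneg_right hσσ hL.le
  have hx := hPD.x
  have hx1 := hPD.z1
  have hx2 := hPD.z2
  have hx3 := hPD.z3
  rw [← hLd] at hx hx1 hx2 hx3
  have hbL : ∀ i, b i * L ≤ B₁ * L := fun i => mul_le_mul_of_nonneg_right (hb i) hL.le
  have key := G1 X hX0' a gs' haok hlen (fun p hp => ⟨(hgs' p hp).1, (hgs' p hp).2.1, by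
      have := (hgs' p hp).2.2.1
      linarith, (hgs' p hp).2.2.2⟩) hs2 (by rw [ha1]; exact hl) (by rw [ha1]; linarith)
    (fun i => by
      fin_cases i
      · have := (hz 0).2
        have := hbL 1
        show (a.us 0).z ≤ _
        linarith
      · have := (hz 1).2
        have := hbL 2
        show (a.us 1).z ≤ _
        linarith
      · have := (hz 2).2
        have := hbL 3
        show (a.us 2).z ≤ _
        linarith) (by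
      show LN gs' ≤ _
      have := hbL 4
      linarith) _ hK1 hs1 hKt
  refine ⟨(a.us 0).z, (a.us 1).z, (a.us 2).z, LN gs', (hz 0).1, (hz 1).1, (hz 2).1, hw0,
    (hz 0).2, (hz 1).2, (hz 2).2, hw, hLN.symm, ?_⟩
  rw [ha1, ha2, ← hps'] at key
  refine key.trans (le_of_eq ?_)
  congr 1
  rw [rpow_exp hX1, ← hLd]
  congr 1
  have e0 : ∀ y : ℝ, L * (y / L) = y := fun y => by field_simp
  have e2 : L * tAll d (l / L) ((a.us 0).z / L) ((a.us 1).z / L) ((a.us 2).z / L)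
      (LN gs' / L) = tAll d l (a.us 0).z (a.us 1).z (a.us 2).z (LN gs') := by
    rw [← tAll_hom hL.le, e0, e0, e0, e0, e0]
  rw [← e2, mul_add]
  show _ = _ + ε * L
  rw [mul_comm ε L]
  rfl

/-- natural lists, class N -/
lemma tq_N {q : Eis} (hq : q ≠ 0) (lam : Λ) (l : ℝ) (ps : List Pq) :
    tq (fun lam => S0p (π lam) h) lam q l ps = SN q (π lam) h l ps :=
  (SN_eq_S0p hq _ _ _ _).symm

/-- **`child_tAll`** (helper440): class N -/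
theorem child_tAll {c₀ : ℝ} (hpu : PU h c₀) (hP : ∀ lam, (π lam).OK) {rr : EF}
    (R : ExpRules (7 / 8 + d) rr (ex Dq fun lam => Sp (π lam) h)) (hd : 0 ≤ d) (hd1 : d ≤ 1 / 8)
    {B₁ : ℝ} (hB₁ : 0 ≤ B₁) {ε : ℝ} (hε : 0 < ε) :
    ∃ σ : ℝ, 0 < σ ∧ ∀ (lam : Λ) (N : ℕ) (B : ℝ), ∃ M : ℕ, ∀ r : ℝ, 0 ≤ r → ∃ X₀ : ℝ, 1 < X₀ ∧
      ∀ X : ℝ, X₀ ≤ X → ∀ b : Fin 5 → ℝ, (∀ i, b i ≤ B₁) →
      ∀ (q : Eis) (us : Fin 3 → Pq) (gs : List Pq) (κ H : ℝ),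
      PD X (σ / 2) B H N b q us gs κ → ∀ g : Eis, IsPrim g → (nm g : ℝ) ≤ X ^ B →
      ∀ (l : ℝ) (ps' : List Pq), 0 ≤ l → l ≤ B₁ * Real.log X →
      List.Forall₂ (ChN r) ps' ([us 0, us 1, us 2] ++ gs) →
      ∃ z₁ z₂ z₃ w : ℝ, 0 ≤ z₁ ∧ 0 ≤ z₂ ∧ 0 ≤ z₃ ∧ 0 ≤ w ∧ z₁ ≤ (us 0).z + r ∧
        z₂ ≤ (us 1).z + r ∧ z₃ ≤ (us 2).z + r ∧ w ≤ LN gs + N * r ∧
        z₁ + z₂ + z₃ + w = LN ps' ∧
        SN (q * g) (π lam) h l ps' ≤ (cN ps' ([us 0, us 1, us 2] ++ gs) * H) ^ M *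
          Real.exp (tAll d l z₁ z₂ z₃ w + ε * Real.log X) := by
  obtain ⟨σ, hσ, G⟩ := child_tAllG (wd_N (π := π) hpu hP) (allT_N hpu hP R hd hd1) hB₁ hε
  refine ⟨σ, hσ, fun lam N B => ?_⟩
  obtain ⟨M, G1⟩ := G lam N B
  refine ⟨M, fun r hr => ?_⟩
  obtain ⟨X₀, hX₀, G2⟩ := G1 r hr
  refine ⟨X₀, hX₀, fun X hX b hb q us gs κ H hPD g hg hgB l ps' hl hlB hch => ?_⟩
  have key := G2 X hX b hb q us gs κ H hPD g hg hgB l ps' hl hlB hch
  rwa [tq_N (mul_ne_zero hPD.q0 hg.ne_zero)] at key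

end Crest.Agent.R017.TK708
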