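import Crest.Agent.R017.FNEf_708
import Crest.Agent.R017.FNEg_708

/-!
# Row 17, P1: the flat claims `FE2G` for any family and level bound (helper708), both classes

* `RF`           : the conditions on the parents (far part)
* `NearG`        : the near part, with all bounds of the child
* `FE2G_of_near` : **`FE2G` from the near part**
* `FE2G_far`     : parents with `N + min ≤ Kf b` (replaced lists): no near part
-/

set_option autoImplicit false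

noncomputable section

namespace Crest.Agent.R017.FN708

open Crest.Agent.R017.ER911 Crest.Agent.R017.SC777 Crest.Agent.R017.TM708
open Crest.Agent.R017.TK708 (FE2G)

variable {d : ℝ} {r s s₀ : EF} {Kf Tf : (Fin 5 → ℝ) → ℝ}

/-- the conditions on the parents -/
structure RF (Kf Tf : (Fin 5 → ℝ) → ℝ) (b : Fin 5 → ℝ) : Prop where
  k0 : 0 ≤ Kf b
  y1 : 0 ≤ b 1
  y2 : 0 ≤ b 2
  y3 : 0 ≤ b 3
  x0 : 0 ≤ b 4
  x36 : 36 * b 4 ≤ Kf b
  n5 : 5 * (b 1 + b 2 + b 3 + b 4) ≤ 4 * Kf b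
  vn : 12 * (Tf b + (b 1 + b 2 + b 3 + b 4)) ≤ 17 * Kf b

/-- the region of helper708's `R5`, `R5s` -/
lemma RF_of {b : Fin 5 → ℝ} (h5 : R5 b) (h5s : R5s b) : RF K5 T5 b := by
  obtain ⟨k0, y1, y2, y3, x0, hN', x1, adm⟩ := h5
  have hk1 : b 0 ≤ K5 b := le_max_left _ _
  have hk2 : 5 / 4 * (b 1 + b 2 + b 3) ≤ K5 b := le_max_right _ _
  have m1 := min_le_left (2 * (b 1 + b 2 + b 3) - b 0) (3 / 4 * (b 1 + b 2 + b 3))
  have m2 := min_le_right (2 * (b 1 + b 2 + b 3) - b 0) (3 / 4 * (b 1 + b 2 + b 3))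
  refine ⟨by linarith, y1, y2, y3, x0, by linarith, ?_, ?_⟩
  · rcases adm with h | ⟨h, -, -⟩ <;> linarith
  · unfold T5
    rcases h5s with h | h
    · linarith
    · linarith

/-- the smallest lump of the parent -/
def mnb (b : Fin 5 → ℝ) : ℝ := min (b 1) (min (b 2) (b 3))

/-- **the near part**: pure lists with `z₁ + z₂ + z₃ + min z > Kf b` -/
def NearG (s₀ : EF) (D5 : Set (Fin 5 → ℝ)) (Kf Tf ℓ : (Fin 5 → ℝ) → ℝ) : Prop :=
  ∀ b ∈ D5, ∀ v z₁ z₂ z₃ n : ℝ, 0 ≤ v → 0 ≤ z₃ → z₃ ≤ z₂ → z₂ ≤ z₁ → n = z₁ + z₂ + z₃ →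
    z₁ ≤ max (b 1) (max (b 2) (b 3)) → z₃ ≤ mnb b → z₁ + z₂ + z₃ ≤ b 1 + b 2 + b 3 →
    Kf b < n + z₃ → v ≤ Tf b + (b 1 + b 2 + b 3 + b 4 - n) →
    s₀ v {z₁, z₂, z₃} 0 0 ≤
      max (2 * n) (4 / 3 * n + (max (Kf b) (v + n / 2) + v) / 3) + ℓ b

lemma NearL.toG {D5 : Set (Fin 5 → ℝ)} {ℓ : (Fin 5 → ℝ) → ℝ} (H : NearL s₀ D5 ℓ) :
    NearG s₀ D5 K5 T5 ℓ := fun b hb v z₁ z₂ z₃ n h1 h2 h3 h4 h5 h6 _ h8 h9 h10 =>
  H b hb v z₁ z₂ z₃ n h1 h2 h3 h4 h5 h6 h8 h9 h10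

/-- **the flat claims from the near part** -/
theorem FE2G_of_near (R : ExpRules (7 / 8 + d) r s) (Rm : ExpRGFz (7 / 8 + d) r s s₀)
    (hd : 0 ≤ d) (hd8 : 8 * d ≤ 1) {D5 : Set (Fin 5 → ℝ)} (h5 : ∀ b ∈ D5, RF Kf Tf b)
    {ℓ : (Fin 5 → ℝ) → ℝ} (hℓ : ∀ b ∈ D5, 2 * d * (mnb b + b 4) ≤ ℓ b)
    (hN : NearG s₀ D5 Kf Tf ℓ) : FE2G s₀ D5 Kf Tf ℓ := by
  -- ordered children
  have main : ∀ b ∈ D5, ∀ v A B C w : ℝ, 0 ≤ v → 0 ≤ C → C ≤ B → B ≤ A → 0 ≤ w → w ≤ b 4 →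
      A ≤ max (b 1) (max (b 2) (b 3)) → C ≤ mnb b → A + B + C ≤ b 1 + b 2 + b 3 →
      v ≤ Tf b + (b 1 + b 2 + b 3 + b 4 - (A + B + C + w)) →
      s₀ v {A, B, C} 0 w ≤ eW (Kf b) v (A + B + C + w) w + ℓ b := by
    intro b hb v A B C w hv hC hCB hBA hw hw4 hA hCm hsum hlev
    have hR5 := h5 b hb
    have hℓb := hℓ b hb
    have hm0 : 0 ≤ mnb b := le_min hR5.y1 (le_min hR5.y2 hR5.y3)
    have hd0 : 0 ≤ 2 * d * (mnb b + b 4) :=
      mul_nonneg (by linarith) (by linarith [hR5.x0])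
    rcases lt_or_ge ((A + B + C + w) + max (Kf b) (3 / 2 * v)) (2 * v) with hsh | hsh
    · have h1 := le_max_right (Kf b) (3 / 2 * v)
      have h2 := short_le R Rm.toExpS0 (z₁ := A) (z₂ := B) (z₃ := C) (w := w) hv
        (by linarith) (by linarith) hC hw (by linarith)
      have h3 : v + (A + B + C + w) ≤ eW (Kf b) v (A + B + C + w) w := le_max_right _ _
      linarith
    rcases le_or_gt (A + B + 2 * C) (max (Kf b) (3 / 2 * v)) with hfar | hnear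
    · have hf : Far (max (Kf b) (3 / 2 * v)) v (A + B + C + w) A B C w := by
        obtain ⟨k0, y1, y2, y3, x0, x36, n5, vn⟩ := hR5
        have hK1 := le_max_left (Kf b) (3 / 2 * v)
        have hK2 := le_max_right (Kf b) (3 / 2 * v)
        exact ⟨by linarith, hv, hC, by linarith, hCB, hw, by linarith, hfar, rfl, by linarith,
          by linarith, by linarith⟩
      have h1 := far3 R Rm hd hd8 (m := 0) (a := w) (by rw [zero_add]; exact hf) le_rfl hw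
        (by linarith)
      have h2 : 2 * d * (C + 0 + w) ≤ 2 * d * (mnb b + b 4) :=
        mul_le_mul_of_nonneg_left (by linarith) (by linarith)
      have h3 : 4 / 3 * (A + B + C + w) + (max (Kf b) (3 / 2 * v) + v) / 3 ≤
          eW (Kf b) v (A + B + C + w) w :=
        ((le_max_right _ _).trans (le_max_left _ _)).trans (eH_le_eW _ _ _ _)
      linarith
    · have hk0 : Kf b < A + B + 2 * C := lt_of_le_of_lt (le_max_left _ _) hnear
      have hcau := Rm.toExpS0.cau v {A, B, C} 0 w 0 w hv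
        (ok3 (by linarith) (by linarith) hC le_rfl hw) le_rfl le_rfl hw le_rfl
      rw [sub_zero, sub_self, zero_add] at hcau
      have hnl := hN b hb (v + w) A B C (A + B + C) (by linarith) hC hCB hBA rfl hA hCm hsum
        (by linarith) (by linarith)
      have h4 : max (2 * (A + B + C)) (4 / 3 * (A + B + C) +
          (max (Kf b) (v + w + (A + B + C) / 2) + (v + w)) / 3) + w ≤
          eW (Kf b) v (A + B + C + w) w := by
        obtain ⟨κ, hκ⟩ : ∃ κ, κ = kW (Kf b) v (A + B + C + w) w := ⟨_, rfl⟩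
        have hκ' : max (Kf b) (v + w + (A + B + C) / 2) = κ := by
          rw [hκ, kW]
          congr 1
          ring
        have g1 : 2 * (A + B + C + w) ≤ eW (Kf b) v (A + B + C + w) w :=
          (le_max_left _ _).trans (le_max_left _ _)
        have g2 : 4 / 3 * (A + B + C + w) + (max κ (3 / 2 * v) + v) / 3 ≤
          eW (Kf b) v (A + B + C + w) w := by
          rw [hκ]
          exact (le_max_right _ _).trans (le_max_left _ _)
        have g3 := le_max_left κ (3 / 2 * v)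
        rw [hκ']
        rcases max_cases (2 * (A + B + C)) (4 / 3 * (A + B + C) + (κ + (v + w)) / 3) with
          ⟨h, -⟩ | ⟨h, -⟩ <;> rw [h] <;> linarith
      linarith
  intro b hb v z₁ z₂ z₃ w hv h10 h11 h20 h21 h30 h31 hw hw4 hlev
  have m1 : z₁ ≤ max (b 1) (max (b 2) (b 3)) := h11.trans (le_max_left _ _)
  have m2 : z₂ ≤ max (b 1) (max (b 2) (b 3)) := h21.trans ((le_max_left _ _).trans
    (le_max_right _ _))
  have m3 : z₃ ≤ max (b 1) (max (b 2) (b 3)) := h31.trans ((le_max_right _ _).trans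
    (le_max_right _ _))
  have conv : ∀ A B C : ℝ, ({A, B, C} : Multiset ℝ) = {z₁, z₂, z₃} → 0 ≤ C → C ≤ B → B ≤ A →
      C ≤ z₁ → C ≤ z₂ → C ≤ z₃ →
      A ≤ max (b 1) (max (b 2) (b 3)) → A + B + C = z₁ + z₂ + z₃ →
      s₀ v {z₁, z₂, z₃} 0 w ≤ eW (Kf b) v (z₁ + z₂ + z₃ + w) w + ℓ b := by
    intro A B C he hC hCB hBA c1 c2 c3 hA hs
    have := main b hb v A B C w hv hC hCB hBA hw hw4 hA
      (le_min (c1.trans h11) (le_min (c2.trans h21) (c3.trans h31))) (by linarith)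
      (by rw [hs]; exact hlev)
    rwa [he, hs] at this
  rcases le_total z₁ z₂ with a | a
  · rcases le_total z₂ z₃ with a' | a'
    · exact conv z₃ z₂ z₁ (by rw [sw1 z₃ z₂ z₁, sw2 z₂ z₃ z₁, sw1 z₂ z₁ z₃])
        h10 a a' le_rfl a (a.trans a') m3 (by ring)
    · rcases le_total z₁ z₃ with a'' | a''
      · exact conv z₂ z₃ z₁ (by rw [sw2 z₂ z₃ z₁, sw1 z₂ z₁ z₃]) h10 a'' a' le_rfl a a'' m2
          (by ring)
      · exact conv z₂ z₁ z₃ (sw1 z₂ z₁ z₃) h30 a'' a a'' a' le_rfl m2 (by ring)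
  · rcases le_total z₁ z₃ with a' | a'
    · exact conv z₃ z₁ z₂ (by rw [sw1 z₃ z₁ z₂, sw2 z₁ z₃ z₂]) h20 a a' a le_rfl (a.trans a') m3
        (by ring)
    · rcases le_total z₂ z₃ with a'' | a''
      · exact conv z₁ z₃ z₂ (sw2 z₁ z₃ z₂) h20 a'' a' a le_rfl a'' m1 (by ring)
      · exact conv z₁ z₂ z₃ rfl h30 a'' a a' a'' le_rfl m1 rfl

/-- **no near part** : `N + min ≤ Kf b` (replaced lists `{y₁ + y₂ - δ, δ, y₃ | x}`) -/
theorem FE2G_far (R : ExpRules (7 / 8 + d) r s) (Rm : ExpRGFz (7 / 8 + d) r s s₀)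
    (hd : 0 ≤ d) (hd8 : 8 * d ≤ 1) {D5 : Set (Fin 5 → ℝ)} (h5 : ∀ b ∈ D5, RF Kf Tf b)
    {ℓ : (Fin 5 → ℝ) → ℝ} (hℓ : ∀ b ∈ D5, 2 * d * (mnb b + b 4) ≤ ℓ b)
    (hm : ∀ b ∈ D5, b 1 + b 2 + b 3 + mnb b ≤ Kf b) : FE2G s₀ D5 Kf Tf ℓ :=
  FE2G_of_near R Rm hd hd8 h5 hℓ fun b hb v z₁ z₂ z₃ n _ _ _ _ hn _ h7 h8 h9 _ => by
    have := hm b hb
    exact absurd h9 (by linarith)

/-- union of regions -/
theorem FE2G.union {D5 D5' : Set (Fin 5 → ℝ)} {ℓ : (Fin 5 → ℝ) → ℝ}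
    (H : FE2G s₀ D5 Kf Tf ℓ) (H' : FE2G s₀ D5' Kf Tf ℓ) : FE2G s₀ (D5 ∪ D5') Kf Tf ℓ :=
  fun b hb => hb.elim (fun h => H b h) fun h => H' b h

end Crest.Agent.R017.FN708
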