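import Crest.Agent.R017.NEh_73

/-!
# Row 17, R8 / P1: the flat claims of pure lists at their own family (helper708)

* `own_far`  : `n + min z ≤ K` : slope form
* `own_near` : `n + min z > K` : flat form, from 73's field
* `own_all`  : both, any order of the lumps
-/

set_option autoImplicit false

noncomputable section

namespace Crest.Agent.R017.FN708

open Crest.Agent.R017.ER911 Crest.Agent.R017.SC777 Crest.Agent.R017.NE73

variable {d : ℝ} {r s s₀ : EF}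

/-- sorting of three lumps -/
lemma sort3 (z₁ z₂ z₃ : ℝ) : ∃ A B C : ℝ, ({A, B, C} : Multiset ℝ) = {z₁, z₂, z₃} ∧
    A + B + C = z₁ + z₂ + z₃ ∧ C ≤ B ∧ B ≤ A ∧ C = mn z₁ z₂ z₃ ∧
    A = max z₁ (max z₂ z₃) := by
  rcases le_total z₁ z₂ with h12 | h12 <;> rcases le_total z₂ z₃ with h23 | h23 <;>
    rcases le_total z₁ z₃ with h13 | h13
  · refine ⟨z₃, z₂, z₁, ?_, by ring, h12, h23, ?_, ?_⟩
    · rw [sw1 z₁ z₂ z₃, ← cyc3 z₃ z₂ z₁, sw1 z₃ z₂ z₁]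
    · rw [mn, min_eq_left (le_min h12 h13)]
    · rw [max_eq_right h23, max_eq_right h13]
  · have e1 : z₁ = z₂ := by linarith
    have e2 : z₂ = z₃ := by linarith
    subst e1; subst e2
    exact ⟨z₁, z₁, z₁, rfl, rfl, le_rfl, le_rfl, by simp [mn], by simp⟩
  · refine ⟨z₂, z₃, z₁, (cyc3 z₁ z₂ z₃).symm, by ring, h13, h23, ?_, ?_⟩
    · rw [mn, min_eq_left (le_min h12 h13)]
    · rw [max_eq_left h23, max_eq_right h12]
  · refine ⟨z₂, z₁, z₃, sw1 z₂ z₁ z₃, by ring, h13, h12, ?_, ?_⟩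
    · rw [mn, min_eq_right h23, min_eq_right h13]
    · rw [max_eq_left h23, max_eq_right h12]
  · refine ⟨z₃, z₁, z₂, ?_, by ring, h12, h13, ?_, ?_⟩
    · rw [cyc3 z₃ z₁ z₂]
    · rw [mn, min_eq_left h23, min_eq_right h12]
    · rw [max_eq_right h23, max_eq_right h13]
  · refine ⟨z₁, z₃, z₂, (sw2 z₁ z₂ z₃).symm, by ring, h23, h13, ?_, ?_⟩
    · rw [mn, min_eq_left h23, min_eq_right h12]
    · rw [max_eq_right h23, max_eq_left h13]
  · have e1 : z₁ = z₂ := by linarith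
    have e2 : z₂ = z₃ := by linarith
    subst e1; subst e2
    exact ⟨z₁, z₁, z₁, rfl, rfl, le_rfl, le_rfl, by simp [mn], by simp⟩
  · refine ⟨z₁, z₂, z₃, rfl, rfl, h23, h12, ?_, ?_⟩
    · rw [mn, min_eq_right h23, min_eq_right h13]
    · rw [max_eq_left h23, max_eq_left h12]

/-- **far lists at any family** -/
theorem own_far (R : ExpRules (7 / 8 + d) r s) (Rm : ExpRGFz (7 / 8 + d) r s s₀) (hd : 0 ≤ d)
    (hd8 : 8 * d ≤ 1) {K v z₁ z₂ z₃ n : ℝ} (hv : 0 ≤ v) (h1 : 0 ≤ z₁) (h2 : 0 ≤ z₂) (h3 : 0 ≤ z₃)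
    (hn : n = z₁ + z₂ + z₃) (h5n : 5 * n ≤ 4 * K) (hvn : 12 * (v + n) ≤ 17 * K)
    (h3v : 3 * v ≤ 2 * K) (hm : n + mn z₁ z₂ z₃ ≤ K) :
    s₀ v {z₁, z₂, z₃} 0 0 ≤ max (4 / 3 * n + (K + v) / 3) (v + n) + 2 * d * mn z₁ z₂ z₃ := by
  obtain ⟨A, B, C, he, hs, hCB, hBA, hC, -⟩ := sort3 z₁ z₂ z₃
  have hC0 : 0 ≤ C := by rw [hC, mn]; exact le_min h1 (le_min h2 h3)
  rw [← he]
  rcases le_total (2 * v) (n + K) with h2v | h2v
  · have hf : Far K v n A B C (0 + 0) := by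
      refine ⟨by linarith, hv, hC0, by linarith, hCB, by norm_num, by linarith, by linarith,
        by linarith, h5n, hvn, h3v⟩
    have := far3 R Rm hd hd8 hf le_rfl le_rfl h2v
    have h := le_max_left (4 / 3 * n + (K + v) / 3) (v + n)
    rw [← hC]
    linarith
  · have := short_le R Rm.toExpS0 (v := v) (z₁ := A) (z₂ := B) (z₃ := C) (w := 0) hv
      (by linarith) (by linarith) hC0 le_rfl (by linarith)
    have h := le_max_right (4 / 3 * n + (K + v) / 3) (v + n)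
    have h' : 0 ≤ 2 * d * mn z₁ z₂ z₃ := by rw [← hC]; positivity
    linarith

/-- **near lists at their own family** (literal form of 792 #30561) -/
theorem own_near (R : ExpRules (7 / 8 + d) r s) (Rm : ExpRGFz (7 / 8 + d) r s s₀) (hd : 0 ≤ d)
    (hd8 : 8 * d ≤ 1)
    (hG : ∀ κ S y₁ y₂ y₃ : ℝ, NearDom κ S y₁ y₂ y₃ → NEF s₀ κ S y₁ y₂ y₃ (2 * d * y₃))
    {K v z₁ z₂ z₃ n : ℝ} (hv : 0 ≤ v) (h1 : 0 ≤ z₁) (h2 : 0 ≤ z₂) (h3 : 0 ≤ z₃)
    (hn : n = z₁ + z₂ + z₃) (h5n : 5 * n ≤ 4 * K) (hkv : v + n / 2 ≤ K)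
    (h3v : 3 * v ≤ 2 * K) (hm : K < n + mn z₁ z₂ z₃)
    (hy : 200 * max z₁ (max z₂ z₃) ≤ 61 * K) :
    s₀ v {z₁, z₂, z₃} 0 0 ≤ max (2 * n) (4 / 3 * n + (K + v) / 3) + 2 * d * mn z₁ z₂ z₃ := by
  obtain ⟨A, B, C, he, hs, hCB, hBA, hC, hA⟩ := sort3 z₁ z₂ z₃
  have hC0 : 0 ≤ C := by rw [hC, mn]; exact le_min h1 (le_min h2 h3)
  rw [← he, ← hC]
  rw [← hC] at hm
  rw [← hA] at hy
  have hκ : 0 < K := by linarith
  obtain ⟨S, hS⟩ : ∃ S, S = max (v + n) (3 * n - K) := ⟨_, rfl⟩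
  have hS1 : v + n ≤ S := hS ▸ le_max_left _ _
  have hS2 : 3 * n - K ≤ S := hS ▸ le_max_right _ _
  have hdom : NearDom K S A B C := by
    refine ⟨hκ, hC0, hCB, hBA, by linarith, by linarith, by linarith, by linarith, ?_⟩
    rcases max_cases (v + n) (3 * n - K) with ⟨h, -⟩ | ⟨h, -⟩ <;> rw [hS, h] <;> linarith
  have hF0 : 0 ≤ 2 * d * C := by positivity
  have h := near_fin hκ hF0 (by linarith [hdom.S2]) hdom.S1 hdom.n5 (farH_of R Rm hd hd8 hdom)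
    (shH_of R Rm.toExpS0) (hG _ _ _ _ _ hdom) (by linarith : 0 ≤ A) le_rfl (by linarith : 0 ≤ B)
    le_rfl hC0 le_rfl hv (by linarith) (by linarith) (by linarith) (by linarith)
  rw [← hn.trans hs.symm] at h
  have h3 : flK K v n ≤ max (2 * n) (4 / 3 * n + (K + v) / 3) := by
    unfold flK
    rcases max_cases 0 ((v + K - 2 * n) / 3) with ⟨h, -⟩ | ⟨h, -⟩ <;> rw [h]
    · rw [add_zero]
      exact le_max_left _ _
    · exact (le_of_eq (by ring)).trans (le_max_right _ _)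
  linarith

/-- **all pure lists at their own family** -/
theorem own_all (R : ExpRules (7 / 8 + d) r s) (Rm : ExpRGFz (7 / 8 + d) r s s₀) (hd : 0 ≤ d)
    (hd8 : 8 * d ≤ 1)
    (hG : ∀ κ S y₁ y₂ y₃ : ℝ, NearDom κ S y₁ y₂ y₃ → NEF s₀ κ S y₁ y₂ y₃ (2 * d * y₃))
    {K v z₁ z₂ z₃ n : ℝ} (hv : 0 ≤ v) (h1 : 0 ≤ z₁) (h2 : 0 ≤ z₂) (h3 : 0 ≤ z₃)
    (hn : n = z₁ + z₂ + z₃) (h5n : 5 * n ≤ 4 * K) (hkv : v + n / 2 ≤ K)
    (h3v : 3 * v ≤ 2 * K)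
    (hy : K < n + mn z₁ z₂ z₃ → 200 * max z₁ (max z₂ z₃) ≤ 61 * K) :
    s₀ v {z₁, z₂, z₃} 0 0 ≤ max (max (2 * n) (4 / 3 * n + (K + v) / 3)) (v + n) +
      2 * d * mn z₁ z₂ z₃ := by
  rcases le_or_gt (n + mn z₁ z₂ z₃) K with hm | hm
  · refine (own_far R Rm hd hd8 hv h1 h2 h3 hn h5n (by linarith) h3v hm).trans ?_
    exact add_le_add (max_le_max (le_max_right _ _) le_rfl) le_rfl
  · refine (own_near R Rm hd hd8 hG hv h1 h2 h3 hn h5n hkv h3v hm (hy hm)).trans ?_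
    exact add_le_add (le_max_left _ _) le_rfl

end Crest.Agent.R017.FN708
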