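import Crest.Agent.R017.NEf_73

/-!
# Row 17, R8 / P1X: the flat claims of the near-equal triple, exceptional class (helper911),
exponent side

* `ExpNEx`    : the field of the recursion for near-equal lists, exceptional class; `d₀` = the short
  lump of the replaced list `{z₁ + z₂ - d₀, d₀, z₃}`
* `near_desx` : descent in the family, step `c`; the replaced list is far at `d₀ = K - n - 4 c`
* `near_finx` : the flat claims at the family `κ`, arbitrarily small steps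
-/

set_option autoImplicit false

noncomputable section

namespace Crest.Agent.R017.NEx911

open Crest.Agent.R017.ER911 Crest.Agent.R017.NE73
open Crest.Agent.R017.SC777 (sh3)

/-- **the premises for the sub-lists of the replaced list** (all of them far) : slope form without
loss, slope form (with `u`), side conditions -/
structure PremR (c g : ℝ) (s₀ : EF) (Q : ℝ → ℝ → Multiset ℝ → ℝ → ℝ → ℝ → Prop)
    (K v n F : ℝ) (Y : Multiset ℝ) : Prop where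
  pS0 : ∀ (Y' : Multiset ℝ) (n' v' : ℝ), Sh Y' Y → n' = Y'.sum → n - n' ≤ g + c → 0 ≤ v' →
    v' ≤ v + (n - n') → s₀ v' Y' 0 0 ≤ 4 / 3 * n' + (v' + K) / 3 + F
  pJ : ∀ (Y' : Multiset ℝ) (n' v' w u : ℝ), Sh Y' Y → n' = Y'.sum → g ≤ n - n' → 0 ≤ v' →
    0 ≤ w → 3 * w = (n - n') - (v' - v) → u = (n - n') - w - g →
    s₀ v' Y' 0 0 ≤ 4 / 3 * n' + (v' + K) / 3 + max 0 u + F
  pR : ∀ (Y' : Multiset ℝ) (n' v' : ℝ), Sh Y' Y → n' = Y'.sum → n - n' ≤ g + c → 0 ≤ v' →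
    v' ≤ v + (n - n') → Q K v' Y' 0 0 (flK K v' n' + F)

/-- **the field of the exceptional class** : `{z₁, z₂, z₃}` and the replaced list
`{z₁ + z₂ - d₀, d₀, z₃}`; the bias is `2/3 v + 5/3 n - d₀`, at a dilation `g` the gain is `d₀ - g`;
`e₁` = room for the powers of `E0` -/
structure ExpNEx (c e₁ : ℝ) (s₀ : EF) (Q : ℝ → ℝ → Multiset ℝ → ℝ → ℝ → ℝ → Prop) : Prop where
  nex : ∀ K v z₁ z₂ z₃ n g F F₃ d₀ : ℝ, 0 ≤ z₁ → 0 ≤ z₂ → 0 ≤ z₃ → n = z₁ + z₂ + z₃ →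
    NumNE c K v n g F F₃ → 0 ≤ d₀ → d₀ + 2 * c ≤ z₁ → d₀ + 2 * c ≤ z₂ →
    n + d₀ ≤ K → (v + n - K) / 3 + g + 30 * c ≤ d₀ → (v + n - K) / 3 + e₁ * K ≤ d₀ →
    PremNE c (c / 3) g F₃ s₀ Q K v n F {z₁, z₂, z₃} →
    PremR c g s₀ Q K v n F {z₁ + z₂ - d₀, d₀, z₃} →
    ∀ v' : ℝ, 0 ≤ v' → v' ≤ v → s₀ v' {z₁, z₂, z₃} 0 0 ≤ 2 * n + F + max 0 ((v' + K - 2 * n) / 3)

/-- the field of class N is a field of the exceptional class -/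
theorem ExpNEx.of_ne {c e₁ : ℝ} {s₀ : EF} {Q : ℝ → ℝ → Multiset ℝ → ℝ → ℝ → ℝ → Prop}
    (G : ExpNE c s₀ Q) : ExpNEx c e₁ s₀ Q where
  nex := fun K v z₁ z₂ z₃ n g F F₃ _ h1 h2 h3 hn hN _ _ _ _ _ _ hP _ =>
    G.ne K v z₁ z₂ z₃ n g F F₃ h1 h2 h3 hn hN hP

/-- **far lists** of length `≤ N` : slope form at every family `K ≥ κ` with
`n + min z ≤ K`, `v + n ≤ S`, `3 v ≤ 2 K`, `2 v ≤ n + K` -/
def FarG (s₀ : EF) (κ S N F : ℝ) : Prop :=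
  ∀ K v z₁ z₂ z₃ : ℝ, κ ≤ K → 0 ≤ z₁ → 0 ≤ z₂ → 0 ≤ z₃ → z₁ + z₂ + z₃ ≤ N →
    z₁ + z₂ + z₃ + mn z₁ z₂ z₃ ≤ K → 0 ≤ v → v + (z₁ + z₂ + z₃) ≤ S → 3 * v ≤ 2 * K →
    2 * v ≤ z₁ + z₂ + z₃ + K →
    s₀ v {z₁, z₂, z₃} 0 0 ≤ 4 / 3 * (z₁ + z₂ + z₃) + (v + K) / 3 + F

/-- the side conditions for the replaced lists (sub-lists of `{z₁ + z₂ - d₀, d₀, z₃}`) -/
def QHr (Q : ℝ → ℝ → Multiset ℝ → ℝ → ℝ → ℝ → Prop) (c κ S N y₃ F : ℝ) : Prop :=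
  ∀ K v x₁ x₂ x₃ : ℝ, κ ≤ K → 0 ≤ x₁ → 0 ≤ x₂ → 0 ≤ x₃ → x₃ ≤ y₃ → x₁ + x₂ + x₃ ≤ N →
    x₁ + x₂ + x₃ + x₂ ≤ K → 3 * K ≤ 4 * (x₁ + x₂ + x₃) + 10 * c → 0 ≤ v →
    v + (x₁ + x₂ + x₃) ≤ S → 3 * v ≤ 2 * K →
    Q K v {x₁, x₂, x₃} 0 0 (flK K v (x₁ + x₂ + x₃) + F)

/-- the premises for a list all of whose sub-lists are far -/
lemma prem_far {c g : ℝ} {s₀ : EF} {Q : ℝ → ℝ → Multiset ℝ → ℝ → ℝ → ℝ → Prop}
    {κ S N F₀ F K v n x₁ x₂ x₃ : ℝ} (hc : 0 < c) (hg0 : 0 ≤ g)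
    (hF : F₀ ≤ F) (hF0 : 0 ≤ F₀)
    (hfar : FarG s₀ κ S N F₀) (hsh : ShH s₀) (hκ : κ ≤ K) (_h1 : 0 ≤ x₁) (h2 : 0 ≤ x₂) (_h3 : 0 ≤ x₃)
    (hn : n = x₁ + x₂ + x₃) (hnN : n ≤ N) (hd : n + x₂ ≤ K) (hvS : v + n ≤ S)
    (hvg : 3 * (v + g) + 100 * c ≤ 2 * K) (htop : K ≤ n + v) (hS : 5 * S ≤ 7 * K)
    (hg : g = n - 3 / 4 * K + c)
    (hQ : ∀ v' x₁' x₂' x₃' : ℝ, 0 ≤ x₁' → x₁' ≤ x₁ → 0 ≤ x₂' → x₂' ≤ x₂ → 0 ≤ x₃' → x₃' ≤ x₃ →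
      n - (x₁' + x₂' + x₃') ≤ g + c → 0 ≤ v' → v' ≤ v + (n - (x₁' + x₂' + x₃')) →
      Q K v' {x₁', x₂', x₃'} 0 0 (flK K v' (x₁' + x₂' + x₃') + F)) :
    PremR c g s₀ Q K v n F {x₁, x₂, x₃} := by
  have sub : ∀ (Y' : Multiset ℝ) (n' : ℝ), Sh Y' {x₁, x₂, x₃} → n' = Y'.sum →
      ∃ a₁ a₂ a₃ : ℝ, Y' = {a₁, a₂, a₃} ∧ 0 ≤ a₁ ∧ a₁ ≤ x₁ ∧ 0 ≤ a₂ ∧ a₂ ≤ x₂ ∧ 0 ≤ a₃ ∧
        a₃ ≤ x₃ ∧ n' = a₁ + a₂ + a₃ := by
    intro Y' n' hY hn'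
    obtain ⟨a₁, a₂, a₃, rfl, t1, t2, t3, t4, t5, t6⟩ := sh3 hY
    rw [sum3'] at hn'
    exact ⟨a₁, a₂, a₃, rfl, t1, t2, t3, t4, t5, t6, hn'⟩
  constructor
  · intro Y' n' v' hY hn' hb hv' hvb
    obtain ⟨a₁, a₂, a₃, rfl, t1, t2, t3, t4, t5, t6, rfl⟩ := sub Y' n' hY hn'
    have hm2 := mn_le2 a₁ a₂ a₃
    have := hfar K v' a₁ a₂ a₃ hκ t1 t3 t5 (by linarith) (by linarith) hv' (by linarith)
      (by linarith) (by linarith)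
    linarith
  · intro Y' n' v' w u hY hn' hb hv' hw hwv hu
    obtain ⟨a₁, a₂, a₃, rfl, t1, t2, t3, t4, t5, t6, rfl⟩ := sub Y' n' hY hn'
    have hm2 := mn_le2 a₁ a₂ a₃
    have hu0 := le_max_left 0 u
    have hu1 := le_max_right 0 u
    obtain ⟨K₂, hK₂⟩ : ∃ K₂, K₂ = max K (3 / 2 * v') := ⟨_, rfl⟩
    have k1 : K ≤ K₂ := hK₂ ▸ le_max_left _ _
    have k2 : 3 / 2 * v' ≤ K₂ := hK₂ ▸ le_max_right _ _
    rcases lt_or_ge (a₁ + a₂ + a₃ + K₂) (2 * v') with hs | hs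
    · have := hsh v' a₁ a₂ a₃ hv' t1 t3 t5 (by linarith)
      linarith
    have := hfar K₂ v' a₁ a₂ a₃ (by linarith) t1 t3 t5 (by linarith) (by linarith) hv'
      (by linarith) (by linarith) hs
    rcases max_cases K (3 / 2 * v') with ⟨h, _⟩ | ⟨h, _⟩ <;> rw [h] at hK₂ <;> linarith
  · intro Y' n' v' hY hn' hb hv' hvb
    obtain ⟨a₁, a₂, a₃, rfl, t1, t2, t3, t4, t5, t6, rfl⟩ := sub Y' n' hY hn'
    exact hQ v' a₁ a₂ a₃ t1 t2 t3 t4 t5 t6 hb hv' hvb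

/-- **descent in the family**, `κ₁ = κ + 100 c` -/
theorem near_desx {c e₁ : ℝ} (hc : 0 < c) {s₀ : EF}
    {Q : ℝ → ℝ → Multiset ℝ → ℝ → ℝ → ℝ → Prop}
    (G : ExpNEx c e₁ s₀ Q) {κ S y₁ y₂ y₃ F₀ F : ℝ} (hκ : 1000000 * c ≤ κ) (hκ0 : 0 < κ)
    (he₁ : 20 * e₁ ≤ 1)
    (hF0 : 0 ≤ F₀)
    (hF : F₀ + 100 * c ≤ F) (hS : 5 * S ≤ 7 * κ) (hSn : 3 * (y₁ + y₂ + y₃) - κ ≤ S)
    (hN : 5 * (y₁ + y₂ + y₃) ≤ 4 * κ)
    (hfar : FarG s₀ κ S (y₁ + y₂ + y₃) F₀) (hsh : ShH s₀)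
    (hQ : QH Q c (κ + 100 * c) S y₁ y₂ y₃ F)
    (hQr : QHr Q c (κ + 100 * c) S (y₁ + y₂ + y₃) y₃ F) (k : ℕ) :
    ∀ K v z₁ z₂ z₃ : ℝ, κ + 100 * c ≤ K → 0 ≤ z₁ → z₁ ≤ y₁ → 0 ≤ z₂ → z₂ ≤ y₂ → 0 ≤ z₃ →
      z₃ ≤ y₃ → 0 ≤ v → v + (z₁ + z₂ + z₃) ≤ S → 3 * v ≤ 2 * K →
      2 * v ≤ z₁ + z₂ + z₃ + K → z₁ + z₂ + z₃ + mn z₁ z₂ z₃ ≤ K + k * c →
      s₀ v {z₁, z₂, z₃} 0 0 ≤ flK K v (z₁ + z₂ + z₃) + F := by
  induction k with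
  | zero =>
    intro K v z₁ z₂ z₃ hK p1 q1 p2 q2 p3 q3 hv hvS h3v h2v hk
    simp only [Nat.cast_zero, zero_mul, add_zero] at hk
    have := hfar K v z₁ z₂ z₃ (by linarith) p1 p2 p3 (by linarith) hk hv hvS h3v h2v
    have := slope_le_flK K v (z₁ + z₂ + z₃)
    linarith
  | succ k ih =>
    intro K v z₁ z₂ z₃ hK p1 q1 p2 q2 p3 q3 hv hvS h3v h2v hk
    push_cast at hk
    obtain ⟨n, hn⟩ : ∃ n, n = z₁ + z₂ + z₃ := ⟨_, rfl⟩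
    obtain ⟨m, hm⟩ : ∃ m, m = mn z₁ z₂ z₃ := ⟨_, rfl⟩
    have hm3 := mn_third z₁ z₂ z₃
    have hml1 := mn_le1 z₁ z₂ z₃
    have hml2 := mn_le2 z₁ z₂ z₃
    rw [← hm] at hk hm3 hml1 hml2
    rw [← hn] at hk hvS h2v hm3 ⊢
    rcases le_or_gt (n + m) (K + 100 * c) with hA | hB
    · -- far, with a small loss
      have := hfar (K + 100 * c) v z₁ z₂ z₃ (by linarith) p1 p2 p3 (by linarith)
        (by rw [← hn, ← hm]; exact hA) hv (by rw [← hn]; exact hvS) (by linarith)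
        (by rw [← hn]; linarith)
      rw [← hn] at this
      have := slope_le_flK K v n
      linarith
    -- near
    obtain ⟨v₁, hv₁⟩ : ∃ v₁, v₁ = max v (2 * n - K + 100 * c) := ⟨_, rfl⟩
    have hvv : v ≤ v₁ := hv₁ ▸ le_max_left _ _
    have htop : 2 * n - K + 100 * c ≤ v₁ := hv₁ ▸ le_max_right _ _
    have hv1 : v₁ + n ≤ S := by
      rcases max_cases v (2 * n - K + 100 * c) with ⟨h, _⟩ | ⟨h, _⟩ <;> rw [hv₁, h] <;> linarith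
    obtain ⟨g, hg⟩ : ∃ g, g = n - 3 / 4 * K + c := ⟨_, rfl⟩
    obtain ⟨F₃, hF₃⟩ : ∃ F₃, F₃ = F₀ + (n + m - K) / 3 := ⟨_, rfl⟩
    have hv10 : 0 ≤ v₁ := hv.trans hvv
    have hvg : 3 * (v₁ + g) + 100 * c ≤ 2 * K := by rw [hg]; linarith
    have hnum : NumNE c K v₁ n g F F₃ := by
      constructor <;> first | linarith | skip
    have sub : ∀ (Y' : Multiset ℝ) (n' : ℝ), Sh Y' {z₁, z₂, z₃} → n' = Y'.sum →
        ∃ x₁ x₂ x₃ : ℝ, Y' = {x₁, x₂, x₃} ∧ 0 ≤ x₁ ∧ x₁ ≤ z₁ ∧ 0 ≤ x₂ ∧ x₂ ≤ z₂ ∧ 0 ≤ x₃ ∧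
          x₃ ≤ z₃ ∧ n' = x₁ + x₂ + x₃ := by
      intro Y' n' hY hn'
      obtain ⟨x₁, x₂, x₃, rfl, t1, t2, t3, t4, t5, t6⟩ := sh3 hY
      rw [sum3'] at hn'
      exact ⟨x₁, x₂, x₃, rfl, t1, t2, t3, t4, t5, t6, hn'⟩
    have hprem : PremNE c (c / 3) g F₃ s₀ Q K v₁ n F {z₁, z₂, z₃} := by
      constructor
      · intro Y' n' v' hY hn' hb hv' hvb
        obtain ⟨x₁, x₂, x₃, rfl, t1, t2, t3, t4, t5, t6, rfl⟩ := sub Y' n' hY hn'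
        have hmm := mn_mono t2 t4 t6
        rw [← hm] at hmm
        have := ih (K + c) v' x₁ x₂ x₃ (by linarith) t1 (by linarith) t3 (by linarith) t5
          (by linarith) hv' (by linarith) (by linarith) (by linarith) (by linarith)
        have := flK_add (K := K) (v := v') (n := x₁ + x₂ + x₃) hc.le
        linarith
      · intro Y' n' v' hY hn' hb hv' hvb
        obtain ⟨x₁, x₂, x₃, rfl, t1, t2, t3, t4, t5, t6, rfl⟩ := sub Y' n' hY hn'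
        have hmm := mn_mono t2 t4 t6
        rw [← hm] at hmm
        have := hfar (n + m) v' x₁ x₂ x₃ (by linarith) t1 t3 t5 (by linarith)
          (by linarith) hv' (by linarith) (by linarith) (by linarith)
        linarith
      · intro Y' n' v' hY hn' hb hb' hv' hvb
        obtain ⟨x₁, x₂, x₃, rfl, t1, t2, t3, t4, t5, t6, rfl⟩ := sub Y' n' hY hn'
        have h3 := mn_third x₁ x₂ x₃
        have := hfar K v' x₁ x₂ x₃ (by linarith) t1 t3 t5 (by linarith)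
          (by linarith) hv' (by linarith) (by linarith) (by linarith)
        linarith
      · intro Y' n' v' w u hY hn' hb hv' hw hwv hu
        obtain ⟨x₁, x₂, x₃, rfl, t1, t2, t3, t4, t5, t6, rfl⟩ := sub Y' n' hY hn'
        have h3 := mn_third x₁ x₂ x₃
        have hu0 := le_max_left 0 u
        have hu1 := le_max_right 0 u
        obtain ⟨K₂, hK₂⟩ : ∃ K₂, K₂ = max K (3 / 2 * v') := ⟨_, rfl⟩
        have k1 : K ≤ K₂ := hK₂ ▸ le_max_left _ _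
        have k2 : 3 / 2 * v' ≤ K₂ := hK₂ ▸ le_max_right _ _
        rcases lt_or_ge (x₁ + x₂ + x₃ + K₂) (2 * v') with hs | hs
        · have := hsh v' x₁ x₂ x₃ hv' t1 t3 t5 (by linarith)
          linarith
        have := hfar K₂ v' x₁ x₂ x₃ (by linarith) t1 t3 t5 (by linarith)
          (by linarith) hv' (by linarith) (by linarith) hs
        rcases max_cases K (3 / 2 * v') with ⟨h, _⟩ | ⟨h, _⟩ <;> rw [h] at hK₂ <;> linarith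
      · intro Y' n' v' hY hn' hb hv' hvb
        obtain ⟨x₁, x₂, x₃, rfl, t1, t2, t3, t4, t5, t6, rfl⟩ := sub Y' n' hY hn'
        exact hQ K v' x₁ x₂ x₃ hK t1 (by linarith) t3 (by linarith) t5 (by linarith)
          (by linarith) hv' (by linarith) (by linarith)
      · intro Y' n' v' hY hn' hb hv' hvb
        obtain ⟨x₁, x₂, x₃, rfl, t1, t2, t3, t4, t5, t6, rfl⟩ := sub Y' n' hY hn'
        have h3 := mn_third x₁ x₂ x₃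
        have hu0 := le_max_left 0 ((4 * (x₁ + x₂ + x₃) - 3 * K) / 9)
        have hu1 := le_max_right 0 ((4 * (x₁ + x₂ + x₃) - 3 * K) / 9)
        obtain ⟨K₂, hK₂⟩ : ∃ K₂, K₂ = max K (x₁ + x₂ + x₃ + mn x₁ x₂ x₃) := ⟨_, rfl⟩
        have k1 : K ≤ K₂ := hK₂ ▸ le_max_left _ _
        have k2 : x₁ + x₂ + x₃ + mn x₁ x₂ x₃ ≤ K₂ := hK₂ ▸ le_max_right _ _
        have := hfar K₂ v' x₁ x₂ x₃ (by linarith) t1 t3 t5 (by linarith) k2 hv' (by linarith)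
          (by linarith) (by linarith)
        rcases max_cases K (x₁ + x₂ + x₃ + mn x₁ x₂ x₃) with ⟨h, _⟩ | ⟨h, _⟩ <;>
          rw [h] at hK₂ <;> linarith
    -- the replaced list
    obtain ⟨d₀, hd₀⟩ : ∃ d₀, d₀ = K - n := ⟨_, rfl⟩
    have he1K : e₁ * K ≤ 1 / 20 * K := mul_le_mul_of_nonneg_right (by linarith) (by linarith)
    have hpremr : PremR c g s₀ Q K v₁ n F {z₁ + z₂ - d₀, d₀, z₃} := by
      refine prem_far (κ := κ) (S := S) (N := y₁ + y₂ + y₃) (F₀ := F₀) hc (by linarith)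
        (by linarith) hF0 hfar hsh (by linarith) (by linarith) (by linarith) p3
        (by linarith) (by linarith) (by linarith) hv1 hvg (by linarith) (by linarith) hg ?_
      intro v' x₁ x₂ x₃ t1 t2 t3 t4 t5 t6 hb hv' hvb
      exact hQr K v' x₁ x₂ x₃ hK t1 t3 t5 (by linarith) (by linarith) (by linarith) (by linarith)
        hv' (by linarith) (by linarith)
    have := G.nex K v₁ z₁ z₂ z₃ n g F F₃ d₀ p1 p2 p3 hn hnum (by linarith) (by linarith)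
      (by linarith) (by linarith) (by linarith) (by linarith) hprem hpremr v hv hvv
    unfold flK
    linarith

/-- **the flat claims at the family `κ + 100 c`, all lists** -/
theorem near_allx {c e₁ : ℝ} (hc : 0 < c) {s₀ : EF}
    {Q : ℝ → ℝ → Multiset ℝ → ℝ → ℝ → ℝ → Prop}
    (G : ExpNEx c e₁ s₀ Q) {κ S y₁ y₂ y₃ F₀ F : ℝ} (hκ : 1000000 * c ≤ κ) (hκ0 : 0 < κ)
    (he₁ : 20 * e₁ ≤ 1) (hF0 : 0 ≤ F₀)
    (hF : F₀ + 100 * c ≤ F) (hS : 5 * S ≤ 7 * κ) (hSn : 3 * (y₁ + y₂ + y₃) - κ ≤ S)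
    (hN : 5 * (y₁ + y₂ + y₃) ≤ 4 * κ)
    (hfar : FarG s₀ κ S (y₁ + y₂ + y₃) F₀) (hsh : ShH s₀)
    (hQ : QH Q c (κ + 100 * c) S y₁ y₂ y₃ F)
    (hQr : QHr Q c (κ + 100 * c) S (y₁ + y₂ + y₃) y₃ F)
    {v z₁ z₂ z₃ : ℝ} (p1 : 0 ≤ z₁) (q1 : z₁ ≤ y₁) (p2 : 0 ≤ z₂) (q2 : z₂ ≤ y₂) (p3 : 0 ≤ z₃)
    (q3 : z₃ ≤ y₃) (hv : 0 ≤ v) (hvS : v + (z₁ + z₂ + z₃) ≤ S) (h3v : 3 * v ≤ 2 * κ)
    (h2v : 2 * v ≤ z₁ + z₂ + z₃ + κ) :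
    s₀ v {z₁, z₂, z₃} 0 0 ≤ flK κ v (z₁ + z₂ + z₃) + F + 100 / 3 * c := by
  obtain ⟨k, hk⟩ := exists_nat_ge ((z₁ + z₂ + z₃ + mn z₁ z₂ z₃) / c)
  rw [div_le_iff₀ hc] at hk
  have h1 := near_desx hc G hκ hκ0 he₁ hF0 hF hS hSn hN hfar hsh hQ hQr k (κ + 100 * c) v z₁ z₂
    z₃ le_rfl p1 q1 p2 q2 p3 q3 hv hvS (by linarith) (by linarith) (by linarith)
  have h2 := flK_add (K := κ) (c := 100 * c) (v := v) (n := z₁ + z₂ + z₃) (by linarith)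
  linarith

/-- the fields for arbitrarily small steps, with the side conditions -/
def NEFx (s₀ : EF) (κ S y₁ y₂ y₃ F₀ : ℝ) : Prop :=
  ∀ c₀ : ℝ, 0 < c₀ → ∃ c e₁ : ℝ, 0 < c ∧ c ≤ c₀ ∧ 20 * e₁ ≤ 1 ∧
    ∃ Q : ℝ → ℝ → Multiset ℝ → ℝ → ℝ → ℝ → Prop, ExpNEx c e₁ s₀ Q ∧
      QH Q c (κ + 100 * c) S y₁ y₂ y₃ (F₀ + 100 * c) ∧
      QHr Q c (κ + 100 * c) S (y₁ + y₂ + y₃) y₃ (F₀ + 100 * c)

/-- **the flat claims at the family `κ`** -/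
theorem near_finx {s₀ : EF} {κ S y₁ y₂ y₃ F₀ : ℝ} (hκ0 : 0 < κ) (hF0 : 0 ≤ F₀)
    (hS : 5 * S ≤ 7 * κ) (hSn : 3 * (y₁ + y₂ + y₃) - κ ≤ S) (hN : 5 * (y₁ + y₂ + y₃) ≤ 4 * κ)
    (hfar : FarG s₀ κ S (y₁ + y₂ + y₃) F₀) (hsh : ShH s₀) (hG : NEFx s₀ κ S y₁ y₂ y₃ F₀)
    {v z₁ z₂ z₃ : ℝ} (p1 : 0 ≤ z₁) (q1 : z₁ ≤ y₁) (p2 : 0 ≤ z₂) (q2 : z₂ ≤ y₂) (p3 : 0 ≤ z₃)
    (q3 : z₃ ≤ y₃) (hv : 0 ≤ v) (hvS : v + (z₁ + z₂ + z₃) ≤ S) (h3v : 3 * v ≤ 2 * κ)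
    (h2v : 2 * v ≤ z₁ + z₂ + z₃ + κ) (_hkv : v + (z₁ + z₂ + z₃) / 2 ≤ κ) :
    s₀ v {z₁, z₂, z₃} 0 0 ≤ flK κ v (z₁ + z₂ + z₃) + F₀ := by
  refine le_of_forall_pos_le_add fun ε hε => ?_
  obtain ⟨c, e₁, hc, hcc, he₁, Q, G, hQ, hQr⟩ := hG (min (κ / 1000000) (ε / 200)) (by positivity)
  have c1 : c ≤ κ / 1000000 := hcc.trans (min_le_left _ _)
  have c2 : c ≤ ε / 200 := hcc.trans (min_le_right _ _)
  have := near_allx hc G (by linarith) hκ0 he₁ hF0 le_rfl hS hSn hN hfar hsh hQ hQr p1 q1 p2 q2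
    p3 q3 hv hvS h3v h2v
  linarith

end Crest.Agent.R017.NEx911
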