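import Crest.Agent.R017.NEh_73
import Crest.Agent.R017.NEx_911
import Crest.Agent.R017.FNEi_708

/-!
# Row 17, R8 / P1X: the flat claims of the near-equal triple, exceptional class (helper911), the
near part of `FE2G`

* `farG_of`       : the far lists
* `flat_ownx`     : the flat claim of one list at its own family `K ≥ v + n / 2`
* `nearG_of_nex`  : helper708's `NearG` from the field `ExpNEx`
* `fe2G_of_nex`   : `FE2G` at every `(Kf, Tf)`; parents with `N + min ≤ Kf b` (replaced lists) need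
  nothing
-/

set_option autoImplicit false

noncomputable section

namespace Crest.Agent.R017.NEx911

open Crest.Agent.R017.ER911
open Crest.Agent.R017.TM708 (T5 K5 R5 FE2L)
open Crest.Agent.R017.FN708
open Crest.Agent.R017.SC777
open Crest.Agent.R017.NE73
open Crest.Agent.R017.TK708 (FE2G)

variable {d : ℝ} {r s s₀ : EF}

/-- the far lists -/
theorem farG_of (R : ExpRules (7 / 8 + d) r s) (Rm : ExpRGFz (7 / 8 + d) r s s₀) (hd : 0 ≤ d)
    (hd8 : 8 * d ≤ 1) {κ S N : ℝ} (hN : 5 * N ≤ 4 * κ) (hS : 12 * S ≤ 17 * κ) :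
    FarG s₀ κ S N (2 * d * (N / 3)) := by
  intro K v z₁ z₂ z₃ hK p1 p2 p3 hzN hm hv hvS h3v h2v
  have key : ∀ A B C : ℝ, ({A, B, C} : Multiset ℝ) = {z₁, z₂, z₃} → A + B + C = z₁ + z₂ + z₃ →
      0 ≤ C → C ≤ A → C ≤ B → C = mn z₁ z₂ z₃ →
      s₀ v {z₁, z₂, z₃} 0 0 ≤ 4 / 3 * (z₁ + z₂ + z₃) + (v + K) / 3 + 2 * d * (N / 3) := by
    intro A B C he hs hC hCA hCB hCm
    have hf : Far K v (z₁ + z₂ + z₃) A B C 0 := by
      refine ⟨by linarith, hv, hC, hCA, hCB, le_rfl, by linarith, by linarith, by linarith,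
        by linarith, by linarith, h3v⟩
    have := far3 R Rm hd hd8 (m := 0) (a := 0) (by rw [zero_add]; exact hf) le_rfl le_rfl h2v
    rw [he] at this
    have h2 : 2 * d * (C + 0 + 0) ≤ 2 * d * (N / 3) :=
      mul_le_mul_of_nonneg_left (by linarith) (by linarith)
    linarith
  rcases le_total z₁ z₂ with h12 | h12
  · rcases le_total z₁ z₃ with h13 | h13
    · exact key z₂ z₃ z₁ (cyc3 z₁ z₂ z₃).symm (by ring) p1 h12 h13
        (by rw [mn, min_eq_left (le_min h12 h13)])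
    · exact key z₁ z₂ z₃ rfl rfl p3 h13 (h13.trans h12)
        (by rw [mn, min_eq_right (h13.trans h12), min_eq_right h13])
  · rcases le_total z₂ z₃ with h23 | h23
    · exact key z₁ z₃ z₂ (sw2 z₁ z₃ z₂) (by ring) p2 h12 h23
        (by rw [mn, min_eq_left h23, min_eq_right h12])
    · exact key z₁ z₂ z₃ rfl rfl p3 (h23.trans h12) h23
        (by rw [mn, min_eq_right h23, min_eq_right (h23.trans h12)])

/-- **the flat claim of one list at its own family** `K ≥ v + n / 2`, near or far, class E -/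
theorem flat_ownx (R : ExpRules (7 / 8 + d) r s) (Rm : ExpRGFz (7 / 8 + d) r s s₀)
    (hd : 0 ≤ d) (hd8 : 8 * d ≤ 1)
    (hG : ∀ κ S y₁ y₂ y₃ : ℝ, NearDom κ S y₁ y₂ y₃ →
      NEFx s₀ κ S y₁ y₂ y₃ (2 * d * ((y₁ + y₂ + y₃) / 3)))
    {K v z₁ z₂ z₃ n : ℝ} (hK : 0 < K) (h3 : 0 ≤ z₃) (h32 : z₃ ≤ z₂) (h21 : z₂ ≤ z₁)
    (hn : n = z₁ + z₂ + z₃) (hv : 0 ≤ v) (hz : 200 * z₁ ≤ 61 * K ∨ n + z₃ ≤ K)
    (h5 : 5 * n ≤ 4 * K) (hkv : v + n / 2 ≤ K) (h3v : 3 * v ≤ 2 * K)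
    (h2v : 2 * v ≤ n + K) :
    s₀ v {z₁, z₂, z₃} 0 0 ≤ max (2 * n) (4 / 3 * n + (K + v) / 3) + 2 * d * (n / 3) := by
  rcases le_or_gt (n + z₃) K with hfar | hnear
  · have hf : Far K v n z₁ z₂ z₃ 0 := by
      refine ⟨by linarith, hv, h3, by linarith, h32, le_rfl, by linarith, by linarith,
        by linarith, by linarith, by linarith, h3v⟩
    have := far3 R Rm hd hd8 (m := 0) (a := 0) (by rw [zero_add]; exact hf) le_rfl le_rfl h2v
    have h2 : 2 * d * (z₃ + 0 + 0) ≤ 2 * d * (n / 3) :=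
      mul_le_mul_of_nonneg_left (by linarith) (by linarith)
    have := le_max_right (2 * n) (4 / 3 * n + (K + v) / 3)
    linarith
  · obtain ⟨S, hS⟩ : ∃ S, S = max (v + n) (3 * n - K) := ⟨_, rfl⟩
    have hS1 : v + n ≤ S := hS ▸ le_max_left _ _
    have hS2 : 3 * n - K ≤ S := hS ▸ le_max_right _ _
    have hz1 : 200 * z₁ ≤ 61 * K := hz.resolve_right (not_le.2 hnear)
    have hdom : NearDom K S z₁ z₂ z₃ := by
      refine ⟨hK, h3, h32, h21, hz1, by linarith, by linarith, by linarith, ?_⟩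
      rcases max_cases (v + n) (3 * n - K) with ⟨h, -⟩ | ⟨h, -⟩ <;> rw [hS, h] <;> linarith
    have hF0 : 0 ≤ 2 * d * ((z₁ + z₂ + z₃) / 3) := mul_nonneg (by linarith) (by linarith)
    have h := near_finx hK hF0 (by linarith [hdom.S2]) hdom.S1 hdom.n5
      (farG_of R Rm hd hd8 hdom.n5 (by linarith [hdom.S2]))
      (shH_of R Rm.toExpS0) (hG _ _ _ _ _ hdom) (h3.trans (h32.trans h21)) le_rfl (h3.trans h32)
      le_rfl h3 le_rfl hv (by linarith) h3v (by linarith) (by linarith)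
    rw [← hn] at h
    have h3 : flK K v n ≤ max (2 * n) (4 / 3 * n + (K + v) / 3) := by
      unfold flK
      rcases max_cases 0 ((v + K - 2 * n) / 3) with ⟨h, -⟩ | ⟨h, -⟩ <;> rw [h]
      · rw [add_zero]
        exact le_max_left _ _
      · exact (le_of_eq (by ring)).trans (le_max_right _ _)
    linarith

/-- **the near part of the flat claims, class E** -/
theorem nearG_of_nex (R : ExpRules (7 / 8 + d) r s) (Rm : ExpRGFz (7 / 8 + d) r s s₀)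
    (hd : 0 ≤ d) (hd8 : 8 * d ≤ 1) {D5 : Set (Fin 5 → ℝ)} {Kf Tf : (Fin 5 → ℝ) → ℝ}
    (h5 : ∀ b ∈ D5, RF Kf Tf b)
    (h7 : ∀ b ∈ D5, Kf b < b 1 + b 2 + b 3 + mnb b →
      200 * max (b 1) (max (b 2) (b 3)) ≤ 61 * Kf b) {ℓ : (Fin 5 → ℝ) → ℝ}
    (hℓ : ∀ b ∈ D5, Kf b < b 1 + b 2 + b 3 + mnb b → 2 * d * ((b 1 + b 2 + b 3) / 3) ≤ ℓ b)
    (hG : ∀ κ S y₁ y₂ y₃ : ℝ, NearDom κ S y₁ y₂ y₃ →
      NEFx s₀ κ S y₁ y₂ y₃ (2 * d * ((y₁ + y₂ + y₃) / 3))) :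
    NearG s₀ D5 Kf Tf ℓ := by
  intro b hb v z₁ z₂ z₃ n hv h3 h32 h21 hn h1m h3m hnN hnear hlev
  have hnb : Kf b < b 1 + b 2 + b 3 + mnb b := by linarith
  obtain ⟨k0, y1, y2, y3, x0, x36, n5, vn⟩ := h5 b hb
  have h7' := h7 b hb hnb
  have hℓ' := hℓ b hb hnb
  have hvn : 12 * (v + n) ≤ 17 * Kf b := by linarith
  obtain ⟨κ, hκd⟩ : ∃ κ, κ = max (Kf b) (v + n / 2) := ⟨_, rfl⟩
  have hκ1 : Kf b ≤ κ := hκd ▸ le_max_left _ _
  have hκ2 : v + n / 2 ≤ κ := hκd ▸ le_max_right _ _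
  have h := flat_ownx R Rm hd hd8 hG (K := κ) (n := n) (by linarith) h3 h32 h21 hn hv
    (Or.inl (by linarith)) (by linarith) hκ2 (by linarith) (by linarith)
  rw [← hκd]
  have h2 : 2 * d * (n / 3) ≤ 2 * d * ((b 1 + b 2 + b 3) / 3) :=
    mul_le_mul_of_nonneg_left (by linarith) (by linarith)
  linarith

/-- **the flat claims, class E** -/
theorem fe2G_of_nex (R : ExpRules (7 / 8 + d) r s) (Rm : ExpRGFz (7 / 8 + d) r s s₀)
    (hd : 0 ≤ d) (hd8 : 8 * d ≤ 1) {D5 : Set (Fin 5 → ℝ)} {Kf Tf : (Fin 5 → ℝ) → ℝ}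
    (h5 : ∀ b ∈ D5, RF Kf Tf b)
    (h7 : ∀ b ∈ D5, Kf b < b 1 + b 2 + b 3 + mnb b →
      200 * max (b 1) (max (b 2) (b 3)) ≤ 61 * Kf b) {ℓ : (Fin 5 → ℝ) → ℝ}
    (hℓ : ∀ b ∈ D5, 2 * d * ((b 1 + b 2 + b 3) / 3 + b 4) ≤ ℓ b)
    (hG : ∀ κ S y₁ y₂ y₃ : ℝ, NearDom κ S y₁ y₂ y₃ →
      NEFx s₀ κ S y₁ y₂ y₃ (2 * d * ((y₁ + y₂ + y₃) / 3))) :
    FE2G s₀ D5 Kf Tf ℓ := by
  refine FE2G_of_near R Rm hd hd8 h5 (fun b hb => ?_)
    (nearG_of_nex R Rm hd hd8 h5 h7 (fun b hb _ => ?_) hG)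
  · refine le_trans (mul_le_mul_of_nonneg_left ?_ (by linarith)) (hℓ b hb)
    have h1 : mnb b ≤ b 1 := min_le_left _ _
    have h2 : mnb b ≤ b 2 := (min_le_right _ _).trans (min_le_left _ _)
    have h3 : mnb b ≤ b 3 := (min_le_right _ _).trans (min_le_right _ _)
    linarith
  · refine le_trans (mul_le_mul_of_nonneg_left ?_ (by linarith)) (hℓ b hb)
    linarith [(h5 b hb).x0]

end Crest.Agent.R017.NEx911
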