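import Crest.Agent.R017.NEh_73
import Crest.Agent.R017.NEz_911
import Crest.Agent.R017.FNEi_708

/-!
# Row 17, P1: the flat claims at the constant family (helper708), both classes

Under `5 (v + n) ≤ 7 K` the near-equal lists have the constant family `K`
(helper911's `NearDom`), the far lists always.

* `kV`                     : the family `max K (5/7 (v + n))`
* `FE2V`, `FE2GV`          : the flat claims with `kV`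
* `flat_ownV`, `flat_ownVx`: one list at a family `K ≥ 5/7 (v + n)`
* `FE2GV_of_near`          : from the near part
* **`fe2V_of_ne`**, **`fe2GV_of_nex`** : class N, class E
* `FE2V.eq`                : the constant family, `5 (v + n) ≤ 7 K5 b`
-/

set_option autoImplicit false

noncomputable section

namespace Crest.Agent.R017.FN708

open Crest.Agent.R017.ER911 Crest.Agent.R017.SC777 Crest.Agent.R017.TM708
open Crest.Agent.R017.TK708 (FE2G)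
open Crest.Agent.R017.NE73 (NearDom NEF near_all flK FarH ShH farH_of shH_of)
open Crest.Agent.R017.NEx911 (NEFx near_allx farG_of FarG)

variable {d : ℝ} {r s s₀ : EF} {Kf Tf : (Fin 5 → ℝ) → ℝ}

/-- the family of the flat claims at the level `v`, length `n` -/
def kV (K v n : ℝ) : ℝ := max K (5 / 7 * (v + n))

lemma kV_of {K v n : ℝ} (h : 5 * (v + n) ≤ 7 * K) : kV K v n = K := max_eq_left (by linarith)

lemma le_kV (K v n : ℝ) : K ≤ kV K v n := le_max_left _ _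

theorem kV_cont : Continuous fun q : ℝ × ℝ × ℝ => kV q.1 q.2.1 q.2.2 := by
  unfold kV; fun_prop

lemma kV_hom {L : ℝ} (hL : 0 ≤ L) (K v n : ℝ) : kV (L * K) (L * v) (L * n) = L * kV K v n := by
  unfold kV
  rw [mul_max_of_nonneg _ _ hL]
  congr 1
  ring

/-- the own family is longer -/
lemma kV_le_kW {K v n w : ℝ} (hw : 0 ≤ w) (h : 5 * n ≤ 4 * K) : kV K v n ≤ kW K v n w := by
  unfold kV TM708.kW
  refine max_le (le_max_left _ _) ?_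
  rcases le_total (5 / 7 * (v + n)) K with h1 | h1
  · exact h1.trans (le_max_left _ _)
  · refine le_trans ?_ (le_max_right _ _)
    linarith

/-- the flat claims, class N -/
def FE2V (s : EF) (D5 : Set (Fin 5 → ℝ)) (ℓ : (Fin 5 → ℝ) → ℝ) : Prop :=
  ∀ b ∈ D5, ∀ v z₁ z₂ z₃ w : ℝ, 0 ≤ v → 0 ≤ z₁ → z₁ ≤ b 1 → 0 ≤ z₂ → z₂ ≤ b 2 → 0 ≤ z₃ →
    z₃ ≤ b 3 → 0 ≤ w → w ≤ b 4 →
    v ≤ T5 b + (b 1 + b 2 + b 3 + b 4 - (z₁ + z₂ + z₃ + w)) →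
    s v {z₁, z₂, z₃} 0 w ≤
      eH (kV (K5 b) v (z₁ + z₂ + z₃ + w)) v (z₁ + z₂ + z₃ + w) + ℓ b

/-- the flat claims, family `Kf`, level bound `Tf` -/
def FE2GV (s : EF) (D5 : Set (Fin 5 → ℝ)) (Kf Tf ℓ : (Fin 5 → ℝ) → ℝ) : Prop :=
  ∀ b ∈ D5, ∀ v z₁ z₂ z₃ w : ℝ, 0 ≤ v → 0 ≤ z₁ → z₁ ≤ b 1 → 0 ≤ z₂ → z₂ ≤ b 2 → 0 ≤ z₃ →
    z₃ ≤ b 3 → 0 ≤ w → w ≤ b 4 →
    v ≤ Tf b + (b 1 + b 2 + b 3 + b 4 - (z₁ + z₂ + z₃ + w)) →
    s v {z₁, z₂, z₃} 0 w ≤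
      eH (kV (Kf b) v (z₁ + z₂ + z₃ + w)) v (z₁ + z₂ + z₃ + w) + ℓ b

lemma FE2GV_iff {s : EF} {D5 : Set (Fin 5 → ℝ)} {ℓ : (Fin 5 → ℝ) → ℝ} :
    FE2GV s D5 K5 T5 ℓ ↔ FE2V s D5 ℓ := Iff.rfl

/-- helper708's `FE2G` -/
theorem FE2GV.toG {D5 : Set (Fin 5 → ℝ)} {ℓ : (Fin 5 → ℝ) → ℝ}
    (h5 : ∀ b ∈ D5, RF Kf Tf b) (H : FE2GV s₀ D5 Kf Tf ℓ) : FE2G s₀ D5 Kf Tf ℓ := by
  intro b hb v z₁ z₂ z₃ w hv h10 h11 h20 h21 h30 h31 hw hw4 hlev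
  refine (H b hb v z₁ z₂ z₃ w hv h10 h11 h20 h21 h30 h31 hw hw4 hlev).trans ?_
  have h1 : eH (kV (Kf b) v (z₁ + z₂ + z₃ + w)) v (z₁ + z₂ + z₃ + w) ≤
      eW (Kf b) v (z₁ + z₂ + z₃ + w) w :=
    eH_monoK (kV_le_kW hw (by linarith [(h5 b hb).n5]))
  linarith

theorem FE2V.toL {D5 : Set (Fin 5 → ℝ)} {ℓ : (Fin 5 → ℝ) → ℝ} (h5 : ∀ b ∈ D5, R5 b)
    (h5s : ∀ b ∈ D5, R5s b) (H : FE2V s₀ D5 ℓ) : FE2L s₀ D5 ℓ :=
  FE2GV.toG (fun b hb => RF_of (h5 b hb) (h5s b hb)) H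

/-- **the constant family** -/
theorem FE2GV.eq {D5 : Set (Fin 5 → ℝ)} {ℓ : (Fin 5 → ℝ) → ℝ} (H : FE2GV s₀ D5 Kf Tf ℓ)
    {b : Fin 5 → ℝ} (hb : b ∈ D5) {v z₁ z₂ z₃ w : ℝ} (hv : 0 ≤ v) (h10 : 0 ≤ z₁)
    (h11 : z₁ ≤ b 1) (h20 : 0 ≤ z₂) (h21 : z₂ ≤ b 2) (h30 : 0 ≤ z₃) (h31 : z₃ ≤ b 3)
    (hw : 0 ≤ w) (hw4 : w ≤ b 4)
    (hlev : v ≤ Tf b + (b 1 + b 2 + b 3 + b 4 - (z₁ + z₂ + z₃ + w)))
    (h7 : 5 * (v + (z₁ + z₂ + z₃ + w)) ≤ 7 * Kf b) :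
    s₀ v {z₁, z₂, z₃} 0 w ≤ eH (Kf b) v (z₁ + z₂ + z₃ + w) + ℓ b := by
  have := H b hb v z₁ z₂ z₃ w hv h10 h11 h20 h21 h30 h31 hw hw4 hlev
  rwa [kV_of h7] at this

/-- the near part -/
def NearGV (s₀ : EF) (D5 : Set (Fin 5 → ℝ)) (Kf Tf ℓ : (Fin 5 → ℝ) → ℝ) : Prop :=
  ∀ b ∈ D5, ∀ v z₁ z₂ z₃ n : ℝ, 0 ≤ v → 0 ≤ z₃ → z₃ ≤ z₂ → z₂ ≤ z₁ → n = z₁ + z₂ + z₃ →
    z₁ ≤ max (b 1) (max (b 2) (b 3)) → z₃ ≤ mnb b → z₁ + z₂ + z₃ ≤ b 1 + b 2 + b 3 →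
    Kf b < n + z₃ → v ≤ Tf b + (b 1 + b 2 + b 3 + b 4 - n) →
    s₀ v {z₁, z₂, z₃} 0 0 ≤ max (2 * n) (4 / 3 * n + (kV (Kf b) v n + v) / 3) + ℓ b

/-- **the flat claims from the near part** -/
theorem FE2GV_of_near (R : ExpRules (7 / 8 + d) r s) (Rm : ExpRGFz (7 / 8 + d) r s s₀)
    (hd : 0 ≤ d) (hd8 : 8 * d ≤ 1) {D5 : Set (Fin 5 → ℝ)} (h5 : ∀ b ∈ D5, RF Kf Tf b)
    {ℓ : (Fin 5 → ℝ) → ℝ} (hℓ : ∀ b ∈ D5, 2 * d * (mnb b + b 4) ≤ ℓ b)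
    (hN : NearGV s₀ D5 Kf Tf ℓ) : FE2GV s₀ D5 Kf Tf ℓ := by
  -- ordered children
  have main : ∀ b ∈ D5, ∀ v A B C w : ℝ, 0 ≤ v → 0 ≤ C → C ≤ B → B ≤ A → 0 ≤ w → w ≤ b 4 →
      A ≤ max (b 1) (max (b 2) (b 3)) → C ≤ mnb b → A + B + C ≤ b 1 + b 2 + b 3 →
      v ≤ Tf b + (b 1 + b 2 + b 3 + b 4 - (A + B + C + w)) →
      s₀ v {A, B, C} 0 w ≤ eH (kV (Kf b) v (A + B + C + w)) v (A + B + C + w) + ℓ b := by
    intro b hb v A B C w hv hC hCB hBA hw hw4 hA hCm hsum hlev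
    have hR5 := h5 b hb
    have hℓb := hℓ b hb
    have hm0 : 0 ≤ mnb b := le_min hR5.y1 (le_min hR5.y2 hR5.y3)
    have hd0 : 0 ≤ 2 * d * (mnb b + b 4) :=
      mul_nonneg (by linarith) (by linarith [hR5.x0])
    rcases lt_or_ge ((A + B + C + w) + max (Kf b) (3 / 2 * v)) (2 * v) with hsh | hsh
    · have h1 := le_max_right (Kf b) (3 / 2 * v)
      have h2 := short_le R Rm.toExpS0 (z₁ := A) (z₂ := B) (z₃ := C) (w := w) hv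
        (by linarith) (by linarith) hC hw (by linarith)
      have h3 : v + (A + B + C + w) ≤ eH (kV (Kf b) v (A + B + C + w)) v (A + B + C + w) := le_max_right _ _
      linarith
    rcases le_or_gt (A + B + 2 * C) (max (Kf b) (3 / 2 * v)) with hfar | hnear
    · have hf : Far (max (Kf b) (3 / 2 * v)) v (A + B + C + w) A B C w := by
        obtain ⟨k0, y1, y2, y3, x0, x36, n5, vn⟩ := hR5
        have hK1 := le_max_left (Kf b) (3 / 2 * v)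
        have hK2 := le_max_right (Kf b) (3 / 2 * v)
        exact ⟨by linarith, hv, hC, by linarith, hCB, hw, by linarith, hfar, rfl, by linarith,
          by linarith, by linarith⟩
      have h1 := far3 R Rm hd hd8 (m := 0) (a := w) (by rw [zero_add]; exact hf) le_rfl hw
        (by linarith)
      have h2 : 2 * d * (C + 0 + w) ≤ 2 * d * (mnb b + b 4) :=
        mul_le_mul_of_nonneg_left (by linarith) (by linarith)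
      have h3 : 4 / 3 * (A + B + C + w) + (max (Kf b) (3 / 2 * v) + v) / 3 ≤
          eH (kV (Kf b) v (A + B + C + w)) v (A + B + C + w) :=
        ((le_max_right _ _).trans (le_max_left _ _)).trans (eH_monoK (le_kV _ _ _))
      linarith
    · have hk0 : Kf b < A + B + 2 * C := lt_of_le_of_lt (le_max_left _ _) hnear
      have hcau := Rm.toExpS0.cau v {A, B, C} 0 w 0 w hv
        (ok3 (by linarith) (by linarith) hC le_rfl hw) le_rfl le_rfl hw le_rfl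
      rw [sub_zero, sub_self, zero_add] at hcau
      have hnl := hN b hb (v + w) A B C (A + B + C) (by linarith) hC hCB hBA rfl hA hCm hsum
        (by linarith) (by linarith)
      have h4 : max (2 * (A + B + C)) (4 / 3 * (A + B + C) +
          (kV (Kf b) (v + w) (A + B + C) + (v + w)) / 3) + w ≤
          eH (kV (Kf b) v (A + B + C + w)) v (A + B + C + w) := by
        obtain ⟨κ, hκ⟩ : ∃ κ, κ = kV (Kf b) v (A + B + C + w) := ⟨_, rfl⟩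
        have hκ' : kV (Kf b) (v + w) (A + B + C) = κ := by
          rw [hκ, kV, kV]
          congr 1
          ring
        have g1 : 2 * (A + B + C + w) ≤ eH (kV (Kf b) v (A + B + C + w)) v (A + B + C + w) :=
          (le_max_left _ _).trans (le_max_left _ _)
        have g2 : 4 / 3 * (A + B + C + w) + (max κ (3 / 2 * v) + v) / 3 ≤
          eH (kV (Kf b) v (A + B + C + w)) v (A + B + C + w) := by
          rw [hκ]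
          exact (le_max_right _ _).trans (le_max_left _ _)
        have g3 := le_max_left κ (3 / 2 * v)
        rw [hκ']
        rcases max_cases (2 * (A + B + C)) (4 / 3 * (A + B + C) + (κ + (v + w)) / 3) with
          ⟨h, -⟩ | ⟨h, -⟩ <;> rw [h] <;> linarith
      linarith
  intro b hb v z₁ z₂ z₃ w hv h10 h11 h20 h21 h30 h31 hw hw4 hlev
  have m1 : z₁ ≤ max (b 1) (max (b 2) (b 3)) := h11.trans (le_max_left _ _)
  have m2 : z₂ ≤ max (b 1) (max (b 2) (b 3)) := h21.trans ((le_max_left _ _).trans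
    (le_max_right _ _))
  have m3 : z₃ ≤ max (b 1) (max (b 2) (b 3)) := h31.trans ((le_max_right _ _).trans
    (le_max_right _ _))
  have conv : ∀ A B C : ℝ, ({A, B, C} : Multiset ℝ) = {z₁, z₂, z₃} → 0 ≤ C → C ≤ B → B ≤ A →
      C ≤ z₁ → C ≤ z₂ → C ≤ z₃ →
      A ≤ max (b 1) (max (b 2) (b 3)) → A + B + C = z₁ + z₂ + z₃ →
      s₀ v {z₁, z₂, z₃} 0 w ≤ eH (kV (Kf b) v (z₁ + z₂ + z₃ + w)) v (z₁ + z₂ + z₃ + w) + ℓ b := by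
    intro A B C he hC hCB hBA c1 c2 c3 hA hs
    have := main b hb v A B C w hv hC hCB hBA hw hw4 hA
      (le_min (c1.trans h11) (le_min (c2.trans h21) (c3.trans h31))) (by linarith)
      (by rw [hs]; exact hlev)
    rwa [he, hs] at this
  rcases le_total z₁ z₂ with a | a
  · rcases le_total z₂ z₃ with a' | a'
    · exact conv z₃ z₂ z₁ (by rw [sw1 z₃ z₂ z₁, sw2 z₂ z₃ z₁, sw1 z₂ z₁ z₃])
        h10 a a' le_rfl a (a.trans a') m3 (by ring)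
    · rcases le_total z₁ z₃ with a'' | a''
      · exact conv z₂ z₃ z₁ (by rw [sw2 z₂ z₃ z₁, sw1 z₂ z₁ z₃]) h10 a'' a' le_rfl a a'' m2
          (by ring)
      · exact conv z₂ z₁ z₃ (sw1 z₂ z₁ z₃) h30 a'' a a'' a' le_rfl m2 (by ring)
  · rcases le_total z₁ z₃ with a' | a'
    · exact conv z₃ z₁ z₂ (by rw [sw1 z₃ z₁ z₂, sw2 z₁ z₃ z₂]) h20 a a' a le_rfl (a.trans a') m3
        (by ring)
    · rcases le_total z₂ z₃ with a'' | a''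
      · exact conv z₁ z₃ z₂ (sw2 z₁ z₃ z₂) h20 a'' a' a le_rfl a'' m1 (by ring)
      · exact conv z₁ z₂ z₃ rfl h30 a'' a a' a'' le_rfl m1 rfl

/-- **the flat claims at the family `κ`** -/
theorem near_finV {s₀ : EF} {κ S y₁ y₂ y₃ F₀ : ℝ} (hκ0 : 0 < κ) (hF0 : 0 ≤ F₀)
    (hS : 5 * S ≤ 7 * κ) (hSn : 3 * (y₁ + y₂ + y₃) - κ ≤ S) (hN : 5 * (y₁ + y₂ + y₃) ≤ 4 * κ)
    (hfar : FarH s₀ κ S y₁ y₂ y₃ F₀) (hsh : ShH s₀) (hG : NEF s₀ κ S y₁ y₂ y₃ F₀)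
    {v z₁ z₂ z₃ : ℝ} (p1 : 0 ≤ z₁) (q1 : z₁ ≤ y₁) (p2 : 0 ≤ z₂) (q2 : z₂ ≤ y₂) (p3 : 0 ≤ z₃)
    (q3 : z₃ ≤ y₃) (hv : 0 ≤ v) (hvS : v + (z₁ + z₂ + z₃) ≤ S) (h3v : 3 * v ≤ 2 * κ)
    (h2v : 2 * v ≤ z₁ + z₂ + z₃ + κ) :
    s₀ v {z₁, z₂, z₃} 0 0 ≤ flK κ v (z₁ + z₂ + z₃) + F₀ := by
  refine le_of_forall_pos_le_add fun ε hε => ?_
  obtain ⟨c, hc, hcc, Q, G, hQ⟩ := hG (min (κ / 1000000) (ε / 200)) (by positivity)
  have c1 : c ≤ κ / 1000000 := hcc.trans (min_le_left _ _)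
  have c2 : c ≤ ε / 200 := hcc.trans (min_le_right _ _)
  have := near_all hc G (by linarith) hκ0 hF0 le_rfl hS hSn hN hfar hsh hQ p1 q1 p2 q2 p3 q3 hv hvS
    h3v h2v
  linarith

/-- class E -/
theorem near_finVx {s₀ : EF} {κ S y₁ y₂ y₃ F₀ : ℝ} (hκ0 : 0 < κ) (hF0 : 0 ≤ F₀)
    (hS : 5 * S ≤ 7 * κ) (hSn : 3 * (y₁ + y₂ + y₃) - κ ≤ S) (hN : 5 * (y₁ + y₂ + y₃) ≤ 4 * κ)
    (hfar : FarG s₀ κ S (y₁ + y₂ + y₃) F₀) (hsh : ShH s₀) (hG : NEFx s₀ κ S y₁ y₂ y₃ F₀)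
    {v z₁ z₂ z₃ : ℝ} (p1 : 0 ≤ z₁) (q1 : z₁ ≤ y₁) (p2 : 0 ≤ z₂) (q2 : z₂ ≤ y₂) (p3 : 0 ≤ z₃)
    (q3 : z₃ ≤ y₃) (hv : 0 ≤ v) (hvS : v + (z₁ + z₂ + z₃) ≤ S) (h3v : 3 * v ≤ 2 * κ)
    (h2v : 2 * v ≤ z₁ + z₂ + z₃ + κ) :
    s₀ v {z₁, z₂, z₃} 0 0 ≤ flK κ v (z₁ + z₂ + z₃) + F₀ := by
  refine le_of_forall_pos_le_add fun ε hε => ?_
  obtain ⟨c, e₁, hc, hcc, he₁, Q, G, hQ, hQr⟩ := hG (min (κ / 1000000) (ε / 200)) (by positivity)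
  have c1 : c ≤ κ / 1000000 := hcc.trans (min_le_left _ _)
  have c2 : c ≤ ε / 200 := hcc.trans (min_le_right _ _)
  have := near_allx hc G (by linarith) hκ0 he₁ hF0 le_rfl hS hSn hN hfar hsh hQ hQr p1 q1 p2 q2
    p3 q3 hv hvS h3v h2v
  linarith

/-- **the flat claim of one list**, `5 (v + n) ≤ 7 K`, near or far -/
theorem flat_ownV (R : ExpRules (7 / 8 + d) r s) (Rm : ExpRGFz (7 / 8 + d) r s s₀)
    (hd : 0 ≤ d) (hd8 : 8 * d ≤ 1)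
    (hG : ∀ κ S y₁ y₂ y₃ : ℝ, NearDom κ S y₁ y₂ y₃ → NEF s₀ κ S y₁ y₂ y₃ (2 * d * y₃))
    {K v z₁ z₂ z₃ n : ℝ} (hK : 0 < K) (h3 : 0 ≤ z₃) (h32 : z₃ ≤ z₂) (h21 : z₂ ≤ z₁)
    (hn : n = z₁ + z₂ + z₃) (hv : 0 ≤ v) (hz : 200 * z₁ ≤ 61 * K ∨ n + z₃ ≤ K)
    (h5 : 5 * n ≤ 4 * K) (h7 : 5 * (v + n) ≤ 7 * K) (h3v : 3 * v ≤ 2 * K)
    (h2v : 2 * v ≤ n + K) :
    s₀ v {z₁, z₂, z₃} 0 0 ≤ max (2 * n) (4 / 3 * n + (K + v) / 3) + 2 * d * z₃ := by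
  rcases le_or_gt (n + z₃) K with hfar | hnear
  · have hf : Far K v n z₁ z₂ z₃ 0 := by
      refine ⟨by linarith, hv, h3, by linarith, h32, le_rfl, by linarith, by linarith,
        by linarith, by linarith, by linarith, h3v⟩
    have := far3 R Rm hd hd8 (m := 0) (a := 0) (by rw [zero_add]; exact hf) le_rfl le_rfl h2v
    have h2 : 2 * d * (z₃ + 0 + 0) = 2 * d * z₃ := by ring
    have := le_max_right (2 * n) (4 / 3 * n + (K + v) / 3)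
    linarith
  · obtain ⟨S, hS⟩ : ∃ S, S = max (v + n) (3 * n - K) := ⟨_, rfl⟩
    have hS1 : v + n ≤ S := hS ▸ le_max_left _ _
    have hS2 : 3 * n - K ≤ S := hS ▸ le_max_right _ _
    have hz1 : 200 * z₁ ≤ 61 * K := hz.resolve_right (not_le.2 hnear)
    have hdom : NearDom K S z₁ z₂ z₃ := by
      refine ⟨hK, h3, h32, h21, hz1, by linarith, by linarith, by linarith, ?_⟩
      rcases max_cases (v + n) (3 * n - K) with ⟨h, -⟩ | ⟨h, -⟩ <;> rw [hS, h] <;> linarith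
    have hF0 : 0 ≤ 2 * d * z₃ := by positivity
    have h := near_finV hK hF0 (by linarith [hdom.S2]) hdom.S1 hdom.n5
      (farH_of R Rm hd hd8 hdom)
      (shH_of R Rm.toExpS0) (hG _ _ _ _ _ hdom) (h3.trans (h32.trans h21)) le_rfl (h3.trans h32)
      le_rfl h3 le_rfl hv (by linarith) h3v (by linarith)
    rw [← hn] at h
    have h3 : flK K v n ≤ max (2 * n) (4 / 3 * n + (K + v) / 3) := by
      unfold flK
      rcases max_cases 0 ((v + K - 2 * n) / 3) with ⟨h, -⟩ | ⟨h, -⟩ <;> rw [h]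
      · rw [add_zero]
        exact le_max_left _ _
      · exact (le_of_eq (by ring)).trans (le_max_right _ _)
    linarith

/-- **the flat claim of one list**, `5 (v + n) ≤ 7 K`, near or far, class E -/
theorem flat_ownVx (R : ExpRules (7 / 8 + d) r s) (Rm : ExpRGFz (7 / 8 + d) r s s₀)
    (hd : 0 ≤ d) (hd8 : 8 * d ≤ 1)
    (hG : ∀ κ S y₁ y₂ y₃ : ℝ, NearDom κ S y₁ y₂ y₃ →
      NEFx s₀ κ S y₁ y₂ y₃ (2 * d * ((y₁ + y₂ + y₃) / 3)))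
    {K v z₁ z₂ z₃ n : ℝ} (hK : 0 < K) (h3 : 0 ≤ z₃) (h32 : z₃ ≤ z₂) (h21 : z₂ ≤ z₁)
    (hn : n = z₁ + z₂ + z₃) (hv : 0 ≤ v) (hz : 200 * z₁ ≤ 61 * K ∨ n + z₃ ≤ K)
    (h5 : 5 * n ≤ 4 * K) (h7 : 5 * (v + n) ≤ 7 * K) (h3v : 3 * v ≤ 2 * K)
    (h2v : 2 * v ≤ n + K) :
    s₀ v {z₁, z₂, z₃} 0 0 ≤ max (2 * n) (4 / 3 * n + (K + v) / 3) + 2 * d * (n / 3) := by
  rcases le_or_gt (n + z₃) K with hfar | hnear
  · have hf : Far K v n z₁ z₂ z₃ 0 := by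
      refine ⟨by linarith, hv, h3, by linarith, h32, le_rfl, by linarith, by linarith,
        by linarith, by linarith, by linarith, h3v⟩
    have := far3 R Rm hd hd8 (m := 0) (a := 0) (by rw [zero_add]; exact hf) le_rfl le_rfl h2v
    have h2 : 2 * d * (z₃ + 0 + 0) ≤ 2 * d * (n / 3) :=
      mul_le_mul_of_nonneg_left (by linarith) (by linarith)
    have := le_max_right (2 * n) (4 / 3 * n + (K + v) / 3)
    linarith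
  · obtain ⟨S, hS⟩ : ∃ S, S = max (v + n) (3 * n - K) := ⟨_, rfl⟩
    have hS1 : v + n ≤ S := hS ▸ le_max_left _ _
    have hS2 : 3 * n - K ≤ S := hS ▸ le_max_right _ _
    have hz1 : 200 * z₁ ≤ 61 * K := hz.resolve_right (not_le.2 hnear)
    have hdom : NearDom K S z₁ z₂ z₃ := by
      refine ⟨hK, h3, h32, h21, hz1, by linarith, by linarith, by linarith, ?_⟩
      rcases max_cases (v + n) (3 * n - K) with ⟨h, -⟩ | ⟨h, -⟩ <;> rw [hS, h] <;> linarith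
    have hF0 : 0 ≤ 2 * d * ((z₁ + z₂ + z₃) / 3) := mul_nonneg (by linarith) (by linarith)
    have h := near_finVx hK hF0 (by linarith [hdom.S2]) hdom.S1 hdom.n5
      (farG_of R Rm hd hd8 hdom.n5 (by linarith [hdom.S2]))
      (shH_of R Rm.toExpS0) (hG _ _ _ _ _ hdom) (h3.trans (h32.trans h21)) le_rfl (h3.trans h32)
      le_rfl h3 le_rfl hv (by linarith) h3v (by linarith)
    rw [← hn] at h
    have h3 : flK K v n ≤ max (2 * n) (4 / 3 * n + (K + v) / 3) := by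
      unfold flK
      rcases max_cases 0 ((v + K - 2 * n) / 3) with ⟨h, -⟩ | ⟨h, -⟩ <;> rw [h]
      · rw [add_zero]
        exact le_max_left _ _
      · exact (le_of_eq (by ring)).trans (le_max_right _ _)
    linarith

/-- **the near part of the flat claims, class N** -/
theorem nearGV_of_ne (R : ExpRules (7 / 8 + d) r s) (Rm : ExpRGFz (7 / 8 + d) r s s₀)
    (hd : 0 ≤ d) (hd8 : 8 * d ≤ 1) {D5 : Set (Fin 5 → ℝ)}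
    (h5 : ∀ b ∈ D5, RF Kf Tf b)
    (h7 : ∀ b ∈ D5, Kf b < b 1 + b 2 + b 3 + mnb b →
      200 * max (b 1) (max (b 2) (b 3)) ≤ 61 * Kf b) {ℓ : (Fin 5 → ℝ) → ℝ}
    (hℓ : ∀ b ∈ D5, Kf b < b 1 + b 2 + b 3 + mnb b → 2 * d * ((b 1 + b 2 + b 3) / 3) ≤ ℓ b)
    (hG : ∀ κ S y₁ y₂ y₃ : ℝ, NearDom κ S y₁ y₂ y₃ → NEF s₀ κ S y₁ y₂ y₃ (2 * d * y₃)) :
    NearGV s₀ D5 Kf Tf ℓ := by
  intro b hb v z₁ z₂ z₃ n hv h3 h32 h21 hn h1m h3m hnN hnear hlev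
  have hnb : Kf b < b 1 + b 2 + b 3 + mnb b := by linarith
  obtain ⟨k0, y1, y2, y3, x0, x36, n5, vn⟩ := h5 b hb
  have h7' := h7 b hb hnb
  have hℓ' := hℓ b hb hnb
  have hvn : 12 * (v + n) ≤ 17 * Kf b := by linarith
  obtain ⟨κ, hκd⟩ : ∃ κ, κ = kV (Kf b) v n := ⟨_, rfl⟩
  have hκ1 : Kf b ≤ κ := hκd ▸ le_max_left _ _
  have hκ2 : 5 / 7 * (v + n) ≤ κ := hκd ▸ le_max_right _ _
  have h := flat_ownV R Rm hd hd8 hG (K := κ) (n := n) (by linarith) h3 h32 h21 hn hv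
    (Or.inl (by linarith)) (by linarith) (by linarith) (by linarith) (by linarith)
  rw [← hκd]
  have h2 : 2 * d * z₃ ≤ 2 * d * ((b 1 + b 2 + b 3) / 3) :=
    mul_le_mul_of_nonneg_left (by linarith) (by linarith)
  linarith

/-- **the near part of the flat claims, class E** -/
theorem nearGV_of_nex (R : ExpRules (7 / 8 + d) r s) (Rm : ExpRGFz (7 / 8 + d) r s s₀)
    (hd : 0 ≤ d) (hd8 : 8 * d ≤ 1) {D5 : Set (Fin 5 → ℝ)}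
    (h5 : ∀ b ∈ D5, RF Kf Tf b)
    (h7 : ∀ b ∈ D5, Kf b < b 1 + b 2 + b 3 + mnb b →
      200 * max (b 1) (max (b 2) (b 3)) ≤ 61 * Kf b) {ℓ : (Fin 5 → ℝ) → ℝ}
    (hℓ : ∀ b ∈ D5, Kf b < b 1 + b 2 + b 3 + mnb b → 2 * d * ((b 1 + b 2 + b 3) / 3) ≤ ℓ b)
    (hG : ∀ κ S y₁ y₂ y₃ : ℝ, NearDom κ S y₁ y₂ y₃ →
      NEFx s₀ κ S y₁ y₂ y₃ (2 * d * ((y₁ + y₂ + y₃) / 3))) :
    NearGV s₀ D5 Kf Tf ℓ := by
  intro b hb v z₁ z₂ z₃ n hv h3 h32 h21 hn h1m h3m hnN hnear hlev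
  have hnb : Kf b < b 1 + b 2 + b 3 + mnb b := by linarith
  obtain ⟨k0, y1, y2, y3, x0, x36, n5, vn⟩ := h5 b hb
  have h7' := h7 b hb hnb
  have hℓ' := hℓ b hb hnb
  have hvn : 12 * (v + n) ≤ 17 * Kf b := by linarith
  obtain ⟨κ, hκd⟩ : ∃ κ, κ = kV (Kf b) v n := ⟨_, rfl⟩
  have hκ1 : Kf b ≤ κ := hκd ▸ le_max_left _ _
  have hκ2 : 5 / 7 * (v + n) ≤ κ := hκd ▸ le_max_right _ _
  have h := flat_ownVx R Rm hd hd8 hG (K := κ) (n := n) (by linarith) h3 h32 h21 hn hv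
    (Or.inl (by linarith)) (by linarith) (by linarith) (by linarith) (by linarith)
  rw [← hκd]
  have h2 : 2 * d * (n / 3) ≤ 2 * d * ((b 1 + b 2 + b 3) / 3) :=
    mul_le_mul_of_nonneg_left (by linarith) (by linarith)
  linarith

/-- `min ≤ mean` -/
lemma mnb_bd {ℓ : (Fin 5 → ℝ) → ℝ} {b : Fin 5 → ℝ} (hd : 0 ≤ d)
    (hℓ : 2 * d * ((b 1 + b 2 + b 3) / 3 + b 4) ≤ ℓ b) : 2 * d * (mnb b + b 4) ≤ ℓ b := by
  refine le_trans (mul_le_mul_of_nonneg_left ?_ (by linarith)) hℓ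
  have h1 : mnb b ≤ b 1 := min_le_left _ _
  have h2 : mnb b ≤ b 2 := (min_le_right _ _).trans (min_le_left _ _)
  have h3 : mnb b ≤ b 3 := (min_le_right _ _).trans (min_le_right _ _)
  linarith

/-- **the flat claims, class N**, any family and level bound -/
theorem fe2GV_of_ne (R : ExpRules (7 / 8 + d) r s) (Rm : ExpRGFz (7 / 8 + d) r s s₀)
    (hd : 0 ≤ d) (hd8 : 8 * d ≤ 1) {D5 : Set (Fin 5 → ℝ)}
    (h5 : ∀ b ∈ D5, RF Kf Tf b)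
    (h7 : ∀ b ∈ D5, Kf b < b 1 + b 2 + b 3 + mnb b →
      200 * max (b 1) (max (b 2) (b 3)) ≤ 61 * Kf b) {ℓ : (Fin 5 → ℝ) → ℝ}
    (hℓ : ∀ b ∈ D5, 2 * d * ((b 1 + b 2 + b 3) / 3 + b 4) ≤ ℓ b)
    (hG : ∀ κ S y₁ y₂ y₃ : ℝ, NearDom κ S y₁ y₂ y₃ → NEF s₀ κ S y₁ y₂ y₃ (2 * d * y₃)) :
    FE2GV s₀ D5 Kf Tf ℓ := by
  refine FE2GV_of_near R Rm hd hd8 h5 (fun b hb => mnb_bd hd (hℓ b hb))
    (nearGV_of_ne R Rm hd hd8 h5 h7 (fun b hb _ => ?_) hG)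
  refine le_trans (mul_le_mul_of_nonneg_left ?_ (by linarith)) (hℓ b hb)
  linarith [(h5 b hb).x0]

/-- **the flat claims, class E**, any family and level bound -/
theorem fe2GV_of_nex (R : ExpRules (7 / 8 + d) r s) (Rm : ExpRGFz (7 / 8 + d) r s s₀)
    (hd : 0 ≤ d) (hd8 : 8 * d ≤ 1) {D5 : Set (Fin 5 → ℝ)}
    (h5 : ∀ b ∈ D5, RF Kf Tf b)
    (h7 : ∀ b ∈ D5, Kf b < b 1 + b 2 + b 3 + mnb b →
      200 * max (b 1) (max (b 2) (b 3)) ≤ 61 * Kf b) {ℓ : (Fin 5 → ℝ) → ℝ}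
    (hℓ : ∀ b ∈ D5, 2 * d * ((b 1 + b 2 + b 3) / 3 + b 4) ≤ ℓ b)
    (hG : ∀ κ S y₁ y₂ y₃ : ℝ, NearDom κ S y₁ y₂ y₃ →
      NEFx s₀ κ S y₁ y₂ y₃ (2 * d * ((y₁ + y₂ + y₃) / 3))) :
    FE2GV s₀ D5 Kf Tf ℓ := by
  refine FE2GV_of_near R Rm hd hd8 h5 (fun b hb => mnb_bd hd (hℓ b hb))
    (nearGV_of_nex R Rm hd hd8 h5 h7 (fun b hb _ => ?_) hG)
  refine le_trans (mul_le_mul_of_nonneg_left ?_ (by linarith)) (hℓ b hb)
  linarith [(h5 b hb).x0]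

/-- **the flat claims, class N** (hypotheses of `NE73.fe2L_of_ne`) -/
theorem fe2V_of_ne (R : ExpRules (7 / 8 + d) r s) (Rm : ExpRGFz (7 / 8 + d) r s s₀)
    (hd : 0 ≤ d) (hd8 : 8 * d ≤ 1) {D5 : Set (Fin 5 → ℝ)} (h5 : ∀ b ∈ D5, R5 b)
    (h5s : ∀ b ∈ D5, R5s b)
    (h7 : ∀ b ∈ D5, 200 * max (b 1) (max (b 2) (b 3)) ≤ 61 * K5 b) {ℓ : (Fin 5 → ℝ) → ℝ}
    (hℓ : ∀ b ∈ D5, 2 * d * ((b 1 + b 2 + b 3) / 3 + b 4) ≤ ℓ b)
    (hG : ∀ κ S y₁ y₂ y₃ : ℝ, NearDom κ S y₁ y₂ y₃ → NEF s₀ κ S y₁ y₂ y₃ (2 * d * y₃)) :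
    FE2V s₀ D5 ℓ :=
  fe2GV_of_ne R Rm hd hd8 (fun b hb => RF_of (h5 b hb) (h5s b hb)) (fun b hb _ => h7 b hb) hℓ hG

/-- **the flat claims, class E**, family `K5` -/
theorem fe2V_of_nex (R : ExpRules (7 / 8 + d) r s) (Rm : ExpRGFz (7 / 8 + d) r s s₀)
    (hd : 0 ≤ d) (hd8 : 8 * d ≤ 1) {D5 : Set (Fin 5 → ℝ)} (h5 : ∀ b ∈ D5, R5 b)
    (h5s : ∀ b ∈ D5, R5s b)
    (h7 : ∀ b ∈ D5, K5 b < b 1 + b 2 + b 3 + mnb b →
      200 * max (b 1) (max (b 2) (b 3)) ≤ 61 * K5 b) {ℓ : (Fin 5 → ℝ) → ℝ}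
    (hℓ : ∀ b ∈ D5, 2 * d * ((b 1 + b 2 + b 3) / 3 + b 4) ≤ ℓ b)
    (hG : ∀ κ S y₁ y₂ y₃ : ℝ, NearDom κ S y₁ y₂ y₃ →
      NEFx s₀ κ S y₁ y₂ y₃ (2 * d * ((y₁ + y₂ + y₃) / 3))) :
    FE2V s₀ D5 ℓ :=
  fe2GV_of_nex R Rm hd hd8 (fun b hb => RF_of (h5 b hb) (h5s b hb)) h7 hℓ hG

end Crest.Agent.R017.FN708
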