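import Crest.Agent.R017.P1Rk_440

/-!
# Row 17, R8: the real side of E2 for `P1`, part l (helper440): the assembly

* **`rpU_of`** : `RpU` (helper146) from the pair bounds and the T-moments
-/

set_option autoImplicit false
set_option maxHeartbeats 4000000

noncomputable section

open Finset
open scoped ComplexConjugate Classical

namespace Crest.Agent.R017.P1Rl440

open Crest.Agent.R012 Crest.Agent.R012.Eis
open Crest.Agent.R012.LS2 (S mem_S)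
open Crest.Agent.R012.Mob705 (pdiv mem_pdiv)
open Crest.Agent.R017.B770
open Crest.Agent.R017.Prov71
open Crest.Agent.R017.FE47 (cx PU)
open Crest.Agent.R017.HP842 (pc al sqc alL)
open Crest.Agent.R017.Leg381 (alF natl)
open Crest.Agent.R017.UBT973 (UBs)
open Crest.Agent.R017.I1146 (LN tw3 rhoS RPg_Qs rw_rhoS sqc_tw RPg)
open Crest.Agent.R017.PM320 (S3b MP3 fbx Epm)
open Crest.Agent.R017.TM708 (TMF fbT EAll)
open Crest.Agent.R017.WDec180 (WD sc)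
open Crest.Agent.R017.E2440 (prs mem_prs)
open Crest.Agent.R017.XG702 (Pcs)
open Crest.Agent.R017.XT71 (Sys Win mx)
open Crest.Agent.R017.UM71 Crest.Agent.R017.End699
open Crest.Agent.R017.E5B71 Crest.Agent.R017.E5P571 Crest.Agent.R017.E5L770
open Crest.Agent.R017.P1e54 Crest.Agent.R017.P1f54 Crest.Agent.R017.P1k54 Crest.Agent.R017.P1l54
open Crest.Agent.R017.P10146
open Crest.Agent.R017.P1F904 (Dp)
open Crest.Agent.R017.LBx48 (neb)
open Crest.Agent.R017.P1Rh440 (Lst)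
open Crest.Agent.R017.P1Rj440 (Num)
open Crest.Agent.R017.P1Hl440 (dp_hom)

variable {Λ : Type*} {π : Λ → DPar} {h : ℝ → ℝ} {d : ℝ}

/-- the numbers of a child near a configuration -/
structure Cf (L δ κ y₃ y₄ u x pq : ℝ) (a : Bc) (qs : List Pq) : Prop where
  hk : |a.1.l - κ * L| ≤ δ * L
  hz : |a.1.z - x * L| ≤ δ * L
  hA : |a3 a.1 - (y₃ + y₄ + u) * L| ≤ 3 * (δ * L)
  lo : (κ / 2 - 2 * x) * L - 4 * (δ * L) ≤ LN (cl a qs)
  hi : LN (cl a qs) ≤ (y₃ + y₄ + u + x) * L + 4 * (δ * L)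
  up : LN (cl a qs) ≤ pq * L + 4 * (δ * L)
  b0 : (a.2 0).z ≤ y₃ * L + δ * L
  b1 : (a.2 1).z ≤ y₄ * L + δ * L
  b2 : (a.2 2).z ≤ u * L + δ * L
  w : LN qs ≤ x * L + δ * L
  y1 : Real.log (YT a.1.l (a3 a.1) a.1.z) ≤
    max 0 (min (2 * a3 a.1 - a.1.l) (3 / 4 * a3 a.1) + 3 * a.1.z) + Real.log 2

lemma top_le {a : Bc} (hok : a.1.ok) : Real.log (YT a.1.l (a3 a.1) a.1.z) ≤
    max 0 (min (2 * a3 a.1 - a.1.l) (3 / 4 * a3 a.1) + 3 * a.1.z) + Real.log 2 := by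
  have hlog2 : 0 < Real.log 2 := Real.log_pos (by norm_num)
  have hyn : Real.log (YT a.1.l (a3 a.1) a.1.z) = Real.log 2 * nO a.1 := log_YT _ _ _
  have hnO : nO a.1 = ⌊Sf770.tO a.1 / Real.log 2⌋₊ + 1 := rfl
  have hz0 : 0 ≤ a.1.z := hok.2.1
  rw [hyn, hnO]
  push_cast
  rcases le_total 0 (Sf770.tO a.1) with h0 | h0
  · have h1 := Nat.floor_le (div_nonneg h0 hlog2.le)
    rw [le_div_iff₀ hlog2] at h1
    have h2 : Sf770.tO a.1 ≤ max 0 (min (2 * a3 a.1 - a.1.l) (3 / 4 * a3 a.1) + 3 * a.1.z) := by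
      refine le_trans ?_ (le_max_right _ _)
      unfold Sf770.tO
      linarith
    linarith
  · rw [Nat.floor_of_nonpos (div_nonpos_of_nonpos_of_nonneg h0 hlog2.le)]
    have h2 := le_max_left 0 (min (2 * a3 a.1 - a.1.l) (3 / 4 * a3 a.1) + 3 * a.1.z)
    push_cast
    linarith

/-- the numbers, from the window -/
lemma cf_of {P : DPar} {st : Eis} {X δ B ρ : ℝ} {N : ℕ} {Par : Set (Fin 3 ⊕ Fin 5 → ℝ)} {a : Bc}
    {qs : List Pq} {q : ((Fin 3 ⊕ Fin 5) ⊕ Fin 3 → ℝ) × (Kd → ℝ)} (hX : 1 < X)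
    (hδ : 0 ≤ δ) (hq : q ∈ Dom8 Par) (hw : Win S8 q.1 δ N B ρ X a)
    (hm : ∀ t, |Dq.mass X qs t - q.2 t| ≤ δ) (hok : okC P st a qs) :
    Cf (Real.log X) δ (cκ fun i => q.1 (.inl i)) (cu (fun i => q.1 (.inl i)) 2)
      (cu (fun i => q.1 (.inl i)) 3) (cu (fun i => q.1 (.inl i)) 4)
      (cx' fun i => q.1 (.inl i)) (∑ i : Fin 3, q.1 (.inr i) + q.2 .am) a qs := by
  obtain ⟨hbok, hsm, hlmp, hamq⟩ := hok
  obtain ⟨hq1, hq2, hq3, hq4, hq5, hq6⟩ := hq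
  set p : Fin 3 ⊕ Fin 5 → ℝ := fun i => q.1 (.inl i) with hp
  set L := Real.log X with hL
  have hL0' : 0 < L := Real.log_pos hX
  have hev : ∀ i, |S8.ev X a i - q.1 i| ≤ δ := hw.ev
  have hdiv : ∀ {z c : ℝ}, |z / L - c| ≤ δ → |z - c * L| ≤ δ * L := by
    intro z c h1
    have h2 : z - c * L = (z / L - c) * L := by field_simp
    rw [h2, abs_mul, abs_of_pos hL0']
    exact mul_le_mul_of_nonneg_right h1 hL0'.le
  have hk : |a.1.l - cκ p * L| ≤ δ * L := hdiv (hev (.inl (.inl 0)))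
  have hz : |a.1.z - cx' p * L| ≤ δ * L := hdiv (hev (.inl (.inl 1)))
  have hu2 : |(a.1.us 2).z - cu p 2 * L| ≤ δ * L := hdiv (hev (.inl (.inr 2)))
  have hu3 : |(a.1.us 3).z - cu p 3 * L| ≤ δ * L := hdiv (hev (.inl (.inr 3)))
  have hu4' : |(a.1.us 4).z - cu p 4 * L| ≤ δ * L := hdiv (hev (.inl (.inr 4)))
  have hv0 : |(a.2 0).z - q.1 (.inr 0) * L| ≤ δ * L := hdiv (hev (.inr 0))
  have hv1 : |(a.2 1).z - q.1 (.inr 1) * L| ≤ δ * L := hdiv (hev (.inr 1))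
  have hv2 : |(a.2 2).z - q.1 (.inr 2) * L| ≤ δ * L := hdiv (hev (.inr 2))
  have hma : |LN qs - q.2 .am * L| ≤ δ * L := by
    have h1 := hm .am
    rw [mass_am hamq] at h1
    exact hdiv h1
  have hA : |a3 a.1 - (cu p 2 + cu p 3 + cu p 4) * L| ≤ 3 * (δ * L) := by
    have e1 : a3 a.1 - (cu p 2 + cu p 3 + cu p 4) * L = ((a.1.us 2).z - cu p 2 * L) +
        ((a.1.us 3).z - cu p 3 * L) + ((a.1.us 4).z - cu p 4 * L) := by
      unfold E5L770.a3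
      ring
    rw [e1]
    refine (abs_add_le _ _).trans ?_
    have := abs_add_le ((a.1.us 2).z - cu p 2 * L) ((a.1.us 3).z - cu p 3 * L)
    linarith
  obtain ⟨v01, v02⟩ := abs_le.1 hv0
  obtain ⟨v11, v12⟩ := abs_le.1 hv1
  obtain ⟨v21, v22⟩ := abs_le.1 hv2
  obtain ⟨m1, m2⟩ := abs_le.1 hma
  have w0 : 0 ≤ q.1 (.inr 0) ∧ q.1 (.inr 0) ≤ cu p 2 := hq2 0
  have w1 : 0 ≤ q.1 (.inr 1) ∧ q.1 (.inr 1) ≤ cu p 3 := hq2 1
  have w2 : 0 ≤ q.1 (.inr 2) ∧ q.1 (.inr 2) ≤ cu p 4 := hq2 2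
  have hS3 : ∑ i : Fin 3, q.1 (.inr i) = q.1 (.inr 0) + q.1 (.inr 1) + q.1 (.inr 2) :=
    Fin.sum_univ_three _
  rw [hS3] at hq6 ⊢
  have hnz : LN (cl a qs) = (a.2 0).z + (a.2 1).z + (a.2 2).z + LN qs := LN_cl a qs
  have hδL : 0 ≤ δ * L := by positivity
  have w0L := mul_le_mul_of_nonneg_right w0.2 hL0'.le
  have w1L := mul_le_mul_of_nonneg_right w1.2 hL0'.le
  have w2L := mul_le_mul_of_nonneg_right w2.2 hL0'.le
  have hq5L := mul_le_mul_of_nonneg_right hq5 hL0'.le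
  have hq6L := mul_le_mul_of_nonneg_right hq6 hL0'.le
  refine ⟨hk, hz, hA, ?_, ?_, ?_, ?_, ?_, ?_, ?_, top_le hbok⟩
  · rw [hnz]; linarith only [hq6L, v01, v11, v21, m1, hδL]
  · rw [hnz]; linarith only [w0L, w1L, w2L, hq5L, v02, v12, v22, m2]
  · rw [hnz]; linarith only [v02, v12, v22, m2]
  · linarith only [w0L, v02]
  · linarith only [w1L, v12]
  · linarith only [w2L, v22]
  · linarith only [hq5L, m2]

/-- the parent list, from the window -/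
lemma lst_of {P : DPar} {st : Eis} {X δ B B₂ ρ σ d κ y₃ y₄ u x pq : ℝ} {N : ℕ} {a : Bc}
    {qs : List Pq} {q : (Fin 3 ⊕ Fin 5) ⊕ Fin 3 → ℝ} (hX : 1 < X) (hδσ : δ ≤ σ / 2)
    (hδ7 : δ ≤ 1 / 10 ^ 7) (hρ : 0 ≤ ρ) (hBB : B ≤ B₂) (hκ0 : 0 < κ) (hκ1 : κ ≤ 1)
    (hdp : Dp (y₃ / κ) (y₄ / κ) (u / κ) (x / κ) d)
    (hc : Cf (Real.log X) δ κ y₃ y₄ u x pq a qs)
    (hw : Win S8 q δ N B ρ X a) (hgl : ∀ p ∈ qs, Dq.lump p ∨ Dq.nl X p ≤ δ)
    (hg : Dq.Good X ρ B qs) (hl : ∀ p ∈ qs, ¬ Dq.lump p) (hok : okC P st a qs) :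
    Lst σ B₂ X (X ^ ρ) (a.2 0) (a.2 1) (a.2 2) qs := by
  obtain ⟨hbok, hsm, hlmp, hamq⟩ := hok
  obtain ⟨hu4, hy43, hu0, hy3x, hN1, hnr, hx0, -, -, -⟩ := dp_hom hκ0 hdp
  have hL0' : 0 < Real.log X := Real.log_pos hX
  have hs1 : ∀ i, Dq.s1 (a.2 i) ≤ X ^ ρ := by
    intro i
    have h1 : mx Dq.s1 (List.ofFn a.2) ≤ X ^ ρ := (le_max_right _ _).trans hw.s₁
    exact (XT71.le_mx (List.mem_ofFn.2 ⟨i, rfl⟩)).trans h1
  have hs2 : ∀ i, Dq.s2 (a.2 i) ≤ X ^ B₂ := by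
    intro i
    have h1 : mx Dq.s2 (List.ofFn a.2) ≤ X ^ B := (le_max_right _ _).trans hw.s₂
    exact ((XT71.le_mx (List.mem_ofFn.2 ⟨i, rfl⟩)).trans h1).trans
      (Real.rpow_le_rpow_of_exponent_le hX.le hBB)
  have hgran : ∀ p' ∈ qs, p'.z ≤ δ * Real.log X := by
    intro p' hp'
    rcases hgl p' hp' with h1 | h1
    · exact absurd h1 (hl p' hp')
    · unfold Pcs.nl at h1
      rw [div_le_iff₀ hL0'] at h1
      exact h1
  have hδσL : δ * Real.log X ≤ σ / 2 * Real.log X := mul_le_mul_of_nonneg_right hδσ hL0'.le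
  have hle : ∀ y w : ℝ, y ≤ 1 / 2 → w ≤ y * Real.log X + δ * Real.log X → w ≤ Real.log X := by
    intro y w h1 h2
    have h3 := mul_le_mul_of_nonneg_right h1 hL0'.le
    have h4 := mul_le_mul_of_nonneg_right hδ7 hL0'.le
    linarith only [h2, h3, h4, hL0']
  refine ⟨?_, ?_, ?_, ?_, Real.one_le_rpow hX.le hρ⟩
  · intro p' hp'
    simp only [List.mem_cons, List.not_mem_nil, or_false] at hp'
    rcases hp' with rfl | rfl | rfl
    · exact ⟨(hlmp 0).1, (hlmp 0).2, hle _ _ (by linarith only [hy3x, hx0, hκ1]) hc.b0⟩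
    · exact ⟨(hlmp 1).1, (hlmp 1).2, hle _ _ (by linarith only [hy3x, hx0, hκ1, hy43]) hc.b1⟩
    · exact ⟨(hlmp 2).1, (hlmp 2).2, hle _ _ (by linarith only [hy3x, hx0, hκ1, hy43, hu4])
        hc.b2⟩
  · intro p' hp'
    exact ⟨hamq p' hp', (hg p' hp').2.2, (hgran p' hp').trans hδσL⟩
  · intro p' hp'
    simp only [List.mem_cons] at hp'
    rcases hp' with rfl | rfl | rfl | hp'
    · exact hs2 0
    · exact hs2 1
    · exact hs2 2
    · exact ((hg p' hp').2.1).trans (Real.rpow_le_rpow_of_exponent_le hX.le hBB)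
  · intro p' hp'
    simp only [List.mem_cons] at hp'
    rcases hp' with rfl | rfl | rfl | hp'
    · exact hs1 0
    · exact hs1 1
    · exact hs1 2
    · exact (hg p' hp').1

/-- the numbers of a block -/
lemma num_of {X δ d κ y₃ y₄ u x pq e0 : ℝ} {a : Bc} {qs : List Pq} (hX : 1 < X) (hδ : 0 ≤ δ)
    (hδ7 : δ ≤ 1 / 10 ^ 7) (hLδ : 2 ≤ δ * Real.log X) (hκ0 : 8 / 9 ≤ κ) (hκ1 : κ ≤ 1)
    (hdp : Dp (y₃ / κ) (y₄ / κ) (u / κ) (x / κ) d)
    (hc : Cf (Real.log X) δ κ y₃ y₄ u x pq a qs) (he1 : e0 ≤ 1 / 64) (hl0 : 0 ≤ a.1.l)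
    {δ' e a' : Eis} {j : ℕ} (hδ' : IsPrim δ') (he : IsPrim e) (ha' : IsPrim a')
    (hee : (nm e : ℝ) ≤ Real.exp (e0 * a.1.l)) (j1 : j < nO a.1 + 1)
    (j2 : (nm δ' : ℝ) ^ 2 * (YT a.1.l (a3 a.1) a.1.z / 2 ^ j) < 2 * YT a.1.l (a3 a.1) a.1.z) :
    1 ≤ YT a.1.l (a3 a.1) a.1.z / 2 ^ j ∧
    Num (Real.log X) δ κ y₃ y₄ u x d a.1.l a.1.z (a3 a.1) (LN (cl a qs))
      (Real.log (YT a.1.l (a3 a.1) a.1.z)) (Real.log (nm δ')) (Real.log (nm a'))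
      (Real.log (nm e)) (Real.log (YT a.1.l (a3 a.1) a.1.z / 2 ^ j)) := by
  have hL0' : 0 < Real.log X := Real.log_pos hX
  have hlog2' : Real.log 2 ≤ 1 := by linarith only [Real.log_two_lt_d9]
  set Z := YT a.1.l (a3 a.1) a.1.z with hZ
  have hZ0 : 0 < Z := by rw [hZ]; unfold YT; positivity
  have hV1 : 1 ≤ Z / 2 ^ j := by
    rw [le_div_iff₀ (by positivity), one_mul, hZ]
    unfold YT
    exact pow_le_pow_right₀ (by norm_num) (Nat.lt_succ_iff.1 j1)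
  have hV0 : 0 < Z / 2 ^ j := by linarith only [hV1]
  have hnδ : (0 : ℝ) < nm δ' := by exact_mod_cast nm_pos.2 hδ'.ne_zero
  have hne : (1 : ℝ) ≤ nm e := by exact_mod_cast nm_pos.2 he.ne_zero
  have hna : (1 : ℝ) ≤ nm a' := by exact_mod_cast nm_pos.2 ha'.ne_zero
  refine ⟨hV1, hL0', hδ, hδ7, hκ0, hκ1, hdp, hc.hk, hc.hz, hc.hA, hc.lo, hc.hi,
    Real.log_nonneg hna, Real.log_nonneg hne, ?_, Real.log_nonneg hV1, ?_, hc.y1,
    by linarith only [hlog2', hLδ]⟩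
  · have h1 := Real.log_le_log (by linarith only [hne]) hee
    rw [Real.log_exp] at h1
    exact h1.trans (mul_le_mul_of_nonneg_right he1 hl0)
  · have h1 := Real.log_le_log (by positivity) j2.le
    rw [Real.log_mul (by positivity) (by positivity), Real.log_mul (by norm_num) hZ0.ne',
      Real.log_pow] at h1
    push_cast at h1
    linarith only [h1]

/-- the parameters of the functional -/
lemma par_of {X δ d κ y₃ y₄ u x pq e0 : ℝ} {a : Bc} {qs : List Pq} (hX : 1 < X) (hδ : 0 ≤ δ)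
    (hδ7 : δ ≤ 1 / 10 ^ 7) (hLδ : 2 ≤ δ * Real.log X) (hκ0 : 8 / 9 ≤ κ) (hκ1 : κ ≤ 1)
    (hdp : Dp (y₃ / κ) (y₄ / κ) (u / κ) (x / κ) d)
    (hc : Cf (Real.log X) δ κ y₃ y₄ u x pq a qs) (he1 : e0 ≤ 1 / 64) :
    0 ≤ a.1.l ∧ Real.sqrt (YT a.1.l (a3 a.1) a.1.z) ≤ X ^ 4 ∧
    Real.exp (e0 * a.1.l) ≤ X ^ 4 ∧ (2 : ℝ) ^ (nO a.1 + 1) ≤ X ^ 4 := by
  have hX0 : 0 < X := by linarith only [hX]
  have hL0' : 0 < Real.log X := Real.log_pos hX
  have κp : 0 < κ := by linarith only [hκ0]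
  obtain ⟨hu4, hy43, hu0, hy3x, hN1, hnr, hx0, -, -, -⟩ := dp_hom κp hdp
  have hκL1 : κ * Real.log X ≤ 1 * Real.log X := mul_le_mul_of_nonneg_right hκ1 hL0'.le
  have hκL0 : 8 / 9 * Real.log X ≤ κ * Real.log X := mul_le_mul_of_nonneg_right hκ0 hL0'.le
  have hδ7L := mul_le_mul_of_nonneg_right hδ7 hL0'.le
  obtain ⟨k1, k2⟩ := abs_le.1 hc.hk
  obtain ⟨z1, z2⟩ := abs_le.1 hc.hz
  obtain ⟨A1, A2⟩ := abs_le.1 hc.hA
  have hl0 : 0 ≤ a.1.l := by linarith only [k1, hκL0, hδ7L, hL0']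
  have hlog2 : 0 < Real.log 2 := Real.log_pos (by norm_num)
  have hlog2' : Real.log 2 ≤ 1 := by linarith only [Real.log_two_lt_d9]
  have hx1 : x * Real.log X ≤ 7 / 100 * κ * Real.log X :=
    mul_le_mul_of_nonneg_right (by linarith only [hy3x, hu4, hy43, hu0]) hL0'.le
  have hN1L := mul_le_mul_of_nonneg_right hN1 hL0'.le
  set Z := YT a.1.l (a3 a.1) a.1.z with hZ
  have hZ0 : 0 < Z := by rw [hZ]; unfold YT; positivity
  have hyL : Real.log Z + Real.log 2 ≤ 2 * Real.log X := by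
    have hm2 := min_le_right (2 * a3 a.1 - a.1.l) (3 / 4 * a3 a.1)
    have hy1 := hc.y1
    rcases max_cases 0 (min (2 * a3 a.1 - a.1.l) (3 / 4 * a3 a.1) + 3 * a.1.z) with
      ⟨h1, -⟩ | ⟨h1, -⟩
    · rw [h1] at hy1
      linarith only [hy1, hlog2', hLδ, hδ7L, hL0']
    · rw [h1] at hy1
      linarith only [hy1, hlog2', hLδ, hδ7L, hL0', hm2, A2, hN1L, hx1, z2, hκL1]
  have hXexp : ∀ c : ℝ, c ≤ 4 * Real.log X → Real.exp c ≤ X ^ 4 := fun c hc => by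
    rw [← Real.le_log_iff_exp_le (by positivity), Real.log_pow]
    push_cast
    exact hc
  have hZexp : Z = Real.exp (Real.log Z) := by rw [Real.exp_log hZ0]
  refine ⟨hl0, ?_, ?_, ?_⟩
  · have h1 : 1 ≤ Z := by
      rw [hZ]; unfold YT; exact one_le_pow₀ (by norm_num)
    have h2 : Real.sqrt Z ≤ Z := by
      rw [Real.sqrt_le_left (by linarith only [h1])]
      nlinarith only [h1]
    refine h2.trans ?_
    rw [hZexp]
    exact hXexp _ (by linarith only [hyL, hlog2, hL0'])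
  · refine hXexp _ ?_
    have := mul_le_mul_of_nonneg_right he1 hl0
    linarith only [this, k2, hκL1, hδ7L, hL0']
  · have e1 : (2 : ℝ) ^ (nO a.1 + 1) = Real.exp (Real.log Z + Real.log 2) := by
      rw [Real.exp_add, ← hZexp, Real.exp_log (by norm_num), pow_succ]
      rfl
    rw [e1]
    exact hXexp _ (by linarith only [hyL, hL0'])

/-- **the real side of E2 for `P1`** -/
theorem rpU_of {c₀ : ℝ} (hpu : PU h c₀) (hP : ∀ lam, (π lam).OK) {Rh : ℝ} (hRh0 : 0 ≤ Rh)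
    (hRh : ∀ u, cx h u ≠ 0 → |u| ≤ Rh)
    (hPM : UBs S3b Dq (MP3 π h (fun _ => 0) (fun _ => 0)) (fbx 8) ∅ (Epm d))
    (hRF : RM986.Plain (fun _ k => k ≠ 0) π h 8
      (fun κ y₁ y₂ y₃ m a => max (RM986.r3 d κ y₁ y₂ y₃ m a)
        (κ / 3 + 2 * a + 2 * (7 / 8 + d) * m)))
    (hTM : UBs TM708.S3 Dq (TMF π h fun _ => 0) (fbT 8) ∅ (EAll d)) {e0 : ℝ}
    (he1 : e0 ≤ 1 / 64) {Par : Set (Fin 3 ⊕ Fin 5 → ℝ)} {L0 : (Fin 3 ⊕ Fin 5 → ℝ) → ℝ}
    (hPar : ∀ p ∈ Par, ParOK p)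
    (hDp : ∀ p ∈ Par, Dp (cu p 2 / cκ p) (cu p 3 / cκ p) (cu p 4 / cκ p) (cx' p / cκ p) d)
    (hL0 : ∀ p ∈ Par, max 0 (5 / 4 * cN p - cκ p) ≤ L0 p) : RpU π h e0 Par L0 := by
  intro R hR Nw Mw Fw hWD ε hε
  obtain ⟨σ, hσ, hσ1, H⟩ := P1Rk440.blk_Qs hpu hP hRh0 hRh hPM hRF hTM
  obtain ⟨C₁, hC₁, HR⟩ := RPg_Qs (ε := ε / 16) (by positivity)
  obtain ⟨δ, hδ, hδσ, hδ7⟩ : ∃ δ : ℝ, 0 < δ ∧ δ ≤ σ / 2 ∧ δ ≤ 1 / 10 ^ 7 :=
    ⟨min (σ / 2) (1 / 10 ^ 7), lt_min (by positivity) (by norm_num), min_le_left _ _,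
      min_le_right _ _⟩
  refine ⟨δ, hδ, ?_⟩
  rintro ⟨lam, st⟩ N B
  by_cases hs0 : st = 0
  · refine ⟨1, one_pos, 2, by norm_num, ?_⟩
    intro X hX a qs _ _ q _ _ _ _ _
    have : ¬ okC (π lam) st a qs := fun hok => hok.2.1.1 hs0
    unfold RpC
    rw [if_neg this]
    positivity
  set B₂ : ℝ := max B 3 with hB₂
  have hBB : B ≤ B₂ := le_max_left _ _
  have hB3 : 3 ≤ B₂ := le_max_right _ _
  obtain ⟨M, X₁, hX₁, H⟩ := H lam st hs0 N B₂ (by linarith) _ _ _ _ (hWD lam)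
  set C₂ : ℝ := Nw lam * C₁ + 1 with hC₂
  have hC₂1 : 1 ≤ C₂ := by
    have : 0 ≤ (Nw lam : ℝ) * C₁ := by positivity
    linarith
  have hlC₂ : 0 ≤ Real.log C₂ := Real.log_nonneg hC₂1
  set ρ : ℝ := 1 / (10 ^ 4 * ((M : ℝ) + 1)) with hρ
  have hρ0 : 0 < ρ := by positivity
  refine ⟨ρ, hρ0, max X₁ (Real.exp (2 / δ + 4 * Real.log C₂ / ε)),
    lt_of_lt_of_le hX₁ (le_max_left _ _), ?_⟩
  intro X hX a qs hlen hgl q hq hw hm hg hl
  have hX1' : X₁ ≤ X := (le_max_left _ _).trans hX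
  have hX1 : 1 < X := lt_of_lt_of_le hX₁ hX1'
  have hX0 : 0 < X := by linarith
  by_cases hok : okC (π lam) st a qs
  swap
  · unfold RpC
    rw [if_neg hok]
    positivity
  have hL0' : 0 < Real.log X := Real.log_pos hX1
  have hQL : 2 / δ + 4 * Real.log C₂ / ε ≤ Real.log X := by
    rw [Real.le_log_iff_exp_le hX0]; exact (le_max_right _ _).trans hX
  have hLδ : 2 ≤ δ * Real.log X := by
    have h1 : 0 ≤ 4 * Real.log C₂ / ε := by positivity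
    have h2 : 2 / δ ≤ Real.log X := by linarith only [h1, hQL]
    rw [div_le_iff₀ hδ] at h2
    linarith only [h2]
  have hLC : C₂ ≤ X ^ (ε / 4) := by
    have h1 : 0 ≤ 2 / δ := by positivity
    have h2 : 4 * Real.log C₂ / ε ≤ Real.log X := by linarith only [h1, hQL]
    rw [div_le_iff₀ hε] at h2
    rw [Real.rpow_def_of_pos hX0, ← Real.exp_log (show 0 < C₂ by linarith only [hC₂1])]
    exact Real.exp_le_exp.2 (by linarith only [h2])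
  have hPp := hPar _ hq.1
  have hDpp := hDp _ hq.1
  have hL0p := hL0 _ hq.1
  have κp : 0 < cκ fun i => q.1 (.inl i) := by linarith only [hPp.κ0]
  have hc := cf_of hX1 hδ.le hq hw hm hok
  have hlmp : ∀ p ∈ qs, ¬ Dq.lump p := fun p' hp' h => Set.notMem_empty _ (hl p' hp' h)
  have hLst := lst_of (σ := σ) hX1 hδσ hδ7 hρ0.le hBB κp hPp.κ1 hDpp hc hw hgl hg hlmp hok
  obtain ⟨hl0, hsq, hE0P, h2I⟩ := par_of hX1 hδ.le hδ7 hLδ hPp.κ0 hPp.κ1 hDpp hc he1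
  have hMH : M * Real.log (X ^ ρ) ≤ Real.log X / 10 ^ 4 := by
    rw [hρ, Real.log_rpow hX0]
    have h1 : (M : ℝ) * (1 / (10 ^ 4 * ((M : ℝ) + 1)) * Real.log X) =
        M / (M + 1) * (Real.log X / 10 ^ 4) := by
      field_simp
    rw [h1]
    have h2 : (M : ℝ) / (M + 1) ≤ 1 := by
      rw [div_le_one (by positivity)]; linarith
    have h3 : 0 ≤ Real.log X / 10 ^ 4 := by positivity
    calc (M : ℝ) / (M + 1) * (Real.log X / 10 ^ 4) ≤ 1 * (Real.log X / 10 ^ 4) :=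
          mul_le_mul_of_nonneg_right h2 h3
      _ = _ := one_mul _
  -- the target
  set Rn : ℝ := X ^ (E8 L0 q + ε / 2) with hRn
  have hRn0 : 0 < Rn := by positivity
  have hlRn : (cκ fun i => q.1 (.inl i)) * Real.log X + LN (cl a qs) +
      max 0 (5 / 4 * (cu (fun i => q.1 (.inl i)) 2 + cu (fun i => q.1 (.inl i)) 3 +
        cu (fun i => q.1 (.inl i)) 4) - cκ fun i => q.1 (.inl i)) * Real.log X -
      4 * (δ * Real.log X) ≤ Real.log Rn := by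
    rw [hRn, Real.log_rpow hX0]
    have e1 : E8 L0 q = (cκ fun i => q.1 (.inl i)) + ∑ i : Fin 3, q.1 (.inr i) + q.2 .am +
      L0 fun i => q.1 (.inl i) := rfl
    rw [e1]
    have h1 := mul_le_mul_of_nonneg_right hL0p hL0'.le
    have h2 : 0 ≤ ε / 2 * Real.log X := by positivity
    have h3 := hc.up
    unfold E5B71.cN at h1
    linarith only [h1, h2, h3]
  have hal : alC π h (lam, st) a qs =
      tw3 st (sqc 1 (alF 1 1 (π lam) h (natl ([a.2 0, a.2 1, a.2 2] ++ qs)))) := by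
    unfold P10146.alC
    rw [sqc_tw, cl_eq]
  unfold RpC
  rw [if_pos hok]
  set Z := YT a.1.l (a3 a.1) a.1.z with hZ
  have hZ0 : 0 < Z := by rw [hZ]; unfold YT; positivity
  have hone : ∀ i ∈ Finset.range (Nw lam), RPg (rhoS (Tgc a qs) a.1.l (Shat a qs))
      (alC π h (lam, st) a qs) (sc (Real.exp a.1.l) (Mw lam) i) (X6C180.GF (Fw lam i))
      (S (Real.sqrt Z)) (nO a.1 + 1) (Real.exp (e0 * a.1.l)) Z ≤
      C₁ * (X ^ 4) ^ (ε / 16) * Rn := by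
    intro i hi
    have hi' := Finset.mem_range.1 hi
    refine HR (X ^ 4) _ (Real.sqrt Z) Z (Real.exp (e0 * a.1.l)) Rn (nO a.1 + 1)
      (one_le_pow₀ hX1.le)
      (WDec180.sc_pos (Real.exp_pos _) _ _) (Real.sqrt_nonneg _) hsq hZ0 (Real.exp_pos _).le hE0P
      h2I hRn0.le _ _ _ _ (rw_rhoS (lipS_Sh5 _ _ _) (by norm_num) _ _) ?_
    intro δ' hδ' j hj e he yy hyy a' ha'
    obtain ⟨d1, d2, d3⟩ := (mem_S (Real.sqrt_nonneg _)).1 hδ'
    obtain ⟨f1, f2, f3⟩ := (mem_S (Real.exp_pos _).le).1 he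
    unfold LBx48.neb at hj
    rw [Finset.mem_filter, Finset.mem_range] at hj
    obtain ⟨j1, j2⟩ := hj
    have hyy' := (mem_prs d2).mp hyy
    have ha2 := (mem_pdiv hyy'.1.ne_zero).mp ha'
    obtain ⟨hV1, hNum⟩ := num_of hX1 hδ.le hδ7 hLδ hPp.κ0 hPp.κ1 hDpp hc he1 hl0 d2 f2 ha2.1 f1 j1
      j2
    have hV0 : 0 < Z / 2 ^ j := by linarith only [hV1]
    have key := H X hX1' (a.2 0) (a.2 1) (a.2 2) qs hlen (X ^ ρ) hLst hMH δ _ _ _ _ _ a.1.l a.1.z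
      (a3 a.1) (LN (cl a qs)) _ (Real.log (Z / 2 ^ j)) Rn δ' e d2 d3 f2 yy hyy a' ha'
      (eq_or_lt_of_le (Real.log_nonneg hV1) |>.imp_left Eq.symm) hNum (by rw [cl_eq]) hRn0 hlRn
      hc.b0 hc.b1 hc.b2 hc.w i hi'
    rw [Real.exp_log hV0] at key
    rw [hal]
    exact key
  refine (Finset.sum_le_sum hone).trans ?_
  rw [Finset.sum_const, Finset.card_range, nsmul_eq_mul]
  have e1 : ((X : ℝ) ^ 4) ^ (ε / 16) = X ^ (ε / 4) := by
    rw [← Real.rpow_natCast, ← Real.rpow_mul hX0.le]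
    congr 1
    push_cast
    ring
  rw [e1]
  calc (Nw lam : ℝ) * (C₁ * X ^ (ε / 4) * Rn) = Nw lam * C₁ * (X ^ (ε / 4) * Rn) := by ring
    _ ≤ X ^ (ε / 4) * (X ^ (ε / 4) * Rn) := by
        refine mul_le_mul_of_nonneg_right ?_ (by positivity)
        refine le_trans ?_ hLC
        rw [hC₂]
        linarith only
    _ = X ^ (E8 L0 q + ε) := by
        rw [hRn, ← Real.rpow_add hX0, ← Real.rpow_add hX0]
        congr 1
        ring

end Crest.Agent.R017.P1Rl440
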