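import Crest.Agent.R017.UM_71

/-!
# Row 17, E4 at list level: uniform bounds with slack (helper973, for helper699)

* `real_slack`, `real_slack_on`, `near_slack` : real compactness
* `Wn` : the window without heights, slack `σ`; `UBs`, `UBs_iff` : uniform bound with slack
  constraint `f ≤ σ`, heights free at a cost `H ^ M`
* `Triv` : trivial bound; `ubs_of_ub` : `UBs` from `UB` (`E5B71.UB`, = `UB'` by unfolding) on the
  exact domain and a trivial bound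
-/

set_option autoImplicit false
set_option linter.unusedSectionVars false
set_option linter.unusedVariables false

noncomputable section

open Set Filter Topology

namespace Crest.Agent.R017.UBT973

open Crest.Agent.R017.XG702 (Pcs)
open Crest.Agent.R017.XT71 (Sys Win)
open Crest.Agent.R017.UM71

/-! ### real compactness -/

section real

variable {Q : Type*} [PseudoMetricSpace Q]

/-- a continuous function which is positive on the compact part `C` is bounded below there -/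
theorem slack_of_compact {f : Q → ℝ} (hf : Continuous f) {C : Set Q}
    (hC : IsCompact C) (hpos : ∀ q ∈ C, 0 < f q) :
    ∃ σ : ℝ, 0 < σ ∧ ∀ q ∈ C, σ < f q := by
  rcases C.eq_empty_or_nonempty with he | hne
  · exact ⟨1, one_pos, fun q hq => by rw [he] at hq; exact hq.elim⟩
  · obtain ⟨m, hm, hmin⟩ := hC.exists_isMinOn hne hf.continuousOn
    exact ⟨f m / 2, by linarith [hpos m hm], fun q hq => by
      have : f m ≤ f q := hmin hq
      linarith [hpos m hm]⟩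

/-- exact point near a point with small violation -/
theorem near_slack {f : Q → ℝ} (hf : Continuous f) (hc : IsCompact {q | f q ≤ 1}) {δ : ℝ}
    (hδ : 0 < δ) :
    ∃ σ : ℝ, 0 < σ ∧ σ ≤ 1 ∧ ∀ q, f q ≤ σ → ∃ p, f p ≤ 0 ∧ dist q p < δ := by
  set U : Set Q := ⋃ p ∈ {p : Q | f p ≤ 0}, Metric.ball p δ with hU
  have hUo : IsOpen U := isOpen_biUnion fun p _ => Metric.isOpen_ball
  obtain ⟨σ, hσ, h⟩ := slack_of_compact hf (hc.diff hUo) (fun q hq => by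
    by_contra hcon
    refine hq.2 ?_
    rw [hU, mem_iUnion₂]
    exact ⟨q, not_lt.1 hcon, Metric.mem_ball_self hδ⟩)
  refine ⟨min σ 1, lt_min hσ one_pos, min_le_right _ _, fun q hq => ?_⟩
  by_contra hcon
  have hqU : q ∉ U := by
    intro hqU
    rw [hU, mem_iUnion₂] at hqU
    obtain ⟨p, hp, hd⟩ := hqU
    exact hcon ⟨p, hp, hd⟩
  exact absurd (h q ⟨hq.trans (min_le_right _ _), hqU⟩) (not_lt.2 (hq.trans (min_le_left _ _)))

/-- **real compactness**: an inequality on `{f ≤ 0}` holds up to `ε` on `{f ≤ σ}` -/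
theorem real_slack {f g E : Q → ℝ} (hc : IsCompact {q | f q ≤ 1}) (hf : Continuous f)
    (hg : Continuous g) (hE : Continuous E) (h : ∀ q, f q ≤ 0 → g q ≤ E q) {ε : ℝ} (hε : 0 < ε) :
    ∃ σ : ℝ, 0 < σ ∧ ∀ q, f q ≤ σ → g q ≤ E q + ε := by
  have hC : IsCompact ({q | f q ≤ 1} ∩ {q | E q + ε ≤ g q}) :=
    hc.inter_right (isClosed_le (hE.add continuous_const) hg)
  obtain ⟨σ, hσ, hlow⟩ := slack_of_compact hf hC (fun q hq => by
    by_contra hcon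
    have h1 := h q (not_lt.1 hcon)
    have h2 : E q + ε ≤ g q := hq.2
    linarith)
  refine ⟨min σ 1, lt_min hσ one_pos, fun q hq => ?_⟩
  by_contra hcon
  exact absurd (hlow q ⟨hq.trans (min_le_right _ _), (not_le.1 hcon).le⟩)
    (not_lt.2 (hq.trans (min_le_left _ _)))

/-- the same on a compact set `K` (constraints only there) -/
theorem real_slack_on {f g E : Q → ℝ} {K : Set Q} (hK : IsCompact K) (hf : Continuous f)
    (hg : Continuous g) (hE : Continuous E) (h : ∀ q ∈ K, f q ≤ 0 → g q ≤ E q) {ε : ℝ}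
    (hε : 0 < ε) :
    ∃ σ : ℝ, 0 < σ ∧ ∀ q ∈ K, f q ≤ σ → g q ≤ E q + ε := by
  have hC : IsCompact (K ∩ {q | E q + ε ≤ g q}) :=
    hK.inter_right (isClosed_le (hE.add continuous_const) hg)
  obtain ⟨σ, hσ, hlow⟩ := slack_of_compact hf hC (fun q hq => by
    by_contra hcon
    have h1 := h q hq.1 (not_lt.1 hcon)
    have h2 : E q + ε ≤ g q := hq.2
    linarith)
  refine ⟨σ, hσ, fun q hqK hq => ?_⟩
  by_contra hcon
  exact absurd (hlow q ⟨hqK, (not_le.1 hcon).le⟩) (not_lt.2 hq)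

end real

/-! ### uniform bounds with slack -/

variable {A Pc' ι τ Λ : Type*} [DecidableEq τ]

/-- copy of `E5B71.UB` (definitionally equal), so that this file does not need the row's closure -/
def UB' (S : Sys A ι) (D : Pcs Pc' τ) (Ψ : Λ → A → List Pc' → ℝ)
    (Dom : Set ((ι → ℝ) × (τ → ℝ))) (al : Set ((ι → ℝ) × ℝ))
    (E : (ι → ℝ) × (τ → ℝ) → ℝ) : Prop :=
  ∀ ε : ℝ, 0 < ε → ∃ δ : ℝ, 0 < δ ∧ ∀ (lam : Λ) (N : ℕ) (B : ℝ), ∃ δ' : ℝ, 0 < δ' ∧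
    ∃ X₀ : ℝ, 1 < X₀ ∧ ∀ X : ℝ, X₀ ≤ X → ∀ (a : A) (ps : List Pc'), ps.length ≤ N →
      (∀ p ∈ ps, D.lump p ∨ D.nl X p ≤ δ) → ∀ q ∈ Dom, Win S q.1 δ N B δ' X a →
      (∀ t, |D.mass X ps t - q.2 t| ≤ δ) → D.Good X δ' B ps →
      (∀ p ∈ ps, D.lump p → (S.ev X a, D.nl X p) ∈ al) → Ψ lam a ps ≤ X ^ (E q + ε)

/-- the window without heights, slack `σ` -/
structure Wn (S : Sys A ι) (D : Pcs Pc' τ) (f : (ι → ℝ) × (τ → ℝ) → ℝ)
    (al : Set ((ι → ℝ) × ℝ)) (σ : ℝ) (N : ℕ) (B X : ℝ) (a : A) (ps : List Pc') : Prop where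
  len : ps.length ≤ N
  gran : ∀ p ∈ ps, D.lump p ∨ D.nl X p ≤ σ
  g : S.g a ≤ X ^ σ
  n : S.n a ≤ N
  s₂ : S.s₂ a ≤ X ^ B
  good : ∀ p ∈ ps, D.s2 p ≤ X ^ B ∧ 0 ≤ D.len p
  f : f (S.ev X a, D.mass X ps) ≤ σ
  al : ∀ p ∈ ps, D.lump p → (S.ev X a, D.nl X p) ∈ al

/-- **uniform bound with slack**, heights free at a cost -/
def UBs (S : Sys A ι) (D : Pcs Pc' τ) (Ψ : Λ → A → List Pc' → ℝ)
    (f : (ι → ℝ) × (τ → ℝ) → ℝ) (al : Set ((ι → ℝ) × ℝ))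
    (E : (ι → ℝ) × (τ → ℝ) → ℝ) : Prop :=
  ∀ ε : ℝ, 0 < ε → ∃ σ : ℝ, 0 < σ ∧ ∀ (lam : Λ) (N : ℕ) (B : ℝ), ∃ (M : ℕ) (X₀ : ℝ), 1 < X₀ ∧
    ∀ X : ℝ, X₀ ≤ X → ∀ (a : A) (ps : List Pc'), ps.length ≤ N →
      (∀ p ∈ ps, D.lump p ∨ D.nl X p ≤ σ) → S.g a ≤ X ^ σ → S.n a ≤ N → S.s₂ a ≤ X ^ B →
      (∀ p ∈ ps, D.s2 p ≤ X ^ B ∧ 0 ≤ D.len p) → f (S.ev X a, D.mass X ps) ≤ σ →
      (∀ p ∈ ps, D.lump p → (S.ev X a, D.nl X p) ∈ al) →
      ∀ H : ℝ, 1 ≤ H → S.s₁ a ≤ H → (∀ p ∈ ps, D.s1 p ≤ H) →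
        Ψ lam a ps ≤ H ^ M * X ^ (E (S.ev X a, D.mass X ps) + ε)

/-- trivial bound (any power of `X`, heights at a cost) -/
def Triv (S : Sys A ι) (D : Pcs Pc' τ) (Ψ : Λ → A → List Pc' → ℝ)
    (f : (ι → ℝ) × (τ → ℝ) → ℝ) (al : Set ((ι → ℝ) × ℝ)) : Prop :=
  ∀ (lam : Λ) (N : ℕ) (B : ℝ), ∃ (M : ℕ) (C : ℝ), ∀ X : ℝ, 2 ≤ X → ∀ (a : A) (ps : List Pc'),
    Wn S D f al 1 N B X a ps → ∀ H : ℝ, 1 ≤ H → S.s₁ a ≤ H → (∀ p ∈ ps, D.s1 p ≤ H) →
      Ψ lam a ps ≤ H ^ M * X ^ C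

variable {S : Sys A ι} {D : Pcs Pc' τ}

/-- `UBs` in terms of `Wn` -/
theorem UBs_iff {Ψ : Λ → A → List Pc' → ℝ} {f : (ι → ℝ) × (τ → ℝ) → ℝ}
    {al : Set ((ι → ℝ) × ℝ)} {E : (ι → ℝ) × (τ → ℝ) → ℝ} :
    UBs S D Ψ f al E ↔ ∀ ε : ℝ, 0 < ε → ∃ σ : ℝ, 0 < σ ∧ ∀ (lam : Λ) (N : ℕ) (B : ℝ),
      ∃ (M : ℕ) (X₀ : ℝ), 1 < X₀ ∧ ∀ X : ℝ, X₀ ≤ X → ∀ (a : A) (ps : List Pc'),
        Wn S D f al σ N B X a ps → ∀ H : ℝ, 1 ≤ H → S.s₁ a ≤ H → (∀ p ∈ ps, D.s1 p ≤ H) →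
          Ψ lam a ps ≤ H ^ M * X ^ (E (S.ev X a, D.mass X ps) + ε) := by
  constructor
  · intro h ε hε
    obtain ⟨σ, hσ, K⟩ := h ε hε
    refine ⟨σ, hσ, fun lam N B => ?_⟩
    obtain ⟨M, X₀, hX₀, K1⟩ := K lam N B
    exact ⟨M, X₀, hX₀, fun X hX a ps w H hH h1 h2 =>
      K1 X hX a ps w.len w.gran w.g w.n w.s₂ w.good w.f w.al H hH h1 h2⟩
  · intro h ε hε
    obtain ⟨σ, hσ, K⟩ := h ε hε
    refine ⟨σ, hσ, fun lam N B => ?_⟩
    obtain ⟨M, X₀, hX₀, K1⟩ := K lam N B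
    exact ⟨M, X₀, hX₀, fun X hX a ps w1 w2 w3 w4 w5 w6 w7 w8 H hH h1 h2 =>
      K1 X hX a ps ⟨w1, w2, w3, w4, w5, w6, w7, w8⟩ H hH h1 h2⟩

theorem Wn.mono {f : (ι → ℝ) × (τ → ℝ) → ℝ} {al : Set ((ι → ℝ) × ℝ)} {σ σ' : ℝ} {N N' : ℕ}
    {B B' X : ℝ} {a : A} {ps : List Pc'} (h : Wn S D f al σ N B X a ps) (hX : 1 ≤ X)
    (hσ : σ ≤ σ') (hN : N ≤ N') (hB : B ≤ B') : Wn S D f al σ' N' B' X a ps where
  len := h.len.trans hN
  gran p hp := (h.gran p hp).imp id fun h => h.trans hσ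
  g := h.g.trans (Real.rpow_le_rpow_of_exponent_le hX hσ)
  n := h.n.trans hN
  s₂ := h.s₂.trans (Real.rpow_le_rpow_of_exponent_le hX hB)
  good p hp := ⟨(h.good p hp).1.trans (Real.rpow_le_rpow_of_exponent_le hX hB), (h.good p hp).2⟩
  f := h.f.trans hσ
  al := h.al

/-- **`UBs` from `UB` on the exact domain** -/
theorem ubs_of_ub [Fintype ι] [Fintype τ] {Ψ : Λ → A → List Pc' → ℝ}
    {f : (ι → ℝ) × (τ → ℝ) → ℝ} {al : Set ((ι → ℝ) × ℝ)} {E : (ι → ℝ) × (τ → ℝ) → ℝ}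
    (hf : Continuous f) (hc : IsCompact {q | f q ≤ 1}) (hE : Continuous E)
    (htriv : Triv S D Ψ f al) (h : UB' S D Ψ {q | f q ≤ 0} al E) : UBs S D Ψ f al E := by
  rw [UBs_iff]
  intro ε hε
  obtain ⟨δ, hδ, K⟩ := h (ε / 2) (by linarith)
  -- uniform continuity of `E`
  obtain ⟨η, hη, hEu⟩ : ∃ η : ℝ, 0 < η ∧ ∀ p ∈ {q | f q ≤ 1}, ∀ q ∈ {q | f q ≤ 1},
      dist q p < η → E p ≤ E q + ε / 2 := by
    have huc := hc.uniformContinuousOn_of_continuous hE.continuousOn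
    rw [Metric.uniformContinuousOn_iff] at huc
    obtain ⟨r, hr, h⟩ := huc (ε / 2) (by linarith)
    refine ⟨r, hr, fun p hp q hq hd => ?_⟩
    have := h q hq p hp hd
    rw [Real.dist_eq] at this
    linarith [(abs_lt.1 this).1]
  obtain ⟨c, hcE⟩ : ∃ c : ℝ, ∀ q ∈ {q | f q ≤ 1}, -c ≤ E q := by
    obtain ⟨c, hc⟩ := (hc.image hE).isBounded.exists_norm_le
    refine ⟨c, fun q hq => ?_⟩
    have := hc (E q) ⟨q, hq, rfl⟩
    rw [Real.norm_eq_abs] at this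
    linarith [(abs_le.1 this).1]
  obtain ⟨ρ, hρ, hρ1, hnear⟩ := near_slack hf hc (lt_min hδ hη)
  refine ⟨min (min ρ δ) 1, lt_min (lt_min hρ hδ) one_pos, fun lam N B => ?_⟩
  obtain ⟨δ', hδ', X₀, hX₀, K1⟩ := K lam N B
  obtain ⟨M0, C, htr⟩ := htriv lam N B
  obtain ⟨k, hk⟩ : ∃ k : ℕ, (|C| + |c|) / δ' ≤ k := exists_nat_ge _
  refine ⟨M0 + k, max X₀ 2, lt_of_lt_of_le hX₀ (le_max_left _ _), ?_⟩
  intro X hX a ps w H hH h1 h2
  have hX2 : 2 ≤ X := (le_max_right _ _).trans hX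
  have hX1 : (1 : ℝ) ≤ X := by linarith
  have hXp : 0 < X := by linarith
  have hσρ : min (min ρ δ) 1 ≤ ρ := (min_le_left _ _).trans (min_le_left _ _)
  have hσδ : min (min ρ δ) 1 ≤ δ := (min_le_left _ _).trans (min_le_right _ _)
  have hfq : f (S.ev X a, D.mass X ps) ≤ ρ := w.f.trans hσρ
  have hq1 : f (S.ev X a, D.mass X ps) ≤ 1 := hfq.trans hρ1
  have hHM : (1 : ℝ) ≤ H ^ (M0 + k) := one_le_pow₀ hH
  rcases le_or_gt H (X ^ δ') with hHX | hHX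
  · -- small heights
    obtain ⟨p, hp, hd⟩ := hnear _ hfq
    have hdδ : dist (S.ev X a, D.mass X ps) p < δ := hd.trans_le (min_le_left _ _)
    have hdη : dist (S.ev X a, D.mass X ps) p < η := hd.trans_le (min_le_right _ _)
    have hEp := hEu p (le_trans (show f p ≤ 0 from hp) zero_le_one) _ hq1 hdη
    have d1 : ∀ i, |S.ev X a i - p.1 i| ≤ δ := by
      intro i
      have e1 : dist (S.ev X a) p.1 ≤ dist (S.ev X a, D.mass X ps) p := by
        rw [Prod.dist_eq]; exact le_max_left _ _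
      have e2 := dist_le_pi_dist (S.ev X a) p.1 i
      rw [Real.dist_eq] at e2; linarith
    have d2 : ∀ t, |D.mass X ps t - p.2 t| ≤ δ := by
      intro t
      have e1 : dist (D.mass X ps) p.2 ≤ dist (S.ev X a, D.mass X ps) p := by
        rw [Prod.dist_eq]; exact le_max_right _ _
      have e2 := dist_le_pi_dist (D.mass X ps) p.2 t
      rw [Real.dist_eq] at e2; linarith
    have key := K1 X ((le_max_left _ _).trans hX) a ps w.len
      (fun p hp => (w.gran p hp).imp id fun h => h.trans hσδ) p hp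
      ⟨d1, w.g.trans (Real.rpow_le_rpow_of_exponent_le hX1 hσδ), w.n, h1.trans hHX, w.s₂⟩ d2
      (fun p hp => ⟨(h2 p hp).trans hHX, w.good p hp⟩) w.al
    calc Ψ lam a ps ≤ X ^ (E p + ε / 2) := key
      _ ≤ X ^ (E (S.ev X a, D.mass X ps) + ε) :=
          Real.rpow_le_rpow_of_exponent_le hX1 (by linarith)
      _ ≤ H ^ (M0 + k) * X ^ (E (S.ev X a, D.mass X ps) + ε) :=
          le_mul_of_one_le_left (by positivity) hHM
  · -- large heights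
    have key := htr X hX2 a ps (w.mono hX1 (min_le_right _ _) le_rfl le_rfl) H hH h1 h2
    have hHk : X ^ (δ' * k) ≤ H ^ k := by
      rw [Real.rpow_mul hXp.le, Real.rpow_natCast]
      exact pow_le_pow_left₀ (by positivity) hHX.le k
    have hk' : |C| + |c| ≤ δ' * k := by
      rw [div_le_iff₀ hδ'] at hk
      linarith
    have hexp : C ≤ δ' * k + (E (S.ev X a, D.mass X ps) + ε) := by
      have h3 := hcE _ hq1
      have h4 := le_abs_self C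
      have h5 := le_abs_self c
      linarith
    calc Ψ lam a ps ≤ H ^ M0 * X ^ C := key
      _ ≤ H ^ M0 * (H ^ k * X ^ (E (S.ev X a, D.mass X ps) + ε)) := by
          refine mul_le_mul_of_nonneg_left ?_ (by positivity)
          calc X ^ C ≤ X ^ (δ' * k + (E (S.ev X a, D.mass X ps) + ε)) :=
                Real.rpow_le_rpow_of_exponent_le hX1 hexp
            _ = X ^ (δ' * k) * X ^ (E (S.ev X a, D.mass X ps) + ε) := Real.rpow_add hXp _ _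
            _ ≤ H ^ k * X ^ (E (S.ev X a, D.mass X ps) + ε) :=
                mul_le_mul_of_nonneg_right hHk (by positivity)
      _ = H ^ (M0 + k) * X ^ (E (S.ev X a, D.mass X ps) + ε) := by rw [pow_add]; ring

/-! ### calculus -/

/-- **`UB` from `UBs`** on a compact domain inside `{f ≤ 0}` -/
theorem ub_of_ubs [Fintype ι] [Fintype τ] {Ψ : Λ → A → List Pc' → ℝ}
    {f : (ι → ℝ) × (τ → ℝ) → ℝ} {al : Set ((ι → ℝ) × ℝ)} {E : (ι → ℝ) × (τ → ℝ) → ℝ}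
    {Dom : Set ((ι → ℝ) × (τ → ℝ))} (hDom : IsCompact Dom) (hf : Continuous f)
    (hle : ∀ q ∈ Dom, f q ≤ 0) (hE : Continuous E) (h : UBs S D Ψ f al E) :
    UB' S D Ψ Dom al E := by
  intro ε hε
  obtain ⟨σ, hσ, K⟩ := h (ε / 4) (by linarith)
  obtain ⟨η, hη, hfE⟩ : ∃ η : ℝ, 0 < η ∧ ∀ q ∈ Dom, ∀ p, dist q p < η →
      f p ≤ f q + σ ∧ E p ≤ E q + ε / 4 := by
    have h1 := hDom.uniformContinuousAt_of_continuousAt f (fun a _ => hf.continuousAt)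
      (Metric.dist_mem_uniformity hσ)
    have h2 := hDom.uniformContinuousAt_of_continuousAt E (fun a _ => hE.continuousAt)
      (Metric.dist_mem_uniformity (show 0 < ε / 4 by linarith))
    obtain ⟨r, hr, h3⟩ := Metric.mem_uniformity_dist.1 (Filter.inter_mem h1 h2)
    refine ⟨r, hr, fun q hq p hd => ?_⟩
    obtain ⟨h4, h5⟩ := h3 hd
    have h4' : dist (f q) (f p) < σ := h4 hq
    have h5' : dist (E q) (E p) < ε / 4 := h5 hq
    rw [Real.dist_eq] at h4' h5'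
    constructor
    · linarith [(abs_lt.1 h4').1]
    · linarith [(abs_lt.1 h5').1]
  refine ⟨min σ (η / 2), lt_min hσ (by linarith), fun lam N B => ?_⟩
  obtain ⟨M, X₀, hX₀, K1⟩ := K lam N B
  refine ⟨ε / (4 * (M + 1)), by positivity, X₀, hX₀, ?_⟩
  intro X hX a ps hlen hgr q hq hw hm hg hal
  have hX1 : (1 : ℝ) ≤ X := by linarith
  have hXp : 0 < X := by linarith
  have hδσ : min σ (η / 2) ≤ σ := min_le_left _ _
  have hδη : min σ (η / 2) < η := lt_of_le_of_lt (min_le_right _ _) (by linarith)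
  have hd : dist q (S.ev X a, D.mass X ps) < η := by
    rw [dist_comm, Prod.dist_eq]
    refine max_lt ?_ ?_
    · refine lt_of_le_of_lt ((dist_pi_le_iff (lt_min hσ (half_pos hη)).le).2 fun i => ?_) hδη
      rw [Real.dist_eq]; exact hw.ev i
    · refine lt_of_le_of_lt ((dist_pi_le_iff (lt_min hσ (half_pos hη)).le).2 fun t => ?_) hδη
      rw [Real.dist_eq]; exact hm t
  obtain ⟨h1, h2⟩ := hfE q hq _ hd
  have key := K1 X hX a ps hlen (fun p hp => (hgr p hp).imp id fun h => h.trans hδσ)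
    (hw.g.trans (Real.rpow_le_rpow_of_exponent_le hX1 hδσ)) hw.n hw.s₂
    (fun p hp => (hg p hp).2) (by linarith [hle q hq]) hal (X ^ (ε / (4 * (M + 1))))
    (Real.one_le_rpow hX1 (by positivity)) hw.s₁ (fun p hp => (hg p hp).1)
  refine key.trans ?_
  rw [← Real.rpow_natCast, ← Real.rpow_mul hXp.le, ← Real.rpow_add hXp]
  refine Real.rpow_le_rpow_of_exponent_le hX1 ?_
  have h3 : ε / (4 * (M + 1)) * (M : ℝ) ≤ ε / 4 := by
    rw [div_mul_eq_mul_div, div_le_div_iff₀ (by positivity) (by norm_num)]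
    nlinarith
  linarith

/-- change of the exponent by a real inequality on the exact domain -/
theorem UBs.real {Ψ : Λ → A → List Pc' → ℝ} [Fintype ι] [Fintype τ]
    {f : (ι → ℝ) × (τ → ℝ) → ℝ} {al : Set ((ι → ℝ) × ℝ)} {E E' : (ι → ℝ) × (τ → ℝ) → ℝ}
    (h : UBs S D Ψ f al E) (hc : IsCompact {q | f q ≤ 1}) (hf : Continuous f)
    (hE : Continuous E) (hE' : Continuous E') (hr : ∀ q, f q ≤ 0 → E q ≤ E' q) :
    UBs S D Ψ f al E' := by
  rw [UBs_iff] at h ⊢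
  intro ε hε
  obtain ⟨σ, hσ, K⟩ := h (ε / 2) (by linarith)
  obtain ⟨σ', hσ', hr'⟩ := real_slack hc hf hE hE' hr (show 0 < ε / 2 by linarith)
  refine ⟨min σ σ', lt_min hσ hσ', fun lam N B => ?_⟩
  obtain ⟨M, X₀, hX₀, K1⟩ := K lam N B
  refine ⟨M, X₀, hX₀, fun X hX a ps w H hH h1 h2 => ?_⟩
  have hX1 : (1 : ℝ) ≤ X := by linarith
  have hXp : 0 < X := by linarith
  refine (K1 X hX a ps (w.mono hX1 (min_le_left _ _) le_rfl le_rfl) H hH h1 h2).trans ?_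
  have h3 := hr' _ (w.f.trans (min_le_right _ _))
  refine mul_le_mul_of_nonneg_left (Real.rpow_le_rpow_of_exponent_le hX1 (by linarith)) ?_
  have : 0 ≤ H := by linarith
  positivity

/-- pointwise comparison of the functionals (up to a constant and `H ^ M'`), more constraints -/
theorem UBs.comp {Ψ Ψ' : Λ → A → List Pc' → ℝ}
    {f f' : (ι → ℝ) × (τ → ℝ) → ℝ} {al al' : Set ((ι → ℝ) × ℝ)} {E : (ι → ℝ) × (τ → ℝ) → ℝ}
    (h : UBs S D Ψ f al E) (hff' : ∀ q, f q ≤ f' q) (hal : al' ⊆ al)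
    (hΨ : ∀ (lam : Λ) (N : ℕ), ∃ (C : ℝ) (M : ℕ), ∀ a ps, ps.length ≤ N → ∀ H : ℝ, 1 ≤ H →
      S.s₁ a ≤ H → (∀ p ∈ ps, D.s1 p ≤ H) → Ψ' lam a ps ≤ C * H ^ M * Ψ lam a ps)
    (h0 : ∀ lam a ps, 0 ≤ Ψ lam a ps) :
    UBs S D Ψ' f' al' E := by
  rw [UBs_iff] at h ⊢
  intro ε hε
  obtain ⟨σ, hσ, K⟩ := h (ε / 2) (by linarith)
  refine ⟨σ, hσ, fun lam N B => ?_⟩
  obtain ⟨M, X₀, hX₀, K1⟩ := K lam N B
  obtain ⟨C, M', hC⟩ := hΨ lam N
  obtain ⟨Y, hY⟩ := Filter.eventually_atTop.1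
    ((tendsto_rpow_atTop (show 0 < ε / 2 by linarith)).eventually_ge_atTop C)
  refine ⟨M' + M, max X₀ Y, lt_of_lt_of_le hX₀ (le_max_left _ _), fun X hX a ps w H hH h1 h2 => ?_⟩
  have hX1 : (1 : ℝ) ≤ X := by linarith [(le_max_left X₀ Y).trans hX]
  have hXp : 0 < X := by linarith
  have hHp : 0 < H := by linarith
  have k1 := K1 X ((le_max_left _ _).trans hX) a ps
    ⟨w.len, w.gran, w.g, w.n, w.s₂, w.good, (hff' _).trans w.f, fun p hp hl => hal (w.al p hp hl)⟩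
    H hH h1 h2
  have k2 := hC a ps w.len H hH h1 h2
  have hCX := hY X ((le_max_right _ _).trans hX)
  calc Ψ' lam a ps ≤ C * H ^ M' * Ψ lam a ps := k2
    _ ≤ X ^ (ε / 2) * H ^ M' * Ψ lam a ps := by
        have := h0 lam a ps
        gcongr
    _ ≤ X ^ (ε / 2) * H ^ M' * (H ^ M * X ^ (E (S.ev X a, D.mass X ps) + ε / 2)) := by
        gcongr
    _ = H ^ (M' + M) * (X ^ (ε / 2) * X ^ (E (S.ev X a, D.mass X ps) + ε / 2)) := by
        rw [pow_add]; ring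
    _ = H ^ (M' + M) * X ^ (E (S.ev X a, D.mass X ps) + ε) := by
        rw [← Real.rpow_add hXp]; congr 2; ring

/-- sums -/
theorem UBs.add {Ψ Ψ' : Λ → A → List Pc' → ℝ}
    {f : (ι → ℝ) × (τ → ℝ) → ℝ} {al : Set ((ι → ℝ) × ℝ)} {E : (ι → ℝ) × (τ → ℝ) → ℝ}
    (h : UBs S D Ψ f al E) (h' : UBs S D Ψ' f al E) :
    UBs S D (fun lam a ps => Ψ lam a ps + Ψ' lam a ps) f al E := by
  rw [UBs_iff] at h h' ⊢
  intro ε hε
  obtain ⟨σ, hσ, K⟩ := h (ε / 2) (by linarith)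
  obtain ⟨σ', hσ', K'⟩ := h' (ε / 2) (by linarith)
  refine ⟨min σ σ', lt_min hσ hσ', fun lam N B => ?_⟩
  obtain ⟨M, X₀, hX₀, K1⟩ := K lam N B
  obtain ⟨M', X₀', hX₀', K1'⟩ := K' lam N B
  obtain ⟨Y, hY⟩ := Filter.eventually_atTop.1
    ((tendsto_rpow_atTop (show 0 < ε / 2 by linarith)).eventually_ge_atTop (2 : ℝ))
  refine ⟨M + M', max (max X₀ X₀') Y, lt_of_lt_of_le hX₀ ((le_max_left _ _).trans (le_max_left _ _)),
    fun X hX a ps w H hH h1 h2 => ?_⟩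
  have hXX : X₀ ≤ X := ((le_max_left _ _).trans (le_max_left _ _)).trans hX
  have hXX' : X₀' ≤ X := ((le_max_right _ _).trans (le_max_left _ _)).trans hX
  have hX1 : (1 : ℝ) ≤ X := by linarith
  have hXp : 0 < X := by linarith
  have hHp : 0 < H := by linarith
  have k1 := K1 X hXX a ps (w.mono hX1 (min_le_left _ _) le_rfl le_rfl) H hH h1 h2
  have k2 := K1' X hXX' a ps (w.mono hX1 (min_le_right _ _) le_rfl le_rfl) H hH h1 h2
  have hCX := hY X ((le_max_right _ _).trans hX)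
  set Z := X ^ (E (S.ev X a, D.mass X ps) + ε / 2) with hZ
  have hZp : 0 < Z := by positivity
  calc Ψ lam a ps + Ψ' lam a ps ≤ H ^ M * Z + H ^ M' * Z := add_le_add k1 k2
    _ ≤ H ^ (M + M') * Z + H ^ (M + M') * Z := by
        have e1 : H ^ M ≤ H ^ (M + M') := pow_le_pow_right₀ hH (by omega)
        have e2 : H ^ M' ≤ H ^ (M + M') := pow_le_pow_right₀ hH (by omega)
        gcongr
    _ = H ^ (M + M') * (2 * Z) := by ring
    _ ≤ H ^ (M + M') * (X ^ (ε / 2) * Z) := by gcongr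
    _ = H ^ (M + M') * X ^ (E (S.ev X a, D.mass X ps) + ε) := by
        rw [hZ, ← Real.rpow_add hXp]; congr 2; ring

/-- products -/
theorem UBs.mul {Ψ Ψ' : Λ → A → List Pc' → ℝ}
    {f : (ι → ℝ) × (τ → ℝ) → ℝ} {al : Set ((ι → ℝ) × ℝ)} {E E' : (ι → ℝ) × (τ → ℝ) → ℝ}
    (h : UBs S D Ψ f al E) (h' : UBs S D Ψ' f al E') (h0 : ∀ lam a ps, 0 ≤ Ψ' lam a ps) :
    UBs S D (fun lam a ps => Ψ lam a ps * Ψ' lam a ps) f al (fun q => E q + E' q) := by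
  rw [UBs_iff] at h h' ⊢
  intro ε hε
  obtain ⟨σ, hσ, K⟩ := h (ε / 2) (by linarith)
  obtain ⟨σ', hσ', K'⟩ := h' (ε / 2) (by linarith)
  refine ⟨min σ σ', lt_min hσ hσ', fun lam N B => ?_⟩
  obtain ⟨M, X₀, hX₀, K1⟩ := K lam N B
  obtain ⟨M', X₀', hX₀', K1'⟩ := K' lam N B
  refine ⟨M + M', max X₀ X₀', lt_of_lt_of_le hX₀ (le_max_left _ _),
    fun X hX a ps w H hH h1 h2 => ?_⟩
  have hXX : X₀ ≤ X := (le_max_left _ _).trans hX
  have hXX' : X₀' ≤ X := (le_max_right _ _).trans hX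
  have hX1 : (1 : ℝ) ≤ X := by linarith
  have hXp : 0 < X := by linarith
  have hHp : 0 < H := by linarith
  have k1 := K1 X hXX a ps (w.mono hX1 (min_le_left _ _) le_rfl le_rfl) H hH h1 h2
  have k2 := K1' X hXX' a ps (w.mono hX1 (min_le_right _ _) le_rfl le_rfl) H hH h1 h2
  calc Ψ lam a ps * Ψ' lam a ps
      ≤ (H ^ M * X ^ (E (S.ev X a, D.mass X ps) + ε / 2)) *
        (H ^ M' * X ^ (E' (S.ev X a, D.mass X ps) + ε / 2)) :=
        mul_le_mul k1 k2 (h0 _ _ _) (by positivity)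
    _ = H ^ (M + M') * (X ^ (E (S.ev X a, D.mass X ps) + ε / 2) *
        X ^ (E' (S.ev X a, D.mass X ps) + ε / 2)) := by rw [pow_add]; ring
    _ = H ^ (M + M') * X ^ (E (S.ev X a, D.mass X ps) + E' (S.ev X a, D.mass X ps) + ε) := by
        rw [← Real.rpow_add hXp]; congr 2; ring

/-- square roots -/
theorem UBs.sqrt {Ψ : Λ → A → List Pc' → ℝ}
    {f : (ι → ℝ) × (τ → ℝ) → ℝ} {al : Set ((ι → ℝ) × ℝ)} {E : (ι → ℝ) × (τ → ℝ) → ℝ}
    (h : UBs S D Ψ f al E) :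
    UBs S D (fun lam a ps => Real.sqrt (Ψ lam a ps)) f al (fun q => E q / 2) := by
  rw [UBs_iff] at h ⊢
  intro ε hε
  obtain ⟨σ, hσ, K⟩ := h (2 * ε) (by linarith)
  refine ⟨σ, hσ, fun lam N B => ?_⟩
  obtain ⟨M, X₀, hX₀, K1⟩ := K lam N B
  refine ⟨M, X₀, hX₀, fun X hX a ps w H hH h1 h2 => ?_⟩
  have hX1 : (1 : ℝ) ≤ X := by linarith
  have hXp : 0 < X := by linarith
  have hHp : 0 < H := by linarith
  have k1 := K1 X hX a ps w H hH h1 h2
  rw [Real.sqrt_le_left (by positivity)]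
  refine k1.trans ?_
  rw [mul_pow, ← Real.rpow_natCast (X ^ _), ← Real.rpow_mul hXp.le]
  have e1 : (E (S.ev X a, D.mass X ps) / 2 + ε) * ((2 : ℕ) : ℝ) =
      E (S.ev X a, D.mass X ps) + 2 * ε := by push_cast; ring
  rw [e1]
  refine mul_le_mul_of_nonneg_right ?_ (by positivity)
  rw [← pow_mul]
  exact pow_le_pow_right₀ hH (by omega)

/-- a trivial bound from any continuous exponent -/
theorem triv_of_exp {Ψ : Λ → A → List Pc' → ℝ}
    {f : (ι → ℝ) × (τ → ℝ) → ℝ} {al : Set ((ι → ℝ) × ℝ)} (hc : IsCompact {q | f q ≤ 1})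
    {G : (ι → ℝ) × (τ → ℝ) → ℝ} (hG : Continuous G)
    (h : ∀ (lam : Λ) (N : ℕ) (B : ℝ), ∃ (C : ℝ) (M : ℕ), ∀ X : ℝ, 2 ≤ X →
      ∀ (a : A) (ps : List Pc'), Wn S D f al 1 N B X a ps → ∀ H : ℝ, 1 ≤ H → S.s₁ a ≤ H →
        (∀ p ∈ ps, D.s1 p ≤ H) → Ψ lam a ps ≤ C * H ^ M * X ^ G (S.ev X a, D.mass X ps)) :
    Triv S D Ψ f al := by
  intro lam N B
  obtain ⟨C, M, hC⟩ := h lam N B
  obtain ⟨c, hcG⟩ : ∃ c : ℝ, ∀ q ∈ {q | f q ≤ 1}, G q ≤ c := by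
    obtain ⟨c, hc⟩ := (hc.image hG).isBounded.exists_norm_le
    refine ⟨c, fun q hq => ?_⟩
    have := hc (G q) ⟨q, hq, rfl⟩
    rw [Real.norm_eq_abs] at this
    exact (le_abs_self _).trans this
  obtain ⟨k, hk⟩ : ∃ k : ℕ, C ≤ 2 ^ k := by
    obtain ⟨k, hk⟩ := pow_unbounded_of_one_lt C (one_lt_two (α := ℝ))
    exact ⟨k, hk.le⟩
  refine ⟨M, k + c, fun X hX a ps w H hH h1 h2 => ?_⟩
  have hX1 : (1 : ℝ) ≤ X := by linarith
  have hXp : 0 < X := by linarith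
  have hHp : 0 < H := by linarith
  have h3 := hcG _ w.f
  have h4 : C ≤ X ^ (k : ℝ) := by
    rw [Real.rpow_natCast]
    exact hk.trans (pow_le_pow_left₀ (by norm_num) hX k)
  calc Ψ lam a ps ≤ C * H ^ M * X ^ G (S.ev X a, D.mass X ps) := hC X hX a ps w H hH h1 h2
    _ ≤ X ^ (k : ℝ) * H ^ M * X ^ c := by
        have := Real.rpow_le_rpow_of_exponent_le hX1 h3
        gcongr
    _ = H ^ M * X ^ (k + c) := by rw [Real.rpow_add hXp]; ring

end Crest.Agent.R017.UBT973
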