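import Crest.Agent.R017.PM2_320
import Crest.Agent.R017.UBTransfer_973

/-!
# Row 17, R8 / P1 (G3): uniform bounds for the pair functional of three lumps (helper320)

* `Y3b`, `S3b` : family, length of `b` and three marked lumps
* `MP3 π h c c'` : the pair functional `[u₁,u₂,u₃] ++ ps`, shifts `c lam`, `c' lam`
* `bgb_PG` : `BGB` from `PG`; `ub_PM` : the uniform bound on `[0,K]`, exponent `pmb`
* `ubs_PM` : the form with slack, heights free at a cost
-/

set_option autoImplicit false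

noncomputable section

open Set Filter Topology

namespace Crest.Agent.R017.PM320

open Crest.Agent.R012 Crest.Agent.R012.Eis
open Crest.Agent.R017.FE47 (PU)
open Crest.Agent.R017.CM106
open Crest.Agent.R017.XG702 (Pcs BG)
open Crest.Agent.R017.XT71 (Sys Win mx)
open Crest.Agent.R017.UM71 (BGB)
open Crest.Agent.R017.E5B71 (UB ub_of_bgb)
open Crest.Agent.R017.Prov71
open Crest.Agent.R017.B770
open Crest.Agent.R017.HP842 (pc)
open Crest.Agent.R017.UBR61 (ub_of_sqrt bgb_sqrt rem_sqrt)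
open Crest.Agent.R017.UBT973 (UBs UBs_iff ubs_of_ub triv_of_exp Wn)
open Crest.Agent.R017.RM986 (le_mx)
open Crest.Agent.R017.PML320

variable {Λ : Type*} {π : Λ → DPar} {h : ℝ → ℝ}

/-- base datum: family, length of `b`, three marked lumps -/
structure Y3b where
  l : ℝ
  β : ℝ
  us : Fin 3 → Pq

/-- the marked pieces are lumps of nonnegative length -/
def Y3b.ok (a : Y3b) : Prop := ∀ i, Dq.lump (a.us i) ∧ 0 ≤ (a.us i).z

/-- the marked list -/
def Y3b.mk3 (a : Y3b) : List Pq := [a.us 0, a.us 1, a.us 2]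

/-- exponent vector `(κ, b, u₁, u₂, u₃)` -/
def S3b : Sys Y3b (Fin 5) where
  ev X a := ![a.l / Real.log X, a.β / Real.log X, (a.us 0).z / Real.log X,
    (a.us 1).z / Real.log X, (a.us 2).z / Real.log X]
  g _ := 1
  n _ := 0
  s₁ a := mx Dq.s1 a.mk3
  s₂ a := mx Dq.s2 a.mk3

open Classical in
/-- **the pair functional** `[u₁,u₂,u₃] ++ ps` -/
def MP3 (π : Λ → DPar) (h : ℝ → ℝ) (c c' : Λ → ℝ) : Λ → Y3b → List Pq → ℝ :=
  fun lam a ps => if a.ok then PMf (π lam) h (a.l + c lam) (a.β + c' lam) (a.mk3 ++ ps) else 0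

lemma MP3_nonneg (c c' : Λ → ℝ) (lam : Λ) (a : Y3b) (ps : List Pq) :
    0 ≤ MP3 π h c c' lam a ps := by
  unfold MP3
  split_ifs
  · exact PMf_nonneg _ _ _ _ _
  · exact le_rfl

lemma MP3_perm (c c' : Λ → ℝ) (lam : Λ) (a : Y3b) (ps qs : List Pq) (hp : ps.Perm qs) :
    MP3 π h c c' lam a ps = MP3 π h c c' lam a qs := by
  unfold MP3
  rw [PMf_perm _ _ _ _ (hp.append_left a.mk3)]

lemma MP3_rem {C : ℝ} (hP : ∀ lam, (π lam).OK)
    (hC : ∀ (p : HP842.Pc) (k : Eis), p.OK → ‖CS (pc h p) k‖ ≤ C * p.Y) (c c' : Λ → ℝ)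
    (lam : Λ) (a : Y3b) (p : Pq) (ps : List Pq) :
    MP3 π h c c' lam a (p :: ps) ≤
      C ^ 2 * (1 + Dq.s1 p) ^ 0 * Real.exp (2 * Dq.len p) * MP3 π h c c' lam a ps := by
  unfold MP3
  split_ifs
  · rw [pow_zero, mul_one, PMf_perm _ _ _ _ (List.perm_middle (l₁ := a.mk3))]
    exact PMf_cons_le (hP lam) hC _ _ _ _
  · rw [mul_zero]

/-- **`BGB` from `PG`** -/
theorem bgb_PG (c c' : Λ → ℝ) {p : Fin 5 → ℝ} {w : Kd → ℝ} {e : ℝ}
    (H : PG π h (p 0) (p 1) [p 2, p 3, p 4] w e) :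
    BGB S3b Dq (MP3 π h c c') p [] w e := by
  intro ε hε
  obtain ⟨δ, hδ, H0⟩ := H ε hε
  refine ⟨δ / 2, by linarith, fun lam N B => ?_⟩
  obtain ⟨δ', hδ', X₀, hX₀, H1⟩ := H0 lam N B
  obtain ⟨X₁, hX₁, hX₁'⟩ : ∃ X₁ : ℝ, 1 < X₁ ∧ ∀ X, X₁ ≤ X →
      |c lam| + |c' lam| ≤ δ / 2 * Real.log X := by
    refine ⟨Real.exp (max 1 (2 * (|c lam| + |c' lam|) / δ)), ?_, fun X hX => ?_⟩
    · exact Real.one_lt_exp_iff.2 (lt_of_lt_of_le one_pos (le_max_left _ _))
    · have h1 : max 1 (2 * (|c lam| + |c' lam|) / δ) ≤ Real.log X :=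
        (Real.le_log_iff_exp_le (lt_of_lt_of_le (Real.exp_pos _) hX)).2 hX
      have h2 := (le_max_right _ _).trans h1
      rw [div_le_iff₀ hδ] at h2
      linarith
  refine ⟨δ', hδ', max X₀ X₁, lt_of_lt_of_le hX₀ (le_max_left _ _), ?_⟩
  intro X hX a us gs hw hn hg hG
  have hX0 : X₀ ≤ X := (le_max_left _ _).trans hX
  have hXX1 : X₁ ≤ X := (le_max_right _ _).trans hX
  have hX1 : 1 < X := by linarith
  have hXp : 0 < X := by linarith
  have hlog : 0 < Real.log X := Real.log_pos hX1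
  have hcl := hX₁' X hXX1
  have hus : us = [] := by
    unfold Pcs.Near at hn
    exact List.eq_nil_of_length_eq_zero (by rw [hn.length_eq]; rfl)
  subst hus
  unfold MP3
  split_ifs with hV
  · have e0 : a.l + c lam = (a.l + c lam) / Real.log X * Real.log X := by field_simp
    have e1 : a.β + c' lam = (a.β + c' lam) / Real.log X * Real.log X := by field_simp
    rw [e0, e1, List.nil_append]
    have hb0 := abs_nonneg (c lam)
    have hb1 := abs_nonneg (c' lam)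
    have w0 := hw.ev 0
    have w1 := hw.ev 1
    have w2 := hw.ev 2
    have w3 := hw.ev 3
    have w4 := hw.ev 4
    simp only [S3b, Matrix.cons_val_zero, Matrix.cons_val_one, Matrix.cons_val] at w0 w1 w2 w3 w4
    refine H1 X hX0 _ _ a.mk3 gs ?_ ?_ ?_ (XG702.Gran_mono hg (by linarith) le_rfl) ?_
    · rw [add_div]
      have g1 : c lam / Real.log X ≤ δ / 2 := by
        rw [div_le_iff₀ hlog]; linarith [le_abs_self (c lam)]
      have g2 := (abs_le.1 w0).2
      linarith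
    · rw [add_div]
      have g1 : c' lam / Real.log X ≤ δ / 2 := by
        rw [div_le_iff₀ hlog]; linarith [le_abs_self (c' lam)]
      have g2 := (abs_le.1 w1).2
      linarith
    · unfold Pcs.Near Y3b.mk3
      refine List.Forall₂.cons ⟨(hV 0).1, ?_⟩ (List.Forall₂.cons ⟨(hV 1).1, ?_⟩
        (List.Forall₂.cons ⟨(hV 2).1, ?_⟩ List.Forall₂.nil))
      · exact w2.trans (by linarith)
      · exact w3.trans (by linarith)
      · exact w4.trans (by linarith)
    · intro q hq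
      rw [List.mem_append] at hq
      rcases hq with hq | hq
      · refine ⟨?_, ?_, ?_⟩
        · exact (le_mx Dq.s1 hq).trans hw.s₁
        · exact (le_mx Dq.s2 hq).trans hw.s₂
        · unfold Y3b.mk3 at hq
          simp only [List.mem_cons, List.not_mem_nil, or_false] at hq
          rcases hq with rfl | rfl | rfl
          · exact (hV 0).2
          · exact (hV 1).2
          · exact (hV 2).2
      · exact hG q (List.mem_append_right _ hq)
  · exact Real.rpow_nonneg hXp.le _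

/-! ### the uniform bound -/

/-- the closed form at a configuration -/
def Epm (d : ℝ) (q : (Fin 5 → ℝ) × (Kd → ℝ)) : ℝ :=
  pmb d (q.1 1) (q.1 0) (q.1 2) (q.1 3) (q.1 4) (q.2 .mo) (q.2 .am)

lemma cont_Epm (d : ℝ) : Continuous (Epm d) := by
  have c0 := RM986.cont_co (ι := Fin 5) 0
  have c1 := RM986.cont_co (ι := Fin 5) 1
  have c2 := RM986.cont_co (ι := Fin 5) 2
  have c3 := RM986.cont_co (ι := Fin 5) 3
  have c4 := RM986.cont_co (ι := Fin 5) 4
  have cm := RM986.cont_mo (ι := Fin 5)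
  have ca := RM986.cont_am (ι := Fin 5)
  unfold Epm pmb
  fun_prop

/-- the cube `[0, K]` -/
def Bx5 (K : ℝ) : Set ((Fin 5 → ℝ) × (Kd → ℝ)) :=
  {q | (∀ i, 0 ≤ q.1 i ∧ q.1 i ≤ K) ∧ ∀ t, 0 ≤ q.2 t ∧ q.2 t ≤ K}

lemma bx5_compact (K : ℝ) : IsCompact (Bx5 K) := by
  have e : Bx5 K = (Set.Icc (fun _ => 0) (fun _ => K)) ×ˢ (Set.Icc (fun _ => 0) (fun _ => K)) := by
    ext q
    simp only [Bx5, Set.mem_ofPred_eq, mem_prod, mem_Icc, Pi.le_def]
    constructor
    · rintro ⟨h1, h2⟩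
      exact ⟨⟨fun i => (h1 i).1, fun i => (h1 i).2⟩, ⟨fun i => (h2 i).1, fun i => (h2 i).2⟩⟩
    · rintro ⟨⟨h1, h2⟩, ⟨h3, h4⟩⟩
      exact ⟨fun i => ⟨h1 i, h2 i⟩, fun i => ⟨h3 i, h4 i⟩⟩
  rw [e]
  exact isCompact_Icc.prod isCompact_Icc

lemma bx5_down {K : ℝ} : ∀ q ∈ Bx5 K, ∀ b, 0 ≤ b → b ≤ q.2 Kd.mo →
    (q.1, Function.update q.2 Kd.mo (q.2 Kd.mo - b)) ∈ Bx5 K := by
  intro q hq b h0 hb
  refine ⟨hq.1, fun t => ?_⟩
  cases t with
  | mo =>
    simp only [Function.update_self]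
    exact ⟨by linarith, by linarith [(hq.2 .mo).2]⟩
  | am =>
    have e : (Function.update q.2 Kd.mo (q.2 Kd.mo - b)) Kd.am = q.2 Kd.am :=
      Function.update_of_ne (by decide) _ _
    show 0 ≤ (Function.update q.2 Kd.mo (q.2 Kd.mo - b)) Kd.am ∧
      (Function.update q.2 Kd.mo (q.2 Kd.mo - b)) Kd.am ≤ K
    rw [e]
    exact hq.2 .am

lemma pmb_mono_m {d b i y₁ y₂ y₃ m m' a : ℝ} (h : m' ≤ m) :
    pmb d b i y₁ y₂ y₃ m' a ≤ pmb d b i y₁ y₂ y₃ m a := by
  unfold pmb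
  refine max_le_max (max_le_max (by linarith) (by linarith)) (by linarith)

lemma Epm_down (d : ℝ) (q : (Fin 5 → ℝ) × (Kd → ℝ)) {b : ℝ} (hb : 0 ≤ b) :
    Epm d (q.1, Function.update q.2 Kd.mo (q.2 Kd.mo - b)) ≤ Epm d q := by
  unfold Epm
  have e : (Function.update q.2 Kd.mo (q.2 Kd.mo - b)) Kd.am = q.2 Kd.am :=
    Function.update_of_ne (by decide) _ _
  simp only [Function.update_self, e]
  exact pmb_mono_m (by linarith)

/-- **the uniform bound of the pair functional** -/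
theorem ub_PM {c₀ : ℝ} (hpu : PU h c₀) (hP : ∀ lam, (π lam).OK) {d : ℝ} (hd : 0 ≤ d)
    (hd8 : d ≤ 1 / 8) (HR : RFb d π h) (HR' : RFb d (fun lam => cjD (π lam)) h) (K : ℝ)
    (c c' : Λ → ℝ) : UB S3b Dq (MP3 π h c c') (Bx5 K) ∅ (Epm d) := by
  obtain ⟨C, hC1, hC⟩ := TopC702.norm_CS_pc_le hpu
  refine ub_of_sqrt (fun lam a ps => MP3_nonneg c c' lam a ps) ?_
  refine ub_of_bgb (t₀ := Kd.mo) (fun _ _ _ => Real.sqrt_nonneg _)
    (fun lam a ps qs hp => by rw [MP3_perm c c' lam a ps qs hp])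
    (fun p => by simp only [Dq_s1]; positivity) (fun lam => ?_)
    (fun p hp => ((Dq_lump p).1 hp).1) (bx5_compact K) (fun q hq t => (hq.2 t).1) bx5_down
    ((cont_Epm d).div_const 2) (fun q _ b h1 _ => by linarith [Epm_down d q h1])
    isClosed_empty ?_
  · refine ⟨C ^ 2, 0, one_le_pow₀ hC1, fun l p ps => ?_⟩
    exact rem_sqrt (one_le_pow₀ hC1) (by simp only [Dq_s1]; positivity)
      (MP3_rem hP hC c c' lam l p ps)
  · intro p u w hu hw hD hA
    have hu0 : u = [] := by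
      rcases u with _ | ⟨x, u⟩
      · rfl
      · exact (hA x List.mem_cons_self).elim
    subst hu0
    have e2 : XG702.tot Kd.mo (([] : List ℝ)).sum w = w := by
      funext t
      unfold XG702.tot
      cases t <;> simp
    have e3 : w = wt (w .mo) (w .am) := by
      funext t
      cases t <;> rfl
    rw [e2] at hD ⊢
    refine bgb_sqrt (bgb_PG c c' ?_)
    have h0 := fun i => (hD.1 i).1
    have h9 := PG_pmb hpu hP hd hd8 HR HR' (h0 0) (h0 1) (h0 2) (h0 3) (h0 4) (hw .mo) (hw .am)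
    rw [← e3] at h9
    exact h9

/-! ### the form with slack -/

/-- distance from the box -/
def fbx (K : ℝ) (q : (Fin 5 → ℝ) × (Kd → ℝ)) : ℝ :=
  (∑ i, (max 0 (-(q.1 i)) + max 0 (q.1 i - K))) +
    (∑ t, (max 0 (-(q.2 t)) + max 0 (q.2 t - K)))

lemma cont_fbx (K : ℝ) : Continuous (fbx K) := by
  unfold fbx
  refine Continuous.add (continuous_finsetSum _ fun i _ => ?_)
    (continuous_finsetSum _ fun t _ => ?_)
  · have := RM986.cont_co (ι := Fin 5) i
    fun_prop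
  · have : Continuous (fun q : (Fin 5 → ℝ) × (Kd → ℝ) => q.2 t) :=
      (continuous_apply _).comp continuous_snd
    fun_prop

lemma fbx_le {K σ : ℝ} {q : (Fin 5 → ℝ) × (Kd → ℝ)} (h : fbx K q ≤ σ) :
    (∀ i, -σ ≤ q.1 i ∧ q.1 i ≤ K + σ) ∧ ∀ t, -σ ≤ q.2 t ∧ q.2 t ≤ K + σ := by
  have p1 : ∀ x : ℝ, 0 ≤ max 0 (-x) + max 0 (x - K) := fun x =>
    add_nonneg (le_max_left _ _) (le_max_left _ _)
  have n1 : 0 ≤ ∑ i, (max 0 (-(q.1 i)) + max 0 (q.1 i - K)) :=
    Finset.sum_nonneg fun i _ => p1 _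
  have n2 : 0 ≤ ∑ t, (max 0 (-(q.2 t)) + max 0 (q.2 t - K)) :=
    Finset.sum_nonneg fun t _ => p1 _
  unfold fbx at h
  constructor
  · intro i
    have h1 : max 0 (-(q.1 i)) + max 0 (q.1 i - K) ≤
        ∑ i, (max 0 (-(q.1 i)) + max 0 (q.1 i - K)) :=
      Finset.single_le_sum (f := fun i => max 0 (-(q.1 i)) + max 0 (q.1 i - K))
        (fun i _ => p1 _) (Finset.mem_univ i)
    have h2 := le_max_right 0 (-(q.1 i))
    have h3 := le_max_right 0 (q.1 i - K)
    have h4 := le_max_left 0 (-(q.1 i))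
    have h5 := le_max_left 0 (q.1 i - K)
    constructor <;> linarith
  · intro t
    have h1 : max 0 (-(q.2 t)) + max 0 (q.2 t - K) ≤
        ∑ t, (max 0 (-(q.2 t)) + max 0 (q.2 t - K)) :=
      Finset.single_le_sum (f := fun t => max 0 (-(q.2 t)) + max 0 (q.2 t - K))
        (fun i _ => p1 _) (Finset.mem_univ t)
    have h2 := le_max_right 0 (-(q.2 t))
    have h3 := le_max_right 0 (q.2 t - K)
    have h4 := le_max_left 0 (-(q.2 t))
    have h5 := le_max_left 0 (q.2 t - K)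
    constructor <;> linarith

lemma fbx_compact (K : ℝ) : IsCompact {q | fbx K q ≤ 1} := by
  have h1 : IsCompact ((Set.Icc (fun _ : Fin 5 => (-1 : ℝ)) (fun _ => K + 1)) ×ˢ
      (Set.Icc (fun _ : Kd => (-1 : ℝ)) (fun _ => K + 1))) := isCompact_Icc.prod isCompact_Icc
  refine h1.of_isClosed_subset (isClosed_le (cont_fbx K) continuous_const) ?_
  intro q hq
  obtain ⟨g1, g2⟩ := fbx_le (show fbx K q ≤ 1 from hq)
  exact ⟨⟨fun i => (g1 i).1, fun i => (g1 i).2⟩, ⟨fun i => (g2 i).1, fun i => (g2 i).2⟩⟩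

lemma fbx_box {K : ℝ} {q : (Fin 5 → ℝ) × (Kd → ℝ)} (h : fbx K q ≤ 0) : q ∈ Bx5 K := by
  obtain ⟨g1, g2⟩ := fbx_le h
  refine ⟨fun i => ⟨?_, ?_⟩, fun t => ⟨?_, ?_⟩⟩
  · linarith [(g1 i).1]
  · linarith [(g1 i).2]
  · linarith [(g2 t).1]
  · linarith [(g2 t).2]

lemma box_fbx {K : ℝ} {q : (Fin 5 → ℝ) × (Kd → ℝ)} (h : q ∈ Bx5 K) : fbx K q ≤ 0 := by
  unfold fbx
  have e1 : ∀ i, max 0 (-(q.1 i)) + max 0 (q.1 i - K) = 0 := fun i => by
    rw [max_eq_left (by linarith [(h.1 i).1]), max_eq_left (by linarith [(h.1 i).2]), add_zero]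
  have e2 : ∀ t, max 0 (-(q.2 t)) + max 0 (q.2 t - K) = 0 := fun t => by
    rw [max_eq_left (by linarith [(h.2 t).1]), max_eq_left (by linarith [(h.2 t).2]), add_zero]
  simp only [e1, e2, Finset.sum_const_zero, add_zero]
  exact le_rfl

/-- the trivial bound -/
lemma PMf_triv {C : ℝ} {P : DPar} (hP : P.OK)
    (hC : ∀ (p : HP842.Pc) (k : Eis), p.OK → ‖CS (pc h p) k‖ ≤ C * p.Y) (l β : ℝ)
    (ps : List Pq) : PMf P h l β ps ≤
      1600 * Real.exp (l + β) * ((C ^ 2) ^ ps.length * Real.exp (2 * XP699.LL Dq ps)) := by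
  induction ps with
  | nil =>
    have e1 : PMf P h l β [] = ((primBall ⌊Real.exp β⌋₊).card : ℝ) *
        ((LS2.bl (Real.exp l)).card : ℝ) := by
      unfold PMf PMp
      simp only [List.map_nil, List.prod_nil, Finset.sum_const, nsmul_eq_mul, mul_one]
    have h1 : ((primBall ⌊Real.exp β⌋₊).card : ℝ) ≤ 100 * Real.exp β :=
      (Lat277.card_primBall_le _).trans (mul_le_mul_of_nonneg_left
        (Nat.floor_le (Real.exp_pos _).le) (by norm_num))
    have h2 : ((LS2.bl (Real.exp l)).card : ℝ) ≤ 16 * Real.exp l :=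
      CR2.card_bl_le (Real.exp_pos _).le
    rw [e1]
    have e2 : XP699.LL Dq ([] : List Pq) = 0 := rfl
    rw [e2, List.length_nil, pow_zero, mul_zero, Real.exp_zero, mul_one, mul_one, Real.exp_add]
    calc _ ≤ (100 * Real.exp β) * (16 * Real.exp l) := by gcongr
      _ = _ := by ring
  | cons p ps ih =>
    refine (PMf_cons_le hP hC l β p ps).trans ?_
    have e2 : XP699.LL Dq (p :: ps) = Dq.len p + XP699.LL Dq ps := by
      unfold XP699.LL
      rw [List.map_cons, List.sum_cons]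
    have h3 : 0 ≤ C ^ 2 * Real.exp (2 * Dq.len p) := by positivity
    refine (mul_le_mul_of_nonneg_left ih h3).trans (le_of_eq ?_)
    rw [e2, List.length_cons, pow_succ, mul_add, Real.exp_add (2 * Dq.len p)]
    ring

/-- **the uniform bound with slack**, heights free at a cost -/
theorem ubs_PM {c₀ : ℝ} (hpu : PU h c₀) (hP : ∀ lam, (π lam).OK) {d : ℝ} (hd : 0 ≤ d)
    (hd8 : d ≤ 1 / 8) (HR : RFb d π h) (HR' : RFb d (fun lam => cjD (π lam)) h) (K : ℝ)
    (c c' : Λ → ℝ) : UBs S3b Dq (MP3 π h c c') (fbx K) ∅ (Epm d) := by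
  obtain ⟨C, hC1, hC⟩ := TopC702.norm_CS_pc_le hpu
  have hub := ub_PM hpu hP hd hd8 HR HR' K c c'
  have e : {q | fbx K q ≤ 0} = Bx5 K := by
    ext q
    exact ⟨fun h => fbx_box h, fun h => box_fbx h⟩
  refine ubs_of_ub (cont_fbx K) (fbx_compact K) (cont_Epm d) ?_ (by rw [e]; exact hub)
  refine triv_of_exp (fbx_compact K) (G := fun q => q.1 0 + q.1 1 +
    2 * (q.1 2 + q.1 3 + q.1 4 + (q.2 .mo + q.2 .am))) ?_ fun lam N B => ?_
  · have c0 := RM986.cont_co (ι := Fin 5) 0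
    have c1 := RM986.cont_co (ι := Fin 5) 1
    have c2 := RM986.cont_co (ι := Fin 5) 2
    have c3 := RM986.cont_co (ι := Fin 5) 3
    have c4 := RM986.cont_co (ι := Fin 5) 4
    have cm := RM986.cont_mo (ι := Fin 5)
    have ca := RM986.cont_am (ι := Fin 5)
    fun_prop
  · refine ⟨1600 * Real.exp (|c lam| + |c' lam|) * (C ^ 2) ^ (N + 3), 0, ?_⟩
    intro X hX a ps hw H hH _ _
    have hXp : 0 < X := by linarith
    have hlog : 0 < Real.log X := Real.log_pos (by linarith)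
    rw [pow_zero, mul_one]
    unfold MP3
    split_ifs with hV
    · refine (PMf_triv (hP lam) hC _ _ _).trans ?_
      have h1 : ((a.mk3 ++ ps).length) ≤ N + 3 := by
        rw [List.length_append]
        have : a.mk3.length = 3 := rfl
        have := hw.len
        omega
      have h2 : (C ^ 2) ^ (a.mk3 ++ ps).length ≤ (C ^ 2) ^ (N + 3) :=
        pow_le_pow_right₀ (one_le_pow₀ hC1) h1
      have h3 : Real.exp (a.l + c lam + (a.β + c' lam)) ≤
          Real.exp (|c lam| + |c' lam|) * Real.exp (a.l + a.β) := by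
        rw [← Real.exp_add]
        refine Real.exp_le_exp.2 ?_
        linarith [le_abs_self (c lam), le_abs_self (c' lam)]
      have h4 : XP699.LL Dq (a.mk3 ++ ps) = ((a.us 0).z + (a.us 1).z + (a.us 2).z) +
          XP699.LL Dq ps := by
        rw [XP699.LL_append]
        congr 1
        unfold XP699.LL Y3b.mk3
        simp only [List.map_cons, List.map_nil, List.sum_cons, List.sum_nil, Dq_len]
        ring
      have h5 : XP699.LL Dq ps / Real.log X = Dq.mass X ps .mo + Dq.mass X ps .am :=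
        (XP699.mass_sum X ps).symm
      have h6 : Real.exp (a.l + a.β) * Real.exp (2 * XP699.LL Dq (a.mk3 ++ ps)) =
          X ^ (a.l / Real.log X + a.β / Real.log X + 2 * ((a.us 0).z / Real.log X +
            (a.us 1).z / Real.log X + (a.us 2).z / Real.log X +
            (Dq.mass X ps .mo + Dq.mass X ps .am))) := by
        rw [← h5, h4, ← Real.exp_add, Real.rpow_def_of_pos hXp]
        congr 1
        field_simp
      calc 1600 * Real.exp (a.l + c lam + (a.β + c' lam)) *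
            ((C ^ 2) ^ (a.mk3 ++ ps).length * Real.exp (2 * XP699.LL Dq (a.mk3 ++ ps)))
          ≤ 1600 * (Real.exp (|c lam| + |c' lam|) * Real.exp (a.l + a.β)) *
            ((C ^ 2) ^ (N + 3) * Real.exp (2 * XP699.LL Dq (a.mk3 ++ ps))) := by gcongr
        _ = 1600 * Real.exp (|c lam| + |c' lam|) * (C ^ 2) ^ (N + 3) *
            (Real.exp (a.l + a.β) * Real.exp (2 * XP699.LL Dq (a.mk3 ++ ps))) := by ring
        _ = _ := by rw [h6]; rfl
    · positivity

/-- fixed factor `e₀` of the frequencies (helper106's `E τ k b²`) -/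
theorem sum_shift_le (P : DPar) (h : ℝ → ℝ) (l β : ℝ) (ps : List Pq) {e₀ : Eis} (he : e₀ ≠ 0)
    {Bs : Finset Eis} (hB : ∀ b ∈ Bs, IsPrim b ∧ (nm b : ℝ) ≤ Real.exp β) :
    ∑ b ∈ Bs, ∑ k ∈ LS2.bl (Real.exp l),
      (ps.map fun p => ‖CS (pc h (p.pc P)) (e₀ * k * b ^ 2)‖ ^ 2).prod ≤
      PMf P h (l + Real.log (nm e₀)) β ps := by
  classical
  refine le_trans ?_ (PMp_le_PMf P h _ β ps hB)
  unfold PMp
  refine Finset.sum_le_sum fun b _ => ?_
  have hn : (0 : ℝ) < nm e₀ := by exact_mod_cast nm_pos.2 he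
  have e1 : ∑ k ∈ LS2.bl (Real.exp l),
      (ps.map fun p => ‖CS (pc h (p.pc P)) (e₀ * k * b ^ 2)‖ ^ 2).prod =
      ∑ x ∈ (LS2.bl (Real.exp l)).image (fun k => e₀ * k),
        (ps.map fun p => ‖CS (pc h (p.pc P)) (x * b ^ 2)‖ ^ 2).prod := by
    rw [Finset.sum_image fun x _ y _ hxy => mul_left_cancel₀ he hxy]
  rw [e1]
  refine Finset.sum_le_sum_of_subset_of_nonneg ?_ fun x _ _ => prod_sq_nonneg _ _ _ _
  intro x hx
  obtain ⟨k, hk, rfl⟩ := Finset.mem_image.1 hx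
  rw [LS2.mem_bl (Real.exp_pos _).le] at hk ⊢
  refine ⟨mul_ne_zero he hk.1, ?_⟩
  rw [nm_mul, Nat.cast_mul, Real.exp_add, Real.exp_log hn, mul_comm]
  exact mul_le_mul_of_nonneg_right hk.2 hn.le

/-- **the input `RFb` from the provider** -/
theorem RFb_of {c₀ : ℝ} (hpu : PU h c₀) (hP : ∀ lam, (π lam).OK) {d : ℝ} {s : ER911.EF}
    (R : ER911.ExpRules (7 / 8 + d) (ex Dq (fun lam => Rp (π lam) h)) s)
    (hcolP : ∀ (i : ℝ) (u : List ℝ) (m a : ℝ), 0 ≤ i → Okl u m a →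
      BG Dq (XPD571.RP0 π h) i u (wt m a) (2 * a + 2 * (7 / 8 + d) * m)) (hd : 0 ≤ d)
    (hd8 : d ≤ 1 / 8) : RFb d π h :=
  fun _ _ _ _ _ _ hi h1 h2 h3 hm ha => RM986.bgf hpu hP R hcolP hd hd8 hi h1 h2 h3 hm ha

end Crest.Agent.R017.PM320
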