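import Crest.Agent.R017.PM5_320

/-!
# Row 17: the two-level exponents from the literal side conditions (helper320)

* `PG_of_PM`   : helper777's `PM` (helper521's `n₁`-form) gives `PG`
* `PG_of_PM'`  : the other order
* `PG_of_Full` : `Full` at the merged level gives `PG`
* `PG_r2`      : the three together, closed families
-/

set_option autoImplicit false

noncomputable section

open Set Filter Topology
open scoped ComplexConjugate

namespace Crest.Agent.R017.PM320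

open Crest.Agent.R012 Crest.Agent.R012.Eis
open Crest.Agent.R017.FE47 (PU)
open Crest.Agent.R017.XG702 (Pcs BG)
open Crest.Agent.R017.Prov71
open Crest.Agent.R017.B770
open Crest.Agent.R017.XP699
open Crest.Agent.R017.PML320
open Crest.Agent.R017.ER911 (Ok Sh EF)
open Crest.Agent.R017.XPD571 (RX R0 RF0 RN0 RP0 SP0)
open Crest.Agent.R012.Gauss880

variable {Λ : Type*}

/-- pairs, literal form: `s` the exponents of the Gauss side, `i` the long level, `b` the other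
one, all intermediate totals `n₁` -/
def PMx (s : EF) (i b : ℝ) (Y : Multiset ℝ) (m a ρ : ℝ) : Prop :=
  i + b + (Y.sum + m + a) ≤ ρ ∧
    ∀ (Y' : Multiset ℝ) (m' a' n' n₁ : ℝ), Sh Y' Y → 0 ≤ m' → m' ≤ m → 0 ≤ a' → a' ≤ a →
      n' = Y'.sum + m' + a' → n' ≤ n₁ → n₁ ≤ Y.sum + m + a → i ≤ 2 * n₁ →
      i + (Y.sum + m + a) - 2 * n₁ + s (b + 3 * n₁ - n' - i) Y' m' a' ≤ ρ

/-- the full family at the merged level -/
def Fullx (θ : ℝ) (r : EF) (κ : ℝ) (Y : Multiset ℝ) (m a ρ : ℝ) : Prop :=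
  (∀ (Y' : Multiset ℝ) (κ' : ℝ), Sh Y' Y → 0 ≤ κ' → κ' ≤ κ → (∀ y ∈ Y', y ≤ κ') →
    r κ' Y' m a + (κ - κ') / 3 ≤ ρ) ∧ 2 * a + 2 * θ * m + κ / 3 ≤ ρ

/-- **pairs, the literal form** -/
theorem PG_of_PM {h : ℝ → ℝ} {c₁ : ℝ} (hpu : PU h c₁) {π : Λ → DPar}
    (hP : ∀ lam, (π lam).OK) {κ b : ℝ} {u : List ℝ} {m a E : ℝ} (hκ : 0 ≤ κ) (hb : 0 ≤ b)
    (hu : Okl u m a)
    (H : PMx (ex Dq (fun lam => Sp (π lam) h)) κ b (u : Multiset ℝ) m a E) :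
    PG π h κ b u (wt m a) E := by
  obtain ⟨hE1, hch⟩ := H
  have hsu : (u : Multiset ℝ).sum = u.sum := Multiset.sum_coe u
  rw [hsu] at hE1 hch
  refine PG_of_PX hκ hb fun ε hε => ⟨ε / 2, by linarith, ?_⟩
  have hη : 0 < κ + ε / 2 := by linarith
  have hc0 : 0 ≤ (b + ε / 2) / (κ + ε / 2) := by positivity
  have hcb : (b + ε / 2) / (κ + ε / 2) * (κ + ε / 2) = b + ε / 2 := div_mul_cancel₀ _ hη.ne'
  refine rawPB hpu hP hc0 hη.le hu (by rw [add_mul, hcb]; linarith) ?_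
  intro u' m' a' l hsh hm0 hm1 ha0 ha1 hl hl1 hl2
  rw [hcb] at hl1 hl2 ⊢
  have hsum : (u' : Multiset ℝ).sum = u'.sum := Multiset.sum_coe u'
  have hs' := shl_sum_le hsh
  have hs0 : 0 ≤ u'.sum := List.sum_nonneg hsh.nonneg
  obtain ⟨n1, hn1⟩ : ∃ x : ℝ, x = (l - b + (u'.sum + m' + a') + κ) / 3 := ⟨_, rfl⟩
  have hl' : b + 3 * n1 - (u'.sum + m' + a') - κ = l := by rw [hn1]; ring
  have h1 : u'.sum + m' + a' ≤ n1 := by linarith
  have h2 : n1 ≤ u.sum + m + a := by linarith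
  rcases le_total κ (2 * n1) with h3 | h3
  · have h4 := hch (u' : Multiset ℝ) m' a' (u'.sum + m' + a') n1 hsh.sh hm0 hm1 ha0 ha1
      (by rw [hsum]) h1 h2 h3
    rw [hl'] at h4
    exact BG_of_ex (pinv_Sp π h) (XHB411.triv_Sp hP hpu) hl ⟨hsh.nonneg, hm0, ha0⟩ (by linarith)
  · refine (XHB411.bg_Sp hP hpu l u' m' a').mono ?_
    refine max_le (by linarith) (max_le (by linarith) (by linarith))

/-- **pairs, the literal form**, the other order -/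
theorem PG_of_PM' {h : ℝ → ℝ} {c₁ : ℝ} (hpu : PU h c₁) {π : Λ → DPar}
    (hP : ∀ lam, (π lam).OK) {κ b : ℝ} {u : List ℝ} {m a E : ℝ} (hκ : 0 ≤ κ) (hb : 0 ≤ b)
    (hu : Okl u m a)
    (H : PMx (ex Dq (fun lam => Sp (cjD (π lam)) h)) b κ (u : Multiset ℝ) m a E) :
    PG π h κ b u (wt m a) E :=
  PG_swap hpu hP hκ (PG_of_PM hpu (fun lam => cjD_ok (hP lam)) hb hκ hu H)

/-- **the full family at the merged level** -/
theorem PG_of_Full {θ : ℝ} {h : ℝ → ℝ} {π : Λ → DPar}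
    (H : Raw θ Dq (R0 π h) (RF0 π h) (RN0 π h) (RP0 π h) (SP0 π h))
    (hperm : Pinv (RN0 π h)) (htriv : Triv Dq (RN0 π h)) {κ b : ℝ} {u : List ℝ} {m a E : ℝ}
    (hκ : 0 ≤ κ) (hb : 0 ≤ b) (hu : Okl u m a)
    (hF : Fullx θ (ex Dq (RN0 π h)) (κ + 2 * b) (u : Multiset ℝ) m a E) :
    PG π h κ b u (wt m a) E := by
  have hk : 0 ≤ κ + 2 * b := by linarith
  refine PG_merge hκ hb (H.cubes (κ + 2 * b) u m a E hk hu fun i hi0 hi1 => ?_)
  refine BG_add (Φ₁ := RN0 π h) (Φ₂ := RP0 π h) ?_ ?_ H.split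
  · refine H.cut i u m a _ hi0 hu fun u' hs hu' => ?_
    have h1 := hF.1 (u' : Multiset ℝ) i hs.sh hi0 hi1 (fun y hy => hu' y (by simpa using hy))
    exact BG_of_ex hperm htriv hi0 ⟨hs.nonneg, hu.2.1, hu.2.2⟩ (by linarith)
  · exact (H.colP i u m a hi0 hu).mono (by linarith [hF.2])

/-! ### families closed under conjugation -/

/-- closed under conjugation (up to the weight, which no list functional sees) -/
def Clo (π : Λ → DPar) : Prop := ∀ lam, ∃ lam', π lam' = cjD (π lam)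

lemma clo_pcl (π : Λ → DPar) : Clo (pcl π) := fun x => ⟨_, (cjD_pcl π x).symm⟩

lemma Clo.bg_iff {π : Λ → DPar} (hc : Clo π) {D : Pcs Pq Kd} {F : DPar → ℝ → List Pq → ℝ}
    (hF : ∀ P, F (zD P) = F P) {κ : ℝ} {u : List ℝ} {w : Kd → ℝ} {e : ℝ} :
    BG D (fun lam => F (cjD (π lam))) κ u w e ↔ BG D (fun lam => F (π lam)) κ u w e := by
  constructor
  · intro h ε hε
    obtain ⟨δ, hδ, H⟩ := h ε hε
    refine ⟨δ, hδ, fun lam N B => ?_⟩
    obtain ⟨lam', e'⟩ := hc lam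
    have h1 := H lam' N B
    dsimp only at h1 ⊢
    rw [e', cjD_cjD, hF] at h1
    exact h1
  · intro h ε hε
    obtain ⟨δ, hδ, H⟩ := h ε hε
    refine ⟨δ, hδ, fun lam N B => ?_⟩
    obtain ⟨lam', e'⟩ := hc lam
    have h1 := H lam' N B
    dsimp only at h1 ⊢
    rw [e'] at h1
    exact h1

lemma Clo.ex_eq {π : Λ → DPar} (hc : Clo π) {D : Pcs Pq Kd} {F : DPar → ℝ → List Pq → ℝ}
    (hF : ∀ P, F (zD P) = F P) :
    ex D (fun lam => F (cjD (π lam))) = ex D (fun lam => F (π lam)) := by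
  funext κ Y m a
  unfold ex
  simp only [hc.bg_iff hF]

lemma Clo.raw {π : Λ → DPar} (hc : Clo π) {θ : ℝ} {h : ℝ → ℝ}
    (H : Raw θ Dq (R0 π h) (RF0 π h) (RN0 π h) (RP0 π h) (SP0 π h)) :
    Raw θ Dq (R0 (fun lam => cjD (π lam)) h) (RF0 (fun lam => cjD (π lam)) h)
      (RN0 (fun lam => cjD (π lam)) h) (RP0 (fun lam => cjD (π lam)) h)
      (SP0 (fun lam => cjD (π lam)) h) := by
  have bR : ∀ {κ : ℝ} {u : List ℝ} {w : Kd → ℝ} {e : ℝ},
      BG Dq (R0 (fun lam => cjD (π lam)) h) κ u w e ↔ BG Dq (R0 π h) κ u w e :=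
    hc.bg_iff (F := fun P l ps => RQ CubeFree h l (ps.map (Pq.pc P))) fun P => rfl
  have bF : ∀ {κ : ℝ} {u : List ℝ} {w : Kd → ℝ} {e : ℝ},
      BG Dq (RF0 (fun lam => cjD (π lam)) h) κ u w e ↔ BG Dq (RF0 π h) κ u w e :=
    hc.bg_iff (F := fun P l ps => RQ (fun k => k ≠ 0) h l (ps.map (Pq.pc P))) fun P => rfl
  have bN : ∀ {κ : ℝ} {u : List ℝ} {w : Kd → ℝ} {e : ℝ},
      BG Dq (RN0 (fun lam => cjD (π lam)) h) κ u w e ↔ BG Dq (RN0 π h) κ u w e :=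
    hc.bg_iff (F := fun P => Rp P h) fun P => rfl
  have bP : ∀ {κ : ℝ} {u : List ℝ} {w : Kd → ℝ} {e : ℝ},
      BG Dq (RP0 (fun lam => cjD (π lam)) h) κ u w e ↔ BG Dq (RP0 π h) κ u w e :=
    hc.bg_iff (F := fun P l ps => RQ (fun k => CubeFree k ∧ ¬ P.NP2 k) h l (ps.map (Pq.pc P)))
      fun P => rfl
  have bS : ∀ {κ : ℝ} {u : List ℝ} {w : Kd → ℝ} {e : ℝ},
      BG Dq (SP0 (fun lam => cjD (π lam)) h) κ u w e ↔ BG Dq (SP0 π h) κ u w e :=
    hc.bg_iff (F := fun P => Sp P h) fun P => rfl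
  exact {
    split := fun lam => by
      obtain ⟨lam', e'⟩ := hc lam
      have h1 := H.split lam'
      simp only [R0, RN0, RP0, RX, e'] at h1 ⊢
      exact h1
    RN_le := fun lam => by
      obtain ⟨lam', e'⟩ := hc lam
      have h1 := H.RN_le lam'
      simp only [R0, RN0, RX, e'] at h1 ⊢
      exact h1
    R_le := fun lam => by
      obtain ⟨lam', e'⟩ := hc lam
      have h1 := H.R_le lam'
      simp only [R0, RF0, RX, e'] at h1 ⊢
      exact h1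
    monoRF := fun lam => by
      obtain ⟨lam', e'⟩ := hc lam
      have h1 := H.monoRF lam'
      simp only [RF0, RX, e'] at h1 ⊢
      exact h1
    monoSS := fun lam => by
      obtain ⟨lam', e'⟩ := hc lam
      have h1 := H.monoSS lam'
      simp only [SP0, e'] at h1 ⊢
      exact h1
    rawP := fun κ u m a E h1 h2 h3 h4 => bF.2 (H.rawP κ u m a E h1 h2 h3
      fun u' m' a' l g1 g2 g3 g4 g5 g6 g7 g8 => bS.1 (h4 u' m' a' l g1 g2 g3 g4 g5 g6 g7 g8))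
    rawG := fun κ u m a E h1 h2 h3 h4 => bS.2 (H.rawG κ u m a E h1 h2 h3
      fun u' m' a' g1 g2 g3 g4 g5 g6 => bF.1 (h4 u' m' a' g1 g2 g3 g4 g5 g6))
    cubes := fun κ u m a E h1 h2 h3 => bF.2 (H.cubes κ u m a E h1 h2
      fun i g1 g2 => bR.1 (h3 i g1 g2))
    mono := fun κ κ' u m a E h1 h2 h3 h4 h5 => bR.2 (H.mono κ κ' u m a E h1 h2 h3 (bF.1 h4)
      fun u₁ y u₂ g1 g2 => bR.1 (h5 u₁ y u₂ g1 g2))
    monoS := fun κ κ' u m a E h1 h2 h3 h4 h5 => bS.2 (H.monoS κ κ' u m a E h1 h2 h3 (bS.1 h4)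
      fun u₁ y u₂ g1 g2 => bS.1 (h5 u₁ y u₂ g1 g2))
    colP := fun i u m a h1 h2 => bP.2 (H.colP i u m a h1 h2)
    cut := fun i u m a e h1 h2 h3 => bN.2 (H.cut i u m a e h1 h2
      fun u' g1 g2 => bN.1 (h3 u' g1 g2))
    hbG := fun κ u m a h1 h2 => bS.2 (H.hbG κ u m a h1 h2) }

lemma Clo.rfb {π : Λ → DPar} (hc : Clo π) {d : ℝ} {h : ℝ → ℝ} (H : RFb d π h) :
    RFb d (fun lam => cjD (π lam)) h := by
  have bF : ∀ {κ : ℝ} {u : List ℝ} {w : Kd → ℝ} {e : ℝ},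
      BG Dq (RF0 (fun lam => cjD (π lam)) h) κ u w e ↔ BG Dq (RF0 π h) κ u w e :=
    hc.bg_iff (F := fun P l ps => RQ (fun k => k ≠ 0) h l (ps.map (Pq.pc P))) fun P => rfl
  exact fun i z₁ z₂ z₃ m a h1 h2 h3 h4 h5 h6 => bF.2 (H i z₁ z₂ z₃ m a h1 h2 h3 h4 h5 h6)

/-- **be and be'**: the clean form in both orders, closed family -/
theorem PG_be_clo {θ : ℝ} {h : ℝ → ℝ} {c₁ : ℝ} (hpu : PU h c₁) {π : Λ → DPar}
    (hP : ∀ lam, (π lam).OK) (hc : Clo π)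
    (H : Raw θ Dq (R0 π h) (RF0 π h) (RN0 π h) (RP0 π h) (SP0 π h)) {κ b : ℝ} {u : List ℝ}
    {m a E : ℝ} (hκ : 0 ≤ κ) (hb : 0 ≤ b) (hu : Okl u m a)
    (hE1 : κ + b + (u.sum + m + a) ≤ E) (hE2 : 2 * (u.sum + m + a) + min κ b ≤ E)
    (hch : ∀ (Y' : Multiset ℝ) (m' a' f : ℝ), Sh Y' (u : Multiset ℝ) → 0 ≤ m' → m' ≤ m →
      0 ≤ a' → a' ≤ a → 0 ≤ f → f ≤ 2 * (Y'.sum + m' + a') + min κ b - max κ b →
      max κ b + (u.sum + m + a) - 2 * (Y'.sum + m' + a') +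
        ex Dq (SP0 π h) f Y' m' a' +
        (2 * (Y'.sum + m' + a') + min κ b - max κ b - f) / 3 ≤ E) :
    PG π h κ b u (wt m a) E := by
  rcases le_total b κ with hbκ | hbκ
  · rw [min_eq_right hbκ] at hE2 hch
    rw [max_eq_left hbκ] at hch
    exact PG_clean_ex hpu hP H hb hbκ hu hE1 hE2 hch
  · rw [min_eq_left hbκ] at hE2 hch
    rw [max_eq_right hbκ] at hch
    refine PG_clean_ex' hpu hP (hc.raw H) hκ hbκ hu hE1 hE2 ?_
    intro Y' m' a' f h1 h2 h3 h4 h5 h6 h7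
    rw [hc.ex_eq (F := fun P => Sp P h) fun P => rfl]
    exact hch Y' m' a' f h1 h2 h3 h4 h5 h6 h7

/-! ### class N is closed under conjugation -/

lemma sy_sq_conj {a d : Eis} (ha : IsPrim d) : sy (a ^ 2) d = conj (sy a d) := by
  have e : sy (a ^ 2) d = sy a d * sy a d := by
    rw [show a ^ 2 = a * a by ring, syG.mul_left _ _ _ ha]
  rw [e]
  by_cases h : IsCoprime a d
  · have h1 := syG.cube a d ha h
    have h2 : sy a d * conj (sy a d) = 1 := by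
      rw [Complex.mul_conj, Complex.normSq_eq_norm_sq, PX764.norm_sy_one ha h]; simp
    have h3 : sy a d ≠ 0 := left_ne_zero_of_mul_eq_one h2
    apply mul_left_cancel₀ h3
    rw [h2, ← h1]
    ring
  · rw [(syG.eq_zero a d ha).mpr h]; simp

lemma npm_cj {n : Eis} {ψ : Eis → ℂ} {l : ℤ} {k : Eis} (h : Sup271.NPm n ψ l (k ^ 2)) :
    Sup271.NPm n (fun b => conj (ψ b)) (-l) k := by
  rcases h with h | ⟨a, ha, hc, hne⟩
  · exact Or.inl (neg_ne_zero.2 h)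
  · refine Or.inr ⟨a, ha, ?_, ?_⟩
    · exact hc.of_isCoprime_of_dvd_right ⟨k, by ring⟩
    · intro h1
      apply hne
      have h2 := congrArg conj h1
      rw [map_mul, Complex.conj_conj, map_one] at h2
      show ψ a * sy (k ^ 2) a = 1
      rw [sy_sq_conj ha]
      exact h2

theorem classN_cj {P : DPar} (hN : ∀ k : Eis, k ≠ 0 → Sup271.NPm P.n P.ψ P.l₂ k) :
    ∀ k : Eis, k ≠ 0 → Sup271.NPm (cjD P).n (cjD P).ψ (cjD P).l₂ k :=
  fun k hk => npm_cj (hN (k ^ 2) (pow_ne_zero 2 hk))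

/-- the conjugate of data of class N -/
def cjN (P : LamN) : LamN :=
  ⟨cjD P.1, cjD_ok P.2.1, fun k hk => npm_cj (P.2.2 (k ^ 2) (pow_ne_zero 2 hk))⟩

lemma clo_LamN : Clo (fun P : LamN => P.1) := fun P => ⟨cjN P, rfl⟩

/-- **al / be / be' at one point**, closed family -/
theorem PG_r2 {θ : ℝ} {h : ℝ → ℝ} {c₁ : ℝ} (hpu : PU h c₁) {π : Λ → DPar}
    (hP : ∀ lam, (π lam).OK) (hc : Clo π)
    (H : Raw θ Dq (R0 π h) (RF0 π h) (RN0 π h) (RP0 π h) (SP0 π h))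
    (hperm : Pinv (RN0 π h)) (htriv : Triv Dq (RN0 π h)) {κ b : ℝ} {u : List ℝ} {m a E : ℝ}
    (hκ : 0 ≤ κ) (hb : 0 ≤ b) (hu : Okl u m a)
    (hF : Fullx θ (ex Dq (RN0 π h)) (κ + 2 * b) (u : Multiset ℝ) m a E ∨
      PMx (ex Dq (SP0 π h)) κ b (u : Multiset ℝ) m a E ∨
      PMx (ex Dq (SP0 π h)) b κ (u : Multiset ℝ) m a E) :
    PG π h κ b u (wt m a) E := by
  rcases hF with h1 | h1 | h1
  · exact PG_of_Full H hperm htriv hκ hb hu h1
  · exact PG_of_PM hpu hP hκ hb hu h1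
  · refine PG_of_PM' hpu hP hκ hb hu ?_
    have e : ex Dq (fun lam => Sp (cjD (π lam)) h) = ex Dq (SP0 π h) :=
      hc.ex_eq (F := fun P => Sp P h) fun P => rfl
    rw [e]
    exact h1

/-- the hypotheses on the number side are monotone in the level `ρ` -/
lemma PMx.mono {s : EF} {i b : ℝ} {Y : Multiset ℝ} {m a ρ ρ' : ℝ} (H : PMx s i b Y m a ρ)
    (h : ρ ≤ ρ') : PMx s i b Y m a ρ' :=
  ⟨H.1.trans h, fun Y' m' a' n' n₁ h1 h2 h3 h4 h5 h6 h7 h8 h9 =>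
    (H.2 Y' m' a' n' n₁ h1 h2 h3 h4 h5 h6 h7 h8 h9).trans h⟩

lemma Fullx.mono {θ : ℝ} {r : EF} {κ : ℝ} {Y : Multiset ℝ} {m a ρ ρ' : ℝ}
    (H : Fullx θ r κ Y m a ρ) (h : ρ ≤ ρ') : Fullx θ r κ Y m a ρ' :=
  ⟨fun Y' κ' h1 h2 h3 h4 => (H.1 Y' κ' h1 h2 h3 h4).trans h, H.2.trans h⟩

end Crest.Agent.R017.PM320
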