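import Crest.Agent.R017.ProvI_71
import Crest.Agent.R017.FE6_47

/-!
# Row 17, E4 at list level: trivial bounds of the functionals, all heights (helper973)

* `n1` : `ℓ¹` norm; `n1_alL` : `n1 (alL h ps) ≤ C ^ |ps| * ∏ Y`
* `triv_RQ`, `triv_SK`, `triv_BQ`
-/

set_option autoImplicit false
set_option linter.unusedSectionVars false
set_option linter.unusedVariables false

noncomputable section

open Set Filter Topology
open scoped ComplexConjugate

namespace Crest.Agent.R017.UBT973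

open Crest.Agent.R012 Crest.Agent.R012.Eis Crest.Agent.R012.Mob705
open Crest.Agent.R012.LS2 (bl)
open Crest.Agent.R012.Div277 (dvs mem_dvs)
open Crest.Agent.R017.TP320 (conv tsum_conv)
open Crest.Agent.R017.CM106 Crest.Agent.R017.FE47 Crest.Agent.R017.End699
open Crest.Agent.R017.HP842 Crest.Agent.R017.HSep813 Crest.Agent.R017.B770 Crest.Agent.R017.Prov71

/-- the `ℓ¹` norm -/
def n1 (a : Eis → ℂ) : ℝ := ∑' n, ‖a n‖

lemma n1_nonneg (a : Eis → ℂ) : 0 ≤ n1 a := tsum_nonneg fun _ => norm_nonneg _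

lemma n1_eq {a : Eis → ℂ} {s : Finset Eis} (h : ∀ n, n ∉ s → a n = 0) : n1 a = ∑ n ∈ s, ‖a n‖ :=
  tsum_eq_sum fun n hn => by rw [h n hn, norm_zero]

lemma n1_FS {a : Eis → ℂ} (h : FS a) : n1 a = ∑ n ∈ h.fin.toFinset, ‖a n‖ :=
  n1_eq fun n hn => by
    by_contra h0
    exact hn (h.fin.mem_toFinset.2 h0)

/-- the sequence of absolute values -/
def ab (a : Eis → ℂ) (n : Eis) : ℂ := ((‖a n‖ : ℝ) : ℂ)

lemma FS_ab {a : Eis → ℂ} (h : FS a) : FS (ab a) where
  fin := h.fin.subset fun n hn h0 => hn (by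
    have h0' : a n = 0 := h0
    unfold ab; rw [h0', norm_zero]; rfl)
  prim m hm := h.prim m fun h0 => hm (by unfold ab; rw [h0, norm_zero]; rfl)

lemma tsum_ab (a : Eis → ℂ) : ∑' n, ab a n = ((n1 a : ℝ) : ℂ) := by
  unfold ab n1
  exact (Complex.ofReal_tsum _).symm

lemma n1_conv {a b : Eis → ℂ} (ha : FS a) (hb : FS b) : n1 (conv a b) ≤ n1 a * n1 b := by
  classical
  have hfs := FS_conv (FS_ab ha) (FS_ab hb)
  have e1 : ∀ n, conv (ab a) (ab b) n = ((∑ d ∈ dvs n, ‖a d‖ * ‖b (n / d)‖ : ℝ) : ℂ) := by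
    intro n
    unfold TP320.conv ab
    push_cast
    rfl
  have e2 : ∀ n, ‖conv a b n‖ ≤ ∑ d ∈ dvs n, ‖a d‖ * ‖b (n / d)‖ := by
    intro n
    unfold TP320.conv
    refine (norm_sum_le _ _).trans (Finset.sum_le_sum fun d _ => ?_)
    rw [norm_mul]
  have h0 : ∀ n, n ∉ hfs.fin.toFinset → ∑ d ∈ dvs n, ‖a d‖ * ‖b (n / d)‖ = 0 := by
    intro n hn
    have h1 : conv (ab a) (ab b) n = 0 := by
      by_contra h0
      exact hn (hfs.fin.mem_toFinset.2 h0)
    rw [e1] at h1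
    exact_mod_cast h1
  have h3 := tsum_conv_mul (FS_ab ha) (FS_ab hb) (F := fun _ => 1) (fun _ _ _ _ => by simp)
  simp only [mul_one] at h3
  rw [tsum_ab, tsum_ab, tsum_eq_sum (s := hfs.fin.toFinset) (fun n hn => by
    rw [e1, h0 n hn]; rfl)] at h3
  have h4 : ∑ n ∈ hfs.fin.toFinset, ∑ d ∈ dvs n, ‖a d‖ * ‖b (n / d)‖ = n1 a * n1 b := by
    have : ((∑ n ∈ hfs.fin.toFinset, ∑ d ∈ dvs n, ‖a d‖ * ‖b (n / d)‖ : ℝ) : ℂ) =
        ((n1 a * n1 b : ℝ) : ℂ) := by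
      rw [Complex.ofReal_sum, Complex.ofReal_mul, ← h3]
      exact Finset.sum_congr rfl fun n _ => (e1 n).symm
    exact_mod_cast this
  rw [n1_eq (s := hfs.fin.toFinset) fun n hn => by
    have := (e2 n).trans_eq (h0 n hn)
    exact norm_le_zero_iff.1 this, ← h4]
  exact Finset.sum_le_sum fun n _ => e2 n

lemma n1_dl : n1 dl = 1 := by
  rw [n1_eq (s := {1}) fun n hn => dl_ne (by simpa using hn)]
  simp [dl_one]

/-- **`ℓ¹` norm of a piece** -/
lemma n1_pc {h : ℝ → ℝ} (h1 : Continuous h) (h2 : HasCompactSupport h) :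
    ∃ C : ℝ, 1 ≤ C ∧ ∀ p : Pc, p.OK → n1 (pc h p) ≤ C * p.Y := by
  classical
  obtain ⟨R, hR⟩ := bump_of_cs h2
  obtain ⟨H, hH⟩ := h2.exists_bound_of_continuous h1
  have hH0 : 0 ≤ H := (norm_nonneg _).trans (hH 0)
  refine ⟨100 * Real.exp R * H + 1, by
    have : 0 ≤ 100 * Real.exp R * H := by positivity
    linarith, fun p hp => ?_⟩
  have hY := hp.Y0
  have hz : ∀ b, b ∉ primBall ⌊Real.exp (Real.log p.Y + R)⌋₊ → pc h p b = 0 := by
    intro b hb
    by_contra hb'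
    apply hb
    unfold pc at hb'
    split_ifs at hb' with hpr
    · rw [mem_primBall]
      refine ⟨?_, hpr⟩
      have h1 : gw h p.Y p.t b ≠ 0 := right_ne_zero_of_mul hb'
      unfold gw at h1
      have h2 := hR _ (right_ne_zero_of_mul h1)
      have h3 : (0 : ℝ) < nm b := by exact_mod_cast nm_pos.2 hpr.ne_zero
      have h4 : Real.log (nm b) ≤ Real.log p.Y + R := by
        have := (abs_le.1 h2).2
        linarith
      rw [Nat.le_floor_iff (Real.exp_pos _).le]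
      calc (nm b : ℝ) = Real.exp (Real.log (nm b)) := (Real.exp_log h3).symm
        _ ≤ _ := Real.exp_le_exp.2 h4
    · exact absurd rfl hb'
  rw [n1_eq hz]
  have hterm : ∀ b ∈ primBall ⌊Real.exp (Real.log p.Y + R)⌋₊, ‖pc h p b‖ ≤ H := by
    intro b hb
    have hb' := (mem_primBall.mp hb).2
    unfold pc
    rw [if_pos hb', norm_mul, norm_mul]
    have u1 : ‖uv p.u b‖ ≤ 1 := HP842.norm_uv_le _ _
    have u2 : ‖p.ψ b‖ ≤ 1 := hp.ch.norm_le hb'
    have h2 : ‖gw h p.Y p.t b‖ ≤ H := by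
      unfold gw
      rw [norm_mul, Weight600.norm_osc, one_mul]
      unfold cx
      rw [Complex.norm_real]
      exact hH _
    calc ‖uv p.u b‖ * ‖p.ψ b‖ * ‖gw h p.Y p.t b‖ ≤ 1 * 1 * H := by gcongr
      _ = H := by ring
  calc ∑ b ∈ primBall ⌊Real.exp (Real.log p.Y + R)⌋₊, ‖pc h p b‖
      ≤ ∑ b ∈ primBall ⌊Real.exp (Real.log p.Y + R)⌋₊, H := Finset.sum_le_sum hterm
    _ = (primBall ⌊Real.exp (Real.log p.Y + R)⌋₊).card * H := by
        rw [Finset.sum_const, nsmul_eq_mul]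
    _ ≤ (100 * (⌊Real.exp (Real.log p.Y + R)⌋₊ : ℝ)) * H :=
        mul_le_mul_of_nonneg_right (Lat277.card_primBall_le _) hH0
    _ ≤ (100 * (p.Y * Real.exp R)) * H := by
        gcongr
        refine (Nat.floor_le (Real.exp_pos _).le).trans_eq ?_
        rw [Real.exp_add, Real.exp_log hY]
    _ = (100 * Real.exp R * H) * p.Y := by ring
    _ ≤ (100 * Real.exp R * H + 1) * p.Y := by nlinarith

/-- product of the lengths -/
def pY (ps : List Pc) : ℝ := (ps.map Pc.Y).prod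

lemma pY_nonneg {ps : List Pc} (hp : ∀ p ∈ ps, p.OK) : 0 ≤ pY ps := by
  refine List.prod_nonneg ?_
  intro a ha
  obtain ⟨p, hp', rfl⟩ := List.mem_map.1 ha
  exact (hp p hp').Y0.le

/-- **`ℓ¹` norm of a list** -/
lemma n1_alL {h : ℝ → ℝ} (h2 : HasCompactSupport h) {C : ℝ} (hC : 1 ≤ C)
    (hb : ∀ p : Pc, p.OK → n1 (pc h p) ≤ C * p.Y) {ps : List Pc} (hp : ∀ p ∈ ps, p.OK) :
    n1 (alL h ps) ≤ C ^ ps.length * pY ps := by
  obtain ⟨R, hR⟩ := bump_of_cs h2
  induction ps with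
  | nil => simp [pY, n1_dl]
  | cons p ps ih =>
    have h1 := hp p List.mem_cons_self
    have h2' : ∀ q ∈ ps, q.OK := fun q hq => hp q (List.mem_cons_of_mem _ hq)
    have ih' := ih h2'
    have hfs : FS (alL h ps) := by
      refine FS_cvL fun f hf => ?_
      obtain ⟨q, hq, rfl⟩ := List.mem_map.1 hf
      exact FS_pc hR (h2' q hq)
    rw [alL_cons]
    refine (n1_conv (FS_pc hR h1) hfs).trans ?_
    have hY := h1.Y0
    have hpy := pY_nonneg h2'
    calc n1 (pc h p) * n1 (alL h ps) ≤ (C * p.Y) * (C ^ ps.length * pY ps) :=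
          mul_le_mul (hb p h1) ih' (n1_nonneg _) (by positivity)
      _ = C ^ (p :: ps).length * pY (p :: ps) := by
          rw [List.length_cons, pow_succ]; unfold pY; rw [List.map_cons, List.prod_cons]; ring

lemma FS_alL {h : ℝ → ℝ} (h2 : HasCompactSupport h) {ps : List Pc} (hp : ∀ p ∈ ps, p.OK) :
    FS (alL h ps) := by
  obtain ⟨R, hR⟩ := bump_of_cs h2
  refine FS_cvL fun f hf => ?_
  obtain ⟨q, hq, rfl⟩ := List.mem_map.1 hf
  exact FS_pc hR (hp q hq)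

lemma norm_Th_le (q n : Eis) : ‖Th q n‖ ≤ 1 := by
  unfold Th; split_ifs <;> simp

/-- kernel sums -/
lemma norm_KS_le {K : Eis → Eis → ℂ} {B : ℝ} (hB : 0 ≤ B) {x : Eis}
    (hK : ∀ m, IsPrim m → ‖K x m‖ ≤ B) (q : Eis) {a : Eis → ℂ} (ha : FS a) :
    ‖KS K (sqc q a) x‖ ≤ B * n1 a := by
  classical
  unfold HP842.KS
  rw [tsum_eq_sum (s := ha.fin.toFinset) (fun n hn => by
    have h0 : a n = 0 := by
      by_contra h0
      exact hn (ha.fin.mem_toFinset.2 h0)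
    unfold HP842.sqc
    rw [h0, mul_zero, zero_mul]), n1_FS ha, Finset.mul_sum]
  refine (norm_sum_le _ _).trans (Finset.sum_le_sum fun n hn => ?_)
  have hn' : a n ≠ 0 := ha.fin.mem_toFinset.1 hn
  unfold HP842.sqc
  rw [norm_mul, norm_mul]
  calc ‖Th q n‖ * ‖a n‖ * ‖K x n‖ ≤ 1 * ‖a n‖ * B := by
        gcongr
        · exact norm_Th_le _ _
        · exact hK n (ha.prim n hn')
    _ = B * ‖a n‖ := by ring

lemma card_bl_le (l : ℝ) : ((bl (Real.exp l)).card : ℝ) ≤ 100 * Real.exp l := by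
  have h2 : ((bl (Real.exp l)).card : ℝ) ≤ 100 * ⌊Real.exp l⌋₊ := by
    unfold LS2.bl
    exact Lat277.card_ball_erase_le _
  have h3 : (⌊Real.exp l⌋₊ : ℝ) ≤ Real.exp l := Nat.floor_le (Real.exp_pos _).le
  linarith

/-- **trivial bound, Gauss side** -/
theorem triv_SK {h : ℝ → ℝ} (h1 : Continuous h) (h2 : HasCompactSupport h) :
    ∃ C : ℝ, 1 ≤ C ∧ ∀ (K : Eis → Eis → ℂ) (B : ℝ), 0 ≤ B → (∀ x m, IsPrim m → ‖K x m‖ ≤ B) →
      ∀ (l : ℝ) (ps : List Pc), (∀ p ∈ ps, p.OK) →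
        SK K h l ps ≤ 100 * B ^ 2 * C ^ (2 * ps.length) * (Real.exp l * pY ps ^ 2) := by
  obtain ⟨C, hC, hb⟩ := n1_pc h1 h2
  refine ⟨C, hC, fun K B hB hK l ps hp => ?_⟩
  have hpy := pY_nonneg hp
  have hn := n1_alL h2 hC hb hp
  have hterm : ∀ x ∈ bl (Real.exp l), ‖KS K (sqc 1 (alL h ps)) x‖ ^ 2 ≤
      (B * (C ^ ps.length * pY ps)) ^ 2 := by
    intro x _
    have := (norm_KS_le hB (hK x) 1 (FS_alL h2 hp)).trans (mul_le_mul_of_nonneg_left hn hB)
    exact pow_le_pow_left₀ (norm_nonneg _) this 2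
  unfold SK
  calc ∑ x ∈ bl (Real.exp l), ‖KS K (sqc 1 (alL h ps)) x‖ ^ 2
      ≤ ∑ x ∈ bl (Real.exp l), (B * (C ^ ps.length * pY ps)) ^ 2 := Finset.sum_le_sum hterm
    _ = ((bl (Real.exp l)).card : ℝ) * (B * (C ^ ps.length * pY ps)) ^ 2 := by
        rw [Finset.sum_const, nsmul_eq_mul]
    _ ≤ (100 * Real.exp l) * (B * (C ^ ps.length * pY ps)) ^ 2 :=
        mul_le_mul_of_nonneg_right (card_bl_le l) (by positivity)
    _ = _ := by rw [pow_mul]; ring

/-- character sums -/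
lemma norm_CS_le {a : Eis → ℂ} (ha : FS a) (k : Eis) : ‖CS a k‖ ≤ n1 a := by
  classical
  unfold CM106.CS
  rw [tsum_eq_sum (s := ha.fin.toFinset) (fun n hn => by
    have h0 : a n = 0 := by
      by_contra h0
      exact hn (ha.fin.mem_toFinset.2 h0)
    rw [h0, zero_mul]), n1_FS ha]
  refine (norm_sum_le _ _).trans (Finset.sum_le_sum fun n hn => ?_)
  have hn' : a n ≠ 0 := ha.fin.mem_toFinset.1 hn
  rw [norm_mul]
  calc ‖a n‖ * ‖sy k n‖ ≤ ‖a n‖ * 1 := by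
        gcongr
        exact CM106.norm_sy_le' (ha.prim n hn')
    _ = ‖a n‖ := mul_one _

/-- **trivial bound of a piece** -/
lemma CS_pc_triv {h : ℝ → ℝ} (h2 : HasCompactSupport h) {C : ℝ}
    (hb : ∀ p : Pc, p.OK → n1 (pc h p) ≤ C * p.Y) {p : Pc} (hp : p.OK) (k : Eis) :
    ‖CS (pc h p) k‖ ≤ C * p.Y := by
  obtain ⟨R, hR⟩ := bump_of_cs h2
  exact (norm_CS_le (FS_pc hR hp) k).trans (hb p hp)

lemma prod_triv {C : ℝ} (hC : 1 ≤ C) {F : Pc → ℝ} (hF : ∀ p, 0 ≤ F p) {ps : List Pc}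
    (hp : ∀ p ∈ ps, p.OK) (hb : ∀ p ∈ ps, F p ≤ C * p.Y) :
    (ps.map F).prod ≤ C ^ ps.length * pY ps := by
  induction ps with
  | nil => simp [pY]
  | cons p ps ih =>
    have h2' : ∀ q ∈ ps, q.OK := fun q hq => hp q (List.mem_cons_of_mem _ hq)
    have ih' := ih h2' fun q hq => hb q (List.mem_cons_of_mem _ hq)
    have hY := (hp p List.mem_cons_self).Y0
    have hpy := pY_nonneg h2'
    have h0 : 0 ≤ (ps.map F).prod := by
      refine List.prod_nonneg ?_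
      intro a ha
      obtain ⟨q, _, rfl⟩ := List.mem_map.1 ha
      exact hF q
    rw [List.map_cons, List.prod_cons]
    calc F p * (ps.map F).prod ≤ (C * p.Y) * (C ^ ps.length * pY ps) :=
          mul_le_mul (hb p List.mem_cons_self) ih' h0 (by positivity)
      _ = C ^ (p :: ps).length * pY (p :: ps) := by
          rw [List.length_cons, pow_succ]; unfold pY; rw [List.map_cons, List.prod_cons]; ring

/-- **trivial bound, second moment, character side** -/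
theorem triv_RQ {h : ℝ → ℝ} (h1 : Continuous h) (h2 : HasCompactSupport h) :
    ∃ C : ℝ, 1 ≤ C ∧ ∀ (Q : Eis → Prop) (l : ℝ) (ps : List Pc), (∀ p ∈ ps, p.OK) →
      RQ Q h l ps ≤ 100 * C ^ (2 * ps.length) * (Real.exp l * pY ps ^ 2) := by
  classical
  obtain ⟨C, hC, hb⟩ := n1_pc h1 h2
  refine ⟨C, hC, fun Q l ps hp => ?_⟩
  have hpy := pY_nonneg hp
  have hterm : ∀ k ∈ (bl (Real.exp l)).filter Q,
      (ps.map fun p => ‖CS (pc h p) k‖ ^ 2).prod ≤ (C ^ ps.length * pY ps) ^ 2 := by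
    intro k _
    have e : (ps.map fun p => ‖CS (pc h p) k‖ ^ 2).prod =
        ((ps.map fun p => ‖CS (pc h p) k‖).prod) ^ 2 := by
      clear hp hpy
      induction ps with
      | nil => simp
      | cons p ps ih => rw [List.map_cons, List.prod_cons, ih, List.map_cons, List.prod_cons, mul_pow]
    rw [e]
    refine pow_le_pow_left₀ (List.prod_nonneg ?_) (prod_triv hC (fun p => norm_nonneg _) hp
      fun p hp' => CS_pc_triv h2 hb (hp p hp') k) 2
    intro a ha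
    obtain ⟨p, _, rfl⟩ := List.mem_map.1 ha
    exact norm_nonneg _
  unfold RQ
  calc ∑ k ∈ (bl (Real.exp l)).filter Q, (ps.map fun p => ‖CS (pc h p) k‖ ^ 2).prod
      ≤ ∑ k ∈ (bl (Real.exp l)).filter Q, (C ^ ps.length * pY ps) ^ 2 := Finset.sum_le_sum hterm
    _ = (((bl (Real.exp l)).filter Q).card : ℝ) * (C ^ ps.length * pY ps) ^ 2 := by
        rw [Finset.sum_const, nsmul_eq_mul]
    _ ≤ (100 * Real.exp l) * (C ^ ps.length * pY ps) ^ 2 := by
        refine mul_le_mul_of_nonneg_right ?_ (by positivity)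
        have h1 : (((bl (Real.exp l)).filter Q).card : ℝ) ≤ ((bl (Real.exp l)).card : ℝ) := by
          exact_mod_cast Finset.card_filter_le _ _
        exact h1.trans (card_bl_le l)
    _ = _ := by rw [pow_mul]; ring

/-- **trivial bound, first moment** -/
theorem triv_BQ {h : ℝ → ℝ} (h1 : Continuous h) (h2 : HasCompactSupport h) :
    ∃ C : ℝ, 1 ≤ C ∧ ∀ (Q : Eis → Prop) (l : ℝ) (ps : List Pc), (∀ p ∈ ps, p.OK) →
      BQ Q h l ps ≤ 100 * C ^ ps.length * (Real.exp l * pY ps) := by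
  classical
  obtain ⟨C, hC, hb⟩ := n1_pc h1 h2
  refine ⟨C, hC, fun Q l ps hp => ?_⟩
  have hpy := pY_nonneg hp
  unfold BQ
  calc ∑ k ∈ (bl (Real.exp l)).filter Q, (ps.map fun p => ‖CS (pc h p) k‖).prod
      ≤ ∑ k ∈ (bl (Real.exp l)).filter Q, (C ^ ps.length * pY ps) :=
        Finset.sum_le_sum fun k _ => prod_triv hC (fun p => norm_nonneg _) hp
          fun p hp' => CS_pc_triv h2 hb (hp p hp') k
    _ = (((bl (Real.exp l)).filter Q).card : ℝ) * (C ^ ps.length * pY ps) := by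
        rw [Finset.sum_const, nsmul_eq_mul]
    _ ≤ (100 * Real.exp l) * (C ^ ps.length * pY ps) := by
        refine mul_le_mul_of_nonneg_right ?_ (by positivity)
        have h1 : (((bl (Real.exp l)).filter Q).card : ℝ) ≤ ((bl (Real.exp l)).card : ℝ) := by
          exact_mod_cast Finset.card_filter_le _ _
        exact h1.trans (card_bl_le l)
    _ = _ := by ring

/-! ### pieces with parameters -/

lemma pY_pc (P : DPar) (qs : List Pq) :
    pY (qs.map (Pq.pc P)) = Real.exp ((qs.map Pq.z).sum) := by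
  induction qs with
  | nil => simp [pY]
  | cons q qs ih =>
    unfold pY at ih ⊢
    rw [List.map_cons, List.map_cons, List.prod_cons, ih, Pq.pc_Y, List.map_cons, List.sum_cons,
      Real.exp_add]

lemma ok_pc {P : DPar} (hP : P.OK) (qs : List Pq) : ∀ p ∈ qs.map (Pq.pc P), p.OK := by
  intro p hp
  obtain ⟨q, _, rfl⟩ := List.mem_map.1 hp
  exact Pq.ok hP q

/-- **trivial bound, second moment**, all heights: `exp (l + 2 ∑ z)` -/
theorem triv_RQ' {h : ℝ → ℝ} (h1 : Continuous h) (h2 : HasCompactSupport h) :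
    ∃ C : ℝ, 1 ≤ C ∧ ∀ (P : DPar), P.OK → ∀ (Q : Eis → Prop) (l : ℝ) (qs : List Pq),
      RQ Q h l (qs.map (Pq.pc P)) ≤
        100 * C ^ (2 * qs.length) * Real.exp (l + 2 * (qs.map Pq.z).sum) := by
  obtain ⟨C, hC, hb⟩ := triv_RQ h1 h2
  refine ⟨C, hC, fun P hP Q l qs => ?_⟩
  refine (hb Q l _ (ok_pc hP qs)).trans_eq ?_
  rw [pY_pc, List.length_map, ← Real.exp_nat_mul, ← Real.exp_add]
  norm_num

/-- **trivial bound, first moment**, all heights: `exp (l + ∑ z)` -/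
theorem triv_BQ' {h : ℝ → ℝ} (h1 : Continuous h) (h2 : HasCompactSupport h) :
    ∃ C : ℝ, 1 ≤ C ∧ ∀ (P : DPar), P.OK → ∀ (Q : Eis → Prop) (l : ℝ) (qs : List Pq),
      BQ Q h l (qs.map (Pq.pc P)) ≤
        100 * C ^ qs.length * Real.exp (l + (qs.map Pq.z).sum) := by
  obtain ⟨C, hC, hb⟩ := triv_BQ h1 h2
  refine ⟨C, hC, fun P hP Q l qs => ?_⟩
  refine (hb Q l _ (ok_pc hP qs)).trans_eq ?_
  rw [pY_pc, List.length_map, ← Real.exp_add]

/-- **trivial bound, Gauss side**, all heights: `exp (l + 2 ∑ z)` -/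
theorem triv_SK' {h : ℝ → ℝ} (h1 : Continuous h) (h2 : HasCompactSupport h) :
    ∃ C : ℝ, 1 ≤ C ∧ ∀ (P : DPar), P.OK → ∀ (K : Eis → Eis → ℂ) (B : ℝ), 0 ≤ B →
      (∀ x m, IsPrim m → ‖K x m‖ ≤ B) → ∀ (l : ℝ) (qs : List Pq),
      SK K h l (qs.map (Pq.pc P)) ≤
        100 * B ^ 2 * C ^ (2 * qs.length) * Real.exp (l + 2 * (qs.map Pq.z).sum) := by
  obtain ⟨C, hC, hb⟩ := triv_SK h1 h2
  refine ⟨C, hC, fun P hP K B hB hK l qs => ?_⟩
  refine (hb K B hB hK l _ (ok_pc hP qs)).trans_eq ?_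
  rw [pY_pc, List.length_map, ← Real.exp_nat_mul, ← Real.exp_add]
  norm_num

/-- the Gauss kernel is bounded by `1` -/
lemma norm_Kg_le (x m : Eis) (hm : IsPrim m) : ‖Kg x m‖ ≤ 1 := CM106.norm_Gsy_le hm

/-- the functional of the provider, Gauss side -/
theorem triv_Sp {h : ℝ → ℝ} (h1 : Continuous h) (h2 : HasCompactSupport h) :
    ∃ C : ℝ, 1 ≤ C ∧ ∀ (P : DPar), P.OK → ∀ (l : ℝ) (qs : List Pq),
      Sp P h l qs ≤ 100 * C ^ (2 * qs.length) * Real.exp (l + 2 * (qs.map Pq.z).sum) := by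
  obtain ⟨C, hC, hb⟩ := triv_SK' h1 h2
  refine ⟨C, hC, fun P hP l qs => ?_⟩
  have := hb P hP Kg 1 zero_le_one norm_Kg_le l qs
  rw [one_pow, mul_one] at this
  exact this

/-- the functional of the provider, character side -/
theorem triv_Rc {h : ℝ → ℝ} (h1 : Continuous h) (h2 : HasCompactSupport h) :
    ∃ C : ℝ, 1 ≤ C ∧ ∀ (P : DPar), P.OK → ∀ (l : ℝ) (qs : List Pq),
      Rc P h l qs ≤ 100 * C ^ (2 * qs.length) * Real.exp (l + 2 * (qs.map Pq.z).sum) := by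
  obtain ⟨C, hC, hb⟩ := triv_RQ' h1 h2
  exact ⟨C, hC, fun P hP l qs => hb P hP _ l qs⟩

end Crest.Agent.R017.UBT973
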