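import Crest.Agent.R017.RM3b_986
import Crest.Agent.R017.UBTransfer_973
import Crest.Agent.R017.UBTriv_973

/-!
# Row 17, R8 / P1 (G2): R-moments of three lumps, uniform bounds with slack (helper986)

* `fB K` : the constraint function of the cube `[0, K]`
* `triv3` : trivial bound; `ubs_Rc`, `ubs_RF` : `UBs`
* `rm_plain` : the same without systems: `RX Q π h lam l ([u₁,u₂,u₃] ++ ps)` for granular `ps`
-/

set_option autoImplicit false

noncomputable section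

open Set

namespace Crest.Agent.R017.RM986

open Crest.Agent.R012 Crest.Agent.R012.Eis
open Crest.Agent.R017.FE47 (PU)
open Crest.Agent.R017.CM106
open Crest.Agent.R017.XG702 (Pcs BG)
open Crest.Agent.R017.XT71 (Sys Win mx)
open Crest.Agent.R017.E5B71 (UB)
open Crest.Agent.R017.Prov71
open Crest.Agent.R017.B770
open Crest.Agent.R017.ER911 Crest.Agent.R017.SC777 Crest.Agent.R017.ExpC702
open Crest.Agent.R017.HP842 (Pc pc)
open Crest.Agent.R017.UBR61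
open Crest.Agent.R017.XPD571 (RX R0 RF0 RN0 RP0 SP0)
open Crest.Agent.R017.UBT973 (UBs Wn Triv ubs_of_ub)

variable {Λ : Type*} {π : Λ → DPar} {h : ℝ → ℝ}

/-- distance to `[0, K]` -/
def g1 (K x : ℝ) : ℝ := max (-x) (x - K)

/-- constraint function of the cube -/
def fB (K : ℝ) (q : (Fin 4 → ℝ) × (Kd → ℝ)) : ℝ :=
  max (max (g1 K (q.1 0)) (g1 K (q.1 1))) (max (max (g1 K (q.1 2)) (g1 K (q.1 3)))
    (max (g1 K (q.2 .mo)) (g1 K (q.2 .am))))

lemma g1_le {K x s : ℝ} : g1 K x ≤ s ↔ -s ≤ x ∧ x ≤ K + s := by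
  unfold g1
  rw [max_le_iff]
  constructor
  · rintro ⟨h1, h2⟩; exact ⟨by linarith, by linarith⟩
  · rintro ⟨h1, h2⟩; exact ⟨by linarith, by linarith⟩

lemma fB_le {K s : ℝ} {q : (Fin 4 → ℝ) × (Kd → ℝ)} :
    fB K q ≤ s ↔ (∀ i, -s ≤ q.1 i ∧ q.1 i ≤ K + s) ∧ ∀ t, -s ≤ q.2 t ∧ q.2 t ≤ K + s := by
  unfold fB
  simp only [max_le_iff, g1_le]
  constructor
  · rintro ⟨⟨h0, h1⟩, ⟨h2, h3⟩, h4, h5⟩
    refine ⟨fun i => ?_, fun t => ?_⟩
    · fin_cases i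
      · exact h0
      · exact h1
      · exact h2
      · exact h3
    · cases t
      · exact h4
      · exact h5
  · rintro ⟨h, h'⟩
    exact ⟨⟨h 0, h 1⟩, ⟨h 2, h 3⟩, h' .mo, h' .am⟩

lemma fB_cont (K : ℝ) : Continuous (fB K) := by
  have c0 := cont_co (ι := Fin 4) 0
  have c1 := cont_co (ι := Fin 4) 1
  have c2 := cont_co (ι := Fin 4) 2
  have c3 := cont_co (ι := Fin 4) 3
  have cm := cont_mo (ι := Fin 4)
  have ca := cont_am (ι := Fin 4)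
  unfold fB g1
  fun_prop

lemma fB_zero (K : ℝ) : {q | fB K q ≤ 0} = Bx K := by
  ext q
  rw [Set.mem_ofPred_eq, fB_le]
  simp only [neg_zero, add_zero]
  rfl

lemma fB_compact (K s : ℝ) : IsCompact {q | fB K q ≤ s} := by
  have e : {q | fB K q ≤ s} =
      (Set.Icc (fun _ => -s) (fun _ => K + s)) ×ˢ (Set.Icc (fun _ => -s) (fun _ => K + s)) := by
    ext q
    rw [Set.mem_ofPred_eq, fB_le]
    simp only [mem_prod, mem_Icc, Pi.le_def]
    constructor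
    · rintro ⟨h1, h2⟩
      exact ⟨⟨fun i => (h1 i).1, fun i => (h1 i).2⟩, ⟨fun i => (h2 i).1, fun i => (h2 i).2⟩⟩
    · rintro ⟨⟨h1, h2⟩, ⟨h3, h4⟩⟩
      exact ⟨fun i => ⟨h1 i, h2 i⟩, fun i => ⟨h3 i, h4 i⟩⟩
  rw [e]
  exact isCompact_Icc.prod isCompact_Icc

lemma sum_z_eq {X : ℝ} (hX : 1 < X) (ps : List Pq) : (ps.map Pq.z).sum =
    (Dq.mass X ps .mo + Dq.mass X ps .am) * Real.log X := by
  have hL : Real.log X ≠ 0 := (Real.log_pos hX).ne'
  induction ps with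
  | nil => simp
  | cons p ps ih =>
    rw [List.map_cons, List.sum_cons, ih, Pcs.mass_cons, Pcs.mass_cons]
    have e : p.z = Dq.nl X p * Real.log X := by
      show p.z = p.z / Real.log X * Real.log X
      rw [div_mul_cancel₀ _ hL]
    cases hk : p.kd with
    | mo => simp [hk]; linear_combination e
    | am => simp [hk]; linear_combination e

/-- **trivial bound** -/
theorem triv3 {c₀ : ℝ} (hpu : PU h c₀) (hP : ∀ lam, (π lam).OK) (Q : Λ → Eis → Prop)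
    (c : Λ → ℝ) (K : ℝ) (al : Set ((Fin 4 → ℝ) × ℝ)) :
    Triv S3 Dq (M3 Q π h c) (fB K) al := by
  obtain ⟨C, hC, hb⟩ := UBT973.triv_RQ' hpu.cd.continuous hpu.cs
  refine UBT973.triv_of_exp (fB_compact K 1)
    (G := fun q => q.1 0 + 2 * (q.1 1 + q.1 2 + q.1 3 + q.2 .mo + q.2 .am)) ?_ ?_
  · have c0 := cont_co (ι := Fin 4) 0
    have c1 := cont_co (ι := Fin 4) 1
    have c2 := cont_co (ι := Fin 4) 2
    have c3 := cont_co (ι := Fin 4) 3
    have cm := cont_mo (ι := Fin 4)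
    have ca := cont_am (ι := Fin 4)
    fun_prop
  intro lam N B
  refine ⟨100 * C ^ (2 * (3 + N)) * Real.exp |c lam|, 0, ?_⟩
  intro X hX a ps w H hH h1 h2
  have hX1 : 1 < X := by linarith
  have hX0 : 0 < X := by linarith
  have hL : Real.log X ≠ 0 := (Real.log_pos hX1).ne'
  rw [pow_zero, mul_one]
  have hR : 0 ≤ 100 * C ^ (2 * (3 + N)) * Real.exp |c lam| *
      X ^ (S3.ev X a 0 + 2 * (S3.ev X a 1 + S3.ev X a 2 + S3.ev X a 3 + Dq.mass X ps .mo +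
        Dq.mass X ps .am)) := by positivity
  unfold M3 mkF
  split_ifs with hok
  swap
  · exact hR
  refine (hb (π lam) (hP lam) (Q lam) _ _).trans ?_
  have e1 : ([a.us 0, a.us 1, a.us 2] ++ ps).length = 3 + ps.length := by
    simp; ring
  have e2 : (([a.us 0, a.us 1, a.us 2] ++ ps).map Pq.z).sum =
      (a.us 0).z + (a.us 1).z + (a.us 2).z + (ps.map Pq.z).sum := by
    simp; ring
  rw [e1, e2, sum_z_eq hX1]
  have e3 : a.l + c lam + 2 * ((a.us 0).z + (a.us 1).z + (a.us 2).z +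
      (Dq.mass X ps .mo + Dq.mass X ps .am) * Real.log X) =
      c lam + (S3.ev X a 0 + 2 * (S3.ev X a 1 + S3.ev X a 2 + S3.ev X a 3 + Dq.mass X ps .mo +
        Dq.mass X ps .am)) * Real.log X := by
    have f0 : S3.ev X a 0 * Real.log X = a.l := by
      show a.l / Real.log X * Real.log X = a.l
      rw [div_mul_cancel₀ _ hL]
    have f1 : S3.ev X a 1 * Real.log X = (a.us 0).z := by
      show (a.us 0).z / Real.log X * Real.log X = _
      rw [div_mul_cancel₀ _ hL]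
    have f2 : S3.ev X a 2 * Real.log X = (a.us 1).z := by
      show (a.us 1).z / Real.log X * Real.log X = _
      rw [div_mul_cancel₀ _ hL]
    have f3 : S3.ev X a 3 * Real.log X = (a.us 2).z := by
      show (a.us 2).z / Real.log X * Real.log X = _
      rw [div_mul_cancel₀ _ hL]
    linear_combination (-1) * f0 - 2 * f1 - 2 * f2 - 2 * f3
  rw [e3, Real.exp_add]
  have e4 : Real.exp ((S3.ev X a 0 + 2 * (S3.ev X a 1 + S3.ev X a 2 + S3.ev X a 3 +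
      Dq.mass X ps .mo + Dq.mass X ps .am)) * Real.log X) =
      X ^ (S3.ev X a 0 + 2 * (S3.ev X a 1 + S3.ev X a 2 + S3.ev X a 3 + Dq.mass X ps .mo +
        Dq.mass X ps .am)) := by
    rw [Real.rpow_def_of_pos hX0]
    congr 1; ring
  rw [e4]
  have g1 : C ^ (2 * (3 + ps.length)) ≤ C ^ (2 * (3 + N)) :=
    pow_le_pow_right₀ hC (by have := w.len; omega)
  have g2 : Real.exp (c lam) ≤ Real.exp |c lam| := Real.exp_le_exp.2 (le_abs_self _)
  have g3 : 0 < X ^ (S3.ev X a 0 + 2 * (S3.ev X a 1 + S3.ev X a 2 + S3.ev X a 3 +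
      Dq.mass X ps .mo + Dq.mass X ps .am)) := Real.rpow_pos_of_pos hX0 _
  calc 100 * C ^ (2 * (3 + ps.length)) * (Real.exp (c lam) *
        X ^ (S3.ev X a 0 + 2 * (S3.ev X a 1 + S3.ev X a 2 + S3.ev X a 3 +
          Dq.mass X ps .mo + Dq.mass X ps .am))) ≤
      100 * C ^ (2 * (3 + N)) * (Real.exp |c lam| *
        X ^ (S3.ev X a 0 + 2 * (S3.ev X a 1 + S3.ev X a 2 + S3.ev X a 3 +
          Dq.mass X ps .mo + Dq.mass X ps .am))) := by gcongr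
    _ = _ := by ring

variable {d : ℝ} {s : EF}

/-- **`UBs`, admissible `k`** -/
theorem ubs_Rc {c₀ : ℝ} (hpu : PU h c₀) (hP : ∀ lam, (π lam).OK)
    (R : ExpRules (7 / 8 + d) (ex Dq (fun lam => Rp (π lam) h)) s)
    (C : ExpC (ex Dq (fun lam => Rp (π lam) h)) (ex Dq (fun lam => Rc (π lam) h))) (hd : 0 ≤ d)
    (hd8 : d ≤ 1 / 8) (K : ℝ) (c : Λ → ℝ) :
    UBs S3 Dq (M3 (fun lam => (π lam).NP2) π h c) (fB K) ∅ (E3 d) :=
  ubs_of_ub (fB_cont K) (fB_compact K 1) (cont_E3 d) (triv3 hpu hP _ c K ∅)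
    (by rw [fB_zero]; exact ub_Rc hpu hP R C hd hd8 K c)

/-- **`UBs`, all `k ≠ 0`** -/
theorem ubs_RF {c₀ : ℝ} (hpu : PU h c₀) (hP : ∀ lam, (π lam).OK)
    (R : ExpRules (7 / 8 + d) (ex Dq (fun lam => Rp (π lam) h)) s)
    (hcolP : ∀ (i : ℝ) (u : List ℝ) (m a : ℝ), 0 ≤ i → Okl u m a →
      BG Dq (RP0 π h) i u (wt m a) (2 * a + 2 * (7 / 8 + d) * m)) (hd : 0 ≤ d)
    (hd8 : d ≤ 1 / 8) (K : ℝ) (c : Λ → ℝ) :
    UBs S3 Dq (M3 (fun _ k => k ≠ 0) π h c) (fB K) ∅ (E3c d) :=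
  ubs_of_ub (fB_cont K) (fB_compact K 1) (cont_E3c d) (triv3 hpu hP _ c K ∅)
    (by rw [fB_zero]; exact ub_RF hpu hP R hcolP hd hd8 K c)

/-! ### without systems -/

/-- the conclusion in plain form: `E` = function of `(κ, u₁, u₂, u₃, m, a)` -/
def Plain (Q : Λ → Eis → Prop) (π : Λ → DPar) (h : ℝ → ℝ) (K : ℝ)
    (E : ℝ → ℝ → ℝ → ℝ → ℝ → ℝ → ℝ) : Prop :=
  ∀ ε : ℝ, 0 < ε → ∃ σ : ℝ, 0 < σ ∧ ∀ (lam : Λ) (N : ℕ) (B : ℝ), ∃ (M : ℕ) (X₀ : ℝ), 1 < X₀ ∧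
    ∀ X : ℝ, X₀ ≤ X → ∀ (l : ℝ) (u₁ u₂ u₃ : Pq) (ps : List Pq),
      (∀ p ∈ [u₁, u₂, u₃], Dq.lump p ∧ 0 ≤ p.z ∧ p.z ≤ (K + σ) * Real.log X ∧
        (nm p.d : ℝ) ≤ X ^ B) →
      -σ * Real.log X ≤ l → l ≤ (K + σ) * Real.log X →
      ps.length ≤ N → (∀ p ∈ ps, ¬ Dq.lump p ∧ 0 ≤ p.z ∧ p.z ≤ σ * Real.log X ∧
        (nm p.d : ℝ) ≤ X ^ B) →
      (∀ t, Dq.mass X ps t ≤ K + σ) →
      ∀ H : ℝ, 1 ≤ H → (∀ p ∈ u₁ :: u₂ :: u₃ :: ps, 1 + |p.t| ≤ H) →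
        RQ (Q lam) h l ((u₁ :: u₂ :: u₃ :: ps).map (Pq.pc (π lam))) ≤
          H ^ M * X ^ (E (l / Real.log X) (u₁.z / Real.log X) (u₂.z / Real.log X)
            (u₃.z / Real.log X) (Dq.mass X ps .mo) (Dq.mass X ps .am) + ε)

theorem plain_of {Q : Λ → Eis → Prop} {K : ℝ} {E : ℝ → ℝ → ℝ → ℝ → ℝ → ℝ → ℝ}
    (H : UBs S3 Dq (M3 Q π h fun _ => 0) (fB K) ∅
      (fun q => E (q.1 0) (q.1 1) (q.1 2) (q.1 3) (q.2 .mo) (q.2 .am))) :
    Plain Q π h K E := by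
  intro ε hε
  obtain ⟨σ, hσ, H1⟩ := H ε hε
  refine ⟨σ, hσ, fun lam N B => ?_⟩
  obtain ⟨M, X₀, hX₀, H2⟩ := H1 lam N (max B 1)
  refine ⟨M, max X₀ 3, lt_of_lt_of_le hX₀ (le_max_left _ _), ?_⟩
  intro X hX l u₁ u₂ u₃ ps hu hl0 hl hN hps hmass T hT hht
  have hXX₀ : X₀ ≤ X := (le_max_left _ _).trans hX
  have hX3 : 3 ≤ X := (le_max_right _ _).trans hX
  have hX1 : 1 < X := by linarith
  have hL : 0 < Real.log X := Real.log_pos hX1
  have hXB : ∀ p : Pq, (nm p.d : ℝ) ≤ X ^ B → (nm p.d : ℝ) ≤ X ^ (max B 1) := fun p hp =>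
    hp.trans (Real.rpow_le_rpow_of_exponent_le hX1.le (le_max_left _ _))
  have h1u := hu u₁ (by simp)
  have h2u := hu u₂ (by simp)
  have h3u := hu u₃ (by simp)
  set a : Y3 := ⟨l, ![u₁, u₂, u₃]⟩ with ha
  have hok : a.ok := by
    intro i
    fin_cases i
    · exact ⟨h1u.1, h1u.2.1⟩
    · exact ⟨h2u.1, h2u.2.1⟩
    · exact ⟨h3u.1, h3u.2.1⟩
  have h1X : (1 : ℝ) ≤ X ^ (max B 1) := Real.one_le_rpow hX1.le (by positivity)
  have key := H2 X hXX₀ a ps hN (fun p hp => Or.inr (by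
      show p.z / Real.log X ≤ σ
      rw [div_le_iff₀ hL]; exact (hps p hp).2.2.1))
    (by show (1 : ℝ) ≤ X ^ σ; exact Real.one_le_rpow hX1.le hσ.le) (Nat.zero_le _)
    (by
      show mx Dq.s2 [u₁, u₂, u₃] ≤ X ^ (max B 1)
      rw [XT71.mx_cons, XT71.mx_cons, XT71.mx_cons]
      refine max_le (hXB _ h1u.2.2.2) (max_le (hXB _ h2u.2.2.2) (max_le (hXB _ h3u.2.2.2) ?_))
      exact h1X)
    (fun p hp => ⟨hXB p (hps p hp).2.2.2, (hps p hp).2.1⟩)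
    (by
      rw [fB_le]
      refine ⟨fun i => ?_, fun t => ?_⟩
      · have hz : ∀ u : Pq, 0 ≤ u.z → u.z ≤ (K + σ) * Real.log X →
            -σ ≤ u.z / Real.log X ∧ u.z / Real.log X ≤ K + σ := by
          intro u h0 h1
          refine ⟨?_, by rw [div_le_iff₀ hL]; exact h1⟩
          have : 0 ≤ u.z / Real.log X := by positivity
          linarith
        fin_cases i
        · refine ⟨?_, ?_⟩
          · show -σ ≤ l / Real.log X
            rw [le_div_iff₀ hL]; exact hl0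
          · show l / Real.log X ≤ K + σ
            rw [div_le_iff₀ hL]; exact hl
        · exact hz u₁ h1u.2.1 h1u.2.2.1
        · exact hz u₂ h2u.2.1 h2u.2.2.1
        · exact hz u₃ h3u.2.1 h3u.2.2.1
      · refine ⟨?_, hmass t⟩
        have : 0 ≤ Dq.mass X ps t := XG702.mass_nonneg (D := Dq) (fun p hp => by
          show 0 ≤ p.z / Real.log X
          exact div_nonneg (hps p hp).2.1 hL.le) t
        show -σ ≤ Dq.mass X ps t
        linarith)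
    (fun p hp hl => ((hps p hp).1 hl).elim) T hT
    (by
      show mx Dq.s1 [u₁, u₂, u₃] ≤ T
      rw [XT71.mx_cons, XT71.mx_cons, XT71.mx_cons]
      exact max_le (hht _ (by simp)) (max_le (hht _ (by simp)) (max_le (hht _ (by simp)) hT)))
    (fun p hp => hht p (by simp [hp]))
  unfold M3 mkF at key
  rw [if_pos hok] at key
  simp only [add_zero] at key
  exact key

/-- **plain form**, admissible `k`, exponent `r3` -/
theorem rm_Rc {c₀ : ℝ} (hpu : PU h c₀) (hP : ∀ lam, (π lam).OK)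
    (R : ExpRules (7 / 8 + d) (ex Dq (fun lam => Rp (π lam) h)) s)
    (C : ExpC (ex Dq (fun lam => Rp (π lam) h)) (ex Dq (fun lam => Rc (π lam) h))) (hd : 0 ≤ d)
    (hd8 : d ≤ 1 / 8) (K : ℝ) :
    Plain (fun lam => (π lam).NP2) π h K (r3 d) :=
  plain_of (E := r3 d) (ubs_Rc hpu hP R C hd hd8 K fun _ => 0)

/-- **plain form**, all `k ≠ 0`, exponent `max r3 (κ/3 + 2 a + 2 θ m)` -/
theorem rm_RF {c₀ : ℝ} (hpu : PU h c₀) (hP : ∀ lam, (π lam).OK)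
    (R : ExpRules (7 / 8 + d) (ex Dq (fun lam => Rp (π lam) h)) s)
    (hcolP : ∀ (i : ℝ) (u : List ℝ) (m a : ℝ), 0 ≤ i → Okl u m a →
      BG Dq (RP0 π h) i u (wt m a) (2 * a + 2 * (7 / 8 + d) * m)) (hd : 0 ≤ d)
    (hd8 : d ≤ 1 / 8) (K : ℝ) :
    Plain (fun _ k => k ≠ 0) π h K
      (fun κ y₁ y₂ y₃ m a => max (r3 d κ y₁ y₂ y₃ m a) (κ / 3 + 2 * a + 2 * (7 / 8 + d) * m)) :=
  plain_of (E := fun κ y₁ y₂ y₃ m a =>
    max (r3 d κ y₁ y₂ y₃ m a) (κ / 3 + 2 * a + 2 * (7 / 8 + d) * m))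
    (ubs_RF hpu hP R hcolP hd hd8 K fun _ => 0)

end Crest.Agent.R017.RM986
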