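import Crest.Agent.R017.Sf_770
import Crest.Agent.R017.P1l_54

/-!
# Row 17, R8: helper54's window is the official one (helper770)
-/

set_option autoImplicit false

noncomputable section

namespace Crest.Agent.R017.Sf54770

open Crest.Agent.R012 Crest.Agent.R012.Eis
open Crest.Agent.R017.B770 Crest.Agent.R017.Prov71
open Crest.Agent.R017.E5B71 Crest.Agent.R017.E5P571 Crest.Agent.R017.E5L770
open Crest.Agent.R017.Sf770

lemma Jo_eq : P1l54.Jo = fun l N z => JS (nL l N z) := rfl

variable {Λ : Type*} (π : Λ → DPar) (h : ℝ → ℝ) (e0 r : ℝ)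

/-- **the structured function of helper54's `P1` is the official one** -/
theorem SfP_Jo : SfP π h e0 r bfO P1l54.Jo nL = SfO π h e0 r := rfl

end Crest.Agent.R017.Sf54770

end
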