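import Crest.Agent.R017.Fin6_986
import Crest.Agent.R017.P1t_54
import Crest.Agent.R017.Sf54_770
import Crest.Agent.R017.P1X3_960

/-!
# Row 17, T.3 / T.4: the field `sgnN`, `sgnE` from the leaves at one structured function (helper986)

Constants: `A = 1 - d/16`, `e₀ = 1/64`, `r = Rh` (`|u| ≤ Rh` on the support of the partition).

* `LeafN d h` : the leaves of T.3 at these constants; `sgnN_of`
* `LeafE d h` : the leaves of T.4; `sgnE_of`
-/

set_option autoImplicit false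

noncomputable section

open Complex Filter Topology

namespace Crest.Agent.R017.Sg986

open Crest.Agent.R012 Crest.Agent.R012.Eis
open Crest.Agent.R017.FE47 Crest.Agent.R017.End699
open Crest.Agent.R017.B770 Crest.Agent.R017.BxH986
open Crest.Agent.R017.Prov71 Crest.Agent.R017.ER911
open Crest.Agent.R017.E5B71 Crest.Agent.R017.ExP960
open Crest.Agent.R017.E5L770
open Crest.Agent.R017.SC777
open Crest.Agent.R017.Fin4 Crest.Agent.R017.Fin5 Crest.Agent.R017.Fin6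
open Crest.Agent.R017.P1l54 Crest.Agent.R017.P1t54

/-- the constant `A` of T.3, T.4 -/
def AA (d : ℝ) : ℝ := 1 - d / 16

lemma AA_lt {d : ℝ} (hd : 0 < d) : AA d < 1 := by unfold AA; linarith

lemma AA_eq (d : ℝ) : 16 * (1 - AA d) ≤ d := by unfold AA; linarith

lemma AA_ge {d : ℝ} (hd : d ≤ 1 / 42) : 199 / 200 ≤ AA d := by unfold AA; linarith

/-- the radius of the support of the partition -/
theorem exists_Rh {h : ℝ → ℝ} {c : ℝ} (hpu : PU h c) :
    ∃ R : ℝ, 0 ≤ R ∧ ∀ u : ℝ, cx h u ≠ 0 → |u| ≤ R := by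
  obtain ⟨R, hR⟩ := hpu.cs.isCompact.isBounded.subset_closedBall (0 : ℝ)
  refine ⟨max R 0, le_max_right _ _, fun u hu => ?_⟩
  have h1 : h u ≠ 0 := fun h0 => hu (by unfold cx; rw [h0]; simp)
  have h2 := hR (subset_tsupport h (Function.mem_support.2 h1))
  rw [Metric.mem_closedBall, dist_zero_right, Real.norm_eq_abs] at h2
  exact h2.trans (le_max_left _ _)

/-- **the leaves of T.3** at `e₀ = 1/64`, `A = 1 - d/16`, `r` a radius of the support -/
structure LeafN (d : ℝ) (h : ℝ → ℝ) (r : ℝ) : Prop where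
  /-- P1, exact square on the natural triples -/
  p10 : P10 πN h (1 / 64) (ParS (AA d) d) (LS0 d)
  /-- P1, mismatch -/
  p1m : P1M πN h (1 / 64) (ParS (AA d) d) (LS0 d)
  /-- the structured part -/
  str : ∃ μ : ℝ, 0 < μ ∧ StrU πN h (7 / 8 + d) (SfP πN h (1 / 64) r bfO Jo nL) (AA d) d μ
  /-- the tail -/
  tail : ∃ μ : ℝ, 0 < μ ∧ TailU πN h (7 / 8 + d) (SfP πN h (1 / 64) r bfO Jo nL) (AA d) d μ

/-- **`sgnN` from the leaves** -/
theorem sgnN_of {d : ℝ} (hd : 0 < d) (hd1 : d ≤ 1 / 42) {h : ℝ → ℝ} {c₀ : ℝ} (hpu : PU h c₀)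
    (H : ∀ r : ℝ, 0 ≤ r → (∀ u : ℝ, cx h u ≠ 0 → |u| ≤ r) → LeafN d h r) :
    SgnN d h := by
  obtain ⟨R, hR0, hR⟩ := exists_Rh hpu
  obtain ⟨h1, h2, ⟨μ₁, hμ₁, h3⟩, ⟨μ₂, hμ₂, h4⟩⟩ := H R hR0 hR
  have hA := AA_ge hd1
  refine ⟨_, AA d, min μ₁ μ₂, AA_lt hd, AA_eq d, lt_min hμ₁ hμ₂,
    P1_of (fun l => l.2.1) hpu hR0 hR (e0 := 1 / 64) (by norm_num) (by norm_num) le_rfl hd.le
      (by linarith) h1 h2,
    ExAb968.ubX_mono (min_le_left _ _) h3,
    fun R' hR' => ExAb968.ubX_mono (min_le_right _ _) (h4 R' hR')⟩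

end Crest.Agent.R017.Sg986
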