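import Crest.Agent.R017.TM_708
import Crest.Agent.R017.UBR_61
import Crest.Agent.R017.UBTransfer_973
import Crest.Agent.R017.UBTriv_973
import Crest.Agent.R017.TopC_702
import Crest.Agent.R017.Leg3_381

/-!
# Row 17, R8 / E4 / P1 at list level: T-moments of three natural lumps (helper708), uniform bounds

* `ub_gran`  : `UB` for lists without unmarked lumps, from `BGB` at the configurations
* `T3`, `S3` : base datum (level, three marked lumps, a modulus), exponents `(v, y₁, y₂, y₃)`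
* `TMF π h c`: Gauss-side second moment of `{y₁,y₂,y₃} + ps`, prime to the modulus
* `tm_of`    : `UB` from an inequality for the exponent function
* `tm_HB`, `tm_CT`, `tm_CP`, `tm_P`, `tm_min` ; `tms_of`, `tms_min` : `UBs` (helper973)
-/

set_option autoImplicit false
set_option linter.unusedSectionVars false

noncomputable section

open Set

namespace Crest.Agent.R017.TM708

open Crest.Agent.R012 Crest.Agent.R012.Eis
open Crest.Agent.R017.FE47 (PU)
open Crest.Agent.R017.CM106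
open Crest.Agent.R017.XG702 (Pcs BG)
open Crest.Agent.R017.XT71 (Sys Win mx le_mx one_le_mx)
open Crest.Agent.R017.UM71 (BGB)
open Crest.Agent.R017.E5B71 (UB)
open Crest.Agent.R017.Prov71
open Crest.Agent.R017.B770
open Crest.Agent.R017.ER911
open Crest.Agent.R017.HP842 (Pc pc)
open Crest.Agent.R017.UBT973 (UBs Wn)

/-! ### lists without unmarked lumps -/

/-- **`UB` for lists of granular pieces** -/
theorem ub_gran {A Pc' ι τ Λ : Type*} [DecidableEq τ] [Fintype ι] [Fintype τ] {S : Sys A ι}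
    {D : Pcs Pc' τ} {Ψ : Λ → A → List Pc' → ℝ} {Dom : Set ((ι → ℝ) × (τ → ℝ))}
    (hDom : IsCompact Dom) {E : (ι → ℝ) × (τ → ℝ) → ℝ} (hE : Continuous E)
    (hbox : ∀ q ∈ Dom, BGB S D Ψ q.1 [] q.2 (E q)) : UB S D Ψ Dom ∅ E := by
  intro ε hε
  have hcont : Continuous fun q : (ι → ℝ) × (τ → ℝ) =>
      ((q.1, (fun i : Fin 0 => i.elim0 : Fin 0 → ℝ), q.2) : (ι → ℝ) × (Fin 0 → ℝ) × (τ → ℝ)) := by
    fun_prop
  have hK := hDom.image hcont
  obtain ⟨U, -, hU, δ, hδ, H⟩ := UM71.unifB (S := S) (D := D) (Ψ := Ψ) (n := 0) hK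
    (T := fun p => E (p.1, p.2.2)) (by fun_prop) (by
      rintro p ⟨q, hq, rfl⟩
      simpa using hbox q hq) hε
  refine ⟨δ, hδ, fun lam N B => ?_⟩
  obtain ⟨δ', hδ', X₀, hX₀, H1⟩ := H lam N B
  refine ⟨δ', hδ', X₀, hX₀, fun X hX a ps h1 h2 q hq hw hm hg hl => ?_⟩
  have h3 : ∀ p ∈ ps, D.nl X p ≤ δ := fun p hp =>
    (h2 p hp).elim (fun h => absurd (hl p hp h) (Set.notMem_empty _)) id
  exact H1 X hX a [] ps _ (hU ⟨q, hq, rfl⟩) hw (by simp [Pcs.Near]) ⟨h1, h3, hm⟩ hg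

/-- minimum of two bounds -/
theorem ub_min {A Pc' ι τ Λ : Type*} [DecidableEq τ] {S : Sys A ι} {D : Pcs Pc' τ}
    {Ψ : Λ → A → List Pc' → ℝ} {Dom : Set ((ι → ℝ) × (τ → ℝ))} {al : Set ((ι → ℝ) × ℝ)}
    {E E' : (ι → ℝ) × (τ → ℝ) → ℝ} (h : UB S D Ψ Dom al E) (h' : UB S D Ψ Dom al E') :
    UB S D Ψ Dom al (fun q => Min.min (E q) (E' q)) := by
  intro ε hε
  obtain ⟨δ, hδ, H⟩ := h ε hε
  obtain ⟨δ₁, hδ₁, H'⟩ := h' ε hε
  refine ⟨Min.min δ δ₁, lt_min hδ hδ₁, fun lam N B => ?_⟩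
  obtain ⟨ρ, hρ, X₀, hX₀, K⟩ := H lam N B
  obtain ⟨ρ₁, hρ₁, X₁, hX₁, K'⟩ := H' lam N B
  refine ⟨Min.min ρ ρ₁, lt_min hρ hρ₁, max X₀ X₁, lt_of_lt_of_le hX₀ (le_max_left _ _), ?_⟩
  intro X hX a ps h1 h2 q hq hw hm hg hl
  have hX0 : X₀ ≤ X := (le_max_left _ _).trans hX
  have hX1 : X₁ ≤ X := (le_max_right _ _).trans hX
  have hX' : (1 : ℝ) ≤ X := by linarith
  have k1 := K X hX0 a ps h1 (fun p hp => (h2 p hp).imp id fun h => h.trans (min_le_left _ _)) q hq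
    (hw.mono hX' (min_le_left _ _) le_rfl le_rfl (min_le_left _ _))
    (fun t => (hm t).trans (min_le_left _ _)) (XG702.Good_mono hX' hg (min_le_left _ _)) hl
  have k2 := K' X hX1 a ps h1 (fun p hp => (h2 p hp).imp id fun h => h.trans (min_le_right _ _)) q
    hq (hw.mono hX' (min_le_right _ _) le_rfl le_rfl (min_le_right _ _))
    (fun t => (hm t).trans (min_le_right _ _)) (XG702.Good_mono hX' hg (min_le_right _ _)) hl
  show Ψ lam a ps ≤ X ^ (Min.min (E q) (E' q) + ε)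
  rcases le_total (E q) (E' q) with h | h
  · rw [min_eq_left h]; exact k1
  · rw [min_eq_right h]; exact k2

/-! ### the system -/

variable {Λ : Type*} {π : Λ → DPar} {h : ℝ → ℝ}

/-- base datum: level, three marked lumps, a modulus -/
structure T3 where
  l : ℝ
  us : Fin 3 → Pq
  q : Eis

/-- the marked pieces are lumps of nonnegative length -/
def T3.ok (a : T3) : Prop := (∀ i, Dq.lump (a.us i) ∧ 0 ≤ (a.us i).z) ∧ a.q ≠ 0

/-- the marked pieces -/
def T3.mk' (a : T3) : List Pq := [a.us 0, a.us 1, a.us 2]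

/-- exponent vector `(v, y₁, y₂, y₃)` -/
def S3 : Sys T3 (Fin 4) where
  ev X a := ![a.l / Real.log X, Dq.nl X (a.us 0), Dq.nl X (a.us 1), Dq.nl X (a.us 2)]
  g _ := 1
  n _ := 0
  s₁ a := mx Dq.s1 a.mk'
  s₂ a := max (nm a.q) (mx Dq.s2 a.mk')

open Classical in
/-- **T-moment of `{y₁,y₂,y₃} + ps`, everything prime to `q`**, level `a.l + c lam` -/
def TMF (π : Λ → DPar) (h : ℝ → ℝ) (c : Λ → ℝ) (lam : Λ) (a : T3) (ps : List Pq) : ℝ :=
  if a.ok then Sp (π lam) h (a.l + c lam) ((a.mk' ++ ps).map (Pq.tw a.q)) else 0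

lemma TMF_nonneg (c : Λ → ℝ) (lam : Λ) (a : T3) (ps : List Pq) : 0 ≤ TMF π h c lam a ps := by
  unfold TMF
  split_ifs
  · exact Sp_nonneg _ _ _ _
  · exact le_rfl

/-- the datum without modulus, pieces twisted -/
def T3.tw (a : T3) : T3 := ⟨a.l, fun i => (a.us i).tw a.q, 1⟩

lemma tw_ok {a : T3} (ha : a.ok) : a.tw.ok :=
  ⟨fun i => ⟨tws_tw.lump _ _ ha.2 (ha.1 i).1, by
    have := tws_tw.len a.q (a.us i) ha.2
    simp only [Dq_len] at this
    show 0 ≤ ((a.us i).tw a.q).z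
    rw [this]; exact (ha.1 i).2⟩, one_ne_zero⟩

lemma mk_tw (a : T3) : a.tw.mk' = a.mk'.map (Pq.tw a.q) := rfl

/-- marks of the datum without modulus -/
lemma mk_ok (c : Λ → ℝ) : UBR61.MkOK S3 Dq (fun (_ : Λ) (a : T3) => a.ok)
    (fun lam a => a.l + c lam) (fun _ a => a.mk') 0 [1, 2, 3] where
  ok lam := by
    refine ⟨1 + |c lam|, by linarith [abs_nonneg (c lam)], fun a ha X hX => ?_⟩
    have hX0 : Real.log X ≠ 0 := (Real.log_pos hX).ne'
    have hc := abs_nonneg (c lam)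
    have key : ∀ (i : Fin 3) (j : Fin 4), S3.ev X a j = Dq.nl X (a.us i) → a.us i ∈ a.mk' →
        Dq.lump (a.us i) ∧ |Dq.len (a.us i) - S3.ev X a j * Real.log X| ≤ 1 + |c lam| ∧
        0 ≤ Dq.len (a.us i) ∧ Dq.s1 (a.us i) ≤ (1 + |c lam|) * S3.s₁ a ∧
        Dq.s2 (a.us i) ≤ (1 + |c lam|) * S3.s₂ a := by
      intro i j hij hmem
      have e : Dq.len (a.us i) - S3.ev X a j * Real.log X = 0 := by
        rw [hij]
        unfold Pcs.nl
        rw [div_mul_cancel₀ _ hX0]; ring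
      refine ⟨(ha.1 i).1, by rw [e, abs_zero]; linarith, (ha.1 i).2, ?_, ?_⟩
      · have h1 : Dq.s1 (a.us i) ≤ S3.s₁ a := le_mx hmem
        have h2 : 0 ≤ Dq.s1 (a.us i) := by simp only [Dq_s1]; positivity
        nlinarith
      · have h1 : Dq.s2 (a.us i) ≤ S3.s₂ a := (le_mx hmem).trans (le_max_right _ _)
        have h2 : 0 ≤ Dq.s2 (a.us i) := by simp only [Dq_s2]; exact Nat.cast_nonneg _
        nlinarith
    refine ⟨?_, List.Forall₂.cons (key 0 1 rfl (by simp [T3.mk'])) (List.Forall₂.cons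
      (key 1 2 rfl (by simp [T3.mk'])) (List.Forall₂.cons (key 2 3 rfl (by simp [T3.mk']))
        List.Forall₂.nil))⟩
    have : a.l + c lam - S3.ev X a 0 * Real.log X = c lam := by
      show a.l + c lam - a.l / Real.log X * Real.log X = c lam
      rw [div_mul_cancel₀ _ hX0]; ring
    rw [this]; linarith

lemma mx_map_le {f : Eis → Pq → Pq} (hf : Tws Dq f) {c : Eis} (hc : c ≠ 0) (ps : List Pq) :
    mx Dq.s2 (ps.map (f c)) ≤ mx Dq.s2 ps * nm c := by
  have hn : (1 : ℝ) ≤ nm c := by exact_mod_cast nm_pos.2 hc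
  have h1 : 1 ≤ mx Dq.s2 ps * nm c := by
    have := one_le_mx Dq.s2 ps
    nlinarith
  rw [XT71.mx_le h1]
  intro p hp
  obtain ⟨q, hq, rfl⟩ := List.mem_map.1 hp
  exact (hf.s2 c q hc).trans (mul_le_mul_of_nonneg_right (le_mx hq) (by linarith))

lemma mx_map_s1 {f : Eis → Pq → Pq} (hf : Tws Dq f) {c : Eis} (hc : c ≠ 0) (ps : List Pq) :
    mx Dq.s1 (ps.map (f c)) = mx Dq.s1 ps := by
  induction ps with
  | nil => rfl
  | cons p ps ih => rw [List.map_cons, XT71.mx_cons, XT71.mx_cons, ih, hf.s1 c p hc]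

/-- **`BGB` of the T-moment from `BG` of the provider** -/
theorem bgb_TMF (c : Λ → ℝ) {p : Fin 4 → ℝ} {w : Kd → ℝ} {e : ℝ}
    (H : BG Dq (fun lam => Sp (π lam) h) (p 0) [p 1, p 2, p 3] w e) :
    BGB S3 Dq (TMF π h c) p [] w e := by
  have H1 : BGB S3 Dq (UBR61.mkF (fun (_ : Λ) (a : T3) => a.ok) (fun lam => Sp (π lam) h)
      (fun lam a => a.l + c lam) (fun _ a => a.mk')) p [] w e :=
    UBR61.bgb_of_bg (mk_ok c) (by simpa using H)
  intro ε hε
  obtain ⟨δ, hδ, K⟩ := H1 ε hε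
  refine ⟨δ, hδ, fun lam N B => ?_⟩
  obtain ⟨δ', hδ', X₀, hX₀, K1⟩ := K lam N (|B| + |B|)
  refine ⟨δ', hδ', X₀, hX₀, fun X hX a us gs hw hn hg hG => ?_⟩
  have hX1 : (1 : ℝ) < X := by linarith
  have hX0 : (0 : ℝ) < X := by linarith
  unfold TMF
  split_ifs with ha
  · have hus : us = [] := by
      unfold Pcs.Near at hn
      exact List.forall₂_nil_right_iff.1 hn
    subst hus
    have hq := ha.2
    have hB : X ^ B ≤ X ^ |B| := Real.rpow_le_rpow_of_exponent_le hX1.le (le_abs_self B)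
    have hq2 : (nm a.q : ℝ) ≤ X ^ |B| := ((le_max_left _ _).trans hw.s₂).trans hB
    have hqn : (1 : ℝ) ≤ nm a.q := by exact_mod_cast nm_pos.2 hq
    have hXB : (1 : ℝ) ≤ X ^ |B| := Real.one_le_rpow hX1.le (abs_nonneg B)
    have hadd : X ^ |B| * X ^ |B| = X ^ (|B| + |B|) := (Real.rpow_add hX0 _ _).symm
    have key := K1 X hX a.tw [] (gs.map (Pq.tw a.q)) ?_ (by simp [Pcs.Near])
      (tws_tw.gran hq hg) ?_
    · unfold UBR61.mkF at key
      rw [if_pos (tw_ok ha)] at key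
      have key' : Sp (π lam) h (a.l + c lam) (a.mk'.map (Pq.tw a.q) ++ gs.map (Pq.tw a.q)) ≤
        X ^ (e + ε) := key
      rw [List.nil_append, List.map_append]
      exact key'
    · have hlen : ∀ i, Dq.nl X ((a.us i).tw a.q) = Dq.nl X (a.us i) := fun i => by
        unfold Pcs.nl; rw [tws_tw.len _ _ hq]
      have e : S3.ev X a.tw = S3.ev X a := by
        show ![a.l / Real.log X, Dq.nl X ((a.us 0).tw a.q), Dq.nl X ((a.us 1).tw a.q),
          Dq.nl X ((a.us 2).tw a.q)] = _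
        rw [hlen, hlen, hlen]
        rfl
      refine ⟨fun i => by rw [e]; exact hw.ev i, hw.g, hw.n, ?_, ?_⟩
      · show mx Dq.s1 a.tw.mk' ≤ _
        rw [mk_tw, mx_map_s1 tws_tw hq]
        exact hw.s₁
      · show max ((nm (1 : Eis) : ℕ) : ℝ) (mx Dq.s2 a.tw.mk') ≤ _
        rw [mk_tw]
        have h1 : mx Dq.s2 a.mk' ≤ X ^ |B| := ((le_max_right _ _).trans hw.s₂).trans hB
        have h2 := mx_map_le tws_tw hq a.mk'
        have h3 : mx Dq.s2 a.mk' * nm a.q ≤ X ^ |B| * X ^ |B| :=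
          mul_le_mul h1 hq2 (by linarith) (by linarith)
        refine max_le ?_ (by rw [← hadd]; exact h2.trans h3)
        have : (nm (1 : Eis) : ℕ) = 1 := by simp
        rw [this, ← hadd]
        push_cast
        nlinarith
    · intro p' hp'
      rw [List.nil_append] at hp'
      obtain ⟨p₀, hp₀, rfl⟩ := List.mem_map.1 hp'
      obtain ⟨g1, g2, g3⟩ := hG p₀ (by simpa using hp₀)
      refine ⟨by rw [tws_tw.s1 _ _ hq]; exact g1, ?_, by rw [tws_tw.len _ _ hq]; exact g3⟩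
      refine (tws_tw.s2 a.q p₀ hq).trans ?_
      rw [← hadd]
      exact mul_le_mul (g2.trans hB) hq2 (by linarith) (by linarith)
  · exact Real.rpow_nonneg hX0.le _

/-! ### `UB` from the exponents -/

/-- **`UB` of the T-moments from an inequality for the exponents** -/
theorem tm_of {c₀ : ℝ} (hpu : PU h c₀) (hP : ∀ lam, (π lam).OK) (c : Λ → ℝ)
    {Dom : Set ((Fin 4 → ℝ) × (Kd → ℝ))} (hDom : IsCompact Dom)
    (hnn : ∀ q ∈ Dom, (∀ i, 0 ≤ q.1 i) ∧ ∀ t, 0 ≤ q.2 t)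
    {E : (Fin 4 → ℝ) × (Kd → ℝ) → ℝ} (hE : Continuous E)
    (H : ∀ q ∈ Dom, ex Dq (fun lam => Sp (π lam) h) (q.1 0) {q.1 1, q.1 2, q.1 3} (q.2 .mo)
      (q.2 .am) ≤ E q) :
    UB S3 Dq (TMF π h c) Dom ∅ E := by
  refine ub_gran hDom hE fun q hq => bgb_TMF c ?_
  have e2 : q.2 = wt (q.2 Kd.mo) (q.2 Kd.am) := by
    funext t
    cases t <;> rfl
  have h1 : ex Dq (fun lam => Sp (π lam) h) (q.1 0)
      ((([q.1 1, q.1 2, q.1 3] : List ℝ) : Multiset ℝ)) (q.2 .mo) (q.2 .am) ≤ E q := H q hq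
  have h3 := Prov71.BG_of_ex (pinv_Sp π h) (XHB411.triv_Sp hP hpu) ((hnn q hq).1 0)
    (u := [q.1 1, q.1 2, q.1 3]) ⟨by
      intro y hy
      simp only [List.mem_cons, List.not_mem_nil, or_false] at hy
      rcases hy with rfl | rfl | rfl <;> exact (hnn q hq).1 _, (hnn q hq).2 _, (hnn q hq).2 _⟩ h1
  rw [← e2] at h3
  exact h3

/-- the box `[0,K]` -/
def DomT (K : ℝ) : Set ((Fin 4 → ℝ) × (Kd → ℝ)) :=
  {q | (∀ i, 0 ≤ q.1 i ∧ q.1 i ≤ K) ∧ ∀ t, 0 ≤ q.2 t ∧ q.2 t ≤ K}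

lemma DomT_compact (K : ℝ) : IsCompact (DomT K) := by
  have : DomT K = (Set.pi Set.univ fun _ => Set.Icc 0 K) ×ˢ
      (Set.pi Set.univ fun _ => Set.Icc 0 K) := by
    ext q
    exact ⟨fun hq => ⟨fun i _ => ⟨(hq.1 i).1, (hq.1 i).2⟩, fun t _ => ⟨(hq.2 t).1, (hq.2 t).2⟩⟩,
      fun hq => ⟨fun i => ⟨(hq.1 i trivial).1, (hq.1 i trivial).2⟩,
        fun t => ⟨(hq.2 t trivial).1, (hq.2 t trivial).2⟩⟩⟩
  rw [this]
  exact (isCompact_univ_pi fun _ => isCompact_Icc).prod (isCompact_univ_pi fun _ => isCompact_Icc)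

/-- constraint function of the box -/
def fbT (K : ℝ) (q : (Fin 4 → ℝ) × (Kd → ℝ)) : ℝ :=
  max (max (max (-q.1 0) (q.1 0 - K)) (max (-q.1 1) (q.1 1 - K)))
    (max (max (max (-q.1 2) (q.1 2 - K)) (max (-q.1 3) (q.1 3 - K)))
      (max (max (-q.2 .mo) (q.2 .mo - K)) (max (-q.2 .am) (q.2 .am - K))))

lemma fbT_le {K s : ℝ} {q : (Fin 4 → ℝ) × (Kd → ℝ)} :
    fbT K q ≤ s ↔ (∀ i, -s ≤ q.1 i ∧ q.1 i ≤ K + s) ∧ ∀ t, -s ≤ q.2 t ∧ q.2 t ≤ K + s := by
  unfold fbT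
  simp only [max_le_iff]
  constructor
  · rintro ⟨⟨⟨h1, h2⟩, h3, h4⟩, ⟨⟨h5, h6⟩, h7, h8⟩, ⟨h9, h10⟩, h11, h12⟩
    refine ⟨fun i => ?_, fun t => ?_⟩
    · fin_cases i
      · exact ⟨by simpa using (by linarith : -s ≤ q.1 0), by simpa using (by linarith : q.1 0 ≤ K + s)⟩
      · exact ⟨by simpa using (by linarith : -s ≤ q.1 1), by simpa using (by linarith : q.1 1 ≤ K + s)⟩
      · exact ⟨by simpa using (by linarith : -s ≤ q.1 2), by simpa using (by linarith : q.1 2 ≤ K + s)⟩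
      · exact ⟨by simpa using (by linarith : -s ≤ q.1 3), by simpa using (by linarith : q.1 3 ≤ K + s)⟩
    · cases t
      · exact ⟨by linarith, by linarith⟩
      · exact ⟨by linarith, by linarith⟩
  · rintro ⟨h1, h2⟩
    refine ⟨⟨⟨?_, ?_⟩, ?_, ?_⟩, ⟨⟨?_, ?_⟩, ?_, ?_⟩, ⟨?_, ?_⟩, ?_, ?_⟩
    · linarith [(h1 0).1]
    · linarith [(h1 0).2]
    · linarith [(h1 1).1]
    · linarith [(h1 1).2]
    · linarith [(h1 2).1]
    · linarith [(h1 2).2]
    · linarith [(h1 3).1]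
    · linarith [(h1 3).2]
    · linarith [(h2 .mo).1]
    · linarith [(h2 .mo).2]
    · linarith [(h2 .am).1]
    · linarith [(h2 .am).2]

lemma fbT_cont (K : ℝ) : Continuous (fbT K) := by unfold fbT; fun_prop

lemma fbT_zero (K : ℝ) : {q | fbT K q ≤ 0} = DomT K := by
  ext q
  rw [Set.mem_ofPred_eq, fbT_le, neg_zero, add_zero]
  rfl

lemma fbT_one (K : ℝ) : IsCompact {q : (Fin 4 → ℝ) × (Kd → ℝ) | fbT K q ≤ 1} := by
  have : {q : (Fin 4 → ℝ) × (Kd → ℝ) | fbT K q ≤ 1} =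
      (Set.pi Set.univ fun _ => Set.Icc (-1) (K + 1)) ×ˢ
        (Set.pi Set.univ fun _ => Set.Icc (-1) (K + 1)) := by
    ext q
    rw [Set.mem_ofPred_eq, fbT_le]
    exact ⟨fun hq => ⟨fun i _ => ⟨(hq.1 i).1, (hq.1 i).2⟩, fun t _ => ⟨(hq.2 t).1, (hq.2 t).2⟩⟩,
      fun hq => ⟨fun i => ⟨(hq.1 i trivial).1, (hq.1 i trivial).2⟩,
        fun t => ⟨(hq.2 t trivial).1, (hq.2 t trivial).2⟩⟩⟩
  rw [this]
  exact (isCompact_univ_pi fun _ => isCompact_Icc).prod (isCompact_univ_pi fun _ => isCompact_Icc)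

/-! ### the closed forms -/

/-- the closed form as a function of the exponents -/
def EAll (d : ℝ) (q : (Fin 4 → ℝ) × (Kd → ℝ)) : ℝ :=
  tAll d (q.1 0) (q.1 1) (q.1 2) (q.1 3) (q.2 .mo + q.2 .am)

lemma EAll_cont (d : ℝ) : Continuous (EAll d) := by
  unfold EAll tAll tCT3 tCP3 tP3 tHB tCT tCP tP gv
  fun_prop

variable {d : ℝ} {r : EF}

/-- **T-moments of three natural lumps, every level** -/
theorem tm_all {c₀ : ℝ} (hpu : PU h c₀) (hP : ∀ lam, (π lam).OK)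
    (R : ExpRules (7 / 8 + d) r (ex Dq fun lam => Sp (π lam) h)) (hd : 0 ≤ d) (hd1 : d ≤ 1 / 8)
    (c : Λ → ℝ) (K : ℝ) : UB S3 Dq (TMF π h c) (DomT K) ∅ (EAll d) := by
  refine tm_of hpu hP c (DomT_compact K) (fun q hq => ⟨fun i => (hq.1 i).1, fun t => (hq.2 t).1⟩)
    (EAll_cont d) fun q hq => ?_
  exact s_tAll R hd hd1 (hq.1 1).1 (hq.1 2).1 (hq.1 3).1 (hq.2 .mo).1 (hq.2 .am).1 (hq.1 0).1

/-- trivial bound of the T-moments -/
theorem tm_triv {c₀ : ℝ} (hpu : PU h c₀) (hP : ∀ lam, (π lam).OK) (c : Λ → ℝ) (K : ℝ) :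
    UBT973.Triv S3 Dq (TMF π h c) (fbT K) ∅ := by
  obtain ⟨C, hC, hb⟩ := UBT973.triv_Sp (h := h) hpu.cd.continuous hpu.cs
  refine UBT973.triv_of_exp (fbT_one K)
    (G := fun q => q.1 0 + 2 * (q.1 1 + q.1 2 + q.1 3) + 2 * (q.2 .mo + q.2 .am))
    (by fun_prop) fun lam N B => ?_
  refine ⟨100 * C ^ (2 * (3 + N)) * Real.exp |c lam|, 0, fun X hX a ps hw H hH _ _ => ?_⟩
  have hX1 : (1 : ℝ) < X := by linarith
  have hX0 : (0 : ℝ) < X := by linarith
  have hl : Real.log X ≠ 0 := (Real.log_pos hX1).ne'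
  rw [pow_zero, mul_one]
  unfold TMF
  split_ifs with ha
  · refine (hb _ (hP lam) _ _).trans ?_
    have hz : ∀ p : Pq, (p.tw a.q).z = p.z := fun p => by
      have := tws_tw.len a.q p ha.2
      simpa only [Dq_len] using this
    have e1 : (((a.mk' ++ ps).map (Pq.tw a.q)).map Pq.z).sum =
        (a.us 0).z + (a.us 1).z + (a.us 2).z + (ps.map fun p => p.z).sum := by
      rw [List.map_map]
      have : (Pq.z ∘ Pq.tw a.q) = fun p => p.z := funext hz
      rw [this, List.map_append, List.sum_append]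
      simp [T3.mk', add_assoc]
    have e2 := BadK271.sum_z_eq hX1 ps
    have e3 : ∀ i, (a.us i).z = Real.log X * Dq.nl X (a.us i) := fun i => by
      unfold Pcs.nl
      rw [Dq_len]
      field_simp
    rw [e1, e2, List.length_map, List.length_append]
    have h1 : C ^ (2 * (a.mk'.length + ps.length)) ≤ C ^ (2 * (3 + N)) := by
      refine pow_le_pow_right₀ hC ?_
      have := hw.len
      have h3 : a.mk'.length = 3 := rfl
      omega
    have h2 : Real.exp (a.l + c lam + 2 * ((a.us 0).z + (a.us 1).z + (a.us 2).z +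
        Real.log X * (Dq.mass X ps .mo + Dq.mass X ps .am))) ≤ Real.exp |c lam| *
        X ^ (S3.ev X a 0 + 2 * (S3.ev X a 1 + S3.ev X a 2 + S3.ev X a 3) +
          2 * (Dq.mass X ps .mo + Dq.mass X ps .am)) := by
      rw [Real.rpow_def_of_pos hX0, ← Real.exp_add]
      refine Real.exp_le_exp.2 ?_
      have f0 : S3.ev X a 0 = a.l / Real.log X := rfl
      have f1 : S3.ev X a 1 = Dq.nl X (a.us 0) := rfl
      have f2 : S3.ev X a 2 = Dq.nl X (a.us 1) := rfl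
      have f3 : S3.ev X a 3 = Dq.nl X (a.us 2) := rfl
      rw [f0, f1, f2, f3, e3 0, e3 1, e3 2]
      have g := le_abs_self (c lam)
      have g2 : Real.log X * (a.l / Real.log X) = a.l := by field_simp
      nlinarith
    calc 100 * C ^ (2 * (a.mk'.length + ps.length)) * Real.exp (a.l + c lam +
          2 * ((a.us 0).z + (a.us 1).z + (a.us 2).z +
            Real.log X * (Dq.mass X ps .mo + Dq.mass X ps .am)))
        ≤ 100 * C ^ (2 * (3 + N)) * (Real.exp |c lam| *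
          X ^ (S3.ev X a 0 + 2 * (S3.ev X a 1 + S3.ev X a 2 + S3.ev X a 3) +
            2 * (Dq.mass X ps .mo + Dq.mass X ps .am))) := by
          refine mul_le_mul (mul_le_mul_of_nonneg_left h1 (by norm_num)) h2 (Real.exp_pos _).le
            (by positivity)
      _ = _ := by ring
  · have := Real.rpow_nonneg hX0.le (S3.ev X a 0 + 2 * (S3.ev X a 1 + S3.ev X a 2 +
      S3.ev X a 3) + 2 * (Dq.mass X ps .mo + Dq.mass X ps .am))
    have hC0 : 0 ≤ C := by linarith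
    positivity

/-- **`UBs` of the T-moments, every level** : heights free at a cost -/
theorem tms_all {c₀ : ℝ} (hpu : PU h c₀) (hP : ∀ lam, (π lam).OK)
    (R : ExpRules (7 / 8 + d) r (ex Dq fun lam => Sp (π lam) h)) (hd : 0 ≤ d) (hd1 : d ≤ 1 / 8)
    (c : Λ → ℝ) (K : ℝ) : UBs S3 Dq (TMF π h c) (fbT K) ∅ (EAll d) :=
  UBT973.ubs_of_ub (fbT_cont K) (fbT_one K) (EAll_cont d) (tm_triv hpu hP c K) (by
    rw [fbT_zero]
    exact tm_all hpu hP R hd hd1 c K)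

/-! ### the functional of the flagged lists (helper381) -/

lemma Th_mul (q n : Eis) : HP842.Th q n = HP842.Th 1 n * End699.prin0 q n := by
  classical
  unfold HP842.Th End699.prin0
  by_cases h1 : Squarefree n
  · by_cases h2 : IsCoprime n q
    · rw [if_pos ⟨h1, h2⟩, if_pos ⟨h1, isCoprime_one_right⟩, if_pos h2, mul_one]
    · rw [if_neg (fun h => h2 h.2), if_neg h2, mul_zero]
  · rw [if_neg (fun h => h1 h.1), if_neg (fun h => h1 h.1), zero_mul]

/-- a natural list prime to `q` -/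
theorem SF_natl {q : Eis} (hq : q ≠ 0) (z D0 : ℝ) (P : DPar) (h : ℝ → ℝ) (l : ℝ)
    (ps : List Pq) : Leg381.SF z D0 q P h l (Leg381.natl ps) = S0p P h l (ps.map (Pq.tw q)) := by
  rw [Rough381.S0p_eq]
  unfold Leg381.SF
  rw [Leg381.alF_natl, alL_tw P h hq]
  congr 1
  funext n
  unfold HP842.sqc
  rw [Th_mul q n]
  ring

theorem SF_natl_le {q : Eis} (hq : q ≠ 0) (z D0 : ℝ) (P : DPar) (h : ℝ → ℝ) (l : ℝ)
    (ps : List Pq) : Leg381.SF z D0 q P h l (Leg381.natl ps) ≤ Sp P h l (ps.map (Pq.tw q)) := by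
  rw [SF_natl hq]
  exact S0p_le P h l _

/-- the flagged functional of `{y₁,y₂,y₃} + ps` is at most the T-moment -/
theorem SF_le_TMF (c : Λ → ℝ) (lam : Λ) {a : T3} (ha : a.ok) (z D0 : ℝ) (ps : List Pq) :
    Leg381.SF z D0 a.q (π lam) h (a.l + c lam) (Leg381.natl (a.mk' ++ ps)) ≤
      TMF π h c lam a ps := by
  unfold TMF
  rw [if_pos ha]
  exact SF_natl_le ha.2 _ _ _ _ _ _

end Crest.Agent.R017.TM708
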