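import Crest.Agent.R017.Fin6_986
import Crest.Agent.R017.SgN_986
import Crest.Agent.R017.P1Rl_440
import Crest.Agent.R017.XCol_298
import Crest.Agent.R017.PM3_320
import Crest.Agent.R017.PM6_320
import Crest.Agent.R017.RM3c_986
import Crest.Agent.R017.TMU_708
import Crest.Agent.R017.P1DomS_918

/-!
# Row 17, T.3, P1: `RpU` over the exact square (helper986)

* `rpU_N` : helper146's `RpU` for every family of class N, from the bundles `BunA`
-/

set_option autoImplicit false

noncomputable section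

namespace Crest.Agent.R017.RpN986

open Crest.Agent.R012 Crest.Agent.R012.Eis
open Crest.Agent.R017.FE47 Crest.Agent.R017.End699
open Crest.Agent.R017.B770 Crest.Agent.R017.BxH986
open Crest.Agent.R017.Prov71 Crest.Agent.R017.ER911
open Crest.Agent.R017.E5B71 Crest.Agent.R017.ExP960
open Crest.Agent.R017.E5L770
open Crest.Agent.R017.SC777
open Crest.Agent.R017.Fin4 Crest.Agent.R017.Fin5 Crest.Agent.R017.Fin6
open Crest.Agent.R017.P1t54 (ParS LS0 parOK_Sq5)
open Crest.Agent.R017.PML320 (cjD cjD_ok)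

/-- **the R-side of the cross error**, class N -/
theorem rpU_N {Λ : Type} {π : Λ → DPar} {h : ℝ → ℝ} {c₀ : ℝ} (hpu : PU h c₀)
    (hP : ∀ lam, (π lam).OK) (hN : ∀ lam, ClN (π lam)) {d : ℝ} (hd : 0 < d) (hd1 : d ≤ 1 / 42)
    (hPF : PF Set.univ (7 / 8 + d)) (hB : BunA d h) {Rh : ℝ} (hRh0 : 0 ≤ Rh)
    (hRh : ∀ u : ℝ, cx h u ≠ 0 → |u| ≤ Rh) {A : ℝ} (hA : 9 / 10 ≤ A) (hA0 : A ≤ 1)
    (hA1 : 16 * (1 - A) ≤ d) : P10146.RpU π h (1 / 64) (ParS A d) (LS0 d) := by
  have P := hB _ π hP hN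
  have hP' : ∀ lam, (cjD (π lam)).OK := fun lam => cjD_ok (hP lam)
  have hN' : ∀ lam, ClN (cjD (π lam)) := fun lam => PM320.classN_cj (hN lam)
  have P' := hB _ (fun lam => cjD (π lam)) hP' hN'
  have hcol := Col298.colP (θ := 7 / 8 + d) (by linarith) (by linarith) hPF hpu π hP
    (fun lam k hk => hN lam k hk)
  have hcol' := Col298.colP (θ := 7 / 8 + d) (by linarith) (by linarith) hPF hpu
    (fun lam => cjD (π lam)) hP' (fun lam k hk => hN' lam k hk)
  refine P1Rl440.rpU_of hpu hP hRh0 hRh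
    (PM320.ubs_PM hpu hP hd.le (by linarith)
      (PM320.RFb_of hpu hP P.rules hcol hd.le (by linarith))
      (PM320.RFb_of hpu hP' P'.rules hcol' hd.le (by linarith)) 8 (fun _ => 0) (fun _ => 0))
    (RM986.rm_RF hpu hP P.rules hcol hd.le (by linarith) 8)
    (TM708.tms_all hpu hP P.rules hd.le (by linarith) (fun _ => 0) 8)
    le_rfl (fun p hp => parOK_Sq5 hA hp) (fun p hp => ?_) (fun p hp => ?_)
  · obtain ⟨w, hw⟩ := hp
    exact hw.dp hd.le (by linarith) hA0 hA1
  · obtain ⟨w, hw⟩ := hp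
    have h2 := hw.κpos
    unfold P1t54.LS0
    have h3 : 0 ≤ 3 / 4 * d * cκ p := by positivity
    linarith

end Crest.Agent.R017.RpN986
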