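import Crest.Agent.R017.RXp_770

/-!
# Row 17, x-side of E4: the R-test of the cells (helper770)

* **`rx_cell`** : `RXk` for three lumps with an `S`-unit twist and the test character `η ang^j`
-/

set_option autoImplicit false
set_option linter.unusedVariables false

noncomputable section

open Complex MeasureTheory
open scoped ComplexConjugate

namespace Crest.Agent.R017.RXn770

open Crest.Agent.R012 Crest.Agent.R012.Eis
open Crest.Agent.R012.LS2 (S mem_S)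
open Crest.Agent.R017.CM106 (CS TG FS)
open Crest.Agent.R017.FE47
open Crest.Agent.R017.End699 Crest.Agent.R017.B770 Crest.Agent.R017.Sup271
open Crest.Agent.R017.Prov71
open Crest.Agent.R017.HP842 (Pc pc)
open Crest.Agent.R017.GrB829 (IsC)
open Crest.Agent.R017.E3D579 (b0)
open Crest.Agent.R017.Mode405 (Slp Mul1 OK3)
open Crest.Agent.R017.R3571 (RMm)
open Crest.Agent.R017.E5k54 (alb)
open Crest.Agent.R017.E5B71 (Pt)
open Crest.Agent.R017.TEM792 (LD nL)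
open Crest.Agent.R017.XG702 (Pcs BG)
open Crest.Agent.R017.ER911 Crest.Agent.R017.SC777 Crest.Agent.R017.ExpC702
open Crest.Agent.R017.XPD571 (RX R0 RF0 RN0 RP0 SP0)

variable {Λ : Type*} {π : Λ → DPar} {h : ℝ → ℝ}

/-- the twisted lumps are finitely supported on squarefree primary elements -/
lemma alb_FS {c₀ : ℝ} (hpu : PU h c₀) (P : DPar) (s : Eis) (us : Fin 3 → Pq) {β : Fin 3 → Eis}
    (hβ : ∀ i, IsPrim (β i)) : FS (alb (fun i => pc h (Pt P s (us i))) β) ∧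
      ∀ n, alb (fun i => pc h (Pt P s (us i))) β n ≠ 0 → Squarefree n := by
  obtain ⟨R, hR0, hR⟩ := exists_R (cs_cx hpu.cs)
  have h0 := TEX792.adm_f3 hR0 hR P s us hβ
  refine ⟨⟨(Set.Finite.subset (S (TEM792.Xn us β * Real.exp (3 * R))).finite_toSet
    fun n hn => h0.sup n hn), fun n hn => P1e54.alb_prim (fun i m hm => TEX792.pc_prim' hm) hβ hn⟩,
    fun n hn => (P1e54.alb_ne hn).1⟩

/-- **the R-test of the cells** -/
theorem rx_cell {c₀ : ℝ} (hpu : PU h c₀) (hP' : ∀ lam, (π lam).OK) {d : ℝ} (hd : 0 ≤ d)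
    (hd8 : d ≤ 1 / 8) (HR : RCl π h d) (lam : Λ) {P : DPar} (hP : P.OK) {M' : Eis} {η : Eis → ℂ}
    (hη : HC M' η) (j : ℤ) (hrad : ∀ p : Eis, Prime p → p ∣ M' → p ∣ P.n)
    (hlam : π lam = rwP P M' η j) {ε : ℝ} (hε : 0 < ε) {K : ℝ} (hK : 1 ≤ K) :
    ∃ M aS A₀ : ℕ, 1 ≤ aS ∧ ∀ s : Eis, s ≠ 0 → ∀ cc : ℝ, 0 < cc → ∀ A : ℕ, A₀ ≤ A → 1 < A →
      ∃ X₀ : ℝ, 1 < X₀ ∧ ∀ X : ℝ, X₀ ≤ X → ∀ H : ℝ, 1 ≤ H →
      ∀ (us : Fin 3 → Pq) (β : Fin 3 → Eis), LD X K H us β →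
      ∀ u : ℝ, (∃ i, (us i).z ≤ u * Real.log X) →
      ∀ D e q g r κ₁ c : Eis, IsPrim D → IsPrim e → IsPrim q → IsPrim g → IsPrim r → IsC c →
      (nm D : ℝ) ≤ X ^ K → (nm e : ℝ) ≤ X ^ K →
      ∀ Z : ℝ, 1 ≤ Z → Z ≤ X ^ K → (nm q : ℝ) ≤ Z → (nm g : ℝ) ≤ Z → (nm r : ℝ) ≤ Z →
      ∀ Nb : ℝ, 0 < Nb → Nb ≤ Z → ∀ (ν i : ℝ) (R : Eis) (W1 : ℝ), 0 < ν → ν ≤ X ^ K →
      ν * ((nm q : ℝ) ^ 2 * nm g) ≤ X ^ i →
      H ^ M * X ^ (max i (i / 3) + g3 d u i +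
          2 / 3 * (nL X us β - Real.log (nm D) / Real.log X) + ε) ≤ W1 →
      RXt347.RXk κ₁ OK3 (BDh681.ps η j) aS A cc Z Nb ν R 1
        (b0 (fun m => alb (fun i => pc h (Pt P s (us i))) β (D * m)) D e
          (q * c * g ^ 2 * r ^ 3)) W1 := by
  obtain ⟨M, aS, A₀, haS, H1⟩ := rx_num hpu hP' hd hd8 HR lam hε hK
  refine ⟨M, aS, A₀, haS, fun s hs cc hcc A hA hA1 => ?_⟩
  obtain ⟨X₀, hX₀, H2⟩ := H1 s hs cc hcc A hA hA1
  refine ⟨X₀, hX₀, ?_⟩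
  intro X hX H hH us β hD u hu D e q g r κ₁ c hDp he hq hg hr hc hDK heK Z hZ hZK hqZ hgZ hrZ Nb
    hNb hNbZ ν i R W1 hν hνK hi hW1
  obtain ⟨hFS, hsf⟩ := alb_FS hpu P s us hD.bp
  refine H2 X hX H hH us β hD u hu (BDh681.ps η j) _ (PoH347.mul1_ps hη j) hFS hsf D e q g r κ₁ c
    hDp he hq hg hr hc hDK heK (fun γ φ k hγ => ?_) Z hZ hZK hqZ hgZ hrZ Nb hNb hNbZ ν i R W1 hν
    hνK hi hW1
  rw [hlam]
  exact (rm_tw A us hD.bp hDp (BDh681.ps η j) hγ e φ k).trans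
    (rm_rw A hP hη j hrad (fun i => (hD.lump i).1) hD.bp hDp hγ e φ (k * s))

/-- the R-claim from helper986's `rm_RF` -/
theorem rcl_of {c₀ : ℝ} (hpu : PU h c₀) (hP : ∀ lam, (π lam).OK) {d : ℝ} {s : EF}
    (R : ExpRules (7 / 8 + d) (ex Dq (fun lam => Rp (π lam) h)) s)
    (hcolP : ∀ (i : ℝ) (u : List ℝ) (m a : ℝ), 0 ≤ i → Okl u m a →
      BG Dq (RP0 π h) i u (wt m a) (2 * a + 2 * (7 / 8 + d) * m)) (hd : 0 ≤ d)
    (hd8 : d ≤ 1 / 8) : RCl π h d :=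
  fun K => RM986.rm_RF hpu hP R hcolP hd hd8 K

/-- the decomposition of a primary conductor -/
lemma exists_qgr {F : Eis} (hF : IsPrim F) : ∃ q g r : Eis, IsPrim q ∧ IsPrim g ∧ IsPrim r ∧
    F = q * g ^ 2 * r ^ 3 := by
  obtain ⟨p1, p2, p3, s1, s2, hcc, he⟩ := GLS106.dec_spec hF
  exact ⟨_, _, _, p1, p2, p3, he⟩

end Crest.Agent.R017.RXn770
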