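import Crest.Agent.R017.RSP_702

/-!
# Row 17, R8: the real lines of `SPIn'` at the actual numbers (helper521 #36499; helper702)

* `Gq` : body of helper792's `TEX792.Gq`
* `Nr` : the actual numbers `v', k', p', E'` are within `t` of the nominal ones
* `c0_ac`, `c1_ac`, `S_ac`, `R_ac`, `V_ac`
-/

set_option autoImplicit false
set_option linter.unusedVariables false

noncomputable section

namespace Crest.Agent.R017.RSQ702

open Crest.Agent.R017.RQ702 Crest.Agent.R017.P1Q904 Crest.Agent.R017.RstQ702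
open Crest.Agent.R017.SpR702 Crest.Agent.R017.RSP702
open Crest.Agent.R017.B770 Crest.Agent.R017.E5B71 Crest.Agent.R017.E5L770
open Crest.Agent.R017.R8C918 Crest.Agent.R017.TU47 Crest.Agent.R017.Prov71

/-- the number of a pure list (helper792's `Gq`, same body) -/
def Gq (d z u v n : ℝ) : ℝ :=
  min (max (max (2 * n) (v + n)) (4 / 3 * n + (v + K0 v n z) / 3) + 2 / 3 * d * n)
    (max (v + n + min u (n / 3)) (5 / 3 * n + v / 3))

/-- third part of the R-number -/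
def g3 (d u i : ℝ) : ℝ := (3 / 4 + 2 * d) * max 0 (min u (i / 2))

/-- **the actual numbers** -/
structure Nr (A d t : ℝ) (q : (Option (Fin 3 ⊕ Fin 5) → ℝ) × (Kd → ℝ))
    (k β v' k' p' E' : ℝ) : Prop where
  H : Hq A d q k β
  t0 : 0 ≤ t
  t1 : t ≤ 1 / 1000000
  v : |v' - q.1 none| ≤ t
  k : |k' - k| ≤ t
  p : |p' - (cN (dn q.1) - β)| ≤ t
  E : E' ≤ cκ (dn q.1) / 64 + t
  E0 : 0 ≤ E'

lemma K0_lip {v n z v' n' z' t : ℝ} (t0 : 0 ≤ t) (hv : v' ≤ v + 2 * t) (hn : n' ≤ n + t)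
    (hz : z' ≤ z + t) : K0 v' n' z' ≤ K0 v n z + 4 * t := by
  unfold K0
  have k1 := le_max_left (5 / 4 * n) (max (v + n / 2) (max (3 / 2 * v) (200 / 61 * z)))
  have k0 := le_max_right (5 / 4 * n) (max (v + n / 2) (max (3 / 2 * v) (200 / 61 * z)))
  have k2 := (le_max_left (v + n / 2) (max (3 / 2 * v) (200 / 61 * z))).trans k0
  have k3' := (le_max_right (v + n / 2) (max (3 / 2 * v) (200 / 61 * z))).trans k0
  have k3 := (le_max_left (3 / 2 * v) (200 / 61 * z)).trans k3'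
  have k4 := (le_max_right (3 / 2 * v) (200 / 61 * z)).trans k3'
  refine max_le ?_ (max_le ?_ (max_le ?_ ?_)) <;> linarith

lemma gQ_lip {L I L' I' a b : ℝ} (a0 : 0 ≤ a) (b0 : 0 ≤ b) (h1 : L' ≤ L + a) (h2 : I - b ≤ I') :
    gQ L' I' ≤ gQ L I + (a + b) := by
  unfold gQ
  have k0 := le_max_left (max (L / 3) (L - I / 2)) (max (7 / 9 * L - 2 / 3 * I) (11 / 18 * L - I / 3))
  have k0' := le_max_right (max (L / 3) (L - I / 2))
    (max (7 / 9 * L - 2 / 3 * I) (11 / 18 * L - I / 3))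
  have k1 := (le_max_left (L / 3) (L - I / 2)).trans k0
  have k2 := (le_max_right (L / 3) (L - I / 2)).trans k0
  have k3 := (le_max_left (7 / 9 * L - 2 / 3 * I) (11 / 18 * L - I / 3)).trans k0'
  have k4 := (le_max_right (7 / 9 * L - 2 / 3 * I) (11 / 18 * L - I / 3)).trans k0'
  refine max_le (max_le ?_ ?_) (max_le ?_ ?_) <;> linarith

variable {A d t μ k β v' k' p' E' δ b l : ℝ} {q : (Option (Fin 3 ⊕ Fin 5) → ℝ) × (Kd → ℝ)}

lemma Nr.bd (N : Nr A d t q k β v' k' p' E') :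
    (v' ≤ q.1 none + t ∧ q.1 none ≤ v' + t) ∧ (k' ≤ k + t ∧ k ≤ k' + t) ∧
    (p' ≤ cN (dn q.1) - β + t ∧ cN (dn q.1) - β ≤ p' + t) := by
  have h1 := abs_le.1 N.v
  have h2 := abs_le.1 N.k
  have h3 := abs_le.1 N.p
  exact ⟨⟨by linarith, by linarith⟩, ⟨by linarith, by linarith⟩, by linarith, by linarith⟩

/-- the nominal parameters of the `T`-lines -/
lemma Nr.ht (N : Nr A d t q k β v' k' p' E') (δ0 : 0 ≤ δ) (b0 : 0 ≤ b) (l0 : 0 ≤ l)
    (hl : l ≤ v' - 2 * δ + t) :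
    HT d q β (max 0 (δ - t)) b (max 0 (l - 2 * t)) (max 0 (cN (dn q.1) - β - max 0 (δ - t) - b))
      (Gq d (cu (dn q.1) 2 + t) (cu (dn q.1) 4 + t) (l + b) (max 0 (p' - δ - b)) - 10 * t) := by
  obtain ⟨⟨a1, a2⟩, -, c1, c2⟩ := N.bd
  have t0 := N.t0
  have G := gs_of N.H
  have v0 := G.v0
  have d0 := N.H.d0
  have d1 := N.H.d1
  have e1 : δ ≤ max 0 (δ - t) + t := by linarith [le_max_right 0 (δ - t)]
  have e2 : max 0 (δ - t) ≤ δ := max_le δ0 (by linarith)
  have e3 : 2 * max 0 (δ - t) ≤ q.1 none := by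
    rcases max_choice 0 (δ - t) with h | h <;> rw [h] <;> linarith
  have e4 : l ≤ max 0 (l - 2 * t) + 2 * t := by linarith [le_max_right 0 (l - 2 * t)]
  have e5 : max 0 (l - 2 * t) ≤ q.1 none - 2 * max 0 (δ - t) := by
    refine max_le (by linarith) ?_
    linarith
  have hn0 : 0 ≤ max 0 (cN (dn q.1) - β - max 0 (δ - t) - b) := le_max_left _ _
  have hn : max 0 (p' - δ - b) ≤ max 0 (cN (dn q.1) - β - max 0 (δ - t) - b) + t :=
    max_le (by linarith) (by linarith [le_max_right 0 (cN (dn q.1) - β - max 0 (δ - t) - b)])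
  have hn' : 0 ≤ max 0 (p' - δ - b) := le_max_left _ _
  obtain ⟨n, hne⟩ : ∃ n, n = max 0 (cN (dn q.1) - β - max 0 (δ - t) - b) := ⟨_, rfl⟩
  rw [← hne] at hn hn0 ⊢
  generalize max 0 (p' - δ - b) = n' at *
  have hl0 : 0 ≤ max 0 (l - 2 * t) := le_max_left _ _
  generalize max 0 (l - 2 * t) = l' at *
  refine ⟨le_max_left _ _, e3, b0, hl0, e5, hne, ?_, ?_⟩
  · have h1 : Gq d (cu (dn q.1) 2 + t) (cu (dn q.1) 4 + t) (l + b) n' ≤
        max (l + b + n' + min (cu (dn q.1) 4 + t) (n' / 3)) (5 / 3 * n' + (l + b) / 3) := min_le_right _ _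
    have h2 := le_max_left (l' + b + n + min (cu (dn q.1) 4) (n / 3)) (5 / 3 * n + (l' + b) / 3)
    have h3 := le_max_right (l' + b + n + min (cu (dn q.1) 4) (n / 3)) (5 / 3 * n + (l' + b) / 3)
    have h4 : min (cu (dn q.1) 4 + t) (n' / 3) ≤ min (cu (dn q.1) 4) (n / 3) + t := by
      rcases min_choice (cu (dn q.1) 4) (n / 3) with h | h <;> rw [h]
      · exact (min_le_left _ _).trans (by linarith)
      · exact (min_le_right _ _).trans (by linarith)
    have h5 : max (l + b + n' + min (cu (dn q.1) 4 + t) (n' / 3)) (5 / 3 * n' + (l + b) / 3) ≤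
        max (l' + b + n + min (cu (dn q.1) 4) (n / 3)) (5 / 3 * n + (l' + b) / 3) + 10 * t :=
      max_le (by linarith) (by linarith)
    linarith
  · have h1 : Gq d (cu (dn q.1) 2 + t) (cu (dn q.1) 4 + t) (l + b) n' ≤
        max (max (2 * n') (l + b + n')) (4 / 3 * n' + (l + b + K0 (l + b) n' (cu (dn q.1) 2 + t)) / 3) +
          2 / 3 * d * n' := min_le_left _ _
    have hK : K0 (l + b) n' (cu (dn q.1) 2 + t) ≤ K0 (l' + b) n (cu (dn q.1) 2) + 4 * t :=
      K0_lip t0 (by linarith) hn le_rfl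
    have k0 := le_max_left (max (2 * n) (l' + b + n)) (4 / 3 * n + (l' + b + K0 (l' + b) n (cu (dn q.1) 2)) / 3)
    have k1 := (le_max_left (2 * n) (l' + b + n)).trans k0
    have k2 := (le_max_right (2 * n) (l' + b + n)).trans k0
    have k3 := le_max_right (max (2 * n) (l' + b + n))
      (4 / 3 * n + (l' + b + K0 (l' + b) n (cu (dn q.1) 2)) / 3)
    have h5 : max (max (2 * n') (l + b + n')) (4 / 3 * n' + (l + b + K0 (l + b) n' (cu (dn q.1) 2 + t)) / 3) ≤
        max (max (2 * n) (l' + b + n)) (4 / 3 * n + (l' + b + K0 (l' + b) n (cu (dn q.1) 2)) / 3) + 5 * t :=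
      max_le (max_le (by linarith) (by linarith)) (by linarith)
    have h6 : d * n' ≤ d * (n + t) := mul_le_mul_of_nonneg_left hn d0
    have h7 : d * t ≤ 1 / 8 * t := mul_le_mul_of_nonneg_right d1 t0
    linarith

/-- (c0) -/
theorem c0_ac (N : Nr A d t q k β v' k' p' E') (hμ : μ ≤ 1 / 450) (δ0 : 0 ≤ δ) (b0 : 0 ≤ b)
    (l0 : 0 ≤ l) (hl : l ≤ v' - 2 * δ + t) :
    max (2 / 3 * k' - v' / 3) (max (2 / 3 * k' - (hS d q k β + v') / 3) (2 / 3 * v')) +
      (Gq d (cu (dn q.1) 2 + t) (cu (dn q.1) 4 + t) (l + b) (max 0 (p' - δ - b)) +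
        min b (max 0 (p' - δ)) + 2 * δ - max 0 (b - E') - p' / 3) + cκ (dn q.1) / 1000 ≤
      ESP d μ q k - β := by
  have h := c0_le N.H hμ (N.ht δ0 b0 l0 hl)
  obtain ⟨⟨a1, a2⟩, ⟨b1, b2⟩, c1, c2⟩ := N.bd
  have t0 := N.t0
  have t1 := N.t1
  have κ0 := (gs_of N.H).F.κ0
  have e1 : δ ≤ max 0 (δ - t) + t := by linarith [le_max_right 0 (δ - t)]
  have e2 : max 0 (δ - t) ≤ δ := max_le δ0 (by linarith)
  have m1 : min b (max 0 (p' - δ)) ≤ min b (max 0 (cN (dn q.1) - β - max 0 (δ - t))) + t := by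
    have h1 : max 0 (p' - δ) ≤ max 0 (cN (dn q.1) - β - max 0 (δ - t)) + t :=
      max_le (by linarith [le_max_left 0 (cN (dn q.1) - β - max 0 (δ - t))])
        (by linarith [le_max_right 0 (cN (dn q.1) - β - max 0 (δ - t))])
    rcases min_choice b (max 0 (cN (dn q.1) - β - max 0 (δ - t))) with h | h <;> rw [h]
    · exact (min_le_left _ _).trans (by linarith)
    · exact (min_le_right _ _).trans h1
  have m2 : max 0 (b - cκ (dn q.1) / 64) ≤ max 0 (b - E') + t :=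
    max_le (by linarith [le_max_left 0 (b - E')]) (by linarith [le_max_right 0 (b - E'), N.E])
  have m3 : max (2 / 3 * k' - v' / 3) (max (2 / 3 * k' - (hS d q k β + v') / 3) (2 / 3 * v')) ≤
      max (2 / 3 * k - q.1 none / 3)
        (max (2 / 3 * k - (hS d q k β + q.1 none) / 3) (2 / 3 * q.1 none)) + t := by
    have k0 := le_max_left (2 / 3 * k - q.1 none / 3)
      (max (2 / 3 * k - (hS d q k β + q.1 none) / 3) (2 / 3 * q.1 none))
    have k0' := le_max_right (2 / 3 * k - q.1 none / 3)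
      (max (2 / 3 * k - (hS d q k β + q.1 none) / 3) (2 / 3 * q.1 none))
    have k1 := (le_max_left (2 / 3 * k - (hS d q k β + q.1 none) / 3) (2 / 3 * q.1 none)).trans k0'
    have k2 := (le_max_right (2 / 3 * k - (hS d q k β + q.1 none) / 3)
      (2 / 3 * q.1 none)).trans k0'
    refine max_le ?_ (max_le ?_ ?_) <;> linarith
  linarith

/-- (c1) -/
theorem c1_ac (N : Nr A d t q k β v' k' p' E') (hμ : μ ≤ 1 / 450) (δ0 : 0 ≤ δ) (b0 : 0 ≤ b)
    (l0 : 0 ≤ l) (hl : l ≤ v' - 2 * δ + t) :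
    max (2 / 3 * k' - (hS d q k β + v') / 3)
        (max (hS d q k β / 3 + 2 / 3 * v') (2 / 3 * hS d q k β + 7 / 6 * v' - k' / 3)) +
      (Gq d (cu (dn q.1) 2 + t) (cu (dn q.1) 4 + t) (l + b) (max 0 (p' - δ - b)) +
        min b (max 0 (p' - δ)) + 2 * δ - max 0 (b - E') - p' / 3) +
      (v' - 2 * δ - l) / 3 + cκ (dn q.1) / 1000 ≤ ESP d μ q k - β := by
  have h := c1_le N.H hμ (N.ht δ0 b0 l0 hl)
  obtain ⟨⟨a1, a2⟩, ⟨b1, b2⟩, c1, c2⟩ := N.bd
  have t0 := N.t0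
  have t1 := N.t1
  have κ0 := (gs_of N.H).F.κ0
  have e1 : δ ≤ max 0 (δ - t) + t := by linarith [le_max_right 0 (δ - t)]
  have e2 : max 0 (δ - t) ≤ δ := max_le δ0 (by linarith)
  have e3 : max 0 (l - 2 * t) ≤ l := max_le l0 (by linarith)
  have m1 : min b (max 0 (p' - δ)) ≤ min b (max 0 (cN (dn q.1) - β - max 0 (δ - t))) + t := by
    have h1 : max 0 (p' - δ) ≤ max 0 (cN (dn q.1) - β - max 0 (δ - t)) + t :=
      max_le (by linarith [le_max_left 0 (cN (dn q.1) - β - max 0 (δ - t))])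
        (by linarith [le_max_right 0 (cN (dn q.1) - β - max 0 (δ - t))])
    rcases min_choice b (max 0 (cN (dn q.1) - β - max 0 (δ - t))) with h | h <;> rw [h]
    · exact (min_le_left _ _).trans (by linarith)
    · exact (min_le_right _ _).trans h1
  have m2 : max 0 (b - cκ (dn q.1) / 64) ≤ max 0 (b - E') + t :=
    max_le (by linarith [le_max_left 0 (b - E')]) (by linarith [le_max_right 0 (b - E'), N.E])
  have m3 : max (2 / 3 * k' - (hS d q k β + v') / 3)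
        (max (hS d q k β / 3 + 2 / 3 * v') (2 / 3 * hS d q k β + 7 / 6 * v' - k' / 3)) ≤
      max (2 / 3 * k - (hS d q k β + q.1 none) / 3)
        (max (hS d q k β / 3 + 2 / 3 * q.1 none)
          (2 / 3 * hS d q k β + 7 / 6 * q.1 none - k / 3)) + 2 * t := by
    have k0 := le_max_left (2 / 3 * k - (hS d q k β + q.1 none) / 3)
      (max (hS d q k β / 3 + 2 / 3 * q.1 none) (2 / 3 * hS d q k β + 7 / 6 * q.1 none - k / 3))
    have k0' := le_max_right (2 / 3 * k - (hS d q k β + q.1 none) / 3)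
      (max (hS d q k β / 3 + 2 / 3 * q.1 none) (2 / 3 * hS d q k β + 7 / 6 * q.1 none - k / 3))
    have k1 := (le_max_left (hS d q k β / 3 + 2 / 3 * q.1 none)
      (2 / 3 * hS d q k β + 7 / 6 * q.1 none - k / 3)).trans k0'
    have k2 := (le_max_right (hS d q k β / 3 + 2 / 3 * q.1 none)
      (2 / 3 * hS d q k β + 7 / 6 * q.1 none - k / 3)).trans k0'
    refine max_le ?_ (max_le ?_ ?_) <;> linarith
  linarith

/-- (S) -/
theorem S_ac (N : Nr A d t q k β v' k' p' E') :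
    hS d q k β + 2 * v' + cκ (dn q.1) / 1000 ≤ k' + p' := by
  have h := S_le N.H
  obtain ⟨⟨a1, a2⟩, ⟨b1, b2⟩, c1, c2⟩ := N.bd
  have t0 := N.t0
  have t1 := N.t1
  have κ0 := (gs_of N.H).F.κ0
  linarith

/-- (V) -/
theorem V_ac (N : Nr A d t q k β v' k' p' E') : v' + 3 * E' ≤ 2 * k' ∧ v' ≤ k' ∧ 0 ≤ k' := by
  obtain ⟨⟨a1, a2⟩, ⟨b1, b2⟩, c1, c2⟩ := N.bd
  have t0 := N.t0
  have t1 := N.t1
  have hE := N.E
  obtain ⟨⟨κ0, κ1, N34, N84, MN, a0, a12, c0, c13, x0, D0, q43, sq2, L1, L2, L3, shr, -, -, -⟩,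
    v0, v1, v2, k1, k2, p0, p1, z1, z2, hE'⟩ := gs_of N.H
  have hv : q.1 none ≤ 13 / 20 * cκ (dn q.1) := by
    rcases shr with h | ⟨s1, s2, s3, s4⟩
    · rw [h] at v2; linarith
    · linarith
  refine ⟨?_, ?_, ?_⟩ <;> linarith

set_option maxHeartbeats 8000000 in
/-- (R), `i ≥ 0`, with tolerance -/
lemma R_tol {κ N M a c x L D k v p z E w δ e S : ℝ} (H : Gs κ N M a c x L D k v p z E)
    (hw : w = hR κ L D a k v p z E + v) (hL : -(κ / 10000) ≤ w + v - k - δ) (δ0 : 0 ≤ δ)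
    (e0 : 0 ≤ e) (e1 : e ≤ κ / 64 + κ / 100000) (s1 : 3 * S ≤ N) (s3 : 2 * S ≤ w + p - k) :
    2 / 3 * k - w / 3 + 5 / 3 * δ + 2 * e + gQ (w + v - k - δ) (w + p - k) + (w + p - k) +
      (3 / 4 * S + 61 / 100 * D) + 2 / 3 * (p - δ) + κ / 500 ≤ GP κ L a k p E := by
  have hg := gQ_cases (w + v - k - δ) (w + p - k)
  obtain ⟨⟨κ0, κ1, N34, N84, MN, a0, a12, c0, c13, x0, D0, q43, sq2, L1, L2, L3, shr, -, -, -⟩,
    v0, v1, v2, k1, k2, p0, p1, z1, z2, hE⟩ := H
  unfold hR hP at hw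
  unfold GP at *
  generalize gQ (w + v - k - δ) (w + p - k) = g at *
  rcases KP_cases v p z with h | h | h | h <;> rw [h] at hw <;>
    rcases hg with rfl | rfl | rfl | rfl <;> rcases shr with rfl | ⟨s1, s2, s3, s4⟩ <;>
    rcases hE with hE | ⟨hE1, hE⟩ | ⟨hE1, hE⟩ <;> linarith

set_option maxHeartbeats 8000000 in
/-- (R), `i ≤ 0`, with tolerance -/
lemma R2_tol {κ N M a c x L D k v p z E w δ e : ℝ} (H : Gs κ N M a c x L D k v p z E)
    (hw : w = hR κ L D a k v p z E + v) (hL : -(κ / 10000) ≤ w + v - k - δ) (δ0 : 0 ≤ δ)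
    (e0 : 0 ≤ e) (e1 : e ≤ κ / 64 + κ / 100000) :
    2 / 3 * k - w / 3 + 5 / 3 * δ + 2 * e + gQ (w + v - k - δ) (w + p - k) + (w + p - k) / 3 +
      2 / 3 * (p - δ) + κ / 500 ≤ GP κ L a k p E := by
  have hg := gQ_cases (w + v - k - δ) (w + p - k)
  obtain ⟨⟨κ0, κ1, N34, N84, MN, a0, a12, c0, c13, x0, D0, q43, sq2, L1, L2, L3, shr, -, -, -⟩,
    v0, v1, v2, k1, k2, p0, p1, z1, z2, hE⟩ := H
  unfold hR hP at hw
  unfold GP at *
  generalize gQ (w + v - k - δ) (w + p - k) = g at *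
  rcases KP_cases v p z with h | h | h | h <;> rw [h] at hw <;>
    rcases hg with rfl | rfl | rfl | rfl <;> rcases shr with rfl | ⟨s1, s2, s3, s4⟩ <;>
    rcases hE with hE | ⟨hE1, hE⟩ | ⟨hE1, hE⟩ <;> linarith

/-- (R) -/
theorem R_ac {e i' : ℝ} (N : Nr A d t q k β v' k' p' E') (hμ : μ ≤ 1 / 450) (δ0 : 0 ≤ δ)
    (hL : 0 ≤ hS d q k β + 2 * v' - k' - δ) (e0 : 0 ≤ e) (e1 : e ≤ E')
    (hi : |i' - (p' + v' + hS d q k β - k')| ≤ t) :
    2 / 3 * k' - (hS d q k β + v') / 3 + 5 / 3 * δ + 2 * e +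
      gQ (hS d q k β + 2 * v' - k' - δ) (p' + v' + hS d q k β - k') + max i' (i' / 3) +
      g3 d (cu (dn q.1) 4 + t) i' + 2 / 3 * (p' - δ) + cκ (dn q.1) / 1000 ≤
      ESP d μ q k - β := by
  obtain ⟨⟨a1, a2⟩, ⟨b1, b2⟩, c1, c2⟩ := N.bd
  obtain ⟨hi1, hi2⟩ := abs_le.1 hi
  have t0 := N.t0
  have t1 := N.t1
  have H := N.H
  have G := gs_of H
  have κ0 := G.F.κ0
  have d0 := H.d0
  have d1 := H.d1
  have hE := N.E
  have hw : hS d q k β + q.1 none = hR (cκ (dn q.1)) (LL d q) (d * cκ (dn q.1)) (q.2 .mo) k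
      (q.1 none) (cN (dn q.1) - β) (cu (dn q.1) 2) (YM61.eC k (cM (dn q.1)) (q.2 .am)) +
      q.1 none := by rw [hS_eq H]
  have hu3 : 3 * cu (dn q.1) 4 ≤ cN (dn q.1) := by
    have h1 : Sq5 A d (dn q.1) q.2 := H.hq.1
    obtain ⟨a1, a2, a3, a4⟩ := h1.toNr5.anti
    have hNe : cN (dn q.1) = cu (dn q.1) 2 + cu (dn q.1) 3 + cu (dn q.1) 4 := rfl
    linarith
  rw [ESP_eq H]
  obtain ⟨w, hw'⟩ : ∃ w, w = hS d q k β + q.1 none := ⟨_, rfl⟩
  have hS' : hS d q k β = w - q.1 none := by rw [hw']; ring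
  rw [← hw'] at hw
  rw [hS'] at hL hi1 hi2 ⊢
  have hN34 := G.F.N34
  have hN84 := G.F.N84
  have hD0 := G.F.D0
  generalize q.1 none = v at *
  generalize cN (dn q.1) - β = p at *
  generalize cu (dn q.1) 4 = u at *
  -- comparison
  have g1 : gQ (w - v + 2 * v' - k' - δ) (p' + v' + (w - v) - k') ≤
      gQ (w + v - k - δ) (w + p - k) + (3 * t + 3 * t) :=
    gQ_lip (by linarith) (by linarith) (by linarith) (by linarith)
  have g2 : max i' (i' / 3) ≤ max (w + p - k) ((w + p - k) / 3) + 4 * t := by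
    have h1 := le_max_left (w + p - k) ((w + p - k) / 3)
    have h2 := le_max_right (w + p - k) ((w + p - k) / 3)
    exact max_le (by linarith) (by linarith)
  have g4 : max 0 (min (u + t) (i' / 2)) ≤ max 0 (min u ((w + p - k) / 2)) + 3 * t := by
    refine max_le (by linarith [le_max_left 0 (min u ((w + p - k) / 2))]) ?_
    have h1 : min (u + t) (i' / 2) ≤ min u ((w + p - k) / 2) + 3 * t := by
      rcases min_choice u ((w + p - k) / 2) with h | h <;> rw [h]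
      · exact (min_le_left _ _).trans (by linarith)
      · exact (min_le_right _ _).trans (by linarith)
    linarith [le_max_right 0 (min u ((w + p - k) / 2))]
  have g5 : g3 d (u + t) i' ≤ (3 / 4 + 2 * d) * max 0 (min u ((w + p - k) / 2)) + 3 * t := by
    have h1 : (3 / 4 + 2 * d) * max 0 (min (u + t) (i' / 2)) ≤
        (3 / 4 + 2 * d) * (max 0 (min u ((w + p - k) / 2)) + 3 * t) :=
      mul_le_mul_of_nonneg_left g4 (by linarith)
    have h2 : (3 / 4 + 2 * d) * (3 * t) ≤ 1 * (3 * t) :=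
      mul_le_mul_of_nonneg_right (by linarith) (by linarith)
    unfold g3
    linarith
  have hL' : -(cκ (dn q.1) / 10000) ≤ w + v - k - δ := by linarith
  have e1' : e ≤ cκ (dn q.1) / 64 + cκ (dn q.1) / 100000 := by linarith
  obtain ⟨i, hi⟩ : ∃ i, i = w + p - k := ⟨_, rfl⟩
  rcases le_total 0 i with h0 | h0
  · have hS1 : 3 * max 0 (min u (i / 2)) ≤ cN (dn q.1) := by
      have h1 : max 0 (min u (i / 2)) ≤ cN (dn q.1) / 3 :=
        max_le (by linarith) ((min_le_left _ _).trans (by linarith))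
      linarith
    have hS3 : 2 * max 0 (min u (i / 2)) ≤ i := by
      have h1 : max 0 (min u (i / 2)) ≤ i / 2 :=
        max_le (by linarith) (min_le_right _ _)
      linarith
    have h1 := R_tol G hw hL' δ0 e0 e1' hS1 (by rw [← hi]; exact hS3)
    have h2 : 2 * d * max 0 (min u (i / 2)) ≤ 61 / 100 * (d * cκ (dn q.1)) := by
      have h3 : max 0 (min u (i / 2)) ≤ 28 / 103 * cκ (dn q.1) := by linarith
      have h4 : d * max 0 (min u (i / 2)) ≤ d * (28 / 103 * cκ (dn q.1)) :=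
        mul_le_mul_of_nonneg_left h3 d0
      linarith
    have h5 : max i (i / 3) = i := max_eq_left (by linarith)
    rw [← hi] at h1 g1 g2 g5
    rw [h5] at g2
    linarith
  · have h1 := R2_tol G hw hL' δ0 e0 e1'
    have h5 : max i (i / 3) = i / 3 := max_eq_right (by linarith)
    have h6 : max 0 (min u (i / 2)) = 0 :=
      max_eq_left ((min_le_right _ _).trans (by linarith))
    rw [← hi] at h1 g1 g2 g5
    rw [h5] at g2
    rw [h6] at g5
    linarith

end Crest.Agent.R017.RSQ702
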