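import Crest.Agent.R017.SPj0_968
import Crest.Agent.R017.TNj_90

/-!
# Row 17, R8 (helper968): `jbc_vn`, joint numbers of a sequence from its pointwise numbers
-/

set_option autoImplicit false

noncomputable section

namespace Crest.Agent.R017.SPj968

open Crest.Agent.R012 Crest.Agent.R012.Eis
open Crest.Agent.R012.LS2 (S mem_S)
open Crest.Agent.R017.E1551 (Adm nmpos nm_ge_one)
open Crest.Agent.R017.TEM792 (VN)
open Crest.Agent.R017.TNj90 (JBc)

/-- **joint numbers from pointwise numbers** : `F` of slope at most `3` in the step -/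
theorem jbc_vn {R : ℝ} (hR : 0 ≤ R) {X H K Y W p : ℝ} {M : ℕ} {α : Eis → ℂ} {F : ℝ → ℝ → ℝ}
    (hX : 3 ≤ X) (hH : 1 ≤ H) (hY : 1 ≤ Y) (hYY : Y * Y ≤ X ^ K) (hYW : Y * W ≤ X ^ K)
    (hF : ∀ v γ σ : ℝ, 0 ≤ v → 0 ≤ γ → 0 ≤ σ → F v γ ≤ F v (γ + σ) + 3 * σ)
    (hV : VN X H M K α F) (hA : Adm Y (Real.exp p) R α) :
    JBc Y W (800 * Real.exp (R / 2) * H ^ M) (3 * (M : ℝ)) (fun δ b l => Real.log X *
      F ((l + b) / Real.log X) ((δ + b) / Real.log X) + min b (max 0 (p - δ))) α := by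
  intro d hd B V hB hBY hV1 hVW t
  have hY0 : 0 ≤ Y := by linarith
  have hB0 : 0 < B := by linarith
  obtain ⟨d1, d2, d3⟩ := (mem_S hY0).1 hd
  have hd1 : (1 : ℝ) ≤ nm d := nm_ge_one d2.ne_zero
  have h1 : V * (nm d : ℝ) ^ 2 ≤ W := (le_div_iff₀ (by positivity)).1 hVW
  have h2 : V ≤ W := le_trans (le_mul_of_one_le_right (by linarith) (one_le_pow₀ hd1)) h1
  have hBV : V * B ≤ X ^ K := by
    refine le_trans ?_ hYW
    rw [mul_comm Y W]
    exact mul_le_mul h2 hBY hB0.le (by linarith)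
  exact jb_vn hR hX hH hY hYY hF hV hA hd hB hV1 hBV t

end Crest.Agent.R017.SPj968
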