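import Crest.Agent.R017.TER_792
import Crest.Agent.R017.OwA_90

/-!
# Row 17, T-numbers of pure lists at their own family, Cauchy branch with the smallest lump
(helper792)

* `Gq` : the number, `own_gq` : every pure list
* **`vn_gq`**, **`vn_gqX`** : `VN`, classes N and E
-/

set_option autoImplicit false
set_option linter.unusedVariables false
set_option linter.unusedSectionVars false

noncomputable section

open scoped ComplexConjugate

namespace Crest.Agent.R017.TEX792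

open Crest.Agent.R012 Crest.Agent.R012.Eis
open Crest.Agent.R017.FE47 (PU)
open Crest.Agent.R017.Prov71 hiding K0
open Crest.Agent.R017.B770
open Crest.Agent.R017.ER911
open Crest.Agent.R017.HP842 (pc)
open Crest.Agent.R017.E5k54 (alb)
open Crest.Agent.R017.E5B71 (Pt)
open Crest.Agent.R017.TEM792 (VN nL LD)
open Crest.Agent.R017.ExP960 (BdX u3 u3')
open Crest.Agent.R017.E4Df372 (alX)
open Crest.Agent.R017.Red848 (red Exc red_ok)
open Crest.Agent.R017.TM708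
open Crest.Agent.R017.TK708 (AllT)
open Crest.Agent.R017.OwA90
open Crest.Agent.R017.XS0298 (S0K)
open Crest.Agent.R017.PX764 (Dk)

/-- **the number of a pure list** : lumps at most `z`, the smallest one at most `u` -/
def Gq (d z u v n : ℝ) : ℝ :=
  min (max (max (2 * n) (v + n)) (4 / 3 * n + (v + K0 v n z) / 3) + 2 / 3 * d * n)
    (max (v + n + min u (n / 3)) (5 / 3 * n + v / 3))

lemma Gq_mono {d z z' u u' v n : ℝ} (hz : z ≤ z') (hu : u ≤ u') :
    Gq d z u v n ≤ Gq d z' u' v n := by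
  unfold Gq
  have h := K0_mono (le_refl v) (le_refl n) hz
  refine min_le_min ?_ (max_le_max (by linarith [min_le_min_right (n / 3) hu]) le_rfl)
  have : max (max (2 * n) (v + n)) (4 / 3 * n + (v + K0 v n z) / 3) ≤
      max (max (2 * n) (v + n)) (4 / 3 * n + (v + K0 v n z') / 3) :=
    max_le_max le_rfl (by linarith)
  linarith

lemma Gq_slope {d z u v σ n : ℝ} (hσ : 0 ≤ σ) : Gq d z u (v + σ) n ≤ Gq d z u v n + σ := by
  have hK : K0 (v + σ) n z ≤ K0 v n z + 3 / 2 * σ := by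
    have h1 := K0_a v n z
    have h2 := K0_b v n z
    have h3 := K0_c v n z
    have h4 := K0_d v n z
    exact max_le (by linarith) (max_le (by linarith) (max_le (by linarith) (by linarith)))
  unfold Gq
  rw [min_add]
  refine min_le_min ?_ ?_
  · have h1 := le_max_left (max (2 * n) (v + n)) (4 / 3 * n + (v + K0 v n z) / 3)
    have h2 := le_max_right (max (2 * n) (v + n)) (4 / 3 * n + (v + K0 v n z) / 3)
    have h3 := (le_max_left (2 * n) (v + n)).trans h1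
    have h4 := (le_max_right (2 * n) (v + n)).trans h1
    have : max (max (2 * n) (v + σ + n)) (4 / 3 * n + (v + σ + K0 (v + σ) n z) / 3) ≤
        max (max (2 * n) (v + n)) (4 / 3 * n + (v + K0 v n z) / 3) + σ :=
      max_le (max_le (by linarith) (by linarith)) (by linarith)
    linarith
  · have h1 := le_max_left (v + n + min u (n / 3)) (5 / 3 * n + v / 3)
    have h2 := le_max_right (v + n + min u (n / 3)) (5 / 3 * n + v / 3)
    exact max_le (by linarith) (by linarith)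

/-- the largest and the smallest lump -/
def mx3 (q : Fin 4 → ℝ) : ℝ := max (q 1) (max (q 2) (q 3))
def mn3 (q : Fin 4 → ℝ) : ℝ := min (q 1) (min (q 2) (q 3))

lemma Gq_cont (d : ℝ) : Continuous fun q : Fin 4 → ℝ =>
    Gq d (mx3 q) (mn3 q) (q 0) (q 1 + q 2 + q 3) := by
  unfold Gq K0 mx3 mn3
  fun_prop

/-- **every pure list** -/
theorem own_gq {d : ℝ} {s₀ : EF} (hA : AllT d s₀) (hF : FarOwn d s₀) (hS : ShOwn s₀)
    (hN : NearOwn d s₀) (hd : 0 ≤ d) {q : Fin 4 → ℝ} (hq : ∀ i, 0 ≤ q i) :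
    s₀ (q 0) {q 1, q 2, q 3} 0 0 ≤ Gq d (mx3 q) (mn3 q) (q 0) (q 1 + q 2 + q 3) := by
  have h1 := own_gt hA hF hS hN hd (z := mx3 q) (hq 0) (hq 1) (hq 2) (hq 3) (le_max_left _ _)
    ((le_max_left _ _).trans (le_max_right _ _)) ((le_max_right _ _).trans (le_max_right _ _))
  unfold Gq
  refine le_min (h1.trans (min_le_left _ _)) ?_
  have h2 := (hA (q 0) (q 1) (q 2) (q 3) 0 0 (hq 0) (hq 1) (hq 2) (hq 3) le_rfl le_rfl).trans
    (tAll_le_CT3 _ _ _ _ _ _)
  rw [add_zero] at h2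
  unfold tCT3 at h2
  obtain ⟨n, hn⟩ : ∃ n, n = q 1 + q 2 + q 3 := ⟨_, rfl⟩
  rw [← hn]
  have m1 := le_max_left (q 0 + n + min (mn3 q) (n / 3)) (5 / 3 * n + q 0 / 3)
  have m2 := le_max_right (q 0 + n + min (mn3 q) (n / 3)) (5 / 3 * n + q 0 / 3)
  have p1 := hq 1
  have p2 := hq 2
  have p3 := hq 3
  have key : ∀ A B C : ℝ, A + B + C = n → 0 ≤ C → C ≤ mn3 q → C ≤ n / 3 →
      tCT (q 0) A B C 0 ≤ max (q 0 + n + min (mn3 q) (n / 3)) (5 / 3 * n + q 0 / 3) := by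
    intro A B C hs hC hCm hC3
    have : C ≤ min (mn3 q) (n / 3) := le_min hCm hC3
    exact tCT_le (by linarith) (by linarith)
  rcases le_total (q 1) (q 2) with a | a
  · rcases le_total (q 1) (q 3) with b | b
    · refine h2.trans ((min_le_right _ _).trans ((min_le_left _ _).trans
        (key (q 2) (q 3) (q 1) (by linarith) p1 (le_min le_rfl (le_min a b)) (by linarith))))
    · refine h2.trans ((min_le_left _ _).trans
        (key (q 1) (q 2) (q 3) (by linarith) p3 (le_min b (le_min (b.trans a) le_rfl))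
          (by linarith)))
  · rcases le_total (q 2) (q 3) with b | b
    · refine h2.trans ((min_le_right _ _).trans ((min_le_right _ _).trans
        (key (q 3) (q 1) (q 2) (by linarith) p2 (le_min a (le_min le_rfl b)) (by linarith))))
    · refine h2.trans ((min_le_left _ _).trans
        (key (q 1) (q 2) (q 3) (by linarith) p3 (le_min (b.trans a) (le_min b le_rfl))
          (by linarith)))

/-- the real hypothesis -/
lemma rhx_gq {d z u v m : ℝ} {y : Fin 3 → ℝ} (hz : ∀ i, y i ≤ z) (hu : ∃ i, y i ≤ u) :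
    RHx (fun q => Gq d (mx3 q) (mn3 q) (q 0) (q 1 + q 2 + q 3)) y v m
      (Gq d z u v (max 0 m)) := by
  intro x hx hs
  rw [Fin.sum_univ_three] at hs
  show Gq d (mx3 ![v, x 0, x 1, x 2]) (mn3 ![v, x 0, x 1, x 2]) v (x 0 + x 1 + x 2) ≤ _
  rw [hs]
  refine Gq_mono ?_ ?_
  · show max (x 0) (max (x 1) (x 2)) ≤ z
    exact max_le ((hx 0).2.trans (hz 0)) (max_le ((hx 1).2.trans (hz 1)) ((hx 2).2.trans (hz 2)))
  · show min (x 0) (min (x 1) (x 2)) ≤ u
    obtain ⟨i, hi⟩ := hu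
    have h1 : min (x 0) (min (x 1) (x 2)) ≤ x i := by
      fin_cases i
      · exact min_le_left _ _
      · exact (min_le_right _ _).trans (min_le_left _ _)
      · exact (min_le_right _ _).trans (min_le_right _ _)
    exact h1.trans ((hx i).2.trans hi)

variable {Λ : Type*} {π : Λ → DPar} {h : ℝ → ℝ} {d : ℝ}

/-- **`VN` of the twisted three lumps (class N) at the own family** -/
theorem vn_gq {c₀ : ℝ} (hpu : PU h c₀) (hP : ∀ lam, (π lam).OK)
    (hA : AllT d (ex Dq fun lam => S0p (π lam) h)) (hF : FarOwn d (ex Dq fun lam => S0p (π lam) h))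
    (hS : ShOwn (ex Dq fun lam => S0p (π lam) h))
    (hN : NearOwn d (ex Dq fun lam => S0p (π lam) h)) (hd : 0 ≤ d)
    {ε : ℝ} (hε : 0 < ε) (K : ℝ) (hK : 1 ≤ K) (lam : Λ) : ∃ M₀ : ℕ,
      ∀ M : ℕ, M₀ ≤ M → ∀ s : Eis, s ∈ FE47.SM (π lam).n → ∃ X₀ : ℝ, 1 < X₀ ∧ ∀ X : ℝ, X₀ ≤ X →
      ∀ H₀ : ℝ, 1 ≤ H₀ → ∀ (us : Fin 3 → Pq) (β : Fin 3 → Eis), LD X K H₀ us β → ∀ z u : ℝ,
      (∀ i, (us i).z / Real.log X ≤ z) → (∃ i, (us i).z / Real.log X ≤ u) →
      VN X H₀ M K (alb (fun i => pc h (Pt (π lam) s (us i))) β)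
        (fun v γ => Gq d z u v (max 0 (nL X us β - γ)) + ε) := by
  obtain ⟨M₀, G1⟩ := vn_pt hpu hP (Gq_cont d) (fun q hq => own_gq hA hF hS hN hd hq) hε one_pos
    K hK lam
  refine ⟨M₀, fun M hM s hs => ?_⟩
  obtain ⟨X₀, hX₀, G2⟩ := G1 M hM s hs
  refine ⟨X₀, hX₀, fun X hX H₀ hH₀ us β hLD z u hz hu => ?_⟩
  exact G2 X hX H₀ hH₀ us β hLD (fun v γ => Gq d z u v (max 0 (nL X us β - γ)))
    (fun v γ => Gq d z u v (max 0 (nL X us β - γ)))
    (fun v σ γ h0 h1 h2 => Gq_slope h1) fun v γ h1 h2 h3 h4 => rhx_gq hz hu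

/-- **`VN` of `alX` (class E) at the own family** -/
theorem vn_gqX {c₀ : ℝ} (hpu : PU h c₀) (hP : ∀ lam, (π lam).OK) (hE : ∀ lam, Exc (π lam))
    (hA : AllT d (ex Dq fun lam => S0K Dk (red (π lam)) h))
    (hF : FarOwn d (ex Dq fun lam => S0K Dk (red (π lam)) h))
    (hS : ShOwn (ex Dq fun lam => S0K Dk (red (π lam)) h))
    (hN : NearOwn d (ex Dq fun lam => S0K Dk (red (π lam)) h)) (hd : 0 ≤ d)
    {ε : ℝ} (hε : 0 < ε) (K : ℝ) (hK : 1 ≤ K) (lam : Λ) : ∃ M₀ : ℕ,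
      ∀ M : ℕ, M₀ ≤ M → ∀ t : Eis, t ∈ FE47.SM (π lam).n → ∃ X₀ : ℝ, 1 < X₀ ∧ ∀ X : ℝ, X₀ ≤ X →
      ∀ H₀ : ℝ, 1 ≤ H₀ → ∀ (a : BdX) (β : Fin 3 → Eis) (s₀ : ℝ), LDX X K H₀ s₀ a β → ∀ z u : ℝ,
      (∀ i, (u3 a i).z / Real.log X ≤ z) → (∀ i, (u3' a i).z / Real.log X ≤ z) →
      (∃ i, (u3 a i).z / Real.log X ≤ u) → (∃ i, (u3' a i).z / Real.log X ≤ u) →
      VN X H₀ M K (alX (π lam) h t a β) (fun v γ => max
        (Gq d z u v (max 0 (nL X (u3 a) β - γ)))
        (2 / 3 * v + 5 / 3 * (nL X (u3 a) β - γ) - max 0 (s₀ - γ)) + ε) := by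
  obtain ⟨M₀, G1⟩ := vn_ptX hpu hP hE (Gq_cont d) (fun q hq => own_gq hA hF hS hN hd hq) hε
    one_pos K hK lam
  refine ⟨M₀, fun M hM t ht => ?_⟩
  obtain ⟨X₀, hX₀, G2⟩ := G1 M hM t ht
  refine ⟨X₀, hX₀, fun X hX H₀ hH₀ a β s₀ hLD z u hz hz' hu hu' => ?_⟩
  exact G2 X hX H₀ hH₀ a β s₀ hLD (fun v γ => Gq d z u v (max 0 (nL X (u3 a) β - γ)))
    (fun v γ => Gq d z u v (max 0 (nL X (u3 a) β - γ)))
    (fun v σ γ h0 h1 h2 => Gq_slope h1) fun v γ h1 h2 h3 h4 => ⟨rhx_gq hz hu, rhx_gq hz' hu'⟩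

end Crest.Agent.R017.TEX792
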