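import Crest.Agent.R017.TSc_968

/-!
# Row 17, R8 (helper968): moments of the structured function, class N, one frame

* `sinN` : second and fourth moment of one level at `k₁ m³`, `k ≤ N + 3 τ₀`
-/

set_option autoImplicit false

noncomputable section

open Finset

namespace Crest.Agent.R017.TSc968

open Crest.Agent.R012 Crest.Agent.R012.Eis
open Crest.Agent.R017.XT71 (Sys Win mx le_mx)
open Crest.Agent.R017.CM106 (CS FS)
open Crest.Agent.R017.C70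
open Crest.Agent.R017.HP842 (Pc pc)
open Crest.Agent.R017.Prov71
open Crest.Agent.R017.B770
open Crest.Agent.R017.FE47 (PU cx SM)
open Crest.Agent.R017.ER911
open Crest.Agent.R017.End699 (prin0)
open Crest.Agent.R017.E1551 (Adm)
open Crest.Agent.R017.E2440 (TE StE)
open Crest.Agent.R017.E5k54 (PT alb)
open Crest.Agent.R017.SSb54 (PTb mem_PTb SST)
open Crest.Agent.R017.TEM792 (VN LD Xn Xn_pos)
open Crest.Agent.R017.TEX792 (vn_pt adm_f3 RHx)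
open Crest.Agent.R017.TM708
open Crest.Agent.R017.E5B71
open Crest.Agent.R017.E5L770
open Crest.Agent.R017.E4U164
open Crest.Agent.R017.TU47 (FrT kf KS)
open Crest.Agent.R017.TSr968 (Ff Fc line2 line4)
open Crest.Agent.R017.TM968 (qd)
open Crest.Agent.R017.TMv968 (nm1 rpow_log_div)
open Crest.Agent.R017.TMw968 (q4)
open Crest.Agent.R017.TSa968
open Crest.Agent.R017.TSb968

variable {Λ : Type*} {π : Λ → DPar} {h : ℝ → ℝ}

theorem exists_Rh {c : ℝ} (hpu : PU h c) : ∃ R : ℝ, 0 ≤ R ∧ ∀ u : ℝ, cx h u ≠ 0 → |u| ≤ R := by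
  obtain ⟨R, hR⟩ := hpu.cs.isCompact.isBounded.subset_closedBall (0 : ℝ)
  refine ⟨max R 0, le_max_right _ _, fun u hu => ?_⟩
  have h1 : h u ≠ 0 := fun h0 => hu (by unfold FE47.cx; rw [h0]; simp)
  have h2 := hR (subset_tsupport h (Function.mem_support.2 h1))
  rw [Metric.mem_closedBall, dist_zero_right, Real.norm_eq_abs] at h2
  exact h2.trans (le_max_left _ _)

lemma norm_omL (i : ℕ) (x : Eis × Eis) : ‖omL i x‖ ≤ 1 := by
  unfold E5L770.omL E5L770.wL FE47.hD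
  rw [Complex.norm_real, Real.norm_eq_abs, abs_le]
  have h1 := HBI146.cutR_nonneg (Real.exp (lv x - Real.log 2 * i))
  have h2 := HBI146.cutR_le_one (Real.exp (lv x - Real.log 2 * i))
  have h3 := HBI146.cutR_nonneg (2 * Real.exp (lv x - Real.log 2 * i))
  have h4 := HBI146.cutR_le_one (2 * Real.exp (lv x - Real.log 2 * i))
  constructor <;> linarith

/-- the three lumps -/
def us3 (a : Bd) : Fin 3 → Pq := ![a.us 2, a.us 3, a.us 4]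

lemma sum_us3 (a : Bd) : ∑ i, (us3 a i).z = a3 a := sum_a3 a

/-- actual values -/
structure Ac (δ L : ℝ) (a : Bd × ℕ) (q : (Option (Fin 3 ⊕ Fin 5) → ℝ) × (Kd → ℝ)) : Prop where
  κ : |a.1.l / L - cκ (dn q.1)| ≤ δ
  x : |a.1.z / L - cx' (dn q.1)| ≤ δ
  u : ∀ i : Fin 5, |(a.1.us i).z / L - cu (dn q.1) i| ≤ δ
  v : |Real.log 2 * (a.2 : ℝ) / L - q.1 none| ≤ δ

lemma ac_of {A d δ δ' B X : ℝ} {N : ℕ} {a : Bd × ℕ}
    {q : (Option (Fin 3 ⊕ Fin 5) → ℝ) × (Kd → ℝ)} (H : FrT A d δ δ' B X N a q) :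
    Ac δ (Real.log X) a q where
  κ := H.win.ev (some (.inl 0))
  x := H.win.ev (some (.inl 1))
  u i := H.win.ev (some (.inr i))
  v := H.win.ev none

lemma Ac.a3 {δ L : ℝ} {a : Bd × ℕ} {q : (Option (Fin 3 ⊕ Fin 5) → ℝ) × (Kd → ℝ)}
    (H : Ac δ L a q) : |a3 a.1 / L - cN (dn q.1)| ≤ 3 * δ := by
  have h2 := abs_le.1 (H.u 2)
  have h3 := abs_le.1 (H.u 3)
  have h4 := abs_le.1 (H.u 4)
  have e : E5L770.a3 a.1 / L = (a.1.us 2).z / L + (a.1.us 3).z / L + (a.1.us 4).z / L := by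
    unfold E5L770.a3; ring
  rw [e]
  unfold cN
  rw [abs_le]
  constructor <;> linarith [h2.1, h2.2, h3.1, h3.2, h4.1, h4.2]

/-- the classes of one level -/
lemma J3_le {Jf : ℝ → ℝ → ℝ → Finset (Eis × Eis)} (hJf : ∀ l N z, OKJ (Jf l N z)) {a : Bd} {i : ℕ}
    {x : Eis × Eis} (hx : x ∈ J3 Jf a i) :
    (nm (x.2 * x.1 ^ 2) : ℝ) ≤ 2 ^ (i + 1) ∧ (2 : ℝ) ^ (i + 1) ≤ 4 * nm (x.2 * x.1 ^ 2) := by
  obtain ⟨h1, h2⟩ := mem_Jv.1 hx
  have hp := (hJf _ _ _).prim x h1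
  have hj := (hJf _ _ _).jc x h1
  have hj0 : x.2 ≠ 0 := (E5b54.JC_cf hj).1
  have h0 : x.2 * x.1 ^ 2 ≠ 0 := mul_ne_zero hj0 (pow_ne_zero 2 hp.ne_zero)
  have hn : (0 : ℝ) < nm (x.2 * x.1 ^ 2) := by exact_mod_cast nm_pos.2 h0
  obtain ⟨h3, h4⟩ := abs_le.1 h2
  have hl2 : 0 < Real.log 2 := Real.log_pos (by norm_num)
  have e1 : Real.log ((2 : ℝ) ^ (i + 1)) = Real.log 2 * (i : ℝ) + Real.log 2 := by
    rw [Real.log_pow]; push_cast; ring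
  have e2 : Real.log (4 * (nm (x.2 * x.1 ^ 2) : ℝ)) = 2 * Real.log 2 + lv x := by
    rw [Real.log_mul (by norm_num) hn.ne']
    have : (4 : ℝ) = 2 ^ 2 := by norm_num
    rw [this, Real.log_pow]; rfl
  constructor
  · rw [← Real.log_le_log_iff hn (by positivity), e1]
    show lv x ≤ _
    linarith
  · rw [← Real.log_le_log_iff (by positivity) (by positivity), e1, e2]
    linarith

/-! ### sizes -/

/-- the actual numbers -/
structure Nu (κ x N : ℝ) : Prop where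
  κ0 : 1 / 2 ≤ κ
  κ1 : κ ≤ 2
  N0 : 1 / 2 ≤ N
  N1 : N ≤ 1
  x1 : x ≤ 1
  c : N + x - κ / 2 ≤ N / 2

lemma nu_of {q : (Option (Fin 3 ⊕ Fin 5) → ℝ) × (Kd → ℝ)} (f : Fq q) {δ κ x N : ℝ}
    (hδ1 : δ ≤ 1 / 20000) (aκ : |κ - cκ (dn q.1)| ≤ δ) (ax : |x - cx' (dn q.1)| ≤ δ)
    (aN : |N - cN (dn q.1)| ≤ 3 * δ) : Nu κ x N := by
  obtain ⟨g1, g2, g3, g4, g5, g6, g7, g8, g9, g10, g11, -⟩ := f
  obtain ⟨k1, k2⟩ := abs_le.1 aκ
  obtain ⟨x1, x2⟩ := abs_le.1 ax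
  obtain ⟨n1, n2⟩ := abs_le.1 aN
  have hx : cx' (dn q.1) ≤ 1 / 36 * cκ (dn q.1) ∧ cN (dn q.1) + cx' (dn q.1) ≤ 84 / 103 * cκ (dn q.1) := by
    rcases g10 with h0 | h0
    · rw [h0]; constructor <;> linarith only [g1, g8]
    · obtain ⟨h1, -, h2⟩ := h0
      exact ⟨h1, by linarith only [h2, g1]⟩
  obtain ⟨h1, h2⟩ := hx
  exact ⟨by linarith only [k1, g1, hδ1], by linarith only [k2, g2, hδ1],
    by linarith only [n1, g7, g1, hδ1], by linarith only [n2, g8, g2, hδ1],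
    by linarith only [x2, h1, g2, hδ1], by linarith only [n2, x2, k1, h1, h2, g1, hδ1, n1]⟩

lemma fc_of {q : (Option (Fin 3 ⊕ Fin 5) → ℝ) × (Kd → ℝ)} (f : Fq q)
    (hvt : q.1 none ≤ 3 / 4 * cN (dn q.1)) {δ τ₀ κ z N c v k x b : ℝ} (hδ0 : 0 < δ)
    (hδ1 : δ ≤ 1 / 20000) (hn : Nu κ z N) (aN : |N - cN (dn q.1)| ≤ 3 * δ) (hτ0 : 1 / 384 ≤ τ₀)
    (hτ1 : τ₀ ≤ 7 / 50) (c0 : 0 ≤ c) (c1 : c ≤ N + z - κ / 2) (x0 : 0 ≤ x) (xv : 2 * x ≤ v)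
    (b0 : 0 ≤ b) (b1 : b ≤ 1 / 64 + 10 * δ) (hv2 : v ≤ q.1 none + 2 * δ)
    (hk : k ≤ cN (dn q.1) + 3 * τ₀ + δ) :
    Fc N c v k x b (5 / 4 * N + 10 * δ) (10 * δ) (τ₀ + 30 * δ) := by
  have g1 := f.κ0
  have g7 := f.N0
  obtain ⟨n1, n2⟩ := abs_le.1 aN
  have hc := hn.c
  exact ⟨c0, by linarith only [c1, hc], x0, xv, b0, b1, by linarith only [hv2, hvt, n1, hδ0],
    le_rfl, by linarith only [n1, g1, g7, hδ0], by linarith only [hk, n1, hδ0],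
    by linarith only [hδ0], by linarith only [hτ0], by linarith only [hτ1, hδ1],
    by linarith only [hδ1]⟩

lemma fc_len {N c v k x b K1 η τ : ℝ} (H : Fc N c v k x b K1 η τ) : 0 ≤ N - c - b - x := by
  obtain ⟨c0, c1, x0, xv, b0, b1, v1, -, N0, -, η0, -, -, η1⟩ := H
  linarith only [c0, c1, x0, xv, b0, b1, v1, N0, η0, η1]

lemma exp_X {X : ℝ} (hX : 1 < X) (y : ℝ) : Real.exp (y * Real.log X) = X ^ y := by
  rw [Real.rpow_def_of_pos (by linarith), mul_comm]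

lemma PT_mem {ι : Type*} [Fintype ι] {Y : ℕ} {β : ι → Eis} (h : β ∈ PT ι Y) (i : ι) :
    IsPrim (β i) ∧ nm (β i) ≤ Y := by
  classical
  unfold E5k54.PT at h
  rw [Finset.mem_filter, Fintype.mem_piFinset] at h
  obtain ⟨h2, h3⟩ := mem_primBall.1 (h.1 i)
  exact ⟨h3, h2⟩

lemma Y3_bd {X : ℝ} (hX : 1 < X) {a : Bd} {r N δ K : ℝ} (e : a3 a = N * Real.log X)
    (hN0 : 1 / 2 ≤ N) (hN1 : N ≤ 1) (hδ1 : δ ≤ 1 / 20000) (hr : |r| ≤ δ * Real.log X)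
    (hK : 10 ≤ K) : 1 ≤ Y3 a r ∧ (Y3 a r : ℝ) ≤ X ^ K := by
  have hL : 0 < Real.log X := Real.log_pos hX
  obtain ⟨r1, r2⟩ := abs_le.1 hr
  have h1 : 1 / 2 * Real.log X ≤ N * Real.log X := mul_le_mul_of_nonneg_right hN0 hL.le
  have h2 : δ * Real.log X ≤ 1 / 20000 * Real.log X := mul_le_mul_of_nonneg_right hδ1 hL.le
  have h3 : N * Real.log X ≤ 1 * Real.log X := mul_le_mul_of_nonneg_right hN1 hL.le
  have h4 : 10 * Real.log X ≤ K * Real.log X := mul_le_mul_of_nonneg_right hK hL.le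
  constructor
  · refine Nat.le_floor ?_
    rw [Nat.cast_one]
    exact Real.one_le_exp (by rw [e]; linarith only [r1, h1, h2, hL])
  · calc (Y3 a r : ℝ) ≤ Real.exp (a3 a + r) := Nat.floor_le (Real.exp_pos _).le
      _ ≤ Real.exp (K * Real.log X) := Real.exp_le_exp.2 (by
          rw [e]; linarith only [r2, h2, h3, h4, hL])
      _ = X ^ K := exp_X hX K

/-- the cube-free parts -/
lemma KS_mem {n m : Eis} {l R : ℝ} {k : Eis}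
    (hk : k ∈ KS n (Real.exp (l - R)) (Real.exp (l + R)) m) :
    k ∈ primBall ⌊Real.exp (l + R) / (nm m : ℝ) ^ 3⌋₊ ∧ CbF k ∧
      Real.exp (l + R) / (nm m : ℝ) ^ 3 ≤ Real.exp (2 * R) * nm k := by
  classical
  unfold TU47.KS at hk
  obtain ⟨h1, h2, h3, h4⟩ := Finset.mem_filter.1 hk
  refine ⟨h1, h2, ?_⟩
  have e : Real.exp (l + R) / (nm m : ℝ) ^ 3 =
      Real.exp (2 * R) * (Real.exp (l - R) / (nm m : ℝ) ^ 3) := by
    rw [← mul_div_assoc, ← Real.exp_add]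
    congr 2
    ring
  rw [e]
  exact mul_le_mul_of_nonneg_left h4 (Real.exp_pos _).le

lemma Kk_bd {X : ℝ} (hX : 1 < X) {l R κ δ K : ℝ} {m : Eis} (e : l = κ * Real.log X)
    (hR : R ≤ δ * Real.log X) (hκ : κ ≤ 2) (hδ1 : δ ≤ 1 / 20000) (hK : 10 ≤ K)
    (hm : IsPrim m) (hmX : (nm m : ℝ) ^ 3 ≤ Real.exp (l + R)) :
    1 ≤ Real.exp (l + R) / (nm m : ℝ) ^ 3 ∧ Real.exp (l + R) / (nm m : ℝ) ^ 3 ≤ X ^ K ∧
      (nm m : ℝ) ≤ X ^ K ∧
      Real.log (Real.exp (l + R) / (nm m : ℝ) ^ 3) / Real.log X = kf l R X m := by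
  have hL : 0 < Real.log X := Real.log_pos hX
  have hm1 : (1 : ℝ) ≤ nm m := by exact_mod_cast nm_pos.2 hm.ne_zero
  have hm0 : (0 : ℝ) < nm m := by linarith only [hm1]
  have h0 : Real.exp (l + R) ≤ X ^ K := by
    rw [← exp_X hX]
    refine Real.exp_le_exp.2 ?_
    have h1 : κ * Real.log X ≤ 2 * Real.log X := mul_le_mul_of_nonneg_right hκ hL.le
    have h2 : δ * Real.log X ≤ 1 / 20000 * Real.log X := mul_le_mul_of_nonneg_right hδ1 hL.le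
    have h4 : 10 * Real.log X ≤ K * Real.log X := mul_le_mul_of_nonneg_right hK hL.le
    rw [e]
    linarith only [h1, h2, h4, hR, hL]
  refine ⟨?_, ?_, ?_, ?_⟩
  · rw [le_div_iff₀ (by positivity), one_mul]; exact hmX
  · exact (div_le_self (Real.exp_pos _).le (one_le_pow₀ hm1)).trans h0
  · exact ((le_self_pow₀ hm1 (by norm_num)).trans hmX).trans h0
  · unfold TU47.kf
    rw [Real.log_div (Real.exp_pos _).ne' (by positivity), Real.log_exp, Real.log_pow]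
    push_cast
    rfl

lemma us3_mem (a : Bd) (i : Fin 3) : ∃ j : Fin 5, us3 a i = a.us j := by
  fin_cases i
  · exact ⟨2, rfl⟩
  · exact ⟨3, rfl⟩
  · exact ⟨4, rfl⟩

/-- the data of the three lumps -/
lemma LD_of {A d δ δ' B X K : ℝ} {N : ℕ} {a : Bd × ℕ} {K' : ℝ}
    {q : (Option (Fin 3 ⊕ Fin 5) → ℝ) × (Kd → ℝ)} (hX : 1 < X) (H : FrT A d δ δ' B X N a q)
    (hBK : B ≤ K') (hK1 : 1 ≤ K') {N' : ℝ} (hN : ∑ i, (us3 a.1 i).z = N' * Real.log X)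
    (hN1 : N' ≤ 1) {β : Fin 3 → Eis} (hβ : ∀ i, IsPrim (β i)) (hβX : ∀ i, (nm (β i) : ℝ) ≤ X ^ K)
    (hKK : K ≤ K') : LD X K' (X ^ δ') (us3 a.1) β := by
  have hL : 0 < Real.log X := Real.log_pos hX
  have hs1 := H.win.s₁
  have hs2 := H.win.s₂
  refine ⟨fun i => ?_, fun i => ?_, fun i => ?_, fun i => ?_, fun i => ?_, hβ,
    fun i => (hβX i).trans (Real.rpow_le_rpow_of_exponent_le hX.le hKK)⟩
  · obtain ⟨j, e⟩ := us3_mem a.1 i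
    rw [e]; exact (H.ok.1 j).1
  · obtain ⟨j, e⟩ := us3_mem a.1 i
    rw [e]; exact (H.ok.1 j).2
  · have h0 : ∀ i, 0 ≤ (us3 a.1 i).z := fun i => by
      obtain ⟨j, e⟩ := us3_mem a.1 i
      rw [e]; exact (H.ok.1 j).2
    have h1 : (us3 a.1 i).z ≤ ∑ i, (us3 a.1 i).z :=
      Finset.single_le_sum (fun i _ => h0 i) (Finset.mem_univ i)
    rw [hN] at h1
    exact h1.trans (mul_le_mul_of_nonneg_right (hN1.trans hK1) hL.le)
  · obtain ⟨j, e⟩ := us3_mem a.1 i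
    have h1 : Dq.s2 (a.1.us j) ≤ mx Dq.s2 (List.ofFn a.1.us) :=
      le_mx (List.mem_ofFn.2 ⟨j, rfl⟩)
    have h2 : (nm (a.1.us j).d : ℝ) ≤ X ^ B := h1.trans ((le_max_right _ _).trans hs2)
    rw [e]
    exact h2.trans (Real.rpow_le_rpow_of_exponent_le hX.le hBK)
  · obtain ⟨j, e⟩ := us3_mem a.1 i
    have h1 : Dq.s1 (a.1.us j) ≤ mx Dq.s1 (List.ofFn a.1.us) :=
      le_mx (List.mem_ofFn.2 ⟨j, rfl⟩)
    rw [e]
    exact h1.trans ((le_max_right _ _).trans hs1)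

/-- the real hypothesis of helper792's `vn_pt` -/
lemma rhx {q : (Option (Fin 3 ⊕ Fin 5) → ℝ) × (Kd → ℝ)} (f : Fq q) {δ L d N' n v γ : ℝ}
    {a : Bd × ℕ} (hd : 0 ≤ d) (hδ0 : 0 < δ) (hAc : Ac δ L a q)
    (aN : |N' - cN (dn q.1)| ≤ 3 * δ) (hN0 : 0 ≤ N') (hn : n ≤ N') (hγ : 0 ≤ γ) :
    RHx (G4 d) (fun i => (us3 a.1 i).z / L) v (n - γ)
      (Ff (5 / 4 * N' + 10 * δ) (2 / 3 * d * N') v (max 0 (n - γ))) := by
  intro z hz hzs
  have hn' : max 0 (n - γ) ≤ N' := max_le hN0 (by linarith only [hn, hγ])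
  rw [Fin.sum_univ_three] at hzs
  show OwA90.Gt d v (z 0 + z 1 + z 2) (max (z 0) (max (z 1) (z 2))) ≤ _
  rw [hzs]
  obtain ⟨n1, n2⟩ := abs_le.1 aN
  have g4 := f.u3
  have g5 := f.u2
  have g6 := f.y
  have g7 := f.N0
  have g1 := f.κ0
  obtain ⟨-, b2⟩ := abs_le.1 (hAc.u 2)
  obtain ⟨-, b3⟩ := abs_le.1 (hAc.u 3)
  obtain ⟨-, b4⟩ := abs_le.1 (hAc.u 4)
  have y0 : (us3 a.1 0).z / L ≤ cu (dn q.1) 2 + δ := by
    show (a.1.us 2).z / L ≤ _; linarith only [b2]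
  have y1 : (us3 a.1 1).z / L ≤ cu (dn q.1) 2 + δ := by
    show (a.1.us 3).z / L ≤ _; linarith only [b3, g5]
  have y2 : (us3 a.1 2).z / L ≤ cu (dn q.1) 2 + δ := by
    show (a.1.us 4).z / L ≤ _; linarith only [b4, g4, g5]
  have hz0 := (hz 0).2.trans y0
  have hz1 := (hz 1).2.trans y1
  have hz2 := (hz 2).2.trans y2
  refine Gt_le_Ff ?_ ?_ ?_
  · linarith only [hn', hδ0]
  · have : max (z 0) (max (z 1) (z 2)) ≤ cu (dn q.1) 2 + δ := max_le hz0 (max_le hz1 hz2)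
    linarith only [this, g6, g7, n1, hδ0, g1]
  · exact mul_le_mul_of_nonneg_left hn' (by positivity)

/-- the end, second moment -/
lemma end2 {X : ℝ} (hX : 1 < X) {N' v' k' E ε₁ p HM W S : ℝ} (h0 : 0 ≤ p)
    (hp : p ≤ X ^ ε₁) (hW0 : W = X ^ ε₁) (hH : HM ≤ X ^ ε₁) (hS0 : 0 ≤ S)
    (h : S ≤ W ^ 2 * (HM * (X ^ (E + ε₁) * X ^ (-(N' + v') / 3) * X ^ (-k' / 3)))) :
    p ^ 2 * S ≤ X ^ (6 * ε₁ + E - (N' + v' + k') / 3) := by
  have hX0 : 0 < X := by linarith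
  have hP : 0 ≤ X ^ (E + ε₁) * X ^ (-(N' + v') / 3) * X ^ (-k' / 3) := by positivity
  subst hW0
  calc p ^ 2 * S ≤ (X ^ ε₁) ^ 2 * ((X ^ ε₁) ^ 2 * (X ^ ε₁ * (X ^ (E + ε₁) *
        X ^ (-(N' + v') / 3) * X ^ (-k' / 3)))) := by
        refine mul_le_mul (pow_le_pow_left₀ h0 hp 2) (h.trans ?_) hS0 (by positivity)
        exact mul_le_mul_of_nonneg_left (mul_le_mul_of_nonneg_right hH hP) (by positivity)
    _ = X ^ (6 * ε₁ + E - (N' + v' + k') / 3) := by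
        rw [← Real.rpow_natCast, ← Real.rpow_mul hX0.le, ← Real.rpow_add hX0,
          ← Real.rpow_add hX0, ← Real.rpow_add hX0, ← Real.rpow_add hX0, ← Real.rpow_add hX0]
        congr 1
        push_cast
        ring

/-- the end, fourth moment -/
lemma end4 {X : ℝ} (hX : 1 < X) {N' v' k' E ε₁ p HM W S : ℝ} (h0 : 0 ≤ p)
    (hp : p ≤ X ^ ε₁) (hW0 : W = X ^ ε₁) (hH0 : 0 ≤ HM) (hH : HM ≤ X ^ ε₁) (hS0 : 0 ≤ S)
    (h : S ≤ W ^ 4 * (HM * (X ^ (E + ε₁) * X ^ (-(N' + v') / 3) * X ^ (-k' / 3))) ^ 2) :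
    p ^ 4 * S ≤ X ^ (12 * ε₁ + 2 * (E - (N' + v' + k') / 3)) := by
  have hX0 : 0 < X := by linarith
  have hP : 0 ≤ X ^ (E + ε₁) * X ^ (-(N' + v') / 3) * X ^ (-k' / 3) := by positivity
  subst hW0
  calc p ^ 4 * S ≤ (X ^ ε₁) ^ 4 * ((X ^ ε₁) ^ 4 * (X ^ ε₁ * (X ^ (E + ε₁) *
        X ^ (-(N' + v') / 3) * X ^ (-k' / 3))) ^ 2) := by
        refine mul_le_mul (pow_le_pow_left₀ h0 hp 4) (h.trans ?_) hS0 (by positivity)
        exact mul_le_mul_of_nonneg_left (pow_le_pow_left₀ (mul_nonneg hH0 hP)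
          (mul_le_mul_of_nonneg_right hH hP) 2) (by positivity)
    _ = X ^ (12 * ε₁ + 2 * (E - (N' + v' + k') / 3)) := by
        rw [← Real.rpow_add hX0, ← Real.rpow_add hX0, ← Real.rpow_add hX0]
        rw [← Real.rpow_natCast, ← Real.rpow_natCast, ← Real.rpow_mul hX0.le,
          ← Real.rpow_mul hX0.le, ← Real.rpow_add hX0, ← Real.rpow_add hX0]
        congr 1
        push_cast
        ring

set_option maxHeartbeats 1000000 in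
/-- **moments of one level of the structured function, class N** -/
theorem sinN {c₁ : ℝ} (hpu : PU h c₁) (hP : ∀ lam, (π lam).OK) {A d : ℝ} (hd : 0 ≤ d)
    (hd1 : d ≤ 1 / 8) (hA1 : 16 * (1 - A) ≤ d)
    (hown : Own (ex Dq fun lam => S0p (π lam) h) d)
    (htop : ∀ q ∈ SqL A d, q.1 none ≤ 3 / 4 * cN (dn q.1)) {e0 : ℝ} (he0 : 0 ≤ e0)
    (he1 : e0 ≤ 1 / 64) (r : ℝ) {Bf : ℝ → ℝ → ℝ → ℝ} (hBf : ∀ l N z, Bf l N z ≤ N + z - l / 2)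
    {Jf : ℝ → ℝ → ℝ → Finset (Eis × Eis)} (hJf : ∀ l N z, OKJ (Jf l N z)) {τ₀ : ℝ}
    (hτ0 : 1 / 384 ≤ τ₀) (hτ1 : τ₀ ≤ 7 / 50) :
    ∀ R : Λ → ℝ, (∀ lam, 0 ≤ R lam) → ∀ ε : ℝ, 0 < ε → ∃ δ : ℝ, 0 < δ ∧
    ∀ (lam : Λ × Eis) (N : ℕ) (B : ℝ), ∃ δ' : ℝ, 0 < δ' ∧ ∃ X₀ : ℝ, 1 < X₀ ∧
    ∀ X : ℝ, X₀ ≤ X → ∀ (a : Bd × ℕ) (q : (Option (Fin 3 ⊕ Fin 5) → ℝ) × (Kd → ℝ)),
      FrT A d δ δ' B X N a q → lam.2 ∈ SM (π lam.1).n →
      ∀ m : Eis, IsPrim m → (nm m : ℝ) ^ 3 ≤ Real.exp (a.1.l + R lam.1) →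
      kf a.1.l (R lam.1) X m ≤ cN (dn q.1) + 3 * τ₀ + δ →
      (∑ k ∈ KS (π lam.1).n (Real.exp (a.1.l - R lam.1)) (Real.exp (a.1.l + R lam.1)) m,
          ‖(SfV π h e0 r Bf Jf a.2).at lam a.1 (k * m ^ 3)‖ ^ 2 ≤
        X ^ (m2 d (q.1 none) (cN (dn q.1)) (kf a.1.l (R lam.1) X m) + τ₀ + ε)) ∧
      (∑ k ∈ KS (π lam.1).n (Real.exp (a.1.l - R lam.1)) (Real.exp (a.1.l + R lam.1)) m,
          ‖(SfV π h e0 r Bf Jf a.2).at lam a.1 (k * m ^ 3)‖ ^ 4 ≤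
        X ^ (m4 d (q.1 none) (cN (dn q.1)) (kf a.1.l (R lam.1) X m) + 2 * τ₀ + ε)) := by
  classical
  intro R hR ε hε
  obtain ⟨Rh, hRh0, hRh⟩ := exists_Rh hpu
  obtain ⟨ε₁, hε₁⟩ : ∃ ε₁ : ℝ, ε₁ = ε / 400 := ⟨_, rfl⟩
  have hε₁0 : 0 < ε₁ := by rw [hε₁]; positivity
  obtain ⟨δ, hδ⟩ : ∃ δ : ℝ, δ = min ε₁ (1 / 20000) := ⟨_, rfl⟩
  have hδ0 : 0 < δ := by rw [hδ]; exact lt_min hε₁0 (by norm_num)
  have hδε : δ ≤ ε₁ := hδ.le.trans (min_le_left _ _)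
  have hδ1 : δ ≤ 1 / 20000 := hδ.le.trans (min_le_right _ _)
  refine ⟨δ, hδ0, fun lam N B => ?_⟩
  by_cases hs : lam.2 ∈ SM (π lam.1).n
  swap
  · exact ⟨1, one_pos, 2, by norm_num, fun X _ a q _ h => absurd h hs⟩
  obtain ⟨K, hK⟩ : ∃ K : ℝ, K = |B| + 10 := ⟨_, rfl⟩
  have hK10 : 10 ≤ K := by have := abs_nonneg B; linarith only [this, hK]
  have hBK : B ≤ K := by have := le_abs_self B; linarith only [this, hK]
  obtain ⟨M, HV⟩ := vn_pt hpu hP (G4_cont d)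
    (fun q hq => hown _ _ _ _ (hq 0) (hq 1) (hq 2) (hq 3)) hε₁0 one_pos (2 * K)
    (by linarith only [hK10]) lam.1
  obtain ⟨X₁, hX₁, H1⟩ := HV M le_rfl lam.2 hs
  obtain ⟨X₂, hX₂, H2⟩ := mom2 (ι := Fin 3) (6 * Rh) (by linarith only [hRh0]) hε₁0 K
    (by linarith only [hK10]) M (c₀ := 4) (by norm_num) (2 * R lam.1) (by linarith only [hR lam.1])
  obtain ⟨X₃, hX₃, H3⟩ := mom4 (ι := Fin 3) (6 * Rh) (by linarith only [hRh0]) hε₁0 K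
    (by linarith only [hK10]) M (c₀ := 4) (by norm_num) (2 * R lam.1) (by linarith only [hR lam.1])
  obtain ⟨X₄, hX₄, H4⟩ := sum_wt (Fin 3) hε₁0 K (by linarith only [hK10])
  obtain ⟨Cp, hCp⟩ : ∃ Cp : ℝ, Cp = 1 + ‖(pC : ℂ)‖ := ⟨_, rfl⟩
  have hCp1 : 1 ≤ Cp := by have := norm_nonneg (pC : ℂ); linarith only [this, hCp]
  obtain ⟨L₀, hL₀⟩ : ∃ L₀ : ℝ, L₀ = (Real.log 2 + R lam.1 + |r| + Real.log Cp + 1) / δ := ⟨_, rfl⟩
  obtain ⟨δ', hδ'⟩ : ∃ δ' : ℝ, δ' = ε₁ / (M + 1) := ⟨_, rfl⟩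
  have hM0 : (0 : ℝ) ≤ M := Nat.cast_nonneg _
  have hδ'0 : 0 < δ' := by rw [hδ']; positivity
  have hδ'M : δ' * M ≤ ε₁ := by
    rw [hδ', div_mul_eq_mul_div, div_le_iff₀ (by positivity)]
    nlinarith only [hε₁0, hM0]
  refine ⟨δ', hδ'0, max (max X₁ X₂) (max (max X₃ X₄) (Real.exp L₀)),
    lt_max_of_lt_left (lt_max_of_lt_left hX₁), ?_⟩
  intro X hX a q hF hsm m hm hmX hkN
  have hXX₁ : X₁ ≤ X := ((le_max_left _ _).trans (le_max_left _ _)).trans hX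
  have hXX₂ : X₂ ≤ X := ((le_max_right _ _).trans (le_max_left _ _)).trans hX
  have hXX₃ : X₃ ≤ X := (((le_max_left _ _).trans (le_max_left _ _)).trans
    (le_max_right _ _)).trans hX
  have hXX₄ : X₄ ≤ X := (((le_max_right _ _).trans (le_max_left _ _)).trans
    (le_max_right _ _)).trans hX
  have hXe : Real.exp L₀ ≤ X := ((le_max_right _ _).trans (le_max_right _ _)).trans hX
  clear hX
  have hX1 : 1 < X := lt_of_lt_of_le hX₁ hXX₁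
  have hX0 : 0 < X := by linarith only [hX1]
  obtain ⟨L, hL⟩ : ∃ L : ℝ, L = Real.log X := ⟨_, rfl⟩
  have hL0 : 0 < L := by rw [hL]; exact Real.log_pos hX1
  have hLL : L₀ ≤ L := by rw [hL]; exact (Real.le_log_iff_exp_le hX0).2 hXe
  have hl2 : 0 < Real.log 2 := Real.log_pos (by norm_num)
  have hRl := hR lam.1
  have hlC : 0 ≤ Real.log Cp := Real.log_nonneg hCp1
  have hr0 := abs_nonneg r
  have hsum : Real.log 2 + R lam.1 + |r| + Real.log Cp + 1 ≤ δ * L := by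
    rw [hL₀, div_le_iff₀ hδ0] at hLL
    linarith only [hLL]
  have hlog2 : Real.log 2 / L ≤ δ := by
    rw [div_le_iff₀ hL0]; linarith only [hsum, hRl, hr0, hlC]
  have hRL : R lam.1 ≤ δ * L := by linarith only [hsum, hl2, hr0, hlC]
  have hrL : |r| ≤ δ * L := by linarith only [hsum, hl2, hRl, hlC]
  have hCL : Real.log Cp ≤ δ * L := by linarith only [hsum, hl2, hRl, hr0]
  clear hsum hLL hXe hL₀
  -- the domain
  have f := fct hd hd1 hA1 hF.dom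
  have hAc : Ac δ L a q := by rw [hL]; exact ac_of hF
  have hvt := htop q hF.dom
  obtain ⟨κ', hκ'⟩ : ∃ κ' : ℝ, κ' = a.1.l / L := ⟨_, rfl⟩
  obtain ⟨x', hx'⟩ : ∃ x' : ℝ, x' = a.1.z / L := ⟨_, rfl⟩
  obtain ⟨N', hN'⟩ : ∃ N' : ℝ, N' = a3 a.1 / L := ⟨_, rfl⟩
  have aN : |N' - cN (dn q.1)| ≤ 3 * δ := by rw [hN']; exact hAc.a3
  have hn : Nu κ' x' N' := nu_of f hδ1 (by rw [hκ']; exact hAc.κ) (by rw [hx']; exact hAc.x) aN
  have eκ : a.1.l = κ' * L := by rw [hκ']; field_simp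
  have eN : a3 a.1 = N' * L := by rw [hN']; field_simp
  have ez : a.1.z = x' * L := by rw [hx']; field_simp
  have hN'0 : 0 ≤ N' := by linarith only [hn.N0]
  have hl0 : 0 ≤ a.1.l := by
    rw [eκ]; exact mul_nonneg (by linarith only [hn.κ0]) hL0.le
  -- sizes
  have hNt : ∑ i, (us3 a.1 i).z = N' * L := by rw [sum_us3, eN]
  obtain ⟨V, hV⟩ : ∃ V : ℝ, V = 2 ^ (a.2 + 1) := ⟨_, rfl⟩
  have hV1 : 1 ≤ V := by rw [hV]; exact one_le_pow₀ (by norm_num)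
  have hV0 : 0 < V := by linarith only [hV1]
  obtain ⟨v', hv'⟩ : ∃ v' : ℝ, v' = Real.log V / L := ⟨_, rfl⟩
  have ev' : v' = Real.log 2 * (a.2 : ℝ) / L + Real.log 2 / L := by
    rw [hv', hV, Real.log_pow]; push_cast; ring
  have av := abs_le.1 hAc.v
  have hl2L : 0 < Real.log 2 / L := by positivity
  have hv1 : q.1 none - δ ≤ v' := by linarith only [av.1, ev', hl2L]
  have hv2 : v' ≤ q.1 none + 2 * δ := by linarith only [av.2, ev', hlog2]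
  have hv0 : 0 ≤ v' := by
    rw [hv']; exact div_nonneg (Real.log_nonneg hV1) hL0.le
  have f1 := f.κ1
  have f2 := f.N1
  have hv3 : v' ≤ 1 := by linarith only [hv2, hvt, f1, f2, hδ1]
  obtain ⟨hKk1, hKkX, hmXK, ek⟩ := Kk_bd hX1 (l := a.1.l) (R := R lam.1) (κ := κ') (δ := δ) (K := K)
    (by rw [← hL]; exact eκ) (by rw [← hL]; exact hRL) hn.κ1 hδ1 hK10 hm hmX
  rw [← hL] at ek
  obtain ⟨Kk, hKk⟩ : ∃ Kk : ℝ, Kk = Real.exp (a.1.l + R lam.1) / (nm m : ℝ) ^ 3 := ⟨_, rfl⟩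
  rw [← hKk] at hKk1 hKkX ek
  have hKk0 : 0 < Kk := by linarith only [hKk1]
  obtain ⟨k', hk'⟩ : ∃ k' : ℝ, k' = kf a.1.l (R lam.1) X m := ⟨_, rfl⟩
  rw [← hk'] at ek hkN ⊢
  have hVX : V ≤ X ^ K := by
    rw [← rpow_log_div hX1 hV0, ← hL, ← hv']
    exact Real.rpow_le_rpow_of_exponent_le hX1.le (by linarith only [hv3, hK10])
  obtain ⟨E0, hE0⟩ : ∃ E0 : ℝ, E0 = Real.exp (e0 * a.1.l) := ⟨_, rfl⟩
  have hek : e0 * κ' ≤ 1 / 64 * κ' :=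
    mul_le_mul_of_nonneg_right he1 (by linarith only [hn.κ0])
  have hE01 : 1 ≤ E0 := by rw [hE0]; exact Real.one_le_exp (mul_nonneg he0 hl0)
  have hE0X : E0 ≤ X ^ K := by
    rw [hE0, eκ, ← mul_assoc, hL, exp_X hX1]
    exact Real.rpow_le_rpow_of_exponent_le hX1.le (by linarith only [hek, hn.κ1, hK10])
  have hE0b : Real.log E0 / L ≤ 1 / 64 + 10 * δ := by
    rw [hE0, Real.log_exp, mul_div_assoc, ← hκ']
    have h1 := (abs_le.1 hAc.κ).2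
    rw [← hκ'] at h1
    linarith only [hek, h1, f1, hδ0]
  -- the tuples
  obtain ⟨T, hT⟩ : ∃ T : Finset (Fin 3 → Eis), T = T3 Bf a.1 r := ⟨_, rfl⟩
  obtain ⟨hY1, hYX⟩ := Y3_bd hX1 (a := a.1) (r := r) (N := N') (δ := δ) (K := K)
    (by rw [← hL]; exact eN) hn.N0 hn.N1 hδ1 (by rw [← hL]; exact hrL) hK10
  have hTsub : T ⊆ PT (Fin 3) (Y3 a.1 r) := fun β hβ => by
    rw [hT] at hβ
    exact (mem_PTb.1 hβ).1
  have hTp : ∀ β ∈ T, ∀ i, IsPrim (β i) := fun β hβ i => (PT_mem (hTsub hβ) i).1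
  have hTX : ∀ β ∈ T, ∀ i, (nm (β i) : ℝ) ≤ X ^ K := fun β hβ i => by
    have h1 := (PT_mem (hTsub hβ) i).2
    exact (by exact_mod_cast h1 : (nm (β i) : ℝ) ≤ (Y3 a.1 r : ℝ)).trans hYX
  have hT0 : ∀ β ∈ T, ∏ i, β i ≠ 0 := fun β hβ =>
    Finset.prod_ne_zero_iff.2 fun i _ => (hTp β hβ i).ne_zero
  have hTc0 : ∀ β ∈ T, 0 ≤ Real.log (nm (∏ i, β i)) / L := fun β hβ =>
    div_nonneg (Real.log_nonneg (nm1 (hT0 β hβ))) hL0.le
  have hTc : ∀ β ∈ T, Real.log (nm (∏ i, β i)) / L ≤ N' + x' - κ' / 2 := by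
    intro β hβ
    have h2 := nm1 (hT0 β hβ)
    rw [hT] at hβ
    have h1 := (mem_PTb.1 hβ).2
    rw [div_le_iff₀ hL0]
    have h3 : Real.log (nm (∏ i, β i)) ≤ Bf a.1.l (a3 a.1) a.1.z := by
      rw [Real.log_le_iff_le_exp (by linarith only [h2])]; exact h1
    have h4 := hBf a.1.l (a3 a.1) a.1.z
    have h5 : a3 a.1 + a.1.z - a.1.l / 2 = (N' + x' - κ' / 2) * L := by
      rw [eN, ez, eκ]; ring
    linarith only [h3, h4, h5]
  have hW := H4 X hXX₄ _ hY1 hYX T hTsub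
  -- heights
  have hH1 : 1 ≤ X ^ δ' := Real.one_le_rpow hX1.le hδ'0.le
  have hHM : (X ^ δ') ^ M ≤ X ^ ε₁ := by
    rw [← Real.rpow_natCast, ← Real.rpow_mul hX0.le]
    exact Real.rpow_le_rpow_of_exponent_le hX1.le hδ'M
  have hLD : ∀ β ∈ T, LD X (2 * K) (X ^ δ') (us3 a.1) β := fun β hβ =>
    LD_of (K := K) hX1 hF (by linarith only [hBK, hK10]) (by linarith only [hK10])
      (by rw [← hL]; exact hNt) hn.N1 (hTp β hβ) (hTX β hβ) (by linarith only [hK10])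
  -- the own number
  obtain ⟨al, hal⟩ : ∃ al : (Fin 3 → Eis) → Eis → ℂ, al = alb (f3 (π lam.1) h lam.2 a.1) :=
    ⟨_, rfl⟩
  obtain ⟨F, hFF⟩ : ∃ F : (Fin 3 → Eis) → ℝ → ℝ → ℝ, F = fun β v γ =>
    Ff (5 / 4 * N' + 10 * δ) (2 / 3 * d * N') v (max 0 (TEM792.nL X (us3 a.1) β - γ)) + ε₁ :=
    ⟨_, rfl⟩
  have hnLe : ∀ β, TEM792.nL X (us3 a.1) β = N' - Real.log (nm (∏ i, β i)) / L := by
    intro β
    unfold TEM792.nL
    rw [hNt, ← hL, sub_div, mul_div_cancel_right₀ _ hL0.ne']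
  have hVN : ∀ β ∈ T, VN X (X ^ δ') M (2 * K) (al β) (F β) := by
    intro β hβ
    rw [hal, hFF]
    refine H1 X hXX₁ (X ^ δ') hH1 (us3 a.1) β (hLD β hβ)
      (fun v γ => Ff (5 / 4 * N' + 10 * δ) (2 / 3 * d * N') v
        (max 0 (TEM792.nL X (us3 a.1) β - γ)))
      (fun v γ => Ff (5 / 4 * N' + 10 * δ) (2 / 3 * d * N') v
        (max 0 (TEM792.nL X (us3 a.1) β - γ)))
      (fun v σ γ _ h1 _ => Ff_slope h1) ?_
    intro v γ _ _ h3 _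
    rw [← hL]
    exact rhx f hd hδ0 hAc aN hN'0 (by rw [hnLe β]; linarith only [hTc0 β hβ]) h3
  have hAdm : ∀ β ∈ T, Adm (Xn (us3 a.1) β * Real.exp (3 * Rh))
      (Real.exp (N' * L) / nm (∏ i, β i)) (6 * Rh) (al β) := by
    intro β hβ
    rw [hal, ← hNt]
    exact adm_f3 hRh0 hRh (π lam.1) lam.2 (us3 a.1) (hTp β hβ)
  have hYw : ∀ β ∈ T, 0 ≤ Xn (us3 a.1) β * Real.exp (3 * Rh) := fun β hβ =>
    mul_nonneg (Xn_pos (us3 a.1) (hTp β hβ)).le (Real.exp_pos _).le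
  -- the classes
  obtain ⟨J, hJ⟩ : ∃ J : Finset (Eis × Eis), J = J3 Jf a.1 a.2 := ⟨_, rfl⟩
  have hJo : OKJ J := by rw [hJ]; exact okJ3 hJf a.1 a.2
  have hJV : ∀ x ∈ J, (nm (x.2 * x.1 ^ 2) : ℝ) ≤ V := fun x hx => by
    rw [hJ] at hx
    rw [hV]
    exact (J3_le hJf hx).1
  have hJl : ∀ x ∈ J, omL a.2 x ≠ 0 → V ≤ 4 * nm (x.2 * x.1 ^ 2) := fun x hx _ => by
    rw [hJ] at hx
    rw [hV]
    exact (J3_le hJf hx).2
  -- the cube-free parts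
  obtain ⟨Ak, hAk⟩ : ∃ Ak : Finset Eis,
    Ak = KS (π lam.1).n (Real.exp (a.1.l - R lam.1)) (Real.exp (a.1.l + R lam.1)) m := ⟨_, rfl⟩
  have hAs : ∀ k ∈ Ak, k ∈ primBall ⌊Kk⌋₊ ∧ CbF k ∧ Kk ≤ Real.exp (2 * R lam.1) * nm k := by
    intro k hk
    rw [hAk] at hk
    rw [hKk]
    exact KS_mem hk
  have hAsub : Ak ⊆ (primBall ⌊Kk⌋₊).filter CbF := fun k hk =>
    Finset.mem_filter.2 ⟨(hAs k hk).1, (hAs k hk).2.1⟩
  -- the real line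
  have hFc : ∀ β ∈ T, ∀ x b : ℝ, 0 ≤ x → 2 * x ≤ v' → 0 ≤ b → b ≤ Real.log E0 / L →
      Fc N' (Real.log (nm (∏ i, β i)) / L) v' k' x b (5 / 4 * N' + 10 * δ) (10 * δ)
        (τ₀ + 30 * δ) := fun β hβ x b hx hxv hb hb1 =>
    fc_of f hvt hδ0 hδ1 hn aN hτ0 hτ1 (hTc0 β hβ) (hTc β hβ) hx hxv hb (hb1.trans hE0b) hv2 hkN
  have hnn : ∀ β ∈ T, ∀ x b : ℝ, Fc N' (Real.log (nm (∏ i, β i)) / L) v' k' x b
      (5 / 4 * N' + 10 * δ) (10 * δ) (τ₀ + 30 * δ) →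
      F β (v' + b - 2 * x) (b + x) =
        Ff (5 / 4 * N' + 10 * δ) (2 / 3 * d * N') (v' + b - 2 * x)
          (N' - Real.log (nm (∏ i, β i)) / L - b - x) + ε₁ := by
    intro β _ x b hc
    have e : max 0 (TEM792.nL X (us3 a.1) β - (b + x)) =
        N' - Real.log (nm (∏ i, β i)) / L - b - x := by
      rw [hnLe β, max_eq_right (by linarith only [fc_len hc])]
      ring
    rw [hFF]
    show Ff _ _ (v' + b - 2 * x) (max 0 (TEM792.nL X (us3 a.1) β - (b + x))) + ε₁ = _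
    rw [e]
  -- the exponents
  have eNV : (Real.exp (N' * L) * V) ^ (-(1 / 3) : ℝ) = X ^ (-(N' + v') / 3) := by
    rw [hL, exp_X hX1, ← rpow_log_div hX1 hV0, ← hL, ← hv', ← Real.rpow_add hX0,
      ← Real.rpow_mul hX0.le]
    congr 1
    ring
  have eKk : Kk ^ (-(1 / 3) : ℝ) = X ^ (-k' / 3) := by
    rw [← rpow_log_div hX1 hKk0, ← hL, ek, ← Real.rpow_mul hX0.le]
    congr 1
    ring
  have hpC : ‖(pC : ℂ)‖ ≤ X ^ ε₁ := by
    have h1 : ‖(pC : ℂ)‖ ≤ Cp := by linarith only [hCp]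
    refine h1.trans ?_
    rw [← rpow_log_div hX1 (by linarith only [hCp1] : (0 : ℝ) < Cp), ← hL]
    refine Real.rpow_le_rpow_of_exponent_le hX1.le ?_
    rw [div_le_iff₀ hL0]
    exact hCL.trans (mul_le_mul_of_nonneg_right hδε hL0.le)
  have hat : ∀ k, ‖(SfV π h e0 r Bf Jf a.2).at lam a.1 k‖ =
      ‖(pC : ℂ)‖ * ‖SA T al E0 J (omL a.2) k‖ := by
    intro k
    rw [at_SfV, norm_mul, hT, hal, hE0, hJ]
    rfl
  have hℓ0 : 0 ≤ 2 / 3 * d * N' := by positivity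
  have n1 : cN (dn q.1) - 3 * δ ≤ N' := by linarith only [(abs_le.1 aN).1]
  have n2 : N' ≤ cN (dn q.1) + 3 * δ := by linarith only [(abs_le.1 aN).2]
  rw [← hAk]
  refine ⟨?_, ?_⟩
  · obtain ⟨E, hE⟩ : ∃ E : ℝ, E = 2 * N' + 2 / 3 * d * N' + (τ₀ + 30 * δ) +
      max k' (max v' (2 / 3 * (k' + v'))) + ε₁ := ⟨_, rfl⟩
    have h1 := H2 X hXX₂ (X ^ δ') hH1 T al F (N' * L)
      (fun β => Xn (us3 a.1) β * Real.exp (3 * Rh)) (X ^ ε₁) hT0 hW hYw hAdm hVN Kk V E0 hKk1 hKkX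
      hV1 hVX hE01 hE0X J (omL a.2) hJo hJV hJl (norm_omL a.2) m hm hmXK Ak hAsub
      (fun k hk => (hAs k hk).2.2) E (fun β hβ x b hx hxv hb hb1 => by
        rw [← hL] at hxv hb1 ⊢
        rw [← hv'] at hxv ⊢
        have hc := hFc β hβ x b hx hxv hb hb1
        have h2 := line2 hc hℓ0
        rw [hnn β hβ x b hc, ek, hE]
        linarith only [h2])
    rw [eNV, eKk] at h1
    have h2 := end2 hX1 (norm_nonneg _) hpC rfl hHM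
      (Finset.sum_nonneg fun _ _ => by positivity) h1
    have h4 := fin2 (k := k') (τ := τ₀) hd hd1 hδ0.le hv1 hv2 n1 n2
    calc ∑ k ∈ Ak, ‖(SfV π h e0 r Bf Jf a.2).at lam a.1 (k * m ^ 3)‖ ^ 2
        = ‖(pC : ℂ)‖ ^ 2 * ∑ k ∈ Ak, ‖SA T al E0 J (omL a.2) (k * m ^ 3)‖ ^ 2 := by
          rw [Finset.mul_sum]
          refine Finset.sum_congr rfl fun k _ => ?_
          rw [hat, mul_pow]
      _ ≤ _ := h2
      _ ≤ _ := Real.rpow_le_rpow_of_exponent_le hX1.le (by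
          rw [hE]
          linarith only [h4, hδε, hε₁, hε])
  · obtain ⟨E, hE⟩ : ∃ E : ℝ, E = 2 * N' + 2 / 3 * d * N' + (τ₀ + 30 * δ) +
      max (k' + 2 / 3 * v') (max (2 * v') (2 / 3 * (k' + 2 * v'))) / 2 + ε₁ := ⟨_, rfl⟩
    have h1 := H3 X hXX₃ (X ^ δ') hH1 T al F (N' * L)
      (fun β => Xn (us3 a.1) β * Real.exp (3 * Rh)) (X ^ ε₁) hT0 hW hYw hAdm hVN Kk V E0 hKk1 hKkX
      hV1 hVX hE01 hE0X J (omL a.2) hJo hJV hJl (norm_omL a.2) m hm hmXK Ak hAsub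
      (fun k hk => (hAs k hk).2.2) E (fun β hβ x b hx hxv hb hb1 => by
        rw [← hL] at hxv hb1 ⊢
        rw [← hv'] at hxv ⊢
        have hc := hFc β hβ x b hx hxv hb hb1
        have h2 := line4 hc hℓ0
        rw [hnn β hβ x b hc, ek, hE]
        linarith only [h2])
    rw [eNV, eKk] at h1
    have h2 := end4 hX1 (norm_nonneg _) hpC rfl (by positivity) hHM
      (Finset.sum_nonneg fun _ _ => by positivity) h1
    have h4 := fin4 (k := k') (τ := τ₀) hd hd1 hδ0.le hv1 hv2 n1 n2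
    calc ∑ k ∈ Ak, ‖(SfV π h e0 r Bf Jf a.2).at lam a.1 (k * m ^ 3)‖ ^ 4
        = ‖(pC : ℂ)‖ ^ 4 * ∑ k ∈ Ak, ‖SA T al E0 J (omL a.2) (k * m ^ 3)‖ ^ 4 := by
          rw [Finset.mul_sum]
          refine Finset.sum_congr rfl fun k _ => ?_
          rw [hat, mul_pow]
      _ ≤ _ := h2
      _ ≤ _ := Real.rpow_le_rpow_of_exponent_le hX1.le (by
          rw [hE]
          linarith only [h4, hδε, hε₁, hε])

end Crest.Agent.R017.TSc968
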