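import Crest.Agent.R017.SPa_521
import Crest.Agent.R017.SPb_521
import Crest.Agent.R017.TSd_968
import Crest.Agent.R017.TEU_792
import Crest.Agent.R017.RSQ_702
import Crest.Agent.R017.SPj_968

/-!
# Row 17, R8: `SPIn'`, class N (helper521)

* `one_of` : the second moment of one tuple
* **`spin`** : `SPIn'` of one level of the structured function, every cut
-/

set_option autoImplicit false
set_option linter.unusedVariables false

noncomputable section

open Finset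
open scoped ComplexConjugate ContDiff

namespace Crest.Agent.R017.SP521

open Crest.Agent.R012 Crest.Agent.R012.Eis
open Crest.Agent.R012.LS2 (S mem_S bl)
open Crest.Agent.R017.XT71 (Sys Win mx le_mx)
open Crest.Agent.R017.CM106 (CS FS)
open Crest.Agent.R017.C70
open Crest.Agent.R017.HB645 (hh)
open Crest.Agent.R017.HP842 (Pc pc)
open Crest.Agent.R017.Prov71
open Crest.Agent.R017.B770
open Crest.Agent.R017.FE47 (PU cx SM)
open Crest.Agent.R017.ER911
open Crest.Agent.R017.E1551 (Adm nmpos)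
open Crest.Agent.R017.E2440 (TE StE)
open Crest.Agent.R017.E3Z548 (FH FH_nonneg)
open Crest.Agent.R017.E3Kc548 (LI mem_LI)
open Crest.Agent.R017.E3Hf290 (RN2F)
open Crest.Agent.R017.Mode405 (Slp)
open Crest.Agent.R017.PX764 (n6)
open Crest.Agent.R017.R3571 (RMm)
open Crest.Agent.R017.E5k54 (PT alb)
open Crest.Agent.R017.SSb54 (PTb mem_PTb)
open Crest.Agent.R017.TEM792 (VN LD Xn Xn_pos)
open Crest.Agent.R017.TEX792 (adm_f3 vn_gq Gq)
open Crest.Agent.R017.E5B71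
open Crest.Agent.R017.E5L770
open Crest.Agent.R017.Sf770 (JS)
open Crest.Agent.R017.TU47 (FrT kf KS ESP SInC SPIn')
open Crest.Agent.R017.TMv968 (nm1 rpow_log_div)
open Crest.Agent.R017.TSa968 (wt)
open Crest.Agent.R017.TSc968 (exists_Rh norm_omL us3 sum_us3 Ac ac_of Nu nu_of Y3_bd KS_mem Kk_bd
  LD_of exp_X fct Fq PT_mem)
open Crest.Agent.R017.ET490 (lw0 lw1 LnT gram_all)
open Crest.Agent.R017.OwA90 (FarOwn ShOwn NearOwn K0)
open Crest.Agent.R017.P1Q904 (gQ)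
open Crest.Agent.R017.RXn770 (RCl rh_alb g3)
open Crest.Agent.R017.RSP702 (hS Hq)
open Crest.Agent.R017.RSQ702 (Nr c0_ac c1_ac S_ac R_ac V_ac)
open Crest.Agent.R017.SPj968 (jbc_vn)

variable {Λ : Type*} {π : Λ → DPar} {h : ℝ → ℝ}

lemma Gq_mono_v {d z u v v' n : ℝ} (hv : v ≤ v') : Gq d z u v n ≤ Gq d z u v' n := by
  have hK : K0 v n z ≤ K0 v' n z := by
    unfold OwA90.K0
    exact max_le_max le_rfl (max_le_max (by linarith) (max_le_max (by linarith) le_rfl))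
  unfold TEX792.Gq
  refine min_le_min ?_ (max_le_max (by linarith) (by linarith))
  have := max_le_max (max_le_max (le_refl (2 * n)) (show v + n ≤ v' + n by linarith))
    (show 4 / 3 * n + (v + K0 v n z) / 3 ≤ 4 / 3 * n + (v' + K0 v' n z) / 3 by linarith)
  linarith

lemma Gq_len {d z u v n s : ℝ} (hd : 0 ≤ d) (hd1 : d ≤ 1 / 8) (hs : 0 ≤ s) :
    Gq d z u v (n + s) ≤ Gq d z u v n + 3 * s := by
  have hK : K0 v (n + s) z ≤ K0 v n z + 5 / 4 * s := by
    unfold OwA90.K0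
    have h1 := le_max_left (5 / 4 * n) (max (v + n / 2) (max (3 / 2 * v) (200 / 61 * z)))
    have h2 := (le_max_left (v + n / 2) (max (3 / 2 * v) (200 / 61 * z))).trans
      (le_max_right (5 / 4 * n) _)
    have h3 := ((le_max_left (3 / 2 * v) (200 / 61 * z)).trans (le_max_right (v + n / 2) _)).trans
      (le_max_right (5 / 4 * n) _)
    have h4 := ((le_max_right (3 / 2 * v) (200 / 61 * z)).trans
      (le_max_right (v + n / 2) _)).trans (le_max_right (5 / 4 * n) _)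
    exact max_le (by linarith) (max_le (by linarith) (max_le (by linarith) (by linarith)))
  have hds : 2 / 3 * d * (n + s) ≤ 2 / 3 * d * n + 1 / 12 * s := by nlinarith
  unfold TEX792.Gq
  rw [min_add]
  refine min_le_min ?_ ?_
  · have h1 := le_max_left (max (2 * n) (v + n)) (4 / 3 * n + (v + K0 v n z) / 3)
    have h2 := le_max_right (max (2 * n) (v + n)) (4 / 3 * n + (v + K0 v n z) / 3)
    have h3 := (le_max_left (2 * n) (v + n)).trans h1
    have h4 := (le_max_right (2 * n) (v + n)).trans h1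
    have : max (max (2 * (n + s)) (v + (n + s))) (4 / 3 * (n + s) + (v + K0 v (n + s) z) / 3) ≤
        max (max (2 * n) (v + n)) (4 / 3 * n + (v + K0 v n z) / 3) + 2 * s :=
      max_le (max_le (by linarith) (by linarith)) (by linarith)
    linarith
  · have h1 := le_max_left (v + n + min u (n / 3)) (5 / 3 * n + v / 3)
    have h2 := le_max_right (v + n + min u (n / 3)) (5 / 3 * n + v / 3)
    have h3 : min u ((n + s) / 3) ≤ min u (n / 3) + s / 3 := by
      rw [← min_add_add_right]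
      exact min_le_min (by linarith) (by linarith)
    exact max_le (by linarith) (by linarith)

/-- the number of the claims -/
def F0 (d z u p ε₁ v γ : ℝ) : ℝ := Gq d z u v (max 0 (p - γ)) + ε₁

lemma F0_mono {d z u p ε₁ v v' γ : ℝ} (hv : v ≤ v') : F0 d z u p ε₁ v γ ≤ F0 d z u p ε₁ v' γ := by
  unfold F0
  linarith [Gq_mono_v (d := d) (z := z) (u := u) (n := max 0 (p - γ)) hv]

lemma F0_slope {d z u p ε₁ v g s : ℝ} (hd : 0 ≤ d) (hd1 : d ≤ 1 / 8) (hs : 0 ≤ s) :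
    F0 d z u p ε₁ v g ≤ F0 d z u p ε₁ v (g + s) + 3 * s := by
  unfold F0
  obtain ⟨y, hy⟩ : ∃ y, y = max 0 (p - (g + s)) := ⟨_, rfl⟩
  have hy0 : 0 ≤ y := by rw [hy]; exact le_max_left _ _
  have hyp : p - (g + s) ≤ y := by rw [hy]; exact le_max_right _ _
  rw [← hy]
  rcases le_total (max 0 (p - g)) y with h1 | h1
  · have h2 : y ≤ max 0 (p - g) := by
      rw [hy]
      exact max_le_max le_rfl (by linarith)
    rw [le_antisymm h1 h2]
    linarith
  · have h3 : max 0 (p - g) - y ≤ s := by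
      have : max 0 (p - g) ≤ y + s := max_le (by linarith) (by linarith)
      linarith
    have h4 := Gq_len (d := d) (z := z) (u := u) (v := v) (n := y)
      (s := max 0 (p - g) - y) hd hd1 (by linarith)
    rw [show y + (max 0 (p - g) - y) = max 0 (p - g) by ring] at h4
    linarith

lemma eGq (d z u v n : ℝ) : RSQ702.Gq d z u v n = Gq d z u v n := rfl

lemma eg3 (d u i : ℝ) : RSQ702.g3 d u i = g3 d u i := rfl

lemma Slp_zero' (a : ℕ) : Slp a (fun _ => (0 : ℝ)) where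
  nonneg := fun _ _ => le_rfl
  low := fun _ _ _ _ => by simp
  dbl := fun _ _ => by simp

set_option maxHeartbeats 4000000 in
/-- **the second moment of one tuple** -/
theorem one_of {c₁ : ℝ} (hpu : PU h c₁) (hP : ∀ lam, (π lam).OK) {A d μ : ℝ} (hd : 0 ≤ d)
    (hd1 : d ≤ 1 / 8) (hA0 : A ≤ 1) (hA1 : 16 * (1 - A) ≤ d) (HR : RCl π h d)
    (hAT : TK708.AllT d (ex Dq fun lam => S0p (π lam) h))
    (hFO : FarOwn d (ex Dq fun lam => S0p (π lam) h))
    (hSO : ShOwn (ex Dq fun lam => S0p (π lam) h))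
    (hNO : NearOwn d (ex Dq fun lam => S0p (π lam) h))
    (hμ : μ ≤ 1 / 450) {e0 : ℝ} (he0 : 0 ≤ e0) (he1 : e0 ≤ 1 / 64) (r : ℝ)
    {Bf : ℝ → ℝ → ℝ → ℝ} (hBf : ∀ l N z, Bf l N z ≤ N + z - l / 2) :
    OneT π h e0 r Bf (fun l N z => JS (nL l N z)) A d
      (fun κ k δ => 7 / 10 * κ ≤ k ∧ k ≤ 17 / 20 * κ + δ)
      fun q k => ESP d μ q (min k (17 / 20 * cκ (dn q.1))) := by
  intro R hR ε hε
  obtain ⟨Rh, hRh0, hRh⟩ := exists_Rh hpu
  obtain ⟨ε₁, hε₁⟩ : ∃ ε₁ : ℝ, ε₁ = ε / 400 := ⟨_, rfl⟩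
  have hε₁0 : 0 < ε₁ := by rw [hε₁]; positivity
  obtain ⟨δ, hδ⟩ : ∃ δ : ℝ, δ = min ε₁ (1 / 20000000) := ⟨_, rfl⟩
  have hδ0 : 0 < δ := by rw [hδ]; exact lt_min hε₁0 (by norm_num)
  have hδε : δ ≤ ε₁ := hδ.le.trans (min_le_left _ _)
  have hδ1 : δ ≤ 1 / 20000000 := hδ.le.trans (min_le_right _ _)
  refine ⟨δ, hδ0, fun lam N B => ?_⟩
  by_cases hs : lam.2 ∈ SM (π lam.1).n
  swap
  · exact ⟨1, one_pos, 2, by norm_num, fun X _ a q _ h => absurd h hs⟩
  obtain ⟨K, hK⟩ : ∃ K : ℝ, K = |B| + 10 := ⟨_, rfl⟩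
  have hK10 : 10 ≤ K := by have := abs_nonneg B; linarith only [this, hK]
  have hBK : B ≤ K := by have := le_abs_self B; linarith only [this, hK]
  have hK0 : 0 < K := by linarith only [hK10]
  have hRl := hR lam.1
  obtain ⟨M, HV⟩ := vn_gq hpu hP hAT hFO hSO hNO hd hε₁0 (4 * K) (by linarith only [hK10]) lam.1
  obtain ⟨X₁, hX₁, H1⟩ := HV M le_rfl lam.2 hs
  obtain ⟨M₂, aS, A₀, haS, HRh⟩ := rh_alb hpu hP hd hd1 HR lam.1 hε₁0 (K := 301 * K)
    (by linarith only [hK10])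
  obtain ⟨X₂, hX₂, H2⟩ := HRh lam.2 hs.1
  obtain ⟨Cj, hCjd⟩ : ∃ Cj : ℝ, Cj = 800 * Real.exp (6 * Rh / 2) := ⟨_, rfl⟩
  have hCj : 1 ≤ Cj := by
    have := Real.one_le_exp (show 0 ≤ 6 * Rh / 2 by positivity)
    linarith only [this, hCjd]
  obtain ⟨Ao, c, C, hc, hC, HG⟩ := gram_all (ρ := Real.exp (-(2 * R lam.1))) (Real.exp_pos _)
    (Real.exp_le_one_iff.2 (by linarith only [hRl])) (R0 := 6 * Rh) (by positivity) aS
    (max A₀ 2) (lt_of_lt_of_le (by norm_num) (le_max_right _ _)) (ε := ε₁ / K)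
    (J := 3 * (M : ℝ)) (B₂ := 2) (Lh := 0) (by positivity) (by positivity) (le_refl 2) le_rfl
  obtain ⟨Mb, hMb1, hMb⟩ := wL_all (Ao + 2)
  obtain ⟨Ct, hCt⟩ : ∃ Ct : ℝ, Ct = C * (1 + Mb) ^ 2 * (Cj + (3 + c)) := ⟨_, rfl⟩
  have hCt1 : 1 ≤ Ct := by
    rw [hCt]
    exact one_le_mul_of_one_le_of_one_le (one_le_mul_of_one_le_of_one_le hC
      (one_le_pow₀ (by linarith only [hMb1]))) (by linarith only [hCj, hc])
  have hc0 : 0 < c := by linarith only [hc]
  have hlc : 0 ≤ Real.log c := Real.log_nonneg hc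
  have hlCt : 0 ≤ Real.log Ct := Real.log_nonneg hCt1
  have hr0 := abs_nonneg r
  obtain ⟨L₀, hL₀⟩ : ∃ L₀ : ℝ, L₀ = (4 + R lam.1 + |r| + Real.log Ct + Real.log c + 3 * Rh) / δ :=
    ⟨_, rfl⟩
  have hM0 : (0 : ℝ) ≤ M := Nat.cast_nonneg _
  have hM20 : (0 : ℝ) ≤ M₂ := Nat.cast_nonneg _
  obtain ⟨δ', hδ'⟩ : ∃ δ' : ℝ, δ' = ε₁ / (M + M₂ + 1) := ⟨_, rfl⟩
  have hδ'0 : 0 < δ' := by rw [hδ']; positivity
  have hδ'M : δ' * M ≤ ε₁ := by
    rw [hδ', div_mul_eq_mul_div, div_le_iff₀ (by positivity)]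
    nlinarith only [hε₁0, hM0, hM20]
  have hδ'M₂ : δ' * M₂ ≤ ε₁ := by
    rw [hδ', div_mul_eq_mul_div, div_le_iff₀ (by positivity)]
    nlinarith only [hε₁0, hM0, hM20]
  refine ⟨δ', hδ'0, max (max X₁ X₂) (max 3 (Real.exp L₀)),
    lt_max_of_lt_left (lt_max_of_lt_left hX₁), ?_⟩
  intro X hX a q hF hsm m hm hmX hkC β hβT
  have hXX₁ : X₁ ≤ X := ((le_max_left _ _).trans (le_max_left _ _)).trans hX
  have hXX₂ : X₂ ≤ X := ((le_max_right _ _).trans (le_max_left _ _)).trans hX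
  have hX3 : 3 ≤ X := ((le_max_left _ _).trans (le_max_right _ _)).trans hX
  have hXe : Real.exp L₀ ≤ X := ((le_max_right _ _).trans (le_max_right _ _)).trans hX
  clear hX
  beta_reduce at hkC ⊢
  have hX1 : 1 < X := lt_of_lt_of_le hX₁ hXX₁
  have hX0 : 0 < X := by linarith only [hX1]
  obtain ⟨L, hL⟩ : ∃ L : ℝ, L = Real.log X := ⟨_, rfl⟩
  have hL0 : 0 < L := by rw [hL]; exact Real.log_pos hX1
  have hLL : L₀ ≤ L := by rw [hL]; exact (Real.le_log_iff_exp_le hX0).2 hXe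
  have hl2 : 0 < Real.log 2 := Real.log_pos (by norm_num)
  have hl2' : Real.log 2 < 1 := by
    have := Real.log_two_lt_d9
    linarith only [this]
  have hsum : 4 + R lam.1 + |r| + Real.log Ct + Real.log c + 3 * Rh ≤ δ * L := by
    rw [hL₀, div_le_iff₀ hδ0] at hLL
    linarith only [hLL]
  have hlog2 : Real.log 2 / L ≤ δ := by
    rw [div_le_iff₀ hL0]; linarith only [hsum, hRl, hr0, hlCt, hlc, hRh0, hl2']
  have hRL : R lam.1 ≤ δ * L := by linarith only [hsum, hr0, hlCt, hlc, hRh0]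
  have hrL : |r| ≤ δ * L := by linarith only [hsum, hRl, hlCt, hlc, hRh0]
  have hCL : Real.log Ct ≤ δ * L := by linarith only [hsum, hRl, hr0, hlc, hRh0]
  have hcL : Real.log c + 4 ≤ δ * L := by linarith only [hsum, hRl, hr0, hlCt, hRh0]
  have hRhL : 3 * Rh ≤ δ * L := by linarith only [hsum, hRl, hr0, hlCt, hlc]
  have h4L : 4 ≤ δ * L := by linarith only [hcL, hlc]
  clear hsum hLL hXe hL₀
  -- the domain
  have f := fct hd hd1 hA1 hF.dom
  have hAc : Ac δ L a q := by rw [hL]; exact ac_of hF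
  obtain ⟨κ, hκ⟩ : ∃ κ : ℝ, κ = cκ (dn q.1) := ⟨_, rfl⟩
  obtain ⟨κ', hκ'⟩ : ∃ κ' : ℝ, κ' = a.1.l / L := ⟨_, rfl⟩
  obtain ⟨x', hx'⟩ : ∃ x' : ℝ, x' = a.1.z / L := ⟨_, rfl⟩
  obtain ⟨N', hN'⟩ : ∃ N' : ℝ, N' = a3 a.1 / L := ⟨_, rfl⟩
  have aN : |N' - cN (dn q.1)| ≤ 3 * δ := by rw [hN']; exact hAc.a3
  have aκ : |κ' - cκ (dn q.1)| ≤ δ := by rw [hκ']; exact hAc.κ
  have ax : |x' - cx' (dn q.1)| ≤ δ := by rw [hx']; exact hAc.x
  have hn : Nu κ' x' N' := nu_of f (by linarith only [hδ1]) aκ ax aN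
  have eκ : a.1.l = κ' * L := by rw [hκ']; field_simp
  have eN : a3 a.1 = N' * L := by rw [hN']; field_simp
  have ez : a.1.z = x' * L := by rw [hx']; field_simp
  have hl0 : 0 ≤ a.1.l := by
    rw [eκ]; exact mul_nonneg (by linarith only [hn.κ0]) hL0.le
  -- the level
  have hNt : ∑ i, (us3 a.1 i).z = N' * L := by rw [sum_us3, eN]
  obtain ⟨V, hV⟩ : ∃ V : ℝ, V = 2 ^ (a.2 + 1) := ⟨_, rfl⟩
  have hV1 : 1 ≤ V := by rw [hV]; exact one_le_pow₀ (by norm_num)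
  have hV0 : 0 < V := by linarith only [hV1]
  obtain ⟨v', hv'⟩ : ∃ v' : ℝ, v' = Real.log V / L := ⟨_, rfl⟩
  have ev' : v' = Real.log 2 * (a.2 : ℝ) / L + Real.log 2 / L := by
    rw [hv', hV, Real.log_pow]; push_cast; ring
  have av := abs_le.1 hAc.v
  have hl2L : 0 < Real.log 2 / L := by positivity
  have hv1 : q.1 none - δ ≤ v' := by linarith only [av.1, ev', hl2L]
  have hv2 : v' ≤ q.1 none + 2 * δ := by linarith only [av.2, ev', hlog2]
  have hv0 : 0 ≤ v' := by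
    rw [hv']; exact div_nonneg (Real.log_nonneg hV1) hL0.le
  obtain ⟨hKk1, hKkX, hmXK, ek⟩ := Kk_bd hX1 (l := a.1.l) (R := R lam.1) (κ := κ') (δ := δ) (K := K)
    (by rw [← hL]; exact eκ) (by rw [← hL]; exact hRL) hn.κ1 (by linarith only [hδ1]) hK10 hm hmX
  rw [← hL] at ek
  obtain ⟨Kk, hKk⟩ : ∃ Kk : ℝ, Kk = Real.exp (a.1.l + R lam.1) / (nm m : ℝ) ^ 3 := ⟨_, rfl⟩
  rw [← hKk] at hKk1 hKkX ek
  have hKk0 : 0 < Kk := by linarith only [hKk1]
  obtain ⟨k', hk'⟩ : ∃ k' : ℝ, k' = kf a.1.l (R lam.1) X m := ⟨_, rfl⟩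
  rw [← hk'] at ek hkC ⊢
  have eKk : Real.exp (L * k') = Kk := by
    rw [← ek, mul_div_cancel₀ _ hL0.ne', Real.exp_log hKk0]
  obtain ⟨E0, hE0⟩ : ∃ E0 : ℝ, E0 = Real.exp (e0 * a.1.l) := ⟨_, rfl⟩
  have hek : e0 * κ' ≤ 1 / 64 * κ' :=
    mul_le_mul_of_nonneg_right he1 (by linarith only [hn.κ0])
  have hE01 : 1 ≤ E0 := by rw [hE0]; exact Real.one_le_exp (mul_nonneg he0 hl0)
  obtain ⟨E', hE'⟩ : ∃ E' : ℝ, E' = e0 * κ' := ⟨_, rfl⟩
  have eE : Real.log E0 = L * E' := by rw [hE0, Real.log_exp, hE', eκ]; ring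
  have hE'0 : 0 ≤ E' := by rw [hE']; exact mul_nonneg he0 (by linarith only [hn.κ0])
  have hE0X : E0 ≤ X ^ K := by
    rw [hE0, eκ, ← mul_assoc, hL, exp_X hX1]
    exact Real.rpow_le_rpow_of_exponent_le hX1.le (by linarith only [hek, hn.κ1, hK10])
  -- the tuple
  have hYβ := Y3_bd hX1 (a := a.1) (r := r) (N := N') (δ := δ) (K := K)
    (by rw [← hL]; exact eN) hn.N0 hn.N1 (by linarith only [hδ1]) (by rw [← hL]; exact hrL) hK10
  have hβ1 := (mem_PTb.1 hβT).1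
  have hβp : ∀ i, IsPrim (β i) := fun i => (PT_mem hβ1 i).1
  have hβX : ∀ i, (nm (β i) : ℝ) ≤ X ^ K := fun i => by
    have h1 := (PT_mem hβ1 i).2
    exact (by exact_mod_cast h1 : (nm (β i) : ℝ) ≤ (E4U164.Y3 a.1 r : ℝ)).trans hYβ.2
  have hβ0 : ∏ i, β i ≠ 0 := Finset.prod_ne_zero_iff.2 fun i _ => (hβp i).ne_zero
  have hnβ := nm1 hβ0
  obtain ⟨β', hβ'⟩ : ∃ β' : ℝ, β' = Real.log (nm (∏ i, β i)) / L := ⟨_, rfl⟩
  have hβ'0 : 0 ≤ β' := by rw [hβ']; exact div_nonneg (Real.log_nonneg hnβ) hL0.le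
  have hβ'1 : β' ≤ N' + x' - κ' / 2 := by
    have h1 := (mem_PTb.1 hβT).2
    rw [hβ', div_le_iff₀ hL0]
    have h3 : Real.log (nm (∏ i, β i)) ≤ Bf a.1.l (a3 a.1) a.1.z := by
      rw [Real.log_le_iff_le_exp (by linarith only [hnβ])]; exact h1
    have h4 := hBf a.1.l (a3 a.1) a.1.z
    have h5 : a3 a.1 + a.1.z - a.1.l / 2 = (N' + x' - κ' / 2) * L := by
      rw [eN, ez, eκ]; ring
    linarith only [h3, h4, h5]
  have eβ : (nm (∏ i, β i) : ℝ) = Real.exp (L * β') := by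
    rw [hβ', mul_div_cancel₀ _ hL0.ne', Real.exp_log (by linarith only [hnβ])]
  obtain ⟨p', hp'⟩ : ∃ p' : ℝ, p' = N' - β' := ⟨_, rfl⟩
  have hp'0 : 0 ≤ p' := by linarith only [hp', hβ'1, hn.c, hn.N0]
  have hp'1 : p' ≤ 1 := by linarith only [hp', hβ'0, hn.N1]
  have eXn : Xn (us3 a.1) β = Real.exp (L * p') := by
    unfold TEM792.Xn
    rw [hNt, eβ, ← Real.exp_sub, hp']
    congr 1
    ring
  have enL : TEM792.nL X (us3 a.1) β = p' := by
    unfold TEM792.nL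
    rw [hNt, ← hL, sub_div, mul_div_cancel_right₀ _ hL0.ne', ← hβ', hp']
  -- the nominal numbers
  obtain ⟨k₀, hk₀⟩ : ∃ k₀ : ℝ, k₀ = min k' (17 / 20 * cκ (dn q.1)) := ⟨_, rfl⟩
  obtain ⟨β₀, hβ₀⟩ : ∃ β₀ : ℝ, β₀ = min β' (cN (dn q.1) + cx' (dn q.1) - cκ (dn q.1) / 2) :=
    ⟨_, rfl⟩
  rw [← hk₀]
  obtain ⟨n1, n2⟩ := abs_le.1 aN
  obtain ⟨x1, x2⟩ := abs_le.1 ax
  obtain ⟨κ1, κ2⟩ := abs_le.1 aκ
  have fκ0 := f.κ0
  have fκ1 := f.κ1
  have fN0 := f.N0
  have fx0 := f.x0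
  have ββ : β' - 5 * δ ≤ β₀ := by
    rw [hβ₀]
    refine le_min (by linarith only [hδ0]) ?_
    linarith only [hβ'1, n2, x2, κ1, hδ0]
  have ββ2 : β₀ ≤ β' := by rw [hβ₀]; exact min_le_left _ _
  have hq : Hq A d q k₀ β₀ := by
    refine ⟨hd, hd1, hA0, hA1, hF.dom, ?_, ?_, ?_, ?_⟩
    · rw [hk₀]
      exact le_min hkC.1 (by linarith only [fκ0])
    · rw [hk₀]; exact min_le_right _ _
    · rw [hβ₀]; exact le_min hβ'0 (by linarith only [fκ0, fN0, fx0])
    · rw [hβ₀]; exact min_le_right _ _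
  have akk : |k' - k₀| ≤ δ := by
    rw [abs_le]
    have h1 : k₀ ≤ k' := by rw [hk₀]; exact min_le_left _ _
    have h2 : k' - δ ≤ k₀ := by
      rw [hk₀]
      exact le_min (by linarith only [hδ0]) (by linarith only [hkC.2])
    constructor <;> linarith only [h1, h2, hδ0]
  have app : |p' - (cN (dn q.1) - β₀)| ≤ 8 * δ := by
    rw [abs_le, hp']
    constructor <;> linarith only [n1, n2, ββ, ββ2, hδ0]
  have hNr : ∀ v'' : ℝ, |v'' - q.1 none| ≤ 10 * δ →
      Nr A d (10 * δ) q k₀ β₀ v'' k' p' E' := fun v'' hv'' => by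
    refine ⟨hq, by linarith only [hδ0], by linarith only [hδ1], hv'',
      akk.trans (by linarith only [hδ0]), app.trans (by linarith only [hδ0]), ?_, hE'0⟩
    rw [hE']
    linarith only [hek, κ2, hδ0]
  have hNv : Nr A d (10 * δ) q k₀ β₀ v' k' p' E' := hNr v' (by
    rw [abs_le]
    constructor <;> linarith only [hv1, hv2, hδ0])
  obtain ⟨hh', hhh⟩ : ∃ hh' : ℝ, hh' = hS d q k₀ β₀ := ⟨_, rfl⟩
  obtain ⟨g₀, hg₀⟩ : ∃ g₀ : ℝ, g₀ = ESP d μ q k₀ - β₀ - κ / 1000 := ⟨_, rfl⟩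
  obtain ⟨Va, Vb, Vc⟩ := V_ac hNv
  have hSv := S_ac hNv
  rw [← hhh] at hSv
  have hk'2 : k' ≤ 1 := by linarith only [hkC.2, fκ1, hδ1]
  have hv'1 : v' ≤ 1 := Vb.trans hk'2
  have hVX : V ≤ X ^ K := by
    rw [← rpow_log_div hX1 hV0, ← hL, ← hv']
    exact Real.rpow_le_rpow_of_exponent_le hX1.le (by linarith only [hv'1, hK10])
  -- the level numbers
  have hLIv : ∀ i ∈ LI (2 ^ a.2 / 4) (2 ^ (a.2 + 1)), |(i : ℝ) / L - q.1 none| ≤ 10 * δ := by
    intro i hi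
    have h1 := LI_win hi
    have h2 : (i : ℝ) / L - q.1 none = ((i : ℝ) - Real.log 2 * a.2) / L +
        (Real.log 2 * (a.2 : ℝ) / L - q.1 none) := by ring
    rw [h2]
    refine (abs_add_le _ _).trans ?_
    have h3 : |((i : ℝ) - Real.log 2 * a.2) / L| ≤ δ := by
      rw [abs_div, abs_of_pos hL0, div_le_iff₀ hL0]
      linarith only [h1, h4L]
    have h4 := hAc.v
    linarith only [h3, h4, hδ0]
  -- heights
  have hH1 : 1 ≤ X ^ δ' := Real.one_le_rpow hX1.le hδ'0.le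
  have hHM : (X ^ δ') ^ M ≤ X ^ ε₁ := by
    rw [← Real.rpow_natCast, ← Real.rpow_mul hX0.le]
    exact Real.rpow_le_rpow_of_exponent_le hX1.le hδ'M
  have hHM₂ : (X ^ δ') ^ M₂ ≤ X ^ ε₁ := by
    rw [← Real.rpow_natCast, ← Real.rpow_mul hX0.le]
    exact Real.rpow_le_rpow_of_exponent_le hX1.le hδ'M₂
  have hLD : LD X (4 * K) (X ^ δ') (us3 a.1) β :=
    LD_of (K := K) hX1 hF (by linarith only [hBK, hK10]) (by linarith only [hK10])
      (by rw [← hL]; exact hNt) hn.N1 hβp hβX (by linarith only [hK10])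
  have hLD₂ : LD X (301 * K) (X ^ δ') (us3 a.1) β :=
    LD_of (K := K) hX1 hF (by linarith only [hBK, hK10]) (by linarith only [hK10])
      (by rw [← hL]; exact hNt) hn.N1 hβp hβX (by linarith only [hK10])
  obtain ⟨al, hal⟩ : ∃ al : Eis → ℂ, al = alt π h lam a.1 β := ⟨_, rfl⟩
  have hal' : al = alb (fun i => pc h (Pt (π lam.1) lam.2 (us3 a.1 i))) β := hal
  -- the lumps
  obtain ⟨-, b2⟩ := abs_le.1 (hAc.u 2)
  obtain ⟨-, b3⟩ := abs_le.1 (hAc.u 3)
  obtain ⟨-, b4⟩ := abs_le.1 (hAc.u 4)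
  have fu3 := f.u3
  have fu2 := f.u2
  have hz3 : ∀ i, (us3 a.1 i).z / Real.log X ≤ cu (dn q.1) 2 + 10 * δ := by
    rw [← hL]
    intro i
    fin_cases i
    · show (a.1.us 2).z / L ≤ _
      linarith only [b2, hδ0]
    · show (a.1.us 3).z / L ≤ _
      linarith only [b3, fu2, hδ0]
    · show (a.1.us 4).z / L ≤ _
      linarith only [b4, fu3, fu2, hδ0]
  have hu4 : (us3 a.1 2).z / Real.log X ≤ cu (dn q.1) 4 + 10 * δ := by
    rw [← hL]
    show (a.1.us 4).z / L ≤ _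
    linarith only [b4, hδ0]
  have hu4' : (us3 a.1 2).z ≤ (cu (dn q.1) 4 + 10 * δ) * Real.log X := by
    rw [← hL] at hu4 ⊢
    exact (div_le_iff₀ hL0).1 hu4
  -- the claims
  have hVN : VN X (X ^ δ') M (4 * K) al
      (F0 d (cu (dn q.1) 2 + 10 * δ) (cu (dn q.1) 4 + 10 * δ) p' ε₁) := by
    have h1 := H1 X hXX₁ (X ^ δ') hH1 (us3 a.1) β hLD (cu (dn q.1) 2 + 10 * δ)
      (cu (dn q.1) 4 + 10 * δ) hz3 ⟨2, hu4⟩
    rw [enL, ← hal'] at h1
    exact h1
  obtain ⟨Yw, hYw⟩ : ∃ Yw : ℝ, Yw = Xn (us3 a.1) β * Real.exp (3 * Rh) := ⟨_, rfl⟩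
  have hAdm : Adm Yw (Real.exp (L * p')) (6 * Rh) al := by
    rw [hal', hYw, ← eXn]
    exact adm_f3 hRh0 hRh (π lam.1) lam.2 (us3 a.1) hβp
  have hYw1 : 1 ≤ Yw := by
    rw [hYw, eXn]
    exact one_le_mul_of_one_le_of_one_le (Real.one_le_exp (mul_nonneg hL0.le hp'0))
      (Real.one_le_exp (by positivity))
  have hXKK : X ^ K * X ^ K = (X ^ K) ^ (2 : ℝ) := by
    rw [Real.rpow_two, sq]
  have hYwX : Yw ≤ X ^ K := by
    rw [hYw, eXn, ← Real.exp_add, ← exp_X hX1, ← hL]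
    refine Real.exp_le_exp.2 ?_
    have h1 : L * p' ≤ L * 1 := mul_le_mul_of_nonneg_left hp'1 hL0.le
    have h2 : δ * L ≤ 1 * L := mul_le_mul_of_nonneg_right (by linarith only [hδ1]) hL0.le
    have h3 : 10 * L ≤ K * L := mul_le_mul_of_nonneg_right hK10 hL0.le
    linarith only [h1, h2, h3, hRhL, hL0]
  have hXK1 : 1 ≤ X ^ K := Real.one_le_rpow hX1.le hK0.le
  have hcX : c * Real.exp 2 ≤ X ^ K := by
    rw [← Real.exp_log hc0, ← Real.exp_add, ← exp_X hX1, ← hL]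
    refine Real.exp_le_exp.2 ?_
    have h2 : δ * L ≤ 1 * L := mul_le_mul_of_nonneg_right (by linarith only [hδ1]) hL0.le
    have h3 : 10 * L ≤ K * L := mul_le_mul_of_nonneg_right hK10 hL0.le
    linarith only [h2, h3, hcL, hL0]
  have hW1 : 1 ≤ c * Real.exp 2 * V :=
    one_le_mul_of_one_le_of_one_le (one_le_mul_of_one_le_of_one_le hc
      (Real.one_le_exp (by norm_num))) hV1
  have hX4K : X ^ K * X ^ K ≤ X ^ (4 * K) := by
    rw [← Real.rpow_add hX0]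
    exact Real.rpow_le_rpow_of_exponent_le hX1.le (by linarith only [hK0])
  have hX4K3 : X ^ K * (X ^ K * X ^ K) ≤ X ^ (4 * K) := by
    rw [← Real.rpow_add hX0, ← Real.rpow_add hX0]
    exact Real.rpow_le_rpow_of_exponent_le hX1.le (by linarith only [hK0])
  have hJB := jbc_vn (R := 6 * Rh) (by positivity) (W := c * Real.exp 2 * V) hX3 hH1 hYw1
    ((mul_le_mul hYwX hYwX (by linarith only [hYw1]) (by positivity)).trans hX4K)
    ((mul_le_mul hYwX (mul_le_mul hcX hVX hV0.le (by positivity))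
      (by positivity) (by positivity)).trans hX4K3)
    (fun v g s _ _ hs => F0_slope (d := d) (z := cu (dn q.1) 2 + 10 * δ)
      (u := cu (dn q.1) 4 + 10 * δ) (p := p') (ε₁ := ε₁) (v := v) (g := g) hd hd1 hs) hVN hAdm
  rw [← hL, ← hCjd] at hJB
  -- the numbers of the R-side
  have hI : ∀ i : ℕ, Real.log (c * (Real.exp (L * p') * Real.exp (i : ℝ) * Real.exp (L * hh') /
      Real.exp (L * k'))) / L = p' + (i : ℝ) / L + hh' - k' + Real.log c / L := by
    intro i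
    rw [I_exp, Real.log_mul hc0.ne' (Real.exp_pos _).ne', Real.log_exp]
    field_simp
    ring
  have hlcL : Real.log c / L ≤ 10 * δ := by
    rw [div_le_iff₀ hL0]
    linarith only [hcL, mul_pos hδ0 hL0]
  have hlcL0 : 0 ≤ Real.log c / L := div_nonneg hlc hL0.le
  have hdJ : ∀ D ∈ (Jw a.2 (nL a.1.l (a3 a.1) a.1.z)).image Prod.fst,
      IsPrim D ∧ (nm D : ℝ) ^ 2 ≤ V := by
    intro D hD
    obtain ⟨x, hx, rfl⟩ := mem_image.1 hD
    refine ⟨(Jw_mem hx).1, ?_⟩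
    have h1 := (Jw_mem hx).2.2
    have h2 := nm1 (Jw_ne hx)
    rw [hV]
    exact (le_mul_of_one_le_left (by positivity) h2).trans h1
  have hex : ∀ (i : ℕ) (D e : Eis), ∃ W0 : ℝ → ℝ, Slp aS W0 ∧
      (i ∈ LI (2 ^ a.2 / 4) (2 ^ (a.2 + 1)) →
        D ∈ (Jw a.2 (nL a.1.l (a3 a.1) a.1.z)).image Prod.fst → e ∈ S E0 →
        (∀ γ φ : Eis, IsPrim γ → IsPrim φ → (nm φ : ℝ) ≤ c * (X ^ K) ^ 300 → ∀ P : ℝ, 0 < P →
          (nm γ : ℝ) * n6 γ ^ 2 * ∑ k ∈ bl P,
            RMm ((max A₀ 2 : ℕ) : ℝ) (fun m => al (D * m)) e γ φ k ≤ W0 P) ∧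
        W0 (c * (Real.exp (L * p') * Real.exp (i : ℝ) * Real.exp (L * hh') /
          Real.exp (L * k'))) ≤
          Real.exp (L * (max (p' + (i : ℝ) / L + hh' - k' + Real.log c / L)
            ((p' + (i : ℝ) / L + hh' - k' + Real.log c / L) / 3) +
            g3 d (cu (dn q.1) 4 + 10 * δ) (p' + (i : ℝ) / L + hh' - k' + Real.log c / L) +
            2 / 3 * (p' - Real.log (nm D) / L) + 2 * ε₁))) := by
    intro i D e
    by_cases hh0 : i ∈ LI (2 ^ a.2 / 4) (2 ^ (a.2 + 1)) ∧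
        D ∈ (Jw a.2 (nL a.1.l (a3 a.1) a.1.z)).image Prod.fst ∧ e ∈ S E0
    swap
    · exact ⟨fun _ => 0, Slp_zero' aS, fun h1 h2 h3 => absurd ⟨h1, h2, h3⟩ hh0⟩
    obtain ⟨hi, hD, he⟩ := hh0
    have hNi := hNr ((i : ℝ) / L) (hLIv i hi)
    obtain ⟨-, Vbi, -⟩ := V_ac hNi
    have hSi := S_ac hNi
    rw [← hhh] at hSi
    have hi0 : 0 ≤ (i : ℝ) / L := div_nonneg (Nat.cast_nonneg _) hL0.le
    obtain ⟨hDp, hDV⟩ := hdJ D hD
    have hD1 := nm1 hDp.ne_zero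
    have hDX : (nm D : ℝ) ≤ X ^ (301 * K) := by
      have h1 : (nm D : ℝ) ≤ V := (le_self_pow₀ hD1 (by norm_num)).trans hDV
      exact (h1.trans hVX).trans (Real.rpow_le_rpow_of_exponent_le hX1.le (by linarith only [hK0]))
    obtain ⟨he1', he2, he3⟩ := (mem_S (by linarith only [hE01])).1 he
    have heX : (nm e : ℝ) ≤ X ^ (301 * K) :=
      (he1'.trans hE0X).trans (Real.rpow_le_rpow_of_exponent_le hX1.le (by linarith only [hK0]))
    have hP0 : 0 < c * (Real.exp (L * p') * Real.exp (i : ℝ) * Real.exp (L * hh') /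
        Real.exp (L * k')) := by positivity
    have hPX : c * (Real.exp (L * p') * Real.exp (i : ℝ) * Real.exp (L * hh') /
        Real.exp (L * k')) ≤ X ^ (301 * K) := by
      rw [← rpow_log_div hX1 hP0, ← hL, hI i]
      refine Real.rpow_le_rpow_of_exponent_le hX1.le ?_
      linarith only [hSi, hi0, hp'1, hp'0, Vbi, hk'2, hlcL, hδ1, hK10, fκ0, Vc]
    obtain ⟨W0, hW1, hW2, hW3⟩ := H2 X hXX₂ (X ^ δ') hH1 (us3 a.1) β hLD₂
      (cu (dn q.1) 4 + 10 * δ) ⟨2, hu4'⟩ ((max A₀ 2 : ℕ) : ℝ)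
      (by exact_mod_cast le_max_left A₀ 2) D e hDp he2 hDX heX _ hP0 hPX
    refine ⟨W0, hW1, fun _ _ _ => ⟨fun γ φ hγ hφ hφX P hP => ?_, ?_⟩⟩
    · refine le_trans ?_ (hW2 γ φ hγ hφ (hφX.trans ?_) P hP)
      · refine mul_le_mul_of_nonneg_left (Finset.sum_le_sum fun k _ => ?_) (by positivity)
        rw [hal']
        exact rm_alt _ (us3 a.1) hβp hDp hγ e φ k
      · have h1 : c ≤ X ^ K := (le_mul_of_one_le_right hc0.le
          (Real.one_le_exp (by norm_num))).trans hcX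
        calc c * (X ^ K) ^ 300 ≤ X ^ K * (X ^ K) ^ 300 :=
              mul_le_mul_of_nonneg_right h1 (by positivity)
          _ = X ^ (301 * K) := by
              rw [← Real.rpow_natCast (X ^ K), ← Real.rpow_mul hX0.le, ← Real.rpow_add hX0]
              congr 1
              push_cast
              ring
    · refine hW3.trans ?_
      rw [← hL, hI i, enL]
      calc (X ^ δ') ^ M₂ * X ^ (max (p' + (i : ℝ) / L + hh' - k' + Real.log c / L)
            ((p' + (i : ℝ) / L + hh' - k' + Real.log c / L) / 3) +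
            g3 d (cu (dn q.1) 4 + 10 * δ) (p' + (i : ℝ) / L + hh' - k' + Real.log c / L) +
            2 / 3 * (p' - Real.log (nm D) / L) + ε₁)
          ≤ X ^ ε₁ * X ^ (max (p' + (i : ℝ) / L + hh' - k' + Real.log c / L)
            ((p' + (i : ℝ) / L + hh' - k' + Real.log c / L) / 3) +
            g3 d (cu (dn q.1) 4 + 10 * δ) (p' + (i : ℝ) / L + hh' - k' + Real.log c / L) +
            2 / 3 * (p' - Real.log (nm D) / L) + ε₁) :=
            mul_le_mul_of_nonneg_right hHM₂ (by positivity)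
        _ = _ := by
            rw [← Real.rpow_add hX0, mul_comm L, hL, exp_X hX1, ← hL]
            congr 1
            ring
  choose W0 hWS hWH using hex
  -- the Gram sum
  obtain ⟨g, hg⟩ : ∃ g : ℝ, g = g₀ + ε₁ := ⟨_, rfl⟩
  obtain ⟨KK, hKK⟩ : ∃ KK : Finset Eis,
    KK = KS (π lam.1).n (Real.exp (a.1.l - R lam.1)) (Real.exp (a.1.l + R lam.1)) m := ⟨_, rfl⟩
  have hV2 : (2 : ℝ) ^ (a.2 + 1) = V := hV.symm
  have key := HG (fun u => (wL a.2 u : ℂ)) Mb (by linarith only [hMb1]) (contDiff_wLc a.2)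
    (fun n hn x => hMb a.2 n hn x) 0 1 (by simp) (X ^ K)
    (by
      calc (3 : ℝ) ≤ X := hX3
        _ = X ^ (1 : ℝ) := (Real.rpow_one X).symm
        _ ≤ X ^ K := Real.rpow_le_rpow_of_exponent_le hX1.le (by linarith only [hK10]))
    hcX (Real.sqrt (2 ^ nL a.1.l (a3 a.1) a.1.z)) (2 ^ a.2 / 4) (2 ^ (a.2 + 1)) (omL a.2) al E0 V
    Yw (L * k') (L * p') (Cj * (X ^ δ') ^ M) (L * g) ((3 + c) * Real.exp (L * (g₀ + 2 * ε₁))) 1
    m KK (fun _ _ => L * hh') W0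
    (fun δ₁ b l => L * F0 d (cu (dn q.1) 2 + 10 * δ) (cu (dn q.1) 4 + 10 * δ) p' ε₁
      ((l + b) / L) ((δ₁ + b) / L) + min b (max 0 (L * p' - δ₁)))
    (FS_of_Adm (by linarith only [hYw1]) hAdm)
    (fun n hn => ((mem_S (by linarith only [hYw1])).1 (hAdm.sup n hn)).2.2) hAdm hYw1
    (by rw [← hXKK]; exact hYwX.trans (le_mul_of_one_le_left (by positivity) hXK1))
    hm hmXK (Real.sqrt_nonneg _) (by positivity) (by rw [hV2]; exact hVX)
    (fun x hx => by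
      rw [one_mul]
      unfold Weight600.pw Weight600.osc
      simp [E5L770.omL, E5L770.lv])
    (fun i hi n hn _ hne => by
      have h1 : (0 : ℝ) < n := by exact_mod_cast hn
      exact wL_win h1 (wL_supp (by exact_mod_cast hne)))
    (fun x _ => norm_omL a.2 x) (mul_nonneg hL0.le Vc) (by rw [eKk]; exact hKkX)
    (fun u hu => by
      rw [hKK] at hu
      obtain ⟨h1, h2, h3⟩ := KS_mem hu
      rw [← hKk] at h1 h3
      obtain ⟨h4, h5⟩ := mem_primBall.1 h1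
      refine ⟨h5, h2, ?_, ?_⟩
      · rw [eKk, Real.exp_neg, inv_mul_le_iff₀ (Real.exp_pos _)]
        exact h3
      · rw [eKk]
        exact (Nat.le_floor_iff hKk0.le).1 h4)
    hV0.le hVX (fun x hx => by rw [← hV2]; exact (Jw_mem hx).2.1) hE01 hE0X
    (by
      rw [← exp_X hX1] at hXK1 ⊢
      rw [← Real.exp_nat_mul, ← hL]
      refine Real.exp_le_exp.2 ?_
      push_cast
      have h1 : L * p' ≤ L * 1 := mul_le_mul_of_nonneg_left hp'1 hL0.le
      have h3 : 10 * L ≤ K * L := mul_le_mul_of_nonneg_right hK10 hL0.le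
      linarith only [h1, h3, hL0])
    (fun i hi δ₂ _ => by
      have h1 := S_ac (hNr ((i : ℝ) / L) (hLIv i hi))
      rw [← hhh] at h1
      have h2 := mul_le_mul_of_nonneg_left h1 hL0.le
      have e1 : L * ((i : ℝ) / L) = i := by field_simp
      have h3 : δ * L ≤ cκ (dn q.1) / 1000 * L :=
        mul_le_mul_of_nonneg_right (by linarith only [fκ0, hδ1]) hL0.le
      have h4 : L * (hh' + 2 * ((i : ℝ) / L) + cκ (dn q.1) / 1000) =
          L * hh' + 2 * (L * ((i : ℝ) / L)) + cκ (dn q.1) / 1000 * L := by ring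
      rw [h4, e1] at h2
      have h5 : L * (k' + p') = L * k' + L * p' := by ring
      linarith only [h2, h3, h5, hcL])
    (fun _ _ x y => by simp) hWS
    (fun i hi D hD e he γ φ hγ hφ hφX P hP => (hWH i D e hi hD he).1 γ φ hγ hφ hφX P hP)
    (by positivity) (by positivity) le_rfl
    (by
      have e1 : E0 = Real.exp (L * E') := by
        rw [← eE, Real.exp_log (by linarith only [hE01])]
      have e2 : V = Real.exp (L * v') := by
        rw [hv', mul_div_cancel₀ _ hL0.ne', Real.exp_log hV0]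
      rw [e1, e2, ← Real.exp_nat_mul, ← Real.exp_sub, rpe, rpe, ← Real.exp_add]
      refine Real.exp_le_one_iff.2 ?_
      push_cast
      have h1 := mul_le_mul_of_nonneg_left Va hL0.le
      linarith only [h1, mul_nonneg hL0.le hE'0])
    (by
      rw [eKk, div_le_one hKk0]
      have e2 : V = Real.exp (L * v') := by
        rw [hv', mul_div_cancel₀ _ hL0.ne', Real.exp_log hV0]
      rw [e2, ← eKk]
      exact Real.exp_le_exp.2 (mul_le_mul_of_nonneg_left Vb hL0.le))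
    (by rw [hV2]; exact hJB)
    (fun i hi δ₂ hδ₂ h2δ => ?_) (fun i hi D hD e he => ?_)
  · rw [← hKK]
    have e1 : ∀ x : Eis, StE (Real.exp (e0 * a.1.l)) (JS (nL a.1.l (a3 a.1) a.1.z)) (omL a.2)
        (alt π h lam a.1 β) (x * m ^ 3) =
        StE E0 (JW (Real.sqrt (2 ^ nL a.1.l (a3 a.1) a.1.z)) (2 ^ a.2 / 4) (2 ^ (a.2 + 1)))
          (omL a.2) al (m ^ 3 * x) := by
      intro x
      rw [StE_win hF.lvl, ← hE0, ← hal, mul_comm x]
      rfl
    rw [Finset.sum_congr rfl fun x _ => by rw [e1 x]]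
    refine key.trans ?_
    have hwt : wt β ^ 2 = X ^ (-β') := by
      unfold TSa968.wt
      rw [← Real.rpow_natCast, ← Real.rpow_mul (by positivity), eβ, rpe, ← exp_X hX1, ← hL]
      congr 1
      push_cast
      ring
    rw [hwt]
    have z1 : (X ^ K) ^ (ε₁ / K) = X ^ ε₁ := by
      rw [← Real.rpow_mul hX0.le]
      congr 1
      field_simp
    have z2 : Real.exp (L * g) = X ^ g := by rw [mul_comm, hL, exp_X hX1]
    have z3 : Real.exp (L * (g₀ + 2 * ε₁)) = X ^ (g₀ + 2 * ε₁) := by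
      rw [mul_comm, hL, exp_X hX1]
    have z4 : (1 + |(0 : ℝ)|) ^ Ao = 1 := by simp
    have z5 : Ct ≤ X ^ ε₁ := by
      rw [← rpow_log_div hX1 (by linarith only [hCt1] : (0 : ℝ) < Ct), ← hL]
      refine Real.rpow_le_rpow_of_exponent_le hX1.le ?_
      rw [div_le_iff₀ hL0]
      exact hCL.trans (mul_le_mul_of_nonneg_right hδε hL0.le)
    rw [z1, z2, z3, z4, mul_one, mul_one]
    have z6 : Cj * (X ^ δ') ^ M * X ^ g ≤ Cj * X ^ (g₀ + 2 * ε₁) := by
      rw [mul_assoc]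
      refine mul_le_mul_of_nonneg_left ?_ (by linarith only [hCj])
      calc (X ^ δ') ^ M * X ^ g ≤ X ^ ε₁ * X ^ g := mul_le_mul_of_nonneg_right hHM (by positivity)
        _ = X ^ (g₀ + 2 * ε₁) := by
            rw [← Real.rpow_add hX0, hg]
            congr 1
            ring
    calc C * (1 + Mb) ^ 2 * X ^ ε₁ * (Cj * (X ^ δ') ^ M * X ^ g +
          (3 + c) * X ^ (g₀ + 2 * ε₁))
        ≤ C * (1 + Mb) ^ 2 * X ^ ε₁ * (Cj * X ^ (g₀ + 2 * ε₁) +
          (3 + c) * X ^ (g₀ + 2 * ε₁)) :=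
          mul_le_mul_of_nonneg_left (add_le_add z6 le_rfl) (by positivity)
      _ = Ct * (X ^ ε₁ * X ^ (g₀ + 2 * ε₁)) := by rw [hCt]; ring
      _ ≤ X ^ ε₁ * (X ^ ε₁ * X ^ (g₀ + 2 * ε₁)) :=
          mul_le_mul_of_nonneg_right z5 (by positivity)
      _ = X ^ (ε₁ + (ε₁ + (g₀ + 2 * ε₁))) := by rw [← Real.rpow_add hX0, ← Real.rpow_add hX0]
      _ ≤ X ^ (ESP d μ q k₀ + ε + -β') := by
          refine Real.rpow_le_rpow_of_exponent_le hX1.le ?_
          rw [hg₀, hκ]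
          linarith only [hε₁, hε, ββ, hδ1, fκ0, hδ0]
      _ = X ^ (ESP d μ q k₀ + ε) * X ^ (-β') := Real.rpow_add hX0 _ _
  · -- the T-lines
    have hNi := hNr ((i : ℝ) / L) (hLIv i hi)
    have hδL : 0 ≤ δ₂ / L := div_nonneg hδ₂ hL0.le
    have ht : (Real.log c + 1) / L ≤ 10 * δ := by
      rw [div_le_iff₀ hL0]
      linarith only [hcL, mul_pos hδ0 hL0]
    have hmx : ∀ b : ℝ, max 0 (p' - (δ₂ / L + b)) = max 0 (p' - δ₂ / L - b) := fun b => by
      rw [sub_sub]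
    have h5 := lnT_of (L := L) hL0
      (F := F0 d (cu (dn q.1) 2 + 10 * δ) (cu (dn q.1) 4 + 10 * δ) p' ε₁) (k := k')
      (v := (i : ℝ) / L) (h := hh') (p := p') (E := E') (δ := δ₂ / L) (t := (Real.log c + 1) / L)
      (G := g)
      (fun b l hb hl hv => by
        have h1 := c0_ac hNi hμ hδL hb hl (by linarith only [hv, ht])
        rw [← hhh, ← hκ, eGq] at h1
        unfold F0 ET490.lw0
        rw [hmx, hg, hg₀]
        linarith only [h1])
      (fun b l hb hl hv => by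
        have h1 := c1_ac hNi hμ hδL hb hl (by linarith only [hv, ht])
        rw [← hhh, ← hκ, eGq] at h1
        unfold F0 ET490.lw1
        rw [hmx, hg, hg₀]
        linarith only [h1])
    have e1 : L * ((i : ℝ) / L) = i := by field_simp
    have e2 : L * (δ₂ / L) = δ₂ := by field_simp
    have e3 : L * ((Real.log c + 1) / L) = Real.log c + 1 := by field_simp
    rw [e1, e2, e3, ← eE] at h5
    exact h5
  · -- the R-line
    have hNi := hNr ((i : ℝ) / L) (hLIv i hi)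
    obtain ⟨hDp, hDV⟩ := hdJ D hD
    obtain ⟨he1', he2, he3⟩ := (mem_S (by linarith only [hE01])).1 he
    have hD0 : 0 ≤ Real.log (nm D) / L := div_nonneg (Real.log_natCast_nonneg _) hL0.le
    have hee : 0 ≤ Real.log (nm e) / L := div_nonneg (Real.log_natCast_nonneg _) hL0.le
    have hee1 : Real.log (nm e) / L ≤ E' := by
      rw [div_le_iff₀ hL0, mul_comm, ← eE]
      exact Real.log_le_log (nmpos he2.ne_zero) he1'
    have e1 : L * ((i : ℝ) / L) = i := by field_simp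
    have e2 : L * (Real.log (nm D) / L) = Real.log (nm D) := by field_simp
    have e3 : L * (Real.log (nm e) / L) = Real.log (nm e) := by field_simp
    refine rn_pt hc hDp.ne_zero he2.ne_zero ((hWS i D e).nonneg _ (by positivity))
      (hWH i D e hi hD he).2 fun hL1 => ?_
    have hL2 : 0 ≤ hh' + 2 * ((i : ℝ) / L) - k' - Real.log (nm D) / L := by
      have h1 : 0 ≤ L * (hh' + 2 * ((i : ℝ) / L) - k' - Real.log (nm D) / L) := by
        have h2 : L * (hh' + 2 * ((i : ℝ) / L) - k' - Real.log (nm D) / L) =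
            L * hh' + 2 * (L * ((i : ℝ) / L)) - L * k' - L * (Real.log (nm D) / L) := by ring
        rw [h2, e1, e2]
        exact hL1
      exact nonneg_of_mul_nonneg_right h1 hL0
    have h1 := R_ac hNi hμ hD0 (by rw [← hhh]; exact hL2) hee hee1
      (i' := p' + (i : ℝ) / L + hh' - k' + Real.log c / L) (by
        rw [← hhh, abs_le]
        constructor <;> linarith only [hlcL, hlcL0, hδ0])
    rw [← hhh, ← hκ, eg3] at h1
    have h2 := mul_le_mul_of_nonneg_left h1 hL0.le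
    have e4 : L * hh' + 2 * (i : ℝ) - L * k' - Real.log (nm D) =
        L * (hh' + 2 * ((i : ℝ) / L) - k' - Real.log (nm D) / L) := by
      nth_rw 1 [← e1, ← e2]
      ring
    have e5 : L * p' + (i : ℝ) + L * hh' - L * k' = L * (p' + (i : ℝ) / L + hh' - k') := by
      nth_rw 1 [← e1]
      ring
    rw [e4, e5, gQ_hom hL0.le, hg₀]
    nth_rw 1 [← e1]
    nth_rw 1 [← e2]
    nth_rw 1 [← e3]
    refine le_trans (le_of_eq ?_) (le_trans (add_le_add_right h2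
      (L * (2 * ε₁) - L * (κ / 1000))) (le_of_eq ?_)) <;> ring

/-- **`SPIn'` of one level of the structured function, every cut** -/
theorem spin {c₁ : ℝ} (hpu : PU h c₁) (hP : ∀ lam, (π lam).OK) {A d μ : ℝ} (hd : 0 ≤ d)
    (hd1 : d ≤ 1 / 8) (hA0 : A ≤ 1) (hA1 : 16 * (1 - A) ≤ d) (HR : RCl π h d)
    (hAT : TK708.AllT d (ex Dq fun lam => S0p (π lam) h))
    (hFO : FarOwn d (ex Dq fun lam => S0p (π lam) h))
    (hSO : ShOwn (ex Dq fun lam => S0p (π lam) h))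
    (hNO : NearOwn d (ex Dq fun lam => S0p (π lam) h))
    (hμ : μ ≤ 1 / 450) {e0 : ℝ} (he0 : 0 ≤ e0) (he1 : e0 ≤ 1 / 64) {r : ℝ} (hr : 0 ≤ r)
    {Bf : ℝ → ℝ → ℝ → ℝ} (hBf : ∀ l N z, Bf l N z ≤ N + z - l / 2) :
    SPIn' π (fun i => SfV π h e0 r Bf (fun l N z => JS (nL l N z)) i) A d μ :=
  sinC_of_one π h (by linarith) hr Bf _
    (one_of hpu hP hd hd1 hA0 hA1 HR hAT hFO hSO hNO hμ he0 he1 r hBf)

end Crest.Agent.R017.SP521
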