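import Crest.Agent.R017.StrFin_858
import Crest.Agent.R017.SPc_521
import Crest.Agent.R017.RXc_770
import Crest.Agent.R017.XCol_298

/-!
# Row 17, T.3 : the field `str` of `LeafN` (helper858)

* `rclN_of` : helper770's `RCl` for every family of class N
* `sps_of` : the moments of the tail at every cut (helper521's `spin`)
* `StrIn2`, `str_of2` : `str` from the near lists, the real statements, the structured closers and
  the high levels
-/

set_option autoImplicit false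

noncomputable section

namespace Crest.Agent.R017.StrFin858

open Crest.Agent.R012 Crest.Agent.R012.Eis
open Crest.Agent.R017.FE47 (PU cx)
open Crest.Agent.R017.Sup271 (NPm)
open Crest.Agent.R017.B770 Crest.Agent.R017.Prov71
open Crest.Agent.R017.ER911 Crest.Agent.R017.SC777
open Crest.Agent.R017.E5B71 Crest.Agent.R017.E5L770
open Crest.Agent.R017.E5H319 Crest.Agent.R017.E5Hg48
open Crest.Agent.R017.End699 (PF)
open Crest.Agent.R017.Fin4 Crest.Agent.R017.Fin5 Crest.Agent.R017.Fin6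
open Crest.Agent.R017.P1l54 (Jo)
open Crest.Agent.R017.P1t54 (ParS)
open Crest.Agent.R017.Sg986 (AA AA_lt AA_eq AA_ge)
open Crest.Agent.R017.NrA986 (NearAll)
open Crest.Agent.R017.StrF699 (AtB)
open Crest.Agent.R017.StrT858 (SPs)
open Crest.Agent.R017.XHn512 (LTc PVc)
open Crest.Agent.R017.E4U164 (low5)
open Crest.Agent.R017.RXn770 (RCl rcl_of)

/-- **the R-claim of a family of class N** -/
theorem rclN_of {Λ : Type*} {π : Λ → DPar} {d : ℝ} (hd : 0 < d) (hd1 : d < 1 / 8) {h : ℝ → ℝ}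
    {c₀ : ℝ} (hpu : PU h c₀) (hPF : PF Set.univ (7 / 8 + d)) (hP : ∀ lam, (π lam).OK)
    (hN : ∀ lam, ∀ k : Eis, k ≠ 0 → NPm (π lam).n (π lam).ψ (π lam).l₂ k) {s : EF}
    (R : ExpRules (7 / 8 + d) (ex Dq (fun lam => Rp (π lam) h)) s) : RCl π h d :=
  rcl_of hpu hP R (Col298.colP (by linarith) (by linarith) hPF hpu π hP hN) hd.le hd1.le

/-- **the moments of the tail at every cut** -/
theorem sps_of {d : ℝ} (hd : 0 < d) (hd1 : d ≤ 1 / 42) {h : ℝ → ℝ} {c₀ : ℝ} (hpu : PU h c₀)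
    (hPF : PF Set.univ (7 / 8 + d)) (hB : BunA d h) (hR : RecA d h) {r : ℝ} (hr0 : 0 ≤ r)
    (hnear : NearAll d (ex Dq (fun lam => S0p (πN lam) h))) :
    SPs πN h (AA d) d r (1 / 1100) := by
  have P : BunN d h := hB _ πN πN_ok πN_cl
  have G := hR _ πN πN_ok πN_cl clo_πN
  have hAlt := AA_lt hd
  have hA1 := AA_eq d
  intro e0 h1 h2 Bf h3
  exact SP521.spin hpu πN_ok hd.le (by linarith) hAlt.le hA1
    (rclN_of hd (by linarith) hpu hPF πN_ok (fun lam k hk => πN_cl lam k hk) P.rules)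
    (TK708.allT_of P.rules G.toExpS0 hd.le (by linarith))
    (farOwn_of P.rules G hd.le (by linarith)) (shOwn_of P.rules G)
    (NrA986.nearOwn_of P.rules G hd.le (by linarith) hnear) (by norm_num) h1 h2 hr0
    (fun l N z => h3 l N z)

/-- **the open inputs of the field `str` of T.3** -/
structure StrIn2 (d : ℝ) (h : ℝ → ℝ) (r : ℝ) : Prop where
  /-- the field of near-equal lists -/
  near : NearAll d (ex Dq (fun lam => S0p (πN lam) h))
  /-- the real statements of the cubic pairs -/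
  eD : Gl918.E4D
  eF : Gl918.E4F
  /-- the structured closers of the cubic pairs -/
  lt : AtB πN h LTc (AA d) d r Jo
  pv : AtB πN h PVc (AA d) d r Jo
  /-- the high levels -/
  hi : ∃ σ : ℝ, 0 < σ ∧ 2 * σ ≤ d ∧
    (∀ t, 0 < t → t ≤ 1 → t / 4 < 1 / 64 → Hi948.HNDg πN h (t / 4) (1 / 64) (ParS (AA d) d)
      (loT low5 d t σ) top5 (LR d)) ∧
    ∀ t, 0 < t → t ≤ 1 → Hi948.HNBg πN h (1 / 64) (t / 2) (ParS (AA d) d)
      (loT low5 d t σ) top5 (LR d)

/-- **the field `str` of `LeafN`** -/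
theorem str_of2 {d : ℝ} (hd : 0 < d) (hd1 : d ≤ 1 / 42) {h : ℝ → ℝ} {c₀ : ℝ} (hpu : PU h c₀)
    (hPF : PF Set.univ (7 / 8 + d)) (hB : BunA d h) (hR : RecA d h) {r : ℝ} (hr0 : 0 ≤ r)
    (hr : ∀ u : ℝ, cx h u ≠ 0 → |u| ≤ r) (H : StrIn2 d h r) :
    ∃ μ : ℝ, 0 < μ ∧ StrU πN h (7 / 8 + d) (SfP πN h (1 / 64) r bfO Jo nL) (AA d) d μ :=
  str_of hd hd1 hpu hB hR hr0 hr ⟨H.near, H.eD, H.eF, H.lt, H.pv,
    ⟨1 / 1100, by norm_num, sps_of hd hd1 hpu hPF hB hR hr0 H.near⟩, H.hi⟩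

end Crest.Agent.R017.StrFin858
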