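import Crest.Agent.R017.LfN_986
import Crest.Agent.R017.RpN_986
import Crest.Agent.R017.StrFo_858

/-!
# Row 17, T.3: `InN` from the open leaves (helper986)

* `LvN d h r` : the open leaves of T.3 at `πN`
* `inN_of` : `Lf986.InN d h r` (with the real statements `E4D`, `E4F`)
-/

set_option autoImplicit false

noncomputable section

open Complex Filter Topology

namespace Crest.Agent.R017.LfG986

open Crest.Agent.R012 Crest.Agent.R012.Eis
open Crest.Agent.R017.FE47 Crest.Agent.R017.End699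
open Crest.Agent.R017.B770 Crest.Agent.R017.BxH986
open Crest.Agent.R017.Prov71 Crest.Agent.R017.ER911
open Crest.Agent.R017.E5B71 Crest.Agent.R017.ExP960
open Crest.Agent.R017.E5L770
open Crest.Agent.R017.SC777
open Crest.Agent.R017.E5H319 Crest.Agent.R017.E5Hg48
open Crest.Agent.R017.Fin4 Crest.Agent.R017.Fin5 Crest.Agent.R017.Fin6
open Crest.Agent.R017.P1l54 Crest.Agent.R017.P1t54
open Crest.Agent.R017.P10146 (EtU RpU E3U)
open Crest.Agent.R017.Sg986 (AA AA_lt AA_eq AA_ge)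
open Crest.Agent.R017.NrA986 (NearAll)
open Crest.Agent.R017.StrF699 (AtB)
open Crest.Agent.R017.XHn512 (LTc PVc)
open Crest.Agent.R017.E4U164 (low5)

/-- **the open leaves of T.3** -/
structure LvN (d : ℝ) (h : ℝ → ℝ) (r : ℝ) : Prop where
  /-- the field of near-equal lists -/
  near : NearAll d (ex Dq (fun lam => S0p (πN lam) h))
  /-- P1, exact square: class part and Gram error -/
  et : EtU πN h (1 / 64) (ParS (AA d) d) (LS0 d)
  e3 : E3U πN h (1 / 64) r (ParS (AA d) d) (LS0 d)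
  /-- P1, mismatch -/
  p1m : P1M πN h (1 / 64) (ParS (AA d) d) (LS0 d)
  /-- the structured closers of the cubic pairs -/
  lt : AtB πN h LTc (AA d) d r Jo
  pv : AtB πN h PVc (AA d) d r Jo
  /-- the high levels -/
  hi : ∃ σ : ℝ, 0 < σ ∧ 2 * σ ≤ d ∧
    (∀ t, 0 < t → t ≤ 1 → t / 4 < 1 / 64 → Hi948.HNDg πN h (t / 4) (1 / 64) (ParS (AA d) d)
      (loT low5 d t σ) top5 (LR d)) ∧
    ∀ t, 0 < t → t ≤ 1 → Hi948.HNBg πN h (1 / 64) (t / 2) (ParS (AA d) d)
      (loT low5 d t σ) top5 (LR d)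

/-- **`InN` from the open leaves** -/
theorem inN_of {d : ℝ} (hd : 0 < d) (hd1 : d ≤ 1 / 42) {h : ℝ → ℝ} {c₀ : ℝ} (hpu : PU h c₀)
    (hPF : PF Set.univ (7 / 8 + d)) (hB : BunA d h) (hR : RecA d h) {r : ℝ} (hr0 : 0 ≤ r)
    (hr : ∀ u : ℝ, cx h u ≠ 0 → |u| ≤ r) (eD : Gl918.E4D) (eF : Gl918.E4F) (H : LvN d h r) :
    Lf986.InN d h r := by
  have hA := AA_ge hd1
  have hAlt := AA_lt hd
  have hA1 := AA_eq d
  exact
  { near := H.near
    et := H.et
    rp := RpN986.rpU_N hpu πN_ok πN_cl hd hd1 hPF hB hr0 hr (by linarith) hAlt.le hA1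
    e3 := H.e3
    p1m := H.p1m
    spin := ⟨1 / 1100, by norm_num, StrFin858.sps_of hd hd1 hpu hPF hB hR hr0 H.near (1 / 64)
      (by norm_num) le_rfl bfO (fun _ _ _ => le_rfl)⟩
    str := StrFin858.str_of2 hd hd1 hpu hPF hB hR hr0 hr ⟨H.near, eD, eF, H.lt, H.pv, H.hi⟩ }

end Crest.Agent.R017.LfG986
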