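import Crest.Agent.R017.HiDXc_50
import Crest.Agent.R017.E5HX_783

/-!
# Row 17, exceptional class, REST of StrUX (helper50), part 4: 783's input `HiEX`

* **`hiEX_of`** : `HNDX` on one band of levels implies `HiEX`
-/

set_option autoImplicit false

noncomputable section

open Finset Filter
open scoped ComplexConjugate

namespace Crest.Agent.R017.HiD50

open Crest.Agent.R012 Crest.Agent.R012.Eis
open Crest.Agent.R017.FE47 (PU cx SM)
open Crest.Agent.R017.B770 Crest.Agent.R017.Prov71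
open Crest.Agent.R017.E5B71 Crest.Agent.R017.E5L770
open Crest.Agent.R017.E5LX770 (SfEV SfEOV bfE atEV)
open Crest.Agent.R017.ExBox960 Crest.Agent.R017.ExP960
open Crest.Agent.R017.P1t54
open Crest.Agent.R017.Hi454
open Crest.Agent.R017.E5H319 (LR)
open Crest.Agent.R017.E5HX783 (HiEX)
open Crest.Agent.R017.Sf770 (JS)

/-- the lower end of a band -/
def loB (lo : (Fin 3 ⊕ Fin 5 → ℝ) → ℝ) (s : ℝ) (p : Fin 3 ⊕ Fin 5 → ℝ) : ℝ := lo p - s * cκ p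

/-- the upper end of a band -/
def hiB (lo : (Fin 3 ⊕ Fin 5 → ℝ) → ℝ) (s : ℝ) (p : Fin 3 ⊕ Fin 5 → ℝ) : ℝ :=
  min (top5 p) (lo p - s * cκ p)

/-- **783's `HiEX` from one difference**, levels `lo - s₁ κ ≤ v ≤ min top5 (lo - s₂ κ)` -/
theorem hiEX_of {Λ : Type*} {π : Λ → DPar} (hπ : ∀ l, (π l).OK) {h : ℝ → ℝ}
    {Rh : ℝ} (hRh : ∀ u, cx h u ≠ 0 → |u| ≤ Rh) {lo : (Fin 3 ⊕ Fin 5 → ℝ) → ℝ} {e1 e0 : ℝ} (r : ℝ)
    {A d c β s₁ s₂ : ℝ} (hA : 99 / 100 ≤ A) (hc0 : 0 ≤ c) (hc : c ≤ 1 / 40) (hβ0 : 1 / 8 ≤ β)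
    (hβ : β ≤ 17 / 100) (hlo : ∀ p w, Sq5 A d p w → top5 p ≤ lo p) (hs₁ : s₁ ≤ 1 / 9)
    (hN : HNDX π h e1 e0 c β (ParS A d) (loB lo s₁) (hiB lo s₂) (LR d))
    (al : Set ((Option IX5 → ℝ) × ℝ)) :
    HiEX π h lo e1 e0 r (bfE c) (fun l N z => JS (nL l N z)) A d β s₁ s₂ al := by
  have h1 := hiDX_Sq5 hπ hRh r hA hc0 hc hβ0 hβ (lo := loB lo s₁) (hi := hiB lo s₂)
    (fun p hp => by
      obtain ⟨w, hw⟩ := hp
      have h1 := hlo p w hw
      have h2 : s₁ * cκ p ≤ 1 / 9 * cκ p := mul_le_mul_of_nonneg_right hs₁ hw.κpos.le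
      unfold loB
      linarith)
    (fun p hp => by
      obtain ⟨w, hw⟩ := hp
      have h2 : 0 ≤ c * cκ p := mul_nonneg hc0 hw.κpos.le
      unfold hiB
      exact (min_le_left _ _).trans (by linarith)) hN al
  exact h1

end Crest.Agent.R017.HiD50
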