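import Crest.Agent.R017.P1Xe_960

/-!
# Row 17, exceptional class (helper960): **P1X from P10X, P10S, P1MX, P1MS**

* `P1gX` : the error moment for the official structured function, any parents
* `p1X_of` : `P1X π h (SfEO π h e0 r c) A d β`
-/

set_option autoImplicit false

noncomputable section

open Finset Filter
open scoped ComplexConjugate

namespace Crest.Agent.R017.P1X960

open Crest.Agent.R012 Crest.Agent.R012.Eis
open Crest.Agent.R012.Mob705 hiding pb mem_pb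
open Crest.Agent.R012.LS2 (S mem_S)
open Crest.Agent.R017.CM106 Crest.Agent.R017.C70
open Crest.Agent.R017.FE47 (PU cx SM)
open Crest.Agent.R017.StD828 (ln Tm)
open Crest.Agent.R017.E2440 (TE StE Bth Bth_nonneg)
open Crest.Agent.R017.P1e54 Crest.Agent.R017.P1f54 Crest.Agent.R017.P1h54
open Crest.Agent.R017.P1i54 Crest.Agent.R017.P1j54
open Crest.Agent.R017.P1k54 Crest.Agent.R017.P1o54
open Crest.Agent.R017.P1l54 (chP chP_lump Pt_OK fam fam_OK mod_ne reY_chS al_fam ParOK oN alb_eq)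
open Crest.Agent.R017.P1n54 (tlen tlen_nonneg Chi)
open Crest.Agent.R017.P1p54
open Crest.Agent.R017.P1q54 (SepE SepM WO Siz l_nonneg)
open Crest.Agent.R017.P1g54 (frame_of exists_bd WO_le)
open Crest.Agent.R017.P1t54 (ParS LS0 parOK_Sq5)
open Crest.Agent.R017.HP842 (Pc pc al alL cv Tu mem_Tu sqc Th)
open Crest.Agent.R017.B770 Crest.Agent.R017.Prov71
open Crest.Agent.R017.XG702 (Pcs Good_mono)
open Crest.Agent.R017.XT71 (Sys Win mx mx_le le_mx)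
open Crest.Agent.R017.UM71
open Crest.Agent.R017.E5P571 (PB mem_PB PC)
open Crest.Agent.R017.E5B71 Crest.Agent.R017.E5L770
open Crest.Agent.R017.ExP960 Crest.Agent.R017.Sf770
open Crest.Agent.R017.E5LX770 (nB SfEO at_SfEO)

attribute [local irreducible] HP842.Tu

/-! ### the inputs at smaller tolerances -/

lemma in8X_of {Ψ : BcX → List Pq → ℝ} {c β : ℝ} {Par : Set (Fin 3 ⊕ Fin 5 → ℝ)}
    {L : (IX5 → ℝ) → ℝ → ℝ → ℝ → Prop} {L0 : (Fin 3 ⊕ Fin 5 → ℝ) → ℝ} {X δ₁ ρ₁ B₁ ε₁ δa ρa : ℝ}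
    {N : ℕ} (hX : 1 ≤ X) (hδ : δ₁ ≤ δa) (hρ : ρ₁ ≤ ρa)
    (K : In8X Ψ c β Par L L0 X δa ρa B₁ ε₁ N) : In8X Ψ c β Par L L0 X δ₁ ρ₁ B₁ ε₁ N :=
  fun a ps h1 h2 q hq hw hm hg hl =>
    K a ps h1 (fun p hp => (h2 p hp).imp id fun h => h.trans hδ) q hq
      (hw.mono hX hδ le_rfl le_rfl hρ) (fun t => (hm t).trans hδ) (Good_mono hX hg hρ) hl

lemma in9X_of {Ψ : BmX → List Pq → ℝ} {c β : ℝ} {Par : Set (Fin 3 ⊕ Fin 5 → ℝ)}
    {L : (IX5 → ℝ) → ℝ → ℝ → ℝ → Prop} {L0 : (Fin 3 ⊕ Fin 5 → ℝ) → ℝ} {X δ₁ ρ₁ B₁ ε₁ δa ρa : ℝ}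
    {N : ℕ} (hX : 1 ≤ X) (hδ : δ₁ ≤ δa) (hρ : ρ₁ ≤ ρa)
    (K : In9X Ψ c β Par L L0 X δa ρa B₁ ε₁ N) : In9X Ψ c β Par L L0 X δ₁ ρ₁ B₁ ε₁ N :=
  fun a ps h1 h2 q hq hw hm hg hl =>
    K a ps h1 (fun p hp => (h2 p hp).imp id fun h => h.trans hδ) q hq
      (hw.mono hX hδ le_rfl le_rfl hρ) (fun t => (hm t).trans hδ) (Good_mono hX hg hρ) hl

/-! ### the final exponent -/

lemma fin_num {X ε ε' E C C₀ P A Q W1 W2 : ℝ} (hX1 : 1 ≤ X) (h1 : W1 ≤ X ^ (E + ε / 2))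
    (h2 : W2 ≤ Q * X ^ (E + ε / 2)) (hW1 : 0 ≤ W1) (hW2 : 0 ≤ W2) (hA : 0 ≤ A) (hQ : 0 ≤ Q)
    (hP : 0 ≤ P) (hC : 0 ≤ C) (hC₀ : C ≤ C₀) (hε' : 6 * ε' ≤ ε / 4) (hε0 : 0 ≤ ε')
    (hK : C₀ * P * (4 * (A + C₀ * Q)) ≤ X ^ (ε / 4)) :
    C * (X ^ 3) ^ ε' * (P * (4 * (A * W1 + C * (X ^ 3) ^ ε' * W2))) ≤ X ^ (E + ε) := by
  have hX0 : 0 < X := by linarith
  have hC0' : 0 ≤ C₀ := hC.trans hC₀
  have e1 : (X ^ 3) ^ ε' = X ^ (3 * ε') := by
    rw [← Real.rpow_natCast, ← Real.rpow_mul hX0.le]; norm_num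
  rw [e1]
  have hY : 1 ≤ X ^ (3 * ε') := Real.one_le_rpow hX1 (by linarith)
  have hY0 : 0 < X ^ (3 * ε') := by positivity
  have hW0 : 0 < X ^ (E + ε / 2) := by positivity
  calc C * X ^ (3 * ε') * (P * (4 * (A * W1 + C * X ^ (3 * ε') * W2))) ≤
      C₀ * X ^ (3 * ε') * (P * (4 * (A * X ^ (E + ε / 2) * X ^ (3 * ε') +
        C₀ * X ^ (3 * ε') * (Q * X ^ (E + ε / 2))))) := by
        refine mul_le_mul (mul_le_mul_of_nonneg_right hC₀ hY0.le)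
          (mul_le_mul_of_nonneg_left (mul_le_mul_of_nonneg_left (add_le_add ?_ ?_)
            (by norm_num)) hP) (by positivity) (by positivity)
        · refine (mul_le_mul_of_nonneg_left h1 hA).trans ?_
          exact le_mul_of_one_le_right (by positivity) hY
        · exact mul_le_mul (mul_le_mul_of_nonneg_right hC₀ hY0.le) h2 hW2 (by positivity)
    _ = C₀ * P * (4 * (A + C₀ * Q)) *
        (X ^ (3 * ε') * X ^ (3 * ε')) * X ^ (E + ε / 2) := by ring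
    _ ≤ X ^ (ε / 4) * X ^ (ε / 4) * X ^ (E + ε / 2) := by
        refine mul_le_mul_of_nonneg_right (mul_le_mul hK ?_ (by positivity) (by positivity))
          hW0.le
        rw [← Real.rpow_add hX0]
        exact Real.rpow_le_rpow_of_exponent_le hX1 (by linarith)
    _ = X ^ (E + ε) := by
        rw [← Real.rpow_add hX0, ← Real.rpow_add hX0]
        congr 1
        ring

lemma WHX_le {P : DPar} {t₀ : Eis} {p : Fin 3 ⊕ Fin 5 → ℝ} {X δ ρ B R : ℝ} {N : ℕ} {a : Bd}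
    {m : ℕ} {ps : Fin m → Pq} {L0 : (Fin 3 ⊕ Fin 5 → ℝ) → ℝ}
    (F : Fr P t₀ p X δ ρ B R N a ps) {ε Rl : ℝ}
    (hL0 : muX p ≤ L0 p) (hδ : 1205 * δ ≤ ε / 4) :
    WHX p X δ Rl R a ps ≤ 2 * Real.exp Rl * X ^ (cκ p + cN p + cx' p + L0 p + ε / 2) := by
  have hL := F.L0
  have hX0 : 0 < X := by linarith [F.X1]
  have htot := abs_le.1 F.tot
  have hvs := abs_le.1 F.vsum
  have hlz := abs_le.1 F.lz
  have hRm := F.Rm'
  have hR0 := F.R0
  have hNR : 0 ≤ (m : ℝ) * R := by positivity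
  have hd0 := F.d0
  unfold WHX
  have e1 : X ^ (muX p + 20 * δ) * (2 * Real.exp Rl * Real.exp a.l) *
      Real.exp (∑ i, (ps i).z + ∑ j, (vsO a j).z + R * (m + 3)) =
      2 * Real.exp Rl * (X ^ (muX p + 20 * δ) * Real.exp a.l *
      Real.exp (∑ i, (ps i).z + ∑ j, (vsO a j).z + R * (m + 3))) := by ring
  rw [e1]
  refine mul_le_mul_of_nonneg_left ?_ (by positivity)
  rw [Real.rpow_def_of_pos hX0, Real.rpow_def_of_pos hX0, ← Real.exp_add, ← Real.exp_add]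
  refine Real.exp_le_exp.2 ?_
  have h1 : Real.log X * (muX p + 26 * δ) ≤ Real.log X * (L0 p + ε / 2) :=
    mul_le_mul_of_nonneg_left (by linarith) hL.le
  nlinarith

set_option maxHeartbeats 1000000 in
/-- **P1X from the children and the mismatch** -/
theorem P1gX {Λ : Type*} {π : Λ → DPar} (hπ : ∀ l, (π l).OK) {h : ℝ → ℝ} {c₀ : ℝ}
    (hpu : PU h c₀) {Rh : ℝ} (hRh0 : 0 ≤ Rh) (hRh : ∀ u, cx h u ≠ 0 → |u| ≤ Rh)
    {e0 r c β : ℝ} (he0 : 0 ≤ e0) (he1 : e0 ≤ 1) (hr : Rh ≤ r) (hc0 : 0 ≤ c) (hc1 : c ≤ 1)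
    {Par : Set (Fin 3 ⊕ Fin 5 → ℝ)} {L0 : (Fin 3 ⊕ Fin 5 → ℝ) → ℝ}
    (hPar : ∀ p : IX5 → ℝ, prX p ∈ Par → ZR β p → ParX β p ∧ β * cκ (prX p) ≤ cu (prX p) 3)
    (hL0 : ∀ p ∈ Par, muX p ≤ L0 p)
    (h8 : P10X π h e0 c β Par L0) (h8S : P10S π h e0 c β Par L0)
    (h9 : P1MX π h e0 c β Par L0) (h9S : P1MS π h e0 c β Par L0)
    (R : Λ → ℝ) (hR : ∀ lam, 0 ≤ R lam) :
    UB S5X Dq (ErrX π h (SfEO π h e0 r c) R)
      (liftD β {q | q.1 ∈ Par ∧ q.2 .mo = 0 ∧ q.2 .am = cx' q.1}) alX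
      (fun q => cκ (prX q.1) + cN (prX q.1) + cx' (prX q.1) + L0 (prX q.1)) := by
  intro ε hε
  obtain ⟨δa, hδa, K8⟩ := h8 R hR (ε / 4) (by positivity)
  obtain ⟨δb, hδb, K8S⟩ := h8S R hR (ε / 4) (by positivity)
  obtain ⟨δc, hδc, K9⟩ := h9 R hR (ε / 4) (by positivity)
  obtain ⟨δd, hδd, K9S⟩ := h9S R hR (ε / 4) (by positivity)
  set δ₁ := min (min δa δb) (min δc δd) with hδ₁
  have hδ₁0 : 0 < δ₁ := lt_min (lt_min hδa hδb) (lt_min hδc hδd)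
  have hδ₁a : δ₁ ≤ δa := (min_le_left _ _).trans (min_le_left _ _)
  have hδ₁b : δ₁ ≤ δb := (min_le_left _ _).trans (min_le_right _ _)
  have hδ₁c : δ₁ ≤ δc := (min_le_right _ _).trans (min_le_left _ _)
  have hδ₁d : δ₁ ≤ δd := (min_le_right _ _).trans (min_le_right _ _)
  set δ := min (δ₁ / 800) (min (ε / 4820) (1 / 240)) with hδ
  have hδ0 : 0 < δ := lt_min (by positivity) (lt_min (by positivity) (by norm_num))
  have d1 : δ ≤ δ₁ / 800 := min_le_left _ _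
  have d2 : δ ≤ ε / 4820 := (min_le_right _ _).trans (min_le_left _ _)
  have d3 : δ ≤ 1 / 240 := (min_le_right _ _).trans (min_le_right _ _)
  refine ⟨δ / 3, by positivity, fun lam N B => ?_⟩
  obtain ⟨ρa, hρa, Xa, hXa, K8'⟩ := K8 lam N (max B 0 + 2)
  obtain ⟨ρb, hρb, Xb, hXb, K8S'⟩ := K8S lam N (max B 0 + 2)
  obtain ⟨ρc, hρc, Xc, hXc, K9'⟩ := K9 lam N (max B 0 + 2)
  obtain ⟨ρd, hρd, Xd, hXd, K9S'⟩ := K9S lam N (max B 0 + 2)
  set ρ₁ := min (min ρa ρb) (min ρc ρd) with hρ₁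
  have hρ₁0 : 0 < ρ₁ := lt_min (lt_min hρa hρb) (lt_min hρc hρd)
  have hρ₁a : ρ₁ ≤ ρa := (min_le_left _ _).trans (min_le_left _ _)
  have hρ₁b : ρ₁ ≤ ρb := (min_le_left _ _).trans (min_le_right _ _)
  have hρ₁c : ρ₁ ≤ ρc := (min_le_right _ _).trans (min_le_left _ _)
  have hρ₁d : ρ₁ ≤ ρd := (min_le_right _ _).trans (min_le_right _ _)
  have hρ0 : 0 < ρ₁ / 2 := by positivity
  -- constants
  set M : ℝ := 101 * ((N : ℝ) + 3 + 1) / (ρ₁ / 2) with hM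
  have hM0 : 0 ≤ M := by positivity
  obtain ⟨C3, hC3, hsE⟩ := er_sep hpu hRh0 hRh M
  obtain ⟨C4, hC4, hsM⟩ := mm_sep hpu hRh0 hRh M
  obtain ⟨C5, hC5, hsEX⟩ := er_sepX hpu hRh0 hRh M
  obtain ⟨C6, hC6, hsMX⟩ := mm_sepX hpu hRh0 hRh M
  set Cs := max (max (max C3 C4) (max C5 C6)) 1 with hCs
  have hCs1 : 1 ≤ Cs := le_max_right _ _
  have c3 : C3 ≤ Cs := (((le_max_left _ _).trans (le_max_left _ _))).trans (le_max_left _ _)
  have c4 : C4 ≤ Cs := (((le_max_right _ _).trans (le_max_left _ _))).trans (le_max_left _ _)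
  have c5 : C5 ≤ Cs := (((le_max_left _ _).trans (le_max_right _ _))).trans (le_max_left _ _)
  have c6 : C6 ≤ Cs := (((le_max_right _ _).trans (le_max_right _ _))).trans (le_max_left _ _)
  have hsE' : SepE h c₀ Rh M Cs := by
    intro J _ _ s hs a E0 W hW om u h0 hu B hB hyp
    exact (hsE J s hs a E0 W hW om u h0 hu B hB hyp).trans
      (mul_le_mul_of_nonneg_right (pow_le_pow_left₀ hC3 c3 _) hB)
  have hsM' : SepM h c₀ Rh M Cs := by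
    intro ι κ _ _ _ _ s hs E0 Z hZ W hW o g u h0 hu B hB hyp
    exact (hsM ι κ s hs E0 Z hZ W hW o g u h0 hu B hB hyp).trans
      (mul_le_mul_of_nonneg_right (pow_le_pow_left₀ hC4 c4 _) hB)
  have hsEX' : SepEX h c₀ Rh M Cs := by
    intro ι _ _ r p₁ p₂ hr' hp₁ hp₂ z w a E0 W hW om u h0 hu B hB hyp
    exact (hsEX ι r p₁ p₂ hr' hp₁ hp₂ z w a E0 W hW om u h0 hu B hB hyp).trans
      (mul_le_mul_of_nonneg_right (pow_le_pow_left₀ hC5 c5 _) hB)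
  have hsMX' : SepMX h c₀ Rh M Cs := by
    intro ι _ _ r p₁ p₂ hr' hp₁ hp₂ z w E0 Z hZ W hW o g u h0 hu B hB hyp
    exact (hsMX ι r p₁ p₂ hr' hp₁ hp₂ z w E0 Z hZ W hW o g u h0 hu B hB hyp).trans
      (mul_le_mul_of_nonneg_right (pow_le_pow_left₀ hC6 c6 _) hB)
  obtain ⟨H, hH⟩ := exists_bd hpu.cd.continuous hpu.cs
  obtain ⟨Hw, hHw⟩ := exists_bd FE47.contDiff_hD.continuous FE47.hasCompactSupport_hD
  have hHw' : ∀ u, ‖((FE47.hD u : ℝ) : ℂ)‖ ≤ Hw := hHw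
  have hε' : 0 < ε / 48 := by positivity
  choose Cf hCf key using fun m => errX_m.{_} m hε' H
  set C₀ : ℝ := ∑ m ∈ range (N + 1), Cf m with hC₀
  have hCle : ∀ m, m ≤ N → Cf m ≤ C₀ := fun m hm =>
    single_le_sum (f := Cf) (fun i _ => hCf i) (mem_range.2 (by omega))
  set K₀ : ℝ := C₀ * (1 + ‖(pC : ℂ)‖ ^ 2) *
    (4 * (Cs ^ (N + 3) + C₀ * (2 * Real.exp (R lam.1)))) with hK₀
  -- large `X`
  have hlim : ∀ᶠ X : ℝ in atTop, ((Xa ≤ X ∧ Xb ≤ X ∧ Xc ≤ X ∧ Xd ≤ X) ∧ 200 ≤ X ∧ H ≤ X) ∧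
      (Bth ≤ X ∧ ‖(pC : ℂ)‖ ≤ X ∧ Hw ≤ X ∧ 2 * Real.exp (R lam.1) ≤ X) ∧
      (r ≤ Real.log X ∧ (20 * N + 40) * Rh / δ ≤ Real.log X ∧ 2 * R lam.1 + 1 ≤ Real.log X ∧
        2 ≤ X ^ (ρ₁ / 2) ∧ K₀ ≤ X ^ (ε / 4)) := by
    refine (((eventually_ge_atTop _).and ((eventually_ge_atTop _).and
      ((eventually_ge_atTop _).and (eventually_ge_atTop _)))).and
      ((eventually_ge_atTop _).and (eventually_ge_atTop _))).and
      (((eventually_ge_atTop _).and ((eventually_ge_atTop _).and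
      ((eventually_ge_atTop _).and (eventually_ge_atTop _)))).and ?_)
    exact (Real.tendsto_log_atTop.eventually_ge_atTop _).and
      ((Real.tendsto_log_atTop.eventually_ge_atTop _).and
      ((Real.tendsto_log_atTop.eventually_ge_atTop _).and
      (((tendsto_rpow_atTop hρ0).eventually_ge_atTop _).and
      ((tendsto_rpow_atTop (by positivity)).eventually_ge_atTop _))))
  obtain ⟨X₀, hX₀⟩ := eventually_atTop.1 hlim
  refine ⟨ρ₁ / 2, hρ0, max X₀ 2, lt_of_lt_of_le (by norm_num) (le_max_right _ _), ?_⟩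
  intro X hX a ps hlen hgr q hq hw hm hg _
  obtain ⟨⟨⟨xa, xb, xc, xd⟩, x3, x4⟩, ⟨x5, x6, x7, x8⟩, x9, x10, xR, x11, x12⟩ :=
    hX₀ X ((le_max_left _ _).trans hX)
  have hX1 : 1 < X := by linarith
  have hX0 : 0 < X := by linarith
  have hL : 0 < Real.log X := Real.log_pos hX1
  obtain ⟨⟨hq1, hq2, hq3⟩, hz⟩ := hq
  have hq1' : prX q.1 ∈ Par := hq1
  by_cases hif : a.ok ∧ lam.2 ∈ SM (π lam.1).n ∧ ∀ p ∈ ps, p.kd = .am
  swap
  · unfold ErrX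
    rw [if_neg hif]
    positivity
  obtain ⟨hok, ht, hkd⟩ := hif
  obtain ⟨hparX, hb3⟩ := hPar q.1 hq1' hz
  have hd3 : δ / 3 ≤ δ := by linarith
  have hm' := hm .am
  have hq3' : q.2 .am = cx' (prX q.1) := hq3
  rw [hq3'] at hm'
  have hB0 : 0 ≤ max B 0 := le_max_right _ _
  have hwX : Win S5X q.1 (δ / 3) N (max B 0) (ρ₁ / 2) X a :=
    hw.mono hX1.le le_rfl le_rfl (le_max_left _ _) le_rfl
  have hwX' : Win S5X q.1 δ N (max B 0) (ρ₁ / 2) X a :=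
    hw.mono hX1.le hd3 le_rfl (le_max_left _ _) le_rfl
  have hwN : Win S5 (prX q.1) δ N (max B 0) (ρ₁ / 2) X a.toBd :=
    ⟨fun i => hwX'.ev (.inl i), hwX'.g, hwX'.n, hwX'.s₁, hwX'.s₂⟩
  have hwR : Win S5 (repP q.1) δ N (max B 0) (ρ₁ / 2) X (repA a) := by
    have h1 := win_rep hok hX1 (by positivity) hρ0.le hB0 hwX
    rwa [mul_div_cancel₀ δ (by norm_num : (3 : ℝ) ≠ 0)] at h1
  have hgood : Dq.Good X (ρ₁ / 2) (max B 0) ps := fun p hp => ⟨(hg p hp).1,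
    (hg p hp).2.1.trans (Real.rpow_le_rpow_of_exponent_le hX1.le (le_max_left _ _)),
    (hg p hp).2.2⟩
  have hgr' : ∀ p ∈ ps, Dq.lump p ∨ Dq.nl X p ≤ δ := fun p hp =>
    (hgr p hp).imp id fun h => h.trans hd3
  have hRL : (20 * N + 40) * Rh ≤ δ * Real.log X := by
    rwa [div_le_iff₀ hδ0, mul_comm (Real.log X)] at x10
  have F : FrX (π lam.1) lam.2 β q.1 X δ (ρ₁ / 2) (max B 0) Rh N a (fun i => ps.get i) :=
    { nat := frame_of hX1 (hπ _) hok.base ht hparX.parN hkd hlen hgr' hwN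
        (hm'.trans hd3) hgood hRh0 hRL hδ0.le (by linarith)
      rep := frame_of hX1 (hπ _) (rep_ok hok) ht hparX.parR hkd hlen hgr' hwR
        (hm'.trans hd3) hgood hRh0 hRL hδ0.le (by linarith)
      ok := hok
      par := hparX
      b3 := hb3
      w := hwX' }
  have hS : Siz X H Hw e0 (R lam.1) Rh :=
    { c := x3, h := x4, b := x5, p := x6, w := x7, r := x8, e := he0, e1 := he1 }
  have hl : R lam.1 + 3 * (a.l / 20) < a.l := by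
    have h1 := (abs_le.1 F.nat.lz).1
    have h2 : 8 / 9 * Real.log X ≤ cκ (prX q.1) * Real.log X :=
      mul_le_mul_of_nonneg_right hparX.κ0 hL.le
    have h3 : δ * Real.log X ≤ 1 / 240 * Real.log X := mul_le_mul_of_nonneg_right d3 hL.le
    linarith
  have hμ := hL0 _ hq1'
  have hμ0 : 0 ≤ muX (prX q.1) := le_max_left _ _
  have hbound := key ps.length (c₀ := c₀) (R := Rh) (Hw := Hw) (M := M) (Cs := Cs) (r := r)
    (X := X) (δ := δ) (δ₁ := δ₁) (ρ := ρ₁ / 2) (ρ₁ := ρ₁) (B := max B 0) (ε₁ := ε / 4) (e0 := e0)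
    (c := c) (β := β) (N := N)
    (π := π) (h := h) (Rf := R) (lam := lam) (a := a) (p := q.1) (Par := Par) (L0 := L0)
    hpu.cpos hRh hH hHw' hM0 hsE' hsM' hsEX' hsMX' hCs1 hr x9 (hR _) hS
    (by
      have e1 : X ^ ρ₁ = X ^ (ρ₁ / 2) * X ^ (ρ₁ / 2) := by
        rw [← Real.rpow_add hX0]; congr 1; ring
      rw [e1]
      exact mul_le_mul_of_nonneg_right x11 (by positivity)) hρ0.le (by linarith)
    (by linarith) hB0 (by rw [hM]; field_simp; exact le_rfl) (hμ0.trans hμ)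
    (by positivity) hq1' hc0 hc1
    (in8X_of hX1.le hδ₁a hρ₁a (K8' X xa)) (in8X_of hX1.le hδ₁b hρ₁b (K8S' X xb))
    (in9X_of hX1.le hδ₁c hρ₁c (K9' X xc)) (in9X_of hX1.le hδ₁d hρ₁d (K9S' X xd)) hl ps rfl F
  refine hbound.trans ?_
  refine fin_num (C₀ := C₀) (Q := 2 * Real.exp (R lam.1)) hX1.le
    (WO_le (L0 := L0) F.nat le_rfl (by linarith))
    (WHX_le (L0 := L0) (Rl := R lam.1) F.nat hμ (by linarith)) (WO_pos hX1).le ?_
    (by positivity) (by positivity) (by positivity) (hCf _) (hCle _ hlen) (by linarith) hε'.le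
    x12
  unfold WHX
  positivity

/-! ### the parents of the exact square -/

/-- the parents of the exact square -/
lemma parX_Sq5 {A d β : ℝ} (hA : 99 / 100 ≤ A) (hβ0 : 0 ≤ β) (hβ1 : β ≤ 17 / 100)
    {p : IX5 → ℝ} (hp : prX p ∈ ParS A d) (hz : ZR β p) :
    ParX β p ∧ β * cκ (prX p) ≤ cu (prX p) 3 := by
  have h0 := parOK_Sq5 (by linarith) hp
  obtain ⟨w, hw⟩ := hp
  have hκ0 := hw.κ31
  have hκ1 := hw.κ1
  obtain ⟨a1, a2, a3, a4⟩ := hw.anti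
  have hq := hw.q
  have hmo := hw.w0 .mo
  have hnear := hw.near
  have hAκ : 99 / 100 * cκ (prX p) ≤ A * cκ (prX p) :=
    mul_le_mul_of_nonneg_right hA (by linarith)
  have eN : cN (prX p) = cu (prX p) 2 + cu (prX p) 3 + cu (prX p) 4 := rfl
  have eM : cM (prX p) = cu (prX p) 0 + cu (prX p) 1 := rfl
  have hβκ : β * cκ (prX p) ≤ 17 / 100 * cκ (prX p) :=
    mul_le_mul_of_nonneg_right hβ1 (by linarith)
  refine ⟨⟨h0.κ0, h0.κ1, h0.u0, by linarith, h0.N1, h0.x0, h0.x1, hβ0, by linarith, ?_, hz⟩, ?_⟩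
  · linarith
  · linarith

/-- **P1X** : the error moment of the exceptional class, from the moments of the children
(differences `P10X`, single lists `P10S`) and the mismatch moments (`P1MX`, `P1MS`) -/
theorem p1X_of {Λ : Type*} {π : Λ → DPar} (hπ : ∀ l, (π l).OK) {h : ℝ → ℝ} {c₀ : ℝ}
    (hpu : PU h c₀) {Rh : ℝ} (hRh0 : 0 ≤ Rh) (hRh : ∀ u, cx h u ≠ 0 → |u| ≤ Rh)
    {e0 r c A d β : ℝ} (he0 : 0 ≤ e0) (he1 : e0 ≤ 1) (hr : Rh ≤ r) (hc0 : 0 ≤ c) (hc1 : c ≤ 1)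
    (hd : 0 ≤ d) (hA : 99 / 100 ≤ A) (hβ0 : 0 ≤ β) (hβ1 : β ≤ 17 / 100)
    (h8 : P10X π h e0 c β (ParS A d) (LS0 d)) (h8S : P10S π h e0 c β (ParS A d) (LS0 d))
    (h9 : P1MX π h e0 c β (ParS A d) (LS0 d)) (h9S : P1MS π h e0 c β (ParS A d) (LS0 d)) :
    P1X π h (SfEO π h e0 r c) A d β := by
  intro R hR
  have h1 := P1gX hπ hpu hRh0 hRh he0 he1 hr hc0 hc1 (Par := ParS A d) (L0 := LS0 d)
    (fun p hp hz => parX_Sq5 hA hβ0 hβ1 hp hz) (fun p hp => by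
      obtain ⟨w, hw⟩ := hp
      have h2 := hw.κ0
      unfold LS0 muX
      have h3 : 0 ≤ 3 / 4 * d * cκ p := by
        apply mul_nonneg (by linarith); linarith
      linarith) h8 h8S h9 h9S R hR
  have e : (fun q : (IX5 → ℝ) × (Kd → ℝ) => cκ (prX q.1) + cN (prX q.1) + cx' (prX q.1) +
      LS0 d (prX q.1)) = fun q => E1x d (prQ q) := by
    funext q
    show _ = cκ (prX q.1) + cN (prX q.1) + cx' (prX q.1) +
      max 0 (5 / 4 * cN (prX q.1) - cκ (prX q.1)) + 3 / 4 * d * cκ (prX q.1)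
    unfold LS0
    ring
  rw [e] at h1
  exact h1

end Crest.Agent.R017.P1X960
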