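import Crest.Agent.R017.Fin6_986
import Crest.Agent.R017.SgN_986
import Crest.Agent.R017.P1Xf_960

/-!
# Row 17, T.4: the field `sgnE` from the leaves at one structured function (helper986)

Constants: `A = 1 - d/16`, `e₀ = 1/64`, `c = d/4`, `β = 17/100`, `r` a radius of the support.

* `LeafE d h r` : the leaves of T.4 at these constants; `sgnE_of`
-/

set_option autoImplicit false

noncomputable section

open Complex Filter Topology

namespace Crest.Agent.R017.Sg986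

open Crest.Agent.R012 Crest.Agent.R012.Eis
open Crest.Agent.R017.FE47 Crest.Agent.R017.End699
open Crest.Agent.R017.B770 Crest.Agent.R017.BxH986
open Crest.Agent.R017.Prov71 Crest.Agent.R017.ER911
open Crest.Agent.R017.E5B71 Crest.Agent.R017.ExP960
open Crest.Agent.R017.E5L770
open Crest.Agent.R017.Fin4 Crest.Agent.R017.Fin5 Crest.Agent.R017.Fin6
open Crest.Agent.R017.P1l54 Crest.Agent.R017.P1t54
open Crest.Agent.R017.P1X960
open Crest.Agent.R017.E5LX770

/-- **the leaves of T.4** at `e₀ = 1/64`, `c = d/4`, `A = 1 - d/16`, `r` a radius of the support -/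
structure LeafE (d : ℝ) (h : ℝ → ℝ) (r : ℝ) : Prop where
  /-- P1, exact square on the natural triples: differences -/
  p10x : P10X πE h (1 / 64) (d / 4) βX (ParS (AA d) d) (LS0 d)
  /-- single lists -/
  p10s : P10S πE h (1 / 64) (d / 4) βX (ParS (AA d) d) (LS0 d)
  /-- P1, mismatch: differences -/
  p1mx : P1MX πE h (1 / 64) (d / 4) βX (ParS (AA d) d) (LS0 d)
  /-- single lists -/
  p1ms : P1MS πE h (1 / 64) (d / 4) βX (ParS (AA d) d) (LS0 d)
  /-- the structured part -/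
  str : ∃ μ : ℝ, 0 < μ ∧ StrUX πE h (7 / 8 + d) (SfEO πE h (1 / 64) r (d / 4)) (AA d) d βX μ
  /-- the tail -/
  tail : ∃ μ : ℝ, 0 < μ ∧ TailUX πE h (7 / 8 + d) (SfEO πE h (1 / 64) r (d / 4)) (AA d) d βX μ

/-- **`sgnE` from the leaves** -/
theorem sgnE_of {d : ℝ} (hd : 0 < d) (hd1 : d ≤ 1 / 42) {h : ℝ → ℝ} {c₀ : ℝ} (hpu : PU h c₀)
    (H : ∀ r : ℝ, 0 ≤ r → (∀ u : ℝ, cx h u ≠ 0 → |u| ≤ r) → LeafE d h r) : SgnE d h := by
  obtain ⟨R, hR0, hR⟩ := exists_Rh hpu
  obtain ⟨h1, h2, h3, h4, ⟨μ₁, hμ₁, h5⟩, ⟨μ₂, hμ₂, h6⟩⟩ := H R hR0 hR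
  have hA := AA_ge hd1
  refine ⟨_, AA d, min μ₁ μ₂, hA, AA_lt hd, AA_eq d, lt_min hμ₁ hμ₂,
    p1X_of (fun l => l.2.1) hpu hR0 hR (e0 := 1 / 64) (c := d / 4) (by norm_num) (by norm_num)
      le_rfl (by linarith) (by linarith) hd.le (by linarith) (by norm_num) (by norm_num)
      h1 h2 h3 h4,
    ExAb968.ubX_mono (min_le_left _ _) h5,
    fun R' hR' => ExAb968.ubX_mono (min_le_right _ _) (h6 R' hR')⟩

end Crest.Agent.R017.Sg986
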