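import Crest.Agent.R017.E5Hg_48
import Crest.Agent.R017.E4Uc_164

/-!
# Row 17, T.3 : `StrU` at the official structured function (helper858)

`strU_top0` : `StrU` from the low bands (`LowD`), the high levels (`HNDg`, `HNBg`), the tails at
every cut (`TailL`) and `MomU`
-/

set_option autoImplicit false

noncomputable section

namespace Crest.Agent.R017.StrT858

open Crest.Agent.R012 Crest.Agent.R012.Eis
open Crest.Agent.R017.FE47 (PU cx)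
open Crest.Agent.R017.XG702 (Pcs)
open Crest.Agent.R017.XT71 (Sys Win)
open Crest.Agent.R017.UM71
open Crest.Agent.R017.B770 Crest.Agent.R017.Prov71
open Crest.Agent.R017.E5B71 Crest.Agent.R017.E5L770 Crest.Agent.R017.E5P571
open Crest.Agent.R017.E5H319 Crest.Agent.R017.E5Hg48
open Crest.Agent.R017.P1t54 (ParS)
open Crest.Agent.R017.P1l54 (Jo)
open Crest.Agent.R017.Sf770 (JS okJ_JS)
open Crest.Agent.R017.E4U164 (low5)

lemma ub_mono {A' Pc' ι' τ' Λ' : Type*} [DecidableEq τ'] {S : Sys A' ι'} {D : Pcs Pc' τ'}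
    {Ψ : Λ' → A' → List Pc' → ℝ} {Dom : Set ((ι' → ℝ) × (τ' → ℝ))}
    {al : Set ((ι' → ℝ) × ℝ)} {E : (ι' → ℝ) × (τ' → ℝ) → ℝ} {μ μ' : ℝ} (hμ : μ' ≤ μ)
    (H : UB S D Ψ Dom al (fun q => E q - μ)) : UB S D Ψ Dom al (fun q => E q - μ') := by
  intro ε hε
  obtain ⟨δ, hδ, K⟩ := H ε hε
  refine ⟨δ, hδ, fun lam N B => ?_⟩
  obtain ⟨δ', hδ', X₀, hX₀, K'⟩ := K lam N B
  refine ⟨δ', hδ', X₀, hX₀, fun X hX a ps h1 h2 q hq hw hm hg hl =>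
    (K' X hX a ps h1 h2 q hq hw hm hg hl).trans ?_⟩
  exact Real.rpow_le_rpow_of_exponent_le (by linarith) (by linarith)

/-- `top5 ≤ low5` -/
lemma top_low {A d : ℝ} {q : (Fin 3 ⊕ Fin 5 → ℝ) × (Kd → ℝ)} (hq : q ∈ SqD A d) :
    top5 q.1 ≤ low5 q.1 := by
  have hw : Sq5 A d q.1 q.2 := hq
  have hx0 : 0 ≤ cx' q.1 := hw.x0
  unfold top5 low5
  linarith

/-- `low5 + d/2 ≤ κ` -/
lemma low_le {A d : ℝ} (hA : 99 / 100 ≤ A) (hd : d ≤ 1 / 42)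
    {q : (Fin 3 ⊕ Fin 5 → ℝ) × (Kd → ℝ)} (hq : q ∈ SqD A d) : low5 q.1 + d / 2 ≤ cκ q.1 := by
  have hw : Sq5 A d q.1 q.2 := hq
  obtain ⟨h1, h2⟩ := parOK_sq hA hw
  have hκ31 := hw.κ31
  have hκp : 0 < cκ q.1 := by linarith
  have hN85 : cN q.1 ≤ 17 / 20 * cκ q.1 := by
    have := hw.tl.N85
    rwa [div_le_iff₀ hκp] at this
  unfold low5
  have h3 := min_le_right (2 * cN q.1 - cκ q.1) (3 / 4 * cN q.1)
  linarith

variable {Λ : Type*} {π : Λ → DPar} {h : ℝ → ℝ} {c₀ d A r : ℝ}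

lemma jo_ok (l N z : ℝ) : C70.OKJ (Jo l N z) := okJ_JS (nL l N z)

/-- **`StrU` at the official structured function** -/
theorem strU_top0 (hpu : PU h c₀) (hP : ∀ lam, (π lam).OK) (hd : 0 < d)
    (hd1 : d ≤ 1 / 42) (hA : 99 / 100 ≤ A) (hr0 : 0 ≤ r) (hr : ∀ u : ℝ, cx h u ≠ 0 → |u| ≤ r)
    {μ₁ : ℝ} (hμ₁ : 0 < μ₁)
    (tl0 : TailL π h (1 / 64) r bfO Jo A d μ₁)
    (tl : ∀ t, 0 < t → t ≤ 1 → TailL π h (eT (1 / 64) t) r (bT t) Jo A d μ₁)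
    {μ₂ : ℝ} (hμ₂ : 0 < μ₂)
    (low : ∀ t, 0 < t → t ≤ 1 → LowD π h (1 / 64) r Jo A d μ₂ low5 t)
    {σ : ℝ} (hσ : 0 < σ) (hσd : 2 * σ ≤ d)
    (hND : ∀ t, 0 < t → t ≤ 1 →
      Hi948.HNDg π h (eT (1 / 64) t) (1 / 64) (ParS A d) (loT low5 d t σ) top5 (LR d))
    (hNB : ∀ t, 0 < t → t ≤ 1 →
      Hi948.HNBg π h (1 / 64) (t / 2) (ParS A d) (loT low5 d t σ) top5 (LR d))
    (hm : MomU π h A d) :
    ∃ μ : ℝ, 0 < μ ∧ StrU π h (7 / 8 + d) (SfP π h (1 / 64) r bfO Jo nL) A d μ := by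
  obtain ⟨μ, hμ, m1, m2, m3⟩ : ∃ μ : ℝ, 0 < μ ∧ μ ≤ μ₁ ∧ μ ≤ μ₂ ∧ μ ≤ d / 9 :=
    ⟨min (min μ₁ μ₂) (d / 9), by positivity,
      (min_le_left _ _).trans (min_le_left _ _), (min_le_left _ _).trans (min_le_right _ _),
      min_le_right _ _⟩
  refine ⟨μ, hμ, ?_⟩
  exact strU_of_bandg hP (by linarith) hd le_rfl m3 (1 / 64) r (lo := low5)
    (fun q hq => top_low hq) (fun q hq => low_le hA hd1 hq) hσ hσd (al' := ∅)
    (fun t h1 h2 => ub_mono m2 (low t h1 h2))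
    (fun t h1 h2 => hiDb_of hP hpu hr0 hr r (by norm_num) (by norm_num) hA hd.le h1 h2
      (hND t h1 h2) (hNB t h1 h2) ∅)
    (fun R hR => ub_mono m1 (tl0 R hR)) (fun t h1 h2 R hR => ub_mono m1 (tl t h1 h2 R hR)) hm

end Crest.Agent.R017.StrT858
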