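import Crest.Agent.R017.TSc_968

/-!
# Row 17, exceptional class, R8 (helper968): real lines of the moments of the structured function

* `Gf`, `OwnF`, `ownF_of` : the numbers of the lists with a short lump (far claims)
* `G4X` : the number on `Fin 4 → ℝ` used for the natural and the replaced lengths
* `FfX`, `Bz` : the number and the bias of the children; `line2X`, `line4X` : the real lines
-/

set_option autoImplicit false

noncomputable section

namespace Crest.Agent.R017.TSf968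

open Crest.Agent.R017.ER911 Crest.Agent.R017.SC777
open Crest.Agent.R017.TM708 (tAll tCT tCT3 gv gv_eq tAll_le_CT3)
open Crest.Agent.R017.TK708 (AllT allT_of)
open Crest.Agent.R017.FN708 (Far far3 short_le)
open Crest.Agent.R017.OwA90 (Gt K0 FarOwn ShOwn NearOwn)
open Crest.Agent.R017.TSr968 (Ff Fc)
open Crest.Agent.R017.TM968 (qd)
open Crest.Agent.R017.TMw968 (q4)
open Crest.Agent.R017.TSc968 (Own)

variable {d : ℝ} {r s s₀ : EF}

/-- the number of a list with smallest lump `≤ u` -/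
def Gf (d v n u : ℝ) : ℝ :=
  min (max (max (2 * n) (v + n)) (4 / 3 * n +
      (v + max (n + u) (max (5 / 4 * n) (max (v + n / 2) (3 / 2 * v)))) / 3) + 2 / 3 * d * n)
    (max (v + 4 / 3 * n) (5 / 3 * n + v / 3))

/-- **the far numbers of the triples** -/
def OwnF (s₀ : EF) (d : ℝ) : Prop := ∀ v z₁ z₂ z₃ : ℝ, 0 ≤ v → 0 ≤ z₁ → 0 ≤ z₂ → 0 ≤ z₃ →
  s₀ v {z₁, z₂, z₃} 0 0 ≤ Gf d v (z₁ + z₂ + z₃) (min z₁ (min z₂ z₃))

/-- sorted lists -/
theorem ownF_sorted (hA : AllT d s₀) (hF : FarOwn d s₀) (hS : ShOwn s₀) (hd : 0 ≤ d)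
    {v A B C : ℝ} (hv : 0 ≤ v) (hC : 0 ≤ C) (hCB : C ≤ B) (hBA : B ≤ A) :
    s₀ v {A, B, C} 0 0 ≤ Gf d v (A + B + C) C := by
  obtain ⟨n, hn⟩ : ∃ n, n = A + B + C := ⟨_, rfl⟩
  obtain ⟨K, hK⟩ : ∃ K, K = max (n + C) (max (5 / 4 * n) (max (v + n / 2) (3 / 2 * v))) :=
    ⟨_, rfl⟩
  have k0 : n + C ≤ K := hK ▸ le_max_left _ _
  have k1 : 5 / 4 * n ≤ K := hK ▸ (le_max_left _ _).trans (le_max_right _ _)
  have k2 : v + n / 2 ≤ K := hK ▸ (le_max_left _ _).trans ((le_max_right _ _).trans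
    (le_max_right _ _))
  have k3 : 3 / 2 * v ≤ K := hK ▸ (le_max_right _ _).trans ((le_max_right _ _).trans
    (le_max_right _ _))
  have hdn : 2 * d * C ≤ 2 / 3 * d * n := by
    have := mul_le_mul_of_nonneg_left (show C ≤ n / 3 by linarith) (show 0 ≤ 2 * d by linarith)
    linarith
  rw [← hn]
  unfold Gf
  rw [← hK]
  have m1 := le_max_left (max (2 * n) (v + n)) (4 / 3 * n + (v + K) / 3)
  have m2 := le_max_right (max (2 * n) (v + n)) (4 / 3 * n + (v + K) / 3)
  have m4 := (le_max_right (2 * n) (v + n)).trans m1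
  have hdn0 : 0 ≤ 2 / 3 * d * n := by
    have : 0 ≤ n := by linarith
    positivity
  refine le_min ?_ ?_
  · rcases le_total (2 * v) (n + K) with h2 | h2
    · have hfar : Far K v (A + B + C) A B C 0 :=
        ⟨by linarith, hv, hC, by linarith, hCB, le_rfl, by linarith, by linarith, by ring,
          by linarith, by linarith, by linarith⟩
      have := hF K v A B C hfar (by linarith)
      rw [← hn] at this
      linarith
    · have := hS v A B C hv (by linarith) (by linarith) hC (by linarith)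
      rw [← hn] at this
      linarith
  · have h1 := (hA v A B C 0 0 hv (by linarith) (by linarith) hC le_rfl le_rfl).trans
      ((tAll_le_CT3 _ _ _ _ _ _).trans (min_le_left _ _))
    refine h1.trans ?_
    unfold tCT
    rw [gv_eq]
    have e1 := le_max_left (v + 4 / 3 * n) (5 / 3 * n + v / 3)
    have e2 := le_max_right (v + 4 / 3 * n) (5 / 3 * n + v / 3)
    have h3 : max (v + (C + (0 + 0)) + (A + B)) (A + B + (2 * (A + B) + (v + (C + (0 + 0)))) / 3) ≤
        max (v + 4 / 3 * n) (5 / 3 * n + v / 3) - C :=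
      max_le (by linarith) (by linarith)
    linarith

/-- **every list** -/
theorem ownF_gt (hA : AllT d s₀) (hF : FarOwn d s₀) (hS : ShOwn s₀) (hd : 0 ≤ d) :
    OwnF s₀ d := by
  intro v z₁ z₂ z₃ hv h1 h2 h3
  have key : ∀ A B C : ℝ, ({A, B, C} : Multiset ℝ) = {z₁, z₂, z₃} → A + B + C = z₁ + z₂ + z₃ →
      C = min z₁ (min z₂ z₃) → 0 ≤ C → C ≤ B → B ≤ A →
      s₀ v {z₁, z₂, z₃} 0 0 ≤ Gf d v (z₁ + z₂ + z₃) (min z₁ (min z₂ z₃)) := by
    intro A B C he hs hm hC hCB hBA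
    rw [← he, ← hs, ← hm]
    exact ownF_sorted hA hF hS hd hv hC hCB hBA
  have c12 : ∀ a b c : ℝ, ({a, b, c} : Multiset ℝ) = {b, a, c} := fun a b c => by
    simp only [Multiset.insert_eq_cons]
    exact Multiset.cons_swap a b {c}
  have c23 : ∀ a b c : ℝ, ({a, b, c} : Multiset ℝ) = {a, c, b} := fun a b c => by
    simp only [Multiset.insert_eq_cons]
    rw [show (b ::ₘ ({c} : Multiset ℝ)) = c ::ₘ {b} from Multiset.cons_swap b c 0]
  rcases le_total z₁ z₂ with a | a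
  · rcases le_total z₂ z₃ with b | b
    · exact key z₃ z₂ z₁ (by rw [c23 z₃ z₂ z₁, c12 z₃ z₁ z₂, c23 z₁ z₃ z₂]) (by ring)
        (by rw [min_eq_left b, min_eq_left a]) h1 a b
    · rcases le_total z₁ z₃ with c | c
      · exact key z₂ z₃ z₁ (by rw [c23 z₂ z₃ z₁, c12 z₂ z₁ z₃]) (by ring)
          (by rw [min_eq_right b, min_eq_left c]) h1 c b
      · exact key z₂ z₁ z₃ (c12 z₂ z₁ z₃) (by ring)
          (by rw [min_eq_right b, min_eq_right c]) h3 c a
  · rcases le_total z₁ z₃ with b | b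
    · exact key z₃ z₁ z₂ (by rw [c12 z₃ z₁ z₂, c23 z₁ z₃ z₂]) (by ring)
        (by rw [min_eq_left (a.trans b), min_eq_right a]) h2 a b
    · rcases le_total z₂ z₃ with c | c
      · exact key z₁ z₃ z₂ (c23 z₁ z₃ z₂) (by ring)
          (by rw [min_eq_left c, min_eq_right a]) h2 c b
      · exact key z₁ z₂ z₃ rfl rfl (by rw [min_eq_right c, min_eq_right b]) h3 c a

/-- **from the rules** -/
theorem ownF_of (R : ExpRules (7 / 8 + d) r s) (Rm : ExpRGFz (7 / 8 + d) r s s₀) (hd : 0 ≤ d)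
    (hd8 : 8 * d ≤ 1) : OwnF s₀ d := by
  refine ownF_gt (allT_of R Rm.toExpS0 hd (by linarith)) ?_ ?_ hd
  · intro K v A B C hf h2v
    have := far3 R Rm hd hd8 (m := 0) (a := 0) (by rw [zero_add]; exact hf) le_rfl le_rfl h2v
    have e : 2 * d * (C + 0 + 0) = 2 * d * C := by ring
    linarith
  · intro v z₁ z₂ z₃ hv h1 h2 h3 hs
    have := short_le R Rm.toExpS0 (w := 0) hv h1 h2 h3 le_rfl (by linarith)
    linarith

/-- the number for the natural and the replaced lengths -/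
def G4X (d : ℝ) (q : Fin 4 → ℝ) : ℝ :=
  min (Gt d (q 0) (q 1 + q 2 + q 3) (max (q 1) (max (q 2) (q 3))))
    (Gf d (q 0) (q 1 + q 2 + q 3) (min (q 1) (min (q 2) (q 3))))

lemma G4X_cont (d : ℝ) : Continuous (G4X d) := by
  unfold G4X Gf OwA90.Gt OwA90.K0
  fun_prop

lemma own_G4X (hO : Own s₀ d) (hF : OwnF s₀ d) (q : Fin 4 → ℝ) (hq : ∀ i, 0 ≤ q i) :
    s₀ (q 0) {q 1, q 2, q 3} 0 0 ≤ G4X d q :=
  le_min (hO _ _ _ _ (hq 0) (hq 1) (hq 2) (hq 3)) (hF _ _ _ _ (hq 0) (hq 1) (hq 2) (hq 3))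

/-! ### the children -/

/-- the number of a child -/
def FfX (K1 u ℓ v n : ℝ) : ℝ :=
  min (max (max (2 * n) (v + n)) (4 / 3 * n +
      (v + max (n + u) (max K1 (max (v + n / 2) (3 / 2 * v)))) / 3) + ℓ)
    (max (v + 4 / 3 * n) (5 / 3 * n + v / 3))

/-- the bias of a child -/
def Bz (s v m γ : ℝ) : ℝ := 2 / 3 * v + 5 / 3 * (m - γ) - max 0 (s - γ)

lemma Gt_le_FfX {v n z K1 u ℓ : ℝ} (h1 : 5 / 4 * n ≤ K1) (h2 : 200 / 61 * z ≤ K1)
    (h3 : 2 / 3 * d * n ≤ ℓ) : Gt d v n z ≤ FfX K1 u ℓ v n := by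
  refine (TSc968.Gt_le_Ff h1 h2 h3).trans ?_
  unfold TSr968.Ff FfX
  refine min_le_min ?_ le_rfl
  have : max (max (2 * n) (v + n)) (4 / 3 * n + (v + max K1 (max (v + n / 2) (3 / 2 * v))) / 3) ≤
      max (max (2 * n) (v + n)) (4 / 3 * n +
        (v + max (n + u) (max K1 (max (v + n / 2) (3 / 2 * v)))) / 3) :=
    max_le_max le_rfl (by linarith [le_max_right (n + u) (max K1 (max (v + n / 2) (3 / 2 * v)))])
  linarith

lemma Gf_le_FfX {v n w K1 u ℓ : ℝ} (h1 : 5 / 4 * n ≤ K1) (h2 : w ≤ u)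
    (h3 : 2 / 3 * d * n ≤ ℓ) : Gf d v n w ≤ FfX K1 u ℓ v n := by
  have hK : max (n + w) (max (5 / 4 * n) (max (v + n / 2) (3 / 2 * v))) ≤
      max (n + u) (max K1 (max (v + n / 2) (3 / 2 * v))) :=
    max_le_max (by linarith) (max_le_max h1 le_rfl)
  unfold Gf FfX
  refine min_le_min ?_ le_rfl
  have : max (max (2 * n) (v + n)) (4 / 3 * n +
      (v + max (n + w) (max (5 / 4 * n) (max (v + n / 2) (3 / 2 * v)))) / 3) ≤
      max (max (2 * n) (v + n)) (4 / 3 * n +
        (v + max (n + u) (max K1 (max (v + n / 2) (3 / 2 * v)))) / 3) :=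
    max_le_max le_rfl (by linarith)
  linarith

lemma FfX_slope {K1 u ℓ v σ n : ℝ} (hσ : 0 ≤ σ) : FfX K1 u ℓ (v + σ) n ≤ FfX K1 u ℓ v n + σ := by
  have hK : max (n + u) (max K1 (max (v + σ + n / 2) (3 / 2 * (v + σ)))) ≤
      max (n + u) (max K1 (max (v + n / 2) (3 / 2 * v))) + 3 / 2 * σ := by
    have h0 := le_max_left (n + u) (max K1 (max (v + n / 2) (3 / 2 * v)))
    have h1 := (le_max_left K1 (max (v + n / 2) (3 / 2 * v))).trans (le_max_right (n + u) _)
    have h2 := ((le_max_left (v + n / 2) (3 / 2 * v)).trans (le_max_right K1 _)).trans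
      (le_max_right (n + u) _)
    have h3 := ((le_max_right (v + n / 2) (3 / 2 * v)).trans (le_max_right K1 _)).trans
      (le_max_right (n + u) _)
    exact max_le (by linarith) (max_le (by linarith) (max_le (by linarith) (by linarith)))
  unfold FfX
  rw [min_add]
  refine min_le_min ?_ ?_
  · have h1 := le_max_left (max (2 * n) (v + n))
      (4 / 3 * n + (v + max (n + u) (max K1 (max (v + n / 2) (3 / 2 * v)))) / 3)
    have h2 := le_max_right (max (2 * n) (v + n))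
      (4 / 3 * n + (v + max (n + u) (max K1 (max (v + n / 2) (3 / 2 * v)))) / 3)
    have h3 := le_max_left (2 * n) (v + n)
    have h4 := le_max_right (2 * n) (v + n)
    have : max (max (2 * n) (v + σ + n)) (4 / 3 * n +
        (v + σ + max (n + u) (max K1 (max (v + σ + n / 2) (3 / 2 * (v + σ))))) / 3) ≤
        max (max (2 * n) (v + n)) (4 / 3 * n +
          (v + max (n + u) (max K1 (max (v + n / 2) (3 / 2 * v)))) / 3) + σ :=
      max_le (max_le (by linarith) (by linarith)) (by linarith)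
    linarith
  · have h1 := le_max_left (v + 4 / 3 * n) (5 / 3 * n + v / 3)
    have h2 := le_max_right (v + 4 / 3 * n) (5 / 3 * n + v / 3)
    exact max_le (by linarith) (by linarith)

/-- **the facts, class E** : `u` = short lump of the replaced list, `s` = length of the difference -/
structure FcX (N c v k x b K1 u s ℓ η τ : ℝ) : Prop where
  fc : Fc N c v k x b K1 η τ
  ℓ0 : 0 ≤ ℓ
  vu : v + u ≤ N + 3 * η
  w : 2 / 3 * (v + 2 * c) ≤ N / 2 + ℓ + η
  s : N / 6 + 1 / 64 + 2 * η ≤ s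

variable {N c v k x b K1 u ℓ η τ σ : ℝ}

/-- the first form -/
lemma firstX (H : FcX N c v k x b K1 u σ ℓ η τ) {q E : ℝ} (hq : q + 4 / 3 * x ≤ E) :
    max (max (2 * (N - c - b - x)) ((v + b - 2 * x) + (N - c - b - x))) (4 / 3 * (N - c - b - x) +
      ((v + b - 2 * x) + max ((N - c - b - x) + u) (max K1 (max ((v + b - 2 * x) +
        (N - c - b - x) / 2) (3 / 2 * (v + b - 2 * x))))) / 3) + ℓ + 3 * x + b + q + 4 / 3 * c ≤
      2 * N + ℓ + τ + E := by
  have h0 := TSr968.first (ℓ := ℓ) H.fc hq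
  have hvu := H.vu
  obtain ⟨c0, c1, x0, xv, b0, b1, v1, hK1, N0, k1, η0, τ0, τ1, η1⟩ := H.fc
  have h7 : 4 / 3 * (N - c - b - x) + ((v + b - 2 * x) + ((N - c - b - x) + u)) / 3 + ℓ + 3 * x +
      b + q + 4 / 3 * c ≤ 2 * N + ℓ + τ + E := by linarith
  rcases le_total ((N - c - b - x) + u) (max K1 (max ((v + b - 2 * x) +
        (N - c - b - x) / 2) (3 / 2 * (v + b - 2 * x)))) with h | h
  · rw [max_eq_right h]; exact h0
  · rw [max_eq_left h]
    rcases le_total (4 / 3 * (N - c - b - x) + ((v + b - 2 * x) + ((N - c - b - x) + u)) / 3)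
      (max (2 * (N - c - b - x)) ((v + b - 2 * x) + (N - c - b - x))) with h' | h'
    · rw [max_eq_left h']
      have := le_max_left (max (2 * (N - c - b - x)) ((v + b - 2 * x) + (N - c - b - x)))
        (4 / 3 * (N - c - b - x) + ((v + b - 2 * x) + max K1 (max ((v + b - 2 * x) +
          (N - c - b - x) / 2) (3 / 2 * (v + b - 2 * x)))) / 3)
      linarith
    · rw [max_eq_right h']; exact h7

/-- the bias, the branches with gain in `x` -/
lemma biasA (H : FcX N c v k x b K1 u σ ℓ η τ) {q E : ℝ} (hq : q + 4 / 3 * x ≤ E) :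
    Bz (σ - c) (v + b - 2 * x) (N - c) (b + x) + 3 * x + b + q + 4 / 3 * c ≤
      2 * N + ℓ + τ + E := by
  have hw := H.w
  have hs := H.s
  obtain ⟨c0, c1, x0, xv, b0, b1, v1, hK1, N0, k1, η0, τ0, τ1, η1⟩ := H.fc
  have h1 := le_max_right 0 (σ - c - (b + x))
  unfold Bz
  linarith

/-- the bias, without the difference -/
lemma biasB (H : FcX N c v k x b K1 u σ ℓ η τ) {q E : ℝ}
    (hq : 2 / 3 * v + q ≤ E + k / 3) :
    Bz (σ - c) (v + b - 2 * x) (N - c) (b + x) + 3 * x + b + q + 4 / 3 * c ≤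
      2 * N + ℓ + τ + E := by
  have hl := H.ℓ0
  obtain ⟨c0, c1, x0, xv, b0, b1, v1, hK1, N0, k1, η0, τ0, τ1, η1⟩ := H.fc
  have h1 := le_max_left 0 (σ - c - (b + x))
  unfold Bz
  linarith

/-- **the real line of the second moment, class E** -/
theorem line2X (H : FcX N c v k x b K1 u σ ℓ η τ) :
    max (FfX K1 u ℓ (v + b - 2 * x) (N - c - b - x)) (Bz (σ - c) (v + b - 2 * x) (N - c) (b + x)) +
      3 * x + b + qd k v 0 x + 4 / 3 * c ≤
      2 * N + ℓ + τ + max k (max v (2 / 3 * (k + v))) := by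
  have e1 : k ≤ max k (max v (2 / 3 * (k + v))) := le_max_left _ _
  have e2 : v ≤ max k (max v (2 / 3 * (k + v))) := (le_max_left _ _).trans (le_max_right _ _)
  have e3 : 2 / 3 * (k + v) ≤ max k (max v (2 / 3 * (k + v))) :=
    (le_max_right _ _).trans (le_max_right _ _)
  obtain ⟨E, hE⟩ : ∃ E, E = max k (max v (2 / 3 * (k + v))) := ⟨_, rfl⟩
  rw [← hE] at e1 e2 e3 ⊢
  have hℓ := H.ℓ0
  have hx0 := H.fc.x0
  have hxv := H.fc.xv
  have f1 : FfX K1 u ℓ (v + b - 2 * x) (N - c - b - x) ≤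
      max (max (2 * (N - c - b - x)) ((v + b - 2 * x) + (N - c - b - x)))
        (4 / 3 * (N - c - b - x) + ((v + b - 2 * x) + max ((N - c - b - x) + u) (max K1
          (max ((v + b - 2 * x) + (N - c - b - x) / 2) (3 / 2 * (v + b - 2 * x))))) / 3) + ℓ :=
    min_le_left _ _
  have g2 := firstX H (q := v - 2 * x) (E := E) (by linarith)
  have g3 := firstX H (q := 2 / 3 * (k + (v - 2 * x))) (E := E) (by linarith)
  have a2 := biasA H (q := v - 2 * x) (E := E) (by linarith)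
  have a3 := biasA H (q := 2 / 3 * (k + (v - 2 * x))) (E := E) (by linarith)
  have a1 := biasB H (q := k) (E := E) (by
    rcases le_total v (k / 2) with h' | h' <;> linarith)
  have g1 : FfX K1 u ℓ (v + b - 2 * x) (N - c - b - x) + 3 * x + b + k + 4 / 3 * c ≤
      2 * N + ℓ + τ + E := by
    rcases le_total k (2 * (v - 2 * x)) with h | h
    · linarith
    · obtain ⟨c0, c1, x0, xv, b0, b1, v1, hK1, N0, k1, η0, τ0, τ1, η1⟩ := H.fc
      have f2 : FfX K1 u ℓ (v + b - 2 * x) (N - c - b - x) ≤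
          max ((v + b - 2 * x) + 4 / 3 * (N - c - b - x))
            (5 / 3 * (N - c - b - x) + (v + b - 2 * x) / 3) := min_le_right _ _
      have f3 : max ((v + b - 2 * x) + 4 / 3 * (N - c - b - x))
          (5 / 3 * (N - c - b - x) + (v + b - 2 * x) / 3) ≤
          2 * N + ℓ + τ + E - (3 * x + b + k + 4 / 3 * c) := by
        rcases le_total v (k / 2) with h' | h'
        · refine max_le ?_ ?_ <;> linarith
        · refine max_le ?_ ?_ <;> linarith
      linarith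
  have key : ∀ q : ℝ, FfX K1 u ℓ (v + b - 2 * x) (N - c - b - x) + 3 * x + b + q + 4 / 3 * c ≤
      2 * N + ℓ + τ + E → Bz (σ - c) (v + b - 2 * x) (N - c) (b + x) + 3 * x + b + q +
        4 / 3 * c ≤ 2 * N + ℓ + τ + E →
      max (FfX K1 u ℓ (v + b - 2 * x) (N - c - b - x))
        (Bz (σ - c) (v + b - 2 * x) (N - c) (b + x)) + 3 * x + b + q + 4 / 3 * c ≤
        2 * N + ℓ + τ + E := by
    intro q h1 h2
    rcases max_cases (FfX K1 u ℓ (v + b - 2 * x) (N - c - b - x))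
      (Bz (σ - c) (v + b - 2 * x) (N - c) (b + x)) with ⟨h, -⟩ | ⟨h, -⟩
    · rw [h]; exact h1
    · rw [h]; exact h2
  unfold TM968.qd
  rw [add_zero]
  rcases max_cases k (max (v - 2 * x) (2 / 3 * (k + (v - 2 * x)))) with ⟨h, -⟩ | ⟨h, -⟩
  · rw [h]; exact key _ g1 a1
  · rw [h]
    rcases max_cases (v - 2 * x) (2 / 3 * (k + (v - 2 * x))) with ⟨h', -⟩ | ⟨h', -⟩
    · rw [h']; exact key _ (by linarith) a2
    · rw [h']; exact key _ (by linarith) a3

/-- **the real line of the fourth moment, class E** -/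
theorem line4X (H : FcX N c v k x b K1 u σ ℓ η τ) :
    max (FfX K1 u ℓ (v + b - 2 * x) (N - c - b - x)) (Bz (σ - c) (v + b - 2 * x) (N - c) (b + x)) +
      3 * x + b + q4 k v x + 4 / 3 * c ≤
      2 * N + ℓ + τ + max (k + 2 / 3 * v) (max (2 * v) (2 / 3 * (k + 2 * v))) / 2 := by
  have e1 : k + 2 / 3 * v ≤ max (k + 2 / 3 * v) (max (2 * v) (2 / 3 * (k + 2 * v))) :=
    le_max_left _ _
  have e2 : 2 * v ≤ max (k + 2 / 3 * v) (max (2 * v) (2 / 3 * (k + 2 * v))) :=
    (le_max_left _ _).trans (le_max_right _ _)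
  have e3 : 2 / 3 * (k + 2 * v) ≤ max (k + 2 / 3 * v) (max (2 * v) (2 / 3 * (k + 2 * v))) :=
    (le_max_right _ _).trans (le_max_right _ _)
  obtain ⟨E, hE⟩ : ∃ E, E = max (k + 2 / 3 * v) (max (2 * v) (2 / 3 * (k + 2 * v))) := ⟨_, rfl⟩
  rw [← hE] at e1 e2 e3 ⊢
  have hℓ := H.ℓ0
  have hx0 := H.fc.x0
  have hxv := H.fc.xv
  have f1 : FfX K1 u ℓ (v + b - 2 * x) (N - c - b - x) ≤
      max (max (2 * (N - c - b - x)) ((v + b - 2 * x) + (N - c - b - x)))
        (4 / 3 * (N - c - b - x) + ((v + b - 2 * x) + max ((N - c - b - x) + u) (max K1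
          (max ((v + b - 2 * x) + (N - c - b - x) / 2) (3 / 2 * (v + b - 2 * x))))) / 3) + ℓ :=
    min_le_left _ _
  have g2 := firstX H (q := v - 2 * x) (E := E / 2) (by linarith)
  have g3 := firstX H (q := (k + 2 * (v - 2 * x)) / 3) (E := E / 2) (by linarith)
  have a2 := biasA H (q := v - 2 * x) (E := E / 2) (by linarith)
  have a3 := biasA H (q := (k + 2 * (v - 2 * x)) / 3) (E := E / 2) (by linarith)
  have a1 : Bz (σ - c) (v + b - 2 * x) (N - c) (b + x) + 3 * x + b +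
      (k / 2 + (v - 2 * x) / 3) + 4 / 3 * c ≤ 2 * N + ℓ + τ + E / 2 := by
    rcases le_total k (2 * (v - 2 * x)) with h | h
    · linarith
    · refine biasB H ?_
      rcases le_total v (k / 2) with h' | h' <;> linarith
  have g1 : FfX K1 u ℓ (v + b - 2 * x) (N - c - b - x) + 3 * x + b +
      (k / 2 + (v - 2 * x) / 3) + 4 / 3 * c ≤ 2 * N + ℓ + τ + E / 2 := by
    rcases le_total k (2 * (v - 2 * x)) with h | h
    · linarith
    · obtain ⟨c0, c1, x0, xv, b0, b1, v1, hK1, N0, k1, η0, τ0, τ1, η1⟩ := H.fc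
      have f2 : FfX K1 u ℓ (v + b - 2 * x) (N - c - b - x) ≤
          max ((v + b - 2 * x) + 4 / 3 * (N - c - b - x))
            (5 / 3 * (N - c - b - x) + (v + b - 2 * x) / 3) := min_le_right _ _
      have f3 : max ((v + b - 2 * x) + 4 / 3 * (N - c - b - x))
          (5 / 3 * (N - c - b - x) + (v + b - 2 * x) / 3) ≤
          2 * N + ℓ + τ + E / 2 - (3 * x + b + (k / 2 + (v - 2 * x) / 3) + 4 / 3 * c) := by
        rcases le_total v (k / 2) with h' | h'
        · refine max_le ?_ ?_ <;> linarith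
        · refine max_le ?_ ?_ <;> linarith
      linarith
  have key : ∀ q : ℝ, FfX K1 u ℓ (v + b - 2 * x) (N - c - b - x) + 3 * x + b + q + 4 / 3 * c ≤
      2 * N + ℓ + τ + E / 2 → Bz (σ - c) (v + b - 2 * x) (N - c) (b + x) + 3 * x + b + q +
        4 / 3 * c ≤ 2 * N + ℓ + τ + E / 2 →
      max (FfX K1 u ℓ (v + b - 2 * x) (N - c - b - x))
        (Bz (σ - c) (v + b - 2 * x) (N - c) (b + x)) + 3 * x + b + q + 4 / 3 * c ≤
        2 * N + ℓ + τ + E / 2 := by
    intro q h1 h2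
    rcases max_cases (FfX K1 u ℓ (v + b - 2 * x) (N - c - b - x))
      (Bz (σ - c) (v + b - 2 * x) (N - c) (b + x)) with ⟨h, -⟩ | ⟨h, -⟩
    · rw [h]; exact h1
    · rw [h]; exact h2
  unfold TMw968.q4
  rcases max_cases (k / 2 + (v - 2 * x) / 3) (max (v - 2 * x) ((k + 2 * (v - 2 * x)) / 3))
    with ⟨h, -⟩ | ⟨h, -⟩
  · rw [h]; exact key _ g1 a1
  · rw [h]
    rcases max_cases (v - 2 * x) ((k + 2 * (v - 2 * x)) / 3) with ⟨h', -⟩ | ⟨h', -⟩
    · rw [h']; exact key _ (by linarith) a2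
    · rw [h']; exact key _ (by linarith) a3

end Crest.Agent.R017.TSf968
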