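import Crest.Agent.R017.E5Mb_372
import Crest.Agent.R017.SSb_54
import Crest.Agent.R017.C70Defs_54

/-!
# Row 17, R8: `TailU`, decomposition of the tail (helper47)

* `prim_cube` : a primary `k` is `k₁ m³`, `k₁`, `m` primary, `k₁` cube-free
* `cube_sum` : the sum over the primary `k` with a large cube is at most the sum over `(m, k₁)`
* `cube_cauchy` : Cauchy at fixed `m`
* `sst_cauchy` : Cauchy over the powerful tuples
-/

set_option autoImplicit false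

noncomputable section

open Complex Finset
open scoped ComplexConjugate

namespace Crest.Agent.R017.TU47

open Crest.Agent.R012 Crest.Agent.R012.Eis Crest.Agent.R012.Char766
open Crest.Agent.R012.Mob705 hiding pb mem_pb
open Crest.Agent.R017.CM106 Crest.Agent.R017.FE47
open Crest.Agent.R017.C70 (CbF)
open Crest.Agent.R017.B770 Crest.Agent.R017.Prov71
open Crest.Agent.R017.E5B71 Crest.Agent.R017.E5P571
open Crest.Agent.R017.E2440 (TE StE)
open Crest.Agent.R017.E5k54 (alb)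
open Crest.Agent.R017.SSb54 (SST)

/-- a primary `k` is `k₁ m³` -/
lemma prim_cube {k : Eis} (hk : IsPrim k) :
    ∃ z : Eis × Eis, IsPrim z.2 ∧ CbF z.2 ∧ IsPrim z.1 ∧ k = z.2 * z.1 ^ 3 := by
  obtain ⟨k1, k2, m, h1, h2, hm, s1, s2, hc, he⟩ := exists_prim_cubic_decomp hk
  refine ⟨(m, k1 * k2 ^ 2), h1.mul (h2.pow 2), ?_, hm, he⟩
  intro p hp hd
  by_cases d1 : p ∣ k1
  · have d2 : ¬ p ∣ k2 := fun h => hp.not_isUnit (hc.isUnit_of_dvd' d1 h)
    have d3 : ¬ p ∣ k2 ^ 2 := fun h => d2 (hp.dvd_of_dvd_pow h)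
    have d4 : p ^ 3 ∣ k1 := hp.pow_dvd_of_dvd_mul_right 3 d3 hd
    have d5 : p * p ∣ k1 := (Dvd.intro p (by ring)).trans d4
    exact hp.not_isUnit (s1 p d5)
  · have d4 : p ^ 3 ∣ k2 ^ 2 := hp.pow_dvd_of_dvd_mul_left 3 d1 hd
    have d6 : p ∣ k2 := hp.dvd_of_dvd_pow ((dvd_pow_self p (by norm_num)).trans d4)
    obtain ⟨c, rfl⟩ := d6
    have h7 : p ^ 2 * p ∣ p ^ 2 * c ^ 2 := by
      have : p ^ 3 ∣ p ^ 2 * c ^ 2 := by rw [mul_pow] at d4; exact d4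
      calc p ^ 2 * p = p ^ 3 := by ring
        _ ∣ _ := this
    have h8 : p ∣ c ^ 2 := (mul_dvd_mul_iff_left (pow_ne_zero 2 hp.ne_zero)).mp h7
    have h9 : p ∣ c := hp.dvd_of_dvd_pow h8
    exact hp.not_isUnit (s2 p (mul_dvd_mul_left p h9))

/-- the pair `(m, k₁)` -/
def pm (k : Eis) : Eis × Eis := by
  classical
  exact if hk : IsPrim k then (prim_cube hk).choose else (1, k)

lemma pm_spec {k : Eis} (hk : IsPrim k) :
    IsPrim (pm k).2 ∧ CbF (pm k).2 ∧ IsPrim (pm k).1 ∧ k = (pm k).2 * (pm k).1 ^ 3 := by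
  unfold pm
  rw [dif_pos hk]
  exact (prim_cube hk).choose_spec

lemma nm1 {k : Eis} (hk : k ≠ 0) : (1 : ℝ) ≤ nm k := by exact_mod_cast nm_pos.2 hk

/-- a cube dividing `k₁ m³` divides `m³` -/
lemma nm_le_of_cube {k₁ m c : Eis} (h0 : k₁ ≠ 0) (hm : m ≠ 0) (hf : CbF k₁)
    (h : c ^ 3 ∣ k₁ * m ^ 3) : nm c ≤ nm m := by
  obtain ⟨x, hx⟩ := E5M372.dvd_of_cube_dvd (r := k₁) ⟨h0, hf⟩ c m h
  have hx0 : x ≠ 0 := by
    rintro rfl
    rw [mul_zero] at hx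
    exact hm hx
  rw [hx, nm_mul]
  exact Nat.le_mul_of_pos_right _ (nm_pos.2 hx0)

open Classical in
/-- the cube-free parts at `m` : `N k₁ N m³ ∈ [L, Y]` -/
def KS (n : Eis) (L Y : ℝ) (m : Eis) : Finset Eis :=
  (primBall ⌊Y / (nm m : ℝ) ^ 3⌋₊).filter fun k =>
    CbF k ∧ IsCoprime k n ∧ L / (nm m : ℝ) ^ 3 ≤ nm k

open Classical in
/-- the `m` : `E₁ < N m`, `N m³ ≤ Y` -/
def MS' (E₁ Y : ℝ) : Finset Eis :=
  (primBall ⌊Y ^ ((1 : ℝ) / 3)⌋₊).filter fun m => E₁ < nm m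

open Classical in
/-- **the sum over the `k` with a large cube** -/
theorem cube_sum {n : Eis} {E₁ L Y : ℝ} (hY : 0 ≤ Y) (Q Q' : Eis → Prop)
    (hQ : ∀ k₁ m, IsPrim k₁ → IsPrim m → Q (k₁ * m ^ 3) → Q' k₁) {F : Eis → ℝ}
    (hF : ∀ k, 0 ≤ F k) :
    ∑ k ∈ (PB n ⌊Y⌋₊).filter (fun k => ¬ cutE E₁ k ∧ L ≤ nm k ∧ Q k), F k ≤
      ∑ m ∈ MS' E₁ Y, ∑ k ∈ (KS n L Y m).filter Q', F (k * m ^ 3) := by
  rw [Finset.sum_sigma']
  set Om : Finset (Σ _ : Eis, Eis) := (MS' E₁ Y).sigma fun m => (KS n L Y m).filter Q' with hOm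
  set A := (PB n ⌊Y⌋₊).filter (fun k => ¬ cutE E₁ k ∧ L ≤ nm k ∧ Q k) with hA
  have hinj : Set.InjOn (fun k => (⟨(pm k).1, (pm k).2⟩ : Σ _ : Eis, Eis)) (A : Set Eis) := by
    intro a ha b hb hab
    have h1 : IsPrim a := (mem_PB.1 (Finset.mem_filter.1 (Finset.mem_coe.1 ha)).1).2.1
    have h2 : IsPrim b := (mem_PB.1 (Finset.mem_filter.1 (Finset.mem_coe.1 hb)).1).2.1
    simp only [Sigma.mk.injEq, heq_eq_eq] at hab
    rw [(pm_spec h1).2.2.2, (pm_spec h2).2.2.2, hab.1, hab.2]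
  calc ∑ k ∈ A, F k = ∑ k ∈ A, F ((pm k).2 * (pm k).1 ^ 3) := by
        refine Finset.sum_congr rfl fun k hk => ?_
        have h1 : IsPrim k := (mem_PB.1 (Finset.mem_filter.1 hk).1).2.1
        rw [← (pm_spec h1).2.2.2]
    _ = ∑ x ∈ A.image (fun k => (⟨(pm k).1, (pm k).2⟩ : Σ _ : Eis, Eis)), F (x.2 * x.1 ^ 3) := by
        rw [Finset.sum_image hinj]
    _ ≤ _ := by
        refine Finset.sum_le_sum_of_subset_of_nonneg ?_ fun x _ _ => hF _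
        intro x hx
        rw [Finset.mem_image] at hx
        obtain ⟨k, hk, rfl⟩ := hx
        rw [hA, Finset.mem_filter, mem_PB] at hk
        obtain ⟨⟨h1, h2, h3⟩, h4, h5, h6⟩ := hk
        obtain ⟨s1, s2, s3, s4⟩ := pm_spec h2
        set m := (pm k).1 with hm
        set k₁ := (pm k).2 with hk₁
        have n1 := nm1 s1.ne_zero
        have n2 := nm1 s3.ne_zero
        have hn : (nm k : ℝ) = nm k₁ * (nm m : ℝ) ^ 3 := by
          rw [s4, nm_mul, nm_pow]; push_cast; rfl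
        have hkY : (nm k : ℝ) ≤ Y := (Nat.cast_le.2 h1).trans (Nat.floor_le hY)
        have hm3 : (1 : ℝ) ≤ (nm m : ℝ) ^ 3 := one_le_pow₀ n2
        have hm3p : (0 : ℝ) < (nm m : ℝ) ^ 3 := by linarith
        rw [hOm, Finset.mem_sigma]
        unfold MS' KS
        rw [Finset.mem_filter, Finset.mem_filter, Finset.mem_filter, mem_primBall, mem_primBall]
        refine ⟨⟨⟨?_, s3⟩, ?_⟩, ⟨⟨?_, s1⟩, s2, ?_, ?_⟩, ?_⟩
        · refine Nat.le_floor ?_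
          calc (nm m : ℝ) = ((nm m : ℝ) ^ 3) ^ ((1 : ℝ) / 3) := by
                rw [← Real.rpow_natCast, ← Real.rpow_mul (by positivity)]
                norm_num
            _ ≤ Y ^ ((1 : ℝ) / 3) := Real.rpow_le_rpow (by positivity) (by nlinarith) (by norm_num)
        · unfold cutE at h4
          push Not at h4
          obtain ⟨c, _, hc, hlt⟩ := h4
          rw [s4] at hc
          exact hlt.trans_le (by exact_mod_cast nm_le_of_cube s1.ne_zero s3.ne_zero s2 hc)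
        · refine Nat.le_floor ?_
          rw [le_div_iff₀ hm3p, ← hn]
          exact hkY
        · rw [s4] at h3
          exact h3.of_mul_left_left
        · rw [div_le_iff₀ hm3p, ← hn]
          exact h5
        · refine hQ k₁ m s1 s3 ?_
          rw [← s4]
          exact h6

open Classical in
/-- **Cauchy at fixed `m`** -/
theorem cube_cauchy {n : Eis} {E₁ L Y : ℝ} (hY : 0 ≤ Y) (Q Q' : Eis → Prop)
    (hQ : ∀ k₁ m, IsPrim k₁ → IsPrim m → Q (k₁ * m ^ 3) → Q' k₁) {F G : Eis → ℝ}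
    (hF : ∀ k, 0 ≤ F k) (hG : ∀ k, 0 ≤ G k) :
    ∑ k ∈ (PB n ⌊Y⌋₊).filter (fun k => ¬ cutE E₁ k ∧ L ≤ nm k ∧ Q k), F k * G k ≤
      ∑ m ∈ MS' E₁ Y, Real.sqrt (∑ k ∈ (KS n L Y m).filter Q', F (k * m ^ 3) ^ 2) *
        Real.sqrt (∑ k ∈ (KS n L Y m).filter Q', G (k * m ^ 3) ^ 2) := by
  refine (cube_sum hY Q Q' hQ fun k => mul_nonneg (hF k) (hG k)).trans ?_
  refine Finset.sum_le_sum fun m _ => ?_
  rw [← Real.sqrt_mul (Finset.sum_nonneg fun _ _ => sq_nonneg _)]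
  refine Real.le_sqrt_of_sq_le ?_
  exact Finset.sum_mul_sq_le_sq_mul_sq _ _ _

/-- weight of a tuple -/
def wβ {ι : Type*} [Fintype ι] (β : ι → Eis) : ℝ := (nm (∏ i, β i) : ℝ) ^ (-(1 : ℝ) / 2)

/-- **Cauchy over the tuples** -/
theorem sst_cauchy {ι : Type*} [Fintype ι] (T : Finset (ι → Eis)) (hT : ∀ β ∈ T, ∏ i, β i ≠ 0)
    (f : ι → Eis → ℂ) (E0 : ℝ) (J : Finset (Eis × Eis)) (om : Eis × Eis → ℂ) (A : Finset Eis)
    (m : Eis) (B : Eis → ℝ) (hB : ∀ k, 0 ≤ B k) :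
    ∑ k ∈ A, ‖SST T f E0 J om (k * m ^ 3)‖ ^ 2 * B k ≤
      (∑ β ∈ T, wβ β) * ∑ β ∈ T, (nm (∏ i, β i) : ℝ) ^ ((1 : ℝ) / 2) *
        ∑ k ∈ A, ‖StE E0 J om (alb f β) (k * m ^ 3)‖ ^ 2 * B k := by
  have h1 : ∀ k ∈ A, ‖SST T f E0 J om (k * m ^ 3)‖ ^ 2 * B k ≤
      (∑ β ∈ T, wβ β) * ∑ β ∈ T, (nm (∏ i, β i) : ℝ) ^ ((1 : ℝ) / 2) *
        (‖StE E0 J om (alb f β) (k * m ^ 3)‖ ^ 2 * B k) := by
    intro k _
    have h2 : ‖SST T f E0 J om (k * m ^ 3)‖ ≤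
        ∑ β ∈ T, Real.sqrt (wβ β) * (Real.sqrt ((nm (∏ i, β i) : ℝ) ^ ((1 : ℝ) / 2)) *
          ‖StE E0 J om (alb f β) (k * m ^ 3)‖) := by
      unfold SST
      refine (norm_sum_le _ _).trans (Finset.sum_le_sum fun β hβ => ?_)
      have hn := nm1 (hT β hβ)
      have hn0 : (0 : ℝ) < nm (∏ i, β i) := by linarith
      rw [← mul_assoc, ← Real.sqrt_mul (by unfold wβ; positivity)]
      have e1 : wβ β * (nm (∏ i, β i) : ℝ) ^ ((1 : ℝ) / 2) = 1 := by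
        unfold wβ
        rw [← Real.rpow_add hn0]; norm_num
      rw [e1, Real.sqrt_one, one_mul, norm_mul]
      have h3 : ‖sy (k * m ^ 3) (∏ i, β i)‖ ≤ 1 := norm_sy_le _ _
      calc ‖sy (k * m ^ 3) (∏ i, β i)‖ * ‖StE E0 J om (alb f β) (k * m ^ 3)‖
          ≤ 1 * ‖StE E0 J om (alb f β) (k * m ^ 3)‖ := by gcongr
        _ = _ := one_mul _
    have h4 : ‖SST T f E0 J om (k * m ^ 3)‖ ^ 2 ≤ (∑ β ∈ T, wβ β) *
        ∑ β ∈ T, (nm (∏ i, β i) : ℝ) ^ ((1 : ℝ) / 2) *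
          ‖StE E0 J om (alb f β) (k * m ^ 3)‖ ^ 2 := by
      refine (pow_le_pow_left₀ (norm_nonneg _) h2 2).trans ?_
      refine (Finset.sum_mul_sq_le_sq_mul_sq _ _ _).trans (le_of_eq ?_)
      congr 1
      · refine Finset.sum_congr rfl fun β _ => Real.sq_sqrt (by unfold wβ; positivity)
      · refine Finset.sum_congr rfl fun β _ => ?_
        rw [mul_pow, Real.sq_sqrt (by positivity)]
    calc _ ≤ ((∑ β ∈ T, wβ β) * ∑ β ∈ T, (nm (∏ i, β i) : ℝ) ^ ((1 : ℝ) / 2) *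
          ‖StE E0 J om (alb f β) (k * m ^ 3)‖ ^ 2) * B k := mul_le_mul_of_nonneg_right h4 (hB k)
      _ = _ := by
        rw [mul_assoc]
        congr 1
        rw [Finset.sum_mul]
        refine Finset.sum_congr rfl fun β _ => ?_
        ring
  refine (Finset.sum_le_sum h1).trans (le_of_eq ?_)
  rw [← Finset.mul_sum]
  congr 1
  rw [Finset.sum_comm]
  refine Finset.sum_congr rfl fun β _ => ?_
  rw [Finset.mul_sum]

end Crest.Agent.R017.TU47
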