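import Crest.Agent.R017.E4yf_372
import Crest.Agent.R017.E4Xn_372
import Crest.Agent.R017.SU2_770
import Crest.Agent.R017.TUC_47

/-!
# Row 17, R8: `TailUX`, reduction of one level (helper968)

* `np2_noncube_t` : `NP2 (t k)` for every `k` prime to `n` which is not a cube, `t` an `S`-unit
* `SSA` : the structured function of an arbitrary family of sequences
* `tailX_red` : `TailSX` of one level is at most `|pC|` times the sum over the two shapes of the
  two-lump side, over `m` (`E₁ < N m`), over the cube-free `k₁` with `NP2 (t k₁)`, at `k = k₁ m³`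

-/

set_option autoImplicit false

noncomputable section

open Complex Finset
open scoped ComplexConjugate

namespace Crest.Agent.R017.TXr968

open Crest.Agent.R012 Crest.Agent.R012.Eis
open Crest.Agent.R012.Mob705 hiding pb mem_pb
open Crest.Agent.R012.LS2 (S mem_S)
open Crest.Agent.R017.Sx545 (Sm)
open Crest.Agent.R017.CM106 (CS FS)
open Crest.Agent.R017.PX764 (th)
open Crest.Agent.R017.C70 (OKJ CbF)
open Crest.Agent.R017.E2440 (TE StE)
open Crest.Agent.R017.FE47 (cx SM)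
open Crest.Agent.R017.End699 (HC)
open Crest.Agent.R017.HP842 (Pc pc)
open Crest.Agent.R017.E5k54 (PT alb StE_eq)
open Crest.Agent.R017.E5P571 (PC PB mem_PB)
open Crest.Agent.R017.E5B71
open Crest.Agent.R017.B770 (DPar)
open Crest.Agent.R017.Prov71
open Crest.Agent.R017.ExP960 hiding alX
open Crest.Agent.R017.E5L770 hiding alL
open Crest.Agent.R017.E5LX770 (SfEV atEV)
open Crest.Agent.R017.SSb54 (SST)
open Crest.Agent.R017.Sup271 (NPm)
open Crest.Agent.R017.E4U164 (T3 J3 T3_prim okJ3)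
open Crest.Agent.R017.E4Df372
open Crest.Agent.R017.TU47 (KS MS' cube_sum)

variable {Λ : Type*}

/-! ### `NP2` at the non-cubes -/

lemma sm9 {n k : Eis} (hk : IsPrim k) (hc : IsCoprime k n) : Sm (9 * n) k :=
  ⟨hk, (End699.isCoprime_nine_mul hk).2 hc⟩

/-- **`NP2 (t k)` for every `k` prime to `n`, not a cube** -/
theorem np2_noncube_t {P : DPar} (hP : P.OK) {t k : Eis} (ht : t ∈ SM P.n) (hk : IsPrim k)
    (hkn : IsCoprime k P.n) (hc : ¬ ∃ z : Eis, k = z ^ 3) : P.NP2 (t * k) := by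
  refine ⟨(SU770.NPk_mul ht).2 ?_, (SU770.NPm_mul ht).2 ?_⟩
  · have h1 := (Two939.hc_SM hP.φ.conj ht).conj
    have e : (fun b => P.φ b * conj (sy t b)) =
        fun b => conj ((fun a => (fun c => conj (P.φ c)) a * sy t a) b) := by
      funext b
      simp
    refine npk_noncube P.l₁ ?_ (sm9 hk hkn) hc
    rw [e]
    exact h1
  · exact npm_noncube P.l₂ (Two939.hc_SM hP.ψ ht) (sm9 hk hkn) hc

/-! ### the structured function -/

variable {ι : Type*} [Fintype ι]

open Classical in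
/-- the structured function of a family of sequences -/
def SSA (T : Finset (ι → Eis)) (al : (ι → Eis) → Eis → ℂ) (E0 : ℝ) (J : Finset (Eis × Eis))
    (om : Eis × Eis → ℂ) (k : Eis) : ℂ :=
  ∑ β ∈ T, sy k (∏ i, β i) * StE E0 J om (al β) k

lemma SST_eq_SSA (T : Finset (ι → Eis)) (f : ι → Eis → ℂ) (E0 : ℝ) (J : Finset (Eis × Eis))
    (om : Eis × Eis → ℂ) (k : Eis) : SST T f E0 J om k = SSA T (alb f) E0 J om k := rfl

lemma SG_eq_SSA (T : Finset (ι → Eis)) (al : (ι → Eis) → Eis → ℂ) (E0 : ℝ)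
    (J : Finset (Eis × Eis)) (om : Eis × Eis → ℂ) (k : Eis) :
    SG T E0 J (fun β e x => om x * TE (al β) x e) k = SSA T al E0 J om k := by
  unfold SG SSA
  refine Finset.sum_congr rfl fun β _ => ?_
  rw [StE_eq]

/-! ### the reduction -/

open Classical in
/-- the `k` outside the cut: cubes, or a large cube divides -/
lemma notcut {P : DPar} (hP : P.OK) {t k : Eis} {l : ℝ} (ht : t ∈ SM P.n) (hk : IsPrim k)
    (hkn : IsCoprime k P.n) (hc : ¬ ∃ z : Eis, k = z ^ 3) (h : ¬ cutN P t l k) :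
    ¬ cutE (Real.exp (l / 20)) k := fun hE => h ⟨hE, np2_noncube_t hP ht hk hkn hc⟩

/-- not a cube -/
def NCb (k : Eis) : Prop := ¬ ∃ z : Eis, k = z ^ 3

open Classical in
/-- **one level of `TailSX`** -/
theorem tailX_red {π : Λ → DPar} {h : ℝ → ℝ} (hh : Bump h) {lam : Λ × Eis} (hP : (π lam.1).OK)
    (e0 r : ℝ) (Bf : ℝ → ℝ → ℝ → ℝ) {Jf : ℝ → ℝ → ℝ → Finset (Eis × Eis)}
    (hJf : ∀ l N z, OKJ (Jf l N z)) (i : ℕ) (R : Λ → ℝ) (a : BdX) (ps : List Pq) :
    TailSX π h (SfEV π h e0 r Bf Jf i) R lam a ps ≤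
      if a.ok ∧ lam.2 ∈ SM (π lam.1).n then
        ‖(pC : ℂ)‖ * ∑ j : Fin 2,
          ∑ m ∈ MS' (Real.exp (a.l / 20)) (Real.exp (a.l + R lam.1)),
            ∑ k ∈ (KS (π lam.1).n (Real.exp (a.l - R lam.1)) (Real.exp (a.l + R lam.1)) m).filter
                (fun k => (π lam.1).NP2 (lam.2 * k)),
              ‖SSA (T3 Bf a.toBd r) (alX (π lam.1) h lam.2 a) (Real.exp (e0 * a.l))
                  (J3 Jf a.toBd i) (omL i) (k * m ^ 3)‖ *
                (‖PC h ((bsX a ps j).map (Pt (π lam.1) lam.2)) (k * m ^ 3)‖ *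
                  ‖PC h ((amL ps).map (Pt (π lam.1) lam.2)) (k * m ^ 3)‖)
      else 0 := by
  unfold TailSX
  by_cases hok : a.ok ∧ lam.2 ∈ SM (π lam.1).n
  · rw [if_pos hok, if_pos hok]
    obtain ⟨ha, ht⟩ := hok
    set P := π lam.1 with hPd
    set t := lam.2 with htd
    -- the cubes do not contribute
    have hF : ∀ k, SFX.at (SfEV π h e0 r Bf Jf i) lam a k = if ∃ w : Eis, k = w ^ 3 then 0 else
        (pC : ℂ) * SSA (T3 Bf a.toBd r) (alX P h t a) (Real.exp (e0 * a.l)) (J3 Jf a.toBd i)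
          (omL i) k := by
      intro k
      rw [atEV_SG hh hP e0 r Bf hJf i ha k, SG_eq_SSA]
    set Y : ℝ := Real.exp (a.l + R lam.1) with hY
    set G : Eis → ℝ := fun k => ‖SFX.at (SfEV π h e0 r Bf Jf i) lam a k‖ *
      (‖BXm h P t a ps k‖ * ‖PC h ((amL ps).map (Pt P t)) k‖) with hG
    have hG0 : ∀ k, 0 ≤ G k := fun k => by rw [hG]; positivity
    have h1 : ∑ k ∈ (PB P.n ⌊Y⌋₊).filter
        (fun k => ¬ cutN P t a.l k ∧ Real.exp (a.l - R lam.1) ≤ nm k), G k ≤
        ∑ k ∈ (PB P.n ⌊Y⌋₊).filter (fun k => ¬ cutE (Real.exp (a.l / 20)) k ∧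
          Real.exp (a.l - R lam.1) ≤ nm k ∧ NCb k), G k := by
      rw [← Finset.sum_filter_add_sum_filter_not ((PB P.n ⌊Y⌋₊).filter
        (fun k => ¬ cutN P t a.l k ∧ Real.exp (a.l - R lam.1) ≤ nm k)) (fun k => ∃ z : Eis, k = z ^ 3)]
      have e0 : ∑ k ∈ ((PB P.n ⌊Y⌋₊).filter (fun k => ¬ cutN P t a.l k ∧
          Real.exp (a.l - R lam.1) ≤ nm k)).filter (fun k => ∃ z : Eis, k = z ^ 3), G k = 0 := by
        refine Finset.sum_eq_zero fun k hk => ?_
        have h2 := (Finset.mem_filter.mp hk).2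
        rw [hG]
        simp only
        rw [hF k, if_pos h2, norm_zero, zero_mul]
      rw [e0, zero_add]
      refine Finset.sum_le_sum_of_subset_of_nonneg ?_ fun k _ _ => hG0 k
      intro k hk
      rw [Finset.mem_filter, Finset.mem_filter] at hk
      obtain ⟨⟨hk1, hk2, hk3⟩, hk4⟩ := hk
      have hk5 := mem_PB.1 hk1
      exact Finset.mem_filter.2 ⟨hk1, notcut hP ht hk5.2.1 hk5.2.2 hk4 hk2, hk3, hk4⟩
    refine h1.trans ?_
    have h2 := cube_sum (n := P.n) (E₁ := Real.exp (a.l / 20)) (L := Real.exp (a.l - R lam.1))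
      (Y := Y) (Real.exp_pos _).le NCb NCb
      (fun k₁ m _ _ hq ⟨z, hz⟩ => hq ⟨z * m, by rw [hz]; ring⟩) hG0
    refine h2.trans ?_
    have h3 : ∀ k, G k ≤ ‖(pC : ℂ)‖ * ∑ j : Fin 2, ‖SSA (T3 Bf a.toBd r) (alX P h t a)
        (Real.exp (e0 * a.l)) (J3 Jf a.toBd i) (omL i) k‖ *
          (‖PC h ((bsX a ps j).map (Pt P t)) k‖ * ‖PC h ((amL ps).map (Pt P t)) k‖) := by
      intro k
      have h4 : ‖SFX.at (SfEV π h e0 r Bf Jf i) lam a k‖ ≤ ‖(pC : ℂ)‖ *
          ‖SSA (T3 Bf a.toBd r) (alX P h t a) (Real.exp (e0 * a.l)) (J3 Jf a.toBd i)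
            (omL i) k‖ := by
        rw [hF k]
        split_ifs
        · rw [norm_zero]; positivity
        · rw [norm_mul]
      have h5 : ‖BXm h P t a ps k‖ ≤ ∑ j : Fin 2, ‖PC h ((bsX a ps j).map (Pt P t)) k‖ := by
        rw [BXm_eq hP hh k]
        refine (norm_sum_le _ _).trans (Finset.sum_le_sum fun j _ => ?_)
        rw [norm_mul, norm_cX, one_mul, CS_b2X hP hh]
      calc G k ≤ (‖(pC : ℂ)‖ * ‖SSA (T3 Bf a.toBd r) (alX P h t a) (Real.exp (e0 * a.l))
            (J3 Jf a.toBd i) (omL i) k‖) *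
            ((∑ j : Fin 2, ‖PC h ((bsX a ps j).map (Pt P t)) k‖) *
              ‖PC h ((amL ps).map (Pt P t)) k‖) := by
            exact mul_le_mul h4 (mul_le_mul_of_nonneg_right h5 (norm_nonneg _))
              (by positivity) (by positivity)
        _ = _ := by
            rw [Finset.sum_mul, Finset.mul_sum, Finset.mul_sum]
            refine Finset.sum_congr rfl fun j _ => ?_
            ring
    have h6 : ∀ m ∈ MS' (Real.exp (a.l / 20)) Y,
        ∑ k ∈ (KS P.n (Real.exp (a.l - R lam.1)) Y m).filter NCb, G (k * m ^ 3) ≤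
        ∑ k ∈ (KS P.n (Real.exp (a.l - R lam.1)) Y m).filter (fun k => P.NP2 (t * k)),
          ‖(pC : ℂ)‖ * ∑ j : Fin 2, ‖SSA (T3 Bf a.toBd r) (alX P h t a)
            (Real.exp (e0 * a.l)) (J3 Jf a.toBd i) (omL i) (k * m ^ 3)‖ *
              (‖PC h ((bsX a ps j).map (Pt P t)) (k * m ^ 3)‖ *
                ‖PC h ((amL ps).map (Pt P t)) (k * m ^ 3)‖) := by
      intro m _
      refine (Finset.sum_le_sum fun k _ => h3 (k * m ^ 3)).trans ?_
      refine Finset.sum_le_sum_of_subset_of_nonneg ?_ fun k _ _ => by positivity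
      intro k hk
      rw [Finset.mem_filter] at hk ⊢
      refine ⟨hk.1, ?_⟩
      have h7 := hk.1
      unfold KS at h7
      rw [Finset.mem_filter, mem_primBall] at h7
      exact np2_noncube_t hP ht h7.1.2 h7.2.2.1 hk.2
    refine (Finset.sum_le_sum h6).trans (le_of_eq ?_)
    simp only [Finset.mul_sum]
    rw [Finset.sum_congr rfl fun m _ => Finset.sum_comm, Finset.sum_comm]
  · rw [if_neg hok, if_neg hok]

end Crest.Agent.R017.TXr968
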