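import Crest.Agent.R017.TUD_47
import Crest.Agent.R017.TUP2_47
import Crest.Agent.R017.TXr_968
import Crest.Agent.R017.E5LX_770
import Crest.Agent.R017.E5L3_770

/-!
# Row 17, class E, R8: `TailUX`, assembly (helper47)

* `core_m` : the sum over the large cubes `m` of `per_m`
* `SInCX`, `SIn2X`, `SIn4X`, `SPInX` : moments of one level of the three-lump side
* `tailSX_of`, `tailUX_of` : `TailUX` from the moments
-/

set_option autoImplicit false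

noncomputable section

open Complex Finset
open scoped ComplexConjugate

namespace Crest.Agent.R017.TU47

open Crest.Agent.R012 Crest.Agent.R012.Eis
open Crest.Agent.R012.LS2 (bl mem_bl)
open Crest.Agent.R012.Mob705 hiding pb mem_pb
open Crest.Agent.R017.CM106 Crest.Agent.R017.FE47 Crest.Agent.R017.E5T54 Crest.Agent.R017.E5P571
open Crest.Agent.R017.XG702 (Pcs)
open Crest.Agent.R017.XT71 (Sys Win)
open Crest.Agent.R017.HP842 (Pc pc)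
open Crest.Agent.R017.C70 (OKJ CbF)
open Crest.Agent.R017.B770 Crest.Agent.R017.Prov71
open Crest.Agent.R017.E5B71 Crest.Agent.R017.E5L770 Crest.Agent.R017.E5M372
open Crest.Agent.R017.ExBox960
open Crest.Agent.R017.ExP960 hiding alX
open Crest.Agent.R017.E5LX770
open Crest.Agent.R017.E4U164 (T3 J3)
open Crest.Agent.R017.E4Df372 (alX bsX)
open Crest.Agent.R017.TXr968 (SSA tailX_red)

variable {Λ : Type*} {π : Λ → DPar} {h : ℝ → ℝ} {A d β μ : ℝ}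

/-! ### the sum over `m` -/

open Classical in
/-- **the sum over the large cubes** -/
theorem core_m (U : UIn π h d 5) (Ei : EIn π h d 5) (hQ : RealQ' A d μ) (hA : 2 / 3 ≤ A)
    {ε : ℝ} (hε : 0 < ε) (hε1 : ε ≤ 1) :
    ∃ δ₀ : ℝ, 0 < δ₀ ∧ δ₀ ≤ ε / 100 ∧ ∀ δ : ℝ, 0 < δ → δ ≤ δ₀ → ∀ (lam : Λ) (N : ℕ) (B : ℝ),
      ∃ δ' : ℝ, 0 < δ' ∧ ∃ X₀ : ℝ, 1 < X₀ ∧ ∀ X : ℝ, X₀ ≤ X →
      ∀ (R : ℝ) (t n : Eis) (l : ℝ) (u u' : Pq) (ps : List Pq) (S : Eis → ℝ)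
        (q : (Option (Fin 3 ⊕ Fin 5) → ℝ) × (Kd → ℝ)), q ∈ SqL A d →
        Cf δ δ' B X R t N l u u' ps q → Sm2 d μ δ δ₀ X R n S l q →
      ∑ m ∈ MS' (Real.exp (l / 20)) (Real.exp (l + R)),
        ∑ k ∈ (KS n (Real.exp (l - R)) (Real.exp (l + R)) m).filter
            (fun k => (π lam).NP2 (t * k)),
          S (k * m ^ 3) * ((((u :: u' :: moL ps).map (GG (π lam) h (t * (k * m ^ 3)))).prod) *
            (((amL ps).map (GG (π lam) h (t * (k * m ^ 3)))).prod)) ≤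
        X ^ (T5 (7 / 8 + d) (dn q.1, q.2) - μ + ε) := by
  obtain ⟨δ₀, hδ₀, hδ₀', H⟩ := per_m U Ei hQ hA (half_pos hε) (by linarith)
  obtain ⟨X₂, hX₂, H₂⟩ := sum_inv_MS (half_pos hε)
  refine ⟨δ₀, hδ₀, by linarith, fun δ hδ hδδ lam N B => ?_⟩
  obtain ⟨δ', hδ', X₁, hX₁, H₁⟩ := H δ hδ hδδ lam N B
  refine ⟨δ', hδ', max X₁ X₂, lt_max_of_lt_left hX₁, ?_⟩
  intro X hX R t n l u u' ps S q hq hC hS
  have hXX₁ : X₁ ≤ X := (le_max_left _ _).trans hX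
  have hXX₂ : X₂ ≤ X := (le_max_right _ _).trans hX
  have hX1 : 1 < X := hX₁.trans_le hXX₁
  have hX0 : 0 < X := by linarith
  have hL : 0 < Real.log X := Real.log_pos hX1
  have hκ1 := (szs hA hq).κ1
  have hY : Real.exp (l + R) ≤ X ^ (3 : ℝ) := by
    rw [Real.rpow_def_of_pos hX0]
    refine Real.exp_le_exp.2 ?_
    have c2 := (abs_le.1 hC.κ).2
    have r1 := hC.R1
    have h1 : (l + R) / Real.log X ≤ 3 := by
      rw [add_div]; linarith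
    rw [div_le_iff₀ hL] at h1
    linarith
  refine (Finset.sum_le_sum fun m hm => H₁ X hXX₁ R t n l u u' ps S q hq hC hS m hm
    (fun k => (π lam).NP2 (t * k)) (fun _ h => h)).trans ?_
  rw [← Finset.mul_sum]
  have h3 := H₂ X hXX₂ (Real.exp (l / 20)) (Real.exp (l + R)) (Real.exp_pos _).le hY
  calc X ^ (T5 (7 / 8 + d) (dn q.1, q.2) - μ + ε / 2) *
        ∑ m ∈ MS' (Real.exp (l / 20)) (Real.exp (l + R)), (1 / (nm m : ℝ))
      ≤ X ^ (T5 (7 / 8 + d) (dn q.1, q.2) - μ + ε / 2) * X ^ (ε / 2) := by gcongr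
    _ = X ^ (T5 (7 / 8 + d) (dn q.1, q.2) - μ + ε) := by
        rw [← Real.rpow_add hX0]; congr 1; ring

/-! ### inputs -/

/-- 71's coordinates with the level -/
def qL (q : (Option IX5 → ℝ) × (Kd → ℝ)) : (Option (Fin 3 ⊕ Fin 5) → ℝ) × (Kd → ℝ) :=
  (fun o => q.1 (o.map Sum.inl), q.2)

lemma dn_qL (q : (Option IX5 → ℝ) × (Kd → ℝ)) : dn (qL q).1 = prX (dn q.1) := rfl

lemma qL_none (q : (Option IX5 → ℝ) × (Kd → ℝ)) : (qL q).1 none = q.1 none := rfl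

lemma qL_mem {q : (Option IX5 → ℝ) × (Kd → ℝ)} (hq : q ∈ SqLX A d β) : qL q ∈ SqL A d :=
  ⟨hq.1.1, hq.2.1, hq.2.2⟩

/-- the frame, class E -/
structure FrX (A d β δ δ' B X : ℝ) (N : ℕ) (a : BdX × ℕ)
    (q : (Option IX5 → ℝ) × (Kd → ℝ)) : Prop where
  dom : q ∈ SqLX A d β
  win : Win (lev (Real.log 2) S5X) q.1 δ N B δ' X a
  ok : a.1.ok
  lvl : a.2 < nL a.1.l (a3 a.1.toBd) a.1.z

variable (π) in
/-- `e`-th moment of `S i` at `k₁ m³`, families with `C κ k`, exponent `g` -/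
def SInCX (S : ℕ → Λ × Eis → BdX → Eis → ℝ) (A d β : ℝ) (e : ℕ) (C : ℝ → ℝ → ℝ → Prop)
    (g : (Option (Fin 3 ⊕ Fin 5) → ℝ) × (Kd → ℝ) → ℝ → ℝ) : Prop :=
  ∀ R : Λ → ℝ, (∀ lam, 0 ≤ R lam) → ∀ ε : ℝ, 0 < ε → ∃ δ : ℝ, 0 < δ ∧
    ∀ (lam : Λ × Eis) (N : ℕ) (B : ℝ), ∃ δ' : ℝ, 0 < δ' ∧ ∃ X₀ : ℝ, 1 < X₀ ∧
    ∀ X : ℝ, X₀ ≤ X → ∀ (a : BdX × ℕ) (q : (Option IX5 → ℝ) × (Kd → ℝ)),
      FrX A d β δ δ' B X N a q → lam.2 ∈ SM (π lam.1).n →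
      ∀ m : Eis, IsPrim m → (nm m : ℝ) ^ 3 ≤ Real.exp (a.1.l + R lam.1) →
      C (cκ (dn (qL q).1)) (kf a.1.l (R lam.1) X m) δ →
      ∑ k ∈ KS (π lam.1).n (Real.exp (a.1.l - R lam.1)) (Real.exp (a.1.l + R lam.1)) m,
          S a.2 lam a.1 (k * m ^ 3) ^ e ≤ X ^ (g (qL q) (kf a.1.l (R lam.1) X m) + ε)

variable (π) in
/-- second moment, `k ≤ 7/10 κ` -/
def SIn2X (S : ℕ → Λ × Eis → BdX → Eis → ℝ) (A d β : ℝ) : Prop :=
  SInCX π S A d β 2 (fun κ k _ => k ≤ 7 / 10 * κ) fun q k =>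
    g2b d (q.1 none) (cN (dn q.1)) k + 1 / 384

variable (π) in
/-- fourth moment, `k ≤ 7/10 κ` -/
def SIn4X (S : ℕ → Λ × Eis → BdX → Eis → ℝ) (A d β : ℝ) : Prop :=
  SInCX π S A d β 4 (fun κ k _ => k ≤ 7 / 10 * κ) fun q k =>
    RQ702.g4c d (q.1 none) (cN (dn q.1)) k + 1 / 192

variable (π) in
/-- second moment needed for `7/10 κ ≤ k ≤ 17/20 κ` -/
def SPInX (S : ℕ → Λ × Eis → BdX → Eis → ℝ) (A d β μ : ℝ) : Prop :=
  SInCX π S A d β 2 (fun κ k δ => 7 / 10 * κ ≤ k ∧ k ≤ 17 / 20 * κ + δ) fun q k =>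
    ESP d μ q (min k (17 / 20 * cκ (dn q.1)))

variable (π h) in
/-- the structured function of one level, modulus, without `pC` and without the cut of the cubes -/
def SxE (e0 r : ℝ) (Bf : ℕ → ℝ → ℝ → ℝ → ℝ) (Jf : ℝ → ℝ → ℝ → Finset (Eis × Eis)) :
    ℕ → Λ × Eis → BdX → Eis → ℝ := fun i lam a k =>
  ‖SSA (T3 (Bf i) a.toBd r) (alX (π lam.1) h lam.2 a) (Real.exp (e0 * a.l)) (J3 Jf a.toBd i)
    (omL i) k‖

/-! ### the theorem -/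

lemma lump_stz {p : Pq} (Z : ℝ) (hp : Dq.lump p) : Dq.lump (stz p Z) := hp

/-- the two pairs -/
def uX (a : BdX) (j : Fin 2) : Pq := ![a.us 0, stz (a.us 0) (a.zs 0)] j

def uX' (a : BdX) (j : Fin 2) : Pq := ![a.us 1, stz (a.us 1) (a.zs 1)] j

lemma bsX_eq (a : BdX) (ps : List Pq) (j : Fin 2) : bsX a ps j = uX a j :: uX' a j :: moL ps := by
  fin_cases j <;> rfl

set_option maxHeartbeats 1000000 in
/-- **one level of the tail, class E** -/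
theorem tailSX_of {c₀ : ℝ} (hpu : PU h c₀) (hP : ∀ lam, (π lam).OK) (hA : 2 / 3 ≤ A)
    (U : UIn π h d 5) (Ei : EIn π h d 5) (hQ : RealQ' A d μ) (e0 r : ℝ)
    (Bf : ℕ → ℝ → ℝ → ℝ → ℝ) {Jf : ℝ → ℝ → ℝ → Finset (Eis × Eis)}
    (hJf : ∀ l N z, OKJ (Jf l N z)) (h2 : SIn2X π (SxE π h e0 r Bf Jf) A d β)
    (h4 : SIn4X π (SxE π h e0 r Bf Jf) A d β) (hp : SPInX π (SxE π h e0 r Bf Jf) A d β μ)
    (R : Λ → ℝ) (hR : ∀ lam, 0 ≤ R lam) :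
    UB (lev (Real.log 2) S5X) Dq
      (fun lam a ps => if a.2 < nL a.1.l (a3 a.1.toBd) a.1.z then
        TailSX π h (SfEV π h e0 r (Bf a.2) Jf a.2) R lam a.1 ps else 0)
      (SqLX A d β) (alL ExP960.alX) fun q => T5 (7 / 8 + d) (prQ (dn q.1, q.2)) - μ := by
  classical
  intro ε hε
  set ε' := min ε 1 / 2 with hε'
  have hε'0 : 0 < ε' := by positivity
  have hε'1 : ε' ≤ 1 := by
    have := min_le_right ε 1
    rw [hε']; linarith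
  have hε'2 : 2 * ε' ≤ ε := by
    have := min_le_left ε 1
    rw [hε']; linarith
  obtain ⟨δ₀, hδ₀, -, HC⟩ := core_m U Ei hQ hA hε'0 hε'1
  obtain ⟨δ2, hδ2, H2⟩ := h2 R hR δ₀ hδ₀
  obtain ⟨δ4, hδ4, H4⟩ := h4 R hR δ₀ hδ₀
  obtain ⟨δp, hδp, Hp⟩ := hp R hR δ₀ hδ₀
  obtain ⟨δ, hδ, e0', e2, e4, ep⟩ : ∃ δ : ℝ, 0 < δ ∧ δ ≤ δ₀ ∧ δ ≤ δ2 ∧ δ ≤ δ4 ∧ δ ≤ δp / 3 :=
    ⟨min (min δ₀ δ2) (min δ4 (δp / 3)), by positivity,
      (min_le_left _ _).trans (min_le_left _ _), (min_le_left _ _).trans (min_le_right _ _),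
      (min_le_right _ _).trans (min_le_left _ _), (min_le_right _ _).trans (min_le_right _ _)⟩
  refine ⟨δ, hδ, fun lam N B => ?_⟩
  obtain ⟨ρC, hρC, XC, hXC, KC⟩ := HC δ hδ e0' lam.1 N B
  obtain ⟨ρ2, hρ2, X2, hX2, K2⟩ := H2 lam N B
  obtain ⟨ρ4, hρ4, X4, hX4, K4⟩ := H4 lam N B
  obtain ⟨ρp, hρp, Xp, hXp, Kp⟩ := Hp lam N B
  obtain ⟨δ', hδ', rC, r2, r4, rp⟩ : ∃ δ' : ℝ, 0 < δ' ∧ δ' ≤ ρC ∧ δ' ≤ ρ2 ∧ δ' ≤ ρ4 ∧ δ' ≤ ρp :=
    ⟨min (min ρC ρ2) (min ρ4 ρp), by positivity,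
      (min_le_left _ _).trans (min_le_left _ _), (min_le_left _ _).trans (min_le_right _ _),
      (min_le_right _ _).trans (min_le_left _ _), (min_le_right _ _).trans (min_le_right _ _)⟩
  obtain ⟨Xc, hXc, Kc⟩ := XSup271.exists_X (C := 2 * ‖(pC : ℂ)‖ + 1)
    (by have := norm_nonneg (pC : ℂ); linarith) hε'0
  obtain ⟨X₀, xC, x2, x4, xp, xc, xR, xt⟩ : ∃ X₀ : ℝ, XC ≤ X₀ ∧ X2 ≤ X₀ ∧
      X4 ≤ X₀ ∧ Xp ≤ X₀ ∧ Xc ≤ X₀ ∧ Real.exp (|R lam.1| / δ) ≤ X₀ ∧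
      Real.exp (|Real.log (nm lam.2)| / δ) ≤ X₀ :=
    ⟨max (max XC (max X2 X4)) (max Xp (max Xc
      (max (Real.exp (|R lam.1| / δ)) (Real.exp (|Real.log (nm lam.2)| / δ))))),
      by simp, by simp, by simp, by simp, by simp, by simp, by simp⟩
  refine ⟨δ', hδ', X₀, hXC.trans_le xC, ?_⟩
  intro X hX a ps hl1 hl2 q hq hw hm hg hal
  have hX1 : 1 < X := hXC.trans_le (xC.trans hX)
  have hX0 : 0 < X := by linarith
  have hL : 0 < Real.log X := Real.log_pos hX1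
  have hh : Bump h := bump_of_cs hpu.cs
  by_cases hgate : a.2 < nL a.1.l (a3 a.1.toBd) a.1.z
  swap
  · simp only [if_neg hgate]
    exact Real.rpow_nonneg hX0.le _
  simp only [if_pos hgate]
  refine (tailX_red hh (hP lam.1) e0 r (Bf a.2) hJf a.2 R a.1 ps).trans ?_
  split_ifs with hc
  swap
  · exact Real.rpow_nonneg hX0.le _
  obtain ⟨hokX, hSM⟩ := hc
  have hok : a.1.toBd.ok := hokX.base
  have ht : lam.2 ≠ 0 := hSM.1
  -- windows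
  have hwS : Win S5 (dn (qL q).1) δ N B δ' X a.1.toBd :=
    ⟨fun i => hw.ev (some (.inl i)), hw.g, hw.n, hw.s₁, hw.s₂⟩
  have g0 := good_us hwS hok 0
  have g1 := good_us hwS hok 1
  have mono : ∀ {ρ : ℝ}, δ' ≤ ρ → X ^ δ' ≤ X ^ ρ := fun hr =>
    Real.rpow_le_rpow_of_exponent_le hX1.le hr
  have hCf : ∀ j : Fin 2, Cf δ ρC B X (R lam.1) lam.2 N a.1.l (uX a.1 j) (uX' a.1 j) ps
      (qL q) := by
    intro j
    have w0 : |Dq.nl X (a.1.us 0) - cu (dn (qL q).1) 0| ≤ δ := hwS.ev (.inr 0)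
    have w1 : |Dq.nl X (a.1.us 1) - cu (dn (qL q).1) 1| ≤ δ := hwS.ev (.inr 1)
    have eM : cM (dn (qL q).1) = cu (dn (qL q).1) 0 + cu (dn (qL q).1) 1 := rfl
    have hM : |Dq.nl X (a.1.us 0) + Dq.nl X (a.1.us 1) - cM (dn (qL q).1)| ≤ 2 * δ := by
      rw [eM]
      obtain ⟨a1, a2⟩ := abs_le.1 w0
      obtain ⟨b1, b2⟩ := abs_le.1 w1
      exact abs_le.2 ⟨by linarith, by linarith⟩
    have hR1 : R lam.1 / Real.log X ≤ δ :=
      (le_abs_self _).trans (abs_log_le hδ (xR.trans hX) hX1)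
    have ht1 : Real.log (nm lam.2) / Real.log X ≤ δ :=
      (le_abs_self _).trans (abs_log_le hδ (xt.trans hX) hX1)
    have hps : ∀ p ∈ ps, Dq.s1 p ≤ X ^ ρC ∧ Dq.s2 p ≤ X ^ B ∧ 0 ≤ Dq.len p := fun p hp => by
      obtain ⟨h5, h6, h7⟩ := hg p hp
      exact ⟨h5.trans (mono rC), h6, h7⟩
    fin_cases j
    · refine ⟨hl1, (hok.1 0).1, (hok.1 1).1, hl2, ?_, hw.ev (some (.inl (.inl 0))), hM, hm, hR _,
        hR1, ht, ht1⟩
      intro p hp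
      rcases List.mem_cons.1 hp with rfl | hp
      · exact ⟨g0.1.trans (mono rC), g0.2.1, g0.2.2⟩
      rcases List.mem_cons.1 hp with rfl | hp
      · exact ⟨g1.1.trans (mono rC), g1.2.1, g1.2.2⟩
      · exact hps p hp
    · refine ⟨hl1, lump_stz _ (hok.1 0).1, lump_stz _ (hok.1 1).1, hl2, ?_,
        hw.ev (some (.inl (.inl 0))), ?_, hm, hR _, hR1, ht, ht1⟩
      · intro p hp
        rcases List.mem_cons.1 hp with rfl | hp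
        · exact ⟨g0.1.trans (mono rC), g0.2.1, hokX.z0 0⟩
        rcases List.mem_cons.1 hp with rfl | hp
        · exact ⟨g1.1.trans (mono rC), g1.2.1, hokX.z0 1⟩
        · exact hps p hp
      · have e1 : Dq.nl X (stz (a.1.us 0) (a.1.zs 0)) + Dq.nl X (stz (a.1.us 1) (a.1.zs 1)) =
            Dq.nl X (a.1.us 0) + Dq.nl X (a.1.us 1) := by
          show a.1.zs 0 / Real.log X + a.1.zs 1 / Real.log X =
            (a.1.us 0).z / Real.log X + (a.1.us 1).z / Real.log X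
          rw [← add_div, ← add_div, hokX.s01]
        show |Dq.nl X (stz (a.1.us 0) (a.1.zs 0)) + Dq.nl X (stz (a.1.us 1) (a.1.zs 1)) -
          cM (dn (qL q).1)| ≤ 2 * δ
        rw [e1]
        exact hM
  have hF : ∀ (δ'' ρ : ℝ), δ ≤ δ'' → δ' ≤ ρ → FrX A d β δ'' ρ B X N a q := fun δ'' ρ h1 h2 =>
    ⟨hq, hw.mono hX1.le h1 le_rfl le_rfl h2, hokX, hgate⟩
  set S : Eis → ℝ := fun k => SxE π h e0 r Bf Jf a.2 lam a.1 k with hS
  have hS0 : ∀ k, 0 ≤ S k := fun k => norm_nonneg _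
  have hSm : Sm2 d μ δ δ₀ X (R lam.1) (π lam.1).n S a.1.l (qL q) := by
    refine ⟨hS0, ?_, ?_, ?_⟩
    · intro m hmp hm3 hk
      exact K2 X (x2.trans hX) a q (hF _ _ e2 r2) hSM m hmp hm3 hk
    · intro m hmp hm3 hk
      exact K4 X (x4.trans hX) a q (hF _ _ e4 r4) hSM m hmp hm3 hk
    · intro m hmp hm3 hk hk1
      exact Kp X (xp.trans hX) a q (hF _ _ (by linarith) rp) hSM m hmp hm3
        ⟨hk, by linarith⟩
  have h1 : ∀ j : Fin 2, _ := fun j => KC X (xC.trans hX) (R lam.1) lam.2 (π lam.1).n a.1.l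
    (uX a.1 j) (uX' a.1 j) ps S (qL q) (qL_mem hq) (hCf j) hSm
  have e : ∀ (j : Fin 2) (k : Eis), ‖SSA (T3 (Bf a.2) a.1.toBd r) (alX (π lam.1) h lam.2 a.1)
        (Real.exp (e0 * a.1.l)) (J3 Jf a.1.toBd a.2) (omL a.2) k‖ *
      (‖PC h ((bsX a.1 ps j).map (Pt (π lam.1) lam.2)) k‖ *
        ‖PC h ((amL ps).map (Pt (π lam.1) lam.2)) k‖) =
      S k * ((((uX a.1 j :: uX' a.1 j :: moL ps).map (GG (π lam.1) h (lam.2 * k))).prod) *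
        (((amL ps).map (GG (π lam.1) h (lam.2 * k))).prod)) := by
    intro j k
    rw [norm_PC, norm_PC, bsX_eq]
    rfl
  simp only [e]
  set T := T5 (7 / 8 + d) (dn (qL q).1, (qL q).2) with hT
  have hT' : T5 (7 / 8 + d) (prQ (dn q.1, q.2)) = T := rfl
  simp only [hT']
  have h7 : 2 * ‖(pC : ℂ)‖ + 1 ≤ X ^ ε' := Kc X (xc.trans hX)
  have h8 : 0 < X ^ (T - μ + ε') := Real.rpow_pos_of_pos hX0 _
  rw [Fin.sum_univ_two]
  have k0 := h1 0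
  have k1 := h1 1
  calc ‖(pC : ℂ)‖ * (_ + _) ≤ ‖(pC : ℂ)‖ * (X ^ (T - μ + ε') + X ^ (T - μ + ε')) := by
        refine mul_le_mul_of_nonneg_left (add_le_add k0 k1) (norm_nonneg _)
    _ = (2 * ‖(pC : ℂ)‖) * X ^ (T - μ + ε') := by ring
    _ ≤ X ^ ε' * X ^ (T - μ + ε') := by
        refine mul_le_mul_of_nonneg_right (by linarith) h8.le
    _ = X ^ (T - μ + 2 * ε') := by rw [← Real.rpow_add hX0]; congr 1; ring
    _ ≤ X ^ (T - μ + ε) := Real.rpow_le_rpow_of_exponent_le hX1.le (by linarith)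

/-- **`TailUX`** -/
theorem tailUX_of {c₀ : ℝ} (hpu : PU h c₀) (hP : ∀ lam, (π lam).OK) (hA : 2 / 3 ≤ A)
    (U : UIn π h d 5) (Ei : EIn π h d 5) (hQ : RealQ' A d μ) (e0 r : ℝ)
    (Bf : ℕ → ℝ → ℝ → ℝ → ℝ) {Jf : ℝ → ℝ → ℝ → Finset (Eis × Eis)}
    (hJf : ∀ l N z, OKJ (Jf l N z)) (h2 : SIn2X π (SxE π h e0 r Bf Jf) A d β)
    (h4 : SIn4X π (SxE π h e0 r Bf Jf) A d β) (hp : SPInX π (SxE π h e0 r Bf Jf) A d β μ) :
    TailUX π h (7 / 8 + d) (SfE π h e0 r Bf Jf nL) A d β μ :=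
  E5L3770.tailUX_of_lev_gate π h hA e0 r Bf Jf fun R hR =>
    tailSX_of hpu hP hA U Ei hQ e0 r Bf hJf h2 h4 hp R hR

end Crest.Agent.R017.TU47
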