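import Crest.Agent.R017.TSe_968
import Crest.Agent.R017.TSf_968
import Crest.Agent.R017.TUX_47

/-!
# Row 17, exceptional class, R8 (helper968): moments of the structured function, one frame

* `acX_of`, `top_u`, `own_win`, `LDX_of`, `rhxX` : the frame
* `fcX_of` : the facts of the real lines
* **`sinE`** : second and fourth moment of one level at `k₁ m³`, class E
* **`sIn2X`**, **`sIn4X`** : helper47's inputs of `TailUX`
-/

set_option autoImplicit false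

noncomputable section

open Finset

namespace Crest.Agent.R017.TSf968

open Crest.Agent.R012 Crest.Agent.R012.Eis
open Crest.Agent.R017.XT71 (Sys Win mx le_mx)
open Crest.Agent.R017.CM106 (CS FS)
open Crest.Agent.R017.C70
open Crest.Agent.R017.HP842 (Pc pc Kg)
open Crest.Agent.R017.Prov71
open Crest.Agent.R017.B770
open Crest.Agent.R017.FE47 (PU cx SM)
open Crest.Agent.R017.ER911 Crest.Agent.R017.SC777
open Crest.Agent.R017.End699 (prin0)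
open Crest.Agent.R017.E1551 (Adm)
open Crest.Agent.R017.E2440 (TE StE)
open Crest.Agent.R017.E5k54 (PT alb)
open Crest.Agent.R017.SSb54 (PTb mem_PTb SST)
open Crest.Agent.R017.TEM792 (VN LD Xn Xn_pos)
open Crest.Agent.R017.TEX792 (vn_ptX adm_alX RHx LDX Sv)
open Crest.Agent.R017.TM708
open Crest.Agent.R017.E5B71
open Crest.Agent.R017.E5L770
open Crest.Agent.R017.E4U164
open Crest.Agent.R017.TU47
open Crest.Agent.R017.TSr968 (Ff Fc line2 line4)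
open Crest.Agent.R017.TM968 (qd)
open Crest.Agent.R017.TMv968 (rpow_log_div)
open Crest.Agent.R017.TMw968 (q4)
open Crest.Agent.R017.TSa968
open Crest.Agent.R017.TSb968
open Crest.Agent.R017.TSc968
open Crest.Agent.R017.ExP960 (BdX S5X IX5 prX prQ u3 u3' stz ZR liftD ph ph')
open Crest.Agent.R017.E5LX770 (SqLX)
open Crest.Agent.R017.E4Df372 (alX)
open Crest.Agent.R017.Red848 (red Exc)
open Crest.Agent.R017.XS0298 (S0K)
open Crest.Agent.R017.PX764 (Dk)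
open Crest.Agent.R017.TXr968 (SSA)
open Crest.Agent.R017.RQ702 (g4c)

variable {Λ : Type*} {π : Λ → DPar} {h : ℝ → ℝ}

/-- the natural datum -/
def bn (a : BdX × ℕ) : Bd × ℕ := (a.1.toBd, a.2)

lemma acX_of {A d β δ δ' B X : ℝ} {N : ℕ} {a : BdX × ℕ} {q : (Option IX5 → ℝ) × (Kd → ℝ)}
    (H : FrX A d β δ δ' B X N a q) : Ac δ (Real.log X) (bn a) (qL q) where
  κ := H.win.ev (some (.inl (.inl 0)))
  x := H.win.ev (some (.inl (.inl 1)))
  u i := H.win.ev (some (.inl (.inr i)))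
  v := H.win.ev none

lemma zs2_of {A d β δ δ' B X : ℝ} {N : ℕ} {a : BdX × ℕ} {q : (Option IX5 → ℝ) × (Kd → ℝ)}
    (H : FrX A d β δ δ' B X N a q) :
    β * cκ (dn (qL q).1) - δ ≤ a.1.zs 2 / Real.log X ∧ a.1.zs 2 / Real.log X ≤ β + δ := by
  have h1 : |a.1.zs 2 / Real.log X - q.1 (some (.inr 1))| ≤ δ := H.win.ev (some (.inr 1))
  have h2 : ZR β (dn q.1) := H.dom.1.2
  obtain ⟨h3, h4⟩ := h2 1
  have h3' : β * cκ (dn (qL q).1) ≤ q.1 (some (.inr 1)) := h3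
  have h4' : q.1 (some (.inr 1)) ≤ β := h4
  obtain ⟨h5, h6⟩ := abs_le.1 h1
  exact ⟨by linarith only [h3', h5], by linarith only [h4', h6]⟩

lemma κ31_of {A d β δ δ' B X : ℝ} {N : ℕ} {a : BdX × ℕ} {q : (Option IX5 → ℝ) × (Kd → ℝ)}
    (H : FrX A d β δ δ' B X N a q) : 28 ≤ 31 * cκ (dn (qL q).1) := by
  have h1 : Sq5 A d (prX (dn q.1)) q.2 := H.dom.1.1
  exact h1.κ31

/-- the top of the levels -/
lemma top_34 {q : (Option (Fin 3 ⊕ Fin 5) → ℝ) × (Kd → ℝ)} (f : Fq q) :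
    top5 (dn q.1) ≤ 3 / 4 * cN (dn q.1) := by
  have g1 := f.κ0
  unfold E5L770.top5
  have h2 := min_le_left (2 * cN (dn q.1) - cκ (dn q.1)) (3 / 4 * cN (dn q.1))
  have h3 := min_le_right (2 * cN (dn q.1) - cκ (dn q.1)) (3 / 4 * cN (dn q.1))
  rcases f.x with h0 | ⟨x1, x2, x3⟩
  · rw [h0]; linarith only [h3]
  · linarith only [h2, x1, x2, g1]

/-- the short lump of the replaced list -/
lemma top_u {q : (Option (Fin 3 ⊕ Fin 5) → ℝ) × (Kd → ℝ)} (f : Fq q)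
    (hκ : 28 ≤ 31 * cκ (dn q.1)) : top5 (dn q.1) + 17 / 100 ≤ cN (dn q.1) := by
  unfold E5L770.top5
  have h2 := min_le_left (2 * cN (dn q.1) - cκ (dn q.1)) (3 / 4 * cN (dn q.1))
  have h3 := min_le_right (2 * cN (dn q.1) - cκ (dn q.1)) (3 / 4 * cN (dn q.1))
  rcases f.x with h0 | ⟨x1, x2, x3⟩
  · rw [h0]
    rcases le_total (cN (dn q.1)) (cκ (dn q.1) - 17 / 100) with h | h
    · linarith only [h2, h]
    · linarith only [h3, h, hκ]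
  · linarith only [h2, x1, x2, hκ]

/-- the own window -/
lemma own_win {L l N z κ' N' x' δ : ℝ} (hL : 0 < L) (eκ : l = κ' * L) (eN : N = N' * L)
    (ez : z = x' * L) {q : (Option (Fin 3 ⊕ Fin 5) → ℝ) × (Kd → ℝ)} (f : Fq q)
    (aκ : |κ' - cκ (dn q.1)| ≤ δ) (ax : |x' - cx' (dn q.1)| ≤ δ)
    (aN : |N' - cN (dn q.1)| ≤ 3 * δ) : topL l N z / L ≤ 3 / 4 * N' + 13 * δ := by
  obtain ⟨k1, k2⟩ := abs_le.1 aκ
  obtain ⟨x1, x2⟩ := abs_le.1 ax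
  obtain ⟨n1, n2⟩ := abs_le.1 aN
  have h1 := top_34 f
  unfold E5L770.top5 at h1
  have e : topL l N z / L = min (2 * N' - κ') (3 / 4 * N') + 11 / 5 * x' := by
    unfold E5L770.topL
    rw [eκ, eN, ez]
    have e1 : 2 * (N' * L) - κ' * L = (2 * N' - κ') * L := by ring
    have e2 : 3 / 4 * (N' * L) = 3 / 4 * N' * L := by ring
    rw [e1, e2, ← min_mul_of_nonneg _ _ hL.le]
    field_simp
  rw [e]
  have h2 : min (2 * N' - κ') (3 / 4 * N') ≤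
      min (2 * cN (dn q.1) - cκ (dn q.1)) (3 / 4 * cN (dn q.1)) + 7 * δ := by
    have h3 := min_le_left (2 * N' - κ') (3 / 4 * N')
    have h4 := min_le_right (2 * N' - κ') (3 / 4 * N')
    rw [← min_add_add_right]
    exact le_min (by linarith only [h3, n2, k1]) (by linarith only [h4, n2, abs_nonneg (N' - cN (dn q.1)), aN])
  have hδ0 : 0 ≤ δ := (abs_nonneg _).trans aκ
  linarith only [h1, h2, x2, n1, hδ0]

/-- **the facts of the real lines, class E** -/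
lemma fcX_of {q : (Option (Fin 3 ⊕ Fin 5) → ℝ) × (Kd → ℝ)} (f : Fq q)
    (hκ : 28 ≤ 31 * cκ (dn q.1)) {d δ τ₀ κ z N c v k x b : ℝ} (hd : 0 ≤ d) (hδ0 : 0 < δ)
    (hδ1 : δ ≤ 1 / 20000) (hn : Nu κ z N) (aκ : |κ - cκ (dn q.1)| ≤ δ)
    (aN : |N - cN (dn q.1)| ≤ 3 * δ) (hτ0 : 1 / 384 ≤ τ₀)
    (hτ1 : τ₀ ≤ 7 / 50) (c0 : 0 ≤ c) (c1 : c ≤ N + z - κ / 2) (x0 : 0 ≤ x) (xv : 2 * x ≤ v)
    (b0 : 0 ≤ b) (b1 : b ≤ 1 / 64 + 10 * δ) (hv2 : v ≤ q.1 none + 2 * δ)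
    (hk : k ≤ cN (dn q.1) + 3 * τ₀ + δ)
    (hw : v + 2 * c ≤ 3 / 4 * N + 14 * δ + d / 2 * κ) :
    FcX N c v k x b (5 / 4 * N + 10 * δ) (17 / 100 + δ) (17 / 100 * cκ (dn q.1) - 3 * δ)
      (2 / 3 * d * N) (10 * δ) (τ₀ + 30 * δ) := by
  have g1 := f.κ0
  have g2 := f.κ1
  have g7 := f.N0
  have g8 := f.N1
  have hvt := f.vt
  have h1 := top_34 f
  have h2 := top_u f hκ
  obtain ⟨n1, n2⟩ := abs_le.1 aN
  obtain ⟨k1, k2⟩ := abs_le.1 aκ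
  have hκN : κ ≤ 2 * N := by linarith only [k2, g7, n1, g1, hδ1, hδ0]
  have hdκ : d * κ ≤ d * (2 * N) := mul_le_mul_of_nonneg_left hκN hd
  refine ⟨fc_of f (hvt.trans h1) hδ0 hδ1 hn aN hτ0 hτ1 c0 c1 x0 xv b0 b1 hv2 hk, ?_, ?_, ?_, ?_⟩
  · have : 0 ≤ N := by linarith only [hn.N0]
    positivity
  · linarith only [hv2, hvt, h2, n1, hδ0]
  · linarith only [hw, hdκ, hδ0]
  · linarith only [n2, g8, g1, hδ1]

/-- the data of the three lumps, class E -/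
lemma LDX_of {A d β δ δ' B X K K' : ℝ} {N : ℕ} {a : BdX × ℕ}
    {q : (Option IX5 → ℝ) × (Kd → ℝ)} (hX : 1 < X) (H : FrX A d β δ δ' B X N a q)
    (hBK : B ≤ K') (hK1 : 1 ≤ K') {N' : ℝ} (hN : a3 a.1.toBd = N' * Real.log X)
    (hN1 : N' ≤ 1) {bb : Fin 3 → Eis} (hβ : ∀ i, IsPrim (bb i)) (hβX : ∀ i, (nm (bb i) : ℝ) ≤ X ^ K)
    (hKK : K ≤ K') {s₀ : ℝ} (hs : Sv X s₀ a.1 bb) : LDX X K' (X ^ δ') s₀ a.1 bb := by
  have hL : 0 < Real.log X := Real.log_pos hX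
  have hs1 := H.win.s₁
  have hs2 := H.win.s₂
  have h0 : ∀ j : Fin 5, 0 ≤ (a.1.us j).z := fun j => (H.ok.base.1 j).2
  have hsum : (a.1.us 2).z + (a.1.us 3).z + (a.1.us 4).z ≤ K' * Real.log X := by
    have e : a3 a.1.toBd = (a.1.us 2).z + (a.1.us 3).z + (a.1.us 4).z := rfl
    rw [← e, hN]
    exact mul_le_mul_of_nonneg_right (hN1.trans hK1) hL.le
  have t1 : ∀ j : Fin 5, 1 + |(a.1.us j).t| ≤ X ^ δ' := fun j => by
    have h1 : Dq.s1 (a.1.us j) ≤ mx Dq.s1 (List.ofFn a.1.us) := le_mx (List.mem_ofFn.2 ⟨j, rfl⟩)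
    exact h1.trans ((le_max_right _ _).trans hs1)
  have d1 : ∀ j : Fin 5, (nm (a.1.us j).d : ℝ) ≤ X ^ K' := fun j => by
    have h1 : Dq.s2 (a.1.us j) ≤ mx Dq.s2 (List.ofFn a.1.us) := le_mx (List.mem_ofFn.2 ⟨j, rfl⟩)
    have h2 : (nm (a.1.us j).d : ℝ) ≤ X ^ B := h1.trans ((le_max_right _ _).trans hs2)
    exact h2.trans (Real.rpow_le_rpow_of_exponent_le hX.le hBK)
  have z23 := H.ok.s23
  have z2 := H.ok.z0 2
  have z3 := H.ok.z0 3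
  refine ⟨H.ok, fun i => ?_, fun i => ?_, fun i => ?_, fun i => ?_, hβ,
    fun i => (hβX i).trans (Real.rpow_le_rpow_of_exponent_le hX.le hKK), hs⟩
  · fin_cases i
    · show (a.1.us 2).z ≤ _; linarith only [hsum, h0 3, h0 4]
    · show (a.1.us 3).z ≤ _; linarith only [hsum, h0 2, h0 4]
    · show (a.1.us 4).z ≤ _; linarith only [hsum, h0 2, h0 3]
  · fin_cases i
    · show a.1.zs 2 ≤ _; linarith only [hsum, z23, z3, h0 4]
    · show a.1.zs 3 ≤ _; linarith only [hsum, z23, z2, h0 4]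
    · show (a.1.us 4).z ≤ _; linarith only [hsum, h0 2, h0 3]
  · fin_cases i
    · exact t1 2
    · exact t1 3
    · exact t1 4
  · fin_cases i
    · exact d1 2
    · exact d1 3
    · exact d1 4

/-- the length of the difference -/
lemma Sv_of {A d β δ δ' B X : ℝ} {N : ℕ} {a : BdX × ℕ} {q : (Option IX5 → ℝ) × (Kd → ℝ)}
    (hX : 1 < X) (H : FrX A d β δ δ' B X N a q) (hβ : β = 17 / 100) (f : Fq (qL q))
    (hδ0 : 0 < δ) {bb : Fin 3 → Eis} (hb : ∀ i, IsPrim (bb i)) :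
    Sv X (17 / 100 * cκ (dn (qL q).1) - 3 * δ - Real.log (nm (∏ i, bb i)) / Real.log X) a.1 bb := by
  have hL : 0 < Real.log X := Real.log_pos hX
  have hn1 : ∀ i, (1 : ℝ) ≤ nm (bb i) := fun i => by exact_mod_cast nm_pos.2 (hb i).ne_zero
  have hl : ∀ i, 0 ≤ Real.log (nm (bb i)) := fun i => Real.log_nonneg (hn1 i)
  have e : Real.log (nm (∏ i, bb i)) =
      Real.log (nm (bb 0)) + Real.log (nm (bb 1)) + Real.log (nm (bb 2)) := by
    rw [VFa436.nm_prodF, Fin.prod_univ_three]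
    push_cast
    have g0 := hn1 0
    have g1 := hn1 1
    have g2 := hn1 2
    rw [Real.log_mul (by positivity) (by positivity), Real.log_mul (by positivity) (by positivity)]
  have e' : (17 / 100 * cκ (dn (qL q).1) - 3 * δ - Real.log (nm (∏ i, bb i)) / Real.log X) *
      Real.log X = (17 / 100 * cκ (dn (qL q).1) - 3 * δ) * Real.log X -
        Real.log (nm (∏ i, bb i)) := by
    field_simp
  have g1 := f.κ0
  have g4 := f.u3
  have g5 := f.u2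
  have g6 := f.y
  have g7 := f.N0
  have eN : cN (dn (qL q).1) = cu (dn (qL q).1) 2 + cu (dn (qL q).1) 3 + cu (dn (qL q).1) 4 := rfl
  have hAc := acX_of H
  obtain ⟨b2, b2'⟩ := abs_le.1 (hAc.u 2)
  obtain ⟨b3, b3'⟩ := abs_le.1 (hAc.u 3)
  have b2 : -δ ≤ (a.1.us 2).z / Real.log X - cu (dn (qL q).1) 2 := b2
  have b3 : -δ ≤ (a.1.us 3).z / Real.log X - cu (dn (qL q).1) 3 := b3
  obtain ⟨z1, z2⟩ := zs2_of H
  rw [hβ] at z1 z2
  have κ1 := κ31_of H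
  have z23 := H.ok.s23
  have z3' : a.1.zs 3 / Real.log X = (a.1.us 2).z / Real.log X + (a.1.us 3).z / Real.log X -
      a.1.zs 2 / Real.log X := by
    rw [← add_div, ← z23, ← sub_div]
    congr 1
    ring
  have key : ∀ y : ℝ, 17 / 100 * cκ (dn (qL q).1) - 3 * δ ≤ y / Real.log X →
      (17 / 100 * cκ (dn (qL q).1) - 3 * δ) * Real.log X ≤ y := fun y hy => by
    rwa [le_div_iff₀ hL] at hy
  have u2 : 17 / 100 * cκ (dn (qL q).1) - 3 * δ ≤ (a.1.us 2).z / Real.log X := by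
    linarith only [b2, g7, g4, g5, eN, g1, hδ0]
  have u3 : 17 / 100 * cκ (dn (qL q).1) - 3 * δ ≤ (a.1.us 3).z / Real.log X := by
    linarith only [b3, g7, g4, g6, eN, g1, hδ0]
  have v2 : 17 / 100 * cκ (dn (qL q).1) - 3 * δ ≤ a.1.zs 2 / Real.log X := by
    linarith only [z1, hδ0]
  have v3 : 17 / 100 * cκ (dn (qL q).1) - 3 * δ ≤ a.1.zs 3 / Real.log X := by
    rw [z3']
    linarith only [b2, b3, g7, g4, g5, eN, κ1, z2, hδ0]
  have k2 := key _ u2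
  have k3 := key _ u3
  have m2 := key _ v2
  have m3 := key _ v3
  exact ⟨by rw [e', e]; linarith only [k2, hl 1, hl 2], by rw [e', e]; linarith only [k3, hl 0, hl 2],
    by rw [e', e]; linarith only [m2, hl 1, hl 2], by rw [e', e]; linarith only [m3, hl 0, hl 2]⟩

/-- the real hypothesis of helper792's `vn_ptX` -/
lemma rhxX {A d β δ δ' B X : ℝ} {N : ℕ} {a : BdX × ℕ} {q : (Option IX5 → ℝ) × (Kd → ℝ)}
    (H : FrX A d β δ δ' B X N a q) (hβ : β = 17 / 100) (f : Fq (qL q))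
    (hd : 0 ≤ d) (hδ0 : 0 < δ) {N' n v γ : ℝ} (aN : |N' - cN (dn (qL q).1)| ≤ 3 * δ)
    (hN0 : 0 ≤ N') (hn : n ≤ N') (hγ : 0 ≤ γ) :
    RHx (G4X d) (fun i => (u3 a.1 i).z / Real.log X) v (n - γ)
      (FfX (5 / 4 * N' + 10 * δ) (17 / 100 + δ) (2 / 3 * d * N') v (max 0 (n - γ))) ∧
    RHx (G4X d) (fun i => (u3' a.1 i).z / Real.log X) v (n - γ)
      (FfX (5 / 4 * N' + 10 * δ) (17 / 100 + δ) (2 / 3 * d * N') v (max 0 (n - γ))) := by
  have hn' : max 0 (n - γ) ≤ N' := max_le hN0 (by linarith only [hn, hγ])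
  have hℓ : 2 / 3 * d * max 0 (n - γ) ≤ 2 / 3 * d * N' :=
    mul_le_mul_of_nonneg_left hn' (by positivity)
  have hK : 5 / 4 * max 0 (n - γ) ≤ 5 / 4 * N' + 10 * δ := by linarith only [hn', hδ0]
  constructor
  · intro z hz hzs
    rw [Fin.sum_univ_three] at hzs
    obtain ⟨n1, n2⟩ := abs_le.1 aN
    have g4 := f.u3
    have g5 := f.u2
    have g6 := f.y
    have g7 := f.N0
    have g1 := f.κ0
    have hAc := acX_of H
    obtain ⟨-, b2⟩ := abs_le.1 (hAc.u 2)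
    obtain ⟨-, b3⟩ := abs_le.1 (hAc.u 3)
    obtain ⟨-, b4⟩ := abs_le.1 (hAc.u 4)
    have y0 : (u3 a.1 0).z / Real.log X ≤ cu (dn (qL q).1) 2 + δ := by
      have b2 : (a.1.us 2).z / Real.log X - cu (dn (qL q).1) 2 ≤ δ := b2
      show (a.1.us 2).z / Real.log X ≤ _; linarith only [b2]
    have y1 : (u3 a.1 1).z / Real.log X ≤ cu (dn (qL q).1) 2 + δ := by
      have b3 : (a.1.us 3).z / Real.log X - cu (dn (qL q).1) 3 ≤ δ := b3
      show (a.1.us 3).z / Real.log X ≤ _; linarith only [b3, g5]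
    have y2 : (u3 a.1 2).z / Real.log X ≤ cu (dn (qL q).1) 2 + δ := by
      have b4 : (a.1.us 4).z / Real.log X - cu (dn (qL q).1) 4 ≤ δ := b4
      show (a.1.us 4).z / Real.log X ≤ _; linarith only [b4, g4, g5]
    have hz0 := (hz 0).2.trans y0
    have hz1 := (hz 1).2.trans y1
    have hz2 := (hz 2).2.trans y2
    have hm : max (z 0) (max (z 1) (z 2)) ≤ cu (dn (qL q).1) 2 + δ :=
      max_le hz0 (max_le hz1 hz2)
    show G4X d ![v, z 0, z 1, z 2] ≤ _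
    refine (min_le_left _ _).trans ?_
    show OwA90.Gt d v (z 0 + z 1 + z 2) (max (z 0) (max (z 1) (z 2))) ≤ _
    rw [hzs]
    exact Gt_le_FfX hK (by linarith only [hm, g6, g7, n1, hδ0, g1]) hℓ
  · intro z hz hzs
    rw [Fin.sum_univ_three] at hzs
    have y0 : (u3' a.1 0).z / Real.log X ≤ 17 / 100 + δ := by
      have := (zs2_of H).2
      rw [hβ] at this
      exact this
    have hz0 := (hz 0).2.trans y0
    show G4X d ![v, z 0, z 1, z 2] ≤ _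
    refine (min_le_right _ _).trans ?_
    show Gf d v (z 0 + z 1 + z 2) (min (z 0) (min (z 1) (z 2))) ≤ _
    rw [hzs]
    exact Gf_le_FfX hK ((min_le_left _ _).trans hz0) hℓ

lemma SSA_eq (T : Finset (Fin 3 → Eis)) (al : (Fin 3 → Eis) → Eis → ℂ) (E0 : ℝ)
    (J : Finset (Eis × Eis)) (om : Eis × Eis → ℂ) (k : Eis) :
    SSA T al E0 J om k = SA T al E0 J om k := rfl

lemma fcX_len {N c v k x b K1 u s ℓ η τ : ℝ} (H : FcX N c v k x b K1 u s ℓ η τ) :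
    0 ≤ N - c - b - x := fc_len H.fc

set_option maxHeartbeats 1000000 in
/-- **moments of one level of the structured function, class E** -/
theorem sinE {c₁ : ℝ} (hpu : PU h c₁) (hP : ∀ lam, (π lam).OK) (hE : ∀ lam, Exc (π lam))
    {A d β : ℝ} (hβ : β = 17 / 100) (hd : 0 ≤ d) (hd1 : d ≤ 1 / 8) (hA1 : 16 * (1 - A) ≤ d)
    (hown : Own (ex Dq fun lam => S0K Dk (red (π lam)) h) d)
    (hownF : OwnF (ex Dq fun lam => S0K Dk (red (π lam)) h) d) {e0 : ℝ} (he0 : 0 ≤ e0)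
    (he1 : e0 ≤ 1 / 64) (r : ℝ) {Bf : ℕ → ℝ → ℝ → ℝ → ℝ}
    (hBf : ∀ i l N z, Bf i l N z ≤ bfO l N z)
    (hBf2 : ∀ i l N z, 2 * Bf i l N z ≤ topL l N z - Real.log 2 * i + d / 2 * l)
    {Jf : ℝ → ℝ → ℝ → Finset (Eis × Eis)} (hJf : ∀ l N z, OKJ (Jf l N z)) {τ₀ : ℝ}
    (hτ0 : 1 / 384 ≤ τ₀) (hτ1 : τ₀ ≤ 7 / 50) :
    ∀ R : Λ → ℝ, (∀ lam, 0 ≤ R lam) → ∀ ε : ℝ, 0 < ε → ∃ δ : ℝ, 0 < δ ∧
    ∀ (lam : Λ × Eis) (N : ℕ) (B : ℝ), ∃ δ' : ℝ, 0 < δ' ∧ ∃ X₀ : ℝ, 1 < X₀ ∧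
    ∀ X : ℝ, X₀ ≤ X → ∀ (a : BdX × ℕ) (q : (Option IX5 → ℝ) × (Kd → ℝ)),
      FrX A d β δ δ' B X N a q → lam.2 ∈ SM (π lam.1).n →
      ∀ m : Eis, IsPrim m → (nm m : ℝ) ^ 3 ≤ Real.exp (a.1.l + R lam.1) →
      kf a.1.l (R lam.1) X m ≤ cN (dn (qL q).1) + 3 * τ₀ + δ →
      (∑ k ∈ KS (π lam.1).n (Real.exp (a.1.l - R lam.1)) (Real.exp (a.1.l + R lam.1)) m,
          SxE π h e0 r Bf Jf a.2 lam a.1 (k * m ^ 3) ^ 2 ≤
        X ^ (m2 d ((qL q).1 none) (cN (dn (qL q).1)) (kf a.1.l (R lam.1) X m) + τ₀ + ε)) ∧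
      (∑ k ∈ KS (π lam.1).n (Real.exp (a.1.l - R lam.1)) (Real.exp (a.1.l + R lam.1)) m,
          SxE π h e0 r Bf Jf a.2 lam a.1 (k * m ^ 3) ^ 4 ≤
        X ^ (m4 d ((qL q).1 none) (cN (dn (qL q).1)) (kf a.1.l (R lam.1) X m) +
          2 * τ₀ + ε)) := by
  classical
  intro R hR ε hε
  obtain ⟨Rh, hRh0, hRh⟩ := exists_Rh hpu
  obtain ⟨ε₁, hε₁⟩ : ∃ ε₁ : ℝ, ε₁ = ε / 400 := ⟨_, rfl⟩
  have hε₁0 : 0 < ε₁ := by rw [hε₁]; positivity
  obtain ⟨δ, hδ⟩ : ∃ δ : ℝ, δ = min ε₁ (1 / 20000) := ⟨_, rfl⟩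
  have hδ0 : 0 < δ := by rw [hδ]; exact lt_min hε₁0 (by norm_num)
  have hδε : δ ≤ ε₁ := hδ.le.trans (min_le_left _ _)
  have hδ1 : δ ≤ 1 / 20000 := hδ.le.trans (min_le_right _ _)
  refine ⟨δ, hδ0, fun lam N B => ?_⟩
  by_cases hs : lam.2 ∈ SM (π lam.1).n
  swap
  · exact ⟨1, one_pos, 2, by norm_num, fun X _ a q _ h => absurd h hs⟩
  obtain ⟨K, hK⟩ : ∃ K : ℝ, K = |B| + 10 := ⟨_, rfl⟩
  have hK10 : 10 ≤ K := by have := abs_nonneg B; linarith only [this, hK]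
  have hBK : B ≤ K := by have := le_abs_self B; linarith only [this, hK]
  obtain ⟨M, HV⟩ := vn_ptX hpu hP hE (G4X_cont d) (own_G4X hown hownF) hε₁0 one_pos (2 * K)
    (by linarith only [hK10]) lam.1
  obtain ⟨X₁, hX₁, H1⟩ := HV M le_rfl lam.2 hs
  obtain ⟨X₂, hX₂, H2⟩ := mom2 (ι := Fin 3) (6 * Rh) (by linarith only [hRh0]) hε₁0 K
    (by linarith only [hK10]) M (c₀ := 4) (by norm_num) (2 * R lam.1) (by linarith only [hR lam.1])
  obtain ⟨X₃, hX₃, H3⟩ := mom4 (ι := Fin 3) (6 * Rh) (by linarith only [hRh0]) hε₁0 K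
    (by linarith only [hK10]) M (c₀ := 4) (by norm_num) (2 * R lam.1) (by linarith only [hR lam.1])
  obtain ⟨X₄, hX₄, H4⟩ := sum_wt (Fin 3) hε₁0 K (by linarith only [hK10])
  obtain ⟨L₀, hL₀⟩ : ∃ L₀ : ℝ, L₀ = (Real.log 2 + R lam.1 + |r| + 1) / δ := ⟨_, rfl⟩
  obtain ⟨δ', hδ'⟩ : ∃ δ' : ℝ, δ' = ε₁ / (M + 1) := ⟨_, rfl⟩
  have hM0 : (0 : ℝ) ≤ M := Nat.cast_nonneg _
  have hδ'0 : 0 < δ' := by rw [hδ']; positivity
  have hδ'M : δ' * M ≤ ε₁ := by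
    rw [hδ', div_mul_eq_mul_div, div_le_iff₀ (by positivity)]
    nlinarith only [hε₁0, hM0]
  refine ⟨δ', hδ'0, max (max X₁ X₂) (max (max X₃ X₄) (Real.exp L₀)),
    lt_max_of_lt_left (lt_max_of_lt_left hX₁), ?_⟩
  intro X hX a q hF hsm m hm hmX hkN
  have hXX₁ : X₁ ≤ X := ((le_max_left _ _).trans (le_max_left _ _)).trans hX
  have hXX₂ : X₂ ≤ X := ((le_max_right _ _).trans (le_max_left _ _)).trans hX
  have hXX₃ : X₃ ≤ X := (((le_max_left _ _).trans (le_max_left _ _)).trans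
    (le_max_right _ _)).trans hX
  have hXX₄ : X₄ ≤ X := (((le_max_right _ _).trans (le_max_left _ _)).trans
    (le_max_right _ _)).trans hX
  have hXe : Real.exp L₀ ≤ X := ((le_max_right _ _).trans (le_max_right _ _)).trans hX
  clear hX
  have hX1 : 1 < X := lt_of_lt_of_le hX₁ hXX₁
  have hX0 : 0 < X := by linarith only [hX1]
  obtain ⟨L, hL⟩ : ∃ L : ℝ, L = Real.log X := ⟨_, rfl⟩
  have hL0 : 0 < L := by rw [hL]; exact Real.log_pos hX1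
  have hLL : L₀ ≤ L := by rw [hL]; exact (Real.le_log_iff_exp_le hX0).2 hXe
  have hl2 : 0 < Real.log 2 := Real.log_pos (by norm_num)
  have hRl := hR lam.1
  have hr0 := abs_nonneg r
  have hsum : Real.log 2 + R lam.1 + |r| + 1 ≤ δ * L := by
    rw [hL₀, div_le_iff₀ hδ0] at hLL
    linarith only [hLL]
  have hlog2 : Real.log 2 / L ≤ δ := by
    rw [div_le_iff₀ hL0]; linarith only [hsum, hRl, hr0]
  have hRL : R lam.1 ≤ δ * L := by linarith only [hsum, hl2, hr0]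
  have hrL : |r| ≤ δ * L := by linarith only [hsum, hl2, hRl]
  clear hsum hLL hXe hL₀
  -- the domain
  have f := fct hd hd1 hA1 (qL_mem hF.dom)
  have hAc : Ac δ L (bn a) (qL q) := by rw [hL]; exact acX_of hF
  have hvt := f.vt.trans (top_34 f)
  obtain ⟨κ', hκ'⟩ : ∃ κ' : ℝ, κ' = a.1.l / L := ⟨_, rfl⟩
  obtain ⟨x', hx'⟩ : ∃ x' : ℝ, x' = a.1.z / L := ⟨_, rfl⟩
  obtain ⟨N', hN'⟩ : ∃ N' : ℝ, N' = a3 a.1.toBd / L := ⟨_, rfl⟩
  have aN : |N' - cN (dn (qL q).1)| ≤ 3 * δ := by rw [hN']; exact hAc.a3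
  have aκ : |κ' - cκ (dn (qL q).1)| ≤ δ := by rw [hκ']; exact hAc.κ
  have ax : |x' - cx' (dn (qL q).1)| ≤ δ := by rw [hx']; exact hAc.x
  have hn : Nu κ' x' N' := nu_of f hδ1 aκ ax aN
  have eκ : a.1.l = κ' * L := by rw [hκ']; field_simp
  have eN : a3 a.1.toBd = N' * L := by rw [hN']; field_simp
  have ez : a.1.z = x' * L := by rw [hx']; field_simp
  have hN'0 : 0 ≤ N' := by linarith only [hn.N0]
  have hl0 : 0 ≤ a.1.l := by
    rw [eκ]; exact mul_nonneg (by linarith only [hn.κ0]) hL0.le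
  have how := own_win hL0 eκ eN ez f aκ ax aN
  -- sizes
  have hNt : ∑ i, (u3 a.1 i).z = N' * L := by rw [ExP960.sum_u3, eN]
  obtain ⟨V, hV⟩ : ∃ V : ℝ, V = 2 ^ (a.2 + 1) := ⟨_, rfl⟩
  have hV1 : 1 ≤ V := by rw [hV]; exact one_le_pow₀ (by norm_num)
  have hV0 : 0 < V := by linarith only [hV1]
  obtain ⟨v', hv'⟩ : ∃ v' : ℝ, v' = Real.log V / L := ⟨_, rfl⟩
  have ev' : v' = Real.log 2 * (a.2 : ℝ) / L + Real.log 2 / L := by
    rw [hv', hV, Real.log_pow]; push_cast; ring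
  have av := abs_le.1 hAc.v
  have av1 : -δ ≤ Real.log 2 * (a.2 : ℝ) / L - (qL q).1 none := av.1
  have av2 : Real.log 2 * (a.2 : ℝ) / L - (qL q).1 none ≤ δ := av.2
  have hl2L : 0 < Real.log 2 / L := by positivity
  have hv1 : (qL q).1 none - δ ≤ v' := by linarith only [av1, ev', hl2L]
  have hv2 : v' ≤ (qL q).1 none + 2 * δ := by linarith only [av2, ev', hlog2]
  have hv0 : 0 ≤ v' := by
    rw [hv']; exact div_nonneg (Real.log_nonneg hV1) hL0.le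
  have f1 := f.κ1
  have f2 := f.N1
  have hv3 : v' ≤ 1 := by linarith only [hv2, hvt, f1, f2, hδ1]
  obtain ⟨hKk1, hKkX, hmXK, ek⟩ := Kk_bd hX1 (l := a.1.l) (R := R lam.1) (κ := κ') (δ := δ) (K := K)
    (by rw [← hL]; exact eκ) (by rw [← hL]; exact hRL) hn.κ1 hδ1 hK10 hm hmX
  rw [← hL] at ek
  obtain ⟨Kk, hKk⟩ : ∃ Kk : ℝ, Kk = Real.exp (a.1.l + R lam.1) / (nm m : ℝ) ^ 3 := ⟨_, rfl⟩
  rw [← hKk] at hKk1 hKkX ek
  have hKk0 : 0 < Kk := by linarith only [hKk1]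
  obtain ⟨k', hk'⟩ : ∃ k' : ℝ, k' = kf a.1.l (R lam.1) X m := ⟨_, rfl⟩
  rw [← hk'] at ek hkN ⊢
  have hVX : V ≤ X ^ K := by
    rw [← rpow_log_div hX1 hV0, ← hL, ← hv']
    exact Real.rpow_le_rpow_of_exponent_le hX1.le (by linarith only [hv3, hK10])
  obtain ⟨E0, hE0⟩ : ∃ E0 : ℝ, E0 = Real.exp (e0 * a.1.l) := ⟨_, rfl⟩
  have hek : e0 * κ' ≤ 1 / 64 * κ' :=
    mul_le_mul_of_nonneg_right he1 (by linarith only [hn.κ0])
  have hE01 : 1 ≤ E0 := by rw [hE0]; exact Real.one_le_exp (mul_nonneg he0 hl0)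
  have hE0X : E0 ≤ X ^ K := by
    rw [hE0, eκ, ← mul_assoc, hL, exp_X hX1]
    exact Real.rpow_le_rpow_of_exponent_le hX1.le (by linarith only [hek, hn.κ1, hK10])
  have hE0b : Real.log E0 / L ≤ 1 / 64 + 10 * δ := by
    rw [hE0, Real.log_exp, mul_div_assoc, ← hκ']
    have h1 := (abs_le.1 aκ).2
    linarith only [hek, h1, f1, hδ0]
  -- the tuples
  obtain ⟨T, hT⟩ : ∃ T : Finset (Fin 3 → Eis), T = T3 (Bf a.2) a.1.toBd r := ⟨_, rfl⟩
  obtain ⟨hY1, hYX⟩ := Y3_bd hX1 (a := a.1.toBd) (r := r) (N := N') (δ := δ) (K := K)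
    (by rw [← hL]; exact eN) hn.N0 hn.N1 hδ1 (by rw [← hL]; exact hrL) hK10
  have hTsub : T ⊆ PT (Fin 3) (Y3 a.1.toBd r) := fun β hβ => by
    rw [hT] at hβ
    exact (mem_PTb.1 hβ).1
  have hTp : ∀ β ∈ T, ∀ i, IsPrim (β i) := fun β hβ i => (PT_mem (hTsub hβ) i).1
  have hTX : ∀ β ∈ T, ∀ i, (nm (β i) : ℝ) ≤ X ^ K := fun β hβ i => by
    have h1 := (PT_mem (hTsub hβ) i).2
    exact (by exact_mod_cast h1 : (nm (β i) : ℝ) ≤ (Y3 a.1.toBd r : ℝ)).trans hYX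
  have hT0 : ∀ β ∈ T, ∏ i, β i ≠ 0 := fun β hβ =>
    Finset.prod_ne_zero_iff.2 fun i _ => (hTp β hβ i).ne_zero
  have hTc0 : ∀ β ∈ T, 0 ≤ Real.log (nm (∏ i, β i)) / L := fun β hβ =>
    div_nonneg (Real.log_nonneg (TMv968.nm1 (hT0 β hβ))) hL0.le
  have hTB : ∀ β ∈ T, Real.log (nm (∏ i, β i)) ≤ Bf a.2 a.1.l (a3 a.1.toBd) a.1.z := by
    intro β hβ
    have h2 := TMv968.nm1 (hT0 β hβ)
    rw [hT] at hβ
    have h1 := (mem_PTb.1 hβ).2
    rw [Real.log_le_iff_le_exp (by linarith only [h2])]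
    exact h1
  have hTc : ∀ β ∈ T, Real.log (nm (∏ i, β i)) / L ≤ N' + x' - κ' / 2 := by
    intro β hβ
    have h3 := hTB β hβ
    rw [div_le_iff₀ hL0]
    have h4 := hBf a.2 a.1.l (a3 a.1.toBd) a.1.z
    unfold E5L770.bfO at h4
    have h5 : a3 a.1.toBd + a.1.z - a.1.l / 2 = (N' + x' - κ' / 2) * L := by
      rw [eN, ez, eκ]; ring
    linarith only [h3, h4, h5]
  have hTw : ∀ β ∈ T, v' + 2 * (Real.log (nm (∏ i, β i)) / L) ≤
      3 / 4 * N' + 14 * δ + d / 2 * κ' := by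
    intro β hβ
    have h3 := hTB β hβ
    have h4 := hBf2 a.2 a.1.l (a3 a.1.toBd) a.1.z
    have h5 : 2 * (Real.log (nm (∏ i, β i)) / L) ≤
        topL a.1.l (a3 a.1.toBd) a.1.z / L - Real.log 2 * (a.2 : ℝ) / L + d / 2 * κ' := by
      rw [hκ', ← mul_div_assoc, ← mul_div_assoc, ← sub_div, ← add_div]
      exact div_le_div_of_nonneg_right (by linarith only [h3, h4]) hL0.le
    linarith only [h5, how, ev', hlog2]
  have hW := H4 X hXX₄ _ hY1 hYX T hTsub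
  -- heights
  have hH1 : 1 ≤ X ^ δ' := Real.one_le_rpow hX1.le hδ'0.le
  have hHM : (X ^ δ') ^ M ≤ X ^ ε₁ := by
    rw [← Real.rpow_natCast, ← Real.rpow_mul hX0.le]
    exact Real.rpow_le_rpow_of_exponent_le hX1.le hδ'M
  obtain ⟨sg, hsg⟩ : ∃ sg : ℝ, sg = 17 / 100 * cκ (dn (qL q).1) - 3 * δ := ⟨_, rfl⟩
  have hLD : ∀ β ∈ T, LDX X (2 * K) (X ^ δ') (sg - Real.log (nm (∏ i, β i)) / L) a.1 β :=
    fun β' hβ' =>
    LDX_of (K := K) hX1 hF (by linarith only [hBK, hK10]) (by linarith only [hK10])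
      (by rw [← hL]; exact eN) hn.N1 (hTp β' hβ') (hTX β' hβ') (by linarith only [hK10])
      (by rw [hsg, hL]; exact Sv_of hX1 hF hβ f hδ0 (hTp β' hβ'))
  -- the own number
  obtain ⟨al, hal⟩ : ∃ al : (Fin 3 → Eis) → Eis → ℂ, al = alX (π lam.1) h lam.2 a.1 := ⟨_, rfl⟩
  have hnLe : ∀ β, TEM792.nL X (u3 a.1) β = N' - Real.log (nm (∏ i, β i)) / L := by
    intro β
    unfold TEM792.nL
    rw [hNt, ← hL, sub_div, mul_div_cancel_right₀ _ hL0.ne']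
  obtain ⟨F, hFF⟩ : ∃ F : (Fin 3 → Eis) → ℝ → ℝ → ℝ, F = fun β v γ =>
    max (FfX (5 / 4 * N' + 10 * δ) (17 / 100 + δ) (2 / 3 * d * N') v
        (max 0 (N' - Real.log (nm (∏ i, β i)) / L - γ)))
      (2 / 3 * v + 5 / 3 * (N' - Real.log (nm (∏ i, β i)) / L - γ) -
        max 0 (sg - Real.log (nm (∏ i, β i)) / L - γ)) + ε₁ := ⟨_, rfl⟩
  have hVN : ∀ β ∈ T, VN X (X ^ δ') M (2 * K) (al β) (F β) := by
    intro β' hβ'
    rw [hal, hFF]
    have h9 := H1 X hXX₁ (X ^ δ') hH1 a.1 β' _ (hLD β' hβ')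
      (fun v γ => FfX (5 / 4 * N' + 10 * δ) (17 / 100 + δ) (2 / 3 * d * N') v
        (max 0 (TEM792.nL X (u3 a.1) β' - γ)))
      (fun v γ => FfX (5 / 4 * N' + 10 * δ) (17 / 100 + δ) (2 / 3 * d * N') v
        (max 0 (TEM792.nL X (u3 a.1) β' - γ)))
      (fun v σ γ _ h1 _ => FfX_slope h1) (fun v γ _ _ h3 _ =>
        rhxX hF hβ f hd hδ0 aN hN'0 (by rw [hnLe β']; linarith only [hTc0 β' hβ']) h3)
    rw [hnLe β'] at h9
    exact h9
  have hAdm : ∀ β ∈ T, Adm (Xn (u3 a.1) β * Real.exp (3 * Rh))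
      (Real.exp (N' * L) / nm (∏ i, β i)) (6 * Rh) (al β) := by
    intro β' hβ'
    rw [hal, ← hNt]
    exact adm_alX hRh0 hRh (π lam.1) lam.2 hF.ok (hTp β' hβ')
  have hYw : ∀ β ∈ T, 0 ≤ Xn (u3 a.1) β * Real.exp (3 * Rh) := fun β hβ =>
    mul_nonneg (Xn_pos (u3 a.1) (hTp β hβ)).le (Real.exp_pos _).le
  -- the classes
  obtain ⟨J, hJ⟩ : ∃ J : Finset (Eis × Eis), J = J3 Jf a.1.toBd a.2 := ⟨_, rfl⟩
  have hJo : OKJ J := by rw [hJ]; exact okJ3 hJf a.1.toBd a.2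
  have hJV : ∀ x ∈ J, (nm (x.2 * x.1 ^ 2) : ℝ) ≤ V := fun x hx => by
    rw [hJ] at hx
    rw [hV]
    exact (J3_le hJf hx).1
  have hJl : ∀ x ∈ J, omL a.2 x ≠ 0 → V ≤ 4 * nm (x.2 * x.1 ^ 2) := fun x hx _ => by
    rw [hJ] at hx
    rw [hV]
    exact (J3_le hJf hx).2
  -- the cube-free parts
  obtain ⟨Ak, hAk⟩ : ∃ Ak : Finset Eis,
    Ak = KS (π lam.1).n (Real.exp (a.1.l - R lam.1)) (Real.exp (a.1.l + R lam.1)) m := ⟨_, rfl⟩
  have hAs : ∀ k ∈ Ak, k ∈ primBall ⌊Kk⌋₊ ∧ CbF k ∧ Kk ≤ Real.exp (2 * R lam.1) * nm k := by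
    intro k hk
    rw [hAk] at hk
    rw [hKk]
    exact KS_mem hk
  have hAsub : Ak ⊆ (primBall ⌊Kk⌋₊).filter CbF := fun k hk =>
    Finset.mem_filter.2 ⟨(hAs k hk).1, (hAs k hk).2.1⟩
  -- the real line
  have hFc : ∀ β ∈ T, ∀ x b : ℝ, 0 ≤ x → 2 * x ≤ v' → 0 ≤ b → b ≤ Real.log E0 / L →
      FcX N' (Real.log (nm (∏ i, β i)) / L) v' k' x b (5 / 4 * N' + 10 * δ) (17 / 100 + δ) sg
        (2 / 3 * d * N') (10 * δ) (τ₀ + 30 * δ) := fun β hβ x b hx hxv hb hb1 => by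
    rw [hsg]
    exact fcX_of f (κ31_of hF) hd hδ0 hδ1 hn aκ aN hτ0 hτ1 (hTc0 β hβ) (hTc β hβ) hx hxv hb
      (hb1.trans hE0b) hv2 hkN (hTw β hβ)
  have hnn : ∀ β ∈ T, ∀ x b : ℝ, FcX N' (Real.log (nm (∏ i, β i)) / L) v' k' x b
      (5 / 4 * N' + 10 * δ) (17 / 100 + δ) sg (2 / 3 * d * N') (10 * δ) (τ₀ + 30 * δ) →
      F β (v' + b - 2 * x) (b + x) =
        max (FfX (5 / 4 * N' + 10 * δ) (17 / 100 + δ) (2 / 3 * d * N') (v' + b - 2 * x)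
          (N' - Real.log (nm (∏ i, β i)) / L - b - x))
          (Bz (sg - Real.log (nm (∏ i, β i)) / L) (v' + b - 2 * x)
            (N' - Real.log (nm (∏ i, β i)) / L) (b + x)) + ε₁ := by
    intro β _ x b hc
    have e : max 0 (N' - Real.log (nm (∏ i, β i)) / L - (b + x)) =
        N' - Real.log (nm (∏ i, β i)) / L - b - x := by
      rw [max_eq_right (by linarith only [fcX_len hc])]
      ring
    rw [hFF]
    show max (FfX _ _ _ (v' + b - 2 * x) (max 0 (N' - Real.log (nm (∏ i, β i)) / L - (b + x))))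
      _ + ε₁ = _
    rw [e]
    rfl
  -- the exponents
  have eNV : (Real.exp (N' * L) * V) ^ (-(1 / 3) : ℝ) = X ^ (-(N' + v') / 3) := by
    rw [hL, exp_X hX1, ← rpow_log_div hX1 hV0, ← hL, ← hv', ← Real.rpow_add hX0,
      ← Real.rpow_mul hX0.le]
    congr 1
    ring
  have eKk : Kk ^ (-(1 / 3) : ℝ) = X ^ (-k' / 3) := by
    rw [← rpow_log_div hX1 hKk0, ← hL, ek, ← Real.rpow_mul hX0.le]
    congr 1
    ring
  have h1X : (1 : ℝ) ≤ X ^ ε₁ := Real.one_le_rpow hX1.le hε₁0.le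
  have hat : ∀ k, SxE π h e0 r Bf Jf a.2 lam a.1 k = ‖SA T al E0 J (omL a.2) k‖ := by
    intro k
    rw [hT, hal, hE0, hJ]
    rfl
  have n1 : cN (dn (qL q).1) - 3 * δ ≤ N' := by linarith only [(abs_le.1 aN).1]
  have n2 : N' ≤ cN (dn (qL q).1) + 3 * δ := by linarith only [(abs_le.1 aN).2]
  rw [← hAk]
  refine ⟨?_, ?_⟩
  · obtain ⟨E, hE⟩ : ∃ E : ℝ, E = 2 * N' + 2 / 3 * d * N' + (τ₀ + 30 * δ) +
      max k' (max v' (2 / 3 * (k' + v'))) + ε₁ := ⟨_, rfl⟩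
    have h1 := H2 X hXX₂ (X ^ δ') hH1 T al F (N' * L)
      (fun β => Xn (u3 a.1) β * Real.exp (3 * Rh)) (X ^ ε₁) hT0 hW hYw hAdm hVN Kk V E0 hKk1 hKkX
      hV1 hVX hE01 hE0X J (omL a.2) hJo hJV hJl (norm_omL a.2) m hm hmXK Ak hAsub
      (fun k hk => (hAs k hk).2.2) E (fun β hβ x b hx hxv hb hb1 => by
        rw [← hL] at hxv hb1 ⊢
        rw [← hv'] at hxv ⊢
        have hc := hFc β hβ x b hx hxv hb hb1
        have h2 := line2X hc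
        rw [hnn β hβ x b hc, ek, hE]
        linarith only [h2])
    rw [eNV, eKk] at h1
    have h2 := end2 hX1 zero_le_one h1X rfl hHM
      (Finset.sum_nonneg fun _ _ => by positivity) h1
    rw [one_pow, one_mul] at h2
    have h4 := fin2 (k := k') (τ := τ₀) hd hd1 hδ0.le hv1 hv2 n1 n2
    calc ∑ k ∈ Ak, SxE π h e0 r Bf Jf a.2 lam a.1 (k * m ^ 3) ^ 2
        = ∑ k ∈ Ak, ‖SA T al E0 J (omL a.2) (k * m ^ 3)‖ ^ 2 :=
          Finset.sum_congr rfl fun k _ => by rw [hat]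
      _ ≤ _ := h2
      _ ≤ _ := Real.rpow_le_rpow_of_exponent_le hX1.le (by
          rw [hE]
          linarith only [h4, hδε, hε₁, hε])
  · obtain ⟨E, hE⟩ : ∃ E : ℝ, E = 2 * N' + 2 / 3 * d * N' + (τ₀ + 30 * δ) +
      max (k' + 2 / 3 * v') (max (2 * v') (2 / 3 * (k' + 2 * v'))) / 2 + ε₁ := ⟨_, rfl⟩
    have h1 := H3 X hXX₃ (X ^ δ') hH1 T al F (N' * L)
      (fun β => Xn (u3 a.1) β * Real.exp (3 * Rh)) (X ^ ε₁) hT0 hW hYw hAdm hVN Kk V E0 hKk1 hKkX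
      hV1 hVX hE01 hE0X J (omL a.2) hJo hJV hJl (norm_omL a.2) m hm hmXK Ak hAsub
      (fun k hk => (hAs k hk).2.2) E (fun β hβ x b hx hxv hb hb1 => by
        rw [← hL] at hxv hb1 ⊢
        rw [← hv'] at hxv ⊢
        have hc := hFc β hβ x b hx hxv hb hb1
        have h2 := line4X hc
        rw [hnn β hβ x b hc, ek, hE]
        linarith only [h2])
    rw [eNV, eKk] at h1
    have h2 := end4 hX1 zero_le_one h1X rfl (by positivity) hHM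
      (Finset.sum_nonneg fun _ _ => by positivity) h1
    rw [one_pow, one_mul] at h2
    have h4 := fin4 (k := k') (τ := τ₀) hd hd1 hδ0.le hv1 hv2 n1 n2
    calc ∑ k ∈ Ak, SxE π h e0 r Bf Jf a.2 lam a.1 (k * m ^ 3) ^ 4
        = ∑ k ∈ Ak, ‖SA T al E0 J (omL a.2) (k * m ^ 3)‖ ^ 4 :=
          Finset.sum_congr rfl fun k _ => by rw [hat]
      _ ≤ _ := h2
      _ ≤ _ := Real.rpow_le_rpow_of_exponent_le hX1.le (by
          rw [hE]
          linarith only [h4, hδε, hε₁, hε])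

section

variable {c₁ : ℝ} (hpu : PU h c₁) (hP : ∀ lam, (π lam).OK) (hE : ∀ lam, Exc (π lam))
  {A d β : ℝ} (hβ : β = 17 / 100) (hd : 0 ≤ d) (hd1 : d ≤ 1 / 8) (hA1 : 16 * (1 - A) ≤ d)
  (hown : Own (ex Dq fun lam => S0K Dk (red (π lam)) h) d)
  (hownF : OwnF (ex Dq fun lam => S0K Dk (red (π lam)) h) d) {e0 : ℝ} (he0 : 0 ≤ e0)
  (he1 : e0 ≤ 1 / 64) (r : ℝ) {Bf : ℕ → ℝ → ℝ → ℝ → ℝ}
  (hBf : ∀ i l N z, Bf i l N z ≤ bfO l N z)
  (hBf2 : ∀ i l N z, 2 * Bf i l N z ≤ topL l N z - Real.log 2 * i + d / 2 * l)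
  {Jf : ℝ → ℝ → ℝ → Finset (Eis × Eis)} (hJf : ∀ l N z, OKJ (Jf l N z))
include hpu hP hE hβ hd hd1 hA1 hown hownF he0 he1 hBf hBf2 hJf

/-- **second moment, `k ≤ 7/10 κ`, class E** -/
theorem sIn2X : SIn2X π (SxE π h e0 r Bf Jf) A d β := by
  intro R hR ε hε
  obtain ⟨δ, hδ, H⟩ := sinE hpu hP hE hβ hd hd1 hA1 hown hownF he0 he1 r hBf hBf2 hJf
    (τ₀ := 1 / 384) le_rfl (by norm_num) R hR ε hε
  refine ⟨δ, hδ, fun lam N B => ?_⟩
  obtain ⟨δ', hδ', X₀, hX₀, H'⟩ := H lam N B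
  refine ⟨δ', hδ', X₀, hX₀, fun X hX a q hF hs m hm hmX hk => ?_⟩
  have f := fct hd hd1 hA1 (qL_mem hF.dom)
  have f1 := f.κ0
  have f2 := f.N0
  have hk' : kf a.1.l (R lam.1) X m ≤ 7 / 10 * cκ (dn (qL q).1) := hk
  refine (H' X hX a q hF hs m hm hmX (by linarith only [hk', f1, f2, hδ])).1.trans
    (Real.rpow_le_rpow_of_exponent_le (by linarith only [hX, hX₀]) ?_)
  have := m2_le (v := (qL q).1 none) (k := kf a.1.l (R lam.1) X m) hd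
    (by linarith only [f1, f2] : 0 ≤ cN (dn (qL q).1))
  show _ ≤ g2b d ((qL q).1 none) (cN (dn (qL q).1)) (kf a.1.l (R lam.1) X m) + 1 / 384 + ε
  linarith only [this]

/-- **fourth moment, `k ≤ 7/10 κ`, class E** -/
theorem sIn4X : SIn4X π (SxE π h e0 r Bf Jf) A d β := by
  intro R hR ε hε
  obtain ⟨δ, hδ, H⟩ := sinE hpu hP hE hβ hd hd1 hA1 hown hownF he0 he1 r hBf hBf2 hJf
    (τ₀ := 1 / 384) le_rfl (by norm_num) R hR ε hε
  refine ⟨δ, hδ, fun lam N B => ?_⟩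
  obtain ⟨δ', hδ', X₀, hX₀, H'⟩ := H lam N B
  refine ⟨δ', hδ', X₀, hX₀, fun X hX a q hF hs m hm hmX hk => ?_⟩
  have f := fct hd hd1 hA1 (qL_mem hF.dom)
  have f1 := f.κ0
  have f2 := f.N0
  have hk' : kf a.1.l (R lam.1) X m ≤ 7 / 10 * cκ (dn (qL q).1) := hk
  refine (H' X hX a q hF hs m hm hmX (by linarith only [hk', f1, f2, hδ])).2.trans
    (Real.rpow_le_rpow_of_exponent_le (by linarith only [hX, hX₀]) ?_)
  have := m4_le (v := (qL q).1 none) (k := kf a.1.l (R lam.1) X m) hd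
    (by linarith only [f1, f2] : 0 ≤ cN (dn (qL q).1))
  show _ ≤ g4c d ((qL q).1 none) (cN (dn (qL q).1)) (kf a.1.l (R lam.1) X m) + 1 / 192 + ε
  linarith only [this]

end

end Crest.Agent.R017.TSf968
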