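import Crest.Agent.R017.TUR_47

/-!
# Row 17, R8: the amplifier alone (helper164)

* `ideal23` : `r κ' ∅ 0 a` is ideal up to `2/3 κ`;  `lineA`, `lineB`
* `rc_E0` : the complete family, `max (κ + y + 2 d y) (e0 d κ y)` (`e0` alone is below the ideal value
  for `48 y < 31 κ`)
* `ymE0`, `ymE0'` : the uniform bounds
-/

set_option autoImplicit false

noncomputable section

open Set

namespace Crest.Agent.R017.YE164

open Crest.Agent.R012 Crest.Agent.R012.Eis
open Crest.Agent.R017.FE47 (PU)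
open Crest.Agent.R017.XG702 (Pcs BG)
open Crest.Agent.R017.XT71 (Sys Win)
open Crest.Agent.R017.E5B71 (UB)
open Crest.Agent.R017.Prov71
open Crest.Agent.R017.B770
open Crest.Agent.R017.ER911 Crest.Agent.R017.ExpC702
open Crest.Agent.R017.UBR61
open Crest.Agent.R017.YM61

variable {d : ℝ} {r s rc : EF}

/-! ### exponents -/

lemma ok0 {a : ℝ} (ha : 0 ≤ a) : Ok 0 0 a := ⟨fun y hy => absurd hy (Multiset.notMem_zero y),
  le_rfl, ha⟩

lemma sh0 {Y' : Multiset ℝ} (h : Sh Y' 0) : Y' = 0 := by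
  unfold Sh at h
  rwa [Multiset.rel_zero_right] at h

/-- the amplifier alone is ideal up to `2/3 κ` -/
theorem ideal23 (R : ExpRules (7 / 8 + d) r s) {κ a κ' : ℝ} (hκ : 0 ≤ κ) (ha : 0 ≤ a)
    (h : 3 * a ≤ 2 * κ) (h0 : 0 ≤ κ') (h1 : κ' ≤ κ) : r κ' 0 0 a + (κ - κ') / 3 ≤ κ + a := by
  refine R.poisC κ 0 0 a (κ + a) hκ (ok0 ha) (by simp) (by simp; linarith)
    (fun Y' m' a' i hS hm0 hm1 ha0 ha1 hi0 hi1 => ?_) κ' h0 h1
  obtain rfl := sh0 hS
  obtain rfl : m' = 0 := le_antisymm hm1 hm0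
  simp only [Multiset.sum_zero, zero_add] at hi1 ⊢
  have hc : 0 ≤ a' - κ / 2 := by linarith
  have e1 := R.cau i 0 0 a' 0 (a' - κ / 2) hi0 (ok0 ha0) le_rfl le_rfl hc (by linarith)
  simp only [zero_add, sub_zero] at e1
  have e2 := R.hbG (i + (a' - κ / 2)) 0 0 (a' - (a' - κ / 2)) (by linarith) (ok0 (by linarith))
  simp only [Multiset.sum_zero, zero_add] at e2
  have e3 : a' - (a' - κ / 2) = κ / 2 := by ring
  rw [e3] at e1 e2
  rcases le_max_iff.1 e2 with e4 | e4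
  · linarith
  · rcases le_max_iff.1 e4 with e5 | e5 <;> linarith

/-- pointwise beyond `2/3 κ` -/
theorem lineA (R : ExpRules (7 / 8 + d) r s) {κ y κ' : ℝ} (hκ : 0 ≤ κ) (hy : 0 ≤ y)
    (h0 : 0 ≤ κ') (h1 : κ' ≤ κ) :
    r κ' 0 0 y + (κ - κ') / 3 ≤ κ + y + (3 / 4 + 2 * d) * max 0 (y - 2 / 3 * κ) := by
  rcases le_total y (2 / 3 * κ) with h | h
  · rw [max_eq_left (by linarith), mul_zero, add_zero]
    exact ideal23 R hκ hy (by linarith) h0 h1
  · rw [max_eq_right (by linarith)]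
    have e1 := R.sup κ' 0 0 y 0 (y - 2 / 3 * κ) h0 (ok0 hy) le_rfl le_rfl (by linarith)
      (by linarith)
    have e2 := ideal23 R (a := 2 / 3 * κ) hκ (by linarith) (by linarith) h0 h1
    have e3 : y - (y - 2 / 3 * κ) = 2 / 3 * κ := by ring
    rw [e3, sub_zero, zero_add] at e1
    linarith

/-- the B-line, `y ≥ 5/6 κ'` -/
theorem lineB (R : ExpRules (7 / 8 + d) r s) (L : ExpLB (7 / 8 + d) r) (hd : 0 ≤ d)
    {κ y κ' : ℝ} (hy : 0 ≤ y) (h0 : 0 ≤ κ') (h1 : κ' ≤ κ) (h : 5 * κ' ≤ 6 * y) :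
    r κ' 0 0 y + (κ - κ') / 3 ≤
      κ + max (5 / 3 * y - 31 / 72 * κ) (7 / 4 * y - 2 / 3 * κ) + 2 * d * y := by
  have e0 := lineA R (κ := κ') (y := 5 / 6 * κ') h0 (by linarith) h0 le_rfl
  rw [max_eq_right (by linarith), sub_self, zero_div, add_zero] at e0
  have hdk : 0 ≤ d * κ' := mul_nonneg hd h0
  have e1 := L.lb (κ' / 8 + d * κ' / 3) κ' 0 0 y 0 (5 / 6 * κ') (by positivity) h0 (ok0 hy)
    (fun y hy => absurd hy (Multiset.notMem_zero y)) le_rfl le_rfl (by linarith) (by linarith)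
    (by simp only [Multiset.sum_zero, zero_add]; linarith)
    (by
      simp only [Multiset.sum_zero, zero_add]; linarith)
    (fun h2 => by
      simp only [Multiset.sum_zero, mul_zero] at h2
      linarith)
  simp only [Multiset.sum_zero, zero_add] at e1
  have hdy : d * κ' ≤ d * (6 / 5 * y) := mul_le_mul_of_nonneg_left (by linarith) hd
  have hdy0 : 0 ≤ d * y := mul_nonneg hd hy
  have m1 := le_max_left (5 / 3 * y - 31 / 72 * κ) (7 / 4 * y - 2 / 3 * κ)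
  have m2 := le_max_right (5 / 3 * y - 31 / 72 * κ) (7 / 4 * y - 2 / 3 * κ)
  rcases le_max_iff.1 e1 with e2 | e2
  · linarith
  · linarith

/-- **the amplifier alone, complete family** -/
theorem rc_E0 (R : ExpRules (7 / 8 + d) r s) (L : ExpLB (7 / 8 + d) r) (C : ExpC r rc)
    (hd : 0 ≤ d) {κ y : ℝ} (hκ : 0 ≤ κ) (hy : 0 ≤ y) :
    rc κ 0 0 y ≤ max (κ + y + 2 * d * y) (TU47.e0 d κ y) := by
  refine C.le κ 0 0 y _ hκ (ok0 hy) fun κ' h0 h1 => ?_
  have hdy : 0 ≤ d * y := mul_nonneg hd hy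
  have eA := lineA R hκ hy h0 h1
  have hm0 : 0 ≤ max 0 (y - 2 / 3 * κ) := le_max_left _ _
  have hmy : max 0 (y - 2 / 3 * κ) ≤ y := max_le hy (by linarith)
  have hdm : d * max 0 (y - 2 / 3 * κ) ≤ d * y := mul_le_mul_of_nonneg_left hmy hd
  have eB : r κ' 0 0 y + (κ - κ') / 3 ≤
      κ + max y (max (5 / 3 * y - 31 / 72 * κ) (7 / 4 * y - 2 / 3 * κ)) + 2 * d * y := by
    rcases le_total (5 * κ') (6 * y) with h | h
    · refine (lineB R L hd hy h0 h1 h).trans ?_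
      have := le_max_right y (max (5 / 3 * y - 31 / 72 * κ) (7 / 4 * y - 2 / 3 * κ))
      linarith
    · rcases le_total y (2 / 3 * κ) with h2 | h2
      · rw [max_eq_left (by linarith : y - 2 / 3 * κ ≤ 0)] at eA
        have := le_max_left y (max (5 / 3 * y - 31 / 72 * κ) (7 / 4 * y - 2 / 3 * κ))
        linarith
      · rw [max_eq_right (by linarith : 0 ≤ y - 2 / 3 * κ)] at eA hdm
        have := (le_max_left (5 / 3 * y - 31 / 72 * κ) (7 / 4 * y - 2 / 3 * κ)).trans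
          (le_max_right y _)
        linarith
  unfold TU47.e0
  rcases le_total (y + 3 / 4 * max 0 (y - 2 / 3 * κ))
    (max (5 / 3 * y - 31 / 72 * κ) (7 / 4 * y - 2 / 3 * κ)) with h | h
  · rw [min_eq_left h]
    refine le_trans ?_ (le_max_right _ _)
    linarith
  · rw [min_eq_right h]
    rcases le_total y (max (5 / 3 * y - 31 / 72 * κ) (7 / 4 * y - 2 / 3 * κ)) with h2 | h2
    · rw [max_eq_right h2] at eB
      exact eB.trans (le_max_right _ _)
    · rw [max_eq_left h2] at eB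
      refine le_trans ?_ (le_max_left _ _)
      linarith

/-- `e0` is above the ideal value for `48 y ≥ 31 κ` -/
lemma e0_ge {κ y : ℝ} (h : 31 * κ ≤ 48 * y) : κ + y + 2 * d * y ≤ TU47.e0 d κ y := by
  unfold TU47.e0
  have h1 : y ≤ min (y + 3 / 4 * max 0 (y - 2 / 3 * κ))
      (max (5 / 3 * y - 31 / 72 * κ) (7 / 4 * y - 2 / 3 * κ)) := by
    refine le_min ?_ (le_trans ?_ (le_max_left _ _))
    · have := le_max_left 0 (y - 2 / 3 * κ)
      linarith
    · linarith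
  linarith

/-! ### the uniform bounds -/

variable {Λ : Type*} {π : Λ → DPar} {h : ℝ → ℝ}

/-- base datum: the family -/
def S0 : Sys ℝ (Fin 1) where
  ev X l := ![l / Real.log X]
  g _ := 1
  n _ := 0
  s₁ _ := 0
  s₂ _ := 0

/-- the box, amplifier only -/
def Dom0 (K : ℝ) : Set ((Fin 1 → ℝ) × (Kd → ℝ)) :=
  {q | 0 ≤ q.1 0 ∧ q.1 0 ≤ K ∧ q.2 .mo = 0 ∧ 0 ≤ q.2 .am ∧ q.2 .am ≤ K}

lemma Dom0_compact (K : ℝ) : IsCompact (Dom0 K) := by
  have h1 : IsCompact ((Set.pi Set.univ fun _ : Fin 1 => Set.Icc 0 K) ×ˢ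
      (Set.pi Set.univ fun _ : Kd => Set.Icc (0 : ℝ) K)) :=
    (isCompact_univ_pi fun _ => isCompact_Icc).prod (isCompact_univ_pi fun _ => isCompact_Icc)
  have h2 : IsClosed {q : (Fin 1 → ℝ) × (Kd → ℝ) | q.2 .mo = 0} :=
    isClosed_eq (by fun_prop) (by fun_prop)
  have : Dom0 K = ((Set.pi Set.univ fun _ : Fin 1 => Set.Icc 0 K) ×ˢ
      (Set.pi Set.univ fun _ : Kd => Set.Icc (0 : ℝ) K)) ∩
      {q : (Fin 1 → ℝ) × (Kd → ℝ) | q.2 .mo = 0} := by
    ext q
    refine ⟨fun hq => ⟨⟨fun i _ => ?_, fun t _ => ?_⟩, hq.2.2.1⟩, fun hq => ?_⟩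
    · obtain rfl : i = 0 := Subsingleton.elim _ _
      exact ⟨hq.1, hq.2.1⟩
    · cases t
      · rw [hq.2.2.1]
        exact ⟨le_rfl, hq.1.trans hq.2.1⟩
      · exact ⟨hq.2.2.2.1, hq.2.2.2.2⟩
    · have h1 := hq.1.1 0 trivial
      have h3 := hq.1.2 Kd.am trivial
      exact ⟨h1.1, h1.2, hq.2, h3.1, h3.2⟩
  rw [this]
  exact h1.inter_right h2

lemma mk0 (c : Λ → ℝ) : MkOK S0 Dq (fun (_ : Λ) (_ : ℝ) => True) (fun lam a => a + c lam)
    (fun _ _ => []) 0 [] where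
  ok lam := by
    refine ⟨1 + |c lam|, by linarith [abs_nonneg (c lam)], fun a _ X hX => ?_⟩
    have hX0 : Real.log X ≠ 0 := (Real.log_pos hX).ne'
    have hc := abs_nonneg (c lam)
    refine ⟨?_, List.Forall₂.nil⟩
    have : a + c lam - S0.ev X a 0 * Real.log X = c lam := by
      simp only [S0, Matrix.cons_val_fin_one]
      rw [div_mul_cancel₀ _ hX0]; ring
    rw [this]; linarith

section
variable {c₀ : ℝ} (hpu : PU h c₀) (hP : ∀ lam, (π lam).OK) (c : Λ → ℝ)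
  (R : ExpRules (7 / 8 + d) r s) (L : ExpLB (7 / 8 + d) r)
  (C : ExpC r (ex Dq (fun lam => Rc (π lam) h)))

include hpu hP R L C

/-- **the amplifier alone**, uniform -/
theorem ymE0 (hd : 0 ≤ d) (K : ℝ) :
    UB S0 Dq (fun lam l ps => Rc (π lam) h (l + c lam) ps) (Dom0 K) ∅
      (fun q => max (q.1 0 + q.2 .am + 2 * d * q.2 .am) (TU47.e0 d (q.1 0) (q.2 .am))) := by
  obtain ⟨C', hC1, hC⟩ := TopC702.norm_CS_pc_le hpu
  have key := ub_of_ex2 (mk0 c) (Φ := fun lam => Rc (π lam) h)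
    (fun lam l ps => Rc_nonneg _ _ _ _) (pinv_Rc π h)
    (XHB411.triv_Rc hP hpu) (fun p => by simp only [Dq_s1]; positivity)
    (fun lam => ⟨C' ^ 2, 0, one_le_pow₀ hC1, fun l p ps => by
      rw [pow_zero, mul_one]
      exact Rc_cons (hP lam) hC l p ps⟩)
    (fun p hp => ((Dq_lump p).1 hp).1) (Dom0_compact K)
    (fun q hq t => by
      cases t
      · exact hq.2.2.1.ge
      · exact hq.2.2.2.1)
    (fun q hq => ⟨hq.1, fun j hj => absurd hj (List.not_mem_nil)⟩)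
    (fun q hq b hb hb' => by
      have hb0 : b = 0 := le_antisymm (hb'.trans hq.2.2.1.le) hb
      subst hb0
      rw [sub_zero, Function.update_eq_self]
      exact hq)
    (E := fun q => max (q.1 0 + q.2 .am + 2 * d * q.2 .am) (TU47.e0 d (q.1 0) (q.2 .am)))
    (by unfold TU47.e0; fun_prop)
    (fun q hq b hb hb' => by
      have hb0 : b = 0 := le_antisymm (hb'.trans hq.2.2.1.le) hb
      subst hb0
      rw [sub_zero, Function.update_eq_self])
    (al := ∅) isClosed_empty ?_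
  · intro ε hε
    obtain ⟨δ, hδ, H⟩ := key ε hε
    refine ⟨δ, hδ, fun lam N B => ?_⟩
    obtain ⟨δ', hδ', X₀, hX₀, H'⟩ := H lam N B
    refine ⟨δ', hδ', X₀, hX₀, fun X hX a ps h1 h2 q hq hw hm hg hl => ?_⟩
    have h3 := H' X hX a ps h1 h2 q hq hw hm hg hl
    simpa only [mkF, if_true, List.nil_append] using h3
  · intro p u m a hu hm ha hD hA
    have hu0 : u = [] := by
      rcases u with _ | ⟨x, u⟩
      · rfl
      · exact absurd (hA x List.mem_cons_self) (Set.notMem_empty _)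
    subst hu0
    have hm0 : m = 0 := by
      have := hD.2.2.1
      simpa [wt] using this
    subst hm0
    have := rc_E0 R L C hd (κ := p 0) (y := a) hD.1 ha
    simpa [wt] using this

/-- **the amplifier alone**, `48 y ≥ 31 κ` -/
theorem ymE0' (hd : 0 ≤ d) (K : ℝ) :
    UB S0 Dq (fun lam l ps => Rc (π lam) h (l + c lam) ps)
      {q | q ∈ Dom0 K ∧ 31 * q.1 0 ≤ 48 * q.2 .am} ∅
      (fun q => TU47.e0 d (q.1 0) (q.2 .am)) := by
  intro ε hε
  obtain ⟨δ, hδ, H⟩ := ymE0 hpu hP c R L C hd K ε hε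
  refine ⟨δ, hδ, fun lam N B => ?_⟩
  obtain ⟨δ', hδ', X₀, hX₀, H'⟩ := H lam N B
  refine ⟨δ', hδ', X₀, hX₀, fun X hX a ps h1 h2 q hq hw hm hg hl => ?_⟩
  have h3 := H' X hX a ps h1 h2 q hq.1 hw hm hg hl
  beta_reduce at h3 ⊢
  rwa [max_eq_right (e0_ge hq.2)] at h3

end

end Crest.Agent.R017.YE164
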