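import Crest.Agent.R017.TUN_47
import Crest.Agent.R017.YE0_164

/-!
# Row 17, R8: `TailU`, second moments of the amplifier lists (helper47)

* `ein_of` : `EIn` from helper164's `ymE0`
-/

set_option autoImplicit false

noncomputable section

namespace Crest.Agent.R017.TU47

open Crest.Agent.R012 Crest.Agent.R012.Eis
open Crest.Agent.R017.FE47
open Crest.Agent.R017.XG702 (Pcs)
open Crest.Agent.R017.XT71 (Sys Win)
open Crest.Agent.R017.B770 Crest.Agent.R017.Prov71
open Crest.Agent.R017.ER911 Crest.Agent.R017.ExpC702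
open Crest.Agent.R017.E5B71
open Crest.Agent.R017.YM61 Crest.Agent.R017.YE164

variable {Λ : Type*} {π : Λ → DPar} {h : ℝ → ℝ} {d : ℝ} {r s : EF}

lemma e0c_eq' (d k y : ℝ) : max (k + y + 2 * d * y) (e0 d k y) = RQ702.e0c d k y := by
  unfold e0 RQ702.e0c
  rw [← max_add_add_left, ← max_add_add_right]

lemma mass_mo_of {X : ℝ} {ps : List Pq} (h : ∀ p ∈ ps, p.kd = .am) : Dq.mass X ps .mo = 0 := by
  induction ps with
  | nil => simp
  | cons p ps ih =>
    rw [Pcs.mass_cons, ih fun q hq => h q (List.mem_cons_of_mem _ hq)]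
    simp [h p List.mem_cons_self]

/-- **amplifier lists at the actual configuration** -/
theorem ein_of {c₀ : ℝ} (hpu : PU h c₀) (hP : ∀ lam, (π lam).OK)
    (R : ExpRules (7 / 8 + d) r s) (L : ExpLB (7 / 8 + d) r)
    (C : ExpC r (ex Dq (fun lam => Rc (π lam) h))) (hd : 0 ≤ d) {K : ℝ} (hK : 0 ≤ K) :
    EIn π h d K := by
  intro ε hε
  obtain ⟨δ, hδ, H⟩ := ymE0 hpu hP (fun _ => 0) R L C hd K ε hε
  refine ⟨δ, hδ, fun lam N B => ?_⟩
  obtain ⟨δ', hδ', X₀, hX₀, H'⟩ := H lam N B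
  refine ⟨δ', hδ', X₀, hX₀, ?_⟩
  intro X hX l ps hN hkd hps hG hl hlK hm
  have hX1 : 1 < X := hX₀.trans_le hX
  have hX0 : 0 < X := by linarith
  have hL : 0 < Real.log X := Real.log_pos hX1
  have hm0 : ∀ t, 0 ≤ Dq.mass X ps t := mass_nonneg hX1 fun p hp => (hG p hp).2.2
  have hlK' : l / Real.log X ≤ K := by rw [div_le_iff₀ hL]; exact hlK
  have hl0 : 0 ≤ l / Real.log X := div_nonneg hl hL.le
  have hq : (S0.ev X l, fun t => Dq.mass X ps t) ∈ Dom0 K :=
    ⟨hl0, hlK', mass_mo_of hkd, hm0 _, hm⟩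
  have h1 := H' X hX l ps hN (fun p hp => Or.inr (hps p hp)) _ hq
    ⟨fun i => by rw [sub_self, abs_zero]; exact hδ.le, Real.one_le_rpow hX1.le hδ.le,
      Nat.zero_le _, Real.rpow_nonneg hX0.le _, Real.rpow_nonneg hX0.le _⟩
    (fun t => by rw [sub_self, abs_zero]; exact hδ.le) hG (fun p hp hlu => by
      have := ((Dq_lump p).1 hlu).1
      rw [hkd p hp] at this
      exact absurd this (by decide))
  beta_reduce at h1
  rw [add_zero] at h1
  refine h1.trans (le_of_eq ?_)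
  rw [← e0c_eq']
  rfl

end Crest.Agent.R017.TU47
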