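import Crest.Agent.R017.TUA_47
import Crest.Agent.R017.TUX_47
import Crest.Agent.R017.TUE2_47
import Crest.Agent.R017.ProvE_71

/-!
# Row 17, R8: `TailU`, `TailUX` from the bundle and the moments of the three-lump side (helper47)
-/

set_option autoImplicit false

noncomputable section

namespace Crest.Agent.R017.TU47

open Crest.Agent.R012 Crest.Agent.R012.Eis
open Crest.Agent.R017.FE47
open Crest.Agent.R017.Sup271 (NPm)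
open Crest.Agent.R017.C70 (OKJ)
open Crest.Agent.R017.B770 Crest.Agent.R017.Prov71
open Crest.Agent.R017.ER911 Crest.Agent.R017.ExpC702
open Crest.Agent.R017.E5B71 Crest.Agent.R017.E5L770 Crest.Agent.R017.E5P571
open Crest.Agent.R017.ExP960 Crest.Agent.R017.E5LX770

variable {Λ : Type*} {π : Λ → DPar} {h : ℝ → ℝ} {A d β μ : ℝ}

lemma RealQ'.mono {μ' : ℝ} (H : RealQ' A d μ) (h1 : μ' ≤ μ) : RealQ' A d μ' := by
  intro q hq k hk hk1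
  have := H q hq k hk hk1
  linarith

lemma ESP_mono {μ' : ℝ} (h1 : μ' ≤ μ) (q : (Option (Fin 3 ⊕ Fin 5) → ℝ) × (Kd → ℝ)) (k : ℝ) :
    ESP d μ q k ≤ ESP d μ' q k := by
  unfold ESP
  linarith

lemma SInC.mono {Sf : ℕ → SF Λ} {e : ℕ} {C : ℝ → ℝ → ℝ → Prop}
    {g g' : (Option (Fin 3 ⊕ Fin 5) → ℝ) × (Kd → ℝ) → ℝ → ℝ} (hg : ∀ q k, g q k ≤ g' q k)
    (H : SInC π Sf A d e C g) : SInC π Sf A d e C g' := by
  intro R hR ε hε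
  obtain ⟨δ, hδ, H1⟩ := H R hR ε hε
  refine ⟨δ, hδ, fun lam N B => ?_⟩
  obtain ⟨δ', hδ', X₀, hX₀, H2⟩ := H1 lam N B
  refine ⟨δ', hδ', X₀, hX₀, fun X hX a q hF ht m hm hm3 hC => ?_⟩
  refine (H2 X hX a q hF ht m hm hm3 hC).trans ?_
  exact Real.rpow_le_rpow_of_exponent_le (hX₀.trans_le hX).le
    (by linarith [hg q (kf a.1.l (R lam.1) X m)])

lemma SPIn'.mono {Sf : ℕ → SF Λ} {μ' : ℝ} (h1 : μ' ≤ μ) (H : SPIn' π Sf A d μ) :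
    SPIn' π Sf A d μ' := SInC.mono (fun q _ => ESP_mono h1 q _) H

lemma SInCX.mono {S : ℕ → Λ × Eis → BdX → Eis → ℝ} {e : ℕ} {C : ℝ → ℝ → ℝ → Prop}
    {g g' : (Option (Fin 3 ⊕ Fin 5) → ℝ) × (Kd → ℝ) → ℝ → ℝ} (hg : ∀ q k, g q k ≤ g' q k)
    (H : SInCX π S A d β e C g) : SInCX π S A d β e C g' := by
  intro R hR ε hε
  obtain ⟨δ, hδ, H1⟩ := H R hR ε hε
  refine ⟨δ, hδ, fun lam N B => ?_⟩
  obtain ⟨δ', hδ', X₀, hX₀, H2⟩ := H1 lam N B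
  refine ⟨δ', hδ', X₀, hX₀, fun X hX a q hF ht m hm hm3 hC => ?_⟩
  refine (H2 X hX a q hF ht m hm hm3 hC).trans ?_
  exact Real.rpow_le_rpow_of_exponent_le (hX₀.trans_le hX).le
    (by linarith [hg (qL q) (kf a.1.l (R lam.1) X m)])

lemma SPInX.mono {S : ℕ → Λ × Eis → BdX → Eis → ℝ} {μ' : ℝ} (h1 : μ' ≤ μ)
    (H : SPInX π S A d β μ) : SPInX π S A d β μ' := SInCX.mono (fun q _ => ESP_mono h1 q _) H

variable {r s s₀ bc : EF}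

/-- **`TailU` from the bundle**, class N -/
theorem tailU_fin {c₀ : ℝ} (hpu : PU h c₀) (hP : ∀ lam, (π lam).OK)
    (hN : ∀ lam, ∀ k : Eis, k ≠ 0 → NPm (π lam).n (π lam).ψ (π lam).l₂ k)
    (P : ProvE (7 / 8 + d) r s s₀ (ex Dq (fun lam => Rc (π lam) h)) bc) (hd : 0 < d)
    (hd1 : d ≤ 1 / 42) (hA : 2 / 3 ≤ A) (hA1 : A < 1) (hA2 : 16 * (1 - A) ≤ d) (e0 r0 : ℝ)
    (Bf : ℝ → ℝ → ℝ → ℝ) (Jf : ℝ → ℝ → ℝ → Finset (Eis × Eis))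
    (h2 : SIn2 π (SfV π h e0 r0 Bf Jf) A d) (h4 : SIn4 π (SfV π h e0 r0 Bf Jf) A d)
    (hAll : SInA π (SfV π h e0 r0 Bf Jf) A d)
    (hp : ∃ μ₁ : ℝ, 0 < μ₁ ∧ SPIn' π (SfV π h e0 r0 Bf Jf) A d μ₁) :
    ∃ μ : ℝ, 0 < μ ∧ TailU π h (7 / 8 + d) (SfP π h e0 r0 Bf Jf nL) A d μ := by
  obtain ⟨μ₁, hμ₁, hp⟩ := hp
  refine ⟨min μ₁ (1 / 1100), by positivity, ?_⟩
  exact tailU_of hpu hP hN hA (uin_of hpu hP P.rules P.cpl hd.le (by norm_num))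
    (ein_of hpu hP P.rules P.lb P.cpl hd.le (by norm_num))
    ((realQ' hd.le (by linarith) hA1.le hA2).mono (min_le_right _ _))
    (realB10 hd hd1 hA1 hA hA2) ((min_le_right _ _).trans (by norm_num)) e0 r0 Bf Jf h2 h4 hAll
    (hp.mono (min_le_left _ _))

/-- the levels of the tail, class N, any family of structured functions -/
theorem tailS_fin {c₀ : ℝ} (hpu : PU h c₀) (hP : ∀ lam, (π lam).OK)
    (hN : ∀ lam, ∀ k : Eis, k ≠ 0 → NPm (π lam).n (π lam).ψ (π lam).l₂ k)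
    (P : ProvE (7 / 8 + d) r s s₀ (ex Dq (fun lam => Rc (π lam) h)) bc) (hd : 0 < d)
    (hd1 : d ≤ 1 / 42) (hA : 2 / 3 ≤ A) (hA1 : A < 1) (hA2 : 16 * (1 - A) ≤ d)
    (Sf : ℕ → SF Λ) (h2 : SIn2 π Sf A d) (h4 : SIn4 π Sf A d)
    (hAll : SInA π Sf A d) {μ : ℝ} (hμ : μ ≤ 1 / 1100) (hp : SPIn' π Sf A d μ)
    (R : Λ → ℝ) (hR : ∀ lam, 0 ≤ R lam) :
    UB (lev (Real.log 2) S5) Dq (fun lam a ps => if a.2 < nL a.1.l (a3 a.1) a.1.z then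
        TailS π h (Sf a.2) R lam a.1 ps else 0)
      (SqL A d) (alL al5) fun q => T5 (7 / 8 + d) (dn q.1, q.2) - μ :=
  tailS_of hpu hP hN hA (uin_of hpu hP P.rules P.cpl hd.le (by norm_num))
    (ein_of hpu hP P.rules P.lb P.cpl hd.le (by norm_num))
    ((realQ' hd.le (by linarith) hA1.le hA2).mono hμ)
    (realB10 hd hd1 hA1 hA hA2) (hμ.trans (by norm_num)) Sf h2 h4 hAll hp R hR

/-- **`TailUX` from the bundle**, class E -/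
theorem tailUX_fin {c₀ : ℝ} (hpu : PU h c₀) (hP : ∀ lam, (π lam).OK)
    (P : ProvE (7 / 8 + d) r s s₀ (ex Dq (fun lam => Rc (π lam) h)) bc) (hd : 0 < d)
    (hd1 : d ≤ 1 / 42) (hA : 2 / 3 ≤ A) (hA1 : A < 1) (hA2 : 16 * (1 - A) ≤ d) (e0 r0 : ℝ)
    (Bf : ℕ → ℝ → ℝ → ℝ → ℝ) {Jf : ℝ → ℝ → ℝ → Finset (Eis × Eis)}
    (hJf : ∀ l N z, OKJ (Jf l N z)) (h2 : SIn2X π (SxE π h e0 r0 Bf Jf) A d β)
    (h4 : SIn4X π (SxE π h e0 r0 Bf Jf) A d β)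
    (hp : ∃ μ₁ : ℝ, 0 < μ₁ ∧ SPInX π (SxE π h e0 r0 Bf Jf) A d β μ₁) :
    ∃ μ : ℝ, 0 < μ ∧ TailUX π h (7 / 8 + d) (SfE π h e0 r0 Bf Jf nL) A d β μ := by
  obtain ⟨μ₁, hμ₁, hp⟩ := hp
  refine ⟨min μ₁ (1 / 1100), by positivity, ?_⟩
  exact tailUX_of hpu hP hA (uin_of hpu hP P.rules P.cpl hd.le (by norm_num))
    (ein_of hpu hP P.rules P.lb P.cpl hd.le (by norm_num))
    ((realQ' hd.le (by linarith) hA1.le hA2).mono (min_le_right _ _)) e0 r0 Bf hJf h2 h4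
    (hp.mono (min_le_left _ _))

end Crest.Agent.R017.TU47
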