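import Crest.Agent.R017.PE4_241

/-!
# Row 17, exceptional class: the rule (P_ex) for closed families (helper241)

* `PE_rule` : the moment of a closed family over the noncubes against the bias-corrected Gauss
  sides, plus the cross terms `CRs`
-/

set_option autoImplicit false

noncomputable section

open Complex MeasureTheory
open scoped ComplexConjugate

namespace Crest.Agent.R017.PE241

open Crest.Agent.R012 Crest.Agent.R012.Eis Crest.Agent.R012.LS2 Crest.Agent.R012.Gauss880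
open Crest.Agent.R012.Div277 Crest.Agent.R012.CR2
open Crest.Agent.R017.PA842 (V Supp)
open Crest.Agent.R017.CM106 (CS TG FS)
open Crest.Agent.R017.TP320
open Crest.Agent.R017.GE241 (VQ VCN)
open Crest.Agent.R017.PX764 (Dk Vnc CRX Gh)

set_option maxHeartbeats 1000000

/-- the cross terms of all levels -/
def CRs (X Z Y : ℝ) (w : Eis → ℂ) : ℝ := ∑ g ∈ S X, CRX (X / nm g) Z Y (PA842.sub w g)

lemma CRs_nonneg (X Z Y : ℝ) (w : Eis → ℂ) : 0 ≤ CRs X Z Y w :=
  Finset.sum_nonneg fun _ _ => PX764.CRX_nonneg _ _ _ _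

/-- the bias-corrected kernel is admissible -/
lemma kok_Dk : KOk Dk (1 + pC) where
  z := by
    intro r k hk h
    have h1 : Gh r k = 0 := by
      unfold Gh
      rw [(syG.eq_zero r k hk).2 h]
      simp
    have h2 : PX764.md r k = 0 := by
      unfold PX764.md
      rw [if_neg]
      rintro ⟨_, h3⟩
      exact h h3.symm
    unfold PX764.Dk
    rw [h1, h2]
    simp
  b := fun r k hr hk => PX5.norm_Dk_le hr hk

lemma VCN_le_Vnc {w : Eis → ℂ} {X K : ℝ} (hX : 0 ≤ X) (hK : 0 < K) (hw : Supp w X) :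
    VCN K w ≤ Real.exp 1 * Vnc X K w := by
  classical
  unfold GE241.VCN GE241.VQ PX764.Vnc
  rw [← tsum_mul_left]
  have hs0 : Summable fun n : Eis => if T411.NCube n then
      Real.exp (-(nm n : ℝ) / K) * ‖∑ h ∈ S X, w h * sy n h‖ ^ 2 else 0 := by
    refine Summable.of_nonneg_of_le (fun n => by split_ifs <;> positivity) (fun n => ?_)
      (PA842.summable_V hX hK w)
    split_ifs
    · exact le_rfl
    · positivity
  have hs := hs0.mul_left (Real.exp 1)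
  refine le_trans ?_ (hs.sum_le_tsum ((bl K).filter T411.NCube)
    (fun n _ => mul_nonneg (Real.exp_pos 1).le (by split_ifs <;> positivity)))
  refine Finset.sum_le_sum fun n hn => ?_
  rw [Finset.mem_filter, mem_bl hK.le] at hn
  rw [if_pos hn.2, TP320.CS_eq_sum hw]
  have h1 : 1 ≤ Real.exp 1 * Real.exp (-(nm n : ℝ) / K) := by
    rw [← Real.exp_add]
    apply Real.one_le_exp
    have : (nm n : ℝ) / K ≤ 1 := by rw [div_le_one hK]; exact hn.1.2
    rw [neg_div]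
    linarith
  calc ‖∑ h ∈ S X, w h * sy n h‖ ^ 2 = 1 * ‖∑ h ∈ S X, w h * sy n h‖ ^ 2 := (one_mul _).symm
    _ ≤ (Real.exp 1 * Real.exp (-(nm n : ℝ) / K)) * ‖∑ h ∈ S X, w h * sy n h‖ ^ 2 := by gcongr
    _ = _ := by ring

/-- final algebra -/
lemma alg_PX {C1 W c K Y X D T3 Cb U Ch H a SG P CR : ℝ} (hC1 : 0 ≤ C1) (hW : 1 ≤ W) (hc : 1 ≤ c)
    (hK : 0 ≤ K) (hY0 : 0 ≤ Y) (hY : Y ≤ c * W) (hX : 0 ≤ X) (hCb : 0 ≤ Cb)
    (hD0 : 0 ≤ D) (hD : D ≤ 16 * (X * Y ^ 2) * Cb ^ 2) (hT30 : 0 ≤ T3) (hT3 : T3 ≤ (c * W) ^ 3)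
    (hU : 0 ≤ U) (hCh : 0 ≤ Ch) (hH : 1 ≤ H) (ha : 0 ≤ a) (hSG0 : 0 ≤ SG)
    (hSG : SG ≤ U * W ^ 13 * (K + K * a) * X * (Ch * Y) * H) (hP0 : 0 ≤ P) (hP : P ≤ c * W ^ 2)
    (hCR : 0 ≤ CR) :
    C1 * Y * (P * (X + K) * D + T3 * SG + K * CR) ≤
      (C1 * c ^ 5 * (1 + 16 * Cb ^ 2 + U * Ch)) * W ^ 18 * ((X + K + K * a) * X * H + K * CR) := by
  have hKa : 0 ≤ K * a := mul_nonneg hK ha
  have hc0 : 0 ≤ c := by linarith
  have hW0 : 0 ≤ W := by linarith
  have hH0 : 0 ≤ H := by linarith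
  have h1 : P * (X + K) * D ≤ 16 * Cb ^ 2 * c ^ 4 * W ^ 17 * ((X + K + K * a) * X * H) := by
    calc P * (X + K) * D ≤ (c * W ^ 2) * (X + K) * (16 * (X * (c * W) ^ 2) * Cb ^ 2) := by
          have h2 : 16 * (X * Y ^ 2) * Cb ^ 2 ≤ 16 * (X * (c * W) ^ 2) * Cb ^ 2 := by gcongr
          have h3 : P * (X + K) ≤ (c * W ^ 2) * (X + K) := by gcongr
          exact mul_le_mul h3 (hD.trans h2) hD0 (by positivity)
      _ = 16 * Cb ^ 2 * c ^ 3 * W ^ 4 * ((X + K + 0) * X * 1) := by ring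
      _ ≤ 16 * Cb ^ 2 * c ^ 4 * W ^ 17 * ((X + K + K * a) * X * H) := by
          have e1 : c ^ 3 ≤ c ^ 4 := pow_le_pow_right₀ hc (by norm_num)
          have e2 : W ^ 4 ≤ W ^ 17 := pow_le_pow_right₀ hW (by norm_num)
          gcongr
  have h2 : T3 * SG ≤ U * Ch * c ^ 4 * W ^ 17 * ((X + K + K * a) * X * H) := by
    calc T3 * SG ≤ (c * W) ^ 3 * (U * W ^ 13 * (K + K * a) * X * (Ch * (c * W)) * H) := by
          have : U * W ^ 13 * (K + K * a) * X * (Ch * Y) * H ≤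
            U * W ^ 13 * (K + K * a) * X * (Ch * (c * W)) * H := by gcongr
          exact mul_le_mul hT3 (hSG.trans this) hSG0 (by positivity)
      _ = U * Ch * c ^ 4 * W ^ 17 * ((0 + K + K * a) * X * H) := by ring
      _ ≤ U * Ch * c ^ 4 * W ^ 17 * ((X + K + K * a) * X * H) := by gcongr
  have h3 : K * CR ≤ c ^ 4 * W ^ 17 * (K * CR) := by
    have e1 : 1 ≤ c ^ 4 := one_le_pow₀ hc
    have e2 : 1 ≤ W ^ 17 := one_le_pow₀ hW
    exact le_mul_of_one_le_left (by positivity) (one_le_mul_of_one_le_of_one_le e1 e2)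
  have hT : 0 ≤ (X + K + K * a) * X * H := by positivity
  have hKC : 0 ≤ K * CR := by positivity
  have h4 : P * (X + K) * D + T3 * SG + K * CR ≤
      (1 + 16 * Cb ^ 2 + U * Ch) * (c ^ 4 * W ^ 17) * ((X + K + K * a) * X * H + K * CR) := by
    have r1 : 0 ≤ c ^ 4 * W ^ 17 * ((X + K + K * a) * X * H) := by positivity
    have r2 : 0 ≤ (16 * Cb ^ 2 + U * Ch) * (c ^ 4 * W ^ 17) * (K * CR) := by positivity
    have e : (1 + 16 * Cb ^ 2 + U * Ch) * (c ^ 4 * W ^ 17) * ((X + K + K * a) * X * H + K * CR) =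
        16 * Cb ^ 2 * c ^ 4 * W ^ 17 * ((X + K + K * a) * X * H) +
        U * Ch * c ^ 4 * W ^ 17 * ((X + K + K * a) * X * H) + c ^ 4 * W ^ 17 * (K * CR) +
        c ^ 4 * W ^ 17 * ((X + K + K * a) * X * H) +
        (16 * Cb ^ 2 + U * Ch) * (c ^ 4 * W ^ 17) * (K * CR) := by ring
    rw [e]
    linarith
  have h5 : 0 ≤ P * (X + K) * D + T3 * SG + K * CR := by positivity
  calc C1 * Y * (P * (X + K) * D + T3 * SG + K * CR)
      ≤ C1 * (c * W) * ((1 + 16 * Cb ^ 2 + U * Ch) * (c ^ 4 * W ^ 17) *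
        ((X + K + K * a) * X * H + K * CR)) :=
        mul_le_mul (mul_le_mul_of_nonneg_left hY hC1) h4 h5 (by positivity)
    _ = _ := by ring

end Crest.Agent.R017.PE241
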