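import Crest.Agent.R017.X6c4_792
import Crest.Agent.R017.ProvI_71

/-!
# Row 17, exceptional class: the lump input for provider sides (helper792, helper764)

* `LumpProv h P` : `LumpIn` for the sides of the provider (the only input of the cross terms)
-/

set_option autoImplicit false

noncomputable section

namespace Crest.Agent.R017.XCr792

open Crest.Agent.R012 Crest.Agent.R012.Eis
open Crest.Agent.R017.B770
open Crest.Agent.R017.Prov71
open Crest.Agent.R017.HP842 (pc)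
open Crest.Agent.R017.X6b792 (LumpIn)

/-- **the dominating lump, provider sides** -/
def LumpProv (h : ℝ → ℝ) (P : DPar) : Prop :=
  ∃ A : ℕ, ∀ (r : ℕ) (κ ε R₀ : ℝ), 0 < κ → 0 < ε → 0 ≤ R₀ →
    (∀ u, FE47.cx h u ≠ 0 → |u| ≤ R₀) → ∃ C J : ℝ, 0 ≤ C ∧ 0 ≤ J ∧
    ∀ (s : Fin r → Pq) (X D : ℝ) (g q d : Eis), 1 ≤ X → 1 ≤ D →
      (∀ i, ¬ Dq.lump (s i) → Real.exp (R₀ + max 0 (s i).z) ≤ D) → (∀ i, -R₀ ≤ (s i).z) →
      (∏ i, Real.exp (R₀ + max 0 (s i).z)) ≤ X * nm g →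
      IsPrim g → Squarefree g → IsPrim q → IsPrim d → Squarefree d →
      LumpIn A κ (C * (X * nm g * nm q * ∏ i, (nm (s i).d : ℝ)) ^ ε *
        (∏ i, (1 + |(s i).t|)) ^ J) D X g q d (fun i => Real.exp (R₀ + max 0 (s i).z))
        (fun i => pc h ((s i).pc P))

end Crest.Agent.R017.XCr792
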