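import Crest.Agent.R017.XCr1_792
import Crest.Agent.R017.XCrD_792
import Crest.Agent.R017.PE5_241
import Crest.Agent.R017.HP6_842

/-!
# Row 17, exceptional class: the cross inputs of the provider from the lump theorem (helper792)

* `CrG`, `CrP` : the cross inputs (with the length bound `D` of the pieces that are no lumps)
* `crP_of`, `crG_of`
-/

set_option autoImplicit false

noncomputable section

open Complex
open scoped ComplexConjugate

namespace Crest.Agent.R017.XCr792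

open Crest.Agent.R012 Crest.Agent.R012.Eis Crest.Agent.R012.LS2 Crest.Agent.R012.Gauss880
open Crest.Agent.R017.CM106
open Crest.Agent.R017.B770
open Crest.Agent.R017.Prov71
open Crest.Agent.R017.FE47 (cx)
open Crest.Agent.R017.HP842 (pc al sqc Tu mem_Tu uv norm_uv_le pc_support cv)
open Crest.Agent.R017.PA842 (Supp supp_sub)
open Crest.Agent.R017.X6b792 (LumpIn XG2 CRX_side KCr_side)
open Crest.Agent.R017.GE241 (KCr)
open Crest.Agent.R017.PE241 (CRs)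

/-- cross terms of (P'_ex) -/
def CrG (h : ℝ → ℝ) (P : DPar) : Prop :=
  ∀ (r : ℕ) (ε R₀ : ℝ), 0 < ε → 0 ≤ R₀ → ∃ C A : ℝ, 0 ≤ C ∧ 0 ≤ A ∧
    ∀ (s : Fin r → Pq) (X L Y D : ℝ), 1 ≤ D → (∀ i, ¬ Dq.lump (s i) → Real.exp (s i).z ≤ D) →
      (∀ i, -R₀ ≤ (s i).z) → 1 ≤ X → 1 ≤ L → 1 ≤ Y →
      X ≤ Real.exp (R₀ + ∑ i, (s i).z) →
      PA842.Supp (sqc 1 (al h fun i => (s i).pc P)) X →
      KCr X L Y (sqc 1 (al h fun i => (s i).pc P)) ≤
        C * (X * L * ∏ i, (nm (s i).d : ℝ)) ^ ε * D ^ 2 * Y ^ 2 * (∏ i, (1 + |(s i).t|)) ^ A *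
          (X * (X + L))

/-- cross terms of (P_ex) -/
def CrP (h : ℝ → ℝ) (P : DPar) : Prop :=
  ∀ (r : ℕ) (ε R₀ : ℝ), 0 < ε → 0 ≤ R₀ → ∃ C A : ℝ, 0 ≤ C ∧ 0 ≤ A ∧
    ∀ (s : Fin r → Pq) (q : Eis) (X K Y D : ℝ), IsPrim q → 1 ≤ D →
      (∀ i, ¬ Dq.lump (s i) → Real.exp (s i).z ≤ D) →
      (∀ i, -R₀ ≤ (s i).z) → 1 ≤ X → 1 ≤ K →
      X ≤ Real.exp (R₀ + ∑ i, (s i).z) →
      PA842.Supp (sqc q (al h fun i => (s i).pc P)) X →
      K * CRs X K Y (sqc q (al h fun i => (s i).pc P)) ≤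
        C * (X * K * nm q * ∏ i, (nm (s i).d : ℝ)) ^ ε * D ^ 2 * (∏ i, (1 + |(s i).t|)) ^ A *
          (X * (X + K))

/-! ### the pieces -/

lemma pq_ok {P : DPar} (hP : ∀ k : Kd, PSer47.IsChar (chK P k)) (p : Pq) : (p.pc P).OK where
  ch := (hP p.kd).mul' (HP842.prin0_isChar p.d)
  Y0 := Real.exp_pos _

lemma norm_pc_le {h : ℝ → ℝ} {H : ℝ} (hH0 : 0 ≤ H) (hH : ∀ u, ‖cx h u‖ ≤ H) {P : HP842.Pc}
    (hP : P.OK) (m : Eis) : ‖pc h P m‖ ≤ H := by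
  classical
  unfold HP842.pc
  split_ifs with hm
  · rw [norm_mul, norm_mul]
    calc ‖uv P.u m‖ * ‖P.ψ m‖ * ‖HSep813.gw h P.Y P.t m‖ ≤ 1 * 1 * H := by
          refine mul_le_mul (mul_le_mul (norm_uv_le _ _) (hP.ch.norm_le hm) (norm_nonneg _)
            zero_le_one) (HSep813.norm_gw_le hH _ _ _) (norm_nonneg _) (by norm_num)
      _ = H := by ring
  · rw [norm_zero]; exact hH0

lemma sp_pc {h : ℝ → ℝ} {R R₁ : ℝ} (hR : ∀ u, cx h u ≠ 0 → |u| ≤ R) (hRR : R ≤ R₁) {P : DPar}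
    (p : Pq) : X6b792.Sp (Real.exp (R₁ + max 0 p.z)) (pc h (p.pc P)) := by
  intro m hm
  have h1 := pc_support hR (P := p.pc P) (Real.exp_pos _) hm
  refine ⟨h1.1, h1.2.trans ?_⟩
  rw [Pq.pc_Y, ← Real.exp_add]
  exact Real.exp_le_exp.2 (add_le_add hRR (le_max_right _ _))

/-- the support of a piece from below -/
lemma exp_le_of_pc {h : ℝ → ℝ} {R : ℝ} (hR0 : 0 ≤ R) (hR : ∀ u, cx h u ≠ 0 → |u| ≤ R) {P : DPar}
    (p : Pq) {m : Eis} (hm : pc h (p.pc P) m ≠ 0) :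
    Real.exp (max 0 p.z) ≤ Real.exp R * nm m := by
  have hp := (pc_support hR (P := p.pc P) (Real.exp_pos _) hm).1
  have h3 : (0 : ℝ) < nm m := by exact_mod_cast nm_pos.2 hp.ne_zero
  have h31 : (1 : ℝ) ≤ nm m := by exact_mod_cast nm_pos.2 hp.ne_zero
  classical
  unfold HP842.pc at hm
  rw [if_pos hp] at hm
  have h1 : HSep813.gw h (p.pc P).Y (p.pc P).t m ≠ 0 := right_ne_zero_of_mul hm
  unfold HSep813.gw at h1
  have h2 := hR _ (right_ne_zero_of_mul h1)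
  rw [Pq.pc_Y, Real.log_exp] at h2
  have h4 : p.z ≤ R + Real.log (nm m) := by
    have := (abs_le.1 h2).1
    linarith
  have h5 : max 0 p.z ≤ R + Real.log (nm m) :=
    max_le (add_nonneg hR0 (Real.log_nonneg h31)) h4
  calc Real.exp (max 0 p.z) ≤ Real.exp (R + Real.log (nm m)) := Real.exp_le_exp.2 h5
    _ = _ := by rw [Real.exp_add, Real.exp_log h3]

/-- the support of a side from below -/
lemma prod_le_of_al {h : ℝ → ℝ} {R : ℝ} (hR0 : 0 ≤ R) (hR : ∀ u, cx h u ≠ 0 → |u| ≤ R)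
    {P : DPar} {r : ℕ} (s : Fin r → Pq) {n : Eis} (hn : al h (fun i => (s i).pc P) n ≠ 0) :
    ∏ i, Real.exp (max 0 (s i).z) ≤ Real.exp R ^ r * nm n := by
  unfold al cv at hn
  obtain ⟨x, hx, hx0⟩ := Finset.exists_ne_zero_of_sum_ne_zero hn
  have hx' := mem_Tu.1 hx
  have h1 : ∀ i, pc h ((s i).pc P) (x i) ≠ 0 := fun i =>
    (Finset.prod_ne_zero_iff.1 hx0) i (Finset.mem_univ i)
  calc ∏ i, Real.exp (max 0 (s i).z) ≤ ∏ i, (Real.exp R * nm (x i)) :=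
        Finset.prod_le_prod (fun i _ => (Real.exp_pos _).le)
          fun i _ => exp_le_of_pc hR0 hR (s i) (h1 i)
    _ = Real.exp R ^ r * nm n := by
        rw [Finset.prod_mul_distrib, Finset.prod_const, Finset.card_univ, Fintype.card_fin,
          ← hx'.2, HP842.nm_prod_cast]

/-- arithmetic of the bounds -/
lemma fin_bd {ε c0 X X' K N D T J C2 r1 W : ℝ} (hε : 0 < ε) (hc0 : 1 ≤ c0) (hX : 1 ≤ X)
    (hX' : 1 ≤ X') (h1 : X' ≤ c0 * X) (hK : 1 ≤ K) (hN : 1 ≤ N) (hT : 1 ≤ T) (hJ : 0 ≤ J)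
    (hC2 : 0 ≤ C2) (hD : 1 ≤ D) (hr1 : 1 ≤ r1) :
    (X' * K) ^ (ε / 2) * (((r1 * D) * W ^ 2 + C2 * (X' * N) ^ (ε / 2) * T ^ J) *
      (X' * (X' + K))) ≤
    (c0 ^ (ε / 2) * c0 ^ 2 * (r1 * W ^ 2 + C2 * c0 ^ (ε / 2))) * (X * K * N) ^ ε * D * T ^ J *
      (X * (X + K)) := by
  have hX0 : 0 < X := by linarith
  have hX'0 : 0 < X' := by linarith
  have hK0 : 0 < K := by linarith
  have hN0 : 0 < N := by linarith
  have hc00 : 0 < c0 := by linarith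
  have hD0 : 0 < D := by linarith
  have hQ0 : 0 < X * K * N := by positivity
  have hQ1 : 1 ≤ X * K * N :=
    one_le_mul_of_one_le_of_one_le (one_le_mul_of_one_le_of_one_le hX hK) hN
  have hTJ : 1 ≤ T ^ J := Real.one_le_rpow hT hJ
  set Q : ℝ := (X * K * N) ^ (ε / 2) with hQ
  have hQe1 : 1 ≤ Q := Real.one_le_rpow hQ1 (by positivity)
  have e1 : (X' * K) ^ (ε / 2) ≤ c0 ^ (ε / 2) * Q := by
    rw [hQ, ← Real.mul_rpow hc00.le hQ0.le]
    refine Real.rpow_le_rpow (by positivity) ?_ (by positivity)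
    calc X' * K ≤ (c0 * X) * K := by gcongr
      _ ≤ (c0 * X) * K * N := le_mul_of_one_le_right (by positivity) hN
      _ = _ := by ring
  have e2 : (X' * N) ^ (ε / 2) ≤ c0 ^ (ε / 2) * Q := by
    rw [hQ, ← Real.mul_rpow hc00.le hQ0.le]
    refine Real.rpow_le_rpow (by positivity) ?_ (by positivity)
    calc X' * N ≤ (c0 * X) * N := by gcongr
      _ ≤ (c0 * X) * N * K := le_mul_of_one_le_right (by positivity) hK
      _ = _ := by ring
  have e3 : X' * (X' + K) ≤ c0 ^ 2 * (X * (X + K)) := by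
    have : K ≤ c0 * K := le_mul_of_one_le_left hK0.le hc0
    calc X' * (X' + K) ≤ (c0 * X) * (c0 * X + c0 * K) := by gcongr
      _ = _ := by ring
  have e4 : (r1 * D) * W ^ 2 + C2 * (X' * N) ^ (ε / 2) * T ^ J ≤
      (r1 * W ^ 2 + C2 * c0 ^ (ε / 2)) * Q * D * T ^ J := by
    have h2 : (r1 * D) * W ^ 2 ≤ (r1 * W ^ 2) * Q * D * T ^ J := by
      calc (r1 * D) * W ^ 2 = (r1 * W ^ 2 * D) * 1 := by ring
        _ ≤ (r1 * W ^ 2 * D) * (Q * T ^ J) := mul_le_mul_of_nonneg_left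
            (one_le_mul_of_one_le_of_one_le hQe1 hTJ) (by positivity)
        _ = _ := by ring
    have h3 : C2 * (X' * N) ^ (ε / 2) * T ^ J ≤ (C2 * c0 ^ (ε / 2)) * Q * D * T ^ J := by
      calc C2 * (X' * N) ^ (ε / 2) * T ^ J ≤ C2 * (c0 ^ (ε / 2) * Q) * T ^ J := by gcongr
        _ = (C2 * c0 ^ (ε / 2) * Q * T ^ J) * 1 := by ring
        _ ≤ (C2 * c0 ^ (ε / 2) * Q * T ^ J) * D := mul_le_mul_of_nonneg_left hD (by positivity)
        _ = _ := by ring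
    calc _ ≤ (r1 * W ^ 2) * Q * D * T ^ J + (C2 * c0 ^ (ε / 2)) * Q * D * T ^ J :=
          add_le_add h2 h3
      _ = _ := by ring
  have e5 : (X * K * N) ^ ε = Q * Q := by
    rw [hQ, ← Real.rpow_add hQ0]
    congr 1
    ring
  rw [e5]
  have h6 : 0 ≤ (r1 * W ^ 2 + C2 * c0 ^ (ε / 2)) := by positivity
  calc (X' * K) ^ (ε / 2) * (((r1 * D) * W ^ 2 + C2 * (X' * N) ^ (ε / 2) * T ^ J) *
        (X' * (X' + K)))
      ≤ (c0 ^ (ε / 2) * Q) * (((r1 * W ^ 2 + C2 * c0 ^ (ε / 2)) * Q * D * T ^ J) *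
        (c0 ^ 2 * (X * (X + K)))) := by
        refine mul_le_mul e1 (mul_le_mul e4 e3 (by positivity) (by positivity)) (by positivity)
          (by positivity)
    _ = _ := by ring

lemma one_le_prod_d {r : ℕ} (s : Fin r → Pq) : (1 : ℝ) ≤ ∏ i, (nm (s i).d : ℝ) := by
  calc (1 : ℝ) = ∏ _i : Fin r, (1 : ℝ) := by simp
    _ ≤ _ := Finset.prod_le_prod (fun _ _ => zero_le_one) fun i _ => by
        exact_mod_cast nm_pos.2 (s i).d0

lemma one_le_prod_t {r : ℕ} (s : Fin r → Pq) : (1 : ℝ) ≤ ∏ i, (1 + |(s i).t|) := by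
  calc (1 : ℝ) = ∏ _i : Fin r, (1 : ℝ) := by simp
    _ ≤ _ := Finset.prod_le_prod (fun _ _ => zero_le_one) fun i _ => by
        linarith [abs_nonneg (s i).t]

/-- the data of a side -/
lemma side_data {h : ℝ → ℝ} {P : DPar} {R : ℝ} (hR0 : 0 ≤ R) (hR : ∀ u, cx h u ≠ 0 → |u| ≤ R)
    {R₀ : ℝ} (hR₀ : 0 ≤ R₀) {r : ℕ}
    (s : Fin r → Pq) {q : Eis} {X D : ℝ} (hX : 1 ≤ X) (hD : 1 ≤ D)
    (hnl : ∀ i, ¬ Dq.lump (s i) → Real.exp (s i).z ≤ D)
    (hS : Supp (sqc q (al h fun i => (s i).pc P)) X)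
    (hne : sqc q (al h fun i => (s i).pc P) ≠ 0) :
    ∃ X' : ℝ, X ≤ X' ∧ X' ≤ Real.exp (2 * r * (R₀ + R)) * X ∧
      (∏ i, Real.exp ((R₀ + R) + max 0 (s i).z)) ≤ X' ∧
      (∀ i, ¬ Dq.lump (s i) → Real.exp ((R₀ + R) + max 0 (s i).z) ≤ Real.exp (R₀ + R) * D) := by
  obtain ⟨n, hn⟩ := Function.ne_iff.1 hne
  have hn0 : sqc q (al h fun i => (s i).pc P) n ≠ 0 := hn
  have hnS := (mem_S (by linarith)).1 (hS n hn0)
  have hal : al h (fun i => (s i).pc P) n ≠ 0 := by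
    unfold HP842.sqc at hn0
    exact right_ne_zero_of_mul hn0
  have h1 := prod_le_of_al hR0 hR s hal
  have e1 : (∏ i, Real.exp ((R₀ + R) + max 0 (s i).z)) =
      Real.exp (R₀ + R) ^ r * ∏ i, Real.exp (max 0 (s i).z) := by
    simp_rw [Real.exp_add (R₀ + R)]
    rw [Finset.prod_mul_distrib, Finset.prod_const, Finset.card_univ, Fintype.card_fin]
  have hc : Real.exp (2 * r * (R₀ + R)) = Real.exp (R₀ + R) ^ r * Real.exp (R₀ + R) ^ r := by
    rw [← Real.exp_nat_mul, ← Real.exp_add]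
    congr 1
    ring
  have h2 : (∏ i, Real.exp ((R₀ + R) + max 0 (s i).z)) ≤ Real.exp (2 * r * (R₀ + R)) * X := by
    rw [e1, hc]
    calc Real.exp (R₀ + R) ^ r * ∏ i, Real.exp (max 0 (s i).z)
        ≤ Real.exp (R₀ + R) ^ r * (Real.exp R ^ r * nm n) := by gcongr
      _ ≤ Real.exp (R₀ + R) ^ r * (Real.exp (R₀ + R) ^ r * X) := by
          gcongr
          · linarith
          · exact hnS.1
      _ = _ := by ring
  refine ⟨max X (∏ i, Real.exp ((R₀ + R) + max 0 (s i).z)), le_max_left _ _,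
    max_le ?_ h2, le_max_right _ _, fun i hi => ?_⟩
  · refine le_mul_of_one_le_left (by linarith) (Real.one_le_exp ?_)
    positivity
  · rw [Real.exp_add]
    refine mul_le_mul_of_nonneg_left ?_ (Real.exp_pos _).le
    rcases le_total 0 (s i).z with hz | hz
    · rw [max_eq_right hz]; exact hnl i hi
    · rw [max_eq_left hz, Real.exp_zero]; exact hD

lemma CRs_zero (X K Y : ℝ) : CRs X K Y 0 = 0 := by
  unfold PE241.CRs
  refine Finset.sum_eq_zero fun g _ => ?_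
  have : PA842.sub (0 : Eis → ℂ) g = 0 := rfl
  rw [this, PX764.CRX_zero]

set_option maxHeartbeats 1000000 in
/-- **cross terms of (P_ex) for the provider** -/
theorem crP_of {h : ℝ → ℝ} {P : DPar} {R H : ℝ} (hR0 : 0 ≤ R) (hR : ∀ u, cx h u ≠ 0 → |u| ≤ R)
    (hH0 : 0 ≤ H) (hH : ∀ u, ‖cx h u‖ ≤ H)
    (hP : ∀ k : Kd, PSer47.IsChar (chK P k)) (hL : LumpProv h P) : CrP h P := by
  obtain ⟨A, hA⟩ := hL
  intro r ε R₀ hε hR₀
  obtain ⟨κ, hκ, C1, hC1, h1⟩ := CRX_side (Fin r) (ε := ε / 2) (by positivity) A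
  obtain ⟨C2, J, hC2, hJ, h2⟩ := hA r κ (ε / 2) (R₀ + R) hκ (by positivity) (by positivity)
    (fun u hu => (hR u hu).trans (by linarith))
  set c0 : ℝ := Real.exp (2 * r * (R₀ + R)) with hc0
  have hc01 : 1 ≤ c0 := Real.one_le_exp (by positivity)
  refine ⟨C1 * (c0 ^ (ε / 2) * c0 ^ 2 * (Real.exp (R₀ + R) * (H ^ r) ^ 2 + C2 * c0 ^ (ε / 2))), J,
    by positivity, hJ, fun s q X K Y D hq hD hnl hz hX hK _ hS => ?_⟩
  have hX0 : 0 < X := by linarith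
  have hK0 : 0 < K := by linarith
  have hD0 : 0 < D := by linarith
  have hd1 := one_le_prod_d s
  have ht1 := one_le_prod_t s
  have hq1 : (1 : ℝ) ≤ nm q := by exact_mod_cast nm_pos.2 hq.ne_zero
  have hQ0 : 0 ≤ X * K * nm q * ∏ i, (nm (s i).d : ℝ) :=
    mul_nonneg (mul_nonneg (mul_nonneg hX0.le hK0.le) (by linarith)) (by linarith)
  have hCC : 0 ≤ C1 * (c0 ^ (ε / 2) * c0 ^ 2 *
    (Real.exp (R₀ + R) * (H ^ r) ^ 2 + C2 * c0 ^ (ε / 2))) := by positivity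
  by_cases hne : sqc q (al h fun i => (s i).pc P) = 0
  · rw [hne, CRs_zero, mul_zero]
    exact mul_nonneg (mul_nonneg (mul_nonneg (mul_nonneg hCC (Real.rpow_nonneg hQ0 _))
      (sq_nonneg D)) (Real.rpow_nonneg (by linarith) _))
      (mul_nonneg hX0.le (add_nonneg hX0.le hK0.le))
  obtain ⟨X', hXX', hX'c, hYX', hnl'⟩ := side_data hR0 hR hR₀ s hX hD hnl hS hne
  have hX'1 : 1 ≤ X' := hX.trans hXX'
  have hX'0 : 0 < X' := by linarith
  have hD'1 : 1 ≤ Real.exp (R₀ + R) * D :=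
    one_le_mul_of_one_le_of_one_le (Real.one_le_exp (by positivity)) hD
  set B : ℝ := C2 * (X' * (nm q * ∏ i, (nm (s i).d : ℝ))) ^ (ε / 2) *
    (∏ i, (1 + |(s i).t|)) ^ J with hB
  have hB0 : 0 ≤ B := mul_nonneg (mul_nonneg hC2 (Real.rpow_nonneg (mul_nonneg hX'0.le
    (mul_nonneg (by linarith) (by linarith))) _)) (Real.rpow_nonneg (by linarith) _)
  have h3 := h1 X' K Y (Real.exp (R₀ + R) * D) B
    (fun i => Real.exp ((R₀ + R) + max 0 (s i).z)) (fun _ => H) hX'1 hK hD'1 hB0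
    (fun i => Real.one_le_exp (by positivity)) hYX' (fun i => pc h ((s i).pc P))
    (fun i => sp_pc hR (by linarith) (s i)) (fun i m => norm_pc_le hH0 hH (pq_ok hP _) m) q ?_
  · have e1 : CRs X K Y (sqc q (al h fun i => (s i).pc P)) =
        ∑ g ∈ S X', PX764.CRX (X' / nm g) K Y (PA842.sub (sqc q (cv fun i => pc h ((s i).pc P)))
          g) := (CRs_mono hX0.le hXX' K Y hS).symm
    rw [e1]
    refine h3.trans ?_
    rw [Finset.prod_const, Finset.card_univ, Fintype.card_fin]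
    have h4 := fin_bd (W := H ^ r) hε hc01 hX hX'1 hX'c hK
      (one_le_mul_of_one_le_of_one_le hq1 hd1) ht1 hJ hC2 hD
      (Real.one_le_exp (show 0 ≤ R₀ + R by positivity))
    have e2 : X * K * nm q * ∏ i, (nm (s i).d : ℝ) = X * K * (nm q * ∏ i, (nm (s i).d : ℝ)) := by
      ring
    rw [e2]
    have hDD : D ≤ D ^ 2 := by nlinarith
    calc C1 * (X' * K) ^ (ε / 2) * ((Real.exp (R₀ + R) * D * (H ^ r) ^ 2 + B) * (X' * (X' + K)))
        = C1 * ((X' * K) ^ (ε / 2) * ((Real.exp (R₀ + R) * D * (H ^ r) ^ 2 + B) *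
          (X' * (X' + K)))) := by ring
      _ ≤ C1 * _ := mul_le_mul_of_nonneg_left h4 hC1.le
      _ = (C1 * (c0 ^ (ε / 2) * c0 ^ 2 * (Real.exp (R₀ + R) * (H ^ r) ^ 2 + C2 * c0 ^ (ε / 2))) *
          (X * K * (nm q * ∏ i, (nm (s i).d : ℝ))) ^ ε) * D * (∏ i, (1 + |(s i).t|)) ^ J *
          (X * (X + K)) := by ring
      _ ≤ _ := by gcongr
  · intro g hg d hd _
    have hg' := (mem_S hX'0.le).1 hg
    have hg0 : (0 : ℝ) < nm g := by exact_mod_cast nm_pos.mpr hg'.2.1.ne_zero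
    have hXg : 1 ≤ X' / nm g := by rw [le_div_iff₀ hg0]; linarith [hg'.1]
    have hd' := (mem_S (by linarith)).1 hd
    have h5 := h2 s (X' / nm g) (Real.exp (R₀ + R) * D) g q d hXg hD'1 hnl'
      (fun i => by linarith [hz i]) (by rw [div_mul_cancel₀ _ hg0.ne']; exact hYX')
      hg'.2.1 hg'.2.2 hq hd'.2.1 hd'.2.2
    rw [div_mul_cancel₀ _ hg0.ne', mul_assoc X'] at h5
    exact h5

/-- **cross terms of (P'_ex) for the provider** -/
theorem crG_of (hXG : XG2) {h : ℝ → ℝ} {P : DPar} {R H : ℝ} (hR0 : 0 ≤ R)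
    (hR : ∀ u, cx h u ≠ 0 → |u| ≤ R) (hH0 : 0 ≤ H) (hH : ∀ u, ‖cx h u‖ ≤ H)
    (hP : ∀ k : Kd, PSer47.IsChar (chK P k))
    (hL : LumpProv h P) : CrG h P := by
  obtain ⟨A, hA⟩ := hL
  intro r ε' R₀ hε' hR₀
  set ε : ℝ := min ε' 1 with hεd
  have hε : 0 < ε := lt_min hε' one_pos
  have hεε' : ε ≤ ε' := min_le_left _ _
  have hε1 : ε ≤ 1 := min_le_right _ _
  obtain ⟨κ, hκ, C1, hC1, h1⟩ := KCr_side hXG (Fin r) (ε := ε / 2) (by positivity) A
  obtain ⟨C2, J, hC2, hJ, h2⟩ := hA r κ (ε / 2) (R₀ + R) hκ (by positivity) (by positivity)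
    (fun u hu => (hR u hu).trans (by linarith))
  set c0 : ℝ := Real.exp (2 * r * (R₀ + R)) with hc0
  have hc01 : 1 ≤ c0 := Real.one_le_exp (by positivity)
  refine ⟨C1 * (c0 ^ (ε / 2) * c0 ^ 2 * (Real.exp (R₀ + R) * (H ^ r) ^ 2 + C2 * c0 ^ (ε / 2))), J,
    by positivity, hJ, fun s X K Y D hD hnl hz hX hK hY _ hS => ?_⟩
  have hX0 : 0 < X := by linarith
  have hK0 : 0 < K := by linarith
  have hD0 : 0 < D := by linarith
  have hY0 : 0 < Y := by linarith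
  have hd1 := one_le_prod_d s
  have ht1 := one_le_prod_t s
  by_cases hne : sqc 1 (al h fun i => (s i).pc P) = 0
  · rw [hne, GE241.KCr_zero]
    positivity
  obtain ⟨X', hXX', hX'c, hYX', hnl'⟩ := side_data hR0 hR hR₀ s hX hD hnl hS hne
  have hX'1 : 1 ≤ X' := hX.trans hXX'
  have hX'0 : 0 < X' := by linarith
  have hD'1 : 1 ≤ Real.exp (R₀ + R) * D :=
    one_le_mul_of_one_le_of_one_le (Real.one_le_exp (by positivity)) hD
  set B : ℝ := C2 * (X' * ∏ i, (nm (s i).d : ℝ)) ^ (ε / 2) *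
    (∏ i, (1 + |(s i).t|)) ^ J with hB
  have hB0 : 0 ≤ B := by positivity
  have h3 := h1 X' K Y (Real.exp (R₀ + R) * D) B
    (fun i => Real.exp ((R₀ + R) + max 0 (s i).z)) (fun _ => H) hX'1 hK hY hD'1 hB0
    (fun i => Real.one_le_exp (by positivity)) hYX' (fun i => pc h ((s i).pc P))
    (fun i => sp_pc hR (by linarith) (s i)) (fun i m => norm_pc_le hH0 hH (pq_ok hP _) m) 1 ?_
  · have e1 : KCr X K Y (sqc 1 (al h fun i => (s i).pc P)) =
        KCr X' K Y (sqc 1 (cv fun i => pc h ((s i).pc P))) :=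
      (KCr_mono hX0.le hXX' K Y hS).symm
    rw [e1]
    refine h3.trans ?_
    rw [Finset.prod_const, Finset.card_univ, Fintype.card_fin]
    have h4 := fin_bd (W := H ^ r) hε hc01 hX hX'1 hX'c hK hd1 ht1 hJ hC2 hD
      (Real.one_le_exp (show 0 ≤ R₀ + R by positivity))
    have hDD : D ≤ D ^ 2 := by nlinarith
    have hYY : Y ^ (1 + ε / 2) ≤ Y ^ 2 := by
      rw [← Real.rpow_natCast]
      exact Real.rpow_le_rpow_of_exponent_le hY (by push_cast; linarith)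
    have hQ1 : 1 ≤ X * K * ∏ i, (nm (s i).d : ℝ) :=
      one_le_mul_of_one_le_of_one_le (one_le_mul_of_one_le_of_one_le hX hK) hd1
    have hQQ : (X * K * ∏ i, (nm (s i).d : ℝ)) ^ ε ≤ (X * K * ∏ i, (nm (s i).d : ℝ)) ^ ε' :=
      Real.rpow_le_rpow_of_exponent_le hQ1 hεε'
    calc C1 * (X' * K) ^ (ε / 2) * Y ^ (1 + ε / 2) *
          ((Real.exp (R₀ + R) * D * (H ^ r) ^ 2 + B) * (X' * (X' + K)))
        = C1 * ((X' * K) ^ (ε / 2) * ((Real.exp (R₀ + R) * D * (H ^ r) ^ 2 + B) *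
          (X' * (X' + K)))) * Y ^ (1 + ε / 2) := by ring
      _ ≤ C1 * _ * Y ^ 2 :=
          mul_le_mul (mul_le_mul_of_nonneg_left h4 hC1.le) hYY (by positivity) (by positivity)
      _ = (C1 * (c0 ^ (ε / 2) * c0 ^ 2 * (Real.exp (R₀ + R) * (H ^ r) ^ 2 + C2 * c0 ^ (ε / 2))) *
          (X * K * ∏ i, (nm (s i).d : ℝ)) ^ ε) * D * Y ^ 2 * (∏ i, (1 + |(s i).t|)) ^ J *
          (X * (X + K)) := by ring
      _ ≤ _ := by gcongr
  · intro g hg d hd _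
    have hg' := (mem_S hX'0.le).1 hg
    have hg0 : (0 : ℝ) < nm g := by exact_mod_cast nm_pos.mpr hg'.2.1.ne_zero
    have hXg : 1 ≤ X' / nm g := by rw [le_div_iff₀ hg0]; linarith [hg'.1]
    have hd' := (mem_S (by linarith)).1 hd
    have h5 := h2 s (X' / nm g) (Real.exp (R₀ + R) * D) g 1 d hXg hD'1 hnl'
      (fun i => by linarith [hz i]) (by rw [div_mul_cancel₀ _ hg0.ne']; exact hYX')
      hg'.2.1 hg'.2.2 Crest.Agent.R012.isPrim_one hd'.2.1 hd'.2.2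
    rw [div_mul_cancel₀ _ hg0.ne', nm_one, Nat.cast_one, mul_one] at h5
    exact h5

/-- the bump data -/
lemma bump_data {h : ℝ → ℝ} {c : ℝ} (hh : FE47.PU h c) : ∃ R H : ℝ, 0 ≤ R ∧
    (∀ u, cx h u ≠ 0 → |u| ≤ R) ∧ 0 ≤ H ∧ ∀ u, ‖cx h u‖ ≤ H := by
  obtain ⟨R, hR0, hR⟩ := FE47.exists_R (FE47.cs_cx hh.cs)
  obtain ⟨H, hH0, hH⟩ := FE47.exists_sup (FE47.cd_cx hh.cd).continuous (FE47.cs_cx hh.cs)
  exact ⟨R, H, hR0, hR, hH0, hH⟩

theorem crP_of_pu {h : ℝ → ℝ} {c : ℝ} (hh : FE47.PU h c) {P : DPar}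
    (hP : ∀ k : Kd, PSer47.IsChar (chK P k)) (hL : LumpProv h P) : CrP h P := by
  obtain ⟨R, H, hR0, hR, hH0, hH⟩ := bump_data hh
  exact crP_of hR0 hR hH0 hH hP hL

theorem crG_of_pu (hXG : XG2) {h : ℝ → ℝ} {c : ℝ} (hh : FE47.PU h c) {P : DPar}
    (hP : ∀ k : Kd, PSer47.IsChar (chK P k)) (hL : LumpProv h P) : CrG h P := by
  obtain ⟨R, H, hR0, hR, hH0, hH⟩ := bump_data hh
  exact crG_of hXG hR0 hR hH0 hH hP hL

end Crest.Agent.R017.XCr792
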