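import Crest.Agent.R017.PM4_764
import Crest.Agent.R017.XCr_792

/-!
# Row 17, exceptional class (helper764): `LumpProv`

* `lumpProv` : 792's input of the cross terms, for every provider side whose smooth character is
  `conj (sy k0 ·)` (`k0 = 1`: principal)
-/

set_option autoImplicit false
set_option linter.unusedSectionVars false

noncomputable section

open scoped ComplexConjugate ContDiff

namespace Crest.Agent.R017.PM764

open Crest.Agent.R012 Crest.Agent.R012.Eis Crest.Agent.R012.Gauss880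
open Crest.Agent.R012.LS2 Crest.Agent.R012.Mob705
open Crest.Agent.R012.PSer47 (IsChar)
open Crest.Agent.R012.Div277 (tau dvs mem_dvs tau_le_rpow)
open Crest.Agent.R017.PX764 Crest.Agent.R017.FE47 Crest.Agent.R017.HSep813
open Crest.Agent.R017.End699 Crest.Agent.R017.B770 Crest.Agent.R017.Prov71
open Crest.Agent.R017.CM106
open Crest.Agent.R017.HP842 (Pc pc Tu mem_Tu cv)
open Crest.Agent.R017.X6b792
open Crest.Agent.R017.X6545 (SU)
open Crest.Agent.R017.XCr792 (LumpProv pq_ok norm_pc_le sp_pc)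

lemma prin0_mul' (x y b : Eis) : prin0 (x * y) b = prin0 x b * prin0 y b := by
  unfold prin0
  by_cases hx : IsCoprime b x
  · by_cases hy : IsCoprime b y
    · rw [if_pos (hx.mul_right hy), if_pos hx, if_pos hy, mul_one]
    · rw [if_neg (fun h => hy h.of_mul_right_right), if_neg hy, mul_zero]
  · rw [if_neg (fun h => hx h.of_mul_right_left), if_neg hx, zero_mul]

/-- the numerical facts about a long lump -/
lemma long_lump {D L N' N1 Z E : ℝ} (hE : 1 ≤ E) (hD : 1 ≤ D) (hL : 1 ≤ L) (hN1 : 1 ≤ N1)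
    (hZ : E ^ 3 < Z) (hZN : N1 * Z ≤ N') (hDL : D * (L * N') ^ ((2 : ℝ) / 3) < Z) :
    L * N1 ≤ (Z * E⁻¹) ^ 2 := by
  have hE0 : 0 < E := by linarith
  have hZ0 : 0 < Z := lt_trans (by positivity) hZ
  have hN'0 : 0 < N' := lt_of_lt_of_le (by positivity) hZN
  have hL0 : 0 < L := by linarith
  have hLN : 0 < L * N' := by positivity
  have h1 : (L * N') ^ ((2 : ℝ) / 3) < Z :=
    lt_of_le_of_lt (le_mul_of_one_le_left (by positivity) hD) hDL
  have h2 : (L * N') ^ 2 < Z ^ 3 := by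
    have h3 := pow_lt_pow_left₀ h1 (by positivity) (n := 3) (by norm_num)
    have h4 : ((L * N') ^ ((2 : ℝ) / 3)) ^ 3 = (L * N') ^ 2 := by
      rw [← Real.rpow_natCast, ← Real.rpow_mul hLN.le]
      norm_num
    rwa [h4] at h3
  set a := L * N1 with ha
  have ha1 : 1 ≤ a := one_le_mul_of_one_le_of_one_le hL hN1
  have h5 : a * Z ≤ L * N' := by
    calc a * Z = L * (N1 * Z) := by rw [ha]; ring
      _ ≤ L * N' := mul_le_mul_of_nonneg_left hZN hL0.le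
  have h6 : (a * Z) ^ 2 < Z ^ 3 := lt_of_le_of_lt (pow_le_pow_left₀ (by positivity) h5 2) h2
  have h7 : a ^ 2 < Z := by
    have h8 : a ^ 2 * Z ^ 2 < Z * Z ^ 2 := by
      calc a ^ 2 * Z ^ 2 = (a * Z) ^ 2 := by ring
        _ < Z ^ 3 := h6
        _ = _ := by ring
    exact lt_of_mul_lt_mul_right h8 (by positivity)
  have h8 : a ≤ Z := by nlinarith
  have h9 : E ^ 2 ≤ Z := by
    have : E ^ 2 ≤ E ^ 3 := pow_le_pow_right₀ hE (by norm_num)
    linarith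
  have h10 : (Z * E⁻¹) ^ 2 = Z * (Z / E ^ 2) := by
    field_simp
  rw [h10]
  have h11 : 1 ≤ Z / E ^ 2 := by rw [le_div_iff₀ (by positivity)]; linarith
  calc a ≤ Z * 1 := by linarith
    _ ≤ _ := mul_le_mul_of_nonneg_left h11 hZ0.le

/-- one factor of a product of reals `≥ 1` -/
lemma le_prod_one {ι : Type*} [Fintype ι] [DecidableEq ι] {a : ι → ℝ} (h : ∀ i, 1 ≤ a i) (i0 : ι) :
    a i0 ≤ ∏ i, a i := by
  rw [← Finset.prod_compl_mul_prod ({i0} : Finset ι) a, Finset.prod_singleton]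
  refine le_mul_of_one_le_left (by linarith [h i0]) ?_
  calc (1 : ℝ) = ∏ _i ∈ ({i0}ᶜ : Finset ι), (1 : ℝ) := by simp
    _ ≤ _ := Finset.prod_le_prod (fun _ _ => zero_le_one) fun i _ => h i

lemma one_le_prod' {ι : Type*} [Fintype ι] {a : ι → ℝ} (h : ∀ i, 1 ≤ a i) : 1 ≤ ∏ i, a i := by
  calc (1 : ℝ) = ∏ _i : ι, (1 : ℝ) := by simp
    _ ≤ _ := Finset.prod_le_prod (fun _ _ => zero_le_one) fun i _ => h i

lemma fin_b1 {Qn q P M κ e : ℝ} (hQ : 0 ≤ Qn) (hq : 1 ≤ q) (hP : 1 ≤ P) (hM : 1 ≤ M)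
    (he : 0 < e) (heκ : e ≤ κ) (h : Qn ≤ q * P * M) : Qn ^ e ≤ q ^ κ * P ^ e * M ^ e := by
  calc Qn ^ e ≤ (q * P * M) ^ e := Real.rpow_le_rpow hQ h he.le
    _ = q ^ e * P ^ e * M ^ e := by
        rw [Real.mul_rpow (by positivity) (by positivity), Real.mul_rpow (by positivity)
          (by positivity)]
    _ ≤ _ := by
        refine mul_le_mul_of_nonneg_right ?_ (by positivity)
        refine mul_le_mul_of_nonneg_right ?_ (by positivity)
        exact Real.rpow_le_rpow_of_exponent_le hq heκ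

lemma fin_b2 {t τ Tp : ℝ} (h : 1 + |t| ≤ Tp) :
    (1 + |t| + |τ|) ^ 3 ≤ Tp ^ (3 : ℝ) * (1 + |τ|) ^ 3 := by
  have h0 : (0 : ℝ) ≤ 1 + |t| := by positivity
  have h5 : Tp ^ (3 : ℝ) = Tp ^ (3 : ℕ) := by
    rw [← Real.rpow_natCast]; norm_num
  have h3 : (1 + |t| + |τ|) ≤ (1 + |t|) * (1 + |τ|) := by
    nlinarith [abs_nonneg t, abs_nonneg τ, mul_nonneg (abs_nonneg t) (abs_nonneg τ)]
  rw [h5, ← mul_pow]
  refine pow_le_pow_left₀ (by positivity) (h3.trans ?_) 3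
  exact mul_le_mul_of_nonneg_right h (by positivity)

lemma fin_b3 {G M e : ℝ} (hG : 0 ≤ G) (hM : 1 ≤ M) (he : 0 < e) (h : G ≤ M ^ 3) :
    G ^ (6 * e) ≤ M ^ (18 * e) := by
  calc G ^ (6 * e) ≤ (M ^ 3) ^ (6 * e) := Real.rpow_le_rpow hG h (by positivity)
    _ = M ^ (18 * e) := by
        rw [← Real.rpow_natCast, ← Real.rpow_mul (by linarith)]
        congr 1; push_cast; ring

lemma fin_big {C1 k10 Qn tt Gm W2 γ F qκ Cn M3 T τ3 M18 Mε C4 : ℝ} (hC1 : 0 ≤ C1)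
    (hk : 0 ≤ k10) (htt : 0 ≤ tt) (hGm : 0 ≤ Gm) (hW2 : 0 ≤ W2) (hγ : 0 ≤ γ)
    (hF : 0 ≤ F) (hqκ : 0 ≤ qκ) (hCn : 0 ≤ Cn) (hM3 : 0 ≤ M3) (hT : 0 ≤ T) (hτ3 : 0 ≤ τ3)
    (hM18 : 0 ≤ M18) (hC4 : 0 ≤ C4) (b1 : Qn ≤ qκ * Cn * M3)
    (b2 : tt ≤ T * τ3) (b3 : Gm ≤ M18) (b4 : M3 * M18 ≤ Mε) :
    C1 * (k10 * Qn * tt) * Gm * (W2 * γ * F) ≤
      ((C1 * k10 * Cn * W2 + C4) * Mε * T * γ * τ3 * qκ) * F := by
  have hMε : 0 ≤ Mε := (mul_nonneg hM3 hM18).trans b4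
  calc C1 * (k10 * Qn * tt) * Gm * (W2 * γ * F)
      ≤ C1 * (k10 * (qκ * Cn * M3) * (T * τ3)) * M18 * (W2 * γ * F) := by
        refine mul_le_mul_of_nonneg_right ?_ (by positivity)
        refine mul_le_mul (mul_le_mul_of_nonneg_left (mul_le_mul
          (mul_le_mul_of_nonneg_left b1 hk) b2 htt (by positivity)) hC1) b3 hGm (by positivity)
    _ = (C1 * k10 * Cn * W2) * (M3 * M18) * (T * γ * τ3 * qκ * F) := by ring
    _ ≤ (C1 * k10 * Cn * W2 + C4) * Mε * (T * γ * τ3 * qκ * F) := by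
        refine mul_le_mul_of_nonneg_right ?_ (by positivity)
        refine mul_le_mul (by linarith) b4 (by positivity) (by positivity)
    _ = _ := by ring

lemma fin_small {C2 Le W2 Zp Ls K3 F Mε C5 T γ τ3 qκ : ℝ} (hC2 : 0 ≤ C2)
    (hW2 : 0 ≤ W2) (hZp : 0 ≤ Zp) (hLs : 0 ≤ Ls) (hC5 : 0 ≤ C5) (hMε : 0 ≤ Mε)
    (hF : 0 ≤ F) (hT : 1 ≤ T) (hγ : 1 ≤ γ) (hτ3 : 1 ≤ τ3) (hqκ : 1 ≤ qκ)
    (c1 : Le ≤ Mε) (c2 : Zp ≤ F) (c3 : Ls ≤ K3) :
    C2 * Le * W2 * (Zp * Ls) ≤ ((C5 + C2 * W2 * K3) * Mε * T * γ * τ3 * qκ) * F := by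
  have hK3 : 0 ≤ K3 := hLs.trans c3
  have h1 : 1 ≤ T * γ * τ3 * qκ := one_le_mul_of_one_le_of_one_le
    (one_le_mul_of_one_le_of_one_le (one_le_mul_of_one_le_of_one_le hT hγ) hτ3) hqκ
  calc C2 * Le * W2 * (Zp * Ls) ≤ C2 * Mε * W2 * (F * K3) := by
        refine mul_le_mul ?_ (mul_le_mul c2 c3 hLs hF) (by positivity) (by positivity)
        refine mul_le_mul_of_nonneg_right ?_ hW2
        exact mul_le_mul_of_nonneg_left c1 hC2
    _ = (C2 * W2 * K3) * Mε * F * 1 := by ring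
    _ ≤ (C5 + C2 * W2 * K3) * Mε * F * (T * γ * τ3 * qκ) := by
        refine mul_le_mul ?_ h1 zero_le_one (by positivity)
        refine mul_le_mul_of_nonneg_right ?_ hF
        refine mul_le_mul_of_nonneg_right ?_ hMε
        linarith
    _ = _ := by ring

lemma fin_c3 {L N' Zp K0 : ℝ} (hL : 1 ≤ L) (hN' : 1 ≤ N') (hZ0 : 0 ≤ Zp) (hZ : Zp ≤ N')
    (h4 : L * N' ≤ K0) : L + Zp + (L * Zp) ^ ((2 : ℝ) / 3) ≤ 3 * K0 := by
  have hL0 : 0 < L := by linarith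
  have hLN1 : 1 ≤ L * N' := one_le_mul_of_one_le_of_one_le hL hN'
  have d1 : L ≤ K0 := (le_mul_of_one_le_right hL0.le hN').trans h4
  have d2 : N' ≤ K0 := (le_mul_of_one_le_left (by linarith) hL).trans h4
  have d3 : (L * Zp) ^ ((2 : ℝ) / 3) ≤ K0 := by
    calc (L * Zp) ^ ((2 : ℝ) / 3) ≤ (L * N') ^ ((2 : ℝ) / 3) :=
          Real.rpow_le_rpow (by positivity) (mul_le_mul_of_nonneg_left hZ hL0.le) (by norm_num)
      _ ≤ (L * N') ^ (1 : ℝ) := Real.rpow_le_rpow_of_exponent_le hLN1 (by norm_num)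
      _ = L * N' := Real.rpow_one _
      _ ≤ K0 := h4
  linarith

lemma fin_K0 {L N' D Z E : ℝ} (hL : 1 ≤ L) (hN' : 1 ≤ N') (hD : 1 ≤ D)
    (hi0 : D * (L * N') ^ ((2 : ℝ) / 3) < Z) (hZ : Z ≤ E ^ 3) : L * N' ≤ E ^ 6 := by
  have hLN1 : 1 ≤ L * N' := one_le_mul_of_one_le_of_one_le hL hN'
  have h3 : (L * N') ^ ((2 : ℝ) / 3) ≤ E ^ 3 := by
    have h4 : (L * N') ^ ((2 : ℝ) / 3) ≤ D * (L * N') ^ ((2 : ℝ) / 3) :=
      le_mul_of_one_le_left (by positivity) hD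
    linarith
  have h5 := pow_le_pow_left₀ (by positivity) h3 2
  have h6 : ((L * N') ^ ((2 : ℝ) / 3)) ^ 2 = (L * N') ^ ((4 : ℝ) / 3) := by
    rw [← Real.rpow_natCast, ← Real.rpow_mul (by positivity)]; norm_num
  rw [h6] at h5
  calc L * N' = (L * N') ^ (1 : ℝ) := (Real.rpow_one _).symm
    _ ≤ (L * N') ^ ((4 : ℝ) / 3) := Real.rpow_le_rpow_of_exponent_le hLN1 (by norm_num)
    _ ≤ (E ^ 3) ^ 2 := h5
    _ = E ^ 6 := by ring

lemma fin_c1 {L Yp M e ε : ℝ} (hL0 : 0 ≤ L) (hY0 : 0 ≤ Yp) (hM : 1 ≤ M) (he : 0 < e)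
    (heε : 2 * e ≤ ε) (h1 : L ≤ M) (h2 : Yp ≤ M) : (L * Yp) ^ e ≤ M ^ ε := by
  have hM0 : 0 < M := by linarith
  calc (L * Yp) ^ e ≤ (M * M) ^ e :=
        Real.rpow_le_rpow (by positivity) (mul_le_mul h1 h2 hY0 hM0.le) he.le
    _ = M ^ (2 * e) := by
        rw [Real.mul_rpow hM0.le hM0.le, ← Real.rpow_add hM0]; congr 1; ring
    _ ≤ _ := Real.rpow_le_rpow_of_exponent_le hM heε

lemma fin_c2 {N' Zp L : ℝ} (hL : 1 ≤ L) (hN' : 1 ≤ N') (hZ0 : 0 ≤ Zp) (hZ : Zp ≤ N') :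
    Zp ^ ((2 : ℝ) / 3) ≤ N' ^ ((4 : ℝ) / 3) * L ^ ((2 : ℝ) / 3) := by
  have c4 : (1 : ℝ) ≤ L ^ ((2 : ℝ) / 3) := Real.one_le_rpow hL (by norm_num)
  calc Zp ^ ((2 : ℝ) / 3) ≤ N' ^ ((2 : ℝ) / 3) := Real.rpow_le_rpow hZ0 hZ (by norm_num)
    _ ≤ N' ^ ((4 : ℝ) / 3) := Real.rpow_le_rpow_of_exponent_le hN' (by norm_num)
    _ ≤ _ := le_mul_of_one_le_right (by positivity) c4

set_option maxHeartbeats 1000000 in
/-- **`LumpProv`** -/
theorem lumpProv {h : ℝ → ℝ} (hcd : ContDiff ℝ ∞ h) (hcs : HasCompactSupport h) {P : DPar}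
    (hP : ∀ k : Kd, IsChar (chK P k)) (hn : P.n ≠ 0) {k0 : Eis} (hk0 : k0 ≠ 0)
    (hkn : ∀ p, IsPP p → p ∣ k0 → p ∣ P.n)
    (hψ : ∀ b, IsPrim b → chK P .mo b = conj (sy k0 b) * prin0 P.n b) : LumpProv h P := by
  classical
  refine ⟨3, fun r κ ε R₀ hκ hε hR₀ hR => ?_⟩
  obtain ⟨ε', hε'0, hε'1, hε'2, hε'3⟩ : ∃ ε' : ℝ, 0 < ε' ∧ ε' ≤ 1 / 2 ∧ 3 * ε' ≤ κ ∧
      21 * ε' ≤ ε := by
    refine ⟨min (1 / 2) (min (κ / 3) (ε / 21)), by positivity, min_le_left _ _, ?_, ?_⟩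
    · have := (min_le_right (1 / 2) (min (κ / 3) (ε / 21))).trans (min_le_left _ _)
      linarith
    · have := (min_le_right (1 / 2) (min (κ / 3) (ε / 21))).trans (min_le_right _ _)
      linarith
  obtain ⟨C1, hC1, h1⟩ := lump_case (Fin r) hcd hcs hε'0 hε'1
  obtain ⟨C2, hC2, h2⟩ := wpcF_sq (Fin r) hε'0
  obtain ⟨H, hH0, hH⟩ := exists_sup (cd_cx hcd).continuous (cs_cx hcs)
  obtain ⟨W0, hW0⟩ : ∃ W0 : ℝ, W0 = max 1 H := ⟨_, rfl⟩
  have hW01 : 1 ≤ W0 := by rw [hW0]; exact le_max_left _ _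
  have hHW : H ≤ W0 := by rw [hW0]; exact le_max_right _ _
  obtain ⟨E, hE⟩ : ∃ E : ℝ, E = Real.exp R₀ := ⟨_, rfl⟩
  have hE1 : 1 ≤ E := by rw [hE]; exact Real.one_le_exp hR₀
  have hE0 : 0 < E := by linarith
  have hnn1 : (1 : ℝ) ≤ nm P.n := by exact_mod_cast nm_pos.2 hn
  obtain ⟨Cn, hCn⟩ : ∃ Cn : ℝ, Cn = (nm P.n : ℝ) ^ (3 * ε') := ⟨_, rfl⟩
  have hCn1 : 1 ≤ Cn := by rw [hCn]; exact Real.one_le_rpow hnn1 (by positivity)
  refine ⟨C1 * (nm k0 : ℝ) ^ 10 * Cn * (W0 ^ r) ^ 2 + C2 * (W0 ^ r) ^ 2 * (3 * E ^ 6), 3,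
    by positivity, by norm_num, ?_⟩
  intro s X D g q0 d hX hD hDs hsz hYX hg hgs hq0 hd hds δ hδ hsq q v γ hq hv hγ τ L hL hLL y hy hyY hex
  have hX0 : 0 < X := by linarith
  have hδ' := (mem_S (by linarith)).1 hδ
  have hy' := mem_Tu.1 hy
  have hg1 : (1 : ℝ) ≤ nm g := by exact_mod_cast nm_pos.2 hg.ne_zero
  have hd1 : (1 : ℝ) ≤ nm d := by exact_mod_cast nm_pos.2 hd.ne_zero
  have hδ1 : (1 : ℝ) ≤ nm δ := by exact_mod_cast nm_pos.2 hδ'.2.1.ne_zero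
  have hq1 : (1 : ℝ) ≤ nm q := by exact_mod_cast nm_pos.2 hq
  have hq01 : (1 : ℝ) ≤ nm q0 := by exact_mod_cast nm_pos.2 hq0.ne_zero
  have hL0 : 0 < L := by linarith
  obtain ⟨N', hN'⟩ : ∃ N' : ℝ, N' = X / nm d / nm δ := ⟨_, rfl⟩
  have hprod : ∏ i, Real.exp (R₀ + max 0 (s i).z) / (nm (y i) : ℝ) ≤ N' := by
    have e1 : ∏ i, Real.exp (R₀ + max 0 (s i).z) / (nm (y i) : ℝ) =
        (∏ i, Real.exp (R₀ + max 0 (s i).z)) / nm (g * (d * δ)) := by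
      rw [Finset.prod_div_distrib, ← X6b792.nm_prod, hy'.2]
    rw [e1, nm_mul, nm_mul]
    push_cast
    rw [hN', div_div]
    rw [div_le_div_iff₀ (by positivity) (by positivity)]
    calc (∏ i, Real.exp (R₀ + max 0 (s i).z)) * (nm d * nm δ) ≤ (X * nm g) * (nm d * nm δ) := by
          gcongr
      _ = _ := by ring
  have hN'e : N' * (nm d * nm δ) = X := by rw [hN']; field_simp
  rw [← hN'] at hLL hex ⊢
  have hN1' : 1 ≤ N' := by nlinarith
  have hN'0 : 0 < N' := by linarith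
  have hLN' : L ≤ N' := by nlinarith
  have hN'X : N' ≤ X := by
    rw [← hN'e]
    exact le_mul_of_one_le_right hN'0.le (one_le_mul_of_one_le_of_one_le hd1 hδ1)
  have hddX : (nm d : ℝ) * nm δ ≤ X := by
    calc (nm d : ℝ) * nm δ ≤ N' * (nm d * nm δ) := le_mul_of_one_le_left (by positivity) hN1'
      _ = X := hN'e
  have hγ' := (mem_dvs (mul_ne_zero hg.ne_zero hd.ne_zero)).1 hγ
  have hγ1 : (1 : ℝ) ≤ nm γ := by exact_mod_cast nm_pos.2 hγ'.1.ne_zero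
  have hγd : (nm γ : ℝ) ≤ nm g * X := by
    have h3 : (nm γ : ℝ) ≤ nm (g * d) := by
      exact_mod_cast Div277.nm_le_of_dvd (mul_ne_zero hg.ne_zero hd.ne_zero) hγ'.2
    rw [nm_mul, Nat.cast_mul] at h3
    refine h3.trans (mul_le_mul_of_nonneg_left ?_ (by linarith))
    calc (nm d : ℝ) ≤ nm d * nm δ := le_mul_of_one_le_right (by linarith) hδ1
      _ ≤ X := hddX
  have hds1 : ∀ i, (1 : ℝ) ≤ nm (s i).d := fun i => by exact_mod_cast nm_pos.2 (s i).d0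
  have hdp1 : 1 ≤ ∏ i, (nm (s i).d : ℝ) := one_le_prod' hds1
  have ht1 : ∀ i, (1 : ℝ) ≤ 1 + |(s i).t| := fun i => by linarith [abs_nonneg (s i).t]
  have htp1 : 1 ≤ ∏ i, (1 + |(s i).t|) := one_le_prod' ht1
  have hXg : 1 ≤ X * nm g := one_le_mul_of_one_le_of_one_le hX hg1
  obtain ⟨M, hM⟩ : ∃ M : ℝ, M = X * nm g * nm q0 * ∏ i, (nm (s i).d : ℝ) := ⟨_, rfl⟩
  have hM1 : 1 ≤ M := by
    rw [hM]
    exact one_le_mul_of_one_le_of_one_le (one_le_mul_of_one_le_of_one_le hXg hq01) hdp1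
  have hM0 : 0 < M := by linarith
  have hXgM : X * nm g ≤ M := by
    rw [hM]
    calc X * nm g ≤ X * nm g * nm q0 := le_mul_of_one_le_right (by positivity) hq01
      _ ≤ _ := le_mul_of_one_le_right (by positivity) hdp1
  have hXM : X ≤ M := (le_mul_of_one_le_right hX0.le hg1).trans hXgM
  have hQM : ∀ i0, ((nm (q * (q0 * (g * (d * δ)))) : ℝ) * nm (P.n * (s i0).d)) ≤
      nm q * nm P.n * M := by
    intro i0
    have h4 : ((nm (s i0).d : ℕ) : ℝ) ≤ ∏ i, (nm (s i).d : ℝ) := le_prod_one hds1 i0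
    rw [nm_mul, nm_mul, nm_mul, nm_mul, nm_mul]
    push_cast
    rw [hM]
    calc (nm q : ℝ) * (nm q0 * (nm g * (nm d * nm δ))) * (nm P.n * nm (s i0).d)
        ≤ nm q * (nm q0 * (nm g * X)) * (nm P.n * ∏ i, (nm (s i).d : ℝ)) := by gcongr
      _ = _ := by ring
  have hGM : nm γ * L * N' ≤ M ^ 3 := by
    calc nm γ * L * N' ≤ (nm g * X) * X * X := by
          refine mul_le_mul (mul_le_mul hγd (hLN'.trans hN'X) hL0.le (by positivity)) hN'X
            hN'0.le (by positivity)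
      _ = (X * nm g) * X * X := by ring
      _ ≤ M * M * M := by
          refine mul_le_mul (mul_le_mul hXgM hXM hX0.le hM0.le) hXM hX0.le (by positivity)
      _ = M ^ 3 := by ring
  rw [← hM]
  have hT1 : 1 ≤ (∏ i, (1 + |(s i).t|)) ^ (3 : ℝ) := Real.one_le_rpow htp1 (by norm_num)
  have hQ0 : q * (q0 * (g * (d * δ))) ≠ 0 := mul_ne_zero hq (mul_ne_zero hq0.ne_zero
    (mul_ne_zero hg.ne_zero (mul_ne_zero hd.ne_zero hδ'.2.1.ne_zero)))
  have hκq : 1 ≤ (nm q : ℝ) ^ κ := Real.one_le_rpow hq1 hκ.le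
  have hτ1 : 1 ≤ (1 + |τ|) ^ 3 := one_le_pow₀ (by linarith [abs_nonneg τ])
  have hγQ : ∀ p, IsPP p → p ∣ γ → p ∣ q * (q0 * (g * (d * δ))) := fun p _ hpγ => by
    have h3 : g * d ∣ q * (q0 * (g * (d * δ))) := ⟨q * q0 * δ, by ring⟩
    exact (hpγ.trans hγ'.2).trans h3
  have hγs : Squarefree γ := hsq.squarefree_of_dvd (hγ'.2.trans ⟨δ, by ring⟩)
  obtain ⟨Q, hQ⟩ : ∃ Q : Eis, Q = q * (q0 * (g * (d * δ))) := ⟨_, rfl⟩
  rw [← hQ] at hQ0 hγQ hQM ⊢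
  have hs : ∀ i, Sp (Real.exp (R₀ + max 0 (s i).z)) (pc h ((s i).pc P)) :=
    fun i => sp_pc hR le_rfl (s i)
  have hw : ∀ (i : Fin r) m, ‖pc h ((s i).pc P) m‖ ≤ W0 := fun i m =>
    (norm_pc_le hH0 hH (pq_ok hP (s i)) m).trans hHW
  have hy1 : ∀ i, (1 : ℝ) ≤ nm (y i) := fun i => by
    exact_mod_cast nm_pos.mpr (hy'.1 i).ne_zero
  have hyY' : ∀ i, (nm (y i) : ℝ) ≤ Real.exp (R₀ + max 0 (s i).z) := hyY
  have hZ : ∀ i, 1 ≤ Real.exp (R₀ + max 0 (s i).z) / nm (y i) := fun i => by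
    rw [le_div_iff₀ (by linarith [hy1 i])]
    linarith [hyY' i]
  have hWp : ∏ _i : Fin r, W0 = W0 ^ r := by
    rw [Finset.prod_const, Finset.card_univ, Fintype.card_fin]
  obtain ⟨i0, hi0⟩ := hex
  have hi0' : D * (L * N') ^ ((2 : ℝ) / 3) <
    Real.exp (R₀ + max 0 (s i0).z) / nm (y i0) := hi0
  have hF0 : 0 ≤ N' ^ ((4 : ℝ) / 3) * L ^ ((2 : ℝ) / 3) := by positivity
  obtain ⟨F, hF⟩ : ∃ F : ℝ, F = N' ^ ((4 : ℝ) / 3) * L ^ ((2 : ℝ) / 3) := ⟨_, rfl⟩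
  have hgoal : ∑ x ∈ S L, ‖TG (cv (wpcF Q (fun i => pc h ((s i).pc P)) (nmt τ) y))
      (v * γ * x)‖ ^ 2 ≤ ((C1 * (nm k0 : ℝ) ^ 10 * Cn * (W0 ^ r) ^ 2 +
        C2 * (W0 ^ r) ^ 2 * (3 * E ^ 6)) * M ^ ε * (∏ i, (1 + |(s i).t|)) ^ (3 : ℝ) * nm γ *
          (1 + |τ|) ^ 3 * (nm q : ℝ) ^ κ) * F := by
    by_cases hbig : E ^ 3 < Real.exp (R₀ + max 0 (s i0).z) / nm (y i0)
    · obtain ⟨Z, hZd⟩ : ∃ Z : ℝ, Z = Real.exp (R₀ + max 0 (s i0).z) / nm (y i0) := ⟨_, rfl⟩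
      rw [← hZd] at hbig hi0'
      have hZ0 : 0 < Z := lt_trans (by positivity) hbig
      have hYi : Real.exp (R₀ + max 0 (s i0).z) = E * Real.exp (max 0 (s i0).z) := by
        rw [hE, ← Real.exp_add]
      have hYZ : Z ≤ Real.exp (R₀ + max 0 (s i0).z) := by
        rw [hZd]
        exact div_le_self (Real.exp_pos _).le (hy1 i0)
      have hE3 : E ≤ E ^ 3 := le_self_pow₀ hE1 (by norm_num)
      have hz : 0 < (s i0).z := by
        by_contra hz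
        push Not at hz
        rw [hYi, max_eq_left hz, Real.exp_zero, mul_one] at hYZ
        linarith
      have hYe : Real.exp (R₀ + max 0 (s i0).z) = E * Real.exp (s i0).z := by
        rw [hYi, max_eq_right hz.le]
      have hlump : Dq.lump (s i0) := by
        by_contra hl
        have h3 := hDs i0 hl
        have h4 : (1 : ℝ) ≤ (L * N') ^ ((2 : ℝ) / 3) :=
          Real.one_le_rpow (one_le_mul_of_one_le_of_one_le hL hN1') (by norm_num)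
        have h5 : D ≤ D * (L * N') ^ ((2 : ℝ) / 3) := le_mul_of_one_le_right (by linarith) h4
        linarith
      rw [Dq_lump] at hlump
      have hPYZ : Real.exp (s i0).z / nm (y i0) = Z * E⁻¹ := by
        rw [hZd, hYe]; field_simp
      obtain ⟨N1, hN1d⟩ : ∃ N1 : ℝ, N1 = ∏ i ∈ ({i0}ᶜ : Finset (Fin r)),
        Real.exp (R₀ + max 0 (s i).z) / (nm (y i) : ℝ) := ⟨_, rfl⟩
      have hN1 : 1 ≤ N1 := by
        rw [hN1d]
        calc (1 : ℝ) = ∏ _i ∈ ({i0}ᶜ : Finset (Fin r)), (1 : ℝ) := by simp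
          _ ≤ _ := Finset.prod_le_prod (fun _ _ => zero_le_one) fun i _ => hZ i
      have hN1Z : N1 * Z ≤ N' := by
        rw [← Finset.prod_compl_mul_prod ({i0} : Finset (Fin r)), Finset.prod_singleton,
          ← hN1d, ← hZd] at hprod
        exact hprod
      have hmain := h1 k0 (P.n * (s i0).d) Q γ v ((s i0).pc P) (fun i => pc h ((s i).pc P))
        (fun i => Real.exp (R₀ + max 0 (s i).z)) (fun _ => W0) y i0 L N' τ hk0
        (mul_ne_zero hn (s i0).d0) hQ0 (fun p hp hpk => (hkn p hp hpk).mul_right _) hγ'.1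
        hγs hγQ hv (by rw [Pq.pc_u]; exact hlump.2) (pq_ok hP (s i0)).ch (Real.exp_pos _)
        (fun m hm => by
          rw [Pq.pc_ψ]
          beta_reduce
          rw [hlump.1, hψ m hm, prin0_mul']
          ring)
        rfl hs hw (fun _ => hW01) hy'.1 hyY' hprod hL
        (by
          rw [Pq.pc_Y, hYe]
          exact le_mul_of_one_le_left (Real.exp_pos _).le hE1)
        (by
          rw [Pq.pc_Y, hPYZ, ← div_eq_mul_inv, le_div_iff₀ hE0]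
          linarith)
        (by
          rw [Pq.pc_Y, hPYZ, ← hN1d]
          exact long_lump hE1 hD hL hN1 hbig hN1Z hi0')
      rw [hWp, ← hF] at hmain
      refine hmain.trans ?_
      refine fin_big (M3 := M ^ (3 * ε')) (M18 := M ^ (18 * ε')) hC1 (by positivity)
        (by positivity) (by positivity) (by positivity) (by positivity)
        (by rw [hF]; exact hF0) (by positivity) (by linarith) (by positivity) (by positivity)
        (by positivity) (by positivity) (by positivity) ?_ ?_ ?_ ?_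
      · rw [hCn]
        exact fin_b1 (by positivity) hq1 hnn1 hM1 (by positivity) hε'2 (hQM i0)
      · rw [Pq.pc_t]
        exact fin_b2 (le_prod_one ht1 i0)
      · exact fin_b3 (by positivity) hM1 hε'0 hGM
      · rw [← Real.rpow_add hM0]
        exact Real.rpow_le_rpow_of_exponent_le hM1 (by linarith)
    · push Not at hbig
      have h5 := h2 L (L * (∏ i ∈ (∅ : Finset (Fin r)), Real.exp (R₀ + max 0 (s i).z) / nm (y i)) +
        (∏ i ∈ (∅ : Finset (Fin r))ᶜ, Real.exp (R₀ + max 0 (s i).z) / nm (y i)))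
        (fun i => Real.exp (R₀ + max 0 (s i).z)) (fun _ => W0) hL
        (fun i => pc h ((s i).pc P)) hs hw (nmt τ)
        (fun m hm => (norm_nmt hm.ne_zero τ).le) y hy'.1 hyY' ∅ le_rfl Q (v * γ)
      rw [Finset.prod_empty, mul_one, Finset.compl_empty, hWp] at h5
      refine h5.trans ?_
      have hZp0 : 0 ≤ ∏ i, Real.exp (R₀ + max 0 (s i).z) / (nm (y i) : ℝ) :=
        Finset.prod_nonneg fun i _ => by linarith [hZ i]
      have hYp0 : 0 ≤ ∏ i, Real.exp (R₀ + max 0 (s i).z) :=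
        Finset.prod_nonneg fun i _ => (Real.exp_pos _).le
      have hLs : 0 ≤ L + (∏ i, Real.exp (R₀ + max 0 (s i).z) / (nm (y i) : ℝ)) +
          (L * ∏ i, Real.exp (R₀ + max 0 (s i).z) / (nm (y i) : ℝ)) ^ ((2 : ℝ) / 3) :=
        add_nonneg (add_nonneg hL0.le hZp0) (Real.rpow_nonneg (mul_nonneg hL0.le hZp0) _)
      refine fin_small hC2.le (sq_nonneg _) (Real.rpow_nonneg hZp0 _) hLs (by positivity)
        (Real.rpow_nonneg hM0.le _) (by rw [hF]; exact hF0) hT1 hγ1 hτ1 hκq ?_ ?_ ?_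
      · exact fin_c1 hL0.le hYp0 hM1 hε'0 (by linarith) ((hLN'.trans hN'X).trans hXM)
          (hYX.trans hXgM)
      · rw [hF]; exact fin_c2 hL hN1' hZp0 hprod
      · exact fin_c3 hL hN1' hZp0 hprod (fin_K0 hL hN1' hD hi0' hbig)
  refine hgoal.trans (le_of_eq ?_)
  rw [hF]; ring

/-- `LumpProv`, principal smooth character -/
theorem lumpProv_prin {h : ℝ → ℝ} {c : ℝ} (hh : PU h c) {P : DPar}
    (hP : ∀ k : Kd, IsChar (chK P k)) (hn : P.n ≠ 0)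
    (hψ : ∀ b, IsPrim b → chK P .mo b = prin0 P.n b) : LumpProv h P := by
  refine lumpProv hh.cd hh.cs hP hn (k0 := 1) one_ne_zero (fun p hp h1 => ?_) fun b hb => ?_
  · exact absurd (isUnit_of_dvd_one h1) hp.prime.not_isUnit
  · rw [hψ b hb, sy_one_left syG hb, map_one, one_mul]

end Crest.Agent.R017.PM764
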