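import Crest.Agent.R017.XT6b_241
import Crest.Agent.R017.PM5_764

/-!
# Row 17, exceptional class: the bundle of rules, no analytic input left (helper241)

* `lump_red` : the lump theorem (helper764) for the reduced data
* `t6` : the bundle `ProvE` for an exceptional family `π` from the remaining rule `BRem`
* `rawPX_red`, `rawGX_red` : the raw rules for the reduced family
-/

set_option autoImplicit false

noncomputable section

namespace Crest.Agent.R017.XT6241

open Crest.Agent.R012 Crest.Agent.R012.Eis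
open Crest.Agent.R012.T411 (NCube)
open Crest.Agent.R017.XG702 (Pcs BG)
open Crest.Agent.R017.ER911
open Crest.Agent.R017.B770 Crest.Agent.R017.FE47 Crest.Agent.R017.End699
open Crest.Agent.R017.Prov71
open Crest.Agent.R017.XEx298
open Crest.Agent.R017.XEr298
open Crest.Agent.R017.Red848
open Crest.Agent.R017.PX764 (Dk)

variable {Lam : Type*}

/-- the lump theorem for the reduced data -/
theorem lump_red {h : ℝ → ℝ} {c : ℝ} (hpu : PU h c) {P : DPar} (hP : P.OK) (hE : Exc P) :
    XCr792.LumpProv h (red P) := by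
  have hR := red_ok hP hE
  refine PM764.lumpProv_prin hpu (fun k => isChar_chK hR k) hR.ψ.q0 fun b hb => ?_
  show (red P).ψ b * ang (red P).l₂ b = prin0 (red P).n b
  have h0 : ang (0 : ℤ) b = 1 := by unfold ang; simp
  rw [red_l₂, red_ψ, h0, mul_one]
  rfl

/-- **the raw rule (P) for the reduced family** -/
theorem rawPX_red {h : ℝ → ℝ} {c : ℝ} (hpu : PU h c) (π : Lam → DPar) (hP : ∀ lam, (π lam).OK)
    (hE : ∀ lam, Exc (π lam)) :
    RawPX (fun _ => 1) (fun lam => red (π lam)) h (fun lam => XC858.SKq Dk (red (π lam)) h) :=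
  rawPX_lp hpu _ (fun lam => red_ok (hP lam) (hE lam)) fun lam => lump_red hpu (hP lam) (hE lam)

/-- **the raw rule (P') for the reduced family** -/
theorem rawGX_red {h : ℝ → ℝ} {c : ℝ} (hpu : PU h c) (π : Lam → DPar) (hP : ∀ lam, (π lam).OK)
    (hE : ∀ lam, Exc (π lam)) :
    RawGX (fun _ => 1) (fun lam => red (π lam)) h (fun lam => XC858.SKq Dk (red (π lam)) h) :=
  rawGX_lp hpu _ (fun lam => red_ok (hP lam) (hE lam)) fun lam => lump_red hpu (hP lam) (hE lam)

/-- **the bundle for an exceptional family** -/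
theorem t6 {θ : ℝ} (hθ : 7 / 8 ≤ θ) (hθ1 : θ ≤ 1) (hPF : PF Set.univ θ) {h : ℝ → ℝ} {c : ℝ}
    (hpu : PU h c) (π : Lam → DPar) (hP : ∀ lam, (π lam).OK) (hE : ∀ lam, Exc (π lam))
    {S₀ : Lam → ℝ → List Pq → ℝ}
    (hrem : T3F986.T3Fld θ (ex Dq (fun lam => Rt (red (π lam)) h))) :
    ProvE θ (ex Dq (fun lam => Rt (red (π lam)) h))
      (ex Dq (fun lam => XC858.SKq Dk (red (π lam)) h)) (ex Dq S₀)
      (ex Dq (fun lam => Rc (π lam) h)) (ex Dq (fun lam => Bc (π lam) h)) :=
  t6_ex hθ hθ1 hPF hpu π hP hE (fun lam => lump_red hpu (hP lam) (hE lam)) hrem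

end Crest.Agent.R017.XT6241
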