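import Crest.Agent.R017.Fin4_986
import Crest.Agent.R017.XT6c_241

/-!
# Row 17, exceptional class: the field `provE` of the final merge (helper241)

* `exc_piE` : the data of the second class are exceptional
* `provE_of` : the bundle for the exceptional class from the remaining rule
-/

set_option autoImplicit false

noncomputable section

namespace Crest.Agent.R017.XT6241

open Crest.Agent.R012 Crest.Agent.R012.Eis
open Crest.Agent.R017.XG702 (Pcs BG)
open Crest.Agent.R017.ER911
open Crest.Agent.R017.B770 Crest.Agent.R017.FE47 Crest.Agent.R017.End699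
open Crest.Agent.R017.Prov71
open Crest.Agent.R017.XEx298
open Crest.Agent.R017.Red848
open Crest.Agent.R017.PX764 (Dk)
open Crest.Agent.R017.Fin4

/-- the data of the second class are exceptional -/
lemma exc_piE (lam : {P : DPar // P.OK ∧ ¬ ClN P}) : Exc (πE lam) := by
  have h := lam.2.2
  unfold ClN at h
  push Not at h
  obtain ⟨k, hk, h1⟩ := h
  exact ⟨k, hk, h1⟩

/-- **the bundle for the exceptional class** -/
theorem provE_of {θ : ℝ} (hθ : 7 / 8 ≤ θ) (hθ1 : θ ≤ 1) (hPF : PF Set.univ θ) {h : ℝ → ℝ} {c : ℝ}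
    (hpu : PU h c) {S₀ : {P : DPar // P.OK ∧ ¬ ClN P} → ℝ → List Pq → ℝ}
    (hrem : T3F986.T3Fld θ (ex Dq (fun lam => Rt (red (πE lam)) h))) : ProvX θ πE h :=
  ⟨_, _, _, t6 (S₀ := S₀) hθ hθ1 hPF hpu πE (fun lam => lam.2.1) exc_piE hrem⟩

end Crest.Agent.R017.XT6241
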