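import Crest.Agent.R017.StrFE_372
import Crest.Agent.R017.HiDXd_50
import Crest.Agent.R017.MomX_372
import Crest.Agent.R017.NrY_986
import Crest.Agent.R017.TSg_968
import Crest.Agent.R017.TUF_47
import Crest.Agent.R017.SgE_986
import Crest.Agent.R017.StrS_858
import Crest.Agent.R017.XT6d_241

/-!
# Row 17, T.4: the field `str` of helper986's `InE` (helper372)

* `StrInE d h r` : the open inputs of the structured part of class E
* **`str_ofE`** : `∃ μ > 0, StrUX πE h (7/8 + d) (SfEO πE h (1/64) r (d/4)) (AA d) d βX μ`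
-/

set_option autoImplicit false

noncomputable section

namespace Crest.Agent.R017.StrGE372

open Crest.Agent.R012 Crest.Agent.R012.Eis
open Crest.Agent.R017.FE47 (PU cx)
open Crest.Agent.R017.C70 (OKJ)
open Crest.Agent.R017.Sup271 (NPm)
open Crest.Agent.R017.B770 Crest.Agent.R017.Prov71
open Crest.Agent.R017.ER911 Crest.Agent.R017.SC777
open Crest.Agent.R017.E5B71 Crest.Agent.R017.E5L770
open Crest.Agent.R017.ExP960
open Crest.Agent.R017.E5LX770
open Crest.Agent.R017.Fin4 Crest.Agent.R017.Fin5 Crest.Agent.R017.Fin6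
open Crest.Agent.R017.P1t54 (ParS)
open Crest.Agent.R017.Red848 (Exc red exists_sh)
open Crest.Agent.R017.PX764 (Dk)
open Crest.Agent.R017.XS0298 (S0x S0K)
open Crest.Agent.R017.Sg986 (AA AA_lt AA_eq AA_ge)
open Crest.Agent.R017.NrX986 (NearAllX)
open Crest.Agent.R017.Sf770 (JS okJ_JS)
open Crest.Agent.R017.E4U164 (low5)
open Crest.Agent.R017.E4Df372 (XNumUX low_ofXO)
open Crest.Agent.R017.E5HX783 (strUX_of_bands)
open Crest.Agent.R017.E5H319 (LR)
open Crest.Agent.R017.HiD50 (HNDX loB hiB hiEX_of)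
open Crest.Agent.R017.TU47 (SIn2X SIn4X SPInX SxE tailSX_of uin_of ein_of realQ')

lemma bfE_le {c : ℝ} (i : ℕ) (l N z : ℝ) : bfE c i l N z ≤ bfO l N z := min_le_left _ _

lemma bfE_le2 (d : ℝ) (i : ℕ) (l N z : ℝ) :
    2 * bfE (d / 4) i l N z ≤ topL l N z - Real.log 2 * i + d / 2 * l := by
  have h : bfE (d / 4) i l N z ≤ (topL l N z - Real.log 2 * i) / 2 + d / 4 * l := min_le_right _ _
  linarith

/-- exceptional data have `l₃ = 0` -/
lemma l3_exc {P : DPar} (hP : P.OK) (hE : Exc P) (hD : ¬ P.CaseD) : P.l₃ = 0 := by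
  obtain ⟨k₀, hs⟩ := exists_sh hP.ψ hE
  rcases hP.cases with h | h | h | h
  · exact h.2.1
  · exact absurd hs.l₂ h.l₂ne
  · exact h.2.2.1
  · exact absurd h hD

/-- **the open inputs of the structured part of T.4** -/
structure StrInE (d : ℝ) (h : ℝ → ℝ) (r : ℝ) : Prop where
  /-- the field of near-equal lists -/
  near : NearAllX d (ex Dq (fun lam => S0x (red (πE lam)) h))
  /-- the real statements of the cubic pairs, class E -/
  eD : Ge918.E4DE
  eF : Ge918.E4FE
  /-- the number of the `x`-side at every cut -/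
  xn : ∀ e : ℝ, 0 < e → e ≤ 1 / 64 →
    XNumUX πE h (AA d) d βX e r (bfE (d / 4)) (fun l N z => JS (nL l N z))
  /-- the high levels, one difference per band -/
  hi : ∀ j : ℕ, (j * (d / 8) + d / 2) / 4 < 1 / 64 →
    HNDX πE h ((j * (d / 8) + d / 2) / 4) (1 / 64) (d / 4) βX (ParS (AA d) d)
      (loB low5 ((j + 1) * (d / 8))) (hiB low5 (j * (d / 8))) (LR d)
  /-- the tail at every cut, one gain -/
  sp : ∃ μ₁ : ℝ, 0 < μ₁ ∧ ∀ e : ℝ, 0 < e → e ≤ 1 / 64 →
    SPInX πE (SxE πE h e r (bfE (d / 4)) (fun l N z => JS (nL l N z))) (AA d) d βX μ₁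

/-- **the field `str` of `InE`** -/
theorem str_ofE {d : ℝ} (hd : 0 < d) (hd1 : d ≤ 1 / 42) {h : ℝ → ℝ} {c₀ : ℝ} (hpu : PU h c₀)
    (P : BunE d h) (G : RecE d h) {r : ℝ} (H : StrInE d h r) :
    ∃ μ : ℝ, 0 < μ ∧
      StrUX πE h (7 / 8 + d) (SfEO πE h (1 / 64) r (d / 4)) (AA d) d βX μ := by
  have hA := AA_ge hd1
  have hAlt := AA_lt hd
  have hA1 := AA_eq d
  have hA99 : 99 / 100 ≤ AA d := by linarith
  have hP : ∀ lam, (πE lam).OK := fun lam => lam.2.1
  have hE : ∀ lam, Exc (πE lam) := fun lam => XT6241.exc_piE lam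
  have h3 : ∀ lam, ¬ (πE lam).CaseD → (πE lam).l₃ = 0 := fun lam hD => l3_exc (hP lam) (hE lam) hD
  have hcov : ∀ P : DPar, P.OK → Exc P → ∃ lam, πE lam = P := by
    intro P h1 h2
    refine ⟨⟨P, h1, fun h0 => ?_⟩, rfl⟩
    obtain ⟨k, hk, hn⟩ := h2
    exact hn (h0 k hk)
  have hJ : ∀ l N z, OKJ (JS (nL l N z)) := fun l N z => okJ_JS (nL l N z)
  have hown := NrX986.ownX_of_near P.rules G hd.le (by linarith) H.near
  have hownF := TSf968.ownF_of P.rules G hd.le (by linarith)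
  obtain ⟨Rh, Hc, -, -, hRh, -⟩ := E4Us512.bdd_PU hpu
  obtain ⟨μ₁, hμ₁, hp⟩ := H.sp
  obtain ⟨μ, hμd⟩ : ∃ μ : ℝ, μ = min (min μ₁ (1 / 1100)) (d / 32) := ⟨_, rfl⟩
  have hμ0 : 0 < μ := by rw [hμd]; exact lt_min (lt_min hμ₁ (by norm_num)) (by linarith)
  have hμ1 : μ ≤ μ₁ := by rw [hμd]; exact (min_le_left _ _).trans (min_le_left _ _)
  have hμ2 : μ ≤ 1 / 1100 := by rw [hμd]; exact (min_le_left _ _).trans (min_le_right _ _)
  have hμ3 : μ ≤ d / 32 := by rw [hμd]; exact min_le_right _ _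
  refine ⟨μ, hμ0, ?_⟩
  have low := low_ofXO hpu hP hE h3 hP hcov P.rules P.cpl H.eD H.eF hd hd1 (by linarith)
    hAlt.le hA1 (TK708.allT_of P.rules G.toExpS0 hd.le (by linarith))
    (NrX986.fe2G_D P.rules G hd.le (by linarith) H.near) (β := βX) (μ := μ) (r0 := r)
    le_rfl (by norm_num) hμ3 H.xn
  refine strUX_of_bands (π := πE) (h := h) hP (μ := μ) (by linarith) hd le_rfl (by linarith)
    (e0 := 1 / 64) (by norm_num) (lo := low5) (al' := ∅) ?_ ?_ low ?_ ?_ ?_
  · intro p w hw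
    exact StrT858.top_low (q := (p, w)) hw
  · intro p w hw
    have h1 := StrT858.low_le (q := (p, w)) hA99 hd1 hw
    have h2 : cκ p ≤ 1 := hw.κ1
    have h1' : low5 p + d / 2 ≤ cκ p := h1
    linarith
  · intro j hj
    have hj0 : (0 : ℝ) ≤ j * (d / 8) := by positivity
    exact hiEX_of hP hRh r hA99 (by linarith) (by linarith) (by norm_num) le_rfl
      (fun p w hw => StrT858.top_low (q := (p, w)) hw) (by linarith) (H.hi j hj) ∅
  · intro e he he1 R hR
    exact tailSX_of hpu hP (by linarith) (uin_of hpu hP P.rules P.cpl hd.le (by norm_num))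
      (ein_of hpu hP P.rules P.lb P.cpl hd.le (by norm_num))
      ((realQ' hd.le (by linarith) hAlt.le hA1).mono hμ2) e r (bfE (d / 4)) hJ
      (TSf968.sIn2X hpu hP hE rfl hd.le (by linarith) hA1 hown hownF he.le he1 r
        (fun i l N z => bfE_le i l N z) (fun i l N z => bfE_le2 d i l N z) hJ)
      (TSf968.sIn4X hpu hP hE rfl hd.le (by linarith) hA1 hown hownF he.le he1 r
        (fun i l N z => bfE_le i l N z) (fun i l N z => bfE_le2 d i l N z) hJ)
      ((hp e he he1).mono hμ1) R hR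
  · exact E5M372.momUX_372 hpu hP P.rules P.cpl hd.le hA99 (by norm_num) (by norm_num)

end Crest.Agent.R017.StrGE372
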