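import Crest.Agent.R017.LfF_986
import Crest.Agent.R017.StrGE_372

/-!
# Row 17, T.4: `InF` from the open leaves (helper986)

* `LvE d h r` : the open leaves of T.4; `inF_of` : `LfF986.InF d h r`
-/

set_option autoImplicit false

noncomputable section

open Complex Filter Topology

namespace Crest.Agent.R017.LfH986

open Crest.Agent.R012 Crest.Agent.R012.Eis
open Crest.Agent.R017.FE47 Crest.Agent.R017.End699
open Crest.Agent.R017.B770 Crest.Agent.R017.BxH986
open Crest.Agent.R017.Prov71 Crest.Agent.R017.ER911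
open Crest.Agent.R017.E5B71 Crest.Agent.R017.ExP960
open Crest.Agent.R017.E5L770
open Crest.Agent.R017.SC777
open Crest.Agent.R017.Fin4 Crest.Agent.R017.Fin5 Crest.Agent.R017.Fin6
open Crest.Agent.R017.P1l54 Crest.Agent.R017.P1t54
open Crest.Agent.R017.P1X960
open Crest.Agent.R017.P10X764 (E2XU E3XU E2SU E3SU)
open Crest.Agent.R017.E5LX770
open Crest.Agent.R017.Red848 (red)
open Crest.Agent.R017.PX764 (Dk)
open Crest.Agent.R017.XS0298 (S0x S0K)
open Crest.Agent.R017.Sg986 (AA AA_lt AA_eq AA_ge)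
open Crest.Agent.R017.NrX986 (NearAllX)
open Crest.Agent.R017.Sf770 (JS)
open Crest.Agent.R017.E4U164 (low5)
open Crest.Agent.R017.E5H319 (LR)
open Crest.Agent.R017.E4Df372 (XNumUX)
open Crest.Agent.R017.HiD50 (HNDX loB hiB)
open Crest.Agent.R017.TU47 (SPInX SxE)

/-- **the open leaves of T.4** -/
structure LvE (d : ℝ) (h : ℝ → ℝ) (r : ℝ) : Prop where
  /-- the field of near-equal lists -/
  near : NearAllX d (ex Dq (fun lam => S0x (red (πE lam)) h))
  /-- cross error, differences -/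
  e2x : E2XU (fun lam => red (πE lam)) h (1 / 64) (d / 4) r βX (ParS (AA d) d) (LS0 d)
  /-- Gram error, differences -/
  e3x : E3XU (fun lam => red (πE lam)) h (1 / 64) (d / 4) r βX (ParS (AA d) d) (LS0 d)
  /-- cross error, single lists -/
  e2s : E2SU (fun lam => red (πE lam)) h (1 / 64) (d / 4) r βX (ParS (AA d) d) (LS0 d)
  /-- Gram error, single lists -/
  e3s : E3SU (fun lam => red (πE lam)) h (1 / 64) (d / 4) r βX (ParS (AA d) d) (LS0 d)
  /-- P1, mismatch: differences -/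
  p1mx : P1MX (fun lam => red (πE lam)) h (1 / 64) (d / 4) βX (ParS (AA d) d) (LS0 d)
  /-- single lists -/
  p1ms : P1MS (fun lam => red (πE lam)) h (1 / 64) (d / 4) βX (ParS (AA d) d) (LS0 d)
  /-- the number of the `x`-side at every cut -/
  xn : ∀ e : ℝ, 0 < e → e ≤ 1 / 64 →
    XNumUX πE h (AA d) d βX e r (bfE (d / 4)) (fun l N z => JS (nL l N z))
  /-- the high levels, one difference per band -/
  hi : ∀ j : ℕ, (j * (d / 8) + d / 2) / 4 < 1 / 64 →
    HNDX πE h ((j * (d / 8) + d / 2) / 4) (1 / 64) (d / 4) βX (ParS (AA d) d)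
      (loB low5 ((j + 1) * (d / 8))) (hiB low5 (j * (d / 8))) (LR d)
  /-- the tail at every cut, one gain -/
  sp : ∃ μ₁ : ℝ, 0 < μ₁ ∧ ∀ e : ℝ, 0 < e → e ≤ 1 / 64 →
    SPInX πE (SxE πE h e r (bfE (d / 4)) (fun l N z => JS (nL l N z))) (AA d) d βX μ₁

/-- **`InF` from the open leaves** -/
theorem inF_of {d : ℝ} (hd : 0 < d) (hd1 : d ≤ 1 / 42) {h : ℝ → ℝ} {c₀ : ℝ} (hpu : PU h c₀)
    (P : BunE d h) (G : RecE d h) {r : ℝ} (eD : Ge918.E4DE) (eF : Ge918.E4FE) (H : LvE d h r) :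
    LfF986.InF d h r :=
  { near := H.near
    e2x := H.e2x
    e3x := H.e3x
    e2s := H.e2s
    e3s := H.e3s
    p1mx := H.p1mx
    p1ms := H.p1ms
    str := StrGE372.str_ofE hd hd1 hpu P G ⟨H.near, eD, eF, H.xn, H.hi, H.sp⟩
    spin := H.sp.imp fun _ hμ => ⟨hμ.1, hμ.2 (1 / 64) (by norm_num) le_rfl⟩ }

end Crest.Agent.R017.LfH986
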