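import Crest.Agent.R017.Fin9_986
import Crest.Agent.R017.LfG_986
import Crest.Agent.R017.LfH_986
import Crest.Agent.R017.E4Nd_352

/-!
# Row 17: the top from the open leaves of T.3, T.4 and the real statements (helper986)

* `Open10 d h` : `LvN` and `LvE`; `s22_of_open10`, `s23_of_open10`
-/

set_option autoImplicit false

noncomputable section

open Complex Filter Topology

namespace Crest.Agent.R017.Fin10

open Crest.Agent.R012 Crest.Agent.R012.Eis
open Crest.Agent.R017.FE47 Crest.Agent.R017.End699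
open Crest.Agent.R017.B770 Crest.Agent.R017.BxH986
open Crest.Agent.R017.Fin4 Crest.Agent.R017.Fin5 Crest.Agent.R017.Fin6

/-- **the open leaves of row 17** at `θ = 7/8 + d` -/
structure Open10 (d : ℝ) (h : ℝ → ℝ) : Prop where
  /-- T.3 -/
  lvN : d ≤ 1 / 42 → BunA d h → RecA d h → CovA d → ∀ r : ℝ, 0 ≤ r →
    (∀ u : ℝ, cx h u ≠ 0 → |u| ≤ r) → LfG986.LvN d h r
  /-- T.4 -/
  lvE : d ≤ 1 / 42 → BunE d h → RecE d h → BunA d h → RecA d h → CovA d → ∀ r : ℝ, 0 ≤ r →
    (∀ u : ℝ, cx h u ≠ 0 → |u| ≤ r) → LfH986.LvE d h r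

/-- **the open leaves of row 17** -/
structure Open : Prop where
  /-- the real statements of the cubic pairs, class E -/
  eD : Ge918.E4DE
  eF : Ge918.E4FE
  /-- the leaves -/
  lv : ∀ (h : ℝ → ℝ) (c₀ : ℝ), PU h c₀ → Neg h → ∀ d : ℝ, 0 < d → d < 1 / 8 →
    PF Set.univ (7 / 8 + d) → Open10 d h

theorem open_of (H : Open) : Fin9.Open := fun h c₀ hpu hneg d hd hd1 hPF =>
  { inN := fun h1 h2 h3 h4 r h5 h6 => LfG986.inN_of hd h1 hpu hPF h2 h3 h5 h6
      (E4Nd352.e4D_of H.eD) (E4Nd352.e4F_of H.eF)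
      ((H.lv h c₀ hpu hneg d hd hd1 hPF).lvN h1 h2 h3 h4 r h5 h6)
    inE := fun h1 h2 h3 h4 h5 h6 r h7 h8 => LfF986.inE_of hd h1 hpu h2 h3 h7 h8
      (LfH986.inF_of hd h1 hpu h2 h3 H.eD H.eF
        ((H.lv h c₀ hpu hneg d hd hd1 hPF).lvE h1 h2 h3 h4 h5 h6 r h7 h8)) }

/-- **S0022** from the open leaves -/
theorem s22_of_open10 (T : Trees) (H : Open) : S22 := Fin9.s22_of_open9 T (open_of H)

/-- **S0023** from the open leaves -/
theorem s23_of_open10 (T : Trees) (H : Open) : S23 := Fin9.s23_of_open9 T (open_of H)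

end Crest.Agent.R017.Fin10
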