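import Crest.Agent.R017.LfG_986
import Crest.Agent.R017.BdN_858

/-!
# Row 17, T.3: `LvN` from the leaves of P1 and the near lists (helper986)

* `LuN d h r` : near, et, e3, p1m; `lvN_of` : `LfG986.LvN d h r`
-/

set_option autoImplicit false

noncomputable section

open Complex Filter Topology

namespace Crest.Agent.R017.LfI986

open Crest.Agent.R012 Crest.Agent.R012.Eis
open Crest.Agent.R017.FE47 Crest.Agent.R017.End699
open Crest.Agent.R017.B770 Crest.Agent.R017.BxH986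
open Crest.Agent.R017.Prov71 Crest.Agent.R017.ER911
open Crest.Agent.R017.E5B71 Crest.Agent.R017.ExP960
open Crest.Agent.R017.SC777
open Crest.Agent.R017.Fin4 Crest.Agent.R017.Fin5 Crest.Agent.R017.Fin6
open Crest.Agent.R017.P1l54 Crest.Agent.R017.P1t54
open Crest.Agent.R017.P10146 (EtU RpU E3U)
open Crest.Agent.R017.Sg986 (AA AA_lt AA_eq AA_ge)
open Crest.Agent.R017.NrA986 (NearAll)

/-- **the open leaves of T.3** -/
structure LuN (d : ℝ) (h : ℝ → ℝ) (r : ℝ) : Prop where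
  /-- the field of near-equal lists -/
  near : NearAll d (ex Dq (fun lam => S0p (πN lam) h))
  /-- P1, exact square: class part and Gram error -/
  et : EtU πN h (1 / 64) (ParS (AA d) d) (LS0 d)
  e3 : E3U πN h (1 / 64) r (ParS (AA d) d) (LS0 d)
  /-- P1, mismatch -/
  p1m : P1M πN h (1 / 64) (ParS (AA d) d) (LS0 d)

/-- **`LvN` from the open leaves** -/
theorem lvN_of {d : ℝ} (hd : 0 < d) (hd1 : d ≤ 1 / 42) {h : ℝ → ℝ} {c₀ : ℝ} (hpu : PU h c₀)
    (hPF : PF Set.univ (7 / 8 + d)) (hB : BunA d h) (hR : RecA d h) {r : ℝ} (hr0 : 0 ≤ r)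
    (hr : ∀ u : ℝ, cx h u ≠ 0 → |u| ≤ r) (H : LuN d h r) : LfG986.LvN d h r where
  near := H.near
  et := H.et
  e3 := H.e3
  p1m := H.p1m
  lt := BdN858.lt_N hd hd1 hpu hPF hB hR r H.near
  pv := BdN858.pv_N hd hd1 hpu hB hR r H.near
  hi := HiN858.hi_N hd hd1 hpu hPF hB hR hr0 hr H.near

end Crest.Agent.R017.LfI986
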