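import Crest.Agent.R017.CutM_290
import Crest.Agent.R017.Hi7_54
import Crest.Agent.R017.E3Kh_548
import Crest.Agent.R017.ET4a_548

/-!
# Row 17, R8 (REST) (helper290): one level of the structured function at its own window

* `OmL i` : the dyadic window as a smooth function; `OmL_bd`, `OmL_win`, `OmL_form`
* `StT_win` : the level `i < n` of the window `2 ^ n` at the window `(2 ^ i / 4, 2 * 2 ^ i]`
* `M2_uM` : helper54's second moment over the cut; `LI_card`, `LI_abs`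
-/

set_option autoImplicit false

noncomputable section

open Finset
open scoped Classical ContDiff ComplexConjugate

namespace Crest.Agent.R017.RstM290

open Crest.Agent.R012 Crest.Agent.R012.Eis
open Crest.Agent.R012.LS2 (S mem_S)
open Crest.Agent.R012.Weight600 (pw osc)
open Crest.Agent.R017.C70 (JC JW)
open Crest.Agent.R017.StA828 (JC_ne_zero)
open Crest.Agent.R017.E5L770 (omL omL_supp)
open Crest.Agent.R017.FE47 (hD contDiff_hD hasCompactSupport_hD hD_supp cx)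
open Crest.Agent.R017.E3M829 (Cut)
open Crest.Agent.R017.E2440 (TE StE StT)
open Crest.Agent.R017.E3Kh548 (hD_abs contDiff_hDc contDiff_term deriv_term deriv_supp)
open Crest.Agent.R017.E3Kc548 (LI mem_LI)
open Crest.Agent.R017.StD828 (ln)
open Crest.Agent.R017.HB645 (hh)

/-- the dyadic window of level `i` -/
def OmL (i : ℕ) (u : ℝ) : ℂ := ((hD (u - Real.log 2 * i) : ℝ) : ℂ)

theorem contDiff_OmL (i : ℕ) : ContDiff ℝ ∞ (OmL i) := contDiff_term i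

/-- **derivatives, uniformly in the level** -/
theorem OmL_bd (N : ℕ) : ∃ M : ℝ, 0 ≤ M ∧ ∀ (i m : ℕ), m ≤ N → ∀ u : ℝ,
    ‖iteratedDeriv m (OmL i) u‖ ≤ M := by
  have h0 : ∀ m : ℕ, ∃ M : ℝ, 0 ≤ M ∧ ∀ (i : ℕ) (u : ℝ), ‖iteratedDeriv m (OmL i) u‖ ≤ M := by
    intro m
    have h1 : Continuous (iteratedDeriv m (fun u => ((hD u : ℝ) : ℂ))) :=
      contDiff_hDc.continuous_iteratedDeriv m (by exact_mod_cast le_top)
    have h2 : HasCompactSupport (iteratedDeriv m (fun u => ((hD u : ℝ) : ℂ))) := by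
      refine HasCompactSupport.intro (isCompact_Icc (a := -Real.log 2) (b := Real.log 2))
        fun x hx => ?_
      by_contra h
      exact hx (abs_le.mp (deriv_supp m h))
    obtain ⟨C, hC⟩ := h1.bounded_above_of_compact_support h2
    refine ⟨C, (norm_nonneg _).trans (hC 0), fun i u => ?_⟩
    have e1 := deriv_term m i u
    show ‖iteratedDeriv m (fun u => ((hD (u - Real.log 2 * i) : ℝ) : ℂ)) u‖ ≤ C
    rw [e1]
    exact hC _
  choose M hM0 hM using h0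
  refine ⟨∑ m ∈ range (N + 1), M m, sum_nonneg fun m _ => hM0 m, fun i m hm u => ?_⟩
  refine (hM m i u).trans ?_
  exact single_le_sum (f := M) (fun m _ => hM0 m) (mem_range.mpr (by omega))

lemma log_win {i : ℕ} {t : ℝ} (ht : 0 < t) (h : |Real.log t - Real.log 2 * i| ≤ Real.log 2) :
    (2 : ℝ) ^ i / 4 < t ∧ t ≤ 2 * 2 ^ i := by
  obtain ⟨h1, h2⟩ := abs_le.mp h
  have hlog : 0 < Real.log 2 := Real.log_pos (by norm_num)
  have e4 : Real.log 4 = 2 * Real.log 2 := by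
    rw [show (4 : ℝ) = 2 ^ 2 by norm_num, Real.log_pow]; norm_num
  have e1 : Real.log ((2 : ℝ) ^ i / 4) = Real.log 2 * i - 2 * Real.log 2 := by
    rw [Real.log_div (by positivity) (by norm_num), Real.log_pow, e4]; ring
  have e2 : Real.log (2 * (2 : ℝ) ^ i) = Real.log 2 * i + Real.log 2 := by
    rw [Real.log_mul (by norm_num) (by positivity), Real.log_pow]; ring
  constructor
  · exact (Real.log_lt_log_iff (by positivity) ht).mp (by rw [e1]; linarith)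
  · exact (Real.log_le_log_iff ht (by positivity)).mp (by rw [e2]; linarith)

/-- **the support** -/
theorem OmL_win {i n : ℕ} (hn : 0 < n) (h : OmL i (Real.log n) ≠ 0) :
    (2 : ℝ) ^ i / 4 < n ∧ (n : ℝ) ≤ 2 * 2 ^ i := by
  have h1 : hD (Real.log n - Real.log 2 * i) ≠ 0 := fun h0 => h (by
    unfold OmL; simp only [h0, Complex.ofReal_zero])
  exact log_win (by exact_mod_cast hn) (hD_abs h1)

theorem OmL_form (i : ℕ) (x : Eis × Eis) :
    omL i x = 1 * (OmL i (Real.log (nm (x.2 * x.1 ^ 2))) * pw 0 (nm x.2)) := by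
  have h1 : pw 0 (nm x.2) = 1 := by simp [pw, osc]
  rw [h1, one_mul, mul_one]
  rfl

/-- the window without a cut of the square part -/
lemma mem_JW2 {D Y₀ Y₁ : ℝ} (hD : 0 ≤ D) (h1 : Y₁ ≤ D ^ 2) {x : Eis × Eis} :
    x ∈ JW D Y₀ Y₁ ↔ IsPrim x.1 ∧ Squarefree x.1 ∧ JC x.2 ∧ Y₀ < nm (ln x) ∧
      (nm (ln x) : ℝ) ≤ Y₁ := by
  unfold JW ln
  rw [mem_filter, mem_product, mem_primBall, mem_ball]
  constructor
  · rintro ⟨⟨⟨h2, h3⟩, h4⟩, h5, h6, h7, h8⟩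
    exact ⟨h3, h5, h6, h7, h8⟩
  · rintro ⟨h3, h5, h6, h7, h8⟩
    have h9 : (1 : ℝ) ≤ nm x.1 := by exact_mod_cast nm_pos.2 h3.ne_zero
    have h10 : (1 : ℝ) ≤ nm x.2 := by exact_mod_cast nm_pos.2 (JC_ne_zero h6)
    have e : (nm (x.2 * x.1 ^ 2) : ℝ) = nm x.2 * (nm x.1 : ℝ) ^ 2 := by
      rw [nm_mul, nm_pow]; push_cast; ring
    refine ⟨⟨⟨?_, h3⟩, ?_⟩, h5, h6, h7, h8⟩
    · refine Nat.le_floor ?_
      have h12 : (nm x.1 : ℝ) ^ 2 ≤ D ^ 2 := by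
        refine le_trans ?_ (h8.trans h1)
        rw [e]
        exact le_mul_of_one_le_left (by positivity) h10
      exact (sq_le_sq₀ (by positivity) hD).1 h12
    · refine Nat.le_floor (le_trans ?_ h8)
      rw [e]
      exact le_mul_of_one_le_right (by positivity) (one_le_pow₀ h9)

/-- sizes on a window -/
lemma JW_size {D Y₀ Y₁ : ℝ} (hD : D = Real.sqrt Y₁) (hY : 0 ≤ Y₁) {x : Eis × Eis}
    (hx : x ∈ JW D Y₀ Y₁) : (nm x.1 : ℝ) ≤ Y₁ ∧ (nm x.2 : ℝ) ≤ Y₁ := by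
  subst hD
  obtain ⟨h3, h5, h6, h7, h8⟩ := (mem_JW2 (Real.sqrt_nonneg _) (Real.sq_sqrt hY).ge).1 hx
  have h9 : (1 : ℝ) ≤ nm x.1 := by exact_mod_cast nm_pos.2 h3.ne_zero
  have h10 : (1 : ℝ) ≤ nm x.2 := by exact_mod_cast nm_pos.2 (JC_ne_zero h6)
  have e : (nm (ln x) : ℝ) = nm x.2 * (nm x.1 : ℝ) ^ 2 := by
    unfold ln
    rw [nm_mul, nm_pow]; push_cast; ring
  rw [e] at h8
  constructor
  · refine le_trans ?_ h8
    nlinarith
  · refine le_trans ?_ h8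
    exact le_mul_of_one_le_right (by positivity) (one_le_pow₀ h9)

/-- **a level at its own window** -/
theorem StT_win {i n : ℕ} (hin : i < n) {D Y₀ Y₁ : ℝ} (hY₀ : Y₀ = 2 ^ i / 4)
    (hY₁ : Y₁ = 2 * 2 ^ i) (hD : D = Real.sqrt Y₁) (E0 : ℝ) (T : Eis × Eis → Eis → ℂ) (k : Eis) :
    StT E0 (JW (Real.sqrt (2 ^ n)) (1 / 10) (2 ^ n)) (omL i) T k =
      StT E0 (JW D Y₀ Y₁) (omL i) T k := by
  have hY1 : 0 ≤ Y₁ := by rw [hY₁]; positivity
  have m1 : ∀ x : Eis × Eis, x ∈ JW (Real.sqrt (2 ^ n)) (1 / 10) (2 ^ n) ↔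
      IsPrim x.1 ∧ Squarefree x.1 ∧ JC x.2 ∧ (nm (ln x) : ℝ) ≤ 2 ^ n := fun x =>
    StD828.mem_JW (Real.sqrt_nonneg _) (by norm_num) (Real.sq_sqrt (by positivity)).ge
  have m2 : ∀ x : Eis × Eis, x ∈ JW D Y₀ Y₁ ↔
      IsPrim x.1 ∧ Squarefree x.1 ∧ JC x.2 ∧ Y₀ < nm (ln x) ∧ (nm (ln x) : ℝ) ≤ Y₁ := fun x =>
    mem_JW2 (by rw [hD]; exact Real.sqrt_nonneg _) (by rw [hD]; exact (Real.sq_sqrt hY1).ge)
  have h2n : (2 : ℝ) * 2 ^ i ≤ 2 ^ n := by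
    rw [← pow_succ']
    exact pow_le_pow_right₀ (by norm_num) hin
  unfold E2440.StT
  refine Finset.sum_congr_of_eq_on_inter ?_ ?_ (fun _ _ _ => rfl)
  · intro x hx hx'
    by_cases h0 : omL i x = 0
    · rw [h0, zero_mul]
    · exfalso
      obtain ⟨a1, a2, a3, a4⟩ := (m1 x).1 hx
      have hpos : (0 : ℝ) < nm (ln x) := by
        exact_mod_cast nm_pos.2 (mul_ne_zero (JC_ne_zero a3) (pow_ne_zero 2 a1.ne_zero))
      obtain ⟨b1, b2⟩ := log_win hpos (omL_supp h0)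
      exact hx' ((m2 x).2 ⟨a1, a2, a3, by rw [hY₀]; exact b1, by rw [hY₁]; exact b2⟩)
  · intro x hx hx'
    exfalso
    obtain ⟨a1, a2, a3, a4, a5⟩ := (m2 x).1 hx
    exact hx' ((m1 x).2 ⟨a1, a2, a3, a5.trans (by rw [hY₁]; exact h2n)⟩)

/-- **the second moment over the cut** -/
theorem M2_uM (Rw K Ec : ℝ) (F : Eis → ℂ) :
    P1e54.M2 (P1k54.uM Rw K Ec) F = ∑' k : Eis, if IsPrim k ∧ Cut Ec k then
      P1k54.wM Rw ((nm k : ℝ) / K) * ‖F k‖ ^ 2 else 0 := by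
  unfold P1e54.M2 P1k54.uM
  refine tsum_congr fun k => ?_
  have e : E5B71.cutE Ec k ↔ Cut Ec k := Iff.rfl
  by_cases h : IsPrim k ∧ Cut Ec k
  · rw [if_pos h, if_pos ⟨h.1, e.2 h.2⟩]
  · rw [if_neg h, if_neg (fun h' => h ⟨h'.1, e.1 h'.2⟩), zero_mul]

lemma LI_win {i : ℕ} {Y₀ Y₁ : ℝ} (hY₀ : Y₀ = 2 ^ i / 4) (hY₁ : Y₁ = 2 * 2 ^ i) {j : ℕ}
    (hj : j ∈ LI Y₀ Y₁) : Real.log 2 * i - 5 / 2 ≤ j ∧ (j : ℝ) ≤ Real.log 2 * i + 2 := by
  obtain ⟨-, h1, h2⟩ := mem_LI hj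
  have hlog : Real.log 2 < 0.6931471808 := Real.log_two_lt_d9
  have e4 : Real.log 4 = 2 * Real.log 2 := by
    rw [show (4 : ℝ) = 2 ^ 2 by norm_num, Real.log_pow]; norm_num
  have e1 : Real.log ((2 : ℝ) ^ i / 4) = Real.log 2 * i - 2 * Real.log 2 := by
    rw [Real.log_div (by positivity) (by norm_num), Real.log_pow, e4]; ring
  have e2 : Real.log (2 * (2 : ℝ) ^ i) = Real.log 2 * i + Real.log 2 := by
    rw [Real.log_mul (by norm_num) (by positivity), Real.log_pow]; ring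
  rw [hY₀] at h1
  rw [hY₁] at h2
  constructor
  · rw [← Real.exp_add] at h1
    have h3 := Real.log_le_log (by positivity) h1
    rw [Real.log_exp, e1] at h3
    linarith
  · have h3 := Real.log_le_log (Real.exp_pos _) h2
    rw [Real.log_exp, Real.log_mul (Real.exp_pos _).ne' (by positivity), Real.log_exp, e2] at h3
    linarith

/-- **the indices of one level** -/
theorem LI_abs {i : ℕ} {Y₀ Y₁ : ℝ} (hY₀ : Y₀ = 2 ^ i / 4) (hY₁ : Y₁ = 2 * 2 ^ i) {j : ℕ}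
    (hj : j ∈ LI Y₀ Y₁) : |(j : ℝ) - Real.log 2 * i| ≤ 4 := by
  obtain ⟨h1, h2⟩ := LI_win hY₀ hY₁ hj
  rw [abs_le]
  constructor <;> linarith

/-- **their number** -/
theorem LI_card {i : ℕ} {Y₀ Y₁ : ℝ} (hY₀ : Y₀ = 2 ^ i / 4) (hY₁ : Y₁ = 2 * 2 ^ i) :
    (LI Y₀ Y₁).card ≤ 6 := by
  have hsub : LI Y₀ Y₁ ⊆ Finset.Icc (⌈Real.log 2 * i - 5 / 2⌉₊) (⌈Real.log 2 * i - 5 / 2⌉₊ + 4) := by
    intro j hj
    obtain ⟨h1, h2⟩ := LI_win hY₀ hY₁ hj
    rw [Finset.mem_Icc]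
    refine ⟨Nat.ceil_le.2 h1, ?_⟩
    by_contra hc
    have h3 : (⌈Real.log 2 * i - 5 / 2⌉₊ : ℕ) + 5 ≤ j := by omega
    have h4 : ((⌈Real.log 2 * i - 5 / 2⌉₊ : ℕ) : ℝ) + 5 ≤ j := by exact_mod_cast h3
    have h5 := Nat.le_ceil (Real.log 2 * i - 5 / 2)
    linarith
  refine (card_le_card hsub).trans ?_
  rw [Nat.card_Icc]
  omega

end Crest.Agent.R017.RstM290
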