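import Crest.Agent.R017.ET4cx_968
import Crest.Agent.R017.RstM_290

/-!
# Row 17, class E, R8 (helper968): the Gram sum of one level at its own window

* `gram1X` : `gram_allX` at the window `(2 ^ i / 4, 2 * 2 ^ i]`
-/

set_option autoImplicit false
set_option linter.unusedVariables false

noncomputable section

open Finset
open scoped ComplexConjugate Classical ContDiff

namespace Crest.Agent.R017.GrX968

open Crest.Agent.R012 Crest.Agent.R012.Eis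
open Crest.Agent.R012.LS2 (S mem_S bl)
open Crest.Agent.R017.CM106 (CS FS TG)
open Crest.Agent.R017.C70
open Crest.Agent.R017.HB645 (hh)
open Crest.Agent.R017.E1551 (Adm)
open Crest.Agent.R017.E3Kc548 (LI mem_LI)
open Crest.Agent.R017.E3Z548 (FH)
open Crest.Agent.R017.TNj90
open Crest.Agent.R017.E3Hi290 (RN2XF)
open Crest.Agent.R017.PoHx72 (Cls)
open Crest.Agent.R017.ROX744 (PrU)
open Crest.Agent.R017.E2440 (TE StE StT)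
open Crest.Agent.R017.Mode405 (Slp)
open Crest.Agent.R017.PX764 (n6)
open Crest.Agent.R017.R3571 (RMm)
open Crest.Agent.R017.ET490
open Crest.Agent.R017.RstM290
open Crest.Agent.R017.E5L770 (omL lv)
open Crest.Agent.R017.ET4X968

lemma norm_om (i : ℕ) (x : Eis × Eis) : ‖omL i x‖ ≤ 1 := by
  unfold E5L770.omL E5L770.wL FE47.hD
  rw [Complex.norm_real, Real.norm_eq_abs, abs_le]
  have h1 := HBI146.cutR_nonneg (Real.exp (lv x - Real.log 2 * i))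
  have h2 := HBI146.cutR_le_one (Real.exp (lv x - Real.log 2 * i))
  have h3 := HBI146.cutR_nonneg (2 * Real.exp (lv x - Real.log 2 * i))
  have h4 := HBI146.cutR_le_one (2 * Real.exp (lv x - Real.log 2 * i))
  constructor <;> linarith

set_option maxHeartbeats 1000000 in
/-- **the Gram sum of one level at its own window, two classes of frequencies** -/
theorem gram1X {ρ : ℝ} (hρ : 0 < ρ) (hρ1 : ρ ≤ 1) {R0 : ℝ} (hR0 : 0 ≤ R0) (a A₁ : ℕ)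
    (hA₁ : 1 < A₁) {ε J B₂ Lh : ℝ} (hε : 0 < ε) (hJ : 0 ≤ J) (hB₂ : 2 ≤ B₂) (hLh : 0 ≤ Lh) :
    ∃ c C : ℝ, 1 ≤ c ∧ 1 ≤ C ∧ ∀ Z : ℝ, 3 ≤ Z → c * Real.exp 2 ≤ Z →
    ∀ (i n : ℕ), i < n → (2 : ℝ) * 2 ^ i ≤ Z → ∀ (D Y₀ Y₁ : ℝ), Y₀ = 2 ^ i / 4 → Y₁ = 2 * 2 ^ i →
      D = Real.sqrt Y₁ → ∀ (α : Eis → ℂ)
      (E0 Y k p F G MR Qc : ℝ) (m : Eis) (KK : Finset Eis) (hf : ℕ → ℝ → ℝ)
      (u : Eis) (W0 : ℕ → Bool → Eis → Eis → ℝ → ℝ) (Sh : ℝ → ℝ → ℝ → ℝ),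
      u ≠ 0 → (∀ n, α n ≠ 0 → IsCoprime u n) → FS α → (∀ n, α n ≠ 0 → Squarefree n) →
      Adm Y (Real.exp p) R0 α → 1 ≤ Y → Y ≤ Z ^ B₂ →
      IsPrim m → (nm m : ℝ) ≤ Z → 0 ≤ k → Real.exp k ≤ Z →
      (∀ v ∈ KK, IsPrim v ∧ CbF v ∧ ρ * Real.exp k ≤ nm v ∧ (nm v : ℝ) ≤ Real.exp k) →
      1 ≤ E0 → E0 ≤ Z → Real.exp p ≤ Z ^ 5 →
      (∀ j ∈ LI Y₀ Y₁, ∀ δ : ℝ, 0 ≤ δ → Real.log c + hf j δ + 2 * j ≤ k + p) →
      (∀ j ∈ LI Y₀ Y₁, ∀ x y, hf j x ≤ hf j y + Lh * |x - y|) →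
      (∀ j jj d f, Slp a (W0 j jj d f)) →
      (∀ j ∈ LI Y₀ Y₁, ∀ jj, ∀ d ∈ (JW D Y₀ Y₁).image Prod.fst, ∀ f ∈ S E0, ∀ γ π,
        IsPrim γ → IsPrim π → (nm π : ℝ) ≤ c * Z ^ 300 → ∀ P : ℝ, 0 < P →
        (nm γ : ℝ) * n6 γ ^ 2 * ∑ r ∈ (bl P).filter (Cls (PrU u) jj),
          RMm A₁ (fun n => α (d * n)) f γ π r ≤ W0 j jj d f P) →
      0 ≤ F → 0 ≤ MR → 1 ≤ Qc → (Y₁ / Real.exp k ^ 2) ^ (1 / 6 : ℝ) * E0 ^ (1 / 2 : ℝ) ≤ Qc →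
      Y₁ / Real.exp k ≤ Qc →
      JBc Y (c * Real.exp 2 * Y₁) F J Sh α →
      (∀ j ∈ LI Y₀ Y₁, ∀ δ : ℝ, 0 ≤ δ → 2 * δ ≤ Real.log Y₁ →
        LnT Sh k j (hf j δ) p (Real.log E0) δ (Real.log c + 1) G) →
      (∀ j ∈ LI Y₀ Y₁, ∀ d ∈ (JW D Y₀ Y₁).image Prod.fst, ∀ f ∈ S E0,
        FH (Real.exp k) (Real.exp (hf j (Real.log (nm d)))) (Real.exp j) *
          RN2XF c (Real.exp k) (Real.exp j) (Real.exp p)
            (fun d _ => Real.exp (hf j (Real.log (nm d)))) (W0 j) d f ≤ MR / (nm d * nm f)) →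
      ∑ v ∈ KK, ‖StE E0 (JW (Real.sqrt (2 ^ n)) (1 / 10) (2 ^ n)) (omL i) α (m ^ 3 * v)‖ ^ 2 ≤
        C * Qc * Z ^ ε * (F * Real.exp G + MR) := by
  obtain ⟨A, c, C, hc, hC, H⟩ := gram_allX hρ hρ1 hR0 a A₁ hA₁ hε hJ hB₂ hLh
  obtain ⟨Mb, hMb, hOb⟩ := OmL_bd (A + 2)
  refine ⟨c, C * (1 + Mb) ^ 2, hc, one_le_mul_of_one_le_of_one_le hC
    (one_le_pow₀ (by linarith)), ?_⟩
  intro Z hZ hcZ i n hin hYZ D Y₀ Y₁ hY₀ hY₁ hD α E0 Y k p F G MR Qc m KK hf u W0 Sh hu huc hα hsq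
    hadm hY1 hYu hm hmZ hk hkZ hKK hE1 hE0Z hpZ hKX hlip hS hRH hF hMR hQ1 hQ2 hQ3 hjb hln hrn
  have hp : (1 : ℝ) ≤ 2 ^ i := one_le_pow₀ (by norm_num)
  have hY1' : 0 ≤ Y₁ := by rw [hY₁]; positivity
  have key := H (OmL i) Mb hMb (contDiff_OmL i) (fun m hm x => hOb i m hm x) 0 1 (by simp) Z hZ hcZ
    D Y₀ Y₁ (omL i) α E0 Y₁ Y k p F G MR Qc m KK hf u W0 Sh hu huc hα hsq hadm hY1 hYu hm hmZ
    (by rw [hD]; exact Real.sqrt_nonneg _) hY1' (by rw [hY₁]; exact hYZ)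
    (fun x _ => OmL_form i x)
    (fun j _ n hn _ hne => by
      obtain ⟨b1, b2⟩ := OmL_win hn hne
      exact ⟨by rw [hY₀]; exact b1, by rw [hY₁]; exact b2⟩)
    (fun x _ => norm_om i x) hk hkZ hKK hY1' (by rw [hY₁]; exact hYZ)
    (fun x hx => (JW_size hD hY1' hx).2) hE1 hE0Z hpZ hKX hlip hS hRH hF hMR hQ1 hQ2 hQ3 hjb hln
    hrn
  have eL : ∀ v, StE E0 (JW (Real.sqrt (2 ^ n)) (1 / 10) (2 ^ n)) (omL i) α (m ^ 3 * v) =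
      StE E0 (JW D Y₀ Y₁) (omL i) α (m ^ 3 * v) := fun v =>
    StT_win hin hY₀ hY₁ hD E0 (TE α) (m ^ 3 * v)
  simp only [eL]
  refine key.trans (le_of_eq ?_)
  rw [abs_zero, add_zero, one_pow]
  ring

end Crest.Agent.R017.GrX968
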