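import Crest.Agent.R017.TEU_792
import Crest.Agent.R017.TSg_968
import Crest.Agent.R017.SPj_968
import Crest.Agent.R017.GrX1_968
import Crest.Agent.R017.P1Q_904

/-!
# Row 17, class E, R8 (helper968): numbers of one sequence `alX β` for the Gram sum

* `OwnQ`, `ownQ_of` : the own numbers of the triples (near and far claims)
* `S2`, `FE` : the number of `alX β` ; `FE_lip` : slope `3` in the step
* `vn_E` : helper792's `VN` of `alX β` at `FE`
* `rnX_le` : one `R`-number `FH * RN2XF` from the exponents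
-/

set_option autoImplicit false

noncomputable section

open Finset

namespace Crest.Agent.R017.GrX968

open Crest.Agent.R012 Crest.Agent.R012.Eis
open Crest.Agent.R017.Prov71
open Crest.Agent.R017.B770
open Crest.Agent.R017.FE47 (PU cx SM)
open Crest.Agent.R017.ER911 Crest.Agent.R017.SC777
open Crest.Agent.R017.TM708
open Crest.Agent.R017.TK708 (AllT allT_of)
open Crest.Agent.R017.FN708 (Far far3 short_le)
open Crest.Agent.R017.OwA90 (Gt K0 K0_a K0_b K0_c K0_d FarOwn ShOwn NearOwn)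
open Crest.Agent.R017.TEM792 (VN nL)
open Crest.Agent.R017.TEX792
open Crest.Agent.R017.ExP960 (BdX u3 u3')
open Crest.Agent.R017.E4Df372 (alX)
open Crest.Agent.R017.Red848 (red Exc)
open Crest.Agent.R017.XS0298 (S0K)
open Crest.Agent.R017.PX764 (Dk)
open Crest.Agent.R017.P1Q904 (gQ)
open Crest.Agent.R017.E3Z548 (FH)
open Crest.Agent.R017.E3Hi290 (RN2XF)
open Crest.Agent.R017.E3Sx744 (Mxd Mxd_nonneg)
open Crest.Agent.R017.E3Sz579 (Ld Md Ld_nonneg Md_nonneg)
open Crest.Agent.R017.E3T829 (G2)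

/-! ### the numbers -/

/-- **the own numbers of the triples** -/
def OwnQ (s₀ : EF) (d : ℝ) : Prop := ∀ q : Fin 4 → ℝ, (∀ i, 0 ≤ q i) →
  s₀ (q 0) {q 1, q 2, q 3} 0 0 ≤ Gq d (mx3 q) (mn3 q) (q 0) (q 1 + q 2 + q 3)

theorem ownQ_of {d : ℝ} {r s s₀ : EF} (R : ExpRules (7 / 8 + d) r s)
    (Rm : ExpRGFz (7 / 8 + d) r s s₀) (hd : 0 ≤ d) (hd8 : 8 * d ≤ 1) (hN : NearOwn d s₀) :
    OwnQ s₀ d := fun q hq => by
  refine own_gq (allT_of R Rm.toExpS0 hd (by linarith)) ?_ ?_ hN hd hq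
  · intro K v A B C hf h2v
    have := far3 R Rm hd hd8 (m := 0) (a := 0) (by rw [zero_add]; exact hf) le_rfl le_rfl h2v
    have e : 2 * d * (C + 0 + 0) = 2 * d * C := by ring
    linarith
  · intro v z₁ z₂ z₃ hv h1 h2 h3 hs
    have := short_le R Rm.toExpS0 (w := 0) hv h1 h2 h3 le_rfl (by linarith)
    linarith

/-- the second form -/
def S2 (u v n : ℝ) : ℝ := max (v + n + min u (n / 3)) (5 / 3 * n + v / 3)

/-- **the number of `alX β`** : natural list `z, u`, replaced list `u'`, length `n`, bias `s` -/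
def FE (d z u u' n s : ℝ) (v γ : ℝ) : ℝ :=
  max (max (Gq d z u v (max 0 (n - γ))) (S2 u' v (max 0 (n - γ))))
    (2 / 3 * v + 5 / 3 * (n - γ) - max 0 (s - γ))

lemma Gq_lip {d z u v n n' σ : ℝ} (hd : 0 ≤ d) (hd1 : d ≤ 1 / 8) (hσ : 0 ≤ σ) (h : n ≤ n' + σ) :
    Gq d z u v n ≤ Gq d z u v n' + 3 * σ := by
  have hdn : 2 / 3 * d * n ≤ 2 / 3 * d * n' + σ := by
    have h1 : 2 / 3 * d * n ≤ 2 / 3 * d * (n' + σ) :=
      mul_le_mul_of_nonneg_left h (by positivity)
    have h2 : d * σ ≤ 1 / 8 * σ := mul_le_mul_of_nonneg_right hd1 hσ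
    nlinarith
  have hK : K0 v n z ≤ K0 v n' z + 5 / 4 * σ := by
    have h1 := K0_a v n' z
    have h2 := K0_b v n' z
    have h3 := K0_c v n' z
    have h4 := K0_d v n' z
    exact max_le (by linarith) (max_le (by linarith) (max_le (by linarith) (by linarith)))
  unfold Gq
  rw [min_add]
  refine min_le_min ?_ ?_
  · have h1 := le_max_left (max (2 * n') (v + n')) (4 / 3 * n' + (v + K0 v n' z) / 3)
    have h2 := le_max_right (max (2 * n') (v + n')) (4 / 3 * n' + (v + K0 v n' z) / 3)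
    have h3 := (le_max_left (2 * n') (v + n')).trans h1
    have h4 := (le_max_right (2 * n') (v + n')).trans h1
    have : max (max (2 * n) (v + n)) (4 / 3 * n + (v + K0 v n z) / 3) ≤
        max (max (2 * n') (v + n')) (4 / 3 * n' + (v + K0 v n' z) / 3) + 2 * σ :=
      max_le (max_le (by linarith) (by linarith)) (by linarith)
    linarith
  · have h1 := le_max_left (v + n' + min u (n' / 3)) (5 / 3 * n' + v / 3)
    have h2 := le_max_right (v + n' + min u (n' / 3)) (5 / 3 * n' + v / 3)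
    have h3 : min u (n / 3) ≤ min u (n' / 3) + σ := by
      rw [← min_add_add_right]
      exact min_le_min (by linarith) (by linarith)
    exact max_le (by linarith) (by linarith)

lemma S2_lip {u v n n' σ : ℝ} (hσ : 0 ≤ σ) (h : n ≤ n' + σ) : S2 u v n ≤ S2 u v n' + 3 * σ := by
  unfold S2
  have h1 := le_max_left (v + n' + min u (n' / 3)) (5 / 3 * n' + v / 3)
  have h2 := le_max_right (v + n' + min u (n' / 3)) (5 / 3 * n' + v / 3)
  have h3 : min u (n / 3) ≤ min u (n' / 3) + σ := by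
    rw [← min_add_add_right]
    exact min_le_min (by linarith) (by linarith)
  exact max_le (by linarith) (by linarith)

lemma S2_slope {u v σ n : ℝ} (hσ : 0 ≤ σ) : S2 u (v + σ) n ≤ S2 u v n + σ := by
  unfold S2
  have h1 := le_max_left (v + n + min u (n / 3)) (5 / 3 * n + v / 3)
  have h2 := le_max_right (v + n + min u (n / 3)) (5 / 3 * n + v / 3)
  exact max_le (by linarith) (by linarith)

/-- **slope at most `3` in the step** -/
lemma FE_lip {d z u u' n s : ℝ} (hd : 0 ≤ d) (hd1 : d ≤ 1 / 8) (v γ σ : ℝ) (hσ : 0 ≤ σ) :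
    FE d z u u' n s v γ ≤ FE d z u u' n s v (γ + σ) + 3 * σ := by
  have h0 : max 0 (n - γ) ≤ max 0 (n - (γ + σ)) + σ := by
    rcases le_total 0 (n - (γ + σ)) with h | h
    · rw [max_eq_right h]; exact max_le (by linarith) (by linarith)
    · rw [max_eq_left h]; exact max_le (by linarith) (by linarith)
  have h1 := Gq_lip (z := z) (u := u) (v := v) hd hd1 hσ h0
  have h2 := S2_lip (u := u') (v := v) hσ h0
  have h3 : max 0 (s - (γ + σ)) ≤ max 0 (s - γ) := max_le_max le_rfl (by linarith)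
  unfold FE
  have g1 := le_max_left (max (Gq d z u v (max 0 (n - (γ + σ)))) (S2 u' v (max 0 (n - (γ + σ)))))
    (2 / 3 * v + 5 / 3 * (n - (γ + σ)) - max 0 (s - (γ + σ)))
  have g2 := le_max_right (max (Gq d z u v (max 0 (n - (γ + σ)))) (S2 u' v (max 0 (n - (γ + σ)))))
    (2 / 3 * v + 5 / 3 * (n - (γ + σ)) - max 0 (s - (γ + σ)))
  have g3 := (le_max_left (Gq d z u v (max 0 (n - (γ + σ)))) _).trans g1
  have g4 := (le_max_right (Gq d z u v (max 0 (n - (γ + σ)))) _).trans g1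
  have h4 := le_max_left 0 (s - γ)
  have h5 : max 0 (s - (γ + σ)) ≤ max 0 (s - γ) := h3
  have h6 : max 0 (s - γ) ≤ max 0 (s - (γ + σ)) + σ := by
    rcases le_total 0 (s - (γ + σ)) with h | h
    · rw [max_eq_right h]; exact max_le (by linarith) (by linarith)
    · rw [max_eq_left h]; exact max_le (by linarith) (by linarith)
  exact max_le (max_le (by linarith) (by linarith)) (by linarith)

variable {Λ : Type*} {π : Λ → DPar} {h : ℝ → ℝ} {d : ℝ}

/-- **`VN` of `alX β`** -/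
theorem vn_E {c₀ : ℝ} (hpu : PU h c₀) (hP : ∀ lam, (π lam).OK) (hE : ∀ lam, Exc (π lam))
    (hO : OwnQ (ex Dq fun lam => S0K Dk (red (π lam)) h) d)
    {ε : ℝ} (hε : 0 < ε) (K : ℝ) (hK : 1 ≤ K) (lam : Λ) : ∃ M₀ : ℕ,
      ∀ M : ℕ, M₀ ≤ M → ∀ t : Eis, t ∈ FE47.SM (π lam).n → ∃ X₀ : ℝ, 1 < X₀ ∧ ∀ X : ℝ, X₀ ≤ X →
      ∀ H₀ : ℝ, 1 ≤ H₀ → ∀ (a : BdX) (β : Fin 3 → Eis) (s₀ : ℝ), LDX X K H₀ s₀ a β →
      ∀ z u u' : ℝ, (∀ i, (u3 a i).z / Real.log X ≤ z) → (∃ i, (u3 a i).z / Real.log X ≤ u) →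
      (∃ i, (u3' a i).z / Real.log X ≤ u') →
      VN X H₀ M K (alX (π lam) h t a β) (fun v γ => FE d z u u' (nL X (u3 a) β) s₀ v γ + ε) := by
  obtain ⟨M₀, G1⟩ := vn_ptX hpu hP hE (Gq_cont d) hO hε one_pos K hK lam
  refine ⟨M₀, fun M hM t ht => ?_⟩
  obtain ⟨X₀, hX₀, G2'⟩ := G1 M hM t ht
  refine ⟨X₀, hX₀, fun X hX H₀ hH₀ a β s₀ hLD z u u' hz hu hu' => ?_⟩
  refine G2' X hX H₀ hH₀ a β s₀ hLD
    (fun v γ => max (Gq d z u v (max 0 (nL X (u3 a) β - γ)))
      (S2 u' v (max 0 (nL X (u3 a) β - γ))))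
    (fun v γ => max (Gq d z u v (max 0 (nL X (u3 a) β - γ)))
      (S2 u' v (max 0 (nL X (u3 a) β - γ))))
    (fun v σ γ h0 h1 h2 => ?_) fun v γ h1 h2 h3 h4 => ⟨?_, ?_⟩
  · show max (Gq d z u (v + σ) _) (S2 u' (v + σ) _) ≤ max (Gq d z u v _) (S2 u' v _) + σ
    rw [← max_add_add_right]
    exact max_le_max (Gq_slope h1) (S2_slope h1)
  · intro x hx hs
    exact (rhx_gq hz hu x hx hs).trans (le_max_left _ _)
  · intro x hx hs
    refine le_trans ?_ (le_max_right _ _)
    have hs' := hs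
    rw [Fin.sum_univ_three] at hs
    show Gq d (mx3 ![v, x 0, x 1, x 2]) (mn3 ![v, x 0, x 1, x 2]) v (x 0 + x 1 + x 2) ≤ _
    rw [hs]
    unfold Gq
    refine (min_le_right _ _).trans ?_
    unfold S2
    have hm : mn3 ![v, x 0, x 1, x 2] ≤ u' := by
      show min (x 0) (min (x 1) (x 2)) ≤ u'
      obtain ⟨i, hi⟩ := hu'
      have h1 : min (x 0) (min (x 1) (x 2)) ≤ x i := by
        fin_cases i
        · exact min_le_left _ _
        · exact (min_le_right _ _).trans (min_le_left _ _)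
        · exact (min_le_right _ _).trans (min_le_right _ _)
      exact h1.trans ((hx i).2.trans hi)
    exact max_le_max (by linarith [min_le_min_right (max 0 (nL X (u3 a) β - γ) / 3) hm]) le_rfl

end Crest.Agent.R017.GrX968
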