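import Crest.Agent.R017.SPb_521
import Crest.Agent.R017.ET4cx_968

/-!
# Row 17, class E, R8 (helper968): the `R`-number at one pair, two classes of frequencies

* `rn_ptX` : `FH * RN2XF` from the exponents of the two classes
-/

set_option autoImplicit false
set_option linter.unusedVariables false

noncomputable section

open Finset
open scoped Classical ComplexConjugate ContDiff

namespace Crest.Agent.R017.GrX968

open Crest.Agent.R012 Crest.Agent.R012.Eis
open Crest.Agent.R012.LS2 (S mem_S bl)
open Crest.Agent.R017.E1551 (nmpos Adm)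
open Crest.Agent.R017.E3Z548 (FH FH_nonneg)
open Crest.Agent.R017.E3Hi290 (RN2XF)
open Crest.Agent.R017.E3Sx744 (Mxd)
open Crest.Agent.R017.E3Sz579 (Ld Md)
open Crest.Agent.R017.P1Q904 (gQ)
open Crest.Agent.R017.SP521

lemma Mxd_le {c k v h p : ℝ} (hc : 1 ≤ c) {d : Eis} (hd : d ≠ 0) :
    Mxd c (Real.exp k) (Real.exp v) (Real.exp h) (Real.exp p) d =
      c * Real.exp ((h + 2 * v - k - Real.log (nm d)) - 2 / 3 * (p + v + h - k)) := by
  have e1 : Mxd c (Real.exp k) (Real.exp v) (Real.exp h) (Real.exp p) d =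
      c * Ld (Real.exp k) (Real.exp v) (Real.exp h) d *
        (Real.exp p * Real.exp v * Real.exp h / Real.exp k) ^ (-(2 / 3) : ℝ) := rfl
  rw [e1, Ld_exp k v h hd, I_exp, rpe, mul_assoc c, ← Real.exp_add]
  congr 2
  ring

/-- **the `R`-number at one pair, two classes** -/
theorem rn_ptX {c k v h p w w' m : ℝ} (hc : 1 ≤ c) {d f : Eis} (hd : d ≠ 0) (hf : f ≠ 0)
    {Hf : Eis → Eis → ℝ} (hHf : Hf d f = Real.exp h)
    {W : Bool → Eis → Eis → ℝ → ℝ}
    (hW0 : ∀ jj, 0 ≤ W jj d f (c * (Real.exp p * Real.exp v * Real.exp h / Real.exp k)))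
    (hW : W false d f (c * (Real.exp p * Real.exp v * Real.exp h / Real.exp k)) ≤ Real.exp w)
    (hW' : W true d f (c * (Real.exp p * Real.exp v * Real.exp h / Real.exp k)) ≤ Real.exp w')
    (hm : 0 ≤ h + 2 * v - k - Real.log (nm d) →
      2 / 3 * k - (h + v) / 3 + 5 / 3 * Real.log (nm d) + 2 * Real.log (nm f) +
        gQ (h + 2 * v - k - Real.log (nm d)) (p + v + h - k) + w ≤ m)
    (hm' : 0 ≤ h + 2 * v - k - Real.log (nm d) →
      2 / 3 * k - (h + v) / 3 + 5 / 3 * Real.log (nm d) + 2 * Real.log (nm f) +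
        ((h + 2 * v - k - Real.log (nm d)) - 2 / 3 * (p + v + h - k)) + w' ≤ m) :
    FH (Real.exp k) (Real.exp h) (Real.exp v) *
      RN2XF c (Real.exp k) (Real.exp v) (Real.exp p) Hf W d f ≤
      (3 + 2 * c) * Real.exp m / (nm d * nm f) := by
  have nd : (0 : ℝ) < nm d := nmpos hd
  have nf : (0 : ℝ) < nm f := nmpos hf
  have hc3 : 0 ≤ 3 + c := by linarith
  rw [le_div_iff₀ (by positivity)]
  unfold E3Hi290.RN2XF
  rw [hHf]
  by_cases hL : 1 ≤ Ld (Real.exp k) (Real.exp v) (Real.exp h) d
  · rw [if_pos hL, if_pos hL]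
    have hL' : 0 ≤ h + 2 * v - k - Real.log (nm d) := by
      rw [Ld_exp k v h hd] at hL
      have h0 := Real.log_le_log one_pos hL
      rwa [Real.log_one, Real.log_exp] at h0
    have hm1 := hm hL'
    have hm2 := hm' hL'
    have g1 := G2_le (p := p) (k := k) (v := v) (h := h) hc hd
    have g2 : E3T829.G2 (Ld (Real.exp k) (Real.exp v) (Real.exp h) d)
        (Md c (Real.exp k) (Real.exp v) (Real.exp h) (Real.exp p) d)
        (Real.exp p * Real.exp v * Real.exp h / Real.exp k) *
          W false d f (c * (Real.exp p * Real.exp v * Real.exp h / Real.exp k)) ≤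
        ((3 + c) * Real.exp (gQ (h + 2 * v - k - Real.log (nm d)) (p + v + h - k))) *
          Real.exp w := mul_le_mul g1 hW (hW0 false) (by positivity)
    have g3 : Mxd c (Real.exp k) (Real.exp v) (Real.exp h) (Real.exp p) d *
          W true d f (c * (Real.exp p * Real.exp v * Real.exp h / Real.exp k)) ≤
        (c * Real.exp ((h + 2 * v - k - Real.log (nm d)) - 2 / 3 * (p + v + h - k))) *
          Real.exp w' := by
      rw [Mxd_le hc hd]
      exact mul_le_mul_of_nonneg_left hW' (by positivity)
    rw [ET490.FH_exp]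
    have e1 : (nm d : ℝ) ^ (2 / 3 : ℝ) = Real.exp (2 / 3 * Real.log (nm d)) := by
      nth_rw 1 [← Real.exp_log nd]
      rw [rpe]
      congr 1
      ring
    rw [e1]
    have key : ∀ g y : ℝ, Real.exp (2 / 3 * k - (h + v) / 3) *
        (Real.exp (2 / 3 * Real.log (nm d)) * nm f * (Real.exp g * Real.exp y)) * (nm d * nm f) =
        Real.exp (2 / 3 * k - (h + v) / 3 + 5 / 3 * Real.log (nm d) +
            2 * Real.log (nm f) + g + y) := by
      intro g y
      have e2 : 2 / 3 * k - (h + v) / 3 + 5 / 3 * Real.log (nm d) +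
          2 * Real.log (nm f) + g + y = (2 / 3 * k - (h + v) / 3) + 2 / 3 * Real.log (nm d) +
            Real.log (nm d) + Real.log (nm f) + Real.log (nm f) + g + y := by ring
      rw [e2]
      simp only [Real.exp_add]
      rw [Real.exp_log nd, Real.exp_log nf]
      ring
    calc Real.exp (2 / 3 * k - (h + v) / 3) * (Real.exp (2 / 3 * Real.log (nm d)) * nm f *
          (E3T829.G2 (Ld (Real.exp k) (Real.exp v) (Real.exp h) d)
            (Md c (Real.exp k) (Real.exp v) (Real.exp h) (Real.exp p) d)
            (Real.exp p * Real.exp v * Real.exp h / Real.exp k) *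
              W false d f (c * (Real.exp p * Real.exp v * Real.exp h / Real.exp k)) +
            Mxd c (Real.exp k) (Real.exp v) (Real.exp h) (Real.exp p) d *
              W true d f (c * (Real.exp p * Real.exp v * Real.exp h / Real.exp k)))) *
            (nm d * nm f)
        ≤ Real.exp (2 / 3 * k - (h + v) / 3) * (Real.exp (2 / 3 * Real.log (nm d)) * nm f *
          (((3 + c) * Real.exp (gQ (h + 2 * v - k - Real.log (nm d)) (p + v + h - k))) *
            Real.exp w +
            (c * Real.exp ((h + 2 * v - k - Real.log (nm d)) - 2 / 3 * (p + v + h - k))) *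
            Real.exp w')) * (nm d * nm f) := by gcongr
      _ = (3 + c) * (Real.exp (2 / 3 * k - (h + v) / 3) *
          (Real.exp (2 / 3 * Real.log (nm d)) * nm f *
          (Real.exp (gQ (h + 2 * v - k - Real.log (nm d)) (p + v + h - k)) * Real.exp w)) *
            (nm d * nm f)) +
          c * (Real.exp (2 / 3 * k - (h + v) / 3) *
          (Real.exp (2 / 3 * Real.log (nm d)) * nm f *
          (Real.exp ((h + 2 * v - k - Real.log (nm d)) - 2 / 3 * (p + v + h - k)) *
            Real.exp w')) * (nm d * nm f)) := by ring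
      _ ≤ (3 + c) * Real.exp m + c * Real.exp m := by
          rw [key, key]
          have a1 := mul_le_mul_of_nonneg_left (Real.exp_le_exp.2 hm1) hc3
          have a2 := mul_le_mul_of_nonneg_left (Real.exp_le_exp.2 hm2)
            (show 0 ≤ c by linarith)
          linarith
      _ = (3 + 2 * c) * Real.exp m := by ring
  · rw [if_neg hL, if_neg hL]
    simp only [zero_mul, mul_zero, add_zero]
    positivity

end Crest.Agent.R017.GrX968
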