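import Crest.Agent.R012.PSer_47
import Crest.Agent.R012.LS2Spec_381

/-!
# Row 17, E3 for the exceptional class: classes of frequencies which differ by cubes (helper72)

`Cub Pr` : any two frequencies with `Pr` differ by a cube; `card_cub` : there are at most
`18 Z^(1/3)` of them in `bl Z`, whatever the twist `g`.
-/

set_option autoImplicit false

noncomputable section

open scoped Classical

namespace Crest.Agent.R017.PoHx72

open Crest.Agent.R012 Crest.Agent.R012.Eis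
open Crest.Agent.R012.LS2 (bl mem_bl)

lemma nm_lt_of_mul {p n : Eis} (hp : Prime p) (hn : n ≠ 0) : nm n < nm (p * n) := by
  rw [nm_mul]
  have h1 : 0 < nm p := nm_pos.mpr hp.ne_zero
  have h2 : nm p ≠ 1 := fun h => hp.not_isUnit (isUnit_iff.mpr h)
  have h3 : 0 < nm n := nm_pos.mpr hn
  nlinarith [show 2 ≤ nm p by omega]

/-- `k = n m³` with `n` cubefree -/
lemma exists_cubefree : ∀ (N : ℕ) {k : Eis}, nm k ≤ N → k ≠ 0 →
    ∃ n m, k = n * m ^ 3 ∧ n ≠ 0 ∧ m ≠ 0 ∧ ∀ p, Prime p → ¬ p ^ 3 ∣ n := by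
  intro N
  induction N with
  | zero =>
    intro k hk hk0
    exact absurd (nm_eq_zero.mp (Nat.le_zero.mp hk)) hk0
  | succ N ih =>
    intro k hk hk0
    by_cases h : ∀ p, Prime p → ¬ p ^ 3 ∣ k
    · exact ⟨k, 1, by ring, hk0, one_ne_zero, h⟩
    · push Not at h
      obtain ⟨p, hp, c, rfl⟩ := h
      have hc0 : c ≠ 0 := right_ne_zero_of_mul hk0
      have h1 := nm_lt_of_mul hp (mul_ne_zero (pow_ne_zero 2 hp.ne_zero) hc0)
      have h2 : nm c ≤ nm (p ^ 2 * c) := by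
        rw [nm_mul]
        exact Nat.le_mul_of_pos_left _ (nm_pos.mpr (pow_ne_zero 2 hp.ne_zero))
      have e : p * (p ^ 2 * c) = p ^ 3 * c := by ring
      rw [e] at h1
      obtain ⟨n, m, rfl, hn, hm, hcf⟩ := ih (by omega) hc0
      exact ⟨n, p * m, by ring, hn, mul_ne_zero hp.ne_zero hm, hcf⟩

lemma pow_dvd_cancel {p c s : Eis} (hp : Prime p) {a b : ℕ} (h : p ^ (a + b) ∣ p ^ a * c) :
    p ^ b ∣ c := by
  rw [pow_add, mul_dvd_mul_iff_left (pow_ne_zero _ hp.ne_zero)] at h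
  exact h

/-- `n` cubefree and `n² ∣ s³` imply `n ∣ s` -/
lemma dvd_of_sq_dvd_cube : ∀ (N : ℕ) {n s : Eis}, nm n ≤ N → n ≠ 0 →
    (∀ p, Prime p → ¬ p ^ 3 ∣ n) → n ^ 2 ∣ s ^ 3 → n ∣ s := by
  intro N
  induction N with
  | zero =>
    intro n s hk hk0 _ _
    exact absurd (nm_eq_zero.mp (Nat.le_zero.mp hk)) hk0
  | succ N ih =>
    intro n s hN hn0 hcf hd
    by_cases hu : IsUnit n
    · exact hu.dvd
    obtain ⟨p, hpi, hpn⟩ := WfDvdMonoid.exists_irreducible_factor hu hn0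
    have hp : Prime p := hpi.prime
    obtain ⟨c, hc, hnd⟩ := (FiniteMultiplicity.of_prime_left hp hn0).exists_eq_pow_mul_and_not_dvd
    set e := multiplicity p n with he
    have he1 : 1 ≤ e := by
      by_contra h0
      have : e = 0 := by omega
      rw [this, pow_zero, one_mul] at hc
      rw [hc] at hpn
      exact hnd hpn
    have he2 : e ≤ 2 := by
      by_contra h0
      apply hcf p hp
      rw [hc]
      exact (pow_dvd_pow p (by omega)).trans (dvd_mul_right _ _)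
    have hc0 : c ≠ 0 := by
      rintro rfl
      exact hnd (dvd_zero p)
    have hps : p ∣ s := by
      apply hp.dvd_of_dvd_pow (n := 3)
      exact (hpn.trans (dvd_pow_self n (by norm_num))).trans hd
    have hpe : p ^ e ∣ s := by
      interval_cases h : e
      · simpa using hps
      · obtain ⟨s', rfl⟩ := hps
        have h4 : p ^ (3 + 1) ∣ p ^ 3 * s' ^ 3 := by
          have h5 : p ^ 4 ∣ n ^ 2 := by
            rw [hc]
            exact ⟨c ^ 2, by ring⟩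
          have h6 : (p * s') ^ 3 = p ^ 3 * s' ^ 3 := by ring
          rw [← h6]
          exact h5.trans hd
        have h7 : p ^ 1 ∣ s' ^ 3 := pow_dvd_cancel (s := s') hp h4
        rw [pow_one] at h7
        obtain ⟨t, rfl⟩ := hp.dvd_of_dvd_pow h7
        exact ⟨t, by ring⟩
    obtain ⟨s', rfl⟩ := hpe
    have hd2 : c ^ 2 ∣ p ^ e * s' ^ 3 := by
      rw [hc] at hd
      have e1 : (p ^ e * c) ^ 2 = p ^ (e * 2) * c ^ 2 := by rw [mul_pow, pow_mul]
      have e2 : (p ^ e * s') ^ 3 = p ^ (e * 2) * (p ^ e * s' ^ 3) := by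
        rw [mul_pow, ← pow_mul, ← mul_assoc, ← pow_add]
        congr 2
      rw [e1, e2, mul_dvd_mul_iff_left (pow_ne_zero _ hp.ne_zero)] at hd
      exact hd
    have hcop : IsCoprime (c ^ 2) (p ^ e) :=
      (((hp.irreducible.coprime_iff_not_dvd).mpr hnd).symm).pow
    have hd3 : c ^ 2 ∣ s' ^ 3 := hcop.dvd_of_dvd_mul_left hd2
    have hcn : nm c ≤ N := by
      have h1 := nm_lt_of_mul hp hc0
      have h2 : nm (p * c) ≤ nm n := by
        rw [hc, nm_mul, nm_mul, nm_pow]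
        gcongr
        calc nm p = nm p ^ 1 := (pow_one _).symm
          _ ≤ nm p ^ e := Nat.pow_le_pow_right (nm_pos.mpr hp.ne_zero) he1
      omega
    have h8 := ih hcn hc0 (fun q hq h9 => hcf q hq (by
      rw [hc]; exact h9.trans (dvd_mul_left _ _))) hd3
    rw [hc]
    exact mul_dvd_mul_left _ h8


/-- any two frequencies of the class differ by a cube -/
def Cub (Pr : Eis → Prop) : Prop :=
  ∀ H H' : Eis, H ≠ 0 → H' ≠ 0 → Pr H → Pr H' → ∃ t, H * H' ^ 2 = t ^ 3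

lemma Cub.false : Cub fun _ => False := fun _ _ _ _ h => h.elim

/-- twisting by a fixed element -/
lemma Cub.mul {Pr : Eis → Prop} (h : Cub Pr) {x : Eis} (hx : x ≠ 0) :
    Cub fun H => Pr (H * x) := by
  intro H H' h0 h0' hp hp'
  obtain ⟨t, ht⟩ := h _ _ (mul_ne_zero h0 hx) (mul_ne_zero h0' hx) hp hp'
  have h1 : x ^ 3 ∣ t ^ 3 := by
    rw [← ht]
    exact ⟨H * H' ^ 2, by ring⟩
  obtain ⟨s, rfl⟩ := (UniqueFactorizationMonoid.pow_dvd_pow_iff_dvd (n := 3) (by norm_num)).mp h1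
  refine ⟨s, ?_⟩
  have hx3 : (x ^ 3 : Eis) ≠ 0 := pow_ne_zero _ hx
  apply mul_left_cancel₀ hx3
  linear_combination ht

/-- the cubes -/
lemma Cub.cube : Cub fun H => ∃ c, H = c ^ 3 := by
  rintro _ _ _ _ ⟨c, rfl⟩ ⟨c', rfl⟩
  exact ⟨c * c' ^ 2, by ring⟩

/-- the number of frequencies of the class -/
theorem card_cub0 {Pr : Eis → Prop} (hPr : Cub Pr) {H : ℕ} (hH : 1 ≤ H)
    (S : Finset Eis) (hS : ∀ k ∈ S, k ∈ ball H ∧ k ≠ 0 ∧ Pr k) :
    (S.card : ℝ) ≤ 18 * (H : ℝ) ^ (1 / 3 : ℝ) := by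
  rcases S.eq_empty_or_nonempty with rfl | ⟨k0, hk0⟩
  · simp only [Finset.card_empty, Nat.cast_zero]; positivity
  obtain ⟨-, h0, hp0⟩ := hS k0 hk0
  obtain ⟨n, m, rfl, hn, hm, hcf⟩ := exists_cubefree _ le_rfl h0
  set R : ℕ := ⌊(H : ℝ) ^ (1 / 3 : ℝ)⌋₊ with hR
  have hH1 : (1 : ℝ) ≤ H := by exact_mod_cast hH
  have hR1 : 1 ≤ R := by
    rw [hR, Nat.one_le_floor_iff]
    exact Real.one_le_rpow hH1 (by norm_num)
  have hsub : S ⊆ (ball R).image (fun z => n * z ^ 3) := by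
    intro k hk
    obtain ⟨hkH, hk0', hpk⟩ := hS k hk
    obtain ⟨t, ht⟩ := hPr k _ hk0' h0 hpk hp0
    have h1 : (m ^ 2) ^ 3 ∣ t ^ 3 := by
      rw [← ht]
      exact ⟨k * n ^ 2, by ring⟩
    have h2 : m ^ 2 ∣ t :=
      (UniqueFactorizationMonoid.pow_dvd_pow_iff_dvd (n := 3) (by norm_num)).mp h1
    obtain ⟨s, rfl⟩ := h2
    have h3 : k * n ^ 2 = s ^ 3 := by
      have hm6 : (m ^ 6 : Eis) ≠ 0 := pow_ne_zero _ hm
      apply mul_left_cancel₀ hm6
      linear_combination ht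
    have h4 : n ^ 2 ∣ s ^ 3 := ⟨k, by rw [← h3]; ring⟩
    obtain ⟨z, rfl⟩ := dvd_of_sq_dvd_cube _ le_rfl hn hcf h4
    have h5 : k = n * z ^ 3 := by
      have hn2 : (n ^ 2 : Eis) ≠ 0 := pow_ne_zero _ hn
      apply mul_left_cancel₀ hn2
      linear_combination h3
    rw [Finset.mem_image]
    refine ⟨z, ?_, h5.symm⟩
    rw [mem_ball, hR]
    apply Nat.le_floor
    rw [mem_ball] at hkH
    have h6 : nm z ^ 3 ≤ H := by
      refine le_trans ?_ hkH
      rw [h5, nm_mul, nm_pow]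
      exact Nat.le_mul_of_pos_left _ (nm_pos.mpr hn)
    have h7 : ((nm z : ℝ)) ^ 3 ≤ H := by exact_mod_cast h6
    calc (nm z : ℝ) = ((nm z : ℝ) ^ (3 : ℕ)) ^ (1 / 3 : ℝ) := by
          rw [← Real.rpow_natCast, ← Real.rpow_mul (by positivity)]
          norm_num
      _ ≤ (H : ℝ) ^ (1 / 3 : ℝ) := by
          apply Real.rpow_le_rpow (by positivity) h7 (by norm_num)
  have h8 : S.card ≤ 18 * R :=
    (Finset.card_le_card hsub).trans (Finset.card_image_le.trans (PSer47.card_ball_le hR1))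
  calc (S.card : ℝ) ≤ ((18 * R : ℕ) : ℝ) := by exact_mod_cast h8
    _ = 18 * (R : ℝ) := by push_cast; ring
    _ ≤ 18 * (H : ℝ) ^ (1 / 3 : ℝ) := by
        gcongr
        exact Nat.floor_le (by positivity)

/-- the number of frequencies `k * g` of the class, `k ∈ bl Z` -/
theorem card_cub {Pr : Eis → Prop} (hPr : Cub Pr) {g : Eis} (hg : g ≠ 0) {Z : ℝ} (hZ : 1 ≤ Z) :
    (((bl Z).filter (fun k => Pr (k * g))).card : ℝ) ≤ 18 * Z ^ (1 / 3 : ℝ) := by
  have hZ0 : 0 ≤ Z := by linarith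
  have h1 : 1 ≤ ⌊Z⌋₊ := by rwa [Nat.one_le_floor_iff]
  refine (card_cub0 (hPr.mul hg) h1 _ fun k hk => ?_).trans ?_
  · rw [Finset.mem_filter] at hk
    have h2 := (mem_bl hZ0).1 hk.1
    exact ⟨mem_ball.mpr (Nat.le_floor h2.2), h2.1, hk.2⟩
  · gcongr
    exact Nat.floor_le hZ0

end Crest.Agent.R017.PoHx72
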