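import Crest.Agent.R017.XVNb_792
import Crest.Agent.R017.ExT3_764
import Crest.Agent.R017.ExRed4_848
import Crest.Agent.R017.E4yf_372
import Crest.Agent.R017.RX2_241

/-!
# Row 17, T-numbers, class E : `VN` of `alX` from the claims of the children (helper792)

* `pc_Pt_red` : the twisted pieces through the reduced data
* `xN`, `alX_eq` : 372's `alX` is a twist of the untwisted difference `xN` at the reduced data
* `bias_xN` : the bias of the subsequences of `xN` (764's `bias_al`)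
* `vf_xN` : their cube-free moments from the `Dk`-claims of the two shapes
* **`vn_alX`**, **`adm_alX`**
-/

set_option autoImplicit false
set_option linter.unusedVariables false
set_option linter.unusedSectionVars false

noncomputable section

open scoped ComplexConjugate

namespace Crest.Agent.R017.TEX792

open Crest.Agent.R012 Crest.Agent.R012.Eis
open Crest.Agent.R012.LS2 (S mem_S bl mem_bl)
open Crest.Agent.R012.Weight600 (pw osc norm_osc)
open Crest.Agent.R012.Div277 (tau tau_le_rpow)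
open Crest.Agent.R017.CM106 (TG FS)
open Crest.Agent.R017.HP842 (Pc pc Ker Kg Tu mem_Tu card_Tu_le al sqc)
open Crest.Agent.R017.FE47 (PU cx)
open Crest.Agent.R017.Prov71
open Crest.Agent.R017.B770
open Crest.Agent.R017.End699 (prin0)
open Crest.Agent.R017.E1551 (tws sg Adm)
open Crest.Agent.R017.Rough381 (VF sh sh_OK)
open Crest.Agent.R017.TEL792 (PM FS_PM)
open Crest.Agent.R017.E5k54 (alb)
open Crest.Agent.R017.E5B71 (Pt)
open Crest.Agent.R017.I1146 (tw3 Dom dom_tw ds ChN LN cN)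
open Crest.Agent.R017.I1K764 (SNK)
open Crest.Agent.R017.LegK545 (VK VK_Kg)
open Crest.Agent.R017.TEM792 (nm_pos_r VN Xn Xn_pos Adm_alb nL)
open Crest.Agent.R017.ExP960 (BdX stz u3 u3' ph ph' norm_ph norm_ph' oc)
open Crest.Agent.R017.E4Df372 (alX f3')
open Crest.Agent.R017.Red848 (red Sh Exc exists_sh red_ok)
open Crest.Agent.R017.P1f54 (k1 norm_k1_le)
open Crest.Agent.R017.VFa436 (tsh tsh_OK alb_tws nm_prodF)
open Crest.Agent.R017.ExT764 (Shf shY xA zeP bias_al)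
open Crest.Agent.R017.ExD791 (Mg)
open Crest.Agent.R017.RX241 (Md Bs Bs_le VF_x_le fs_ts)
open Crest.Agent.R017.PX764 (Dk pC_pos md)

/-- **the twisted pieces through the reduced data** -/
lemma pc_Pt_red {P : DPar} (hP : P.OK) {k₀ : Eis} (hs : Sh P k₀) (h : ℝ → ℝ) (t : Eis) (p : Pq)
    (m : Eis) : pc h (Pt P t p) m = sy (t * k₀ ^ 2) m * pc h (p.pc (red P)) m := by
  rw [pc_Pt, Red848.pc_red hs hP.φ hP.ψ]
  by_cases hb : IsPrim m ∧ IsCoprime m P.n
  · rw [Char766.sy_mul_left hb.1, Char766.sy_pow_left hb.1]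
    linear_combination (-(sy t m * pc h (p.pc P) m)) * hs.cube hb.1 hb.2
  · rw [Red848.pc_zero hP.φ hP.ψ h p hb]; ring

/-- the unimodular factor of the pair -/
def zeX (a : BdX) : ℂ :=
  osc (a.us 2).t (-(a.zs 2 - (a.us 2).z)) * osc (a.us 3).t (a.zs 2 - (a.us 2).z)

lemma norm_zeX (a : BdX) : ‖zeX a‖ = 1 := by
  unfold zeX
  rw [norm_mul, norm_osc, norm_osc, one_mul]

lemma ph_zeX {a : BdX} (ha : a.ok) : ph' a = ph a * zeX a := by
  have e2 : ph a = osc (a.us 2).t (-(a.us 2).z) * osc (a.us 3).t (-(a.us 3).z) := rfl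
  have e3 : ph' a = osc (a.us 2).t (-a.zs 2) * osc (a.us 3).t (-a.zs 3) := rfl
  have e4 : -a.zs 2 = -(a.us 2).z + -(a.zs 2 - (a.us 2).z) := by ring
  have e5 : -a.zs 3 = -(a.us 3).z + (a.zs 2 - (a.us 2).z) := by
    have := ha.s23
    linarith
  rw [e2, e3, e4, e5, Weight600.osc_add_right, Weight600.osc_add_right]
  unfold zeX
  ring

/-- the untwisted difference of the two shapes -/
def xN (h : ℝ → ℝ) (P : DPar) (a : BdX) (β : Fin 3 → Eis) (n : Eis) : ℂ :=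
  alb (fun i => pc h ((u3 a i).pc P)) β n - zeX a * alb (fun i => pc h ((u3' a i).pc P)) β n

/-- **`alX` through the reduced data** -/
theorem alX_eq {P : DPar} (hP : P.OK) {k₀ : Eis} (hs : Sh P k₀) (h : ℝ → ℝ) (t : Eis) {a : BdX}
    (ha : a.ok) {β : Fin 3 → Eis} (hβ : ∀ i, IsPrim (β i)) :
    alX P h t a β = fun m => ph a * sy (t * k₀ ^ 2) (∏ i, β i) *
      tw3 (t * k₀ ^ 2) (xN h (red P) a β) m := by
  have e1 : alb (E4U164.f3 P h t a.toBd) β = fun m => sy (t * k₀ ^ 2) (∏ i, β i) *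
      tw3 (t * k₀ ^ 2) (alb (fun i => pc h ((u3 a i).pc (red P))) β) m :=
    alb_tw (f := fun i => pc h ((u3 a i).pc (red P))) (fun i m hm => pc_prim' hm)
      (fun i m => pc_Pt_red hP hs h t (u3 a i) m) hβ
  have e2 : alb (f3' P h t a) β = fun m => sy (t * k₀ ^ 2) (∏ i, β i) *
      tw3 (t * k₀ ^ 2) (alb (fun i => pc h ((u3' a i).pc (red P))) β) m :=
    alb_tw (f := fun i => pc h ((u3' a i).pc (red P))) (fun i m hm => pc_prim' hm)
      (fun i m => pc_Pt_red hP hs h t (u3' a i) m) hβ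
  funext m
  unfold E4Df372.alX P1X960.cmb
  rw [e1, e2]
  show ph a * (sy (t * k₀ ^ 2) (∏ i, β i) * tw3 (t * k₀ ^ 2) _ m) +
    -ph' a * (sy (t * k₀ ^ 2) (∏ i, β i) * tw3 (t * k₀ ^ 2) _ m) = _
  rw [ph_zeX ha]
  unfold I1146.tw3 xN
  ring

/-! ### the bias -/

section bias

variable {P : DPar} {h : ℝ → ℝ} {a : BdX} {β : Fin 3 → Eis}

/-- the children of the first shape -/
def cS (P : DPar) (a : BdX) (β x : Fin 3 → Eis) (t : ℝ) (i : Fin 3) : Pc :=
  tsh t (sh ((u3 a i).pc P) (β i * x i))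

/-- the children of the second shape -/
def cS' (P : DPar) (a : BdX) (β x : Fin 3 → Eis) (t : ℝ) (i : Fin 3) : Pc :=
  tsh t (sh ((u3' a i).pc P) (β i * x i))

lemma shf_cS (ha : a.ok) (β x : Fin 3 → Eis) (t : ℝ) :
    Shf (cS P a β x t) (cS' P a β x t) 0 1 (a.zs 2 - (a.us 2).z) where
  ne := by decide
  e1 := by
    show (⟨_, _, Real.exp (a.zs 2) / nm (β 0 * x 0), _⟩ : Pc) =
      ⟨_, _, Real.exp (a.us 2).z / nm (β 0 * x 0) * Real.exp (a.zs 2 - (a.us 2).z), _⟩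
    have e : Real.exp (a.us 2).z / nm (β 0 * x 0) * Real.exp (a.zs 2 - (a.us 2).z) =
        Real.exp (a.zs 2) / nm (β 0 * x 0) := by
      rw [div_mul_eq_mul_div, ← Real.exp_add]
      congr 2
      ring
    rw [e]
    rfl
  e2 := by
    show (⟨_, _, Real.exp (a.zs 3) / nm (β 1 * x 1), _⟩ : Pc) =
      ⟨_, _, Real.exp (a.us 3).z / nm (β 1 * x 1) * Real.exp (-(a.zs 2 - (a.us 2).z)), _⟩
    have e : Real.exp (a.us 3).z / nm (β 1 * x 1) * Real.exp (-(a.zs 2 - (a.us 2).z)) =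
        Real.exp (a.zs 3) / nm (β 1 * x 1) := by
      rw [div_mul_eq_mul_div, ← Real.exp_add]
      congr 2
      have := ha.s23
      linarith
    rw [e]
    rfl
  e3 i h0 h1 := by
    fin_cases i
    · exact absurd rfl h0
    · exact absurd rfl h1
    · rfl

lemma zeP_cS (β x : Fin 3 → Eis) (t : ℝ) :
    zeP (cS P a β x t 0) (cS P a β x t 1) (a.zs 2 - (a.us 2).z) = zeX a := by
  have h1 : Weight600.osc t (-(a.zs 2 - (a.us 2).z)) * Weight600.osc t (a.zs 2 - (a.us 2).z) =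
      1 := by
    rw [Weight600.osc_neg_right, mul_comm, Weight600.osc_mul_conj]
  show osc ((a.us 2).t + t) (-(a.zs 2 - (a.us 2).z)) * osc ((a.us 3).t + t)
    (a.zs 2 - (a.us 2).z) = _
  rw [Weight600.osc_add_left, Weight600.osc_add_left]
  unfold zeX
  linear_combination (osc (a.us 2).t (-(a.zs 2 - (a.us 2).z)) *
    osc (a.us 3).t (a.zs 2 - (a.us 2).z)) * h1

lemma k1_cS (β x : Fin 3 → Eis) (g : Eis) :
    k1 (fun i => (u3' a i).pc P) β x g = k1 (fun i => (u3 a i).pc P) β x g := by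
  unfold P1f54.k1
  split_ifs with h1
  · refine Finset.prod_congr rfl fun i _ => ?_
    fin_cases i <;> rfl
  · rfl

/-- **the subsequences of the difference** -/
theorem xN_tws (hP : P.OK) (ha : a.ok) (hβ : ∀ i, IsPrim (β i)) {g : Eis} (hg : IsPrim g)
    (hgs : Squarefree g) (t : ℝ) (q : Eis) :
    PM q (tws (sg (xN h P a β) g) t) = fun m => ∑ x ∈ Tu (Fin 3) g,
      k1 (fun i => (u3 a i).pc P) β x g *
        xA h ((∏ i, β i) * g * q) (cS P a β x t) (cS' P a β x t) 0 1 (a.zs 2 - (a.us 2).z) m := by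
  have h1 := alb_tws (h := h) (s := fun i => (u3 a i).pc P) (fun i => Pq.ok hP _) hβ hg hgs t q
  have h2 := alb_tws (h := h) (s := fun i => (u3' a i).pc P) (fun i => Pq.ok hP _) hβ hg hgs t q
  funext m
  have h3 := congrFun h1 m
  have h4 := congrFun h2 m
  beta_reduce at h3 h4
  have e0 : PM q (tws (sg (xN h P a β) g) t) m =
      tws (sg (alb (fun i => pc h ((u3 a i).pc P)) β) g) t m * prin0 q m -
        zeX a * (tws (sg (alb (fun i => pc h ((u3' a i).pc P)) β) g) t m * prin0 q m) := by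
    show (alb (fun i => pc h ((u3 a i).pc P)) β (g * m) -
      zeX a * alb (fun i => pc h ((u3' a i).pc P)) β (g * m)) * pw t (nm m) * prin0 q m =
      alb (fun i => pc h ((u3 a i).pc P)) β (g * m) * pw t (nm m) * prin0 q m -
      zeX a * (alb (fun i => pc h ((u3' a i).pc P)) β (g * m) * pw t (nm m) * prin0 q m)
    ring
  rw [e0, h3, h4, Finset.mul_sum, ← Finset.sum_sub_distrib]
  refine Finset.sum_congr rfl fun x _ => ?_
  unfold ExT764.xA
  rw [zeP_cS, k1_cS]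
  show k1 (fun i => (u3 a i).pc P) β x g * sqc _ (al h (cS P a β x t)) m -
    zeX a * (k1 (fun i => (u3 a i).pc P) β x g * sqc _ (al h (cS' P a β x t)) m) = _
  ring

lemma fs_xA {R : ℝ} (hR : ∀ u, cx h u ≠ 0 → |u| ≤ R) {s s' : Fin 3 → Pc} (hs : ∀ i, (s i).OK)
    (hs' : ∀ i, (s' i).OK) (q : Eis) (δ : ℝ) : FS (xA h q s s' 0 1 δ) :=
  RX241.fs_diff (HP842.FS.sqc (HP842.FS_cv fun i => HP842.FS_pc hR (hs i)) q)
    (HP842.FS.sqc (HP842.FS_cv fun i => HP842.FS_pc hR (hs' i)) q) fun _ => rfl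

lemma norm_Md_sum {τ : Type*} (T : Finset τ) (c : τ → ℂ) {w : τ → Eis → ℂ}
    (hw : ∀ x ∈ T, FS (w x)) (hc : ∀ x ∈ T, ‖c x‖ ≤ 1) {B : ℝ} {j : Eis}
    (hB : ∀ x ∈ T, ‖Md (w x) j‖ ≤ B) :
    ‖Md (fun m => ∑ x ∈ T, c x * w x m) j‖ ≤ T.card * B := by
  have e1 : Md (fun m => ∑ x ∈ T, c x * w x m) j = ∑ x ∈ T, c x * Md (w x) j := by
    unfold RX241.Md
    have e2 : ∀ n : Eis, (∑ x ∈ T, c x * w x n) * (md j n : ℂ) =
        ∑ x ∈ T, c x * (w x n * (md j n : ℂ)) := by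
      intro n
      rw [Finset.sum_mul]
      exact Finset.sum_congr rfl fun x _ => by ring
    simp_rw [e2]
    rw [Summable.tsum_finsetSum fun x hx => ((hw x hx).summable _).mul_left _]
    exact Finset.sum_congr rfl fun x _ => tsum_mul_left
  rw [e1]
  calc ‖∑ x ∈ T, c x * Md (w x) j‖ ≤ ∑ x ∈ T, ‖c x * Md (w x) j‖ := norm_sum_le _ _
    _ ≤ ∑ x ∈ T, B := by
        refine Finset.sum_le_sum fun x hx => ?_
        rw [norm_mul]
        exact (mul_le_of_le_one_left (norm_nonneg _) (hc x hx)).trans (hB x hx)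
    _ = T.card * B := by rw [Finset.sum_const, nsmul_eq_mul]

lemma Mg_one_le {X s₀ γ : ℝ} (hX : 1 < X) :
    Mg (s₀ * Real.log X - γ * Real.log X) 1 ≤ X ^ (-(1 / 2 * max 0 (s₀ - γ))) := by
  have hX0 : 0 < X := by linarith
  have e1 : ((nm (1 : Eis) : ℕ) : ℝ) = 1 := by
    have : nm (1 : Eis) = 1 := by decide
    rw [this, Nat.cast_one]
  unfold ExD791.Mg
  rw [e1, Real.one_rpow, one_mul]
  rcases le_total (s₀ - γ) 0 with h | h
  · rw [max_eq_left h, mul_zero, neg_zero, Real.rpow_zero]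
    exact min_le_left _ _
  · rw [max_eq_right h, Real.rpow_def_of_pos hX0]
    refine (min_le_right _ _).trans (le_of_eq ?_)
    congr 1
    ring

lemma ht_le {u t H : ℝ} (hu : 1 + |u| ≤ H) : 1 + |u + t| ≤ H * (1 + |t|) := by
  have h1 := abs_add_le u t
  have h2 := abs_nonneg u
  have h3 := abs_nonneg t
  nlinarith [mul_nonneg (by linarith : (0 : ℝ) ≤ H - 1 - |u|) h3, mul_nonneg h2 h3]

/-- the lengths of the pair, shortened by `β`, are at least `s₀ log X` -/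
structure Sv (X s₀ : ℝ) (a : BdX) (β : Fin 3 → Eis) : Prop where
  h0 : s₀ * Real.log X ≤ (a.us 2).z - Real.log (nm (β 0))
  h1 : s₀ * Real.log X ≤ (a.us 3).z - Real.log (nm (β 1))
  h2 : s₀ * Real.log X ≤ a.zs 2 - Real.log (nm (β 0))
  h3 : s₀ * Real.log X ≤ a.zs 3 - Real.log (nm (β 1))

/-- **the bias of the subsequences of the difference** -/
theorem bias_xN {h : ℝ → ℝ} {c : ℝ} (hpu : PU h c) {ε : ℝ} (hε : 0 < ε) (K : ℝ) (hK : 1 ≤ K) :
    ∃ C : ℝ, 1 ≤ C ∧ ∀ X : ℝ, 3 ≤ X → ∀ P : DPar, P.OK → P.ψ = prin0 P.n → P.l₂ = 0 →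
      (nm P.n : ℝ) ≤ X → ∀ a : BdX, a.ok → (∀ i, (u3 a i).z ≤ K * Real.log X) →
      ∀ H : ℝ, 1 ≤ H → (∀ i, 1 + |(u3 a i).t| ≤ H) → (∀ i, (nm (u3 a i).d : ℝ) ≤ X ^ K) →
      ∀ β : Fin 3 → Eis, (∀ i, IsPrim (β i)) → (nm (∏ i, β i) : ℝ) ≤ X ^ (4 * K) →
      ∀ s₀ : ℝ, Sv X s₀ a β → ∀ g : Eis, IsPrim g → Squarefree g → (nm g : ℝ) ≤ X ^ K →
      ∀ q : Eis, q ≠ 0 → (nm q : ℝ) ≤ X ^ K → ∀ j : Eis, j ≠ 0 → (nm j : ℝ) ≤ X ^ K → ∀ t : ℝ,
      ‖Md (PM q (tws (sg (xN h P a β) g) t)) j‖ ≤ C * X ^ ε * (H * (1 + |t|)) ^ 6 *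
        X ^ (5 / 6 * (nL X (u3 a) β - Real.log (nm g) / Real.log X) -
          1 / 2 * max 0 (s₀ - Real.log (nm g) / Real.log X)) := by
  obtain ⟨R, hR⟩ := bump_of_cs hpu.cs
  obtain ⟨C₁, hC₁, hb⟩ := bias_al hpu 3 (B := 6 * K) (by linarith) (show 0 < ε / 2 by positivity)
  obtain ⟨C₂, hC₂, hτ⟩ := tau_le_rpow (show 0 < ε / (6 * K) by positivity)
  refine ⟨C₂ ^ 3 * C₁, one_le_mul_of_one_le_of_one_le (one_le_pow₀ hC₂) hC₁, ?_⟩
  intro X hX P hP hψ hl₂ hnX a ha hz H hH ht hd β hβ hβX s₀ hs₀ g hg hgs hgX q hq hqX j hj hjX t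
  have hX1 : 1 < X := by linarith
  have hX0 : 0 < X := by linarith
  set L := Real.log X with hL
  have hL0 : 0 < L := Real.log_pos hX1
  have hgn : (0 : ℝ) < nm g := nm_pos_r hg.ne_zero
  have hg1 : (1 : ℝ) ≤ nm g := by exact_mod_cast nm_pos.2 hg.ne_zero
  have hlg : 0 ≤ Real.log (nm g) := Real.log_nonneg hg1
  set γ := Real.log (nm g) / L with hγ
  have hγL : γ * L = Real.log (nm g) := by rw [hγ]; field_simp
  have upK : ∀ {y : ℝ}, y ≤ X ^ K → y ≤ X ^ (6 * K) := fun hy =>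
    hy.trans (Real.rpow_le_rpow_of_exponent_le hX1.le (by linarith))
  have hXK : X ≤ X ^ K := by
    calc X = X ^ (1 : ℝ) := (Real.rpow_one _).symm
      _ ≤ X ^ K := Real.rpow_le_rpow_of_exponent_le hX1.le hK
  have hT : ((Tu (Fin 3) g).card : ℝ) ≤ C₂ ^ 3 * X ^ (ε / 2) := by
    have h1 : ((Tu (Fin 3) g).card : ℝ) ≤ (tau g : ℝ) ^ 3 := by
      have := card_Tu_le (ι := Fin 3) g
      rw [Fintype.card_fin] at this
      exact_mod_cast this
    have h2 : (tau g : ℝ) ^ 3 ≤ (C₂ * (nm g : ℝ) ^ (ε / (6 * K))) ^ 3 :=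
      pow_le_pow_left₀ (Nat.cast_nonneg _) (hτ g hg.ne_zero) 3
    refine h1.trans (h2.trans ?_)
    rw [mul_pow]
    refine mul_le_mul_of_nonneg_left ?_ (by positivity)
    calc ((nm g : ℝ) ^ (ε / (6 * K))) ^ 3 = (nm g : ℝ) ^ (ε / (6 * K) * 3) := by
          rw [← Real.rpow_natCast, ← Real.rpow_mul hgn.le]; norm_num
      _ ≤ (X ^ K) ^ (ε / (6 * K) * 3) := Real.rpow_le_rpow hgn.le hgX (by positivity)
      _ = X ^ (ε / 2) := by
          rw [← Real.rpow_mul hX0.le]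
          congr 1
          field_simp
          ring
  have hok : ∀ i, ((u3 a i).pc P).OK := fun i => Pq.ok hP _
  have hβ0 : ∀ i, (0 : ℝ) < nm (β i) := fun i => nm_pos_r (hβ i).ne_zero
  set B : ℝ := C₁ * X ^ (ε / 2) * (H * (1 + |t|)) ^ 6 *
    X ^ (5 / 6 * (nL X (u3 a) β - γ) - 1 / 2 * max 0 (s₀ - γ)) with hB
  have hlump : ∀ i, Dq.lump (u3 a i) := by
    intro i
    fin_cases i
    · exact (ha.base.1 2).1
    · exact (ha.base.1 3).1
    · exact (ha.base.1 4).1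
  have key : ∀ x ∈ Tu (Fin 3) g, ‖Md (xA h ((∏ i, β i) * g * q) (cS P a β x t) (cS' P a β x t) 0 1
      (a.zs 2 - (a.us 2).z)) j‖ ≤ B := by
    intro x hx
    obtain ⟨hxp, hxg⟩ := mem_Tu.1 hx
    have hx0 : ∀ i, (0 : ℝ) < nm (x i) := fun i => nm_pos_r (hxp i).ne_zero
    have hx1 : ∀ i, (1 : ℝ) ≤ nm (x i) := fun i => by exact_mod_cast nm_pos.2 (hxp i).ne_zero
    have hβ1 : ∀ i, (1 : ℝ) ≤ nm (β i) := fun i => by exact_mod_cast nm_pos.2 (hβ i).ne_zero
    have hxle : ∀ i, Real.log (nm (x i)) ≤ Real.log (nm g) := by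
      intro i
      have h1 : x i ∣ g := by rw [← hxg]; exact Finset.dvd_prod_of_mem x (Finset.mem_univ i)
      exact Real.log_le_log (hx0 i) (by exact_mod_cast Div277.nm_le_of_dvd hg.ne_zero h1)
    have hlogY : ∀ i, Real.log (cS P a β x t i).Y =
        (u3 a i).z - Real.log (nm (β i)) - Real.log (nm (x i)) := by
      intro i
      show Real.log (Real.exp (u3 a i).z / nm (β i * x i)) = _
      rw [Real.log_div (Real.exp_pos _).ne' (nm_pos_r ((hβ i).mul (hxp i)).ne_zero).ne',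
        Real.log_exp, nm_mul]
      push_cast
      rw [Real.log_mul (hβ0 i).ne' (hx0 i).ne']
      ring
    have hsum : ∑ i, Real.log (cS P a β x t i).Y =
        ∑ i, (u3 a i).z - Real.log (nm (∏ i, β i)) - Real.log (nm g) := by
      rw [Finset.sum_congr rfl fun i _ => hlogY i, Finset.sum_sub_distrib, Finset.sum_sub_distrib,
        nm_prodF, Real.log_prod fun i _ => (hβ0 i).ne', ← hxg, nm_prodF,
        Real.log_prod fun i _ => (hx0 i).ne']
    have hprin : ∀ i, ∀ b : Eis, IsPrim b →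
        (cS P a β x t i).ψ b = prin0 (P.n * (u3 a i).d) b := by
      intro i b hb
      show chK P (u3 a i).kd b * prin0 (u3 a i).d b = _
      rw [(hlump i).1]
      show P.ψ b * ang P.l₂ b * prin0 (u3 a i).d b = _
      rw [hψ, hl₂, End699.ang_zero', mul_one, ExD791.prin0_mul]
    have hρ : ∀ i, (nm (P.n * (u3 a i).d) : ℝ) ≤ X ^ (6 * K) := by
      intro i
      rw [nm_mul]
      push_cast
      calc (nm P.n : ℝ) * nm (u3 a i).d ≤ X ^ K * X ^ K :=
            mul_le_mul (hnX.trans hXK) (hd i) (Nat.cast_nonneg _) (by positivity)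
        _ = X ^ (2 * K) := by rw [← Real.rpow_add hX0]; ring_nf
        _ ≤ X ^ (6 * K) := Real.rpow_le_rpow_of_exponent_le hX1.le (by linarith)
    have hQ : (nm ((∏ i, β i) * g * q) : ℝ) ≤ X ^ (6 * K) := by
      rw [nm_mul, nm_mul]
      push_cast
      calc (nm (∏ i, β i) : ℝ) * nm g * nm q ≤ X ^ (4 * K) * X ^ K * X ^ K := by gcongr
        _ = X ^ (6 * K) := by
            rw [← Real.rpow_add hX0, ← Real.rpow_add hX0]
            ring_nf
    have hQ0 : (∏ i, β i) * g * q ≠ 0 := mul_ne_zero (mul_ne_zero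
      (Finset.prod_ne_zero_iff.2 fun i _ => (hβ i).ne_zero) hg.ne_zero) hq
    have hKL : K * L ≤ 6 * K * L := by nlinarith [mul_pos (by linarith : 0 < K) hL0]
    have hn1 : ((nm (1 : Eis) : ℕ) : ℝ) = 1 := by
      have : nm (1 : Eis) = 1 := by decide
      rw [this, Nat.cast_one]
    have main := hb (Fin 3) (by rw [Fintype.card_fin]) X hX (cS P a β x t) (cS' P a β x t) 0 1
      (a.zs 2 - (a.us 2).z) (shf_cS ha β x t)
      (fun i => tsh_OK (sh_OK (hok i) ((hβ i).mul (hxp i))) t)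
      (by
        show ((u3 a 0).u).sub (β 0 * x 0) = .one
        rw [(hlump 0).2]
        unfold HP842.UT.sub
        simp)
      (by
        show ((u3 a 1).u).sub (β 1 * x 1) = .one
        rw [(hlump 1).2]
        unfold HP842.UT.sub
        simp)
      (by
        have e : (Finset.univ.erase (0 : Fin 3)).erase 1 = {2} := by decide
        rw [e, Finset.sum_singleton, hlogY]
        have h1 := hz 2
        have h2 := Real.log_nonneg (hβ1 2)
        have h3 := Real.log_nonneg (hx1 2)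
        linarith)
      (P.n * (u3 a 0).d) (P.n * (u3 a 1).d) (mul_ne_zero hP.φ.q0 (u3 a 0).d0)
      (mul_ne_zero hP.φ.q0 (u3 a 1).d0) (hρ 0) (hρ 1) (hprin 0) (hprin 1) j hj (upK hjX)
      (s₀ * L - γ * L)
      (by
        rw [hlogY, hγL]
        have := hs₀.h0
        have h1 := hxle 0
        show _ ≤ (a.us 2).z - _ - _
        linarith)
      (by
        rw [hlogY, hγL]
        have := hs₀.h1
        have h1 := hxle 1
        show _ ≤ (a.us 3).z - _ - _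
        linarith)
      (by
        rw [hlogY, hγL]
        have := hs₀.h2
        have h1 := hxle 0
        show _ ≤ (a.us 2).z - _ - _ + _
        linarith)
      (by
        rw [hlogY, hγL]
        have := hs₀.h3
        have h1 := hxle 1
        have h2 := ha.s23
        show _ ≤ (a.us 3).z - _ - _ - _
        linarith)
      (by
        rw [hγL]
        have := hs₀.h0
        have h1 := hz 0
        have h2 := Real.log_nonneg (hβ1 0)
        have h3 : (u3 a 0).z = (a.us 2).z := rfl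
        linarith)
      ((∏ i, β i) * g * q) 1 hQ0 hQ isPrim_one (by
        rw [hn1]
        exact Real.one_le_rpow hX1.le (by linarith)) 0
    have e1 : tws (sg (xA h ((∏ i, β i) * g * q) (cS P a β x t) (cS' P a β x t) 0 1
        (a.zs 2 - (a.us 2).z)) 1) 0 = xA h ((∏ i, β i) * g * q) (cS P a β x t) (cS' P a β x t) 0 1
        (a.zs 2 - (a.us 2).z) := by
      funext m
      unfold E1551.tws E1551.sg Weight600.pw
      rw [one_mul, Weight600.osc_zero_left, mul_one]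
    rw [e1, hsum, hn1, div_one] at main
    refine main.trans ?_
    rw [hB]
    have e2 : Real.exp (∑ i, (u3 a i).z - Real.log (nm (∏ i, β i)) - Real.log (nm g)) ^
        (5 / 6 : ℝ) = X ^ (5 / 6 * (nL X (u3 a) β - γ)) := by
      rw [← Real.exp_mul, Real.rpow_def_of_pos hX0]
      congr 1
      unfold TEM792.nL
      rw [← hL, ← hγL]
      have h9 : (∑ i, (u3 a i).z - Real.log (nm (∏ i, β i))) / L * L =
        ∑ i, (u3 a i).z - Real.log (nm (∏ i, β i)) := div_mul_cancel₀ _ hL0.ne'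
      linear_combination (-(5 / 6 : ℝ)) * h9
    have h5 := Mg_one_le (s₀ := s₀) (γ := γ) hX1
    have h6 : ((1 + |(cS P a β x t 0).t + 0|) * (1 + |(cS P a β x t 1).t + 0|)) ^ 3 ≤
        (H * (1 + |t|)) ^ 6 := by
      have h7 : 1 + |(cS P a β x t 0).t + 0| ≤ H * (1 + |t|) := by
        rw [add_zero]; exact ht_le (ht 0)
      have h8 : 1 + |(cS P a β x t 1).t + 0| ≤ H * (1 + |t|) := by
        rw [add_zero]; exact ht_le (ht 1)
      calc _ ≤ ((H * (1 + |t|)) * (H * (1 + |t|))) ^ 3 := by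
            refine pow_le_pow_left₀ (by positivity) ?_ 3
            exact mul_le_mul h7 h8 (by positivity) (by positivity)
        _ = _ := by ring
    have hMg : 0 ≤ Mg (s₀ * L - γ * L) 1 := by unfold ExD791.Mg; positivity
    rw [e2, sub_eq_add_neg (5 / 6 * (nL X (u3 a) β - γ)), Real.rpow_add hX0]
    gcongr
  rw [xN_tws hP ha hβ hg hgs t q]
  refine (norm_Md_sum (Tu (Fin 3) g) (fun x => k1 (fun i => (u3 a i).pc P) β x g)
    (w := fun x => xA h ((∏ i, β i) * g * q) (cS P a β x t) (cS' P a β x t) 0 1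
      (a.zs 2 - (a.us 2).z))
    (fun x hx => fs_xA hR (fun i => tsh_OK (sh_OK (hok i) ((hβ i).mul ((mem_Tu.1 hx).1 i))) t)
      (fun i => tsh_OK (sh_OK (Pq.ok hP _) ((hβ i).mul ((mem_Tu.1 hx).1 i))) t) _ _)
    (fun x hx => norm_k1_le hok hβ (fun i => (mem_Tu.1 hx).1 i) g) key).trans ?_
  have hB0 : 0 ≤ B := by positivity
  refine (mul_le_mul_of_nonneg_right hT hB0).trans (le_of_eq ?_)
  rw [hB]
  have e3 : X ^ ε = X ^ (ε / 2) * X ^ (ε / 2) := by
    rw [← Real.rpow_add hX0]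
    congr 1
    ring
  rw [e3]
  ring

/-- **cube-free moments of the subsequences of the difference** -/
theorem vf_xN {h : ℝ → ℝ} {c : ℝ} (hpu : PU h c) {ε : ℝ} (hε : 0 < ε) (K : ℝ) (hK : 1 ≤ K)
    (M : ℕ) (hM : 12 ≤ M) : ∃ (r X₀ : ℝ), 0 ≤ r ∧ 3 ≤ X₀ ∧
    ∀ X : ℝ, X₀ ≤ X → ∀ P : DPar, P.OK → P.ψ = prin0 P.n → P.l₂ = 0 → (nm P.n : ℝ) ≤ X →
      ∀ a : BdX, a.ok → (∀ i, (u3 a i).z ≤ K * Real.log X) → (∀ i, (u3' a i).z ≤ K * Real.log X) →
      ∀ H : ℝ, 1 ≤ H → (∀ i, 1 + |(u3 a i).t| ≤ H) → (∀ i, (nm (u3 a i).d : ℝ) ≤ X ^ K) →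
      ∀ β : Fin 3 → Eis, (∀ i, IsPrim (β i)) → (nm (∏ i, β i) : ℝ) ≤ X ^ (4 * K) →
      ∀ s₀ : ℝ, Sv X s₀ a β → ∀ F : ℝ → ℝ → ℝ,
      ClK Dk h P X H M r K (u3 a) β F → ClK Dk h P X H M r K (u3' a) β F →
      ∀ g : Eis, IsPrim g → Squarefree g → (nm g : ℝ) ≤ X ^ K →
      ∀ q : Eis, q ≠ 0 → (nm q : ℝ) ≤ X ^ K → ∀ k : ℝ, 0 ≤ k → k ≤ K * Real.log X → ∀ t : ℝ,
      VF (Real.exp k) (PM q (tws (sg (xN h P a β) g) t)) ≤ H ^ M *
        X ^ (max (F (k / Real.log X) (Real.log (nm g) / Real.log X))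
          (2 / 3 * (k / Real.log X) + 5 / 3 * (nL X (u3 a) β - Real.log (nm g) / Real.log X) -
            max 0 (s₀ - Real.log (nm g) / Real.log X)) + ε) * (1 + |t|) ^ (3 * (M : ℝ)) := by
  obtain ⟨R, hR⟩ := bump_of_cs hpu.cs
  obtain ⟨r, X₁, hr, hX₁, H1⟩ := vk_cl Dk848.ker_Dk hpu (show 0 < ε / 2 by positivity) K hK M
  obtain ⟨C₁, hC₁, H2⟩ := bias_xN hpu (show 0 < ε / 8 by positivity) K hK
  obtain ⟨C₂, hC₂, H3⟩ := Bs_le
  obtain ⟨X₂, hX₂, H4⟩ := const_le (pC ^ 2 * (C₂ * C₁ ^ 2)) (ε / 8) (by positivity)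
  obtain ⟨X₃, hX₃, H5⟩ := const_le 9 (ε / 2) (by positivity)
  refine ⟨r, max 3 (max X₁ (max X₂ X₃)), hr, le_max_left _ _, ?_⟩
  intro X hX P hP hψ hl₂ hnX a ha hz hz' H hH ht hd β hβ hβX s₀ hs₀ F hF hF' g hg hgs hgX q hq hqX
    k hk hkK t
  have hX3 : 3 ≤ X := (le_max_left _ _).trans hX
  have hXX1 : X₁ ≤ X := ((le_max_left _ _).trans (le_max_right _ _)).trans hX
  have hXX2 : X₂ ≤ X := ((le_max_left _ _).trans ((le_max_right _ _).trans
    (le_max_right _ _))).trans hX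
  have hXX3 : X₃ ≤ X := ((le_max_right _ _).trans ((le_max_right _ _).trans
    (le_max_right _ _))).trans hX
  have hX1 : 1 < X := by linarith
  have hX0 : 0 < X := by linarith
  set L := Real.log X with hL
  have hL0 : 0 < L := Real.log_pos hX1
  set γ := Real.log (nm g) / L with hγ
  set bz : ℝ := 2 / 3 * (k / L) + 5 / 3 * (nL X (u3 a) β - γ) - max 0 (s₀ - γ) with hbz
  set G : ℝ := max (F (k / L) γ) bz with hG
  have hHM : (0 : ℝ) ≤ H ^ M := by positivity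
  have htM : (0 : ℝ) ≤ (1 + |t|) ^ (3 * (M : ℝ)) := by positivity
  have h1t : 1 ≤ 1 + |t| := by linarith [abs_nonneg t]
  -- the two shapes
  have hA := H1 X hXX1 H hH P hP (u3 a) β hz hβ F hF g hg hgs hgX q hq hqX k hk hkK t
  have hB := H1 X hXX1 H hH P hP (u3' a) β hz' hβ F hF' g hg hgs hgX q hq hqX k hk hkK t
  have hup : H ^ M * X ^ (F (k / L) γ + ε / 2) * (1 + |t|) ^ (3 * (M : ℝ)) ≤
      H ^ M * X ^ (G + ε / 2) * (1 + |t|) ^ (3 * (M : ℝ)) := by
    have : X ^ (F (k / L) γ + ε / 2) ≤ X ^ (G + ε / 2) :=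
      Real.rpow_le_rpow_of_exponent_le hX1.le (by
        have := le_max_left (F (k / L) γ) bz
        linarith)
    gcongr
  -- the bias
  have hxs : ∀ n, xN h P a β n = alb (fun i => pc h ((u3 a i).pc P)) β n -
    zeX a * alb (fun i => pc h ((u3' a i).pc P)) β n := fun n => rfl
  have hfa : FS (alb (fun i => pc h ((u3 a i).pc P)) β) :=
    P1e54.FS_alb (fun i m hm => HP842.pc_support hR (Real.exp_pos _) hm) hβ
  have hfb : FS (alb (fun i => pc h ((u3' a i).pc P)) β) :=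
    P1e54.FS_alb (fun i m hm => HP842.pc_support hR (Real.exp_pos _) hm) hβ
  set xx := PM q (tws (sg (xN h P a β) g) t) with hxx
  have hV1 : 1 ≤ Real.exp k := Real.one_le_exp hk
  have hVK : Real.exp k ≤ X ^ K := by
    rw [Real.rpow_def_of_pos hX0]
    exact Real.exp_le_exp.2 (hkK.trans (le_of_eq (mul_comm _ _)))
  set Eb : ℝ := (C₁ * X ^ (ε / 8) * (H * (1 + |t|)) ^ 6 *
    X ^ (5 / 6 * (nL X (u3 a) β - γ) - 1 / 2 * max 0 (s₀ - γ))) ^ 2 with hEb
  have hbs := H3 (Real.exp k) Eb xx hV1 (fun j hj hjk => by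
    rw [hEb]
    exact pow_le_pow_left₀ (norm_nonneg _) (H2 X hX3 P hP hψ hl₂ hnX a ha hz H hH ht hd β hβ hβX s₀
      hs₀ g hg hgs hgX q hq hqX j hj.1 (hjk.trans hVK) t) 2)
  have e1 : (H * (1 + |t|)) ^ 12 ≤ H ^ M * (1 + |t|) ^ (3 * (M : ℝ)) := by
    rw [mul_pow]
    refine mul_le_mul (pow_le_pow_right₀ hH hM) ?_ (by positivity) hHM
    rw [← Real.rpow_natCast (1 + |t|) 12]
    refine Real.rpow_le_rpow_of_exponent_le h1t ?_
    have : (12 : ℝ) ≤ M := by exact_mod_cast hM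
    push_cast
    linarith
  have hbias : pC ^ 2 * Bs (Real.exp k) xx ≤
      H ^ M * X ^ (G + ε / 2) * (1 + |t|) ^ (3 * (M : ℝ)) := by
    have e2 : Real.exp k ^ ((2 : ℝ) / 3) = X ^ (2 / 3 * (k / L)) := by
      rw [← Real.exp_mul, Real.rpow_def_of_pos hX0]
      congr 1
      have : k / L * L = k := div_mul_cancel₀ _ hL0.ne'
      rw [← hL]
      linear_combination (-(2 / 3 : ℝ)) * this
    have e3 : Eb = C₁ ^ 2 * X ^ (ε / 4) * (H * (1 + |t|)) ^ 12 *
        X ^ (5 / 3 * (nL X (u3 a) β - γ) - max 0 (s₀ - γ)) := by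
      have ea : (X ^ (ε / 8)) ^ 2 = X ^ (ε / 4) := by
        rw [← Real.rpow_natCast, ← Real.rpow_mul hX0.le]
        congr 1
        push_cast
        ring
      have eb : (X ^ (5 / 6 * (nL X (u3 a) β - γ) - 1 / 2 * max 0 (s₀ - γ))) ^ 2 =
          X ^ (5 / 3 * (nL X (u3 a) β - γ) - max 0 (s₀ - γ)) := by
        rw [← Real.rpow_natCast, ← Real.rpow_mul hX0.le]
        congr 1
        push_cast
        ring
      rw [hEb, mul_pow, mul_pow, mul_pow, ea, eb]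
      ring
    calc pC ^ 2 * Bs (Real.exp k) xx
        ≤ pC ^ 2 * (C₂ * Real.exp k ^ ((2 : ℝ) / 3) * Eb) := by gcongr
      _ = (pC ^ 2 * (C₂ * C₁ ^ 2)) * ((H * (1 + |t|)) ^ 12) * (X ^ (ε / 4) * X ^ bz) := by
          rw [e2, e3, hbz, sub_eq_add_neg (2 / 3 * (k / L) + 5 / 3 * (nL X (u3 a) β - γ)),
            sub_eq_add_neg (5 / 3 * (nL X (u3 a) β - γ)), Real.rpow_add hX0, Real.rpow_add hX0,
            Real.rpow_add hX0]
          ring
      _ ≤ X ^ (ε / 8) * (H ^ M * (1 + |t|) ^ (3 * (M : ℝ))) * (X ^ (ε / 4) * X ^ bz) := by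
          have h6 := H4 X hXX2
          refine mul_le_mul_of_nonneg_right ?_ (by positivity)
          exact mul_le_mul h6 e1 (by positivity) (by positivity)
      _ = H ^ M * (X ^ (ε / 8) * (X ^ (ε / 4) * X ^ bz)) * (1 + |t|) ^ (3 * (M : ℝ)) := by ring
      _ ≤ H ^ M * X ^ (G + ε / 2) * (1 + |t|) ^ (3 * (M : ℝ)) := by
          have h7 : X ^ (ε / 8) * (X ^ (ε / 4) * X ^ bz) ≤ X ^ (G + ε / 2) := by
            rw [← Real.rpow_add hX0, ← Real.rpow_add hX0]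
            refine Real.rpow_le_rpow_of_exponent_le hX1.le ?_
            have := le_max_right (F (k / L) γ) bz
            linarith
          gcongr
  have hfin := VF_x_le (x := xx) (norm_zeX a).le (FS_PM (fs_ts hfa hg t) q)
    (FS_PM (fs_ts hfb hg t) q) (fun n => by
      have h1 := RX241.ts_sub hxs g t n
      show tws (sg (xN h P a β) g) t n * prin0 q n = tws (sg _ g) t n * prin0 q n -
        zeX a * (tws (sg _ g) t n * prin0 q n)
      rw [h1]
      ring) (Real.exp k)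
  refine hfin.trans ?_
  have h9 := H5 X hXX3
  calc 3 * (VK Dk (Real.exp k) (PM q (tws (sg (alb (fun i => pc h ((u3 a i).pc P)) β) g) t)) +
        VK Dk (Real.exp k) (PM q (tws (sg (alb (fun i => pc h ((u3' a i).pc P)) β) g) t)) +
        pC ^ 2 * Bs (Real.exp k) xx)
      ≤ 3 * (H ^ M * X ^ (G + ε / 2) * (1 + |t|) ^ (3 * (M : ℝ)) +
        H ^ M * X ^ (G + ε / 2) * (1 + |t|) ^ (3 * (M : ℝ)) +
        H ^ M * X ^ (G + ε / 2) * (1 + |t|) ^ (3 * (M : ℝ))) := by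
        refine mul_le_mul_of_nonneg_left (add_le_add (add_le_add (hA.trans hup) (hB.trans hup))
          hbias) (by norm_num)
    _ = 9 * X ^ (G + ε / 2) * (H ^ M * (1 + |t|) ^ (3 * (M : ℝ))) := by ring
    _ ≤ X ^ (ε / 2) * X ^ (G + ε / 2) * (H ^ M * (1 + |t|) ^ (3 * (M : ℝ))) := by gcongr
    _ = H ^ M * X ^ (G + ε) * (1 + |t|) ^ (3 * (M : ℝ)) := by
        have : X ^ (ε / 2) * X ^ (G + ε / 2) = X ^ (G + ε) := by
          rw [← Real.rpow_add hX0]
          congr 1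
          ring
        rw [this]
        ring

end bias

/-! ### the twisted sequence -/

/-- the data of the three lumps and of the replaced pair -/
structure LDX (X K H s₀ : ℝ) (a : BdX) (β : Fin 3 → Eis) : Prop where
  ok : a.ok
  zK : ∀ i, (u3 a i).z ≤ K * Real.log X
  zK' : ∀ i, (u3' a i).z ≤ K * Real.log X
  tH : ∀ i, 1 + |(u3 a i).t| ≤ H
  dK : ∀ i, (nm (u3 a i).d : ℝ) ≤ X ^ K
  bp : ∀ i, IsPrim (β i)
  bK : ∀ i, (nm (β i) : ℝ) ≤ X ^ K
  sv : Sv X s₀ a β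

lemma alb_prim' {h : ℝ → ℝ} {P : DPar} {us : Fin 3 → Pq} {β : Fin 3 → Eis}
    (hβ : ∀ i, IsPrim (β i)) {n : Eis} (hn : alb (fun i => pc h ((us i).pc P)) β n ≠ 0) :
    IsPrim n := P1e54.alb_prim (f := fun i => pc h ((us i).pc P)) (fun i m hm => pc_prim' hm) hβ hn

lemma xN_ne {h : ℝ → ℝ} {P : DPar} {a : BdX} {β : Fin 3 → Eis} {n : Eis}
    (hn : xN h P a β n ≠ 0) : alb (fun i => pc h ((u3 a i).pc P)) β n ≠ 0 ∨
      alb (fun i => pc h ((u3' a i).pc P)) β n ≠ 0 := by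
  by_contra h0
  rw [not_or, not_not, not_not] at h0
  apply hn
  unfold xN
  rw [h0.1, h0.2, mul_zero, sub_zero]

/-- **`VN` of 372's `alX` (class E)** -/
theorem vn_alX {h : ℝ → ℝ} {c : ℝ} (hpu : PU h c) {ε : ℝ} (hε : 0 < ε) (K : ℝ) (hK : 1 ≤ K)
    (M : ℕ) (hM : 12 ≤ M) : ∃ r : ℝ, 0 ≤ r ∧ ∀ (P : DPar), P.OK → Exc P → ∀ t : Eis,
    t ∈ FE47.SM P.n → ∃ X₀ : ℝ, 1 < X₀ ∧ ∀ X : ℝ, X₀ ≤ X → ∀ H : ℝ, 1 ≤ H →
      ∀ (a : BdX) (β : Fin 3 → Eis) (s₀ : ℝ), LDX X K H s₀ a β → ∀ F : ℝ → ℝ → ℝ,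
      (∀ v σ γ, 0 ≤ σ → F (v + σ) γ ≤ F v γ + σ) →
      ClK Dk h (red P) X H M r (K + 1) (u3 a) β F →
      ClK Dk h (red P) X H M r (K + 1) (u3' a) β F →
      VN X H M K (alX P h t a β) (fun v γ => max (F v γ)
        (2 / 3 * v + 5 / 3 * (nL X (u3 a) β - γ) - max 0 (s₀ - γ)) + ε) := by
  obtain ⟨r, X₁, hr, hX₁, H1⟩ := vf_xN hpu (show 0 < ε / 4 by positivity) (K + 1)
    (by linarith) M hM
  refine ⟨r, hr, fun P hP hE t ht => ?_⟩
  obtain ⟨k₀, hk₀⟩ := exists_sh hP.ψ hE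
  set s : Eis := t * k₀ ^ 2 with hs
  have hs0 : s ≠ 0 := mul_ne_zero ht.1 (pow_ne_zero 2 hk₀.k0)
  have hscop : ∀ n : Eis, IsPrim n → IsCoprime n P.n → IsCoprime s n := fun n hn hnn =>
    ((FE47.SM.coprime ht hnn).mul_right (hk₀.cop hn hnn).pow_right).symm
  have hsn := nm_pos_r hs0
  have hsn1 : (1 : ℝ) ≤ nm s := by exact_mod_cast nm_pos.2 hs0
  obtain ⟨X₂, hX₂, H2⟩ := const_le ((ds s).card : ℝ) (ε / 4) (by positivity)
  obtain ⟨X₃, hX₃, H3⟩ := const_le ((nm s : ℝ) ^ 2) (min 1 (ε / 4)) (by positivity)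
  obtain ⟨X₄, hX₄, H4⟩ := const_le (nm P.n : ℝ) 1 one_pos
  refine ⟨max X₁ (max X₂ (max X₃ X₄)), lt_of_lt_of_le (by linarith) (le_max_left _ _), ?_⟩
  intro X hX H hH a β s₀ hL0' F hF hcl hcl' g hg hgs hgK q hq hqK k hk hkK τ
  have hXX1 : X₁ ≤ X := (le_max_left _ _).trans hX
  have hXX2 : X₂ ≤ X := ((le_max_left _ _).trans (le_max_right _ _)).trans hX
  have hXX3 : X₃ ≤ X := ((le_max_left _ _).trans ((le_max_right _ _).trans
    (le_max_right _ _))).trans hX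
  have hXX4 : X₄ ≤ X := ((le_max_right _ _).trans ((le_max_right _ _).trans
    (le_max_right _ _))).trans hX
  have hX1 : 1 < X := by linarith
  have hX0 : 0 < X := by linarith
  set L := Real.log X with hL
  have hL0 : 0 < L := Real.log_pos hX1
  have hL' := H3 X hXX3
  have hls : 0 ≤ 2 * Real.log (nm s) := by
    have := Real.log_nonneg hsn1
    linarith
  have hls2 : 2 * Real.log (nm s) ≤ min 1 (ε / 4) * L := by
    have h1 := Real.log_le_log (by positivity) hL'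
    rw [Real.log_pow, Real.log_rpow hX0] at h1
    exact_mod_cast h1
  have hls3 : 2 * Real.log (nm s) ≤ L := hls2.trans (by
    have := min_le_left 1 (ε / 4)
    nlinarith)
  have hls4 : 2 * Real.log (nm s) / L ≤ ε / 4 := by
    rw [div_le_iff₀ hL0]
    exact hls2.trans (mul_le_mul_of_nonneg_right (min_le_right _ _) hL0.le)
  have hnX : (nm P.n : ℝ) ≤ X := by
    have := H4 X hXX4
    rwa [Real.rpow_one] at this
  have hPr : (red P).OK := red_ok hP hE
  set al := xN h (red P) a β with hal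
  have hβ := hL0'.bp
  have hprim : ∀ n, al n ≠ 0 → IsPrim n := fun n hn => by
    rcases xN_ne hn with h1 | h1
    · exact alb_prim' hβ h1
    · exact alb_prim' hβ h1
  have hcop : ∀ n, al n ≠ 0 → IsCoprime s n := fun n hn => by
    refine hscop n (hprim n hn) ?_
    rcases xN_ne hn with h1 | h1
    · exact alb_cop hPr h1
    · exact alb_cop hPr h1
  rw [alX_eq hP hk₀ h t hL0'.ok hβ, ← hs, ← hal]
  have hβp : IsPrim (∏ i, β i) := HP842.isPrim_prod hβ
  have hV1 : 1 ≤ Real.exp k := Real.one_le_exp hk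
  have hc1 : ‖ph a * sy s (∏ i, β i)‖ ≤ 1 := by
    rw [norm_mul, norm_ph, one_mul]
    exact Char766.norm_sy_le hβp
  refine (vf_tw hs0 hprim hcop hc1 hg q τ hV1).trans ?_
  set k' := k + 2 * Real.log (nm s) with hk'
  have e2 : Real.exp k * (nm s : ℝ) ^ 2 = Real.exp k' := by
    rw [hk', Real.exp_add]
    congr 1
    rw [two_mul, Real.exp_add, Real.exp_log hsn]
    ring
  rw [e2]
  have hup : X ^ K ≤ X ^ (K + 1) := Real.rpow_le_rpow_of_exponent_le hX1.le (by linarith)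
  have hb3 : (nm (∏ i, β i) : ℝ) ≤ X ^ (4 * (K + 1)) := by
    rw [nm_prodF, Fin.prod_univ_three]
    have h1 := hL0'.bK
    calc (nm (β 0) : ℝ) * nm (β 1) * nm (β 2) ≤ X ^ K * X ^ K * X ^ K := by
          have h2 := h1 0
          have h3 := h1 1
          have h4 := h1 2
          gcongr
      _ = X ^ (3 * K) := by
          rw [← Real.rpow_add hX0, ← Real.rpow_add hX0]
          ring_nf
      _ ≤ X ^ (4 * (K + 1)) := Real.rpow_le_rpow_of_exponent_le hX1.le (by linarith)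
  have h1 := H1 X hXX1 (red P) hPr rfl rfl hnX a hL0'.ok
    (fun i => (hL0'.zK i).trans (by nlinarith)) (fun i => (hL0'.zK' i).trans (by nlinarith)) H hH
    hL0'.tH (fun i => (hL0'.dK i).trans hup) β hβ hb3 s₀ hL0'.sv F hcl hcl' g hg hgs
    (hgK.trans hup) q hq (hqK.trans hup) k' (by positivity) (by rw [hk', ← hL]; nlinarith) τ
  rw [← hal, ← hL] at h1
  set γ := Real.log (nm g) / L with hγ
  set G : ℝ := max (F (k / L) γ)
    (2 / 3 * (k / L) + 5 / 3 * (nL X (u3 a) β - γ) - max 0 (s₀ - γ)) with hG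
  have e3 : k' / L = k / L + 2 * Real.log (nm s) / L := by rw [hk']; ring
  have hσ0 : 0 ≤ 2 * Real.log (nm s) / L := by positivity
  have h2 : max (F (k' / L) γ)
      (2 / 3 * (k' / L) + 5 / 3 * (nL X (u3 a) β - γ) - max 0 (s₀ - γ)) ≤ G + ε / 4 := by
    refine max_le ?_ ?_
    · have h3 := hF (k / L) (2 * Real.log (nm s) / L) γ hσ0
      have h4 := le_max_left (F (k / L) γ)
        (2 / 3 * (k / L) + 5 / 3 * (nL X (u3 a) β - γ) - max 0 (s₀ - γ))
      rw [e3]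
      linarith
    · have h4 := le_max_right (F (k / L) γ)
        (2 / 3 * (k / L) + 5 / 3 * (nL X (u3 a) β - γ) - max 0 (s₀ - γ))
      rw [e3]
      linarith
  have hD := H2 X hXX2
  have hHM : (0 : ℝ) ≤ H ^ M := by positivity
  have htt : (0 : ℝ) ≤ (1 + |τ|) ^ (3 * (M : ℝ)) := by positivity
  have h5 : VF (Real.exp k') (PM q (tws (sg al g) τ)) ≤
      H ^ M * X ^ (G + ε / 4 + ε / 4) * (1 + |τ|) ^ (3 * (M : ℝ)) := by
    refine h1.trans ?_
    have h6 : X ^ (max (F (k' / L) γ)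
        (2 / 3 * (k' / L) + 5 / 3 * (nL X (u3 a) β - γ) - max 0 (s₀ - γ)) + ε / 4) ≤
        X ^ (G + ε / 4 + ε / 4) :=
      Real.rpow_le_rpow_of_exponent_le hX1.le (by linarith)
    gcongr
  have hVF0 : 0 ≤ VF (Real.exp k') (PM q (tws (sg al g) τ)) := by
    unfold Rough381.VF
    exact Finset.sum_nonneg fun _ _ => by positivity
  calc ((ds s).card : ℝ) * VF (Real.exp k') (PM q (tws (sg al g) τ))
      ≤ X ^ (ε / 4) * (H ^ M * X ^ (G + ε / 4 + ε / 4) * (1 + |τ|) ^ (3 * (M : ℝ))) :=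
        mul_le_mul hD h5 hVF0 (by positivity)
    _ = H ^ M * (X ^ (ε / 4) * X ^ (G + ε / 4 + ε / 4)) * (1 + |τ|) ^ (3 * (M : ℝ)) := by ring
    _ ≤ H ^ M * X ^ (G + ε) * (1 + |τ|) ^ (3 * (M : ℝ)) := by
        have h6 : X ^ (ε / 4) * X ^ (G + ε / 4 + ε / 4) ≤ X ^ (G + ε) := by
          rw [← Real.rpow_add hX0]
          exact Real.rpow_le_rpow_of_exponent_le hX1.le (by linarith)
        gcongr

lemma Xn_u3' {a : BdX} (ha : a.ok) (β : Fin 3 → Eis) : Xn (u3' a) β = Xn (u3 a) β := by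
  unfold TEM792.Xn
  have e : ∑ i, (u3' a i).z = ∑ i, (u3 a i).z := by
    rw [ExP960.sum_u3' ha, ExP960.sum_u3]
  rw [e]

/-- **the window of `alX`** -/
theorem adm_alX {h : ℝ → ℝ} {R : ℝ} (hR0 : 0 ≤ R) (hR : ∀ u, cx h u ≠ 0 → |u| ≤ R) (P : DPar)
    (t : Eis) {a : BdX} (ha : a.ok) {β : Fin 3 → Eis} (hβ : ∀ i, IsPrim (β i)) :
    Adm (Xn (u3 a) β * Real.exp (3 * R)) (Xn (u3 a) β) (6 * R) (alX P h t a β) := by
  have h1 := adm_f3 hR0 hR P t (u3 a) hβ
  have h2 := adm_f3 hR0 hR P t (u3' a) hβ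
  rw [Xn_u3' ha] at h2
  have key : ∀ n, alX P h t a β n ≠ 0 → alb (fun i => pc h (Pt P t (u3 a i))) β n ≠ 0 ∨
      alb (fun i => pc h (Pt P t (u3' a i))) β n ≠ 0 := by
    intro n hn
    by_contra h0
    rw [not_or, not_not, not_not] at h0
    apply hn
    show ph a * alb (fun i => pc h (Pt P t (u3 a i))) β n +
      -ph' a * alb (fun i => pc h (Pt P t (u3' a i))) β n = 0
    rw [h0.1, h0.2, mul_zero, mul_zero, add_zero]
  refine ⟨fun n hn => ?_, fun n hn => ?_⟩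
  · rcases key n hn with h | h
    · exact h1.sup n h
    · exact h2.sup n h
  · rcases key n hn with h | h
    · exact h1.win n h
    · exact h2.win n h

end Crest.Agent.R017.TEX792
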