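import Crest.Agent.R017.RXXb_502
import Crest.Agent.R017.XVNc_792
import Crest.Agent.R017.PoHx_72

/-!
# Row 17, class E, x-side: (RH) of 372's `alX` in the two classes of frequencies (helper502)

* `RMm_sub` : the moment of a difference
* `cls_false`, `cls_true` : the classes of `PrU (t ^ 2 * k₀)` and the cubes
* `cop_alX` : the support of `alX`
* **`rh_alX`** : the two numbers
-/

set_option autoImplicit false
set_option linter.unusedVariables false
set_option maxHeartbeats 800000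

noncomputable section

open Complex MeasureTheory
open scoped ComplexConjugate

namespace Crest.Agent.R017.RXX502

open Crest.Agent.R012 Crest.Agent.R012.Eis Crest.Agent.R012.MC
open Crest.Agent.R012.LS2 (S mem_S bl mem_bl)
open Crest.Agent.R012.Weight600 (pw)
open Crest.Agent.R012.T411 (NCube)
open Crest.Agent.R017.CM106 (CS TG FS)
open Crest.Agent.R017.FE47
open Crest.Agent.R017.B770
open Crest.Agent.R017.Prov71
open Crest.Agent.R017.HP842 (sqc Pc pc)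
open Crest.Agent.R017.TP320 (tw)
open Crest.Agent.R017.NtC320 (gC cB cB_prim)
open Crest.Agent.R017.E1551 (jb jb_pos Adm)
open Crest.Agent.R017.PX764 (n6)
open Crest.Agent.R017.E3D579 (n6_nonneg)
open Crest.Agent.R017.Mode405 (Slp)
open Crest.Agent.R017.R3571
open Crest.Agent.R017.RHX116 (le_nm_cB card_prin wt_pr CS_gC_sub)
open Crest.Agent.R017.RHs241 (CS_triv)
open Crest.Agent.R017.E5k54 (alb)
open Crest.Agent.R017.TEM792 (LD nL Xn Xn_pos)
open Crest.Agent.R017.RXn770 (g3 alb_nat RMm_le_smul)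
open Crest.Agent.R017.I1146 (tw3)
open Crest.Agent.R017.ExP960 (BdX u3 u3' ph norm_ph)
open Crest.Agent.R017.E4Df372 (alX fs_alX)
open Crest.Agent.R017.Red848 (red Sh Exc exists_sh red_ok)
open Crest.Agent.R017.TEX792 (xN alX_eq zeX norm_zeX alb_prim' adm_alX xN_ne)
open Crest.Agent.R017.PoHx72 (Cls)

/-! ### the moment of a difference -/

/-- a shifted sequence -/
lemma FS_sh {α : Eis → ℂ} (hα : FS α) {d : Eis} (hd : IsPrim d) : FS (fun m => α (d * m)) :=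
  { fin := hα.fin.preimage (f := fun m => d * m) (fun x _ y _ hxy =>
      mul_left_cancel₀ hd.ne_zero hxy)
    prim := fun m hm => IsPrim.of_mul_left (hα.prim _ hm) hd }

lemma FS_sub' {α β : Eis → ℂ} (hα : FS α) (hβ : FS β) (z : ℂ) : FS (fun n => α n - z * β n) := by
  have key : ∀ n, α n - z * β n ≠ 0 → α n ≠ 0 ∨ β n ≠ 0 := by
    intro n hn
    by_contra h0
    rw [not_or, not_not, not_not] at h0
    exact hn (by rw [h0.1, h0.2]; ring)
  refine ⟨(hα.fin.union hβ.fin).subset fun n hn => ?_, fun n hn => ?_⟩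
  · rcases key n hn with h | h
    · exact Or.inl h
    · exact Or.inr h
  · rcases key n hn with h | h
    · exact hα.prim n h
    · exact hβ.prim n h

/-- **the moment of a difference** -/
lemma RMm_sub {A : ℝ} (hA : 1 < A) {α β : Eis → ℂ} (hα : FS α) (hβ : FS β) {z : ℂ} (hz : ‖z‖ ≤ 1)
    {d γ e : Eis} (hd : IsPrim d) (hγ : IsPrim γ) (he : IsPrim e) (φ r : Eis) :
    RMm A (fun m => α (d * m) - z * β (d * m)) e γ φ r ≤
      2 * (RMm A (fun m => α (d * m)) e γ φ r + RMm A (fun m => β (d * m)) e γ φ r) := by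
  have hab := FS_sub' hα hβ z
  have e1 : ∀ t, CS (rm (fun m => α (d * m) - z * β (d * m)) e γ φ t) r =
      CS (rm (fun m => α (d * m)) e γ φ t) r - z * CS (rm (fun m => β (d * m)) e γ φ t) r := by
    intro t
    have h1 := rm_gC (α := fun n => α n - z * β n) hab.prim hd hγ he φ t
    beta_reduce at h1
    rw [h1, rm_gC hα.prim hd hγ he, rm_gC hβ.prim hd hγ he]
    exact CS_gC_sub hα hβ z (hd.mul hγ).ne_zero _ _ _ _
  have i1 := integrable_RM hA (FS_sh hα hd) hγ.ne_zero e φ r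
  have i2 := integrable_RM hA (FS_sh hβ hd) hγ.ne_zero e φ r
  have i3 : Integrable fun t => jb A t *
      ‖CS (rm (fun m => α (d * m) - z * β (d * m)) e γ φ t) r‖ ^ 2 :=
    integrable_RM hA (FS_sh hab hd) hγ.ne_zero e φ r
  rw [RMm_eq, RMm_eq, RMm_eq, ← integral_add i1 i2, ← integral_const_mul]
  refine integral_mono i3 ((i1.add i2).const_mul 2) fun t => ?_
  beta_reduce
  rw [e1]
  have hj := (jb_pos A t).le
  set x := CS (rm (fun m => α (d * m)) e γ φ t) r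
  set y := CS (rm (fun m => β (d * m)) e γ φ t) r
  have h2 : ‖x - z * y‖ ≤ ‖x‖ + ‖y‖ := by
    refine (norm_sub_le _ _).trans ?_
    rw [norm_mul]
    exact add_le_add le_rfl (mul_le_of_le_one_left (norm_nonneg _) hz)
  have h3 : ‖x - z * y‖ ^ 2 ≤ 2 * (‖x‖ ^ 2 + ‖y‖ ^ 2) := by
    refine (pow_le_pow_left₀ (norm_nonneg _) h2 2).trans ?_
    nlinarith [sq_nonneg (‖x‖ - ‖y‖)]
  calc jb A t * ‖x - z * y‖ ^ 2 ≤ jb A t * (2 * (‖x‖ ^ 2 + ‖y‖ ^ 2)) :=
        mul_le_mul_of_nonneg_left h3 hj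
    _ = 2 * (jb A t * ‖x‖ ^ 2 + jb A t * ‖y‖ ^ 2) := by ring

/-- the twist by `s` (571's `RMm_tw`) -/
lemma RMm_tw (A : ℝ) (s : Eis) {al : Eis → ℂ} (hal : ∀ n, al n ≠ 0 → IsPrim n) {d : Eis}
    (hd : IsPrim d) {γ : Eis} (hγ : IsPrim γ) (e φ r : Eis) :
    RMm A (fun m => tw3 s al (d * m)) e γ φ r ≤ RMm A (fun m => al (d * m)) e γ φ (r * s) := by
  classical
  have h1 : ∀ t : ℝ, CS (rm (fun m => tw3 s al (d * m)) e γ φ t) r =
      sy s (d * γ) * CS (rm (fun m => al (d * m)) e γ φ t) (r * s) := by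
    intro t
    unfold CM106.CS
    rw [← tsum_mul_left]
    refine tsum_congr fun m => ?_
    unfold R3571.rm I1146.tw3
    by_cases h0 : al (d * (γ * m)) = 0
    · simp [h0]
    · have h2 := hal _ h0
      have hm : IsPrim m := (h2.of_mul_left hd).of_mul_left hγ
      have e1 : sy s (d * (γ * m)) = sy s (d * γ) * sy s m := by
        rw [← mul_assoc, Char766.sy_mul_right (hd.mul hγ) hm]
      have e2 : sy (r * s) m = sy r m * sy s m := Char766.sy_mul_left hm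
      simp only [e1, e2]
      split_ifs
      · ring
      · ring
  have h2 : ‖sy s (d * γ)‖ ≤ 1 := Char766.norm_sy_le (hd.mul hγ)
  rw [RMm_eq]
  have h3 : ∀ t : ℝ, jb A t * ‖CS (rm (fun m => tw3 s al (d * m)) e γ φ t) r‖ ^ 2 =
      ‖sy s (d * γ)‖ ^ 2 * (jb A t * ‖CS (rm (fun m => al (d * m)) e γ φ t) (r * s)‖ ^ 2) := by
    intro t
    rw [h1, norm_mul]
    ring
  simp only [h3]
  rw [MeasureTheory.integral_const_mul, ← RMm_eq]
  have h4 : ‖sy s (d * γ)‖ ^ 2 ≤ 1 := pow_le_one₀ (norm_nonneg _) h2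
  exact mul_le_of_le_one_left (RMm_nonneg _ _ _ _ _ _) h4

/-! ### the classes -/

/-- the natural frequency `r` is principal (744's `PrU u`, by `rfl`) -/
abbrev PrV (u : Eis) (r : Eis) : Prop := ∃ c₀ : Eis, r * u ^ 2 = c₀ ^ 3

lemma cls_false {t k₀ k : Eis} (ht : t ≠ 0) (hk₀ : k₀ ≠ 0) (hk : k ≠ 0)
    (h : Cls (PrV (t ^ 2 * k₀)) false k) : NCube (k * (t * k₀ ^ 2)) := by
  refine ⟨mul_ne_zero hk (mul_ne_zero ht (pow_ne_zero 2 hk₀)), fun m hm => ?_⟩
  have h1 : ¬ PrV (t ^ 2 * k₀) k := h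
  refine h1 ⟨m * t, ?_⟩
  have h2 : (m * t) ^ 3 = m ^ 3 * t ^ 3 := mul_pow m t 3
  rw [h2, ← hm]
  ring

lemma cls_true {t k₀ k : Eis} (ht : t ≠ 0) (h : Cls (PrV (t ^ 2 * k₀)) true k) :
    ¬ NCube (k * (t * k₀ ^ 2)) := by
  intro hN
  have h1 : PrV (t ^ 2 * k₀) k := h
  obtain ⟨c, hc⟩ := h1
  have h2 : k * (t * k₀ ^ 2) * t ^ 3 = c ^ 3 := by rw [← hc]; ring
  have hd : t ∣ c := (IsIntegrallyClosed.pow_dvd_pow_iff (by norm_num : (3 : ℕ) ≠ 0)).1
    ⟨k * (t * k₀ ^ 2), by rw [← h2]; ring⟩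
  obtain ⟨m, rfl⟩ := hd
  refine hN.2 m ?_
  have h3 : t ^ 3 ≠ 0 := pow_ne_zero 3 ht
  refine mul_right_cancel₀ h3 ?_
  rw [h2]; ring

variable {Λ : Type*} {π : Λ → DPar} {h : ℝ → ℝ}

/-- the support of `alX` is prime to `t ^ 2 * k₀` -/
lemma cop_alX {P : DPar} (hP : P.OK) (hE : Exc P) {k₀ : Eis} (hs : Sh P k₀) (h : ℝ → ℝ) {t : Eis}
    (ht : t ∈ SM P.n) {a : BdX} (ha : a.ok) {β : Fin 3 → Eis} (hβ : ∀ i, IsPrim (β i)) :
    ∀ n, alX P h t a β n ≠ 0 → IsCoprime (t ^ 2 * k₀) n := by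
  intro n hn
  rw [alX_eq hP hs h t ha hβ] at hn
  have h1 : xN h (red P) a β n ≠ 0 := by
    intro h0
    apply hn
    beta_reduce
    unfold I1146.tw3
    rw [h0]; ring
  have hPr : (red P).OK := red_ok hP hE
  have hnp : IsPrim n := by
    rcases xN_ne h1 with h2 | h2
    · exact alb_prim' hβ h2
    · exact alb_prim' hβ h2
  have hnn : IsCoprime n P.n := by
    rcases xN_ne h1 with h2 | h2
    · exact TEX792.alb_cop hPr h2
    · exact TEX792.alb_cop hPr h2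
  exact (IsCoprime.mul_right ((FE47.SM.coprime ht hnn).pow_right) (hs.cop hnp hnn)).symm

/-! ### the sup norm -/

lemma norm_alb3 {h : ℝ → ℝ} {A : ℝ} (hA : ∀ u, ‖cx h u‖ ≤ A) {P : DPar} (hP : P.OK)
    (p : Fin 3 → Pq) {β : Fin 3 → Eis} (hβ : ∀ i, IsPrim (β i)) (n : Eis) :
    ‖alb (fun i => pc h ((p i).pc P)) β n‖ ≤ (Div277.tau n : ℝ) ^ 3 * A ^ 3 := by
  obtain ⟨k, hk, h1⟩ := alb_nat (h := h) hP p hβ
  rw [h1, norm_mul]
  refine (mul_le_of_le_one_left (norm_nonneg _) hk).trans ?_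
  refine (HBs445.norm_sqc_le _ _ _).trans ?_
  have h2 := HBs445.norm_al_le (h := h) hA (s := fun i => (RXn770.ipb hP (p i) (β i)).pc)
    (fun i => TPOk571.IP.pc_OK _) n
  rwa [Fintype.card_fin] at h2

lemma norm_xN {h : ℝ → ℝ} {A : ℝ} (hA : ∀ u, ‖cx h u‖ ≤ A) {P : DPar} (hP : P.OK)
    (a : BdX) {β : Fin 3 → Eis} (hβ : ∀ i, IsPrim (β i)) (n : Eis) :
    ‖xN h P a β n‖ ≤ 2 * ((Div277.tau n : ℝ) ^ 3 * A ^ 3) := by
  unfold TEX792.xN
  refine (norm_sub_le _ _).trans ?_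
  rw [norm_mul, norm_zeX, one_mul]
  have h1 := norm_alb3 hA hP (u3 a) hβ n
  have h2 := norm_alb3 hA hP (u3' a) hβ n
  linarith

lemma norm_alX {h : ℝ → ℝ} {A : ℝ} (hA : ∀ u, ‖cx h u‖ ≤ A) {P : DPar} (hP : P.OK) (hE : Exc P)
    (t : Eis) {a : BdX} (ha : a.ok) {β : Fin 3 → Eis} (hβ : ∀ i, IsPrim (β i)) {n : Eis}
    (hn : IsPrim n) :
    ‖alX P h t a β n‖ ≤ 2 * ((Div277.tau n : ℝ) ^ 3 * A ^ 3) := by
  obtain ⟨k₀, hs⟩ := exists_sh hP.ψ hE
  rw [alX_eq hP hs h t ha hβ]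
  beta_reduce
  unfold I1146.tw3
  rw [norm_mul, norm_mul, norm_mul, norm_ph, one_mul]
  have h1 : ‖sy (t * k₀ ^ 2) (∏ i, β i)‖ ≤ 1 := Char766.norm_sy_le (HP842.isPrim_prod hβ)
  have h2 : ‖sy (t * k₀ ^ 2) n‖ ≤ 1 := Char766.norm_sy_le hn
  have h3 := norm_xN hA (red_ok hP hE) a hβ n
  calc _ ≤ 1 * (1 * ‖xN h (red P) a β n‖) := by gcongr
    _ ≤ _ := by rw [one_mul, one_mul]; exact h3

/-! ### slopes -/

lemma slp_sum {a : ℕ} {W W' : ℝ → ℝ} (h : Slp a W) (h' : Slp a W') :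
    Slp a (fun P => 2 * (W P + W' P)) := by
  refine ⟨fun P hP => ?_, fun P' P hP' hPP => ?_, fun P hP => ?_⟩
  · have h1 := h.nonneg P hP
    have h2 := h'.nonneg P hP
    positivity
  · have h1 := h.low P' P hP' hPP
    have h2 := h'.low P' P hP' hPP
    beta_reduce
    linarith
  · have h1 := h.dbl P hP
    have h2 := h'.dbl P hP
    beta_reduce
    linarith

lemma slp_third {a : ℕ} (ha : 1 ≤ a) {V : ℝ} (hV : 0 ≤ V) :
    Slp a (fun P => V * P ^ (1 / 3 : ℝ)) := by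
  refine ⟨fun P hP => by positivity, fun P' P hP' hPP => ?_, fun P hP => ?_⟩
  · have hP : 0 < P := by linarith
    have h1 : (0 : ℝ) < P ^ (1 / 3 : ℝ) := by positivity
    rw [Real.div_rpow hP'.le hP.le]
    refine le_of_eq ?_
    field_simp
  · have h1 : (2 : ℝ) ^ (1 / 3 : ℝ) ≤ 2 ^ a := by
      calc (2 : ℝ) ^ (1 / 3 : ℝ) ≤ 2 ^ (1 : ℝ) :=
            Real.rpow_le_rpow_of_exponent_le (by norm_num) (by norm_num)
        _ = 2 ^ 1 := by norm_num
        _ ≤ 2 ^ a := pow_le_pow_right₀ (by norm_num) ha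
    have h2 : (0 : ℝ) ≤ P ^ (1 / 3 : ℝ) := by positivity
    rw [Real.mul_rpow (by norm_num) hP.le]
    calc V * ((2 : ℝ) ^ (1 / 3 : ℝ) * P ^ (1 / 3 : ℝ)) =
          (2 : ℝ) ^ (1 / 3 : ℝ) * (V * P ^ (1 / 3 : ℝ)) := by ring
      _ ≤ 2 ^ a * (V * P ^ (1 / 3 : ℝ)) := by gcongr

lemma nL_u3' {X : ℝ} {a : BdX} (ha : a.ok) (β : Fin 3 → Eis) :
    nL X (u3' a) β = nL X (u3 a) β := by
  unfold TEM792.nL
  have e : ∑ i, (u3' a i).z = ∑ i, (u3 a i).z := by
    rw [ExP960.sum_u3' ha, ExP960.sum_u3]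
  rw [e]

/-- the class-E claim : 571's `rmx_NC` at `π := fun lam => red (π lam)` -/
def RClX (π : Λ → DPar) (h : ℝ → ℝ) (d : ℝ) : Prop := RClQ NCube (fun lam => red (π lam)) h d

lemma fs_alb0 {P : DPar} (hh : Bump h) (us : Fin 3 → Pq) {β : Fin 3 → Eis}
    (hβ : ∀ i, IsPrim (β i)) : FS (alb (fun i => pc h ((us i).pc P)) β) := by
  obtain ⟨R, hR⟩ := hh
  exact P1e54.FS_alb (fun i m hm => HP842.pc_support hR (Real.exp_pos _) hm) hβ

set_option maxHeartbeats 1600000 in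
open Classical in
/-- **(RH) of `alX`, the noncube class** -/
theorem rh_alX_nc {c₀ : ℝ} (hpu : PU h c₀) (hP : ∀ lam, (π lam).OK) (hE : ∀ lam, Exc (π lam))
    {d : ℝ} (hd : 0 ≤ d) (hd8 : d ≤ 1 / 8) (HR : RClX π h d) (lam : Λ) {ε : ℝ} (hε : 0 < ε)
    {K : ℝ} (hK : 1 ≤ K) :
    ∃ M aS A₀ : ℕ, 1 ≤ aS ∧ 2 ≤ A₀ ∧ ∀ k₀ : Eis, Sh (π lam) k₀ → ∀ t : Eis, t ∈ SM (π lam).n →
      ∃ X₀ : ℝ, 1 < X₀ ∧ ∀ X : ℝ, X₀ ≤ X → ∀ H : ℝ, 1 ≤ H →
      ∀ (a : BdX) (β : Fin 3 → Eis), a.ok → LD X K H (u3 a) β → LD X K H (u3' a) β →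
      ∀ u : ℝ, (∃ i, (u3 a i).z ≤ u * Real.log X) → (∃ i, (u3' a i).z ≤ u * Real.log X) →
      ∀ A : ℝ, (A₀ : ℝ) ≤ A →
      ∀ D e : Eis, IsPrim D → IsPrim e → (nm D : ℝ) ≤ X ^ K → (nm e : ℝ) ≤ X ^ K →
      ∀ P1 : ℝ, 0 < P1 → P1 ≤ X ^ K → ∃ W0 : ℝ → ℝ, Slp aS W0 ∧
        (∀ γ φ : Eis, IsPrim γ → IsPrim φ → (nm φ : ℝ) ≤ X ^ K → ∀ P : ℝ, 0 < P →
          (nm γ : ℝ) * n6 γ ^ 2 * ∑ k ∈ (bl P).filter (Cls (PrV (t ^ 2 * k₀)) false),
            RMm A (fun m => alX (π lam) h t a β (D * m)) e γ φ k ≤ W0 P) ∧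
        W0 P1 ≤ H ^ M * X ^ (max (Real.log P1 / Real.log X) (Real.log P1 / Real.log X / 3) +
          g3 d u (Real.log P1 / Real.log X) +
          2 / 3 * (nL X (u3 a) β - Real.log (nm D) / Real.log X) + ε) := by
  have hPr : ∀ lam, (red (π lam)).OK := fun lam => red_ok (hP lam) (hE lam)
  obtain ⟨M, aS, A₀, haS, H1⟩ := rhq_alb (π := fun lam => red (π lam)) hpu hPr hd hd8 NCube HR lam
    (show 0 < ε / 2 by positivity) hK
  refine ⟨M, aS, max A₀ 2, haS, le_max_right _ _, fun k₀ hs t ht => ?_⟩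
  set s : Eis := t * k₀ ^ 2 with hsd
  have hs0 : s ≠ 0 := mul_ne_zero ht.1 (pow_ne_zero 2 hs.k0)
  obtain ⟨X₁, hX₁, H2⟩ := H1 s hs0
  obtain ⟨X₂, hX₂, H3⟩ := XSup271.exists_X (C := 4) (by norm_num) (show 0 < ε / 2 by positivity)
  refine ⟨max X₁ X₂, lt_max_of_lt_left hX₁, ?_⟩
  intro X hX H hH a β ha hL1 hL2 u hu hu' A hA D e hD he hDK heK P1 hP1 hP1K
  have hXX1 : X₁ ≤ X := (le_max_left _ _).trans hX
  have hXX2 : X₂ ≤ X := (le_max_right _ _).trans hX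
  have hX1 : 1 < X := hX₁.trans_le hXX1
  have hX0 : 0 < X := by linarith
  have hA0 : (A₀ : ℝ) ≤ A := le_trans (by exact_mod_cast le_max_left A₀ 2) hA
  have hA2 : (2 : ℝ) ≤ A := le_trans (by exact_mod_cast le_max_right A₀ 2) hA
  obtain ⟨W, hW, b1, c1⟩ := H2 X hXX1 H hH (u3 a) β hL1 u hu A hA0 D e hD he hDK heK P1 hP1 hP1K
  obtain ⟨W', hW', b2, c2⟩ := H2 X hXX1 H hH (u3' a) β hL2 u hu' A hA0 D e hD he hDK heK P1 hP1
    hP1K
  refine ⟨fun P => 2 * (W P + W' P), slp_sum hW hW', ?_, ?_⟩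
  · intro γ φ hγ hφ hφK P hPP
    have d1 := b1 γ φ hγ hφ hφK P hPP
    have d2 := b2 γ φ hγ hφ hφK P hPP
    have hβ := hL1.bp
    have hFS := fs_alb0 (P := red (π lam)) (bump_of_cs hpu.cs) (u3 a) hβ
    have hFS' := fs_alb0 (P := red (π lam)) (bump_of_cs hpu.cs) (u3' a) hβ
    have hxp : ∀ n, xN h (red (π lam)) a β n ≠ 0 → IsPrim n := fun n hn => by
      rcases xN_ne hn with h2 | h2
      · exact alb_prim' hβ h2
      · exact alb_prim' hβ h2
    have key : ∀ k : Eis, RMm A (fun m => alX (π lam) h t a β (D * m)) e γ φ k ≤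
        2 * (RMm A (fun m => alb (fun i => pc h ((u3 a i).pc (red (π lam)))) β (D * m)) e γ φ
            (k * s) +
          RMm A (fun m => alb (fun i => pc h ((u3' a i).pc (red (π lam)))) β (D * m)) e γ φ
            (k * s)) := by
      intro k
      have q1 : ‖ph a * sy s (∏ i, β i)‖ ≤ 1 := by
        rw [norm_mul, norm_ph, one_mul]
        exact Char766.norm_sy_le (HP842.isPrim_prod hβ)
      have q2 : RMm A (fun m => alX (π lam) h t a β (D * m)) e γ φ k ≤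
          RMm A (fun m => tw3 s (xN h (red (π lam)) a β) (D * m)) e γ φ k :=
        RMm_le_smul q1 (fun m => by
          rw [alX_eq (hP lam) hs h t ha hβ]) _ _ _ _ (RMm_nonneg _ _ _ _ _ _)
      refine q2.trans ((RMm_tw A s hxp hD hγ e φ k).trans ?_)
      exact RMm_sub (by linarith) hFS hFS' (norm_zeX a).le hD hγ he φ (k * s)
    have hsub : (bl P).filter (Cls (PrV (t ^ 2 * k₀)) false) ⊆
        (bl P).filter (fun k => NCube (k * s)) := by
      intro k hk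
      obtain ⟨h1, h2⟩ := Finset.mem_filter.1 hk
      refine Finset.mem_filter.2 ⟨h1, ?_⟩
      rw [mem_bl hPP.le] at h1
      exact cls_false ht.1 hs.k0 h1.1 h2
    have hn6 := n6_nonneg γ
    have hc0 : 0 ≤ (nm γ : ℝ) * n6 γ ^ 2 := by positivity
    calc (nm γ : ℝ) * n6 γ ^ 2 * ∑ k ∈ (bl P).filter (Cls (PrV (t ^ 2 * k₀)) false),
            RMm A (fun m => alX (π lam) h t a β (D * m)) e γ φ k
        ≤ (nm γ : ℝ) * n6 γ ^ 2 * ∑ k ∈ (bl P).filter (fun k => NCube (k * s)),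
            2 * (RMm A (fun m => alb (fun i => pc h ((u3 a i).pc (red (π lam)))) β (D * m)) e γ φ
              (k * s) +
            RMm A (fun m => alb (fun i => pc h ((u3' a i).pc (red (π lam)))) β (D * m)) e γ φ
              (k * s)) := by
          refine mul_le_mul_of_nonneg_left ?_ hc0
          refine (Finset.sum_le_sum fun k _ => key k).trans ?_
          refine Finset.sum_le_sum_of_subset_of_nonneg hsub fun k _ _ => ?_
          have r1 := RMm_nonneg A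
            (fun m => alb (fun i => pc h ((u3 a i).pc (red (π lam)))) β (D * m)) e γ φ (k * s)
          have r2 := RMm_nonneg A
            (fun m => alb (fun i => pc h ((u3' a i).pc (red (π lam)))) β (D * m)) e γ φ (k * s)
          linarith
      _ = 2 * ((nm γ : ℝ) * n6 γ ^ 2 * ∑ k ∈ (bl P).filter (fun k => NCube (k * s)),
            RMm A (fun m => alb (fun i => pc h ((u3 a i).pc (red (π lam)))) β (D * m)) e γ φ
              (k * s) +
          (nm γ : ℝ) * n6 γ ^ 2 * ∑ k ∈ (bl P).filter (fun k => NCube (k * s)),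
            RMm A (fun m => alb (fun i => pc h ((u3' a i).pc (red (π lam)))) β (D * m)) e γ φ
              (k * s)) := by
          rw [← Finset.mul_sum, Finset.sum_add_distrib]
          ring
      _ ≤ 2 * (W P + W' P) := by
          have := add_le_add d1 d2
          linarith
  · rw [nL_u3' ha] at c2
    set E : ℝ := max (Real.log P1 / Real.log X) (Real.log P1 / Real.log X / 3) +
          g3 d u (Real.log P1 / Real.log X) +
          2 / 3 * (nL X (u3 a) β - Real.log (nm D) / Real.log X) with hEd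
    have h4 := H3 X hXX2
    have h5 : 0 ≤ H ^ M * X ^ (E + ε / 2) := by positivity
    beta_reduce
    calc 2 * (W P1 + W' P1) ≤ 2 * (H ^ M * X ^ (E + ε / 2) + H ^ M * X ^ (E + ε / 2)) := by
          linarith
      _ = 4 * (H ^ M * X ^ (E + ε / 2)) := by ring
      _ ≤ X ^ (ε / 2) * (H ^ M * X ^ (E + ε / 2)) := by gcongr
      _ = H ^ M * (X ^ (E + ε / 2) * X ^ (ε / 2)) := by ring
      _ = H ^ M * X ^ (E + ε) := by
          rw [← Real.rpow_add hX0]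
          congr 2
          ring

end Crest.Agent.R017.RXX502
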