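import Crest.Agent.R017.R4aq_579
import Crest.Agent.R017.ModeG_405
import Crest.Agent.R017.PoH21_347

/-!
# Row 17, x-side: the R-test of helper681's block theorem from the natural moments (helper347)

* `hW_of_f` : helper579's `hW_of_q` (after helper571's `hW_of`), sum over the divisors of `κ F`,
  `q` and `g` any primary elements
* `RXk κ₁ ..` : the R-test, the dilation `κ₁` of the base sequence is split like `κ`
* **`rx_of_RH`** : `RXk` from (RH)
-/

set_option autoImplicit false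
set_option maxHeartbeats 400000

noncomputable section

open Complex MeasureTheory
open scoped ComplexConjugate

namespace Crest.Agent.R017.RXt347

open Crest.Agent.R012 Crest.Agent.R012.Eis Crest.Agent.R012.MC
open Crest.Agent.R012.LS2 (S mem_S bl mem_bl)
open Crest.Agent.R012.Mob705 (pdiv mem_pdiv)
open Crest.Agent.R012.Weight600 (pw norm_pw pw_add_left)
open Crest.Agent.R017.CM106 (CS TG FS)
open Crest.Agent.R017.BD829 (TT EQ EQ_nonneg)
open Crest.Agent.R017.E1551 (jb jb_pos)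
open Crest.Agent.R017.Mode405 (VI bs Tst TV OK3 Slp TV_three Mul1)
open Crest.Agent.R017.GrB829 (IsC)
open Crest.Agent.R017.PX764 (n6 Gh n6_mul norm_sy_one)
open Crest.Agent.R017.E3D579 (bF bt b0 bt_mul bt_supp FS_b0 sy_mulL sy_mulR sy_conj_sq n6_nonneg)
open Crest.Agent.R017.R3571
open Gauss880 (syG)

open Classical in
/-- **(hW°) for the cell sequences** -/
theorem hW_of_f {A : ℝ} (hA : 1 < A) {ε : ℝ} (hε : 0 < ε) : ∃ C : ℝ, 0 ≤ C ∧ ∀ Z : ℝ, 1 ≤ Z →
    ∀ a : Eis → ℂ, FS a → (∀ n, a n ≠ 0 → Squarefree n) →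
    ∀ d e q g κ F c : Eis, IsPrim d → IsPrim e → IsPrim q → IsPrim g → IsPrim κ → IsPrim F →
    IsC c → (nm (q * g * κ * F) : ℝ) ≤ Z →
    ∀ W0 : ℝ → ℝ, (∀ γ π, IsPrim γ → IsPrim π → (nm π : ℝ) ≤ Z ^ 4 → ∀ P : ℝ, 0 < P →
      (nm γ : ℝ) * n6 γ ^ 2 * ∑ r ∈ bl P, RMm A a e γ π r ≤ W0 P) →
    ∀ γ φ x C3 : Eis, IsPrim γ → IsCoprime γ κ → φ ≠ 0 → x ≠ 0 → C3 ≠ 0 →
    φ * γ ^ 2 = x * C3 ^ 3 → (nm C3 : ℝ) ≤ Z ^ 2 → ∀ P : ℝ, 0 < P →
    ∑ d₁ ∈ pdiv (κ * F), (nm d₁ : ℝ)⁻¹ *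
      ((nm γ : ℝ) * VI A (bs (bF κ F (b0 a d e (q * c * g ^ 2))) d₁) γ φ 1 (nm d₁ * P / nm x)) ≤
      C * Z ^ ε * W0 (81 * (P * ((nm F : ℝ) ^ 2 * (nm q : ℝ) ^ 2 * nm g))) := by
  obtain ⟨C, hC, hτ⟩ := Div277.tau_le_rpow hε
  refine ⟨C, by linarith, ?_⟩
  intro Z hZ a ha hsf d e q g κ F c hd he hq hg hκ hF hc hnm W0 hW0 γ φ x C3 hγ hγκ hφ hx hC3
    hid hC3Z P hP
  have hN0 : κ * F ≠ 0 := (hκ.mul hF).ne_zero
  have hγ0 := nm_cast_pos hγ.ne_zero
  have hx0 := nm_cast_pos hx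
  set P' : ℝ := 81 * (P * ((nm F : ℝ) ^ 2 * (nm q : ℝ) ^ 2 * nm g)) with hP'
  have hnF := nm_cast_pos hF.ne_zero
  have hnq := nm_cast_pos hq.ne_zero
  have hng := nm_cast_pos hg.ne_zero
  have hP'0 : 0 < P' := by positivity
  set b : Eis → ℂ := bF κ F (b0 a d e (q * c * g ^ 2)) with hb
  have hW00 : 0 ≤ W0 P' := by
    refine le_trans ?_ (hW0 γ 1 hγ isPrim_one (by
      rw [nm_one, Nat.cast_one]; exact one_le_pow₀ hZ) P' hP'0)
    have := n6_nonneg γ
    exact mul_nonneg (by positivity) (Finset.sum_nonneg fun r _ => RMm_nonneg _ _ _ _ _ _)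
  -- one divisor
  have key : ∀ d₁ ∈ pdiv (κ * F), (nm d₁ : ℝ)⁻¹ *
      ((nm γ : ℝ) * VI A (bs b d₁) γ φ 1 (nm d₁ * P / nm x)) ≤ W0 P' := by
    intro d₁ hd₁
    rw [mem_pdiv hN0] at hd₁
    obtain ⟨hd₁p, hd₁d⟩ := hd₁
    have hd₁1 := one_le_nm hd₁p.ne_zero
    have hd₁0 : (0 : ℝ) < nm d₁ := by linarith
    have hinv : (nm d₁ : ℝ)⁻¹ ≤ 1 := inv_le_one_of_one_le₀ hd₁1
    -- the value at `k`
    have hval : ∀ k, EQ A (fun m => if IsCoprime m 1 then bs b d₁ (γ * m) else 0) (k * φ) ≤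
        EQ A (fun m => if IsCoprime m 1 then b (γ * m) else 0) (k * φ * d₁ ^ 2) := by
      intro k
      have hu : ∀ m, (if IsCoprime m 1 then b (γ * m) else 0) ≠ 0 → IsPrim m := by
        intro m hm
        rw [if_pos isCoprime_one_right] at hm
        exact ((E3D579.FS.bF hκ (FS_b0 ha d e _)).prim _ hm).of_mul_left hγ
      have e1 : (fun m => if IsCoprime m 1 then bs b d₁ (γ * m) else 0) =
          fun m => sy d₁ γ * (sy d₁ m * (if IsCoprime m 1 then b (γ * m) else 0)) := by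
        funext m
        rw [if_pos isCoprime_one_right, if_pos isCoprime_one_right]
        unfold Mode405.bs
        by_cases h0 : b (γ * m) = 0
        · rw [h0]; ring
        · have hm : IsPrim m := ((E3D579.FS.bF hκ (FS_b0 ha d e _)).prim _ h0).of_mul_left hγ
          rw [sy_mulR hγ hm]; ring
      rw [e1, E3D579.EQ_smul, E3D579.EQ_sy hu]
      have h1 : ‖sy d₁ γ‖ ^ 2 ≤ 1 := pow_le_one₀ (norm_nonneg _) (CF61.norm_sy_le d₁ γ)
      exact mul_le_of_le_one_left (EQ_nonneg _ _ _) h1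
    by_cases hcop : IsCoprime d₁ κ
    swap
    · -- not coprime: everything vanishes
      have hz : ∀ k, EQ A (fun m => if IsCoprime m 1 then bs b d₁ (γ * m) else 0) (k * φ) = 0 := by
        intro k
        have e1 : (fun m => if IsCoprime m 1 then bs b d₁ (γ * m) else 0) = fun _ => (0 : ℂ) := by
          funext m
          rw [if_pos isCoprime_one_right]
          unfold Mode405.bs
          by_cases h0 : b (γ * m) = 0
          · rw [h0, zero_mul]
          · have hgm := (E3D579.FS.bF hκ (FS_b0 ha d e _)).prim _ h0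
            have h1 : κ ∣ γ * m := by
              rw [hb] at h0
              unfold E3D579.bF at h0
              obtain ⟨n, hn, -⟩ := bt_supp hκ.ne_zero h0
              exact ⟨n, hn⟩
            have h2 : sy d₁ (γ * m) = 0 := (syG.eq_zero d₁ _ hgm).mpr fun h3 =>
              hcop (h3.of_isCoprime_of_dvd_right h1)
            rw [h2, mul_zero]
        rw [e1]
        unfold BD829.EQ BD829.TT CM106.TG
        simp
      have : VI A (bs b d₁) γ φ 1 (nm d₁ * P / nm x) = 0 := by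
        unfold Mode405.VI
        exact Finset.sum_eq_zero fun k _ => hz k
      rw [this]; simpa using hW00
    -- the decomposition
    have hd₁' : d₁ ∣ F := hcop.dvd_of_dvd_mul_left hd₁d
    obtain ⟨dq, q1, hdq, hq1, hqq, dg, g1, hdg, hg1, hgg, dF, F1, hdF, hF1, hFF, hdd⟩ :
        ∃ dq q1, IsPrim dq ∧ IsPrim q1 ∧ q = dq * q1 ∧ ∃ dg g1, IsPrim dg ∧ IsPrim g1 ∧
          g = dg * g1 ∧ ∃ dF F1, IsPrim dF ∧ IsPrim F1 ∧ F = dF * F1 ∧ d₁ = dq * dg * dF := by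
      obtain ⟨F1, hF1⟩ := hd₁'
      exact ⟨1, q, isPrim_one, hq, (one_mul q).symm, 1, g, isPrim_one, hg, (one_mul g).symm,
        d₁, F1, hd₁p, (hF1 ▸ hF : IsPrim (d₁ * F1)).of_mul_left hd₁p, hF1, by ring⟩
    have hcne := c_ne hc
    set f : Eis := q * c * g ^ 2 with hf
    set y : Eis := x * (c ^ 2 * (dq * q1 ^ 2 * dF * F1 ^ 2 * g1)) with hy
    set D : Eis := C3 * dq * dg ^ 2 * g1 * dF with hD
    have hy0 : y ≠ 0 := by
      refine mul_ne_zero hx (mul_ne_zero (pow_ne_zero _ hcne) ?_)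
      exact mul_ne_zero (mul_ne_zero (mul_ne_zero (mul_ne_zero hdq.ne_zero
        (pow_ne_zero _ hq1.ne_zero)) hdF.ne_zero) (pow_ne_zero _ hF1.ne_zero)) hg1.ne_zero
    have hR : ∀ k : Eis, k * φ * d₁ ^ 2 * (f * F * γ) ^ 2 = k * y * D ^ 3 := by
      intro k
      have e1 : k * φ * d₁ ^ 2 * (f * F * γ) ^ 2 = k * (φ * γ ^ 2) * (d₁ * f * F) ^ 2 := by ring
      rw [e1, hid, hf, hy, hD, hdd, hqq, hgg, hFF]
      ring
    have hπ0 : κ * q * g * dF * C3 ≠ 0 := mul_ne_zero (mul_ne_zero (mul_ne_zero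
      (mul_ne_zero hκ.ne_zero hq.ne_zero) hg.ne_zero) hdF.ne_zero) hC3
    obtain ⟨π, hπp, hπn, hπc⟩ := exists_pp hπ0
    have hπZ : (nm π : ℝ) ≤ Z ^ 4 := by
      refine hπn.trans ?_
      have hF1' := one_le_nm hF1.ne_zero
      have h1 : (nm (κ * q * g * dF) : ℝ) ≤ nm (q * g * κ * F) := by
        rw [hFF]
        simp only [nm_mul]
        push_cast
        have h2 : (0 : ℝ) ≤ nm κ * nm q * nm g * nm dF := by positivity
        calc (nm κ : ℝ) * nm q * nm g * nm dF ≤ nm κ * nm q * nm g * nm dF * nm F1 :=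
              le_mul_of_one_le_right h2 hF1'
          _ = _ := by ring
      rw [nm_mul]
      push_cast
      calc (nm (κ * q * g * dF) : ℝ) * nm C3 ≤ Z * Z ^ 2 := by
            have : (0 : ℝ) ≤ nm C3 := Nat.cast_nonneg _
            gcongr
            exact h1.trans hnm
        _ = Z ^ 3 := by ring
        _ ≤ Z ^ 4 := pow_le_pow_right₀ hZ (by norm_num)
    have hRM : ∀ k, RMm A a e γ (1 * (κ * f)) (k * φ * d₁ ^ 2 * (f * F * γ) ^ 2) =
        RMm A a e γ π (k * y) := by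
      intro k
      refine RMm_congr A ha hγ fun m hm h => ?_
      have hcc : IsCoprime m π ↔ IsCoprime m (κ * q * g * dF * C3) := (hπc m hm).symm
      have e2 : IsCoprime m D → sy (k * y * D ^ 3) m = sy (k * y) m := fun h1 =>
        PX764.sy_cube_left hm _ h1.symm
      rw [hR k]
      rcases h with ⟨h1, h2⟩ | ⟨h1, h2⟩
      · rw [hR k] at h2
        have h3 := cop_m h2 hm
        have h4 : IsCoprime m D := (IsCoprime.pow_right_iff (by norm_num)).1 h3.of_mul_right_right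
        rw [hD] at h4
        have h5 : IsCoprime m (κ * f) := h1.of_mul_right_right
        have h6 : IsCoprime m f := h5.of_mul_right_right
        rw [hf] at h6
        have h7 : IsCoprime m g := (IsCoprime.pow_right_iff (by norm_num)).1 h6.of_mul_right_right
        have h8 : IsCoprime m q := h6.of_mul_right_left.of_mul_right_left
        have h9 : IsCoprime m dF := h4.of_mul_right_right
        have h10 : IsCoprime m C3 :=
          h4.of_mul_right_left.of_mul_right_left.of_mul_right_left.of_mul_right_left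
        exact ⟨h1, hcc.2 ((((h5.of_mul_right_left.mul_right h8).mul_right h7).mul_right
          h9).mul_right h10), e2 h4⟩
      · have h3 := cop_m h2 hm
        have h4 := hcc.1 h1
        have h10 : IsCoprime m C3 := h4.of_mul_right_right
        have h9 : IsCoprime m dF := h4.of_mul_right_left.of_mul_right_right
        have h7 : IsCoprime m g := h4.of_mul_right_left.of_mul_right_left.of_mul_right_right
        have h8 : IsCoprime m q :=
          h4.of_mul_right_left.of_mul_right_left.of_mul_right_left.of_mul_right_right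
        have h11 : IsCoprime m κ :=
          h4.of_mul_right_left.of_mul_right_left.of_mul_right_left.of_mul_right_left
        have h12 : IsCoprime m y := h3.of_mul_right_right
        rw [hy] at h12
        have h13 : IsCoprime m c :=
          (IsCoprime.pow_right_iff (by norm_num)).1 h12.of_mul_right_right.of_mul_right_left
        have h14 : IsCoprime m f := (h8.mul_right h13).mul_right (h7.pow_right)
        have h15 : IsCoprime m dq := h8.of_isCoprime_of_dvd_right ⟨q1, hqq⟩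
        have h16 : IsCoprime m dg := h7.of_isCoprime_of_dvd_right ⟨g1, hgg⟩
        have h17 : IsCoprime m g1 := h7.of_isCoprime_of_dvd_right ⟨dg, by rw [hgg]; ring⟩
        have h18 : IsCoprime m D :=
          (((h10.mul_right h15).mul_right h16.pow_right).mul_right h17).mul_right h9
        exact ⟨isCoprime_one_right.mul_right (h11.mul_right h14), h1, e2 h18⟩
    have hinj : Set.InjOn (fun k : Eis => k * y) (bl (nm d₁ * P / nm x) : Set Eis) :=
      fun u _ v _ huv => mul_right_cancel₀ hy0 huv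
    have hny : (nm y : ℝ) * (nm d₁ * P / nm x) ≤ P' := by
      have h1 := nm_sq_c hc
      have e1 : (nm y : ℝ) * (nm d₁ * P / nm x) = nm (c ^ 2) * (P * ((nm F : ℝ) ^ 2 *
          (nm q : ℝ) ^ 2 * nm g)) := by
        rw [hy, hdd, hqq, hgg, hFF]
        simp only [nm_mul, nm_pow]
        push_cast
        field_simp
      rw [e1, hP']
      gcongr
    have hsum : VI A (bs b d₁) γ φ 1 (nm d₁ * P / nm x) ≤
        n6 γ ^ 2 * ∑ r ∈ bl P', RMm A a e γ π r := by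
      unfold Mode405.VI
      calc ∑ k ∈ bl (nm d₁ * P / nm x),
            EQ A (fun m => if IsCoprime m 1 then bs b d₁ (γ * m) else 0) (k * φ)
          ≤ ∑ k ∈ bl (nm d₁ * P / nm x), n6 γ ^ 2 * RMm A a e γ π (k * y) := by
            refine Finset.sum_le_sum fun k _ => (hval k).trans ?_
            rw [← hRM k]
            exact EQ_bF hA ha hsf d hκ hγ hγκ e f F 1 (k * φ * d₁ ^ 2)
        _ = n6 γ ^ 2 * ∑ r ∈ (bl (nm d₁ * P / nm x)).image (fun k => k * y),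
            RMm A a e γ π r := by rw [← Finset.mul_sum, Finset.sum_image hinj]
        _ ≤ n6 γ ^ 2 * ∑ r ∈ bl P', RMm A a e γ π r := by
            refine mul_le_mul_of_nonneg_left ?_ (by positivity)
            refine Finset.sum_le_sum_of_subset_of_nonneg ?_ fun r _ _ => RMm_nonneg _ _ _ _ _ _
            intro r hr
            obtain ⟨k, hk, rfl⟩ := Finset.mem_image.1 hr
            have hP1 : 0 ≤ (nm d₁ : ℝ) * P / nm x := by positivity
            rw [mem_bl hP1] at hk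
            rw [mem_bl hP'0.le]
            refine ⟨mul_ne_zero hk.1 hy0, ?_⟩
            rw [nm_mul]
            push_cast
            have hy1 : (0 : ℝ) ≤ nm y := Nat.cast_nonneg _
            calc (nm k : ℝ) * nm y ≤ (nm d₁ * P / nm x) * nm y :=
                  mul_le_mul_of_nonneg_right hk.2 hy1
              _ = nm y * (nm d₁ * P / nm x) := by ring
              _ ≤ P' := hny
    have hfin := hW0 γ π hγ hπp hπZ P' hP'0
    have hV0 : 0 ≤ (nm γ : ℝ) * (n6 γ ^ 2 * ∑ r ∈ bl P', RMm A a e γ π r) := by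
      have : 0 ≤ ∑ r ∈ bl P', RMm A a e γ π r :=
        Finset.sum_nonneg fun r _ => RMm_nonneg _ _ _ _ _ _
      positivity
    calc (nm d₁ : ℝ)⁻¹ * ((nm γ : ℝ) * VI A (bs b d₁) γ φ 1 (nm d₁ * P / nm x))
        ≤ (nm d₁ : ℝ)⁻¹ * ((nm γ : ℝ) * (n6 γ ^ 2 * ∑ r ∈ bl P', RMm A a e γ π r)) := by
          gcongr
      _ ≤ 1 * ((nm γ : ℝ) * (n6 γ ^ 2 * ∑ r ∈ bl P', RMm A a e γ π r)) :=
          mul_le_mul_of_nonneg_right hinv hV0
      _ = (nm γ : ℝ) * n6 γ ^ 2 * ∑ r ∈ bl P', RMm A a e γ π r := by ring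
      _ ≤ W0 P' := hfin
  -- the sum
  calc ∑ d₁ ∈ pdiv (κ * F), (nm d₁ : ℝ)⁻¹ *
      ((nm γ : ℝ) * VI A (bs b d₁) γ φ 1 (nm d₁ * P / nm x))
      ≤ ∑ d₁ ∈ pdiv (κ * F), W0 P' := Finset.sum_le_sum key
    _ = ((pdiv (κ * F)).card : ℝ) * W0 P' := by rw [Finset.sum_const, nsmul_eq_mul]
    _ ≤ C * Z ^ ε * W0 P' := by
        refine mul_le_mul_of_nonneg_right ?_ hW00
        have h1 : ((pdiv (κ * F)).card : ℝ) ≤ C * (nm (κ * F) : ℝ) ^ ε :=
          hτ _ hN0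
        have h2 : (nm (κ * F) : ℝ) ≤ nm (q * g * κ * F) := by
          have e : q * g * κ * F = (q * g) * (κ * F) := by ring
          rw [e, nm_mul (q * g) (κ * F)]
          push_cast
          exact le_mul_of_one_le_left (Nat.cast_nonneg _) (one_le_nm (hq.mul hg).ne_zero)
        refine h1.trans ?_
        have : (0 : ℝ) ≤ nm (κ * F) := Nat.cast_nonneg _
        have h3 := h2.trans hnm
        gcongr

/-- the R-test of one sequence `b`, dilated by `κ₁` : all the dilations `(κ, F)` with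
`κ F = κ₁ y`, `y` prime to `R` -/
def RXk (κ₁ : Eis) (OK : ℝ → ℝ → Eis → Set Tst → Prop) (ψ : Eis → ℂ) (aS A : ℕ)
    (c Z Nb ν : ℝ) (R ρ : Eis) (b : Eis → ℂ) (W1 : ℝ) : Prop :=
  ∀ κ F y : Eis, IsPrim κ → IsPrim F → Squarefree (κ * F) → κ * F = κ₁ * y → IsCoprime y R →
    (nm κ : ℝ) ≤ Z ^ 3 → (nm F : ℝ) ≤ Z ^ 5 →
    ∀ Z' Lt Y : ℝ, Z ≤ Z' → Nb * nm κ ≤ Z' → (nm κ : ℝ) ≤ Z' → 1 ≤ Lt → 1 ≤ Y →
      Nb * nm κ * Lt / Y * (nm F : ℝ) ^ 2 ≤ ν →
      ∃ (𝒯 : Set Tst) (W : ℝ → ℝ), OK Z' (Nb * nm κ) κ 𝒯 ∧ Slp aS W ∧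
        (∀ τ ∈ 𝒯, ∀ P : ℝ, 0 < P → ∑ e ∈ pdiv (ρ * (κ * F)),
          (nm e : ℝ)⁻¹ * TV τ A (fun m => bs (bF κ F b) e m * ψ m) (nm e * P) ≤ W P) ∧
        W (c * (Nb * nm κ * Lt / Y)) ≤ W1

/-- the twist goes into the inner sequence -/
lemma bF_psi {ψ : Eis → ℂ} (hψ : Mul1 ψ) {κ : Eis} (hκ : IsPrim κ) {a : Eis → ℂ} (ha : FS a)
    (F d e f s : Eis) :
    (fun m => bs (bF κ F (b0 a d e f)) s m * ψ m) =
      fun m => ψ κ * bs (bF κ F (b0 (fun n => a n * conj (ψ n)) d e f)) s m := by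
  classical
  funext n
  unfold Mode405.bs bF bt
  by_cases h : κ ∣ n
  swap
  · rw [if_neg h, if_neg h]; ring
  obtain ⟨m, rfl⟩ := h
  rw [if_pos (dvd_mul_right κ m), if_pos (dvd_mul_right κ m), mul_div_cancel_left₀ _ hκ.ne_zero]
  unfold b0
  beta_reduce
  by_cases h0 : a m = 0
  · rw [h0]; simp
  have hm : IsPrim m := ha.prim m h0
  rw [hψ.mul κ m hκ hm]
  split_ifs
  · simp only [map_mul, Complex.conj_conj]
    ring
  · ring

lemma VI_smul (A : ℝ) {c : ℂ} (hc : ‖c‖ ≤ 1) (b : Eis → ℂ) (γ φ : Eis) (P : ℝ) :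
    VI A (fun m => c * b m) γ φ 1 P ≤ VI A b γ φ 1 P := by
  classical
  unfold Mode405.VI
  refine Finset.sum_le_sum fun j _ => ?_
  have e1 : (fun m : Eis => if IsCoprime m 1 then c * b (γ * m) else 0) =
      fun m => c * (if IsCoprime m 1 then b (γ * m) else 0) := by
    funext m
    rw [if_pos isCoprime_one_right, if_pos isCoprime_one_right]
  rw [e1, E3D579.EQ_smul]
  exact mul_le_of_le_one_left (EQ_nonneg _ _ _) (pow_le_one₀ (norm_nonneg _) hc)

/-- **the R-test from the natural moments** -/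
theorem rx_of_RH {A : ℕ} (hA : 1 < A) {ε : ℝ} (hε : 0 < ε) : ∃ C : ℝ, 0 ≤ C ∧
    ∀ Z : ℝ, 1 ≤ Z → ∀ ψ : Eis → ℂ, Mul1 ψ →
    ∀ a : Eis → ℂ, FS a → (∀ n, a n ≠ 0 → Squarefree n) →
    ∀ d e q g κ₁ c : Eis, IsPrim d → IsPrim e → IsPrim q → IsPrim g → IsC c →
    (nm q : ℝ) ≤ Z → (nm g : ℝ) ≤ Z → ∀ Nb : ℝ, 0 < Nb → Nb ≤ Z →
    ∀ (aS : ℕ) (W0 : ℝ → ℝ), Slp aS W0 →
      (∀ γ π, IsPrim γ → IsPrim π → (nm π : ℝ) ≤ Z ^ 40 → ∀ P : ℝ, 0 < P →
        (nm γ : ℝ) * n6 γ ^ 2 * ∑ r ∈ bl P, RMm A (fun n => a n * conj (ψ n)) e γ π r ≤ W0 P) →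
    ∀ (cc ν : ℝ) (R : Eis) (W1 : ℝ), 0 < cc →
      C * Z ^ ε * W0 (81 * (cc * ν * ((nm q : ℝ) ^ 2 * nm g))) ≤ W1 →
      RXk κ₁ OK3 ψ aS A cc Z Nb ν R 1 (b0 a d e (q * c * g ^ 2)) W1 := by
  classical
  obtain ⟨C, hC, h⟩ := hW_of_f (A := (A : ℝ)) (by exact_mod_cast hA) (ε := ε / 10) (by positivity)
  refine ⟨C, hC, ?_⟩
  intro Z hZ ψ hψ a ha hsf d e q g κ₁ c hd he hq hg hc hqZ hgZ Nb hNb hNbZ aS W0 hW0 hRH cc ν R W1
    hcc hW1 κ F y hκ hF hsq hy hyR hκZ hFZ Z' Lt Y hZZ' hNκ hκZ' hLt hY hν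
  have hZ0 : 0 < Z := by linarith
  have hκn := nm_cast_pos hκ.ne_zero
  have hFn := nm_cast_pos hF.ne_zero
  have hqn := nm_cast_pos hq.ne_zero
  have hgn := nm_cast_pos hg.ne_zero
  set a' : Eis → ℂ := fun n => a n * conj (ψ n) with ha'
  have hFa' : FS a' := E3D579.FS.mul_right ha _
  have hsf' : ∀ n, a' n ≠ 0 → Squarefree n := fun n hn => hsf n (left_ne_zero_of_mul hn)
  set s : ℝ := 81 * ((nm F : ℝ) ^ 2 * ((nm q : ℝ) ^ 2 * nm g)) with hs
  have hs0 : 0 < s := by positivity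
  have hnm : (nm (q * g * κ * F) : ℝ) ≤ Z ^ 10 := by
    simp only [nm_mul]
    push_cast
    calc (nm q : ℝ) * nm g * nm κ * nm F ≤ Z * Z * Z ^ 3 * Z ^ 5 := by gcongr
      _ = Z ^ 10 := by ring
  have hZ10 : 1 ≤ Z ^ 10 := one_le_pow₀ hZ
  refine ⟨{τ | ∃ γ φ x C : Eis, IsPrim γ ∧ IsCoprime γ κ ∧ φ ≠ 0 ∧ x ≠ 0 ∧ C ≠ 0 ∧
      (nm C : ℝ) ≤ (Nb * nm κ) ^ 2 ∧ φ * γ ^ 2 = x * C ^ 3 ∧
      τ = ⟨{(γ, φ, 1)}, fun _ => (nm γ : ℝ), fun _ => (nm x : ℝ)⟩},
    fun P => C * Z ^ ε * W0 (s * P), ⟨hκ, hκZ', rfl⟩, ?_, ?_, ?_⟩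
  · have h1 := PoH347.slp_dil hW0 hs0
    have hc0 : 0 ≤ C * Z ^ ε := by positivity
    refine ⟨fun P hP => mul_nonneg hc0 (h1.nonneg P hP), fun P' P hP' hPP => ?_, fun P hP => ?_⟩
    · have h2 := mul_le_mul_of_nonneg_left (h1.low P' P hP' hPP) hc0
      refine h2.trans (le_of_eq ?_)
      ring
    · have h2 := mul_le_mul_of_nonneg_left (h1.dbl P hP) hc0
      refine h2.trans (le_of_eq ?_)
      ring
  · rintro τ ⟨γ, φ, x, C3, hγ, hγκ, hφ, hx, hC3, hC3N, hid, rfl⟩ P hP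
    have hxn := nm_cast_pos hx
    have hC3Z : (nm C3 : ℝ) ≤ (Z ^ 10) ^ 2 := by
      refine hC3N.trans ?_
      have h1 : Nb * nm κ ≤ Z ^ 4 := by
        calc Nb * nm κ ≤ Z * Z ^ 3 := by gcongr
          _ = Z ^ 4 := by ring
      calc (Nb * nm κ) ^ 2 ≤ (Z ^ 4) ^ 2 := pow_le_pow_left₀ (by positivity) h1 2
        _ ≤ (Z ^ 10) ^ 2 := pow_le_pow_left₀ (by positivity)
            (pow_le_pow_right₀ hZ (by norm_num)) 2
    have h1 := h (Z ^ 10) hZ10 a' hFa' hsf' d e q g κ F c hd he hq hg hκ hF hc hnm W0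
      (fun γ π h1 h2 h3 => hRH γ π h1 h2 (h3.trans (le_of_eq (by ring)))) γ φ x C3 hγ hγκ hφ hx hC3
      hid hC3Z P hP
    have e0 : (Z ^ 10) ^ (ε / 10) = Z ^ ε := by
      rw [← Real.rpow_natCast, ← Real.rpow_mul hZ0.le]
      congr 1; push_cast; ring
    rw [e0] at h1
    have e1 : 81 * (P * ((nm F : ℝ) ^ 2 * (nm q : ℝ) ^ 2 * nm g)) = s * P := by rw [hs]; ring
    rw [e1] at h1
    refine le_trans ?_ h1
    rw [one_mul]
    refine Finset.sum_le_sum fun s _ => ?_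
    refine mul_le_mul_of_nonneg_left ?_ (by positivity)
    rw [TV_three, bF_psi hψ hκ ha]
    refine mul_le_mul_of_nonneg_left ?_ (Nat.cast_nonneg _)
    exact VI_smul _ (hψ.le κ hκ) _ _ _ _
  · refine le_trans ?_ hW1
    refine mul_le_mul_of_nonneg_left ?_ (by positivity)
    have hY0 : 0 < Y := by linarith
    have hLt0 : 0 < Lt := by linarith
    refine PoH347.slp_mono hW0 (by positivity) ?_
    calc s * (cc * (Nb * nm κ * Lt / Y)) =
          81 * (cc * (Nb * nm κ * Lt / Y * (nm F : ℝ) ^ 2) * ((nm q : ℝ) ^ 2 * nm g)) := by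
          rw [hs]; ring
      _ ≤ 81 * (cc * ν * ((nm q : ℝ) ^ 2 * nm g)) := by gcongr

end Crest.Agent.R017.RXt347
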