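import Crest.Agent.R017.RXn2_770
import Crest.Agent.R017.RXt_347
import Crest.Agent.R017.XVNb_792

/-!
# Row 17, x-side of E4: the R-number of three lumps (helper770)

* `rm_tw` : an `S`-unit twist in the lumps is a shift of the frequency
* `b0_cube`, `rm_rq` : a cube in the conductor
* **`rx_num`** : the R-test of helper681's block theorem with one number
-/

set_option autoImplicit false
set_option linter.unusedVariables false
set_option maxHeartbeats 800000

noncomputable section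

open Complex MeasureTheory
open scoped ComplexConjugate

namespace Crest.Agent.R017.RXn770

open Crest.Agent.R012 Crest.Agent.R012.Eis Crest.Agent.R012.MC
open Crest.Agent.R012.LS2 (S mem_S bl mem_bl)
open Crest.Agent.R017.CM106 (CS TG FS)
open Crest.Agent.R017.FE47
open Crest.Agent.R017.B770
open Crest.Agent.R017.Prov71
open Crest.Agent.R017.HP842 (sqc Pc pc al)
open Crest.Agent.R017.GrB829 (IsC)
open Crest.Agent.R017.PX764 (n6)
open Crest.Agent.R017.E3D579 (n6_nonneg b0)
open Crest.Agent.R017.Mode405 (Slp Mul1 OK3)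
open Crest.Agent.R017.R3571
open Crest.Agent.R017.E5k54 (alb)
open Crest.Agent.R017.I1146 (tw3)
open Crest.Agent.R017.E5B71 (Pt)
open Crest.Agent.R017.TEM792 (LD nL)

variable {Λ : Type*} {π : Λ → DPar} {h : ℝ → ℝ}

lemma LD_mono {X K K' H : ℝ} {us : Fin 3 → Pq} {β : Fin 3 → Eis} (hX : 1 < X) (hK : K ≤ K')
    (h : LD X K H us β) : LD X K' H us β where
  lump := h.lump
  z0 := h.z0
  zK i := (h.zK i).trans (mul_le_mul_of_nonneg_right hK (Real.log_pos hX).le)
  dK i := (h.dK i).trans (Real.rpow_le_rpow_of_exponent_le hX.le hK)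
  tH := h.tH
  bp := h.bp
  bK i := (h.bK i).trans (Real.rpow_le_rpow_of_exponent_le hX.le hK)

/-- **an `S`-unit twist in the lumps is a shift of the frequency** -/
theorem rm_tw (A : ℝ) {P : DPar} {s : Eis} {n : ℕ} (us : Fin n → Pq) {β : Fin n → Eis}
    (hβ : ∀ i, IsPrim (β i)) {D : Eis} (hD : IsPrim D) (ψ : Eis → ℂ) {γ : Eis} (hγ : IsPrim γ)
    (e φ r : Eis) :
    RMm A (fun m => alb (fun i => pc h (Pt P s (us i))) β (D * m) * conj (ψ m)) e γ φ r ≤
      RMm A (fun m => alb (fun i => pc h ((us i).pc P)) β (D * m) * conj (ψ m)) e γ φ (r * s) := by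
  classical
  set a0 : Eis → ℂ := alb (fun i => pc h ((us i).pc P)) β with ha0
  have hprim : ∀ m, a0 m ≠ 0 → IsPrim m := fun m hm =>
    P1e54.alb_prim (fun i m hm => TEX792.pc_prim' hm) hβ hm
  have e1 : ∀ m, alb (fun i => pc h (Pt P s (us i))) β (D * m) * conj (ψ m) =
      (sy s (∏ i, β i) * sy s D) * (sy s m * (a0 (D * m) * conj (ψ m))) := by
    intro m
    have h1 := congrFun (TEX792.alb_tw (f := fun i => pc h ((us i).pc P))
      (f' := fun i => pc h (Pt P s (us i))) (fun i m hm => TEX792.pc_prim' hm) (s := s)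
      (fun i m => TEX792.pc_Pt h P s (us i) m) hβ) (D * m)
    rw [h1]
    unfold I1146.tw3
    by_cases h0 : a0 (D * m) = 0
    · rw [← ha0, h0]; ring
    have hm : IsPrim m := IsPrim.of_mul_left (hprim _ h0) hD
    rw [Char766.sy_mul_right hD hm]
    ring
  have hk : ‖sy s (∏ i, β i) * sy s D‖ ≤ 1 := by
    rw [norm_mul]
    exact mul_le_one₀ (PX764.norm_sy_le' (HP842.isPrim_prod hβ)) (norm_nonneg _)
      (PX764.norm_sy_le' hD)
  have hb : ∀ m, (fun m => a0 (D * m) * conj (ψ m)) (γ * m) ≠ 0 → IsPrim m := by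
    intro m hm
    have h1 := hprim _ (left_ne_zero_of_mul hm)
    exact IsPrim.of_mul_left (IsPrim.of_mul_left h1 hD) hγ
  have h2 := RMm_sy A (s := s) (a := fun m => a0 (D * m) * conj (ψ m)) hγ hb e φ r
  refine (RMm_le_smul hk e1 e γ φ r (RMm_nonneg _ _ _ _ _ _)).trans ?_
  rw [h2]
  exact mul_le_of_le_one_left (RMm_nonneg _ _ _ _ _ _)
    (pow_le_one₀ (norm_nonneg _) (PX764.norm_sy_le' hγ))

/-- change of the level -/
lemma lev_lip {d u i i' η : ℝ} (hd : 0 ≤ d) (hd8 : d ≤ 1 / 8) (hη : 0 ≤ η)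
    (h : i' ≤ i + η) :
    max i' (i' / 3) + g3 d u i' ≤ max i (i / 3) + g3 d u i + 2 * η := by
  have h1 := g3_lip (d := d) (u := u) (u' := u) (i := i) (i' := i') hd hd8 (a := 0) (b := η) le_rfl
    hη (by linarith) h
  have h2 : max i' (i' / 3) ≤ max i (i / 3) + η :=
    max_le (by linarith [le_max_left i (i / 3)]) (by linarith [le_max_right i (i / 3)])
  linarith

/-- the level may be raised -/
lemma lev_mono {d u i i' : ℝ} (hd : 0 ≤ d) (hd8 : d ≤ 1 / 8) (h : i' ≤ i) :
    max i' (i' / 3) + g3 d u i' ≤ max i (i / 3) + g3 d u i := by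
  have := lev_lip (u := u) hd hd8 le_rfl (by linarith : i' ≤ i + 0)
  linarith

open Classical in
/-- restriction of the coefficient -/
def rq (r D : Eis) (a : Eis → ℂ) (m : Eis) : ℂ := if IsCoprime r (D * m) then a m else 0

/-- a cube in the conductor -/
lemma b0_cube (a : Eis → ℂ) (hp : ∀ m, a m ≠ 0 → IsPrim m) (d e f : Eis) {r : Eis} :
    b0 a d e (f * r ^ 3) = b0 (rq r d a) d e f := by
  classical
  funext m
  by_cases ha : a m = 0
  · have h2 : rq r d a m = 0 := by unfold rq; rw [ha, ite_self]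
    unfold E3D579.b0
    rw [ha, h2]
    simp
  have hm := hp m ha
  unfold E3D579.b0
  by_cases hr : IsCoprime r (d * m)
  · have h1 : IsCoprime (f * r ^ 3) (d * m) ↔ IsCoprime f (d * m) :=
      ⟨fun h => h.of_mul_left_left, fun h => h.mul_left hr.pow_left⟩
    have h2 : rq r d a m = a m := by unfold rq; rw [if_pos hr]
    have h3 : PX764.Gh (f * r ^ 3) m = PX764.Gh f m := by
      unfold PX764.Gh
      rw [Char766.sy_mul_left hm, Char766.sy_cube_left hm hr.of_mul_right_right, mul_one]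
    rw [h1, h2, h3]
  · have h1 : ¬ IsCoprime (f * r ^ 3) (d * m) := fun h =>
      hr ((IsCoprime.pow_left_iff (by norm_num : 0 < 3)).1 h.of_mul_left_right)
    have h2 : rq r d a m = 0 := by unfold rq; rw [if_neg hr]
    rw [if_neg (fun h => h1 h.2), h2]
    simp

/-- the restricted moments -/
lemma rm_rq (A : ℝ) (r D : Eis) (a ψ : Eis → ℂ) (e γ φ k : Eis) :
    RMm A (fun m => rq r D a m * conj (ψ m)) e γ φ k ≤
      RMm A (fun m => a m * conj (ψ m)) e γ (φ * r) k := by
  classical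
  by_cases hr : IsCoprime r (D * γ)
  · refine le_of_eq ?_
    unfold R3571.RMm
    congr 1
    funext t
    congr 4
    funext m
    beta_reduce
    congr 1
    have h1 : IsCoprime r (D * (γ * m)) ↔ IsCoprime m r := by
      rw [← mul_assoc]
      exact ⟨fun h => h.of_mul_right_right.symm, fun h => hr.mul_right h.symm⟩
    unfold rq
    by_cases h2 : IsCoprime m r
    · have h3 : IsCoprime m (φ * r) ↔ IsCoprime m φ :=
        ⟨fun h => h.of_mul_right_left, fun h => h.mul_right h2⟩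
      rw [if_pos (h1.2 h2), h3]
    · have h3 : ¬ IsCoprime m (φ * r) := fun h => h2 h.of_mul_right_right
      rw [if_neg (fun h => h2 (h1.1 h))]
      simp only [zero_mul, ite_self]
      rw [if_neg (fun h => h3 h.2)]
  · have h0 : RMm A (fun m => rq r D a m * conj (ψ m)) e γ φ k = 0 := by
      unfold R3571.RMm
      have h1 : ∀ m, rq r D a (γ * m) = 0 := by
        intro m
        unfold rq
        rw [if_neg]
        intro h
        rw [← mul_assoc] at h
        exact hr h.of_mul_right_left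
      have h2 : ∀ t : ℝ, CS (fun m => (if e ∣ γ * m ∧ IsCoprime m φ then
          rq r D a (γ * m) * conj (ψ (γ * m)) * (n6 m : ℂ) else 0) * Weight600.pw t (nm m)) k =
            0 := by
        intro t
        unfold CM106.CS
        have : ∀ m : Eis, ((if e ∣ γ * m ∧ IsCoprime m φ then
            rq r D a (γ * m) * conj (ψ (γ * m)) * (n6 m : ℂ) else 0) * Weight600.pw t (nm m)) *
              sy k m = 0 := by
          intro m
          rw [h1]
          simp
        simp only [this, tsum_zero]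
      simp only [h2, norm_zero]
      simp
    rw [h0]
    exact RMm_nonneg _ _ _ _ _ _

/-- **the R-test with one number** -/
theorem rx_num {c₀ : ℝ} (hpu : PU h c₀) (hP : ∀ lam, (π lam).OK) {d : ℝ} (hd : 0 ≤ d)
    (hd8 : d ≤ 1 / 8) (HR : RCl π h d) (lam : Λ) {ε : ℝ} (hε : 0 < ε) {K : ℝ} (hK : 1 ≤ K) :
    ∃ M aS A₀ : ℕ, 1 ≤ aS ∧ ∀ s : Eis, s ≠ 0 → ∀ cc : ℝ, 0 < cc → ∀ A : ℕ, A₀ ≤ A → 1 < A →
      ∃ X₀ : ℝ, 1 < X₀ ∧ ∀ X : ℝ, X₀ ≤ X → ∀ H : ℝ, 1 ≤ H →
      ∀ (us : Fin 3 → Pq) (β : Fin 3 → Eis), LD X K H us β →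
      ∀ u : ℝ, (∃ i, (us i).z ≤ u * Real.log X) →
      ∀ (ψ α : Eis → ℂ), Mul1 ψ → FS α → (∀ n, α n ≠ 0 → Squarefree n) →
      ∀ D e q g r κ₁ c : Eis, IsPrim D → IsPrim e → IsPrim q → IsPrim g → IsPrim r → IsC c →
      (nm D : ℝ) ≤ X ^ K → (nm e : ℝ) ≤ X ^ K →
      (∀ (γ φ k : Eis), IsPrim γ → RMm A (fun m => α (D * m) * conj (ψ m)) e γ φ k ≤
        RMm A (fun m => alb (fun i => pc h ((us i).pc (π lam))) β (D * m)) e γ φ (k * s)) →
      ∀ Z : ℝ, 1 ≤ Z → Z ≤ X ^ K → (nm q : ℝ) ≤ Z → (nm g : ℝ) ≤ Z → (nm r : ℝ) ≤ Z →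
      ∀ Nb : ℝ, 0 < Nb → Nb ≤ Z → ∀ (ν i : ℝ) (R : Eis) (W1 : ℝ), 0 < ν → ν ≤ X ^ K →
      ν * ((nm q : ℝ) ^ 2 * nm g) ≤ X ^ i →
      H ^ M * X ^ (max i (i / 3) + g3 d u i +
          2 / 3 * (nL X us β - Real.log (nm D) / Real.log X) + ε) ≤ W1 →
      RXt347.RXk κ₁ OK3 ψ aS A cc Z Nb ν R 1
        (b0 (fun m => α (D * m)) D e (q * c * g ^ 2 * r ^ 3)) W1 := by
  classical
  obtain ⟨M, aS, A₀, haS, H1⟩ := rh_alb hpu hP hd hd8 HR lam (show 0 < ε / 4 by positivity)
    (K := 41 * K + 1) (by linarith)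
  have hK0 : 0 < K := by linarith
  refine ⟨M, aS, A₀, haS, fun s hs cc hcc A hA hA1 => ?_⟩
  obtain ⟨C, hC, H2⟩ := RXt347.rx_of_RH hA1 (show 0 < ε / (8 * K) by positivity)
  obtain ⟨X₁, hX₁, H3⟩ := H1 s hs
  set η : ℝ := min (ε / 8) 1 with hη
  have hη0 : 0 < η := lt_min (by linarith) one_pos
  have hη1 : η ≤ 1 := min_le_right _ _
  have hηε : η ≤ ε / 8 := min_le_left _ _
  set C' : ℝ := max 1 (max C (81 * cc)) with hC'
  have hC'1 : 1 ≤ C' := le_max_left _ _
  have hC'0 : 0 < C' := by linarith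
  refine ⟨max X₁ (Real.exp (Real.log C' / η)), lt_of_lt_of_le hX₁ (le_max_left _ _), ?_⟩
  intro X hX H hH us β hD u hu ψ α hψ hα hsf D e q g r κ₁ c hDp he hq hg hr hc hDK heK hT Z hZ hZK
    hqZ hgZ hrZ Nb hNb hNbZ ν i R W1 hν hνK hi hW1
  have hXX : X₁ ≤ X := (le_max_left _ _).trans hX
  have hX1 : 1 < X := lt_of_lt_of_le hX₁ hXX
  have hX0 : 0 < X := by linarith
  set L := Real.log X with hL
  have hL0 : 0 < L := Real.log_pos hX1
  have hCL : Real.log C' ≤ η * L := by
    have h1 : Real.log C' / η ≤ L := (Real.le_log_iff_exp_le hX0).2 ((le_max_right _ _).trans hX)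
    rw [div_le_iff₀ hη0] at h1
    linarith
  have hCX : C' ≤ X ^ η := by
    rw [← Real.exp_log hC'0, Real.rpow_def_of_pos hX0]
    exact Real.exp_le_exp.2 (by linarith)
  have hKX : X ^ K ≤ X ^ (41 * K + 1) := Real.rpow_le_rpow_of_exponent_le hX1.le (by linarith)
  have hqn := nm_cast_pos hq.ne_zero
  have hgn := nm_cast_pos hg.ne_zero
  set m0 : ℝ := ν * ((nm q : ℝ) ^ 2 * nm g) with hm0
  have hm00 : 0 < m0 := by positivity
  set P1 : ℝ := 81 * (cc * ν * ((nm q : ℝ) ^ 2 * nm g)) with hP1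
  have hP1e : P1 = 81 * cc * m0 := by rw [hP1, hm0]; ring
  have hP10 : 0 < P1 := by positivity
  have h81 : 81 * cc ≤ X ^ η := ((le_max_right _ _).trans (le_max_right _ _)).trans hCX
  have hP1K : P1 ≤ X ^ (41 * K + 1) := by
    rw [hP1e, hm0]
    calc 81 * cc * (ν * ((nm q : ℝ) ^ 2 * nm g)) ≤ X ^ η * (X ^ K * ((X ^ K) ^ 2 * X ^ K)) := by
          have h1 := hqZ.trans hZK
          have h2 := hgZ.trans hZK
          gcongr
      _ = X ^ (η + (K + (K * 2 + K))) := by
          rw [Real.rpow_add hX0, Real.rpow_add hX0, Real.rpow_add hX0, Real.rpow_mul hX0.le]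
          norm_cast
      _ ≤ X ^ (41 * K + 1) := Real.rpow_le_rpow_of_exponent_le hX1.le (by linarith)
  obtain ⟨W0, hW0, hRH, hW0P⟩ := H3 X hXX H hH us β (LD_mono hX1 (by linarith) hD) u hu A
    (by exact_mod_cast hA) D e hDp he (hDK.trans hKX) (heK.trans hKX) P1 hP10 hP1K
  have hFD : FS (fun m => α (D * m)) := hα.sub hDp
  rw [b0_cube _ (fun m hm => hFD.prim m hm)]
  have hFr : FS (rq r D fun m => α (D * m)) := by
    refine ⟨hFD.fin.subset fun m hm h0 => hm ?_, fun m hm => hFD.prim m fun h0 => hm ?_⟩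
    · unfold rq
      beta_reduce
      rw [show α (D * m) = 0 from h0, ite_self]
    · unfold rq
      beta_reduce
      rw [h0, ite_self]
  refine H2 Z hZ ψ hψ (rq r D fun m => α (D * m)) hFr (fun n hn => ?_) D e
    q g κ₁ c hDp he hq hg hc hqZ hgZ Nb hNb hNbZ aS W0 hW0 (fun γ φ hγ hφ hφZ P hPP => ?_) cc ν R
    W1 hcc ?_
  · refine (hsf (D * n) fun h0 => hn ?_).of_mul_right
    unfold rq
    beta_reduce
    rw [h0, ite_self]
  · have hφK : (nm (φ * r) : ℝ) ≤ X ^ (41 * K + 1) := by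
      rw [nm_mul]
      push_cast
      calc (nm φ : ℝ) * nm r ≤ (X ^ K) ^ 40 * X ^ K := by
            have h1 : (nm φ : ℝ) ≤ (X ^ K) ^ 40 :=
              hφZ.trans (pow_le_pow_left₀ (by linarith) hZK 40)
            have h2 := hrZ.trans hZK
            gcongr
        _ = X ^ (K * 40 + K) := by
            rw [Real.rpow_add hX0, Real.rpow_mul hX0.le]; norm_cast
        _ ≤ X ^ (41 * K + 1) := Real.rpow_le_rpow_of_exponent_le hX1.le (by linarith)
    refine le_trans ?_ (hRH γ (φ * r) hγ (hφ.mul hr) hφK P hPP)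
    refine mul_le_mul_of_nonneg_left (Finset.sum_le_sum fun k _ => ?_) ?_
    · exact (rm_rq _ _ _ _ _ _ _ _ _).trans (hT γ (φ * r) k hγ)
    · have := n6_nonneg γ
      positivity
  · refine le_trans ?_ hW1
    have him : Real.log m0 / L ≤ i := by
      rw [div_le_iff₀ hL0]
      have h2 := Real.log_le_log hm00 hi
      rwa [Real.log_rpow hX0] at h2
    have hi' : Real.log P1 / L ≤ i + η := by
      refine le_trans ?_ (add_le_add_left him η)
      rw [hP1e, Real.log_mul (by positivity) hm00.ne', div_le_iff₀ hL0, add_mul,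
        div_mul_cancel₀ _ hL0.ne']
      have h1 : Real.log (81 * cc) ≤ η * L := by
        have h2 := Real.log_le_log (by positivity) h81
        rwa [Real.log_rpow hX0] at h2
      linarith
    have h1 := lev_lip (d := d) (u := u) hd hd8 hη0.le hi'
    have hZε : Z ^ (ε / (8 * K)) ≤ X ^ (ε / 8) := by
      calc Z ^ (ε / (8 * K)) ≤ (X ^ K) ^ (ε / (8 * K)) :=
            Real.rpow_le_rpow (by linarith) hZK (by positivity)
        _ = X ^ (ε / 8) := by
            rw [← Real.rpow_mul hX0.le]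
            congr 1
            field_simp
    have hCC : C ≤ X ^ η := ((le_max_left _ _).trans (le_max_right _ _)).trans hCX
    have hW00 : 0 ≤ W0 P1 := hW0.nonneg P1 hP10
    set E0 : ℝ := 2 / 3 * (nL X us β - Real.log (nm D) / L) with hE0
    calc C * Z ^ (ε / (8 * K)) * W0 P1 ≤ X ^ η * X ^ (ε / 8) *
          (H ^ M * X ^ (max (Real.log P1 / L) (Real.log P1 / L / 3) +
            g3 d u (Real.log P1 / L) + E0 + ε / 4)) := by gcongr
      _ = H ^ M * X ^ (η + (ε / 8 + (max (Real.log P1 / L) (Real.log P1 / L / 3) +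
            g3 d u (Real.log P1 / L) + E0 + ε / 4))) := by
          rw [Real.rpow_add hX0 η, Real.rpow_add hX0 (ε / 8)]
          ring
      _ ≤ _ := by
          refine mul_le_mul_of_nonneg_left ?_ (by positivity)
          refine Real.rpow_le_rpow_of_exponent_le hX1.le ?_
          linarith

end Crest.Agent.R017.RXn770
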