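import Crest.Agent.R017.XVNc_792
import Crest.Agent.R017.RXn3_770

/-!
# Row 17, x-side of E4, class E: the cube class of the R-test of `alX` with the bias (helper770)

* `card_prin` : the frequencies of one class
* `CS_prin` : the principal values are values of the bias
* `RM_all'` : all levels (helper116's `RM_all`)
* **`rh_cubeX`** : (RH) at the principal frequencies, with the bias
-/

set_option autoImplicit false
set_option linter.unusedVariables false
set_option maxHeartbeats 1600000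

noncomputable section

open Complex MeasureTheory
open scoped ComplexConjugate

namespace Crest.Agent.R017.RXn770

open Crest.Agent.R012 Crest.Agent.R012.Eis Crest.Agent.R012.MC
open Crest.Agent.R012.LS2 (S mem_S bl mem_bl)
open Crest.Agent.R012.Weight600 (pw norm_pw)
open Crest.Agent.R017.CM106 (CS TG FS)
open Crest.Agent.R017.FE47
open Crest.Agent.R017.End699 (prin0)
open Crest.Agent.R017.B770
open Crest.Agent.R017.Prov71
open Crest.Agent.R017.HP842 (sqc Pc pc al)
open Crest.Agent.R017.E1551 (tws sg jb jb_pos)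
open Crest.Agent.R017.TEL792 (PM)
open Crest.Agent.R017.PX764 (n6 n6_mul n6_pos n6_le_one)
open Crest.Agent.R017.E3D579 (n6_nonneg)
open Crest.Agent.R017.Mode405 (Slp)
open Crest.Agent.R017.R3571
open Crest.Agent.R017.NtC320 (gC gC_ne gC_fin cg cB cg_prim cB_prim gp_cg gp_cB cB_dvd cg_dvd)
open Crest.Agent.R017.StA828 (gp)
open Crest.Agent.R017.TP320 (tw)
open Crest.Agent.R017.E5k54 (alb)
open Crest.Agent.R017.I1146 (tw3)
open Crest.Agent.R017.E5B71 (Pt)
open Crest.Agent.R017.TEM792 (LD nL Xn Xn_pos)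
open Crest.Agent.R017.TEX792
open Crest.Agent.R017.RX241 (Md)
open Crest.Agent.R017.ExP960 (BdX u3 u3' ph ph' norm_ph)
open Crest.Agent.R017.E4Df372 (alX fs_alX)
open Crest.Agent.R017.Red848 (red Sh Exc exists_sh red_ok)

/-- the principal frequencies of one class -/
lemma card_prin {u : Eis} (hu : u ≠ 0) {Λ : ℝ} (hΛ : 0 < Λ) {T : Finset Eis} (hT : T ⊆ bl Λ)
    (hTu : ∀ k ∈ T, ∃ c : Eis, k * u ^ 2 = c ^ 3) :
    (T.card : ℝ) ≤ 16 * (Λ * (nm u : ℝ) ^ 2) ^ (1 / 3 : ℝ) := by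
  classical
  set Y : ℝ := (Λ * (nm u : ℝ) ^ 2) ^ (1 / 3 : ℝ) with hYd
  have hY : 0 ≤ Y := by positivity
  have h1 : ∀ k ∈ T, ∃ c, c ∈ bl Y ∧ k * u ^ 2 = c ^ 3 := by
    intro k hk
    obtain ⟨c, hc⟩ := hTu k hk
    have hk1 := hT hk
    rw [mem_bl hΛ.le] at hk1
    refine ⟨c, ?_, hc⟩
    rw [mem_bl hY]
    refine ⟨fun h0 => ?_, ?_⟩
    · have : k * u ^ 2 = 0 := by rw [hc, h0]; ring
      exact mul_ne_zero hk1.1 (pow_ne_zero 2 hu) this
    · have e : (nm k : ℝ) * (nm u : ℝ) ^ 2 = (nm c : ℝ) ^ 3 := by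
        have h2 := congrArg nm hc
        rw [nm_mul, nm_pow, nm_pow] at h2
        exact_mod_cast h2
      have h3 : (nm c : ℝ) ^ 3 ≤ Λ * (nm u : ℝ) ^ 2 := by
        rw [← e]
        exact mul_le_mul_of_nonneg_right hk1.2 (by positivity)
      calc (nm c : ℝ) = ((nm c : ℝ) ^ 3) ^ (1 / 3 : ℝ) := by
            rw [← Real.rpow_natCast, ← Real.rpow_mul (Nat.cast_nonneg _)]
            norm_num
        _ ≤ Y := Real.rpow_le_rpow (by positivity) h3 (by norm_num)
  choose! f hf using h1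
  have hinj : Set.InjOn f T := by
    intro x hx y hy hxy
    have h2 := (hf x hx).2
    have h3 := (hf y hy).2
    rw [hxy, ← h3] at h2
    exact mul_right_cancel₀ (pow_ne_zero 2 hu) h2
  have h4 : T.card ≤ (bl Y).card := by
    rw [← Finset.card_image_of_injOn hinj]
    refine Finset.card_le_card fun c hc => ?_
    obtain ⟨k, hk, rfl⟩ := Finset.mem_image.1 hc
    exact (hf k hk).1
  have h5 : (T.card : ℝ) ≤ (bl Y).card := by exact_mod_cast h4
  exact h5.trans (CR2.card_bl_le hY)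

/-- the symbols of a principal frequency -/
lemma sy_prin {k s t c m : Eis} (hm : IsPrim m) (hk : k * s * t ^ 3 = c ^ 3) (hs : IsCoprime s m)
    (ht : IsCoprime t m) (hkm : IsCoprime k m) : sy k m * sy s m = 1 := by
  have hcm : IsCoprime c m := by
    have h1 : IsCoprime (c ^ 3) m := by
      rw [← hk]
      exact (hkm.mul_left hs).mul_left ht.pow_left
    exact (IsCoprime.pow_left_iff (by norm_num : 0 < 3)).1 h1
  have e1 : sy (k * s * t ^ 3) m = sy k m * sy s m := by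
    rw [Char766.sy_mul_left hm, Char766.sy_mul_left hm, Char766.sy_cube_left hm ht, mul_one]
  rw [← e1, hk, Char766.sy_cube_left hm hcm]

open Classical in
/-- **the principal values of the subsequences are values of the bias** -/
theorem CS_prin {x : Eis → ℂ} (hp : ∀ n, x n ≠ 0 → IsPrim n)
    (hsf : ∀ n, x n ≠ 0 → Squarefree n) {s t k c : Eis} (ht : ∀ n, x n ≠ 0 → IsCoprime t n)
    (hsc : ∀ n, x n ≠ 0 → IsCoprime s n) (hk : k * s * t ^ 3 = c ^ 3) {κ : ℂ} (hκ : ‖κ‖ ≤ 1)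
    {δ e : Eis} (hδ : IsPrim δ) (he : IsPrim e) (π : Eis) (τ : ℝ) :
    ‖CS (gC (fun m => κ * tw3 s x m) δ e π (tw (1 / 6) τ)) k‖ ≤
      n6 e * ‖Md (PM π (tws (sg x (δ * e)) τ)) k‖ := by
  have hn6 := n6_nonneg e
  by_cases heπ : IsCoprime e π
  swap
  · have h0 : ∀ m, gC (fun m => κ * tw3 s x m) δ e π (tw (1 / 6) τ) m = 0 := by
      intro m
      unfold NtC320.gC
      rw [if_neg]
      rintro ⟨⟨m', rfl⟩, h2⟩
      exact heπ h2.of_mul_left_left
    have h1 : CS (gC (fun m => κ * tw3 s x m) δ e π (tw (1 / 6) τ)) k = 0 := by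
      unfold CM106.CS
      simp only [h0, zero_mul, tsum_zero]
    rw [h1, norm_zero]
    positivity
  have hδe : IsPrim (δ * e) := hδ.mul he
  set C' : ℂ := κ * sy s (δ * e) * sy k e * (n6 e : ℂ) * pw τ (nm e) with hC'
  have key : ∀ m : Eis, gC (fun m => κ * tw3 s x m) δ e π (tw (1 / 6) τ) (e * m) * sy k (e * m) =
      C' * (PM π (tws (sg x (δ * e)) τ) m * (PX764.md k m : ℂ)) := by
    intro m
    by_cases hx : x (δ * e * m) = 0
    · have e1 : x (δ * (e * m)) = 0 := by rw [← mul_assoc]; exact hx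
      have e2 : gC (fun m => κ * tw3 s x m) δ e π (tw (1 / 6) τ) (e * m) = 0 := by
        unfold NtC320.gC I1146.tw3
        beta_reduce
        rw [e1]
        simp
      have e3 : PM π (tws (sg x (δ * e)) τ) m = 0 := by
        unfold TEL792.PM E1551.tws E1551.sg
        rw [hx]
        simp
      rw [e2, e3]
      ring
    have hgm := hp _ hx
    have hm : IsPrim m := IsPrim.of_mul_left hgm hδe
    have hem : IsPrim (e * m) := he.mul hm
    have hms : Squarefree m := (hsf _ hx).of_mul_right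
    have htm : IsCoprime t m := (ht _ hx).of_mul_right_right
    have hsm : IsCoprime s m := (hsc _ hx).of_mul_right_right
    have ne0 : (nm e : ℝ) ≠ 0 := by
      have := nm_cast_pos he.ne_zero
      exact this.ne'
    have nm0 : (nm m : ℝ) ≠ 0 := by
      have := nm_cast_pos hm.ne_zero
      exact this.ne'
    have etw : tw (1 / 6) τ (e * m) = (n6 e : ℂ) * pw τ (nm e) * ((n6 m : ℂ) * pw τ (nm m)) := by
      rw [tw_n6 τ hem.ne_zero, n6_mul, nm_mul]
      push_cast
      rw [Weight600.pw_mul ne0 nm0]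
      ring
    have es : sy s (δ * (e * m)) = sy s (δ * e) * sy s m := by
      rw [← mul_assoc, Char766.sy_mul_right hδe hm]
    have ek : sy k (e * m) = sy k e * sy k m := Char766.sy_mul_right he hm
    have ex : x (δ * (e * m)) = x (δ * e * m) := by rw [mul_assoc]
    by_cases hmπ : IsCoprime m π
    swap
    · have e2 : gC (fun m => κ * tw3 s x m) δ e π (tw (1 / 6) τ) (e * m) = 0 := by
        unfold NtC320.gC
        rw [if_neg]
        rintro ⟨-, h2⟩
        exact hmπ h2.of_mul_left_right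
      have e3 : PM π (tws (sg x (δ * e)) τ) m = 0 := by
        unfold TEL792.PM End699.prin0
        rw [if_neg hmπ, mul_zero]
      rw [e2, e3]
      ring
    have e2 : gC (fun m => κ * tw3 s x m) δ e π (tw (1 / 6) τ) (e * m) =
        κ * (sy s (δ * e) * sy s m * x (δ * e * m)) *
          ((n6 e : ℂ) * pw τ (nm e) * ((n6 m : ℂ) * pw τ (nm m))) := by
      unfold NtC320.gC
      rw [if_pos ⟨dvd_mul_right _ _, heπ.mul_left hmπ⟩, etw]
      unfold I1146.tw3
      beta_reduce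
      rw [es, ex]
    have e3 : PM π (tws (sg x (δ * e)) τ) m = x (δ * e * m) * pw τ (nm m) := by
      unfold TEL792.PM E1551.tws E1551.sg End699.prin0
      rw [if_pos hmπ, mul_one]
    by_cases hkm : IsCoprime m k
    · have e4 : PX764.md k m = n6 m := by
        unfold PX764.md
        rw [if_pos ⟨hms, hkm⟩]
      have e5 := sy_prin hm hk hsm htm hkm.symm
      rw [e2, e3, e4, ek, hC']
      linear_combination (κ * sy s (δ * e) * x (δ * e * m) * ((n6 e : ℂ) * pw τ (nm e) *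
        ((n6 m : ℂ) * pw τ (nm m))) * sy k e) * e5
    · have e4 : PX764.md k m = 0 := by
        unfold PX764.md
        rw [if_neg fun h => hkm h.2]
      have e5 : sy k m = 0 := by
        by_contra h0
        exact hkm (cop_m h0 hm)
      rw [e2, e3, e4, ek, e5]
      push_cast
      ring
  have hinj : Function.Injective (fun m : Eis => e * m) := fun a b h =>
    mul_left_cancel₀ he.ne_zero h
  have hsupp : Function.support (fun m => gC (fun m => κ * tw3 s x m) δ e π (tw (1 / 6) τ) m *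
      sy k m) ⊆ Set.range (fun m : Eis => e * m) := by
    intro m hm
    have h1 : gC (fun m => κ * tw3 s x m) δ e π (tw (1 / 6) τ) m ≠ 0 :=
      left_ne_zero_of_mul hm
    obtain ⟨⟨⟨m', rfl⟩, -⟩, -⟩ := gC_ne h1
    exact ⟨m', rfl⟩
  have e1 : CS (gC (fun m => κ * tw3 s x m) δ e π (tw (1 / 6) τ)) k =
      C' * Md (PM π (tws (sg x (δ * e)) τ)) k := by
    unfold CM106.CS RX241.Md
    rw [← hinj.tsum_eq hsupp, ← tsum_mul_left]
    exact tsum_congr fun m => key m
  have hC1 : ‖C'‖ ≤ n6 e := by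
    rw [hC']
    simp only [norm_mul, norm_pw, mul_one]
    have h1 : ‖((n6 e : ℝ) : ℂ)‖ = n6 e := by
      rw [Complex.norm_real, Real.norm_eq_abs, abs_of_nonneg hn6]
    rw [h1]
    have h2 : ‖sy s (δ * e)‖ ≤ 1 := Char766.norm_sy_le hδe
    have h3 : ‖sy k e‖ ≤ 1 := Char766.norm_sy_le he
    calc ‖κ‖ * ‖sy s (δ * e)‖ * ‖sy k e‖ * n6 e ≤ 1 * 1 * 1 * n6 e := by gcongr
      _ = n6 e := by ring
  rw [e1, norm_mul]
  exact mul_le_mul_of_nonneg_right hC1 (norm_nonneg _)

/-- **all levels from the levels up to `P2`** (helper116's `RM_all`) -/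
theorem RM_all' {A : ℝ} (hA : 2 ≤ A) {α : Eis → ℂ} (hα : FS α) {d e : Eis}
    (hd : IsPrim d) {Y G Xπ : ℝ} (hY0 : 0 ≤ Y)
    (hY : ∀ m, α m ≠ 0 → m ∈ S Y)
    (hG : ∑ n ∈ S Y, ‖α n‖ ≤ G) {P1 P2 V : ℝ} {a : ℕ} (ha : 1 ≤ a) (hP1 : 0 < P1)
    (hP12 : P1 ≤ P2) (hV : 0 ≤ V) (F : Eis → Prop) [DecidablePred F]
    (hmom : ∀ γ π : Eis, IsPrim γ → IsPrim π → (nm γ : ℝ) ≤ Y → (nm π : ℝ) ≤ Xπ →
      ∀ Λ : ℝ, 1 ≤ Λ → Λ ≤ P2 →
      (nm γ : ℝ) * n6 γ ^ 2 * ∑ k ∈ (bl Λ).filter F, RMm A (fun m => α (d * m)) e γ π k ≤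
        (Λ / P2) ^ (1 / 3 : ℝ) * V)
    (htr : 16 * (Y * G ^ 2) * P1 * jc ≤ (P2 / P1) ^ (a - 1) * V)
    {γ π : Eis} (hγ : IsPrim γ) (hπ : IsPrim π) (hπX : (nm π : ℝ) ≤ Xπ) {Λ : ℝ} (hΛ : 0 < Λ) :
    (nm γ : ℝ) * n6 γ ^ 2 * ∑ k ∈ (bl Λ).filter F, RMm A (fun m => α (d * m)) e γ π k ≤
      W2 a P1 V Λ := by
  have hjc := jc_nonneg
  have hd0 := nm_cast_pos hd.ne_zero
  have hγ0 := nm_cast_pos hγ.ne_zero
  have hn6 := n6_nonneg γ
  have hWn := (slp_two ha hP1 hV).nonneg Λ hΛ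
  have hP2 : 0 < P2 := by linarith
  by_cases hγY : (nm γ : ℝ) ≤ Y
  swap
  · have hz0 : ∀ m, (fun m => α (d * m)) (γ * m) = 0 := by
      intro m
      by_contra h0
      have h2 := (hα.prim _ h0).ne_zero
      apply hγY
      have h3 := hY _ h0
      refine le_trans ?_ ((mem_S hY0).1 h3).1
      exact_mod_cast Div277.nm_le_of_dvd h2 ⟨d * m, by ring⟩
    rw [Finset.sum_eq_zero fun k _ => RMm_zero hz0, mul_zero]
    exact hWn
  by_cases hΛ1 : 1 ≤ Λ
  swap
  · push Not at hΛ1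
    have h1 : (bl Λ).filter F = ∅ := by
      refine Finset.eq_empty_of_forall_notMem fun k hk => ?_
      have hk' := (Finset.mem_filter.1 hk).1
      rw [mem_bl hΛ.le] at hk'
      have := one_le_nm hk'.1
      linarith
    rw [h1, Finset.sum_empty, mul_zero]
    exact hWn
  by_cases hΛ2 : Λ ≤ P2
  · refine (hmom γ π hγ hπ hγY hπX Λ hΛ1 hΛ2).trans ?_
    unfold W2
    split_ifs with h3
    · refine mul_le_mul_of_nonneg_right ?_ hV
      gcongr
    · push Not at h3
      refine mul_le_mul_of_nonneg_right ?_ hV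
      calc (Λ / P2) ^ (1 / 3 : ℝ) ≤ 1 :=
            Real.rpow_le_one (by positivity) ((div_le_one hP2).2 hΛ2) (by norm_num)
        _ ≤ (Λ / P1) ^ a := one_le_pow₀ ((one_le_div hP1).2 h3.le)
  · push Not at hΛ2
    have h3 : P1 < Λ := by linarith
    unfold W2
    rw [if_neg (by linarith)]
    have h4 : ∑ k ∈ (bl Λ).filter F, RMm A (fun m => α (d * m)) e γ π k ≤
        16 * Λ * (G ^ 2 * jc) := by
      calc ∑ k ∈ (bl Λ).filter F, RMm A (fun m => α (d * m)) e γ π k
          ≤ ∑ k ∈ bl Λ, RMm A (fun m => α (d * m)) e γ π k :=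
            Finset.sum_le_sum_of_subset_of_nonneg (Finset.filter_subset _ _)
              fun _ _ _ => RMm_nonneg _ _ _ _ _ _
        _ ≤ ∑ _k ∈ bl Λ, G ^ 2 * jc := Finset.sum_le_sum fun k _ =>
              RMm_triv hA hα hd hγ hY hG e π k
        _ = (bl Λ).card * (G ^ 2 * jc) := by rw [Finset.sum_const, nsmul_eq_mul]
        _ ≤ 16 * Λ * (G ^ 2 * jc) := by
            gcongr
            exact CR2.card_bl_le hΛ.le
    have h5 : (nm γ : ℝ) * n6 γ ^ 2 ≤ Y := by
      have := PX764.n6_le_one hγ.ne_zero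
      calc (nm γ : ℝ) * n6 γ ^ 2 ≤ nm γ * 1 := by gcongr; exact pow_le_one₀ hn6 this
        _ ≤ Y := by linarith
    have hr : 1 ≤ P2 / P1 := (one_le_div hP1).2 hP12
    have h6 : (P2 / P1) ^ (a - 1) ≤ (Λ / P1) ^ (a - 1) := by gcongr
    have h7 : (Λ / P1) ^ a = (Λ / P1) ^ (a - 1) * (Λ / P1) := by
      rw [← pow_succ]; congr 1; omega
    calc (nm γ : ℝ) * n6 γ ^ 2 * ∑ k ∈ (bl Λ).filter F, RMm A (fun m => α (d * m)) e γ π k
        ≤ Y * (16 * Λ * (G ^ 2 * jc)) := by
          refine mul_le_mul h5 h4 ?_ (by linarith)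
          exact Finset.sum_nonneg fun _ _ => RMm_nonneg _ _ _ _ _ _
      _ = (16 * (Y * G ^ 2) * P1 * jc) * (Λ / P1) := by field_simp
      _ ≤ ((P2 / P1) ^ (a - 1) * V) * (Λ / P1) := by gcongr
      _ ≤ ((Λ / P1) ^ (a - 1) * V) * (Λ / P1) := by gcongr
      _ = _ := by rw [h7]; ring

/-- the sizes of `alX` -/
lemma sum_alX {h : ℝ → ℝ} {c : ℝ} (hpu : PU h c) : ∃ C : ℝ, 1 ≤ C ∧ ∀ P : DPar, P.OK → Exc P →
    ∀ k₀ : Eis, Sh P k₀ → ∀ (t : Eis) (a : BdX), a.ok → ∀ β : Fin 3 → Eis,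
    (∀ i, IsPrim (β i)) → ∀ Y : ℝ, 1 ≤ Y → ∑ n ∈ S Y, ‖alX P h t a β n‖ ≤ C * Y ^ 2 := by
  obtain ⟨C1, hC1, hsum⟩ := sum_sqc_al hpu 3
  refine ⟨2 * C1, by linarith, fun P hP hE k₀ hs t a ha β hβ Y hY => ?_⟩
  have hPr : (red P).OK := red_ok hP hE
  obtain ⟨κ₁, hκ₁, h1⟩ := alb_nat (h := h) hPr (u3 a) hβ
  obtain ⟨κ₂, hκ₂, h2⟩ := alb_nat (h := h) hPr (u3' a) hβ
  have hβp : IsPrim (∏ i, β i) := HP842.isPrim_prod hβ
  rw [alX_eq hP hs h t ha hβ]
  have hb : ∀ n ∈ S Y, ‖ph a * sy (t * k₀ ^ 2) (∏ i, β i) *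
      tw3 (t * k₀ ^ 2) (xN h (red P) a β) n‖ ≤
      ‖sqc (∏ i, β i) (al h fun i => (ipb hPr (u3 a i) (β i)).pc) n‖ +
      ‖sqc (∏ i, β i) (al h fun i => (ipb hPr (u3' a i) (β i)).pc) n‖ := by
    intro n hn
    have hnp : IsPrim n := ((mem_S (by linarith)).1 hn).2.1
    unfold I1146.tw3 TEX792.xN
    rw [h1, h2]
    have e1 : ‖ph a * sy (t * k₀ ^ 2) (∏ i, β i)‖ ≤ 1 := by
      rw [norm_mul, norm_ph, one_mul]
      exact Char766.norm_sy_le hβp
    have e2 : ‖sy (t * k₀ ^ 2) n‖ ≤ 1 := Char766.norm_sy_le hnp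
    rw [norm_mul, norm_mul (sy (t * k₀ ^ 2) n)]
    have e3 : ‖κ₁ * sqc (∏ i, β i) (al h fun i => (ipb hPr (u3 a i) (β i)).pc) n -
        zeX a * (κ₂ * sqc (∏ i, β i) (al h fun i => (ipb hPr (u3' a i) (β i)).pc) n)‖ ≤
        ‖sqc (∏ i, β i) (al h fun i => (ipb hPr (u3 a i) (β i)).pc) n‖ +
        ‖sqc (∏ i, β i) (al h fun i => (ipb hPr (u3' a i) (β i)).pc) n‖ := by
      refine (norm_sub_le _ _).trans (add_le_add ?_ ?_)
      · rw [norm_mul]
        exact mul_le_of_le_one_left (norm_nonneg _) hκ₁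
      · rw [norm_mul, norm_zeX, one_mul, norm_mul]
        exact mul_le_of_le_one_left (norm_nonneg _) hκ₂
    calc _ ≤ 1 * (1 * (‖sqc (∏ i, β i) (al h fun i => (ipb hPr (u3 a i) (β i)).pc) n‖ +
        ‖sqc (∏ i, β i) (al h fun i => (ipb hPr (u3' a i) (β i)).pc) n‖)) := by gcongr
      _ = _ := by ring
  refine (Finset.sum_le_sum hb).trans ?_
  rw [Finset.sum_add_distrib]
  have g1 := hsum (fun i => (ipb hPr (u3 a i) (β i)).pc) (fun i => (ipb hPr (u3 a i) (β i)).pc_OK)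
    (∏ i, β i) Y hY
  have g2 := hsum (fun i => (ipb hPr (u3' a i) (β i)).pc)
    (fun i => (ipb hPr (u3' a i) (β i)).pc_OK) (∏ i, β i) Y hY
  linarith

open Classical in
/-- **(RH) of `alX` at the principal frequencies, with the bias** -/
theorem rh_cubeX {h : ℝ → ℝ} {c : ℝ} (hpu : PU h c) {ε : ℝ} (hε : 0 < ε) {K : ℝ} (hK : 1 ≤ K) :
    ∃ aS A₀ : ℕ, 1 ≤ aS ∧ ∀ P : DPar, P.OK → Exc P → ∀ k₀ : Eis, Sh P k₀ → ∀ t ∈ SM P.n,
      ∃ X₀ : ℝ, 1 < X₀ ∧ ∀ X : ℝ, X₀ ≤ X → ∀ H : ℝ, 1 ≤ H →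
      ∀ (a : BdX) (β : Fin 3 → Eis), a.ok → LD X K H (u3 a) β → ∀ s₀ : ℝ, Sv X s₀ a β →
      ∀ A : ℝ, (A₀ : ℝ) ≤ A → ∀ D e : Eis, IsPrim D → IsPrim e → (nm D : ℝ) ≤ X ^ K →
      (nm e : ℝ) ≤ X ^ K → ∀ P1 : ℝ, 0 < P1 → P1 ≤ X ^ K → ∃ W0 : ℝ → ℝ, Slp aS W0 ∧
        (∀ γ φ : Eis, IsPrim γ → IsPrim φ → (nm φ : ℝ) ≤ X ^ K → ∀ Λ : ℝ, 0 < Λ →
          (nm γ : ℝ) * n6 γ ^ 2 *
            ∑ k ∈ (bl Λ).filter (fun k => ∃ c : Eis, k * (t ^ 2 * k₀) ^ 2 = c ^ 3),
              RMm A (fun m => alX P h t a β (D * m)) e γ φ k ≤ W0 Λ) ∧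
        W0 P1 ≤ H ^ 12 * X ^ (Real.log P1 / Real.log X / 3 +
          (5 / 3 * (nL X (u3 a) β - Real.log (nm D) / Real.log X) -
          max (Real.log (nm e) / Real.log X) (s₀ - Real.log (nm D) / Real.log X)) + ε) := by
  set η : ℝ := min (ε / 8) 1 with hη
  have hη0 : 0 < η := lt_min (by linarith) one_pos
  have hη1 : η ≤ 1 := min_le_right _ _
  have hηε : 8 * η ≤ ε := by
    have := min_le_left (ε / 8) 1
    linarith
  obtain ⟨R, hR0, hR⟩ := exists_R (cs_cx hpu.cs)
  have hBump : ∃ R : ℝ, ∀ u, cx h u ≠ 0 → |u| ≤ R := ⟨R, hR⟩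
  obtain ⟨C1, hC1, hsum⟩ := sum_alX hpu
  obtain ⟨Cb, hCb, hb⟩ := bias_xN hpu hη0 (6 * K) (by linarith)
  have hjc := jc_nonneg
  obtain ⟨a0, ha0⟩ := exists_nat_ge ((24 * K + 6) / η)
  rw [div_le_iff₀ hη0] at ha0
  refine ⟨a0 + 1, 14, by omega, fun P hP hE k₀ hsh t ht => ?_⟩
  set u : Eis := t ^ 2 * k₀ with hu
  set s : Eis := t * k₀ ^ 2 with hs
  have ht0 : t ≠ 0 := ht.1
  have hk00 : k₀ ≠ 0 := hsh.k0
  have hu0 : u ≠ 0 := mul_ne_zero (pow_ne_zero 2 ht0) hk00
  have hPr : (red P).OK := red_ok hP hE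
  have hnu : (0 : ℝ) ≤ (nm u : ℝ) := Nat.cast_nonneg _
  set Cc : ℝ := max 1 (16 * ((nm u : ℝ) ^ 2) ^ (1 / 3 : ℝ) * jc * Cb ^ 2) with hCc
  have hCc1 : 1 ≤ Cc := le_max_left _ _
  have hCc0 : 0 < Cc := by linarith
  set Cd : ℝ := max (max 3 (nm P.n : ℝ)) (max (Real.exp (3 * R)) (16 * C1 ^ 2 * jc)) with hCd
  refine ⟨max Cd (Real.exp (Real.log Cc / η)), ?_, ?_⟩
  · refine lt_of_lt_of_le ?_ (le_max_left _ _)
    have h3 : (3 : ℝ) ≤ Cd := (le_max_left _ _).trans (le_max_left _ _)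
    linarith
  intro X hX H hH a β ha hD s₀ hs₀ A hA D e hDp he hDK heK P1 hP1 hP1K
  have hXd : Cd ≤ X := (le_max_left _ _).trans hX
  have hX3 : 3 ≤ X := ((le_max_left _ _).trans (le_max_left _ _)).trans hXd
  have hXn : (nm P.n : ℝ) ≤ X := ((le_max_right _ _).trans (le_max_left _ _)).trans hXd
  have hXR : Real.exp (3 * R) ≤ X := ((le_max_left _ _).trans (le_max_right _ _)).trans hXd
  have hXC : 16 * C1 ^ 2 * jc ≤ X := ((le_max_right _ _).trans (le_max_right _ _)).trans hXd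
  have hX1 : 1 < X := by linarith
  have hX0 : 0 < X := by linarith
  set L := Real.log X with hL
  have hL0 : 0 < L := Real.log_pos hX1
  have hCX : Cc ≤ X ^ η := by
    have h1 : Real.log Cc / η ≤ L := (Real.le_log_iff_exp_le hX0).2 ((le_max_right _ _).trans hX)
    rw [div_le_iff₀ hη0] at h1
    rw [← Real.exp_log hCc0, Real.rpow_def_of_pos hX0]
    exact Real.exp_le_exp.2 (by linarith)
  have hH0 : 0 < H := by linarith
  have hn1 : ∀ {y : Eis}, y ≠ 0 → (1 : ℝ) ≤ nm y := fun hy => by exact_mod_cast nm_pos.2 hy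
  have hnD := hn1 hDp.ne_zero
  -- the level
  set P1' : ℝ := max P1 1 with hP1'
  have hP1'1 : 1 ≤ P1' := le_max_right _ _
  have hP1'0 : 0 < P1' := by linarith
  have hP1'K : P1' ≤ X ^ K := max_le hP1K (Real.one_le_rpow hX1.le (by linarith))
  set i : ℝ := Real.log P1 / L with hi
  have hi' : Real.log P1' / L = max 0 i := by
    rcases le_total 1 P1 with h | h
    · have : 0 ≤ i := div_nonneg (Real.log_nonneg h) hL0.le
      rw [hP1', max_eq_left h, max_eq_right this]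
    · have : i ≤ 0 := div_nonpos_of_nonpos_of_nonneg (Real.log_nonpos hP1.le h) hL0.le
      rw [hP1', max_eq_right h, max_eq_left this, Real.log_one, zero_div]
  have hPX : P1' = X ^ (max 0 i) := by
    rw [← hi', Real.rpow_def_of_pos hX0, mul_div_cancel₀ _ hL0.ne', Real.exp_log hP1'0]
  set P2 : ℝ := P1' * X ^ η with hP2
  have hXη : 1 ≤ X ^ η := Real.one_le_rpow hX1.le hη0.le
  have hP2' : P1' ≤ P2 := le_mul_of_one_le_right hP1'0.le hXη
  have hP20 : 0 < P2 := by positivity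
  have hP2X : P2 = X ^ (max 0 i + η) := by rw [hP2, hPX, ← Real.rpow_add hX0]
  have hP2K : P2 ≤ X ^ (6 * K) := by
    calc P2 ≤ X ^ K * X ^ (1 : ℝ) := by
          have := Real.rpow_le_rpow_of_exponent_le hX1.le hη1
          rw [hP2]; gcongr
      _ = X ^ (K + 1) := (Real.rpow_add hX0 _ _).symm
      _ ≤ _ := Real.rpow_le_rpow_of_exponent_le hX1.le (by linarith)
  -- the sequence
  have hβ := hD.bp
  have hβp : IsPrim (∏ i, β i) := HP842.isPrim_prod hβ
  set x := xN h (red P) a β with hx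
  have hprim : ∀ n, x n ≠ 0 → IsPrim n := fun n hn => by
    rcases xN_ne hn with h1 | h1
    · exact alb_prim' hβ h1
    · exact alb_prim' hβ h1
  have hsqf : ∀ n, x n ≠ 0 → Squarefree n := fun n hn => by
    rcases xN_ne hn with h1 | h1
    · exact (P1e54.alb_ne h1).1
    · exact (P1e54.alb_ne h1).1
  have hcn : ∀ n, x n ≠ 0 → IsCoprime n P.n := fun n hn => by
    rcases xN_ne hn with h1 | h1
    · exact alb_cop hPr h1
    · exact alb_cop hPr h1
  have hct : ∀ n, x n ≠ 0 → IsCoprime t n := fun n hn =>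
    (FE47.SM.coprime ht (hcn n hn)).symm
  have hcs : ∀ n, x n ≠ 0 → IsCoprime s n := fun n hn =>
    ((FE47.SM.coprime ht (hcn n hn)).mul_right
      (hsh.cop (hprim n hn) (hcn n hn)).pow_right).symm
  set κ : ℂ := ph a * sy s (∏ i, β i) with hκ
  have hκ1 : ‖κ‖ ≤ 1 := by
    rw [hκ, norm_mul, norm_ph, one_mul]
    exact Char766.norm_sy_le hβp
  have hαe : alX P h t a β = fun m => κ * tw3 s x m := alX_eq hP hsh h t ha hβ
  set α := alX P h t a β with hα
  have hFS : FS α := fs_alX hP hBump hβ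
  -- the sizes
  have hnL : nL X (u3 a) β = (∑ i, (u3 a i).z - Real.log (nm (∏ i, β i))) / L := rfl
  have hsz : ∑ i, (u3 a i).z ≤ 3 * K * L := by
    calc ∑ i, (u3 a i).z ≤ ∑ _i : Fin 3, K * L := Finset.sum_le_sum fun i _ => hD.zK i
      _ = 3 * K * L := by rw [Finset.sum_const, Finset.card_univ, Fintype.card_fin]; simp; ring
  have hsz0 : 0 ≤ ∑ i, (u3 a i).z := Finset.sum_nonneg fun i _ => hD.z0 i
  have hβb : (nm (∏ i, β i) : ℝ) ≤ X ^ (3 * K) := by
    have hprod : (nm (∏ i, β i) : ℝ) = ∏ i, (nm (β i) : ℝ) := by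
      rw [Fin.prod_univ_three, Fin.prod_univ_three, nm_mul, nm_mul]
      push_cast; ring
    rw [hprod, mul_comm 3 K, Real.rpow_mul hX0.le]
    calc ∏ i, (nm (β i) : ℝ) ≤ ∏ _i : Fin 3, X ^ K :=
          Finset.prod_le_prod (fun i _ => Nat.cast_nonneg _) fun i _ => hD.bK i
      _ = (X ^ K) ^ (3 : ℝ) := by
          rw [Finset.prod_const, Finset.card_univ, Fintype.card_fin, ← Real.rpow_natCast]
          norm_num
  have hlβ0 : 0 ≤ Real.log (nm (∏ i, β i)) := Real.log_nonneg (hn1 hβp.ne_zero)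
  have hlβ : Real.log (nm (∏ i, β i)) ≤ 3 * K * L := by
    have h1 := Real.log_le_log (by have := hn1 hβp.ne_zero; linarith) hβb
    rwa [Real.log_rpow hX0] at h1
  have hnLlow : -(3 * K) ≤ nL X (u3 a) β := by
    rw [hnL, le_div_iff₀ hL0]
    linarith
  set lD : ℝ := Real.log (nm D) / L with hlD
  have hlD0 : 0 ≤ lD := div_nonneg (Real.log_nonneg hnD) hL0.le
  have hlDK : lD ≤ K := by
    rw [hlD, div_le_iff₀ hL0]
    have h1 := Real.log_le_log (by linarith) hDK
    rwa [Real.log_rpow hX0] at h1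
  have hs₀K : s₀ ≤ K := by
    have h1 := hs₀.h0
    have h2 := hD.zK 0
    have h3 : (u3 a 0).z = (a.us 2).z := rfl
    have h4 : 0 ≤ Real.log (nm (β 0)) := Real.log_nonneg (hn1 (hβ 0).ne_zero)
    rw [h3] at h2
    have h5 : s₀ * L ≤ K * L := by linarith
    exact le_of_mul_le_mul_right h5 hL0
  set l₀ : ℝ := Real.log (nm e) / L with hl₀
  have hne1 := hn1 he.ne_zero
  have hl₀K : l₀ ≤ K := by
    rw [hl₀, div_le_iff₀ hL0]
    have h1 := Real.log_le_log (by linarith) heK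
    rwa [Real.log_rpow hX0] at h1
  set E0 : ℝ := 5 / 3 * (nL X (u3 a) β - lD) - max l₀ (s₀ - lD) with hE0
  have hE0low : -(8 * K) ≤ E0 := by
    have h1 : max l₀ (s₀ - lD) ≤ K := max_le hl₀K (by linarith)
    rw [hE0]
    linarith
  set V : ℝ := H ^ 12 * X ^ (max 0 i / 3 + E0 + 4 * η) with hV
  have hV0 : 0 ≤ V := by positivity
  set Y : ℝ := X ^ (3 * K + 1) with hYd
  have hY1 : 1 ≤ Y := Real.one_le_rpow hX1.le (by linarith)
  have hYs : ∀ m, α m ≠ 0 → m ∈ S Y := by
    intro m hm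
    have h1 := (adm_alX hR0 hR P t ha hβ).sup m hm
    have hXn0 := Xn_pos (u3 a) hβ
    rw [mem_S (by positivity)] at h1
    rw [mem_S (by linarith)]
    refine ⟨h1.1.trans ?_, h1.2⟩
    have h2 : Xn (u3 a) β ≤ X ^ (3 * K) := by
      unfold TEM792.Xn
      rw [div_le_iff₀ (by have := hn1 hβp.ne_zero; linarith)]
      have h3 : Real.exp (∑ i, (u3 a i).z) ≤ X ^ (3 * K) := by
        rw [Real.rpow_def_of_pos hX0]
        refine Real.exp_le_exp.2 ?_
        linarith
      calc Real.exp (∑ i, (u3 a i).z) ≤ X ^ (3 * K) * 1 := by linarith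
        _ ≤ X ^ (3 * K) * nm (∏ i, β i) := by
            have := hn1 hβp.ne_zero
            gcongr
    calc Xn (u3 a) β * Real.exp (3 * R) ≤ X ^ (3 * K) * X ^ (1 : ℝ) := by
          rw [Real.rpow_one]; gcongr
      _ = Y := (Real.rpow_add hX0 _ _).symm
  have hG : ∑ n ∈ S Y, ‖α n‖ ≤ C1 * Y ^ 2 := hsum P hP hE k₀ hsh t a ha β hβ Y hY1
  have hA14 : (14 : ℝ) ≤ A := by exact_mod_cast hA
  refine ⟨W2 (a0 + 1) P1' V, slp_two (by omega) hP1'0 hV0, ?_, ?_⟩
  · intro γ φ hγ hφ hφK Λ hΛ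
    refine RM_all' (A := A) (by linarith) hFS hDp (Y := Y) (G := C1 * Y ^ 2) (Xπ := X ^ K)
      (by linarith) hYs hG (by omega) hP1'0 hP2' hV0 _ ?_ ?_ hγ hφ hφK hΛ
    · -- the moments
      intro γ π hγ hπ hγY hπX Λ hΛ1 hΛ2
      have hΛ0 : 0 < Λ := by linarith
      have hnγ := hn1 hγ.ne_zero
      set e' := cB γ e with he'
      have he'p : IsPrim e' := cB_prim he
      have hne' := hn1 he'p.ne_zero
      have hn6e : n6 e' ≤ 1 := n6_le_one he'p.ne_zero
      have hn6e0 : 0 ≤ n6 e' := n6_nonneg e'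
      set g : Eis := D * γ * e' with hg
      have hgp : IsPrim g := (hDp.mul hγ).mul he'p
      have hng : (nm g : ℝ) = nm D * nm γ * nm e' := by
        rw [hg, nm_mul, nm_mul]; push_cast; rfl
      have hngK : (nm g : ℝ) ≤ X ^ (6 * K) := by
        rw [hng]
        calc (nm D : ℝ) * nm γ * nm e' ≤ X ^ K * X ^ (3 * K + 1) * X ^ K := by
              have h1 : (nm e' : ℝ) ≤ X ^ K := (nm_cB_le' he).trans heK
              gcongr
          _ = X ^ (K + (3 * K + 1) + K) := by rw [← Real.rpow_add hX0, ← Real.rpow_add hX0]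
          _ ≤ _ := Real.rpow_le_rpow_of_exponent_le hX1.le (by linarith)
      set lg : ℝ := Real.log (nm g) / L with hlg
      set T := (bl Λ).filter (fun k => ∃ c : Eis, k * u ^ 2 = c ^ 3) with hT
      have hTc := card_prin hu0 hΛ0 (T := T) (Finset.filter_subset _ _)
        fun k hk => (Finset.mem_filter.1 hk).2
      set B0 : ℝ := Cb * X ^ η * X ^ (5 / 6 * (nL X (u3 a) β - lg) - 1 / 2 * max 0 (s₀ - lg))
        with hB0
      have hB00 : 0 ≤ B0 := by positivity
      have hpt : ∀ τ : ℝ, ∀ k ∈ T,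
          ‖CS (gC α (D * γ) (cB γ e) π (tw (1 / 6) τ)) k‖ ≤ B0 * (H * (1 + |τ|)) ^ 6 := by
        intro τ k hk
        obtain ⟨hk1, c, hc⟩ := Finset.mem_filter.1 hk
        rw [mem_bl hΛ0.le] at hk1
        have hkc : k * s * t ^ 3 = c ^ 3 := by
          rw [← hc, hs, hu]; ring
        have h1 := CS_prin hprim hsqf hct hcs hkc hκ1 (hDp.mul hγ) he'p π τ
        rw [hαe]
        refine h1.trans ?_
        have hr : 0 ≤ B0 * (H * (1 + |τ|)) ^ 6 := by positivity
        by_cases hgs : Squarefree g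
        · have h2 := hb X hX3 (red P) hPr rfl rfl hXn a ha
            (fun i => (hD.zK i).trans (by nlinarith)) H hH hD.tH
            (fun i => (hD.dK i).trans (Real.rpow_le_rpow_of_exponent_le hX1.le (by linarith)))
            β hβ (hβb.trans (Real.rpow_le_rpow_of_exponent_le hX1.le (by linarith))) s₀ hs₀ g hgp
            hgs hngK π hπ.ne_zero
            (hπX.trans (Real.rpow_le_rpow_of_exponent_le hX1.le (by linarith))) k hk1.1
            (hk1.2.trans (hΛ2.trans hP2K)) τ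
          calc n6 e' * ‖Md (PM π (tws (sg x (D * γ * e')) τ)) k‖
              ≤ 1 * ‖Md (PM π (tws (sg x (D * γ * e')) τ)) k‖ := by gcongr
            _ ≤ B0 * (H * (1 + |τ|)) ^ 6 := by
                rw [one_mul]
                refine h2.trans (le_of_eq ?_)
                rw [hB0]
                ring
        · have h2 : Md (PM π (tws (sg x (D * γ * e')) τ)) k = 0 := by
            unfold RX241.Md
            have : ∀ n, PM π (tws (sg x (D * γ * e')) τ) n * (PX764.md k n : ℂ) = 0 := by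
              intro n
              have h3 : x (D * γ * e' * n) = 0 := by
                by_contra h0
                exact hgs (hsqf _ h0).of_mul_left
              unfold TEL792.PM E1551.tws E1551.sg
              rw [h3]
              simp
            simp only [this, tsum_zero]
          rw [h2, norm_zero, mul_zero]
          exact hr
      have hmom : ∀ τ : ℝ, ∑ k ∈ T, ‖CS (gC α (D * γ) (cB γ e) π (tw (1 / 6) τ)) k‖ ^ 2 ≤
          (T.card * (B0 ^ 2 * H ^ 12)) * (1 + |τ|) ^ 12 := by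
        intro τ
        calc ∑ k ∈ T, ‖CS (gC α (D * γ) (cB γ e) π (tw (1 / 6) τ)) k‖ ^ 2
            ≤ ∑ _k ∈ T, (B0 * (H * (1 + |τ|)) ^ 6) ^ 2 :=
              Finset.sum_le_sum fun k hk => pow_le_pow_left₀ (norm_nonneg _) (hpt τ k hk) 2
          _ = T.card * (B0 * (H * (1 + |τ|)) ^ 6) ^ 2 := by rw [Finset.sum_const, nsmul_eq_mul]
          _ = _ := by ring
      have hRM := RM_sum (A := A) (J := 12) (by push_cast; linarith) hFS hDp hγ he π T
        (fun k => k) hmom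
      have hgoal : (nm γ : ℝ) * n6 γ ^ 2 * ((T.card * (B0 ^ 2 * H ^ 12)) * jc) ≤
          (Λ / P2) ^ (1 / 3 : ℝ) * V := by
        have hγn : (nm γ : ℝ) * n6 γ ^ 2 = X ^ (2 / 3 * (Real.log (nm γ) / L)) := by
          have h1 : (nm γ : ℝ) = X ^ (Real.log (nm γ) / L) := by
            rw [Real.rpow_def_of_pos hX0, mul_div_cancel₀ _ hL0.ne', Real.exp_log (by linarith)]
          have h2 : n6 γ = X ^ (-(1 / 6) * (Real.log (nm γ) / L)) := by
            unfold PX764.n6
            conv_lhs => rw [h1]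
            rw [← Real.rpow_mul hX0.le]
            congr 1
            ring
          calc (nm γ : ℝ) * n6 γ ^ 2 = X ^ (Real.log (nm γ) / L) *
                (X ^ (-(1 / 6) * (Real.log (nm γ) / L))) ^ 2 := by rw [h2, ← h1]
            _ = X ^ (2 / 3 * (Real.log (nm γ) / L)) := by
                rw [← Real.rpow_natCast, ← Real.rpow_mul hX0.le, ← Real.rpow_add hX0]
                congr 1
                push_cast
                ring
        have hB2 : B0 ^ 2 = Cb ^ 2 * X ^ (2 * η) *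
            X ^ (5 / 3 * (nL X (u3 a) β - lg) - max 0 (s₀ - lg)) := by
          rw [hB0, mul_pow, mul_pow, ← Real.rpow_natCast (X ^ η), ← Real.rpow_mul hX0.le,
            ← Real.rpow_natCast (X ^ (5 / 6 * (nL X (u3 a) β - lg) - 1 / 2 * max 0 (s₀ - lg))),
            ← Real.rpow_mul hX0.le]
          push_cast
          congr 2
          · congr 1; ring
          · ring
        set lγ : ℝ := Real.log (nm γ) / L with hlγ
        set le : ℝ := Real.log (nm e') / L with hle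
        have hlγ0 : 0 ≤ lγ := div_nonneg (Real.log_nonneg hnγ) hL0.le
        have hle0 : 0 ≤ le := div_nonneg (Real.log_nonneg hne') hL0.le
        have hlgs : lg = lD + lγ + le := by
          rw [hlg, hng, Real.log_mul (by positivity) (by positivity),
            Real.log_mul (by positivity) (by positivity), hlD, hlγ, hle]
          ring
        have hcBe : (nm e : ℝ) ≤ nm γ * nm e' := by
          have e1 : (nm e : ℝ) = nm (gp γ e) * nm (cB γ e) := by
            have := gp_cB (g := γ) he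
            conv_lhs => rw [← this]
            rw [nm_mul]; push_cast; rfl
          have e2 : (nm (gp γ e) : ℝ) ≤ nm γ := by
            have h3 : gp γ e ∣ γ := by
              conv_rhs => rw [← gp_cg (g := γ) he]
              exact dvd_mul_right _ _
            exact_mod_cast Div277.nm_le_of_dvd hγ.ne_zero h3
          rw [e1]
          exact mul_le_mul_of_nonneg_right e2 (Nat.cast_nonneg _)
        have hy : l₀ ≤ lγ + le := by
          rw [hl₀, hlγ, hle, ← add_div]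
          refine div_le_div_of_nonneg_right ?_ hL0.le
          rw [← Real.log_mul (by positivity) (by positivity)]
          exact Real.log_le_log (by linarith) hcBe
        have hmaxx : max l₀ (s₀ - lD) ≤ max 0 (s₀ - lg) + (lγ + le) := by
          refine max_le ?_ ?_
          · have := le_max_left 0 (s₀ - lg)
            linarith
          · have := le_max_right 0 (s₀ - lg)
            linarith
        have hcard : (T.card : ℝ) ≤ 16 * ((nm u : ℝ) ^ 2) ^ (1 / 3 : ℝ) * Λ ^ (1 / 3 : ℝ) := by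
          refine hTc.trans (le_of_eq ?_)
          rw [Real.mul_rpow hΛ0.le (by positivity)]
          ring
        have hVe : (Λ / P2) ^ (1 / 3 : ℝ) * V =
            Λ ^ (1 / 3 : ℝ) * (H ^ 12 * X ^ (E0 + 4 * η - η / 3)) := by
          rw [Real.div_rpow hΛ0.le hP20.le, hV, hP2X, ← Real.rpow_mul hX0.le, div_mul_eq_mul_div,
            mul_div_assoc, mul_div_assoc, ← Real.rpow_sub hX0]
          congr 3
          ring
        rw [hγn, hVe, hB2]
        have hjcC : 16 * ((nm u : ℝ) ^ 2) ^ (1 / 3 : ℝ) * jc * Cb ^ 2 ≤ X ^ η :=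
          (le_max_right _ _).trans hCX
        calc X ^ (2 / 3 * lγ) * ((T.card * (Cb ^ 2 * X ^ (2 * η) *
              X ^ (5 / 3 * (nL X (u3 a) β - lg) - max 0 (s₀ - lg)) * H ^ 12)) * jc)
            ≤ X ^ (2 / 3 * lγ) * (((16 * ((nm u : ℝ) ^ 2) ^ (1 / 3 : ℝ) * Λ ^ (1 / 3 : ℝ)) *
              (Cb ^ 2 * X ^ (2 * η) *
              X ^ (5 / 3 * (nL X (u3 a) β - lg) - max 0 (s₀ - lg)) * H ^ 12)) * jc) := by gcongr
          _ = Λ ^ (1 / 3 : ℝ) * (H ^ 12 * ((16 * ((nm u : ℝ) ^ 2) ^ (1 / 3 : ℝ) * jc * Cb ^ 2) *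
              (X ^ (2 / 3 * lγ) * X ^ (2 * η) *
                X ^ (5 / 3 * (nL X (u3 a) β - lg) - max 0 (s₀ - lg))))) := by ring
          _ ≤ Λ ^ (1 / 3 : ℝ) * (H ^ 12 * (X ^ η *
              (X ^ (2 / 3 * lγ) * X ^ (2 * η) *
                X ^ (5 / 3 * (nL X (u3 a) β - lg) - max 0 (s₀ - lg))))) := by gcongr
          _ = Λ ^ (1 / 3 : ℝ) * (H ^ 12 * X ^ (η + (2 / 3 * lγ + 2 * η +
                (5 / 3 * (nL X (u3 a) β - lg) - max 0 (s₀ - lg))))) := by
              rw [Real.rpow_add hX0 η, Real.rpow_add hX0 (2 / 3 * lγ + 2 * η),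
                Real.rpow_add hX0 (2 / 3 * lγ)]
          _ ≤ _ := by
              refine mul_le_mul_of_nonneg_left (mul_le_mul_of_nonneg_left
                (Real.rpow_le_rpow_of_exponent_le hX1.le ?_) (by positivity)) (by positivity)
              rw [hE0, hlgs]
              rw [hlgs] at hmaxx
              linarith
      refine le_trans (mul_le_mul_of_nonneg_left hRM ?_) hgoal
      have := n6_nonneg γ
      positivity
    · -- the trivial condition
      have e1 : P2 / P1' = X ^ η := by rw [hP2]; field_simp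
      rw [e1, Nat.add_sub_cancel]
      have e2 : (X ^ η) ^ a0 = X ^ (η * a0) := by
        rw [← Real.rpow_natCast, ← Real.rpow_mul hX0.le]
      have h1 : 1 ≤ H ^ 12 := one_le_pow₀ hH
      have h2 : X ^ (-(8 * K)) ≤ V := by
        rw [hV]
        calc X ^ (-(8 * K)) = 1 * X ^ (-(8 * K)) := (one_mul _).symm
          _ ≤ H ^ 12 * X ^ (max 0 i / 3 + E0 + 4 * η) := by
              refine mul_le_mul h1 (Real.rpow_le_rpow_of_exponent_le hX1.le ?_) (by positivity)
                (by positivity)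
              have := le_max_left 0 i
              linarith
      rw [e2]
      calc 16 * (Y * (C1 * Y ^ 2) ^ 2) * P1' * jc = (16 * C1 ^ 2 * jc) * Y ^ 5 * P1' := by ring
        _ ≤ X ^ (1 : ℝ) * Y ^ 5 * X ^ K := by
            rw [Real.rpow_one]
            gcongr
        _ = X ^ (1 + (3 * K + 1) * 5 + K) := by
            rw [Real.rpow_add hX0, Real.rpow_add hX0, hYd, Real.rpow_mul hX0.le]
            norm_cast
        _ ≤ X ^ (η * a0 + -(8 * K)) := Real.rpow_le_rpow_of_exponent_le hX1.le (by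
            have : 24 * K + 6 ≤ η * a0 := by linarith
            linarith)
        _ = X ^ (η * a0) * X ^ (-(8 * K)) := Real.rpow_add hX0 _ _
        _ ≤ X ^ (η * a0) * V := by gcongr
  · rw [hP1', W2_max hP1 hX1, hV]
    have e2 : i / 3 = min 0 i / 3 + max 0 i / 3 := by
      rcases le_total 0 i with h | h
      · rw [min_eq_left h, max_eq_right h]; ring
      · rw [min_eq_right h, max_eq_left h]; ring
    calc X ^ (min 0 i / 3) * (H ^ 12 * X ^ (max 0 i / 3 + E0 + 4 * η))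
        = H ^ 12 * X ^ (min 0 i / 3 + (max 0 i / 3 + E0 + 4 * η)) := by
          rw [Real.rpow_add hX0 (min 0 i / 3)]
          ring
      _ ≤ _ := by
          refine mul_le_mul_of_nonneg_left ?_ (by positivity)
          refine Real.rpow_le_rpow_of_exponent_le hX1.le ?_
          rw [e2]
          linarith

end Crest.Agent.R017.RXn770
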