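import Crest.Agent.R017.XVNc_792
import Crest.Agent.R017.FNEh_708

/-!
# Row 17, T-numbers at shortened lists (helper792)

* `own_near` : list bound near a compact set of (level, three lengths), any functional
* `cl_own`   : `ClK` from a finite family of closed forms at the exponent level
* `vn_own`   : `VN` of the twisted three lumps, class N
* `vn_ownX`  : `VN` of `alX`, class E
-/

set_option autoImplicit false
set_option linter.unusedVariables false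
set_option linter.unusedSectionVars false

noncomputable section

open scoped ComplexConjugate

namespace Crest.Agent.R017.TEX792

open Crest.Agent.R012 Crest.Agent.R012.Eis
open Crest.Agent.R012.LS2 (S mem_S bl mem_bl)
open Crest.Agent.R017.XG702 (Pcs)
open Crest.Agent.R017.XT71 (Sys mx le_mx)
open Crest.Agent.R017.CM106 (TG FS)
open Crest.Agent.R017.HP842 (Pc pc Ker Kg)
open Crest.Agent.R017.FE47 (PU cx)
open Crest.Agent.R017.Prov71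
open Crest.Agent.R017.B770
open Crest.Agent.R017.ER911
open Crest.Agent.R017.End699 (prin0)
open Crest.Agent.R017.E1551 (tws sg Adm)
open Crest.Agent.R017.Rough381 (VF)
open Crest.Agent.R017.TEL792 (PM FS_PM)
open Crest.Agent.R017.E5k54 (alb)
open Crest.Agent.R017.E5B71 (Pt)
open Crest.Agent.R017.I1146 (tw3 Dom dom_tw ds ChN LN cN)
open Crest.Agent.R017.I1K764 (SNK)
open Crest.Agent.R017.TEM792 (nm_pos_r VN Xn Xn_pos Adm_alb nL LD)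
open Crest.Agent.R017.TM708
open Crest.Agent.R017.TK708 (Wd tmg_nearW tq tq_K AllT)
open Crest.Agent.R017.XS0298 (S0K)
open Crest.Agent.R017.PX764 (Dk)

variable {Λ : Type*} {π : Λ → DPar} {h : ℝ → ℝ} {Φ : Λ → ℝ → List Pq → ℝ} {n : ℕ}

/-- the point of the domain of `tmg_nearW` -/
def f4 (x : Fin 4 → ℝ) : (Fin 0 ⊕ Fin 4 → ℝ) × (Kd → ℝ) :=
  (Sum.elim (fun i => i.elim0) x, fun _ => 0)

lemma f4_cont : Continuous f4 := by
  unfold f4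
  refine Continuous.prodMk (continuous_pi fun i => ?_) continuous_const
  rcases i with i | i
  · exact i.elim0
  · exact continuous_apply i

lemma dist_f4 (x y : Fin 4 → ℝ) : dist (f4 x) (f4 y) ≤ dist x y := by
  unfold f4
  rw [Prod.dist_eq]
  refine max_le ?_ ?_
  · rw [dist_pi_le_iff dist_nonneg]
    intro i
    rcases i with i | i
    · exact i.elim0
    · exact dist_le_pi_dist x y i
  · simp

/-- **list bound near a compact set of levels and lengths** -/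
theorem own_near (hW : Wd Φ) {D4 : Set (Fin 4 → ℝ)} (hD : IsCompact D4)
    (hnn : ∀ q ∈ D4, ∀ i, 0 ≤ q i) {G : (Fin 4 → ℝ) → ℝ} (hG : Continuous G)
    (H : ∀ q ∈ D4, ex Dq Φ (q 0) {q 1, q 2, q 3} 0 0 ≤ G q) {ε : ℝ} (hε : 0 < ε) :
    ∃ σ : ℝ, 0 < σ ∧ ∀ (lam : Λ) (B : ℝ), ∃ (M : ℕ) (X₀ : ℝ), 1 < X₀ ∧ ∀ X : ℝ, X₀ ≤ X →
      ∀ a : T3, a.ok → S3.s₂ a ≤ X ^ B → (∃ q ∈ D4, dist (S3.ev X a) q ≤ σ) →
      ∀ K : ℝ, 1 ≤ K → S3.s₁ a ≤ K →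
        Φ lam a.l (a.mk'.map (Pq.tw a.q)) ≤ K ^ M * X ^ (G (S3.ev X a) + ε) := by
  rcases D4.eq_empty_or_nonempty with rfl | hne
  · exact ⟨1, one_pos, fun lam B => ⟨0, 2, by norm_num, fun X _ a _ _ ⟨q, hq, _⟩ =>
      absurd hq (Set.notMem_empty _)⟩⟩
  obtain ⟨σ, hσ, G1⟩ := tmg_nearW (n := 0) hW (fun _ => 0) (hD.image f4_cont) (hne.image f4)
    (by rintro _ ⟨x, hx, rfl⟩; exact ⟨fun i => hnn x hx i, fun _ => le_rfl⟩)
    (E := fun q => G (fun i => q.1 (.inr i))) (by fun_prop)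
    (by rintro _ ⟨x, hx, rfl⟩; exact H x hx) hε
  refine ⟨σ, hσ, fun lam B => ?_⟩
  obtain ⟨M, X₀, hX₀, G2⟩ := G1 lam 0 B
  refine ⟨M, X₀, hX₀, fun X hX a ha hs2 ⟨q, hq, hqd⟩ K hK hs1 => ?_⟩
  have e0 : ((S3e 0).ev X (fun i => i.elim0, a), Dq.mass X ([] : List Pq)) =
      f4 (S3.ev X a) := by
    unfold f4
    refine Prod.ext ?_ ?_
    · funext i
      rcases i with i | i
      · exact i.elim0
      · rfl
    · rfl
  have key := G2 X hX (fun i => i.elim0) a [] ha (Nat.zero_le _) (by simp) hs2 (by simp)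
    ⟨f4 q, ⟨q, hq, rfl⟩, by rw [e0]; exact (dist_f4 _ _).trans hqd⟩ K hK hs1 (by simp)
  rw [e0, List.append_nil, add_zero] at key
  exact key

/-! ### finite families -/

lemma min_pos {n : ℕ} {f : Fin n → ℝ} (hf : ∀ i, 0 < f i) : ∃ σ : ℝ, 0 < σ ∧ ∀ i, σ ≤ f i := by
  rcases isEmpty_or_nonempty (Fin n) with h | h
  · exact ⟨1, one_pos, fun i => h.elim i⟩
  · obtain ⟨i₀, hi₀⟩ := Finite.exists_min f
    exact ⟨f i₀, hf i₀, hi₀⟩

lemma max_gt {n : ℕ} (f : Fin n → ℝ) : ∃ X₀ : ℝ, 1 < X₀ ∧ ∀ i, f i ≤ X₀ := by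
  rcases isEmpty_or_nonempty (Fin n) with h | h
  · exact ⟨2, by norm_num, fun i => h.elim i⟩
  · obtain ⟨i₀, hi₀⟩ := Finite.exists_max f
    exact ⟨max 2 (f i₀), lt_of_lt_of_le (by norm_num) (le_max_left _ _), fun i =>
      (hi₀ i).trans (le_max_right _ _)⟩

/-- the shape of a child of three lumps -/
lemma child3 {X K H r : ℝ} (hX : 1 < X) (hK : 1 ≤ K) (hH : 1 ≤ H) {us : Fin 3 → Pq}
    {β : Fin 3 → Eis} (hL : LD X K H us β) {Q : Eis} (hQ : Q ≠ 0) (hQX : (nm Q : ℝ) ≤ X ^ (5 * K))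
    {l : ℝ} {ps' : List Pq} (hch : List.Forall₂ (ChN r) ps' (List.ofFn us)) :
    ∃ a : T3, a.l = l ∧ a.q = Q ∧ ps' = a.mk' ∧ a.ok ∧ S3.s₂ a ≤ X ^ (5 * K) ∧
      S3.s₁ a ≤ cN ps' (List.ofFn us) * H ∧
      (∀ i, 0 ≤ (a.us i).z ∧ (a.us i).z ≤ (us i).z + r) ∧
      LN ps' = (a.us 0).z + (a.us 1).z + (a.us 2).z := by
  have e0 : List.ofFn us = [us 0, us 1, us 2] := by simp [List.ofFn_succ]
  have hch0 := hch
  rw [e0] at hch
  obtain ⟨v0, l1, c0, hx1, rfl⟩ := List.forall₂_cons_right_iff.1 hch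
  obtain ⟨v1, l2, c1, hx2, rfl⟩ := List.forall₂_cons_right_iff.1 hx1
  obtain ⟨v2, l3, c2, hx3, rfl⟩ := List.forall₂_cons_right_iff.1 hx2
  obtain rfl := List.forall₂_nil_right_iff.1 hx3
  have hc1 := one_le_cN hch0
  have hKt : ∀ p ∈ [v0, v1, v2], 1 + |p.t| ≤ cN [v0, v1, v2] (List.ofFn us) * H := by
    refine ht_child (by linarith) hch0 ?_
    intro p hp
    rw [List.mem_ofFn] at hp
    obtain ⟨i, rfl⟩ := hp
    exact hL.tH i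
  have hK1 : 1 ≤ cN [v0, v1, v2] (List.ofFn us) * H := one_le_mul_of_one_le_of_one_le hc1 hH
  have hX5 : 1 ≤ X ^ (5 * K) := Real.one_le_rpow hX.le (by linarith)
  have hdK : ∀ i, (nm (us i).d : ℝ) ≤ X ^ (5 * K) := fun i =>
    (hL.dK i).trans (Real.rpow_le_rpow_of_exponent_le hX.le (by linarith))
  refine ⟨⟨l, ![v0, v1, v2], Q⟩, rfl, rfl, rfl, ⟨fun i => ?_, hQ⟩, ?_, ?_, fun i => ?_, ?_⟩
  · fin_cases i
    · exact ⟨⟨c0.1.trans (hL.lump 0).1, c0.2.2.1 (hL.lump 0).2⟩, c0.2.2.2.1⟩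
    · exact ⟨⟨c1.1.trans (hL.lump 1).1, c1.2.2.1 (hL.lump 1).2⟩, c1.2.2.2.1⟩
    · exact ⟨⟨c2.1.trans (hL.lump 2).1, c2.2.2.1 (hL.lump 2).2⟩, c2.2.2.2.1⟩
  · refine max_le hQX ?_
    rw [XT71.mx_le hX5]
    intro p hp
    change p ∈ [v0, v1, v2] at hp
    simp only [List.mem_cons, List.not_mem_nil, or_false] at hp
    rcases hp with rfl | rfl | rfl
    · rw [Dq_s2, c0.2.1]; exact hdK 0
    · rw [Dq_s2, c1.2.1]; exact hdK 1
    · rw [Dq_s2, c2.2.1]; exact hdK 2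
  · show mx Dq.s1 [v0, v1, v2] ≤ _
    rw [XT71.mx_le hK1]
    exact fun p hp => hKt p hp
  · fin_cases i
    · exact ⟨c0.2.2.2.1, c0.2.2.2.2⟩
    · exact ⟨c1.2.2.2.1, c1.2.2.2.2⟩
    · exact ⟨c2.2.2.2.1, c2.2.2.2.2⟩
  · unfold I1146.LN
    simp only [List.map_cons, List.sum_cons, List.map_nil, List.sum_nil, add_zero]
    show _ = v0.z + v1.z + v2.z
    ring

/-- **the real hypothesis** : every child is near one of the sets, with the number `F` -/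
def RF {n : ℕ} (D4 : Fin n → Set (Fin 4 → ℝ)) (G : Fin n → (Fin 4 → ℝ) → ℝ) (σ K : ℝ)
    (y : Fin 3 → ℝ) (m : ℝ) (F : ℝ → ℝ → ℝ) : Prop :=
  ∀ v γ : ℝ, 0 ≤ v → v ≤ K → 0 ≤ γ → γ ≤ K → ∀ x : Fin 4 → ℝ, 0 ≤ x 0 → |x 0 - v| ≤ σ →
    0 ≤ x 1 → x 1 ≤ y 0 + σ → 0 ≤ x 2 → x 2 ≤ y 1 + σ → 0 ≤ x 3 → x 3 ≤ y 2 + σ →
    |x 1 + x 2 + x 3 - (m - γ)| ≤ σ → ∃ i, (∃ p ∈ D4 i, dist x p ≤ σ) ∧ G i x ≤ F v γ

lemma RF.mono {n : ℕ} {D4 : Fin n → Set (Fin 4 → ℝ)} {G : Fin n → (Fin 4 → ℝ) → ℝ} {σ K K' : ℝ}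
    {y : Fin 3 → ℝ} {m : ℝ} {F F' : ℝ → ℝ → ℝ} (H : RF D4 G σ K' y m F) (hK : K ≤ K')
    (hF : ∀ v γ, F v γ ≤ F' v γ) : RF D4 G σ K y m F' := by
  intro v γ h1 h2 h3 h4 x h5 h6 h7 h8 h9 h10 h11 h12 h13
  obtain ⟨i, hp, hi⟩ := H v γ h1 (h2.trans hK) h3 (h4.trans hK) x h5 h6 h7 h8 h9 h10 h11 h12 h13
  exact ⟨i, hp, hi.trans (hF v γ)⟩

/-- **`ClK` from closed forms at the exponent level** -/
theorem cl_owns {Kn : Eis → Eis → ℂ} (hW : Wd fun lam => S0K Kn (π lam) h) {n : ℕ}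
    {D4 : Fin n → Set (Fin 4 → ℝ)} (hD : ∀ i, IsCompact (D4 i))
    (hnn : ∀ i, ∀ q ∈ D4 i, ∀ j, 0 ≤ q j) {G : Fin n → (Fin 4 → ℝ) → ℝ}
    (hG : ∀ i, Continuous (G i))
    (H : ∀ i, ∀ q ∈ D4 i, ex Dq (fun lam => S0K Kn (π lam) h) (q 0) {q 1, q 2, q 3} 0 0 ≤ G i q)
    {ε : ℝ} (hε : 0 < ε) :
    ∃ σ₀ : ℝ, 0 < σ₀ ∧ ∀ σ : ℝ, 0 < σ → σ ≤ σ₀ → ∀ (lam : Λ) (K : ℝ), 1 ≤ K → ∃ M₀ : ℕ,
      ∀ M : ℕ, M₀ ≤ M → ∀ r : ℝ, 0 ≤ r → ∃ X₀ : ℝ, 1 < X₀ ∧ ∀ X : ℝ, X₀ ≤ X → ∀ H₀ : ℝ, 1 ≤ H₀ → ∀ (us : Fin 3 → Pq)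
      (β : Fin 3 → Eis), LD X K H₀ us β → ∀ F : ℝ → ℝ → ℝ,
      RF D4 G σ K (fun i => (us i).z / Real.log X) (nL X us β) F →
      ClK Kn h (π lam) X H₀ M r K us β (fun v γ => F v γ + ε) := by
  choose σi hσi G1 using fun i => own_near hW (hD i) (hnn i) (hG i) (H i) hε
  obtain ⟨σ₁, hσ₁, hσl'⟩ := min_pos hσi
  refine ⟨σ₁, hσ₁, fun σ₀ hσ₀ hσσ lam K hK => ?_⟩
  have hσl : ∀ i, σ₀ ≤ σi i := fun i => hσσ.trans (hσl' i)
  choose Mi Xi hXi G2 using fun i => G1 i lam (5 * K)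
  refine ⟨Finset.univ.sup Mi, fun M hM r hr => ?_⟩
  obtain ⟨X₁, hX₁, hXl⟩ := max_gt Xi
  refine ⟨max X₁ (Real.exp (r / σ₀)), lt_of_lt_of_le hX₁ (le_max_left _ _), ?_⟩
  intro X hX H₀ hH₀ us β hLD F hF g hg hgs hgX q hq hqX k hk hkK l ps' hl hch hLN hlk
  have hXX1 : X₁ ≤ X := (le_max_left _ _).trans hX
  have hX1 : 1 < X := by linarith
  have hX0 : 0 < X := by linarith
  set L := Real.log X with hL
  have hL0 : 0 < L := Real.log_pos hX1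
  have hrL : r / L ≤ σ₀ := by
    have h1 : r / σ₀ ≤ L := by
      have := Real.log_le_log (Real.exp_pos _) ((le_max_right _ _).trans hX)
      rwa [Real.log_exp] at this
    rw [div_le_iff₀ hσ₀] at h1
    rw [div_le_iff₀ hL0]
    linarith
  have hβ0 : (∏ i, β i) ≠ 0 := Finset.prod_ne_zero_iff.2 fun i _ => (hLD.bp i).ne_zero
  have hQ0 : (∏ i, β i) * g * q ≠ 0 := mul_ne_zero (mul_ne_zero hβ0 hg.ne_zero) hq
  have hQX : (nm ((∏ i, β i) * g * q) : ℝ) ≤ X ^ (5 * K) := by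
    rw [nm_mul, nm_mul, Fin.prod_univ_three, nm_mul, nm_mul]
    push_cast
    have h0 := hLD.bK 0
    have h1 := hLD.bK 1
    have h2 := hLD.bK 2
    calc (nm (β 0) : ℝ) * nm (β 1) * nm (β 2) * nm g * nm q
        ≤ X ^ K * X ^ K * X ^ K * X ^ K * X ^ K := by gcongr
      _ = X ^ (5 * K) := by
          rw [← Real.rpow_add hX0, ← Real.rpow_add hX0, ← Real.rpow_add hX0, ← Real.rpow_add hX0]
          ring_nf
  obtain ⟨a, ha1, ha2, hps, haok, hs2, hs1, hz, hLa⟩ := child3 (l := l) hX1 hK hH₀ hLD hQ0 hQX hch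
  have hev : S3.ev X a = ![l / L, (a.us 0).z / L, (a.us 1).z / L, (a.us 2).z / L] := by
    rw [← ha1]
    rfl
  have hgn : (1 : ℝ) ≤ nm g := by exact_mod_cast nm_pos.2 hg.ne_zero
  have hgl : Real.log (nm g) ≤ K * L := by
    have h1 := Real.log_le_log (by linarith) hgX
    rwa [Real.log_rpow hX0] at h1
  have hdiv : ∀ {y z : ℝ}, y ≤ z → y / L ≤ z / L := fun h => by gcongr
  have hKL : ∀ {y : ℝ}, y ≤ K * L → y / L ≤ K := fun h => by rwa [div_le_iff₀ hL0]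
  obtain ⟨i, ⟨p, hp, hpd⟩, hi⟩ := hF (k / L) (Real.log (nm g) / L) (by positivity) (hKL hkK)
    (div_nonneg (Real.log_nonneg hgn) hL0.le) (hKL hgl) (S3.ev X a)
    (by rw [hev]; exact div_nonneg hl hL0.le)
    (by
      rw [hev]
      show |l / L - k / L| ≤ _
      rw [← sub_div, abs_div, abs_of_pos hL0]
      exact (hdiv hlk).trans hrL)
    (by rw [hev]; exact div_nonneg (hz 0).1 hL0.le)
    (by
      rw [hev]
      show (a.us 0).z / L ≤ _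
      refine (hdiv (hz 0).2).trans ?_
      rw [add_div]
      linarith)
    (by rw [hev]; exact div_nonneg (hz 1).1 hL0.le)
    (by
      rw [hev]
      show (a.us 1).z / L ≤ _
      refine (hdiv (hz 1).2).trans ?_
      rw [add_div]
      linarith)
    (by rw [hev]; exact div_nonneg (hz 2).1 hL0.le)
    (by
      rw [hev]
      show (a.us 2).z / L ≤ _
      refine (hdiv (hz 2).2).trans ?_
      rw [add_div]
      linarith)
    (by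
      rw [hev]
      show |(a.us 0).z / L + (a.us 1).z / L + (a.us 2).z / L -
        (nL X us β - Real.log (nm g) / L)| ≤ _
      unfold TEM792.nL
      rw [← hL, ← add_div, ← add_div, ← sub_div, ← sub_div, abs_div, abs_of_pos hL0, ← hLa]
      exact (hdiv hLN).trans hrL)
  have hK1 : 1 ≤ cN ps' (List.ofFn us) * H₀ :=
    one_le_mul_of_one_le_of_one_le (one_le_cN hch) hH₀
  have key := G2 i X ((hXl i).trans hXX1) a haok hs2 ⟨p, hp, hpd.trans (hσl i)⟩ _ hK1 hs1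
  rw [ha1, ha2, ← hps] at key
  have e1 := tq_K (π := π) (h := h) Kn hQ0 lam l ps'
  unfold TK708.tq at e1
  rw [← e1]
  refine key.trans ?_
  have h1 : (cN ps' (List.ofFn us) * H₀) ^ Mi i ≤ (cN ps' (List.ofFn us) * H₀) ^ M :=
    pow_le_pow_right₀ hK1 ((Finset.le_sup (f := Mi) (Finset.mem_univ i)).trans hM)
  have h2 : X ^ (G i (S3.ev X a) + ε) ≤
      X ^ (F (k / L) (Real.log (nm g) / L) + ε) :=
    Real.rpow_le_rpow_of_exponent_le hX1.le (by linarith)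
  calc (cN ps' (List.ofFn us) * H₀) ^ Mi i * X ^ (G i (S3.ev X a) + ε)
      ≤ (cN ps' (List.ofFn us) * H₀) ^ M * X ^ (F (k / L) (Real.log (nm g) / L) + ε) :=
        mul_le_mul h1 h2 (by positivity) (by positivity)
    _ = _ := by
        rw [mul_pow, Real.rpow_natCast]
        ring

/-- **`ClK` from closed forms at the exponent level** -/
theorem cl_own {Kn : Eis → Eis → ℂ} (hW : Wd fun lam => S0K Kn (π lam) h) {n : ℕ}
    {D4 : Fin n → Set (Fin 4 → ℝ)} (hD : ∀ i, IsCompact (D4 i))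
    (hnn : ∀ i, ∀ q ∈ D4 i, ∀ j, 0 ≤ q j) {G : Fin n → (Fin 4 → ℝ) → ℝ}
    (hG : ∀ i, Continuous (G i))
    (H : ∀ i, ∀ q ∈ D4 i, ex Dq (fun lam => S0K Kn (π lam) h) (q 0) {q 1, q 2, q 3} 0 0 ≤ G i q)
    {ε : ℝ} (hε : 0 < ε) :
    ∃ σ : ℝ, 0 < σ ∧ ∀ (lam : Λ) (K : ℝ), 1 ≤ K → ∃ M₀ : ℕ, ∀ M : ℕ, M₀ ≤ M → ∀ r : ℝ, 0 ≤ r →
      ∃ X₀ : ℝ, 1 < X₀ ∧ ∀ X : ℝ, X₀ ≤ X → ∀ H₀ : ℝ, 1 ≤ H₀ → ∀ (us : Fin 3 → Pq)
      (β : Fin 3 → Eis), LD X K H₀ us β → ∀ F : ℝ → ℝ → ℝ,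
      RF D4 G σ K (fun i => (us i).z / Real.log X) (nL X us β) F →
      ClK Kn h (π lam) X H₀ M r K us β (fun v γ => F v γ + ε) := by
  obtain ⟨σ, hσ, G1⟩ := cl_owns hW hD hnn hG H hε
  exact ⟨σ, hσ, G1 σ hσ le_rfl⟩

lemma LD_mono {X K K' H : ℝ} (hX : 1 < X) (hK : K ≤ K') {us : Fin 3 → Pq} {β : Fin 3 → Eis}
    (h : LD X K H us β) : LD X K' H us β where
  lump := h.lump
  z0 := h.z0
  zK i := (h.zK i).trans (mul_le_mul_of_nonneg_right hK (Real.log_pos hX).le)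
  dK i := (h.dK i).trans (Real.rpow_le_rpow_of_exponent_le hX.le hK)
  tH := h.tH
  bp := h.bp
  bK i := (h.bK i).trans (Real.rpow_le_rpow_of_exponent_le hX.le hK)

lemma VN_le {X H K : ℝ} {M : ℕ} {α : Eis → ℂ} {F F' : ℝ → ℝ → ℝ} (hX : 1 < X) (hH : 0 ≤ H)
    (hV : VN X H M K α F) (h : ∀ v γ, F v γ ≤ F' v γ) : VN X H M K α F' := by
  intro g hg hgs hgX q hq hqX k hk hkK t
  refine (hV g hg hgs hgX q hq hqX k hk hkK t).trans ?_
  have h1 : X ^ F (k / Real.log X) (Real.log (nm g) / Real.log X) ≤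
      X ^ F' (k / Real.log X) (Real.log (nm g) / Real.log X) :=
    Real.rpow_le_rpow_of_exponent_le hX.le (h _ _)
  have h2 : (0 : ℝ) ≤ H ^ M := by positivity
  have h3 : (0 : ℝ) ≤ (1 + |t|) ^ (3 * (M : ℝ)) := by positivity
  gcongr

/-- **`VN` of the twisted three lumps (class N) from closed forms at the exponent level** -/
theorem vn_own {c₀ : ℝ} (hpu : PU h c₀) (hP : ∀ lam, (π lam).OK) {n : ℕ}
    {D4 : Fin n → Set (Fin 4 → ℝ)} (hD : ∀ i, IsCompact (D4 i))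
    (hnn : ∀ i, ∀ q ∈ D4 i, ∀ j, 0 ≤ q j) {G : Fin n → (Fin 4 → ℝ) → ℝ}
    (hG : ∀ i, Continuous (G i))
    (H : ∀ i, ∀ q ∈ D4 i, ex Dq (fun lam => S0p (π lam) h) (q 0) {q 1, q 2, q 3} 0 0 ≤ G i q)
    {ε : ℝ} (hε : 0 < ε) :
    ∃ σ : ℝ, 0 < σ ∧ ∀ (lam : Λ) (K : ℝ), 1 ≤ K → ∃ M₀ : ℕ, ∀ M : ℕ, M₀ ≤ M → ∀ s : Eis,
      s ∈ FE47.SM (π lam).n → ∃ X₀ : ℝ, 1 < X₀ ∧ ∀ X : ℝ, X₀ ≤ X → ∀ H₀ : ℝ, 1 ≤ H₀ →
      ∀ (us : Fin 3 → Pq) (β : Fin 3 → Eis), LD X K H₀ us β → ∀ F : ℝ → ℝ → ℝ,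
      (∀ v s γ, 0 ≤ s → F (v + s) γ ≤ F v γ + s) →
      RF D4 G σ (K + 1) (fun i => (us i).z / Real.log X) (nL X us β) F →
      VN X H₀ M K (alb (fun i => pc h (Pt (π lam) s (us i))) β) (fun v γ => F v γ + ε) := by
  obtain ⟨σ, hσ, G1⟩ := cl_own (π := π) (h := h) (Kn := Kg) (TK708.wd_N hpu hP) hD hnn hG H
    (show 0 < ε / 2 by positivity)
  refine ⟨σ, hσ, fun lam K hK => ?_⟩
  obtain ⟨M₀, G2⟩ := G1 lam (K + 1) (by linarith)
  refine ⟨M₀, fun M hM s hs => ?_⟩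
  obtain ⟨r, hr, G3⟩ := vn_f3 hpu (show 0 < ε / 2 by positivity) K hK M
  obtain ⟨X₁, hX₁, G4⟩ := G3 (π lam) (hP lam) s hs
  obtain ⟨X₂, hX₂, G5⟩ := G2 M hM r hr
  refine ⟨max X₁ X₂, lt_of_lt_of_le hX₁ (le_max_left _ _), ?_⟩
  intro X hX H₀ hH₀ us β hLD F hFs hRF
  have hXX1 : X₁ ≤ X := (le_max_left _ _).trans hX
  have hXX2 : X₂ ≤ X := (le_max_right _ _).trans hX
  have hX1 : 1 < X := by linarith
  have hcl := G5 X hXX2 H₀ hH₀ us β (LD_mono hX1 (by linarith) hLD) F hRF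
  exact VN_le hX1 (by linarith) (G4 X hXX1 H₀ hH₀ us β hLD.zK hLD.bp _ (fun v s γ hs => by
    have := hFs v s γ hs
    linarith) hcl) fun v γ => by linarith

lemma LDX.ld {X K H s₀ : ℝ} {a : ExP960.BdX} {β : Fin 3 → Eis} (h : LDX X K H s₀ a β) :
    LD X K H (ExP960.u3 a) β where
  lump i := by
    fin_cases i
    · exact (h.ok.base.1 2).1
    · exact (h.ok.base.1 3).1
    · exact (h.ok.base.1 4).1
  z0 i := by
    fin_cases i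
    · exact (h.ok.base.1 2).2
    · exact (h.ok.base.1 3).2
    · exact (h.ok.base.1 4).2
  zK := h.zK
  dK := h.dK
  tH := h.tH
  bp := h.bp
  bK := h.bK

lemma LDX.ld' {X K H s₀ : ℝ} {a : ExP960.BdX} {β : Fin 3 → Eis} (h : LDX X K H s₀ a β) :
    LD X K H (ExP960.u3' a) β where
  lump i := by
    fin_cases i
    · exact (h.ok.base.1 2).1
    · exact (h.ok.base.1 3).1
    · exact (h.ok.base.1 4).1
  z0 i := by
    fin_cases i
    · exact h.ok.z0 2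
    · exact h.ok.z0 3
    · exact (h.ok.base.1 4).2
  zK := h.zK'
  dK i := by
    fin_cases i
    · exact h.dK 0
    · exact h.dK 1
    · exact h.dK 2
  tH i := by
    fin_cases i
    · exact h.tH 0
    · exact h.tH 1
    · exact h.tH 2
  bp := h.bp
  bK := h.bK

/-- **`VN` of `alX` (class E) from closed forms at the exponent level** -/
theorem vn_ownX {c₀ : ℝ} (hpu : PU h c₀) (hP : ∀ lam, (π lam).OK)
    (hE : ∀ lam, Red848.Exc (π lam)) {n : ℕ}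
    {D4 : Fin n → Set (Fin 4 → ℝ)} (hD : ∀ i, IsCompact (D4 i))
    (hnn : ∀ i, ∀ q ∈ D4 i, ∀ j, 0 ≤ q j) {G : Fin n → (Fin 4 → ℝ) → ℝ}
    (hG : ∀ i, Continuous (G i))
    (H : ∀ i, ∀ q ∈ D4 i, ex Dq (fun lam => S0K Dk (Red848.red (π lam)) h) (q 0)
      {q 1, q 2, q 3} 0 0 ≤ G i q) {ε : ℝ} (hε : 0 < ε) :
    ∃ σ : ℝ, 0 < σ ∧ ∀ (lam : Λ) (K : ℝ), 1 ≤ K → ∃ M₀ : ℕ, ∀ M : ℕ, M₀ ≤ M → ∀ t : Eis,
      t ∈ FE47.SM (π lam).n → ∃ X₀ : ℝ, 1 < X₀ ∧ ∀ X : ℝ, X₀ ≤ X → ∀ H₀ : ℝ, 1 ≤ H₀ →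
      ∀ (a : ExP960.BdX) (β : Fin 3 → Eis) (s₀ : ℝ), LDX X K H₀ s₀ a β → ∀ F : ℝ → ℝ → ℝ,
      (∀ v s γ, 0 ≤ s → F (v + s) γ ≤ F v γ + s) →
      RF D4 G σ (K + 1) (fun i => (ExP960.u3 a i).z / Real.log X) (nL X (ExP960.u3 a) β) F →
      RF D4 G σ (K + 1) (fun i => (ExP960.u3' a i).z / Real.log X) (nL X (ExP960.u3 a) β) F →
      VN X H₀ M K (E4Df372.alX (π lam) h t a β) (fun v γ => max (F v γ)
        (2 / 3 * v + 5 / 3 * (nL X (ExP960.u3 a) β - γ) - max 0 (s₀ - γ)) + ε) := by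
  have hPr : ∀ lam, (Red848.red (π lam)).OK := fun lam => Red848.red_ok (hP lam) (hE lam)
  obtain ⟨σ, hσ, G1⟩ := cl_own (π := fun lam => Red848.red (π lam)) (h := h) (Kn := Dk)
    (TK708.wd_E hpu hPr) hD hnn hG H (show 0 < ε / 2 by positivity)
  refine ⟨σ, hσ, fun lam K hK => ?_⟩
  obtain ⟨M₀, G2⟩ := G1 lam (K + 1) (by linarith)
  refine ⟨max 12 M₀, fun M hM t ht => ?_⟩
  obtain ⟨r, hr, G3⟩ := vn_alX hpu (show 0 < ε / 2 by positivity) K hK M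
    ((le_max_left _ _).trans hM)
  obtain ⟨X₁, hX₁, G4⟩ := G3 (π lam) (hP lam) (hE lam) t ht
  obtain ⟨X₂, hX₂, G5⟩ := G2 M ((le_max_right _ _).trans hM) r hr
  refine ⟨max X₁ X₂, lt_of_lt_of_le hX₁ (le_max_left _ _), ?_⟩
  intro X hX H₀ hH₀ a β s₀ hLD F hFs hRF hRF'
  have hXX1 : X₁ ≤ X := (le_max_left _ _).trans hX
  have hXX2 : X₂ ≤ X := (le_max_right _ _).trans hX
  have hX1 : 1 < X := by linarith
  have enL : nL X (ExP960.u3' a) β = nL X (ExP960.u3 a) β := by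
    unfold TEM792.nL
    rw [ExP960.sum_u3' hLD.ok, ExP960.sum_u3]
  have hcl := G5 X hXX2 H₀ hH₀ (ExP960.u3 a) β (LD_mono hX1 (by linarith) hLD.ld) F hRF
  have hcl' := G5 X hXX2 H₀ hH₀ (ExP960.u3' a) β (LD_mono hX1 (by linarith) hLD.ld') F
    (by rw [enL]; exact hRF')
  refine VN_le hX1 (by linarith) (G4 X hXX1 H₀ hH₀ a β s₀ hLD _ (fun v s γ hs => by
    have := hFs v s γ hs
    linarith) hcl hcl') fun v γ => ?_
  set bz : ℝ := 2 / 3 * v + 5 / 3 * (nL X (ExP960.u3 a) β - γ) - max 0 (s₀ - γ) with hbz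
  have h2 := le_max_left (F v γ) bz
  have h3 := le_max_right (F v γ) bz
  have h1 : max (F v γ + ε / 2) bz ≤ max (F v γ) bz + ε / 2 :=
    max_le (by linarith) (by linarith)
  linarith

end Crest.Agent.R017.TEX792
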