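import Crest.Agent.R017.GrX3_968
import Crest.Agent.R017.RXXc_502
import Crest.Agent.R017.RXk_770
import Crest.Agent.R017.TEQ_792

/-!
# Row 17, class E, R8 (helper521): the `R`-half of the second moment of one tuple

* `RLn` : the two real lines at one level
* **`r_halfX`** : the weights `W0` of the two classes and the `R`-numbers
-/

set_option autoImplicit false
set_option linter.unusedVariables false

noncomputable section

open Finset
open scoped Classical ComplexConjugate ContDiff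

namespace Crest.Agent.R017.GrX4R521

open Crest.Agent.R012 Crest.Agent.R012.Eis
open Crest.Agent.R012.LS2 (S mem_S bl)
open Crest.Agent.R017.Prov71
open Crest.Agent.R017.B770
open Crest.Agent.R017.FE47 (PU cx SM)
open Crest.Agent.R017.E1551 (nmpos)
open Crest.Agent.R017.E3Z548 (FH FH_nonneg)
open Crest.Agent.R017.E3Hi290 (RN2XF)
open Crest.Agent.R017.PoHx72 (Cls)
open Crest.Agent.R017.ROX744 (PrU)
open Crest.Agent.R017.Mode405 (Slp)
open Crest.Agent.R017.PX764 (n6)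
open Crest.Agent.R017.R3571 (RMm)
open Crest.Agent.R017.P1Q904 (gQ)
open Crest.Agent.R017.TEM792 (LD nL Xn Xn_pos)
open Crest.Agent.R017.TEX792 (LDX Sv)
open Crest.Agent.R017.ExP960 (BdX u3 u3')
open Crest.Agent.R017.E4Df372 (alX)
open Crest.Agent.R017.Red848 (red Sh Exc)
open Crest.Agent.R017.RXn770 (g3 rh_cubeX)
open Crest.Agent.R017.RXX502 (RClX rh_alX_nc)
open Crest.Agent.R017.SP521 (I_exp gQ_hom)
open Crest.Agent.R017.GrX968 (rn_ptX)

/-- **the two real lines at one level**, units `log X` -/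
structure RLn (d u hx k v p E s t G : ℝ) : Prop where
  R : ∀ δ e i : ℝ, 0 ≤ δ → 0 ≤ hx + 2 * v - k - δ → 0 ≤ e → e ≤ E → |i - (p + v + hx - k)| ≤ t →
    2 / 3 * k - (hx + v) / 3 + 5 / 3 * δ + 2 * e + gQ (hx + 2 * v - k - δ) (p + v + hx - k) +
      max i (i / 3) + g3 d u i + 2 / 3 * (p - δ) ≤ G
  RC : ∀ δ e i : ℝ, 0 ≤ δ → 0 ≤ hx + 2 * v - k - δ → 0 ≤ e → e ≤ E → |i - (p + v + hx - k)| ≤ t →
    2 / 3 * k - (hx + v) / 3 + 5 / 3 * δ + 2 * e +
      ((hx + 2 * v - k - δ) - 2 / 3 * (p + v + hx - k)) + i / 3 + 5 / 3 * (p - δ) -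
      max e (s - δ) ≤ G

lemma slp_up {a b : ℕ} {W : ℝ → ℝ} (h : Slp a W) (hab : a ≤ b) : Slp b W where
  nonneg := h.nonneg
  low := h.low
  dbl := fun P hP => (h.dbl P hP).trans (mul_le_mul_of_nonneg_right
    (pow_le_pow_right₀ (by norm_num) hab) (h.nonneg P hP))

lemma slp_zero (a : ℕ) : Slp a (fun _ => (0 : ℝ)) where
  nonneg := fun _ _ => le_rfl
  low := fun _ _ _ _ => by simp
  dbl := fun _ _ => by simp

lemma pow_X {X H y : ℝ} {M₁ M : ℕ} (hX : 1 < X) (hH : 1 ≤ H) (hM : M₁ ≤ M) :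
    H ^ M₁ * X ^ y ≤ Real.exp (M * Real.log H + Real.log X * y) := by
  have hH0 : 0 < H := by linarith
  have hX0 : 0 < X := by linarith
  rw [Real.exp_add, ← Real.rpow_def_of_pos hX0, Real.exp_nat_mul, Real.exp_log hH0]
  exact mul_le_mul_of_nonneg_right (pow_le_pow_right₀ hH hM) (by positivity)

variable {Λ : Type*} {π : Λ → DPar} {h : ℝ → ℝ}

set_option maxHeartbeats 1600000 in
/-- **the `R`-half** -/
theorem r_halfX {c₀ : ℝ} (hpu : PU h c₀) (hP : ∀ lam, (π lam).OK) (hE : ∀ lam, Exc (π lam))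
    {d : ℝ} (hd : 0 ≤ d) (hd8 : d ≤ 1 / 8) (HR : RClX π h d) (lam : Λ) {ε : ℝ} (hε : 0 < ε)
    {K : ℝ} (hK : 1 ≤ K) :
    ∃ M aS A₀ : ℕ, 1 ≤ aS ∧ 2 ≤ A₀ ∧ ∀ k₀ : Eis, Sh (π lam) k₀ → ∀ t : Eis, t ∈ SM (π lam).n →
    ∀ c : ℝ, 1 ≤ c → ∃ X₀ : ℝ, 1 < X₀ ∧ ∀ X : ℝ, X₀ ≤ X → ∀ H : ℝ, 1 ≤ H →
    ∀ (a : BdX) (β : Fin 3 → Eis) (s₀ : ℝ), LDX X K H s₀ a β →
    ∀ u : ℝ, (a.us 4).z ≤ u * Real.log X →
    ∀ (J : Finset ℕ) (Dd : Finset Eis) (hx k E G τ : ℝ),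
      (∀ D ∈ Dd, IsPrim D ∧ (nm D : ℝ) ≤ X ^ K) → E ≤ K → Real.log c / Real.log X ≤ τ →
      (∀ j ∈ J, nL X (u3 a) β + (j : ℝ) / Real.log X + hx - k + τ ≤ K) →
      (∀ j ∈ J, RLn d u hx k ((j : ℝ) / Real.log X) (nL X (u3 a) β) E s₀ τ G) →
      ∃ W0 : ℕ → Bool → Eis → Eis → ℝ → ℝ, (∀ j jj D f, Slp aS (W0 j jj D f)) ∧
        (∀ j ∈ J, ∀ jj, ∀ D ∈ Dd, ∀ f ∈ S (Real.exp (Real.log X * E)), ∀ γ φ : Eis,
          IsPrim γ → IsPrim φ → (nm φ : ℝ) ≤ X ^ K → ∀ P : ℝ, 0 < P →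
          (nm γ : ℝ) * n6 γ ^ 2 * ∑ r ∈ (bl P).filter (Cls (PrU (t ^ 2 * k₀)) jj),
            RMm (A₀ : ℝ) (fun n => alX (π lam) h t a β (D * n)) f γ φ r ≤ W0 j jj D f P) ∧
        (∀ j ∈ J, ∀ D ∈ Dd, ∀ f ∈ S (Real.exp (Real.log X * E)),
          FH (Real.exp (Real.log X * k)) (Real.exp (Real.log X * hx)) (Real.exp (j : ℝ)) *
            RN2XF c (Real.exp (Real.log X * k)) (Real.exp (j : ℝ))
              (Real.exp (Real.log X * nL X (u3 a) β))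
              (fun _ _ => Real.exp (Real.log X * hx)) (W0 j) D f ≤
          (3 + 2 * c) * H ^ M * Real.exp (Real.log X * (G + ε)) / (nm D * nm f)) := by
  obtain ⟨M₁, a₁, B₁, ha₁, hB₁, H1⟩ := rh_alX_nc hpu hP hE hd hd8 HR lam hε hK
  obtain ⟨a₂, B₂, ha₂, H2⟩ := rh_cubeX hpu hε hK
  refine ⟨max M₁ 12, max a₁ a₂, max B₁ B₂, ha₁.trans (le_max_left _ _),
    hB₁.trans (le_max_left _ _), fun k₀ hs t ht c hc => ?_⟩
  obtain ⟨X₁, hX₁, H1'⟩ := H1 k₀ hs t ht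
  obtain ⟨X₂, hX₂, H2'⟩ := H2 (π lam) (hP lam) (hE lam) k₀ hs t ht
  refine ⟨max X₁ X₂, lt_max_of_lt_left hX₁, ?_⟩
  intro X hX H hH a β s₀ hLD u hu J Dd hx k E G τ hDd hEK hcτ hjK hRL
  have hX1 : 1 < X := hX₁.trans_le ((le_max_left _ _).trans hX)
  have hX0 : 0 < X := by linarith
  have hXX1 : X₁ ≤ X := (le_max_left _ _).trans hX
  have hXX2 : X₂ ≤ X := (le_max_right _ _).trans hX
  have hc0 : 0 < c := by linarith
  have hu1 : ∃ i, (u3 a i).z ≤ u * Real.log X := ⟨2, hu⟩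
  have hu2 : ∃ i, (u3' a i).z ≤ u * Real.log X := ⟨2, hu⟩
  have hLD1 : LD X K H (u3 a) β := hLD.ld
  have hLD2 : LD X K H (u3' a) β := hLD.ld'
  obtain ⟨L, hL⟩ : ∃ L, L = Real.log X := ⟨_, rfl⟩
  obtain ⟨p, hp⟩ : ∃ p, p = nL X (u3 a) β := ⟨_, rfl⟩
  obtain ⟨M, hM⟩ : ∃ M, M = max M₁ 12 := ⟨_, rfl⟩
  rw [← hL] at hcτ
  rw [← hL, ← hp] at hjK hRL
  rw [← hL, ← hp, ← hM]
  have hL0 : 0 < L := by rw [hL]; exact Real.log_pos hX1
  have hlc : 0 ≤ Real.log c := Real.log_nonneg hc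
  have hlcL : 0 ≤ Real.log c / L := div_nonneg hlc hL0.le
  -- the argument of the weights
  obtain ⟨I, hI⟩ : ∃ I : ℕ → ℝ, I = fun j : ℕ => c * (Real.exp (L * p) * Real.exp (j : ℝ) *
      Real.exp (L * hx) / Real.exp (L * k)) := ⟨_, rfl⟩
  obtain ⟨ii, hii⟩ : ∃ ii : ℕ → ℝ, ii = fun j : ℕ => p + (j : ℝ) / L + hx - k + Real.log c / L :=
    ⟨_, rfl⟩
  have hI0 : ∀ j, 0 < I j := fun j => by rw [hI]; positivity
  have hIi : ∀ j, Real.log (I j) / L = ii j := by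
    intro j
    rw [hI, hii]
    beta_reduce
    rw [I_exp, Real.log_mul hc0.ne' (Real.exp_pos _).ne', Real.log_exp]
    field_simp
    ring
  have hIX : ∀ j ∈ J, I j ≤ X ^ K := by
    intro j hj
    have h1 : I j = X ^ (ii j) := by
      rw [← hIi j, Real.rpow_def_of_pos hX0, ← hL, mul_div_cancel₀ _ hL0.ne',
        Real.exp_log (hI0 j)]
    rw [h1]
    refine Real.rpow_le_rpow_of_exponent_le hX1.le ?_
    have h2 := hjK j hj
    rw [hii]
    beta_reduce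
    linarith
  have key : ∀ (j : ℕ) (D f : Eis), ∃ W : Bool → ℝ → ℝ, (∀ jj, Slp (max a₁ a₂) (W jj)) ∧
      (j ∈ J → D ∈ Dd → f ∈ S (Real.exp (L * E)) →
        (∀ (jj : Bool) (γ φ : Eis), IsPrim γ → IsPrim φ → (nm φ : ℝ) ≤ X ^ K → ∀ P : ℝ, 0 < P →
          (nm γ : ℝ) * n6 γ ^ 2 * ∑ r ∈ (bl P).filter (Cls (PrU (t ^ 2 * k₀)) jj),
            RMm ((max B₁ B₂ : ℕ) : ℝ) (fun n => alX (π lam) h t a β (D * n)) f γ φ r ≤ W jj P) ∧
        W false (I j) ≤ Real.exp (M * Real.log H + L * (max (ii j) (ii j / 3) + g3 d u (ii j) +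
          2 / 3 * (p - Real.log (nm D) / L) + ε)) ∧
        W true (I j) ≤ Real.exp (M * Real.log H + L * (ii j / 3 +
          (5 / 3 * (p - Real.log (nm D) / L) -
          max (Real.log (nm f) / L) (s₀ - Real.log (nm D) / L)) + ε))) := by
    intro j D f
    by_cases h0 : j ∈ J ∧ D ∈ Dd ∧ f ∈ S (Real.exp (L * E))
    swap
    · exact ⟨fun _ _ => 0, fun _ => slp_zero _, fun h1 h2 h3 => absurd ⟨h1, h2, h3⟩ h0⟩
    obtain ⟨hj, hD, hf⟩ := h0
    obtain ⟨hDp, hDK⟩ := hDd D hD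
    obtain ⟨hf1, hf2, hf3⟩ := (mem_S (Real.exp_pos _).le).1 hf
    have hfK : (nm f : ℝ) ≤ X ^ K := by
      refine hf1.trans ?_
      rw [Real.rpow_def_of_pos hX0, ← hL]
      exact Real.exp_le_exp.2 (mul_le_mul_of_nonneg_left hEK hL0.le)
    obtain ⟨W, hW, b1, c1⟩ := H1' X hXX1 H hH a β hLD.ok hLD1 hLD2 u hu1 hu2
      ((max B₁ B₂ : ℕ) : ℝ) (by exact_mod_cast le_max_left B₁ B₂) D f hDp hf2 hDK hfK (I j)
      (hI0 j) (hIX j hj)
    obtain ⟨W', hW', b2, c2⟩ := H2' X hXX2 H hH a β hLD.ok hLD1 s₀ hLD.sv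
      ((max B₁ B₂ : ℕ) : ℝ) (by exact_mod_cast le_max_right B₁ B₂) D f hDp hf2 hDK hfK (I j)
      (hI0 j) (hIX j hj)
    rw [← hL, hIi, ← hp] at c1 c2
    refine ⟨fun jj => if jj = true then W' else W, fun jj => ?_, fun _ _ _ => ⟨?_, ?_, ?_⟩⟩
    · beta_reduce
      by_cases hjj : jj = true
      · rw [if_pos hjj]; exact slp_up hW' (le_max_right _ _)
      · rw [if_neg hjj]; exact slp_up hW (le_max_left _ _)
    · intro jj γ φ hγ hφ hφK P hPP
      beta_reduce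
      cases jj with
      | true =>
        rw [if_pos rfl]
        have e1 : (bl P).filter (Cls (PrU (t ^ 2 * k₀)) true) =
            (bl P).filter (fun k => ∃ c : Eis, k * (t ^ 2 * k₀) ^ 2 = c ^ 3) := by
          refine Finset.filter_congr fun r _ => ?_
          unfold PoHx72.Cls ROX744.PrU
          rw [if_pos rfl]
        rw [e1]
        exact b2 γ φ hγ hφ hφK P hPP
      | false =>
        rw [if_neg (by decide)]
        exact b1 γ φ hγ hφ hφK P hPP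
    · beta_reduce
      rw [if_neg (by decide)]
      exact c1.trans (by rw [hL]; exact pow_X hX1 hH (by rw [hM]; exact le_max_left _ _))
    · beta_reduce
      rw [if_pos rfl]
      exact c2.trans (by rw [hL]; exact pow_X hX1 hH (by rw [hM]; exact le_max_right _ _))
  choose W0 hWS hWH using key
  refine ⟨fun j jj D f => W0 j D f jj, fun j jj D f => hWS j D f jj,
    fun j hj jj D hD f hf γ φ hγ hφ hφK P hPP =>
      (hWH j D f hj hD hf).1 jj γ φ hγ hφ hφK P hPP, ?_⟩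
  intro j hj D hD f hf
  obtain ⟨hDp, hDK⟩ := hDd D hD
  obtain ⟨hf1, hf2, hf3⟩ := (mem_S (Real.exp_pos _).le).1 hf
  obtain ⟨hR, hRC⟩ := hRL j hj
  obtain ⟨-, w1, w2⟩ := hWH j D f hj hD hf
  have hlD : 0 ≤ Real.log (nm D) / L := div_nonneg (Real.log_natCast_nonneg _) hL0.le
  have hlf : 0 ≤ Real.log (nm f) / L := div_nonneg (Real.log_natCast_nonneg _) hL0.le
  have hlf1 : Real.log (nm f) / L ≤ E := by
    rw [div_le_iff₀ hL0, mul_comm]
    have h1 := Real.log_le_log (nmpos hf2.ne_zero) hf1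
    rwa [Real.log_exp] at h1
  have e1 : L * ((j : ℝ) / L) = j := by field_simp
  have e2 : L * (Real.log (nm D) / L) = Real.log (nm D) := by field_simp
  have e3 : L * (Real.log (nm f) / L) = Real.log (nm f) := by field_simp
  have e4 : L * hx + 2 * (j : ℝ) - L * k - Real.log (nm D) =
      L * (hx + 2 * ((j : ℝ) / L) - k - Real.log (nm D) / L) := by
    nth_rw 1 [← e1, ← e2]
    ring
  have e5 : L * p + (j : ℝ) + L * hx - L * k = L * (p + (j : ℝ) / L + hx - k) := by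
    nth_rw 1 [← e1]
    ring
  have hwin : |ii j - (p + (j : ℝ) / L + hx - k)| ≤ τ := by
    rw [hii]
    beta_reduce
    rw [add_sub_cancel_left, abs_of_nonneg hlcL]
    exact hcτ
  have hpos : 0 ≤ L * hx + 2 * (j : ℝ) - L * k - Real.log (nm D) →
      0 ≤ hx + 2 * ((j : ℝ) / L) - k - Real.log (nm D) / L := fun h1 => by
    rw [e4] at h1
    exact nonneg_of_mul_nonneg_right h1 hL0
  have hH0 : 0 < H := by linarith
  have eH : H ^ M = Real.exp (M * Real.log H) := by rw [Real.exp_nat_mul, Real.exp_log hH0]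
  have hfin : (3 + 2 * c) * H ^ M * Real.exp (L * (G + ε)) =
      (3 + 2 * c) * Real.exp (M * Real.log H + L * (G + ε)) := by
    rw [eH, Real.exp_add]
    ring
  rw [hfin]
  rw [hI] at w1 w2
  beta_reduce at w1 w2
  refine rn_ptX (W := fun jj D f => W0 j D f jj) hc hDp.ne_zero hf2.ne_zero rfl
    (fun jj => (hWS j D f jj).nonneg _ (by positivity)) w1 w2 (fun h1 => ?_) (fun h1 => ?_)
  · have h2 := hR (Real.log (nm D) / L) (Real.log (nm f) / L) (ii j) hlD (hpos h1) hlf hlf1 hwin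
    have h3 := mul_le_mul_of_nonneg_left h2 hL0.le
    rw [e4, e5, gQ_hom hL0.le]
    nth_rw 1 [← e1]
    nth_rw 1 [← e2]
    nth_rw 1 [← e3]
    refine le_trans (le_of_eq ?_) (le_trans (add_le_add_right h3
      (M * Real.log H + L * ε)) (le_of_eq ?_)) <;> ring
  · have h2 := hRC (Real.log (nm D) / L) (Real.log (nm f) / L) (ii j) hlD (hpos h1) hlf hlf1 hwin
    have h3 := mul_le_mul_of_nonneg_left h2 hL0.le
    rw [e4, e5]
    nth_rw 1 [← e1]
    nth_rw 1 [← e2]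
    nth_rw 1 [← e3]
    refine le_trans (le_of_eq ?_) (le_trans (add_le_add_right h3
      (M * Real.log H + L * ε)) (le_of_eq ?_)) <;> ring

end Crest.Agent.R017.GrX4R521
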