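import Crest.Agent.R017.SPY_718
import Crest.Agent.R017.RSQ_702
import Crest.Agent.R017.TUX_47

/-!
# Row 17, class E, `SPInX`: the real lines at the actual numbers, literally (helper718)

`HqX` : `q ∈ SqLX A d (17/100)`, `7/10 κ ≤ k ≤ 17/20 κ`, `0 ≤ β ≤ N + x - κ/2`, own window.
`NrX` : actual numbers `v', k', p', E', s'` within `t ≤ 10⁻⁶`.
* `hX` : the exponent of `H` (constant in `δ`)
* `c1_ac`, `c0_ac`, `S_ac`, `V_ac`, `R_ac` (noncube class), `RC_ac` (cube class)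
-/

set_option autoImplicit false
set_option linter.unusedVariables false

noncomputable section

namespace Crest.Agent.R017.SPZ718

open Crest.Agent.R017.P1Q904 (gQ)
open Crest.Agent.R017.B770 Crest.Agent.R017.E5B71 Crest.Agent.R017.E5L770
open Crest.Agent.R017.TU47 (ESP qL qL_mem)
open Crest.Agent.R017.Prov71
open Crest.Agent.R017.ExP960 (IX5)
open Crest.Agent.R017.E5LX770 (SqLX)
open Crest.Agent.R017.RSQ702 (Gq g3)
open Crest.Agent.R017.RSP702 (Hq gs_of ESP_eq LL)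
open Crest.Agent.R017.SPX718 (FX GX hE NX CX TR KX)

/-- the hypotheses, class E -/
structure HqX (A d : ℝ) (q : (Option IX5 → ℝ) × (Kd → ℝ)) (k β : ℝ) : Prop where
  d0 : 0 ≤ d
  d1 : d ≤ 1 / 40
  A1 : A ≤ 1
  A2 : 16 * (1 - A) ≤ d
  hq : q ∈ SqLX A d (17 / 100)
  k1 : 7 / 10 * cκ (dn (qL q).1) ≤ k
  k2 : k ≤ 17 / 20 * cκ (dn (qL q).1)
  β0 : 0 ≤ β
  β1 : β ≤ cN (dn (qL q).1) + cx' (dn (qL q).1) - cκ (dn (qL q).1) / 2
  w : q.1 none + 2 * β ≤ top5 (dn (qL q).1) + d / 2 * cκ (dn (qL q).1)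

variable {A d μ t k β v' k' p' E' s' δ b l n T e i : ℝ} {q : (Option IX5 → ℝ) × (Kd → ℝ)}

lemma HqX.toHq (H : HqX A d q k β) : Hq A d (qL q) k β := by
  obtain ⟨d0, d1, A1, A2, hq, k1, k2, β0, β1, w⟩ := H
  exact ⟨d0, by linarith, A1, A2, qL_mem hq, k1, k2, β0, β1⟩

/-- **the exponent of `H`**, class E -/
def hX (d : ℝ) (q : (Option IX5 → ℝ) × (Kd → ℝ)) (k β : ℝ) : ℝ :=
  2 * k + 3 * (cN (dn (qL q).1) - β) - 3 * (ESP d (1 / 450) (qL q) k - β) +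
    3 * (3 / 5 * (d * cκ (dn (qL q).1)) + cκ (dn (qL q).1) / 500) +
    KX (cκ (dn (qL q).1)) (q.1 none) (cN (dn (qL q).1) - β) (cu (dn (qL q).1) 2)
      (17 / 100 * cκ (dn (qL q).1) - β)

lemma fx_of (H : HqX A d q k β) :
    FX (cκ (dn (qL q).1)) (cN (dn (qL q).1)) (cM (dn (qL q).1)) ((qL q).2 .mo) ((qL q).2 .am)
      (cx' (dn (qL q).1)) (LL d (qL q)) (d * cκ (dn (qL q).1)) k ((qL q).1 none)
      (cN (dn (qL q).1) - β) (cu (dn (qL q).1) 2) (17 / 100) (17 / 100 * cκ (dn (qL q).1) - β)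
      (YM61.eC k (cM (dn (qL q).1)) ((qL q).2 .am)) 0 := by
  have h1 : Sq5 A d (dn (qL q).1) (qL q).2 := (qL_mem H.hq).1
  have κ31 := h1.κ31
  have w : (qL q).1 none + 2 * β ≤ top5 (dn (qL q).1) + d / 2 * cκ (dn (qL q).1) := H.w
  have e1 := min_le_left (2 * cN (dn (qL q).1) - cκ (dn (qL q).1)) (3 / 4 * cN (dn (qL q).1))
  have e2 := min_le_right (2 * cN (dn (qL q).1) - cκ (dn (qL q).1)) (3 / 4 * cN (dn (qL q).1))
  have hβ1 := H.β1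
  have hd : d * cκ (dn (qL q).1) ≤ 1 / 40 * cκ (dn (qL q).1) :=
    mul_le_mul_of_nonneg_right H.d1 (by linarith [h1.κ0])
  obtain ⟨F, v0, v1, v2, k1, k2, p0, p1, z1, z2, hE⟩ := gs_of H.toHq
  obtain ⟨κ0, κ1, N34, N84, MN, a0, a12, c0, c13, x0, D0, q43, sq2, L1, L2, L3, shr, -, -, -⟩ := F
  unfold top5 at w
  refine ⟨κ0, κ31, κ1, N34, N84, MN, a0, a12, c0, c13, x0, D0, q43, sq2, L1, L2, L3, shr,
    by linarith, le_rfl, by linarith, v0, by linarith, by linarith, by linarith, by linarith,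
    by linarith, by linarith, by linarith, by linarith, by linarith, by linarith, le_rfl,
    by linarith, ?_⟩
  rcases hE with h | ⟨h, h'⟩ | ⟨h, h'⟩
  · exact Or.inl h
  · exact Or.inr (Or.inl ⟨by linarith, h'⟩)
  · exact Or.inr (Or.inr ⟨by linarith, by linarith⟩)

/-- the target -/
lemma gx_eq (H : HqX A d q k β) :
    ESP d μ (qL q) k - β = GX (cκ (dn (qL q).1)) (LL d (qL q)) ((qL q).2 .mo) k
      (cN (dn (qL q).1) - β) (YM61.eC k (cM (dn (qL q).1)) ((qL q).2 .am)) +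
      2 * (1 / 450 - μ) := ESP_eq (μ := μ) H.toHq

lemma hX_eq (H : HqX A d q k β) :
    hX d q k β = hE (cκ (dn (qL q).1)) (LL d (qL q)) ((qL q).2 .mo) (d * cκ (dn (qL q).1)) k
      ((qL q).1 none) (cN (dn (qL q).1) - β) (cu (dn (qL q).1) 2)
      (17 / 100 * cκ (dn (qL q).1) - β) (YM61.eC k (cM (dn (qL q).1)) ((qL q).2 .am)) := by
  have h1 := gx_eq (μ := 1 / 450) H
  have h2 : q.1 none = (qL q).1 none := rfl
  unfold hX hE SPX718.hX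
  rw [h1, h2]
  ring

/-- **the actual numbers** -/
structure NrX (A d t : ℝ) (q : (Option IX5 → ℝ) × (Kd → ℝ)) (k β v' k' p' E' s' : ℝ) :
    Prop where
  H : HqX A d q k β
  t0 : 0 ≤ t
  t1 : t ≤ 1 / 1000000
  v : |v' - q.1 none| ≤ t
  k : |k' - k| ≤ t
  p : |p' - (cN (dn (qL q).1) - β)| ≤ t
  E0 : 0 ≤ E'
  E : E' ≤ cκ (dn (qL q).1) / 64 + t
  s : 17 / 100 * cκ (dn (qL q).1) - β - t ≤ s'

lemma nx_of (X : NrX A d t q k β v' k' p' E' s') :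
    NX (cκ (dn (qL q).1)) (cN (dn (qL q).1)) (cM (dn (qL q).1)) ((qL q).2 .mo) ((qL q).2 .am)
      (cx' (dn (qL q).1)) (LL d (qL q)) (d * cκ (dn (qL q).1)) k ((qL q).1 none)
      (cN (dn (qL q).1) - β) (cu (dn (qL q).1) 2) (17 / 100 * cκ (dn (qL q).1) - β)
      (YM61.eC k (cM (dn (qL q).1)) ((qL q).2 .am)) d (cu (dn (qL q).1) 4) t v' k' p' E' s' := by
  obtain ⟨H, t0, t1, hv, hk, hp, E0, hE, hs⟩ := X
  have h1 : Sq5 A d (dn (qL q).1) (qL q).2 := (qL_mem H.hq).1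
  have hu3 : 3 * cu (dn (qL q).1) 4 ≤ cN (dn (qL q).1) := by
    obtain ⟨a1, a2, a3, a4⟩ := h1.toNr5.anti
    have hNe : cN (dn (qL q).1) = cu (dn (qL q).1) 2 + cu (dn (qL q).1) 3 +
      cu (dn (qL q).1) 4 := rfl
    linarith
  exact ⟨fx_of H, H.d0, rfl, hu3, t0, t1, hv, hk, hp, E0, hE, by linarith⟩

/-- `H² V³ ≤ K²` -/
theorem th_ac (X : NrX A d t q k β v' k' p' E' s') :
    2 * hX d q k β + 3 * v' + cκ (dn (qL q).1) / 11 ≤ 2 * k' := by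
  rw [hX_eq X.H]; exact SPX718.th_x (nx_of X)

/-- (S) -/
theorem S_ac (X : NrX A d t q k β v' k' p' E' s') :
    hX d q k β + 2 * v' + cκ (dn (qL q).1) / 1000 ≤ k' + p' := by
  have h1 := SPX718.S_x (nx_of X)
  rw [← hX_eq X.H] at h1
  have h2 := (fx_of X.H).κ0
  linarith

/-- (V) -/
theorem V_ac (X : NrX A d t q k β v' k' p' E' s') :
    v' + 3 * E' ≤ 2 * k' ∧ v' ≤ k' + cκ (dn (qL q).1) / 1000 ∧ 0 ≤ k' ∧ 0 ≤ p' :=
  SPX718.V_x (nx_of X)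

/-- (c1) -/
theorem c1_ac (X : NrX A d t q k β v' k' p' E' s') (hμ : μ ≤ 1 / 450) (δ0 : 0 ≤ δ) (b0 : 0 ≤ b)
    (l0 : 0 ≤ l) (l1 : l ≤ v' - 2 * δ + t) (hn : n = max 0 (p' - (δ + b)))
    (hT : T ≤ max (max (Gq d (cu (dn (qL q).1) 2 + t) (cu (dn (qL q).1) 4 + t) (l + b) n)
      (max (l + b + n + min (17 / 100 + t) (n / 3)) (5 / 3 * n + (l + b) / 3)))
      (2 / 3 * (l + b) + 5 / 3 * (p' - (δ + b)) - max 0 (s' - (δ + b)))) :
    max (2 / 3 * k' - (hX d q k β + v') / 3)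
        (max (hX d q k β / 3 + 2 / 3 * v') (2 / 3 * hX d q k β + 7 / 6 * v' - k' / 3)) +
      T + min b (max 0 (p' - δ)) + 2 * δ - max 0 (b - E') + (v' - 2 * δ - l) / 3 - p' / 3 +
      cκ (dn (qL q).1) / 1000 ≤ ESP d μ (qL q) k - β := by
  have hT' : T ≤ TR d (cu (dn (qL q).1) 2) (cu (dn (qL q).1) 4) t l b n p' s' (δ + b) := hT
  have h1 := SPX718.c1_x (nx_of X) ⟨δ0, b0, l0, l1, hn⟩ hT'
  rw [← hX_eq X.H] at h1
  rw [gx_eq X.H]
  linarith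

/-- (c0) -/
theorem c0_ac (X : NrX A d t q k β v' k' p' E' s') (hμ : μ ≤ 1 / 450) (δ0 : 0 ≤ δ) (b0 : 0 ≤ b)
    (l0 : 0 ≤ l) (l1 : l ≤ v' - 2 * δ + t) (hn : n = max 0 (p' - (δ + b)))
    (hT : T ≤ max (max (Gq d (cu (dn (qL q).1) 2 + t) (cu (dn (qL q).1) 4 + t) (l + b) n)
      (max (l + b + n + min (17 / 100 + t) (n / 3)) (5 / 3 * n + (l + b) / 3)))
      (2 / 3 * (l + b) + 5 / 3 * (p' - (δ + b)) - max 0 (s' - (δ + b)))) :
    max (2 / 3 * k' - v' / 3) (max (2 / 3 * k' - (hX d q k β + v') / 3) (2 / 3 * v')) +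
      T + min b (max 0 (p' - δ)) + 2 * δ - max 0 (b - E') - p' / 3 +
      cκ (dn (qL q).1) / 1000 ≤ ESP d μ (qL q) k - β := by
  have hT' : T ≤ TR d (cu (dn (qL q).1) 2) (cu (dn (qL q).1) 4) t l b n p' s' (δ + b) := hT
  have h1 := SPX718.c0_x (nx_of X) ⟨δ0, b0, l0, l1, hn⟩ hT'
  rw [← hX_eq X.H] at h1
  rw [gx_eq X.H]
  linarith

/-- (R), noncube class -/
theorem R_ac (X : NrX A d t q k β v' k' p' E' s') (hμ : μ ≤ 1 / 450) (δ0 : 0 ≤ δ)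
    (hL : 0 ≤ hX d q k β + 2 * v' - k' - δ) (e0 : 0 ≤ e) (e1 : e ≤ E')
    (hi : |i - (p' + v' + hX d q k β - k')| ≤ t) :
    2 / 3 * k' - (hX d q k β + v') / 3 + 5 / 3 * δ + 2 * e +
      gQ (hX d q k β + 2 * v' - k' - δ) (p' + v' + hX d q k β - k') + max i (i / 3) +
      g3 d (cu (dn (qL q).1) 4 + t) i + 2 / 3 * (p' - δ) + cκ (dn (qL q).1) / 1000 ≤
      ESP d μ (qL q) k - β := by
  rw [hX_eq X.H] at hL hi ⊢
  rw [gx_eq X.H]
  have h1 := SPX718.R_x (nx_of X) δ0 hL e0 e1 hi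
  unfold g3
  linarith

/-- (R), cube class -/
theorem RC_ac (X : NrX A d t q k β v' k' p' E' s') (hμ : μ ≤ 1 / 450) (δ0 : 0 ≤ δ)
    (hL : 0 ≤ hX d q k β + 2 * v' - k' - δ) (e0 : 0 ≤ e) (e1 : e ≤ E')
    (hi : |i - (p' + v' + hX d q k β - k')| ≤ t) :
    2 / 3 * k' - (hX d q k β + v') / 3 + 5 / 3 * δ + 2 * e +
      ((hX d q k β + 2 * v' - k' - δ) - 2 / 3 * (p' + v' + hX d q k β - k')) + i / 3 +
      5 / 3 * (p' - δ) - max e (s' - δ) + cκ (dn (qL q).1) / 1000 ≤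
      ESP d μ (qL q) k - β := by
  rw [hX_eq X.H] at hL hi ⊢
  rw [gx_eq X.H]
  have h1 := SPX718.RC_x (nx_of X) δ0 hL e0 e1 hi
  linarith

end Crest.Agent.R017.SPZ718
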