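import Crest.Agent.R017.SPX_502
import Crest.Agent.R017.SPZ_718
import Crest.Agent.R017.GrX2_968
import Crest.Agent.R017.GrX3_968
import Crest.Agent.R017.GrX4R_521

/-!
# Row 17, class E, R8 (helper968): the Gram sum of one sequence, `SPInX`

* **`grX`** : helper502's `GrX`, from the numbers of `alX β` (`vn_E`), the `R`-half (`r_halfX`)
  and helper718's real lines
* **`spinX`** : `SPInX` of one level of the structured function, class E
-/

set_option autoImplicit false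
set_option linter.unusedVariables false

noncomputable section

open Finset
open scoped ComplexConjugate ContDiff

namespace Crest.Agent.R017.GrX968

open Crest.Agent.R012 Crest.Agent.R012.Eis
open Crest.Agent.R012.LS2 (S mem_S bl)
open Crest.Agent.R017.XT71 (Sys Win mx le_mx)
open Crest.Agent.R017.CM106 (CS FS)
open Crest.Agent.R017.C70
open Crest.Agent.R017.HB645 (hh)
open Crest.Agent.R017.Prov71
open Crest.Agent.R017.B770
open Crest.Agent.R017.FE47 (PU cx SM)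
open Crest.Agent.R017.ER911
open Crest.Agent.R017.E1551 (Adm nmpos)
open Crest.Agent.R017.E2440 (TE StE)
open Crest.Agent.R017.E3Z548 (FH FH_nonneg)
open Crest.Agent.R017.E3Kc548 (LI mem_LI)
open Crest.Agent.R017.E3Hi290 (RN2XF)
open Crest.Agent.R017.Mode405 (Slp)
open Crest.Agent.R017.PX764 (n6 Dk)
open Crest.Agent.R017.PoHx72 (Cls)
open Crest.Agent.R017.ROX744 (PrU)
open Crest.Agent.R017.R3571 (RMm)
open Crest.Agent.R017.E5k54 (PT alb)
open Crest.Agent.R017.SSb54 (PTb mem_PTb)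
open Crest.Agent.R017.TEM792 (VN LD Xn Xn_pos)
open Crest.Agent.R017.TEX792 (adm_alX LDX Sv Gq)
open Crest.Agent.R017.E5B71
open Crest.Agent.R017.E5L770
open Crest.Agent.R017.E4U164 (J3 Y3)
open Crest.Agent.R017.Sf770 (JS)
open Crest.Agent.R017.TU47
open Crest.Agent.R017.TMv968 (rpow_log_div)
open Crest.Agent.R017.TSc968 (exists_Rh norm_omL Ac Nu nu_of Y3_bd KS_mem Kk_bd exp_X fct Fq
  PT_mem)
open Crest.Agent.R017.TSf968 (bn acX_of zs2_of κ31_of top_34 own_win LDX_of Sv_of)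
open Crest.Agent.R017.ET490 (lw0 lw1 LnT)
open Crest.Agent.R017.ET4X968 (gram_allX)
open Crest.Agent.R017.P1Q904 (gQ)
open Crest.Agent.R017.RXn770 (g3)
open Crest.Agent.R017.SPX502 (GrX spInX_of)
open Crest.Agent.R017.SPZ718 (HqX NrX hX c0_ac c1_ac S_ac V_ac R_ac RC_ac)
open Crest.Agent.R017.SPj968 (jbc_vn)
open Crest.Agent.R017.SP521 (wL_all wL_win FS_of_Adm Jw Jw_mem Jw_ne StE_win LI_win rpe lnT_of)
open Crest.Agent.R017.ExP960 (BdX S5X IX5 prX prQ u3 u3')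
open Crest.Agent.R017.E5LX770 (SqLX)
open Crest.Agent.R017.E4Df372 (alX)
open Crest.Agent.R017.Red848 (red Exc Sh exists_sh)
open Crest.Agent.R017.XS0298 (S0K)
open Crest.Agent.R017.RXX502 (RClX cop_alX)
open Crest.Agent.R017.GrX4R521 (RLn r_halfX)

variable {Λ : Type*} {π : Λ → DPar} {h : ℝ → ℝ}

set_option maxHeartbeats 4000000 in
/-- **the Gram sum of one sequence, class E** -/
theorem grX {c₁ : ℝ} (hpu : PU h c₁) (hP : ∀ lam, (π lam).OK) (hE : ∀ lam, Exc (π lam))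
    {A d β μ : ℝ} (hβ : β = 17 / 100) (hd : 0 ≤ d) (hd1 : d ≤ 1 / 40) (hA0 : A ≤ 1)
    (hA1 : 16 * (1 - A) ≤ d) (hO : OwnQ (ex Dq fun lam => S0K Dk (red (π lam)) h) d)
    (HR : RClX π h d) (hμ : μ ≤ 1 / 450) {e0 : ℝ} (he0 : 0 ≤ e0) (he1 : e0 ≤ 1 / 64) (r : ℝ)
    {Bf : ℕ → ℝ → ℝ → ℝ → ℝ} (hBf : ∀ i l N z, Bf i l N z ≤ bfO l N z)
    (hBf2 : ∀ i l N z, 2 * Bf i l N z ≤ topL l N z - Real.log 2 * i + d / 2 * l) :
    GrX π h e0 r Bf (fun l N z => JS (nL l N z)) A d β μ := by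
  have hd8 : d ≤ 1 / 8 := by linarith only [hd1]
  intro R hR ε hε
  obtain ⟨Rh, hRh0, hRh⟩ := exists_Rh hpu
  obtain ⟨ε₁, hε₁⟩ : ∃ ε₁ : ℝ, ε₁ = ε / 400 := ⟨_, rfl⟩
  have hε₁0 : 0 < ε₁ := by rw [hε₁]; positivity
  obtain ⟨δ, hδ⟩ : ∃ δ : ℝ, δ = min ε₁ (1 / 60000000) := ⟨_, rfl⟩
  have hδ0 : 0 < δ := by rw [hδ]; exact lt_min hε₁0 (by norm_num)
  have hδε : δ ≤ ε₁ := hδ.le.trans (min_le_left _ _)
  have hδ1 : δ ≤ 1 / 60000000 := hδ.le.trans (min_le_right _ _)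
  refine ⟨δ, hδ0, fun lam N B => ?_⟩
  by_cases hs : lam.2 ∈ SM (π lam.1).n
  swap
  · exact ⟨1, one_pos, 2, by norm_num, fun X _ a q _ h => absurd h hs⟩
  obtain ⟨K, hK⟩ : ∃ K : ℝ, K = |B| + 10 := ⟨_, rfl⟩
  have hK10 : 10 ≤ K := by have := abs_nonneg B; linarith only [this, hK]
  have hBK : B ≤ K := by have := le_abs_self B; linarith only [this, hK]
  have hK0 : 0 < K := by linarith only [hK10]
  have hRl := hR lam.1
  obtain ⟨k₀', hSh⟩ := exists_sh (hP lam.1).ψ (hE lam.1)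
  obtain ⟨M, HV⟩ := vn_E hpu hP hE hO hε₁0 (4 * K) (by linarith only [hK10]) lam.1
  obtain ⟨X₁, hX₁, H1⟩ := HV M le_rfl lam.2 hs
  obtain ⟨M₂, aS, A₀, haS, hA₀2, HRh⟩ := r_halfX hpu hP hE hd hd8 HR lam.1 hε₁0 (K := 301 * K)
    (by linarith only [hK10])
  obtain ⟨Cj, hCjd⟩ : ∃ Cj : ℝ, Cj = 800 * Real.exp (6 * Rh / 2) := ⟨_, rfl⟩
  have hCj : 1 ≤ Cj := by
    have := Real.one_le_exp (show 0 ≤ 6 * Rh / 2 by positivity)
    linarith only [this, hCjd]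
  obtain ⟨Ao, c, C, hc, hC, HG⟩ := gram_allX (ρ := Real.exp (-(2 * R lam.1))) (Real.exp_pos _)
    (Real.exp_le_one_iff.2 (by linarith only [hRl])) (R0 := 6 * Rh) (by positivity) aS
    A₀ (lt_of_lt_of_le (by norm_num) hA₀2) (ε := ε₁ / K)
    (J := 3 * (M : ℝ)) (B₂ := 2) (Lh := 0) (by positivity) (by positivity) (le_refl 2) le_rfl
  obtain ⟨X₂, hX₂, H2⟩ := HRh k₀' hSh lam.2 hs c hc
  obtain ⟨Mb, hMb1, hMb⟩ := wL_all (Ao + 2)
  obtain ⟨Ct, hCt⟩ : ∃ Ct : ℝ, Ct = C * (1 + Mb) ^ 2 * (Cj + (3 + 2 * c)) := ⟨_, rfl⟩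
  have hCt1 : 1 ≤ Ct := by
    rw [hCt]
    exact one_le_mul_of_one_le_of_one_le (one_le_mul_of_one_le_of_one_le hC
      (one_le_pow₀ (by linarith only [hMb1]))) (by linarith only [hCj, hc])
  have hc0 : 0 < c := by linarith only [hc]
  have hlc : 0 ≤ Real.log c := Real.log_nonneg hc
  have hlCt : 0 ≤ Real.log Ct := Real.log_nonneg hCt1
  have hr0 := abs_nonneg r
  obtain ⟨L₀, hL₀⟩ : ∃ L₀ : ℝ, L₀ = (4 + R lam.1 + |r| + Real.log Ct + Real.log c + 3 * Rh) / δ :=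
    ⟨_, rfl⟩
  have hM0 : (0 : ℝ) ≤ M := Nat.cast_nonneg _
  have hM20 : (0 : ℝ) ≤ M₂ := Nat.cast_nonneg _
  obtain ⟨δ', hδ'⟩ : ∃ δ' : ℝ, δ' = ε₁ / (M + M₂ + 1) := ⟨_, rfl⟩
  have hδ'0 : 0 < δ' := by rw [hδ']; positivity
  have hδ'M : δ' * M ≤ ε₁ := by
    rw [hδ', div_mul_eq_mul_div, div_le_iff₀ (by positivity)]
    nlinarith only [hε₁0, hM0, hM20]
  have hδ'M₂ : δ' * M₂ ≤ ε₁ := by
    rw [hδ', div_mul_eq_mul_div, div_le_iff₀ (by positivity)]
    nlinarith only [hε₁0, hM0, hM20]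
  refine ⟨δ', hδ'0, max (max X₁ X₂) (max 3 (Real.exp L₀)),
    lt_max_of_lt_left (lt_max_of_lt_left hX₁), ?_⟩
  intro X hX a q hF hsm m hm hmX hkC1 hkC2 bb hβT
  have hXX₁ : X₁ ≤ X := ((le_max_left _ _).trans (le_max_left _ _)).trans hX
  have hXX₂ : X₂ ≤ X := ((le_max_right _ _).trans (le_max_left _ _)).trans hX
  have hX3 : 3 ≤ X := ((le_max_left _ _).trans (le_max_right _ _)).trans hX
  have hXe : Real.exp L₀ ≤ X := ((le_max_right _ _).trans (le_max_right _ _)).trans hX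
  clear hX
  have hX1 : 1 < X := lt_of_lt_of_le hX₁ hXX₁
  have hX0 : 0 < X := by linarith only [hX1]
  obtain ⟨L, hL⟩ : ∃ L : ℝ, L = Real.log X := ⟨_, rfl⟩
  have hL0 : 0 < L := by rw [hL]; exact Real.log_pos hX1
  have hLL : L₀ ≤ L := by rw [hL]; exact (Real.le_log_iff_exp_le hX0).2 hXe
  have hl2 : 0 < Real.log 2 := Real.log_pos (by norm_num)
  have hl2' : Real.log 2 < 1 := by
    have := Real.log_two_lt_d9
    linarith only [this]
  have hsum : 4 + R lam.1 + |r| + Real.log Ct + Real.log c + 3 * Rh ≤ δ * L := by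
    rw [hL₀, div_le_iff₀ hδ0] at hLL
    linarith only [hLL]
  have hlog2 : Real.log 2 / L ≤ δ := by
    rw [div_le_iff₀ hL0]; linarith only [hsum, hRl, hr0, hlCt, hlc, hRh0, hl2']
  have hRL : R lam.1 ≤ δ * L := by linarith only [hsum, hr0, hlCt, hlc, hRh0]
  have hrL : |r| ≤ δ * L := by linarith only [hsum, hRl, hlCt, hlc, hRh0]
  have hCL : Real.log Ct ≤ δ * L := by linarith only [hsum, hRl, hr0, hlc, hRh0]
  have hcL : Real.log c + 4 ≤ δ * L := by linarith only [hsum, hRl, hr0, hlCt, hRh0]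
  have hRhL : 3 * Rh ≤ δ * L := by linarith only [hsum, hRl, hr0, hlCt, hlc]
  have h4L : 4 ≤ δ * L := by linarith only [hcL, hlc]
  clear hsum hLL hXe hL₀
  -- the domain
  have f := fct hd hd8 hA1 (qL_mem hF.dom)
  have κ31 := κ31_of hF
  have hAc : Ac δ L (bn a) (qL q) := by rw [hL]; exact acX_of hF
  obtain ⟨κ, hκ⟩ : ∃ κ : ℝ, κ = cκ (dn (qL q).1) := ⟨_, rfl⟩
  obtain ⟨κ', hκ'⟩ : ∃ κ' : ℝ, κ' = a.1.l / L := ⟨_, rfl⟩
  obtain ⟨x', hx'⟩ : ∃ x' : ℝ, x' = a.1.z / L := ⟨_, rfl⟩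
  obtain ⟨N', hN'⟩ : ∃ N' : ℝ, N' = a3 a.1.toBd / L := ⟨_, rfl⟩
  have aN : |N' - cN (dn (qL q).1)| ≤ 3 * δ := by rw [hN']; exact hAc.a3
  have aκ : |κ' - cκ (dn (qL q).1)| ≤ δ := by rw [hκ']; exact hAc.κ
  have ax : |x' - cx' (dn (qL q).1)| ≤ δ := by rw [hx']; exact hAc.x
  have hn : Nu κ' x' N' := nu_of f (by linarith only [hδ1]) aκ ax aN
  have eκ : a.1.l = κ' * L := by rw [hκ']; field_simp
  have eN : a3 a.1.toBd = N' * L := by rw [hN']; field_simp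
  have ez : a.1.z = x' * L := by rw [hx']; field_simp
  have hl0 : 0 ≤ a.1.l := by
    rw [eκ]; exact mul_nonneg (by linarith only [hn.κ0]) hL0.le
  -- the level
  have hNt : ∑ i, (u3 a.1 i).z = N' * L := by rw [ExP960.sum_u3, eN]
  obtain ⟨V, hV⟩ : ∃ V : ℝ, V = 2 ^ (a.2 + 1) := ⟨_, rfl⟩
  have hV1 : 1 ≤ V := by rw [hV]; exact one_le_pow₀ (by norm_num)
  have hV0 : 0 < V := by linarith only [hV1]
  obtain ⟨v', hv'⟩ : ∃ v' : ℝ, v' = Real.log V / L := ⟨_, rfl⟩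
  have ev' : v' = Real.log 2 * (a.2 : ℝ) / L + Real.log 2 / L := by
    rw [hv', hV, Real.log_pow]; push_cast; ring
  have av := abs_le.1 hAc.v
  have av1 : -δ ≤ Real.log 2 * (a.2 : ℝ) / L - (qL q).1 none := av.1
  have av2 : Real.log 2 * (a.2 : ℝ) / L - (qL q).1 none ≤ δ := av.2
  have hl2L : 0 < Real.log 2 / L := by positivity
  have eqn : (qL q).1 none = q.1 none := rfl
  have hv1 : q.1 none - δ ≤ v' := by linarith only [av1, ev', hl2L, eqn]
  have hv2 : v' ≤ q.1 none + 2 * δ := by linarith only [av2, ev', hlog2, eqn]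
  have hv0 : 0 ≤ v' := by
    rw [hv']; exact div_nonneg (Real.log_nonneg hV1) hL0.le
  obtain ⟨hKk1, hKkX, hmXK, ek⟩ := Kk_bd hX1 (l := a.1.l) (R := R lam.1) (κ := κ') (δ := δ) (K := K)
    (by rw [← hL]; exact eκ) (by rw [← hL]; exact hRL) hn.κ1 (by linarith only [hδ1]) hK10 hm hmX
  rw [← hL] at ek
  obtain ⟨Kk, hKk⟩ : ∃ Kk : ℝ, Kk = Real.exp (a.1.l + R lam.1) / (nm m : ℝ) ^ 3 := ⟨_, rfl⟩
  rw [← hKk] at hKk1 hKkX ek
  have hKk0 : 0 < Kk := by linarith only [hKk1]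
  obtain ⟨k', hk'⟩ : ∃ k' : ℝ, k' = kf a.1.l (R lam.1) X m := ⟨_, rfl⟩
  rw [← hk'] at ek hkC1 hkC2 ⊢
  have eKk : Real.exp (L * k') = Kk := by
    rw [← ek, mul_div_cancel₀ _ hL0.ne', Real.exp_log hKk0]
  obtain ⟨E0, hE0⟩ : ∃ E0 : ℝ, E0 = Real.exp (e0 * a.1.l) := ⟨_, rfl⟩
  have hek : e0 * κ' ≤ 1 / 64 * κ' :=
    mul_le_mul_of_nonneg_right he1 (by linarith only [hn.κ0])
  have hE01 : 1 ≤ E0 := by rw [hE0]; exact Real.one_le_exp (mul_nonneg he0 hl0)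
  obtain ⟨E', hE'⟩ : ∃ E' : ℝ, E' = e0 * κ' := ⟨_, rfl⟩
  have eE : Real.log E0 = L * E' := by rw [hE0, Real.log_exp, hE', eκ]; ring
  have eE0 : E0 = Real.exp (L * E') := by
    rw [← eE, Real.exp_log (by linarith only [hE01])]
  have hE'0 : 0 ≤ E' := by rw [hE']; exact mul_nonneg he0 (by linarith only [hn.κ0])
  have hE0X : E0 ≤ X ^ K := by
    rw [hE0, eκ, ← mul_assoc, hL, exp_X hX1]
    exact Real.rpow_le_rpow_of_exponent_le hX1.le (by linarith only [hek, hn.κ1, hK10])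
  -- the tuple
  have hYβ := Y3_bd hX1 (a := a.1.toBd) (r := r) (N := N') (δ := δ) (K := K)
    (by rw [← hL]; exact eN) hn.N0 hn.N1 (by linarith only [hδ1]) (by rw [← hL]; exact hrL) hK10
  have hβ1 := (mem_PTb.1 hβT).1
  have hβp : ∀ i, IsPrim (bb i) := fun i => (PT_mem hβ1 i).1
  have hβX : ∀ i, (nm (bb i) : ℝ) ≤ X ^ K := fun i => by
    have h1 := (PT_mem hβ1 i).2
    exact (by exact_mod_cast h1 : (nm (bb i) : ℝ) ≤ (E4U164.Y3 a.1.toBd r : ℝ)).trans hYβ.2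
  have hβ0 : ∏ i, bb i ≠ 0 := Finset.prod_ne_zero_iff.2 fun i _ => (hβp i).ne_zero
  have hnβ := TMv968.nm1 hβ0
  obtain ⟨β', hβ'⟩ : ∃ β' : ℝ, β' = Real.log (nm (∏ i, bb i)) / L := ⟨_, rfl⟩
  have hβ'0 : 0 ≤ β' := by rw [hβ']; exact div_nonneg (Real.log_nonneg hnβ) hL0.le
  have hTB : Real.log (nm (∏ i, bb i)) ≤ Bf a.2 a.1.l (a3 a.1.toBd) a.1.z := by
    rw [Real.log_le_iff_le_exp (by linarith only [hnβ])]
    exact (mem_PTb.1 hβT).2
  have hβ'1 : β' ≤ N' + x' - κ' / 2 := by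
    rw [hβ', div_le_iff₀ hL0]
    have h4 := hBf a.2 a.1.l (a3 a.1.toBd) a.1.z
    unfold E5L770.bfO at h4
    have h5 : a3 a.1.toBd + a.1.z - a.1.l / 2 = (N' + x' - κ' / 2) * L := by
      rw [eN, ez, eκ]; ring
    linarith only [hTB, h4, h5]
  have hβ'2 : Real.log 2 * (a.2 : ℝ) / L + 2 * β' ≤
      topL a.1.l (a3 a.1.toBd) a.1.z / L + d / 2 * κ' := by
    have h4 := hBf2 a.2 a.1.l (a3 a.1.toBd) a.1.z
    have h5 : 2 * (Real.log (nm (∏ i, bb i)) / L) ≤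
        topL a.1.l (a3 a.1.toBd) a.1.z / L - Real.log 2 * (a.2 : ℝ) / L + d / 2 * κ' := by
      rw [hκ', ← mul_div_assoc, ← mul_div_assoc, ← sub_div, ← add_div]
      exact div_le_div_of_nonneg_right (by linarith only [hTB, h4]) hL0.le
    rw [hβ']
    linarith only [h5]
  have eβ : (nm (∏ i, bb i) : ℝ) = Real.exp (L * β') := by
    rw [hβ', mul_div_cancel₀ _ hL0.ne', Real.exp_log (by linarith only [hnβ])]
  obtain ⟨p', hp'⟩ : ∃ p' : ℝ, p' = N' - β' := ⟨_, rfl⟩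
  have hp'0 : 0 ≤ p' := by linarith only [hp', hβ'1, hn.c, hn.N0]
  have hp'1 : p' ≤ 1 := by linarith only [hp', hβ'0, hn.N1]
  have eXn : Xn (u3 a.1) bb = Real.exp (L * p') := by
    unfold TEM792.Xn
    rw [hNt, eβ, ← Real.exp_sub, hp']
    congr 1
    ring
  have enL : TEM792.nL X (u3 a.1) bb = p' := by
    unfold TEM792.nL
    rw [hNt, ← hL, sub_div, mul_div_cancel_right₀ _ hL0.ne', ← hβ', hp']
  -- the nominal numbers
  obtain ⟨n1, n2⟩ := abs_le.1 aN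
  obtain ⟨x1, x2⟩ := abs_le.1 ax
  obtain ⟨κ1, κ2⟩ := abs_le.1 aκ
  have fκ0 := f.κ0
  have fκ1 := f.κ1
  have fN0 := f.N0
  have fN1 := f.N1
  have fx0 := f.x0
  have fvt := f.vt
  have ft34 := top_34 f
  obtain ⟨k₀, hk₀⟩ : ∃ k₀ : ℝ, k₀ = min k' (17 / 20 * cκ (dn (qL q).1)) := ⟨_, rfl⟩
  obtain ⟨β₀, hβ₀⟩ : ∃ β₀ : ℝ, β₀ = max 0 (β' - 20 * δ) := ⟨_, rfl⟩
  rw [← hk₀]
  have ββ : β' - 20 * δ ≤ β₀ := by rw [hβ₀]; exact le_max_right _ _
  have ββ0 : 0 ≤ β₀ := by rw [hβ₀]; exact le_max_left _ _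
  have ββ2 : β₀ ≤ β' := by
    rw [hβ₀]; exact max_le hβ'0 (by linarith only [hδ0])
  have htop : topL a.1.l (a3 a.1.toBd) a.1.z / L ≤ top5 (dn (qL q).1) + 16 * δ := by
    have e : topL a.1.l (a3 a.1.toBd) a.1.z / L = min (2 * N' - κ') (3 / 4 * N') + 11 / 5 * x' := by
      unfold E5L770.topL
      rw [eκ, eN, ez]
      have e1 : 2 * (N' * L) - κ' * L = (2 * N' - κ') * L := by ring
      have e2 : 3 / 4 * (N' * L) = 3 / 4 * N' * L := by ring
      rw [e1, e2, ← min_mul_of_nonneg _ _ hL0.le]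
      field_simp
    rw [e]
    have h2 : min (2 * N' - κ') (3 / 4 * N') ≤
        min (2 * cN (dn (qL q).1) - cκ (dn (qL q).1)) (3 / 4 * cN (dn (qL q).1)) + 7 * δ := by
      have h3 := min_le_left (2 * N' - κ') (3 / 4 * N')
      have h4 := min_le_right (2 * N' - κ') (3 / 4 * N')
      rw [← min_add_add_right]
      exact le_min (by linarith only [h3, n2, κ1]) (by linarith only [h4, n2, hδ0])
    unfold E5L770.top5
    linarith only [h2, x2, hδ0]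
  have hq : HqX A d q k₀ β₀ := by
    refine ⟨hd, hd1, hA0, hA1, ?_, ?_, ?_, ββ0, ?_, ?_⟩
    · rw [← hβ]; exact hF.dom
    · rw [hk₀]
      exact le_min hkC1 (by linarith only [fκ0])
    · rw [hk₀]; exact min_le_right _ _
    · rw [hβ₀]
      refine max_le (by linarith only [fκ0, fN0, fx0]) ?_
      linarith only [hβ'1, n2, x2, κ1, hδ0]
    · have hdκ : d / 2 * κ' ≤ d / 2 * cκ (dn (qL q).1) + δ := by
        have h1 : d / 2 * κ' ≤ d / 2 * (cκ (dn (qL q).1) + δ) :=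
          mul_le_mul_of_nonneg_left (by linarith only [κ2]) (by positivity)
        have h2 : d / 2 * δ ≤ 1 * δ := mul_le_mul_of_nonneg_right (by linarith only [hd1]) hδ0.le
        linarith only [h1, h2]
      have hd0κ : 0 ≤ d / 2 * cκ (dn (qL q).1) := mul_nonneg (by positivity) (by linarith only [fκ0])
      rcases le_total (β' - 20 * δ) 0 with h | h
      · rw [hβ₀, max_eq_left h, ← eqn]
        linarith only [fvt, hd0κ]
      · rw [hβ₀, max_eq_right h, ← eqn]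
        linarith only [hβ'2, htop, av1, hdκ, hδ0]
  have akk : |k' - k₀| ≤ δ := by
    rw [abs_le]
    have h1 : k₀ ≤ k' := by rw [hk₀]; exact min_le_left _ _
    have h2 : k' - δ ≤ k₀ := by
      rw [hk₀]
      exact le_min (by linarith only [hδ0]) (by linarith only [hkC2])
    constructor <;> linarith only [h1, h2, hδ0]
  have app : |p' - (cN (dn (qL q).1) - β₀)| ≤ 23 * δ := by
    rw [abs_le, hp']
    constructor <;> linarith only [n1, n2, ββ, ββ2, hδ0]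
  obtain ⟨sg, hsg⟩ : ∃ sg : ℝ, sg = 17 / 100 * cκ (dn (qL q).1) - 3 * δ - β' := ⟨_, rfl⟩
  have hNr : ∀ v'' : ℝ, |v'' - q.1 none| ≤ 10 * δ →
      NrX A d (50 * δ) q k₀ β₀ v'' k' p' E' sg := fun v'' hv'' => by
    refine ⟨hq, by linarith only [hδ0], by linarith only [hδ1],
      hv''.trans (by linarith only [hδ0]),
      akk.trans (by linarith only [hδ0]), app.trans (by linarith only [hδ0]), hE'0, ?_, ?_⟩
    · rw [hE']
      linarith only [hek, κ2, hδ0]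
    · rw [hsg]
      linarith only [ββ, hδ0]
  have hNv : NrX A d (50 * δ) q k₀ β₀ v' k' p' E' sg := hNr v' (by
    rw [abs_le]
    constructor <;> linarith only [hv1, hv2, hδ0])
  obtain ⟨hh', hhh⟩ : ∃ hh' : ℝ, hh' = hX d q k₀ β₀ := ⟨_, rfl⟩
  obtain ⟨g₀, hg₀⟩ : ∃ g₀ : ℝ, g₀ = ESP d μ (qL q) k₀ - β₀ - κ / 1000 := ⟨_, rfl⟩
  obtain ⟨Va, -, Vc, Vd⟩ := V_ac hNv
  have hvk : ∀ v'' : ℝ, v'' ≤ q.1 none + 10 * δ → v'' ≤ k' := fun v'' hv'' => by
    have h1 : (qL q).1 none ≤ 3 / 4 * cN (dn (qL q).1) := fvt.trans ft34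
    rw [eqn] at h1
    linarith only [h1, hv'', fN1, hkC1, fκ0, hδ1]
  have Vb : v' ≤ k' := hvk v' (by linarith only [hv2, hδ0])
  have hSv := S_ac hNv
  rw [← hhh] at hSv
  have hk'2 : k' ≤ 1 := by linarith only [hkC2, fκ1, hδ1]
  have hv'1 : v' ≤ 1 := Vb.trans hk'2
  have hVX : V ≤ X ^ K := by
    rw [← rpow_log_div hX1 hV0, ← hL, ← hv']
    exact Real.rpow_le_rpow_of_exponent_le hX1.le (by linarith only [hv'1, hK10])
  -- the level numbers
  have hLIv : ∀ i ∈ LI (2 ^ a.2 / 4) (2 ^ (a.2 + 1)), |(i : ℝ) / L - q.1 none| ≤ 10 * δ := by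
    intro i hi
    have h1 := LI_win hi
    have h2 : (i : ℝ) / L - q.1 none = ((i : ℝ) - Real.log 2 * a.2) / L +
        (Real.log 2 * (a.2 : ℝ) / L - (qL q).1 none) := by rw [eqn]; ring
    rw [h2]
    refine (abs_add_le _ _).trans ?_
    have h3 : |((i : ℝ) - Real.log 2 * a.2) / L| ≤ δ := by
      rw [abs_div, abs_of_pos hL0, div_le_iff₀ hL0]
      linarith only [h1, h4L]
    have h4 : |Real.log 2 * (a.2 : ℝ) / L - (qL q).1 none| ≤ δ := hAc.v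
    linarith only [h3, h4, hδ0]
  -- heights
  have hH1 : 1 ≤ X ^ δ' := Real.one_le_rpow hX1.le hδ'0.le
  have hHM : (X ^ δ') ^ M ≤ X ^ ε₁ := by
    rw [← Real.rpow_natCast, ← Real.rpow_mul hX0.le]
    exact Real.rpow_le_rpow_of_exponent_le hX1.le hδ'M
  have hHM₂ : (X ^ δ') ^ M₂ ≤ X ^ ε₁ := by
    rw [← Real.rpow_natCast, ← Real.rpow_mul hX0.le]
    exact Real.rpow_le_rpow_of_exponent_le hX1.le hδ'M₂
  have hSv0 : Sv X sg a.1 bb := by
    rw [hsg, hβ', hL]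
    exact Sv_of hX1 hF hβ f hδ0 hβp
  have hLD : LDX X (4 * K) (X ^ δ') sg a.1 bb :=
    LDX_of (K := K) hX1 hF (by linarith only [hBK, hK10]) (by linarith only [hK10])
      (by rw [← hL]; exact eN) hn.N1 hβp hβX (by linarith only [hK10]) hSv0
  have hLD₂ : LDX X (301 * K) (X ^ δ') sg a.1 bb :=
    LDX_of (K := K) hX1 hF (by linarith only [hBK, hK10]) (by linarith only [hK10])
      (by rw [← hL]; exact eN) hn.N1 hβp hβX (by linarith only [hK10]) hSv0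
  obtain ⟨al, hal⟩ : ∃ al : Eis → ℂ, al = alX (π lam.1) h lam.2 a.1 bb := ⟨_, rfl⟩
  -- the lumps
  obtain ⟨-, b2⟩ := abs_le.1 (hAc.u 2)
  obtain ⟨-, b3⟩ := abs_le.1 (hAc.u 3)
  obtain ⟨-, b4⟩ := abs_le.1 (hAc.u 4)
  have b2 : (a.1.us 2).z / L - cu (dn (qL q).1) 2 ≤ δ := b2
  have b3 : (a.1.us 3).z / L - cu (dn (qL q).1) 3 ≤ δ := b3
  have b4 : (a.1.us 4).z / L - cu (dn (qL q).1) 4 ≤ δ := b4
  have fu3 := f.u3
  have fu2 := f.u2
  have hz3 : ∀ i, (u3 a.1 i).z / Real.log X ≤ cu (dn (qL q).1) 2 + 50 * δ := by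
    rw [← hL]
    intro i
    fin_cases i
    · show (a.1.us 2).z / L ≤ _
      linarith only [b2, hδ0]
    · show (a.1.us 3).z / L ≤ _
      linarith only [b3, fu2, hδ0]
    · show (a.1.us 4).z / L ≤ _
      linarith only [b4, fu3, fu2, hδ0]
  have hu4 : (u3 a.1 2).z / Real.log X ≤ cu (dn (qL q).1) 4 + 50 * δ := by
    rw [← hL]
    show (a.1.us 4).z / L ≤ _
    linarith only [b4, hδ0]
  have hu4' : (a.1.us 4).z ≤ (cu (dn (qL q).1) 4 + 50 * δ) * Real.log X := by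
    rw [← hL, ← div_le_iff₀ hL0]
    linarith only [b4, hδ0]
  have hu0' : (u3' a.1 0).z / Real.log X ≤ 17 / 100 + 50 * δ := by
    have h1 := (zs2_of hF).2
    rw [hβ] at h1
    have h2 : (u3' a.1 0).z / Real.log X ≤ 17 / 100 + δ := h1
    linarith only [h2, hδ0]
  -- the claims
  obtain ⟨Fn, hFn⟩ : ∃ Fn : ℝ → ℝ → ℝ, Fn = fun v γ =>
    FE d (cu (dn (qL q).1) 2 + 50 * δ) (cu (dn (qL q).1) 4 + 50 * δ) (17 / 100 + 50 * δ) p' sg v γ +
      ε₁ := ⟨_, rfl⟩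
  have hVN : VN X (X ^ δ') M (4 * K) al Fn := by
    have h1 := H1 X hXX₁ (X ^ δ') hH1 a.1 bb sg hLD (cu (dn (qL q).1) 2 + 50 * δ)
      (cu (dn (qL q).1) 4 + 50 * δ) (17 / 100 + 50 * δ) hz3 ⟨2, hu4⟩ ⟨0, hu0'⟩
    rw [enL, ← hal] at h1
    rw [hFn]
    exact h1
  obtain ⟨Yw, hYw⟩ : ∃ Yw : ℝ, Yw = Xn (u3 a.1) bb * Real.exp (3 * Rh) := ⟨_, rfl⟩
  have hAdm : Adm Yw (Real.exp (L * p')) (6 * Rh) al := by
    rw [hal, hYw, ← eXn]
    exact adm_alX hRh0 hRh (π lam.1) lam.2 hF.ok hβp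
  have hYw1 : 1 ≤ Yw := by
    rw [hYw, eXn]
    exact one_le_mul_of_one_le_of_one_le (Real.one_le_exp (mul_nonneg hL0.le hp'0))
      (Real.one_le_exp (by positivity))
  have hXKK : X ^ K * X ^ K = (X ^ K) ^ (2 : ℝ) := by
    rw [Real.rpow_two, sq]
  have hYwX : Yw ≤ X ^ K := by
    rw [hYw, eXn, ← Real.exp_add, ← exp_X hX1, ← hL]
    refine Real.exp_le_exp.2 ?_
    have h1 : L * p' ≤ L * 1 := mul_le_mul_of_nonneg_left hp'1 hL0.le
    have h2 : δ * L ≤ 1 * L := mul_le_mul_of_nonneg_right (by linarith only [hδ1]) hL0.le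
    have h3 : 10 * L ≤ K * L := mul_le_mul_of_nonneg_right hK10 hL0.le
    linarith only [h1, h2, h3, hRhL, hL0]
  have hXK1 : 1 ≤ X ^ K := Real.one_le_rpow hX1.le hK0.le
  have hcX : c * Real.exp 2 ≤ X ^ K := by
    rw [← Real.exp_log hc0, ← Real.exp_add, ← exp_X hX1, ← hL]
    refine Real.exp_le_exp.2 ?_
    have h2 : δ * L ≤ 1 * L := mul_le_mul_of_nonneg_right (by linarith only [hδ1]) hL0.le
    have h3 : 10 * L ≤ K * L := mul_le_mul_of_nonneg_right hK10 hL0.le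
    linarith only [h2, h3, hcL, hL0]
  have hW1 : 1 ≤ c * Real.exp 2 * V :=
    one_le_mul_of_one_le_of_one_le (one_le_mul_of_one_le_of_one_le hc
      (Real.one_le_exp (by norm_num))) hV1
  have hX4K : X ^ K * X ^ K ≤ X ^ (4 * K) := by
    rw [← Real.rpow_add hX0]
    exact Real.rpow_le_rpow_of_exponent_le hX1.le (by linarith only [hK0])
  have hX4K3 : X ^ K * (X ^ K * X ^ K) ≤ X ^ (4 * K) := by
    rw [← Real.rpow_add hX0, ← Real.rpow_add hX0]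
    exact Real.rpow_le_rpow_of_exponent_le hX1.le (by linarith only [hK0])
  have hFl : ∀ v γ σ : ℝ, 0 ≤ v → 0 ≤ γ → 0 ≤ σ → Fn v γ ≤ Fn v (γ + σ) + 3 * σ := by
    intro v γ σ _ _ hσ
    rw [hFn]
    have h1 := FE_lip (z := cu (dn (qL q).1) 2 + 50 * δ) (u := cu (dn (qL q).1) 4 + 50 * δ)
      (u' := 17 / 100 + 50 * δ) (n := p') (s := sg) hd hd8 v γ σ hσ
    beta_reduce
    linarith only [h1]
  have hJB := jbc_vn (R := 6 * Rh) (by positivity) (W := c * Real.exp 2 * V) hX3 hH1 hYw1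
    ((mul_le_mul hYwX hYwX (by linarith only [hYw1]) (by positivity)).trans hX4K)
    ((mul_le_mul hYwX (mul_le_mul hcX hVX hV0.le (by positivity))
      (by positivity) (by positivity)).trans hX4K3)
    hFl hVN hAdm
  rw [← hL, ← hCjd] at hJB
  -- the R-half
  have hlcL : Real.log c / L ≤ 50 * δ := by
    rw [div_le_iff₀ hL0]
    linarith only [hcL, mul_pos hδ0 hL0]
  have hlcL0 : 0 ≤ Real.log c / L := div_nonneg hlc hL0.le
  have hdJ : ∀ D ∈ (Jw a.2 (nL a.1.l (a3 a.1.toBd) a.1.z)).image Prod.fst,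
      IsPrim D ∧ (nm D : ℝ) ^ 2 ≤ V := by
    intro D hD
    obtain ⟨x, hx, rfl⟩ := mem_image.1 hD
    refine ⟨(Jw_mem hx).1, ?_⟩
    have h1 := (Jw_mem hx).2.2
    have h2 := TMv968.nm1 (Jw_ne hx)
    rw [hV]
    exact (le_mul_of_one_le_left (by positivity) h2).trans h1
  have hRLn : ∀ i ∈ LI (2 ^ a.2 / 4) (2 ^ (a.2 + 1)),
      RLn d (cu (dn (qL q).1) 4 + 50 * δ) hh' k' ((i : ℝ) / Real.log X)
        (TEM792.nL X (u3 a.1) bb) E' sg (50 * δ) g₀ := by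
    intro i hi
    rw [enL, ← hL]
    have hNi := hNr ((i : ℝ) / L) (hLIv i hi)
    refine ⟨fun δ₁ e i' h1 h2 h3 h4 h5 => ?_, fun δ₁ e i' h1 h2 h3 h4 h5 => ?_⟩
    · rw [hhh] at h2 h5 ⊢
      have h6 := R_ac hNi hμ h1 h2 h3 h4 h5
      rw [← hκ] at h6
      rw [hg₀]
      have e3 : RSQ702.g3 d (cu (dn (qL q).1) 4 + 50 * δ) i' =
        g3 d (cu (dn (qL q).1) 4 + 50 * δ) i' := rfl
      rw [e3] at h6
      linarith only [h6]
    · rw [hhh] at h2 h5 ⊢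
      have h6 := RC_ac hNi hμ h1 h2 h3 h4 h5
      rw [← hκ] at h6
      rw [hg₀]
      linarith only [h6]
  obtain ⟨W0, hWS, hWH, hWR⟩ := H2 X hXX₂ (X ^ δ') hH1 a.1 bb sg hLD₂
    (cu (dn (qL q).1) 4 + 50 * δ) hu4' (LI (2 ^ a.2 / 4) (2 ^ (a.2 + 1)))
    ((Jw a.2 (nL a.1.l (a3 a.1.toBd) a.1.z)).image Prod.fst) hh' k' E' g₀ (50 * δ)
    (fun D hD => by
      obtain ⟨hDp, hDV⟩ := hdJ D hD
      have hD1 := TMv968.nm1 hDp.ne_zero
      refine ⟨hDp, ?_⟩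
      have h1 : (nm D : ℝ) ≤ V := (le_self_pow₀ hD1 (by norm_num)).trans hDV
      exact (h1.trans hVX).trans
        (Real.rpow_le_rpow_of_exponent_le hX1.le (by linarith only [hK0])))
    (by rw [hE']; linarith only [hek, hn.κ1, hK10])
    (by rw [← hL]; exact hlcL)
    (fun i hi => by
      rw [enL, ← hL]
      have hNi := hNr ((i : ℝ) / L) (hLIv i hi)
      have hSi := S_ac hNi
      rw [← hhh] at hSi
      have hi0 : 0 ≤ (i : ℝ) / L := div_nonneg (Nat.cast_nonneg _) hL0.le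
      linarith only [hSi, hi0, hp'1, hδ1, hK10, fκ0])
    hRLn
  rw [← hal, ← hL, ← eE0] at hWH
  rw [enL, ← hL, ← eE0] at hWR
  -- the Gram sum
  obtain ⟨g, hg⟩ : ∃ g : ℝ, g = g₀ + ε₁ := ⟨_, rfl⟩
  obtain ⟨KK, hKK⟩ : ∃ KK : Finset Eis,
    KK = KS (π lam.1).n (Real.exp (a.1.l - R lam.1)) (Real.exp (a.1.l + R lam.1)) m := ⟨_, rfl⟩
  have hV2 : (2 : ℝ) ^ (a.2 + 1) = V := hV.symm
  have hcK : ∀ x : ℝ, x ≤ c * (X ^ K) ^ 300 → x ≤ X ^ (301 * K) := by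
    intro x hx
    have h1 : c ≤ X ^ K := (le_mul_of_one_le_right hc0.le
      (Real.one_le_exp (by norm_num))).trans hcX
    calc x ≤ c * (X ^ K) ^ 300 := hx
      _ ≤ X ^ K * (X ^ K) ^ 300 := mul_le_mul_of_nonneg_right h1 (by positivity)
      _ = X ^ (301 * K) := by
          rw [← Real.rpow_natCast (X ^ K), ← Real.rpow_mul hX0.le, ← Real.rpow_add hX0]
          congr 1
          push_cast
          ring
  have key := HG (fun u => (wL a.2 u : ℂ)) Mb (by linarith only [hMb1]) (contDiff_wLc a.2)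
    (fun n hn x => hMb a.2 n hn x) 0 1 (by simp) (X ^ K)
    (by
      calc (3 : ℝ) ≤ X := hX3
        _ = X ^ (1 : ℝ) := (Real.rpow_one X).symm
        _ ≤ X ^ K := Real.rpow_le_rpow_of_exponent_le hX1.le (by linarith only [hK10]))
    hcX (Real.sqrt (2 ^ nL a.1.l (a3 a.1.toBd) a.1.z)) (2 ^ a.2 / 4) (2 ^ (a.2 + 1)) (omL a.2) al E0 V
    Yw (L * k') (L * p') (Cj * (X ^ δ') ^ M) (L * g)
    ((3 + 2 * c) * (X ^ δ') ^ M₂ * Real.exp (L * (g₀ + ε₁))) 1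
    m KK (fun _ _ => L * hh') (lam.2 ^ 2 * k₀') W0
    (fun δ₁ b l => L * Fn ((l + b) / L) ((δ₁ + b) / L) + min b (max 0 (L * p' - δ₁)))
    (mul_ne_zero (pow_ne_zero 2 hs.1) hSh.k0)
    (fun n hn => by
      rw [hal] at hn
      exact cop_alX (hP lam.1) (hE lam.1) hSh h hs hF.ok hβp n hn)
    (FS_of_Adm (by linarith only [hYw1]) hAdm)
    (fun n hn => ((mem_S (by linarith only [hYw1])).1 (hAdm.sup n hn)).2.2) hAdm hYw1
    (by rw [← hXKK]; exact hYwX.trans (le_mul_of_one_le_left (by positivity) hXK1))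
    hm hmXK (Real.sqrt_nonneg _) (by positivity) (by rw [hV2]; exact hVX)
    (fun x hx => by
      rw [one_mul]
      unfold Weight600.pw Weight600.osc
      simp [E5L770.omL, E5L770.lv])
    (fun i hi n hn _ hne => by
      have h1 : (0 : ℝ) < n := by exact_mod_cast hn
      exact wL_win h1 (wL_supp (by exact_mod_cast hne)))
    (fun x _ => norm_omL a.2 x) (mul_nonneg hL0.le Vc) (by rw [eKk]; exact hKkX)
    (fun u hu => by
      rw [hKK] at hu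
      obtain ⟨h1, h2, h3⟩ := KS_mem hu
      rw [← hKk] at h1 h3
      obtain ⟨h4, h5⟩ := mem_primBall.1 h1
      refine ⟨h5, h2, ?_, ?_⟩
      · rw [eKk, Real.exp_neg, inv_mul_le_iff₀ (Real.exp_pos _)]
        exact h3
      · rw [eKk]
        exact (Nat.le_floor_iff hKk0.le).1 h4)
    hV0.le hVX (fun x hx => by rw [← hV2]; exact (Jw_mem hx).2.1) hE01 hE0X
    (by
      rw [← exp_X hX1] at hXK1 ⊢
      rw [← Real.exp_nat_mul, ← hL]
      refine Real.exp_le_exp.2 ?_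
      push_cast
      have h1 : L * p' ≤ L * 1 := mul_le_mul_of_nonneg_left hp'1 hL0.le
      have h3 : 10 * L ≤ K * L := mul_le_mul_of_nonneg_right hK10 hL0.le
      linarith only [h1, h3, hL0])
    (fun i hi δ₂ _ => by
      have h1 := S_ac (hNr ((i : ℝ) / L) (hLIv i hi))
      rw [← hhh] at h1
      have h2 := mul_le_mul_of_nonneg_left h1 hL0.le
      have e1 : L * ((i : ℝ) / L) = i := by field_simp
      have h3 : δ * L ≤ cκ (dn (qL q).1) / 1000 * L :=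
        mul_le_mul_of_nonneg_right (by linarith only [fκ0, hδ1]) hL0.le
      have h4 : L * (hh' + 2 * ((i : ℝ) / L) + cκ (dn (qL q).1) / 1000) =
          L * hh' + 2 * (L * ((i : ℝ) / L)) + cκ (dn (qL q).1) / 1000 * L := by ring
      rw [h4, e1] at h2
      have h5 : L * (k' + p') = L * k' + L * p' := by ring
      linarith only [h2, h3, h5, hcL])
    (fun _ _ x y => by simp) hWS
    (fun i hi jj D hD e he γ φ hγ hφ hφX P hP =>
      hWH i hi jj D hD e he γ φ hγ hφ (hcK _ hφX) P hP)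
    (by positivity) (by positivity) le_rfl
    (by
      have e2 : V = Real.exp (L * v') := by
        rw [hv', mul_div_cancel₀ _ hL0.ne', Real.exp_log hV0]
      rw [eE0, e2, ← Real.exp_nat_mul, ← Real.exp_sub, rpe, rpe, ← Real.exp_add]
      refine Real.exp_le_one_iff.2 ?_
      push_cast
      have h1 := mul_le_mul_of_nonneg_left Va hL0.le
      linarith only [h1, mul_nonneg hL0.le hE'0])
    (by
      rw [eKk, div_le_one hKk0]
      have e2 : V = Real.exp (L * v') := by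
        rw [hv', mul_div_cancel₀ _ hL0.ne', Real.exp_log hV0]
      rw [e2, ← eKk]
      exact Real.exp_le_exp.2 (mul_le_mul_of_nonneg_left Vb hL0.le))
    (by rw [hV2]; exact hJB)
    (fun i hi δ₂ hδ₂ h2δ => ?_) (fun i hi D hD e he => hWR i hi D hD e he)
  · rw [← hKK]
    have e1 : ∀ x : Eis, StE (Real.exp (e0 * a.1.l)) (J3 (fun l N z => JS (nL l N z)) a.1.toBd a.2)
        (omL a.2) (alX (π lam.1) h lam.2 a.1 bb) (x * m ^ 3) =
        StE E0 (JW (Real.sqrt (2 ^ nL a.1.l (a3 a.1.toBd) a.1.z)) (2 ^ a.2 / 4) (2 ^ (a.2 + 1)))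
          (omL a.2) al (m ^ 3 * x) := by
      intro x
      unfold E4U164.J3
      rw [StE_Jv, StE_win hF.lvl, ← hE0, ← hal, mul_comm x]
      rfl
    rw [Finset.sum_congr rfl fun x _ => by rw [e1 x]]
    refine key.trans ?_
    rw [← hL, ← hβ']
    have z1 : (X ^ K) ^ (ε₁ / K) = X ^ ε₁ := by
      rw [← Real.rpow_mul hX0.le]
      congr 1
      field_simp
    have z2 : Real.exp (L * g) = X ^ g := by rw [mul_comm, hL, exp_X hX1]
    have z3 : Real.exp (L * (g₀ + ε₁)) = X ^ (g₀ + ε₁) := by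
      rw [mul_comm, hL, exp_X hX1]
    have z4 : (1 + |(0 : ℝ)|) ^ Ao = 1 := by simp
    have z5 : Ct ≤ X ^ ε₁ := by
      rw [← rpow_log_div hX1 (by linarith only [hCt1] : (0 : ℝ) < Ct), ← hL]
      refine Real.rpow_le_rpow_of_exponent_le hX1.le ?_
      rw [div_le_iff₀ hL0]
      exact hCL.trans (mul_le_mul_of_nonneg_right hδε hL0.le)
    rw [z1, z2, z3, z4, mul_one, mul_one]
    have z6 : Cj * (X ^ δ') ^ M * X ^ g ≤ Cj * X ^ (g₀ + 2 * ε₁) := by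
      rw [mul_assoc]
      refine mul_le_mul_of_nonneg_left ?_ (by linarith only [hCj])
      calc (X ^ δ') ^ M * X ^ g ≤ X ^ ε₁ * X ^ g := mul_le_mul_of_nonneg_right hHM (by positivity)
        _ = X ^ (g₀ + 2 * ε₁) := by
            rw [← Real.rpow_add hX0, hg]
            congr 1
            ring
    have z7 : (3 + 2 * c) * (X ^ δ') ^ M₂ * X ^ (g₀ + ε₁) ≤ (3 + 2 * c) * X ^ (g₀ + 2 * ε₁) := by
      rw [mul_assoc]
      refine mul_le_mul_of_nonneg_left ?_ (by linarith only [hc])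
      calc (X ^ δ') ^ M₂ * X ^ (g₀ + ε₁) ≤ X ^ ε₁ * X ^ (g₀ + ε₁) :=
            mul_le_mul_of_nonneg_right hHM₂ (by positivity)
        _ = X ^ (g₀ + 2 * ε₁) := by
            rw [← Real.rpow_add hX0]
            congr 1
            ring
    calc C * (1 + Mb) ^ 2 * X ^ ε₁ * (Cj * (X ^ δ') ^ M * X ^ g +
          (3 + 2 * c) * (X ^ δ') ^ M₂ * X ^ (g₀ + ε₁))
        ≤ C * (1 + Mb) ^ 2 * X ^ ε₁ * (Cj * X ^ (g₀ + 2 * ε₁) +
          (3 + 2 * c) * X ^ (g₀ + 2 * ε₁)) :=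
          mul_le_mul_of_nonneg_left (add_le_add z6 z7) (by positivity)
      _ = Ct * (X ^ ε₁ * X ^ (g₀ + 2 * ε₁)) := by rw [hCt]; ring
      _ ≤ X ^ ε₁ * (X ^ ε₁ * X ^ (g₀ + 2 * ε₁)) :=
          mul_le_mul_of_nonneg_right z5 (by positivity)
      _ = X ^ (ε₁ + (ε₁ + (g₀ + 2 * ε₁))) := by rw [← Real.rpow_add hX0, ← Real.rpow_add hX0]
      _ ≤ X ^ (ESP d μ (qL q) k₀ - β' + ε) := by
          refine Real.rpow_le_rpow_of_exponent_le hX1.le ?_
          rw [hg₀, hκ]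
          linarith only [hε₁, hε, ββ, hδ1, fκ0, hδ0, hδε]
  · -- the T-lines
    have hNi := hNr ((i : ℝ) / L) (hLIv i hi)
    have hδL : 0 ≤ δ₂ / L := div_nonneg hδ₂ hL0.le
    have ht : (Real.log c + 1) / L ≤ 50 * δ := by
      rw [div_le_iff₀ hL0]
      linarith only [hcL, mul_pos hδ0 hL0]
    have h5 := lnT_of (L := L) hL0 (F := Fn) (k := k')
      (v := (i : ℝ) / L) (h := hh') (p := p') (E := E') (δ := δ₂ / L) (t := (Real.log c + 1) / L)
      (G := g)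
      (fun b l hb hl hv => by
        have h1 := c0_ac hNi hμ hδL hb hl (by linarith only [hv, ht]) rfl
          (show FE d (cu (dn (qL q).1) 2 + 50 * δ) (cu (dn (qL q).1) 4 + 50 * δ)
            (17 / 100 + 50 * δ) p' sg (l + b) (δ₂ / L + b) ≤ _ from le_rfl)
        rw [← hhh, ← hκ] at h1
        rw [hFn, hg, hg₀]
        unfold ET490.lw0
        beta_reduce
        linarith only [h1])
      (fun b l hb hl hv => by
        have h1 := c1_ac hNi hμ hδL hb hl (by linarith only [hv, ht]) rfl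
          (show FE d (cu (dn (qL q).1) 2 + 50 * δ) (cu (dn (qL q).1) 4 + 50 * δ)
            (17 / 100 + 50 * δ) p' sg (l + b) (δ₂ / L + b) ≤ _ from le_rfl)
        rw [← hhh, ← hκ] at h1
        rw [hFn, hg, hg₀]
        unfold ET490.lw1
        beta_reduce
        linarith only [h1])
    have e1 : L * ((i : ℝ) / L) = i := by field_simp
    have e2 : L * (δ₂ / L) = δ₂ := by field_simp
    have e3 : L * ((Real.log c + 1) / L) = Real.log c + 1 := by field_simp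
    rw [e1, e2, e3, ← eE] at h5
    exact h5

/-- **`SPInX` of one level of the structured function, class E** -/
theorem spinX {c₁ : ℝ} (hpu : PU h c₁) (hP : ∀ lam, (π lam).OK) (hE : ∀ lam, Exc (π lam))
    {A d β μ : ℝ} (hβ : β = 17 / 100) (hd : 0 ≤ d) (hd1 : d ≤ 1 / 40) (hA0 : A ≤ 1)
    (hA1 : 16 * (1 - A) ≤ d) (hO : OwnQ (ex Dq fun lam => S0K Dk (red (π lam)) h) d)
    (HR : RClX π h d) (hμ : μ ≤ 1 / 450) {e0 : ℝ} (he0 : 0 ≤ e0) (he1 : e0 ≤ 1 / 64) (r : ℝ)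
    {Bf : ℕ → ℝ → ℝ → ℝ → ℝ} (hBf : ∀ i l N z, Bf i l N z ≤ bfO l N z)
    (hBf2 : ∀ i l N z, 2 * Bf i l N z ≤ topL l N z - Real.log 2 * i + d / 2 * l) :
    SPInX π (SxE π h e0 r Bf (fun l N z => JS (nL l N z))) A d β μ :=
  spInX_of hd (by linarith) hA1 (grX hpu hP hE hβ hd hd1 hA0 hA1 hO HR hμ he0 he1 r hBf hBf2)

end Crest.Agent.R017.GrX968
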