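import Crest.Agent.R017.NEz_911
import Crest.Agent.R017.TSe_968
import Crest.Agent.R017.TSf_968

/-!
# Row 17, class E: the own numbers from the field of near-equal lists (helper986)

* `NearAllX d s₀` : helper911's field `NEFx` on the whole domain `NearDom`
* `NearOwnX`, `nearOwnX_of` : the near claim at the own family, loss `2/3 d n`
* `own_allX`, `ownX_of_near` : helper968's `Own`
-/

set_option autoImplicit false

noncomputable section

namespace Crest.Agent.R017.NrX986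

open Crest.Agent.R017.ER911 Crest.Agent.R017.SC777
open Crest.Agent.R017.NE73 Crest.Agent.R017.NEx911
open Crest.Agent.R017.TM708 (tAll tCT tCT3 gv gv_eq tAll_le_CT3)
open Crest.Agent.R017.TK708 (AllT allT_of)
open Crest.Agent.R017.FN708 (Far far3 short_le)
open Crest.Agent.R017.OwA90 (Gt K0 K0_a K0_b K0_c K0_d FarOwn ShOwn)

/-- **the field of near-equal lists, class E** -/
def NearAllX (d : ℝ) (s₀ : EF) : Prop :=
  ∀ κ S y₁ y₂ y₃ : ℝ, NearDom κ S y₁ y₂ y₃ →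
    NEFx s₀ κ S y₁ y₂ y₃ (2 * d * ((y₁ + y₂ + y₃) / 3))

/-- **the near claim at the own family**, loss `2/3 d n` -/
def NearOwnX (d : ℝ) (s₀ : EF) : Prop :=
  ∀ K v z₁ z₂ z₃ : ℝ, 0 < K → 0 ≤ v → 0 ≤ z₃ → z₃ ≤ z₂ → z₂ ≤ z₁ →
    K < z₁ + z₂ + 2 * z₃ → 5 * (z₁ + z₂ + z₃) ≤ 4 * K → v + (z₁ + z₂ + z₃) / 2 ≤ K →
    200 * z₁ ≤ 61 * K →
    s₀ v {z₁, z₂, z₃} 0 0 ≤ max (2 * (z₁ + z₂ + z₃)) (4 / 3 * (z₁ + z₂ + z₃) + (K + v) / 3) +
      2 / 3 * d * (z₁ + z₂ + z₃)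

variable {d : ℝ} {r s s₀ : EF}

/-- **the near claims at the own family** -/
theorem nearOwnX_of (R : ExpRules (7 / 8 + d) r s) (Rm : ExpRGFz (7 / 8 + d) r s s₀)
    (hd : 0 ≤ d) (hd8 : 8 * d ≤ 1) (hG : NearAllX d s₀) : NearOwnX d s₀ := by
  intro K v z₁ z₂ z₃ hK hv h3 h32 h21 hn h5 hkv hz
  have h := flat_ownx R Rm hd hd8 hG (n := z₁ + z₂ + z₃) hK h3 h32 h21 rfl hv (Or.inl hz) h5 hkv
    (by linarith) (by linarith)
  have e : 2 * d * ((z₁ + z₂ + z₃) / 3) = 2 / 3 * d * (z₁ + z₂ + z₃) := by ring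
  rw [e] at h
  exact h

/-- sorted lists -/
theorem own_sortedX (hA : AllT d s₀) (hF : FarOwn d s₀) (hS : ShOwn s₀) (hN : NearOwnX d s₀)
    (hd : 0 ≤ d) {v A B C z : ℝ} (hv : 0 ≤ v) (hC : 0 ≤ C) (hCB : C ≤ B) (hBA : B ≤ A)
    (hz : A ≤ z) : s₀ v {A, B, C} 0 0 ≤ Gt d v (A + B + C) z := by
  obtain ⟨n, hn⟩ : ∃ n, n = A + B + C := ⟨_, rfl⟩
  obtain ⟨K, hK⟩ : ∃ K, K = K0 v n z := ⟨_, rfl⟩
  have k1 : 5 / 4 * n ≤ K := hK ▸ K0_a v n z
  have k2 : v + n / 2 ≤ K := hK ▸ K0_b v n z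
  have k3 : 3 / 2 * v ≤ K := hK ▸ K0_c v n z
  have k4 : 200 / 61 * z ≤ K := hK ▸ K0_d v n z
  have hdn : 2 * d * C ≤ 2 / 3 * d * n := by
    have := mul_le_mul_of_nonneg_left (show C ≤ n / 3 by linarith) (show 0 ≤ 2 * d by linarith)
    linarith
  rw [← hn]
  unfold Gt
  rw [← hK]
  have m1 := le_max_left (max (2 * n) (v + n)) (4 / 3 * n + (v + K) / 3)
  have m2 := le_max_right (max (2 * n) (v + n)) (4 / 3 * n + (v + K) / 3)
  have m3 := (le_max_left (2 * n) (v + n)).trans m1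
  have m4 := (le_max_right (2 * n) (v + n)).trans m1
  have hdn0 : 0 ≤ 2 / 3 * d * n := by
    have : 0 ≤ n := by linarith
    positivity
  refine le_min ?_ ?_
  · rcases le_total (2 * v) (n + K) with h2 | h2
    · rcases le_or_gt (n + C) K with hf | hf
      · have hfar : Far K v (A + B + C) A B C 0 :=
          ⟨by linarith, hv, hC, by linarith, hCB, le_rfl, by linarith, by linarith, by ring,
            by linarith, by linarith, by linarith⟩
        have := hF K v A B C hfar (by linarith)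
        rw [← hn] at this
        linarith
      · have := hN K v A B C (by linarith) hv hC hCB hBA (by linarith) (by linarith)
          (by linarith) (by linarith)
        rw [← hn] at this
        have h3 : max (2 * n) (4 / 3 * n + (K + v) / 3) ≤
            max (max (2 * n) (v + n)) (4 / 3 * n + (v + K) / 3) :=
          max_le m3 (by rw [add_comm K v]; exact m2)
        linarith
    · have := hS v A B C hv (by linarith) (by linarith) hC (by linarith)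
      rw [← hn] at this
      linarith
  · have h1 := (hA v A B C 0 0 hv (by linarith) (by linarith) hC le_rfl le_rfl).trans
      ((tAll_le_CT3 _ _ _ _ _ _).trans (min_le_left _ _))
    refine h1.trans ?_
    unfold tCT
    rw [gv_eq]
    have e1 := le_max_left (v + 4 / 3 * n) (5 / 3 * n + v / 3)
    have e2 := le_max_right (v + 4 / 3 * n) (5 / 3 * n + v / 3)
    have h3 : max (v + (C + (0 + 0)) + (A + B)) (A + B + (2 * (A + B) + (v + (C + (0 + 0)))) / 3) ≤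
        max (v + 4 / 3 * n) (5 / 3 * n + v / 3) - C :=
      max_le (by linarith) (by linarith)
    linarith

/-- **every list** -/
theorem own_gtX (hA : AllT d s₀) (hF : FarOwn d s₀) (hS : ShOwn s₀) (hN : NearOwnX d s₀)
    (hd : 0 ≤ d) {v z₁ z₂ z₃ z : ℝ} (hv : 0 ≤ v) (h1 : 0 ≤ z₁) (h2 : 0 ≤ z₂) (h3 : 0 ≤ z₃)
    (q1 : z₁ ≤ z) (q2 : z₂ ≤ z) (q3 : z₃ ≤ z) :
    s₀ v {z₁, z₂, z₃} 0 0 ≤ Gt d v (z₁ + z₂ + z₃) z := by
  have key : ∀ A B C : ℝ, ({A, B, C} : Multiset ℝ) = {z₁, z₂, z₃} → A + B + C = z₁ + z₂ + z₃ →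
      0 ≤ C → C ≤ B → B ≤ A → A ≤ z → s₀ v {z₁, z₂, z₃} 0 0 ≤ Gt d v (z₁ + z₂ + z₃) z := by
    intro A B C he hs hC hCB hBA hz
    rw [← he, ← hs]
    exact own_sortedX hA hF hS hN hd hv hC hCB hBA hz
  have c12 : ∀ a b c : ℝ, ({a, b, c} : Multiset ℝ) = {b, a, c} := fun a b c => by
    simp only [Multiset.insert_eq_cons]
    exact Multiset.cons_swap a b {c}
  have c23 : ∀ a b c : ℝ, ({a, b, c} : Multiset ℝ) = {a, c, b} := fun a b c => by
    simp only [Multiset.insert_eq_cons]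
    rw [show (b ::ₘ ({c} : Multiset ℝ)) = c ::ₘ {b} from Multiset.cons_swap b c 0]
  rcases le_total z₁ z₂ with a | a
  · rcases le_total z₂ z₃ with b | b
    · exact key z₃ z₂ z₁ (by rw [c23 z₃ z₂ z₁, c12 z₃ z₁ z₂, c23 z₁ z₃ z₂]) (by ring) h1 a b q3
    · rcases le_total z₁ z₃ with c | c
      · exact key z₂ z₃ z₁ (by rw [c23 z₂ z₃ z₁, c12 z₂ z₁ z₃]) (by ring) h1 c b q2
      · exact key z₂ z₁ z₃ (c12 z₂ z₁ z₃) (by ring) h3 c a q2
  · rcases le_total z₁ z₃ with b | b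
    · exact key z₃ z₁ z₂ (by rw [c12 z₃ z₁ z₂, c23 z₁ z₃ z₂]) (by ring) h2 a b q3
    · rcases le_total z₂ z₃ with c | c
      · exact key z₁ z₃ z₂ (c23 z₁ z₃ z₂) (by ring) h2 c b q1
      · exact key z₁ z₂ z₃ rfl rfl h3 c a q1

/-- **from the rules** -/
theorem own_allX (R : ExpRules (7 / 8 + d) r s) (Rm : ExpRGFz (7 / 8 + d) r s s₀) (hd : 0 ≤ d)
    (hd8 : 8 * d ≤ 1) (hN : NearOwnX d s₀) {v z₁ z₂ z₃ z : ℝ} (hv : 0 ≤ v) (h1 : 0 ≤ z₁)
    (h2 : 0 ≤ z₂) (h3 : 0 ≤ z₃) (q1 : z₁ ≤ z) (q2 : z₂ ≤ z) (q3 : z₃ ≤ z) :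
    s₀ v {z₁, z₂, z₃} 0 0 ≤ Gt d v (z₁ + z₂ + z₃) z := by
  refine own_gtX (allT_of R Rm.toExpS0 hd (by linarith)) ?_ ?_ hN hd hv h1 h2 h3 q1 q2 q3
  · intro K v A B C hf h2v
    have := far3 R Rm hd hd8 (m := 0) (a := 0) (by rw [zero_add]; exact hf) le_rfl le_rfl h2v
    have e : 2 * d * (C + 0 + 0) = 2 * d * C := by ring
    linarith
  · intro v z₁ z₂ z₃ hv h1 h2 h3 hs
    have := short_le R Rm.toExpS0 (w := 0) hv h1 h2 h3 le_rfl (by linarith)
    linarith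

/-- **the own numbers, class E** -/
theorem ownX_of_near (R : ExpRules (7 / 8 + d) r s) (Rm : ExpRGFz (7 / 8 + d) r s s₀)
    (hd : 0 ≤ d) (hd8 : 8 * d ≤ 1) (hG : NearAllX d s₀) : TSc968.Own s₀ d :=
  fun _ _ _ _ hv h1 h2 h3 =>
    own_allX R Rm hd hd8 (nearOwnX_of R Rm hd hd8 hG) hv h1 h2 h3 (le_max_left _ _)
      ((le_max_left _ _).trans (le_max_right _ _)) ((le_max_right _ _).trans (le_max_right _ _))

end Crest.Agent.R017.NrX986
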