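import Crest.Agent.R017.RXXd_502
import Crest.Agent.R017.RXk_770
import Crest.Agent.R017.RnXb_571
import Crest.Agent.R017.ExRed2_848

/-!
# Row 17, class E, x-side: (RH) of 372's `alX` in the two classes of frequencies (helper502)

* **`rh_alXb`** : noncubes by `rh_alX_nc`, cubes with the bias by 770's `rh_cubeX`
-/

set_option autoImplicit false
set_option linter.unusedVariables false
set_option maxHeartbeats 800000

noncomputable section

open Complex MeasureTheory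
open scoped ComplexConjugate

namespace Crest.Agent.R017.RXX502

open Crest.Agent.R012 Crest.Agent.R012.Eis Crest.Agent.R012.MC
open Crest.Agent.R012.LS2 (S mem_S bl mem_bl)
open Crest.Agent.R012.T411 (NCube)
open Crest.Agent.R017.FE47
open Crest.Agent.R017.B770
open Crest.Agent.R017.Prov71
open Crest.Agent.R017.PX764 (n6)
open Crest.Agent.R017.Mode405 (Slp)
open Crest.Agent.R017.R3571
open Crest.Agent.R017.TEM792 (LD nL)
open Crest.Agent.R017.RXn770 (g3)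
open Crest.Agent.R017.ExP960 (BdX u3 u3')
open Crest.Agent.R017.E4Df372 (alX)
open Crest.Agent.R017.Red848 (red Sh Exc exists_sh red_ok)
open Crest.Agent.R017.TEX792 (Sv)
open Crest.Agent.R017.PoHx72 (Cls)
open Crest.Agent.R017.ER911 Crest.Agent.R017.SC777
open Crest.Agent.R017.End699 (PF)
open Crest.Agent.R017.XEx298 (Rt)

variable {Λ : Type*} {π : Λ → DPar} {h : ℝ → ℝ}

lemma slp_a {a a' : ℕ} (haa : a ≤ a') {W : ℝ → ℝ} (h : Slp a W) : Slp a' W := by
  refine ⟨h.nonneg, h.low, fun P hP => (h.dbl P hP).trans ?_⟩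
  exact mul_le_mul_of_nonneg_right (pow_le_pow_right₀ (by norm_num) haa) (h.nonneg P hP)

open Classical in
/-- **(RH) of `alX` in the two classes**, the cube class with the bias -/
theorem rh_alXb {c₀ : ℝ} (hpu : PU h c₀) (hP : ∀ lam, (π lam).OK) (hE : ∀ lam, Exc (π lam))
    {d : ℝ} (hd : 0 ≤ d) (hd8 : d ≤ 1 / 8) (HR : RClX π h d) (lam : Λ) {ε : ℝ} (hε : 0 < ε)
    {K : ℝ} (hK : 1 ≤ K) :
    ∃ M aS A₀ : ℕ, 1 ≤ aS ∧ ∀ k₀ : Eis, Sh (π lam) k₀ → ∀ t : Eis, t ∈ SM (π lam).n →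
      ∃ X₀ : ℝ, 1 < X₀ ∧ ∀ X : ℝ, X₀ ≤ X → ∀ H : ℝ, 1 ≤ H →
      ∀ (a : BdX) (β : Fin 3 → Eis), a.ok → LD X K H (u3 a) β → LD X K H (u3' a) β →
      ∀ s₀ : ℝ, Sv X s₀ a β →
      ∀ u : ℝ, (∃ i, (u3 a i).z ≤ u * Real.log X) → (∃ i, (u3' a i).z ≤ u * Real.log X) →
      ∀ A : ℝ, (A₀ : ℝ) ≤ A →
      ∀ D e : Eis, IsPrim D → IsPrim e → (nm D : ℝ) ≤ X ^ K → (nm e : ℝ) ≤ X ^ K →
      ∀ P1 : ℝ, 0 < P1 → P1 ≤ X ^ K → ∃ W0 : Bool → ℝ → ℝ, (∀ jj, Slp aS (W0 jj)) ∧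
        (∀ (jj : Bool) (γ φ : Eis), IsPrim γ → IsPrim φ → (nm φ : ℝ) ≤ X ^ K → ∀ P : ℝ, 0 < P →
          (nm γ : ℝ) * n6 γ ^ 2 * ∑ k ∈ (bl P).filter (Cls (PrV (t ^ 2 * k₀)) jj),
            RMm A (fun m => alX (π lam) h t a β (D * m)) e γ φ k ≤ W0 jj P) ∧
        W0 false P1 ≤ H ^ M * X ^ (max (Real.log P1 / Real.log X)
          (Real.log P1 / Real.log X / 3) + g3 d u (Real.log P1 / Real.log X) +
          2 / 3 * (nL X (u3 a) β - Real.log (nm D) / Real.log X) + ε) ∧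
        W0 true P1 ≤ H ^ M * X ^ (Real.log P1 / Real.log X / 3 +
          (5 / 3 * (nL X (u3 a) β - Real.log (nm D) / Real.log X) -
          max (Real.log (nm e) / Real.log X) (s₀ - Real.log (nm D) / Real.log X)) + ε) := by
  obtain ⟨M, aS, A₀, haS, hA₀, H1⟩ := rh_alX_nc hpu hP hE hd hd8 HR lam hε hK
  obtain ⟨aS', A₀', haS', G1⟩ := RXn770.rh_cubeX hpu hε hK
  refine ⟨max M 12, max aS aS', max A₀ A₀', haS.trans (le_max_left _ _), fun k₀ hs t ht => ?_⟩
  obtain ⟨X₁, hX₁, H2⟩ := H1 k₀ hs t ht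
  obtain ⟨X₂, hX₂, G2⟩ := G1 (π lam) (hP lam) (hE lam) k₀ hs t ht
  refine ⟨max X₁ X₂, lt_max_of_lt_left hX₁, ?_⟩
  intro X hX H hH a β ha hL1 hL2 s₀ hS u hu hu' A hA D e hD he hDK heK P1 hP1 hP1K
  have hX1 : 1 < X := hX₁.trans_le ((le_max_left _ _).trans hX)
  have hX0 : 0 < X := by linarith
  have hA1 : (A₀ : ℝ) ≤ A := le_trans (by exact_mod_cast le_max_left A₀ A₀') hA
  have hA2 : (A₀' : ℝ) ≤ A := le_trans (by exact_mod_cast le_max_right A₀ A₀') hA
  obtain ⟨W, hW, b1, c1⟩ := H2 X ((le_max_left _ _).trans hX) H hH a β ha hL1 hL2 u hu hu' A hA1 D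
    e hD he hDK heK P1 hP1 hP1K
  obtain ⟨W', hW', b2, c2⟩ := G2 X ((le_max_right _ _).trans hX) H hH a β ha hL1 s₀ hS A hA2 D e hD
    he hDK heK P1 hP1 hP1K
  refine ⟨fun jj => if jj = true then W' else W, ?_, ?_, ?_, ?_⟩
  · intro jj
    by_cases hj : jj = true
    · simp only [if_pos hj]
      exact slp_a (le_max_right _ _) hW'
    · simp only [if_neg hj]
      exact slp_a (le_max_left _ _) hW
  · intro jj γ φ hγ hφ hφK P hPP
    cases jj with
    | true =>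
      simp only [if_true]
      exact b2 γ φ hγ hφ hφK P hPP
    | false =>
      simp only [Bool.false_eq_true, if_false]
      exact b1 γ φ hγ hφ hφK P hPP
  · simp only [Bool.false_eq_true, if_false]
    refine c1.trans (mul_le_mul_of_nonneg_right ?_ (by positivity))
    exact pow_le_pow_right₀ hH (le_max_left _ _)
  · simp only [if_true]
    refine c2.trans (mul_le_mul_of_nonneg_right ?_ (by positivity))
    exact pow_le_pow_right₀ hH (le_max_right _ _)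

/-- **the claim `RClX` from the bundle of class E** (571's `rmx_NC` at the reduced data) -/
theorem rclX_of {c₀ : ℝ} (hpu : PU h c₀) (hP : ∀ lam, (π lam).OK) (hE : ∀ lam, Exc (π lam))
    {d : ℝ} {s : EF} (R : ExpRules (7 / 8 + d) (ex Dq (fun lam => Rt (red (π lam)) h)) s)
    (hPF : PF Set.univ (7 / 8 + d)) (hd : 0 ≤ d) (hd8 : d ≤ 1 / 8) : RClX π h d := fun K =>
  RnX571.rmx_NC (π := fun lam => red (π lam)) hpu (fun lam => red_ok (hP lam) (hE lam))
    (fun lam k hk => Red848.NPm_red_iff (hP lam).ψ.q0 hk) R hPF hd hd8 K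

end Crest.Agent.R017.RXX502
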