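import Crest.Agent.R017.TUX_47
import Crest.Agent.R017.TSd_968

/-!
# Row 17, class E, R8 (helper502): the second moment `SPInX`, frame

* `GrX` : the Gram sum of one sequence `alX β`
* `spInX_of` : `SPInX` from `GrX` (the sum over the powerful tuples)
-/

set_option autoImplicit false

noncomputable section

open Finset

namespace Crest.Agent.R017.SPX502

open Crest.Agent.R012 Crest.Agent.R012.Eis
open Crest.Agent.R017.XT71 (Sys Win mx le_mx)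
open Crest.Agent.R017.C70
open Crest.Agent.R017.Prov71
open Crest.Agent.R017.B770
open Crest.Agent.R017.FE47 (PU cx SM)
open Crest.Agent.R017.E2440 (TE StE)
open Crest.Agent.R017.E5k54 (PT alb)
open Crest.Agent.R017.SSb54 (PTb mem_PTb SST)
open Crest.Agent.R017.E5B71
open Crest.Agent.R017.E5L770
open Crest.Agent.R017.E4U164
open Crest.Agent.R017.E4Df372 (alX)
open Crest.Agent.R017.ExP960 hiding alX
open Crest.Agent.R017.E5LX770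
open Crest.Agent.R017.ExBox960
open Crest.Agent.R017.TU47
open Crest.Agent.R017.TMv968 (nm1 rpow_log_div)
open Crest.Agent.R017.TSa968
open Crest.Agent.R017.TSb968
open Crest.Agent.R017.TSc968
open Crest.Agent.R017.TXr968 (SSA)

variable {Λ : Type*}

open Classical in
/-- **the Gram sum of one sequence `alX β`** of the class-E structured function, cube part `m` -/
def GrX (π : Λ → DPar) (h : ℝ → ℝ) (e0 r : ℝ) (Bf : ℕ → ℝ → ℝ → ℝ → ℝ)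
    (Jf : ℝ → ℝ → ℝ → Finset (Eis × Eis)) (A d β μ : ℝ) : Prop :=
  ∀ R : Λ → ℝ, (∀ lam, 0 ≤ R lam) → ∀ ε : ℝ, 0 < ε → ∃ δ : ℝ, 0 < δ ∧
    ∀ (lam : Λ × Eis) (N : ℕ) (B : ℝ), ∃ δ' : ℝ, 0 < δ' ∧ ∃ X₀ : ℝ, 1 < X₀ ∧
    ∀ X : ℝ, X₀ ≤ X → ∀ (a : BdX × ℕ) (q : (Option IX5 → ℝ) × (Kd → ℝ)),
      FrX A d β δ δ' B X N a q → lam.2 ∈ SM (π lam.1).n →
      ∀ m : Eis, IsPrim m → (nm m : ℝ) ^ 3 ≤ Real.exp (a.1.l + R lam.1) →
      7 / 10 * cκ (dn (qL q).1) ≤ kf a.1.l (R lam.1) X m →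
      kf a.1.l (R lam.1) X m ≤ 17 / 20 * cκ (dn (qL q).1) + δ →
      ∀ bb ∈ T3 (Bf a.2) a.1.toBd r,
      ∑ k ∈ KS (π lam.1).n (Real.exp (a.1.l - R lam.1)) (Real.exp (a.1.l + R lam.1)) m,
          ‖StE (Real.exp (e0 * a.1.l)) (J3 Jf a.1.toBd a.2) (omL a.2)
            (alX (π lam.1) h lam.2 a.1 bb) (k * m ^ 3)‖ ^ 2 ≤
        X ^ (ESP d μ (qL q) (min (kf a.1.l (R lam.1) X m) (17 / 20 * cκ (dn (qL q).1))) -
          Real.log (nm (∏ i, bb i)) / Real.log X + ε)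

/-- the windows of the base coordinates -/
lemma ac_X {A d β δ δ' B X : ℝ} {N : ℕ} {a : BdX × ℕ} {q : (Option IX5 → ℝ) × (Kd → ℝ)}
    (H : FrX A d β δ δ' B X N a q) : Ac δ (Real.log X) (a.1.toBd, a.2) (qL q) where
  κ := H.win.ev (some (.inl (.inl 0)))
  x := H.win.ev (some (.inl (.inl 1)))
  u i := H.win.ev (some (.inl (.inr i)))
  v := H.win.ev none

open Classical in
lemma SSA_eq {ι : Type*} [Fintype ι] (T : Finset (ι → Eis)) (al : (ι → Eis) → Eis → ℂ) (E0 : ℝ)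
    (J : Finset (Eis × Eis)) (om : Eis × Eis → ℂ) (k : Eis) :
    SSA T al E0 J om k = SA T al E0 J om k := by
  unfold SSA SA
  rfl

open Classical in
/-- **`SPInX` from the Gram sums of the sequences** -/
theorem spInX_of {π : Λ → DPar} {h : ℝ → ℝ} {e0 r : ℝ} {Bf : ℕ → ℝ → ℝ → ℝ → ℝ}
    {Jf : ℝ → ℝ → ℝ → Finset (Eis × Eis)} {A d β μ : ℝ} (hd : 0 ≤ d) (hd1 : d ≤ 1 / 8)
    (hA1 : 16 * (1 - A) ≤ d) (H : GrX π h e0 r Bf Jf A d β μ) :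
    SPInX π (SxE π h e0 r Bf Jf) A d β μ := by
  intro R hR ε hε
  obtain ⟨ε₁, hε₁⟩ : ∃ ε₁ : ℝ, ε₁ = ε / 4 := ⟨_, rfl⟩
  have hε₁0 : 0 < ε₁ := by rw [hε₁]; positivity
  obtain ⟨δ₁, hδ₁, H₁⟩ := H R hR ε₁ hε₁0
  obtain ⟨δ, hδ0, hδδ, hδ1⟩ : ∃ δ : ℝ, 0 < δ ∧ δ ≤ δ₁ ∧ δ ≤ 1 / 20000 :=
    ⟨min δ₁ (1 / 20000), lt_min hδ₁ (by norm_num), min_le_left _ _, min_le_right _ _⟩
  refine ⟨δ, hδ0, fun lam N B => ?_⟩
  obtain ⟨δ', hδ', X₁, hX₁, H₂⟩ := H₁ lam N B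
  obtain ⟨X₄, hX₄, H4⟩ := sum_wt (Fin 3) hε₁0 10 (by norm_num)
  obtain ⟨L₀, hL₀⟩ : ∃ L₀ : ℝ, L₀ = |r| / δ + 1 := ⟨_, rfl⟩
  refine ⟨δ', hδ', max (max X₁ X₄) (Real.exp L₀), lt_max_of_lt_left (lt_max_of_lt_left hX₁), ?_⟩
  intro X hX a q hF hs m hm hmX hk
  have hXX₁ : X₁ ≤ X := ((le_max_left _ _).trans (le_max_left _ _)).trans hX
  have hXX₄ : X₄ ≤ X := ((le_max_right _ _).trans (le_max_left _ _)).trans hX
  have hXe : Real.exp L₀ ≤ X := (le_max_right _ _).trans hX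
  have hX1 : 1 < X := lt_of_lt_of_le hX₁ hXX₁
  have hX0 : 0 < X := by linarith only [hX1]
  have hL0 : 0 < Real.log X := Real.log_pos hX1
  have hLL : L₀ ≤ Real.log X := (Real.le_log_iff_exp_le hX0).2 hXe
  have hrL : |r| ≤ δ * Real.log X := by
    have h1 : |r| / δ ≤ Real.log X := by linarith only [hLL, hL₀]
    rw [div_le_iff₀ hδ0] at h1
    linarith only [h1]
  have hF₁ : FrX A d β δ₁ δ' B X N a q :=
    { hF with win := hF.win.mono hX1.le hδδ le_rfl le_rfl le_rfl }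
  -- the tuples
  have f := fct hd hd1 hA1 (qL_mem hF.dom)
  have hAc := ac_X hF
  have aN : |a3 a.1.toBd / Real.log X - cN (dn (qL q).1)| ≤ 3 * δ := hAc.a3
  have hn := nu_of f hδ1 hAc.κ hAc.x aN
  obtain ⟨T, hT⟩ : ∃ T : Finset (Fin 3 → Eis), T = T3 (Bf a.2) a.1.toBd r := ⟨_, rfl⟩
  obtain ⟨hY1, hYX⟩ := Y3_bd hX1 (a := a.1.toBd) (r := r) (N := a3 a.1.toBd / Real.log X) (δ := δ)
    (K := 10) (by field_simp) hn.N0 hn.N1 hδ1 hrL le_rfl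
  have hTsub : T ⊆ PT (Fin 3) (Y3 a.1.toBd r) := fun b hb => by
    rw [hT] at hb
    exact (mem_PTb.1 hb).1
  have hT0 : ∀ b ∈ T, ∏ i, b i ≠ 0 := fun b hb =>
    Finset.prod_ne_zero_iff.2 fun i _ => (PT_mem (hTsub hb) i).1.ne_zero
  have hW := H4 X hXX₄ _ hY1 hYX T hTsub
  obtain ⟨E, hE⟩ : ∃ E : ℝ, E = ESP d μ (qL q) (min (kf a.1.l (R lam.1) X m)
    (17 / 20 * cκ (dn (qL q).1))) := ⟨_, rfl⟩
  have hk2 : kf a.1.l (R lam.1) X m ≤ 17 / 20 * cκ (dn (qL q).1) + δ₁ := hk.2.trans (by linarith)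
  have hG : ∀ b ∈ T, ∑ k ∈ KS (π lam.1).n (Real.exp (a.1.l - R lam.1))
      (Real.exp (a.1.l + R lam.1)) m, ‖StE (Real.exp (e0 * a.1.l)) (J3 Jf a.1.toBd a.2) (omL a.2)
        (alX (π lam.1) h lam.2 a.1 b) (k * m ^ 3)‖ ^ 2 ≤ X ^ (E + ε₁) * wt b ^ 2 := by
    intro b hb
    have h1 := H₂ X hXX₁ a q hF₁ hs m hm hmX hk.1 hk2 b (by rw [← hT]; exact hb)
    refine h1.trans (le_of_eq ?_)
    have h2 := TMv968.nm1 (hT0 b hb)
    have h3 : (0 : ℝ) < nm (∏ i, b i) := by linarith only [h2]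
    have e1 : wt b ^ 2 = X ^ (-(Real.log (nm (∏ i, b i)) / Real.log X)) := by
      unfold TSa968.wt
      rw [← Real.rpow_natCast, ← Real.rpow_mul h3.le, Real.rpow_neg hX0.le,
        rpow_log_div hX1 h3]
      norm_num
      rw [Real.rpow_neg_one]
    rw [e1, ← Real.rpow_add hX0, ← hE]
    congr 1
    ring
  have key := tup2 (T := T) hT0 (alX (π lam.1) h lam.2 a.1) (Real.exp (e0 * a.1.l))
    (J3 Jf a.1.toBd a.2) (omL a.2) (KS (π lam.1).n (Real.exp (a.1.l - R lam.1))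
      (Real.exp (a.1.l + R lam.1)) m) m (G := X ^ (E + ε₁)) (W := X ^ ε₁) (by positivity) hW hG
  have e2 : ∀ k, SxE π h e0 r Bf Jf a.2 lam a.1 k ^ 2 =
      ‖SA T (alX (π lam.1) h lam.2 a.1) (Real.exp (e0 * a.1.l)) (J3 Jf a.1.toBd a.2)
        (omL a.2) k‖ ^ 2 := by
    intro k
    unfold TU47.SxE
    rw [SSA_eq, hT]
  show ∑ k ∈ _, SxE π h e0 r Bf Jf a.2 lam a.1 (k * m ^ 3) ^ 2 ≤ _
  simp only [e2]
  refine key.trans ?_
  show (X ^ ε₁) ^ 2 * X ^ (E + ε₁) ≤ X ^ (ESP d μ (qL q) (min (kf a.1.l (R lam.1) X m)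
    (17 / 20 * cκ (dn (qL q).1))) + ε)
  rw [← hE, ← Real.rpow_natCast, ← Real.rpow_mul hX0.le, ← Real.rpow_add hX0]
  refine Real.rpow_le_rpow_of_exponent_le hX1.le ?_
  push_cast
  linarith

end Crest.Agent.R017.SPX502
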