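import Crest.Agent.R017.GrX2_968
import Crest.Agent.R017.NrX_986
import Crest.Agent.R017.RXXe_502
import Crest.Agent.R017.SPX_502
import Crest.Agent.R017.SgE_986
import Crest.Agent.R017.XT6d_241

/-!
# Row 17, class E, R8 (helper521): the inputs of `SPInX` from the bundles

* `own_gqX`, `ownQX_of` : the own numbers `OwnQ` from the class-E field of near-equal lists
* **`spinE_of`** : `SPInX` at the top data from `GrX`
-/

set_option autoImplicit false

noncomputable section

namespace Crest.Agent.R017.SPXz521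

open Crest.Agent.R012 Crest.Agent.R012.Eis
open Crest.Agent.R017.FE47 Crest.Agent.R017.End699
open Crest.Agent.R017.B770 Crest.Agent.R017.BxH986
open Crest.Agent.R017.Prov71 hiding K0
open Crest.Agent.R017.ER911
open Crest.Agent.R017.E5B71
open Crest.Agent.R017.E5L770
open Crest.Agent.R017.E5LX770
open Crest.Agent.R017.SC777
open Crest.Agent.R017.Fin4 Crest.Agent.R017.Fin5 Crest.Agent.R017.Fin6
open Crest.Agent.R017.Red848 (red Exc)
open Crest.Agent.R017.PX764 (Dk)
open Crest.Agent.R017.XS0298 (S0x S0K)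
open Crest.Agent.R017.Sg986 (AA AA_lt AA_eq AA_ge)
open Crest.Agent.R017.NrX986 (NearAllX NearOwnX nearOwnX_of own_gtX)
open Crest.Agent.R017.TM708
open Crest.Agent.R017.TK708 (AllT allT_of)
open Crest.Agent.R017.FN708 (Far far3 short_le)
open Crest.Agent.R017.OwA90 (FarOwn ShOwn)
open Crest.Agent.R017.TEX792
open Crest.Agent.R017.GrX968 (OwnQ)
open Crest.Agent.R017.RXX502 (RClX rclX_of)

/-- **every pure list, class E** -/
theorem own_gqX {d : ℝ} {s₀ : EF} (hA : AllT d s₀) (hF : FarOwn d s₀) (hS : ShOwn s₀)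
    (hN : NearOwnX d s₀) (hd : 0 ≤ d) {q : Fin 4 → ℝ} (hq : ∀ i, 0 ≤ q i) :
    s₀ (q 0) {q 1, q 2, q 3} 0 0 ≤ Gq d (mx3 q) (mn3 q) (q 0) (q 1 + q 2 + q 3) := by
  have h1 := own_gtX hA hF hS hN hd (z := mx3 q) (hq 0) (hq 1) (hq 2) (hq 3) (le_max_left _ _)
    ((le_max_left _ _).trans (le_max_right _ _)) ((le_max_right _ _).trans (le_max_right _ _))
  unfold Gq
  refine le_min (h1.trans (min_le_left _ _)) ?_
  have h2 := (hA (q 0) (q 1) (q 2) (q 3) 0 0 (hq 0) (hq 1) (hq 2) (hq 3) le_rfl le_rfl).trans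
    (tAll_le_CT3 _ _ _ _ _ _)
  rw [add_zero] at h2
  unfold tCT3 at h2
  obtain ⟨n, hn⟩ : ∃ n, n = q 1 + q 2 + q 3 := ⟨_, rfl⟩
  rw [← hn]
  have m1 := le_max_left (q 0 + n + min (mn3 q) (n / 3)) (5 / 3 * n + q 0 / 3)
  have m2 := le_max_right (q 0 + n + min (mn3 q) (n / 3)) (5 / 3 * n + q 0 / 3)
  have p1 := hq 1
  have p2 := hq 2
  have p3 := hq 3
  have key : ∀ A B C : ℝ, A + B + C = n → 0 ≤ C → C ≤ mn3 q → C ≤ n / 3 →
      tCT (q 0) A B C 0 ≤ max (q 0 + n + min (mn3 q) (n / 3)) (5 / 3 * n + q 0 / 3) := by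
    intro A B C hs hC hCm hC3
    have : C ≤ min (mn3 q) (n / 3) := le_min hCm hC3
    exact tCT_le (by linarith) (by linarith)
  rcases le_total (q 1) (q 2) with a | a
  · rcases le_total (q 1) (q 3) with b | b
    · refine h2.trans ((min_le_right _ _).trans ((min_le_left _ _).trans
        (key (q 2) (q 3) (q 1) (by linarith) p1 (le_min le_rfl (le_min a b)) (by linarith))))
    · refine h2.trans ((min_le_left _ _).trans
        (key (q 1) (q 2) (q 3) (by linarith) p3 (le_min b (le_min (b.trans a) le_rfl))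
          (by linarith)))
  · rcases le_total (q 2) (q 3) with b | b
    · refine h2.trans ((min_le_right _ _).trans ((min_le_right _ _).trans
        (key (q 3) (q 1) (q 2) (by linarith) p2 (le_min a (le_min le_rfl b)) (by linarith))))
    · refine h2.trans ((min_le_left _ _).trans
        (key (q 1) (q 2) (q 3) (by linarith) p3 (le_min (b.trans a) (le_min b le_rfl))
          (by linarith)))

/-- **the own numbers of the triples, class E** -/
theorem ownQX_of {d : ℝ} {r s s₀ : EF} (R : ExpRules (7 / 8 + d) r s)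
    (Rm : ExpRGFz (7 / 8 + d) r s s₀) (hd : 0 ≤ d) (hd8 : 8 * d ≤ 1) (hG : NearAllX d s₀) :
    OwnQ s₀ d := fun q hq => by
  refine own_gqX (allT_of R Rm.toExpS0 hd (by linarith)) ?_ ?_ (nearOwnX_of R Rm hd hd8 hG) hd hq
  · intro K v A B C hf h2v
    have := far3 R Rm hd hd8 (m := 0) (a := 0) (by rw [zero_add]; exact hf) le_rfl le_rfl h2v
    have e : 2 * d * (C + 0 + 0) = 2 * d * C := by ring
    linarith
  · intro v z₁ z₂ z₃ hv h1 h2 h3 hs
    have := short_le R Rm.toExpS0 (w := 0) hv h1 h2 h3 le_rfl (by linarith)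
    linarith

/-- the own numbers at the top data -/
theorem ownQE {d : ℝ} (hd : 0 < d) (hd1 : d ≤ 1 / 42) {h : ℝ → ℝ} (P : BunE d h) (G : RecE d h)
    (near : NearAllX d (ex Dq (fun lam => S0x (red (πE lam)) h))) :
    OwnQ (ex Dq (fun lam => S0K Dk (red (πE lam)) h)) d :=
  ownQX_of P.rules G hd.le (by linarith) near

/-- the moment claim of the noncube frequencies at the top data -/
theorem rclXE {d : ℝ} (hd : 0 < d) (hd1 : d ≤ 1 / 42) {h : ℝ → ℝ} {c₀ : ℝ} (hpu : PU h c₀)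
    (hPF : PF Set.univ (7 / 8 + d)) (P : BunE d h) : RClX πE h d :=
  rclX_of hpu (fun lam => lam.2.1) (fun lam => XT6241.exc_piE lam) P.rules hPF hd.le
    (by linarith)

/-- **`SPInX` at the top data** -/
theorem spinE_of {d : ℝ} (hd : 0 < d) (hd1 : d ≤ 1 / 42) {h : ℝ → ℝ} {c₀ : ℝ} (hpu : PU h c₀)
    (hPF : PF Set.univ (7 / 8 + d)) (P : BunE d h) (G : RecE d h)
    (near : NearAllX d (ex Dq (fun lam => S0x (red (πE lam)) h))) {r μ : ℝ}
    (H : RClX πE h d → OwnQ (ex Dq (fun lam => S0K Dk (red (πE lam)) h)) d →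
      SPX502.GrX πE h (1 / 64) r (bfE (d / 4)) (fun l N z => Sf770.JS (nL l N z)) (AA d) d βX μ) :
    TU47.SPInX πE (TU47.SxE πE h (1 / 64) r (bfE (d / 4))
      (fun l N z => Sf770.JS (nL l N z))) (AA d) d βX μ :=
  SPX502.spInX_of hd.le (by linarith) (AA_eq d)
    (H (rclXE hd hd1 hpu hPF P) (ownQE hd hd1 P G near))

end Crest.Agent.R017.SPXz521
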