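import Crest.Agent.R017.Fin10_986
import Crest.Agent.R017.LfI_986
import Crest.Agent.R017.LfJ_986

/-!
# Row 17: the top from the remaining leaves (helper986)

* `Open11 d h` : `LuN` and `LuE`; `s22_of_open11`, `s23_of_open11`
-/

set_option autoImplicit false

noncomputable section

open Complex Filter Topology

namespace Crest.Agent.R017.Fin11

open Crest.Agent.R012 Crest.Agent.R012.Eis
open Crest.Agent.R017.FE47 Crest.Agent.R017.End699
open Crest.Agent.R017.B770 Crest.Agent.R017.BxH986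
open Crest.Agent.R017.Fin4 Crest.Agent.R017.Fin5 Crest.Agent.R017.Fin6

/-- **the open leaves of row 17** at `θ = 7/8 + d` -/
structure Open11 (d : ℝ) (h : ℝ → ℝ) : Prop where
  /-- T.3 -/
  luN : d ≤ 1 / 42 → BunA d h → RecA d h → CovA d → ∀ r : ℝ, 0 ≤ r →
    (∀ u : ℝ, cx h u ≠ 0 → |u| ≤ r) → LfI986.LuN d h r
  /-- T.4 -/
  luE : d ≤ 1 / 42 → BunE d h → RecE d h → BunA d h → RecA d h → CovA d → ∀ r : ℝ, 0 ≤ r →
    (∀ u : ℝ, cx h u ≠ 0 → |u| ≤ r) → LfJ986.LuE d h r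

/-- **the open leaves of row 17** -/
structure Open : Prop where
  /-- the real statements of the cubic pairs, class E -/
  eD : Ge918.E4DE
  eF : Ge918.E4FE
  /-- the leaves -/
  lv : ∀ (h : ℝ → ℝ) (c₀ : ℝ), PU h c₀ → Neg h → ∀ d : ℝ, 0 < d → d < 1 / 8 →
    PF Set.univ (7 / 8 + d) → Open11 d h

theorem open_of (H : Open) : Fin10.Open where
  eD := H.eD
  eF := H.eF
  lv := fun h c₀ hpu hneg d hd hd1 hPF =>
    { lvN := fun h1 h2 h3 h4 r h5 h6 => LfI986.lvN_of hd h1 hpu hPF h2 h3 h5 h6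
        ((H.lv h c₀ hpu hneg d hd hd1 hPF).luN h1 h2 h3 h4 r h5 h6)
      lvE := fun h1 h2 h3 h4 h5 h6 r h7 h8 => LfJ986.lvE_of hd h1 hpu hPF h2 h3
        ((H.lv h c₀ hpu hneg d hd hd1 hPF).luE h1 h2 h3 h4 h5 h6 r h7 h8) }

/-- **S0022** from the open leaves -/
theorem s22_of_open11 (T : Trees) (H : Open) : S22 := Fin10.s22_of_open10 T (open_of H)

/-- **S0023** from the open leaves -/
theorem s23_of_open11 (T : Trees) (H : Open) : S23 := Fin10.s23_of_open10 T (open_of H)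

end Crest.Agent.R017.Fin11
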