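import Crest.Agent.R017.LfI_986
import Crest.Agent.R017.E3W4_271
import Crest.Agent.R017.E3Nm_146

/-!
# Row 17, T.3: the Gram error of class N (helper986)

* **`e3_of`** : the field `e3` of `LwN` from the near lists
-/

set_option autoImplicit false

noncomputable section

open Complex Filter Topology

namespace Crest.Agent.R017.LfL986

open Crest.Agent.R012 Crest.Agent.R012.Eis
open Crest.Agent.R017.FE47 Crest.Agent.R017.End699
open Crest.Agent.R017.B770 Crest.Agent.R017.BxH986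
open Crest.Agent.R017.Prov71 Crest.Agent.R017.ER911
open Crest.Agent.R017.E5B71 Crest.Agent.R017.ExP960
open Crest.Agent.R017.SC777
open Crest.Agent.R017.Fin4 Crest.Agent.R017.Fin5 Crest.Agent.R017.Fin6
open Crest.Agent.R017.P1l54 Crest.Agent.R017.P1t54
open Crest.Agent.R017.P10146 (E3U)
open Crest.Agent.R017.Sg986 (AA AA_lt AA_eq AA_ge)
open Crest.Agent.R017.NrA986 (NearAll)

/-- **the Gram error of class N** -/
theorem e3_of {d : ℝ} (hd : 0 < d) (hd1 : d ≤ 1 / 42) {h : ℝ → ℝ} {c₀ : ℝ} (hpu : PU h c₀)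
    (hPF : PF Set.univ (7 / 8 + d)) (hB : BunA d h) (hR : RecA d h) {r : ℝ} (hr0 : 0 ≤ r)
    (hr : ∀ u : ℝ, cx h u ≠ 0 → |u| ≤ r)
    (near : NearAll d (ex Dq (fun lam => S0p (πN lam) h))) :
    E3U πN h (1 / 64) r (ParS (AA d) d) (LS0 d) := by
  have P : BunN d h := hB _ πN πN_ok πN_cl
  have G := hR _ πN πN_ok πN_cl clo_πN
  have hA := AA_ge hd1
  have hcol := Col298.colP (θ := 7 / 8 + d) (by linarith) (by linarith) hPF hpu πN πN_ok
    (fun lam k hk => πN_cl lam k hk)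
  obtain ⟨⟨h1, h2⟩, h3, h4, h5, h6⟩ := E3N146.in_S hpu πN_ok P.rules hd.le (by linarith) hr0 hr
    (by linarith : 9 / 10 ≤ AA d) (AA_eq d)
    (NrA986.fe2L_of P.rules G hd.le (by linarith) near)
  exact E3W271.e3u_of hpu πN_ok P.rules hcol hd.le (by linarith) hr0 hr (by linarith) (AA_eq d)
    h1 h2 h3 h4 h5 h6

end Crest.Agent.R017.LfL986
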