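import Crest.Agent.R017.Fin12_986
import Crest.Agent.R017.LfL_986
import Crest.Agent.R017.EbC_986

/-!
# Row 17: the top from the remaining leaves (helper986)

* `LyN d h r` : near, et; `Open13 d h`; `s22_of_open13`, `s23_of_open13`
-/

set_option autoImplicit false

noncomputable section

open Complex Filter Topology

namespace Crest.Agent.R017.Fin13

open Crest.Agent.R012 Crest.Agent.R012.Eis
open Crest.Agent.R017.FE47 Crest.Agent.R017.End699
open Crest.Agent.R017.B770 Crest.Agent.R017.BxH986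
open Crest.Agent.R017.Prov71 Crest.Agent.R017.ER911
open Crest.Agent.R017.E5B71 Crest.Agent.R017.ExP960
open Crest.Agent.R017.SC777
open Crest.Agent.R017.Fin4 Crest.Agent.R017.Fin5 Crest.Agent.R017.Fin6
open Crest.Agent.R017.P1l54 Crest.Agent.R017.P1t54
open Crest.Agent.R017.P10146 (EtU)
open Crest.Agent.R017.Sg986 (AA AA_lt AA_eq AA_ge)
open Crest.Agent.R017.NrA986 (NearAll)

/-- **the open leaves of T.3** -/
structure LyN (d : ℝ) (h : ℝ → ℝ) : Prop where
  /-- the field of near-equal lists -/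
  near : NearAll d (ex Dq (fun lam => S0p (πN lam) h))
  /-- P1, exact square: class part -/
  et : EtU πN h (1 / 64) (ParS (AA d) d) (LS0 d)

/-- **the open leaves of row 17** at `θ = 7/8 + d` -/
structure Open13 (d : ℝ) (h : ℝ → ℝ) : Prop where
  /-- T.3 -/
  lyN : d ≤ 1 / 42 → BunA d h → RecA d h → CovA d → ∀ r : ℝ, 0 ≤ r →
    (∀ u : ℝ, cx h u ≠ 0 → |u| ≤ r) → LyN d h
  /-- T.4 -/
  lwE : d ≤ 1 / 42 → BunE d h → RecE d h → BunA d h → RecA d h → CovA d → ∀ r : ℝ, 0 ≤ r →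
    (∀ u : ℝ, cx h u ≠ 0 → |u| ≤ r) → EbC986.LwE d h r

/-- **the open leaves of row 17** -/
structure Open : Prop where
  /-- the real statements of the cubic pairs, class E -/
  eD : Ge918.E4DE
  eF : Ge918.E4FE
  /-- the leaves -/
  lv : ∀ (h : ℝ → ℝ) (c₀ : ℝ), PU h c₀ → Neg h → ∀ d : ℝ, 0 < d → d < 1 / 8 →
    PF Set.univ (7 / 8 + d) → Open13 d h

theorem open_of (H : Open) : Fin12.Open where
  eD := H.eD
  eF := H.eF
  lv := fun h c₀ hpu hneg d hd hd1 hPF =>
    { lwN := fun h1 h2 h3 h4 r h5 h6 =>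
        have L := (H.lv h c₀ hpu hneg d hd hd1 hPF).lyN h1 h2 h3 h4 r h5 h6
        ⟨L.near, L.et, LfL986.e3_of hd h1 hpu hPF h2 h3 h5 h6 L.near⟩
      luE := fun h1 h2 h3 h4 h5 h6 r h7 h8 => EbC986.luE_of hd h1 hpu hPF h2 h3 h7 h8
        ((H.lv h c₀ hpu hneg d hd hd1 hPF).lwE h1 h2 h3 h4 h5 h6 r h7 h8) }

/-- **S0022** from the open leaves -/
theorem s22_of_open13 (T : Trees) (H : Open) : S22 := Fin12.s22_of_open12 T (open_of H)

/-- **S0023** from the open leaves -/
theorem s23_of_open13 (T : Trees) (H : Open) : S23 := Fin12.s23_of_open12 T (open_of H)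

end Crest.Agent.R017.Fin13
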