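import Crest.Agent.R017.Fin13_986
import Crest.Agent.R017.EtN_146
import Crest.Agent.R017.E4TE_45

/-!
# Row 17: the top from the remaining leaves (helper986)

* `et_of` : the field `et` of class N; `Open14 d h`; `s22_of_open14`, `s23_of_open14`
-/

set_option autoImplicit false

noncomputable section

open Complex Filter Topology

namespace Crest.Agent.R017.Fin14

open Crest.Agent.R012 Crest.Agent.R012.Eis
open Crest.Agent.R017.FE47 Crest.Agent.R017.End699
open Crest.Agent.R017.B770 Crest.Agent.R017.BxH986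
open Crest.Agent.R017.Prov71 Crest.Agent.R017.ER911
open Crest.Agent.R017.E5B71 Crest.Agent.R017.ExP960
open Crest.Agent.R017.SC777
open Crest.Agent.R017.Fin4 Crest.Agent.R017.Fin5 Crest.Agent.R017.Fin6
open Crest.Agent.R017.P1l54 Crest.Agent.R017.P1t54
open Crest.Agent.R017.P10146 (EtU)
open Crest.Agent.R017.Sg986 (AA AA_lt AA_eq AA_ge)
open Crest.Agent.R017.NrA986 (NearAll)

/-- **the class part of class N** -/
theorem et_of {d : ℝ} (hd : 0 < d) (hd1 : d ≤ 1 / 42) {h : ℝ → ℝ} {c₀ : ℝ} (hpu : PU h c₀)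
    (hPF : PF Set.univ (7 / 8 + d)) (hB : BunA d h) (hR : RecA d h) {r : ℝ} (hr0 : 0 ≤ r)
    (hr : ∀ u : ℝ, cx h u ≠ 0 → |u| ≤ r)
    (near : NearAll d (ex Dq (fun lam => S0p (πN lam) h))) :
    EtU πN h (1 / 64) (ParS (AA d) d) (LS0 d) :=
  have hA := AA_ge hd1
  EtN146.etU_N hpu πN_ok πN_cl clo_πN hd hd1 hPF hB hR near hr0 hr (by linarith) (AA_lt hd).le
    (AA_eq d)

/-- **the open leaves of row 17** at `θ = 7/8 + d` -/
structure Open14 (d : ℝ) (h : ℝ → ℝ) : Prop where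
  /-- T.3 -/
  near : d ≤ 1 / 42 → BunA d h → RecA d h → NearAll d (ex Dq (fun lam => S0p (πN lam) h))
  /-- T.4 -/
  lwE : d ≤ 1 / 42 → BunE d h → RecE d h → BunA d h → RecA d h → CovA d → ∀ r : ℝ, 0 ≤ r →
    (∀ u : ℝ, cx h u ≠ 0 → |u| ≤ r) → EbC986.LwE d h r

/-- **the open leaves of row 17** -/
def Open : Prop := ∀ (h : ℝ → ℝ) (c₀ : ℝ), PU h c₀ → Neg h → ∀ d : ℝ, 0 < d → d < 1 / 8 →
    PF Set.univ (7 / 8 + d) → Open14 d h

theorem open_of (H : Open) : Fin13.Open where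
  eD := E4TE45.e4DE
  eF := E4TE45.e4FE
  lv := fun h c₀ hpu hneg d hd hd1 hPF =>
    { lyN := fun h1 h2 h3 _ r h5 h6 =>
        have L := (H h c₀ hpu hneg d hd hd1 hPF).near h1 h2 h3
        ⟨L, et_of hd h1 hpu hPF h2 h3 h5 h6 L⟩
      lwE := (H h c₀ hpu hneg d hd hd1 hPF).lwE }

/-- **S0022** from the open leaves -/
theorem s22_of_open14 (T : Trees) (H : Open) : S22 := Fin13.s22_of_open13 T (open_of H)

/-- **S0023** from the open leaves -/
theorem s23_of_open14 (T : Trees) (H : Open) : S23 := Fin13.s23_of_open13 T (open_of H)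

end Crest.Agent.R017.Fin14
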