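import Crest.Agent.R017.TnHf_50
import Crest.Agent.R017.CFl_48

/-!
# Row 17, exceptional class, REST (helper50): the frame of one level of one difference, own number

* `ShH` : the T-numbers of a difference: helper90's own number of the natural list, the flat number
  of the replaced list, the bias
* **`tnh_frameO`** : `tnh_frame` with `ShH`, from the own claim and `AllT`
-/

set_option autoImplicit false

noncomputable section

open Finset
open scoped Classical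

namespace Crest.Agent.R017.TnHf50

open Crest.Agent.R012 Crest.Agent.R012.Eis
open Crest.Agent.R012.LS2 (S mem_S)
open Crest.Agent.R017.HP842 (Pc pc sqc alL)
open Crest.Agent.R017.B770
open Crest.Agent.R017.FE47 (PU cx SM)
open Crest.Agent.R017.Prov71
open Crest.Agent.R017.Leg381 (Pf alF SF LF natl alF_natl)
open Crest.Agent.R017.RG64 (Ht)
open Crest.Agent.R017.XG702 (Pcs)
open Crest.Agent.R017.XT71 (Sys Win mx)
open Crest.Agent.R017.E1551 (Adm)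
open Crest.Agent.R017.I1146 (LN LipS Adm_list ds)
open Crest.Agent.R017.I1K764 (xN xN_eq zN norm_zN rl LN_rl pbh_xN bcx CellK)
open Crest.Agent.R017.E5B71 Crest.Agent.R017.E5L770
open Crest.Agent.R017.P1l54 (ParOK)
open Crest.Agent.R017.ExBox960 Crest.Agent.R017.ExP960
open Crest.Agent.R017.P1X960
open Crest.Agent.R017.Hi454 (DomHX EHX)
open Crest.Agent.R017.P10X764
open Crest.Agent.R017.Sup271 (NPm)
open Crest.Agent.R017.PX764 (Dk)
open Crest.Agent.R017.TM708 (PD R5)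
open Crest.Agent.R017.TNj90 (JBc)
open Crest.Agent.R017.E3Nx744 (jbc_x)
open Crest.Agent.R017.XS0298 (S0K)
open Crest.Agent.R017.TK708 (AllT)
open Crest.Agent.R017.ER911
open Crest.Agent.R017.OwA90 (Gt)
open Crest.Agent.R017.CGt48
open Crest.Agent.R017.S8X50

variable {Λ : Type*}

/-- the longest lump of the natural list -/
def zNa (a : BcX) : ℝ := max (a.2.1 0).z (max (a.2.1 1).z (a.2.1 2).z)

/-- the shortest lump of the replaced list -/
def zRa (a : BcX) : ℝ :=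
  min ((a.2.1 0).z - dz a.1) (min ((a.2.1 1).z + dz a.1) (a.2.1 2).z)

/-- **the T-numbers of a difference** -/
def ShH (d : ℝ) (a : BcX) : ℝ → ℝ → ℝ → ℝ :=
  shB (s0X a) (LN (clN a [])) fun γ b v =>
    max (GN d (zNa a) (LN (clN a [])) γ b v) (FR (zRa a) (LN (clN a [])) γ b v)

lemma lipS_shB4 {s0 p : ℝ} {sh : ℝ → ℝ → ℝ → ℝ} (h : LipS 4 sh) : LipS 4 (shB s0 p sh) := by
  intro γ b v b' v'
  have h0 := h γ b v b' v'
  have h1 := le_abs_self (b - b')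
  have h2 := le_abs_self (v - v')
  have h3 := neg_abs_le (b - b')
  have h4 := neg_abs_le (v - v')
  have h5 := abs_nonneg (b - b')
  have h6 := abs_nonneg (v - v')
  unfold shB bcx
  set m := |b - b'| + |v - v'| with hm
  refine max_le ?_ ?_
  · have := le_max_left (sh γ b' v') (5 / 3 * p + (2 / 3 * (v' + b') - 5 / 3 * (γ + b') -
      max 0 (s0 - (γ + b'))))
    linarith
  · have h7 := le_max_right (sh γ b' v') (5 / 3 * p + (2 / 3 * (v' + b') - 5 / 3 * (γ + b') -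
      max 0 (s0 - (γ + b'))))
    have h8 : max 0 (s0 - (γ + b')) ≤ max 0 (s0 - (γ + b)) + |b - b'| := by
      have e1 := le_max_left 0 (s0 - (γ + b))
      have e2 := le_max_right 0 (s0 - (γ + b))
      exact max_le (by linarith) (by linarith)
    linarith

lemma lipS_ShH {d : ℝ} (hd : 0 ≤ d) (hd1 : d ≤ 1) (a : BcX) : LipS 4 (ShH d a) :=
  lipS_shB4 (lipS_mono (lipS_max (lipS_GN hd hd1 _ _) (lipS_FR _ _)) (by norm_num))

lemma CellK_monoM {Kn : Eis → Eis → ℂ} {h : ℝ → ℝ} {P : DPar} {q : Eis} {ps : List Pq}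
    {G r M M' T E F : ℝ} {Sh : ℝ → ℝ → ℝ → ℝ} (hF : 0 ≤ F) (hM : M ≤ M')
    (H : CellK Kn h P q ps G r M T E F Sh) : CellK Kn h P q ps G r M' T E F Sh :=
  fun g hg hG b l ps' hb hbE hl hc h1 h2 => (H g hg hG b l ps' hb hbE hl hc h1 h2).trans (by
    have h3 := TM708.one_le_cN hc
    have h4 := Real.rpow_le_rpow_of_exponent_le h3 hM
    gcongr)

set_option maxHeartbeats 2000000 in
/-- **the frame of one level of one difference**, own number -/
theorem tnh_frameO {π : Λ → DPar} {h : ℝ → ℝ} {c₀ : ℝ} (hpu : PU h c₀) (hP : ∀ lam, (π lam).OK)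
    (hex : ∀ lam, ¬ NPm (π lam).n (π lam).ψ (π lam).l₂ 1)
    {Rh : ℝ} (hRh0 : 0 ≤ Rh) (hRh : ∀ u, cx h u ≠ 0 → |u| ≤ Rh) {c β : ℝ}
    {Par : Set (Fin 3 ⊕ Fin 5 → ℝ)} (hPar : ∀ p ∈ Par, ParOK p)
    {lo hi : (Fin 3 ⊕ Fin 5 → ℝ) → ℝ}
    (hR5 : ∀ p : IX5 → ℝ, prX p ∈ Par → ZR β p → R5 (bN p))
    {d : ℝ} (hd : 0 ≤ d) (hdone : d ≤ 1)
    (hown : ∀ v z₁ z₂ z₃ : ℝ, 0 ≤ v → 0 ≤ z₁ → 0 ≤ z₂ → 0 ≤ z₃ →
      ex Dq (fun lam => S0K Dk (π lam) h) v {z₁, z₂, z₃} 0 0 ≤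
        Gt d v (z₁ + z₂ + z₃) (max z₁ (max z₂ z₃)))
    (hall : AllT d (ex Dq fun lam => S0K Dk (π lam) h)) {ε : ℝ} (hε : 0 < ε) :
    ∃ τ : ℝ, 0 < τ ∧ τ ≤ ε ∧ ∃ δ₀ : ℝ, 0 < δ₀ ∧ ∀ (lam : Λ × Eis) (N : ℕ) (B : ℝ),
      ∃ J : ℝ, 0 ≤ J ∧ ∃ δ₁ : ℝ, 0 < δ₁ ∧ ∃ X₀ : ℝ, 3 ≤ X₀ ∧ ∀ X : ℝ, X₀ ≤ X →
      ∀ δ : ℝ, 0 ≤ δ → δ ≤ δ₀ → ∀ δ' : ℝ, 0 ≤ δ' → δ' ≤ δ₁ →
      ∀ a : BcX × ℕ, ∀ q ∈ DomHX c β Par lo hi,
      Win (lev (Real.log 2) S8X) q.1 δ N B δ' X a →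
      okCX (π lam.1) lam.2 a.1 [] ∧ okD a.1 →
      prX (bq q) ∈ Par ∧ ZR β (bq q) ∧
      F8X X δ (Real.log X) (bq q) (svq q) (q.1 (some (.inr 3))) a.1 [] ∧
      |Real.log 2 * a.2 - q.1 none * Real.log X| ≤ δ * Real.log X ∧
      PD X τ (max B 3) (X ^ δ') 0 (bN (bq q)) 1 a.1.2.1 [] a.1.1.l ∧
      PD X τ (max B 3) (X ^ δ') 0 (bR (bq q)) 1 (rzD a.1.2.1 (dz a.1.1)) [] a.1.1.l ∧
      (∀ Y : ℝ, Real.exp (LN (clN a.1 []) + 3 * Rh) ≤ Y →
        Adm Y (Real.exp (LN (clN a.1 []))) (6 * Rh)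
          (xD h (π lam.1) lam.2 a.1.2.1 (dz a.1.1) [])) ∧
      (∀ Y : ℝ, 1 ≤ Y → Y ≤ X ^ (3 : ℝ) → ∀ W : ℝ, 0 < W →
        Real.log W ≤ 9 / 10 * Real.log X →
        JBc Y W (X ^ ε) J (ShH d a.1) (xD h (π lam.1) lam.2 a.1.2.1 (dz a.1.1) [])) := by
  obtain ⟨τ, hτ, hτ8, hτε⟩ : ∃ τ : ℝ, 0 < τ ∧ τ ≤ 1 / 10 ∧ τ ≤ ε / 16 :=
    ⟨min (1 / 10) (ε / 16), lt_min (by norm_num) (by positivity), min_le_left _ _,
      min_le_right _ _⟩
  refine ⟨τ, hτ, by linarith, τ / 100, by positivity, ?_⟩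
  rintro ⟨lam, s⟩ N B
  by_cases hs0 : s = 0
  · refine ⟨0, le_rfl, 1, one_pos, 3, le_rfl, ?_⟩
    intro X _ δ _ _ δ' _ _ a q _ _ hok
    exact absurd hs0 hok.1.2.1.1
  set B₂ : ℝ := max B 3 with hB₂
  have hBB : B ≤ B₂ := le_max_left _ _
  have hB3 : 3 ≤ B₂ := le_max_right _ _
  have hB0 : 0 < B₂ := by linarith
  have hε16 : 0 < ε / 16 := by positivity
  have hW := TK708.wd_E hpu hP
  obtain ⟨Mo, hco⟩ := cellK_own hW hd hown hε16 hB0 lam B₂
  obtain ⟨Mf, hcf⟩ := cellK_flat hW hall hε16 hB0 lam B₂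
  set M₁ : ℕ := max Mo Mf with hM₁
  have hMo : Mo ≤ M₁ := le_max_left _ _
  have hMf : Mf ≤ M₁ := le_max_right _ _
  set M : ℝ := (M₁ : ℝ) with hM
  have hM0 : 0 ≤ M := Nat.cast_nonneg M₁
  have hsn : (1 : ℝ) ≤ (nm s : ℝ) ^ 2 := one_le_pow₀ (by exact_mod_cast nm_pos.2 hs0)
  obtain ⟨C, r, hC, hr, HJ⟩ := jbc_x hpu 3 (ε := ε / 16) (M := M) (B₂ := B₂) hε16 hM0 hB0
    hsn (Dd := ((ds s).card : ℝ)) (Nat.cast_nonneg _) (L := 4) (by norm_num)
  have hBp : (1 : ℝ) ≤ 2 * (B₂ + 1) := by linarith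
  obtain ⟨C₀, hC₀, HP⟩ := pbh_xN hpu 1 (B := 2 * (B₂ + 1)) hBp (ε := ε / 16) hε16
  obtain ⟨X₁, hX₁, hco⟩ := hco r hr
  obtain ⟨X₂, hX₂, hcf⟩ := hcf r hr
  set m₀ : ℝ := (M₁ : ℝ) + 18 + 1 with hm₀
  have hm₀1 : 0 < m₀ := by positivity
  set cs : ℝ := Real.log ((nm s : ℝ) ^ 2) with hcs
  have hcs0 : 0 ≤ cs := Real.log_nonneg hsn
  set CC : ℝ := C * (2 + C₀) + 1 with hCC
  have hCC1 : 1 ≤ CC := by
    have : 0 ≤ C * (2 + C₀) := by positivity
    linarith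
  have hlCC : 0 ≤ Real.log CC := Real.log_nonneg hCC1
  have hn1 : (1 : ℝ) ≤ nm (π lam).n := by exact_mod_cast nm_pos.2 (hP lam).ψ.q0
  set Q : ℝ := 2 + cs / τ + 16 * Real.log CC / ε + Real.log (nm (π lam).n) with hQ
  have hQ2 : 0 ≤ cs / τ := by positivity
  have hQ3 : 0 ≤ 16 * Real.log CC / ε := by positivity
  have hQ4 : 0 ≤ Real.log (nm (π lam).n) := Real.log_nonneg hn1
  refine ⟨max (((3 : ℕ) : ℝ) * M) 12, by positivity, ε / (16 * m₀), by positivity,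
    max (max X₁ X₂) (Real.exp Q), hX₁.trans ((le_max_left _ _).trans (le_max_left _ _)), ?_⟩
  intro X hX δ hδ0 hδτ δ' hδ'0 hδ'M a' q hq hw hok
  obtain ⟨a, j⟩ := a'
  dsimp only at hok ⊢
  have hX1' : X₁ ≤ X := (le_max_left _ _).trans ((le_max_left _ _).trans hX)
  have hX2' : X₂ ≤ X := (le_max_right _ _).trans ((le_max_left _ _).trans hX)
  have hX3 : 3 ≤ X := hX₁.trans hX1'
  have hXQ : Real.exp Q ≤ X := (le_max_right _ _).trans hX
  have hX1 : 1 < X := by linarith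
  have hX0 : 0 < X := by linarith
  set L := Real.log X with hL
  have hQL : Q ≤ L := by
    have := Real.log_le_log (Real.exp_pos Q) hXQ
    rwa [Real.log_exp] at this
  have hL2 : 2 ≤ L := by linarith
  have hL0' : 0 < L := by linarith
  have hcsτ : cs ≤ τ * L := by
    have h1 : cs / τ ≤ L := by linarith
    rw [div_le_iff₀ hτ] at h1
    linarith
  have hLC : CC ≤ X ^ (ε / 16) := by
    have h1 : 16 * Real.log CC / ε ≤ L := by linarith
    rw [div_le_iff₀ hε] at h1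
    rw [Real.rpow_def_of_pos hX0, ← hL]
    rw [← Real.exp_log (show 0 < CC by linarith)]
    exact Real.exp_le_exp.2 (by linarith)
  have hnX : (nm (π lam).n : ℝ) ≤ X ^ B₂ := by
    have h1 : (nm (π lam).n : ℝ) ≤ X := by
      rw [← Real.exp_log (show (0 : ℝ) < nm (π lam).n by linarith), ← Real.exp_log hX0, ← hL]
      exact Real.exp_le_exp.2 (by linarith)
    refine h1.trans ?_
    calc X = X ^ (1 : ℝ) := (Real.rpow_one X).symm
      _ ≤ X ^ B₂ := Real.rpow_le_rpow_of_exponent_le hX1.le (by linarith)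
  -- the window
  obtain ⟨hc1, hc2, hc3, hc4, hc5, hc6, hc7, hc8⟩ := hq
  set p : IX5 → ℝ := bq q with hp
  have hpar : prX p ∈ Par := hc1.par
  have hzr : ZR β p := hc1.zr
  have hPp := hPar _ hpar
  have hRb := hR5 p hpar hzr
  have hlv : |Real.log 2 * (j : ℝ) - q.1 none * L| ≤ δ * L := by
    have h1 : |Real.log 2 * (j : ℝ) / L - q.1 none| ≤ δ := hw.ev none
    have h2 : Real.log 2 * (j : ℝ) - q.1 none * L =
        (Real.log 2 * (j : ℝ) / L - q.1 none) * L := by field_simp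
    rw [h2, abs_mul, abs_of_pos hL0']
    exact mul_le_mul_of_nonneg_right h1 hL0'.le
  have hw1 : Win S8X (fun i => q.1 (some i)) δ 0 B δ' X a :=
    ⟨fun i => hw.ev (some i), hw.g, Nat.le_refl 0, hw.s₁, hw.s₂⟩
  set q' : (I8X → ℝ) × (Kd → ℝ) := (fun i => q.1 (some i), fun _ => 0) with hq'
  have hqD : q' ∈ Dom8X c β Par DifL := ⟨hc1, hc2, rfl, by
    show cκ (prX p) / 2 ≤ q.1 (some (.inr 0)) + q.1 (some (.inr 1)) + q.1 (some (.inr 2)) +
      (0 : ℝ) + 2 * cx' (prX p)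
    rw [add_zero]
    exact hc5⟩
  have esv : q'.1 (.inr 0) + q'.1 (.inr 1) + q'.1 (.inr 2) + q'.2 .am = svq q := add_zero _
  have hFr : ∀ τ' : ℝ, 100 * δ ≤ τ' →
      F8X X δ L p (svq q) (q.1 (some (.inr 3))) a [] ∧
      PD X τ' (max B 3) (X ^ δ') 0 (bN p) 1 a.2.1 [] a.1.l ∧
      PD X τ' (max B 3) (X ^ δ') 0 (bR p) 1 (rzD a.2.1 (dz a.1)) [] a.1.l := by
    intro τ' hτ'
    have h1 := s8x_frame (P := π lam) (s := s) (qs := []) hX1 hδ0 hτ' hδ'0 (Nat.le_refl 0)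
      (by simp) hqD hw1 (fun t => by simp [Pcs.mass, hδ0, hq']) (by simp [Pcs.Good]) (by simp)
      hok.1 hok.2
    rw [esv] at h1
    exact h1
  have hδL : 0 ≤ δ * L := by positivity
  have hδτL : δ * L ≤ τ / 100 * L := mul_le_mul_of_nonneg_right hδτ hL0'.le
  have hτL : 0 ≤ τ * L := by positivity
  have hτL8 : τ * L ≤ 1 / 10 * L := mul_le_mul_of_nonneg_right hτ8 hL0'.le
  obtain ⟨hF8, hPN, hPR⟩ := hFr τ (by linarith)
  refine ⟨hpar, hzr, hF8, hlv, hPN, hPR, ?_⟩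
  obtain ⟨⟨hbok, hsm, hlmp, hamq, hb0⟩, hD0, hD1⟩ := hok
  set κ := cκ (prX p) with hκ
  set NN := cN (prX p) with hNN
  set xx := cx' (prX p) with hxx
  -- the region
  have e0b : bN p 0 = κ := rfl
  have e1b : bN p 1 = cu (prX p) 2 := rfl
  have e2b : bN p 2 = cu (prX p) 3 := rfl
  have e3b : bN p 3 = cu (prX p) 4 := rfl
  have e4b : bN p 4 = xx := rfl
  have f0b : bR p 0 = κ := rfl
  have f1b : bR p 1 = p (.inr 1) := rfl
  have f2b : bR p 2 = cu (prX p) 2 + cu (prX p) 3 - p (.inr 1) := rfl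
  have f3b : bR p 3 = cu (prX p) 4 := rfl
  have f4b : bR p 4 = xx := rfl
  have hcN : NN = cu (prX p) 2 + cu (prX p) 3 + cu (prX p) 4 := rfl
  have rN := hRb.hN
  have rx1 := hRb.x1
  rw [e1b, e2b, e3b, e0b, ← hcN] at rN
  rw [e4b, e0b] at rx1
  have hκ1 := hPp.κ1
  have hκ0 := hPp.κ0
  rw [← hκ] at hκ1 hκ0
  have hNX : NN ≤ 102 / 125 := by linarith
  have hxX : xx ≤ 1 / 36 := by linarith
  -- the sequence
  set n := LN (clN a []) with hn
  have hnhi := hF8.hi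
  rw [← hn, ← hNN, ← hxx] at hnhi
  have hnL : n ≤ L := by
    have h1 : (NN + xx) * L ≤ 85 / 100 * L := mul_le_mul_of_nonneg_right (by linarith) hL0'.le
    linarith
  have hcl : [a.2.1 0, a.2.1 1, a.2.1 2] ++ [] = clN a [] := (clN_eq a []).symm
  set p1 := a.2.1 0 with hp1
  set p2 := a.2.1 1 with hp2
  set lr : List Pq := a.2.1 2 :: [] with hlr
  set dd := p2.z + dz a.1 with hdd
  have hclN : clN a [] = p1 :: p2 :: lr := clN_eq a []
  have hclR : [(rzD a.2.1 (dz a.1)) 0, (rzD a.2.1 (dz a.1)) 1, (rzD a.2.1 (dz a.1)) 2] ++ [] =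
      rl p1 p2 lr dd := by
    rw [← ofFn3]
    exact (rl_eq a.2.1 (dz a.1) []).symm
  have hLNn : LN (p1 :: p2 :: lr) = n := by rw [hn, hclN]
  have hLNr : LN (rl p1 p2 lr dd) = n := by
    rw [LN_rl, hLNn]
  have hlen3 : (p1 :: p2 :: lr).length ≤ 3 := by
    rw [hlr]
    simp
  have hrlen : (rl p1 p2 lr dd).length ≤ 3 := by
    unfold rl
    simpa using hlen3
  have hdom := dom_xD (hP lam) h hsm a.2.1 (dz a.1) []
  refine ⟨?_, ?_⟩
  · intro Y hY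
    have ha1 := Adm_list (h := h) (N := 3) hRh0 hRh (π lam) 1 hlen3 (Y := Y) (by
      rw [hLNn]
      push_cast
      exact hY)
    have ha2 := Adm_list (h := h) (N := 3) hRh0 hRh (π lam) 1 hrlen (Y := Y) (by
      rw [hLNr]
      push_cast
      exact hY)
    have key : ∀ m, xD h (π lam) s a.2.1 (dz a.1) [] m ≠ 0 →
        sqc 1 (alF 1 1 (π lam) h (natl (p1 :: p2 :: lr))) m ≠ 0 ∨
        sqc 1 (alF 1 1 (π lam) h (natl (rl p1 p2 lr dd))) m ≠ 0 := by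
      intro m hm
      by_contra hcon
      push Not at hcon
      apply hm
      have h1 := hdom.le m
      have h2 : xN (π lam) h 1 p1 p2 lr dd m = 0 := by
        rw [xN_eq, hcon.1, hcon.2]
        simp
      have h3 : xN (π lam) h 1 (a.2.1 0) (a.2.1 1) [a.2.1 2] ((a.2.1 1).z + dz a.1) m = 0 := h2
      rw [h3, norm_zero] at h1
      exact norm_le_zero_iff.1 (by simpa using h1)
    constructor
    · intro m hm
      rcases key m hm with h1 | h1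
      · exact ha1.sup m h1
      · exact ha2.sup m h1
    · intro m hm
      rcases key m hm with h1 | h1
      · have h2 := ha1.win m h1
        rw [hLNn] at h2
        push_cast at h2
        refine h2.trans (le_of_eq ?_)
        ring
      · have h2 := ha2.win m h1
        rw [hLNr] at h2
        push_cast at h2
        refine h2.trans (le_of_eq ?_)
        ring
  intro Y hY1 hY3 W hW0 hWlv
  have hYX : Y ≤ X ^ B₂ := hY3.trans (Real.rpow_le_rpow_of_exponent_le hX1.le hB3)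
  set ν : ℝ := (nm s : ℝ) ^ 2 with hν
  have hν0 : 0 < ν := by linarith
  have hTe : Real.log (W * ν) = Real.log W + cs := by
    rw [Real.log_mul hW0.ne' hν0.ne']
  have hTle : Real.log (W * ν) ≤ L := by
    rw [hTe]
    linarith
  have hTT : Real.log (W * ν) ≤ B₂ * L := by
    have : L * 3 ≤ L * B₂ := mul_le_mul_of_nonneg_left hB3 hL0'.le
    linarith
  have hWX : W * ν ≤ X := by
    rw [← Real.exp_log (show 0 < W * ν by positivity), ← Real.exp_log hX0]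
    exact Real.exp_le_exp.2 hTle
  set H : ℝ := X ^ δ' with hH
  have hH1 : 1 ≤ H := Real.one_le_rpow hX1.le hδ'0
  have hB21 : (1 : ℝ) ≤ X ^ B₂ := Real.one_le_rpow hX1.le hB0.le
  have hn1X : ((nm (1 : Eis) : ℕ) : ℝ) ≤ X ^ B₂ := by
    rw [nm_one, Nat.cast_one]
    exact hB21
  have hs1' : ∀ i, Dq.s1 (a.2.1 i) ≤ H := by
    intro i
    have h1 : mx Dq.s1 (List.ofFn a.2.1) ≤ X ^ δ' := (le_max_right _ _).trans hw1.s₁
    exact (XT71.le_mx (List.mem_ofFn.2 ⟨i, rfl⟩)).trans h1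
  have hs2' : ∀ i, Dq.s2 (a.2.1 i) ≤ X ^ B₂ := by
    intro i
    have h1 : mx Dq.s2 (List.ofFn a.2.1) ≤ X ^ B := (le_max_right _ _).trans hw1.s₂
    exact ((XT71.le_mx (List.mem_ofFn.2 ⟨i, rfl⟩)).trans h1).trans
      (Real.rpow_le_rpow_of_exponent_le hX1.le hBB)
  have hd0 : 0 ≤ dd := hD1
  have hd1' : dd ≤ p1.z + p2.z := by
    have := hD0
    rw [hdd]
    linarith
  have hcz : ∀ p' ∈ p1 :: p2 :: lr, 0 ≤ p'.z := by
    intro p' hp'
    rw [hlr] at hp'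
    simp only [List.mem_cons, List.not_mem_nil, or_false] at hp'
    rcases hp' with rfl | rfl | rfl
    · exact (hlmp 0).2
    · exact (hlmp 1).2
    · exact (hlmp 2).2
  have hzz : ∀ p' ∈ p1 :: p2 :: lr, 0 ≤ p'.z ∧ p'.z ≤ Real.log X := by
    intro p' hp'
    refine ⟨hcz p' hp', ?_⟩
    have h1 : p'.z ≤ LN (p1 :: p2 :: lr) := by
      unfold LN
      refine List.single_le_sum ?_ _ (List.mem_map.2 ⟨p', hp', rfl⟩)
      intro x hx
      obtain ⟨p'', hp'', rfl⟩ := List.mem_map.1 hx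
      exact hcz p'' hp''
    rw [hLNn] at h1
    exact h1.trans hnL
  have hzr' : ∀ p' ∈ rl p1 p2 lr dd, 0 ≤ p'.z ∧ p'.z ≤ Real.log X := by
    have hnn : ∀ p' ∈ rl p1 p2 lr dd, 0 ≤ p'.z := by
      intro p' hp'
      unfold rl at hp'
      rcases List.mem_cons.1 hp' with rfl | hp'
      · show 0 ≤ p1.z + p2.z - dd
        linarith
      rcases List.mem_cons.1 hp' with rfl | hp'
      · exact hd0
      · exact hcz p' (List.mem_cons_of_mem _ (List.mem_cons_of_mem _ hp'))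
    intro p' hp'
    refine ⟨hnn p' hp', ?_⟩
    have h1 : p'.z ≤ LN (rl p1 p2 lr dd) := by
      unfold LN
      refine List.single_le_sum ?_ _ (List.mem_map.2 ⟨p', hp', rfl⟩)
      intro x hx
      obtain ⟨p'', hp'', rfl⟩ := List.mem_map.1 hx
      exact hnn p'' hp''
    rw [hLNr] at h1
    exact h1.trans hnL
  -- the claims
  have hclN' : [a.2.1 0, a.2.1 1, a.2.1 2] = p1 :: p2 :: lr := rfl
  have hclR' : [(rzD a.2.1 (dz a.1)) 0, (rzD a.2.1 (dz a.1)) 1, (rzD a.2.1 (dz a.1)) 2] =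
      rl p1 p2 lr dd := by
    rw [← hclR, List.append_nil]
  have hus : ∀ i, Dq.lump (a.2.1 i) ∧ 0 ≤ (a.2.1 i).z ∧ (a.2.1 i).z ≤ Real.log X ∧
      (nm (a.2.1 i).d : ℝ) ≤ X ^ B₂ ∧ 1 + |(a.2.1 i).t| ≤ H := by
    intro i
    refine ⟨(hlmp i).1, (hlmp i).2, ?_, hs2' i, hs1' i⟩
    fin_cases i
    · exact (hzz _ (by rw [← hclN']; simp)).2
    · exact (hzz _ (by rw [← hclN']; simp)).2
    · exact (hzz _ (by rw [← hclN']; simp)).2
  have hur : ∀ i, Dq.lump (rzD a.2.1 (dz a.1) i) ∧ 0 ≤ (rzD a.2.1 (dz a.1) i).z ∧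
      (rzD a.2.1 (dz a.1) i).z ≤ Real.log X ∧
      (nm (rzD a.2.1 (dz a.1) i).d : ℝ) ≤ X ^ B₂ ∧ 1 + |(rzD a.2.1 (dz a.1) i).t| ≤ H := by
    intro i
    fin_cases i
    · exact ⟨(hlmp 0).1, hD0, (hzr' _ (by rw [← hclR']; simp)).2, hs2' 0, hs1' 0⟩
    · exact ⟨(hlmp 1).1, hD1, (hzr' _ (by rw [← hclR']; simp)).2, hs2' 1, hs1' 1⟩
    · exact ⟨(hlmp 2).1, (hlmp 2).2, (hzr' _ (by rw [← hclR']; simp)).2, hs2' 2, hs1' 2⟩
  have hzN : ∀ i, (a.2.1 i).z ≤ zNa a := by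
    intro i
    unfold zNa
    fin_cases i
    · exact le_max_left _ _
    · exact (le_max_left _ _).trans (le_max_right _ _)
    · exact (le_max_right _ _).trans (le_max_right _ _)
  have hFL := hco X hX1' H hH1 a.2.1 hus (zNa a) hzN 1 one_ne_zero hn1X
  have hFR := hcf X hX2' H hH1 (rzD a.2.1 (dz a.1)) hur (zRa a) le_rfl 1 one_ne_zero hn1X
  set F : ℝ := H ^ Mo * X ^ (ε / 16) with hF
  set F' : ℝ := H ^ Mf * X ^ (ε / 16) with hF'
  have hF0 : 0 ≤ F := by positivity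
  have hF0' : 0 ≤ F' := by positivity
  rw [hclN', hLNn] at hFL
  rw [hclR', hLNr] at hFR
  set Sh : ℝ → ℝ → ℝ → ℝ := ShH d a with hSh
  have hCL := (CellK_monoM hF0 (show (Mo : ℝ) ≤ M from Nat.cast_le.2 hMo) hFL).monoS hF0
    (Sh' := Sh) (fun γ b v => (le_max_left _ _).trans (le_max_left _ _))
  have hCR := (CellK_monoM hF0' (show (Mf : ℝ) ≤ M from Nat.cast_le.2 hMf) hFR).monoS hF0'
    (Sh' := Sh) (fun γ b v => (le_max_right _ _).trans (le_max_left _ _))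
  -- the bias
  have hXB3 : X ^ B₂ ≤ X ^ (2 * (B₂ + 1)) := Real.rpow_le_rpow_of_exponent_le hX1.le (by linarith)
  set s0 : ℝ := s0X a with hs0'
  have ss1 : s0 ≤ p1.z := (min_le_left _ _).trans (min_le_left _ _)
  have ss2 : s0 ≤ p2.z := (min_le_left _ _).trans (min_le_right _ _)
  have ss3 : s0 ≤ p1.z + p2.z - dd := by
    have : s0 ≤ p1.z - dz a.1 := (min_le_right _ _).trans (min_le_left _ _)
    rw [hdd]
    linarith
  have ss4 : s0 ≤ dd := (min_le_right _ _).trans (min_le_right _ _)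
  have hlrlen : lr.length ≤ 1 := by
    rw [hlr]
    simp
  set Htt : ℝ := Ht (natl (p1 :: p2 :: lr)) with hHtt
  have hHt1 : 1 ≤ Htt := RG64.one_le_Ht _
  set Eb : ℝ := C₀ * X ^ (ε / 16) * Htt ^ 6 * Real.exp (5 / 3 * LN (p1 :: p2 :: lr)) with hEb
  have hEb0 : 0 ≤ Eb := by positivity
  have hPB := HP X hX3 (π lam) (hP lam) (hP lam).ψ (hnX.trans hXB3) (hex lam) 1 one_ne_zero (by
      rw [nm_one, Nat.cast_one]; exact hB21.trans hXB3) p1 p2 lr (hlmp 0).1.2 (hlmp 1).1.2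
    (hlmp 0).1.1 (hlmp 1).1.1 ((hs2' 0).trans hXB3) ((hs2' 1).trans hXB3) hlrlen hcz
    (by rw [hLNn]; exact hnL) dd s0 ss1 ss2 ss3 ss4 (max (((3 : ℕ) : ℝ) * M) 12)
    (le_max_right _ _) ((X ^ (B₂ + 1)) ^ 2) (by
      rw [← Real.rpow_natCast, ← Real.rpow_mul hX0.le]
      refine Real.rpow_le_rpow_of_exponent_le hX1.le (le_of_eq ?_)
      push_cast; ring)
  rw [← hEb] at hPB
  set Fb : ℝ := C₀ * X ^ (ε / 16) * Htt ^ 6 with hFb
  have hFb0 : 0 ≤ Fb := by positivity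
  have hbias : ∀ γ b v : ℝ, 0 ≤ γ → 0 ≤ b → b ≤ B₂ * Real.log X + 1 → 0 ≤ v →
      v ≤ B₂ * L - 2 * γ → Eb * Real.exp (bcx s0 γ b v) ≤ Fb * Real.exp (Sh γ b v) := by
    intro γ b v _ _ _ _ _
    have e1 : Eb * Real.exp (bcx s0 γ b v) = Fb * Real.exp (5 / 3 * n + bcx s0 γ b v) := by
      rw [hEb, hFb, hLNn, Real.exp_add]
      ring
    rw [e1]
    refine mul_le_mul_of_nonneg_left (Real.exp_le_exp.2 ?_) hFb0
    exact le_max_right _ _
  have key := HJ X hX3 (π lam) (hP lam) 1 (p1 :: p2 :: lr) (rl p1 p2 lr dd) hlen3 hrlen hzz hzr'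
    (zN p1 p2 dd) (norm_zN _ _ _).le (xN (π lam) h 1 p1 p2 lr dd)
    (xN_eq (π lam) h 1 p1 p2 lr dd) Y W (B₂ * L) F F' Eb s0 Fb Sh hY1 hYX hWX hTT hF0 hF0' hEb0
    hFb0 (lipS_ShH hd hdone a) hCL hCR hPB hbias _ hdom
  -- the exponents
  have hXexp : ∀ z : ℝ, X ^ z = Real.exp (z * L) := fun z => by
    rw [Real.rpow_def_of_pos hX0, ← hL, mul_comm]
  have hHM : ∀ m : ℕ, (m : ℝ) ≤ m₀ → H ^ m ≤ X ^ (ε / 16) := by
    intro m hm'
    rw [hH, hXexp, hXexp, ← Real.exp_nat_mul]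
    refine Real.exp_le_exp.2 ?_
    have h1 : δ' * m₀ ≤ ε / 16 := by
      have := mul_le_mul_of_nonneg_right hδ'M hm₀1.le
      refine this.trans (le_of_eq ?_)
      field_simp
    have h2 : (m : ℝ) * δ' ≤ ε / 16 := by
      refine le_trans ?_ h1
      rw [mul_comm]
      exact mul_le_mul_of_nonneg_left hm' hδ'0
    calc (m : ℝ) * (δ' * L) = (m : ℝ) * δ' * L := by ring
      _ ≤ _ := mul_le_mul_of_nonneg_right h2 hL0'.le
  have hXε : 0 < X ^ (ε / 16) := by positivity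
  have hMo1 : (Mo : ℝ) ≤ m₀ := by
    have h1 : (Mo : ℝ) ≤ (M₁ : ℝ) := by exact_mod_cast hMo
    rw [hm₀]
    linarith
  have hMf1 : (Mf : ℝ) ≤ m₀ := by
    have h1 : (Mf : ℝ) ≤ (M₁ : ℝ) := by exact_mod_cast hMf
    rw [hm₀]
    linarith
  have e16 : X ^ (ε / 16) * X ^ (ε / 16) = X ^ (ε / 8) := by
    rw [← Real.rpow_add hX0]; congr 1; ring
  have hF1 : F ≤ X ^ (ε / 8) := by
    rw [hF, ← e16]
    exact mul_le_mul_of_nonneg_right (hHM Mo hMo1) hXε.le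
  have hF2 : F' ≤ X ^ (ε / 8) := by
    rw [hF', ← e16]
    exact mul_le_mul_of_nonneg_right (hHM Mf hMf1) hXε.le
  have hF3 : Fb ≤ C₀ * X ^ (ε / 8) := by
    have h1 : Htt ≤ H ^ 3 := by
      refine (P10X764.Ht_pow hH1 ?_).trans (pow_le_pow_right₀ hH1 hlen3)
      intro p' hp'
      rw [hlr] at hp'
      simp only [List.mem_cons, List.not_mem_nil, or_false] at hp'
      rcases hp' with rfl | rfl | rfl
      · exact hs1' 0
      · exact hs1' 1
      · exact hs1' 2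
    have h2 : Htt ^ 6 ≤ X ^ (ε / 16) := by
      refine (pow_le_pow_left₀ (by linarith) h1 6).trans ?_
      rw [← pow_mul]
      refine hHM _ ?_
      push_cast
      rw [hm₀]
      linarith
    rw [hFb]
    calc C₀ * X ^ (ε / 16) * Htt ^ 6 ≤ C₀ * X ^ (ε / 16) * X ^ (ε / 16) := by gcongr
      _ = C₀ * X ^ (ε / 8) := by rw [mul_assoc, e16]
  set G : ℝ := X ^ (ε / 8) with hG
  have hG0 : 0 < G := by positivity
  have hfin : C * X ^ (ε / 16) * (F + F' + Fb) ≤ X ^ ε := by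
    have h1 : F + F' + Fb ≤ (2 + C₀) * G := by linarith
    calc C * X ^ (ε / 16) * (F + F' + Fb) ≤ C * X ^ (ε / 16) * ((2 + C₀) * G) := by gcongr
      _ = (C * (2 + C₀)) * (X ^ (ε / 16) * G) := by ring
      _ ≤ X ^ (ε / 16) * (X ^ (ε / 16) * G) := by
          refine mul_le_mul_of_nonneg_right ?_ (by positivity)
          refine le_trans ?_ hLC
          rw [hCC]
          linarith
      _ = X ^ (ε / 16 + (ε / 16 + ε / 8)) := by
          rw [hG, ← Real.rpow_add hX0, ← Real.rpow_add hX0]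
      _ ≤ _ := Real.rpow_le_rpow_of_exponent_le hX1.le (by linarith)
  intro d' hd' B' V h1 h2 h3 h4 t
  refine (key d' hd' B' V h1 h2 h3 h4 t).trans ?_
  have h5 : 0 ≤ (1 + |t|) ^ (max (((3 : ℕ) : ℝ) * M) 12) := by positivity
  gcongr

end Crest.Agent.R017.TnHf50
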