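import Crest.Agent.R017.TnHo_48
import Crest.Agent.R017.TnHh_50
import Crest.Agent.R017.HX2_72
import Crest.Agent.R017.DgHX_290

/-!
# Row 17, exceptional class, REST of StrUX (helper48): the `T`-side of one level of one difference

* **`tnHX`** : helper72's `TnHX` from helper50's frame `tnh_frameO` (the wrap is helper290's)
-/

set_option autoImplicit false
set_option linter.unusedVariables false

noncomputable section

open Finset
open scoped Classical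

namespace Crest.Agent.R017.TnHs48

open Crest.Agent.R012 Crest.Agent.R012.Eis
open Crest.Agent.R012.LS2 (S mem_S)
open Crest.Agent.R017.C70 (JC OKJ JW okJ_JW)
open Crest.Agent.R017.B770
open Crest.Agent.R017.FE47 (PU cx SM)
open Crest.Agent.R017.Prov71
open Crest.Agent.R017.XG702 (Pcs)
open Crest.Agent.R017.XT71 (Sys Win mx)
open Crest.Agent.R017.E1551 (Adm)
open Crest.Agent.R017.E3M829 (Tal)
open Crest.Agent.R017.E3F548 (XE XE_nonneg)
open Crest.Agent.R017.I1146 (LN)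
open Crest.Agent.R017.E5B71 Crest.Agent.R017.E5L770
open Crest.Agent.R017.P1l54 (ParOK)
open Crest.Agent.R017.ExBox960 Crest.Agent.R017.ExP960
open Crest.Agent.R017.P1X960
open Crest.Agent.R017.Hi454 (DomHX EHX)
open Crest.Agent.R017.P10X764
open Crest.Agent.R017.Sup271 (NPm)
open Crest.Agent.R017.PX764 (Dk)
open Crest.Agent.R017.TM708 (PD R5)
open Crest.Agent.R017.XS0298 (S0K)
open Crest.Agent.R017.TK708 (AllT)
open Crest.Agent.R017.ER911
open Crest.Agent.R017.OwA90 (Gt)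
open Crest.Agent.R017.CGt48
open Crest.Agent.R017.S8X50
open Crest.Agent.R017.TnHf50
open Crest.Agent.R017.HX72
open Crest.Agent.R017.Sf770 (nO)
open Crest.Agent.R017.RnP571 (Dh)
open Crest.Agent.R017.RstQ702 (LR)
open Crest.Agent.R017.RstX290 (Ef)
open Crest.Agent.R017.RST405 (Dh_smul Fr)
open Crest.Agent.R017.DgHX290 (shN ShH_eq ef_par LR_smul)
open Crest.Agent.R017.E3Kc548 (LI)
open Crest.Agent.R017.RstQ702 (XS)
open Crest.Agent.R017.RstX290 (hX)

variable {Λ : Type*}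

/-- the square parts -/
lemma ds_mem {X : ℝ} (hX0 : 0 < X) {a : BcX} {j : ℕ}
    (hn : Real.log 2 * nO a.1.toBd ≤ 3 * Real.log X) :
    ∀ d' ∈ DsH (a, j), IsPrim d' ∧ (nm d' : ℝ) ≤ X ^ (3 : ℝ) := by
  intro d' hd'
  have hd2 : d' ∈ (J2 (nO a.1.toBd) j).image Prod.fst := hd'
  obtain ⟨y, hy, he⟩ := mem_image.1 hd2
  rw [← he]
  have hy2 := (mem_JW'.1 hy).1.1
  rw [mem_primBall] at hy2
  refine ⟨hy2.2, ?_⟩
  have g1 : (nm y.1 : ℝ) ≤ Real.sqrt (2 ^ nO a.1.toBd) :=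
    (Nat.le_floor_iff (Real.sqrt_nonneg _)).1 hy2.1
  have g2 : (1 : ℝ) ≤ 2 ^ nO a.1.toBd := one_le_pow₀ (by norm_num)
  have g3 : Real.sqrt (2 ^ nO a.1.toBd) ≤ 2 ^ nO a.1.toBd := by
    have g5 := Real.sqrt_le_sqrt (show (2 : ℝ) ^ nO a.1.toBd ≤ (2 ^ nO a.1.toBd) ^ 2 by nlinarith)
    rwa [Real.sqrt_sq (by positivity)] at g5
  have g4 : (2 : ℝ) ^ nO a.1.toBd ≤ X ^ (3 : ℝ) := by
    rw [Real.rpow_def_of_pos hX0, ← Real.exp_log (show (0 : ℝ) < 2 ^ nO a.1.toBd by positivity)]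
    refine Real.exp_le_exp.2 ?_
    rw [Real.log_pow]
    linarith
  exact g1.trans (g3.trans g4)

set_option maxHeartbeats 4000000 in
/-- **the `T`-side of one level of one difference** -/
theorem tnHX {π : Λ → DPar} {h : ℝ → ℝ} {c₀ : ℝ} (hpu : PU h c₀) (hP : ∀ lam, (π lam).OK)
    (hex : ∀ lam, ¬ NPm (π lam).n (π lam).ψ (π lam).l₂ 1)
    {Rh : ℝ} (hRh0 : 0 ≤ Rh) (hRh : ∀ u, cx h u ≠ 0 → |u| ≤ Rh) {c β : ℝ}
    {Par : Set (Fin 3 ⊕ Fin 5 → ℝ)} (hPar : ∀ p ∈ Par, ParOK p)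
    {lo hi LH : (Fin 3 ⊕ Fin 5 → ℝ) → ℝ}
    (hR5 : ∀ p : IX5 → ℝ, prX p ∈ Par → ZR β p → R5 (bN p))
    {d : ℝ} (hd : 0 ≤ d) (hdd : d ≤ 1)
    (hown : ∀ v z₁ z₂ z₃ : ℝ, 0 ≤ v → 0 ≤ z₁ → 0 ≤ z₂ → 0 ≤ z₃ →
      ex Dq (fun lam => S0K Dk (π lam) h) v {z₁, z₂, z₃} 0 0 ≤
        Gt d v (z₁ + z₂ + z₃) (max z₁ (max z₂ z₃)))
    (hall : AllT d (ex Dq fun lam => S0K Dk (π lam) h))
    {e1 e0 : ℝ} (he1 : 0 ≤ e1) (he10 : e1 ≤ e0) (he0 : e0 ≤ 1 / 64)
    (hDh : ∀ p ∈ Par, Dh (cκ p) (cu p 2) (cu p 3) (cu p 4) (cx' p) (d * cκ p))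
    (hcD : ∀ p ∈ Par, 4 * (c * cκ p) ≤ d * cκ p) (hβ : 17 / 100 ≤ β)
    (hZu : ∀ p : IX5 → ℝ, prX p ∈ Par → ZR β p → p (.inr 1) ≤ 1883 / 10000 * cκ (prX p))
    (hhi : ∀ p ∈ Par, hi p ≤ top5 p)
    (hLH : ∀ p ∈ Par, LR (cN p) (cκ p) (d * cκ p) (cx' p) ≤ LH p) :
    TnHX π h e1 e0 c β Par lo hi LH := by
  intro ε hε
  obtain ⟨τ, hτ, hτε, δ₀, hδ₀, HF⟩ := tnh_frameO (c := c) (β := β) (lo := lo) (hi := hi) hpu hP hex
    hRh0 hRh hPar hR5 hd hdd hown hall (ε := ε / 16) (by positivity)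
  obtain ⟨δ, hδ, hδδ, hδε, hδ1⟩ : ∃ δ : ℝ, 0 < δ ∧ δ ≤ δ₀ ∧ δ ≤ ε / 10000 ∧ δ ≤ 1 / 4000000 :=
    ⟨min δ₀ (min (ε / 10000) (1 / 4000000)), lt_min hδ₀ (lt_min (by positivity) (by norm_num)),
      min_le_left _ _, (min_le_right _ _).trans (min_le_left _ _),
      (min_le_right _ _).trans (min_le_right _ _)⟩
  refine ⟨δ, hδ, fun lam N B cc hcc => ?_⟩
  obtain ⟨J₀, hJ₀, δ₁, hδ₁, X₁, hX₁, HF⟩ := HF lam N B
  obtain ⟨C, hC, HX⟩ := tnH_2 (R := 6 * Rh) (by positivity) (ε := ε / 16) (J := J₀)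
    (cc := cc) (by positivity) hJ₀ hcc
  have hlc : 0 ≤ Real.log cc := Real.log_nonneg hcc
  set Q : ℝ := 3 * Rh + (1 + Real.log cc) / δ + 16 * Real.log (6 * C + 1) / ε + 2 with hQ
  refine ⟨δ₁, hδ₁, max X₁ (Real.exp Q), by
    have := le_max_left X₁ (Real.exp Q); linarith, ?_⟩
  rintro X hX ⟨a, j⟩ ps - - q hq hw - - -
  have hX1' : X₁ ≤ X := (le_max_left _ _).trans hX
  have hXQ : Real.exp Q ≤ X := (le_max_right _ _).trans hX
  have hX3 : 3 ≤ X := hX₁.trans hX1'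
  have hX0 : 0 < X := by linarith
  have hX1 : 1 < X := by linarith
  set L := Real.log X with hL
  have hQL : Q ≤ L := by
    have := Real.log_le_log (Real.exp_pos Q) hXQ
    rwa [Real.log_exp] at this
  have hlC : 0 ≤ Real.log (6 * C + 1) := Real.log_nonneg (by linarith)
  have hq1 : 0 ≤ (1 + Real.log cc) / δ := by positivity
  have hq2 : 0 ≤ 16 * Real.log (6 * C + 1) / ε := by positivity
  have hL2 : 2 ≤ L := by linarith
  have hL0 : 0 < L := by linarith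
  have hδcL : 1 + Real.log cc ≤ δ * L := by
    have h1 : (1 + Real.log cc) / δ ≤ L := by linarith
    rw [div_le_iff₀ hδ] at h1
    linarith
  have hδL : 1 ≤ δ * L := by linarith
  have hCX : 6 * C + 1 ≤ X ^ (ε / 16) := by
    have h1 : 16 * Real.log (6 * C + 1) / ε ≤ L := by linarith
    rw [div_le_iff₀ hε] at h1
    rw [Real.rpow_def_of_pos hX0, ← hL, ← Real.exp_log (show 0 < 6 * C + 1 by linarith)]
    exact Real.exp_le_exp.2 (by linarith)
  show TpH π h e1 e0 cc lam (a, j) ps ≤ X ^ (EHX LH q + ε)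
  unfold TpH
  by_cases hok : okH π lam (a, j)
  swap
  · rw [if_neg hok]; positivity
  rw [if_pos hok]
  obtain ⟨hok1, hok2, hlt⟩ := hok
  obtain ⟨hpar, hzr, hF, hlv, -, -, hadm, hjbc⟩ :=
    HF X hX1' δ hδ.le hδδ δ₁ hδ₁.le le_rfl (a, j) q hq hw ⟨hok1, hok2⟩
  dsimp only at hok1 hok2 hlt hF hlv hadm hjbc ⊢
  obtain ⟨hc1, hc2, hc3, hc4, hc5, hc6, hc7, hc8⟩ := hq
  have hev : ∀ i, |S8X.ev X a i - q.1 (some i)| ≤ δ := fun i => hw.ev (some i)
  have hdiv : ∀ {z c : ℝ}, |z / L - c| ≤ δ → |z - c * L| ≤ δ * L := by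
    intro z c h1
    have h2 : z - c * L = (z / L - c) * L := by field_simp
    rw [h2, abs_mul, abs_of_pos hL0]
    exact mul_le_mul_of_nonneg_right h1 hL0.le
  have hv0 : |(a.2.1 0).z - q.1 (some (.inr 0)) * L| ≤ δ * L := hdiv (hev (.inr 0))
  have hv1 : |(a.2.1 1).z - q.1 (some (.inr 1)) * L| ≤ δ * L := hdiv (hev (.inr 1))
  have hv2 : |(a.2.1 2).z - q.1 (some (.inr 2)) * L| ≤ δ * L := hdiv (hev (.inr 2))
  obtain ⟨v01, v02⟩ := abs_le.1 hv0
  obtain ⟨v11, v12⟩ := abs_le.1 hv1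
  obtain ⟨v21, v22⟩ := abs_le.1 hv2
  obtain ⟨l1, l2⟩ := abs_le.1 hlv
  obtain ⟨k1, k2⟩ := abs_le.1 hF.hκ
  obtain ⟨d1, d2⟩ := abs_le.1 hF.hd
  obtain ⟨n1, n2⟩ := abs_le.1 hF.hn
  have hPp := hPar _ hpar
  have hD := hDh _ hpar
  have hcDp := hcD _ hpar
  have hZ1 := hZu _ hpar hzr
  have hZ2 : β * cκ (prX (bq q)) ≤ bq q (.inr 1) := (hzr 1).1
  have hLHp := hLH _ hpar
  have hhip := hhi _ hpar
  have hκ0 := hPp.κ0
  have hκ1 := hPp.κ1
  have hb0 : 0 ≤ q.1 (some (.inr 3)) := hc1.b0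
  have hbeq : q.1 (some (.inr 3)) = cN (prX (bq q)) - svq q := hc3
  have hc6' : lo (prX (bq q)) ≤ q.1 none := hc6
  have hc7' : q.1 none ≤ hi (prX (bq q)) := hc7
  have hc8' : q.1 none + 2 * q.1 (some (.inr 3)) ≤ top5 (prX (bq q)) +
    2 * c * cκ (prX (bq q)) := hc8
  have hN0 : q.1 (some (.inr 0)) ≤ cu (prX (bq q)) 2 := hc2.1.1
  have hN1 : q.1 (some (.inr 1)) ≤ cu (prX (bq q)) 3 := hc2.1.2.1
  have hN2 : q.1 (some (.inr 2)) ≤ cu (prX (bq q)) 4 := hc2.1.2.2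
  have hEH : EHX LH q = cκ (prX (bq q)) + svq q + LH (prX (bq q)) := rfl
  have hsv : svq q = q.1 (some (.inr 0)) + q.1 (some (.inr 1)) + q.1 (some (.inr 2)) := rfl
  have hcN : cN (prX (bq q)) = cu (prX (bq q)) 2 + cu (prX (bq q)) 3 + cu (prX (bq q)) 4 := rfl
  have ht5 : top5 (prX (bq q)) = min (2 * cN (prX (bq q)) - cκ (prX (bq q)))
    (3 / 4 * cN (prX (bq q))) + 11 / 5 * cx' (prX (bq q)) := rfl
  have hlowF := hF.lo
  obtain ⟨x1, x2⟩ := abs_le.1 hF.hx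
  obtain ⟨A1, A2⟩ := abs_le.1 hF.hN
  have htop := hF.top
  have hz1 : zNa a = max (a.2.1 0).z (max (a.2.1 1).z (a.2.1 2).z) := rfl
  have hz2 : zRa a = min ((a.2.1 0).z - dz a.1) (min ((a.2.1 1).z + dz a.1) (a.2.1 2).z) := rfl
  have hz3 : s0X a = min (min (a.2.1 0).z (a.2.1 1).z)
    (min ((a.2.1 0).z - dz a.1) ((a.2.1 1).z + dz a.1)) := rfl
  rw [hcN] at hbeq ht5 hLHp A1 A2
  generalize bq q (.inr 1) = Z at *
  generalize cκ (prX (bq q)) = κ at *
  generalize cu (prX (bq q)) 2 = y₃ at *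
  generalize cu (prX (bq q)) 3 = y₄ at *
  generalize cu (prX (bq q)) 4 = u at *
  generalize cx' (prX (bq q)) = x at *
  generalize q.1 (some (.inr 0)) = q0 at *
  generalize q.1 (some (.inr 1)) = q1' at *
  generalize q.1 (some (.inr 2)) = q2' at *
  generalize q.1 (some (.inr 3)) = bb at *
  generalize q.1 none = lev at *
  set n := LN (clN a []) with hnd
  set l := a.1.l with hld
  set v : ℝ := Real.log (2 ^ j * 2) with hvd
  have hvj : v = Real.log 2 * j + Real.log 2 := by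
    rw [hvd, Real.log_mul (by positivity) (by norm_num), Real.log_pow]; ring
  have hl2 : Real.log 2 ≤ 1 := by have := Real.log_two_lt_d9; linarith
  have hl20 : 0 ≤ Real.log 2 := Real.log_nonneg (by norm_num)
  have hvn : 0 ≤ v := by rw [hvj]; positivity
  have hl4 : Real.log (2 ^ j / 4) = v - 3 * Real.log 2 := by
    rw [Real.log_div (by positivity) (by norm_num), Real.log_pow, hvj,
      show (4 : ℝ) = 2 * 2 by norm_num, Real.log_mul (by norm_num) (by norm_num)]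
    ring
  have hδL0 : 0 ≤ δ * L := by linarith
  have hEfi : ∀ w : ℝ, w ≤ v + 1 → Ef (κ * L) (y₃ * L) (y₄ * L) (u * L) (x * L) (d * κ * L)
      (20 * (4 * δ * L)) n w (bb * L) := by
    intro w hw'
    refine ef_par (δ := 4 * δ) (sv := svq q) (lev := lev) hD hL0 (by linarith) (by linarith) hκ0
      hb0 (by linarith) (abs_le.2 ⟨by linarith, by linarith⟩) (by linarith) ?_ ?_ ?_
    · rw [← ht5]; linarith
    · linarith
    · linarith
  have hEf := hEfi v (by linarith)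
  have hκp : 0 < κ := by linarith
  have hκL : 0 < κ * L := by positivity
  have hdk : d = d * κ * L / (κ * L) := by field_simp
  have hFr : Fr (κ * L) (y₃ * L) (y₄ * L) (u * L) (x * L) (d * κ * L) (20 * (4 * δ * L)) n v 0
      d :=
    ⟨hEf.hD, hEf.t0, hEf.t1, hEf.p3, by have := hEf.p1; have := hEf.m0; linarith, hEf.v1, hEf.v2,
      le_rfl, by have := hEf.t0; linarith, hdk⟩
  obtain ⟨w1, -, -, w4⟩ := hFr.v_le
  have q0L : q0 * L ≤ y₃ * L := mul_le_mul_of_nonneg_right hN0 hL0.le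
  have q1L : q1' * L ≤ y₄ * L := mul_le_mul_of_nonneg_right hN1 hL0.le
  have q2L : q2' * L ≤ u * L := mul_le_mul_of_nonneg_right hN2 hL0.le
  have y43L : y₄ * L ≤ y₃ * L := hEf.hD.y43
  have u4L : u * L ≤ y₄ * L := hEf.hD.u4
  have u0L : 11 / 50 * (κ * L) ≤ u * L := hEf.hD.u0
  have ZL : Z * L ≤ 1883 / 10000 * κ * L := mul_le_mul_of_nonneg_right hZ1 hL0.le
  have ZL' : 17 / 100 * κ * L ≤ Z * L := mul_le_mul_of_nonneg_right
    ((mul_le_mul_of_nonneg_right hβ hκp.le).trans hZ2) hL0.le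
  have e1q : (y₃ - bb) * L ≤ q0 * L := mul_le_mul_of_nonneg_right (by linarith) hL0.le
  have e2q : (y₄ - bb) * L ≤ q1' * L := mul_le_mul_of_nonneg_right (by linarith) hL0.le
  have hz : zNa a ≤ y₃ * L + 20 * (4 * δ * L) := by
    rw [hz1]
    refine max_le (by linarith) (max_le (by linarith) (by linarith))
  have hZ : zRa a ≤ 1883 / 10000 * (κ * L) + 20 * (4 * δ * L) := by
    rw [hz2]
    refine (min_le_left _ _).trans ?_
    linarith
  have hs : 17 / 100 * (κ * L) - bb * L - 20 * (4 * δ * L) ≤ s0X a := by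
    rw [hz3]
    refine le_min (le_min ?_ ?_) (le_min ?_ ?_) <;> linarith
  have hLRs : LR (y₃ * L + y₄ * L + u * L) (κ * L) (d * κ * L) (x * L) =
      LR (y₃ + y₄ + u) κ (d * κ) x * L := by
    rw [← LR_smul hL0.le]
    congr 1
    ring
  have hLHL := mul_le_mul_of_nonneg_right hLHp hL0.le
  -- the shift
  have hsA : |9 / 4 * a.1.z - 3 * max 0 (5 / 4 * a3 a.1.toBd - l) -
      XS (y₃ * L + y₄ * L + u * L) (κ * L) (x * L)| ≤ 9 * (2 * (δ * L)) := by
    have g1 := le_max_left 0 (5 / 4 * a3 a.1.toBd - l)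
    have g2 := le_max_right 0 (5 / 4 * a3 a.1.toBd - l)
    have g3 := le_max_left 0 (5 / 4 * (y₃ * L + y₄ * L + u * L) - κ * L)
    have g4 := le_max_right 0 (5 / 4 * (y₃ * L + y₄ * L + u * L) - κ * L)
    have g5 : max 0 (5 / 4 * a3 a.1.toBd - l) ≤
        max 0 (5 / 4 * (y₃ * L + y₄ * L + u * L) - κ * L) + 19 / 4 * (δ * L) :=
      max_le (by linarith only [g3, hδL0]) (by linarith only [g4, A2, k1])
    have g6 : max 0 (5 / 4 * (y₃ * L + y₄ * L + u * L) - κ * L) ≤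
        max 0 (5 / 4 * a3 a.1.toBd - l) + 19 / 4 * (δ * L) :=
      max_le (by linarith only [g1, hδL0]) (by linarith only [g2, A1, k2])
    unfold RstQ702.XS
    rw [abs_le]
    constructor
    · linarith only [g5, x1, hδL0]
    · linarith only [g6, x2, hδL0]
  have hXe : ∀ r : ℝ, X ^ r = Real.exp (L * r) := fun r => by rw [Real.rpow_def_of_pos hX0]
  have κL1 : κ * L ≤ L := by
    have := mul_le_mul_of_nonneg_right hκ1 hL0.le
    linarith only [this]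
  have δL1 : δ * L ≤ 1 / 4000000 * L := mul_le_mul_of_nonneg_right hδ1 hL0.le
  have δL2 : 20 * (4 * δ * L) = 80 * (δ * L) := by ring
  have htX : 20 * (4 * δ * L) ≤ L / 1000 := by linarith only [δL1, δL2, hL0]
  have g1p := hEf.p1
  have g2m := hEf.m0
  have g3N := hEf.hD.N1
  have hYn : Real.exp (n + 3 * Rh) ≤ X ^ (3 : ℝ) := by
    rw [hXe]
    refine Real.exp_le_exp.2 ?_
    linarith only [g1p, g2m, g3N, htX, κL1, hQL, hQ, hq1, hq2, hL0, hκL]
  have hY1 : (1 : ℝ) ≤ X ^ (3 : ℝ) := Real.one_le_rpow hX1.le (by norm_num)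
  have hlp : 0 ≤ l := by
    have := mul_le_mul_of_nonneg_right hκ0 hL0.le
    linarith only [this, k1, δL1, hL0]
  -- the square parts
  have hnO : Real.log 2 * nO a.1.toBd ≤ 2 * L := by
    have g1 : top5 (prX (bq q)) ≤ 1 := by
      rw [ht5]
      have g2 := min_le_right (2 * (y₃ + y₄ + u) - κ) (3 / 4 * (y₃ + y₄ + u))
      have g3 := hD.N1
      have g5 : x ≤ κ / 36 := by
        by_contra hne
        have : κ / 36 * L < x * L := mul_lt_mul_of_pos_right (not_le.1 hne) hL0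
        linarith only [this, w4]
      linarith only [g2, g3, g5, hκ1, hκp]
    have g6 : max 0 (top5 (prX (bq q))) * L ≤ 1 * L :=
      mul_le_mul_of_nonneg_right (max_le (by norm_num) g1) hL0.le
    linarith only [g6, htop, hl2, δL1, hL2]
  have hDs : ∀ d' ∈ DsH (a, j), IsPrim d' ∧ (nm d' : ℝ) ≤ X ^ (3 : ℝ) :=
    ds_mem hX0 (by linarith only [hnO, hL0])
  have key := HX X hX3 hL2 j (κ * L) (y₃ * L) (y₄ * L) (u * L) (x * L) (d * κ * L)
    (20 * (4 * δ * L)) (2 * (δ * L)) n (bb * L) d (zNa a) (zRa a) (s0X a) l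
    (9 / 4 * a.1.z - 3 * max 0 (5 / 4 * a3 a.1.toBd - l)) e0 (X ^ (ε / 16))
    (alH π h lam (a, j)) hEfi hdk hz hZ hs (by linarith only [hδL0]) (by linarith only [δL2])
    (abs_le.2 ⟨by linarith only [k1, hδL0], by linarith only [k2, hδL0]⟩) hsA hlp
    (by linarith only [hδcL, δL2, hδL0]) htX κL1 (he1.trans he10) he0 (by positivity)
    (fun W hW hlW => hjbc _ hY1 le_rfl W hW hlW) (hadm _ hYn) (DsH (a, j)) (EEH e1 e0 (a, j))
    (fun i d' _ => HhX cc (a, j) i d') (ZH (a, j) ^ 5) hDs (fun e he => (mem_filter.1 he).1)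
    (fun i d' _ => HhX_pos (a, j) i d')
    (fun i d' e hd' => by
      show HhX cc (a, j) i d' = _
      unfold HX72.HhX
      rw [if_pos hd']
      rfl)
    (fun i d' e hd' => by
      show HhX cc (a, j) i d' = _
      unfold HX72.HhX
      rw [if_neg (not_le.2 hd')])
  refine key.trans ?_
  have hδεL : δ * L ≤ ε / 10000 * L := mul_le_mul_of_nonneg_right hδε hL0.le
  have hTe : κ * L + n + LR (y₃ * L + y₄ * L + u * L) (κ * L) (d * κ * L) (x * L) +
      12 * (20 * (4 * δ * L)) ≤ L * (EHX LH q + ε / 2) := by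
    rw [hEH, hLRs]
    have : L * (κ + svq q + LH (prX (bq q)) + ε / 2) = κ * L + svq q * L +
      LH (prX (bq q)) * L + ε / 2 * L := by ring
    rw [this]
    have he : 0 ≤ ε * L := by positivity
    linarith only [hLHL, n2, hδεL, δL2, he]
  have hX16 : 0 < X ^ (ε / 16) := by positivity
  have hL16 : C ≤ X ^ (ε / 16) := by linarith only [hCX, hC]
  calc C * X ^ (ε / 16) * X ^ (ε / 16) * Real.exp (κ * L + n +
        LR (y₃ * L + y₄ * L + u * L) (κ * L) (d * κ * L) (x * L) + 12 * (20 * (4 * δ * L)))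
      ≤ X ^ (ε / 16) * X ^ (ε / 16) * X ^ (ε / 16) * X ^ (EHX LH q + ε / 2) := by
        have g2 : Real.exp (κ * L + n +
            LR (y₃ * L + y₄ * L + u * L) (κ * L) (d * κ * L) (x * L) +
            12 * (20 * (4 * δ * L))) ≤ X ^ (EHX LH q + ε / 2) := by
          rw [hXe]; exact Real.exp_le_exp.2 hTe
        gcongr
    _ ≤ X ^ (EHX LH q + ε) := by
        rw [← Real.rpow_add hX0, ← Real.rpow_add hX0, ← Real.rpow_add hX0]
        exact Real.rpow_le_rpow_of_exponent_le hX1.le (by linarith only [hε])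

end Crest.Agent.R017.TnHs48
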