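import Crest.Agent.R017.HiF_571
import Crest.Agent.R017.TnHX_48

/-!
# Row 17, T.4 (helper48): the field `hi` of helper372's `StrInE`

* **`hi_E`** : the field `hi`, no open premise but `near`
-/

set_option autoImplicit false

noncomputable section

open Finset

namespace Crest.Agent.R017.HiG48

open Crest.Agent.R012 Crest.Agent.R012.Eis
open Crest.Agent.R017.FE47 (PU cx)
open Crest.Agent.R017.End699 (PF)
open Crest.Agent.R017.Prov71
open Crest.Agent.R017.B770
open Crest.Agent.R017.ER911 Crest.Agent.R017.SC777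
open Crest.Agent.R017.E5B71 Crest.Agent.R017.E5L770
open Crest.Agent.R017.ExBox960 Crest.Agent.R017.ExP960
open Crest.Agent.R017.P1t54 (ParS)
open Crest.Agent.R017.Fin4 Crest.Agent.R017.Fin5 Crest.Agent.R017.Fin6
open Crest.Agent.R017.Sg986 (AA AA_lt AA_eq AA_ge)
open Crest.Agent.R017.NrX986 (NearAllX)
open Crest.Agent.R017.XS0298 (S0x S0K)
open Crest.Agent.R017.Red848 (red Exc red_ok)
open Crest.Agent.R017.E4U164 (low5)
open Crest.Agent.R017.E5H319 (LR)
open Crest.Agent.R017.HiD50 (HNDX loB hiB)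
open Crest.Agent.R017.HiE48

/-- **the field `hi`** -/
theorem hi_E {d : ℝ} (hd : 0 < d) (hd1 : d ≤ 1 / 42) {h : ℝ → ℝ} {c₀ : ℝ} (hpu : PU h c₀)
    (hPF : PF Set.univ (7 / 8 + d)) (P : BunE d h) (G : RecE d h)
    (near : NearAllX d (ex Dq (fun lam => S0x (red (πE lam)) h))) :
    ∀ j : ℕ, (j * (d / 8) + d / 2) / 4 < 1 / 64 →
      HNDX πE h ((j * (d / 8) + d / 2) / 4) (1 / 64) (d / 4) βX (ParS (AA d) d)
        (loB low5 ((j + 1) * (d / 8))) (hiB low5 (j * (d / 8))) (LR d) := by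
  have F := factsE hd hd1 P G near
  obtain ⟨Rh, hR0, hRh⟩ := Sg986.exists_Rh hpu
  refine HiF571.hi_of_T hd hd1 hpu hPF P G near fun j hj => ?_
  have h0 : (0 : ℝ) ≤ (j * (d / 8) + d / 2) / 4 := by positivity
  exact TnHs48.tnHX hpu F.ok F.hex hR0 hRh F.par F.r5 hd.le (by linarith) F.own F.all h0 hj.le
      (le_refl _) F.dh F.cD (le_refl _) F.zu (fun p _ => hhi_b _ p) (fun p _ => hLH_b p)

end Crest.Agent.R017.HiG48
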