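import Crest.Agent.R017.LMRc_813

/-!
# Row 17, P1, mismatch: the `R`-half (helper813), part 4

* **`lmr_of`** : the `R`-half of the lines of the mismatch in helper54's frame `Fr9`
-/

set_option autoImplicit false
set_option linter.unusedVariables false

noncomputable section

open Finset

namespace Crest.Agent.R017.LMR813

open Crest.Agent.R012 Crest.Agent.R012.Eis
open Crest.Agent.R012.Div277 (tau dvs mem_dvs isPrim_of_mem_dvs dvd_of_mem_dvs tau_le_rpow)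
open Crest.Agent.R012.LS2 (S mem_S bl mem_bl)
open Crest.Agent.R017.CM106
open Crest.Agent.R017.FE47 (PU SM)
open Crest.Agent.R017.XG702 (Pcs BG)
open Crest.Agent.R017.Prov71
open Crest.Agent.R017.B770
open Crest.Agent.R017.ER911 Crest.Agent.R017.ExpC702
open Crest.Agent.R017.XPD571 (RP0)
open Crest.Agent.R017.E5B71 Crest.Agent.R017.E5L770
open Crest.Agent.R017.Mode405 (Slp)
open Crest.Agent.R017.PX764 (n6)
open Crest.Agent.R017.E3Z548 (FH)
open Crest.Agent.R017.E3Sz579 (RHd)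
open Crest.Agent.R017.E3Hd290 (RNF)
open Crest.Agent.R017.DgA829 (lc lc_prim lc_dvd)
open Crest.Agent.R017.RnP571 (Dh)
open Crest.Agent.R017.I1146 (LN)
open Crest.Agent.R017.P10146 (bP cl)
open Crest.Agent.R017.P1l54 Crest.Agent.R017.P1u54 Crest.Agent.R017.P1v54 Crest.Agent.R017.P1w54
open Crest.Agent.R017.StG828 (JB mem_JB)
open Crest.Agent.R017.StD828 (ln)
open Crest.Agent.R017.StJ319 (afrb gt5 q5 I5)
open Crest.Agent.R017.StB828 (one_le_nmR)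
open Crest.Agent.R017.Mm828 (Hm lc_ratio Vb)
open Crest.Agent.R017.E3Kc548 (LI mem_LI card_LI)
open Crest.Agent.R017.P1Q904 (LQ)

/-- **the sum over the reduced divisors** -/
lemma sum_JB {V Y : ℝ} (hV : 0 ≤ V) (hVY : V ≤ Y) (hY : 1 ≤ Y) :
    ∑ d ∈ (JB (Real.sqrt V)).image Prod.fst, (nm d : ℝ)⁻¹ ≤ 100 * (1 + Real.log Y) := by
  classical
  refine le_trans ?_ (E1551.sum_inv_S551 hY)
  have e1 : ∀ d ∈ (JB (Real.sqrt V)).image Prod.fst, (nm d : ℝ)⁻¹ = 1 / (nm d : ℝ) := fun d _ => by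
    rw [one_div]
  rw [sum_congr rfl e1]
  refine sum_le_sum_of_subset_of_nonneg (fun d hd => ?_) fun _ _ _ => by positivity
  obtain ⟨x, hx, rfl⟩ := mem_image.1 hd
  obtain ⟨h1, h2, h3, h4⟩ := (mem_JB (Real.sqrt_nonneg _)).1 hx
  rw [mem_S (by linarith)]
  refine ⟨?_, h1, h2⟩
  rw [Real.sq_sqrt hV] at h4
  refine le_trans ?_ (h4.trans hVY)
  have h5 : ln x ≠ 0 := StF828.ln_ne h1 h3
  exact_mod_cast Div277.nm_le_of_dvd h5 ⟨x.2 * x.1, by
    show x.2 * x.1 ^ 2 = x.1 * (x.2 * x.1)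
    ring⟩

/-- powers of logarithms -/
lemma log_pow_le {η : ℝ} (hη : 0 < η) (hη1 : η ≤ 1) {X : ℝ} (hX : 1 ≤ X) :
    1 + Real.log X ≤ 2 / η * X ^ η := by
  have h1 := Real.log_le_rpow_div (by linarith : 0 ≤ X) hη
  have h2 : 1 ≤ X ^ η := Real.one_le_rpow hX hη.le
  have h3 : 1 ≤ 1 / η := by rw [le_div_iff₀ hη]; linarith
  have h4 : X ^ η / η = 1 / η * X ^ η := by ring
  rw [h4] at h1
  have h5 : 1 ≤ 1 / η * X ^ η := one_le_mul_of_one_le_of_one_le h3 h2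
  have h6 : 2 / η * X ^ η = 1 / η * X ^ η + 1 / η * X ^ η := by ring
  rw [h6]
  linarith

section

variable {Λ : Type*} {π : Λ → DPar} {h : ℝ → ℝ}

set_option maxHeartbeats 3200000 in
/-- **the `R`-half of the lines of the mismatch** -/
theorem lmr_of {c₀ : ℝ} (hpu : PU h c₀) (hP : ∀ lam, (π lam).OK) {sf : EF} {dd : ℝ}
    (R : ExpRules (7 / 8 + dd) (ex Dq (fun lam => Rp (π lam) h)) sf)
    (hcolP : ∀ (i : ℝ) (u : List ℝ) (m a : ℝ), 0 ≤ i → Okl u m a →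
      BG Dq (RP0 π h) i u (wt m a) (2 * a + 2 * (7 / 8 + dd) * m)) (hd : 0 ≤ dd)
    (hd8 : dd ≤ 1 / 8) {Par : Set (Fin 3 ⊕ Fin 5 → ℝ)}
    (hDh : ∀ p ∈ Par, Dh (cκ p) (cu p 2) (cu p 3) (cu p 4) (cx' p) (dd * cκ p))
    {e0 : ℝ} (he0 : 0 ≤ e0) (he1 : e0 ≤ 1) {ε : ℝ} (hε : 0 < ε) :
    ∃ τ : ℝ, 0 < τ ∧ τ ≤ ε ∧ ∀ (lam : Λ × Eis) (N : ℕ) (B Bm : ℝ),
      ∃ (M a₀ A₀ : ℕ), 1 ≤ a₀ ∧ ∀ c : ℝ, 1 ≤ c → ∃ X₀ : ℝ, 1 < X₀ ∧ ∀ X : ℝ, X₀ ≤ X →
      ∀ H : ℝ, 1 ≤ H → ∀ p ∈ Par, ∀ (a : P1l54.Bm) (qs : List Pq), Fr9 p X τ B H N a qs →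
      okM π h lam a qs → ∀ (cl5 : Fin 5) (i : ℕ) (b : Eis) (s : ℝ),
      i ∈ I5 a.2.1 (nM (nO a.1.1) a.2.2) (nO a.1.1) (Real.exp a.2.2) cl5 → b ∈ dvs a.2.1 →
      ∀ (K E0 Hp D₀ Xw : ℝ), K = Real.exp a.1.1.l →
      E0 = Real.exp (e0 * a.1.1.l) * Real.exp a.2.2 → 0 < Hp →
      Real.log Hp ≤ 4 / 3 * (LN (cl a.1 qs) - 2 * Real.log (nm a.2.1)) + 2 / 3 * a.2.2 -
        a.1.1.l - 3 * max 0 (5 / 4 * a3 a.1.1 - a.1.1.l) → 0 ≤ D₀ →
      D₀ ≤ K ^ (13 / 100 : ℝ) → Xw = Real.exp (LN (cl a.1 qs)) / (nm a.2.1 * nm b) →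
      ∃ W0 : ℕ → Eis → Eis → ℝ → ℝ, (∀ k d e, Slp a₀ (W0 k d e)) ∧
      (∀ A : ℕ, A₀ ≤ A → ∀ z m : ℝ, 0 ≤ z → m ≤ X ^ Bm →
        ∀ k ∈ LI (1 / 10) (Vb (a.2.1 / b) i), RHd z m A (S E0) (fun d e =>
          afrb (gt5 (Real.exp (e0 * a.1.1.l)) (Real.exp a.2.2) a.2.1 cl5) (q5 a.2.1 cl5)
            (Real.exp a.2.2) (ηC π h lam qs) (αC π h lam a) a.2.1 b s e d) (W0 k)) ∧
      ∑ e ∈ S E0, ∑ k ∈ LI (1 / 10) (Vb (a.2.1 / b) i),
        ∑ d ∈ (JB (Real.sqrt (Vb (a.2.1 / b) i))).image Prod.fst,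
          (nm e : ℝ)⁻¹ * (FH K (Hm Hp D₀ (a.2.1 / b) K Xw c k d e) (Real.exp k) *
            RNF c K (Real.exp k) Xw (Hm Hp D₀ (a.2.1 / b) K Xw c k) (W0 k) d e) ≤
        (H * (1 + |s|)) ^ M * X ^ ε * Real.exp (a.1.1.l + LN (cl a.1 qs) -
          2 * Real.log (nm a.2.1) + LQ (cN p) (cκ p) (dd * cκ p) * Real.log X) := by
  classical
  set η : ℝ := min (ε / 16) (1 / 16) with hη
  have hη0 : 0 < η := lt_min (by positivity) (by norm_num)
  have hηε : η ≤ ε / 16 := min_le_left _ _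
  have hη1 : η ≤ 1 / 16 := min_le_right _ _
  obtain ⟨τ, hτ0, hτη, HL⟩ := lmr_level hpu hP R hcolP hd hd8 hDh e0 hη0
  refine ⟨τ, hτ0, by linarith, fun lam N B Bm => ?_⟩
  obtain ⟨M, a₀, A₀, ha₀, HL⟩ := HL lam N B Bm
  refine ⟨M, a₀, A₀, ha₀, fun c hc => ?_⟩
  obtain ⟨X₁, hX₁, HL⟩ := HL c hc
  obtain ⟨Ct, hCt, htau⟩ := tau_le_rpow hη0
  have hη2 : 0 < 1 / η := by positivity
  have hη3 : 1 ≤ 1 / η := by rw [le_div_iff₀ hη0]; linarith
  have hη4 : 1 ≤ 2 / η := by rw [le_div_iff₀ hη0]; linarith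
  set C₀ : ℝ := (2 + 1 / η) * (100 * (3 * (2 / η))) * (Ct * (100 * (3 * (2 / η)))) with hC₀
  have hC₀1 : 1 ≤ C₀ := by
    have a1 : 1 ≤ 2 + 1 / η := by linarith
    have a2 : 1 ≤ 100 * (3 * (2 / η)) := by linarith
    have a3' : 1 ≤ 100 * (3 * (2 / η)) := by linarith
    exact one_le_mul_of_one_le_of_one_le (one_le_mul_of_one_le_of_one_le a1 a2)
      (one_le_mul_of_one_le_of_one_le hCt a3')
  obtain ⟨X₂, hX₂, HX₂⟩ := XSup271.exists_X hC₀1 hη0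
  refine ⟨max X₁ (max X₂ (Real.exp 8)), lt_of_lt_of_le hX₁ (le_max_left _ _), ?_⟩
  intro X hX H hH p hp a qs F hok cl5 i b s hi hb K E0 Hp D₀ Xw hK hE0 hHp hHpl hD₀ hD₀' hXw
  have hXX₁ : X₁ ≤ X := (le_max_left _ _).trans hX
  have hXX₂ : X₂ ≤ X := ((le_max_left _ _).trans (le_max_right _ _)).trans hX
  have hXe : Real.exp 8 ≤ X := ((le_max_right _ _).trans (le_max_right _ _)).trans hX
  have hX1 : 1 < X := by linarith
  have hX0 : 0 < X := by linarith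
  have hL : 0 < Real.log X := F.L
  have hL8 : 8 ≤ Real.log X := by
    rw [← Real.log_exp 8]
    exact Real.log_le_log (Real.exp_pos _) hXe
  set Tt : ℝ := Real.exp (a.1.1.l + LN (cl a.1 qs) -
          2 * Real.log (nm a.2.1) + LQ (cN p) (cκ p) (dd * cκ p) * Real.log X) with hTt
  have hTt0 : 0 < Tt := Real.exp_pos _
  have hlev := HL X hXX₁ H hH p hp a qs F hok cl5 i b s hi hb K Hp D₀ Xw hK hHp hHpl hD₀ hD₀' hXw
  have hW : ∀ k : ℕ, ∃ W : Eis → Eis → ℝ → ℝ, (∀ d e, Slp a₀ (W d e)) ∧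
      (k ∈ LI (1 / 10) (Vb (a.2.1 / b) i) → (∀ A : ℕ, A₀ ≤ A → ∀ d e, IsPrim d → IsPrim e →
        ∀ γ φ, IsPrim γ → IsPrim φ → (nm φ : ℝ) ≤ X ^ Bm → ∀ P : ℝ, 0 < P →
        (nm γ : ℝ) * n6 γ ^ 2 * ∑ r ∈ bl P, R3571.RMm A (afrb (gt5 (Real.exp (e0 * a.1.1.l))
          (Real.exp a.2.2) a.2.1 cl5) (q5 a.2.1 cl5)
            (Real.exp a.2.2) (ηC π h lam qs) (αC π h lam a) a.2.1 b s e d) e γ φ r ≤ W d e P) ∧
      ∀ d e, IsPrim d → IsPrim e →
        (nm e : ℝ)⁻¹ * (FH K (Hm Hp D₀ (a.2.1 / b) K Xw c k d e) (Real.exp k) *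
          RNF c K (Real.exp k) Xw (Hm Hp D₀ (a.2.1 / b) K Xw c k) W d e) ≤
        (H * (1 + |s|)) ^ M * X ^ η * Tt *
          ((nm d : ℝ)⁻¹ * ((nm (lc (a.2.1 / b) e) : ℝ) / nm (a.2.1 / b))⁻¹)) := by
    intro k
    by_cases hk : k ∈ LI (1 / 10) (Vb (a.2.1 / b) i)
    · obtain ⟨W, h1, h2, h3⟩ := hlev k hk
      exact ⟨W, h1, fun _ => ⟨h2, h3⟩⟩
    · exact ⟨fun _ _ _ => 0, fun _ _ => ⟨fun _ _ => le_rfl, fun _ _ _ _ => by simp,
        fun _ _ => by simp⟩, fun hk' => absurd hk' hk⟩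
  choose W0 hS hW0 using hW
  have hokg := hok.2.1
  have hoks := hok.2.2.1
  have hbp : IsPrim b := isPrim_of_mem_dvs hb
  have hbg : b ∣ a.2.1 := dvd_of_mem_dvs hb
  have hbgm : b * (a.2.1 / b) = a.2.1 := EuclideanDomain.mul_div_cancel' hbp.ne_zero hbg
  have hcg : IsPrim (a.2.1 / b) := by
    have e2 : IsPrim (b * (a.2.1 / b)) := by rw [hbgm]; exact hokg
    exact e2.of_mul_left hbp
  have hcs : Squarefree (a.2.1 / b) := by
    have e2 : Squarefree (b * (a.2.1 / b)) := by rw [hbgm]; exact hoks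
    exact e2.of_mul_right
  have hE00 : 0 ≤ E0 := by rw [hE0]; positivity
  have nc : (1 : ℝ) ≤ nm (a.2.1 / b) := one_le_nmR hcg
  -- sizes
  have hpar := F.par
  obtain ⟨k1, k2⟩ := abs_le.1 F.l
  obtain ⟨z1, z2⟩ := abs_le.1 F.ζ
  have hτL : τ * Real.log X ≤ 1 / 16 * Real.log X :=
    mul_le_mul_of_nonneg_right (by linarith) hL.le
  have hτL0 : 0 ≤ τ * Real.log X := by positivity
  have hκL : cκ p * Real.log X ≤ 1 * Real.log X := mul_le_mul_of_nonneg_right hpar.κ1 hL.le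
  have hκL0 : 8 / 9 * Real.log X ≤ cκ p * Real.log X :=
    mul_le_mul_of_nonneg_right hpar.κ0 hL.le
  have hxL : cx' p * Real.log X ≤ 1 / 3 * Real.log X := mul_le_mul_of_nonneg_right hpar.x1 hL.le
  have hV0 : 0 ≤ Vb (a.2.1 / b) i := div_nonneg (Real.exp_pos _).le (by linarith)
  have hVX : Vb (a.2.1 / b) i ≤ X ^ (3 : ℝ) := by
    obtain ⟨-, -, -, -, r5⟩ := fr_real F hτ0.le (t := 2) (by linarith) (by linarith) hi
    obtain ⟨k0', u4', y43', u0', y3', N1', near', x0', adm', d0', d1'⟩ := hDh p hp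
    have hκ1 := hpar.κ1
    have hx1 : cx' p ≤ 1 / 36 := by
      rcases adm' with ⟨a1, -⟩ | ⟨-, a2, -⟩ <;> linarith
    rw [div_le_iff₀ hL] at r5
    have h3 : Vb (a.2.1 / b) i ≤ Real.exp (Real.log 2 * (i + 1)) := by
      unfold Mm828.Vb
      exact div_le_self (Real.exp_pos _).le nc
    refine h3.trans ?_
    rw [Real.rpow_def_of_pos hX0]
    refine Real.exp_le_exp.2 (r5.trans ?_)
    rw [mul_comm (Real.log X)]
    exact mul_le_mul_of_nonneg_right (by linarith) hL.le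
  have hEX : E0 ≤ X ^ (2 : ℝ) := by
    rw [hE0, ← Real.exp_add, Real.rpow_def_of_pos hX0]
    refine Real.exp_le_exp.2 ?_
    have h1 : e0 * a.1.1.l ≤ a.1.1.l := mul_le_of_le_one_left (by linarith) he1
    linarith
  have hE1 : 1 ≤ E0 := by
    rw [hE0, ← Real.exp_add]
    refine Real.one_le_exp (add_nonneg (mul_nonneg he0 (by linarith)) F.ζ0)
  have hgX : (nm (a.2.1 / b) : ℝ) ≤ X := by
    have h0 : (nm (a.2.1 / b) : ℝ) ≤ nm a.2.1 := by
      exact_mod_cast Div277.nm_le_of_dvd hokg.ne_zero ⟨b, by rw [mul_comm]; exact hbgm.symm⟩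
    refine h0.trans ?_
    have ng : (0 : ℝ) < nm a.2.1 := by linarith [one_le_nmR hokg]
    rw [← Real.log_le_log_iff ng hX0]
    have h1 := F.g1
    have h2 := F.qs1
    linarith
  refine ⟨W0, hS, ?_, ?_⟩
  · intro A hA z m hz hm k hk d hd' e he γ φ hγ hφ hφm P hP'
    exact ((hW0 k hk).1 A hA d e ((mem_S hz).1 hd').2.1 ((mem_S hE00).1 he).2.1 γ φ hγ hφ
      (hφm.trans hm) P hP')
  · set Bd : ℝ := (H * (1 + |s|)) ^ M * X ^ η * Tt with hBd
    have hBd0 : 0 ≤ Bd := by positivity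
    have hU0 : ∀ e : Eis, 0 ≤ ((nm (lc (a.2.1 / b) e) : ℝ) / nm (a.2.1 / b))⁻¹ := fun e => by
      positivity
    have hXη : 1 ≤ X ^ η := Real.one_le_rpow hX1.le hη0.le
    have hcard : ((LI (1 / 10) (Vb (a.2.1 / b) i)).card : ℝ) ≤ (2 + 1 / η) * X ^ (3 * η) := by
      have h1 := card_LI (1 / 10) (Z := X ^ (3 : ℝ)) (Real.one_le_rpow hX1.le (by norm_num)) hV0
        hVX hη0
      rwa [← Real.rpow_mul hX0.le] at h1
    have hlp := log_pow_le hη0 (by linarith) hX1.le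
    have hsd : ∑ d ∈ (JB (Real.sqrt (Vb (a.2.1 / b) i))).image Prod.fst, (nm d : ℝ)⁻¹ ≤
        100 * (3 * (2 / η)) * X ^ η := by
      refine (sum_JB hV0 hVX (Real.one_le_rpow hX1.le (by norm_num))).trans ?_
      rw [Real.log_rpow hX0]
      have e1 : 100 * (3 * (2 / η)) * X ^ η = 100 * (3 * (2 / η * X ^ η)) := by ring
      rw [e1]
      linarith
    have hse : ∑ e ∈ S E0, ((nm (lc (a.2.1 / b) e) : ℝ) / nm (a.2.1 / b))⁻¹ ≤
        Ct * (100 * (3 * (2 / η))) * X ^ (2 * η) := by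
      refine (sum_U hcg hcs hE1).trans ?_
      have h1 : (tau (a.2.1 / b) : ℝ) ≤ Ct * X ^ η := by
        refine (htau _ hcg.ne_zero).trans (mul_le_mul_of_nonneg_left ?_ (by linarith))
        exact Real.rpow_le_rpow (Nat.cast_nonneg _) hgX hη0.le
      have h2 : Real.log E0 ≤ 2 * Real.log X := by
        have h3 := Real.log_le_log (by linarith) hEX
        rwa [Real.log_rpow hX0] at h3
      have h4 : 100 * (1 + Real.log E0) ≤ 100 * (3 * (2 / η)) * X ^ η := by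
        have e1 : 100 * (3 * (2 / η)) * X ^ η = 100 * (3 * (2 / η * X ^ η)) := by ring
        rw [e1]
        linarith
      have h5 : 0 ≤ 100 * (1 + Real.log E0) := by
        have := Real.log_nonneg hE1
        linarith
      calc (tau (a.2.1 / b) : ℝ) * (100 * (1 + Real.log E0)) ≤
            (Ct * X ^ η) * (100 * (3 * (2 / η)) * X ^ η) :=
            mul_le_mul h1 h4 h5 (by positivity)
        _ = Ct * (100 * (3 * (2 / η))) * X ^ (2 * η) := by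
            have e1 : X ^ (2 * η) = X ^ η * X ^ η := by
              rw [← Real.rpow_add hX0]
              congr 1
              ring
            rw [e1]
            ring
    calc ∑ e ∈ S E0, ∑ k ∈ LI (1 / 10) (Vb (a.2.1 / b) i),
        ∑ d ∈ (JB (Real.sqrt (Vb (a.2.1 / b) i))).image Prod.fst,
          (nm e : ℝ)⁻¹ * (FH K (Hm Hp D₀ (a.2.1 / b) K Xw c k d e) (Real.exp k) *
            RNF c K (Real.exp k) Xw (Hm Hp D₀ (a.2.1 / b) K Xw c k) (W0 k) d e) ≤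
        ∑ e ∈ S E0, ∑ k ∈ LI (1 / 10) (Vb (a.2.1 / b) i),
        ∑ d ∈ (JB (Real.sqrt (Vb (a.2.1 / b) i))).image Prod.fst,
          Bd * ((nm d : ℝ)⁻¹ * ((nm (lc (a.2.1 / b) e) : ℝ) / nm (a.2.1 / b))⁻¹) := by
          refine sum_le_sum fun e he => sum_le_sum fun k hk => sum_le_sum fun d hd' => ?_
          obtain ⟨x, hx, rfl⟩ := mem_image.1 hd'
          exact (hW0 k hk).2 _ e ((mem_JB (Real.sqrt_nonneg _)).1 hx).1 ((mem_S hE00).1 he).2.1
      _ = Bd * (((LI (1 / 10) (Vb (a.2.1 / b) i)).card : ℝ) *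
          (∑ d ∈ (JB (Real.sqrt (Vb (a.2.1 / b) i))).image Prod.fst, (nm d : ℝ)⁻¹) *
          ∑ e ∈ S E0, ((nm (lc (a.2.1 / b) e) : ℝ) / nm (a.2.1 / b))⁻¹) := by
          rw [mul_sum, mul_sum]
          refine sum_congr rfl fun e _ => ?_
          rw [sum_const, nsmul_eq_mul, ← mul_sum, ← sum_mul]
          ring
      _ ≤ Bd * (((2 + 1 / η) * X ^ (3 * η)) * (100 * (3 * (2 / η)) * X ^ η) *
          (Ct * (100 * (3 * (2 / η))) * X ^ (2 * η))) := by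
          refine mul_le_mul_of_nonneg_left ?_ hBd0
          refine mul_le_mul (mul_le_mul hcard hsd (sum_nonneg fun _ _ => by positivity)
            (by positivity)) hse (sum_nonneg fun e _ => hU0 e) (by positivity)
      _ = Bd * (C₀ * X ^ (6 * η)) := by
          have e1 : X ^ (6 * η) = X ^ (3 * η) * X ^ η * X ^ (2 * η) := by
            rw [← Real.rpow_add hX0, ← Real.rpow_add hX0]
            congr 1
            ring
          rw [e1, hC₀]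
          ring
      _ ≤ Bd * (X ^ η * X ^ (6 * η)) := by
          refine mul_le_mul_of_nonneg_left ?_ hBd0
          exact mul_le_mul_of_nonneg_right (HX₂ X hXX₂) (by positivity)
      _ = (H * (1 + |s|)) ^ M * X ^ (8 * η) * Tt := by
          have e1 : X ^ (8 * η) = X ^ η * (X ^ η * X ^ (6 * η)) := by
            rw [← Real.rpow_add hX0, ← Real.rpow_add hX0]
            congr 1
            ring
          rw [e1, hBd]
          ring
      _ ≤ _ := by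
          refine mul_le_mul_of_nonneg_right (mul_le_mul_of_nonneg_left ?_ (by positivity)) hTt0.le
          exact Real.rpow_le_rpow_of_exponent_le hX1.le (by linarith)

end

end Crest.Agent.R017.LMR813
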