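import Crest.Agent.R017.HmS_524
import Crest.Agent.R017.LMRd_813

/-!
# Row 17, exceptional class, mismatch (helper524): the `R`-half from one level

* `LRLev` : (RH) and the number at one level `k`
* **`lrg_of_lev`** : helper72's `LRG` from it, `Hx = HmE (sf a)`
* **`lrg_D`**, **`lrg_S`** : the differences (`HmD`), the single lists (`HmS`)
-/

set_option autoImplicit false
set_option linter.unusedVariables false

noncomputable section

open Finset Filter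
open scoped Classical ComplexConjugate

namespace Crest.Agent.R017.LRW524

open Crest.Agent.R012 Crest.Agent.R012.Eis
open Crest.Agent.R012.Div277 (tau dvs mem_dvs isPrim_of_mem_dvs dvd_of_mem_dvs tau_le_rpow)
open Crest.Agent.R012.LS2 (S mem_S bl mem_bl)
open Crest.Agent.R017.CM106 (CS FS TG)
open Crest.Agent.R017.C70
open Crest.Agent.R017.FE47 (PU cx SM)
open Crest.Agent.R017.StG828 (JB mem_JB)
open Crest.Agent.R017.StB828 (one_le_nmR)
open Crest.Agent.R017.StJ319 (afrb gt5 q5 I5)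
open Crest.Agent.R017.E3Z548 (FH)
open Crest.Agent.R017.E3Kc548 (LI mem_LI card_LI)
open Crest.Agent.R017.E3T829 (RR)
open Crest.Agent.R017.Mode405 (Slp)
open Crest.Agent.R017.PX764 (n6)
open Crest.Agent.R017.E3Hi290 (RN2XF)
open Crest.Agent.R017.E3Xa72 (RHRx)
open Crest.Agent.R017.P1e54 Crest.Agent.R017.P1f54 Crest.Agent.R017.P1k54
open Crest.Agent.R017.P1l54 (ParOK oN)
open Crest.Agent.R017.Sf770 (nO tO)
open Crest.Agent.R017.P1u54
open Crest.Agent.R017.P1v54 (ηC)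
open Crest.Agent.R017.B770 Crest.Agent.R017.Prov71
open Crest.Agent.R017.E5B71 Crest.Agent.R017.E5L770
open Crest.Agent.R017.ExBox960 Crest.Agent.R017.ExP960
open Crest.Agent.R017.P1X960
open Crest.Agent.R017.I1146 (LN)
open Crest.Agent.R017.P1MU960
open Crest.Agent.R017.Mm828 (Vb Hm_pos)
open Crest.Agent.R017.DgA829 (lc lc_prim lc_dvd)
open Crest.Agent.R017.P1yX72
open Crest.Agent.R017.RnP571 (Dh)
open Crest.Agent.R017.HmX813
open Crest.Agent.R017.FrL524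
open Crest.Agent.R017.HmS524
open Crest.Agent.R017.LMR813 (sum_JB sum_U log_pow_le)

section
variable {Λ : Type*} (π : Λ → DPar) (h : ℝ → ℝ) (e0 c : ℝ)
  (ok : Λ × Eis → BmX → List Pq → Prop) (α : Λ × Eis → BmX → Eis → ℂ)
  (Fx : (IX5 → ℝ) → ℝ → ℝ → ℝ → ℝ → ℕ → BmX → List Pq → Prop)
  (β : ℝ) (Par : Set (Fin 3 ⊕ Fin 5 → ℝ)) (L0 : (Fin 3 ⊕ Fin 5 → ℝ) → ℝ)
  (Hx : ℝ → BmX → List Pq → ℕ → Eis → ℕ → Eis → Eis → ℝ) (u : Λ × Eis → Eis)

/-- **(RH) and the number at one level** -/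
def LRLev : Prop :=
  ∀ ε : ℝ, 0 < ε → ∃ τ : ℝ, 0 < τ ∧ τ ≤ ε ∧ ∀ (lam : Λ × Eis) (N : ℕ) (B Bm : ℝ), 0 ≤ B →
    ∃ M a₀ A₀ : ℕ, ∀ cL : ℝ, 1 ≤ cL → ∃ X₀ : ℝ, 1 < X₀ ∧ ∀ X : ℝ, X₀ ≤ X → ∀ H : ℝ, 1 ≤ H →
      ∀ p : IX5 → ℝ, prX p ∈ Par → ∀ (a : BmX) (qs : List Pq) (cc : Fin 5) (i : ℕ) (b : Eis)
      (s : ℝ), Hyp9 π h c ok Fx β lam p X τ B H N a qs cc i b → ∀ k ∈ LI (1 / 10) (VM a i b),
      ∃ W : Bool → Eis → Eis → ℝ → ℝ, (∀ jj d e, Slp a₀ (W jj d e)) ∧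
        (∀ A : ℕ, A₀ ≤ A → ∀ jj d e, IsPrim d → e ∈ S (EM e0 a) → ∀ γ φ, IsPrim γ → IsPrim φ →
          (nm φ : ℝ) ≤ X ^ Bm → ∀ P : ℝ, 0 < P → (nm γ : ℝ) * n6 γ ^ 2 *
            ∑ r ∈ (bl P).filter (PoHx72.Cls (ROX744.PrU (u lam)) jj),
              R3571.RMm A (afM π h e0 α lam a qs cc b s e d) e γ φ r ≤ W jj d e P) ∧
        ∀ d e, IsPrim d → e ∈ S (EM e0 a) →
          (nm e : ℝ)⁻¹ * (FH (Real.exp a.1.1.l) (Hx cL a qs i b k d e) (Real.exp k) *
            RN2XF cL (Real.exp a.1.1.l) (Real.exp k) (XM a qs b) (Hx cL a qs i b k) W d e) ≤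
          (H * (1 + |s|)) ^ M * X ^ ε * Real.exp (tgX (L0 (prX p)) X a qs) *
            ((nm d : ℝ)⁻¹ * ((nm (lc (a.2.1 / b) e) : ℝ) / nm (a.2.1 / b))⁻¹)

end

/-- the levels are bounded -/
lemma VM_le {c β : ℝ} {p : IX5 → ℝ} {X τ B H : ℝ} {N : ℕ} {a : BmX} {qs : List Pq}
    (F : Fr9X c β p X τ B H N a qs) (hτ0 : 0 ≤ τ) (hτ : τ ≤ 1 / 100) (hL8 : 8 ≤ Real.log X)
    {i : ℕ} {cl5 : Fin 5}
    (hi : i ∈ I5 a.2.1 (nM (nO a.1.1.toBd) a.2.2) (nW c a.1.1.toBd a.1.2.2)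
      (Real.exp a.2.2) cl5) : Real.log 2 * ((i : ℝ) + 1) ≤ 3 * Real.log X := by
  have hL := F.L
  have h1 := v_win F hi
  have hPp := F.par
  obtain ⟨l0, l1⟩ := abs_le.1 F.l
  obtain ⟨z0, z1⟩ := abs_le.1 F.z
  obtain ⟨A0, A1⟩ := abs_le.1 F.A
  obtain ⟨ζ0, ζ1⟩ := abs_le.1 F.ζ
  have hτL0 : 0 ≤ τ * Real.log X := by positivity
  have hτL : τ * Real.log X ≤ 1 / 100 * Real.log X := mul_le_mul_of_nonneg_right hτ hL.le
  have hN : cN (prX p) * Real.log X ≤ 1 * Real.log X := mul_le_mul_of_nonneg_right hPp.N1 hL.le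
  have hx : cx' (prX p) * Real.log X ≤ 1 / 3 * Real.log X :=
    mul_le_mul_of_nonneg_right hPp.x1 hL.le
  have hN0 : 0 ≤ cN (prX p) * Real.log X := by
    have : 0 ≤ cN (prX p) := by linarith [hPp.N0, hPp.κ0]
    positivity
  have hx0 : 0 ≤ cx' (prX p) * Real.log X := mul_nonneg hPp.x0 hL.le
  have hl21 : Real.log 2 ≤ 7 / 10 := by
    have := Real.log_two_lt_d9
    linarith
  have htO : tO a.1.1.toBd ≤ 3 / 4 * a3 a.1.1.toBd + 11 / 5 * a.1.1.z := by
    have e3 : tO a.1.1.toBd = min (2 * a3 a.1.1.toBd - a.1.1.l) (3 / 4 * a3 a.1.1.toBd) +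
      11 / 5 * a.1.1.z := rfl
    rw [e3]
    have := min_le_right (2 * a3 a.1.1.toBd - a.1.1.l) (3 / 4 * a3 a.1.1.toBd)
    linarith
  have h2 : max 0 (min (tO a.1.1.toBd) (tO a.1.1.toBd + 2 * (c * a.1.1.l) - 2 * a.1.2.2)) ≤
      155 / 100 * Real.log X := by
    refine max_le (by linarith) ((min_le_left _ _).trans ?_)
    linarith
  have h3 := F.g0
  linarith

section

variable {Λ : Type*} {π : Λ → DPar} {h : ℝ → ℝ} {e0 c : ℝ}
  {ok : Λ × Eis → BmX → List Pq → Prop} {α : Λ × Eis → BmX → Eis → ℂ}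
  {Fx : (IX5 → ℝ) → ℝ → ℝ → ℝ → ℝ → ℕ → BmX → List Pq → Prop}
  {β : ℝ} {Par : Set (Fin 3 ⊕ Fin 5 → ℝ)} {L0 : (Fin 3 ⊕ Fin 5 → ℝ) → ℝ}

set_option maxHeartbeats 3200000 in
/-- **the `R`-half from one level** -/
theorem lrg_of_lev (he0 : 0 ≤ e0) (he1 : e0 ≤ 1) (hc : c ≤ 1 / 100) {dd : ℝ}
    (hDh : ∀ q ∈ Par, Dh (cκ q) (cu q 2) (cu q 3) (cu q 4) (cx' q) (dd * cκ q))
    {u : Λ × Eis → Eis} (hu : ∀ lam a qs, ok lam a qs → u lam ≠ 0)
    (hη' : ∀ lam a qs, ok lam a qs → ∀ n, ηC π h lam qs n ≠ 0 → IsCoprime (u lam) n)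
    (hα : ∀ lam a qs, ok lam a qs → ∀ n, α lam a n ≠ 0 → IsCoprime (u lam) n) {sf : BmX → ℝ}
    (hsf : ∀ (lam : Λ × Eis) (p : IX5 → ℝ) (X τ B H : ℝ) (N : ℕ) (a : BmX) (qs : List Pq)
      (cc : Fin 5) (i : ℕ) (b : Eis), 0 ≤ τ → Hyp9 π h c ok Fx β lam p X τ B H N a qs cc i b →
      17 / 100 * a.1.1.l - a.1.2.2 - Real.log (nm a.2.1) - 10 * (τ * Real.log X) ≤ sf a)
    (HL : LRLev π h e0 c ok α Fx β Par L0 (fun cL a qs i b => HmE (sf a) cL a qs i b) u) :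
    LRG π h e0 c ok α Fx β Par L0 (fun cL a qs i b => HmE (sf a) cL a qs i b) := by
  intro ε hε
  set η : ℝ := min (ε / 16) (1 / 10000) with hη
  have hη0 : 0 < η := lt_min (by positivity) (by norm_num)
  have hηε : η ≤ ε / 16 := min_le_left _ _
  have hη1 : η ≤ 1 / 10000 := min_le_right _ _
  obtain ⟨τ, hτ0, hτη, HL⟩ := HL η hη0
  refine ⟨τ, hτ0, fun lam N B hB => ?_⟩
  obtain ⟨M, a₀, A₀, HL⟩ := HL lam N B 2401 hB
  refine ⟨a₀, A₀, fun A₁ hA₁ cL hcL => ?_⟩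
  obtain ⟨X₁, hX₁, HL⟩ := HL cL hcL
  obtain ⟨Ct, hCt, htau⟩ := tau_le_rpow hη0
  have hη2 : 0 < 1 / η := by positivity
  have hη3 : 1 ≤ 1 / η := by rw [le_div_iff₀ hη0]; linarith
  have hη4 : 1 ≤ 2 / η := by rw [le_div_iff₀ hη0]; linarith
  set C₀ : ℝ := (2 + 1 / η) * (100 * (3 * (2 / η))) * (Ct * (100 * (3 * (2 / η)))) with hC₀
  have hC₀1 : 1 ≤ C₀ := by
    have a1 : 1 ≤ 2 + 1 / η := by linarith
    have a2 : 1 ≤ 100 * (3 * (2 / η)) := by linarith
    exact one_le_mul_of_one_le_of_one_le (one_le_mul_of_one_le_of_one_le a1 a2)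
      (one_le_mul_of_one_le_of_one_le hCt a2)
  obtain ⟨X₂, hX₂, HX₂⟩ := XSup271.exists_X hC₀1 hη0
  refine ⟨M, M, max X₁ (max X₂ (max (Real.exp (1000 * (Real.log cL + 20))) cL)),
    lt_of_lt_of_le hX₁ (le_max_left _ _), ?_⟩
  intro X hX H hH p hp a qs cc i b s Hy
  have hXX₁ : X₁ ≤ X := (le_max_left _ _).trans hX
  have hXX₂ : X₂ ≤ X := ((le_max_left _ _).trans (le_max_right _ _)).trans hX
  have hX34 : max (Real.exp (1000 * (Real.log cL + 20))) cL ≤ X :=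
    ((le_max_right _ _).trans (le_max_right _ _)).trans hX
  have hXe : Real.exp (1000 * (Real.log cL + 20)) ≤ X := (le_max_left _ _).trans hX34
  have hXc : cL ≤ X := (le_max_right _ _).trans hX34
  have hX1 : 1 < X := by linarith
  have hX0 : 0 < X := by linarith
  have F := Hy.fr
  have hL : 0 < Real.log X := F.L
  have hlc0 : 0 ≤ Real.log cL := Real.log_nonneg hcL
  have hLb : 1000 * (Real.log cL + 20) ≤ Real.log X := by
    rw [← Real.log_exp (1000 * (Real.log cL + 20))]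
    exact Real.log_le_log (Real.exp_pos _) hXe
  have hL8 : 8 ≤ Real.log X := by linarith
  have hgp := Hy.gp
  have hgs := Hy.gs
  have hbp : IsPrim b := isPrim_of_mem_dvs Hy.hb
  have hbg : b ∣ a.2.1 := dvd_of_mem_dvs Hy.hb
  have hbgm : b * (a.2.1 / b) = a.2.1 := EuclideanDomain.mul_div_cancel' hbp.ne_zero hbg
  have hcg : IsPrim (a.2.1 / b) := by
    have e2 : IsPrim (b * (a.2.1 / b)) := by rw [hbgm]; exact hgp
    exact e2.of_mul_left hbp
  have hcs : Squarefree (a.2.1 / b) := by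
    have e2 : Squarefree (b * (a.2.1 / b)) := by rw [hbgm]; exact hgs
    exact e2.of_mul_right
  have g1 : (1 : ℝ) ≤ nm a.2.1 := one_le_nmR hgp
  have b1 : (1 : ℝ) ≤ nm b := one_le_nmR hbp
  have nc : (1 : ℝ) ≤ nm (a.2.1 / b) := one_le_nmR hcg
  have hXM0 : 0 < XM a qs b := by
    unfold P1yX72.XM
    exact div_pos (Real.exp_pos _) (mul_pos (by linarith) (by linarith))
  have hE00 : 0 ≤ EM e0 a := by unfold P1yX72.EM; positivity
  -- sizes
  have hpar := F.par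
  obtain ⟨k1, k2⟩ := abs_le.1 F.l
  obtain ⟨z1, z2⟩ := abs_le.1 F.ζ
  have hτL : τ * Real.log X ≤ 1 / 10000 * Real.log X :=
    mul_le_mul_of_nonneg_right (by linarith) hL.le
  have hτL0 : 0 ≤ τ * Real.log X := by positivity
  have hκL : cκ (prX p) * Real.log X ≤ 1 * Real.log X :=
    mul_le_mul_of_nonneg_right hpar.κ1 hL.le
  have hκL0 : 8 / 9 * Real.log X ≤ cκ (prX p) * Real.log X :=
    mul_le_mul_of_nonneg_right hpar.κ0 hL.le
  have hxL : cx' (prX p) * Real.log X ≤ 1 / 3 * Real.log X :=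
    mul_le_mul_of_nonneg_right hpar.x1 hL.le
  have hV0 : 0 ≤ VM a i b := by
    unfold P1yX72.VM
    exact div_nonneg (Real.exp_pos _).le (by linarith)
  have hVX : VM a i b ≤ X ^ (3 : ℝ) := by
    have r5 := VM_le F hτ0.le (by linarith) hL8 Hy.hi
    have h3 : VM a i b ≤ Real.exp (Real.log 2 * (i + 1)) := by
      unfold P1yX72.VM Mm828.Vb
      exact div_le_self (Real.exp_pos _).le nc
    refine h3.trans ?_
    rw [Real.rpow_def_of_pos hX0]
    refine Real.exp_le_exp.2 (r5.trans (le_of_eq (mul_comm _ _)))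
  have hEX : EM e0 a ≤ X ^ (2 : ℝ) := by
    unfold P1yX72.EM
    rw [← Real.exp_add, Real.rpow_def_of_pos hX0]
    refine Real.exp_le_exp.2 ?_
    have h1 : e0 * a.1.1.l ≤ a.1.1.l := mul_le_of_le_one_left (by linarith) he1
    linarith
  have hE1 : 1 ≤ EM e0 a := by
    unfold P1yX72.EM
    rw [← Real.exp_add]
    refine Real.one_le_exp (add_nonneg (mul_nonneg he0 (by linarith)) F.ζ0)
  have hgX : (nm (a.2.1 / b) : ℝ) ≤ X := by
    have h0 : (nm (a.2.1 / b) : ℝ) ≤ nm a.2.1 := by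
      exact_mod_cast Div277.nm_le_of_dvd hgp.ne_zero ⟨b, by rw [mul_comm]; exact hbgm.symm⟩
    refine h0.trans ?_
    have ng : (0 : ℝ) < nm a.2.1 := by linarith
    rw [← Real.log_le_log_iff ng hX0]
    have h1 := F.g1
    have h2 := F.qs1
    linarith
  set Tt : ℝ := Real.exp (tgX (L0 (prX p)) X a qs) with hTt
  have hTt0 : 0 < Tt := Real.exp_pos _
  have hlev := HL X hXX₁ H hH p hp a qs cc i b s Hy
  have hW : ∀ k : ℕ, ∃ W : Bool → Eis → Eis → ℝ → ℝ, (∀ jj d e, Slp a₀ (W jj d e)) ∧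
      (k ∈ LI (1 / 10) (VM a i b) → (∀ A : ℕ, A₀ ≤ A → ∀ jj d e, IsPrim d → e ∈ S (EM e0 a) →
        ∀ γ φ, IsPrim γ → IsPrim φ → (nm φ : ℝ) ≤ X ^ (2401 : ℝ) → ∀ P : ℝ, 0 < P →
        (nm γ : ℝ) * n6 γ ^ 2 *
          ∑ r ∈ (bl P).filter (PoHx72.Cls (ROX744.PrU (u lam)) jj),
            R3571.RMm A (afM π h e0 α lam a qs cc b s e d) e γ φ r ≤ W jj d e P) ∧
      ∀ d e, IsPrim d → e ∈ S (EM e0 a) →
        (nm e : ℝ)⁻¹ * (FH (Real.exp a.1.1.l) (HmE (sf a) cL a qs i b k d e) (Real.exp k) *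
          RN2XF cL (Real.exp a.1.1.l) (Real.exp k) (XM a qs b) (HmE (sf a) cL a qs i b k) W
            d e) ≤
        (H * (1 + |s|)) ^ M * X ^ η * Tt *
          ((nm d : ℝ)⁻¹ * ((nm (lc (a.2.1 / b) e) : ℝ) / nm (a.2.1 / b))⁻¹)) := by
    intro k
    by_cases hk : k ∈ LI (1 / 10) (VM a i b)
    · obtain ⟨W, h1, h2, h3⟩ := hlev k hk
      exact ⟨W, h1, fun _ => ⟨h2, h3⟩⟩
    · exact ⟨fun _ _ _ _ => 0, fun _ _ _ => ⟨fun _ _ => le_rfl, fun _ _ _ _ => by simp,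
        fun _ _ => by simp⟩, fun hk' => absurd hk' hk⟩
  choose W0 hS hW0 using hW
  refine ⟨fun k d e => Hm_pos (Real.exp_pos _).le hcg (Real.exp_pos _) hXM0 (by linarith) k d e,
    hm_size hc Hy (hDh _ hp) hτ0.le (by linarith) hcL (by linarith)
      (hsf lam p X τ B H N a qs cc i b hτ0.le Hy),
    u lam, W0, hu lam a qs Hy.ok, hη' lam a qs Hy.ok, hα lam a qs Hy.ok, hS, ?_, ?_⟩
  · intro k hk jj ρ hρ γ φ hγ hφ hφm P hP
    unfold E3T829.RR at hρ
    rw [mem_product] at hρ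
    obtain ⟨x, hx, hx1⟩ := mem_image.1 hρ.1
    have hdp : IsPrim ρ.1 := by
      rw [← hx1]
      exact ((mem_JB (Real.sqrt_nonneg _)).1 hx).1
    refine (hW0 k hk).1 A₁ hA₁ jj ρ.1 ρ.2 hdp hρ.2 γ φ hγ hφ (hφm.trans ?_) P hP
    have e1 : X ^ (2401 : ℝ) = X * X ^ (2400 : ℝ) := by
      rw [show (2401 : ℝ) = 1 + 2400 by norm_num, Real.rpow_add hX0, Real.rpow_one]
    have e2 : (X ^ (8 : ℝ)) ^ 300 = X ^ (2400 : ℝ) := by
      rw [← Real.rpow_natCast, ← Real.rpow_mul hX0.le]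
      norm_num
    rw [e1, e2]
    exact mul_le_mul_of_nonneg_right hXc (Real.rpow_nonneg hX0.le _)
  · set Bd : ℝ := (H * (1 + |s|)) ^ M * X ^ η * Tt with hBd
    have hBd0 : 0 ≤ Bd := by positivity
    have hU0 : ∀ e : Eis, 0 ≤ ((nm (lc (a.2.1 / b) e) : ℝ) / nm (a.2.1 / b))⁻¹ := fun e => by
      positivity
    have hXη : 1 ≤ X ^ η := Real.one_le_rpow hX1.le hη0.le
    have hcard : ((LI (1 / 10) (VM a i b)).card : ℝ) ≤ (2 + 1 / η) * X ^ (3 * η) := by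
      have h1 := card_LI (1 / 10) (Z := X ^ (3 : ℝ)) (Real.one_le_rpow hX1.le (by norm_num)) hV0
        hVX hη0
      rwa [← Real.rpow_mul hX0.le] at h1
    have hlp := log_pow_le hη0 (by linarith) hX1.le
    have hsd : ∑ d ∈ DsM a i b, (nm d : ℝ)⁻¹ ≤ 100 * (3 * (2 / η)) * X ^ η := by
      unfold P1yX72.DsM
      have h0 := sum_JB hV0 hVX (Real.one_le_rpow hX1.le (by norm_num))
      refine (le_of_eq ?_).trans (h0.trans ?_)
      · congr
      rw [Real.log_rpow hX0]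
      have e1 : 100 * (3 * (2 / η)) * X ^ η = 100 * (3 * (2 / η * X ^ η)) := by ring
      rw [e1]
      linarith
    have hse : ∑ e ∈ S (EM e0 a), ((nm (lc (a.2.1 / b) e) : ℝ) / nm (a.2.1 / b))⁻¹ ≤
        Ct * (100 * (3 * (2 / η))) * X ^ (2 * η) := by
      refine (sum_U hcg hcs hE1).trans ?_
      have h1 : (tau (a.2.1 / b) : ℝ) ≤ Ct * X ^ η := by
        refine (htau _ hcg.ne_zero).trans (mul_le_mul_of_nonneg_left ?_ (by linarith))
        exact Real.rpow_le_rpow (Nat.cast_nonneg _) hgX hη0.le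
      have h2 : Real.log (EM e0 a) ≤ 2 * Real.log X := by
        have h3 := Real.log_le_log (by linarith) hEX
        rwa [Real.log_rpow hX0] at h3
      have h4 : 100 * (1 + Real.log (EM e0 a)) ≤ 100 * (3 * (2 / η)) * X ^ η := by
        have e1 : 100 * (3 * (2 / η)) * X ^ η = 100 * (3 * (2 / η * X ^ η)) := by ring
        rw [e1]
        linarith
      have h5 : 0 ≤ 100 * (1 + Real.log (EM e0 a)) := by
        have := Real.log_nonneg hE1
        linarith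
      calc (tau (a.2.1 / b) : ℝ) * (100 * (1 + Real.log (EM e0 a))) ≤
            (Ct * X ^ η) * (100 * (3 * (2 / η)) * X ^ η) :=
            mul_le_mul h1 h4 h5 (by positivity)
        _ = Ct * (100 * (3 * (2 / η))) * X ^ (2 * η) := by
            have e1 : X ^ (2 * η) = X ^ η * X ^ η := by
              rw [← Real.rpow_add hX0]
              congr 1
              ring
            rw [e1]
            ring
    have hmain : ∑ e ∈ S (EM e0 a), ∑ k ∈ LI (1 / 10) (VM a i b), ∑ d ∈ DsM a i b,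
          (nm e : ℝ)⁻¹ * (FH (Real.exp a.1.1.l) (HmE (sf a) cL a qs i b k d e) (Real.exp k) *
            RN2XF cL (Real.exp a.1.1.l) (Real.exp k) (XM a qs b) (HmE (sf a) cL a qs i b k)
              (W0 k) d e) ≤ (H * (1 + |s|)) ^ M * X ^ ε * Tt := by
      calc ∑ e ∈ S (EM e0 a), ∑ k ∈ LI (1 / 10) (VM a i b), ∑ d ∈ DsM a i b,
          (nm e : ℝ)⁻¹ * (FH (Real.exp a.1.1.l) (HmE (sf a) cL a qs i b k d e) (Real.exp k) *
            RN2XF cL (Real.exp a.1.1.l) (Real.exp k) (XM a qs b) (HmE (sf a) cL a qs i b k)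
              (W0 k) d e) ≤
          ∑ e ∈ S (EM e0 a), ∑ k ∈ LI (1 / 10) (VM a i b), ∑ d ∈ DsM a i b,
            Bd * ((nm d : ℝ)⁻¹ * ((nm (lc (a.2.1 / b) e) : ℝ) / nm (a.2.1 / b))⁻¹) := by
            refine sum_le_sum fun e he => sum_le_sum fun k hk => sum_le_sum fun d hd' => ?_
            unfold P1yX72.DsM at hd'
            obtain ⟨x, hx, rfl⟩ := mem_image.1 hd'
            exact (hW0 k hk).2 _ e ((mem_JB (Real.sqrt_nonneg _)).1 hx).1 he
        _ = Bd * (((LI (1 / 10) (VM a i b)).card : ℝ) *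
            (∑ d ∈ DsM a i b, (nm d : ℝ)⁻¹) *
            ∑ e ∈ S (EM e0 a), ((nm (lc (a.2.1 / b) e) : ℝ) / nm (a.2.1 / b))⁻¹) := by
            rw [mul_sum, mul_sum]
            refine sum_congr rfl fun e _ => ?_
            rw [sum_const, nsmul_eq_mul, ← mul_sum, ← sum_mul]
            ring
        _ ≤ Bd * (((2 + 1 / η) * X ^ (3 * η)) * (100 * (3 * (2 / η)) * X ^ η) *
            (Ct * (100 * (3 * (2 / η))) * X ^ (2 * η))) := by
            refine mul_le_mul_of_nonneg_left ?_ hBd0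
            refine mul_le_mul (mul_le_mul hcard hsd (sum_nonneg fun _ _ => by positivity)
              (by positivity)) hse (sum_nonneg fun e _ => hU0 e) (by positivity)
        _ = Bd * (C₀ * X ^ (6 * η)) := by
            have e1 : X ^ (6 * η) = X ^ (3 * η) * X ^ η * X ^ (2 * η) := by
              rw [← Real.rpow_add hX0, ← Real.rpow_add hX0]
              congr 1
              ring
            rw [e1, hC₀]
            ring
        _ ≤ Bd * (X ^ η * X ^ (6 * η)) := by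
            refine mul_le_mul_of_nonneg_left ?_ hBd0
            exact mul_le_mul_of_nonneg_right (HX₂ X hXX₂) (by positivity)
        _ = (H * (1 + |s|)) ^ M * X ^ (8 * η) * Tt := by
            have e1 : X ^ (8 * η) = X ^ η * (X ^ η * X ^ (6 * η)) := by
              rw [← Real.rpow_add hX0, ← Real.rpow_add hX0]
              congr 1
              ring
            rw [e1, hBd]
            ring
        _ ≤ _ := by
            refine mul_le_mul_of_nonneg_right (mul_le_mul_of_nonneg_left ?_ (by positivity))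
              hTt0.le
            exact Real.rpow_le_rpow_of_exponent_le hX1.le (by linarith)
    refine hmain.trans (le_of_eq ?_)
    unfold P1yX72.BdM
    rw [mul_pow, hTt]
    ring

/-- **the differences** -/
theorem lrg_D (he0 : 0 ≤ e0) (he1 : e0 ≤ 1) (hc : c ≤ 1 / 100) {dd : ℝ}
    (hDh : ∀ q ∈ Par, Dh (cκ q) (cu q 2) (cu q 3) (cu q 4) (cx' q) (dd * cκ q))
    {u : Λ × Eis → Eis} (hu : ∀ lam : Λ × Eis, lam.2 ≠ 0 → u lam = lam.2 * lam.2)
    (HL : LRLev π h e0 c (okX π) (αX π h) FrD β Par L0 HmD u) :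
    LRG π h e0 c (okX π) (αX π h) FrD β Par L0 HmD :=
  lrg_of_lev he0 he1 hc hDh
    (fun lam a qs ho => by rw [hu lam ho.1.2.1.1]; exact u_ne ho.1.2.1)
    (fun lam a qs ho n hn => by rw [hu lam ho.1.2.1.1]; exact cop_η hn)
    (fun lam a qs ho n hn => by rw [hu lam ho.1.2.1.1]; exact cop_αX hn)
    (sf := sX) (fun lam p X τ B H N a qs cc i b hτ Hy => by
      have hL := Hy.fr.L
      have : 0 ≤ τ * Real.log X := by positivity
      unfold HmX813.sX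
      linarith) HL

/-- **the single lists** -/
theorem lrg_S (he0 : 0 ≤ e0) (he1 : e0 ≤ 1) (hc : c ≤ 1 / 100) (hβ : 17 / 100 ≤ β) {dd : ℝ}
    (hDh : ∀ q ∈ Par, Dh (cκ q) (cu q 2) (cu q 3) (cu q 4) (cx' q) (dd * cκ q))
    {u : Λ × Eis → Eis} (hu : ∀ lam : Λ × Eis, lam.2 ≠ 0 → u lam = lam.2 * lam.2)
    (HL : LRLev π h e0 c (okS π) (αS π h) (FrS β) β Par L0 HmS u) :
    LRG π h e0 c (okS π) (αS π h) (FrS β) β Par L0 HmS :=
  lrg_of_lev he0 he1 hc hDh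
    (fun lam a qs ho => by rw [hu lam ho.2.1.1]; exact u_ne ho.2.1)
    (fun lam a qs ho n hn => by rw [hu lam ho.2.1.1]; exact cop_η hn)
    (fun lam a qs ho n hn => by rw [hu lam ho.2.1.1]; exact cop_αS hn)
    (sf := fun _ => 0) (fun lam p X τ B H N a qs cc i b hτ Hy => by
      have F := Hy.fr
      have hL := F.L
      have hτL : 0 ≤ τ * Real.log X := by positivity
      obtain ⟨l0, l1⟩ := abs_le.1 F.l
      obtain ⟨b0, b1⟩ := abs_le.1 F.b
      have hlost := Hy.fx.lost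
      have hκ0 : 0 ≤ cκ (prX p) * Real.log X := mul_nonneg (by linarith [F.par.κ0]) hL.le
      have h1 : 17 / 100 * (cκ (prX p) * Real.log X) ≤ β * cκ (prX p) * Real.log X := by
        rw [mul_assoc]
        exact mul_le_mul_of_nonneg_right hβ hκ0
      have h2 := F.g0
      linarith) HL

end

end Crest.Agent.R017.LRW524
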