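import Crest.Agent.R017.LMXc_813
import Crest.Agent.R017.LRW_524

/-!
# Row 17, P1, class E, mismatch: the `R`-half of the differences (helper813), part 4

* **`lrx_D`** : helper72's `LRG` at the differences
-/

set_option autoImplicit false
set_option linter.unusedVariables false

noncomputable section

open Finset

namespace Crest.Agent.R017.LMX813

open Crest.Agent.R012 Crest.Agent.R012.Eis
open Crest.Agent.R012.T411 (NCube)
open Crest.Agent.R017.FE47 (PU SM)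
open Crest.Agent.R017.Prov71
open Crest.Agent.R017.B770
open Crest.Agent.R017.Sup271 (NPm)
open Crest.Agent.R017.E5B71 Crest.Agent.R017.E5P571 Crest.Agent.R017.E5L770
open Crest.Agent.R017.ExBox960 Crest.Agent.R017.ExP960
open Crest.Agent.R017.P1X960 Crest.Agent.R017.P1MU960
open Crest.Agent.R017.RM986 (Plain)
open Crest.Agent.R017.RnP571 (Dh EN)
open Crest.Agent.R017.P1Q904 (LQ)
open Crest.Agent.R017.P1yX72
open Crest.Agent.R017.HmX813

section

variable {Λ : Type*} {π : Λ → DPar} {h : ℝ → ℝ}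

/-- **the `R`-half of the differences** -/
theorem lrx_D {c₀ : ℝ} (hpu : PU h c₀) (hP : ∀ lam, (π lam).OK)
    (hnp : ∀ lam, ¬ NPm (π lam).n (π lam).ψ (π lam).l₂ 1) {dd : ℝ}
    (PL : Plain (fun _ k => NCube k) π h ((8 : ℝ) + 2) (EN dd)) {c β : ℝ} (hc0 : 0 ≤ c)
    (hc : c ≤ 1 / 168) (hβ : 17 / 100 ≤ β) (hβ1 : β ≤ 6 / 25) {Par : Set (Fin 3 ⊕ Fin 5 → ℝ)}
    (hDh : ∀ p ∈ Par, Dh (cκ p) (cu p 2) (cu p 3) (cu p 4) (cx' p) (dd * cκ p))
    {e0 : ℝ} (he0 : 0 ≤ e0) (he1 : e0 ≤ 1 / 64) {L0 : (Fin 3 ⊕ Fin 5 → ℝ) → ℝ}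
    (hL0 : ∀ p ∈ Par, LQ (cN p) (cκ p) (dd * cκ p) ≤ L0 p) :
    LRG π h e0 c (okX π) (αX π h) FrD β Par L0 HmD :=
  LRW524.lrg_D he0 (by linarith) (by linarith) hDh (u := uT) (fun lam h0 => uT_eq h0)
    (fun ε hε => lmx_level hpu hP hnp PL hc0 hc hβ hβ1 hDh he0 he1 hL0 hε)

end

end Crest.Agent.R017.LMX813
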