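import Crest.Agent.R017.R4b_571
import Crest.Agent.R017.E4o_164
import Crest.Agent.R012.CR2b_180

/-!
# Row 17, E3: the two-slope function and (RH) for all `P` (helper571)

* `W2`, `slp_two` : the two-slope function is `Slp`
* `RMm_triv` : the trivial bound of `RMm`
* `RH_gen`  : (RH) for all `P` from the moments up to `P2` with slope `1/3`
-/

set_option autoImplicit false
set_option maxHeartbeats 400000

noncomputable section

open Complex MeasureTheory
open scoped ComplexConjugate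

namespace Crest.Agent.R017.R3571

open Crest.Agent.R012 Crest.Agent.R012.Eis Crest.Agent.R012.MC
open Crest.Agent.R012.LS2 (S mem_S bl mem_bl)
open Crest.Agent.R012.Weight600 (pw norm_pw pw_add_left)
open Crest.Agent.R017.CM106 (CS TG FS)
open Crest.Agent.R017.FE47
open Crest.Agent.R017.B770
open Crest.Agent.R017.Prov71
open Crest.Agent.R017.HP842 (sqc)
open Crest.Agent.R017.TP320 (tw)
open Crest.Agent.R017.XHB411 (tl)
open Crest.Agent.R017.XRG106 (Rl RFp)
open Crest.Agent.R017.NtC320 (gC gC_ne gC_fin cg cB cg_prim cB_prim gp_cg gp_cB cB_dvd cg_dvd cop)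
open Crest.Agent.R017.StA828 (gp)
open Crest.Agent.R017.E1551 (jb jb_pos)
open Crest.Agent.R017.PX764 (n6)
open Crest.Agent.R017.E3D579 (n6_nonneg)
open Crest.Agent.R017.Leg381 (Pf alF LF alF_get LF_get)
open Crest.Agent.R017.Win813 (WK wn iA iA_nonneg)
open Crest.Agent.R017.RGw813 (bt)
open Crest.Agent.R017.Mode405 (Slp)

/-- the two-slope function: slope `1/3` below `P1`, slope `a` above -/
def W2 (a : ℕ) (P1 W1 P : ℝ) : ℝ :=
  if P ≤ P1 then (P / P1) ^ (1 / 3 : ℝ) * W1 else (P / P1) ^ a * W1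

lemma W2_at (a : ℕ) {P1 : ℝ} (hP1 : 0 < P1) (W1 : ℝ) : W2 a P1 W1 P1 = W1 := by
  unfold W2
  rw [if_pos le_rfl, div_self hP1.ne', Real.one_rpow, one_mul]

/-- **the two-slope function has slopes in `[1/3, a]`** -/
theorem slp_two {a : ℕ} (ha : 1 ≤ a) {P1 W1 : ℝ} (hP1 : 0 < P1) (hW1 : 0 ≤ W1) :
    Slp a (W2 a P1 W1) where
  nonneg P hP := by
    unfold W2
    split_ifs <;> positivity
  low P' P hP' h := by
    have hP : 0 < P := hP'.trans_le h
    have hq : P' / P ≤ 1 := (div_le_one hP).2 h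
    have hq0 : 0 < P' / P := by positivity
    have h3 : (P' / P) ^ a ≤ (P' / P) ^ (1 / 3 : ℝ) := by
      rw [← Real.rpow_natCast]
      refine Real.rpow_le_rpow_of_exponent_ge hq0 hq ?_
      have : (1 : ℝ) ≤ a := by exact_mod_cast ha
      linarith
    unfold W2
    by_cases h1 : P ≤ P1
    · have h2 : P' ≤ P1 := h.trans h1
      rw [if_pos h1, if_pos h2, ← mul_assoc, ← Real.mul_rpow (by positivity) (by positivity)]
      refine le_of_eq ?_
      congr 2
      field_simp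
    · rw [if_neg h1]
      push Not at h1
      have hr : 1 ≤ P / P1 := (one_le_div hP1).2 h1.le
      by_cases h2 : P' ≤ P1
      · rw [if_pos h2, ← mul_assoc]
        refine mul_le_mul_of_nonneg_right ?_ hW1
        have h4 : (P' / P1) ^ (1 / 3 : ℝ) = (P' / P) ^ (1 / 3 : ℝ) * (P / P1) ^ (1 / 3 : ℝ) := by
          rw [← Real.mul_rpow (by positivity) (by positivity)]
          congr 1; field_simp
        rw [h4]
        refine mul_le_mul_of_nonneg_left ?_ (by positivity)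
        rw [← Real.rpow_natCast]
        refine Real.rpow_le_rpow_of_exponent_le hr ?_
        have : (1 : ℝ) ≤ a := by exact_mod_cast ha
        linarith
      · rw [if_neg h2, ← mul_assoc]
        refine mul_le_mul_of_nonneg_right ?_ hW1
        have h4 : (P' / P1) ^ a = (P' / P) ^ a * (P / P1) ^ a := by
          rw [← mul_pow]; congr 1; field_simp
        rw [h4]
        exact mul_le_mul_of_nonneg_right h3 (by positivity)
  dbl P hP := by
    have ha0 : a ≠ 0 := by omega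
    unfold W2
    by_cases h1 : 2 * P ≤ P1
    · have h2 : P ≤ P1 := by linarith
      rw [if_pos h1, if_pos h2, ← mul_assoc]
      refine mul_le_mul_of_nonneg_right ?_ hW1
      have h4 : (2 * P / P1) ^ (1 / 3 : ℝ) = 2 ^ (1 / 3 : ℝ) * (P / P1) ^ (1 / 3 : ℝ) := by
        rw [← Real.mul_rpow (by norm_num) (by positivity)]
        congr 1; ring
      rw [h4]
      refine mul_le_mul_of_nonneg_right ?_ (by positivity)
      rw [← Real.rpow_natCast]
      refine Real.rpow_le_rpow_of_exponent_le (by norm_num) ?_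
      have : (1 : ℝ) ≤ a := by exact_mod_cast ha
      linarith
    · rw [if_neg h1]
      have h4 : (2 * P / P1) ^ a = 2 ^ a * (P / P1) ^ a := by
        rw [← mul_pow]; congr 1; ring
      rw [h4]
      by_cases h2 : P ≤ P1
      · rw [if_pos h2, mul_assoc]
        refine mul_le_mul_of_nonneg_left (mul_le_mul_of_nonneg_right ?_ hW1) (by positivity)
        rw [← Real.rpow_natCast]
        refine Real.rpow_le_rpow_of_exponent_ge (by positivity) ((div_le_one hP1).2 h2) ?_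
        have : (1 : ℝ) ≤ a := by exact_mod_cast ha
        linarith
      · rw [if_neg h2, mul_assoc]

/-- **the trivial bound of `RMm`** -/
lemma RMm_triv {A : ℝ} (hA : 2 ≤ A) {α : Eis → ℂ} (hα : FS α) {d γ : Eis} (hd : IsPrim d)
    (hγ : IsPrim γ) {Y G : ℝ} (hY : ∀ m, α m ≠ 0 → m ∈ S Y) (hG : ∑ n ∈ S Y, ‖α n‖ ≤ G)
    (e π r : Eis) : RMm A (fun m => α (d * m)) e γ π r ≤ G ^ 2 * jc := by
  classical
  have hFS : FS (fun m => α (d * m)) :=
    { fin := hα.fin.preimage (f := fun m => d * m) (fun x _ y _ hxy =>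
        mul_left_cancel₀ hd.ne_zero hxy)
      prim := fun m hm => IsPrim.of_mul_left (hα.prim _ hm) hd }
  have hG0 : 0 ≤ G := (Finset.sum_nonneg fun _ _ => norm_nonneg _).trans hG
  have hb : ∀ t, ‖CS (rm (fun m => α (d * m)) e γ π t) r‖ ≤ G := by
    intro t
    have hne : ∀ m, rm (fun m => α (d * m)) e γ π t m ≠ 0 → α (d * (γ * m)) ≠ 0 := by
      intro m hm h0
      apply hm
      unfold rm
      beta_reduce
      rw [h0]; simp
    have hFr : FS (rm (fun m => α (d * m)) e γ π t) :=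
      { fin := by
          refine (hα.fin.preimage (f := fun m => d * (γ * m)) (fun x _ y _ hxy => ?_)).subset
            fun m hm => hne m hm
          exact mul_left_cancel₀ hγ.ne_zero (mul_left_cancel₀ hd.ne_zero hxy)
        prim := fun m hm => IsPrim.of_mul_left (IsPrim.of_mul_left (hα.prim _ (hne m hm)) hd) hγ }
    have h1 := Crest.Agent.R017.E4K164.norm_CS_le' hFr r
    refine h1.trans (le_trans ?_ hG)
    have hinj : Set.InjOn (fun m => d * (γ * m)) (hFr.fin.toFinset : Set Eis) :=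
      fun x _ y _ hxy => mul_left_cancel₀ hγ.ne_zero (mul_left_cancel₀ hd.ne_zero hxy)
    have h2 : ∑ l ∈ hFr.fin.toFinset, ‖rm (fun m => α (d * m)) e γ π t l‖ ≤
        ∑ l ∈ hFr.fin.toFinset, ‖α (d * (γ * l))‖ := by
      refine Finset.sum_le_sum fun m hm => ?_
      have hm' := (Set.Finite.mem_toFinset _).1 hm
      have hm0 := (hFr.prim m hm').ne_zero
      unfold rm
      beta_reduce
      rw [norm_mul, norm_pw, mul_one]
      split_ifs
      · rw [norm_mul]
        have h3 : ‖((n6 m : ℝ) : ℂ)‖ ≤ 1 := by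
          rw [Complex.norm_real, Real.norm_eq_abs, abs_of_nonneg (n6_nonneg m)]
          exact PX764.n6_le_one hm0
        exact mul_le_of_le_one_right (norm_nonneg _) h3
      · rw [norm_zero]; exact norm_nonneg _
    refine h2.trans ?_
    rw [← Finset.sum_image (f := fun n => ‖α n‖) (s := hFr.fin.toFinset)
      (g := fun m => d * (γ * m)) hinj]
    refine Finset.sum_le_sum_of_subset_of_nonneg (fun n hn => ?_) fun _ _ _ => norm_nonneg _
    obtain ⟨m, hm, rfl⟩ := Finset.mem_image.1 hn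
    exact hY _ (hne m ((Set.Finite.mem_toFinset _).1 hm))
  rw [RMm_eq]
  unfold jc
  rw [← integral_const_mul]
  refine integral_mono (integrable_RM (by linarith) hFS hγ.ne_zero e π r)
    ((E1551.integrable_jb (by norm_num)).const_mul _) fun t => ?_
  beta_reduce
  have ht1 : (1 : ℝ) ≤ 1 + |t| := by linarith [abs_nonneg t]
  have h3 : jb A t ≤ jb 2 t := by
    unfold E1551.jb
    exact Real.rpow_le_rpow_of_exponent_le ht1 (by linarith)
  calc jb A t * ‖CS (rm (fun m => α (d * m)) e γ π t) r‖ ^ 2 ≤ jb 2 t * G ^ 2 := by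
        refine mul_le_mul h3 (pow_le_pow_left₀ (norm_nonneg _) (hb t) 2) (by positivity)
          (jb_pos 2 t).le
    _ = G ^ 2 * jb 2 t := by ring

/-- **(RH) for all `P`** from the moments up to `P2` -/
theorem RH_gen {A : ℝ} {J : ℕ} (hA : (J : ℝ) + 2 ≤ A) {α : Eis → ℂ} (hα : FS α) {d e f : Eis}
    (hd : IsPrim d) (he : IsPrim e) {Y G E Xπ : ℝ} (hY0 : 0 ≤ Y)
    (hY : ∀ m, α m ≠ 0 → m ∈ S Y)
    (hG : ∑ n ∈ S Y, ‖α n‖ ≤ G) (hE : 0 < E) {P1 P2 B : ℝ} {a : ℕ} (ha : 1 ≤ a) (hP1 : 0 < P1)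
    (hP12 : P1 ≤ P2) (hB : 0 ≤ B)
    (hmom : ∀ γ π : Eis, IsPrim γ → IsPrim π → (nm γ : ℝ) ≤ Y → (nm π : ℝ) ≤ Xπ →
      ∀ Λ : ℝ, 1 ≤ Λ → Λ ≤ P2 → ∀ t : ℝ,
      ∑ k ∈ bl Λ, ‖CS (gC α (d * γ) (cB γ e) π (tw (1 / 6) t)) (k * f)‖ ^ 2 ≤
        (Λ / P2) ^ (1 / 3 : ℝ) * B * (1 + |t|) ^ J * ((E / (nm d * nm γ)) ^ (-(2 * (1 / 6 : ℝ))) *
          (E / (nm d * nm γ * nm (cB γ e)))))
    (htr : 16 * (Y * G ^ 2) * P1 ≤ (P2 / P1) ^ (a - 1) * (B * (E / nm d) ^ (2 / 3 : ℝ)))
    {γ π : Eis} (hγ : IsPrim γ) (hπ : IsPrim π) (hπX : (nm π : ℝ) ≤ Xπ) {Λ : ℝ} (hΛ : 0 < Λ) :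
    (nm γ : ℝ) * n6 γ ^ 2 * ∑ k ∈ bl Λ, RMm A (fun m => α (d * m)) e γ π (k * f) ≤
      W2 a P1 (jc * (B * (E / nm d) ^ (2 / 3 : ℝ))) Λ := by
  have hjc := jc_nonneg
  have hJ0 : (0 : ℝ) ≤ J := Nat.cast_nonneg J
  have hd0 := nm_cast_pos hd.ne_zero
  have hγ0 := nm_cast_pos hγ.ne_zero
  have hγ1 := one_le_nm hγ.ne_zero
  have hn6 := n6_nonneg γ
  have hW1 : 0 ≤ jc * (B * (E / nm d) ^ (2 / 3 : ℝ)) := by positivity
  have hWn := (slp_two ha hP1 hW1).nonneg Λ hΛ
  have hP2 : 0 < P2 := by linarith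
  by_cases hγY : (nm γ : ℝ) ≤ Y
  swap
  · have hz0 : ∀ m, (fun m => α (d * m)) (γ * m) = 0 := by
      intro m
      by_contra h0
      have h2 := (hα.prim _ h0).ne_zero
      apply hγY
      have h3 := hY _ h0
      refine le_trans ?_ ((mem_S hY0).1 h3).1
      exact_mod_cast Div277.nm_le_of_dvd h2 ⟨d * m, by ring⟩
    rw [Finset.sum_eq_zero fun k _ => RMm_zero hz0, mul_zero]
    exact hWn
  by_cases hΛ1 : 1 ≤ Λ
  swap
  · push Not at hΛ1
    have h1 : bl Λ = ∅ := by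
      refine Finset.eq_empty_of_forall_notMem fun k hk => ?_
      rw [mem_bl hΛ.le] at hk
      have := one_le_nm hk.1
      linarith
    rw [h1, Finset.sum_empty, mul_zero]
    exact hWn
  by_cases hΛ2 : Λ ≤ P2
  · have h1 := RM_sum hA hα hd hγ he π (bl Λ) (fun k => k * f)
      (M := (Λ / P2) ^ (1 / 3 : ℝ) * B * ((E / (nm d * nm γ)) ^ (-(2 * (1 / 6 : ℝ))) *
          (E / (nm d * nm γ * nm (cB γ e))))) (fun t => by
        refine (hmom γ π hγ hπ hγY hπX Λ hΛ1 hΛ2 t).trans (le_of_eq ?_); ring)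
    have hcB1 := one_le_nm (cB_prim (g := γ) he).ne_zero
    have hw := wt_le (E := E) hE hd0 hγ0 hcB1
      (show n6 γ = (nm γ : ℝ) ^ (-(1 / 6 : ℝ)) by unfold PX764.n6; congr 1; norm_num)
    have h2 : (nm γ : ℝ) * n6 γ ^ 2 * ∑ k ∈ bl Λ, RMm A (fun m => α (d * m)) e γ π (k * f) ≤
        (Λ / P2) ^ (1 / 3 : ℝ) * (jc * (B * (E / nm d) ^ (2 / 3 : ℝ))) := by
      calc (nm γ : ℝ) * n6 γ ^ 2 * ∑ k ∈ bl Λ, RMm A (fun m => α (d * m)) e γ π (k * f)
          ≤ (nm γ : ℝ) * n6 γ ^ 2 * ((Λ / P2) ^ (1 / 3 : ℝ) * B *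
            ((E / (nm d * nm γ)) ^ (-(2 * (1 / 6 : ℝ))) *
              (E / (nm d * nm γ * nm (cB γ e)))) * jc) :=
            mul_le_mul_of_nonneg_left h1 (by positivity)
        _ = (Λ / P2) ^ (1 / 3 : ℝ) * jc * B * ((nm γ : ℝ) * n6 γ ^ 2 *
            ((E / (nm d * nm γ)) ^ (-(2 * (1 / 6 : ℝ))) *
              (E / (nm d * nm γ * nm (cB γ e))))) := by ring
        _ ≤ (Λ / P2) ^ (1 / 3 : ℝ) * jc * B * (E / nm d) ^ (2 / 3 : ℝ) := by gcongr
        _ = _ := by ring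
    refine h2.trans ?_
    unfold W2
    split_ifs with h3
    · refine mul_le_mul_of_nonneg_right ?_ hW1
      gcongr
    · push Not at h3
      refine mul_le_mul_of_nonneg_right ?_ hW1
      calc (Λ / P2) ^ (1 / 3 : ℝ) ≤ 1 :=
            Real.rpow_le_one (by positivity) ((div_le_one hP2).2 hΛ2) (by norm_num)
        _ ≤ (Λ / P1) ^ a := one_le_pow₀ ((one_le_div hP1).2 h3.le)
  · push Not at hΛ2
    have h3 : P1 < Λ := by linarith
    unfold W2
    rw [if_neg (by linarith)]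
    have h4 : ∑ k ∈ bl Λ, RMm A (fun m => α (d * m)) e γ π (k * f) ≤ 16 * Λ * (G ^ 2 * jc) := by
      calc ∑ k ∈ bl Λ, RMm A (fun m => α (d * m)) e γ π (k * f) ≤
            ∑ _k ∈ bl Λ, G ^ 2 * jc := Finset.sum_le_sum fun k _ =>
              RMm_triv (by linarith) hα hd hγ hY hG e π (k * f)
        _ = (bl Λ).card * (G ^ 2 * jc) := by rw [Finset.sum_const, nsmul_eq_mul]
        _ ≤ 16 * Λ * (G ^ 2 * jc) := by
            gcongr
            exact CR2.card_bl_le hΛ.le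
    have h5 : (nm γ : ℝ) * n6 γ ^ 2 ≤ Y := by
      have := PX764.n6_le_one hγ.ne_zero
      calc (nm γ : ℝ) * n6 γ ^ 2 ≤ nm γ * 1 := by gcongr; exact pow_le_one₀ hn6 this
        _ ≤ Y := by linarith
    have hr : 1 ≤ P2 / P1 := (one_le_div hP1).2 hP12
    have h6 : (P2 / P1) ^ (a - 1) ≤ (Λ / P1) ^ (a - 1) := by gcongr
    have h7 : (Λ / P1) ^ a = (Λ / P1) ^ (a - 1) * (Λ / P1) := by
      rw [← pow_succ]; congr 1; omega
    calc (nm γ : ℝ) * n6 γ ^ 2 * ∑ k ∈ bl Λ, RMm A (fun m => α (d * m)) e γ π (k * f)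
        ≤ Y * (16 * Λ * (G ^ 2 * jc)) := by
          refine mul_le_mul h5 h4 ?_ (by linarith)
          exact Finset.sum_nonneg fun _ _ => RMm_nonneg _ _ _ _ _ _
      _ = jc * (16 * (Y * G ^ 2) * P1) * (Λ / P1) := by field_simp
      _ ≤ jc * ((P2 / P1) ^ (a - 1) * (B * (E / nm d) ^ (2 / 3 : ℝ))) * (Λ / P1) := by gcongr
      _ ≤ jc * ((Λ / P1) ^ (a - 1) * (B * (E / nm d) ^ (2 / 3 : ℝ))) * (Λ / P1) := by gcongr
      _ = _ := by rw [h7]; ring

end Crest.Agent.R017.R3571
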