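import Crest.Agent.R017.HmX_813
import Crest.Agent.R017.R4c_571
import Crest.Agent.R017.RnPa_571

/-!
# Row 17, exceptional class, mismatch: the `R`-half of the single lists (helper65)

The three lumps of a single list lost at least `17/100 κ`: the structured part of every pair of
levels is empty (`Ld < 1`), the `R`-number vanishes and the trivial bound of (RH) is enough.

* `I5_hi` : the levels of the classes;  `fr_realX` : the frame in units of `log X`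
* `rh_crude`, `slp_lin` : the trivial bound of (RH)
* `emp_S` : the real line;  **`lrs_of`** : helper72's `LRG` for the single lists
-/

set_option autoImplicit false
set_option linter.unusedVariables false

noncomputable section

open Finset

namespace Crest.Agent.R017.LRS65

open Crest.Agent.R012 Crest.Agent.R012.Eis
open Crest.Agent.R012.Div277 (tau dvs mem_dvs isPrim_of_mem_dvs dvd_of_mem_dvs)
open Crest.Agent.R012.LS2 (S mem_S bl mem_bl)
open Crest.Agent.R017.CM106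
open Crest.Agent.R017.FE47 (PU SM cx)
open Crest.Agent.R017.Prov71
open Crest.Agent.R017.B770
open Crest.Agent.R017.HP842 (Pc pc sqc al alL)
open Crest.Agent.R017.E5B71 Crest.Agent.R017.E5L770
open Crest.Agent.R017.I1146 (LN)
open Crest.Agent.R017.P1u54
open Crest.Agent.R017.P1l54 (ParOK oN Pt_OK)
open Crest.Agent.R017.P1v54 (ηC supp_list FS_list)
open Crest.Agent.R017.Sf770 (nO)
open Crest.Agent.R017.StG828 (JB mem_JB)
open Crest.Agent.R017.StB828 (one_le_nmR)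
open Crest.Agent.R017.StJ319 (I5 I5_sub Ilo Ihi afrb gt5 q5)
open Crest.Agent.R017.StG828 (I1z I2z)
open Crest.Agent.R017.R3571 (RMm RMm_nonneg RMm_eq rm RMm_triv jc jc_nonneg)
open Crest.Agent.R017.Mode405 (Slp)
open Crest.Agent.R017.PX764 (n6)
open Crest.Agent.R017.E3D579 (n6_nonneg)
open Crest.Agent.R017.E3Z548 (FH)
open Crest.Agent.R017.E3Sz579 (Ld)
open Crest.Agent.R017.E3Hi290 (RN2XF)
open Crest.Agent.R017.E3Kc548 (LI mem_LI)
open Crest.Agent.R017.E3T829 (RR)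
open Crest.Agent.R017.E3Xa72 (RHRx)
open Crest.Agent.R017.DgA829 (lc lc_prim lc_dvd)
open Crest.Agent.R017.Mm828 (Hm Hm_pos Hm_le lc_ratio lc_pos Vb rok_afrb)
open Crest.Agent.R017.RnP571 (Dh)
open Crest.Agent.R017.ExBox960 Crest.Agent.R017.ExP960
open Crest.Agent.R017.P1X960
open Crest.Agent.R017.P1MU960
open Crest.Agent.R017.P1yX72
open Crest.Agent.R017.HmX813

/-- the levels of the classes -/
lemma I5_hi {g : Eis} {M n : ℕ} {ζ : ℝ} {c : Fin 5} {i : ℕ}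
    (hi : i ∈ I5 g M n (Real.exp ζ) c) :
    Real.log 2 * i ≤ Real.log 2 * n + 2 * ζ - Real.log (nm g) + 3 * Real.log 2 := by
  classical
  have h1 : ∀ j, j ∈ I1z g M n (Real.exp ζ) →
      Real.log 2 * j ≤ Real.log 2 * n + 2 * ζ - Real.log (nm g) + 3 * Real.log 2 := by
    intro j hj
    unfold StG828.I1z at hj
    have h := (mem_filter.1 hj).2.2
    rwa [Real.log_exp] at h
  have h2 : ∀ j, j ∈ I2z g M n (Real.exp ζ) →
      Real.log 2 * j ≤ Real.log 2 * n + 2 * ζ - Real.log (nm g) + 3 * Real.log 2 := by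
    intro j hj
    unfold StG828.I2z at hj
    have h := (mem_filter.1 hj).2
    rwa [Real.log_exp] at h
  have h3 : ∀ j, j ∈ Ilo g M n (Real.exp ζ) →
      Real.log 2 * j ≤ Real.log 2 * n + 2 * ζ - Real.log (nm g) + 3 * Real.log 2 := by
    intro j hj
    unfold StJ319.Ilo at hj
    exact h1 j (mem_filter.1 hj).1
  have h4 : ∀ j, j ∈ Ihi g M n (Real.exp ζ) →
      Real.log 2 * j ≤ Real.log 2 * n + 2 * ζ - Real.log (nm g) + 3 * Real.log 2 := by
    intro j hj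
    unfold StJ319.Ihi at hj
    exact h1 j (mem_filter.1 hj).1
  fin_cases c
  · exact h3 i hi
  · exact h3 i hi
  · exact h4 i hi
  · exact h4 i hi
  · exact h2 i hi

set_option maxHeartbeats 1600000 in
/-- the frame in units of `log X` -/
lemma fr_realX {c β : ℝ} {p : IX5 → ℝ} {X τ B H : ℝ} {N : ℕ} {a : BmX} {qs : List Pq}
    (F : Fr9X c β p X τ B H N a qs) (hτ0 : 0 ≤ τ) {t : ℝ} (ht : 40 * τ ≤ t)
    (hL8 : 8 ≤ t * Real.log X) (hc0 : 0 ≤ c) (hc1 : c ≤ 1) {cl5 : Fin 5} {i : ℕ}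
    (hi : i ∈ I5 a.2.1 (nM (nO a.1.1.toBd) a.2.2) (nW c a.1.1.toBd a.1.2.2) (Real.exp a.2.2) cl5)
    {k' P v ℓ q γ : ℝ} (hk : k' * Real.log X = a.1.1.l) (hP : P * Real.log X = PX a qs)
    (hv : v * Real.log X = Real.log 2 * (i + 1)) (hℓ : ℓ * Real.log X = a.1.2.2)
    (hq : q * Real.log X = LN qs) (hγ : γ * Real.log X = Real.log (nm a.2.1)) :
    |k' - cκ (prX p)| ≤ t ∧
    cκ (prX p) / 2 - 2 * cx' (prX p) - t ≤ P ∧
    P ≤ cu (prX p) 2 + cu (prX p) 3 + cu (prX p) 4 + cx' (prX p) + t ∧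
    P ≤ cu (prX p) 2 + cu (prX p) 3 + cu (prX p) 4 - ℓ + q - 2 * γ + t ∧
    v ≤ 2 * (cu (prX p) 2 + cu (prX p) 3 + cu (prX p) 4) - cκ (prX p) + 21 / 5 * cx' (prX p) + t ∧
    v ≤ 3 / 4 * (cu (prX p) 2 + cu (prX p) 3 + cu (prX p) 4) + 21 / 5 * cx' (prX p) + t ∧
    v ≤ 2 * (cu (prX p) 2 + cu (prX p) 3 + cu (prX p) 4) - cκ (prX p) + 21 / 5 * cx' (prX p) +
      2 * c * cκ (prX p) - 2 * ℓ - γ + t ∧
    v ≤ 3 / 4 * (cu (prX p) 2 + cu (prX p) 3 + cu (prX p) 4) + 21 / 5 * cx' (prX p) +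
      2 * c * cκ (prX p) - 2 * ℓ - γ + t ∧
    q ≤ cx' (prX p) + t ∧ γ ≤ q + t ∧ 0 ≤ γ ∧ 0 ≤ ℓ := by
  have hL := F.L
  have dv : ∀ {x y : ℝ}, x * Real.log X ≤ y * Real.log X → x ≤ y := fun h =>
    le_of_mul_le_mul_right h hL
  have hg0 := F.g0
  have hN : cN (prX p) = cu (prX p) 2 + cu (prX p) 3 + cu (prX p) 4 := rfl
  have hτL : 40 * (τ * Real.log X) ≤ t * Real.log X := by
    have := mul_le_mul_of_nonneg_right ht hL.le
    linarith
  have hτL0 : 0 ≤ τ * Real.log X := by positivity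
  obtain ⟨k1, k2⟩ := abs_le.1 F.l
  obtain ⟨A1, A2⟩ := abs_le.1 F.A
  obtain ⟨ζ1, ζ2⟩ := abs_le.1 F.ζ
  obtain ⟨w1, w2⟩ := abs_le.1 F.z
  obtain ⟨b1, b2⟩ := abs_le.1 F.b
  have hb0 := F.b0
  have hpar := F.par
  have hl2 : 0 < Real.log 2 := Real.log_pos (by norm_num)
  have hl21 : Real.log 2 ≤ 1 := by
    have := Real.log_two_lt_d9
    linarith
  have hi1 := I5_hi hi
  have hW := F.w1
  have hB1 := F.b1
  have hqs1 := F.qs1
  have hg1 := F.g1
  have hlo := F.lo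
  have hup := F.up
  have hcl := F.cl
  have hN0 := hpar.N0
  have hx0 := hpar.x0
  have hκ0 := hpar.κ0
  unfold HmX813.PX at hP
  rw [hN] at A1 A2 hup hN0
  have htop : top5 (prX p) = min (2 * cN (prX p) - cκ (prX p)) (3 / 4 * cN (prX p)) +
    11 / 5 * cx' (prX p) := rfl
  rw [hN] at htop
  set S3 := cu (prX p) 2 + cu (prX p) 3 + cu (prX p) 4 with hS3
  set κ := cκ (prX p) with hκ
  set x := cx' (prX p) with hx
  set L := Real.log X with hLd
  have hxL : 0 ≤ x * L := mul_nonneg hx0 hL.le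
  have hκL : 0 ≤ κ * L := mul_nonneg (by linarith) hL.le
  have hNL : 3 / 5 * κ * L ≤ S3 * L := mul_le_mul_of_nonneg_right hN0 hL.le
  have hcκ : 0 ≤ c * (κ * L) := mul_nonneg hc0 hκL
  have hcl' : c * a.1.1.l ≤ c * (κ * L) + τ * L := by
    have h1 : c * a.1.1.l ≤ c * (κ * L + τ * L) := mul_le_mul_of_nonneg_left (by linarith) hc0
    have h2 : c * (τ * L) ≤ 1 * (τ * L) := mul_le_mul_of_nonneg_right hc1 hτL0
    have h3 : c * (κ * L + τ * L) = c * (κ * L) + c * (τ * L) := by ring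
    linarith
  have htL1 : top5 (prX p) * L ≤ 2 * (S3 * L) - κ * L + 11 / 5 * (x * L) := by
    have h1 : top5 (prX p) ≤ 2 * S3 - κ + 11 / 5 * x := by
      rw [htop]
      linarith [min_le_left (2 * S3 - κ) (3 / 4 * S3)]
    have h2 := mul_le_mul_of_nonneg_right h1 hL.le
    have h3 : (2 * S3 - κ + 11 / 5 * x) * L = 2 * (S3 * L) - κ * L + 11 / 5 * (x * L) := by ring
    linarith
  have htL2 : top5 (prX p) * L ≤ 3 / 4 * (S3 * L) + 11 / 5 * (x * L) := by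
    have h1 : top5 (prX p) ≤ 3 / 4 * S3 + 11 / 5 * x := by
      rw [htop]
      linarith [min_le_right (2 * S3 - κ) (3 / 4 * S3)]
    have h2 := mul_le_mul_of_nonneg_right h1 hL.le
    have h3 : (3 / 4 * S3 + 11 / 5 * x) * L = 3 / 4 * (S3 * L) + 11 / 5 * (x * L) := by ring
    linarith
  have hB2 : 2 * a.1.2.2 ≤ top5 (prX p) * L + 2 * (c * (κ * L)) + τ * L := by
    have h3 : (top5 (prX p) + 2 * c * κ) * L = top5 (prX p) * L + 2 * (c * (κ * L)) := by ring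
    linarith
  have htO : Sf770.tO a.1.1.toBd =
      min (2 * a3 a.1.1.toBd - a.1.1.l) (3 / 4 * a3 a.1.1.toBd) + 11 / 5 * a.1.1.z := rfl
  have htO1 : Sf770.tO a.1.1.toBd ≤ 2 * (S3 * L) - κ * L + 11 / 5 * (x * L) + 6 * (τ * L) := by
    rw [htO]
    have := min_le_left (2 * a3 a.1.1.toBd - a.1.1.l) (3 / 4 * a3 a.1.1.toBd)
    linarith
  have htO2 : Sf770.tO a.1.1.toBd ≤ 3 / 4 * (S3 * L) + 11 / 5 * (x * L) + 6 * (τ * L) := by
    rw [htO]
    have := min_le_right (2 * a3 a.1.1.toBd - a.1.1.l) (3 / 4 * a3 a.1.1.toBd)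
    linarith
  set m : ℝ := max 0 (min (Sf770.tO a.1.1.toBd)
    (Sf770.tO a.1.1.toBd + 2 * (c * a.1.1.l) - 2 * a.1.2.2)) with hm
  have mA := min_le_left (Sf770.tO a.1.1.toBd)
    (Sf770.tO a.1.1.toBd + 2 * (c * a.1.1.l) - 2 * a.1.2.2)
  have mB := min_le_right (Sf770.tO a.1.1.toBd)
    (Sf770.tO a.1.1.toBd + 2 * (c * a.1.1.l) - 2 * a.1.2.2)
  have m1 : m ≤ 2 * (S3 * L) - κ * L + 11 / 5 * (x * L) + 6 * (τ * L) :=
    max_le (by linarith) (by linarith)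
  have m2 : m ≤ 3 / 4 * (S3 * L) + 11 / 5 * (x * L) + 6 * (τ * L) :=
    max_le (by linarith) (by linarith)
  have m3 : m ≤ 2 * (S3 * L) - κ * L + 11 / 5 * (x * L) + 2 * (c * (κ * L)) - 2 * a.1.2.2 +
      9 * (τ * L) := max_le (by linarith) (by linarith)
  have m4 : m ≤ 3 / 4 * (S3 * L) + 11 / 5 * (x * L) + 2 * (c * (κ * L)) - 2 * a.1.2.2 +
      9 * (τ * L) := max_le (by linarith) (by linarith)
  have hlev : v * L ≤ m + 2 * a.2.2 - γ * L + 5 := by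
    rw [hv, hγ]
    have h1 : Real.log 2 * ((i : ℝ) + 1) = Real.log 2 * i + Real.log 2 := by ring
    linarith
  refine ⟨?_, ?_, ?_, ?_, ?_, ?_, ?_, ?_, ?_, ?_, ?_, ?_⟩
  · rw [abs_le]
    constructor
    · refine dv ?_
      have h1 : (k' - κ) * L = a.1.1.l - κ * L := by rw [sub_mul, hk]
      rw [h1]
      linarith
    · refine dv ?_
      have h1 : (k' - κ) * L = a.1.1.l - κ * L := by rw [sub_mul, hk]
      rw [h1]
      linarith
  · refine dv ?_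
    rw [hP]
    linarith
  · refine dv ?_
    rw [hP]
    linarith
  · refine dv ?_
    have h1 : (S3 - ℓ + q - 2 * γ + t) * L = S3 * L - ℓ * L + q * L - 2 * (γ * L) + t * L := by
      ring
    rw [hP, h1, hℓ, hq, hγ, hcl]
    linarith
  · refine dv ?_
    have h0 : 0 ≤ γ * L := by rw [hγ]; exact hg0
    linarith
  · refine dv ?_
    have h0 : 0 ≤ γ * L := by rw [hγ]; exact hg0
    linarith
  · refine dv ?_
    have h1 : (2 * S3 - κ + 21 / 5 * x + 2 * c * κ - 2 * ℓ - γ + t) * L = 2 * (S3 * L) - κ * L +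
        21 / 5 * (x * L) + 2 * (c * (κ * L)) - 2 * (ℓ * L) - γ * L + t * L := by ring
    rw [h1, hℓ]
    linarith
  · refine dv ?_
    have h1 : (3 / 4 * S3 + 21 / 5 * x + 2 * c * κ - 2 * ℓ - γ + t) * L = 3 / 4 * (S3 * L) +
        21 / 5 * (x * L) + 2 * (c * (κ * L)) - 2 * (ℓ * L) - γ * L + t * L := by ring
    rw [h1, hℓ]
    linarith
  · refine dv ?_
    rw [hq]
    linarith
  · refine dv ?_
    have h1 : (q + t) * L = LN qs + t * L := by rw [add_mul, hq]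
    rw [h1, hγ]
    linarith
  · refine dv ?_
    rw [zero_mul, hγ]
    exact hg0
  · refine dv ?_
    rw [zero_mul, hℓ]
    exact hb0

/-- the trivial bound of (RH), one sequence -/
lemma rh_crude {α : Eis → ℂ} (hα : FS α) (hs : ∀ m, α m ≠ 0 → Squarefree m) {A : ℝ} (hA : 2 ≤ A)
    (e : Eis) : ∃ K : ℝ, 0 ≤ K ∧ ∀ (Cl : Eis → Prop) [DecidablePred Cl], ∀ γ φ, IsPrim γ →
      ∀ P : ℝ, 0 < P →
      (nm γ : ℝ) * n6 γ ^ 2 * ∑ r ∈ (bl P).filter Cl, RMm A α e γ φ r ≤ K * P := by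
  classical
  set Y : ℝ := ∑ m ∈ hα.fin.toFinset, (nm m : ℝ) with hYd
  have hY0 : 0 ≤ Y := sum_nonneg fun _ _ => Nat.cast_nonneg _
  have hY : ∀ m, α m ≠ 0 → (nm m : ℝ) ≤ Y := fun m hm =>
    single_le_sum (f := fun m : Eis => (nm m : ℝ)) (fun _ _ => Nat.cast_nonneg _)
      (hα.fin.mem_toFinset.2 hm)
  have hYS : ∀ m, α m ≠ 0 → m ∈ S Y := fun m hm =>
    (mem_S hY0).2 ⟨hY m hm, hα.prim m hm, hs m hm⟩
  set G : ℝ := ∑ n ∈ S Y, ‖α n‖ with hG
  have hjc : 0 ≤ jc := jc_nonneg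
  refine ⟨Y * (16 * (G ^ 2 * jc)), by positivity, fun Cl _ γ φ hγ P hP => ?_⟩
  have hn1 : (1 : ℝ) ≤ nm γ := one_le_nmR hγ
  by_cases hγY : (nm γ : ℝ) ≤ Y
  · have h1 : ∀ r ∈ (bl P).filter Cl, RMm A α e γ φ r ≤ G ^ 2 * jc := by
      intro r _
      have h2 := RMm_triv (d := 1) hA hα isPrim_one hγ hYS (le_refl G) e φ r
      have e1 : (fun m => α (1 * m)) = α := by
        funext m
        rw [one_mul]
      rwa [e1] at h2
    have h3 : ∑ r ∈ (bl P).filter Cl, RMm A α e γ φ r ≤ 16 * P * (G ^ 2 * jc) := by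
      refine (sum_le_card_nsmul _ _ _ h1).trans ?_
      rw [nsmul_eq_mul]
      refine mul_le_mul_of_nonneg_right ?_ (by positivity)
      refine le_trans ?_ (CR2.card_bl_le hP.le)
      exact_mod_cast card_le_card (filter_subset _ _)
    have h4 : (nm γ : ℝ) * n6 γ ^ 2 ≤ Y := by
      have h5 : n6 γ ^ 2 ≤ 1 := pow_le_one₀ (n6_nonneg γ) (PX764.n6_le_one hγ.ne_zero)
      exact (mul_le_of_le_one_right (by linarith) h5).trans hγY
    calc (nm γ : ℝ) * n6 γ ^ 2 * ∑ r ∈ (bl P).filter Cl, RMm A α e γ φ r ≤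
          Y * (16 * P * (G ^ 2 * jc)) :=
          mul_le_mul h4 h3 (sum_nonneg fun _ _ => RMm_nonneg _ _ _ _ _ _) hY0
      _ = _ := by ring
  · have h1 : ∀ m, α (γ * m) = 0 := by
      intro m
      by_contra h2
      have h3 := hY _ h2
      have h4 : (nm γ : ℝ) ≤ nm (γ * m) := by
        exact_mod_cast Div277.nm_le_of_dvd (hα.prim _ h2).ne_zero (dvd_mul_right γ m)
      exact hγY (h4.trans h3)
    have h5 : ∀ r ∈ (bl P).filter Cl, RMm A α e γ φ r = 0 := by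
      intro r _
      have h6 : ∀ t : ℝ, CS (rm α e γ φ t) r = 0 := by
        intro t
        unfold CM106.CS R3571.rm
        simp [h1]
      rw [RMm_eq]
      simp [h6]
    rw [sum_eq_zero h5, mul_zero]
    positivity

lemma slp_lin {K : ℝ} (hK : 0 ≤ K) : Slp 1 (fun P => K * P) where
  nonneg P hP := by positivity
  low P' P hP' h := by
    have hP : 0 < P := lt_of_lt_of_le hP' h
    have hq : P' / P ≤ 1 := (div_le_one hP).2 h
    have hq0 : 0 < P' / P := by positivity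
    have h3 : P' / P ≤ (P' / P) ^ (1 / 3 : ℝ) := by
      calc P' / P = (P' / P) ^ (1 : ℝ) := (Real.rpow_one _).symm
        _ ≤ _ := Real.rpow_le_rpow_of_exponent_ge hq0 hq (by norm_num)
    have h4 : K * P' = (P' / P) * (K * P) := by field_simp
    rw [h4]
    exact mul_le_mul_of_nonneg_right h3 (by positivity)
  dbl P hP := by
    rw [pow_one]
    exact le_of_eq (by ring)

set_option maxHeartbeats 1600000 in
/-- **the real line**: the structured part of a single list is empty -/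
lemma emp_S {c β : ℝ} (hc0 : 0 ≤ c) (hc1 : c ≤ 1 / 100) (hβ : 17 / 100 ≤ β) {p : IX5 → ℝ}
    {X τ B H : ℝ} {N : ℕ} {a : BmX} {qs : List Pq} (F : Fr9X c β p X τ B H N a qs)
    (Fs : FrS β p X τ B H N a qs) {D' : ℝ}
    (hD : Dh (cκ (prX p)) (cu (prX p) 2) (cu (prX p) 3) (cu (prX p) 4) (cx' (prX p)) D')
    (hτ0 : 0 ≤ τ) {t : ℝ} (ht : 40 * τ ≤ t) (t1 : t ≤ 1 / 1000) (hL8 : 8 ≤ t * Real.log X)
    {C : ℝ} (hC : C ≤ t * Real.log X) {cl5 : Fin 5} {i : ℕ}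
    (hi : i ∈ I5 a.2.1 (nM (nO a.1.1.toBd) a.2.2) (nW c a.1.1.toBd a.1.2.2)
      (Real.exp a.2.2) cl5) :
    C + max 0 (Real.log (HpE 0 a qs i)) + 2 * (Real.log 2 * (i + 1)) + 3 ≤ a.1.1.l ∧
      0 ≤ PX a qs := by
  have hL := F.L
  have hN : cN (prX p) = cu (prX p) 2 + cu (prX p) 3 + cu (prX p) 4 := rfl
  set L := Real.log X with hLd
  have hLn : L ≠ 0 := hL.ne'
  obtain ⟨r1, r2, r3, r4, r5, r6, r7, r8, r9, r10, r11, r12⟩ := fr_realX F hτ0 ht hL8 hc0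
    (by linarith) hi (k' := a.1.1.l / L) (P := PX a qs / L) (v := Real.log 2 * (i + 1) / L)
    (ℓ := a.1.2.2 / L) (q := LN qs / L) (γ := Real.log (nm a.2.1) / L)
    (div_mul_cancel₀ _ hLn) (div_mul_cancel₀ _ hLn) (div_mul_cancel₀ _ hLn)
    (div_mul_cancel₀ _ hLn) (div_mul_cancel₀ _ hLn) (div_mul_cancel₀ _ hLn)
  obtain ⟨k1, k2⟩ := abs_le.1 F.l
  obtain ⟨ζ1, ζ2⟩ := abs_le.1 F.ζ
  obtain ⟨b1, b2⟩ := abs_le.1 F.b
  have hpar := F.par
  have hlost := Fs.lost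
  have hκ0 := hpar.κ0
  obtain ⟨d0, d1, d2, d3, d4, dN, d6, dx, adm, d8, d9⟩ := hD
  rw [← hLd] at k1 k2 ζ1 ζ2 b1 b2 hlost
  set S3 := cu (prX p) 2 + cu (prX p) 3 + cu (prX p) 4 with hS3
  set κ := cκ (prX p) with hκ
  set x := cx' (prX p) with hx
  have hx36 : x ≤ 1 / 36 * κ := by
    rcases adm with ⟨a1, -⟩ | ⟨-, a2, -⟩ <;> linarith
  have hτL : 40 * (τ * L) ≤ t * L := by
    have := mul_le_mul_of_nonneg_right ht hL.le
    linarith
  have hτL0 : 0 ≤ τ * L := by positivity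
  have htL : t * L ≤ 1 / 1000 * L := mul_le_mul_of_nonneg_right t1 hL.le
  have hκL : 8 / 9 * L ≤ κ * L := mul_le_mul_of_nonneg_right hκ0 hL.le
  have hSL : S3 * L ≤ 102 / 125 * κ * L := mul_le_mul_of_nonneg_right dN hL.le
  have hxL : x * L ≤ 1 / 36 * κ * L := mul_le_mul_of_nonneg_right hx36 hL.le
  have hκL0 : 0 ≤ κ * L := by linarith
  have hβL : 17 / 100 * (κ * L) ≤ β * (κ * L) := mul_le_mul_of_nonneg_right hβ hκL0
  have hcL : c * (κ * L) ≤ 1 / 100 * (κ * L) := mul_le_mul_of_nonneg_right hc1 hκL0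
  have eβ : β * κ * L = β * (κ * L) := by ring
  rw [eβ] at hlost
  have hℓ : 17 / 100 * (κ * L) - 2 * (τ * L) ≤ a.1.2.2 := by linarith
  -- in absolute form
  have hg0 : 0 ≤ Real.log (nm a.2.1) := F.g0
  have lv : Real.log 2 * (i + 1) ≤ 3 / 4 * (S3 * L) + 21 / 5 * (x * L) + 2 * (c * (κ * L)) -
      2 * a.1.2.2 - Real.log (nm a.2.1) + t * L := by
    rw [div_le_iff₀ hL] at r8
    have e1 : (3 / 4 * S3 + 21 / 5 * x + 2 * c * κ - 2 * (a.1.2.2 / L) -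
        Real.log (nm a.2.1) / L + t) * L = 3 / 4 * (S3 * L) + 21 / 5 * (x * L) +
        2 * (c * (κ * L)) - 2 * (a.1.2.2 / L * L) - Real.log (nm a.2.1) / L * L + t * L := by ring
    rw [e1, div_mul_cancel₀ _ hLn, div_mul_cancel₀ _ hLn] at r8
    exact r8
  have lP : PX a qs ≤ S3 * L - a.1.2.2 + LN qs - 2 * Real.log (nm a.2.1) + t * L := by
    rw [div_le_iff₀ hL] at r4
    have e1 : (S3 - a.1.2.2 / L + LN qs / L - 2 * (Real.log (nm a.2.1) / L) + t) * L =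
        S3 * L - a.1.2.2 / L * L + LN qs / L * L - 2 * (Real.log (nm a.2.1) / L * L) + t * L := by
      ring
    rw [e1, div_mul_cancel₀ _ hLn, div_mul_cancel₀ _ hLn, div_mul_cancel₀ _ hLn] at r4
    exact r4
  have hq1 : LN qs ≤ x * L + τ * L := F.qs1
  have lP0 : κ / 2 * L - 2 * (x * L) - t * L ≤ PX a qs := by
    rw [le_div_iff₀ hL] at r2
    have e1 : (κ / 2 - 2 * x - t) * L = κ / 2 * L - 2 * (x * L) - t * L := by ring
    rwa [e1] at r2
  have e2 : κ / 2 * L = 1 / 2 * (κ * L) := by ring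
  have e3 : 102 / 125 * κ * L = 102 / 125 * (κ * L) := by ring
  have e4 : 1 / 36 * κ * L = 1 / 36 * (κ * L) := by ring
  rw [e2] at lP0
  rw [e3] at hSL
  rw [e4] at hxL
  have e0 : max 0 (max (5 / 3 * (0 : ℝ)) (3 * 0 - 52 / 300 * a.1.1.l)) = 0 :=
    max_eq_left (max_le (by norm_num) (by linarith))
  have hlog : Real.log (HpE 0 a qs i) = max (4 / 3 * PX a qs + 2 / 3 * a.2.2)
      (PX a qs + Real.log 2 * (i + 1)) - a.1.1.l -
      3 * max 0 (5 / 4 * a3 a.1.1.toBd - a.1.1.l) := by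
    unfold HmX813.HpE
    rw [Real.log_exp, e0, sub_zero]
  have hex := le_max_left 0 (5 / 4 * a3 a.1.1.toBd - a.1.1.l)
  refine ⟨?_, by linarith⟩
  have hM : max 0 (Real.log (HpE 0 a qs i)) ≤
      a.1.1.l - C - 2 * (Real.log 2 * (i + 1)) - 3 := by
    rw [hlog]
    refine max_le (by linarith) ?_
    have h1 : max (4 / 3 * PX a qs + 2 / 3 * a.2.2) (PX a qs + Real.log 2 * (i + 1)) ≤
        2 * a.1.1.l - C - 2 * (Real.log 2 * (i + 1)) - 3 := max_le (by linarith) (by linarith)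
    linarith
  linarith

/-- beyond `D₀` the structured part is empty -/
lemma Ld_big {Hp D₀ K X c : ℝ} (hK : 0 < K) (hX : 0 < X) (hc : 1 ≤ c) {cg d e : Eis}
    (hd : IsPrim d) (k : ℕ) (h : ¬ (nm d : ℝ) ≤ D₀) :
    Ld K (Real.exp k) (Hm Hp D₀ cg K X c k d e) d < 1 := by
  have nd : (0 : ℝ) < nm d := by linarith [one_le_nmR hd]
  have hV := Real.exp_pos (k : ℝ)
  unfold E3Sz579.Ld Mm828.Hm
  rw [if_neg h, div_lt_one (by positivity)]
  have h1 : K * min (nm d : ℝ) X / (2 * c * Real.exp k ^ 2) * Real.exp k ^ 2 =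
      K * min (nm d : ℝ) X / (2 * c) := by
    field_simp
  rw [h1, div_lt_iff₀ (by linarith)]
  have h2 : min (nm d : ℝ) X ≤ nm d := min_le_left _ _
  have h3 : K * min (nm d : ℝ) X ≤ K * nm d := mul_le_mul_of_nonneg_left h2 hK.le
  have h4 : 0 < K * (nm d : ℝ) := mul_pos hK nd
  nlinarith

/-- small `d` : the structured part is empty if the window is short -/
lemma Ld_small {Hp D₀ K X c V : ℝ} (hHp : 0 ≤ Hp) (hK : 0 < K) {cg d e : Eis}
    (hcg : IsPrim cg) (hd : IsPrim d) (he : IsPrim e) {k : ℕ}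
    (hk : Real.exp k ≤ Real.exp 1 * V) (hm : max 1 Hp * (Real.exp 1 * V) ^ 2 < K)
    (h : (nm d : ℝ) ≤ D₀) :
    Ld K (Real.exp k) (Hm Hp D₀ cg K X c k d e) d < 1 := by
  have nd1 := one_le_nmR hd
  unfold E3Sz579.Ld Mm828.Hm
  rw [if_pos h, div_lt_one (by positivity)]
  have h1 : (nm d : ℝ) ^ (-(4 / 3) : ℝ) ≤ 1 :=
    Real.rpow_le_one_of_one_le_of_nonpos nd1 (by norm_num)
  have h2 : ((nm (lc cg e) : ℝ) / nm cg) ^ (-2 : ℝ) ≤ 1 :=
    Real.rpow_le_one_of_one_le_of_nonpos (lc_ratio hcg he) (by norm_num)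
  have h3 : max 1 (Hp * (nm d : ℝ) ^ (-(4 / 3) : ℝ)) ≤ max 1 Hp :=
    max_le_max le_rfl (mul_le_of_le_one_right hHp h1)
  have h4 : (0 : ℝ) ≤ max 1 (Hp * (nm d : ℝ) ^ (-(4 / 3) : ℝ)) := zero_le_one.trans (le_max_left _ _)
  have h5 : max 1 (Hp * (nm d : ℝ) ^ (-(4 / 3) : ℝ)) * ((nm (lc cg e) : ℝ) / nm cg) ^ (-2 : ℝ) ≤
      max 1 Hp := (mul_le_of_le_one_right h4 h2).trans h3
  have h6 : Real.exp k ^ 2 ≤ (Real.exp 1 * V) ^ 2 :=
    pow_le_pow_left₀ (Real.exp_pos _).le hk 2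
  have h7 : (0 : ℝ) ≤ max 1 Hp := zero_le_one.trans (le_max_left _ _)
  have h8 := mul_le_mul h5 h6 (sq_nonneg _) h7
  have h9 : K ≤ K * nm d := le_mul_of_one_le_right hK.le nd1
  linarith

section

variable {Λ : Type*} {π : Λ → DPar} {h : ℝ → ℝ}

set_option maxHeartbeats 1600000 in
/-- **helper72's `LRG` for the single lists** (any `Hp ≤ HpE 0`, any `D₀`) -/
theorem lrs_of {e0 c β : ℝ} (hP : ∀ lam, (π lam).OK) {Rh : ℝ}
    (hRh : ∀ u, cx h u ≠ 0 → |u| ≤ Rh) (hc0 : 0 ≤ c) (hc1 : c ≤ 1 / 100) (hβ : 17 / 100 ≤ β)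
    {Par : Set (Fin 3 ⊕ Fin 5 → ℝ)} {Df : (Fin 3 ⊕ Fin 5 → ℝ) → ℝ}
    (hDh : ∀ p ∈ Par, Dh (cκ p) (cu p 2) (cu p 3) (cu p 4) (cx' p) (Df p))
    {L0 : (Fin 3 ⊕ Fin 5 → ℝ) → ℝ} {Hpf : BmX → List Pq → ℕ → ℝ} {D0f : BmX → ℝ}
    (hHp : ∀ a qs i, 0 < Hpf a qs i ∧ Hpf a qs i ≤ HpE 0 a qs i) (hD0 : ∀ a, 0 ≤ D0f a) :
    LRG π h e0 c (okS π) (αS π h) (FrS β) β Par L0 (fun cL a qs i b =>
      Hm (Hpf a qs i) (D0f a) (a.2.1 / b) (Real.exp a.1.1.l) (XM a qs b) cL) := by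
  classical
  intro ε hε
  refine ⟨1 / 10000000, by norm_num, fun lam N B hB => ⟨1, 2, fun A₁ hA₁ cL hcL => ?_⟩⟩
  have hlc : 0 ≤ Real.log cL := Real.log_nonneg hcL
  refine ⟨0, 0, Real.exp (8000 + 1000 * Real.log cL), Real.one_lt_exp_iff.2 (by linarith), ?_⟩
  intro X hX H hH p hp a qs cc i b s Hy
  have hX0 : 0 < X := lt_of_lt_of_le (Real.exp_pos _) hX
  have hLX : 8000 + 1000 * Real.log cL ≤ Real.log X := by
    rw [← Real.log_exp (8000 + 1000 * Real.log cL)]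
    exact Real.log_le_log (Real.exp_pos _) hX
  obtain ⟨F, Fs, hok, hgp, hgs, hζ0, hsup, hgS, hi, hb⟩ := Hy
  have hbp : IsPrim b := isPrim_of_mem_dvs hb
  have hbg : b ∣ a.2.1 := dvd_of_mem_dvs hb
  have hbgm : b * (a.2.1 / b) = a.2.1 := EuclideanDomain.mul_div_cancel' hbp.ne_zero hbg
  have hcg : IsPrim (a.2.1 / b) := by
    have e2 : IsPrim (b * (a.2.1 / b)) := by rw [hbgm]; exact hgp
    exact e2.of_mul_left hbp
  have ng : (0 : ℝ) < nm a.2.1 := by linarith [one_le_nmR hgp]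
  have nb : (0 : ℝ) < nm b := by linarith [one_le_nmR hbp]
  have nc1 : (1 : ℝ) ≤ nm (a.2.1 / b) := one_le_nmR hcg
  have nc : (0 : ℝ) < nm (a.2.1 / b) := by linarith
  have hcL0 : 0 < cL := by linarith
  obtain ⟨hemp, hPX⟩ := emp_S hc0 hc1 hβ F Fs (hDh _ hp) (t := 1 / 1000) (by norm_num)
    (by norm_num) le_rfl (by linarith) (C := Real.log cL) (by linarith) hi
  have hXM1 : 1 ≤ XM a qs b := by
    have h1 : Real.log (nm a.2.1) = Real.log (nm b) + Real.log (nm (a.2.1 / b)) := by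
      have e3 : ((nm (b * (a.2.1 / b)) : ℕ) : ℝ) = nm a.2.1 := by rw [hbgm]
      rw [nm_mul] at e3
      push_cast at e3
      rw [← e3, Real.log_mul nb.ne' nc.ne']
    have h2 : LN qs + lM a = LN (clM a qs) := by
      rw [LN_clM]
      unfold P1yX72.lM
      ring
    have h3 : XM a qs b = Real.exp (PX a qs + Real.log (nm (a.2.1 / b))) := by
      unfold P1yX72.XM HmX813.PX
      rw [h2]
      have e4 : LN (clM a qs) - 2 * Real.log (nm a.2.1) + Real.log (nm (a.2.1 / b)) =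
          LN (clM a qs) - Real.log (nm a.2.1) - Real.log (nm b) := by rw [h1]; ring
      rw [e4, Real.exp_sub, Real.exp_sub, Real.exp_log ng, Real.exp_log nb, div_div]
    rw [h3]
    exact Real.one_le_exp (add_nonneg hPX (Real.log_nonneg nc1))
  have hXM0 : 0 < XM a qs b := by linarith
  obtain ⟨hHp0, hHpE⟩ := hHp a qs i
  have hV0 : 0 < VM a i b := div_pos (Real.exp_pos _) nc
  have hVle : VM a i b ≤ Real.exp (Real.log 2 * (i + 1)) := by
    unfold P1yX72.VM Mm828.Vb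
    exact div_le_self (Real.exp_pos _).le nc1
  have hKpos : 0 < Real.exp a.1.1.l := Real.exp_pos _
  have hHpE0 : 0 < HpE 0 a qs i := Real.exp_pos _
  have hmax : max 1 (Hpf a qs i) ≤ Real.exp (max 0 (Real.log (HpE 0 a qs i))) := by
    refine max_le (Real.one_le_exp (le_max_left _ _)) (hHpE.trans ?_)
    calc HpE 0 a qs i = Real.exp (Real.log (HpE 0 a qs i)) := (Real.exp_log hHpE0).symm
      _ ≤ _ := Real.exp_le_exp.2 (le_max_right _ _)
  have hkey : cL * (max 1 (Hpf a qs i) * (Real.exp 1 * VM a i b) ^ 2) < Real.exp a.1.1.l := by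
    have h1 : (Real.exp 1 * VM a i b) ^ 2 ≤ Real.exp (2 + 2 * (Real.log 2 * (i + 1))) := by
      have h2 : Real.exp 1 * VM a i b ≤ Real.exp (1 + Real.log 2 * (i + 1)) := by
        rw [Real.exp_add]
        exact mul_le_mul_of_nonneg_left hVle (Real.exp_pos _).le
      have h3 := pow_le_pow_left₀ (by positivity) h2 2
      refine h3.trans (le_of_eq ?_)
      rw [← Real.exp_nat_mul]
      congr 1
      push_cast
      ring
    have h4 : cL * (max 1 (Hpf a qs i) * (Real.exp 1 * VM a i b) ^ 2) ≤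
        Real.exp (Real.log cL) * (Real.exp (max 0 (Real.log (HpE 0 a qs i))) *
          Real.exp (2 + 2 * (Real.log 2 * (i + 1)))) := by
      rw [Real.exp_log hcL0]
      refine mul_le_mul_of_nonneg_left ?_ hcL0.le
      exact mul_le_mul hmax h1 (by positivity) (Real.exp_pos _).le
    refine lt_of_le_of_lt h4 ?_
    rw [← Real.exp_add, ← Real.exp_add]
    exact Real.exp_lt_exp.2 (by linarith)
  have hmx1 : (0 : ℝ) ≤ max 1 (Hpf a qs i) := zero_le_one.trans (le_max_left _ _)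
  have hkey1 : max 1 (Hpf a qs i) * (Real.exp 1 * VM a i b) ^ 2 < Real.exp a.1.1.l :=
    lt_of_le_of_lt (le_mul_of_one_le_left (mul_nonneg hmx1 (sq_nonneg _)) hcL) hkey
  have hDs : ∀ d ∈ DsM a i b, IsPrim d := by
    intro d hd
    unfold P1yX72.DsM at hd
    obtain ⟨x, hx, rfl⟩ := mem_image.1 hd
    exact ((mem_JB (Real.sqrt_nonneg _)).1 hx).1
  have hEE : ∀ e ∈ S (EM e0 a), IsPrim e := by
    intro e he
    refine ((mem_S ?_).1 he).2.1
    unfold P1yX72.EM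
    positivity
  have hemp2 : ∀ k ∈ LI (1 / 10) (VM a i b), ∀ d, IsPrim d → ∀ e, IsPrim e →
      ¬ 1 ≤ Ld (Real.exp a.1.1.l) (Real.exp k) (Hm (Hpf a qs i) (D0f a) (a.2.1 / b)
        (Real.exp a.1.1.l) (XM a qs b) cL k d e) d := by
    intro k hk d hd e he
    rw [not_le]
    by_cases h1 : (nm d : ℝ) ≤ D0f a
    · exact Ld_small hHp0.le hKpos hcg hd he (mem_LI hk).2.2 hkey1 h1
    · exact Ld_big hKpos hXM0 hcL hd k h1
  have hokr : Mm828.ROK (afM π h e0 (αS π h) lam a qs cc b s) :=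
    rok_afrb (Real.exp_pos _).le (FS_list h hRh (hP lam.1) lam.2 _)
      (PSu_list hRh (hP lam.1) lam.2 _) hbp s
  have hA2 : (2 : ℝ) ≤ A₁ := by exact_mod_cast hA₁
  have hcr : ∀ d e : Eis, ∃ K : ℝ, 0 ≤ K ∧ (IsPrim d → ∀ (Cl : Eis → Prop) [DecidablePred Cl],
      ∀ γ φ, IsPrim γ → ∀ P : ℝ, 0 < P → (nm γ : ℝ) * n6 γ ^ 2 * ∑ r ∈ (bl P).filter Cl,
        RMm A₁ (afM π h e0 (αS π h) lam a qs cc b s e d) e γ φ r ≤ K * P) := by
    intro d e
    by_cases hd : IsPrim d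
    · obtain ⟨K, hK0, hK⟩ := rh_crude (α := afM π h e0 (αS π h) lam a qs cc b s e d)
        ⟨hokr.fin e d hd, fun m hm => hokr.prim e d m hd hm⟩
        (fun m hm => (hokr.sqf e d m hd hm).of_mul_right) hA2 e
      exact ⟨K, hK0, fun _ => hK⟩
    · exact ⟨0, le_rfl, fun h1 => absurd h1 hd⟩
  choose K hK0 hK using hcr
  refine ⟨fun k d e => Hm_pos (hD0 a) hcg hKpos hXM0 hcL0 k d e, ?_, 1,
    fun _ _ d e P => K d e * P, one_ne_zero, fun _ _ => isCoprime_one_left,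
    fun _ _ => isCoprime_one_left, fun _ _ d e => slp_lin (hK0 d e), ?_, ?_⟩
  · -- the size
    intro k hk d hd e he
    refine Hm_le hHp0.le hcg hKpos hXM0 hcL0 hV0.le ?_ (mem_LI hk).2.2 (hDs d hd) (hEE e he)
    have h1 : cL * max 1 (Hpf a qs i) * (Real.exp 1 * VM a i b) ^ 2 =
        cL * (max 1 (Hpf a qs i) * (Real.exp 1 * VM a i b) ^ 2) := by ring
    rw [h1]
    exact hkey.le.trans (le_mul_of_one_le_right hKpos.le hXM1)
  · -- (RH)
    intro k hk jj ρ hρ γ φ hγ hφ hφm P hPp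
    obtain ⟨h1, h2⟩ := mem_product.1 hρ
    exact hK ρ.1 ρ.2 (hDs ρ.1 h1) _ γ φ hγ P hPp
  · -- the number
    have h0 : ∀ e ∈ S (EM e0 a), ∀ k ∈ LI (1 / 10) (VM a i b), ∀ d ∈ DsM a i b,
        (nm e : ℝ)⁻¹ * (FH (Real.exp a.1.1.l) (Hm (Hpf a qs i) (D0f a) (a.2.1 / b)
          (Real.exp a.1.1.l) (XM a qs b) cL k d e) (Real.exp k) *
          RN2XF cL (Real.exp a.1.1.l) (Real.exp k) (XM a qs b) (Hm (Hpf a qs i) (D0f a)
            (a.2.1 / b) (Real.exp a.1.1.l) (XM a qs b) cL k)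
            (fun _ d e P => K d e * P) d e) = 0 := by
      intro e he k hk d hd
      have h1 := hemp2 k hk d (hDs d hd) e (hEE e he)
      unfold E3Hi290.RN2XF
      rw [if_neg h1, if_neg h1]
      simp
    rw [sum_eq_zero fun e he => sum_eq_zero fun k hk => sum_eq_zero fun d hd => h0 e he k hk d hd]
    unfold P1yX72.BdM
    positivity

/-- **helper813's rows** (`HmS`) -/
theorem lrs_HmS {e0 c β : ℝ} (hP : ∀ lam, (π lam).OK) {Rh : ℝ}
    (hRh : ∀ u, cx h u ≠ 0 → |u| ≤ Rh) (hc0 : 0 ≤ c) (hc1 : c ≤ 1 / 100) (hβ : 17 / 100 ≤ β)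
    {Par : Set (Fin 3 ⊕ Fin 5 → ℝ)} {Df : (Fin 3 ⊕ Fin 5 → ℝ) → ℝ}
    (hDh : ∀ p ∈ Par, Dh (cκ p) (cu p 2) (cu p 3) (cu p 4) (cx' p) (Df p))
    {L0 : (Fin 3 ⊕ Fin 5 → ℝ) → ℝ} :
    LRG π h e0 c (okS π) (αS π h) (FrS β) β Par L0 HmS :=
  lrs_of hP hRh hc0 hc1 hβ hDh (Hpf := fun a qs i => HpE 0 a qs i) (D0f := D0X)
    (fun a qs i => ⟨Real.exp_pos _, le_rfl⟩) fun a => (Real.exp_pos _).le

end

end Crest.Agent.R017.LRS65
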