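import Crest.Agent.R017.LT9_957
import Crest.Agent.R017.DhS_744
import Crest.Agent.R017.P10e_146

/-!
# Row 17, exceptional class (helper957): `LTG` of the differences and of the single lists

* **`ltG9_D`**, **`ltG9_S`** : `LTG` from `CoreG`, all premises proved
-/

set_option autoImplicit false

noncomputable section

open Finset Filter
open scoped Classical ComplexConjugate

namespace Crest.Agent.R017.LT9957

open Crest.Agent.R012 Crest.Agent.R012.Eis Crest.Agent.R012.Div277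
open Crest.Agent.R017.FE47 (PU cx SM)
open Crest.Agent.R017.StG828 (JB mem_JB PSu)
open Crest.Agent.R017.P1e54 Crest.Agent.R017.P1f54 Crest.Agent.R017.P1k54
open Crest.Agent.R017.P1l54 (ParOK oN)
open Crest.Agent.R017.P1u54
open Crest.Agent.R017.P1t54 (ParS LS0)
open Crest.Agent.R017.P1v54 (ηC supp_list FS_list)
open Crest.Agent.R017.HP842 (Pc pc alL sqc)
open Crest.Agent.R017.B770 Crest.Agent.R017.Prov71
open Crest.Agent.R017.E5B71 Crest.Agent.R017.E5L770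
open Crest.Agent.R017.ExBox960 Crest.Agent.R017.ExP960
open Crest.Agent.R017.P1X960
open Crest.Agent.R017.TM708 (PD K5)
open Crest.Agent.R017.I1146 (LN)
open Crest.Agent.R017.P1MU960
open Crest.Agent.R017.MmX72
open Crest.Agent.R017.P1yX72
open Crest.Agent.R017.HmX813 (sX HmE HmD HmS)

section frame
variable {c β : ℝ} {p : IX5 → ℝ} {X τ B H : ℝ} {N : ℕ} {a : BmX} {qs : List Pq}

/-- the lumps of a difference, tolerance `4` -/
lemma lump4 (F : Fr9X c β p X τ B H N a qs) (G : FrD p X τ B H N a qs) :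
    cu (prX p) 2 * Real.log X - a.1.2.2 - 4 * (τ * Real.log X) ≤ (a.1.2.1 0).z ∧
    cu (prX p) 3 * Real.log X - a.1.2.2 - 4 * (τ * Real.log X) ≤ (a.1.2.1 1).z ∧
    p (.inr 1) * Real.log X - a.1.2.2 - 4 * (τ * Real.log X) ≤ (a.1.2.1 0).z - dz a.1.1 ∧
    (cu (prX p) 2 + cu (prX p) 3 - p (.inr 1)) * Real.log X - a.1.2.2 -
      4 * (τ * Real.log X) ≤ (a.1.2.1 1).z + dz a.1.1 := by
  have hL := F.L
  obtain ⟨b1, b2⟩ := abs_le.1 F.b
  obtain ⟨A1, A2⟩ := abs_le.1 F.A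
  have hN : cN (prX p) = cu (prX p) 2 + cu (prX p) 3 + cu (prX p) 4 := rfl
  rw [hN] at A1 A2
  have z1 : (a.1.2.1 0).z ≤ (cu (prX p) 2 + τ) * Real.log X := G.pdN.z1
  have z2 : (a.1.2.1 1).z ≤ (cu (prX p) 3 + τ) * Real.log X := G.pdN.z2
  have z3 : (a.1.2.1 2).z ≤ (cu (prX p) 4 + τ) * Real.log X := G.pdN.z3
  have r1 : (a.1.2.1 0).z - dz a.1.1 ≤ (p (.inr 1) + τ) * Real.log X := G.pdR.z1
  have r2 : (a.1.2.1 1).z + dz a.1.1 ≤
      (cu (prX p) 2 + cu (prX p) 3 - p (.inr 1) + τ) * Real.log X := G.pdR.z2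
  refine ⟨by linarith, by linarith, by linarith, by linarith⟩

/-- **the saving of a difference** -/
lemma sX_le {A d : ℝ} (hd : 0 ≤ d) (hd1 : d ≤ 1 / 8) (hA1 : 16 * (1 - A) ≤ d)
    (F : Fr9X c (17 / 100) p X τ B H N a qs) (G : FrD p X τ B H N a qs)
    (hp : prX p ∈ ParS A d) (hτ : 0 ≤ τ * Real.log X) :
    17 / 100 * a.1.1.l ≤ min (min (a.1.2.1 0).z (a.1.2.1 1).z)
      (min ((a.1.2.1 0).z - dz a.1.1) ((a.1.2.1 1).z + dz a.1.1)) + a.1.2.2 +
        5 * (τ * Real.log X) := by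
  have hL := F.L
  obtain ⟨k0, k1, u0, u43, u32, u2, N0, N1, x0, -⟩ := P10146.sq_facts hd hd1 hA1 hp
  have hN : cN (prX p) = cu (prX p) 2 + cu (prX p) 3 + cu (prX p) 4 := rfl
  obtain ⟨l1, l2⟩ := abs_le.1 F.l
  obtain ⟨h1, h2, h3, h4⟩ := lump4 F G
  obtain ⟨y1, y2⟩ := F.zr 1
  have e2 : 17 / 100 * cκ (prX p) ≤ cu (prX p) 2 := by linarith
  have e3 : 17 / 100 * cκ (prX p) ≤ cu (prX p) 3 := by linarith
  have e4 : 17 / 100 * cκ (prX p) ≤ cu (prX p) 2 + cu (prX p) 3 - p (.inr 1) := by linarith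
  have g1 := mul_le_mul_of_nonneg_right y1 hL.le
  have g2 := mul_le_mul_of_nonneg_right e2 hL.le
  have g3 := mul_le_mul_of_nonneg_right e3 hL.le
  have g4 := mul_le_mul_of_nonneg_right e4 hL.le
  have key : 17 / 100 * a.1.1.l - a.1.2.2 - 5 * (τ * Real.log X) ≤
      min (min (a.1.2.1 0).z (a.1.2.1 1).z)
        (min ((a.1.2.1 0).z - dz a.1.1) ((a.1.2.1 1).z + dz a.1.1)) :=
    le_min (le_min (by linarith) (by linarith)) (le_min (by linarith) (by linarith))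
  linarith

/-- **the single lists lose at least the share** -/
lemma lost_S (F : Fr9X c (17 / 100) p X τ B H N a qs) (G : FrS (17 / 100) p X τ B H N a qs) :
    17 / 100 * (cκ (prX p) * Real.log X) - a.1.2.2 - 2 * (τ * Real.log X) ≤ 0 := by
  obtain ⟨b1, b2⟩ := abs_le.1 F.b
  have := G.lost
  linarith

end frame

variable {Λ : Type*} {π : Λ → DPar} {h : ℝ → ℝ}

lemma sq3 {A d : ℝ} (hd : 0 ≤ d) (hd1 : d ≤ 1 / 8) (hA1 : 16 * (1 - A) ≤ d) :
    ∀ p ∈ ParS A d, 3 / 4 * cκ p ≤ cN p ∧ cN p ≤ 84 / 103 * cκ p ∧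
      (cx' p = 0 ∨ (cx' p ≤ 1 / 36 * cκ p ∧ cx' p + 7 / 10 * cN p ≤ 199 / 360 * cκ p ∧
        cN p + cx' p ≤ 15 / 19 * cκ p)) := fun p hp => by
  obtain ⟨-, -, -, -, -, -, h1, h2, -, h3⟩ := P10146.sq_facts hd hd1 hA1 hp
  exact ⟨h1, h2, h3⟩

/-- **`LTG` of the differences** -/
theorem ltG9_D {c d dA A : ℝ} (hP : ∀ lam, (π lam).OK) {Rh : ℝ} (hRh0 : 0 ≤ Rh)
    (hRh : ∀ u, cx h u ≠ 0 → |u| ≤ Rh) (hd : 0 ≤ d) (hd1 : d ≤ 1 / 8) (hA : A ≤ 1)
    (hA1 : 16 * (1 - A) ≤ d) (hc0 : 0 ≤ c) (hcd : 4 * c ≤ d) {S0 : BmX → ℝ}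
    (hS0 : ∀ a : BmX, min (min (a.1.2.1 0).z (a.1.2.1 1).z)
      (min ((a.1.2.1 0).z - dz a.1.1) ((a.1.2.1 1).z + dz a.1.1)) ≤ S0 a)
    (HC : CoreG π h (1 / 64) c (okX π) (αX π h) FrD (17 / 100) (ParS A d) K5 TM708.T5
      (fun b => 3 / 4 * d * b 0) dA S0) :
    LTG π h (1 / 64) c (okX π) (αX π h) FrD (17 / 100) (ParS A d) (LS0 d) HmD :=
  ltG_of (sf := sX) hP hRh0 hRh hd hc0 (by linarith) hcd (sq3 hd hd1 hA1)
    (fun p hp => E3Nx744.dh_sq5 hd hd1 hA hA1 hp)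
    (fun lam a => PSu_xD hRh (hP lam.1) lam.2 _ _ _)
    (fun lam a n hn => by
      have key : ∀ ws : Fin 3 → Pq,
          sqc 1 (alL h ((List.ofFn ws ++ []).map (Pt (π lam.1) lam.2))) n ≠ 0 →
          |Real.log (nm n) - ((ws 0).z + (ws 1).z + (ws 2).z)| ≤ 3 * Rh := by
        intro ws hn
        have h1 := (supp_list h hRh (hP lam.1) lam.2 (List.ofFn ws ++ []) hn).2.2
        simp only [List.append_nil, List.ofFn_succ, List.ofFn_zero, List.map_cons, List.map_nil,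
          List.sum_cons, List.sum_nil, List.length_cons, List.length_nil] at h1
        have e1 : (ws 0).z + ((ws (Fin.succ 0)).z + ((ws (Fin.succ 0).succ).z + 0)) =
            (ws 0).z + (ws 1).z + (ws 2).z := by
          show (ws 0).z + ((ws 1).z + ((ws 2).z + 0)) = _
          ring
        rw [e1] at h1
        push_cast at h1
        linarith
      by_cases h1 : sqc 1 (alL h ((List.ofFn a.1.2.1 ++ []).map (Pt (π lam.1) lam.2))) n = 0
      · have h2 : sqc 1 (alL h ((List.ofFn (rzD a.1.2.1 (dz a.1.1)) ++ []).map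
            (Pt (π lam.1) lam.2))) n ≠ 0 := by
          intro h2
          apply hn
          show oc a.1.2.1 (a.1.2.1 0).z (a.1.2.1 1).z * _ + _ * _ = 0
          rw [h1, h2, mul_zero, mul_zero, add_zero]
        have h3 := key _ h2
        have e1 : (rzD a.1.2.1 (dz a.1.1) 0).z = (a.1.2.1 0).z - dz a.1.1 := rfl
        have e2 : (rzD a.1.2.1 (dz a.1.1) 1).z = (a.1.2.1 1).z + dz a.1.1 := rfl
        have e3 : (rzD a.1.2.1 (dz a.1.1) 2).z = (a.1.2.1 2).z := rfl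
        rw [e1, e2, e3] at h3
        have e4 : (a.1.2.1 0).z - dz a.1.1 + ((a.1.2.1 1).z + dz a.1.1) + (a.1.2.1 2).z =
            lM a := by
          unfold lM
          ring
        rwa [e4] at h3
      · exact key _ h1)
    (fun p X τ B H N a qs F => F.pdN.len)
    (fun p X τ τ' B H N a qs hL h1 F => FrD_mono hL F h1)
    (fun lam p X τ B H N a qs c5 i b hp hτ hy => by
      have F := hy.fr
      have G := hy.fx
      have h1 := sX_le hd hd1 hA1 F G hp hτ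
      have h2 := hS0 a
      obtain ⟨l1, l2⟩ := abs_le.1 F.l
      refine ⟨Or.inr ?_, ?_⟩
      · unfold HmX813.sX
        linarith
      · unfold HmX813.sX
        linarith)
    (fun p _ => le_refl _) HC

/-- **`LTG` of the single lists** -/
theorem ltG9_S {c d dA A : ℝ} (hP : ∀ lam, (π lam).OK) {Rh : ℝ} (hRh0 : 0 ≤ Rh)
    (hRh : ∀ u, cx h u ≠ 0 → |u| ≤ Rh) (hd : 0 ≤ d) (hd1 : d ≤ 1 / 8) (hA : A ≤ 1)
    (hA1 : 16 * (1 - A) ≤ d) (hc0 : 0 ≤ c) (hcd : 4 * c ≤ d) {S0 : BmX → ℝ}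
    (HC : CoreG π h (1 / 64) c (okS π) (αS π h) (FrS (17 / 100)) (17 / 100) (ParS A d) K5
      TM708.T5 (fun b => 3 / 4 * d * b 0) dA S0) :
    LTG π h (1 / 64) c (okS π) (αS π h) (FrS (17 / 100)) (17 / 100) (ParS A d) (LS0 d) HmS :=
  ltG_of (sf := fun _ => 0) hP hRh0 hRh hd hc0 (by linarith) hcd (sq3 hd hd1 hA1)
    (fun p hp => E3Nx744.dh_sq5 hd hd1 hA hA1 hp)
    (fun lam _ => PSu_list hRh (hP lam.1) lam.2 _)
    (fun lam a n hn => by
      have h1 := (supp_list h hRh (hP lam.1) lam.2 (List.ofFn a.1.2.1) hn).2.2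
      simp only [List.ofFn_succ, List.ofFn_zero, List.map_cons, List.map_nil,
        List.sum_cons, List.sum_nil, List.length_cons, List.length_nil] at h1
      have e1 : (a.1.2.1 0).z + ((a.1.2.1 (Fin.succ 0)).z +
          ((a.1.2.1 (Fin.succ 0).succ).z + 0)) = lM a := by
        unfold lM
        show (a.1.2.1 0).z + ((a.1.2.1 1).z + ((a.1.2.1 2).z + 0)) = _
        ring
      rw [e1] at h1
      push_cast at h1
      linarith)
    (fun p X τ B H N a qs F => F.pd.elim (fun h1 => h1.len) fun h1 => h1.len)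
    (fun p X τ τ' B H N a qs hL h1 F => FrS_mono hL F h1)
    (fun lam p X τ B H N a qs c5 i b hp hτ hy => by
      have F := hy.fr
      have h1 := lost_S F hy.fx
      have h2 := F.g0
      exact ⟨Or.inl (le_refl _), by linarith⟩)
    (fun p _ => le_refl _) HC

end Crest.Agent.R017.LT9957
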