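import Crest.Agent.R017.NrY_986
import Crest.Agent.R017.FNEv_708
import Crest.Agent.R017.CLV_436

/-!
# Row 17, class E: the flat claims with all choices of the family (helper960)

`fe2GV_D` : helper708's `FE2GV` at `(K5, T5)` on helper939's domain `D5X`, loss `3/4 d b₀`
(helper708's `fe2GV_of_nex`, copy of helper986's `fe2G_D`). `clG_D` : the same, as helper436's
claim `ClG`.
-/

set_option autoImplicit false

noncomputable section

open Set

namespace Crest.Agent.R017.NrYV960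

open Crest.Agent.R017.ER911 Crest.Agent.R017.SC777
open Crest.Agent.R017.NE73 Crest.Agent.R017.NEx911
open Crest.Agent.R017.TM708 (T5 K5 eH)
open Crest.Agent.R017.FN708 (FE2GV fe2GV_of_nex)
open Crest.Agent.R017.D5X939 (D5X)
open Crest.Agent.R017.NrX986

variable {d : ℝ} {r s s₀ : EF}

/-- **the flat claims at `(K5, T5)`**, with the value `kV` of the family -/
theorem fe2GV_D (R : ExpRules (7 / 8 + d) r s) (Rm : ExpRGFz (7 / 8 + d) r s s₀)
    (hd : 0 ≤ d) (hd8 : 8 * d ≤ 1) (hG : NearAllX d s₀) :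
    FE2GV s₀ D5X K5 T5 fun b => 3 / 4 * d * b 0 :=
  fe2GV_of_nex R Rm hd hd8 (fun _ hb => rf_D hb) (fun _ hb hn => D5X_near hb hn)
    (fun _ hb => ell_le hd hb) hG

/-- **the claim `ClG` of helper436's `clm_VX`** -/
theorem clG_D (R : ExpRules (7 / 8 + d) r s) (Rm : ExpRGFz (7 / 8 + d) r s s₀)
    (hd : 0 ≤ d) (hd8 : 8 * d ≤ 1) (hG : NearAllX d s₀) :
    FEx436.ClG s₀ D5X T5 fun b v z₁ z₂ z₃ w =>
      eH (FEx436.kV (K5 b) v (z₁ + z₂ + z₃ + w)) v (z₁ + z₂ + z₃ + w) + 3 / 4 * d * b 0 :=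
  fe2GV_D R Rm hd hd8 hG

end Crest.Agent.R017.NrYV960
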