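import Crest.Agent.R017.P1MW_960

/-!
# Row 17, exceptional class, mismatch (helper524): the lumps of the child and the window of the
level in the frame

* **`lump_lo`** : each lump (natural and replaced list) is at least the parent's minus the own
  number `lost = a.1.2.2`
* **`sum_win`** : the sum of the lumps is `cN - lost`
* **`v_win`** : the window of the level (all five types)
* **`lump_real`**, **`v_real`** : the same in units of `log X`
-/

set_option autoImplicit false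
set_option linter.unusedVariables false

noncomputable section

open Finset Filter

namespace Crest.Agent.R017.FrL524

open Crest.Agent.R012 Crest.Agent.R012.Eis Crest.Agent.R012.Div277
open Crest.Agent.R017.CM106 Crest.Agent.R017.C70
open Crest.Agent.R017.StJ319 (afrb gt5 q5 I5)
open Crest.Agent.R017.P1e54 Crest.Agent.R017.P1f54 Crest.Agent.R017.P1k54
open Crest.Agent.R017.P1l54 (ParOK oN)
open Crest.Agent.R017.Sf770 (nO tO)
open Crest.Agent.R017.P1u54
open Crest.Agent.R017.B770 Crest.Agent.R017.Prov71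
open Crest.Agent.R017.XG702 (Pcs)
open Crest.Agent.R017.E5B71 Crest.Agent.R017.E5P571 Crest.Agent.R017.E5L770
open Crest.Agent.R017.ExBox960 Crest.Agent.R017.ExP960
open Crest.Agent.R017.P1X960
open Crest.Agent.R017.TM708 (PD)
open Crest.Agent.R017.I1146 (LN)
open Crest.Agent.R017.P1MU960

variable {c β : ℝ} {p : IX5 → ℝ} {X τ B H : ℝ} {N : ℕ} {a : BmX} {qs : List Pq}

/-- **the lumps of the child, natural and replaced list** -/
theorem lump_lo (F : Fr9X c β p X τ B H N a qs) (G : FrD p X τ B H N a qs) :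
    cu (prX p) 2 * Real.log X - a.1.2.2 - 5 * (τ * Real.log X) ≤ (a.1.2.1 0).z ∧
    cu (prX p) 3 * Real.log X - a.1.2.2 - 5 * (τ * Real.log X) ≤ (a.1.2.1 1).z ∧
    cu (prX p) 4 * Real.log X - a.1.2.2 - 5 * (τ * Real.log X) ≤ (a.1.2.1 2).z ∧
    p (.inr 1) * Real.log X - a.1.2.2 - 5 * (τ * Real.log X) ≤ (a.1.2.1 0).z - dz a.1.1 ∧
    (cu (prX p) 2 + cu (prX p) 3 - p (.inr 1)) * Real.log X - a.1.2.2 -
      5 * (τ * Real.log X) ≤ (a.1.2.1 1).z + dz a.1.1 := by
  have hL := F.L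
  obtain ⟨b1, b2⟩ := abs_le.1 F.b
  obtain ⟨A1, A2⟩ := abs_le.1 F.A
  have hN : cN (prX p) = cu (prX p) 2 + cu (prX p) 3 + cu (prX p) 4 := rfl
  rw [hN] at A1 A2
  have z1 : (a.1.2.1 0).z ≤ (cu (prX p) 2 + τ) * Real.log X := G.pdN.z1
  have z2 : (a.1.2.1 1).z ≤ (cu (prX p) 3 + τ) * Real.log X := G.pdN.z2
  have z3 : (a.1.2.1 2).z ≤ (cu (prX p) 4 + τ) * Real.log X := G.pdN.z3
  have r1 : (a.1.2.1 0).z - dz a.1.1 ≤ (p (.inr 1) + τ) * Real.log X := G.pdR.z1
  have r2 : (a.1.2.1 1).z + dz a.1.1 ≤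
      (cu (prX p) 2 + cu (prX p) 3 - p (.inr 1) + τ) * Real.log X := G.pdR.z2
  refine ⟨by linarith, by linarith, by linarith, by linarith, by linarith⟩

/-- the same for a single list: it is below one of the two parents -/
theorem lump_loS (F : Fr9X c β p X τ B H N a qs) (G : FrS β p X τ B H N a qs) :
    (cu (prX p) 2 * Real.log X - a.1.2.2 - 5 * (τ * Real.log X) ≤ (a.1.2.1 0).z ∧
    cu (prX p) 3 * Real.log X - a.1.2.2 - 5 * (τ * Real.log X) ≤ (a.1.2.1 1).z ∧
    cu (prX p) 4 * Real.log X - a.1.2.2 - 5 * (τ * Real.log X) ≤ (a.1.2.1 2).z) ∨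
    (p (.inr 1) * Real.log X - a.1.2.2 - 5 * (τ * Real.log X) ≤ (a.1.2.1 0).z ∧
    (cu (prX p) 2 + cu (prX p) 3 - p (.inr 1)) * Real.log X - a.1.2.2 -
      5 * (τ * Real.log X) ≤ (a.1.2.1 1).z ∧
    cu (prX p) 4 * Real.log X - a.1.2.2 - 5 * (τ * Real.log X) ≤ (a.1.2.1 2).z) := by
  have hL := F.L
  obtain ⟨b1, b2⟩ := abs_le.1 F.b
  obtain ⟨A1, A2⟩ := abs_le.1 F.A
  have hN : cN (prX p) = cu (prX p) 2 + cu (prX p) 3 + cu (prX p) 4 := rfl
  rw [hN] at A1 A2
  rcases G.pd with G | G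
  · have z1 : (a.1.2.1 0).z ≤ (cu (prX p) 2 + τ) * Real.log X := G.z1
    have z2 : (a.1.2.1 1).z ≤ (cu (prX p) 3 + τ) * Real.log X := G.z2
    have z3 : (a.1.2.1 2).z ≤ (cu (prX p) 4 + τ) * Real.log X := G.z3
    exact Or.inl ⟨by linarith, by linarith, by linarith⟩
  · have z1 : (a.1.2.1 0).z ≤ (p (.inr 1) + τ) * Real.log X := G.z1
    have z2 : (a.1.2.1 1).z ≤
      (cu (prX p) 2 + cu (prX p) 3 - p (.inr 1) + τ) * Real.log X := G.z2
    have z3 : (a.1.2.1 2).z ≤ (cu (prX p) 4 + τ) * Real.log X := G.z3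
    exact Or.inr ⟨by linarith, by linarith, by linarith⟩

/-- **the total length of the child** -/
theorem sum_win (F : Fr9X c β p X τ B H N a qs) :
    |LN (clM a qs) - (cN (prX p) * Real.log X - a.1.2.2 + LN qs)| ≤ 2 * (τ * Real.log X) := by
  obtain ⟨b1, b2⟩ := abs_le.1 F.b
  obtain ⟨A1, A2⟩ := abs_le.1 F.A
  rw [F.cl, abs_le]
  constructor <;> linarith

/-- **the window of the level**, all five types -/
theorem v_win (F : Fr9X c β p X τ B H N a qs) {i : ℕ} {cl5 : Fin 5}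
    (hi : i ∈ I5 a.2.1 (nM (nO a.1.1.toBd) a.2.2) (nW c a.1.1.toBd a.1.2.2)
      (Real.exp a.2.2) cl5) :
    Real.log 2 * ((i : ℝ) + 1) ≤ max 0 (min (tO a.1.1.toBd)
      (tO a.1.1.toBd + 2 * (c * a.1.1.l) - 2 * a.1.2.2)) + 2 * a.2.2 -
        Real.log (nm a.2.1) + 5 * Real.log 2 := by
  classical
  have h1 : Real.log 2 * (i : ℝ) ≤ Real.log 2 * (nW c a.1.1.toBd a.1.2.2 : ℕ) +
      2 * Real.log (Real.exp a.2.2) - Real.log (nm a.2.1) + 3 * Real.log 2 := by
    have hI1 : ∀ {M n : ℕ} {Y : ℝ}, i ∈ StG828.I1z a.2.1 M n Y → Real.log 2 * (i : ℝ) ≤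
        Real.log 2 * n + 2 * Real.log Y - Real.log (nm a.2.1) + 3 * Real.log 2 := by
      intro M n Y h
      unfold StG828.I1z at h
      exact (mem_filter.1 h).2.2
    have hI2 : ∀ {M n : ℕ} {Y : ℝ}, i ∈ StG828.I2z a.2.1 M n Y → Real.log 2 * (i : ℝ) ≤
        Real.log 2 * n + 2 * Real.log Y - Real.log (nm a.2.1) + 3 * Real.log 2 := by
      intro M n Y h
      unfold StG828.I2z at h
      exact (mem_filter.1 h).2
    have hlo : ∀ {M n : ℕ} {Y : ℝ}, i ∈ StJ319.Ilo a.2.1 M n Y → Real.log 2 * (i : ℝ) ≤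
        Real.log 2 * n + 2 * Real.log Y - Real.log (nm a.2.1) + 3 * Real.log 2 := by
      intro M n Y h
      unfold StJ319.Ilo at h
      exact hI1 (mem_filter.1 h).1
    have hhi : ∀ {M n : ℕ} {Y : ℝ}, i ∈ StJ319.Ihi a.2.1 M n Y → Real.log 2 * (i : ℝ) ≤
        Real.log 2 * n + 2 * Real.log Y - Real.log (nm a.2.1) + 3 * Real.log 2 := by
      intro M n Y h
      unfold StJ319.Ihi at h
      exact hI1 (mem_filter.1 h).1
    fin_cases cl5
    · exact hlo hi
    · exact hlo hi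
    · exact hhi hi
    · exact hhi hi
    · exact hI2 hi
  rw [Real.log_exp] at h1
  have h2 := F.w1
  have e1 : Real.log 2 * ((i : ℝ) + 1) = Real.log 2 * (i : ℝ) + Real.log 2 := by ring
  rw [e1]
  linarith

/-- the top of the levels in units of `log X` -/
lemma tO_real6 (F : Fr9X c β p X τ B H N a qs) {t : ℝ} (hτ0 : 0 ≤ τ) (ht : 6 * τ ≤ t) :
    |tO a.1.1.toBd / Real.log X - top5 (prX p)| ≤ t := by
  have hL := F.L
  have hτL : 6 * (τ * Real.log X) ≤ t * Real.log X := by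
    have := mul_le_mul_of_nonneg_right ht hL.le
    linarith
  have hτL0 : 0 ≤ τ * Real.log X := by positivity
  obtain ⟨k1, k2⟩ := abs_le.1 F.l
  obtain ⟨z1, z2⟩ := abs_le.1 F.z
  obtain ⟨A1, A2⟩ := abs_le.1 F.A
  have e1 : tO a.1.1.toBd / Real.log X - top5 (prX p) =
      (tO a.1.1.toBd - top5 (prX p) * Real.log X) / Real.log X := by field_simp
  rw [e1, abs_div, abs_of_pos hL, div_le_iff₀ hL, abs_le]
  have e2 : top5 (prX p) * Real.log X =
      min ((2 * cN (prX p) - cκ (prX p)) * Real.log X) (3 / 4 * cN (prX p) * Real.log X) +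
        11 / 5 * (cx' (prX p) * Real.log X) := by
    unfold E5L770.top5
    rw [← min_mul_of_nonneg _ _ hL.le]
    ring
  have e3 : tO a.1.1.toBd = min (2 * a3 a.1.1.toBd - a.1.1.l) (3 / 4 * a3 a.1.1.toBd) +
      11 / 5 * a.1.1.z := rfl
  rw [e2, e3]
  constructor
  · have h1 : min ((2 * cN (prX p) - cκ (prX p)) * Real.log X)
        (3 / 4 * cN (prX p) * Real.log X) ≤
        min (2 * a3 a.1.1.toBd - a.1.1.l) (3 / 4 * a3 a.1.1.toBd) + 3 * (τ * Real.log X) := by
      rw [← min_add_add_right]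
      refine le_min ((min_le_left _ _).trans ?_) ((min_le_right _ _).trans ?_)
      · linarith
      · linarith
    linarith
  · have h1 : min (2 * a3 a.1.1.toBd - a.1.1.l) (3 / 4 * a3 a.1.1.toBd) ≤
        min ((2 * cN (prX p) - cκ (prX p)) * Real.log X)
        (3 / 4 * cN (prX p) * Real.log X) + 3 * (τ * Real.log X) := by
      rw [← min_add_add_right]
      refine le_min ((min_le_left _ _).trans ?_) ((min_le_right _ _).trans ?_)
      · linarith
      · linarith
    linarith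

/-- the same, larger constant -/
lemma tO_real (F : Fr9X c β p X τ B H N a qs) {t : ℝ} (hτ0 : 0 ≤ τ) (ht : 20 * τ ≤ t) :
    |tO a.1.1.toBd / Real.log X - top5 (prX p)| ≤ t :=
  tO_real6 F hτ0 (by linarith)

/-- **the window of the level in units of `log X`** -/
theorem v_real (F : Fr9X c β p X τ B H N a qs) {t : ℝ} (hτ0 : 0 ≤ τ) (hc0 : 0 ≤ c) (hc : c ≤ 1)
    (ht : 40 * τ ≤ t) (hL8 : 8 ≤ t * Real.log X) {i : ℕ} {cl5 : Fin 5}
    (hi : i ∈ I5 a.2.1 (nM (nO a.1.1.toBd) a.2.2) (nW c a.1.1.toBd a.1.2.2)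
      (Real.exp a.2.2) cl5) :
    Real.log 2 * ((i : ℝ) + 1) / Real.log X ≤ max 0 (min (top5 (prX p))
      (top5 (prX p) + 2 * (c * cκ (prX p)) - 2 * (a.1.2.2 / Real.log X))) +
        2 * cx' (prX p) - Real.log (nm a.2.1) / Real.log X + t := by
  have hL := F.L
  have hτL : 40 * (τ * Real.log X) ≤ t * Real.log X := by
    have := mul_le_mul_of_nonneg_right ht hL.le
    linarith
  have hτL0 : 0 ≤ τ * Real.log X := by positivity
  have h1 := v_win F hi
  have hl21 : Real.log 2 ≤ 7 / 10 := by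
    have := Real.log_two_lt_d9
    linarith
  obtain ⟨k1, k2⟩ := abs_le.1 F.l
  obtain ⟨ζ1, ζ2⟩ := abs_le.1 F.ζ
  obtain ⟨T1, T2⟩ := abs_le.1 (tO_real6 F hτ0 (le_refl (6 * τ)))
  have T2' : tO a.1.1.toBd ≤ top5 (prX p) * Real.log X + 6 * (τ * Real.log X) := by
    have h2 : tO a.1.1.toBd / Real.log X ≤ top5 (prX p) + 6 * τ := by linarith
    rw [div_le_iff₀ hL] at h2
    linarith
  have hcl : c * a.1.1.l ≤ c * (cκ (prX p) * Real.log X) + τ * Real.log X := by
    have h2 : c * a.1.1.l ≤ c * (cκ (prX p) * Real.log X + τ * Real.log X) :=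
      mul_le_mul_of_nonneg_left (by linarith) hc0
    have h3 : c * (τ * Real.log X) ≤ 1 * (τ * Real.log X) :=
      mul_le_mul_of_nonneg_right hc hτL0
    linarith
  rw [div_le_iff₀ hL]
  have e1 : (max 0 (min (top5 (prX p))
      (top5 (prX p) + 2 * (c * cκ (prX p)) - 2 * (a.1.2.2 / Real.log X))) +
        2 * cx' (prX p) - Real.log (nm a.2.1) / Real.log X + t) * Real.log X =
      max 0 (min (top5 (prX p) * Real.log X) (top5 (prX p) * Real.log X +
        2 * (c * (cκ (prX p) * Real.log X)) - 2 * a.1.2.2)) + 2 * (cx' (prX p) * Real.log X) -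
        Real.log (nm a.2.1) + t * Real.log X := by
    have e2 : max 0 (min (top5 (prX p))
      (top5 (prX p) + 2 * (c * cκ (prX p)) - 2 * (a.1.2.2 / Real.log X))) * Real.log X =
      max 0 (min (top5 (prX p) * Real.log X) (top5 (prX p) * Real.log X +
        2 * (c * (cκ (prX p) * Real.log X)) - 2 * a.1.2.2)) := by
      rw [max_mul_of_nonneg _ _ hL.le, min_mul_of_nonneg _ _ hL.le, zero_mul]
      congr 2
      field_simp
    have e3 : Real.log (nm a.2.1) / Real.log X * Real.log X = Real.log (nm a.2.1) := by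
      field_simp
    calc _ = max 0 (min (top5 (prX p))
      (top5 (prX p) + 2 * (c * cκ (prX p)) - 2 * (a.1.2.2 / Real.log X))) * Real.log X +
        2 * (cx' (prX p) * Real.log X) -
          Real.log (nm a.2.1) / Real.log X * Real.log X + t * Real.log X := by ring
      _ = _ := by rw [e2, e3]
  rw [e1]
  have h3 : max 0 (min (tO a.1.1.toBd) (tO a.1.1.toBd + 2 * (c * a.1.1.l) - 2 * a.1.2.2)) ≤
      max 0 (min (top5 (prX p) * Real.log X) (top5 (prX p) * Real.log X +
        2 * (c * (cκ (prX p) * Real.log X)) - 2 * a.1.2.2)) + 8 * (τ * Real.log X) := by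
    refine max_le ?_ ?_
    · have := le_max_left 0 (min (top5 (prX p) * Real.log X) (top5 (prX p) * Real.log X +
        2 * (c * (cκ (prX p) * Real.log X)) - 2 * a.1.2.2))
      linarith
    · refine le_trans ?_ (add_le_add_left (le_max_right _ _) _)
      rw [← min_add_add_right]
      refine le_min ((min_le_left _ _).trans ?_) ((min_le_right _ _).trans ?_)
      · linarith
      · linarith
  linarith

/-- **the lumps in units of `log X`** -/
theorem lump_real (F : Fr9X c β p X τ B H N a qs) (G : FrD p X τ B H N a qs) {t : ℝ}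
    (ht : 5 * τ ≤ t) :
    cu (prX p) 2 - a.1.2.2 / Real.log X - t ≤ (a.1.2.1 0).z / Real.log X ∧
    cu (prX p) 3 - a.1.2.2 / Real.log X - t ≤ (a.1.2.1 1).z / Real.log X ∧
    cu (prX p) 4 - a.1.2.2 / Real.log X - t ≤ (a.1.2.1 2).z / Real.log X ∧
    p (.inr 1) - a.1.2.2 / Real.log X - t ≤ ((a.1.2.1 0).z - dz a.1.1) / Real.log X ∧
    cu (prX p) 2 + cu (prX p) 3 - p (.inr 1) - a.1.2.2 / Real.log X - t ≤
      ((a.1.2.1 1).z + dz a.1.1) / Real.log X := by
  have hL := F.L
  obtain ⟨h1, h2, h3, h4, h5⟩ := lump_lo F G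
  have hτL : 5 * (τ * Real.log X) ≤ t * Real.log X := by
    have := mul_le_mul_of_nonneg_right ht hL.le
    linarith
  have key : ∀ {y z : ℝ}, y * Real.log X - a.1.2.2 - 5 * (τ * Real.log X) ≤ z →
      y - a.1.2.2 / Real.log X - t ≤ z / Real.log X := by
    intro y z h
    rw [le_div_iff₀ hL]
    have e1 : (y - a.1.2.2 / Real.log X - t) * Real.log X =
        y * Real.log X - a.1.2.2 - t * Real.log X := by field_simp
    rw [e1]
    linarith
  exact ⟨key h1, key h2, key h3, key h4, key h5⟩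

end Crest.Agent.R017.FrL524
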