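import Crest.Agent.R017.XMn_72
import Crest.Agent.R017.FrL_524

/-!
# Row 17, exceptional class (helper72): the mains of the mismatch, the two instances

* `S0D` : the bias saving of a difference
* **`xmD_of`**, **`xmS_of`** : `XMG` for the differences and for the single lists from `CoreG`
* `hS0_D`, `hS0_S` : the saving
-/

set_option autoImplicit false

noncomputable section

open Finset Filter
open scoped ComplexConjugate

namespace Crest.Agent.R017.XMm72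

open Crest.Agent.R012 Crest.Agent.R012.Eis Crest.Agent.R012.Div277
open Crest.Agent.R017.CM106 (CS FS TG)
open Crest.Agent.R017.P1e54 Crest.Agent.R017.P1f54 Crest.Agent.R017.P1k54
open Crest.Agent.R017.P1l54 (ParOK oN)
open Crest.Agent.R017.P1u54
open Crest.Agent.R017.P1v54 (ηC supp_list FS_list)
open Crest.Agent.R017.HP842 (Pc pc al alL sqc)
open Crest.Agent.R017.FE47 (PU cx SM)
open Crest.Agent.R017.B770 Crest.Agent.R017.Prov71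
open Crest.Agent.R017.E5B71 Crest.Agent.R017.E5L770
open Crest.Agent.R017.ExBox960 Crest.Agent.R017.ExP960
open Crest.Agent.R017.P1X960
open Crest.Agent.R017.I1146 (LN)
open Crest.Agent.R017.P1MU960
open Crest.Agent.R017.P1yX72

/-- the bias saving of a difference -/
def S0D (a : BmX) : ℝ :=
  min (min (a.1.2.1 0).z (a.1.2.1 1).z) (min ((a.1.2.1 0).z - dz a.1.1) ((a.1.2.1 1).z + dz a.1.1))

lemma hS0_D {c β : ℝ} (hβ0 : 17 / 100 ≤ β) (hβ1 : β ≤ 1 / 5) {Par : Set (Fin 3 ⊕ Fin 5 → ℝ)}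
    (hu : ∀ p ∈ Par, 11 / 50 * cκ p ≤ cu p 2 ∧ 11 / 50 * cκ p ≤ cu p 3)
    (p : IX5 → ℝ) (X τ B H : ℝ) (N : ℕ) (a : BmX) (qs : List Pq) (hp : prX p ∈ Par)
    (hτ : 0 ≤ τ) (F : Fr9X c β p X τ B H N a qs) (G : FrD p X τ B H N a qs) :
    17 / 100 * (cκ (prX p) * Real.log X) - a.1.2.2 - 9 * (τ * Real.log X) ≤ S0D a := by
  have hL := F.L.le
  have hτL : 0 ≤ τ * Real.log X := mul_nonneg hτ hL
  obtain ⟨h1, h2, h3, h4, h5⟩ := FrL524.lump_lo F G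
  obtain ⟨u2, u3⟩ := hu _ hp
  obtain ⟨z1, z2⟩ := F.zr 1
  have κ0 := F.par.κ0
  have κ1 := F.par.κ1
  have hβκ : 17 / 100 * cκ (prX p) ≤ β * cκ (prX p) :=
    mul_le_mul_of_nonneg_right hβ0 (by linarith)
  have a2 := mul_le_mul_of_nonneg_right (show 17 / 100 * cκ (prX p) ≤ cu (prX p) 2 by linarith) hL
  have a3 := mul_le_mul_of_nonneg_right (show 17 / 100 * cκ (prX p) ≤ cu (prX p) 3 by linarith) hL
  have a4 := mul_le_mul_of_nonneg_right (show 17 / 100 * cκ (prX p) ≤ p (.inr 1) by linarith) hL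
  have a5 := mul_le_mul_of_nonneg_right (show 17 / 100 * cκ (prX p) ≤
    cu (prX p) 2 + cu (prX p) 3 - p (.inr 1) by linarith) hL
  unfold S0D
  refine le_min (le_min ?_ ?_) (le_min ?_ ?_) <;> linarith

lemma hS0_S {c β : ℝ} (hβ0 : 17 / 100 ≤ β)
    (p : IX5 → ℝ) (X τ B H : ℝ) (N : ℕ) (a : BmX) (qs : List Pq)
    (hτ : 0 ≤ τ) (F : Fr9X c β p X τ B H N a qs) (G : FrS β p X τ B H N a qs) :
    17 / 100 * (cκ (prX p) * Real.log X) - a.1.2.2 - 9 * (τ * Real.log X) ≤ 0 := by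
  have hL := F.L.le
  have hτL : 0 ≤ τ * Real.log X := mul_nonneg hτ hL
  obtain ⟨b1, b2⟩ := abs_le.1 F.b
  have h1 := G.lost
  have κ0 := F.par.κ0
  have hβκ : 17 / 100 * (cκ (prX p) * Real.log X) ≤ β * (cκ (prX p) * Real.log X) :=
    mul_le_mul_of_nonneg_right hβ0 (by positivity)
  have e1 : β * cκ (prX p) * Real.log X = β * (cκ (prX p) * Real.log X) := by ring
  rw [e1] at h1
  linarith

lemma win_D {Λ : Type*} {π : Λ → DPar} {h : ℝ → ℝ} (hP : ∀ lam, (π lam).OK)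
    {Rh : ℝ} (hRh : ∀ u, cx h u ≠ 0 → |u| ≤ Rh) (lam : Λ × Eis) (a : BmX) (n : Eis)
    (hn : αX π h lam a n ≠ 0) :
    IsPrim n ∧ Squarefree n ∧ |Real.log (nm n) - lM a| ≤ 3 * Rh := by
  have key : ∀ ws : Fin 3 → Pq,
      sqc 1 (alL h ((List.ofFn ws ++ []).map (Pt (π lam.1) lam.2))) n ≠ 0 →
      IsPrim n ∧ Squarefree n ∧ |Real.log (nm n) - ((ws 0).z + (ws 1).z + (ws 2).z)| ≤ 3 * Rh := by
    intro ws hn
    obtain ⟨q1, q2, h1⟩ := supp_list h hRh (hP lam.1) lam.2 (List.ofFn ws ++ []) hn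
    refine ⟨q1, q2, ?_⟩
    simp only [List.append_nil, List.ofFn_succ, List.ofFn_zero, List.map_cons, List.map_nil,
      List.sum_cons, List.sum_nil, List.length_cons, List.length_nil] at h1
    have e1 : (ws 0).z + ((ws (Fin.succ 0)).z + ((ws (Fin.succ 0).succ).z + 0)) =
        (ws 0).z + (ws 1).z + (ws 2).z := by
      show (ws 0).z + ((ws 1).z + ((ws 2).z + 0)) = _
      ring
    rw [e1] at h1
    push_cast at h1
    linarith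
  by_cases h1 : sqc 1 (alL h ((List.ofFn a.1.2.1 ++ []).map (Pt (π lam.1) lam.2))) n = 0
  · have h2 : sqc 1 (alL h ((List.ofFn (rzD a.1.2.1 (dz a.1.1)) ++ []).map
        (Pt (π lam.1) lam.2))) n ≠ 0 := by
      intro h2
      apply hn
      show oc a.1.2.1 (a.1.2.1 0).z (a.1.2.1 1).z * _ + _ * _ = 0
      rw [h1, h2, mul_zero, mul_zero, add_zero]
    obtain ⟨q1, q2, h3⟩ := key _ h2
    refine ⟨q1, q2, ?_⟩
    have e1 : (rzD a.1.2.1 (dz a.1.1) 0).z = (a.1.2.1 0).z - dz a.1.1 := rfl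
    have e2 : (rzD a.1.2.1 (dz a.1.1) 1).z = (a.1.2.1 1).z + dz a.1.1 := rfl
    have e3 : (rzD a.1.2.1 (dz a.1.1) 2).z = (a.1.2.1 2).z := rfl
    rw [e1, e2, e3] at h3
    have e4 : (a.1.2.1 0).z - dz a.1.1 + ((a.1.2.1 1).z + dz a.1.1) + (a.1.2.1 2).z =
        lM a := by
      unfold lM
      ring
    rwa [e4] at h3
  · exact key _ h1

lemma win_S {Λ : Type*} {π : Λ → DPar} {h : ℝ → ℝ} (hP : ∀ lam, (π lam).OK)
    {Rh : ℝ} (hRh : ∀ u, cx h u ≠ 0 → |u| ≤ Rh) (lam : Λ × Eis) (a : BmX) (n : Eis)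
    (hn : αS π h lam a n ≠ 0) :
    IsPrim n ∧ Squarefree n ∧ |Real.log (nm n) - lM a| ≤ 3 * Rh := by
  obtain ⟨q1, q2, h1⟩ := supp_list h hRh (hP lam.1) lam.2 (List.ofFn a.1.2.1) hn
  refine ⟨q1, q2, ?_⟩
  simp only [List.ofFn_succ, List.ofFn_zero, List.map_cons, List.map_nil,
    List.sum_cons, List.sum_nil, List.length_cons, List.length_nil] at h1
  have e1 : (a.1.2.1 0).z + ((a.1.2.1 (Fin.succ 0)).z +
      ((a.1.2.1 (Fin.succ 0).succ).z + 0)) = lM a := by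
    unfold lM
    show (a.1.2.1 0).z + ((a.1.2.1 1).z + ((a.1.2.1 2).z + 0)) = _
    ring
  rw [e1] at h1
  push_cast at h1
  linarith

section
variable {Λ : Type*} {π : Λ → DPar} {h : ℝ → ℝ}

/-- **`XMG` for the differences** -/
theorem xmD_of (hP : ∀ lam, (π lam).OK) {Rh : ℝ} (hRh0 : 0 ≤ Rh)
    (hRh : ∀ u, cx h u ≠ 0 → |u| ≤ Rh) {c β : ℝ} (hc0 : 0 ≤ c) (hc1 : c ≤ 1 / 100)
    (hβ0 : 17 / 100 ≤ β) (hβ1 : β ≤ 1 / 5)
    {Par : Set (Fin 3 ⊕ Fin 5 → ℝ)} {L0 : (Fin 3 ⊕ Fin 5 → ℝ) → ℝ}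
    {Kf Tf ℓ : (Fin 5 → ℝ) → ℝ} {dA : ℝ} (hsq : ∀ p ∈ Par, SqF p)
    (hu : ∀ p ∈ Par, 11 / 50 * cκ p ≤ cu p 2 ∧ 11 / 50 * cκ p ≤ cu p 3)
    (hKf : ∀ p : IX5 → ℝ, prX p ∈ Par → ZR β p → ∀ bb, bb = bNx p ∨ bb = bRx p →
      Kf bb ≤ max (cκ (prX p)) (5 / 4 * cN (prX p)))
    (hTf : ∀ p : IX5 → ℝ, prX p ∈ Par → ZR β p → ∀ bb, bb = bNx p ∨ bb = bRx p →
      min (2 * cN (prX p) - cκ (prX p)) (3 / 4 * cN (prX p)) + 5 * cx' (prX p) ≤ Tf bb)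
    (hℓ : ∀ p : IX5 → ℝ, prX p ∈ Par → ZR β p → ∀ bb, bb = bNx p ∨ bb = bRx p →
      0 ≤ ℓ bb ∧ max 0 (5 / 4 * cN (prX p) - cκ (prX p)) + ℓ bb ≤ L0 (prX p))
    (hL0 : ∀ p ∈ Par, L0 p ≤ 10)
    (hC : CoreG π h (1 / 64) c (okX π) (αX π h) FrD β Par Kf Tf ℓ dA S0D) :
    XMG π h (1 / 64) c (okX π) (αX π h) FrD β Par L0 :=
  xmG_of hP hRh0 hRh hc0 hc1 (fun lam a n hn => win_D hP hRh lam a n hn)
    (fun p X τ B H N a qs F => F.pdN.len)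
    (fun p X τ τ' B H N a qs hL h1 F => FrD_mono hL F h1)
    (fun p X τ B H N a qs hp hτ F G => hS0_D hβ0 hβ1 hu p X τ B H N a qs hp hτ F G)
    hsq hKf hTf hℓ hL0 hC

/-- **`XMG` for the single lists** -/
theorem xmS_of (hP : ∀ lam, (π lam).OK) {Rh : ℝ} (hRh0 : 0 ≤ Rh)
    (hRh : ∀ u, cx h u ≠ 0 → |u| ≤ Rh) {c β : ℝ} (hc0 : 0 ≤ c) (hc1 : c ≤ 1 / 100)
    (hβ0 : 17 / 100 ≤ β)
    {Par : Set (Fin 3 ⊕ Fin 5 → ℝ)} {L0 : (Fin 3 ⊕ Fin 5 → ℝ) → ℝ}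
    {Kf Tf ℓ : (Fin 5 → ℝ) → ℝ} {dA : ℝ} (hsq : ∀ p ∈ Par, SqF p)
    (hKf : ∀ p : IX5 → ℝ, prX p ∈ Par → ZR β p → ∀ bb, bb = bNx p ∨ bb = bRx p →
      Kf bb ≤ max (cκ (prX p)) (5 / 4 * cN (prX p)))
    (hTf : ∀ p : IX5 → ℝ, prX p ∈ Par → ZR β p → ∀ bb, bb = bNx p ∨ bb = bRx p →
      min (2 * cN (prX p) - cκ (prX p)) (3 / 4 * cN (prX p)) + 5 * cx' (prX p) ≤ Tf bb)
    (hℓ : ∀ p : IX5 → ℝ, prX p ∈ Par → ZR β p → ∀ bb, bb = bNx p ∨ bb = bRx p →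
      0 ≤ ℓ bb ∧ max 0 (5 / 4 * cN (prX p) - cκ (prX p)) + ℓ bb ≤ L0 (prX p))
    (hL0 : ∀ p ∈ Par, L0 p ≤ 10)
    (hC : CoreG π h (1 / 64) c (okS π) (αS π h) (FrS β) β Par Kf Tf ℓ dA fun _ => 0) :
    XMG π h (1 / 64) c (okS π) (αS π h) (FrS β) β Par L0 :=
  xmG_of hP hRh0 hRh hc0 hc1 (fun lam a n hn => win_S hP hRh lam a n hn)
    (fun p X τ B H N a qs F => F.pd.elim (fun h1 => h1.len) fun h1 => h1.len)
    (fun p X τ τ' B H N a qs hL h1 F => FrS_mono hL F h1)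
    (fun p X τ B H N a qs _ hτ F G => hS0_S hβ0 p X τ B H N a qs hτ F G)
    hsq hKf hTf hℓ hL0 hC

end

end Crest.Agent.R017.XMm72
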