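import Crest.Agent.R017.P1MF_960
import Crest.Agent.R017.XMo_72
import Crest.Agent.R017.LT9b_957
import Crest.Agent.R017.LMXd_813
import Crest.Agent.R017.LRS_65
import Crest.Agent.R017.CRS_791
import Crest.Agent.R017.RnXb_571
import Crest.Agent.R017.ExRed2_848
import Crest.Agent.R017.NrYV_960
import Crest.Agent.R017.LfX_986

/-!
# Row 17, exceptional class (helper960): the mismatch of the exact square

* **`p1mx_E`**, **`p1ms_E`** : `P1MX` / `P1MS` at `red ∘ π` on `ParS A d`, `LS0 d`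
-/

set_option autoImplicit false
set_option linter.unusedVariables false

noncomputable section

open Finset Filter
open scoped ComplexConjugate

namespace Crest.Agent.R017.P1MG960

open Crest.Agent.R012 Crest.Agent.R012.Eis
open Crest.Agent.R017.FE47 (PU cx SM)
open Crest.Agent.R017.ER911 Crest.Agent.R017.SC777
open Crest.Agent.R017.End699 (PF)
open Crest.Agent.R017.B770 Crest.Agent.R017.Prov71
open Crest.Agent.R017.E5B71 Crest.Agent.R017.E5L770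
open Crest.Agent.R017.P1l54 (ParOK)
open Crest.Agent.R017.P1t54 (ParS LS0 parOK_Sq5)
open Crest.Agent.R017.ExP960 (IX5 prX ZR)
open Crest.Agent.R017.P1X960
open Crest.Agent.R017.TM708 (K5 T5 eH K5_cont T5_cont)
open Crest.Agent.R017.TK708 (AllT)
open Crest.Agent.R017.D5X939 (D5X D5X_compact)
open Crest.Agent.R017.P1MU960
open Crest.Agent.R017.P1yX72
open Crest.Agent.R017.XMm72 (SqF xmD_of xmS_of)
open Crest.Agent.R017.HmX813 (HmD HmS)
open Crest.Agent.R017.Red848 (red Exc red_ok)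
open Crest.Agent.R017.PX764 (Dk)
open Crest.Agent.R017.XS0298 (S0K)
open Crest.Agent.R017.XEx298 (Rt)
open Crest.Agent.R017.RnP571 (Dh EN)
open Crest.Agent.R017.FEx436 (ClG)
open Crest.Agent.R017.NrX986 (bN_mem bR_mem)

variable {Λ : Type*} {π : Λ → DPar} {h : ℝ → ℝ} {c₀ : ℝ} {A d : ℝ}

/-! ### parents -/

/-- the coordinates of the parents -/
lemma par5 {p : IX5 → ℝ} {bb : Fin 5 → ℝ} (hb : bb = bNx p ∨ bb = bRx p) :
    bb 0 = cκ (prX p) ∧ bb 1 + bb 2 + bb 3 = cN (prX p) ∧ bb 4 = cx' (prX p) := by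
  rcases hb with e | e <;> subst e
  · exact ⟨rfl, rfl, rfl⟩
  · refine ⟨rfl, ?_, rfl⟩
    show p (.inr 1) + (cu (prX p) 2 + cu (prX p) 3 - p (.inr 1)) + cu (prX p) 4 =
      cu (prX p) 2 + cu (prX p) 3 + cu (prX p) 4
    ring

lemma K5_par {p : IX5 → ℝ} {bb : Fin 5 → ℝ} (hb : bb = bNx p ∨ bb = bRx p) :
    K5 bb = max (cκ (prX p)) (5 / 4 * cN (prX p)) := by
  obtain ⟨h0, h1, -⟩ := par5 hb
  unfold TM708.K5
  rw [h0, h1]

lemma T5_par {p : IX5 → ℝ} {bb : Fin 5 → ℝ} (hb : bb = bNx p ∨ bb = bRx p) :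
    T5 bb = min (2 * cN (prX p) - cκ (prX p)) (3 / 4 * cN (prX p)) + 5 * cx' (prX p) := by
  obtain ⟨h0, h1, h4⟩ := par5 hb
  unfold TM708.T5
  rw [h0, h1, h4]

lemma sqF_of (hd : 0 ≤ d) (hd1 : d ≤ 1 / 8) (hA1 : 16 * (1 - A) ≤ d) :
    ∀ p ∈ ParS A d, SqF p := fun p hp => by
  obtain ⟨-, -, -, -, -, -, h1, h2, h3, h4⟩ := P10146.sq_facts hd hd1 hA1 hp
  exact ⟨h1, h2, h3, h4⟩

lemma LS0_le (hd : 0 ≤ d) (hd1 : d ≤ 1 / 8) (hA1 : 16 * (1 - A) ≤ d) :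
    ∀ p ∈ ParS A d, LS0 d p ≤ 10 := fun p hp => by
  obtain ⟨k0, k1, -, -, -, -, h1, h2, h3, h4⟩ := P10146.sq_facts hd hd1 hA1 hp
  have h5 : max 0 (5 / 4 * cN p - cκ p) ≤ 2 := max_le (by norm_num) (by linarith)
  have h6 : d * cκ p ≤ 1 := by nlinarith
  unfold P1t54.LS0
  linarith

lemma ell_par (hd : 0 ≤ d) (hd1 : d ≤ 1 / 8) (hA1 : 16 * (1 - A) ≤ d) (p : IX5 → ℝ)
    (hp : prX p ∈ ParS A d) (bb : Fin 5 → ℝ) (hb : bb = bNx p ∨ bb = bRx p) :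
    0 ≤ 3 / 4 * d * bb 0 ∧
      max 0 (5 / 4 * cN (prX p) - cκ (prX p)) + 3 / 4 * d * bb 0 ≤ LS0 d (prX p) := by
  obtain ⟨k0, -⟩ := P10146.sq_facts hd hd1 hA1 hp
  obtain ⟨h0, -⟩ := par5 hb
  rw [h0]
  have h1 : 0 ≤ cκ (prX p) := by linarith
  exact ⟨by positivity, le_rfl⟩

lemma dhD (hd : 0 ≤ d) (hd1 : d ≤ 1 / 8) (hA0 : A ≤ 1) (hA1 : 16 * (1 - A) ≤ d) :
    ∀ p ∈ ParS A d, Dh (cκ p) (cu p 2) (cu p 3) (cu p 4) (cx' p) (d * cκ p) :=
  fun _ hp => E3Nx744.dh_sq5 hd hd1 hA0 hA1 hp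

lemma u_par (hd : 0 ≤ d) (hd1 : d ≤ 1 / 8) (hA0 : A ≤ 1) (hA1 : 16 * (1 - A) ≤ d) :
    ∀ p ∈ ParS A d, 11 / 50 * cκ p ≤ cu p 2 ∧ 11 / 50 * cκ p ≤ cu p 3 := fun p hp => by
  have D := dhD hd hd1 hA0 hA1 p hp
  have h0 := D.u0
  have h1 := D.u4
  have h2 := D.y43
  exact ⟨by linarith, by linarith⟩

/-! ### the cores -/

/-- **the core of the differences at the reduced data** -/
theorem core_DE (hpu : PU h c₀) (hP : ∀ lam, (π lam).OK) (hE : ∀ lam, Exc (π lam))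
    (hd : 0 ≤ d) (hd1 : d ≤ 1 / 42) (hA1 : 16 * (1 - A) ≤ d) {s : EF}
    (h0 : ExpS0 s (ex Dq fun lam => S0K Dk (red (π lam)) h))
    (hAll : AllT d (ex Dq fun lam => S0K Dk (red (π lam)) h))
    (hCl : ClG (ex Dq fun lam => S0K Dk (red (π lam)) h) D5X T5 fun b v z₁ z₂ z₃ w =>
      eH (FEx436.kV (K5 b) v (z₁ + z₂ + z₃ + w)) v (z₁ + z₂ + z₃ + w) + 3 / 4 * d * b 0)
    {Rh : ℝ} (hRh0 : 0 ≤ Rh) (hRh : ∀ u, cx h u ≠ 0 → |u| ≤ Rh) :
    CoreG (fun lam => red (π lam)) h (1 / 64) (d / 4) (okX fun lam => red (π lam))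
      (αX (fun lam => red (π lam)) h) FrD (17 / 100) (ParS A d) K5 T5 (fun b => 3 / 4 * d * b 0) d
      CR791.S0X :=
  CR791.core_D (π := fun lam => red (π lam)) hpu (fun lam => red_ok (hP lam) (hE lam))
    (fun lam => LfP986.npm_one (π lam)) hRh0 hRh h0 hAll K5_cont T5_cont D5X_compact
    (fun b hb => hb.1.x0) (ℓ := fun b => 3 / 4 * d * b 0) (by fun_prop) hCl
    (fun p hp _ => bN_mem hd (by linarith) hA1 hp)
    (fun p hp hz => bR_mem hd (by linarith) hA1 hp hz)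

/-- **the core of the single lists at the reduced data** -/
theorem core_SE (hpu : PU h c₀) (hP : ∀ lam, (π lam).OK) (hE : ∀ lam, Exc (π lam))
    (hd : 0 ≤ d) (hd1 : d ≤ 1 / 42) (hA1 : 16 * (1 - A) ≤ d) {s : EF}
    (h0 : ExpS0 s (ex Dq fun lam => S0K Dk (red (π lam)) h))
    (hAll : AllT d (ex Dq fun lam => S0K Dk (red (π lam)) h))
    (hCl : ClG (ex Dq fun lam => S0K Dk (red (π lam)) h) D5X T5 fun b v z₁ z₂ z₃ w =>
      eH (FEx436.kV (K5 b) v (z₁ + z₂ + z₃ + w)) v (z₁ + z₂ + z₃ + w) + 3 / 4 * d * b 0)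
    {Rh : ℝ} (hRh0 : 0 ≤ Rh) (hRh : ∀ u, cx h u ≠ 0 → |u| ≤ Rh) :
    CoreG (fun lam => red (π lam)) h (1 / 64) (d / 4) (okS fun lam => red (π lam))
      (αS (fun lam => red (π lam)) h) (FrS (17 / 100)) (17 / 100) (ParS A d) K5 T5
      (fun b => 3 / 4 * d * b 0) d fun _ => 0 :=
  CR791.core_S (π := fun lam => red (π lam)) hpu (fun lam => red_ok (hP lam) (hE lam))
    hRh0 hRh h0 hAll K5_cont T5_cont D5X_compact
    (fun b hb => hb.1.x0) (ℓ := fun b => 3 / 4 * d * b 0) (by fun_prop) hCl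
    (fun p hp _ => bN_mem hd (by linarith) hA1 hp)
    (fun p hp hz => bR_mem hd (by linarith) hA1 hp hz)

/-! ### the mismatch -/

/-- **the mismatch of the differences, class E** -/
theorem p1mx_E (hpu : PU h c₀) (hP : ∀ lam, (π lam).OK) (hE : ∀ lam, Exc (π lam))
    (hd : 0 ≤ d) (hd1 : d ≤ 1 / 42) (hA : 9 / 10 ≤ A) (hA0 : A ≤ 1) (hA1 : 16 * (1 - A) ≤ d)
    (hPF : PF Set.univ (7 / 8 + d)) {s : EF}
    (R : ExpRules (7 / 8 + d) (ex Dq (fun lam => Rt (red (π lam)) h)) s)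
    (h0 : ExpS0 s (ex Dq fun lam => S0K Dk (red (π lam)) h))
    (hAll : AllT d (ex Dq fun lam => S0K Dk (red (π lam)) h))
    (hCl : ClG (ex Dq fun lam => S0K Dk (red (π lam)) h) D5X T5 fun b v z₁ z₂ z₃ w =>
      eH (FEx436.kV (K5 b) v (z₁ + z₂ + z₃ + w)) v (z₁ + z₂ + z₃ + w) + 3 / 4 * d * b 0)
    {Rh : ℝ} (hRh0 : 0 ≤ Rh) (hRh : ∀ u, cx h u ≠ 0 → |u| ≤ Rh) :
    P1MX (fun lam => red (π lam)) h (1 / 64) (d / 4) (17 / 100) (ParS A d) (LS0 d) := by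
  have hPr : ∀ lam, (red (π lam)).OK := fun lam => red_ok (hP lam) (hE lam)
  have hnp := fun lam => LfP986.npm_one (π lam)
  have hNC : ∀ lam, ∀ k : Eis, k ≠ 0 →
      (Sup271.NPm (red (π lam)).n (red (π lam)).ψ (red (π lam)).l₂ k ↔ T411.NCube k) :=
    fun lam k hk => Red848.NPm_red_iff (hP lam).ψ.q0 hk
  have PL := RnX571.rmx_NC (π := fun lam => red (π lam)) hpu hPr hNC R hPF hd
    (by linarith : d ≤ 1 / 8) (8 + 2)
  have hC := core_DE hpu hP hE hd hd1 hA1 h0 hAll hCl hRh0 hRh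
  have hX := xmD_of hPr hRh0 hRh (by linarith : 0 ≤ d / 4) (by linarith) le_rfl (by norm_num)
    (sqF_of hd (by linarith) hA1) (u_par hd (by linarith) hA0 hA1)
    (fun p _ _ bb hb => (K5_par hb).le) (fun p _ _ bb hb => (T5_par hb).ge)
    (fun p hp _ bb hb => ell_par hd (by linarith) hA1 p hp bb hb) (LS0_le hd (by linarith) hA1) hC
  have hT := LT9957.ltG9_D hPr hRh0 hRh hd (by linarith) hA0 hA1 (by linarith : 0 ≤ d / 4)
    (by linarith) (fun a => le_rfl) hC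
  have hR := LMX813.lrx_D (π := fun lam => red (π lam)) (e0 := 1 / 64) hpu hPr hnp PL
    (by linarith : 0 ≤ d / 4) (by linarith) (le_refl (17 / 100)) (by norm_num)
    (dhD hd (by linarith) hA0 hA1) (by norm_num) (le_refl _)
    (L0 := LS0 d) (fun p _ => le_of_eq (by unfold P1Q904.LQ P1t54.LS0; ring))
  exact p1MX_of_frame hPr hRh (fun p hp => parOK_Sq5 hA hp)
    (p1CXF_of hPr hRh0 hRh (by norm_num) hX hT hR)

/-- **the mismatch of the single lists, class E** -/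
theorem p1ms_E (hpu : PU h c₀) (hP : ∀ lam, (π lam).OK) (hE : ∀ lam, Exc (π lam))
    (hd : 0 ≤ d) (hd1 : d ≤ 1 / 42) (hA : 9 / 10 ≤ A) (hA0 : A ≤ 1) (hA1 : 16 * (1 - A) ≤ d)
    {s : EF} (h0 : ExpS0 s (ex Dq fun lam => S0K Dk (red (π lam)) h))
    (hAll : AllT d (ex Dq fun lam => S0K Dk (red (π lam)) h))
    (hCl : ClG (ex Dq fun lam => S0K Dk (red (π lam)) h) D5X T5 fun b v z₁ z₂ z₃ w =>
      eH (FEx436.kV (K5 b) v (z₁ + z₂ + z₃ + w)) v (z₁ + z₂ + z₃ + w) + 3 / 4 * d * b 0)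
    {Rh : ℝ} (hRh0 : 0 ≤ Rh) (hRh : ∀ u, cx h u ≠ 0 → |u| ≤ Rh) :
    P1MS (fun lam => red (π lam)) h (1 / 64) (d / 4) (17 / 100) (ParS A d) (LS0 d) := by
  have hPr : ∀ lam, (red (π lam)).OK := fun lam => red_ok (hP lam) (hE lam)
  have hC := core_SE hpu hP hE hd hd1 hA1 h0 hAll hCl hRh0 hRh
  have hX := xmS_of hPr hRh0 hRh (by linarith : 0 ≤ d / 4) (by linarith) le_rfl
    (sqF_of hd (by linarith) hA1)
    (fun p _ _ bb hb => (K5_par hb).le) (fun p _ _ bb hb => (T5_par hb).ge)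
    (fun p hp _ bb hb => ell_par hd (by linarith) hA1 p hp bb hb) (LS0_le hd (by linarith) hA1) hC
  have hT := LT9957.ltG9_S hPr hRh0 hRh hd (by linarith) hA0 hA1 (by linarith : 0 ≤ d / 4)
    (by linarith) hC
  have hR := LRS65.lrs_HmS (π := fun lam => red (π lam)) (e0 := 1 / 64) (h := h) hPr hRh
    (by linarith : 0 ≤ d / 4) (by linarith) (le_refl (17 / 100)) (dhD hd (by linarith) hA0 hA1)
    (L0 := LS0 d)
  exact p1MS_of_frame hPr hRh (fun p hp => parOK_Sq5 hA hp)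
    (p1CSF_of hPr hRh0 hRh (by norm_num) hX hT hR)

end Crest.Agent.R017.P1MG960
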