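import Crest.Agent.R017.Fin14_986
import Crest.Agent.R017.HiG_48
import Crest.Agent.R017.P1MH_960

/-!
# Row 17: the top from the remaining leaves (helper986)

* `LxE`, `lwE_of` : class E from `near`, `e2x`, `e2s`
* `s22_of_open15`, `s23_of_open15`
-/

set_option autoImplicit false

noncomputable section

open Complex Filter Topology

namespace Crest.Agent.R017.Fin15

open Crest.Agent.R012 Crest.Agent.R012.Eis
open Crest.Agent.R017.FE47 Crest.Agent.R017.End699
open Crest.Agent.R017.B770 Crest.Agent.R017.BxH986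
open Crest.Agent.R017.Prov71 Crest.Agent.R017.ER911
open Crest.Agent.R017.E5B71 Crest.Agent.R017.ExP960
open Crest.Agent.R017.SC777
open Crest.Agent.R017.Fin4 Crest.Agent.R017.Fin5 Crest.Agent.R017.Fin6
open Crest.Agent.R017.P1l54 Crest.Agent.R017.P1t54
open Crest.Agent.R017.P10X764 (E2XU E2SU)
open Crest.Agent.R017.Sg986 (AA AA_lt AA_eq AA_ge)
open Crest.Agent.R017.NrA986 (NearAll)
open Crest.Agent.R017.NrX986 (NearAllX)
open Crest.Agent.R017.XS0298 (S0x S0K)
open Crest.Agent.R017.Red848 (red Exc red_ok)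

/-- **the open leaves of class E** -/
structure LxE (d : ℝ) (h : ℝ → ℝ) (r : ℝ) : Prop where
  /-- the field of near-equal lists -/
  near : NearAllX d (ex Dq (fun lam => S0x (red (πE lam)) h))
  /-- cross error, differences -/
  e2x : E2XU (fun lam => red (πE lam)) h (1 / 64) (d / 4) r βX (ParS (AA d) d) (LS0 d)
  /-- cross error, single lists -/
  e2s : E2SU (fun lam => red (πE lam)) h (1 / 64) (d / 4) r βX (ParS (AA d) d) (LS0 d)

/-- **class E from the open leaves** -/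
theorem lwE_of {d : ℝ} (hd : 0 < d) (hd1 : d ≤ 1 / 42) {h : ℝ → ℝ} {c₀ : ℝ} (hpu : PU h c₀)
    (hPF : PF Set.univ (7 / 8 + d)) (P : BunE d h) (G : RecE d h) {r : ℝ} (hr0 : 0 ≤ r)
    (hr : ∀ u : ℝ, cx h u ≠ 0 → |u| ≤ r) (H : LxE d h r) : EbC986.LwE d h r :=
  { near := H.near
    e2x := H.e2x
    e2s := H.e2s
    p1mx := P1MH960.p1mx_of hd hd1 hpu hPF P G H.near hr0 hr
    p1ms := P1MH960.p1ms_of hd hd1 hpu P G H.near hr0 hr
    hi := HiG48.hi_E hd hd1 hpu hPF P G H.near }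

/-- **the open leaves of row 17** at `θ = 7/8 + d` -/
structure Open15 (d : ℝ) (h : ℝ → ℝ) : Prop where
  /-- T.3 -/
  near : d ≤ 1 / 42 → BunA d h → RecA d h → NearAll d (ex Dq (fun lam => S0p (πN lam) h))
  /-- T.4 -/
  lxE : d ≤ 1 / 42 → BunE d h → RecE d h → BunA d h → RecA d h → CovA d → ∀ r : ℝ, 0 ≤ r →
    (∀ u : ℝ, cx h u ≠ 0 → |u| ≤ r) → LxE d h r

/-- **the open leaves of row 17** -/
def Open : Prop := ∀ (h : ℝ → ℝ) (c₀ : ℝ), PU h c₀ → Neg h → ∀ d : ℝ, 0 < d → d < 1 / 8 →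
    PF Set.univ (7 / 8 + d) → Open15 d h

theorem open_of (H : Open) : Fin14.Open := fun h c₀ hpu hneg d hd hd0 hPF =>
  { near := (H h c₀ hpu hneg d hd hd0 hPF).near
    lwE := fun h1 h2 h3 h4 h5 h6 r h7 h8 =>
      lwE_of hd h1 hpu hPF h2 h3 h7 h8 ((H h c₀ hpu hneg d hd hd0 hPF).lxE h1 h2 h3 h4 h5 h6 r h7 h8) }

/-- **S0022** from the open leaves -/
theorem s22_of_open15 (T : Trees) (H : Open) : S22 := Fin14.s22_of_open14 T (open_of H)

/-- **S0023** from the open leaves -/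
theorem s23_of_open15 (T : Trees) (H : Open) : S23 := Fin14.s23_of_open14 T (open_of H)

end Crest.Agent.R017.Fin15
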