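import Crest.Agent.R017.NET_545

/-!
# Row 17, FlatNE: the line of the Gram sums of NumEq (helper708's literal, typed by helper545)
-/

set_option autoImplicit false
set_option linter.unusedVariables false

noncomputable section

open Set Filter Topology

namespace Crest.Agent.R017.RGB545

open Crest.Agent.R017.ER911 (Ok Sh EF ExpRules)
open Crest.Agent.R017.RuleM545
open Crest.Agent.R017.SC777 (Full sh3 sum3)
open Crest.Agent.R017.NE73 (flK)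

variable {d : ℝ} {r s s₀ : EF}

/-- **the line of the Gram sums of `NumEq`**, `θ 0` = the family -/
def dGk : LD Unit 9 where
  k _ := .rf
  b _ _ := 0
  zl _ := False
  G _ x θ := x 3 - θ 0
  F _ x θ := θ 0 + min (x 2 / 4) (3 / 8 * θ 0) + x 4 - (θ 0 - x 3) / 3 -
    (4 / 3 * x 2 + (x 1 + x 0) / 3)

theorem dGk_ok : dGk.OK where
  cb _ := continuous_const
  b0 _ _ _ := le_rfl
  cG _ := by
    show Continuous fun x : (Fin 5 → ℝ) × (Fin 9 → ℝ) => x.1 3 - x.2 0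
    fun_prop
  cF _ := by
    show Continuous fun x : (Fin 5 → ℝ) × (Fin 9 → ℝ) =>
      x.2 0 + min (x.1 2 / 4) (3 / 8 * x.2 0) + x.1 4 - (x.2 0 - x.1 3) / 3 -
        (4 / 3 * x.1 2 + (x.1 1 + x.1 0) / 3)
    fun_prop

/-- **the side conditions of `dGk`** -/
theorem realQ_gk (R : ExpRules (7 / 8 + d) r s) (hd : 0 ≤ d) (hd8 : d ≤ 1 / 8)
    {NP : ℝ → ℝ → Multiset ℝ → ℝ → ℝ → ℝ → Prop} {κ : ℝ} :
    RealQ d NP (fun l Y m a ρ => Full (7 / 8 + d) r l Y m a ρ) s₀ κ dGk := by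
  intro K V z₁ z₂ z₃ F hK hA
  have hfl : 4 / 3 * (z₁ + z₂ + z₃) + (V + K) / 3 ≤ flK K V (z₁ + z₂ + z₃) := by
    unfold NE73.flK
    have := le_max_right 0 ((V + K - 2 * (z₁ + z₂ + z₃)) / 3)
    linarith
  have h1 := hA.h1
  have h2 := hA.h2
  have h3 := hA.h3
  have hV := hA.V0
  have hK0 := hA.K0
  have hF1 := hA.F1
  refine ⟨by linarith, ?_⟩
  intro j θ Y' m' a' i hs hm0 hm1 ha0 ha1 hi0 hi1 hG hz
  obtain rfl : m' = 0 := le_antisymm hm1 hm0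
  obtain rfl : a' = 0 := le_antisymm ha1 ha0
  obtain ⟨y₁, y₂, y₃, rfl, a1, b1, a2, b2, a3, b3⟩ := sh3 hs
  rw [sum3n, sum3n] at hG ⊢
  have hmy : min y₁ (min y₂ y₃) ≤ min z₁ (min z₂ z₃) := min_le_min b1 (min_le_min b2 b3)
  have hdy := (mul_le_mul_of_nonneg_left hmy (by linarith : (0:ℝ) ≤ 2 * d)).trans hA.F0
  obtain ⟨q, hq⟩ : ∃ q, q = θ.1 0 := ⟨_, rfl⟩
  have hiq : i - q ≤ 0 := hq ▸ hG
  show Full (7 / 8 + d) r i {y₁, y₂, y₃} 0 0 (flK K V (z₁ + z₂ + z₃) + F +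
    (θ.1 0 + min ((z₁ + z₂ + z₃) / 4) (3 / 8 * θ.1 0) + (y₁ + y₂ + y₃) - (θ.1 0 - i) / 3 -
      (4 / 3 * (z₁ + z₂ + z₃) + (V + K) / 3)))
  rw [← hq]
  obtain ⟨t1, t2, t3, t4, t5, t6⟩ := R2N777.l3_leN i (min y₁ i) (min y₂ i) (min y₃ i)
  have p1 := min_le_left y₁ i
  have p2 := min_le_left y₂ i
  have p3 := min_le_left y₃ i
  have p4 : P1R904.l3 i (min y₁ i) (min y₂ i) (min y₃ i) ≤ min y₁ (min y₂ y₃) :=
    le_min (by linarith) (le_min (by linarith) (by linarith))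
  have p5 := mul_le_mul_of_nonneg_left p4 (by linarith : (0:ℝ) ≤ 2 * d)
  have p6 : 3 / 4 * P1R904.l3 i (min y₁ i) (min y₂ i) (min y₃ i) ≤
      min ((z₁ + z₂ + z₃) / 4) (3 / 8 * q) := le_min (by linarith) (by linarith)
  refine full_P1 R hd hd8 a1 a2 a3 ?_ ?_
  · unfold P1R904.r3
    linarith
  · have hm0 : 0 ≤ min ((z₁ + z₂ + z₃) / 4) (3 / 8 * q) := le_min (by linarith) (by linarith)
    linarith

end Crest.Agent.R017.RGB545
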