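import Crest.Agent.R017.NAh_144
import Crest.Agent.R017.NGl_708

/-!
# Row 17, near field (helper144): class N at the final constants

* `qmF`, `LNf` : the range of the line of `NumEq`; the lines of class N at `c`
* `RgNl`, `EqNl`, `OsNl` : the three open leaves of class N as propositions
* **`near_N3`** : the field `near` of helper986's `LvN` from them
-/

set_option autoImplicit false

noncomputable section

open Complex

namespace Crest.Agent.R017.NAz144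

open Crest.Agent.R012 Crest.Agent.R012.Eis
open Crest.Agent.R012.MC (Wgt)
open Crest.Agent.R017.FE47 Crest.Agent.R017.End699
open Crest.Agent.R017.B770 Crest.Agent.R017.BxH986
open Crest.Agent.R017.Prov71 Crest.Agent.R017.ER911
open Crest.Agent.R017.Fin4 Crest.Agent.R017.Fin5 Crest.Agent.R017.Fin6
open Crest.Agent.R017.RGB545
open Crest.Agent.R017.NE499 (hS NumOs)
open Crest.Agent.R017.NEc180 (NumEq)
open Crest.Agent.R017.NEg551 (NLeaf)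
open Crest.Agent.R017.WDec180 (WD)
open Crest.Agent.R017.NLn180 (RgN)
open Crest.Agent.R017.NLg777 (QfZ)
open Crest.Agent.R017.NZN551 (p0 p1 pb)
open Crest.Agent.R017.NrA986 (NearAll)
open Crest.Agent.R017.NAg144 (OpL Lv3 Cst4)

/-- the range of the line of `NumEq` -/
def qmF (c K _V n : ℝ) : ℝ := K - 3 * (max 0 ((4 * n - 3 * K) / 9) + 20 * c) + c

lemma contH_qmF (c : ℝ) : ContH (qmF c) := by
  unfold RGB545.ContH qmF
  fun_prop

variable {Lam : Type*}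

/-- the lines of class N at `c` (`E` = the constant of the last entry, in units of `c`) -/
abbrev LNf (π : Lam → DPar) (h : ℝ → ℝ) (E c : ℝ) :
    (((Unit ⊕ Unit) ⊕ Unit) ⊕ Unit) → Line Lam 9 :=
  LNk π h ((DN TqB (qmF c) (21 * c) (30 * c) (2000 * c) (E * c)).sum dGk)

/-- **leaf (Rg)** -/
def RgNl (π : Lam → DPar) (h : ℝ → ℝ) (E : ℝ) : Prop :=
  ∀ w : ℝ → ℝ, Wgt w → (∀ x, 0 ≤ w x) → ∀ (Nw : ℕ) (Mw : ℝ) (Fw : ℕ → ℝ → ℂ), WD w Nw Mw Fw →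
    ∀ K v c : ℝ, 0 < c → 1000000 * c ≤ K → 0 ≤ v → 3 * v + 100 * c ≤ 2 * K →
      NLeaf π h (RgN Nw Mw Fw hS (12 * (c / K))) (LNf π h E c) (p0 c K) (p1 c K) (pb c K) K v c

/-- **leaf (Eq)**, `C₀ = exp (2 + Nw)` -/
def EqNl (π : Lam → DPar) (h : ℝ → ℝ) (E : ℝ) : Prop :=
  ∀ w : ℝ → ℝ, Wgt w → (∀ x, 0 ≤ w x) → ∀ (Nw : ℕ) (Mw : ℝ) (Fw : ℕ → ℝ → ℂ), WD w Nw Mw Fw →
    ∀ K v c : ℝ, 0 < c → 1000000 * c ≤ K → 0 ≤ v → 3 * v + 100 * c ≤ 2 * K →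
      NLeaf π h (fun q α Rn => NumEq Nw Mw Fw (QfZ (Real.exp (2 + Nw)) q) q.Cw q.η q.Aw q.K q.X
        q.R q.J q.D q.E0 (hS q) q.N₁ α Rn) (LNf π h E c) (p0 c K) (p1 c K) (pb c K) K v c

/-- **leaf (Os)** -/
def OsNl (π : Lam → DPar) (h : ℝ → ℝ) (E : ℝ) : Prop :=
  ∀ w : ℝ → ℝ, Wgt w → (∀ x, 0 ≤ w x) →
    ∀ K v c : ℝ, 0 < c → 1000000 * c ≤ K → 0 ≤ v → 3 * v + 100 * c ≤ 2 * K →
      NLeaf π h (fun q α Rn => NumOs w q.Cw q.η q.Aw q.K q.X q.K q.R q.J q.D q.E0 q.E1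
        (q.B / q.E0) (q.N₁ / 2) q.N₁ α Rn) (LNf π h E c) (p0 c K) (p1 c K) (pb c K) K v c

theorem opL_of {π : Lam → DPar} {h : ℝ → ℝ} {E : ℝ} (h1 : RgNl π h E) (h2 : EqNl π h E)
    (h3 : OsNl π h E) : OpL π h (LNf π h E) := by
  intro w hw hw0 Nw Mw Fw hD
  refine ⟨Real.exp (2 + Nw), Real.exp_pos _, ?_⟩
  intro K v c hc hcK hv hv3
  exact ⟨h1 w hw hw0 Nw Mw Fw hD K v c hc hcK hv hv3, h2 w hw hw0 Nw Mw Fw hD K v c hc hcK hv hv3,
    h3 w hw hw0 K v c hc hcK hv hv3⟩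

lemma cst4 {E : ℝ} (hE0 : 0 ≤ E) (hE1 : E ≤ 500) : Cst4 21 30 2000 E where
  a0 := by norm_num
  a1 := by norm_num
  b0 := by norm_num
  b1 := by norm_num
  m0 := by norm_num
  m1 := by norm_num
  e0 := hE0
  e1 := hE1

/-- **the field `near` of class N** from the three leaves -/
theorem near_N3 {d : ℝ} (hd : 0 < d) (hd1 : d ≤ 1 / 42) {h : ℝ → ℝ} {c₀ : ℝ} (hpu : PU h c₀)
    (hPF : PF Set.univ (7 / 8 + d)) (hB : BunA d h) (hR : RecA d h) {E : ℝ} (hE0 : 0 ≤ E)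
    (hE1 : E ≤ 500) (h1 : RgNl πN h E) (h2 : EqNl πN h E) (h3 : OsNl πN h E) :
    NearAll d (ex Dq (fun lam => S0p (πN lam) h)) :=
  NAg144.near_N hd hd1 hpu hPF hB hR (cst4 hE0 hE1) (fun c _ => contH_qmF c) dGk_ok
    (fun _ _ => realQ_gk (hB _ πN πN_ok πN_cl).rules hd.le (by linarith)) (opL_of h1 h2 h3)

end Crest.Agent.R017.NAz144
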