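import Crest.Agent.R017.N2r_435
import Crest.Agent.R017.NAz_144

/-!
# Row 17, FlatNE (helper435): the R-half of `Num2` at the near leaf, class N, final parameters

* `rg_leafN` : `rg_leaf` at helper49's parameters
* `rgNl` : helper144's open leaf `RgNl`
  (the texts are helper106's N2f, N2g)
-/

set_option autoImplicit false
set_option linter.unusedVariables false

noncomputable section

open Finset

namespace Crest.Agent.R017.N2S435

open Crest.Agent.R012 Crest.Agent.R012.Eis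
open Crest.Agent.R017.B770
open Crest.Agent.R017.Prov71
open Crest.Agent.R017.FE47 (cx PU)
open Crest.Agent.R017.MoL106 (PM2)
open Crest.Agent.R017.WDec180 (WD sc)
open Crest.Agent.R017.RGB545
open Crest.Agent.R017.NEg551 (NFacts NTc NNum NLeaf LBq)
open Crest.Agent.R017.NLn180 (RgN)
open Crest.Agent.R017.NE499 (hS)
open Crest.Agent.R017.NZN551 (p0 p1 pb)
open Crest.Agent.R017.NAz144 (RgNl LNf)

variable {Lam ι : Type*}

/-- **the R-number of the cross error at the near leaf**, class N, at the parameters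
`E0 = X ^ (9/22 F3 + 10 c)`, `B = X ^ (31/22 F3 + 31 c)`; the line `j₀` is the pair line with
`hh = 3 F3 + 63 c` -/
theorem rg_leafN {π : Lam → DPar} (hP : ∀ lam, (π lam).OK) {h : ℝ → ℝ} {c₁ : ℝ}
    (hpu : PU h c₁) {w : ℝ → ℝ} {Nw : ℕ} {Mw : ℝ} {Fw : ℕ → ℝ → ℂ} (hD : WD w Nw Mw Fw)
    {hf : LBq → ℝ} (hfe : ∀ p : LBq, hf p = 3 * Real.log (p.B / p.E0))
    {L : ι → Line Lam 9} {j₀ : ι} {K v c : ℝ} (hc : 0 < c) (hcK : 1000000 * c ≤ K) (hv : 0 ≤ v)
    (hΦ : ∀ lam l b ps, (L j₀).Φ lam l b ps = PM2 (π lam) h l b ps)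
    (hb : ∀ θ, (L j₀).b θ = θ 0) (hzl : ¬ (L j₀).zl)
    (hG : ∀ x θ, (L j₀).G x θ = GR2 (hC (21 * c)) x θ) (hFR : ∀ x θ, (L j₀).F x θ = FR2 x θ)
    (φ₁ : ℝ → ℝ → ℝ → ℝ) :
    NLeaf π h (RgN Nw Mw Fw hf (12 * (c / K))) L
      (fun _ _ m => 9 / 22 * max 0 ((4 * m - 3 * K) / 9) + 10 * c) φ₁
      (fun _ _ m => 31 / 22 * max 0 ((4 * m - 3 * K) / 9) + 31 * c) K v c := by
  have hK : 0 < K := by linarith
  have hF : ∀ m : ℝ, 0 ≤ max 0 ((4 * m - 3 * K) / 9) := fun m => le_max_left _ _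
  have hF9 : ∀ m : ℝ, 9 * max 0 ((4 * m - 3 * K) / 9) = max 0 (4 * m - 3 * K) := fun m => by
    rw [mul_max_of_nonneg _ _ (by norm_num : (0 : ℝ) ≤ 9), mul_zero]
    congr 1
    ring
  have hF45 : ∀ a m : ℝ, 5 * a ≤ 4 * K + c → m ≤ a + c →
      max 0 ((4 * m - 3 * K) / 9) ≤ K / 45 + 6 / 10 * c := fun a m h1 h2 =>
    max_le (by positivity) (by linarith)
  refine N2R435.rg_leaf hP hpu hD hfe (hl := hC (21 * c)) (j₀ := j₀)
    hc hcK hv (by positivity) ?_ hΦ hb hzl hG hFR ?_ ?_ ?_ ?_ ?_ ?_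
  · have h1 : c / K ≤ 1 / 1000000 := by
      rw [div_le_div_iff₀ hK (by norm_num)]; linarith
    linarith
  · intro a u m
    have := hF m
    show 0 ≤ 9 / 22 * max 0 ((4 * m - 3 * K) / 9) + 10 * c
    linarith
  · intro a u m
    have h1 := hF9 m
    have h2 := hF m
    show 9 * (9 / 22 * max 0 ((4 * m - 3 * K) / 9) + 10 * c) ≤ max 0 (4 * m - 3 * K) + K / 100
    rw [← h1]
    linarith
  · intro a u m h1 h2
    have := hF45 a m h1 h2
    show 40 * (9 / 22 * max 0 ((4 * m - 3 * K) / 9) + 10 * c) ≤ K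
    linarith
  · intro a u m
    have := hF m
    show 9 / 22 * max 0 ((4 * m - 3 * K) / 9) + 10 * c ≤
      31 / 22 * max 0 ((4 * m - 3 * K) / 9) + 31 * c
    linarith
  · intro a u m h1 h2
    have := hF45 a m h1 h2
    show 42 * (31 / 22 * max 0 ((4 * m - 3 * K) / 9) + 31 * c -
      (9 / 22 * max 0 ((4 * m - 3 * K) / 9) + 10 * c)) ≤ K
    linarith
  · intro a u m
    show 3 * (31 / 22 * max 0 ((4 * m - 3 * K) / 9) + 31 * c -
      (9 / 22 * max 0 ((4 * m - 3 * K) / 9) + 10 * c)) ≤ hC (21 * c) K u m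
    unfold RGB545.hC
    linarith

/-- **the leaf (Rg)** of helper144's `near_N3`, any data -/
theorem rgNl {Lam : Type*} {π : Lam → DPar} (hP : ∀ lam, (π lam).OK) {h : ℝ → ℝ} {c₁ : ℝ}
    (hpu : PU h c₁) (E : ℝ) : RgNl π h E := by
  intro w hw hw0 Nw Mw Fw hD K v c hc hcK hv hv3
  exact rg_leafN hP hpu hD (fun _ => rfl) (j₀ := .inl (.inl (.inl ()))) hc hcK hv
    (fun _ _ _ _ => rfl) (fun _ => rfl) id (fun _ _ => rfl) (fun _ _ => rfl) (p1 c K)

end Crest.Agent.R017.N2S435
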