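import Crest.Agent.R017.LBo_813

/-!
# Row 17, near field (FlatNE), the level weight (helper551)

* `rhs N₁` : `(3 Om - Om²)/2` with the smooth cutoff `Om (N₁/2) N₁`
-/

set_option autoImplicit false

noncomputable section

namespace Crest.Agent.R017.NEsm551

open Crest.Agent.R017.LBo813

/-- the weight `(3 Om - Om ^ 2) / 2`, `Om = Om (N₁ / 2) N₁` -/
def rhs (N₁ n : ℕ) : ℝ := (3 * Om (N₁ / 2) N₁ n - Om (N₁ / 2) N₁ n ^ 2) / 2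

lemma Om_01 (N₁ n : ℕ) : 0 ≤ Om (N₁ / 2) N₁ n ∧ Om (N₁ / 2) N₁ n ≤ 1 :=
  ⟨Om_nonneg _ _ _, Om_le_one _ _ _⟩

lemma half_pos' {N₁ : ℕ} (h : 2 ≤ N₁) : 1 ≤ N₁ / 2 := by omega

lemma rhs_one {N₁ : ℕ} (h : 2 ≤ N₁) {n : ℕ} (hn : n ≤ N₁ / 2) : rhs N₁ n = 1 := by
  unfold rhs; rw [Om_one (half_pos' h) (by omega) hn]; norm_num

lemma rhs_zero {N₁ : ℕ} (h : 2 ≤ N₁) {n : ℕ} (hn : N₁ < n) : rhs N₁ n = 0 := by
  unfold rhs; rw [Om_zero (half_pos' h) (by omega) hn]; norm_num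

lemma rhs_anti {N₁ : ℕ} (h : 2 ≤ N₁) : Antitone (rhs N₁) := by
  intro a b hab
  have h1 := Om_anti (half_pos' h) (by omega : N₁ / 2 ≤ N₁) hab
  have h2 := Om_le_one (N₁ / 2) N₁ a
  have h3 := Om_le_one (N₁ / 2) N₁ b
  have h4 := Om_nonneg (N₁ / 2) N₁ a
  have h5 := Om_nonneg (N₁ / 2) N₁ b
  unfold rhs
  nlinarith

end Crest.Agent.R017.NEsm551
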