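import Crest.Agent.R017.LBd_48
import Crest.Agent.R017.NEr_551

/-!
# Row 17, near field (FlatNE), (LB) with a smooth level cut (helper551)

The cross term of the main forms is absorbed by the main form itself: with
`ρ = (3 Om - Om²)/2` the defect is the **square** of the tail `e > E0` only, for every
`0 ≤ Om ≤ 1` (no sharp cut is needed, so the off-diagonal part may use a smooth `Om`).

* `sum_tot`, `BB_tot`, `BB_cs` : the density form is positive semidefinite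
* `comb_m` : the defect
-/

set_option autoImplicit false

noncomputable section

open Complex MeasureTheory
open scoped ComplexConjugate Classical

namespace Crest.Agent.R017.NEsm551

open Crest.Agent.R012 Crest.Agent.R012.Eis Crest.Agent.R012.MC
open Crest.Agent.R012.LS2 (S mem_S)
open Crest.Agent.R012.Mob705
open Crest.Agent.R012.Div277 (tau)
open Crest.Agent.R017.PX764 (Gh n6)
open Crest.Agent.R017.X6C180 (n13)
open Crest.Agent.R017.CM106 (CS TG FS)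
open Crest.Agent.R017.DgA829 (lc lc_prim nm_lc)
open Crest.Agent.R017.DgB829 (HS HS_nonneg HS_le sum_dvd_pdiv)
open Crest.Agent.R017.E2440 (TE Jb Qs prs C4 StE)
open Crest.Agent.R017.I1146

/-! ### the density form is positive -/

/-- the totient -/
def tot (d : Eis) : ℝ := ∏ p ∈ pp d, ((nm p : ℝ) - 1)

lemma tot_nonneg (d : Eis) : 0 ≤ tot d := by
  refine Finset.prod_nonneg fun p hp => ?_
  have h1 := (isPP_of_mem_pp hp).one_lt_nm
  have h2 : (1 : ℝ) < nm p := by exact_mod_cast h1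
  linarith

lemma nm_prod (T : Finset Eis) : ((nm (∏ p ∈ T, p) : ℕ) : ℝ) = ∏ p ∈ T, (nm p : ℝ) := by
  classical
  induction T using Finset.induction_on with
  | empty => simp
  | insert a T ha ih => rw [Finset.prod_insert ha, Finset.prod_insert ha, nm_mul]; push_cast; rw [ih]

lemma sum_tot {g : Eis} (hg : IsPrim g) (hs : Squarefree g) :
    ∑ d ∈ pdiv g, tot d = nm g := by
  have h1 := sum_pdiv_mu_mul (R := ℝ) hg.ne_zero (fun d => (mu d : ℝ) * tot d) (by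
    intro T hT
    have e1 : ∏ p ∈ T, ((mu p : ℝ) * tot p) = ∏ p ∈ T, ((-1) * ((nm p : ℝ) - 1)) := by
      refine Finset.prod_congr rfl fun p hp => ?_
      rw [mu_prime (hT p hp)]
      unfold tot
      rw [pp_prime (hT p hp)]
      simp
    have e2 : ((mu (∏ p ∈ T, p) : ℤ) : ℝ) = (-1) ^ T.card := by
      rw [hT.mu_prod]; push_cast; rfl
    have e3 : tot (∏ p ∈ T, p) = ∏ p ∈ T, ((nm p : ℝ) - 1) := by
      unfold tot
      rw [hT.pp_prod]
    rw [e1, e2, e3, Finset.prod_mul_distrib, Finset.prod_const])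
  have e1 : ∑ d ∈ pdiv g, ((mu d : ℤ) : ℝ) * ((mu d : ℝ) * tot d) = ∑ d ∈ pdiv g, tot d := by
    refine Finset.sum_congr rfl fun d hd => ?_
    have hd' := (mem_pdiv hg.ne_zero).1 hd
    have h3 := mu_sq d
    rw [if_pos (hs.squarefree_of_dvd hd'.2)] at h3
    have h4 : ((mu d : ℤ) : ℝ) ^ 2 = 1 := by exact_mod_cast h3
    calc ((mu d : ℤ) : ℝ) * ((mu d : ℝ) * tot d) = ((mu d : ℤ) : ℝ) ^ 2 * tot d := by ring
      _ = tot d := by rw [h4, one_mul]
  rw [e1] at h1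
  rw [h1]
  have e2 : ∏ p ∈ pp g, (1 - (mu p : ℝ) * tot p) = ∏ p ∈ pp g, (nm p : ℝ) := by
    refine Finset.prod_congr rfl fun p hp => ?_
    have hpp := isPP_of_mem_pp hp
    rw [mu_prime hpp]
    unfold tot
    rw [pp_prime hpp]
    simp
  rw [e2, ← nm_prod, prod_pp hg hs]

/-- the linear forms -/
def AL (Y : ℝ) (U : Eis → ℂ) (e : Eis) : ℂ :=
  ∑ t ∈ S Y, if e ∣ t then (mu t : ℂ) * U t * ((nm t : ℝ) : ℂ)⁻¹ else 0

lemma BB_tot {Y : ℝ} (hY : 0 ≤ Y) (U V : Eis → ℂ) :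
    BB Y U V = ∑ e ∈ S Y, ((tot e : ℝ) : ℂ) * (AL Y U e * conj (AL Y V e)) := by
  have e1 : ∀ e ∈ S Y, ((tot e : ℝ) : ℂ) * (AL Y U e * conj (AL Y V e)) =
      ∑ t ∈ S Y, ∑ t' ∈ S Y, (if e ∣ t ∧ e ∣ t' then ((tot e : ℝ) : ℂ) else 0) *
        (((mu t : ℂ) * U t * ((nm t : ℝ) : ℂ)⁻¹) * conj ((mu t' : ℂ) * V t' * ((nm t' : ℝ) : ℂ)⁻¹)) := by
    intro e _
    unfold AL
    rw [map_sum, Finset.sum_mul_sum, Finset.mul_sum]
    refine Finset.sum_congr rfl fun t _ => ?_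
    rw [Finset.mul_sum]
    refine Finset.sum_congr rfl fun t' _ => ?_
    by_cases h1 : e ∣ t
    · by_cases h2 : e ∣ t'
      · rw [if_pos h1, if_pos h2, if_pos ⟨h1, h2⟩]
      · rw [if_neg h2, if_neg (show ¬ (e ∣ t ∧ e ∣ t') from fun h => h2 h.2)]
        simp only [map_zero, mul_zero, zero_mul]
    · rw [if_neg h1, if_neg (show ¬ (e ∣ t ∧ e ∣ t') from fun h => h1 h.1)]
      simp only [mul_zero, zero_mul]
  rw [Finset.sum_congr rfl e1]
  have e2 : ∑ e ∈ S Y, ∑ t ∈ S Y, ∑ t' ∈ S Y, (if e ∣ t ∧ e ∣ t' then ((tot e : ℝ) : ℂ) else 0) *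
        (((mu t : ℂ) * U t * ((nm t : ℝ) : ℂ)⁻¹) * conj ((mu t' : ℂ) * V t' * ((nm t' : ℝ) : ℂ)⁻¹)) =
      ∑ t ∈ S Y, ∑ t' ∈ S Y, ∑ e ∈ S Y, (if e ∣ t ∧ e ∣ t' then ((tot e : ℝ) : ℂ) else 0) *
        (((mu t : ℂ) * U t * ((nm t : ℝ) : ℂ)⁻¹) * conj ((mu t' : ℂ) * V t' * ((nm t' : ℝ) : ℂ)⁻¹)) := by
    rw [Finset.sum_comm]
    exact Finset.sum_congr rfl fun t _ => Finset.sum_comm
  rw [e2]
  unfold I1146.BB
  refine Finset.sum_congr rfl fun t ht => Finset.sum_congr rfl fun t' ht' => ?_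
  rw [← Finset.sum_mul]
  have p1 := (mem_S hY).1 ht
  have p2 := (mem_S hY).1 ht'
  obtain ⟨g, hg, hg1, hg2, hg4, hg3, -⟩ := nm_lc p1.2.1 p2.2.1 p1.2.2 p2.2.2
  have hgS : g ∈ S Y := Dual2813.S_of_dvd hY ht hg hg1
  have hgs := ((mem_S hY).1 hgS).2.2
  have n1 : (nm t : ℝ) ≠ 0 := by
    have := nm_pos.2 p1.2.1.ne_zero
    positivity
  have n2 : (nm t' : ℝ) ≠ 0 := by
    have := nm_pos.2 p2.2.1.ne_zero
    positivity
  have n3 : (nm g : ℝ) ≠ 0 := by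
    have := nm_pos.2 hg.ne_zero
    positivity
  have n4 : (nm (lc t t') : ℝ) ≠ 0 := by
    have := nm_pos.2 (lc_prim p1.2.1 p2.2.1).ne_zero
    positivity
  have e3 : ∑ e ∈ S Y, (if e ∣ t ∧ e ∣ t' then ((tot e : ℝ) : ℂ) else 0) = ((nm g : ℝ) : ℂ) := by
    have h1 : ∀ e ∈ S Y, (if e ∣ t ∧ e ∣ t' then ((tot e : ℝ) : ℂ) else 0) =
        if e ∣ g then ((tot e : ℝ) : ℂ) else 0 := by
      intro e _
      have : (e ∣ t ∧ e ∣ t') ↔ e ∣ g :=
        ⟨fun h => hg4 e h.1 h.2, fun h => ⟨h.trans hg1, h.trans hg2⟩⟩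
      by_cases h : e ∣ g
      · rw [if_pos h, if_pos (this.2 h)]
      · rw [if_neg h, if_neg (fun h' => h (this.1 h'))]
    rw [Finset.sum_congr rfl h1, sum_dvd_pdiv hY hgS, ← Complex.ofReal_sum, sum_tot hg hgs]
  rw [e3]
  have h5 : ((nm (lc t t') : ℝ) : ℂ)⁻¹ = ((nm g : ℝ) : ℂ) * (((nm t : ℝ) : ℂ)⁻¹ * ((nm t' : ℝ) : ℂ)⁻¹) := by
    have h6 : (nm (lc t t') : ℝ)⁻¹ = (nm g : ℝ) * ((nm t : ℝ)⁻¹ * (nm t' : ℝ)⁻¹) := by
      field_simp
      linarith
    have h7 := congrArg (fun x : ℝ => (x : ℂ)) h6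
    push_cast at h7
    push_cast
    exact h7
  rw [h5]
  have h8 : conj ((mu t' : ℤ) : ℂ) = ((mu t' : ℤ) : ℂ) := map_intCast (starRingEnd ℂ) _
  rw [map_mul, map_mul, map_inv₀, Complex.conj_ofReal, h8]
  ring

lemma two_re_le (a b : ℂ) : 2 * (a * conj b).re ≤ 2⁻¹ * Complex.normSq a + 2 * Complex.normSq b := by
  have h : 0 ≤ Complex.normSq (a - 2 * b) := Complex.normSq_nonneg _
  have h2 : Complex.normSq (a - 2 * b) = Complex.normSq a + 4 * Complex.normSq b -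
      4 * (a * conj b).re := by
    rw [Complex.normSq_sub]
    simp only [map_mul, Complex.normSq_mul, Complex.conj_ofNat]
    have : Complex.normSq (2 : ℂ) = 4 := by
      rw [Complex.normSq_apply]; norm_num
    rw [this]
    have e : (a * (2 * conj b)).re = 2 * (a * conj b).re := by
      rw [show a * (2 * conj b) = ((2 : ℝ) : ℂ) * (a * conj b) by push_cast; ring,
        Complex.re_ofReal_mul]
    rw [e]
    ring
  rw [h2] at h
  linarith

/-- Cauchy-Schwarz for the density form -/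
lemma BB_cs {Y : ℝ} (hY : 0 ≤ Y) (U V : Eis → ℂ) :
    2 * (BB Y U V).re ≤ 2⁻¹ * (BB Y U U).re + 2 * (BB Y V V).re := by
  rw [BB_tot hY, BB_tot hY, BB_tot hY]
  simp only [Complex.re_sum, Complex.re_ofReal_mul]
  rw [Finset.mul_sum, Finset.mul_sum, Finset.mul_sum, ← Finset.sum_add_distrib]
  refine Finset.sum_le_sum fun e _ => ?_
  have h := two_re_le (AL Y U e) (AL Y V e)
  have h0 := tot_nonneg e
  have e1 : (AL Y U e * conj (AL Y U e)).re = Complex.normSq (AL Y U e) := by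
    rw [Complex.mul_conj, Complex.ofReal_re]
  have e2 : (AL Y V e * conj (AL Y V e)).re = Complex.normSq (AL Y V e) := by
    rw [Complex.mul_conj, Complex.ofReal_re]
  rw [e1, e2]
  have := mul_le_mul_of_nonneg_left h h0
  linarith

/-! ### the defect -/

/-- the weight -/
def rhm (Om : ℕ → ℝ) (n : ℕ) : ℝ := (3 * Om n - Om n ^ 2) / 2

theorem comb_m {Y : ℝ} (hY : 0 ≤ Y) {α : Eis → ℂ} (hα : ∀ n, α n ≠ 0 → n ∈ S Y)
    {J : Finset (Eis × Eis)} (hJ : Crest.Agent.R017.C70.OKJ J) (E0 : ℝ) {Om : ℕ → ℝ}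
    (h0 : ∀ n, 0 ≤ Om n) (h1 : ∀ n, Om n ≤ 1) :
    (E1551.XJw (rhm Om) J α).re - 2 * (I1146.X2 Y E0 J (omr Om) α).re +
      (I1146.X3 Y E0 J (omr Om) α).re ≤
      2 * (HS Y * ∑ x ∈ J, n13 x.2 * M2o Y E0 α x) := by
  have key := comb_w hY hα hJ E0 (Om := Om) (ρ := fun n => 2 * Om n - Om n ^ 2) (fun n => rfl)
  have e1 : (E1551.XJw (rhm Om) J α).re = (E1551.XJw (fun n => 2 * Om n - Om n ^ 2) J α).re -
      ∑ x ∈ J, px x * (Om (nm (x.2 * x.1 ^ 2)) * (1 - Om (nm (x.2 * x.1 ^ 2))) *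
        (2⁻¹ * (BB Y (TE α x) (TE α x)).re)) := by
    unfold E1551.XJw
    simp only [Complex.re_sum]
    rw [← Finset.sum_sub_distrib]
    refine Finset.sum_congr rfl fun x hx => ?_
    rw [XT_eq hY hα hJ hx]
    unfold rhm
    simp only [← mul_assoc, ← Complex.ofReal_mul, Complex.re_ofReal_mul]
    ring
  rw [e1]
  have e2 : (E1551.XJw (fun n => 2 * Om n - Om n ^ 2) J α).re -
      ∑ x ∈ J, px x * (Om (nm (x.2 * x.1 ^ 2)) * (1 - Om (nm (x.2 * x.1 ^ 2))) *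
        (2⁻¹ * (BB Y (TE α x) (TE α x)).re)) - 2 * (I1146.X2 Y E0 J (omr Om) α).re +
      (I1146.X3 Y E0 J (omr Om) α).re =
      ∑ x ∈ J, px x * (2 * Om (nm (x.2 * x.1 ^ 2)) * (1 - Om (nm (x.2 * x.1 ^ 2))) *
        (BB Y (TE α x) (tl E0 (TE α x))).re +
        Om (nm (x.2 * x.1 ^ 2)) ^ 2 * (BB Y (tl E0 (TE α x)) (tl E0 (TE α x))).re) -
      ∑ x ∈ J, px x * (Om (nm (x.2 * x.1 ^ 2)) * (1 - Om (nm (x.2 * x.1 ^ 2))) *
        (2⁻¹ * (BB Y (TE α x) (TE α x)).re)) := by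
    rw [← key]; ring
  rw [e2, ← Finset.sum_sub_distrib, Finset.mul_sum, Finset.mul_sum]
  refine Finset.sum_le_sum fun x hx => ?_
  have hU : ∑ t ∈ S Y, (tau t : ℝ) / nm t * ‖tl E0 (TE α x) t‖ ^ 2 = M2o Y E0 α x := by
    unfold M2o
    rw [Finset.sum_filter]
    refine Finset.sum_congr rfl fun t _ => ?_
    unfold tl trunc
    by_cases h : t ∈ S E0
    · rw [if_pos h, if_neg (fun h' => h' h), sub_self, norm_zero]; ring
    · rw [if_neg h, if_pos h, sub_zero]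
  have b2 := (Complex.re_le_norm _).trans (BB_le hY (tl E0 (TE α x)))
  rw [hU] at b2
  have b1 := BB_cs hY (TE α x) (tl E0 (TE α x))
  have h8 : px x ≤ n13 x.2 := by
    unfold px
    have := Mob705.PE_le_one x.1
    have := X6C180.n13_nonneg x.2
    nlinarith
  have hp := px_nonneg x
  set a := Om (nm (x.2 * x.1 ^ 2)) with ha
  have a0 : 0 ≤ a := h0 _
  have a1 : a ≤ 1 := h1 _
  have a2 : 0 ≤ a * (1 - a) := mul_nonneg a0 (by linarith)
  set T := (BB Y (TE α x) (TE α x)).re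
  set U := (BB Y (tl E0 (TE α x)) (tl E0 (TE α x))).re
  set V := (BB Y (TE α x) (tl E0 (TE α x))).re
  have hm : 0 ≤ M2o Y E0 α x := M2o_nonneg Y E0 α x
  have hH := HS_nonneg Y
  have h9 : 2 * a * (1 - a) * V + a ^ 2 * U - a * (1 - a) * (2⁻¹ * T) ≤
      (2 * (a * (1 - a)) + a ^ 2) * U := by
    have := mul_le_mul_of_nonneg_left b1 a2
    nlinarith
  have h10 : (2 * (a * (1 - a)) + a ^ 2) * U ≤ 2 * (HS Y * M2o Y E0 α x) := by
    have h11 : (2 * (a * (1 - a)) + a ^ 2) * U ≤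
        (2 * (a * (1 - a)) + a ^ 2) * (HS Y * M2o Y E0 α x) :=
      mul_le_mul_of_nonneg_left b2 (by nlinarith)
    have h12 : 0 ≤ HS Y * M2o Y E0 α x := mul_nonneg hH hm
    have h13 : 2 * (a * (1 - a)) + a ^ 2 ≤ 2 := by nlinarith
    exact h11.trans (mul_le_mul_of_nonneg_right h13 h12)
  calc px x * (2 * a * (1 - a) * V + a ^ 2 * U) - px x * (a * (1 - a) * (2⁻¹ * T)) =
        px x * (2 * a * (1 - a) * V + a ^ 2 * U - a * (1 - a) * (2⁻¹ * T)) := by ring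
    _ ≤ px x * (2 * (HS Y * M2o Y E0 α x)) := mul_le_mul_of_nonneg_left (h9.trans h10) hp
    _ ≤ n13 x.2 * (2 * (HS Y * M2o Y E0 α x)) :=
        mul_le_mul_of_nonneg_right h8 (by positivity)
    _ = 2 * (HS Y * (n13 x.2 * M2o Y E0 α x)) := by ring

end Crest.Agent.R017.NEsm551
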