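import Crest.Agent.R017.LBd_48
import Crest.Agent.R017.NEsa_551

/-!
# Row 17, FlatNE (helper499, helper551): (LB) with a smooth level cut, plain weight

With `ρ = (3 Om - Om²)/2`, `0 ≤ Om ≤ 1`, the defect of the main forms is the **square** of the tail `e > E0` only
(no term `lam EHf`, no `lam⁻¹`).

* `M2J` : the tail squares
* `LBsq` : `2 cP K^(2/3) XJw ρ - SqP ≤ C P^ε ((K/X) θ EHs + K^(2/3) M2J + e₂ + et + OFF)`
-/

set_option autoImplicit false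

noncomputable section

open Complex MeasureTheory
open scoped ComplexConjugate Classical

namespace Crest.Agent.R017.NE499

open Crest.Agent.R012 Crest.Agent.R012.Eis Crest.Agent.R012.MC
open Crest.Agent.R012.LS2 (S mem_S)
open Crest.Agent.R012.Mob705 (pdiv kap0)
open Crest.Agent.R012.Div277 (tau)
open Crest.Agent.R017.PX764 (Gh n6)
open Crest.Agent.R017.X6C180 (n13)
open Crest.Agent.R017.CM106 (CS TG FS)
open Crest.Agent.R017.E1551 hiding tau Dg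
open Crest.Agent.R017.C70 (JW JC OKJ okJ_JW)
open Crest.Agent.R017.E2440 (TE Jb Qs prs C4 StE)
open Crest.Agent.R017.EHu320 (EHc)
open Crest.Agent.R017.LB48 (CrP GrP)
open Crest.Agent.R017.I1146 (omr E2s c3 c3_nonneg LBw Dfw M2o)
open Crest.Agent.R017.E3M829 (Cut Tal TC_Tal Sg gram_fin TF)
open Crest.Agent.R017.E3A164 (SteT Ys Fy)
open Crest.Agent.R017.DgB829 (HS HS_nonneg HS_le)
open Crest.Agent.R017.LBx48

/-- the tail squares -/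
def M2J (Y E0 : ℝ) (J : Finset (Eis × Eis)) (α : Eis → ℂ) : ℝ :=
  ∑ x ∈ J, n13 x.2 * M2o Y E0 α x

lemma M2J_nonneg (Y E0 : ℝ) (J : Finset (Eis × Eis)) (α : Eis → ℂ) : 0 ≤ M2J Y E0 J α :=
  Finset.sum_nonneg fun x _ => mul_nonneg (X6C180.n13_nonneg _) (I1146.M2o_nonneg _ _ _ _)

set_option maxHeartbeats 4000000 in
/-- **(LB), smooth level cut**, defect = the square of the tail `e > E0` -/
theorem LBsq {w : ℝ → ℝ} (hw : Wgt w) (hw0 : ∀ x, 0 ≤ w x) {R : ℝ} (hR : 0 ≤ R) {A : ℕ}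
    (hA : 2 ≤ A) {ε : ℝ} (hε : 0 < ε) : ∃ C : ℝ, 0 ≤ C ∧
    ∀ (P K X Y D Y₀ Z E0 E1 B θ : ℝ), 1 ≤ P → 0 < K → K ≤ P → 0 < X → 1 ≤ Y → Y ≤ P →
    0 ≤ D → D ≤ P → 0 < Z → Z ≤ P → 0 ≤ E0 → E0 ≤ Y → 1 ≤ B → 0 < θ → B⁻¹ ≤ θ →
    (Z / K ^ 2) ^ (1 / 6 : ℝ) ≤ θ →
    ∀ α : Eis → ℂ, Adm Y X R α → ∀ Om ρ : ℕ → ℝ, (∀ n, ρ n = (3 * Om n - Om n ^ 2) / 2) →
    (∀ n, 0 ≤ Om n ∧ Om n ≤ 1) → ∀ e₂ et OFF : ℝ, 0 ≤ OFF →
    ‖CrP w K α (StE E0 (JW D Y₀ Z) (omr Om) α) -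
      ((pC * (kap0 * mel w (2 / 3) * K ^ (2 / 3 : ℝ)) : ℝ) : ℂ) *
        I1146.X2 Y E0 (JW D Y₀ Z) (omr Om) α‖ ≤ e₂ →
    ‖CrP w K α (fun k => if Cut E1 k then 0 else StE E0 (JW D Y₀ Z) (omr Om) α k)‖ ≤ et →
    Sg w K B Z E1 (fun q t k₁ => ‖∑ y ∈ Ys (JW D Y₀ Z) E0 Z,
        Fy (JW D Y₀ Z) (omr Om) (Tal α) q t k₁ y‖ ^ 2) ≤
      Sg w K B Z E1 (fun q t k₁ => E3M829.Dg (JW D Y₀ Z) (omr Om) (Tal α) E0 Z q t k₁) + OFF →
    2 * cP w * K ^ (2 / 3 : ℝ) * (XJw ρ (JW D Y₀ Z) α).re - SqP w K α ≤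
      C * P ^ ε * (((K / X) * (θ * EHs A K X Y Z E0 α) +
        K ^ (2 / 3 : ℝ) * M2J Y E0 (JW D Y₀ Z) α) + e₂ + et + OFF) := by
  obtain ⟨C₃, hC₃, H₃⟩ := TF_le R hR A hA
  obtain ⟨C₄, hC₄, H₄⟩ := gram_fin hw hw0 hε
  obtain ⟨C₅, hC₅, H₅⟩ := PInv255.one_add_log_pow_le 1 ε hε
  have hP := Cst401.pC_pos
  set M := |c3 w 1| with hM
  have hM0 : 0 ≤ M := abs_nonneg _
  set C := 2 * pC + pC ^ 2 * (2 * C₄ * C₃ + 1) + pC ^ 2 * M * (200 * C₅ * (3 * 1))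
    with hCdef
  refine ⟨C, by positivity, ?_⟩
  intro P K X Y D Y₀ Z E0 E1 B θ hP1 hK hKP hX hY hYP hD hDP hZ hZP hE0 hE0Y hB hθ hBθ hKθ
    α hα Om ρ hρ h01 e₂ et OFF hOFF he₂ het hoff
  have h0 : ∀ n, 0 ≤ Om n := fun n => (h01 n).1
  have h1 : ∀ n, Om n ≤ 1 := fun n => (h01 n).2
  obtain ⟨I, hI⟩ := pow_unbounded_of_one_lt Z (by norm_num : (1 : ℝ) < 2)
  have hY0 : 0 ≤ Y := by linarith
  have hPe : 1 ≤ P ^ ε := Real.one_le_rpow hP1 hε.le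
  set J := JW D Y₀ Z with hJ
  set om := omr Om with hom
  have hom1 : ∀ x, ‖om x‖ ≤ 1 := by
    intro x
    rw [hom]
    unfold I1146.omr
    rw [Complex.norm_real, Real.norm_of_nonneg (h0 _)]
    exact h1 _
  have hJok : OKJ J := okJ_JW D Y₀ Z
  have hJm := fun x (hx : x ∈ J) => I1146.JW_mem (Y₀ := Y₀) hD hZ hI x hx
  -- the Gram sum
  have a1 := H₄ K P Z E0 E1 B hK hP1 hKP hE0 (hE0Y.trans hYP) hZP hB J hJok
    (fun x hx => ((mem_S hD).1 (hJm x hx).1).1.trans hDP) (fun x hx => (hJm x hx).2.1) om (Tal α)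
    (TC_Tal fun n hn => ((mem_S hY0).1 (hα.sup n hn)).2.2) OFF hoff
  rw [E3M829.XT_eq hE0 hE0Y] at a1
  have e1 : GrP w K (fun k => if Cut E1 k then StE E0 J om α k else 0) =
      ∑' k : Eis, if IsPrim k ∧ Cut E1 k then
        w ((nm k : ℝ) / K) * ‖SteT J om E0 (Tal α) k‖ ^ 2 else 0 := by
    unfold LB48.GrP
    refine tsum_congr fun k => ?_
    rw [E3M829.SteT_Tal]
    beta_reduce
    by_cases h2 : IsPrim k
    · by_cases h3 : Cut E1 k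
      · rw [if_pos h2, if_pos h3, if_pos ⟨h2, h3⟩]
      · rw [if_pos h2, if_neg h3, if_neg (fun h => h3 h.2)]
        simp
    · rw [if_neg h2, if_neg (fun h => h2 h.1)]
  rw [← e1] at a1
  set TFa := TF (1 / 2) J om E0 (Tal α) with hTFa
  set TFb := TF (-1) J om E0 (Tal α) with hTFb
  have e2 : kap0 * K ^ (2 / 3 : ℝ) * E3M829.Iw w = c3 w K := by
    rw [I1146.Iw_eq]; unfold I1146.c3; ring
  rw [e2] at a1
  set e₃ := C₄ * P ^ ε * K ^ (2 / 3 : ℝ) * ((Z / K ^ 2) ^ (1 / 6 : ℝ) * TFa + B⁻¹ * TFb) + OFF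
    with he₃
  have h3 : GrP w K (fun k => if Cut E1 k then StE E0 J om α k else 0) ≤
      c3 w K * (I1146.X3 Y E0 J om α).re + e₃ := by
    rw [he₃]; linarith
  have a2 : 2 * cP w * K ^ (2 / 3 : ℝ) * (XJw ρ J α).re - SqP w K α ≤
      2 * pC * (e₂ + et) + pC ^ 2 * e₃ + pC ^ 2 * c3 w K * (HS Y * (2 * M2J Y E0 J α)) := by
    have hc := c3_nonneg hw0 hK
    have a4 := I1146.core_lb hw hw0 hK α (StE E0 J om α) (Cut E1)
      (Z₁ := XJw ρ J α) (c₃ := c3 w K) hP.le he₂ het h3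
    have a6 := NEsm551.comb_m hY0 hα.sup hJok E0 h0 h1
    have hρ' : NEsm551.rhm Om = ρ := by
      funext n
      rw [hρ n]
      rfl
    rw [hρ'] at a6
    have a6' : (XJw ρ J α).re - 2 * (I1146.X2 Y E0 J om α).re + (I1146.X3 Y E0 J om α).re ≤
        HS Y * (2 * M2J Y E0 J α) := a6.trans (le_of_eq (by unfold M2J; ring))
    have a7 : pC ^ 2 * c3 w K * ((XJw ρ J α).re -
        2 * (I1146.X2 Y E0 J om α).re + (I1146.X3 Y E0 J om α).re) ≤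
        pC ^ 2 * c3 w K * (HS Y * (2 * M2J Y E0 J α)) :=
      mul_le_mul_of_nonneg_left a6' (by positivity)
    have e1 : 2 * cP w * K ^ (2 / 3 : ℝ) * (XJw ρ J α).re =
        pC ^ 2 * c3 w K * (XJw ρ J α).re := by
      rw [Cst401.two_cP hw]
      unfold I1146.c3
      ring
    rw [e1]
    linarith
  -- the functionals
  have s0 : 0 ≤ EHs A K X Y Z E0 α := EHc_nonneg (fun n => Nat.cast_nonneg n) _ hK.le hX.le α
  have e20 : 0 ≤ e₂ := (norm_nonneg _).trans he₂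
  have et0 : 0 ≤ et := (norm_nonneg _).trans het
  have hKX : 0 ≤ K / X := by positivity
  have hKp : 0 ≤ K ^ (2 / 3 : ℝ) := by positivity
  have hMJ : 0 ≤ M2J Y E0 J α := M2J_nonneg _ _ _ _
  -- Gram errors
  have b2 : K ^ (2 / 3 : ℝ) * ((Z / K ^ 2) ^ (1 / 6 : ℝ) * TFa + B⁻¹ * TFb) ≤
      2 * C₃ * (θ * ((K / X) * EHs A K X Y Z E0 α)) := by
    have c1 := H₃ Y X K D Y₀ Z E0 hY hX hK (1 / 2) om hom1 α hα
    have c2 := H₃ Y X K D Y₀ Z E0 hY hX hK (-1) om hom1 α hα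
    have d1 : EHc (fun n => (n : ℝ) ^ (1 / 2 : ℝ)) (fun e => e ∈ S E0) A K X Y Z α ≤
        EHs A K X Y Z E0 α := EHc_le_s (fun n hn => by
      have : (1 : ℝ) ≤ n := by exact_mod_cast hn
      calc (n : ℝ) ^ (1 / 2 : ℝ) ≤ (n : ℝ) ^ (1 : ℝ) :=
            Real.rpow_le_rpow_of_exponent_le this (by norm_num)
        _ = n := Real.rpow_one _) hY0 hK.le hX.le α
    have d2 : EHc (fun n => (n : ℝ) ^ (-1 : ℝ)) (fun e => e ∈ S E0) A K X Y Z α ≤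
        EHs A K X Y Z E0 α := EHc_le_s (fun n hn => by
      have : (1 : ℝ) ≤ n := by exact_mod_cast hn
      calc (n : ℝ) ^ (-1 : ℝ) ≤ (n : ℝ) ^ (1 : ℝ) :=
            Real.rpow_le_rpow_of_exponent_le this (by norm_num)
        _ = n := Real.rpow_one _) hY0 hK.le hX.le α
    have c1' : K ^ (2 / 3 : ℝ) * TFa ≤ C₃ * (K / X) * EHs A K X Y Z E0 α :=
      c1.trans (mul_le_mul_of_nonneg_left d1 (by positivity))
    have c2' : K ^ (2 / 3 : ℝ) * TFb ≤ C₃ * (K / X) * EHs A K X Y Z E0 α :=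
      c2.trans (mul_le_mul_of_nonneg_left d2 (by positivity))
    have n1 : 0 ≤ TFa := E3M829.TF_nonneg _ _ _ _ _
    have n2 : 0 ≤ TFb := E3M829.TF_nonneg _ _ _ _ _
    calc K ^ (2 / 3 : ℝ) * ((Z / K ^ 2) ^ (1 / 6 : ℝ) * TFa + B⁻¹ * TFb) ≤
          K ^ (2 / 3 : ℝ) * (θ * TFa + θ * TFb) := by gcongr
      _ = θ * (K ^ (2 / 3 : ℝ) * TFa) + θ * (K ^ (2 / 3 : ℝ) * TFb) := by ring
      _ ≤ θ * (C₃ * (K / X) * EHs A K X Y Z E0 α) + θ * (C₃ * (K / X) * EHs A K X Y Z E0 α) := by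
          gcongr
      _ = _ := by ring
  -- the defect
  have b3 : c3 w K = c3 w 1 * K ^ (2 / 3 : ℝ) := by
    unfold I1146.c3
    rw [Real.one_rpow]; ring
  set U := (K / X) * (θ * EHs A K X Y Z E0 α) + K ^ (2 / 3 : ℝ) * M2J Y E0 J α with hU
  have hθE : 0 ≤ (K / X) * (θ * EHs A K X Y Z E0 α) := mul_nonneg hKX (mul_nonneg hθ.le s0)
  have hKM : 0 ≤ K ^ (2 / 3 : ℝ) * M2J Y E0 J α := mul_nonneg hKp hMJ
  have hU0 : 0 ≤ U := add_nonneg hθE hKM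
  have b4 : c3 w K * (HS Y * (2 * M2J Y E0 J α)) ≤ M * (200 * C₅ * P ^ ε * (3 * 1 * U)) := by
    have hH : HS Y ≤ 200 * C₅ * P ^ ε := by
      refine (HS_le hY).trans ?_
      have h6 := H₅ P hP1
      rw [pow_one] at h6
      have h7 : Real.log Y ≤ Real.log P := Real.log_le_log (by linarith) hYP
      nlinarith
    have hH0 := HS_nonneg Y
    have hc0 := c3_nonneg hw0 hK
    rw [b3] at hc0
    rw [b3]
    calc c3 w 1 * K ^ (2 / 3 : ℝ) * (HS Y * (2 * M2J Y E0 J α)) ≤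
          M * K ^ (2 / 3 : ℝ) * (HS Y * (2 * M2J Y E0 J α)) := by
          have := le_abs_self (c3 w 1)
          have hn : 0 ≤ HS Y * (2 * M2J Y E0 J α) := by positivity
          rw [hM]
          gcongr
      _ = M * (HS Y * (2 * (K ^ (2 / 3 : ℝ) * M2J Y E0 J α))) := by ring
      _ ≤ M * ((200 * C₅ * P ^ ε) * (3 * 1 * U)) := by
          refine mul_le_mul_of_nonneg_left ?_ hM0
          refine mul_le_mul hH ?_ (by positivity) (by positivity)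
          rw [hU]
          linarith
      _ = _ := by ring
  -- assembly
  refine a2.trans ?_
  have hG : K ^ (2 / 3 : ℝ) * ((Z / K ^ 2) ^ (1 / 6 : ℝ) * TFa + B⁻¹ * TFb) ≤ 2 * C₃ * U := by
    refine b2.trans (mul_le_mul_of_nonneg_left ?_ (by positivity))
    have : θ * ((K / X) * EHs A K X Y Z E0 α) = (K / X) * (θ * EHs A K X Y Z E0 α) := by ring
    rw [this, hU]
    linarith
  have h := asm_z (C₂ := 1) hP.le zero_le_one hC₃ hC₄ (zero_le_one.trans hC₅) hM0 hPe hU0 e20 et0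
    hOFF hG
    (show e₃ = C₄ * P ^ ε * (K ^ (2 / 3 : ℝ) * ((Z / K ^ 2) ^ (1 / 6 : ℝ) * TFa + B⁻¹ * TFb)) +
      OFF by rw [he₃]; ring) b4
  rw [hCdef]
  linarith

end Crest.Agent.R017.NE499
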