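import Crest.Agent.R017.LBn_48
import Crest.Agent.R017.NEa_499

/-!
# Row 17, FlatNE, list level (helper499): (LB) with the plain weight, no second scale

* `NumC` : the cross error and the cross tail with the plain weight
* `lb_bz` : (LB) at `bt φ α p · pw t` from helper48's `LBz`; all parameters
  `D, G₀, E0, E1, B, θ, lam` are free
* `NumT`, `NumCs`, **`lb_bs`** : the same with the weight `rhs N₁` (`LBsq`), no `lam`, no `EHf`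
-/

set_option autoImplicit false
set_option linter.unusedVariables false

noncomputable section

open Complex MeasureTheory
open scoped ComplexConjugate Classical

namespace Crest.Agent.R017.NE499

open Crest.Agent.R012 Crest.Agent.R012.Eis Crest.Agent.R012.MC
open Crest.Agent.R012.LS2 (S mem_S)
open Crest.Agent.R012.Mob705 (pdiv kap0)
open Crest.Agent.R012.Weight600 (osc pw)
open Crest.Agent.R017.X6C180 (n13 GF)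
open Crest.Agent.R017.CM106 (CS TG FS)
open Crest.Agent.R017.E1551 hiding tau Dg
open Crest.Agent.R017.C70 (JW JC OKJ okJ_JW)
open Crest.Agent.R017.E2440 (TE Jb Qs prs C4 StE Fh)
open Crest.Agent.R017.EHu320 (EHc)
open Crest.Agent.R017.LB48 (CrP GrP)
open Crest.Agent.R017.I1146 (omr)
open Crest.Agent.R017.E3M829 (Cut Tal Sg)
open Crest.Agent.R017.E3A164 (SteT Ys Fy)
open Crest.Agent.R017.Win813 (WK)
open Crest.Agent.R017.RGw813 (T9 bt)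
open Crest.Agent.R017.LBo813 (Om rho Om_nonneg Om_le_one)
open Crest.Agent.R017.NEsm551 (rhs Om_01)
open Crest.Agent.R017.Rough381 (VF)
open Crest.Agent.R017.LBx48 (EHs EHf EHt T4 EHc_nonneg)

/-- **the cross numbers with the plain weight** : cross error of the truncated model plus the
cross tail (`k` outside the cut), `≤ T-part + (K/X) Ec (1+|t|)^J` -/
def NumC (w : ℝ → ℝ) (Cw η : ℝ) (Aw : ℕ) (K X Y : ℝ) (R : ℝ) (J : ℕ) (D E0 E1 θ lam : ℝ)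
    (N₀ N₁ : ℕ) (A : ℕ) (CP : ℝ) (α : Eis → ℂ) (Ec : ℝ) : Prop :=
  ∀ p ∈ T9, ∀ (t X' : ℝ) (φ : ℝ → ℝ), 0 < X' → |Real.log X' - Real.log X| ≤ R + 1 →
    WK Cw η Aw φ → (∀ u, φ u ≠ 0 → |u - Real.log X'| ≤ η / 2) →
    ‖CrP w K (fun n => bt φ α p n * pw t (nm n))
        (StE E0 (JW D (1 / 10) N₁) (omr (Om N₀ N₁)) (fun n => bt φ α p n * pw t (nm n))) -
      ((pC * (kap0 * mel w (2 / 3) * K ^ (2 / 3 : ℝ)) : ℝ) : ℂ) *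
        I1146.X2 Y E0 (JW D (1 / 10) N₁) (omr (Om N₀ N₁)) (fun n => bt φ α p n * pw t (nm n))‖ +
    ‖CrP w K (fun n => bt φ α p n * pw t (nm n)) (fun k => if Cut E1 k then 0 else
        StE E0 (JW D (1 / 10) N₁) (omr (Om N₀ N₁)) (fun n => bt φ α p n * pw t (nm n)) k)‖ ≤
      CP * ((K / X') * T4 A K X' Y N₁ E0 θ lam (fun n => bt φ α p n * pw t (nm n))) +
      (K / X) * (Ec * (1 + |t|) ^ J)

/-- the off-diagonal part of the class Gram at `be` -/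
def NumOs (w : ℝ → ℝ) (Cw η : ℝ) (Aw : ℕ) (K X K' : ℝ) (R : ℝ) (J : ℕ) (D E0 E1 B : ℝ)
    (N₀ N₁ : ℕ) (α : Eis → ℂ) (Ro : ℝ) : Prop :=
  ∀ p ∈ T9, ∀ (t X' : ℝ) (φ : ℝ → ℝ), 0 < X' → |Real.log X' - Real.log X| ≤ R + 1 →
    WK Cw η Aw φ → (∀ u, φ u ≠ 0 → |u - Real.log X'| ≤ η / 2) →
    Sg w K' B N₁ E1 (fun q t' k₁ => ‖∑ y ∈ Ys (JW D (1 / 10) N₁) E0 N₁,
        Fy (JW D (1 / 10) N₁) (omr (Om N₀ N₁)) (Tal (fun n => bt φ α p n * pw t (nm n)))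
          q t' k₁ y‖ ^ 2) ≤
      Sg w K' B N₁ E1 (fun q t' k₁ => E3M829.Dg (JW D (1 / 10) N₁) (omr (Om N₀ N₁))
        (Tal (fun n => bt φ α p n * pw t (nm n))) E0 N₁ q t' k₁) +
      (K / X) * (Ro * (1 + |t|) ^ J)

/-- literal text of `RG64.LBn` -/
def LBnz (w : ℝ → ℝ) (Cw η : ℝ) (Aw : ℕ) (K X Y D : ℝ) (N₁ : ℕ) (ρ : ℕ → ℝ) (R : ℝ) (J : ℕ)
    (α : Eis → ℂ) (E : ℝ) : Prop :=
  ∀ p ∈ T9, ∀ (t X' : ℝ) (φ : ℝ → ℝ), 0 < X' → |Real.log X' - Real.log X| ≤ R + 1 →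
    WK Cw η Aw φ → (∀ u, φ u ≠ 0 → |u - Real.log X'| ≤ η / 2) →
    E1551.Dg w K Y (fun n => bt φ α p n * pw t (nm n)) + 2 * cP w * K ^ (2 / 3 : ℝ) *
      (XJw ρ (JW D (1 / 10) N₁) (fun n => bt φ α p n * pw t (nm n))).re -
    SqP w K (fun n => bt φ α p n * pw t (nm n)) ≤ (K / X) * (E * (1 + |t|) ^ J)

lemma adm_mz {Y X R R' : ℝ} (h : R ≤ R') {α : Eis → ℂ} (hα : Adm Y X R α) : Adm Y X R' α where
  sup := hα.sup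
  win := fun n hn => (hα.win n hn).trans (by linarith)

/-- numbers -/
lemma fin_nz {C₁ C₂ CD Ce Q9 q kx T Tk m U V Xd W L dg Hj RR EE OO OO' : ℝ}
    (h1 : 0 ≤ C₁) (h2 : 0 ≤ C₂) (hCD : 0 ≤ CD) (hCe : 0 ≤ Ce) (hq : 1 ≤ q) (hQ9 : 0 ≤ Q9)
    (hHj : 1 ≤ Hj)
    (hkx : 0 ≤ kx) (hm : 0 ≤ m) (hV : 1 ≤ V) (hU : 0 ≤ U) (hT : T ≤ Tk) (hTk0 : 0 ≤ Tk)
    (hTk : Tk ≤ kx * (C₂ * Hj * (Q9 * q) * m * V)) (hRR0 : 0 ≤ RR) (hEE0 : 0 ≤ EE)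
    (hOO0 : 0 ≤ OO) (hOO0' : 0 ≤ OO') (hXd : 0 ≤ Xd)
    (hL : L ≤ C₁ * q * (T + kx * (RR * V) + (Ce * q * Tk + kx * (EE * V)) + kx * (OO * V) +
      kx * (OO' * V)))
    (hdg : dg ≤ CD * (kx * (Xd * q ^ 2))) :
    dg + L ≤ kx * (((CD + C₁ * (1 + Ce) * (1 + C₂ * Q9)) * Hj * (q * q * q) *
      (Xd + m + RR + EE + OO + OO')) * V) := by
  have hq0 : 0 ≤ q := by linarith
  set G := Xd + m + RR + EE + OO + OO' with hG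
  have hG0 : 0 ≤ G := by positivity
  have hQQ : 1 ≤ q * q := one_le_mul_of_one_le_of_one_le hq hq
  -- dg
  have a1 : dg ≤ kx * ((CD * Hj * (q * q * q) * G) * V) := by
    refine hdg.trans ?_
    have b1 : Xd * q ^ 2 ≤ Hj * (q * q * q) * G * V := by
      have c1 : Xd ≤ G := by rw [hG]; linarith
      calc Xd * q ^ 2 = 1 * ((q * q) * Xd) * 1 := by ring
        _ ≤ Hj * ((q * q * q) * G) * V := by
            refine mul_le_mul (mul_le_mul hHj (mul_le_mul ?_ c1 hXd (by positivity))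
              (by positivity) (by linarith)) hV zero_le_one (by positivity)
            calc q * q = (q * q) * 1 := by ring
              _ ≤ (q * q) * q := mul_le_mul_of_nonneg_left hq (by positivity)
        _ = _ := by ring
    calc CD * (kx * (Xd * q ^ 2)) ≤ CD * (kx * (Hj * (q * q * q) * G * V)) := by gcongr
      _ = _ := by ring
  -- L
  have a2 : T + Ce * q * Tk ≤ (1 + Ce) * q * Tk := by
    have b1 : T ≤ q * Tk := hT.trans (le_mul_of_one_le_left hTk0 hq)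
    nlinarith
  have a3 : kx * (RR * V) + kx * (EE * V) + kx * (OO * V) + kx * (OO' * V) =
      kx * ((RR + EE + OO + OO') * V) := by ring
  have a4 : (1 + Ce) * q * Tk ≤ (1 + Ce) * q * (kx * (C₂ * Hj * (Q9 * q) * m * V)) :=
    mul_le_mul_of_nonneg_left hTk (by positivity)
  have a5 : L ≤ C₁ * q * ((1 + Ce) * q * (kx * (C₂ * Hj * (Q9 * q) * m * V)) +
      kx * ((RR + EE + OO + OO') * V)) := by
    refine hL.trans (mul_le_mul_of_nonneg_left ?_ (by positivity))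
    linarith
  have a6 : kx * ((RR + EE + OO + OO') * V) ≤
      (1 + Ce) * Hj * (q * q) * (kx * ((RR + EE + OO + OO') * V)) := by
    refine le_mul_of_one_le_left (by positivity) ?_
    have : 1 ≤ (1 + Ce) * Hj := one_le_mul_of_one_le_of_one_le (by linarith) hHj
    exact one_le_mul_of_one_le_of_one_le this hQQ
  have a7 : L ≤ C₁ * (1 + Ce) * Hj * (q * q * q) * (kx * (((C₂ * Q9) * m +
      (RR + EE + OO + OO')) * V)) := by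
    refine a5.trans ?_
    calc C₁ * q * ((1 + Ce) * q * (kx * (C₂ * Hj * (Q9 * q) * m * V)) +
      kx * ((RR + EE + OO + OO') * V)) ≤ C₁ * q * ((1 + Ce) * q * (kx * (C₂ * Hj * (Q9 * q) * m * V)) +
      (1 + Ce) * Hj * (q * q) * (kx * ((RR + EE + OO + OO') * V))) := by gcongr
      _ = _ := by ring
  have a8 : (C₂ * Q9) * m + (RR + EE + OO + OO') ≤ (1 + C₂ * Q9) * G := by
    have b1 : 0 ≤ C₂ * Q9 := by positivity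
    have b2 : (C₂ * Q9) * m ≤ (C₂ * Q9) * G :=
      mul_le_mul_of_nonneg_left (by rw [hG]; linarith) b1
    have b3 : RR + EE + OO + OO' ≤ G := by rw [hG]; linarith
    linarith
  have a9 : L ≤ C₁ * (1 + Ce) * Hj * (q * q * q) * (kx * (((1 + C₂ * Q9) * G) * V)) := by
    refine a7.trans (mul_le_mul_of_nonneg_left (mul_le_mul_of_nonneg_left
      (mul_le_mul_of_nonneg_right a8 (by linarith)) hkx) (by positivity))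
  calc dg + L ≤ kx * ((CD * Hj * (q * q * q) * G) * V) +
        C₁ * (1 + Ce) * Hj * (q * q * q) * (kx * (((1 + C₂ * Q9) * G) * V)) := add_le_add a1 a9
    _ = _ := by ring


/-- **(LB) at `β = bt φ α p · pw t`, plain weight** -/
theorem lb_bz {w : ℝ → ℝ} (hw : Wgt w) (hw0 : ∀ x, 0 ≤ w x)
    {Cw R ε Ce : ℝ} {Aw J : ℕ} (hCw : 0 ≤ Cw) (hR : 0 ≤ R) (hε : 0 < ε) (hCe : 0 ≤ Ce)
    (hJA : J + 2 ≤ Aw) : ∃ C : ℝ, 0 ≤ C ∧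
    ∀ (K X Y D G₀ E0 E1 B θ lam η : ℝ) (N₀ N₁ : ℕ), 0 < K → K ≤ Y → 0 < X → 1 ≤ Y →
    0 ≤ D → D ≤ Y → 1 ≤ E0 → E0 ≤ Y → 1 ≤ B → 0 < θ → 0 < lam → lam ≤ 1 → B⁻¹ ≤ θ →
    1 ≤ N₁ → (N₁ : ℝ) ≤ Y → ((N₁ : ℝ) / K ^ 2) ^ (1 / 6 : ℝ) ≤ θ → 0 < η → η ≤ 1 →
    ∀ α : Eis → ℂ, (∀ n, α n ≠ 0 → n ∈ S Y) →
    (∀ n, α n ≠ 0 → |Real.log (nm n) - Real.log X| ≤ R) → (∀ n, ‖α n‖ ≤ Y ^ ε) →
    ∀ Ma Ml Ec Ro : ℝ, 0 ≤ Ma → 0 ≤ Ml → 0 ≤ Ec → 0 ≤ Ro →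
    (∀ g ∈ S Y, (nm g : ℝ) ≤ G₀ → ∀ V : ℝ, 1 ≤ V → V ≤ 9 * N₁ * nm g → ∀ t : ℝ,
      VF V (tws (sg α g) t) ≤
        Ma / (nm g : ℝ) ^ 2 * ((V * K / (X / nm g) ^ 2) ^ (1 / 3 : ℝ)) * (1 + |t|) ^ J) →
    (∀ g ∈ S Y, ∀ B V : ℝ, 1 ≤ B → B ≤ Y → 1 ≤ V → V ≤ 9 * N₁ / (nm g : ℝ) ^ 2 → ∀ t : ℝ,
      E1551.JB Y α (fun U => G₀ < nm (g * U)) g B V t ≤
        Ml / (nm g : ℝ) ^ 2 * yv K X g V * (1 + |t|) ^ J) →
    NumC w Cw η Aw K X Y R J D E0 E1 θ lam N₀ N₁ (J + 2) (Ce * Y ^ ε) α Ec →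
    NumOs w Cw η Aw K X K R J D E0 E1 B N₀ N₁ α Ro →
    LBnz w Cw η Aw K X Y D N₁ (rho N₀ N₁) R J α
      (C * (η⁻¹) ^ J * (Y ^ ε * Y ^ ε * Y ^ ε) *
        (X ^ 2 + (θ * E0 + lam + (lam * E0)⁻¹) * (Ma + Ml) + Ec + Ro)) := by
  obtain ⟨C₁, hC₁, H₁⟩ := LBx48.LBz hw hw0 (R := 1) zero_le_one (A := J + 2) (by omega) hε
  obtain ⟨C₂, hC₂, H₂⟩ := LBT381.lbt_all4 (J := J) (Aw := Aw) (A := J + 2) le_rfl hJA hR hCw hε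
  obtain ⟨CD, hCD, HD⟩ := LBo813.Dg_bt_le w Aw (by omega) Cw
  refine ⟨CD * Real.exp R + C₁ * (1 + Ce) * (1 + (2 * C₂) * 9 ^ ε), by positivity, ?_⟩
  intro K X Y D G₀ E0 E1 B θ lam η N₀ N₁ hK hKY hX hY hD hDY hE0 hE0Y hB hθ hlam hlam1 hBθ hN₁ hN₁Y
    hKθ hη hη1 α hα hαR hαn Ma Ml Ec Ro hMa hMl hEc hRo hSA hL
    hNC hNO p hp t X' φ hX' hXX hφ hφs
  have hY0 : 0 < Y := by linarith
  have hE00 : 0 < E0 := by linarith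
  have hq : 1 ≤ Y ^ ε := Real.one_le_rpow hY hε.le
  have hN1 : (1 : ℝ) ≤ N₁ := by exact_mod_cast hN₁
  have hZ0 : (0 : ℝ) < N₁ := by linarith
  have hadm : Adm Y X' 1 (fun n => bt φ α p n * pw t (nm n)) :=
    adm_mz hη1 (RGw813.adm_bt hφs hα p t)
  have r2 := hNC p hp t X' φ hX' hXX hφ hφs
  have r3 := hNO p hp t X' φ hX' hXX hφ hφs
  have s2 := H₂ (9 * Y) K X X' Y η N₁ G₀ Ma Ml E0 θ lam lam⁻¹ lam α (by linarith) hK hX hX' hXX hY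
    (by linarith) hZ0.le (by linarith) hη hη1 hMa hMl hE00 hθ.le hlam.le (inv_pos.mpr hlam).le
    hlam.le hα hSA hL p hp φ hφ t
  have s3 := HD K X X' Y R (Y ^ ε) η hK.le hX hY0.le (by linarith) hη hη1 hX' hXX α
    (RGw813.FS_of_S hY0.le hα) hα hαR (fun n _ => hαn n) φ hφ p t
  clear hNC hNO hSA hL
  generalize (fun n => bt φ α p n * pw t (nm n)) = β at hadm r2 r3 s2 s3 ⊢
  obtain ⟨V, hV⟩ : ∃ V : ℝ, V = (1 + |t|) ^ J := ⟨_, rfl⟩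
  rw [← hV] at r2 r3 s2 ⊢
  have hV1 : 1 ≤ V := by rw [hV]; exact one_le_pow₀ (by linarith [abs_nonneg t])
  have hKX : 0 ≤ K / X := by positivity
  have hOO : 0 ≤ (K / X) * (Ro * V) := by positivity
  have s1 := H₁ Y K X' Y D (1 / 10) N₁ E0 E1 B θ lam hY hK hKY hX' hY le_rfl hD hDY
    hZ0 hN₁Y hE00.le hE0Y hB hθ hlam hlam1 hBθ hKθ β hadm (Om N₀ N₁)
    (rho N₀ N₁) (fun n => rfl) (Om_nonneg N₀ N₁) (Om_le_one N₀ N₁)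
    _ _ ((K / X) * (Ro * V)) hOO le_rfl le_rfl r3
  -- the four functionals
  have t1 : 0 ≤ EHs ((J + 2 : ℕ) : ℝ) K X' Y N₁ E0 β :=
    EHc_nonneg (fun n => Nat.cast_nonneg n) _ hK.le hX'.le β
  have t2 : 0 ≤ EHf ((J + 2 : ℕ) : ℝ) K X' Y N₁ β := EHc_nonneg (fun n => by positivity) _ hK.le hX'.le β
  have t3 : 0 ≤ EHt ((J + 2 : ℕ) : ℝ) K X' Y N₁ E0 β :=
    EHc_nonneg (fun n => by positivity) _ hK.le hX'.le β
  have t4 : 0 ≤ EHc (fun _ => (1 : ℝ)) (fun _ => True) ((J + 2 : ℕ) : ℝ) K X' Y N₁ β :=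
    EHc_nonneg (fun n => zero_le_one) _ hK.le hX'.le β
  have hKX' : 0 ≤ K / X' := by positivity
  have hli : 0 ≤ lam⁻¹ := (inv_pos.mpr hlam).le
  obtain ⟨Tk, hTk⟩ : ∃ Tk : ℝ, Tk = (K / X') * T4 ((J + 2 : ℕ) : ℝ) K X' Y N₁ E0 θ lam β :=
    ⟨_, rfl⟩
  have hTk0 : 0 ≤ Tk := by
    rw [hTk]
    unfold LBx48.T4
    exact mul_nonneg hKX' (add_nonneg (add_nonneg (add_nonneg (mul_nonneg hθ.le t1)
      (mul_nonneg hlam.le t2)) (mul_nonneg hli t3)) (mul_nonneg hlam.le t4))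
  have hTT : (K / X') * (θ * EHs ((J + 2 : ℕ) : ℝ) K X' Y N₁ E0 β +
      lam * EHf ((J + 2 : ℕ) : ℝ) K X' Y N₁ β +
      lam⁻¹ * EHt ((J + 2 : ℕ) : ℝ) K X' Y N₁ E0 β) ≤ Tk := by
    rw [hTk]
    unfold LBx48.T4
    refine mul_le_mul_of_nonneg_left ?_ hKX'
    have a1 : 0 ≤ lam * EHc (fun _ => (1 : ℝ)) (fun _ => True) ((J + 2 : ℕ) : ℝ) K X' Y N₁ β :=
      mul_nonneg hlam.le t4
    linarith
  obtain ⟨m, hm⟩ : ∃ m : ℝ, m = (θ * E0 + lam + (lam * E0)⁻¹) * (Ma + Ml) := ⟨_, rfl⟩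
  have hm0 : 0 ≤ m := by rw [hm]; positivity
  have hTk2 : Tk ≤ (K / X) * ((2 * C₂) * (η⁻¹) ^ J * (9 ^ ε * Y ^ ε) * m * V) := by
    rw [hTk]
    unfold LBx48.T4
    refine s2.trans (mul_le_mul_of_nonneg_left ?_ hKX)
    rw [Real.mul_rpow (by norm_num) hY0.le]
    have e1 : θ * E0 + lam + lam⁻¹ * E0⁻¹ + lam ≤ 2 * (θ * E0 + lam + (lam * E0)⁻¹) := by
      rw [mul_inv]
      have a1 : 0 ≤ θ * E0 := by positivity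
      have a2 : 0 ≤ lam⁻¹ * E0⁻¹ := by positivity
      linarith
    have e2 : 0 ≤ Ma + Ml := by linarith
    have e3 : (θ * E0 + lam + lam⁻¹ * E0⁻¹ + lam) * (Ma + Ml) ≤ 2 * m := by
      rw [hm, ← mul_assoc]
      exact mul_le_mul_of_nonneg_right e1 e2
    have e4 : 0 ≤ C₂ * (η⁻¹) ^ J * (9 ^ ε * Y ^ ε) := by positivity
    calc C₂ * (η⁻¹) ^ J * (9 ^ ε * Y ^ ε) * ((θ * E0 + lam + lam⁻¹ * E0⁻¹ + lam) * (Ma + Ml)) * V ≤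
          C₂ * (η⁻¹) ^ J * (9 ^ ε * Y ^ ε) * (2 * m) * V :=
          mul_le_mul_of_nonneg_right (mul_le_mul_of_nonneg_left e3 e4) (by linarith)
      _ = _ := by ring
  have hHj : 1 ≤ (η⁻¹) ^ J := one_le_pow₀ ((one_le_inv₀ hη).mpr hη1)
  have fin := fin_nz (C₁ := C₁) (C₂ := 2 * C₂) (CD := CD * Real.exp R) (Ce := Ce)
    (Q9 := 9 ^ ε) (q := Y ^ ε) (kx := K / X)
    (T := (K / X') * (θ * EHs ((J + 2 : ℕ) : ℝ) K X' Y N₁ E0 β +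
      lam * EHf ((J + 2 : ℕ) : ℝ) K X' Y N₁ β +
      lam⁻¹ * EHt ((J + 2 : ℕ) : ℝ) K X' Y N₁ E0 β)) (Tk := Tk) (m := m) (U := 0) (V := V)
    (Xd := X ^ 2) (W := 0)
    (L := 2 * cP w * K ^ (2 / 3 : ℝ) * (XJw (rho N₀ N₁) (JW D (1 / 10) N₁) β).re - SqP w K β)
    (dg := E1551.Dg w K Y β) (Hj := (η⁻¹) ^ J) (RR := 0) (EE := Ec) (OO := Ro)
    (OO' := 0) hC₁ (by positivity) (by positivity) hCe hq (by positivity)
    hHj hKX hm0 hV1 le_rfl hTT hTk0 hTk2 le_rfl hEc hRo le_rfl (by positivity) ?_ ?_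
  · rw [← hm]
    refine le_trans (le_of_eq ?_) (fin.trans (le_of_eq ?_))
    · ring
    · ring
  · refine s1.trans (mul_le_mul_of_nonneg_left ?_ (by positivity))
    rw [← hTk] at r2
    linarith
  · refine s3.trans (le_of_eq ?_)
    ring

/-! ### the smooth cut, weight `rhs N₁` -/

/-- the tail squares at `be` -/
def NumT (Cw η : ℝ) (Aw : ℕ) (K X Y : ℝ) (R : ℝ) (J : ℕ) (D E0 : ℝ) (N₁ : ℕ) (α : Eis → ℂ)
    (Tt : ℝ) : Prop :=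
  ∀ p ∈ T9, ∀ (t X' : ℝ) (φ : ℝ → ℝ), 0 < X' → |Real.log X' - Real.log X| ≤ R + 1 →
    WK Cw η Aw φ → (∀ u, φ u ≠ 0 → |u - Real.log X'| ≤ η / 2) →
    K ^ (2 / 3 : ℝ) * M2J Y E0 (JW D (1 / 10) N₁) (fun n => bt φ α p n * pw t (nm n)) ≤
      (K / X) * (Tt * (1 + |t|) ^ J)

/-- the cross numbers with the plain weight and the cut `Om (N₁ / 2) N₁` -/
def NumCs (w : ℝ → ℝ) (Cw η : ℝ) (Aw : ℕ) (K X Y : ℝ) (R : ℝ) (J : ℕ) (D E0 E1 : ℝ)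
    (N₁ : ℕ) (α : Eis → ℂ) (Ec : ℝ) : Prop :=
  ∀ p ∈ T9, ∀ (t X' : ℝ) (φ : ℝ → ℝ), 0 < X' → |Real.log X' - Real.log X| ≤ R + 1 →
    WK Cw η Aw φ → (∀ u, φ u ≠ 0 → |u - Real.log X'| ≤ η / 2) →
    ‖CrP w K (fun n => bt φ α p n * pw t (nm n))
        (StE E0 (JW D (1 / 10) N₁) (omr (Om (N₁ / 2) N₁)) (fun n => bt φ α p n * pw t (nm n))) -
      ((pC * (kap0 * mel w (2 / 3) * K ^ (2 / 3 : ℝ)) : ℝ) : ℂ) *
        I1146.X2 Y E0 (JW D (1 / 10) N₁) (omr (Om (N₁ / 2) N₁)) (fun n => bt φ α p n * pw t (nm n))‖ +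
    ‖CrP w K (fun n => bt φ α p n * pw t (nm n)) (fun k => if Cut E1 k then 0 else
        StE E0 (JW D (1 / 10) N₁) (omr (Om (N₁ / 2) N₁)) (fun n => bt φ α p n * pw t (nm n)) k)‖ ≤
      (K / X) * (Ec * (1 + |t|) ^ J)

/-- **(LB) at `β = bt φ α p · pw t`, plain weight, smooth cut `Om (N₁ / 2) N₁`** -/
theorem lb_bs {w : ℝ → ℝ} (hw : Wgt w) (hw0 : ∀ x, 0 ≤ w x)
    {Cw R ε : ℝ} {Aw J : ℕ} (hCw : 0 ≤ Cw) (hR : 0 ≤ R) (hε : 0 < ε)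
    (hJA : J + 2 ≤ Aw) : ∃ C : ℝ, 0 ≤ C ∧
    ∀ (K X Y D G₀ E0 E1 B θ η : ℝ) (N₁ : ℕ), 0 < K → K ≤ Y → 0 < X → 1 ≤ Y →
    0 ≤ D → D ≤ Y → 1 ≤ E0 → E0 ≤ Y → 1 ≤ B → 0 < θ → B⁻¹ ≤ θ →
    1 ≤ N₁ → (N₁ : ℝ) ≤ Y → ((N₁ : ℝ) / K ^ 2) ^ (1 / 6 : ℝ) ≤ θ → 0 < η → η ≤ 1 →
    ∀ α : Eis → ℂ, (∀ n, α n ≠ 0 → n ∈ S Y) →
    (∀ n, α n ≠ 0 → |Real.log (nm n) - Real.log X| ≤ R) → (∀ n, ‖α n‖ ≤ Y ^ ε) →
    ∀ Ma Ml Tt Ec Ro : ℝ, 0 ≤ Ma → 0 ≤ Ml → 0 ≤ Tt → 0 ≤ Ec → 0 ≤ Ro →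
    (∀ g ∈ S Y, (nm g : ℝ) ≤ G₀ → ∀ V : ℝ, 1 ≤ V → V ≤ 9 * N₁ * nm g → ∀ t : ℝ,
      VF V (tws (sg α g) t) ≤
        Ma / (nm g : ℝ) ^ 2 * ((V * K / (X / nm g) ^ 2) ^ (1 / 3 : ℝ)) * (1 + |t|) ^ J) →
    (∀ g ∈ S Y, ∀ B V : ℝ, 1 ≤ B → B ≤ Y → 1 ≤ V → V ≤ 9 * N₁ / (nm g : ℝ) ^ 2 → ∀ t : ℝ,
      E1551.JB Y α (fun U => G₀ < nm (g * U)) g B V t ≤
        Ml / (nm g : ℝ) ^ 2 * yv K X g V * (1 + |t|) ^ J) →
    NumT Cw η Aw K X Y R J D E0 N₁ α Tt →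
    NumCs w Cw η Aw K X Y R J D E0 E1 N₁ α Ec →
    NumOs w Cw η Aw K X K R J D E0 E1 B (N₁ / 2) N₁ α Ro →
    LBnz w Cw η Aw K X Y D N₁ (rhs N₁) R J α
      (C * (η⁻¹) ^ J * (Y ^ ε * Y ^ ε * Y ^ ε) *
        (X ^ 2 + θ * E0 * (Ma + Ml) + Tt + Ec + Ro)) := by
  obtain ⟨C₁, hC₁, H₁⟩ := LBsq hw hw0 (R := 1) zero_le_one (A := J + 2) (by omega) hε
  obtain ⟨C₂, hC₂, H₂⟩ := LBT381.lbt_all4 (J := J) (Aw := Aw) (A := J + 2) le_rfl hJA hR hCw hε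
  obtain ⟨CD, hCD, HD⟩ := LBo813.Dg_bt_le w Aw (by omega) Cw
  refine ⟨CD * Real.exp R + C₁ * (1 + 0) * (1 + C₂ * 9 ^ ε), by positivity, ?_⟩
  intro K X Y D G₀ E0 E1 B θ η N₁ hK hKY hX hY hD hDY hE0 hE0Y hB hθ hBθ hN₁ hN₁Y
    hKθ hη hη1 α hα hαR hαn Ma Ml Tt Ec Ro hMa hMl hTt hEc hRo hSA hL
    hNT hNC hNO p hp t X' φ hX' hXX hφ hφs
  have hY0 : 0 < Y := by linarith
  have hE00 : 0 < E0 := by linarith
  have hq : 1 ≤ Y ^ ε := Real.one_le_rpow hY hε.le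
  have hN1 : (1 : ℝ) ≤ N₁ := by exact_mod_cast hN₁
  have hZ0 : (0 : ℝ) < N₁ := by linarith
  have hadm : Adm Y X' 1 (fun n => bt φ α p n * pw t (nm n)) :=
    adm_mz hη1 (RGw813.adm_bt hφs hα p t)
  have r1 := hNT p hp t X' φ hX' hXX hφ hφs
  have r2 := hNC p hp t X' φ hX' hXX hφ hφs
  have r3 := hNO p hp t X' φ hX' hXX hφ hφs
  have s2 := H₂ (9 * Y) K X X' Y η N₁ G₀ Ma Ml E0 θ 0 0 0 α (by linarith) hK hX hX' hXX hY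
    (by linarith) hZ0.le (by linarith) hη hη1 hMa hMl hE00 hθ.le le_rfl le_rfl
    le_rfl hα hSA hL p hp φ hφ t
  have s3 := HD K X X' Y R (Y ^ ε) η hK.le hX hY0.le (by linarith) hη hη1 hX' hXX α
    (RGw813.FS_of_S hY0.le hα) hα hαR (fun n _ => hαn n) φ hφ p t
  clear hNT hNC hNO hSA hL
  generalize (fun n => bt φ α p n * pw t (nm n)) = β at hadm r1 r2 r3 s2 s3 ⊢
  obtain ⟨V, hV⟩ : ∃ V : ℝ, V = (1 + |t|) ^ J := ⟨_, rfl⟩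
  rw [← hV] at r1 r2 r3 s2 ⊢
  have hV1 : 1 ≤ V := by rw [hV]; exact one_le_pow₀ (by linarith [abs_nonneg t])
  have hKX : 0 ≤ K / X := by positivity
  have hOO : 0 ≤ (K / X) * (Ro * V) := by positivity
  have s1 := H₁ Y K X' Y D (1 / 10) N₁ E0 E1 B θ hY hK hKY hX' hY le_rfl hD hDY
    hZ0 hN₁Y hE00.le hE0Y hB hθ hBθ hKθ β hadm (Om (N₁ / 2) N₁)
    (rhs N₁) (fun n => rfl) (Om_01 N₁)
    _ _ ((K / X) * (Ro * V)) hOO le_rfl le_rfl r3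
  have t1 : 0 ≤ EHs ((J + 2 : ℕ) : ℝ) K X' Y N₁ E0 β :=
    EHc_nonneg (fun n => Nat.cast_nonneg n) _ hK.le hX'.le β
  have hKX' : 0 ≤ K / X' := by positivity
  obtain ⟨Tk, hTk⟩ : ∃ Tk : ℝ, Tk = (K / X') * (θ * EHs ((J + 2 : ℕ) : ℝ) K X' Y N₁ E0 β) :=
    ⟨_, rfl⟩
  have hTk0 : 0 ≤ Tk := by
    rw [hTk]
    exact mul_nonneg hKX' (mul_nonneg hθ.le t1)
  obtain ⟨m, hm⟩ : ∃ m : ℝ, m = θ * E0 * (Ma + Ml) := ⟨_, rfl⟩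
  have hm0 : 0 ≤ m := by rw [hm]; positivity
  have hTk2 : Tk ≤ (K / X) * (C₂ * (η⁻¹) ^ J * (9 ^ ε * Y ^ ε) * m * V) := by
    rw [hTk, hm]
    simp only [zero_mul, add_zero] at s2
    rw [Real.mul_rpow (by norm_num) hY0.le] at s2
    exact s2.trans (le_of_eq (by ring))
  have hHj : 1 ≤ (η⁻¹) ^ J := one_le_pow₀ ((one_le_inv₀ hη).mpr hη1)
  have fin := fin_nz (C₁ := C₁) (C₂ := C₂) (CD := CD * Real.exp R) (Ce := 0)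
    (Q9 := 9 ^ ε) (q := Y ^ ε) (kx := K / X)
    (T := Tk) (Tk := Tk) (m := m) (U := 0) (V := V)
    (Xd := X ^ 2) (W := 0)
    (L := 2 * cP w * K ^ (2 / 3 : ℝ) * (XJw (rhs N₁) (JW D (1 / 10) N₁) β).re - SqP w K β)
    (dg := E1551.Dg w K Y β) (Hj := (η⁻¹) ^ J) (RR := Tt) (EE := Ec) (OO := Ro)
    (OO' := 0) hC₁ hC₂ (by positivity) le_rfl hq (by positivity)
    hHj hKX hm0 hV1 le_rfl le_rfl hTk0 hTk2 hTt hEc hRo le_rfl (by positivity) ?_ ?_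
  · rw [← hm]
    refine le_trans (le_of_eq ?_) (fin.trans (le_of_eq ?_))
    · ring
    · ring
  · refine s1.trans (mul_le_mul_of_nonneg_left ?_ (by positivity))
    rw [← hTk]
    linarith
  · refine s3.trans (le_of_eq ?_)
    ring

end Crest.Agent.R017.NE499
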