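import Crest.Agent.R017.RGind_777

/-!
# Row 17, R8 / P1: the flat claims of the near-equal triple (helper73), exponent side

* `flK K v n`  : the flat form `2 n + (v + K - 2 n)⁺ / 3`
* `PremNE`     : the premises for the sub-lists of one list
* `ExpNE`      : the field of the recursion for near-equal lists, class N
* `near_desc`  : descent in the family, step `c`
* `near_fin`   : the flat claims at the family `κ`, arbitrarily small steps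
-/

set_option autoImplicit false

noncomputable section

namespace Crest.Agent.R017.NE73

open Crest.Agent.R017.ER911
open Crest.Agent.R017.SC777 (sh3)

/-- flat below the own top, slope `1/3` above -/
def flK (K v n : ℝ) : ℝ := 2 * n + max 0 ((v + K - 2 * n) / 3)

lemma flK_add {K c v n : ℝ} (hc : 0 ≤ c) : flK (K + c) v n ≤ flK K v n + c / 3 := by
  unfold flK
  have h0 := le_max_left 0 ((v + K - 2 * n) / 3)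
  have h1 := le_max_right 0 ((v + K - 2 * n) / 3)
  have : max 0 ((v + (K + c) - 2 * n) / 3) ≤ max 0 ((v + K - 2 * n) / 3) + c / 3 :=
    max_le (by linarith) (by linarith)
  linarith

lemma flK_mono {K K' : ℝ} (h : K ≤ K') (v n : ℝ) : flK K v n ≤ flK K' v n := by
  unfold flK
  have h0 := le_max_left 0 ((v + K' - 2 * n) / 3)
  have h1 := le_max_right 0 ((v + K' - 2 * n) / 3)
  have : max 0 ((v + K - 2 * n) / 3) ≤ max 0 ((v + K' - 2 * n) / 3) :=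
    max_le h0 (by linarith)
  linarith

lemma slope_le_flK (K v n : ℝ) : 4 / 3 * n + (v + K) / 3 ≤ flK K v n := by
  unfold flK
  have h1 := le_max_right 0 ((v + K - 2 * n) / 3)
  linarith

/-- the smallest of three lumps -/
def mn (z₁ z₂ z₃ : ℝ) : ℝ := min z₁ (min z₂ z₃)

lemma mn_le1 (z₁ z₂ z₃ : ℝ) : mn z₁ z₂ z₃ ≤ z₁ := min_le_left _ _
lemma mn_le2 (z₁ z₂ z₃ : ℝ) : mn z₁ z₂ z₃ ≤ z₂ := (min_le_right _ _).trans (min_le_left _ _)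
lemma mn_le3 (z₁ z₂ z₃ : ℝ) : mn z₁ z₂ z₃ ≤ z₃ := (min_le_right _ _).trans (min_le_right _ _)

lemma mn_mono {z₁ z₂ z₃ x₁ x₂ x₃ : ℝ} (h1 : x₁ ≤ z₁) (h2 : x₂ ≤ z₂) (h3 : x₃ ≤ z₃) :
    mn x₁ x₂ x₃ ≤ mn z₁ z₂ z₃ := min_le_min h1 (min_le_min h2 h3)

lemma mn_third (z₁ z₂ z₃ : ℝ) : 3 * mn z₁ z₂ z₃ ≤ z₁ + z₂ + z₃ := by
  linarith [mn_le1 z₁ z₂ z₃, mn_le2 z₁ z₂ z₃, mn_le3 z₁ z₂ z₃]

/-- **the premises for the sub-lists of `Y`** (pure lists) at family `K`, level `v`, length `n`;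
removed length up to `g` : flat form with the loss `e`, slope form with the loss `F₃`; removed
length at least `g` : slope form (with `u`) -/
structure PremNE (c e g F₃ : ℝ) (s₀ : EF) (Q : ℝ → ℝ → Multiset ℝ → ℝ → ℝ → ℝ → Prop)
    (K v n F : ℝ) (Y : Multiset ℝ) : Prop where
  p0 : ∀ (Y' : Multiset ℝ) (n' v' : ℝ), Sh Y' Y → n' = Y'.sum → n - n' ≤ g + c → 0 ≤ v' →
    v' ≤ v + (n - n') → s₀ v' Y' 0 0 ≤ flK K v' n' + e + F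
  pS : ∀ (Y' : Multiset ℝ) (n' v' : ℝ), Sh Y' Y → n' = Y'.sum → n - n' ≤ g + c → 0 ≤ v' →
    v' ≤ v + (n - n') → s₀ v' Y' 0 0 ≤ 4 / 3 * n' + (v' + K) / 3 + F₃
  pT : ∀ (Y' : Multiset ℝ) (n' v' : ℝ), Sh Y' Y → n' = Y'.sum → g ≤ n - n' → n - n' ≤ g + c →
    0 ≤ v' → v' ≤ v + (n - n') → s₀ v' Y' 0 0 ≤ 4 / 3 * n' + (v' + K) / 3 + F
  pJ : ∀ (Y' : Multiset ℝ) (n' v' w u : ℝ), Sh Y' Y → n' = Y'.sum → g ≤ n - n' → 0 ≤ v' →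
    0 ≤ w → 3 * w = (n - n') - (v' - v) → u = (n - n') - w - g →
    s₀ v' Y' 0 0 ≤ 4 / 3 * n' + (v' + K) / 3 + max 0 u + F
  pR : ∀ (Y' : Multiset ℝ) (n' v' : ℝ), Sh Y' Y → n' = Y'.sum → n - n' ≤ g + c → 0 ≤ v' →
    v' ≤ v + (n - n') → Q K v' Y' 0 0 (flK K v' n' + F)
  pV : ∀ (Y' : Multiset ℝ) (n' v' : ℝ), Sh Y' Y → n' = Y'.sum → n - n' ≤ g + c → 0 ≤ v' →
    v' ≤ v + (n - n') → s₀ v' Y' 0 0 ≤ 4 / 3 * n' + (v' + K) / 3 + max 0 ((4 * n' - 3 * K) / 9) + F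

/-- the numerical conditions of the field: family `K`, level `v`, length `n`, `g` = the removed
length from which on every sub-list is far -/
structure NumNE (c K v n g F F₃ : ℝ) : Prop where
  K0 : 0 < K
  cK : 1000000 * c ≤ K
  nK : 5 * n ≤ 4 * K
  Kn : 3 * K ≤ 4 * n
  hg : g = n - 3 / 4 * K + c
  top : 2 * n + 100 * c ≤ K + v
  sn : 5 * (v + n) + 100 * c ≤ 7 * K
  vg : 3 * (v + g) + 100 * c ≤ 2 * K
  F0 : 0 ≤ F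
  F30 : 0 ≤ F₃
  F3 : 45 * F₃ ≤ K + 45 * F

/-- **the field of the recursion for near-equal lists, class N** -/
structure ExpNE (c : ℝ) (s₀ : EF) (Q : ℝ → ℝ → Multiset ℝ → ℝ → ℝ → ℝ → Prop) : Prop where
  ne : ∀ K v z₁ z₂ z₃ n g F F₃ : ℝ, 0 ≤ z₁ → 0 ≤ z₂ → 0 ≤ z₃ → n = z₁ + z₂ + z₃ →
    NumNE c K v n g F F₃ → PremNE c (c / 3) g F₃ s₀ Q K v n F {z₁, z₂, z₃} →
    ∀ v' : ℝ, 0 ≤ v' → v' ≤ v → s₀ v' {z₁, z₂, z₃} 0 0 ≤ 2 * n + F + max 0 ((v' + K - 2 * n) / 3)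

lemma sum3' (a b c : ℝ) : ({a, b, c} : Multiset ℝ).sum = a + b + c := by
  simp [Multiset.insert_eq_cons, Multiset.sum_cons, add_assoc]

/-- **far lists** below the lengths `y` : slope form at every family `K ≥ κ` with
`n + min z ≤ K`, `v + n ≤ S`, `3 v ≤ 2 K`, `2 v ≤ n + K` -/
def FarH (s₀ : EF) (κ S y₁ y₂ y₃ F : ℝ) : Prop :=
  ∀ K v z₁ z₂ z₃ : ℝ, κ ≤ K → 0 ≤ z₁ → z₁ ≤ y₁ → 0 ≤ z₂ → z₂ ≤ y₂ → 0 ≤ z₃ → z₃ ≤ y₃ →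
    z₁ + z₂ + z₃ + mn z₁ z₂ z₃ ≤ K → 0 ≤ v → v + (z₁ + z₂ + z₃) ≤ S → 3 * v ≤ 2 * K →
    2 * v ≤ z₁ + z₂ + z₃ + K →
    s₀ v {z₁, z₂, z₃} 0 0 ≤ 4 / 3 * (z₁ + z₂ + z₃) + (v + K) / 3 + F

/-- very short lists -/
def ShH (s₀ : EF) : Prop :=
  ∀ v z₁ z₂ z₃ : ℝ, 0 ≤ v → 0 ≤ z₁ → 0 ≤ z₂ → 0 ≤ z₃ → 2 * (z₁ + z₂ + z₃) ≤ v →
    s₀ v {z₁, z₂, z₃} 0 0 ≤ v + (z₁ + z₂ + z₃)

/-- the side conditions on the near domain -/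
def QH (Q : ℝ → ℝ → Multiset ℝ → ℝ → ℝ → ℝ → Prop) (c κ S y₁ y₂ y₃ F : ℝ) : Prop :=
  ∀ K v z₁ z₂ z₃ : ℝ, κ ≤ K → 0 ≤ z₁ → z₁ ≤ y₁ → 0 ≤ z₂ → z₂ ≤ y₂ → 0 ≤ z₃ → z₃ ≤ y₃ →
    3 * K ≤ 4 * (z₁ + z₂ + z₃) + 10 * c → 0 ≤ v → v + (z₁ + z₂ + z₃) ≤ S → 3 * v ≤ 2 * K →
    Q K v {z₁, z₂, z₃} 0 0 (flK K v (z₁ + z₂ + z₃) + F)

/-- **descent in the family**, `κ₁ = κ + 100 c` -/
theorem near_desc {c : ℝ} (hc : 0 < c) {s₀ : EF} {Q : ℝ → ℝ → Multiset ℝ → ℝ → ℝ → ℝ → Prop}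
    (G : ExpNE c s₀ Q) {κ S y₁ y₂ y₃ F₀ F : ℝ} (hκ : 1000000 * c ≤ κ) (hκ0 : 0 < κ) (hF0 : 0 ≤ F₀)
    (hF : F₀ + 100 * c ≤ F) (hS : 5 * S ≤ 7 * κ) (hSn : 3 * (y₁ + y₂ + y₃) - κ ≤ S)
    (hN : 5 * (y₁ + y₂ + y₃) ≤ 4 * κ)
    (hfar : FarH s₀ κ S y₁ y₂ y₃ F₀) (hsh : ShH s₀) (hQ : QH Q c (κ + 100 * c) S y₁ y₂ y₃ F)
    (k : ℕ) :
    ∀ K v z₁ z₂ z₃ : ℝ, κ + 100 * c ≤ K → 0 ≤ z₁ → z₁ ≤ y₁ → 0 ≤ z₂ → z₂ ≤ y₂ → 0 ≤ z₃ →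
      z₃ ≤ y₃ → 0 ≤ v → v + (z₁ + z₂ + z₃) ≤ S → 3 * v ≤ 2 * K →
      2 * v ≤ z₁ + z₂ + z₃ + K → z₁ + z₂ + z₃ + mn z₁ z₂ z₃ ≤ K + k * c →
      s₀ v {z₁, z₂, z₃} 0 0 ≤ flK K v (z₁ + z₂ + z₃) + F := by
  induction k with
  | zero =>
    intro K v z₁ z₂ z₃ hK p1 q1 p2 q2 p3 q3 hv hvS h3v h2v hk
    simp only [Nat.cast_zero, zero_mul, add_zero] at hk
    have := hfar K v z₁ z₂ z₃ (by linarith) p1 q1 p2 q2 p3 q3 hk hv hvS h3v h2v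
    have := slope_le_flK K v (z₁ + z₂ + z₃)
    linarith
  | succ k ih =>
    intro K v z₁ z₂ z₃ hK p1 q1 p2 q2 p3 q3 hv hvS h3v h2v hk
    push_cast at hk
    obtain ⟨n, hn⟩ : ∃ n, n = z₁ + z₂ + z₃ := ⟨_, rfl⟩
    obtain ⟨m, hm⟩ : ∃ m, m = mn z₁ z₂ z₃ := ⟨_, rfl⟩
    have hm3 := mn_third z₁ z₂ z₃
    rw [← hm] at hk hm3
    rw [← hn] at hk hvS h2v hm3 ⊢
    rcases le_or_gt (n + m) (K + 100 * c) with hA | hB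
    · -- far, with a small loss
      have := hfar (K + 100 * c) v z₁ z₂ z₃ (by linarith) p1 q1 p2 q2 p3 q3
        (by rw [← hn, ← hm]; exact hA) hv (by rw [← hn]; exact hvS) (by linarith)
        (by rw [← hn]; linarith)
      rw [← hn] at this
      have := slope_le_flK K v n
      linarith
    -- near
    obtain ⟨v₁, hv₁⟩ : ∃ v₁, v₁ = max v (2 * n - K + 100 * c) := ⟨_, rfl⟩
    have hvv : v ≤ v₁ := hv₁ ▸ le_max_left _ _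
    have htop : 2 * n - K + 100 * c ≤ v₁ := hv₁ ▸ le_max_right _ _
    have hv1 : v₁ + n ≤ S := by
      rcases max_cases v (2 * n - K + 100 * c) with ⟨h, _⟩ | ⟨h, _⟩ <;> rw [hv₁, h] <;> linarith
    obtain ⟨g, hg⟩ : ∃ g, g = n - 3 / 4 * K + c := ⟨_, rfl⟩
    obtain ⟨F₃, hF₃⟩ : ∃ F₃, F₃ = F₀ + (n + m - K) / 3 := ⟨_, rfl⟩
    have hv10 : 0 ≤ v₁ := hv.trans hvv
    have hvg : 3 * (v₁ + g) + 100 * c ≤ 2 * K := by rw [hg]; linarith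
    have hnum : NumNE c K v₁ n g F F₃ := by
      constructor <;> linarith
    have sub : ∀ (Y' : Multiset ℝ) (n' : ℝ), Sh Y' {z₁, z₂, z₃} → n' = Y'.sum →
        ∃ x₁ x₂ x₃ : ℝ, Y' = {x₁, x₂, x₃} ∧ 0 ≤ x₁ ∧ x₁ ≤ z₁ ∧ 0 ≤ x₂ ∧ x₂ ≤ z₂ ∧ 0 ≤ x₃ ∧
          x₃ ≤ z₃ ∧ n' = x₁ + x₂ + x₃ := by
      intro Y' n' hY hn'
      obtain ⟨x₁, x₂, x₃, rfl, t1, t2, t3, t4, t5, t6⟩ := sh3 hY
      rw [sum3'] at hn'
      exact ⟨x₁, x₂, x₃, rfl, t1, t2, t3, t4, t5, t6, hn'⟩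
    have hprem : PremNE c (c / 3) g F₃ s₀ Q K v₁ n F {z₁, z₂, z₃} := by
      constructor
      · intro Y' n' v' hY hn' hb hv' hvb
        obtain ⟨x₁, x₂, x₃, rfl, t1, t2, t3, t4, t5, t6, rfl⟩ := sub Y' n' hY hn'
        have hmm := mn_mono t2 t4 t6
        rw [← hm] at hmm
        have := ih (K + c) v' x₁ x₂ x₃ (by linarith) t1 (by linarith) t3 (by linarith) t5
          (by linarith) hv' (by linarith) (by linarith) (by linarith) (by linarith)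
        have := flK_add (K := K) (v := v') (n := x₁ + x₂ + x₃) hc.le
        linarith
      · intro Y' n' v' hY hn' hb hv' hvb
        obtain ⟨x₁, x₂, x₃, rfl, t1, t2, t3, t4, t5, t6, rfl⟩ := sub Y' n' hY hn'
        have hmm := mn_mono t2 t4 t6
        rw [← hm] at hmm
        have := hfar (n + m) v' x₁ x₂ x₃ (by linarith) t1 (by linarith) t3 (by linarith) t5
          (by linarith) (by linarith) hv' (by linarith) (by linarith) (by linarith)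
        linarith
      · intro Y' n' v' hY hn' hb hb' hv' hvb
        obtain ⟨x₁, x₂, x₃, rfl, t1, t2, t3, t4, t5, t6, rfl⟩ := sub Y' n' hY hn'
        have h3 := mn_third x₁ x₂ x₃
        have := hfar K v' x₁ x₂ x₃ (by linarith) t1 (by linarith) t3 (by linarith) t5
          (by linarith) (by linarith) hv' (by linarith) (by linarith) (by linarith)
        linarith
      · intro Y' n' v' w u hY hn' hb hv' hw hwv hu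
        obtain ⟨x₁, x₂, x₃, rfl, t1, t2, t3, t4, t5, t6, rfl⟩ := sub Y' n' hY hn'
        have h3 := mn_third x₁ x₂ x₃
        have hu0 := le_max_left 0 u
        have hu1 := le_max_right 0 u
        obtain ⟨K₂, hK₂⟩ : ∃ K₂, K₂ = max K (3 / 2 * v') := ⟨_, rfl⟩
        have k1 : K ≤ K₂ := hK₂ ▸ le_max_left _ _
        have k2 : 3 / 2 * v' ≤ K₂ := hK₂ ▸ le_max_right _ _
        rcases lt_or_ge (x₁ + x₂ + x₃ + K₂) (2 * v') with hs | hs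
        · have := hsh v' x₁ x₂ x₃ hv' t1 t3 t5 (by linarith)
          linarith
        have := hfar K₂ v' x₁ x₂ x₃ (by linarith) t1 (by linarith) t3 (by linarith) t5
          (by linarith) (by linarith) hv' (by linarith) (by linarith) hs
        rcases max_cases K (3 / 2 * v') with ⟨h, _⟩ | ⟨h, _⟩ <;> rw [h] at hK₂ <;> linarith
      · intro Y' n' v' hY hn' hb hv' hvb
        obtain ⟨x₁, x₂, x₃, rfl, t1, t2, t3, t4, t5, t6, rfl⟩ := sub Y' n' hY hn'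
        exact hQ K v' x₁ x₂ x₃ hK t1 (by linarith) t3 (by linarith) t5 (by linarith)
          (by linarith) hv' (by linarith) (by linarith)
      · intro Y' n' v' hY hn' hb hv' hvb
        obtain ⟨x₁, x₂, x₃, rfl, t1, t2, t3, t4, t5, t6, rfl⟩ := sub Y' n' hY hn'
        have h3 := mn_third x₁ x₂ x₃
        have hu0 := le_max_left 0 ((4 * (x₁ + x₂ + x₃) - 3 * K) / 9)
        have hu1 := le_max_right 0 ((4 * (x₁ + x₂ + x₃) - 3 * K) / 9)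
        obtain ⟨K₂, hK₂⟩ : ∃ K₂, K₂ = max K (x₁ + x₂ + x₃ + mn x₁ x₂ x₃) := ⟨_, rfl⟩
        have k1 : K ≤ K₂ := hK₂ ▸ le_max_left _ _
        have k2 : x₁ + x₂ + x₃ + mn x₁ x₂ x₃ ≤ K₂ := hK₂ ▸ le_max_right _ _
        have := hfar K₂ v' x₁ x₂ x₃ (by linarith) t1 (by linarith) t3 (by linarith) t5
          (by linarith) k2 hv' (by linarith) (by linarith) (by linarith)
        rcases max_cases K (x₁ + x₂ + x₃ + mn x₁ x₂ x₃) with ⟨h, _⟩ | ⟨h, _⟩ <;>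
          rw [h] at hK₂ <;> linarith
    have := G.ne K v₁ z₁ z₂ z₃ n g F F₃ p1 p2 p3 hn hnum hprem v hv hvv
    unfold flK
    linarith

/-- **the flat claims at the family `κ + 100 c`, all lists** -/
theorem near_all {c : ℝ} (hc : 0 < c) {s₀ : EF} {Q : ℝ → ℝ → Multiset ℝ → ℝ → ℝ → ℝ → Prop}
    (G : ExpNE c s₀ Q) {κ S y₁ y₂ y₃ F₀ F : ℝ} (hκ : 1000000 * c ≤ κ) (hκ0 : 0 < κ) (hF0 : 0 ≤ F₀)
    (hF : F₀ + 100 * c ≤ F) (hS : 5 * S ≤ 7 * κ) (hSn : 3 * (y₁ + y₂ + y₃) - κ ≤ S)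
    (hN : 5 * (y₁ + y₂ + y₃) ≤ 4 * κ)
    (hfar : FarH s₀ κ S y₁ y₂ y₃ F₀) (hsh : ShH s₀)
    (hQ : QH Q c (κ + 100 * c) S y₁ y₂ y₃ F)
    {v z₁ z₂ z₃ : ℝ} (p1 : 0 ≤ z₁) (q1 : z₁ ≤ y₁) (p2 : 0 ≤ z₂) (q2 : z₂ ≤ y₂) (p3 : 0 ≤ z₃)
    (q3 : z₃ ≤ y₃) (hv : 0 ≤ v) (hvS : v + (z₁ + z₂ + z₃) ≤ S) (h3v : 3 * v ≤ 2 * κ)
    (h2v : 2 * v ≤ z₁ + z₂ + z₃ + κ) :
    s₀ v {z₁, z₂, z₃} 0 0 ≤ flK κ v (z₁ + z₂ + z₃) + F + 100 / 3 * c := by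
  obtain ⟨k, hk⟩ := exists_nat_ge ((z₁ + z₂ + z₃ + mn z₁ z₂ z₃) / c)
  rw [div_le_iff₀ hc] at hk
  have h1 := near_desc hc G hκ hκ0 hF0 hF hS hSn hN hfar hsh hQ k (κ + 100 * c) v z₁ z₂ z₃ le_rfl
    p1 q1 p2 q2 p3 q3 hv hvS (by linarith) (by linarith) (by linarith)
  have h2 := flK_add (K := κ) (c := 100 * c) (v := v) (n := z₁ + z₂ + z₃) (by linarith)
  linarith

/-- the fields for arbitrarily small steps, with the side conditions on the domain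
`(κ, S, y)` with every target loss `F > F₀` -/
def NEF (s₀ : EF) (κ S y₁ y₂ y₃ F₀ : ℝ) : Prop :=
  ∀ c₀ : ℝ, 0 < c₀ → ∃ c : ℝ, 0 < c ∧ c ≤ c₀ ∧
    ∃ Q : ℝ → ℝ → Multiset ℝ → ℝ → ℝ → ℝ → Prop, ExpNE c s₀ Q ∧
      QH Q c (κ + 100 * c) S y₁ y₂ y₃ (F₀ + 100 * c)

/-- **the flat claims at the family `κ`** -/
theorem near_fin {s₀ : EF} {κ S y₁ y₂ y₃ F₀ : ℝ} (hκ0 : 0 < κ) (hF0 : 0 ≤ F₀)
    (hS : 5 * S ≤ 7 * κ) (hSn : 3 * (y₁ + y₂ + y₃) - κ ≤ S) (hN : 5 * (y₁ + y₂ + y₃) ≤ 4 * κ)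
    (hfar : FarH s₀ κ S y₁ y₂ y₃ F₀) (hsh : ShH s₀) (hG : NEF s₀ κ S y₁ y₂ y₃ F₀)
    {v z₁ z₂ z₃ : ℝ} (p1 : 0 ≤ z₁) (q1 : z₁ ≤ y₁) (p2 : 0 ≤ z₂) (q2 : z₂ ≤ y₂) (p3 : 0 ≤ z₃)
    (q3 : z₃ ≤ y₃) (hv : 0 ≤ v) (hvS : v + (z₁ + z₂ + z₃) ≤ S) (h3v : 3 * v ≤ 2 * κ)
    (h2v : 2 * v ≤ z₁ + z₂ + z₃ + κ) (_hkv : v + (z₁ + z₂ + z₃) / 2 ≤ κ) :
    s₀ v {z₁, z₂, z₃} 0 0 ≤ flK κ v (z₁ + z₂ + z₃) + F₀ := by
  refine le_of_forall_pos_le_add fun ε hε => ?_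
  obtain ⟨c, hc, hcc, Q, G, hQ⟩ := hG (min (κ / 1000000) (ε / 200)) (by positivity)
  have c1 : c ≤ κ / 1000000 := hcc.trans (min_le_left _ _)
  have c2 : c ≤ ε / 200 := hcc.trans (min_le_right _ _)
  have := near_all hc G (by linarith) hκ0 hF0 le_rfl hS hSn hN hfar hsh hQ p1 q1 p2 q2 p3 q3 hv hvS
    h3v h2v
  linarith

end Crest.Agent.R017.NE73
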