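import Crest.Agent.R017.RGB4_545
import Crest.Agent.R017.NEf_73

/-!
# Row 17, R8 / P1: the flat claims of the near-equal triple (helper73), the finite text

* `NeFin`, `ne_of_fin` : the field `ExpNE` at one `(K, v)` from the finite theorem
* `expNE_of_fin`       : the field
-/

set_option autoImplicit false

noncomputable section

open Set Filter Topology

namespace Crest.Agent.R017.NE73

open Crest.Agent.R012 Crest.Agent.R012.Eis Crest.Agent.R012.LS2
open Crest.Agent.R017.XG702 (Pcs BG)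
open Crest.Agent.R017.B770
open Crest.Agent.R017.Prov71
open Crest.Agent.R017.XP699
open Crest.Agent.R017.ER911 (Ok Sh EF)
open Crest.Agent.R017.RuleM545
open Crest.Agent.R017.RGB545

variable {Lam ι : Type*} {p : ℕ}

/-- the premises of the near-equal recursion -/
inductive NI (ι : Type*)
  | p0 : NI ι
  | ps : NI ι
  | pt : NI ι
  | pj : NI ι
  | q (j : ι) : NI ι

instance [Finite ι] : Finite (NI ι) := by
  refine Finite.of_surjective (fun x : Fin 4 ⊕ ι => match x with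
    | .inl 0 => (NI.p0 : NI ι) | .inl 1 => .ps | .inl 2 => .pt | .inl 3 => .pj
    | .inr j => .q j) ?_
  rintro (_ | _ | _ | _ | j)
  · exact ⟨.inl 0, rfl⟩
  · exact ⟨.inl 1, rfl⟩
  · exact ⟨.inl 2, rfl⟩
  · exact ⟨.inl 3, rfl⟩
  · exact ⟨.inr j, rfl⟩

/-- functionals -/
def Phn (S₀ : Lam → ℝ → List Pq → ℝ) (L : ι → Line Lam p) : NI ι → Lam → ℝ → ℝ → List Pq → ℝ
  | .q j => (L j).Φ
  | _ => one S₀

/-- second levels -/
def bn (L : ι → Line Lam p) (K : ℝ) : NI ι → Th 2 K × Th p K → ℝ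
  | .q j, θ => (L j).b θ.2.1
  | _, _ => 0

/-- the removed length from which on every sub-list is far -/
def gN (K c n : ℝ) : ℝ := n - 3 / 4 * K + c

/-- conditions, `x = (k, n, l, n')`, `θ = ((n₁, v₁), ..)` -/
def Gn (L : ι → Line Lam p) (K v c : ℝ) : NI ι → (Fin 4 → ℝ) → Th 2 K × Th p K → ℝ
  | .p0, x, _ => max (x 1 - x 3 - gN K c (x 1) - c) (x 2 - v - (x 1 - x 3))
  | .ps, x, _ => max (x 1 - x 3 - gN K c (x 1) - c) (x 2 - v - (x 1 - x 3))
  | .pt, x, _ => max (gN K c (x 1) - (x 1 - x 3))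
      (max (x 1 - x 3 - gN K c (x 1) - c) (x 2 - v - (x 1 - x 3)))
  | .pj, x, _ => max (gN K c (x 1) - (x 1 - x 3)) (x 2 - v - (x 1 - x 3))
  | .q j, x, θ => max (max (θ.1.1 0 - x 1) (x 3 - θ.1.1 0))
      (max (max (x 1 - θ.1.1 0 - gN K c (x 1) - c) (θ.1.1 1 - v - (x 1 - θ.1.1 0)))
        ((L j).G ![K, θ.1.1 1, θ.1.1 0, x 2, x 3] θ.2.1))

/-- exponents, `x = (k, n, l, n')`, `θ = ((n₁, v₁), ..)` -/
def Fn (L : ι → Line Lam p) (K v c : ℝ) : NI ι → (Fin 4 → ℝ) → Th 2 K × Th p K → ℝ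
  | .p0, x, _ => Ar K ![x 2, x 3] + c / 3 - Ar K ![x 0, x 1]
  | .ps, x, _ => 4 / 3 * x 3 + (x 2 + K) / 3 + max 0 ((4 * x 3 - 3 * K) / 9) -
      Ar K ![x 0, x 1]
  | .pt, x, _ => 4 / 3 * x 3 + (x 2 + K) / 3 - Ar K ![x 0, x 1]
  | .pj, x, _ => 4 / 3 * x 3 + (x 2 + K) / 3 +
      max 0 ((x 1 - x 3) - ((x 1 - x 3) - (x 2 - v)) / 3 - gN K c (x 1)) - Ar K ![x 0, x 1]
  | .q j, x, θ => Ar K ![θ.1.1 1, θ.1.1 0] +
      (L j).F ![K, θ.1.1 1, θ.1.1 0, x 2, x 3] θ.2.1 - Ar K ![x 0, x 1]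

def zn (L : ι → Line Lam p) : NI ι → Prop
  | .q j => (L j).zl
  | _ => False

/-- conditions on the parent `(k, n)` : `k ≤ v`, `2 n + 100 c ≤ K + v`, `5 (v + n) + 100 c ≤ 7 K`,
`5 n ≤ 4 K`, `3 K ≤ 4 n`, `3 (v + g) + 100 c ≤ 2 K` -/
def Hn (K v c : ℝ) (x : Fin 2 → ℝ) : ℝ :=
  max (max (x 0 - v) (max (2 * x 1 + 100 * c - K - v) (5 * (v + x 1) + 100 * c - 7 * K)))
    (max (max (5 * x 1 - 4 * K) (3 * K - 4 * x 1)) (3 * (v + gN K c (x 1)) + 100 * c - 2 * K))

/-- **the near-equal recursion, finite text** -/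
def NeFin (S₀ : Lam → ℝ → List Pq → ℝ) (L : ι → Line Lam p) (ε₀ K v c : ℝ) : Prop :=
  HRcG Dq hcost S₀ (Phn S₀ L) (bn L K) (fun _ _ ps => ps) (Gn L K v c) (Fn L K v c)
    (Hmin Dq (Hn K v c) ε₀) (Ar K) (zn L) (TK K)

lemma continuous_gN (K c : ℝ) : Continuous (gN K c) := by
  unfold gN
  fun_prop

lemma continuous_Hn (K v c : ℝ) : Continuous (Hn K v c) := by
  unfold Hn gN
  exact Continuous.max (Continuous.max (by fun_prop) (Continuous.max (by fun_prop) (by fun_prop)))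
    (Continuous.max (Continuous.max (by fun_prop) (by fun_prop)) (by fun_prop))

/-- **the field at one `(K, v)`** -/
theorem ne_of_fin [Finite ι] {S₀ : Lam → ℝ → List Pq → ℝ} {L : ι → Line Lam p}
    (hL : ∀ j, (L j).OK) (hS : FunOK S₀)
    (hSm : ∀ lam l l' ps, l ≤ l' → S₀ lam l ps ≤ S₀ lam l' ps) {ε₀ K v c : ℝ} (hε₀ : 0 < ε₀)
    (hc : 0 < c) (hfin : NeFin S₀ L ε₀ K v c) {z₁ z₂ z₃ n g F F₃ : ℝ} (h1 : 0 ≤ z₁) (h2 : 0 ≤ z₂)
    (h3 : 0 ≤ z₃) (hn : n = z₁ + z₂ + z₃) (hN : NumNE c K v n g F F₃)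
    (hP : PremNE c (c / 3) g F₃ (ex Dq S₀) (QG L) K v n F {z₁, z₂, z₃}) {v' : ℝ} (hv0 : 0 ≤ v')
    (hv1 : v' ≤ v) :
    ex Dq S₀ v' {z₁, z₂, z₃} 0 0 ≤ 2 * n + F + max 0 ((v' + K - 2 * n) / 3) := by
  obtain ⟨K0, cK, nK, Kn, hg, top, sn, vg, F0, F30, F3⟩ := hN
  obtain ⟨p0, pS, pT, pJ, pR, pV⟩ := hP
  obtain ⟨Y, hYd⟩ : ∃ Y : Multiset ℝ, Y = {z₁, z₂, z₃} := ⟨_, rfl⟩
  have hYs : Y.sum = n := by rw [hYd, sum3', hn]
  have hgN : gN K c n = g := by rw [hg]; rfl
  rw [← hYd] at p0 pT pJ pR pV ⊢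
  have hY : Ok Y 0 0 := by
    refine ⟨?_, le_rfl, le_rfl⟩
    intro y hy
    rw [hYd] at hy
    simp only [Multiset.insert_eq_cons, Multiset.mem_cons, Multiset.mem_singleton] at hy
    rcases hy with rfl | rfl | rfl <;> assumption
  have hn0 : 0 ≤ n := by linarith
  have hmx : 0 ≤ max 0 ((v' + K - 2 * n) / 3) := le_max_left _ _
  have hcA := continuous_Ar K
  have hcg := continuous_gN K c
  have c0 : Continuous fun x : (Fin 4 → ℝ) × (Th 2 K × Th p K) => x.2.1.1 0 :=
    (continuous_apply 0).comp (continuous_subtype_val.comp (continuous_fst.comp continuous_snd))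
  have c1 : Continuous fun x : (Fin 4 → ℝ) × (Th 2 K × Th p K) => x.2.1.1 1 :=
    (continuous_apply 1).comp (continuous_subtype_val.comp (continuous_fst.comp continuous_snd))
  have cg : Continuous fun x : (Fin 4 → ℝ) × (Th 2 K × Th p K) => gN K c (x.1 1) :=
    hcg.comp (by fun_prop)
  have hsum : Y.sum + 0 + 0 = n := by rw [add_zero, add_zero, hYs]
  refine ruleExg (Θ := Th 2 K × Th p K) ?_ ?_ one_le_hcost (fun q => by
      show 1 ≤ 1 + |q.t|
      linarith [abs_nonneg q.t]) ?_ ?_ (continuous_Hn K v c) hcA hε₀ hSm hfin hS.perm ?_ hv0 hY ?_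
    ?_ ?_ ?_
  · rintro (_ | _ | _ | _ | j)
    · exact continuous_const
    · exact continuous_const
    · exact continuous_const
    · exact continuous_const
    · exact (hL j).cb.comp (continuous_subtype_val.comp continuous_snd)
  · rintro (_ | _ | _ | _ | j) θ
    · exact le_rfl
    · exact le_rfl
    · exact le_rfl
    · exact le_rfl
    · exact (hL j).b0 _ θ.2.2.1
  · rintro (_ | _ | _ | _ | j)
    · exact Continuous.max (((by fun_prop : Continuous fun x : (Fin 4 → ℝ) × (Th 2 K × Th p K) =>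
        x.1 1 - x.1 3).sub cg).sub (by fun_prop)) (by fun_prop)
    · exact Continuous.max (((by fun_prop : Continuous fun x : (Fin 4 → ℝ) × (Th 2 K × Th p K) =>
        x.1 1 - x.1 3).sub cg).sub (by fun_prop)) (by fun_prop)
    · exact Continuous.max (cg.sub (by fun_prop)) (Continuous.max
        (((by fun_prop : Continuous fun x : (Fin 4 → ℝ) × (Th 2 K × Th p K) =>
        x.1 1 - x.1 3).sub cg).sub (by fun_prop)) (by fun_prop))
    · exact Continuous.max (cg.sub (by fun_prop)) (by fun_prop)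
    · refine Continuous.max (Continuous.max (c0.sub (by fun_prop)) (Continuous.sub (by fun_prop) c0))
        (Continuous.max (Continuous.max ((((by fun_prop : Continuous fun x : (Fin 4 → ℝ) ×
          (Th 2 K × Th p K) => x.1 1).sub c0).sub cg).sub
          (by fun_prop)) (Continuous.sub (c1.sub (by fun_prop))
            (Continuous.sub (by fun_prop) c0))) ?_)
      exact (hL j).cG.comp ((cont5 continuous_const c1 c0 (by fun_prop)
        (by fun_prop)).prodMk (continuous_subtype_val.comp (continuous_snd.comp continuous_snd)))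
  · have hA2 : Continuous fun x : (Fin 4 → ℝ) × (Th 2 K × Th p K) => Ar K ![x.1 0, x.1 1] :=
      hcA.comp (cont2 (by fun_prop) (by fun_prop))
    have hA3 : Continuous fun x : (Fin 4 → ℝ) × (Th 2 K × Th p K) => Ar K ![x.1 2, x.1 3] :=
      hcA.comp (cont2 (by fun_prop) (by fun_prop))
    have hA4 : Continuous fun x : (Fin 4 → ℝ) × (Th 2 K × Th p K) =>
      Ar K ![x.2.1.1 1, x.2.1.1 0] := hcA.comp (cont2 c1 c0)
    rintro (_ | _ | _ | _ | j)
    · exact (hA3.add continuous_const).sub hA2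
    · refine Continuous.sub (Continuous.add (by fun_prop) ?_) hA2
      exact Continuous.max continuous_const (by fun_prop)
    · exact Continuous.sub (by fun_prop) hA2
    · refine Continuous.sub (Continuous.add (by fun_prop) ?_) hA2
      exact Continuous.max continuous_const (Continuous.sub (by fun_prop) cg)
    · refine Continuous.sub (Continuous.add hA4 ?_) hA2
      exact (hL j).cF.comp ((cont5 continuous_const c1 c0 (by fun_prop)
        (by fun_prop)).prodMk (continuous_subtype_val.comp (continuous_snd.comp continuous_snd)))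
  · rintro (_ | _ | _ | _ | j)
    · exact hS.triv2
    · exact hS.triv2
    · exact hS.triv2
    · exact hS.triv2
    · exact (hL j).tr
  · linarith
  · rw [hsum]
    show max (max (v' - v) (max (2 * n + 100 * c - K - v) (5 * (v + n) + 100 * c - 7 * K)))
      (max (max (5 * n - 4 * K) (3 * K - 4 * n)) (3 * (v + gN K c n) + 100 * c - 2 * K)) ≤ 0
    rw [hgN]
    exact max_le (max_le (by linarith) (max_le (by linarith) (by linarith)))
      (max_le (max_le (by linarith) (by linarith)) (by linarith))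
  · rw [hsum]
    show 2 * n + max 0 ((v' + K - 2 * n) / 3) ≤ _
    linarith
  · rw [hsum]
    rintro (_ | _ | _ | _ | j) θ u' m' a' l hsh hm0 hm1 ha0 ha1 hl hlc hG hz
    all_goals
      obtain rfl : m' = 0 := le_antisymm hm1 hm0
      obtain rfl : a' = 0 := le_antisymm ha1 ha0
    · have hG' : max (n - (u'.sum + 0 + 0) - gN K c n - c)
        (l - v - (n - (u'.sum + 0 + 0))) ≤ 0 := hG
      rw [hgN] at hG'
      have g1 := (le_max_left _ _).trans hG'
      have g3 := (le_max_right _ _).trans hG'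
      refine hS.bg2 hl ⟨hsh.nn, hm0, ha0⟩ ?_
      have h := p0 (u' : Multiset ℝ) (u'.sum + 0 + 0) l hsh
        (by rw [Multiset.sum_coe]; ring) (by linarith) hl (by linarith)
      refine h.trans (le_of_eq ?_)
      show flK K l (u'.sum + 0 + 0) + c / 3 + F = 2 * n + F + max 0 ((v' + K - 2 * n) / 3) +
        (flK K l (u'.sum + 0 + 0) + c / 3 - (2 * n + max 0 ((v' + K - 2 * n) / 3)))
      ring
    · have hG' : max (n - (u'.sum + 0 + 0) - gN K c n - c)
        (l - v - (n - (u'.sum + 0 + 0))) ≤ 0 := hG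
      rw [hgN] at hG'
      have g1 := (le_max_left _ _).trans hG'
      have g3 := (le_max_right _ _).trans hG'
      refine hS.bg2 hl ⟨hsh.nn, hm0, ha0⟩ ?_
      have h := pV (u' : Multiset ℝ) (u'.sum + 0 + 0) l hsh
        (by rw [Multiset.sum_coe]; ring) (by linarith) hl (by linarith)
      refine h.trans (le_of_eq ?_)
      show _ = 2 * n + F + max 0 ((v' + K - 2 * n) / 3) +
        (4 / 3 * (u'.sum + 0 + 0) + (l + K) / 3 +
          max 0 ((4 * (u'.sum + 0 + 0) - 3 * K) / 9) -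
          (2 * n + max 0 ((v' + K - 2 * n) / 3)))
      ring
    · have hG' : max (gN K c n - (n - (u'.sum + 0 + 0))) (max (n - (u'.sum + 0 + 0) - gN K c n - c)
        (l - v - (n - (u'.sum + 0 + 0)))) ≤ 0 := hG
      rw [hgN] at hG'
      have g1 := (le_max_left _ _).trans hG'
      have g2 := (le_max_left _ _).trans ((le_max_right _ _).trans hG')
      have g3 := (le_max_right _ _).trans ((le_max_right _ _).trans hG')
      refine hS.bg2 hl ⟨hsh.nn, hm0, ha0⟩ ?_
      have h := pT (u' : Multiset ℝ) (u'.sum + 0 + 0) l hsh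
        (by rw [Multiset.sum_coe]; ring) (by linarith) (by linarith) hl (by linarith)
      refine h.trans (le_of_eq ?_)
      show _ = 2 * n + F + max 0 ((v' + K - 2 * n) / 3) +
        (4 / 3 * (u'.sum + 0 + 0) + (l + K) / 3 -
          (2 * n + max 0 ((v' + K - 2 * n) / 3)))
      ring
    · have hG' : max (gN K c n - (n - (u'.sum + 0 + 0)))
        (l - v - (n - (u'.sum + 0 + 0))) ≤ 0 := hG
      rw [hgN] at hG'
      have g1 := (le_max_left _ _).trans hG'
      have g3 := (le_max_right _ _).trans hG'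
      refine hS.bg2 hl ⟨hsh.nn, hm0, ha0⟩ ?_
      have h := pJ (u' : Multiset ℝ) (u'.sum + 0 + 0) l
        (((n - (u'.sum + 0 + 0)) - (l - v)) / 3) _ hsh
        (by rw [Multiset.sum_coe]; ring) (by linarith) hl (by linarith) (by ring) rfl
      refine h.trans (le_of_eq ?_)
      show _ = 2 * n + F + max 0 ((v' + K - 2 * n) / 3) + (4 / 3 * (u'.sum + 0 + 0) +
        (l + K) / 3 + max 0 ((n - (u'.sum + 0 + 0)) - ((n - (u'.sum + 0 + 0)) - (l - v)) / 3 -
          gN K c n) - (2 * n + max 0 ((v' + K - 2 * n) / 3)))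
      rw [hgN]
      ring
    · obtain ⟨n₁, hn₁⟩ : ∃ x, x = θ.1.1 0 := ⟨_, rfl⟩
      obtain ⟨v₁, hv₁⟩ : ∃ x, x = θ.1.1 1 := ⟨_, rfl⟩
      have hv₁0 : 0 ≤ v₁ := hv₁ ▸ θ.1.2.1 1
      have hG' : max (max (θ.1.1 0 - n) ((u'.sum + 0 + 0) - θ.1.1 0))
        (max (max (n - θ.1.1 0 - gN K c n - c) (θ.1.1 1 - v - (n - θ.1.1 0)))
        ((L j).G ![K, θ.1.1 1, θ.1.1 0, l, u'.sum + 0 + 0] θ.2.1)) ≤ 0 := hG
      rw [← hn₁, ← hv₁, hgN] at hG'
      have g1 := (le_max_left _ _).trans ((le_max_left _ _).trans hG')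
      have g2 := (le_max_right _ _).trans ((le_max_left _ _).trans hG')
      have g3 := (le_max_left _ _).trans ((le_max_left _ _).trans ((le_max_right _ _).trans hG'))
      have g4 := (le_max_right _ _).trans ((le_max_left _ _).trans ((le_max_right _ _).trans hG'))
      have g5 := (le_max_right _ _).trans ((le_max_right _ _).trans hG')
      obtain ⟨Z, m₁, a₁, z1, z2, z3, z4, z5, z6, z7⟩ := mid hsh hm1 ha1 (x := n₁)
        (by rw [Multiset.sum_coe]; linarith) (by linarith)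
      obtain rfl : m₁ = 0 := le_antisymm z4 z3
      obtain rfl : a₁ = 0 := le_antisymm z6 z5
      have hq := (pR Z n₁ v₁ z2 (by rw [z7]; ring) (by linarith) hv₁0
        (by linarith)).2 j θ.2 u' 0 0 l z1 le_rfl le_rfl le_rfl le_rfl hl hlc
        (by rw [← z7]; exact g5) hz
      rw [← z7] at hq
      show BG2 Dq (L j).Φ l ((L j).b θ.2.1) u' (wt 0 0) (2 * n + F + max 0 ((v' + K - 2 * n) / 3) +
        (flK K (θ.1.1 1) (θ.1.1 0) +
          (L j).F ![K, θ.1.1 1, θ.1.1 0, l, u'.sum + 0 + 0] θ.2.1 -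
          (2 * n + max 0 ((v' + K - 2 * n) / 3))))
      rw [← hn₁, ← hv₁]
      refine hq.mono (le_of_eq ?_)
      ring

/-- **the field of near-equal lists** from the finite theorem at every `(K, v)` -/
theorem expNE_of_fin [Finite ι] {S₀ : Lam → ℝ → List Pq → ℝ} {L : ι → Line Lam p}
    (hL : ∀ j, (L j).OK) (hS : FunOK S₀)
    (hSm : ∀ lam l l' ps, l ≤ l' → S₀ lam l ps ≤ S₀ lam l' ps) {c : ℝ} (hc : 0 < c)
    (hfin : ∀ K v : ℝ, 1000000 * c ≤ K → 0 ≤ v → 3 * v + 100 * c ≤ 2 * K →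
      ∃ ε₀ : ℝ, 0 < ε₀ ∧ NeFin S₀ L ε₀ K v c) : ExpNE c (ex Dq S₀) (QG L) where
  ne := by
    intro K v z₁ z₂ z₃ n g F F₃ h1 h2 h3 hn hN hP v' hv0 hv1
    obtain ⟨ε₀, hε₀, hf⟩ := hfin K v hN.cK (hv0.trans hv1) (by
      have := hN.vg
      have := hN.hg
      have := hN.Kn
      linarith)
    exact ne_of_fin hL hS hSm hε₀ hc hf h1 h2 h3 hn hN hP hv0 hv1

end Crest.Agent.R017.NE73
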