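import Crest.Agent.R017.NEi_551
import Crest.Agent.R017.NEj_73
import Crest.Agent.R017.NEb_499
import Crest.Agent.R017.RGn_64

/-!
# Row 17, near field (FlatNE), finite text (helper551)

* `NumS0` : the numbers of helper499's `lb_bs` as one Prop; `lbs_bs` : `LBS w 0`
* `NTc` : the claims for the sub-lists of the parent which the leaf may use
* `NLeaf` : the near leaf
* `ne_fin` : helper73's `NeFin` from `LBS` and `NLeaf`
-/

set_option autoImplicit false

noncomputable section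

open Complex
open scoped ComplexConjugate

namespace Crest.Agent.R017.NEg551

open Crest.Agent.R012 Crest.Agent.R012.Eis Crest.Agent.R012.LS2 Crest.Agent.R012.Gauss880
open Crest.Agent.R012.MC (Wgt)
open Crest.Agent.R017.CM106 Crest.Agent.R017.HP842 Crest.Agent.R017.FE47
open Crest.Agent.R017.End699 hiding pw
open Crest.Agent.R017.B770
open Crest.Agent.R017.Prov71
open Crest.Agent.R017.Leg381
open Crest.Agent.R017.RGB545
open Crest.Agent.R017.RuleM545
open Crest.Agent.R017.XP699 (LL Chd hcost cst)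
open Crest.Agent.R017.RG64
open Crest.Agent.R017.NE499 (NumT NumCs NumOs lb_bs)
open Crest.Agent.R017.NE73 (NI NeFin Phn bn Gn Fn Hn zn gN)

/-! ### the lower bound -/

/-- the numbers of `lb_bs` -/
def NumS0 (w : ℝ → ℝ) (p : LBq) (α : Eis → ℂ) (Rn : ℝ) : Prop :=
  ∃ Tt Ec Ro : ℝ, 0 ≤ Tt ∧ 0 ≤ Ec ∧ 0 ≤ Ro ∧ Tt + Ec + Ro ≤ Rn ∧
    NumT p.Cw p.η p.Aw p.K p.X p.Y p.R p.J p.D p.E0 p.N₁ α Tt ∧
    NumCs w p.Cw p.η p.Aw p.K p.X p.Y p.R p.J p.D p.E0 p.E1 p.N₁ α Ec ∧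
    NumOs w p.Cw p.η p.Aw p.K p.X p.K p.R p.J p.D p.E0 p.E1 p.B (p.N₁ / 2) p.N₁ α Ro

lemma NumS0.mono {w : ℝ → ℝ} (p : LBq) (α : Eis → ℂ) (Rn Rn' : ℝ) (h : NumS0 w p α Rn)
    (hR : Rn ≤ Rn') : NumS0 w p α Rn' := by
  obtain ⟨Tt, Ec, Ro, h1, h2, h3, h4, h5⟩ := h
  exact ⟨Tt, Ec, Ro, h1, h2, h3, h4.trans hR, h5⟩

set_option maxHeartbeats 1600000 in
/-- **`lb_bs` as `LBS w 0`** -/
theorem lbs_bs {w : ℝ → ℝ} (hw : Wgt w) (hw0 : ∀ x, 0 ≤ w x) : LBS w 0 (NumS0 w) := by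
  intro Cw R ε Aw J hCw hR hε hJA
  obtain ⟨C, hC, H⟩ := lb_bs hw hw0 hCw hR hε hJA
  refine ⟨C, hC, ?_⟩
  intro K X Y D G₀ E0 E1 B θ η N₁ hK hKY hX hY hD hDY hE0 hE0Y hB hθ hBθ hN₁ hN₁Y hKθ hη hη1 α
    hα hαR hαn Ma Ml Rn hMa hMl hRn hSA hL hnum
  obtain ⟨Tt, Ec, Ro, hT, hE, hRo, hsum, n1, n2, n3⟩ := hnum
  have key := H K X Y D G₀ E0 E1 B θ η N₁ hK hKY hX hY hD hDY hE0 hE0Y hB hθ hBθ hN₁ hN₁Y hKθ hη
    hη1 α hα hαR hαn Ma Ml Tt Ec Ro hMa hMl hT hE hRo hSA hL n1 n2 n3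
  have key' : LBn w Cw η Aw K X Y D N₁ (NEsm551.rhs N₁) R J α
      (C * (η⁻¹) ^ J * (Y ^ ε * Y ^ ε * Y ^ ε) *
        (X ^ 2 + θ * E0 * (Ma + Ml) + Tt + Ec + Ro)) := key
  refine key'.mono hK.le hX.le ?_
  have hY0 : 0 < Y := by linarith
  have hη1' : 1 ≤ η⁻¹ := (one_le_inv₀ hη).mpr hη1
  have h1 : (η⁻¹) ^ J ≤ (η⁻¹) ^ (2 * J + 2) := pow_le_pow_right₀ hη1' (by omega)
  have h2 : Y ^ ε * Y ^ ε * Y ^ ε ≤ Y ^ (4 * ε) := by
    rw [← Real.rpow_add hY0, ← Real.rpow_add hY0]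
    exact Real.rpow_le_rpow_of_exponent_le hY (by linarith)
  have h3 : 0 ≤ θ * E0 * (Ma + Ml) := by positivity
  have h4 : X ^ 2 + θ * E0 * (Ma + Ml) + Tt + Ec + Ro ≤
      X ^ 2 + (θ * E0 + 0 * E0⁻¹) * (Ma + Ml) + Rn := by
    rw [zero_mul, add_zero]
    linarith
  have h5 : 0 ≤ X ^ 2 + θ * E0 * (Ma + Ml) + Tt + Ec + Ro := by positivity
  gcongr

/-! ### the leaf -/

/-- the loss of the slope form -/
def F3 (κ m : ℝ) : ℝ := max 0 ((4 * m - 3 * κ) / 9)

lemma F3_mono (κ : ℝ) : Monotone (F3 κ) := fun a b h => by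
  unfold F3
  exact max_le_max le_rfl (by linarith)

lemma F3_nonneg (κ m : ℝ) : 0 ≤ F3 κ m := le_max_left _ _

lemma F3_add (κ m x : ℝ) (hx : 0 ≤ x) : F3 κ (m + x) ≤ F3 κ m + x := by
  unfold F3
  have h1 := le_max_left 0 ((4 * m - 3 * κ) / 9)
  have h2 := le_max_right 0 ((4 * m - 3 * κ) / 9)
  refine max_le (by linarith) ?_
  linarith

/-- **the claims** for the sub-lists of the parent `ps₀` (family `X ^ K`, level `v`, length
`n = LL ps₀`, `g = gN K c (n / log X)`): flat form, slope form with the loss `F3`, slope form at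
the removed length `g`, (J) beyond -/
structure NTc (P : DPar) (h : ℝ → ℝ) (K v c ε X r b M Bd : ℝ) (ps₀ : List Pq) : Prop where
  fl : ∀ (l : ℝ) (ps' : List Pq), 0 ≤ l →
    l ≤ (v + ε) * Real.log X + (LL Dq ps₀ - LL Dq ps') → List.Forall₂ (Chd Dq hcost r b) ps' ps₀ →
    LL Dq ps₀ - LL Dq ps' ≤ (gN K c (LL Dq ps₀ / Real.log X) + c + ε) * Real.log X →
    S0p P h l ps' ≤ Bd * cst hcost ps' ps₀ ^ M *
      Real.exp (RG64.fl (K * Real.log X) l (LL Dq ps') + c / 3 * Real.log X)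
  sl : ∀ (l : ℝ) (ps' : List Pq), 0 ≤ l →
    l ≤ (v + ε) * Real.log X + (LL Dq ps₀ - LL Dq ps') → List.Forall₂ (Chd Dq hcost r b) ps' ps₀ →
    LL Dq ps₀ - LL Dq ps' ≤ (gN K c (LL Dq ps₀ / Real.log X) + c + ε) * Real.log X →
    S0p P h l ps' ≤ Bd * cst hcost ps' ps₀ ^ M *
      Real.exp (F3 (K * Real.log X) (LL Dq ps') + ex0 (K * Real.log X) l (LL Dq ps'))
  tp : ∀ (l : ℝ) (ps' : List Pq), 0 ≤ l →
    l ≤ (v + ε) * Real.log X + (LL Dq ps₀ - LL Dq ps') → List.Forall₂ (Chd Dq hcost r b) ps' ps₀ →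
    (gN K c (LL Dq ps₀ / Real.log X) - ε) * Real.log X ≤ LL Dq ps₀ - LL Dq ps' →
    LL Dq ps₀ - LL Dq ps' ≤ (gN K c (LL Dq ps₀ / Real.log X) + c + ε) * Real.log X →
    S0p P h l ps' ≤ Bd * cst hcost ps' ps₀ ^ M * Real.exp (ex0 (K * Real.log X) l (LL Dq ps'))
  jj : ∀ (l : ℝ) (ps' : List Pq), 0 ≤ l →
    l ≤ (v + ε) * Real.log X + (LL Dq ps₀ - LL Dq ps') → List.Forall₂ (Chd Dq hcost r b) ps' ps₀ →
    (gN K c (LL Dq ps₀ / Real.log X) - ε) * Real.log X ≤ LL Dq ps₀ - LL Dq ps' →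
    S0p P h l ps' ≤ Bd * cst hcost ps' ps₀ ^ M * Real.exp (exJ (K * Real.log X)
      (v * Real.log X) (LL Dq ps₀) (gN K c (LL Dq ps₀ / Real.log X) * Real.log X) l (LL Dq ps'))

/-- the numerical facts about the parent -/
structure NNum (K v c ε X : ℝ) (ps₀ : List Pq) : Prop where
  top : 2 * LL Dq ps₀ + 100 * c * Real.log X ≤ (K + v + ε) * Real.log X
  nK : 5 * LL Dq ps₀ ≤ (4 * K + ε) * Real.log X
  Kn : 3 * K * Real.log X ≤ 4 * LL Dq ps₀ + ε * Real.log X
  vg : 3 * (v + gN K c (LL Dq ps₀ / Real.log X)) + 100 * c ≤ 2 * K + ε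
  sn : 5 * (v * Real.log X + LL Dq ps₀) + 100 * c * Real.log X ≤ (7 * K + ε) * Real.log X
  ec : ε ≤ c

variable {Lam ι : Type*} {p : ℕ}

/-- **the near leaf** (class N): `K = X ^ K`, `X = e ^ m`, `Y = X ^ (8 (K + 1))`,
`E0 = X ^ φ₀`, `E1 = X ^ φ₁`, `B = θ⁻¹ = X ^ φβ` (functions of `n / log X`, level, length) -/
def NLeaf (π : Lam → DPar) (h : ℝ → ℝ) (RR : LBq → (Eis → ℂ) → ℝ → Prop)
    (L : ι → Line Lam p) (φ₀ φ₁ φβ : ℝ → ℝ → ℝ → ℝ) (K v c : ℝ) : Prop :=
  ∀ (lam : Lam) (N : ℕ) (c₀ : ℝ), 1 ≤ c₀ → ∃ B₀ : ℝ, 0 ≤ B₀ ∧ ∀ ε M : ℝ, 0 < ε → 0 ≤ M →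
    ∃ J₀ δ₀ : ℝ, 0 ≤ J₀ ∧ 0 < δ₀ ∧ ∀ (δ : ℝ) (Jn Aw : ℕ) (Cw R η S : ℝ), 0 ≤ δ → δ ≤ δ₀ →
    J₀ ≤ Jn → Jn + 2 ≤ Aw → 0 ≤ Cw → 0 ≤ R → 0 < η → η ≤ 1 / 2 → 0 ≤ S →
    ∃ C r X₁ : ℝ, 0 ≤ C ∧ 0 ≤ r ∧ ∀ X : ℝ, 3 ≤ X → X₁ ≤ X → ∀ ps₀ : List Pq, ps₀.length ≤ N →
    (∀ q ∈ ps₀, 0 ≤ Dq.len q ∧ Dq.len q ≤ c₀ * Real.log X) → (∀ q ∈ ps₀, Dq.s2 q ≤ X ^ c₀) →
    NNum K v c ε X ps₀ →
    ∀ (q : Eis) (ps : List Pf) (Lv : ℝ) (N₁ : ℕ),
    NFacts K v (gN K c (LL Dq ps₀ / Real.log X)) ε X ps₀ ps Lv N₁ →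
    IsPrim q → (nm q : ℝ) ≤ X ^ c₀ → SbL S ps ps₀ → ∀ Bd : ℝ, 1 ≤ Bd →
    NTc (π lam) h K v c (2 * ε) X r (C * X ^ B₀) M Bd ps₀ →
    (∀ (j : ι) (θ : Th p K) (l : ℝ) (ps' : List Pq), 0 ≤ l → l ≤ TK K * Real.log X →
      List.Forall₂ (Chd Dq hcost r (C * X ^ B₀)) ps' ps₀ →
      LL Dq ps' ≤ LF ps + ε * Real.log X →
      (L j).G ![K, Lv / Real.log X, LF ps / Real.log X, l / Real.log X,
        LL Dq ps' / Real.log X] θ.1 ≤ ε →
      ((L j).zl → ∀ q ∈ ps', Dq.lump q → Dq.len q ≤ l + ε * Real.log X) →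
      (L j).Φ lam l ((L j).b θ.1 * Real.log X) ps' ≤ Bd * cst hcost ps' ps₀ ^ M *
        X ^ (4 / 3 * (LF ps / Real.log X) + (Lv / Real.log X + K) / 3 +
          (L j).F ![K, Lv / Real.log X, LF ps / Real.log X, l / Real.log X,
            LL Dq ps' / Real.log X] θ.1)) →
    RR ⟨Cw, η, Aw, X ^ K, Real.exp (LF ps), X ^ (8 * (K + 1)), R, Jn, N₁,
        X ^ φ₀ (LL Dq ps₀ / Real.log X) (Lv / Real.log X) (LF ps / Real.log X),
        X ^ φ₁ (LL Dq ps₀ / Real.log X) (Lv / Real.log X) (LF ps / Real.log X),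
        X ^ φβ (LL Dq ps₀ / Real.log X) (Lv / Real.log X) (LF ps / Real.log X),
        X ^ (-φβ (LL Dq ps₀ / Real.log X) (Lv / Real.log X) (LF ps / Real.log X)),
        Real.exp (min (gN K c (LL Dq ps₀ / Real.log X) * Real.log X)
          (LF ps - (LL Dq ps₀ - gN K c (LL Dq ps₀ / Real.log X) * Real.log X))),
        Real.exp (min (gN K c (LL Dq ps₀ / Real.log X) * Real.log X)
          (LF ps - (LL Dq ps₀ - gN K c (LL Dq ps₀ / Real.log X) * Real.log X)))⟩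
      (sqc q (alF (X ^ δ) (X ^ δ) (π lam) h ps))
      (C * X ^ ε * (Ht ps * Ht (natl ps₀)) ^ J₀ * Bd * Real.exp (2 * LF ps))

lemma NTc.mono {P : DPar} {h : ℝ → ℝ} {K v c ε ε' X r r' b b' M Bd : ℝ} {ps₀ : List Pq}
    (H : NTc P h K v c ε X r b M Bd ps₀) (hε : ε' ≤ ε) (hr : r' ≤ r) (hb : b' ≤ b)
    (hX : 0 ≤ Real.log X) : NTc P h K v c ε' X r' b' M Bd ps₀ := by
  have e1 : ∀ x : ℝ, (x + ε') * Real.log X ≤ (x + ε) * Real.log X := fun x =>
    mul_le_mul_of_nonneg_right (by linarith) hX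
  have e2 : ∀ x : ℝ, (x - ε) * Real.log X ≤ (x - ε') * Real.log X := fun x =>
    mul_le_mul_of_nonneg_right (by linarith) hX
  constructor
  · intro l ps' h1 h2 h3 h4
    exact H.fl l ps' h1 (h2.trans (by linarith [e1 v])) (Chd.mono' hr hb h3) (h4.trans (e1 _))
  · intro l ps' h1 h2 h3 h4
    exact H.sl l ps' h1 (h2.trans (by linarith [e1 v])) (Chd.mono' hr hb h3) (h4.trans (e1 _))
  · intro l ps' h1 h2 h3 h4 h5
    exact H.tp l ps' h1 (h2.trans (by linarith [e1 v])) (Chd.mono' hr hb h3) ((e2 _).trans h4)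
      (h5.trans (e1 _))
  · intro l ps' h1 h2 h3 h4
    exact H.jj l ps' h1 (h2.trans (by linarith [e1 v])) (Chd.mono' hr hb h3) ((e2 _).trans h4)

/-- **the claims at a cell**: flat form up to the removed length `g + 2 c + x`, `x = log nm δ`
(the level is at most `v + removed - 3 x`) -/
lemma NTc.fx {P : DPar} {h : ℝ → ℝ} {K v c ε X r b M Bd : ℝ} {ps₀ : List Pq}
    (H : NTc P h K v c ε X r b M Bd ps₀) (hc : 0 ≤ c) (hε : 0 ≤ ε) (hεc : ε ≤ c)
    (hX : 0 ≤ Real.log X) (hBd : 0 ≤ Bd) {l x : ℝ} {ps' : List Pq} (hx : 0 ≤ x) (hl : 0 ≤ l)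
    (hlv : l ≤ (v + ε) * Real.log X + (LL Dq ps₀ - LL Dq ps') - 3 * x)
    (hch : List.Forall₂ (Chd Dq hcost r b) ps' ps₀)
    (hγ : LL Dq ps₀ - LL Dq ps' ≤
      (gN K c (LL Dq ps₀ / Real.log X) + 2 * c) * Real.log X + x) :
    S0p P h l ps' ≤ Bd * cst hcost ps' ps₀ ^ M *
      Real.exp (RG64.fl (K * Real.log X) l (LL Dq ps') + 3 * c * Real.log X) := by
  obtain ⟨L, hL⟩ : ∃ L, L = Real.log X := ⟨_, rfl⟩
  obtain ⟨n, hn⟩ : ∃ n, n = LL Dq ps₀ := ⟨_, rfl⟩
  obtain ⟨g, hg⟩ : ∃ g, g = gN K c (LL Dq ps₀ / Real.log X) := ⟨_, rfl⟩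
  have hcs : 0 ≤ cst hcost ps' ps₀ ^ M :=
    Real.rpow_nonneg (zero_le_one.trans (XP699.one_le_cst XP699.one_le_hcost _ _)) _
  have hB : 0 ≤ Bd * cst hcost ps' ps₀ ^ M := mul_nonneg hBd hcs
  have hcL : 0 ≤ c * L := mul_nonneg hc (hL ▸ hX)
  have hεL : 0 ≤ ε * L := mul_nonneg hε (hL ▸ hX)
  have hεcL : ε * L ≤ c * L := mul_le_mul_of_nonneg_right hεc (hL ▸ hX)
  rw [← hg] at hγ
  rw [← hL, ← hn] at hγ hlv
  have e1 : (g + 2 * c) * L = g * L + 2 * (c * L) := by ring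
  have e2 : (v + ε) * L = v * L + ε * L := by ring
  have e3 : (g + c + ε) * L = g * L + c * L + ε * L := by ring
  have e4 : (g - ε) * L = g * L - ε * L := by ring
  have e5 : 3 * c * L = 3 * (c * L) := by ring
  have e6 : c / 3 * L = (c * L) / 3 := by ring
  rcases le_total (n - LL Dq ps') ((g + c + ε) * L) with h1 | h1
  · refine (H.fl l ps' hl (by rw [← hL, ← hn]; linarith) hch (by rw [← hg, ← hL, ← hn]; exact h1)).trans
      (mul_le_mul_of_nonneg_left (Real.exp_le_exp.2 ?_) hB)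
    rw [← hL, e5, e6]
    linarith
  · refine (H.jj l ps' hl (by rw [← hL, ← hn]; linarith) hch
      (by rw [← hg, ← hL, ← hn]; linarith)).trans
      (mul_le_mul_of_nonneg_left (Real.exp_le_exp.2 ?_) hB)
    rw [← hg, ← hL, ← hn, e5]
    unfold RG64.exJ
    have h2 := RG64.ex0_le_fl (K * L) l (LL Dq ps')
    unfold RG64.ex0 at h2
    have h3 : max 0 ((n - LL Dq ps') - ((n - LL Dq ps') - (l - v * L)) / 3 - g * L) ≤
        3 * (c * L) := by
      refine max_le (by linarith) ?_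
      linarith
    linarith

lemma NTc.toPrem {P : DPar} {h : ℝ → ℝ} {K v c ε X r b M Bd : ℝ} {ps₀ : List Pq}
    (H : NTc P h K v c ε X r b M Bd ps₀) (hc : 0 ≤ c) (hX : 0 ≤ Real.log X) :
    NPrem P h K v (gN K c (LL Dq ps₀ / Real.log X)) (F3 (K * Real.log X)) ε X r b M Bd ps₀ := by
  have e1 : ∀ x : ℝ, (x + ε) * Real.log X ≤ (x + c + ε) * Real.log X := fun x =>
    mul_le_mul_of_nonneg_right (by linarith) hX
  constructor
  · intro l ps' h1 h2 h3 h4
    exact H.sl l ps' h1 h2 h3 (h4.trans (e1 _))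
  · intro l ps' h1 h2 h3 h4 h5
    exact H.tp l ps' h1 h2 h3 h4 (h5.trans (e1 _))
  · exact H.jj

set_option maxHeartbeats 6400000 in
/-- **the finite theorem of the near recursion**, class N -/
theorem ne_fin {π : Lam → DPar} (hP : ∀ lam, (π lam).OK) {h : ℝ → ℝ} {c₂ : ℝ} (hpu : PU h c₂)
    {w : ℝ → ℝ} (hab : Abs4 w) {τ : ℝ} (hτ : 0 ≤ τ) (hτ1 : τ ≤ 1)
    {Rh : LBq → (Eis → ℂ) → ℝ → Prop} (hLB : LBS w τ Rh)
    (hRm : ∀ (p : LBq) (α : Eis → ℂ) (Rn Rn' : ℝ), Rh p α Rn → Rn ≤ Rn' → Rh p α Rn')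
    {L : ι → Line Lam p} {φ₀ φ₁ φβ : ℝ → ℝ → ℝ → ℝ} {K v c : ℝ} (hc : 0 < c)
    (hcK : 2000 * c ≤ K) (hv : 0 ≤ v) (hφ₀ : ∀ a u m, 0 ≤ φ₀ a u m)
    (hφβ : ∀ a u m, φ₀ a u m + max 0 ((4 * m - 3 * K) / 9) + c / 2 ≤ φβ a u m)
    (hφτ : τ = 0 ∨ ∀ a u m, max 0 ((4 * m - 3 * K) / 9) + c / 2 ≤ φ₀ a u m)
    (hφK : ∀ a u m, 5 * a ≤ 4 * K + c → m ≤ a + c → 5 * φβ a u m ≤ K)
    (hleaf : NLeaf π h Rh L φ₀ φ₁ φβ K v c) :
    NeFin (fun lam => S0p (π lam) h) L (min (c / 2) 1 / 100) K v c := by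
  have hK : 0 < K := by linarith
  intro lam N c₀ hc₀
  obtain ⟨c₀', hc₀'⟩ : ∃ x : ℝ, x = max c₀ (K + 1) := ⟨_, rfl⟩
  have hcc1 : c₀ ≤ c₀' := by rw [hc₀']; exact le_max_left _ _
  have hcc2 : K + 1 ≤ c₀' := by rw [hc₀']; exact le_max_right _ _
  obtain ⟨BR, hBR, hR1⟩ := hleaf lam N c₀' (hc₀.trans hcc1)
  refine ⟨max BR (K + 1), le_max_of_le_left hBR, ?_⟩
  intro ε M hε hM
  obtain ⟨ε', hε'⟩ : ∃ x : ℝ, x = min ε (min (c / 2) 1) := ⟨_, rfl⟩
  have he1 : ε' ≤ ε := by rw [hε']; exact min_le_left _ _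
  have he2 : ε' ≤ c / 2 := by rw [hε']; exact (min_le_right _ _).trans (min_le_left _ _)
  have he3 : ε' ≤ 1 := by rw [hε']; exact (min_le_right _ _).trans (min_le_right _ _)
  have he0 : 0 < ε' := by rw [hε']; exact lt_min hε (lt_min (by linarith) one_pos)
  have hmin : min (ε / 100) (min (c / 2) 1 / 100) = ε' / 100 := by
    rw [hε', min_div_div_right (by norm_num : (0 : ℝ) ≤ 100)]
  obtain ⟨J₀, δ₀, hJ₀, hδ₀, hR2⟩ := hR1 (ε' / 4) M (by positivity) hM
  obtain ⟨δ, Jn, Aw, Cw, R, η, S, hδ, hδδ, hJn, hAw, hCw, hR, hη, hη1, hS, hcore⟩ :=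
    ne_core hpu hab hτ hτ1 hLB hRm (c := c / 2) (K := K) (by linarith) (by linarith) N (M := M)
      he0 he2 he3 hM hJ₀ hδ₀
  obtain ⟨CR, rR, XR, hCR, hrR, hR3⟩ :=
    hR2 δ Jn Aw Cw R η S hδ hδδ hJn hAw hCw hR hη hη1 hS
  obtain ⟨C, r, J, X₁, hC, hr, hJ, hX⟩ := hcore CR hCR
  refine ⟨2 * C + CR, max r rR, J, max X₁ XR, by positivity, le_max_of_le_left hr, hJ, ?_⟩
  intro X hX3 hXX k ps hk0 hkc hlen hps hs2 hHp Bd hBd hprem
  have hX1 : (1 : ℝ) ≤ X := by linarith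
  have hX0 : 0 < X := by linarith
  obtain ⟨l, hl⟩ : ∃ x : ℝ, x = Real.log X := ⟨_, rfl⟩
  have hl0 : 0 < l := by rw [hl]; exact Real.log_pos (by linarith)
  have hpowX : ∀ x : ℝ, X ^ x = Real.exp (x * l) := fun x => by
    rw [Real.rpow_def_of_pos hX0, hl, mul_comm]
  obtain ⟨n, hn⟩ : ∃ x : ℝ, x = LL Dq ps := ⟨_, rfl⟩
  have hn0 : 0 ≤ n := by
    rw [hn]
    unfold LL
    refine List.sum_nonneg fun x hx => ?_
    obtain ⟨q, hq, rfl⟩ := List.mem_map.1 hx
    exact (hps q hq).1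
  -- the parent
  unfold Hmin at hHp
  rw [hmin] at hHp
  have p1 := (le_max_left _ _).trans ((le_max_left _ _).trans hHp)
  have p2 := (le_max_left _ _).trans ((le_max_right _ _).trans ((le_max_left _ _).trans hHp))
  have p6 := (le_max_right _ _).trans ((le_max_right _ _).trans ((le_max_left _ _).trans hHp))
  have p3 := (le_max_left _ _).trans ((le_max_left _ _).trans ((le_max_right _ _).trans hHp))
  have p4 := (le_max_right _ _).trans ((le_max_left _ _).trans ((le_max_right _ _).trans hHp))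
  have p5 := (le_max_right _ _).trans ((le_max_right _ _).trans hHp)
  have e0 : (![k / Real.log X, LL Dq ps / Real.log X] : Fin 2 → ℝ) 0 = k / l := by rw [hl]; rfl
  have e1 : (![k / Real.log X, LL Dq ps / Real.log X] : Fin 2 → ℝ) 1 = n / l := by
    rw [hl, hn]; rfl
  rw [e0] at p1
  rw [e1] at p2 p3 p4 p5 p6
  have hkl : k = k / l * l := by field_simp
  have hnl : n = n / l * l := by field_simp
  obtain ⟨g, hg⟩ : ∃ x : ℝ, x = gN K c (n / l) := ⟨_, rfl⟩
  have hgd : g = n / l - 3 / 4 * K + c := by rw [hg]; rfl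
  rw [← hg] at p5
  have hg0 : 0 ≤ g := by rw [hgd]; linarith
  have hvK : v ≤ K := by linarith
  have hel : 0 ≤ ε' / 100 * l := by positivity
  have hcl : 0 ≤ c * l := by positivity
  have hKl : 0 ≤ K * l := by positivity
  have q1 := mul_le_mul_of_nonneg_right p1 hl0.le
  have q2 := mul_le_mul_of_nonneg_right p2 hl0.le
  have q3 := mul_le_mul_of_nonneg_right p3 hl0.le
  have q4 := mul_le_mul_of_nonneg_right p4 hl0.le
  have q6 := mul_le_mul_of_nonneg_right p6 hl0.le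
  have r1 : (k / l - v) * l = k - v * l := by rw [sub_mul, ← hkl]
  have r2 : (2 * (n / l) + 100 * c - K - v) * l = 2 * n + 100 * (c * l) - K * l - v * l := by
    have : 2 * (n / l) * l = 2 * n := by rw [mul_assoc, ← hnl]
    rw [sub_mul, sub_mul, add_mul, this]; ring
  have r3 : (5 * (n / l) - 4 * K) * l = 5 * n - 4 * (K * l) := by
    have : 5 * (n / l) * l = 5 * n := by rw [mul_assoc, ← hnl]
    rw [sub_mul, this]; ring
  have r4 : (3 * K - 4 * (n / l)) * l = 3 * (K * l) - 4 * n := by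
    have : 4 * (n / l) * l = 4 * n := by rw [mul_assoc, ← hnl]
    rw [sub_mul, this]; ring
  have r6 : (5 * (v + n / l) + 100 * c - 7 * K) * l =
      5 * (v * l + n) + 100 * (c * l) - 7 * (K * l) := by
    have : 5 * (v + n / l) * l = 5 * (v * l + n) := by rw [mul_assoc, add_mul, ← hnl]
    rw [sub_mul, add_mul, this]; ring
  rw [r6] at q6
  rw [r1] at q1
  rw [r2] at q2
  rw [r3] at q3
  rw [r4] at q4
  have hnK5 : n ≤ 4 / 5 * (K * l) + ε' / 100 * l := by linarith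
  have hpar : NPar K v (ε' / 100) X k ps := by
    constructor
    · exact hk0
    · rw [← hl]; linarith
    · rw [← hl, ← hn]
      have : (K + v + ε' / 100) * l = K * l + v * l + ε' / 100 * l := by ring
      linarith
    · rw [← hl, ← hn]
      have : (K + ε' / 100) * l = K * l + ε' / 100 * l := by ring
      linarith
  have hnum : NNum K v c (ε' / 4) X ps := by
    have h4 : ε' / 100 * l ≤ ε' / 4 * l := mul_le_mul_of_nonneg_right (by linarith) hl0.le
    constructor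
    · rw [← hl, ← hn]
      have : (K + v + ε' / 4) * l = K * l + v * l + ε' / 4 * l := by ring
      have : 100 * c * l = 100 * (c * l) := by ring
      linarith
    · rw [← hl, ← hn]
      have : (4 * K + ε' / 4) * l = 4 * (K * l) + ε' / 4 * l := by ring
      linarith
    · rw [← hl, ← hn]
      have : 3 * K * l = 3 * (K * l) := by ring
      linarith
    · rw [← hl, ← hn, ← hg]
      linarith
    · rw [← hl, ← hn]
      have : (7 * K + ε' / 4) * l = 7 * (K * l) + ε' / 4 * l := by ring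
      have : 100 * c * l = 100 * (c * l) := by ring
      linarith
    · have : ε' ≤ c / 2 := by rw [hε']; exact (min_le_right _ _).trans (min_le_left _ _)
      linarith
  -- the exponent
  obtain ⟨A, hA⟩ : ∃ x : ℝ, x = Ar K ![k / Real.log X, LL Dq ps / Real.log X] := ⟨_, rfl⟩
  have hAl : A * l = RG64.fl (K * l) k n := by
    rw [hA]
    unfold Ar RG64.fl
    rw [e0, e1, add_mul, max_mul_of_nonneg _ _ hl0.le, zero_mul]
    have h1 : 2 * (n / l) * l = 2 * n := by rw [mul_assoc, ← hnl]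
    have h2 : (k / l + K - 2 * (n / l)) / 3 * l = (k - 2 * n + K * l) / 3 := by
      field_simp
      ring
    rw [h1, h2]
  have hXA : X ^ A = Real.exp (RG64.fl (K * l) k n) := by rw [hpowX, hAl]
  have hXA0 : 0 < X ^ A := Real.rpow_pos_of_pos hX0 _
  have hXAn : X ^ (-A) * X ^ A = 1 := by rw [← Real.rpow_add hX0]; simp
  obtain ⟨Bd', hBd'⟩ : ∃ x : ℝ, x = 1 + Bd * X ^ (-A) := ⟨_, rfl⟩
  have hXn0 : 0 ≤ X ^ (-A) := Real.rpow_nonneg hX0.le _
  have hBd'1 : 1 ≤ Bd' := by rw [hBd']; have := mul_nonneg hBd hXn0; linarith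
  have hBd'2 : Bd * X ^ (-A) ≤ Bd' := by rw [hBd']; linarith
  have hTK : TK K = 10 * (K + 1) := rfl
  have hTK0 : 0 ≤ TK K := by rw [hTK]; linarith
  have h0p : ∀ m : ℕ, (0 : Fin m → ℝ) ∈ Set.Icc (0 : Fin m → ℝ) (fun _ => TK K) :=
    fun m => ⟨le_rfl, fun _ => hTK0⟩
  have nK' : n ≤ (K + 1) * l := by
    have h1 : ε' / 100 * l ≤ 1 * l := mul_le_mul_of_nonneg_right (by linarith) hl0.le
    have : (K + 1) * l = K * l + 1 * l := by ring
    linarith
  have nv' : v * l ≤ K * l := mul_le_mul_of_nonneg_right hvK hl0.le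
  have hbmax : C * X ^ (K + 1) ≤ (2 * C + CR) * X ^ max BR (K + 1) := by
    have h1 : X ^ (K + 1) ≤ X ^ max BR (K + 1) :=
      Real.rpow_le_rpow_of_exponent_le hX1 (le_max_right _ _)
    calc C * X ^ (K + 1) ≤ (2 * C + CR) * X ^ (K + 1) := by gcongr; linarith
      _ ≤ _ := by gcongr
  have hbmax2 : CR * X ^ BR ≤ (2 * C + CR) * X ^ max BR (K + 1) := by
    have h1 : X ^ BR ≤ X ^ max BR (K + 1) :=
      Real.rpow_le_rpow_of_exponent_le hX1 (le_max_left _ _)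
    calc CR * X ^ BR ≤ (2 * C + CR) * X ^ BR := by gcongr; linarith
      _ ≤ _ := by gcongr
  have hcst : ∀ ps' : List Pq, 0 ≤ cst hcost ps' ps ^ M := fun ps' =>
    Real.rpow_nonneg (zero_le_one.trans (XP699.one_le_cst XP699.one_le_hcost _ _)) _
  have hlTK : ∀ (x : ℝ) (ps' : List Pq), 0 ≤ LL Dq ps' →
      x ≤ (v + ε') * Real.log X + (LL Dq ps - LL Dq ps') → x ≤ TK K * Real.log X := by
    intro x ps' h1 h2
    rw [← hl, ← hn] at h2
    rw [hTK, ← hl]
    have h3 : (v + ε') * l ≤ K * l + l := by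
      have : ε' * l ≤ 1 * l := mul_le_mul_of_nonneg_right he3 hl0.le
      have : (v + ε') * l = v * l + ε' * l := by ring
      linarith
    have h4 : (K + 1) * l = K * l + l := by ring
    have h5 : 10 * (K + 1) * l = 10 * (K * l) + 10 * l := by ring
    linarith
  have hx0 : ∀ (x : ℝ) (ps' : List Pq), xv Dq X k ps x ps' 0 = k / l := fun x ps' => by
    rw [hl]; rfl
  have hx1 : ∀ (x : ℝ) (ps' : List Pq), xv Dq X k ps x ps' 1 = n / l := fun x ps' => by
    rw [hl, hn]; rfl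
  have hx2 : ∀ (x : ℝ) (ps' : List Pq), xv Dq X k ps x ps' 2 = x / l := fun x ps' => by
    rw [hl]; rfl
  have hx3 : ∀ (x : ℝ) (ps' : List Pq), xv Dq X k ps x ps' 3 = LL Dq ps' / l := fun x ps' => by
    rw [hl]; rfl
  have hAeq : Ar K ![k / l, n / l] = A := by rw [hA, hl, hn]
  have conv : ∀ (x : ℝ) (ps' : List Pq) (E E' : ℝ) (B : ℝ), E * l = E' - A * l →
      S0p (π lam) h x ps' ≤ Bd * B * X ^ E → 0 ≤ B →
      S0p (π lam) h x ps' ≤ Bd' * B * Real.exp E' := by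
    intro x ps' E E' B hE h1 hB
    refine h1.trans ?_
    have h2 : X ^ E = X ^ (-A) * Real.exp E' := by
      rw [hpowX, hpowX, ← Real.exp_add]
      congr 1
      linarith
    rw [h2]
    calc Bd * B * (X ^ (-A) * Real.exp E') = (Bd * X ^ (-A)) * B * Real.exp E' := by ring
      _ ≤ Bd' * B * Real.exp E' := by gcongr
  have gdiv : ∀ {a b' c' : ℝ}, a ≤ b' * l → c' = a / l → c' ≤ b' := by
    intro a b' c' h1 h2
    rw [h2, div_le_iff₀ hl0]
    exact h1
  have hee : ε' * l ≤ ε * l := mul_le_mul_of_nonneg_right he1 hl0.le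
  -- the claims
  have hTc : NTc (π lam) h K v c ε' X (max r rR) ((2 * C + CR) * X ^ max BR (K + 1)) M Bd' ps := by
    have gl : ∀ (ps' : List Pq), LL Dq ps - LL Dq ps' ≤
        (gN K c (LL Dq ps / Real.log X) + c + ε') * Real.log X →
        n - LL Dq ps' - g * l - c * l ≤ ε * l := by
      intro ps' h1
      rw [← hl, ← hn, ← hg] at h1
      have : (g + c + ε') * l = g * l + c * l + ε' * l := by ring
      linarith
    have ll : ∀ (x : ℝ) (ps' : List Pq), x ≤ (v + ε') * Real.log X + (LL Dq ps - LL Dq ps') →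
        x - v * l - (n - LL Dq ps') ≤ ε * l := by
      intro x ps' h1
      rw [← hl, ← hn] at h1
      have : (v + ε') * l = v * l + ε' * l := by ring
      linarith
    have gg : ∀ (ps' : List Pq), (gN K c (LL Dq ps / Real.log X) - ε') * Real.log X ≤
        LL Dq ps - LL Dq ps' → g * l - (n - LL Dq ps') ≤ ε * l := by
      intro ps' h1
      rw [← hl, ← hn, ← hg] at h1
      have : (g - ε') * l = g * l - ε' * l := by ring
      linarith
    constructor
    · intro x ps' hx hxl hch h1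
      have hLL := LL_nonneg_of_chd hch
      have h2 := hprem .p0 (⟨0, h0p 2⟩, ⟨0, h0p p⟩) x ps' hx (hlTK x ps' hLL hxl) hch ?_
        (fun hz => hz.elim)
      · refine conv x ps' _ _ _ ?_ h2 (hcst ps')
        show (Ar K ![xv Dq X k ps x ps' 2, xv Dq X k ps x ps' 3] + c / 3 -
          Ar K ![xv Dq X k ps x ps' 0, xv Dq X k ps x ps' 1]) * l = _
        rw [hx0, hx1, hx2, hx3, hAeq, ← hl, sub_mul, add_mul]
        have h3 : Ar K ![x / l, LL Dq ps' / l] * l = RG64.fl (K * l) x (LL Dq ps') := by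
          unfold Ar RG64.fl
          show (2 * (LL Dq ps' / l) + max 0 ((x / l + K - 2 * (LL Dq ps' / l)) / 3)) * l = _
          rw [add_mul, max_mul_of_nonneg _ _ hl0.le, zero_mul]
          have h1 : 2 * (LL Dq ps' / l) * l = 2 * LL Dq ps' := by field_simp
          have h2 : (x / l + K - 2 * (LL Dq ps' / l)) / 3 * l = (x - 2 * LL Dq ps' + K * l) / 3 := by
            field_simp
            ring
          rw [h1, h2]
        rw [h3]
      · show max (xv Dq X k ps x ps' 1 - xv Dq X k ps x ps' 3 - gN K c (xv Dq X k ps x ps' 1) - c)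
          (xv Dq X k ps x ps' 2 - v - (xv Dq X k ps x ps' 1 - xv Dq X k ps x ps' 3)) ≤ ε
        rw [hx1, hx2, hx3, ← hg]
        refine max_le (gdiv (gl ps' h1) (by field_simp)) (gdiv (ll x ps' hxl) (by field_simp))
    · intro x ps' hx hxl hch h1
      have hLL := LL_nonneg_of_chd hch
      have h2 := hprem .ps (⟨0, h0p 2⟩, ⟨0, h0p p⟩) x ps' hx (hlTK x ps' hLL hxl) hch ?_
        (fun hz => hz.elim)
      · refine conv x ps' _ _ _ ?_ h2 (hcst ps')
        show (4 / 3 * (xv Dq X k ps x ps' 3) + ((xv Dq X k ps x ps' 2) + K) / 3 +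
          max 0 ((4 * (xv Dq X k ps x ps' 3) - 3 * K) / 9) -
          Ar K ![xv Dq X k ps x ps' 0, xv Dq X k ps x ps' 1]) * l = _
        rw [hx0, hx1, hx2, hx3, hAeq, ← hl, sub_mul, add_mul, max_mul_of_nonneg _ _ hl0.le,
          zero_mul]
        unfold ex0 F3
        have h3 : (4 / 3 * (LL Dq ps' / l) + (x / l + K) / 3) * l =
            4 / 3 * LL Dq ps' + (x + K * l) / 3 := by
          field_simp
        have h4 : (4 * (LL Dq ps' / l) - 3 * K) / 9 * l = (4 * LL Dq ps' - 3 * (K * l)) / 9 := by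
          field_simp
        rw [h3, h4]
        ring
      · show max (xv Dq X k ps x ps' 1 - xv Dq X k ps x ps' 3 - gN K c (xv Dq X k ps x ps' 1) - c)
          (xv Dq X k ps x ps' 2 - v - (xv Dq X k ps x ps' 1 - xv Dq X k ps x ps' 3)) ≤ ε
        rw [hx1, hx2, hx3, ← hg]
        refine max_le (gdiv (gl ps' h1) (by field_simp)) (gdiv (ll x ps' hxl) (by field_simp))
    · intro x ps' hx hxl hch h0 h1
      have hLL := LL_nonneg_of_chd hch
      have h2 := hprem .pt (⟨0, h0p 2⟩, ⟨0, h0p p⟩) x ps' hx (hlTK x ps' hLL hxl) hch ?_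
        (fun hz => hz.elim)
      · refine conv x ps' _ _ _ ?_ h2 (hcst ps')
        show (4 / 3 * (xv Dq X k ps x ps' 3) + ((xv Dq X k ps x ps' 2) + K) / 3 -
          Ar K ![xv Dq X k ps x ps' 0, xv Dq X k ps x ps' 1]) * l = _
        rw [hx0, hx1, hx2, hx3, hAeq, ← hl]
        unfold ex0
        field_simp
      · show max (gN K c (xv Dq X k ps x ps' 1) -
            (xv Dq X k ps x ps' 1 - xv Dq X k ps x ps' 3))
          (max (xv Dq X k ps x ps' 1 - xv Dq X k ps x ps' 3 - gN K c (xv Dq X k ps x ps' 1) - c)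
          (xv Dq X k ps x ps' 2 - v - (xv Dq X k ps x ps' 1 - xv Dq X k ps x ps' 3))) ≤ ε
        rw [hx1, hx2, hx3, ← hg]
        exact max_le (gdiv (gg ps' h0) (by field_simp))
          (max_le (gdiv (gl ps' h1) (by field_simp)) (gdiv (ll x ps' hxl) (by field_simp)))
    · intro x ps' hx hxl hch h0
      have hLL := LL_nonneg_of_chd hch
      have h2 := hprem .pj (⟨0, h0p 2⟩, ⟨0, h0p p⟩) x ps' hx (hlTK x ps' hLL hxl) hch ?_
        (fun hz => hz.elim)
      · refine conv x ps' _ _ _ ?_ h2 (hcst ps')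
        show (4 / 3 * (xv Dq X k ps x ps' 3) + ((xv Dq X k ps x ps' 2) + K) / 3 +
          max 0 ((xv Dq X k ps x ps' 1 - xv Dq X k ps x ps' 3) -
            ((xv Dq X k ps x ps' 1 - xv Dq X k ps x ps' 3) - (xv Dq X k ps x ps' 2 - v)) / 3 -
            gN K c (xv Dq X k ps x ps' 1)) -
          Ar K ![xv Dq X k ps x ps' 0, xv Dq X k ps x ps' 1]) * l = _
        rw [hx0, hx1, hx2, hx3, hAeq, ← hl, ← hn, ← hg, sub_mul, add_mul,
          max_mul_of_nonneg _ _ hl0.le, zero_mul]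
        unfold exJ
        have h3 : (4 / 3 * (LL Dq ps' / l) + (x / l + K) / 3) * l =
            4 / 3 * LL Dq ps' + (x + K * l) / 3 := by
          field_simp
        have h4 : (n / l - LL Dq ps' / l - (n / l - LL Dq ps' / l - (x / l - v)) / 3 - g) * l =
            n - LL Dq ps' - (n - LL Dq ps' - (x - v * l)) / 3 - g * l := by
          field_simp
        rw [h3, h4]
      · show max (gN K c (xv Dq X k ps x ps' 1) -
            (xv Dq X k ps x ps' 1 - xv Dq X k ps x ps' 3))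
          (xv Dq X k ps x ps' 2 - v - (xv Dq X k ps x ps' 1 - xv Dq X k ps x ps' 3)) ≤ ε
        rw [hx1, hx2, hx3, ← hg]
        exact max_le (gdiv (gg ps' h0) (by field_simp)) (gdiv (ll x ps' hxl) (by field_simp))
  have hT := (hTc.mono le_rfl (le_max_left r rR) hbmax (by rw [← hl]; exact hl0.le)).toPrem hc.le
    (by rw [← hl]; exact hl0.le)
  rw [← hn, ← hl, ← hg] at hT
  obtain ⟨a, ha⟩ : ∃ x : ℝ, x = n / l := ⟨_, rfl⟩
  have ml : ∀ x : ℝ, x / l * l = x := fun x => by field_simp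
  have hF3l : ∀ m : ℝ, max 0 ((4 * (m / l) - 3 * K) / 9) * l = F3 (K * l) m := fun m => by
    rw [max_mul_of_nonneg _ _ hl0.le, zero_mul]
    unfold F3
    congr 1
    field_simp
  have ha5 : 5 * a ≤ 4 * K + c := by
    rw [ha]
    linarith
  have key := hX X hX3 ((le_max_left _ _).trans hXX) (π lam) (hP lam) k ps hlen
    (fun q hq => (hps q hq).1) (ε' / 100) (by positivity) le_rfl v g hv hg0 (by linarith)
    (F3 (K * l)) (F3_mono _) (F3_nonneg _) (F3_add _)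
    (fun u m => φ₀ a (u / l) (m / l) * l) (fun u m => φ₁ a (u / l) (m / l) * l)
    (fun u m => φβ a (u / l) (m / l) * l)
    (fun u m => mul_nonneg (hφ₀ _ _ _) hl0.le)
    (fun u m => by
      have h1 := mul_le_mul_of_nonneg_right (hφβ a (u / l) (m / l)) hl0.le
      rw [add_mul, add_mul, hF3l] at h1
      rw [← hl]
      exact h1)
    (hφτ.imp id fun H u m => by
      have h1 := mul_le_mul_of_nonneg_right (H a (u / l) (m / l)) hl0.le
      rw [add_mul, hF3l] at h1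
      rw [← hl]
      exact h1)
    (fun u m hm => by
      rw [← hl, ← hn] at hm
      have h1 := mul_le_mul_of_nonneg_right (hφK a (u / l) (m / l) ha5 (by
        rw [div_le_iff₀ hl0, ha, add_mul, ml]
        have : ε' * l ≤ c * l := mul_le_mul_of_nonneg_right (by linarith) hl0.le
        linarith)) hl0.le
      rw [← hl]
      linarith)
    hpar Bd' (by linarith) hT ?_
  · rw [← hl, ← hn] at key
    refine key.trans ?_
    rw [← hA, ← hXA]
    have h1 : (1 + Bd') * X ^ A ≤ 2 * (X ^ A + Bd) := by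
      rw [hBd']
      calc (1 + (1 + Bd * X ^ (-A))) * X ^ A = 2 * X ^ A + Bd * (X ^ (-A) * X ^ A) := by ring
        _ = 2 * X ^ A + Bd := by rw [hXAn, mul_one]
        _ ≤ _ := by linarith
    have hs1 : 0 ≤ (ps.map Dq.s1).prod := by
      rw [← RXg848.Ht_natl]
      have := one_le_Ht (natl ps)
      linarith
    have h2 : 0 ≤ (ps.map Dq.s1).prod ^ J := Real.rpow_nonneg hs1 _
    have h3 : X ^ ε' ≤ X ^ ε := Real.rpow_le_rpow_of_exponent_le hX1 he1
    calc C * X ^ ε' * (ps.map Dq.s1).prod ^ J * (1 + Bd') * X ^ A =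
        C * X ^ ε' * (ps.map Dq.s1).prod ^ J * ((1 + Bd') * X ^ A) := by ring
      _ ≤ C * X ^ ε * (ps.map Dq.s1).prod ^ J * (2 * (X ^ A + Bd)) := by gcongr
      _ = (2 * C) * X ^ ε * (ps.map Dq.s1).prod ^ J * (X ^ A + Bd) := by ring
      _ ≤ (2 * C + CR) * X ^ ε * (ps.map Dq.s1).prod ^ J * (X ^ A + Bd) := by
          have : 0 ≤ X ^ A + Bd := by linarith
          gcongr
          linarith
  · intro q ps₁ Lv N₁ hf hq hqX hps₁
    have h1 := hR3 X hX3 ((le_max_right _ _).trans hXX) ps hlen (fun q hq => ⟨(hps q hq).1,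
        (hps q hq).2.trans (mul_le_mul_of_nonneg_right hcc1 (by rw [← hl]; exact hl0.le))⟩)
      (fun q hq => (hs2 q hq).trans (Real.rpow_le_rpow_of_exponent_le hX1 hcc1)) hnum q ps₁ Lv N₁
      (by rw [← hn, ← hl, ← hg]; exact hf)
      hq (hqX.trans (Real.rpow_le_rpow_of_exponent_le hX1 hcc2)) hps₁ Bd' hBd'1
      (hTc.mono (by linarith) (le_max_right _ _) hbmax2 (by rw [← hl]; exact hl0.le)) ?_
    · rw [← hl, ← hn, ← hg] at h1
      simp only [hpowX] at h1 ⊢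
      rw [← ha] at h1
      rw [← hl, ← hn]
      convert h1 using 2
      rw [neg_mul]
    · intro j θ x ps' hx hxl hch hLL hG hz
      rw [← hl] at hG hLL hz
      have hLF0 : 0 ≤ LF ps₁ := LF_nonneg hps₁.z_nonneg
      have hLv0 := hf.v0
      have hhi := hf.hi
      have hlo := hf.lo
      have hlv := hf.lv
      rw [← hl, ← hn] at hhi hlo hlv
      have hel1 : ε' * l ≤ 1 * l := mul_le_mul_of_nonneg_right he3 hl0.le
      have hel0 : 0 ≤ ε' * l := by positivity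
      have hvl : (v + ε' / 4) * l = v * l + ε' * l / 4 := by ring
      have he4 : ε' / 4 * l ≤ ε * l := mul_le_mul_of_nonneg_right (by linarith only [he0, he1]) hl0.le
      have hK1l : 10 * (K + 1) * l = 10 * (K * l) + 10 * l := by ring
      have hK1l' : (K + 1) * l = K * l + l := by ring
      have hθm : (![LF ps₁ / l, Lv / l] : Fin 2 → ℝ) ∈
          Set.Icc (0 : Fin 2 → ℝ) (fun _ => TK K) := by
        constructor
        · intro i
          fin_cases i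
          · show (0 : ℝ) ≤ LF ps₁ / l
            positivity
          · show (0 : ℝ) ≤ Lv / l
            positivity
        · intro i
          fin_cases i
          · show LF ps₁ / l ≤ TK K
            rw [div_le_iff₀ hl0, hTK]
            linarith
          · show Lv / l ≤ TK K
            rw [div_le_iff₀ hl0, hTK]
            linarith
      have h2 := hprem (.q j) (⟨_, hθm⟩, θ) x ps' hx hxl
        (Chd.mono' (le_max_right _ _) hbmax2 hch) ?_ (fun hzl q hq hql => by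
          have h3 := hz hzl q hq hql
          rw [← hl]
          linarith)
      · have h3 : (L j).Φ lam x ((L j).b θ.1 * Real.log X) ps' ≤ Bd * cst hcost ps' ps ^ M *
            X ^ (Ar K ![Lv / l, LF ps₁ / l] +
              (L j).F ![K, Lv / l, LF ps₁ / l, xv Dq X k ps x ps' 2, xv Dq X k ps x ps' 3] θ.1 -
              Ar K ![xv Dq X k ps x ps' 0, xv Dq X k ps x ps' 1]) := h2
        have hAr : Ar K ![Lv / l, LF ps₁ / l] = 4 / 3 * (LF ps₁ / l) + (Lv / l + K) / 3 := by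
          unfold Ar
          show 2 * (LF ps₁ / l) + max 0 ((Lv / l + K - 2 * (LF ps₁ / l)) / 3) = _
          have ht := hf.top
          rw [← hl] at ht
          have h5 : 0 ≤ (Lv / l + K - 2 * (LF ps₁ / l)) / 3 := by
            have : (Lv / l + K - 2 * (LF ps₁ / l)) / 3 = (Lv + K * l - 2 * LF ps₁) / l / 3 := by
              field_simp
            rw [this]
            have : 0 ≤ Lv + K * l - 2 * LF ps₁ := by linarith
            positivity
          rw [max_eq_right h5]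
          ring
        rw [hx0, hx1, hx2, hx3, hAeq, hAr, Real.rpow_sub hX0, div_eq_mul_inv,
          ← Real.rpow_neg hX0.le] at h3
        rw [← hl] at h3 ⊢
        refine h3.trans ?_
        have h4 : 0 ≤ X ^ (4 / 3 * (LF ps₁ / l) + (Lv / l + K) / 3 +
              (L j).F ![K, Lv / l, LF ps₁ / l, x / l, LL Dq ps' / l] θ.1) :=
          Real.rpow_nonneg hX0.le _
        have h5 := hcst ps'
        calc Bd * cst hcost ps' ps ^ M * (X ^ (4 / 3 * (LF ps₁ / l) + (Lv / l + K) / 3 +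
              (L j).F ![K, Lv / l, LF ps₁ / l, x / l, LL Dq ps' / l] θ.1) * X ^ (-A)) =
            (Bd * X ^ (-A)) * cst hcost ps' ps ^ M * X ^ (4 / 3 * (LF ps₁ / l) +
              (Lv / l + K) / 3 +
              (L j).F ![K, Lv / l, LF ps₁ / l, x / l, LL Dq ps' / l] θ.1) := by ring
          _ ≤ _ := by gcongr
      · show max (max (LF ps₁ / l - xv Dq X k ps x ps' 1) (xv Dq X k ps x ps' 3 - LF ps₁ / l))
          (max (max (xv Dq X k ps x ps' 1 - LF ps₁ / l - gN K c (xv Dq X k ps x ps' 1) - c)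
            (Lv / l - v - (xv Dq X k ps x ps' 1 - LF ps₁ / l)))
            ((L j).G ![K, Lv / l, LF ps₁ / l, xv Dq X k ps x ps' 2, xv Dq X k ps x ps' 3] θ.1)) ≤ ε
        rw [hx1, hx2, hx3, ← hg]
        refine max_le (max_le (gdiv (a := LF ps₁ - n) ?_ (by field_simp))
          (gdiv (a := LL Dq ps' - LF ps₁) ?_ (by field_simp)))
          (max_le (max_le (gdiv (a := n - LF ps₁ - g * l - c * l) ?_ (by field_simp))
            (gdiv (a := Lv - v * l - (n - LF ps₁)) ?_ (by field_simp))) ?_)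
        · linarith only [hhi, he4]
        · linarith only [hLL, he4]
        · linarith only [hlo, hcl, he4, hel0, hee]
        · linarith only [hlv, hvl, he4, hel0, hee]
        · exact hG.trans (by linarith)

end Crest.Agent.R017.NEg551
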