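import Crest.Agent.R017.JBn_180
import Crest.Agent.R017.NEk_551

/-!
# Row 17, near field (helper551): the joint numbers of the flagged lists of the near leaf, full range

* `shJ`       : the closed form of the joint number of a cell `(η, b, k)` (helper320's literal)
* **`jbn_near`** : `JBc` of `sqc q (alF (X ^ δ) (X ^ δ) P h ps)` from `NTc`, `NFacts`, `SbL`
-/

set_option autoImplicit false

noncomputable section

open Complex
open scoped ComplexConjugate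

namespace Crest.Agent.R017.JBN551

open Crest.Agent.R012 Crest.Agent.R012.Eis Crest.Agent.R012.LS2 Crest.Agent.R012.Gauss880
open Crest.Agent.R012.Div277 (dvs mem_dvs isPrim_of_mem_dvs dvs_zero)
open Crest.Agent.R012.Weight600 (osc pw)
open Crest.Agent.R017.CM106 Crest.Agent.R017.FE47
open Crest.Agent.R017.HP842 hiding fl
open Crest.Agent.R017.End699 hiding pw
open Crest.Agent.R017.B770
open Crest.Agent.R017.TP320 (conv)
open Crest.Agent.R017.Prov71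
open Crest.Agent.R017.Rough381 (VF VF_nonneg)
open Crest.Agent.R017.Leg381
open Crest.Agent.R017.RG64
open Crest.Agent.R017.E1551 (sg tws JB yv BU mem_BU CF)
open Crest.Agent.R017.XP699 (LL Chd hcost cst)
open Crest.Agent.R017.NE73 (gN)
open Crest.Agent.R017.NEg551 (NFacts NTc F3 F3_mono F3_nonneg F3_add)
open Crest.Agent.R017.NEc180 (JBr)
open Crest.Agent.R017.TNj90 (JBc)
open Crest.Agent.R017.JBf180 (jb_flag2)

/-- the exponent of the cell `(η, b, k)` of the list of length `m`, parent of length `n` -/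
def shJ (κ g n m cL η b k : ℝ) : ℝ :=
  ex0 κ (k + b) (m - η - b) + min (max 0 ((2 * (m - η - b) - (k + b + κ)) / 3))
    (F3 κ (m - η - b)) + max 0 (n - m + b - g) + cL

/-- the exponent of a child `(l, m')` at the cell `x = log nm δ` -/
def exC (κ G n x c' l m' : ℝ) : ℝ :=
  ex0 κ l m' + min (max 0 ((2 * m' - (l + κ)) / 3)) (F3 κ m') + max 0 (n - m' - x - G) + c'

lemma fl_eq (κ l m : ℝ) : fl κ l m = ex0 κ l m + max 0 ((2 * m - (l + κ)) / 3) := by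
  unfold fl ex0
  rcases le_total 0 ((2 * m - (l + κ)) / 3) with h | h
  · rw [max_eq_right h, max_eq_left (by linarith)]
    linarith
  · rw [max_eq_left h, max_eq_right (by linarith)]
    linarith

/-- exponents: child against cell -/
lemma exC_cell {κ G n x c' m b k l m' r ν : ℝ} (hr : 0 ≤ r) (hν : 0 ≤ ν)
    (h1 : |l - (k + m - x - m')| ≤ r) (h2 : m' ≤ m - x - b + r)
    (h3 : m - x - b - ν - r ≤ m') :
    exC κ G n x c' l m' ≤ shJ κ G n m (c' + ν) x b k + 3 * r + (m' + x + b - m) := by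
  obtain ⟨h4, h5⟩ := abs_le.1 h1
  have e1 : ex0 κ l m' ≤ ex0 κ (k + b) (m - x - b) + (m' + x + b - m) + r / 3 := by
    unfold ex0
    linarith
  have e2 : max 0 ((2 * m' - (l + κ)) / 3) ≤
      max 0 ((2 * (m - x - b) - (k + b + κ)) / 3) + 4 / 3 * r := by
    refine max_le ?_ ?_
    · have := le_max_left 0 ((2 * (m - x - b) - (k + b + κ)) / 3)
      linarith
    · have := le_max_right 0 ((2 * (m - x - b) - (k + b + κ)) / 3)
      linarith
  have e3 : F3 κ m' ≤ F3 κ (m - x - b) + r :=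
    (F3_mono κ h2).trans (F3_add κ _ r hr)
  have e4 : min (max 0 ((2 * m' - (l + κ)) / 3)) (F3 κ m') ≤
      min (max 0 ((2 * (m - x - b) - (k + b + κ)) / 3)) (F3 κ (m - x - b)) + 4 / 3 * r := by
    rw [← min_add_add_right]
    exact min_le_min e2 (e3.trans (by linarith))
  have e5 : max 0 (n - m' - x - G) ≤ max 0 (n - m + b - G) + ν + r := by
    refine max_le ?_ ?_
    · have := le_max_left 0 (n - m + b - G)
      linarith
    · have := le_max_right 0 (n - m + b - G)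
      linarith
  unfold exC shJ
  linarith

/-- **the claims of a child at a cell** from `NTc` -/
lemma NTc.cell {P : DPar} {h : ℝ → ℝ} {K v c ε X r b M Bd : ℝ} {ps₀ : List Pq}
    (H : NTc P h K v c ε X r b M Bd ps₀) (hc : 0 ≤ c) (hε : 0 ≤ ε) {c' : ℝ} (hc1 : c / 3 ≤ c')
    (hc2 : ε / 3 ≤ c')
    (hX : 0 ≤ Real.log X) (hBd : 0 ≤ Bd) {l x : ℝ} {ps' : List Pq} (hx : 0 ≤ x) (hl : 0 ≤ l)
    (hlv : l ≤ (v + ε) * Real.log X + (LL Dq ps₀ - LL Dq ps') - 3 * x)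
    (hch : List.Forall₂ (Chd Dq hcost r b) ps' ps₀) :
    S0p P h l ps' ≤ Bd * cst hcost ps' ps₀ ^ M *
      Real.exp (exC (K * Real.log X) (gN K c (LL Dq ps₀ / Real.log X) * Real.log X)
        (LL Dq ps₀) x (c' * Real.log X) l (LL Dq ps')) := by
  obtain ⟨L, hL⟩ : ∃ L, L = Real.log X := ⟨_, rfl⟩
  obtain ⟨n, hn⟩ : ∃ n, n = LL Dq ps₀ := ⟨_, rfl⟩
  obtain ⟨g, hg⟩ : ∃ g, g = gN K c (LL Dq ps₀ / Real.log X) := ⟨_, rfl⟩
  have hcs : 0 ≤ cst hcost ps' ps₀ ^ M :=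
    Real.rpow_nonneg (zero_le_one.trans (XP699.one_le_cst XP699.one_le_hcost _ _)) _
  have hB : 0 ≤ Bd * cst hcost ps' ps₀ ^ M := mul_nonneg hBd hcs
  have hcL : 0 ≤ c * L := mul_nonneg hc (hL ▸ hX)
  have hεL : 0 ≤ ε * L := mul_nonneg hε (hL ▸ hX)
  rw [← hL, ← hn] at hlv
  rw [← hg, ← hL, ← hn]
  have e2 : (v + ε) * L = v * L + ε * L := by ring
  have e3 : (g + c + ε) * L = g * L + c * L + ε * L := by ring
  have e4 : (g - ε) * L = g * L - ε * L := by ring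
  have e6 : c / 3 * L = (c * L) / 3 := by ring
  have e7 : c / 3 * L ≤ c' * L := mul_le_mul_of_nonneg_right hc1 (hL ▸ hX)
  have e8 : ε / 3 * L ≤ c' * L := mul_le_mul_of_nonneg_right hc2 (hL ▸ hX)
  have e9 : ε / 3 * L = (ε * L) / 3 := by ring
  have hm0 : 0 ≤ max 0 (n - LL Dq ps' - x - g * L) := le_max_left _ _
  have hlv' : l ≤ (v + ε) * L + (n - LL Dq ps') := by linarith
  rcases le_total (n - LL Dq ps') ((g + c + ε) * L) with h1 | h1
  · rcases le_total (max 0 ((2 * LL Dq ps' - (l + K * L)) / 3)) (F3 (K * L) (LL Dq ps'))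
      with h2 | h2
    · refine (H.fl l ps' hl (by rw [← hL, ← hn]; exact hlv') hch
        (by rw [← hg, ← hL, ← hn]; exact h1)).trans
        (mul_le_mul_of_nonneg_left (Real.exp_le_exp.2 ?_) hB)
      rw [← hL, e6, fl_eq]
      unfold exC
      rw [min_eq_left h2]
      linarith
    · refine (H.sl l ps' hl (by rw [← hL, ← hn]; exact hlv') hch
        (by rw [← hg, ← hL, ← hn]; exact h1)).trans
        (mul_le_mul_of_nonneg_left (Real.exp_le_exp.2 ?_) hB)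
      rw [← hL]
      unfold exC
      rw [min_eq_right h2]
      linarith
  · refine (H.jj l ps' hl (by rw [← hL, ← hn]; exact hlv') hch
      (by rw [← hg, ← hL, ← hn]; linarith)).trans
      (mul_le_mul_of_nonneg_left (Real.exp_le_exp.2 ?_) hB)
    rw [← hg, ← hL, ← hn]
    have h3 : 0 ≤ min (max 0 ((2 * LL Dq ps' - (l + K * L)) / 3)) (F3 (K * L) (LL Dq ps')) :=
      le_min (le_max_left _ _) (F3_nonneg _ _)
    have h4 : max 0 ((n - LL Dq ps') - ((n - LL Dq ps') - (l - v * L)) / 3 - g * L) ≤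
        max 0 (n - LL Dq ps' - x - g * L) + ε * L / 3 := by
      refine max_le (by linarith) ?_
      have := le_max_right 0 (n - LL Dq ps' - x - g * L)
      linarith
    unfold RG64.exJ exC
    unfold RG64.ex0
    linarith

/-- **the joint numbers of the flagged lists of the near leaf**, full range, sharp constant -/
theorem jbn_near2 {h : ℝ → ℝ} {c₂ : ℝ} (hpu : PU h c₂) (N : ℕ) {K : ℝ} (hK : 0 < K) {ε M : ℝ}
    (hε : 0 < ε) (hM : 0 ≤ M) : ∃ C r : ℝ, 1 ≤ C ∧ 0 ≤ r ∧ ∀ X : ℝ, 3 ≤ X → ∀ P : DPar, P.OK →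
    ∀ ps₀ : List Pq, ps₀.length ≤ N → ∀ (v c g e₁ e₂ S₀ r' b' Bd δ₀ cL cw c' : ℝ) (Jn : ℕ), 0 ≤ c →
    c / 3 ≤ c' → e₂ / 3 ≤ c' → 1 ≤ cw →
    0 ≤ e₂ → 0 ≤ δ₀ →
    (N : ℝ) * M ≤ Jn → 0 ≤ Bd → S₀ + r ≤ r' → NTc P h K v c e₂ X r' b' M Bd ps₀ →
    ∀ (q : Eis) (ps : List Pf) (Lv : ℝ) (N₁ : ℕ), NFacts K v g e₁ X ps₀ ps Lv N₁ →
    IsPrim q → (nm q : ℝ) * Real.exp (LF ps) * Real.exp r ≤ b' → SbL S₀ ps ps₀ →
    e₁ * Real.log X + 4 + Real.log cw + r ≤ e₂ * Real.log X →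
    Lv + 4 + Real.log cw ≤ 8 * (K + 1) * Real.log X → LF ps ≤ 8 * (K + 1) * Real.log X →
    c' * Real.log X + N * (δ₀ * Real.log X) ≤ cL →
    JBc (X ^ (8 * (K + 1))) (cw * N₁) (C * X ^ ε * (Bd * Ht (natl ps₀) ^ M) * Ht ps ^ M)
      ((Jn : ℕ) : ℝ) (shJ (K * Real.log X) (gN K c (LL Dq ps₀ / Real.log X) * Real.log X)
        (LL Dq ps₀) (LF ps) cL) (sqc q (alF (X ^ δ₀) (X ^ δ₀) P h ps)) := by
  obtain ⟨b, hb⟩ : ∃ b : ℝ, b = 8 * (K + 1) := ⟨_, rfl⟩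
  have hb8 : 8 ≤ b := by rw [hb]; linarith
  have hb0 : 0 < b := by linarith
  obtain ⟨C, r, hC, hr, H⟩ := jb_flag2 hpu N (B₀ := 1) (ε := ε / b) hM
    (mergeList_of hpu N zero_le_one (by positivity) hM)
  refine ⟨C * Real.exp (3 * r), r, ?_, hr, ?_⟩
  · exact one_le_mul_of_one_le_of_one_le hC (Real.one_le_exp (by linarith))
  intro X hX P hP ps₀ hlen v c g e₁ e₂ S₀ r' b' Bd δ₀ cL cw c' Jn hc hc1 hc2 hcw he₂ hδ₀ hJn hBd hSr hNT q ps Lv N₁
    hF hq hqb hps he hLv hLF hcL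
  rw [← hb] at hLv hLF ⊢
  have hX1 : (1 : ℝ) ≤ X := by linarith
  have hX0 : 0 < X := by linarith
  obtain ⟨L, hL⟩ : ∃ L : ℝ, L = Real.log X := ⟨_, rfl⟩
  have hL0 : 0 < L := by rw [hL]; exact Real.log_pos (by linarith)
  obtain ⟨X', hX'⟩ : ∃ x : ℝ, x = X ^ b := ⟨_, rfl⟩
  have hXX' : X ≤ X' := by
    rw [hX']
    calc X = X ^ (1 : ℝ) := (Real.rpow_one X).symm
      _ ≤ X ^ b := Real.rpow_le_rpow_of_exponent_le hX1 (by linarith)
  have hX'3 : 3 ≤ X' := hX.trans hXX'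
  have hX'0 : 0 < X' := by linarith
  have hlX' : Real.log X' = b * L := by rw [hX', Real.log_rpow hX0, hL]
  have hX'e : X' ^ (ε / b) = X ^ ε := by
    rw [hX', ← Real.rpow_mul hX0.le]
    congr 1
    field_simp
  rw [← hX']
  rw [← hL] at he hLv hLF hcL ⊢
  intro d hd B V hB1 hBY hV1 hVW t
  obtain ⟨hdD, hdp, hdsq⟩ := (mem_S hX'0.le).1 hd
  have hdn : (0 : ℝ) < nm d := by exact_mod_cast nm_pos.2 hdp.ne_zero
  have hd1 : (1 : ℝ) ≤ nm d := by exact_mod_cast nm_pos.2 hdp.ne_zero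
  have hld : 0 ≤ Real.log (nm d) := Real.log_nonneg hd1
  have hV0 : 0 < V := by linarith
  have hB0 : 0 < B := by linarith
  have hcw0 : 0 < cw := by linarith
  have hlcw : 0 ≤ Real.log cw := Real.log_nonneg hcw
  have hVd : V * (nm d : ℝ) ^ 2 ≤ cw * N₁ := (le_div_iff₀ (by positivity)).mp hVW
  have hVd2 : V * (nm d : ℝ) ^ 2 ≤ Real.exp (Lv + 4 + Real.log cw) := by
    rw [Real.exp_add, Real.exp_log hcw0]
    have h1 := hF.N1
    have h2 : (0 : ℝ) ≤ N₁ := Nat.cast_nonneg _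
    nlinarith [mul_le_mul_of_nonneg_left h1 hcw0.le]
  have hlV : Real.log V + 2 * Real.log (nm d) ≤ Lv + 4 + Real.log cw := by
    have h3 := Real.log_le_log (by positivity) hVd2
    rw [Real.log_mul hV0.ne' (by positivity), Real.log_pow, Real.log_exp] at h3
    push_cast at h3
    exact h3
  have hVX : V ≤ X' := by
    rw [← Real.log_le_log_iff hV0 hX'0, hlX']
    linarith
  have hlB0 : 0 ≤ Real.log B := Real.log_nonneg hB1
  have hlvF := hF.lv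
  rw [← hL] at hlvF
  have hD0' : 1 ≤ X ^ δ₀ := Real.one_le_rpow hX1 hδ₀
  have hlD0 : Real.log (X ^ δ₀) = δ₀ * L := by rw [Real.log_rpow hX0, hL]
  have hν : 0 ≤ N * (δ₀ * L) := by positivity
  -- the data
  have hcl : ClN ⟨P, h, X ^ δ₀, X ^ δ₀, ps₀, M, K * L, v * L, LL Dq ps₀⟩
      (fun l m' => exC (K * L) (gN K c (LL Dq ps₀ / L) * L) (LL Dq ps₀) (Real.log (nm d))
        (c' * L) l m') (Bd * Ht (natl ps₀) ^ M) (S₀ + r)
      (e₁ * L + 4 + Real.log cw + r - 3 * Real.log (nm d)) ((nm q : ℝ) * Real.exp (LF ps) * Real.exp r)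
      (LF ps - Real.log (nm d) - Real.log B - N * (δ₀ * L) - r)
      (LF ps - Real.log (nm d) - Real.log B + r) := by
    refine clN_prem (D := ⟨P, h, X ^ δ₀, X ^ δ₀, ps₀, M, K * L, v * L, LL Dq ps₀⟩) (r := r')
      (b := b') (M := M) hSr hqb hM le_rfl hBd ?_
    intro l ps' hl hla hlo hσ hch
    have hla' : l ≤ v * L + (LL Dq ps₀ - LL Dq ps') + (e₁ * L + 4 + Real.log cw + r - 3 * Real.log (nm d)) := hla
    have h1 := NTc.cell hNT hc he₂ hc1 hc2 (by rw [← hL]; exact hL0.le) hBd hld hl (by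
      rw [← hL]
      have : (v + e₂) * L = v * L + e₂ * L := by ring
      linarith) hch
    rw [← hL] at h1
    exact h1
  have key := H X' hX'3 ⟨P, h, X ^ δ₀, X ^ δ₀, ps₀, M, K * L, v * L, LL Dq ps₀⟩ hP rfl hD0' rfl hlen
    (fun l m' => exC (K * L) (gN K c (LL Dq ps₀ / L) * L) (LL Dq ps₀) (Real.log (nm d))
        (c' * L) l m') (Bd * Ht (natl ps₀) ^ M) S₀ (e₁ * L + 4 + Real.log cw)
    ((nm q : ℝ) * Real.exp (LF ps)) (Real.exp r)
    (LF ps - Real.log (nm d) - Real.log B - N * (δ₀ * L) - r)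
    (LF ps - Real.log (nm d) - Real.log B + r) d
    (mul_nonneg hBd (Real.rpow_nonneg (zero_le_one.trans (one_le_Ht _)) _)) le_rfl hcl q ps X' B V t
    (shJ (K * L) (gN K c (LL Dq ps₀ / L) * L) (LL Dq ps₀) (LF ps)
      (c' * L + N * (δ₀ * L)) (Real.log (nm d)) (Real.log B) (Real.log V) +
      3 * r) hq le_rfl hdp (by rw [Real.rpow_one]; exact hdD) hps
    (by rw [hlX']; exact hLF) hX'0.le hB1 (by rw [Real.rpow_one]; exact hBY) le_rfl
    (by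
      show LF ps - Real.log (nm d) - Real.log B - N * (δ₀ * L) - r + Real.log (nm d) +
        Real.log B + N * Real.log (X ^ δ₀) + r ≤ LF ps
      rw [hlD0]
      linarith) hV1 hVX
    (by
      show Real.log V + 2 * Real.log (nm d) ≤ v * L + (LL Dq ps₀ - LF ps) + (e₁ * L + 4 + Real.log cw)
      have : (v + e₁) * L = v * L + e₁ * L := by ring
      linarith)
    (fun l m' hl h1 h2 h3 => by
      have h3' : LF ps - Real.log (nm d) - Real.log B - N * (δ₀ * L) - r ≤ m' := by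
        have h3'' : LF ps - Real.log (nm d) - Real.log B - N * Real.log (X ^ δ₀) - r ≤ m' := h3
        rw [hlD0] at h3''
        exact h3''
      exact exC_cell hr hν h1 h2 h3')
  rw [hX'e] at key
  have hpow : (1 + |t|) ^ ((N : ℝ) * M) ≤ (1 + |t|) ^ ((Jn : ℕ) : ℝ) :=
    Real.rpow_le_rpow_of_exponent_le (by linarith [abs_nonneg t]) hJn
  have hH1 : 0 ≤ Ht (natl ps₀) ^ M := Real.rpow_nonneg (zero_le_one.trans (one_le_Ht _)) _
  have hH2 : 0 ≤ Ht ps ^ M := Real.rpow_nonneg (zero_le_one.trans (one_le_Ht _)) _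
  have e2 : Real.exp (shJ (K * L) (gN K c (LL Dq ps₀ / L) * L) (LL Dq ps₀) (LF ps)
      (c' * L + N * (δ₀ * L)) (Real.log (nm d)) (Real.log B) (Real.log V) + 3 * r) ≤
      Real.exp (3 * r) * Real.exp (shJ (K * L) (gN K c (LL Dq ps₀ / L) * L) (LL Dq ps₀) (LF ps)
        cL (Real.log (nm d)) (Real.log B) (Real.log V)) := by
    rw [← Real.exp_add]
    refine Real.exp_le_exp.2 ?_
    unfold shJ
    linarith
  refine key.trans ?_
  calc C * X ^ ε * (Bd * Ht (natl ps₀) ^ M) * Ht ps ^ M * Real.exp (shJ (K * L)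
        (gN K c (LL Dq ps₀ / L) * L) (LL Dq ps₀) (LF ps) (c' * L + N * (δ₀ * L))
        (Real.log (nm d)) (Real.log B) (Real.log V) + 3 * r) * (1 + |t|) ^ ((N : ℝ) * M) ≤
      C * X ^ ε * (Bd * Ht (natl ps₀) ^ M) * Ht ps ^ M * (Real.exp (3 * r) *
        Real.exp (shJ (K * L) (gN K c (LL Dq ps₀ / L) * L) (LL Dq ps₀) (LF ps)
        cL (Real.log (nm d)) (Real.log B) (Real.log V))) * (1 + |t|) ^ ((Jn : ℕ) : ℝ) := by
        gcongr
    _ = _ := by ring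

/-- **the joint numbers of the flagged lists of the near leaf**, full range -/
theorem jbn_near {h : ℝ → ℝ} {c₂ : ℝ} (hpu : PU h c₂) (N : ℕ) {K : ℝ} (hK : 0 < K) {ε M : ℝ}
    (hε : 0 < ε) (hM : 0 ≤ M) : ∃ C r : ℝ, 1 ≤ C ∧ 0 ≤ r ∧ ∀ X : ℝ, 3 ≤ X → ∀ P : DPar, P.OK →
    ∀ ps₀ : List Pq, ps₀.length ≤ N → ∀ (v c g e₁ e₂ S₀ r' b' Bd δ₀ cL cw : ℝ) (Jn : ℕ), 0 ≤ c →
    1 ≤ cw →
    0 ≤ e₂ → 0 ≤ δ₀ →
    (N : ℝ) * M ≤ Jn → 0 ≤ Bd → S₀ + r ≤ r' → NTc P h K v c e₂ X r' b' M Bd ps₀ →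
    ∀ (q : Eis) (ps : List Pf) (Lv : ℝ) (N₁ : ℕ), NFacts K v g e₁ X ps₀ ps Lv N₁ →
    IsPrim q → (nm q : ℝ) * Real.exp (LF ps) * Real.exp r ≤ b' → SbL S₀ ps ps₀ →
    e₁ * Real.log X + 4 + Real.log cw + r ≤ e₂ * Real.log X →
    Lv + 4 + Real.log cw ≤ 8 * (K + 1) * Real.log X → LF ps ≤ 8 * (K + 1) * Real.log X →
    (c / 3 + e₂) * Real.log X + N * (δ₀ * Real.log X) ≤ cL →
    JBc (X ^ (8 * (K + 1))) (cw * N₁) (C * X ^ ε * (Bd * Ht (natl ps₀) ^ M) * Ht ps ^ M)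
      ((Jn : ℕ) : ℝ) (shJ (K * Real.log X) (gN K c (LL Dq ps₀ / Real.log X) * Real.log X)
        (LL Dq ps₀) (LF ps) cL) (sqc q (alF (X ^ δ₀) (X ^ δ₀) P h ps)) := by
  obtain ⟨C, r, hC, hr, H⟩ := jbn_near2 hpu N hK hε hM
  refine ⟨C, r, hC, hr, ?_⟩
  intro X hX P hP ps₀ hlen v c g e₁ e₂ S₀ r' b' Bd δ₀ cL cw Jn hc hcw he₂ hδ₀ hJn hBd hSr hNT q ps
    Lv N₁ hF hq hqb hps he hLv hLF hcL
  exact H X hX P hP ps₀ hlen v c g e₁ e₂ S₀ r' b' Bd δ₀ cL cw (c / 3 + e₂) Jn hc (by linarith)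
    (by linarith) hcw he₂ hδ₀ hJn hBd hSr hNT q ps Lv N₁ hF hq hqb hps he hLv hLF hcL

/-- `JBc` as `JBr` -/
lemma jbr_of {Y D Bm W F J : ℝ} {Sh : ℝ → ℝ → ℝ → ℝ} {al : Eis → ℂ} (h : JBc Y W F J Sh al)
    (hD0 : 0 ≤ D) (hD : D ≤ Y) : JBr Y D Bm W F J Sh al := by
  intro d hd B V h1 _ h3 h4 h5 t
  refine h d ?_ B V h1 h3 h4 h5 t
  obtain ⟨h6, h7, h8⟩ := (mem_S hD0).1 hd
  exact (mem_S (hD0.trans hD)).2 ⟨h6.trans hD, h7, h8⟩

end Crest.Agent.R017.JBN551
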