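import Crest.Agent.R017.LBn_48
import Crest.Agent.R017.Et_813

/-!
# Row 17, the near-top part of the tail of (LB) (helper813), part a: the Gram number

* `gram_T` : the cut Gram sum for any model `‖om‖ ≤ 1`, T-functionals and `OFF`
-/

set_option autoImplicit false
set_option linter.unusedVariables false

noncomputable section

open Complex MeasureTheory
open scoped ComplexConjugate Classical

namespace Crest.Agent.R017.Et813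

open Crest.Agent.R012 Crest.Agent.R012.Eis Crest.Agent.R012.MC
open Crest.Agent.R012.LS2 (S mem_S)
open Crest.Agent.R012.Mob705 (mu kap0)
open Crest.Agent.R012.Div277 (tau dvs mem_dvs)
open Crest.Agent.R017.X6C180 (n13 cM GF)
open Crest.Agent.R017.CM106 (CS FS)
open Crest.Agent.R017.E1551 (Adm nmpos)
open Crest.Agent.R017.C70 (JW OKJ okJ_JW)
open Crest.Agent.R017.E2440 (TE StE StT TOK tok_TE Fh)
open Crest.Agent.R017.Ex385 (CrQ)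
open Crest.Agent.R017.WDec180 (WD sc sc_pos)
open Crest.Agent.R017.LB48 (CrP GrP)
open Crest.Agent.R017.I1146 (c3 c3_nonneg X3)
open Crest.Agent.R017.E3M829 (Cut Tal Sg)
open Crest.Agent.R017.E3A164 (SteT Ys Fy)
open Crest.Agent.R017.LBu180 (SqQ gram_num)
open Crest.Agent.R017.LBx48 (EHs EHf EHt REb EHc_nonneg T4)

lemma gram_real {C₁ C₂ C₅ Pe kx s f θ b z L G g x : ℝ} (h1 : 0 ≤ C₁) (h2 : 0 ≤ C₂) (h5 : 0 ≤ C₅)
    (hPe : 0 ≤ Pe) (hkx : 0 ≤ kx) (hs : 0 ≤ s) (hf : 0 ≤ f) (hθ : 0 ≤ θ) (hb : b ≤ θ) (hz : z ≤ θ)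
    (hL : L ≤ C₅ * Pe) (hG : G ≤ x + (C₁ * Pe * (z + b) * (kx * s) + g))
    (hx : x ≤ C₂ * L * kx * f) :
    G ≤ (2 * C₁ + C₂ * C₅) * Pe * (kx * (f + θ * s)) + g := by
  have a1 : C₁ * Pe * (z + b) * (kx * s) ≤ C₁ * Pe * (2 * θ) * (kx * s) := by
    refine mul_le_mul_of_nonneg_right (mul_le_mul_of_nonneg_left (by linarith) (by positivity))
      (by positivity)
  have a2 : C₂ * L * kx * f ≤ C₂ * (C₅ * Pe) * kx * f := by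
    refine mul_le_mul_of_nonneg_right (mul_le_mul_of_nonneg_right
      (mul_le_mul_of_nonneg_left hL h2) hkx) hf
  have a3 : 0 ≤ 2 * C₁ * Pe * (kx * f) := by positivity
  have a4 : 0 ≤ C₂ * C₅ * Pe * (kx * (θ * s)) := by positivity
  nlinarith

/-- **the cut Gram sum, any model** -/
theorem gram_T {w : ℝ → ℝ} (hw : Wgt w) (hw0 : ∀ x, 0 ≤ w x) {R : ℝ} (hR : 0 ≤ R) {A : ℕ}
    (hA : 2 ≤ A) {ε : ℝ} (hε : 0 < ε) : ∃ C : ℝ, 0 ≤ C ∧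
    ∀ (P K X Y D Y₀ Z E0 E1 B θ : ℝ), 1 ≤ P → 0 < K → K ≤ P → 0 < X → 1 ≤ Y → Y ≤ P →
    0 ≤ D → D ≤ P → 0 < Z → Z ≤ P → 0 ≤ E0 → E0 ≤ Y → 1 ≤ B → 0 ≤ θ → B⁻¹ ≤ θ →
    (Z / K ^ 2) ^ (1 / 6 : ℝ) ≤ θ →
    ∀ α : Eis → ℂ, Adm Y X R α → ∀ om : Eis × Eis → ℂ, (∀ x, ‖om x‖ ≤ 1) →
    ∀ Q : Eis → Prop, (∀ k, IsPrim k → w (nm k / K) ≠ 0 → Q k → Cut E1 k) → ∀ OFF : ℝ,
    Sg w K B Z E1 (fun q t k₁ => ‖∑ y ∈ Ys (JW D Y₀ Z) E0 Z,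
        Fy (JW D Y₀ Z) om (Tal α) q t k₁ y‖ ^ 2) ≤
      Sg w K B Z E1 (fun q t k₁ => E3M829.Dg (JW D Y₀ Z) om (Tal α) E0 Z q t k₁) + OFF →
    GrP w K (fun k => if Q k then StE E0 (JW D Y₀ Z) om α k else 0) ≤
      C * P ^ ε * ((K / X) * (EHf A K X Y Z α + θ * EHs A K X Y Z E0 α)) + OFF := by
  obtain ⟨C₁, hC₁, H₁⟩ := gram_num hw hw0 hR hA hε
  obtain ⟨C₂, hC₂, H₂⟩ := LBX180.main_le (w := w) hw0 hR hA
  obtain ⟨C₅, hC₅, H₅⟩ := PInv255.one_add_log_pow_le 1 ε hε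
  refine ⟨2 * C₁ + C₂ * C₅, by positivity, ?_⟩
  intro P K X Y D Y₀ Z E0 E1 B θ hP hK hKP hX hY hYP hD hDP hZ hZP hE0 hE0Y hB hθ hBθ hZθ α hα om
    hom Q hQ OFF hoff
  have hY0 : 0 ≤ Y := by linarith
  have h1 := H₁ P K X Y D Y₀ Z E0 E1 B hP hK hKP hX hY hYP hD hDP hZ hZP hE0 hE0Y hB α hα om hom
    Q hQ OFF hoff
  have h2 := H₂ K X Y D Y₀ Z hK hX hY α hα ((X3 Y E0 (JW D Y₀ Z) om α).re)
    ((Complex.re_le_norm _).trans (LBX180.X3_le_s hY0 E0 (JW D Y₀ Z) hom α))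
  have hs0 : 0 ≤ EHs A K X Y Z E0 α := EHc_nonneg (fun n => Nat.cast_nonneg n) _ hK.le hX.le α
  have hf0 : 0 ≤ EHf A K X Y Z α := EHc_nonneg (fun n => by positivity) _ hK.le hX.le α
  have hKX : 0 ≤ K / X := by positivity
  have hPe : 0 ≤ P ^ ε := by positivity
  have h6 := H₅ P hP
  rw [pow_one] at h6
  have h7 : Real.log Y ≤ Real.log P := Real.log_le_log (by linarith) hYP
  exact gram_real hC₁ hC₂ (by linarith) hPe hKX hs0 hf0 hθ hBθ hZθ (by linarith) h1 h2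

end Crest.Agent.R017.Et813
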