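import Crest.Agent.R017.NEc_180
import Crest.Agent.R017.NTa_813
import Crest.Agent.R017.NEb_499

/-!
# Row 17, FlatNE class E (helper180): the cross number over `Q` from two scales, be level

* `Num2`, `NumEq`, `NumSq` : the numbers (compensated cross error, compensated tail, square at
  `K e^(-h)`)
* **`numCQ_of`** : helper911's `NumCQ` from them, `NumOs` at `K e^(-h)` and (SA0), (L+)
-/

set_option autoImplicit false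
set_option linter.unusedVariables false

noncomputable section

open Complex MeasureTheory
open scoped ComplexConjugate Classical

namespace Crest.Agent.R017.NEc180

open Crest.Agent.R012 Crest.Agent.R012.Eis Crest.Agent.R012.MC
open Crest.Agent.R012.LS2 (S mem_S)
open Crest.Agent.R012.Mob705 (kap0 pdiv)
open Crest.Agent.R012.Weight600 (osc pw)
open Crest.Agent.R017.CM106 (CS FS TG)
open Crest.Agent.R017.E1551 (Adm SqP cP XJw tws sg yv)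
open Crest.Agent.R017.C70 (JW JC OKJ okJ_JW XJ)
open Crest.Agent.R017.E2440 (TE StE Jb Qs prs C4 Fh)
open Crest.Agent.R017.X6C180 (n13 n13_nonneg GF)
open Crest.Agent.R017.LB48 (CrP GrP GrP_nonneg)
open Crest.Agent.R017.LBx48 (EHs EHt EHf EHc_nonneg)
open Crest.Agent.R017.EHu320 (EHc)
open Crest.Agent.R017.I1146 (X2 X3 omr)
open Crest.Agent.R017.WDec180 (WD sc sc_pos E2e cross_ex)
open Crest.Agent.R017.Ex385 (CrQ)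
open Crest.Agent.R017.E3M829 (Cut Tal Sg)
open Crest.Agent.R017.E3A164 (SteT Ys Fy)
open Crest.Agent.R017.LBu180 (SqQ)
open Crest.Agent.R017.Win813 (WK)
open Crest.Agent.R017.RGw813 (T9 bt)
open Crest.Agent.R017.LBo813 (Om rho Om_nonneg Om_le_one)
open Crest.Agent.R017.Rough381 (VF)
open Crest.Agent.R017.NE499 (NumOs adm_mz)

/-- the compensated cross error at `be` -/
def Num2 (N : ℕ) (M : ℝ) (F : ℕ → ℝ → ℂ) (Cw η : ℝ) (Aw : ℕ) (K X : ℝ) (R : ℝ) (J : ℕ)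
    (D E0 h : ℝ) (N₁ I : ℕ) (α : Eis → ℂ) (A₂ : ℝ) : Prop :=
  ∀ p ∈ T9, ∀ (t X' : ℝ) (φ : ℝ → ℝ), 0 < X' → |Real.log X' - Real.log X| ≤ R + 1 →
    WK Cw η Aw φ → (∀ u, φ u ≠ 0 → |u - Real.log X'| ≤ η / 2) →
    ∑ i ∈ Finset.range N, E2e (GF (Fh (F i) h)) (sc K M i) E0 (S D) N₁ I
      (JW D (1 / 10) N₁) (omr (Om (N₁ / 2) N₁)) (fun n => bt φ α p n * pw t (nm n)) ≤
      (K / X) * (A₂ * (1 + |t|) ^ J)

/-- the compensated tail (`k` outside `Q`) at `be` -/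
def NumEq (N : ℕ) (M : ℝ) (F : ℕ → ℝ → ℂ) (Q : Eis → Prop) (Cw η : ℝ) (Aw : ℕ) (K X : ℝ)
    (R : ℝ) (J : ℕ) (D E0 h : ℝ) (N₁ : ℕ) (α : Eis → ℂ) (At : ℝ) : Prop :=
  ∀ p ∈ T9, ∀ (t X' : ℝ) (φ : ℝ → ℝ), 0 < X' → |Real.log X' - Real.log X| ≤ R + 1 →
    WK Cw η Aw φ → (∀ u, φ u ≠ 0 → |u - Real.log X'| ≤ η / 2) →
    ∑ i ∈ Finset.range N, ‖CrQ (GF (Fh (F i) h)) (fun k => ¬ Q k) (sc K M i)
      (fun n => bt φ α p n * pw t (nm n))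
      (StE E0 (JW D (1 / 10) N₁) (omr (Om (N₁ / 2) N₁)) (fun n => bt φ α p n * pw t (nm n)))‖ ≤
      (K / X) * (At * (1 + |t|) ^ J)

/-- the smooth square over `Q` at the second scale -/
def NumSq (w : ℝ → ℝ) (Q : Eis → Prop) (Cw η : ℝ) (Aw : ℕ) (K X : ℝ) (R : ℝ) (J : ℕ)
    (h : ℝ) (α : Eis → ℂ) (Es : ℝ) : Prop :=
  ∀ p ∈ T9, ∀ (t X' : ℝ) (φ : ℝ → ℝ), 0 < X' → |Real.log X' - Real.log X| ≤ R + 1 →
    WK Cw η Aw φ → (∀ u, φ u ≠ 0 → |u - Real.log X'| ≤ η / 2) →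
    SqQ w (K * Real.exp (-h)) Q (fun n => bt φ α p n * pw t (nm n)) ≤
      (K / X) * (Es * (1 + |t|) ^ J)

/-- literal text of `NEx911.NumCQ` -/
def NumCQl (w : ℝ → ℝ) (Q : Eis → Prop) (Cw η : ℝ) (Aw : ℕ) (K X Y : ℝ) (R : ℝ) (J : ℕ)
    (D E0 : ℝ) (N₁ : ℕ) (α : Eis → ℂ) (Ec : ℝ) : Prop :=
  ∀ p ∈ T9, ∀ (t X' : ℝ) (φ : ℝ → ℝ), 0 < X' → |Real.log X' - Real.log X| ≤ R + 1 →
    WK Cw η Aw φ → (∀ u, φ u ≠ 0 → |u - Real.log X'| ≤ η / 2) →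
    ‖CrP w K (fun n => bt φ α p n * pw t (nm n)) (fun k => if Q k then
        StE E0 (JW D (1 / 10) N₁) (omr (Om (N₁ / 2) N₁)) (fun n => bt φ α p n * pw t (nm n)) k
        else 0) -
      ((pC * (kap0 * mel w (2 / 3) * K ^ (2 / 3 : ℝ)) : ℝ) : ℂ) *
        X2 Y E0 (JW D (1 / 10) N₁) (omr (Om (N₁ / 2) N₁)) (fun n => bt φ α p n * pw t (nm n))‖ ≤
      (K / X) * (Ec * (1 + |t|) ^ J)

/-- numbers -/
lemma cq_num {C₁ C₂ L q H m s h3 kx kx' V A₂ At Es Ro n₂ et S' G' Ef Eh θ E0 r LHS : ℝ}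
    (h1 : 0 ≤ C₁) (h2 : 0 ≤ C₂) (hkx : 0 ≤ kx) (hV : 0 ≤ V) (hq : 0 ≤ q)
    (hEs : 0 ≤ Es) (hr : 0 ≤ r) (hG0 : 0 ≤ G')
    (hS : S' = kx * (Es * V)) (hG : G' = kx * (r * V))
    (hT : kx' * Ef ≤ kx * (C₂ * H * m * V)) (hs : 0 ≤ s)
    (hn : n₂ = kx * (A₂ * V)) (he : et = kx * (At * V))
    (hL : LHS ≤ n₂ + et + h3 * (Real.sqrt S' * Real.sqrt G') + C₁ * q * (kx' * (s * Ef))) :
    LHS ≤ kx * ((A₂ + At + h3 * Real.sqrt (Es * r) + C₁ * C₂ * H * q * s * m) * V) := by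
  have e1 : Real.sqrt S' * Real.sqrt G' = kx * V * Real.sqrt (Es * r) := by
    rw [← Real.sqrt_mul (by rw [hS]; positivity)]
    have : S' * G' = (kx * V) ^ 2 * (Es * r) := by rw [hS, hG]; ring
    rw [this, Real.sqrt_mul (by positivity), Real.sqrt_sq (by positivity)]
  have e2 : C₁ * q * (kx' * (s * Ef)) ≤ C₁ * q * s * (kx * (C₂ * H * m * V)) := by
    calc C₁ * q * (kx' * (s * Ef)) = C₁ * q * s * (kx' * Ef) := by ring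
      _ ≤ _ := mul_le_mul_of_nonneg_left hT (by positivity)
  rw [e1, hn, he] at hL
  refine hL.trans (le_trans (add_le_add le_rfl e2) (le_of_eq ?_))
  ring

set_option maxHeartbeats 1600000 in
/-- **the cross number over `Q`, two scales** -/
theorem numCQ_of {w : ℝ → ℝ} (hw : Wgt w) (hw0 : ∀ x, 0 ≤ w x) {N : ℕ} {M : ℝ}
    {F : ℕ → ℝ → ℂ} (hD : WD w N M F) {Cw R ε : ℝ} {Aw J : ℕ} (hCw : 0 ≤ Cw) (hR : 0 ≤ R)
    (hε : 0 < ε) (hJA : J + 2 ≤ Aw) : ∃ C : ℝ, 0 ≤ C ∧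
    ∀ (K X Y D G₀ E0 E1 B θ h η : ℝ) (N₁ I : ℕ), 0 < K → K ≤ Y → 0 < X → 1 ≤ Y → 0 ≤ D →
    D ≤ Y → 1 ≤ E0 → E0 ≤ Y → 1 ≤ B → 0 ≤ θ → B⁻¹ ≤ θ → 1 ≤ N₁ → (N₁ : ℝ) ≤ Y →
    ((N₁ : ℝ) / (K * Real.exp (-h)) ^ 2) ^ (1 / 6 : ℝ) ≤ θ → 0 ≤ h → (N₁ : ℝ) < 2 ^ I →
    0 < η → η ≤ 1 → ∀ α : Eis → ℂ, (∀ n, α n ≠ 0 → n ∈ S Y) →
    ∀ Ma Ml A₂ At Es Ro : ℝ, 0 ≤ Ma → 0 ≤ Ml → 0 ≤ A₂ → 0 ≤ At → 0 ≤ Es → 0 ≤ Ro →
    (∀ g ∈ S Y, (nm g : ℝ) ≤ G₀ → ∀ V : ℝ, 1 ≤ V → V ≤ 9 * N₁ * nm g → ∀ t : ℝ,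
      VF V (tws (sg α g) t) ≤
        Ma / (nm g : ℝ) ^ 2 * ((V * K / (X / nm g) ^ 2) ^ (1 / 3 : ℝ)) * (1 + |t|) ^ J) →
    (∀ g ∈ S Y, ∀ B V : ℝ, 1 ≤ B → B ≤ Y → 1 ≤ V → V ≤ 9 * N₁ / (nm g : ℝ) ^ 2 → ∀ t : ℝ,
      E1551.JB Y α (fun U => G₀ < nm (g * U)) g B V t ≤
        Ml / (nm g : ℝ) ^ 2 * yv K X g V * (1 + |t|) ^ J) →
    ∀ Q : Eis → Prop,
    (∀ k, IsPrim k → w (nm k / (K * Real.exp (-h))) ≠ 0 → Q k → Cut E1 k) →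
    Num2 N M F Cw η Aw K X R J D E0 h N₁ I α A₂ →
    NumEq N M F Q Cw η Aw K X R J D E0 h N₁ α At →
    NumSq w Q Cw η Aw K X R J h α Es →
    NumOs w Cw η Aw K X (K * Real.exp (-h)) R J D E0 E1 B (N₁ / 2) N₁ α Ro →
    NumCQl w Q Cw η Aw K X Y R J D E0 N₁ α
      (A₂ + At + C * (η⁻¹) ^ J * (Y ^ ε * Y ^ ε) * Real.exp (-(h / 3)) * (Ma + Ml) +
        Real.exp (h / 3) * Real.sqrt (Es * (C * (η⁻¹) ^ J * (Y ^ ε * Y ^ ε) *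
          Real.exp (-(2 * h / 3)) * ((1 + θ * E0) * (Ma + Ml)) + Ro))) := by
  obtain ⟨C₁, hC₁, H₁⟩ := crossQ_of hw hw0 hD (R := 1) zero_le_one (A := J + 2) (by omega)
  obtain ⟨C₂, hC₂, H₂⟩ := LBT381.lbt_all4 (J := J) (Aw := Aw) (A := J + 2) le_rfl hJA hR hCw hε
  obtain ⟨C₃, hC₃, H₃⟩ := Et813.gram_T hw hw0 (R := 1) zero_le_one (A := J + 2) (by omega) hε
  obtain ⟨C₅, hC₅, H₅⟩ := PInv255.one_add_log_pow_le 1 ε hε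
  have h9 : (0 : ℝ) ≤ 9 ^ ε := by positivity
  refine ⟨C₁ * C₅ * (C₂ * 9 ^ ε) + C₃ * (C₂ * 9 ^ ε), by positivity, ?_⟩
  intro K X Y D G₀ E0 E1 B θ h η N₁ I hK hKY hX hY hD0 hDY hE0 hE0Y hB hθ hBθ hN₁ hNY hZθ hh hI
    hη hη1 α hα Ma Ml A₂ At Es Ro hMa hMl hA₂ hAt hEs hRo hSA hL Q hQ hN2 hNE hNS hNO
    p hp t X' φ hX' hXX hφ hφs
  have hY0 : 0 < Y := by linarith
  have hq : 1 ≤ Y ^ ε := Real.one_le_rpow hY hε.le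
  have hN1 : (1 : ℝ) ≤ N₁ := by exact_mod_cast hN₁
  have hZ0 : (0 : ℝ) < N₁ := by linarith
  have hE00 : 0 < E0 := by linarith
  have he1 : Real.exp (-h) ≤ 1 := Real.exp_le_one_iff.mpr (by linarith)
  have hK' : 0 < K * Real.exp (-h) := by positivity
  have hK'Y : K * Real.exp (-h) ≤ Y := (mul_le_of_le_one_right hK.le he1).trans hKY
  have hadm : Adm Y X' 1 (fun n => bt φ α p n * pw t (nm n)) :=
    adm_mz hη1 (RGw813.adm_bt hφs hα p t)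
  have r2 := hN2 p hp t X' φ hX' hXX hφ hφs
  have r3 := hNE p hp t X' φ hX' hXX hφ hφs
  have r4 := hNS p hp t X' φ hX' hXX hφ hφs
  have r5 := hNO p hp t X' φ hX' hXX hφ hφs
  have s1 := H₂ (9 * Y) K X X' Y η N₁ G₀ Ma Ml 1 0 1 0 0 α (by linarith) hK hX hX' hXX hY
    (by linarith) hZ0.le (by linarith) hη hη1 hMa hMl one_pos le_rfl zero_le_one le_rfl
    le_rfl hα hSA hL p hp φ hφ t
  have s2 := H₂ (9 * Y) K X X' Y η N₁ G₀ Ma Ml E0 θ 1 0 0 α (by linarith) hK hX hX' hXX hY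
    (by linarith) hZ0.le (by linarith) hη hη1 hMa hMl hE00 hθ zero_le_one le_rfl
    le_rfl hα hSA hL p hp φ hφ t
  clear hSA hL hN2 hNE hNS hNO
  have hom : ∀ x, ‖omr (Om (N₁ / 2) N₁) x‖ ≤ 1 := by
    intro x
    unfold I1146.omr
    rw [Complex.norm_real, Real.norm_eq_abs, abs_of_nonneg (Om_nonneg _ _ _)]
    exact Om_le_one _ _ _
  generalize (fun n => bt φ α p n * pw t (nm n)) = β at hadm r2 r3 r4 r5 s1 s2 ⊢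
  obtain ⟨V, hV⟩ : ∃ V : ℝ, V = (1 + |t|) ^ J := ⟨_, rfl⟩
  rw [← hV] at r2 r3 r4 r5 s1 s2 ⊢
  have hV1 : 1 ≤ V := by rw [hV]; exact one_le_pow₀ (by linarith [abs_nonneg t])
  have hKX : 0 ≤ K / X := by positivity
  have hKX' : 0 ≤ K / X' := by positivity
  have hHj : 0 ≤ (η⁻¹) ^ J := by positivity
  have t1 : 0 ≤ EHs ((J + 2 : ℕ) : ℝ) K X' Y N₁ E0 β :=
    EHc_nonneg (fun n => Nat.cast_nonneg n) _ hK.le hX'.le β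
  have t2 : 0 ≤ EHf ((J + 2 : ℕ) : ℝ) K X' Y N₁ β :=
    EHc_nonneg (fun n => by positivity) _ hK.le hX'.le β
  -- the T-numbers
  have u1 : (K / X') * EHf ((J + 2 : ℕ) : ℝ) K X' Y N₁ β ≤
      (K / X) * (C₂ * ((η⁻¹) ^ J * (9 ^ ε * Y ^ ε)) * (Ma + Ml) * V) := by
    rw [← Real.mul_rpow (by norm_num) hY0.le]
    refine le_trans (le_of_eq ?_) (s1.trans (le_of_eq ?_))
    · ring
    · ring
  have u2 : (K / X') * (EHf ((J + 2 : ℕ) : ℝ) K X' Y N₁ β +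
      θ * EHs ((J + 2 : ℕ) : ℝ) K X' Y N₁ E0 β) ≤
      (K / X) * (C₂ * ((η⁻¹) ^ J * (9 ^ ε * Y ^ ε)) * ((1 + θ * E0) * (Ma + Ml)) * V) := by
    rw [← Real.mul_rpow (by norm_num) hY0.le]
    refine le_trans (le_of_eq ?_) (s2.trans (le_of_eq ?_))
    · ring
    · ring
  -- the Gram number at the second scale
  have g1 := H₃ Y (K * Real.exp (-h)) X' Y D (1 / 10) N₁ E0 E1 B θ hY hK' hK'Y hX' hY le_rfl
    hD0 hDY hZ0 hNY hE00.le hE0Y hB hθ hBθ hZθ β hadm (omr (Om (N₁ / 2) N₁)) hom Q hQ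
    ((K / X) * (Ro * V)) r5
  have f1 : EHf ((J + 2 : ℕ) : ℝ) (K * Real.exp (-h)) X' Y N₁ β =
      Real.exp (h / 3) * EHf ((J + 2 : ℕ) : ℝ) K X' Y N₁ β := by
    unfold LBx48.EHf
    rw [LBX180.EHc_sc (Real.exp_pos _).le _ _ hK.le, ← Real.exp_mul]
    congr 2
    ring
  have f2 : EHs ((J + 2 : ℕ) : ℝ) (K * Real.exp (-h)) X' Y N₁ E0 β =
      Real.exp (h / 3) * EHs ((J + 2 : ℕ) : ℝ) K X' Y N₁ E0 β := by
    unfold LBx48.EHs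
    rw [LBX180.EHc_sc (Real.exp_pos _).le _ _ hK.le, ← Real.exp_mul]
    congr 2
    ring
  have f3 : Real.exp (-h) * Real.exp (h / 3) = Real.exp (-(2 * h / 3)) := by
    rw [← Real.exp_add]; congr 1; ring
  obtain ⟨rr, hrr⟩ : ∃ rr : ℝ, rr = C₃ * (C₂ * 9 ^ ε) * (η⁻¹) ^ J * (Y ^ ε * Y ^ ε) *
      Real.exp (-(2 * h / 3)) * ((1 + θ * E0) * (Ma + Ml)) + Ro := ⟨_, rfl⟩
  have hrr0 : 0 ≤ rr := by rw [hrr]; positivity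
  have g2 : GrP w (K * Real.exp (-h)) (fun k => if Q k then
      StE E0 (JW D (1 / 10) N₁) (omr (Om (N₁ / 2) N₁)) β k else 0) ≤ (K / X) * (rr * V) := by
    refine g1.trans ?_
    rw [f1, f2]
    have e1 : C₃ * Y ^ ε * (K * Real.exp (-h) / X' *
        (Real.exp (h / 3) * EHf ((J + 2 : ℕ) : ℝ) K X' Y N₁ β +
          θ * (Real.exp (h / 3) * EHs ((J + 2 : ℕ) : ℝ) K X' Y N₁ E0 β))) =
        C₃ * Y ^ ε * Real.exp (-(2 * h / 3)) * ((K / X') *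
          (EHf ((J + 2 : ℕ) : ℝ) K X' Y N₁ β + θ * EHs ((J + 2 : ℕ) : ℝ) K X' Y N₁ E0 β)) := by
      rw [← f3]; ring
    rw [e1]
    have e2 := mul_le_mul_of_nonneg_left u2
      (show 0 ≤ C₃ * Y ^ ε * Real.exp (-(2 * h / 3)) by positivity)
    rw [hrr]
    refine (add_le_add e2 le_rfl).trans (le_of_eq ?_)
    ring
  have hlog := Real.log_nonneg hY
  have hL5 : 1 + Real.log Y ≤ C₅ * Y ^ ε := by
    have := H₅ Y hY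
    rwa [pow_one] at this
  have a0 := H₁ K X' Y D (1 / 10) N₁ E0 h I hK hX' hY hZ0 hh hD0 hE00.le hI β hadm
    (omr (Om (N₁ / 2) N₁)) hom Q ((K / X) * (A₂ * V)) ((K / X) * (At * V)) ((K / X) * (Es * V))
    ((K / X) * (rr * V)) r2 r3 r4 g2
  have a1 : C₁ * (1 + Real.log Y) * ((K / X') * (Real.exp (-(h / 3)) *
      EHf ((J + 2 : ℕ) : ℝ) K X' Y N₁ β)) ≤ (C₁ * C₅) * Y ^ ε * ((K / X') *
      (Real.exp (-(h / 3)) * EHf ((J + 2 : ℕ) : ℝ) K X' Y N₁ β)) := by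
    refine mul_le_mul_of_nonneg_right ?_ (by positivity)
    calc C₁ * (1 + Real.log Y) ≤ C₁ * (C₅ * Y ^ ε) := mul_le_mul_of_nonneg_left hL5 hC₁
      _ = _ := by ring
  have fin := cq_num (C₁ := C₁ * C₅) (C₂ := C₂) (q := Y ^ ε) (H := (η⁻¹) ^ J * (9 ^ ε * Y ^ ε))
    (m := Ma + Ml) (s := Real.exp (-(h / 3))) (h3 := Real.exp (h / 3)) (kx := K / X)
    (kx' := K / X') (V := V) (A₂ := A₂) (At := At) (Es := Es) (r := rr)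
    (Ef := EHf ((J + 2 : ℕ) : ℝ) K X' Y N₁ β) (L := 0) (Ro := Ro) (Eh := 0) (θ := θ) (E0 := E0)
    (by positivity) hC₂ hKX (by linarith) (by positivity) hEs hrr0 (by positivity) rfl rfl u1
    (Real.exp_pos _).le rfl rfl (a0.trans (add_le_add le_rfl a1))
  refine fin.trans (mul_le_mul_of_nonneg_left (mul_le_mul_of_nonneg_right ?_ (by linarith)) hKX)
  have b1 : C₁ * C₅ * C₂ * ((η⁻¹) ^ J * (9 ^ ε * Y ^ ε)) * Y ^ ε * Real.exp (-(h / 3)) *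
      (Ma + Ml) ≤ (C₁ * C₅ * (C₂ * 9 ^ ε) + C₃ * (C₂ * 9 ^ ε)) * (η⁻¹) ^ J * (Y ^ ε * Y ^ ε) *
        Real.exp (-(h / 3)) * (Ma + Ml) := by
    have c1 : 0 ≤ C₃ * (C₂ * 9 ^ ε) * ((η⁻¹) ^ J * (Y ^ ε * Y ^ ε) * Real.exp (-(h / 3)) *
        (Ma + Ml)) := by positivity
    have c2 : (C₁ * C₅ * (C₂ * 9 ^ ε) + C₃ * (C₂ * 9 ^ ε)) * (η⁻¹) ^ J * (Y ^ ε * Y ^ ε) *
        Real.exp (-(h / 3)) * (Ma + Ml) =
        C₁ * C₅ * C₂ * ((η⁻¹) ^ J * (9 ^ ε * Y ^ ε)) * Y ^ ε * Real.exp (-(h / 3)) *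
          (Ma + Ml) + C₃ * (C₂ * 9 ^ ε) * ((η⁻¹) ^ J * (Y ^ ε * Y ^ ε) * Real.exp (-(h / 3)) *
        (Ma + Ml)) := by ring
    linarith
  have b2 : Real.sqrt (Es * rr) ≤ Real.sqrt (Es * ((C₁ * C₅ * (C₂ * 9 ^ ε) +
      C₃ * (C₂ * 9 ^ ε)) * (η⁻¹) ^ J * (Y ^ ε * Y ^ ε) *
      Real.exp (-(2 * h / 3)) * ((1 + θ * E0) * (Ma + Ml)) + Ro)) := by
    refine Real.sqrt_le_sqrt (mul_le_mul_of_nonneg_left ?_ hEs)
    rw [hrr]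
    have c1 : 0 ≤ C₁ * C₅ * (C₂ * 9 ^ ε) * ((η⁻¹) ^ J * (Y ^ ε * Y ^ ε) *
      Real.exp (-(2 * h / 3)) * ((1 + θ * E0) * (Ma + Ml))) := by positivity
    have c2 : (C₁ * C₅ * (C₂ * 9 ^ ε) +
      C₃ * (C₂ * 9 ^ ε)) * (η⁻¹) ^ J * (Y ^ ε * Y ^ ε) *
      Real.exp (-(2 * h / 3)) * ((1 + θ * E0) * (Ma + Ml)) =
      C₃ * (C₂ * 9 ^ ε) * (η⁻¹) ^ J * (Y ^ ε * Y ^ ε) *
      Real.exp (-(2 * h / 3)) * ((1 + θ * E0) * (Ma + Ml)) +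
      C₁ * C₅ * (C₂ * 9 ^ ε) * ((η⁻¹) ^ J * (Y ^ ε * Y ^ ε) *
      Real.exp (-(2 * h / 3)) * ((1 + θ * E0) * (Ma + Ml))) := by ring
    linarith
  have b3 := mul_le_mul_of_nonneg_left b2 (Real.exp_pos (h / 3)).le
  linarith

end Crest.Agent.R017.NEc180
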