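import Crest.Agent.R017.E3Me_829
import Crest.Agent.R017.PLow1_271

/-!
# Row 17, T.5 (R5): slope of the Gram sums of the structured function (helper858)

`k ↦ k p³` (`p` a primary prime, `E0 < nm p`):
* `ste_shift` : `SteT J k = SteT J (k p³) + SteT (J ∩ {p ∣ δ}) k`
* `cut_cube` : `k p³` is in `Cut (nm p)` for cube-free `k`
* `gram_mono` : the averaged inequality with weights
* `gram_ball` : balls
-/

set_option autoImplicit false

noncomputable section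

open Finset
open scoped ComplexConjugate
open Crest.Agent.R017.PLow271 (shortP mem_shortP card_shortP)

namespace Crest.Agent.R017.GramMono858

open Crest.Agent.R012 Crest.Agent.R012.Eis Crest.Agent.R012.Mob705 Crest.Agent.R012.Gauss880
open Crest.Agent.R012.Div277
open Crest.Agent.R012.LS2 (S mem_S)
open Crest.Agent.R017.CM106 (merge_cube)
open Crest.Agent.R017.PX764 Crest.Agent.R017.C70
open Crest.Agent.R017.E3A164 (SteT)
open Crest.Agent.R017.E3M829 (Cut)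

variable {J : Finset (Eis × Eis)} {om : Eis × Eis → ℂ} {T : Eis → Eis → Eis → ℂ} {E0 : ℝ}

open Classical in
/-- the symbol at `k p³` -/
lemma sy_shift {k p δ : Eis} (hp : IsPP p) (hδ : IsPrim δ) :
    sy (k * p ^ 3) δ = if p ∣ δ then 0 else sy k δ := by
  classical
  have H := GaussLoc283.syAx
  split_ifs with h
  · rw [H.eq_zero _ _ hδ]
    intro h1
    have h2 : IsCoprime p δ := (IsCoprime.of_mul_left_right h1).of_isCoprime_of_dvd_left
      (dvd_pow_self p three_ne_zero)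
    exact hp.isCoprime_iff.mp h2 h
  · rw [H.mul_left _ _ _ hδ, GaussLoc283.SyAx.pow_left H p hδ,
      H.cube _ _ hδ (hp.isCoprime_iff.mpr h), mul_one]

open Classical in
lemma filter_shift {k p : Eis} (hp : IsPP p) (hE0 : 0 ≤ E0) (hE : E0 < nm p) :
    (S E0).filter (fun e => e ∣ k * p ^ 3) = (S E0).filter (fun e => e ∣ k) := by
  refine Finset.filter_congr fun e he => ?_
  rw [mem_S hE0] at he
  have h1 : ¬ p ∣ e := fun h => by
    have h2 := nm_le_of_dvd he.2.1.ne_zero h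
    have h3 : (nm p : ℝ) ≤ nm e := by exact_mod_cast h2
    linarith [he.1]
  constructor
  · intro h
    exact ((hp.isCoprime_iff.mpr h1).symm.pow_right).dvd_of_dvd_mul_right h
  · intro h
    exact h.mul_right _

open Classical in
/-- **the shift** -/
theorem ste_shift {k p : Eis} (hp : IsPP p) (hE0 : 0 ≤ E0) (hE : E0 < nm p)
    (hJ : ∀ x ∈ J, IsPrim x.1) : SteT J om E0 T k = SteT J om E0 T (k * p ^ 3) +
      SteT (J.filter (fun x => p ∣ x.1)) om E0 T k := by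
  unfold SteT
  rw [Finset.sum_filter, ← Finset.sum_add_distrib]
  refine Finset.sum_congr rfl fun x hx => ?_
  have e1 : th (x.2 * (k * p ^ 3)) = th (x.2 * k) := by
    rw [← mul_assoc, th_cube hp.isPrim]
  rw [filter_shift hp hE0 hE, e1, sy_shift hp (hJ x hx)]
  split_ifs <;> simp

/-- **`k p³` has no large cube divisors** -/
theorem cut_cube {k p : Eis} (hkc : CbF k) (hp : IsPP p) : Cut (nm p) (k * p ^ 3) := by
  intro e he hek
  -- every primary prime of `e` is `p`, with exponent one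
  by_cases h1 : e = 1
  · subst h1
    have := hp.one_lt_nm
    simp only [nm_one, Nat.cast_one]
    exact_mod_cast this.le
  have key : ∀ q : Eis, IsPP q → q ∣ e → q = p := by
    intro q hq hqe
    by_contra hqp
    have h2 : q ^ 3 ∣ k * p ^ 3 := (pow_dvd_pow_of_dvd hqe 3).trans hek
    exact hkc q hq.prime (((hq.isCoprime hp hqp).pow).dvd_of_dvd_mul_right h2)
  obtain ⟨q, hq, hqe⟩ := exists_pp_dvd_of_isPrim he h1
  have hqp := key q hq hqe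
  subst hqp
  obtain ⟨e', rfl⟩ := hqe
  have he' : IsPrim e' := he.of_mul_left hq.isPrim
  have h2 : e' = 1 := by
    by_contra h3
    obtain ⟨r, hr, hre⟩ := exists_pp_dvd_of_isPrim he' h3
    have hrq := key r hr (hre.mul_left _)
    subst hrq
    obtain ⟨e'', rfl⟩ := hre
    have h4 : (r * (r * e'')) ^ 3 = r ^ 3 * (r ^ 3 * e'' ^ 3) := by ring
    rw [h4, mul_comm k] at hek
    have h5 : r ^ 3 * e'' ^ 3 ∣ k := (mul_dvd_mul_iff_left (pow_ne_zero 3 hr.ne_zero)).mp hek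
    exact hkc r hr.prime ((dvd_mul_right _ _).trans h5)
  rw [h2, mul_one]

/-- merging of prime cubes -/
lemma merge3 {A 𝒦 𝒦' : Finset Eis} (hA : ∀ p ∈ A, IsPrim p) (h0 : ∀ k ∈ 𝒦', k ≠ 0)
    (hmap : ∀ k ∈ 𝒦, ∀ p ∈ A, k * p ^ 3 ∈ 𝒦') (F : Eis → ℝ) (hF : ∀ r, 0 ≤ F r) :
    ∑ p ∈ A, ∑ k ∈ 𝒦, F (k * p ^ 3) ≤ ∑ r ∈ 𝒦', (tau r : ℝ) * F r := by
  classical
  rw [← Finset.sum_product' A 𝒦 (fun p l => F (l * p ^ 3))]
  have hmaps : ∀ x ∈ A ×ˢ 𝒦, x.2 * x.1 ^ 3 ∈ 𝒦' := by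
    intro x hx
    rw [Finset.mem_product] at hx
    exact hmap _ hx.2 _ hx.1
  rw [← Finset.sum_fiberwise_of_maps_to hmaps]
  refine Finset.sum_le_sum fun r hr => ?_
  have hr0 : r ≠ 0 := h0 r hr
  rw [Finset.sum_congr rfl (g := fun _ => F r) (fun x hx => by
    rw [(Finset.mem_filter.mp hx).2]), Finset.sum_const, nsmul_eq_mul]
  refine mul_le_mul_of_nonneg_right ?_ (hF r)
  unfold tau
  norm_cast
  refine Finset.card_le_card_of_injOn (fun x => x.1) ?_ ?_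
  · intro x hx
    have hx' := Finset.mem_filter.mp (Finset.mem_coe.mp hx)
    rw [Finset.mem_coe, mem_dvs hr0]
    refine ⟨hA _ (Finset.mem_product.mp hx'.1).1, ?_⟩
    rw [← hx'.2]
    exact (dvd_pow_self _ three_ne_zero).mul_left _
  · intro x hx y hy hxy
    have hx' := Finset.mem_filter.mp (Finset.mem_coe.mp hx)
    have hy' := Finset.mem_filter.mp (Finset.mem_coe.mp hy)
    simp only at hxy
    have h1 : x.2 * x.1 ^ 3 = y.2 * x.1 ^ 3 := by rw [hx'.2, hxy, hy'.2]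
    have h2 : x.1 ^ 3 ≠ 0 := pow_ne_zero 3 (hA _ (Finset.mem_product.mp hx'.1).1).ne_zero
    exact Prod.ext hxy (mul_right_cancel₀ h2 h1)

open Classical in
/-- **slope of the Gram sums, weights** -/
theorem gram_mono {A 𝒦 𝒦' : Finset Eis} (hA : ∀ p ∈ A, IsPP p ∧ E0 < nm p) (hE0 : 0 ≤ E0)
    (hJ : ∀ x ∈ J, IsPrim x.1) (h0 : ∀ k ∈ 𝒦', k ≠ 0)
    (hmap : ∀ k ∈ 𝒦, ∀ p ∈ A, k * p ^ 3 ∈ 𝒦') {W W' : Eis → ℝ} (hW0 : ∀ k ∈ 𝒦, 0 ≤ W k)
    (hW' : ∀ k, 0 ≤ W' k) (hW : ∀ k ∈ 𝒦, ∀ p ∈ A, W k ≤ W' (k * p ^ 3)) :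
    (A.card : ℝ) * ∑ k ∈ 𝒦, W k * ‖SteT J om E0 T k‖ ^ 2 ≤
      2 * ∑ k ∈ 𝒦', (tau k : ℝ) * (W' k * ‖SteT J om E0 T k‖ ^ 2) +
      2 * ∑ p ∈ A, ∑ k ∈ 𝒦, W k * ‖SteT (J.filter (fun x => p ∣ x.1)) om E0 T k‖ ^ 2 := by
  have h1 : ∀ p ∈ A, ∑ k ∈ 𝒦, W k * ‖SteT J om E0 T k‖ ^ 2 ≤
      2 * ∑ k ∈ 𝒦, W' (k * p ^ 3) * ‖SteT J om E0 T (k * p ^ 3)‖ ^ 2 +
      2 * ∑ k ∈ 𝒦, W k * ‖SteT (J.filter (fun x => p ∣ x.1)) om E0 T k‖ ^ 2 := by
    intro p hp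
    rw [Finset.mul_sum, Finset.mul_sum, ← Finset.sum_add_distrib]
    refine Finset.sum_le_sum fun k hk => ?_
    have h2 := ste_shift (om := om) (T := T) (k := k) (hA p hp).1 hE0 (hA p hp).2 hJ
    set a := SteT J om E0 T (k * p ^ 3)
    set b := SteT (J.filter (fun x => p ∣ x.1)) om E0 T k
    have h3 : ‖SteT J om E0 T k‖ ^ 2 ≤ 2 * ‖a‖ ^ 2 + 2 * ‖b‖ ^ 2 := by
      rw [h2]
      have h4 := norm_add_le a b
      have h5 := norm_nonneg (a + b)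
      nlinarith [sq_nonneg (‖a‖ - ‖b‖), norm_nonneg a, norm_nonneg b]
    calc W k * ‖SteT J om E0 T k‖ ^ 2 ≤ W k * (2 * ‖a‖ ^ 2 + 2 * ‖b‖ ^ 2) :=
          mul_le_mul_of_nonneg_left h3 (hW0 k hk)
      _ = 2 * (W k * ‖a‖ ^ 2) + 2 * (W k * ‖b‖ ^ 2) := by ring
      _ ≤ 2 * (W' (k * p ^ 3) * ‖a‖ ^ 2) + 2 * (W k * ‖b‖ ^ 2) := by
          have := mul_le_mul_of_nonneg_right (hW k hk p hp) (sq_nonneg ‖a‖)
          linarith
  have h2 := Finset.sum_le_sum h1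
  rw [Finset.sum_const, nsmul_eq_mul, Finset.sum_add_distrib, ← Finset.mul_sum,
    ← Finset.mul_sum] at h2
  refine h2.trans (add_le_add ?_ le_rfl)
  refine mul_le_mul_of_nonneg_left ?_ (by norm_num)
  exact merge3 (fun p hp => (hA p hp).1.isPrim) h0 hmap
    (fun k => W' k * ‖SteT J om E0 T k‖ ^ 2) fun r => mul_nonneg (hW' r) (sq_nonneg _)

open Classical in
/-- **slope of the Gram sums over cube-free `k`, balls** -/
theorem gram_ball {A : Finset Eis} {K Pm : ℝ} (hA : ∀ p ∈ A, IsPP p ∧ E0 < nm p ∧ (nm p : ℝ) ≤ Pm)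
    (hE0 : 0 ≤ E0) (hK : 0 ≤ K) (hJ : ∀ x ∈ J, IsPrim x.1) :
    (A.card : ℝ) * ∑ k ∈ (primBall ⌊K⌋₊).filter (fun k => CbF k), ‖SteT J om E0 T k‖ ^ 2 ≤
      2 * ∑ k ∈ (primBall ⌊K * Pm ^ 3⌋₊).filter (fun k => Cut Pm k),
        (tau k : ℝ) * ‖SteT J om E0 T k‖ ^ 2 +
      2 * ∑ p ∈ A, ∑ k ∈ (primBall ⌊K⌋₊).filter (fun k => CbF k),
        ‖SteT (J.filter (fun x => p ∣ x.1)) om E0 T k‖ ^ 2 := by
  have h := gram_mono (J := J) (om := om) (T := T) (E0 := E0) (A := A)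
    (𝒦 := (primBall ⌊K⌋₊).filter (fun k => CbF k))
    (𝒦' := (primBall ⌊K * Pm ^ 3⌋₊).filter (fun k => Cut Pm k)) (W := fun _ => 1)
    (W' := fun _ => 1) (fun p hp => ⟨(hA p hp).1, (hA p hp).2.1⟩) hE0 hJ
    (fun k hk => (mem_primBall.mp (Finset.mem_filter.mp hk).1).2.ne_zero) ?_
    (fun _ _ => zero_le_one) (fun _ => zero_le_one) (fun _ _ _ _ => le_rfl)
  · simpa using h
  · intro k hk p hp
    rw [Finset.mem_filter, mem_primBall] at hk ⊢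
    obtain ⟨hpp, -, hpm⟩ := hA p hp
    refine ⟨⟨Nat.le_floor ?_, hk.1.2.mul (hpp.isPrim.pow 3)⟩, fun e he hek => ?_⟩
    · rw [nm_mul, nm_pow]
      push_cast
      have h1 : (nm k : ℝ) ≤ K := (Nat.cast_le.mpr hk.1.1).trans (Nat.floor_le hK)
      exact mul_le_mul h1 (pow_le_pow_left₀ (Nat.cast_nonneg _) hpm 3) (by positivity) hK
    · exact (cut_cube hk.2 hpp e he hek).trans hpm

open Classical in
/-- **slope of the Gram sums over cube-free `k`** : primes in `(e^(s-1), e^s]` -/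
theorem gram_slope : ∃ C : ℝ, 0 ≤ C ∧ ∃ s₀ : ℝ, 1 ≤ s₀ ∧ ∀ s : ℝ, s₀ ≤ s →
    ∀ (J : Finset (Eis × Eis)) (om : Eis × Eis → ℂ) (T : Eis → Eis → Eis → ℂ) (E0 K : ℝ),
    0 ≤ E0 → E0 ≤ Real.exp (s - 1) → 0 ≤ K → (∀ x ∈ J, IsPrim x.1) →
    ∑ k ∈ (primBall ⌊K⌋₊).filter (fun k => CbF k), ‖SteT J om E0 T k‖ ^ 2 ≤
      C * (s * Real.exp (-s)) *
        (∑ k ∈ (primBall ⌊K * Real.exp s ^ 3⌋₊).filter (fun k => Cut (Real.exp s) k),
          (tau k : ℝ) * ‖SteT J om E0 T k‖ ^ 2 +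
        ∑ p ∈ shortP (-1) 0 s, ∑ k ∈ (primBall ⌊K⌋₊).filter (fun k => CbF k),
          ‖SteT (J.filter (fun x => p ∣ x.1)) om E0 T k‖ ^ 2) := by
  obtain ⟨c, hc, s₀, hs₀, H⟩ := card_shortP (a := -1) (b := 0) (by norm_num)
  refine ⟨2 / c, by positivity, s₀, hs₀, fun s hs J om T E0 K hE0 hE hK hJ => ?_⟩
  have hs1 : 0 < s := by linarith
  have hA : ∀ p ∈ shortP (-1) 0 s, IsPP p ∧ E0 < nm p ∧ (nm p : ℝ) ≤ Real.exp s := by
    intro p hp
    rw [mem_shortP] at hp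
    obtain ⟨h1, h2, h3⟩ := hp
    refine ⟨⟨h1.2, h1.1⟩, ?_, ?_⟩
    · refine lt_of_le_of_lt hE ?_
      simpa [sub_eq_add_neg] using h2
    · simpa using h3
  have h1 := gram_ball (om := om) (T := T) hA hE0 hK hJ
  have h2 := H s hs
  set L := ∑ k ∈ (primBall ⌊K⌋₊).filter (fun k => CbF k), ‖SteT J om E0 T k‖ ^ 2 with hL
  set X1 := ∑ k ∈ (primBall ⌊K * Real.exp s ^ 3⌋₊).filter (fun k => Cut (Real.exp s) k),
    (tau k : ℝ) * ‖SteT J om E0 T k‖ ^ 2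
  set X2 := ∑ p ∈ shortP (-1) 0 s, ∑ k ∈ (primBall ⌊K⌋₊).filter (fun k => CbF k),
    ‖SteT (J.filter (fun x => p ∣ x.1)) om E0 T k‖ ^ 2
  have hL0 : 0 ≤ L := by rw [hL]; positivity
  have h3 : c * (Real.exp s / s) * L ≤ 2 * X1 + 2 * X2 :=
    (mul_le_mul_of_nonneg_right h2 hL0).trans h1
  have h4 : L = (c * (Real.exp s / s) * L) * (s * Real.exp (-s) / c) := by
    rw [Real.exp_neg]
    have := Real.exp_ne_zero s
    field_simp
  rw [h4]
  calc (c * (Real.exp s / s) * L) * (s * Real.exp (-s) / c) ≤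
      (2 * X1 + 2 * X2) * (s * Real.exp (-s) / c) :=
        mul_le_mul_of_nonneg_right h3 (by positivity)
    _ = _ := by ring

open Classical in
/-- the `p ∣ δ` terms are additive -/
lemma sum_dvd_le {A : Finset Eis} (hA : ∀ p ∈ A, IsPrim p) (hJ : ∀ x ∈ J, IsPrim x.1)
    {F : Eis × Eis → ℝ} (hF : ∀ x ∈ J, 0 ≤ F x) :
    ∑ p ∈ A, ∑ x ∈ J.filter (fun x => p ∣ x.1), F x ≤ ∑ x ∈ J, (tau x.1 : ℝ) * F x := by
  simp_rw [Finset.sum_filter]
  rw [Finset.sum_comm]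
  refine Finset.sum_le_sum fun x hx => ?_
  rw [← Finset.sum_filter, Finset.sum_const, nsmul_eq_mul]
  refine mul_le_mul_of_nonneg_right ?_ (hF x hx)
  unfold tau
  norm_cast
  refine Finset.card_le_card fun p hp => ?_
  rw [Finset.mem_filter] at hp
  exact (mem_dvs (hJ x hx).ne_zero).mpr ⟨hA p hp.1, hp.2⟩

end Crest.Agent.R017.GramMono858
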