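import Crest.Agent.R017.NTa_813
import Crest.Agent.R017.GramMono_858

/-!
# Row 17, the near-top part of the tail of (LB) (helper813), part c: the embedding

* `wnd` : windows of primary numbers
* `gr_lower`, `sq_lower` : lower bounds of `GrP`, `SqQ`
* `st_cube` : the structured function does not see the cube of a large prime
* `embed` : the Gram sum over the `d³ k`, `k` in the short window, by the Gram sum of the long one
-/

set_option autoImplicit false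
set_option linter.unusedVariables false

noncomputable section

open Complex MeasureTheory
open scoped ComplexConjugate Classical

namespace Crest.Agent.R017.Et813

open Crest.Agent.R012 Crest.Agent.R012.Eis Crest.Agent.R012.MC
open Crest.Agent.R012.LS2 (S mem_S)
open Crest.Agent.R012.Mob705 (mu IsPP)
open Crest.Agent.R012.Div277 (tau dvs mem_dvs)
open Crest.Agent.R017.X6C180 (n13 cM GF)
open Crest.Agent.R017.CM106 (CS FS)
open Crest.Agent.R017.PX764 (th)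
open Crest.Agent.R017.C70 (JW OKJ okJ_JW CbF)
open Crest.Agent.R017.E2440 (TE StE StT TOK tok_TE Fh)
open Crest.Agent.R017.Ex385 (CrQ)
open Crest.Agent.R017.WDec180 (WD sc sc_pos)
open Crest.Agent.R017.LB48 (CrP GrP)
open Crest.Agent.R017.E3M829 (Cut Tal Sg)
open Crest.Agent.R017.LBu180 (SqQ)
open Crest.Agent.R017.PLow271 (shortP mem_shortP card_shortP)
open Crest.Agent.R017.CubP813 (alr omb omc Te)

/-! ### windows -/

/-- the primary numbers with norm in `[a, b]` -/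
def wnd (a b : ℝ) : Finset Eis := (primBall ⌊b⌋₊).filter (fun k => a ≤ (nm k : ℝ))

lemma mem_wnd {a b : ℝ} (hb : 0 ≤ b) {k : Eis} :
    k ∈ wnd a b ↔ IsPrim k ∧ a ≤ (nm k : ℝ) ∧ (nm k : ℝ) ≤ b := by
  unfold wnd
  rw [Finset.mem_filter, mem_primBall, Nat.le_floor_iff hb]
  tauto

lemma gr_lower {W : ℝ → ℝ} (hW : Wgt W) (hW0 : ∀ x, 0 ≤ W x) {lo hi : ℝ}
    (hW1 : ∀ x, lo ≤ x → x ≤ hi → 1 ≤ W x) (hhi : 0 ≤ hi) {K : ℝ} (hK : 0 < K) (u : Eis → ℂ) :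
    ∑ k ∈ wnd (lo * K) (hi * K), ‖u k‖ ^ 2 ≤ GrP W K u := by
  have h1 : ∑ k ∈ wnd (lo * K) (hi * K), ‖u k‖ ^ 2 ≤
      ∑ k ∈ wnd (lo * K) (hi * K), (if IsPrim k then W (nm k / K) * ‖u k‖ ^ 2 else 0) := by
    refine Finset.sum_le_sum fun k hk => ?_
    obtain ⟨h1, h2, h3⟩ := (mem_wnd (by positivity)).1 hk
    rw [if_pos h1]
    have h4 : 1 ≤ W (nm k / K) :=
      hW1 _ (by rwa [le_div_iff₀ hK]) (by rwa [div_le_iff₀ hK])
    exact le_mul_of_one_le_left (by positivity) h4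
  refine h1.trans ?_
  unfold LB48.GrP
  refine (LB48.summable_wR hW hK (fun k => ‖u k‖ ^ 2)).sum_le_tsum _ fun k _ => ?_
  have := hW0 (nm k / K)
  split_ifs
  · positivity
  · exact le_rfl

lemma sq_lower {W : ℝ → ℝ} (hW : Wgt W) (hW0 : ∀ x, 0 ≤ W x) {lo hi : ℝ}
    (hW1 : ∀ x, lo ≤ x → x ≤ hi → 1 ≤ W x) (hhi : 0 ≤ hi) {K : ℝ} (hK : 0 < K) (α : Eis → ℂ)
    (Q : Eis → Prop) :
    ∑ k ∈ (wnd (lo * K) (hi * K)).filter Q, ‖CS α k‖ ^ 2 ≤ SqQ W K Q α := by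
  have h1 : ∑ k ∈ (wnd (lo * K) (hi * K)).filter Q, ‖CS α k‖ ^ 2 ≤
      ∑ k ∈ (wnd (lo * K) (hi * K)).filter Q, (if IsPrim k ∧ Q k then
        W (nm k / K) * ‖CS α k‖ ^ 2 else 0) := by
    refine Finset.sum_le_sum fun k hk => ?_
    obtain ⟨hk1, hQ⟩ := Finset.mem_filter.1 hk
    obtain ⟨h1, h2, h3⟩ := (mem_wnd (by positivity)).1 hk1
    rw [if_pos ⟨h1, hQ⟩]
    have h4 : 1 ≤ W (nm k / K) :=
      hW1 _ (by rwa [le_div_iff₀ hK]) (by rwa [div_le_iff₀ hK])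
    exact le_mul_of_one_le_left (by positivity) h4
  refine h1.trans ?_
  unfold LBu180.SqQ
  refine (LBu180.summable_SqQ hW hK Q (fun k => ‖CS α k‖ ^ 2)).sum_le_tsum _
    fun k _ => ?_
  have := hW0 (nm k / K)
  split_ifs
  · positivity
  · exact le_rfl

/-! ### the cube of a large prime -/

/-- the structured function does not see the cube of a large prime -/
lemma st_cube {E0 D : ℝ} (hE0 : 0 ≤ E0) {J : Finset (Eis × Eis)}
    (hJ : ∀ x ∈ J, IsPrim x.1 ∧ (nm x.1 : ℝ) ≤ D) (om : Eis × Eis → ℂ)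
    (T : Eis × Eis → Eis → ℂ) {c k : Eis} (hc : IsPP c) (h1 : E0 < nm c) (h2 : D < nm c) :
    StT E0 J om T (k * c ^ 3) = StT E0 J om T k := by
  unfold E2440.StT
  refine Finset.sum_congr rfl fun x hx => ?_
  obtain ⟨hx1, hx2⟩ := hJ x hx
  have h3 : ¬ c ∣ x.1 := fun h => by
    have h4 : (nm c : ℝ) ≤ nm x.1 := by
      exact_mod_cast Div277.nm_le_of_dvd hx1.ne_zero h
    linarith
  rw [GramMono858.sy_shift hc hx1, if_neg h3, GramMono858.filter_shift hc hE0 h1,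
    ← mul_assoc x.2 k, PX764.th_cube hc.isPrim]

/-! ### the embedding -/

section
variable {E0 D E1 lo hi K κ : ℝ} {J : Finset (Eis × Eis)}

/-- the pairs `(c, k) ↦ d³ k c³` -/
lemma embed_fin (hE0 : 0 ≤ E0) (hJ : ∀ x ∈ J, IsPrim x.1 ∧ (nm x.1 : ℝ) ≤ D)
    (om : Eis × Eis → ℂ) (T : Eis × Eis → Eis → ℂ) {d : Eis} (hd : IsPrim d) {B : Finset Eis}
    (hK : 0 < K) (hlo : 0 ≤ lo) (hhi : 0 ≤ hi)
    (hB : ∀ k ∈ B, IsPrim k ∧ CbF k ∧ lo * K ≤ (nm k : ℝ) * (nm d * Real.exp κ) ^ 3 ∧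
      (nm k : ℝ) * (nm d * Real.exp κ) ^ 3 ≤ hi * K)
    (hE : E0 < Real.exp κ) (hDk : D < Real.exp κ) (hE1 : nm d * Real.exp (κ + 2 / 3) ≤ E1) :
    ((shortP 0 (2 / 3) κ).card : ℝ) * ∑ k ∈ B, ‖StT E0 J om T (d ^ 3 * k)‖ ^ 2 ≤
      ∑ r ∈ wnd (lo * K) (Real.exp 2 * hi * K), (tau r : ℝ) *
        ‖if Cut E1 r then StT E0 J om T r else 0‖ ^ 2 := by
  classical
  set A := shortP 0 (2 / 3) κ with hA
  have hAp : ∀ c ∈ A, IsPP c ∧ Real.exp κ < nm c ∧ (nm c : ℝ) ≤ Real.exp (κ + 2 / 3) := by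
    intro c hc
    rw [hA, mem_shortP] at hc
    obtain ⟨h1, h2, h3⟩ := hc
    exact ⟨⟨h1.2, h1.1⟩, by simpa using h2, h3⟩
  have hd0 : d ^ 3 ≠ 0 := pow_ne_zero 3 hd.ne_zero
  have hnd : (1 : ℝ) ≤ nm d := by exact_mod_cast nm_pos.2 hd.ne_zero
  have h0 : ∀ r ∈ wnd (lo * K) (Real.exp 2 * hi * K), r ≠ 0 := fun r hr =>
    ((mem_wnd (by positivity)).1 hr).1.ne_zero
  have hex : Real.exp (κ + 2 / 3) ^ 3 = Real.exp 2 * Real.exp κ ^ 3 := by
    rw [← Real.exp_nat_mul, ← Real.exp_nat_mul, ← Real.exp_add]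
    congr 1
    push_cast
    ring
  have hmem : ∀ k ∈ B, ∀ c ∈ A, d ^ 3 * k * c ^ 3 ∈ wnd (lo * K) (Real.exp 2 * hi * K) ∧
      Cut E1 (d ^ 3 * k * c ^ 3) := by
    intro k hk c hc
    obtain ⟨hkp, hkf, h1, h2⟩ := hB k hk
    obtain ⟨hcp, h3, h4⟩ := hAp c hc
    have hn : (nm (d ^ 3 * k * c ^ 3) : ℝ) = nm k * (nm d * nm c) ^ 3 := by
      rw [nm_mul, nm_mul, nm_pow, nm_pow]
      push_cast
      ring
    have hk0 : (0 : ℝ) ≤ nm k := Nat.cast_nonneg _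
    refine ⟨(mem_wnd (by positivity)).2 ⟨((hd.pow 3).mul hkp).mul (hcp.isPrim.pow 3), ?_, ?_⟩,
      ?_⟩
    · rw [hn]
      refine h1.trans ?_
      gcongr
    · rw [hn]
      calc (nm k : ℝ) * (nm d * nm c) ^ 3 ≤ nm k * (nm d * Real.exp (κ + 2 / 3)) ^ 3 := by
            gcongr
        _ = Real.exp 2 * (nm k * (nm d * Real.exp κ) ^ 3) := by
            rw [mul_pow, hex]; ring
        _ ≤ Real.exp 2 * (hi * K) := by gcongr
        _ = _ := by ring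
    · intro f hf hfd
      have h5 : f ∣ d * c := by
        refine E5Q571.dvd_of_cube_dvd hkp (hd.mul hcp.isPrim) hf hkf ?_
        rw [show k * (d * c) ^ 3 = d ^ 3 * k * c ^ 3 by ring]
        exact hfd
      have h6 : (nm f : ℝ) ≤ nm (d * c) := by
        exact_mod_cast Div277.nm_le_of_dvd (hd.mul hcp.isPrim).ne_zero h5
      rw [nm_mul] at h6
      push_cast at h6
      refine h6.trans (le_trans ?_ hE1)
      gcongr
  have h2 := GramMono858.merge3 (A := A) (𝒦 := B.image (fun k => d ^ 3 * k))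
    (𝒦' := wnd (lo * K) (Real.exp 2 * hi * K)) (fun c hc => (hAp c hc).1.isPrim) h0
    (by
      intro k' hk' c hc
      obtain ⟨k, hk, rfl⟩ := Finset.mem_image.1 hk'
      exact (hmem k hk c hc).1)
    (fun r => ‖if Cut E1 r then StT E0 J om T r else 0‖ ^ 2) (fun r => sq_nonneg _)
  refine le_trans (le_of_eq ?_) h2
  rw [← nsmul_eq_mul, ← Finset.sum_const]
  refine Finset.sum_congr rfl fun c hc => ?_
  rw [Finset.sum_image (fun k _ k' _ h => mul_left_cancel₀ hd0 h)]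
  refine Finset.sum_congr rfl fun k hk => ?_
  rw [if_pos (hmem k hk c hc).2, st_cube hE0 hJ om T (hAp c hc).1 (hE.trans (hAp c hc).2.1)
    (hDk.trans (hAp c hc).2.1)]

/-- **the embedding** -/
theorem embed {ε : ℝ} (hε : 0 < ε) : ∃ C κ₀ : ℝ, 0 ≤ C ∧ 1 ≤ κ₀ ∧
    ∀ {W : ℝ → ℝ}, Wgt W → (∀ x, 0 ≤ W x) → ∀ {lo hi : ℝ}, 0 ≤ lo → 0 ≤ hi →
    (∀ x, lo ≤ x → x ≤ Real.exp 2 * hi → 1 ≤ W x) →
    ∀ (P E0 D E1 K κ : ℝ) (J : Finset (Eis × Eis)) (om : Eis × Eis → ℂ)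
      (T : Eis × Eis → Eis → ℂ) (d : Eis) (B : Finset Eis), 1 ≤ P → 0 < K → hi * K ≤ P →
      0 ≤ E0 → (∀ x ∈ J, IsPrim x.1 ∧ (nm x.1 : ℝ) ≤ D) → IsPrim d →
      (∀ k ∈ B, IsPrim k ∧ CbF k ∧ lo * K ≤ (nm k : ℝ) * (nm d * Real.exp κ) ^ 3 ∧
        (nm k : ℝ) * (nm d * Real.exp κ) ^ 3 ≤ hi * K) →
      κ₀ ≤ κ → E0 < Real.exp κ → D < Real.exp κ → nm d * Real.exp (κ + 2 / 3) ≤ E1 →
      ∑ k ∈ B, ‖StT E0 J om T (d ^ 3 * k)‖ ^ 2 ≤ C * P ^ ε * (κ * Real.exp (-κ)) *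
        GrP W K (fun r => if Cut E1 r then StT E0 J om T r else 0) := by
  obtain ⟨c, hc, κ₀, hκ₀, Hc⟩ := card_shortP (a := 0) (b := 2 / 3) (by norm_num)
  obtain ⟨Ct, hCt, Ht⟩ := Div277.tau_le_rpow hε
  refine ⟨c⁻¹ * (Ct * Real.exp 2 ^ ε), κ₀, by positivity, hκ₀, ?_⟩
  intro W hW hW0 lo hi hlo hhi hW1 P E0 D E1 K κ J om T d B hP hK hKP hE0 hJ hd hB hκ hE hDk hE1
  have hκ1 : 0 < κ := by linarith
  have h1 := embed_fin (E1 := E1) hE0 hJ om T hd hK hlo hhi hB hE hDk hE1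
  have h2 := Hc κ hκ
  have h3 := gr_lower hW hW0 hW1 (by positivity) hK
    (fun r => if Cut E1 r then StT E0 J om T r else 0)
  set G := GrP W K (fun r => if Cut E1 r then StT E0 J om T r else 0) with hG
  set Sm := ∑ k ∈ B, ‖StT E0 J om T (d ^ 3 * k)‖ ^ 2 with hSm
  have hSm0 : 0 ≤ Sm := Finset.sum_nonneg fun _ _ => sq_nonneg _
  have hP0 : 0 < P := by linarith
  have hτ : 0 ≤ Ct * (Real.exp 2 * P) ^ ε := by positivity
  have h4 : ∑ r ∈ wnd (lo * K) (Real.exp 2 * hi * K), (tau r : ℝ) *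
        ‖if Cut E1 r then StT E0 J om T r else 0‖ ^ 2 ≤ Ct * (Real.exp 2 * P) ^ ε * G := by
    calc _ ≤ ∑ r ∈ wnd (lo * K) (Real.exp 2 * hi * K), (Ct * (Real.exp 2 * P) ^ ε) *
        ‖if Cut E1 r then StT E0 J om T r else 0‖ ^ 2 := by
          refine Finset.sum_le_sum fun r hr => ?_
          obtain ⟨hr1, hr2, hr3⟩ := (mem_wnd (by positivity)).1 hr
          refine mul_le_mul_of_nonneg_right ?_ (sq_nonneg _)
          refine (Ht r hr1.ne_zero).trans ?_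
          refine mul_le_mul_of_nonneg_left (Real.rpow_le_rpow (Nat.cast_nonneg _) ?_ hε.le)
            (by linarith)
          refine hr3.trans ?_
          rw [mul_assoc]
          gcongr
      _ = Ct * (Real.exp 2 * P) ^ ε * ∑ r ∈ wnd (lo * K) (Real.exp 2 * hi * K),
        ‖if Cut E1 r then StT E0 J om T r else 0‖ ^ 2 := by rw [Finset.mul_sum]
      _ ≤ _ := mul_le_mul_of_nonneg_left h3 hτ
  have h5 : c * (Real.exp κ / κ) * Sm ≤ Ct * (Real.exp 2 * P) ^ ε * G :=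
    (mul_le_mul_of_nonneg_right h2 hSm0).trans (h1.trans h4)
  have h6 : Sm = c * (Real.exp κ / κ) * Sm * (c⁻¹ * (κ * Real.exp (-κ))) := by
    rw [Real.exp_neg]
    have := Real.exp_ne_zero κ
    field_simp
  rw [h6]
  calc c * (Real.exp κ / κ) * Sm * (c⁻¹ * (κ * Real.exp (-κ))) ≤
      Ct * (Real.exp 2 * P) ^ ε * G * (c⁻¹ * (κ * Real.exp (-κ))) :=
        mul_le_mul_of_nonneg_right h5 (by positivity)
    _ = _ := by
        rw [Real.mul_rpow (Real.exp_pos _).le hP0.le]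
        ring

end

end Crest.Agent.R017.Et813
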