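import Crest.Agent.R017.NEh_551
import Crest.Agent.R017.NTc_813
import Crest.Agent.R017.NEd_180

/-!
# Row 17, FlatNE NumEq (helper83): the Gram number as a predicate of the near leaf

* `NumGk b C₀ Gf` : the mean squares of the rough term over the dyadic blocks of frequencies
* `Gfz s` : helper904's `Gs` (and helper708's small blocks), loss `K ^ s`
* `gfz_eq` : `Gfz s p z = X ^ (Gxs K κ m s' - K)`
-/

set_option autoImplicit false
set_option linter.unusedVariables false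

noncomputable section

open Complex
open scoped ComplexConjugate Classical

namespace Crest.Agent.R017.NEq83

open Crest.Agent.R012 Crest.Agent.R012.Eis
open Crest.Agent.R012.Weight600 (osc pw)
open Crest.Agent.R017.C70 (JW CbF)
open Crest.Agent.R017.E2440 (StE)
open Crest.Agent.R017.I1146 (omr)
open Crest.Agent.R017.Win813 (WK)
open Crest.Agent.R017.RGw813 (T9 bt)
open Crest.Agent.R017.LBo813 (Om)
open Crest.Agent.R017.Et813 (wnd)
open Crest.Agent.R017.NEg551 (LBq)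

/-- **the Gram number**: the rough term over the dyadic blocks `z ≤ nm k ≤ 2 z`, `k` cube-free -/
def NumGk (b C₀ : ℝ) (Gf : LBq → ℝ → ℝ) (p : LBq) (α : Eis → ℂ) (Rn : ℝ) : Prop :=
  ∀ q ∈ T9, ∀ (t X' : ℝ) (φ : ℝ → ℝ), 0 < X' → |Real.log X' - Real.log p.X| ≤ p.R + 1 →
    WK p.Cw p.η p.Aw φ → (∀ u, φ u ≠ 0 → |u - Real.log X'| ≤ p.η / 2) →
    ∀ z, 1 ≤ z → z ≤ C₀ * p.K / p.E1 ^ 3 → ∀ c, IsPrim c → z * (nm c : ℝ) ^ 3 ≤ b * p.K →
    ∑ k ∈ (wnd z (2 * z)).filter CbF,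
      ‖StE p.E0 (JW p.D (1 / 10) p.N₁) (omr (Om (p.N₁ / 2) p.N₁))
        (fun n => bt φ α q n * pw t (nm n)) (c ^ 3 * k)‖ ^ 2 ≤
      (p.K / p.X) * (Rn * (1 + |t|) ^ p.J) * Gf p z

/-- the number of the blocks, loss `K ^ s` -/
def Gfz (s : ℝ) (p : LBq) (z : ℝ) : ℝ :=
  max (max (p.K ^ (26 / 15 : ℝ)) (z ^ (1 / 3 : ℝ) * p.K ^ (7 / 10 : ℝ) * p.X ^ (17 / 18 : ℝ)))
    (z ^ (2 / 3 : ℝ) * p.X ^ (13 / 9 : ℝ)) / (p.K * p.X) *
    max 1 (p.K ^ (1 / 40 : ℝ) * z ^ (-(1 / 3) : ℝ)) * p.K ^ s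

/-- its exponent (`904`'s `Gs`, minus `m`, plus the small blocks) -/
def Gxs (K κ m s : ℝ) : ℝ :=
  max (max (26 / 15 * K) (κ / 3 + 7 / 10 * K + 17 / 18 * m)) (2 / 3 * κ + 13 / 9 * m) - m +
    max 0 (K / 40 - κ / 3) + s

lemma max_rpow {X a b : ℝ} (hX : 1 ≤ X) : max (X ^ a) (X ^ b) = X ^ max a b := by
  rcases le_total a b with h | h
  · rw [max_eq_right h, max_eq_right (Real.rpow_le_rpow_of_exponent_le hX h)]
  · rw [max_eq_left h, max_eq_left (Real.rpow_le_rpow_of_exponent_le hX h)]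

/-- **the number in powers of `X`** -/
theorem gfz_eq {X K m κ s : ℝ} {p : LBq} (hX : 1 ≤ X) (hK : p.K = X ^ K) (hm : p.X = X ^ m) :
    Gfz s p (X ^ κ) = X ^ (Gxs K κ m (s * K) - K) := by
  have hX0 : 0 < X := by linarith
  unfold Gfz Gxs
  rw [hK, hm]
  simp only [← Real.rpow_mul hX0.le, ← Real.rpow_add hX0]
  rw [max_rpow hX, max_rpow hX, ← Real.rpow_sub hX0]
  have e1 : (1 : ℝ) = X ^ (0 : ℝ) := (Real.rpow_zero X).symm
  have e2 : max (1 : ℝ) (X ^ (K * (1 / 40) + κ * (-(1 / 3)))) =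
      X ^ max 0 (K * (1 / 40) + κ * (-(1 / 3))) := by
    rw [← max_rpow hX, Real.rpow_zero]
  rw [e2, ← Real.rpow_add hX0, ← Real.rpow_add hX0]
  congr 1
  have e3 : K * (1 / 40) + κ * (-(1 / 3)) = K / 40 - κ / 3 := by ring
  have e4 : max (max (K * (26 / 15)) (κ * (1 / 3) + K * (7 / 10) + m * (17 / 18)))
      (κ * (2 / 3) + m * (13 / 9)) =
      max (max (26 / 15 * K) (κ / 3 + 7 / 10 * K + 17 / 18 * m)) (2 / 3 * κ + 13 / 9 * m) := by
    congr 1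
    · congr 1 <;> ring
    · ring
  rw [e3, e4]
  ring

end Crest.Agent.R017.NEq83
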