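import Crest.Agent.R017.P1Ng_904

/-!
# Row 17, FlatNE: the class-form Gram sum at near lists from the claims of the leaf (helper73)

Homogeneous, `k` = family, `q` = family of the Gram sum, `p` = length of the list, `v` = level,
`t` = tolerance, `s` = loss of the claims. Room `Gs` (helper904). The claims are only
`min (flat, slope + F3)`, so the exponent `hN` of `H` does not depend on the level.

* `thN_le` : `2 hN + 3 v ≤ 2 q`, `hN ≤ 0`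
* `c0_n`, `c1_n` : the lines of helper90's `LnT`
* `coreGn`, `coreGn2` : the structured part, `δ ≤ p - 3/4 k`
-/

set_option autoImplicit false
set_option linter.unusedVariables false

noncomputable section

namespace Crest.Agent.R017.P1N73

open Crest.Agent.R017.P1Q904 (gQ gQ_cases)
open Crest.Agent.R017.P1N904 (Gs Gs_ge lw0 lw1)

/-- the near lists, every block -/
structure Dl (k p v q t : ℝ) : Prop where
  k0 : 0 < k
  t0 : 0 ≤ t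
  t1 : t ≤ k / 50000
  p0 : 3 / 4 * k ≤ p + t
  p1 : p ≤ 4 / 5 * k + t
  S : 5 * (v + p) ≤ 7 * k + t
  v0 : 0 ≤ v
  q1 : q ≤ k + t

/-- the exponent of `H` -/
def hN (k q p δ : ℝ) : ℝ := 2 * q + 3 * p + max k (4 / 3 * (p - δ)) - 3 * Gs k q p

lemma hN_ge (k q p δ : ℝ) : 2 * q + 3 * p + k - 3 * Gs k q p ≤ hN k q p δ ∧
    2 * q + 3 * p + 4 / 3 * (p - δ) - 3 * Gs k q p ≤ hN k q p δ := by
  unfold hN
  have h1 := le_max_left k (4 / 3 * (p - δ))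
  have h2 := le_max_right k (4 / 3 * (p - δ))
  constructor <;> linarith

lemma hN_cases (k q p δ : ℝ) : hN k q p δ = 2 * q + 3 * p + k - 3 * Gs k q p ∨
    hN k q p δ = 2 * q + 3 * p + 4 / 3 * (p - δ) - 3 * Gs k q p := by
  unfold hN
  rcases max_choice k (4 / 3 * (p - δ)) with h | h
  · left; rw [h]
  · right; rw [h]

lemma hN_lip (k q p x y : ℝ) : hN k q p x ≤ hN k q p y + 4 / 3 * |x - y| := by
  unfold hN
  have h0 := abs_nonneg (x - y)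
  have h1 := neg_abs_le (x - y)
  have h2 := le_max_left k (4 / 3 * (p - y))
  have h3 := le_max_right k (4 / 3 * (p - y))
  have h4 : max k (4 / 3 * (p - x)) ≤ max k (4 / 3 * (p - y)) + 4 / 3 * |x - y| :=
    max_le (by linarith) (by linarith)
  linarith

lemma coreTn {k p v q t s δ b l h G T : ℝ} (k0 : 0 < k) (t0 : 0 ≤ t) (t1 : t ≤ k / 50000)
    (p0 : 3 / 4 * k ≤ p + t) (p1 : p ≤ 4 / 5 * k + t) (S : 5 * (v + p) ≤ 7 * k + t)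
    (δ0 : 0 ≤ δ) (b0 : 0 ≤ b)
    (hG1 : 26 / 15 * k ≤ G) (hG2 : q / 3 + 7 / 10 * k + 17 / 18 * p ≤ G)
    (hG3 : 2 / 3 * q + 13 / 9 * p ≤ G)
    (hl : l ≤ v - 2 * δ + t)
    (hh1 : 2 * q + 3 * p + k - 3 * G ≤ h + t) (hh2 : 2 * q + 3 * p + 4 / 3 * (p - δ) - 3 * G ≤ h + t)
    (hT1 : T ≤ 4 / 3 * (p - δ - b) + (k + l + b) / 3 + b + s ∨
      T ≤ 4 / 3 * (p - δ - b) + (k + l + b) / 3 + (4 * (p - δ - b) - 3 * k) / 9 + b + s)
    (hT2 : T ≤ 2 * (p - δ - b) + b + s ∨ T ≤ 4 / 3 * (p - δ - b) + (k + l + b) / 3 + b + s) :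
    2 / 3 * q - v / 3 + T + 2 * δ - p / 3 ≤ G + 2 * t + s ∧
    2 / 3 * q - (h + v) / 3 + T + 2 * δ - p / 3 ≤ G + 2 * t + s ∧
    2 / 3 * v + T + 2 * δ - p / 3 ≤ G + 2 * t + s := by
  refine ⟨?_, ?_, ?_⟩
  · rcases hT1 with h1 | h1 <;> linarith
  · rcases hT1 with h1 | h1 <;> linarith
  · rcases hT2 with h1 | h1 <;> linarith

lemma coreT1n {k p v q t s δ b l h G T : ℝ} (k0 : 0 < k) (t0 : 0 ≤ t) (t1 : t ≤ k / 50000)
    (p0 : 3 / 4 * k ≤ p + t) (p1 : p ≤ 4 / 5 * k + t) (S : 5 * (v + p) ≤ 7 * k + t)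
    (δ0 : 0 ≤ δ) (b0 : 0 ≤ b)
    (hG1 : 26 / 15 * k ≤ G) (hG2 : q / 3 + 7 / 10 * k + 17 / 18 * p ≤ G)
    (hG3 : 2 / 3 * q + 13 / 9 * p ≤ G)
    (hl : l ≤ v - 2 * δ + t)
    (hh1 : 2 * q + 3 * p + k - 3 * G ≤ h + t) (hh2 : 2 * q + 3 * p + 4 / 3 * (p - δ) - 3 * G ≤ h + t)
    (hh : h ≤ 2 * q + 3 * p + k - 3 * G + t ∨ h ≤ 2 * q + 3 * p + 4 / 3 * (p - δ) - 3 * G + t)
    (hT1 : T ≤ 4 / 3 * (p - δ - b) + (k + l + b) / 3 + b + s ∨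
      T ≤ 4 / 3 * (p - δ - b) + (k + l + b) / 3 + (4 * (p - δ - b) - 3 * k) / 9 + b + s) :
    2 / 3 * q - (h + v) / 3 + T + 2 * δ + (v - 2 * δ - l) / 3 - p / 3 ≤ G + 3 * t + s ∧
    h / 3 + 2 / 3 * v + T + 2 * δ + (v - 2 * δ - l) / 3 - p / 3 ≤ G + 3 * t + s ∧
    2 / 3 * h + 7 / 6 * v - q / 3 + T + 2 * δ + (v - 2 * δ - l) / 3 - p / 3 ≤ G + 3 * t + s := by
  refine ⟨?_, ?_, ?_⟩
  · rcases hT1 with h1 | h1 <;> linarith
  · rcases hh with h2 | h2 <;> rcases hT1 with h1 | h1 <;> linarith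
  · rcases hh with h2 | h2 <;> rcases hT1 with h1 | h1 <;> linarith

lemma coreHn {k p v q t δ h G : ℝ} (k0 : 0 < k) (t0 : 0 ≤ t) (t1 : t ≤ k / 50000)
    (p0 : 3 / 4 * k ≤ p + t) (p1 : p ≤ 4 / 5 * k + t) (S : 5 * (v + p) ≤ 7 * k + t) (δ0 : 0 ≤ δ)
    (hG1 : 26 / 15 * k ≤ G) (hG2 : q / 3 + 7 / 10 * k + 17 / 18 * p ≤ G)
    (hG3 : 2 / 3 * q + 13 / 9 * p ≤ G)
    (hh : h ≤ 2 * q + 3 * p + k - 3 * G ∨ h ≤ 2 * q + 3 * p + 4 / 3 * (p - δ) - 3 * G) :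
    2 * h + 3 * v ≤ 2 * q + 5 * t ∧ h ≤ 2 * t := by
  rcases hh with h2 | h2 <;> constructor <;> linarith

set_option maxHeartbeats 8000000 in
lemma coreRn {k p v q t w δ e i n S h g G : ℝ} (k0 : 0 < k) (t0 : 0 ≤ t) (t1 : t ≤ k / 50000)
    (p0 : 3 / 4 * k ≤ p + t) (p1 : p ≤ 4 / 5 * k + t) (hS : 5 * (v + p) ≤ 7 * k + t)
    (v0 : 0 ≤ v) (q1 : q ≤ k + t) (δ0 : 0 ≤ δ)
    (δ1 : δ ≤ p - 3 / 4 * k + 4 * t)
    (hG1 : 26 / 15 * k ≤ G) (hG2 : q / 3 + 7 / 10 * k + 17 / 18 * p ≤ G)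
    (hG3 : 2 / 3 * q + 13 / 9 * p ≤ G)
    (hh : h ≤ 2 * q + 3 * p + k - 3 * G ∨ h ≤ 2 * q + 3 * p + 4 / 3 * (p - δ) - 3 * G)
    (hw : w ≤ v + h + t) (hL : 0 ≤ w + v - q - δ + t) (e0 : 0 ≤ e) (e1 : e ≤ k / 64 + t)
    (hn' : n ≤ p - δ - e + t) (i0 : 0 ≤ i) (hi : i ≤ w + p - q + t)
    (s2 : 3 * S ≤ n) (s3 : 2 * S ≤ i)
    (hg : g = (w + v - q - δ) / 3 ∨ g = (w + v - q - δ) - (w + p - q) / 2 ∨
      g = 7 / 9 * (w + v - q - δ) - 2 / 3 * (w + p - q) ∨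
      g = 11 / 18 * (w + v - q - δ) - (w + p - q) / 3) :
    2 / 3 * q - w / 3 + 5 / 3 * δ + e + g + 2 / 3 * (p - δ) + (i + 4 / 5 * S) +
      (w + p - q - i) / 3 + k / 500 ≤ G ∧
    2 / 3 * q - w / 3 + 5 / 3 * δ + e + g + 2 / 3 * (p - δ) + 7 / 20 * k + k / 500 ≤ G := by
  rcases hh with hh' | hh' <;>
  rcases hg with rfl | rfl | rfl | rfl <;> constructor <;> linarith

/-- the conditions on `H` -/
theorem thN_le {k p v q t δ : ℝ} (hD : Dl k p v q t) (δ0 : 0 ≤ δ) :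
    2 * hN k q p δ + 3 * v ≤ 2 * q + 5 * t ∧ hN k q p δ ≤ 2 * t := by
  obtain ⟨h1, h2, h3⟩ := Gs_ge k q p
  refine coreHn hD.k0 hD.t0 hD.t1 hD.p0 hD.p1 hD.S δ0 h1 h2 h3 ?_
  rcases hN_cases k q p δ with h | h
  · exact Or.inl h.le
  · exact Or.inr h.le

lemma tn_cases {k n l b T s : ℝ}
    (hT : T ≤ 4 / 3 * n + (k + l + b) / 3 + max 0 ((4 * n - 3 * k) / 9) + b + s) :
    T ≤ 4 / 3 * n + (k + l + b) / 3 + b + s ∨
      T ≤ 4 / 3 * n + (k + l + b) / 3 + (4 * n - 3 * k) / 9 + b + s := by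
  rcases max_choice 0 ((4 * n - 3 * k) / 9) with h | h
  · left; rw [h] at hT; linarith
  · right; rw [h] at hT; linarith

lemma tf_cases {k n l b T s : ℝ} (hT : T ≤ max (2 * n) (4 / 3 * n + (k + l + b) / 3) + b + s) :
    T ≤ 2 * n + b + s ∨ T ≤ 4 / 3 * n + (k + l + b) / 3 + b + s := by
  rcases max_choice (2 * n) (4 / 3 * n + (k + l + b) / 3) with h | h
  · left; rw [h] at hT; linarith
  · right; rw [h] at hT; linarith

/-- **`c0` of `LnT`**, claims `min (flat, slope + F3)` at the level `l + b`, loss `b + s` -/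
theorem c0_n {k p v q t s δ b l T h : ℝ} (hD : Dl k p v q t) (δ0 : 0 ≤ δ) (b0 : 0 ≤ b)
    (hl : l ≤ v - 2 * δ + t)
    (hT1 : T ≤ 4 / 3 * (p - δ - b) + (k + l + b) / 3 + max 0 ((4 * (p - δ - b) - 3 * k) / 9) +
      b + s)
    (hT2 : T ≤ max (2 * (p - δ - b)) (4 / 3 * (p - δ - b) + (k + l + b) / 3) + b + s)
    (h1 : hN k q p δ - t ≤ h) :
    lw0 q v h + T + 2 * δ - p / 3 ≤ Gs k q p + 2 * t + s := by
  obtain ⟨g1, g2, g3⟩ := Gs_ge k q p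
  obtain ⟨e1, e2⟩ := hN_ge k q p δ
  obtain ⟨a1, a2, a3⟩ := coreTn hD.k0 hD.t0 hD.t1 hD.p0 hD.p1 hD.S δ0 b0 g1 g2 g3 hl
    (by linarith : 2 * q + 3 * p + k - 3 * Gs k q p ≤ h + t) (by linarith) (tn_cases hT1)
    (tf_cases hT2)
  have hw : lw0 q v h ≤ Gs k q p + 2 * t + s - (T + 2 * δ - p / 3) :=
    max_le (by linarith) (max_le (by linarith) (by linarith))
  linarith

/-- **`c1` of `LnT`** -/
theorem c1_n {k p v q t s δ b l T h : ℝ} (hD : Dl k p v q t) (δ0 : 0 ≤ δ) (b0 : 0 ≤ b)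
    (hl : l ≤ v - 2 * δ + t)
    (hT1 : T ≤ 4 / 3 * (p - δ - b) + (k + l + b) / 3 + max 0 ((4 * (p - δ - b) - 3 * k) / 9) +
      b + s)
    (h1 : hN k q p δ - t ≤ h) (h2 : h ≤ hN k q p δ + t) :
    lw1 q v h + T + 2 * δ + (v - 2 * δ - l) / 3 - p / 3 ≤ Gs k q p + 3 * t + s := by
  obtain ⟨g1, g2, g3⟩ := Gs_ge k q p
  obtain ⟨e1, e2⟩ := hN_ge k q p δ
  obtain ⟨a1, a2, a3⟩ := coreT1n hD.k0 hD.t0 hD.t1 hD.p0 hD.p1 hD.S δ0 b0 g1 g2 g3 hl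
    (by linarith : 2 * q + 3 * p + k - 3 * Gs k q p ≤ h + t) (by linarith)
    (by
      rcases hN_cases k q p δ with h3 | h3
      · exact Or.inl (by linarith)
      · exact Or.inr (by linarith)) (tn_cases hT1)
  have hw : lw1 q v h ≤ Gs k q p + 3 * t + s - (T + 2 * δ + (v - 2 * δ - l) / 3 - p / 3) :=
    max_le (by linarith) (max_le (by linarith) (by linarith))
  linarith

/-- **the structured part, second form** (`w = log (H V)`, `S` bounds the smallest lump) -/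
theorem coreGn {k p v q t w δ e i n S : ℝ} (hD : Dl k p v q t) (δ0 : 0 ≤ δ)
    (δ1 : δ ≤ p - 3 / 4 * k + 4 * t)
    (hw : w ≤ v + hN k q p δ + t) (hL : 0 ≤ w + v - q - δ + t) (e0 : 0 ≤ e)
    (e1 : e ≤ k / 64 + t) (hn' : n ≤ p - δ - e + t) (i0 : 0 ≤ i) (hi : i ≤ w + p - q + t)
    (s2 : 3 * S ≤ n) (s3 : 2 * S ≤ i) :
    2 / 3 * q - w / 3 + 5 / 3 * δ + e + gQ (w + v - q - δ) (w + p - q) + 2 / 3 * (p - δ) +
      (i + 4 / 5 * S) + (w + p - q - i) / 3 + k / 500 ≤ Gs k q p := by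
  obtain ⟨g1, g2, g3⟩ := Gs_ge k q p
  exact (coreRn hD.k0 hD.t0 hD.t1 hD.p0 hD.p1 hD.S hD.v0 hD.q1 δ0 δ1 g1 g2 g3
    (by
      rcases hN_cases k q p δ with h3 | h3
      · exact Or.inl h3.le
      · exact Or.inr h3.le) hw hL e0 e1 hn' i0 hi s2 s3
    (gQ_cases (w + v - q - δ) (w + p - q))).1

/-- the principal part -/
theorem coreGn2 {k p v q t w δ e : ℝ} (hD : Dl k p v q t) (δ0 : 0 ≤ δ)
    (δ1 : δ ≤ p - 3 / 4 * k + 4 * t)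
    (hw : w ≤ v + hN k q p δ + t) (hL : 0 ≤ w + v - q - δ + t) (e0 : 0 ≤ e)
    (e1 : e ≤ k / 64 + t) (he : e ≤ p - δ + t) (hi : 0 ≤ w + p - q + t) :
    2 / 3 * q - w / 3 + 5 / 3 * δ + e + gQ (w + v - q - δ) (w + p - q) + 2 / 3 * (p - δ) +
      max 0 ((w + p - q) / 3) + k / 500 ≤ Gs k q p := by
  obtain ⟨g1, g2, g3⟩ := Gs_ge k q p
  obtain ⟨-, hN0⟩ := thN_le hD δ0
  have hc : hN k q p δ ≤ 2 * q + 3 * p + k - 3 * Gs k q p ∨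
      hN k q p δ ≤ 2 * q + 3 * p + 4 / 3 * (p - δ) - 3 * Gs k q p := by
    rcases hN_cases k q p δ with h3 | h3
    · exact Or.inl h3.le
    · exact Or.inr h3.le
  have hM : max 0 ((w + p - q) / 3) ≤ 7 / 20 * k := by
    obtain ⟨k0, t0, t1, p0, p1, S, v0, q1⟩ := hD
    rcases hc with hc | hc
    · exact max_le (by linarith) (by linarith)
    · exact max_le (by linarith) (by linarith)
  have := (coreRn (n := p - δ - e + t) (i := 0) (S := 0) hD.k0 hD.t0 hD.t1 hD.p0 hD.p1 hD.S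
    hD.v0 hD.q1 δ0 δ1 g1 g2 g3 hc hw hL e0 e1 le_rfl le_rfl (by linarith)
    (by linarith) (by linarith)
    (gQ_cases (w + v - q - δ) (w + p - q))).2
  linarith

end Crest.Agent.R017.P1N73
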