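import Crest.Agent.R017.RuleE_545
import Crest.Agent.R017.ProvI_71

/-!
# Row 17, T.7: transfer of analytic rules with base maps (helper848)

`ruleBGd`, `ruleExd` : helper545's `ruleBGc`, `ruleExc`; the premise `j` ranges over the children
of `rb j X ps` (for example the list with the first two lumps replaced), its hypothesis over the
shortenings of the side `ub j`; the parent condition is an arbitrary predicate.
-/

set_option autoImplicit false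

noncomputable section

open Set Filter Topology

namespace Crest.Agent.R017.RuleM545

open Crest.Agent.R017.XG702 (Pcs BG Loc)
open Crest.Agent.R017.Prov71
open Crest.Agent.R017.XP699
open Crest.Agent.R017.ER911 (Ok Sh)

variable {Lam Pc : Type*} {D : Pcs Pc Kd} {cost : Pc → Pc → ℝ} {Θ : Type*}

/-- the analytic rule with base maps `rb` and parent condition `Hp` -/
def HRcB (D : Pcs Pc Kd) (cost : Pc → Pc → ℝ) {ι : Type*} (Ψ : Lam → ℝ → List Pc → ℝ)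
    (Φ : ι → Lam → ℝ → List Pc → ℝ) (rb : ι → ℝ → List Pc → List Pc)
    (G F : ι → (Fin 4 → ℝ) → Θ → ℝ) (Hp : ℝ → ℝ → ℝ → List Pc → Prop) (A : (Fin 2 → ℝ) → ℝ)
    (zl : ι → Prop) (cl : ℝ) : Prop :=
  ∀ (lam : Lam) (N : ℕ) (c₀ : ℝ), 1 ≤ c₀ → ∃ B₀ : ℝ, 0 ≤ B₀ ∧ ∀ (ε M : ℝ), 0 < ε →
      0 ≤ M → ∃ C r J X₁ : ℝ, 0 ≤ C ∧ 0 ≤ r ∧ 0 ≤ J ∧
      ∀ X : ℝ, 3 ≤ X → X₁ ≤ X → ∀ (k : ℝ) (ps : List Pc), 0 ≤ k → k ≤ c₀ * Real.log X →
      ps.length ≤ N → (∀ p ∈ ps, 0 ≤ D.len p ∧ D.len p ≤ c₀ * Real.log X) →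
      (∀ p ∈ ps, D.s2 p ≤ X ^ c₀) → Hp ε X k ps →
      ∀ Bd : ℝ, 0 ≤ Bd →
      (∀ (j : ι) (θ : Θ) (l : ℝ) (ps' : List Pc), 0 ≤ l → l ≤ cl * Real.log X →
        List.Forall₂ (Chd D cost r (C * X ^ B₀)) ps' (rb j X ps) →
        G j (xv D X k (rb j X ps) l ps') θ ≤ ε →
        (zl j → ∀ p ∈ ps', D.lump p → D.len p ≤ l + ε * Real.log X) →
        Φ j lam l ps' ≤ Bd * cst cost ps' (rb j X ps) ^ M *
          X ^ F j (xv D X k (rb j X ps) l ps') θ) →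
      Ψ lam k ps ≤ C * X ^ ε * (ps.map D.s1).prod ^ J *
        (X ^ A ![k / Real.log X, LL D ps / Real.log X] + Bd)

/-- the base map `rb` sends lists near `u` to lists near `ub` -/
def BaseOK (D : Pcs Pc Kd) {n : ℕ} (rb : ℝ → List Pc → List Pc) (u ub : Fin n → ℝ) : Prop :=
  ∀ σ : ℝ, 0 < σ → ∃ ρ : ℝ, 0 < ρ ∧ ∀ X : ℝ, 3 ≤ X → ∀ (f : Fin n → Pc) (gs : List Pc),
    (∀ i, D.lump (f i) ∧ |D.nl X (f i) - u i| ≤ ρ) → ∃ f' : Fin n → Pc,
      rb X (List.ofFn f ++ gs) = List.ofFn f' ++ gs ∧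
      ∀ i, D.lump (f' i) ∧ |D.nl X (f' i) - ub i| ≤ σ ∧
        (0 ≤ D.len (f i) → 0 ≤ D.len (f' i)) ∧ D.s1 (f' i) = D.s1 (f i) ∧
        D.s2 (f' i) = D.s2 (f i)

/-- the identity is a base map -/
lemma baseOK_id {n : ℕ} (u : Fin n → ℝ) : BaseOK D (fun _ ps => ps) u u :=
  fun σ hσ => ⟨σ, hσ, fun _ _ f _ h => ⟨f, rfl, fun i => ⟨(h i).1, (h i).2, id, rfl, rfl⟩⟩⟩

/-- the parent condition holds near `(κ, u, w)` -/
def ParOK (D : Pcs Pc Kd) {n : ℕ} (Hp : ℝ → ℝ → ℝ → List Pc → Prop) (κ : ℝ) (u : Fin n → ℝ)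
    (w : Kd → ℝ) : Prop :=
  ∀ ε : ℝ, 0 < ε → ∃ ρ : ℝ, 0 < ρ ∧ ∀ X : ℝ, 3 ≤ X → ∀ (k : ℝ) (f : Fin n → Pc) (gs : List Pc),
    0 ≤ k → |k / Real.log X - κ| ≤ ρ → (∀ i, D.lump (f i) ∧ |D.nl X (f i) - u i| ≤ ρ) →
    (∀ t, |D.mass X gs t - w t| ≤ ρ) → (∀ q ∈ List.ofFn f ++ gs, 0 ≤ D.len q) →
    Hp ε X k (List.ofFn f ++ gs)

set_option maxHeartbeats 3200000 in
/-- **the transfer rule with base maps** -/
theorem ruleBGd [PseudoMetricSpace Θ] [CompactSpace Θ] {ι : Type*} [Finite ι]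
    {Ψ : Lam → ℝ → List Pc → ℝ} {Φ : ι → Lam → ℝ → List Pc → ℝ}
    (hcost : ∀ p' p, 1 ≤ cost p' p) (hs1 : ∀ p, 1 ≤ D.s1 p)
    {G F : ι → (Fin 4 → ℝ) → Θ → ℝ} (hG : ∀ j, Continuous fun x : (Fin 4 → ℝ) × Θ => G j x.1 x.2)
    (hF : ∀ j, Continuous fun x : (Fin 4 → ℝ) × Θ => F j x.1 x.2)
    {A : (Fin 2 → ℝ) → ℝ} (hA : Continuous A)
    {zl : ι → Prop} {cl : ℝ} {rb : ι → ℝ → List Pc → List Pc}
    {Hp : ℝ → ℝ → ℝ → List Pc → Prop}
    (hmono : ∀ lam l l' ps, l ≤ l' → Ψ lam l ps ≤ Ψ lam l' ps)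
    (hrule : HRcB D cost Ψ Φ rb G F Hp A zl cl)
    (triv : ∀ (j : ι) (lam : Lam) (N : ℕ), ∃ C T : ℝ, 0 ≤ C ∧ 0 ≤ T ∧
      ∀ (l : ℝ) (ps : List Pc), 0 ≤ l → ps.length ≤ N → (∀ p ∈ ps, 0 ≤ D.len p) →
      Φ j lam l ps ≤ C * Real.exp (T * (l + LL D ps)))
    {κ : ℝ} {n : ℕ} {u : Fin n → ℝ} {ub : ι → Fin n → ℝ} {m a E : ℝ} (hκ : 0 ≤ κ)
    (hu0 : ∀ i, 0 ≤ u i) (hub0 : ∀ j i, 0 ≤ ub j i) (hm : 0 ≤ m) (ha : 0 ≤ a)
    (hrb : ∀ j, BaseOK D (rb j) u (ub j)) (hHp : ParOK D Hp κ u (wt m a))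
    (hE : A ![κ, (∑ i, u i) + m + a] ≤ E)
    (hch : ∀ (j : ι) (θ : Θ) (u' : Fin n → ℝ) (m' a' l : ℝ), (∀ i, 0 ≤ u' i) →
      (∀ i, u' i ≤ ub j i) → 0 ≤ m' → m' ≤ m → 0 ≤ a' →
      a' ≤ a → 0 ≤ l → l ≤ cl →
      G j ![κ, (∑ i, ub j i) + m + a, l, (∑ i, u' i) + m' + a'] θ ≤ 0 →
      (zl j → ∀ i, u' i ≤ l) →
      BG D (Φ j) l (List.ofFn u') (wt m' a')
        (E + F j ![κ, (∑ i, ub j i) + m + a, l, (∑ i, u' i) + m' + a'] θ)) :
    BG D Ψ κ (List.ofFn u) (wt m a) E := by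
  intro ε hε
  obtain ⟨n₀, hn₀⟩ : ∃ x : ℝ, x = (∑ i, u i) + m + a := ⟨_, rfl⟩
  rw [← hn₀] at hE
  have husum : 0 ≤ ∑ i, u i := Finset.sum_nonneg fun i _ => hu0 i
  have hn₀0 : 0 ≤ n₀ := by rw [hn₀]; linarith
  obtain ⟨c₀, hc₀⟩ : ∃ x : ℝ, x = κ + n₀ + 3 := ⟨_, rfl⟩
  have hc₀3 : 3 ≤ c₀ := by rw [hc₀]; linarith
  set p : Unit ⊕ Fin n ⊕ Kd → ℝ := vec κ u (wt m a) with hp
  have hsp : smv p = n₀ := by
    rw [hp, smv_vec, hn₀]
    show (∑ i, u i) + (m + a) = _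
    ring
  set pb : ι → Unit ⊕ Fin n ⊕ Kd → ℝ := fun j => vec κ (ub j) (wt m a) with hpb
  have hspb : ∀ j, smv (pb j) = (∑ i, ub j i) + m + a := by
    intro j
    rw [hpb, smv_vec]
    show (∑ i, ub j i) + (m + a) = _
    ring
  have hpb0 : ∀ j i, 0 ≤ pb j i := by
    rintro j (⟨⟩ | i | t)
    · exact hκ
    · exact hub0 j i
    · cases t
      · exact hm
      · exact ha
  -- the premises
  have hfam : ∀ᶠ σ in 𝓝[>] (0 : ℝ), ∀ j,
      FamC D cost (Φ j) (G j) (F j) (zl j) cl (pb j) E ε σ := by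
    rw [eventually_all]
    intro j
    refine famC (hG j) (hF j) hcost hs1 (triv j) hε (hpb0 j) ?_
    intro q θ hq0 hqcl hq2
    obtain ⟨h1, h2, h2'⟩ := fcc_le_zero hq2
    simp only at h1 h2 h2'
    have hwt : (toX q).2.2 = wt (q (Sum.inr (Sum.inr .mo))) (q (Sum.inr (Sum.inr .am))) := by
      funext t; cases t <;> rfl
    have hsum : (∑ i, (toX q).2.1 i) + q (Sum.inr (Sum.inr .mo)) +
        q (Sum.inr (Sum.inr .am)) = smv q := by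
      rw [smv_eq]
      show _ = _ + (q (Sum.inr (Sum.inr .mo)) + q (Sum.inr (Sum.inr .am)))
      ring
    have hxx : xx (pb j) q = ![κ, (∑ i, ub j i) + m + a, q (Sum.inl ()), smv q] := by
      unfold xx
      rw [hspb]
      rfl
    have h3 := hch j θ (toX q).2.1 (q (Sum.inr (Sum.inr .mo)))
      (q (Sum.inr (Sum.inr .am))) (q (Sum.inl ())) (fun i => hq0 _) (fun i => h2 (Sum.inl i))
      (hq0 _) (h2 (Sum.inr .mo)) (hq0 _) (h2 (Sum.inr .am)) (hq0 _) hqcl (by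
        rw [hsum, ← hxx]
        exact h1) (fun hz i => h2' hz i)
    rw [hsum, ← hxx] at h3
    rw [hwt]
    exact h3
  have hn2 : (0 : ℝ) ≤ n := Nat.cast_nonneg n
  obtain ⟨σ, hσ0, hσb, hσ⟩ := exists_of_small (b := 1 / (n + 3)) (by positivity) hfam
  have hσ4 : (n + 3) * σ ≤ 1 := by
    rw [le_div_iff₀ (by positivity)] at hσb
    linarith
  have hσ5 : σ ≤ 1 := by nlinarith
  obtain ⟨εr, hεr⟩ : ∃ x : ℝ, x = min (σ / 2) (ε / 8) := ⟨_, rfl⟩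
  have hεr0 : 0 < εr := hεr ▸ lt_min (by positivity) (by positivity)
  have hεr1 : εr ≤ σ / 2 := hεr ▸ min_le_left _ _
  have hεr2 : εr ≤ ε / 8 := hεr ▸ min_le_right _ _
  -- continuity at the parent
  obtain ⟨ρ₁, hρ₁, hHn⟩ := hHp εr hεr0
  obtain ⟨ρ₂, hρ₂, hAn⟩ := Metric.continuous_iff.1 hA ![κ, n₀] (ε / 8) (by linarith)
  obtain ⟨ρ₃, hρ₃, hbase⟩ : ∃ ρ₃ : ℝ, 0 < ρ₃ ∧ ∀ j, ∀ X : ℝ, 3 ≤ X → ∀ (f : Fin n → Pc)
      (gs : List Pc), (∀ i, D.lump (f i) ∧ |D.nl X (f i) - u i| ≤ ρ₃) → ∃ f' : Fin n → Pc,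
      rb j X (List.ofFn f ++ gs) = List.ofFn f' ++ gs ∧
      ∀ i, D.lump (f' i) ∧ |D.nl X (f' i) - ub j i| ≤ σ ∧
        (0 ≤ D.len (f i) → 0 ≤ D.len (f' i)) ∧ D.s1 (f' i) = D.s1 (f i) ∧
        D.s2 (f' i) = D.s2 (f i) := by
    choose ρ hρ hb using fun j => hrb j σ hσ0
    cases nonempty_fintype ι
    rcases isEmpty_or_nonempty ι with hι | hι
    · exact ⟨1, one_pos, fun j => (hι.false j).elim⟩
    · refine ⟨Finset.univ.inf' Finset.univ_nonempty ρ, ?_, fun j X hX f gs hf => ?_⟩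
      · rw [Finset.lt_inf'_iff]
        exact fun j _ => hρ j
      · exact hb j X hX f gs fun i => ⟨(hf i).1, (hf i).2.trans
          (Finset.inf'_le _ (Finset.mem_univ j))⟩
  obtain ⟨σp, hσp⟩ : ∃ x : ℝ, x = min (min σ ρ₃) (min ρ₁ ρ₂ / (2 * (n + 2))) := ⟨_, rfl⟩
  have hσp0 : 0 < σp :=
    hσp ▸ lt_min (lt_min hσ0 hρ₃) (div_pos (lt_min hρ₁ hρ₂) (by positivity))
  have hσp1 : σp ≤ σ := hσp ▸ (min_le_left _ _).trans (min_le_left _ _)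
  have hσp3 : σp ≤ ρ₃ := hσp ▸ (min_le_left _ _).trans (min_le_right _ _)
  have hσp2 : (n + 2) * σp ≤ min ρ₁ ρ₂ / 2 := by
    have h1 : σp ≤ min ρ₁ ρ₂ / (2 * (n + 2)) := hσp ▸ min_le_right _ _
    rw [le_div_iff₀ (by positivity)] at h1
    linarith
  refine ⟨σp, hσp0, fun lam N B => ?_⟩
  obtain ⟨c₁, hc₁⟩ : ∃ x : ℝ, x = max c₀ B := ⟨_, rfl⟩
  have hc₁0 : c₀ ≤ c₁ := hc₁ ▸ le_max_left _ _
  have hc₁B : B ≤ c₁ := hc₁ ▸ le_max_right _ _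
  obtain ⟨B₀, hB₀, hr1⟩ := hrule lam (n + N) c₁ (by linarith)
  obtain ⟨M, hM0, hM⟩ := exists_of_large 0
    (eventually_all.2 fun j => hσ j lam N B B₀ hB₀)
  obtain ⟨C, r, J, X₁, hC, hr, hJ, hR⟩ := hr1 εr M hεr0 hM0
  obtain ⟨δ', hδ'0, hδ'b, hδ'⟩ := exists_of_small
    (b := ε / (8 * (J + 1) * (((n + N : ℕ) : ℝ) + 1))) (by positivity)
    (eventually_all.2 fun j => hM j C r hC hr)
  have hδ'2 : ((n + N : ℕ) : ℝ) * δ' * J ≤ ε / 8 := by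
    rw [le_div_iff₀ (by positivity)] at hδ'b
    have h0 : (0 : ℝ) ≤ ((n + N : ℕ) : ℝ) := Nat.cast_nonneg _
    have h2 : ((n + N : ℕ) : ℝ) * J ≤ (J + 1) * (((n + N : ℕ) : ℝ) + 1) := by nlinarith
    have h3 := mul_le_mul_of_nonneg_left h2 hδ'0.le
    nlinarith
  have hC2 : ∀ᶠ X in (atTop : Filter ℝ), 2 * C ≤ X ^ (ε / 8) :=
    (tendsto_rpow_atTop (by linarith)).eventually_ge_atTop _
  obtain ⟨X₀, hX₀⟩ := eventually_atTop.1 ((eventually_all.2 hδ').and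
    (hC2.and (eventually_ge_atTop X₁)))
  refine ⟨δ', hδ'0, max X₀ 3, lt_of_lt_of_le (by norm_num) (le_max_right _ _), ?_⟩
  intro X hX k us gs hk hnr hgran hgood
  obtain ⟨hfX, hCX, hX₁⟩ := hX₀ X ((le_max_left _ _).trans hX)
  have x5 : 3 ≤ X := (le_max_right _ _).trans hX
  have hX1 : (1 : ℝ) < X := by linarith
  have hX0 : (0 : ℝ) < X := by linarith
  have hlog : 0 < Real.log X := Real.log_pos hX1
  -- the parent
  have hlenus : us.length = n := by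
    have := List.Forall₂.length_eq hnr
    rw [this, List.length_ofFn]
  obtain ⟨f, rfl⟩ := exists_eq_ofFn us hlenus
  have hnr' := hnr
  unfold Pcs.Near at hnr'
  rw [forall₂_ofFn_iff] at hnr'
  obtain ⟨k₁, hk₁⟩ : ∃ x : ℝ, x = max k 0 * Real.log X := ⟨_, rfl⟩
  have hk₁0 : 0 ≤ k₁ := by rw [hk₁]; exact mul_nonneg (le_max_right _ _) hlog.le
  have hkk : k * Real.log X ≤ k₁ := by
    rw [hk₁]; exact mul_le_mul_of_nonneg_right (le_max_left _ _) hlog.le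
  have hk₁l : k₁ / Real.log X = max k 0 := by rw [hk₁, mul_div_cancel_right₀ _ hlog.ne']
  have hmaxk : |max k 0 - κ| ≤ σp := by
    rw [abs_le] at hk ⊢
    constructor
    · linarith [hk.1, le_max_left k 0]
    · have := max_le (show k ≤ κ + σp by linarith [hk.2]) (show 0 ≤ κ + σp by linarith)
      linarith
  have hq : ∀ i, |evv D X k₁ f gs i - p i| ≤ σp := by
    rintro (⟨⟩ | i | t)
    · show |k₁ / Real.log X - κ| ≤ σp
      rw [hk₁l]; exact hmaxk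
    · exact (hnr' i).2
    · exact hgran.2.2 t
  have hg1 : ∀ q ∈ List.ofFn f ++ gs, 0 ≤ D.len q := fun q hq => (hgood q hq).2.2
  have hf0 : ∀ i, 0 ≤ D.len (f i) := fun i =>
    hg1 (f i) (List.mem_append_left _ ((List.mem_ofFn' _ _).2 ⟨i, rfl⟩))
  have hg0 : ∀ g ∈ gs, 0 ≤ D.len g := fun g hg => hg1 g (List.mem_append_right _ hg)
  have hsm : |smv (evv D X k₁ f gs) - n₀| ≤ (n + 2) * σp := by
    have h3 := abs_smv_sub (q := evv D X k₁ f gs) (q' := p) hq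
    rwa [hsp] at h3
  have hsm1 := (abs_le.1 hsm).2
  have hnσ : (n + 2) * σp ≤ (n + 2) * σ := mul_le_mul_of_nonneg_left hσp1 (by positivity)
  have hLL : LL D (List.ofFn f ++ gs) / Real.log X ≤ n₀ + (n + 2) * σ := by
    rw [← smv_evv]; linarith
  have hLLi : ∀ q ∈ List.ofFn f ++ gs, D.len q ≤ LL D (List.ofFn f ++ gs) := by
    intro q hq
    unfold LL
    exact List.single_le_sum (fun x hx => by
      obtain ⟨y, hy, rfl⟩ := List.mem_map.1 hx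
      exact hg1 y hy) _ (List.mem_map.2 ⟨q, hq, rfl⟩)
  have hLLc : LL D (List.ofFn f ++ gs) ≤ c₀ * Real.log X := by
    rw [div_le_iff₀ hlog] at hLL
    refine hLL.trans (mul_le_mul_of_nonneg_right ?_ hlog.le)
    rw [hc₀]
    linarith
  have hcnt : (List.ofFn f ++ gs).length ≤ n + N := by
    rw [List.length_append, List.length_ofFn]
    exact Nat.add_le_add_left hgran.1 n
  have hσ2p : σp ≤ (n + 2) * σp := by nlinarith
  -- the parent is near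
  obtain ⟨w, hw⟩ : ∃ w : Fin 2 → ℝ, w = ![k₁ / Real.log X,
    LL D (List.ofFn f ++ gs) / Real.log X] := ⟨_, rfl⟩
  have hdw : dist w ![κ, n₀] ≤ min ρ₁ ρ₂ / 2 := by
    refine le_trans ?_ hσp2
    rw [dist_pi_le_iff (by positivity)]
    intro i
    rw [hw, Real.dist_eq]
    fin_cases i
    · show |k₁ / Real.log X - κ| ≤ _
      rw [hk₁l]
      exact hmaxk.trans hσ2p
    · show |LL D (List.ofFn f ++ gs) / Real.log X - n₀| ≤ _
      rw [← smv_evv]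
      exact hsm
  have hmin0 : 0 < min ρ₁ ρ₂ := lt_min hρ₁ hρ₂
  have hσρ1 : σp ≤ ρ₁ := by
    have := min_le_left ρ₁ ρ₂
    linarith
  have hHw : Hp εr X k₁ (List.ofFn f ++ gs) :=
    hHn X x5 k₁ f gs hk₁0 (by rw [hk₁l]; exact hmaxk.trans hσρ1)
      (fun i => ⟨(hnr' i).1, (hnr' i).2.trans hσρ1⟩) (fun t => (hgran.2.2 t).trans hσρ1) hg1
  have hAw : A w ≤ E + ε / 8 := by
    have h1 := hAn w (lt_of_le_of_lt hdw (by linarith [min_le_right ρ₁ ρ₂]))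
    rw [Real.dist_eq] at h1
    linarith [(abs_lt.1 h1).2]
  rw [hw] at hAw
  have hslack : εr * Real.log X ≤ σ * Real.log X :=
    mul_le_mul_of_nonneg_right (by linarith) hlog.le
  have hfinal := hR X x5 hX₁ k₁ (List.ofFn f ++ gs) hk₁0 (by
      rw [hk₁]
      refine mul_le_mul_of_nonneg_right (le_trans ?_ hc₁0) hlog.le
      rw [hc₀]
      linarith [(abs_le.1 hmaxk).2]) hcnt (fun q hq => ⟨hg1 q hq, ((hLLi q hq).trans hLLc).trans
        (mul_le_mul_of_nonneg_right hc₁0 hlog.le)⟩)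
      (fun q hq => (hgood q hq).2.1.trans (Real.rpow_le_rpow_of_exponent_le hX1.le hc₁B))
      hHw (X ^ (E + ε / 2)) (Real.rpow_nonneg hX0.le _)
      (fun j θ l ps' hl hlcl hps' hG hz => by
        obtain ⟨f', hf1, hf2⟩ := hbase j X x5 f gs
          (fun i => ⟨(hnr' i).1, (hnr' i).2.trans hσp3⟩)
        rw [hf1] at hps' hG ⊢
        refine hfX j k₁ f' gs hk₁0 ?_ (fun i => (hf2 i).1) hgran.1
          (fun g hg => (hgran.2.1 g hg).trans hσp1) ?_ θ l ps' hl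
          hlcl hps' (hG.trans (by linarith))
          (fun hzj q hq1 hq2 => (hz hzj q hq1 hq2).trans (by linarith))
        · rintro (⟨⟩ | i | t)
          · show |k₁ / Real.log X - κ| ≤ σ
            rw [hk₁l]; exact hmaxk.trans hσp1
          · exact (hf2 i).2.1
          · exact (hgran.2.2 t).trans hσp1
        · intro q hq
          rcases List.mem_append.1 hq with h | h
          · obtain ⟨i, rfl⟩ := (List.mem_ofFn' _ _).1 h
            have h3 := hgood (f i) (List.mem_append_left _ ((List.mem_ofFn' _ _).2 ⟨i, rfl⟩))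
            rw [(hf2 i).2.2.2.1, (hf2 i).2.2.2.2]
            exact ⟨h3.1, h3.2.1, (hf2 i).2.2.1 h3.2.2⟩
          · exact hgood q (List.mem_append_right _ h))
  refine (hmono lam _ _ _ hkk).trans ?_
  have e1 : X ^ A ![k₁ / Real.log X, LL D (List.ofFn f ++ gs) / Real.log X] =
      Real.exp (A ![k₁ / Real.log X, LL D (List.ofFn f ++ gs) / Real.log X] * Real.log X) := by
    rw [Real.rpow_def_of_pos hX0, mul_comm]
  rw [e1] at hfinal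
  refine final_countm (Nr := ((n + N : ℕ) : ℝ)) hX1 hε hC hJ
    (one_le_prod_s1 hs1 _) ?_ hεr2 hδ'2
    (prod_s1_le hs1 hX1.le hδ'0.le _ (fun q hq => (hgood q hq).1) hcnt) hCX hfinal
  rw [mul_div_cancel_right₀ _ hlog.ne']
  exact hAw


/-- **the transfer rule with base maps, at the level of `ex`** -/
theorem ruleExd [PseudoMetricSpace Θ] [CompactSpace Θ] {ι : Type*} [Finite ι]
    {Ψ : Lam → ℝ → List Pc → ℝ} {Φ : ι → Lam → ℝ → List Pc → ℝ}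
    (hcost : ∀ p' p, 1 ≤ cost p' p) (hs1 : ∀ p, 1 ≤ D.s1 p)
    {G F : ι → (Fin 4 → ℝ) → Θ → ℝ} (hG : ∀ j, Continuous fun x : (Fin 4 → ℝ) × Θ => G j x.1 x.2)
    (hF : ∀ j, Continuous fun x : (Fin 4 → ℝ) × Θ => F j x.1 x.2)
    {A : (Fin 2 → ℝ) → ℝ} (hA : Continuous A)
    {zl : ι → Prop} {cl : ℝ} {rb : ι → ℝ → List Pc → List Pc}
    {Hp : ℝ → ℝ → ℝ → List Pc → Prop}
    (hmono : ∀ lam l l' ps, l ≤ l' → Ψ lam l ps ≤ Ψ lam l' ps)
    (hrule : HRcB D cost Ψ Φ rb G F Hp A zl cl)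
    (hpermΨ : Pinv Ψ) (hperm : ∀ j, Pinv (Φ j)) (htriv : ∀ j, Triv D (Φ j))
    (triv : ∀ (j : ι) (lam : Lam) (N : ℕ), ∃ C T : ℝ, 0 ≤ C ∧ 0 ≤ T ∧
      ∀ (l : ℝ) (ps : List Pc), 0 ≤ l → ps.length ≤ N → (∀ p ∈ ps, 0 ≤ D.len p) →
      Φ j lam l ps ≤ C * Real.exp (T * (l + LL D ps)))
    {κ : ℝ} {n : ℕ} {u : Fin n → ℝ} {ub : ι → Fin n → ℝ} {m a E : ℝ} (hκ : 0 ≤ κ)
    (hu0 : ∀ i, 0 ≤ u i) (hub0 : ∀ j i, 0 ≤ ub j i) (hm : 0 ≤ m) (ha : 0 ≤ a) (hE0 : 0 ≤ E)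
    (hrb : ∀ j, BaseOK D (rb j) u (ub j)) (hHp : ParOK D Hp κ u (wt m a))
    (hE : A ![κ, (∑ i, u i) + m + a] ≤ E)
    (hch : ∀ (j : ι) (θ : Θ) (u' : Fin n → ℝ) (m' a' l : ℝ), (∀ i, 0 ≤ u' i) →
      (∀ i, u' i ≤ ub j i) → 0 ≤ m' → m' ≤ m → 0 ≤ a' →
      a' ≤ a → 0 ≤ l → l ≤ cl →
      G j ![κ, (∑ i, ub j i) + m + a, l, (∑ i, u' i) + m' + a'] θ ≤ 0 →
      (zl j → ∀ i, u' i ≤ l) →
      ex D (Φ j) l (List.ofFn u' : Multiset ℝ) m' a' ≤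
        E + F j ![κ, (∑ i, ub j i) + m + a, l, (∑ i, u' i) + m' + a'] θ) :
    ex D Ψ κ (List.ofFn u : Multiset ℝ) m a ≤ E := by
  refine ex_le hpermΨ hE0 ?_
  refine ruleBGd (Θ := Θ) hcost hs1 hG hF hA hmono hrule triv hκ hu0 hub0 hm ha hrb hHp hE ?_
  intro j θ u' m' a' l h0 h1 hm0 hm1 ha0 ha1 hl hlc hGj hz
  refine BG_of_ex (hperm j) (htriv j) hl ⟨fun y hy => ?_, hm0, ha0⟩
    (hch j θ u' m' a' l h0 h1 hm0 hm1 ha0 ha1 hl hlc hGj hz)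
  obtain ⟨i, rfl⟩ := (List.mem_ofFn' _ _).1 hy
  exact h0 i

/-! ### three lumps, the replaced list -/

/-- the replaced list : the first two pieces `(z₁, z₂) ↦ (z₁ + z₂ - d, d)` -/
def rp (d : ℝ) : List Pq → List Pq
  | p₁ :: p₂ :: ps => {p₁ with z := p₁.z + p₂.z - d} :: {p₂ with z := d} :: ps
  | [p] => [p]
  | [] => []

lemma LL_rp (d : ℝ) (ps : List Pq) : LL Dq (rp d ps) = LL Dq ps := by
  rcases ps with _ | ⟨p₁, _ | ⟨p₂, ps⟩⟩
  · rfl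
  · rfl
  · unfold LL rp
    simp only [List.map_cons, List.sum_cons, Dq_len]
    ring

lemma length_rp (d : ℝ) (ps : List Pq) : (rp d ps).length = ps.length := by
  rcases ps with _ | ⟨p₁, _ | ⟨p₂, ps⟩⟩ <;> rfl

/-- the base map of the replaced list -/
theorem baseOK_rp {d y₁ y₂ y₃ : ℝ} (hd : 0 < d) (hy : d < y₁ + y₂) :
    BaseOK Dq (fun X ps => rp (d * Real.log X) ps) ![y₁, y₂, y₃] ![y₁ + y₂ - d, d, y₃] := by
  intro σ hσ
  refine ⟨min (σ / 2) ((y₁ + y₂ - d) / 2), lt_min (by linarith) (by linarith), ?_⟩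
  intro X hX f gs h
  have hX1 : (1 : ℝ) < X := by linarith
  have hlog : 0 < Real.log X := Real.log_pos hX1
  have h0 := h 0
  have h1 := h 1
  have h2 := h 2
  have m1 : min (σ / 2) ((y₁ + y₂ - d) / 2) ≤ σ / 2 := min_le_left _ _
  have m2 : min (σ / 2) ((y₁ + y₂ - d) / 2) ≤ (y₁ + y₂ - d) / 2 := min_le_right _ _
  have e0 : |(f 0).z / Real.log X - y₁| ≤ min (σ / 2) ((y₁ + y₂ - d) / 2) := h0.2
  have e1 : |(f 1).z / Real.log X - y₂| ≤ min (σ / 2) ((y₁ + y₂ - d) / 2) := h1.2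
  have e2 : |(f 2).z / Real.log X - y₃| ≤ min (σ / 2) ((y₁ + y₂ - d) / 2) := h2.2
  have a0 := abs_le.1 e0
  have a1 := abs_le.1 e1
  refine ⟨![{f 0 with z := (f 0).z + (f 1).z - d * Real.log X},
    {f 1 with z := d * Real.log X}, f 2], ?_, ?_⟩
  · show rp (d * Real.log X) (List.ofFn f ++ gs) = _
    simp only [List.ofFn_succ, List.ofFn_zero, List.cons_append, List.nil_append]
    rfl
  · intro i
    fin_cases i
    · refine ⟨h0.1, ?_, fun _ => ?_, rfl, rfl⟩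
      · show |((f 0).z + (f 1).z - d * Real.log X) / Real.log X - (y₁ + y₂ - d)| ≤ σ
        have e : ((f 0).z + (f 1).z - d * Real.log X) / Real.log X - (y₁ + y₂ - d) =
            ((f 0).z / Real.log X - y₁) + ((f 1).z / Real.log X - y₂) := by
          field_simp
          ring
        rw [e]
        refine (abs_add_le _ _).trans ?_
        linarith
      · show 0 ≤ (f 0).z + (f 1).z - d * Real.log X
        have h3 : d ≤ (f 0).z / Real.log X + (f 1).z / Real.log X := by linarith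
        rw [← add_div, le_div_iff₀ hlog] at h3
        linarith
    · refine ⟨h1.1, ?_, fun _ => ?_, rfl, rfl⟩
      · show |(d * Real.log X) / Real.log X - d| ≤ σ
        rw [mul_div_cancel_right₀ _ hlog.ne', sub_self, abs_zero]
        exact hσ.le
      · show 0 ≤ d * Real.log X
        positivity
    · exact ⟨h2.1, by
        show |(f 2).z / Real.log X - y₃| ≤ σ
        linarith, fun h => h, rfl, rfl⟩

lemma ofFn3 (x y z : ℝ) : ((List.ofFn ![x, y, z] : List ℝ) : Multiset ℝ) = {x, y, z} := by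
  simp only [List.ofFn_succ, List.ofFn_zero]
  rfl

end Crest.Agent.R017.RuleM545
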