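import Crest.Agent.R017.RGKe_545
import Crest.Agent.R017.XS0_298
import Crest.Agent.R017.RuleF_848
import Crest.Agent.R017.XPC_699

/-!
# Row 17, T.5 / T.7: the wrapper around the recursion, every kernel (helper848)

* `SFK_natl` : the moment of a natural list with modulus `q` is the cube-free Gauss side of the
  twisted list
* `clN_of` : claims on natural lists from premises in the form of `HRcB`
* `fin_rec` : `leg_step2` and `rec_j` combined
-/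

set_option autoImplicit false
set_option maxHeartbeats 1600000

noncomputable section

open Complex
open scoped ComplexConjugate

namespace Crest.Agent.R017.RXg848

open Crest.Agent.R012 Crest.Agent.R012.Eis Crest.Agent.R012.LS2 Crest.Agent.R012.Gauss880
open Crest.Agent.R017.CM106 Crest.Agent.R017.HP842 Crest.Agent.R017.FE47
open Crest.Agent.R017.End699 hiding pw
open Crest.Agent.R017.B770
open Crest.Agent.R017.Prov71
open Crest.Agent.R017.Leg381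
open Crest.Agent.R017.LegK545 (VK VK_Kg VK_nonneg VK_mono SFK SFK_Kg)
open Crest.Agent.R017.XS0298 (S0K)
open Crest.Agent.R017.RG64 hiding ClX ClX.mono ClX.weaken ClX.expo ClX.union ClX.ext Cl
  leg_step2 rec_j sub_numX sub_num sub_num0 MergeList ClN large_num open_num
open Crest.Agent.R017.RGK545
open Crest.Agent.R017.XP699 (LL hcost)

variable {Kn : Eis → Eis → ℂ}

/-! ### natural lists -/

lemma Th_eq (q n : Eis) : Th q n = Th 1 n * prin0 q n := by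
  classical
  unfold Th prin0
  by_cases h1 : Squarefree n <;> by_cases h2 : IsCoprime n q <;> simp [h1, h2, isCoprime_one_right]

/-- **a natural list** -/
lemma SFK_natl (Kn : Eis → Eis → ℂ) (P : DPar) (h : ℝ → ℝ) (z D0 : ℝ) {q : Eis} (hq : q ≠ 0)
    (k : ℝ) (ps : List Pq) :
    SFK Kn z D0 q P h k (natl ps) = S0K Kn P h k (ps.map (Pq.tw q)) := by
  classical
  have e : sqc q (alF z D0 P h (natl ps)) =
      sqc 1 (alL h ((ps.map (Pq.tw q)).map (Pq.pc P))) := by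
    funext n
    unfold HP842.sqc
    rw [alF_natl, alL_tw P h hq ps, Th_eq q n]
    ring
  unfold SFK LegK545.VK XS0298.S0K
  rw [e]

lemma Ht_natl (ps : List Pq) : Ht (natl ps) = (ps.map Dq.s1).prod := by
  unfold Ht natl
  rw [List.map_map]
  rfl

lemma LF_natl (ps : List Pq) : LF (natl ps) = LL Dq ps := by
  unfold LF natl LL
  rw [List.map_map]
  rfl

lemma map_tw_one_aux (P : DPar) (h : ℝ → ℝ) (ps : List Pq) :
    alL h ((ps.map (Pq.tw 1)).map (Pq.pc P)) = alL h (ps.map (Pq.pc P)) := by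
  rw [alL_tw P h one_ne_zero ps]
  funext n
  unfold prin0
  rw [if_pos isCoprime_one_right, mul_one]

lemma SFK_natl_one (Kn : Eis → Eis → ℂ) (P : DPar) (h : ℝ → ℝ) (z D0 : ℝ) (k : ℝ) (ps : List Pq) :
    SFK Kn z D0 1 P h k (natl ps) = S0K Kn P h k ps := by
  rw [SFK_natl Kn P h z D0 one_ne_zero]
  unfold XS0298.S0K
  rw [map_tw_one_aux]

/-- an unflagged list is natural -/
lemma eq_natl {ps : List Pf} (h : ∀ p ∈ ps, p.2 = false) : ps = natl (ps.map Prod.fst) := by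
  unfold natl
  rw [List.map_map]
  conv_lhs => rw [← List.map_id ps]
  refine List.map_congr_left fun p hp => ?_
  exact Prod.ext rfl (h p hp)

lemma LL_map_tw (q : Eis) (ps : List Pq) : LL Dq (ps.map (Pq.tw q)) = LL Dq ps := by
  unfold LL
  rw [List.map_map]
  congr 1
  refine List.map_congr_left fun p _ => ?_
  show (p.tw q).z = p.z
  unfold Pq.tw
  split_ifs <;> rfl

/-- the children in the sense of the rules -/
lemma chd_of {s r b : ℝ} (hs : s ≤ r) {q : Eis} (hq : q ≠ 0) (hqb : (nm q : ℝ) ≤ b)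
    {ps : List Pf} {ps₀ : List Pq} (h : SbL s ps ps₀) :
    List.Forall₂ (XP699.Chd Dq hcost r b) ((ps.map Prod.fst).map (Pq.tw q)) ps₀ := by
  unfold SbL at h
  induction h with
  | nil => exact List.Forall₂.nil
  | @cons p' p ps' ps h1 _ ih =>
    refine List.Forall₂.cons ?_ ih
    obtain ⟨a1, a2, a3, a4, a5⟩ := h1
    show XP699.Chd Dq hcost r b (p'.1.tw q) p
    rw [Pq.tw_eq hq]
    refine ⟨a1, fun hl => ⟨a1.trans hl.1, a3 hl.2⟩, a4, ?_, ?_, ?_⟩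
    · show p'.1.z ≤ p.z + r
      linarith
    · show 1 + |p'.1.t| ≤ (1 + |p.t|) * (1 + |p'.1.t - p.t|)
      have h2 : |p'.1.t| ≤ |p.t| + |p'.1.t - p.t| := by
        have := abs_add_le p.t (p'.1.t - p.t)
        rwa [add_sub_cancel] at this
      nlinarith [abs_nonneg p.t, abs_nonneg (p'.1.t - p.t)]
    · show (nm (p'.1.d * q) : ℝ) ≤ nm p.d * b
      rw [nm_mul, a2]
      push_cast
      exact mul_le_mul_of_nonneg_left hqb (Nat.cast_nonneg _)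

lemma cst_le_Ht {s : ℝ} {q : Eis} (hq : q ≠ 0) {ps : List Pf} {ps₀ : List Pq}
    (h : SbL s ps ps₀) :
    XP699.cst hcost ((ps.map Prod.fst).map (Pq.tw q)) ps₀ ≤ Ht ps * Ht (natl ps₀) := by
  unfold SbL at h
  induction h with
  | nil => simp [XP699.cst, natl]
  | @cons p' p ps' ps h1 _ ih =>
    have e : XP699.cst hcost (((p' :: ps').map Prod.fst).map (Pq.tw q)) (p :: ps) =
        hcost (p'.1.tw q) p * XP699.cst hcost ((ps'.map Prod.fst).map (Pq.tw q)) ps := by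
      unfold XP699.cst
      simp only [List.map_cons, List.zipWith_cons_cons, List.prod_cons]
    have e2 : natl (p :: ps) = (p, false) :: natl ps := rfl
    rw [e, e2, Ht_cons, Ht_cons]
    have h3 : hcost (p'.1.tw q) p ≤ (1 + |p'.1.t|) * (1 + |p.t|) := by
      rw [Pq.tw_eq hq]
      show 1 + |p'.1.t - p.t| ≤ _
      have h2 : |p'.1.t - p.t| ≤ |p'.1.t| + |p.t| := abs_sub _ _
      nlinarith [abs_nonneg p.t, abs_nonneg p'.1.t]
    have h4 : 0 ≤ XP699.cst hcost ((ps'.map Prod.fst).map (Pq.tw q)) ps :=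
      zero_le_one.trans (XP699.one_le_cst XP699.one_le_hcost _ _)
    have h5 := one_le_Ht ps'
    have h6 := one_le_Ht (natl ps)
    calc hcost (p'.1.tw q) p * XP699.cst hcost ((ps'.map Prod.fst).map (Pq.tw q)) ps ≤
        ((1 + |p'.1.t|) * (1 + |p.t|)) * (Ht ps' * Ht (natl ps)) :=
          mul_le_mul h3 ih h4 (by positivity)
      _ = _ := by ring

/-- **claims on natural lists from the premises of a rule** -/
theorem clN_of (Kn : Eis → Eis → ℂ) {D : Dat} {E : ℝ → ℝ → ℝ} {B₁ s a Q lo σ r b M : ℝ}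
    (hs : s ≤ r) (hQ : Q ≤ b) (hM : 0 ≤ M) (hJ : D.J = M) (hB₁ : 0 ≤ B₁)
    (H : ∀ (l : ℝ) (ps' : List Pq), 0 ≤ l → l ≤ D.v + (D.n - LL Dq ps') + a →
      lo ≤ LL Dq ps' → LL Dq ps' ≤ σ → List.Forall₂ (XP699.Chd Dq hcost r b) ps' D.ps₀ →
      S0K Kn D.P D.h l ps' ≤ B₁ * XP699.cst hcost ps' D.ps₀ ^ M * Real.exp (E l (LL Dq ps'))) :
    ClNK Kn D E (B₁ * Ht (natl D.ps₀) ^ M) s a Q lo σ := by
  intro q ps k hq hqQ hnat hps hlo hσ hk hk'
  have hq0 := hq.ne_zero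
  set qs := ps.map Prod.fst with hqs
  have e : ps = natl qs := eq_natl hnat
  have eL : LL Dq (qs.map (Pq.tw q)) = LF ps := by
    rw [LL_map_tw, ← LF_natl, ← e]
  have e1 : SFK Kn D.z D.D0 q D.P D.h k ps = S0K Kn D.P D.h k (qs.map (Pq.tw q)) := by
    rw [e]
    exact SFK_natl Kn D.P D.h D.z D.D0 hq0 k qs
  rw [e1]
  have h1 := H k (qs.map (Pq.tw q)) hk (by rw [eL]; exact hk') (by rw [eL]; exact hlo)
    (by rw [eL]; exact hσ) (chd_of hs hq0 (hqQ.trans hQ) hps)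
  rw [eL] at h1
  refine h1.trans ?_
  have h2 : XP699.cst hcost (qs.map (Pq.tw q)) D.ps₀ ^ M ≤ (Ht ps * Ht (natl D.ps₀)) ^ M :=
    Real.rpow_le_rpow (zero_le_one.trans (XP699.one_le_cst XP699.one_le_hcost _ _))
      (cst_le_Ht hq0 hps) hM
  have h3 := one_le_Ht ps
  have h4 := one_le_Ht (natl D.ps₀)
  rw [Real.mul_rpow (by linarith) (by linarith)] at h2
  rw [hJ]
  calc B₁ * XP699.cst hcost (qs.map (Pq.tw q)) D.ps₀ ^ M * Real.exp (E k (LF ps)) ≤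
      B₁ * (Ht ps ^ M * Ht (natl D.ps₀) ^ M) * Real.exp (E k (LF ps)) := by gcongr
    _ = _ := by ring

/-! ### the recursion -/

/-- `leg_step2` and `rec_j` combined -/
theorem fin_rec (hKn : Ker Kn) {h : ℝ → ℝ} {c : ℝ} (hpu : PU h c) (N : ℕ) {ε : ℝ} (hε : 0 < ε)
    {J : ℝ} (hJ : 0 ≤ J) : ∃ C r₁ : ℝ, 1 ≤ C ∧ 0 ≤ r₁ ∧ ∀ r : ℝ, r₁ ≤ r → ∀ X : ℝ, 3 ≤ X →
    ∀ D : Dat, D.P.OK → D.h = h → 1 ≤ D.D0 → D.J = J → D.ps₀.length ≤ N →
    ∀ (m : ℕ) (C₂ G B₀ α q₀ e lo σ₀ s a Q : ℝ), 0 ≤ C₂ → 0 ≤ G → 0 ≤ B₀ → r ≤ α →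
    Real.exp (N * r) ≤ q₀ → 0 ≤ e → e + (N + 1) * r ≤ Real.log D.D0 →
    lo + N * (2 * Real.log D.D0 + r) ≤ σ₀ → 0 ≤ Q →
    (∀ ps : List Pf, SbL (s + m * (2 * r)) ps D.ps₀ → LF ps ≤ σ₀ + m * e → lo ≤ LF ps →
      LF ps ≤ Real.log X ∧ D.v + (D.n - LF ps) + (a + m * (2 * α)) ≤ Real.log X) →
    ClK Kn D (Ge lo) B₀ (s + m * (2 * r)) (a + m * (2 * α)) (Q * (q₀ ^ 2) ^ m) σ₀ →
    (∀ B s' a' Q' σ' : ℝ, 0 ≤ B → s ≤ s' → s' + r ≤ s + m * (2 * r) → a ≤ a' →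
      a' + α ≤ a + m * (2 * α) → 0 ≤ Q' → Q' * q₀ ≤ Q * (q₀ ^ 2) ^ m →
      σ' ≤ σ₀ + m * e + N * r →
      ClK Kn D (Ge lo) B (s' + r) (a' + α) (Q' * q₀) (σ' - e - N * r) →
      ClK Kn D (NTGe σ₀) (G + C₂ * B) s' a' Q' σ') →
    ClK Kn D (Ge lo) ((C * X ^ ε * (2 + C₂)) ^ m * (G + B₀)) s a Q (σ₀ + m * e) := by
  obtain ⟨C, r₁, hC, hr₁, H⟩ := leg_step2 hKn hpu N hε hJ
  refine ⟨C, r₁, hC, hr₁, ?_⟩
  intro r hr X hX D hP hh hD0 hDJ hN m C₂ G B₀ α q₀ e lo σ₀ s a Q hC₂ hG hB₀ hα hq₀ he heD hlo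
    hQ hlog hT hNT
  have hr0 : 0 ≤ r := hr₁.trans hr
  have hX1 : (1 : ℝ) ≤ X := by linarith
  have hN0 : (0 : ℝ) ≤ N := Nat.cast_nonneg _
  have hNr : (N : ℝ) * r₁ ≤ N * r := mul_le_mul_of_nonneg_left hr hN0
  have hC1 : 1 ≤ C * X ^ ε := by
    have := Real.one_le_rpow hX1 hε.le
    nlinarith
  have hq₀1 : 1 ≤ q₀ := (Real.one_le_exp (by positivity)).trans hq₀
  refine rec_j (Kn := Kn) hC1 hC₂ hG hB₀ hr0 hα hq₀1 he hQ m hT hlo ?_ hNT
  intro B B' s' a' Q' σ' hB hB' hs1 hs2 ha1 ha2 hσ' h1 h0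
  have key := H X hX D hP hh hD0 hDJ hN B B' s' a' Q' q₀ σ' e lo hB hB'
    ((Real.exp_le_exp.2 hNr).trans hq₀) (fun ps hps hL hl => ?_) ?_
    (h1.mono le_rfl (by linarith) (by linarith) le_rfl (by linarith))
    (h0.mono le_rfl (by linarith) (by linarith) le_rfl le_rfl)
  · refine key.weaken fun ps hps => ?_
    have h5 : lo + N * (2 * Real.log D.D0 + r) ≤ LF ps := hps
    show lo + N * (2 * Real.log D.D0 + r₁) ≤ LF ps
    linarith
  · obtain ⟨t1, t2⟩ := hlog ps (hps.mono hs2) (hL.trans hσ') hl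
    exact ⟨t1, by linarith⟩
  · have : ((N : ℝ) + 1) * r₁ ≤ (N + 1) * r := mul_le_mul_of_nonneg_left hr (by positivity)
    linarith

lemma SbL_natl {ps₀ : List Pq} (h : ∀ p ∈ ps₀, 0 ≤ p.z) : SbL 0 (natl ps₀) ps₀ := by
  unfold SbL
  induction ps₀ with
  | nil => exact List.Forall₂.nil
  | cons p ps ih =>
    refine List.Forall₂.cons ?_ (ih fun x hx => h x (List.mem_cons_of_mem _ hx))
    exact ⟨rfl, rfl, fun hu => hu, h p (by simp), by simp⟩

/-- **the recursion with the choice of the parameters** : `m` steps of length `δ log X`, every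
step may lose `X ^ η` -/
theorem fin_main (hKn : Ker Kn) {h : ℝ → ℝ} {c₁ : ℝ} (hpu : PU h c₁) (N : ℕ) {J : ℝ} (hJ : 0 ≤ J)
    {c c₂ δ ε c₀ : ℝ} (hc : 0 < c) (hc₂ : 0 ≤ c₂) (hδ : 0 < δ) (hδc : 4 * N * δ ≤ c) (hε : 0 < ε)
    (hc₀ : 0 ≤ c₀) :
    ∃ (m : ℕ) (η : ℝ), 0 < η ∧ 2 * m * η ≤ ε ∧ ∀ C' r' : ℝ, 1 ≤ C' → 0 ≤ r' → ∃ C r X₁ : ℝ,
      1 ≤ C ∧ r' ≤ r ∧ 3 ≤ X₁ ∧ ∀ X : ℝ, X₁ ≤ X → ∀ D : Dat, D.P.OK → D.h = h →
      D.D0 = X ^ δ → D.J = J → D.ps₀.length ≤ N → (∀ p ∈ D.ps₀, 0 ≤ p.z) →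
      D.n = LL Dq D.ps₀ → D.n ≤ c₀ * Real.log X → D.v ≤ c₀ * Real.log X →
      ∀ G B₀ C₂ α a lo σ₀ : ℝ, 0 ≤ G → 0 ≤ B₀ → 0 ≤ C₂ → C₂ ≤ C' * X ^ η → r ≤ α →
      α ≤ η * Real.log X → 0 ≤ a → a ≤ ε * Real.log X → D.n - c₂ * Real.log X ≤ lo →
      lo + c * Real.log X ≤ σ₀ → σ₀ ≤ D.n →
      ClK Kn D (Ge lo) B₀ (m * (2 * r)) (a + m * (2 * α))
        (Real.exp D.n * (Real.exp (N * r) ^ 2) ^ m) σ₀ →
      (∀ B s' a' Q' σ' : ℝ, 0 ≤ B → 0 ≤ s' → s' + r ≤ m * (2 * r) → a ≤ a' →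
        a' + α ≤ a + m * (2 * α) → 0 ≤ Q' →
        Q' * Real.exp (N * r) ≤ Real.exp D.n * (Real.exp (N * r) ^ 2) ^ m →
        ClK Kn D (Ge lo) B (s' + r) (a' + α) (Q' * Real.exp (N * r))
          (σ' - Real.log D.D0 + r) →
        ClK Kn D (NTGe σ₀) (G + C₂ * B) s' a' Q' σ') →
      ∀ k : ℝ, 0 ≤ k → k ≤ D.v → S0K Kn D.P D.h k D.ps₀ ≤
        C * X ^ ε * (G + B₀) * Ht (natl D.ps₀) ^ J * Real.exp (fl D.κ k D.n) := by
  obtain ⟨m, hm⟩ : ∃ m : ℕ, 2 * c₂ / δ + 1 ≤ m := exists_nat_ge _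
  have hm1 : (1 : ℝ) ≤ m := by
    have : 0 ≤ 2 * c₂ / δ := by positivity
    linarith
  have hm0 : (0 : ℝ) < m := by linarith
  have hmδ : 2 * c₂ ≤ m * δ := by
    have h1 : 2 * c₂ / δ ≤ m := by linarith
    rwa [div_le_iff₀ hδ] at h1
  obtain ⟨η, hη⟩ : ∃ η : ℝ, η = ε / (2 * m) := ⟨_, rfl⟩
  have hη0 : 0 < η := by rw [hη]; positivity
  have hmη : m * η = ε / 2 := by rw [hη]; field_simp
  refine ⟨m, η, hη0, by nlinarith, ?_⟩
  intro C' r' hC' hr'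
  obtain ⟨b, hb⟩ : ∃ b : ℝ, b = c₀ + c₂ + 2 * ε + 1 := ⟨_, rfl⟩
  have hb1 : 1 ≤ b := by rw [hb]; linarith
  have hb0 : 0 < b := by linarith
  obtain ⟨C₁, r₁, hC₁, hr₁, H⟩ := fin_rec hKn hpu N (ε := ε / (4 * m * b)) (by positivity) hJ
  obtain ⟨r, hr⟩ : ∃ r : ℝ, r = max r' r₁ := ⟨_, rfl⟩
  have hrr' : r' ≤ r := by rw [hr]; exact le_max_left _ _
  have hrr₁ : r₁ ≤ r := by rw [hr]; exact le_max_right _ _
  have hr0 : 0 ≤ r := hr'.trans hrr'
  have hN0 : (0 : ℝ) ≤ N := Nat.cast_nonneg _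
  obtain ⟨T, hT⟩ : ∃ T : ℝ, T = (N + 1) * r * (2 / δ) + N * r * (2 / c) + N * (m * (2 * r)) + 2 :=
    ⟨_, rfl⟩
  have t1 : 0 ≤ (N + 1) * r * (2 / δ) := by positivity
  have t2 : 0 ≤ N * r * (2 / c) := by positivity
  have t3 : 0 ≤ N * (m * (2 * r)) := by positivity
  have hCC : 1 ≤ 3 * C₁ * C' := by nlinarith
  refine ⟨(3 * C₁ * C') ^ m, r, Real.exp T, one_le_pow₀ hCC, hrr', ?_, ?_⟩
  · have : T + 1 ≤ Real.exp T := Real.add_one_le_exp T
    linarith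
  intro X hX D hP hh hD0 hDJ hN hz hn hnX hvX G B₀ C₂ α a lo σ₀ hG hB₀ hC₂ hC₂' hα hα' ha ha'
    hlo1 hlo2 hσn hT0 hNT k hk hkv
  have hX0 : 0 < X := (Real.exp_pos T).trans_le hX
  have hlogX : T ≤ Real.log X := by
    rw [Real.le_log_iff_exp_le hX0]; exact hX
  obtain ⟨L, hL⟩ : ∃ L : ℝ, L = Real.log X := ⟨_, rfl⟩
  rw [← hL] at hlogX hα' hnX hvX ha' hlo1 hlo2
  have hL2 : 2 ≤ L := by linarith
  have hL0 : 0 < L := by linarith
  have hX3 : 3 ≤ X := by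
    have h1 : X = Real.exp L := by rw [hL, Real.exp_log hX0]
    have h2 := Real.add_one_le_exp L
    linarith
  have hX1 : 1 ≤ X := by linarith
  have hXb : (3 : ℝ) ≤ X ^ b := by
    have := Real.rpow_le_rpow_of_exponent_le hX1 hb1
    rw [Real.rpow_one] at this
    linarith
  have hlXb : Real.log (X ^ b) = b * L := by rw [Real.log_rpow hX0, hL]
  have hlD : Real.log D.D0 = δ * L := by rw [hD0, Real.log_rpow hX0, hL]
  have hD01 : 1 ≤ D.D0 := by rw [hD0]; exact Real.one_le_rpow hX1 hδ.le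
  have c1 : (N + 1) * r ≤ δ / 2 * L := by
    have h1 : (N + 1) * r * (2 / δ) ≤ L := by linarith
    have h2 : (N + 1) * r * (2 / δ) * (δ / 2) ≤ L * (δ / 2) :=
      mul_le_mul_of_nonneg_right h1 (by positivity)
    have h3 : (N + 1) * r * (2 / δ) * (δ / 2) = (N + 1) * r := by field_simp
    linarith
  have c2 : N * r ≤ c / 2 * L := by
    have h1 : N * r * (2 / c) ≤ L := by linarith
    have h2 : N * r * (2 / c) * (c / 2) ≤ L * (c / 2) :=
      mul_le_mul_of_nonneg_right h1 (by positivity)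
    have h3 : N * r * (2 / c) * (c / 2) = N * r := by field_simp
    linarith
  have c3 : N * (m * (2 * r)) ≤ L := by linarith
  obtain ⟨e, he⟩ : ∃ e : ℝ, e = δ * L - (N + 1) * r := ⟨_, rfl⟩
  have he1 : δ / 2 * L ≤ e := by rw [he]; linarith
  have he0 : 0 ≤ e := (by positivity : 0 ≤ δ / 2 * L).trans he1
  have hcL : 0 < c * L := mul_pos hc hL0
  have hme : c₂ * L ≤ m * e := by
    have h1 : m * (δ / 2 * L) ≤ m * e := mul_le_mul_of_nonneg_left he1 hm0.le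
    have h2 : 2 * c₂ * L ≤ m * δ * L := mul_le_mul_of_nonneg_right hmδ hL0.le
    linarith
  have key := H r hrr₁ (X ^ b) hXb D hP hh hD01 hDJ hN m C₂ G B₀ α (Real.exp (N * r)) e
    lo σ₀ 0 a (Real.exp D.n) hC₂ hG hB₀ hα le_rfl he0
    (by rw [hlD]; linarith) ?_ (Real.exp_pos _).le ?_ ?_ ?_
  · have k1 := key 1 (natl D.ps₀) k isPrim_one (by
        rw [LF_natl, ← hn, nm_one]; simp) (by
        show _ ≤ LF (natl D.ps₀)
        rw [LF_natl, ← hn]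
        linarith) (SbL_natl hz) (by
        rw [LF_natl, ← hn]
        linarith) hk (by rw [LF_natl, ← hn]; linarith)
    rw [SFK_natl_one, LF_natl, ← hn, hDJ] at k1
    refine k1.trans ?_
    have hH := one_le_Ht (natl D.ps₀)
    have h1 : (X ^ b) ^ (ε / (4 * m * b)) = X ^ (ε / (4 * m)) := by
      rw [← Real.rpow_mul hX0.le]
      congr 1
      field_simp
    have hXη : 1 ≤ X ^ η := Real.one_le_rpow hX1 hη0.le
    have hXε : 0 < X ^ (ε / (4 * m)) := Real.rpow_pos_of_pos hX0 _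
    have h2 : C₁ * (X ^ b) ^ (ε / (4 * m * b)) * (2 + C₂) ≤
        (3 * C₁ * C') * (X ^ (ε / (4 * m)) * X ^ η) := by
      rw [h1]
      have h3 : 2 + C₂ ≤ 3 * C' * X ^ η := by
        have : 1 ≤ C' * X ^ η := by nlinarith
        linarith
      calc C₁ * X ^ (ε / (4 * m)) * (2 + C₂) ≤ C₁ * X ^ (ε / (4 * m)) * (3 * C' * X ^ η) := by
            gcongr
        _ = _ := by ring
    have h4 : (C₁ * (X ^ b) ^ (ε / (4 * m * b)) * (2 + C₂)) ^ m ≤ (3 * C₁ * C') ^ m * X ^ ε := by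
      have h5 : (C₁ * (X ^ b) ^ (ε / (4 * m * b)) * (2 + C₂)) ^ m ≤
          ((3 * C₁ * C') * (X ^ (ε / (4 * m)) * X ^ η)) ^ m := by
        refine pow_le_pow_left₀ ?_ h2 m
        positivity
      refine h5.trans ?_
      rw [mul_pow, ← Real.rpow_add hX0, ← Real.rpow_natCast (X ^ _), ← Real.rpow_mul hX0.le]
      refine mul_le_mul_of_nonneg_left ?_ (by positivity)
      refine Real.rpow_le_rpow_of_exponent_le hX1 ?_
      have h6 : ε / (4 * m) * m = ε / 4 := by field_simp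
      nlinarith
    have h7 : 0 ≤ Ht (natl D.ps₀) ^ J := Real.rpow_nonneg (by linarith) _
    calc (C₁ * (X ^ b) ^ (ε / (4 * m * b)) * (2 + C₂)) ^ m * (G + B₀) * Ht (natl D.ps₀) ^ J *
          Real.exp (fl D.κ k D.n) ≤
        ((3 * C₁ * C') ^ m * X ^ ε) * (G + B₀) * Ht (natl D.ps₀) ^ J *
          Real.exp (fl D.κ k D.n) := by gcongr
      _ = _ := by ring
  · rw [hlD]
    have h1 : 4 * N * δ * L ≤ c * L := mul_le_mul_of_nonneg_right hδc hL0.le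
    linarith
  · intro ps hps hL1 hl1
    have hns : LF ps ≤ D.n + N * (0 + m * (2 * r)) := by
      have := hps.LF_le (by positivity) hN
      rwa [LF_natl, ← hn] at this
    rw [hlXb]
    have g1 : c₀ * L + L ≤ b * L := by
      have : (c₀ + 1) * L ≤ b * L := mul_le_mul_of_nonneg_right (by rw [hb]; linarith) hL0.le
      linarith
    have g2 : c₀ * L + c₂ * L + 2 * ε * L ≤ b * L := by
      have : (c₀ + c₂ + 2 * ε) * L ≤ b * L := mul_le_mul_of_nonneg_right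
        (by rw [hb]; linarith) hL0.le
      linarith
    refine ⟨by linarith, ?_⟩
    have g3 : (m : ℝ) * (2 * α) ≤ ε * L := by
      have h1 : (m : ℝ) * (2 * α) ≤ m * (2 * (η * L)) := by gcongr
      have h2 : m * (2 * (η * L)) = 2 * (m * η) * L := by ring
      rw [h2, hmη] at h1
      linarith
    linarith
  · simpa using hT0
  · intro B s' a' Q' σ' hB hs1 hs2 ha1 ha2 hQ1 hQ2 hσ' hcl
    refine hNT B s' a' Q' σ' hB hs1 (by linarith) ha1 (by linarith) hQ1 hQ2 ?_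
    have e1 : σ' - Real.log D.D0 + r = σ' - e - N * r := by rw [hlD, he]; ring
    rw [e1]
    exact hcl

end Crest.Agent.R017.RXg848
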