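import Crest.Agent.R017.RGi_64
import Crest.Agent.R017.RXg_848
import Crest.Agent.R017.LBo_813

/-!
# Row 17, C.REMg (RG), glue (helper64), part j: the interface of the lower bound (LB)

* `LBp`, `LBN w Rh` : the lower bound (helper48) with its R-side hypotheses abstract (`Rh`)
* `RFacts` : sizes (the R-side hypotheses `RLeaf` are in `RGjL_64`)
-/

set_option autoImplicit false

noncomputable section

open Complex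
open scoped ComplexConjugate

namespace Crest.Agent.R017.RG64

open Crest.Agent.R012 Crest.Agent.R012.Eis Crest.Agent.R012.LS2 Crest.Agent.R012.Gauss880
open Crest.Agent.R017.CM106 Crest.Agent.R017.HP842 Crest.Agent.R017.FE47
open Crest.Agent.R017.End699 hiding pw
open Crest.Agent.R017.B770
open Crest.Agent.R017.Prov71
open Crest.Agent.R017.Rough381 (VF)
open Crest.Agent.R017.Leg381
open Crest.Agent.R017.E1551 (sg tws JB yv)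
open Crest.Agent.R017.LBo813 (rho)
open Crest.Agent.R017.XP699 (LL Chd hcost cst)

/-- parameters of the lower bound: `D` the divisors of the windows (`LBn`'s `D`), `G₀` the
boundary between the numbers (SA0) and (L+), `E0` the cutoff of the gain -/
structure LBp where
  Cw : ℝ
  η : ℝ
  Aw : ℕ
  K : ℝ
  X : ℝ
  Y : ℝ
  R : ℝ
  J : ℕ
  N₀ : ℕ
  N₁ : ℕ
  E0 : ℝ
  D : ℝ
  G₀ : ℝ

/-- **the lower bound (LB)** (helper48, helper180), v4, R-side hypotheses abstract; the parameters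
`θ`, `lam`, `h` of the proof are functions of `E0`; `Rh` contains the room
`X ^ 2 * E0 ^ 20 ≤ K * N₀` (recursion) or the bound of the squares at the second scale (terminal
bound); (SA0) and (L+) only up to the level `9 Λ N₁` (`Λ ≥ 1` a constant) -/
def LBN (w : ℝ → ℝ) (Λ : ℝ) (Rh : LBp → (Eis → ℂ) → ℝ → Prop) : Prop :=
  ∀ (Cw R ε e₀ : ℝ) (Aw J : ℕ), 0 ≤ Cw → 0 ≤ R → 0 < ε → 0 < e₀ → J + 2 ≤ Aw →
  ∃ C : ℝ, 0 ≤ C ∧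
  ∀ (K X Y E0 D G₀ η : ℝ) (N₀ N₁ : ℕ), 1 ≤ X → X ≤ Y → K ≤ Y → E0 ≤ Y → 1 ≤ D → D ≤ Y →
    (N₁ : ℝ) ≤ Y → Y ^ e₀ ≤ E0 → E0 ^ 60 ≤ K → 1 ≤ N₀ → N₀ ≤ N₁ →
    (N₁ : ℝ) * E0 ^ 30 ≤ K ^ 2 → 0 < η → η ≤ 1 →
    ∀ α : Eis → ℂ, (∀ n, α n ≠ 0 → n ∈ S Y) →
    (∀ n, α n ≠ 0 → |Real.log (nm n) - Real.log X| ≤ R) → (∀ n, ‖α n‖ ≤ Y ^ ε) →
    ∀ Ma Ml Rn : ℝ, 0 ≤ Ma → 0 ≤ Ml → 0 ≤ Rn →
    (∀ g ∈ S Y, (nm g : ℝ) ≤ G₀ → ∀ V : ℝ, 1 ≤ V → V ≤ 9 * (Λ * N₁) * nm g → ∀ t : ℝ,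
      VF V (tws (sg α g) t) ≤
        Ma / (nm g : ℝ) ^ 2 * ((V * K / (X / nm g) ^ 2) ^ (1 / 3 : ℝ)) * (1 + |t|) ^ J) →
    (∀ g ∈ S Y, ∀ B V : ℝ, 1 ≤ B → B ≤ Y → 1 ≤ V → V ≤ 9 * (Λ * N₁) / (nm g : ℝ) ^ 2 →
      ∀ t : ℝ, JB Y α (fun U => G₀ < nm (g * U)) g B V t ≤
        Ml / (nm g : ℝ) ^ 2 * yv K X g V * (1 + |t|) ^ J) →
    Rh ⟨Cw, η, Aw, K, X, Y, R, J, N₀, N₁, E0, D, G₀⟩ α Rn →
    LBn w Cw η Aw K X Y D N₁ (rho N₀ N₁) R J α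
      (C * (η⁻¹) ^ (2 * J + 2) * Y ^ (4 * ε) *
        (X ^ 2 + E0 ^ (-(1 / 2) : ℝ) * (Ma + Ml) + Rn))

/-- the facts about the list `ps` (level `Lv`): family `K`, length `LL ps₀` of the parent -/
structure RFacts (K c ε X : ℝ) (ps₀ : List Pq) (ps : List Pf) (Lv : ℝ) (N₀ N₁ : ℕ) : Prop where
  nK : LL Dq ps₀ ≤ (K + ε) * Real.log X
  lo : LL Dq ps₀ - c * Real.log X ≤ LF ps
  hi : LF ps ≤ LL Dq ps₀ + ε * Real.log X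
  v0 : 0 ≤ Lv
  v3 : 3 * Lv + 200 * c * Real.log X ≤ 2 * K * Real.log X
  N0 : Real.exp Lv ≤ N₀
  N01 : N₀ ≤ N₁
  N1 : 9 * (N₁ : ℝ) ≤ Real.exp (Lv + 4)
  n56 : 6 * LL Dq ps₀ ≤ (5 * K + ε) * Real.log X
  vn : Lv ≤ 2 * LF ps + 20 * c * Real.log X
  N2 : 2 * N₀ ≤ N₁
  ec : ε ≤ c

end Crest.Agent.R017.RG64
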