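import Crest.Agent.R017.NGr_708
import Crest.Agent.R017.NEk_551
import Crest.Agent.R017.R4g_571
import Crest.Agent.R017.P1Nh_73

/-!
# Row 17, FlatNE, NumEq: the `R`-half of the class Gram number at the near leaf (helper708), class N

* `rk_half`
-/

set_option autoImplicit false
set_option linter.unusedVariables false

noncomputable section

open Finset MeasureTheory
open scoped ComplexConjugate Classical

namespace Crest.Agent.R017.NGn708

open Crest.Agent.R012 Crest.Agent.R012.Eis Crest.Agent.R012.MC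
open Crest.Agent.R012.LS2 (S mem_S bl mem_bl)
open Crest.Agent.R012.Weight600 (pw)
open Crest.Agent.R017.HP842 (sqc)
open Crest.Agent.R017.B770
open Crest.Agent.R017.Prov71
open Crest.Agent.R017.Leg381 (Pf alF LF natl)
open Crest.Agent.R017.XRG106 (RFp)
open Crest.Agent.R017.XP699 (LL Chd hcost cst)
open Crest.Agent.R017.RG64 (SbL Ht one_le_Ht)
open Crest.Agent.R017.RGB545 (Th TK)
open Crest.Agent.R017.C70 (JW okJ_JW)
open Crest.Agent.R017.E3Z548 (FH)
open Crest.Agent.R017.E3Kc548 (LI mem_LI)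
open Crest.Agent.R017.E3Hf290 (RN2F)
open Crest.Agent.R017.R3571 (W2 RMm slp_two W2_at)
open Crest.Agent.R017.Mode405 (Slp)
open Crest.Agent.R017.RGw813 (bt T9 mem_T9)
open Crest.Agent.R017.Win813 (WK)
open Crest.Agent.R017.PX764 (n6)
open Crest.Agent.R017.NE73 (gN)
open Crest.Agent.R017.FE47
open Crest.Agent.R017.NEg551 (NFacts NNum F3)
open Crest.Agent.R017.RnP571 (g2)
open Crest.Agent.R017.NGr708 (gr_line g2_cases rn_num)
open Crest.Agent.R017.P1N904 (Gs Gs_ge)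
open Crest.Agent.R017.P1N73 (hN)

lemma JWd_le {D : ℝ} {N : ℝ} {x : Eis × Eis} (hx : x ∈ JW D (1 / 10) N) :
    (nm x.1 : ℝ) ≤ D := by
  unfold C70.JW at hx
  rw [mem_filter, mem_product, mem_primBall] at hx
  have h1 : nm x.1 ≤ ⌊D⌋₊ := hx.1.1.1
  have h0 : 0 < ⌊D⌋₊ := lt_of_lt_of_le (nm_pos.2 hx.1.1.2.ne_zero) h1
  exact (Nat.cast_le.2 h1).trans (Nat.floor_le (by
    by_contra h2
    push_neg at h2
    rw [Nat.floor_of_nonpos h2.le] at h0
    exact absurd h0 (lt_irrefl _)))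

set_option maxHeartbeats 1600000 in
/-- **the `R`-half of the class Gram number**: all `W0` facts of `NGk708.gk_gen` at
`hf i δ = hN (K log X) k (LF ps) δ` -/
theorem rk_half {h : ℝ → ℝ} {cu : ℝ} (hpu : PU h cu) {K c : ℝ} (hc : 0 < c)
    (hcK : 1000000 * c ≤ K) (N : ℕ) {c₂ M : ℝ} (hc₂ : 2 * K + 3 ≤ c₂) (hM : 0 ≤ M) :
    ∃ a : ℕ, 1 ≤ a ∧ ∀ ε s : ℝ, 0 < ε → 0 ≤ s → ∃ C_R r : ℝ, 1 ≤ C_R ∧ 0 ≤ r ∧
    ∀ c₁ : ℝ, 1 ≤ c₁ → ∃ X₁ : ℝ, ∀ X : ℝ, 3 ≤ X → X₁ ≤ X → ∀ P : DPar, P.OK →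
    ∀ ps₀ : List Pq, ps₀.length ≤ N → (∀ q ∈ ps₀, Dq.len q ≤ c₂ * Real.log X) →
    ∀ v : ℝ, NNum K v c ε X ps₀ →
    ∀ (q : Eis) (ps : List Pf) (Lv : ℝ) (N₁ : ℕ),
    NFacts K v (gN K c (LL Dq ps₀ / Real.log X)) ε X ps₀ ps Lv N₁ →
    q ≠ 0 → (nm q : ℝ) ≤ X ^ c₂ → SbL s ps ps₀ → ∀ Bd : ℝ, 1 ≤ Bd →
    (∀ (θ : Th 9 K) (l : ℝ) (ps' : List Pq), 0 ≤ l → l ≤ TK K * Real.log X →
      List.Forall₂ (Chd Dq hcost r (C_R * X ^ c₂)) ps' ps₀ →
      LL Dq ps' ≤ LF ps + ε * Real.log X → l / Real.log X - θ.1 0 ≤ ε →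
      RFp P h l ps' ≤ Bd * cst hcost ps' ps₀ ^ M *
        X ^ (4 / 3 * (LF ps / Real.log X) + (Lv / Real.log X + K) / 3 +
          (θ.1 0 + min (LF ps / Real.log X / 4) (3 / 8 * θ.1 0) + LL Dq ps' / Real.log X -
            (θ.1 0 - l / Real.log X) / 3 -
              (4 / 3 * (LF ps / Real.log X) + (Lv / Real.log X + K) / 3)))) →
    ∀ (δ Cw η : ℝ) (Jn Aw : ℕ), 0 ≤ δ → δ ≤ 1 → 3 * N * δ ≤ ε / 4 → 0 ≤ Cw → 0 < η → η ≤ 1 →
    Jn + 2 ≤ Aw → (N : ℝ) ^ 2 * M ≤ Jn → ∀ φ : ℝ → ℝ, WK Cw η Aw φ → ∀ b ∈ T9,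
    ∀ (t D E0 k : ℝ), D ≤ Real.exp (LF ps - 3 / 4 * (K * Real.log X) + c * Real.log X) →
    0 ≤ k → k ≤ K * Real.log X + c * Real.log X → 1 ≤ E0 →
    Real.log E0 ≤ 9 / 22 * F3 (K * Real.log X) (LF ps) + 10 * c * Real.log X →
    ∃ W0 : ℕ → Eis → Eis → ℝ → ℝ, (∀ i d f, Slp a (W0 i d f)) ∧
      (∀ i ∈ LI (1 / 10) N₁, ∀ d ∈ (JW D (1 / 10) N₁).image Prod.fst, ∀ f ∈ S E0, ∀ γ π,
        IsPrim γ → IsPrim π → (nm π : ℝ) ≤ c₁ * (X ^ (K + 1)) ^ 300 → ∀ Λ : ℝ, 0 < Λ →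
        (nm γ : ℝ) * n6 γ ^ 2 * ∑ r ∈ bl Λ, RMm ((Jn + 2 : ℕ) : ℝ)
          (fun n => bt φ (sqc q (alF (X ^ δ) (X ^ δ) P h ps)) b (d * n) *
            pw t (nm (d * n))) f γ π r ≤ W0 i d f Λ) ∧
      (∀ i ∈ LI (1 / 10) N₁, ∀ d ∈ (JW D (1 / 10) N₁).image Prod.fst, ∀ f ∈ S E0,
        FH (Real.exp k) (Real.exp (hN (K * Real.log X) k (LF ps) (Real.log (nm d))))
          (Real.exp i) * RN2F c₁ (Real.exp k) (Real.exp i) (Real.exp (LF ps))
            (fun d _ => Real.exp (hN (K * Real.log X) k (LF ps) (Real.log (nm d)))) (W0 i) d f ≤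
        ((3 + c₁) * ((Cw ^ 2 * (η⁻¹) ^ Jn) * (C_R * X ^ (ε / 2) * (1 + |t|) ^ Jn *
          ((Ht ps * Ht (natl ps₀)) ^ M * Bd))) *
            Real.exp (Gs (K * Real.log X) k (LF ps))) / (nm d * nm f)) := by
  have hK : 0 < K := by linarith
  have hc₂1 : 1 ≤ c₂ := by linarith
  obtain ⟨a, ha, H₁⟩ := R3571.RH_leaf hpu N (c₀ := c₂) (m₀ := 300 * (K + 1) + 1) (μ := c)
    (M := M) hc₂1 (by positivity) hc hM
  refine ⟨a, ha, fun ε s hε hs => ?_⟩
  obtain ⟨C_R, r, X_R, hC_R, hr, H₂⟩ := H₁ (ε / 4) s (by positivity) hs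
  refine ⟨C_R, r, hC_R, hr, fun c₁ hc₁ => ?_⟩
  obtain ⟨B₁, hB₁⟩ : ∃ B₁ : ℝ, B₁ = Real.log 81 + Real.log c₁ + 10 := ⟨_, rfl⟩
  have hl81 : 0 ≤ Real.log 81 := Real.log_nonneg (by norm_num)
  have hlc₁ : 0 ≤ Real.log c₁ := Real.log_nonneg hc₁
  refine ⟨max X_R (Real.exp (2 * B₁ / c + B₁)), ?_⟩
  intro X hX3 hXX P hP ps₀ hlen hz v hnum q ps Lv N₁ hF hq hqX hps Bd hBd hcl δ Cw η Jn Aw hδ0 hδ1
    hδN hCw hη hη1 hJn hJM φ hφ b hb t D E0 k hD hk0 hkK hE1 hlE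
  have hXR : X_R ≤ X := (le_max_left _ _).trans hXX
  have hX0 : 0 < X := by linarith
  have hX1 : 1 ≤ X := by linarith
  obtain ⟨L, hL⟩ : ∃ L : ℝ, L = Real.log X := ⟨_, rfl⟩
  have hLbig : 2 * B₁ / c + B₁ ≤ L := by
    rw [hL, ← Real.log_exp (2 * B₁ / c + B₁)]
    exact Real.log_le_log (Real.exp_pos _) ((le_max_right _ _).trans hXX)
  have hB₁0 : 10 ≤ B₁ := by linarith
  have hq0 : 0 ≤ 2 * B₁ / c := by positivity
  have hL0 : 0 < L := by linarith
  have hcL : 2 * B₁ ≤ c * L := by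
    have h1 : 2 * B₁ / c ≤ L := by linarith
    rwa [div_le_iff₀ hc, mul_comm L] at h1
  rw [← hL] at hcl hD hkK hlE hz ⊢
  -- the numbers
  have n1 := hnum.top
  have n2 := hnum.nK
  have n3 := hnum.Kn
  have n4 := hnum.sn
  have n5 := hnum.ec
  have f1 := hF.hi
  have f2 := hF.lo
  have f3 := hF.lv
  have f4 := hF.v0
  have f5 := hF.N1
  rw [← hL] at n1 n2 n3 n4 f1 f2 f3
  have hg : gN K c (LL Dq ps₀ / L) * L = LL Dq ps₀ - 3 / 4 * (K * L) + c * L := by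
    unfold NE73.gN
    field_simp
  rw [hg] at f2
  obtain ⟨κ, hκ⟩ : ∃ κ, κ = K * L := ⟨_, rfl⟩
  obtain ⟨y, hy⟩ : ∃ y, y = c * L := ⟨_, rfl⟩
  obtain ⟨x, hx⟩ : ∃ x, x = ε * L := ⟨_, rfl⟩
  obtain ⟨u, hu⟩ : ∃ u, u = v * L := ⟨_, rfl⟩
  obtain ⟨m, hm⟩ : ∃ m, m = LF ps := ⟨_, rfl⟩
  have e1 : (K + v + ε) * L = κ + u + x := by rw [hκ, hu, hx]; ring
  have e2 : (4 * K + ε) * L = 4 * κ + x := by rw [hκ, hx]; ring
  have e3 : 3 * K * L = 3 * κ := by rw [hκ]; ring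
  have e4 : 100 * c * L = 100 * y := by rw [hy]; ring
  have e5 : (7 * K + ε) * L = 7 * κ + x := by rw [hκ, hx]; ring
  have e6 : (v + ε) * L = u + x := by rw [hu, hx]; ring
  have e7 : 10 * c * L = 10 * y := by rw [hy]; ring
  rw [e1, e4] at n1
  rw [e2] at n2
  rw [e3, ← hx] at n3
  rw [← hu, e4, e5] at n4
  rw [← hx, ← hm] at f1
  rw [← hκ, ← hy, ← hm] at f2
  rw [e6, ← hm] at f3
  rw [← hκ, e7, ← hm] at hlE
  rw [← hκ, ← hy, ← hm] at hD
  rw [← hκ, ← hy] at hkK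
  rw [← hκ, ← hm]
  have hy0 : 0 < y := by rw [hy]; positivity
  have hxy : x ≤ y := by rw [hx, hy]; exact mul_le_mul_of_nonneg_right n5 hL0.le
  have hx0 : 0 < x := by rw [hx]; positivity
  have hκy : 1000000 * y ≤ κ := by
    rw [hκ, hy, ← mul_assoc]
    exact mul_le_mul_of_nonneg_right hcK hL0.le
  have hκ0 : 0 < κ := by linarith
  have hm3 : 3 * κ ≤ 4 * m + 4 * y := by linarith
  have hm5 : 5 * m ≤ 4 * κ + 6 * y := by linarith
  have hV : 5 * (Lv + m) ≤ 7 * κ := by linarith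
  have hm0 : 0 ≤ m := by linarith
  rw [← hy] at hcL
  obtain ⟨G, hG⟩ : ∃ G, G = Gs κ k m := ⟨_, rfl⟩
  obtain ⟨hG1, hG2, hG3⟩ := Gs_ge κ k m
  rw [← hG] at hG1 hG2 hG3 ⊢
  -- levels
  have hN₁ : Real.log N₁ ≤ Lv + 4 := by
    rcases Nat.eq_zero_or_pos N₁ with h0 | h0
    · rw [h0]; simp; linarith
    · have h1 : (N₁ : ℝ) ≤ Real.exp (Lv + 4) := by
        have : (0 : ℝ) ≤ N₁ := Nat.cast_nonneg _
        linarith
      rw [← Real.log_exp (Lv + 4)]
      exact Real.log_le_log (by exact_mod_cast h0) h1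
  have hi : ∀ i : ℕ, i ∈ LI (1 / 10) (N₁ : ℝ) → (i : ℝ) ≤ Lv + 5 := by
    intro i hi
    have h1 := (mem_LI hi).2.2
    have h2 : Real.exp (i : ℝ) ≤ Real.exp (Lv + 5) := by
      refine h1.trans ?_
      have h3 : (N₁ : ℝ) ≤ Real.exp (Lv + 4) := by
        have : (0 : ℝ) ≤ N₁ := Nat.cast_nonneg _
        linarith
      have h4 : Real.exp (Lv + 5) = Real.exp 1 * Real.exp (Lv + 4) := by
        rw [← Real.exp_add]; congr 1; ring
      rw [h4]
      exact mul_le_mul_of_nonneg_left h3 (Real.exp_pos _).le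
    exact Real.exp_le_exp.1 h2
  -- `H`
  obtain ⟨hh, hhd⟩ : ∃ hh : ℝ → ℝ, hh = fun z => hN κ k m z := ⟨_, rfl⟩
  have hh_le : ∀ z, z ≤ m - 3 / 4 * κ + y →
      hh z ≤ 2 * k + 13 / 3 * m - 4 / 3 * z + 2 * y - 3 * G := by
    intro z hz'
    rw [hhd, hG]
    show hN κ k m z ≤ _
    unfold P1N73.hN
    have : max κ (4 / 3 * (m - z)) ≤ 4 / 3 * (m - z) + 4 / 3 * y := max_le (by linarith) (by linarith)
    linarith
  have hh_le0 : ∀ z, 0 ≤ z → hh z ≤ 2 * y := by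
    intro z hz'
    rw [hhd]
    show hN κ k m z ≤ _
    unfold P1N73.hN
    obtain ⟨g1, g2', g3⟩ := Gs_ge κ k m
    have : max κ (4 / 3 * (m - z)) ≤ 4 / 3 * m + 4 / 3 * y := max_le (by linarith) (by linarith)
    linarith
  -- the top levels
  obtain ⟨Im, hIm⟩ : ∃ Im : ℕ → Eis → ℝ, Im = fun (i : ℕ) (d : Eis) =>
    max 0 (m + (i : ℝ) + hh (Real.log (nm d)) - k + y) := ⟨_, rfl⟩
  obtain ⟨Tf, hTf⟩ : ∃ Tf : ℕ → Eis → ℝ, Tf = fun (i : ℕ) (d : Eis) =>
    Im i d + min (m / 4) (3 / 8 * Im i d) := ⟨_, rfl⟩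
  have hIm0 : ∀ i d, 0 ≤ Im i d := fun i d => by rw [hIm]; exact le_max_left _ _
  have hTf0 : ∀ i d, 0 ≤ Tf i d := fun i d => by
    rw [hTf]
    have h1 : 0 ≤ min (m / 4) (3 / 8 * Im i d) := le_min (by linarith) (by linarith [hIm0 i d])
    linarith [hIm0 i d]
  obtain ⟨P1, hP1⟩ : ∃ P1 : ℕ → Eis → ℝ, P1 = fun (i : ℕ) (d : Eis) =>
    c₁ * (Real.exp m * Real.exp (i : ℝ) * Real.exp (hh (Real.log (nm d))) / Real.exp k) := ⟨_, rfl⟩
  have hP0 : ∀ i d, 0 < P1 i d := fun i d => by rw [hP1]; positivity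
  obtain ⟨k₁, hk₁⟩ : ∃ k₁, k₁ = (Cw ^ 2 * (η⁻¹) ^ Jn) * (C_R * X ^ (ε / 2) * (1 + |t|) ^ Jn *
    ((Ht ps * Ht (natl ps₀)) ^ M * Bd)) := ⟨_, rfl⟩
  have hHt : 1 ≤ Ht ps * Ht (natl ps₀) :=
    one_le_mul_of_one_le_of_one_le (one_le_Ht _) (one_le_Ht _)
  have hHtM : 0 ≤ (Ht ps * Ht (natl ps₀)) ^ M := Real.rpow_nonneg (by linarith) _
  have ht0 : (0 : ℝ) ≤ (1 + |t|) ^ Jn := pow_nonneg (by positivity) _
  have hXε : 0 ≤ X ^ (ε / 2) := Real.rpow_nonneg hX0.le _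
  have hk₁0 : 0 ≤ k₁ := by
    rw [hk₁]
    have h1 : 0 ≤ η⁻¹ ^ Jn := by positivity
    have h2 : 0 ≤ C_R := by linarith
    have h3 : 0 ≤ Bd := by linarith
    positivity
  obtain ⟨W0, hW0⟩ : ∃ W0 : ℕ → Eis → Eis → ℝ → ℝ, W0 = fun i d _ => W2 a (P1 i d)
    (k₁ * Real.exp (Tf i d) * (Real.exp m / nm d) ^ (2 / 3 : ℝ)) := ⟨_, rfl⟩
  have hpair : ∀ d ∈ (JW D (1 / 10) N₁).image Prod.fst, IsPrim d ∧ 0 ≤ Real.log (nm d) ∧
      Real.log (nm d) ≤ m - 3 / 4 * κ + y ∧ (nm d : ℝ) ≤ Real.exp (m - 3 / 4 * κ + y) := by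
    intro d hd
    obtain ⟨xx, hxx, rfl⟩ := mem_image.1 hd
    have hdp : IsPrim xx.1 := (okJ_JW _ _ _).prim xx hxx
    have hd1 : (1 : ℝ) ≤ nm xx.1 := by exact_mod_cast nm_pos.2 hdp.ne_zero
    have hdD : (nm xx.1 : ℝ) ≤ Real.exp (m - 3 / 4 * κ + y) := (JWd_le hxx).trans hD
    refine ⟨hdp, Real.log_nonneg hd1, ?_, hdD⟩
    rw [← Real.log_exp (m - 3 / 4 * κ + y)]
    exact Real.log_le_log (by linarith) hdD
  have hXe : ∀ z : ℝ, z ≤ c₂ * L → Real.exp z ≤ X ^ c₂ := by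
    intro z hz'
    rw [Real.rpow_def_of_pos hX0, ← hL, mul_comm L]
    exact Real.exp_le_exp.2 hz'
  have hc₂L : 2 * κ + 3 * L ≤ c₂ * L := by
    have := mul_le_mul_of_nonneg_right hc₂ hL0.le
    rw [hκ]
    linarith
  have hF3 : F3 κ m ≤ κ := by
    unfold NEg551.F3
    exact max_le hκ0.le (by linarith)
  have hLy : y ≤ L * K := by rw [mul_comm, ← hκ]; linarith
  refine ⟨W0, ?_, ?_, ?_⟩
  · intro i d f
    rw [hW0]
    exact slp_two ha (hP0 i d) (by positivity)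
  · intro i hi' d hd f hf γ π' hγ hπ' hπm Λ hΛ
    obtain ⟨hdp, hld0, hld1, hdD⟩ := hpair d hd
    have hE0 : 0 ≤ E0 := by linarith
    have hf2 := (mem_S hE0).1 hf
    have hiL := hi i hi'
    have hhb := hh_le0 _ hld0
    have hdX : (nm d : ℝ) ≤ X ^ c₂ := hdD.trans (hXe _ (by linarith))
    have hE0e : E0 = Real.exp (Real.log E0) := (Real.exp_log (by linarith)).symm
    have hfX : (nm f : ℝ) ≤ X ^ c₂ := by
      refine hf2.1.trans ?_
      rw [hE0e]
      exact hXe _ (by linarith)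
    have hP1X : P1 i d ≤ X ^ c₂ := by
      rw [hP1]
      have h1 : c₁ * (Real.exp m * Real.exp i * Real.exp (hh (Real.log (nm d))) / Real.exp k) =
          Real.exp (Real.log c₁ + (m + i + hh (Real.log (nm d)) - k)) := by
        rw [Real.exp_add, Real.exp_log (by linarith), Real.exp_sub, Real.exp_add, Real.exp_add]
      show c₁ * (Real.exp m * Real.exp i * Real.exp (hh (Real.log (nm d))) / Real.exp k) ≤ _
      rw [h1]
      exact hXe _ (by linarith)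
    have hIm1 : m + i + hh (Real.log (nm d)) - k + y ≤ Im i d := by
      rw [hIm]; exact le_max_right _ _
    have hImT : Im i d ≤ TK K * L := by
      rw [hIm]
      unfold RGB545.TK
      have e9 : 10 * (K + 1) * L = 10 * κ + 10 * L := by rw [hκ]; ring
      rw [e9]
      exact max_le (by linarith) (by linarith)
    have hP1I : 81 * P1 i d * X ^ (c / 2) ≤ Real.exp (Im i d) := by
      rw [hP1]
      have h1 : 81 * (c₁ * (Real.exp m * Real.exp i * Real.exp (hh (Real.log (nm d))) /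
          Real.exp k)) * X ^ (c / 2) =
          Real.exp (Real.log 81 + Real.log c₁ + (m + i + hh (Real.log (nm d)) - k) + y / 2) := by
        rw [Real.exp_add, Real.exp_add, Real.exp_add, Real.exp_log (show (0 : ℝ) < 81 by norm_num),
          Real.exp_log (show (0 : ℝ) < c₁ by linarith), Real.exp_sub, Real.exp_add, Real.exp_add,
          Real.rpow_def_of_pos hX0, ← hL]
        have h2 : L * (c / 2) = y / 2 := by rw [hy]; ring
        rw [h2]; ring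
      show 81 * (c₁ * (Real.exp m * Real.exp i * Real.exp (hh (Real.log (nm d))) /
          Real.exp k)) * X ^ (c / 2) ≤ _
      rw [h1]
      exact Real.exp_le_exp.2 (by linarith)
    have hπm' : (nm π' : ℝ) ≤ X ^ (300 * (K + 1) + 1) := by
      refine hπm.trans ?_
      have h1 : c₁ ≤ X := by
        rw [← Real.exp_log (show (0 : ℝ) < c₁ by linarith), ← Real.exp_log hX0, ← hL]
        exact Real.exp_le_exp.2 (by linarith)
      have h2 : (X ^ (K + 1)) ^ 300 = X ^ (300 * (K + 1)) := by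
        rw [← Real.rpow_natCast, ← Real.rpow_mul hX0.le]
        congr 1
        push_cast
        ring
      have h3 : X ^ (300 * (K + 1) + 1) = X * X ^ (300 * (K + 1)) := by
        rw [Real.rpow_add hX0 (300 * (K + 1)) 1, Real.rpow_one]
        ring
      rw [h2, h3]
      exact mul_le_mul_of_nonneg_right h1 (Real.rpow_nonneg hX0.le _)
    have key := H₂ X hX3 hXR P hP ps₀ hlen (by rw [← hL]; exact hz) q ps hq hqX hps (X ^ δ) δ hδ0
      hδ1 hδN Bd (m + Tf i d) (Im i d) hBd (by rw [← hm]; linarith [hTf0 i d]) (by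
        intro l ps' hl0 hl hch hLL
        rw [← hL] at hLL
        have h1 := hcl ⟨fun _ => Im i d / L, fun _ => by
            show (0 : ℝ) ≤ Im i d / L
            exact div_nonneg (hIm0 i d) hL0.le, fun _ => by
            show Im i d / L ≤ TK K
            rw [div_le_iff₀ hL0]; exact hImT⟩ l ps' hl0 (hl.trans hImT) hch (hLL.trans (by
              rw [← hx] at *
              have : ε / 4 * L ≤ x := by rw [hx]; nlinarith
              linarith)) (by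
                show l / L - Im i d / L ≤ ε
                have : l / L ≤ Im i d / L := div_le_div_of_nonneg_right hl hL0.le
                linarith)
        refine h1.trans (le_of_eq ?_)
        congr 1
        rw [Real.rpow_def_of_pos hX0, ← hL]
        congr 1
        show L * (4 / 3 * (LF ps / L) + (Lv / L + K) / 3 + (Im i d / L + min (LF ps / L / 4)
          (3 / 8 * (Im i d / L)) + LL Dq ps' / L - (Im i d / L - l / L) / 3 -
            (4 / 3 * (LF ps / L) + (Lv / L + K) / 3))) = _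
        rw [← hm]
        have h3 : min (m / L / 4) (3 / 8 * (Im i d / L)) = min (m / 4) (3 / 8 * Im i d) / L := by
          rw [← min_div_div_right hL0.le]
          congr 1 <;> ring
        rw [h3, hTf]
        field_simp
        ring) Cw η Aw Jn hCw hη hη1 hJn hJM φ hφ b (by
          have := (mem_T9.1 hb).2
          omega) t ((Jn + 2 : ℕ) : ℝ) (by push_cast; exact le_rfl) d f hdp hf2.2.1 hdX hfX (P1 i d)
      (hP0 i d) hP1X hP1I γ π' hγ hπ' hπm' Λ hΛ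
    refine key.trans (le_of_eq ?_)
    rw [hW0]
    show W2 a (P1 i d) _ Λ = W2 a (P1 i d) _ Λ
    congr 1
    have e8 : X ^ (2 * (ε / 4)) = X ^ (ε / 2) := by congr 1; ring
    have e9 : m + Tf i d - LF ps = Tf i d := by rw [← hm]; ring
    rw [e8, e9, hk₁, hm]
    ring
  · intro i hi' d hd f hf
    obtain ⟨hdp, hld0, hld1, hdD⟩ := hpair d hd
    have hE0 : 0 ≤ E0 := by linarith
    have hf2 := (mem_S hE0).1 hf
    have hiL := hi i hi'
    have hhb := hh_le _ hld1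
    have hf1 : (1 : ℝ) ≤ nm f := by exact_mod_cast nm_pos.2 hf2.2.1.ne_zero
    have hlf : Real.log (nm f) ≤ 9 / 22 * F3 κ m + 10 * y :=
      (Real.log_le_log (by linarith) hf2.1).trans hlE
    have hW : W0 i d f (c₁ * (Real.exp m * Real.exp i * Real.exp (hh (Real.log (nm d))) /
        Real.exp k)) ≤ k₁ * Real.exp (Tf i d) * (Real.exp m / nm d) ^ (2 / 3 : ℝ) := by
      have h1 : c₁ * (Real.exp m * Real.exp i * Real.exp (hh (Real.log (nm d))) / Real.exp k) =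
          P1 i d := by rw [hP1]
      rw [h1, hW0]
      show W2 a (P1 i d) _ (P1 i d) ≤ _
      rw [W2_at a (hP0 i d)]
    have hE : 0 ≤ hh (Real.log (nm d)) + 2 * i - k - Real.log (nm d) →
        2 / 3 * k - (hh (Real.log (nm d)) + i) / 3 + 5 / 3 * Real.log (nm d) +
          2 * Real.log (nm f) + g2 (hh (Real.log (nm d)) + 2 * i - k - Real.log (nm d))
            (m + i + hh (Real.log (nm d)) - k) + 2 / 3 * (m - Real.log (nm d)) + Tf i d ≤ G := by
      intro h0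
      have hIme : Im i d = m + i + hh (Real.log (nm d)) - k + y := by
        rw [hIm]
        exact max_eq_right (by linarith)
      have hFc : (F3 κ m = 0 ∧ 4 * m - 3 * κ ≤ 0) ∨ (9 * F3 κ m = 4 * m - 3 * κ) := by
        unfold NEg551.F3
        rcases le_total 0 ((4 * m - 3 * κ) / 9) with h1 | h1
        · right; rw [max_eq_right h1]; ring
        · left; exact ⟨max_eq_left h1, by linarith⟩
      have hline := gr_line (κ := κ) (q := k) (m := m) (V := Lv) (i := i)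
        (δ := Real.log (nm d)) (e := Real.log (nm f)) (F := F3 κ m)
        (h := hh (Real.log (nm d))) (G := G) (y := y) (w := min (m / 4) (3 / 8 * Im i d))
        (B := g2 (hh (Real.log (nm d)) + 2 * i - k - Real.log (nm d))
          (m + i + hh (Real.log (nm d)) - k)) hκ0 hy0.le (by linarith) hk0 hm5 hm3 hV (by linarith)
        hld0 hlf hFc hhb hG1 hG2 hG3 (min_le_left _ _)
        ((min_le_right _ _).trans (by rw [hIme])) (by
          rcases g2_cases (hh (Real.log (nm d)) + 2 * i - k - Real.log (nm d))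
            (m + i + hh (Real.log (nm d)) - k) with h1 | h1 | h1 | h1
          · exact Or.inl h1
          · exact Or.inr (Or.inl (by linarith))
          · exact Or.inr (Or.inr (Or.inl (by linarith)))
          · exact Or.inr (Or.inr (Or.inr (by linarith))))
      have hTe : Tf i d = (m + i + hh (Real.log (nm d)) - k + y) + min (m / 4) (3 / 8 * Im i d) := by
        rw [hTf]
        show Im i d + _ = _
        rw [hIme]
      rw [hTe]
      linarith
    have hfin := rn_num hc₁ (q := k) (i := i) (m := m) (h := hh (Real.log (nm d))) (k₁ := k₁)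
      (T := Tf i d) (G := G) hk₁0 hdp.ne_zero hf2.2.1.ne_zero
      (Hf := fun d _ => Real.exp (hN κ k m (Real.log (nm d)))) (W0 := W0 i) (by rw [hhd]) hW hE
    rw [← hk₁]
    exact hfin

end Crest.Agent.R017.NGn708
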