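import Crest.Agent.R017.P1Nh_73

/-!
# Row 17, FlatNE, NumEq: the `T`-half of the leaf of the class Gram sums (helper73), pure real

* `shP`     : the closed form of the joint exponent (helper320's / helper551's `shJ`, written out)
* `shP_le1`, `shP_le2` : the two forms of the claims, loss `b + (cL + w)`
* `lnT_c0`, `lnT_c1` : the fields of helper90's `LnT` at `hN`
* `dg_line` : the line of the diagonal
-/

set_option autoImplicit false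
set_option linter.unusedVariables false

noncomputable section

namespace Crest.Agent.R017.NGt73

open Crest.Agent.R017.P1N904 (Gs Gs_ge lw0 lw1)
open Crest.Agent.R017.P1N73 (hN hN_ge hN_cases tn_cases tf_cases)

/-- the closed form of the joint exponent -/
def shP (κ g n m cL η b k : ℝ) : ℝ :=
  (4 / 3 * (m - η - b) + ((k + b) + κ) / 3) +
    min (max 0 ((2 * (m - η - b) - (k + b + κ)) / 3)) (max 0 ((4 * (m - η - b) - 3 * κ) / 9)) +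
    max 0 (n - m + b - g) + cL

lemma shP_le1 {κ g n m cL η b k w : ℝ} (b0 : 0 ≤ b) (w0 : 0 ≤ w) (hg : n - m - g ≤ w) :
    shP κ g n m cL η b k ≤ 4 / 3 * (m - η - b) + (κ + k + b) / 3 +
      max 0 ((4 * (m - η - b) - 3 * κ) / 9) + b + (cL + w) := by
  unfold shP
  have h1 := min_le_right (max 0 ((2 * (m - η - b) - (k + b + κ)) / 3))
    (max 0 ((4 * (m - η - b) - 3 * κ) / 9))
  have h2 : max 0 (n - m + b - g) ≤ b + w := max_le (by linarith) (by linarith)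
  linarith

lemma shP_le2 {κ g n m cL η b k w : ℝ} (b0 : 0 ≤ b) (w0 : 0 ≤ w) (hg : n - m - g ≤ w) :
    shP κ g n m cL η b k ≤ max (2 * (m - η - b)) (4 / 3 * (m - η - b) + (κ + k + b) / 3) +
      b + (cL + w) := by
  unfold shP
  have h1 := min_le_left (max 0 ((2 * (m - η - b) - (k + b + κ)) / 3))
    (max 0 ((4 * (m - η - b) - 3 * κ) / 9))
  have h2 : max 0 (n - m + b - g) ≤ b + w := max_le (by linarith) (by linarith)
  have h3 := le_max_left (2 * (m - η - b)) (4 / 3 * (m - η - b) + (κ + k + b) / 3)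
  have h4 := le_max_right (2 * (m - η - b)) (4 / 3 * (m - η - b) + (κ + k + b) / 3)
  have h5 : max 0 ((2 * (m - η - b) - (k + b + κ)) / 3) ≤
      max (2 * (m - η - b)) (4 / 3 * (m - η - b) + (κ + k + b) / 3) -
        (4 / 3 * (m - η - b) + (κ + k + b) / 3) := max_le (by linarith) (by linarith)
  linarith

/-- the near lists, weak tolerance -/
structure Dw (k p v q t : ℝ) : Prop where
  k0 : 0 < k
  t0 : 0 ≤ t
  t1 : 1000 * t ≤ k
  p0 : 3 / 4 * k ≤ p + t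
  p1 : p ≤ 4 / 5 * k + t
  S : 5 * (v + p) ≤ 7 * k + t
  v0 : 0 ≤ v

lemma core0 {k p v q t s δ b l h G T : ℝ} (hD : Dw k p v q t)
    (δ0 : 0 ≤ δ) (b0 : 0 ≤ b)
    (hG1 : 26 / 15 * k ≤ G) (hG2 : q / 3 + 7 / 10 * k + 17 / 18 * p ≤ G)
    (hG3 : 2 / 3 * q + 13 / 9 * p ≤ G)
    (hl : l ≤ v - 2 * δ + t)
    (hh1 : 2 * q + 3 * p + k - 3 * G ≤ h + t) (hh2 : 2 * q + 3 * p + 4 / 3 * (p - δ) - 3 * G ≤ h + t)
    (hT1 : T ≤ 4 / 3 * (p - δ - b) + (k + l + b) / 3 + b + s ∨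
      T ≤ 4 / 3 * (p - δ - b) + (k + l + b) / 3 + (4 * (p - δ - b) - 3 * k) / 9 + b + s)
    (hT2 : T ≤ 2 * (p - δ - b) + b + s ∨ T ≤ 4 / 3 * (p - δ - b) + (k + l + b) / 3 + b + s) :
    2 / 3 * q - v / 3 + T + 2 * δ - p / 3 ≤ G + 2 * t + s ∧
    2 / 3 * q - (h + v) / 3 + T + 2 * δ - p / 3 ≤ G + 2 * t + s ∧
    2 / 3 * v + T + 2 * δ - p / 3 ≤ G + 2 * t + s := by
  obtain ⟨k0, t0, t1, p0, p1, S, v0⟩ := hD
  refine ⟨?_, ?_, ?_⟩
  · rcases hT1 with h1 | h1 <;> linarith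
  · rcases hT1 with h1 | h1 <;> linarith
  · rcases hT2 with h1 | h1 <;> linarith

lemma core1 {k p v q t s δ b l h G T : ℝ} (hD : Dw k p v q t)
    (δ0 : 0 ≤ δ) (b0 : 0 ≤ b)
    (hG1 : 26 / 15 * k ≤ G) (hG2 : q / 3 + 7 / 10 * k + 17 / 18 * p ≤ G)
    (hG3 : 2 / 3 * q + 13 / 9 * p ≤ G)
    (hl : l ≤ v - 2 * δ + t)
    (hh1 : 2 * q + 3 * p + k - 3 * G ≤ h + t) (hh2 : 2 * q + 3 * p + 4 / 3 * (p - δ) - 3 * G ≤ h + t)
    (hh : h ≤ 2 * q + 3 * p + k - 3 * G + t ∨ h ≤ 2 * q + 3 * p + 4 / 3 * (p - δ) - 3 * G + t)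
    (hT1 : T ≤ 4 / 3 * (p - δ - b) + (k + l + b) / 3 + b + s ∨
      T ≤ 4 / 3 * (p - δ - b) + (k + l + b) / 3 + (4 * (p - δ - b) - 3 * k) / 9 + b + s) :
    2 / 3 * q - (h + v) / 3 + T + 2 * δ + (v - 2 * δ - l) / 3 - p / 3 ≤ G + 3 * t + s ∧
    h / 3 + 2 / 3 * v + T + 2 * δ + (v - 2 * δ - l) / 3 - p / 3 ≤ G + 3 * t + s ∧
    2 / 3 * h + 7 / 6 * v - q / 3 + T + 2 * δ + (v - 2 * δ - l) / 3 - p / 3 ≤ G + 3 * t + s := by
  obtain ⟨k0, t0, t1, p0, p1, S, v0⟩ := hD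
  refine ⟨?_, ?_, ?_⟩
  · rcases hT1 with h1 | h1 <;> linarith
  · rcases hh with h2 | h2 <;> rcases hT1 with h1 | h1 <;> linarith
  · rcases hh with h2 | h2 <;> rcases hT1 with h1 | h1 <;> linarith

lemma core_d {k p V v q t s δ b l G T : ℝ} (k0 : 0 < k) (t0 : 0 ≤ t)
    (p0 : 3 / 4 * k ≤ p + t) (p1 : p ≤ 4 / 5 * k + t) (S : 5 * (V + p) ≤ 7 * k + t)
    (δ0 : 0 ≤ δ) (b0 : 0 ≤ b)
    (hG1 : 26 / 15 * k ≤ G) (hG3 : 2 / 3 * q + 13 / 9 * p ≤ G)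
    (hl : l ≤ v - 2 * δ + t)
    (hT1 : T ≤ 4 / 3 * (p - δ - b) + (k + l + b) / 3 + b + s ∨
      T ≤ 4 / 3 * (p - δ - b) + (k + l + b) / 3 + (4 * (p - δ - b) - 3 * k) / 9 + b + s) :
    2 / 3 * q - v / 3 + T + 2 * δ - p / 3 ≤ G + 2 * t + s ∧
    2 / 3 * q - v / 3 + T + 2 * δ - p / 3 + (V + t - q) ≤
      G + max 0 (k / 40 - q / 3) + 3 * t + s := by
  have h1 := le_max_left 0 (k / 40 - q / 3)
  have h2 := le_max_right 0 (k / 40 - q / 3)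
  constructor
  · rcases hT1 with h | h <;> linarith
  · rcases hT1 with h | h <;> linarith

/-- **`c0` of `LnT`** -/
theorem lnT_c0 {κ q m i g n cL w δ h : ℝ} (hD : Dw κ m i q w) (hg : n - m - g ≤ w) (δ0 : 0 ≤ δ)
    (h1 : hN κ q m δ - w ≤ h) {t : ℝ} (ht : t ≤ w) (E : ℝ) :
    ∀ b l : ℝ, 0 ≤ b → 0 ≤ l → l ≤ i - 2 * δ + t →
      lw0 q i h + shP κ g n m cL δ b l + 2 * δ - max 0 (b - E) - m / 3 ≤
        Gs κ q m + 3 * w + (cL + w) := by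
  intro b l b0 l0 hl
  have w0 := hD.t0
  obtain ⟨g1, g2, g3⟩ := Gs_ge κ q m
  obtain ⟨e1, e2⟩ := hN_ge κ q m δ
  obtain ⟨a1, a2, a3⟩ := core0 hD δ0 b0 g1 g2 g3 (by linarith : l ≤ i - 2 * δ + w)
    (by linarith : 2 * q + 3 * m + κ - 3 * Gs κ q m ≤ h + w) (by linarith)
    (tn_cases (shP_le1 (η := δ) (k := l) (cL := cL) b0 w0 hg))
    (tf_cases (shP_le2 (η := δ) (k := l) (cL := cL) b0 w0 hg))
  have hw : lw0 q i h ≤ Gs κ q m + 2 * w + (cL + w) -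
      (shP κ g n m cL δ b l + 2 * δ - m / 3) :=
    max_le (by linarith) (max_le (by linarith) (by linarith))
  have := le_max_left 0 (b - E)
  linarith

/-- **`c1` of `LnT`** -/
theorem lnT_c1 {κ q m i g n cL w δ h : ℝ} (hD : Dw κ m i q w) (hg : n - m - g ≤ w) (δ0 : 0 ≤ δ)
    (h1 : hN κ q m δ - w ≤ h) (h2 : h ≤ hN κ q m δ + w) {t : ℝ} (ht : t ≤ w) (E : ℝ) :
    ∀ b l : ℝ, 0 ≤ b → 0 ≤ l → l ≤ i - 2 * δ + t →
      lw1 q i h + shP κ g n m cL δ b l + 2 * δ - max 0 (b - E) + (i - 2 * δ - l) / 3 - m / 3 ≤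
        Gs κ q m + 3 * w + (cL + w) := by
  intro b l b0 l0 hl
  have w0 := hD.t0
  obtain ⟨g1, g2, g3⟩ := Gs_ge κ q m
  obtain ⟨e1, e2⟩ := hN_ge κ q m δ
  obtain ⟨a1, a2, a3⟩ := core1 hD δ0 b0 g1 g2 g3 (by linarith : l ≤ i - 2 * δ + w)
    (by linarith : 2 * q + 3 * m + κ - 3 * Gs κ q m ≤ h + w) (by linarith)
    (by
      rcases hN_cases κ q m δ with h3 | h3
      · exact Or.inl (by linarith)
      · exact Or.inr (by linarith))
    (tn_cases (shP_le1 (η := δ) (k := l) (cL := cL) b0 w0 hg))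
  have hw : lw1 q i h ≤ Gs κ q m + 3 * w + (cL + w) -
      (shP κ g n m cL δ b l + 2 * δ + (i - 2 * δ - l) / 3 - m / 3) :=
    max_le (by linarith) (max_le (by linarith) (by linarith))
  have := le_max_left 0 (b - E)
  linarith

/-- **the line of the diagonal** (`V` = the top level, `i` = the own level) -/
theorem dg_line {κ q m V i g n cL w δ : ℝ} (k0 : 0 < κ) (w0 : 0 ≤ w) (hm3 : 3 / 4 * κ ≤ m + w)
    (hm5 : m ≤ 4 / 5 * κ + w) (hV : 5 * (V + m) ≤ 7 * κ + w) (hg : n - m - g ≤ w) (δ0 : 0 ≤ δ)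
    {t : ℝ} (ht : t ≤ w) (E : ℝ) :
    ∀ b l : ℝ, 0 ≤ b → 0 ≤ l → l ≤ i - 2 * δ + t →
      2 / 3 * q - i / 3 + shP κ g n m cL δ b l + 2 * δ - max 0 (b - E) - m / 3 ≤
        Gs κ q m + max 0 (κ / 40 - q / 3) + 3 * w + (cL + w) - max 0 (V + w - q) := by
  intro b l b0 l0 hl
  obtain ⟨g1, g2, g3⟩ := Gs_ge κ q m
  obtain ⟨a1, a2⟩ := core_d (T := shP κ g n m cL δ b l) (s := cL + w) (v := i) (b := b) (l := l)
    (G := Gs κ q m) k0 w0 hm3 hm5 hV δ0 b0 g1 g3 (by linarith : l ≤ i - 2 * δ + w)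
    (tn_cases (shP_le1 (η := δ) (k := l) (cL := cL) b0 w0 hg))
  have h0 := le_max_left 0 (κ / 40 - q / 3)
  have hw : max 0 (V + w - q) ≤ Gs κ q m + max 0 (κ / 40 - q / 3) + 3 * w + (cL + w) -
      (2 / 3 * q - i / 3 + shP κ g n m cL δ b l + 2 * δ - m / 3) :=
    max_le (by linarith) (by linarith)
  have := le_max_left 0 (b - E)
  linarith

end Crest.Agent.R017.NGt73
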