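import Crest.Agent.R017.ET4b_90
import Crest.Agent.R017.NGt_73

/-!
# Row 17, FlatNE, NumEq: helper90's `LnT` at `hN` (helper73)

* `lnT_of` : `LnT Sh` from `Sh δ ≤ shP` (for helper551's / helper320's `shJ`: `fun b l => le_rfl`)
-/

set_option autoImplicit false
set_option linter.unusedVariables false

noncomputable section

namespace Crest.Agent.R017.NGu73

open Crest.Agent.R017.P1N904 (Gs)
open Crest.Agent.R017.P1N73 (hN)
open Crest.Agent.R017.NGt73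
open Crest.Agent.R017.ET490 (LnT)

theorem lnT_of {Sh : ℝ → ℝ → ℝ → ℝ} {κ q m i g n cL w δ h t : ℝ}
    (hSh : ∀ b l : ℝ, Sh δ b l ≤ shP κ g n m cL δ b l) (hD : Dw κ m i q w) (hg : n - m - g ≤ w)
    (δ0 : 0 ≤ δ) (h1 : hN κ q m δ - w ≤ h) (h2 : h ≤ hN κ q m δ + w) (ht : t ≤ w) (E : ℝ) :
    LnT Sh q i h m E δ t (Gs κ q m + 3 * w + (cL + w)) where
  c0 := by
    intro b l b0 l0 hl
    have h3 := lnT_c0 (cL := cL) hD hg δ0 h1 ht E b l b0 l0 hl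
    have h4 := hSh b l
    have e1 : ET490.lw0 q i h = P1N904.lw0 q i h := rfl
    rw [e1]
    linarith
  c1 := by
    intro b l b0 l0 hl
    have h3 := lnT_c1 (cL := cL) hD hg δ0 h1 h2 ht E b l b0 l0 hl
    have h4 := hSh b l
    have e1 : ET490.lw1 q i h = P1N904.lw1 q i h := rfl
    rw [e1]
    linarith

theorem dg_of {Sh : ℝ → ℝ → ℝ → ℝ} {κ q m V i g n cL w δ : ℝ}
    (hSh : ∀ b l : ℝ, Sh δ b l ≤ shP κ g n m cL δ b l) (k0 : 0 < κ) (w0 : 0 ≤ w)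
    (hm3 : 3 / 4 * κ ≤ m + w) (hm5 : m ≤ 4 / 5 * κ + w) (hV : 5 * (V + m) ≤ 7 * κ + w)
    (hg : n - m - g ≤ w) (δ0 : 0 ≤ δ) {t : ℝ} (ht : t ≤ w) (E : ℝ) :
    ∀ b l : ℝ, 0 ≤ b → 0 ≤ l → l ≤ i - 2 * δ + t →
      2 / 3 * q - i / 3 + Sh δ b l + 2 * δ - max 0 (b - E) - m / 3 ≤
        Gs κ q m + max 0 (κ / 40 - q / 3) + 3 * w + (cL + w) - max 0 (V + w - q) := by
  intro b l b0 l0 hl
  have h3 := dg_line (cL := cL) (q := q) (i := i) k0 w0 hm3 hm5 hV hg δ0 ht E b l b0 l0 hl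
  have h4 := hSh b l
  linarith

end Crest.Agent.R017.NGu73
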