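import Crest.Agent.R017.NGj_708
import Crest.Agent.R017.NGn_708
import Crest.Agent.R017.NGd_83
import Crest.Agent.R017.NGu_73
import Crest.Agent.R017.JBN_551

/-!
# Row 17, FlatNE NumEq (helper551): the Gram number of the model at the near leaf, class N

* `Mq`, `diag_gm`  : the line of the diagonal with all three losses
* **`nleaf_gk`**   : `NLeaf π h (NumGk b C₀ (Gfz (30 c / K))) ..` (helper83's `NumGk`)
-/

set_option autoImplicit false
set_option linter.unusedVariables false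

noncomputable section

open Complex
open scoped ComplexConjugate Classical

namespace Crest.Agent.R017.NGm551

open Crest.Agent.R012 Crest.Agent.R012.Eis Crest.Agent.R012.LS2 Crest.Agent.R012.Gauss880
open Crest.Agent.R012.Weight600 (osc pw)
open Crest.Agent.R017.CM106 Crest.Agent.R017.FE47
open Crest.Agent.R017.HP842 hiding fl
open Crest.Agent.R017.End699 hiding pw
open Crest.Agent.R017.B770
open Crest.Agent.R017.Prov71
open Crest.Agent.R017.Leg381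
open Crest.Agent.R017.RG64
open Crest.Agent.R017.RGB545 (Line Th TK)
open Crest.Agent.R017.XP699 (LL Chd hcost cst)
open Crest.Agent.R017.XRG106 (RFp)
open Crest.Agent.R017.NE73 (gN)
open Crest.Agent.R017.NEg551 (NFacts NNum NTc NLeaf LBq F3 F3_mono F3_nonneg F3_add)
open Crest.Agent.R017.TNj90 (JBc)
open Crest.Agent.R017.I1146 (LipS omr)
open Crest.Agent.R017.JBN551 (shJ jbn_near2)
open Crest.Agent.R017.NEq83 (NumGk Gfz Gxs gfz_eq)
open Crest.Agent.R017.NGk708 (gk_gen)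
open Crest.Agent.R017.NGj708 (jbc_be)
open Crest.Agent.R017.NGn708 (rk_half)
open Crest.Agent.R017.NGt73 (shP Dw)
open Crest.Agent.R017.NGu73 (lnT_of dg_of)
open Crest.Agent.R017.P1N904 (Gs Gs_ge)
open Crest.Agent.R017.P1N73 (hN hN_lip thN_le Dl)
open Crest.Agent.R017.RGw813 (bt T9 tw2_ne)
open Crest.Agent.R017.Win813 (WK wn_ne)
open Crest.Agent.R017.Et813 (wnd mem_wnd)
open Crest.Agent.R017.C70 (JW CbF)
open Crest.Agent.R017.E3Kc548 (LI mem_LI)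
open Crest.Agent.R017.E1551 (Adm)

/-! ### real lines -/

/-- the loss of the diagonal -/
def Mq (V k E : ℝ) : ℝ := max 0 (max (V - k) ((V - 2 * k) / 6 + E / 2))

lemma Mq_nonneg (V k E : ℝ) : 0 ≤ Mq V k E := le_max_left _ _

lemma Mq_1 (V k E : ℝ) : V - k ≤ Mq V k E := (le_max_left _ _).trans (le_max_right _ _)

lemma Mq_2 (V k E : ℝ) : (V - 2 * k) / 6 + E / 2 ≤ Mq V k E :=
  (le_max_right _ _).trans (le_max_right _ _)

/-- **the line of the diagonal**, all losses -/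
lemma diag_gm {κ y m k V E D : ℝ} (hy : 0 < y) (hκ : 1000000 * y ≤ κ) (hk : 0 ≤ k)
    (hm5 : 5 * m ≤ 4 * κ + 6 * y) (hE : E ≤ 9 / 22 * F3 κ m + 10 * y)
    (h0 : D ≤ Gs κ k m + 9 * y)
    (h1 : D ≤ Gs κ k m + max 0 (κ / 40 - k / 3) + 9 * y - max 0 (V - k)) :
    D ≤ Gs κ k m + max 0 (κ / 40 - k / 3) + 25 * y - Mq V k E := by
  have a0 := le_max_left 0 (κ / 40 - k / 3)
  have a1 := le_max_left 0 (V - k)
  have a2 := le_max_right 0 (V - k)
  have hF : F3 κ m ≤ κ / 45 + 8 / 15 * y := by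
    unfold NEg551.F3
    exact max_le (by linarith) (by linarith)
  have key : Mq V k E ≤ Gs κ k m + max 0 (κ / 40 - k / 3) + 25 * y - D := by
    unfold Mq
    refine max_le (by linarith) (max_le (by linarith) ?_)
    rcases le_total 0 (κ / 40 - k / 3) with h | h
    · rw [max_eq_right h] at h1 a0 ⊢
      linarith
    · rw [max_eq_left h] at h1 a0 ⊢
      linarith
  linarith

lemma Gs_lip {κ k k' m s : ℝ} (hs : 0 ≤ s) (hk : k ≤ k' + s) :
    Gs κ k m ≤ Gs κ k' m + 2 / 3 * s := by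
  unfold P1N904.Gs
  have a1 := (le_max_left (26 / 15 * κ) (k' / 3 + 7 / 10 * κ + 17 / 18 * m)).trans
    (le_max_left _ (2 / 3 * k' + 13 / 9 * m))
  have a2 := (le_max_right (26 / 15 * κ) (k' / 3 + 7 / 10 * κ + 17 / 18 * m)).trans
    (le_max_left _ (2 / 3 * k' + 13 / 9 * m))
  have a3 := le_max_right (max (26 / 15 * κ) (k' / 3 + 7 / 10 * κ + 17 / 18 * m))
    (2 / 3 * k' + 13 / 9 * m)
  exact max_le (max_le (by linarith) (by linarith)) (by linarith)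

/-- the joint numbers are Lipschitz -/
lemma shJ_lip (κ g n m cL : ℝ) : LipS 3 (shJ κ g n m cL) := by
  intro γ b v b' v'
  unfold JBN551.shJ ex0 NEg551.F3
  obtain ⟨p, hp⟩ : ∃ p, p = |b - b'| := ⟨_, rfl⟩
  obtain ⟨q, hq⟩ : ∃ q, q = |v - v'| := ⟨_, rfl⟩
  have h1 : b - b' ≤ p := hp ▸ le_abs_self _
  have h2 : b' - b ≤ p := by rw [hp, abs_sub_comm]; exact le_abs_self _
  have h3 : v - v' ≤ q := hq ▸ le_abs_self _
  have h4 : v' - v ≤ q := by rw [hq, abs_sub_comm]; exact le_abs_self _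
  rw [← hp, ← hq]
  have p0 : 0 ≤ p := by rw [hp]; exact abs_nonneg _
  have q0 : 0 ≤ q := by rw [hq]; exact abs_nonneg _
  have A : max 0 ((2 * (m - γ - b) - (v + b + κ)) / 3) ≤
      max 0 ((2 * (m - γ - b') - (v' + b' + κ)) / 3) + (p + q / 3) :=
    max_le (by linarith [le_max_left 0 ((2 * (m - γ - b') - (v' + b' + κ)) / 3)])
      (by linarith [le_max_right 0 ((2 * (m - γ - b') - (v' + b' + κ)) / 3)])
  have B : max 0 ((4 * (m - γ - b) - 3 * κ) / 9) ≤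
      max 0 ((4 * (m - γ - b') - 3 * κ) / 9) + (p + q / 3) :=
    max_le (by linarith [le_max_left 0 ((4 * (m - γ - b') - 3 * κ) / 9)])
      (by linarith [le_max_right 0 ((4 * (m - γ - b') - 3 * κ) / 9)])
  have C : min (max 0 ((2 * (m - γ - b) - (v + b + κ)) / 3)) (max 0 ((4 * (m - γ - b) - 3 * κ) / 9)) ≤
      min (max 0 ((2 * (m - γ - b') - (v' + b' + κ)) / 3))
        (max 0 ((4 * (m - γ - b') - 3 * κ) / 9)) + (p + q / 3) := by
    rw [← min_add_add_right]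
    exact min_le_min A B
  have D : max 0 (n - m + b - g) ≤ max 0 (n - m + b' - g) + p :=
    max_le (by linarith [le_max_left 0 (n - m + b' - g)])
      (by linarith [le_max_right 0 (n - m + b' - g)])
  linarith

/-- the numbers of the near leaf at the scale `log X` -/
lemma nums {K v c ε X Lv : ℝ} {ps₀ : List Pq} {ps : List Pf} {N₁ : ℕ} (hX : 0 < Real.log X)
    (hc : 0 < c) (hcK : 1000000 * c ≤ K) (hε : 0 < ε) (hnum : NNum K v c ε X ps₀)
    (hF : NFacts K v (gN K c (LL Dq ps₀ / Real.log X)) ε X ps₀ ps Lv N₁) :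
    gN K c (LL Dq ps₀ / Real.log X) * Real.log X =
        LL Dq ps₀ - 3 / 4 * (K * Real.log X) + c * Real.log X ∧
    3 / 4 * (K * Real.log X) ≤ LF ps + c * Real.log X ∧
    5 * LF ps ≤ 4 * (K * Real.log X) + 6 * (c * Real.log X) ∧
    5 * (Lv + LF ps) ≤ 7 * (K * Real.log X) - 94 * (c * Real.log X) := by
  obtain ⟨L, hL⟩ : ∃ L, L = Real.log X := ⟨_, rfl⟩
  have n2 := hnum.nK
  have n4 := hnum.sn
  have n5 := hnum.ec
  have f1 := hF.hi
  have f2 := hF.lo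
  have f3 := hF.lv
  rw [← hL] at n2 n4 f1 f2 f3 hX ⊢
  have hg : gN K c (LL Dq ps₀ / L) * L = LL Dq ps₀ - 3 / 4 * (K * L) + c * L := by
    unfold NE73.gN
    field_simp
  rw [hg] at f2
  have hεc : ε * L ≤ c * L := mul_le_mul_of_nonneg_right n5 hX.le
  have e2 : (4 * K + ε) * L = 4 * (K * L) + ε * L := by ring
  have e5 : (7 * K + ε) * L = 7 * (K * L) + ε * L := by ring
  have e6 : (v + ε) * L = v * L + ε * L := by ring
  have e7 : 100 * c * L = 100 * (c * L) := by ring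
  rw [e2] at n2
  rw [e5, e7] at n4
  rw [e6] at f3
  have hε0 : 0 < ε * L := mul_pos hε hX
  refine ⟨hg, by linarith, by linarith, by linarith⟩

/-- the final comparison -/
lemma fin_gm {Cg x F0 ηJ Cb C₂ Bd H₁ H₂ τ c₁ Cw CR HM HJ eG eT eG' Qx : ℝ} (hCg : 0 ≤ Cg)
    (hx : 0 ≤ x) (hηJ : 0 ≤ ηJ) (hCb : 0 ≤ Cb) (hC₂ : 0 ≤ C₂) (hBd : 0 ≤ Bd) (hH : H₁ * H₂ = HM)
    (hHM : 0 ≤ HM) (hHJ : HM ≤ HJ) (hτ : 0 ≤ τ) (hc₁ : 0 ≤ c₁) (hCR : 0 ≤ CR) (heG : eG ≤ eT)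
    (heG' : eG' ≤ eT) (hQ : Qx ≤ eT) (heT : 0 ≤ eT) (hF : F0 = Cb * ηJ * (C₂ * x * (Bd * H₁) * H₂) * τ) :
    Cg * x * (F0 * (Qx + eG') + (3 + c₁) * ((Cw ^ 2 * ηJ) * (CR * x * τ * (HM * Bd))) * eG) ≤
      Cg * (2 * (Cb * ηJ * C₂) + (3 + c₁) * (Cw ^ 2 * ηJ) * CR) * (x * x) * HJ * Bd * (τ * eT) := by
  have hF0 : F0 = (Cb * ηJ * C₂) * x * (Bd * HM) * τ := by
    rw [hF, ← hH]; ring
  have h1 : F0 * (Qx + eG') ≤ 2 * (Cb * ηJ * C₂) * x * (Bd * HJ) * τ * eT := by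
    have a1 : F0 * (Qx + eG') ≤ F0 * (2 * eT) := by
      refine mul_le_mul_of_nonneg_left (by linarith) ?_
      rw [hF0]; positivity
    have a2 : F0 ≤ (Cb * ηJ * C₂) * x * (Bd * HJ) * τ := by
      rw [hF0]; gcongr
    have a3 : F0 * (2 * eT) ≤ (Cb * ηJ * C₂) * x * (Bd * HJ) * τ * (2 * eT) :=
      mul_le_mul_of_nonneg_right a2 (by linarith)
    refine a1.trans (a3.trans (le_of_eq ?_))
    ring
  have h2 : (3 + c₁) * ((Cw ^ 2 * ηJ) * (CR * x * τ * (HM * Bd))) * eG ≤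
      (3 + c₁) * ((Cw ^ 2 * ηJ) * (CR * x * τ * (HJ * Bd))) * eT := by
    have a4 : 0 ≤ (3 + c₁) * ((Cw ^ 2 * ηJ) * (CR * x * τ * (HM * Bd))) := by positivity
    refine (mul_le_mul_of_nonneg_left heG a4).trans (mul_le_mul_of_nonneg_right ?_ heT)
    gcongr
  calc Cg * x * (F0 * (Qx + eG') + (3 + c₁) * ((Cw ^ 2 * ηJ) * (CR * x * τ * (HM * Bd))) * eG) ≤
      Cg * x * (2 * (Cb * ηJ * C₂) * x * (Bd * HJ) * τ * eT +
        (3 + c₁) * ((Cw ^ 2 * ηJ) * (CR * x * τ * (HJ * Bd))) * eT) :=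
        mul_le_mul_of_nonneg_left (add_le_add h1 h2) (by positivity)
    _ = _ := by ring

/-- `F3` at the scale `log X` -/
lemma f3_scale {K m L : ℝ} (hL : 0 < L) :
    max 0 ((4 * (m / L) - 3 * K) / 9) * L = F3 (K * L) m := by
  unfold NEg551.F3
  rw [max_mul_of_nonneg _ _ hL.le, zero_mul]
  congr 1
  field_simp

/-- helper83's exponent at the scale `log X` -/
lemma gxs_scale {K κ m s L : ℝ} (hL : 0 < L) : (Gxs K κ m s - K) * L =
    Gs (K * L) (κ * L) (m * L) + max 0 (K * L / 40 - κ * L / 3) + s * L - m * L - K * L := by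
  have e1 : Gs (K * L) (κ * L) (m * L) =
      max (max (26 / 15 * K) (κ / 3 + 7 / 10 * K + 17 / 18 * m)) (2 / 3 * κ + 13 / 9 * m) * L := by
    unfold P1N904.Gs
    rw [max_mul_of_nonneg _ _ hL.le, max_mul_of_nonneg _ _ hL.le]
    congr 1
    · congr 1 <;> ring
    · ring
  have e2 : max 0 (K * L / 40 - κ * L / 3) = max 0 (K / 40 - κ / 3) * L := by
    rw [max_mul_of_nonneg _ _ hL.le, zero_mul]
    congr 1
    ring
  rw [e1, e2]
  unfold NEq83.Gxs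
  ring

/-- helper83's number in `exp` -/
lemma gfz_exp {X K c z m : ℝ} {p : LBq} (hX : 3 ≤ X) (hK : 0 < K) (hz : 1 ≤ z)
    (hpK : p.K = X ^ K) (hpX : p.X = Real.exp m) :
    Gfz (30 * c / K) p z = Real.exp (Gs (K * Real.log X) (Real.log z) m +
      max 0 (K * Real.log X / 40 - Real.log z / 3) + 30 * (c * Real.log X) - m -
        K * Real.log X) := by
  have hX0 : 0 < X := by linarith
  have hz0 : 0 < z := by linarith
  obtain ⟨L, hL⟩ : ∃ L, L = Real.log X := ⟨_, rfl⟩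
  have hL0 : 0 < L := by rw [hL]; exact Real.log_pos (by linarith)
  have e1 : X ^ (m / L) = Real.exp m := by
    rw [Real.rpow_def_of_pos hX0, ← hL]
    congr 1
    field_simp
  have e2 : X ^ (Real.log z / L) = z := by
    rw [Real.rpow_def_of_pos hX0, ← hL]
    have : L * (Real.log z / L) = Real.log z := by field_simp
    rw [this, Real.exp_log hz0]
  have key := gfz_eq (X := X) (K := K) (m := m / L) (κ := Real.log z / L) (s := 30 * c / K)
    (by linarith) hpK (by rw [hpX, e1])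
  rw [e2] at key
  rw [key, Real.rpow_def_of_pos hX0, ← hL]
  congr 1
  rw [mul_comm L, gxs_scale hL0]
  have e3 : Real.log z / L * L = Real.log z := by field_simp
  have e4 : m / L * L = m := by field_simp
  have e5 : 30 * c / K * K = 30 * c := by field_simp
  rw [e3, e4, e5]
  ring

variable {Lam ι : Type*}

set_option maxHeartbeats 6400000 in
/-- **the Gram number at the near leaf**, class N (`j` = helper708's line `dGk`) -/
theorem nleaf_gk {π : Lam → DPar} (hP : ∀ lam, (π lam).OK) {h : ℝ → ℝ} {cu : ℝ} (hpu : PU h cu)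
    {L : ι → Line Lam 9} {φ₀ φ₁ φβ : ℝ → ℝ → ℝ → ℝ} {K v c : ℝ} (hc : 0 < c)
    (hcK : 1000000 * c ≤ K) (b C₀ : ℝ) (j : ι)
    (hjΦ : ∀ lam l β ps, (L j).Φ lam l β ps = RFp (π lam) h l ps) (hjz : ¬ (L j).zl)
    (hjG : ∀ x θ, (L j).G x θ = x 3 - θ 0)
    (hjF : ∀ x θ, (L j).F x θ = θ 0 + min (x 2 / 4) (3 / 8 * θ 0) + x 4 - (θ 0 - x 3) / 3 -
      (4 / 3 * x 2 + (x 1 + x 0) / 3))
    (h0 : ∀ a u m, 0 ≤ φ₀ a u m)
    (h0' : ∀ a u m, φ₀ a u m ≤ 9 / 22 * max 0 ((4 * m - 3 * K) / 9) + 10 * c)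
    (h1 : ∀ a u m, 0 ≤ φ₁ a u m) :
    NLeaf π h (NumGk b C₀ (Gfz (30 * c / K))) L φ₀ φ₁ φβ K v c := by
  have hK : 0 < K := by linarith
  intro lam N c₀ hc₀
  obtain ⟨c₂, hc₂⟩ : ∃ c₂ : ℝ, c₂ = max c₀ (2 * K + 3) := ⟨_, rfl⟩
  have hc₂0 : c₀ ≤ c₂ := hc₂ ▸ le_max_left _ _
  have hc₂K : 2 * K + 3 ≤ c₂ := hc₂ ▸ le_max_right _ _
  refine ⟨c₂ + (K + 2 * c), by linarith, fun ε M hε hM => ?_⟩
  obtain ⟨a, ha, HR⟩ := rk_half hpu hc hcK N (c₂ := c₂) (M := M) hc₂K hM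
  have hN0 : (0 : ℝ) ≤ N := Nat.cast_nonneg _
  refine ⟨max M ((N : ℝ) ^ 2 * M), min 1 (min (c / (3 * (N + 1))) (ε / (12 * (N + 1)))),
    hM.trans (le_max_left _ _), by positivity, ?_⟩
  intro δ Jn Aw Cw R η S hδ0 hδ hJn hAw hCw hR hη hη1 hS
  have hδ1 : δ ≤ 1 := hδ.trans (min_le_left _ _)
  have hδ2 : δ ≤ c / (3 * (N + 1)) := hδ.trans ((min_le_right _ _).trans (min_le_left _ _))
  have hδ3 : δ ≤ ε / (12 * (N + 1)) := hδ.trans ((min_le_right _ _).trans (min_le_right _ _))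
  have hNδ : N * δ ≤ c / 3 := by
    have h1 : N * δ ≤ N * (c / (3 * (N + 1))) := mul_le_mul_of_nonneg_left hδ2 hN0
    have h2 : N * (c / (3 * (N + 1))) ≤ c / 3 := by
      rw [mul_div_assoc', div_le_div_iff₀ (by positivity) (by norm_num)]
      nlinarith
    linarith
  have hNδ3 : 3 * N * δ ≤ ε / 4 := by
    have h1 : N * δ ≤ N * (ε / (12 * (N + 1))) := mul_le_mul_of_nonneg_left hδ3 hN0
    have h2 : N * (ε / (12 * (N + 1))) ≤ ε / 12 := by
      rw [mul_div_assoc', div_le_div_iff₀ (by positivity) (by norm_num)]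
      nlinarith
    linarith
  have hJM2 : (N : ℝ) ^ 2 * M ≤ Jn := (le_max_right _ _).trans hJn
  have hJM1 : (N : ℝ) * M ≤ Jn := by
    refine le_trans (mul_le_mul_of_nonneg_right ?_ hM) hJM2
    rcases Nat.eq_zero_or_pos N with h2 | h2
    · rw [h2]; simp
    · have h3 : (1 : ℝ) ≤ N := by exact_mod_cast h2
      nlinarith
  obtain ⟨C_R, r_R, hC_R, hr_R, HR⟩ := HR ε S hε hS
  obtain ⟨cg, Cg, hcg, hCg, HG⟩ := gk_gen (ρ := 1 / 2) (by norm_num) (by norm_num)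
    (R0 := 2 * R + 4) (by linarith) a (Jn + 2) (by omega) (ε := ε / (2 * (K + 1)))
    (J := ((Jn : ℕ) : ℝ)) (B₂ := 8) (Lh := 4 / 3) (by positivity) (by positivity) (by norm_num)
    (by norm_num)
  obtain ⟨X_R, HR⟩ := HR cg hcg
  obtain ⟨C₂, r₂, hC₂, hr₂, HJ⟩ := jbn_near2 hpu N hK (ε := ε / 2) (by positivity) hM
  obtain ⟨C_b, hC_b, HB⟩ := jbc_be hAw hCw (L := 3) (by norm_num)
  obtain ⟨R₁, Ca, hR₁, hCa, hAL⟩ := exists_ALp hpu N
  obtain ⟨Bg, hBg⟩ : ∃ Bg : ℝ, Bg = 100 + r₂ + R₁ + Real.log Ca + Real.log 9 + Real.log cg +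
    Real.log (max 1 b) + Real.log (max 1 C₀) := ⟨_, rfl⟩
  have hlCa : 0 ≤ Real.log Ca := Real.log_nonneg hCa
  have hlcg : 0 ≤ Real.log cg := Real.log_nonneg hcg
  have hlb : 0 ≤ Real.log (max 1 b) := Real.log_nonneg (le_max_left _ _)
  have hlC₀ : 0 ≤ Real.log (max 1 C₀) := Real.log_nonneg (le_max_left _ _)
  have hlog9 : 0 ≤ Real.log 9 := Real.log_nonneg (by norm_num)
  have hBg0 : 100 ≤ Bg := by linarith
  refine ⟨Cg * (2 * (C_b * (η⁻¹) ^ Jn * C₂) + (3 + cg) * (Cw ^ 2 * (η⁻¹) ^ Jn) * C_R) +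
    Real.exp r₂ + C_R, S + r₂ + r_R, max X_R (Real.exp (Bg / ε + Bg / c + Bg)), by positivity,
    by linarith, ?_⟩
  intro X hX3 hXX ps₀ hlen hz hs2 hnum q ps Lv N₁ hF hq hqX hps Bd hBd hNT hLn
  have hXR : X_R ≤ X := (le_max_left _ _).trans hXX
  have hX0 : 0 < X := by linarith
  have hX1 : 1 ≤ X := by linarith
  obtain ⟨L', hL'⟩ : ∃ L' : ℝ, L' = Real.log X := ⟨_, rfl⟩
  have hLbig : Bg / ε + Bg / c + Bg ≤ L' := by
    rw [hL', ← Real.log_exp (Bg / ε + Bg / c + Bg)]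
    exact Real.log_le_log (Real.exp_pos _) ((le_max_right _ _).trans hXX)
  have hq1 : 0 ≤ Bg / ε := by positivity
  have hq2 : 0 ≤ Bg / c := by positivity
  have hL0 : 0 < L' := by linarith
  have hBL : Bg ≤ L' := by linarith
  have hBε : Bg ≤ ε * L' := by
    have h2 : Bg / ε ≤ L' := by linarith
    rwa [div_le_iff₀ hε, mul_comm L'] at h2
  have hBc : Bg ≤ c * L' := by
    have h2 : Bg / c ≤ L' := by linarith
    rwa [div_le_iff₀ hc, mul_comm L'] at h2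
  obtain ⟨hg, hm3, hm5, hS5⟩ := nums (hL' ▸ hL0) hc hcK hε hnum hF
  rw [← hL'] at hg hm3 hm5 hS5
  obtain ⟨g, hgd⟩ : ∃ g, g = gN K c (LL Dq ps₀ / L') := ⟨_, rfl⟩
  have f2 := hF.lo
  have hLv0 := hF.v0
  have f5 := hF.N1
  have f6 := hF.Nh
  rw [← hL'] at f2
  rw [← hgd] at hg f2
  obtain ⟨κ, hκ⟩ : ∃ κ, κ = K * L' := ⟨_, rfl⟩
  obtain ⟨y, hy⟩ : ∃ y, y = c * L' := ⟨_, rfl⟩
  obtain ⟨m, hm⟩ : ∃ m, m = LF ps := ⟨_, rfl⟩
  obtain ⟨n, hn⟩ : ∃ n, n = LL Dq ps₀ := ⟨_, rfl⟩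
  rw [← hκ, ← hy, ← hn] at hg
  rw [← hκ, ← hy, ← hm] at hm3 hm5 hS5
  rw [← hn, ← hm] at f2
  rw [← hy] at hBc
  have hy0 : 0 < y := by rw [hy]; positivity
  have hκy : 1000000 * y ≤ κ := by
    rw [hκ, hy, ← mul_assoc]
    exact mul_le_mul_of_nonneg_right hcK hL0.le
  have hκ0 : 0 < κ := by linarith
  have hm0 : 0 ≤ m := by linarith
  -- the numbers `Z`, `Y`
  obtain ⟨Z, hZ⟩ : ∃ Z : ℝ, Z = X ^ (K + 1) := ⟨_, rfl⟩
  have hZ0 : 0 < Z := by rw [hZ]; positivity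
  have hlZ : Real.log Z = κ + L' := by rw [hZ, Real.log_rpow hX0, hκ, ← hL']; ring
  have hZ3 : 3 ≤ Z := by
    refine hX3.trans ?_
    rw [hZ]
    calc X = X ^ (1 : ℝ) := (Real.rpow_one X).symm
      _ ≤ _ := Real.rpow_le_rpow_of_exponent_le hX1 (by linarith)
  have hZle : ∀ x : ℝ, x ≤ κ + L' → Real.exp x ≤ Z := fun x hx => by
    rw [← Real.exp_log hZ0, hlZ]
    exact Real.exp_le_exp.2 hx
  obtain ⟨Y, hY⟩ : ∃ Y : ℝ, Y = X ^ (8 * (K + 1)) := ⟨_, rfl⟩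
  have hY1 : 1 ≤ Y := by rw [hY]; exact Real.one_le_rpow hX1 (by positivity)
  have hY0 : 0 < Y := by linarith
  have hlY : Real.log Y = 8 * (κ + L') := by rw [hY, Real.log_rpow hX0, hκ, ← hL']; ring
  have hYle : ∀ x : ℝ, x ≤ 8 * (κ + L') → Real.exp x ≤ Y := fun x hx => by
    rw [← Real.exp_log hY0, hlY]
    exact Real.exp_le_exp.2 hx
  have hYZ : Y = Z ^ (8 : ℝ) := by
    rw [hY, hZ, ← Real.rpow_mul hX0.le]
    congr 1
    ring
  have hZe : Z ^ (ε / (2 * (K + 1))) = X ^ (ε / 2) := by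
    rw [hZ, ← Real.rpow_mul hX0.le]
    congr 1
    field_simp
  have h5Z : Real.exp m ≤ Z ^ 5 := by
    rw [← Real.exp_log hZ0, hlZ, ← Real.exp_nat_mul]
    refine Real.exp_le_exp.2 ?_
    push_cast
    linarith
  -- levels
  have hN1e : (N₁ : ℝ) ≤ Real.exp (Lv + 4) := by
    have : (0 : ℝ) ≤ N₁ := Nat.cast_nonneg _
    linarith
  have hNh : 1 ≤ N₁ / 2 := by
    have h2 : (1 : ℝ) ≤ ((N₁ / 2 : ℕ) : ℝ) := (Real.one_le_exp hLv0).trans f6
    exact_mod_cast h2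
  have hN2 : 2 ≤ N₁ := by omega
  have hN1' : (1 : ℝ) ≤ N₁ := by exact_mod_cast (by omega : 1 ≤ N₁)
  have hlN : Real.log N₁ ≤ Lv + 4 := by
    rw [← Real.log_exp (Lv + 4)]
    exact Real.log_le_log (by linarith) hN1e
  have hLvκ : 5 * Lv ≤ 7 * κ := by linarith
  have hi : ∀ i : ℕ, i ∈ LI (1 / 10) (N₁ : ℝ) → (i : ℝ) ≤ Lv + 5 := by
    intro i hi
    have h2 := (mem_LI hi).2.2
    have h3 : Real.exp (i : ℝ) ≤ Real.exp (Lv + 5) := by
      refine h2.trans ?_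
      have h4 : Real.exp (Lv + 5) = Real.exp 1 * Real.exp (Lv + 4) := by
        rw [← Real.exp_add]; congr 1; ring
      rw [h4]
      exact mul_le_mul_of_nonneg_left hN1e (Real.exp_pos _).le
    exact Real.exp_le_exp.1 h3
  -- the cut
  obtain ⟨f₀, hf₀⟩ : ∃ f₀, f₀ = φ₀ (n / L') (Lv / L') (m / L') := ⟨_, rfl⟩
  have hf0 : 0 ≤ f₀ := hf₀ ▸ h0 _ _ _
  obtain ⟨E0, hE0⟩ : ∃ E0 : ℝ, E0 = X ^ f₀ := ⟨_, rfl⟩
  have hE1 : 1 ≤ E0 := by rw [hE0]; exact Real.one_le_rpow hX1 hf0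
  have hlE : Real.log E0 ≤ 9 / 22 * F3 κ m + 10 * y := by
    rw [hE0, Real.log_rpow hX0, ← hL', hκ, ← f3_scale hL0, hy, hf₀]
    have h2 := mul_le_mul_of_nonneg_right (h0' (n / L') (Lv / L') (m / L')) hL0.le
    linarith
  have hF3 : F3 κ m ≤ κ / 45 + 8 / 15 * y := by
    unfold NEg551.F3
    exact max_le (by linarith) (by linarith)
  have hE0Z : E0 ≤ Z := by
    rw [← Real.exp_log (by linarith : 0 < E0)]
    exact hZle _ (by linarith)
  -- the sequence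
  obtain ⟨α, hα⟩ : ∃ α : Eis → ℂ, α = sqc q (alF (X ^ δ) (X ^ δ) (π lam) h ps) := ⟨_, rfl⟩
  have hlen' : ps.length ≤ N := hps.length ▸ hlen
  have hRY : Real.exp R₁ * Real.exp (LF ps) ≤ Y := by
    rw [← Real.exp_add, ← hm]
    exact hYle _ (by linarith)
  have hCaY : Ca ≤ Y := by
    rw [← Real.exp_log (by linarith : 0 < Ca)]
    exact hYle _ (by linarith)
  obtain ⟨hsupp, -, -, -⟩ := hAL (X ^ δ) (X ^ δ) (π lam) (hP lam) q ps hlen' Y hCaY hRY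
  rw [← hα] at hsupp
  have hFS : FS α := RGw813.FS_of_S hY0.le hsupp
  -- the joint numbers
  have hcw1 : 1 ≤ Real.exp 2 := Real.one_le_exp (by norm_num)
  have h9c : 1 ≤ 9 * cg * Real.exp 2 := by nlinarith
  have hlcw : Real.log (9 * cg * Real.exp 2) = Real.log 9 + Real.log cg + 2 := by
    rw [Real.log_mul (by positivity) (Real.exp_pos _).ne', Real.log_exp,
      Real.log_mul (by norm_num) (by positivity)]
  have hCpos : 0 ≤ Cg * (2 * (C_b * (η⁻¹) ^ Jn * C₂) + (3 + cg) * (Cw ^ 2 * (η⁻¹) ^ Jn) * C_R) := by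
    have : 0 ≤ C_R := by linarith
    have : 0 ≤ C₂ := by linarith
    have : 0 ≤ Cg := by linarith
    positivity
  have hCX : C_R * X ^ c₂ ≤ (Cg * (2 * (C_b * (η⁻¹) ^ Jn * C₂) +
      (3 + cg) * (Cw ^ 2 * (η⁻¹) ^ Jn) * C_R) + Real.exp r₂ + C_R) * X ^ (c₂ + (K + 2 * c)) := by
    have a1 : X ^ c₂ ≤ X ^ (c₂ + (K + 2 * c)) :=
      Real.rpow_le_rpow_of_exponent_le hX1 (by linarith)
    exact mul_le_mul (by linarith [Real.exp_pos r₂]) a1 (Real.rpow_nonneg hX0.le _)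
      (by linarith [Real.exp_pos r₂])
  have hqb : (nm q : ℝ) * Real.exp (LF ps) * Real.exp r₂ ≤
      (Cg * (2 * (C_b * (η⁻¹) ^ Jn * C₂) + (3 + cg) * (Cw ^ 2 * (η⁻¹) ^ Jn) * C_R) +
        Real.exp r₂ + C_R) * X ^ (c₂ + (K + 2 * c)) := by
    have h2 : Real.exp (LF ps) ≤ X ^ (K + 2 * c) := by
      rw [Real.rpow_def_of_pos hX0, ← hL', ← hm]
      refine Real.exp_le_exp.2 ?_
      have : L' * (K + 2 * c) = κ + 2 * y := by rw [hκ, hy]; ring
      rw [this]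
      linarith
    have h3 : (nm q : ℝ) ≤ X ^ c₂ := hqX.trans (Real.rpow_le_rpow_of_exponent_le hX1 hc₂0)
    rw [Real.rpow_add hX0]
    calc (nm q : ℝ) * Real.exp (LF ps) * Real.exp r₂ ≤ X ^ c₂ * X ^ (K + 2 * c) * Real.exp r₂ := by
          gcongr
      _ = Real.exp r₂ * (X ^ c₂ * X ^ (K + 2 * c)) := by ring
      _ ≤ _ := mul_le_mul_of_nonneg_right (by linarith) (by positivity)
  have hJB := HJ X hX3 (π lam) (hP lam) ps₀ hlen v c g ε (2 * ε) S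
    (S + r₂ + r_R) ((Cg * (2 * (C_b * (η⁻¹) ^ Jn * C₂) + (3 + cg) * (Cw ^ 2 * (η⁻¹) ^ Jn) * C_R) +
    Real.exp r₂ + C_R) * X ^ (c₂ + (K + 2 * c))) Bd δ y (9 * cg * Real.exp 2) (2 / 3 * c) Jn hc.le
    (by linarith) (by linarith [hnum.ec]) h9c (by linarith) hδ0 hJM1 (by linarith) (by linarith)
    hNT q ps Lv N₁ (by rw [hgd, hL']; exact hF) hq hqb hps (by rw [← hL', hlcw]; linarith)
    (by rw [← hL', hlcw]; linarith) (by rw [← hL', ← hm]; linarith)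
    (by
      rw [← hL']
      have e1 : N * (δ * L') = (N * δ) * L' := by ring
      rw [e1, hy]
      have := mul_le_mul_of_nonneg_right hNδ hL0.le
      linarith)
  rw [← hL', ← hgd, ← hκ, ← hn, ← hm, ← hα, ← hY] at hJB
  -- the goal
  intro b' hb' t X' φ hX' hXX' hφ hφs z hz1 hzC c3 hc3 hz3
  dsimp only at hXX' hφ hφs hzC hz3 ⊢
  rw [gfz_exp (X := X) (K := K) (m := m) (c := c) hX3 hK hz1]
  rotate_left
  · rfl
  · rw [hm]
  rw [← hL', ← hgd, ← hn, ← hm, ← hα, ← hκ, ← hy, ← hf₀, ← hE0]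
  rw [← hm] at hXX'
  obtain ⟨D, hD⟩ : ∃ D, D = Real.exp (min (g * L') (m - (n - g * L'))) := ⟨_, rfl⟩
  rw [← hD]
  have hD0 : 0 ≤ D := by rw [hD]; exact (Real.exp_pos _).le
  have hz0 : 0 < z := by linarith
  -- the block
  have hlz0 : 0 ≤ Real.log z := Real.log_nonneg hz1
  have hlz : Real.log z ≤ Real.log (max 1 C₀) + κ := by
    have a1 : 1 ≤ (X ^ φ₁ (LL Dq ps₀ / Real.log X) (Lv / Real.log X) (LF ps / Real.log X)) ^ 3 :=
      one_le_pow₀ (Real.one_le_rpow hX1 (h1 _ _ _))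
    have a2 : 0 < X ^ K := Real.rpow_pos_of_pos hX0 _
    have a3 : 0 < max 1 C₀ := lt_of_lt_of_le one_pos (le_max_left _ _)
    have a4 : z ≤ max 1 C₀ * X ^ K := by
      refine hzC.trans ?_
      refine (div_le_div_of_nonneg_right (mul_le_mul_of_nonneg_right (le_max_right 1 C₀) a2.le)
        (by linarith)).trans ?_
      exact div_le_self (by positivity) a1
    have a5 := Real.log_le_log hz0 a4
    rwa [Real.log_mul a3.ne' a2.ne', Real.log_rpow hX0, ← hL', ← hκ] at a5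
  obtain ⟨k, hk⟩ : ∃ k, k = Real.log (2 * z) := ⟨_, rfl⟩
  have hl2 : 0 ≤ Real.log 2 := Real.log_nonneg (by norm_num)
  have hl2' : Real.log 2 ≤ 1 := Win813.log2_le
  have hk' : k = Real.log 2 + Real.log z := by rw [hk, Real.log_mul (by norm_num) hz0.ne']
  have hek : Real.exp k = 2 * z := by rw [hk, Real.exp_log (by linarith)]
  have hk0 : 0 ≤ k := by linarith
  have hkK : k ≤ κ + y := by linarith
  have hkZ : Real.exp k ≤ Z := hZle _ (by linarith)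
  -- the cube
  have hc3Z : (nm c3 : ℝ) ≤ Z := by
    have a1 : (1 : ℝ) ≤ nm c3 := by exact_mod_cast nm_pos.2 hc3.ne_zero
    have a2 : 0 < X ^ K := Real.rpow_pos_of_pos hX0 _
    have a3 : (nm c3 : ℝ) ≤ (nm c3 : ℝ) ^ 3 := le_self_pow₀ a1 (by norm_num)
    have a4 : (nm c3 : ℝ) ^ 3 ≤ z * (nm c3 : ℝ) ^ 3 := le_mul_of_one_le_left (by positivity) hz1
    have a5 : b * X ^ K ≤ max 1 b * X ^ K := mul_le_mul_of_nonneg_right (le_max_right _ _) a2.le
    have a6 : max 1 b * X ^ K = Real.exp (Real.log (max 1 b) + κ) := by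
      rw [Real.exp_add, Real.exp_log (lt_of_lt_of_le one_pos (le_max_left _ _)),
        Real.rpow_def_of_pos hX0, ← hL', hκ, mul_comm L']
    have a7 := hZle (Real.log (max 1 b) + κ) (by linarith)
    linarith
  -- the sequence of the window
  have hbt : ∀ n, bt φ α b' n * pw t (nm n) ≠ 0 → α n ≠ 0 := fun n hn =>
    (wn_ne (tw2_ne (left_ne_zero_of_mul hn))).1
  have hFSb : FS (fun n => bt φ α b' n * pw t (nm n)) :=
    { fin := hFS.fin.subset fun n hn => hbt n hn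
      prim := fun n hn => hFS.prim n (hbt n hn) }
  have hsqb : ∀ n, bt φ α b' n * pw t (nm n) ≠ 0 → Squarefree n := fun n hn =>
    ((mem_S hY0.le).1 (hsupp n (hbt n hn))).2.2
  have hadm : Adm Y (Real.exp m) (2 * R + 4) (fun n => bt φ α b' n * pw t (nm n)) :=
    { sup := fun n hn => hsupp n (hbt n hn)
      win := fun n hn => by
        have a1 := hφs _ (wn_ne (tw2_ne (left_ne_zero_of_mul hn))).2
        have a2 := abs_add_le (Real.log (nm n) - Real.log X') (Real.log X' - Real.log (Real.exp m))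
        have a3 : Real.log (nm n) - Real.log X' + (Real.log X' - Real.log (Real.exp m)) =
          Real.log (nm n) - Real.log (Real.exp m) := by ring
        rw [a3] at a2
        linarith }
  -- the joint numbers of the window
  have hHt1 := one_le_Ht ps
  have hHt2 := one_le_Ht (natl ps₀)
  obtain ⟨F₀, hF₀⟩ : ∃ F₀, F₀ = C₂ * X ^ (ε / 2) * (Bd * Ht (natl ps₀) ^ M) * Ht ps ^ M :=
    ⟨_, rfl⟩
  have hHa : 0 ≤ Ht (natl ps₀) ^ M := Real.rpow_nonneg (by linarith) _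
  have hHb : 0 ≤ Ht ps ^ M := Real.rpow_nonneg (by linarith) _
  have hx0 : 0 ≤ X ^ (ε / 2) := Real.rpow_nonneg hX0.le _
  have hF₀0 : 0 ≤ F₀ := by
    rw [hF₀]
    have : 0 ≤ Bd := by linarith
    have : 0 ≤ C₂ := by linarith
    positivity
  have hJB' := HB Y (cg * Real.exp 2 * N₁) F₀ η (shJ κ (g * L') n m y) α hY0.le hF₀0 hη
    (by linarith) (shJ_lip _ _ _ _ _) hFS hsupp (by
      have e1 : 9 * (cg * Real.exp 2 * (N₁ : ℝ)) = 9 * cg * Real.exp 2 * N₁ := by ring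
      rw [e1, hF₀]
      exact hJB) b' hb' φ hφ t
  -- the rough half
  obtain ⟨W0, hW1, hW2, hW3⟩ := HR X hX3 hXR (π lam) (hP lam) ps₀ hlen
    (fun q' hq' => (hz q' hq').2.trans (mul_le_mul_of_nonneg_right hc₂0 (by rw [← hL']; exact hL0.le)))
    v hnum q ps Lv N₁ hF hq.ne_zero
    (hqX.trans (Real.rpow_le_rpow_of_exponent_le hX1 hc₂0)) hps Bd hBd (by
      intro θ l ps' hl0 hlT hch hLL hG
      have h2 := hLn j θ l ps' hl0 hlT (Chd.mono' (by linarith) hCX hch) hLL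
        (by rw [hjG]; exact hG) (fun h => absurd h hjz)
      rw [hjΦ, hjF] at h2
      exact h2) δ Cw η Jn Aw hδ0 hδ1 hNδ3 hCw hη (by linarith) hAw hJM2 φ hφ b' hb' t D E0 k
    (by
      rw [hD, ← hL', ← hκ, ← hy, ← hm]
      refine Real.exp_le_exp.2 ((min_le_right _ _).trans ?_)
      linarith) hk0 (by rw [← hL', ← hκ, ← hy]; exact hkK) hE1 (by
      rw [← hL', ← hκ, ← hm, mul_assoc 10, ← hy]; exact hlE)
  rw [← hL', ← hκ, ← hm] at hW3
  rw [← hα] at hW2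
  -- the lines
  obtain ⟨T, hT⟩ : ∃ T, T = Gs κ k m + max 0 (κ / 40 - k / 3) + 25 * y := ⟨_, rfl⟩
  obtain ⟨V, hV⟩ : ∃ V, V = Lv + 5 + 2 * y := ⟨_, rfl⟩
  obtain ⟨Ec, hEc⟩ : ∃ Ec, Ec = Real.log E0 := ⟨_, rfl⟩
  have hDw : ∀ i : ℕ, i ∈ LI (1 / 10) (N₁ : ℝ) → Dw κ m i k (2 * y) := fun i hi' =>
    { k0 := hκ0, t0 := by linarith, t1 := by linarith, p0 := by linarith, p1 := by linarith
      S := by linarith [hi i hi'], v0 := Nat.cast_nonneg _ }
  have hDl : ∀ i : ℕ, i ∈ LI (1 / 10) (N₁ : ℝ) → Dl κ m i k (2 * y) := fun i hi' =>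
    { k0 := hκ0, t0 := by linarith, t1 := by linarith, p0 := by linarith, p1 := by linarith
      S := by linarith [hi i hi'], v0 := Nat.cast_nonneg _, q1 := by linarith }
  have htc : Real.log cg + 1 ≤ 2 * y := by linarith
  have hlnT : ∀ i ∈ LI (1 / 10) (N₁ : ℝ), ∀ δ' : ℝ, 0 ≤ δ' → 2 * δ' ≤ Real.log N₁ →
      ET490.LnT (shJ κ (g * L') n m y) k i (hN κ k m δ') m (Real.log E0) δ' (Real.log cg + 1)
        (Gs κ k m + 3 * (2 * y) + (y + 2 * y)) := fun i hi' δ' hδ' _ =>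
    lnT_of (fun b l => le_rfl) (hDw i hi') (by linarith) hδ' (by linarith) (by linarith) htc _
  have hdg : ∀ i ∈ LI (1 / 10) (N₁ : ℝ), ∀ δ' : ℝ, 0 ≤ δ' → 2 * δ' ≤ Real.log N₁ →
      ∀ b l : ℝ, 0 ≤ b → 0 ≤ l → l ≤ i - 2 * δ' + (Real.log cg + 1) →
        2 / 3 * k - i / 3 + shJ κ (g * L') n m y δ' b l + 2 * δ' - max 0 (b - Real.log E0) -
          m / 3 ≤ T - Mq V k Ec := by
    intro i hi' δ' hδ' hδ2 b l hb0 hl0 hl
    have a1 := (hlnT i hi' δ' hδ' hδ2).c0 b l hb0 hl0 hl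
    have a2 : 2 / 3 * k - i / 3 ≤ ET490.lw0 k i (hN κ k m δ') := le_max_left _ _
    have a3 := dg_of (Sh := shJ κ (g * L') n m y) (κ := κ) (q := k) (m := m) (V := Lv + 5)
      (i := i) (g := g * L') (n := n) (cL := y) (w := 2 * y) (δ := δ') (fun b l => le_rfl) hκ0
      (by linarith) (by linarith) (by linarith) (by linarith) (by linarith) hδ' htc
      (Real.log E0) b l hb0 hl0 hl
    rw [hT]
    refine diag_gm hy0 hκy hk0 hm5 (hEc ▸ hlE) (by linarith) ?_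
    rw [hV]
    linarith
  -- the loss
  obtain ⟨Qc, hQc⟩ : ∃ Qc, Qc = Real.exp (Mq V k Ec) := ⟨_, rfl⟩
  have hlN0 : Real.log E0 = Ec := hEc.symm
  have hNV : (N₁ : ℝ) ≤ Real.exp V := hN1e.trans (Real.exp_le_exp.2 (by rw [hV]; linarith))
  have hQ2 : ((N₁ : ℝ) / Real.exp k ^ 2) ^ (1 / 6 : ℝ) * E0 ^ (1 / 2 : ℝ) ≤ Qc := by
    have a1 : (N₁ : ℝ) / Real.exp k ^ 2 ≤ Real.exp (V - 2 * k) := by
      rw [Real.exp_sub, ← Real.exp_nat_mul]
      push_cast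
      exact div_le_div_of_nonneg_right hNV (Real.exp_pos _).le
    have a2 : ((N₁ : ℝ) / Real.exp k ^ 2) ^ (1 / 6 : ℝ) ≤ Real.exp ((V - 2 * k) / 6) := by
      refine (Real.rpow_le_rpow (by positivity) a1 (by norm_num)).trans (le_of_eq ?_)
      rw [← Real.exp_mul]
      congr 1
      ring
    have a3 : E0 ^ (1 / 2 : ℝ) = Real.exp (Ec / 2) := by
      rw [← Real.exp_log (by linarith : 0 < E0), hlN0, ← Real.exp_mul]
      congr 1
      ring
    rw [a3, hQc]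
    calc ((N₁ : ℝ) / Real.exp k ^ 2) ^ (1 / 6 : ℝ) * Real.exp (Ec / 2) ≤
        Real.exp ((V - 2 * k) / 6) * Real.exp (Ec / 2) :=
          mul_le_mul_of_nonneg_right a2 (Real.exp_pos _).le
      _ = Real.exp ((V - 2 * k) / 6 + Ec / 2) := (Real.exp_add _ _).symm
      _ ≤ _ := Real.exp_le_exp.2 (Mq_2 _ _ _)
  have hQ3 : (N₁ : ℝ) / Real.exp k ≤ Qc := by
    rw [hQc]
    calc (N₁ : ℝ) / Real.exp k ≤ Real.exp V / Real.exp k :=
          div_le_div_of_nonneg_right hNV (Real.exp_pos _).le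
      _ = Real.exp (V - k) := (Real.exp_sub _ _).symm
      _ ≤ _ := Real.exp_le_exp.2 (Mq_1 _ _ _)
  have hcZ : cg * Real.exp 2 ≤ Z := by
    rw [← Real.exp_log (by linarith : 0 < cg), ← Real.exp_add]
    exact hZle _ (by linarith)
  have hN1Z : (N₁ : ℝ) ≤ Z := hN1e.trans (hZle _ (by linarith))
  obtain ⟨τ, hτ⟩ : ∃ τ : ℝ, τ = (1 + |t|) ^ Jn := ⟨_, rfl⟩
  have hτ0 : 0 ≤ τ := by rw [hτ]; positivity
  obtain ⟨MR, hMR⟩ : ∃ MR, MR = (3 + cg) * ((Cw ^ 2 * (η⁻¹) ^ Jn) * (C_R * X ^ (ε / 2) *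
    (1 + |t|) ^ Jn * ((Ht ps * Ht (natl ps₀)) ^ M * Bd))) * Real.exp (Gs κ k m) := ⟨_, rfl⟩
  rw [← hMR] at hW3
  have hMR0 : 0 ≤ MR := by
    rw [hMR]
    have : 0 ≤ Bd := by linarith
    have : 0 ≤ C_R := by linarith
    have : 0 ≤ (Ht ps * Ht (natl ps₀)) ^ M := Real.rpow_nonneg
      (mul_nonneg (by linarith) (by linarith)) _
    positivity
  obtain ⟨F1, hF1⟩ : ∃ F1, F1 = C_b * (η⁻¹) ^ Jn * F₀ * (1 + |t|) ^ Jn := ⟨_, rfl⟩
  rw [← hF1] at hJB'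
  have hF10 : 0 ≤ F1 := by rw [hF1]; positivity
  have key := HG Z hZ3 hcZ D N₁ (fun n => bt φ α b' n * pw t (nm n)) E0 Y k m F1
    (Gs κ k m + 3 * (2 * y) + (y + 2 * y)) (T - Mq V k Ec) MR Qc c3 ((wnd z (2 * z)).filter CbF)
    (fun _ δ' => hN κ k m δ') W0 (shJ κ (g * L') n m y) hFSb hsqb hadm hY1 (le_of_eq hYZ) hc3 hc3Z
    hD0 hN2 hN1Z hk0 hkZ (by
      intro u hu
      rw [Finset.mem_filter, mem_wnd (by linarith)] at hu
      obtain ⟨⟨u1, u2, u3⟩, u4⟩ := hu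
      rw [hek]
      exact ⟨u1, u4, by linarith, u3⟩) hE1 hE0Z h5Z (by
      intro i hi' δ' hδ'
      obtain ⟨a1, a2⟩ := thN_le (hDl i hi') hδ'
      have a3 := hi i hi'
      show Real.log cg + hN κ k m δ' + 2 * (i : ℝ) ≤ k + m
      linarith) (fun i _ x y => hN_lip κ k m x y) hW1 (by rw [hZ]; exact hW2) hF10 hMR0
    (by rw [hQc]; exact Real.one_le_exp (Mq_nonneg _ _ _)) hQ2 hQ3 hJB' hlnT hdg hW3
  refine key.trans ?_
  rw [hZe, hMR]
  have hHH : 1 ≤ Ht ps * Ht (natl ps₀) := one_le_mul_of_one_le_of_one_le hHt1 hHt2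
  have hlT : Gs κ k m + max 0 (κ / 40 - k / 3) + 25 * y ≤
      Gs κ (Real.log z) m + max 0 (κ / 40 - Real.log z / 3) + 30 * y := by
    have a1 := Gs_lip (κ := κ) (k := k) (k' := Real.log z) (m := m) (s := 1) zero_le_one
      (by linarith)
    have a2 : max 0 (κ / 40 - k / 3) ≤ max 0 (κ / 40 - Real.log z / 3) :=
      max_le_max le_rfl (by linarith)
    linarith
  obtain ⟨T', hT'⟩ : ∃ T', T' = Gs κ (Real.log z) m + max 0 (κ / 40 - Real.log z / 3) + 30 * y :=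
    ⟨_, rfl⟩
  rw [← hT'] at hlT ⊢
  have hm0' := le_max_left 0 (κ / 40 - k / 3)
  have hfin := fin_gm (Cg := Cg) (x := X ^ (ε / 2)) (F0 := F1) (ηJ := (η⁻¹) ^ Jn) (Cb := C_b)
    (C₂ := C₂) (Bd := Bd) (H₁ := Ht (natl ps₀) ^ M) (H₂ := Ht ps ^ M) (τ := (1 + |t|) ^ Jn)
    (c₁ := cg) (Cw := Cw) (CR := C_R) (HM := (Ht ps * Ht (natl ps₀)) ^ M)
    (HJ := (Ht ps * Ht (natl ps₀)) ^ max M ((N : ℝ) ^ 2 * M)) (eG := Real.exp (Gs κ k m))
    (eT := Real.exp T') (eG' := Real.exp (Gs κ k m + 3 * (2 * y) + (y + 2 * y)))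
    (Qx := Qc * Real.exp (T - Mq V k Ec)) (by linarith) hx0 (by positivity) hC_b (by linarith)
    (by linarith) (by rw [Real.mul_rpow (by linarith) (by linarith)]; ring)
    (Real.rpow_nonneg (by linarith) _) (Real.rpow_le_rpow_of_exponent_le hHH (le_max_left _ _))
    (hτ ▸ hτ0) (by linarith) (by linarith) (Real.exp_le_exp.2 (by linarith))
    (Real.exp_le_exp.2 (by linarith)) (by
      rw [hQc, ← Real.exp_add]
      refine Real.exp_le_exp.2 ?_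
      rw [hT]
      linarith) (Real.exp_pos _).le (by rw [hF1, hF₀])
  refine hfin.trans ?_
  have e1 : X ^ (ε / 2) * X ^ (ε / 2) = X ^ ε := by
    rw [← Real.rpow_add hX0]
    congr 1
    ring
  have e2 : X ^ K = Real.exp κ := by rw [Real.rpow_def_of_pos hX0, ← hL', hκ, mul_comm]
  have e3 : Real.exp κ / Real.exp m * (Real.exp (2 * m) * Real.exp (T' - m - κ)) =
      Real.exp T' := by
    rw [← Real.exp_sub, ← Real.exp_add, ← Real.exp_add]
    congr 1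
    ring
  rw [e1, e2]
  obtain ⟨Cf, hCf⟩ : ∃ Cf, Cf = Cg * (2 * (C_b * (η⁻¹) ^ Jn * C₂) +
    (3 + cg) * (Cw ^ 2 * (η⁻¹) ^ Jn) * C_R) := ⟨_, rfl⟩
  rw [← hCf]
  obtain ⟨HJ', hHJ'⟩ : ∃ HJ', HJ' = (Ht ps * Ht (natl ps₀)) ^ max M ((N : ℝ) ^ 2 * M) := ⟨_, rfl⟩
  rw [← hHJ']
  have hHJ0 : 0 ≤ HJ' := by rw [hHJ']; exact Real.rpow_nonneg (by linarith) _
  have hXe : 0 ≤ X ^ ε := Real.rpow_nonneg hX0.le _
  calc Cf * X ^ ε * HJ' * Bd * ((1 + |t|) ^ Jn * Real.exp T') ≤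
      (Cf + Real.exp r₂ + C_R) * X ^ ε * HJ' * Bd * ((1 + |t|) ^ Jn * Real.exp T') := by
        have : 0 ≤ Bd := by linarith
        have a1 : Cf ≤ Cf + Real.exp r₂ + C_R := by linarith [Real.exp_pos r₂]
        have a2 : 0 ≤ (1 + |t|) ^ Jn := by positivity
        gcongr
    _ = (Cf + Real.exp r₂ + C_R) * X ^ ε * HJ' * Bd * ((1 + |t|) ^ Jn *
        (Real.exp κ / Real.exp m * (Real.exp (2 * m) * Real.exp (T' - m - κ)))) := by rw [e3]
    _ = _ := by ring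

end Crest.Agent.R017.NGm551
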