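import Crest.Agent.R017.NOk_64
import Crest.Agent.R017.NAz_144

/-!
# Row 17, the near leaf, (Ro) (helper64): helper144's `OsNl`

* **`osNl`** : the leaf (Os) of class N, `1 ≤ E`
-/

set_option autoImplicit false

noncomputable section

namespace Crest.Agent.R017.NO64

open Crest.Agent.R012 Crest.Agent.R012.Eis
open Crest.Agent.R017.FE47
open Crest.Agent.R017.B770
open Crest.Agent.R017.Prov71
open Crest.Agent.R017.RGB545
open Crest.Agent.R017.NAz144 (OsNl)

/-- **(Os) of class N** -/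
theorem osNl {Lam : Type*} {π : Lam → DPar} (hP : ∀ lam, (π lam).OK) {h : ℝ → ℝ} {cu : ℝ}
    (hpu : PU h cu) {E : ℝ} (hE : 1 ≤ E) : OsNl π h E :=
  fun _ hw hw0 _ _ _ hc hcK _ _ =>
    osN hP hpu hw hw0 hE hc hcK (j := Sum.inl (Sum.inl (Sum.inr ()))) rfl

end Crest.Agent.R017.NO64
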