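import Crest.Agent.R017.NAu_144
import Crest.Agent.R017.N2s_435
import Crest.Agent.R017.NOl_64
import Crest.Agent.R017.NGm_551

/-!
# Row 17, near field (helper144): the field `near` of class N, no open leaf

* `gkNl` : the Gram leaf at the lines of class N (helper551, helper708)
* **`near_N`** : `NearAll d (ex Dq (fun lam => S0p (πN lam) h))`
-/

set_option autoImplicit false

noncomputable section

open Complex

namespace Crest.Agent.R017.NAn144

open Crest.Agent.R012 Crest.Agent.R012.Eis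
open Crest.Agent.R017.FE47 Crest.Agent.R017.End699
open Crest.Agent.R017.B770 Crest.Agent.R017.BxH986
open Crest.Agent.R017.Prov71 Crest.Agent.R017.ER911
open Crest.Agent.R017.Fin4 Crest.Agent.R017.Fin5 Crest.Agent.R017.Fin6
open Crest.Agent.R017.NZN551 (p0 p1 pb f3 f3_nonneg)
open Crest.Agent.R017.NrA986 (NearAll)
open Crest.Agent.R017.NAz144

/-- **leaf (Gk)**, class N -/
theorem gkNl {Lam : Type*} {π : Lam → DPar} (hP : ∀ lam, (π lam).OK) {h : ℝ → ℝ} {c₁ : ℝ}
    (hpu : PU h c₁) (E : ℝ) : GkNl π h E := by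
  intro w hw hw0 Nw Mw Fw hD K v c hc hcK hv hv3
  refine NGm551.nleaf_gk hP hpu hc hcK _ _ (Sum.inr ()) (fun _ _ _ _ => rfl) id
    (fun _ _ => rfl) (fun _ _ => rfl) ?_ ?_ ?_
  · intro a u m
    show 0 ≤ 9 / 22 * f3 K m + 10 * c
    linarith [f3_nonneg K m]
  · intro a u m
    show 9 / 22 * f3 K m + 10 * c ≤ 9 / 22 * max 0 ((4 * m - 3 * K) / 9) + 10 * c
    exact le_rfl
  · intro a u m
    show 0 ≤ f3 K m + 20 * c
    linarith [f3_nonneg K m]

/-- **the field `near` of class N** -/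
theorem near_N {d : ℝ} (hd : 0 < d) (hd1 : d ≤ 1 / 42) {h : ℝ → ℝ} {c₀ : ℝ} (hpu : PU h c₀)
    (hPF : PF Set.univ (7 / 8 + d)) (hB : BunA d h) (hR : RecA d h) :
    NearAll d (ex Dq (fun lam => S0p (πN lam) h)) :=
  near_N3 hd hd1 hpu hPF hB hR (E := 1) zero_le_one (by norm_num) (N2S435.rgNl πN_ok hpu 1)
    (eqNl_of πN_ok hpu (gkNl πN_ok hpu 1)) (NO64.osNl πN_ok hpu le_rfl)

end Crest.Agent.R017.NAn144
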