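import Crest.Agent.R017.Fin15_986
import Crest.Agent.R017.NAn_144

/-!
# Row 17: the top from the remaining leaves (helper986)

* `LzE` : the three leaves of class E left open
* `s22_of_open16`, `s23_of_open16`
-/

set_option autoImplicit false

noncomputable section

open Complex Filter Topology

namespace Crest.Agent.R017.Fin16

open Crest.Agent.R012 Crest.Agent.R012.Eis
open Crest.Agent.R017.FE47 Crest.Agent.R017.End699
open Crest.Agent.R017.B770 Crest.Agent.R017.BxH986
open Crest.Agent.R017.Prov71 Crest.Agent.R017.ER911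
open Crest.Agent.R017.E5B71 Crest.Agent.R017.ExP960
open Crest.Agent.R017.SC777
open Crest.Agent.R017.Fin4 Crest.Agent.R017.Fin5 Crest.Agent.R017.Fin6
open Crest.Agent.R017.P1l54 Crest.Agent.R017.P1t54
open Crest.Agent.R017.P10X764 (E2XU E2SU)
open Crest.Agent.R017.Sg986 (AA AA_lt AA_eq AA_ge)
open Crest.Agent.R017.NrX986 (NearAllX)
open Crest.Agent.R017.XS0298 (S0x S0K)
open Crest.Agent.R017.Red848 (red Exc red_ok)

/-- **the open leaves of class E** -/
structure LzE (d : ℝ) (h : ℝ → ℝ) : Prop where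
  /-- the field of near-equal lists -/
  near : NearAllX d (ex Dq (fun lam => S0x (red (πE lam)) h))
  /-- cross error, differences -/
  e2x : ∀ r : ℝ, 0 ≤ r → (∀ u : ℝ, cx h u ≠ 0 → |u| ≤ r) →
    E2XU (fun lam => red (πE lam)) h (1 / 64) (d / 4) r βX (ParS (AA d) d) (LS0 d)
  /-- cross error, single lists -/
  e2s : ∀ r : ℝ, 0 ≤ r → (∀ u : ℝ, cx h u ≠ 0 → |u| ≤ r) →
    E2SU (fun lam => red (πE lam)) h (1 / 64) (d / 4) r βX (ParS (AA d) d) (LS0 d)

/-- **the open leaves of row 17** : class E only -/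
def Open : Prop := ∀ (h : ℝ → ℝ) (c₀ : ℝ), PU h c₀ → ∀ d : ℝ, 0 < d → d ≤ 1 / 42 →
    PF Set.univ (7 / 8 + d) → BunE d h → RecE d h → LzE d h

theorem open_of (H : Open) : Fin15.Open := fun h c₀ hpu _ d hd _ hPF =>
  { near := fun h1 h2 h3 => NAn144.near_N hd h1 hpu hPF h2 h3
    lxE := fun h1 h2 h3 _ _ _ r h7 h8 =>
      have L := H h c₀ hpu d hd h1 hPF h2 h3
      { near := L.near
        e2x := L.e2x r h7 h8
        e2s := L.e2s r h7 h8 } }

/-- **S0022** from the open leaves -/
theorem s22_of_open16 (T : Trees) (H : Open) : S22 := Fin15.s22_of_open15 T (open_of H)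

/-- **S0023** from the open leaves -/
theorem s23_of_open16 (T : Trees) (H : Open) : S23 := Fin15.s23_of_open15 T (open_of H)

end Crest.Agent.R017.Fin16
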