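import Crest.Agent.R017.NAy_144
import Crest.Agent.R017.NGl_708

/-!
# Row 17, near field (helper144): class E at the final constants

* `qmF`, `LEf` : the range of the line of `NumEq`; the lines of class E at `c`
* `RgEl`, `EqEl`, `OsEl` : the three open leaves of class E as propositions
* **`near_E3`** : the field `near` of helper986's `LvE` from them
-/

set_option autoImplicit false

noncomputable section

open Complex

namespace Crest.Agent.R017.NAw144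

open Crest.Agent.R012 Crest.Agent.R012.Eis
open Crest.Agent.R012.MC (Wgt)
open Crest.Agent.R017.FE47 Crest.Agent.R017.End699
open Crest.Agent.R017.B770 Crest.Agent.R017.BxH986
open Crest.Agent.R017.Prov71 Crest.Agent.R017.ER911
open Crest.Agent.R017.Fin4 Crest.Agent.R017.Fin5 Crest.Agent.R017.Fin6
open Crest.Agent.R017.RGB545
open Crest.Agent.R017.NE499 (hS NumOs)
open Crest.Agent.R017.NEc180 (NumEq)
open Crest.Agent.R017.RX298 (NLeafX)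
open Crest.Agent.R017.WDec180 (WD)
open Crest.Agent.R017.NLn180 (RgN)
open Crest.Agent.R017.NLg777 (QfZ)
open Crest.Agent.R017.NZN551 (p0 p1 pb)
open Crest.Agent.R017.Red848 (red)
open Crest.Agent.R017.XS0298 (S0x)
open Crest.Agent.R017.NrX986 (NearAllX)
open Crest.Agent.R017.NAx144 (OpLX Lv3X Cst4)

/-- the range of the line of `NumEq` (= `NAz144.qmF`) -/
def qmF (c K _V n : ℝ) : ℝ := K - 3 * (max 0 ((4 * n - 3 * K) / 9) + 20 * c) + c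

lemma contH_qmF (c : ℝ) : ContH (qmF c) := by
  unfold RGB545.ContH qmF
  fun_prop

variable {Lam : Type*}

/-- the lines of class E at `c` (reduced data `π`; `E` = the constant of the last entry) -/
abbrev LEf (π : Lam → DPar) (h : ℝ → ℝ) (E c : ℝ) :
    (((Unit ⊕ Unit) ⊕ Unit) ⊕ Unit) → Line Lam 9 :=
  LEk π h ((DX TqB (qmF c) (21 * c) (30 * c) (2000 * c) (E * c)).sum dGk)

/-- **leaf (Rg)** -/
def RgEl (π : Lam → DPar) (h : ℝ → ℝ) (E e₁ : ℝ) : Prop :=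
  ∀ w : ℝ → ℝ, Wgt w → (∀ x, 0 ≤ w x) → ∀ (Nw : ℕ) (Mw : ℝ) (Fw : ℕ → ℝ → ℂ), WD w Nw Mw Fw →
    ∀ K v c d₀ : ℝ, 0 < c → 1000000 * c ≤ K → 0 ≤ v → 3 * v + 100 * c ≤ 2 * K → 0 ≤ d₀ →
      4 * d₀ ≤ K → NLeafX π h (RgN Nw Mw Fw hS (12 * (c / K))) (LEf π h E c) (p0 c K) (p1 c K)
        (pb c K) K v c e₁ d₀

/-- **leaf (Eq)**, `C₀ = exp (2 + Nw)` -/
def EqEl (π : Lam → DPar) (h : ℝ → ℝ) (E e₁ : ℝ) : Prop :=
  ∀ w : ℝ → ℝ, Wgt w → (∀ x, 0 ≤ w x) → ∀ (Nw : ℕ) (Mw : ℝ) (Fw : ℕ → ℝ → ℂ), WD w Nw Mw Fw →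
    ∀ K v c d₀ : ℝ, 0 < c → 1000000 * c ≤ K → 0 ≤ v → 3 * v + 100 * c ≤ 2 * K → 0 ≤ d₀ →
      4 * d₀ ≤ K → NLeafX π h (fun q α Rn => NumEq Nw Mw Fw (QfZ (Real.exp (2 + Nw)) q) q.Cw q.η
        q.Aw q.K q.X q.R q.J q.D q.E0 (hS q) q.N₁ α Rn) (LEf π h E c) (p0 c K) (p1 c K)
        (pb c K) K v c e₁ d₀

/-- **leaf (Os)** -/
def OsEl (π : Lam → DPar) (h : ℝ → ℝ) (E e₁ : ℝ) : Prop :=
  ∀ w : ℝ → ℝ, Wgt w → (∀ x, 0 ≤ w x) →
    ∀ K v c d₀ : ℝ, 0 < c → 1000000 * c ≤ K → 0 ≤ v → 3 * v + 100 * c ≤ 2 * K → 0 ≤ d₀ →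
      4 * d₀ ≤ K → NLeafX π h (fun q α Rn => NumOs w q.Cw q.η q.Aw q.K q.X q.K q.R q.J q.D q.E0
        q.E1 (q.B / q.E0) (q.N₁ / 2) q.N₁ α Rn) (LEf π h E c) (p0 c K) (p1 c K) (pb c K) K v c
        e₁ d₀

theorem opLX_of {π : Lam → DPar} {h : ℝ → ℝ} {E e₁ : ℝ} (h1 : RgEl π h E e₁)
    (h2 : EqEl π h E e₁) (h3 : OsEl π h E e₁) : OpLX π h (LEf π h E) e₁ := by
  intro w hw hw0 Nw Mw Fw hD
  refine ⟨Real.exp (2 + Nw), Real.exp_pos _, ?_⟩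
  intro K v c d₀ hc hcK hv hv3 hd0 hd4
  exact ⟨h1 w hw hw0 Nw Mw Fw hD K v c d₀ hc hcK hv hv3 hd0 hd4,
    h2 w hw hw0 Nw Mw Fw hD K v c d₀ hc hcK hv hv3 hd0 hd4,
    h3 w hw hw0 K v c d₀ hc hcK hv hv3 hd0 hd4⟩

lemma cst4 {E : ℝ} (hE0 : 0 ≤ E) (hE1 : E ≤ 500) : Cst4 21 30 2000 E where
  a0 := by norm_num
  a1 := by norm_num
  b0 := by norm_num
  b1 := by norm_num
  m0 := by norm_num
  m1 := by norm_num
  e0 := hE0
  e1 := hE1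

/-- **the field `near` of class E** from the three leaves -/
theorem near_E3 {d : ℝ} (hd : 0 < d) (hd1 : d ≤ 1 / 42) {h : ℝ → ℝ} {c₀ : ℝ} (hpu : PU h c₀)
    (hPF : PF Set.univ (7 / 8 + d)) (P : BunE d h) (G : RecE d h) {e₁ : ℝ} (he₁ : 20 * e₁ ≤ 1)
    {E : ℝ} (hE0 : 0 ≤ E) (hE1 : E ≤ 500) (h1 : RgEl (rdE πE) h E e₁)
    (h2 : EqEl (rdE πE) h E e₁) (h3 : OsEl (rdE πE) h E e₁) :
    NearAllX d (ex Dq (fun lam => S0x (red (πE lam)) h)) :=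
  NAx144.near_E hd hd1 hpu hPF P G he₁ (cst4 hE0 hE1) (fun c _ => contH_qmF c) dGk_ok
    (fun _ _ => realQ_gk P.rules hd.le (by linarith)) (opLX_of h1 h2 h3)

end Crest.Agent.R017.NAw144
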