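import Crest.Agent.R017.N2eX_298
import Crest.Agent.R017.NAw_144

/-!
# Row 17, FlatNE (helper298): the leaf (Rg) of class E

* `rgEl` : helper144's `RgEl` from `rg_leafX`
-/

set_option autoImplicit false
set_option linter.unusedVariables false

noncomputable section

namespace Crest.Agent.R017.N2FX298

open Crest.Agent.R012 Crest.Agent.R012.Eis
open Crest.Agent.R012.T411 (NCube)
open Crest.Agent.R017.B770
open Crest.Agent.R017.Prov71
open Crest.Agent.R017.FE47 (PU)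
open Crest.Agent.R017.WDec180 (WD)
open Crest.Agent.R017.RGB545
open Crest.Agent.R017.Sup271 (NPm)
open Crest.Agent.R017.NEg551 (LBq)
open Crest.Agent.R017.NLn180 (RgN)
open Crest.Agent.R017.RX298 (NLeafX)
open Crest.Agent.R017.RQd385 (PM2Q)
open Crest.Agent.R017.P2X359 (R2Ln)
open Crest.Agent.R017.NZN551 (p1)
open Crest.Agent.R017.NAw144 (RgEl LEf)
open Crest.Agent.R017.N2EX298 (rg_leafX)

variable {Lam ι : Type*}

/-- **the R-number of the cross error at the near leaf**, class E, at the parameters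
`E0 = X ^ (9/22 F3 + 10 c)`, `B = X ^ (31/22 F3 + 31 c)`; the line `j₀` is the pair line with
`hh = 3 F3 + 63 c` -/
theorem rg_leafXE {π : Lam → DPar} (hP : ∀ lam, (π lam).OK)
    (hnp : ∀ lam, ¬ NPm (π lam).n (π lam).ψ (π lam).l₂ 1) {h : ℝ → ℝ} {c₁ : ℝ}
    (hpu : PU h c₁) {w : ℝ → ℝ} {Nw : ℕ} {Mw : ℝ} {Fw : ℕ → ℝ → ℂ} (hD : WD w Nw Mw Fw)
    {hf : LBq → ℝ} (hfe : ∀ p : LBq, hf p = 3 * Real.log (p.B / p.E0))
    {L : ι → Line Lam 9} {j₀ : ι} {K v c e₁ d₁ : ℝ} (hc : 0 < c) (hcK : 1000000 * c ≤ K)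
    (hv : 0 ≤ v) (hd₁ : 0 ≤ d₁)
    (hR2 : ∀ lam, R2Ln L j₀ lam (PM2Q NCube (π lam) h) (hC (21 * c)))
    (φ₁ : ℝ → ℝ → ℝ → ℝ) :
    NLeafX π h (RgN Nw Mw Fw hf (12 * (c / K))) L
      (fun _ _ m => 9 / 22 * max 0 ((4 * m - 3 * K) / 9) + 10 * c) φ₁
      (fun _ _ m => 31 / 22 * max 0 ((4 * m - 3 * K) / 9) + 31 * c) K v c e₁ d₁ := by
  have hK : 0 < K := by linarith
  have hF : ∀ m : ℝ, 0 ≤ max 0 ((4 * m - 3 * K) / 9) := fun m => le_max_left _ _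
  have hF9 : ∀ m : ℝ, 9 * max 0 ((4 * m - 3 * K) / 9) = max 0 (4 * m - 3 * K) := fun m => by
    rw [mul_max_of_nonneg _ _ (by norm_num : (0 : ℝ) ≤ 9), mul_zero]
    congr 1
    ring
  have hF45 : ∀ a m : ℝ, 5 * a ≤ 4 * K + c → m ≤ a + c →
      max 0 ((4 * m - 3 * K) / 9) ≤ K / 45 + 6 / 10 * c := fun a m h1 h2 =>
    max_le (by positivity) (by linarith)
  refine rg_leafX hP hnp hpu hD hfe (hl := hC (21 * c)) (j₀ := j₀)
    hc hcK hv hd₁ (by positivity) ?_ hR2 ?_ ?_ ?_ ?_ ?_ ?_ ?_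
  · have h1 : c / K * K = c := div_mul_cancel₀ _ hK.ne'
    linarith
  · intro a u m
    have := hF m
    show 0 ≤ 9 / 22 * max 0 ((4 * m - 3 * K) / 9) + 10 * c
    linarith
  · intro a u m
    have h1 := hF9 m
    have h2 := hF m
    show 9 * (9 / 22 * max 0 ((4 * m - 3 * K) / 9) + 10 * c) ≤ max 0 (4 * m - 3 * K) + K / 100
    rw [← h1]
    linarith
  · intro a u m h1 h2
    have := hF45 a m h1 h2
    show 40 * (9 / 22 * max 0 ((4 * m - 3 * K) / 9) + 10 * c) ≤ K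
    linarith
  · intro a u m
    have := hF m
    show 9 / 22 * max 0 ((4 * m - 3 * K) / 9) + 10 * c ≤
      31 / 22 * max 0 ((4 * m - 3 * K) / 9) + 31 * c
    linarith
  · intro a u m h1 h2
    have := hF45 a m h1 h2
    show 42 * (31 / 22 * max 0 ((4 * m - 3 * K) / 9) + 31 * c -
      (9 / 22 * max 0 ((4 * m - 3 * K) / 9) + 10 * c)) ≤ K
    linarith
  · intro a u m
    have h1 := hF9 m
    show 9 * (31 / 22 * max 0 ((4 * m - 3 * K) / 9) + 31 * c -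
      (9 / 22 * max 0 ((4 * m - 3 * K) / 9) + 10 * c)) ≤ max 0 (4 * m - 3 * K) + K / 200
    rw [← h1]
    linarith
  · intro a u m
    show 3 * (31 / 22 * max 0 ((4 * m - 3 * K) / 9) + 31 * c -
      (9 / 22 * max 0 ((4 * m - 3 * K) / 9) + 10 * c)) ≤ hC (21 * c) K u m
    unfold RGB545.hC
    linarith

/-- **the leaf (Rg)** of helper144's `near_E3`, any reduced data -/
theorem rgEl {Lam : Type*} {π : Lam → DPar} (hP : ∀ lam, (π lam).OK)
    (hnp : ∀ lam, ¬ NPm (π lam).n (π lam).ψ (π lam).l₂ 1) {h : ℝ → ℝ} {c₁ : ℝ}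
    (hpu : PU h c₁) (E e₁ : ℝ) : RgEl π h E e₁ := by
  intro w hw hw0 Nw Mw Fw hD K v c d₀ hc hcK hv hv3 hd₀ hd₄
  exact rg_leafXE hP hnp hpu hD (fun _ => rfl) (j₀ := .inl (.inl (.inl ()))) hc hcK hv hd₀
    (fun lam => ⟨fun _ _ => rfl, fun x θ => P2X359.fr2X_le x θ, fun _ => rfl, fun h => h, rfl⟩)
    (p1 c K)

end Crest.Agent.R017.N2FX298
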