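import Crest.Agent.R017.NAp_144
import Crest.Agent.R017.N2fX_298

/-!
# Row 17, near field (helper144): the field `near` of class E, no open leaf

* **`near_E`** : `NearAllX d (ex Dq (fun lam => S0x (red (πE lam)) h))`
-/

set_option autoImplicit false

noncomputable section

open Complex

namespace Crest.Agent.R017.NAo144

open Crest.Agent.R012 Crest.Agent.R012.Eis
open Crest.Agent.R017.FE47 Crest.Agent.R017.End699
open Crest.Agent.R017.B770 Crest.Agent.R017.BxH986
open Crest.Agent.R017.Prov71 Crest.Agent.R017.ER911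
open Crest.Agent.R017.Fin4 Crest.Agent.R017.Fin5 Crest.Agent.R017.Fin6
open Crest.Agent.R017.RGB545
open Crest.Agent.R017.Red848 (red)
open Crest.Agent.R017.XS0298 (S0x)
open Crest.Agent.R017.NrX986 (NearAllX)

/-- **the field `near` of class E** -/
theorem near_E {d : ℝ} (hd : 0 < d) (hd1 : d ≤ 1 / 42) {h : ℝ → ℝ} {c₀ : ℝ} (hpu : PU h c₀)
    (hPF : PF Set.univ (7 / 8 + d)) (P : BunE d h) (G : RecE d h) :
    NearAllX d (ex Dq (fun lam => S0x (red (πE lam)) h)) :=
  NAp144.near_E4 hd hd1 hpu hPF P G (N2FX298.rgEl (red_OK (fun lam => lam.2.1)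
    (fun lam => XT6241.exc_piE lam)) (fun _ => LfP986.npm_one _) hpu 1 (1 / 20))

end Crest.Agent.R017.NAo144
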