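import Crest.Agent.R017.RGz_545

/-!
# Row 17, section D: the field `T3Fld` from the RG recursion (helper986)

`t3fld_of` : helper777's T3a and helper911's T3N with the abstract pair alternative (helper545).
-/

set_option autoImplicit false

noncomputable section

namespace Crest.Agent.R017.T3F986

open Crest.Agent.R017.ER911 Crest.Agent.R017.SC777

/-- **three big lumps from the recursion** -/
theorem t3fld_of {θ : ℝ} {r s s₀ : EF} (hθ : 7 / 8 ≤ θ) (hθ1 : θ ≤ 1) (R : ExpRules θ r s)
    (Rm : ExpRGFz θ r s s₀) : T3Fld θ r := t3fld_z hθ hθ1 R Rm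

end Crest.Agent.R017.T3F986
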