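import Crest.Agent.R017.Fin5_986
import Crest.Agent.R017.T3Of_986

/-!
# Row 17: the top with the remaining leaves as literal hypotheses (helper986)

`Open6 d h` (at `θ = 7/8 + d < 1`, partition `h`) and the trees of T.2 ⟹ S0022, S0023.

* T.5 : `rgN` (class N), T.7 : `rgE` (class E, reduced data), helper590's text with helper777's
  side conditions `QL3`, in class E with an abstract pair alternative (helper545)
* T.3 : `sgnN` (`P1`, `StrU`, `TailU` with one structured function)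
* T.4 : `sgnE` (`P1X`, `StrUX`, `TailUX` with one structured function)

The fields `sgnN`, `sgnE` may use `d ≤ 1/42`, the bundles (`BunA` : every family of class N), the
recursion (`RecA` : every closed family of class N) and the coverage.
-/

set_option autoImplicit false

noncomputable section

open Complex Filter Topology

namespace Crest.Agent.R017.Fin6

open Crest.Agent.R012 Crest.Agent.R012.Eis
open Crest.Agent.R017.FE47 Crest.Agent.R017.End699
open Crest.Agent.R017.B770 Crest.Agent.R017.BxH986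
open Crest.Agent.R017.Prov71 Crest.Agent.R017.ER911
open Crest.Agent.R017.E5B71 Crest.Agent.R017.ExP960
open Crest.Agent.R017.SC777
open Crest.Agent.R017.Fin4 Crest.Agent.R017.Fin5
open Crest.Agent.R017.XEx298 (Rt)
open Crest.Agent.R017.XS0298 (S0x)
open Crest.Agent.R017.Red848 (red)
open Crest.Agent.R017.XC858 (SKq)
open Crest.Agent.R017.PX764 (Dk)

/-- the open field of T.5 -/
def RGN (θ : ℝ) (r s s₀ : EF) : Prop :=
  ∀ δ : ℝ, 0 < δ → ∃ c μ : ℝ, 0 < c ∧ 1000 * c ≤ μ ∧ c + μ ≤ δ ∧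
    ExpRGn θ c r s₀ (QL3 θ r s s₀ c μ)

/-- the open field of T.7, with an abstract pair alternative (`ExpRGFz.rgf`) -/
def RGE (θ : ℝ) (r s s₀ : EF) : Prop :=
  ∃ PA : ℝ → ℝ → Multiset ℝ → ℝ → ℝ → ℝ → Prop, (ExpRules θ r s → RGB545.PAL (θ - 7 / 8) PA) ∧
    ∀ δ : ℝ, 0 < δ → ∃ c μ : ℝ, 0 < c ∧ 1000 * c ≤ μ ∧ c + μ ≤ δ ∧
      ExpRGy θ c r s₀ (RGB545.QL3P θ r s₀ PA c μ)

/-- the recursion of all closed families of class N -/
def RecA (d : ℝ) (h : ℝ → ℝ) : Prop :=
  ∀ (Λ : Type) (π : Λ → DPar), (∀ lam, (π lam).OK) → (∀ lam, ClN (π lam)) → PM320.Clo π →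
    ExpRGFz (7 / 8 + d) (ex Dq (fun lam => Rp (π lam) h)) (ex Dq (fun lam => Sp (π lam) h))
      (ex Dq (fun lam => S0p (π lam) h))

/-- the recursion of class E (reduced data) -/
def RecE (d : ℝ) (h : ℝ → ℝ) : Prop :=
  ExpRGFz (7 / 8 + d) (ex Dq (fun lam => Rt (red (πE lam)) h))
    (ex Dq (fun lam => SKq Dk (red (πE lam)) h)) (ex Dq (fun lam => S0x (red (πE lam)) h))

/-- **the remaining inputs of row 17** at `θ = 7/8 + d` -/
structure Open6 (d : ℝ) (h : ℝ → ℝ) : Prop where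
  /-- T.5 -/
  rgN : ∀ (Λ : Type) (π : Λ → DPar), (∀ lam, (π lam).OK) → (∀ lam, ClN (π lam)) →
    PM320.Clo π → RGN (7 / 8 + d) (ex Dq (fun lam => Rp (π lam) h))
      (ex Dq (fun lam => Sp (π lam) h)) (ex Dq (fun lam => S0p (π lam) h))
  /-- T.7 -/
  rgE : RGE (7 / 8 + d) (ex Dq (fun lam => Rt (red (πE lam)) h))
    (ex Dq (fun lam => SKq Dk (red (πE lam)) h)) (ex Dq (fun lam => S0x (red (πE lam)) h))
  /-- T.3 -/
  sgnN : d ≤ 1 / 42 → BunA d h → RecA d h → CovA d → SgnN d h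
  /-- T.4 -/
  sgnE : d ≤ 1 / 42 → BunE d h → RecE d h → BunA d h → RecA d h → CovA d → SgnE d h

/-- the trees of T.2 -/
def Trees : Prop := ∀ k, 3 ≤ k → k ≤ 8 → CovMap702.TreeD CovMap702.lw2 k

theorem recA_of {d : ℝ} (hd : 0 < d) (hd1 : d < 1 / 8) {h : ℝ → ℝ} {c₀ : ℝ} (hpu : PU h c₀)
    (H : Open6 d h) : RecA d h := by
  intro Λ π hP hN hc
  have h0 := ProvS986.s0_N hpu hP
  exact (ExpRGFn.toZ (by linarith) (by linarith)
    { toExpS0 := h0, rgf := H.rgN Λ π hP hN hc } : ExpRGFz _ _ _ _)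

theorem recE_of {d : ℝ} {h : ℝ → ℝ} {c₀ : ℝ} (hpu : PU h c₀) (H : Open6 d h) : RecE d h := by
  have h0 := ProvS986.s0_E hpu (fun lam => lam.2.1) (fun lam => XT6241.exc_piE lam)
  exact { toExpS0 := h0, rgf := H.rgE }

theorem open5_of {d : ℝ} (hd : 0 < d) (hd1 : d < 1 / 8) {h : ℝ → ℝ} {c₀ : ℝ} (hpu : PU h c₀)
    (hPF : PF Set.univ (7 / 8 + d)) (T : Trees) (H : Open6 d h) : Open5 d h where
  trees := T
  t3N := T3F986.t3fld_of (by linarith) (by linarith)
    (ProvS986.prov0_N (π := πL) (by linarith) (by linarith) hPF hpu (fun lam => lam.2.1)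
      (fun lam k hk => lam.2.2 k hk)).rules
    (recA_of hd hd1 hpu H _ πL (fun lam => lam.2.1) (fun lam => lam.2.2) clo_πL)
  t3E := T3F986.t3fld_of (by linarith) (by linarith)
    (ProvS986.prov0_E (π := πE) (by linarith) (by linarith) hPF hpu (fun lam => lam.2.1)
      (fun lam => XT6241.exc_piE lam)).rules (recE_of hpu H)
  sgnN h1 h2 h3 := H.sgnN h1 h2 (recA_of hd hd1 hpu H) h3
  sgnE h1 h2 h3 h4 := H.sgnE h1 h2 (recE_of hpu H) h3 (recA_of hd hd1 hpu H) h4

/-- **the open inputs of row 17** -/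
def Open : Prop := ∀ (h : ℝ → ℝ) (c₀ : ℝ), PU h c₀ → Neg h → ∀ d : ℝ, 0 < d → d < 1 / 8 →
  PF Set.univ (7 / 8 + d) → Open6 d h

theorem open_of (T : Trees) (H : Open) : Fin5.Open := fun h c₀ hpu hneg d hd hd1 hPF =>
  open5_of hd hd1 hpu hPF T (H h c₀ hpu hneg d hd hd1 hPF)

/-- **S0022** from the open inputs -/
theorem s22_of_open6 (T : Trees) (H : Open) : S22 := s22_of_open (open_of T H)

/-- **S0023** from the open inputs -/
theorem s23_of_open6 (T : Trees) (H : Open) : S23 := s23_of_open (open_of T H)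

end Crest.Agent.R017.Fin6
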