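import Crest.Agent.R017.P10Sb_764

/-!
# Row 17, exceptional class (helper960): the bias line of single lists

* `bts_of` : `BTlS c β Par L0 Tt` for `17/100 ≤ β`, `c ≤ 1/50`, `0 ≤ L0`, `top5 ≤ Tt` at both points
-/

set_option autoImplicit false
set_option linter.unusedSectionVars false

noncomputable section

namespace Crest.Agent.R017.P10S960

open Crest.Agent.R017.E5B71 Crest.Agent.R017.E5P571 Crest.Agent.R017.E5L770
open Crest.Agent.R017.ExBox960 Crest.Agent.R017.ExP960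
open Crest.Agent.R017.P1X960
open Crest.Agent.R017.TM708 (PD R5)
open Crest.Agent.R017.P10X764

/-- **the bias line of single lists** -/
theorem bts_of {c β : ℝ} {Par : Set (Fin 3 ⊕ Fin 5 → ℝ)} {L0 : (Fin 3 ⊕ Fin 5 → ℝ) → ℝ}
    {Tt : (Fin 5 → ℝ) → ℝ} (hβ : 17 / 100 ≤ β) (hc : c ≤ 1 / 50)
    (hR5 : ∀ p : IX5 → ℝ, prX p ∈ Par → ZR β p → R5 (bN p))
    (hL0 : ∀ p ∈ Par, 0 ≤ L0 p)
    (hTN : ∀ p : IX5 → ℝ, prX p ∈ Par → ZR β p → top5 (prX p) ≤ Tt (bN p))
    (hTR : ∀ p : IX5 → ℝ, prX p ∈ Par → ZR β p → top5 (prX p) ≤ Tt (bR p)) :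
    BTlS c β Par L0 Tt := by
  have main : ∀ (p : IX5 → ℝ) (v₀ v₁ v₂ b x' : ℝ), ChC c β Par p v₀ v₁ v₂ b x' →
      SinL β p v₀ v₁ v₂ →
      (max (tpW c p b) (2 * (v₀ + v₁ + v₂ + x') - cκ (prX p)) + (v₀ + v₁ + v₂ + x') -
        cκ (prX p)) / 3 ≤ 0 ∧
      max (tpW c p b) (2 * (v₀ + v₁ + v₂ + x') - cκ (prX p)) ≤ top5 (prX p) := by
    intro p v₀ v₁ v₂ b x' hch hS
    have hR := hR5 p hch.par hch.zr
    have e0 : bN p 0 = cκ (prX p) := rfl
    have e4 : bN p 4 = cx' (prX p) := rfl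
    have eN : bN p 1 + bN p 2 + bN p 3 = cN (prX p) := rfl
    have hk0 := hR.k0
    have hx0 := hR.x0
    have hN := hR.hN
    have hx1 := hR.x1
    have hadm := hR.adm
    rw [eN, e0] at hN
    rw [e4, e0] at hx1
    rw [eN, e0, e4] at hadm
    rw [e0] at hk0
    rw [e4] at hx0
    have hl := hS.2
    have hs1 := hch.s1
    have hs2 := hch.s2
    have hxx := hch.x1
    have hx'0 := hch.x0
    set κ := cκ (prX p) with hκ
    set NN := cN (prX p) with hNN
    set xx := cx' (prX p) with hxx'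
    have hβκ : 17 / 100 * κ ≤ β * κ := mul_le_mul_of_nonneg_right hβ hk0
    have hcκ : c * κ ≤ 1 / 50 * κ := mul_le_mul_of_nonneg_right hc hk0
    have ht5 : top5 (prX p) = min (2 * NN - κ) (3 / 4 * NN) + 11 / 5 * xx := rfl
    have m1 := min_le_left (2 * NN - κ) (3 / 4 * NN)
    have m2 := min_le_right (2 * NN - κ) (3 / 4 * NN)
    have htp : tpW c p b = min (top5 (prX p)) (top5 (prX p) + 2 * (c * κ) - 2 * b) := rfl
    have q1 : tpW c p b ≤ top5 (prX p) := by rw [htp]; exact min_le_left _ _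
    have q2 : tpW c p b ≤ top5 (prX p) + 2 * (c * κ) - 2 * b := by
      rw [htp]; exact min_le_right _ _
    have hNx : NN + xx ≤ 102 / 125 * κ := by
      rcases hadm with h | ⟨h, -, -⟩
      · linarith
      · linarith
    have hNx2 : 7 / 4 * NN + 21 / 5 * xx ≤ 1469 / 1000 * κ := by
      rcases hadm with h | ⟨h, -, -⟩
      · linarith
      · linarith
    constructor
    · rcases le_total (tpW c p b) (2 * (v₀ + v₁ + v₂ + x') - κ) with h | h
      · rw [max_eq_right h]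
        linarith
      · rw [max_eq_left h]
        linarith
    · refine max_le q1 ?_
      rw [ht5]
      have h3 : 2 * (v₀ + v₁ + v₂ + x') - κ ≤ min (2 * NN - κ) (3 / 4 * NN) :=
        le_min (by linarith) (by linarith)
      linarith
  refine ⟨?_, ?_, ?_⟩
  · intro p v₀ v₁ v₂ b x' hch hS
    exact (main p v₀ v₁ v₂ b x' hch hS).1.trans (hL0 _ hch.par)
  · intro p v₀ v₁ v₂ b x' hch hS
    exact (main p v₀ v₁ v₂ b x' hch hS).2.trans (hTN p hch.par hch.zr)
  · intro p v₀ v₁ v₂ b x' hch hS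
    exact (main p v₀ v₁ v₂ b x' hch hS).2.trans (hTR p hch.par hch.zr)

end Crest.Agent.R017.P10S960
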