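import Crest.Agent.R017.P1X3_960
import Crest.Agent.R017.P1t_54
import Crest.Agent.R017.P1DomS_918

/-!
# Row 17, exceptional class, P1X: the real line (BT) (helper176)

* `bt` : the bias of the diagonal: `(max (T_S + 2cκ - 2b) (2n' - κ) + n' - κ)/3 + κ/100` is at most
  `min (v₀, v₁, v₀ - D, v₁ + D) + L0`, at the configurations of `P10X` (helper764's text)
-/

set_option autoImplicit false
set_option linter.unusedVariables false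

noncomputable section

namespace Crest.Agent.R017.P1Bt176

open Crest.Agent.R017.B770
open Crest.Agent.R017.E5B71 Crest.Agent.R017.E5L770
open Crest.Agent.R017.ExP960 Crest.Agent.R017.P1X960 Crest.Agent.R017.P1t54

set_option maxHeartbeats 2000000 in
/-- the linear core -/
theorem core {κ y₃ y₄ u x d c z v₀ v₁ v₂ b x' T : ℝ} (hκ : 0 < κ) (hd : 0 ≤ d)
    (u4 : u ≤ y₄) (y43 : y₄ ≤ y₃) (u0 : 11 / 50 * κ ≤ u) (hy3 : y₃ + x ≤ 29 / 100 * κ)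
    (N1 : y₃ + y₄ + u ≤ 102 / 125 * κ) (near : 99 / 100 * κ ≤ y₃ + y₄ + 2 * u) (x0 : 0 ≤ x)
    (adm : (8 * x ≤ d * κ ∧ (x = 0 ∨ y₃ + y₄ + u + x ≤ 4 / 5 * κ)) ∨
      (3 / 4 * κ ≤ y₃ + y₄ + u ∧ x + 2 * (d * κ) ≤ 1 / 36 * κ ∧
        x + 7 / 10 * (y₃ + y₄ + u) ≤ 199 / 360 * κ))
    (dd : d * κ ≤ 1 / 40 * κ) (hc : c * κ ≤ 1 / 100 * κ) (z0 : 17 / 100 * κ ≤ z)
    (z1 : z ≤ 17 / 100) (κ8 : 8 / 9 ≤ κ)
    (h0 : 0 ≤ v₀) (h1 : 0 ≤ v₁) (h2 : 0 ≤ v₂) (hx0 : 0 ≤ x') (hx1 : x' ≤ x) (b0 : 0 ≤ b)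
    (s1 : b ≤ y₃ + y₄ + u - (v₀ + v₁ + v₂)) (s2 : y₃ + y₄ + u - (v₀ + v₁ + v₂) ≤ b + (x - x'))
    (n0 : v₀ ≤ y₃) (n1 : v₁ ≤ y₄) (n2 : v₂ ≤ u) (T1 : T ≤ 2 * (y₃ + y₄ + u) - κ + 3 * x)
    (T2 : T ≤ 3 / 4 * (y₃ + y₄ + u) + 3 * x) {L : ℝ} (L0 : 0 ≤ L)
    (L1 : 5 / 4 * (y₃ + y₄ + u) - κ ≤ L) :
    (max (T + 2 * c * κ - 2 * b) (2 * (v₀ + v₁ + v₂ + x') - κ) + (v₀ + v₁ + v₂ + x') - κ) / 3 +
      κ / 100 ≤ min (min v₀ v₁) (min (v₀ - (y₃ - z)) (v₁ + (y₃ - z))) +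
        (L + 3 / 4 * d * κ) := by
  have hD : 0 ≤ y₃ - z := by linarith
  have e1 : v₀ - (y₃ - z) ≤ v₀ := by linarith
  have e2 : v₁ ≤ v₁ + (y₃ - z) := by linarith
  have hdk : 0 ≤ d * κ := mul_nonneg hd hκ.le
  have key : ∀ r, (r = v₀ - (y₃ - z) ∨ r = v₁) →
      (max (T + 2 * c * κ - 2 * b) (2 * (v₀ + v₁ + v₂ + x') - κ) + (v₀ + v₁ + v₂ + x') - κ) / 3 +
      κ / 100 ≤ r + (L + 3 / 4 * d * κ) := by
    intro r hr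
    rcases max_choice (T + 2 * c * κ - 2 * b) (2 * (v₀ + v₁ + v₂ + x') - κ) with h | h <;>
    rw [h] <;> rcases hr with rfl | rfl <;>
    rcases adm with ⟨a0, rfl | a1⟩ | ⟨a1, a2, a3⟩ <;> linarith
  have k1 := key _ (Or.inl rfl)
  have k2 := key _ (Or.inr rfl)
  have h3 : min (v₀ - (y₃ - z)) v₁ ≤ min (min v₀ v₁) (min (v₀ - (y₃ - z)) (v₁ + (y₃ - z))) := by
    refine le_min (le_min ((min_le_left _ _).trans e1) (min_le_right _ _))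
      (le_min (min_le_left _ _) ((min_le_right _ _).trans e2))
  have h4 : (max (T + 2 * c * κ - 2 * b) (2 * (v₀ + v₁ + v₂ + x') - κ) +
      (v₀ + v₁ + v₂ + x') - κ) / 3 + κ / 100 ≤ min (v₀ - (y₃ - z)) v₁ + (L + 3 / 4 * d * κ) := by
    rcases min_choice (v₀ - (y₃ - z)) v₁ with h | h <;> rw [h] <;> assumption
  linarith

/-- the domain of `P1`, not normalised -/
structure DpK (κ y₃ y₄ u x d : ℝ) : Prop where
  κ0 : 0 < κ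
  d0 : 0 ≤ d
  u4 : u ≤ y₄
  y43 : y₄ ≤ y₃
  u0 : 11 / 50 * κ ≤ u
  y3 : y₃ + x ≤ 29 / 100 * κ
  N1 : y₃ + y₄ + u ≤ 102 / 125 * κ
  near : 99 / 100 * κ ≤ y₃ + y₄ + 2 * u
  x0 : 0 ≤ x
  adm : (8 * x ≤ d * κ ∧ (x = 0 ∨ y₃ + y₄ + u + x ≤ 4 / 5 * κ)) ∨
    (3 / 4 * κ ≤ y₃ + y₄ + u ∧ x + 2 * (d * κ) ≤ 1 / 36 * κ ∧
      x + 7 / 10 * (y₃ + y₄ + u) ≤ 199 / 360 * κ)
  dd : d * κ ≤ 1 / 40 * κ

theorem dpK {κ y₃ y₄ u x d : ℝ} (hκ : 0 < κ)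
    (h : P1F904.Dp (y₃ / κ) (y₄ / κ) (u / κ) (x / κ) d) : DpK κ y₃ y₄ u x d := by
  obtain ⟨u4, y43, u0, hy3, N1, near, x0, adm, d0, d1⟩ := h
  have e3 : y₃ = κ * (y₃ / κ) := by field_simp
  have e4 : y₄ = κ * (y₄ / κ) := by field_simp
  have eu : u = κ * (u / κ) := by field_simp
  have ex : x = κ * (x / κ) := by field_simp
  generalize y₃ / κ = a at *
  generalize y₄ / κ = b at *
  generalize u / κ = c at *
  generalize x / κ = e at *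
  subst e3 e4 eu ex
  have hm : ∀ s t : ℝ, s ≤ t → κ * s ≤ κ * t := fun s t h => mul_le_mul_of_nonneg_left h hκ.le
  refine ⟨hκ, d0, hm _ _ u4, hm _ _ y43, ?_, ?_, ?_, ?_, mul_nonneg hκ.le x0, ?_, ?_⟩
  · have := hm _ _ u0; linarith
  · have := hm _ _ hy3; linarith
  · have := hm _ _ N1; linarith
  · have := hm _ _ near; linarith
  · rcases adm with ⟨a0, a1 | a1⟩ | ⟨a1, a2, a3⟩
    · left
      refine ⟨by have := hm _ _ a0; linarith, Or.inl (by rw [a1, mul_zero])⟩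
    · left
      refine ⟨by have := hm _ _ a0; linarith, Or.inr (by have := hm _ _ a1; linarith)⟩
    · right
      refine ⟨by have := hm _ _ a1; linarith, by have := hm _ _ a2; linarith,
        by have := hm _ _ a3; linarith⟩
  · have := hm _ _ d1; linarith

theorem dpK_Sq5 {A d : ℝ} (hd : 0 ≤ d) (hd1 : d ≤ 1 / 8) (hA : A ≤ 1) (hA1 : 16 * (1 - A) ≤ d)
    {p : Fin 3 ⊕ Fin 5 → ℝ} (hp : p ∈ ParS A d) :
    DpK (cκ p) (cu p 2) (cu p 3) (cu p 4) (cx' p) d := by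
  obtain ⟨w, hw⟩ := hp
  exact dpK (by linarith [hw.κ0]) (hw.dp hd hd1 hA hA1)

/-- **(BT)** -/
theorem bt {A d c : ℝ} (hd : 0 ≤ d) (hd1 : d ≤ 1 / 8) (hA : A ≤ 1) (hA1 : 16 * (1 - A) ≤ d)
    (hc : c ≤ 1 / 100) {p : IX5 → ℝ} {v₀ v₁ v₂ b x' : ℝ}
    (h : ChC c (17 / 100) (ParS A d) p v₀ v₁ v₂ b x') (hD : DifL p v₀ v₁ v₂) :
    (max (top5 (prX p) + 2 * c * cκ (prX p) - 2 * b) (2 * (v₀ + v₁ + v₂ + x') - cκ (prX p)) +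
        (v₀ + v₁ + v₂ + x') - cκ (prX p)) / 3 + cκ (prX p) / 100 ≤
      min (min v₀ v₁) (min (v₀ - (cu (prX p) 2 - p (.inr 1))) (v₁ + (cu (prX p) 2 - p (.inr 1)))) +
        LS0 d (prX p) := by
  have K := dpK_Sq5 hd hd1 hA hA1 h.par
  obtain ⟨w, hw⟩ := h.par
  have hκ0 := hw.κ0
  have hx0 := K.x0
  have T1 : top5 (prX p) ≤ 2 * cN (prX p) - cκ (prX p) + 3 * cx' (prX p) := by
    unfold top5
    linarith [min_le_left (2 * cN (prX p) - cκ (prX p)) (3 / 4 * cN (prX p))]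
  have T2 : top5 (prX p) ≤ 3 / 4 * cN (prX p) + 3 * cx' (prX p) := by
    unfold top5
    linarith [min_le_right (2 * cN (prX p) - cκ (prX p)) (3 / 4 * cN (prX p))]
  have hcc : c * cκ (prX p) ≤ 1 / 100 * cκ (prX p) :=
    mul_le_mul_of_nonneg_right hc K.κ0.le
  unfold LS0
  exact core K.κ0 hd K.u4 K.y43 K.u0 K.y3 K.N1 K.near K.x0 K.adm K.dd hcc (h.zr 1).1 (h.zr 1).2
    hκ0 h.v0 h.v1 h.v2 h.x0 h.x1 h.b0 h.s1 h.s2 hD.1.1 hD.1.2.1 hD.1.2.2 T1 T2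
    (le_max_left _ _) (le_max_right _ _)

end Crest.Agent.R017.P1Bt176
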