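import Crest.Agent.R017.P1X3_960
import Crest.Agent.R017.ExRed4_848

/-!
# Row 17, class E: P1X through the reduced data (helper986)

* `pc_Pt_eq` : the twisted pieces of `P` are those of `red P`, twist `t k₀²`
* `ub_re` : reindexing a uniform bound
* `p10X_red`, `p10S_red`, `p1MX_red`, `p1MS_red` : from `fun lam => red (π lam)` to `π`
-/

set_option autoImplicit false

noncomputable section

open Finset
open scoped ComplexConjugate

namespace Crest.Agent.R017.RdX986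

open Crest.Agent.R012 Crest.Agent.R012.Eis
open Crest.Agent.R012.Mob705 (exists_pp_dvd)
open Crest.Agent.R017.FE47 (PU cx SM SM.mul)
open Crest.Agent.R017.HP842 (Pc pc alL sqc)
open Crest.Agent.R017.B770 Crest.Agent.R017.Prov71
open Crest.Agent.R017.XG702 (Pcs)
open Crest.Agent.R017.XT71 (Sys Win mx)
open Crest.Agent.R017.UM71 Crest.Agent.R017.End699
open Crest.Agent.R017.E5B71 Crest.Agent.R017.E5L770
open Crest.Agent.R017.P1X960
open Crest.Agent.R017.Red848 (red Sh Exc exists_sh red_ok pc_red pc_zero)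

/-! ### the pieces -/

/-- the twisted pieces -/
lemma pc_Pt' (h : ℝ → ℝ) (P : DPar) (s : Eis) (p : Pq) (m : Eis) :
    pc h (Pt P s p) m = sy s m * pc h (p.pc P) m := by
  unfold HP842.pc
  by_cases hm : IsPrim m
  · rw [if_pos hm, if_pos hm]
    show HP842.uv p.u m * ((p.pc P).ψ m * sy s m) * HSep813.gw h (Real.exp p.z) p.t m =
      sy s m * (HP842.uv p.u m * (p.pc P).ψ m * HSep813.gw h (Real.exp p.z) p.t m)
    ring
  · rw [if_neg hm, if_neg hm, mul_zero]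

/-- **the twisted pieces through the reduced data** -/
theorem pc_Pt_eq {P : DPar} (hP : P.OK) {k₀ : Eis} (hs : Sh P k₀) (h : ℝ → ℝ) (t : Eis) (p : Pq) :
    pc h (Pt P t p) = pc h (Pt (red P) (t * k₀ ^ 2) p) := by
  funext m
  rw [pc_Pt', pc_Pt', pc_red hs hP.φ hP.ψ]
  by_cases hb : IsPrim m ∧ IsCoprime m P.n
  · rw [Char766.sy_mul_left hb.1, Char766.sy_pow_left hb.1]
    linear_combination (-(sy t m * pc h (p.pc P) m)) * hs.cube hb.1 hb.2
  · rw [pc_zero hP.φ hP.ψ h p hb]; ring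

lemma alL_eq {P : DPar} (hP : P.OK) {k₀ : Eis} (hs : Sh P k₀) (h : ℝ → ℝ) (t : Eis)
    (ps : List Pq) :
    alL h (ps.map (Pt P t)) = alL h (ps.map (Pt (red P) (t * k₀ ^ 2))) := by
  unfold HP842.alL
  rw [List.map_map, List.map_map]
  congr 1
  refine List.map_congr_left fun p _ => ?_
  exact pc_Pt_eq hP hs h t p

/-- the shift is an `S`-unit -/
lemma sh_mem {P : DPar} (hP : P.OK) {k₀ : Eis} (hs : Sh P k₀) : k₀ ∈ SM P.n := by
  refine ⟨hs.k0, fun p hp hpk => ?_⟩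
  by_cases hl : lam ∣ p
  · have h1 : Associated lam p := prime_lam.associated_of_dvd hp hl
    have h3 : lam ∣ P.n := (lam_dvd_three.trans (Dvd.intro 12 (by norm_num))).trans hP.n36
    exact h1.symm.dvd.trans h3
  · obtain ⟨q, hq, hqp⟩ := exists_pp_dvd hl hp.not_isUnit
    have h1 : Associated q p := hq.prime.associated_of_dvd hp hqp
    exact h1.symm.dvd.trans (hs.pr q hq (hqp.trans hpk))

lemma tk_mem {P : DPar} (hP : P.OK) {k₀ : Eis} (hs : Sh P k₀) {t : Eis} (ht : t ∈ SM P.n) :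
    t * k₀ ^ 2 ∈ SM (red P).n := by
  rw [pow_two]
  exact SM.mul ht (SM.mul (sh_mem hP hs) (sh_mem hP hs))

lemma xD_eq {P : DPar} (hP : P.OK) {k₀ : Eis} (hs : Sh P k₀) (h : ℝ → ℝ) (t : Eis)
    (vs : Fin 3 → Pq) (D : ℝ) (qs : List Pq) :
    xD h P t vs D qs = xD h (red P) (t * k₀ ^ 2) vs D qs := by
  unfold P1X960.xD
  rw [alL_eq hP hs, alL_eq hP hs]

lemma ok_red {P : DPar} (hP : P.OK) {k₀ : Eis} (hs : Sh P k₀) {t : Eis} {a : BcX} {qs : List Pq}
    (h : okCX P t a qs) : okCX (red P) (t * k₀ ^ 2) a qs :=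
  ⟨h.1, tk_mem hP hs h.2.1, h.2.2⟩

/-! ### reindexing -/

theorem ub_re {A Pc' ι τ Λ Λ' : Type*} [DecidableEq τ] {S : Sys A ι} {D : Pcs Pc' τ}
    {Ψ : Λ → A → List Pc' → ℝ} {Ψ' : Λ' → A → List Pc' → ℝ}
    {Dom : Set ((ι → ℝ) × (τ → ℝ))} {al : Set ((ι → ℝ) × ℝ)} {E : (ι → ℝ) × (τ → ℝ) → ℝ}
    (f : Λ → Λ') (hle : ∀ lam a ps, Ψ lam a ps ≤ max 0 (Ψ' (f lam) a ps))
    (H : UB S D Ψ' Dom al E) : UB S D Ψ Dom al E := by
  intro ε hε
  obtain ⟨δ, hδ, H⟩ := H ε hε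
  refine ⟨δ, hδ, fun lam N B => ?_⟩
  obtain ⟨δ', hδ', X₀, hX₀, H'⟩ := H (f lam) N B
  refine ⟨δ', hδ', X₀, hX₀, fun X hX a ps h1 h2 q hq h3 h4 h5 h6 => (hle lam a ps).trans ?_⟩
  exact max_le (Real.rpow_nonneg (by linarith) _) (H' X hX a ps h1 h2 q hq h3 h4 h5 h6)

variable {Λ : Type*} {π : Λ → DPar} {h : ℝ → ℝ} {e0 c β : ℝ}
  {Par : Set (Fin 3 ⊕ Fin 5 → ℝ)} {L0 : (Fin 3 ⊕ Fin 5 → ℝ) → ℝ}

/-- **`P10X` from the reduced data** -/
theorem p10X_red (hP : ∀ lam, (π lam).OK) (hE : ∀ lam, Exc (π lam))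
    (H : P10X (fun lam => red (π lam)) h e0 c β Par L0) : P10X π h e0 c β Par L0 := by
  choose k₀ hs using fun lam => exists_sh (hP lam).ψ (hE lam)
  intro R hR
  refine ub_re (fun lam => (lam.1, lam.2 * k₀ lam.1 ^ 2)) (fun lam a qs => ?_) (H R hR)
  unfold P1X960.ErX
  by_cases h1 : okCX (π lam.1) lam.2 a qs ∧ okD a
  · rw [if_pos h1, if_pos ⟨ok_red (hP lam.1) (hs lam.1) h1.1, h1.2⟩,
      xD_eq (hP lam.1) (hs lam.1)]
    exact le_max_right _ _
  · rw [if_neg h1]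
    exact le_max_left _ _

/-- **`P10S` from the reduced data** -/
theorem p10S_red (hP : ∀ lam, (π lam).OK) (hE : ∀ lam, Exc (π lam))
    (H : P10S (fun lam => red (π lam)) h e0 c β Par L0) : P10S π h e0 c β Par L0 := by
  choose k₀ hs using fun lam => exists_sh (hP lam).ψ (hE lam)
  intro R hR
  refine ub_re (fun lam => (lam.1, lam.2 * k₀ lam.1 ^ 2)) (fun lam a qs => ?_) (H R hR)
  unfold P1X960.ErS
  by_cases h1 : okCX (π lam.1) lam.2 a qs
  · rw [if_pos h1, if_pos (ok_red (hP lam.1) (hs lam.1) h1), alL_eq (hP lam.1) (hs lam.1)]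
    exact le_max_right _ _
  · rw [if_neg h1]
    exact le_max_left _ _

/-- **`P1MX` from the reduced data** -/
theorem p1MX_red (hP : ∀ lam, (π lam).OK) (hE : ∀ lam, Exc (π lam))
    (H : P1MX (fun lam => red (π lam)) h e0 c β Par L0) : P1MX π h e0 c β Par L0 := by
  choose k₀ hs using fun lam => exists_sh (hP lam).ψ (hE lam)
  intro R hR
  refine ub_re (fun lam => (lam.1, lam.2 * k₀ lam.1 ^ 2)) (fun lam a qs => ?_) (H R hR)
  unfold P1X960.MmX
  rw [alL_eq (hP lam.1) (hs lam.1) h lam.2 qs, xD_eq (hP lam.1) (hs lam.1)]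
  split_ifs with h1 h2 h2
  · exact le_max_right _ _
  · exact absurd ⟨⟨ok_red (hP lam.1) (hs lam.1) h1.1.1, h1.1.2⟩, h1.2⟩ h2
  · exact le_max_left _ _
  · exact le_max_left _ _

/-- **`P1MS` from the reduced data** -/
theorem p1MS_red (hP : ∀ lam, (π lam).OK) (hE : ∀ lam, Exc (π lam))
    (H : P1MS (fun lam => red (π lam)) h e0 c β Par L0) : P1MS π h e0 c β Par L0 := by
  choose k₀ hs using fun lam => exists_sh (hP lam).ψ (hE lam)
  intro R hR
  refine ub_re (fun lam => (lam.1, lam.2 * k₀ lam.1 ^ 2)) (fun lam a qs => ?_) (H R hR)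
  unfold P1X960.MmS
  rw [alL_eq (hP lam.1) (hs lam.1) h lam.2 qs,
    alL_eq (hP lam.1) (hs lam.1) h lam.2 (List.ofFn a.1.2.1)]
  split_ifs with h1 h2 h2
  · exact le_max_right _ _
  · exact absurd ⟨ok_red (hP lam.1) (hs lam.1) h1.1, h1.2⟩ h2
  · exact le_max_left _ _
  · exact le_max_left _ _

end Crest.Agent.R017.RdX986
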