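import Crest.Agent.R017.NrY_986
import Crest.Agent.R017.RdX_986
import Crest.Agent.R017.P10Xb_764
import Crest.Agent.R017.P10Sb_764
import Crest.Agent.R017.P10Sc_960
import Crest.Agent.R017.P1Bt_176
import Crest.Agent.R017.FNEj_708

/-!
# Row 17, class E, P1: the exact square from the flat claims and the errors (helper986)

* `npm_one` : frequency `1` is principal for the reduced data
* `fbk_of` : helper764's `FBK` at `(Kf1, Tf1)`, `D5X`, loss `3/4 d b₀`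
* `btl_of`, `bts_of'` : the bias lines
* `p10x_of`, `p10s_of` : `P10X`, `P10S` at `π` from `E2XU`, `E3XU`, `E2SU`, `E3SU` at `red ∘ π`
-/

set_option autoImplicit false

noncomputable section

open Set

namespace Crest.Agent.R017.LfP986

open Crest.Agent.R012 Crest.Agent.R012.Eis
open Crest.Agent.R017.FE47 (PU cx)
open Crest.Agent.R017.Prov71 Crest.Agent.R017.ER911 Crest.Agent.R017.SC777
open Crest.Agent.R017.B770 Crest.Agent.R017.E5B71 Crest.Agent.R017.E5L770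
open Crest.Agent.R017.ExP960 (IX5 prX ZR)
open Crest.Agent.R017.P1t54 (ParS LS0 parOK_Sq5)
open Crest.Agent.R017.P1X960
open Crest.Agent.R017.P10X764
open Crest.Agent.R017.TM708 (T5 K5 R5)
open Crest.Agent.R017.TK708 (FE2G RG5 AllT fb_K)
open Crest.Agent.R017.D5X939 (D5X D5X_compact)
open Crest.Agent.R017.NrX986 (Kf1 Tf1 Kf1_cont Tf1_cont K5_le_Kf1 rg_1 bN_mem bR_mem)
open Crest.Agent.R017.Red848 (red Exc red_ok)
open Crest.Agent.R017.PX764 (Dk)
open Crest.Agent.R017.XS0298 (S0K)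
open Crest.Agent.R017.Sup271 (NPm)

/-- **frequency `1` is principal for the reduced data** -/
theorem npm_one (P : DPar) : ¬ NPm (red P).n (red P).ψ (red P).l₂ 1 := by
  rintro (h | ⟨a, ha, hc, hne⟩)
  · exact h rfl
  · refine hne ?_
    have h1 : IsCoprime a P.n := hc.of_mul_right_left
    show End699.prin0 P.n a * sy 1 a = 1
    unfold End699.prin0
    rw [if_pos h1, one_mul]
    exact Char766.sy_one_left ha

/-! ### the replaced parent has the same sums -/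

lemma sum_bR (p : IX5 → ℝ) : bR p 1 + bR p 2 + bR p 3 = bN p 1 + bN p 2 + bN p 3 := by
  show p (.inr 1) + (cu (prX p) 2 + cu (prX p) 3 - p (.inr 1)) + cu (prX p) 4 =
    cu (prX p) 2 + cu (prX p) 3 + cu (prX p) 4
  ring

lemma T5_bR (p : IX5 → ℝ) : T5 (bR p) = T5 (bN p) := by
  unfold TM708.T5
  rw [sum_bR]
  rfl

lemma Kf1_bR (p : IX5 → ℝ) : Kf1 (bR p) = Kf1 (bN p) := by
  unfold NrX986.Kf1
  rw [sum_bR]
  rfl

lemma Tf1_bR (p : IX5 → ℝ) : Tf1 (bR p) = Tf1 (bN p) := by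
  unfold NrX986.Tf1
  rw [T5_bR, sum_bR]
  rfl

section lines

variable {A d : ℝ} (hd : 0 ≤ d) (hd1 : d ≤ 1 / 42) (hA : 9 / 10 ≤ A) (hA0 : A ≤ 1)
  (hA1 : 16 * (1 - A) ≤ d)
include hd hd1 hA1

lemma r5_bN {p : IX5 → ℝ} (hp : prX p ∈ ParS A d) : R5 (bN p) :=
  (bN_mem hd (by linarith) hA1 hp).1

lemma top5_le {p : IX5 → ℝ} (hp : prX p ∈ ParS A d) : top5 (prX p) ≤ T5 (bN p) := by
  have hx : 0 ≤ cx' (prX p) := (r5_bN hd hd1 hA1 hp).x0
  have e : T5 (bN p) = min (2 * cN (prX p) - cκ (prX p)) (3 / 4 * cN (prX p)) +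
      5 * cx' (prX p) := rfl
  rw [e]
  unfold E5L770.top5
  linarith

omit hd hd1 hA1 in
lemma κ_nonneg {p : IX5 → ℝ} (hp : prX p ∈ ParS A d) : 0 ≤ cκ (prX p) := by
  obtain ⟨w, hw⟩ := hp
  exact hw.κpos.le

include hA hA0

/-- **the bias line of the differences** -/
theorem btl_of : BTl (d / 4) (17 / 100) (ParS A d) (LS0 d) Tf1 := by
  have tN : ∀ (p : IX5 → ℝ) (v₀ v₁ v₂ b x' : ℝ), ChC (d / 4) (17 / 100) (ParS A d) p v₀ v₁ v₂ b x' →
      DifL p v₀ v₁ v₂ →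
      max (tpW (d / 4) p b) (2 * (v₀ + v₁ + v₂ + x') - cκ (prX p)) ≤ Tf1 (bN p) := by
    intro p v₀ v₁ v₂ b x' hch hD
    have h1 : tpW (d / 4) p b ≤ top5 (prX p) := min_le_left _ _
    have h2 := top5_le hd hd1 hA1 hch.par
    have e : Tf1 (bN p) = max (T5 (bN p)) (2 * (cu (prX p) 2 + cu (prX p) 3 + cu (prX p) 4 +
      cx' (prX p)) - cκ (prX p)) := rfl
    rw [e]
    have h3 := hD.1.1
    have h4 := hD.1.2.1
    have h5 := hD.1.2.2
    have h6 := hch.x1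
    exact max_le_max (h1.trans h2) (by linarith)
  refine ⟨fun p v₀ v₁ v₂ b x' hch hD => ?_, tN, fun p v₀ v₁ v₂ b x' hch hD => ?_⟩
  · have h := P1Bt176.bt hd (by linarith) hA0 hA1 (by linarith : d / 4 ≤ 1 / 100) hch hD
    have h2 : tpW (d / 4) p b ≤ top5 (prX p) + 2 * (d / 4) * cκ (prX p) - 2 * b :=
      (min_le_right _ _).trans (le_of_eq (by ring))
    have h3 := max_le_max h2 (le_refl (2 * (v₀ + v₁ + v₂ + x') - cκ (prX p)))
    have h4 := κ_nonneg hch.par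
    linarith
  · rw [Tf1_bR]
    exact tN p v₀ v₁ v₂ b x' hch hD

omit hA0 in
/-- **the bias line of the single lists** -/
theorem bts_of' : BTlS (d / 4) (17 / 100) (ParS A d) (LS0 d) Tf1 := by
  refine P10S960.bts_of le_rfl (by linarith) (fun p hp _ => r5_bN hd hd1 hA1 hp)
    (fun p hp => ?_) (fun p hp _ => (top5_le hd hd1 hA1 hp).trans (le_max_left _ _))
    (fun p hp _ => ?_)
  · have h1 := le_max_left 0 (5 / 4 * cN p - cκ p)
    obtain ⟨w, hw⟩ := hp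
    have h2 := hw.κpos
    unfold P1t54.LS0
    have h3 : 0 ≤ 3 / 4 * d * cκ p := by positivity
    linarith
  · rw [Tf1_bR]
    exact (top5_le hd hd1 hA1 hp).trans (le_max_left _ _)

end lines

variable {Λ : Type*} {π : Λ → DPar} {h : ℝ → ℝ} {c₀ : ℝ} {A d : ℝ}

/-- **the flat bundle** -/
theorem fbk_of (hpu : PU h c₀) (hP : ∀ lam, (π lam).OK) (hE : ∀ lam, Exc (π lam)) (hd : 0 ≤ d)
    (hd1 : d ≤ 1 / 42) (hAll : AllT d (ex Dq fun lam => S0K Dk (red (π lam)) h))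
    (hFE : FE2G (ex Dq fun lam => S0K Dk (red (π lam)) h) D5X Kf1 Tf1 fun b => 3 / 4 * d * b 0) :
    FBK (fun lam => red (π lam)) h Dk Kf1 Tf1 (1 / 64) D5X fun b => 3 / 4 * d * b 0 := by
  have h1 := fb_K (π := fun lam => red (π lam)) hpu (fun lam => red_ok (hP lam) (hE lam)) hd
    (by linarith) hAll Kf1_cont Tf1_cont D5X_compact (fun b hb => rg_1 hb)
    (ℓ := fun b => 3 / 4 * d * b 0) (by fun_prop)
    (fun b hb => mul_nonneg (by linarith) hb.1.k0) hFE (le_refl (1 / 64 : ℝ))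
  intro ε hε
  exact h1 ε hε

/-- **`P10X`** -/
theorem p10x_of (hpu : PU h c₀) (hP : ∀ lam, (π lam).OK) (hE : ∀ lam, Exc (π lam))
    (hd : 0 ≤ d) (hd1 : d ≤ 1 / 42) (hA : 9 / 10 ≤ A) (hA0 : A ≤ 1) (hA1 : 16 * (1 - A) ≤ d)
    (hAll : AllT d (ex Dq fun lam => S0K Dk (red (π lam)) h))
    (hFE : FE2G (ex Dq fun lam => S0K Dk (red (π lam)) h) D5X Kf1 Tf1 fun b => 3 / 4 * d * b 0)
    {Rh : ℝ} (hRh0 : 0 ≤ Rh) (hRh : ∀ u, cx h u ≠ 0 → |u| ≤ Rh)
    (he2 : E2XU (fun lam => red (π lam)) h (1 / 64) (d / 4) Rh (17 / 100) (ParS A d) (LS0 d))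
    (he3 : E3XU (fun lam => red (π lam)) h (1 / 64) (d / 4) Rh (17 / 100) (ParS A d) (LS0 d)) :
    P10X π h (1 / 64) (d / 4) (17 / 100) (ParS A d) (LS0 d) := by
  refine RdX986.p10X_red hP hE (p10X_of hpu (fun lam => red_ok (hP lam) (hE lam))
    (fun lam => npm_one (π lam)) hRh0 hRh (le_refl (1 / 64 : ℝ)) (by norm_num) (by linarith)
    (by linarith) (fun p hp => parOK_Sq5 hA hp)
    (fun p hp => P10146.hx4_of hd (by linarith) hA1 hp)
    (fun p hp _ => bN_mem hd (by linarith) hA1 hp)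
    (fun p hp hz => bR_mem hd (by linarith) hA1 hp hz)
    (fun p hp _ => r5_bN hd hd1 hA1 hp)
    (fun p _ _ => K5_le_Kf1 (bN p)) (fun p _ _ => by rw [Kf1_bR]; exact K5_le_Kf1 (bN p))
    (fun p _ _ => ?_) (fun p _ _ => ?_) (fun p hp => ?_)
    (fbk_of hpu hP hE hd hd1 hAll hFE) (btl_of hd hd1 hA hA0 hA1) he2 he3)
  · show (cκ (prX p) + 4 / 3 * max 0 (5 / 4 * cN (prX p) - cκ (prX p)) - cκ (prX p)) / 3 +
      max 0 (5 / 4 * cN (prX p) - cκ (prX p)) / 3 + 3 / 4 * d * cκ (prX p) ≤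
      max 0 (5 / 4 * cN (prX p) - cκ (prX p)) + 3 / 4 * d * cκ (prX p)
    have := le_max_left 0 (5 / 4 * cN (prX p) - cκ (prX p))
    linarith
  · have e : LK Kf1 (bR p) = LK Kf1 (bN p) := by
      unfold P10X764.LK
      rw [Kf1_bR]
      rfl
    rw [e]
    show (cκ (prX p) + 4 / 3 * max 0 (5 / 4 * cN (prX p) - cκ (prX p)) - cκ (prX p)) / 3 +
      max 0 (5 / 4 * cN (prX p) - cκ (prX p)) / 3 + 3 / 4 * d * cκ (prX p) ≤
      max 0 (5 / 4 * cN (prX p) - cκ (prX p)) + 3 / 4 * d * cκ (prX p)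
    have := le_max_left 0 (5 / 4 * cN (prX p) - cκ (prX p))
    linarith
  · have h1 := le_max_left 0 (5 / 4 * cN p - cκ p)
    obtain ⟨w, hw⟩ := hp
    have h2 := hw.κpos
    unfold P1t54.LS0
    have h3 : 0 ≤ 3 / 4 * d * cκ p := by positivity
    linarith

/-- **`P10S`** -/
theorem p10s_of (hpu : PU h c₀) (hP : ∀ lam, (π lam).OK) (hE : ∀ lam, Exc (π lam))
    (hd : 0 ≤ d) (hd1 : d ≤ 1 / 42) (hA : 9 / 10 ≤ A) (hA1 : 16 * (1 - A) ≤ d)
    (hAll : AllT d (ex Dq fun lam => S0K Dk (red (π lam)) h))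
    (hFE : FE2G (ex Dq fun lam => S0K Dk (red (π lam)) h) D5X Kf1 Tf1 fun b => 3 / 4 * d * b 0)
    {Rh : ℝ} (hRh0 : 0 ≤ Rh) (hRh : ∀ u, cx h u ≠ 0 → |u| ≤ Rh)
    (he2 : E2SU (fun lam => red (π lam)) h (1 / 64) (d / 4) Rh (17 / 100) (ParS A d) (LS0 d))
    (he3 : E3SU (fun lam => red (π lam)) h (1 / 64) (d / 4) Rh (17 / 100) (ParS A d) (LS0 d)) :
    P10S π h (1 / 64) (d / 4) (17 / 100) (ParS A d) (LS0 d) := by
  refine RdX986.p10S_red hP hE (p10S_of hpu (fun lam => red_ok (hP lam) (hE lam))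
    hRh0 hRh (le_refl (1 / 64 : ℝ)) (by norm_num) (by linarith)
    (by linarith) (fun p hp => parOK_Sq5 hA hp)
    (fun p hp => P10146.hx4_of hd (by linarith) hA1 hp)
    (fun p hp _ => bN_mem hd (by linarith) hA1 hp)
    (fun p hp hz => bR_mem hd (by linarith) hA1 hp hz)
    (fun p hp _ => r5_bN hd hd1 hA1 hp)
    (fun p _ _ => K5_le_Kf1 (bN p)) (fun p _ _ => by rw [Kf1_bR]; exact K5_le_Kf1 (bN p))
    (fun p _ _ => ?_) (fun p _ _ => ?_) (fun p hp => ?_)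
    (fbk_of hpu hP hE hd hd1 hAll hFE) (bts_of' hd hd1 hA hA1) he2 he3)
  · show (cκ (prX p) + 4 / 3 * max 0 (5 / 4 * cN (prX p) - cκ (prX p)) - cκ (prX p)) / 3 +
      max 0 (5 / 4 * cN (prX p) - cκ (prX p)) / 3 + 3 / 4 * d * cκ (prX p) ≤
      max 0 (5 / 4 * cN (prX p) - cκ (prX p)) + 3 / 4 * d * cκ (prX p)
    have := le_max_left 0 (5 / 4 * cN (prX p) - cκ (prX p))
    linarith
  · have e : LK Kf1 (bR p) = LK Kf1 (bN p) := by
      unfold P10X764.LK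
      rw [Kf1_bR]
      rfl
    rw [e]
    show (cκ (prX p) + 4 / 3 * max 0 (5 / 4 * cN (prX p) - cκ (prX p)) - cκ (prX p)) / 3 +
      max 0 (5 / 4 * cN (prX p) - cκ (prX p)) / 3 + 3 / 4 * d * cκ (prX p) ≤
      max 0 (5 / 4 * cN (prX p) - cκ (prX p)) + 3 / 4 * d * cκ (prX p)
    have := le_max_left 0 (5 / 4 * cN (prX p) - cκ (prX p))
    linarith
  · have h1 := le_max_left 0 (5 / 4 * cN p - cκ p)
    obtain ⟨w, hw⟩ := hp
    have h2 := hw.κpos
    unfold P1t54.LS0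
    have h3 : 0 ≤ 3 / 4 * d * cκ p := by positivity
    linarith

end Crest.Agent.R017.LfP986
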