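import Crest.Agent.R017.MoL7_106

/-!
# Row 17, E2: list form of the error functionals, part 8 (helper106): the direct side

* `ChF` : children on the Gauss side
* `MT_list` : the direct side of `E2core` for lists of pieces
-/

set_option autoImplicit false
set_option maxHeartbeats 400000

noncomputable section

open Complex Finset
open scoped ComplexConjugate

namespace Crest.Agent.R017.MoL106

open Crest.Agent.R012 Crest.Agent.R012.Eis Crest.Agent.R012.LS2 Crest.Agent.R012.Gauss880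
open Crest.Agent.R012.Div277 Crest.Agent.R012.Weight600
open Crest.Agent.R017.CM106 Crest.Agent.R017.FE47 Crest.Agent.R017.End699
open Crest.Agent.R017.B770
open Crest.Agent.R017.Prov71
open Crest.Agent.R017.HP842 (UT Pc pc KS sqc Kg uv alL al ssub norm_uv_le pc_support sq_nat_pc)
open Crest.Agent.R017.HSep813 (gw norm_gw_le)
open Crest.Agent.R017.TPOk571 (IP FP SD SD_w SD_len SD_ht sd_ok AC relU)
open Crest.Agent.R017.TP320 (VC VG VC_mono VC_nonneg Fam)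
open Crest.Agent.R017.Rough381 (VF VF_nonneg)
open Crest.Agent.R017.RGw813 (tw2 bt)
open Crest.Agent.R017.E2440 (MT ag)
open Crest.Agent.R017.X6C180 (IX dl')
open Crest.Agent.R017.Win813 (iA iA_nonneg WK)
open Crest.Agent.R017.XRG106
open Crest.Agent.R017.MoF106

/-- a child on the Gauss side -/
structure ChF (C : ℝ) (p' p : Pq) : Prop where
  kd : p'.kd = p.kd
  d : p'.d = p.d
  one : p.u = .one → p'.u = .one
  z0 : 0 ≤ p'.z
  zle : p'.z ≤ p.z + C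

lemma chd_ChF {P : DPar} {hP : P.OK} {p : Pq} {j j' : IP} (hj : FromP hP j p) {r C : ℝ}
    (hd : j'.z ≤ j.z + r ∧ j'.t0 = j.t0 ∧ j'.ψ = j.ψ ∧ relU j'.u j.u) (hz : 0 ≤ j'.z)
    (hr : r ≤ C) : ChF C (chd p j') p where
  kd := rfl
  d := rfl
  one h := by
    have h2 : j'.u = .one := by
      have h4 := hj.one h
      rcases hd.2.2.2 with h3 | h3
      · rw [h3, h4]
      · rw [h4] at h3
        exact absurd h3.1 (by decide)
    exact h2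
  z0 := hz
  zle := by
    have h1 := hd.1
    have h2 := hj.z
    show j'.z ≤ p.z + C
    linarith

lemma chd_t {P : DPar} {hP : P.OK} {p : Pq} {j j' : IP} (hj : FromP hP j p)
    (hd : j'.t0 = j.t0) : (chd p j').t - p.t = j'.s := by
  show j'.t0 + j'.s - p.t = j'.s
  rw [hd, hj.t0]; ring

/-- **the direct side of `E2core` for lists of pieces** -/
theorem MT_list {h : ℝ → ℝ} {c : ℝ} (hpu : PU h c) {R : ℝ} (hR0 : 0 ≤ R)
    (hR : ∀ u, cx h u ≠ 0 → |u| ≤ R) {μ : ℝ} (hμ : 0 ≤ μ) (r : ℕ) {ε : ℝ} (hε : 0 < ε) :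
    ∃ C : ℝ, 1 ≤ C ∧ ∀ (A' : ℕ), 2 * (r * μ) + 2 ≤ A' → ∀ (Cφ η : ℝ) (φ : ℝ → ℝ), 0 ≤ Cφ →
      0 < η → η ≤ 1 → WK Cφ η A' φ →
      ∀ (P : DPar) (hP : P.OK) (s : Fin r → Pq), (∀ i, 0 ≤ (s i).z) →
      ∀ j : Fin r → IP, (∀ i, FromP hP (j i) (s i)) →
      ∀ (γ q g₀ δ E σ : Eis), IsPrim γ → Squarefree γ → IsPrim g₀ → E ≠ 0 → σ ≠ 0 →
      ∀ (p : ℕ × ℕ) (T : Finset Eis) (Rs : Eis → Finset Eis), (∀ y ∈ T, IsPrim y) →
      (∀ y ∈ T, ∀ ρ ∈ Rs y, ρ ≠ 0) →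
      ∀ (u : ℕ) (X : ℝ), 0 ≤ X → ∀ Λ X0 : ℝ, 1 ≤ Λ → Λ ≤ X0 → (nm γ : ℝ) ≤ X0 →
      (nm g₀ : ℝ) ≤ X0 → Real.exp ((u : ℝ) / 3) ≤ X0 →
      (∀ y ∈ T, ∀ ρ ∈ Rs y, ∀ B ∈ bk X u,
        (nm σ : ℝ) * nm ρ * nm γ * ((nm (E * kw p ^ 2) * nm y) ^ 2 * nm B) ≤ Λ) →
      ∀ M : ℝ, 0 ≤ M →
      (∀ c₀ : Eis, IsPrim c₀ → ∀ y : ℝ, 1 ≤ y → (nm c₀ : ℝ) ≤ y → y ^ 3 ≤ Λ →
        ∀ s' : Fin r → Pq, (∀ k, ChF C (s' k) (s k)) →
        ∑ k, (s' k).z ≤ ∑ k, (j k).z + Real.log (nm γ) -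
          (Real.log (nm g₀) + (u : ℝ) / 3) + C →
        ∑ k, (j k).z - (Real.log (nm g₀) + (u : ℝ) / 3) - C ≤ ∑ k, (s' k).z →
        VF (Λ / y ^ 3) (sqc (q * (δ * (g₀ * γ)) * c₀) (al h fun k => (s' k).pc P)) ≤
          M / y * (∏ k, (1 + |(s' k).t - (s k).t|)) ^ (2 * μ)) → ∀ t₀ : ℝ,
      ∑ y ∈ T, ∑ B ∈ bk X u, ∑ ρ ∈ Rs y,
        ‖MT (ag (fun n => bt φ (dl γ (TP320.sq (q * γ) ((SD h μ r).w j))) p n * Weight600.pw t₀ (nm n))
          δ g₀) (E * y) B σ ρ‖ ^ 2 ≤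
        C * (Cφ ^ 2 * iA A' * (η * (η ^ A')⁻¹)) * (1 + |t₀|) ^ A' * X0 ^ ε *
          Real.exp (-(1 / 3) * (∑ k, (j k).z - Real.log (nm g₀) - (u : ℝ) / 3)) * M := by
  classical
  have hΦ := sd_ok hpu hR0 hR hμ r
  set Rt : ℝ := r * (2 * R + 3) with hRt
  have hRt0 : 0 ≤ Rt := by positivity
  have hε8 : 0 < ε / 8 := by linarith
  obtain ⟨C1, hC1, hs⟩ := MTs_win_blk hΦ hε8
  have hinv : 0 < (ε / 2)⁻¹ := by positivity
  set Kc : ℝ := C1 * 2 ^ (ε / 8) * (100 * (1 + (ε / 2)⁻¹)) with hKc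
  have h2ε : 1 ≤ (2 : ℝ) ^ (ε / 8) := Real.one_le_rpow (by norm_num) hε8.le
  have hKc1 : 1 ≤ Kc := one_le_mul_of_one_le_of_one_le
    (one_le_mul_of_one_le_of_one_le hC1 h2ε) (by linarith)
  refine ⟨Kc + Rt + 1, by linarith, ?_⟩
  set C : ℝ := Kc + Rt + 1 with hC
  intro A' hA' Cφ η φ hCφ hη hη1 hφ P hP s hs0 j hj γ q g₀ δ E σ hγ hγs hg₀ hE hσ p T Rs hT hRs u
    X hX Λ X0 hΛ1 hΛX hγX hgX huX hΛ M hM hyp t₀
  have hΛ0 : 0 ≤ Λ := by linarith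
  have hX01 : 1 ≤ X0 := by linarith
  have hX00 : 0 < X0 := by linarith
  have hkw := kw_ne p
  have hlenj : (SD h μ r).len j = ∑ k, (j k).z := SD_len h μ r j
  have hht : (SD h μ r).ht j = 1 := ht_one hj
  have hlogΛ : 0 ≤ Real.log Λ := Real.log_nonneg hΛ1
  set M' : ℝ := 100 * (1 + Real.log Λ) * M with hM'
  have hM'0 : 0 ≤ M' := by positivity
  have hw1 : ∀ n, (SD h μ r).w j n ≠ 0 → (nm n : ℝ) ≤ Real.exp ((SD h μ r).len j + Rt) := by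
    intro b hb
    have hb0 : (0 : ℝ) < nm b := by exact_mod_cast nm_pos.2 (hΦ.prim j b hb).ne_zero
    rw [← Real.log_le_iff_le_exp hb0]
    have := (abs_le.1 (hΦ.supp j b hb)).2
    linarith
  have hkid : ∀ h' ∈ dvs γ, ∀ j', (SD h μ r).good j' → (SD h μ r).dom Rt j' j →
      (SD h μ r).len j' ≤ (SD h μ r).len j - (Real.log (nm g₀) + (u : ℝ) / 3 -
        Real.log (nm h')) + Rt →
      (SD h μ r).len j - (Real.log (nm g₀) + (u : ℝ) / 3 - Real.log (nm h')) - Rt - 1 ≤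
        (SD h μ r).len j' →
      VG Λ (TP320.sq (q * (δ * (g₀ * γ))) ((SD h μ r).w j')) ≤ M' * (SD h μ r).ht j' ^ 2 := by
    intro h' hh j' hgood hdom hl hl2
    rw [mem_dvs hγ.ne_zero] at hh
    have hhp : (1 : ℝ) ≤ nm h' := by exact_mod_cast nm_pos.2 hh.1.ne_zero
    have hhγ : (nm h' : ℝ) ≤ nm γ := by
      exact_mod_cast Div277.nm_le_of_dvd hγ.ne_zero hh.2
    have hlog : Real.log (nm h') ≤ Real.log (nm γ) := Real.log_le_log (by linarith) hhγ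
    have hlog0 : 0 ≤ Real.log (nm h') := Real.log_nonneg hhp
    have hgood' : ∀ i, 0 ≤ (j' i).z := hgood
    have hdom' : ∀ i, (j' i).z ≤ (j i).z + Rt ∧ (j' i).t0 = (j i).t0 ∧ (j' i).ψ = (j i).ψ ∧
        relU (j' i).u (j i).u := hdom
    have hlenj' : (SD h μ r).len j' = ∑ i, (j' i).z := SD_len h μ r j'
    set s' : Fin r → Pq := fun i => chd (s i) (j' i) with hs'
    have hs'z : ∑ i, (s' i).z = ∑ i, (j' i).z := rfl
    have hpc : (fun i => (s' i).pc P) = fun i => (j' i).pc := by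
      funext i
      exact chd_pc hP ((hdom' i).2.2.1.trans (hj i).ψ)
    have hWt : (∏ i, (1 + |(s' i).t - (s i).t|)) ^ (2 * μ) = (SD h μ r).ht j' ^ 2 := by
      have e1 : ∀ i, (s' i).t - (s i).t = (j' i).s := fun i => chd_t (hj i) (hdom' i).2.1
      rw [Finset.prod_congr rfl (g := fun i => 1 + |(j' i).s|) (fun i _ => by rw [e1]), SD_ht,
        Real.finset_prod_rpow _ _ fun i _ => by have := abs_nonneg (j' i).s; linarith,
        ← Real.rpow_natCast, ← Real.rpow_mul (Finset.prod_nonneg fun i _ => by positivity)]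
      congr 1
      push_cast; ring
    have h1 := VG_cube_le (q := q * (δ * (g₀ * γ))) (w := (SD h μ r).w j')
      (M := M * (SD h μ r).ht j' ^ 2) hΛ1 (by positivity)
      (fun c₀ hc₀ y hy hcy hy3 => by
        have h2 := hyp c₀ hc₀ y hy hcy hy3 s'
          (fun k => chd_ChF (hj k) (hdom' k) (hgood' k) (by linarith))
          (by rw [hs'z, ← hlenj', ← hlenj]; linarith)
          (by rw [hs'z, ← hlenj', ← hlenj]; linarith)
        rw [hpc, hWt] at h2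
        rw [HP842.sq_eq_sqc (fun n => hΦ.prim j' n), SD_w]
        refine h2.trans (le_of_eq ?_)
        ring)
    refine h1.trans (le_of_eq ?_)
    rw [hM']; ring
  have h1 := hs A' hA' Cφ η φ hCφ hη hη1 hφ j γ q g₀ δ (E * kw p ^ 2) σ hγ hγs hg₀
    (mul_ne_zero hE (pow_ne_zero 2 hkw)) hσ T Rs hT hRs u X hX Λ hΛ0 hΛ M' hM'0 hkid t₀
  have h2 : ∑ y ∈ T, ∑ B ∈ bk X u, ∑ ρ ∈ Rs y,
        ‖MT (ag (fun n => bt φ (dl γ (TP320.sq (q * γ) ((SD h μ r).w j))) p n * Weight600.pw t₀ (nm n))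
          δ g₀) (E * y) B σ ρ‖ ^ 2 ≤ ∑ y ∈ T, ∑ B ∈ bk X u, ∑ ρ ∈ Rs y,
        ‖MTs (aW φ γ q g₀ δ ((SD h μ r).w j)) (E * kw p ^ 2 * y) B σ ρ t₀‖ ^ 2 := by
    refine Finset.sum_le_sum fun y _ => Finset.sum_le_sum fun B hB => Finset.sum_le_sum
      fun ρ _ => ?_
    refine pow_le_pow_left₀ (norm_nonneg _) ?_ 2
    rw [ag_bt, ag_wn_dl]
    refine (MT_aT (fun n hn => aW_prim hγ hg₀ hn) hg₀ (bk_prim hX hB) (E * y) σ ρ).trans
      (le_of_eq ?_)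
    congr 2
    ring
  refine h2.trans (h1.trans ?_)
  rw [hht, one_pow, mul_one, hlenj]
  have hpA : 0 ≤ Cφ ^ 2 * iA A' * (η * (η ^ A')⁻¹) := by
    have := iA_nonneg A'; positivity
  have e1 : ((nm γ : ℝ) * (nm g₀ * Real.exp ((u : ℝ) / 3)) * (1 + Λ)) ^ (ε / 8) ≤
      2 ^ (ε / 8) * X0 ^ (ε / 2) := by
    have e2 : (nm γ : ℝ) * (nm g₀ * Real.exp ((u : ℝ) / 3)) * (1 + Λ) ≤ 2 * X0 ^ 4 := by
      calc (nm γ : ℝ) * (nm g₀ * Real.exp ((u : ℝ) / 3)) * (1 + Λ) ≤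
            X0 * (X0 * X0) * (2 * X0) := by
            have : 1 + Λ ≤ 2 * X0 := by linarith
            gcongr
        _ = 2 * X0 ^ 4 := by ring
    refine (Real.rpow_le_rpow (by positivity) e2 hε8.le).trans (le_of_eq ?_)
    rw [Real.mul_rpow (by norm_num) (by positivity), ← Real.rpow_natCast, ← Real.rpow_mul hX00.le]
    congr 2
    push_cast; ring
  have e3 : 1 + Real.log Λ ≤ (1 + (ε / 2)⁻¹) * X0 ^ (ε / 2) := by
    have h5 : Real.log Λ ≤ (ε / 2)⁻¹ * Λ ^ (ε / 2) := by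
      have h := Real.log_le_rpow_div (by linarith : (0 : ℝ) ≤ Λ) (by linarith : 0 < ε / 2)
      rwa [div_eq_inv_mul] at h
    have h6 : Λ ^ (ε / 2) ≤ X0 ^ (ε / 2) := Real.rpow_le_rpow hΛ0 hΛX (by linarith)
    have h7 : 1 ≤ X0 ^ (ε / 2) := Real.one_le_rpow hX01 (by linarith)
    nlinarith
  have e4 : X0 ^ ε = X0 ^ (ε / 2) * X0 ^ (ε / 2) := by
    rw [← Real.rpow_add hX00]; congr 1; ring
  have hC10 : 0 ≤ C1 := by linarith
  set G : ℝ := Real.exp (-(1 / 3) * (∑ k, (j k).z - Real.log (nm g₀) - (u : ℝ) / 3)) with hG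
  have hG0 : 0 ≤ G := (Real.exp_pos _).le
  have ht0 : 0 ≤ (1 + |t₀|) ^ A' := by positivity
  calc C1 * (Cφ ^ 2 * iA A' * (η * (η ^ A')⁻¹)) * (1 + |t₀|) ^ A' *
        ((nm γ : ℝ) * (nm g₀ * Real.exp ((u : ℝ) / 3)) * (1 + Λ)) ^ (ε / 8) * G * M'
      ≤ C1 * (Cφ ^ 2 * iA A' * (η * (η ^ A')⁻¹)) * (1 + |t₀|) ^ A' *
        (2 ^ (ε / 8) * X0 ^ (ε / 2)) * G *
        (100 * ((1 + (ε / 2)⁻¹) * X0 ^ (ε / 2)) * M) := by
        rw [hM']
        gcongr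
    _ = Kc * (Cφ ^ 2 * iA A' * (η * (η ^ A')⁻¹)) * (1 + |t₀|) ^ A' * X0 ^ ε * G * M := by
        rw [hKc, e4]; ring
    _ ≤ C * (Cφ ^ 2 * iA A' * (η * (η ^ A')⁻¹)) * (1 + |t₀|) ^ A' * X0 ^ ε * G * M := by
        have : Kc ≤ C := by linarith
        gcongr

end Crest.Agent.R017.MoL106
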