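import Crest.Agent.R017.MoJc_401
import Crest.Agent.R017.MoL8_106

/-!
# Row 17, E2, R-side (helper106): cell numbers, part 1

* `nr`, `cellR` : the real inequality behind the weights
* `WM_cell` : the weight of a cell
* `PM2` : the two-level functional
* `cell_pm` : one cell (quadruple sum) from the two-level functional
-/

set_option autoImplicit false
set_option maxHeartbeats 400000

noncomputable section

open Finset
open scoped ComplexConjugate

namespace Crest.Agent.R017.MoL106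

open Crest.Agent.R012 Crest.Agent.R012.Eis Crest.Agent.R012.LS2
open Crest.Agent.R017.B770
open Crest.Agent.R017.Prov71
open Crest.Agent.R017.CM106 (CS)
open Crest.Agent.R017.HP842 (pc)
open Crest.Agent.R017.H1401 (pb mem_pb WM HW)
open Crest.Agent.R017.MoF106
open Crest.Agent.R017.PML320 (PMp)

/-- the norm of the large sieve, in logarithms -/
def nr (v i : ℝ) : ℝ := max v (max i (2 / 3 * (v + i)))

lemma le_nr_v (v i : ℝ) : v ≤ nr v i := le_max_left _ _
lemma le_nr_i (v i : ℝ) : i ≤ nr v i := (le_max_left _ _).trans (le_max_right _ _)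
lemma le_nr_m (v i : ℝ) : 2 / 3 * (v + i) ≤ nr v i := (le_max_right _ _).trans (le_max_right _ _)

lemma nr_mono {v v' i : ℝ} (h : v ≤ v') : nr v i ≤ nr v' i := by
  unfold nr
  refine max_le_max h (max_le_max le_rfl ?_)
  linarith

/-- **the weight of a cell**: `j₂ ~ e^a`, `g₂ ~ e^g`, `g₃ ≥ e^w` -/
lemma WM_cell {V s a g w i R Z : ℝ} (hs : 0 ≤ s) (ha : 0 ≤ a) (hw : 0 ≤ w) (hg : 0 ≤ g)
    (hR0 : 0 ≤ R) (hZ0 : 0 ≤ Z)
    (hR : R ≤ Real.exp (s + V - 2 * a)) (hZ : Z ≤ Real.exp (i - a + 3 * w)) {x y : Eis}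
    (hx1 : Real.exp g ≤ nm x) (hx2 : (nm x : ℝ) ≤ Real.exp (g + 1 / 3))
    (hy : Real.exp w ≤ nm y) :
    WM R Z x y ≤ 3 * Real.exp (2 / 3) * Real.exp (g + nr V i + 3 * w - a + s) := by
  have hx0 : (0 : ℝ) < nm x := (Real.exp_pos _).trans_le hx1
  have hy0 : (0 : ℝ) < nm y := (Real.exp_pos _).trans_le hy
  have e23 : (1 : ℝ) ≤ Real.exp (2 / 3) := Real.one_le_exp (by norm_num)
  have n1 := le_nr_v V i
  have n2 := le_nr_i V i
  have n3 := le_nr_m V i
  set T := g + nr V i + 3 * w - a + s with hT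
  unfold H1401.WM
  by_cases hc : g + V ≤ nr V i + 3 * w
  · -- first branch
    have h1 : (nm x : ℝ) * min ((nm x : ℝ) * HW R Z x y) (R + (Z / nm x) ^ 2) ≤
        (nm x : ℝ) ^ 2 * HW R Z x y := by
      calc _ ≤ (nm x : ℝ) * ((nm x : ℝ) * HW R Z x y) :=
            mul_le_mul_of_nonneg_left (min_le_left _ _) hx0.le
        _ = _ := by ring
    refine h1.trans ?_
    have hx22 : (nm x : ℝ) ^ 2 ≤ Real.exp (2 * g + 2 / 3) := by
      calc (nm x : ℝ) ^ 2 ≤ Real.exp (g + 1 / 3) ^ 2 := by gcongr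
        _ = _ := by rw [← Real.exp_nat_mul]; congr 1; push_cast; ring
    have hxy : Real.exp (2 * g + 2 * w) ≤ ((nm x : ℝ) * nm y) ^ 2 := by
      calc Real.exp (2 * g + 2 * w) = (Real.exp g * Real.exp w) ^ 2 := by
            rw [← Real.exp_add, ← Real.exp_nat_mul]; congr 1; push_cast; ring
        _ ≤ _ := by gcongr
    have t2 : Z / ((nm x : ℝ) * nm y) ^ 2 ≤ Real.exp (i - a + w - 2 * g) := by
      rw [div_le_iff₀ (by positivity)]
      calc Z ≤ Real.exp (i - a + 3 * w) := hZ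
        _ = Real.exp (i - a + w - 2 * g) * Real.exp (2 * g + 2 * w) := by
            rw [← Real.exp_add]; congr 1; ring
        _ ≤ _ := by gcongr
    have t20 : 0 ≤ Z / ((nm x : ℝ) * nm y) ^ 2 := by positivity
    have t3 : (R * (Z / ((nm x : ℝ) * nm y) ^ 2)) ^ ((2 : ℝ) / 3) ≤
        Real.exp (2 / 3 * ((s + V - 2 * a) + (i - a + w - 2 * g))) := by
      calc (R * (Z / ((nm x : ℝ) * nm y) ^ 2)) ^ ((2 : ℝ) / 3)
          ≤ (Real.exp (s + V - 2 * a) * Real.exp (i - a + w - 2 * g)) ^ ((2 : ℝ) / 3) := by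
            gcongr
        _ = _ := by
            rw [← Real.exp_add, ← Real.exp_mul]; congr 1; ring
    have a1 : Real.exp (2 * g + 2 / 3) * R ≤ Real.exp (2 / 3) * Real.exp T := by
      calc Real.exp (2 * g + 2 / 3) * R ≤ Real.exp (2 * g + 2 / 3) * Real.exp (s + V - 2 * a) := by
            gcongr
        _ = Real.exp (2 / 3) * Real.exp (2 * g + (s + V - 2 * a)) := by
            rw [← Real.exp_add, ← Real.exp_add]; congr 1; ring
        _ ≤ _ := by
            gcongr
            rw [hT]; linarith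
    have a2 : Real.exp (2 * g + 2 / 3) * (Z / ((nm x : ℝ) * nm y) ^ 2) ≤
        Real.exp (2 / 3) * Real.exp T := by
      calc _ ≤ Real.exp (2 * g + 2 / 3) * Real.exp (i - a + w - 2 * g) := by gcongr
        _ = Real.exp (2 / 3) * Real.exp (2 * g + (i - a + w - 2 * g)) := by
            rw [← Real.exp_add, ← Real.exp_add]; congr 1; ring
        _ ≤ _ := by
            gcongr
            rw [hT]; linarith
    have a3 : Real.exp (2 * g + 2 / 3) * (R * (Z / ((nm x : ℝ) * nm y) ^ 2)) ^ ((2 : ℝ) / 3) ≤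
        Real.exp (2 / 3) * Real.exp T := by
      calc _ ≤ Real.exp (2 * g + 2 / 3) *
            Real.exp (2 / 3 * ((s + V - 2 * a) + (i - a + w - 2 * g))) := by gcongr
        _ = Real.exp (2 / 3) *
            Real.exp (2 * g + 2 / 3 * ((s + V - 2 * a) + (i - a + w - 2 * g))) := by
            rw [← Real.exp_add, ← Real.exp_add]; congr 1; ring
        _ ≤ _ := by
            gcongr
            rw [hT]; linarith
    have hH0 : 0 ≤ HW R Z x y := H1401.HW_nonneg hR0 hZ0 x y
    calc (nm x : ℝ) ^ 2 * HW R Z x y ≤ Real.exp (2 * g + 2 / 3) * HW R Z x y := by gcongr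
      _ = Real.exp (2 * g + 2 / 3) * R + Real.exp (2 * g + 2 / 3) * (Z / ((nm x : ℝ) * nm y) ^ 2) +
          Real.exp (2 * g + 2 / 3) * (R * (Z / ((nm x : ℝ) * nm y) ^ 2)) ^ ((2 : ℝ) / 3) := by
          unfold H1401.HW; ring
      _ ≤ _ := by linarith
  · -- second branch
    push Not at hc
    have h1 : (nm x : ℝ) * min ((nm x : ℝ) * HW R Z x y) (R + (Z / nm x) ^ 2) ≤
        (nm x : ℝ) * (R + (Z / nm x) ^ 2) :=
      mul_le_mul_of_nonneg_left (min_le_right _ _) hx0.le
    refine h1.trans ?_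
    have t2 : (Z / nm x) ^ 2 ≤ Real.exp (2 * (i - a + 3 * w - g)) := by
      have : Z / nm x ≤ Real.exp (i - a + 3 * w - g) := by
        rw [div_le_iff₀ hx0]
        calc Z ≤ Real.exp (i - a + 3 * w) := hZ
          _ = Real.exp (i - a + 3 * w - g) * Real.exp g := by
              rw [← Real.exp_add]; congr 1; ring
          _ ≤ _ := by gcongr
      calc (Z / nm x) ^ 2 ≤ Real.exp (i - a + 3 * w - g) ^ 2 := by gcongr
        _ = _ := by rw [← Real.exp_nat_mul]; norm_num
    have a1 : Real.exp (g + 1 / 3) * R ≤ Real.exp (2 / 3) * Real.exp T := by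
      calc _ ≤ Real.exp (g + 1 / 3) * Real.exp (s + V - 2 * a) := by gcongr
        _ = Real.exp (1 / 3) * Real.exp (g + (s + V - 2 * a)) := by
            rw [← Real.exp_add, ← Real.exp_add]; congr 1; ring
        _ ≤ _ := by
            gcongr
            · norm_num
            · rw [hT]; linarith
    have a2 : Real.exp (g + 1 / 3) * (Z / nm x) ^ 2 ≤ Real.exp (2 / 3) * Real.exp T := by
      calc _ ≤ Real.exp (g + 1 / 3) * Real.exp (2 * (i - a + 3 * w - g)) := by gcongr
        _ = Real.exp (1 / 3) * Real.exp (g + 2 * (i - a + 3 * w - g)) := by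
            rw [← Real.exp_add, ← Real.exp_add]; congr 1; ring
        _ ≤ _ := by
            gcongr
            · norm_num
            · rw [hT]; linarith
    have b1 : 0 ≤ Real.exp (2 / 3) * Real.exp T := by positivity
    calc (nm x : ℝ) * (R + (Z / nm x) ^ 2) ≤ Real.exp (g + 1 / 3) * (R + (Z / nm x) ^ 2) := by
          gcongr
      _ = Real.exp (g + 1 / 3) * R + Real.exp (g + 1 / 3) * (Z / nm x) ^ 2 := by ring
      _ ≤ _ := by linarith

/-- **the two-level functional** -/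
def PM2 (P : DPar) (h : ℝ → ℝ) (l β : ℝ) (ps : List Pq) : ℝ :=
  PMp P h l (primBall ⌊Real.exp β⌋₊) ps

lemma PM2_nonneg (P : DPar) (h : ℝ → ℝ) (l β : ℝ) (ps : List Pq) : 0 ≤ PM2 P h l β ps :=
  PML320.PMp_nonneg _ _ _ _ _

lemma PMp_mono_B {P : DPar} {h : ℝ → ℝ} {l : ℝ} {Bs Bs' : Finset Eis} (hB : Bs ⊆ Bs')
    (ps : List Pq) : PMp P h l Bs ps ≤ PMp P h l Bs' ps := by
  classical
  unfold PML320.PMp
  refine Finset.sum_le_sum_of_subset_of_nonneg hB fun _ _ _ => Finset.sum_nonneg fun _ _ =>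
    List.prod_nonneg ?_
  intro y hy
  obtain ⟨p, _, rfl⟩ := List.mem_map.1 hy
  positivity

lemma PMp_Bb_le {P : DPar} {h : ℝ → ℝ} {l β : ℝ} {U : ℕ} (hU : (U : ℝ) / 3 + 2 / 3 ≤ β)
    (ps : List Pq) : PMp P h l (Bb U) ps ≤ PM2 P h l β ps := by
  classical
  refine PMp_mono_B (fun b hb => ?_) ps
  rw [mem_Bb] at hb
  rw [mem_primBall]
  exact ⟨Nat.le_floor (hb.1.2.trans (Real.exp_le_exp.2 hU)), hb.1.1⟩

/-- below level `0` the functional vanishes -/
lemma PM2_neg {P : DPar} {h : ℝ → ℝ} {l β : ℝ} (hl : l < 0) (ps : List Pq) :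
    PM2 P h l β ps = 0 := by
  classical
  unfold PM2 PML320.PMp
  refine Finset.sum_eq_zero fun b _ => ?_
  have : bl (Real.exp l) = ∅ := by
    rw [Finset.eq_empty_iff_forall_notMem]
    intro x hx
    rw [mem_bl (Real.exp_pos _).le] at hx
    have h1 : (1 : ℝ) ≤ nm x := by exact_mod_cast nm_pos.2 hx.1
    have h2 : Real.exp l < 1 := by
      rw [← Real.exp_zero]; exact Real.exp_lt_exp.2 hl
    linarith [hx.2]
  rw [this, Finset.sum_empty]

end Crest.Agent.R017.MoL106
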