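import Crest.Agent.R017.P1Hl_440
import Crest.Agent.R017.MoN1_106

/-!
# Row 17, R8: the real side of E2 for `P1`, the lines in logarithms (helper440)

* `realA`, `realP` : (R2) and the polar line, all quantities in units of `log X`
-/

set_option autoImplicit false
set_option linter.unusedVariables false
set_option maxHeartbeats 4000000

noncomputable section

namespace Crest.Agent.R017.P1Hm440

open Crest.Agent.R017.P1F904 (Dp)
open Crest.Agent.R017.MoL106 (nr)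
open Crest.Agent.R017.P1Hl440

/-- **(R2)** in logarithms -/
theorem realA {κ y₃ y₄ u x d L p d₀ ν A e v T Λ cs C i1 i2 Tn i b g νn z₁ z₂ z₃ w hM : ℝ}
    (hL : 0 < L) (κ0 : 8 / 9 ≤ κ) (κ1 : κ ≤ 1)
    (hB : Blk κ y₃ y₄ u x d (p / L) ((d₀ + ν) / L) (A / L) (e / L) (v / L) Λ T)
    (n0 : 0 ≤ ν) (A1 : A ≤ d₀) (hcs : 0 ≤ cs) (hC : 0 ≤ C) (hsm : cs + 3 + C ≤ L / 10 ^ 6)
    (hi1 : i1 ≤ v + p - κ * L + 2 * (e + A) + 2 * ν - d₀ + L / 10 ^ 6)
    (hi2 : i2 ≤ κ * L - (e + A) + L / 10 ^ 6)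
    (hTn : (2 * (κ + p / L + 3 * Λ) - T) * L - (d₀ + ν - A) - L / 1000 ≤ Tn)
    (i0 : 0 ≤ i) (b0 : 0 ≤ b) (g0 : 0 ≤ g) (νn0 : 0 ≤ νn) (νn1 : νn ≤ ν) (h1 : i ≤ i1 + b)
    (h2 : i ≤ i2 - 2 * b) (h3 : 2 * g ≤ i + (e + A + cs))
    (z10 : 0 ≤ z₁) (z20 : 0 ≤ z₂) (z30 : 0 ≤ z₃) (w0 : 0 ≤ w)
    (z1 : z₁ ≤ y₃ * L + 2 * (L / 10 ^ 6)) (z2 : z₂ ≤ y₄ * L + 2 * (L / 10 ^ 6))
    (z3 : z₃ ≤ u * L + 2 * (L / 10 ^ 6)) (w1 : w ≤ x * L + 2 * (L / 10 ^ 6))
    (hle : z₁ + z₂ + z₃ + w ≤ p - (d₀ + b + g) + C) (hMH : hM ≤ L / 10 ^ 4) :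
    (hM + (max (RM986.r3 d ((i + (e + A + cs) - 2 * g + 2 * (b + 2 / 3 + g)) / L) (z₁ / L)
        (z₂ / L) (z₃ / L) 0 (w / L)) ((i + (e + A + cs) - 2 * g + 2 * (b + 2 / 3 + g)) / L / 3 +
        2 * (w / L) + 2 * (7 / 8 + d) * 0) + 1 / 2000) * L ≤
      Tn - (νn + nr (v + e + A) (i - 3 * νn) - i) - (p - d₀ - b - (z₁ + z₂ + z₃ + w))) ∨
    (hM + (PM320.pmb d ((b + 2 / 3 + g) / L) ((i + (e + A + cs) - 2 * g) / L) (z₁ / L)
        (z₂ / L) (z₃ / L) 0 (w / L) + 1 / 2000) * L ≤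
      Tn - (νn + nr (v + e + A) (i - 3 * νn) - i) - (p - d₀ - b - (z₁ + z₂ + z₃ + w))) := by
  set ms : ℝ := max 0 (p - d₀ - b - g - (z₁ + z₂ + z₃ + w)) with hms
  have ms0 : 0 ≤ ms := le_max_left _ _
  have ms1 : p - d₀ - b - g - (z₁ + z₂ + z₃ + w) ≤ ms := le_max_right _ _
  have ms2 : ms ≤ p - d₀ - b - g - (z₁ + z₂ + z₃ + w) + C := max_le (by linarith) (by linarith)
  set W : ℝ := νn + nr (v + e + A) (i - 3 * νn) + g with hWd
  obtain ⟨t, ht, hLt⟩ : ∃ t : ℝ, 0 < t ∧ L * t = 1 := ⟨L⁻¹, by positivity, mul_inv_cancel₀ hL.ne'⟩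
  have hdiv : ∀ a : ℝ, a / L = a * t := fun a => by
    rw [div_eq_iff hL.ne', mul_assoc, mul_comm t L, hLt, mul_one]
  have hκt : κ * L * t = κ := by rw [mul_assoc, hLt, mul_one]
  have hy3t : y₃ * L * t = y₃ := by rw [mul_assoc, hLt, mul_one]
  have hy4t : y₄ * L * t = y₄ := by rw [mul_assoc, hLt, mul_one]
  have hut : u * L * t = u := by rw [mul_assoc, hLt, mul_one]
  have hxt : x * L * t = x := by rw [mul_assoc, hLt, mul_one]
  have hWc : W ≤ v + e + A + g + ν ∨ W ≤ i + g ∨ W ≤ 2 / 3 * (v + e + A + i) + g := by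
    rw [hWd]
    unfold MoL106.nr
    rcases max_choice (v + e + A) (max (i - 3 * νn) (2 / 3 * (v + e + A + (i - 3 * νn)))) with
      h | h
    · rw [h]; exact Or.inl (by linarith)
    · rw [h]
      rcases max_choice (i - 3 * νn) (2 / 3 * (v + e + A + (i - 3 * νn))) with h' | h'
      · rw [h']; exact Or.inr (Or.inl (by linarith))
      · rw [h']; exact Or.inr (Or.inr (by linarith))
  have hsm' := hsm
  rw [show L / 10 ^ 6 = 1 / 10 ^ 6 * L by ring] at hsm hi1 hi2 z1 z2 z3 w1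
  rw [show L / 10 ^ 4 = 1 / 10 ^ 4 * L by ring] at hMH
  rw [show L / 1000 = 1 / 1000 * L by ring] at hTn
  simp only [hdiv] at hB hTn ⊢
  have e1 : (d₀ + ν) * t = d₀ * t + ν * t := by ring
  rw [e1] at hB
  have key := lineA (κ := κ) (y₃ := y₃) (y₄ := y₄) (u := u) (x := x) (d := d) (p := p * t)
    (d₀ := d₀ * t) (ν := ν * t) (A := A * t) (e := e * t) (v := v * t) (b := (b + 1) * t)
    (g := g * t) (i := (i + cs) * t) (β := (b + 2 / 3 + g) * t)
    (i' := (i + (e + A + cs) - 2 * g) * t)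
    (I₀ := (i + (e + A + cs) - 2 * g + 2 * (b + 2 / 3 + g)) * t) (z₁ := z₁ * t) (z₂ := z₂ * t)
    (z₃ := z₃ * t) (x' := w * t) (W := W * t) (T := T) (Λ := Λ) (ms := ms * t) hB
    (by positivity) (mul_le_mul_of_nonneg_right A1 ht.le) (by positivity) (by positivity)
    (by positivity) (by positivity)
    (by
      have q1 := mul_le_mul_of_nonneg_right (h1.trans (add_le_add_left hi1 b)) ht.le
      have q2 := mul_le_mul_of_nonneg_right hsm ht.le
      nlinarith)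
    (by
      have q1 := mul_le_mul_of_nonneg_right (h2.trans (sub_le_sub_right hi2 (2 * b))) ht.le
      have q2 := mul_le_mul_of_nonneg_right hsm ht.le
      nlinarith)
    (by positivity) (by positivity) (by positivity) (by positivity)
    (by
      have q1 := mul_le_mul_of_nonneg_right z1 ht.le
      nlinarith)
    (by
      have q1 := mul_le_mul_of_nonneg_right z2 ht.le
      nlinarith)
    (by
      have q1 := mul_le_mul_of_nonneg_right z3 ht.le
      nlinarith)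
    (by
      have q1 := mul_le_mul_of_nonneg_right w1 ht.le
      nlinarith)
    (by
      have q1 := mul_le_mul_of_nonneg_right ms2 ht.le
      have q2 := mul_le_mul_of_nonneg_right hsm ht.le
      have q3 : 0 ≤ cs * t := by positivity
      have q4 : 0 ≤ C * t := by positivity
      nlinarith)
    (by
      have q1 := mul_le_mul_of_nonneg_right h3 ht.le
      nlinarith)
    (by nlinarith) (by nlinarith) (by
      have : 0 ≤ i + (e + A + cs) - 2 * g + 2 * (b + 2 / 3 + g) := by linarith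
      positivity) (by nlinarith)
    (by
      have q3 : 0 ≤ cs * t := by positivity
      rcases hWc with h | h | h
      · left
        have := mul_le_mul_of_nonneg_right h ht.le
        linarith
      · right; left
        have := mul_le_mul_of_nonneg_right h ht.le
        linarith
      · right; right
        have := mul_le_mul_of_nonneg_right h ht.le
        linarith)
  -- back to logarithms
  have fin : ∀ R : ℝ, d₀ * t + ν * t - A * t + (W * t - (i + cs) * t) + ms * t + R +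
      1 / 400 * κ ≤ 2 * (κ + p * t + 3 * Λ) - T →
      hM + (R + 1 / 2000) * L ≤ Tn - (νn + nr (v + e + A) (i - 3 * νn) - i) -
        (p - d₀ - b - (z₁ + z₂ + z₃ + w)) := by
    intro R hR
    have q1 := mul_le_mul_of_nonneg_right hR hL.le
    have hb : ∀ a : ℝ, a * t * L = a := fun a => by rw [mul_assoc, mul_comm t L, hLt, mul_one]
    have q2 : (d₀ * t + ν * t - A * t + (W * t - (i + cs) * t) + ms * t + R + 1 / 400 * κ) * L =
        d₀ + ν - A + (W - (i + cs)) + ms + R * L + 1 / 400 * (κ * L) := by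
      linear_combination hb d₀ + hb ν - hb A + hb W - hb (i + cs) + hb ms
    rw [q2] at q1
    have q3 : 8 / 9 * L ≤ κ * L := mul_le_mul_of_nonneg_right κ0 hL.le
    rw [hWd] at q1
    linarith
  rcases key with h | h
  · exact Or.inl (fin _ h)
  · exact Or.inr (fin _ h)

/-- **the polar line** in logarithms -/
theorem realP {κ y₃ y₄ u x d L p D A e v T Λ cs C lK i1 i2 Tn b lv z₁ z₂ z₃ w hM : ℝ}
    (hL : 0 < L) (κ0 : 8 / 9 ≤ κ) (κ1 : κ ≤ 1)
    (hB : Blk κ y₃ y₄ u x d (p / L) (D / L) (A / L) (e / L) (v / L) Λ T)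
    (A1 : A ≤ D) (hC : 0 ≤ C) (hcs : 0 ≤ cs) (hsm : cs + 3 + C ≤ L / 10 ^ 6)
    (hi1 : i1 ≤ v + p - κ * L + 2 * (e + A) - D + L / 10 ^ 6)
    (hi2 : κ * L - (e + A) - L / 10 ^ 6 ≤ i2) (hlK : lK ≤ κ * L + L / 10 ^ 6)
    (hTn : (2 * (κ + p / L + 3 * Λ) - T) * L - (D - A) - L / 1000 ≤ Tn)
    (b0 : 0 ≤ b) (h1 : i2 - i1 ≤ 3 * b + 1) (hlv : lv ≤ v + 3 * (e + A) + b + 2 * cs + 1)
    (z10 : 0 ≤ z₁) (z20 : 0 ≤ z₂) (z30 : 0 ≤ z₃) (w0 : 0 ≤ w) (w1 : w ≤ x * L + 2 * (L / 10 ^ 6))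
    (hle : z₁ + z₂ + z₃ + w ≤ p - (D + b) + C) (hMH : hM ≤ L / 10 ^ 4) :
    hM + (TM708.tAll d (lv / L) (z₁ / L) (z₂ / L) (z₃ / L) (0 + w / L) + 1 / 2000) * L ≤
      Tn + 1 / 3 * v - 2 / 3 * lK + (e + A) + 4 / 3 * b + 1 / 3 * (p - D - b) := by
  obtain ⟨t, ht, hLt⟩ : ∃ t : ℝ, 0 < t ∧ L * t = 1 := ⟨L⁻¹, by positivity, mul_inv_cancel₀ hL.ne'⟩
  have hdiv : ∀ a : ℝ, a / L = a * t := fun a => by
    rw [div_eq_iff hL.ne', mul_assoc, mul_comm t L, hLt, mul_one]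
  have hκt : κ * L * t = κ := by rw [mul_assoc, hLt, mul_one]
  have hxt : x * L * t = x := by rw [mul_assoc, hLt, mul_one]
  rw [show L / 10 ^ 6 = 1 / 10 ^ 6 * L by ring] at hsm hi1 hi2 w1 hlK
  rw [show L / 10 ^ 4 = 1 / 10 ^ 4 * L by ring] at hMH
  rw [show L / 1000 = 1 / 1000 * L by ring] at hTn
  simp only [hdiv] at hB hTn ⊢
  have hdom : 2 * (κ * L) ≤ v + p + 3 * (e + A) - D + 3 * b + 3 * (1 / 10 ^ 6 * L) := by
    linarith
  have key := lineP (κ := κ) (y₃ := y₃) (y₄ := y₄) (u := u) (x := x) (d := d) (p := p * t)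
    (D := D * t) (A := A * t) (e := e * t) (v := v * t) (b := b * t) (lv := lv * t)
    (z₁ := z₁ * t) (z₂ := z₂ * t) (z₃ := z₃ * t) (w := w * t) (T := T) (Λ := Λ) hB
    (mul_le_mul_of_nonneg_right A1 ht.le) (by positivity)
    (by
      have q1 := mul_le_mul_of_nonneg_right hdom ht.le
      nlinarith)
    (by positivity) (by positivity) (by positivity) (by positivity)
    (by
      have q1 := mul_le_mul_of_nonneg_right hle ht.le
      have q2 := mul_le_mul_of_nonneg_right hsm ht.le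
      have q3 : 0 ≤ cs * t := by positivity
      nlinarith)
    (by
      have q1 := mul_le_mul_of_nonneg_right w1 ht.le
      nlinarith)
    (by
      have q1 := mul_le_mul_of_nonneg_right hlv ht.le
      have q2 := mul_le_mul_of_nonneg_right hsm ht.le
      have q4 : 0 ≤ C * t := by positivity
      nlinarith)
  have q1 := mul_le_mul_of_nonneg_right key hL.le
  set R := TM708.tAll d (lv * t) (z₁ * t) (z₂ * t) (z₃ * t) (0 + w * t) with hR
  have hb : ∀ a : ℝ, a * t * L = a := fun a => by rw [mul_assoc, mul_comm t L, hLt, mul_one]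
  have q2 : (2 * (κ + p * t + 3 * Λ) - T - 2 / 3 * κ + v * t / 3 -
      D * t + e * t + 2 * (A * t) + 4 / 3 * (b * t) + (p * t - D * t - b * t) / 3) * L =
      (2 * (κ + p * t + 3 * Λ) - T) * L - 2 / 3 * (κ * L) + v / 3 - D + e + 2 * A + 4 / 3 * b +
        (p - D - b) / 3 := by
    linear_combination (1 / 3) * hb v - hb D + hb e + 2 * hb A + (4 / 3) * hb b +
      (1 / 3) * (hb p - hb D - hb b)
  rw [q2] at q1
  have q3 : 8 / 9 * L ≤ κ * L := mul_le_mul_of_nonneg_right κ0 hL.le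
  linarith

end Crest.Agent.R017.P1Hm440
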