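import Crest.Agent.R017.P1Rg_440
import Crest.Agent.R017.P1Hm_440

/-!
# Row 17, R8: the real side of E2 for `P1`, part h (helper440): the premises from the inputs

* `pmh_of`, `vfh_of`
-/

set_option autoImplicit false
set_option maxHeartbeats 2000000

noncomputable section

open Finset
open scoped ComplexConjugate

namespace Crest.Agent.R017.P1Rh440

open Crest.Agent.R012 Crest.Agent.R012.Eis
open Crest.Agent.R017.B770
open Crest.Agent.R017.Prov71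
open Crest.Agent.R017.FE47 (cx PU)
open Crest.Agent.R017.HP842 (pc al sqc alL)
open Crest.Agent.R017.UBT973 (UBs)
open Crest.Agent.R017.XRG106 (Rl)
open Crest.Agent.R017.MoL106 (PM2 ChF nr)
open Crest.Agent.R017.I1146 (LN)
open Crest.Agent.R017.Rough381 (VF)
open Crest.Agent.R017.PM320 (S3b MP3 fbx Epm)
open Crest.Agent.R017.TM708 (TMF fbT EAll tAll tAll_mono)
open Crest.Agent.R017.P1F904 (Dp)
open Crest.Agent.R017.P1Rb440 (PMH)
open Crest.Agent.R017.P1Rc440 (VFH)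
open Crest.Agent.R017.P1Rg440
open Crest.Agent.R017.P1Hl440 Crest.Agent.R017.P1Hm440

variable {Λ : Type*} {π : Λ → DPar} {h : ℝ → ℝ} {d : ℝ}

/-- the parent list -/
structure Lst (σ B X H₀ : ℝ) (b0 b1 b2 : Pq) (qs : List Pq) : Prop where
  lump : ∀ p ∈ [b0, b1, b2], Dq.lump p ∧ 0 ≤ p.z ∧ p.z ≤ Real.log X
  am : ∀ p ∈ qs, p.kd = .am ∧ 0 ≤ p.z ∧ p.z ≤ σ / 2 * Real.log X
  dd : ∀ p ∈ b0 :: b1 :: b2 :: qs, (nm p.d : ℝ) ≤ X ^ B
  ht : ∀ p ∈ b0 :: b1 :: b2 :: qs, 1 + |p.t| ≤ H₀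
  H1 : 1 ≤ H₀

lemma f2_mem {Rel : Pq → Pq → Prop} {rest qs : List Pq} (h : List.Forall₂ Rel rest qs) :
    ∀ p ∈ rest, ∃ q ∈ qs, Rel p q := by
  induction h with
  | nil => intro p hp; simp at hp
  | cons h1 _ ih =>
    intro p hp
    rcases List.mem_cons.1 hp with rfl | hp
    · exact ⟨_, List.mem_cons_self, h1⟩
    · obtain ⟨q, hq, h2⟩ := ih p hp
      exact ⟨q, List.mem_cons_of_mem _ hq, h2⟩

lemma f2_LN {C : ℝ} {rest qs : List Pq} (h : List.Forall₂ (fun p q : Pq => p.z ≤ q.z + C) rest qs) :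
    LN rest ≤ LN qs + qs.length * C := by
  induction h with
  | nil => simp [I1146.LN]
  | cons h1 _ ih =>
    unfold I1146.LN at ih ⊢
    simp only [List.map_cons, List.sum_cons, List.length_cons]
    push_cast
    linarith

lemma LN_cons3 (a b c : Pq) (l : List Pq) : LN (a :: b :: c :: l) = a.z + b.z + c.z + LN l := by
  unfold I1146.LN
  simp only [List.map_cons, List.sum_cons]
  ring

/-- the pieces of a child -/
lemma pcx_of {σ B X H₀ C W0 : ℝ} {b0 b1 b2 u₁ u₂ u₃ : Pq} {qs rest : List Pq}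
    (hl : Lst σ B X H₀ b0 b1 b2 qs) (hX : 1 < X) (hσ : 0 < σ) (hσ1 : σ ≤ 1) (hB : 0 ≤ B)
    (hC : 0 ≤ C)
    (hCX : C ≤ σ / 2 * Real.log X) (hCX2 : C ≤ X) (hW : 1 ≤ W0)
    (hLN : LN qs + qs.length * C ≤ 8 * Real.log X) (h1 : Rl C W0 u₁ b0)
    (h2 : Rl C W0 u₂ b1) (h3 : Rl C W0 u₃ b2) (h4 : List.Forall₂ (Rl C W0) rest qs) :
    Pcx σ (B + 10) X (W0 * H₀) u₁ u₂ u₃ rest := by
  have hX0 : 0 < X := by linarith
  have hL0 : 0 < Real.log X := Real.log_pos hX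
  have hH := hl.H1
  have hC1 : C ≤ Real.log X := hCX.trans (by nlinarith)
  have hmem : ∀ p ∈ u₁ :: u₂ :: u₃ :: rest, ∃ q ∈ b0 :: b1 :: b2 :: qs, Rl C W0 p q := by
    intro p hp
    simp only [List.mem_cons] at hp
    rcases hp with rfl | rfl | rfl | hp
    · exact ⟨b0, by simp, h1⟩
    · exact ⟨b1, by simp, h2⟩
    · exact ⟨b2, by simp, h3⟩
    · obtain ⟨q, hq, h5⟩ := f2_mem h4 p hp
      exact ⟨q, by simp [hq], h5⟩
  have hz : ∀ q ∈ b0 :: b1 :: b2 :: qs, q.z ≤ Real.log X := by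
    intro q hq
    simp only [List.mem_cons] at hq
    rcases hq with rfl | rfl | rfl | hq
    · exact (hl.lump _ (by simp)).2.2
    · exact (hl.lump _ (by simp)).2.2
    · exact (hl.lump _ (by simp)).2.2
    · exact (hl.am _ hq).2.2.trans (by nlinarith)
  have hdd : ∀ p ∈ u₁ :: u₂ :: u₃ :: rest, (nm p.d : ℝ) ≤ X ^ (B + 10) := by
    intro p hp
    obtain ⟨q, hq, h5⟩ := hmem p hp
    have e1 : Real.exp q.z ≤ X := by
      rw [← Real.le_log_iff_exp_le hX0]; exact hz q hq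
    have e2 := hl.dd q hq
    calc (nm p.d : ℝ) ≤ C * nm q.d * Real.exp q.z := h5.dd
      _ ≤ X * X ^ B * X := by gcongr
      _ = X ^ (B + 2) := by
          rw [Real.rpow_add hX0, show (2 : ℝ) = ((2 : ℕ) : ℝ) by norm_num, Real.rpow_natCast]
          ring
      _ ≤ X ^ (B + 10) := Real.rpow_le_rpow_of_exponent_le hX.le (by linarith)
  refine ⟨?_, ?_, ?_, ?_, ?_⟩
  · intro p hp
    have hd := hdd p (by simp only [List.mem_cons, List.not_mem_nil, or_false] at hp ⊢; tauto)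
    simp only [List.mem_cons, List.not_mem_nil, or_false] at hp
    rcases hp with rfl | rfl | rfl
    · have q1 := hl.lump b0 (by simp)
      exact ⟨⟨h1.kd.trans q1.1.1, h1.one q1.1.2⟩, h1.z0, by linarith [h1.zle, q1.2.2], hd⟩
    · have q1 := hl.lump b1 (by simp)
      exact ⟨⟨h2.kd.trans q1.1.1, h2.one q1.1.2⟩, h2.z0, by linarith [h2.zle, q1.2.2], hd⟩
    · have q1 := hl.lump b2 (by simp)
      exact ⟨⟨h3.kd.trans q1.1.1, h3.one q1.1.2⟩, h3.z0, by linarith [h3.zle, q1.2.2], hd⟩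
  · intro p hp
    obtain ⟨q, hq, h5⟩ := f2_mem h4 p hp
    have q1 := hl.am q hq
    exact ⟨h5.kd.trans q1.1, h5.z0, by linarith [h5.zle, q1.2.2], hdd p (by simp [hp])⟩
  · refine le_trans ?_ hLN
    exact f2_LN (h4.imp fun p q h => h.zle)
  · intro p hp
    obtain ⟨q, hq, h5⟩ := hmem p hp
    exact h5.ht.trans (mul_le_mul_of_nonneg_left (hl.ht q hq) (by linarith))
  · nlinarith

/-- **the premise `PMH`** -/
theorem pmh_of (hPM : UBs S3b Dq (MP3 π h (fun _ => 0) (fun _ => 0)) (fbx 8) ∅ (Epm d))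
    (hRF : RM986.Plain (fun _ k => k ≠ 0) π h 8
      (fun κ y₁ y₂ y₃ m a => max (RM986.r3 d κ y₁ y₂ y₃ m a)
        (κ / 3 + 2 * a + 2 * (7 / 8 + d) * m))) :
    ∃ σ : ℝ, 0 < σ ∧ σ ≤ 1 ∧ ∀ (lam : Λ) (N : ℕ) (B : ℝ), 0 ≤ B → ∃ (M : ℕ) (X₀ : ℝ), 1 < X₀ ∧
      ∀ X : ℝ, X₀ ≤ X → ∀ {r : ℕ} (s : Fin r → Pq) (b0 b1 b2 : Pq) (qs : List Pq),
      List.ofFn s = [b0, b1, b2] ++ qs → qs.length ≤ N → ∀ (σ' H₀ : ℝ), 0 < σ' → σ' ≤ σ →
      Lst σ' B X H₀ b0 b1 b2 qs →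
      ∀ (κ y₃ y₄ u x p d₀ ν A e v T Λ' cs C i1 i2 Tn μ : ℝ), 8 / 9 ≤ κ → κ ≤ 1 →
      p = ∑ k, (s k).z →
      Blk κ y₃ y₄ u x d (p / Real.log X) ((d₀ + ν) / Real.log X) (A / Real.log X)
        (e / Real.log X) (v / Real.log X) Λ' T → 0 ≤ ν → 0 ≤ A → 0 ≤ e → A ≤ d₀ → 0 ≤ cs →
      0 ≤ C →
      C ≤ σ' / 2 * Real.log X → cs + 3 + C ≤ Real.log X / 10 ^ 6 →
      N * C ≤ Real.log X / 10 ^ 6 →
      i1 ≤ v + p - κ * Real.log X + 2 * (e + A) + 2 * ν - d₀ + Real.log X / 10 ^ 6 →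
      i2 ≤ κ * Real.log X - (e + A) + Real.log X / 10 ^ 6 →
      (2 * (κ + p / Real.log X + 3 * Λ') - T) * Real.log X - (d₀ + ν - A) -
        Real.log X / 1000 ≤ Tn →
      b0.z ≤ y₃ * Real.log X + Real.log X / 10 ^ 6 →
      b1.z ≤ y₄ * Real.log X + Real.log X / 10 ^ 6 →
      b2.z ≤ u * Real.log X + Real.log X / 10 ^ 6 →
      LN qs ≤ x * Real.log X + Real.log X / 10 ^ 6 →
      M * Real.log H₀ ≤ Real.log X / 10 ^ 4 → (M : ℝ) ≤ 2 * μ →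
      PMH h μ C (π lam) s (v + e + A) d₀ ν i1 i2 (e + A + cs) 1 Tn := by
  obtain ⟨σ, hσ, H⟩ := pm_in hPM hRF (ε := 1 / 2000) (by norm_num)
  refine ⟨min σ 1, lt_min hσ one_pos, min_le_right _ _, fun lam N B hB => ?_⟩
  obtain ⟨M, X₀, hX₀, H⟩ := H lam N (B + 10)
  refine ⟨M, X₀, hX₀, ?_⟩
  intro X hX r s b0 b1 b2 qs hs hN σ' H₀ hσ'0 hσ' hl κ y₃ y₄ u x p d₀ ν A e v T Λ' cs C i1 i2 Tn μ
    κ0 κ1 hp hBlk ν0 A0 e0 A1 hcs hC hCσ hsm hNC hi1 hi2 hTn z1 z2 z3 w1 hMH hμ i b g νn s' W0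
    hi hb hg hν0 hν hii1 hii2 hgi hW0 hR hle
  have hX1 : 1 < X := lt_of_lt_of_le hX₀ hX
  have hX0 : 0 < X := by linarith
  set L := Real.log X with hL
  have hL0 : 0 < L := Real.log_pos hX1
  obtain ⟨u₁, u₂, u₃, rest, hs', r1, r2, r3, r4⟩ := nat_split hs hR
  have hC6 : C ≤ L / 10 ^ 6 := by linarith
  have hLX : L ≤ X := by
    have := Real.log_le_sub_one_of_pos hX0
    linarith
  have hCX2 : C ≤ X := by
    have : L / 10 ^ 6 ≤ L := by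
      rw [div_le_iff₀ (by norm_num)]; nlinarith
    linarith
  have hqsC : (qs.length : ℝ) * C ≤ L / 10 ^ 6 := by
    refine le_trans ?_ hNC
    exact mul_le_mul_of_nonneg_right (by exact_mod_cast hN) hC
  obtain ⟨-, -, -, hy3x, -, -, hx0, -, -, -⟩ := dp_hom hBlk.κ0 hBlk.dp
  have hxL : x * L ≤ 1 * L := mul_le_mul_of_nonneg_right (by linarith [hBlk.κ0, hy3x,
    (dp_hom hBlk.κ0 hBlk.dp).1, (dp_hom hBlk.κ0 hBlk.dp).2.1,
    (dp_hom hBlk.κ0 hBlk.dp).2.2.1]) hL0.le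
  have hL6 : L / 10 ^ 6 ≤ 1 / 1000 * L := by
    rw [div_le_iff₀ (by norm_num)]; nlinarith
  have hLNC : LN qs + qs.length * C ≤ 8 * L := by linarith
  have hσ'1 : σ' ≤ 1 := hσ'.trans (min_le_right _ _)
  have hpcx0 := pcx_of hl hX1 hσ'0 hσ'1 hB hC hCσ hCX2 hW0 hLNC r1 r2 r3 r4
  have hpcx : Pcx σ (B + 10) X (W0 * H₀) u₁ u₂ u₃ rest := by
    refine ⟨hpcx0.lump, fun p hp => ?_, hpcx0.sum, hpcx0.ht, hpcx0.H1⟩
    obtain ⟨q1, q2, q3, q4⟩ := hpcx0.am p hp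
    exact ⟨q1, q2, q3.trans (mul_le_mul_of_nonneg_right (hσ'.trans (min_le_left _ _)) hL0.le), q4⟩
  have hrl : rest.length ≤ N := by rw [r4.length_eq]; exact hN
  have hS : ∑ k, (s' k).z = u₁.z + u₂.z + u₃.z + LN rest := by
    rw [sum_ofFn_z, hs', LN_cons3]
  have hw : LN rest ≤ LN qs + qs.length * C := f2_LN (r4.imp fun p q h => h.zle)
  have hw0 := hpcx.LN0
  set l := i + (e + A + cs) - 2 * g with hl'
  set β := b + 2 / 3 + g with hβ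
  have hl0 : 0 ≤ l := by rw [hl']; linarith
  have hβ0 : 0 ≤ β := by positivity
  have hκL : κ * L ≤ 1 * L := mul_le_mul_of_nonneg_right κ1 hL0.le
  have hl2 : l ≤ 2 * L := by rw [hl']; linarith
  have hβ2 : β ≤ 3 * L := by rw [hβ]; linarith
  rw [← hp] at hle
  rw [hS] at hle ⊢
  obtain ⟨k1, k2⟩ := H X hX l β (W0 * H₀) u₁ u₂ u₃ rest hrl hpcx hl0 hβ0 hl2 hβ2
  have key := realA (κ := κ) (y₃ := y₃) (y₄ := y₄) (u := u) (x := x) (d := d) (L := L) (p := p)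
    (d₀ := d₀) (ν := ν) (A := A) (e := e) (v := v) (T := T) (Λ := Λ') (cs := cs) (C := C)
    (i1 := i1) (i2 := i2) (Tn := Tn) (i := i) (b := b) (g := g) (νn := νn) (z₁ := u₁.z)
    (z₂ := u₂.z) (z₃ := u₃.z) (w := LN rest) (hM := M * Real.log H₀) hL0 κ0 κ1 hBlk ν0 A1 hcs hC
    hsm hi1 hi2 hTn hi hb hg hν0 hν hii1 hii2 hgi r1.z0 r2.z0 r3.z0 hw0
    (by linarith [r1.zle]) (by linarith [r2.zle]) (by linarith [r3.zle]) (by linarith)
    (by linarith) hMH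
  rw [hs', ← hp]
  have hH0 : 0 < H₀ := by linarith [hl.H1]
  have fin : ∀ E : ℝ, PM2 (π lam) h l β (u₁ :: u₂ :: u₃ :: rest) ≤
      (W0 * H₀) ^ M * X ^ (E + 1 / 2000) →
      M * Real.log H₀ + (E + 1 / 2000) * L ≤ Tn - (νn + nr (v + e + A) (i - 3 * νn) - i) -
        (p - d₀ - b - (u₁.z + u₂.z + u₃.z + LN rest)) →
      PM2 (π lam) h l β (u₁ :: u₂ :: u₃ :: rest) ≤ 1 * W0 ^ (2 * μ) *
        Real.exp (Tn - (νn + nr (v + e + A) (i - 3 * νn) - i) -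
        (p - d₀ - b - (u₁.z + u₂.z + u₃.z + LN rest))) := by
    intro E h1 h2
    refine h1.trans ?_
    have e1 : (W0 * H₀) ^ M * X ^ (E + 1 / 2000) =
        W0 ^ M * Real.exp (M * Real.log H₀ + (E + 1 / 2000) * L) := by
      rw [mul_pow, Real.exp_add, mul_comm (M : ℝ) (Real.log H₀), Real.exp_mul,
        Real.exp_log hH0, Real.rpow_natCast, mul_comm (E + 1 / 2000) L, Real.exp_mul, hL,
        Real.exp_log hX0]
      ring
    rw [e1, one_mul]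
    have e2 : W0 ^ M ≤ W0 ^ (2 * μ) := by
      rw [← Real.rpow_natCast]
      exact Real.rpow_le_rpow_of_exponent_le hW0 hμ
    exact mul_le_mul e2 (Real.exp_le_exp.2 h2) (Real.exp_pos _).le
      (Real.rpow_nonneg (by linarith) _)
  rcases key with hk | hk
  · exact fin _ k2 hk
  · exact fin _ k1 hk

end Crest.Agent.R017.P1Rh440
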