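import Crest.Agent.R017.MoF6_106

/-!
# Row 17, E2: the error functionals of helper440 and second moments of closed families, part 7

* `MoC`, `MoH_win` : the functional `Mo` of `E2core` for the windowed sequence
* `MoC_blk` : its sum over a block
* `MT_win_blk` : the direct side with a window
-/

set_option autoImplicit false

noncomputable section

open MeasureTheory Finset Filter
open scoped ComplexConjugate

namespace Crest.Agent.R017.MoF106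

open Crest.Agent.R012
open Eis CharSum852 Gauss880 LS2 CR2 MelSep811
open Crest.Agent.R012.Weight600 (osc norm_osc pw)
open Crest.Agent.R017.CM106 (CS TG FS sub)
open Crest.Agent.R017.TP320 (VC VG Fam SplitAt tw)
open Crest.Agent.R017.E2440 (cT MoF MoH MT)
open Crest.Agent.R017.H1401 (pb mem_pb)
open Crest.Agent.R017.X6C180 (IX dl')
open Crest.Agent.R017.PX764 (Gh n6)
open Crest.Agent.R017.Win813 (ew ew_nonneg iA iA_nonneg WK HF HW wn integrable_base integrable_ew)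
open Div277 (tau dvs mem_dvs tau_le_rpow)

lemma dl_ne_zero {σ : Eis} (hσ : σ ≠ 0) (i : IX σ) : dl' σ i ≠ 0 := by
  obtain ⟨k, hk⟩ := X6C180.dl_SU hσ i
  intro h0
  rw [h0] at hk
  exact pow_ne_zero k lam_ne_zero (zero_dvd_iff.1 hk)

/-- a bound of the norms of the dual twists -/
def dmx (σ : Eis) : ℝ := ∑ i : IX σ, (nm (dl' σ i) : ℝ)

lemma le_dmx (σ : Eis) (i : IX σ) : (nm (dl' σ i) : ℝ) ≤ dmx σ :=
  Finset.single_le_sum (f := fun i : IX σ => (nm (dl' σ i) : ℝ))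
    (fun _ _ => Nat.cast_nonneg _) (Finset.mem_univ i)

lemma one_le_dmx {σ : Eis} (hσ : σ ≠ 0) : 1 ≤ dmx σ := by
  have h1 : (1 : ℝ) ≤ nm (dl' σ none) := by exact_mod_cast nm_pos.2 (dl_ne_zero hσ none)
  exact h1.trans (le_dmx σ none)

/-- the functional `Mo` of `E2core` -/
def MoC (C η : ℝ) (A : ℕ) (σ : Eis) (al : Eis → ℂ) (E B : Eis) (X Z : ℝ) (W : Eis → Eis → ℝ)
    (P : IX σ → Eis → Eis → Eis → Prop) : ℝ :=
  C ^ 2 * iA A * (η * (η ^ A)⁻¹) * ∑ i : IX σ, MoI A al E B (dl' σ i) X Z W (P i)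

lemma MoI_nonneg {A : ℕ} {al : Eis → ℂ} {E B τ : Eis} {X Z : ℝ} {W : Eis → Eis → ℝ}
    {P : Eis → Eis → Eis → Prop} (hW : ∀ g₂ ∈ S X, ∀ g₃ ∈ S X, 0 ≤ W g₂ g₃) :
    0 ≤ MoI A al E B τ X Z W P :=
  integral_nonneg fun _ => mul_nonneg (by positivity) (MoP_nonneg hW)

/-- each piece of the windowed functional is bounded by `MoC` -/
theorem MoP_le_MoC {w : Eis → ℂ} {X₁ : ℝ} {γ q g₀ δ E B : Eis} {X Z : ℝ} {W : Eis → Eis → ℝ}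
    {σ : Eis} {P : IX σ → Eis → Eis → Eis → Prop} {C η : ℝ} {A : ℕ} (hC : 0 ≤ C) (hη : 0 < η)
    (hη1 : η ≤ 1) (hA : 2 ≤ A) {φ : ℝ → ℝ} (hφ : WK C η A φ) (hX₁ : 0 ≤ X₁)
    (hw : ∀ n, w n ≠ 0 → (nm n : ℝ) ≤ X₁) (hX : 0 ≤ X) (hγ : IsPrim γ) (hγs : Squarefree γ)
    (hg₀ : IsPrim g₀) (hB : IsPrim B) (hW : ∀ g₂ ∈ S X, ∀ g₃ ∈ S X, 0 ≤ W g₂ g₃) (i : IX σ)
    (t : ℝ) :
    MoP (aW φ γ q g₀ δ w) E B (dl' σ i) X t Z W (P i) ≤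
      (1 + |t|) ^ A * MoC C η A σ (aG γ q g₀ δ w) E B X Z W P := by
  refine (MoP_win_le hC hη hη1 hA hφ hX₁ hw hX hγ hγs hg₀ hB hW t).trans ?_
  refine mul_le_mul_of_nonneg_left ?_ (by positivity)
  unfold MoC
  refine mul_le_mul_of_nonneg_left ?_ (by have := iA_nonneg A; positivity)
  exact Finset.single_le_sum (f := fun i : IX σ =>
    MoI A (aG γ q g₀ δ w) E B (dl' σ i) X Z W (P i)) (fun _ _ => MoI_nonneg hW)
    (Finset.mem_univ i)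

/-- **the moment hypothesis of `E2core`** -/
theorem MoH_win {w : Eis → ℂ} {X₁ : ℝ} {γ q g₀ δ E : Eis} {X : ℝ} {σ : Eis} {C η : ℝ} {A : ℕ}
    (hC : 0 ≤ C) (hη : 0 < η) (hη1 : η ≤ 1) (hA : 2 ≤ A) {φ : ℝ → ℝ} (hφ : WK C η A φ)
    (hX₁ : 0 ≤ X₁) (hw : ∀ n, w n ≠ 0 → (nm n : ℝ) ≤ X₁) (hX : 0 ≤ X) (hγ : IsPrim γ)
    (hγs : Squarefree γ) (hg₀ : IsPrim g₀) :
    MoH (aW φ γ q g₀ δ w) E σ X A (fun B Z => MoC C η A σ (aG γ q g₀ δ w) E B X Z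
      (fun g₂ _ => (nm g₂ : ℝ) ^ 2) (fun _ g₂ g₃ d => g₂ ^ 2 * g₃ ^ 3 ∣ d)) := by
  intro B hB i t Z _
  rw [MoF_eq]
  exact MoP_le_MoC (P := fun _ g₂ g₃ d => g₂ ^ 2 * g₃ ^ 3 ∣ d) hC hη hη1 hA hφ hX₁ hw hX hγ hγs
    hg₀ ((mem_S hX).1 hB).2.1 (fun _ _ _ _ => by positivity) i t

lemma Kid.mono {J : Type} {Φ : Fam J} {R : ℝ} {j : J} {γ g₀ Mq : Eis} {X : ℝ} {u v w : ℕ}
    {Λ Λ' : ℝ} {Q : Eis → Prop} {M : ℝ} (h : Kid Φ R j γ g₀ Mq X u v w Λ' Q M) (h0 : 0 ≤ Λ)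
    (hΛ : Λ ≤ Λ') : Kid Φ R j γ g₀ Mq X u v w Λ Q M := by
  classical
  unfold Kid at h ⊢
  intro h' hh j' hg hd hl hl2 g₃ hg₃
  refine le_trans ?_ (h h' hh j' hg hd hl hl2 g₃ hg₃)
  exact Finset.sum_le_sum_of_subset_of_nonneg (Finset.filter_subset_filter _
    (TP320.bl_mono h0 hΛ)) fun _ _ _ => sq_nonneg _

lemma Lam_mono {K K' : ℝ} (h : K ≤ K') (u w : ℕ) : Lam K u w ≤ Lam K' u w := by
  unfold Lam
  exact mul_le_mul_of_nonneg_right h (Real.exp_pos _).le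

open Classical in
/-- **`MoC` summed over a block** -/
theorem MoC_blk {J : Type} {Φ : Fam J} {R A : ℝ} (hΦ : Φ.Ok R A) {σ : Eis} (hσ : σ ≠ 0)
    {ε : ℝ} (hε : 0 < ε) :
    ∃ C : ℝ, 1 ≤ C ∧ ∀ (A' : ℕ), 2 * A + 2 ≤ A' → ∀ (Cφ η : ℝ), 0 < η →
      ∀ (j : J) (γ q g₀ δ E : Eis),
      IsPrim γ → Squarefree γ → IsPrim g₀ → E ≠ 0 →
      ∀ (T : Finset Eis) (Y : ℝ), 1 ≤ Y → (∀ y ∈ T, IsPrim y ∧ (nm y : ℝ) ≤ Y) →
      ∀ (u : ℕ) (X Z : ℝ), 1 ≤ X → 1 ≤ Z →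
      ∀ (W : Eis → Eis → ℝ) (Wb Mf : ℕ → ℕ → ℝ),
      (∀ g₂ ∈ S X, ∀ g₃ ∈ S X, 0 ≤ W g₂ g₃) →
      (∀ v < NX X, ∀ w < NX X, ∀ g₂ ∈ bk X v, ∀ g₃ ∈ bk X w, W g₂ g₃ ≤ Wb v w) →
      (∀ v < NX X, ∀ w < NX X, 0 ≤ Wb v w) → (∀ v < NX X, ∀ w < NX X, 0 ≤ Mf v w) →
      ∀ (P : Eis → Eis → IX σ → Eis → Eis → Eis → Prop) (Q : Eis → Prop),
      (∀ y B i g₂ g₃ d, P y B i g₂ g₃ d → g₂ ^ 2 * g₃ ^ 3 ∣ d) →
      (∀ y ∈ T, ∀ B ∈ bk X u, ∀ i, ∀ g₂ ∈ S X, ∀ g₃ ∈ S X, ∀ m, IsPrim m →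
        P y B i g₂ g₃ (g₂ ^ 2 * g₃ ^ 3 * m) → Q (E * y * dl' σ i * (m * (g₂ * B) ^ 2))) →
      (∀ v < NX X, ∀ w < NX X, 0 < Wb v w → Kid Φ R j γ g₀ (q * (δ * (g₀ * γ))) X u v w
        (Lam (nm E * dmx σ * Y * Z) u w) Q (Mf v w)) →
      ∑ y ∈ T, ∑ B ∈ bk X u, MoC Cφ η A' σ (aG γ q g₀ δ (Φ.w j)) (E * y) B X Z W (P y B) ≤
        C * (Cφ ^ 2 * iA A' * (η * (η ^ A')⁻¹)) *
          (nm γ * nm g₀ * nm E * X * Y * Z) ^ ε * Φ.ht j ^ 2 *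
          ∑ v ∈ Finset.range (NX X), ∑ w ∈ Finset.range (NX X),
            Wb v w * Real.exp ((w : ℝ) / 3) * Mf v w := by
  obtain ⟨C, hC, hs⟩ := MoI_blk hΦ hε
  set c : ℝ := (Fintype.card (IX σ) : ℝ) with hc
  have hc1 : 1 ≤ c := by
    rw [hc]
    have : 0 < Fintype.card (IX σ) := Fintype.card_pos_iff.2 ⟨none⟩
    exact_mod_cast this
  have hd1 := one_le_dmx hσ
  have hdε : 1 ≤ dmx σ ^ ε := Real.one_le_rpow hd1 hε.le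
  refine ⟨C * c * dmx σ ^ ε, by nlinarith [one_le_mul_of_one_le_of_one_le hC hc1], ?_⟩
  intro A' hA' Cφ η hη j γ q g₀ δ E hγ hγs hg₀ hE T Y hY hT u X Z hX hZ W Wb Mf hW hWb hWb0 hMf
    P Q hP hQ hKid
  have hC0 : 0 ≤ C := by linarith
  have hp0 : 0 ≤ Cφ ^ 2 * iA A' * (η * (η ^ A')⁻¹) := by
    have := iA_nonneg A'; positivity
  set L : ℝ := ∑ v ∈ Finset.range (NX X), ∑ w ∈ Finset.range (NX X),
      Wb v w * Real.exp ((w : ℝ) / 3) * Mf v w with hL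
  have hL0 : 0 ≤ L := by
    refine Finset.sum_nonneg fun v hv => Finset.sum_nonneg fun w hw => ?_
    rw [Finset.mem_range] at hv hw
    exact mul_nonneg (mul_nonneg (hWb0 v hv w hw) (Real.exp_pos _).le) (hMf v hv w hw)
  have hX0 : 0 ≤ X := by linarith
  have hY0 : 0 ≤ Y := by linarith
  have hZ0 : 0 ≤ Z := by linarith
  have e1 : ∑ y ∈ T, ∑ B ∈ bk X u, MoC Cφ η A' σ (aG γ q g₀ δ (Φ.w j)) (E * y) B X Z W (P y B) =
      (Cφ ^ 2 * iA A' * (η * (η ^ A')⁻¹)) * ∑ i : IX σ, ∑ y ∈ T, ∑ B ∈ bk X u,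
        MoI A' (aG γ q g₀ δ (Φ.w j)) (E * y) B (dl' σ i) X Z W (P y B i) := by
    unfold MoC
    rw [Finset.sum_comm, Finset.mul_sum]
    have : ∀ y ∈ T, ∑ B ∈ bk X u, Cφ ^ 2 * iA A' * (η * (η ^ A')⁻¹) * ∑ i : IX σ,
        MoI A' (aG γ q g₀ δ (Φ.w j)) (E * y) B (dl' σ i) X Z W (P y B i) =
        ∑ i : IX σ, Cφ ^ 2 * iA A' * (η * (η ^ A')⁻¹) * ∑ B ∈ bk X u,
          MoI A' (aG γ q g₀ δ (Φ.w j)) (E * y) B (dl' σ i) X Z W (P y B i) := by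
      intro y _
      rw [← Finset.mul_sum, ← Finset.mul_sum, Finset.sum_comm]
    rw [Finset.sum_comm, Finset.sum_congr rfl this, Finset.sum_comm]
    exact Finset.sum_congr rfl fun i _ => by rw [Finset.mul_sum]
  rw [e1]
  have e2 : ∀ i : IX σ, ∑ y ∈ T, ∑ B ∈ bk X u,
      MoI A' (aG γ q g₀ δ (Φ.w j)) (E * y) B (dl' σ i) X Z W (P y B i) ≤
      C * (dmx σ ^ ε * (nm γ * nm g₀ * nm E * X * Y * Z) ^ ε) * Φ.ht j ^ 2 * L := by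
    intro i
    have hi := dl_ne_zero hσ i
    have hnm : (nm (E * dl' σ i) : ℝ) ≤ nm E * dmx σ := by
      rw [nm_mul, Nat.cast_mul]
      exact mul_le_mul_of_nonneg_left (le_dmx σ i) (Nat.cast_nonneg _)
    have hnm0 : (0 : ℝ) ≤ nm (E * dl' σ i) := Nat.cast_nonneg _
    have h1 := hs A' hA' j γ q g₀ δ E (dl' σ i) hγ hγs hg₀ hE hi T Y hY hT u X Z hX hZ W Wb Mf
      hW hWb hWb0 hMf (fun y B => P y B i) Q (fun y B => hP y B i)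
      (fun y hy B hB => hQ y hy B hB i)
      (fun v hv w hw h0 => (hKid v hv w hw h0).mono (Lam_nonneg (by positivity) u w)
        (Lam_mono (by gcongr) u w))
    refine h1.trans ?_
    have h2 : ((nm γ : ℝ) * nm g₀ * nm (E * dl' σ i) * X * Y * Z) ^ ε ≤
        dmx σ ^ ε * (nm γ * nm g₀ * nm E * X * Y * Z) ^ ε := by
      rw [← Real.mul_rpow (by linarith) (by positivity)]
      refine Real.rpow_le_rpow (by positivity) ?_ hε.le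
      calc (nm γ : ℝ) * nm g₀ * nm (E * dl' σ i) * X * Y * Z
          ≤ nm γ * nm g₀ * (nm E * dmx σ) * X * Y * Z := by gcongr
        _ = _ := by ring
    gcongr
  refine (mul_le_mul_of_nonneg_left (Finset.sum_le_sum fun i _ => e2 i) hp0).trans
    (le_of_eq ?_)
  rw [Finset.sum_const, Finset.card_univ, nsmul_eq_mul]
  rw [hc]
  ring

/-! ### the direct side -/

/-- the coefficients of the linear form -/
def linT (al : Eis → ℂ) (E B σ r D : Eis) : ℂ :=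
  al (B * D) * (sy E D * conj (sy D B)) * ((n6 D : ℂ) * Gh (σ * r) D)

section mt

variable {w : Eis → ℂ} {X₁ : ℝ} {γ q g₀ δ E B σ r : Eis}

lemma aG_supp1 (hX : 0 ≤ X₁) (hw : ∀ n, w n ≠ 0 → (nm n : ℝ) ≤ X₁) (hγ : IsPrim γ)
    (hγs : Squarefree γ) (hg₀ : IsPrim g₀) (hB : IsPrim B) :
    ∀ D, D ∉ S (nm γ * X₁) → aG γ q g₀ δ w (B * D) = 0 := by
  intro D hD
  have := aG_supp (q := q) (δ := δ) hX hw hγ hγs hg₀ hB isPrim_one D hD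
  rwa [one_mul] at this

lemma MTs_HF (hX : 0 ≤ X₁) (hw : ∀ n, w n ≠ 0 → (nm n : ℝ) ≤ X₁) (hγ : IsPrim γ)
    (hγs : Squarefree γ) (hg₀ : IsPrim g₀) (hB : IsPrim B) (s : ℝ) :
    ‖MTs (aG γ q g₀ δ w) E B σ r s‖ = ‖HF (S (nm γ * X₁)) (fun D => g₀ * B * D)
      (linT (aG γ q g₀ δ w) E B σ r) s‖ := by
  have h0 := aG_supp1 (q := q) (δ := δ) hX hw hγ hγs hg₀ hB
  have hX' : 0 ≤ (nm γ : ℝ) * X₁ := mul_nonneg (Nat.cast_nonneg _) hX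
  have e1 : MTs (aG γ q g₀ δ w) E B σ r s = ∑ D ∈ S (nm γ * X₁),
      linT (aG γ q g₀ δ w) E B σ r D * pw s (nm D) := by
    unfold MTs
    apply tsum_eq_sum
    intro D hD
    rw [h0 D hD]
    ring
  have e2 : HF (S (nm γ * X₁)) (fun D => g₀ * B * D) (linT (aG γ q g₀ δ w) E B σ r) s =
      pw s (nm (g₀ * B)) * MTs (aG γ q g₀ δ w) E B σ r s := by
    rw [e1, Finset.mul_sum]
    unfold Win813.HF
    refine Finset.sum_congr rfl fun D hD => ?_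
    rw [Win813.pw_split (mul_ne_zero hg₀.ne_zero hB.ne_zero) ((mem_S hX').1 hD).2.1.ne_zero s]
    ring
  rw [e2, norm_mul, Weight600.norm_pw, one_mul]

lemma MT_HW {φ : ℝ → ℝ} (hX : 0 ≤ X₁) (hw : ∀ n, w n ≠ 0 → (nm n : ℝ) ≤ X₁) (hγ : IsPrim γ)
    (hγs : Squarefree γ) (hg₀ : IsPrim g₀) (hB : IsPrim B) :
    ‖MT (aW φ γ q g₀ δ w) E B σ r‖ = ‖HW φ (S (nm γ * X₁)) (fun D => g₀ * B * D)
      (linT (aG γ q g₀ δ w) E B σ r) 0‖ := by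
  have h0 := aG_supp1 (q := q) (δ := δ) hX hw hγ hγs hg₀ hB
  have e1 : MT (aW φ γ q g₀ δ w) E B σ r = HW φ (S (nm γ * X₁)) (fun D => g₀ * B * D)
      (linT (aG γ q g₀ δ w) E B σ r) 0 := by
    unfold E2440.MT Win813.HW
    have e2 : ∀ D, aW φ γ q g₀ δ w (B * D) * (sy E D * conj (sy D B)) *
        ((n6 D : ℂ) * Gh (σ * r) D) = linT (aG γ q g₀ δ w) E B σ r D *
          ((φ (Real.log (nm (g₀ * B * D))) : ℂ) * pw 0 (nm (g₀ * B * D))) := by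
      intro D
      unfold aW linT
      rw [Weight600.pw_zero_left, mul_assoc g₀ B D]
      ring
    rw [tsum_congr e2]
    apply tsum_eq_sum
    intro D hD
    unfold linT
    rw [h0 D hD]
    ring
  rw [e1]

/-- **removal of the window on the direct side** -/
theorem MT_win {C η : ℝ} {A : ℕ} (hC : 0 ≤ C) (hη : 0 < η) (hA : 2 ≤ A) {φ : ℝ → ℝ}
    (hφ : WK C η A φ) (hX : 0 ≤ X₁) (hw : ∀ n, w n ≠ 0 → (nm n : ℝ) ≤ X₁) (hγ : IsPrim γ)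
    (hγs : Squarefree γ) (hg₀ : IsPrim g₀) (hB : IsPrim B) :
    Integrable (fun s => ew A η s * ‖MTs (aG γ q g₀ δ w) E B σ r s‖ ^ 2) ∧
    ‖MT (aW φ γ q g₀ δ w) E B σ r‖ ^ 2 ≤
      C ^ 2 * iA A * ∫ s, ew A η s * ‖MTs (aG γ q g₀ δ w) E B σ r s‖ ^ 2 := by
  have e1 : (fun s => ew A η s * ‖MTs (aG γ q g₀ δ w) E B σ r s‖ ^ 2) = fun s => ew A η s *
      ‖HF (S (nm γ * X₁)) (fun D => g₀ * B * D) (linT (aG γ q g₀ δ w) E B σ r) (0 + s)‖ ^ 2 := by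
    funext s
    rw [MTs_HF hX hw hγ hγs hg₀ hB, zero_add]
  rw [e1, MT_HW hX hw hγ hγs hg₀ hB]
  exact ⟨Win813.integrable_HF hA hη _ _ _ _, Win813.win_sq hC hη hA hφ _ _ _ 0⟩

end mt

open Classical in
/-- **the direct side with a window, one block** -/
theorem MT_win_blk {J : Type} {Φ : Fam J} {R A : ℝ} (hΦ : Φ.Ok R A) {ε : ℝ} (hε : 0 < ε) :
    ∃ C : ℝ, 1 ≤ C ∧ ∀ (A' : ℕ), 2 * A + 2 ≤ A' → ∀ (Cφ η : ℝ) (φ : ℝ → ℝ), 0 ≤ Cφ → 0 < η →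
      η ≤ 1 → WK Cφ η A' φ →
      ∀ (j : J) (γ q g₀ δ E σ : Eis), IsPrim γ → Squarefree γ → IsPrim g₀ →
      E ≠ 0 → σ ≠ 0 →
      ∀ (T : Finset Eis) (Rs : Eis → Finset Eis), (∀ y ∈ T, IsPrim y) →
      (∀ y ∈ T, ∀ r ∈ Rs y, r ≠ 0) →
      ∀ (u : ℕ) (X : ℝ), 0 ≤ X → ∀ Λ : ℝ, 0 ≤ Λ →
      (∀ y ∈ T, ∀ r ∈ Rs y, ∀ B ∈ bk X u,
        (nm σ : ℝ) * nm r * nm γ * ((nm E * nm y) ^ 2 * nm B) ≤ Λ) →
      ∀ M : ℝ, 0 ≤ M →
      (∀ h ∈ dvs γ, ∀ j', Φ.good j' → Φ.dom R j' j →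
        Φ.len j' ≤ Φ.len j - (Real.log (nm g₀) + (u : ℝ) / 3 - Real.log (nm h)) + R →
        Φ.len j - (Real.log (nm g₀) + (u : ℝ) / 3 - Real.log (nm h)) - R - 1 ≤ Φ.len j' →
        VG Λ (TP320.sq (q * (δ * (g₀ * γ))) (Φ.w j')) ≤ M * Φ.ht j' ^ 2) →
      ∑ y ∈ T, ∑ B ∈ bk X u, ∑ r ∈ Rs y,
        ‖MT (aW φ γ q g₀ δ (Φ.w j)) (E * y) B σ r‖ ^ 2 ≤
        C * (Cφ ^ 2 * iA A' * (η * (η ^ A')⁻¹)) *
          (nm γ * (nm g₀ * Real.exp ((u : ℝ) / 3)) * (1 + Λ)) ^ ε *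
          Real.exp (-(1 / 3) * (Φ.len j - Real.log (nm g₀) - (u : ℝ) / 3)) * M * Φ.ht j ^ 2 := by
  obtain ⟨C, hC, hs⟩ := mt_blk hΦ hε
  refine ⟨(iA 2 + 1) * C, by have := iA_nonneg 2; nlinarith, ?_⟩
  intro A' hA' Cφ η φ hCφ hη hη1 hφ j γ q g₀ δ E σ hγ hγs hg₀ hE hσ T Rs hT hRs u X hX Λ hΛ0 hΛ
    M hM hyp
  have hC0 : 0 ≤ C := by linarith
  have hA0 := hΦ.A0
  have hA2 : 2 ≤ A' := by
    have : (2 : ℝ) ≤ A' := by linarith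
    exact_mod_cast this
  have hR := hΦ.R0
  have hw1 : ∀ n, Φ.w j n ≠ 0 → (nm n : ℝ) ≤ Real.exp (Φ.len j + R) := by
    intro b hb
    have hb0 : (0 : ℝ) < nm b := by exact_mod_cast nm_pos.2 (hΦ.prim j b hb).ne_zero
    rw [← Real.log_le_iff_le_exp hb0]
    have := (abs_le.1 (hΦ.supp j b hb)).2
    linarith
  set Bd : ℝ := C * (nm γ * (nm g₀ * Real.exp ((u : ℝ) / 3)) * (1 + Λ)) ^ ε *
          Real.exp (-(1 / 3) * (Φ.len j - Real.log (nm g₀) - (u : ℝ) / 3)) * M *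
          Φ.ht j ^ 2 with hBd
  have hBd0 : 0 ≤ Bd := by rw [hBd]; positivity
  have hp0 : 0 ≤ Cφ ^ 2 * iA A' := by have := iA_nonneg A'; positivity
  set f : Eis → Eis → Eis → ℝ → ℝ := fun y B r s =>
    ‖MTs (aG γ q g₀ δ (Φ.w j)) (E * y) B σ r s‖ ^ 2 with hf
  have key : ∀ y, ∀ B ∈ bk X u, ∀ r, Integrable (fun s => ew A' η s * f y B r s) ∧
      ‖MT (aW φ γ q g₀ δ (Φ.w j)) (E * y) B σ r‖ ^ 2 ≤
        Cφ ^ 2 * iA A' * ∫ s, ew A' η s * f y B r s := fun y B hB r =>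
    MT_win hCφ hη hA2 hφ (Real.exp_pos _).le hw1 hγ hγs hg₀ (bk_prim hX hB)
  have e1 : ∑ y ∈ T, ∑ B ∈ bk X u, ∑ r ∈ Rs y, ∫ s, ew A' η s * f y B r s =
      ∫ s, ew A' η s * ∑ y ∈ T, ∑ B ∈ bk X u, ∑ r ∈ Rs y, f y B r s := by
    have e2 : (fun s => ew A' η s * ∑ y ∈ T, ∑ B ∈ bk X u, ∑ r ∈ Rs y, f y B r s) = fun s =>
        ∑ y ∈ T, ∑ B ∈ bk X u, ∑ r ∈ Rs y, ew A' η s * f y B r s := by
      funext s
      simp only [Finset.mul_sum]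
    rw [e2, integral_finsetSum _ fun y _ => integrable_finsetSum _ fun B hB =>
      integrable_finsetSum _ fun r _ => (key y B hB r).1]
    refine Finset.sum_congr rfl fun y _ => ?_
    rw [integral_finsetSum _ fun B hB => integrable_finsetSum _ fun r _ => (key y B hB r).1]
    refine Finset.sum_congr rfl fun B hB => ?_
    rw [integral_finsetSum _ fun r _ => (key y B hB r).1]
  have hint : Integrable fun s => ew A' η s * ∑ y ∈ T, ∑ B ∈ bk X u, ∑ r ∈ Rs y, f y B r s := by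
    have e2 : (fun s => ew A' η s * ∑ y ∈ T, ∑ B ∈ bk X u, ∑ r ∈ Rs y, f y B r s) = fun s =>
        ∑ y ∈ T, ∑ B ∈ bk X u, ∑ r ∈ Rs y, ew A' η s * f y B r s := by
      funext s
      simp only [Finset.mul_sum]
    rw [e2]
    exact integrable_finsetSum _ fun y _ => integrable_finsetSum _ fun B hB =>
      integrable_finsetSum _ fun r _ => (key y B hB r).1
  have h2 : ∫ s, ew A' η s * ∑ y ∈ T, ∑ B ∈ bk X u, ∑ r ∈ Rs y, f y B r s ≤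
      (η * (η ^ A')⁻¹) * (iA 2 * Bd) := by
    have e3 : (η * (η ^ A')⁻¹) * (iA 2 * Bd) =
        ∫ s : ℝ, (η * (η ^ A')⁻¹) * (((1 + |s|) ^ 2)⁻¹ * Bd) := by
      rw [integral_const_mul, integral_mul_const]
      rfl
    rw [e3]
    refine integral_mono hint (((integrable_base le_rfl).mul_const Bd).const_mul _) fun s => ?_
    have h3 : ∑ y ∈ T, ∑ B ∈ bk X u, ∑ r ∈ Rs y, f y B r s ≤ (1 + |s|) ^ (2 * A) * Bd := by
      refine (hs j γ q g₀ δ E σ hγ hγs hg₀ hE hσ T Rs hT hRs u X s hX Λ hΛ0 hΛ M hM hyp).trans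
        (le_of_eq ?_)
      rw [hBd]; ring
    have h4 : ew A' η s ≤ η * (η ^ A')⁻¹ * ((1 + |s|) ^ A')⁻¹ := by
      have := ew_le_shift (A := A') hη hη1 0 s
      simpa using this
    have hv : (1 : ℝ) ≤ 1 + |s| := by have := abs_nonneg s; linarith
    have hv0 : (0 : ℝ) < 1 + |s| := by linarith
    have h5 : ((1 + |s|) ^ A')⁻¹ * (1 + |s|) ^ (2 * A) ≤ ((1 + |s|) ^ 2)⁻¹ := by
      rw [inv_mul_le_iff₀ (by positivity), ← div_eq_mul_inv, le_div_iff₀ (by positivity),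
        ← Real.rpow_natCast (1 + |s|) 2, ← Real.rpow_natCast (1 + |s|) A',
        ← Real.rpow_add hv0]
      exact Real.rpow_le_rpow_of_exponent_le hv (by push_cast; linarith)
    have hf0 : 0 ≤ ∑ y ∈ T, ∑ B ∈ bk X u, ∑ r ∈ Rs y, f y B r s :=
      Finset.sum_nonneg fun _ _ => Finset.sum_nonneg fun _ _ =>
        Finset.sum_nonneg fun _ _ => sq_nonneg _
    calc ew A' η s * ∑ y ∈ T, ∑ B ∈ bk X u, ∑ r ∈ Rs y, f y B r s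
        ≤ (η * (η ^ A')⁻¹ * ((1 + |s|) ^ A')⁻¹) * ((1 + |s|) ^ (2 * A) * Bd) :=
          mul_le_mul h4 h3 hf0 (by positivity)
      _ = (η * (η ^ A')⁻¹) * ((((1 + |s|) ^ A')⁻¹ * (1 + |s|) ^ (2 * A)) * Bd) := by ring
      _ ≤ (η * (η ^ A')⁻¹) * (((1 + |s|) ^ 2)⁻¹ * Bd) :=
          mul_le_mul_of_nonneg_left (mul_le_mul_of_nonneg_right h5 hBd0) (by positivity)
  have h6 : ∑ y ∈ T, ∑ B ∈ bk X u, ∑ r ∈ Rs y,
        ‖MT (aW φ γ q g₀ δ (Φ.w j)) (E * y) B σ r‖ ^ 2 ≤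
      Cφ ^ 2 * iA A' * ∑ y ∈ T, ∑ B ∈ bk X u, ∑ r ∈ Rs y, ∫ s, ew A' η s * f y B r s := by
    rw [Finset.mul_sum]
    refine Finset.sum_le_sum fun y _ => ?_
    rw [Finset.mul_sum]
    refine Finset.sum_le_sum fun B hB => ?_
    rw [Finset.mul_sum]
    exact Finset.sum_le_sum fun r _ => (key y B hB r).2
  refine h6.trans ?_
  rw [e1]
  calc Cφ ^ 2 * iA A' * ∫ s, ew A' η s * ∑ y ∈ T, ∑ B ∈ bk X u, ∑ r ∈ Rs y, f y B r s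
      ≤ Cφ ^ 2 * iA A' * ((η * (η ^ A')⁻¹) * (iA 2 * Bd)) := mul_le_mul_of_nonneg_left h2 hp0
    _ ≤ Cφ ^ 2 * iA A' * ((η * (η ^ A')⁻¹) * ((iA 2 + 1) * Bd)) := by
        refine mul_le_mul_of_nonneg_left ?_ hp0
        refine mul_le_mul_of_nonneg_left ?_ (by positivity)
        exact mul_le_mul_of_nonneg_right (by linarith) hBd0
    _ = _ := by rw [hBd]; ring

end Crest.Agent.R017.MoF106
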