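import Crest.Agent.R017.E2zd_440
import Crest.Agent.R017.E2DHv_401
import Crest.Agent.R017.MoF7_106

/-!
# Row 17, E2: the sum over the cells (helper739)

* `Tb V e A c a` : the block of `j₂`, `Cell` : the non empty cells `(a, u, j)`
  (`j₂` in the block `a`, `B` in the block `u`, shell `j`), `Cell.rr`, `Cell.shell` : their range
* `cells_sum` : `∑ j₂, ∑ B, ∑ j, ∑ n` of any `F j₂ B j n ≥ 0` from the cells
* `GK_cells` : the weighted shell sums of helper440, `MT_cells` : the polar term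
* `Qs_cellsP`, `Qs_cells` : `∑ c, ∑ j₂, Qs` from the cells (any kernel with `0 ≤ ϑ, ϑd ≤ 1`),
  with the polar sum kept, resp. estimated over the blocks
-/

set_option autoImplicit false
set_option linter.unusedVariables false

noncomputable section

open Complex
open scoped ComplexConjugate

namespace Crest.Agent.R017.GKC739

open Crest.Agent.R012 Crest.Agent.R012.Eis Crest.Agent.R012.GaussLoc283
open Crest.Agent.R012.Mob705 hiding pb mem_pb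
open Crest.Agent.R012.Div277
open Crest.Agent.R012.LS2 (S mem_S)
open Crest.Agent.R017.X6C180 (Sg IX dl')
open Crest.Agent.R017.CM106 (sub CS FS)
open Crest.Agent.R017.H1401 (pb mem_pb DN WM HW)
open Crest.Agent.R017.MoF106 (MoP MoI MoC bk NX mem_bk sum_bk bk_lo bk_hi bk_nm_ge bk_nm_le
  bk_prim exp_two_thirds)
open Crest.Agent.R017.GrB829 (IsC)
open Crest.Agent.R017.E2440

/-! ### blocks and cells -/

lemma nm_C {c : Eis} (hc : c ∈ C4) : (1 : ℝ) ≤ nm c ∧ (nm c : ℝ) ≤ 27 := by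
  have h := mem_C4.mp hc
  have h1 : 1 ≤ nm c := nm_pos.mpr h.ne_zero
  have h2 : nm c ≤ 27 := by
    rcases h with rfl | rfl | rfl | rfl <;> decide
  exact ⟨by exact_mod_cast h1, by exact_mod_cast h2⟩

open Classical in
/-- the block of `j₂` -/
def Tb (V : ℝ) (e A c : Eis) (a : ℕ) : Finset Eis :=
  (bk (Real.sqrt V) a).filter (fun j₂ => 1 ≤ RR V e A c j₂)

lemma mem_Tb {V : ℝ} {e A c : Eis} {a : ℕ} {j₂ : Eis} :
    j₂ ∈ Tb V e A c a ↔ j₂ ∈ bk (Real.sqrt V) a ∧ 1 ≤ RR V e A c j₂ := by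
  classical
  unfold Tb
  rw [Finset.mem_filter]

lemma bk_S {X : ℝ} (hX : 0 ≤ X) {u : ℕ} {n : Eis} (h : n ∈ bk X u) : n ∈ S X := by
  rw [mem_S hX]
  exact ((mem_bk hX).1 h).1

lemma Tb_prim {V : ℝ} {e A c : Eis} {a : ℕ} {j₂ : Eis} (h : j₂ ∈ Tb V e A c a) : IsPrim j₂ :=
  bk_prim (Real.sqrt_nonneg V) (mem_Tb.1 h).1

open Classical in
lemma sum_Tb {V : ℝ} (hV : 1 ≤ V) (e A c : Eis) (f : Eis → ℝ) :
    ∑ j₂ ∈ (S (Real.sqrt V)).filter (fun j₂ => 1 ≤ RR V e A c j₂), f j₂ =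
      ∑ a ∈ Finset.range (NX (Real.sqrt V)), ∑ j₂ ∈ Tb V e A c a, f j₂ := by
  rw [Finset.sum_filter, sum_bk (Real.one_le_sqrt.2 hV)]
  refine Finset.sum_congr rfl fun a _ => ?_
  unfold Tb
  rw [Finset.sum_filter]

/-- the non empty cells -/
def Cell (T H V K X B0 : ℝ) (ν e A c : Eis) (a u j : ℕ) : Prop :=
  ∃ j₂ ∈ Tb V e A c a, ∃ B ∈ bk X u,
    j < NBf T H X (RR V e A c j₂) (K / nm (e * A * j₂)) B0 ν B

lemma one_le_nmR {x : Eis} (hx : x ≠ 0) : (1 : ℝ) ≤ nm x := by exact_mod_cast nm_pos.mpr hx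

lemma nm_eAj (e A j₂ : Eis) : (nm (e * A * j₂) : ℝ) = nm (e * A) * nm j₂ := by
  rw [nm_mul (e * A)]; push_cast; ring

lemma V_pos {V : ℝ} {e A c j₂ : Eis} (hR : 1 ≤ RR V e A c j₂) : 0 < V := by
  by_contra hV
  push Not at hV
  have : RR V e A c j₂ ≤ 0 := by
    unfold RR
    refine div_nonpos_of_nonpos_of_nonneg ?_ (by positivity)
    exact mul_nonpos_of_nonpos_of_nonneg hV (Nat.cast_nonneg _)
  linarith

/-- the length of `r` in a block -/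
lemma Tb_rr {V : ℝ} {e A c : Eis} (he : IsPrim e) (hA : IsPrim A) (hc : c ∈ C4) {a : ℕ}
    {j₂ : Eis} (h : j₂ ∈ Tb V e A c a) :
    RR V e A c j₂ ≤ V * nm (e * A) / (nm c * Real.exp ((a : ℝ) / 3) ^ 2) := by
  have hV := V_pos (mem_Tb.1 h).2
  have b1 := bk_nm_ge (Real.sqrt_nonneg V) (mem_Tb.1 h).1
  have hcn := (nm_C hc).1
  unfold RR
  have h0 : (0 : ℝ) ≤ nm (e * A) := Nat.cast_nonneg _
  refine div_le_div_of_nonneg_left (mul_nonneg hV.le h0) (by positivity) ?_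
  exact mul_le_mul_of_nonneg_left (pow_le_pow_left₀ (Real.exp_pos _).le b1 2) (by linarith)

lemma Cell.rr {T H V K X B0 : ℝ} {ν e A c : Eis} {a u j : ℕ} (he : IsPrim e) (hA : IsPrim A)
    (hc : c ∈ C4) (h : Cell T H V K X B0 ν e A c a u j) :
    1 ≤ V * nm (e * A) / (nm c * Real.exp ((a : ℝ) / 3) ^ 2) := by
  obtain ⟨j₂, hj₂, -⟩ := h
  exact (mem_Tb.1 hj₂).2.trans (Tb_rr he hA hc hj₂)

/-- **the shells of a cell** -/
lemma Cell.shell {T H V K X B0 : ℝ} {ν e A c : Eis} {a u j : ℕ} (hT : 1 ≤ T) (hH : 1 ≤ H)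
    (hK : 0 < K) (hX : 1 ≤ X) (hν : IsPrim ν) (he : IsPrim e) (hA : IsPrim A) (hc : c ∈ C4)
    (h : Cell T H V K X B0 ν e A c a u j) :
    (Real.exp ((u : ℝ) / 3) ≤ B0 ∧ (2 : ℝ) ^ j < 4 * T * H * (nm ν : ℝ) ^ 2 * X * V *
      (nm (e * A) : ℝ) ^ 2 * Real.exp ((u : ℝ) / 3) / (nm c * K * Real.exp ((a : ℝ) / 3))) ∨
    (B0 < Real.exp ((u : ℝ) / 3 + 1 / 3) ∧ (2 : ℝ) ^ j < 10 * K /
      (nm (e * A) * Real.exp ((a : ℝ) / 3) * Real.exp ((u : ℝ) / 3) ^ 2)) := by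
  obtain ⟨j₂, hj₂, B, hB, hj⟩ := h
  obtain ⟨hj₂, hR⟩ := mem_Tb.1 hj₂
  have hX0 : 0 ≤ X := by linarith
  have hs0 : 0 ≤ Real.sqrt V := Real.sqrt_nonneg V
  have pj := bk_prim hs0 hj₂
  have pB := bk_prim hX0 hB
  have b1 := bk_nm_ge hs0 hj₂
  have b2 := bk_nm_ge hX0 hB
  have b3 := bk_nm_le hX0 hB
  have hx : (0 : ℝ) < nm j₂ := by exact_mod_cast nm_pos.mpr pj.ne_zero
  have hb : (0 : ℝ) < nm B := by exact_mod_cast nm_pos.mpr pB.ne_zero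
  have hp : (0 : ℝ) < nm (e * A) := by exact_mod_cast nm_pos.mpr (he.mul hA).ne_zero
  have hcn : (0 : ℝ) < nm c := by linarith [(nm_C hc).1]
  have hV := V_pos hR
  have hA2 : 0 < K / nm (e * A * j₂) := by rw [nm_eAj]; positivity
  by_cases hBB : (nm B : ℝ) ≤ B0
  · refine Or.inl ⟨b2.trans hBB, ?_⟩
    have h1 := NBf_lt_dual hT hH hX hR hA2 hν pB.ne_zero hBB hj
    refine h1.trans_le ?_
    have e1 : 2 * T * (H * (RR V e A c j₂ * (nm ν : ℝ) ^ 2 * (X * nm B))) /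
        (K / nm (e * A * j₂)) = 2 * T * H * (nm ν : ℝ) ^ 2 * X * V * (nm (e * A) : ℝ) ^ 2 *
          nm B / (nm c * K * nm j₂) := by
      rw [nm_eAj]
      unfold RR
      field_simp
    rw [e1]
    have h2 : Real.exp ((u : ℝ) / 3 + 1 / 3) ≤ 2 * Real.exp ((u : ℝ) / 3) := by
      rw [Real.exp_add, mul_comm]
      refine mul_le_mul_of_nonneg_right ?_ (Real.exp_pos _).le
      refine le_trans (Real.exp_le_exp.2 ?_) exp_two_thirds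
      norm_num
    have h3 := b3.trans h2
    have hT0 : 0 < T := by linarith
    have hH0 : 0 < H := by linarith
    refine div_le_div₀ (by positivity) ?_ (by positivity)
      (mul_le_mul_of_nonneg_left b1 (by positivity))
    calc 2 * T * H * (nm ν : ℝ) ^ 2 * X * V * (nm (e * A) : ℝ) ^ 2 * nm B
        ≤ 2 * T * H * (nm ν : ℝ) ^ 2 * X * V * (nm (e * A) : ℝ) ^ 2 *
          (2 * Real.exp ((u : ℝ) / 3)) := mul_le_mul_of_nonneg_left h3 (by positivity)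
      _ = _ := by ring
  · push Not at hBB
    refine Or.inr ⟨hBB.trans_le b3, ?_⟩
    have h1 := NBf_lt_direct hA2 pB.ne_zero hBB hj
    refine h1.trans_le ?_
    have e1 : 10 * (K / nm (e * A * j₂) / (nm B : ℝ) ^ 2) =
        10 * K / (nm (e * A) * nm j₂ * (nm B : ℝ) ^ 2) := by
      rw [nm_eAj]
      field_simp
    rw [e1]
    refine div_le_div_of_nonneg_left (by positivity) (by positivity) ?_
    exact mul_le_mul (mul_le_mul_of_nonneg_left b1 hp.le)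
      (pow_le_pow_left₀ (Real.exp_pos _).le b2 2) (by positivity) (by positivity)

/-! ### the prefactors -/

lemma pref_eq {V K : ℝ} (hV : 0 < V) (hK : 0 < K) {e A c j₂ : Eis} (he : e ≠ 0) (hA : A ≠ 0)
    (hc : c ≠ 0) (hj : j₂ ≠ 0) :
    RR V e A c j₂ ^ (-(1 : ℝ) / 3) * (K / nm (e * A * j₂)) ^ ((2 : ℝ) / 3) =
      (nm c : ℝ) ^ ((1 : ℝ) / 3) * (V ^ (-(1 : ℝ) / 3) * K ^ ((2 : ℝ) / 3) / nm (e * A)) := by
  have hp : (0 : ℝ) < nm (e * A) := by exact_mod_cast nm_pos.mpr (mul_ne_zero he hA)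
  have hx : (0 : ℝ) < nm j₂ := by exact_mod_cast nm_pos.mpr hj
  have hcn : (0 : ℝ) < nm c := by exact_mod_cast nm_pos.mpr hc
  have hR : RR V e A c j₂ = V * nm (e * A) / (nm c * (nm j₂ : ℝ) ^ 2) := rfl
  have hR0 : 0 < RR V e A c j₂ := by rw [hR]; positivity
  have hK0 : 0 < K / nm (e * A * j₂) := by rw [nm_eAj]; positivity
  have l1 : Real.log (RR V e A c j₂) = Real.log V + Real.log (nm (e * A)) -
      (Real.log (nm c) + 2 * Real.log (nm j₂)) := by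
    rw [hR, Real.log_div (by positivity) (by positivity), Real.log_mul hV.ne' hp.ne',
      Real.log_mul hcn.ne' (by positivity), Real.log_pow]
    push_cast
    ring
  have l2 : Real.log (K / nm (e * A * j₂)) =
      Real.log K - (Real.log (nm (e * A)) + Real.log (nm j₂)) := by
    rw [nm_eAj, Real.log_div hK.ne' (by positivity), Real.log_mul hp.ne' hx.ne']
  have r6 : ((nm (e * A) : ℕ) : ℝ)⁻¹ = Real.exp (-Real.log (nm (e * A))) := by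
    rw [Real.exp_neg, Real.exp_log hp]
  rw [div_eq_mul_inv _ ((nm (e * A) : ℕ) : ℝ), r6, Real.rpow_def_of_pos hR0,
    Real.rpow_def_of_pos hK0, Real.rpow_def_of_pos hcn, Real.rpow_def_of_pos hV,
    Real.rpow_def_of_pos hK, l1, l2, ← Real.exp_add, ← Real.exp_add, ← Real.exp_add,
    ← Real.exp_add]
  congr 1
  ring

lemma pref_eq2 {V K : ℝ} (hV : 0 < V) (hK : 0 < K) {e A c j₂ : Eis} (he : e ≠ 0) (hA : A ≠ 0)
    (hc : c ≠ 0) (hj : j₂ ≠ 0) :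
    RR V e A c j₂ ^ (-(2 : ℝ) / 3) * (K / nm (e * A * j₂)) ^ ((4 : ℝ) / 3) =
      ((nm c : ℝ) ^ ((1 : ℝ) / 3) * (V ^ (-(1 : ℝ) / 3) * K ^ ((2 : ℝ) / 3) / nm (e * A))) ^ 2 := by
  have hp : (0 : ℝ) < nm (e * A) := by exact_mod_cast nm_pos.mpr (mul_ne_zero he hA)
  have hx : (0 : ℝ) < nm j₂ := by exact_mod_cast nm_pos.mpr hj
  have hcn : (0 : ℝ) < nm c := by exact_mod_cast nm_pos.mpr hc
  have hR0 : 0 ≤ RR V e A c j₂ := by unfold RR; positivity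
  have hK0 : 0 ≤ K / nm (e * A * j₂) := by positivity
  rw [← pref_eq hV hK he hA hc hj, mul_pow, ← Real.rpow_natCast (RR V e A c j₂ ^ (-(1 : ℝ) / 3)),
    ← Real.rpow_natCast ((K / nm (e * A * j₂)) ^ ((2 : ℝ) / 3)), ← Real.rpow_mul hR0,
    ← Real.rpow_mul hK0]
  congr 2 <;> · push_cast; ring

lemma rpow_third_le {x : ℝ} (h1 : 1 ≤ x) (h2 : x ≤ 27) : x ^ ((1 : ℝ) / 3) ≤ 27 := by
  calc x ^ ((1 : ℝ) / 3) ≤ x ^ (1 : ℝ) := Real.rpow_le_rpow_of_exponent_le h1 (by norm_num)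
    _ = x := Real.rpow_one x
    _ ≤ 27 := h2

/-! ### the sum over the cells -/

lemma swap4 {α β γ δ : Type*} (s : Finset α) (t : Finset β) (p : Finset γ) (q : Finset δ)
    (f : α → β → γ → δ → ℝ) : ∑ a ∈ s, ∑ b ∈ t, ∑ c ∈ p, ∑ d ∈ q, f a b c d =
      ∑ c ∈ p, ∑ d ∈ q, ∑ a ∈ s, ∑ b ∈ t, f a b c d := by
  have h1 : ∀ a b, ∑ c ∈ p, ∑ d ∈ q, f a b c d = ∑ y ∈ p ×ˢ q, f a b y.1 y.2 := fun a b =>
    (Finset.sum_product' p q (fun c d => f a b c d)).symm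
  have h2 : ∀ c d, ∑ a ∈ s, ∑ b ∈ t, f a b c d = ∑ x ∈ s ×ˢ t, f x.1 x.2 c d := fun c d =>
    (Finset.sum_product' s t (fun a b => f a b c d)).symm
  calc ∑ a ∈ s, ∑ b ∈ t, ∑ c ∈ p, ∑ d ∈ q, f a b c d
      = ∑ a ∈ s, ∑ b ∈ t, ∑ y ∈ p ×ˢ q, f a b y.1 y.2 :=
        Finset.sum_congr rfl fun a _ => Finset.sum_congr rfl fun b _ => h1 a b
    _ = ∑ x ∈ s ×ˢ t, ∑ y ∈ p ×ˢ q, f x.1 x.2 y.1 y.2 :=
        (Finset.sum_product' s t (fun a b => ∑ y ∈ p ×ˢ q, f a b y.1 y.2)).symm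
    _ = ∑ y ∈ p ×ˢ q, ∑ x ∈ s ×ˢ t, f x.1 x.2 y.1 y.2 := Finset.sum_comm
    _ = ∑ c ∈ p, ∑ d ∈ q, ∑ x ∈ s ×ˢ t, f x.1 x.2 c d :=
        Finset.sum_product' p q (fun c d => ∑ x ∈ s ×ˢ t, f x.1 x.2 c d)
    _ = _ := Finset.sum_congr rfl fun c _ => Finset.sum_congr rfl fun d _ => (h2 c d).symm

open Classical in
/-- **the sum over the cells** -/
theorem cells_sum {T H V K X B0 M : ℝ} {ν e A c : Eis} (hV : 1 ≤ V) (hX : 1 ≤ X) (hM : 0 ≤ M)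
    {Jm : ℕ} (hJ : ∀ j₂ ∈ S (Real.sqrt V), 1 ≤ RR V e A c j₂ → ∀ B ∈ S X,
      NBf T H X (RR V e A c j₂) (K / nm (e * A * j₂)) B0 ν B ≤ Jm)
    {D : Finset Eis} {F : Eis → Eis → ℕ → Eis → ℝ}
    (hF : ∀ j₂ ∈ S (Real.sqrt V), 1 ≤ RR V e A c j₂ → ∀ B ∈ S X, ∀ j n, 0 ≤ F j₂ B j n)
    (hcell : ∀ a u j, Cell T H V K X B0 ν e A c a u j → ∀ n ∈ D,
      (2 / 2 ^ j) * ((nm n : ℝ) * ∑ j₂ ∈ Tb V e A c a, ∑ B ∈ bk X u, F j₂ B j n) ≤ M) :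
    ∑ j₂ ∈ (S (Real.sqrt V)).filter (fun j₂ => 1 ≤ RR V e A c j₂), ∑ B ∈ S X,
      ∑ j ∈ Finset.range (NBf T H X (RR V e A c j₂) (K / nm (e * A * j₂)) B0 ν B),
        (2 / 2 ^ j) * ∑ n ∈ D, (nm n : ℝ) * F j₂ B j n ≤
      (NX (Real.sqrt V) : ℝ) * NX X * Jm * D.card * M := by
  have hs0 : 0 ≤ Real.sqrt V := Real.sqrt_nonneg V
  have hX0 : 0 ≤ X := by linarith
  set G : ℕ → ℕ → Eis → Eis → ℕ → Eis → ℝ := fun a u j₂ B j n =>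
    if Cell T H V K X B0 ν e A c a u j then (2 / 2 ^ j) * ((nm n : ℝ) * F j₂ B j n) else 0
    with hG
  have h1 : ∀ a u, ∀ j₂ ∈ Tb V e A c a, ∀ B ∈ bk X u,
      ∑ j ∈ Finset.range (NBf T H X (RR V e A c j₂) (K / nm (e * A * j₂)) B0 ν B),
        (2 / 2 ^ j) * ∑ n ∈ D, (nm n : ℝ) * F j₂ B j n ≤
      ∑ j ∈ Finset.range Jm, ∑ n ∈ D, G a u j₂ B j n := by
    intro a u j₂ hj₂ B hB
    obtain ⟨hj1, hj2⟩ := mem_Tb.1 hj₂
    have hjS := bk_S hs0 hj1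
    have hBS := bk_S hX0 hB
    have hG0 : ∀ j n, 0 ≤ G a u j₂ B j n := by
      intro j n
      simp only [hG]
      split_ifs
      · exact mul_nonneg (by positivity)
          (mul_nonneg (Nat.cast_nonneg _) (hF j₂ hjS hj2 B hBS j n))
      · exact le_rfl
    have e1 : ∑ j ∈ Finset.range (NBf T H X (RR V e A c j₂) (K / nm (e * A * j₂)) B0 ν B),
        (2 / 2 ^ j) * ∑ n ∈ D, (nm n : ℝ) * F j₂ B j n =
        ∑ j ∈ Finset.range (NBf T H X (RR V e A c j₂) (K / nm (e * A * j₂)) B0 ν B),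
          ∑ n ∈ D, G a u j₂ B j n := by
      refine Finset.sum_congr rfl fun j hjr => ?_
      rw [Finset.mul_sum]
      refine Finset.sum_congr rfl fun n _ => ?_
      simp only [hG]
      rw [if_pos ⟨j₂, hj₂, B, hB, Finset.mem_range.1 hjr⟩]
    rw [e1]
    exact Finset.sum_le_sum_of_subset_of_nonneg (Finset.range_mono (hJ j₂ hjS hj2 B hBS))
      fun j _ _ => Finset.sum_nonneg fun n _ => hG0 j n
  have h2 : ∀ a u j, ∀ n ∈ D, ∑ j₂ ∈ Tb V e A c a, ∑ B ∈ bk X u, G a u j₂ B j n ≤ M := by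
    intro a u j n hn
    by_cases hc : Cell T H V K X B0 ν e A c a u j
    · refine le_trans (le_of_eq ?_) (hcell a u j hc n hn)
      rw [Finset.mul_sum, Finset.mul_sum]
      refine Finset.sum_congr rfl fun j₂ _ => ?_
      rw [Finset.mul_sum, Finset.mul_sum]
      refine Finset.sum_congr rfl fun B _ => ?_
      simp only [hG]
      rw [if_pos hc]
    · have : ∑ j₂ ∈ Tb V e A c a, ∑ B ∈ bk X u, G a u j₂ B j n = 0 := by
        refine Finset.sum_eq_zero fun j₂ _ => Finset.sum_eq_zero fun B _ => ?_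
        simp only [hG]
        rw [if_neg hc]
      rw [this]
      exact hM
  rw [sum_Tb hV]
  calc ∑ a ∈ Finset.range (NX (Real.sqrt V)), ∑ j₂ ∈ Tb V e A c a, ∑ B ∈ S X,
        ∑ j ∈ Finset.range (NBf T H X (RR V e A c j₂) (K / nm (e * A * j₂)) B0 ν B),
          (2 / 2 ^ j) * ∑ n ∈ D, (nm n : ℝ) * F j₂ B j n
      ≤ ∑ a ∈ Finset.range (NX (Real.sqrt V)), ∑ j₂ ∈ Tb V e A c a,
        ∑ u ∈ Finset.range (NX X), ∑ B ∈ bk X u, ∑ j ∈ Finset.range Jm, ∑ n ∈ D,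
          G a u j₂ B j n := by
        refine Finset.sum_le_sum fun a _ => Finset.sum_le_sum fun j₂ hj₂ => ?_
        rw [sum_bk hX]
        exact Finset.sum_le_sum fun u _ => Finset.sum_le_sum fun B hB => h1 a u j₂ hj₂ B hB
    _ = ∑ a ∈ Finset.range (NX (Real.sqrt V)), ∑ u ∈ Finset.range (NX X),
        ∑ j ∈ Finset.range Jm, ∑ n ∈ D, ∑ j₂ ∈ Tb V e A c a, ∑ B ∈ bk X u,
          G a u j₂ B j n := by
        refine Finset.sum_congr rfl fun a _ => ?_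
        rw [Finset.sum_comm]
        refine Finset.sum_congr rfl fun u _ => ?_
        exact swap4 _ _ _ _ fun j₂ B j n => G a u j₂ B j n
    _ ≤ ∑ _a ∈ Finset.range (NX (Real.sqrt V)), ∑ _u ∈ Finset.range (NX X),
        ∑ _j ∈ Finset.range Jm, ∑ _n ∈ D, M :=
        Finset.sum_le_sum fun a _ => Finset.sum_le_sum fun u _ => Finset.sum_le_sum fun j _ =>
          Finset.sum_le_sum fun n hn => h2 a u j n hn
    _ = _ := by
        simp only [Finset.sum_const, Finset.card_range, nsmul_eq_mul]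
        ring

lemma NX_le {ε : ℝ} (hε : 0 < ε) : ∃ C : ℝ, 1 ≤ C ∧ ∀ X Q : ℝ, 1 ≤ X → X ≤ Q →
    (NX X : ℝ) ≤ C * Q ^ ε := by
  have hinv : 0 < ε⁻¹ := by positivity
  refine ⟨3 * ε⁻¹ + 1, by linarith, ?_⟩
  intro X Q hX hXQ
  have hQ0 : 0 < Q := by linarith
  have h1 : (NX X : ℝ) ≤ 3 * Real.log X + 1 := by
    unfold MoF106.NX
    push_cast
    have := Nat.floor_le (a := 3 * Real.log X) (by have := Real.log_nonneg hX; positivity)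
    linarith
  have h2 : Real.log X ≤ ε⁻¹ * Q ^ ε := by
    have h5 : Real.log X ≤ ε⁻¹ * X ^ ε := by
      have h := Real.log_le_rpow_div (by linarith : (0 : ℝ) ≤ X) hε
      rwa [div_eq_inv_mul] at h
    refine h5.trans (mul_le_mul_of_nonneg_left ?_ hinv.le)
    exact Real.rpow_le_rpow (by linarith) hXQ hε.le
  have h3 : 1 ≤ Q ^ ε := Real.one_le_rpow (by linarith) hε.le
  nlinarith

/-- the sizes of the parameters -/
structure Sz (Q T H V K X : ℝ) (ν e A c : Eis) : Prop where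
  T1 : 1 ≤ T
  TQ : T ≤ Q
  H1 : 1 ≤ H
  HQ : H ≤ Q
  V1 : 1 ≤ V
  VQ : V ≤ Q
  K0 : 0 < K
  Ki : K⁻¹ ≤ Q
  KQ : K ≤ Q
  X1 : 1 ≤ X
  XQ : X ≤ Q
  νp : IsPrim ν
  νQ : (nm ν : ℝ) ≤ Q
  ep : IsPrim e
  Ap : IsPrim A
  eAQ : (nm (e * A) : ℝ) ≤ Q
  cp : c ∈ C4

section

variable {Q T H V K X : ℝ} {ν e A c : Eis}

lemma Sz.Q1 (h : Sz Q T H V K X ν e A c) : 1 ≤ Q := h.T1.trans h.TQ

lemma Sz.j_le (h : Sz Q T H V K X ν e A c) {j₂ : Eis} (hj : j₂ ∈ S (Real.sqrt V)) :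
    (nm j₂ : ℝ) ≤ Q := by
  have h1 := ((mem_S (Real.sqrt_nonneg V)).1 hj).1
  refine h1.trans (le_trans ?_ h.VQ)
  have hV := h.V1
  calc Real.sqrt V ≤ Real.sqrt V * Real.sqrt V :=
        le_mul_of_one_le_left (Real.sqrt_nonneg V) (Real.one_le_sqrt.2 hV)
    _ = V := Real.mul_self_sqrt (by linarith)

lemma Sz.rr_le (h : Sz Q T H V K X ν e A c) {j₂ : Eis} (hj : IsPrim j₂) :
    RR V e A c j₂ ≤ Q ^ 2 := by
  unfold RR
  have h0 : (1 : ℝ) ≤ nm j₂ := one_le_nmR hj.ne_zero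
  have hc := (nm_C h.cp).1
  have hQ := h.Q1
  have h1 : (1 : ℝ) ≤ nm c * (nm j₂ : ℝ) ^ 2 :=
    one_le_mul_of_one_le_of_one_le hc (one_le_pow₀ h0)
  have hV := h.V1
  refine (div_le_self (by positivity) h1).trans ?_
  calc V * nm (e * A) ≤ Q * Q := mul_le_mul h.VQ h.eAQ (Nat.cast_nonneg _) (by linarith)
    _ = Q ^ 2 := by ring

/-- a common bound of the number of shells -/
lemma Sz.shells (h : Sz Q T H V K X ν e A c) (B0 : ℝ) {j₂ : Eis} (hj : j₂ ∈ S (Real.sqrt V))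
    (hR : 1 ≤ RR V e A c j₂) {B : Eis} (hB : B ∈ S X) :
    NBf T H X (RR V e A c j₂) (K / nm (e * A * j₂)) B0 ν B ≤
      ⌈Real.logb 2 (20 * (Q ^ 10 * Q))⌉₊ := by
  have hQ := h.Q1
  have hX0 : 0 ≤ X := by linarith [h.X1]
  have hjp := ((mem_S (Real.sqrt_nonneg V)).1 hj).2.1
  obtain ⟨hBX, hBp, -⟩ := (mem_S hX0).1 hB
  have hp : (1 : ℝ) ≤ nm (e * A) := one_le_nmR (h.ep.mul h.Ap).ne_zero
  have hx : (1 : ℝ) ≤ nm j₂ := one_le_nmR hjp.ne_zero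
  have hK := h.K0
  have hKi := h.Ki
  have hE : (1 : ℝ) ≤ nm (e * A * j₂) := by
    rw [nm_eAj]; exact one_le_mul_of_one_le_of_one_le hp hx
  have hA2 : 0 < K / nm (e * A * j₂) := by positivity
  have hT := h.T1
  have hH := h.H1
  have hX1 := h.X1
  refine NBf_le h.T1 h.H1 h.X1 hR hA2 h.νp hBp.ne_zero hBX (by positivity) ?_ ?_
  · rw [div_div_eq_mul_div, div_eq_mul_inv]
    rw [nm_eAj]
    have h1 := h.rr_le hjp
    have h2 := h.j_le hj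
    have hT0 : 0 ≤ T := by linarith
    have hH0 : 0 ≤ H := by linarith
    have hR0 : 0 ≤ RR V e A c j₂ := by linarith
    have hTQ := h.TQ
    have hHQ := h.HQ
    have hνQ := h.νQ
    have hXQ := h.XQ
    have heQ := h.eAQ
    calc 2 * T * (H * (RR V e A c j₂ * (nm ν : ℝ) ^ 2 * X ^ 2)) * (nm (e * A) * nm j₂) * K⁻¹
        ≤ 2 * Q * (Q * (Q ^ 2 * Q ^ 2 * Q ^ 2)) * (Q * Q) * Q := by gcongr
      _ = 2 * (Q ^ 10 * Q) := by ring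
      _ ≤ 20 * (Q ^ 10 * Q) := by
          have : 0 ≤ Q ^ 10 * Q := by positivity
          linarith
  · have h1 : K / nm (e * A * j₂) ≤ K := div_le_self hK.le hE
    have h2 : Q ≤ Q ^ 10 * Q := le_mul_of_one_le_left (by linarith) (one_le_pow₀ hQ)
    have := h.KQ
    linarith

/-- the small powers -/
lemma Sz.rpow_le {ε : ℝ} (hε : 0 < ε) (h : Sz Q T H V K X ν e A c) (B0 : ℝ) {j₂ : Eis}
    (hj : j₂ ∈ S (Real.sqrt V)) (hR : 1 ≤ RR V e A c j₂) {B : Eis} (hB : B ∈ S X) {j : ℕ}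
    (hjN : j < NBf T H X (RR V e A c j₂) (K / nm (e * A * j₂)) B0 ν B) :
    (RR V e A c j₂ * 2 ^ j * X * nm ν) ^ (ε / 30) ≤ (20 : ℝ) ^ (ε / 30) * Q ^ (ε / 2) := by
  have hQ := h.Q1
  have hQ0 : 0 < Q := by linarith
  have hX0 : 0 ≤ X := by linarith [h.X1]
  have hR0 : 0 ≤ RR V e A c j₂ := by linarith
  have h3 : (2 : ℝ) ^ j < 20 * (Q ^ 10 * Q) :=
    two_pow_lt (by positivity) (hjN.trans_le (h.shells B0 hj hR hB))
  have h5 : RR V e A c j₂ * 2 ^ j * X * nm ν ≤ 20 * Q ^ (15 : ℝ) := by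
    have h6 := h.rr_le ((mem_S (Real.sqrt_nonneg V)).1 hj).2.1
    have hXQ := h.XQ
    have hνQ := h.νQ
    calc RR V e A c j₂ * 2 ^ j * X * nm ν ≤ Q ^ 2 * (20 * (Q ^ 10 * Q)) * Q * Q := by
          gcongr
      _ = 20 * Q ^ (15 : ℕ) := by ring
      _ = _ := by rw [← Real.rpow_natCast]; norm_num
  refine (Real.rpow_le_rpow (by positivity) h5 (by linarith)).trans (le_of_eq ?_)
  rw [Real.mul_rpow (by norm_num) (by positivity), ← Real.rpow_mul hQ0.le]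
  congr 2
  ring

lemma GKd_add (ϑ ϑd : ℝ → ℝ) (R X A B0 : ℝ) (ν : Eis) (N : Eis → ℕ) (f g : Eis → ℕ → ℝ) :
    GKd ϑ ϑd R X A B0 ν N (fun B j => f B j + g B j) =
      GKd ϑ ϑd R X A B0 ν N f + GKd ϑ ϑd R X A B0 ν N g := by
  classical
  unfold E2440.GKd
  rw [← Finset.sum_add_distrib]
  refine Finset.sum_congr rfl fun B _ => ?_
  rw [← Finset.sum_add_distrib]
  exact Finset.sum_congr rfl fun j _ => mul_add _ _ _

lemma GKd_le_one {ϑ ϑd : ℝ → ℝ} {R X A B0 : ℝ} {ν : Eis} {N : Eis → ℕ} {MD : Eis → ℕ → ℝ}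
    (hϑ : ∀ y : ℝ, 0 < y → 0 ≤ ϑ y ∧ ϑ y ≤ 1) (hϑd : ∀ y : ℝ, 0 < y → 0 ≤ ϑd y ∧ ϑd y ≤ 1)
    (hR : 0 < R) (hX : 0 < X) (hA : 0 < A) (hν : ν ≠ 0)
    (h0 : ∀ B ∈ S X, ∀ j < N B, 0 ≤ MD B j) :
    GKd ϑ ϑd R X A B0 ν N MD ≤ ∑ B ∈ S X, ∑ j ∈ Finset.range (N B), MD B j := by
  classical
  unfold E2440.GKd
  refine Finset.sum_le_sum fun B hB => Finset.sum_le_sum fun j hj => ?_
  have hb : (0 : ℝ) < nm B := by
    exact_mod_cast nm_pos.mpr ((mem_S hX.le).1 hB).2.1.ne_zero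
  have hn : (0 : ℝ) < nm ν := by exact_mod_cast nm_pos.mpr hν
  have h1 := h0 B hB j (Finset.mem_range.1 hj)
  refine mul_le_of_le_one_left h1 ?_
  split_ifs
  · obtain ⟨a, b⟩ := hϑ (R * (nm ν : ℝ) ^ 2 * (X / nm B) / (A / (nm B : ℝ) ^ 2 * 2 ^ j))
      (by positivity)
    exact pow_le_one₀ a b
  · obtain ⟨a, b⟩ := hϑd (2 ^ j / (A / (nm B : ℝ) ^ 2)) (by positivity)
    exact pow_le_one₀ a b

/-- the part of `GKd` which is not summed over cells -/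
lemma GK_Ex {ε : ℝ} (hε : 0 < ε) (h : Sz Q T H V K X ν e A c) (B0 : ℝ) (ϑ ϑd : ℝ → ℝ) {Cd : ℝ}
    (hCd : 0 ≤ Cd) {j₂ : Eis} (hj : j₂ ∈ S (Real.sqrt V)) (hR : 1 ≤ RR V e A c j₂)
    {Ex : Eis → ℕ → ℝ} (hEx : ∀ B j, 0 ≤ Ex B j) :
    GKd ϑ ϑd (RR V e A c j₂) X (K / nm (e * A * j₂)) B0 ν
      (NBf T H X (RR V e A c j₂) (K / nm (e * A * j₂)) B0 ν)
      (fun B j => Cd * (RR V e A c j₂ * 2 ^ j * X * nm ν) ^ (ε / 30) * (2 / 2 ^ j) * Ex B j) ≤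
    Cd * ((20 : ℝ) ^ (ε / 30) * Q ^ (ε / 2)) *
      GKd ϑ ϑd (RR V e A c j₂) X (K / nm (e * A * j₂)) B0 ν
        (NBf T H X (RR V e A c j₂) (K / nm (e * A * j₂)) B0 ν)
        (fun B j => (2 / 2 ^ j) * Ex B j) := by
  classical
  unfold E2440.GKd
  rw [Finset.mul_sum]
  refine Finset.sum_le_sum fun B hB => ?_
  rw [Finset.mul_sum]
  refine Finset.sum_le_sum fun j hjr => ?_
  have h1 := h.rpow_le hε B0 hj hR hB (Finset.mem_range.1 hjr)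
  have h2 : 0 ≤ (if (nm B : ℝ) ≤ B0 then
    ϑ (RR V e A c j₂ * (nm ν : ℝ) ^ 2 * (X / nm B) /
      (K / nm (e * A * j₂) / (nm B : ℝ) ^ 2 * 2 ^ j)) ^ 2 else
    ϑd (2 ^ j / (K / nm (e * A * j₂) / (nm B : ℝ) ^ 2)) ^ 2) := by
    split_ifs
    · exact sq_nonneg _
    · exact sq_nonneg _
  have h3 : 0 ≤ (2 / 2 ^ j : ℝ) * Ex B j := mul_nonneg (by positivity) (hEx B j)
  calc _ = (if (nm B : ℝ) ≤ B0 then
        ϑ (RR V e A c j₂ * (nm ν : ℝ) ^ 2 * (X / nm B) /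
          (K / nm (e * A * j₂) / (nm B : ℝ) ^ 2 * 2 ^ j)) ^ 2 else
        ϑd (2 ^ j / (K / nm (e * A * j₂) / (nm B : ℝ) ^ 2)) ^ 2) *
        ((Cd * (RR V e A c j₂ * 2 ^ j * X * nm ν) ^ (ε / 30)) * ((2 / 2 ^ j) * Ex B j)) := by
        ring
    _ ≤ (if (nm B : ℝ) ≤ B0 then
        ϑ (RR V e A c j₂ * (nm ν : ℝ) ^ 2 * (X / nm B) /
          (K / nm (e * A * j₂) / (nm B : ℝ) ^ 2 * 2 ^ j)) ^ 2 else
        ϑd (2 ^ j / (K / nm (e * A * j₂) / (nm B : ℝ) ^ 2)) ^ 2) *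
        ((Cd * ((20 : ℝ) ^ (ε / 30) * Q ^ (ε / 2))) * ((2 / 2 ^ j) * Ex B j)) := by
        refine mul_le_mul_of_nonneg_left ?_ h2
        exact mul_le_mul_of_nonneg_right (mul_le_mul_of_nonneg_left h1 hCd) h3
    _ = _ := by ring

end

open Classical in
/-- **the weighted shell sums from the cells** -/
theorem GK_cells {ε : ℝ} (hε : 0 < ε) : ∃ C : ℝ, 1 ≤ C ∧ ∀ (Q T H V K X : ℝ) (ν e A c : Eis),
    Sz Q T H V K X ν e A c → ∀ (B0 : ℝ) (ϑ ϑd : ℝ → ℝ), (∀ y : ℝ, 0 < y → 0 ≤ ϑ y ∧ ϑ y ≤ 1) →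
    (∀ y : ℝ, 0 < y → 0 ≤ ϑd y ∧ ϑd y ≤ 1) → ∀ Cd : ℝ, 0 ≤ Cd → ∀ F : Eis → Eis → ℕ → Eis → ℝ,
    (∀ j₂ ∈ S (Real.sqrt V), 1 ≤ RR V e A c j₂ → ∀ B ∈ S X, ∀ j n, 0 ≤ F j₂ B j n) →
    ∀ M : ℝ, 0 ≤ M → (∀ a u j, Cell T H V K X B0 ν e A c a u j → ∀ n ∈ dvs ν,
      (2 / 2 ^ j) * ((nm n : ℝ) * ∑ j₂ ∈ Tb V e A c a, ∑ B ∈ bk X u, F j₂ B j n) ≤ M) →
    ∑ j₂ ∈ (S (Real.sqrt V)).filter (fun j₂ => 1 ≤ RR V e A c j₂),
      RR V e A c j₂ ^ (-(1 : ℝ) / 3) * (K / nm (e * A * j₂)) ^ ((2 : ℝ) / 3) *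
        GKd ϑ ϑd (RR V e A c j₂) X (K / nm (e * A * j₂)) B0 ν
          (NBf T H X (RR V e A c j₂) (K / nm (e * A * j₂)) B0 ν)
          (fun B j => Cd * (RR V e A c j₂ * 2 ^ j * X * nm ν) ^ (ε / 30) * (2 / 2 ^ j) *
            ∑ n ∈ dvs ν, (nm n : ℝ) * F j₂ B j n) ≤
      C * Cd * Q ^ ε * (V ^ (-(1 : ℝ) / 3) * K ^ ((2 : ℝ) / 3) / nm (e * A)) * M := by
  have hε8 : 0 < ε / 8 := by linarith
  have hε30 : 0 < ε / 30 := by linarith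
  obtain ⟨C1, hC1, hNX⟩ := NX_le hε8
  obtain ⟨C2, hC2, hsh⟩ := shells_small hε8 10
  obtain ⟨C3, hC3, hτ⟩ := tau_le_rpow hε8
  set c20 : ℝ := (20 : ℝ) ^ (ε / 30) with hc20
  have hc20' : 1 ≤ c20 := Real.one_le_rpow (by norm_num) hε30.le
  refine ⟨27 * c20 * (C1 * C1 * (C2 + 1) * C3), ?_, ?_⟩
  · have h1 : 1 ≤ C1 * C1 * (C2 + 1) * C3 := one_le_mul_of_one_le_of_one_le
      (one_le_mul_of_one_le_of_one_le (one_le_mul_of_one_le_of_one_le hC1 hC1) (by linarith)) hC3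
    have h2 : (1 : ℝ) ≤ 27 * c20 := by linarith
    exact one_le_mul_of_one_le_of_one_le h2 h1
  intro Q T H V K X ν e A c hz B0 ϑ ϑd hϑ hϑd Cd hCd F hF M hM hcell
  have hQ := hz.Q1
  have hQ0 : 0 < Q := by linarith
  have hX1 := hz.X1
  have hX0 : 0 ≤ X := by linarith
  have hV0 : 0 < V := by linarith [hz.V1]
  have hK0 : 0 < K := hz.K0
  have hν1 : (1 : ℝ) ≤ nm ν := one_le_nmR hz.νp.ne_zero
  have hcn := nm_C hz.cp
  have hc0 : c ≠ 0 := (mem_C4.mp hz.cp).ne_zero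
  have hp : (0 : ℝ) < nm (e * A) := by exact_mod_cast nm_pos.mpr (hz.ep.mul hz.Ap).ne_zero
  set Jm : ℕ := ⌈Real.logb 2 (20 * (Q ^ 10 * Q))⌉₊ with hJm
  set Pf : ℝ := V ^ (-(1 : ℝ) / 3) * K ^ ((2 : ℝ) / 3) / nm (e * A) with hPf
  have hPf0 : 0 ≤ Pf := by positivity
  set L : ℝ := c20 * Q ^ (ε / 2) with hL
  have hL0 : 0 ≤ L := by positivity
  -- one `j₂`
  have step1 : ∀ j₂ ∈ (S (Real.sqrt V)).filter (fun j₂ => 1 ≤ RR V e A c j₂),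
      RR V e A c j₂ ^ (-(1 : ℝ) / 3) * (K / nm (e * A * j₂)) ^ ((2 : ℝ) / 3) *
        GKd ϑ ϑd (RR V e A c j₂) X (K / nm (e * A * j₂)) B0 ν
          (NBf T H X (RR V e A c j₂) (K / nm (e * A * j₂)) B0 ν)
          (fun B j => Cd * (RR V e A c j₂ * 2 ^ j * X * nm ν) ^ (ε / 30) * (2 / 2 ^ j) *
            ∑ n ∈ dvs ν, (nm n : ℝ) * F j₂ B j n) ≤
      27 * Pf * (Cd * L) * ∑ B ∈ S X,
        ∑ j ∈ Finset.range (NBf T H X (RR V e A c j₂) (K / nm (e * A * j₂)) B0 ν B),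
          (2 / 2 ^ j) * ∑ n ∈ dvs ν, (nm n : ℝ) * F j₂ B j n := by
    intro j₂ hj₂
    obtain ⟨hjS, hR⟩ := Finset.mem_filter.1 hj₂
    have hjp := ((mem_S (Real.sqrt_nonneg V)).1 hjS).2.1
    have hx : (0 : ℝ) < nm j₂ := by exact_mod_cast nm_pos.mpr hjp.ne_zero
    have hA2 : 0 < K / nm (e * A * j₂) := by rw [nm_eAj]; positivity
    have hR0 : 0 < RR V e A c j₂ := by linarith
    have hS0 : ∀ B ∈ S X, ∀ j, 0 ≤ ∑ n ∈ dvs ν, (nm n : ℝ) * F j₂ B j n := fun B hB j =>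
      Finset.sum_nonneg fun n _ => mul_nonneg (Nat.cast_nonneg _) (hF j₂ hjS hR B hB j n)
    rw [pref_eq hV0 hK0 hz.ep.ne_zero hz.Ap.ne_zero hc0 hjp.ne_zero]
    have h1 := GKd_le_one (ϑ := ϑ) (ϑd := ϑd) (R := RR V e A c j₂) (X := X)
      (A := K / nm (e * A * j₂)) (B0 := B0) (ν := ν)
      (N := NBf T H X (RR V e A c j₂) (K / nm (e * A * j₂)) B0 ν)
      (MD := fun B j => Cd * (RR V e A c j₂ * 2 ^ j * X * nm ν) ^ (ε / 30) * (2 / 2 ^ j) *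
            ∑ n ∈ dvs ν, (nm n : ℝ) * F j₂ B j n) hϑ hϑd hR0 (by linarith) hA2 hz.νp.ne_zero
      (fun B hB j _ => mul_nonneg (by positivity) (hS0 B hB j))
    have h2 : ∑ B ∈ S X,
        ∑ j ∈ Finset.range (NBf T H X (RR V e A c j₂) (K / nm (e * A * j₂)) B0 ν B),
          Cd * (RR V e A c j₂ * 2 ^ j * X * nm ν) ^ (ε / 30) * (2 / 2 ^ j) *
            ∑ n ∈ dvs ν, (nm n : ℝ) * F j₂ B j n ≤
        Cd * L * ∑ B ∈ S X,
        ∑ j ∈ Finset.range (NBf T H X (RR V e A c j₂) (K / nm (e * A * j₂)) B0 ν B),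
          (2 / 2 ^ j) * ∑ n ∈ dvs ν, (nm n : ℝ) * F j₂ B j n := by
      rw [Finset.mul_sum]
      refine Finset.sum_le_sum fun B hB => ?_
      rw [Finset.mul_sum]
      refine Finset.sum_le_sum fun j hj => ?_
      rw [Finset.mem_range] at hj
      have h4 : (RR V e A c j₂ * 2 ^ j * X * nm ν) ^ (ε / 30) ≤ L := hz.rpow_le hε B0 hjS hR hB hj
      have h7 : 0 ≤ (2 / 2 ^ j : ℝ) * ∑ n ∈ dvs ν, (nm n : ℝ) * F j₂ B j n :=
        mul_nonneg (by positivity) (hS0 B hB j)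
      calc Cd * (RR V e A c j₂ * 2 ^ j * X * nm ν) ^ (ε / 30) * (2 / 2 ^ j) *
            ∑ n ∈ dvs ν, (nm n : ℝ) * F j₂ B j n
          = (Cd * (RR V e A c j₂ * 2 ^ j * X * nm ν) ^ (ε / 30)) *
            ((2 / 2 ^ j) * ∑ n ∈ dvs ν, (nm n : ℝ) * F j₂ B j n) := by ring
        _ ≤ (Cd * L) * ((2 / 2 ^ j) * ∑ n ∈ dvs ν, (nm n : ℝ) * F j₂ B j n) :=
            mul_le_mul_of_nonneg_right (mul_le_mul_of_nonneg_left h4 hCd) h7
    have h8 : (nm c : ℝ) ^ ((1 : ℝ) / 3) ≤ 27 := rpow_third_le hcn.1 hcn.2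
    have h9 : 0 ≤ Cd * L * ∑ B ∈ S X,
        ∑ j ∈ Finset.range (NBf T H X (RR V e A c j₂) (K / nm (e * A * j₂)) B0 ν B),
          (2 / 2 ^ j) * ∑ n ∈ dvs ν, (nm n : ℝ) * F j₂ B j n :=
      mul_nonneg (by positivity) (Finset.sum_nonneg fun B hB => Finset.sum_nonneg fun j _ =>
        mul_nonneg (by positivity) (hS0 B hB j))
    calc (nm c : ℝ) ^ ((1 : ℝ) / 3) * Pf * _
        ≤ (nm c : ℝ) ^ ((1 : ℝ) / 3) * Pf * _ :=
          mul_le_mul_of_nonneg_left (h1.trans h2) (by positivity)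
      _ ≤ 27 * Pf * _ := mul_le_mul_of_nonneg_right (mul_le_mul_of_nonneg_right h8 hPf0) h9
      _ = _ := by ring
  refine (Finset.sum_le_sum step1).trans ?_
  rw [← Finset.mul_sum]
  have h1 := cells_sum (T := T) (H := H) (K := K) (B0 := B0) (ν := ν) (e := e) (A := A) (c := c)
    (D := dvs ν) hz.V1 hX1 hM (Jm := Jm) (fun j₂ hj hR B hB => hz.shells B0 hj hR hB) hF hcell
  refine (mul_le_mul_of_nonneg_left h1 (by positivity)).trans ?_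
  have hs1 : 1 ≤ Real.sqrt V := Real.one_le_sqrt.2 hz.V1
  have hsQ : Real.sqrt V ≤ Q := by
    refine le_trans ?_ hz.VQ
    calc Real.sqrt V ≤ Real.sqrt V * Real.sqrt V :=
          le_mul_of_one_le_left (Real.sqrt_nonneg V) hs1
      _ = V := Real.mul_self_sqrt hV0.le
  have k1 := hNX (Real.sqrt V) Q hs1 hsQ
  have k2 := hNX X Q hX1 hz.XQ
  have k3 : (Jm : ℝ) ≤ (C2 + 1) * Q ^ (ε / 8) := by
    have h2 := hsh Q hQ
    have h3 : 0 ≤ Q ^ (ε / 8) := by positivity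
    have h4 : (Jm : ℝ) + 1 ≤ C2 * Q ^ (ε / 8) := h2
    nlinarith
  have k4 : ((dvs ν).card : ℝ) ≤ C3 * Q ^ (ε / 8) := by
    refine (hτ ν hz.νp.ne_zero).trans (mul_le_mul_of_nonneg_left ?_ (by linarith))
    exact Real.rpow_le_rpow (Nat.cast_nonneg _) hz.νQ hε8.le
  have k5 : Q ^ ε = Q ^ (ε / 2) * (Q ^ (ε / 8) * Q ^ (ε / 8) * Q ^ (ε / 8) * Q ^ (ε / 8)) := by
    rw [← Real.rpow_add hQ0, ← Real.rpow_add hQ0, ← Real.rpow_add hQ0, ← Real.rpow_add hQ0]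
    congr 1
    ring
  have hq0 : 0 ≤ Q ^ (ε / 8) := by positivity
  have hC10 : 0 ≤ C1 := by linarith
  have hC30 : 0 ≤ C3 := by linarith
  calc 27 * Pf * (Cd * L) * ((NX (Real.sqrt V) : ℝ) * NX X * Jm * (dvs ν).card * M)
      ≤ 27 * Pf * (Cd * L) * ((C1 * Q ^ (ε / 8)) * (C1 * Q ^ (ε / 8)) *
        ((C2 + 1) * Q ^ (ε / 8)) * (C3 * Q ^ (ε / 8)) * M) := by gcongr
    _ = _ := by rw [k5, hL]; ring

open Classical in
/-- **the polar term from the blocks** -/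
theorem MT_cells {ε : ℝ} (hε : 0 < ε) : ∃ C : ℝ, 1 ≤ C ∧ ∀ (Q T H V K X : ℝ) (ν e A c : Eis),
    Sz Q T H V K X ν e A c → ∀ (B0 : ℝ) (Mt : Eis → Eis → ℝ),
    (∀ j₂ ∈ S (Real.sqrt V), 1 ≤ RR V e A c j₂ → ∀ B ∈ S X, 0 ≤ Mt j₂ B) →
    ∀ M : ℝ, 0 ≤ M → (∀ a u, (∃ j₂ ∈ Tb V e A c a, ∃ B ∈ bk X u, B0 < nm B) →
      Real.exp (-(4 / 3) * ((u : ℝ) / 3)) *
        ∑ j₂ ∈ Tb V e A c a, ∑ B ∈ bk X u, Mt j₂ B ≤ M) →
    ∑ j₂ ∈ (S (Real.sqrt V)).filter (fun j₂ => 1 ≤ RR V e A c j₂),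
      RR V e A c j₂ ^ (-(2 : ℝ) / 3) * (K / nm (e * A * j₂)) ^ ((4 : ℝ) / 3) *
        ∑ B ∈ (S X).filter (fun B => B0 < nm B), (nm B : ℝ) ^ (-(4 : ℝ) / 3) * Mt j₂ B ≤
      C * Q ^ ε * (V ^ (-(1 : ℝ) / 3) * K ^ ((2 : ℝ) / 3) / nm (e * A)) ^ 2 * M := by
  have hε2 : 0 < ε / 2 := by linarith
  obtain ⟨C1, hC1, hNX⟩ := NX_le hε2
  refine ⟨27 ^ 2 * (C1 * C1), ?_, ?_⟩
  · have h1 : 1 ≤ C1 * C1 := one_le_mul_of_one_le_of_one_le hC1 hC1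
    linarith
  intro Q T H V K X ν e A c hz B0 Mt hMt M hM hcell
  have hQ := hz.Q1
  have hQ0 : 0 < Q := by linarith
  have hX1 := hz.X1
  have hX0 : 0 ≤ X := by linarith
  have hV0 : 0 < V := by linarith [hz.V1]
  have hK0 : 0 < K := hz.K0
  have hcn := nm_C hz.cp
  have hc0 : c ≠ 0 := (mem_C4.mp hz.cp).ne_zero
  have hp : (0 : ℝ) < nm (e * A) := by exact_mod_cast nm_pos.mpr (hz.ep.mul hz.Ap).ne_zero
  have hs1 : 1 ≤ Real.sqrt V := Real.one_le_sqrt.2 hz.V1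
  set Pf : ℝ := V ^ (-(1 : ℝ) / 3) * K ^ ((2 : ℝ) / 3) / nm (e * A) with hPf
  have hPf0 : 0 ≤ Pf := by positivity
  have h8 : (nm c : ℝ) ^ ((1 : ℝ) / 3) ≤ 27 := rpow_third_le hcn.1 hcn.2
  have hg0 : ∀ a, ∀ j₂ ∈ Tb V e A c a, 0 ≤ ∑ B ∈ (S X).filter (fun B => B0 < nm B),
      (nm B : ℝ) ^ (-(4 : ℝ) / 3) * Mt j₂ B := by
    intro a j₂ hj₂
    obtain ⟨h1, h2⟩ := mem_Tb.1 hj₂
    exact Finset.sum_nonneg fun B hB => mul_nonneg (by positivity)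
      (hMt j₂ (bk_S (Real.sqrt_nonneg V) h1) h2 B (Finset.mem_filter.1 hB).1)
  rw [sum_Tb hz.V1]
  have step1 : ∑ a ∈ Finset.range (NX (Real.sqrt V)), ∑ j₂ ∈ Tb V e A c a,
      RR V e A c j₂ ^ (-(2 : ℝ) / 3) * (K / nm (e * A * j₂)) ^ ((4 : ℝ) / 3) *
        ∑ B ∈ (S X).filter (fun B => B0 < nm B), (nm B : ℝ) ^ (-(4 : ℝ) / 3) * Mt j₂ B ≤
      ∑ a ∈ Finset.range (NX (Real.sqrt V)), ∑ j₂ ∈ Tb V e A c a,
        (27 * Pf) ^ 2 * ∑ B ∈ (S X).filter (fun B => B0 < nm B),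
          (nm B : ℝ) ^ (-(4 : ℝ) / 3) * Mt j₂ B := by
    refine Finset.sum_le_sum fun a _ => Finset.sum_le_sum fun j₂ hj₂ => ?_
    rw [pref_eq2 hV0 hK0 hz.ep.ne_zero hz.Ap.ne_zero hc0 (Tb_prim hj₂).ne_zero]
    refine mul_le_mul_of_nonneg_right (pow_le_pow_left₀ (by positivity) ?_ 2) (hg0 a j₂ hj₂)
    exact mul_le_mul_of_nonneg_right h8 hPf0
  refine step1.trans ?_
  have step2 : ∀ a, ∑ j₂ ∈ Tb V e A c a, (27 * Pf) ^ 2 *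
      ∑ B ∈ (S X).filter (fun B => B0 < nm B), (nm B : ℝ) ^ (-(4 : ℝ) / 3) * Mt j₂ B ≤
      (27 * Pf) ^ 2 * (NX X * M) := by
    intro a
    rw [← Finset.mul_sum]
    refine mul_le_mul_of_nonneg_left ?_ (by positivity)
    have e1 : ∑ j₂ ∈ Tb V e A c a, ∑ B ∈ (S X).filter (fun B => B0 < nm B),
        (nm B : ℝ) ^ (-(4 : ℝ) / 3) * Mt j₂ B = ∑ u ∈ Finset.range (NX X),
        ∑ j₂ ∈ Tb V e A c a, ∑ B ∈ bk X u,
          if B0 < nm B then (nm B : ℝ) ^ (-(4 : ℝ) / 3) * Mt j₂ B else 0 := by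
      symm
      rw [Finset.sum_comm]
      refine Finset.sum_congr rfl fun j₂ _ => ?_
      rw [Finset.sum_filter, sum_bk hX1]
      rfl
    rw [e1]
    have h1 : ∀ u ∈ Finset.range (NX X), ∑ j₂ ∈ Tb V e A c a, ∑ B ∈ bk X u,
        (if B0 < nm B then (nm B : ℝ) ^ (-(4 : ℝ) / 3) * Mt j₂ B else 0) ≤ M := by
      intro u _
      by_cases hc : ∃ j₂ ∈ Tb V e A c a, ∃ B ∈ bk X u, B0 < nm B
      · refine le_trans ?_ (hcell a u hc)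
        rw [Finset.mul_sum]
        refine Finset.sum_le_sum fun j₂ hj₂ => ?_
        rw [Finset.mul_sum]
        refine Finset.sum_le_sum fun B hB => ?_
        obtain ⟨g1, g2⟩ := mem_Tb.1 hj₂
        have hM0 := hMt j₂ (bk_S (Real.sqrt_nonneg V) g1) g2 B (bk_S hX0 hB)
        have hb : (0 : ℝ) < nm B := by
          exact_mod_cast nm_pos.mpr (bk_prim hX0 hB).ne_zero
        split_ifs
        · refine mul_le_mul_of_nonneg_right ?_ hM0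
          have h2 := bk_nm_ge hX0 hB
          have h3 : (nm B : ℝ) ^ (-(4 : ℝ) / 3) ≤ Real.exp ((u : ℝ) / 3) ^ (-(4 : ℝ) / 3) :=
            Real.rpow_le_rpow_of_nonpos (Real.exp_pos _) h2 (by norm_num)
          refine h3.trans (le_of_eq ?_)
          rw [← Real.exp_mul]
          congr 1
          ring
        · exact mul_nonneg (Real.exp_pos _).le hM0
      · have : ∑ j₂ ∈ Tb V e A c a, ∑ B ∈ bk X u,
            (if B0 < nm B then (nm B : ℝ) ^ (-(4 : ℝ) / 3) * Mt j₂ B else 0) = 0 := by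
          refine Finset.sum_eq_zero fun j₂ hj₂ => Finset.sum_eq_zero fun B hB => ?_
          rw [if_neg fun h => hc ⟨j₂, hj₂, B, hB, h⟩]
        rw [this]
        exact hM
    refine (Finset.sum_le_sum h1).trans (le_of_eq ?_)
    rw [Finset.sum_const, Finset.card_range, nsmul_eq_mul]
  refine (Finset.sum_le_sum fun a _ => step2 a).trans ?_
  rw [Finset.sum_const, Finset.card_range, nsmul_eq_mul]
  have hsQ : Real.sqrt V ≤ Q := by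
    refine le_trans ?_ hz.VQ
    calc Real.sqrt V ≤ Real.sqrt V * Real.sqrt V :=
          le_mul_of_one_le_left (Real.sqrt_nonneg V) hs1
      _ = V := Real.mul_self_sqrt hV0.le
  have k1 := hNX (Real.sqrt V) Q hs1 hsQ
  have k2 := hNX X Q hX1 hz.XQ
  have k5 : Q ^ ε = Q ^ (ε / 2) * Q ^ (ε / 2) := by
    rw [← Real.rpow_add hQ0]
    congr 1
    ring
  have hC10 : 0 ≤ C1 := by linarith
  calc (NX (Real.sqrt V) : ℝ) * ((27 * Pf) ^ 2 * (NX X * M))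
      ≤ (C1 * Q ^ (ε / 2)) * ((27 * Pf) ^ 2 * ((C1 * Q ^ (ε / 2)) * M)) := by gcongr
    _ = _ := by rw [k5]; ring

lemma card_C4 : (C4.card : ℝ) ≤ 4 := by
  classical
  have h : C4.card ≤ 4 := by
    unfold E2440.C4
    exact Finset.card_le_four
  exact_mod_cast h

/-- the sizes inside a `Qs` -/
lemma sz_P {ε : ℝ} (hε : 0 < ε) {P : ℝ} (hP : 1 ≤ P) {H X V K : ℝ} (hH1 : 1 ≤ H) (hHP : H ≤ P)
    (hXP : X ≤ P) (hV1 : 1 ≤ V) (hVP : V ≤ P) (hK0 : 0 < K) (hKi : K⁻¹ ≤ P) (hKP : K ≤ P)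
    {δ e : Eis} (hδ : IsPrim δ) (hδP : (nm δ : ℝ) ≤ P) (he : IsPrim e) (heP : (nm e : ℝ) ≤ P)
    {y : Eis × Eis} (hy : y ∈ prs δ) {A : Eis} (hA : A ∈ pdiv y.1) (hyX : (nm y.1 : ℝ) ≤ X)
    {c : Eis} (hc : c ∈ C4) :
    Sz (P ^ (⌈ε⌉₊ + 2)) (P ^ ε) H V K (X / nm y.1) y.2 e A c := by
  have hy' := (mem_prs hδ).mp hy
  have hA' := (mem_pdiv hy'.1.ne_zero).mp hA
  have hP0 : 0 < P := by linarith
  have hy0 : (1 : ℝ) ≤ nm y.1 := one_le_nmR hy'.1.ne_zero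
  have hy2 : (1 : ℝ) ≤ nm y.2 := one_le_nmR hy'.2.1.ne_zero
  have hnδ' : (nm δ : ℝ) = nm y.1 * nm y.2 := by rw [← hy'.2.2, nm_mul]; push_cast; ring
  have hy1P : (nm y.1 : ℝ) ≤ P := by nlinarith
  have hy2P : (nm y.2 : ℝ) ≤ P := by nlinarith
  have hAP : (nm A : ℝ) ≤ P := by
    have h1 : nm A ≤ nm y.1 := nm_le_of_dvd hy'.1.ne_zero hA'.2
    have h2 : (nm A : ℝ) ≤ nm y.1 := by exact_mod_cast h1
    linarith
  have hX1 : 1 ≤ X / nm y.1 := by rwa [le_div_iff₀ (by linarith), one_mul]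
  have hXX : X / nm y.1 ≤ X := div_le_self (by linarith) hy0
  have hpow : ∀ m : ℕ, m ≤ ⌈ε⌉₊ + 2 → P ^ m ≤ P ^ (⌈ε⌉₊ + 2) := fun m hm =>
    pow_le_pow_right₀ hP hm
  have hPb : P ≤ P ^ (⌈ε⌉₊ + 2) := by simpa using hpow 1 (by omega)
  refine ⟨Real.one_le_rpow hP hε.le, ?_, hH1, hHP.trans hPb, hV1, hVP.trans hPb,
    hK0, hKi.trans hPb, hKP.trans hPb, hX1, (hXX.trans hXP).trans hPb, hy'.2.1,
    hy2P.trans hPb, he, hA'.1, ?_, hc⟩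
  · calc P ^ ε ≤ P ^ ((⌈ε⌉₊ : ℕ) : ℝ) :=
          Real.rpow_le_rpow_of_exponent_le hP (Nat.le_ceil _)
      _ = P ^ ⌈ε⌉₊ := Real.rpow_natCast _ _
      _ ≤ P ^ (⌈ε⌉₊ + 2) := hpow _ (by omega)
  · rw [nm_mul]
    push_cast
    calc (nm e : ℝ) * nm A ≤ P * P := mul_le_mul heP hAP (Nat.cast_nonneg _) hP0.le
      _ = P ^ 2 := by ring
      _ ≤ P ^ (⌈ε⌉₊ + 2) := hpow 2 (by omega)

open Classical in
/-- the sums `∑ r, ‖MT‖ ^ 2` of a cell (`Mt` in helper440's `QsND_le`) -/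
def MTs (α : Eis → ℂ) (δ e : Eis) (V : ℝ) (y : Eis × Eis) (A c j₂ B : Eis) : ℝ :=
  ∑ r ∈ (S (RR V e A c j₂)).filter (fun r => IsCoprime r y.2 ∧ RR V e A c j₂ / 2 < nm r),
    ‖MT (ag α δ y.1) (e * A * j₂) B c r‖ ^ 2

lemma MTs_nonneg (α : Eis → ℂ) (δ e : Eis) (V : ℝ) (y : Eis × Eis) (A c j₂ B : Eis) :
    0 ≤ MTs α δ e V y A c j₂ B := Finset.sum_nonneg fun _ _ => sq_nonneg _

lemma PJ_nn {X R A B0 : ℝ} (hR : 0 ≤ R) (hA : 0 ≤ A) {ν : Eis} {Mt : Eis → ℝ}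
    (hMt : ∀ B, 0 ≤ Mt B) : 0 ≤ PJ X R A B0 ν Mt := by
  unfold E2440.PJ
  split_ifs
  · exact mul_nonneg (mul_nonneg (Real.rpow_nonneg hR _) (Real.rpow_nonneg hA _))
      (Finset.sum_nonneg fun B _ => mul_nonneg (Real.rpow_nonneg (Nat.cast_nonneg _) _) (hMt B))
  · exact le_rfl

open Classical in
/-- the polar sum -/
def PTs (α : Eis → ℂ) (δ e : Eis) (V K X B0 : ℝ) (y : Eis × Eis) (A : Eis) : ℝ :=
  ∑ c ∈ C4, ∑ j₂ ∈ (S (Real.sqrt V)).filter (fun j₂ => 1 ≤ RR V e A c j₂),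
    PJ (X / nm y.1) (RR V e A c j₂) (K / nm (e * A * j₂)) B0 y.2 (MTs α δ e V y A c j₂)

lemma PTs_le {α : Eis → ℂ} {δ e : Eis} {V K X B0 : ℝ} {y : Eis × Eis} {A : Eis} (hV : 0 ≤ V)
    (hK : 0 ≤ K) : PTs α δ e V K X B0 y A ≤ ∑ c ∈ C4, ∑ j₂ ∈ S (Real.sqrt V),
      PJ (X / nm y.1) (RR V e A c j₂) (K / nm (e * A * j₂)) B0 y.2 (MTs α δ e V y A c j₂) := by
  unfold PTs
  refine Finset.sum_le_sum fun c _ => Finset.sum_le_sum_of_subset_of_nonneg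
    (Finset.filter_subset _ _) fun j₂ _ _ => ?_
  refine PJ_nn ?_ (by positivity) fun B => MTs_nonneg _ _ _ _ _ _ _ _ _
  unfold E2440.RR
  positivity

set_option maxHeartbeats 1000000 in
open Classical in
/-- **`∑ c, ∑ j₂, Qs` from the cells**, the polar sum kept.  `F c j₂ B j n` : the moments which
are summed over cells, `Ex c j₂ B j` : the others -/
theorem Qs_cellsP {ε : ℝ} (hε : 0 < ε) (a M' : ℕ) : ∃ (M : ℕ) (C : ℝ), 0 ≤ C ∧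
    ∀ P : ℝ, 1 ≤ P → ∀ (Jt : ℕ) (Ft : ℝ → ℂ) (cc H : ℝ) (ϑ ϑd : ℝ → ℝ)
    (om : ∀ σ : Eis, IX σ → ℝ → ℂ), (∀ σ ∈ C4, KDd σ Jt M Ft cc H ϑ ϑd (om σ)) →
    (∀ y : ℝ, 0 < y → ϑ y ≤ 1) → (∀ y : ℝ, 0 < y → ϑd y ≤ 1) → H ≤ P →
    ∀ X V K B0 : ℝ, X ≤ P → 1 ≤ V → V ≤ P → 0 < K → K⁻¹ ≤ P → K ≤ P → ∀ α : Eis → ℂ, FS α →
    (∀ n, α n ≠ 0 → Squarefree n) → (∀ n, α n ≠ 0 → X / 2 < nm n ∧ (nm n : ℝ) ≤ X) →
    (∀ n, ‖α n‖ ≤ P ^ a) → ∀ δ e : Eis, IsPrim δ → Squarefree δ → (nm δ : ℝ) ≤ P → IsPrim e →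
    (nm e : ℝ) ≤ P → ∀ y ∈ prs δ, ∀ A ∈ pdiv y.1, (nm y.1 : ℝ) ≤ X →
    ∀ (F : Eis → Eis → Eis → ℕ → Eis → ℝ) (Ex : Eis → Eis → Eis → ℕ → ℝ) (M0 : ℝ),
    0 ≤ M0 → (∀ c j₂ B j, 0 ≤ Ex c j₂ B j) →
    (∀ c ∈ C4, ∀ j₂ ∈ S (Real.sqrt V), 1 ≤ RR V e A c j₂ → ∀ B ∈ S (X / nm y.1), ∀ j n,
      0 ≤ F c j₂ B j n) →
    (∀ c ∈ C4, ∀ j₂ ∈ S (Real.sqrt V), 1 ≤ RR V e A c j₂ → ∀ B ∈ S (X / nm y.1),
      ∀ (i : IX c) (t : ℝ) (j : ℕ), j < NBf (P ^ (ε / 2)) H (X / nm y.1) (RR V e A c j₂)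
        (K / nm (e * A * j₂)) B0 y.2 B →
      ∑ n ∈ dvs y.2, (nm n : ℝ) * MoP (ag α δ y.1) (e * A * j₂) B (dl' c i) (X / nm y.1) t
        (2 ^ j) (WM (RR V e A c j₂) (2 ^ j / (nm n : ℝ) ^ 3))
        (fun g₂ g₃ d => DN n g₂ g₃ d ∧ (2 : ℝ) ^ j / 2 < nm d) ≤
      (1 + |t|) ^ Jt * (∑ n ∈ dvs y.2, (nm n : ℝ) * F c j₂ B j n + Ex c j₂ B j)) →
    (∀ c ∈ C4, ∀ l u j, Cell (P ^ (ε / 2)) H V K (X / nm y.1) B0 y.2 e A c l u j →
      ∀ n ∈ dvs y.2, (2 / 2 ^ j) * ((nm n : ℝ) * ∑ j₂ ∈ Tb V e A c l, ∑ B ∈ bk (X / nm y.1) u,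
        F c j₂ B j n) ≤ M0) →
    ∑ c ∈ C4, ∑ j₂ ∈ S (Real.sqrt V), Qs α δ e V K Ft y A c j₂ ≤ C * cc ^ 2 * P ^ (ε / 2) *
      (P ^ (ε / 2) * (V ^ (-(1 : ℝ) / 3) * K ^ ((2 : ℝ) / 3) / nm (e * A) * M0 +
        ∑ c ∈ C4, ∑ j₂ ∈ (S (Real.sqrt V)).filter (fun j₂ => 1 ≤ RR V e A c j₂),
          RR V e A c j₂ ^ (-(1 : ℝ) / 3) * (K / nm (e * A * j₂)) ^ ((2 : ℝ) / 3) *
            GKd ϑ ϑd (RR V e A c j₂) (X / nm y.1) (K / nm (e * A * j₂)) B0 y.2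
              (NBf (P ^ (ε / 2)) H (X / nm y.1) (RR V e A c j₂) (K / nm (e * A * j₂)) B0 y.2)
              (fun B j => (2 / 2 ^ j) * Ex c j₂ B j) + (P ^ M')⁻¹) +
        PTs α δ e V K X B0 y A) := by
  have hε2 : 0 < ε / 2 := by linarith
  set b : ℕ := ⌈ε / 2⌉₊ + 2 with hb
  have hb0 : (0 : ℝ) < b := by positivity
  set ε₂ : ℝ := ε / 2 / b with hε₂
  have hε₂0 : 0 < ε₂ := by positivity
  obtain ⟨M, C1, hC1, hQs⟩ := QsND_le hε2 a (M' + 1)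
  obtain ⟨C0, hC0, hdh⟩ := E2D401.dh_H1v (show 0 < ε₂ / 30 by positivity)
  obtain ⟨C2, hC2, hGK⟩ := GK_cells hε₂0
  set c20 : ℝ := (20 : ℝ) ^ (ε₂ / 30) with hc20
  have hc200 : 0 ≤ c20 := by positivity
  have hC00 : 0 ≤ C0 := by linarith
  have hC20 : 0 ≤ C2 := by linarith
  set Kc : ℝ := C2 * C0 + C0 * c20 + 100 with hKc
  have hKc0 : 0 ≤ Kc := by positivity
  refine ⟨M, 4 * (C1 * Kc), by positivity, ?_⟩
  intro P hP Jt Ft cc H ϑ ϑd om hKD hϑ1 hϑd1 hHP X V K B0 hXP hV1 hVP hK0 hKi hKP α hα hs hsp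
    hαP δ e hδ hδs hδP he heP y hy A hA hyX F Ex M0 hM0 hEx hF hMo hcell
  have hy' := (mem_prs hδ).mp hy
  have hA' := (mem_pdiv hy'.1.ne_zero).mp hA
  have hP0 : 0 < P := by linarith
  have hV0 : 0 < V := by linarith
  have hy0 : (1 : ℝ) ≤ nm y.1 := one_le_nmR hy'.1.ne_zero
  have hX1 : 1 ≤ X / nm y.1 := by rwa [le_div_iff₀ (by linarith), one_mul]
  have hsz : ∀ c ∈ C4, Sz (P ^ b) (P ^ (ε / 2)) H V K (X / nm y.1) y.2 e A c := fun c hc =>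
    sz_P hε2 hP (hKD c hc).kd.H1 hHP hXP hV1 hVP hK0 hKi hKP hδ hδP he heP hy hA hyX hc
  have hQe : (P ^ b) ^ ε₂ = P ^ (ε / 2) := by
    rw [← Real.rpow_natCast, ← Real.rpow_mul hP0.le, hε₂]
    congr 1
    field_simp
  have hPe1 : 1 ≤ P ^ (ε / 2) := Real.one_le_rpow hP hε2.le
  have hQe2 : (P ^ b) ^ (ε₂ / 2) ≤ P ^ (ε / 2) := by
    rw [← hQe]
    exact Real.rpow_le_rpow_of_exponent_le (one_le_pow₀ hP) (by linarith)
  set Pf : ℝ := V ^ (-(1 : ℝ) / 3) * K ^ ((2 : ℝ) / 3) / nm (e * A) with hPf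
  have hPf0 : 0 ≤ Pf := by positivity
  have hϑ : ∀ y : ℝ, 0 < y → 0 ≤ ϑ y ∧ ϑ y ≤ 1 := fun y hy =>
    ⟨(hKD 1 (mem_C4.mpr (Or.inl rfl))).kd.th0 y hy, hϑ1 y hy⟩
  have hϑd : ∀ y : ℝ, 0 < y → 0 ≤ ϑd y ∧ ϑd y ≤ 1 := fun y hy =>
    ⟨(hKD 1 (mem_C4.mpr (Or.inl rfl))).d0 y hy, hϑd1 y hy⟩
  -- the sums which are kept
  set Gc : Eis → ℝ := fun c =>
    ∑ j₂ ∈ (S (Real.sqrt V)).filter (fun j₂ => 1 ≤ RR V e A c j₂),
      RR V e A c j₂ ^ (-(1 : ℝ) / 3) * (K / nm (e * A * j₂)) ^ ((2 : ℝ) / 3) *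
        GKd ϑ ϑd (RR V e A c j₂) (X / nm y.1) (K / nm (e * A * j₂)) B0 y.2
          (NBf (P ^ (ε / 2)) H (X / nm y.1) (RR V e A c j₂) (K / nm (e * A * j₂)) B0 y.2)
          (fun B j => (2 / 2 ^ j) * Ex c j₂ B j) with hGc
  set Tc : Eis → ℝ := fun c =>
    ∑ j₂ ∈ (S (Real.sqrt V)).filter (fun j₂ => 1 ≤ RR V e A c j₂),
      PJ (X / nm y.1) (RR V e A c j₂) (K / nm (e * A * j₂)) B0 y.2 (MTs α δ e V y A c j₂)
    with hTc
  have hGP0 : ∀ c j₂, 0 ≤ GKd ϑ ϑd (RR V e A c j₂) (X / nm y.1) (K / nm (e * A * j₂)) B0 y.2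
      (NBf (P ^ (ε / 2)) H (X / nm y.1) (RR V e A c j₂) (K / nm (e * A * j₂)) B0 y.2)
      (fun B j => (2 / 2 ^ j) * Ex c j₂ B j) := by
    intro c j₂
    unfold E2440.GKd
    refine Finset.sum_nonneg fun B _ => Finset.sum_nonneg fun j _ => ?_
    refine mul_nonneg ?_ (mul_nonneg (by positivity) (hEx c j₂ B j))
    split_ifs
    · exact sq_nonneg _
    · exact sq_nonneg _
  have hRR0 : ∀ c j₂, 0 ≤ RR V e A c j₂ := fun c j₂ => by unfold E2440.RR; positivity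
  have hGc0 : ∀ c, 0 ≤ Gc c := fun c => Finset.sum_nonneg fun j₂ _ =>
    mul_nonneg (mul_nonneg (Real.rpow_nonneg (hRR0 c j₂) _) (by positivity)) (hGP0 c j₂)
  have hTc0 : ∀ c, 0 ≤ Tc c := fun c => Finset.sum_nonneg fun j₂ _ =>
    PJ_nn (hRR0 c j₂) (by positivity) fun B => MTs_nonneg _ _ _ _ _ _ _ _ _
  -- one `c`
  have one : ∀ c ∈ C4, ∑ j₂ ∈ S (Real.sqrt V), Qs α δ e V K Ft y A c j₂ ≤
      C1 * cc ^ 2 * P ^ (ε / 2) * (Kc * (P ^ (ε / 2) * (Pf * M0 + Gc c + (P ^ M')⁻¹) +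
        Tc c)) := by
    intro c hc
    have hz := hsz c hc
    have hcI := mem_C4.mp hc
    -- the terms with `RR < 1` vanish
    have e0 : ∑ j₂ ∈ S (Real.sqrt V), Qs α δ e V K Ft y A c j₂ =
        ∑ j₂ ∈ (S (Real.sqrt V)).filter (fun j₂ => 1 ≤ RR V e A c j₂),
          Qs α δ e V K Ft y A c j₂ := by
      symm
      refine Finset.sum_subset (Finset.filter_subset _ _) fun j₂ hj hj' => ?_
      have hR : RR V e A c j₂ < 1 := by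
        by_contra h0
        push Not at h0
        exact hj' (Finset.mem_filter.2 ⟨hj, h0⟩)
      unfold E2440.Qs
      refine Finset.sum_eq_zero fun r hr => ?_
      exfalso
      obtain ⟨h1, h2, -⟩ := (mem_S (hRR0 c j₂)).1 (Finset.mem_filter.1 hr).1
      have := one_le_nmR h2.ne_zero
      linarith
    rw [e0]
    -- the moments
    set Mo : Eis → Eis → ℕ → ℝ := fun j₂ B j =>
      ∑ n ∈ dvs y.2, (nm n : ℝ) * F c j₂ B j n + Ex c j₂ B j with hMoD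
    set tl : ℝ := (P ^ (M' + 1))⁻¹ with htl
    have htl0 : 0 ≤ tl := by positivity
    have h1 : ∀ j₂ ∈ (S (Real.sqrt V)).filter (fun j₂ => 1 ≤ RR V e A c j₂),
        Qs α δ e V K Ft y A c j₂ ≤ C1 * cc ^ 2 * P ^ (ε / 2) *
        (RR V e A c j₂ ^ (-(1 : ℝ) / 3) * (K / nm (e * A * j₂)) ^ ((2 : ℝ) / 3) *
          GKd ϑ ϑd (RR V e A c j₂) (X / nm y.1) (K / nm (e * A * j₂)) B0 y.2
            (NBf (P ^ (ε / 2)) H (X / nm y.1) (RR V e A c j₂) (K / nm (e * A * j₂)) B0 y.2)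
            (fun B j => C0 * (RR V e A c j₂ * 2 ^ j * (X / nm y.1) * nm y.2) ^ (ε₂ / 30) *
              (2 / 2 ^ j) * Mo j₂ B j) +
          PJ (X / nm y.1) (RR V e A c j₂) (K / nm (e * A * j₂)) B0 y.2 (MTs α δ e V y A c j₂) +
          tl) := by
      intro j₂ hj₂
      obtain ⟨hjS, hR⟩ := Finset.mem_filter.1 hj₂
      have hjp := ((mem_S (Real.sqrt_nonneg V)).1 hjS).2.1
      have hcf := cf_ag hα hs hδ hy
      refine hQs P hP Jt Ft cc H ϑ ϑd om hKD hHP X V K B0 hXP hVP hK0 hKi hKP α hα hs hsp hαP δ e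
        hδ hδs hδP he heP y hy A hA c hc j₂ hjp hR hyX _ (MTs α δ e V y A c j₂) ?_ ?_
      · refine hdh (isC_sg hcI) Jt hR hX1 hy'.2.1
          (hδs.squarefree_of_dvd (hy'.2.2 ▸ dvd_mul_left _ _)) hcf (fun n hn => ?_)
          (fun B hB i t j hj => hMo c hc j₂ hjS hR B hB i t j hj)
        have h2 := (hsp _ (ag_ne hn).2).2
        rw [nm_mul] at h2
        push_cast at h2
        rw [le_div_iff₀ (by linarith)]
        linarith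
      · intro B _ _
        exact le_rfl
    refine (Finset.sum_le_sum h1).trans ?_
    rw [← Finset.mul_sum, Finset.sum_add_distrib, Finset.sum_add_distrib]
    -- the first sum
    have s1 : ∑ j₂ ∈ (S (Real.sqrt V)).filter (fun j₂ => 1 ≤ RR V e A c j₂),
        RR V e A c j₂ ^ (-(1 : ℝ) / 3) * (K / nm (e * A * j₂)) ^ ((2 : ℝ) / 3) *
          GKd ϑ ϑd (RR V e A c j₂) (X / nm y.1) (K / nm (e * A * j₂)) B0 y.2
            (NBf (P ^ (ε / 2)) H (X / nm y.1) (RR V e A c j₂) (K / nm (e * A * j₂)) B0 y.2)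
            (fun B j => C0 * (RR V e A c j₂ * 2 ^ j * (X / nm y.1) * nm y.2) ^ (ε₂ / 30) *
              (2 / 2 ^ j) * Mo j₂ B j) ≤
        C2 * C0 * P ^ (ε / 2) * Pf * M0 + C0 * (c20 * P ^ (ε / 2)) * Gc c := by
      have h2 := hGK (P ^ b) (P ^ (ε / 2)) H V K (X / nm y.1) y.2 e A c hz B0 ϑ ϑd hϑ hϑd C0 hC00
        (F c) (hF c hc) M0 hM0 (hcell c hc)
      rw [hQe] at h2
      have h3 : ∀ j₂ ∈ (S (Real.sqrt V)).filter (fun j₂ => 1 ≤ RR V e A c j₂),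
          RR V e A c j₂ ^ (-(1 : ℝ) / 3) * (K / nm (e * A * j₂)) ^ ((2 : ℝ) / 3) *
          GKd ϑ ϑd (RR V e A c j₂) (X / nm y.1) (K / nm (e * A * j₂)) B0 y.2
            (NBf (P ^ (ε / 2)) H (X / nm y.1) (RR V e A c j₂) (K / nm (e * A * j₂)) B0 y.2)
            (fun B j => C0 * (RR V e A c j₂ * 2 ^ j * (X / nm y.1) * nm y.2) ^ (ε₂ / 30) *
              (2 / 2 ^ j) * Mo j₂ B j) ≤
          RR V e A c j₂ ^ (-(1 : ℝ) / 3) * (K / nm (e * A * j₂)) ^ ((2 : ℝ) / 3) *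
          GKd ϑ ϑd (RR V e A c j₂) (X / nm y.1) (K / nm (e * A * j₂)) B0 y.2
            (NBf (P ^ (ε / 2)) H (X / nm y.1) (RR V e A c j₂) (K / nm (e * A * j₂)) B0 y.2)
            (fun B j => C0 * (RR V e A c j₂ * 2 ^ j * (X / nm y.1) * nm y.2) ^ (ε₂ / 30) *
              (2 / 2 ^ j) * ∑ n ∈ dvs y.2, (nm n : ℝ) * F c j₂ B j n) +
          C0 * (c20 * P ^ (ε / 2)) *
          (RR V e A c j₂ ^ (-(1 : ℝ) / 3) * (K / nm (e * A * j₂)) ^ ((2 : ℝ) / 3) *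
          GKd ϑ ϑd (RR V e A c j₂) (X / nm y.1) (K / nm (e * A * j₂)) B0 y.2
          (NBf (P ^ (ε / 2)) H (X / nm y.1) (RR V e A c j₂) (K / nm (e * A * j₂)) B0 y.2)
          (fun B j => (2 / 2 ^ j) * Ex c j₂ B j)) := by
        intro j₂ hj₂
        obtain ⟨hjS, hR⟩ := Finset.mem_filter.1 hj₂
        have hp0 : 0 ≤ RR V e A c j₂ ^ (-(1 : ℝ) / 3) *
            (K / nm (e * A * j₂)) ^ ((2 : ℝ) / 3) :=
          mul_nonneg (Real.rpow_nonneg (hRR0 c j₂) _) (by positivity)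
        have e1 : (fun (B : Eis) (j : ℕ) =>
              C0 * (RR V e A c j₂ * 2 ^ j * (X / nm y.1) * nm y.2) ^ (ε₂ / 30) *
              (2 / 2 ^ j) * Mo j₂ B j) = fun B j =>
            (C0 * (RR V e A c j₂ * 2 ^ j * (X / nm y.1) * nm y.2) ^ (ε₂ / 30) *
              (2 / 2 ^ j) * ∑ n ∈ dvs y.2, (nm n : ℝ) * F c j₂ B j n) +
            (C0 * (RR V e A c j₂ * 2 ^ j * (X / nm y.1) * nm y.2) ^ (ε₂ / 30) *
              (2 / 2 ^ j) * Ex c j₂ B j) := by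
          funext B j
          rw [hMoD]
          ring
        rw [e1, GKd_add, mul_add]
        refine add_le_add le_rfl ?_
        have h4 := GK_Ex hε₂0 hz B0 ϑ ϑd hC00 hjS hR (Ex := Ex c j₂)
          (fun B j => hEx c j₂ B j)
        calc _ ≤ RR V e A c j₂ ^ (-(1 : ℝ) / 3) * (K / nm (e * A * j₂)) ^ ((2 : ℝ) / 3) *
              (C0 * (c20 * (P ^ b) ^ (ε₂ / 2)) *
                GKd ϑ ϑd (RR V e A c j₂) (X / nm y.1) (K / nm (e * A * j₂)) B0 y.2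
                (NBf (P ^ (ε / 2)) H (X / nm y.1) (RR V e A c j₂) (K / nm (e * A * j₂)) B0 y.2)
                (fun B j => (2 / 2 ^ j) * Ex c j₂ B j)) := mul_le_mul_of_nonneg_left h4 hp0
          _ ≤ RR V e A c j₂ ^ (-(1 : ℝ) / 3) * (K / nm (e * A * j₂)) ^ ((2 : ℝ) / 3) *
              (C0 * (c20 * P ^ (ε / 2)) *
                GKd ϑ ϑd (RR V e A c j₂) (X / nm y.1) (K / nm (e * A * j₂)) B0 y.2
                (NBf (P ^ (ε / 2)) H (X / nm y.1) (RR V e A c j₂) (K / nm (e * A * j₂)) B0 y.2)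
                (fun B j => (2 / 2 ^ j) * Ex c j₂ B j)) := by
              refine mul_le_mul_of_nonneg_left ?_ hp0
              refine mul_le_mul_of_nonneg_right ?_ (hGP0 c j₂)
              exact mul_le_mul_of_nonneg_left (mul_le_mul_of_nonneg_left hQe2 hc200) hC00
          _ = _ := by ring
      refine (Finset.sum_le_sum h3).trans ?_
      rw [Finset.sum_add_distrib, ← Finset.mul_sum]
      refine add_le_add (h2.trans (le_of_eq (by ring))) (le_of_eq rfl)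
    -- the tail
    have s3 : ∑ _j₂ ∈ (S (Real.sqrt V)).filter (fun j₂ => 1 ≤ RR V e A c j₂), tl ≤
        100 * (P ^ M')⁻¹ := by
      rw [Finset.sum_const, nsmul_eq_mul]
      have hs1 : 1 ≤ Real.sqrt V := Real.one_le_sqrt.2 hV1
      have h2 : (((S (Real.sqrt V)).filter (fun j₂ => 1 ≤ RR V e A c j₂)).card : ℝ) ≤
          100 * P := by
        have h3 : (((S (Real.sqrt V)).filter (fun j₂ => 1 ≤ RR V e A c j₂)).card : ℝ) ≤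
            (S (Real.sqrt V)).card := by
          exact_mod_cast Finset.card_le_card (Finset.filter_subset _ _)
        have h4 := card_S_le' hs1
        have h5 : Real.sqrt V ≤ P := by
          refine le_trans ?_ hVP
          calc Real.sqrt V ≤ Real.sqrt V * Real.sqrt V :=
                le_mul_of_one_le_left (Real.sqrt_nonneg V) hs1
            _ = V := Real.mul_self_sqrt hV0.le
        linarith
      calc _ ≤ (100 * P) * tl := mul_le_mul_of_nonneg_right h2 htl0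
        _ = 100 * (P ^ M')⁻¹ := by
            rw [htl, pow_succ]
            field_simp
    have hPM : 0 ≤ (P ^ M')⁻¹ := by positivity
    have hA0 : 0 ≤ C1 * cc ^ 2 * P ^ (ε / 2) := by positivity
    have hG := hGc0 c
    have hPe0 : 0 ≤ P ^ (ε / 2) := by positivity
    have t1 : 0 ≤ Pf * M0 := mul_nonneg hPf0 hM0
    have t3 : 0 ≤ Tc c := hTc0 c
    refine mul_le_mul_of_nonneg_left ?_ hA0
    have g1 : C2 * C0 * P ^ (ε / 2) * Pf * M0 ≤ Kc * (P ^ (ε / 2) * (Pf * M0)) := by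
      have : C2 * C0 ≤ Kc := by
        rw [hKc]; nlinarith [mul_nonneg hC00 hc200]
      calc C2 * C0 * P ^ (ε / 2) * Pf * M0 = C2 * C0 * (P ^ (ε / 2) * (Pf * M0)) := by ring
        _ ≤ Kc * (P ^ (ε / 2) * (Pf * M0)) :=
            mul_le_mul_of_nonneg_right this (by positivity)
    have g2 : C0 * (c20 * P ^ (ε / 2)) * Gc c ≤ Kc * (P ^ (ε / 2) * Gc c) := by
      have : C0 * c20 ≤ Kc := by
        rw [hKc]; nlinarith [mul_nonneg hC20 hC00]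
      calc C0 * (c20 * P ^ (ε / 2)) * Gc c = C0 * c20 * (P ^ (ε / 2) * Gc c) := by ring
        _ ≤ Kc * (P ^ (ε / 2) * Gc c) :=
            mul_le_mul_of_nonneg_right this (mul_nonneg hPe0 hG)
    have h5 : 100 ≤ Kc := by
      rw [hKc]; nlinarith [mul_nonneg hC20 hC00, mul_nonneg hC00 hc200]
    have g3 : Tc c ≤ Kc * Tc c :=
      le_mul_of_one_le_left t3 (by linarith)
    have g4 : 100 * (P ^ M')⁻¹ ≤ Kc * (P ^ (ε / 2) * (P ^ M')⁻¹) := by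
      calc 100 * (P ^ M')⁻¹ ≤ Kc * (P ^ M')⁻¹ := mul_le_mul_of_nonneg_right h5 hPM
        _ = Kc * (1 * (P ^ M')⁻¹) := by ring
        _ ≤ _ := mul_le_mul_of_nonneg_left (mul_le_mul_of_nonneg_right hPe1 hPM) hKc0
    calc _ ≤ (C2 * C0 * P ^ (ε / 2) * Pf * M0 + C0 * (c20 * P ^ (ε / 2)) * Gc c) +
          Tc c + 100 * (P ^ M')⁻¹ :=
          add_le_add (add_le_add s1 le_rfl) s3
      _ ≤ (Kc * (P ^ (ε / 2) * (Pf * M0)) + Kc * (P ^ (ε / 2) * Gc c)) +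
          Kc * Tc c + Kc * (P ^ (ε / 2) * (P ^ M')⁻¹) :=
          add_le_add (add_le_add (add_le_add g1 g2) g3) g4
      _ = _ := by ring
  refine (Finset.sum_le_sum one).trans ?_
  rw [← Finset.mul_sum, ← Finset.mul_sum, Finset.sum_add_distrib, ← Finset.mul_sum]
  have hPM : 0 ≤ (P ^ M')⁻¹ := by positivity
  have t1 : 0 ≤ Pf * M0 := mul_nonneg hPf0 hM0
  have hPe0 : 0 ≤ P ^ (ε / 2) := by positivity
  have hGs : 0 ≤ ∑ c ∈ C4, Gc c := Finset.sum_nonneg fun c _ => hGc0 c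
  have e5 : ∑ c ∈ C4, Tc c = PTs α δ e V K X B0 y A := rfl
  have h6 : 0 ≤ PTs α δ e V K X B0 y A := by
    rw [← e5]
    exact Finset.sum_nonneg fun c _ => hTc0 c
  have h4 : ∑ c ∈ C4, (Pf * M0 + Gc c + (P ^ M')⁻¹) ≤
      4 * (Pf * M0 + ∑ c ∈ C4, Gc c + (P ^ M')⁻¹) := by
    have e1 : ∑ c ∈ C4, (Pf * M0 + Gc c + (P ^ M')⁻¹) =
        (C4.card : ℝ) * (Pf * M0 + (P ^ M')⁻¹) + ∑ c ∈ C4, Gc c := by
      have e2 : ∀ c : Eis, Pf * M0 + Gc c + (P ^ M')⁻¹ =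
          (Pf * M0 + (P ^ M')⁻¹) + Gc c := fun c => by ring
      rw [Finset.sum_congr rfl fun c _ => e2 c, Finset.sum_add_distrib, Finset.sum_const,
        nsmul_eq_mul]
    rw [e1]
    have h5 := mul_le_mul_of_nonneg_right card_C4
      (show 0 ≤ Pf * M0 + (P ^ M')⁻¹ by linarith)
    linarith
  rw [e5]
  have hB0 : 0 ≤ C1 * cc ^ 2 * P ^ (ε / 2) := by positivity
  calc _ ≤ C1 * cc ^ 2 * P ^ (ε / 2) * (Kc * (P ^ (ε / 2) *
        (4 * (Pf * M0 + ∑ c ∈ C4, Gc c + (P ^ M')⁻¹)) + 4 * PTs α δ e V K X B0 y A)) := by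
        refine mul_le_mul_of_nonneg_left (mul_le_mul_of_nonneg_left (add_le_add
          (mul_le_mul_of_nonneg_left h4 hPe0) ?_) hKc0) hB0
        linarith
    _ = 4 * (C1 * Kc) * cc ^ 2 * P ^ (ε / 2) * (P ^ (ε / 2) *
        (Pf * M0 + ∑ c ∈ C4, Gc c + (P ^ M')⁻¹) + PTs α δ e V K X B0 y A) := by ring
    _ = _ := rfl

open Classical in
/-- **`∑ c, ∑ j₂, Qs` from the cells.**  `F c j₂ B j n` : the moments which are summed over cells,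
`Ex c j₂ B j` : the others -/
theorem Qs_cells {ε : ℝ} (hε : 0 < ε) (a M' : ℕ) : ∃ (M : ℕ) (C : ℝ), 0 ≤ C ∧
    ∀ P : ℝ, 1 ≤ P → ∀ (Jt : ℕ) (Ft : ℝ → ℂ) (cc H : ℝ) (ϑ ϑd : ℝ → ℝ)
    (om : ∀ σ : Eis, IX σ → ℝ → ℂ), (∀ σ ∈ C4, KDd σ Jt M Ft cc H ϑ ϑd (om σ)) →
    (∀ y : ℝ, 0 < y → ϑ y ≤ 1) → (∀ y : ℝ, 0 < y → ϑd y ≤ 1) → H ≤ P →
    ∀ X V K B0 : ℝ, X ≤ P → 1 ≤ V → V ≤ P → 0 < K → K⁻¹ ≤ P → K ≤ P → ∀ α : Eis → ℂ, FS α →
    (∀ n, α n ≠ 0 → Squarefree n) → (∀ n, α n ≠ 0 → X / 2 < nm n ∧ (nm n : ℝ) ≤ X) →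
    (∀ n, ‖α n‖ ≤ P ^ a) → ∀ δ e : Eis, IsPrim δ → Squarefree δ → (nm δ : ℝ) ≤ P → IsPrim e →
    (nm e : ℝ) ≤ P → ∀ y ∈ prs δ, ∀ A ∈ pdiv y.1, (nm y.1 : ℝ) ≤ X →
    ∀ (F : Eis → Eis → Eis → ℕ → Eis → ℝ) (Ex : Eis → Eis → Eis → ℕ → ℝ) (M0 M1 : ℝ),
    0 ≤ M0 → 0 ≤ M1 → (∀ c j₂ B j, 0 ≤ Ex c j₂ B j) →
    (∀ c ∈ C4, ∀ j₂ ∈ S (Real.sqrt V), 1 ≤ RR V e A c j₂ → ∀ B ∈ S (X / nm y.1), ∀ j n,
      0 ≤ F c j₂ B j n) →
    (∀ c ∈ C4, ∀ j₂ ∈ S (Real.sqrt V), 1 ≤ RR V e A c j₂ → ∀ B ∈ S (X / nm y.1),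
      ∀ (i : IX c) (t : ℝ) (j : ℕ), j < NBf (P ^ (ε / 2)) H (X / nm y.1) (RR V e A c j₂)
        (K / nm (e * A * j₂)) B0 y.2 B →
      ∑ n ∈ dvs y.2, (nm n : ℝ) * MoP (ag α δ y.1) (e * A * j₂) B (dl' c i) (X / nm y.1) t
        (2 ^ j) (WM (RR V e A c j₂) (2 ^ j / (nm n : ℝ) ^ 3))
        (fun g₂ g₃ d => DN n g₂ g₃ d ∧ (2 : ℝ) ^ j / 2 < nm d) ≤
      (1 + |t|) ^ Jt * (∑ n ∈ dvs y.2, (nm n : ℝ) * F c j₂ B j n + Ex c j₂ B j)) →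
    (∀ c ∈ C4, ∀ l u j, Cell (P ^ (ε / 2)) H V K (X / nm y.1) B0 y.2 e A c l u j →
      ∀ n ∈ dvs y.2, (2 / 2 ^ j) * ((nm n : ℝ) * ∑ j₂ ∈ Tb V e A c l, ∑ B ∈ bk (X / nm y.1) u,
        F c j₂ B j n) ≤ M0) →
    (y.2 = 1 → ∀ c ∈ C4, ∀ l u,
      (∃ j₂ ∈ Tb V e A c l, ∃ B ∈ bk (X / nm y.1) u, B0 < nm B) →
      Real.exp (-(4 / 3) * ((u : ℝ) / 3)) * ∑ j₂ ∈ Tb V e A c l, ∑ B ∈ bk (X / nm y.1) u,
        ∑ r ∈ (S (RR V e A c j₂)).filter (fun r => IsCoprime r y.2 ∧ RR V e A c j₂ / 2 < nm r),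
          ‖MT (ag α δ y.1) (e * A * j₂) B c r‖ ^ 2 ≤ M1) →
    ∑ c ∈ C4, ∑ j₂ ∈ S (Real.sqrt V), Qs α δ e V K Ft y A c j₂ ≤ C * cc ^ 2 * P ^ ε *
      (V ^ (-(1 : ℝ) / 3) * K ^ ((2 : ℝ) / 3) / nm (e * A) * M0 +
        (V ^ (-(1 : ℝ) / 3) * K ^ ((2 : ℝ) / 3) / nm (e * A)) ^ 2 * M1 +
        ∑ c ∈ C4, ∑ j₂ ∈ (S (Real.sqrt V)).filter (fun j₂ => 1 ≤ RR V e A c j₂),
          RR V e A c j₂ ^ (-(1 : ℝ) / 3) * (K / nm (e * A * j₂)) ^ ((2 : ℝ) / 3) *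
            GKd ϑ ϑd (RR V e A c j₂) (X / nm y.1) (K / nm (e * A * j₂)) B0 y.2
              (NBf (P ^ (ε / 2)) H (X / nm y.1) (RR V e A c j₂) (K / nm (e * A * j₂)) B0 y.2)
              (fun B j => (2 / 2 ^ j) * Ex c j₂ B j) + (P ^ M')⁻¹) := by
  have hε2 : 0 < ε / 2 := by linarith
  set b : ℕ := ⌈ε / 2⌉₊ + 2 with hb
  have hb0 : (0 : ℝ) < b := by positivity
  set ε₂ : ℝ := ε / 2 / b with hε₂
  have hε₂0 : 0 < ε₂ := by positivity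
  obtain ⟨M, C, hC, hmain⟩ := Qs_cellsP hε a M'
  obtain ⟨C3, hC3, hMT⟩ := MT_cells hε₂0
  have hC30 : 0 ≤ C3 := by linarith
  refine ⟨M, C * (4 * C3 + 1), by positivity, ?_⟩
  intro P hP Jt Ft cc H ϑ ϑd om hKD hϑ1 hϑd1 hHP X V K B0 hXP hV1 hVP hK0 hKi hKP α hα hs hsp
    hαP δ e hδ hδs hδP he heP y hy A hA hyX F Ex M0 M1 hM0 hM1 hEx hF hMo hcell hcellt
  have hP0 : 0 < P := by linarith
  have hV0 : 0 < V := by linarith
  have h1 := hmain P hP Jt Ft cc H ϑ ϑd om hKD hϑ1 hϑd1 hHP X V K B0 hXP hV1 hVP hK0 hKi hKP α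
    hα hs hsp hαP δ e hδ hδs hδP he heP y hy A hA hyX F Ex M0 hM0 hEx hF hMo hcell
  refine h1.trans ?_
  have hsz : ∀ c ∈ C4, Sz (P ^ b) (P ^ (ε / 2)) H V K (X / nm y.1) y.2 e A c := fun c hc =>
    sz_P hε2 hP (hKD c hc).kd.H1 hHP hXP hV1 hVP hK0 hKi hKP hδ hδP he heP hy hA hyX hc
  have hQe : (P ^ b) ^ ε₂ = P ^ (ε / 2) := by
    rw [← Real.rpow_natCast, ← Real.rpow_mul hP0.le, hε₂]
    congr 1
    field_simp
  set Pf : ℝ := V ^ (-(1 : ℝ) / 3) * K ^ ((2 : ℝ) / 3) / nm (e * A) with hPf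
  have hPf0 : 0 ≤ Pf := by positivity
  have h2 : PTs α δ e V K X B0 y A ≤ 4 * (C3 * P ^ (ε / 2) * Pf ^ 2 * M1) := by
    have h0 : 0 ≤ C3 * P ^ (ε / 2) * Pf ^ 2 * M1 := by positivity
    unfold PTs E2440.PJ
    by_cases hy1 : y.2 = 1
    · simp only [if_pos hy1]
      have h3 : ∀ c ∈ C4, ∑ j₂ ∈ (S (Real.sqrt V)).filter (fun j₂ => 1 ≤ RR V e A c j₂),
          RR V e A c j₂ ^ (-(2 : ℝ) / 3) * (K / nm (e * A * j₂)) ^ ((4 : ℝ) / 3) *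
          ∑ B ∈ (S (X / nm y.1)).filter (fun B => B0 < nm B), (nm B : ℝ) ^ (-(4 : ℝ) / 3) *
            MTs α δ e V y A c j₂ B ≤ C3 * P ^ (ε / 2) * Pf ^ 2 * M1 := by
        intro c hc
        have h4 := hMT (P ^ b) (P ^ (ε / 2)) H V K (X / nm y.1) y.2 e A c (hsz c hc) B0
          (fun j₂ B => MTs α δ e V y A c j₂ B)
          (fun _ _ _ _ _ => MTs_nonneg _ _ _ _ _ _ _ _ _) M1 hM1
          (fun l u h => hcellt hy1 c hc l u h)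
        rw [hQe] at h4
        exact h4
      refine (Finset.sum_le_sum h3).trans ?_
      rw [Finset.sum_const, nsmul_eq_mul]
      exact mul_le_mul_of_nonneg_right card_C4 h0
    · simp only [if_neg hy1, Finset.sum_const_zero]
      linarith
  set G : ℝ := ∑ c ∈ C4, ∑ j₂ ∈ (S (Real.sqrt V)).filter (fun j₂ => 1 ≤ RR V e A c j₂),
          RR V e A c j₂ ^ (-(1 : ℝ) / 3) * (K / nm (e * A * j₂)) ^ ((2 : ℝ) / 3) *
            GKd ϑ ϑd (RR V e A c j₂) (X / nm y.1) (K / nm (e * A * j₂)) B0 y.2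
              (NBf (P ^ (ε / 2)) H (X / nm y.1) (RR V e A c j₂) (K / nm (e * A * j₂)) B0 y.2)
              (fun B j => (2 / 2 ^ j) * Ex c j₂ B j) with hG
  have hG0 : 0 ≤ G := by
    refine Finset.sum_nonneg fun c _ => Finset.sum_nonneg fun j₂ _ => ?_
    have hR0 : 0 ≤ RR V e A c j₂ := by unfold E2440.RR; positivity
    refine mul_nonneg (mul_nonneg (Real.rpow_nonneg hR0 _) (by positivity)) ?_
    unfold E2440.GKd
    refine Finset.sum_nonneg fun B _ => Finset.sum_nonneg fun j _ => ?_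
    refine mul_nonneg ?_ (mul_nonneg (by positivity) (hEx c j₂ B j))
    split_ifs
    · exact sq_nonneg _
    · exact sq_nonneg _
  have hPM : 0 ≤ (P ^ M')⁻¹ := by positivity
  have t1 : 0 ≤ Pf * M0 := mul_nonneg hPf0 hM0
  have t2 : 0 ≤ Pf ^ 2 * M1 := mul_nonneg (by positivity) hM1
  have hPe0 : 0 ≤ P ^ (ε / 2) := by positivity
  have hPP : P ^ ε = P ^ (ε / 2) * P ^ (ε / 2) := by
    rw [← Real.rpow_add hP0]
    congr 1
    ring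
  calc C * cc ^ 2 * P ^ (ε / 2) * (P ^ (ε / 2) * (Pf * M0 + G + (P ^ M')⁻¹) +
        PTs α δ e V K X B0 y A)
      ≤ C * cc ^ 2 * P ^ (ε / 2) * (P ^ (ε / 2) * (Pf * M0 + G + (P ^ M')⁻¹) +
        4 * (C3 * P ^ (ε / 2) * Pf ^ 2 * M1)) :=
        mul_le_mul_of_nonneg_left (add_le_add le_rfl h2) (by positivity)
    _ = C * cc ^ 2 * P ^ (ε / 2) * (P ^ (ε / 2) * (Pf * M0 + G + (P ^ M')⁻¹ +
        4 * C3 * (Pf ^ 2 * M1))) := by ring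
    _ ≤ C * cc ^ 2 * P ^ (ε / 2) * (P ^ (ε / 2) * ((4 * C3 + 1) *
        (Pf * M0 + Pf ^ 2 * M1 + G + (P ^ M')⁻¹))) := by
        refine mul_le_mul_of_nonneg_left (mul_le_mul_of_nonneg_left ?_ hPe0) (by positivity)
        have h5 : 0 ≤ C3 * (Pf * M0 + G + (P ^ M')⁻¹) := mul_nonneg hC30 (by linarith)
        nlinarith
    _ = _ := by rw [hPP]; ring

end Crest.Agent.R017.GKC739
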