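import Crest.Agent.R017.MoL6_106

/-!
# Row 17, E2: list form of the error functionals, part 7 (helper106): merging

* `q4_al` : the quadruples merged into one frequency
* `q4_be` : the quadruples merged into the pairs `(k, b) = (y m, g₂ B)`, frequency `E τ k b²`
-/

set_option autoImplicit false

noncomputable section

open Finset
open scoped ComplexConjugate

namespace Crest.Agent.R017.MoL106

open Crest.Agent.R012
open Eis CharSum852 Gauss880 LS2 CR2 MelSep811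
open Crest.Agent.R017.H1401 (pb mem_pb)
open Crest.Agent.R017.MoF106
open Div277 (tau dvs mem_dvs tau_le_rpow)

/-- the range of `k = y m` -/
def Kb (Y Z : ℝ) (v w : ℕ) : ℝ := Y * (Z * Real.exp (-(2 * ((v : ℝ) / 3)) - w))

lemma Kb_nonneg {Y Z : ℝ} (hY : 0 ≤ Y) (hZ : 0 ≤ Z) (v w : ℕ) : 0 ≤ Kb Y Z v w := by
  unfold Kb; positivity

open Classical in
/-- the primary numbers of a block -/
def Bb (U : ℕ) : Finset Eis :=
  (primBall ⌊Real.exp ((U : ℝ) / 3 + 2 / 3)⌋₊).filter (fun b => Real.exp ((U : ℝ) / 3) ≤ nm b)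

open Classical in
lemma mem_Bb {U : ℕ} {b : Eis} : b ∈ Bb U ↔
    (IsPrim b ∧ (nm b : ℝ) ≤ Real.exp ((U : ℝ) / 3 + 2 / 3)) ∧ Real.exp ((U : ℝ) / 3) ≤ nm b := by
  unfold Bb
  rw [Finset.mem_filter, mem_primBall, Nat.le_floor_iff (Real.exp_pos _).le, and_comm (a := _ ≤ _)]

section
variable {T : Finset Eis} {X Z Y : ℝ} {u v w : ℕ} {P : Eis → Eis → Eis → Eis → Eis → Prop}
  {g₃ : Eis}

lemma Q4_m_le (hX : 0 ≤ X) (hZ : 0 ≤ Z) (hg₃ : g₃ ∈ bk X w) {x : I4}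
    (hx : x ∈ Q4 T X Z u v P g₃) :
    (nm x.2.2.2 : ℝ) ≤ Z * Real.exp (-(2 * ((v : ℝ) / 3)) - w) ∧
    (nm x.2.2.1 : ℝ) ^ 2 * nm x.2.2.2 ≤ Z * Real.exp (-(w : ℝ)) := by
  obtain ⟨⟨_, _, h2, h4⟩, h6, _⟩ := mem_Q4.1 hx
  have b6 : (nm (x.2.2.1 ^ 2 * g₃ ^ 3 * x.2.2.2) : ℝ) ≤ Z := ((mem_pb hZ).1 h6).1
  rw [nm_mul, nm_mul, nm_pow, nm_pow] at b6
  push_cast at b6
  have b3 := bk_nm_ge hX hg₃
  have b2 := bk_nm_ge hX h2
  have c3 : Real.exp (w : ℝ) ≤ (nm g₃ : ℝ) ^ 3 := by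
    have := pow_le_pow_left₀ (Real.exp_pos _).le b3 3
    rw [← Real.exp_nat_mul] at this
    have e : ((3 : ℕ) : ℝ) * ((w : ℝ) / 3) = w := by push_cast; ring
    rwa [e] at this
  have c2 : Real.exp (2 * ((v : ℝ) / 3)) ≤ (nm x.2.2.1 : ℝ) ^ 2 := by
    have := pow_le_pow_left₀ (Real.exp_pos _).le b2 2
    rw [← Real.exp_nat_mul] at this
    simpa using this
  have hm0 : (0 : ℝ) ≤ nm x.2.2.2 := Nat.cast_nonneg _
  have hg0 : (0 : ℝ) ≤ nm x.2.2.1 := Nat.cast_nonneg _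
  have e1 : (nm x.2.2.1 : ℝ) ^ 2 * nm x.2.2.2 * Real.exp (w : ℝ) ≤ Z := by
    calc (nm x.2.2.1 : ℝ) ^ 2 * nm x.2.2.2 * Real.exp (w : ℝ)
        ≤ (nm x.2.2.1 : ℝ) ^ 2 * nm x.2.2.2 * (nm g₃ : ℝ) ^ 3 :=
          mul_le_mul_of_nonneg_left c3 (by positivity)
      _ = (nm x.2.2.1 : ℝ) ^ 2 * (nm g₃ : ℝ) ^ 3 * nm x.2.2.2 := by ring
      _ ≤ Z := b6
  refine ⟨?_, ?_⟩
  · have e2 : -(2 * ((v : ℝ) / 3)) - w = -(2 * ((v : ℝ) / 3) + w) := by ring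
    rw [e2, Real.exp_neg, ← div_eq_mul_inv, le_div_iff₀ (Real.exp_pos _), Real.exp_add]
    calc (nm x.2.2.2 : ℝ) * (Real.exp (2 * ((v : ℝ) / 3)) * Real.exp (w : ℝ))
        = Real.exp (2 * ((v : ℝ) / 3)) * nm x.2.2.2 * Real.exp (w : ℝ) := by ring
      _ ≤ (nm x.2.2.1 : ℝ) ^ 2 * nm x.2.2.2 * Real.exp (w : ℝ) := by gcongr
      _ ≤ Z := e1
  · rw [Real.exp_neg, ← div_eq_mul_inv, le_div_iff₀ (Real.exp_pos _)]
    exact e1

open Classical in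
/-- **the quadruples merged into one frequency** -/
theorem q4_al {ε : ℝ} (hε : 0 < ε) : ∃ C : ℝ, 1 ≤ C ∧
    ∀ (T : Finset Eis) (X Z Y : ℝ) (u v w : ℕ) (P : Eis → Eis → Eis → Eis → Eis → Prop)
      (g₃ E τ : Eis), 0 ≤ X → 0 ≤ Z → 0 ≤ Y → E ≠ 0 → τ ≠ 0 →
      (∀ y ∈ T, IsPrim y ∧ (nm y : ℝ) ≤ Y) → g₃ ∈ bk X w → ∀ Λ : ℝ,
      Lam (nm (E * τ) * Y * Z) u w ≤ Λ → ∀ (Q : Eis → Prop),
      (∀ x ∈ Q4 T X Z u v P g₃, Q (f4 E τ x)) → ∀ (F : Eis → ℝ), (∀ r, 0 ≤ F r) →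
      ∑ x ∈ Q4 T X Z u v P g₃, F (f4 E τ x) ≤ C * Λ ^ ε * ∑ r ∈ (bl Λ).filter Q, F r := by
  have hε3 : 0 < ε / 3 := by linarith
  obtain ⟨C₂, hC₂, hτ⟩ := tau_le_rpow hε3
  refine ⟨C₂ ^ 3, one_le_pow₀ hC₂, ?_⟩
  intro T X Z Y u v w P g₃ E τ hX hZ hY hE hτ0 hT hg₃ Λ hΛ Q hQ F hF
  have hΛ0 : 0 ≤ Λ := (Lam_nonneg (by positivity) u w).trans hΛ
  have hC₂0 : 0 ≤ C₂ := by linarith
  set D : ℝ := C₂ * Λ ^ (ε / 3) with hD
  have hD0 : 0 ≤ D := by positivity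
  have hD3 : D ^ 3 = C₂ ^ 3 * Λ ^ ε := by
    rw [hD, mul_pow, ← Real.rpow_natCast (Λ ^ (ε / 3)) 3, ← Real.rpow_mul hΛ0]
    congr 2
    push_cast; ring
  set F' : Eis → ℝ := fun r => if Q r then F r else 0 with hF'
  have hF'0 : ∀ r, 0 ≤ F' r := by
    intro r
    simp only [hF']
    split_ifs
    · exact hF r
    · exact le_rfl
  have e1 : ∑ x ∈ Q4 T X Z u v P g₃, F (f4 E τ x) = ∑ x ∈ Q4 T X Z u v P g₃, F' (f4 E τ x) :=
    Finset.sum_congr rfl fun x hx => by simp only [hF']; rw [if_pos (hQ x hx)]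
  rw [e1]
  have h5 : ∑ p ∈ Q4 T X Z u v P g₃, F' (E * p.1 * τ * (p.2.2.2 * (p.2.2.1 * p.2.1) ^ 2)) ≤
      ∑ r ∈ bl Λ, (tau r : ℝ) ^ 3 * F' r := by
    refine merge5 hΛ0 _ hE hτ0 ?_ F' hF'0
    intro x hx
    obtain ⟨⟨h0, h1, h2, h4⟩, h6, _⟩ := mem_Q4.1 hx
    have p0 := (hT _ h0).1
    have p1 := bk_prim hX h1
    have p2 := bk_prim hX h2
    have p4 : IsPrim x.2.2.2 := ((mem_pb hZ).1 h4).2
    refine ⟨p0, p1, p2, ?_⟩
    rw [mem_bl hΛ0]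
    refine ⟨mul_ne_zero (mul_ne_zero (mul_ne_zero hE p0.ne_zero) hτ0)
      (mul_ne_zero p4.ne_zero (pow_ne_zero 2 (mul_ne_zero p2.ne_zero p1.ne_zero))), ?_⟩
    refine le_trans ?_ hΛ
    have b0' := (hT _ h0).2
    have b1 := bk_nm_le hX h1
    have m1 := (Q4_m_le hX hZ hg₃ hx).2
    have enm : (nm (E * x.1 * τ * (x.2.2.2 * (x.2.2.1 * x.2.1) ^ 2)) : ℝ) =
        (nm (E * τ) : ℝ) * nm x.1 *
          (((nm x.2.2.1 : ℝ) ^ 2 * nm x.2.2.2) * (nm x.2.1 : ℝ) ^ 2) := by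
      rw [nm_mul (E * x.1 * τ), nm_mul (E * x.1), nm_mul E x.1, nm_mul E τ,
        nm_mul x.2.2.2, nm_pow (x.2.2.1 * x.2.1), nm_mul x.2.2.1]
      push_cast
      ring
    rw [enm]
    have b2 : (nm x.2.1 : ℝ) ^ 2 ≤ Real.exp (2 * ((u : ℝ) / 3 + 1 / 3)) := by
      have := pow_le_pow_left₀ (Nat.cast_nonneg _) b1 2
      rw [← Real.exp_nat_mul] at this
      simpa using this
    unfold Lam
    rw [sub_eq_add_neg, Real.exp_add]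
    calc (nm (E * τ) : ℝ) * nm x.1 * (((nm x.2.2.1 : ℝ) ^ 2 * nm x.2.2.2) * (nm x.2.1 : ℝ) ^ 2)
        ≤ (nm (E * τ) : ℝ) * Y * ((Z * Real.exp (-(w : ℝ))) *
          Real.exp (2 * ((u : ℝ) / 3 + 1 / 3))) := by gcongr
      _ = _ := by ring
  refine h5.trans ?_
  have h6 : ∑ r ∈ bl Λ, (tau r : ℝ) ^ 3 * F' r ≤ ∑ r ∈ bl Λ, D ^ 3 * F' r := by
    refine Finset.sum_le_sum fun r hr => ?_
    refine mul_le_mul_of_nonneg_right ?_ (hF'0 r)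
    rw [mem_bl hΛ0] at hr
    refine pow_le_pow_left₀ (Nat.cast_nonneg _) ?_ 3
    refine (hτ r hr.1).trans ?_
    exact mul_le_mul_of_nonneg_left (Real.rpow_le_rpow (Nat.cast_nonneg _) hr.2 hε3.le) hC₂0
  refine h6.trans (le_of_eq ?_)
  rw [← Finset.mul_sum, hD3, Finset.sum_filter]

open Classical in
/-- **the quadruples merged into pairs**, `k = y m`, `b = g₂ B` -/
theorem q4_be {ε : ℝ} (hε : 0 < ε) : ∃ C : ℝ, 1 ≤ C ∧
    ∀ (T : Finset Eis) (X Z Y : ℝ) (u v w : ℕ) (P : Eis → Eis → Eis → Eis → Eis → Prop)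
      (g₃ E τ : Eis), 0 ≤ X → 0 ≤ Z → 0 ≤ Y →
      (∀ y ∈ T, IsPrim y ∧ (nm y : ℝ) ≤ Y) → g₃ ∈ bk X w → ∀ (Q : Eis → Eis → Prop),
      (∀ x ∈ Q4 T X Z u v P g₃, Q (x.1 * x.2.2.2) (x.2.2.1 * x.2.1)) →
      ∀ (F : Eis → ℝ), (∀ r, 0 ≤ F r) → ∀ X0 : ℝ, Kb Y Z v w ≤ X0 →
      Real.exp (((u + v : ℕ) : ℝ) / 3 + 2 / 3) ≤ X0 →
      ∑ x ∈ Q4 T X Z u v P g₃, F (f4 E τ x) ≤ C * X0 ^ ε *
        ∑ b ∈ Bb (u + v), ∑ k ∈ (pb (Kb Y Z v w)).filter (fun k => Q k b),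
          F (E * τ * (k * b ^ 2)) := by
  have hε3 : 0 < ε / 2 := by linarith
  obtain ⟨C₂, hC₂, hτ⟩ := tau_le_rpow hε3
  refine ⟨C₂ ^ 2, one_le_pow₀ hC₂, ?_⟩
  intro T X Z Y u v w P g₃ E τ hX hZ hY hT hg₃ Q hQ F hF X0 hK hB
  have hC₂0 : 0 ≤ C₂ := by linarith
  have hKb := Kb_nonneg hY hZ v w
  have hX0 : 0 < X0 := (Real.exp_pos _).trans_le hB
  set φ : I4 → Eis × Eis := fun x => (x.2.2.1 * x.2.1, x.1 * x.2.2.2) with hφ
  set J : Finset (Eis × Eis) := (Bb (u + v) ×ˢ pb (Kb Y Z v w)).filter (fun p => Q p.2 p.1) with hJ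
  have hmaps : ∀ x ∈ Q4 T X Z u v P g₃, φ x ∈ J := by
    intro x hx
    obtain ⟨⟨h0, h1, h2, h4⟩, _, _⟩ := mem_Q4.1 hx
    have p0 := (hT _ h0).1
    have p1 := bk_prim hX h1
    have p2 := bk_prim hX h2
    have p4 : IsPrim x.2.2.2 := ((mem_pb hZ).1 h4).2
    rw [hJ, Finset.mem_filter, Finset.mem_product, mem_Bb, mem_pb hKb]
    have c1 := bk_nm_le hX h1
    have c2 := bk_nm_le hX h2
    have d1 := bk_nm_ge hX h1
    have d2 := bk_nm_ge hX h2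
    have m1 := (Q4_m_le hX hZ hg₃ hx).1
    refine ⟨⟨⟨⟨p2.mul p1, ?_⟩, ?_⟩, ?_, p0.mul p4⟩, hQ x hx⟩
    · show (nm (x.2.2.1 * x.2.1) : ℝ) ≤ _
      rw [nm_mul, Nat.cast_mul]
      calc (nm x.2.2.1 : ℝ) * nm x.2.1 ≤ Real.exp ((v : ℝ) / 3 + 1 / 3) *
            Real.exp ((u : ℝ) / 3 + 1 / 3) := by gcongr
        _ = _ := by
            rw [← Real.exp_add]
            congr 1
            push_cast; ring
    · show _ ≤ (nm (x.2.2.1 * x.2.1) : ℝ)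
      rw [nm_mul, Nat.cast_mul]
      calc Real.exp (((u + v : ℕ) : ℝ) / 3) = Real.exp ((v : ℝ) / 3) * Real.exp ((u : ℝ) / 3) := by
            rw [← Real.exp_add]
            congr 1
            push_cast; ring
        _ ≤ _ := by gcongr
    · show (nm (x.1 * x.2.2.2) : ℝ) ≤ _
      rw [nm_mul, Nat.cast_mul]
      unfold Kb
      have := (hT _ h0).2
      gcongr
  rw [← Finset.sum_fiberwise_of_maps_to hmaps]
  have h1 : ∀ p ∈ J, ∑ x ∈ (Q4 T X Z u v P g₃).filter (fun x => φ x = p), F (f4 E τ x) ≤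
      C₂ ^ 2 * X0 ^ ε * F (E * τ * (p.2 * p.1 ^ 2)) := by
    intro p hp
    rw [hJ, Finset.mem_filter, Finset.mem_product, mem_Bb, mem_pb hKb] at hp
    obtain ⟨⟨⟨⟨hp1, hp2⟩, _⟩, hp4, hp5⟩, _⟩ := hp
    set Bx := (Q4 T X Z u v P g₃).filter (fun x => φ x = p) with hBx
    have hmem : ∀ x ∈ Bx, x ∈ Q4 T X Z u v P g₃ ∧ x.2.2.1 * x.2.1 = p.1 ∧ x.1 * x.2.2.2 = p.2 := by
      intro x hx
      rw [hBx, Finset.mem_filter] at hx
      exact ⟨hx.1, congrArg Prod.fst hx.2, congrArg Prod.snd hx.2⟩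
    have h2 : ∑ x ∈ Bx, F (f4 E τ x) = ∑ x ∈ Bx, F (E * τ * (p.2 * p.1 ^ 2)) := by
      refine Finset.sum_congr rfl fun x hx => ?_
      obtain ⟨_, h3, h4⟩ := hmem x hx
      rw [← h3, ← h4]
      congr 1
      unfold f4
      ring
    rw [h2, Finset.sum_const, nsmul_eq_mul]
    refine mul_le_mul_of_nonneg_right ?_ (hF _)
    have h3 : Bx.card ≤ (dvs p.1 ×ˢ dvs p.2).card := by
      apply Finset.card_le_card_of_injOn (fun x => (x.2.2.1, x.1))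
      · intro x hx
        obtain ⟨h1, h3, h4⟩ := hmem x (Finset.mem_coe.1 hx)
        obtain ⟨⟨g0, g1, g2, g4⟩, _, _⟩ := mem_Q4.1 h1
        rw [Finset.mem_coe, Finset.mem_product, mem_dvs hp1.ne_zero, mem_dvs hp5.ne_zero]
        exact ⟨⟨bk_prim hX g2, h3 ▸ dvd_mul_right _ _⟩, (hT _ g0).1, h4 ▸ dvd_mul_right _ _⟩
      · intro x hx y hy hxy
        obtain ⟨h1, h3, h4⟩ := hmem x (Finset.mem_coe.1 hx)
        obtain ⟨h1', h3', h4'⟩ := hmem y (Finset.mem_coe.1 hy)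
        obtain ⟨⟨g0, g1, g2, g4⟩, _, _⟩ := mem_Q4.1 h1
        have hxy' : (x.2.2.1, x.1) = (y.2.2.1, y.1) := hxy
        have e1 : x.2.2.1 = y.2.2.1 := (Prod.mk.inj hxy').1
        have e0 : x.1 = y.1 := (Prod.mk.inj hxy').2
        have e2 : x.2.1 = y.2.1 := by
          apply mul_left_cancel₀ (bk_prim hX g2).ne_zero
          rw [h3, e1, h3']
        have e3 : x.2.2.2 = y.2.2.2 := by
          apply mul_left_cancel₀ (hT _ g0).1.ne_zero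
          rw [h4, e0, h4']
        exact Prod.ext e0 (Prod.ext e2 (Prod.ext e1 e3))
    rw [Finset.card_product] at h3
    have h4 : (Bx.card : ℝ) ≤ (tau p.1 : ℝ) * tau p.2 := by
      unfold tau
      exact_mod_cast h3
    refine h4.trans ?_
    have t1 : (tau p.1 : ℝ) ≤ C₂ * X0 ^ (ε / 2) := by
      refine (hτ p.1 hp1.ne_zero).trans (mul_le_mul_of_nonneg_left ?_ hC₂0)
      exact Real.rpow_le_rpow (Nat.cast_nonneg _) (hp2.trans hB) hε3.le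
    have t2 : (tau p.2 : ℝ) ≤ C₂ * X0 ^ (ε / 2) := by
      refine (hτ p.2 hp5.ne_zero).trans (mul_le_mul_of_nonneg_left ?_ hC₂0)
      exact Real.rpow_le_rpow (Nat.cast_nonneg _) (hp4.trans hK) hε3.le
    calc (tau p.1 : ℝ) * tau p.2 ≤ (C₂ * X0 ^ (ε / 2)) * (C₂ * X0 ^ (ε / 2)) := by gcongr
      _ = C₂ ^ 2 * (X0 ^ (ε / 2) * X0 ^ (ε / 2)) := by ring
      _ = _ := by
          rw [← Real.rpow_add hX0]
          congr 2
          ring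
  refine (Finset.sum_le_sum h1).trans (le_of_eq ?_)
  rw [← Finset.mul_sum]
  congr 1
  rw [hJ, Finset.sum_filter, Finset.sum_product]
  refine Finset.sum_congr rfl fun b _ => ?_
  rw [Finset.sum_filter]

end

end Crest.Agent.R017.MoL106
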