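import Crest.Agent.R017.NPx_739
import Crest.Agent.R017.GKC_739
import Crest.Agent.R017.MoL7_106

/-!
# Row 17, E2: the cells of flagged lists (helper739)

* `WM_mono`, `MoP_mono_W` : monotone weights
* `MNx`, `MNc` : the moment of the cell sum `Qs_cells`, as a functional of the untwisted sequence
* `cell_dl` : the cells of one opened piece; `cell_SDX`, `cell_SD`, `cell_list` : the cells of a
  flagged list (any predicate, any further factor of the frequency) from natural lists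
* `cell_two` : the same for a difference of two lists
* `q4_np` : the merged frequencies of the non principal `d` are not cubes
-/

set_option autoImplicit false
set_option linter.unusedVariables false

noncomputable section

open MeasureTheory Finset Filter
open scoped ComplexConjugate

namespace Crest.Agent.R017.NPy739

open Crest.Agent.R012
open Eis Gauss880
open Crest.Agent.R012.LS2 (S mem_S)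
open Crest.Agent.R012.Weight600 (pw)
open Crest.Agent.R017.CM106 (CS FS)
open Crest.Agent.R017.FE47 (cx PU)
open Crest.Agent.R017.B770
open Crest.Agent.R017.Prov71
open Crest.Agent.R017.HP842 (Pc pc sqc al)
open Crest.Agent.R017.Leg381 (alf alF Pf)
open Crest.Agent.R017.TPOk571 (IP FP SD SD_w SD_len SD_ht sd_ok)
open Crest.Agent.R017.TP320 (Fam)
open Crest.Agent.R017.X6C180 (IX dl')
open Crest.Agent.R017.Win813 (iA iA_nonneg WK)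
open Crest.Agent.R017.XRG106
open Crest.Agent.R017.MoF106
open Crest.Agent.R017.MoL106
open Crest.Agent.R017.H1401 (pb mem_pb DN WM HW)
open Crest.Agent.R017.E2440 (ag RR C4 mem_C4)
open Crest.Agent.R017.NtC320 (QF)
open Crest.Agent.R017.E2sp579 (fP)
open Crest.Agent.R017.QsO83 (bw FS_bw QF_sum1)
open Crest.Agent.R017.NPx739
open Crest.Agent.R017.GKC739
open Div277 (tau dvs mem_dvs)

/-! ### monotone weights -/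

lemma HW_mono {R R' Z : ℝ} (hR : 0 ≤ R) (h : R ≤ R') (hZ : 0 ≤ Z) (x y : Eis) :
    HW R Z x y ≤ HW R' Z x y := by
  unfold H1401.HW
  have h1 : 0 ≤ Z / ((nm x : ℝ) * nm y) ^ 2 := by positivity
  have h2 : (R * (Z / ((nm x : ℝ) * nm y) ^ 2)) ^ ((2 : ℝ) / 3) ≤
      (R' * (Z / ((nm x : ℝ) * nm y) ^ 2)) ^ ((2 : ℝ) / 3) :=
    Real.rpow_le_rpow (mul_nonneg hR h1) (mul_le_mul_of_nonneg_right h h1) (by norm_num)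
  linarith

lemma WM_mono {R R' Z : ℝ} (hR : 0 ≤ R) (h : R ≤ R') (hZ : 0 ≤ Z) (x y : Eis) :
    WM R Z x y ≤ WM R' Z x y := by
  unfold H1401.WM
  refine mul_le_mul_of_nonneg_left (min_le_min ?_ (by linarith)) (Nat.cast_nonneg _)
  exact mul_le_mul_of_nonneg_left (HW_mono hR h hZ x y) (Nat.cast_nonneg _)

open Classical in
lemma MoP_mono_W {α : Eis → ℂ} {E B τ : Eis} {X t Z : ℝ} {W W' : Eis → Eis → ℝ}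
    {P : Eis → Eis → Eis → Prop} (hW : ∀ g₂ ∈ S X, ∀ g₃ ∈ S X, W g₂ g₃ ≤ W' g₂ g₃) :
    MoP α E B τ X t Z W P ≤ MoP α E B τ X t Z W' P := by
  unfold MoF106.MoP
  exact Finset.sum_le_sum fun g₂ h₂ => Finset.sum_le_sum fun g₃ h₃ =>
    mul_le_mul_of_nonneg_right (hW g₂ h₂ g₃ h₃) (Finset.sum_nonneg fun _ _ => sq_nonneg _)

/-! ### the cells -/

/-- the moment of `Qs_cells` at the frequency `E`, as a functional of the untwisted sequence -/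
def MNx (J : ℕ) (V : ℝ) (e A c : Eis) (X : ℝ) (Q : Eis → Eis → Eis → Prop) (δ g₀ : Eis)
    (φ : ℝ → ℝ) (p : ℕ × ℕ) (t₀ : ℝ) (E j₂ B : Eis) (j : ℕ) (n : Eis) (α : Eis → ℂ) : ℝ :=
  MNn J (WM (RR V e A c j₂) (2 ^ j / (nm n : ℝ) ^ 3))
    (fun g₂ g₃ d => DN n g₂ g₃ d ∧ (2 : ℝ) ^ j / 2 < nm d) Q E c X
    (2 ^ j) B (ag (bw φ p t₀ α) δ g₀)

/-- the moment of `Qs_cells` as a functional of the untwisted sequence -/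
def MNc (J : ℕ) (V : ℝ) (e A c : Eis) (X : ℝ) (Qf : Eis → Eis → Eis → Eis → Prop) (δ g₀ : Eis)
    (φ : ℝ → ℝ) (p : ℕ × ℕ) (t₀ : ℝ) (j₂ B : Eis) (j : ℕ) (n : Eis) (α : Eis → ℂ) : ℝ :=
  MNx J V e A c X (Qf (e * A * j₂)) δ g₀ φ p t₀ (e * A * j₂) j₂ B j n α

/-- the natural-list hypothesis of a cell, with a further factor `x₀` of the frequency -/
def CellX (h : ℝ → ℝ) (μ C : ℝ) {r : ℕ} (P : DPar) (s : Fin r → Pq) (V : ℝ) (e A c x₀ : Eis)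
    (X : ℝ) (Qf : Eis → Eis → Eis → Eis → Prop) (g₀ : Eis) (p : ℕ × ℕ) (l u j : ℕ) (n : Eis)
    (Wb : ℕ → ℕ → ℝ) (M : ℝ) : Prop :=
  ∀ v < NX X, ∀ w < NX X, 0 < Wb v w → ∀ i : IX c, ∀ g₃ ∈ bk X w,
    ∀ (s' : Fin r → Pq) (W0 : ℝ), 1 ≤ W0 → (∀ k, Rl C W0 (s' k) (s k)) →
    ∑ k, (s' k).z ≤ ∑ k, (s k).z - (Real.log (nm g₀) + ((u : ℝ) / 3 + v / 3 + w / 3)) + C →
    Wb v w * Real.exp ((w : ℝ) / 3) * ∑ x ∈ Q4 (Tb V e A c l) X (2 ^ j) u v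
        (fun y B => fP (fun g₂ g₃ d => DN n g₂ g₃ d ∧ (2 : ℝ) ^ j / 2 < nm d)
          (Qf (e * A * y * x₀) B (dl' c i))) g₃,
      ∏ k, ‖CS (pc h ((s' k).pc P)) (f4 (e * A * x₀ * kw p ^ 2) (dl' c i) x)‖ ^ 2 ≤
    M * Real.exp (∑ k, (s' k).z - (∑ k, (s k).z -
      (Real.log (nm g₀) + ((u : ℝ) / 3 + v / 3 + w / 3)))) * W0 ^ (2 * μ)

lemma CellX.mono {h : ℝ → ℝ} {μ C C' : ℝ} {r : ℕ} {P : DPar} {s : Fin r → Pq} {V : ℝ}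
    {e A c x₀ : Eis} {X : ℝ} {Qf : Eis → Eis → Eis → Eis → Prop} {g₀ : Eis} {p : ℕ × ℕ}
    {l u j : ℕ} {n : Eis} {Wb : ℕ → ℕ → ℝ} {M : ℝ}
    (H : CellX h μ C' P s V e A c x₀ X Qf g₀ p l u j n Wb M) (hC : C ≤ C') :
    CellX h μ C P s V e A c x₀ X Qf g₀ p l u j n Wb M := by
  intro v hv w hw hW i g₃ hg₃ s' W0 hW0 hR hle
  exact H v hv w hw hW i g₃ hg₃ s' W0 hW0 (fun k => (hR k).mono hC) (hle.trans (by linarith))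

/-- the natural-list hypothesis of a cell -/
def CellH (h : ℝ → ℝ) (μ C : ℝ) {r : ℕ} (P : DPar) (s : Fin r → Pq) (V : ℝ) (e A c : Eis) (X : ℝ)
    (Qf : Eis → Eis → Eis → Eis → Prop) (g₀ : Eis) (p : ℕ × ℕ) (l u j : ℕ) (n : Eis)
    (Wb : ℕ → ℕ → ℝ) (M : ℝ) : Prop :=
  ∀ v < NX X, ∀ w < NX X, 0 < Wb v w → ∀ i : IX c, ∀ g₃ ∈ bk X w,
    ∀ (s' : Fin r → Pq) (W0 : ℝ), 1 ≤ W0 → (∀ k, Rl C W0 (s' k) (s k)) →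
    ∑ k, (s' k).z ≤ ∑ k, (s k).z - (Real.log (nm g₀) + ((u : ℝ) / 3 + v / 3 + w / 3)) + C →
    Wb v w * Real.exp ((w : ℝ) / 3) * ∑ x ∈ Q4 (Tb V e A c l) X (2 ^ j) u v
        (fun y B => fP (fun g₂ g₃ d => DN n g₂ g₃ d ∧ (2 : ℝ) ^ j / 2 < nm d)
          (Qf (e * A * y) B (dl' c i))) g₃,
      ∏ k, ‖CS (pc h ((s' k).pc P)) (f4 (e * A * kw p ^ 2) (dl' c i) x)‖ ^ 2 ≤
    M * Real.exp (∑ k, (s' k).z - (∑ k, (s k).z -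
      (Real.log (nm g₀) + ((u : ℝ) / 3 + v / 3 + w / 3)))) * W0 ^ (2 * μ)

lemma cellX_one {h : ℝ → ℝ} {μ C : ℝ} {r : ℕ} {P : DPar} {s : Fin r → Pq} {V : ℝ} {e A c : Eis}
    {X : ℝ} {Qf : Eis → Eis → Eis → Eis → Prop} {g₀ : Eis} {p : ℕ × ℕ} {l u j : ℕ} {n : Eis}
    {Wb : ℕ → ℕ → ℝ} {M : ℝ} : CellX h μ C P s V e A c 1 X Qf g₀ p l u j n Wb M ↔
      CellH h μ C P s V e A c X Qf g₀ p l u j n Wb M := by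
  unfold CellX CellH
  simp only [mul_one]

/-- the loss of the opening -/
def opL (r : ℕ) (D0 : ℝ) : ℝ := D0 ^ r * ((100 * D0) ^ r) ^ 2

lemma opL_nonneg (r : ℕ) {D0 : ℝ} (hD : 0 ≤ D0) : 0 ≤ opL r D0 := by unfold opL; positivity

/-- **the cells of one opened piece** `dl γ (sq (q γ) w)`, one constant `σ` -/
theorem dl_one {h : ℝ → ℝ} {c₀ : ℝ} (hpu : PU h c₀) {R : ℝ} (hR0 : 0 ≤ R)
    (hR : ∀ u, cx h u ≠ 0 → |u| ≤ R) {μ : ℝ} (hμ : 0 ≤ μ) (r : ℕ) {c : Eis} (hc : c ∈ C4)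
    {ε : ℝ} (hε : 0 < ε) :
    ∃ C : ℝ, 1 ≤ C ∧ ∀ A' : ℕ, 2 * (r * μ) + 2 ≤ A' → ∀ Cφ η : ℝ, 0 ≤ Cφ → 0 < η → η ≤ 1 →
      ∀ φ : ℝ → ℝ, WK Cφ η A' φ → ∀ (p : ℕ × ℕ) (t₀ : ℝ) (P : DPar) (hP : P.OK)
      (s : Fin r → Pq), (∀ i, 0 ≤ (s i).z) → ∀ jp : Fin r → IP, (∀ i, FromP hP (jp i) (s i)) →
      ∀ γ q g₀ δ e A x₀ : Eis, IsPrim γ → Squarefree γ → IsPrim q → IsPrim g₀ → IsPrim δ →
      IsPrim e → IsPrim A → ∑ k, (jp k).z = ∑ k, (s k).z - Real.log (nm γ) →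
      ∀ (V X X0 : ℝ), 1 ≤ X → X ≤ X0 → (nm γ : ℝ) ≤ X0 → (nm g₀ : ℝ) ≤ X0 → (nm q : ℝ) ≤ X0 →
      (nm δ : ℝ) ≤ X0 → (∀ i, Real.exp (s i).z ≤ X0) → ∀ (l u j : ℕ) (n : Eis)
      (Qf : Eis → Eis → Eis → Eis → Prop) (Wb : ℕ → ℕ → ℝ),
      (∀ v < NX X, ∀ w < NX X, ∀ g₂ ∈ bk X v, ∀ g₃ ∈ bk X w,
        WM (V * nm (e * A) / (nm c * Real.exp ((l : ℝ) / 3) ^ 2)) (2 ^ j / (nm n : ℝ) ^ 3) g₂ g₃ ≤
          Wb v w) → (∀ v < NX X, ∀ w < NX X, 0 ≤ Wb v w) → ∀ M : ℝ, 0 ≤ M →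
      CellX h μ C P s V e A c x₀ X Qf g₀ p l u j n Wb M →
      ∑ j₂ ∈ Tb V e A c l, ∑ B ∈ bk X u, MNx A' V e A c X (Qf (e * A * j₂ * x₀)) δ g₀ φ p t₀
        (e * A * j₂ * x₀) j₂ B j n (MoF106.dl γ (TP320.sq (q * γ) ((SD h μ r).w jp))) ≤
      (1 + |t₀|) ^ A' *
        (C * (Cφ ^ 2 * iA A' * (η * (η ^ A')⁻¹)) * X0 ^ ε * nm γ * M) := by
  have hΦ := sd_ok hpu hR0 hR hμ r
  obtain ⟨C, hC, hML⟩ := MoC_list hpu hR0 hR hμ r c hε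
  refine ⟨C, hC, ?_⟩
  intro A' hA' Cφ η hCφ hη hη1 φ hφ p t₀ P hP s hs jp hjp γ q g₀ δ e A x₀ hγ hγs hq hg₀ hδ he hA
    hlen V X X0 hX hXX hγX hgX hqX hδX hsX l u j n Qf Wb hWb hWb0 M hM hcell
  have hX0 : 0 ≤ X := by linarith
  have hX01 : 1 ≤ X0 := by linarith
  have hC0 : 0 ≤ C := by linarith
  have hA2 : 2 ≤ A' := by
    have h1 : (0 : ℝ) ≤ 2 * (r * μ) := by positivity
    have : (2 : ℝ) ≤ A' := by linarith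
    exact_mod_cast this
  set pA : ℝ := Cφ ^ 2 * iA A' * (η * (η ^ A')⁻¹) with hpA
  have hpA0 : 0 ≤ pA := by have := iA_nonneg A'; positivity
  have ht0 : 0 ≤ (1 + |t₀|) ^ A' := by positivity
  set R₀ : ℝ := V * nm (e * A) / (nm c * Real.exp ((l : ℝ) / 3) ^ 2) with hR₀
  by_cases hTb : (Tb V e A c l).Nonempty
  swap
  · rw [Finset.not_nonempty_iff_eq_empty.1 hTb, Finset.sum_empty]
    positivity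
  obtain ⟨jj, hjj⟩ := hTb
  have hR₀0 : 0 ≤ R₀ := by
    have h1 := Tb_rr he hA hc hjj
    have h2 := (mem_Tb.1 hjj).2
    linarith
  set W : Eis → Eis → ℝ := WM R₀ (2 ^ j / (nm n : ℝ) ^ 3) with hW
  have hW0 : ∀ g₂ ∈ S X, ∀ g₃ ∈ S X, 0 ≤ W g₂ g₃ := fun g₂ _ g₃ _ =>
    H1401.WM_nonneg hR₀0 (by positivity) g₂ g₃
  set Pr : Eis → Eis → IX c → Eis → Eis → Eis → Prop := fun y B i =>
    fP (fun g₂ g₃ d => DN n g₂ g₃ d ∧ (2 : ℝ) ^ j / 2 < nm d) (Qf (e * A * y * x₀) B (dl' c i))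
    with hPr
  set w : Eis → ℂ := (SD h μ r).w jp with hw
  have hRR := hΦ.R0
  have hw1 : ∀ n, w n ≠ 0 → (nm n : ℝ) ≤ Real.exp ((SD h μ r).len jp + r * (2 * R + 3)) := by
    intro b hb
    have hb0 : (0 : ℝ) < nm b := by exact_mod_cast nm_pos.2 (hΦ.prim jp b hb).ne_zero
    rw [← Real.log_le_iff_le_exp hb0]
    have := (abs_le.1 (hΦ.supp jp b hb)).2
    linarith
  have hγ1 : (1 : ℝ) ≤ nm γ := by exact_mod_cast nm_pos.2 hγ.ne_zero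
  have hlogγ : 0 ≤ Real.log (nm γ) := Real.log_nonneg hγ1
  -- the piece
  have h1 : ∀ j₂ ∈ Tb V e A c l, ∀ B ∈ bk X u,
      MNx A' V e A c X (Qf (e * A * j₂ * x₀)) δ g₀ φ p t₀ (e * A * j₂ * x₀) j₂ B j n
        (MoF106.dl γ (TP320.sq (q * γ) w)) ≤
      (1 + |t₀|) ^ A' * MoC Cφ η A' c (aG γ q g₀ δ w) (e * A * x₀ * kw p ^ 2 * j₂) B X (2 ^ j) W
        (Pr j₂ B) := by
    intro j₂ hj₂ B hB
    have hR1 := (mem_Tb.1 hj₂).2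
    unfold MNx
    refine MNn_le fun i t => ?_
    have h2 : ∀ g₂ ∈ S X, ∀ g₃ ∈ S X,
        WM (RR V e A c j₂) (2 ^ j / (nm n : ℝ) ^ 3) g₂ g₃ ≤ W g₂ g₃ := fun g₂ _ g₃ _ =>
      WM_mono (by linarith) (Tb_rr he hA hc hj₂) (by positivity) g₂ g₃
    refine (MoP_mono_W h2).trans ?_
    have h3 := MoP_bt_le (E := e * A * j₂ * x₀) (B := B) (Z := (2 : ℝ) ^ j) (q := q) (δ := δ)
      (P := Pr j₂ B) hCφ hη hη1 hA2 hφ (Real.exp_pos _).le hw1 hX0 hγ hγs hg₀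
      (bk_prim hX0 hB) hW0 p t₀ i t
    have e1 : e * A * j₂ * x₀ * kw p ^ 2 = e * A * x₀ * kw p ^ 2 * j₂ := by ring
    rw [e1] at h3
    exact h3
  have h4 := hML A' hA' Cφ η hη P hP s hs jp hjp γ q g₀ δ (e * A * x₀ * kw p ^ 2) hγ hγs hg₀ hq
    hδ (Tb V e A c l) u X (2 ^ j) X0 hX (one_le_pow₀ (by norm_num)) hXX hγX hgX hqX hδX
    hsX W Wb hW0 hWb hWb0 Pr (fun y B i g₂ g₃ d hd => by
      have h5 := hd.1.1.dvd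
      exact (dvd_mul_left _ _).trans h5) M hM
    (fun v hv w' hw' hWp i g₃ hg₃ s' W0 hW01 hRl hle => by
      rw [hlen] at hle
      have h6 := hcell v hv w' hw' hWp i g₃ hg₃ s' W0 hW01 hRl (by linarith)
      refine h6.trans ?_
      have h7 : Real.exp (∑ k, (s' k).z - (∑ k, (s k).z -
          (Real.log (nm g₀) + ((u : ℝ) / 3 + v / 3 + w' / 3)))) ≤
          Real.exp (∑ k, (s' k).z - (∑ k, (jp k).z -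
          (Real.log (nm g₀) + ((u : ℝ) / 3 + v / 3 + w' / 3)))) := by
        apply Real.exp_le_exp.2
        rw [hlen]
        linarith
      have h8 : 0 ≤ W0 ^ (2 * μ) := Real.rpow_nonneg (by linarith) _
      exact mul_le_mul_of_nonneg_right (mul_le_mul_of_nonneg_left h7 hM) h8)
  calc ∑ j₂ ∈ Tb V e A c l, ∑ B ∈ bk X u, MNx A' V e A c X (Qf (e * A * j₂ * x₀)) δ g₀ φ p t₀
        (e * A * j₂ * x₀) j₂ B j n (MoF106.dl γ (TP320.sq (q * γ) w))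
      ≤ ∑ j₂ ∈ Tb V e A c l, ∑ B ∈ bk X u, (1 + |t₀|) ^ A' *
        MoC Cφ η A' c (aG γ q g₀ δ w) (e * A * x₀ * kw p ^ 2 * j₂) B X (2 ^ j) W (Pr j₂ B) :=
        Finset.sum_le_sum fun j₂ hj₂ => Finset.sum_le_sum fun B hB => h1 j₂ hj₂ B hB
    _ = (1 + |t₀|) ^ A' * ∑ j₂ ∈ Tb V e A c l, ∑ B ∈ bk X u,
        MoC Cφ η A' c (aG γ q g₀ δ w) (e * A * x₀ * kw p ^ 2 * j₂) B X (2 ^ j) W (Pr j₂ B) := by
        rw [Finset.mul_sum]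
        exact Finset.sum_congr rfl fun j₂ _ => by rw [Finset.mul_sum]
    _ ≤ _ := mul_le_mul_of_nonneg_left h4 ht0

/-- **the cells of one opened piece**, all `σ` -/
theorem cell_dl {h : ℝ → ℝ} {c₀ : ℝ} (hpu : PU h c₀) {R : ℝ} (hR0 : 0 ≤ R)
    (hR : ∀ u, cx h u ≠ 0 → |u| ≤ R) {μ : ℝ} (hμ : 0 ≤ μ) (r : ℕ) {ε : ℝ} (hε : 0 < ε) :
    ∃ C : ℝ, 1 ≤ C ∧ ∀ A' : ℕ, 2 * (r * μ) + 2 ≤ A' → ∀ Cφ η : ℝ, 0 ≤ Cφ → 0 < η → η ≤ 1 →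
      ∀ φ : ℝ → ℝ, WK Cφ η A' φ → ∀ (p : ℕ × ℕ) (t₀ : ℝ) (P : DPar) (hP : P.OK)
      (s : Fin r → Pq), (∀ i, 0 ≤ (s i).z) → ∀ jp : Fin r → IP, (∀ i, FromP hP (jp i) (s i)) →
      ∀ γ q g₀ δ e A x₀ : Eis, IsPrim γ → Squarefree γ → IsPrim q → IsPrim g₀ → IsPrim δ →
      IsPrim e → IsPrim A → ∑ k, (jp k).z = ∑ k, (s k).z - Real.log (nm γ) →
      ∀ (V X X0 : ℝ), 1 ≤ X → X ≤ X0 → (nm γ : ℝ) ≤ X0 → (nm g₀ : ℝ) ≤ X0 → (nm q : ℝ) ≤ X0 →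
      (nm δ : ℝ) ≤ X0 → (∀ i, Real.exp (s i).z ≤ X0) → ∀ (l u j : ℕ) (n : Eis)
      (Qf : Eis → Eis → Eis → Eis → Prop) (Wb : ℕ → ℕ → ℝ), ∀ c ∈ C4,
      (∀ v < NX X, ∀ w < NX X, ∀ g₂ ∈ bk X v, ∀ g₃ ∈ bk X w,
        WM (V * nm (e * A) / (nm c * Real.exp ((l : ℝ) / 3) ^ 2)) (2 ^ j / (nm n : ℝ) ^ 3) g₂ g₃ ≤
          Wb v w) → (∀ v < NX X, ∀ w < NX X, 0 ≤ Wb v w) → ∀ M : ℝ, 0 ≤ M →
      CellX h μ C P s V e A c x₀ X Qf g₀ p l u j n Wb M →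
      ∑ j₂ ∈ Tb V e A c l, ∑ B ∈ bk X u, MNx A' V e A c X (Qf (e * A * j₂ * x₀)) δ g₀ φ p t₀
        (e * A * j₂ * x₀) j₂ B j n (MoF106.dl γ (TP320.sq (q * γ) ((SD h μ r).w jp))) ≤
      (1 + |t₀|) ^ A' *
        (C * (Cφ ^ 2 * iA A' * (η * (η ^ A')⁻¹)) * X0 ^ ε * nm γ * M) := by
  have key : ∀ c : Eis, ∃ C : ℝ, 1 ≤ C ∧ (c ∈ C4 → ∀ A' : ℕ, 2 * (r * μ) + 2 ≤ A' →
      ∀ Cφ η : ℝ, 0 ≤ Cφ → 0 < η → η ≤ 1 →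
      ∀ φ : ℝ → ℝ, WK Cφ η A' φ → ∀ (p : ℕ × ℕ) (t₀ : ℝ) (P : DPar) (hP : P.OK)
      (s : Fin r → Pq), (∀ i, 0 ≤ (s i).z) → ∀ jp : Fin r → IP, (∀ i, FromP hP (jp i) (s i)) →
      ∀ γ q g₀ δ e A x₀ : Eis, IsPrim γ → Squarefree γ → IsPrim q → IsPrim g₀ → IsPrim δ →
      IsPrim e → IsPrim A → ∑ k, (jp k).z = ∑ k, (s k).z - Real.log (nm γ) →
      ∀ (V X X0 : ℝ), 1 ≤ X → X ≤ X0 → (nm γ : ℝ) ≤ X0 → (nm g₀ : ℝ) ≤ X0 → (nm q : ℝ) ≤ X0 →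
      (nm δ : ℝ) ≤ X0 → (∀ i, Real.exp (s i).z ≤ X0) → ∀ (l u j : ℕ) (n : Eis)
      (Qf : Eis → Eis → Eis → Eis → Prop) (Wb : ℕ → ℕ → ℝ),
      (∀ v < NX X, ∀ w < NX X, ∀ g₂ ∈ bk X v, ∀ g₃ ∈ bk X w,
        WM (V * nm (e * A) / (nm c * Real.exp ((l : ℝ) / 3) ^ 2)) (2 ^ j / (nm n : ℝ) ^ 3) g₂ g₃ ≤
          Wb v w) → (∀ v < NX X, ∀ w < NX X, 0 ≤ Wb v w) → ∀ M : ℝ, 0 ≤ M →
      CellX h μ C P s V e A c x₀ X Qf g₀ p l u j n Wb M →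
      ∑ j₂ ∈ Tb V e A c l, ∑ B ∈ bk X u, MNx A' V e A c X (Qf (e * A * j₂ * x₀)) δ g₀ φ p t₀
        (e * A * j₂ * x₀) j₂ B j n (MoF106.dl γ (TP320.sq (q * γ) ((SD h μ r).w jp))) ≤
      (1 + |t₀|) ^ A' *
        (C * (Cφ ^ 2 * iA A' * (η * (η ^ A')⁻¹)) * X0 ^ ε * nm γ * M)) := by
    intro c
    by_cases hc : c ∈ C4
    · obtain ⟨C, hC, hx⟩ := dl_one hpu hR0 hR hμ r hc hε
      exact ⟨C, hC, fun _ => hx⟩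
    · exact ⟨1, le_rfl, fun h => absurd h hc⟩
  choose Cf hCf hx using key
  have hsum0 : ∀ c ∈ C4, 0 ≤ Cf c := fun c _ => by linarith [hCf c]
  refine ⟨1 + ∑ c ∈ C4, Cf c, by linarith [Finset.sum_nonneg hsum0], ?_⟩
  intro A' hA' Cφ η hCφ hη hη1 φ hφ p t₀ P hP s hs jp hjp γ q g₀ δ e A x₀ hγ hγs hq hg₀ hδ he hA
    hlen V X X0 hX hXX hγX hgX hqX hδX hsX l u j n Qf Wb c hc hWb hWb0 M hM hcell
  have hle : Cf c ≤ 1 + ∑ c ∈ C4, Cf c := by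
    have := Finset.single_le_sum hsum0 hc
    linarith
  refine (hx c hc A' hA' Cφ η hCφ hη hη1 φ hφ p t₀ P hP s hs jp hjp γ q g₀ δ e A x₀ hγ hγs hq
    hg₀ hδ he hA hlen V X X0 hX hXX hγX hgX hqX hδX hsX l u j n Qf Wb hWb hWb0 M hM
    (hcell.mono hle)).trans ?_
  have h2 := iA_nonneg A'
  have h3 : 0 ≤ X0 := by linarith
  gcongr

/-- **the cells of a flagged list**, with a further factor `x₀` of the frequency -/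
theorem cell_SDX {h : ℝ → ℝ} {c₀ : ℝ} (hpu : PU h c₀) {R : ℝ} (hR0 : 0 ≤ R)
    (hR : ∀ u, cx h u ≠ 0 → |u| ≤ R) {μ : ℝ} (hμ : 0 ≤ μ) (r : ℕ) {ε : ℝ} (hε : 0 < ε) :
    ∃ C : ℝ, 1 ≤ C ∧ ∀ A' : ℕ, 2 * (r * μ) + 2 ≤ A' → ∀ Cφ η : ℝ, 0 ≤ Cφ → 0 < η → η ≤ 1 →
      ∀ φ : ℝ → ℝ, WK Cφ η A' φ → ∀ (p : ℕ × ℕ) (t₀ : ℝ) (P : DPar) (_ : P.OK)
      (s : Fin r → Pq), (∀ i, 0 ≤ (s i).z) → ∀ (f : Fin r → Bool) (z D0 : ℝ), 1 ≤ D0 →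
      ∀ q g₀ δ e A x₀ : Eis, IsPrim q → IsPrim g₀ → IsPrim δ → IsPrim e → IsPrim A →
      ∀ (V X X0 : ℝ), 1 ≤ X → X ≤ X0 → D0 ^ r ≤ X0 → (nm g₀ : ℝ) ≤ X0 → (nm q : ℝ) ≤ X0 →
      (nm δ : ℝ) ≤ X0 → (∀ i, Real.exp (s i).z ≤ X0) → ∀ (l u j : ℕ) (n : Eis)
      (Qf : Eis → Eis → Eis → Eis → Prop) (Wb : ℕ → ℕ → ℝ), ∀ c ∈ C4,
      (∀ v < NX X, ∀ w < NX X, ∀ g₂ ∈ bk X v, ∀ g₃ ∈ bk X w,
        WM (V * nm (e * A) / (nm c * Real.exp ((l : ℝ) / 3) ^ 2)) (2 ^ j / (nm n : ℝ) ^ 3) g₂ g₃ ≤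
          Wb v w) → (∀ v < NX X, ∀ w < NX X, 0 ≤ Wb v w) → ∀ M : ℝ, 0 ≤ M →
      CellX h μ C P s V e A c x₀ X Qf g₀ p l u j n Wb M →
      ∑ j₂ ∈ Tb V e A c l, ∑ B ∈ bk X u, MNx A' V e A c X (Qf (e * A * j₂ * x₀)) δ g₀ φ p t₀
        (e * A * j₂ * x₀) j₂ B j n (sqc q (alf z D0 h (fun i => (s i).pc P) f)) ≤
      C * (Cφ ^ 2 * iA A' * (η * (η ^ A')⁻¹)) * X0 ^ ε * (1 + |t₀|) ^ A' * opL r D0 * M := by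
  obtain ⟨C, hC, hdl⟩ := cell_dl hpu hR0 hR hμ r hε
  refine ⟨C, hC, ?_⟩
  intro A' hA' Cφ η hCφ hη hη1 φ hφ p t₀ P hP s hs f z D0 hD q g₀ δ e A x₀ hq hg₀ hδ he hA V X
    X0 hX hXX hDX hgX hqX hδX hsX l u j n Qf Wb c hc hWb hWb0 M hM hcell
  have hX0 : 0 ≤ X := by linarith
  have hX01 : 1 ≤ X0 := by linarith
  have hC0 : 0 ≤ C := by linarith
  set pA : ℝ := Cφ ^ 2 * iA A' * (η * (η ^ A')⁻¹) with hpA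
  have hpA0 : 0 ≤ pA := by have := iA_nonneg A'; positivity
  have hD0 : 0 ≤ D0 := by linarith
  set Φ : (Eis → ℂ) → ℝ := fun α => ∑ j₂ ∈ Tb V e A c l, ∑ B ∈ bk X u,
    MNx A' V e A c X (Qf (e * A * j₂ * x₀)) δ g₀ φ p t₀ (e * A * j₂ * x₀) j₂ B j n α with hΦd
  have hQF : QF Φ := by
    refine QF_sum1 _ fun j₂ hj₂ => QF_sum1 _ fun B hB => ?_
    have h1 : 0 ≤ RR V e A c j₂ := by linarith [(mem_Tb.1 hj₂).2]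
    exact QF_agbw (QF_MNn (fun g₂ _ g₃ _ => H1401.WM_nonneg h1 (by positivity) g₂ g₃) hX0
      (bk_prim hX0 hB).ne_zero) hg₀ δ φ p t₀
  have hmain := QsO83.nt_SD hQF hR μ hP s (z := z) hD f q
    (M := (1 + |t₀|) ^ A' * (C * pA * X0 ^ ε * D0 ^ r * M)) (by positivity) ?_
  · refine hmain.trans (le_of_eq ?_)
    unfold opL
    ring
  intro γ hγ hγs _ hγD jp hjp hlen
  refine (hdl A' hA' Cφ η hCφ hη hη1 φ hφ p t₀ P hP s hs jp hjp γ q g₀ δ e A x₀ hγ hγs hq hg₀ hδ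
    he hA hlen V X X0 hX hXX (hγD.trans hDX) hgX hqX hδX hsX l u j n Qf Wb c hc hWb hWb0 M hM
    hcell).trans ?_
  gcongr

/-- **the cells of a flagged list** -/
theorem cell_SD {h : ℝ → ℝ} {c₀ : ℝ} (hpu : PU h c₀) {R : ℝ} (hR0 : 0 ≤ R)
    (hR : ∀ u, cx h u ≠ 0 → |u| ≤ R) {μ : ℝ} (hμ : 0 ≤ μ) (r : ℕ) {ε : ℝ} (hε : 0 < ε) :
    ∃ C : ℝ, 1 ≤ C ∧ ∀ A' : ℕ, 2 * (r * μ) + 2 ≤ A' → ∀ Cφ η : ℝ, 0 ≤ Cφ → 0 < η → η ≤ 1 →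
      ∀ φ : ℝ → ℝ, WK Cφ η A' φ → ∀ (p : ℕ × ℕ) (t₀ : ℝ) (P : DPar) (_ : P.OK)
      (s : Fin r → Pq), (∀ i, 0 ≤ (s i).z) → ∀ (f : Fin r → Bool) (z D0 : ℝ), 1 ≤ D0 →
      ∀ q g₀ δ e A : Eis, IsPrim q → IsPrim g₀ → IsPrim δ → IsPrim e → IsPrim A →
      ∀ (V X X0 : ℝ), 1 ≤ X → X ≤ X0 → D0 ^ r ≤ X0 → (nm g₀ : ℝ) ≤ X0 → (nm q : ℝ) ≤ X0 →
      (nm δ : ℝ) ≤ X0 → (∀ i, Real.exp (s i).z ≤ X0) → ∀ (l u j : ℕ) (n : Eis)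
      (Qf : Eis → Eis → Eis → Eis → Prop) (Wb : ℕ → ℕ → ℝ), ∀ c ∈ C4,
      (∀ v < NX X, ∀ w < NX X, ∀ g₂ ∈ bk X v, ∀ g₃ ∈ bk X w,
        WM (V * nm (e * A) / (nm c * Real.exp ((l : ℝ) / 3) ^ 2)) (2 ^ j / (nm n : ℝ) ^ 3) g₂ g₃ ≤
          Wb v w) → (∀ v < NX X, ∀ w < NX X, 0 ≤ Wb v w) → ∀ M : ℝ, 0 ≤ M →
      CellH h μ C P s V e A c X Qf g₀ p l u j n Wb M →
      ∑ j₂ ∈ Tb V e A c l, ∑ B ∈ bk X u, MNc A' V e A c X Qf δ g₀ φ p t₀ j₂ B j n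
        (sqc q (alf z D0 h (fun i => (s i).pc P) f)) ≤
      C * (Cφ ^ 2 * iA A' * (η * (η ^ A')⁻¹)) * X0 ^ ε * (1 + |t₀|) ^ A' * opL r D0 * M := by
  obtain ⟨C, hC, hx⟩ := cell_SDX hpu hR0 hR hμ r hε
  refine ⟨C, hC, ?_⟩
  intro A' hA' Cφ η hCφ hη hη1 φ hφ p t₀ P hP s hs f z D0 hD q g₀ δ e A hq hg₀ hδ he hA V X X0
    hX hXX hDX hgX hqX hδX hsX l u j n Qf Wb c hc hWb hWb0 M hM hcell
  have h1 := hx A' hA' Cφ η hCφ hη hη1 φ hφ p t₀ P hP s hs f z D0 hD q g₀ δ e A 1 hq hg₀ hδ he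
    hA V X X0 hX hXX hDX hgX hqX hδX hsX l u j n Qf Wb c hc hWb hWb0 M hM (cellX_one.2 hcell)
  simp only [mul_one] at h1
  exact h1

/-- the natural-list hypothesis of a cell, for lists -/
def CellL (h : ℝ → ℝ) (μ C : ℝ) (P : DPar) (ps : List Pf) (V : ℝ) (e A c : Eis) (X : ℝ)
    (Qf : Eis → Eis → Eis → Eis → Prop) (g₀ : Eis) (p : ℕ × ℕ) (l u j : ℕ) (n : Eis)
    (Wb : ℕ → ℕ → ℝ) (M : ℝ) : Prop :=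
  CellH h μ C P (fun i => (ps.get i).1) V e A c X Qf g₀ p l u j n Wb M

/-- **the cells of a flagged list**, list form -/
theorem cell_list {h : ℝ → ℝ} {c₀ : ℝ} (hpu : PU h c₀) {R : ℝ} (hR0 : 0 ≤ R)
    (hR : ∀ u, cx h u ≠ 0 → |u| ≤ R) {μ : ℝ} (hμ : 0 ≤ μ) (r : ℕ) {ε : ℝ} (hε : 0 < ε) :
    ∃ C : ℝ, 1 ≤ C ∧ ∀ A' : ℕ, 2 * (r * μ) + 2 ≤ A' → ∀ Cφ η : ℝ, 0 ≤ Cφ → 0 < η → η ≤ 1 →
      ∀ φ : ℝ → ℝ, WK Cφ η A' φ → ∀ (p : ℕ × ℕ) (t₀ : ℝ) (P : DPar) (_ : P.OK)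
      (ps : List Pf), ps.length = r → (∀ x ∈ ps, 0 ≤ x.1.z) → ∀ z D0 : ℝ, 1 ≤ D0 →
      ∀ q g₀ δ e A : Eis, IsPrim q → IsPrim g₀ → IsPrim δ → IsPrim e → IsPrim A →
      ∀ (V X X0 : ℝ), 1 ≤ X → X ≤ X0 → D0 ^ r ≤ X0 → (nm g₀ : ℝ) ≤ X0 → (nm q : ℝ) ≤ X0 →
      (nm δ : ℝ) ≤ X0 → (∀ x ∈ ps, Real.exp x.1.z ≤ X0) → ∀ (l u j : ℕ) (n : Eis)
      (Qf : Eis → Eis → Eis → Eis → Prop) (Wb : ℕ → ℕ → ℝ), ∀ c ∈ C4,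
      (∀ v < NX X, ∀ w < NX X, ∀ g₂ ∈ bk X v, ∀ g₃ ∈ bk X w,
        WM (V * nm (e * A) / (nm c * Real.exp ((l : ℝ) / 3) ^ 2)) (2 ^ j / (nm n : ℝ) ^ 3) g₂ g₃ ≤
          Wb v w) → (∀ v < NX X, ∀ w < NX X, 0 ≤ Wb v w) → ∀ M : ℝ, 0 ≤ M →
      CellL h μ C P ps V e A c X Qf g₀ p l u j n Wb M →
      ∑ j₂ ∈ Tb V e A c l, ∑ B ∈ bk X u, MNc A' V e A c X Qf δ g₀ φ p t₀ j₂ B j n
        (sqc q (alF z D0 P h ps)) ≤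
      C * (Cφ ^ 2 * iA A' * (η * (η ^ A')⁻¹)) * X0 ^ ε * (1 + |t₀|) ^ A' * opL r D0 * M := by
  obtain ⟨C, hC, hx⟩ := cell_SD hpu hR0 hR hμ r hε
  refine ⟨C, hC, ?_⟩
  intro A' hA' Cφ η hCφ hη hη1 φ hφ p t₀ P hP ps hr hs z D0 hD q g₀ δ e A hq hg₀ hδ he hA V X X0
    hX hXX hDX hgX hqX hδX hsX l u j n Qf Wb c hc hWb hWb0 M hM hcell
  subst hr
  rw [Leg381.alF_get]
  exact hx A' hA' Cφ η hCφ hη hη1 φ hφ p t₀ P hP (fun i => (ps.get i).1)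
    (fun i => hs _ (List.get_mem ps i)) _ z D0 hD q g₀ δ e A hq hg₀ hδ he
    hA V X X0 hX hXX hDX hgX hqX hδX (fun i => hsX _ (List.get_mem ps i)) l u j n Qf Wb c hc hWb
    hWb0 M hM hcell

/-- **two lists** -/
theorem cell_two {J : ℕ} {V : ℝ} {e A c : Eis} {X : ℝ} (hX : 0 ≤ X)
    {Qf : Eis → Eis → Eis → Eis → Prop} {δ g₀ : Eis} (hg₀ : IsPrim g₀) {φ : ℝ → ℝ} {p : ℕ × ℕ}
    {t₀ : ℝ} {l u j : ℕ} {n : Eis} {a b : Eis → ℂ} (ha : FS a) (hb : FS b) {ζ : ℂ}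
    (hζ : ‖ζ‖ ≤ 1) :
    ∑ j₂ ∈ Tb V e A c l, ∑ B ∈ bk X u,
      MNc J V e A c X Qf δ g₀ φ p t₀ j₂ B j n (fun m => a m - ζ * b m) ≤
    2 * (∑ j₂ ∈ Tb V e A c l, ∑ B ∈ bk X u, MNc J V e A c X Qf δ g₀ φ p t₀ j₂ B j n a +
      ∑ j₂ ∈ Tb V e A c l, ∑ B ∈ bk X u, MNc J V e A c X Qf δ g₀ φ p t₀ j₂ B j n b) := by
  have hQF : QF (fun α => ∑ j₂ ∈ Tb V e A c l, ∑ B ∈ bk X u,
      MNc J V e A c X Qf δ g₀ φ p t₀ j₂ B j n α) := by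
    refine QF_sum1 _ fun j₂ hj₂ => QF_sum1 _ fun B hB => ?_
    have h1 : 0 ≤ RR V e A c j₂ := by linarith [(mem_Tb.1 hj₂).2]
    exact QF_agbw (QF_MNn (fun g₂ _ g₃ _ => H1401.WM_nonneg h1 (by positivity) g₂ g₃) hX
      (bk_prim hX hB).ne_zero) hg₀ δ φ p t₀
  exact QF_sub hQF ha hb hζ

lemma MNc_nonneg {J : ℕ} {V : ℝ} {e A c : Eis} {X : ℝ} {Qf : Eis → Eis → Eis → Eis → Prop}
    {δ g₀ : Eis} {φ : ℝ → ℝ} {p : ℕ × ℕ} {t₀ : ℝ} {j₂ B : Eis} {j : ℕ} {n : Eis} {α : Eis → ℂ}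
    (hR : 1 ≤ RR V e A c j₂) : 0 ≤ MNc J V e A c X Qf δ g₀ φ p t₀ j₂ B j n α :=
  MNn_nonneg (fun g₂ _ g₃ _ => H1401.WM_nonneg (by linarith) (by positivity) g₂ g₃) _

/-- the moment hypothesis at any frequency -/
theorem MNx_spec {J : ℕ} {V : ℝ} {e A c : Eis} {X : ℝ} (hX : 0 ≤ X)
    {Q : Eis → Eis → Eis → Prop} {δ g₀ : Eis} (hg₀ : IsPrim g₀) {φ : ℝ → ℝ} {p : ℕ × ℕ}
    {t₀ : ℝ} {E j₂ B : Eis} (hR : 1 ≤ RR V e A c j₂) (hB : B ≠ 0) (j : ℕ) (ν : Eis)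
    {α : Eis → ℂ} (hα : FS α) (i : IX c) (t : ℝ) :
    ∑ n ∈ dvs ν, (nm n : ℝ) * MoP (ag (bw φ p t₀ α) δ g₀) E B (dl' c i) X t (2 ^ j)
      (WM (RR V e A c j₂) (2 ^ j / (nm n : ℝ) ^ 3))
      (fP (fun g₂ g₃ d => DN n g₂ g₃ d ∧ (2 : ℝ) ^ j / 2 < nm d) (Q B (dl' c i))) ≤
    (1 + |t|) ^ J * ∑ n ∈ dvs ν, (nm n : ℝ) * MNx J V e A c X Q δ g₀ φ p t₀ E j₂ B j n α := by
  rw [Finset.mul_sum]
  refine Finset.sum_le_sum fun n _ => ?_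
  rw [mul_left_comm]
  refine mul_le_mul_of_nonneg_left ?_ (Nat.cast_nonneg _)
  exact MNn_spec (fun g₂ _ g₃ _ => H1401.WM_nonneg (by linarith) (by positivity) g₂ g₃) hX hB
    (E2440.fs_ag (FS_bw hα) hg₀) i t

/-- the moment hypothesis of `Qs_cells` for the part with the predicate -/
theorem MNc_spec {J : ℕ} {V : ℝ} {e A c : Eis} {X : ℝ} (hX : 0 ≤ X)
    {Qf : Eis → Eis → Eis → Eis → Prop} {δ g₀ : Eis} (hg₀ : IsPrim g₀) {φ : ℝ → ℝ} {p : ℕ × ℕ}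
    {t₀ : ℝ} {j₂ B : Eis} (hR : 1 ≤ RR V e A c j₂) (hB : B ≠ 0) (j : ℕ) (ν : Eis)
    {α : Eis → ℂ} (hα : FS α) (i : IX c) (t : ℝ) :
    ∑ n ∈ dvs ν, (nm n : ℝ) * MoP (ag (bw φ p t₀ α) δ g₀) (e * A * j₂) B (dl' c i) X t (2 ^ j)
      (WM (RR V e A c j₂) (2 ^ j / (nm n : ℝ) ^ 3))
      (fP (fun g₂ g₃ d => DN n g₂ g₃ d ∧ (2 : ℝ) ^ j / 2 < nm d)
        (Qf (e * A * j₂) B (dl' c i))) ≤
    (1 + |t|) ^ J * ∑ n ∈ dvs ν, (nm n : ℝ) * MNc J V e A c X Qf δ g₀ φ p t₀ j₂ B j n α :=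
  MNx_spec hX hg₀ hR hB j ν hα i t

open Classical in
/-- **the merged frequencies of the non principal `d`** -/
theorem q4_np {T : Finset Eis} {X Z : ℝ} (hX : 0 ≤ X) (hZ : 0 ≤ Z) {u v w : ℕ}
    (hT : ∀ y ∈ T, IsPrim y) {e A τ g₃ : Eis} (he : IsPrim e) (hA : IsPrim A) (hτ : τ ≠ 0)
    (p : ℕ × ℕ) {P : Eis → Eis → Eis → Prop} {x : I4}
    (hx : x ∈ Q4 T X Z u v (fun y B => fP P fun d => ¬ PrQ (e * A * y * kw p ^ 2) B τ d) g₃) :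
    T411.NCube (f4 (e * A * kw p ^ 2) τ x) := by
  obtain ⟨⟨h1, h2, h3, h4⟩, -, h5, h6⟩ := mem_Q4.1 hx
  have p1 := hT _ h1
  have p2 := bk_prim hX h2
  have p3 := bk_prim hX h3
  have p4 : IsPrim x.2.2.2 := ((mem_pb hZ).1 h4).2
  have hE : e * A * x.1 * kw p ^ 2 ≠ 0 := mul_ne_zero
    (mul_ne_zero (mul_ne_zero he.ne_zero hA.ne_zero) p1.ne_zero) (pow_ne_zero 2 (kw_ne p))
  have h7 := np_freq hE hτ p2.ne_zero p3.ne_zero p4.ne_zero h6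
  have e1 : f4 (e * A * kw p ^ 2) τ x =
      e * A * x.1 * kw p ^ 2 * τ * (x.2.2.2 * (x.2.2.1 * x.2.1) ^ 2) := by
    unfold MoL106.f4
    ring
  rw [e1]
  exact h7

end Crest.Agent.R017.NPy739
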