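import Crest.Agent.R017.MoJg_401

/-!
# Row 17, block C70, leaf E2 (helper401): the joint cells of flagged lists

* `CellXJ` : the natural cells
* `cell_dlJ` : one opened piece
* `cell_SDJ`, `cell_listJ` : flagged lists
-/

set_option autoImplicit false
set_option maxHeartbeats 400000

noncomputable section

open Complex Finset
open scoped ComplexConjugate

namespace Crest.Agent.R017.MoJ401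

open Crest.Agent.R012 Crest.Agent.R012.Eis Crest.Agent.R012.LS2
open Crest.Agent.R012.Div277 Crest.Agent.R012.Weight600
open Crest.Agent.R017.CM106 Crest.Agent.R017.FE47 Crest.Agent.R017.End699
open Crest.Agent.R017.B770
open Crest.Agent.R017.Prov71
open Crest.Agent.R017.HP842 (pc sqc)
open Crest.Agent.R017.Leg381 (alf alF Pf LF)
open Crest.Agent.R017.TPOk571 (IP FP SD SD_w SD_len SD_ht sd_ok AC relU)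
open Crest.Agent.R017.X6C180 (IX dl')
open Crest.Agent.R017.H1401 (pb mem_pb WJ DN GB)
open Crest.Agent.R017.Win813 (iA iA_nonneg WK)
open Crest.Agent.R017.XRG106
open Crest.Agent.R017.MoF106
open Crest.Agent.R017.MoL106 (FromP Q4 mem_Q4 f4 kw)
open Crest.Agent.R017.E2440 (ag cT C4 mem_C4)
open Crest.Agent.R017.QsO83 (bw FS_bw QF_sum1)
open Crest.Agent.R017.NtC320 (QF)

/-- **the natural cells of a joint cell** : `E₀ y` the frequency, `Rm` the common length, `Z`, `U` the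
sizes of `d` and `B`, `n0` the total of the list (after the opening) -/
def CellXJ (h : ℝ → ℝ) (μ C : ℝ) {r : ℕ} (P : DPar) (s : Fin r → Pq) (σ δ g₀ ν E₀ : Eis)
    (p : ℕ × ℕ) (T : Finset Eis) (Bs : Eis → Finset Eis) (X Z Rm U : ℝ)
    (Q : Eis → IX σ → Eis → Eis → Prop) (n0 M : ℝ) : Prop :=
  ∀ n ∈ dvs ν, ∀ g ∈ S U, IsCoprime g δ →
    ∀ u < NX X, ∀ v < NX X, ∀ w < NX X, Real.exp ((u : ℝ) / 3) * nm g ≤ U →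
    U ≤ 2 * (Real.exp ((u : ℝ) / 3 + 1 / 3) * nm g) →
    (nm n : ℝ) ^ 3 * (Real.exp (2 * ((v : ℝ) / 3)) * Real.exp w) ≤ Z / nm g →
    ∀ i : IX σ, ∀ g₃ ∈ bk X w, ∀ (s' : Fin r → Pq) (W0 : ℝ), 1 ≤ W0 →
    (∀ k, Rl C W0 (s' k) (s k)) →
    ∑ k, (s' k).z ≤ n0 - (Real.log (nm (g₀ * g)) + ((u : ℝ) / 3 + v / 3 + w / 3)) + C →
    (nm n : ℝ) * nm g * wJc Rm (Z / (nm n : ℝ) ^ 3) U (nm g) (Real.exp ((v : ℝ) / 3)) *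
      Real.exp ((w : ℝ) / 3) *
      ∑ x ∈ Q4 T X (Z / nm g) u v (fun y B g₂ g₃ d =>
        g * B ∈ Bs y ∧ PJQ (Q y i) n g Z B g₂ g₃ d) g₃,
      ∏ k, ‖CS (pc h ((s' k).pc P)) (f4 (E₀ * kw p ^ 2) (dl' σ i) x)‖ ^ 2 ≤
    M * Real.exp (∑ k, (s' k).z - (n0 -
      (Real.log (nm (g₀ * g)) + ((u : ℝ) / 3 + v / 3 + w / 3)))) * W0 ^ (2 * μ)

section
variable {h : ℝ → ℝ} {μ : ℝ} {r : ℕ} {P : DPar} {s : Fin r → Pq} {σ δ g₀ ν E₀ : Eis}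
    {p : ℕ × ℕ} {T : Finset Eis} {Bs : Eis → Finset Eis} {X Z Rm U : ℝ}
    {Q : Eis → IX σ → Eis → Eis → Prop}

lemma CellXJ.mono {C C' n0 M : ℝ} (H : CellXJ h μ C' P s σ δ g₀ ν E₀ p T Bs X Z Rm U Q n0 M)
    (hC : C ≤ C') : CellXJ h μ C P s σ δ g₀ ν E₀ p T Bs X Z Rm U Q n0 M := by
  intro n hn g hg hgδ u hu v hv w hw h1 h2 h3 i g₃ hg₃ s' W0 hW0 hR hle
  exact H n hn g hg hgδ u hu v hv w hw h1 h2 h3 i g₃ hg₃ s' W0 hW0 (fun k => (hR k).mono hC)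
    (hle.trans (by linarith))

/-- the cells of an opened piece -/
lemma CellXJ.open {C n0 M G : ℝ} (hG : 0 < G)
    (H : CellXJ h μ C P s σ δ g₀ ν E₀ p T Bs X Z Rm U Q n0 M) :
    ∀ n ∈ dvs ν, ∀ g ∈ S U, IsCoprime g δ →
    ∀ u < NX X, ∀ v < NX X, ∀ w < NX X, Real.exp ((u : ℝ) / 3) * nm g ≤ U →
    U ≤ 2 * (Real.exp ((u : ℝ) / 3 + 1 / 3) * nm g) →
    (nm n : ℝ) ^ 3 * (Real.exp (2 * ((v : ℝ) / 3)) * Real.exp w) ≤ Z / nm g →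
    ∀ i : IX σ, ∀ g₃ ∈ bk X w, ∀ (s' : Fin r → Pq) (W0 : ℝ), 1 ≤ W0 →
    (∀ k, Rl C W0 (s' k) (s k)) →
    ∑ k, (s' k).z ≤ (n0 - Real.log G) + Real.log G -
      (Real.log (nm (g₀ * g)) + ((u : ℝ) / 3 + v / 3 + w / 3)) + C →
    (nm n : ℝ) * nm g * wJc Rm (Z / (nm n : ℝ) ^ 3) U (nm g) (Real.exp ((v : ℝ) / 3)) *
      Real.exp ((w : ℝ) / 3) *
      ∑ x ∈ Q4 T X (Z / nm g) u v (fun y B g₂ g₃ d =>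
        g * B ∈ Bs y ∧ PJQ (Q y i) n g Z B g₂ g₃ d) g₃,
      ∏ k, ‖CS (pc h ((s' k).pc P)) (f4 (E₀ * kw p ^ 2) (dl' σ i) x)‖ ^ 2 ≤
    (M / G) * Real.exp (∑ k, (s' k).z - ((n0 - Real.log G) -
      (Real.log (nm (g₀ * g)) + ((u : ℝ) / 3 + v / 3 + w / 3)))) * W0 ^ (2 * μ) := by
  intro n hn g hg hgδ u hu v hv w hw h1 h2 h3 i g₃ hg₃ s' W0 hW0 hR hle
  refine (H n hn g hg hgδ u hu v hv w hw h1 h2 h3 i g₃ hg₃ s' W0 hW0 hR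
    (by linarith)).trans (le_of_eq ?_)
  congr 1
  have e1 : ∑ k, (s' k).z - ((n0 - Real.log G) -
      (Real.log (nm (g₀ * g)) + ((u : ℝ) / 3 + v / 3 + w / 3))) =
      (∑ k, (s' k).z - (n0 - (Real.log (nm (g₀ * g)) + ((u : ℝ) / 3 + v / 3 + w / 3)))) +
        Real.log G := by ring
  rw [e1, Real.exp_add, Real.exp_log hG]
  field_simp

end

/-- **one opened piece** -/
theorem cell_dlJ {h : ℝ → ℝ} {c₀ : ℝ} (hpu : PU h c₀) {R : ℝ} (hR0 : 0 ≤ R)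
    (hR : ∀ u, cx h u ≠ 0 → |u| ≤ R) {μ : ℝ} (hμ : 0 ≤ μ) (r : ℕ) {ε : ℝ} (hε : 0 < ε) :
    ∃ C : ℝ, 1 ≤ C ∧ ∀ A' : ℕ, 2 * (r * μ) + 2 ≤ A' → ∀ Cφ η : ℝ, 0 ≤ Cφ → 0 < η → η ≤ 1 →
      ∀ φ : ℝ → ℝ, WK Cφ η A' φ → ∀ (p : ℕ × ℕ) (t₀ : ℝ) (P : DPar) (hP : P.OK)
      (s : Fin r → Pq), (∀ i, 0 ≤ (s i).z) → ∀ jp : Fin r → IP, (∀ i, FromP hP (jp i) (s i)) →
      ∀ γ q g₀ δ ν E₀ : Eis, IsPrim γ → Squarefree γ → IsPrim q → IsPrim g₀ → IsPrim δ →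
      IsPrim ν → ∀ (X X0 : ℝ), 1 ≤ X → X ≤ X0 → (nm γ : ℝ) ≤ X0 → (nm g₀ : ℝ) ≤ X0 →
      (nm q : ℝ) ≤ X0 → (nm δ : ℝ) ≤ X0 → (nm ν : ℝ) ≤ X0 → (∀ i, Real.exp (s i).z ≤ X0) →
      ∀ c ∈ C4, ∀ (T : Finset Eis) (Bs : Eis → Finset Eis) (Z Rm U : ℝ) (Ry : Eis → ℝ),
      0 ≤ Z → 0 ≤ Rm → 1 ≤ U → U ≤ X0 → (∀ y ∈ T, 0 ≤ Ry y ∧ Ry y ≤ Rm) →
      (∀ y ∈ T, ∀ B ∈ Bs y, B ∈ S X ∧ U / 2 ≤ nm B ∧ (nm B : ℝ) ≤ U) →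
      ∀ (Q : Eis → IX c → Eis → Eis → Prop) (M : ℝ), 0 ≤ M →
      CellXJ h μ C P s c δ g₀ ν E₀ p T Bs X Z Rm U Q (∑ k, (jp k).z + Real.log (nm γ)) M →
      ∑ y ∈ T, MNJ A' c ν (E₀ * y) X (Ry y) Z U (Bs y) (Q y)
        (ag (bw φ p t₀ (dl γ (TP320.sq (q * γ) ((SD h μ r).w jp)))) δ g₀) ≤
      C * (Cφ ^ 2 * iA A' * (η * (η ^ A')⁻¹)) * (1 + |t₀|) ^ A' * X0 ^ ε * M := by
  classical
  have key : ∀ c : Eis, ∃ C : ℝ, 1 ≤ C ∧ ∀ A' : ℕ, 2 * (r * μ) + 2 ≤ A' →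
      ∀ Cφ η : ℝ, 0 ≤ Cφ → 0 < η → η ≤ 1 →
      ∀ φ : ℝ → ℝ, WK Cφ η A' φ → ∀ (p : ℕ × ℕ) (t₀ : ℝ) (P : DPar) (hP : P.OK)
      (s : Fin r → Pq), (∀ i, 0 ≤ (s i).z) → ∀ jp : Fin r → IP, (∀ i, FromP hP (jp i) (s i)) →
      ∀ γ q g₀ δ ν E₀ : Eis, IsPrim γ → Squarefree γ → IsPrim q → IsPrim g₀ → IsPrim δ →
      IsPrim ν → ∀ (X X0 : ℝ), 1 ≤ X → X ≤ X0 → (nm γ : ℝ) ≤ X0 → (nm g₀ : ℝ) ≤ X0 →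
      (nm q : ℝ) ≤ X0 → (nm δ : ℝ) ≤ X0 → (nm ν : ℝ) ≤ X0 → (∀ i, Real.exp (s i).z ≤ X0) →
      ∀ (T : Finset Eis) (Bs : Eis → Finset Eis) (Z Rm U : ℝ) (Ry : Eis → ℝ),
      0 ≤ Z → 0 ≤ Rm → 1 ≤ U → U ≤ X0 → (∀ y ∈ T, 0 ≤ Ry y ∧ Ry y ≤ Rm) →
      (∀ y ∈ T, ∀ B ∈ Bs y, B ∈ S X ∧ U / 2 ≤ nm B ∧ (nm B : ℝ) ≤ U) →
      ∀ (Q : Eis → IX c → Eis → Eis → Prop) (M : ℝ), 0 ≤ M →
      CellXJ h μ C P s c δ g₀ ν E₀ p T Bs X Z Rm U Q (∑ k, (jp k).z + Real.log (nm γ)) M →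
      ∑ y ∈ T, MNJ A' c ν (E₀ * y) X (Ry y) Z U (Bs y) (Q y)
        (ag (bw φ p t₀ (dl γ (TP320.sq (q * γ) ((SD h μ r).w jp)))) δ g₀) ≤
      C * (Cφ ^ 2 * iA A' * (η * (η ^ A')⁻¹)) * (1 + |t₀|) ^ A' * X0 ^ ε * M := by
    intro c
    obtain ⟨C, hC, H⟩ := MoJQ_cell hpu hR0 hR hμ r c hε
    refine ⟨C, hC, ?_⟩
    intro A' hA' Cφ η hCφ hη hη1 φ hφ p t₀ P hP s hs jp hjp γ q g₀ δ ν E₀ hγ hγs hq hg₀ hδ hν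
      X X0 hX hXX hγX hgX hqX hδX hνX hsX T Bs Z Rm U Ry hZ hRm hU hUX hRy hBs Q M hM hcell
    have hγ0 : (0 : ℝ) < nm γ := by exact_mod_cast nm_pos.2 hγ.ne_zero
    have hX0 : 0 ≤ X := by linarith
    obtain ⟨Mw, hMw0, hMw, hsum⟩ := H A' hA' Cφ η φ hCφ hη hη1 hφ P hP s hs jp hjp γ q g₀ δ E₀ ν
      hγ hγs hg₀ hq hδ hν T Bs X Z Rm U X0 hX hZ hRm hU hXX hUX hγX hgX hqX hδX hνX hsX hBs Q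
      (M / nm γ) (by positivity) p t₀ (by
        intro n hn g hg hgδ u hu v hv w hw h1 h2 h3 i g₃ hg₃ s' W0 hW0 hRl hle
        have h4 := hcell.open hγ0 n hn g hg hgδ u hu v hv w hw h1 h2 h3 i g₃ hg₃ s' W0 hW0 hRl
          (by linarith)
        refine h4.trans (le_of_eq ?_)
        congr 3
        ring)
    refine (Finset.sum_le_sum fun y hy => MNJ_le (hMw0 y) fun i t => ?_).trans
      (hsum.trans (le_of_eq ?_))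
    · exact hMw y hy (Ry y) (hRy y hy).1 (hRy y hy).2 i t
    · field_simp
  choose Cf hCf hx using key
  have hsum0 : ∀ c ∈ C4, 0 ≤ Cf c := fun c _ => by linarith [hCf c]
  refine ⟨1 + ∑ c ∈ C4, Cf c, by linarith [Finset.sum_nonneg hsum0], ?_⟩
  intro A' hA' Cφ η hCφ hη hη1 φ hφ p t₀ P hP s hs jp hjp γ q g₀ δ ν E₀ hγ hγs hq hg₀ hδ hν
      X X0 hX hXX hγX hgX hqX hδX hνX hsX c hc T Bs Z Rm U Ry hZ hRm hU hUX hRy hBs Q M hM hcell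
  have hle : Cf c ≤ 1 + ∑ c ∈ C4, Cf c := by
    have := Finset.single_le_sum hsum0 hc
    linarith
  refine (hx c A' hA' Cφ η hCφ hη hη1 φ hφ p t₀ P hP s hs jp hjp γ q g₀ δ ν E₀ hγ hγs hq hg₀ hδ hν
      X X0 hX hXX hγX hgX hqX hδX hνX hsX T Bs Z Rm U Ry hZ hRm hU hUX hRy hBs Q M hM
      (hcell.mono hle)).trans ?_
  have h2 := iA_nonneg A'
  have h3 : 0 ≤ X0 := by linarith
  gcongr

/-- **a flagged list** -/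
theorem cell_SDJ {h : ℝ → ℝ} {c₀ : ℝ} (hpu : PU h c₀) {R : ℝ} (hR0 : 0 ≤ R)
    (hR : ∀ u, cx h u ≠ 0 → |u| ≤ R) {μ : ℝ} (hμ : 0 ≤ μ) (r : ℕ) {ε : ℝ} (hε : 0 < ε) :
    ∃ C : ℝ, 1 ≤ C ∧ ∀ A' : ℕ, 2 * (r * μ) + 2 ≤ A' → ∀ Cφ η : ℝ, 0 ≤ Cφ → 0 < η → η ≤ 1 →
      ∀ φ : ℝ → ℝ, WK Cφ η A' φ → ∀ (p : ℕ × ℕ) (t₀ : ℝ) (P : DPar) (_ : P.OK)
      (s : Fin r → Pq), (∀ i, 0 ≤ (s i).z) → ∀ (f : Fin r → Bool) (z D0 : ℝ), 1 ≤ D0 →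
      ∀ q g₀ δ ν E₀ : Eis, IsPrim q → IsPrim g₀ → IsPrim δ →
      IsPrim ν → ∀ (X X0 : ℝ), 1 ≤ X → X ≤ X0 → D0 ^ r ≤ X0 → (nm g₀ : ℝ) ≤ X0 →
      (nm q : ℝ) ≤ X0 → (nm δ : ℝ) ≤ X0 → (nm ν : ℝ) ≤ X0 → (∀ i, Real.exp (s i).z ≤ X0) →
      ∀ c ∈ C4, ∀ (T : Finset Eis) (Bs : Eis → Finset Eis) (Z Rm U : ℝ) (Ry : Eis → ℝ),
      0 ≤ Z → 0 ≤ Rm → 1 ≤ U → U ≤ X0 → (∀ y ∈ T, 0 ≤ Ry y ∧ Ry y ≤ Rm) →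
      (∀ y ∈ T, ∀ B ∈ Bs y, B ∈ S X ∧ U / 2 ≤ nm B ∧ (nm B : ℝ) ≤ U) →
      ∀ (Q : Eis → IX c → Eis → Eis → Prop) (M : ℝ), 0 ≤ M →
      CellXJ h μ C P s c δ g₀ ν E₀ p T Bs X Z Rm U Q (∑ k, (s k).z) M →
      ∑ y ∈ T, MNJ A' c ν (E₀ * y) X (Ry y) Z U (Bs y) (Q y)
        (ag (bw φ p t₀ (sqc q (alf z D0 h (fun i => (s i).pc P) f))) δ g₀) ≤
      ((100 * D0) ^ r) ^ 2 *
        (C * (Cφ ^ 2 * iA A' * (η * (η ^ A')⁻¹)) * (1 + |t₀|) ^ A' * X0 ^ ε * M) := by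
  obtain ⟨C, hC, hdl⟩ := cell_dlJ hpu hR0 hR hμ r hε
  refine ⟨C, hC, ?_⟩
  intro A' hA' Cφ η hCφ hη hη1 φ hφ p t₀ P hP s hs f z D0 hD q g₀ δ ν E₀ hq hg₀ hδ hν
      X X0 hX hXX hDX hgX hqX hδX hνX hsX c hc T Bs Z Rm U Ry hZ hRm hU hUX hRy hBs Q M hM hcell
  have hX0 : 0 ≤ X := by linarith
  have hX01 : 1 ≤ X0 := by linarith
  have hC0 : 0 ≤ C := by linarith
  have hi := iA_nonneg A'
  have hQF : QF (fun α => ∑ y ∈ T, MNJ A' c ν (E₀ * y) X (Ry y) Z U (Bs y) (Q y)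
        (ag (bw φ p t₀ α) δ g₀)) :=
    QF_sum1 _ fun y hy => QF_MNJ φ p t₀ hg₀ hX0 (hRy y hy).1 (fun B hB => (hBs y hy B hB).1) (Q y)
  refine QsO83.nt_SD hQF hR μ hP s (z := z) hD f q (by positivity) ?_
  intro γ hγ hγs _ hγD jp hjp hlen
  refine hdl A' hA' Cφ η hCφ hη hη1 φ hφ p t₀ P hP s hs jp hjp γ q g₀ δ ν E₀ hγ hγs hq hg₀ hδ
    hν X X0 hX hXX (hγD.trans hDX) hgX hqX hδX hνX hsX c hc T Bs Z Rm U Ry hZ hRm hU hUX hRy hBs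
    Q M hM ?_
  rw [hlen, sub_add_cancel]
  exact hcell

/-- **a flagged list**, list form -/
theorem cell_listJ {h : ℝ → ℝ} {c₀ : ℝ} (hpu : PU h c₀) {R : ℝ} (hR0 : 0 ≤ R)
    (hR : ∀ u, cx h u ≠ 0 → |u| ≤ R) {μ : ℝ} (hμ : 0 ≤ μ) (r : ℕ) {ε : ℝ} (hε : 0 < ε) :
    ∃ C : ℝ, 1 ≤ C ∧ ∀ A' : ℕ, 2 * (r * μ) + 2 ≤ A' → ∀ Cφ η : ℝ, 0 ≤ Cφ → 0 < η → η ≤ 1 →
      ∀ φ : ℝ → ℝ, WK Cφ η A' φ → ∀ (p : ℕ × ℕ) (t₀ : ℝ) (P : DPar) (_ : P.OK)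
      (ps : List Pf), ps.length = r → (∀ x ∈ ps, 0 ≤ x.1.z) → ∀ z D0 : ℝ, 1 ≤ D0 →
      ∀ q g₀ δ ν E₀ : Eis, IsPrim q → IsPrim g₀ → IsPrim δ →
      IsPrim ν → ∀ (X X0 : ℝ), 1 ≤ X → X ≤ X0 → D0 ^ r ≤ X0 → (nm g₀ : ℝ) ≤ X0 →
      (nm q : ℝ) ≤ X0 → (nm δ : ℝ) ≤ X0 → (nm ν : ℝ) ≤ X0 → (∀ x ∈ ps, Real.exp x.1.z ≤ X0) →
      ∀ c ∈ C4, ∀ (T : Finset Eis) (Bs : Eis → Finset Eis) (Z Rm U : ℝ) (Ry : Eis → ℝ),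
      0 ≤ Z → 0 ≤ Rm → 1 ≤ U → U ≤ X0 → (∀ y ∈ T, 0 ≤ Ry y ∧ Ry y ≤ Rm) →
      (∀ y ∈ T, ∀ B ∈ Bs y, B ∈ S X ∧ U / 2 ≤ nm B ∧ (nm B : ℝ) ≤ U) →
      ∀ (Q : Eis → IX c → Eis → Eis → Prop) (M : ℝ), 0 ≤ M →
      CellXJ h μ C P (fun i => (ps.get i).1) c δ g₀ ν E₀ p T Bs X Z Rm U Q (LF ps) M →
      ∑ y ∈ T, MNJ A' c ν (E₀ * y) X (Ry y) Z U (Bs y) (Q y)
        (ag (bw φ p t₀ (sqc q (alF z D0 P h ps))) δ g₀) ≤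
      ((100 * D0) ^ r) ^ 2 *
        (C * (Cφ ^ 2 * iA A' * (η * (η ^ A')⁻¹)) * (1 + |t₀|) ^ A' * X0 ^ ε * M) := by
  obtain ⟨C, hC, hx⟩ := cell_SDJ hpu hR0 hR hμ r hε
  refine ⟨C, hC, ?_⟩
  intro A' hA' Cφ η hCφ hη hη1 φ hφ p t₀ P hP ps hr hs z D0 hD q g₀ δ ν E₀ hq hg₀ hδ hν
      X X0 hX hXX hDX hgX hqX hδX hνX hsX c hc T Bs Z Rm U Ry hZ hRm hU hUX hRy hBs Q M hM hcell
  subst hr
  rw [Leg381.alF_get]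
  refine hx A' hA' Cφ η hCφ hη hη1 φ hφ p t₀ P hP (fun i => (ps.get i).1)
    (fun i => hs _ (List.get_mem ps i)) _ z D0 hD q g₀ δ ν E₀ hq hg₀ hδ hν
    X X0 hX hXX hDX hgX hqX hδX hνX (fun i => hsX _ (List.get_mem ps i)) c hc T Bs Z Rm U Ry hZ
    hRm hU hUX hRy hBs Q M hM ?_
  have e1 : LF ps = ∑ k : Fin ps.length, (ps.get k).1.z := by
    unfold Leg381.LF
    conv_lhs => rw [← List.ofFn_get ps]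
    rw [List.map_ofFn, List.sum_ofFn]
    rfl
  rw [← e1]
  exact hcell

end Crest.Agent.R017.MoJ401
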