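import Crest.Agent.R017.QsJd_401
import Crest.Agent.R017.MoJh_401

/-!
# Row 17, block C70, leaf E2 (helper401): the joint cells of `Qs_cellsJ` for flagged lists

* `FJQ` : the joint functional of `Qs_cellsJ`
* `FJQ_spec`, `FJQ_specN` : it bounds the block moments
* `CellLJ`, `FJQ_list`, `FJQ_dl` : the joint cells from natural cells
-/

set_option autoImplicit false
set_option linter.unusedVariables false

noncomputable section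

open Complex Finset
open scoped ComplexConjugate

namespace Crest.Agent.R017.QsJ401

open Crest.Agent.R012 Crest.Agent.R012.Eis
open Crest.Agent.R012.Div277
open Crest.Agent.R012.LS2 (S mem_S)
open Crest.Agent.R017.X6C180 (IX dl')
open Crest.Agent.R017.CM106 (sub CS FS)
open Crest.Agent.R017.FE47 (cx PU)
open Crest.Agent.R017.HP842 (pc sqc)
open Crest.Agent.R017.Leg381 (alf alF Pf LF)
open Crest.Agent.R017.B770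
open Crest.Agent.R017.Prov71
open Crest.Agent.R017.XRG106
open Crest.Agent.R017.TPOk571 (IP FP SD SD_w SD_len SD_ht sd_ok AC relU)
open Crest.Agent.R017.Win813 (iA iA_nonneg WK)
open Crest.Agent.R017.MoF106 (MoP NX bk mem_bk bk_prim bk_nm_ge bk_nm_le sum_bk UU)
open Crest.Agent.R017.MoL106 (FromP)
open Crest.Agent.R017.E2D401 (MoJ Bj)
open Crest.Agent.R017.QsO83 (bw)
open Crest.Agent.R017.E2440
open Crest.Agent.R017.MoJ401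

/-- the joint functional of `Qs_cellsJ` -/
def FJQ (Jt : ℕ) (T H X V K B0 : ℝ) (ν g₀ δ e A c : Eis) (Qf : Eis → Eis → Eis → Eis → Prop)
    (α : Eis → ℂ) (j₂ : Eis) (u j : ℕ) : ℝ :=
  MNJ Jt c ν (e * A * j₂) X (RR V e A c j₂) (2 ^ j) (2 ^ u)
    (Bj X (Nj T H X V K B0 ν e A c j₂) u j) (fun i B d => Qf (e * A * j₂) B (dl' c i) d)
    (ag α δ g₀)

section
variable {Jt : ℕ} {T H X V K B0 : ℝ} {ν g₀ δ e A c : Eis} {Qf : Eis → Eis → Eis → Eis → Prop}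
    {α : Eis → ℂ} {j₂ : Eis}

lemma FJQ_nonneg (hR : 0 ≤ RR V e A c j₂) (u j : ℕ) :
    0 ≤ FJQ Jt T H X V K B0 ν g₀ δ e A c Qf α j₂ u j := MNJ_nonneg hR _

/-- the block moments with a predicate -/
lemma FJQ_spec (hX : 0 ≤ X) (hR : 0 ≤ RR V e A c j₂)
    (hα : (Function.support (ag α δ g₀)).Finite) (u j : ℕ) (i : IX c) (t : ℝ) :
    MoJQ ν (ag α δ g₀) (e * A * j₂) (dl' c i) X t (RR V e A c j₂) (2 ^ j) (2 ^ u)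
      (Bj X (Nj T H X V K B0 ν e A c j₂) u j) (fun B d => Qf (e * A * j₂) B (dl' c i) d) ≤
    (1 + |t|) ^ Jt * FJQ Jt T H X V K B0 ν g₀ δ e A c Qf α j₂ u j :=
  MNJ_spec (Q := fun i B d => Qf (e * A * j₂) B (dl' c i) d) hα hX hR
    (fun B hB => (mem_Bj.1 hB).1) i t

/-- the block moments -/
lemma FJQ_specN (hX : 0 ≤ X) (hR : 0 ≤ RR V e A c j₂)
    (hα : (Function.support (ag α δ g₀)).Finite) (u j : ℕ) (i : IX c) (t : ℝ) :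
    MoJ ν (ag α δ g₀) (e * A * j₂) (dl' c i) X t (RR V e A c j₂) (2 ^ j) (2 ^ u)
      (Bj X (Nj T H X V K B0 ν e A c j₂) u j) ≤
    (1 + |t|) ^ Jt * FJQ Jt T H X V K B0 ν g₀ δ e A c (fun _ _ _ _ => True) α j₂ u j := by
  rw [← MoJQ_true]
  exact FJQ_spec (Qf := fun _ _ _ _ => True) hX hR hα u j i t

end

/-- the common length -/
lemma RR_le_Rm {V : ℝ} (hV : 0 ≤ V) {e A c j₂ : Eis} (hc : c ∈ C4) {l : ℕ}
    (h : j₂ ∈ Tb V e A c l) :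
    RR V e A c j₂ ≤ V * nm (e * A) / (nm c * Real.exp ((l : ℝ) / 3) ^ 2) := by
  have h1 := bk_nm_ge (Real.sqrt_nonneg V) (mem_Tb.1 h).1
  have h2 := one_le_nmC hc
  unfold E2440.RR
  have h3 := Real.exp_pos ((l : ℝ) / 3)
  gcongr

lemma CellJ.U_le {T H X V K B0 : ℝ} (hX : 0 ≤ X) {ν e A c : Eis} {l u j : ℕ}
    (h : CellJ T H X V K B0 ν e A c l u j) : (2 : ℝ) ^ u ≤ 2 * X := by
  obtain ⟨j₂, -, B, hB⟩ := h
  have h1 := Bj_block hX hB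
  have h2 := ((mem_S hX).1 h1.1).1
  linarith

/-- the natural cells of a joint cell of `Qs_cellsJ` -/
def CellLJ (h : ℝ → ℝ) (μ C : ℝ) {r : ℕ} (P : DPar) (s : Fin r → Pq) (T H X V K B0 : ℝ)
    (ν e A c δ g₀ : Eis) (p : ℕ × ℕ) (l u j : ℕ) (Qf : Eis → Eis → Eis → Eis → Prop)
    (n0 M : ℝ) : Prop :=
  CellXJ h μ C P s c δ g₀ ν (e * A) p (Tb V e A c l)
    (fun y => Bj X (Nj T H X V K B0 ν e A c y) u j) X (2 ^ j)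
    (V * nm (e * A) / (nm c * Real.exp ((l : ℝ) / 3) ^ 2)) (2 ^ u)
    (fun y i B d => Qf (e * A * y) B (dl' c i) d) n0 M

lemma CellLJ.mono {h : ℝ → ℝ} {μ C C' : ℝ} {r : ℕ} {P : DPar} {s : Fin r → Pq}
    {T H X V K B0 : ℝ} {ν e A c δ g₀ : Eis} {p : ℕ × ℕ} {l u j : ℕ}
    {Qf : Eis → Eis → Eis → Eis → Prop} {n0 M : ℝ}
    (hh : CellLJ h μ C' P s T H X V K B0 ν e A c δ g₀ p l u j Qf n0 M) (hC : C ≤ C') :
    CellLJ h μ C P s T H X V K B0 ν e A c δ g₀ p l u j Qf n0 M := CellXJ.mono hh hC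

/-- **the joint cells of a flagged list** -/
theorem FJQ_list {h : ℝ → ℝ} {c₀ : ℝ} (hpu : PU h c₀) {R : ℝ} (hR0 : 0 ≤ R)
    (hR : ∀ u, cx h u ≠ 0 → |u| ≤ R) {μ : ℝ} (hμ : 0 ≤ μ) (r : ℕ) {ε : ℝ} (hε : 0 < ε) :
    ∃ C : ℝ, 1 ≤ C ∧ ∀ A' : ℕ, 2 * (r * μ) + 2 ≤ A' → ∀ Cφ η : ℝ, 0 ≤ Cφ → 0 < η → η ≤ 1 →
      ∀ φ : ℝ → ℝ, WK Cφ η A' φ → ∀ (p : ℕ × ℕ) (t₀ : ℝ) (P : DPar) (_ : P.OK)
      (ps : List Pf), ps.length = r → (∀ x ∈ ps, 0 ≤ x.1.z) → ∀ z D0 : ℝ, 1 ≤ D0 →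
      ∀ q g₀ δ ν e A : Eis, IsPrim q → IsPrim g₀ → IsPrim δ → IsPrim ν →
      ∀ (T H X V K B0 X0 : ℝ), 1 ≤ X → 2 * X ≤ X0 → 0 ≤ V → D0 ^ r ≤ X0 → (nm g₀ : ℝ) ≤ X0 →
      (nm q : ℝ) ≤ X0 → (nm δ : ℝ) ≤ X0 → (nm ν : ℝ) ≤ X0 → (∀ x ∈ ps, Real.exp x.1.z ≤ X0) →
      ∀ c ∈ C4, ∀ (l u j : ℕ) (Qf : Eis → Eis → Eis → Eis → Prop) (M : ℝ), 0 ≤ M →
      CellJ T H X V K B0 ν e A c l u j →
      CellLJ h μ C P (fun i => (ps.get i).1) T H X V K B0 ν e A c δ g₀ p l u j Qf (LF ps) M →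
      ∑ j₂ ∈ Tb V e A c l, FJQ A' T H X V K B0 ν g₀ δ e A c Qf
        (bw φ p t₀ (sqc q (alF z D0 P h ps))) j₂ u j ≤
      ((100 * D0) ^ r) ^ 2 *
        (C * (Cφ ^ 2 * iA A' * (η * (η ^ A')⁻¹)) * (1 + |t₀|) ^ A' * X0 ^ ε * M) := by
  obtain ⟨C, hC, H1⟩ := cell_listJ hpu hR0 hR hμ r hε
  refine ⟨C, hC, ?_⟩
  intro A' hA' Cφ η hCφ hη hη1 φ hφ p t₀ P hP ps hr hs z D0 hD q g₀ δ ν e A hq hg₀ hδ hν T H X V K
    B0 X0 hX hXX hV hDX hgX hqX hδX hνX hsX c hc l u j Qf M hM hcJ hcell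
  have hX0 : 0 ≤ X := by linarith
  have hRy : ∀ y ∈ Tb V e A c l, 0 ≤ RR V e A c y ∧
      RR V e A c y ≤ V * nm (e * A) / (nm c * Real.exp ((l : ℝ) / 3) ^ 2) := fun y hy =>
    ⟨by linarith [(mem_Tb.1 hy).2], RR_le_Rm hV hc hy⟩
  exact H1 A' hA' Cφ η hCφ hη hη1 φ hφ p t₀ P hP ps hr hs z D0 hD q g₀ δ ν (e * A) hq hg₀ hδ hν
    X X0 hX (by linarith) hDX hgX hqX hδX hνX hsX c hc (Tb V e A c l)
    (fun y => Bj X (Nj T H X V K B0 ν e A c y) u j) (2 ^ j)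
    (V * nm (e * A) / (nm c * Real.exp ((l : ℝ) / 3) ^ 2)) (2 ^ u) (RR V e A c) (by positivity)
    (by positivity) (one_le_pow₀ (by norm_num)) ((hcJ.U_le hX0).trans hXX) hRy
    (fun y _ B hB => Bj_block hX0 hB) (fun y i B d => Qf (e * A * y) B (dl' c i) d) M hM hcell

/-- **the joint cells of one opened piece** -/
theorem FJQ_dl {h : ℝ → ℝ} {c₀ : ℝ} (hpu : PU h c₀) {R : ℝ} (hR0 : 0 ≤ R)
    (hR : ∀ u, cx h u ≠ 0 → |u| ≤ R) {μ : ℝ} (hμ : 0 ≤ μ) (r : ℕ) {ε : ℝ} (hε : 0 < ε) :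
    ∃ C : ℝ, 1 ≤ C ∧ ∀ A' : ℕ, 2 * (r * μ) + 2 ≤ A' → ∀ Cφ η : ℝ, 0 ≤ Cφ → 0 < η → η ≤ 1 →
      ∀ φ : ℝ → ℝ, WK Cφ η A' φ → ∀ (p : ℕ × ℕ) (t₀ : ℝ) (P : DPar) (hP : P.OK)
      (s : Fin r → Pq), (∀ i, 0 ≤ (s i).z) → ∀ jp : Fin r → IP, (∀ i, FromP hP (jp i) (s i)) →
      ∀ γ q g₀ δ ν e A : Eis, IsPrim γ → Squarefree γ → IsPrim q → IsPrim g₀ → IsPrim δ →
      IsPrim ν → ∀ (T H X V K B0 X0 : ℝ), 1 ≤ X → 2 * X ≤ X0 → 0 ≤ V → (nm γ : ℝ) ≤ X0 →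
      (nm g₀ : ℝ) ≤ X0 → (nm q : ℝ) ≤ X0 → (nm δ : ℝ) ≤ X0 → (nm ν : ℝ) ≤ X0 →
      (∀ i, Real.exp (s i).z ≤ X0) →
      ∀ c ∈ C4, ∀ (l u j : ℕ) (Qf : Eis → Eis → Eis → Eis → Prop) (M : ℝ), 0 ≤ M →
      CellJ T H X V K B0 ν e A c l u j →
      CellLJ h μ C P s T H X V K B0 ν e A c δ g₀ p l u j Qf
        (∑ k, (jp k).z + Real.log (nm γ)) M →
      ∑ j₂ ∈ Tb V e A c l, FJQ A' T H X V K B0 ν g₀ δ e A c Qf
        (bw φ p t₀ (MoF106.dl γ (TP320.sq (q * γ) ((SD h μ r).w jp)))) j₂ u j ≤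
      C * (Cφ ^ 2 * iA A' * (η * (η ^ A')⁻¹)) * (1 + |t₀|) ^ A' * X0 ^ ε * M := by
  obtain ⟨C, hC, H1⟩ := cell_dlJ hpu hR0 hR hμ r hε
  refine ⟨C, hC, ?_⟩
  intro A' hA' Cφ η hCφ hη hη1 φ hφ p t₀ P hP s hs jp hjp γ q g₀ δ ν e A hγ hγs hq hg₀ hδ hν T H X
    V K B0 X0 hX hXX hV hγX hgX hqX hδX hνX hsX c hc l u j Qf M hM hcJ hcell
  have hX0 : 0 ≤ X := by linarith
  have hRy : ∀ y ∈ Tb V e A c l, 0 ≤ RR V e A c y ∧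
      RR V e A c y ≤ V * nm (e * A) / (nm c * Real.exp ((l : ℝ) / 3) ^ 2) := fun y hy =>
    ⟨by linarith [(mem_Tb.1 hy).2], RR_le_Rm hV hc hy⟩
  exact H1 A' hA' Cφ η hCφ hη hη1 φ hφ p t₀ P hP s hs jp hjp γ q g₀ δ ν (e * A) hγ hγs hq hg₀ hδ
    hν X X0 hX (by linarith) hγX hgX hqX hδX hνX hsX c hc (Tb V e A c l)
    (fun y => Bj X (Nj T H X V K B0 ν e A c y) u j) (2 ^ j)
    (V * nm (e * A) / (nm c * Real.exp ((l : ℝ) / 3) ^ 2)) (2 ^ u) (RR V e A c) (by positivity)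
    (by positivity) (one_le_pow₀ (by norm_num)) ((hcJ.U_le hX0).trans hXX) hRy
    (fun y _ B hB => Bj_block hX0 hB) (fun y i B d => Qf (e * A * y) B (dl' c i) d) M hM hcell

end Crest.Agent.R017.QsJ401
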