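import Crest.Agent.R017.MoN4_106
import Crest.Agent.R017.QsJe_401
import Crest.Agent.R017.NPy_739

/-!
# Row 17, E2, R-side (helper106): the cells of `Qs_cellsJ` from the pair lines

* `PLn` : the pair lines (r2), (ga) of the natural children, logarithmic
* `Env` : the sizes
* `Env.shell`, `Env.shellJ` : the range of the separate and the joint cells
* `jmL` : the joint cells
-/

set_option autoImplicit false
set_option linter.unusedVariables false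
set_option maxHeartbeats 800000

noncomputable section

open Finset
open scoped ComplexConjugate

namespace Crest.Agent.R017.RC106

open Crest.Agent.R012 Crest.Agent.R012.Eis Crest.Agent.R012.LS2
open Crest.Agent.R017.B770
open Crest.Agent.R017.Prov71
open Crest.Agent.R017.CM106 (CS FS)
open Crest.Agent.R017.FE47 (cx PU)
open Crest.Agent.R017.HP842 (pc sqc)
open Crest.Agent.R017.Leg381 (alf alF Pf LF LF_get)
open Crest.Agent.R017.XRG106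
open Crest.Agent.R017.X6C180 (IX dl')
open Crest.Agent.R017.Win813 (iA iA_nonneg WK)
open Crest.Agent.R017.RGw813 (T9)
open Crest.Agent.R017.H1401 (pb mem_pb WM HW DN)
open Crest.Agent.R017.MoF106
open Crest.Agent.R017.MoL106
open Crest.Agent.R017.QsO83 (bw FS_bw)
open Crest.Agent.R017.E2440
open Crest.Agent.R017.QsJ401 (Sz CellN CellJ Nj mem_Bj)
open Crest.Agent.R017.E2sp579 (fP)
open Crest.Agent.R017.NPy739 (MNc CellH CellL cell_list opL opL_nonneg)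
open Crest.Agent.R017.E2D401 (Bj)
open Div277 (tau dvs mem_dvs nm_le_of_dvd)

/-- **the pair lines** of the natural children: `n` = length, `K` = family, `Lv` = level,
`m` = room, `e` = small room, `Bd` = bound (with the gained margin) -/
structure PLn (P : DPar) (h : ℝ → ℝ) (μ C : ℝ) {r : ℕ} (s : Fin r → Pq) (n K Lv m e Bd : ℝ) :
    Prop where
  r2 : ∀ (s' : Fin r → Pq) (W0 : ℝ), 1 ≤ W0 → (∀ k, Rl C W0 (s' k) (s k)) →
    ∀ i b g : ℝ, 0 ≤ b → 0 ≤ g → 0 ≤ i - 2 * g → ∑ k, (s' k).z + b + g ≤ n + e →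
    i ≤ Lv + n - K + b + m → i + 2 * b ≤ K + m → Lv ≤ 2 * (i + b) + e →
    PM2 P h (i - 2 * g) (b + g) (List.ofFn s') ≤ Bd * W0 ^ (2 * μ) *
      Real.exp (n + K + i - nr Lv i - (n - b - ∑ k, (s' k).z))
  ga : ∀ (s' : Fin r → Pq) (W0 : ℝ), 1 ≤ W0 → (∀ k, Rl C W0 (s' k) (s k)) →
    ∀ i b g γ : ℝ, 0 ≤ γ → γ ≤ b → 0 ≤ g → 0 ≤ i - γ - 2 * g →
    ∑ k, (s' k).z + b ≤ n + e → i ≤ Lv + n - K + b + m → i + 2 * b ≤ K + m →
    2 * (i + b) ≤ Lv → PM2 P h (i - γ - 2 * g) (b - γ + g) (List.ofFn s') ≤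
      Bd * W0 ^ (2 * μ) * Real.exp (n + K - (Lv - i - b + 2 * γ + (n - b - ∑ k, (s' k).z)))

/-- the constant of the frequencies -/
def k9 : ℝ := Real.log (81 * (1 + ∑ c ∈ C4, dmx c)) + 1

lemma dmx_nonneg (c : Eis) : 0 ≤ dmx c := by
  unfold MoF106.dmx; positivity

lemma nm_kw {p : ℕ × ℕ} (hp : p ∈ T9) : (nm (kw p ^ 2) : ℝ) ≤ 81 := by
  have h1 : p.2 ≤ 2 := by
    unfold RGw813.T9 at hp
    rw [Finset.mem_product] at hp
    have := Finset.mem_range.1 hp.2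
    omega
  have hw : nm (w : Eis) = 1 := by decide
  have e1 : nm (kw p ^ 2) = (3 ^ p.2) ^ 2 := by
    unfold MoL106.kw
    rw [nm_pow, nm_mul, nm_pow, nm_pow, hw, nm_lam]
    ring
  rw [e1]
  have h3 : (3 ^ p.2) ^ 2 ≤ 81 := by
    calc (3 ^ p.2) ^ 2 ≤ (3 ^ 2) ^ 2 := by
          refine Nat.pow_le_pow_left (Nat.pow_le_pow_right (by norm_num) h1) 2
      _ = 81 := by norm_num
  exact_mod_cast h3

/-- the frequency -/
lemma log_fr {p : ℕ × ℕ} (hp : p ∈ T9) {c : Eis} (hc : c ∈ C4) (i : IX c) {E : Eis}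
    (hE : E ≠ 0) : Real.log (nm (E * kw p ^ 2 * dl' c i)) + 1 / 3 ≤ Real.log (nm E) + k9 := by
  have h1 := nm_kw hp
  have h2 : (nm (dl' c i) : ℝ) ≤ 1 + ∑ c ∈ C4, dmx c := by
    have h3 := le_dmx c i
    have h4 := Finset.single_le_sum (f := fun c : Eis => dmx c) (fun c _ => dmx_nonneg c) hc
    have h5 : dmx c ≤ ∑ c ∈ C4, dmx c := h4
    linarith
  have hE0 : (0 : ℝ) < nm E := by exact_mod_cast nm_pos.2 hE
  have hk0 : (0 : ℝ) < nm (kw p ^ 2) := by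
    exact_mod_cast nm_pos.2 (pow_ne_zero 2 (kw_ne p))
  have hd0 : (0 : ℝ) < nm (dl' c i) := by
    exact_mod_cast nm_pos.2 (dl_ne_zero (QsJ401.C4_ne hc) i)
  have hs : (0 : ℝ) ≤ ∑ c ∈ C4, dmx c := Finset.sum_nonneg fun c _ => dmx_nonneg c
  have e1 : (nm (E * kw p ^ 2 * dl' c i) : ℝ) = nm E * (nm (kw p ^ 2) * nm (dl' c i)) := by
    rw [nm_mul, nm_mul]; push_cast; ring
  rw [e1, Real.log_mul hE0.ne' (by positivity)]
  have h6 : Real.log (nm (kw p ^ 2) * nm (dl' c i)) ≤ Real.log (81 * (1 + ∑ c ∈ C4, dmx c)) := by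
    refine Real.log_le_log (by positivity) ?_
    exact mul_le_mul h1 h2 hd0.le (by norm_num)
  unfold k9
  linarith

/-- **the sizes**: `T = Pz ^ (ε / 2)`; everything small is at most `exp d` -/
structure Env (e₀ ε Pz X V Kf B0 H X0 : ℝ) (δ e : Eis) (n K Lv d : ℝ) : Prop where
  e0 : 10 ≤ e₀
  k9 : k9 ≤ e₀
  d0 : 0 ≤ d
  n0 : 0 ≤ n
  K0 : 0 ≤ K
  v0 : 0 ≤ Lv
  lX : Real.log X ≤ n + e₀
  lV : Real.log V ≤ Lv + e₀
  lK : Real.log Kf ≤ K + e₀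
  lK' : K ≤ Real.log Kf + e₀
  lT : ε / 2 * Real.log Pz ≤ d
  lH : Real.log H ≤ 8 * d
  lδ : Real.log (nm δ) ≤ d
  le : Real.log (nm e) ≤ d
  B1 : 1 ≤ B0
  lB : 3 * Real.log B0 ≤ 2 * K - Lv - n + 3 * e₀
  lB' : 2 * K - Lv - n ≤ 3 * Real.log B0 + 3 * e₀
  lX0 : Lv + 2 * n + 20 * d + 20 * e₀ ≤ Real.log X0
  X0 : 0 < X0

section env

variable {e₀ ε Pz X V Kf B0 H X0 : ℝ} {δ e A c : Eis} {y : Eis × Eis} {n K Lv d : ℝ}

/-- two real forms of the range -/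
lemma shell2 {b₀ z a lB n K Lv d e₀ : ℝ} (he : 10 ≤ e₀) (hd : 0 ≤ d)
    (hB : 3 * lB ≤ 2 * K - Lv - n + 3 * e₀) (hB' : 2 * K - Lv - n ≤ 3 * lB + 3 * e₀)
    (h : (b₀ ≤ lB ∧ z + a ≤ Lv + n - K + b₀ + 15 * d + 3 * e₀ + 2) ∨
      (lB ≤ b₀ + 1 / 3 ∧ z + a + 2 * b₀ ≤ K + e₀ + 3)) :
    z + a ≤ Lv + n - K + b₀ + 15 * d + 6 * e₀ + 5 ∧ z + a + 2 * b₀ ≤ K + 15 * d + 6 * e₀ + 5 := by
  rcases h with ⟨h1, h2⟩ | ⟨h1, h2⟩ <;> constructor <;> linarith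

lemma le_exp_of_log {x a : ℝ} (hx : 0 < x) (h : Real.log x ≤ a) : x ≤ Real.exp a :=
  (Real.log_le_iff_le_exp hx).1 h

lemma Tb_eq (V : ℝ) (e A c : Eis) (l : ℕ) : QsJ401.Tb V e A c l = GKC739.Tb V e A c l := by
  ext j
  rw [QsJ401.mem_Tb, GKC739.mem_Tb]

lemma Env.nA (he : Env e₀ ε Pz X V Kf B0 H X0 δ e n K Lv d)
    (hz : Sz Pz X V Kf H δ e A c y) : (nm A : ℝ) ≤ Real.exp d := by
  have h1 : nm A ≤ nm y.1 := nm_le_of_dvd hz.y1.ne_zero hz.Ad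
  have h2 : nm y.1 ≤ nm δ := nm_le_of_dvd hz.δp.ne_zero (hz.ye ▸ dvd_mul_right _ _)
  have h3 : (nm A : ℝ) ≤ nm δ := by exact_mod_cast h1.trans h2
  refine h3.trans (le_exp_of_log ?_ he.lδ)
  exact_mod_cast nm_pos.2 hz.δp.ne_zero

lemma Env.ny1 (he : Env e₀ ε Pz X V Kf B0 H X0 δ e n K Lv d)
    (hz : Sz Pz X V Kf H δ e A c y) : (nm y.1 : ℝ) ≤ Real.exp d := by
  have h2 : nm y.1 ≤ nm δ := nm_le_of_dvd hz.δp.ne_zero (hz.ye ▸ dvd_mul_right _ _)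
  have h3 : (nm y.1 : ℝ) ≤ nm δ := by exact_mod_cast h2
  refine h3.trans (le_exp_of_log ?_ he.lδ)
  exact_mod_cast nm_pos.2 hz.δp.ne_zero

lemma Env.ny2 (he : Env e₀ ε Pz X V Kf B0 H X0 δ e n K Lv d)
    (hz : Sz Pz X V Kf H δ e A c y) : (nm y.2 : ℝ) ≤ Real.exp d := by
  have h2 : nm y.2 ≤ nm δ := nm_le_of_dvd hz.δp.ne_zero (hz.ye ▸ dvd_mul_left _ _)
  have h3 : (nm y.2 : ℝ) ≤ nm δ := by exact_mod_cast h2
  refine h3.trans (le_exp_of_log ?_ he.lδ)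
  exact_mod_cast nm_pos.2 hz.δp.ne_zero

lemma Env.neA (he : Env e₀ ε Pz X V Kf B0 H X0 δ e n K Lv d)
    (hz : Sz Pz X V Kf H δ e A c y) : (nm (e * A) : ℝ) ≤ Real.exp (2 * d) := by
  rw [hz.nmeA]
  have h1 : (nm e : ℝ) ≤ Real.exp d := le_exp_of_log (by
    exact_mod_cast nm_pos.2 hz.ep.ne_zero) he.le
  have h2 := he.nA hz
  calc (nm e : ℝ) * nm A ≤ Real.exp d * Real.exp d :=
        mul_le_mul h1 h2 (Nat.cast_nonneg _) (Real.exp_pos _).le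
    _ = Real.exp (2 * d) := by rw [← Real.exp_add]; congr 1; ring

lemma Env.X' (he : Env e₀ ε Pz X V Kf B0 H X0 δ e n K Lv d)
    (hz : Sz Pz X V Kf H δ e A c y) : X / nm y.1 ≤ Real.exp (n + e₀) := by
  have hX0 : 0 < X := by
    have := hz.n1
    have := hz.yX
    linarith
  exact (div_le_self hX0.le hz.n1).trans (le_exp_of_log hX0 he.lX)

/-- **the range of a separate cell** -/
lemma Env.shell0 (hε : 0 < ε) (he : Env e₀ ε Pz X V Kf B0 H X0 δ e n K Lv d)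
    (hz : Sz Pz X V Kf H δ e A c y) {l u j : ℕ}
    (hc : GKC739.Cell (Pz ^ (ε / 2)) H V Kf (X / nm y.1) B0 y.2 e A c l u j) :
    (Real.exp ((u : ℝ) / 3) ≤ B0 ∧ Real.log (2 ^ j) + (l : ℝ) / 3 ≤
      Lv + n - K + (u : ℝ) / 3 + 15 * d + 3 * e₀ + 2) ∨
    (B0 < Real.exp ((u : ℝ) / 3 + 1 / 3) ∧
      Real.log (2 ^ j) + (l : ℝ) / 3 + 2 * ((u : ℝ) / 3) ≤ K + e₀ + 3) := by
  have hP0 := hz.P0
  have hK0 := hz.K0
  have hT : (1 : ℝ) ≤ Pz ^ (ε / 2) := Real.one_le_rpow hz.P1 (by linarith)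
  have h1 := hc.shell hT hz.H1 hz.K0 hz.X1 hz.y2 hz.ep hz.Ap hz.hc
  have hcn := (GKC739.nm_C hz.hc).1
  have hT2 : Pz ^ (ε / 2) ≤ Real.exp d := by
    rw [Real.rpow_def_of_pos hP0]
    exact Real.exp_le_exp.2 (by linarith [he.lT, mul_comm (ε / 2) (Real.log Pz)])
  have hH0 : 0 < H := by linarith [hz.H1]
  have hH2 : H ≤ Real.exp (8 * d) := le_exp_of_log hH0 he.lH
  have hV0 : 0 < V := by linarith [hz.V1]
  have hV2 : V ≤ Real.exp (Lv + e₀) := le_exp_of_log hV0 he.lV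
  have hX2 := he.X' hz
  have hE2 := he.neA hz
  have hy2 := he.ny2 hz
  have hX10 : 0 ≤ X / nm y.1 := by linarith [hz.X1]
  have hKl : Real.exp (K - e₀) ≤ Kf := by
    rw [← Real.exp_log hK0]
    exact Real.exp_le_exp.2 (by linarith [he.lK'])
  have hKu : Kf ≤ Real.exp (K + e₀) := le_exp_of_log hK0 he.lK
  have h2j : (0 : ℝ) < 2 ^ j := by positivity
  have hea : 0 < Real.exp ((l : ℝ) / 3) := Real.exp_pos _
  have heA1 : (1 : ℝ) ≤ nm (e * A) := by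
    exact_mod_cast nm_pos.2 (mul_ne_zero hz.ep.ne_zero hz.Ap.ne_zero)
  have h4 : (4 : ℝ) ≤ Real.exp 2 := by
    have h5 := Real.exp_one_gt_d9
    have h6 : Real.exp 2 = Real.exp 1 * Real.exp 1 := by rw [← Real.exp_add]; norm_num
    rw [h6]; nlinarith
  have h10 : (10 : ℝ) ≤ Real.exp 3 := by
    have h5 := Real.exp_one_gt_d9
    have h6 : Real.exp 3 = Real.exp 1 * Real.exp 1 * Real.exp 1 := by
      rw [← Real.exp_add, ← Real.exp_add]; norm_num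
    have h7 : (7.38 : ℝ) ≤ Real.exp 1 * Real.exp 1 := by nlinarith
    rw [h6]; nlinarith
  rcases h1 with ⟨h1, h2⟩ | ⟨h1, h2⟩
  · left
    refine ⟨h1, ?_⟩
    have h3 : (2 : ℝ) ^ j ≤ Real.exp (Lv + n - K + (u : ℝ) / 3 + 15 * d + 3 * e₀ + 2 - l / 3) := by
      refine h2.le.trans ?_
      rw [div_le_iff₀ (by positivity)]
      calc 4 * Pz ^ (ε / 2) * H * (nm y.2 : ℝ) ^ 2 * (X / nm y.1) * V * (nm (e * A) : ℝ) ^ 2 *
            Real.exp ((u : ℝ) / 3)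
          ≤ Real.exp 2 * Real.exp d * Real.exp (8 * d) * Real.exp d ^ 2 * Real.exp (n + e₀) *
            Real.exp (Lv + e₀) * Real.exp (2 * d) ^ 2 * Real.exp ((u : ℝ) / 3) := by gcongr
        _ = Real.exp (Lv + n - K + (u : ℝ) / 3 + 15 * d + 3 * e₀ + 2 - l / 3) *
            (1 * Real.exp (K - e₀) * Real.exp ((l : ℝ) / 3)) := by
            rw [one_mul, ← Real.exp_nat_mul, ← Real.exp_nat_mul, ← Real.exp_add, ← Real.exp_add,
              ← Real.exp_add, ← Real.exp_add, ← Real.exp_add, ← Real.exp_add, ← Real.exp_add,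
              ← Real.exp_add, ← Real.exp_add]
            congr 1
            push_cast
            ring
        _ ≤ _ := by gcongr
    have h4 := (Real.log_le_iff_le_exp h2j).2 h3
    linarith
  · right
    refine ⟨h1, ?_⟩
    have h3 : (2 : ℝ) ^ j ≤ Real.exp (K + e₀ + 3 - l / 3 - 2 * ((u : ℝ) / 3)) := by
      refine h2.le.trans ?_
      rw [div_le_iff₀ (by positivity)]
      calc 10 * Kf ≤ Real.exp 3 * Real.exp (K + e₀) := by gcongr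
        _ = Real.exp (K + e₀ + 3 - l / 3 - 2 * ((u : ℝ) / 3)) *
            (1 * Real.exp ((l : ℝ) / 3) * Real.exp ((u : ℝ) / 3) ^ 2) := by
            rw [one_mul, ← Real.exp_nat_mul, ← Real.exp_add, ← Real.exp_add, ← Real.exp_add]
            congr 1
            push_cast
            ring
        _ ≤ _ := by gcongr
    have h4 := (Real.log_le_iff_le_exp h2j).2 h3
    linarith

/-- **the range of a separate cell** -/
lemma Env.shell (hε : 0 < ε) (he : Env e₀ ε Pz X V Kf B0 H X0 δ e n K Lv d)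
    (hz : Sz Pz X V Kf H δ e A c y) {l u j : ℕ}
    (hc : GKC739.Cell (Pz ^ (ε / 2)) H V Kf (X / nm y.1) B0 y.2 e A c l u j) :
    Real.log (2 ^ j) + (l : ℝ) / 3 ≤ Lv + n - K + (u : ℝ) / 3 + 15 * d + 6 * e₀ + 5 ∧
    Real.log (2 ^ j) + (l : ℝ) / 3 + 2 * ((u : ℝ) / 3) ≤ K + 15 * d + 6 * e₀ + 5 := by
  have hB := he.B1
  have hB0 : 0 < B0 := by linarith
  refine shell2 (lB := Real.log B0) he.e0 he.d0 he.lB he.lB' ?_
  rcases he.shell0 hε hz hc with ⟨h1, h2⟩ | ⟨h1, h2⟩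
  · left
    exact ⟨(Real.le_log_iff_exp_le hB0).2 h1, h2⟩
  · right
    exact ⟨(Real.log_le_iff_le_exp hB0).2 h1.le, h2⟩

/-- the joint cells -/
def jmL (s₁ Lv : ℝ) (l u j : ℕ) : Prop :=
  2 * (Real.log (2 ^ j) + (l : ℝ) / 3 + s₁ + (Real.log (2 ^ u) + 2 / 3)) ≤ Lv

lemma log2_le1 : Real.log 2 ≤ 0.7 := by
  have := Real.log_two_lt_d9; linarith

/-- the block of a separate cell -/
lemma blk_bk {X : ℝ} (hX : 0 ≤ X) {u : ℕ} {B : Eis} (hB : B ∈ bk X u) :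
    Real.log (2 ^ blk B) ≤ (u : ℝ) / 3 + 1 / 3 + 0.7 := by
  have hB0 := (bk_prim hX hB).ne_zero
  have h1 := blk_lt hB0
  have h2 := bk_nm_le hX hB
  have h3 : (2 : ℝ) ^ blk B ≤ 2 * Real.exp ((u : ℝ) / 3 + 1 / 3) := by linarith
  have h4 : Real.log (2 ^ blk B) ≤ Real.log (2 * Real.exp ((u : ℝ) / 3 + 1 / 3)) :=
    Real.log_le_log (by positivity) h3
  rw [Real.log_mul (by norm_num) (Real.exp_pos _).ne', Real.log_exp] at h4
  linarith [log2_le1]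

/-- a joint cell -/
lemma jcell {T H X V K B0 : ℝ} (hX : 0 ≤ X) {ν e A c : Eis} {l u j : ℕ}
    (h : CellJ T H X V K B0 ν e A c l u j) :
    ∃ u' : ℕ, GKC739.Cell T H V K X B0 ν e A c l u' j ∧ (u' : ℝ) / 3 ≤ Real.log (2 ^ u) ∧
      Real.log (2 ^ u) ≤ (u' : ℝ) / 3 + 1 / 3 + 0.7 := by
  obtain ⟨j₂, hj₂, B, hB⟩ := h
  obtain ⟨h1, h2, h3⟩ := mem_Bj.1 hB
  have hBk : B ∈ bk X (UU B) := (mem_bk hX).2 ⟨(mem_S hX).1 h1, rfl⟩
  refine ⟨UU B, ⟨j₂, ?_, B, hBk, h3⟩, ?_, ?_⟩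
  · rw [← Tb_eq]; exact hj₂
  · have h4 := bk_nm_ge hX hBk
    have h5 := (blk_le B)
    rw [h2] at h5
    have h6 := Real.log_le_log (Real.exp_pos _) (h4.trans h5)
    rwa [Real.log_exp] at h6
  · rw [← h2]
    exact blk_bk hX hBk

/-- the range of a joint cell -/
lemma Env.shellJ (hε : 0 < ε) (he : Env e₀ ε Pz X V Kf B0 H X0 δ e n K Lv d)
    (hz : Sz Pz X V Kf H δ e A c y) {l u j : ℕ}
    (hc : CellJ (Pz ^ (ε / 2)) H (X / nm y.1) V Kf B0 y.2 e A c l u j) :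
    Real.log (2 ^ j) + (l : ℝ) / 3 ≤ Lv + n - K + Real.log (2 ^ u) + 15 * d + 6 * e₀ + 5 ∧
    Real.log (2 ^ j) + (l : ℝ) / 3 + 2 * Real.log (2 ^ u) ≤ K + 15 * d + 6 * e₀ + 8 := by
  have hX0 : 0 ≤ X / nm y.1 := by linarith [hz.X1]
  obtain ⟨u', h1, h2, h3⟩ := jcell hX0 hc
  obtain ⟨h4, h5⟩ := he.shell hε hz h1
  constructor <;> linarith

lemma NX_lt {X : ℝ} (hX : 1 ≤ X) {v : ℕ} (hv : v < NX X) : (v : ℝ) / 3 ≤ Real.log X := by
  unfold MoF106.NX at hv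
  have h1 : v ≤ ⌊3 * Real.log X⌋₊ := by omega
  have h2 : (v : ℝ) ≤ 3 * Real.log X :=
    (Nat.le_floor_iff (by have := Real.log_nonneg hX; positivity)).1 h1
  linarith

end env

end Crest.Agent.R017.RC106
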