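import Crest.Agent.R017.MoN2_106

/-!
# Row 17, E2, R-side, exceptional class (helper385): the two-level functional with a predicate

* `PMpQ`, `PM2Q` : the two-level functional over the frequencies with `Q`
* `q4_PMQ` : a quadruple sum by it
-/

set_option autoImplicit false
set_option maxHeartbeats 400000

noncomputable section

open Complex Finset
open scoped ComplexConjugate

namespace Crest.Agent.R017.RQd385

open Crest.Agent.R012 Crest.Agent.R012.Eis Crest.Agent.R012.LS2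
open Crest.Agent.R012.Div277
open Crest.Agent.R017.CM106 Crest.Agent.R017.FE47 Crest.Agent.R017.End699
open Crest.Agent.R017.B770
open Crest.Agent.R017.Prov71
open Crest.Agent.R017.HP842 (pc)
open Crest.Agent.R017.H1401 (pb mem_pb)
open Crest.Agent.R017.XRG106
open Crest.Agent.R017.MoF106
open Crest.Agent.R017.MoL106 (Q4 mem_Q4 f4 q4_be q4_al Kb Kb_nonneg Bb mem_Bb PM2)
open Crest.Agent.R017.PML320 (PMp)

open Classical in
/-- the pair moment over the frequencies `x b²` with `Q (x b²)` -/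
def PMpQ (Q : Eis → Prop) (P : DPar) (h : ℝ → ℝ) (l : ℝ) (Bs : Finset Eis) (ps : List Pq) : ℝ :=
  ∑ b ∈ Bs, ∑ x ∈ (bl (Real.exp l)).filter (fun x => Q (x * b ^ 2)),
    (ps.map fun p => ‖CS (pc h (p.pc P)) (x * b ^ 2)‖ ^ 2).prod

/-- **the two-level functional over the frequencies with `Q`** -/
def PM2Q (Q : Eis → Prop) (P : DPar) (h : ℝ → ℝ) (l β : ℝ) (ps : List Pq) : ℝ :=
  PMpQ Q P h l (primBall ⌊Real.exp β⌋₊) ps

lemma prod_nonneg' (P : DPar) (h : ℝ → ℝ) (k : Eis) (ps : List Pq) :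
    0 ≤ (ps.map fun p => ‖CS (pc h (p.pc P)) k‖ ^ 2).prod := by
  refine List.prod_nonneg ?_
  intro y hy
  obtain ⟨p, _, rfl⟩ := List.mem_map.1 hy
  positivity

lemma PMpQ_nonneg (Q : Eis → Prop) (P : DPar) (h : ℝ → ℝ) (l : ℝ) (Bs : Finset Eis)
    (ps : List Pq) : 0 ≤ PMpQ Q P h l Bs ps :=
  Finset.sum_nonneg fun _ _ => Finset.sum_nonneg fun _ _ => prod_nonneg' _ _ _ _

lemma PM2Q_nonneg (Q : Eis → Prop) (P : DPar) (h : ℝ → ℝ) (l β : ℝ) (ps : List Pq) :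
    0 ≤ PM2Q Q P h l β ps := PMpQ_nonneg _ _ _ _ _ _

lemma PMpQ_true (P : DPar) (h : ℝ → ℝ) (l : ℝ) (Bs : Finset Eis) (ps : List Pq) :
    PMpQ (fun _ => True) P h l Bs ps = PMp P h l Bs ps := by
  classical
  unfold PMpQ PML320.PMp
  refine Finset.sum_congr rfl fun b _ => Finset.sum_congr ?_ fun _ _ => rfl
  ext x
  simp

lemma PM2Q_true (P : DPar) (h : ℝ → ℝ) (l β : ℝ) (ps : List Pq) :
    PM2Q (fun _ => True) P h l β ps = PM2 P h l β ps := PMpQ_true _ _ _ _ _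

/-- monotone in the predicate, the level and the pairs -/
lemma PMpQ_mono {Q Q' : Eis → Prop} (hQ : ∀ k, Q k → Q' k) {P : DPar} {h : ℝ → ℝ} {l l' : ℝ}
    (hl : l ≤ l') {Bs Bs' : Finset Eis} (hB : Bs ⊆ Bs') (ps : List Pq) :
    PMpQ Q P h l Bs ps ≤ PMpQ Q' P h l' Bs' ps := by
  classical
  unfold PMpQ
  refine (Finset.sum_le_sum_of_subset_of_nonneg hB fun _ _ _ => Finset.sum_nonneg fun _ _ =>
    prod_nonneg' _ _ _ _).trans ?_
  refine Finset.sum_le_sum fun b _ => ?_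
  refine Finset.sum_le_sum_of_subset_of_nonneg (fun x hx => ?_) fun _ _ _ => prod_nonneg' _ _ _ _
  rw [Finset.mem_filter, mem_bl (Real.exp_pos _).le] at hx ⊢
  exact ⟨⟨hx.1.1, hx.1.2.trans (Real.exp_le_exp.2 hl)⟩, hQ _ hx.2⟩

lemma PM2Q_mono {Q Q' : Eis → Prop} (hQ : ∀ k, Q k → Q' k) {P : DPar} {h : ℝ → ℝ}
    {l l' β β' : ℝ} (hl : l ≤ l') (hβ : β ≤ β') (ps : List Pq) :
    PM2Q Q P h l β ps ≤ PM2Q Q' P h l' β' ps := by
  refine PMpQ_mono hQ hl (fun b hb => ?_) ps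
  rw [mem_primBall] at hb ⊢
  exact ⟨hb.1.trans (Nat.floor_le_floor (Real.exp_le_exp.2 hβ)), hb.2⟩

lemma PM2Q_le_PM2 {Q : Eis → Prop} {P : DPar} {h : ℝ → ℝ} {l β : ℝ} (ps : List Pq) :
    PM2Q Q P h l β ps ≤ PM2 P h l β ps := by
  rw [← PM2Q_true]
  exact PM2Q_mono (fun _ _ => trivial) le_rfl le_rfl ps

lemma PM2Q_perm {Q : Eis → Prop} {P : DPar} {h : ℝ → ℝ} {l β : ℝ} {ps ps' : List Pq}
    (hp : ps.Perm ps') : PM2Q Q P h l β ps = PM2Q Q P h l β ps' := by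
  classical
  unfold PM2Q PMpQ
  refine Finset.sum_congr rfl fun b _ => Finset.sum_congr rfl fun x _ => ?_
  exact (hp.map _).prod_eq

lemma PMpQ_Bb_le {Q : Eis → Prop} {P : DPar} {h : ℝ → ℝ} {l β : ℝ} {U : ℕ}
    (hU : (U : ℝ) / 3 + 2 / 3 ≤ β) (ps : List Pq) :
    PMpQ Q P h l (Bb U) ps ≤ PM2Q Q P h l β ps := by
  refine PMpQ_mono (fun _ h => h) le_rfl (fun b hb => ?_) ps
  rw [mem_Bb] at hb
  rw [mem_primBall]
  exact ⟨Nat.le_floor (hb.1.2.trans (Real.exp_le_exp.2 hU)), hb.1.1⟩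

/-- below level `0` the functional vanishes -/
lemma PM2Q_neg {Q : Eis → Prop} {P : DPar} {h : ℝ → ℝ} {l β : ℝ} (hl : l < 0) (ps : List Pq) :
    PM2Q Q P h l β ps = 0 := by
  classical
  unfold PM2Q PMpQ
  refine Finset.sum_eq_zero fun b _ => ?_
  have : (bl (Real.exp l)).filter (fun x => Q (x * b ^ 2)) = ∅ := by
    rw [Finset.eq_empty_iff_forall_notMem]
    intro x hx
    rw [Finset.mem_filter, mem_bl (Real.exp_pos _).le] at hx
    have h1 : (1 : ℝ) ≤ nm x := by exact_mod_cast nm_pos.2 hx.1.1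
    have h2 : Real.exp l < 1 := by
      rw [← Real.exp_zero]; exact Real.exp_lt_exp.2 hl
    linarith [hx.1.2]
  rw [this, Finset.sum_empty]

/-- **a quadruple sum by the block moment with a predicate** -/
theorem q4_PMQ {ε : ℝ} (hε : 0 < ε) : ∃ C : ℝ, 1 ≤ C ∧
    ∀ (T : Finset Eis) (X Z Y : ℝ) (u v w : ℕ) (Pr : Eis → Eis → Eis → Eis → Eis → Prop)
      (g₃ E τ : Eis), 0 ≤ X → 0 ≤ Z → 0 ≤ Y → E ≠ 0 → τ ≠ 0 →
      (∀ y ∈ T, IsPrim y ∧ (nm y : ℝ) ≤ Y) → g₃ ∈ bk X w → ∀ X0 : ℝ, Kb Y Z v w ≤ X0 →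
      Real.exp (((u + v : ℕ) : ℝ) / 3 + 2 / 3) ≤ X0 → ∀ l : ℝ,
      (nm (E * τ) : ℝ) * Kb Y Z v w ≤ Real.exp l → ∀ (Q : Eis → Prop),
      (∀ x ∈ Q4 T X Z u v Pr g₃, Q (f4 E τ x)) →
      ∀ (P : DPar) (h : ℝ → ℝ) {r : ℕ} (s : Fin r → Pq),
      ∑ x ∈ Q4 T X Z u v Pr g₃, ∏ k, ‖CS (pc h ((s k).pc P)) (f4 E τ x)‖ ^ 2 ≤
        C * X0 ^ ε * PMpQ Q P h l (Bb (u + v)) (List.ofFn s) := by
  classical
  obtain ⟨C, hC, h1⟩ := q4_be hε
  refine ⟨C, hC, ?_⟩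
  intro T X Z Y u v w Pr g₃ E τ hX hZ hY hE hτ hT hg₃ X0 hK hB l hl Q hQ P h r s
  have hX0 : 0 < X0 := (Real.exp_pos _).trans_le hB
  have h2 := h1 T X Z Y u v w Pr g₃ E τ hX hZ hY hT hg₃ (fun k b => Q (E * τ * (k * b ^ 2)))
    (fun x hx => by
      have := hQ x hx
      have e1 : f4 E τ x = E * τ * (x.1 * x.2.2.2 * (x.2.2.1 * x.2.1) ^ 2) := by
        unfold MoL106.f4; ring
      rw [← e1]; exact this)
    (fun x => ∏ k, ‖CS (pc h ((s k).pc P)) x‖ ^ 2)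
    (fun x => Finset.prod_nonneg fun _ _ => sq_nonneg _) X0 hK hB
  refine h2.trans (mul_le_mul_of_nonneg_left ?_ (by positivity))
  unfold PMpQ
  refine Finset.sum_le_sum fun b _ => ?_
  have e1 : ∀ x : Eis, ((List.ofFn s).map fun p => ‖CS (pc h (p.pc P)) x‖ ^ 2).prod =
      ∏ k, ‖CS (pc h ((s k).pc P)) x‖ ^ 2 := by
    intro x
    rw [List.map_ofFn, List.prod_ofFn]
    rfl
  have hKn := Kb_nonneg hY hZ v w
  calc ∑ k ∈ (pb (Kb Y Z v w)).filter (fun k => Q (E * τ * (k * b ^ 2))),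
        ∏ i, ‖CS (pc h ((s i).pc P)) (E * τ * (k * b ^ 2))‖ ^ 2
      = ∑ x ∈ ((pb (Kb Y Z v w)).filter (fun k => Q (E * τ * (k * b ^ 2)))).image
          (fun k => E * τ * k), ∏ i, ‖CS (pc h ((s i).pc P)) (x * b ^ 2)‖ ^ 2 := by
        rw [Finset.sum_image (fun a _ b _ h => mul_left_cancel₀ (mul_ne_zero hE hτ) h)]
        refine Finset.sum_congr rfl fun k _ => ?_
        rw [mul_assoc (E * τ) k (b ^ 2)]
    _ ≤ ∑ x ∈ (bl (Real.exp l)).filter (fun x => Q (x * b ^ 2)),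
          ∏ i, ‖CS (pc h ((s i).pc P)) (x * b ^ 2)‖ ^ 2 := by
        refine Finset.sum_le_sum_of_subset_of_nonneg (fun x hx => ?_) fun _ _ _ =>
          Finset.prod_nonneg fun _ _ => sq_nonneg _
        rw [Finset.mem_image] at hx
        obtain ⟨k, hk, rfl⟩ := hx
        rw [Finset.mem_filter, mem_pb hKn] at hk
        rw [Finset.mem_filter, mem_bl (Real.exp_pos _).le]
        refine ⟨⟨mul_ne_zero (mul_ne_zero hE hτ) hk.1.2.ne_zero, ?_⟩, ?_⟩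
        · rw [nm_mul, Nat.cast_mul]
          exact (mul_le_mul_of_nonneg_left hk.1.1 (Nat.cast_nonneg _)).trans hl
        · rw [mul_assoc (E * τ) k (b ^ 2)]
          exact hk.2
    _ = ∑ x ∈ (bl (Real.exp l)).filter (fun x => Q (x * b ^ 2)),
          ((List.ofFn s).map fun p => ‖CS (pc h (p.pc P)) (x * b ^ 2)‖ ^ 2).prod :=
        Finset.sum_congr rfl fun x _ => (e1 (x * b ^ 2)).symm

end Crest.Agent.R017.RQd385
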