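import Crest.Agent.R017.NPy_739
import Crest.Agent.R017.RQd_385
import Crest.Agent.R017.MoN5_106

/-!
# Row 17, class E, the R-side of P1 (helper739), part a: one cell

* `cell_sQ` : one natural cell from the two-level functional with a predicate, sharp in the
  frequency (helper440's `cell_s`)
* `PMHQ` : the premise on the natural children;  `cellX_ofQ` : the hypothesis of `cell_SDX`
* `cell_P1x` : one cell of a difference of two lists, the not principal part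
-/

set_option autoImplicit false
set_option linter.unusedVariables false
set_option maxHeartbeats 1000000

noncomputable section

open Finset
open scoped ComplexConjugate

namespace Crest.Agent.R017.RXa739

open Crest.Agent.R012 Crest.Agent.R012.Eis Crest.Agent.R012.LS2 Crest.Agent.R012.Gauss880
open Crest.Agent.R012.Div277 (dvs mem_dvs)
open Crest.Agent.R017.FE47 (cx PU)
open Crest.Agent.R017.B770
open Crest.Agent.R017.Prov71
open Crest.Agent.R017.CM106 (CS FS)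
open Crest.Agent.R017.HP842 (pc sqc)
open Crest.Agent.R017.Leg381 (alf)
open Crest.Agent.R017.H1401 (pb mem_pb WM HW DN)
open Crest.Agent.R017.MoF106
open Crest.Agent.R017.MoL106
open Crest.Agent.R017.XRG106
open Crest.Agent.R017.RQd385 (PMpQ PM2Q PM2Q_neg PMpQ_Bb_le q4_PMQ)
open Crest.Agent.R012.T411 (NCube)
open Crest.Agent.R017.X6C180 (IX dl')
open Crest.Agent.R017.GKC739
open Crest.Agent.R017.NPx739 (PrQ np_freq QF_agbw QF_MNn QF_sub)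
open Crest.Agent.R017.NPy739
open Crest.Agent.R017.Win813 (iA iA_nonneg WK)
open Crest.Agent.R017.NtC320 (QF)
open Crest.Agent.R017.QsO83 (bw FS_bw QF_sum1)
open Crest.Agent.R017.E2440 (C4 mem_C4 RR)
open Crest.Agent.R017.RC106 (k9 log_fr)
open Crest.Agent.R017.E2sp579 (fP)

/-- **one natural cell, with a predicate** -/
theorem cell_sQ {ε : ℝ} (hε : 0 < ε) : ∃ C : ℝ, 1 ≤ C ∧
    ∀ (Q : Eis → Prop) (T : Finset Eis) (X Z : ℝ) (l u v w : ℕ)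
      (Pr : Eis → Eis → Eis → Eis → Eis → Prop)
      (g₃ E τ : Eis), 0 ≤ X → 1 ≤ Z → E ≠ 0 → τ ≠ 0 →
      (∀ y ∈ T, IsPrim y ∧ (nm y : ℝ) ≤ Real.exp ((l : ℝ) / 3 + 1 / 3)) → g₃ ∈ bk X w →
      (∀ x ∈ Q4 T X Z u v Pr g₃, Q (f4 E τ x)) →
      ∀ X0 : ℝ, Real.exp ((l : ℝ) / 3 + 1 / 3) * Z ≤ X0 →
      Real.exp (((u + v : ℕ) : ℝ) / 3 + 2 / 3) ≤ X0 →
      ∀ s₁ : ℝ, Real.log (nm (E * τ)) + 1 / 3 ≤ s₁ →
      ∀ (P : DPar) (h : ℝ → ℝ) {r : ℕ} (s' : Fin r → Pq) (M : ℝ), 0 ≤ M →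
      (0 ≤ Real.log Z + l / 3 + s₁ - 2 * (v / 3) →
        PM2Q Q P h (Real.log Z + l / 3 + s₁ - 2 * (v / 3)) (u / 3 + 2 / 3 + v / 3)
          (List.ofFn s') ≤ M) →
      ∑ x ∈ Q4 T X Z u v Pr g₃, ∏ k, ‖CS (pc h ((s' k).pc P)) (f4 E τ x)‖ ^ 2 ≤
      C * X0 ^ ε * M := by
  obtain ⟨C, hC, hq⟩ := q4_PMQ hε
  refine ⟨C, hC, ?_⟩
  intro Q T X Z l u v w Pr g₃ E τ hX hZ hE hτ hT hg₃ hQ X0 hX0 hB s₁ hs₁ P h r s' M hM hpm
  set a : ℝ := (l : ℝ) / 3 with ha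
  set b : ℝ := (u : ℝ) / 3 with hb
  set g : ℝ := (v : ℝ) / 3 with hg
  set o : ℝ := (w : ℝ) / 3 with ho
  set z : ℝ := Real.log Z with hz
  have hZ0 : 0 < Z := by linarith
  have eZ : Z = Real.exp z := (Real.exp_log hZ0).symm
  have hX00 : 0 < X0 := (Real.exp_pos _).trans_le hB
  have ho0 : 0 ≤ o := by positivity
  have hg0 : 0 ≤ g := by positivity
  have hEτ : (0 : ℝ) < nm (E * τ) := by exact_mod_cast nm_pos.2 (mul_ne_zero hE hτ)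
  have hKb : Kb (Real.exp (a + 1 / 3)) Z v w = Real.exp (a + 1 / 3 + z - 2 * g - 3 * o) := by
    have e1 : Real.exp (a + 1 / 3 + z - 2 * g - 3 * o) =
        Real.exp (a + 1 / 3) * (Real.exp z * Real.exp (-(2 * ((v : ℝ) / 3)) - w)) := by
      rw [← Real.exp_add, ← Real.exp_add]
      congr 1
      rw [hg, ho]; ring
    rw [e1, ← eZ]
    rfl
  have hKX : Kb (Real.exp (a + 1 / 3)) Z v w ≤ X0 := by
    rw [hKb]
    refine le_trans ?_ hX0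
    have e1 : Real.exp (a + 1 / 3) * Z = Real.exp (a + 1 / 3 + z) := by
      rw [Real.exp_add (a + 1 / 3) z, ← eZ]
    rw [e1]
    exact Real.exp_le_exp.2 (by linarith)
  have h1 := hq T X Z (Real.exp (a + 1 / 3)) u v w Pr g₃ E τ hX hZ0.le (Real.exp_pos _).le hE hτ
    hT hg₃ X0 hKX hB (z + a + s₁ - 2 * g) (by
      rw [hKb]
      have e1 : (nm (E * τ) : ℝ) = Real.exp (Real.log (nm (E * τ))) := (Real.exp_log hEτ).symm
      rw [e1, ← Real.exp_add]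
      exact Real.exp_le_exp.2 (by linarith)) Q hQ P h s'
  have h2 : PMpQ Q P h (z + a + s₁ - 2 * g) (Bb (u + v)) (List.ofFn s') ≤ M := by
    refine (PMpQ_Bb_le (β := b + 2 / 3 + g) (by push_cast; rw [hb, hg]; linarith) _).trans ?_
    by_cases h0 : 0 ≤ z + a + s₁ - 2 * g
    · exact hpm h0
    · rw [PM2Q_neg (by linarith)]
      exact hM
  have hCX : 0 ≤ C * X0 ^ ε := by
    have : 0 ≤ C := by linarith
    positivity
  exact h1.trans (mul_le_mul_of_nonneg_left h2 hCX)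

/-- **the premise on the natural children**, at a fixed block: `Lv = log (V nm (e A))`,
`d₀ = log nm y.1`, `N2 = log nm y.2`, `s₁` = frequency -/
def PMHQ (h : ℝ → ℝ) (μ C : ℝ) (P : DPar) {r : ℕ} (s : Fin r → Pq)
    (Lv d₀ N2 i1 i2 s₁ Bd Tn : ℝ) : Prop :=
  ∀ (i b g νn : ℝ) (s' : Fin r → Pq) (W0 : ℝ), 0 ≤ i → 0 ≤ b → 0 ≤ g → 0 ≤ νn → νn ≤ N2 →
    i ≤ i1 + b → i ≤ i2 - 2 * b → 2 * g ≤ i + s₁ →
    1 ≤ W0 → (∀ k, Rl C W0 (s' k) (s k)) → ∑ k, (s' k).z ≤ ∑ k, (s k).z - (d₀ + b + g) + C →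
    PM2Q NCube P h (i + s₁ - 2 * g) (b + 2 / 3 + g) (List.ofFn s') ≤
      Bd * W0 ^ (2 * μ) * Real.exp (Tn - (νn + nr Lv (i - 3 * νn) - i) -
        (∑ k, (s k).z - d₀ - b - ∑ k, (s' k).z))

lemma PMHQ.mono {h : ℝ → ℝ} {μ C C' : ℝ} {P : DPar} {r : ℕ} {s : Fin r → Pq}
    {Lv d₀ N2 i1 i2 s₁ Bd Tn : ℝ} (H : PMHQ h μ C' P s Lv d₀ N2 i1 i2 s₁ Bd Tn) (hC : C ≤ C') :
    PMHQ h μ C P s Lv d₀ N2 i1 i2 s₁ Bd Tn := by
  intro i b g νn s' W0 hi hb hg hν hν2 h1 h2 h3 hW hR hle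
  exact H i b g νn s' W0 hi hb hg hν hν2 h1 h2 h3 hW (fun k => (hR k).mono hC)
    (hle.trans (by linarith))

lemma PMHQ.le {h : ℝ → ℝ} {μ C : ℝ} {P : DPar} {r : ℕ} {s : Fin r → Pq}
    {Lv d₀ N2 i1 i2 N2' i1' i2' s₁ Bd Tn : ℝ} (H : PMHQ h μ C P s Lv d₀ N2 i1 i2 s₁ Bd Tn)
    (h1 : N2' ≤ N2) (h2 : i1' ≤ i1) (h3 : i2' ≤ i2) :
    PMHQ h μ C P s Lv d₀ N2' i1' i2' s₁ Bd Tn := by
  intro i b g νn s' W0 hi hb hg hν hν2 g1 g2 g3 hW hR hle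
  exact H i b g νn s' W0 hi hb hg hν (hν2.trans h1) (by linarith) (by linarith) g3 hW hR hle

lemma T9_zero : ((0, 0) : ℕ × ℕ) ∈ RGw813.T9 := by
  unfold RGw813.T9
  simp

/-- the predicate of the not principal part -/
def QnE (E B τ d : Eis) : Prop := ¬ PrQ E B τ d

open Classical in
/-- **the merged frequencies of the non principal `d`**, with a further factor `x₀` -/
theorem q4_npx {T : Finset Eis} {X Z : ℝ} (hX : 0 ≤ X) (hZ : 0 ≤ Z) {u v : ℕ}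
    (hT : ∀ y ∈ T, IsPrim y) {e A τ g₃ x₀ : Eis} (he : IsPrim e) (hA : IsPrim A) (hτ : τ ≠ 0)
    (hx₀ : x₀ ≠ 0) {P : Eis → Eis → Eis → Prop} {x : I4}
    (hx : x ∈ Q4 T X Z u v (fun y B => fP P (QnE (e * A * y * x₀) B τ)) g₃) :
    NCube (f4 (e * A * x₀) τ x) := by
  obtain ⟨⟨h1, h2, h3, h4⟩, -, h5, h6⟩ := mem_Q4.1 hx
  have p1 := hT _ h1
  have p2 := bk_prim hX h2
  have p3 := bk_prim hX h3
  have p4 : IsPrim x.2.2.2 := ((mem_pb hZ).1 h4).2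
  have hE : e * A * x.1 * x₀ ≠ 0 := mul_ne_zero
    (mul_ne_zero (mul_ne_zero he.ne_zero hA.ne_zero) p1.ne_zero) hx₀
  have h7 := np_freq hE hτ p2.ne_zero p3.ne_zero p4.ne_zero h6
  have e1 : f4 (e * A * x₀) τ x =
      e * A * x.1 * x₀ * τ * (x.2.2.2 * (x.2.2.1 * x.2.1) ^ 2) := by
    unfold MoL106.f4
    ring
  rw [e1]
  exact h7

set_option maxHeartbeats 2000000 in
open Classical in
/-- **the cell hypothesis of `cell_SDX`** -/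
theorem cellX_ofQ {ε : ℝ} (hε : 0 < ε) : ∃ C₁ : ℝ, 1 ≤ C₁ ∧
    ∀ (h : ℝ → ℝ) (μ C : ℝ) (P : DPar) {r : ℕ} (s : Fin r → Pq) (V X X0 : ℝ)
      (e A c st g₀ : Eis) (l u j : ℕ) (n : Eis), 0 < V → 1 ≤ X → 8 * X ^ 2 ≤ X0 →
      IsPrim e → IsPrim A → c ∈ C4 → st ≠ 0 → IsPrim g₀ → IsPrim n →
      Real.exp ((u : ℝ) / 3) ≤ X → Real.exp ((l : ℝ) / 3 + 1 / 3) * 2 ^ j ≤ X0 →
      ∀ (s₁ N2 i1 i2 Bd Tn : ℝ), Real.log (nm (e * A * st ^ 4)) + k9 ≤ s₁ → 0 ≤ Bd →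
      Real.log (nm n) ≤ N2 →
      Real.log (2 ^ j) + l / 3 ≤ i1 + u / 3 → Real.log (2 ^ j) + l / 3 ≤ i2 - 2 * (u / 3) →
      PMHQ h μ C P s (Real.log (V * nm (e * A))) (Real.log (nm g₀)) N2 i1 i2 s₁ Bd Tn →
      CellX h μ C P s V e A c (st ^ 4) X QnE g₀ (0, 0) l u j n
        (fun v _ => 3 * Real.exp (2 / 3) * Real.exp ((v : ℝ) / 3 +
          nr (Real.log (V * nm (e * A))) (Real.log (2 ^ j) + l / 3 - 3 * Real.log (nm n)) -
            l / 3))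
        (C₁ * X0 ^ ε * (Bd * Real.exp (Real.log (2 ^ j) - Real.log (nm n) + Tn))) := by
  obtain ⟨C₁, hC₁, hc⟩ := cell_sQ hε
  refine ⟨3 * Real.exp (2 / 3) * C₁, ?_, ?_⟩
  · have h1 : 1 ≤ Real.exp (2 / 3) := Real.one_le_exp (by norm_num)
    nlinarith
  intro h μ C P r s V X X0 e A c st g₀ l u j n hV hX hXX0 he hA hc4 hst hg₀ hn hu hlj s₁ N2 i1 i2
    Bd Tn hs₁ hBd hnN hi1 hi2 hPM v hv w hw hWp i g₃ hg₃ s' W0 hW0 hR hle
  have hX0 : 0 ≤ X := by linarith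
  have hX00 : 0 < X0 := by nlinarith
  have hE : e * A * st ^ 4 ≠ 0 := mul_ne_zero (mul_ne_zero he.ne_zero hA.ne_zero) (pow_ne_zero 4 hst)
  have hkw : kw (0, 0) = 1 := by unfold MoL106.kw; simp
  have hE2 : e * A * st ^ 4 * kw (0, 0) ^ 2 ≠ 0 := by
    rw [hkw]; simpa using hE
  have hτ : dl' c i ≠ 0 := dl_ne_zero (QsJ401.C4_ne hc4) i
  have hZ1 : (1 : ℝ) ≤ 2 ^ j := one_le_pow₀ (by norm_num)
  have hv3 := exp_third_le hX hv
  have huv : Real.exp (((u + v : ℕ) : ℝ) / 3 + 2 / 3) ≤ X0 := by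
    have e1 : Real.exp (((u + v : ℕ) : ℝ) / 3 + 2 / 3) =
        Real.exp ((u : ℝ) / 3) * Real.exp ((v : ℝ) / 3) * Real.exp (2 / 3) := by
      rw [← Real.exp_add, ← Real.exp_add]
      congr 1
      push_cast
      ring
    rw [e1]
    have h2 := exp_two_thirds
    calc Real.exp ((u : ℝ) / 3) * Real.exp ((v : ℝ) / 3) * Real.exp (2 / 3) ≤ X * X * 2 := by
          gcongr
      _ ≤ 8 * X ^ 2 := by nlinarith
      _ ≤ X0 := hXX0
  have hfr := log_fr T9_zero hc4 i (E := e * A * st ^ 4) hE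
  have hz0 : 0 ≤ Real.log ((2 : ℝ) ^ j) := Real.log_nonneg hZ1
  have hW00 : (0 : ℝ) ≤ W0 ^ (2 * μ) := Real.rpow_nonneg (by linarith) _
  set z := Real.log ((2 : ℝ) ^ j) with hz
  set νn := Real.log (nm n) with hνn
  have hνn0 : 0 ≤ νn := Real.log_nonneg (by exact_mod_cast nm_pos.2 hn.ne_zero)
  have hl0 : (0 : ℝ) ≤ (l : ℝ) / 3 := by positivity
  have hu0 : (0 : ℝ) ≤ (u : ℝ) / 3 := by positivity
  have hv0 : (0 : ℝ) ≤ (v : ℝ) / 3 := by positivity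
  have hw0 : (0 : ℝ) ≤ (w : ℝ) / 3 := by positivity
  set Lv := Real.log (V * nm (e * A)) with hLv
  set d₀ := Real.log (nm g₀) with hd₀
  set S' := ∑ k, (s' k).z with hS'
  set SS := ∑ k, (s k).z with hSS
  set U := Tn - (νn + nr Lv (z + l / 3 - 3 * νn) - (z + l / 3)) - (SS - d₀ - u / 3 - S') with hU
  have hTp : ∀ y ∈ Tb V e A c l, IsPrim y := fun y hy => Tb_prim hy
  have key := hc NCube (Tb V e A c l) X (2 ^ j) l u v w
    (fun y B => fP (fun g₂ g₃ d => DN n g₂ g₃ d ∧ (2 : ℝ) ^ j / 2 < nm d)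
          (QnE (e * A * y * st ^ 4) B (dl' c i)))
    g₃ (e * A * st ^ 4 * kw (0, 0) ^ 2) (dl' c i) hX0 hZ1 hE2 hτ
    (fun y hy => ⟨Tb_prim hy, bk_nm_le (Real.sqrt_nonneg V) (mem_Tb.1 hy).1⟩) hg₃
    (fun x hx => by
      have h1 := q4_npx hX0 (by positivity) hTp he hA hτ (pow_ne_zero 4 hst) hx
      rw [hkw, one_pow, mul_one]
      exact h1)
    X0 hlj huv s₁
    (by linarith) P h s' (Bd * W0 ^ (2 * μ) * Real.exp U) (by positivity)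
    (fun h0 => hPM (z + l / 3) (u / 3) (v / 3) νn s' W0 (by linarith) hu0 hv0 hνn0 hnN hi1 hi2
      (by linarith) hW0 hR (by linarith))
  have hWp' : 0 ≤ 3 * Real.exp (2 / 3) * Real.exp ((v : ℝ) / 3 + nr Lv (z + l / 3 - 3 * νn) -
      l / 3) * Real.exp ((w : ℝ) / 3) := by positivity
  refine (mul_le_mul_of_nonneg_left key hWp').trans (le_of_eq ?_)
  have e1 : Real.exp ((v : ℝ) / 3 + nr Lv (z + l / 3 - 3 * νn) - l / 3) *
      Real.exp ((w : ℝ) / 3) * Real.exp U =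
      Real.exp (z - νn + Tn) * Real.exp (S' - (SS - (d₀ + ((u : ℝ) / 3 + v / 3 + w / 3)))) := by
    rw [← Real.exp_add, ← Real.exp_add, ← Real.exp_add]
    congr 1
    rw [hU]
    ring
  calc 3 * Real.exp (2 / 3) * Real.exp ((v : ℝ) / 3 + nr Lv (z + l / 3 - 3 * νn) - l / 3) *
        Real.exp ((w : ℝ) / 3) * (C₁ * X0 ^ ε * (Bd * W0 ^ (2 * μ) * Real.exp U)) =
      3 * Real.exp (2 / 3) * C₁ * X0 ^ ε * Bd * W0 ^ (2 * μ) *
        (Real.exp ((v : ℝ) / 3 + nr Lv (z + l / 3 - 3 * νn) - l / 3) *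
      Real.exp ((w : ℝ) / 3) * Real.exp U) := by ring
    _ = _ := by rw [e1]; ring

/-- **two lists**, at any frequency -/
theorem cellX_two {J : ℕ} {V : ℝ} {e A c : Eis} {X : ℝ} (hX : 0 ≤ X)
    {Q : Eis → Eis → Eis → Eis → Prop} {δ g₀ : Eis} (hg₀ : IsPrim g₀) {φ : ℝ → ℝ} {p : ℕ × ℕ}
    {t₀ : ℝ} {Ef : Eis → Eis} {l u j : ℕ} {n : Eis} {a b : Eis → ℂ} (ha : FS a) (hb : FS b)
    {ζ : ℂ} (hζ : ‖ζ‖ ≤ 1) :
    ∑ j₂ ∈ Tb V e A c l, ∑ B ∈ bk X u,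
      MNx J V e A c X (Q (Ef j₂)) δ g₀ φ p t₀ (Ef j₂) j₂ B j n (fun m => a m - ζ * b m) ≤
    2 * (∑ j₂ ∈ Tb V e A c l, ∑ B ∈ bk X u,
        MNx J V e A c X (Q (Ef j₂)) δ g₀ φ p t₀ (Ef j₂) j₂ B j n a +
      ∑ j₂ ∈ Tb V e A c l, ∑ B ∈ bk X u,
        MNx J V e A c X (Q (Ef j₂)) δ g₀ φ p t₀ (Ef j₂) j₂ B j n b) := by
  have hQF : QF (fun α => ∑ j₂ ∈ Tb V e A c l, ∑ B ∈ bk X u,
      MNx J V e A c X (Q (Ef j₂)) δ g₀ φ p t₀ (Ef j₂) j₂ B j n α) := by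
    refine QF_sum1 _ fun j₂ hj₂ => QF_sum1 _ fun B hB => ?_
    have h1 : 0 ≤ RR V e A c j₂ := by linarith [(mem_Tb.1 hj₂).2]
    exact QF_agbw (QF_MNn (fun g₂ _ g₃ _ => H1401.WM_nonneg h1 (by positivity) g₂ g₃) hX
      (bk_prim hX hB).ne_zero) hg₀ δ φ p t₀
  exact QF_sub hQF ha hb hζ

set_option maxHeartbeats 2000000 in
/-- **one cell**, one list -/
theorem cell_P1Q {h : ℝ → ℝ} {c₀ : ℝ} (hpu : PU h c₀) {R : ℝ} (hR0 : 0 ≤ R)
    (hR : ∀ u, cx h u ≠ 0 → |u| ≤ R) {μ : ℝ} (hμ : 0 ≤ μ) (r : ℕ) {ε : ℝ} (hε : 0 < ε) :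
    ∃ C : ℝ, 1 ≤ C ∧ ∀ (A' : ℕ), 2 * (r * μ) + 2 ≤ A' → ∀ (Cφ : ℝ) (φ : ℝ → ℝ), 0 ≤ Cφ →
      WK Cφ (1 / 2) A' φ → ∀ (P : DPar) (_ : P.OK) (s : Fin r → Pq), (∀ i, 0 ≤ (s i).z) →
      ∀ (f : Fin r → Bool) (z : ℝ) (q g₀ δ e A c st : Eis), IsPrim q → IsPrim g₀ → IsPrim δ →
      IsPrim e → IsPrim A → c ∈ C4 → st ≠ 0 → ∀ (V X X0 : ℝ) (l u j : ℕ) (n : Eis), 0 < V →
      1 ≤ X → 8 * X ^ 2 ≤ X0 → (nm g₀ : ℝ) ≤ X0 → (nm q : ℝ) ≤ X0 → (nm δ : ℝ) ≤ X0 →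
      (∀ i, Real.exp (s i).z ≤ X0) → IsPrim n → Real.exp ((u : ℝ) / 3) ≤ X →
      Real.exp ((l : ℝ) / 3 + 1 / 3) * 2 ^ j ≤ X0 →
      ∀ (s₁ N2 i1 i2 Bd Tn : ℝ), Real.log (nm (e * A * st ^ 4)) + k9 ≤ s₁ → 0 ≤ Bd →
      Real.log (nm n) ≤ N2 →
      Real.log (2 ^ j) + l / 3 ≤ i1 + u / 3 → Real.log (2 ^ j) + l / 3 ≤ i2 - 2 * (u / 3) →
      PMHQ h μ C P s (Real.log (V * nm (e * A))) (Real.log (nm g₀)) N2 i1 i2 s₁ Bd Tn →
      (2 / 2 ^ j) * ((nm n : ℝ) * ∑ j₂ ∈ Tb V e A c l, ∑ B ∈ bk X u,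
        MNx A' V e A c X (QnE (e * A * j₂ * st ^ 4)) δ g₀ φ (0, 0) 0 (e * A * j₂ * st ^ 4) j₂ B
          j n (sqc q (alf z 1 h (fun i => (s i).pc P) f))) ≤
      C * (Cφ ^ 2 * iA A' * (1 / 2 * ((1 / 2 : ℝ) ^ A')⁻¹)) * X0 ^ (2 * ε) *
        (Bd * Real.exp Tn) := by
  obtain ⟨C, hC, H⟩ := cell_SDX hpu hR0 hR hμ r hε
  obtain ⟨C₁, hC₁, H₁⟩ := cellX_ofQ hε
  have hC0 : 0 ≤ C := by linarith
  have hC10 : 0 ≤ C₁ := by linarith
  have hop : 1 ≤ opL r 1 := by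
    unfold opL
    have h1 : (1 : ℝ) ≤ ((100 * 1) ^ r) ^ 2 := one_le_pow₀ (one_le_pow₀ (by norm_num))
    rw [one_pow, one_mul]
    exact h1
  have hop0 : 0 ≤ opL r 1 := by linarith
  set CC := C * (2 * opL r 1 * C₁) with hCC
  have hCCC : C ≤ CC := by
    have h1 : 1 ≤ 2 * opL r 1 * C₁ := by nlinarith
    nlinarith
  refine ⟨CC, hC.trans hCCC, ?_⟩
  intro A' hA' Cφ φ hCφ hφ P hP s hs f z q g₀ δ e A c st hq hg₀ hδ he hA hc hst V X X0 l u j n hV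
    hX hXX hgX hqX hδX hsX hn hu hlj s₁ N2 i1 i2 Bd Tn hs₁ hBd hnN hi1 hi2 hPM
  have hX00 : 0 < X0 := by nlinarith
  have hX01 : 1 ≤ X0 := by nlinarith
  have hXX0 : X ≤ X0 := by nlinarith
  have hcell := H₁ h μ CC P s V X X0 e A c st g₀ l u j n hV hX hXX he hA hc hst hg₀ hn hu hlj s₁
    N2 i1 i2 Bd Tn hs₁ hBd hnN hi1 hi2 hPM
  have hnm1 : (1 : ℝ) ≤ nm n := by exact_mod_cast nm_pos.2 hn.ne_zero
  have hea : (1 : ℝ) ≤ nm (e * A) := by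
    exact_mod_cast nm_pos.2 (mul_ne_zero he.ne_zero hA.ne_zero)
  have hcn : (1 : ℝ) ≤ nm c := (nm_C hc).1
  set Wb : ℕ → ℕ → ℝ := fun v _ => 3 * Real.exp (2 / 3) * Real.exp ((v : ℝ) / 3 +
          nr (Real.log (V * nm (e * A))) (Real.log (2 ^ j) + l / 3 - 3 * Real.log (nm n)) -
            l / 3) with hWb
  set M : ℝ := C₁ * X0 ^ ε * (Bd * Real.exp (Real.log (2 ^ j) - Real.log (nm n) + Tn)) with hM
  have hM0 : 0 ≤ M := by positivity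
  have key := H A' hA' Cφ (1 / 2) hCφ (by norm_num) (by norm_num) φ hφ (0, 0) 0 P hP s hs f z 1
    le_rfl q g₀ δ e A (st ^ 4) hq hg₀ hδ he hA V X X0 hX hXX0 (by rw [one_pow]; exact hX01) hgX hqX
    hδX hsX l u j n QnE Wb c hc
    (fun v hv w' hw' g₂ hg₂ g₃ hg₃ => by
      have hX0 : 0 ≤ X := by linarith
      have b1 := bk_nm_ge hX0 hg₂
      have b2 := bk_nm_le hX0 hg₂
      have b3 : (1 : ℝ) ≤ nm g₃ := by exact_mod_cast nm_pos.2 (bk_prim hX0 hg₃).ne_zero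
      have h2 := MoL106.WM_cell (V := Real.log (V * nm (e * A))) (s := 0) (a := (l : ℝ) / 3)
        (g := (v : ℝ) / 3) (w := 0)
        (i := Real.log (2 ^ j) + l / 3 - 3 * Real.log (nm n))
        (R := V * nm (e * A) / (nm c * Real.exp ((l : ℝ) / 3) ^ 2))
        (Z := 2 ^ j / (nm n : ℝ) ^ 3) le_rfl (by positivity) le_rfl (by positivity)
        (by positivity) (by positivity) (by
          rw [zero_add, Real.exp_sub, Real.exp_log (by positivity)]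
          have e1 : Real.exp (2 * ((l : ℝ) / 3)) = Real.exp ((l : ℝ) / 3) ^ 2 := by
            rw [← Real.exp_nat_mul]; norm_num
          rw [e1]
          refine div_le_div_of_nonneg_left (by positivity) (by positivity) ?_
          have : 0 ≤ Real.exp ((l : ℝ) / 3) ^ 2 := by positivity
          nlinarith) (by
          have e1 : Real.log (2 ^ j) + (l : ℝ) / 3 - 3 * Real.log (nm n) - l / 3 + 3 * 0 =
            Real.log (2 ^ j) - 3 * Real.log (nm n) := by ring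
          rw [e1, Real.exp_sub, Real.exp_log (by positivity)]
          have e2 : Real.exp (3 * Real.log (nm n)) = (nm n : ℝ) ^ 3 := by
            have h3 : (3 : ℝ) * Real.log (nm n) = Real.log ((nm n : ℝ) ^ 3) := by
              rw [Real.log_pow]; norm_num
            rw [h3, Real.exp_log (by positivity)]
          rw [e2]) b1 b2 (by rw [Real.exp_zero]; exact b3)
      refine h2.trans (le_of_eq ?_)
      rw [hWb]
      beta_reduce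
      congr 2
      ring)
    (fun v _ w' _ => by rw [hWb]; positivity) M hM0
    (CellX.mono hcell hCCC)
  rw [abs_zero, add_zero, one_pow, mul_one] at key
  have h2j : (0 : ℝ) < 2 ^ j := by positivity
  calc (2 / 2 ^ j) * ((nm n : ℝ) * ∑ j₂ ∈ Tb V e A c l, ∑ B ∈ bk X u,
        MNx A' V e A c X (QnE (e * A * j₂ * st ^ 4)) δ g₀ φ (0, 0) 0 (e * A * j₂ * st ^ 4) j₂ B
          j n (sqc q (alf z 1 h (fun i => (s i).pc P) f))) ≤
      (2 / 2 ^ j) * ((nm n : ℝ) * (C * (Cφ ^ 2 * iA A' * (1 / 2 * ((1 / 2 : ℝ) ^ A')⁻¹)) *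
        X0 ^ ε * opL r 1 * M)) := by gcongr
    _ = CC * (Cφ ^ 2 * iA A' * (1 / 2 * ((1 / 2 : ℝ) ^ A')⁻¹)) * (X0 ^ ε * X0 ^ ε) *
        (Bd * Real.exp Tn) := by
        rw [hM, hCC, Real.exp_add, Real.exp_sub, Real.exp_log h2j,
          Real.exp_log (by linarith : (0 : ℝ) < nm n)]
        field_simp
    _ = _ := by
        rw [← Real.rpow_add hX00]
        congr 3
        ring

end Crest.Agent.R017.RXa739
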