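import Crest.Agent.R017.RXl_440
import Crest.Agent.R017.RXa_739
import Crest.Agent.R017.P1Rh_440

/-!
# Row 17, class E, the R-side of `P1` (helper440): the premise `PMHQ`

* `PMQin` : the pair functional outside the cubes at a child (helper590's `pmq_in`)
* **`pmq_of`** : `PMHQ` from `PMQin` and `LineAX`
-/

set_option autoImplicit false
set_option maxHeartbeats 2000000

noncomputable section

open Finset
open scoped ComplexConjugate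

namespace Crest.Agent.R017.RXm440

open Crest.Agent.R012 Crest.Agent.R012.Eis
open Crest.Agent.R017.B770
open Crest.Agent.R017.Prov71
open Crest.Agent.R017.XRG106 (Rl)
open Crest.Agent.R017.MoL106 (nr)
open Crest.Agent.R017.I1146 (LN)
open Crest.Agent.R017.P1R904 (r3)
open Crest.Agent.R017.P1F904 (Dp)
open Crest.Agent.R017.P1H440 (Tg)
open Crest.Agent.R017.PX829 (PXsn)
open Crest.Agent.R017.RXa739 (PMHQ)
open Crest.Agent.R017.P1Rg440 Crest.Agent.R017.P1Rh440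
open Crest.Agent.R017.RXl440

variable {Λ : Type*}

/-- **the pair functional outside the cubes**, at a child of a list with three lumps -/
def PMQin (Q : Eis → Prop) (π : Λ → DPar) (h : ℝ → ℝ) (d : ℝ) : Prop :=
  ∀ ε : ℝ, 0 < ε → ∃ σ : ℝ, 0 < σ ∧ ∀ (lam : Λ) (N : ℕ) (B : ℝ), ∃ (M : ℕ) (X₀ : ℝ), 1 < X₀ ∧
    ∀ X : ℝ, X₀ ≤ X → ∀ (l β H : ℝ) (u₁ u₂ u₃ : Pq) (rest : List Pq), rest.length ≤ N →
    Pcx σ B X H u₁ u₂ u₃ rest → 0 ≤ l → 0 ≤ β → l ≤ 2 * Real.log X → β ≤ 3 * Real.log X →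
    ∀ z₁ z₂ z₃ x' ρ n' U : ℝ, z₃ ≤ z₂ → z₂ ≤ z₁ →
    ({u₁.z, u₂.z, u₃.z} : Multiset ℝ) =
      {z₁ * Real.log X, z₂ * Real.log X, z₃ * Real.log X} → x' = LN rest / Real.log X →
    n' = z₁ + z₂ + z₃ + x' →
    U = max (max (n' / 3 + z₃ / 2) (n' / 3 + 4 / 15 * (z₃ + x'))) (max (2 / 3 * (z₃ + x')) x') →
    ((r3 d (l / Real.log X + 2 * (β / Real.log X))
        (min z₁ (l / Real.log X + 2 * (β / Real.log X)))
        (min z₂ (l / Real.log X + 2 * (β / Real.log X)))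
        (min z₃ (l / Real.log X + 2 * (β / Real.log X))) x' ≤ ρ ∧
        2 * x' + (l / Real.log X + 2 * (β / Real.log X)) / 3 ≤ ρ) ∨
      PXsn (l / Real.log X) (β / Real.log X) 0 z₁ z₂ z₃ x' n' (2 * d * (z₃ + x')) U ρ) →
    RQd385.PM2Q Q (π lam) h l β (u₁ :: u₂ :: u₃ :: rest) ≤ H ^ M * X ^ (ρ + ε)

/-- sorting three numbers -/
lemma sort3 {w₁ w₂ w₃ a₁ a₂ a₃ : ℝ} (h1 : 0 ≤ w₁) (h2 : 0 ≤ w₂) (h3 : 0 ≤ w₃) (k1 : w₁ ≤ a₁)
    (k2 : w₂ ≤ a₂) (k3 : w₃ ≤ a₃) (a32 : a₃ ≤ a₂) (a21 : a₂ ≤ a₁) :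
    ∃ z₁ z₂ z₃ : ℝ, 0 ≤ z₃ ∧ z₃ ≤ z₂ ∧ z₂ ≤ z₁ ∧ z₁ ≤ a₁ ∧ z₂ ≤ a₂ ∧ z₃ ≤ a₃ ∧
      z₁ + z₂ + z₃ = w₁ + w₂ + w₃ ∧ ∀ L : ℝ, ({w₁ * L, w₂ * L, w₃ * L} : Multiset ℝ) =
        {z₁ * L, z₂ * L, z₃ * L} := by
  have sw12 : ∀ a b c : ℝ, ({a, b, c} : Multiset ℝ) = {b, a, c} := fun a b c =>
    Multiset.cons_swap a b {c}
  have sw23 : ∀ a b c : ℝ, ({a, b, c} : Multiset ℝ) = {a, c, b} := fun a b c => by
    show a ::ₘ (b ::ₘ {c}) = a ::ₘ (c ::ₘ {b})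
    congr 1
    exact Multiset.cons_swap b c 0
  rcases le_total w₁ w₂ with q1 | q1 <;> rcases le_total w₂ w₃ with q2 | q2 <;>
    rcases le_total w₁ w₃ with q3 | q3
  · exact ⟨w₃, w₂, w₁, h1, q1, q2, by linarith, by linarith, by linarith, by ring,
      fun L => by rw [sw12, sw23, sw12]⟩
  · exact ⟨w₃, w₂, w₁, h1, q1, q2, by linarith, by linarith, by linarith, by ring,
      fun L => by rw [sw12, sw23, sw12]⟩
  · exact ⟨w₂, w₃, w₁, h1, q3, q2, by linarith, by linarith, by linarith, by ring,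
      fun L => by rw [sw12, sw23]⟩
  · exact ⟨w₂, w₁, w₃, h3, q3, q1, by linarith, by linarith, by linarith, by ring,
      fun L => by rw [sw12]⟩
  · exact ⟨w₃, w₁, w₂, h2, q1, q3, by linarith, by linarith, by linarith, by ring,
      fun L => by rw [sw23, sw12]⟩
  · exact ⟨w₁, w₃, w₂, h2, q2, q3, by linarith, by linarith, by linarith, by ring,
      fun L => by rw [sw23]⟩
  · exact ⟨w₁, w₂, w₃, h3, q2, q1, k1, k2, k3, by ring, fun L => rfl⟩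
  · exact ⟨w₁, w₂, w₃, h3, q2, q1, k1, k2, k3, by ring, fun L => rfl⟩

/-- the bounds of the three lumps: natural or replaced list -/
def Lmp3 (η L y₃ y₄ u Z z₁ z₂ z₃ : ℝ) : Prop :=
  (z₁ ≤ y₃ * L + η ∧ z₂ ≤ y₄ * L + η ∧ z₃ ≤ u * L + η) ∨
  (z₁ ≤ Z * L + η ∧ z₂ ≤ (y₃ + y₄ - Z) * L + η ∧ z₃ ≤ u * L + η)

/-- **(R2)** of class E, in logarithms -/
theorem realAX (HL : LineAX) {y₃ y₄ u x d Z hh bq s₀ L p d₀ ν A e v T cs C i1 i2 Tn i b g νn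
    z₁ z₂ z₃ w hM : ℝ}
    (hL : 0 < L)
    (hB : BlkX y₃ y₄ u x d Z (hh / L) bq s₀ (p / L) ((d₀ + ν) / L) (A / L) (e / L) (v / L) T)
    (n0 : 0 ≤ ν) (A0 : 0 ≤ A) (e0 : 0 ≤ e) (A1 : A ≤ d₀) (hcs : 0 ≤ cs) (hC : 0 ≤ C)
    (hsm : cs + 3 + C ≤ L / 10 ^ 6)
    (hi1 : i1 ≤ v + p - L + hh + 2 * (e + A) + 2 * ν - d₀ + L / 10 ^ 6)
    (hi2 : i2 ≤ L - (e + A) + L / 10 ^ 6)
    (hTn : (2 * Tg (y₃ + y₄ + u) (p / L) + 3 / 4 * d - T) * L - (d₀ + ν - A) -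
      L / 4000 ≤ Tn)
    (i0 : 0 ≤ i) (b0 : 0 ≤ b) (g0 : 0 ≤ g) (νn0 : 0 ≤ νn) (νn1 : νn ≤ ν) (h1 : i ≤ i1 + b)
    (h2 : i ≤ i2 - 2 * b) (h3 : 2 * g ≤ i + (e + A + cs))
    (z10 : 0 ≤ z₁) (z20 : 0 ≤ z₂) (z30 : 0 ≤ z₃) (w0 : 0 ≤ w)
    (hz : Lmp3 (2 * (L / 10 ^ 6)) L y₃ y₄ u Z z₁ z₂ z₃) (w1 : w ≤ x * L + 2 * (L / 10 ^ 6))
    (hle : z₁ + z₂ + z₃ + w ≤ p - (d₀ + b + g) + C) (hMH : hM ≤ L / 10 ^ 4) :
    ∃ a₁ a₂ a₃ x' ρ n' U : ℝ, a₃ ≤ a₂ ∧ a₂ ≤ a₁ ∧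
      ({z₁, z₂, z₃} : Multiset ℝ) = {a₁ * L, a₂ * L, a₃ * L} ∧ x' = w / L ∧
      n' = a₁ + a₂ + a₃ + x' ∧
      U = max (max (n' / 3 + a₃ / 2) (n' / 3 + 4 / 15 * (a₃ + x'))) (max (2 / 3 * (a₃ + x')) x') ∧
      ((r3 d ((i + (e + A + cs) - 2 * g) / L + 2 * ((b + 2 / 3 + g) / L))
        (min a₁ ((i + (e + A + cs) - 2 * g) / L + 2 * ((b + 2 / 3 + g) / L)))
        (min a₂ ((i + (e + A + cs) - 2 * g) / L + 2 * ((b + 2 / 3 + g) / L)))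
        (min a₃ ((i + (e + A + cs) - 2 * g) / L + 2 * ((b + 2 / 3 + g) / L))) x' ≤ ρ ∧
        2 * x' + ((i + (e + A + cs) - 2 * g) / L + 2 * ((b + 2 / 3 + g) / L)) / 3 ≤ ρ) ∨
      PXsn ((i + (e + A + cs) - 2 * g) / L) ((b + 2 / 3 + g) / L) 0 a₁ a₂ a₃ x' n'
        (2 * d * (a₃ + x')) U ρ) ∧
      hM + (ρ + 1 / 20000) * L ≤
        Tn - (νn + nr (v + e + A) (i - 3 * νn) - i) - (p - d₀ - b - (z₁ + z₂ + z₃ + w)) := by
  set ms : ℝ := max 0 (p - d₀ - b - g - (z₁ + z₂ + z₃ + w)) with hms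
  have ms0 : 0 ≤ ms := le_max_left _ _
  have ms1 : p - d₀ - b - g - (z₁ + z₂ + z₃ + w) ≤ ms := le_max_right _ _
  have ms2 : ms ≤ p - d₀ - b - g - (z₁ + z₂ + z₃ + w) + C := max_le (by linarith) (by linarith)
  set W : ℝ := νn + nr (v + e + A) (i - 3 * νn) + g with hWd
  obtain ⟨t, ht, hLt⟩ : ∃ t : ℝ, 0 < t ∧ L * t = 1 := ⟨L⁻¹, by positivity, mul_inv_cancel₀ hL.ne'⟩
  have hdiv : ∀ a : ℝ, a / L = a * t := fun a => by
    rw [div_eq_iff hL.ne', mul_assoc, mul_comm t L, hLt, mul_one]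
  have hWc : W ≤ v + e + A + g + ν ∨ W ≤ i + g ∨ W ≤ 2 / 3 * (v + e + A + i) + g := by
    rw [hWd]
    unfold MoL106.nr
    rcases max_choice (v + e + A) (max (i - 3 * νn) (2 / 3 * (v + e + A + (i - 3 * νn)))) with
      h | h
    · rw [h]; exact Or.inl (by linarith)
    · rw [h]
      rcases max_choice (i - 3 * νn) (2 / 3 * (v + e + A + (i - 3 * νn))) with h' | h'
      · rw [h']; exact Or.inr (Or.inl (by linarith))
      · rw [h']; exact Or.inr (Or.inr (by linarith))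
  rw [show L / 10 ^ 6 = 1 / 10 ^ 6 * L by ring] at hsm hi1 hi2 w1 hz
  rw [show L / 10 ^ 4 = 1 / 10 ^ 4 * L by ring] at hMH
  rw [show L / 4000 = 1 / 4000 * L by ring] at hTn
  simp only [hdiv] at hB hTn ⊢
  have e1 : (d₀ + ν) * t = d₀ * t + ν * t := by ring
  rw [e1] at hB
  have hdp := hB.dp
  have mt : ∀ {a c : ℝ}, a ≤ c → a * t ≤ c * t := fun h => mul_le_mul_of_nonneg_right h ht.le
  have hLt' : ∀ a : ℝ, a * L * t = a := fun a => by rw [mul_assoc, hLt, mul_one]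
  -- the sorted side
  obtain ⟨a₁, a₂, a₃, s0, s32, s21, hsum, hmul, hbd⟩ : ∃ a₁ a₂ a₃ : ℝ, 0 ≤ a₃ ∧ a₃ ≤ a₂ ∧
      a₂ ≤ a₁ ∧ a₁ + a₂ + a₃ = z₁ * t + z₂ * t + z₃ * t ∧
      (∀ L : ℝ, ({z₁ * t * L, z₂ * t * L, z₃ * t * L} : Multiset ℝ) =
        {a₁ * L, a₂ * L, a₃ * L}) ∧
      (a₁ ≤ y₃ + 1 / 40000 ∧ a₂ ≤ y₄ + 1 / 40000 ∧ a₃ ≤ u + 1 / 40000 ∨
        a₁ ≤ y₃ + y₄ - Z + 1 / 40000 ∧ a₂ ≤ u + 1 / 40000 ∧ a₃ ≤ Z + 1 / 40000) := by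
    have q1 : 0 ≤ z₁ * t := by positivity
    have q2 : 0 ≤ z₂ * t := by positivity
    have q3 : 0 ≤ z₃ * t := by positivity
    have hcv : ∀ {z y : ℝ}, z ≤ y * L + 2 * (1 / 10 ^ 6 * L) → z * t ≤ y + 1 / 40000 := by
      intro z y h
      have h4 := mt h
      have h5 := hLt' y
      have h6 : (y * L + 2 * (1 / 10 ^ 6 * L)) * t = y + 2 * (1 / 10 ^ 6) := by
        linear_combination (y + 2 * (1 / 10 ^ 6)) * hLt
      linarith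
    rcases hz with ⟨k1, k2, k3⟩ | ⟨k1, k2, k3⟩
    · obtain ⟨a₁, a₂, a₃, c0, c1, c2, c3, c4, c5, c6, c7⟩ := sort3 q1 q2 q3 (hcv k1) (hcv k2)
        (hcv k3) (by linarith [hdp.u4]) (by linarith [hdp.y43])
      exact ⟨a₁, a₂, a₃, c0, c1, c2, c6, c7, Or.inl ⟨c3, c4, c5⟩⟩
    · obtain ⟨a₁, a₂, a₃, c0, c1, c2, c3, c4, c5, c6, c7⟩ := sort3 q2 q3 q1 (hcv k2) (hcv k3)
        (hcv k1) (by linarith [hdp.u0, hB.Z1]) (by linarith [hdp.u0, hB.Z1, hdp.y43, hdp.u4])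
      refine ⟨a₁, a₂, a₃, c0, c1, c2, by linarith, fun L' => ?_, Or.inr ⟨c3, c4, c5⟩⟩
      rw [← c7 L']
      have sw12 : ∀ a b c : ℝ, ({a, b, c} : Multiset ℝ) = {b, a, c} := fun a b c =>
        Multiset.cons_swap a b {c}
      have sw23 : ∀ a b c : ℝ, ({a, b, c} : Multiset ℝ) = {a, c, b} := fun a b c => by
        show a ::ₘ (b ::ₘ {c}) = a ::ₘ (c ::ₘ {b})
        congr 1
        exact Multiset.cons_swap b c 0
      rw [sw12, sw23]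
  set ρ : ℝ := 2 * Tg (y₃ + y₄ + u) (p * t) + 3 / 4 * d - T -
    (d₀ * t + ν * t - A * t + (W * t - (i + cs) * t) + ms * t) - 1 / 1000 with hρ
  refine ⟨a₁, a₂, a₃, w * t, ρ, _, _, s32, s21, ?_, rfl, rfl, rfl, ?_, ?_⟩
  · have h4 := hmul L
    have h5 : ∀ a : ℝ, a * t * L = a := fun a => by rw [mul_assoc, mul_comm t L, hLt, mul_one]
    rw [h5, h5, h5] at h4
    exact h4
  · refine HL y₃ y₄ u x d Z (hh * t) bq s₀ (p * t) (d₀ * t) (ν * t) (A * t) (e * t) (v * t) T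
      ((b + 1) * t) (g * t) ((i + cs) * t) ((b + 2 / 3 + g) * t)
      ((i + (e + A + cs) - 2 * g) * t) a₁ a₂ a₃ (w * t) (W * t) (ms * t) ρ _ _ hB
      (by positivity) (mt A1) (by positivity) (by positivity) (by positivity) (by positivity)
      ?_ ?_ s0 s32 s21 (by positivity) ?_ hbd ?_ ?_ (by positivity) (by nlinarith) ?_
      (by nlinarith) ?_ hρ rfl rfl
    · have q1 := mt (h1.trans (add_le_add_left hi1 b))
      have q2 := mt hsm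
      have q3 : 0 ≤ C * t := by positivity
      nlinarith
    · have q1 := mt (h2.trans (sub_le_sub_right hi2 (2 * b)))
      have q2 := mt hsm
      have q3 : 0 ≤ C * t := by positivity
      nlinarith
    · have q1 := mt w1
      have h6 : (x * L + 2 * (1 / 10 ^ 6 * L)) * t = x + 2 * (1 / 10 ^ 6) := by
        linear_combination (x + 2 * (1 / 10 ^ 6)) * hLt
      linarith
    · have q1 := mt ms2
      have q2 := mt hsm
      have q3 : 0 ≤ cs * t := by positivity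
      have q4 : 0 ≤ C * t := by positivity
      rw [hsum]
      nlinarith
    · have q1 := mt h3
      nlinarith
    · have : 0 ≤ i + (e + A + cs) - 2 * g := by linarith
      positivity
    · have q3 : 0 ≤ cs * t := by positivity
      rcases hWc with h | h | h
      · left
        have := mt h
        linarith
      · right; left
        have := mt h
        linarith
      · right; right
        have := mt h
        linarith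
  · have hb : ∀ a : ℝ, a * t * L = a := fun a => by rw [mul_assoc, mul_comm t L, hLt, mul_one]
    have q2 : ρ * L = (2 * Tg (y₃ + y₄ + u) (p * t) + 3 / 4 * d - T) * L -
        (d₀ + ν - A + (W - (i + cs)) + ms) - 1 / 1000 * L := by
      rw [hρ]
      linear_combination -hb d₀ - hb ν + hb A - hb W + hb (i + cs) - hb ms
    rw [hWd] at q2
    have q3 : (ρ + 1 / 20000) * L = ρ * L + 1 / 20000 * L := by ring
    rw [q3, q2]
    linarith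

/-- **the premise `PMHQ`** -/
theorem pmq_of {Q : Eis → Prop} {π : Λ → DPar} {h : ℝ → ℝ} {d : ℝ} (HI : PMQin Q π h d)
    (HL : LineAX) :
    ∃ σ : ℝ, 0 < σ ∧ σ ≤ 1 ∧ ∀ (lam : Λ) (N : ℕ) (B : ℝ), 0 ≤ B → ∃ (M : ℕ) (X₀ : ℝ), 1 < X₀ ∧
      ∀ X : ℝ, X₀ ≤ X → ∀ {r : ℕ} (s : Fin r → Pq) (b0 b1 b2 : Pq) (qs : List Pq),
      List.ofFn s = [b0, b1, b2] ++ qs → qs.length ≤ N → ∀ (σ' H₀ : ℝ), 0 < σ' → σ' ≤ σ →
      Lst σ' B X H₀ b0 b1 b2 qs →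
      ∀ (y₃ y₄ u x Z hh bq s₀ p d₀ ν A e v T cs C i1 i2 Tn μ : ℝ),
      p = ∑ k, (s k).z →
      BlkX y₃ y₄ u x d Z (hh / Real.log X) bq s₀ (p / Real.log X) ((d₀ + ν) / Real.log X)
        (A / Real.log X) (e / Real.log X) (v / Real.log X) T → 0 ≤ ν → 0 ≤ A → 0 ≤ e → A ≤ d₀ →
      0 ≤ cs → 0 ≤ C →
      C ≤ σ' / 2 * Real.log X → cs + 3 + C ≤ Real.log X / 10 ^ 6 →
      N * C ≤ Real.log X / 10 ^ 6 →
      i1 ≤ v + p - Real.log X + hh + 2 * (e + A) + 2 * ν - d₀ + Real.log X / 10 ^ 6 →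
      i2 ≤ Real.log X - (e + A) + Real.log X / 10 ^ 6 →
      (2 * Tg (y₃ + y₄ + u) (p / Real.log X) + 3 / 4 * d - T) * Real.log X - (d₀ + ν - A) -
        Real.log X / 4000 ≤ Tn →
      Lmp3 (Real.log X / 10 ^ 6) (Real.log X) y₃ y₄ u Z b0.z b1.z b2.z →
      LN qs ≤ x * Real.log X + Real.log X / 10 ^ 6 →
      M * Real.log H₀ ≤ Real.log X / 10 ^ 4 → (M : ℝ) ≤ 2 * μ →
      ∀ i b g νn : ℝ, ∀ (s' : Fin r → Pq) (W0 : ℝ), 0 ≤ i → 0 ≤ b → 0 ≤ g → 0 ≤ νn → νn ≤ ν →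
      i ≤ i1 + b → i ≤ i2 - 2 * b → 2 * g ≤ i + (e + A + cs) →
      1 ≤ W0 → (∀ k, Rl C W0 (s' k) (s k)) →
      ∑ k, (s' k).z ≤ ∑ k, (s k).z - (d₀ + b + g) + C →
      RQd385.PM2Q Q (π lam) h (i + (e + A + cs) - 2 * g) (b + 2 / 3 + g) (List.ofFn s') ≤
        1 * W0 ^ (2 * μ) * Real.exp (Tn - (νn + nr (v + e + A) (i - 3 * νn) - i) -
          (∑ k, (s k).z - d₀ - b - ∑ k, (s' k).z)) := by
  obtain ⟨σ, hσ, H⟩ := HI (1 / 20000) (by norm_num)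
  refine ⟨min σ 1, lt_min hσ one_pos, min_le_right _ _, fun lam N B hB => ?_⟩
  obtain ⟨M, X₀, hX₀, H⟩ := H lam N (B + 10)
  refine ⟨M, X₀, hX₀, ?_⟩
  intro X hX r s b0 b1 b2 qs hs hN σ' H₀ hσ'0 hσ' hl y₃ y₄ u x Z hh bq s₀ p d₀ ν A e v T cs C i1
    i2 Tn μ hp hBlk ν0 A0 e0 A1 hcs hC hCσ hsm hNC hi1 hi2 hTn hz w1 hMH hμ i b g νn s' W0
    hi hb hg hν0 hν hii1 hii2 hgi hW0 hR hle
  have hX1 : 1 < X := lt_of_lt_of_le hX₀ hX
  have hX0 : 0 < X := by linarith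
  set L := Real.log X with hL
  have hL0 : 0 < L := Real.log_pos hX1
  obtain ⟨u₁, u₂, u₃, rest, hs', r1, r2, r3, r4⟩ := nat_split hs hR
  have hC6 : C ≤ L / 10 ^ 6 := by linarith
  have hLX : L ≤ X := by
    have := Real.log_le_sub_one_of_pos hX0
    linarith
  have hCX2 : C ≤ X := by
    have : L / 10 ^ 6 ≤ L := by
      rw [div_le_iff₀ (by norm_num)]; nlinarith
    linarith
  have hqsC : (qs.length : ℝ) * C ≤ L / 10 ^ 6 := by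
    refine le_trans ?_ hNC
    exact mul_le_mul_of_nonneg_right (by exact_mod_cast hN) hC
  have hdp := hBlk.dp
  have hxL : x * L ≤ 1 * L := mul_le_mul_of_nonneg_right (by
    linarith [hdp.y3, hdp.u4, hdp.y43, hdp.u0]) hL0.le
  have hL6 : L / 10 ^ 6 ≤ 1 / 1000 * L := by
    rw [div_le_iff₀ (by norm_num)]; nlinarith
  have hLNC : LN qs + qs.length * C ≤ 8 * L := by linarith
  have hσ'1 : σ' ≤ 1 := hσ'.trans (min_le_right _ _)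
  have hpcx0 := pcx_of hl hX1 hσ'0 hσ'1 hB hC hCσ hCX2 hW0 hLNC r1 r2 r3 r4
  have hpcx : Pcx σ (B + 10) X (W0 * H₀) u₁ u₂ u₃ rest := by
    refine ⟨hpcx0.lump, fun p hp => ?_, hpcx0.sum, hpcx0.ht, hpcx0.H1⟩
    obtain ⟨q1, q2, q3, q4⟩ := hpcx0.am p hp
    exact ⟨q1, q2, q3.trans (mul_le_mul_of_nonneg_right (hσ'.trans (min_le_left _ _)) hL0.le), q4⟩
  have hrl : rest.length ≤ N := by rw [r4.length_eq]; exact hN
  have hS : ∑ k, (s' k).z = u₁.z + u₂.z + u₃.z + LN rest := by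
    rw [sum_ofFn_z, hs', LN_cons3]
  have hw : LN rest ≤ LN qs + qs.length * C := f2_LN (r4.imp fun p q h => h.zle)
  have hw0 := hpcx.LN0
  set l := i + (e + A + cs) - 2 * g with hl'
  set β := b + 2 / 3 + g with hβ
  have hl0 : 0 ≤ l := by rw [hl']; linarith
  have hβ0 : 0 ≤ β := by positivity
  have hl2 : l ≤ 2 * L := by rw [hl']; linarith
  have hβ2 : β ≤ 3 * L := by rw [hβ]; linarith
  rw [← hp] at hle
  rw [hS] at hle ⊢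
  have hz' : Lmp3 (2 * (L / 10 ^ 6)) L y₃ y₄ u Z u₁.z u₂.z u₃.z := by
    rcases hz with ⟨k1, k2, k3⟩ | ⟨k1, k2, k3⟩
    · exact Or.inl ⟨by linarith [r1.zle], by linarith [r2.zle], by linarith [r3.zle]⟩
    · exact Or.inr ⟨by linarith [r1.zle], by linarith [r2.zle], by linarith [r3.zle]⟩
  obtain ⟨a₁, a₂, a₃, x', ρ, n', U, s32, s21, hmul, hx', hn', hU, halt, hfin⟩ :=
    realAX HL (y₃ := y₃) (y₄ := y₄) (u := u) (x := x) (d := d) (Z := Z) (hh := hh) (bq := bq)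
    (s₀ := s₀) (L := L) (p := p) (d₀ := d₀) (ν := ν) (A := A) (e := e) (v := v) (T := T)
    (cs := cs) (C := C) (i1 := i1) (i2 := i2) (Tn := Tn) (i := i) (b := b) (g := g) (νn := νn)
    (z₁ := u₁.z) (z₂ := u₂.z) (z₃ := u₃.z) (w := LN rest) (hM := M * Real.log H₀) hL0 hBlk ν0 A0
    e0 A1 hcs hC hsm hi1 hi2 hTn hi hb hg hν0 hν hii1 hii2 hgi r1.z0 r2.z0 r3.z0 hw0 hz'
    (by linarith) (by linarith) hMH
  have k1 := H X hX l β (W0 * H₀) u₁ u₂ u₃ rest hrl hpcx hl0 hβ0 hl2 hβ2 a₁ a₂ a₃ x' ρ n' U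
    s32 s21 hmul hx' hn' hU halt
  rw [hs', ← hp]
  have hH0 : 0 < H₀ := by linarith [hl.H1]
  refine k1.trans ?_
  have e1 : (W0 * H₀) ^ M * X ^ (ρ + 1 / 20000) =
      W0 ^ M * Real.exp (M * Real.log H₀ + (ρ + 1 / 20000) * L) := by
    rw [mul_pow, Real.exp_add, mul_comm (M : ℝ) (Real.log H₀), Real.exp_mul,
      Real.exp_log hH0, Real.rpow_natCast, mul_comm (ρ + 1 / 20000) L, Real.exp_mul, hL,
      Real.exp_log hX0]
    ring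
  rw [e1, one_mul]
  have e2 : W0 ^ M ≤ W0 ^ (2 * μ) := by
    rw [← Real.rpow_natCast]
    exact Real.rpow_le_rpow_of_exponent_le hW0 hμ
  exact mul_le_mul e2 (Real.exp_le_exp.2 hfin) (Real.exp_pos _).le
    (Real.rpow_nonneg (by linarith) _)

end Crest.Agent.R017.RXm440
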