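import Crest.Agent.R017.ExpRules_911

/-!
# Row 17, section D: the side condition (r2**) of the RG rule, definitions (helper777)

QL v3 (#26078 with the corrections #26104, #26084):

* `Full` : the complete family `κ` of a child
* `PM`   : the pair rule at `(i, b)` of a child
* `R2ok` : (r2**) for one child
-/

set_option autoImplicit false

noncomputable section

namespace Crest.Agent.R017.SC777

open Crest.Agent.R017.ER911

/-- the complete family `κ` of the child `(Y' | m', a')` is served with `ρ` (cut children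
included) -/
def Full (θ : ℝ) (r : EF) (κ : ℝ) (Y' : Multiset ℝ) (m' a' ρ : ℝ) : Prop :=
  (∀ (Y'' : Multiset ℝ) (κ' : ℝ), Sh Y'' Y' → 0 ≤ κ' → κ' ≤ κ → (∀ y ∈ Y'', y ≤ κ') →
    r κ' Y'' m' a' + (κ - κ') / 3 ≤ ρ) ∧
  2 * a' + 2 * θ * m' + κ / 3 ≤ ρ

/-- the pair rule at `(i, b)` for the child `(Y' | m', a')` of total `n'` : clean form (helper320)
and `n₁`-form (helper521) -/
structure PM (s : EF) (i b : ℝ) (Y' : Multiset ℝ) (m' a' ρ : ℝ) : Prop where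
  p1 : i + b + (Y'.sum + m' + a') ≤ ρ
  p2 : 2 * (Y'.sum + m' + a') + b ≤ ρ
  /-- clean form -/
  cl : ∀ (Y'' : Multiset ℝ) (m'' a'' n'' f : ℝ), Sh Y'' Y' → 0 ≤ m'' → m'' ≤ m' → 0 ≤ a'' →
    a'' ≤ a' → n'' = Y''.sum + m'' + a'' → 0 ≤ f → f ≤ 2 * n'' + b - i →
    i + (Y'.sum + m' + a') - 2 * n'' + s f Y'' m'' a'' + (2 * n'' + b - i - f) / 3 ≤ ρ
  /-- `n₁`-form -/
  n1 : ∀ (Y'' : Multiset ℝ) (m'' a'' n'' n₁ : ℝ), Sh Y'' Y' → 0 ≤ m'' → m'' ≤ m' → 0 ≤ a'' →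
    a'' ≤ a' → n'' = Y''.sum + m'' + a'' → n'' ≤ n₁ → n₁ ≤ Y'.sum + m' + a' → i ≤ 2 * n₁ →
    i + (Y'.sum + m' + a') - 2 * n₁ + s (b + 3 * n₁ - n'' - i) Y'' m'' a'' ≤ ρ

/-- (r2**) for the child `(Y' | m', a')` of total `n'`, at family `K`, level `v`, length `n`,
target `E`, margin `μ` : cell `(i, b, g)`, `t` = log of the cube `/ 3` -/
def R2ok (θ : ℝ) (r s : EF) (μ K v n : ℝ) (Y' : Multiset ℝ) (m' a' E : ℝ) : Prop :=
  ∀ i b g t : ℝ, 0 ≤ i → 0 ≤ b → 0 ≤ g → 0 ≤ t → Y'.sum + m' + a' + b + g ≤ n →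
    i ≤ v + n - K + 3 * t + b + μ → i + 2 * b + 3 * t ≤ K + μ →
    (2 * (i + b) ≤ v → ∀ γ : ℝ, 0 ≤ γ → γ ≤ i → γ ≤ b →
      Full θ r (i + 2 * b - 3 * γ) Y' m' a'
        (E + t - (v + n - 2 * K) / 3 - μ - g - v + i + b - 2 * γ)) ∧
    (v ≤ 2 * (i + b) → ∀ g₂ : ℝ, 0 ≤ g₂ → g₂ ≤ g → 2 * g₂ ≤ i →
      Full θ r (i + 2 * b) Y' m' a'
        (E + t - (v + n - 2 * K) / 3 - μ - g - max v (max i (2 / 3 * (v + i))) + i) ∨
      PM s (i - 2 * g₂) (b + g₂) Y' m' a'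
        (E + t - (v + n - 2 * K) / 3 - μ - g - max v (max i (2 / 3 * (v + i))) + i) ∨
      PM s (b + g₂) (i - 2 * g₂) Y' m' a'
        (E + t - (v + n - 2 * K) / 3 - μ - g - max v (max i (2 / 3 * (v + i))) + i))

end Crest.Agent.R017.SC777
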