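import Crest.Agent.R017.RGB4_545
import Crest.Agent.R017.PM6_320
import Crest.Agent.R017.QLd_777

/-!
# Row 17, T.5: the literal lines of class N (helper545)

* `Full.down`, `ex_full` : the complete family from `Full`; `PG_ga`, `PG_r2ok` : the pair
  functional from `Full`, `PM`
* `LN` : the lines (ga), (r2), (r3), (sq), (dd) of class N; `ln_ok`
* `QLs` : the side conditions of the lines; `qg_of` : `QG (LN ..)` from `QLs`
-/

set_option autoImplicit false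

noncomputable section

open Set Filter Topology

namespace Crest.Agent.R017.RGB545

open Crest.Agent.R012 Crest.Agent.R012.Eis Crest.Agent.R012.LS2
open Crest.Agent.R017.XG702 (Pcs BG)
open Crest.Agent.R017.B770
open Crest.Agent.R017.Prov71
open Crest.Agent.R017.XP699
open Crest.Agent.R017.ER911 (Ok Sh EF)
open Crest.Agent.R017.RuleM545
open Crest.Agent.R017.XPD571
open Crest.Agent.R017.PML320 (PMf PMf_merge PMf_nonneg)
open Crest.Agent.R017.PM320 (PG PG_of_Full PG_r2 Clo PMx Fullx)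
open Crest.Agent.R017.XRG106 (RFp)
open Crest.Agent.R017.SC777 (Full PM R2ok)

variable {Lam : Type*} {π : Lam → DPar} {h : ℝ → ℝ} {c₁ : ℝ}

/-! ### the pair functional -/

/-- the pair functional of the provider -/
abbrev PFp (π : Lam → DPar) (h : ℝ → ℝ) : Lam → ℝ → ℝ → List Pq → ℝ :=
  fun lam l β ps => PMf (π lam) h l β ps

/-- from `PG` to `BG2` -/
theorem bg2_of_PG {κ b : ℝ} {u : List ℝ} {w : Kd → ℝ} {e : ℝ} (H : PG π h κ b u w e) :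
    BG2 Dq (PFp π h) κ b u w e := by
  intro ε hε
  obtain ⟨δ, hδ, K⟩ := H ε hε
  refine ⟨δ, hδ, fun lam N B => ?_⟩
  obtain ⟨δ', hδ', X₀, hX₀, K1⟩ := K lam N B
  refine ⟨δ', hδ', X₀, hX₀, fun X hX k β us gs h1 h2 h3 h4 h5 => ?_⟩
  exact K1 X hX k β us gs (by linarith [(abs_le.1 h1).2]) (by linarith [(abs_le.1 h2).2]) h3 h4 h5

theorem funOK_RF (hP : ∀ lam, (π lam).OK) (hpu : FE47.PU h c₁) : FunOK (RF0 π h) :=
  funOK_RX hP hpu _

theorem RF_mono_l (lam : Lam) (l l' : ℝ) (ps : List Pq) (hl : l ≤ l') :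
    RF0 π h lam l ps ≤ RF0 π h lam l' ps := XPD571.RQ_mono_l _ _ hl _

theorem triv2_PF (hP : ∀ lam, (π lam).OK) (hpu : FE47.PU h c₁) : Triv2 (PFp π h) := by
  intro lam N
  obtain ⟨C₁, hC₁, H⟩ := PMf_merge (h := h) (ε := 1) one_pos
  obtain ⟨C, T, hC, hT, H2⟩ := (funOK_RF (π := π) hP hpu).trivL lam N
  refine ⟨C₁ * C, 2 * (T + 1), by positivity, by positivity, fun l β ps hl hβ hN hz => ?_⟩
  have hLL : 0 ≤ LL Dq ps := LL_nonneg hz
  have h1 := H (π lam) l β hl hβ ps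
  have h2 : RFp (π lam) h (l + 2 * β) ps ≤ C * Real.exp (T * (l + 2 * β + LL Dq ps)) :=
    H2 (l + 2 * β) ps (by linarith) hN hz
  calc PMf (π lam) h l β ps ≤ C₁ * Real.exp (1 * (l + 2 * β)) * RFp (π lam) h (l + 2 * β) ps := h1
    _ ≤ C₁ * Real.exp (1 * (l + 2 * β)) * (C * Real.exp (T * (l + 2 * β + LL Dq ps))) := by
        gcongr
    _ = C₁ * C * Real.exp (1 * (l + 2 * β) + T * (l + 2 * β + LL Dq ps)) := by
        rw [Real.exp_add]; ring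
    _ ≤ C₁ * C * Real.exp (2 * (T + 1) * (l + β + LL Dq ps)) := by
        refine mul_le_mul_of_nonneg_left (Real.exp_le_exp.2 ?_) (by positivity)
        nlinarith [mul_nonneg hT hl, mul_nonneg hT hβ, mul_nonneg hT hLL]

/-- smaller families -/
theorem Full.down {θ : ℝ} {r : EF} {κ l : ℝ} {Y : Multiset ℝ} {m a ρ : ℝ}
    (H : Full θ r κ Y m a ρ) (hl : l ≤ κ) : Full θ r l Y m a (ρ - (κ - l) / 3) := by
  refine ⟨fun Y'' κ' h1 h2 h3 h4 => ?_, ?_⟩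
  · have := H.1 Y'' κ' h1 h2 (h3.trans hl) h4
    linarith
  · have := H.2
    linarith

/-- the data of class N -/
structure DataN (θ : ℝ) (π : Lam → DPar) (h : ℝ → ℝ) (c₁ : ℝ) : Prop where
  hθ : 0 ≤ θ
  hpu : FE47.PU h c₁
  hP : ∀ lam, (π lam).OK
  clo : Clo π
  raw : Raw θ Dq (R0 π h) (RF0 π h) (RN0 π h) (RP0 π h) (SP0 π h)

/-- **the complete family** -/
theorem DataN.ex_full {θ : ℝ} (H : DataN θ π h c₁) {κ : ℝ} {Y : Multiset ℝ} {m a ρ : ℝ}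
    (hκ : 0 ≤ κ) (hY : Ok Y m a) (hF : Full θ (ex Dq (RN0 π h)) κ Y m a ρ) :
    ex Dq (RF0 π h) κ Y m a ≤ ρ := by
  have h2 := hF.2
  have h3 : 0 ≤ θ * m := mul_nonneg H.hθ hY.2.1
  have h4 := hY.2.2
  exact ex_RF_le H.raw (pinv_Rp π h) (XHB411.triv_Rp H.hP H.hpu) hκ hY h2 (by linarith)
    (fun Y' i hsh h0 h1 hi => hF.1 Y' i hsh h0 h1 hi)

/-- the pair functional from the complete family -/
theorem DataN.pg_full {θ : ℝ} (H : DataN θ π h c₁) {κ l β : ℝ} {u : List ℝ} {m a ρ : ℝ}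
    (hl : 0 ≤ l) (hβ : 0 ≤ β) (hκ : κ = l + 2 * β) (hu : Okl u m a)
    (hF : Full θ (ex Dq (RN0 π h)) κ (u : Multiset ℝ) m a ρ) : PG π h l β u (wt m a) ρ := by
  subst hκ
  exact PG_of_Full H.raw (pinv_Rp π h) (XHB411.triv_Rp H.hP H.hpu) hl hβ hu hF

/-- the pair functional from one of the three -/
theorem DataN.pg_r2 {θ : ℝ} (H : DataN θ π h c₁) {κ l β : ℝ} {u : List ℝ} {m a ρ : ℝ}
    (hl : 0 ≤ l) (hβ : 0 ≤ β) (hκ : κ = l + 2 * β) (hu : Okl u m a)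
    (hF : Full θ (ex Dq (RN0 π h)) κ (u : Multiset ℝ) m a ρ ∨
      PM (ex Dq (SP0 π h)) l β (u : Multiset ℝ) m a ρ ∨
      PM (ex Dq (SP0 π h)) β l (u : Multiset ℝ) m a ρ) : PG π h l β u (wt m a) ρ := by
  subst hκ
  refine PG_r2 H.hpu H.hP H.clo H.raw (pinv_Rp π h) (XHB411.triv_Rp H.hP H.hpu) hl hβ hu ?_
  rcases hF with h1 | h1 | h1
  · exact Or.inl h1
  · exact Or.inr (Or.inl ⟨h1.p1, h1.n1⟩)
  · exact Or.inr (Or.inr ⟨h1.p1, h1.n1⟩)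

/-! ### the lines -/

/-- the lines of class N -/
inductive IN
  | ga : IN
  | r2 : IN
  | r3 : IN
  | sq : IN
  | dd : IN

instance : Finite IN := by
  refine Finite.of_surjective (fun x : Fin 5 => match x with
    | 0 => IN.ga | 1 => .r2 | 2 => .r3 | 3 => .sq | 4 => .dd) ?_
  rintro (_ | _ | _ | _ | _)
  · exact ⟨0, rfl⟩
  · exact ⟨1, rfl⟩
  · exact ⟨2, rfl⟩
  · exact ⟨3, rfl⟩
  · exact ⟨4, rfl⟩

/-- the functionals -/
def FN (π : Lam → DPar) (h : ℝ → ℝ) : IN → Lam → ℝ → ℝ → List Pq → ℝ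
  | .ga => PFp π h
  | .r2 => PFp π h
  | .r3 => one (RF0 π h)
  | .sq => one (RF0 π h)
  | .dd => one (fun lam => S0p (π lam) h)

/-- the second level: `θ 0` for the pair functional -/
def bN : IN → (Fin 5 → ℝ) → ℝ
  | .ga, θ => θ 0
  | .r2, θ => θ 0
  | _, _ => 0

/-- **the conditions**; `x = (K, v, n, l, n')`, `θ = (β, g₂, g, t, γ)`.
(ga): `l = i - γ - 2 g₂`, `β = b - γ + g₂`; (r2): `l = i - 2 g₂`, `β = b + g₂` -/
def GN (c μ : ℝ) : IN → (Fin 5 → ℝ) → (Fin 5 → ℝ) → ℝ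
  | .ga, x, θ =>
    max (max (x 4 + (θ 0 + θ 4 - θ 1) + θ 2 - x 2)
        ((x 3 + θ 4 + 2 * θ 1) - (x 1 + x 2 - x 0 + 3 * θ 3 + (θ 0 + θ 4 - θ 1) + μ)))
      (max ((x 3 + θ 4 + 2 * θ 1) + 2 * (θ 0 + θ 4 - θ 1) + 3 * θ 3 - x 0 - μ)
        (max (2 * ((x 3 + θ 4 + 2 * θ 1) + (θ 0 + θ 4 - θ 1)) - x 1) (θ 1 - θ 0)))
  | .r2, x, θ =>
    max (max (x 4 + (θ 0 - θ 1) + θ 2 - x 2)
        ((x 3 + 2 * θ 1) - (x 1 + x 2 - x 0 + 3 * θ 3 + (θ 0 - θ 1) + μ)))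
      (max ((x 3 + 2 * θ 1) + 2 * (θ 0 - θ 1) + 3 * θ 3 - x 0 - μ)
        (max (x 1 - 2 * ((x 3 + 2 * θ 1) + (θ 0 - θ 1))) (max (θ 1 - θ 0) (θ 1 - θ 2))))
  | .r3, x, _ => x 3 - (x 1 + x 2 - x 0 + μ)
  | .sq, x, _ => max (x 3 - x 0) (c - (x 2 - x 4))
  | .dd, x, _ => max (2 * μ - (x 2 - x 4)) (max (c - (x 2 - x 4)) (x 3 - x 1 - 2 * (x 2 - x 4)))

/-- **the exponents** -/
def EN (μ : ℝ) : IN → (Fin 5 → ℝ) → (Fin 5 → ℝ) → ℝ
  | .ga, x, θ => θ 3 - (x 1 + x 2 - 2 * x 0) / 3 - μ - θ 2 - x 1 +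
      (x 3 + θ 4 + 2 * θ 1) + (θ 0 + θ 4 - θ 1) - 2 * θ 4
  | .r2, x, θ => θ 3 - (x 1 + x 2 - 2 * x 0) / 3 - μ - θ 2 -
      max (x 1) (max (x 3 + 2 * θ 1) (2 / 3 * (x 1 + (x 3 + 2 * θ 1)))) + (x 3 + 2 * θ 1)
  | .r3, x, _ => -((x 2 - x 4) +
      max 0 (max ((2 * x 1 - x 0) / 3) ((3 * x 1 - x 2 - x 0) / 2)) + μ +
      ((x 1 + x 2 - x 0 + μ) - x 3) / 3)
  | .sq, x, _ => -((x 0 - x 3) / 3 + (x 2 - x 4) + (x 1 + x 2 - 2 * x 0) / 3)
  | .dd, x, _ => (x 2 - x 4) - μ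

/-- **the lines of class N** -/
def LN (π : Lam → DPar) (h : ℝ → ℝ) (c μ : ℝ) (j : IN) : Line Lam 5 where
  Φ := FN π h j
  b := bN j
  zl := False
  G := GN c μ j
  F := EN μ j

theorem ln_ok (hP : ∀ lam, (π lam).OK) (hpu : FE47.PU h c₁) (c μ : ℝ) (j : IN) :
    (LN π h c μ j).OK where
  tr := by
    cases j with
    | ga => exact triv2_PF hP hpu
    | r2 => exact triv2_PF hP hpu
    | r3 => exact (funOK_RF hP hpu).triv2
    | sq => exact (funOK_RF hP hpu).triv2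
    | dd => exact (funOK_S0p hP hpu).triv2
  cb := by
    cases j <;> show Continuous fun θ : Fin 5 → ℝ => _ <;> simp only [LN, bN] <;> fun_prop
  b0 θ hθ := by
    cases j with
    | ga => exact hθ 0
    | r2 => exact hθ 0
    | r3 => exact le_rfl
    | sq => exact le_rfl
    | dd => exact le_rfl
  cG := by cases j <;> simp only [LN, GN] <;> fun_prop
  cF := by cases j <;> simp only [LN, EN] <;> fun_prop

end Crest.Agent.R017.RGB545
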