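import Crest.Agent.R017.RGE1_545
import Crest.Agent.R017.RGN1_545
import Crest.Agent.R017.RQd_385

/-!
# Row 17, T.7: the literal lines of class E (helper545)

* `PM2Q_merge` : the merged family; `PQe`, `triv2_PQe`, `bg2_PQe`
* `LE` : the lines (ga), (r2), (r3), (sq), (dd) of class E; `le_ok`
-/

set_option autoImplicit false

noncomputable section

open Set Filter Topology

namespace Crest.Agent.R017.RGB545

open Crest.Agent.R012 Crest.Agent.R012.Eis Crest.Agent.R012.LS2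
open Crest.Agent.R012.Div277
open Crest.Agent.R012.T411 (NCube)
open Crest.Agent.R017.XG702 (Pcs BG)
open Crest.Agent.R017.B770
open Crest.Agent.R017.Prov71
open Crest.Agent.R017.XP699
open Crest.Agent.R017.ER911 (Ok Sh EF)
open Crest.Agent.R017.RuleM545
open Crest.Agent.R017.XPD571
open Crest.Agent.R017.XEx298
open Crest.Agent.R017.XS0298
open Crest.Agent.R017.Red848
open Crest.Agent.R017.CM106 (CS)
open Crest.Agent.R017.HP842 (pc)
open Crest.Agent.R017.PX764 (Dk)
open Crest.Agent.R017.SC777 (Full)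
open Crest.Agent.R017.RQd385 (PM2Q PMpQ PM2Q_nonneg PM2Q_neg PM2Q_le_PM2)

variable {Lam : Type*} {π : Lam → DPar} {h : ℝ → ℝ} {c₁ θ : ℝ}

set_option maxHeartbeats 400000 in
/-- **the merged family**, with a predicate -/
theorem PM2Q_merge (Q : Eis → Prop) {h : ℝ → ℝ} {ε : ℝ} (hε : 0 < ε) : ∃ C : ℝ, 1 ≤ C ∧
    ∀ P : DPar, ∀ l β : ℝ, 0 ≤ l → 0 ≤ β → ∀ ps : List Pq,
    PM2Q Q P h l β ps ≤ C * Real.exp (ε * (l + 2 * β)) * RQ Q h (l + 2 * β) (ps.map (Pq.pc P)) := by
  classical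
  obtain ⟨C, hC1, hC⟩ := tau_le_rpow hε
  refine ⟨C, hC1, fun P l β hl hβ ps => ?_⟩
  set F : Eis → ℝ := fun r => (ps.map fun p => ‖CS (pc h (p.pc P)) r‖ ^ 2).prod with hF
  have hF0 : ∀ r, 0 ≤ F r := fun r => RQd385.prod_nonneg' _ _ _ _
  set G : Eis → ℝ := fun r => if Q r then F r else 0 with hG
  have hG0 : ∀ r, 0 ≤ G r := fun r => by
    rw [hG]; beta_reduce; split_ifs
    · exact hF0 r
    · exact le_rfl
  set A := (primBall ⌊Real.exp β⌋₊) ×ˢ (bl (Real.exp l)) with hA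
  have e1 : PM2Q Q P h l β ps = ∑ q ∈ A, G (q.2 * q.1 ^ 2) := by
    unfold PM2Q PMpQ
    rw [hA, Finset.sum_product]
    refine Finset.sum_congr rfl fun b _ => ?_
    rw [Finset.sum_filter]
  have hmaps : ∀ q ∈ A, q.2 * q.1 ^ 2 ∈ bl (Real.exp (l + 2 * β)) := by
    intro q hq
    rw [hA, Finset.mem_product, mem_primBall, mem_bl (Real.exp_pos _).le] at hq
    obtain ⟨⟨h1, h2⟩, h3, h4⟩ := hq
    rw [mem_bl (Real.exp_pos _).le]
    refine ⟨mul_ne_zero h3 (pow_ne_zero _ h2.ne_zero), ?_⟩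
    rw [nm_mul, nm_pow]
    push_cast
    have h5 : (nm q.1 : ℝ) ≤ Real.exp β := (Nat.le_floor_iff (Real.exp_pos _).le).1 h1
    have h6 : (0 : ℝ) ≤ nm q.1 := Nat.cast_nonneg _
    calc (nm q.2 : ℝ) * (nm q.1 : ℝ) ^ 2 ≤ Real.exp l * Real.exp β ^ 2 := by gcongr
      _ = Real.exp (l + 2 * β) := by
          rw [Real.exp_add, two_mul, Real.exp_add, pow_two]
  have e2 : RQ Q h (l + 2 * β) (ps.map (Pq.pc P)) = ∑ r ∈ bl (Real.exp (l + 2 * β)), G r := by
    unfold RQ
    rw [Finset.sum_filter]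
    refine Finset.sum_congr rfl fun r _ => ?_
    rw [hG]
    beta_reduce
    rw [hF]
    beta_reduce
    rw [List.map_map]
    rfl
  rw [e1, e2, ← Finset.sum_fiberwise_of_maps_to hmaps, Finset.mul_sum]
  refine Finset.sum_le_sum fun r hr => ?_
  rw [mem_bl (Real.exp_pos _).le] at hr
  have h7 : ∑ q ∈ A.filter (fun q => q.2 * q.1 ^ 2 = r), G (q.2 * q.1 ^ 2) =
      ((A.filter (fun q => q.2 * q.1 ^ 2 = r)).card : ℝ) * G r := by
    rw [Finset.sum_congr rfl (g := fun _ => G r)]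
    · rw [Finset.sum_const, nsmul_eq_mul]
    · intro q hq
      rw [(Finset.mem_filter.1 hq).2]
  rw [h7]
  refine mul_le_mul_of_nonneg_right ?_ (hG0 r)
  have h8 : (A.filter (fun q => q.2 * q.1 ^ 2 = r)).card ≤ tau r := by
    unfold tau
    refine Finset.card_le_card_of_injOn (fun q => q.1) ?_ ?_
    · intro q hq
      rw [Finset.mem_coe, Finset.mem_filter, hA, Finset.mem_product, mem_primBall] at hq
      rw [Finset.mem_coe, mem_dvs hr.1]
      refine ⟨hq.1.1.2, ?_⟩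
      rw [← hq.2]
      exact (dvd_pow_self _ two_ne_zero).mul_left _
    · intro q hq q' hq' he
      rw [Finset.mem_coe, Finset.mem_filter, hA, Finset.mem_product, mem_primBall] at hq hq'
      have he' : q.1 = q'.1 := he
      have h9 : q.2 * q.1 ^ 2 = q'.2 * q.1 ^ 2 := by rw [hq.2, he', hq'.2]
      have h10 := mul_right_cancel₀ (pow_ne_zero 2 hq.1.1.2.ne_zero) h9
      exact Prod.ext he' h10
  have h11 := hC r hr.1
  calc ((A.filter (fun q => q.2 * q.1 ^ 2 = r)).card : ℝ) ≤ tau r := by exact_mod_cast h8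
    _ ≤ C * (nm r : ℝ) ^ ε := h11
    _ ≤ C * Real.exp (ε * (l + 2 * β)) := by
        refine mul_le_mul_of_nonneg_left ?_ (by linarith)
        have h12 : (nm r : ℝ) ^ ε ≤ (Real.exp (l + 2 * β)) ^ ε :=
          Real.rpow_le_rpow (Nat.cast_nonneg _) hr.2 hε.le
        refine h12.trans (le_of_eq ?_)
        rw [← Real.exp_mul, mul_comm]

/-- the two-level functional of class E (reduced data `π`) -/
abbrev PQe (π : Lam → DPar) (h : ℝ → ℝ) : Lam → ℝ → ℝ → List Pq → ℝ :=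
  fun lam l β ps => PM2Q NCube (π lam) h l β ps

lemma PM2Q_negβ {Q : Eis → Prop} {P : DPar} {h : ℝ → ℝ} {l β : ℝ} (hβ : β < 0) (ps : List Pq) :
    PM2Q Q P h l β ps = 0 := by
  classical
  unfold PM2Q PMpQ
  refine Finset.sum_eq_zero fun b hb => ?_
  exfalso
  rw [mem_primBall] at hb
  have h1 : (1 : ℝ) ≤ nm b := by exact_mod_cast nm_pos.2 hb.2.ne_zero
  have h2 : (nm b : ℝ) ≤ Real.exp β := (Nat.le_floor_iff (Real.exp_pos _).le).1 hb.1
  have h3 : Real.exp β < 1 := by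
    rw [← Real.exp_zero]; exact Real.exp_lt_exp.2 hβ
  linarith

/-- **from the merged family** -/
theorem bg2_PQe {κ b : ℝ} {u : List ℝ} {w : Kd → ℝ} {e : ℝ} (hκ : 0 ≤ κ) (hb : 0 ≤ b)
    (H : BG Dq (RX (fun _ => NCube) π h) (κ + 2 * b) u w e) : BG2 Dq (PQe π h) κ b u w e := by
  refine bg2_merge (fun ε hε => ?_) (fun lam l β ps hl => ?_) hκ hb H
  · obtain ⟨C, hC, K⟩ := PM2Q_merge NCube (h := h) hε
    exact ⟨C, hC, fun lam l β hl hβ ps => K (π lam) l β hl hβ ps⟩
  · rcases hl with hl | hl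
    · exact (PM2Q_neg hl ps).le
    · exact (PM2Q_negβ hl ps).le

theorem triv2_PQe (hP : ∀ lam, (π lam).OK) (hpu : FE47.PU h c₁) : Triv2 (PQe π h) := by
  intro lam N
  obtain ⟨C₁, hC₁, H⟩ := PM2Q_merge NCube (h := h) (ε := 1) one_pos
  obtain ⟨C, T, hC, hT, H2⟩ := (funOK_RX hP hpu (fun _ => NCube)).trivL lam N
  refine ⟨C₁ * C, 2 * (T + 1), by positivity, by positivity, fun l β ps hl hβ hN hz => ?_⟩
  have hLL : 0 ≤ LL Dq ps := LL_nonneg hz
  have h1 := H (π lam) l β hl hβ ps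
  have h2 : RQ NCube h (l + 2 * β) (ps.map (Pq.pc (π lam))) ≤
      C * Real.exp (T * (l + 2 * β + LL Dq ps)) := H2 (l + 2 * β) ps (by linarith) hN hz
  calc PM2Q NCube (π lam) h l β ps
      ≤ C₁ * Real.exp (1 * (l + 2 * β)) * RQ NCube h (l + 2 * β) (ps.map (Pq.pc (π lam))) := h1
    _ ≤ C₁ * Real.exp (1 * (l + 2 * β)) * (C * Real.exp (T * (l + 2 * β + LL Dq ps))) := by
        gcongr
    _ = C₁ * C * Real.exp (1 * (l + 2 * β) + T * (l + 2 * β + LL Dq ps)) := by
        rw [Real.exp_add]; ring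
    _ ≤ C₁ * C * Real.exp (2 * (T + 1) * (l + β + LL Dq ps)) := by
        refine mul_le_mul_of_nonneg_left (Real.exp_le_exp.2 ?_) (by positivity)
        nlinarith [mul_nonneg hT hl, mul_nonneg hT hβ, mul_nonneg hT hLL]

/-! ### the lines -/

/-- the functionals of class E (reduced data `π`) -/
def FE (π : Lam → DPar) (h : ℝ → ℝ) : IN → Lam → ℝ → ℝ → List Pq → ℝ
  | .ga => PQe π h
  | .r2 => PQe π h
  | .r3 => one (RX (fun _ => NCube) π h)
  | .sq => one (RX (fun _ => NCube) π h)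
  | .dd => one (fun lam => S0x (π lam) h)

/-- **the lines of class E** (reduced data `π`), conditions and exponents of class N -/
def LE (π : Lam → DPar) (h : ℝ → ℝ) (c μ : ℝ) (j : IN) : Line Lam 5 where
  Φ := FE π h j
  b := bN j
  zl := False
  G := GN c μ j
  F := EN μ j

/-- the functionals of the Gauss side, reduced data -/
theorem funOK_S0x (hP : ∀ lam, (π lam).OK) (hpu : FE47.PU h c₁) :
    FunOK (fun lam => S0x (π lam) h) where
  perm := pinv_S0K Dk _ h
  triv := fun κ u m a hκ hu => by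
    obtain ⟨e, he⟩ := Dk848.triv_SD hP hpu κ u m a hκ hu
    exact ⟨e, he.comp fun lam l ps => S0K_le Dk (π lam) h l ps⟩
  trivL := fun lam N => by
    obtain ⟨C, T, hC, hT, H⟩ := Dk848.trivL_SD (hP lam) hpu N
    exact ⟨C, T, hC, hT, fun l ps hl hN hz => (S0K_le Dk _ h l ps).trans (H l ps hl hN hz)⟩

theorem le_ok (hP : ∀ lam, (π lam).OK) (hpu : FE47.PU h c₁) (c μ : ℝ) (j : IN) :
    (LE π h c μ j).OK where
  tr := by
    cases j with
    | ga => exact triv2_PQe hP hpu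
    | r2 => exact triv2_PQe hP hpu
    | r3 => exact (funOK_RX hP hpu _).triv2
    | sq => exact (funOK_RX hP hpu _).triv2
    | dd => exact (funOK_S0x hP hpu).triv2
  cb := by
    cases j <;> show Continuous fun θ : Fin 5 → ℝ => _ <;> simp only [LE, bN] <;> fun_prop
  b0 θ hθ := by
    cases j with
    | ga => exact hθ 0
    | r2 => exact hθ 0
    | r3 => exact le_rfl
    | sq => exact le_rfl
    | dd => exact le_rfl
  cG := by cases j <;> simp only [LE, GN] <;> fun_prop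
  cF := by cases j <;> simp only [LE, EN] <;> fun_prop

end Crest.Agent.R017.RGB545
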