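import Crest.Agent.R017.XFg_320
import Crest.Agent.R017.PM6_320
import Crest.Agent.R017.RGE2_545

/-!
# Row 17, exceptional class, pairs (helper320), part h: the comparison rule

* `PXQ c π h` : the pair functional over the noncubes, `β = c k`
* `rulePX`    : the analytic rule in the form of `ruleX`
* `rawPX`     : the raw comparison rule
* `BG2_of_PXQ`, `PXQ_of_BG2` : one and two parameters
* `sk_child`  : the premises from the literal form `PMx`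
* `bg2_repl`  : **the comparison rule**, `BG2` of `PQe`
-/

set_option autoImplicit false

noncomputable section

open Set Filter Topology

namespace Crest.Agent.R017.XF320

open Crest.Agent.R012 Crest.Agent.R012.Eis Crest.Agent.R012.Gauss880
open Crest.Agent.R012.T411 (NCube)
open Crest.Agent.R017.FE47 (PU)
open Crest.Agent.R017.End699
open Crest.Agent.R017.XG702 (Pcs BG)
open Crest.Agent.R017.Prov71
open Crest.Agent.R017.B770
open Crest.Agent.R017.XP699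
open Crest.Agent.R017.RuleM545 (xv BG2 Loc2)
open Crest.Agent.R017.PMR320
open Crest.Agent.R017.PML320
open Crest.Agent.R017.PM320
open Crest.Agent.R017.XC858 (SKq)
open Crest.Agent.R017.PX764 (Dk)
open Crest.Agent.R017.RQd385 (PM2Q PMpQ PM2Q_mono PM2Q_nonneg)
open Crest.Agent.R017.RGB545 (PQe)
open Crest.Agent.R017.ER911 (Ok Sh EF)

variable {Λ : Type*}

/-- **the pair functional over the noncubes**, `β = c k` -/
def PXQ (c : ℝ) (π : Λ → DPar) (h : ℝ → ℝ) : Λ → ℝ → List Pq → ℝ :=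
  fun lam k ps => PM2Q NCube (π lam) h k (c * k) ps

/-- the Möbius character is principal -/
def Prin (π : Λ → DPar) : Prop :=
  ∀ lam, ∃ ρ0 : Eis, ρ0 ≠ 0 ∧ ∀ b, IsPrim b → chK (π lam) .mo b = prin0 ρ0 b

/-- the diagonal and the bias -/
def Apx (c δ : ℝ) (w : Fin 2 → ℝ) : ℝ :=
  max ((1 + c) * w 0 + w 1) ((w 0 + 2 * (c * w 0)) / 3 + 2 * w 1 - δ)

lemma cont_Apx (c δ : ℝ) : Continuous (Apx c δ) := by unfold Apx; fun_prop

set_option maxHeartbeats 1600000 in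
/-- **the analytic rule** -/
theorem rulePX {h : ℝ → ℝ} {c₁ : ℝ} (hpu : PU h c₁) {π : Λ → DPar} (hP : ∀ lam, (π lam).OK)
    (hpr : Prin π) {c : ℝ} (hc : 0 ≤ c) (κ₀ n₀ δx : ℝ) (lam : Λ) (N : ℕ) (c₀ B : ℝ)
    (hc₀ : 1 ≤ c₀) :
    ∃ B₀ : ℝ, 0 ≤ B₀ ∧ ∀ (ε M : ℝ), 0 < ε →
      ε ≤ 1 → 0 ≤ M → ∃ C r J X₁ : ℝ, 0 ≤ C ∧ 0 ≤ r ∧ 0 ≤ J ∧
      ∀ X : ℝ, 3 ≤ X → X₁ ≤ X → ∀ (k : ℝ) (p1 p2 : Pq) (ps : List Pq), 0 ≤ k →
      k ≤ c₀ * Real.log X → (p1 :: p2 :: ps).length ≤ N → Dq.lump p1 → Dq.lump p2 →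
      (∀ p ∈ p1 :: p2 :: ps, 0 ≤ Dq.len p ∧ Dq.len p ≤ c₀ * Real.log X) →
      (∀ p ∈ p1 :: p2 :: ps, Dq.s2 p ≤ X ^ B) →
      ∀ d0 : ℝ, 0 ≤ d0 → d0 ≤ p1.z → d0 ≤ p2.z → δx * Real.log X ≤ d0 + ε / 4 * Real.log X →
      Hp κ₀ n₀ ![k / Real.log X, LL Dq (p1 :: p2 :: ps) / Real.log X] ≤ ε →
      ∀ Bd : ℝ, 0 ≤ Bd →
      (∀ (l : ℝ) (ps' : List Pq), 0 ≤ l → l ≤ clp c κ₀ n₀ * Real.log X →
        List.Forall₂ (Chd Dq hcost r (C * X ^ B₀)) ps' (p1 :: p2 :: ps) →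
        Gp c () (xv Dq X k (p1 :: p2 :: ps) l ps') () ≤ ε →
        SKq Dk (π lam) h l ps' ≤ Bd * cst hcost ps' (p1 :: p2 :: ps) ^ M *
          X ^ Fp c () (xv Dq X k (p1 :: p2 :: ps) l ps') ()) →
      (∀ (l : ℝ) (ps' : List Pq), 0 ≤ l → l ≤ clp c κ₀ n₀ * Real.log X →
        List.Forall₂ (Chd Dq hcost r (C * X ^ B₀)) ps' (rpl d0 (p1 :: p2 :: ps)) →
        Gp c () (xv Dq X k (p1 :: p2 :: ps) l ps') () ≤ ε →
        SKq Dk (π lam) h l ps' ≤ Bd * cst hcost ps' (rpl d0 (p1 :: p2 :: ps)) ^ M *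
          X ^ Fp c () (xv Dq X k (p1 :: p2 :: ps) l ps') ()) →
      PXQ c π h lam k (rpl d0 (p1 :: p2 :: ps)) ≤ Bd →
      PXQ c π h lam k (p1 :: p2 :: ps) ≤ C * X ^ ε * ((p1 :: p2 :: ps).map Dq.s1).prod ^ J *
        (X ^ Apx c δx ![k / Real.log X, LL Dq (p1 :: p2 :: ps) / Real.log X] + Bd) := by
  obtain ⟨ρ0, hρ0, hρ⟩ := hpr lam
  obtain ⟨c₂, hc₂⟩ : ∃ c₂ : ℝ, c₂ = 2 * (c₀ * (1 + c)) := ⟨_, rfl⟩
  have hcc : 0 ≤ c₀ * c := by positivity
  have hc₂0 : 2 * c₀ ≤ c₂ := by rw [hc₂]; nlinarith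
  have hc₂1 : 1 ≤ c₂ := by linarith
  have hc₂c : c * c₀ ≤ c₂ := by rw [hc₂]; nlinarith
  refine ⟨c₂ * (3 * N + 3), by positivity, fun ε M hε hε1 hM => ?_⟩
  obtain ⟨C, r, hC, hr, hL⟩ := PMx_list hpu hM N (ε := ε / (18 * c₂)) (by positivity)
    (B1 := max B 1) (by positivity)
  refine ⟨2 * C + 2, r, 6, max (Real.exp (2 * r / ε)) (nm ρ0), by linarith, hr, by norm_num, ?_⟩
  intro X hX hX₁' k p1 p2 ps hk0 hk hlen hl1 hl2 hz hs2 d0 hd00 hd01 hd02 hdx hH Bd hBd hch hch'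
    hΨ
  have hX₁ : Real.exp (2 * r / ε) ≤ X := (le_max_left _ _).trans hX₁'
  have hX₂ : (nm ρ0 : ℝ) ≤ X := (le_max_right _ _).trans hX₁'
  have hXp : 0 < X := by linarith
  have hX1 : (1 : ℝ) ≤ X := by linarith
  have hlog : 0 < Real.log X := Real.log_pos (by linarith)
  have hlog' : Real.log (X ^ c₂) = c₂ * Real.log X := Real.log_rpow hXp _
  have hX'X : X ≤ X ^ c₂ := by
    calc X = X ^ (1 : ℝ) := (Real.rpow_one X).symm
      _ ≤ X ^ c₂ := Real.rpow_le_rpow_of_exponent_le hX1 hc₂1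
  have hX' : 3 ≤ X ^ c₂ := hX.trans hX'X
  have hX'1 : 1 ≤ X ^ c₂ := by linarith
  have hrl : r ≤ ε / 2 * Real.log X := by
    have h1 : 2 * r / ε ≤ Real.log X := (Real.le_log_iff_exp_le hXp).2 hX₁
    rw [div_le_iff₀ hε] at h1
    linarith
  have hc₀c₂ : c₀ ≤ c₂ := by linarith
  have hk' : k ≤ Real.log (X ^ c₂) := by
    rw [hlog']
    exact hk.trans (mul_le_mul_of_nonneg_right hc₀c₂ hlog.le)
  have hβ' : c * k ≤ Real.log (X ^ c₂) := by
    rw [hlog']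
    calc c * k ≤ c * (c₀ * Real.log X) := mul_le_mul_of_nonneg_left hk hc
      _ = c * c₀ * Real.log X := by ring
      _ ≤ c₂ * Real.log X := mul_le_mul_of_nonneg_right hc₂c hlog.le
  have hLL0 : ∀ qs : List Pq, (∀ p ∈ qs, 0 ≤ Dq.len p) → 0 ≤ LL Dq qs :=
    fun qs h => LL_nonneg h
  obtain ⟨qs, hqs⟩ : ∃ l : List Pq, l = p1 :: p2 :: ps := ⟨_, rfl⟩
  have hH1 : k / Real.log X - κ₀ ≤ ε := by
    have := (le_max_left _ _).trans (show max (k / Real.log X - κ₀)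
      (LL Dq (p1 :: p2 :: ps) / Real.log X - n₀) ≤ ε from hH)
    exact this
  have hH2 : LL Dq (p1 :: p2 :: ps) / Real.log X - n₀ ≤ ε := by
    have := (le_max_right _ _).trans (show max (k / Real.log X - κ₀)
      (LL Dq (p1 :: p2 :: ps) / Real.log X - n₀) ≤ ε from hH)
    exact this
  have hkX : k ≤ (κ₀ + 1) * Real.log X := by
    have h1 : k / Real.log X ≤ κ₀ + 1 := by linarith
    rwa [div_le_iff₀ hlog] at h1
  have hnX : LL Dq (p1 :: p2 :: ps) ≤ (n₀ + 1) * Real.log X := by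
    have h1 : LL Dq (p1 :: p2 :: ps) / Real.log X ≤ n₀ + 1 := by linarith
    rwa [div_le_iff₀ hlog] at h1
  have hexp : ∀ y : ℝ, X ^ (y / Real.log X) = Real.exp y := by
    intro y
    rw [Real.rpow_def_of_pos hXp, mul_div_cancel₀ _ hlog.ne']
  -- the children
  have hCC : C ≤ 2 * C + 2 := by linarith
  have hconv : ∀ rs : List Pq, (∀ (l : ℝ) (ps' : List Pq), 0 ≤ l →
        l ≤ clp c κ₀ n₀ * Real.log X →
        List.Forall₂ (Chd Dq hcost r ((2 * C + 2) * X ^ (c₂ * (3 * N + 3)))) ps' rs →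
        Gp c () (xv Dq X k (p1 :: p2 :: ps) l ps') () ≤ ε →
        SKq Dk (π lam) h l ps' ≤ Bd * cst hcost ps' rs ^ M *
          X ^ Fp c () (xv Dq X k (p1 :: p2 :: ps) l ps') ()) →
      ∀ (l : ℝ) (ps' : List Pq), 0 ≤ l + c * k →
        List.Forall₂ (Chd Dq hcost r (C * (X ^ c₂) ^ (3 * N + 3 : ℝ))) ps' rs →
        (∀ c ∈ ({cG1, cG2} : Finset (Fin 4 → ℝ)),
          lf c k (LL Dq (p1 :: p2 :: ps)) l (LL Dq ps') ≤
            r + ε / (18 * c₂) * Real.log (X ^ c₂)) →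
        SK Dk h (l + c * k) (ps'.map (Pq.pc (π lam))) ≤ Bd * cst hcost ps' rs ^ M *
          Real.exp (lf cFP k (LL Dq (p1 :: p2 :: ps)) l (LL Dq ps')) := by
    intro rs hrs l ps' hl hps' hG
    have hB : (X ^ c₂) ^ (3 * N + 3 : ℝ) = X ^ (c₂ * (3 * N + 3)) :=
      (Real.rpow_mul hXp.le _ _).symm
    rw [hB] at hps'
    have hps'' : List.Forall₂ (Chd Dq hcost r ((2 * C + 2) * X ^ (c₂ * (3 * N + 3)))) ps' rs := by
      refine hps'.imp fun a b h3 => ?_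
      refine ⟨h3.kind, h3.lump, h3.len0, h3.len, h3.s1, h3.s2.trans ?_⟩
      have h5 : 0 ≤ X ^ (c₂ * (3 * N + 3)) := Real.rpow_nonneg hXp.le _
      exact mul_le_mul_of_nonneg_left (mul_le_mul_of_nonneg_right hCC h5) (Nat.cast_nonneg _)
    have hεl : ε / (18 * c₂) * Real.log (X ^ c₂) = ε / 18 * Real.log X := by
      rw [hlog']; field_simp
    rw [hεl] at hG
    have hε18 : ε / 18 * Real.log X ≤ ε / 2 * Real.log X :=
      mul_le_mul_of_nonneg_right (by linarith) hlog.le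
    have g1 := hG cG1 (by simp)
    have g2 := hG cG2 (by simp)
    rw [lf_cG1] at g1
    rw [lf_cG2] at g2
    have hps0 : 0 ≤ LL Dq ps' := by
      refine hLL0 ps' fun p hp => ?_
      obtain ⟨_, _, h3, _⟩ := good_child one_le_hcost hps' (le_refl _) p hp
      exact h3.len0
    have hl' : l + c * k ≤ clp c κ₀ n₀ * Real.log X := by
      unfold clp
      have h5 : c * k ≤ c * ((κ₀ + 1) * Real.log X) := mul_le_mul_of_nonneg_left hkX hc
      have h6 : ε / 2 * Real.log X ≤ 1 / 2 * Real.log X :=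
        mul_le_mul_of_nonneg_right (by linarith) hlog.le
      nlinarith
    have hGp : Gp c () (xv Dq X k (p1 :: p2 :: ps) (l + c * k) ps') () ≤ ε := by
      unfold Gp xv
      simp only [Matrix.cons_val_zero, Matrix.cons_val_one, Matrix.cons_val]
      refine max_le ?_ ?_
      · have e1 : -(k / Real.log X) - ((l + c * k) / Real.log X - c * (k / Real.log X)) +
            2 * (LL Dq ps' / Real.log X) = (-k - l + 2 * LL Dq ps') / Real.log X := by ring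
        rw [e1, div_le_iff₀ hlog]
        linarith
      · have e1 : k / Real.log X - 3 * (LL Dq (p1 :: p2 :: ps) / Real.log X) +
            ((l + c * k) / Real.log X - c * (k / Real.log X)) + LL Dq ps' / Real.log X =
            (k - 3 * LL Dq (p1 :: p2 :: ps) + l + LL Dq ps') / Real.log X := by ring
        rw [e1, div_le_iff₀ hlog]
        linarith
    have h7 := hrs (l + c * k) ps' hl hl' hps'' hGp
    have h8 : X ^ Fp c () (xv Dq X k (p1 :: p2 :: ps) (l + c * k) ps') () =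
        Real.exp (lf cFP k (LL Dq (p1 :: p2 :: ps)) l (LL Dq ps')) := by
      rw [← hexp, lf_cFP]
      congr 1
      unfold Fp xv
      simp only [Matrix.cons_val_zero, Matrix.cons_val_one, Matrix.cons_val]
      ring
    rw [h8] at h7
    exact h7
  have hBm : X ^ B ≤ (X ^ c₂) ^ max B 1 := by
    calc X ^ B ≤ X ^ max B 1 := Real.rpow_le_rpow_of_exponent_le hX1 (le_max_left _ _)
      _ ≤ (X ^ c₂) ^ max B 1 := Real.rpow_le_rpow hXp.le hX'X (by positivity)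
  have hρX : (nm ρ0 : ℝ) ≤ (X ^ c₂) ^ max B 1 := by
    calc (nm ρ0 : ℝ) ≤ X ^ c₂ := hX₂.trans hX'X
      _ = (X ^ c₂) ^ (1 : ℝ) := (Real.rpow_one _).symm
      _ ≤ (X ^ c₂) ^ max B 1 := Real.rpow_le_rpow_of_exponent_le hX'1 (le_max_right _ _)
  have hz1 := hz p1 (by simp)
  have hz2 := hz p2 (by simp)
  have key := hL (π lam) (hP lam) ρ0 hρ0 hρ (X ^ c₂) hX' hρX k (c * k) p1 p2 ps hk0 hk'
    (by positivity) hβ' hlen hl1 hl2 ((hs2 p1 (by simp)).trans hBm) ((hs2 p2 (by simp)).trans hBm)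
    (fun p hp => ⟨(hz p hp).1, by
      rw [hlog']
      exact (hz p hp).2.trans (mul_le_mul_of_nonneg_right hc₀c₂ hlog.le)⟩) d0 hd00 hd01 hd02 (by
      rw [hlog']
      have h1 : p1.z ≤ c₀ * Real.log X := hz1.2
      have h2 : p2.z ≤ c₀ * Real.log X := hz2.2
      have h3 : 2 * c₀ * Real.log X ≤ c₂ * Real.log X := mul_le_mul_of_nonneg_right hc₂0 hlog.le
      linarith) Bd hBd (hconv _ hch) (hconv _ hch')
  -- the final numbers
  obtain ⟨A, hA⟩ : ∃ x : ℝ, x = Apx c δx ![k / Real.log X,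
    LL Dq (p1 :: p2 :: ps) / Real.log X] := ⟨_, rfl⟩
  rw [← hA]
  have hA1 : Real.exp (k + c * k + LL Dq (p1 :: p2 :: ps)) ≤ X ^ A := by
    rw [← hexp, hA]
    refine Real.rpow_le_rpow_of_exponent_le hX1 (le_trans (le_of_eq ?_) (le_max_left _ _))
    show _ = (1 + c) * (k / Real.log X) + LL Dq (p1 :: p2 :: ps) / Real.log X
    ring
  have hA2 : Real.exp (k / 3 + 2 / 3 * (c * k) + 2 * LL Dq (p1 :: p2 :: ps) - d0) ≤
      X ^ (ε / 4) * X ^ A := by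
    rw [← hexp, hA, ← Real.rpow_add hXp]
    refine Real.rpow_le_rpow_of_exponent_le hX1 ?_
    have h1 : (k / Real.log X + 2 * (c * (k / Real.log X))) / 3 +
        2 * (LL Dq (p1 :: p2 :: ps) / Real.log X) - δx ≤
        Apx c δx ![k / Real.log X, LL Dq (p1 :: p2 :: ps) / Real.log X] := le_max_right _ _
    have h2 : δx - ε / 4 ≤ d0 / Real.log X := by
      rw [le_div_iff₀ hlog]; linarith
    have h3 : (k / 3 + 2 / 3 * (c * k) + 2 * LL Dq (p1 :: p2 :: ps) - d0) / Real.log X =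
        (k / Real.log X + 2 * (c * (k / Real.log X))) / 3 +
        2 * (LL Dq (p1 :: p2 :: ps) / Real.log X) - d0 / Real.log X := by ring
    rw [h3]
    linarith
  have hX9 : (X ^ c₂) ^ (9 * (ε / (18 * c₂))) = X ^ (ε / 2) := by
    rw [← Real.rpow_mul hXp.le]
    congr 1
    field_simp
    ring
  rw [hX9] at key
  have hs1 : ∀ p : Pq, 1 ≤ Dq.s1 p := fun p => by rw [Dq_s1]; linarith [abs_nonneg p.t]
  obtain ⟨S1, hS1⟩ : ∃ x : ℝ, x = ((p1 :: p2 :: ps).map Dq.s1).prod := ⟨_, rfl⟩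
  have hT : ((1 + |p1.t|) * (1 + |p2.t|)) ^ 6 ≤ S1 ^ (6 : ℝ) := by
    have h1 : 1 ≤ (ps.map Dq.s1).prod := one_le_prod_s1 hs1 ps
    have h2 : (1 + |p1.t|) * (1 + |p2.t|) ≤ S1 := by
      rw [hS1, List.map_cons, List.map_cons, List.prod_cons, List.prod_cons, Dq_s1, Dq_s1,
        ← mul_assoc]
      exact le_mul_of_one_le_right (by positivity) h1
    rw [show (6 : ℝ) = ((6 : ℕ) : ℝ) by norm_num, Real.rpow_natCast]
    exact pow_le_pow_left₀ (by positivity) h2 6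
  have hS11 : 1 ≤ S1 := by rw [hS1]; exact one_le_prod_s1 hs1 _
  have hS16 : 1 ≤ S1 ^ (6 : ℝ) := Real.one_le_rpow hS11 (by norm_num)
  rw [← hS1]
  obtain ⟨T, hTd⟩ : ∃ x : ℝ, x = ((1 + |p1.t|) * (1 + |p2.t|)) ^ 6 := ⟨_, rfl⟩
  have hT0 : 0 ≤ T := by rw [hTd]; positivity
  rw [← hTd] at key hT
  obtain ⟨Z, hZ⟩ : ∃ x : ℝ, x = S1 ^ (6 : ℝ) := ⟨_, rfl⟩
  rw [← hZ] at hT hS16 ⊢
  have hx4 : 1 ≤ X ^ (ε / 4) := Real.one_le_rpow hX1 (by positivity)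
  have hx2 : 0 ≤ X ^ (ε / 2) := Real.rpow_nonneg hXp.le _
  have hxe : X ^ (ε / 2) * X ^ (ε / 4) ≤ X ^ ε := by
    rw [← Real.rpow_add hXp]
    exact Real.rpow_le_rpow_of_exponent_le hX1 (by linarith)
  have hx1 : 1 ≤ X ^ ε := Real.one_le_rpow hX1 hε.le
  have hxA : 0 ≤ X ^ A := Real.rpow_nonneg hXp.le _
  have hC0 : 0 ≤ C := by linarith
  have hbr : Real.exp (k + c * k + LL Dq (p1 :: p2 :: ps)) + Bd +
      Real.exp (k / 3 + 2 / 3 * (c * k) + 2 * LL Dq (p1 :: p2 :: ps) - d0) ≤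
      X ^ (ε / 4) * (2 * (X ^ A + Bd)) := by
    have h1 : X ^ A ≤ X ^ (ε / 4) * X ^ A := le_mul_of_one_le_left hxA hx4
    have h2 : Bd ≤ X ^ (ε / 4) * Bd := le_mul_of_one_le_left hBd hx4
    have h3 : 0 ≤ X ^ (ε / 4) * Bd := by positivity
    nlinarith
  show PM2Q NCube (π lam) h k (c * k) (p1 :: p2 :: ps) ≤ _
  refine key.trans ?_
  have hΨ' : PM2Q NCube (π lam) h k (c * k) (rpl d0 (p1 :: p2 :: ps)) ≤ Bd := hΨ
  calc C * X ^ (ε / 2) * T * (Real.exp (k + c * k + LL Dq (p1 :: p2 :: ps)) + Bd +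
        Real.exp (k / 3 + 2 / 3 * (c * k) + 2 * LL Dq (p1 :: p2 :: ps) - d0)) +
        2 * PM2Q NCube (π lam) h k (c * k) (rpl d0 (p1 :: p2 :: ps))
      ≤ C * X ^ (ε / 2) * Z * (X ^ (ε / 4) * (2 * (X ^ A + Bd))) + 2 * (X ^ A + Bd) := by
        refine add_le_add ?_ (by linarith)
        gcongr
    _ = (2 * C) * (X ^ (ε / 2) * X ^ (ε / 4)) * Z * (X ^ A + Bd) + 2 * (X ^ A + Bd) := by ring
    _ ≤ (2 * C) * X ^ ε * Z * (X ^ A + Bd) + 2 * X ^ ε * Z * (X ^ A + Bd) := by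
        have h5 : 0 ≤ X ^ A + Bd := by positivity
        have h6 : 2 * (X ^ A + Bd) ≤ 2 * X ^ ε * Z * (X ^ A + Bd) := by
          refine mul_le_mul_of_nonneg_right ?_ h5
          calc (2 : ℝ) = 2 * 1 * 1 := by ring
            _ ≤ 2 * X ^ ε * Z := by gcongr
        refine add_le_add ?_ h6
        gcongr
    _ = (2 * C + 2) * X ^ ε * Z * (X ^ A + Bd) := by ring

/-- **the raw comparison rule** -/
theorem rawPX {h : ℝ → ℝ} {c₁ : ℝ} (hpu : PU h c₁) {π : Λ → DPar} (hP : ∀ lam, (π lam).OK)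
    (hpr : Prin π) {c : ℝ} (hc : 0 ≤ c) {κ y1 y2 δx : ℝ} {u : List ℝ} {m a E : ℝ} (hκ : 0 ≤ κ)
    (hu : Okl (y1 :: y2 :: u) m a) (h0 : 0 ≤ δx) (h1 : δx ≤ y1) (h2 : δx ≤ y2)
    (hE : (1 + c) * κ + ((y1 :: y2 :: u).sum + m + a) ≤ E)
    (hE2 : (κ + 2 * (c * κ)) / 3 + 2 * ((y1 :: y2 :: u).sum + m + a) - δx ≤ E)
    (hch : ∀ (u' : List ℝ) (m' a' l : ℝ), Shl u' (y1 :: y2 :: u) ∨
      Shl u' ((y1 + y2 - δx) :: δx :: u) → 0 ≤ m' → m' ≤ m → 0 ≤ a' → a' ≤ a →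
      0 ≤ l → 2 * (u'.sum + m' + a') - κ ≤ l - c * κ →
      (l - c * κ) + (u'.sum + m' + a') ≤ 3 * ((y1 :: y2 :: u).sum + m + a) - κ →
      BG Dq (fun lam => SKq Dk (π lam) h) l u' (wt m' a')
        (E - ((y1 :: y2 :: u).sum + m + a) - κ / 3 +
          2 / 3 * ((l - c * κ) + (u'.sum + m' + a'))))
    (hx : BG Dq (PXQ c π h) κ ((y1 + y2 - δx) :: δx :: u) (wt m a) E) :
    BG Dq (PXQ c π h) κ (y1 :: y2 :: u) (wt m a) E := by
  have hchild : ∀ (u' : List ℝ) (m' a' l : ℝ), Shl u' (y1 :: y2 :: u) ∨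
      Shl u' ((y1 + y2 - δx) :: δx :: u) → 0 ≤ m' → m' ≤ m → 0 ≤ a' → a' ≤ a →
      0 ≤ l → Gp c () ![κ, (y1 :: y2 :: u).sum + m + a, l, u'.sum + m' + a'] () ≤ 0 →
      BG Dq (fun lam => SKq Dk (π lam) h) l u' (wt m' a')
        (E + Fp c () ![κ, (y1 :: y2 :: u).sum + m + a, l, u'.sum + m' + a'] ()) := by
    intro u' m' a' l hsh h0 h1 h2 h3 hl hG
    have g : max (-κ - (l - c * κ) + 2 * (u'.sum + m' + a'))
        (κ - 3 * ((y1 :: y2 :: u).sum + m + a) + (l - c * κ) + (u'.sum + m' + a')) ≤ 0 := hG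
    have g1 := (le_max_left _ _).trans g
    have g2 := (le_max_right _ _).trans g
    have h4 := hch u' m' a' l hsh h0 h1 h2 h3 hl (by linarith) (by linarith)
    have e : E + Fp c () ![κ, (y1 :: y2 :: u).sum + m + a, l, u'.sum + m' + a'] () =
        E - ((y1 :: y2 :: u).sum + m + a) - κ / 3 +
          2 / 3 * ((l - c * κ) + (u'.sum + m' + a')) := by
      show E + (-κ / 3 - ((y1 :: y2 :: u).sum + m + a) +
        2 / 3 * ((l - c * κ) + (u'.sum + m' + a'))) = _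
      ring
    rw [e]
    exact h4
  refine ruleX (Ψ := PXQ c π h) (Φ := fun lam => SKq Dk (π lam) h) (G := Gp c ()) (F := Fp c ())
    (cont_Gp c ()) (cont_Fp c ()) (H := Hp κ ((y1 :: y2 :: u).sum + m + a)) (A := Apx c δx)
    (cont_Hp _ _) (cont_Apx _ _) (cl := clp c κ ((y1 :: y2 :: u).sum + m + a)) (δx := δx) ?_
    (fun lam N c₀ B hc₀ => rulePX hpu hP hpr hc _ _ δx lam N c₀ B hc₀)
    (fun lam N => Dk848.trivL_SD (hP lam) hpu N) hκ hu h0 h1 h2 ?_ ?_ ?_ ?_ hx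
  · intro lam l l' ps hl
    exact PM2Q_mono (fun _ h => h) hl (mul_le_mul_of_nonneg_left hl hc) _
  · show max (κ - κ) ((y1 :: y2 :: u).sum + m + a - ((y1 :: y2 :: u).sum + m + a)) ≤ 0
    simp
  · exact max_le hE hE2
  · intro u' m' a' l hsh h0 h1 h2 h3 hl _ hG
    exact hchild u' m' a' l (Or.inl hsh) h0 h1 h2 h3 hl hG
  · intro u' m' a' l hsh h0 h1 h2 h3 hl _ hG
    exact hchild u' m' a' l (Or.inr hsh) h0 h1 h2 h3 hl hG

/-! ### two parameters -/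

theorem BG2_of_PXQ {h : ℝ → ℝ} {π : Λ → DPar} {κ b : ℝ} (hκ : 0 ≤ κ) (hb : 0 ≤ b) {u : List ℝ}
    {w : Kd → ℝ} {e : ℝ}
    (H : ∀ ε : ℝ, 0 < ε → ∃ η : ℝ, 0 < η ∧
      BG Dq (PXQ ((b + η) / (κ + η)) π h) (κ + η) u w (e + ε)) : BG2 Dq (PQe π h) κ b u w e := by
  intro ε hε
  obtain ⟨η, hη, HB⟩ := H (ε / 2) (by linarith)
  obtain ⟨δ, hδ, K⟩ := HB (ε / 2) (by linarith)
  refine ⟨min δ η, lt_min hδ hη, fun lam N B => ?_⟩
  obtain ⟨δ', hδ', X₀, hX₀, K1⟩ := K lam N B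
  refine ⟨δ', hδ', X₀, hX₀, fun X hX k β us gs h1 h2 h3 h4 h5 => ?_⟩
  have hX1 : 1 < X := by linarith
  have hlog : 0 < Real.log X := Real.log_pos hX1
  have hκη : 0 < κ + η := by linarith
  have hm := min_le_left δ η
  have hm' := min_le_right δ η
  have h1' := (abs_le.1 h1).2
  have h2' := (abs_le.1 h2).2
  have key := K1 X hX (κ + η) us gs (by rw [sub_self, abs_zero]; exact hδ.le)
    (XG702.Near_mono h3 hm) (XG702.Gran_mono h4 hm le_rfl) h5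
  refine le_trans ?_ (key.trans (Real.rpow_le_rpow_of_exponent_le hX1.le (by linarith)))
  show PM2Q NCube (π lam) h (k * Real.log X) (β * Real.log X) _ ≤
    PM2Q NCube (π lam) h ((κ + η) * Real.log X) ((b + η) / (κ + η) * ((κ + η) * Real.log X)) _
  have e1 : (b + η) / (κ + η) * ((κ + η) * Real.log X) = (b + η) * Real.log X := by
    field_simp
  rw [e1]
  exact PM2Q_mono (fun _ h => h) (mul_le_mul_of_nonneg_right (by linarith) hlog.le)
    (mul_le_mul_of_nonneg_right (by linarith) hlog.le) _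

theorem PXQ_of_BG2 {h : ℝ → ℝ} {π : Λ → DPar} {κ b : ℝ} (hκ : 0 ≤ κ) (hb : 0 ≤ b) {u : List ℝ}
    {w : Kd → ℝ} {e : ℝ} (H : BG2 Dq (PQe π h) κ b u w e) {ε : ℝ} (hε : 0 < ε) :
    ∃ η₀ : ℝ, 0 < η₀ ∧ ∀ η : ℝ, 0 < η → η ≤ η₀ →
      BG Dq (PXQ ((b + η) / (κ + η)) π h) (κ + η) u w (e + ε) := by
  obtain ⟨δ, hδ, K⟩ := H ε hε
  refine ⟨δ / 2, by linarith, fun η hη hη1 ε' hε' => ?_⟩
  have hκη : 0 < κ + η := by linarith
  obtain ⟨c, hc⟩ : ∃ c : ℝ, c = (b + η) / (κ + η) := ⟨_, rfl⟩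
  have hc0 : 0 ≤ c := by rw [hc]; positivity
  have hcκ : c * (κ + η) = b + η := by rw [hc]; field_simp
  rw [← hc]
  refine ⟨min (δ / 2) (δ / (2 * (c + 1))), lt_min (by linarith) (by positivity),
    fun lam N B => ?_⟩
  obtain ⟨δ', hδ', X₀, hX₀, K1⟩ := K lam N B
  refine ⟨δ', hδ', X₀, hX₀, fun X hX k us gs h1 h3 h4 h5 => ?_⟩
  have hX1 : 1 < X := by linarith
  have hm : min (δ / 2) (δ / (2 * (c + 1))) ≤ δ := (min_le_left _ _).trans (by linarith)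
  have h1a := h1.trans (min_le_left _ _)
  have h1b := h1.trans (min_le_right _ _)
  have hcb : c * |k - (κ + η)| ≤ δ / 2 := by
    have h6 : c * |k - (κ + η)| ≤ c * (δ / (2 * (c + 1))) := mul_le_mul_of_nonneg_left h1b hc0
    refine h6.trans ?_
    rw [mul_div_assoc', div_le_iff₀ (by positivity)]
    nlinarith
  have key := K1 X hX k (c * k) us gs (by
      have := abs_le.1 h1a
      rw [abs_le]; constructor <;> linarith [this.1, this.2]) (by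
      have h6 : |c * (k - (κ + η))| ≤ δ / 2 := by rw [abs_mul, abs_of_nonneg hc0]; exact hcb
      have h7 := abs_le.1 h6
      have h8 : c * k - b = c * (k - (κ + η)) + η := by
        rw [mul_sub, hcκ]; ring
      rw [h8, abs_le]
      constructor <;> linarith [h7.1, h7.2])
    (XG702.Near_mono h3 hm) (XG702.Gran_mono h4 hm le_rfl) h5
  refine le_trans (le_of_eq ?_) (key.trans (Real.rpow_le_rpow_of_exponent_le hX1.le
    (by linarith)))
  show PM2Q NCube (π lam) h (k * Real.log X) (c * (k * Real.log X)) _ =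
    PM2Q NCube (π lam) h (k * Real.log X) (c * k * Real.log X) _
  rw [mul_assoc]

/-- the premises from the literal form -/
lemma sk_child {h : ℝ → ℝ} {c₁ : ℝ} (hpu : PU h c₁) {π : Λ → DPar} (hP : ∀ lam, (π lam).OK)
    {κ b : ℝ} {u : List ℝ} {m a E : ℝ}
    (H : PMx (ex Dq (fun lam => SKq Dk (π lam) h)) κ b (u : Multiset ℝ) m a E)
    {u' : List ℝ} {m' a' l : ℝ} (hsh : Shl u' u) (hm0 : 0 ≤ m') (hm1 : m' ≤ m) (ha0 : 0 ≤ a')
    (ha1 : a' ≤ a) (hl : 0 ≤ l) (hl1 : 2 * (u'.sum + m' + a') - κ ≤ l - b)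
    (hl2 : (l - b) + (u'.sum + m' + a') ≤ 3 * (u.sum + m + a) - κ) :
    BG Dq (fun lam => SKq Dk (π lam) h) l u' (wt m' a')
      (E - (u.sum + m + a) - κ / 3 + 2 / 3 * ((l - b) + (u'.sum + m' + a'))) := by
  obtain ⟨hE1, hch⟩ := H
  have hsu : (u : Multiset ℝ).sum = u.sum := Multiset.sum_coe u
  rw [hsu] at hE1 hch
  have hsum : (u' : Multiset ℝ).sum = u'.sum := Multiset.sum_coe u'
  have hs' := shl_sum_le hsh
  have hs0 : 0 ≤ u'.sum := List.sum_nonneg hsh.nonneg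
  obtain ⟨n1, hn1⟩ : ∃ x : ℝ, x = (l - b + (u'.sum + m' + a') + κ) / 3 := ⟨_, rfl⟩
  have hl' : b + 3 * n1 - (u'.sum + m' + a') - κ = l := by rw [hn1]; ring
  have h1 : u'.sum + m' + a' ≤ n1 := by linarith
  have h2 : n1 ≤ u.sum + m + a := by linarith
  rcases le_total κ (2 * n1) with h3 | h3
  · have h4 := hch (u' : Multiset ℝ) m' a' (u'.sum + m' + a') n1 hsh.sh hm0 hm1 ha0 ha1
      (by rw [hsum]) h1 h2 h3
    rw [hl'] at h4
    exact BG_of_ex (Dk848.pinv_SD π h) (Dk848.triv_SD hP hpu) hl ⟨hsh.nonneg, hm0, ha0⟩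
      (by linarith)
  · refine (Dk848.bg_SKq hP hpu l u' m' a').mono ?_
    refine max_le (by linarith) (max_le (by linarith) (by linarith))

/-- **the comparison rule** -/
theorem bg2_repl {h : ℝ → ℝ} {c₁ : ℝ} (hpu : PU h c₁) {π : Λ → DPar} (hP : ∀ lam, (π lam).OK)
    (hpr : Prin π) {κ b y1 y2 δx : ℝ} {u : List ℝ} {m a E : ℝ} (hκ : 0 ≤ κ) (hb : 0 ≤ b)
    (hu : Okl (y1 :: y2 :: u) m a) (h0 : 0 ≤ δx) (h1 : δx ≤ y1) (h2 : δx ≤ y2)
    (hY : PMx (ex Dq (fun lam => SKq Dk (π lam) h)) κ b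
      ((y1 :: y2 :: u : List ℝ) : Multiset ℝ) m a E)
    (hY' : PMx (ex Dq (fun lam => SKq Dk (π lam) h)) κ b
      (((y1 + y2 - δx) :: δx :: u : List ℝ) : Multiset ℝ) m a E)
    (hp : 2 * ((y1 :: y2 :: u).sum + m + a) + (κ + 2 * b) / 3 - δx ≤ E)
    (hx : BG2 Dq (PQe π h) κ b ((y1 + y2 - δx) :: δx :: u) (wt m a) E) :
    BG2 Dq (PQe π h) κ b (y1 :: y2 :: u) (wt m a) E := by
  refine BG2_of_PXQ hκ hb fun ε hε => ?_
  obtain ⟨η₀, hη₀, Hη⟩ := PXQ_of_BG2 hκ hb hx hε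
  obtain ⟨η, hη⟩ : ∃ x : ℝ, x = min η₀ (ε / 2) := ⟨_, rfl⟩
  have hη0 : 0 < η := hη ▸ lt_min hη₀ (by linarith)
  have hη1 : η ≤ η₀ := hη ▸ min_le_left _ _
  have hη2 : η ≤ ε / 2 := hη ▸ min_le_right _ _
  refine ⟨η, hη0, ?_⟩
  have hκη : 0 < κ + η := by linarith
  have hc0 : 0 ≤ (b + η) / (κ + η) := by positivity
  have hcb : (b + η) / (κ + η) * (κ + η) = b + η := div_mul_cancel₀ _ hκη.ne'
  have hEY := hY.1
  have hsu : ((y1 :: y2 :: u : List ℝ) : Multiset ℝ).sum = (y1 :: y2 :: u).sum :=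
    Multiset.sum_coe _
  rw [hsu] at hEY
  have hsum2 : ((y1 + y2 - δx) :: δx :: u).sum = (y1 :: y2 :: u).sum := by
    simp only [List.sum_cons]; ring
  refine rawPX hpu hP hpr hc0 hκη.le hu h0 h1 h2 (by rw [add_mul, hcb]; linarith)
    (by rw [hcb]; linarith) ?_ (Hη η hη0 hη1)
  intro u' m' a' l hsh hm0 hm1 ha0 ha1 hl hl1 hl2
  rw [hcb] at hl1 hl2 ⊢
  rcases hsh with hsh | hsh
  · refine (sk_child hpu hP hY hsh hm0 hm1 ha0 ha1 hl (by linarith) (by linarith)).mono ?_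
    linarith
  · refine (sk_child hpu hP hY' hsh hm0 hm1 ha0 ha1 hl (by linarith)
      (by rw [hsum2]; linarith)).mono ?_
    rw [hsum2]
    linarith

end Crest.Agent.R017.XF320
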