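import Crest.Agent.R017.XFu_590
import Crest.Agent.R017.XFh_320

/-!
# Row 17, T.7, class E: the pair rules, everything discharged (helper829)

* `prin_red` : the reduced data are principal
* `pairRules_px` : `PairRules (rdE π) h (ex Dq (SPe π h))`
-/

set_option autoImplicit false

noncomputable section

namespace Crest.Agent.R017.XPr829

open Crest.Agent.R012 Crest.Agent.R012.Eis Crest.Agent.R012.LS2
open Crest.Agent.R017.FE47
open Crest.Agent.R012.Gauss880
open Crest.Agent.R017.CM106 Crest.Agent.R017.End699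
open Crest.Agent.R017.B770
open Crest.Agent.R017.Prov71
open Crest.Agent.R017.XP699
open Crest.Agent.R017.RuleM545
open Crest.Agent.R017.ER911 (EF)
open Crest.Agent.R017.PM320 (PMx Clo)
open Crest.Agent.R017.RGB545
open Crest.Agent.R017.XPD571
open Crest.Agent.R017.Red848
open Crest.Agent.R017.XF320 (Prin bg2_repl)

variable {Λ : Type*}

/-- the reduced data are principal -/
theorem prin_red {π : Λ → DPar} (hP : ∀ lam, (π lam).OK) : Prin (rdE π) := by
  intro lam
  refine ⟨(π lam).n, (hP lam).ψ.q0, fun b _ => ?_⟩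
  show prin0 (π lam).n b * ang 0 b = prin0 (π lam).n b
  unfold ang
  rw [zpow_zero, mul_one]

/-- **the pair rules of class E** -/
theorem pairRules_px {h : ℝ → ℝ} {c : ℝ} (hpu : PU h c) {π : Λ → DPar}
    (hP : ∀ lam, (π lam).OK) (hE : ∀ lam, Exc (π lam)) (hc : Clo π) :
    PairRules (rdE π) h (ex Dq (SPe π h)) := by
  have hr := red_OK hP hE
  refine XFt590.pairRules_E hpu hr (clo_rdE hc) ?_
  intro i b y₁ y₂ δ u m a ρ hi hb hu h0 h1 h2 hY hY' hp hx
  refine bg2_repl hpu hr (prin_red hP) hi hb hu h0 h1 h2 hY hY' ?_ hx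
  rw [List.sum_cons, List.sum_cons]
  linarith

end Crest.Agent.R017.XPr829
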