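import Crest.Agent.R017.PMq_590
import Crest.Agent.R017.XPr_829
import Crest.Agent.R017.RXm_440

/-!
# Row 17, class E (helper385): the pair functional over the noncubes, closed form

* **`pmqin_E`** : helper440's `PMQin` at the reduced data (helper590's `pmq_in`)
-/

set_option autoImplicit false

noncomputable section

namespace Crest.Agent.R017.PMb385

open Crest.Agent.R012 Crest.Agent.R012.Eis
open Crest.Agent.R012.T411 (NCube)
open Crest.Agent.R017.B770
open Crest.Agent.R017.Prov71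
open Crest.Agent.R017.ER911 (ExpRules)
open Crest.Agent.R017.Red848
open Crest.Agent.R017.RGB545
open Crest.Agent.R017.PM320 (Clo)
open Crest.Agent.R017.RXm440 (PMQin)

variable {Lam : Type*} {π : Lam → DPar} {h : ℝ → ℝ} {d c₁ : ℝ}

/-- **`PMQin`, class E** -/
theorem pmqin_E (hPF : End699.PF Set.univ (7 / 8 + d)) (hpu : FE47.PU h c₁)
    (hP : ∀ lam, (π lam).OK) (hE : ∀ lam, Exc (π lam)) (hc : Clo π)
    (R : ExpRules (7 / 8 + d) (ex Dq (RNe π h)) (ex Dq (SPe π h))) (hd : 0 ≤ d)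
    (hd8 : d ≤ 1 / 8) : PMQin NCube (fun lam => red (π lam)) h d := by
  intro ε hε
  obtain ⟨σ, hσ, H⟩ := PMq590.pmq_in (dataE_of (by linarith) (by linarith) hPF hpu hP hE) hc
    (XPr829.pairRules_px hpu hP hE hc) R hd hd8 hε
  refine ⟨σ, hσ, fun lam N B => ?_⟩
  obtain ⟨M, X₀, hX₀, H⟩ := H lam N B
  refine ⟨M, X₀, hX₀, ?_⟩
  intro X hX l β Ht u₁ u₂ u₃ rest hN hp hl hβ hl2 hβ3 z₁ z₂ z₃ x' ρ n' U h32 h21 hz hx hn hU hA
  subst hn hU
  exact H X hX l β Ht u₁ u₂ u₃ rest hN hp hl hβ hl2 hβ3 z₁ z₂ z₃ x' ρ h32 h21 hz hx hA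

end Crest.Agent.R017.PMb385
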