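import Crest.Agent.R017.I1o_146

/-!
# Row 17, class E, the R-side of `P1` (helper440): `RPg_Qs` on any set of levels

* **`RPs_Qs`** : 146's `RPg_Qs` for any subset `G δ` of the levels
-/

set_option autoImplicit false

noncomputable section

open Complex MeasureTheory
open scoped ComplexConjugate Classical

namespace Crest.Agent.R017.RPb440

open Crest.Agent.R012 Crest.Agent.R012.Eis Crest.Agent.R012.MC
open Crest.Agent.R012.LS2 (S mem_S)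
open Crest.Agent.R012.Mob705 (pdiv mem_pdiv kap0 mu PE)
open Crest.Agent.R012.Div277 (dvs mem_dvs)
open Crest.Agent.R017.X6C180 (n13 cM GF)
open Crest.Agent.R017.E2440 (TE StE StT TOK tok_TE E2finG Jb MX AX ApM AX_ApM QsG_ApM cM_nn Qs)
open Crest.Agent.R017.LBx48 (R2 neb sum_blk Jb_empty sqrt_mul_le prim_of_S)
open Crest.Agent.R017.I1146

/-- **`RPg` on any set of levels** -/
theorem RPs_Qs {ε : ℝ} (hε : 0 < ε) : ∃ C : ℝ, 0 ≤ C ∧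
    ∀ (P κ D Z E0 Rn : ℝ) (I : ℕ) (G : Eis → Finset ℕ), (∀ δ, G δ ⊆ Finset.range I) → 1 ≤ P → 0 < κ → 0 ≤ D → D ≤ P →
      0 < Z → 0 ≤ E0 → E0 ≤ P → (2 : ℝ) ^ I ≤ P → 0 ≤ Rn → ∀ (α : Eis → ℂ) (F : ℝ → ℂ)
      (ρ : Eis → Eis → ℝ → ℝ) (c : ℝ), RW ρ c →
      (∀ δ ∈ S D, ∀ i ∈ G δ, ∀ e ∈ S E0, ∀ y ∈ E2440.prs δ, ∀ a ∈ pdiv y.1,
        ∑ c ∈ E2440.C4, ∑ j₂ ∈ S (Real.sqrt (Z / 2 ^ i)), Qs α δ e (Z / 2 ^ i) κ F y a c j₂ ≤
          Rn * ρ δ e (Z / 2 ^ i) *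
            (κ ^ (2 / 3 : ℝ) * (Z / 2 ^ i) ^ (-(1 / 3) : ℝ) / (nm δ * nm e))) →
      ∑ δ ∈ S D, ∑ i ∈ G δ, ∑ e ∈ S E0,
        (κ ^ (-(2 / 3) : ℝ) * (Z / 2 ^ i) ^ (1 / 3 : ℝ) / ρ δ e (Z / 2 ^ i)) *
          R2 α κ F δ e (Z / 2 ^ i) ^ 2 ≤ C * P ^ ε * Rn := by
  obtain ⟨k, hk⟩ : ∃ k : ℕ, k = 2 ^ 6 := ⟨_, rfl⟩
  obtain ⟨C₁, hC₁, H₁⟩ := PInv255.one_add_log_pow_le (k + k + 1) ε hε
  obtain ⟨c₀, hc₀, hc₀1⟩ : ∃ c₀ : ℝ, c₀ = 100 ^ k ∧ 0 ≤ c₀ := ⟨_, rfl, by positivity⟩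
  refine ⟨c₀ * c₀ * 2 * C₁, by positivity, ?_⟩
  intro P κ D Z E0 Rn I G hG hP hκ hD hDP hZ hE0 hEP hI hRn α F ρ c hρc hQ
  have hlP := Real.log_nonneg hP
  set L := 1 + Real.log P with hL
  have hL0 : 0 ≤ L := by rw [hL]; linarith
  set N := ⌊P⌋₊ with hN
  have hN1 : (1 : ℝ) ≤ N := by exact_mod_cast Nat.le_floor (by exact_mod_cast hP)
  have hNP : (N : ℝ) ≤ P := Nat.floor_le (by linarith)
  have hlN : Real.log N ≤ Real.log P := Real.log_le_log (by linarith) hNP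
  have hsub : ∀ E : ℝ, E ≤ P → S E ⊆ Div277.nz N := fun E hE x hx => by
    unfold LS2.S at hx
    have h1 := (Finset.mem_filter.1 hx).1
    rw [mem_primBall] at h1
    exact Div277.primBall_subset_nz N (mem_primBall.2 ⟨h1.1.trans (Nat.floor_le_floor hE), h1.2⟩)
  have hsum := Div277.sum_tau_pow_div_le 6 N
  have hsum' : ∑ n ∈ Div277.nz N, ((Div277.tau n : ℝ) ^ 6 / nm n) ≤
      c₀ * L ^ k := by
    refine hsum.trans ?_
    rw [← hk, mul_pow, hc₀]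
    have hl0 : 0 ≤ Real.log (N : ℝ) := Real.log_nonneg hN1
    have h1 : 1 + Real.log N ≤ L := by rw [hL]; linarith
    exact mul_le_mul_of_nonneg_left (pow_le_pow_left₀ (by linarith) h1 k) (by positivity)
  have hterm : ∀ δ ∈ S D, ∀ i ∈ G δ, ∀ e ∈ S E0,
      (κ ^ (-(2 / 3) : ℝ) * (Z / 2 ^ i) ^ (1 / 3 : ℝ) / ρ δ e (Z / 2 ^ i)) *
        R2 α κ F δ e (Z / 2 ^ i) ^ 2 ≤
      Rn * (((Div277.tau δ : ℝ) ^ 6 / nm δ) * ((Div277.tau e : ℝ) ^ 6 / nm e)) := by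
    intro δ hδ i hi e he
    have hδp := prim_of_S hδ
    have hep := prim_of_S he
    have hV : 0 < Z / 2 ^ i := by positivity
    set V := Z / 2 ^ i with hVdef
    have hρ := hρc.pos δ e V
    set ρ₁ := ρ δ e V with hρd
    have hδn : (0 : ℝ) < nm δ := by exact_mod_cast nm_pos.2 hδp.ne_zero
    have hen : (0 : ℝ) < nm e := by exact_mod_cast nm_pos.2 hep.ne_zero
    set Q0 := Rn * ρ₁ * (κ ^ (2 / 3 : ℝ) * V ^ (-(1 / 3) : ℝ) / (nm δ * nm e)) with hQ0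
    have hQ00 : 0 ≤ Q0 := by positivity
    have hτ : (1 : ℝ) ≤ Div277.tau δ := one_le_tau1 hδp
    have h1 : R2 α κ F δ e V ≤ (Div277.tau δ : ℝ) ^ 3 * Real.sqrt Q0 := by
      unfold LBx48.R2
      have h2 : ∀ y ∈ E2440.prs δ, ∑ a ∈ pdiv y.1, Real.sqrt (∑ c ∈ E2440.C4,
          ∑ j₂ ∈ S (Real.sqrt V), Qs α δ e V κ F y a c j₂) ≤
          (Div277.tau δ : ℝ) * Real.sqrt Q0 := by
        intro y hy
        refine (Finset.sum_le_sum fun a ha => Real.sqrt_le_sqrt (hQ δ hδ i hi e he y hy a ha)).trans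
          ?_
        rw [Finset.sum_const, nsmul_eq_mul]
        exact mul_le_mul_of_nonneg_right (card_pdiv_le hδp hy) (Real.sqrt_nonneg _)
      refine (Finset.sum_le_sum h2).trans ?_
      rw [Finset.sum_const, nsmul_eq_mul]
      have h3 := card_prs_le δ
      calc ((E2440.prs δ).card : ℝ) * ((Div277.tau δ : ℝ) * Real.sqrt Q0) ≤
            (Div277.tau δ : ℝ) ^ 2 * ((Div277.tau δ : ℝ) * Real.sqrt Q0) :=
            mul_le_mul_of_nonneg_right h3 (by positivity)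
        _ = _ := by ring
    have h0 : 0 ≤ R2 α κ F δ e V := by
      unfold LBx48.R2
      exact Finset.sum_nonneg fun _ _ => Finset.sum_nonneg fun _ _ => Real.sqrt_nonneg _
    have h4 : R2 α κ F δ e V ^ 2 ≤ (Div277.tau δ : ℝ) ^ 6 * Q0 := by
      calc R2 α κ F δ e V ^ 2 ≤ ((Div277.tau δ : ℝ) ^ 3 * Real.sqrt Q0) ^ 2 :=
            pow_le_pow_left₀ h0 h1 2
        _ = (Div277.tau δ : ℝ) ^ 6 * Real.sqrt Q0 ^ 2 := by ring
        _ = _ := by rw [Real.sq_sqrt hQ00]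
    have hc : 0 ≤ κ ^ (-(2 / 3) : ℝ) * V ^ (1 / 3 : ℝ) / ρ₁ := by positivity
    refine (mul_le_mul_of_nonneg_left h4 hc).trans ?_
    have e1 : κ ^ (-(2 / 3) : ℝ) = (κ ^ (2 / 3 : ℝ))⁻¹ := by rw [Real.rpow_neg hκ.le]
    have e2 : V ^ (-(1 / 3) : ℝ) = (V ^ (1 / 3 : ℝ))⁻¹ := by rw [Real.rpow_neg hV.le]
    have hk3 : 0 < κ ^ (2 / 3 : ℝ) := by positivity
    have hV3 : 0 < V ^ (1 / 3 : ℝ) := by positivity
    have e3 : κ ^ (-(2 / 3) : ℝ) * V ^ (1 / 3 : ℝ) / ρ₁ * ((Div277.tau δ : ℝ) ^ 6 * Q0) =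
        Rn * (((Div277.tau δ : ℝ) ^ 6 / nm δ) * (1 / nm e)) := by
      rw [hQ0, e1, e2]
      field_simp
    rw [e3]
    have hτe : (1 : ℝ) ≤ (Div277.tau e : ℝ) ^ 6 := one_le_pow₀ (one_le_tau1 hep)
    gcongr
  have h5 : ∑ δ ∈ S D, ∑ i ∈ G δ, ∑ e ∈ S E0,
      (κ ^ (-(2 / 3) : ℝ) * (Z / 2 ^ i) ^ (1 / 3 : ℝ) / ρ δ e (Z / 2 ^ i)) *
        R2 α κ F δ e (Z / 2 ^ i) ^ 2 ≤
      ∑ δ ∈ S D, ∑ _i ∈ Finset.range I, ∑ e ∈ S E0,
        Rn * (((Div277.tau δ : ℝ) ^ 6 / nm δ) * ((Div277.tau e : ℝ) ^ 6 / nm e)) := by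
    refine Finset.sum_le_sum fun δ hδ => ?_
    refine (Finset.sum_le_sum fun i hi => Finset.sum_le_sum fun e he =>
      hterm δ hδ i hi e he).trans ?_
    refine Finset.sum_le_sum_of_subset_of_nonneg (hG δ) fun i _ _ =>
      Finset.sum_nonneg fun e _ => by positivity
  refine h5.trans ?_
  have h6 : ∑ δ ∈ S D, ∑ _i ∈ Finset.range I, ∑ e ∈ S E0,
        Rn * (((Div277.tau δ : ℝ) ^ 6 / nm δ) * ((Div277.tau e : ℝ) ^ 6 / nm e)) =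
      Rn * I * ((∑ δ ∈ S D, (Div277.tau δ : ℝ) ^ 6 / nm δ) *
        ∑ e ∈ S E0, (Div277.tau e : ℝ) ^ 6 / nm e) := by
    rw [Finset.sum_mul_sum, Finset.mul_sum]
    refine Finset.sum_congr rfl fun δ _ => ?_
    rw [Finset.sum_const, Finset.card_range, nsmul_eq_mul, Finset.mul_sum, Finset.mul_sum]
    refine Finset.sum_congr rfl fun e _ => ?_
    ring
  rw [h6]
  have h7 : ∀ E : ℝ, E ≤ P → ∑ δ ∈ S E, (Div277.tau δ : ℝ) ^ 6 / nm δ ≤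
      c₀ * L ^ k := fun E hE =>
    (Finset.sum_le_sum_of_subset_of_nonneg (hsub E hE) fun _ _ _ => by positivity).trans hsum'
  have hI' : (I : ℝ) ≤ 2 * L := by
    have h8 : (I : ℝ) * Real.log 2 ≤ Real.log P := by
      rw [← Real.log_pow]
      exact Real.log_le_log (by positivity) hI
    have h9 : (1 : ℝ) / 2 ≤ Real.log 2 := by linarith [Real.log_two_gt_d9]
    have h10 : (I : ℝ) * (1 / 2) ≤ I * Real.log 2 :=
      mul_le_mul_of_nonneg_left h9 (Nat.cast_nonneg _)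
    linarith
  have h11 : 0 ≤ ∑ e ∈ S E0, (Div277.tau e : ℝ) ^ 6 / nm e :=
    Finset.sum_nonneg fun _ _ => by positivity
  calc Rn * I * ((∑ δ ∈ S D, (Div277.tau δ : ℝ) ^ 6 / nm δ) *
        ∑ e ∈ S E0, (Div277.tau e : ℝ) ^ 6 / nm e) ≤
      Rn * (2 * L) * ((c₀ * L ^ k) * (c₀ * L ^ k)) :=
        mul_le_mul (mul_le_mul_of_nonneg_left hI' hRn)
          (mul_le_mul (h7 D hDP) (h7 E0 hEP) h11 (by positivity))
          (mul_nonneg (Finset.sum_nonneg fun _ _ => by positivity) h11) (by positivity)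
    _ = c₀ * c₀ * 2 * L ^ (k + k + 1) * Rn := by
        rw [pow_add, pow_add, pow_one]
        ring
    _ ≤ c₀ * c₀ * 2 * (C₁ * P ^ ε) * Rn :=
        mul_le_mul_of_nonneg_right (mul_le_mul_of_nonneg_left (H₁ P hP) (by positivity)) hRn
    _ = _ := by ring

end Crest.Agent.R017.RPb440
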