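import Crest.Agent.R017.P1Rj_440

/-!
# Row 17, R8: the real side of E2 for `P1`, part k (helper440): one block

* **`blk_Qs`** : the inner double sum of a block against the weight `rhoS`
-/

set_option autoImplicit false
set_option maxHeartbeats 4000000

noncomputable section

open Finset
open scoped ComplexConjugate

namespace Crest.Agent.R017.P1Rk440

open Crest.Agent.R012 Crest.Agent.R012.Eis
open Crest.Agent.R012.LS2 (S mem_S)
open Crest.Agent.R012.Mob705 (pdiv mem_pdiv)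
open Crest.Agent.R017.B770
open Crest.Agent.R017.Prov71
open Crest.Agent.R017.FE47 (cx PU)
open Crest.Agent.R017.HP842 (pc al sqc alL)
open Crest.Agent.R017.Leg381 (alF natl)
open Crest.Agent.R017.UBT973 (UBs)
open Crest.Agent.R017.I1146 (LN tw3 rhoS)
open Crest.Agent.R017.PM320 (S3b MP3 fbx Epm)
open Crest.Agent.R017.TM708 (TMF fbT EAll eF)
open Crest.Agent.R017.WDec180 (WD sc)
open Crest.Agent.R017.X6C180 (GF)
open Crest.Agent.R017.X6545 (Bd)
open Crest.Agent.R017.RC106 (k9)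
open Crest.Agent.R017.E2440 (C4 Qs prs mem_prs)
open Crest.Agent.R017.P10146 (Sh5)
open Crest.Agent.R017.P1Re440 (SzP)
open Crest.Agent.R017.P1Rb440 (PMH)
open Crest.Agent.R017.P1Rc440 (VFH)
open Crest.Agent.R017.P1Rg440 Crest.Agent.R017.P1Rh440 Crest.Agent.R017.P1Ri440
open Crest.Agent.R017.P1Hl440 Crest.Agent.R017.P1Rj440

variable {Λ : Type*} {π : Λ → DPar} {h : ℝ → ℝ} {d : ℝ}

lemma k9_nonneg : 0 ≤ k9 := by
  unfold RC106.k9
  have h1 : 0 ≤ ∑ c ∈ C4, MoF106.dmx c := Finset.sum_nonneg fun c _ => RC106.dmx_nonneg c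
  have h2 : 0 ≤ Real.log (81 * (1 + ∑ c ∈ C4, MoF106.dmx c)) :=
    Real.log_nonneg (by linarith)
  linarith

/-- `Sh5` is at most `4 L` -/
lemma sh5_le {L l A3 z p D e v : ℝ} (hl : l ≤ 2 * L) (hA : A3 ≤ L) (hp : p ≤ L) (hD : 0 ≤ D)
    (he : 0 ≤ e) (he1 : e ≤ L) (hv : 0 ≤ v) (hv2 : v ≤ 2 * L) (hL : 0 < L) :
    Sh5 (max l (5 / 4 * A3)) z p D e v ≤ 6 * L := by
  refine (min_le_left _ _).trans ?_
  unfold TM708.eF
  refine max_le (by linarith) ?_
  have h0 : max l (5 / 4 * A3) ≤ 2 * L := max_le (by linarith) (by linarith)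
  have h1 : max (max l (5 / 4 * A3) + e / 2) (3 / 2 * (v + e)) ≤ 5 * L :=
    max_le (by linarith) (by linarith)
  linarith

/-- **the inner bound at a block** -/
theorem blk_Qs {c₀ : ℝ} (hpu : PU h c₀) (hP : ∀ lam, (π lam).OK) {R : ℝ} (hR0 : 0 ≤ R)
    (hR : ∀ u, cx h u ≠ 0 → |u| ≤ R)
    (hPM : UBs S3b Dq (MP3 π h (fun _ => 0) (fun _ => 0)) (fbx 8) ∅ (Epm d))
    (hRF : RM986.Plain (fun _ k => k ≠ 0) π h 8
      (fun κ y₁ y₂ y₃ m a => max (RM986.r3 d κ y₁ y₂ y₃ m a)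
        (κ / 3 + 2 * a + 2 * (7 / 8 + d) * m)))
    (hTM : UBs TM708.S3 Dq (TMF π h fun _ => 0) (fbT 8) ∅ (EAll d)) :
    ∃ σ : ℝ, 0 < σ ∧ σ ≤ 1 ∧ ∀ (lam : Λ) (st : Eis), st ≠ 0 → ∀ (N : ℕ) (B : ℝ), 0 ≤ B →
      ∀ (w : ℝ → ℝ) (Nw : ℕ) (Mw : ℝ) (Fw : ℕ → ℝ → ℂ), WD w Nw Mw Fw →
      ∃ (M : ℕ) (X₀ : ℝ), 1 < X₀ ∧ ∀ X : ℝ, X₀ ≤ X → ∀ (b0 b1 b2 : Pq) (qs : List Pq),
      qs.length ≤ N → ∀ H₀ : ℝ, Lst σ B X H₀ b0 b1 b2 qs →
      M * Real.log H₀ ≤ Real.log X / 10 ^ 4 →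
      ∀ (τ κ y₃ y₄ u x l z A3 p y₀ v Rn : ℝ) (δ e : Eis), IsPrim δ → Squarefree δ → IsPrim e →
      ∀ y ∈ prs δ, ∀ A ∈ pdiv y.1, v = 0 ∨ 0 < v →
      Num (Real.log X) τ κ y₃ y₄ u x d l z A3 p y₀ (Real.log (nm δ)) (Real.log (nm A))
        (Real.log (nm e)) v →
      p = LN ([b0, b1, b2] ++ qs) → 0 < Rn →
      κ * Real.log X + p + max 0 (5 / 4 * (y₃ + y₄ + u) - κ) * Real.log X -
        4 * (τ * Real.log X) ≤ Real.log Rn →
      b0.z ≤ y₃ * Real.log X + τ * Real.log X → b1.z ≤ y₄ * Real.log X + τ * Real.log X →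
      b2.z ≤ u * Real.log X + τ * Real.log X → LN qs ≤ x * Real.log X + τ * Real.log X →
      ∀ i < Nw,
      ∑ c ∈ C4, ∑ j₂ ∈ S (Real.sqrt (Real.exp v)), Qs (tw3 st (sqc 1 (alF 1 1 (π lam) h
        (natl ([b0, b1, b2] ++ qs))))) δ e (Real.exp v) (sc (Real.exp l) Mw i) (GF (Fw i)) y A c
        j₂ ≤
      Rn * rhoS (4 / 3 * p + max 0 (5 / 4 * A3 - l)) l (Sh5 (max l (5 / 4 * A3)) z p) δ e
        (Real.exp v) *
        ((sc (Real.exp l) Mw i) ^ (2 / 3 : ℝ) * (Real.exp v) ^ (-(1 / 3) : ℝ) /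
          (nm δ * nm e)) := by
  obtain ⟨σ₁, hσ₁, hσ₁1, H1⟩ := pmh_of hPM hRF
  obtain ⟨σ₂, hσ₂, hσ₂1, H2⟩ := vfh_of hTM
  refine ⟨min σ₁ σ₂, lt_min hσ₁ hσ₂, (min_le_left _ _).trans hσ₁1, ?_⟩
  intro lam st hst N B hB w Nw Mw Fw hWD
  obtain ⟨M₁, X₁, hX₁, H1⟩ := H1 lam N B hB
  obtain ⟨M₂, X₂, hX₂, H2⟩ := H2 lam N B hB
  set μ : ℝ := M₁ + M₂ with hμ
  have hμ0 : 0 ≤ μ := by positivity
  obtain ⟨k, C, hC1, HQ⟩ := P1Rf440.Qs_P1 hpu hR0 hR hμ0 (N + 3) (ε := 1 / 10 ^ 7) (by norm_num)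
    (by norm_num) 10
  obtain ⟨Sf, hSf0, hSf⟩ := hWD.bd k
  set σ : ℝ := min σ₁ σ₂ with hσ
  have hσ0 : 0 < σ := lt_min hσ₁ hσ₂
  have hσ1 : σ ≤ 1 := (min_le_left _ _).trans hσ₁1
  have hk9 := k9_nonneg
  have hst1 : (1 : ℝ) ≤ nm st := by exact_mod_cast nm_pos.2 hst
  have hlst : 0 ≤ Real.log (nm st) := Real.log_nonneg hst1
  set cs : ℝ := 4 * Real.log (nm st) + k9 with hcs
  have hcs0 : 0 ≤ cs := by positivity
  have hMw := hWD.M0
  have hC0 : 0 ≤ C := by linarith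
  set lS : ℝ := Real.log (2 * (C * Sf ^ 2) + 1) with hlS
  have hlS0 : 0 ≤ lS := Real.log_nonneg (by nlinarith [sq_nonneg Sf, mul_nonneg hC0 (sq_nonneg Sf)])
  set Q0 : ℝ := C + cs + 20 + N * C + Mw + Nw + lS with hQ0
  have hNC0 : 0 ≤ (N : ℝ) * C := by positivity
  have hQ00 : 20 ≤ Q0 := by
    have : (0 : ℝ) ≤ Nw := by positivity
    linarith
  refine ⟨M₁ + M₂, max (max X₁ X₂) (Real.exp (10 ^ 8 * Q0 / σ)),
    lt_of_lt_of_le hX₁ ((le_max_left _ _).trans (le_max_left _ _)), ?_⟩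
  intro X hX b0 b1 b2 qs hlen H₀ hLst hMH τ κ y₃ y₄ u x l z A3 p y₀ v Rn δ e hδp hδs hep y hy A
    hA _ hNum hp hRn hlRn hz0 hz1 hz2 hzw i hi
  have hXX₁ : X₁ ≤ X := (le_max_left _ _).trans ((le_max_left _ _).trans hX)
  have hXX₂ : X₂ ≤ X := (le_max_right _ _).trans ((le_max_left _ _).trans hX)
  have hXQ : Real.exp (10 ^ 8 * Q0 / σ) ≤ X := (le_max_right _ _).trans hX
  have hX1 : 1 < X := lt_of_lt_of_le hX₁ hXX₁
  have hX0 : 0 < X := by linarith
  set L := Real.log X with hL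
  have hL0 : 0 < L := Real.log_pos hX1
  have hQL : 10 ^ 8 * Q0 ≤ σ * L := by
    have h1 : 10 ^ 8 * Q0 / σ ≤ L := by rw [hL, Real.le_log_iff_exp_le hX0]; exact hXQ
    rw [div_le_iff₀ hσ0] at h1
    linarith
  have hσL : σ * L ≤ 1 * L := mul_le_mul_of_nonneg_right hσ1 hL0.le
  have hQL1 : Q0 ≤ L / 10 ^ 8 := by
    rw [le_div_iff₀ (by norm_num)]; linarith
  have hCQ : C ≤ Q0 := by
    have : (0 : ℝ) ≤ Nw := by positivity
    linarith
  have hCσ : C ≤ σ / 2 * L := by linarith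
  have hNw0 : (0 : ℝ) ≤ Nw := by positivity
  have hsmall : cs + 3 + C ≤ L / 10 ^ 6 := by linarith
  have hNC : (N : ℝ) * C ≤ L / 10 ^ 6 := by linarith
  obtain ⟨hyL, hl2L, hlhL, hpL, hAL⟩ := hNum.y_le
  have hδ0 : (1 : ℝ) ≤ nm δ := by exact_mod_cast nm_pos.2 hδp.ne_zero
  have he0 : (1 : ℝ) ≤ nm e := by exact_mod_cast nm_pos.2 hep.ne_zero
  have hy' := (mem_prs hδp).mp hy
  have hA2 := (mem_pdiv hy'.1.ne_zero).mp hA
  have hy10 : (1 : ℝ) ≤ nm y.1 := by exact_mod_cast nm_pos.2 hy'.1.ne_zero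
  have hy20 : (1 : ℝ) ≤ nm y.2 := by exact_mod_cast nm_pos.2 hy'.2.1.ne_zero
  have hA10 : (1 : ℝ) ≤ nm A := by exact_mod_cast nm_pos.2 hA2.1.ne_zero
  have hδy : (nm δ : ℝ) = nm y.1 * nm y.2 := by
    rw [← hy'.2.2, nm_mul]; push_cast; ring
  set D : ℝ := Real.log (nm δ) with hD
  set D1 : ℝ := Real.log (nm y.1) with hD1
  set ν : ℝ := Real.log (nm y.2) with hν
  set a : ℝ := Real.log (nm A) with ha
  set b : ℝ := Real.log (nm e) with hb
  have hDν : D1 + ν = D := by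
    rw [hD, hδy, Real.log_mul (by positivity) (by positivity)]
  have hν0 : 0 ≤ ν := Real.log_nonneg hy20
  have hD10 : 0 ≤ D1 := Real.log_nonneg hy10
  have ha0 : 0 ≤ a := Real.log_nonneg hA10
  have hb0 : 0 ≤ b := Real.log_nonneg he0
  have hD0 : 0 ≤ D := Real.log_nonneg hδ0
  have haD : a ≤ D1 := by
    refine Real.log_le_log (by positivity) ?_
    have h1 : nm A ∣ nm y.1 := by
      obtain ⟨c, hc⟩ := hA2.2
      exact ⟨nm c, by rw [hc, nm_mul]⟩
    exact_mod_cast Nat.le_of_dvd (nm_pos.2 hy'.1.ne_zero) h1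
  have hv0 := hNum.v0
  have hvD := hNum.vD
  have hbl := hNum.e1
  have hτ1 := hNum.τ1
  have hτ0 := hNum.τ0
  have hτL : 0 ≤ τ * L := mul_nonneg hτ0 hL0.le
  have hτL1 : τ * L ≤ 1 / 10 ^ 7 * L := mul_le_mul_of_nonneg_right hτ1 hL0.le
  have hlog2 : 0 < Real.log 2 := Real.log_pos (by norm_num)
  obtain ⟨l1, l2⟩ := abs_le.1 hNum.hl
  obtain ⟨A1, A2⟩ := abs_le.1 hNum.hA
  -- the scale
  set K : ℝ := sc (Real.exp l) Mw i with hK
  have hK0 : 0 < K := WDec180.sc_pos (Real.exp_pos _) _ _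
  have hlK : Real.log K = l + (i - Mw) := by
    rw [hK]
    unfold WDec180.sc
    rw [Real.log_mul (Real.exp_pos _).ne' (Real.exp_pos _).ne', Real.log_exp, Real.log_exp]
  have hiN : (i : ℝ) ≤ Nw := by exact_mod_cast hi.le
  have hi0 : (0 : ℝ) ≤ i := by positivity
  -- the list
  set ps : List Pq := [b0, b1, b2] ++ qs with hps
  set s : Fin ps.length → Pq := ps.get with hs
  have hofs : List.ofFn s = ps := List.ofFn_get ps
  have hsum : ∑ k, (s k).z = p := by rw [sum_ofFn_z, hofs, hp]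
  have hrN : ps.length ≤ N + 3 := by
    rw [hps]
    simp only [List.length_append, List.length_cons, List.length_nil]
    omega
  have hsz : ∀ k, 0 ≤ (s k).z := by
    intro k
    have hmem : s k ∈ [b0, b1, b2] ++ qs := List.get_mem _ _
    rw [List.mem_append] at hmem
    rcases hmem with h | h
    · exact (hLst.lump _ h).2.1
    · exact (hLst.am _ h).2.1
  have hp0 : 0 ≤ p := by rw [← hsum]; exact Finset.sum_nonneg fun k _ => hsz k
  -- the number
  set ρ : ℝ := rhoS (4 / 3 * p + max 0 (5 / 4 * A3 - l)) l (Sh5 (max l (5 / 4 * A3)) z p) δ e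
        (Real.exp v) with hρ
  have hρ0 : 0 < ρ := Real.exp_pos _
  have hlρ : Real.log ρ = 4 / 3 * p + max 0 (5 / 4 * A3 - l) + (l + v) / 3 - 4 / 3 * D -
      Sh5 (max l (5 / 4 * A3)) z p D b v := by
    rw [hρ]
    unfold I1146.rhoS
    rw [Real.log_exp, Real.log_exp]
  set Λ' : ℝ := max 0 (5 / 4 * (y₃ + y₄ + u) - κ) / 3 with hΛ'
  set G2 : ℝ := Real.log Rn + Real.log ρ with hG2
  set T : ℝ := 2 * (κ + p / L + 3 * Λ') - G2 / L with hT
  set Tn : ℝ := G2 - (D - a) - L / 1000 with hTn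
  have hTL : T * L = 2 * (κ * L) + 2 * p +
      2 * (max 0 (5 / 4 * (y₃ + y₄ + u) - κ) * L) - G2 := by
    rw [hT, hΛ']
    field_simp
  have hex : max 0 (5 / 4 * (y₃ + y₄ + u) - κ) * L - 5 * (τ * L) ≤
      max 0 (5 / 4 * A3 - l) := by
    rcases max_cases 0 (5 / 4 * (y₃ + y₄ + u) - κ) with ⟨h1, -⟩ | ⟨h1, -⟩
    · rw [h1]
      have := le_max_left 0 (5 / 4 * A3 - l)
      linarith
    · rw [h1]
      have := le_max_right 0 (5 / 4 * A3 - l)
      linarith
  have hmx0 : 0 ≤ max 0 (5 / 4 * (y₃ + y₄ + u) - κ) * L :=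
    mul_nonneg (le_max_left _ _) hL0.le
  have hTle : T * L ≤ 2 / 3 * (κ * L) - 1 / 3 * p - v / 3 + 4 / 3 * D +
      Sh5 (max l (5 / 4 * A3)) z p D b v + 20 * (τ * L) := by
    rw [hTL, hG2, hlρ]
    linarith
  have hBlk : Blk κ y₃ y₄ u x d (p / L) (D / L) (a / L) (b / L) (v / L) Λ' T :=
    blk_of hNum (div_mul_cancel₀ _ hL0.ne') (div_mul_cancel₀ _ hL0.ne')
      (div_mul_cancel₀ _ hL0.ne') (div_mul_cancel₀ _ hL0.ne') (div_mul_cancel₀ _ hL0.ne') hTle
  have hTn' : (2 * (κ + p / L + 3 * Λ') - T) * L - (D - a) - L / 1000 ≤ Tn := by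
    have e1 : (2 * (κ + p / L + 3 * Λ') - T) * L = G2 := by
      rw [hT]
      field_simp
      ring
    rw [e1, hTn]
  have hvL : v ≤ L := by linarith
  have hDL : 2 * D ≤ L := by linarith
  have hbL : b ≤ 1 / 32 * L := by linarith
  have hlXn : ∀ n : ℕ, Real.log (X ^ n) = n * L := fun n => by rw [Real.log_pow]
  have hexpX : ∀ (c : ℝ) (n : ℕ), c ≤ n * L → Real.exp c ≤ X ^ n := fun c n hc => by
    rw [← Real.le_log_iff_exp_le (by positivity), Real.log_pow]; exact hc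
  have hnmX : ∀ {c : ℝ} (n : ℕ), 0 < c → Real.log c ≤ n * L → c ≤ X ^ n := fun {c} n hc h => by
    rw [← Real.exp_log hc]; exact hexpX _ n h
  set Pz : ℝ := X ^ 4 with hPz
  have hlPz : Real.log Pz = 4 * L := by rw [hPz, hlXn]; norm_num
  have hPz1 : 1 ≤ Pz := one_le_pow₀ hX1.le
  have hPz0 : 0 < Pz := by linarith
  have hX4 : X ≤ Pz := by rw [hPz]; exact le_self_pow₀ hX1.le (by norm_num)
  have hLX : L ≤ X := by
    have := Real.log_le_sub_one_of_pos hX0
    linarith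
  have hz : SzP Pz (Real.exp v) K δ e := by
    refine ⟨hPz1, Real.one_le_exp hv0, hexpX _ 4 (by push_cast; linarith), hK0, ?_, ?_, hδp, hδs,
      hnmX 4 (by linarith) (by push_cast; linarith), hep,
      hnmX 4 (by linarith) (by push_cast; linarith)⟩
    · refine hnmX 4 (by positivity) ?_
      rw [Real.log_inv, hlK]
      push_cast
      linarith
    · refine hnmX 4 hK0 ?_
      rw [hlK]
      push_cast
      linarith
  have hsp : Real.exp (∑ k, (s k).z + C) ≤ Pz := by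
    rw [hsum]
    exact hexpX _ 4 (by push_cast; linarith)
  have hstP : (nm st : ℝ) ≤ Pz := hnmX 4 (by linarith) (by push_cast; linarith)
  have hleA : Real.log (nm (e * A)) = b + a := by
    rw [nm_mul]
    push_cast
    rw [Real.log_mul (by positivity) (by positivity)]
  have hleA2 : Real.log (Real.exp v * nm (e * A)) = v + b + a := by
    rw [Real.log_mul (Real.exp_pos _).ne' (by
      rw [nm_mul]; push_cast; positivity), Real.log_exp, hleA]
    ring
  have hs₁ : Real.log (nm (e * A * st ^ 4)) + k9 ≤ b + a + cs := by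
    rw [nm_mul, nm_pow]
    push_cast
    rw [Real.log_mul (by
      rw [nm_mul]; push_cast; positivity) (by positivity), hleA, Real.log_pow, hcs]
    push_cast
    linarith
  set i1 : ℝ := 1 / 10 ^ 7 * Real.log Pz + 2 * ν + (p - D1) + v + 2 * (b + a) - Real.log K
    with hi1
  set i2 : ℝ := Real.log 10 + Real.log K - (b + a) + 1 with hi2
  have hlog10 : Real.log 10 ≤ 9 := by
    have := Real.log_le_sub_one_of_pos (show (0 : ℝ) < 10 by norm_num)
    linarith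
  have hlog10' : 0 ≤ Real.log 10 := Real.log_nonneg (by norm_num)
  have hi1' : i1 ≤ v + p - κ * L + 2 * (b + a) + 2 * ν - D1 + L / 10 ^ 6 := by
    rw [hi1, hlPz, hlK]
    linarith
  have hi2' : i2 ≤ κ * L - (b + a) + L / 10 ^ 6 := by
    rw [hi2, hlK]
    linarith
  have hi2'' : κ * L - (b + a) - L / 10 ^ 6 ≤ i2 := by
    rw [hi2, hlK]
    linarith
  have hMnn : ∀ M : ℕ, M ≤ M₁ + M₂ → M * Real.log H₀ ≤ L / 10 ^ 4 := by
    intro M hM
    refine le_trans ?_ hMH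
    exact mul_le_mul_of_nonneg_right (by exact_mod_cast hM) (Real.log_nonneg hLst.H1)
  have hτ6 : ∀ c w : ℝ, c ≤ w + τ * L → c ≤ w + L / 10 ^ 6 := fun c w hc => by linarith
  have hBlk' : Blk κ y₃ y₄ u x d (p / L) ((D1 + ν) / L) (a / L) (b / L) (v / L) Λ' T := by
    rw [hDν]; exact hBlk
  have hPMH : PMH h μ C (π lam) s (v + b + a) D1 ν i1 i2 (b + a + cs) 1 Tn :=
    H1 X hXX₁ s b0 b1 b2 qs hofs hlen σ H₀ hσ0 (min_le_left _ _) hLst κ y₃ y₄ u x p D1 ν a b v T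
      Λ' cs C i1 i2 Tn μ hNum.κ0 hNum.κ1 hsum.symm hBlk' hν0 ha0 hb0 haD hcs0 hC0 hCσ hsmall hNC
      hi1' hi2' (by rw [hDν]; exact hTn') (hτ6 _ _ hz0) (hτ6 _ _ hz1) (hτ6 _ _ hz2) (hτ6 _ _ hzw)
      (hMnn M₁ (by omega)) (by rw [hμ]; have : (0 : ℝ) ≤ M₂ := by positivity
                               have : (0 : ℝ) ≤ M₁ := by positivity
                               linarith)
  have key := HQ (Fw i) Sf (hWD.tf i) (hSf i hi) Pz (by linarith) (π lam) (hP lam) ps.length hrN s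
    hsz hsp st hst hstP (Real.exp v) K δ e hz y hy A hA (b + a + cs) i1 i2 1 Tn hs₁ zero_le_one
    (by rw [Real.log_exp, hsum, hleA]) (by rw [hleA]) (by rw [hleA2]; exact hPMH)
    (fun hy2 t ht hit => by
      have hν00 : ν = 0 := by
        rw [hν, hy2]
        have : (nm (1 : Eis) : ℝ) = 1 := by
          have : nm (1 : Eis) = 1 := by decide
          exact_mod_cast this
        rw [this, Real.log_one]
      have hD1D : D1 = D := by linarith
      have e1 : Real.exp v * (nm (e * A) : ℝ) ^ 3 * (nm st : ℝ) ^ 8 * Real.exp (t + 1 / 3) =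
          Real.exp (v + 3 * (b + a) + 8 * Real.log (nm st) + (t + 1 / 3)) := by
        have h1 : Real.exp (b + a) = nm (e * A) := by
          rw [← hleA, Real.exp_log]
          rw [nm_mul]; push_cast; positivity
        have h2 : Real.exp (Real.log (nm st)) = nm st := Real.exp_log (by linarith)
        have h3 : Real.exp (3 * (b + a)) = (nm (e * A) : ℝ) ^ 3 := by
          rw [← h1, ← Real.exp_nat_mul]; norm_num
        have h4 : Real.exp (8 * Real.log (nm st)) = (nm st : ℝ) ^ 8 := by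
          conv_rhs => rw [← h2, ← Real.exp_nat_mul]
          norm_num
        rw [Real.exp_add (v + 3 * (b + a) + 8 * Real.log (nm st)) (t + 1 / 3),
          Real.exp_add (v + 3 * (b + a)), Real.exp_add v, h3, h4]
      rw [e1, hsum, hleA, Real.log_exp]
      have hBlkD : Blk κ y₃ y₄ u x d (p / L) (D1 / L) (a / L) (b / L) (v / L) Λ' T := by
        rw [hD1D]; exact hBlk
      exact H2 X hXX₂ s b0 b1 b2 qs hofs hlen σ H₀ hσ0 (min_le_right _ _) hLst κ y₃ y₄ u x p D1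
        a b v T Λ' cs C i1 i2 Tn μ (Real.log K) _ t 1 δ y.1 hNum.κ0 hNum.κ1 hsum.symm hBlkD haD
        hcs0 hC1 hCσ hsmall hNC (by rw [hν00] at hi1'; linarith) hi2''
        (by rw [hlK]; linarith) (by rw [hD1D]; exact hTn') (hτ6 _ _ hzw) (hMnn M₂ (by omega))
        (by rw [hμ]; have : (0 : ℝ) ≤ M₂ := by positivity
            have : (0 : ℝ) ≤ M₁ := by positivity
            linarith) ht hit
        (by rw [hcs]; linarith) one_ne_zero hδp.ne_zero hy'.1.ne_zero (by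
          have h1 : (nm (1 : Eis) : ℝ) = 1 := by
            have : nm (1 : Eis) = 1 := by decide
            exact_mod_cast this
          rw [h1, one_mul, Real.rpow_def_of_pos hX0, ← hL,
            ← Real.exp_log (show (0 : ℝ) < nm δ * nm y.1 by positivity)]
          refine Real.exp_le_exp.2 ?_
          rw [Real.log_mul (by positivity) (by positivity)]
          have h2 : L * 1 ≤ L * (B + 1) := mul_le_mul_of_nonneg_left (by linarith) hL0.le
          linarith))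
  rw [hofs] at key
  refine key.trans ?_
  -- the final comparison
  have hV3 : 0 < Real.exp v ^ (-(1 / 3) : ℝ) := by positivity
  have hK3 : 0 < K ^ (2 / 3 : ℝ) := by positivity
  set G : ℝ := Rn * ρ * (K ^ (2 / 3 : ℝ) * Real.exp v ^ (-(1 / 3) : ℝ) / (nm δ * nm e)) with hG
  have hG0 : 0 < G := by positivity
  have hTnG : Real.exp Tn = Rn * ρ * (nm A / nm δ) * Real.exp (-(L / 1000)) := by
    have e1 : Tn = Real.log Rn + Real.log ρ + (a - D) + -(L / 1000) := by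
      rw [hTn, hG2]; ring
    rw [e1, Real.exp_add, Real.exp_add, Real.exp_add, Real.exp_log hRn, Real.exp_log hρ0,
      Real.exp_sub, ha, hD, Real.exp_log (by positivity), Real.exp_log (by positivity)]
  have hfirst : Real.exp v ^ (-(1 : ℝ) / 3) * K ^ ((2 : ℝ) / 3) / nm (e * A) *
      (1 * Real.exp Tn) = G * Real.exp (-(L / 1000)) := by
    have hnA : (nm (e * A) : ℝ) = nm e * nm A := by rw [nm_mul]; push_cast; ring
    rw [one_mul, hTnG, hnA, hG, show (-(1 : ℝ) / 3) = (-(1 / 3) : ℝ) by norm_num]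
    field_simp
  have hlG : -(20 * L) ≤ Real.log G := by
    have e1 : Real.log G = G2 + (2 / 3 * Real.log K - 1 / 3 * v - (D + b)) := by
      rw [hG, Real.log_mul (by positivity) (by positivity), Real.log_mul hRn.ne' hρ0.ne',
        Real.log_div (by positivity) (by positivity), Real.log_mul hK3.ne' hV3.ne',
        Real.log_rpow hK0, Real.log_rpow (Real.exp_pos _), Real.log_exp,
        Real.log_mul (by positivity) (by positivity)]
      ring
    have hsh := sh5_le (z := z) hl2L hAL hpL hD0 hb0 (by linarith) hv0 (by linarith) hL0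
    have hmx1 : 0 ≤ max 0 (5 / 4 * A3 - l) := le_max_left _ _
    rw [e1, hG2, hlρ, hlK]
    have hκL : 0 ≤ κ * L := by
      have := hNum.κ0
      positivity
    linarith
  have hsecond : (Pz ^ 10)⁻¹ ≤ G * Real.exp (-(L / 1000)) := by
    rw [← Real.exp_log (show (0 : ℝ) < (Pz ^ 10)⁻¹ by positivity),
      ← Real.exp_log hG0, ← Real.exp_add]
    refine Real.exp_le_exp.2 ?_
    rw [Real.log_inv, Real.log_pow, hlPz]
    push_cast
    linarith
  have hPz50 : Pz ^ (50 * (1 / 10 ^ 7 : ℝ)) = Real.exp (L / 50000) := by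
    rw [Real.rpow_def_of_pos hPz0, hlPz]
    congr 1
    ring
  rw [hfirst, hPz50]
  have hCS : 2 * (C * Sf ^ 2) ≤ Real.exp lS := by
    rw [hlS, Real.exp_log (by nlinarith [mul_nonneg hC0 (sq_nonneg Sf)])]
    linarith
  have hCS0 : 0 ≤ C * Sf ^ 2 := by positivity
  calc C * Sf ^ 2 * Real.exp (L / 50000) * (G * Real.exp (-(L / 1000)) + (Pz ^ 10)⁻¹) ≤
      C * Sf ^ 2 * Real.exp (L / 50000) * (2 * (G * Real.exp (-(L / 1000)))) := by
        refine mul_le_mul_of_nonneg_left (by linarith) (by positivity)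
    _ = 2 * (C * Sf ^ 2) * (Real.exp (L / 50000) * Real.exp (-(L / 1000))) * G := by ring
    _ ≤ Real.exp lS * (Real.exp (L / 50000) * Real.exp (-(L / 1000))) * G := by gcongr
    _ = Real.exp (lS + (L / 50000 + -(L / 1000))) * G := by rw [Real.exp_add, Real.exp_add]
    _ ≤ Real.exp 0 * G := by
        refine mul_le_mul_of_nonneg_right (Real.exp_le_exp.2 (by linarith)) hG0.le
    _ = G := by rw [Real.exp_zero, one_mul]

end Crest.Agent.R017.P1Rk440
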