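import Crest.Agent.R017.RXb_739

/-!
# Row 17, class E, the R-side of P1 (helper739), part c: all windows

* `Qs_X` : `∑ c, ∑ j₂, Qs` of a twisted difference of two lists, compensated kernel
-/

set_option autoImplicit false
set_option linter.unusedVariables false
set_option maxHeartbeats 4000000

noncomputable section

open Finset
open scoped ComplexConjugate

namespace Crest.Agent.R017.RXc739

open Crest.Agent.R012 Crest.Agent.R012.Eis Crest.Agent.R012.LS2 Crest.Agent.R012.Gauss880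
open Crest.Agent.R012.Div277 (dvs mem_dvs)
open Crest.Agent.R012.Mob705 (pdiv mem_pdiv)
open Crest.Agent.R017.FE47 (cx PU)
open Crest.Agent.R017.B770
open Crest.Agent.R017.Prov71
open Crest.Agent.R017.CM106 (CS FS)
open Crest.Agent.R017.XRG106
open Crest.Agent.R017.X6C180 (IX GF om')
open Crest.Agent.R017.Win813 (iA iA_nonneg WK)
open Crest.Agent.R017.QsO83 (bw)
open Crest.Agent.R017.I1146 (tw3)
open Crest.Agent.R017.RC106 (k9)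
open Crest.Agent.R017.X6545 (TF Bd)
open Crest.Agent.R017.X6W180 (TF1 tf1_tf)
open Crest.Agent.R017.E2440 (C4 mem_C4 Qs prs mem_prs KDd KDd_cmp Fh isC_sg)
open Crest.Agent.R017.FlC502 (thd)
open Crest.Agent.R017.PrD502 (PV Mu)
open Crest.Agent.R017.PrE176 (PJm)
open Crest.Agent.R017.MTX241 (nLS)
open Crest.Agent.R017.P1Ra440
open Crest.Agent.R017.P1Re440 (SzP)
open Crest.Agent.R017.RXa739
open Crest.Agent.R017.RXb739

lemma GF_bdh {F : ℝ → ℂ} (hF : TF1 F) {h : ℝ} (hh : 0 ≤ h) :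
    ∃ b : ℝ, ∀ x, GF (Fh F h) x ≠ 0 → x ≤ b := by
  refine ⟨Real.exp (3 / 2), fun x hx => ?_⟩
  unfold X6C180.GF at hx
  by_cases h0 : 0 < x
  · rw [if_pos h0] at hx
    rw [← Real.log_le_iff_le_exp h0]
    by_contra hc
    push Not at hc
    apply hx
    unfold E2440.Fh
    have h1 : F (Real.log x) = 0 := hF.supp _ (by
      rw [abs_of_pos (by linarith)]; exact hc)
    have h2 : F (Real.log x + h) = 0 := hF.supp _ (by
      rw [abs_of_pos (by linarith)]; linarith)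
    rw [h1, h2]
    simp
  · exact (not_lt.1 h0).trans (Real.exp_pos _).le

/-- the kernels of the four `c` -/
lemma kddX (J M : ℕ) : ∃ (k : ℕ) (C : ℝ), 0 ≤ C ∧
    ∀ (F : ℝ → ℂ) (Sf : ℝ), TF1 F → Bd F k Sf → ∀ h : ℝ, 0 ≤ h → ∀ σ ∈ C4,
      KDd σ J M (GF (Fh F h)) (C * Sf) (Real.exp h)
        (fun y => min (y ^ (-(1 / 3) : ℝ)) (min 1 ((y * Real.exp h) ^ 1))) (thd (Real.exp h))
        (fun i y => om' σ F i y - om' σ F i (y * Real.exp h)) := by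
  have key : ∀ σ : Eis, ∃ (k : ℕ) (C : ℝ), 0 ≤ C ∧ (σ ∈ C4 →
      ∀ (F : ℝ → ℂ) (Sf : ℝ), TF1 F → Bd F k Sf → ∀ h : ℝ, 0 ≤ h →
      KDd σ J M (GF (Fh F h)) (C * Sf) (Real.exp h)
        (fun y => min (y ^ (-(1 / 3) : ℝ)) (min 1 ((y * Real.exp h) ^ 1))) (thd (Real.exp h))
        (fun i y => om' σ F i y - om' σ F i (y * Real.exp h))) := by
    intro σ
    by_cases h : σ ∈ C4
    · obtain ⟨k, C, hC, h1⟩ := KDd_cmp (isC_sg (mem_C4.mp h)) J M 1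
      exact ⟨k, C, hC, fun _ => h1⟩
    · exact ⟨0, 0, le_rfl, fun h' => absurd h' h⟩
  choose k C hC H using key
  refine ⟨∑ σ ∈ C4, k σ, ∑ σ ∈ C4, C σ, Finset.sum_nonneg fun σ _ => hC σ, ?_⟩
  intro F Sf hF hB h hh σ hσ
  have hSf : 0 ≤ Sf := (norm_nonneg _).trans (hB 0 (Nat.zero_le _) 0)
  have hk : k σ ≤ ∑ σ ∈ C4, k σ := Finset.single_le_sum (fun _ _ => Nat.zero_le _) hσ
  have hCs : C σ ≤ ∑ σ ∈ C4, C σ := Finset.single_le_sum (fun σ _ => hC σ) hσ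
  exact P1Rd440.KDd.mono' (H σ hσ F Sf hF (fun i hi y => hB i (hi.trans hk) y) h hh)
    (mul_le_mul_of_nonneg_right hCs hSf)

lemma rp_win {X X₂ L s : ℝ} (hX : 0 < X) (hL : 1 ≤ L) (hs : 0 ≤ s) (hs1 : s ≤ 1)
    (h : X ≤ L * X₂) : X₂ ^ (-s) ≤ L * X ^ (-s) := by
  have hL0 : 0 < L := by linarith
  have h1 : X / L ≤ X₂ := by
    rw [div_le_iff₀ hL0]; linarith [mul_comm L X₂]
  calc X₂ ^ (-s) ≤ (X / L) ^ (-s) :=
        Real.rpow_le_rpow_of_nonpos (by positivity) h1 (by linarith)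
    _ = X ^ (-s) * L ^ s := by
        rw [Real.div_rpow hX.le hL0.le, Real.rpow_neg hL0.le, div_inv_eq_mul]
    _ ≤ X ^ (-s) * L := by
        refine mul_le_mul_of_nonneg_left ?_ (by positivity)
        calc L ^ s ≤ L ^ (1 : ℝ) := Real.rpow_le_rpow_of_exponent_le hL hs1
          _ = L := Real.rpow_one L
    _ = _ := mul_comm _ _

/-- the principal number in a window -/
lemma PJm_win {K V X X₂ L a nM nν H Mg' T : ℝ} (hK : 0 ≤ K) (hV : 0 ≤ V) (hX : 0 < X)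
    (hL : 1 ≤ L) (h : X ≤ L * X₂) (ha : 0 ≤ a) (hnM : 0 ≤ nM) (hnν : 0 ≤ nν) (hH : 0 ≤ H)
    (hM : 0 ≤ Mg') (hT : 0 ≤ T) :
    PJm K V X₂ a nM nν H Mg' T ≤ L * PJm K V X a nM nν H Mg' T := by
  have h1 := rp_win hX hL (s := 1 / 3) (by norm_num) (by norm_num) h
  have h2 := rp_win hX hL (s := 2 / 3) (by norm_num) (by norm_num) h
  have hL0 : 0 ≤ L := by linarith
  unfold PrE176.PJm
  have a1 : K ^ ((2 : ℝ) / 3) * V ^ ((1 : ℝ) / 6) / a ≤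
      L * (K ^ ((2 : ℝ) / 3) * V ^ ((1 : ℝ) / 6) / a) := le_mul_of_one_le_left (by positivity) hL
  have a2 : K * X₂ ^ (-(1 / 3) : ℝ) * nν ^ (-(2 / 3) : ℝ) / a ≤
      L * (K * X ^ (-(1 / 3) : ℝ) * nν ^ (-(2 / 3) : ℝ) / a) := by
    calc K * X₂ ^ (-(1 / 3) : ℝ) * nν ^ (-(2 / 3) : ℝ) / a ≤
          K * (L * X ^ (-(1 / 3) : ℝ)) * nν ^ (-(2 / 3) : ℝ) / a := by gcongr
      _ = _ := by ring
  have a3 : K ^ ((4 : ℝ) / 3) * X₂ ^ (-(2 / 3) : ℝ) * nM ^ ((1 : ℝ) / 3) * nν⁻¹ / a ≤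
      L * (K ^ ((4 : ℝ) / 3) * X ^ (-(2 / 3) : ℝ) * nM ^ ((1 : ℝ) / 3) * nν⁻¹ / a) := by
    calc K ^ ((4 : ℝ) / 3) * X₂ ^ (-(2 / 3) : ℝ) * nM ^ ((1 : ℝ) / 3) * nν⁻¹ / a ≤
          K ^ ((4 : ℝ) / 3) * (L * X ^ (-(2 / 3) : ℝ)) * nM ^ ((1 : ℝ) / 3) * nν⁻¹ / a := by gcongr
      _ = _ := by ring
  have a4 : (V * K * H) ^ ((1 : ℝ) / 3) * Mg' ^ ((1 : ℝ) / 3) ≤
      L * ((V * K * H) ^ ((1 : ℝ) / 3) * Mg' ^ ((1 : ℝ) / 3)) :=
    le_mul_of_one_le_left (by positivity) hL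
  have a5 : T * (V ^ ((2 : ℝ) / 3) * a * (nM * nν) ^ ((1 : ℝ) / 3) * H ^ ((2 : ℝ) / 3)) ≤
      L * (T * (V ^ ((2 : ℝ) / 3) * a * (nM * nν) ^ ((1 : ℝ) / 3) * H ^ ((2 : ℝ) / 3))) :=
    le_mul_of_one_le_left (by positivity) hL
  have a6 := mul_le_mul_of_nonneg_left (add_le_add (add_le_add a1 a2) a3) hM
  refine (add_le_add (add_le_add a6 a4) a5).trans (le_of_eq ?_)
  ring

open Classical in
/-- a factor of modulus `≤ 1` -/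
theorem Qs_oc {F : ℝ → ℂ} (hF : ∃ b : ℝ, ∀ x, F x ≠ 0 → x ≤ b) {K : ℝ} (hK : 0 < K)
    {δ e : Eis} (he : e ≠ 0) {y : Eis × Eis} (hy : IsPrim y.1) {A : Eis} (hA : A ≠ 0) (V : ℝ)
    {α : Eis → ℂ} (hα : FS α) {η : ℂ} (hη : ‖η‖ ≤ 1) :
    ∑ c ∈ C4, ∑ j₂ ∈ S (Real.sqrt V), Qs (η • α) δ e V K F y A c j₂ ≤
      ∑ c ∈ C4, ∑ j₂ ∈ S (Real.sqrt V), Qs α δ e V K F y A c j₂ := by
  have h1 := QF_Qs0 hF hK (δ := δ) he hy hA V Unit {()} (fun _ => η) (fun _ => α)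
    (fun _ _ => hη) (fun _ _ => hα)
  simp only [Finset.sum_singleton, Finset.card_singleton, Nat.cast_one, one_mul] at h1
  exact h1

open Classical in
/-- **a twisted difference**, length `r` -/
theorem Qs_Xr {h : ℝ → ℝ} {c₀ : ℝ} (hpu : PU h c₀) {R : ℝ} (hR0 : 0 ≤ R)
    (hR : ∀ u, cx h u ≠ 0 → |u| ≤ R) {μ : ℝ} (hμ : 0 ≤ μ) (r : ℕ) {ε : ℝ} (hε : 0 < ε)
    (hε2 : ε ≤ 1) {Rw : ℝ} (hRw : 0 ≤ Rw) (a₀ M' : ℕ) :
    ∃ (k b : ℕ) (Cz C : ℝ), 1 ≤ Cz ∧ 1 ≤ C ∧ ∀ (F : ℝ → ℂ) (Sf : ℝ), TF1 F → Bd F k Sf →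
      ∀ hh : ℝ, 0 ≤ hh → ∀ Pz : ℝ, C ≤ Pz → Real.exp hh ≤ Pz → ∀ (P : DPar) (s s₂ : Fin r → Pq)
      (ζ : ℂ) (x₀ : Eis → ℂ) (Ax Axp d0 Zp : ℝ),
      XD h P s s₂ ζ x₀ Pz Ax Axp d0 Zp (Real.exp (∑ k, (s k).z)) Rw a₀ →
      Real.exp (∑ k, (s k).z + C) ≤ Pz → ∀ (st : Eis), st ≠ 0 → (nm st : ℝ) ^ 2 ≤ Pz →
      Cz * Pz ^ b * (nm st : ℝ) ^ 4 ≤ Zp →
      ∀ (V K : ℝ) (δ e : Eis), SzP Pz V K δ e → ∀ y ∈ prs δ, ∀ A ∈ pdiv y.1,
      ∀ (s₁ i1 i2 Bd Tn : ℝ), Real.log (nm (e * A * st ^ 4)) + k9 ≤ s₁ → 0 ≤ Bd →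
      ε * Real.log Pz + hh + 2 * Real.log (nm y.2) +
        (∑ k, (s k).z - Real.log (nm y.1)) + Real.log V + 2 * Real.log (nm (e * A)) -
        Real.log K ≤ i1 →
      Real.log 10 + Real.log K - Real.log (nm (e * A)) + 1 ≤ i2 →
      PMHQ h μ C P s (Real.log (V * nm (e * A))) (Real.log (nm y.1)) (Real.log (nm y.2)) i1 i2 s₁
        Bd Tn →
      PMHQ h μ C P s₂ (Real.log (V * nm (e * A))) (Real.log (nm y.1)) (Real.log (nm y.2)) i1 i2 s₁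
        Bd Tn →
      ∑ c ∈ C4, ∑ j₂ ∈ S (Real.sqrt V), Qs (tw3 st x₀) δ e V K (GF (Fh F hh)) y A c j₂ ≤
      C * Sf ^ 2 * Pz ^ (50 * ε) *
        (V ^ (-(1 : ℝ) / 3) * K ^ ((2 : ℝ) / 3) / nm (e * A) * (Bd * Real.exp Tn) +
          (Axp / nm y.1) ^ 2 * PJm K V (Real.exp (∑ k, (s k).z) / nm y.1) (nm (e * A))
            ((nm st : ℝ) ^ 2) (nm y.2) (Real.exp hh) (Mu d0 y.1) 1 +
          Ax ^ 2 * PN (y.2 = 1) V K (Real.exp (∑ k, (s k).z))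
            (max (1 / 2) (Real.exp ((i2 - i1) / 3))) (nm (e * A)) δ +
          (Pz ^ M')⁻¹) := by
  obtain ⟨A', hA'd⟩ : ∃ A' : ℕ, A' = max (⌈2 * (r * μ)⌉₊ + 2) 12 := ⟨_, rfl⟩
  have hA'1 : 2 * (r * μ) + 2 ≤ (A' : ℝ) := by
    have h1 := Nat.le_ceil (2 * ((r : ℝ) * μ))
    have h2 : ((⌈2 * ((r : ℝ) * μ)⌉₊ + 2 : ℕ) : ℝ) ≤ A' := by
      rw [hA'd]
      exact_mod_cast le_max_left _ _
    push_cast at h2
    linarith
  have hA'12 : 12 ≤ A' := by rw [hA'd]; exact le_max_right _ _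
  obtain ⟨CW, hCW, HW⟩ := Qs_win Rw hRw A'
  obtain ⟨Mk, b, Cz, C1, hCz, hC1, H⟩ := Qs_Xw hpu hR0 hR hμ r hε hε2 hRw a₀ M' A' hA'1 hA'12
  obtain ⟨k, CK, hCK, HK⟩ := kddX A' Mk
  have hiA := iA_nonneg A'
  set L : ℝ := Real.exp (Rw + 1) with hL
  have hL1 : 1 ≤ L := Real.one_le_exp (by linarith)
  set D : ℝ := 4 * CW ^ 2 * (C1 * CK ^ 2 * (1 + CW ^ 2) * L) with hD4
  have hD40 : 0 ≤ D := by positivity
  set C : ℝ := C1 + CW * iA A' + (Rw + 2) + D + Real.exp (2 * (Rw + 4) / ε) with hC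
  have hCWA : 0 ≤ CW * iA A' := by positivity
  have hexp := Real.exp_pos (2 * (Rw + 4) / ε)
  refine ⟨k, b, Cz, C, hCz, by rw [hC]; linarith, ?_⟩
  intro F Sf hF hBF hh hh0 Pz hCP hHP P s s₂ ζ x₀ Ax Axp d0 Zp hD hzP st hst hstP hZp V K δ e hz
    y hy A hA s₁ i1 i2 Bd Tn hs₁ hBd hi1 hi2 hPM hPM₂
  have hP1 := hz.P1
  have hP0 : 0 < Pz := by linarith
  set n := ∑ k, (s k).z with hn
  have hn0 : 0 ≤ n := Finset.sum_nonneg fun i _ => hD.z i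
  have hCPW : CW * iA A' ≤ Pz := by rw [hC] at hCP; linarith
  have hlogP : 2 * (Rw + 4) / ε ≤ Real.log Pz := by
    rw [Real.le_log_iff_exp_le hP0]
    rw [hC] at hCP
    linarith
  have hlogP2 : Rw + 4 ≤ ε / 2 * Real.log Pz := by
    rw [div_le_iff₀ hε] at hlogP
    linarith
  have hCn : n + (Rw + 2) ≤ n + C := by rw [hC]; linarith
  have hYP : Real.exp (n + (Rw + 2)) ≤ Pz := (Real.exp_le_exp.2 hCn).trans hzP
  have hFS0 : FS x₀ := hD.fs hR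
  have hSf : 0 ≤ Sf := (norm_nonneg _).trans (hBF 0 (Nat.zero_le _) 0)
  have hV0 : 0 < V := by linarith [hz.V1]
  have hK0 := hz.K0
  have hH1 : 1 ≤ Real.exp hh := Real.one_le_exp hh0
  have hy' := (mem_prs hz.δp).mp hy
  have hA2 := (mem_pdiv hy'.1.ne_zero).mp hA
  have hy1n : (1 : ℝ) ≤ nm y.1 := GKC739.one_le_nmR hy'.1.ne_zero
  have hy2n : (1 : ℝ) ≤ nm y.2 := GKC739.one_le_nmR hy'.2.1.ne_zero
  have hMu0 : 0 ≤ Mu d0 y.1 := by unfold PrD502.Mu; positivity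
  have hst0 : (0 : ℝ) ≤ (nm st : ℝ) ^ 2 := by positivity
  set W₀ : ℝ := V ^ (-(1 : ℝ) / 3) * K ^ ((2 : ℝ) / 3) / nm (e * A) * (Bd * Real.exp Tn) with hW₀
  have hW₀0 : 0 ≤ W₀ := by positivity
  set W₁ : ℝ := (Axp / nm y.1) ^ 2 * PJm K V (Real.exp n / nm y.1) (nm (e * A))
            ((nm st : ℝ) ^ 2) (nm y.2) (Real.exp hh) (Mu d0 y.1) 1 with hW₁
  have hW₁0 : 0 ≤ W₁ := mul_nonneg (sq_nonneg _) (RCX385.PJm_nonneg hK0.le hV0.le (by positivity)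
      (Nat.cast_nonneg _) hst0 (Nat.cast_nonneg _) (by positivity) hMu0 zero_le_one)
  set W₂ : ℝ := Ax ^ 2 * PN (y.2 = 1) V K (Real.exp n)
            (max (1 / 2) (Real.exp ((i2 - i1) / 3))) (nm (e * A)) δ with hW₂
  have hB00 : (0 : ℝ) ≤ max (1 / 2) (Real.exp ((i2 - i1) / 3)) :=
    le_trans (by norm_num) (le_max_left _ _)
  have hW₂0 : 0 ≤ W₂ := mul_nonneg (sq_nonneg _)
    (PN_nonneg _ hV0.le hK0.le (Real.exp_pos _).le hB00 (Nat.cast_nonneg _) δ)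
  have hQ0 : 0 ≤ (Pz ^ M')⁻¹ := by positivity
  have hC10 : 0 ≤ C1 := by linarith
  have hlog4 : Real.log 4 ≤ 2 := by
    have h1 : Real.log 4 ≤ 4 - 1 := Real.log_le_sub_one_of_pos (by norm_num)
    have h2 : Real.log 4 = 2 * Real.log 2 := by
      rw [show (4 : ℝ) = 2 ^ 2 by norm_num, Real.log_pow]; norm_num
    have h3 : Real.log 2 ≤ 2 - 1 := Real.log_le_sub_one_of_pos (by norm_num)
    linarith
  have hC1C : C1 ≤ C := by rw [hC]; linarith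
  have key := HW (F := GF (Fh F hh)) (GF_bdh hF hh0) hK0 (δ := δ) hz.ep.ne_zero (y := y) hy'.1
    hA2.1.ne_zero V n (FS_tw3 st hFS0)
    (fun m hm => by
      have h1 := hD.win m (right_ne_zero_of_mul hm)
      rw [Real.log_exp] at h1
      exact h1)
    (C1 * (CK * Sf) ^ 2 * (1 + CW ^ 2) * Pz ^ (50 * ε) * (L * (W₀ + W₁ + W₂ + (Pz ^ M')⁻¹)))
    (by positivity)
    (fun φ c₁ hφ hc₁ hφs => by
      have hc := abs_le.1 hc₁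
      have k1 := H (GF (Fh F hh)) (CK * Sf) (Real.exp hh) (fun σ i y => om' σ F i y -
        om' σ F i (y * Real.exp hh)) (by positivity) (GF_bdh hF hh0)
        (fun σ hσ => HK F Sf hF hBF hh hh0 σ hσ) hH1 Pz hHP CW φ (by linarith) hφ hCPW c₁ hφs
        ((Real.exp_le_exp.2 (by linarith)).trans hYP) P s s₂ ζ x₀ Ax Axp d0 Zp (Real.exp n) hD st
        hst hstP hZp V K δ e hz y hy A hA s₁ i1 i2 Bd Tn hs₁ hBd
        (by rw [Real.log_exp]; linarith) hi2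
        (PMHQ.mono hPM hC1C) (PMHQ.mono hPM₂ hC1C)
      refine k1.trans (mul_le_mul_of_nonneg_left ?_ (by positivity))
      have p1 : PJm K V (Real.exp (c₁ + 1 / 4) / nm y.1) (nm (e * A)) ((nm st : ℝ) ^ 2) (nm y.2)
          (Real.exp hh) (Mu d0 y.1) 1 ≤ L * PJm K V (Real.exp n / nm y.1) (nm (e * A))
            ((nm st : ℝ) ^ 2) (nm y.2) (Real.exp hh) (Mu d0 y.1) 1 :=
        PJm_win hK0.le hV0.le (by positivity) hL1 (by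
          have e1 : Real.exp n ≤ L * Real.exp (c₁ + 1 / 4) := by
            rw [hL, ← Real.exp_add]
            exact Real.exp_le_exp.2 (by linarith)
          have e2 : Real.exp n / nm y.1 ≤ (L * Real.exp (c₁ + 1 / 4)) / nm y.1 := by gcongr
          refine e2.trans (le_of_eq ?_)
          ring) (Nat.cast_nonneg _) hst0 (Nat.cast_nonneg _) (by positivity) hMu0
          zero_le_one
      have p2 : (Axp / nm y.1) ^ 2 * PJm K V (Real.exp (c₁ + 1 / 4) / nm y.1) (nm (e * A))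
          ((nm st : ℝ) ^ 2) (nm y.2) (Real.exp hh) (Mu d0 y.1) 1 ≤ L * W₁ := by
        refine (mul_le_mul_of_nonneg_left p1 (sq_nonneg _)).trans (le_of_eq ?_)
        rw [hW₁]; ring
      have p3 : W₀ ≤ L * W₀ := le_mul_of_one_le_left hW₀0 hL1
      have p4 : W₂ ≤ L * W₂ := le_mul_of_one_le_left hW₂0 hL1
      have p5 : (Pz ^ M')⁻¹ ≤ L * (Pz ^ M')⁻¹ := le_mul_of_one_le_left hQ0 hL1
      have p6 := add_le_add (add_le_add (add_le_add p3 p2) p4) p5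
      refine p6.trans (le_of_eq ?_)
      ring)
  refine key.trans ?_
  calc 4 * CW ^ 2 * (C1 * (CK * Sf) ^ 2 * (1 + CW ^ 2) * Pz ^ (50 * ε) *
      (L * (W₀ + W₁ + W₂ + (Pz ^ M')⁻¹))) =
      D * Sf ^ 2 * Pz ^ (50 * ε) * (W₀ + W₁ + W₂ + (Pz ^ M')⁻¹) := by rw [hD4]; ring
    _ ≤ C * Sf ^ 2 * Pz ^ (50 * ε) * (W₀ + W₁ + W₂ + (Pz ^ M')⁻¹) := by
        have : D ≤ C := by rw [hC]; linarith
        gcongr

open Classical in
/-- **a twisted difference**, all lengths -/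
theorem Qs_X {h : ℝ → ℝ} {c₀ : ℝ} (hpu : PU h c₀) {R : ℝ} (hR0 : 0 ≤ R)
    (hR : ∀ u, cx h u ≠ 0 → |u| ≤ R) {μ : ℝ} (hμ : 0 ≤ μ) (N : ℕ) {ε : ℝ} (hε : 0 < ε)
    (hε2 : ε ≤ 1) {Rw : ℝ} (hRw : 0 ≤ Rw) (a₀ M' : ℕ) :
    ∃ (k b : ℕ) (Cz C : ℝ), 1 ≤ Cz ∧ 1 ≤ C ∧ ∀ (F : ℝ → ℂ) (Sf : ℝ), TF1 F → Bd F k Sf →
      ∀ hh : ℝ, 0 ≤ hh → ∀ Pz : ℝ, C ≤ Pz → Real.exp hh ≤ Pz → ∀ (P : DPar) (r : ℕ), r ≤ N →
      ∀ (s s₂ : Fin r → Pq) (ζ : ℂ) (x₀ : Eis → ℂ) (Ax Axp d0 Zp : ℝ),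
      XD h P s s₂ ζ x₀ Pz Ax Axp d0 Zp (Real.exp (∑ k, (s k).z)) Rw a₀ →
      Real.exp (∑ k, (s k).z + C) ≤ Pz → ∀ (st : Eis), st ≠ 0 → (nm st : ℝ) ^ 2 ≤ Pz →
      Cz * Pz ^ b * (nm st : ℝ) ^ 4 ≤ Zp →
      ∀ (V K : ℝ) (δ e : Eis), SzP Pz V K δ e → ∀ y ∈ prs δ, ∀ A ∈ pdiv y.1,
      ∀ (s₁ i1 i2 Bd Tn : ℝ), Real.log (nm (e * A * st ^ 4)) + k9 ≤ s₁ → 0 ≤ Bd →
      ε * Real.log Pz + hh + 2 * Real.log (nm y.2) +
        (∑ k, (s k).z - Real.log (nm y.1)) + Real.log V + 2 * Real.log (nm (e * A)) -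
        Real.log K ≤ i1 →
      Real.log 10 + Real.log K - Real.log (nm (e * A)) + 1 ≤ i2 →
      PMHQ h μ C P s (Real.log (V * nm (e * A))) (Real.log (nm y.1)) (Real.log (nm y.2)) i1 i2 s₁
        Bd Tn →
      PMHQ h μ C P s₂ (Real.log (V * nm (e * A))) (Real.log (nm y.1)) (Real.log (nm y.2)) i1 i2 s₁
        Bd Tn →
      ∑ c ∈ C4, ∑ j₂ ∈ S (Real.sqrt V), Qs (tw3 st x₀) δ e V K (GF (Fh F hh)) y A c j₂ ≤
      C * Sf ^ 2 * Pz ^ (50 * ε) *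
        (V ^ (-(1 : ℝ) / 3) * K ^ ((2 : ℝ) / 3) / nm (e * A) * (Bd * Real.exp Tn) +
          (Axp / nm y.1) ^ 2 * PJm K V (Real.exp (∑ k, (s k).z) / nm y.1) (nm (e * A))
            ((nm st : ℝ) ^ 2) (nm y.2) (Real.exp hh) (Mu d0 y.1) 1 +
          Ax ^ 2 * PN (y.2 = 1) V K (Real.exp (∑ k, (s k).z))
            (max (1 / 2) (Real.exp ((i2 - i1) / 3))) (nm (e * A)) δ +
          (Pz ^ M')⁻¹) := by
  choose k b Cz C hCz hC H using fun r : ℕ => Qs_Xr hpu hR0 hR hμ r hε hε2 hRw a₀ M'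
  have hC0 : ∀ r ∈ Finset.range (N + 1), 0 ≤ C r := fun r _ => by linarith [hC r]
  have hCz0 : ∀ r ∈ Finset.range (N + 1), 0 ≤ Cz r := fun r _ => by linarith [hCz r]
  refine ⟨∑ r ∈ Finset.range (N + 1), k r, ∑ r ∈ Finset.range (N + 1), b r,
    ∑ r ∈ Finset.range (N + 1), Cz r, ∑ r ∈ Finset.range (N + 1), C r, ?_, ?_, ?_⟩
  · have := Finset.single_le_sum hCz0 (Finset.mem_range.2 (Nat.succ_pos N))
    linarith [hCz 0]
  · have := Finset.single_le_sum hC0 (Finset.mem_range.2 (Nat.succ_pos N))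
    linarith [hC 0]
  intro F Sf hF hBF hh hh0 Pz hCP hHP P r hr s s₂ ζ x₀ Ax Axp d0 Zp hD hzP st hst hstP hZp V K δ e
    hz y hy A hA s₁ i1 i2 Bd Tn hs₁ hBd hi1 hi2 hPM hPM₂
  have hrm : r ∈ Finset.range (N + 1) := Finset.mem_range.2 (by omega)
  have hk : k r ≤ ∑ r ∈ Finset.range (N + 1), k r :=
    Finset.single_le_sum (fun _ _ => Nat.zero_le _) hrm
  have hb : b r ≤ ∑ r ∈ Finset.range (N + 1), b r :=
    Finset.single_le_sum (fun _ _ => Nat.zero_le _) hrm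
  have hCr : C r ≤ ∑ r ∈ Finset.range (N + 1), C r := Finset.single_le_sum hC0 hrm
  have hCzr : Cz r ≤ ∑ r ∈ Finset.range (N + 1), Cz r := Finset.single_le_sum hCz0 hrm
  have hV0 : 0 < V := by linarith [hz.V1]
  have hK0 := hz.K0
  have hP1 := hz.P1
  have hP0 : 0 < Pz := by linarith
  have hst0 : (0 : ℝ) ≤ (nm st : ℝ) ^ 2 := by positivity
  have hMu0 : 0 ≤ Mu d0 y.1 := by unfold PrD502.Mu; positivity
  have hB00 : (0 : ℝ) ≤ max (1 / 2) (Real.exp ((i2 - i1) / 3)) :=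
    le_trans (by norm_num) (le_max_left _ _)
  have hW₁0 : 0 ≤ (Axp / nm y.1) ^ 2 * PJm K V (Real.exp (∑ k, (s k).z) / nm y.1) (nm (e * A))
            ((nm st : ℝ) ^ 2) (nm y.2) (Real.exp hh) (Mu d0 y.1) 1 :=
    mul_nonneg (sq_nonneg _) (RCX385.PJm_nonneg hK0.le hV0.le (by positivity)
      (Nat.cast_nonneg _) hst0 (Nat.cast_nonneg _) (by positivity) hMu0 zero_le_one)
  have hW₂0 : 0 ≤ Ax ^ 2 * PN (y.2 = 1) V K (Real.exp (∑ k, (s k).z))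
            (max (1 / 2) (Real.exp ((i2 - i1) / 3))) (nm (e * A)) δ := mul_nonneg (sq_nonneg _)
    (PN_nonneg _ hV0.le hK0.le (Real.exp_pos _).le hB00 (Nat.cast_nonneg _) δ)
  have hZp' : Cz r * Pz ^ b r * (nm st : ℝ) ^ 4 ≤ Zp := by
    refine le_trans ?_ hZp
    have h1 : Pz ^ b r ≤ Pz ^ ∑ r ∈ Finset.range (N + 1), b r := pow_le_pow_right₀ hP1 hb
    exact mul_le_mul_of_nonneg_right (mul_le_mul hCzr h1 (by positivity)
      (Finset.sum_nonneg hCz0)) (by positivity)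
  refine (H r F Sf hF (fun i hi y => hBF i (hi.trans hk) y) hh hh0 Pz (hCr.trans hCP) hHP P s s₂ ζ
    x₀ Ax Axp d0 Zp hD ((Real.exp_le_exp.2 (by linarith)).trans hzP) st hst hstP hZp' V K δ e hz y
    hy A hA s₁ i1 i2 Bd Tn hs₁ hBd hi1 hi2 (PMHQ.mono hPM hCr) (PMHQ.mono hPM₂ hCr)).trans ?_
  refine mul_le_mul_of_nonneg_right ?_ (by positivity)
  gcongr

end Crest.Agent.R017.RXc739
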