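import Crest.Agent.R017.I1l_146
import Crest.Agent.R017.I1K_764
import Crest.Agent.R017.ExT1_764
import Crest.Agent.R017.PB_791

/-!
# Row 17, T.4 (helper764): `(I1)` for differences of natural lists

* `I1LE` : `(I1)` for a sequence dominated by `x = a - ζ b`, `a`, `b` natural lists of the same
  total length: Gauss moments of `a`, `b` against the kernel `Dk`, pointwise bound of the bias,
  abstract cross error
* `I1LEx` : the same with the bias bound of helper791 (`xr`);  `I1LTE` : twisted by an `S`-unit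
-/

set_option autoImplicit false
set_option linter.unusedSectionVars false

noncomputable section

open Finset MeasureTheory
open scoped ComplexConjugate Classical

namespace Crest.Agent.R017.I1K764

open Crest.Agent.R012 Crest.Agent.R012.Eis Crest.Agent.R012.MC Crest.Agent.R012.Gauss880
open Crest.Agent.R012.LS2 (S mem_S)
open Crest.Agent.R012.Mob705 (PE)
open Crest.Agent.R012.Weight600 (pw)
open Crest.Agent.R017.CM106 (CS FS TG)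
open Crest.Agent.R017.C70
open Crest.Agent.R017.HP842 (Pc pc sqc alL KS Ker)
open Crest.Agent.R017.B770
open Crest.Agent.R017.FE47 (PU cx)
open Crest.Agent.R017.Prov71
open Crest.Agent.R017.Leg381 (Pf alF SF LF natl alF_natl cstF ChG sub_list)
open Crest.Agent.R017.RG64 (shT LF_shT FS_alF JB_list shT_length)
open Crest.Agent.R017.E1551
open Crest.Agent.R017.E2440 (StE)
open Crest.Agent.R017.LB48 (CrP GrP)
open Crest.Agent.R017.Rough381 (VF)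
open Crest.Agent.R017.AL813 (al_supp al_mem_S sum_alF_le cx_bdd norm_alF_le norm_sqc_le)
open Crest.Agent.R017.PX764 (Dk)
open Crest.Agent.R017.LegK545 (VK SFK JBK)
open Crest.Agent.R017.RX241 (Nb Nb_nonneg)
open Crest.Agent.R017.ExT764 (PBh ext_num)
open Crest.Agent.R017.I1146

variable {Kn : Eis → Eis → ℂ}

lemma FlatOK.mono {h : ℝ → ℝ} {P : DPar} {q : Eis} {ps : List Pq} {r r' M κ T F : ℝ}
    (hr : r ≤ r') (H : FlatOK Kn h P q ps r' M κ T F) : FlatOK Kn h P q ps r M κ T F :=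
  fun l ps' hl hc h1 h2 => H l ps' hl
    (hc.imp fun _ _ => ChN.mono hr) (h1.trans hr) (by linarith)

lemma FlatLK.mono {h : ℝ → ℝ} {P : DPar} {q : Eis} {ps : List Pq} {G r r' M κ T F : ℝ}
    (hr : r ≤ r') (H : FlatLK Kn h P q ps G r' M κ T F) : FlatLK Kn h P q ps G r M κ T F :=
  fun g hg hG b l ps' hb hl hc h1 h2 => H g hg hG b l ps' hb hl
    (hc.imp fun _ _ => ChN.mono hr) (h1.trans hr) (by linarith)

lemma TailK.mono {h : ℝ → ℝ} {P : DPar} {q : Eis} {ps : List Pq} {G r r' M κ T T₀ E F : ℝ}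
    (hr : r ≤ r') (H : TailK Kn h P q ps G r' M κ T T₀ E F) :
    TailK Kn h P q ps G r M κ T T₀ E F :=
  fun g hg hG b l ps' hb hl hc h1 h2 h3 => H g hg hG b l ps' hb hl
    (hc.imp fun _ _ => ChN.mono hr) (h1.trans hr) (by linarith) (h3.imp id fun h => by linarith)

/-! ### the diagonal -/

lemma Wt0_nonneg {w : ℝ → ℝ} (hw0 : ∀ x, 0 ≤ w x) : 0 ≤ Wt w 0 := by
  unfold MC.Wt
  have h1 : (∫ z : ℂ, (w (‖z‖ ^ 2) : ℂ) * eC (z * ((0 : ℝ) : ℂ))) =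
      ((∫ z : ℂ, w (‖z‖ ^ 2) : ℝ) : ℂ) := by
    have h2 : (∫ z : ℂ, ((w (‖z‖ ^ 2) : ℝ) : ℂ)) = ((∫ z : ℂ, w (‖z‖ ^ 2) : ℝ) : ℂ) :=
      integral_ofReal
    rw [← h2]
    refine integral_congr_ae (Filter.Eventually.of_forall fun z => ?_)
    show (w (‖z‖ ^ 2) : ℂ) * eC (z * ((0 : ℝ) : ℂ)) = _
    rw [Complex.ofReal_zero, mul_zero]
    have : eC 0 = 1 := by simp [eC]
    rw [this, mul_one]
  rw [h1, Complex.ofReal_re]
  exact integral_nonneg fun z => hw0 _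

lemma Dg_two {w : ℝ → ℝ} (hw0 : ∀ x, 0 ≤ w x) {K : ℝ} (hK : 0 ≤ K) (Y : ℝ) {al a b : Eis → ℂ}
    (h : ∀ m, ‖al m‖ ≤ ‖a m‖ + ‖b m‖) : Dg w K Y al ≤ 2 * Dg w K Y a + 2 * Dg w K Y b := by
  unfold Dg
  have h0 := Wt0_nonneg hw0
  have h1 : 0 ≤ 2 * K / (9 * Real.sqrt 3) * Wt w 0 := by positivity
  have h2 : ∑ d ∈ S Y, PE d * ‖al d‖ ^ 2 ≤ 2 * ∑ d ∈ S Y, PE d * ‖a d‖ ^ 2 +
      2 * ∑ d ∈ S Y, PE d * ‖b d‖ ^ 2 := by
    rw [Finset.mul_sum, Finset.mul_sum, ← Finset.sum_add_distrib]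
    refine Finset.sum_le_sum fun d _ => ?_
    have h3 : ‖al d‖ ^ 2 ≤ 2 * ‖a d‖ ^ 2 + 2 * ‖b d‖ ^ 2 := by
      have h4 := pow_le_pow_left₀ (norm_nonneg _) (h d) 2
      nlinarith [sq_nonneg (‖a d‖ - ‖b d‖)]
    have h5 := mul_le_mul_of_nonneg_left h3 (Mob705.PE_pos d).le
    linarith
  have h6 := mul_le_mul_of_nonneg_left h2 h1
  linarith

lemma LN_nonneg {ps : List Pq} (hz : ∀ p ∈ ps, 0 ≤ p.z) : 0 ≤ LN ps := by
  unfold LN
  refine List.sum_nonneg fun x hx => ?_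
  obtain ⟨p, hp, rfl⟩ := List.mem_map.1 hx
  exact hz p hp

set_option maxHeartbeats 2000000 in
/-- **(I1) for a sequence dominated by a difference of natural lists.** -/
theorem I1LE {w : ℝ → ℝ} (hw : Wgt w) (hw0 : ∀ x, 0 ≤ w x) {h : ℝ → ℝ} {c : ℝ} (hpu : PU h c)
    (N : ℕ) {R₁ : ℝ} (hR₁ : 0 ≤ R₁) (hR : ∀ u, cx h u ≠ 0 → |u| ≤ R₁) {ε e₁ M B₂ : ℝ}
    (hε : 0 < ε) (he₁ : 0 < e₁) (hM : 0 ≤ M) (hB₂ : 0 < B₂) {ν Dd : ℝ} (hν : 1 ≤ ν)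
    (hDd : 0 ≤ Dd) :
    ∃ C r : ℝ, 0 ≤ C ∧ 0 ≤ r ∧ ∀ X : ℝ, 3 ≤ X → ∀ (P : DPar), P.OK →
      ∀ (q : Eis) (ps ps' : List Pq), ps.length ≤ N → ps'.length ≤ N →
      (∀ p ∈ ps, 0 ≤ p.z ∧ p.z ≤ Real.log X) → (∀ p ∈ ps', 0 ≤ p.z ∧ p.z ≤ Real.log X) →
      LN ps ≤ Real.log X → LN ps' = LN ps → ∀ ζ : ℂ, ‖ζ‖ ≤ 1 → ∀ x : Eis → ℂ,
      (∀ n, x n = sqc q (alF 1 1 P h (natl ps)) n - ζ * sqc q (alF 1 1 P h (natl ps')) n) →
      ∀ (K Y D Y₀ Y₁ D' Y₁' T₀ E0 F F₂ F' F₂' E D2 Fb : ℝ), 1 ≤ K →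
      Real.exp (LN ps + N * R₁ + 1) ≤ Y → Y ≤ X ^ B₂ → 0 ≤ D → 0 < Y₁ → D ≤ D' → Y₁ ≤ Y₁' →
      Y₁' ≤ D' ^ 2 → Y₁' * ν ≤ X → Real.exp (2 * LN ps) * X ^ e₁ ≤ K * Y₁' → Y₀ < 1 → 0 < E0 →
      0 < T₀ → 0 ≤ F → 0 ≤ F₂ → 0 ≤ F' → 0 ≤ F₂' → 0 ≤ E → 0 ≤ D2 → 0 ≤ Fb →
      FlatLK Dk h P q ps (X ^ B₂) r M (Real.log K) (Real.log (Y₁' * ν)) F →
      TailK Dk h P q ps (X ^ B₂) r M (Real.log K) (Real.log (Y₁' * ν)) (Real.log T₀)
        (Real.log E0) F₂ →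
      FlatLK Dk h P q ps' (X ^ B₂) r M (Real.log K) (Real.log (Y₁' * ν)) F' →
      TailK Dk h P q ps' (X ^ B₂) r M (Real.log K) (Real.log (Y₁' * ν)) (Real.log T₀)
        (Real.log E0) F₂' →
      PBh x E D2 (max (N * M) 12) ((X ^ (B₂ + 1)) ^ 2) →
      Nb E D2 K (Real.exp (LN ps)) (Y₁' * ν) ≤ Fb * Real.exp (2 * LN ps) →
      ∀ al : Eis → ℂ, Dom ν Dd x al →
      ∀ om : Eis × Eis → ℂ, (∀ x, ‖1 - om x‖ ≤ 1) →
      (∀ x : Eis × Eis, (nm (x.2 * x.1 ^ 2) : ℝ) ≤ T₀ → om x = 1) →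
      (∀ x ∈ JW D' Y₀ Y₁', x ∉ JW D Y₀ Y₁ → om x = 0) → ∀ (Q : Eis → Prop) (e₂ e₃ : ℝ),
      ‖CrP w K al (fun k => if Q k then StE E0 (JW D Y₀ Y₁) om al k else 0) -
        ((pC * c3 w K : ℝ) : ℂ) * X2 Y E0 (JW D Y₀ Y₁) om al‖ ≤ e₂ →
      GrP w K (fun k => if Q k then
          StE E0 (JW D Y₀ Y₁) om al k else 0) ≤
        c3 w K * (X3 Y E0 (JW D Y₀ Y₁) om al).re + e₃ →
      ∑' k : Eis, (if IsPrim k ∧ Q k then w (nm k / K) *
        ‖CS al k -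
          (pC : ℂ) * StE E0 (JW D Y₀ Y₁) om al k‖ ^ 2 else 0) ≤
      C * X ^ ε * (K * Real.exp (LN ps)) * (1 + F + F₂ + F' + F₂' + Fb) +
        2 * pC * e₂ + pC ^ 2 * e₃ := by
  have hN0 : (0 : ℝ) ≤ N := Nat.cast_nonneg _
  -- the scale
  set a₁ : ℝ := B₂ + 1 with ha₁
  have ha₁0 : 0 < a₁ := by positivity
  set ε' : ℝ := ε / (2 * a₁) with hε'
  have hε'0 : 0 < ε' := by positivity
  have hε2 : 0 < ε / 2 := by positivity
  set J : ℝ := max ((N : ℝ) * M) 12 with hJ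
  have hJ1 : (N : ℝ) * M ≤ J := le_max_left _ _
  have hJ0 : 0 ≤ J := le_trans (by positivity) hJ1
  -- the numbers
  obtain ⟨Ca, ra, hCa, hra, Ha⟩ := num0K Dk848.ker_Dk hpu N hB₂.le hε2 hM
  obtain ⟨Cb, rb, hCb, hrb, Hb⟩ := numLK Dk848.ker_Dk hpu N hB₂.le hε2 hM
  obtain ⟨Cc, rc, hCc, hrc, Hc⟩ := numTK Dk848.ker_Dk hpu N hB₂.le hε2 hM
  obtain ⟨Cd, hCd, Hd⟩ := Dg_dom w hpu N hR₁ hR hε
  obtain ⟨Cs, hCs, Hs⟩ := sum_alF_le hpu N
  obtain ⟨Cx, hCx, Hx⟩ := ext_num (ε := ε') hε'0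
  -- the tail of E1
  set A : ℕ := ⌈J⌉₊ + 2 with hA
  have hA2 : 2 ≤ A := by omega
  have hJA : J + 1 < A := by
    have h1 := Nat.le_ceil J
    rw [hA]
    push_cast
    linarith
  set a : ℝ := 2 + Real.log (2 * Cs) with ha
  have hlCs : 0 ≤ Real.log (2 * Cs) := Real.log_nonneg (by linarith)
  have ha0 : 0 ≤ a := by positivity
  set e₃' : ℝ := e₁ / B₂ with he₃'
  have he₃'0 : 0 < e₃' := by positivity
  obtain ⟨B, Ce, hB1, hCe, He⟩ := RGw813.Et_small (A : ℝ) he₃'0 ha0 (le_refl (1 : ℝ))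
  obtain ⟨C₁, hC₁, H₁⟩ := I1WNX hw hw0 (R := 2 * (N * R₁)) (by positivity) (A := A) (B := B)
    (J := J) (ε := ε') hA2 hB1 hJA hJ0 hε'0
  refine ⟨4 * Cd + C₁ * (Dd * ν ^ (1 / 3 : ℝ) * (3 * (Ca + Cb + Cc + Cx)) + Ce),
    max ra (max rb rc), by positivity, le_max_of_le_left hra, ?_⟩
  intro X hX P hP q ps ps' hN hN' hz hz' hLX hLN ζ hζ x hx K Y D Y₀ Y₁ D' Y₁' T₀ E0 F F₂ F' F₂'
    E D2 Fb hK hYl hYu hD hY₁ hDD hYY hYD hYX hKX hY₀ hE0 hT₀ hF hF₂ hF' hF₂' hE hD2 hFb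
    hcl htl hcl' htl' hPB hNb al hdom om hom1 hom homJ Q e₂ e₃ ht he
  have hX1 : (1 : ℝ) ≤ X := by linarith
  have hX0 : 0 < X := by linarith
  have hK0 : 0 < K := by linarith
  have hLX' : LN ps' ≤ Real.log X := hLN.trans_le hLX
  set n := LN ps with hn
  have hn0 : 0 ≤ n := LN_nonneg fun p hp => (hz p hp).1
  set α := sqc q (alF 1 1 P h (natl ps)) with hα
  set β := sqc q (alF 1 1 P h (natl ps')) with hβ
  have hY1 : 1 ≤ Y := le_trans (Real.one_le_exp (by positivity)) hYl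
  have hY0 : 0 < Y := by linarith
  have hYe : Real.exp 1 ≤ Y := le_trans (Real.exp_le_exp.2 (by
    have : 0 ≤ (N : ℝ) * R₁ := by positivity
    linarith)) hYl
  have hxle : ∀ m, ‖x m‖ ≤ ‖α m‖ + ‖β m‖ := fun m => by
    rw [hx m]
    refine (norm_sub_le _ _).trans (add_le_add_right ?_ _)
    rw [norm_mul]
    exact mul_le_of_le_one_left (norm_nonneg _) hζ
  have hale : ∀ m, ‖al m‖ ≤ ‖α m‖ + ‖β m‖ := fun m => (hdom.le m).trans (hxle m)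
  have hadm₀ : Adm Y (Real.exp n) (2 * (N * R₁)) α := Adm_list hR₁ hR P q hN
    (le_trans (Real.exp_le_exp.2 (by linarith)) hYl)
  have hadm₁ : Adm Y (Real.exp n) (2 * (N * R₁)) β := by
    have h1 := Adm_list (Y := Y) hR₁ hR P q hN' (le_trans (Real.exp_le_exp.2 (by linarith)) hYl)
    rw [hLN] at h1
    exact h1
  have hne : ∀ m, al m ≠ 0 → α m ≠ 0 ∨ β m ≠ 0 := fun m hm => by
    by_contra hc
    rw [not_or, not_not, not_not] at hc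
    refine hm (norm_le_zero_iff.1 ?_)
    have := hale m
    rw [hc.1, hc.2, norm_zero, add_zero] at this
    exact this
  have hadm : Adm Y (Real.exp n) (2 * (N * R₁)) al :=
    ⟨fun m hm => (hne m hm).elim (hadm₀.sup m) (hadm₁.sup m),
      fun m hm => (hne m hm).elim (hadm₀.win m) (hadm₁.win m)⟩
  have hν0 : 0 < ν := by linarith
  set ν₃ : ℝ := ν ^ (1 / 3 : ℝ) with hν₃
  have hν₃1 : 1 ≤ ν₃ := Real.one_le_rpow hν (by norm_num)
  have hY₁'0 : 0 < Y₁' := hY₁.trans_le hYY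
  set Pb : ℝ := X ^ a₁ with hPb
  have hPb1 : 1 ≤ Pb := Real.one_le_rpow hX1 ha₁0.le
  have hYPb : Y ≤ Pb := hYu.trans (Real.rpow_le_rpow_of_exponent_le hX1 (by rw [ha₁]; linarith))
  have hXPb : X ≤ Pb := by
    calc X = X ^ (1 : ℝ) := (Real.rpow_one X).symm
      _ ≤ _ := Real.rpow_le_rpow_of_exponent_le hX1 (by rw [ha₁]; linarith)
  have hPe : Pb ^ ε' = X ^ (ε / 2) := by
    rw [hPb, ← Real.rpow_mul hX0.le]
    congr 1
    rw [hε']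
    field_simp
  have hXe : X ^ (ε / 2) * X ^ (ε / 2) = X ^ ε := by
    rw [← Real.rpow_add hX0]; congr 1; ring
  have hXe1 : 1 ≤ X ^ (ε / 2) := Real.one_le_rpow hX1 hε2.le
  have hEt : (1 + Ct Y) * Et A B K (Real.exp n) Y Y₁' al ≤ Ce := by
    have h1 := He K (Real.exp n) Y Y₁' al hY1 (Real.exp_pos n) ?_ ?_ hY₁'0 ?_ ?_
    · rw [one_mul] at h1
      refine le_trans (mul_le_mul_of_nonneg_right (by linarith)
        (Et_nonneg hK0.le (Real.exp_pos n).le hY₁'0.le _)) h1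
    · calc Real.exp n ≤ Y := le_trans (Real.exp_le_exp.2 (by
            have : 0 ≤ (N : ℝ) * R₁ := by positivity
            linarith)) hYl
        _ = Y ^ (1 : ℝ) := (Real.rpow_one Y).symm
        _ ≤ Y ^ a := Real.rpow_le_rpow_of_exponent_le hY1 (by rw [ha]; linarith)
    · exact (Real.rpow_le_one_of_one_le_of_nonpos hY1 (by linarith)).trans hK
    · refine le_trans ?_ hKX
      have e1 : Real.exp n ^ 2 = Real.exp (2 * n) := by rw [two_mul, Real.exp_add]; ring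
      rw [e1]
      refine mul_le_mul_of_nonneg_left ?_ (Real.exp_pos _).le
      calc Y ^ e₃' ≤ (X ^ B₂) ^ e₃' := Real.rpow_le_rpow hY0.le hYu he₃'0.le
        _ = X ^ e₁ := by
            rw [← Real.rpow_mul hX0.le]
            congr 1
            rw [he₃']
            field_simp
    · have h2 : ∑ m ∈ S Y, ‖al m‖ ≤ 2 * Cs * Y ^ 2 := by
        have h3 := Hs 1 1 P hP q (natl ps) (by rw [length_natl]; exact hN) Y hY1
        have h4 := Hs 1 1 P hP q (natl ps') (by rw [length_natl]; exact hN') Y hY1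
        calc ∑ m ∈ S Y, ‖al m‖ ≤ ∑ m ∈ S Y, (‖α m‖ + ‖β m‖) :=
              Finset.sum_le_sum fun m _ => hale m
          _ = ∑ m ∈ S Y, ‖α m‖ + ∑ m ∈ S Y, ‖β m‖ := Finset.sum_add_distrib
          _ ≤ _ := by linarith
      refine h2.trans ?_
      have h2 : 2 * Cs ≤ Y ^ Real.log (2 * Cs) := by
        have h3 : Real.exp 1 ^ Real.log (2 * Cs) ≤ Y ^ Real.log (2 * Cs) :=
          Real.rpow_le_rpow (Real.exp_pos _).le hYe hlCs
        rw [← Real.exp_mul, one_mul, Real.exp_log (by linarith)] at h3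
        exact h3
      calc 2 * Cs * Y ^ 2 ≤ Y ^ Real.log (2 * Cs) * Y ^ 2 :=
            mul_le_mul_of_nonneg_right h2 (by positivity)
        _ = Y ^ a := by
            rw [ha, Real.rpow_add hY0, Real.rpow_two]; ring
  -- the hypotheses of the numbers
  have hG1 : (1 : ℝ) ≤ X ^ B₂ := Real.one_le_rpow hX1 hB₂.le
  set rr := max ra (max rb rc) with hrr
  have hra' : ra ≤ rr := le_max_left _ _
  have hrb' : rb ≤ rr := (le_max_left rb rc).trans (le_max_right ra _)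
  have hrc' : rc ≤ rr := (le_max_right rb rc).trans (le_max_right ra _)
  have hgS : ∀ g ∈ S Y, IsPrim g ∧ (nm g : ℝ) ≤ X ^ B₂ := fun g hg => by
    obtain ⟨h1, h2, -⟩ := (mem_S hY0.le).1 hg
    exact ⟨h2, h1.trans hYu⟩
  have hY₁'ν : 0 < Y₁' * ν := by positivity
  have hVb : ∀ g ∈ S Y, ∀ V : ℝ, V ≤ Y₁' * ν / (nm g : ℝ) ^ 2 → 1 ≤ V → V ≤ X ∧
      Real.log V ≤ Real.log (Y₁' * ν) - 2 * Real.log (nm g) := by
    intro g hg V hV hV1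
    have hgp := (hgS g hg).1.ne_zero
    have hg1 : (1 : ℝ) ≤ nm g := by exact_mod_cast nm_pos.2 hgp
    have h1 : Y₁' * ν / (nm g : ℝ) ^ 2 ≤ Y₁' * ν := div_le_self hY₁'ν.le (one_le_pow₀ hg1)
    refine ⟨(hV.trans h1).trans hYX, ?_⟩
    have h2 := Real.log_le_log (by linarith) hV
    rw [Real.log_div hY₁'ν.ne' (by positivity), Real.log_pow] at h2
    push_cast at h2
    exact h2
  have hpw : ∀ t : ℝ, (1 + |t|) ^ ((N : ℝ) * M) ≤ (1 + |t|) ^ J := fun t =>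
    Real.rpow_le_rpow_of_exponent_le (by linarith [abs_nonneg t]) hJ1
  -- the numbers of a natural list
  have num : ∀ (qs : List Pq) (G₁ G₂ : ℝ), qs.length ≤ N →
      (∀ p ∈ qs, 0 ≤ p.z ∧ p.z ≤ Real.log X) → LN qs = n → 0 ≤ G₁ → 0 ≤ G₂ →
      FlatLK Dk h P q qs (X ^ B₂) rr M (Real.log K) (Real.log (Y₁' * ν)) G₁ →
      TailK Dk h P q qs (X ^ B₂) rr M (Real.log K) (Real.log (Y₁' * ν)) (Real.log T₀)
        (Real.log E0) G₂ →
      (∀ V, 1 ≤ V → V ≤ Y₁' * ν → ∀ t, VK Dk V (tws (sqc q (alF 1 1 P h (natl qs))) t) ≤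
        (Ca * X ^ (ε / 2) * (G₁ * Real.exp (2 * n))) *
          max 1 ((V * K / Real.exp n ^ 2) ^ (1 / 3 : ℝ)) * (1 + |t|) ^ J) ∧
      (∀ g ∈ S Y, ∀ B V, 1 ≤ B → B ≤ Y → 1 ≤ V → V ≤ Y₁' * ν / (nm g : ℝ) ^ 2 → ∀ t,
        JBK Dk Y (sqc q (alF 1 1 P h (natl qs))) (fun U => (0 : ℝ) < nm (g * U)) g B V t ≤
          (Cb * X ^ (ε / 2) * (G₁ * Real.exp (2 * n))) / (nm g : ℝ) ^ 2 *
            max B⁻¹ (yv K (Real.exp n) g V) * (1 + |t|) ^ J) ∧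
      (∀ δ ∈ S Y, ∀ B V, 1 ≤ B → B ≤ Y → 1 ≤ V → V ≤ Y₁' * ν / (nm δ : ℝ) ^ 2 →
        (E0 < B ∨ T₀ < V * (nm δ : ℝ) ^ 2) → ∀ t,
        B⁻¹ * (nm δ * (yv K (Real.exp n) δ V)⁻¹) *
          JBK Dk Y (sqc q (alF 1 1 P h (natl qs))) (fun _ => True) δ B V t ≤
          (Cc * X ^ (ε / 2) * (G₂ * Real.exp (2 * n))) / nm δ * (1 + |t|) ^ J) := by
    intro qs G₁ G₂ hl hzq hLq hG₁ hG₂ hfl hta
    have hco := (hfl.toO hG1).mono hra'
    have hfl' := hfl.mono hrb'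
    have hta' := hta.mono hrc'
    refine ⟨fun V hV1 hV2 t => ?_, fun g hg B V hB1 hB2 hV1 hV2 t => ?_,
      fun δ hδ B V hB1 hB2 hV1 hV2 hET t => ?_⟩
    · have hV0 : 0 < V := by linarith
      have h1 := Ha X hX P hP q qs hl hzq K (Real.log (Y₁' * ν)) G₁ hK0 hG₁ hco V t hV1
        (hV2.trans hYX) (Real.log_le_log hV0 hV2)
      rw [hLq] at h1
      refine h1.trans ?_
      have h2 : 0 ≤ max 1 ((V * K / Real.exp n ^ 2) ^ (1 / 3 : ℝ)) :=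
        le_max_of_le_left zero_le_one
      exact mul_le_mul_of_nonneg_left (hpw t) (by positivity)
    · obtain ⟨h1, h2⟩ := hgS g hg
      obtain ⟨h3, h4⟩ := hVb g hg V hV2 hV1
      have hV0 : 0 < V := by linarith
      have hB0 : 0 < B := by linarith
      have h5 := Hb X hX P hP q qs hl hzq K (Real.log (Y₁' * ν)) G₁ hK0 hG₁ hfl' g h1 h2 B V
        Y t (fun U => (0 : ℝ) < nm (g * U)) hB1 (hB2.trans hYu) hV1 h3 hY0.le h4
      rw [hLq] at h5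
      refine h5.trans ?_
      have h6 : 0 ≤ max B⁻¹ (yv K (Real.exp n) g V) := le_max_of_le_left (by positivity)
      exact mul_le_mul_of_nonneg_left (hpw t) (by positivity)
    · obtain ⟨h1, h2⟩ := hgS δ hδ
      obtain ⟨h3, h4⟩ := hVb δ hδ V hV2 hV1
      have hgn : (0 : ℝ) < nm δ := by exact_mod_cast nm_pos.2 h1.ne_zero
      have hV0 : 0 < V := by linarith
      have h5 := Hc X hX P hP q qs hl hzq K (Real.log (Y₁' * ν)) (Real.log T₀) (Real.log E0) G₂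
        hK0 hG₂ hta' δ h1 h2 B V Y t (fun _ => True) hB1 (hB2.trans hYu) hV1 h3 hY0.le
        h4 (by
          rcases hET with h5 | h5
          · exact Or.inl (Real.log_le_log hE0 h5.le)
          · right
            have h6 := Real.log_le_log hT₀ h5.le
            rw [Real.log_mul (by positivity) (by positivity), Real.log_pow] at h6
            push_cast at h6
            linarith)
      rw [hLq] at h5
      refine h5.trans ?_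
      exact mul_le_mul_of_nonneg_left (hpw t) (by positivity)
  obtain ⟨n0, n1, n2⟩ := num ps F F₂ hN hz rfl hF hF₂ hcl htl
  obtain ⟨m0, m1, m2⟩ := num ps' F' F₂' hN' hz' hLN hF' hF₂' hcl' htl'
  have hbump := bump_of_cs hpu.cs
  have hFα : FS α := HP842.FS.sqc (FS_alF hbump hP 1 1 _) q
  have hFβ : FS β := HP842.FS.sqc (FS_alF hbump hP 1 1 _) q
  set NB := Nb E D2 K (Real.exp n) (Y₁' * ν) with hNB
  have hNB0 : 0 ≤ NB := Nb_nonneg hE hD2 hK0.le (Real.exp_pos n).le hY₁'ν.le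
  have hex := Hx α β x ζ hζ hFα hFβ hx E D2 K (Real.exp n) Y (Y₁' * ν) T₀ E0 0 Pb J hE hD2 hK0
    (Real.exp_pos n) hY1 hYPb hY₁'ν (hYX.trans hXPb) hPb1 hPB
    (Ca * X ^ (ε / 2) * (F * Real.exp (2 * n))) 0
    (Cb * X ^ (ε / 2) * (F * Real.exp (2 * n))) (Cc * X ^ (ε / 2) * (F₂ * Real.exp (2 * n)))
    (Ca * X ^ (ε / 2) * (F' * Real.exp (2 * n))) 0
    (Cb * X ^ (ε / 2) * (F' * Real.exp (2 * n))) (Cc * X ^ (ε / 2) * (F₂' * Real.exp (2 * n)))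
    n0 (fun g hg _ hg0 => by
      exfalso
      have : (1 : ℝ) ≤ nm g := by exact_mod_cast nm_pos.2 (hgS g hg).1.ne_zero
      linarith) n1 n2 m0 (fun g hg _ hg0 => by
      exfalso
      have : (1 : ℝ) ≤ nm g := by exact_mod_cast nm_pos.2 (hgS g hg).1.ne_zero
      linarith) m1 m2
  obtain ⟨x0, -, x1, x2⟩ := hex
  rw [hPe] at x1 x2
  set q₁ := X ^ (ε / 2) with hq₁
  set ee := Real.exp (2 * n) with hee
  have hee0 : 0 < ee := Real.exp_pos _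
  have hq₁0 : 0 < q₁ := by linarith
  set M0 : ℝ := 3 * (Ca * q₁ * (F * ee)) + 3 * (Ca * q₁ * (F' * ee)) + Cx * NB with hM0
  set Ml : ℝ := 3 * (Cb * q₁ * (F * ee)) + 3 * (Cb * q₁ * (F' * ee)) + Cx * q₁ * NB with hMl
  set Mt : ℝ := 3 * (Cc * q₁ * (F₂ * ee)) + 3 * (Cc * q₁ * (F₂' * ee)) + Cx * q₁ * NB with hMt
  have hM00 : 0 ≤ M0 := by positivity
  have hMl0 : 0 ≤ Ml := by positivity
  have hMt0 : 0 ≤ Mt := by positivity
  have hVν' : ∀ g : Eis, ∀ V : ℝ, V ≤ Y₁' / (nm g : ℝ) ^ 2 → V * ν ≤ Y₁' * ν / (nm g : ℝ) ^ 2 := by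
    intro g V hV
    calc V * ν ≤ Y₁' / (nm g : ℝ) ^ 2 * ν := mul_le_mul_of_nonneg_right hV hν0.le
      _ = _ := by ring
  have key := H₁ Pb K (Real.exp n) Y D Y₀ Y₁ D' Y₁' T₀ E0 0
    (Dd * ν₃ * M0) 0 (Dd * ν₃ * Ml) (Dd * ν₃ * Mt) hPb1 hK0 (Real.exp_pos n) hY1 hYPb hD hY₁ hDD
    hYY ((le_mul_of_one_le_right hY₁'0.le hν).trans (hYX.trans hXPb)) hY₀ hE0.le (Or.inl hYD)
    (by positivity) le_rfl (by positivity) (by positivity) al hadm om hom1 hom homJ Q e₂ e₃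
    (fun V hV1 hV2 t => by
      have hV0 : 0 < V := by linarith
      have hVν : 1 ≤ V * ν := one_le_mul_of_one_le_of_one_le hV1 hν
      have h1 := x0 (V * ν) hVν (mul_le_mul_of_nonneg_right hV2 hν0.le) t
      refine ((hdom.vf V t hV1).trans (mul_le_mul_of_nonneg_left h1 hDd)).trans ?_
      have h3 : max 1 ((V * ν * K / Real.exp n ^ 2) ^ (1 / 3 : ℝ)) ≤
          ν₃ * max 1 ((V * K / Real.exp n ^ 2) ^ (1 / 3 : ℝ)) := by
        have e2 : V * ν * K / Real.exp n ^ 2 = V * K / Real.exp n ^ 2 * ν := by ring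
        rw [e2]
        exact max_nu (by positivity) hν
      calc Dd * (M0 * max 1 ((V * ν * K / Real.exp n ^ 2) ^ (1 / 3 : ℝ)) * (1 + |t|) ^ J) ≤
            Dd * (M0 * (ν₃ * max 1 ((V * K / Real.exp n ^ 2) ^ (1 / 3 : ℝ))) *
              (1 + |t|) ^ J) := by gcongr
        _ = _ := by ring)
    (fun g hg _ hg0 => by
      exfalso
      have : (1 : ℝ) ≤ nm g := by exact_mod_cast nm_pos.2 (hgS g hg).1.ne_zero
      linarith)
    (fun g hg B' V hB1' hB2' hV1 hV2 t => by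
      obtain ⟨h1, h2⟩ := hgS g hg
      have hV0 : 0 < V := by linarith
      have hVν : 1 ≤ V * ν := one_le_mul_of_one_le_of_one_le hV1 hν
      have h5 := x1 g hg B' (V * ν) hB1' hB2' hVν (hVν' g V hV2) t
      refine ((hdom.jb Y _ g B' V t h1 hY0.le hV1).trans
        (mul_le_mul_of_nonneg_left h5 hDd)).trans ?_
      have hy := (yv_pos hK0 (Real.exp_pos n) hV0 h1.ne_zero).le
      have hB'0 : 0 < B' := by linarith
      rw [yv_nu hK0.le g hV0.le hν0.le]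
      have h6 : max B'⁻¹ (ν₃ * yv K (Real.exp n) g V) ≤
          ν₃ * max B'⁻¹ (yv K (Real.exp n) g V) := by
        refine max_le ?_ (mul_le_mul_of_nonneg_left (le_max_right _ _) (by linarith))
        calc B'⁻¹ ≤ ν₃ * B'⁻¹ := le_mul_of_one_le_left (by positivity) hν₃1
          _ ≤ _ := mul_le_mul_of_nonneg_left (le_max_left _ _) (by linarith)
      calc Dd * (Ml / (nm g : ℝ) ^ 2 *
            max B'⁻¹ (ν ^ (1 / 3 : ℝ) * yv K (Real.exp n) g V) * (1 + |t|) ^ J) ≤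
            Dd * (Ml / (nm g : ℝ) ^ 2 *
            (ν₃ * max B'⁻¹ (yv K (Real.exp n) g V)) * (1 + |t|) ^ J) := by gcongr
        _ = _ := by ring)
    (fun g hg B' V hB1' hB2' hV1 hV2 hET t => by
      obtain ⟨h1, h2⟩ := hgS g hg
      have hgn : (0 : ℝ) < nm g := by exact_mod_cast nm_pos.2 h1.ne_zero
      have hV0 : 0 < V := by linarith
      have hVν : 1 ≤ V * ν := one_le_mul_of_one_le_of_one_le hV1 hν
      have hB'0 : 0 < B' := by linarith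
      have h5 := x2 g hg B' (V * ν) hB1' hB2' hVν (hVν' g V hV2) (hET.imp_right fun h7 => by
        have h8 : V * (nm g : ℝ) ^ 2 ≤ V * ν * (nm g : ℝ) ^ 2 :=
          mul_le_mul_of_nonneg_right (le_mul_of_one_le_right hV0.le hν) (by positivity)
        linarith) t
      have hy := yv_pos hK0 (Real.exp_pos n) hV0 h1.ne_zero
      rw [yv_nu hK0.le g hV0.le hν0.le] at h5
      have h6 := hdom.jb Y (fun _ => True) g B' V t h1 hY0.le hV1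
      have hν₃0 : 0 < ν₃ := by linarith
      calc B'⁻¹ * (nm g * (yv K (Real.exp n) g V)⁻¹) * JB Y al (fun _ => True) g B' V t ≤
            B'⁻¹ * (nm g * (yv K (Real.exp n) g V)⁻¹) *
              (Dd * JB Y x (fun _ => True) g B' (V * ν) t) :=
            mul_le_mul_of_nonneg_left h6 (by positivity)
        _ = Dd * ν₃ * (B'⁻¹ * (nm g * (ν ^ (1 / 3 : ℝ) * yv K (Real.exp n) g V)⁻¹) *
              JB Y x (fun _ => True) g B' (V * ν) t) := by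
            rw [← hν₃]
            field_simp
        _ ≤ Dd * ν₃ * (Mt / nm g * (1 + |t|) ^ J) := mul_le_mul_of_nonneg_left h5 (by positivity)
        _ = _ := by ring)
    ht he
  refine key.trans ?_
  -- the diagonal
  have hDa := Hd X hX1 P hP q ps hN hn0 hLX K Y hK0.le hY0.le α fun _ => le_rfl
  have hDb := Hd X hX1 P hP q ps' hN' (hLN ▸ hn0) hLX' K Y hK0.le hY0.le β fun _ => le_rfl
  have hDg := Dg_two (w := w) hw0 hK0.le Y hale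
  rw [hLN] at hDb
  rw [hPe]
  set GG : ℝ := 1 + F + F₂ + F' + F₂' + Fb with hGG
  have hGG1 : 1 ≤ GG := by rw [hGG]; linarith
  have hEn : ee = Real.exp n * Real.exp n := by rw [hee, two_mul, Real.exp_add]
  have hmain : C₁ * q₁ * (K / Real.exp n) * (Dd * ν₃ * M0 + 0 + Dd * ν₃ * Ml + Dd * ν₃ * Mt +
        (1 + Ct Y) * Et A B K (Real.exp n) Y Y₁' al) ≤
      C₁ * (Dd * ν₃ * (3 * (Ca + Cb + Cc + Cx)) + Ce) * X ^ ε * (K * Real.exp n) * GG := by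
    have h1 : (1 + Ct Y) * Et A B K (Real.exp n) Y Y₁' al ≤ Ce * (q₁ * ee) * GG := by
      refine hEt.trans ?_
      have h2 : 1 ≤ ee := Real.one_le_exp (by positivity)
      have h3 : 1 ≤ q₁ * ee * GG :=
        one_le_mul_of_one_le_of_one_le (one_le_mul_of_one_le_of_one_le hXe1 h2) hGG1
      calc Ce ≤ Ce * (q₁ * ee * GG) := le_mul_of_one_le_right hCe h3
        _ = _ := by ring
    have hNb' : NB ≤ q₁ * ee * Fb := by
      refine hNb.trans ?_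
      calc Fb * ee ≤ q₁ * (Fb * ee) := le_mul_of_one_le_left (by positivity) hXe1
        _ = _ := by ring
    have hNb'' : q₁ * NB ≤ q₁ * ee * Fb := by
      calc q₁ * NB ≤ q₁ * (Fb * ee) := mul_le_mul_of_nonneg_left hNb hq₁0.le
        _ = _ := by ring
    have hFs : ∀ u v : ℝ, 0 ≤ u → 0 ≤ v → u + v ≤ GG → True := fun _ _ _ _ _ => trivial
    have h2 : M0 + Ml + Mt ≤ 3 * (Ca + Cb + Cc + Cx) * (q₁ * ee) * GG := by
      have g1 : M0 ≤ 3 * Ca * (q₁ * ee) * (F + F') + Cx * (q₁ * ee * Fb) := by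
        have := mul_le_mul_of_nonneg_left hNb' hCx
        rw [hM0]
        linarith
      have g2 : Ml ≤ 3 * Cb * (q₁ * ee) * (F + F') + Cx * (q₁ * ee * Fb) := by
        have := mul_le_mul_of_nonneg_left hNb'' hCx
        rw [hMl]
        linarith
      have g3 : Mt ≤ 3 * Cc * (q₁ * ee) * (F₂ + F₂') + Cx * (q₁ * ee * Fb) := by
        have := mul_le_mul_of_nonneg_left hNb'' hCx
        rw [hMt]
        linarith
      have k0 : 0 ≤ q₁ * ee := by positivity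
      have k1 : F + F' ≤ GG := by rw [hGG]; linarith
      have k2 : F₂ + F₂' ≤ GG := by rw [hGG]; linarith
      have k3 : Fb ≤ GG := by rw [hGG]; linarith
      have j1 : 3 * Ca * (q₁ * ee) * (F + F') ≤ 3 * Ca * (q₁ * ee) * GG := by gcongr
      have j2 : 3 * Cb * (q₁ * ee) * (F + F') ≤ 3 * Cb * (q₁ * ee) * GG := by gcongr
      have j3 : 3 * Cc * (q₁ * ee) * (F₂ + F₂') ≤ 3 * Cc * (q₁ * ee) * GG := by gcongr
      have j4 : Cx * (q₁ * ee * Fb) ≤ Cx * (q₁ * ee * GG) := by gcongr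
      have e1 : 3 * (Ca + Cb + Cc + Cx) * (q₁ * ee) * GG = 3 * Ca * (q₁ * ee) * GG +
        3 * Cb * (q₁ * ee) * GG + 3 * Cc * (q₁ * ee) * GG + Cx * (q₁ * ee * GG) +
        Cx * (q₁ * ee * GG) + Cx * (q₁ * ee * GG) := by ring
      rw [e1]
      linarith
    have h4 : Dd * ν₃ * M0 + 0 + Dd * ν₃ * Ml + Dd * ν₃ * Mt +
        (1 + Ct Y) * Et A B K (Real.exp n) Y Y₁' al ≤
      (Dd * ν₃ * (3 * (Ca + Cb + Cc + Cx)) + Ce) * GG * (q₁ * ee) := by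
      have h5 := mul_le_mul_of_nonneg_left h2 (mul_nonneg hDd (by linarith : 0 ≤ ν₃))
      calc _ = Dd * ν₃ * (M0 + Ml + Mt) + (1 + Ct Y) * Et A B K (Real.exp n) Y Y₁' al := by ring
        _ ≤ Dd * ν₃ * (3 * (Ca + Cb + Cc + Cx) * (q₁ * ee) * GG) + Ce * (q₁ * ee) * GG := by
            linarith
        _ = _ := by ring
    calc _ ≤ C₁ * q₁ * (K / Real.exp n) * ((Dd * ν₃ * (3 * (Ca + Cb + Cc + Cx)) + Ce) * GG *
          (q₁ * ee)) := mul_le_mul_of_nonneg_left h4 (by positivity)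
      _ = C₁ * (Dd * ν₃ * (3 * (Ca + Cb + Cc + Cx)) + Ce) * (q₁ * q₁) *
          (K / Real.exp n * (Real.exp n * Real.exp n)) * GG := by rw [hEn]; ring
      _ = _ := by
          rw [hXe]
          have : K / Real.exp n * (Real.exp n * Real.exp n) = K * Real.exp n := by
            field_simp
          rw [this]
  have hdiag : 4 * Cd * X ^ ε * (K * Real.exp n) ≤ 4 * Cd * X ^ ε * (K * Real.exp n) * GG :=
    le_mul_of_one_le_right (by positivity) hGG1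
  have e9 : (4 * Cd + C₁ * (Dd * ν₃ * (3 * (Ca + Cb + Cc + Cx)) + Ce)) * X ^ ε *
      (K * Real.exp n) * GG = 4 * Cd * X ^ ε * (K * Real.exp n) * GG +
      C₁ * (Dd * ν₃ * (3 * (Ca + Cb + Cc + Cx)) + Ce) * X ^ ε * (K * Real.exp n) * GG := by ring
  rw [e9]
  linarith

/-! ### the bias bound -/

open Crest.Agent.R017.ExD791 (setz zet xr norm_zet pb_ex)
open Crest.Agent.R017.RG64 (Ht one_le_Ht)
open Crest.Agent.R017.End699 (HC)
open Crest.Agent.R017.Sup271 (NPm)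

/-- the list with the new lengths of the first two pieces -/
def rl (p1 p2 : Pq) (l : List Pq) (d : ℝ) : List Pq :=
  { p1 with z := p1.z + p2.z - d } :: { p2 with z := d } :: l

lemma LN_rl (p1 p2 : Pq) (l : List Pq) (d : ℝ) : LN (rl p1 p2 l d) = LN (p1 :: p2 :: l) := by
  unfold rl LN
  simp only [List.map_cons, List.sum_cons]
  ring

/-- the phase -/
def zN (p1 p2 : Pq) (d : ℝ) : ℂ := zet (p1, false) (p2, false) d

lemma norm_zN (p1 p2 : Pq) (d : ℝ) : ‖zN p1 p2 d‖ = 1 := norm_zet _ _ _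

/-- the difference of the two natural lists -/
def xN (P : DPar) (h : ℝ → ℝ) (q : Eis) (p1 p2 : Pq) (l : List Pq) (d : ℝ) : Eis → ℂ :=
  xr 1 1 P h q (p1, false) (p2, false) (natl l) d

lemma xN_eq (P : DPar) (h : ℝ → ℝ) (q : Eis) (p1 p2 : Pq) (l : List Pq) (d : ℝ) (n : Eis) :
    xN P h q p1 p2 l d n = sqc q (alF 1 1 P h (natl (p1 :: p2 :: l))) n -
      zN p1 p2 d * sqc q (alF 1 1 P h (natl (rl p1 p2 l d))) n := rfl

/-- **(PB) for the difference of natural lists** -/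
theorem pbh_xN {h : ℝ → ℝ} {c : ℝ} (hpu : PU h c) (N : ℕ) {B : ℝ} (hB : 1 ≤ B) {ε : ℝ}
    (hε : 0 < ε) : ∃ C : ℝ, 1 ≤ C ∧ ∀ X : ℝ, 3 ≤ X → ∀ P : DPar, P.OK → HC P.n P.ψ →
      (nm P.n : ℝ) ≤ X ^ B → ¬ NPm P.n P.ψ P.l₂ 1 → ∀ q : Eis, q ≠ 0 → (nm q : ℝ) ≤ X ^ B →
      ∀ (p1 p2 : Pq) (l : List Pq), p1.u = .one → p2.u = .one → p1.kd = .mo → p2.kd = .mo →
      (nm p1.d : ℝ) ≤ X ^ B → (nm p2.d : ℝ) ≤ X ^ B → l.length ≤ N →
      (∀ p ∈ p1 :: p2 :: l, 0 ≤ p.z) → LN (p1 :: p2 :: l) ≤ Real.log X →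
      ∀ d s0 : ℝ, s0 ≤ p1.z → s0 ≤ p2.z → s0 ≤ p1.z + p2.z - d → s0 ≤ d →
      ∀ J : ℝ, 12 ≤ J → ∀ V : ℝ, V ≤ X ^ B → PBh (xN P h q p1 p2 l d)
        (C * X ^ ε * Ht (natl (p1 :: p2 :: l)) ^ 6 * Real.exp (5 / 3 * LN (p1 :: p2 :: l)))
        (Real.exp (-s0)) J V := by
  obtain ⟨C, hC, H⟩ := pb_ex hpu N (B := B) (by linarith) hε
  refine ⟨C, hC, ?_⟩
  intro X hX P hP hψ hPn hnp q hq hqX p1 p2 l hu1 hu2 hk1 hk2 hd1 hd2 hl hz hLX d s0 h1 h2 h3 h4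
    J hJ V hV g hg hgV j hj hjV t
  have hX1 : (1 : ℝ) ≤ X := by linarith
  have hlX : 0 ≤ Real.log X := Real.log_nonneg hX1
  have z1 := hz p1 List.mem_cons_self
  have z2 := hz p2 (List.mem_cons_of_mem _ List.mem_cons_self)
  have z3 : 0 ≤ LN l := LN_nonneg fun p hp => hz p (List.mem_cons_of_mem _
    (List.mem_cons_of_mem _ hp))
  have e1 : LN (p1 :: p2 :: l) = p1.z + (p2.z + LN l) := by
    unfold LN
    simp only [List.map_cons, List.sum_cons]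
  have hBl : Real.log X ≤ B * Real.log X := le_mul_of_one_le_left hlX hB
  have hLl : LF (natl l) ≤ B * Real.log X := by
    rw [LF_natl]
    linarith
  have h0 := H X hX P (OKi848.OKi.of hP) hψ hPn hnp 1 1 le_rfl (p1, false) (p2, false) (natl l)
    hu1 hu2 hk1 hk2 hd1 hd2 (by rw [length_natl]; exact hl) hLl j hj.1 (hjV.trans hV) d s0 h1 h2
    h3 h4 (by linarith) q g hq hqX hg (hgV.trans hV) t
  have e2 : LF ((p1, false) :: (p2, false) :: natl l) = LN (p1 :: p2 :: l) := by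
    have := LF_natl (p1 :: p2 :: l)
    exact this
  rw [e2, one_pow, mul_one] at h0
  refine h0.trans ?_
  have e3 : Ht ((p1, false) :: (p2, false) :: natl l) = Ht (natl (p1 :: p2 :: l)) := rfl
  rw [e3]
  have h5 : (1 + |t|) ^ 12 ≤ (1 + |t|) ^ J := by
    rw [← Real.rpow_natCast]
    exact Real.rpow_le_rpow_of_exponent_le (by linarith [abs_nonneg t]) (by push_cast; exact hJ)
  have h6 := one_le_Ht (natl (p1 :: p2 :: l))
  have h7 : 0 ≤ min 1 ((nm g : ℝ) * Real.exp (-s0)) := le_min zero_le_one (by positivity)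
  gcongr

/-- the number of the bias term -/
def FbN (K n s0 : ℝ) (V : ℝ) (H : ℝ) : ℝ :=
  H ^ 6 * Real.exp (n / 3 - s0) * (V / K) ^ (1 / 3 : ℝ)

lemma FbN_nonneg {K V H : ℝ} (hK : 0 ≤ K) (hV : 0 ≤ V) (hH : 0 ≤ H) (n s0 : ℝ) :
    0 ≤ FbN K n s0 V H := by unfold FbN; positivity

lemma Nb_FbN {C₀ K V H : ℝ} (n s0 : ℝ) :
    Nb (C₀ * H ^ 6 * Real.exp (5 / 3 * n)) (Real.exp (-s0)) K (Real.exp n) V =
      C₀ * FbN K n s0 V H * Real.exp (2 * n) := by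
  unfold RX241.Nb FbN
  have e1 : Real.exp n ^ (2 / 3 : ℝ) = Real.exp (2 / 3 * n) := by
    rw [← Real.exp_mul]; congr 1; ring
  rw [e1]
  have e2 : Real.exp (5 / 3 * n) * Real.exp (-s0) * Real.exp (2 / 3 * n) =
      Real.exp (n / 3 - s0) * Real.exp (2 * n) := by
    rw [← Real.exp_add, ← Real.exp_add, ← Real.exp_add]
    congr 1; ring
  calc _ = C₀ * H ^ 6 * (V / K) ^ (1 / 3 : ℝ) * (Real.exp (5 / 3 * n) * Real.exp (-s0) *
        Real.exp (2 / 3 * n)) := by ring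
    _ = _ := by rw [e2]; ring

set_option maxHeartbeats 1000000 in
/-- **(I1) for a sequence dominated by the difference of a natural list and the list with new
lengths of the first two pieces.** -/
theorem I1LEx {w : ℝ → ℝ} (hw : Wgt w) (hw0 : ∀ x, 0 ≤ w x) {h : ℝ → ℝ} {c : ℝ} (hpu : PU h c)
    (N : ℕ) {R₁ : ℝ} (hR₁ : 0 ≤ R₁) (hR : ∀ u, cx h u ≠ 0 → |u| ≤ R₁) {ε e₁ M B₂ B₃ : ℝ}
    (hε : 0 < ε) (he₁ : 0 < e₁) (hM : 0 ≤ M) (hB₂ : 0 < B₂) {ν Dd : ℝ} (hν : 1 ≤ ν)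
    (hDd : 0 ≤ Dd) :
    ∃ C r : ℝ, 0 ≤ C ∧ 0 ≤ r ∧ ∀ X : ℝ, 3 ≤ X → ∀ (P : DPar), P.OK → HC P.n P.ψ →
      (nm P.n : ℝ) ≤ X ^ B₃ → ¬ NPm P.n P.ψ P.l₂ 1 → ∀ q : Eis, q ≠ 0 → (nm q : ℝ) ≤ X ^ B₃ →
      ∀ (p1 p2 : Pq) (l : List Pq), p1.u = .one → p2.u = .one → p1.kd = .mo → p2.kd = .mo →
      (nm p1.d : ℝ) ≤ X ^ B₃ → (nm p2.d : ℝ) ≤ X ^ B₃ → (p1 :: p2 :: l).length ≤ N →
      (∀ p ∈ p1 :: p2 :: l, 0 ≤ p.z) → LN (p1 :: p2 :: l) ≤ Real.log X →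
      ∀ d s0 : ℝ, 0 ≤ d → d ≤ p1.z + p2.z → s0 ≤ p1.z → s0 ≤ p2.z → s0 ≤ p1.z + p2.z - d →
      s0 ≤ d →
      ∀ (K Y D Y₀ Y₁ D' Y₁' T₀ E0 F F₂ F' F₂' : ℝ), 1 ≤ K →
      Real.exp (LN (p1 :: p2 :: l) + N * R₁ + 1) ≤ Y → Y ≤ X ^ B₂ → 0 ≤ D → 0 < Y₁ → D ≤ D' →
      Y₁ ≤ Y₁' → Y₁' ≤ D' ^ 2 → Y₁' * ν ≤ X →
      Real.exp (2 * LN (p1 :: p2 :: l)) * X ^ e₁ ≤ K * Y₁' → Y₀ < 1 → 0 < E0 →
      0 < T₀ → 0 ≤ F → 0 ≤ F₂ → 0 ≤ F' → 0 ≤ F₂' →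
      FlatLK Dk h P q (p1 :: p2 :: l) (X ^ B₂) r M (Real.log K) (Real.log (Y₁' * ν)) F →
      TailK Dk h P q (p1 :: p2 :: l) (X ^ B₂) r M (Real.log K) (Real.log (Y₁' * ν))
        (Real.log T₀) (Real.log E0) F₂ →
      FlatLK Dk h P q (rl p1 p2 l d) (X ^ B₂) r M (Real.log K) (Real.log (Y₁' * ν)) F' →
      TailK Dk h P q (rl p1 p2 l d) (X ^ B₂) r M (Real.log K) (Real.log (Y₁' * ν))
        (Real.log T₀) (Real.log E0) F₂' →
      ∀ al : Eis → ℂ, Dom ν Dd (xN P h q p1 p2 l d) al →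
      ∀ om : Eis × Eis → ℂ, (∀ x, ‖1 - om x‖ ≤ 1) →
      (∀ x : Eis × Eis, (nm (x.2 * x.1 ^ 2) : ℝ) ≤ T₀ → om x = 1) →
      (∀ x ∈ JW D' Y₀ Y₁', x ∉ JW D Y₀ Y₁ → om x = 0) → ∀ (Q : Eis → Prop) (e₂ e₃ : ℝ),
      ‖CrP w K al (fun k => if Q k then StE E0 (JW D Y₀ Y₁) om al k else 0) -
        ((pC * c3 w K : ℝ) : ℂ) * X2 Y E0 (JW D Y₀ Y₁) om al‖ ≤ e₂ →
      GrP w K (fun k => if Q k then
          StE E0 (JW D Y₀ Y₁) om al k else 0) ≤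
        c3 w K * (X3 Y E0 (JW D Y₀ Y₁) om al).re + e₃ →
      ∑' k : Eis, (if IsPrim k ∧ Q k then w (nm k / K) *
        ‖CS al k -
          (pC : ℂ) * StE E0 (JW D Y₀ Y₁) om al k‖ ^ 2 else 0) ≤
      C * X ^ ε * (K * Real.exp (LN (p1 :: p2 :: l))) * (1 + F + F₂ + F' + F₂' +
          FbN K (LN (p1 :: p2 :: l)) s0 (Y₁' * ν) (Ht (natl (p1 :: p2 :: l)))) +
        2 * pC * e₂ + pC ^ 2 * e₃ := by
  set B : ℝ := max (max 1 B₃) (2 * (B₂ + 1)) with hB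
  have hB1 : 1 ≤ B := (le_max_left _ _).trans (le_max_left _ _)
  have hB3 : B₃ ≤ B := (le_max_right _ _).trans (le_max_left _ _)
  have hB2 : 2 * (B₂ + 1) ≤ B := le_max_right _ _
  obtain ⟨C₀, hC₀, H₀⟩ := pbh_xN hpu N hB1 (ε := ε / 2) (by positivity)
  obtain ⟨C₁, r, hC₁, hr, H₁⟩ := I1LE hw hw0 hpu N hR₁ hR (ε := ε / 2) (e₁ := e₁) (M := M)
    (B₂ := B₂) (by positivity) he₁ hM hB₂ hν hDd
  refine ⟨C₁ * C₀, r, by positivity, hr, ?_⟩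
  intro X hX P hP hψ hPn hnp q hq hqX p1 p2 l hu1 hu2 hk1 hk2 hd1 hd2 hlen hz hLX d s0 hd hd' h1 h2
    h3 h4 K Y D Y₀ Y₁ D' Y₁' T₀ E0 F F₂ F' F₂' hK hYl hYu hD hY₁ hDD hYY hYD hYX hKX hY₀ hE0 hT₀
    hF hF₂ hF' hF₂' hcl htl hcl' htl' al hdom om hom1 hom homJ Q e₂ e₃ ht he
  have hX1 : (1 : ℝ) ≤ X := by linarith
  have hX0 : 0 < X := by linarith
  have hK0 : 0 < K := by linarith
  have hX3 : X ^ B₃ ≤ X ^ B := Real.rpow_le_rpow_of_exponent_le hX1 hB3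
  have hlen' : l.length ≤ N := by
    simp only [List.length_cons] at hlen
    omega
  have z1 := hz p1 List.mem_cons_self
  have z2 := hz p2 (List.mem_cons_of_mem _ List.mem_cons_self)
  have hzl : ∀ p ∈ l, 0 ≤ p.z := fun p hp => hz p (List.mem_cons_of_mem _
    (List.mem_cons_of_mem _ hp))
  have z3 : 0 ≤ LN l := LN_nonneg hzl
  have e1 : LN (p1 :: p2 :: l) = p1.z + (p2.z + LN l) := by
    unfold LN
    simp only [List.map_cons, List.sum_cons]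
  have hle : ∀ p ∈ l, p.z ≤ LN l := fun p hp => by
    unfold LN
    exact List.single_le_sum (fun x hx => by
      obtain ⟨p', hp', rfl⟩ := List.mem_map.1 hx
      exact hzl p' hp') _ (List.mem_map.2 ⟨p, hp, rfl⟩)
  have hz1 : ∀ p ∈ p1 :: p2 :: l, 0 ≤ p.z ∧ p.z ≤ Real.log X := by
    intro p hp
    refine ⟨hz p hp, ?_⟩
    rcases List.mem_cons.1 hp with rfl | hp
    · linarith
    rcases List.mem_cons.1 hp with rfl | hp
    · linarith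
    · linarith [hle p hp]
  have hz2 : ∀ p ∈ rl p1 p2 l d, 0 ≤ p.z ∧ p.z ≤ Real.log X := by
    intro p hp
    unfold rl at hp
    rcases List.mem_cons.1 hp with rfl | hp
    · exact ⟨by show 0 ≤ p1.z + p2.z - d; linarith, by
        show p1.z + p2.z - d ≤ _; linarith⟩
    rcases List.mem_cons.1 hp with rfl | hp
    · exact ⟨hd, by show d ≤ _; linarith⟩
    · exact ⟨hzl p hp, by linarith [hle p hp]⟩
  have hV : (X ^ (B₂ + 1)) ^ 2 ≤ X ^ B := by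
    rw [← Real.rpow_natCast, ← Real.rpow_mul hX0.le]
    refine Real.rpow_le_rpow_of_exponent_le hX1 (le_trans (le_of_eq ?_) hB2)
    push_cast; ring
  have hpb := H₀ X hX P hP hψ (hPn.trans hX3) hnp q hq (hqX.trans hX3) p1 p2 l hu1 hu2 hk1 hk2
    (hd1.trans hX3) (hd2.trans hX3) hlen' hz hLX d s0 h1 h2 h3 h4 (max (N * M) 12)
    (le_max_right _ _) _ hV
  set n := LN (p1 :: p2 :: l) with hn
  set H := Ht (natl (p1 :: p2 :: l)) with _hH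
  have hH1 : 1 ≤ H := one_le_Ht _
  have hY₁'0 : 0 < Y₁' := hY₁.trans_le hYY
  have hν0 : 0 < ν := by linarith
  have hFb0 : 0 ≤ FbN K n s0 (Y₁' * ν) H := FbN_nonneg hK0.le (by positivity) (by linarith) _ _
  have hXe1 : 1 ≤ X ^ (ε / 2) := Real.one_le_rpow hX1 (by positivity)
  have key := H₁ X hX P hP q (p1 :: p2 :: l) (rl p1 p2 l d) hlen
    (by unfold rl; simpa using hlen) hz1 hz2 hLX (LN_rl _ _ _ _) (zN p1 p2 d)
    (norm_zN _ _ _).le (xN P h q p1 p2 l d) (xN_eq P h q p1 p2 l d)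
    K Y D Y₀ Y₁ D' Y₁' T₀ E0 F F₂ F' F₂' _ _ (C₀ * X ^ (ε / 2) * FbN K n s0 (Y₁' * ν) H)
    hK hYl hYu hD hY₁ hDD hYY hYD hYX hKX hY₀ hE0 hT₀ hF hF₂ hF' hF₂' (by positivity)
    (Real.exp_pos _).le (by positivity) hcl htl hcl' htl' hpb
    (le_of_eq (Nb_FbN (C₀ := C₀ * X ^ (ε / 2)) n s0)) al hdom om hom1 hom homJ Q e₂ e₃ ht he
  refine key.trans ?_
  have hXe : X ^ (ε / 2) * X ^ (ε / 2) = X ^ ε := by
    rw [← Real.rpow_add hX0]; congr 1; ring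
  set FF := FbN K n s0 (Y₁' * ν) H with hFF
  have hCX : 1 ≤ C₀ * X ^ (ε / 2) := one_le_mul_of_one_le_of_one_le hC₀ hXe1
  have h5 : 1 + F + F₂ + F' + F₂' + C₀ * X ^ (ε / 2) * FF ≤
      C₀ * X ^ (ε / 2) * (1 + F + F₂ + F' + F₂' + FF) := by
    have h6 : 0 ≤ (C₀ * X ^ (ε / 2) - 1) * (1 + F + F₂ + F' + F₂') :=
      mul_nonneg (by linarith) (by positivity)
    nlinarith
  have h7 : C₁ * X ^ (ε / 2) * (K * Real.exp n) *
      (1 + F + F₂ + F' + F₂' + C₀ * X ^ (ε / 2) * FF) ≤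
      C₁ * C₀ * X ^ ε * (K * Real.exp n) * (1 + F + F₂ + F' + F₂' + FF) := by
    calc _ ≤ C₁ * X ^ (ε / 2) * (K * Real.exp n) *
          (C₀ * X ^ (ε / 2) * (1 + F + F₂ + F' + F₂' + FF)) :=
          mul_le_mul_of_nonneg_left h5 (by positivity)
      _ = C₁ * C₀ * (X ^ (ε / 2) * X ^ (ε / 2)) * (K * Real.exp n) *
          (1 + F + F₂ + F' + F₂' + FF) := by ring
      _ = _ := by rw [hXe]
  linarith

/-! ### twists by `S`-units -/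

open Crest.Agent.R017.E5B71 (Pt)

/-- the difference of the lists twisted by `s` -/
def xT (P : DPar) (h : ℝ → ℝ) (s q : Eis) (p1 p2 : Pq) (l : List Pq) (d : ℝ) (n : Eis) : ℂ :=
  sqc q (alL h ((p1 :: p2 :: l).map (Pt P s))) n -
    zN p1 p2 d * sqc q (alL h ((rl p1 p2 l d).map (Pt P s))) n

lemma xT_eq (P : DPar) (h : ℝ → ℝ) (s q : Eis) (p1 p2 : Pq) (l : List Pq) (d : ℝ) :
    xT P h s q p1 p2 l d = tw3 s (xN P h q p1 p2 l d) := by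
  funext n
  unfold xT
  rw [sqc_tw, sqc_tw]
  unfold tw3
  rw [xN_eq]
  ring

lemma dom_xT {P : DPar} (hP : P.OK) (h : ℝ → ℝ) {s : Eis} (hs : s ∈ FE47.SM P.n) (q : Eis)
    (p1 p2 : Pq) (l : List Pq) (d : ℝ) : Dom ((nm s : ℝ) ^ 2) (ds s).card (xN P h q p1 p2 l d)
      (xT P h s q p1 p2 l d) := by
  rw [xT_eq]
  have key : ∀ n, xN P h q p1 p2 l d n ≠ 0 → ∃ qs : List Pq, alL h (qs.map (Pq.pc P)) n ≠ 0 := by
    intro n hn
    rw [xN_eq] at hn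
    by_cases h0 : sqc q (alF 1 1 P h (natl (p1 :: p2 :: l))) n = 0
    · rw [h0, zero_sub, neg_ne_zero] at hn
      have h1 := right_ne_zero_of_mul (right_ne_zero_of_mul hn)
      rw [alF_natl] at h1
      exact ⟨_, h1⟩
    · have h1 := right_ne_zero_of_mul h0
      rw [alF_natl] at h1
      exact ⟨_, h1⟩
  refine dom_tw hs.1 (fun n hn => ?_) fun n hn => ?_
  · obtain ⟨qs, h1⟩ := key n hn
    exact alL_prim h1
  · obtain ⟨qs, h1⟩ := key n hn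
    exact SM_cop hs (alL_cop hP h1).2

/-- **(I1) for the difference of the lists twisted by an `S`-unit `s`.** -/
theorem I1LTE {w : ℝ → ℝ} (hw : Wgt w) (hw0 : ∀ x, 0 ≤ w x) {h : ℝ → ℝ} {c : ℝ} (hpu : PU h c)
    (N : ℕ) {R₁ : ℝ} (hR₁ : 0 ≤ R₁) (hR : ∀ u, cx h u ≠ 0 → |u| ≤ R₁) {ε e₁ M B₂ B₃ : ℝ}
    (hε : 0 < ε) (he₁ : 0 < e₁) (hM : 0 ≤ M) (hB₂ : 0 < B₂) {s : Eis} (hs0 : s ≠ 0) :
    ∃ C r : ℝ, 0 ≤ C ∧ 0 ≤ r ∧ ∀ X : ℝ, 3 ≤ X → ∀ (P : DPar), P.OK → s ∈ FE47.SM P.n →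
      HC P.n P.ψ → (nm P.n : ℝ) ≤ X ^ B₃ → ¬ NPm P.n P.ψ P.l₂ 1 → ∀ q : Eis, q ≠ 0 →
      (nm q : ℝ) ≤ X ^ B₃ →
      ∀ (p1 p2 : Pq) (l : List Pq), p1.u = .one → p2.u = .one → p1.kd = .mo → p2.kd = .mo →
      (nm p1.d : ℝ) ≤ X ^ B₃ → (nm p2.d : ℝ) ≤ X ^ B₃ → (p1 :: p2 :: l).length ≤ N →
      (∀ p ∈ p1 :: p2 :: l, 0 ≤ p.z) → LN (p1 :: p2 :: l) ≤ Real.log X →
      ∀ d s0 : ℝ, 0 ≤ d → d ≤ p1.z + p2.z → s0 ≤ p1.z → s0 ≤ p2.z → s0 ≤ p1.z + p2.z - d →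
      s0 ≤ d →
      ∀ (K Y D Y₀ Y₁ D' Y₁' T₀ E0 F F₂ F' F₂' : ℝ), 1 ≤ K →
      Real.exp (LN (p1 :: p2 :: l) + N * R₁ + 1) ≤ Y → Y ≤ X ^ B₂ → 0 ≤ D → 0 < Y₁ → D ≤ D' →
      Y₁ ≤ Y₁' → Y₁' ≤ D' ^ 2 → Y₁' * (nm s : ℝ) ^ 2 ≤ X →
      Real.exp (2 * LN (p1 :: p2 :: l)) * X ^ e₁ ≤ K * Y₁' → Y₀ < 1 → 0 < E0 →
      0 < T₀ → 0 ≤ F → 0 ≤ F₂ → 0 ≤ F' → 0 ≤ F₂' →
      FlatLK Dk h P q (p1 :: p2 :: l) (X ^ B₂) r M (Real.log K)
        (Real.log (Y₁' * (nm s : ℝ) ^ 2)) F →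
      TailK Dk h P q (p1 :: p2 :: l) (X ^ B₂) r M (Real.log K)
        (Real.log (Y₁' * (nm s : ℝ) ^ 2)) (Real.log T₀) (Real.log E0) F₂ →
      FlatLK Dk h P q (rl p1 p2 l d) (X ^ B₂) r M (Real.log K)
        (Real.log (Y₁' * (nm s : ℝ) ^ 2)) F' →
      TailK Dk h P q (rl p1 p2 l d) (X ^ B₂) r M (Real.log K)
        (Real.log (Y₁' * (nm s : ℝ) ^ 2)) (Real.log T₀) (Real.log E0) F₂' →
      ∀ om : Eis × Eis → ℂ, (∀ x, ‖1 - om x‖ ≤ 1) →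
      (∀ x : Eis × Eis, (nm (x.2 * x.1 ^ 2) : ℝ) ≤ T₀ → om x = 1) →
      (∀ x ∈ JW D' Y₀ Y₁', x ∉ JW D Y₀ Y₁ → om x = 0) → ∀ (Q : Eis → Prop) (e₂ e₃ : ℝ),
      ‖CrP w K (xT P h s q p1 p2 l d) (fun k => if Q k then
          StE E0 (JW D Y₀ Y₁) om (xT P h s q p1 p2 l d) k else 0) -
        ((pC * c3 w K : ℝ) : ℂ) * X2 Y E0 (JW D Y₀ Y₁) om (xT P h s q p1 p2 l d)‖ ≤ e₂ →
      GrP w K (fun k => if Q k then
          StE E0 (JW D Y₀ Y₁) om (xT P h s q p1 p2 l d) k else 0) ≤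
        c3 w K * (X3 Y E0 (JW D Y₀ Y₁) om (xT P h s q p1 p2 l d)).re + e₃ →
      ∑' k : Eis, (if IsPrim k ∧ Q k then w (nm k / K) *
        ‖CS (xT P h s q p1 p2 l d) k -
          (pC : ℂ) * StE E0 (JW D Y₀ Y₁) om (xT P h s q p1 p2 l d) k‖ ^ 2 else 0) ≤
      C * X ^ ε * (K * Real.exp (LN (p1 :: p2 :: l))) * (1 + F + F₂ + F' + F₂' +
          FbN K (LN (p1 :: p2 :: l)) s0 (Y₁' * (nm s : ℝ) ^ 2) (Ht (natl (p1 :: p2 :: l)))) +
        2 * pC * e₂ + pC ^ 2 * e₃ := by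
  obtain ⟨C, r, hC, hr, H⟩ := I1LEx hw hw0 hpu N hR₁ hR (B₃ := B₃) hε he₁ hM hB₂
    (one_le_pow₀ (nm_ne hs0) (n := 2)) (Nat.cast_nonneg (ds s).card)
  refine ⟨C, r, hC, hr, ?_⟩
  intro X hX P hP hs hψ hPn hnp q hq hqX p1 p2 l hu1 hu2 hk1 hk2 hd1 hd2 hlen hz hLX d s0 hd hd'
    h1 h2 h3 h4 K Y D Y₀ Y₁ D' Y₁' T₀ E0 F F₂ F' F₂' hK hYl hYu hD hY₁ hDD hYY hYD hYX hKX hY₀
    hE0 hT₀ hF hF₂ hF' hF₂' hcl htl hcl' htl' om hom1 hom homJ Q e₂ e₃ ht he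
  exact H X hX P hP hψ hPn hnp q hq hqX p1 p2 l hu1 hu2 hk1 hk2 hd1 hd2 hlen hz hLX d s0 hd hd'
    h1 h2 h3 h4 K Y D Y₀ Y₁ D' Y₁' T₀ E0 F F₂ F' F₂' hK hYl hYu hD hY₁ hDD hYY hYD hYX hKX hY₀
    hE0 hT₀ hF hF₂ hF' hF₂' hcl htl hcl' htl' _ (dom_xT hP h hs q p1 p2 l d) om hom1 hom homJ Q
    e₂ e₃ ht he

end Crest.Agent.R017.I1K764
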