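import Crest.Agent.R017.RXb_739
import Crest.Agent.R017.I1LE_764
import Crest.Agent.R017.LBo_813

/-!
# Row 17, class E, the R-side of P1 (helper739), part d: the data of a difference

* `xd_of` : the difference `xN` of a natural list and the replaced list satisfies `XD`
* `xd_one` : a single natural list (`ζ = 0`)
-/

set_option autoImplicit false
set_option linter.unusedVariables false
set_option maxHeartbeats 1000000

noncomputable section

open Finset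
open scoped ComplexConjugate

namespace Crest.Agent.R017.RXd739

open Crest.Agent.R012 Crest.Agent.R012.Eis Crest.Agent.R012.LS2 Crest.Agent.R012.Gauss880
open Crest.Agent.R017.FE47 (cx PU)
open Crest.Agent.R017.B770
open Crest.Agent.R017.Prov71
open Crest.Agent.R017.CM106 (CS FS)
open Crest.Agent.R017.HP842 (pc sqc)
open Crest.Agent.R017.Leg381 (alf alF natl LF Pf alF_ofFn)
open Crest.Agent.R017.PrD502 (PV)
open Crest.Agent.R017.I1146 (LN LF_natl)
open Crest.Agent.R017.I1K764 (xN zN rl LN_rl norm_zN xN_eq LN_nonneg)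
open Crest.Agent.R017.ExD791 (xr)
open Crest.Agent.R017.RG64 (Ht one_le_Ht)
open Crest.Agent.R017.End699 (HC)
open Crest.Agent.R017.Sup271 (NPm)
open Crest.Agent.R017.RXb739

/-- at cubes the character is principal if it is at `1` -/
lemma np_cube {n : Eis} {ψ : Eis → ℂ} {l : ℤ} (h1 : ¬ NPm n ψ l 1) {k : Eis} (hk : k ≠ 0)
    (hc : ∃ m, k = m ^ 3) : ¬ NPm n ψ l k := by
  obtain ⟨m, hm⟩ := hc
  intro h
  apply h1
  unfold Sup271.NPm End699.NP at h ⊢
  rcases h with h | ⟨a, ha, hco, hne⟩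
  · exact Or.inl h
  · refine Or.inr ⟨a, ha, ?_, ?_⟩
    · have h2 : IsCoprime a n := hco.of_mul_right_left
      have h3 : IsCoprime a 9 := hco.of_mul_right_right.of_mul_right_left
      rw [mul_one]
      exact h2.mul_right h3
    · have h2 : IsCoprime a k := hco.of_mul_right_right.of_mul_right_right
      have h3 : IsCoprime m a := by
        have : IsCoprime a (m ^ 3) := by rw [← hm]; exact h2
        exact ((IsCoprime.pow_right_iff (by norm_num)).1 this).symm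
      intro h4
      apply hne
      have e1 : sy k a = 1 := by rw [hm]; exact Char766.sy_cube_left ha h3
      have e2 : sy 1 a = 1 := by
        have := Char766.sy_cube_left ha (m := 1) isCoprime_one_left
        rwa [one_pow] at this
      simp only at h4 ⊢
      rw [e1]
      rwa [e2] at h4

lemma natl_ofFn {r : ℕ} (s : Fin r → Pq) :
    natl (List.ofFn s) = List.ofFn fun i => (s i, false) := by
  unfold Leg381.natl
  rw [List.map_ofFn]
  rfl

lemma alF_natl_ofFn (P : DPar) (h : ℝ → ℝ) {r : ℕ} (s : Fin r → Pq) :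
    alF 1 1 P h (natl (List.ofFn s)) = alf 1 1 h (fun i => (s i).pc P) (fun _ => false) := by
  rw [natl_ofFn, alF_ofFn]

lemma sum_ofFn {r : ℕ} (s : Fin r → Pq) : ∑ k, (s k).z = LN (List.ofFn s) := by
  unfold I1146.LN
  rw [List.map_ofFn, List.sum_ofFn]
  rfl

/-- size, support of one natural list -/
theorem nat_sz {h : ℝ → ℝ} {c : ℝ} (hpu : PU h c) (N : ℕ) {R : ℝ} (hR0 : 0 ≤ R)
    (hR : ∀ u, cx h u ≠ 0 → |u| ≤ R) {B : ℝ} (hB : 1 ≤ B) {ε : ℝ} (hε : 0 < ε) :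
    ∃ C : ℝ, 1 ≤ C ∧ ∀ X : ℝ, 3 ≤ X → ∀ (P : DPar), P.OK → ∀ ps : List Pq, ps.length ≤ N →
      (∀ p ∈ ps, 0 ≤ p.z) → LN ps ≤ B * Real.log X →
      (∀ n, ‖sqc 1 (alF 1 1 P h (natl ps)) n‖ ≤ C * X ^ ε) ∧
      (∀ n, sqc 1 (alF 1 1 P h (natl ps)) n ≠ 0 → IsPrim n ∧ Squarefree n ∧
        |Real.log (nm n) - LN ps| ≤ N * R) := by
  have hB0 : 0 < B := by linarith
  obtain ⟨C, hC, H⟩ := LBo813.norm_list_le hpu N (show 0 < ε / B by positivity)
  have hC0 : 0 ≤ C := by linarith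
  refine ⟨C * Real.exp (ε / B * (N * R)), one_le_mul_of_one_le_of_one_le hC
    (Real.one_le_exp (by positivity)), ?_⟩
  intro X hX P hP ps hlen hz hLN
  have hX0 : 0 < X := by linarith
  have hn0 : 0 ≤ LN ps := LN_nonneg hz
  have hsup : ∀ n, sqc 1 (alF 1 1 P h (natl ps)) n ≠ 0 → IsPrim n ∧ Squarefree n ∧
      |Real.log (nm n) - LN ps| ≤ N * R := by
    intro n hn
    obtain ⟨g1, g2, -, g3⟩ := AL813.al_supp hR 1 1 P 1 (natl ps) hn
    have hlen' : ((natl ps).length : ℝ) ≤ N := by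
      have : (natl ps).length = ps.length := by unfold Leg381.natl; simp
      rw [this]
      exact_mod_cast hlen
    rw [LF_natl] at g3
    exact ⟨g1, g2, g3.trans (mul_le_mul_of_nonneg_right hlen' hR0)⟩
  refine ⟨fun n => ?_, hsup⟩
  by_cases h0 : sqc 1 (alF 1 1 P h (natl ps)) n = 0
  · rw [h0, norm_zero]; positivity
  obtain ⟨g1, g2, g3⟩ := hsup n h0
  have hn : (0 : ℝ) < nm n := by exact_mod_cast nm_pos.2 g1.ne_zero
  set Y : ℝ := Real.exp (LN ps + N * R) with hY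
  have hY1 : 1 ≤ Y := Real.one_le_exp (by positivity)
  have hnS : n ∈ S Y := by
    rw [mem_S (by linarith)]
    refine ⟨?_, g1, g2⟩
    rw [← Real.log_le_iff_le_exp hn]
    linarith [(abs_le.1 g3).2]
  have hlen' : (natl ps).length ≤ N := by
    have : (natl ps).length = ps.length := by unfold Leg381.natl; simp
    rw [this]
    exact hlen
  refine (H 1 1 P hP 1 (natl ps) hlen' Y hY1 n hnS).trans ?_
  rw [mul_assoc]
  refine mul_le_mul_of_nonneg_left ?_ hC0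
  rw [hY, ← Real.exp_mul, Real.rpow_def_of_pos hX0, ← Real.exp_add]
  refine Real.exp_le_exp.2 ?_
  have h1 : ε / B * LN ps ≤ ε / B * (B * Real.log X) :=
    mul_le_mul_of_nonneg_left hLN (by positivity)
  have h2 : ε / B * (B * Real.log X) = ε * Real.log X := by
    field_simp
  nlinarith

/-- **the data of a difference** -/
theorem xd_of {h : ℝ → ℝ} {c : ℝ} (hpu : PU h c) (N : ℕ) {R : ℝ} (hR0 : 0 ≤ R)
    (hR : ∀ u, cx h u ≠ 0 → |u| ≤ R) {B : ℝ} (hB : 1 ≤ B) {ε : ℝ} (hε : 0 < ε) :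
    ∃ C : ℝ, 1 ≤ C ∧ ∀ X : ℝ, 3 ≤ X → ∀ (P : DPar), P.OK → HC P.n P.ψ → (nm P.n : ℝ) ≤ X ^ B →
      ¬ NPm P.n P.ψ P.l₂ 1 → ∀ (p1 p2 : Pq) (l : List Pq), p1.u = .one → p2.u = .one →
      p1.kd = .mo → p2.kd = .mo → (nm p1.d : ℝ) ≤ X ^ B → (nm p2.d : ℝ) ≤ X ^ B →
      (p1 :: p2 :: l).length ≤ N → (∀ p ∈ p1 :: p2 :: l, 0 ≤ p.z) →
      LN (p1 :: p2 :: l) ≤ B * Real.log X → ∀ d s0 : ℝ, 0 ≤ d → d ≤ p1.z + p2.z →
      s0 ≤ p1.z → s0 ≤ p2.z → s0 ≤ p1.z + p2.z - d → s0 ≤ d → ∀ (Pz : ℝ) (a₀ : ℕ),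
      Real.exp (LN (p1 :: p2 :: l)) ≤ Pz → C * X ^ ε ≤ Pz ^ a₀ → ∀ (r : ℕ) (s s₂ : Fin r → Pq),
      List.ofFn s = p1 :: p2 :: l → List.ofFn s₂ = rl p1 p2 l d →
      XD h P s s₂ (zN p1 p2 d) (xN P h 1 p1 p2 l d) Pz (C * X ^ ε)
        (C * X ^ ε * Ht (natl (p1 :: p2 :: l)) ^ 3 * Real.exp (LN (p1 :: p2 :: l))) s0 (X ^ B)
        (Real.exp (∑ k, (s k).z)) (N * R) a₀ := by
  obtain ⟨C₁, hC₁, H₁⟩ := nat_sz hpu N hR0 hR hB hε
  obtain ⟨C₂, hC₂, H₂⟩ := PrD502.pv_xr hpu N (B := B) (by linarith) hε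
  refine ⟨2 * C₁ + C₂, by linarith, ?_⟩
  intro X hX P hP hψ hPn hnp p1 p2 l hu1 hu2 hk1 hk2 hd1 hd2 hlen hz hLN d s0 hd hd' h1 h2 h3 h4 Pz
    a₀ hPz hCP r s s₂ hs hs₂
  have hX0 : 0 < X := by linarith
  have hX1 : 1 ≤ X := by linarith
  have hXe : 0 ≤ X ^ ε := by positivity
  have hlX : 0 ≤ Real.log X := Real.log_nonneg hX1
  have z1 := hz p1 List.mem_cons_self
  have z2 := hz p2 (List.mem_cons_of_mem _ List.mem_cons_self)
  have hzl : ∀ p ∈ l, 0 ≤ p.z := fun p hp => hz p (List.mem_cons_of_mem _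
    (List.mem_cons_of_mem _ hp))
  have z3 : 0 ≤ LN l := LN_nonneg hzl
  have e1 : LN (p1 :: p2 :: l) = p1.z + (p2.z + LN l) := by
    unfold I1146.LN
    simp only [List.map_cons, List.sum_cons]
  have hn0 : 0 ≤ LN (p1 :: p2 :: l) := LN_nonneg hz
  have hz₂ : ∀ p ∈ rl p1 p2 l d, 0 ≤ p.z := by
    intro p hp
    unfold I1K764.rl at hp
    rcases List.mem_cons.1 hp with rfl | hp
    · show 0 ≤ p1.z + p2.z - d; linarith
    rcases List.mem_cons.1 hp with rfl | hp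
    · exact hd
    · exact hzl p hp
  have hlen₂ : (rl p1 p2 l d).length ≤ N := by
    unfold I1K764.rl; simpa using hlen
  have hn₂ := LN_rl p1 p2 l d
  have hle : ∀ (ps : List Pq), (∀ p ∈ ps, 0 ≤ p.z) → ∀ p ∈ ps, p.z ≤ LN ps := by
    intro ps hps p hp
    unfold I1146.LN
    exact List.single_le_sum (fun x hx => by
      obtain ⟨p', hp', rfl⟩ := List.mem_map.1 hx
      exact hps p' hp') _ (List.mem_map.2 ⟨p, hp, rfl⟩)
  obtain ⟨g1, g2⟩ := H₁ X hX P hP (p1 :: p2 :: l) hlen hz hLN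
  obtain ⟨g3, g4⟩ := H₁ X hX P hP (rl p1 p2 l d) hlen₂ hz₂ (by rw [hn₂]; exact hLN)
  rw [hn₂] at g4
  have hsi : ∀ i, s i ∈ p1 :: p2 :: l := fun i => by rw [← hs]; exact List.mem_ofFn.2 ⟨i, rfl⟩
  have hs₂i : ∀ i, s₂ i ∈ rl p1 p2 l d := fun i => by rw [← hs₂]; exact List.mem_ofFn.2 ⟨i, rfl⟩
  have hHt := one_le_Ht (natl (p1 :: p2 :: l))
  have hxne : ∀ n, xN P h 1 p1 p2 l d n ≠ 0 → IsPrim n ∧ Squarefree n ∧
      |Real.log (nm n) - LN (p1 :: p2 :: l)| ≤ N * R := by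
    intro n hn
    rw [xN_eq] at hn
    by_cases h0 : sqc 1 (alF 1 1 P h (natl (p1 :: p2 :: l))) n = 0
    · rw [h0, zero_sub, neg_ne_zero] at hn
      exact g4 n (right_ne_zero_of_mul hn)
    · exact g2 n h0
  have hsum : ∑ k, (s k).z = LN (p1 :: p2 :: l) := by rw [sum_ofFn, hs]
  refine
    { hP := hP
      z := fun i => hz _ (hsi i)
      z₂ := fun i => hz₂ _ (hs₂i i)
      zP := fun i => (Real.exp_le_exp.2 (hle _ hz _ (hsi i))).trans hPz
      zP₂ := fun i => (Real.exp_le_exp.2 ((hle _ hz₂ _ (hs₂i i)).trans (le_of_eq hn₂))).trans hPz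
      ζ1 := (norm_zN p1 p2 d).le
      eq := ?_
      nx := fun n => ?_
      AP := hCP
      A0 := by positivity
      sq := fun n hn => (hxne n hn).2.1
      X0 := Real.exp_pos _
      XP := by rw [hsum]; exact hPz
      win := fun n hn => by rw [hsum, Real.log_exp]; exact (hxne n hn).2.2
      Ap := by positivity
      pv := ?_ }
  · funext n
    rw [xN_eq, ← alF_natl_ofFn, ← alF_natl_ofFn, hs, hs₂]
  · rw [xN_eq]
    calc ‖sqc 1 (alF 1 1 P h (natl (p1 :: p2 :: l))) n -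
          zN p1 p2 d * sqc 1 (alF 1 1 P h (natl (rl p1 p2 l d))) n‖ ≤
          ‖sqc 1 (alF 1 1 P h (natl (p1 :: p2 :: l))) n‖ +
          ‖zN p1 p2 d * sqc 1 (alF 1 1 P h (natl (rl p1 p2 l d))) n‖ := norm_sub_le _ _
      _ ≤ C₁ * X ^ ε + C₁ * X ^ ε := by
          refine add_le_add (g1 n) ?_
          rw [norm_mul, norm_zN, one_mul]
          exact g3 n
      _ ≤ (2 * C₁ + C₂) * X ^ ε := by nlinarith
  · have hBl : LN l ≤ B * Real.log X := by linarith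
    have hlen' : (natl l).length ≤ N := by
      have h5 : (natl l).length = l.length := by unfold Leg381.natl; simp
      rw [h5]
      simp only [List.length_cons] at hlen
      omega
    have hnm1 : (nm (1 : Eis) : ℝ) ≤ X ^ B := by
      have h5 : (nm (1 : Eis) : ℝ) = 1 := by simp
      rw [h5]
      exact Real.one_le_rpow hX1 (by linarith)
    have hpv := H₂ X hX P (OKi848.OKi.of hP) hψ hPn (fun k hk hc => np_cube hnp hk hc) 1 1 le_rfl
      (p1, false) (p2, false) (natl l) hu1 hu2 hk1 hk2 hd1 hd2 hlen'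
      (by rw [LF_natl]; exact hBl) d s0 h1 h2 h3 h4 (by linarith) 1 one_ne_zero hnm1
    have e2 : LF ((p1, false) :: (p2, false) :: natl l) = LN (p1 :: p2 :: l) := by
      have := LF_natl (p1 :: p2 :: l)
      exact this
    have e3 : Ht ((p1, false) :: (p2, false) :: natl l) = Ht (natl (p1 :: p2 :: l)) := rfl
    rw [e2, e3, one_pow, mul_one] at hpv
    intro g hg hgZ k hk hkZ hc t
    refine (hpv g hg hgZ k hk hkZ hc t).trans ?_
    have hMg : 0 ≤ ExD791.Mg s0 g := by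
      unfold ExD791.Mg
      positivity
    have hC12 : C₂ ≤ 2 * C₁ + C₂ := by linarith
    gcongr

/-- **the data of a single list** -/
theorem xd_one {h : ℝ → ℝ} {c : ℝ} (hpu : PU h c) (N : ℕ) {R : ℝ} (hR0 : 0 ≤ R)
    (hR : ∀ u, cx h u ≠ 0 → |u| ≤ R) {B : ℝ} (hB : 1 ≤ B) {ε : ℝ} (hε : 0 < ε) :
    ∃ C : ℝ, 1 ≤ C ∧ ∀ X : ℝ, 3 ≤ X → ∀ (P : DPar), P.OK → ∀ (ps : List Pq), ps.length ≤ N →
      (∀ p ∈ ps, 0 ≤ p.z) → LN ps ≤ B * Real.log X → ∀ (Pz : ℝ) (a₀ : ℕ),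
      Real.exp (LN ps) ≤ Pz → C * X ^ ε ≤ Pz ^ a₀ → ∀ (r : ℕ) (s : Fin r → Pq),
      List.ofFn s = ps → ∀ Axp d0 Zp : ℝ, 0 ≤ Axp →
      PV (fun H => ∃ c, H = c ^ 3) 6 Axp d0 Zp (sqc 1 (alF 1 1 P h (natl ps))) →
      XD h P s s 0 (sqc 1 (alF 1 1 P h (natl ps))) Pz (C * X ^ ε) Axp d0 Zp
        (Real.exp (∑ k, (s k).z)) (N * R) a₀ := by
  obtain ⟨C₁, hC₁, H₁⟩ := nat_sz hpu N hR0 hR hB hε
  refine ⟨C₁, hC₁, ?_⟩
  intro X hX P hP ps hlen hz hLN Pz a₀ hPz hCP r s hs Axp d0 Zp hAxp hpv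
  have hX0 : 0 < X := by linarith
  have hXe : 0 ≤ X ^ ε := by positivity
  have hle : ∀ p ∈ ps, p.z ≤ LN ps := by
    intro p hp
    unfold I1146.LN
    exact List.single_le_sum (fun x hx => by
      obtain ⟨p', hp', rfl⟩ := List.mem_map.1 hx
      exact hz p' hp') _ (List.mem_map.2 ⟨p, hp, rfl⟩)
  obtain ⟨g1, g2⟩ := H₁ X hX P hP ps hlen hz hLN
  have hsi : ∀ i, s i ∈ ps := fun i => by rw [← hs]; exact List.mem_ofFn.2 ⟨i, rfl⟩
  have hsum : ∑ k, (s k).z = LN ps := by rw [sum_ofFn, hs]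
  exact
    { hP := hP
      z := fun i => hz _ (hsi i)
      z₂ := fun i => hz _ (hsi i)
      zP := fun i => (Real.exp_le_exp.2 (hle _ (hsi i))).trans hPz
      zP₂ := fun i => (Real.exp_le_exp.2 (hle _ (hsi i))).trans hPz
      ζ1 := by simp
      eq := by
        funext n
        rw [← alF_natl_ofFn, hs, zero_mul, sub_zero]
      nx := g1
      AP := hCP
      A0 := by positivity
      sq := fun n hn => (g2 n hn).2.1
      X0 := Real.exp_pos _
      XP := by rw [hsum]; exact hPz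
      win := fun n hn => by rw [hsum, Real.log_exp]; exact (g2 n hn).2.2
      Ap := hAxp
      pv := hpv }

end Crest.Agent.R017.RXd739
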