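import Crest.Agent.R017.RXp_440
import Crest.Agent.R017.RXm_440
import Crest.Agent.R017.RXd_739
import Crest.Agent.R017.RXc_739
import Crest.Agent.R017.P1Rk_440

/-!
# Row 17, class E, the R-side of `P1` (helper440): one block

* **`blkX`** : the inner double sum of a block of a difference against the weight `rhoS`
-/

set_option autoImplicit false
set_option maxHeartbeats 4000000

noncomputable section

open Finset
open scoped ComplexConjugate

namespace Crest.Agent.R017.RXs440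

open Crest.Agent.R012 Crest.Agent.R012.Eis
open Crest.Agent.R012.LS2 (S mem_S)
open Crest.Agent.R012.Mob705 (pdiv mem_pdiv)
open Crest.Agent.R012.T411 (NCube)
open Crest.Agent.R017.B770
open Crest.Agent.R017.Prov71
open Crest.Agent.R017.FE47 (cx PU)
open Crest.Agent.R017.I1146 (LN tw3 rhoS)
open Crest.Agent.R017.WDec180 (WD sc)
open Crest.Agent.R017.X6C180 (GF)
open Crest.Agent.R017.X6545 (Bd)
open Crest.Agent.R017.RC106 (k9)
open Crest.Agent.R017.E2440 (C4 Qs prs mem_prs Fh)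
open Crest.Agent.R017.PrD502 (Mu)
open Crest.Agent.R017.PrE176 (PJm)
open Crest.Agent.R017.P1H440 (Tg)
open Crest.Agent.R017.P1Re440 (SzP)
open Crest.Agent.R017.P1Rg440 Crest.Agent.R017.P1Rh440
open Crest.Agent.R017.P1Rk440 (k9_nonneg)
open Crest.Agent.R017.RXa739 (PMHQ)
open Crest.Agent.R017.RXb739 (XD PN)
open Crest.Agent.R017.RXl440 Crest.Agent.R017.RXm440 Crest.Agent.R017.RXo440
open Crest.Agent.R017.RXp440

variable {Λ : Type*} {π : Λ → DPar} {h : ℝ → ℝ} {d : ℝ}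

lemma mu_eq (s₀ : ℝ) {g : Eis} (hg : g ≠ 0) :
    Mu s₀ g = Real.exp (-max 0 (s₀ - Real.log (nm g))) := by
  have h0 : (0 : ℝ) < nm g := by exact_mod_cast nm_pos.2 hg
  unfold PrD502.Mu
  have e1 : (nm g : ℝ) * Real.exp (-s₀) = Real.exp (Real.log (nm g) - s₀) := by
    rw [sub_eq_add_neg, Real.exp_add, Real.exp_log h0]
  rw [e1]
  rcases le_total s₀ (Real.log (nm g)) with h1 | h1
  · rw [max_eq_left (by linarith), neg_zero, Real.exp_zero, min_eq_left]
    exact Real.one_le_exp (by linarith)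
  · rw [max_eq_right (by linarith), min_eq_right]
    · congr 1; ring
    · exact Real.exp_le_one_iff.2 (by linarith)

/-- `ShO` is at most `6 L` -/
lemma shO_le {L l A3 z p D e v s₀ : ℝ} (hl : l ≤ 2 * L) (hA : A3 ≤ L) (hp : p ≤ L) (hD : 0 ≤ D)
    (he : 0 ≤ e) (he1 : e ≤ L) (hv : 0 ≤ v) (hv2 : v ≤ 2 * L) (hL : 0 < L) :
    max (ShO (max l (5 / 4 * A3)) z p D e v) (5 / 3 * p + bcO s₀ D e v) ≤ 8 * L := by
  refine max_le ((min_le_left _ _).trans ?_) ?_
  · unfold TM708.eF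
    refine max_le (by linarith) ?_
    have h0 : max l (5 / 4 * A3) ≤ 2 * L := max_le (by linarith) (by linarith)
    have h1 : max (max l (5 / 4 * A3) + e / 2) (3 / 2 * (v + e)) ≤ 5 * L :=
      max_le (by linarith) (by linarith)
    linarith
  · unfold bcO
    have := le_max_left 0 (s₀ - (D + e))
    linarith

open Classical in
/-- **the inner bound at a block** -/
theorem blkX {c₀ : ℝ} (hpu : PU h c₀) {R : ℝ} (hR0 : 0 ≤ R)
    (hR : ∀ u, cx h u ≠ 0 → |u| ≤ R) (HI : PMQin NCube π h d) (HA : LineAX)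
    (HPr : LinePr) (HPo : LinePo) :
    ∃ σ : ℝ, 0 < σ ∧ σ ≤ 1 ∧ ∀ (lam : Λ) (st : Eis), st ≠ 0 → ∀ (N : ℕ) (B : ℝ), 0 ≤ B →
      ∀ Rw : ℝ, 0 ≤ Rw → ∀ (w : ℝ → ℝ) (Nw : ℕ) (Mw : ℝ) (Fw : ℕ → ℝ → ℂ), WD w Nw Mw Fw →
      ∃ (M b : ℕ) (Cz X₀ : ℝ), 1 ≤ Cz ∧ 1 < X₀ ∧ ∀ X : ℝ, X₀ ≤ X → ∀ (r : ℕ)
      (s s₂ : Fin r → Pq) (b0 b1 b2 c0 c1 c2 : Pq) (qs : List Pq),
      List.ofFn s = [b0, b1, b2] ++ qs → List.ofFn s₂ = [c0, c1, c2] ++ qs →
      qs.length ≤ N → ∀ H₀ : ℝ, Lst σ B X H₀ b0 b1 b2 qs → Lst σ B X H₀ c0 c1 c2 qs →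
      M * Real.log H₀ ≤ Real.log X / 10 ^ 4 → ∑ k, (s₂ k).z = ∑ k, (s k).z →
      ∀ (τ y₃ y₄ u x Z l z A3 p y bq s₀ hh v Rn : ℝ) (δ e : Eis), IsPrim δ → Squarefree δ →
      IsPrim e → ∀ yy ∈ prs δ, ∀ A ∈ pdiv yy.1,
      NumX (Real.log X) τ y₃ y₄ u x d Z l z A3 p y bq s₀ hh (Real.log (nm δ)) (Real.log (nm A))
        (Real.log (nm e)) v →
      p = ∑ k, (s k).z → 0 < Rn →
      (1 + max 0 (5 / 4 * (y₃ + y₄ + u) - 1) + 3 / 4 * d) * Real.log X + p -
        4 * (τ * Real.log X) ≤ Real.log Rn →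
      Lmp3 (Real.log X / 10 ^ 6) (Real.log X) y₃ y₄ u Z b0.z b1.z b2.z →
      Lmp3 (Real.log X / 10 ^ 6) (Real.log X) y₃ y₄ u Z c0.z c1.z c2.z →
      LN qs ≤ x * Real.log X + Real.log X / 10 ^ 6 →
      ∀ Sh : ℝ → ℝ → ℝ → ℝ, Sh (Real.log (nm δ)) (Real.log (nm e)) v ≤
        max (ShO (max l (5 / 4 * A3)) z p (Real.log (nm δ)) (Real.log (nm e)) v)
          (5 / 3 * p + bcO s₀ (Real.log (nm δ)) (Real.log (nm e)) v) →
      ∀ (ζ : ℂ) (x₀ : Eis → ℂ) (Ax Axp Zp : ℝ),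
      XD h (π lam) s s₂ ζ x₀ (X ^ 4) Ax Axp s₀ Zp (Real.exp (∑ k, (s k).z)) Rw 1 →
      Ax ≤ Real.exp (Real.log X / 10 ^ 6) → Axp ≤ Real.exp (p + Real.log X / 10 ^ 6) →
      Cz * (X ^ 4) ^ b * (nm st : ℝ) ^ 4 ≤ Zp → ∀ i < Nw,
      ∑ c ∈ C4, ∑ j₂ ∈ S (Real.sqrt (Real.exp v)), Qs (tw3 st x₀) δ e (Real.exp v)
        (sc (Real.exp l) Mw i) (GF (Fh (Fw i) hh)) yy A c j₂ ≤
      Rn * rhoS (4 / 3 * p + max 0 (5 / 4 * A3 - l)) l Sh δ e (Real.exp v) *
        ((sc (Real.exp l) Mw i) ^ (2 / 3 : ℝ) * (Real.exp v) ^ (-(1 / 3) : ℝ) /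
          (nm δ * nm e)) := by
  obtain ⟨σ, hσ0, hσ1, H1⟩ := pmq_of HI HA
  refine ⟨σ, hσ0, hσ1, ?_⟩
  intro lam st hst N B hB Rw hRw w Nw Mw Fw hWD
  obtain ⟨M₁, X₁, hX₁, H1⟩ := H1 lam N B hB
  obtain ⟨μ, hμ⟩ : ∃ μ : ℝ, μ = (M₁ : ℝ) := ⟨_, rfl⟩
  have hμ0 : 0 ≤ μ := by rw [hμ]; positivity
  obtain ⟨k, bz, Cz, C, hCz, hC1, HQ⟩ := RXc739.Qs_X hpu hR0 hR hμ0 (N + 3) (ε := 1 / 10 ^ 7)
    (by norm_num) (by norm_num) hRw 1 10
  obtain ⟨Sf, hSf0, hSf⟩ := hWD.bd k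
  have hk9 := k9_nonneg
  have hst1 : (1 : ℝ) ≤ nm st := by exact_mod_cast nm_pos.2 hst
  have hlst : 0 ≤ Real.log (nm st) := Real.log_nonneg hst1
  set cs : ℝ := 4 * Real.log (nm st) + k9 with hcs
  have hcs0 : 0 ≤ cs := by positivity
  have hMw := hWD.M0
  have hC0 : 0 ≤ C := by linarith
  set lS : ℝ := Real.log (34 * (C * Sf ^ 2) + 1) with hlS
  have hCSf0 : 0 ≤ C * Sf ^ 2 := by positivity
  have hlS0 : 0 ≤ lS := Real.log_nonneg (by linarith)
  set Q0 : ℝ := C + cs + 20 + N * C + Mw + Nw + lS with hQ0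
  have hNC0 : 0 ≤ (N : ℝ) * C := by positivity
  have hNw0 : (0 : ℝ) ≤ Nw := by positivity
  have hQ00 : 20 ≤ Q0 := by linarith
  refine ⟨M₁, bz, Cz, max X₁ (Real.exp (10 ^ 8 * Q0 / σ)), hCz,
    lt_of_lt_of_le hX₁ (le_max_left _ _), ?_⟩
  intro X hX r s s₂ b0 b1 b2 c0 c1 c2 qs hs hs₂ hlen H₀ hLst hLst₂ hMH hsum₂ τ y₃ y₄ u x Z l z A3 p
    y bq s₀ hh v Rn δ e hδp hδs hep yy hy A hA hNum hp hRn hlRn hz3 hz3' hzw Sh hSh ζ x₀ Ax Axp Zp
    hXD hAx hAxp hZp i hi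
  have hXX₁ : X₁ ≤ X := (le_max_left _ _).trans hX
  have hXQ : Real.exp (10 ^ 8 * Q0 / σ) ≤ X := (le_max_right _ _).trans hX
  have hX1 : 1 < X := lt_of_lt_of_le hX₁ hXX₁
  have hX0 : 0 < X := by linarith
  set L := Real.log X with hL
  have hL0 : 0 < L := Real.log_pos hX1
  have hQL : 10 ^ 8 * Q0 ≤ σ * L := by
    have h1 : 10 ^ 8 * Q0 / σ ≤ L := by rw [hL, Real.le_log_iff_exp_le hX0]; exact hXQ
    rw [div_le_iff₀ hσ0] at h1
    linarith
  have hσL : σ * L ≤ 1 * L := mul_le_mul_of_nonneg_right hσ1 hL0.le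
  have hQL1 : Q0 ≤ L / 10 ^ 8 := by
    rw [le_div_iff₀ (by norm_num)]; linarith
  have hCQ : C ≤ Q0 := by linarith
  have hCσ : C ≤ σ / 2 * L := by linarith
  have hsmall : cs + 3 + C ≤ L / 10 ^ 6 := by linarith
  have hNC : (N : ℝ) * C ≤ L / 10 ^ 6 := by linarith
  have hδ0 : (1 : ℝ) ≤ nm δ := by exact_mod_cast nm_pos.2 hδp.ne_zero
  have he0 : (1 : ℝ) ≤ nm e := by exact_mod_cast nm_pos.2 hep.ne_zero
  have hy' := (mem_prs hδp).mp hy
  have hA2 := (mem_pdiv hy'.1.ne_zero).mp hA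
  have hy10 : (1 : ℝ) ≤ nm yy.1 := by exact_mod_cast nm_pos.2 hy'.1.ne_zero
  have hy20 : (1 : ℝ) ≤ nm yy.2 := by exact_mod_cast nm_pos.2 hy'.2.1.ne_zero
  have hA10 : (1 : ℝ) ≤ nm A := by exact_mod_cast nm_pos.2 hA2.1.ne_zero
  have hδy : (nm δ : ℝ) = nm yy.1 * nm yy.2 := by
    rw [← hy'.2.2, nm_mul]; push_cast; ring
  set D : ℝ := Real.log (nm δ) with hD
  set D1 : ℝ := Real.log (nm yy.1) with hD1
  set ν : ℝ := Real.log (nm yy.2) with hν
  set a : ℝ := Real.log (nm A) with ha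
  set b : ℝ := Real.log (nm e) with hb
  have hDν : D1 + ν = D := by
    rw [hD, hδy, Real.log_mul (by positivity) (by positivity)]
  have hν0 : 0 ≤ ν := Real.log_nonneg hy20
  have hD10 : 0 ≤ D1 := Real.log_nonneg hy10
  have ha0 : 0 ≤ a := Real.log_nonneg hA10
  have hb0 : 0 ≤ b := Real.log_nonneg he0
  have hD0 : 0 ≤ D := Real.log_nonneg hδ0
  have haD : a ≤ D1 := by
    refine Real.log_le_log (by positivity) ?_
    have h1 : nm A ∣ nm yy.1 := by
      obtain ⟨c, hc⟩ := hA2.2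
      exact ⟨nm c, by rw [hc, nm_mul]⟩
    exact_mod_cast Nat.le_of_dvd (nm_pos.2 hy'.1.ne_zero) h1
  obtain ⟨hwL, hl2L, hlhL, hpL, hAL, hp0, hzL, hhL⟩ := hNum.sz hD0
  have hv0 := hNum.v0
  have hbl := hNum.e1
  have hτ1 := hNum.τ1
  have hτ0 := hNum.τ0
  have hτL : 0 ≤ τ * L := mul_nonneg hτ0 hL0.le
  have hτL1 : τ * L ≤ 1 / 10 ^ 7 * L := mul_le_mul_of_nonneg_right hτ1 hL0.le
  obtain ⟨l1, l2⟩ := abs_le.1 hNum.hl
  obtain ⟨A1, A2⟩ := abs_le.1 hNum.hA
  have hh0 := hNum.h0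
  -- the scale
  set K : ℝ := sc (Real.exp l) Mw i with hK
  have hK0 : 0 < K := WDec180.sc_pos (Real.exp_pos _) _ _
  have hlK : Real.log K = l + (i - Mw) := by
    rw [hK]
    unfold WDec180.sc
    rw [Real.log_mul (Real.exp_pos _).ne' (Real.exp_pos _).ne', Real.log_exp, Real.log_exp]
  have hiN : (i : ℝ) ≤ Nw := by exact_mod_cast hi.le
  have hi0 : (0 : ℝ) ≤ i := by positivity
  have hkL : |Real.log K - L| ≤ L / 10 ^ 6 := by
    rw [hlK, abs_le]
    constructor <;> linarith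
  -- the list
  have hrN : r ≤ N + 3 := by
    have h1 : (List.ofFn s).length = r := List.length_ofFn
    rw [hs] at h1
    simp only [List.length_append, List.length_cons, List.length_nil] at h1
    omega
  -- the number
  set ρ : ℝ := rhoS (4 / 3 * p + max 0 (5 / 4 * A3 - l)) l Sh δ e (Real.exp v) with hρ
  have hρ0 : 0 < ρ := Real.exp_pos _
  have hlρ : Real.log ρ = 4 / 3 * p + max 0 (5 / 4 * A3 - l) + (l + v) / 3 - 4 / 3 * D -
      Sh D b v := by
    rw [hρ]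
    unfold I1146.rhoS
    rw [Real.log_exp, Real.log_exp]
  set mx : ℝ := max 0 (5 / 4 * (y₃ + y₄ + u) - 1) with hmx
  have hTg : Tg (y₃ + y₄ + u) (p / L) * L = L + p + mx * L := by
    unfold P1H440.Tg P1R904.L0
    rw [← hmx]
    field_simp
  set G2 : ℝ := Real.log Rn + Real.log ρ with hG2
  set T : ℝ := 2 * Tg (y₃ + y₄ + u) (p / L) + 3 / 4 * d - G2 / L with hT
  set Tn : ℝ := G2 - (D - a) - L / 4000 with hTn
  have hTL : T * L = 2 * (L + p + mx * L) + 3 / 4 * d * L - G2 := by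
    rw [hT, sub_mul, add_mul, mul_assoc 2, hTg, div_mul_cancel₀ _ hL0.ne']
  have hex : mx * L - 5 * (τ * L) ≤ max 0 (5 / 4 * A3 - l) := by
    rcases max_cases 0 (5 / 4 * (y₃ + y₄ + u) - 1) with ⟨h1, -⟩ | ⟨h1, -⟩
    · rw [hmx, h1]
      have := le_max_left 0 (5 / 4 * A3 - l)
      linarith
    · rw [hmx, h1]
      have := le_max_right 0 (5 / 4 * A3 - l)
      linarith
  have hmx0 : 0 ≤ mx * L := mul_nonneg (le_max_left _ _) hL0.le
  have hTle : T * L ≤ 2 / 3 * L - 1 / 3 * p - v / 3 + 4 / 3 * D + Sh D b v + 20 * (τ * L) := by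
    rw [hTL, hG2, hlρ]
    have e1 : (1 + mx + 3 / 4 * d) * L = L + mx * L + 3 / 4 * d * L := by ring
    rw [e1] at hlRn
    linarith
  have hBlk : BlkX y₃ y₄ u x d Z (hh / L) (bq / L) (s₀ / L) (p / L) (D / L) (a / L) (b / L)
      (v / L) T := blkX_of hNum hSh hTle
  have hTn' : (2 * Tg (y₃ + y₄ + u) (p / L) + 3 / 4 * d - T) * L - (D - a) - L / 4000 ≤ Tn := by
    have e1 : (2 * Tg (y₃ + y₄ + u) (p / L) + 3 / 4 * d - T) * L = G2 := by
      rw [hT]
      field_simp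
      ring
    rw [e1, hTn]
  have hvL : v ≤ L := by linarith
  have hDL : 2 * D ≤ L := by linarith
  have hbL : b ≤ 1 / 32 * L := by linarith
  have hlXn : ∀ n : ℕ, Real.log (X ^ n) = n * L := fun n => by rw [Real.log_pow]
  have hexpX : ∀ (c : ℝ) (n : ℕ), c ≤ n * L → Real.exp c ≤ X ^ n := fun c n hc => by
    rw [← Real.le_log_iff_exp_le (by positivity), Real.log_pow]; exact hc
  have hnmX : ∀ {c : ℝ} (n : ℕ), 0 < c → Real.log c ≤ n * L → c ≤ X ^ n := fun {c} n hc h => by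
    rw [← Real.exp_log hc]; exact hexpX _ n h
  set Pz : ℝ := X ^ 4 with hPz
  have hlPz : Real.log Pz = 4 * L := by rw [hPz, hlXn]; norm_num
  have hPz1 : 1 ≤ Pz := one_le_pow₀ hX1.le
  have hPz0 : 0 < Pz := by linarith
  have hX4 : X ≤ Pz := by rw [hPz]; exact le_self_pow₀ hX1.le (by norm_num)
  have hLX : L ≤ X := by
    have := Real.log_le_sub_one_of_pos hX0
    linarith
  have hz : SzP Pz (Real.exp v) K δ e := by
    refine ⟨hPz1, Real.one_le_exp hv0, hexpX _ 4 (by push_cast; linarith), hK0, ?_, ?_, hδp, hδs,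
      hnmX 4 (by linarith) (by push_cast; linarith), hep,
      hnmX 4 (by linarith) (by push_cast; linarith)⟩
    · refine hnmX 4 (by positivity) ?_
      rw [Real.log_inv, hlK]
      push_cast
      linarith
    · refine hnmX 4 hK0 ?_
      rw [hlK]
      push_cast
      linarith
  have hsp : Real.exp (∑ k, (s k).z + C) ≤ Pz := by
    rw [← hp]
    exact hexpX _ 4 (by push_cast; linarith)
  have hstP : (nm st : ℝ) ^ 2 ≤ Pz := hnmX 4 (by positivity) (by
    rw [Real.log_pow]; push_cast; linarith)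
  have hhP : Real.exp hh ≤ Pz := hexpX _ 4 (by push_cast; linarith)
  have hleA : Real.log (nm (e * A)) = b + a := by
    rw [nm_mul]
    push_cast
    rw [Real.log_mul (by positivity) (by positivity)]
  have hnmeA : (nm (e * A) : ℝ) = Real.exp (b + a) := by
    rw [← hleA, Real.exp_log]
    rw [nm_mul]; push_cast; positivity
  have hleA2 : Real.log (Real.exp v * nm (e * A)) = v + b + a := by
    rw [Real.log_mul (Real.exp_pos _).ne' (by
      rw [nm_mul]; push_cast; positivity), Real.log_exp, hleA]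
    ring
  have hs₁ : Real.log (nm (e * A * st ^ 4)) + k9 ≤ b + a + cs := by
    rw [nm_mul, nm_pow]
    push_cast
    rw [Real.log_mul (by
      rw [nm_mul]; push_cast; positivity) (by positivity), hleA, Real.log_pow, hcs]
    push_cast
    linarith
  set i1 : ℝ := 1 / 10 ^ 7 * Real.log Pz + hh + 2 * ν + (p - D1) + v + 2 * (b + a) - Real.log K
    with hi1
  set i2 : ℝ := Real.log 10 + Real.log K - (b + a) + 1 with hi2
  have hlog10 : Real.log 10 ≤ 9 := by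
    have := Real.log_le_sub_one_of_pos (show (0 : ℝ) < 10 by norm_num)
    linarith
  have hlog10' : 0 ≤ Real.log 10 := Real.log_nonneg (by norm_num)
  have hi1' : i1 ≤ v + p - L + hh + 2 * (b + a) + 2 * ν - D1 + L / 10 ^ 6 := by
    rw [hi1, hlPz, hlK]
    linarith
  have hi2' : i2 ≤ L - (b + a) + L / 10 ^ 6 := by
    rw [hi2, hlK]
    linarith
  have hBlk' : BlkX y₃ y₄ u x d Z (hh / L) (bq / L) (s₀ / L) (p / L) ((D1 + ν) / L) (a / L)
      (b / L) (v / L) T := by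
    rw [hDν]; exact hBlk
  have hPM : PMHQ h μ C (π lam) s (v + b + a) D1 ν i1 i2 (b + a + cs) 1 Tn :=
    H1 X hXX₁ s b0 b1 b2 qs hs hlen σ H₀ hσ0 le_rfl hLst y₃ y₄ u x Z hh (bq / L) (s₀ / L) p D1 ν a
      b v T cs C i1 i2 Tn μ hp hBlk' hν0 ha0 hb0 haD hcs0 hC0 hCσ hsmall hNC hi1' hi2'
      (by rw [hDν]; exact hTn') hz3 hzw hMH (by rw [hμ]; linarith)
  have hPM₂ : PMHQ h μ C (π lam) s₂ (v + b + a) D1 ν i1 i2 (b + a + cs) 1 Tn :=
    H1 X hXX₁ s₂ c0 c1 c2 qs hs₂ hlen σ H₀ hσ0 le_rfl hLst₂ y₃ y₄ u x Z hh (bq / L) (s₀ / L) p D1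
      ν a b v T cs C i1 i2 Tn μ (by rw [hsum₂]; exact hp) hBlk' hν0 ha0 hb0 haD hcs0 hC0 hCσ
      hsmall hNC hi1' hi2' (by rw [hDν]; exact hTn') hz3' hzw hMH (by rw [hμ]; linarith)
  have key := HQ (Fw i) Sf (hWD.tf i) (hSf i hi) hh hh0 Pz (by linarith) hhP (π lam) r hrN s s₂ ζ
    x₀ Ax Axp s₀ Zp hXD hsp st hst hstP hZp (Real.exp v) K δ e hz yy hy A hA (b + a + cs) i1 i2 1
    Tn hs₁ zero_le_one
    (by rw [Real.log_exp, ← hp, hleA, hi1]) (by rw [hleA]) (by rw [hleA2]; exact hPM)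
    (by rw [hleA2]; exact hPM₂)
  refine key.trans ?_
  -- the final comparison
  have hV3 : 0 < Real.exp v ^ (-(1 / 3) : ℝ) := by positivity
  have hK3 : 0 < K ^ (2 / 3 : ℝ) := by positivity
  set G : ℝ := Rn * ρ * (K ^ (2 / 3 : ℝ) * Real.exp v ^ (-(1 / 3) : ℝ) / (nm δ * nm e)) with hG
  have hG0 : 0 < G := by positivity
  have hTnG : Real.exp Tn = Rn * ρ * (nm A / nm δ) * Real.exp (-(L / 4000)) := by
    have e1 : Tn = Real.log Rn + Real.log ρ + (a - D) + -(L / 4000) := by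
      rw [hTn, hG2]; ring
    rw [e1, Real.exp_add, Real.exp_add, Real.exp_add, Real.exp_log hRn, Real.exp_log hρ0,
      Real.exp_sub, ha, hD, Real.exp_log (by positivity), Real.exp_log (by positivity)]
  have hfirst : Real.exp v ^ (-(1 : ℝ) / 3) * K ^ ((2 : ℝ) / 3) / nm (e * A) *
      (1 * Real.exp Tn) = G * Real.exp (-(L / 4000)) := by
    have hnA : (nm (e * A) : ℝ) = nm e * nm A := by rw [nm_mul]; push_cast; ring
    rw [one_mul, hTnG, hnA, hG, show (-(1 : ℝ) / 3) = (-(1 / 3) : ℝ) by norm_num]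
    field_simp
  have hlGe : Real.log G = G2 + (2 / 3 * Real.log K - 1 / 3 * v - (D + b)) := by
    rw [hG, Real.log_mul (by positivity) (by positivity), Real.log_mul hRn.ne' hρ0.ne',
      Real.log_div (by positivity) (by positivity), Real.log_mul hK3.ne' hV3.ne',
      Real.log_rpow hK0, Real.log_rpow (Real.exp_pos _), Real.log_exp,
      Real.log_mul (by positivity) (by positivity)]
    ring
  have hlG : -(30 * L) ≤ Real.log G := by
    have hsh := hSh.trans (shO_le (z := z) (s₀ := s₀) hl2L hAL hpL hD0 hb0 (by linarith) hv0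
      (by linarith) hL0)
    have hmx1 : 0 ≤ max 0 (5 / 4 * A3 - l) := le_max_left _ _
    have hdd : 0 ≤ d := hNum.dp.d0
    have hdL : 0 ≤ 3 / 4 * d * L := by positivity
    have e1 : (1 + mx + 3 / 4 * d) * L = L + mx * L + 3 / 4 * d * L := by ring
    rw [e1] at hlRn
    rw [hlGe, hG2, hlρ, hlK]
    linarith
  have hsecond : (Pz ^ 10)⁻¹ ≤ G * Real.exp (-(L / 4000)) := by
    rw [← Real.exp_log (show (0 : ℝ) < (Pz ^ 10)⁻¹ by positivity),
      ← Real.exp_log hG0, ← Real.exp_add]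
    refine Real.exp_le_exp.2 ?_
    rw [Real.log_inv, Real.log_pow, hlPz]
    push_cast
    linarith
  -- the target in the units of the lines
  have hTs : TsX y₃ y₄ u d (p / L) (D / L) (b / L) (v / L) T * L ≤ Real.log G + L / 10 ^ 6 := by
    have e1 : TsX y₃ y₄ u d (p / L) (D / L) (b / L) (v / L) T * L =
        G2 + 2 / 3 * L - D - b - v / 3 := by
      unfold RXl440.TsX
      have e2 : T * L = (2 * Tg (y₃ + y₄ + u) (p / L) + 3 / 4 * d) * L - G2 := by
        rw [hT, sub_mul, div_mul_cancel₀ _ hL0.ne']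
      have b1 := div_mul_cancel₀ D hL0.ne'
      have b2 := div_mul_cancel₀ b hL0.ne'
      have b3 := div_mul_cancel₀ v hL0.ne'
      linear_combination -e2 - b1 - b2 - b3 / 3
    rw [e1, hlGe]
    have := (abs_le.1 hkL).1
    linarith
  have hprin : (Axp / nm yy.1) ^ 2 * PJm K (Real.exp v) (Real.exp (∑ k, (s k).z) / nm yy.1)
      (nm (e * A)) ((nm st : ℝ) ^ 2) (nm yy.2) (Real.exp hh) (Mu s₀ yy.1) 1 ≤
      5 * (G * Real.exp (-(L / 4000))) := by
    have f1 : K = Real.exp (Real.log K) := (Real.exp_log hK0).symm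
    have f2 : (nm yy.1 : ℝ) = Real.exp D1 := by rw [hD1, Real.exp_log (by linarith)]
    have f3 : (nm yy.2 : ℝ) = Real.exp ν := by rw [hν, Real.exp_log (by linarith)]
    have f4 : (nm st : ℝ) ^ 2 = Real.exp (2 * Real.log (nm st)) := by
      rw [two_mul, Real.exp_add, Real.exp_log (by linarith)]; ring
    have hPJ0 : 0 ≤ PJm K (Real.exp v) (Real.exp (∑ k, (s k).z) / nm yy.1)
        (nm (e * A)) ((nm st : ℝ) ^ 2) (nm yy.2) (Real.exp hh) (Mu s₀ yy.1) 1 :=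
      RCX385.PJm_nonneg hK0.le (Real.exp_pos _).le (by positivity) (Nat.cast_nonneg _)
        (by positivity) (Nat.cast_nonneg _) (Real.exp_pos _).le (PrD502.Mu_nonneg _ _)
        zero_le_one
    have f5 : (Axp / nm yy.1) ^ 2 ≤ (Real.exp (p + L / 10 ^ 6) / nm yy.1) ^ 2 :=
      pow_le_pow_left₀ (div_nonneg hXD.Ap (by linarith))
        (div_le_div_of_nonneg_right hAxp (by linarith)) 2
    refine (mul_le_mul_of_nonneg_right f5 hPJ0).trans ?_
    have q := prin_num HPr (G := Real.log G + L / 10 ^ 6) (k := Real.log K) (c₁ := L / 10 ^ 6)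
      (ax := L / 10 ^ 6) (m0 := 2 * Real.log (nm st)) hL0 hBlk' hν0 haD (by positivity) hkL
      (by positivity) (by positivity) (by rw [hDν]; exact hTs)
    rw [mu_eq s₀ hy'.1.ne_zero, ← hD1, ← hp, hnmeA, f4, f3]
    rw [← f1, ← f2] at q
    rw [f2] at q ⊢
    refine q.trans ?_
    rw [← Real.exp_log hG0, ← Real.exp_add]
    refine mul_le_mul_of_nonneg_left (Real.exp_le_exp.2 ?_) (by norm_num)
    rw [Real.exp_log hG0]
    linarith
  have hpol : Ax ^ 2 * PN (yy.2 = 1) (Real.exp v) K (Real.exp (∑ k, (s k).z))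
      (max (1 / 2) (Real.exp ((i2 - i1) / 3))) (nm (e * A)) δ ≤
      27 * (G * Real.exp (-(L / 4000))) := by
    unfold RXb739.PN
    split_ifs with hy2
    swap
    · rw [mul_zero]; positivity
    have hν00 : ν = 0 := by
      rw [hν, hy2]
      have : (nm (1 : Eis) : ℝ) = 1 := by
        have : nm (1 : Eis) = 1 := by decide
        exact_mod_cast this
      rw [this, Real.log_one]
    have hD1D : D1 = D := by linarith
    have f1 : K = Real.exp (Real.log K) := (Real.exp_log hK0).symm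
    have f6 : (nm δ : ℝ) = Real.exp D := by rw [hD, Real.exp_log (by linarith)]
    set B0 : ℝ := max (1 / 2) (Real.exp ((i2 - i1) / 3)) with hB0
    have hB0p : 0 < B0 := lt_of_lt_of_le (by norm_num) (le_max_left _ _)
    have hb0l : -1 ≤ Real.log B0 := by
      have h1 : Real.log (1 / 2) ≤ Real.log B0 := Real.log_le_log (by norm_num) (le_max_left _ _)
      have h2 : Real.log (1 / 2) = -Real.log 2 := by
        rw [one_div, Real.log_inv]
      have := Real.log_two_lt_d9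
      linarith
    have hb0i : (i2 - i1) / 3 ≤ Real.log B0 := by
      rw [Real.le_log_iff_exp_le hB0p]
      exact le_max_right _ _
    have q := polar_num HPo (G := Real.log G + L / 10 ^ 6) (k := Real.log K) (c₁ := L / 10 ^ 6)
      (ax := L / 10 ^ 6) (b₀ := Real.log B0) (B0 := B0) hL0 hBlk (by linarith) (by positivity) hkL
      (by positivity) (Real.exp_log hB0p).symm hb0l (by linarith) (by
        have g1 := (abs_le.1 hkL).1
        have g2 : i2 - i1 ≤ 3 * Real.log B0 := by linarith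
        rw [hi1, hi2, hlPz, hν00, hD1D] at g2
        linarith) hTs f6
    rw [← f1, ← hnmeA, hp] at q
    have hfac : 0 ≤ Real.exp v ^ (-(2 : ℝ) / 3) * (nm (e * A) : ℝ) ^ (-(2 : ℝ)) *
        K ^ ((4 : ℝ) / 3) * ((nm δ : ℝ) ^ ((1 : ℝ) / 3) *
          Real.exp (∑ k, (s k).z) ^ (-(1 : ℝ) / 3)) *
        MTX241.nLS (Real.exp (∑ k, (s k).z)) B0 (9 * (Real.exp v * (nm (e * A) : ℝ) ^ 3)) δ 1 := by
      have := MTX241.nLS_nonneg (Real.exp_pos (∑ k, (s k).z)).le hB0p.le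
        (show 0 ≤ 9 * (Real.exp v * (nm (e * A) : ℝ) ^ 3) by positivity) δ 1
      positivity
    have f7 : Ax ^ 2 ≤ Real.exp (L / 10 ^ 6) ^ 2 := pow_le_pow_left₀ hXD.A0 hAx 2
    refine (mul_le_mul_of_nonneg_right f7 hfac).trans (q.trans ?_)
    rw [← Real.exp_log hG0, ← Real.exp_add]
    refine mul_le_mul_of_nonneg_left (Real.exp_le_exp.2 ?_) (by norm_num)
    rw [Real.exp_log hG0]
    linarith
  have hPz50 : Pz ^ (50 * (1 / 10 ^ 7 : ℝ)) = Real.exp (L / 50000) := by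
    rw [Real.rpow_def_of_pos hPz0, hlPz]
    congr 1
    ring
  rw [hfirst, hPz50]
  have hCS : 34 * (C * Sf ^ 2) ≤ Real.exp lS := by
    rw [hlS, Real.exp_log (by linarith)]
    linarith
  calc _ ≤ C * Sf ^ 2 * Real.exp (L / 50000) * (34 * (G * Real.exp (-(L / 4000)))) := by
        refine mul_le_mul_of_nonneg_left (by linarith) (by positivity)
    _ = 34 * (C * Sf ^ 2) * (Real.exp (L / 50000) * Real.exp (-(L / 4000))) * G := by ring
    _ ≤ Real.exp lS * (Real.exp (L / 50000) * Real.exp (-(L / 4000))) * G := by gcongr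
    _ = Real.exp (lS + (L / 50000 + -(L / 4000))) * G := by rw [Real.exp_add, Real.exp_add]
    _ ≤ Real.exp 0 * G := by
        refine mul_le_mul_of_nonneg_right (Real.exp_le_exp.2 (by linarith)) hG0.le
    _ = G := by rw [Real.exp_zero, one_mul]

end Crest.Agent.R017.RXs440
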