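import Crest.Agent.R017.RXt_440
import Crest.Agent.R017.RXs_440
import Crest.Agent.R017.RPb_440

/-!
# Row 17, class E, the R-side of `P1` (helper440): the assembly

* `lstX_of` : the parent lists (natural, replaced)
* **`rpX_of`**, **`rpS_of`** : `RpGU` for the differences and the single lists
-/

set_option autoImplicit false
set_option maxHeartbeats 4000000

noncomputable section

open Finset
open scoped ComplexConjugate Classical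

namespace Crest.Agent.R017.RXu440

open Crest.Agent.R012 Crest.Agent.R012.Eis
open Crest.Agent.R012.LS2 (S mem_S)
open Crest.Agent.R012.Mob705 (pdiv mem_pdiv)
open Crest.Agent.R012.T411 (NCube)
open Crest.Agent.R017.CM106 (CS FS)
open Crest.Agent.R017.B770
open Crest.Agent.R017.Prov71
open Crest.Agent.R017.FE47 (cx PU)
open Crest.Agent.R017.I1146 (LN tw3 rhoS rw_rhoS LipS)
open Crest.Agent.R017.WDec180 (WD sc)
open Crest.Agent.R017.E2440 (C4 Qs prs mem_prs Fh)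
open Crest.Agent.R017.XG702 (Pcs)
open Crest.Agent.R017.XT71 (Sys Win mx)
open Crest.Agent.R017.UM71 Crest.Agent.R017.End699
open Crest.Agent.R017.Sup271 (NPm)
open Crest.Agent.R017.E5B71 Crest.Agent.R017.E5P571 Crest.Agent.R017.E5L770
open Crest.Agent.R017.ExBox960 Crest.Agent.R017.ExP960
open Crest.Agent.R017.Sf770
open Crest.Agent.R017.P1e54 Crest.Agent.R017.P1f54 Crest.Agent.R017.P1k54
open Crest.Agent.R017.P1l54 (ParOK)
open Crest.Agent.R017.P1X960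
open Crest.Agent.R017.P10X764 Crest.Agent.R017.E2G764
open Crest.Agent.R017.P1F904 (Dp)
open Crest.Agent.R017.LBx48 (neb)
open Crest.Agent.R017.I1K764 (nebL RPb)
open Crest.Agent.R017.P1Ra440 (FS_tw3)
open Crest.Agent.R017.P1Rh440 (Lst)
open Crest.Agent.R017.P1Hl440 (dp_hom)
open Crest.Agent.R017.RXb739 (XD)
open Crest.Agent.R017.RXl440 Crest.Agent.R017.RXm440 Crest.Agent.R017.RXo440
open Crest.Agent.R017.RXs440 Crest.Agent.R017.RXt440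

variable {Λ : Type*} {π : Λ → DPar} {h : ℝ → ℝ} {d : ℝ}

/-- the list data of a child -/
structure LdX (X ρ B₂ δ : ℝ) (a : BcX) (qs : List Pq) : Prop where
  lmp : ∀ i, Dq.lump (a.2.1 i)
  am : ∀ p ∈ qs, p.kd = .am ∧ 0 ≤ p.z ∧ p.z ≤ δ * Real.log X
  d3 : ∀ i, (nm (a.2.1 i).d : ℝ) ≤ X ^ B₂
  t3 : ∀ i, 1 + |(a.2.1 i).t| ≤ X ^ ρ
  dq : ∀ p ∈ qs, (nm p.d : ℝ) ≤ X ^ B₂
  tq : ∀ p ∈ qs, 1 + |p.t| ≤ X ^ ρ

lemma ldX_of {P : DPar} {st : Eis} {X δ B B₂ ρ : ℝ} {N : ℕ} {a : BcX} {qs : List Pq}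
    {q : I8X → ℝ} (hX : 1 < X) (hBB : B ≤ B₂) (hw : Win S8X q δ N B ρ X a)
    (hgl : ∀ p ∈ qs, Dq.lump p ∨ Dq.nl X p ≤ δ) (hg : Dq.Good X ρ B qs)
    (hl : ∀ p ∈ qs, ¬ Dq.lump p) (hok : okCX P st a qs) : LdX X ρ B₂ δ a qs := by
  obtain ⟨hbok, hsm, hlmp, hamq, -⟩ := hok
  have hL0' : 0 < Real.log X := Real.log_pos hX
  have hs1 : ∀ i, Dq.s1 (a.2.1 i) ≤ X ^ ρ := by
    intro i
    have h1 : mx Dq.s1 (List.ofFn a.2.1) ≤ X ^ ρ := (le_max_right _ _).trans hw.s₁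
    exact (XT71.le_mx (List.mem_ofFn.2 ⟨i, rfl⟩)).trans h1
  have hs2 : ∀ i, Dq.s2 (a.2.1 i) ≤ X ^ B₂ := by
    intro i
    have h1 : mx Dq.s2 (List.ofFn a.2.1) ≤ X ^ B := (le_max_right _ _).trans hw.s₂
    exact ((XT71.le_mx (List.mem_ofFn.2 ⟨i, rfl⟩)).trans h1).trans
      (Real.rpow_le_rpow_of_exponent_le hX.le hBB)
  refine ⟨fun i => (hlmp i).1, fun p' hp' => ⟨hamq p' hp', (hg p' hp').2.2, ?_⟩, hs2, hs1,
    fun p' hp' => ((hg p' hp').2.1).trans (Real.rpow_le_rpow_of_exponent_le hX.le hBB),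
    fun p' hp' => (hg p' hp').1⟩
  rcases hgl p' hp' with h1 | h1
  · exact absurd h1 (hl p' hp')
  · unfold Pcs.nl at h1
    rw [div_le_iff₀ hL0'] at h1
    exact h1

/-- a parent list with the lumps `c₀ c₁ c₂` -/
lemma lstX {X ρ B₂ δ σ κ : ℝ} {a : BcX} {qs : List Pq} {c₀ c₁ c₂ : Pq} (hX : 1 < X)
    (hρ : 0 ≤ ρ) (hB : 0 ≤ B₂) (hδσ : δ ≤ σ / 4) (hσ : 0 < σ) (hκ0 : 8 / 9 ≤ κ)
    (h : LdX X ρ B₂ δ a qs)
    (e0 : Dq.lump c₀ ∧ c₀.d = (a.2.1 0).d ∧ c₀.t = (a.2.1 0).t)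
    (e1 : Dq.lump c₁ ∧ c₁.d = (a.2.1 1).d ∧ c₁.t = (a.2.1 1).t)
    (e2 : Dq.lump c₂ ∧ c₂.d = (a.2.1 2).d ∧ c₂.t = (a.2.1 2).t)
    (z0 : 0 ≤ c₀.z) (z1 : 0 ≤ c₁.z) (z2 : 0 ≤ c₂.z) (w0 : c₀.z ≤ κ * Real.log X)
    (w1 : c₁.z ≤ κ * Real.log X) (w2 : c₂.z ≤ κ * Real.log X) :
    Lst σ (2 * B₂) (X ^ κ) (X ^ ρ) c₀ c₁ c₂ qs := by
  have hX0 : 0 < X := by linarith
  have hL0' : 0 < Real.log X := Real.log_pos hX
  have hlX : Real.log (X ^ κ) = κ * Real.log X := Real.log_rpow hX0 _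
  have hpw : X ^ B₂ ≤ (X ^ κ) ^ (2 * B₂) := by
    rw [← Real.rpow_mul hX0.le]
    refine Real.rpow_le_rpow_of_exponent_le hX.le ?_
    nlinarith
  refine ⟨?_, ?_, ?_, ?_, Real.one_le_rpow hX.le hρ⟩
  · intro p' hp'
    simp only [List.mem_cons, List.not_mem_nil, or_false] at hp'
    rw [hlX]
    rcases hp' with rfl | rfl | rfl
    · exact ⟨e0.1, z0, w0⟩
    · exact ⟨e1.1, z1, w1⟩
    · exact ⟨e2.1, z2, w2⟩
  · intro p' hp'
    obtain ⟨h1, h2, h3⟩ := h.am p' hp'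
    refine ⟨h1, h2, h3.trans ?_⟩
    rw [hlX]
    have h4 := mul_le_mul_of_nonneg_right hδσ hL0'.le
    have h5 : σ / 2 * (8 / 9 * Real.log X) ≤ σ / 2 * (κ * Real.log X) :=
      mul_le_mul_of_nonneg_left (mul_le_mul_of_nonneg_right hκ0 hL0'.le) (by linarith)
    have h6 : 0 < σ * Real.log X := by positivity
    linarith
  · intro p' hp'
    simp only [List.mem_cons] at hp'
    rcases hp' with rfl | rfl | rfl | hp'
    · rw [e0.2.1]; exact (h.d3 0).trans hpw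
    · rw [e1.2.1]; exact (h.d3 1).trans hpw
    · rw [e2.2.1]; exact (h.d3 2).trans hpw
    · exact (h.dq p' hp').trans hpw
  · intro p' hp'
    simp only [List.mem_cons] at hp'
    rcases hp' with rfl | rfl | rfl | hp'
    · rw [e0.2.2]; exact h.t3 0
    · rw [e1.2.2]; exact h.t3 1
    · rw [e2.2.2]; exact h.t3 2
    · exact h.tq p' hp'

/-- **the data of the sequence** (`xdX`, `xdS`): what the assembly needs -/
def XdU (π : Λ → DPar) (h : ℝ → ℝ) (R : ℝ) (al : Λ × Eis → BcX → List Pq → Eis → ℂ)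
    (ok : Λ × Eis → BcX → List Pq → Prop) (cl₂ : BcX → List Pq → List Pq) (s0 : BcX → ℝ) : Prop :=
  ∀ (N : ℕ) (lam : Λ) (st : Eis), st ≠ 0 → ∀ B₂ : ℝ, 1 ≤ B₂ → ∀ (b : ℕ) (Cz : ℝ), 1 ≤ Cz →
    ∃ X₀ : ℝ, 1 < X₀ ∧ ∀ X : ℝ, X₀ ≤ X → ∀ κ : ℝ, 8 / 9 ≤ κ → κ ≤ 1 → ∀ H₀ : ℝ, 1 ≤ H₀ →
      10 ^ 8 * ((N : ℝ) + 4) * Real.log H₀ ≤ Real.log X → ∀ (a : BcX) (qs : List Pq),
      qs.length ≤ N → ok (lam, st) a qs → (∀ i, (nm (a.2.1 i).d : ℝ) ≤ X ^ B₂) →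
      (∀ p ∈ clN a qs, 1 + |p.t| ≤ H₀) → (∀ p ∈ qs, 0 ≤ p.z) →
      LN (clN a qs) ≤ Real.log X →
      ∃ (r : ℕ) (s s₂ : Fin r → Pq) (ζ η : ℂ) (x₀ : Eis → ℂ) (Ax Axp Zp : ℝ),
        List.ofFn s = clN a qs ∧ List.ofFn s₂ = cl₂ a qs ∧
        ∑ k, (s₂ k).z = ∑ k, (s k).z ∧ al (lam, st) a qs = η • tw3 st x₀ ∧ ‖η‖ ≤ 1 ∧ FS x₀ ∧
        XD h (π lam) s s₂ ζ x₀ ((X ^ κ) ^ 4) Ax Axp (s0 a) Zp (Real.exp (∑ k, (s k).z))
          ((N + 3 : ℕ) * R) 1 ∧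
        Ax ≤ Real.exp (κ * Real.log X / 10 ^ 6) ∧
        Axp ≤ Real.exp (LN (clN a qs) + κ * Real.log X / 10 ^ 6) ∧
        Cz * ((X ^ κ) ^ 4) ^ b * (nm st : ℝ) ^ 4 ≤ Zp

/-- the geometry of a configuration -/
def GeoU (c β : ℝ) (Par : Set (Fin 3 ⊕ Fin 5 → ℝ)) (Lc : (IX5 → ℝ) → ℝ → ℝ → ℝ → Prop)
    (ok : Λ × Eis → BcX → List Pq → Prop) (rz3 : BcX → Fin 3 → Pq) (s0 : BcX → ℝ) : Prop :=
  ∀ (X δ : ℝ) (lam : Λ × Eis) (a : BcX) (qs : List Pq) (q : (I8X → ℝ) × (Kd → ℝ)), 1 < X →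
    0 ≤ δ → q ∈ Dom8X c β Par Lc →
    CfX c (Real.log X) δ (cκ (prX (bp q.1))) (cu (prX (bp q.1)) 2) (cu (prX (bp q.1)) 3)
      (cu (prX (bp q.1)) 4) (cx' (prX (bp q.1))) ((bp q.1) (.inr 1)) (q.1 (.inr 0))
      (q.1 (.inr 1)) (q.1 (.inr 2)) (q.2 .am) (q.1 (.inr 3)) a qs → ok lam a qs →
    (17 / 100 * cκ (prX (bp q.1)) - (cu (prX (bp q.1)) 2 + cu (prX (bp q.1)) 3 +
      cu (prX (bp q.1)) 4 + cx' (prX (bp q.1)) - (q.1 (.inr 0) + q.1 (.inr 1) + q.1 (.inr 2) +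
        q.2 .am))) * Real.log X ≤ s0 a + 6 * (δ * Real.log X) ∧
    Lmp3 (3 * (δ * Real.log X)) (Real.log X) (cu (prX (bp q.1)) 2) (cu (prX (bp q.1)) 3)
      (cu (prX (bp q.1)) 4) ((bp q.1) (.inr 1)) (a.2.1 0).z (a.2.1 1).z (a.2.1 2).z ∧
    Lmp3 (3 * (δ * Real.log X)) (Real.log X) (cu (prX (bp q.1)) 2) (cu (prX (bp q.1)) 3)
      (cu (prX (bp q.1)) 4) ((bp q.1) (.inr 1)) (rz3 a 0).z (rz3 a 1).z (rz3 a 2).z ∧
    ∀ i, 0 ≤ (rz3 a i).z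

lemma lmp_le {η L κ u₂ u₃ u₄ Z z₁ z₂ z₃ : ℝ} (h : Lmp3 η L u₂ u₃ u₄ Z z₁ z₂ z₃) (hL : 0 ≤ L)
    (h2 : u₂ ≤ 29 / 100 * κ) (h3 : u₃ ≤ 29 / 100 * κ) (h4 : u₄ ≤ 29 / 100 * κ)
    (hZ : Z ≤ 29 / 100 * κ) (hZ0 : 0 ≤ Z) (hκ : 0 ≤ κ) (hη : η ≤ 1 / 100 * (κ * L)) :
    z₁ ≤ κ * L ∧ z₂ ≤ κ * L ∧ z₃ ≤ κ * L := by
  have m : ∀ a : ℝ, a ≤ 58 / 100 * κ → a * L ≤ 58 / 100 * (κ * L) := fun a h => by
    have := mul_le_mul_of_nonneg_right h hL
    linarith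
  have hκL : 0 ≤ κ * L := mul_nonneg hκ hL
  have a1 := m _ (show u₂ ≤ 58 / 100 * κ by linarith)
  have a2 := m _ (show u₃ ≤ 58 / 100 * κ by linarith)
  have a3 := m _ (show u₄ ≤ 58 / 100 * κ by linarith)
  have a4 := m _ (show Z ≤ 58 / 100 * κ by linarith)
  have a5 := m _ (show u₂ + u₃ - Z ≤ 58 / 100 * κ by linarith)
  rcases h with ⟨k1, k2, k3⟩ | ⟨k1, k2, k3⟩ <;>
    exact ⟨by linarith, by linarith, by linarith⟩

lemma lmp_cv {η η' L κ u₂ u₃ u₄ Z z₁ z₂ z₃ : ℝ} (h : Lmp3 η L u₂ u₃ u₄ Z z₁ z₂ z₃) (hκ : 0 < κ)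
    (hη : η ≤ η') : Lmp3 η' (κ * L) (u₂ / κ) (u₃ / κ) (u₄ / κ) (Z / κ) z₁ z₂ z₃ := by
  have cv : ∀ y : ℝ, y / κ * (κ * L) = y * L := fun y => by field_simp
  have e1 : (u₂ / κ + u₃ / κ - Z / κ) * (κ * L) = (u₂ + u₃ - Z) * L := by
    linear_combination cv u₂ + cv u₃ - cv Z
  rcases h with ⟨k1, k2, k3⟩ | ⟨k1, k2, k3⟩
  · left
    rw [cv, cv, cv]
    exact ⟨by linarith, by linarith, by linarith⟩
  · right
    rw [cv, cv, e1]
    exact ⟨by linarith, by linarith, by linarith⟩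

/-- **the assembly** -/
theorem rpG_core {c₀ : ℝ} (hpu : PU h c₀) {R : ℝ} (hR0 : 0 ≤ R)
    (hR : ∀ u, cx h u ≠ 0 → |u| ≤ R) (HI : PMQin NCube π h d) (HA : LineAX)
    (HPr : LinePr) (HPo : LinePo) {e0 c β : ℝ} (he1 : e0 ≤ 1 / 64) (hc0 : 0 ≤ c) (hc1 : c ≤ 1)
    (hcd : 4 * c ≤ d) {Par : Set (Fin 3 ⊕ Fin 5 → ℝ)} {L0 : (Fin 3 ⊕ Fin 5 → ℝ) → ℝ}
    (hPar : ∀ p ∈ Par, ParOK p)
    (hDp : ∀ p ∈ Par, Dp (cu p 2 / cκ p) (cu p 3 / cκ p) (cu p 4 / cκ p) (cx' p / cκ p) d)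
    (hZ0 : ∀ p ∈ Par, 17 / 100 ≤ 1883 / 10000 * cκ p) (hβ : β = 17 / 100)
    (hL0 : ∀ p ∈ Par, max 0 (5 / 4 * cN p - cκ p) + 3 / 4 * d * cκ p ≤ L0 p)
    {al : Λ × Eis → BcX → List Pq → Eis → ℂ} {ok : Λ × Eis → BcX → List Pq → Prop}
    {rz3 : BcX → Fin 3 → Pq} {s0 : BcX → ℝ} {Lc : (IX5 → ℝ) → ℝ → ℝ → ℝ → Prop}
    {et : BcX → List Pq → ℕ → ℝ} {Sh : BcX → List Pq → ℝ → ℝ → ℝ → ℝ}
    (hok : ∀ lam a qs, ok lam a qs → okCX (π lam.1) lam.2 a qs)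
    (hXd : XdU π h R al ok (fun a qs => List.ofFn (rz3 a) ++ qs) s0)
    (hrz : ∀ a : BcX, ∀ i, (Dq.lump (a.2.1 i) → Dq.lump (rz3 a i)) ∧
      (rz3 a i).d = (a.2.1 i).d ∧ (rz3 a i).t = (a.2.1 i).t)
    (hGeo : GeoU c β Par Lc ok rz3 s0)
    (hSh : ∀ a qs γ b v, Sh a qs γ b v ≤ max (ShO (k5X a) a.1.z (LN (clN a qs)) γ b v)
      (5 / 3 * LN (clN a qs) + bcO (s0 a) γ b v))
    (hLip : ∀ a qs, LipS 3 (Sh a qs)) (het0 : ∀ a qs j, 0 ≤ et a qs j)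
    (het1 : ∀ a qs j, 0 ≤ a.1.l → et a qs j ≤
      1 / 8 * a.1.l + max 0 (2 * LN (clN a qs) - a.1.l - Real.log 2 * j)) :
    RpGU al ok e0 c et β Par Lc L0 Sh := by
  intro R' hR' Nw Mw Fw hWD ε hε
  obtain ⟨σ, hσ, hσ1, H⟩ := blkX hpu hR0 hR HI HA HPr HPo
  obtain ⟨C₁, hC₁, HR⟩ := RPb440.RPs_Qs (ε := ε / 32) (by positivity)
  obtain ⟨δ, hδ, hδσ, hδ7⟩ : ∃ δ : ℝ, 0 < δ ∧ δ ≤ σ / 4 ∧ δ ≤ 1 / 10 ^ 8 :=
    ⟨min (σ / 4) (1 / 10 ^ 8), lt_min (by positivity) (by norm_num), min_le_left _ _,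
      min_le_right _ _⟩
  refine ⟨δ, hδ, ?_⟩
  rintro ⟨lam, st⟩ N B
  by_cases hs0 : st = 0
  · refine ⟨1, one_pos, 2, by norm_num, ?_⟩
    intro X hX a qs _ _ q _ _ _ _ _
    have : ¬ ok (lam, st) a qs := fun h' => (hok _ _ _ h').2.1.1 hs0
    unfold RpG
    rw [if_neg this]
    positivity
  set B₂ : ℝ := max B 3 with hB₂
  have hBB : B ≤ B₂ := le_max_left _ _
  have hB3 : 3 ≤ B₂ := le_max_right _ _
  obtain ⟨M, b, Cz, X₁, hCz, hX₁, H⟩ := H lam st hs0 N (2 * B₂) (by linarith)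
    (((N + 3 : ℕ) : ℝ) * R) (by positivity) _ _ _ _ (hWD lam)
  obtain ⟨X₂, hX₂, HX⟩ := hXd N lam st hs0 B₂ (by linarith) b Cz hCz
  set C₃ : ℝ := Nw lam * C₁ * (24 / ε) + 1 with hC₃
  have hC₃1 : 1 ≤ C₃ := by
    have : 0 ≤ (Nw lam : ℝ) * C₁ * (24 / ε) := by positivity
    linarith
  have hlC₃ : 0 ≤ Real.log C₃ := Real.log_nonneg hC₃1
  set ρ : ℝ := 1 / (10 ^ 9 * ((M : ℝ) + N + 5)) with hρ
  have hMN : 0 < (M : ℝ) + N + 5 := by positivity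
  have hρ0 : 0 < ρ := by positivity
  refine ⟨ρ, hρ0, max (max (X₁ ^ 2) X₂) (Real.exp (2 / δ + 8 * Real.log C₃ / ε + 10)),
    lt_of_lt_of_le hX₂ ((le_max_right _ _).trans (le_max_left _ _)), ?_⟩
  intro X hX a qs hlen hgl q hq hw hm hg hl
  have hX12 : X₁ ^ 2 ≤ X := (le_max_left _ _).trans ((le_max_left _ _).trans hX)
  have hX2' : X₂ ≤ X := (le_max_right _ _).trans ((le_max_left _ _).trans hX)
  have hX1 : 1 < X := lt_of_lt_of_le hX₂ hX2'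
  have hX0 : 0 < X := by linarith
  by_cases hok' : ok (lam, st) a qs
  swap
  · unfold RpG
    rw [if_neg hok']
    positivity
  have hoC := hok _ _ _ hok'
  set L := Real.log X with hL
  have hL0' : 0 < L := Real.log_pos hX1
  have hQL : 2 / δ + 8 * Real.log C₃ / ε + 10 ≤ L := by
    rw [hL, Real.le_log_iff_exp_le hX0]; exact (le_max_right _ _).trans hX
  have hδ2 : 0 ≤ 2 / δ := by positivity
  have hC8 : 0 ≤ 8 * Real.log C₃ / ε := by positivity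
  have hLδ : 2 ≤ δ * L := by
    have h2 : 2 / δ ≤ L := by linarith only [hC8, hQL]
    rw [div_le_iff₀ hδ] at h2
    linarith only [h2]
  have hL10 : 10 ≤ L := by linarith only [hC8, hQL, hδ2]
  have hLC : C₃ ≤ X ^ (ε / 8) := by
    have h2 : 8 * Real.log C₃ / ε ≤ L := by linarith only [hδ2, hQL]
    rw [div_le_iff₀ hε] at h2
    rw [Real.rpow_def_of_pos hX0, ← Real.exp_log (show 0 < C₃ by linarith only [hC₃1])]
    exact Real.exp_le_exp.2 (by rw [← hL]; linarith only [h2])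
  -- the configuration
  obtain ⟨hq1, hq2, hq3, hq4⟩ := hq
  have hq : q ∈ Dom8X c β Par Lc := ⟨hq1, hq2, hq3, hq4⟩
  have hpar := hq1.par
  have hPp := hPar _ hpar
  have hDpp := hDp _ hpar
  have hL0p := hL0 _ hpar
  have hZp := hZ0 _ hpar
  have hzr := hq1.zr 1
  have hc := cfX_of hX1 hδ.le hc0 hc1 hq hPp hw hm hg hoC
  obtain ⟨hs17, hl3, hl3', hrz0⟩ := hGeo X δ (lam, st) a qs q hX1 hδ.le hq hc hok'
  have hld := ldX_of hX1 hBB hw hgl hg (fun p' hp' h => Set.notMem_empty _ (hl p' hp' h)) hoC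
  set κ := cκ (prX (bp q.1)) with hκ
  set u₂ := cu (prX (bp q.1)) 2 with hu₂
  set u₃ := cu (prX (bp q.1)) 3 with hu₃
  set u₄ := cu (prX (bp q.1)) 4 with hu₄
  set x := cx' (prX (bp q.1)) with hx
  set zs := (bp q.1) (.inr 1) with hzs
  set v₀ := q.1 (.inr 0) with hv₀
  set v₁ := q.1 (.inr 1) with hv₁
  set v₂ := q.1 (.inr 2) with hv₂
  set bb := q.1 (.inr 3) with hbb
  set x' := q.2 .am with hx'
  have hκ0 : 8 / 9 ≤ κ := hPp.κ0
  have hκ1 : κ ≤ 1 := hPp.κ1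
  have κp : 0 < κ := by linarith only [hκ0]
  have hκL1 : κ * L ≤ 1 * L := mul_le_mul_of_nonneg_right hκ1 hL0'.le
  have hκL0 : 8 / 9 * L ≤ κ * L := mul_le_mul_of_nonneg_right hκ0 hL0'.le
  have hδ7L := mul_le_mul_of_nonneg_right hδ7 hL0'.le
  have hδL : 0 ≤ δ * L := by positivity
  have hz0 : 17 / 100 * κ ≤ zs := by rw [← hβ]; exact hzr.1
  have hz1 : zs ≤ 1883 / 10000 * κ := (hzr.2.trans (le_of_eq hβ)).trans hZp
  obtain ⟨hu4, hy43, hu0, hy3x, hN1, hnr, hxx0, -, hd0, hd1⟩ := dp_hom κp hDpp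
  obtain ⟨k1, k2⟩ := abs_le.1 hc.hk
  obtain ⟨n1, n2⟩ := abs_le.1 hc.nl
  have hl0 : 0 ≤ a.1.l := by linarith only [k1, hκL0, hδ7L, hL0']
  have hlog2 : 0 < Real.log 2 := Real.log_pos (by norm_num)
  have hlog2' : Real.log 2 ≤ 1 := by linarith only [Real.log_two_lt_d9]
  have hlog2'' : 1 / 2 ≤ Real.log 2 := by linarith only [Real.log_two_gt_d9]
  -- the scale `X ^ κ`
  set X' : ℝ := X ^ κ with hX'
  have hX'0 : 0 < X' := by positivity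
  have hlX' : Real.log X' = κ * L := by rw [hX', Real.log_rpow hX0]
  have hX₁X' : X₁ ≤ X' := by
    have h1 : X ^ (1 / 2 : ℝ) ≤ X' := Real.rpow_le_rpow_of_exponent_le hX1.le
      (by linarith only [hκ0])
    refine le_trans ?_ h1
    rw [← Real.sqrt_eq_rpow]
    exact Real.le_sqrt_of_sq_le hX12
  have hMH : M * Real.log (X ^ ρ) ≤ Real.log X' / 10 ^ 4 := by
    rw [hlX', hρ, Real.log_rpow hX0, ← hL]
    have h1 : (M : ℝ) * (1 / (10 ^ 9 * ((M : ℝ) + N + 5)) * L) =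
        M / (M + N + 5) * (L / 10 ^ 9) := by
      field_simp
    rw [h1]
    have h2 : (M : ℝ) / (M + N + 5) ≤ 1 := by
      rw [div_le_one hMN]
      have : (0 : ℝ) ≤ N := by positivity
      linarith
    have h3 : 0 ≤ L / 10 ^ 9 := by positivity
    have h4 := mul_le_mul_of_nonneg_right h2 h3
    rw [one_mul] at h4
    refine h4.trans ?_
    rw [div_le_div_iff₀ (by norm_num) (by norm_num)]
    linarith only [hκL0, hL0']
  have hNH : 10 ^ 8 * ((N : ℝ) + 4) * Real.log (X ^ ρ) ≤ Real.log X := by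
    rw [hρ, Real.log_rpow hX0, ← hL]
    have h1 : 10 ^ 8 * ((N : ℝ) + 4) * (1 / (10 ^ 9 * ((M : ℝ) + N + 5)) * L) =
        ((N : ℝ) + 4) / (M + N + 5) * (L / 10) := by
      field_simp
    rw [h1]
    have h2 : ((N : ℝ) + 4) / (M + N + 5) ≤ 1 := by
      rw [div_le_one hMN]
      have : (0 : ℝ) ≤ M := by positivity
      linarith
    have h3 : 0 ≤ L / 10 := by positivity
    have h4 := mul_le_mul_of_nonneg_right h2 h3
    linarith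
  have hnL : LN (clN a qs) ≤ Real.log X := by
    have e9 : cN (prX (bp q.1)) = u₂ + u₃ + u₄ := rfl
    have h1 : (v₀ + v₁ + v₂ + x') * L ≤ (u₂ + u₃ + u₄ + x) * L := by
      refine mul_le_mul_of_nonneg_right ?_ hL0'.le
      have e10 := hq1.s1
      have e11 := hq1.b0
      have e12 := hq1.x1
      rw [e9] at e10
      linarith only [e10, e11, e12]
    have h2 : (u₂ + u₃ + u₄ + x) * L ≤ 9 / 10 * (κ * L) := by
      have : u₂ + u₃ + u₄ + x ≤ 9 / 10 * κ := by linarith only [hN1, hy3x, hu0, hu4, hy43]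
      have := mul_le_mul_of_nonneg_right this hL0'.le
      linarith only [this]
    rw [← hL]
    linarith only [h1, h2, n2, hδ7L, hκL1, hL0']
  -- the data of the sequence
  obtain ⟨r, s, s₂, ζ, η, x₀, Ax, Axp, Zp, hsl, hsl₂, hsum, hal, hη, hFS, hXD, hAx, hAxp, hZpb⟩ :=
    HX X hX2' κ hκ0 hκ1 (X ^ ρ) (Real.one_le_rpow hX1.le hρ0.le) hNH a qs hlen hok' hld.d3
      (fun p' hp' => by
        rw [clN_eq] at hp'
        simp only [List.cons_append, List.nil_append, List.mem_cons] at hp'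
        rcases hp' with rfl | rfl | rfl | hp'
        · exact hld.t3 0
        · exact hld.t3 1
        · exact hld.t3 2
        · exact hld.tq p' hp')
      (fun p' hp' => (hld.am p' hp').2.1) hnL
  have hη3 : 3 * (δ * L) ≤ 1 / 100 * (κ * L) := by linarith only [hδ7L, hκL0, hL0']
  have hη6 : 3 * (δ * L) ≤ κ * L / 10 ^ 6 := by
    rw [le_div_iff₀ (by norm_num)]
    linarith only [hδ7L, hκL0, hL0']
  obtain ⟨w0, w1, w2⟩ := lmp_le hl3 hL0'.le (by linarith only [hy3x, hxx0])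
    (by linarith only [hy3x, hxx0, hy43]) (by linarith only [hy3x, hxx0, hy43, hu4])
    (by linarith only [hz1, κp]) (by linarith only [hz0, κp]) κp.le hη3
  obtain ⟨w0', w1', w2'⟩ := lmp_le hl3' hL0'.le (by linarith only [hy3x, hxx0])
    (by linarith only [hy3x, hxx0, hy43]) (by linarith only [hy3x, hxx0, hy43, hu4])
    (by linarith only [hz1, κp]) (by linarith only [hz0, κp]) κp.le hη3
  have hB20 : 0 ≤ B₂ := by linarith only [hB3]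
  have hLst : Lst σ (2 * B₂) X' (X ^ ρ) (a.2.1 0) (a.2.1 1) (a.2.1 2) qs :=
    lstX hX1 hρ0.le hB20 hδσ hσ hκ0 hld ⟨hld.lmp 0, rfl, rfl⟩ ⟨hld.lmp 1, rfl, rfl⟩
      ⟨hld.lmp 2, rfl, rfl⟩ hc.z0 hc.z1 hc.z2 w0 w1 w2
  have hLst₂ : Lst σ (2 * B₂) X' (X ^ ρ) (rz3 a 0) (rz3 a 1) (rz3 a 2) qs :=
    lstX hX1 hρ0.le hB20 hδσ hσ hκ0 hld ⟨(hrz a 0).1 (hld.lmp 0), (hrz a 0).2⟩
      ⟨(hrz a 1).1 (hld.lmp 1), (hrz a 1).2⟩ ⟨(hrz a 2).1 (hld.lmp 2), (hrz a 2).2⟩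
      (hrz0 0) (hrz0 1) (hrz0 2) w0' w1' w2'
  -- the target
  set Rn : ℝ := X ^ (E8X L0 q + ε / 2) with hRn
  have hRn0 : 0 < Rn := by positivity
  have hcN : cN (prX (bp q.1)) = u₂ + u₃ + u₄ := rfl
  have hmx : max 0 (5 / 4 * (u₂ / κ + u₃ / κ + u₄ / κ) - 1) * (κ * L) =
      max 0 (5 / 4 * (u₂ + u₃ + u₄) - κ) * L := by
    rw [max_mul_of_nonneg _ _ (by positivity), max_mul_of_nonneg _ _ hL0'.le]
    congr 1
    · ring
    · field_simp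
  have eδ : δ / κ * (κ * L) = δ * L := by field_simp
  have hlRn : (1 + max 0 (5 / 4 * (u₂ / κ + u₃ / κ + u₄ / κ) - 1) + 3 / 4 * d) *
      Real.log X' + LN (clN a qs) - 4 * (δ / κ * Real.log X') ≤ Real.log Rn := by
    rw [hlX', eδ, hRn, Real.log_rpow hX0]
    have e1 : E8X L0 q = κ + (v₀ + v₁ + v₂) + x' + L0 (prX (bp q.1)) := rfl
    rw [e1, ← hL]
    have e2 : (1 + max 0 (5 / 4 * (u₂ / κ + u₃ / κ + u₄ / κ) - 1) + 3 / 4 * d) * (κ * L) =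
        κ * L + max 0 (5 / 4 * (u₂ + u₃ + u₄) - κ) * L + 3 / 4 * d * κ * L := by
      linear_combination hmx
    rw [e2]
    have h1 := mul_le_mul_of_nonneg_right hL0p hL0'.le
    rw [hcN] at h1
    have h2 : 0 ≤ ε / 2 * L := by positivity
    linarith only [h1, h2, n2]
  -- the number of levels
  have hnw : (nw c a : ℝ) ≤ 24 / ε * X ^ (ε / 8) := by
    have h1 : (nw c a : ℝ) ≤ 3 * L := by
      rcases Nat.eq_zero_or_pos (nw c a) with h0 | h0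
      · rw [h0]; push_cast; linarith only [hL0']
      · have h2 := hc.t1 (nw c a - 1) (by omega)
        rw [Nat.cast_sub h0, Nat.cast_one] at h2
        have h3 : (min (2 * (u₂ + u₃ + u₄) - κ) (3 / 4 * (u₂ + u₃ + u₄)) + 11 / 5 * x) * L ≤
            1 * L := by
          refine mul_le_mul_of_nonneg_right ?_ hL0'.le
          have := min_le_right (2 * (u₂ + u₃ + u₄) - κ) (3 / 4 * (u₂ + u₃ + u₄))
          linarith only [this, hN1, hy3x, hu0, hu4, hy43, hκ1]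
        have h4 : 1 / 2 * ((nw c a : ℝ) - 1) ≤ Real.log 2 * ((nw c a : ℝ) - 1) := by
          refine mul_le_mul_of_nonneg_right hlog2'' ?_
          have : (1 : ℝ) ≤ nw c a := by exact_mod_cast h0
          linarith only [this]
        linarith only [h2, h3, h4, hδ7L, hL10]
    have h2 : L ≤ X ^ (ε / 8) / (ε / 8) := Real.log_le_rpow_div hX0.le (by positivity)
    refine h1.trans ?_
    have h3 : 3 * (X ^ (ε / 8) / (ε / 8)) = 24 / ε * X ^ (ε / 8) := by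
      field_simp
      ring
    linarith only [h2, h3]
  unfold RpG
  rw [if_pos hok']
  have hXexp : ∀ c : ℝ, c ≤ 4 * L → Real.exp c ≤ X ^ 4 := fun c hc => by
    rw [← Real.le_log_iff_exp_le (by positivity), Real.log_pow]
    push_cast
    exact hc
  have hX41 : 1 ≤ X ^ 4 := one_le_pow₀ hX1.le
  have hE0P : Real.exp (e0 * a.1.l) ≤ X ^ 4 := by
    refine hXexp _ ?_
    have := mul_le_mul_of_nonneg_right he1 hl0
    linarith only [this, k2, hκL1, hδ7L, hL0']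
  have hone : ∀ j ∈ Finset.range (nw c a), ∀ m ∈ Finset.range (Nw lam),
      RPb (rhoS (TgX a qs) a.1.l (Sh a qs)) (al (lam, st) a qs)
        (sc (Real.exp a.1.l) (Mw lam) m) (X6C180.GF (Fh (Fw lam m) (et a qs j)))
        (S (Real.sqrt (2 ^ (j + 1)))) (j + 2) (Real.exp (e0 * a.1.l)) (2 ^ (j + 1)) (2 ^ j / 4) ≤
      C₁ * (X ^ 4) ^ (ε / 32) * Rn := by
    intro j hj m hm'
    have hj' := Finset.mem_range.1 hj
    have hm'' := Finset.mem_range.1 hm'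
    have hjL : Real.log 2 * j ≤ L + 20 * (δ * L) := by
      have h2 := hc.t1 j hj'
      have h3 : (min (2 * (u₂ + u₃ + u₄) - κ) (3 / 4 * (u₂ + u₃ + u₄)) + 11 / 5 * x) * L ≤
          1 * L := by
        refine mul_le_mul_of_nonneg_right ?_ hL0'.le
        have := min_le_right (2 * (u₂ + u₃ + u₄) - κ) (3 / 4 * (u₂ + u₃ + u₄))
        linarith only [this, hN1, hy3x, hu0, hu4, hy43, hκ1]
      linarith only [h2, h3]
    have h2j : (2 : ℝ) ^ (j + 2) ≤ X ^ 4 := by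
      rw [← Real.exp_log (show (0 : ℝ) < 2 ^ (j + 2) by positivity)]
      refine hXexp _ ?_
      rw [Real.log_pow]
      push_cast
      linarith only [hjL, hlog2', hδ7L, hL10]
    have hsq : Real.sqrt (2 ^ (j + 1)) ≤ X ^ 4 := by
      have h1 : (1 : ℝ) ≤ 2 ^ (j + 1) := one_le_pow₀ (by norm_num)
      have h2 : Real.sqrt ((2 : ℝ) ^ (j + 1)) ≤ 2 ^ (j + 1) := by
        rw [Real.sqrt_le_left (by linarith only [h1])]
        nlinarith only [h1]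
      refine h2.trans (le_trans ?_ h2j)
      exact pow_le_pow_right₀ (by norm_num) (by omega)
    unfold I1K764.RPb
    refine HR (X ^ 4) _ (Real.sqrt (2 ^ (j + 1))) (2 ^ (j + 1)) (Real.exp (e0 * a.1.l)) Rn (j + 2)
      (fun δ => nebL δ (2 ^ (j + 1)) (2 ^ j / 4) (j + 2)) (fun δ =>
        (Finset.filter_subset _ _).trans (Finset.filter_subset _ _)) hX41
      (WDec180.sc_pos (Real.exp_pos _) _ _) (Real.sqrt_nonneg _) hsq (by positivity)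
      (Real.exp_pos _).le hE0P h2j hRn0.le _ _ _ _ (rw_rhoS (hLip a qs) (by norm_num) _ _) ?_
    intro δ' hδ' i hi e he yy hyy a' ha'
    obtain ⟨d1, d2, d3⟩ := (mem_S (Real.sqrt_nonneg _)).1 hδ'
    obtain ⟨f1, f2, f3⟩ := (mem_S (Real.exp_pos _).le).1 he
    have hi1 := (Finset.mem_filter.1 hi).1
    unfold LBx48.neb at hi1
    rw [Finset.mem_filter, Finset.mem_range] at hi1
    obtain ⟨j1, j2⟩ := hi1
    have hyy' := (mem_prs d2).mp hyy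
    have ha2 := (mem_pdiv hyy'.1.ne_zero).mp ha'
    obtain ⟨hV1, hNum⟩ := numX_of (δ' := δ') (e := e) (a' := a') (i := i) hL0' hδ.le hδ7 hLδ hκ0
      hκ1 hDpp hc hcd hz0 hz1 hq1.b0 hq1.x0 hq1.x1 (by rw [← hcN]; exact hq1.s1)
      (by rw [← hcN]; exact hq1.s2) hs17 (het0 a qs j) (het1 a qs j hl0) hj' he1 hl0 d2 f2 ha2.1 f1
      j1 j2
    have hV0 : (0 : ℝ) < 2 ^ (j + 1) / 2 ^ i := by positivity
    have key := H X' hX₁X' r s s₂ (a.2.1 0) (a.2.1 1) (a.2.1 2) (rz3 a 0) (rz3 a 1) (rz3 a 2) qs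
      (by rw [hsl, clN_eq]) (by rw [hsl₂]; show List.ofFn (rz3 a) ++ qs = _; rw [P10X764.ofFn3]) hlen (X ^ ρ) hLst hLst₂ hMH hsum
      (δ / κ) (u₂ / κ) (u₃ / κ) (u₄ / κ) (x / κ) (zs / κ) a.1.l a.1.z (a3 a.1.toBd)
      (LN (clN a qs)) (Real.log 2 * j) (bb * L) (s0 a) (et a qs j)
      (Real.log (2 ^ (j + 1) / 2 ^ i)) Rn δ' e d2 d3 f2 yy hyy a' ha'
      (by rw [hlX']; exact hNum) (by rw [P1Rg440.sum_ofFn_z, hsl]) hRn0 hlRn
      (by rw [hlX']; exact lmp_cv hl3 κp hη6) (by rw [hlX']; exact lmp_cv hl3' κp hη6)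
      (by
        rw [hlX']
        have e1 : x / κ * (κ * L) = x * L := by field_simp
        rw [e1]
        have := hc.w
        linarith only [this, hη6, hδL])
      (Sh a qs) (hSh a qs _ _ _) ζ x₀ Ax Axp Zp hXD (by rw [hlX']; exact hAx)
      (by rw [hlX']; exact hAxp) hZpb m hm''
    rw [Real.exp_log hV0] at key
    rw [hal]
    exact (RXc739.Qs_oc (RXc739.GF_bdh ((hWD lam).tf m) (het0 a qs j))
      (WDec180.sc_pos (Real.exp_pos _) _ _) f2.ne_zero hyy'.1 ha2.1.ne_zero _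
      (FS_tw3 st hFS) hη).trans key
  refine (Finset.sum_le_sum fun j hj => Finset.sum_le_sum (hone j hj)).trans ?_
  rw [Finset.sum_const, Finset.card_range, nsmul_eq_mul, Finset.sum_const, Finset.card_range,
    nsmul_eq_mul]
  have e1 : ((X : ℝ) ^ 4) ^ (ε / 32) = X ^ (ε / 8) := by
    rw [← Real.rpow_natCast, ← Real.rpow_mul hX0.le]
    congr 1
    push_cast
    ring
  rw [e1]
  have hXe : 0 < X ^ (ε / 8) := by positivity
  calc (nw c a : ℝ) * (Nw lam * (C₁ * X ^ (ε / 8) * Rn)) ≤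
      (24 / ε * X ^ (ε / 8)) * (Nw lam * (C₁ * X ^ (ε / 8) * Rn)) :=
        mul_le_mul_of_nonneg_right hnw (by positivity)
    _ = Nw lam * C₁ * (24 / ε) * (X ^ (ε / 8) * X ^ (ε / 8) * Rn) := by ring
    _ ≤ X ^ (ε / 8) * (X ^ (ε / 8) * X ^ (ε / 8) * Rn) := by
        refine mul_le_mul_of_nonneg_right ?_ (by positivity)
        refine le_trans ?_ hLC
        rw [hC₃]
        linarith only
    _ = X ^ (E8X L0 q + ε / 2 + 3 * (ε / 8)) := by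
        rw [hRn, ← Real.rpow_add hX0, ← Real.rpow_add hX0, ← Real.rpow_add hX0]
        congr 1
        ring
    _ ≤ X ^ (E8X L0 q + ε) := Real.rpow_le_rpow_of_exponent_le hX1.le (by linarith only [hε])

end Crest.Agent.R017.RXu440
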