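import Crest.Agent.R017.RXv_739
import Crest.Agent.R017.RXu_440
import Crest.Agent.R017.E2Xb_764

/-!
# Row 17, class E, the R-side of P1 (helper739): `XdU` for the differences
-/

set_option autoImplicit false

noncomputable section

namespace Crest.Agent.R017.RXv739

open Crest.Agent.R012 Crest.Agent.R012.Eis
open Crest.Agent.R017.FE47 (cx PU)
open Crest.Agent.R017.B770
open Crest.Agent.R017.Prov71
open Crest.Agent.R017.Sup271 (NPm)
open Crest.Agent.R017.P1X960
open Crest.Agent.R017.P10X764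

variable {Λ : Type*} {π : Λ → DPar} {h : ℝ → ℝ}

/-- **`XdU` for the differences** -/
theorem xdU_X {c₀ : ℝ} (hpu : PU h c₀) (hP : ∀ lam, (π lam).OK)
    (hex : ∀ lam, ¬ NPm (π lam).n (π lam).ψ (π lam).l₂ 1) {R : ℝ} (hR0 : 0 ≤ R)
    (hR : ∀ u, cx h u ≠ 0 → |u| ≤ R) :
    RXu440.XdU π h R (alX π h) (okX π) (fun a qs => List.ofFn (rzD a.2.1 (dz a.1)) ++ qs) s0X :=
  fun N lam _ hst _ hB₂ b _ hCz => xdX hpu hP hex N hR0 hR lam hst hB₂ b hCz

end Crest.Agent.R017.RXv739
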