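import Crest.Agent.R017.RXu_440
import Crest.Agent.R017.RXd_739
import Crest.Agent.R017.E2Sb_764

/-!
# Row 17, class E, the R-side of `P1` (helper176): the data of a single list

* `pv_one` : the principal values of one natural list, no gain
* **`xdU_S`** : `XdU` for `alS`
-/

set_option autoImplicit false
set_option maxHeartbeats 2000000

noncomputable section

open Finset
open scoped ComplexConjugate

namespace Crest.Agent.R017.RXz176

open Crest.Agent.R012 Crest.Agent.R012.Eis Crest.Agent.R012.GaussLoc283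
open Crest.Agent.R012.LS2 (S mem_S card_S_le')
open Crest.Agent.R012.Weight600 (osc norm_osc)
open Crest.Agent.R017.CM106 (CS FS)
open Crest.Agent.R017.FE47 (cx PU)
open Crest.Agent.R017.B770
open Crest.Agent.R017.Prov71
open Crest.Agent.R017.HP842 (pc sqc alL)
open Crest.Agent.R017.Leg381 (alF natl)
open Crest.Agent.R017.PrD502 (PV)
open Crest.Agent.R017.I1146 (LN tw3)
open Crest.Agent.R017.UM71 Crest.Agent.R017.End699
open Crest.Agent.R017.E5B71 (Pt)
open Crest.Agent.R017.P1X960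
open Crest.Agent.R017.P10X764 Crest.Agent.R017.E2G764
open Crest.Agent.R017.RXb739 (XD)
open Crest.Agent.R017.RXu440

/-- **the principal values of a sequence with bounded support**, no gain -/
theorem pv_one {x : Eis → ℂ} {M Y : ℝ} (hM : 0 ≤ M) (hY : 0 ≤ Y) (hx : ∀ n, ‖x n‖ ≤ M)
    (hs : ∀ n, x n ≠ 0 → IsPrim n ∧ Squarefree n ∧ (nm n : ℝ) ≤ Y) (Pr : Eis → Prop) (J : ℕ)
    (Zp : ℝ) : PV Pr J (16 * (M * Y)) 0 Zp x := by
  intro g hg hgZ k hk hkZ hp t
  have hg1 : (1 : ℝ) ≤ nm g := by exact_mod_cast nm_pos.2 hg.ne_zero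
  have hg0 : (0 : ℝ) < nm g := by linarith
  have hMg : ExD791.Mg 0 g = 1 := by
    unfold ExD791.Mg
    rw [zero_div, neg_zero, Real.exp_zero, mul_one]
    exact min_eq_left (Real.one_le_rpow hg1 (by norm_num))
  rw [hMg, mul_one]
  have ht : 1 ≤ (1 + |t|) ^ J := one_le_pow₀ (by linarith [abs_nonneg t])
  have hA : 0 ≤ 16 * (M * Y) / nm g := by positivity
  have hn : ∀ n, x (g * n) ≠ 0 → IsPrim n ∧ Squarefree n ∧ (nm n : ℝ) ≤ Y / nm g := by
    intro n h
    obtain ⟨h1, h2, h3⟩ := hs _ h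
    refine ⟨h1.of_mul_left hg, h2.squarefree_of_dvd ⟨g, by ring⟩, ?_⟩
    rw [le_div_iff₀ hg0]
    rw [nm_mul] at h3
    push_cast at h3
    linarith
  have hmain : ‖∑' n : Eis, x (g * n) * (osc t (Real.log (nm n)) * sy k n)‖ ≤
      16 * (M * Y) / nm g := by
    by_cases hY1 : 1 ≤ Y / nm g
    · have h0 : 0 ≤ Y / nm g := by linarith
      have hsum : ∑' n : Eis, x (g * n) * (osc t (Real.log (nm n)) * sy k n) =
          ∑ n ∈ S (Y / nm g), x (g * n) * (osc t (Real.log (nm n)) * sy k n) := by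
        refine tsum_eq_sum fun n h => ?_
        by_cases hxn : x (g * n) = 0
        · rw [hxn, zero_mul]
        · exfalso
          obtain ⟨h1, h2, h3⟩ := hn n hxn
          exact h ((mem_S h0).2 ⟨h3, h1, h2⟩)
      rw [hsum]
      refine (norm_sum_le _ _).trans ?_
      have hb : ∀ n ∈ S (Y / nm g), ‖x (g * n) * (osc t (Real.log (nm n)) * sy k n)‖ ≤ M := by
        intro n h
        obtain ⟨-, h2, -⟩ := (mem_S h0).1 h
        rw [norm_mul, norm_mul, norm_osc, one_mul]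
        calc ‖x (g * n)‖ * ‖sy k n‖ ≤ M * 1 :=
              mul_le_mul (hx _) (syAx.norm_le_one k h2) (norm_nonneg _) hM
          _ = M := mul_one _
      refine (Finset.sum_le_sum hb).trans ?_
      rw [Finset.sum_const, nsmul_eq_mul]
      calc ((S (Y / nm g)).card : ℝ) * M ≤ 16 * (Y / nm g) * M :=
            mul_le_mul_of_nonneg_right (card_S_le' hY1) hM
        _ = 16 * (M * Y) / nm g := by ring
    · have hz : ∀ n : Eis, x (g * n) * (osc t (Real.log (nm n)) * sy k n) = 0 := by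
        intro n
        by_cases hxn : x (g * n) = 0
        · rw [hxn, zero_mul]
        · exfalso
          obtain ⟨h1, -, h3⟩ := hn n hxn
          have h4 : (1 : ℝ) ≤ nm n := by exact_mod_cast nm_pos.2 h1.ne_zero
          linarith
      simp only [hz, tsum_zero, norm_zero]
      exact hA
  exact hmain.trans (le_mul_of_one_le_left hA ht)

variable {Λ : Type*} {π : Λ → DPar} {h : ℝ → ℝ}

/-- **the data of a single list** -/
theorem xdU_S {c₀ : ℝ} (hpu : PU h c₀) (hP : ∀ lam, (π lam).OK) {R : ℝ} (hR0 : 0 ≤ R)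
    (hR : ∀ u, cx h u ≠ 0 → |u| ≤ R) :
    XdU π h R (alS π h) (okS π) (fun a qs => List.ofFn a.2.1 ++ qs) (fun _ => 0) := by
  intro N lam st hst B₂ hB₂ b Cz hCz
  have hε : (0 : ℝ) < 1 / (10 * 10 ^ 6) := by norm_num
  obtain ⟨C₁, hC₁, H₁⟩ := RXd739.nat_sz hpu (N + 3) hR0 hR (le_refl (1 : ℝ)) hε
  obtain ⟨C₂, hC₂, H₂⟩ := RXd739.xd_one hpu (N + 3) hR0 hR (le_refl (1 : ℝ)) hε
  set C : ℝ := 16 * (C₁ * Real.exp (((N + 3 : ℕ) : ℝ) * R)) + C₂ with hC
  have hC10 : 0 ≤ C₁ := by linarith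
  have hC1 : 1 ≤ C := by
    have : 0 ≤ 16 * (C₁ * Real.exp (((N + 3 : ℕ) : ℝ) * R)) := by positivity
    linarith
  have hC2C : C₂ ≤ C := by
    have : 0 ≤ 16 * (C₁ * Real.exp (((N + 3 : ℕ) : ℝ) * R)) := by positivity
    linarith
  have hC1C : 16 * (C₁ * Real.exp (((N + 3 : ℕ) : ℝ) * R)) ≤ C := by linarith
  have hlC : 0 ≤ Real.log C := Real.log_nonneg hC1
  refine ⟨3 + Real.exp (10 ^ 7 * Real.log C), by
    have := Real.exp_pos (10 ^ 7 * Real.log C)
    linarith, ?_⟩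
  intro X hX κ hκ0 hκ1 H₀ hH₀ hNH a qs hlen hok hd ht hqs hLN
  have hexpC := Real.exp_pos (10 ^ 7 * Real.log C)
  have hX3 : 3 ≤ X := by linarith
  have hX0 : 0 < X := by linarith
  have hX1 : 1 ≤ X := by linarith
  have hL1 : 1 ≤ Real.log X := by
    rw [Real.le_log_iff_exp_le hX0]
    have := Real.exp_one_lt_d9
    linarith
  have hCL : 10 ^ 7 * Real.log C ≤ Real.log X := by
    rw [Real.le_log_iff_exp_le hX0]
    linarith
  have hCX : C * X ^ ((1 : ℝ) / (10 * 10 ^ 6)) ≤ Real.exp (κ * Real.log X / 10 ^ 6) := by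
    rw [Real.rpow_def_of_pos hX0]
    nth_rw 1 [← Real.exp_log (show 0 < C by linarith)]
    rw [← Real.exp_add]
    refine Real.exp_le_exp.2 ?_
    rw [le_div_iff₀ (by norm_num)]
    have h1 : 8 / 9 * Real.log X ≤ κ * Real.log X :=
      mul_le_mul_of_nonneg_right hκ0 (by linarith)
    nlinarith
  have hXe0 : 0 ≤ X ^ ((1 : ℝ) / (10 * 10 ^ 6)) := by positivity
  have hlX' : Real.log ((X ^ κ) ^ 4) = 4 * (κ * Real.log X) := by
    rw [Real.log_pow, Real.log_rpow hX0]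
    norm_num
  have hPz0 : 0 < (X ^ κ) ^ 4 := by positivity
  have hκL : 8 / 9 * Real.log X ≤ κ * Real.log X :=
    mul_le_mul_of_nonneg_right hκ0 (by linarith)
  have hexpP : ∀ c : ℝ, c ≤ 4 * (κ * Real.log X) → Real.exp c ≤ (X ^ κ) ^ 4 := fun c hc => by
    rw [← Real.le_log_iff_exp_le hPz0, hlX']
    exact hc
  obtain ⟨hbok, hsm, hlmp, hamq, hb0⟩ := hok
  have hz : ∀ p ∈ clN a qs, 0 ≤ p.z := by
    intro p hp
    unfold P10X764.clN at hp
    rcases List.mem_append.1 hp with h1 | h1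
    · obtain ⟨i, rfl⟩ := List.mem_ofFn.1 h1
      exact (hlmp i).2
    · exact hqs p h1
  have hlen' : (clN a qs).length ≤ N + 3 := by
    unfold P10X764.clN
    rw [List.length_append, List.length_ofFn]
    omega
  have hLN1 : LN (clN a qs) ≤ 1 * Real.log X := by rw [one_mul]; exact hLN
  obtain ⟨g1, g2⟩ := H₁ X hX3 (π lam) (hP lam) (clN a qs) hlen' hz hLN1
  have hofn : List.ofFn (clN a qs).get = clN a qs := List.ofFn_get _
  set Y : ℝ := Real.exp (LN (clN a qs) + ((N + 3 : ℕ) : ℝ) * R) with hY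
  have hY0 : 0 < Y := Real.exp_pos _
  have hM0 : 0 ≤ C₁ * X ^ ((1 : ℝ) / (10 * 10 ^ 6)) := by positivity
  have hpv := pv_one hM0 hY0.le g1 (fun n hn => by
    obtain ⟨h1, h2, h3⟩ := g2 n hn
    refine ⟨h1, h2, ?_⟩
    have h4 : (0 : ℝ) < nm n := by exact_mod_cast nm_pos.2 h1.ne_zero
    rw [hY, ← Real.log_le_iff_le_exp h4]
    linarith [(abs_le.1 h3).2]) (fun H => ∃ c, H = c ^ 3) 6
    (Cz * ((X ^ κ) ^ 4) ^ b * (nm st : ℝ) ^ 4)
  have hXD := H₂ X hX3 (π lam) (hP lam) (clN a qs) hlen' hz hLN1 ((X ^ κ) ^ 4) 1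
    (hexpP _ (by linarith))
    (by
      rw [pow_one]
      refine (mul_le_mul_of_nonneg_right hC2C hXe0).trans (hCX.trans (hexpP _ ?_))
      rw [div_le_iff₀ (by norm_num)]
      linarith) _ (clN a qs).get hofn
    (16 * (C₁ * X ^ ((1 : ℝ) / (10 * 10 ^ 6)) * Y)) 0
    (Cz * ((X ^ κ) ^ 4) ^ b * (nm st : ℝ) ^ 4) (by positivity) hpv
  refine ⟨_, (clN a qs).get, (clN a qs).get, 0, 1,
    sqc 1 (alF 1 1 (π lam) h (natl (clN a qs))), C₂ * X ^ ((1 : ℝ) / (10 * 10 ^ 6)),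
    16 * (C₁ * X ^ ((1 : ℝ) / (10 * 10 ^ 6)) * Y),
    Cz * ((X ^ κ) ^ 4) ^ b * (nm st : ℝ) ^ 4, hofn, hofn, rfl, ?_, by simp, XD.fs hR hXD, hXD,
    (mul_le_mul_of_nonneg_right hC2C hXe0).trans hCX, ?_, le_rfl⟩
  · rw [one_smul]
    unfold P10X764.alS
    rw [I1146.sqc_tw]
    rfl
  · have e1 : 16 * (C₁ * X ^ ((1 : ℝ) / (10 * 10 ^ 6)) * Y) =
        16 * (C₁ * Real.exp (((N + 3 : ℕ) : ℝ) * R)) * X ^ ((1 : ℝ) / (10 * 10 ^ 6)) *
          Real.exp (LN (clN a qs)) := by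
      rw [hY, Real.exp_add]
      ring
    rw [e1, Real.exp_add, mul_comm (Real.exp (LN (clN a qs)))]
    exact mul_le_mul_of_nonneg_right
      ((mul_le_mul_of_nonneg_right hC1C hXe0).trans hCX) (Real.exp_pos _).le

end Crest.Agent.R017.RXz176
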