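import Crest.Agent.R017.RXx_440
import Crest.Agent.R017.RXva_739
import Crest.Agent.R017.RXz_176
import Crest.Agent.R017.PMb_385
import Crest.Agent.R017.LfP_986

/-!
# Row 17, class E, the R-side of `P1` (helper440): final form

* **`rpX_F`**, **`rpS_F`** : `RpGU` at the reduced data, from the frame hypotheses
-/

set_option autoImplicit false

noncomputable section

namespace Crest.Agent.R017.RXxa440

open Crest.Agent.R012 Crest.Agent.R012.Eis
open Crest.Agent.R017.FE47 (cx PU)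
open Crest.Agent.R017.B770
open Crest.Agent.R017.Prov71
open Crest.Agent.R017.End699
open Crest.Agent.R017.P1X960
open Crest.Agent.R017.P1t54 (ParS LS0)
open Crest.Agent.R017.P10X764 Crest.Agent.R017.E2G764
open Crest.Agent.R017.Red848 (red Exc red_ok)
open Crest.Agent.R017.ER911
open Crest.Agent.R017.RGB545
open Crest.Agent.R017.PM320 (Clo)
open Crest.Agent.R017.TK708 (sh5)

variable {Lam : Type*} {π : Lam → DPar} {h : ℝ → ℝ} {c₁ : ℝ} {A d : ℝ}

/-- **`RpXU` of class E** -/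
theorem rpX_F (hPF : End699.PF Set.univ (7 / 8 + d)) (hpu : PU h c₁)
    (hP : ∀ lam, (π lam).OK) (hE : ∀ lam, Exc (π lam)) (hc : Clo π)
    (R' : ExpRules (7 / 8 + d) (ex Dq (RNe π h)) (ex Dq (SPe π h)))
    {R : ℝ} (hR0 : 0 ≤ R) (hR : ∀ u, cx h u ≠ 0 → |u| ≤ R)
    (hd : 0 ≤ d) (hd1 : d ≤ 1 / 42) (hA : 9 / 10 ≤ A) (hA0 : A ≤ 1) (hA1 : 16 * (1 - A) ≤ d) :
    RpGU (alX (fun lam => red (π lam)) h) (okX fun lam => red (π lam)) (1 / 64) (d / 4)
      ER764.etR (17 / 100) (ParS A d) DifL (LS0 d) (ShX sh5) :=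
  RXx440.rpX_of hpu hR0 hR (PMb385.pmqin_E hPF hpu hP hE hc R' hd (by linarith))
    (RXv739.xdU_X hpu (fun lam => red_ok (hP lam) (hE lam)) (fun lam => LfP986.npm_one (π lam)) hR0 hR)
    hd hd1 hA hA0 hA1

/-- **`RpSU` of class E** -/
theorem rpS_F (hPF : End699.PF Set.univ (7 / 8 + d)) (hpu : PU h c₁)
    (hP : ∀ lam, (π lam).OK) (hE : ∀ lam, Exc (π lam)) (hc : Clo π)
    (R' : ExpRules (7 / 8 + d) (ex Dq (RNe π h)) (ex Dq (SPe π h)))
    {R : ℝ} (hR0 : 0 ≤ R) (hR : ∀ u, cx h u ≠ 0 → |u| ≤ R)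
    (hd : 0 ≤ d) (hd1 : d ≤ 1 / 42) (hA : 9 / 10 ≤ A) (hA0 : A ≤ 1) (hA1 : 16 * (1 - A) ≤ d) :
    RpGU (alS (fun lam => red (π lam)) h) (okS fun lam => red (π lam)) (1 / 64) (d / 4)
      ER764.etR (17 / 100) (ParS A d) (SinL (17 / 100)) (LS0 d) (ShS sh5) :=
  RXx440.rpS_of hpu hR0 hR (PMb385.pmqin_E hPF hpu hP hE hc R' hd (by linarith))
    (RXz176.xdU_S hpu (fun lam => red_ok (hP lam) (hE lam)) hR0 hR)
    hd hd1 hA hA0 hA1

end Crest.Agent.R017.RXxa440
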