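import Crest.Agent.R017.Fin16_986
import Crest.Agent.R017.NAo_144
import Crest.Agent.R017.P10I_385

/-!
# Row 17: the top from the remaining leaves (helper986)

* `GkX d h` : the one premise of `e2x`; `Open17`
* `s22_of_open17`, `s23_of_open17`
-/

set_option autoImplicit false

noncomputable section

open Complex Filter Topology

namespace Crest.Agent.R017.Fin17

open Crest.Agent.R012 Crest.Agent.R012.Eis
open Crest.Agent.R017.FE47 Crest.Agent.R017.End699
open Crest.Agent.R017.B770 Crest.Agent.R017.BxH986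
open Crest.Agent.R017.Prov71 Crest.Agent.R017.ER911
open Crest.Agent.R017.E5B71 Crest.Agent.R017.ExP960 Crest.Agent.R017.ExBox960
open Crest.Agent.R017.E5L770
open Crest.Agent.R017.SC777
open Crest.Agent.R017.Fin4 Crest.Agent.R017.Fin5 Crest.Agent.R017.Fin6
open Crest.Agent.R017.P1l54 Crest.Agent.R017.P1t54
open Crest.Agent.R017.P1X960
open Crest.Agent.R017.P10X764
open Crest.Agent.R017.E5LX770
open Crest.Agent.R017.Sg986 (AA AA_lt AA_eq AA_ge)
open Crest.Agent.R017.NrX986 (NearAllX)
open Crest.Agent.R017.XS0298 (S0x S0K)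
open Crest.Agent.R017.Red848 (red Exc red_ok)
open Crest.Agent.R017.ETd548 (RoomX)
open Crest.Agent.R017.ETk548 (CsGUc GkGUc)

/-- **the kernel bound of the differences** -/
def GkX (d : ℝ) (h : ℝ → ℝ) : Prop :=
  GkGUc (7 / 8) (alX (fun lam => red (πE lam)) h) (okX fun lam => red (πE lam)) (1 / 64)
    (d / 4) βX (ParS (AA d) d) DifL fun q => RoomX (LS0 d) q - ETy71.CEX d q

/-- **the open leaves of row 17** at `θ = 7/8 + d` -/
structure Open17 (d : ℝ) (h : ℝ → ℝ) : Prop where
  /-- cross error, differences -/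
  gkX : NearAllX d (ex Dq (fun lam => S0x (red (πE lam)) h)) → GkX d h
  /-- cross error, single lists -/
  e2s : NearAllX d (ex Dq (fun lam => S0x (red (πE lam)) h)) →
    ∀ r : ℝ, 0 ≤ r → (∀ u : ℝ, cx h u ≠ 0 → |u| ≤ r) →
    E2SU (fun lam => red (πE lam)) h (1 / 64) (d / 4) r βX (ParS (AA d) d) (LS0 d)

/-- **the open leaves of row 17** : class E only -/
def Open : Prop := ∀ (h : ℝ → ℝ) (c₀ : ℝ), PU h c₀ → ∀ d : ℝ, 0 < d → d ≤ 1 / 42 →
    PF Set.univ (7 / 8 + d) → BunE d h → RecE d h → Open17 d h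

theorem open_of (H : Open) : Fin16.Open := fun h c₀ hpu d hd hd1 hPF P G =>
  have near := NAo144.near_E hd hd1 hpu hPF P G
  have L := H h c₀ hpu d hd hd1 hPF P G
  { near := near
    e2x := fun r hr0 hr => P10I385.e2x_of hd hd1 hpu hPF P G near hr0 hr (L.gkX near)
    e2s := fun r hr0 hr => L.e2s near r hr0 hr }

/-- **S0022** from the open leaves -/
theorem s22_of_open17 (T : Trees) (H : Open) : S22 := Fin16.s22_of_open16 T (open_of H)

/-- **S0023** from the open leaves -/
theorem s23_of_open17 (T : Trees) (H : Open) : S23 := Fin16.s23_of_open16 T (open_of H)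

end Crest.Agent.R017.Fin17
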