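import Crest.Agent.R017.P10GS_764
import Crest.Agent.R017.RXxa_440
import Crest.Agent.R017.ETy4_71
import Crest.Agent.R017.SgN_986
import Crest.Agent.R017.Fin6_986
import Crest.Agent.R017.NrY_986

/-!
# Row 17, T.4 (helper986): the field `e2s` at the top data

* **`e2s_of`** : cross error of the single lists, class E
-/

set_option autoImplicit false

noncomputable section

open Complex Filter Topology

namespace Crest.Agent.R017.P10IS986

open Crest.Agent.R012 Crest.Agent.R012.Eis
open Crest.Agent.R017.FE47 Crest.Agent.R017.End699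
open Crest.Agent.R017.B770 Crest.Agent.R017.BxH986
open Crest.Agent.R017.Prov71 Crest.Agent.R017.ER911
open Crest.Agent.R017.E5B71 Crest.Agent.R017.ExP960 Crest.Agent.R017.ExBox960
open Crest.Agent.R017.E5L770
open Crest.Agent.R017.SC777
open Crest.Agent.R017.Fin4 Crest.Agent.R017.Fin5 Crest.Agent.R017.Fin6
open Crest.Agent.R017.P1l54 Crest.Agent.R017.P1t54
open Crest.Agent.R017.P1X960
open Crest.Agent.R017.P10X764
open Crest.Agent.R017.E5LX770
open Crest.Agent.R017.Red848 (red)
open Crest.Agent.R017.PX764 (Dk)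
open Crest.Agent.R017.XS0298 (S0x S0K)
open Crest.Agent.R017.Sg986 (AA AA_lt AA_eq AA_ge)
open Crest.Agent.R017.NrX986 (NearAllX)
open Crest.Agent.R017.ETd548 (RoomX)
open Crest.Agent.R017.ETk548 (CsGUc GkGUc)

/-- **the cross error of the single lists**, class E -/
theorem e2s_of {d : ℝ} (hd : 0 < d) (hd1 : d ≤ 1 / 42) {h : ℝ → ℝ} {c₀ : ℝ} (hpu : PU h c₀)
    (hPF : PF Set.univ (7 / 8 + d)) (P : BunE d h) (G : RecE d h)
    (near : NearAllX d (ex Dq (fun lam => S0x (red (πE lam)) h))) {r : ℝ} (hr0 : 0 ≤ r)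
    (hr : ∀ u : ℝ, cx h u ≠ 0 → |u| ≤ r)
    (hgk : GkGUc (7 / 8) (alS (fun lam => red (πE lam)) h) (okS fun lam => red (πE lam)) (1 / 64)
      (d / 4) βX (ParS (AA d) d) (SinL βX) fun q => RoomX (LS0 d) q - ETy71.CES d q) :
    E2SU (fun lam => red (πE lam)) h (1 / 64) (d / 4) r βX (ParS (AA d) d) (LS0 d) := by
  have hA := AA_ge hd1
  have hA0 := (AA_lt hd).le
  have hA1 := AA_eq d
  have hP : ∀ lam, (πE lam).OK := fun lam => lam.2.1
  have hE : ∀ lam, Red848.Exc (πE lam) := fun lam => XT6241.exc_piE lam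
  have hc : PM320.Clo πE := RGB545.clo_ncl
  have hPr : ∀ lam, (red (πE lam)).OK := fun lam => Red848.red_ok (hP lam) (hE lam)
  have hcs : CsGUc (7 / 8) (fun lam => red (πE lam)) (alS (fun lam => red (πE lam)) h)
      (okS fun lam => red (πE lam)) (d / 4) βX (ParS (AA d) d) (SinL βX) (ETy71.CES d) :=
    ETy71.csGU_S (π := fun lam => red (πE lam)) hpu hPr P.rules G hd.le (by linarith)
      (by norm_num) (by norm_num) le_rfl (fun p hp => parOK_Sq5 (by linarith) hp)
      (fun p ⟨w, hw⟩ => hw.dm5 hd.le (by linarith) hA0 hA1)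
  exact P10FS764.e2s_G hpu hP hE hd.le hd1 (by linarith) hA1
    (TK708.allT_of P.rules G.toExpS0 hd.le (by linarith))
    (NrX986.fe2G_D P.rules G hd.le (by linarith) near) hr0 hr
    (RXxa440.rpS_F hPF hpu hP hE hc P.rules hr0 hr hd.le hd1 (by linarith) hA0 hA1) hcs hgk

end Crest.Agent.R017.P10IS986
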