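import Crest.Agent.R017.Fin17_986
import Crest.Agent.R017.P10IS_986

/-!
# Row 17: the top from the two kernel bounds (helper986)

* `GkS d h` : the one premise of `e2s`
* `s22_of_open18`, `s23_of_open18`
-/

set_option autoImplicit false

noncomputable section

open Complex Filter Topology

namespace Crest.Agent.R017.Fin18

open Crest.Agent.R012 Crest.Agent.R012.Eis
open Crest.Agent.R017.FE47 Crest.Agent.R017.End699
open Crest.Agent.R017.B770 Crest.Agent.R017.BxH986
open Crest.Agent.R017.Prov71 Crest.Agent.R017.ER911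
open Crest.Agent.R017.E5B71 Crest.Agent.R017.ExP960 Crest.Agent.R017.ExBox960
open Crest.Agent.R017.E5L770
open Crest.Agent.R017.SC777
open Crest.Agent.R017.Fin4 Crest.Agent.R017.Fin5 Crest.Agent.R017.Fin6
open Crest.Agent.R017.P1l54 Crest.Agent.R017.P1t54
open Crest.Agent.R017.P1X960
open Crest.Agent.R017.P10X764
open Crest.Agent.R017.E5LX770
open Crest.Agent.R017.Sg986 (AA AA_lt AA_eq AA_ge)
open Crest.Agent.R017.NrX986 (NearAllX)
open Crest.Agent.R017.XS0298 (S0x S0K)
open Crest.Agent.R017.Red848 (red Exc red_ok)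
open Crest.Agent.R017.ETd548 (RoomX)
open Crest.Agent.R017.ETk548 (CsGUc GkGUc)
open Crest.Agent.R017.Fin17 (GkX)

/-- **the kernel bound of the single lists** -/
def GkS (d : ℝ) (h : ℝ → ℝ) : Prop :=
  GkGUc (7 / 8) (alS (fun lam => red (πE lam)) h) (okS fun lam => red (πE lam)) (1 / 64)
    (d / 4) βX (ParS (AA d) d) (SinL βX) fun q => RoomX (LS0 d) q - ETy71.CES d q

/-- **the open leaves of row 17** : the two kernel bounds of class E -/
def Open : Prop := ∀ (h : ℝ → ℝ) (c₀ : ℝ), PU h c₀ → ∀ d : ℝ, 0 < d → d ≤ 1 / 42 →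
    PF Set.univ (7 / 8 + d) → BunE d h → RecE d h →
    NearAllX d (ex Dq (fun lam => S0x (red (πE lam)) h)) → GkX d h ∧ GkS d h

theorem open_of (H : Open) : Fin17.Open := fun h c₀ hpu d hd hd1 hPF P G =>
  { gkX := fun near => (H h c₀ hpu d hd hd1 hPF P G near).1
    e2s := fun near _ hr0 hr => P10IS986.e2s_of hd hd1 hpu hPF P G near hr0 hr
      (H h c₀ hpu d hd hd1 hPF P G near).2 }

/-- **S0022** from the open leaves -/
theorem s22_of_open18 (T : Trees) (H : Open) : S22 := Fin17.s22_of_open17 T (open_of H)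

/-- **S0023** from the open leaves -/
theorem s23_of_open18 (T : Trees) (H : Open) : S23 := Fin17.s23_of_open17 T (open_of H)

end Crest.Agent.R017.Fin18
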