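import Crest.Agent.R017.BxE6_986
import Crest.Agent.R017.BxH4_986
import Crest.Agent.R017.BoxTop_702
import Crest.Agent.R017.ExBox5_960
import Crest.Agent.R017.ExPr2_791
import Crest.Agent.R017.BoxQ_986
import Crest.Agent.R017.BTopE_347
import Crest.Agent.R017.PM6_320

/-!
# Row 17, D.FIN (helper986): S0022 and S0023 from the five remaining parts

* `ClN P` : class N (no principal `k` for the smooth pieces)
* `Q4 P` : the data of the top, without the primal type `l = -2` (`l₁ = -4`), which follows from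
  `l = 2` by conjugation; weight zero is kept, so the families are closed under conjugation
* `CertA θ μ` : the certificate of the absolute boxes (for every bundle `ProvE`)
* `ProvX θ π h` : a bundle for the family `π` (any `r, s, s₀`)
* `Parts θ h` : everything that is needed at `θ < 1` (`cert`, `provN`, `provE`, `topN`, `sgnE`)
* `box3_of_parts`, `dout_of_parts`, `s22_of_parts`, `s23_of_parts`
-/

set_option autoImplicit false

noncomputable section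

open Complex Filter Topology
open scoped ComplexConjugate ContDiff

namespace Crest.Agent.R017.Fin4

open Crest.Agent.R012 Crest.Agent.R012.Eis Crest.Agent.R012.Mob705
open Crest.Agent.R017.FE47 Crest.Agent.R017.End699
open Crest.Agent.R017.B770 Crest.Agent.R017.BxE986 Crest.Agent.R017.BxH986
open Crest.Agent.R017.Prov71 Crest.Agent.R017.ER911
open Crest.Agent.R017.E5T54

/-- class N: the smooth pieces have no principal `k` -/
def ClN (P : DPar) : Prop := ∀ k : Eis, k ≠ 0 → Sup271.NPm P.n P.ψ P.l₂ k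

/-- the data of the top -/
def Q4 (P : DPar) : Prop := P.CaseD ∨ P.l₁ ≠ -4

/-- the data of class N of the top -/
def πN : {P : DPar // P.OK ∧ (ClN P ∧ Q4 P)} → DPar := Subtype.val

theorem πN_ok (lam) : (πN lam).OK := lam.2.1

theorem πN_cl (lam) : ClN (πN lam) := lam.2.2.1

theorem πN_q4 (lam) : Q4 (πN lam) := lam.2.2.2

/-- closed under conjugation -/
theorem clo_πN : PM320.Clo πN := fun lam =>
  ⟨⟨PML320.cjD lam.1, PML320.cjD_ok lam.2.1, PM320.classN_cj lam.2.2.1, Or.inl rfl⟩, rfl⟩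

/-- the whole class N -/
def πL : {P : DPar // P.OK ∧ ClN P} → DPar := Subtype.val

theorem clo_πL : PM320.Clo πL := fun lam =>
  ⟨⟨PML320.cjD lam.1, PML320.cjD_ok lam.2.1, PM320.classN_cj lam.2.2⟩, rfl⟩

/-- all exceptional data -/
def πE : {P : DPar // P.OK ∧ ¬ ClN P} → DPar := Subtype.val

/-- the weights of the near-equal condition -/
abbrev w5 : Fin 5 → ℝ := ![0, 0, 1, 1, 2]

lemma w5_nonneg (i : Fin 5) : 0 ≤ w5 i := by fin_cases i <;> simp [w5]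

/-- **the certificate of the absolute boxes** -/
def CertA (θ μ : ℝ) : Prop :=
  ∀ r s s₀ rc bc : EF, ProvE θ r s s₀ rc bc → TopC702.BoxAll θ μ (AL (9 / 10) 1 w5) bc

/-- a bundle for the family `π` -/
def ProvX {Λ : Type*} (θ : ℝ) (π : Λ → DPar) (h : ℝ → ℝ) : Prop :=
  ∃ r s s₀ : EF, ProvE θ r s s₀ (ex Dq (fun lam => Rc (π lam) h)) (ex Dq (fun lam => Bc (π lam) h))

/-- the boxes outside the near-equal class -/
abbrev Abs (θ A : ℝ) (Pk : DPar → Prop) : Prop :=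
  EvBox θ (1 / 4) Pk (fun r Q₀ Q κ J H j c => ¬ NE (179 / 200) A (1 / 4) w5 r Q₀ Q κ J H j c)

/-- the near-equal boxes -/
abbrev Sgn (θ A : ℝ) (Pk : DPar → Prop) : Prop :=
  EvBox θ (1 / 4) Pk (NE (179 / 200) A (1 / 4) w5)

/-- **everything that is needed at `θ < 1`** (the two signed fields may use the absolute theorem
`TopC` of their class) -/
structure Parts (θ : ℝ) (h : ℝ → ℝ) : Prop where
  cert : ∃ μ : ℝ, 0 < μ ∧ μ ≤ 1 / 12 ∧ CertA θ μ
  provN : ProvX θ πN h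
  provE : ProvX θ πE h
  topN : ∀ μ : ℝ, 0 < μ → TopC θ (1 / 3) μ (AL (9 / 10) 1 w5) πN h →
    ∃ μ' A₀ : ℝ, 0 < μ' ∧ A₀ < 1 ∧ TopS θ (1 / 3) μ' (179 / 200) A₀ w5 πN h
  sgnE : ∀ μ : ℝ, 0 < μ → TopC θ (1 / 3) μ (AL (9 / 10) 1 w5) πE h →
    ∃ A : ℝ, A < 1 ∧ (Abs θ A (fun P => ¬ ClN P) → Sgn θ A (fun P => ¬ ClN P))

/-- `TopC` of one family -/
theorem topC_fam {Λ : Type*} {θ μ : ℝ} (hθ : 7 / 8 ≤ θ)
    (hθ1 : θ ≤ 1) (hPF : PF Set.univ θ) (hμ : 0 < μ) (hμ1 : μ ≤ 1 / 12)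
    {π : Λ → DPar} (hπ : ∀ lam, (π lam).OK) {h : ℝ → ℝ} {c₀ : ℝ} (hpu : PU h c₀)
    (hc : CertA θ μ) (hpr : ProvX θ π h) : TopC θ (1 / 3) (μ / 2) (AL (9 / 10) 1 w5) π h :=
  BoxTop702.topC_of_prov hθ hθ1 hPF hpu hπ hpr hμ hμ1 hc

/-- the boxes outside the near-equal class, for one family of data -/
theorem evBox_abs {Λ : Type*} {θ μ A : ℝ} (hθ : 7 / 8 ≤ θ) (hθ1 : θ ≤ 1) (hμ : 0 < μ)
    (hA : A < 1) {π : Λ → DPar} (hπ : ∀ lam, (π lam).OK) {h : ℝ → ℝ} {c₀ : ℝ} (hpu : PU h c₀)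
    (hT : TopC θ (1 / 3) μ (AL (9 / 10) 1 w5) π h)
    {Pk : DPar → Prop} (hPk : ∀ P, P.OK → Pk P → ∃ lam, π lam = P) : Abs θ A Pk := by
  have e : (1 : ℝ) / 4 / (1 / 2 + 1 / 4) = 1 / 3 := by norm_num
  refine evBox_of_top (by linarith) hθ1 hμ (by norm_num) (by norm_num)
    w5_nonneg (a₁ := 9 / 10) (A' := 1) (by norm_num) (by norm_num) hA (by norm_num)
    hπ hpu ?_ hPk
  rw [e]
  exact hT

/-- **the exceptional class from the differences** (helper960, helper791) -/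
theorem sgn_of_dd {θ : ℝ} (hθ : 7 / 8 < θ) (hθ1 : θ ≤ 1) {β A : ℝ} (hβ : 1 / 6 ≤ β)
    (hβ1 : β ≤ 9 / 50) (hA : 999 / 1000 ≤ A)
    (h : ExBox960.EvDD θ (1 / 4) (fun P => ¬ ClN P) (fun _ _ => True) (179 / 200) A β) :
    Abs θ A (fun P => ¬ ClN P) → Sgn θ A (fun P => ¬ ClN P) := by
  intro habs
  have h1 := ExPr791.evDD_of_true (by norm_num) (by norm_num) (by norm_num) (by linarith)
    (by norm_num; linarith) (by norm_num; linarith) h
  exact ExBox960.evBox_of_dd (by linarith) hθ1 (by norm_num) (by norm_num) (by linarith)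
    (by norm_num; linarith) (by norm_num; linarith) (by linarith) h1 habs

/-- **the boxes of the data with `l₁ ≠ -4`** from the parts -/
theorem box3_of_parts {θ : ℝ} (hθ : 7 / 8 ≤ θ) (hθ1 : θ ≤ 1) (hPF : PF Set.univ θ)
    {h : ℝ → ℝ} {c₀ : ℝ} (hpu : PU h c₀) (hneg : Neg h) (H : Parts θ h) :
    BoxQ986.BOX3Q (fun P => P.l₁ ≠ -4) θ := by
  obtain ⟨μ, hμ, hμ1, hc⟩ := H.cert
  have e : (1 : ℝ) / 4 / (1 / 2 + 1 / 4) = 1 / 3 := by norm_num
  have hN : ∀ lam, (πN lam).OK := fun lam => lam.2.1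
  have hE : ∀ lam, (πE lam).OK := fun lam => lam.2.1
  have cN : ∀ P, P.OK → (ClN P ∧ Q4 P) → ∃ lam, πN lam = P := fun P hP h1 => ⟨⟨P, hP, h1⟩, rfl⟩
  have cE : ∀ P, P.OK → ¬ ClN P → ∃ lam, πE lam = P := fun P hP h1 => ⟨⟨P, hP, h1⟩, rfl⟩
  have tN := topC_fam hθ hθ1 hPF hμ hμ1 hN hpu hc H.provN
  have tE := topC_fam hθ hθ1 hPF hμ hμ1 hE hpu hc H.provE
  have hμ2 : 0 < μ / 2 := by linarith
  obtain ⟨μ', A₀, hμ', hA₀, ht⟩ := H.topN _ hμ2 tN
  obtain ⟨A, hA, hsE⟩ := H.sgnE _ hμ2 tE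
  refine BoxQ986.box3Q_of_ev (y := 1 / 4) (by norm_num) (by norm_num) ?_
  have aN : Abs θ ((A₀ + 1) / 2) (fun P => ClN P ∧ Q4 P) :=
    evBox_abs hθ hθ1 hμ2 (by linarith) hN hpu tN cN
  have aE : Abs θ A (fun P => ¬ ClN P) := evBox_abs hθ hθ1 hμ2 hA hE hpu tE cE
  have sN : Sgn θ ((A₀ + 1) / 2) (fun P => ClN P ∧ Q4 P) :=
    evBox_of_topS (A₀ := A₀) (by linarith) hθ1 hμ' (by norm_num) (by norm_num) w5_nonneg
      (by norm_num) (by linarith) hN hpu hneg (by rw [e]; exact ht) cN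
  have hall : EvBox θ (1 / 4) (fun P => (ClN P ∧ Q4 P) ∨ ¬ ClN P)
      (fun _ _ _ _ _ _ _ _ => True) :=
    EvBox.unionP (EvBox.split (NE (179 / 200) ((A₀ + 1) / 2) (1 / 4) w5) sN aN)
      (EvBox.split (NE (179 / 200) A (1 / 4) w5) (hsE aE) aE)
  exact EvBox.mono (fun P hP => by
    by_cases h1 : ClN P
    · exact Or.inl ⟨h1, Or.inr hP⟩
    · exact Or.inr h1) (fun _ _ _ _ _ _ _ _ h => h) hall

/-- **D-OUT for `l₁ ≠ -4`** from the parts -/
theorem dout_of_parts (H : ∀ (h : ℝ → ℝ) (c₀ : ℝ), PU h c₀ → Neg h →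
    ∀ θ : ℝ, 7 / 8 < θ → θ < 1 → PF Set.univ θ → Parts θ h) :
    ∀ θ : ℝ, 7 / 8 < θ → θ ≤ 1 → PF Set.univ θ → DOUT3Q (fun P => P.l₁ ≠ -4) θ := by
  obtain ⟨h, c₀, hpu, hneg⟩ := exists_pu_neg
  exact BoxQ986.secQ_of_lt fun θ hθ hθ1 hPF =>
    box3_of_parts hθ.le hθ1.le hPF hpu hneg (H h c₀ hpu hneg θ hθ hθ1 hPF)

/-- **S0023** from the parts -/
theorem s23_of_parts (H : ∀ (h : ℝ → ℝ) (c₀ : ℝ), PU h c₀ → Neg h →
    ∀ θ : ℝ, 7 / 8 < θ → θ < 1 → PF Set.univ θ → Parts θ h) : S23 :=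
  BTop347.s23_of_Q4 (dout_of_parts H)

/-- **S0022** from the parts -/
theorem s22_of_parts (H : ∀ (h : ℝ → ℝ) (c₀ : ℝ), PU h c₀ → Neg h →
    ∀ θ : ℝ, 7 / 8 < θ → θ < 1 → PF Set.univ θ → Parts θ h) : S22 :=
  BTop347.s22_of_Q4 (dout_of_parts H)

end Crest.Agent.R017.Fin4
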