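import Crest.Agent.R017.ProvF_71
import Crest.Agent.R017.XT6c_241
import Crest.Agent.R017.XS0_298
import Crest.Agent.R017.ExpS0_986

/-!
# Row 17, the providers without the field of the cube-free Gauss side (helper986)

* `Prov0 θ r s rc bc` : the bundle `ProvE` without `rem`
* `prov0_N`, `s0_N` : class N, no open hypothesis
* `prov0_E`, `s0_E` : class E (reduced data), no open hypothesis
-/

set_option autoImplicit false

noncomputable section

namespace Crest.Agent.R017.ProvS986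

open Crest.Agent.R012 Crest.Agent.R012.Eis Crest.Agent.R012.LS2
open Crest.Agent.R012.T411 (NCube)
open Crest.Agent.R017.XG702 (Pcs BG)
open Crest.Agent.R017.ER911
open Crest.Agent.R017.B770 Crest.Agent.R017.FE47 Crest.Agent.R017.End699
open Crest.Agent.R017.Prov71
open Crest.Agent.R017.XEx298
open Crest.Agent.R017.XEr298
open Crest.Agent.R017.XS0298
open Crest.Agent.R017.Red848
open Crest.Agent.R017.XC858 (SKq)
open Crest.Agent.R017.PX764 (Dk)
open Crest.Agent.R017.ExpC702 (ExpC)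

/-- **the bundle without the cube-free Gauss side** -/
structure Prov0 (θ : ℝ) (r s rc bc : EF) : Prop where
  rules : ExpRules θ r s
  lb : ExpLB θ r
  lv : ExpLv θ r
  cpl : ExpC r rc
  box : ExpBox θ rc bc

section N

variable {Lam : Type*} {π : Lam → DPar} {h : ℝ → ℝ} {c θ : ℝ}

/-- **class N : everything except the cube-free Gauss side** -/
theorem prov0_N (hθ : 7 / 8 ≤ θ) (hθ1 : θ ≤ 1) (hPF : PF Set.univ θ) (hh : PU h c)
    (hP : ∀ lam, (π lam).OK)
    (hN : ∀ lam, ∀ k : Eis, k ≠ 0 → Sup271.NPm (π lam).n (π lam).ψ (π lam).l₂ k) :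
    Prov0 θ (ex Dq (fun lam => Rp (π lam) h)) (ex Dq (fun lam => Sp (π lam) h))
      (ex Dq (fun lam => Rc (π lam) h)) (ex Dq (fun lam => Bc (π lam) h)) where
  rules := BRules.exp (by linarith) (brulesN (by linarith) hθ1 hPF hh hP hN)
  lb := (Lbc298.blb_298 hθ hθ1 hPF hh π hP).exp (by linarith) hθ1 (pinv_Rp π h)
    (XHB411.triv_Rp hP hh)
  lv := XLvC702.expLv_702 (by linarith) hθ1 hPF hh hP
  cpl := ExpC702.expC_702 hP hh
  box := ExpC702.expBoxC_702 (by linarith) hθ1 hPF hh hP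

/-- **class N : the complete Gauss side from the cube-free one** -/
theorem s0_N (hh : PU h c) (hP : ∀ lam, (π lam).OK) :
    ExpS0 (ex Dq (fun lam => Sp (π lam) h)) (ex Dq (fun lam => S0p (π lam) h)) :=
  expS0_of (pinv_Sp π h) (pinv_S0p π h) (XHB411.triv_Sp hP hh) (fun lam => S0p_le (π lam) h)
    (fun _ _ _ _ _ hκ _ H => BG_Sp hP (bump_of_cs hh.cs) hκ H) (cau0_71 hP hh) (cauS0_71 hP hh)

end N

section E

variable {Lam : Type*} {π : Lam → DPar} {h : ℝ → ℝ} {c θ : ℝ}

/-- the rules of class E, reduced data -/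
theorem brulesE (hθ : 1 / 2 < θ) (hθ1 : θ ≤ 1) (hPF : PF Set.univ θ) (hh : PU h c)
    (hP : ∀ lam, (π lam).OK) (hE : ∀ lam, Exc (π lam)) :
    BRules θ Dq (fun lam => Rt (red (π lam)) h) (fun lam => SKq Dk (red (π lam)) h) := by
  have hR : ∀ lam, (red (π lam)).OK := fun lam => red_ok (hP lam) (hE lam)
  have hS := gaussX_848 hR hh
  have hraw := raw_ex (cc := fun _ => 1) hθ hθ1 hPF hh hR (fun lam k hk => by
    rw [XEr298.NC_one]
    exact NPm_red_iff (hP lam).ψ.q0 hk) hS (XT6241.rawPX_red hh π hP hE)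
    (XT6241.rawGX_red hh π hP hE)
  exact
  { permR := pinv_Rt _ h
    permS := hS.permS
    trivR := triv_Rt hR hh
    trivS := hS.trivS
    hbC := fun κ u m a _ _ => XHB411.bg_Rt hR hh (fun lam => Qp (red (π lam))) Zl κ u m a
    hbG := hS.hbG
    tf := fun κ y₁ y₂ h1 h2 h3 _ => tf_ex hR hh (h1.trans h3) h1 h2
    poisC := hraw.poisC
    poisG := hraw.poisG
    cau := hS.cau
    cauS := hS.cauS
    flip := flip_ex hR hh
    sup := sup_ex hθ hθ1 hPF hh hR
    supS := supS_ex hθ hθ1 hPF hh hR }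

/-- **class E : everything except the cube-free Gauss side** (reduced data) -/
theorem prov0_E (hθ : 7 / 8 ≤ θ) (hθ1 : θ ≤ 1) (hPF : PF Set.univ θ) (hh : PU h c)
    (hP : ∀ lam, (π lam).OK) (hE : ∀ lam, Exc (π lam)) :
    Prov0 θ (ex Dq (fun lam => Rt (red (π lam)) h)) (ex Dq (fun lam => SKq Dk (red (π lam)) h))
      (ex Dq (fun lam => Rc (π lam) h)) (ex Dq (fun lam => Bc (π lam) h)) where
  rules := BRules.exp (by linarith) (brulesE (by linarith) hθ1 hPF hh hP hE)
  lb := (blb_Rt hθ hθ1 hPF hh fun lam => red_ok (hP lam) (hE lam)).exp (by linarith) hθ1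
    (pinv_Rt _ h) (triv_Rt (fun lam => red_ok (hP lam) (hE lam)) hh)
  lv := (blv_Rt (by linarith) hθ1 hPF hh fun lam => red_ok (hP lam) (hE lam)).exp (by linarith)
    (pinv_Rt _ h) (triv_Rt (fun lam => red_ok (hP lam) (hE lam)) hh)
  cpl :=
    { le := fun κ Y m a E hκ hY h1 =>
        (ex_Rc_le hP hE hh hκ hY).trans
          ((expC_Rt (fun lam => red_ok (hP lam) (hE lam)) hh).le κ Y m a E hκ hY h1) }
  box := ExpC702.expBoxC_702 (by linarith) hθ1 hPF hh hP

/-- **class E : the complete Gauss side from the cube-free one** -/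
theorem s0_E (hh : PU h c) (hP : ∀ lam, (π lam).OK) (hE : ∀ lam, Exc (π lam)) :
    ExpS0 (ex Dq (fun lam => SKq Dk (red (π lam)) h))
      (ex Dq (fun lam => S0x (red (π lam)) h)) := by
  have hR : ∀ lam, (red (π lam)).OK := fun lam => red_ok (hP lam) (hE lam)
  exact expS0_of (Dk848.pinv_SD _ h) (pinv_S0K Dk _ h) (Dk848.triv_SD hR hh)
    (fun lam => S0K_le Dk (red (π lam)) h)
    (fun _ _ _ _ _ hκ _ H => BG_Sx hR (bump_of_cs hh.cs) hκ H) (cauX hR hh) (cauSX hR hh)

end E

end Crest.Agent.R017.ProvS986
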