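import Crest.Agent.R017.P1DomS_918
import Crest.Agent.R017.ExP1_960

/-!
# Row 17, T.3 / T.4: no exact square for `1/42 < d` (helper319)

* `SqD_empty`, `SqD1_empty` : for `1/42 < d` the domains of the exact square are empty
* `sgnN_big`, `sgnE_big` : hence `P1`, `StrU`, `TailU` and `P1X`, `StrUX`, `TailUX` hold for every
  structured function; the leaf theorems may assume `d ≤ 1/42`
-/

set_option autoImplicit false

noncomputable section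

namespace Crest.Agent.R017.SqE319

open Crest.Agent.R017.XG702 (Pcs)
open Crest.Agent.R017.XT71 (Sys)
open Crest.Agent.R017.B770 Crest.Agent.R017.Prov71
open Crest.Agent.R017.E5B71 Crest.Agent.R017.ExP960

variable {A d : ℝ}

/-- a configuration of the exact square has `d ≤ 1/42` -/
theorem sq5_dle (hd : 0 ≤ d) (hd1 : d ≤ 1 / 8) (hA1 : 16 * (1 - A) ≤ d)
    {p : Fin 3 ⊕ Fin 5 → ℝ} {w : Kd → ℝ} (h : Sq5 A d p w) : d ≤ 1 / 42 :=
  (h.nab hd hd1 hA1).dle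

theorem SqD_empty (hd : 1 / 42 < d) (hd1 : d ≤ 1 / 8) (hA1 : 16 * (1 - A) ≤ d) :
    SqD A d = ∅ := by
  ext q
  simp only [Set.mem_empty_iff_false, iff_false]
  intro hq
  have := sq5_dle (by linarith) hd1 hA1 (hq : Sq5 A d q.1 q.2)
  linarith

theorem SqD1_empty (hd : 1 / 42 < d) (hd1 : d ≤ 1 / 8) (hA1 : 16 * (1 - A) ≤ d) :
    SqD1 A d = ∅ := by
  ext q
  simp only [Set.mem_empty_iff_false, iff_false]
  rintro ⟨⟨w, hq⟩, -⟩
  have := sq5_dle (by linarith) hd1 hA1 hq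
  linarith

theorem liftD_empty (β : ℝ) : liftD β ∅ = ∅ := by
  ext q
  simp [liftD]

/-- nothing to prove on the empty domain -/
theorem ub_empty {T Pc' ι τ Λ : Type*} [DecidableEq τ] (S : Sys T ι) (D : Pcs Pc' τ)
    (Ψ : Λ → T → List Pc' → ℝ) (al : Set ((ι → ℝ) × ℝ)) (E : (ι → ℝ) × (τ → ℝ) → ℝ) :
    UB S D Ψ ∅ al E := by
  intro ε _
  refine ⟨1, one_pos, fun lam N B => ⟨1, one_pos, 2, by norm_num, ?_⟩⟩
  intro X _ a ps _ _ q hq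
  exact absurd hq (Set.notMem_empty _)

section
variable {Λ : Type*} (π : Λ → DPar) (h : ℝ → ℝ)

theorem p1_big (hd : 1 / 42 < d) (hd1 : d ≤ 1 / 8) (hA1 : 16 * (1 - A) ≤ d) (Sf : SF Λ) :
    P1 π h Sf A d := by
  intro R _
  rw [SqD1_empty hd hd1 hA1]
  exact ub_empty _ _ _ _ _

theorem strU_big (hd : 1 / 42 < d) (hd1 : d ≤ 1 / 8) (hA1 : 16 * (1 - A) ≤ d) (θ μ : ℝ)
    (Sf : SF Λ) : StrU π h θ Sf A d μ := by
  unfold StrU
  rw [SqD_empty hd hd1 hA1]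
  exact ub_empty _ _ _ _ _

theorem tailU_big (hd : 1 / 42 < d) (hd1 : d ≤ 1 / 8) (hA1 : 16 * (1 - A) ≤ d) (θ μ : ℝ)
    (Sf : SF Λ) : TailU π h θ Sf A d μ := by
  intro R _
  rw [SqD_empty hd hd1 hA1]
  exact ub_empty _ _ _ _ _

theorem p1X_big (hd : 1 / 42 < d) (hd1 : d ≤ 1 / 8) (hA1 : 16 * (1 - A) ≤ d) (β : ℝ)
    (Sf : SFX Λ) : P1X π h Sf A d β := by
  intro R _
  rw [SqD1_empty hd hd1 hA1, liftD_empty]
  exact ub_empty _ _ _ _ _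

theorem strUX_big (hd : 1 / 42 < d) (hd1 : d ≤ 1 / 8) (hA1 : 16 * (1 - A) ≤ d) (θ β μ : ℝ)
    (Sf : SFX Λ) : StrUX π h θ Sf A d β μ := by
  unfold StrUX
  rw [SqD_empty hd hd1 hA1, liftD_empty]
  exact ub_empty _ _ _ _ _

theorem tailUX_big (hd : 1 / 42 < d) (hd1 : d ≤ 1 / 8) (hA1 : 16 * (1 - A) ≤ d) (θ β μ : ℝ)
    (Sf : SFX Λ) : TailUX π h θ Sf A d β μ := by
  intro R _
  rw [SqD_empty hd hd1 hA1, liftD_empty]
  exact ub_empty _ _ _ _ _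

/-- **the field `sgnN` of `Fin5.Open5` for `1/42 < d`** -/
theorem sgnN_big (hd : 1 / 42 < d) (hd1 : d ≤ 1 / 8) : ∃ (Sf : SF Λ) (A μ : ℝ), A < 1 ∧
    16 * (1 - A) ≤ d ∧ 0 < μ ∧ P1 π h Sf A d ∧ StrU π h (7 / 8 + d) Sf A d μ ∧
    TailU π h (7 / 8 + d) Sf A d μ := by
  have hA : 16 * (1 - (1 - d / 16)) ≤ d := by linarith
  exact ⟨fun _ _ _ _ _ _ => 0, 1 - d / 16, 1, by linarith, hA, one_pos,
    p1_big π h hd hd1 hA _, strU_big π h hd hd1 hA _ _ _, tailU_big π h hd hd1 hA _ _ _⟩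

/-- **the field `sgnE` of `Fin5.Open5` for `1/42 < d`** -/
theorem sgnE_big (β : ℝ) (hd : 1 / 42 < d) (hd1 : d ≤ 1 / 8) :
    ∃ (Sf : SFX Λ) (A μ : ℝ), 199 / 200 ≤ A ∧ A < 1 ∧ 16 * (1 - A) ≤ d ∧ 0 < μ ∧
      P1X π h Sf A d β ∧ StrUX π h (7 / 8 + d) Sf A d β μ ∧
      TailUX π h (7 / 8 + d) Sf A d β μ := by
  have hA : 16 * (1 - (999 / 1000 : ℝ)) ≤ d := by linarith
  exact ⟨fun _ _ _ _ _ _ _ _ => 0, 999 / 1000, 1, by norm_num, by norm_num, hA, one_pos,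
    p1X_big π h hd hd1 hA _ _, strUX_big π h hd hd1 hA _ _ _ _,
    tailUX_big π h hd hd1 hA _ _ _ _⟩

end

end Crest.Agent.R017.SqE319
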