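import Crest.Agent.R017.Fin4_986
import Crest.Agent.R017.E5G_71
import Crest.Agent.R017.E5C_372
import Crest.Agent.R017.E5M_372
import Crest.Agent.R017.MomX_372
import Crest.Agent.R017.ExP2_960
import Crest.Agent.R017.ExAbF_968
import Crest.Agent.R017.ExBox9_385
import Crest.Agent.R017.ExP5u_271
import Crest.Agent.R017.SqE_319
import Crest.Agent.R017.CovEnd2_741
import Crest.Agent.R017.XT6d_241
import Crest.Agent.R017.ProvS_986
import Crest.Agent.R017.T3Fld_986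

/-!
# Row 17: the top with every remaining input as one literal hypothesis (helper986)

`Open5 d h` (at `θ = 7/8 + d < 1`, partition `h`) ⟹ `Parts (7/8 + d) h` ⟹ S0022, S0023.

* T.2 : `trees`
* T.5 : `t3N` (three big lumps, all data of class N), T.7 : `t3E` (class E, reduced data)
* T.3 : `sgnN` (`P1`, `StrU`, `TailU` with one structured function)
* T.4 : `sgnE` (`P1X`, `StrUX`, `TailUX` with one structured function)

The fields `sgnN`, `sgnE` may use `d ≤ 1/42`, the bundles (`BunA` : every family of class N) and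
the coverage. `ex_sub`, `T3Fld.sub` : subfamilies.
-/

set_option autoImplicit false

noncomputable section

open Complex Filter Topology
open scoped ComplexConjugate ContDiff

namespace Crest.Agent.R017.Fin5

open Crest.Agent.R012 Crest.Agent.R012.Eis Crest.Agent.R012.Mob705
open Crest.Agent.R017.FE47 Crest.Agent.R017.End699
open Crest.Agent.R017.B770 Crest.Agent.R017.BxE986 Crest.Agent.R017.BxH986
open Crest.Agent.R017.Prov71 Crest.Agent.R017.ER911
open Crest.Agent.R017.E5T54 Crest.Agent.R017.E5B71 Crest.Agent.R017.ExP960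
open Crest.Agent.R017.Fin4 Crest.Agent.R017.ProvS986
open Crest.Agent.R017.XEx298 (Rt)
open Crest.Agent.R017.XS0298 (S0x)
open Crest.Agent.R017.Red848 (red)
open Crest.Agent.R017.XC858 (SKq)
open Crest.Agent.R017.PX764 (Dk)
open Crest.Agent.R017.UM71
open Crest.Agent.R017.Cone59 Crest.Agent.R017.CovM59 Crest.Agent.R017.CovBig954

/-- the replaced short length of the exceptional class, `β = 17/100` -/
abbrev βX : ℝ := 17 / 100

/-- the bundle of a family of class N -/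
abbrev BunF {Λ : Type} (π : Λ → DPar) (d : ℝ) (h : ℝ → ℝ) : Prop :=
  ProvE (7 / 8 + d) (ex Dq (fun lam => Rp (π lam) h)) (ex Dq (fun lam => Sp (π lam) h))
    (ex Dq (fun lam => S0p (π lam) h)) (ex Dq (fun lam => Rc (π lam) h))
    (ex Dq (fun lam => Bc (π lam) h))

/-- the bundles of all families of class N -/
def BunA (d : ℝ) (h : ℝ → ℝ) : Prop :=
  ∀ (Λ : Type) (π : Λ → DPar), (∀ lam, (π lam).OK) → (∀ lam, ClN (π lam)) → BunF π d h

/-- the bundle of class N -/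
abbrev BunN (d : ℝ) (h : ℝ → ℝ) : Prop := BunF πN d h

/-- the bundle of class E -/
abbrev BunE (d : ℝ) (h : ℝ → ℝ) : Prop :=
  ProvE (7 / 8 + d) (ex Dq (fun lam => Rt (red (πE lam)) h))
    (ex Dq (fun lam => SKq Dk (red (πE lam)) h)) (ex Dq (fun lam => S0x (red (πE lam)) h))
    (ex Dq (fun lam => Rc (πE lam) h)) (ex Dq (fun lam => Bc (πE lam) h))

/-- the coverage in all bundles -/
def CovA (d : ℝ) : Prop :=
  ∃ e₀ t μ : ℝ, 0 ≤ t ∧ t ≤ 1 / 3 ∧ 0 < μ ∧ 2 * e₀ + (2 * (7 / 8 + d) - 1) * t + μ ≤ b2 (7 / 8 + d) ∧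
    BoxAll702.CovAll (7 / 8 + d) e₀ t

/-- the index type of class N at the top -/
abbrev LN := {P : DPar // P.OK ∧ (ClN P ∧ Q4 P)}

/-- the index type of class E -/
abbrev LE := {P : DPar // P.OK ∧ ¬ ClN P}

/-- the conclusion of T.3 -/
def SgnN (d : ℝ) (h : ℝ → ℝ) : Prop :=
  ∃ (Sf : SF LN) (A μ : ℝ), A < 1 ∧ 16 * (1 - A) ≤ d ∧ 0 < μ ∧ P1 πN h Sf A d ∧
    StrU πN h (7 / 8 + d) Sf A d μ ∧ TailU πN h (7 / 8 + d) Sf A d μ

/-- the conclusion of T.4 -/
def SgnE (d : ℝ) (h : ℝ → ℝ) : Prop :=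
  ∃ (Sf : SFX LE) (A μ : ℝ), 199 / 200 ≤ A ∧ A < 1 ∧ 16 * (1 - A) ≤ d ∧ 0 < μ ∧
    P1X πE h Sf A d βX ∧ StrUX πE h (7 / 8 + d) Sf A d βX μ ∧
    TailUX πE h (7 / 8 + d) Sf A d βX μ

/-- **the remaining inputs of row 17** at `θ = 7/8 + d` -/
structure Open5 (d : ℝ) (h : ℝ → ℝ) : Prop where
  /-- T.2 -/
  trees : ∀ k, 3 ≤ k → k ≤ 8 → CovMap702.TreeD CovMap702.lw2 k
  /-- T.5, three big lumps, class N -/
  t3N : T3F986.T3Fld (7 / 8 + d) (ex Dq (fun lam => Rp (πL lam) h))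
  /-- T.7, three big lumps, class E (reduced data) -/
  t3E : T3F986.T3Fld (7 / 8 + d) (ex Dq (fun lam => Rt (red (πE lam)) h))
  /-- T.3 -/
  sgnN : d ≤ 1 / 42 → BunA d h → CovA d → SgnN d h
  /-- T.4 -/
  sgnE : d ≤ 1 / 42 → BunE d h → BunA d h → CovA d → SgnE d h

/-! ### subfamilies -/

theorem BG_sub {Λ Λ' : Type*} {Ψ : Λ → ℝ → List Pq → ℝ} (f : Λ' → Λ) {κ : ℝ} {u : List ℝ}
    {w : Kd → ℝ} {e : ℝ} (H : XG702.BG Dq Ψ κ u w e) :
    XG702.BG Dq (fun l => Ψ (f l)) κ u w e := by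
  intro ε hε
  obtain ⟨δ, hδ, H⟩ := H ε hε
  exact ⟨δ, hδ, fun lam N B => H (f lam) N B⟩

theorem ex_sub {Λ Λ' : Type*} {Ψ : Λ → ℝ → List Pq → ℝ} (f : Λ' → Λ) (hp : Pinv Ψ)
    (ht : Triv Dq Ψ) {κ : ℝ} {Y : Multiset ℝ} {m a : ℝ} (hκ : 0 ≤ κ) (hY : ∀ y ∈ Y, 0 ≤ y)
    (hm : 0 ≤ m) (ha : 0 ≤ a) : ex Dq (fun l => Ψ (f l)) κ Y m a ≤ ex Dq Ψ κ Y m a := by
  have h1 := ex_spec hp ht hκ (u := Y.toList)
    (⟨fun y hy => hY y (by simpa using hy), hm, ha⟩ : Okl Y.toList m a)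
  rw [Multiset.coe_toList] at h1
  exact ex_le' (ex_nonneg _ _ _ _) (BG_sub f h1)

/-- **subfamilies** -/
theorem T3Fld.sub {Λ Λ' : Type*} {Ψ : Λ → ℝ → List Pq → ℝ} (f : Λ' → Λ) (hp : Pinv Ψ)
    (ht : Triv Dq Ψ) {θ : ℝ} (H : T3F986.T3Fld θ (ex Dq Ψ)) :
    T3F986.T3Fld θ (ex Dq (fun l => Ψ (f l))) where
  t3a := by
    intro κ A B C m a hκ hC hm ha c1 c2 c3 c4 c5 c6 c7 c8 c9 c10 c11 c12 c13 κ' k0 k1
    have h1 := H.t3a κ A B C m a hκ hC hm ha c1 c2 c3 c4 c5 c6 c7 c8 c9 c10 c11 c12 c13 κ' k0 k1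
    have h2 := ex_sub (Y := {A, B, C}) f hp ht k0 (by
      intro y hy
      simp only [Multiset.insert_eq_cons, Multiset.mem_cons, Multiset.mem_singleton] at hy
      rcases hy with rfl | rfl | rfl <;> linarith) hm ha
    linarith
  t3n := by
    intro k l A B C m a hN κ' k0 k1
    have h1 := H.t3n k l A B C m a hN κ' k0 k1
    have hC := hN.C0
    have hCA := hN.CA
    have hCB := hN.CB
    have h2 := ex_sub (Y := {A, B, C}) f hp ht k0 (by
      intro y hy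
      simp only [Multiset.insert_eq_cons, Multiset.mem_cons, Multiset.mem_singleton] at hy
      rcases hy with rfl | rfl | rfl <;> linarith) hN.m0 hN.a0
    linarith

/-- less exponent -/
local macro "ubl" h:term : term =>
  `(E5M372.ub_mono' Set.Subset.rfl (fun q _ => by linarith) (fun _ _ _ => le_rfl) $h)

/-- **the bundles of class N** from three big lumps -/
theorem bunA {d : ℝ} (hd : 0 < d) (hd1 : d < 1 / 8) {h : ℝ → ℝ} {c₀ : ℝ} (hpu : PU h c₀)
    (hPF : PF Set.univ (7 / 8 + d))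
    (H : T3F986.T3Fld (7 / 8 + d) (ex Dq (fun lam => Rp (πL lam) h))) : BunA d h := by
  intro Λ π hP hN
  have P := prov0_N (π := π) (by linarith) (by linarith) hPF hpu hP (fun lam k hk => hN lam k hk)
  exact
  { rules := P.rules
    lb := P.lb
    lv := P.lv
    rem := T3Fld.sub (Ψ := fun lam => Rp (πL lam) h) (fun lam => ⟨π lam, hP lam, hN lam⟩)
      (pinv_Rp _ h) (XHB411.triv_Rp (fun lam => lam.2.1) hpu) H
    cpl := P.cpl
    box := P.box }

theorem bunE {d : ℝ} (hd : 0 < d) (hd1 : d < 1 / 8) {h : ℝ → ℝ} {c₀ : ℝ} (hpu : PU h c₀)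
    (hPF : PF Set.univ (7 / 8 + d))
    (H : T3F986.T3Fld (7 / 8 + d) (ex Dq (fun lam => Rt (red (πE lam)) h))) : BunE d h :=
  have P := prov0_E (by linarith) (by linarith) hPF hpu (fun lam => lam.2.1)
    (fun lam => XT6241.exc_piE lam)
  { rules := P.rules
    lb := P.lb
    lv := P.lv
    rem := H
    cpl := P.cpl
    box := P.box }

/-- **`Parts` from the open inputs** -/
theorem parts_of_open5 {d : ℝ} (hd : 0 < d) (hd1 : d < 1 / 8) {h : ℝ → ℝ} {c₀ : ℝ}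
    (hpu : PU h c₀) (hneg : Neg h) (hPF : PF Set.univ (7 / 8 + d))
    (H : Open5 d h) : Parts (7 / 8 + d) h := by
  have hbA := bunA hd hd1 hpu hPF H.t3N
  have hbN : BunN d h := hbA _ πN πN_ok πN_cl
  have hbE := bunE hd hd1 hpu hPF H.t3E
  have hcov : CovA d := CovEnd2741.covAll_of_trees2 H.trees (by linarith) (by linarith)
  obtain ⟨μc, hμc, hμc1, hcert⟩ := CovEnd2741.certA_of_trees2 H.trees
    (θ := 7 / 8 + d) (by linarith) (by linarith)
  have hN : ∀ lam, (πN lam).OK := fun lam => lam.2.1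
  have hE : ∀ lam, (πE lam).OK := fun lam => lam.2.1
  refine ⟨⟨μc, hμc, hμc1, hcert⟩, ⟨_, _, _, hbN⟩, ⟨_, _, _, hbE⟩, ?_, ?_⟩
  · -- class N
    intro μT hμT hT
    obtain ⟨Sf, A, μ, hA, hA1, hμ, h1, h2, h3⟩ := (le_or_gt d (1 / 42)).elim
      (fun h => H.sgnN h hbA hcov) (fun h' => SqE319.sgnN_big πN h h' hd1.le)
    obtain ⟨e₀, t, μv, ht0, ht3, hμv, he, hcv⟩ := hcov
    have hA99 : 99 / 100 ≤ A := by linarith
    set μ₂ := min μ (d / 9) with hμ₂
    have hμ₂0 : 0 < μ₂ := lt_min hμ (by linarith)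
    have m1 : μ₂ ≤ μ := min_le_left _ _
    have m2 : μ₂ ≤ d / 9 := min_le_right _ _
    exact topN_of hpu hN (fun lam k hk => lam.2.2.1 k hk) hd hd1.le ht0 ht3 hμv he
      (fun r s s₀ rc bc P => hcv r s s₀ rc bc P) hbN hA hA1 hμ₂0 h1
      (ubl h2) (fun R hR => ubl (h3 R hR))
      (E5M372.tailCU_372 hpu hN (fun lam k hk => lam.2.2.1 k hk) hbN.rules hbN.cpl hd.le hd1.le
        hA99 m2)
      (E5M372.momU_372 hpu hN hbN.rules hbN.cpl hd.le hA99) hμT hT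
  · -- class E
    intro μT hμT hT
    obtain ⟨Sf, A, μ, hA0, hA, hA1, hμ, h1, h2, h3⟩ := (le_or_gt d (1 / 42)).elim
      (fun h => H.sgnE h hbE hbA hcov) (fun h' => SqE319.sgnE_big πE h βX h' hd1.le)
    obtain ⟨e₀, t, μv, ht0, ht3, hμv, he, hcv⟩ := hcov
    set μ₂ := min μ μT with hμ₂
    have hμ₂0 : 0 < μ₂ := lt_min hμ hμT
    have m1 : μ₂ ≤ μ := min_le_left _ _
    have m2 : μ₂ ≤ μT := min_le_right _ _
    obtain ⟨μp, hμp, hpr⟩ := ExAb968.primUX_E hpu hE hd hd1.le ht0 ht3 hμv he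
      (fun r s s₀ rc bc P => hcv r s s₀ rc bc P) hbE hA.le hA1 hA0 hμ₂0 h1
      (ExAb968.ubX_mono m1 h2) (fun R hR => ExAb968.ubX_mono m1 (h3 R hR))
      (ExAb968.topC_mono m2 hT)
    obtain ⟨μ', A₀, hμ', hA₀, hA₀1, hdd⟩ := ExP5x271.p5x_of (by linarith) (by linarith) hpu hE
      A μp μT hA hμp hμT hpr hT
    obtain ⟨A', hA', hA'1⟩ := exists_between (max_lt hA₀1 (by norm_num : (999 / 1000 : ℝ) < 1))
    have hA'0 : A₀ < A' := (le_max_left _ _).trans_lt hA'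
    have hA'9 : 999 / 1000 ≤ A' := (le_max_right _ _).trans hA'.le
    refine ⟨A', hA'1, ?_⟩
    have e : (1 : ℝ) / 4 / (1 / 2 + 1 / 4) = 1 / 3 := by norm_num
    refine sgn_of_dd (by linarith) (by linarith) (β := βX) (by norm_num) (by norm_num) hA'9 ?_
    refine Ex385.evDD_of_topDD (Λ := {P : DPar // P.OK ∧ ¬ ClN P}) (π := πE) (A₀ := A₀)
      (by linarith) (by linarith) hμ' (by norm_num) (by norm_num) (by norm_num) hA'0 (by norm_num)
      (by norm_num; linarith) ?_ hE hpu hneg ?_ (fun P hP h1 => ⟨⟨P, hP, h1⟩, rfl⟩)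
    · have : (1 : ℝ) < 2 * (999 / 1000) * (179 / 200 * (1 / 2 + 1 / 4)) := by norm_num
      nlinarith
    · rw [e]; exact hdd

/-- **the open inputs of row 17** -/
def Open : Prop := ∀ (h : ℝ → ℝ) (c₀ : ℝ), PU h c₀ → Neg h → ∀ d : ℝ, 0 < d →
  d < 1 / 8 → PF Set.univ (7 / 8 + d) → Open5 d h

theorem parts_of_open (H : Open) : ∀ (h : ℝ → ℝ) (c₀ : ℝ), PU h c₀ → Neg h →
    ∀ θ : ℝ, 7 / 8 < θ → θ < 1 → PF Set.univ θ → Parts θ h := by
  intro h c₀ hpu hneg θ hθ hθ1 hPF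
  obtain ⟨d, rfl⟩ : ∃ d, θ = 7 / 8 + d := ⟨θ - 7 / 8, by ring⟩
  exact parts_of_open5 (by linarith) (by linarith) hpu hneg hPF
    (H h c₀ hpu hneg d (by linarith) (by linarith) hPF)

/-- **S0022** from the open inputs -/
theorem s22_of_open (H : Open) : S22 := s22_of_parts (parts_of_open H)

/-- **S0023** from the open inputs -/
theorem s23_of_open (H : Open) : S23 := s23_of_parts (parts_of_open H)

end Crest.Agent.R017.Fin5
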