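import Crest.Agent.R017.RGt_911
import Crest.Agent.R017.RGs_777

/-!
# Row 17, section D: `T3N` from the RG fields of the exceptional class (helper911)

* `QN_stat` : the static part of `QL3` on the domain of `T3N_core`
* `T3N_of`  : the near-equal three-lump side over a short family
-/

set_option autoImplicit false

noncomputable section

namespace Crest.Agent.R017.RGt911

open Crest.Agent.R017.ER911 Crest.Agent.R017.SC777 Crest.Agent.R017.NG911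

variable {d : ℝ} {r s s₀ : EF}

/-- the line of the `M`-term on the domain `S = 3 N - k - K / 3`, `T = 2 K + k` -/
theorem linesN11 {K k l A B C m a K' v n C₁ w₁ : ℝ} (hN : NG k l A B C m a) (hK : k + 3 * l ≤ K)
    (hw : w₁ ≤ m + a) (hC : C₁ ≤ C) (_hw₀ : 0 ≤ w₁) (_hC₀ : 0 ≤ C₁) (hKK : K ≤ K') (_v0 : 0 ≤ v)
    (v23 : 3 * v ≤ 2 * K') (nN : n ≤ A + B + C + (m + a))
    (_vs : v + n ≤ 3 * (A + B + C + (m + a)) - k + (K' - K) / 3)
    (_sx : v + (2 * K + k) ≤ 2 * n + 2 * K') :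
    3 / 2 * n + 5 / 2 * v - 3 / 2 * K' + 3 / 4 * (C₁ + w₁) ≤ 4 / 3 * n + (v + K') / 3 := by
  obtain ⟨k0, l0, C0, CA, CB, m0, a0, wx, w9, sig, l1, nn⟩ := hN
  rcases wx with h | h
  · rcases nn with h' | ⟨_, h', h₂, h₃⟩
    · linarith
    · linarith
  · linarith

/-- **the static part of `QL3` at every weak state, domain `S = 3 N - k - K / 3`** -/
theorem QN_stat (R : ExpRules (7 / 8 + d) r s) {K k l A B C m a c μ F : ℝ}
    (H : T3Hy d K A B C m a c (2 * μ) F) (hN : NG k l A B C m a) (hK : k + 3 * l ≤ K)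
    (hF : 2 * d * (C + m + a) + 2 * μ ≤ F)
    {A₁ B₁ C₁ m₁ a₁ n₁ : ℝ} (hS : StW K A B C m a K A₁ B₁ C₁ m₁ a₁ n₁) :
    QStat (QL3 (7 / 8 + d) r s s₀ c μ) r s₀ c μ F (3 * (A + B + C + m + a) - k - K / 3)
      (2 * K + k) K A₁ B₁ C₁ m₁ a₁ n₁ := by
  intro K' v z₁ z₂ z₃ m₂ a₂ n₂ E hKK hsw _ hL hdd hsq
  obtain ⟨hκK, hsub, hn1, hw1, hw2, hw3, hw5⟩ := hS
  obtain ⟨p0, p0', p6, p3, p7, p4, p8, p5, hn2, hn21⟩ := hsw
  obtain ⟨⟨v0, v23, d2, vs, sx, l0⟩, vv⟩ := hL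
  have q1 := hsub.A1; have q2 := hsub.B1; have q3 := hsub.C1; have q4 := hsub.m1
  have q5 := hsub.a1
  have q0 := hsub.A0; have q0' := hsub.B0; have q6 := hsub.C0; have q7 := hsub.m0
  have q8 := hsub.a0
  have hd := H.d0
  have hd8 := H.d8
  have hc0 := H.c0
  have hμ0 := H.μ0
  have hcκ := H.cκ
  have h4 := H.h4
  have h56 := H.h56
  obtain ⟨e1, e2, e3, e4, e7, e8, e10⟩ := linesN (K' := K') (v := v) (n := n₂) (C₁ := C₁)
    (w₁ := m₁ + a₁) hN hK (by linarith) q3 (by linarith) q6 hKK v0 (by linarith) (by linarith)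
    (by linarith)
  have e11 := linesN11 (K' := K') (v := v) (n := n₂) (C₁ := C₁)
    (w₁ := m₁ + a₁) hN hK (by linarith) q3 (by linarith) q6 hKK v0 (by linarith) (by linarith)
    (by linarith) (by linarith)
  refine QL3_ln R hd hd8 (C₁ := C₁) (w₁ := m₁ + a₁) (D := 2 * d * (C + m + a)) ?_ (by linarith)
    (by linarith) (mul_le_mul_of_nonneg_left (by linarith) (by linarith)) p0 p0' p6 p7 p8 p3
    (by linarith) hn2 hdd hsq
  constructor <;> linarith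

/-- **the near-equal three-lump side over a short family** -/
theorem T3N_of (R : ExpRules (7 / 8 + d) r s) (S₀ : ExpS0 s s₀) (hd : 0 ≤ d) (hd8 : 8 * d ≤ 1)
    (Rg : ∀ δ : ℝ, 0 < δ → ∃ c μ : ℝ, 0 < c ∧ 1000 * c ≤ μ ∧ c + μ ≤ δ ∧
      ExpRGy (7 / 8 + d) c r s₀ (QL3 (7 / 8 + d) r s s₀ c μ)) :
    T3N (7 / 8 + d) r := by
  intro k l A B C m a hN κ' h0 h1
  refine le_of_forall_pos_le_add fun ε hε => ?_
  obtain ⟨c, μ, hc, hμ, hcμ, G⟩ := Rg (ε / 1000) (by positivity)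
  have hN' := hN
  obtain ⟨k0, l0, C0, CA, CB, m0, a0, wx, w9, sig, l1, nn⟩ := hN'
  have N45 : 5 * (A + B + C + (m + a)) ≤ 4 * (k + 3 * l) := by
    rcases wx with h | h <;> linarith
  obtain ⟨K, hK⟩ : ∃ K, K = k + 3 * l + 600 * (ε / 1000) := ⟨_, rfl⟩
  have H : T3Hy d K A B C m a c (2 * μ) (2 * d * (C + m + a) + 2 * μ + 400 * c) := by
    have hD0 : 0 ≤ 2 * d * (C + m + a) := mul_nonneg (mul_nonneg two_pos.le hd) (by linarith)
    refine ⟨⟨?_, hc, by linarith, ?_, hd, hd8, ?_, ?_, ?_, ?_, ?_, ?_, ?_, ?_, ?_, ?_, ?_⟩,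
      ?_, ?_, ?_⟩ <;> linarith
  have HK : T3K K A B C m a := by
    constructor <;> linarith
  have hQ : QAll3 (QL3 (7 / 8 + d) r s s₀ c μ) r K A B C m a c
      (2 * d * (C + m + a) + 2 * μ + 400 * c) :=
    QAll3_of R S₀ H (by linarith) G fun K₁ A₁ B₁ C₁ m₁ a₁ n₁ hS => QL3_stat R H HK (by linarith) hS
  have h := T3N_core R S₀ H (by linarith) G hQ hN (by linarith) (fun A₁ B₁ C₁ m₁ a₁ n₁ hS =>
    QN_stat R H hN (by linarith) (by linarith) hS) κ' h0 h1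
  have e : l + 2 * (7 / 8 + d - 7 / 8) * (C + (m + a)) = l + 2 * d * (C + m + a) := by ring
  rw [e]
  linarith

end Crest.Agent.R017.RGt911
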