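import Crest.Agent.R017.RGt_777
import Crest.Agent.R017.RGu_911
import Crest.Agent.R017.T3Fld_986

/-!
# Row 17, T.7: the side conditions with an abstract pair alternative (helper545)

after helper777 (`QL3`, `QL3_ln`, `QL3_stat`, `T3a_rgz`), helper911 (`QN_stat`, `T3N_of`),
helper986 (`t3fld_of`)

* `QL3P θ r s₀ PA c μ` : `QL3` with the pair alternative `PA` in (r2)
* `PAln` : the pair alternative for the children of one side; `RegA`, `RegN`, `RegW` : the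
  regions; `PAL` : the pair alternative on the regions `RegA`, `RegW`
* `QL3P_ln`, `QL3P_stat`, `QNP_stat`
* `T3a_P`, `T3N_P`, `t3fld_P` : the field `T3Fld` from the recursion with `QL3P`
-/

set_option autoImplicit false

noncomputable section

namespace Crest.Agent.R017.RGB545

open Crest.Agent.R017.ER911 Crest.Agent.R017.SC777 Crest.Agent.R017.NG911
open Crest.Agent.R017.RGt911

/-- the side conditions at family `K`, level `v`, side `(Y | m, a)` of total `n`, target `E`;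
`PA l β Y' m' a' ρ` : the pair functional at the levels `(l, β)` of the child `(Y' | m', a')` is at
most `ρ` -/
structure QL3P (θ : ℝ) (r s₀ : EF) (PA : ℝ → ℝ → Multiset ℝ → ℝ → ℝ → ℝ → Prop) (c μ K v : ℝ)
    (Y : Multiset ℝ) (m a E : ℝ) : Prop where
  e0 : 0 ≤ E
  ga : ∀ (Y' : Multiset ℝ) (m' a' n n' i b g t γ : ℝ), Sh Y' Y → 0 ≤ m' → m' ≤ m → 0 ≤ a' →
    a' ≤ a → n = Y.sum + m + a → n' = Y'.sum + m' + a' → 0 ≤ i → 0 ≤ b → 0 ≤ g → 0 ≤ t →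
    n' + b + g ≤ n → i ≤ v + n - K + 3 * t + b + μ → i + 2 * b + 3 * t ≤ K + μ →
    2 * (i + b) ≤ v → 0 ≤ γ → γ ≤ i → γ ≤ b →
    Full θ r (i + 2 * b - 3 * γ) Y' m' a'
      (E + t - (v + n - 2 * K) / 3 - μ - g - v + i + b - 2 * γ)
  /-- (R2) -/
  r2 : ∀ (Y' : Multiset ℝ) (m' a' n n' i b g t g₂ : ℝ), Sh Y' Y → 0 ≤ m' → m' ≤ m → 0 ≤ a' →
    a' ≤ a → n = Y.sum + m + a → n' = Y'.sum + m' + a' → 0 ≤ i → 0 ≤ b → 0 ≤ g → 0 ≤ t →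
    n' + b + g ≤ n → i ≤ v + n - K + 3 * t + b + μ → i + 2 * b + 3 * t ≤ K + μ →
    v ≤ 2 * (i + b) → 0 ≤ g₂ → g₂ ≤ g → 2 * g₂ ≤ i →
    PA (i - 2 * g₂) (b + g₂) Y' m' a'
      (E + t - (v + n - 2 * K) / 3 - μ - g - max v (max i (2 / 3 * (v + i))) + i)
  /-- (R3) -/
  r3 : ∀ (Y' : Multiset ℝ) (m' a' n n' : ℝ), Sh Y' Y → 0 ≤ m' → m' ≤ m → 0 ≤ a' → a' ≤ a →
    n = Y.sum + m + a → n' = Y'.sum + m' + a' → 0 ≤ v + n - K + μ →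
    Full θ r (v + n - K + μ) Y' m' a'
      (E - (n - n') - max 0 (max ((2 * v - K) / 3) ((3 * v - n - K) / 2)) - μ)
  sq : ∀ (Y' : Multiset ℝ) (m' a' n n' κ' : ℝ), Sh Y' Y → 0 ≤ m' → m' ≤ m → 0 ≤ a' → a' ≤ a →
    n = Y.sum + m + a → n' = Y'.sum + m' + a' → c ≤ n - n' → 0 ≤ κ' → κ' ≤ K →
    r κ' Y' m' a' + (K - κ') / 3 + (n - n') + (v + n - 2 * K) / 3 ≤ E
  sqc : ∀ (Y' : Multiset ℝ) (m' a' n n' : ℝ), Sh Y' Y → 0 ≤ m' → m' ≤ m → 0 ≤ a' → a' ≤ a →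
    n = Y.sum + m + a → n' = Y'.sum + m' + a' →
    2 * a' + 2 * θ * m' + K / 3 + (n - n') + (v + n - 2 * K) / 3 ≤ E
  dd : ∀ (Y' : Multiset ℝ) (m' a' n n' : ℝ), Sh Y' Y → 0 ≤ m' → m' ≤ m → 0 ≤ a' → a' ≤ a →
    n = Y.sum + m + a → n' = Y'.sum + m' + a' → 2 * μ ≤ n - n' →
    s₀ (v + 2 * (n - n')) Y' m' a' ≤ E + (n - n') - μ

/-- the pair alternative for the children `{x₁, x₂, x₃}`, `x₁ + x₂ ≤ P₁`, `x₃ ≤ C₁`,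
`m' ≤ m₁`, `a' ≤ a₁` of a side of total `n` -/
def PAln (PA : ℝ → ℝ → Multiset ℝ → ℝ → ℝ → ℝ → Prop) (μ K v n E P₁ C₁ m₁ a₁ : ℝ) : Prop :=
  ∀ x₁ x₂ x₃ m' a' : ℝ, 0 ≤ x₁ → 0 ≤ x₂ → 0 ≤ x₃ → 0 ≤ m' → 0 ≤ a' → x₁ + x₂ ≤ P₁ → x₃ ≤ C₁ →
    m' ≤ m₁ → a' ≤ a₁ →
    ∀ i b g t g₂ : ℝ, 0 ≤ i → 0 ≤ b → 0 ≤ g → 0 ≤ t → x₁ + x₂ + x₃ + m' + a' + b + g ≤ n →
    i ≤ v + n - K + 3 * t + b + μ → i + 2 * b + 3 * t ≤ K + μ → v ≤ 2 * (i + b) → 0 ≤ g₂ →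
    g₂ ≤ g → 2 * g₂ ≤ i →
    PA (i - 2 * g₂) (b + g₂) {x₁, x₂, x₃} m' a'
      (E + t - (v + n - 2 * K) / 3 - μ - g - max v (max i (2 / 3 * (v + i))) + i)

/-- what is known at a state of T3a: state (family `K₁`, lumps `P₁ = A₁ + B₁`, `C₁`, granular
`m₁`, `a₁`, total `n₁`), side (family `K`, level `v`, total `n`, target `E`) -/
structure RegA (K₁ P₁ C₁ m₁ a₁ n₁ K v n E D M e₀ : ℝ) : Prop
    extends Dom K₁ n₁ C₁ (m₁ + a₁) K v n E D M e₀ where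
  m0 : 0 ≤ m₁
  a0 : 0 ≤ a₁
  tot : n₁ = P₁ + C₁ + m₁ + a₁
  nC : K₁ ≤ n₁ + C₁
  nP : 2 * K₁ ≤ 2 * n₁ + P₁
  h2 : P₁ + 2 * C₁ ≤ K₁
  h59 : 5 * P₁ + 9 * (m₁ + a₁) ≤ 5 * K₁
  h7 : 80 * n₁ + 30 * C₁ ≤ 73 * K₁
  h11 : 40 * n₁ ≤ 33 * K₁
  l34 : 3 * K₁ ≤ 4 * n₁
  hamp : 3 * (m₁ + 2 * a₁) ≤ 2 * K₁
  vv : v ≤ 2 * n
  d2 : 2 * v ≤ n + K

/-- what is known at a weak state of the near-equal three-lump side (`NG` at the parent) -/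
structure RegN (k l A B C m a K₁ P₁ C₁ m₁ a₁ n₁ K v n E D M e₀ : ℝ) : Prop
    extends Ln K v n E C₁ (m₁ + a₁) D M where
  ng : NG k l A B C m a
  m0 : 0 ≤ m₁
  a0 : 0 ≤ a₁
  m1 : m₁ ≤ m
  a1 : a₁ ≤ a
  tot : n₁ = P₁ + C₁ + m₁ + a₁
  P1 : P₁ ≤ A + B
  C1 : C₁ ≤ C
  kK₁ : k + 3 * l ≤ K₁
  kK : K₁ ≤ K
  nn : n ≤ n₁
  vs : v + n ≤ 3 * (A + B + C + m + a) - k + (K - K₁) / 3
  sx : v + (2 * K₁ + k) ≤ 2 * n + 2 * K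
  e0 : 0 ≤ e₀
  el : 4 / 3 * n + v / 3 + K / 3 + D + M + 2 * e₀ ≤ E
  vv : v ≤ 2 * n
  d2 : 2 * v ≤ n + K
  h11 : 40 * (A + B + C + m + a) ≤ 33 * K₁

/-- the weak region, for the states of the near-equal three-lump side and for the far children of
the flat claims: state (family `K₁`, lumps `P₁ = A₁ + B₁`, `C₁`, granular `m₁`, `a₁`, total `n₁`),
side (family `K`, level `v`, total `n`, target `E`) -/
structure RegW (K₁ P₁ C₁ m₁ a₁ n₁ K v n E D M e₀ : ℝ) : Prop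
    extends Ln K v n E C₁ (m₁ + a₁) D M where
  m0 : 0 ≤ m₁
  a0 : 0 ≤ a₁
  tot : n₁ = P₁ + C₁ + m₁ + a₁
  sig : P₁ + 2 * C₁ ≤ K₁
  w9 : 9 * (m₁ + a₁) ≤ K₁
  n5 : 5 * n₁ ≤ 4 * K₁
  kK : K₁ ≤ K
  nn : n ≤ n₁
  e0 : 0 ≤ e₀
  el : 4 / 3 * n + v / 3 + K / 3 + D + M + 2 * e₀ ≤ E
  vv : v ≤ 2 * n
  d2 : 2 * v ≤ n + K

theorem RegN.toW {k l A B C m a K₁ P₁ C₁ m₁ a₁ n₁ K v n E D M e₀ : ℝ}
    (H : RegN k l A B C m a K₁ P₁ C₁ m₁ a₁ n₁ K v n E D M e₀) :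
    RegW K₁ P₁ C₁ m₁ a₁ n₁ K v n E D M e₀ := by
  obtain ⟨hln, hN, m0, a0, m1, a1, tot, P1, C1, kK₁, kK, nn, vs, sx, e0, el, vv, d2, h11⟩ := H
  obtain ⟨k0, l0, C0, CA, CB, m0', a0', wx, w9, sig, l1, nn'⟩ := hN
  refine ⟨hln, m0, a0, tot, by linarith, by linarith, ?_, kK, nn, e0, el, vv, d2⟩
  rcases wx with h | h <;> linarith

/-- **the pair alternative holds on both regions** -/
structure PAL (d : ℝ) (PA : ℝ → ℝ → Multiset ℝ → ℝ → ℝ → ℝ → Prop) : Prop where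
  regA : ∀ K₁ P₁ C₁ m₁ a₁ n₁ K v n E D μ e₀ : ℝ,
    RegA K₁ P₁ C₁ m₁ a₁ n₁ K v n E D (2 * μ) e₀ → 0 ≤ μ → 60 * μ ≤ K →
    2 * d * (C₁ + m₁ + a₁) ≤ D → PAln PA μ K v n E P₁ C₁ m₁ a₁
  regW : ∀ K₁ P₁ C₁ m₁ a₁ n₁ K v n E D μ e₀ : ℝ,
    RegW K₁ P₁ C₁ m₁ a₁ n₁ K v n E D (2 * μ) e₀ → 0 ≤ μ → 60 * μ ≤ K →
    2 * d * (C₁ + m₁ + a₁) ≤ D → PAln PA μ K v n E P₁ C₁ m₁ a₁

variable {d : ℝ} {r s s₀ : EF} {PA : ℝ → ℝ → Multiset ℝ → ℝ → ℝ → ℝ → Prop}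

/-- **`QL3P` from the lines, (D), (sq) and the pair alternative** -/
theorem QL3P_ln (R : ExpRules (7 / 8 + d) r s) (hd : 0 ≤ d) (hd8 : 8 * d ≤ 1)
    {c K v n E C₁ w₁ D μ : ℝ} (H : Ln K v n E C₁ w₁ D (2 * μ)) (hμ : 0 ≤ μ) (hμK : 60 * μ ≤ K)
    (hD : 2 * d * (C₁ + w₁) ≤ D) {P₁ m₁ a₁ : ℝ} (hPA : PAln PA μ K v n E P₁ C₁ m₁ a₁)
    {z₁ z₂ z₃ m a : ℝ} (h1 : 0 ≤ z₁) (h2 : 0 ≤ z₂) (h3 : 0 ≤ z₃)
    (hm : 0 ≤ m) (ha : 0 ≤ a) (hP : z₁ + z₂ ≤ P₁) (hC : z₃ ≤ C₁) (hm1 : m ≤ m₁) (ha1 : a ≤ a₁)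
    (hw : m + a ≤ w₁)
    (hn : n = z₁ + z₂ + z₃ + m + a)
    (hdd : ∀ x₁ x₂ x₃ m₃ a₃ n₃ : ℝ, Sub3 x₁ x₂ x₃ m₃ a₃ z₁ z₂ z₃ m a →
      n₃ = x₁ + x₂ + x₃ + m₃ + a₃ → 2 * μ ≤ n - n₃ →
      s₀ (v + 2 * (n - n₃)) {x₁, x₂, x₃} m₃ a₃ ≤ E + (n - n₃) - μ)
    (hsq : ∀ x₁ x₂ x₃ m₃ a₃ n₃ κ' : ℝ, Sub3 x₁ x₂ x₃ m₃ a₃ z₁ z₂ z₃ m a →
      n₃ = x₁ + x₂ + x₃ + m₃ + a₃ → c ≤ n - n₃ → 0 ≤ κ' → κ' ≤ K →
      r κ' {x₁, x₂, x₃} m₃ a₃ + (K - κ') / 3 + (n - n₃) + (v + n - 2 * K) / 3 ≤ E) :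
    QL3P (7 / 8 + d) r s₀ PA c μ K v {z₁, z₂, z₃} m a E := by
  have hQ := QL3_ln (s₀ := s₀) R hd hd8 H hμ hμK hD h1 h2 h3 hm ha hC hw hn hdd hsq
  refine ⟨hQ.e0, hQ.ga, ?_, hQ.r3, hQ.sq, hQ.sqc, hQ.dd⟩
  intro Y' m' a' n₂ n' i b g t g₂ hY hm0 hm1' ha0 ha1' hn2 hn' hi hb hg ht hlen hi1 hi2 hv hg0 hg1
    hgi
  obtain ⟨x₁, x₂, x₃, rfl, t0, t1, t2, t3, t4, t5⟩ := sh3 hY
  rw [sum3] at hn2 hn'
  obtain rfl : n₂ = n := by linarith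
  exact hPA x₁ x₂ x₃ m' a' t0 t2 t4 hm0 ha0 (by linarith) (by linarith) (by linarith)
    (by linarith) i b g t g₂ hi hb hg ht (by linarith) hi1 hi2 hv hg0 hg1 hgi

/-- **the static part of `QL3P` at every state of T3a** -/
theorem QL3P_stat (hPA : PAL d PA) (R : ExpRules (7 / 8 + d) r s) {κ A B C m a c μ F : ℝ}
    (H : T3Hy d κ A B C m a c (2 * μ) F) (HK : T3K κ A B C m a)
    (h11 : 40 * (A + B + C + m + a) ≤ 33 * κ)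
    (hF : 2 * d * (C + m + a) + 2 * μ + 400 * c ≤ F)
    {K A₁ B₁ C₁ m₁ a₁ n₁ : ℝ} (hS : St3 κ A B C m a K A₁ B₁ C₁ m₁ a₁ n₁) :
    QStat (QL3P (7 / 8 + d) r s₀ PA c μ) r s₀ c μ F (3 * n₁ - 4 / 3 * K + 100 * c)
      (3 * K - 200 * c) K A₁ B₁ C₁ m₁ a₁ n₁ := by
  intro K' v z₁ z₂ z₃ m₂ a₂ n₂ E hKK hsw hz12 hL hdd hsq
  have sA := hS.lA
  have sB := hS.lB
  have sC := hS.lC
  have s34 := hS.l34
  obtain ⟨hκK, hsub, hn1, hw1, hw2, hw3, hw5⟩ := hS.toW H.toT3H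
  obtain ⟨p0, p0', p6, p3, p7, p4, p8, p5, hn2, hn21⟩ := hsw
  obtain ⟨⟨v0, v23, d2, vs, sx, l0⟩, vv⟩ := hL
  have q1 := hsub.A1; have q2 := hsub.B1; have q3 := hsub.C1; have q4 := hsub.m1
  have q5 := hsub.a1
  have q0 := hsub.A0; have q0' := hsub.B0; have q6 := hsub.C0; have q7 := hsub.m0
  have q8 := hsub.a0
  have hd := H.d0
  have hd8 := H.d8
  have hc0 := H.c0
  have hμ0 := H.μ0
  have hcκ := H.cκ
  have h4 := H.h4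
  have h36 := H.h36
  have h56 := H.h56
  have h8 := HK.h8
  have h9 := HK.h9
  have h10 := HK.h10
  have h2 := H.h2
  have h59 := H.h59
  have h7 := H.h7
  have hamp := H.hamp
  have hdom : Dom K n₁ C₁ (m₁ + a₁) K' v n₂ E (2 * d * (C + m + a)) (2 * μ) (200 * c) := by
    constructor <;> linarith
  have hD : 2 * d * (C₁ + (m₁ + a₁)) ≤ 2 * d * (C + m + a) :=
    mul_le_mul_of_nonneg_left (by linarith) (by linarith)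
  have hreg : RegA K (A₁ + B₁) C₁ m₁ a₁ n₁ K' v n₂ E (2 * d * (C + m + a)) (2 * μ)
      (200 * c) := by
    refine ⟨hdom, ?_, ?_, ?_, ?_, ?_, ?_, ?_, ?_, ?_, ?_, ?_, ?_, ?_⟩ <;> linarith
  exact QL3P_ln R hd hd8 hdom.ln (by linarith) (by linarith) hD
    (hPA.regA _ _ _ _ _ _ _ _ _ _ _ _ _ hreg (by linarith) (by linarith) (by linarith))
    p0 p0' p6 p7 p8 hz12 p3 p4 p5 (by linarith) hn2 hdd hsq

set_option maxHeartbeats 1600000 in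
/-- **the static part of `QL3P` at every weak state, domain `S = 3 N - k - K / 3`** -/
theorem QNP_stat (hPA : PAL d PA) (R : ExpRules (7 / 8 + d) r s)
    {K k l A B C m a c μ F : ℝ}
    (H : T3Hy d K A B C m a c (2 * μ) F) (hN : NG k l A B C m a) (hK : k + 3 * l ≤ K)
    (hF : 2 * d * (C + m + a) + 2 * μ + 400 * c ≤ F)
    {A₁ B₁ C₁ m₁ a₁ n₁ : ℝ} (hS : StW K A B C m a K A₁ B₁ C₁ m₁ a₁ n₁) :
    QStat (QL3P (7 / 8 + d) r s₀ PA c μ) r s₀ c μ F (3 * (A + B + C + m + a) - k - K / 3)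
      (2 * K + k) K A₁ B₁ C₁ m₁ a₁ n₁ := by
  intro K' v z₁ z₂ z₃ m₂ a₂ n₂ E hKK hsw hz12 hL hdd hsq
  obtain ⟨hκK, hsub, hn1, hw1, hw2, hw3, hw5⟩ := hS
  obtain ⟨p0, p0', p6, p3, p7, p4, p8, p5, hn2, hn21⟩ := hsw
  obtain ⟨⟨v0, v23, d2, vs, sx, l0⟩, vv⟩ := hL
  have q1 := hsub.A1; have q2 := hsub.B1; have q3 := hsub.C1; have q4 := hsub.m1
  have q5 := hsub.a1
  have q0 := hsub.A0; have q0' := hsub.B0; have q6 := hsub.C0; have q7 := hsub.m0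
  have q8 := hsub.a0
  have hd := H.d0
  have hd8 := H.d8
  have hc0 := H.c0
  have hμ0 := H.μ0
  have hcκ := H.cκ
  have h4 := H.h4
  have h56 := H.h56
  obtain ⟨e1, e2, e3, e4, e7, e8, e10⟩ := linesN (K' := K') (v := v) (n := n₂) (C₁ := C₁)
    (w₁ := m₁ + a₁) hN hK (by linarith) q3 (by linarith) q6 hKK v0 (by linarith) (by linarith)
    (by linarith)
  have e11 := linesN11 (K' := K') (v := v) (n := n₂) (C₁ := C₁)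
    (w₁ := m₁ + a₁) hN hK (by linarith) q3 (by linarith) q6 hKK v0 (by linarith) (by linarith)
    (by linarith) (by linarith)
  have hD : 2 * d * (C₁ + (m₁ + a₁)) ≤ 2 * d * (C + m + a) :=
    mul_le_mul_of_nonneg_left (by linarith) (by linarith)
  have hln : Ln K' v n₂ E C₁ (m₁ + a₁) (2 * d * (C + m + a)) (2 * μ) := by
    constructor <;> linarith
  have N45 : 5 * (A + B + C + (m + a)) ≤ 4 * (k + 3 * l) := by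
    obtain ⟨k0, l0, C0, CA, CB, m0, a0, wx, w9, sig, l1, nn⟩ := hN
    rcases wx with h | h <;> linarith
  have hreg : RegN k l A B C m a K (A₁ + B₁) C₁ m₁ a₁ n₁ K' v n₂ E (2 * d * (C + m + a))
      (2 * μ) (200 * c) := by
    refine ⟨hln, hN, ?_, ?_, ?_, ?_, ?_, ?_, ?_, ?_, ?_, ?_, ?_, ?_, ?_, ?_, ?_, ?_, ?_⟩ <;>
      linarith
  exact QL3P_ln R hd hd8 hln (by linarith) (by linarith) hD
    (hPA.regW _ _ _ _ _ _ _ _ _ _ _ _ _ hreg.toW (by linarith) (by linarith)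
      (by linarith)) p0 p0' p6 p7 p8 hz12 p3 p4 p5 (by linarith) hn2 hdd hsq

/-- the fields of the RG recursion with the pair alternative `PA` -/
structure ExpRGFP (θ : ℝ) (r s s₀ : EF)
    (PA : ℝ → ℝ → Multiset ℝ → ℝ → ℝ → ℝ → Prop) : Prop extends ExpS0 s s₀ where
  rgf : ∀ δ : ℝ, 0 < δ → ∃ c μ : ℝ, 0 < c ∧ 1000 * c ≤ μ ∧ c + μ ≤ δ ∧
    ExpRGy θ c r s₀ (QL3P θ r s₀ PA c μ)

/-- **T3a** from the RG fields, `QL3P` -/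
theorem T3a_P (hPA : PAL d PA) (R : ExpRules (7 / 8 + d) r s)
    (Rm : ExpRGFP (7 / 8 + d) r s s₀ PA) (hd : 0 ≤ d)
    (hd8 : 8 * d ≤ 1) {κ A B C m a : ℝ} (h : T3A κ A B C m a)
    (h11 : 40 * (A + B + C + m + a) ≤ 33 * κ) :
    ∀ κ' : ℝ, 0 ≤ κ' → κ' ≤ κ →
      r κ' {A, B, C} m a + (κ - κ') / 3 ≤
        κ + (A + B + C + m + a) + 2 * d * (C + m + a) := by
  obtain ⟨hκ, hA, hB, hC, hm, ha, hAC, hBC, h4, h2, h56, h36, h59, hamp, h7, h8, h9, h10⟩ := h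
  intro κ' hκ0 hκ'
  refine le_of_forall_pos_le_add fun ε hε => ?_
  obtain ⟨c, μ, hc, hcμ, hδ, G⟩ := Rm.rgf (ε / 1000) (by positivity)
  have H : T3Hy d (κ + 500 * (ε / 1000)) A B C m a c (2 * μ)
      (2 * d * (C + m + a) + 2 * μ + 400 * c) := by
    have hD0 : 0 ≤ 2 * d * (C + m + a) := mul_nonneg (mul_nonneg two_pos.le hd) (by linarith)
    refine ⟨?_, ?_, ?_, ?_⟩
    · constructor <;> first | assumption | linarith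
    · linarith
    · linarith
    · linarith
  have HK : T3K (κ + 500 * (ε / 1000)) A B C m a := by
    constructor <;> linarith
  have h := T3a_core_y R Rm.toExpS0 H G
    (QAll3_of R Rm.toExpS0 H (by linarith) G
      fun _ _ _ _ _ _ _ hS => QL3P_stat hPA R H HK (by linarith) le_rfl hS) hA hB hC hm ha
        le_rfl κ' hκ0
    (by linarith)
  linarith

/-- **the near-equal three-lump side over a short family**, `QL3P` -/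
theorem T3N_P (hPA : PAL d PA) (R : ExpRules (7 / 8 + d) r s) (S₀ : ExpS0 s s₀) (hd : 0 ≤ d)
    (hd8 : 8 * d ≤ 1)
    (Rg : ∀ δ : ℝ, 0 < δ → ∃ c μ : ℝ, 0 < c ∧ 1000 * c ≤ μ ∧ c + μ ≤ δ ∧
      ExpRGy (7 / 8 + d) c r s₀ (QL3P (7 / 8 + d) r s₀ PA c μ)) :
    T3N (7 / 8 + d) r := by
  intro k l A B C m a hN κ' h0 h1
  refine le_of_forall_pos_le_add fun ε hε => ?_
  obtain ⟨c, μ, hc, hμ, hcμ, G⟩ := Rg (ε / 1000) (by positivity)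
  have hN' := hN
  obtain ⟨k0, l0, C0, CA, CB, m0, a0, wx, w9, sig, l1, nn⟩ := hN'
  have N45 : 5 * (A + B + C + (m + a)) ≤ 4 * (k + 3 * l) := by
    rcases wx with h | h <;> linarith
  obtain ⟨K, hK⟩ : ∃ K, K = k + 3 * l + 600 * (ε / 1000) := ⟨_, rfl⟩
  have H : T3Hy d K A B C m a c (2 * μ) (2 * d * (C + m + a) + 2 * μ + 400 * c) := by
    have hD0 : 0 ≤ 2 * d * (C + m + a) := mul_nonneg (mul_nonneg two_pos.le hd) (by linarith)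
    refine ⟨⟨?_, hc, by linarith, ?_, hd, hd8, ?_, ?_, ?_, ?_, ?_, ?_, ?_, ?_, ?_, ?_, ?_⟩,
      ?_, ?_, ?_⟩ <;> linarith
  have HK : T3K K A B C m a := by
    constructor <;> linarith
  have hQ : QAll3 (QL3P (7 / 8 + d) r s₀ PA c μ) r K A B C m a c
      (2 * d * (C + m + a) + 2 * μ + 400 * c) :=
    QAll3_of R S₀ H (by linarith) G fun K₁ A₁ B₁ C₁ m₁ a₁ n₁ hS =>
      QL3P_stat hPA R H HK (by linarith) (by linarith) hS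
  have h := T3N_core R S₀ H (by linarith) G hQ hN (by linarith) (fun A₁ B₁ C₁ m₁ a₁ n₁ hS =>
    QNP_stat hPA R H hN (by linarith) (by linarith) hS) κ' h0 h1
  have e : l + 2 * (7 / 8 + d - 7 / 8) * (C + (m + a)) = l + 2 * d * (C + m + a) := by ring
  rw [e]
  linarith

/-- **three big lumps from the recursion**, `QL3P` -/
theorem t3fld_P {θ : ℝ} {r s s₀ : EF} (hPA : PAL (θ - 7 / 8) PA) (hθ : 7 / 8 ≤ θ)
    (hθ1 : θ ≤ 1) (R : ExpRules θ r s) (Rm : ExpRGFP θ r s s₀ PA) : T3F986.T3Fld θ r := by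
  obtain ⟨d, rfl⟩ : ∃ d, θ = 7 / 8 + d := ⟨θ - 7 / 8, by ring⟩
  have hd : 0 ≤ d := by linarith
  have hd8 : 8 * d ≤ 1 := by linarith
  rw [add_sub_cancel_left] at hPA
  refine ⟨?_, T3N_P hPA R Rm.toExpS0 hd hd8 Rm.rgf⟩
  intro κ A B C m a hκ hC hm ha hCA hCB h4 h2 h56 h36 h59 hamp h7 h8 h9 h10 h11 κ' k0 k1
  have h := T3a_P hPA R Rm hd hd8 (κ := κ) (A := A) (B := B) (C := C) (m := m) (a := a)
    (by constructor <;> linarith) h11 κ' k0 k1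
  have e : 2 * (7 / 8 + d - 7 / 8) * (C + m + a) = 2 * d * (C + m + a) := by ring
  rwa [e]

end Crest.Agent.R017.RGB545
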