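import Crest.Agent.R017.PXa_829
import Crest.Agent.R017.RGE4_545

/-!
# Row 17, T.7 (exceptional class): the pair alternative on the regions (helper829)

* `TreeA`, `TreeW` : the real trees (helper994, helper176), the closed form `PXn` on the regions
  `RegA`, `RegW`, sorted child
* `sort3` : sorting of three lumps
* `pal_px` : `PAL d (PX (7/8+d) r s)` from the trees
-/

set_option autoImplicit false

noncomputable section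

namespace Crest.Agent.R017.PX829

open Crest.Agent.R017.ER911 Crest.Agent.R017.SC777 Crest.Agent.R017.PM320
open Crest.Agent.R017.NG911 Crest.Agent.R017.RGB545

/-- the cell `(i, b, g)`, `t`, of the sorted child `(y₁, y₂, y₃ | w)` of total `n'` -/
structure Cell3 (μ K v n E C₁ w₁ y₁ y₂ y₃ w n' i b g t ρ U : ℝ) : Prop where
  y3 : 0 ≤ y₃
  y32 : y₃ ≤ y₂
  y21 : y₂ ≤ y₁
  yC : y₃ ≤ C₁
  w0 : 0 ≤ w
  ww : w ≤ w₁
  hn' : n' = y₁ + y₂ + y₃ + w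
  i0 : 0 ≤ i
  b0 : 0 ≤ b
  g0 : 0 ≤ g
  t0 : 0 ≤ t
  len : n' + b + g ≤ n
  i1 : i ≤ v + n - K + 3 * t + b + μ
  i2 : i + 2 * b + 3 * t ≤ K + μ
  iv : v ≤ 2 * (i + b)
  hρ : ρ = E + t - (v + n - 2 * K) / 3 - μ - g - max v (max i (2 / 3 * (v + i))) + i
  hU : U = max (max (n' / 3 + y₃ / 2) (n' / 3 + 4 / 15 * (y₃ + w)))
    (max (2 / 3 * (y₃ + w)) w)

/-- **the tree on `RegA`** -/
def TreeA : Prop := ∀ K₁ P₁ C₁ m₁ a₁ n₁ K v n E D μ e₀ : ℝ,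
  RegA K₁ P₁ C₁ m₁ a₁ n₁ K v n E D (2 * μ) e₀ → 0 ≤ μ → 60 * μ ≤ K → 0 ≤ D →
  ∀ y₁ y₂ y₃ w n' i b g t ρ U : ℝ,
    Cell3 μ K v n E C₁ (m₁ + a₁) y₁ y₂ y₃ w n' i b g t ρ U → PXn i b g y₁ y₂ y₃ w n' D U ρ

/-- **the tree on `RegW`** -/
def TreeW : Prop := ∀ K₁ P₁ C₁ m₁ a₁ n₁ K v n E D μ e₀ : ℝ,
  RegW K₁ P₁ C₁ m₁ a₁ n₁ K v n E D (2 * μ) e₀ → 0 ≤ μ → 60 * μ ≤ K → 0 ≤ D →
  ∀ y₁ y₂ y₃ w n' i b g t ρ U : ℝ,
    Cell3 μ K v n E C₁ (m₁ + a₁) y₁ y₂ y₃ w n' i b g t ρ U → PXn i b g y₁ y₂ y₃ w n' D U ρ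

lemma swap12 (a b c : ℝ) : ({a, b, c} : Multiset ℝ) = {b, a, c} := Multiset.cons_swap a b {c}

lemma swap23 (a b c : ℝ) : ({a, b, c} : Multiset ℝ) = {a, c, b} := by
  rw [Multiset.insert_eq_cons, Multiset.insert_eq_cons, Multiset.insert_eq_cons,
    Multiset.insert_eq_cons, ← Multiset.cons_zero, ← Multiset.cons_zero, Multiset.cons_swap b c]

/-- **sorting** -/
lemma sort3 {x₁ x₂ x₃ : ℝ} (h1 : 0 ≤ x₁) (h2 : 0 ≤ x₂) (h3 : 0 ≤ x₃) :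
    ∃ y₁ y₂ y₃ : ℝ, 0 ≤ y₃ ∧ y₃ ≤ y₂ ∧ y₂ ≤ y₁ ∧ y₃ ≤ x₃ ∧ y₁ + y₂ + y₃ = x₁ + x₂ + x₃ ∧
      ({x₁, x₂, x₃} : Multiset ℝ) = {y₁, y₂, y₃} := by
  rcases le_total x₁ x₂ with h12 | h12 <;> rcases le_total x₂ x₃ with h23 | h23 <;>
    rcases le_total x₁ x₃ with h13 | h13
  · exact ⟨x₃, x₂, x₁, h1, h12, h23, h13, by ring, by
      rw [swap12, swap23, swap12]⟩
  · exact ⟨x₃, x₂, x₁, h1, h12, h23, by linarith, by ring, by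
      rw [swap12, swap23, swap12]⟩
  · exact ⟨x₂, x₃, x₁, h1, h13, h23, h13, by ring, by rw [swap12, swap23]⟩
  · exact ⟨x₂, x₁, x₃, h3, h13, h12, le_rfl, by ring, by rw [swap12]⟩
  · exact ⟨x₃, x₁, x₂, h2, h12, h13, h23, by ring, by rw [swap23, swap12]⟩
  · exact ⟨x₁, x₃, x₂, h2, h23, h13, h23, by ring, by rw [swap23]⟩
  · exact ⟨x₁, x₂, x₃, h3, h23, h12, le_rfl, rfl, rfl⟩
  · exact ⟨x₁, x₂, x₃, h3, h23, h12, le_rfl, rfl, rfl⟩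

variable {d : ℝ} {r s : EF}

/-- one child from its closed form -/
theorem pa_of (R : ExpRules (7 / 8 + d) r s) (hd : 0 ≤ d) (hd8 : 8 * d ≤ 1)
    {μ K v n E P₁ C₁ m₁ a₁ D : ℝ} (hD : 2 * d * (C₁ + m₁ + a₁) ≤ D)
    (H : ∀ y₁ y₂ y₃ w n' i b g t ρ U : ℝ,
      Cell3 μ K v n E C₁ (m₁ + a₁) y₁ y₂ y₃ w n' i b g t ρ U →
        PXn i b g y₁ y₂ y₃ w n' D U ρ) :
    PAln (PX (7 / 8 + d) r s) μ K v n E P₁ C₁ m₁ a₁ := by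
  intro x₁ x₂ x₃ m' a' h1 h2 h3 hm ha _ hC hm1 ha1 i b g t g₂ hi hb hg ht hlen hi1 hi2 hv hg0
    hg1 hgi
  obtain ⟨y₁, y₂, y₃, k1, k2, k3, k4, k5, k6⟩ := sort3 h1 h2 h3
  rw [k6]
  have hc : Cell3 μ K v n E C₁ (m₁ + a₁) y₁ y₂ y₃ (m' + a') (y₁ + y₂ + y₃ + (m' + a')) i b g t
      (E + t - (v + n - 2 * K) / 3 - μ - g - max v (max i (2 / 3 * (v + i))) + i)
      (max (max ((y₁ + y₂ + y₃ + (m' + a')) / 3 + y₃ / 2)
        ((y₁ + y₂ + y₃ + (m' + a')) / 3 + 4 / 15 * (y₃ + (m' + a'))))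
        (max (2 / 3 * (y₃ + (m' + a'))) (m' + a'))) :=
    ⟨k1, k2, k3, k4.trans hC, by linarith, by linarith, rfl, hi, hb, hg, ht, by linarith, hi1,
      hi2, hv, rfl, rfl⟩
  refine px_of R hd hd8 k2 k3 k1 hm ha rfl ?_ rfl hi hb hg0 hg1 hgi (H _ _ _ _ _ _ _ _ _ _ _ hc)
  refine le_trans ?_ hD
  exact mul_le_mul_of_nonneg_left (by linarith) (by linarith)

/-- **the pair alternative on both regions** -/
theorem pal_px (R : ExpRules (7 / 8 + d) r s) (hd : 0 ≤ d) (hd8 : 8 * d ≤ 1) (hA : TreeA)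
    (hW : TreeW) : PAL d (PX (7 / 8 + d) r s) where
  regA := by
    intro K₁ P₁ C₁ m₁ a₁ n₁ K v n E D μ e₀ H hμ hμK hD
    have hD0 : 0 ≤ D := by
      have h1 := H.c0
      have h2 := H.m0
      have h3 := H.a0
      exact (mul_nonneg (mul_nonneg two_pos.le hd) (by linarith)).trans hD
    exact pa_of R hd hd8 hD (hA K₁ P₁ C₁ m₁ a₁ n₁ K v n E D μ e₀ H hμ hμK hD0)
  regW := by
    intro K₁ P₁ C₁ m₁ a₁ n₁ K v n E D μ e₀ H hμ hμK hD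
    have hD0 : 0 ≤ D := by
      have h1 := H.c0
      have h2 := H.m0
      have h3 := H.a0
      exact (mul_nonneg (mul_nonneg two_pos.le hd) (by linarith)).trans hD
    exact pa_of R hd hd8 hD (hW K₁ P₁ C₁ m₁ a₁ n₁ K v n E D μ e₀ H hμ hμK hD0)

end Crest.Agent.R017.PX829
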