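import Crest.Agent.R017.R2E_994
import Crest.Agent.R017.R2Ec_994
import Crest.Agent.R017.PXb_829

/-!
# Row 17, class E, line (r2): the trees in the form of helper829 (helper994)

* `r2E_W` : the tree on the weak region `RegW` (helper545)
* `treeA`, `treeN`, `treeW` : the trees on `RegA`, `RegN`, `RegW` for helper829's `Cell3`
-/

set_option autoImplicit false

noncomputable section

namespace Crest.Agent.R017.R2E994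

open Crest.Agent.R017.ER911 Crest.Agent.R017.SC777 Crest.Agent.R017.NG911
open Crest.Agent.R017.RGB545 Crest.Agent.R017.PX829

/-- **the tree on `RegW`** -/
theorem r2E_W {K₁ P₁ C₁ m₁ a₁ n₁ K v n E D μ e₀ : ℝ}
    (H : RegW K₁ P₁ C₁ m₁ a₁ n₁ K v n E D (2 * μ) e₀) (hμ : 0 ≤ μ) (hμK : 60 * μ ≤ K)
    (hD : 0 ≤ D) {x y z w n' i b g t W ρ U : ℝ} (hyx : y ≤ x) (hzy : z ≤ y) (hz : 0 ≤ z)
    (hw : 0 ≤ w) (hzC : z ≤ C₁) (hw1 : w ≤ m₁ + a₁) (hn' : n' = x + y + z + w) (hi : 0 ≤ i)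
    (hb : 0 ≤ b) (hg : 0 ≤ g) (ht : 0 ≤ t) (hlen : n' + b + g ≤ n)
    (hi1 : i ≤ v + n - K + 3 * t + b + μ) (hi2 : i + 2 * b + 3 * t ≤ K + μ)
    (hv : v ≤ 2 * (i + b)) (hW : W = max v (max i (2 / 3 * (v + i))))
    (hρ : ρ = E + t - (v + n - 2 * K) / 3 - μ - g - W + i)
    (hU : U = max (max (n' / 3 + z / 2) (n' / 3 + 4 / 15 * (z + w))) (max (2 / 3 * (z + w)) w)) :
    PXn i b g x y z w n' D U ρ := by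
  have hLn := H.toLn
  show 2 * w + (i + 2 * b) / 3 ≤ ρ ∧ AltE D ρ i b g x y z w n' U
  refine ⟨(r2_tree hLn hμ hμK hD (z := x + y) (by linarith) hz hw hzC hw1 (by linarith) hi hb hg
    ht hlen hi1 hi2 hv hW hρ hU).1, ?_⟩
  by_contra hc
  obtain ⟨d1, d2, d3, d4, d5⟩ := altE_neg hc
  obtain ⟨w1, w2⟩ := W_cases hW
  obtain ⟨u1, u2, u3, u4, u5⟩ := U_cases hU
  subst hn'
  have tot : n₁ = P₁ + C₁ + (m₁ + a₁) := by linarith [H.tot]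
  have q1 := H.n5
  have q2 := H.nn
  rw [tot] at q1 q2
  exact coreW (K₁ := K₁) (P₁ := P₁) (C₁ := C₁) (w₁ := m₁ + a₁) (K := K) (n := n) (v := v) (E := E)
    (D := D) (μ := μ) (e₀ := e₀) (x := x) (y := y) (z := z) (w := w) (i := i) (b := b) (g := g)
    (t := t) (W := W) (ρ := ρ) (U := U)
    H.w9 q1 H.kK q2 (by linarith [H.el]) hLn.v23 (by linarith [hLn.c4]) (by linarith [hLn.l10])
    hi hb hg ht hμ H.e0 hD hμK hlen hi1 hi2 hv hz hw hzy hyx hzC hw1 w1 (by linarith) u1 u2 u4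
    w2 u5 d1 d2 d3 d4 d5

/-- **the tree on `RegA`**, cells -/
theorem treeA (K₁ P₁ C₁ m₁ a₁ n₁ K v n E D μ e₀ : ℝ)
    (H : RegA K₁ P₁ C₁ m₁ a₁ n₁ K v n E D (2 * μ) e₀) (hμ : 0 ≤ μ) (hμK : 60 * μ ≤ K)
    (hD : 0 ≤ D) (y₁ y₂ y₃ w n' i b g t ρ U : ℝ)
    (c : Cell3 μ K v n E C₁ (m₁ + a₁) y₁ y₂ y₃ w n' i b g t ρ U) :
    PXn i b g y₁ y₂ y₃ w n' D U ρ :=
  r2E_A H hμ hμK hD c.y21 c.y32 c.y3 c.w0 c.yC c.ww c.hn' c.i0 c.b0 c.g0 c.t0 c.len c.i1 c.i2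
    c.iv rfl c.hρ c.hU

/-- **the tree on `RegN`**, cells -/
theorem treeN (k l A B C m a K₁ P₁ C₁ m₁ a₁ n₁ K v n E D μ e₀ : ℝ)
    (H : RegN k l A B C m a K₁ P₁ C₁ m₁ a₁ n₁ K v n E D (2 * μ) e₀) (hμ : 0 ≤ μ)
    (hμK : 60 * μ ≤ K) (hD : 0 ≤ D) (y₁ y₂ y₃ w n' i b g t ρ U : ℝ)
    (c : Cell3 μ K v n E C₁ (m₁ + a₁) y₁ y₂ y₃ w n' i b g t ρ U) :
    PXn i b g y₁ y₂ y₃ w n' D U ρ :=
  r2E_N H hμ hμK hD c.y21 c.y32 c.y3 c.w0 c.yC c.ww c.hn' c.i0 c.b0 c.g0 c.t0 c.len c.i1 c.i2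
    c.iv rfl c.hρ c.hU

/-- **the tree on `RegW`**, cells -/
theorem treeW (K₁ P₁ C₁ m₁ a₁ n₁ K v n E D μ e₀ : ℝ)
    (H : RegW K₁ P₁ C₁ m₁ a₁ n₁ K v n E D (2 * μ) e₀) (hμ : 0 ≤ μ) (hμK : 60 * μ ≤ K)
    (hD : 0 ≤ D) (y₁ y₂ y₃ w n' i b g t ρ U : ℝ)
    (c : Cell3 μ K v n E C₁ (m₁ + a₁) y₁ y₂ y₃ w n' i b g t ρ U) :
    PXn i b g y₁ y₂ y₃ w n' D U ρ :=
  r2E_W H hμ hμK hD c.y21 c.y32 c.y3 c.w0 c.yC c.ww c.hn' c.i0 c.b0 c.g0 c.t0 c.len c.i1 c.i2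
    c.iv rfl c.hρ c.hU

end Crest.Agent.R017.R2E994
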