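import Crest.Agent.R017.RGE7_545
import Crest.Agent.R017.R2F_994

/-!
# Row 17, T.7: the RG field of class E (helper545)

* `pal_E` : the pair alternative of class E on the regions (trees of helper994)
* `expRGFz_E` : `ExpRGFz` of class E from the pair rules and the finite theorems
-/

set_option autoImplicit false

noncomputable section

open Set Filter Topology

namespace Crest.Agent.R017.RGB545

open Crest.Agent.R012 Crest.Agent.R012.Eis Crest.Agent.R012.LS2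
open Crest.Agent.R012.T411 (NCube)
open Crest.Agent.R017.B770
open Crest.Agent.R017.Prov71
open Crest.Agent.R017.XP699
open Crest.Agent.R017.ER911 (EF ExpRules)
open Crest.Agent.R017.XPD571
open Crest.Agent.R017.XS0298
open Crest.Agent.R017.PX764 (Dk)
open Crest.Agent.R017.PX829 (PX pal_px)
open Crest.Agent.R017.SC777 (ExpRGFz)

variable {Lam : Type*} {π : Lam → DPar} {h : ℝ → ℝ} {c₁ θ : ℝ}

/-- **the pair alternative of class E on the regions** -/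
theorem pal_E {r s : EF} (hθ : 7 / 8 ≤ θ) (hθ1 : θ ≤ 1) (R : ExpRules θ r s) :
    PAL (θ - 7 / 8) (fun l β Y m a ρ => PX θ r s l β Y m a ρ) := by
  obtain ⟨d, rfl⟩ : ∃ d, θ = 7 / 8 + d := ⟨θ - 7 / 8, by ring⟩
  rw [add_sub_cancel_left]
  exact pal_px R (by linarith) (by linarith) R2E994.treeA R2E994.treeW

/-- **the RG field of class E** -/
theorem expRGFz_E (hθ : 7 / 8 ≤ θ) (hθ1 : θ ≤ 1) (H : DataE θ π h c₁)
    (P : PairRules (rdE π) h (ex Dq (SPe π h)))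
    (hB : ∀ c μ K d₀ : ℝ, 0 < c → 1000 * c ≤ μ → μ ≤ 1 → 0 < K → 2000 * c ≤ K → 0 ≤ d₀ → d₀ ≤ K →
      ∃ ε₀ : ℝ, 0 < ε₀ ∧ BessFinX (RX (fun _ => NCube) (rdE π) h)
        (fun lam => S0K Dk (rdE π lam) h) (LE (rdE π) h c μ) ε₀ K c d₀)
    (hR : ∀ c μ K v d₀ : ℝ, 0 < c → 1000 * c ≤ μ → μ ≤ 1 → 0 < K → 2000 * c ≤ K →
      3 * v + 300 * c ≤ 2 * K → K + 200 * c ≤ 2 * v → 0 ≤ d₀ → d₀ ≤ K →
      ∃ ε₀ : ℝ, 0 < ε₀ ∧ RgFinX (fun lam => S0K Dk (rdE π lam) h) (LE (rdE π) h c μ) ε₀ K v c d₀) :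
    ExpRGFz θ (ex Dq (RNe π h)) (ex Dq (SPe π h)) (ex Dq (S0e π h)) := by
  exact SC777.ExpRGFP.toZ (fun R => pal_E hθ hθ1 R) (expRGFP_of H (paok_px H P) hB hR)

end Crest.Agent.R017.RGB545
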