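import Crest.Agent.R017.RLd_381

/-!
# Row 17, T.5 / T.7 (RG): the numbers of (LB) in the form served by both classes
(helper829's definitions with the constant `Λ`, helper48)

* `NSqC`, `NSpQ`, `RRC`, `RhC`, `monoL_RRC`
-/

set_option autoImplicit false

noncomputable section

open Complex
open scoped ComplexConjugate

namespace Crest.Agent.R017.RLdX829

open Crest.Agent.R012 Crest.Agent.R012.Eis Crest.Agent.R012.LS2
open Crest.Agent.R017.RG64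
open Crest.Agent.R017.RLD381
open Crest.Agent.R017.LBu180 (SqQ)
open Crest.Agent.R017.CubP813 (alr Qc)
open Crest.Agent.R017.C70 (CbF)

/-- **(Sq)** in the cube-free form (both classes): the squares of the sequence on the multiples of
`a`, all families (NT) -/
def NSqC (w : ℝ → ℝ) : Numb := fun p _ be B =>
  ∀ (K' : ℝ) (a b : Eis), KmE p.K p.E0 ≤ K' → K' ≤ p.K → IsPrim a → Squarefree a →
    p.E0 ^ 3 ≤ nm a → (nm a : ℝ) ≤ p.Y → IsPrim b → (nm b : ℝ) ≤ p.Y →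
    SqQ w K' (fun k => CbF k ∧ K2E p.K p.E0 ≤ (nm k : ℝ)) (alr be a b) ≤
      (K' / p.K) ^ (1 / 3 : ℝ) * ((nm a : ℝ)⁻¹ * B)

/-- **(S')** the squares at the second scale, cube parts `≤ E0 ^ 8` only (both classes) -/
def NSpQ (w : ℝ → ℝ) : Numb := fun p _ be B =>
  SqQ w (p.K * Real.exp (-hE p.E0)) (Qc (K1E p.K p.E0)) be ≤ Real.exp (-(hE p.E0 / 3)) * B

lemma mono_NSqC (w : ℝ → ℝ) : MonoN (NSqC w) := by
  intro p X' be B B' hK hE hB h K' a b h1 h2 h3 h4 h5 h6 h7 h8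
  refine (h K' a b h1 h2 h3 h4 h5 h6 h7 h8).trans ?_
  have h9 : 0 ≤ (K' / p.K) ^ (1 / 3 : ℝ) :=
    Real.rpow_nonneg (div_nonneg ((KmE_nonneg hK _).trans h1) hK) _
  gcongr

lemma mono_NSpQ (w : ℝ → ℝ) : MonoN (NSpQ w) := by
  intro p X' be B B' hK hE hB h
  refine h.trans ?_
  gcongr

/-- the R-numbers of (LB) in the form served by both classes, levels `Λ N₁` of the off-diagonal
part -/
def RRC (w W : ℝ → ℝ) (N : ℕ) (M : ℝ) (F : ℕ → ℝ → ℂ) (Λ : ℝ) (p : LBp) (α : Eis → ℂ)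
    (Rn : ℝ) : Prop :=
  p.D ≤ p.E0 ∧ (BeAll (NRc N M F) p α Rn ∧ BeAll (NRl N M F) p α Rn) ∧
  ((BeAll (NRo w Λ) p α Rn ∧ BeAll (NRo W Λ) p α Rn) ∧ BeAll (NSqC W) p α Rn)

/-- what (LB) consumes, in the form served by both classes -/
def RhC (w W : ℝ → ℝ) (N : ℕ) (M : ℝ) (F : ℕ → ℝ → ℂ) (Λ : ℝ) (p : LBp) (α : Eis → ℂ)
    (Rn : ℝ) : Prop :=
  (p.X ^ 2 * p.E0 ^ 20 ≤ p.K * p.N₀ ∨ BeAll (NSpQ w) p α Rn) ∧ RRC w W N M F Λ p α Rn

lemma monoL_RRC (w W : ℝ → ℝ) (N : ℕ) (M : ℝ) (F : ℕ → ℝ → ℂ) : MonoL (RRC w W N M F) :=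
  MonoL.and (R₁ := fun _ p _ _ => p.D ≤ p.E0) (fun _ _ _ _ _ _ _ _ _ _ _ h => h)
    (MonoL.and ((monoR_be (mono_NRc N M F)).and (monoR_be (mono_NRl N M F))).toL
      (((monoL_NRo w).and (monoL_NRo W)).and (monoR_be (mono_NSqC W)).toL))

lemma monoR_RRC (w W : ℝ → ℝ) (N : ℕ) (M : ℝ) (F : ℕ → ℝ → ℂ) (Λ : ℝ) :
    MonoR (RRC w W N M F Λ) :=
  (monoL_RRC w W N M F).monoR Λ

end Crest.Agent.R017.RLdX829
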