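import Crest.Agent.R017.RGj_64
import Crest.Agent.R017.LBQ_791
import Crest.Agent.R017.LBo_813

/-!
# Row 17, T.7 L11 (exceptional class), the lower bound with a cut (helper298)

* `LBNX` : the lower bound (LB) with a cut of the frequencies and abstract R-side hypotheses
* `S2X` : the squares at the second scale
-/

set_option autoImplicit false

noncomputable section

open Complex
open scoped ComplexConjugate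

namespace Crest.Agent.R017.RX298

open Crest.Agent.R012 Crest.Agent.R012.Eis Crest.Agent.R012.LS2 Crest.Agent.R012.Gauss880
open Crest.Agent.R012.Weight600 (osc pw)
open Crest.Agent.R017.CM106 Crest.Agent.R017.HP842 Crest.Agent.R017.FE47
open Crest.Agent.R017.End699 hiding pw
open Crest.Agent.R017.Rough381 (VF VF_nonneg)
open Crest.Agent.R017.Leg381
open Crest.Agent.R017.E1551 (sg tws yv JB cP Dg XJw)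
open Crest.Agent.R017.RG64
open Crest.Agent.R017.LBQ791 (LBnQ SQnQ)
open Crest.Agent.R017.LBo813 (rho)

/-- **the lower bound (LB) with a cut of the frequencies** (helper48, helper180), the text of
helper64's `LBN` (v5, with `Λ`) with the cut `Qf`, R-side hypotheses abstract -/
def LBNX (w : ℝ → ℝ) (Λ : ℝ) (Qf : LBp → ℕ × ℕ → Eis → Prop) (Rh : LBp → (Eis → ℂ) → ℝ → Prop) :
    Prop :=
  ∀ (Cw R ε e₀ : ℝ) (Aw J : ℕ), 0 ≤ Cw → 0 ≤ R → 0 < ε → 0 < e₀ → J + 2 ≤ Aw →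
  ∃ C : ℝ, 0 ≤ C ∧
  ∀ (K X Y E0 D G₀ η : ℝ) (N₀ N₁ : ℕ), 1 ≤ X → X ≤ Y → K ≤ Y → E0 ≤ Y → 1 ≤ D → D ≤ Y →
    (N₁ : ℝ) ≤ Y → Y ^ e₀ ≤ E0 → E0 ^ 60 ≤ K → 1 ≤ N₀ → N₀ ≤ N₁ →
    (N₁ : ℝ) * E0 ^ 30 ≤ K ^ 2 → 0 < η → η ≤ 1 →
    ∀ α : Eis → ℂ, (∀ n, α n ≠ 0 → n ∈ S Y) →
    (∀ n, α n ≠ 0 → |Real.log (nm n) - Real.log X| ≤ R) → (∀ n, ‖α n‖ ≤ Y ^ ε) →
    ∀ Ma Ml Rn : ℝ, 0 ≤ Ma → 0 ≤ Ml → 0 ≤ Rn →
    (∀ g ∈ S Y, (nm g : ℝ) ≤ G₀ → ∀ V : ℝ, 1 ≤ V → V ≤ 9 * (Λ * N₁) * nm g → ∀ t : ℝ,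
      VF V (tws (sg α g) t) ≤
        Ma / (nm g : ℝ) ^ 2 * ((V * K / (X / nm g) ^ 2) ^ (1 / 3 : ℝ)) * (1 + |t|) ^ J) →
    (∀ g ∈ S Y, ∀ B V : ℝ, 1 ≤ B → B ≤ Y → 1 ≤ V → V ≤ 9 * (Λ * N₁) / (nm g : ℝ) ^ 2 →
      ∀ t : ℝ, JB Y α (fun U => G₀ < nm (g * U)) g B V t ≤
        Ml / (nm g : ℝ) ^ 2 * yv K X g V * (1 + |t|) ^ J) →
    Rh ⟨Cw, η, Aw, K, X, Y, R, J, N₀, N₁, E0, D, G₀⟩ α Rn →
    LBnQ w (Qf ⟨Cw, η, Aw, K, X, Y, R, J, N₀, N₁, E0, D, G₀⟩) Cw η Aw K X Y D N₁ (rho N₀ N₁) R J α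
      (C * (η⁻¹) ^ (2 * J + 2) * Y ^ (4 * ε) *
        (X ^ 2 + E0 ^ (-(1 / 2) : ℝ) * (Ma + Ml) + Rn))

/-- the squares at the second scale `K * E0 ^ (- hA)` -/
def S2X (w : ℝ → ℝ) (Qf : LBp → ℕ × ℕ → Eis → Prop) (hA : ℝ) (p : LBp) (α : Eis → ℂ) (Es : ℝ) :
    Prop :=
  SQnQ w (Qf p) p.Cw p.η p.Aw (p.K * p.E0 ^ (-hA)) p.X p.R p.J α (p.E0 ^ (2 / 3 * hA) * Es)

end Crest.Agent.R017.RX298
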