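import Crest.Agent.R017.LBcN_48
import Crest.Agent.R017.RLdC_48
import Crest.Agent.R017.RX7L_298

/-!
# Row 17, C.REMg (LB), class E (helper48)

* `lbNX` : **(LB) with the cut, in helper298's form `LBNX w Λ Qf Rh`, with helper829's inputs**
* `lbNC` : the same without the cut, helper64's form `LBN w Λ Rh` (recursion of class E)
-/

set_option autoImplicit false
set_option linter.unusedVariables false

noncomputable section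

open Complex
open scoped ComplexConjugate Classical

namespace Crest.Agent.R017.LBx48

open Crest.Agent.R012 Crest.Agent.R012.Eis Crest.Agent.R012.MC
open Crest.Agent.R012.LS2 (S mem_S)
open Crest.Agent.R012.Weight600 (pw)
open Crest.Agent.R017.WDec180 (WD sc)
open Crest.Agent.R017.E1551 hiding tau Dg
open Crest.Agent.R017.LBu180 (SqQ SqQ_le)
open Crest.Agent.R017.Win813 (WK)
open Crest.Agent.R017.RGw813 (T9 bt)
open Crest.Agent.R017.Rough381 (VF)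
open Crest.Agent.R017.CubP813 (alr Qc)
open Crest.Agent.R017.Et813 (NumG NumQ)
open Crest.Agent.R017.RG64 (LBp)
open Crest.Agent.R017.RLD381 (BeAll NRc NRl NRo K1E K2E KmE E1E Numb hE)
open Crest.Agent.R017.LBo813 (Om rho)
open Crest.Agent.R017.LBQ791 (LBnQ)
open Crest.Agent.R017.C70 (CbF)
open Crest.Agent.R017.RX298 (LBNX)
open Crest.Agent.R017.RLdX829 (RhC RRC NSqC NSpQ)

/-- **(LB), class E** (both classes) -/
theorem lbNX {w W : ℝ → ℝ} (hw : Wgt w) (hw0 : ∀ x, 0 ≤ w x) (hW : Wgt W) (hW0 : ∀ x, 0 ≤ W x)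
    {N : ℕ} {M : ℝ} {F : ℕ → ℝ → ℂ} (hD : WD w N M F)
    (hW1 : ∀ x, Real.exp (-(2 + M)) ≤ x → x ≤ Real.exp (4 + N) → 1 ≤ W x) :
    ∀ Λ : ℝ, 1 ≤ Λ → LBNX w Λ (fun p _ => Qc (K1E p.K p.E0)) (RhC w W N M F Λ) := by
  intro Λ hΛ Cw R ε e₀ Aw J hCw hR hε he₀ hJA
  obtain ⟨C, hC, H⟩ := lbn_nt hw hw0 hW hW0 hD hW1 (Cw := Cw) (R := R) (ε := ε) (e₀ := e₀)
    (Aw := Aw) (J := J) hCw hR hε he₀ hJA hΛ
  refine ⟨C, hC, ?_⟩
  intro K X Y E0 D G₀ η N₀ N₁ hX hXY hKY hE0Y hD1 hDY hN₁Y hYE hEK hN₀ hN₀₁ h30 hη hη1 α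
    hα hαR hαn Ma Ml Rn hMa hMl hRn hSA hL hRh
  obtain ⟨hroom, hDE, ⟨hRc, hRl⟩, ⟨⟨hRo, hRoW⟩, hSq⟩⟩ := hRh
  have hY : 1 ≤ Y := by linarith
  have hE1 : 1 ≤ E0 := LBp180.one_le_E0 he₀.le hY hYE
  have hK1 : 1 ≤ K := (one_le_pow₀ hE1).trans hEK
  have hYε : 1 ≤ Y ^ ε := Real.one_le_rpow hY hε.le
  refine H K X Y E0 D G₀ η N₀ N₁ hX hXY hKY hE0Y (by linarith) hDY hDE hN₁Y hYE hEK hN₀
    hN₀₁ h30 hη hη1 α hα hαR hαn Ma Ml Rn hMa hMl hRn hSA hL hRc hRl (numG_of hRo)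
    (numG_of hRoW) hSq ?_
  refine hroom.imp id fun h => ?_
  exact numSQ_of (one_le_mul_of_one_le_of_one_le hYε hYε) (by linarith) (by linarith) hRn h

/-- a cut makes (LB) stronger: the form `LBN` with the inputs served by both classes (the recursion
of the exceptional class) -/
theorem lbNC {w W : ℝ → ℝ} (hw : Wgt w) (hw0 : ∀ x, 0 ≤ w x) (hW : Wgt W) (hW0 : ∀ x, 0 ≤ W x)
    {N : ℕ} {M : ℝ} {F : ℕ → ℝ → ℂ} (hD : WD w N M F)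
    (hW1 : ∀ x, Real.exp (-(2 + M)) ≤ x → x ≤ Real.exp (4 + N) → 1 ≤ W x) :
    ∀ Λ : ℝ, 1 ≤ Λ → RG64.LBN w Λ (RhC w W N M F Λ) := by
  intro Λ hΛ Cw R ε e₀ Aw J hCw hR hε he₀ hJA
  obtain ⟨C, hC, H⟩ := lbNX hw hw0 hW hW0 hD hW1 Λ hΛ Cw R ε e₀ Aw J hCw hR hε he₀ hJA
  refine ⟨C, hC, ?_⟩
  intro K X Y E0 D G₀ η N₀ N₁ hX hXY hKY hE0Y hD1 hDY hN₁Y hYE hEK hN₀ hN₀₁ h30 hη hη1 α
    hα hαR hαn Ma Ml Rn hMa hMl hRn hSA hL hRh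
  have hE1 : 1 ≤ E0 := LBp180.one_le_E0 he₀.le (by linarith) hYE
  have hK1 : 1 ≤ K := (one_le_pow₀ hE1).trans hEK
  exact LBQ791.LBnQ.toLBn hw hw0 (by linarith)
    (H K X Y E0 D G₀ η N₀ N₁ hX hXY hKY hE0Y hD1 hDY hN₁Y hYE hEK hN₀ hN₀₁ h30 hη hη1 α
      hα hαR hαn Ma Ml Rn hMa hMl hRn hSA hL hRh)

end Crest.Agent.R017.LBx48
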