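import Crest.Agent.R017.RHXe_116

/-!
# Row 17, T.7, E3 for the exceptional class (helper116): the lumps of the derived lists

* `tw_leaf` : `Tw (d₀ log X) (d₀ log X) (X ^ c₀) ps` from the facts of `RLeafX`
-/

set_option autoImplicit false
set_option maxHeartbeats 400000

noncomputable section

open Complex MeasureTheory
open scoped ComplexConjugate

namespace Crest.Agent.R017.RHX116

open Crest.Agent.R012 Crest.Agent.R012.Eis Crest.Agent.R012.MC
open Crest.Agent.R017.CM106 (CS TG FS)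
open Crest.Agent.R017.FE47
open Crest.Agent.R017.B770
open Crest.Agent.R017.Prov71 hiding tl
open Crest.Agent.R017.Leg381 (Pf alF LF natl)
open Crest.Agent.R017.XP699 (LL Chd hcost cst)
open Crest.Agent.R017.RG64 (Sb SbL Ht one_le_Ht Ht_cons LF_cons RFacts)
open Crest.Agent.R017.RX298 (xs rp rpB SbL_rp Lg LF_rp rp_length rpB_length Ht_rp)
open Crest.Agent.R017.RXk848 (Lmp)
open Crest.Agent.R017.RXi848 (LF_le_len)
open Crest.Agent.R017.ExD791 (Tw)

lemma LL_cons' (q : Pq) (l : List Pq) : LL Dq (q :: l) = q.z + LL Dq l := by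
  unfold XP699.LL
  rw [List.map_cons, List.sum_cons]
  rfl

lemma LL_natl (l : List Pq) : LL Dq l = LF (natl l) := by
  induction l with
  | nil => rfl
  | cons q l ih =>
    rw [LL_cons', ih]
    have e : natl (q :: l) = (q, false) :: natl l := rfl
    rw [e, LF_cons]

/-- **the lumps of a derived list** -/
theorem tw_of {K c ε X d₀ c₀ S : ℝ} (hd₀ : 0 ≤ d₀) (hX : 1 ≤ X) (hS : 0 ≤ S)
    {ps₀ : List Pq} {ps : List Pf} {Lv : ℝ} {N₀ N₁ : ℕ} (hlen : (ps₀.length : ℝ) * S ≤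
      c / 2 * Real.log X) (hs2 : ∀ q ∈ ps₀, Dq.s2 q ≤ X ^ c₀)
    (hL : Lmp ((d₀ + 3 / 2 * c) * Real.log X) ps₀) (hF : RFacts K c ε X ps₀ ps Lv N₀ N₁)
    (hs : SbL S ps ps₀) : Tw (d₀ * Real.log X) (d₀ * Real.log X) (X ^ c₀) ps := by
  have hlo := hF.lo
  have hl0 : 0 ≤ Real.log X := Real.log_nonneg hX
  match ps, ps₀, hs, hL with
  | _ :: _ :: _ , [], h, hL => exact hL.elim
  | [], [], _, hL => exact hL.elim
  | [_], [_], _, hL => exact hL.elim
  | p1 :: p2 :: ps, q1 :: q2 :: [], h, hL => exact hL.elim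
  | p1 :: p2 :: ps, q1 :: q2 :: q3 :: ps₀, h, hL =>
    unfold RG64.SbL at h
    cases h with
    | cons h1 h =>
      cases h with
      | cons h2 h =>
        obtain ⟨⟨k1, u1⟩, ⟨k2, u2⟩, -, x1, x2⟩ := hL
        have h3 := LF_le_len hS h
        have h4 : p1.1.z ≤ q1.z + S := h1.2.2.2.2
        have h5 : p2.1.z ≤ q2.z + S := h2.2.2.2.2
        have h6 : (((q1 :: q2 :: q3 :: ps₀).length : ℕ) : ℝ) = (q3 :: ps₀).length + 2 := by
          rw [List.length_cons, List.length_cons]; push_cast; ring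
        rw [h6] at hlen
        rw [LL_cons', LL_cons', LL_natl, LF_cons, LF_cons] at hlo
        have hm1 : (nm p1.1.d : ℝ) ≤ X ^ c₀ := by
          rw [h1.2.1]
          exact hs2 q1 (by simp)
        have hm2 : (nm p2.1.d : ℝ) ≤ X ^ c₀ := by
          rw [h2.2.1]
          exact hs2 q2 (by simp)
        have hD : 0 ≤ d₀ * Real.log X := mul_nonneg hd₀ hl0
        have y1 : d₀ * Real.log X ≤ p1.1.z := by nlinarith
        have y2 : d₀ * Real.log X ≤ p2.1.z := by nlinarith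
        exact ⟨⟨h1.2.2.1 u1, h2.2.2.1 u2⟩, ⟨h1.1.trans k1, h2.1.trans k2⟩, ⟨hm1, hm2⟩, ⟨y1, y2⟩,
          by linarith, le_rfl⟩

/-- **the lumps of the derived lists, for large `X`** -/
theorem tw_leaf {c S : ℝ} (N : ℕ) (hc : 0 < c) (hS : 0 ≤ S) :
    ∃ X₁ : ℝ, ∀ X : ℝ, 1 ≤ X → X₁ ≤ X → ∀ (K ε d₀ c₀ : ℝ), 0 ≤ d₀ → ∀ ps₀ : List Pq,
    ps₀.length ≤ N → (∀ q ∈ ps₀, Dq.s2 q ≤ X ^ c₀) →
    Lmp ((d₀ + 3 / 2 * c) * Real.log X) ps₀ →
    ∀ (ps : List Pf) (Lv : ℝ) (N₀ N₁ : ℕ), RFacts K c ε X ps₀ ps Lv N₀ N₁ → SbL S ps ps₀ →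
    Tw (d₀ * Real.log X) (d₀ * Real.log X) (X ^ c₀) ps := by
  refine ⟨Real.exp (N * S / (c / 2)), ?_⟩
  intro X hX hXX K ε d₀ c₀ hd₀ ps₀ hlen hs2 hL ps Lv N₀ N₁ hF hs
  refine tw_of hd₀ hX hS ?_ hs2 hL hF hs
  have h1 : N * S / (c / 2) ≤ Real.log X := by
    rw [← Real.log_exp (N * S / (c / 2))]
    exact Real.log_le_log (Real.exp_pos _) hXX
  rw [div_le_iff₀ (by linarith)] at h1
  have h2 : (ps₀.length : ℝ) * S ≤ N * S :=
    mul_le_mul_of_nonneg_right (by exact_mod_cast hlen) hS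
  linarith

end Crest.Agent.R017.RHX116
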