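import Crest.Agent.R017.NSqL_791
import Crest.Agent.R017.RHXf_116

/-!
# Row 17, T.7 (helper791): the squares at the leaf (exceptional class)

* `NSqC`, `NSpX` : the numbers: NT only at cube-free `k ≥ K2E`; second scale at `Qc (K1E ..)`
* `SpLn`         : what the line of the second scale is used for
* `nsqX_leaf`    : `RLeafX π h (BeAll (NSqC W)) L K c b d₀ y`
* `nspX_leaf`    : `RLeafX π h (BeAll (NSpX w)) L K c b d₀ y`
-/

set_option autoImplicit false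
set_option maxHeartbeats 400000

noncomputable section

open Complex
open scoped ComplexConjugate

namespace Crest.Agent.R017.SqB791

open Crest.Agent.R012 Crest.Agent.R012.Eis Crest.Agent.R012.LS2 Crest.Agent.R012.Gauss880
open Crest.Agent.R012.MC (Wgt)
open Crest.Agent.R012.T411 (NCube)
open Crest.Agent.R012.Weight600 (osc pw)
open Crest.Agent.R017.CM106 Crest.Agent.R017.FE47
open Crest.Agent.R017.B770
open Crest.Agent.R017.Prov71
open Crest.Agent.R017.HP842 (sqc)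
open Crest.Agent.R017.XP699 (LL Chd cst hcost)
open Crest.Agent.R017.Leg381 (Pf alF LF natl)
open Crest.Agent.R017.Win813 (WK)
open Crest.Agent.R017.RGw813 (bt T9)
open Crest.Agent.R017.RG64 (SbL Ht one_le_Ht LBp RFacts RLeaf)
open Crest.Agent.R017.LBu180 (SqQ)
open Crest.Agent.R017.RlB791
open Crest.Agent.R017.C70 (CbF)
open Crest.Agent.R017.CubP813 (Qc)
open Crest.Agent.R017.RGB545 (Line Th TK rbx)
open Crest.Agent.R017.XPD571 (RX)
open Crest.Agent.R017.RXk848 (LnP RLeafX Lmp bX)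
open Crest.Agent.R017.RX298 (xs rpB)
open Crest.Agent.R017.RLD381 (Numb BeAll NSq NSp KmE hE K1E K2E)

variable {Lam ι : Type*} {d : ℕ}

/-- **(Sq)**, cube-free frequencies `≥ K2E` only -/
def NSqC (w : ℝ → ℝ) : Numb := fun p _ be B =>
  ∀ (K' : ℝ) (a b : Eis), KmE p.K p.E0 ≤ K' → K' ≤ p.K → IsPrim a → Squarefree a →
    p.E0 ^ 3 ≤ nm a → (nm a : ℝ) ≤ p.Y → IsPrim b → (nm b : ℝ) ≤ p.Y →
    SqQ w K' (fun k => CbF k ∧ K2E p.K p.E0 ≤ (nm k : ℝ)) (CubP813.alr be a b) ≤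
      (K' / p.K) ^ (1 / 3 : ℝ) * ((nm a : ℝ)⁻¹ * B)

/-- **(S')**, kept frequencies only -/
def NSpX (w : ℝ → ℝ) : Numb := fun p _ be B =>
  SqQ w (p.K * Real.exp (-hE p.E0)) (Qc (K1E p.K p.E0)) be ≤ Real.exp (-(hE p.E0 / 3)) * B

/-- the number at all `k` gives the number at the kept `k` -/
lemma nsqC_of {w : ℝ → ℝ} (hW : Wgt w) (hw : ∀ x, 0 ≤ w x) {p : LBp} (hK : 0 < p.K)
    (hE : 0 < p.E0) {X' : ℝ} {be : Eis → ℂ} {B : ℝ} (h : NSq w p X' be B) : NSqC w p X' be B := by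
  intro K' a b h1 h2 h3 h4 h5 h6 h7 h8
  have h9 : 0 < K' := lt_of_lt_of_le (by unfold RLD381.KmE; positivity) h1
  exact (LBW180.SqQ_mono hW hw h9 (fun _ _ _ _ => trivial) _).trans (h K' a b h1 h2 h3 h4 h5 h6 h7 h8)

/-- the lengths of the replaced list -/
lemma len_rpB {D z : ℝ} (hD : 0 ≤ D) {ps : List Pq} (hz : ∀ q ∈ ps, 0 ≤ Dq.len q ∧ Dq.len q ≤ z)
    (hL : Lmp D ps) (hz0 : 0 ≤ z) : ∀ q ∈ rpB D ps, Dq.len q ≤ 2 * z := by
  match ps, hz, hL with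
  | [], _, h => exact h.elim
  | [_], _, h => exact h.elim
  | [_, _], _, h => exact h.elim
  | p₁ :: p₂ :: p₃ :: ps, hz, h =>
    have a1 := hz p₁ (by simp)
    have a2 := hz p₂ (by simp)
    have b1 : 0 ≤ p₁.z ∧ p₁.z ≤ z := a1
    have b2 : 0 ≤ p₂.z ∧ p₂.z ≤ z := a2
    have h2 : D ≤ p₂.z := h.2.2.2.2
    intro q hq
    have hq' : q ∈ ({p₁ with z := p₁.z + p₂.z - D} : Pq) :: ({p₂ with z := D} : Pq) ::
      p₃ :: ps := hq
    rcases List.mem_cons.1 hq' with rfl | hq'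
    · show p₁.z + p₂.z - D ≤ 2 * z
      linarith
    rcases List.mem_cons.1 hq' with rfl | hq'
    · show D ≤ 2 * z
      linarith
    · have := (hz q (List.mem_cons_of_mem _ (List.mem_cons_of_mem _ hq'))).2
      linarith

lemma Lmp_mono {x y : ℝ} (hxy : x ≤ y) {ps : List Pq} (h : Lmp y ps) : Lmp x ps := by
  match ps, h with
  | [], h => exact h.elim
  | [_], h => exact h.elim
  | [_, _], h => exact h.elim
  | _ :: _ :: _ :: _, h => exact ⟨h.1, h.2.1, h.2.2.1, hxy.trans h.2.2.2.1, hxy.trans h.2.2.2.2⟩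

/-- **the squares of NT at the leaf** (exceptional class) -/
theorem nsqX_leaf {π : Lam → DPar} (hP : ∀ lam, (π lam).OK) {h : ℝ → ℝ} {c₁ : ℝ} (hpu : PU h c₁)
    {W : ℝ → ℝ} (hW : Wgt W) {L : ι → Line Lam d} {j : ι} {K c b d₀ y : ℝ} (hc : 0 < c)
    (hK : 50 * c ≤ K) (hd₀ : 0 ≤ d₀)
    (HL : SqLn (RX (fun _ k => NCube k) π h) c (L j)) :
    RLeafX π h (BeAll (NSqC W)) L K c b d₀ y := by
  intro lam N c₀ hc₀
  refine ⟨max (2 * c₀) b, by have := le_max_left (2 * c₀) b; linarith, fun ε M hε hM => ?_⟩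
  set c₂ : ℝ := max (2 * c₀) b with hc₂
  have hc₂' : 2 * c₀ ≤ c₂ := le_max_left _ _
  have hc₂c : c₀ ≤ c₂ := by linarith
  have hc₂b : b ≤ c₂ := le_max_right _ _
  set ε₁ : ℝ := min (ε / 2) 1 with hε₁
  have hε₁0 : 0 < ε₁ := lt_min (by linarith) one_pos
  have hε₁a : ε₁ ≤ ε / 2 := min_le_left _ _
  have hε₁b : ε₁ ≤ 1 := min_le_right _ _
  obtain ⟨J₀, δ₀, hJ₀, hδ₀, G⟩ := sq_alrX hpu hW N (hc₀.trans hc₂c) hε₁0 hM
  refine ⟨max J₀ M, δ₀, hJ₀.trans (le_max_left _ _), hδ₀, ?_⟩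
  intro δ Jn Aw Cw R η S hδ0 hδ hJn hAw hCw hR hη hη1 hS
  obtain ⟨C, r, X₁, hC, hr, G⟩ := G δ Jn Aw Cw R η S hδ0 hδ ((le_max_left _ _).trans hJn) hAw hCw
    hη (hη1.trans (by norm_num)) hS
  obtain ⟨X₂, hTw⟩ := RHX116.tw_leaf (S := S) N hc hS
  refine ⟨C, r, max X₁ X₂, hC, hr, ?_⟩
  intro X hX3 hXX ps₀ hlen hz hs2 hLm q ps Lv N₀ N₁ hF hq hqX hps Bd Ma Ml hBd hMa hMl hprem _ _
  have hX0 : 0 < X := by linarith
  have hX1 : 1 < X := by linarith
  have hlX : 0 < Real.log X := Real.log_pos hX1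
  have hK0 : 0 ≤ K := by linarith
  have hmono : ∀ u : ℝ, u ≤ c₂ → X ^ u ≤ X ^ c₂ := fun u hu =>
    Real.rpow_le_rpow_of_exponent_le hX1.le hu
  have hD : 0 ≤ d₀ * Real.log X := by positivity
  have htw := hTw X hX1.le ((le_max_right _ _).trans hXX) K ε d₀ c₀ hd₀ ps₀ hlen hs2 hLm ps Lv N₀
    N₁ hF hps
  have hLg := RHX116.Tw_lg hD htw
  have hLm' : Lmp (d₀ * Real.log X) ps₀ := by
    refine Lmp_mono ?_ hLm
    have : 0 ≤ c * Real.log X := by positivity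
    nlinarith
  have hzr := len_rpB hD hz hLm' (by positivity)
  have hp0 := hprem false
  have hp1 := hprem true
  have er0 : rbx d₀ false X ps₀ = ps₀ := by unfold RGB545.rbx; simp
  have er1 : rbx d₀ true X ps₀ = rpB (d₀ * Real.log X) ps₀ := by
    rw [RHX116.rpB_eq]; unfold RGB545.rbx; simp
  rw [er0] at hp0
  rw [er1] at hp1
  have hK2 : 1 < K2E (X ^ K) (X ^ c) := by
    unfold RLD381.K2E
    rw [← Real.rpow_natCast, ← Real.rpow_mul hX0.le, ← Real.rpow_neg hX0.le, ← Real.rpow_add hX0]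
    refine Real.one_lt_rpow hX1 ?_
    push_cast
    linarith
  intro p hp t X' φ hX' hXX' hWK hφ K' a b' hK'1 hK'2 ha _ haE haY hb' hbY
  have hna : (0 : ℝ) < nm a := by exact_mod_cast nm_pos.2 ha.ne_zero
  have hKm : KmE (X ^ K) (X ^ c) = X ^ (K - 50 * c) := by
    unfold RLD381.KmE
    rw [← Real.rpow_natCast, ← Real.rpow_mul hX0.le, ← Real.rpow_neg hX0.le, ← Real.rpow_add hX0]
    congr 1
    push_cast
    ring
  have hK'1' : X ^ (K - 50 * c) ≤ K' := by rw [← hKm]; exact hK'1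
  have hK'2' : K' ≤ X ^ K := hK'2
  have hK'0 : 0 < K' := lt_of_lt_of_le (Real.rpow_pos_of_pos hX0 _) hK'1'
  set K'' : ℝ := Real.log K' / Real.log X with hK''
  have hKK : X ^ K'' = K' := by
    rw [Real.rpow_def_of_pos hX0, hK'', mul_div_cancel₀ _ hlX.ne', Real.exp_log hK'0]
  have h50 : K - 50 * c ≤ K'' := by
    rw [← hKK] at hK'1'
    exact (Real.rpow_le_rpow_left_iff hX1).1 hK'1'
  have hKle : K'' ≤ K := by
    rw [← hKK] at hK'2'
    exact (Real.rpow_le_rpow_left_iff hX1).1 hK'2'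
  have haE' : (X ^ c) ^ 3 ≤ nm a := haE
  have hlog : c * Real.log X ≤ Real.log (nm a) := by
    have h1 : Real.log ((X ^ c) ^ 3) ≤ Real.log (nm a) :=
      Real.log_le_log (by positivity) haE'
    rw [Real.log_pow, Real.log_rpow hX0] at h1
    push_cast at h1
    nlinarith [mul_nonneg hc.le hlX.le]
  have hline := lineB_of_LnP (A := Real.log (nm a)) HL hX3 hK0 (by linarith : 0 ≤ Bd) hp0
    (by linarith : ε₁ ≤ ε) hε₁b hKle hc.le hlog
  have hline' := lineB_of_LnP (A := Real.log (nm a)) HL hX3 hK0 (by linarith : 0 ≤ Bd) hp1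
    (by linarith : ε₁ ≤ ε) hε₁b hKle hc.le hlog
  rw [log_mul_div hX3] at hline hline'
  have key := G X hX3 ((le_max_left _ _).trans hXX) (π lam) (hP lam) ps₀ hlen
    (fun q hq => (hz q hq).2.trans (mul_le_mul_of_nonneg_right hc₂c hlX.le))
    (d₀ * Real.log X) hD (fun q hq => (hzr q hq).trans (by
      rw [← mul_assoc]
      exact mul_le_mul_of_nonneg_right hc₂' hlX.le)) q ps hq.ne_zero
    (hqX.trans (hmono _ hc₂c)) hps hLg
    (fun _ k => CbF k ∧ K2E (X ^ K) (X ^ c) ≤ (nm k : ℝ) ∧ True) (fun k => NCube k)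
    (cbf_hyp hK2 _) a b' ha
    hb'.ne_zero (haY.trans (hmono _ hc₂b)) (hbY.trans (hmono _ hc₂b)) K'' _ Bd (by linarith)
    (by linarith) hline hline' p hp t X' φ hX' (by
      have h1 : |Real.log X' - Real.log (Real.exp (LF ps))| ≤ R + 1 := hXX'
      rwa [Real.log_exp] at h1) hWK hφ
  have hH : 1 ≤ Ht ps * Ht (natl ps₀) :=
    one_le_mul_of_one_le_of_one_le (one_le_Ht _) (one_le_Ht _)
  have fin := nsq_final (K := K) (K'' := K'') (Lf := LF ps) (T := t) (Jn := Jn) hX3 hC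
    (by linarith : ε₁ + ε₁ / 3 ≤ ε) hH (le_max_right J₀ M) (by linarith : 0 ≤ Bd) hna
  rw [hKK] at key fin
  rw [alr_eq]
  simp only [and_true] at key
  refine (key.trans fin).trans ?_
  have hT : 0 ≤ (1 + |t|) ^ Jn := pow_nonneg (by positivity) _
  have hKdiv : 0 ≤ (K' / X ^ K) ^ (1 / 3 : ℝ) := Real.rpow_nonneg (by positivity) _
  have hB1 : Bd ≤ X ^ bX K c d₀ y (LF ps / Real.log X) (Lv / Real.log X) + Bd := by
    have := Real.rpow_nonneg hX0.le (bX K c d₀ y (LF ps / Real.log X) (Lv / Real.log X))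
    linarith
  have hMM : 0 ≤ C * X ^ ε * X ^ (-(c / 2)) * (Ma + Ml) := by positivity
  have hE : C * X ^ ε * (Ht ps * Ht (natl ps₀)) ^ (max J₀ M) * Bd * Real.exp (2 * LF ps) ≤
      C * X ^ ε * (Ht ps * Ht (natl ps₀)) ^ (max J₀ M) *
          (X ^ bX K c d₀ y (LF ps / Real.log X) (Lv / Real.log X) + Bd) * Real.exp (2 * LF ps) +
        C * X ^ ε * X ^ (-(c / 2)) * (Ma + Ml) := by
    have h0 : 0 ≤ C * X ^ ε * (Ht ps * Ht (natl ps₀)) ^ (max J₀ M) := by positivity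
    have h1 := mul_le_mul_of_nonneg_right (mul_le_mul_of_nonneg_left hB1 h0)
      (Real.exp_pos (2 * LF ps)).le
    linarith
  refine mul_le_mul_of_nonneg_left (mul_le_mul_of_nonneg_left ?_ (by positivity)) hKdiv
  refine mul_le_mul_of_nonneg_left (mul_le_mul_of_nonneg_right hE hT) ?_
  have := Real.rpow_nonneg hX0.le K
  positivity

/-- what the line of the second scale is used for -/
structure SpLn (Ψ : Lam → ℝ → List Pq → ℝ) (c : ℝ) (L : Line Lam d) : Prop where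
  Φ : ∀ lam l β ps, Ψ lam l ps ≤ L.Φ lam l β ps
  G : ∀ x θ, L.G x θ ≤ max (x 3 - x 0 + 7 * c) (x 4 - x 2)
  F : ∀ x θ, L.F x θ ≤ -((x 0 - x 3) / 3 + (x 2 - x 4) + (x 1 + x 2 - 2 * x 0) / 3)
  zl : ¬ L.zl

/-- **the premises of the lines give `LineB`**, second scale -/
theorem lineB_of_LnP' {Q : Lam → Eis → Prop} {π : Lam → DPar} {h : ℝ → ℝ} {L : ι → Line Lam d}
    {j : ι} {c : ℝ} (HL : SpLn (RX Q π h) c (L j)) {lam : Lam} {K ε M r bm X n₁ v₁ Bd : ℝ}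
    {base : List Pq} (hX : 3 ≤ X) (hK : 0 ≤ K) (hBd : 0 ≤ Bd)
    (H : LnP L lam K ε M r bm X n₁ v₁ Bd base) {ε₁ K' : ℝ} (h1 : ε₁ ≤ ε)
    (h2 : ε₁ ≤ 1) (hK' : K' ≤ K - 7 * c) (hc : 0 ≤ c) :
    LineB (Q lam) (π lam) h X r bm ε₁ M K' ((K' + 2 * K + ε₁) / 3) Bd base
      (n₁ * Real.log X) := by
  intro l ps' hl0 hl hch hLL
  have hX0 : 0 < X := by linarith
  have hX1 : 1 < X := by linarith
  have hl : l ≤ (K' + ε₁) * Real.log X := hl
  have hlX : 0 < Real.log X := Real.log_pos hX1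
  have hTK : 0 ≤ TK K := by unfold RGB545.TK; positivity
  have key := H j ⟨0, by
      constructor
      · exact le_rfl
      · intro i; exact hTK⟩ l ps' hl0 (by
      refine hl.trans (mul_le_mul_of_nonneg_right ?_ hlX.le)
      unfold RGB545.TK
      linarith) hch (by nlinarith) (by
      refine (HL.G _ _).trans (max_le ?_ ?_)
      · show l / Real.log X - K + 7 * c ≤ ε
        have : l / Real.log X ≤ K' + ε₁ := by rw [div_le_iff₀ hlX]; exact hl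
        linarith
      · show LL Dq ps' / Real.log X - n₁ ≤ ε
        have : LL Dq ps' / Real.log X ≤ n₁ + ε₁ := by
          rw [div_le_iff₀ hlX]
          linarith
        linarith) (fun hz => absurd hz HL.zl)
  refine ((HL.Φ lam l _ ps').trans key).trans ?_
  have hcs : 0 ≤ cst hcost ps' base ^ M :=
    Real.rpow_nonneg (by linarith [one_le_cst ps' base]) _
  refine mul_le_mul_of_nonneg_left (Real.rpow_le_rpow_of_exponent_le hX1.le ?_) (by positivity)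
  have h3 := HL.F ![K, v₁, n₁, l / Real.log X, LL Dq ps' / Real.log X] 0
  have h4 : (L j).F ![K, v₁, n₁, l / Real.log X, LL Dq ps' / Real.log X] 0 ≤
      -((K - l / Real.log X) / 3 + (n₁ - LL Dq ps' / Real.log X) + (v₁ + n₁ - 2 * K) / 3) := h3
  have h5 : l / Real.log X ≤ K' + ε₁ := by rw [div_le_iff₀ hlX]; exact hl
  linarith

/-- the final inequality, second scale -/
lemma nsp_final {X K c ε₁ ε C J₀ M H Bd E Lf T : ℝ} {Jn : ℕ} (hX : 3 ≤ X) (hC : 0 ≤ C)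
    (hε : ε₁ + ε₁ / 3 ≤ ε) (hH : 1 ≤ H) (hJ : M ≤ J₀) (hBd : 0 ≤ Bd)
    (hE : C * X ^ ε * H ^ J₀ * Bd * Real.exp (2 * Lf) ≤ E) :
    (X ^ (K - 7 * c) / Real.exp Lf) * ((C * X ^ ε₁ * H ^ M * Bd *
      (X ^ ((K - 7 * c + 2 * K + ε₁) / 3) * Real.exp (2 * Lf) / X ^ (K - 7 * c))) *
        (1 + |T|) ^ Jn) ≤
    Real.exp (-(RLD381.hE (X ^ c) / 3)) * ((X ^ K / Real.exp Lf) * (E * (1 + |T|) ^ Jn)) := by
  have hX0 : 0 < X := by linarith
  have hX1 : 1 ≤ X := by linarith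
  have e0 : Real.exp (-(RLD381.hE (X ^ c) / 3)) = X ^ (-(7 * c / 3)) := by
    unfold RLD381.hE
    rw [Real.log_rpow hX0, Real.rpow_def_of_pos hX0]
    congr 1
    ring
  have e3 : X ^ ε₁ * X ^ ((K - 7 * c + 2 * K + ε₁) / 3) ≤ X ^ ε * (X ^ (-(7 * c / 3)) * X ^ K) := by
    rw [← Real.rpow_add hX0, ← Real.rpow_add hX0, ← Real.rpow_add hX0]
    refine Real.rpow_le_rpow_of_exponent_le hX1 ?_
    linarith
  have e4 : H ^ M ≤ H ^ J₀ := Real.rpow_le_rpow_of_exponent_le hH hJ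
  have hT : 0 ≤ (1 + |T|) ^ Jn := pow_nonneg (by positivity) _
  have hEx : 0 < Real.exp Lf := Real.exp_pos _
  rw [e0]
  calc _ = (X ^ ε₁ * X ^ ((K - 7 * c + 2 * K + ε₁) / 3)) * H ^ M *
        (C * Bd * (Real.exp (2 * Lf) / Real.exp Lf) * (1 + |T|) ^ Jn) := by
          field_simp
    _ ≤ (X ^ ε * (X ^ (-(7 * c / 3)) * X ^ K)) * H ^ J₀ *
        (C * Bd * (Real.exp (2 * Lf) / Real.exp Lf) * (1 + |T|) ^ Jn) := by gcongr
    _ = X ^ (-(7 * c / 3)) * ((X ^ K / Real.exp Lf) *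
        ((C * X ^ ε * H ^ J₀ * Bd * Real.exp (2 * Lf)) * (1 + |T|) ^ Jn)) := by
          field_simp
    _ ≤ _ := by gcongr

/-- **the squares at the second scale at the leaf** (exceptional class) -/
theorem nspX_leaf {π : Lam → DPar} (hP : ∀ lam, (π lam).OK) {h : ℝ → ℝ} {c₁ : ℝ} (hpu : PU h c₁)
    {w : ℝ → ℝ} (hw : Wgt w) {L : ι → Line Lam d} {j : ι} {K c b d₀ y : ℝ} (hc : 0 < c)
    (hK : 50 * c ≤ K) (hd₀ : 0 ≤ d₀)
    (HL : SpLn (RX (fun _ k => NCube k) π h) c (L j)) :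
    RLeafX π h (BeAll (NSpX w)) L K c b d₀ y := by
  intro lam N c₀ hc₀
  refine ⟨2 * c₀, by linarith, fun ε M hε hM => ?_⟩
  set ε₁ : ℝ := min (ε / 2) 1 with hε₁
  have hε₁0 : 0 < ε₁ := lt_min (by linarith) one_pos
  have hε₁a : ε₁ ≤ ε / 2 := min_le_left _ _
  have hε₁b : ε₁ ≤ 1 := min_le_right _ _
  obtain ⟨J₀, δ₀, hJ₀, hδ₀, G⟩ := sq_leafX hpu hw N (by linarith : (1 : ℝ) ≤ 2 * c₀) hε₁0 hM
  refine ⟨max J₀ M, δ₀, hJ₀.trans (le_max_left _ _), hδ₀, ?_⟩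
  intro δ Jn Aw Cw R η S hδ0 hδ hJn hAw hCw hR hη hη1 hS
  obtain ⟨C, r, X₁, hC, hr, G⟩ := G δ Jn Aw Cw R η S hδ0 hδ ((le_max_left _ _).trans hJn) hAw hCw
    hη (hη1.trans (by norm_num)) hS
  obtain ⟨X₂, hTw⟩ := RHX116.tw_leaf (S := S) N hc hS
  refine ⟨C, r, max X₁ X₂, hC, hr, ?_⟩
  intro X hX3 hXX ps₀ hlen hz hs2 hLm q ps Lv N₀ N₁ hF hq hqX hps Bd Ma Ml hBd hMa hMl hprem _ _
  have hX0 : 0 < X := by linarith
  have hX1 : 1 < X := by linarith
  have hlX : 0 < Real.log X := Real.log_pos hX1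
  have hK0 : 0 ≤ K := by linarith
  have hc₂c : c₀ ≤ 2 * c₀ := by linarith
  have hD : 0 ≤ d₀ * Real.log X := by positivity
  have htw := hTw X hX1.le ((le_max_right _ _).trans hXX) K ε d₀ c₀ hd₀ ps₀ hlen hs2 hLm ps Lv N₀
    N₁ hF hps
  have hLg := RHX116.Tw_lg hD htw
  have hLm' : Lmp (d₀ * Real.log X) ps₀ := by
    refine Lmp_mono ?_ hLm
    have : 0 ≤ c * Real.log X := by positivity
    nlinarith
  have hzr := len_rpB hD hz hLm' (by positivity)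
  have hp0 := hprem false
  have hp1 := hprem true
  have er0 : rbx d₀ false X ps₀ = ps₀ := by unfold RGB545.rbx; simp
  have er1 : rbx d₀ true X ps₀ = rpB (d₀ * Real.log X) ps₀ := by
    rw [RHX116.rpB_eq]; unfold RGB545.rbx; simp
  rw [er0] at hp0
  rw [er1] at hp1
  have hK1 : 1 < K1E (X ^ K) (X ^ c) := by
    unfold RLD381.K1E
    rw [← Real.rpow_natCast, ← Real.rpow_mul hX0.le, ← Real.rpow_neg hX0.le, ← Real.rpow_add hX0]
    refine Real.one_lt_rpow hX1 ?_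
    push_cast
    linarith
  have hline := lineB_of_LnP' HL hX3 hK0 (by linarith : 0 ≤ Bd) hp0
    (by linarith : ε₁ ≤ ε) hε₁b le_rfl hc.le
  have hline' := lineB_of_LnP' HL hX3 hK0 (by linarith : 0 ≤ Bd) hp1
    (by linarith : ε₁ ≤ ε) hε₁b le_rfl hc.le
  rw [log_mul_div hX3] at hline hline'
  intro p hp t X' φ hX' hXX' hWK hφ
  have key := G X hX3 ((le_max_left _ _).trans hXX) (π lam) (hP lam) ps₀ hlen
    (fun q hq => (hz q hq).2.trans (mul_le_mul_of_nonneg_right hc₂c hlX.le))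
    (d₀ * Real.log X) hD (fun q hq => (hzr q hq).trans (by rw [← mul_assoc])) q ps hq.ne_zero
    (hqX.trans (Real.rpow_le_rpow_of_exponent_le hX1.le hc₂c)) hps hLg
    (fun _ => Qc (K1E (X ^ K) (X ^ c))) (fun k => NCube k)
    (qc_hyp hK1) (K - 7 * c) _ Bd (by linarith)
    (by linarith) hline hline' p hp t X' φ hX' hXX' hWK hφ
  have hH : 1 ≤ Ht ps * Ht (natl ps₀) :=
    one_le_mul_of_one_le_of_one_le (one_le_Ht _) (one_le_Ht _)
  have hB1 : Bd ≤ X ^ bX K c d₀ y (LF ps / Real.log X) (Lv / Real.log X) + Bd := by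
    have := Real.rpow_nonneg hX0.le (bX K c d₀ y (LF ps / Real.log X) (Lv / Real.log X))
    linarith
  have hE : C * X ^ ε * (Ht ps * Ht (natl ps₀)) ^ (max J₀ M) * Bd * Real.exp (2 * LF ps) ≤
      C * X ^ ε * (Ht ps * Ht (natl ps₀)) ^ (max J₀ M) *
          (X ^ bX K c d₀ y (LF ps / Real.log X) (Lv / Real.log X) + Bd) * Real.exp (2 * LF ps) +
        C * X ^ ε * X ^ (-(c / 2)) * (Ma + Ml) := by
    have hMM : 0 ≤ C * X ^ ε * X ^ (-(c / 2)) * (Ma + Ml) := by positivity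
    have h0 : 0 ≤ C * X ^ ε * (Ht ps * Ht (natl ps₀)) ^ (max J₀ M) := by positivity
    have h1 := mul_le_mul_of_nonneg_right (mul_le_mul_of_nonneg_left hB1 h0)
      (Real.exp_pos (2 * LF ps)).le
    linarith
  have fin := nsp_final (K := K) (c := c) (Lf := LF ps) (T := t) (Jn := Jn) hX3 hC
    (by linarith : ε₁ + ε₁ / 3 ≤ ε) hH (le_max_right J₀ M) (by linarith : 0 ≤ Bd) hE
  show SqQ w (X ^ K * Real.exp (-RLD381.hE (X ^ c))) (Qc (K1E (X ^ K) (X ^ c))) _ ≤ _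
  have e7 : X ^ K * Real.exp (-RLD381.hE (X ^ c)) = X ^ (K - 7 * c) := by
    unfold RLD381.hE
    rw [Real.log_rpow hX0, Real.rpow_sub hX0, div_eq_mul_inv, ← Real.rpow_neg hX0.le,
      Real.rpow_def_of_pos hX0 (-(7 * c))]
    congr 2
    ring
  rw [e7]
  exact key.trans fin

end Crest.Agent.R017.SqB791
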