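import Crest.Agent.R017.RGE3_545
import Crest.Agent.R017.RGE4_545

/-!
# Row 17, T.7: the RG field of class E from the finite theorems (helper545)

* `PAok` : the pair alternative is sound
* `qgp_of` : `QG (LE ..)` from `QL3P`
* `expRGFP_of` : the RG field of class E from `BessFinX`, `RgFinX`
-/

set_option autoImplicit false

noncomputable section

open Set Filter Topology

namespace Crest.Agent.R017.RGB545

open Crest.Agent.R012 Crest.Agent.R012.Eis Crest.Agent.R012.LS2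
open Crest.Agent.R012.T411 (NCube)
open Crest.Agent.R017.B770
open Crest.Agent.R017.Prov71
open Crest.Agent.R017.XP699
open Crest.Agent.R017.ER911 (Ok Sh EF ExpS0)
open Crest.Agent.R017.RuleM545
open Crest.Agent.R017.XPD571
open Crest.Agent.R017.XS0298
open Crest.Agent.R017.Red848
open Crest.Agent.R017.PX764 (Dk)
open Crest.Agent.R017.SC777 (Full PremR PremP PremTB PremRG ExpRGy)

variable {Lam : Type*} {π : Lam → DPar} {h : ℝ → ℝ} {c₁ θ c μ K v : ℝ}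
  {PA : ℝ → ℝ → Multiset ℝ → ℝ → ℝ → ℝ → Prop}

/-- **the pair alternative is sound** (reduced data `π`): it bounds the two-level functional -/
def PAok (π : Lam → DPar) (h : ℝ → ℝ) (PA : ℝ → ℝ → Multiset ℝ → ℝ → ℝ → ℝ → Prop) : Prop :=
  ∀ (l β : ℝ) (u : List ℝ) (m a ρ : ℝ), 0 ≤ l → 0 ≤ β → Okl u m a →
    PA l β (u : Multiset ℝ) m a ρ → BG2 Dq (PQe π h) l β u (wt m a) ρ

/-- the merged family is a sound alternative -/
theorem DataE.paok_full (H : DataE θ π h c₁) :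
    PAok (rdE π) h fun l β Y m a ρ => Full θ (ex Dq (RNe π h)) (l + 2 * β) Y m a ρ := by
  intro l β u m a ρ hl hβ hu hF
  exact bg2_PQe hl hβ (H.bg_full (by linarith) hu hF)

theorem PAok.or {PA PA' : ℝ → ℝ → Multiset ℝ → ℝ → ℝ → ℝ → Prop} (h1 : PAok π h PA)
    (h2 : PAok π h PA') : PAok π h fun l β Y m a ρ => PA l β Y m a ρ ∨ PA' l β Y m a ρ := by
  intro l β u m a ρ hl hβ hu hF
  rcases hF with hF | hF
  · exact h1 l β u m a ρ hl hβ hu hF
  · exact h2 l β u m a ρ hl hβ hu hF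

/-- **the side conditions of the lines, class E** -/
theorem qgp_of (H : DataE θ π h c₁) (hPA : PAok (rdE π) h PA) {Y : Multiset ℝ} {m a E : ℝ}
    (hv : 0 ≤ v)
    (hQ : QL3P θ (ex Dq (RNe π h)) (ex Dq (S0e π h)) PA c μ K v Y m a E) :
    QG (LE (rdE π) h c μ) K v Y m a E := by
  refine ⟨hQ.e0, ?_⟩
  intro j θ' u' m' a' l hsh hm0 hm1 ha0 ha1 hl0 hl1 hG hz
  have hu : Okl u' m' a' := ⟨hsh.nn, hm0, ha0⟩
  have hY' : Ok (u' : Multiset ℝ) m' a' := ⟨fun y hy => hsh.nn y (Multiset.mem_coe.1 hy), hm0, ha0⟩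
  obtain ⟨n, hn⟩ : ∃ n, n = Y.sum + m + a := ⟨_, rfl⟩
  obtain ⟨n', hn'⟩ : ∃ n', n' = u'.sum + m' + a' := ⟨_, rfl⟩
  have hn2 : n' = (u' : Multiset ℝ).sum + m' + a' := by rw [Multiset.sum_coe]; exact hn'
  rw [← hn, ← hn'] at hG ⊢
  have hnn : n' ≤ n := by
    have := sh_sum_le hsh
    rw [Multiset.sum_coe] at this
    rw [hn, hn']; linarith
  have t0 : 0 ≤ θ'.1 0 := θ'.2.1 0
  have t1 : 0 ≤ θ'.1 1 := θ'.2.1 1
  have t2 : 0 ≤ θ'.1 2 := θ'.2.1 2
  have t3 : 0 ≤ θ'.1 3 := θ'.2.1 3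
  have t4 : 0 ≤ θ'.1 4 := θ'.2.1 4
  obtain ⟨β, hβ⟩ : ∃ x, x = θ'.1 0 := ⟨_, rfl⟩
  obtain ⟨g₂, hg₂⟩ : ∃ x, x = θ'.1 1 := ⟨_, rfl⟩
  obtain ⟨g, hg⟩ : ∃ x, x = θ'.1 2 := ⟨_, rfl⟩
  obtain ⟨t, ht⟩ : ∃ x, x = θ'.1 3 := ⟨_, rfl⟩
  obtain ⟨γ, hγ⟩ : ∃ x, x = θ'.1 4 := ⟨_, rfl⟩
  cases j with
  | ga =>
    have hG' : max (max (n' + (θ'.1 0 + θ'.1 4 - θ'.1 1) + θ'.1 2 - n)
        ((l + θ'.1 4 + 2 * θ'.1 1) - (v + n - K + 3 * θ'.1 3 + (θ'.1 0 + θ'.1 4 - θ'.1 1) + μ)))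
      (max ((l + θ'.1 4 + 2 * θ'.1 1) + 2 * (θ'.1 0 + θ'.1 4 - θ'.1 1) + 3 * θ'.1 3 - K - μ)
        (max (2 * ((l + θ'.1 4 + 2 * θ'.1 1) + (θ'.1 0 + θ'.1 4 - θ'.1 1)) - v)
          (θ'.1 1 - θ'.1 0))) ≤ 0 := hG
    rw [← hβ, ← hg₂, ← hg, ← ht, ← hγ] at hG'
    rw [← hβ] at t0
    rw [← hg₂] at t1
    rw [← hg] at t2
    rw [← ht] at t3
    rw [← hγ] at t4
    have g1 := (le_max_left _ _).trans ((le_max_left _ _).trans hG')
    have g2 := (le_max_right _ _).trans ((le_max_left _ _).trans hG')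
    have g3 := (le_max_left _ _).trans ((le_max_right _ _).trans hG')
    have g4 := (le_max_left _ _).trans ((le_max_right _ _).trans ((le_max_right _ _).trans hG'))
    have g5 := (le_max_right _ _).trans ((le_max_right _ _).trans ((le_max_right _ _).trans hG'))
    have hF := hQ.ga (u' : Multiset ℝ) m' a' n n' (l + γ + 2 * g₂) (β + γ - g₂) g t γ hsh hm0 hm1
      ha0 ha1 hn hn2 (by linarith) (by linarith) t2 t3 (by linarith) (by linarith) (by linarith)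
      (by linarith) t4 (by linarith) (by linarith)
    rw [show l + γ + 2 * g₂ + 2 * (β + γ - g₂) - 3 * γ = l + 2 * β by ring] at hF
    have h2 := bg2_PQe (π := rdE π) (h := h) hl0 t0 (H.bg_full (by linarith) hu hF)
    show BG2 Dq (PQe (rdE π) h) l (θ'.1 0) u' (wt m' a') (E + (θ'.1 3 - (v + n - 2 * K) / 3 - μ -
      θ'.1 2 - v + (l + θ'.1 4 + 2 * θ'.1 1) + (θ'.1 0 + θ'.1 4 - θ'.1 1) - 2 * θ'.1 4))
    rw [← hβ, ← hg₂, ← hg, ← ht, ← hγ]
    refine h2.mono (le_of_eq ?_)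
    ring
  | r2 =>
    have hG' : max (max (n' + (θ'.1 0 - θ'.1 1) + θ'.1 2 - n)
        ((l + 2 * θ'.1 1) - (v + n - K + 3 * θ'.1 3 + (θ'.1 0 - θ'.1 1) + μ)))
      (max ((l + 2 * θ'.1 1) + 2 * (θ'.1 0 - θ'.1 1) + 3 * θ'.1 3 - K - μ)
        (max (v - 2 * ((l + 2 * θ'.1 1) + (θ'.1 0 - θ'.1 1)))
          (max (θ'.1 1 - θ'.1 0) (θ'.1 1 - θ'.1 2)))) ≤ 0 := hG
    rw [← hβ, ← hg₂, ← hg, ← ht] at hG'
    rw [← hβ] at t0
    rw [← hg₂] at t1
    rw [← hg] at t2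
    rw [← ht] at t3
    have g1 := (le_max_left _ _).trans ((le_max_left _ _).trans hG')
    have g2 := (le_max_right _ _).trans ((le_max_left _ _).trans hG')
    have g3 := (le_max_left _ _).trans ((le_max_right _ _).trans hG')
    have g4 := (le_max_left _ _).trans ((le_max_right _ _).trans ((le_max_right _ _).trans hG'))
    have g5 := (le_max_left _ _).trans ((le_max_right _ _).trans ((le_max_right _ _).trans
      ((le_max_right _ _).trans hG')))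
    have g6 := (le_max_right _ _).trans ((le_max_right _ _).trans ((le_max_right _ _).trans
      ((le_max_right _ _).trans hG')))
    have hF := hQ.r2 (u' : Multiset ℝ) m' a' n n' (l + 2 * g₂) (β - g₂) g t g₂ hsh hm0 hm1
      ha0 ha1 hn hn2 (by linarith) (by linarith) t2 t3 (by linarith) (by linarith) (by linarith)
      (by linarith) t1 (by linarith) (by linarith)
    rw [show l + 2 * g₂ - 2 * g₂ = l by ring, show β - g₂ + g₂ = β by ring] at hF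
    have h2 := hPA l β u' m' a' _ hl0 t0 hu hF
    show BG2 Dq (PQe (rdE π) h) l (θ'.1 0) u' (wt m' a') (E + (θ'.1 3 - (v + n - 2 * K) / 3 - μ -
      θ'.1 2 - max v (max (l + 2 * θ'.1 1) (2 / 3 * (v + (l + 2 * θ'.1 1)))) +
        (l + 2 * θ'.1 1)))
    rw [← hβ, ← hg₂, ← hg, ← ht]
    refine h2.mono (le_of_eq ?_)
    ring
  | r3 =>
    have hG' : l - (v + n - K + μ) ≤ 0 := hG
    have hF := hQ.r3 (u' : Multiset ℝ) m' a' n n' hsh hm0 hm1 ha0 ha1 hn hn2 (by linarith)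
    have h2 := H.ex_full hl0 hY' (Full.down hF (by linarith : l ≤ v + n - K + μ))
    refine (funOK_RX (red_OK H.hP H.hE) H.hpu _).bg2 hl0 hu (h2.trans (le_of_eq ?_))
    show _ = E + -((n - n') +
      max 0 (max ((2 * v - K) / 3) ((3 * v - n - K) / 2)) + μ +
      ((v + n - K + μ) - l) / 3)
    ring
  | sq =>
    have hG' : max (l - K) (c - (n - n')) ≤ 0 := hG
    have g1 := (le_max_left _ _).trans hG'
    have g2 := (le_max_right _ _).trans hG'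
    have hF : Full θ (ex Dq (RNe π h)) l (u' : Multiset ℝ) m' a'
        (E - ((K - l) / 3 + (n - n') + (v + n - 2 * K) / 3)) := by
      refine ⟨fun Y'' κ' h1 h2 h3 _ => ?_, ?_⟩
      · have hs := sh_sum_le h1
        rw [Multiset.sum_coe] at hs
        have h4 := hQ.sq Y'' m' a' n (Y''.sum + m' + a') κ' (h1.trans hsh) hm0 hm1 ha0 ha1 hn rfl
          (by linarith) h2 (by linarith)
        linarith
      · have h4 := hQ.sqc (u' : Multiset ℝ) m' a' n n' hsh hm0 hm1 ha0 ha1 hn hn2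
        linarith
    have h2 := H.ex_full hl0 hY' hF
    refine (funOK_RX (red_OK H.hP H.hE) H.hpu _).bg2 hl0 hu (h2.trans (le_of_eq ?_))
    show _ = E + -((K - l) / 3 + (n - n') + (v + n - 2 * K) / 3)
    ring
  | dd =>
    have hG' : max (2 * μ - (n - n')) (max (c - (n - n')) (l - v - 2 * (n - n'))) ≤ 0 := hG
    have g1 := (le_max_left _ _).trans hG'
    have g3 := (le_max_right _ _).trans ((le_max_right _ _).trans hG')
    have hF : ex Dq (S0e π h) (v + 2 * (n - n')) (u' : Multiset ℝ) m' a' ≤ E + (n - n') - μ :=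
      hQ.dd (u' : Multiset ℝ) m' a' n n' hsh hm0 hm1 ha0 ha1 hn hn2 (by linarith)
    have h2 := ex_mono_l (Ψ := S0e π h) (funOK_S0e H.hP H.hE H.hpu) S0e_mono_l
      (κ := v + 2 * (n - n')) (κ' := l) (by linarith) (by linarith) hY'
    refine (funOK_S0x (red_OK H.hP H.hE) H.hpu).bg2 hl0 hu ?_
    show _ ≤ E + ((n - n') - μ)
    exact h2.trans (hF.trans (le_of_eq (by ring)))

/-- **the RG field of class E** -/
theorem expRGFP_of (H : DataE θ π h c₁) (hPA : PAok (rdE π) h PA)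
    (hB : ∀ c μ K d₀ : ℝ, 0 < c → 1000 * c ≤ μ → μ ≤ 1 → 0 < K → 2000 * c ≤ K → 0 ≤ d₀ → d₀ ≤ K →
      ∃ ε₀ : ℝ, 0 < ε₀ ∧ BessFinX (RX (fun _ => NCube) (rdE π) h)
        (fun lam => S0K Dk (rdE π lam) h) (LE (rdE π) h c μ) ε₀ K c d₀)
    (hR : ∀ c μ K v d₀ : ℝ, 0 < c → 1000 * c ≤ μ → μ ≤ 1 → 0 < K → 2000 * c ≤ K →
      3 * v + 300 * c ≤ 2 * K → K + 200 * c ≤ 2 * v → 0 ≤ d₀ → d₀ ≤ K →
      ∃ ε₀ : ℝ, 0 < ε₀ ∧ RgFinX (fun lam => S0K Dk (rdE π lam) h) (LE (rdE π) h c μ) ε₀ K v c d₀) :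
    ExpRGFP θ (ex Dq (RNe π h)) (ex Dq (SPe π h)) (ex Dq (S0e π h)) PA where
  toExpS0 := ProvS986.s0_E H.hpu H.hP H.hE
  rgf := fun δ hδ => by
    obtain ⟨e, he⟩ : ∃ e, e = min δ 1 := ⟨_, rfl⟩
    have he0 : 0 < e := he ▸ lt_min hδ one_pos
    have he1 : e ≤ 1 := he ▸ min_le_right _ _
    have heδ : e ≤ δ := he ▸ min_le_left _ _
    refine ⟨e / 2000, e / 2, by linarith, by linarith, by linarith, ?_⟩
    exact expRGy_of H (by linarith) (fun K v Y m a E hv hq => qgp_of H hPA hv hq)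
      (fun K d₀ k1 k2 k3 k4 => hB _ _ K d₀ (by linarith) (by linarith) (by linarith) k1 k2 k3 k4)
      (fun K v d₀ k1 k2 k3 k4 k5 k6 =>
        hR _ _ K v d₀ (by linarith) (by linarith) (by linarith) k1 k2 k3 k4 k5 k6)

end Crest.Agent.R017.RGB545
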