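import Crest.Agent.R017.RXl_848
import Crest.Agent.R017.RLdC_48

/-!
# Row 17, T.7 (RG rule, exceptional class): the leaf of the R-side from its components (helper829)

* `RLeafX.and`, `RLeafX.imp`, `RLeafX.comap` : the leaf for a conjunction of numbers, from stronger
  numbers, from a subfamily of the lines
* `RLeafXL.and`, `RLeafXL.imp`, `RLeafXL.comap`, `RLeafX.toL` : the same with the constant `Λ`
* `rleafX_D`, `rleafXL_of` : the inputs give the leaf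
-/

set_option autoImplicit false

noncomputable section

open Complex
open scoped ComplexConjugate

namespace Crest.Agent.R017.RLdX829

open Crest.Agent.R012 Crest.Agent.R012.Eis Crest.Agent.R012.LS2 Crest.Agent.R012.Gauss880
open Crest.Agent.R017.CM106 Crest.Agent.R017.HP842 Crest.Agent.R017.FE47
open Crest.Agent.R017.End699 hiding pw
open Crest.Agent.R017.B770
open Crest.Agent.R017.Prov71
open Crest.Agent.R017.Leg381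
open Crest.Agent.R017.RG64
open Crest.Agent.R017.RGB545 (Line Th TK rbx)
open Crest.Agent.R017.XP699 (LL Chd hcost cst)
open Crest.Agent.R017.RX298 (xs)
open Crest.Agent.R017.RXk848
open Crest.Agent.R017.RLD381
open Crest.Agent.R017.LBu180 (SqQ)
open Crest.Agent.R017.CubP813 (alr Qc)
open Crest.Agent.R017.C70 (CbF)

variable {Lam ι ι' : Type*} {p : ℕ}

/-- monotonicity of the relation -/
lemma chd_mono {r r' b b' : ℝ} (hr : r ≤ r') (hb : b ≤ b') {p' p : Pq}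
    (h : Chd Dq hcost r b p' p) : Chd Dq hcost r' b' p' p where
  kind := h.kind
  lump := h.lump
  len0 := h.len0
  len := h.len.trans (by linarith)
  s1 := h.s1
  s2 := h.s2.trans (mul_le_mul_of_nonneg_left hb (by rw [Dq_s2]; positivity))

/-- monotonicity of the premises -/
lemma lnP_mono {L : ι → Line Lam p} {lam : Lam} {K ε M r r' bm bm' X n₁ v₁ Bd : ℝ}
    {base : List Pq} (hr : r ≤ r') (hb : bm ≤ bm')
    (h : LnP L lam K ε M r' bm' X n₁ v₁ Bd base) : LnP L lam K ε M r bm X n₁ v₁ Bd base :=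
  fun j θ l ps' h0 h1 h2 h3 h4 h5 =>
    h j θ l ps' h0 h1 (h2.imp fun _ _ hc => chd_mono hr hb hc) h3 h4 h5

/-- the premises for a subfamily -/
lemma lnP_comap {L : ι → Line Lam p} (f : ι' → ι) {lam : Lam} {K ε M r bm X n₁ v₁ Bd : ℝ}
    {base : List Pq} (h : LnP L lam K ε M r bm X n₁ v₁ Bd base) :
    LnP (fun i => L (f i)) lam K ε M r bm X n₁ v₁ Bd base :=
  fun j θ l ps' h0 h1 h2 h3 h4 h5 => h (f j) θ l ps' h0 h1 h2 h3 h4 h5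

variable {π : Lam → DPar} {h : ℝ → ℝ} {L : ι → Line Lam p} {K c b d₀ y : ℝ}

/-- the leaf from a subfamily of the lines -/
theorem RLeafX.comap {RR : LBp → (Eis → ℂ) → ℝ → Prop} {L' : ι' → Line Lam p} (f : ι' → ι)
    (hf : ∀ i, L' i = L (f i)) (H : RLeafX π h RR L' K c b d₀ y) :
    RLeafX π h RR L K c b d₀ y := by
  have hL : L' = fun i => L (f i) := funext hf
  subst hL
  intro lam N c₀ hc₀
  obtain ⟨B₀, hB₀, H⟩ := H lam N c₀ hc₀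
  refine ⟨B₀, hB₀, fun ε M hε hM => ?_⟩
  obtain ⟨J₀, δ₀, hJ₀, hδ₀, H⟩ := H ε M hε hM
  refine ⟨J₀, δ₀, hJ₀, hδ₀, fun δ Jn Aw Cw R η S h1 h2 h3 h4 h5 h6 h7 h8 h9 => ?_⟩
  obtain ⟨C, r, X₁, hC, hr, H⟩ := H δ Jn Aw Cw R η S h1 h2 h3 h4 h5 h6 h7 h8 h9
  refine ⟨C, r, X₁, hC, hr, ?_⟩
  intro X hX hX1 ps₀ hl hlen hs2 hlmp q ps Lv N₀ N₁ hF hq hqn hS Bd Ma Ml hBd hMa hMl hLn hNS hNL
  exact H X hX hX1 ps₀ hl hlen hs2 hlmp q ps Lv N₀ N₁ hF hq hqn hS Bd Ma Ml hBd hMa hMl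
    (fun t => lnP_comap f (hLn t)) hNS hNL

/-- the leaf from stronger numbers -/
theorem RLeafX.imp {R₁ RR : LBp → (Eis → ℂ) → ℝ → Prop}
    (hi : ∀ (q : LBp) (α : Eis → ℂ) (E : ℝ), R₁ q α E → RR q α E)
    (H : RLeafX π h R₁ L K c b d₀ y) : RLeafX π h RR L K c b d₀ y := by
  intro lam N c₀ hc₀
  obtain ⟨B₀, hB₀, H⟩ := H lam N c₀ hc₀
  refine ⟨B₀, hB₀, fun ε M hε hM => ?_⟩
  obtain ⟨J₀, δ₀, hJ₀, hδ₀, H⟩ := H ε M hε hM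
  refine ⟨J₀, δ₀, hJ₀, hδ₀, fun δ Jn Aw Cw R η S h1 h2 h3 h4 h5 h6 h7 h8 h9 => ?_⟩
  obtain ⟨C, r, X₁, hC, hr, H⟩ := H δ Jn Aw Cw R η S h1 h2 h3 h4 h5 h6 h7 h8 h9
  refine ⟨C, r, X₁, hC, hr, ?_⟩
  intro X hX hX1 ps₀ hl hlen hs2 hlmp q ps Lv N₀ N₁ hF hq hqn hS Bd Ma Ml hBd hMa hMl hLn hNS hNL
  exact hi _ _ _ (H X hX hX1 ps₀ hl hlen hs2 hlmp q ps Lv N₀ N₁ hF hq hqn hS Bd Ma Ml hBd hMa hMl
    hLn hNS hNL)

/-- monotonicity of the number of the leaf in its constants -/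
lemma num_mono {C C' X ε H J J' B E Q : ℝ} (hC : 0 ≤ C) (hCC : C ≤ C') (hX : 1 ≤ X) (hH : 1 ≤ H)
    (hJ : J ≤ J') (hB : 0 ≤ B) (hE : 0 ≤ E) (hQ : 0 ≤ Q) :
    C * X ^ ε * H ^ J * B * E + C * X ^ ε * X ^ (-(c / 2)) * Q ≤
      C' * X ^ ε * H ^ J' * B * E + C' * X ^ ε * X ^ (-(c / 2)) * Q := by
  have hX0 : 0 < X := by linarith
  have h1 : H ^ J ≤ H ^ J' := Real.rpow_le_rpow_of_exponent_le hH hJ
  have h2 : 0 ≤ H ^ J := (Real.rpow_nonneg (by linarith) _)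
  have h3 : 0 ≤ X ^ ε := Real.rpow_nonneg hX0.le _
  have h4 : 0 ≤ X ^ (-(c / 2)) := Real.rpow_nonneg hX0.le _
  have h5 : 0 ≤ C' := hC.trans hCC
  have h6 : 0 ≤ H ^ J' := h2.trans h1
  refine add_le_add ?_ ?_
  · refine mul_le_mul_of_nonneg_right (mul_le_mul_of_nonneg_right ?_ hB) hE
    exact mul_le_mul (mul_le_mul_of_nonneg_right hCC h3) h1 h2 (mul_nonneg h5 h3)
  · exact mul_le_mul_of_nonneg_right (mul_le_mul_of_nonneg_right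
      (mul_le_mul_of_nonneg_right hCC h3) h4) hQ

/-- the leaf for a conjunction -/
theorem RLeafX.and {R₁ R₂ : LBp → (Eis → ℂ) → ℝ → Prop} (m₁ : MonoR R₁) (m₂ : MonoR R₂)
    (H₁ : RLeafX π h R₁ L K c b d₀ y) (H₂ : RLeafX π h R₂ L K c b d₀ y) :
    RLeafX π h (fun q α E => R₁ q α E ∧ R₂ q α E) L K c b d₀ y := by
  intro lam N c₀ hc₀
  obtain ⟨B₁, hB₁, H₁⟩ := H₁ lam N c₀ hc₀
  obtain ⟨B₂, hB₂, H₂⟩ := H₂ lam N c₀ hc₀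
  refine ⟨max B₁ B₂, le_max_of_le_left hB₁, fun ε M hε hM => ?_⟩
  obtain ⟨J₁, δ₁, hJ₁, hδ₁, H₁⟩ := H₁ ε M hε hM
  obtain ⟨J₂, δ₂, hJ₂, hδ₂, H₂⟩ := H₂ ε M hε hM
  refine ⟨max J₁ J₂, min δ₁ δ₂, le_max_of_le_left hJ₁, lt_min hδ₁ hδ₂,
    fun δ Jn Aw Cw R η S h1 h2 h3 h4 h5 h6 h7 h8 h9 => ?_⟩
  obtain ⟨C₁, r₁, X₁, hC₁, hr₁, H₁⟩ := H₁ δ Jn Aw Cw R η S h1 (h2.trans (min_le_left _ _))
    ((le_max_left _ _).trans h3) h4 h5 h6 h7 h8 h9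
  obtain ⟨C₂, r₂, X₂, hC₂, hr₂, H₂⟩ := H₂ δ Jn Aw Cw R η S h1 (h2.trans (min_le_right _ _))
    ((le_max_right _ _).trans h3) h4 h5 h6 h7 h8 h9
  refine ⟨max C₁ C₂, max r₁ r₂, max X₁ X₂, le_max_of_le_left hC₁, le_max_of_le_left hr₁, ?_⟩
  intro X hX hX1 ps₀ hl hlen hs2 hlmp q ps Lv N₀ N₁ hF hq hqn hS Bd Ma Ml hBd hMa hMl hLn hNS hNL
  have hX1' : (1 : ℝ) ≤ X := by linarith
  have hX0 : 0 < X := by linarith
  have hHt : 1 ≤ Ht ps * Ht (natl ps₀) := one_le_mul_of_one_le_of_one_le (one_le_Ht _) (one_le_Ht _)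
  have hQ : 0 ≤ Ma + Ml := by linarith
  have hBB : 0 ≤ X ^ bX K c d₀ y (LF ps / Real.log X) (Lv / Real.log X) + Bd :=
    add_nonneg (Real.rpow_nonneg hX0.le _) (by linarith)
  have hE := (Real.exp_pos (2 * LF ps)).le
  have k₁ : C₁ * X ^ B₁ ≤ max C₁ C₂ * X ^ max B₁ B₂ :=
    mul_le_mul (le_max_left _ _) (Real.rpow_le_rpow_of_exponent_le hX1' (le_max_left _ _))
      (Real.rpow_nonneg hX0.le _) (le_max_of_le_left hC₁)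
  have k₂ : C₂ * X ^ B₂ ≤ max C₁ C₂ * X ^ max B₁ B₂ :=
    mul_le_mul (le_max_right _ _) (Real.rpow_le_rpow_of_exponent_le hX1' (le_max_right _ _))
      (Real.rpow_nonneg hX0.le _) (le_max_of_le_left hC₁)
  constructor
  · exact m₁ _ _ _ _ (Real.rpow_nonneg hX0.le _) (Real.exp_pos _).le (Real.rpow_nonneg hX0.le _) (num_mono (c := c) hC₁ (le_max_left _ _) hX1' hHt (le_max_left _ _) hBB hE hQ)
      (H₁ X hX ((le_max_left _ _).trans hX1) ps₀ hl hlen hs2 hlmp q ps Lv N₀ N₁ hF hq hqn hS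
        Bd Ma Ml hBd hMa hMl (fun t => lnP_mono (le_max_left _ _) k₁ (hLn t)) hNS hNL)
  · exact m₂ _ _ _ _ (Real.rpow_nonneg hX0.le _) (Real.exp_pos _).le (Real.rpow_nonneg hX0.le _) (num_mono (c := c) hC₂ (le_max_right _ _) hX1' hHt (le_max_right _ _) hBB hE hQ)
      (H₂ X hX ((le_max_right _ _).trans hX1) ps₀ hl hlen hs2 hlmp q ps Lv N₀ N₁ hF hq hqn hS
        Bd Ma Ml hBd hMa hMl (fun t => lnP_mono (le_max_right _ _) k₂ (hLn t)) hNS hNL)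

/-! ### with the constant `Λ` -/

/-- a leaf is a leaf with `Λ` -/
theorem RLeafX.toL {RR : LBp → (Eis → ℂ) → ℝ → Prop} (H : RLeafX π h RR L K c b d₀ y) :
    RLeafXL π h (fun _ => RR) L K c b d₀ y := by
  intro lam N c₀ hc₀
  obtain ⟨B₀, hB₀, H⟩ := H lam N c₀ hc₀
  refine ⟨B₀, hB₀, fun ε M hε hM => ?_⟩
  obtain ⟨J₀, δ₀, hJ₀, hδ₀, H⟩ := H ε M hε hM
  refine ⟨J₀, δ₀, hJ₀, hδ₀, fun δ Jn Aw Cw R η S h1 h2 h3 h4 h5 h6 h7 h8 h9 => ?_⟩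
  obtain ⟨C, r, X₁, hC, hr, H⟩ := H δ Jn Aw Cw R η S h1 h2 h3 h4 h5 h6 h7 h8 h9
  refine ⟨C, r, X₁, 1, hC, hr, le_rfl, ?_⟩
  intro X hX hX1 ps₀ hl hlen hs2 hlmp q ps Lv N₀ N₁ hF hq hqn hS Bd Ma Ml hBd hMa hMl hLn hNS hNL
  exact H X hX hX1 ps₀ hl hlen hs2 hlmp q ps Lv N₀ N₁ hF hq hqn hS Bd Ma Ml hBd hMa hMl
    hLn hNS hNL

/-- the leaf with `Λ` from a subfamily of the lines -/
theorem RLeafXL.comap {RR : ℝ → LBp → (Eis → ℂ) → ℝ → Prop} {L' : ι' → Line Lam p} (f : ι' → ι)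
    (hf : ∀ i, L' i = L (f i)) (H : RLeafXL π h RR L' K c b d₀ y) :
    RLeafXL π h RR L K c b d₀ y := by
  have hL : L' = fun i => L (f i) := funext hf
  subst hL
  intro lam N c₀ hc₀
  obtain ⟨B₀, hB₀, H⟩ := H lam N c₀ hc₀
  refine ⟨B₀, hB₀, fun ε M hε hM => ?_⟩
  obtain ⟨J₀, δ₀, hJ₀, hδ₀, H⟩ := H ε M hε hM
  refine ⟨J₀, δ₀, hJ₀, hδ₀, fun δ Jn Aw Cw R η S h1 h2 h3 h4 h5 h6 h7 h8 h9 => ?_⟩
  obtain ⟨C, r, X₁, Λ, hC, hr, hΛ, H⟩ := H δ Jn Aw Cw R η S h1 h2 h3 h4 h5 h6 h7 h8 h9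
  refine ⟨C, r, X₁, Λ, hC, hr, hΛ, ?_⟩
  intro X hX hX1 ps₀ hl hlen hs2 hlmp q ps Lv N₀ N₁ hF hq hqn hS Bd Ma Ml hBd hMa hMl hLn hNS hNL
  exact H X hX hX1 ps₀ hl hlen hs2 hlmp q ps Lv N₀ N₁ hF hq hqn hS Bd Ma Ml hBd hMa hMl
    (fun t => lnP_comap f (hLn t)) hNS hNL

/-- the leaf with `Λ` from stronger numbers -/
theorem RLeafXL.imp {R₁ RR : ℝ → LBp → (Eis → ℂ) → ℝ → Prop}
    (hi : ∀ (Λ : ℝ) (q : LBp) (α : Eis → ℂ) (E : ℝ), 1 ≤ Λ → R₁ Λ q α E → RR Λ q α E)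
    (H : RLeafXL π h R₁ L K c b d₀ y) : RLeafXL π h RR L K c b d₀ y := by
  intro lam N c₀ hc₀
  obtain ⟨B₀, hB₀, H⟩ := H lam N c₀ hc₀
  refine ⟨B₀, hB₀, fun ε M hε hM => ?_⟩
  obtain ⟨J₀, δ₀, hJ₀, hδ₀, H⟩ := H ε M hε hM
  refine ⟨J₀, δ₀, hJ₀, hδ₀, fun δ Jn Aw Cw R η S h1 h2 h3 h4 h5 h6 h7 h8 h9 => ?_⟩
  obtain ⟨C, r, X₁, Λ, hC, hr, hΛ, H⟩ := H δ Jn Aw Cw R η S h1 h2 h3 h4 h5 h6 h7 h8 h9
  refine ⟨C, r, X₁, Λ, hC, hr, hΛ, ?_⟩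
  intro X hX hX1 ps₀ hl hlen hs2 hlmp q ps Lv N₀ N₁ hF hq hqn hS Bd Ma Ml hBd hMa hMl hLn hNS hNL
  exact hi _ _ _ _ hΛ (H X hX hX1 ps₀ hl hlen hs2 hlmp q ps Lv N₀ N₁ hF hq hqn hS Bd Ma Ml hBd
    hMa hMl hLn hNS hNL)

set_option maxHeartbeats 800000 in
/-- the leaf with `Λ` for a conjunction -/
theorem RLeafXL.and {R₁ R₂ : ℝ → LBp → (Eis → ℂ) → ℝ → Prop} (m₁ : MonoL R₁) (m₂ : MonoL R₂)
    (H₁ : RLeafXL π h R₁ L K c b d₀ y) (H₂ : RLeafXL π h R₂ L K c b d₀ y) :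
    RLeafXL π h (fun Λ q α E => R₁ Λ q α E ∧ R₂ Λ q α E) L K c b d₀ y := by
  intro lam N c₀ hc₀
  obtain ⟨B₁, hB₁, H₁⟩ := H₁ lam N c₀ hc₀
  obtain ⟨B₂, hB₂, H₂⟩ := H₂ lam N c₀ hc₀
  refine ⟨max B₁ B₂, le_max_of_le_left hB₁, fun ε M hε hM => ?_⟩
  obtain ⟨J₁, δ₁, hJ₁, hδ₁, H₁⟩ := H₁ ε M hε hM
  obtain ⟨J₂, δ₂, hJ₂, hδ₂, H₂⟩ := H₂ ε M hε hM
  refine ⟨max J₁ J₂, min δ₁ δ₂, le_max_of_le_left hJ₁, lt_min hδ₁ hδ₂,
    fun δ Jn Aw Cw R η S h1 h2 h3 h4 h5 h6 h7 h8 h9 => ?_⟩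
  obtain ⟨C₁, r₁, X₁, Λ₁, hC₁, hr₁, hΛ₁, H₁⟩ := H₁ δ Jn Aw Cw R η S h1
    (h2.trans (min_le_left _ _)) ((le_max_left _ _).trans h3) h4 h5 h6 h7 h8 h9
  obtain ⟨C₂, r₂, X₂, Λ₂, hC₂, hr₂, hΛ₂, H₂⟩ := H₂ δ Jn Aw Cw R η S h1
    (h2.trans (min_le_right _ _)) ((le_max_right _ _).trans h3) h4 h5 h6 h7 h8 h9
  refine ⟨max C₁ C₂, max r₁ r₂, max X₁ X₂, max Λ₁ Λ₂, le_max_of_le_left hC₁,
    le_max_of_le_left hr₁, le_max_of_le_left hΛ₁, ?_⟩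
  intro X hX hX1 ps₀ hl hlen hs2 hlmp q ps Lv N₀ N₁ hF hq hqn hS Bd Ma Ml hBd hMa hMl hLn hNS hNL
  have hX1' : (1 : ℝ) ≤ X := by linarith
  have hX0 : 0 < X := by linarith
  have hHt : 1 ≤ Ht ps * Ht (natl ps₀) := one_le_mul_of_one_le_of_one_le (one_le_Ht _) (one_le_Ht _)
  have hQ : 0 ≤ Ma + Ml := by linarith
  have hBB : 0 ≤ X ^ bX K c d₀ y (LF ps / Real.log X) (Lv / Real.log X) + Bd :=
    add_nonneg (Real.rpow_nonneg hX0.le _) (by linarith)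
  have hE := (Real.exp_pos (2 * LF ps)).le
  have k₁ : C₁ * X ^ B₁ ≤ max C₁ C₂ * X ^ max B₁ B₂ :=
    mul_le_mul (le_max_left _ _) (Real.rpow_le_rpow_of_exponent_le hX1' (le_max_left _ _))
      (Real.rpow_nonneg hX0.le _) (le_max_of_le_left hC₁)
  have k₂ : C₂ * X ^ B₂ ≤ max C₁ C₂ * X ^ max B₁ B₂ :=
    mul_le_mul (le_max_right _ _) (Real.rpow_le_rpow_of_exponent_le hX1' (le_max_right _ _))
      (Real.rpow_nonneg hX0.le _) (le_max_of_le_left hC₁)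
  constructor
  · exact m₁ _ _ _ _ _ _ (Real.rpow_nonneg hX0.le _) (Real.exp_pos _).le
      (Real.rpow_nonneg hX0.le _) (le_max_left _ _)
      (num_mono (c := c) hC₁ (le_max_left _ _) hX1' hHt (le_max_left _ _) hBB hE hQ)
      (H₁ X hX ((le_max_left _ _).trans hX1) ps₀ hl hlen hs2 hlmp q ps Lv N₀ N₁ hF hq hqn hS
        Bd Ma Ml hBd hMa hMl (fun t => lnP_mono (le_max_left _ _) k₁ (hLn t)) hNS hNL)
  · exact m₂ _ _ _ _ _ _ (Real.rpow_nonneg hX0.le _) (Real.exp_pos _).le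
      (Real.rpow_nonneg hX0.le _) (le_max_right _ _)
      (num_mono (c := c) hC₂ (le_max_right _ _) hX1' hHt (le_max_right _ _) hBB hE hQ)
      (H₂ X hX ((le_max_right _ _).trans hX1) ps₀ hl hlen hs2 hlmp q ps Lv N₀ N₁ hF hq hqn hS
        Bd Ma Ml hBd hMa hMl (fun t => lnP_mono (le_max_right _ _) k₂ (hLn t)) hNS hNL)

/-! ### the inputs give the leaf -/

/-- the divisor cut is the gain cut -/
theorem rleafX_D : RLeafX π h (fun q _ _ => q.D ≤ q.E0) L K c b d₀ y := by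
  intro lam N c₀ hc₀
  refine ⟨0, le_rfl, fun ε M hε hM => ⟨0, 1, le_rfl, one_pos, ?_⟩⟩
  intro δ Jn Aw Cw R η S h1 h2 h3 h4 h5 h6 h7 h8 h9
  refine ⟨0, 0, 0, le_rfl, le_rfl, ?_⟩
  intros
  exact le_rfl

/-- **the inputs give the leaf** (exceptional class) -/
theorem rleafXL_of {w W : ℝ → ℝ} {N : ℕ} {M : ℝ} {F : ℕ → ℝ → ℂ}
    (hRc : RLeafX π h (BeAll (NRc N M F)) L K c b d₀ y)
    (hRl : RLeafX π h (BeAll (NRl N M F)) L K c b d₀ y)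
    (hRo : ∀ v ∈ ({w, W} : Set (ℝ → ℝ)), RLeafXL π h (fun Λ => BeAll (NRo v Λ)) L K c b d₀ y)
    (hSq : RLeafX π h (BeAll (NSqC W)) L K c b d₀ y) :
    RLeafXL π h (RRC w W N M F) L K c b d₀ y := by
  have mc := (monoR_be (mono_NRc N M F)).and (monoR_be (mono_NRl N M F))
  have mo := (monoL_NRo w).and (monoL_NRo W)
  have mq := (monoR_be (mono_NSqC W)).toL
  refine RLeafXL.and (R₁ := fun _ p _ _ => p.D ≤ p.E0) (fun _ _ _ _ _ _ _ _ _ _ _ h => h)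
    (mc.toL.and (mo.and mq)) (RLeafX.toL rleafX_D) ?_
  refine RLeafXL.and mc.toL (mo.and mq) (RLeafX.toL (RLeafX.and (monoR_be (mono_NRc N M F))
    (monoR_be (mono_NRl N M F)) hRc hRl)) ?_
  exact RLeafXL.and mo mq (RLeafXL.and (monoL_NRo w) (monoL_NRo W) (hRo w (by simp))
    (hRo W (by simp))) (RLeafX.toL hSq)

end Crest.Agent.R017.RLdX829
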