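import Crest.Agent.R017.SqB_791

/-!
# Row 17, T.5 / T.7 (helper791): the smooth squares of the subsequences `a ∣ n`, `(n, b) = 1`

* `alr` : the subsequence (literally the text of `CubP_813` and `LBh_48`)
* `sq_alr`, `sq_alrX` : the squares of the windowed twists of the subsequences at the data of the
  leaf, any scale `X ^ K'`; the length of the children in the line is shortened by `log (nm a)`
-/

set_option autoImplicit false
set_option maxHeartbeats 400000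

noncomputable section

open Complex
open scoped ComplexConjugate

namespace Crest.Agent.R017.SqB791

open Crest.Agent.R012 Crest.Agent.R012.Eis Crest.Agent.R012.LS2 Crest.Agent.R012.Gauss880
open Crest.Agent.R012.MC (Wgt)
open Crest.Agent.R012.Weight600 (osc pw)
open Crest.Agent.R017.CM106 Crest.Agent.R017.FE47
open Crest.Agent.R017.B770
open Crest.Agent.R017.Prov71
open Crest.Agent.R017.HP842 (sqc)
open Crest.Agent.R017.TP320 (tw)
open Crest.Agent.R017.NtC320 (gC)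
open Crest.Agent.R017.XHB411 (tl)
open Crest.Agent.R017.XRG106 (Rl)
open Crest.Agent.R017.XP699 (LL Chd cst hcost)
open Crest.Agent.R017.Leg381 (Pf alF LF natl)
open Crest.Agent.R017.Win813 (WK iA iA_nonneg)
open Crest.Agent.R017.RGw813 (bt T9)
open Crest.Agent.R017.RG64 (SbL Ht one_le_Ht)
open Crest.Agent.R017.RX298 (xs rp rpB Lg SbL_rp LF_rp rp_length)
open Crest.Agent.R017.LBu180 (SqQ)
open Crest.Agent.R017.LBQ791 (SQnQ)
open Crest.Agent.R017.RlB791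
open Crest.Agent.R017.R3Q791

open Classical in
/-- `α` restricted to `a ∣ n`, `(n, b) = 1` -/
def alr (α : Eis → ℂ) (a b : Eis) (n : Eis) : ℂ := if a ∣ n ∧ IsCoprime n b then α n else 0

lemma gC_alr {α : Eis → ℂ} (h : FS α) (a b : Eis) : gC α 1 a b (tw 0 0) = alr α a b := by
  classical
  funext m
  unfold NtC320.gC alr
  by_cases h1 : a ∣ m ∧ IsCoprime m b
  · rw [if_pos h1, if_pos h1, one_mul]
    by_cases h0 : α m = 0
    · rw [h0, zero_mul]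
    have hm : m ≠ 0 := (h.prim m h0).ne_zero
    have h2 : tw 0 0 m = 1 := by
      unfold TP320.tw
      simp
    rw [h2, mul_one]
  · rw [if_neg h1, if_neg h1]

lemma FS_bt_pw {φ : ℝ → ℝ} {α : Eis → ℂ} (h : FS α) (p : ℕ × ℕ) (t : ℝ) :
    FS (fun n => bt φ α p n * pw t (nm n)) := by
  have h1 : FS (bt φ α p) := RGw813.FS_bt h _ _
  exact
    { fin := h1.fin.subset fun n hn h0 => hn (by
        have h0' : bt φ α p n = 0 := h0
        show bt φ α p n * pw t (nm n) = 0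
        rw [h0', zero_mul])
      prim := fun m hm => h1.prim m (left_ne_zero_of_mul hm) }

/-- **from the line to the hypothesis of the moments**, shortened lists -/
lemma line_hypL {Q' : Eis → Prop} {P : DPar} {h : ℝ → ℝ} {X r b ε M K' T Bd c₀ C S L : ℝ}
    {ps₀ : List Pq} {ps : List Pf} {N : ℕ} (hX : 3 ≤ X) (hC : 1 ≤ C) (hM : 0 ≤ M) (hBd : 0 ≤ Bd)
    (hK : 0 ≤ K') (hr : C + S ≤ r) (hb : C * Real.exp S * X ^ c₀ ≤ b)
    (hCε : C ≤ ε * Real.log X) (hCl : Real.log C ≤ ε * Real.log X) (hN : ps.length ≤ N)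
    (hs : SbL S ps ps₀) (hz : ∀ q ∈ ps₀, Dq.len q ≤ c₀ * Real.log X)
    (H : LineB Q' P h X r b ε M K' T Bd ps₀ L) :
    ∀ (ps' : List Pq) (W : ℝ), 1 ≤ W → List.Forall₂ (Rl C W) ps' (ps.map Prod.fst) →
      tl Dq ps' ≤ L + C → RQ Q' h (Real.log (C * X ^ K')) (ps'.map (Pq.pc P)) ≤
        (Bd * (Ht ps * Ht (natl ps₀)) ^ M * X ^ T) * Real.exp (tl Dq ps') *
          W ^ (2 * ((N : ℝ) * M / 2)) := by
  intro ps' W hW hR hl
  have hX0 : 0 < X := by linarith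
  have hX1 : 1 < X := by linarith
  have hl0 : 0 < Real.log X := Real.log_pos hX1
  have h1 := chdL_mono hr hb (chdL_of_rl hX0 (by linarith) hR hs hz)
  have hlog : Real.log (C * X ^ K') = Real.log C + K' * Real.log X := by
    rw [Real.log_mul (by linarith) (by positivity), Real.log_rpow hX0]
  have h2 := H (Real.log (C * X ^ K')) ps' (by
      rw [hlog]
      have := Real.log_nonneg hC
      positivity) (by rw [hlog]; linarith) h1 (by
      show tl Dq ps' ≤ _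
      linarith)
  rw [rpow_log hX1] at h2
  have h3 := cst_rl_pow hW hM hR hs hN
  refine h2.trans ?_
  have h4 : LL Dq ps' = tl Dq ps' := rfl
  rw [h4]
  have h5 : 0 ≤ X ^ T * Real.exp (tl Dq ps') := by positivity
  calc Bd * cst hcost ps' ps₀ ^ M * (X ^ T * Real.exp (tl Dq ps'))
      ≤ Bd * (W ^ (2 * ((N : ℝ) * M / 2)) * (Ht ps * Ht (natl ps₀)) ^ M) *
        (X ^ T * Real.exp (tl Dq ps')) := by gcongr
    _ = _ := by ring

lemma alr_final {G C1 C2 Dn Xe Xε P1 B HM XT L na : ℝ} (hG : 0 ≤ G) (hC1 : 0 ≤ C1)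
    (hGC : G * C1 ≤ C2) (hD : Dn * Xe ≤ Xε) (hDn : 0 ≤ Dn) (hXe : 0 ≤ Xe) (hP : 0 ≤ P1)
    (hB : 0 ≤ B) (hHM : 0 ≤ HM) (hXT : 0 ≤ XT) (hna : 0 < na) :
    G * (C1 * Dn * Xe * P1 * (B * HM * XT) * (Real.exp L / na)) ≤
      C2 * Xε * HM * B * (XT * Real.exp L / na) * P1 := by
  have hL := Real.exp_pos L
  have h0 : 0 ≤ Xε := (mul_nonneg hDn hXe).trans hD
  have hC2 : 0 ≤ C2 := (mul_nonneg hG hC1).trans hGC
  calc G * (C1 * Dn * Xe * P1 * (B * HM * XT) * (Real.exp L / na))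
      = (G * C1) * (Dn * Xe) * (P1 * (B * HM * XT) * (Real.exp L / na)) := by ring
    _ ≤ C2 * Xε * (P1 * (B * HM * XT) * (Real.exp L / na)) := by gcongr
    _ = _ := by ring

/-- **the smooth squares of the subsequences `a ∣ n`, `(n, b) = 1` of a flagged list** from a line of
slope 1 -/
theorem sq_alr {h : ℝ → ℝ} {c : ℝ} (hpu : PU h c) {ω : ℝ → ℝ} (hω : Wgt ω) (N : ℕ)
    {c₀ ε M : ℝ} (hc₀ : 1 ≤ c₀) (hε : 0 < ε) (hM : 0 ≤ M) :
    ∃ J₀ δ₀ : ℝ, 0 ≤ J₀ ∧ 0 < δ₀ ∧ ∀ (δ : ℝ) (Jn Aw : ℕ) (Cw R η S : ℝ), 0 ≤ δ → δ ≤ δ₀ →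
    J₀ ≤ Jn → Jn + 2 ≤ Aw → 0 ≤ Cw → 0 < η → η ≤ 1 → 0 ≤ S →
    ∃ C r X₁ : ℝ, 0 ≤ C ∧ 0 ≤ r ∧ ∀ X : ℝ, 3 ≤ X → X₁ ≤ X → ∀ P : DPar, P.OK →
    ∀ ps₀ : List Pq, ps₀.length ≤ N → (∀ q ∈ ps₀, Dq.len q ≤ c₀ * Real.log X) →
    ∀ (q : Eis) (ps : List Pf), q ≠ 0 → (nm q : ℝ) ≤ X ^ c₀ → SbL S ps ps₀ →
    ∀ (Q : ℕ × ℕ → Eis → Prop) (Q' : Eis → Prop),
    (∀ p ∈ T9, ∀ k, IsPrim k → Q p k → Q' (k * (w ^ p.1 * lam ^ p.2) ^ 2)) →
    ∀ a b : Eis, IsPrim a → b ≠ 0 → (nm a : ℝ) ≤ X ^ c₀ → (nm b : ℝ) ≤ X ^ c₀ →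
    ∀ K' T Bd : ℝ, 0 ≤ K' → 0 ≤ Bd → LineB Q' P h X r (C * X ^ c₀) ε M K' T Bd ps₀
      (LF ps - Real.log (nm a)) →
    ∀ p ∈ T9, ∀ (t X' : ℝ) (φ : ℝ → ℝ), 0 < X' → |Real.log X' - LF ps| ≤ R + 1 →
      WK Cw η Aw φ → (∀ u, φ u ≠ 0 → |u - Real.log X'| ≤ η / 2) →
      SqQ ω (X ^ K') (Q p) (alr (fun n => bt φ (sqc q (alF (X ^ δ) (X ^ δ) P h ps)) p n *
        pw t (nm n)) a b) ≤ C * X ^ ε * (Ht ps * Ht (natl ps₀)) ^ M * Bd *
          (X ^ T * Real.exp (LF ps) / nm a) * (1 + |t|) ^ Jn := by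
  have hN0 : (0 : ℝ) ≤ N := Nat.cast_nonneg N
  obtain ⟨R1, hR10, hR1⟩ := exists_R (cs_cx hpu.cs)
  have hBmp : Bump h := ⟨R1, hR1⟩
  set μ : ℝ := (N : ℝ) * M / 2 with hμ
  have hμ0 : 0 ≤ μ := by positivity
  set e1 : ℝ := ε / (2 * (c₀ + 2 + ε)) with he1
  have he10 : 0 < e1 := by positivity
  obtain ⟨C1, hC1, H⟩ := sq_winS hpu hμ0 le_rfl (by norm_num : (0 : ℝ) ≤ 1 / 2) hω N he10
  refine ⟨2 * (N * μ), ε / (4 * (N + 1)), by positivity, by positivity, ?_⟩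
  intro δ Jn Aw Cw R η S hδ hδ0 hJ hJA hCw hη hη1 hS
  set G : ℝ := Cw ^ 2 * iA Aw * iA 2 * (η⁻¹) ^ Jn with hG
  have hG0 : 0 ≤ G :=
    mul_nonneg (mul_nonneg (mul_nonneg (by positivity) (iA_nonneg Aw)) (iA_nonneg 2))
      (by positivity)
  have hES : 1 ≤ Real.exp S := Real.one_le_exp hS
  refine ⟨G * C1 + C1 * Real.exp S, C1 + S, Real.exp (C1 / ε) + Real.exp S, by positivity,
    by positivity, ?_⟩
  set C2 : ℝ := G * C1 + C1 * Real.exp S with hC2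
  have hGC : G * C1 ≤ C2 := by
    have : 0 ≤ C1 * Real.exp S := by positivity
    linarith
  have hEC : C1 * Real.exp S ≤ C2 := by
    have : 0 ≤ G * C1 := by positivity
    linarith
  intro X hX hX1 P hP ps₀ hps₀ hz₀ q ps hq hqX hs Q Q' hQ a b ha hb haX hbX K' T Bd hK' hBd hline
  have hX0 : 0 < X := by linarith
  have hX1' : 1 ≤ X := by linarith
  have hlog : C1 ≤ ε * Real.log X := by
    have h1 : Real.exp (C1 / ε) ≤ X := by linarith [Real.exp_pos S]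
    have h2 : C1 / ε ≤ Real.log X := by
      rw [Real.le_log_iff_exp_le hX0]; exact h1
    rwa [div_le_iff₀ hε, mul_comm] at h2
  have hSX : S ≤ Real.log X := by
    rw [Real.le_log_iff_exp_le hX0]
    linarith [Real.exp_pos (C1 / ε)]
  have hlC : Real.log C1 ≤ ε * Real.log X := by
    have := Real.log_le_sub_one_of_pos (by linarith : 0 < C1)
    linarith
  have hlen : ps.length ≤ N := by rw [hs.length]; exact hps₀
  have hzn := hs.z_nonneg
  set X0 : ℝ := X ^ (c₀ + 2 + ε) with hX0'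
  have hX01 : 1 ≤ X0 := Real.one_le_rpow hX1' (by positivity)
  have hmono : ∀ u : ℝ, u ≤ c₀ + 2 + ε → X ^ u ≤ X0 := fun u hu =>
    Real.rpow_le_rpow_of_exponent_le hX1' hu
  have hδε : δ ≤ ε := by
    refine hδ0.trans ?_
    rw [div_le_iff₀ (by positivity)]
    nlinarith
  have hzX : ∀ p ∈ ps, Real.exp p.1.z ≤ X0 := by
    have h1 : ∀ p ∈ ps, p.1.z ≤ c₀ * Real.log X + S := by
      unfold RG64.SbL at hs
      clear hline hzn hlen hps₀
      induction hs with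
      | nil => simp
      | @cons p p₀ ps ps₀ h1 _ ih =>
        intro p' hp'
        rcases List.mem_cons.1 hp' with rfl | hp'
        · have h2 := h1.2.2.2.2
          have h3 : p₀.z ≤ c₀ * Real.log X := hz₀ p₀ (by simp)
          linarith
        · exact ih (fun q hq => hz₀ q (by simp [hq])) p' hp'
    intro p hp
    calc Real.exp p.1.z ≤ Real.exp ((c₀ + 1) * Real.log X) :=
          Real.exp_le_exp.2 (by linarith [h1 p hp])
      _ = X ^ (c₀ + 1) := by rw [Real.rpow_def_of_pos hX0, mul_comm]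
      _ ≤ X0 := hmono _ (by linarith)
  have hhyp := line_hypL (C := C1) (S := S) hX hC1 hM hBd hK' le_rfl
    (mul_le_mul_of_nonneg_right hEC (by positivity : (0 : ℝ) ≤ X ^ c₀)) hlog hlC hlen hs hz₀ hline
  intro p hp t X' φ hX' _ hWK _
  have hp2 : p.2 ≤ 2 := by
    have h1 := (Finset.mem_product.1 hp).2
    have := Finset.mem_range.1 h1
    omega
  have hn1 : (nm (1 : Eis) : ℝ) = 1 := by rw [nm_one]; simp
  have hna : (0 : ℝ) < nm a := by exact_mod_cast nm_pos.2 ha.ne_zero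
  have key := H P hP ps hlen hzn (X ^ δ) (X ^ δ) (Real.one_le_rpow hX1' hδ) (Q p) Q' p hp2
    (hQ p hp) q 1 a b hq isPrim_one ha hb X0 (X ^ K') (Bd * (Ht ps * Ht (natl ps₀)) ^ M * X ^ T)
    hX01 (by positivity) (hmono δ (by linarith)) (hqX.trans (hmono c₀ (by linarith)))
    (by rw [hn1]; exact hX01) (haX.trans (hmono c₀ (by linarith)))
    (hbX.trans (hmono c₀ (by linarith))) hzX (by
      have := one_le_Ht ps
      have := one_le_Ht (natl ps₀)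
      positivity) (fun ps' W hW hR' hl => hhyp ps' W hW hR' (by
        rw [hn1, one_mul] at hl; exact hl)) Cw η Aw Jn hCw hη hη1 hJA
      (by rw [hμ] at hJ ⊢; exact hJ) φ hWK t 0
  rw [gC_alr (FS_bt_pw (HP842.FS.sqc (RG64.FS_alF hBmp hP _ _ ps) q) p t)] at key
  refine key.trans ?_
  have hH : 0 ≤ (Ht ps * Ht (natl ps₀)) ^ M := by
    have := one_le_Ht ps
    have := one_le_Ht (natl ps₀)
    positivity
  have e3 : (nm a : ℝ) ^ (-(2 * (0 : ℝ))) *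
      (Real.exp (LF ps) / (nm (1 : Eis) * nm a)) ^ (1 - 2 * (0 : ℝ)) =
      Real.exp (LF ps) / nm a := by
    rw [hn1]
    simp
  rw [e3, add_zero, show (2 : ℝ) + 2 * 0 = 2 by norm_num, Real.rpow_two]
  exact alr_final hG0 (by linarith) hGC
    (leaf_const (N := N) (c₀ := c₀) hX (by linarith) hε hδ0) (by positivity) (by positivity)
    (by positivity) hBd hH (by positivity) (by positivity)

/-- **the smooth squares of the subsequences `a ∣ n`, `(n, b) = 1` of `xs`** from lines of slope 1 for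
the list and the replaced list -/
theorem sq_alrX {h : ℝ → ℝ} {c : ℝ} (hpu : PU h c) {ω : ℝ → ℝ} (hω : Wgt ω) (N : ℕ)
    {c₀ ε M : ℝ} (hc₀ : 1 ≤ c₀) (hε : 0 < ε) (hM : 0 ≤ M) :
    ∃ J₀ δ₀ : ℝ, 0 ≤ J₀ ∧ 0 < δ₀ ∧ ∀ (δ : ℝ) (Jn Aw : ℕ) (Cw R η S : ℝ), 0 ≤ δ → δ ≤ δ₀ →
    J₀ ≤ Jn → Jn + 2 ≤ Aw → 0 ≤ Cw → 0 < η → η ≤ 1 → 0 ≤ S →
    ∃ C r X₁ : ℝ, 0 ≤ C ∧ 0 ≤ r ∧ ∀ X : ℝ, 3 ≤ X → X₁ ≤ X → ∀ P : DPar, P.OK →
    ∀ ps₀ : List Pq, ps₀.length ≤ N → (∀ q ∈ ps₀, Dq.len q ≤ c₀ * Real.log X) →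
    ∀ d : ℝ, 0 ≤ d → (∀ q ∈ rpB d ps₀, Dq.len q ≤ c₀ * Real.log X) →
    ∀ (q : Eis) (ps : List Pf), q ≠ 0 → (nm q : ℝ) ≤ X ^ c₀ → SbL S ps ps₀ → Lg d ps →
    ∀ (Q : ℕ × ℕ → Eis → Prop) (Q' : Eis → Prop),
    (∀ p ∈ T9, ∀ k, IsPrim k → Q p k → Q' (k * (w ^ p.1 * lam ^ p.2) ^ 2)) →
    ∀ a b : Eis, IsPrim a → b ≠ 0 → (nm a : ℝ) ≤ X ^ c₀ → (nm b : ℝ) ≤ X ^ c₀ →
    ∀ K' T Bd : ℝ, 0 ≤ K' → 0 ≤ Bd → LineB Q' P h X r (C * X ^ c₀) ε M K' T Bd ps₀
      (LF ps - Real.log (nm a)) →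
    LineB Q' P h X r (C * X ^ c₀) ε M K' T Bd (rpB d ps₀)
      (LF ps - Real.log (nm a)) →
    ∀ p ∈ T9, ∀ (t X' : ℝ) (φ : ℝ → ℝ), 0 < X' → |Real.log X' - LF ps| ≤ R + 1 →
      WK Cw η Aw φ → (∀ u, φ u ≠ 0 → |u - Real.log X'| ≤ η / 2) →
      SqQ ω (X ^ K') (Q p) (alr (fun n => bt φ (xs q (X ^ δ) (X ^ δ) P h d ps) p n *
        pw t (nm n)) a b) ≤ C * X ^ ε * (Ht ps * Ht (natl ps₀)) ^ M * Bd *
          (X ^ T * Real.exp (LF ps) / nm a) * (1 + |t|) ^ Jn := by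
  have hN0 : (0 : ℝ) ≤ N := Nat.cast_nonneg N
  obtain ⟨R1, hR10, hR1⟩ := exists_R (cs_cx hpu.cs)
  have hBmp : Bump h := ⟨R1, hR1⟩
  set μ : ℝ := (N : ℝ) * M / 2 with hμ
  have hμ0 : 0 ≤ μ := by positivity
  set e1 : ℝ := ε / (2 * (c₀ + 2 + ε)) with he1
  have he10 : 0 < e1 := by positivity
  obtain ⟨C1, hC1, H⟩ := sq_winX hpu hμ0 le_rfl (by norm_num : (0 : ℝ) ≤ 1 / 2) hω N he10
  refine ⟨2 * (N * μ), ε / (4 * (N + 1)), by positivity, by positivity, ?_⟩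
  intro δ Jn Aw Cw R η S hδ hδ0 hJ hJA hCw hη hη1 hS
  set G : ℝ := Cw ^ 2 * iA Aw * iA 2 * (η⁻¹) ^ Jn with hG
  have hG0 : 0 ≤ G :=
    mul_nonneg (mul_nonneg (mul_nonneg (by positivity) (iA_nonneg Aw)) (iA_nonneg 2))
      (by positivity)
  have hES : 1 ≤ Real.exp (2 * S) := Real.one_le_exp (by linarith)
  have hES' : Real.exp S ≤ Real.exp (2 * S) := Real.exp_le_exp.2 (by linarith)
  refine ⟨G * C1 + C1 * Real.exp (2 * S), C1 + 2 * S, Real.exp (C1 / ε) + Real.exp (2 * S), by positivity,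
    by positivity, ?_⟩
  set C2 : ℝ := G * C1 + C1 * Real.exp (2 * S) with hC2
  have hGC : G * C1 ≤ C2 := by
    have : 0 ≤ C1 * Real.exp (2 * S) := by positivity
    linarith
  have hEC' : C1 * Real.exp (2 * S) ≤ C2 := by
    have : 0 ≤ G * C1 := by positivity
    linarith
  have hEC : C1 * Real.exp S ≤ C2 :=
    (mul_le_mul_of_nonneg_left hES' (by linarith)).trans hEC'
  intro X hX hX1 P hP ps₀ hps₀ hz₀ d hd hz₀' q ps hq hqX hs hLg Q Q' hQ a b ha hb haX hbX K' T Bd hK' hBd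
    hline hline'
  have hX0 : 0 < X := by linarith
  have hX1' : 1 ≤ X := by linarith
  have hlog : C1 ≤ ε * Real.log X := by
    have h1 : Real.exp (C1 / ε) ≤ X := by linarith [Real.exp_pos (2 * S)]
    have h2 : C1 / ε ≤ Real.log X := by
      rw [Real.le_log_iff_exp_le hX0]; exact h1
    rwa [div_le_iff₀ hε, mul_comm] at h2
  have hSX : 2 * S ≤ Real.log X := by
    rw [Real.le_log_iff_exp_le hX0]
    linarith [Real.exp_pos (C1 / ε)]
  have hlC : Real.log C1 ≤ ε * Real.log X := by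
    have := Real.log_le_sub_one_of_pos (by linarith : 0 < C1)
    linarith
  have hlen : ps.length ≤ N := by rw [hs.length]; exact hps₀
  have hzn := hs.z_nonneg
  set X0 : ℝ := X ^ (c₀ + 2 + ε) with hX0'
  have hX01 : 1 ≤ X0 := Real.one_le_rpow hX1' (by positivity)
  have hmono : ∀ u : ℝ, u ≤ c₀ + 2 + ε → X ^ u ≤ X0 := fun u hu =>
    Real.rpow_le_rpow_of_exponent_le hX1' hu
  have hδε : δ ≤ ε := by
    refine hδ0.trans ?_
    rw [div_le_iff₀ (by positivity)]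
    nlinarith
  have hs' : SbL (2 * S) (rp d ps) (rpB d ps₀) := SbL_rp hS hd hs hLg
  have hlen' : (rp d ps).length ≤ N := by rw [rp_length]; exact hlen
  have hzn' := hs'.z_nonneg
  have hzX : ∀ p ∈ ps, Real.exp p.1.z ≤ X0 := fun p hp =>
    (exp_z_le (by linarith) hX0 (SbL.mono (by linarith : S ≤ 2 * S) hs) hz₀ hSX p hp).trans
      (hmono _ (by linarith))
  have hzX' : ∀ p ∈ rp d ps, Real.exp p.1.z ≤ X0 := fun p hp =>
    (exp_z_le (by linarith) hX0 hs' hz₀' hSX p hp).trans (hmono _ (by linarith))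
  have hhyp := line_hypL (C := C1) (S := S) hX hC1 hM hBd hK' (by linarith)
    (mul_le_mul_of_nonneg_right hEC (by positivity : (0 : ℝ) ≤ X ^ c₀)) hlog hlC hlen hs hz₀ hline
  have hhyp' := line_hypL (C := C1) (S := 2 * S) hX hC1 hM hBd hK' le_rfl
    (mul_le_mul_of_nonneg_right hEC' (by positivity : (0 : ℝ) ≤ X ^ c₀)) hlog hlC hlen' hs' hz₀'
    hline'
  rw [RX298.Ht_rp, Ht_natl_rpB] at hhyp'
  intro p hp t X' φ hX' _ hWK _
  have hp2 : p.2 ≤ 2 := by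
    have h1 := (Finset.mem_product.1 hp).2
    have := Finset.mem_range.1 h1
    omega
  have hn1 : (nm (1 : Eis) : ℝ) = 1 := by rw [nm_one]; simp
  have hna : (0 : ℝ) < nm a := by exact_mod_cast nm_pos.2 ha.ne_zero
  have key := H P hP ps d hlen hzn hzn' (X ^ δ) (X ^ δ) (Real.one_le_rpow hX1' hδ) (Q p) Q' p hp2
    (hQ p hp) q 1 a b hq isPrim_one ha hb X0 (X ^ K') (Bd * (Ht ps * Ht (natl ps₀)) ^ M * X ^ T)
    hX01 (by positivity) (hmono δ (by linarith)) (hqX.trans (hmono c₀ (by linarith)))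
    (by rw [hn1]; exact hX01) (haX.trans (hmono c₀ (by linarith)))
    (hbX.trans (hmono c₀ (by linarith))) hzX hzX' (by
      have := one_le_Ht ps
      have := one_le_Ht (natl ps₀)
      positivity) (by
      intro qs hqs ps' W hW hR' hl
      rw [hn1, one_mul] at hl
      rcases hqs with rfl | rfl
      · exact hhyp ps' W hW hR' hl
      · exact hhyp' ps' W hW hR' hl) Cw η Aw Jn hCw hη hη1 hJA
      (by rw [hμ] at hJ ⊢; exact hJ) φ hWK t 0
  rw [gC_alr (FS_bt_pw (RX298.FS_xs hBmp hP q _ _ d ps) p t)] at key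
  refine key.trans ?_
  have hH : 0 ≤ (Ht ps * Ht (natl ps₀)) ^ M := by
    have := one_le_Ht ps
    have := one_le_Ht (natl ps₀)
    positivity
  have e3 : (nm a : ℝ) ^ (-(2 * (0 : ℝ))) *
      (Real.exp (LF ps) / (nm (1 : Eis) * nm a)) ^ (1 - 2 * (0 : ℝ)) =
      Real.exp (LF ps) / nm a := by
    rw [hn1]
    simp
  rw [e3, add_zero, show (2 : ℝ) + 2 * 0 = 2 by norm_num, Real.rpow_two]
  exact alr_final hG0 (by linarith) hGC
    (leaf_const (N := N) (c₀ := c₀) hX (by linarith) hε hδ0) (by positivity) (by positivity)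
    (by positivity) hBd hH (by positivity) (by positivity)

end Crest.Agent.R017.SqB791
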