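import Crest.Agent.R017.RHXb_116
import Crest.Agent.R017.CubP_813
import Crest.Agent.R017.SqA_791

/-!
# Row 17, T.7 (helper791): the kept frequencies are not principal, for every twist

* `qc_ncube` : `1 < K₁`, `Qc K₁ k` ⟹ `NCube (k * (w ^ a * lam ^ b) ^ 2)` (any `a`, `b`)
* `cbf_ncube` : the same for cube-free primary `k ≠ 1`
* `alr_eq`, `alr_eq'` : `SqB791.alr` is `CubP813.alr`
-/

set_option autoImplicit false

noncomputable section

open Complex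

namespace Crest.Agent.R017.SqB791

open Crest.Agent.R012 Crest.Agent.R012.Eis
open Crest.Agent.R017.C70 (CbF)
open Crest.Agent.R012.T411 (NCube)
open Crest.Agent.R017.CubP813 (Qc)
open Crest.Agent.R017.RHX116 (ncube_mul_cube PrB)
open Crest.Agent.R017.RGw813 (T9)

/-- cube-free primary elements -/
theorem cbf_ncube {j : Eis} (hj : IsPrim j) (hcf : CbF j) (h1 : j ≠ 1) (a b : ℕ) :
    NCube (j * (w ^ a * lam ^ b) ^ 2) := by
  have hu0 : (w ^ a * lam ^ b : Eis) ^ 2 ≠ 0 :=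
    pow_ne_zero _ (mul_ne_zero (pow_ne_zero _ isUnit_w.ne_zero) (pow_ne_zero _ lam_ne_zero))
  refine ⟨mul_ne_zero hj.ne_zero hu0, fun m hm => ?_⟩
  obtain ⟨p, hp, -, hpj⟩ := PSer47.exists_prime_dvd hj h1
  have hpu : ¬ p ∣ (w ^ a * lam ^ b : Eis) ^ 2 := by
    intro h
    have h2 := hp.dvd_of_dvd_pow h
    rcases hp.dvd_or_dvd h2 with h3 | h3
    · exact hp.not_isUnit (isUnit_of_dvd_unit h3 (isUnit_w.pow a))
    · have h4 : p ∣ lam := hp.dvd_of_dvd_pow h3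
      have h5 : IsCoprime p lam := (hj.isCoprime_lam).of_isCoprime_of_dvd_left hpj
      exact hp.not_isUnit (h5.isUnit_of_dvd' dvd_rfl h4)
  have hpm : p ∣ m := by
    refine hp.dvd_of_dvd_pow (n := 3) ?_
    rw [← hm]
    exact hpj.mul_right _
  have h3 : p ^ 3 ∣ j * (w ^ a * lam ^ b) ^ 2 := by
    rw [hm]
    exact pow_dvd_pow_of_dvd hpm 3
  exact hcf p hp (hp.pow_dvd_of_dvd_mul_right 3 hpu h3)

/-- **the kept frequencies are not principal**, for every twist -/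
theorem qc_ncube {K₁ : ℝ} (hK : 1 < K₁) {k : Eis} (hk : Qc K₁ k) (a b : ℕ) :
    NCube (k * (w ^ a * lam ^ b) ^ 2) := by
  obtain ⟨j, c, hj, hc, hcf, rfl, hn⟩ := hk
  have h1 : j ≠ 1 := by
    rintro rfl
    rw [nm_one] at hn
    push_cast at hn
    linarith
  rw [show j * c ^ 3 * (w ^ a * lam ^ b) ^ 2 = j * (w ^ a * lam ^ b) ^ 2 * c ^ 3 by ring,
    ncube_mul_cube hc.ne_zero]
  exact cbf_ncube hj hcf h1 a b

lemma qc_not_prB {K₁ : ℝ} (hK : 1 < K₁) {k : Eis} (hk : Qc K₁ k) (b : ℕ × ℕ) : ¬ PrB b k := by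
  unfold RHX116.PrB
  rw [not_not]
  exact qc_ncube hK hk b.1 b.2

/-- the hypothesis of `sq_leafX`, `sq_alrX` for `Q p := Qc K₁`, `Q' := NCube` -/
lemma qc_hyp {K₁ : ℝ} (hK : 1 < K₁) : ∀ p ∈ T9, ∀ k, IsPrim k → Qc K₁ k →
    NCube (k * (w ^ p.1 * lam ^ p.2) ^ 2) := fun p _ _ _ hk => qc_ncube hK hk p.1 p.2

/-- the hypothesis of `sq_alrX` for cube-free `k` with `1 < K₂ ≤ nm k` -/
lemma cbf_hyp {K₂ : ℝ} (hK : 1 < K₂) (Q : Eis → Prop) : ∀ p ∈ T9, ∀ k, IsPrim k →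
    (CbF k ∧ K₂ ≤ nm k ∧ Q k) → NCube (k * (w ^ p.1 * lam ^ p.2) ^ 2) := by
  rintro p - k hk ⟨h1, h2, -⟩
  refine cbf_ncube hk h1 ?_ p.1 p.2
  rintro rfl
  rw [nm_one] at h2
  push_cast at h2
  linarith

/-- the subsequence of `CubP_813` -/
lemma alr_eq (α : Eis → ℂ) (a b : Eis) : CubP813.alr α a b = alr α a b := by
  funext n
  unfold CubP813.alr alr
  rfl

end Crest.Agent.R017.SqB791
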