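import Crest.Agent.R017.RX7e_298
import Crest.Agent.R017.LBcX_48
import Crest.Agent.R017.QcN_791

/-!
# Row 17, T.7 L11 (exceptional class): the terminal bound with the literal R-numbers (helper298)

* `QfC` : the cut of the frequencies; `qfC_hyp`
* `be_of_s2x` : the squares at the second scale in the form `NSpQ`; `rhC_of`
* `bessxC` : the hypothesis `hB` of helper545's `expRGFP_of` from the leaf `RLeafXL` alone
-/

set_option autoImplicit false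

noncomputable section

open Complex
open scoped ComplexConjugate

namespace Crest.Agent.R017.RX298

open Crest.Agent.R012 Crest.Agent.R012.Eis Crest.Agent.R012.LS2 Crest.Agent.R012.Gauss880
open Crest.Agent.R012.MC (Wgt)
open Crest.Agent.R012.T411 (NCube)
open Crest.Agent.R017.CM106 Crest.Agent.R017.HP842 Crest.Agent.R017.FE47
open Crest.Agent.R017.B770
open Crest.Agent.R017.Prov71
open Crest.Agent.R017.Leg381
open Crest.Agent.R017.E1551 (cP)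
open Crest.Agent.R017.RG64
open Crest.Agent.R017.PX764 (Dk)
open Crest.Agent.R017.Sup271 (NPm)
open Crest.Agent.R017.XS0298 (S0K)
open Crest.Agent.R017.XPD571 (RX)
open Crest.Agent.R017.Red848
open Crest.Agent.R017.RGB545
open Crest.Agent.R017.RGw813 (T9)
open Crest.Agent.R017.RXk848 (RLeafXL)
open Crest.Agent.R017.LBu180 (SqQ)
open Crest.Agent.R017.CubP813 (Qc)
open Crest.Agent.R017.WDec180 (WD)
open Crest.Agent.R017.RLD381 (K1E BeAll MonoR monoR_be)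
open Crest.Agent.R017.RLdX829 (NSpQ mono_NSpQ RRC RhC monoR_RRC)

/-- the cut of the frequencies (both classes) -/
def QfC (p : LBp) (_ : ℕ × ℕ) : Eis → Prop := Qc (K1E p.K p.E0)

lemma qfC_hyp (q : LBp) (h1 : 1 < q.E0) (h2 : q.E0 ^ 60 ≤ q.K) : ∀ b ∈ T9, ∀ k, IsPrim k →
    QfC q b k → NCube (k * (w ^ b.1 * lam ^ b.2) ^ 2) := by
  refine SqB791.qc_hyp ?_
  unfold K1E
  have h3 : 0 < q.E0 ^ 23 := by positivity
  rw [← div_eq_mul_inv, one_lt_div h3]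
  exact lt_of_lt_of_le (pow_lt_pow_right₀ h1 (by norm_num)) h2

/-- the squares at the second scale `K * E0 ^ (-7)` -/
lemma be_of_s2x {ω : ℝ → ℝ} {p : LBp} {α : Eis → ℂ} {Es : ℝ} (hE0 : 1 ≤ p.E0)
    (h : S2X ω QfC 7 p α Es) : BeAll (NSpQ ω) p α Es := by
  intro a ha t X' φ h1 h2 h3 h4
  have h5 := h a ha t X' φ h1 h2 h3 h4
  have hE : 0 < p.E0 := by linarith
  have e1 : p.E0 ^ (-7 : ℝ) = Real.exp (-RLD381.hE p.E0) := by
    rw [Real.rpow_def_of_pos hE]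
    congr 1
    unfold RLD381.hE
    ring
  have e2 : p.E0 ^ (2 / 3 * 7 : ℝ) = Real.exp (2 / 3 * RLD381.hE p.E0) := by
    rw [Real.rpow_def_of_pos hE]
    congr 1
    unfold RLD381.hE
    ring
  show SqQ ω (p.K * Real.exp (-RLD381.hE p.E0)) (Qc (K1E p.K p.E0)) _ ≤
    Real.exp (-(RLD381.hE p.E0 / 3)) * ((p.K / p.X) * (Es * (1 + |t|) ^ p.J))
  rw [e1, e2] at h5
  refine h5.trans (le_of_eq ?_)
  have e3 : Real.exp (-(RLD381.hE p.E0 / 3)) = Real.exp (-RLD381.hE p.E0) *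
      Real.exp (2 / 3 * RLD381.hE p.E0) := by
    rw [← Real.exp_add]; congr 1; ring
  rw [e3]
  ring

/-- what (LB) consumes, from the squares at the second scale and the R-numbers -/
lemma rhC_of {ω W : ℝ → ℝ} {N : ℕ} {M : ℝ} {F : ℕ → ℝ → ℂ} (Λ : ℝ) (_ : 1 ≤ Λ) (p : LBp)
    (α : Eis → ℂ) (Es Rn Rn' : ℝ) (hK : 0 < p.K) (hX : 0 < p.X) (hE : 1 ≤ p.E0) (_ : 0 ≤ Es)
    (hs : S2X ω QfC 7 p α Es) (hRn : 0 ≤ Rn) (h : RRC ω W N M F Λ p α Rn) (hr : Rn + Es ≤ Rn') :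
    RhC ω W N M F Λ p α Rn' :=
  ⟨Or.inr (monoR_be (mono_NSpQ ω) p α Es Rn' hK.le hX.le (zero_le_one.trans hE) (by linarith)
    (be_of_s2x hE hs)), monoR_RRC ω W N M F Λ p α Rn Rn' hK.le hX.le (zero_le_one.trans hE)
    (by linarith) h⟩

variable {Lam : Type*} {π : Lam → DPar} {h : ℝ → ℝ} {c₂ : ℝ}

/-- **the terminal bound, class E, from the leaf**: hypothesis `hB` of `expRGFP_of` -/
theorem bessxC (hP : ∀ lam, (π lam).OK) (hE : ∀ lam, Exc (π lam)) (hpu : PU h c₂)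
    {ω W : ℝ → ℝ} (hω : Wgt ω) (hw0 : ∀ x, 0 ≤ ω x) (hcP : 0 < cP ω) (hW : Wgt W)
    (hW0 : ∀ x, 0 ≤ W x) {N : ℕ} {M : ℝ} {F : ℕ → ℝ → ℂ} (hD : WD ω N M F)
    (hW1 : ∀ x, Real.exp (-(2 + M)) ≤ x → x ≤ Real.exp (4 + N) → 1 ≤ W x)
    {y : ℝ} (hy1 : 1 ≤ y) (hy : y ≤ 30)
    (hleaf : ∀ c μ K d₀ : ℝ, 0 < c → 1000 * c ≤ μ → μ ≤ 1 → 0 < K → 2000 * c ≤ K → 0 ≤ d₀ →
      d₀ ≤ K → RLeafXL (rdE π) h (RRC ω W N M F) (LE (rdE π) h c μ) K c (8 * (K + 1)) d₀ y) :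
    ∀ c μ K d₀ : ℝ, 0 < c → 1000 * c ≤ μ → μ ≤ 1 → 0 < K → 2000 * c ≤ K → 0 ≤ d₀ → d₀ ≤ K →
      ∃ ε₀ : ℝ, 0 < ε₀ ∧ BessFinX (RX (fun _ => NCube) (rdE π) h)
        (fun lam => S0K Dk (rdE π lam) h) (LE (rdE π) h c μ) ε₀ K c d₀ :=
  bessxE hP hE hpu hω hw0 hcP (Qf := QfC) (Rh := RhC ω W N M F) (RR := RRC ω W N M F) (hA := 7)
    (by norm_num) (by norm_num) (LBx48.lbNX hω hw0 hW hW0 hD hW1) qfC_hyp rhC_of hy1 hy hleaf

end Crest.Agent.R017.RX298
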