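import Crest.Agent.R017.RXp_848
import Crest.Agent.R017.RGE2_545

/-!
# Row 17, T.7 (RG rule, exceptional class): the finite theorem at the reduced data (helper848)

* `npm_red_one` : `1` is a cube
* `rgFinX_E` : helper545's hypothesis `hR` of `expRGFP_of`
-/

set_option autoImplicit false

noncomputable section

open Complex
open scoped ComplexConjugate

namespace Crest.Agent.R017.RXk848

open Crest.Agent.R012 Crest.Agent.R012.Eis Crest.Agent.R012.LS2 Crest.Agent.R012.Gauss880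
open Crest.Agent.R012.T411 (NCube)
open Crest.Agent.R017.CM106 Crest.Agent.R017.HP842 Crest.Agent.R017.FE47
open Crest.Agent.R017.End699 hiding pw
open Crest.Agent.R017.B770
open Crest.Agent.R017.Prov71
open Crest.Agent.R017.Leg381
open Crest.Agent.R017.RG64
open Crest.Agent.R017.RGB545
open Crest.Agent.R017.Red848
open Crest.Agent.R017.Sup271 (NPm)
open Crest.Agent.R017.PX764 (Dk)
open Crest.Agent.R017.XPD571
open Crest.Agent.R017.XS0298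

variable {Lam : Type*}

/-- `1` is a cube -/
lemma npm_red_one {P : DPar} (hP : P.OK) : ¬ NPm (red P).n (red P).ψ (red P).l₂ 1 := by
  rw [NPm_red_iff hP.ψ.q0 one_ne_zero]
  intro h
  exact h.2 1 (by norm_num)

/-- **the recursion, exceptional class, at the reduced data**: helper545's `hR` -/
theorem rgFinX_E {π : Lam → DPar} {h : ℝ → ℝ} {c₁ : ℝ} (hpu : PU h c₁)
    (hP : ∀ lam, (π lam).OK) (hE : ∀ lam, Exc (π lam))
    {w : ℝ → ℝ} (hab : Abs4 w) {Rh RR : ℝ → LBp → (Eis → ℂ) → ℝ → Prop}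
    (hLB : ∀ Λ : ℝ, 1 ≤ Λ → LBN w Λ (Rh Λ))
    (hRR : ∀ (Λ : ℝ) (q : LBp) (α : Eis → ℂ) (Rn Rn' : ℝ), 1 ≤ Λ → 0 ≤ q.K → 0 ≤ q.X →
      1 ≤ q.E0 → q.X ^ 2 * q.E0 ^ 20 ≤ q.K * q.N₀ → RR Λ q α Rn → Rn ≤ Rn' → Rh Λ q α Rn')
    (hleaf : ∀ c μ K d₀ : ℝ, 0 < c → 1000 * c ≤ μ → μ ≤ 1 → 0 < K → 2000 * c ≤ K → 0 ≤ d₀ →
      d₀ ≤ K → RLeafXL (rdE π) h RR (LE (rdE π) h c μ) K c (8 * (K + 1)) d₀ 20) :
    ∀ c μ K v d₀ : ℝ, 0 < c → 1000 * c ≤ μ → μ ≤ 1 → 0 < K → 2000 * c ≤ K →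
      3 * v + 300 * c ≤ 2 * K → K + 200 * c ≤ 2 * v → 0 ≤ d₀ → d₀ ≤ K →
      ∃ ε₀ : ℝ, 0 < ε₀ ∧
        RgFinX (fun lam => S0K Dk (rdE π lam) h) (LE (rdE π) h c μ) ε₀ K v c d₀ := by
  intro c μ K v d₀ hc hcμ hμ hK hcK hv3 hv2 hd0 hdK
  refine ⟨min c 1 / 100, by positivity, ?_⟩
  exact rgFinX_of (π := rdE π) (red_OK hP hE) (fun lam => npm_red_one (hP lam)) hpu hab hLB hRR hc
    (by linarith) (by linarith) hv3 hd0 le_rfl (hleaf c μ K d₀ hc hcμ hμ hK hcK hd0 hdK)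

end Crest.Agent.R017.RXk848
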