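import Crest.Agent.R017.RGcl_381
import Crest.Agent.R017.RGE5_545
import Crest.Agent.R017.RXq_848
import Crest.Agent.R017.LBcX_48
import Crest.Agent.R017.RLdX_829
import Crest.Agent.R017.NSqX_791
import Crest.Agent.R017.RX7f_298

/-!
# Row 17, T.7: the RG field of class E, closure (helper381)

* `RngX` : the range of the parameters of the leaves
* `LeafE` : the three leaves of class E
* `fin_E` : the two finite theorems of `expRGFP_of` from the leaves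
* `expRGFP_E` : the RG field with the pair alternative `PA`
-/

set_option autoImplicit false

noncomputable section

open Set Filter Topology

namespace Crest.Agent.R017.RGC381

open Crest.Agent.R012 Crest.Agent.R012.Eis Crest.Agent.R012.LS2
open Crest.Agent.R012.MC (Wgt)
open Crest.Agent.R012.T411 (NCube)
open Crest.Agent.R017.B770
open Crest.Agent.R017.Prov71
open Crest.Agent.R017.XPD571
open Crest.Agent.R017.Red848
open Crest.Agent.R017.XS0298 (S0K)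
open Crest.Agent.R017.PX764 (Dk)
open Crest.Agent.R017.E1551 (cP)
open Crest.Agent.R017.WDec180 (WD)
open Crest.Agent.R017.RG64
open Crest.Agent.R017.RGB545
open Crest.Agent.R017.RLD381 (BeAll NRc NRl NRo)
open Crest.Agent.R017.RLdX829 (RRC RhC NSqC monoR_RRC rleafXL_of)
open Crest.Agent.R017.RXk848 (RLeafX RLeafXL)

/-- the range of the parameters -/
def RngX (P : ℝ → ℝ → ℝ → ℝ → Prop) : Prop :=
  ∀ c μ K d₀ : ℝ, 0 < c → 1000 * c ≤ μ → μ ≤ 1 → 0 < K → 2000 * c ≤ K → 0 ≤ d₀ → d₀ ≤ K →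
    P c μ K d₀

variable {Lam : Type*} {π : Lam → DPar} {h : ℝ → ℝ} {c₁ θ : ℝ}

/-- **the R-side of class E**: the three leaves, reduced data -/
structure LeafE (π : Lam → DPar) (h : ℝ → ℝ) : Prop where
  /-- helper385 -/
  rc : ∀ (w : ℝ → ℝ), Wgt w → (∀ x, 0 ≤ w x) → ∀ (N : ℕ) (M : ℝ) (F : ℕ → ℝ → ℂ), WD w N M F →
    RngX fun c μ K d₀ =>
      RLeafX (rdE π) h (BeAll (NRc N M F)) (LE (rdE π) h c μ) K c (8 * (K + 1)) d₀ 20
  /-- helper502, helper791, helper241 -/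
  rl : ∀ (w : ℝ → ℝ), Wgt w → (∀ x, 0 ≤ w x) → ∀ (N : ℕ) (M : ℝ) (F : ℕ → ℝ → ℂ), WD w N M F →
    RngX fun c μ K d₀ =>
      RLeafX (rdE π) h (BeAll (NRl N M F)) (LE (rdE π) h c μ) K c (8 * (K + 1)) d₀ 20
  /-- helper116 -/
  ro : ∀ (w : ℝ → ℝ), Wgt w → (∀ x, 0 ≤ w x) → RngX fun c μ K d₀ =>
      RLeafXL (rdE π) h (fun Λ => BeAll (NRo w Λ)) (LE (rdE π) h c μ) K c (8 * (K + 1)) d₀ 20

/-- the line (sq) of class E -/
theorem sqLn_LE (π : Lam → DPar) (h : ℝ → ℝ) (c μ : ℝ) :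
    SqB791.SqLn (RX (fun _ k => NCube k) π h) c (LE π h c μ IN.sq) where
  Φ := fun _ _ _ _ => le_rfl
  G := fun _ _ => le_rfl
  F := fun _ _ => le_rfl
  zl := fun h => h

/-- a weight with its pieces, the dominating weight and the leaf, class E -/
theorem leafX_of (hP : ∀ lam, (π lam).OK) (hE : ∀ lam, Exc (π lam)) (hpu : FE47.PU h c₁)
    (H : LeafE π h) {w : ℝ → ℝ} (hw : Wgt w) (hw0 : ∀ x, 0 ≤ w x) :
    ∃ (W : ℝ → ℝ) (N : ℕ) (M : ℝ) (F : ℕ → ℝ → ℂ), WD w N M F ∧ Wgt W ∧ (∀ x, 0 ≤ W x) ∧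
      (∀ x, Real.exp (-(2 + M)) ≤ x → x ≤ Real.exp (4 + N) → 1 ≤ W x) ∧
      RngX fun c μ K d₀ =>
        RLeafXL (rdE π) h (RRC w W N M F) (LE (rdE π) h c μ) K c (8 * (K + 1)) d₀ 20 := by
  obtain ⟨N, M, F, hD⟩ := WDec180.exists_WD hw
  obtain ⟨W, hW, hW0, hW1⟩ := exists_dom (Real.exp (-(2 + M))) (Real.exp (4 + N))
    (Real.exp_pos _) (Real.exp_pos _)
  refine ⟨W, N, M, F, hD, hW, hW0, hW1, ?_⟩
  intro c μ K d₀ hc hcμ hμ hK hcK hd hdK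
  refine rleafXL_of (H.rc w hw hw0 N M F hD c μ K d₀ hc hcμ hμ hK hcK hd hdK)
    (H.rl w hw hw0 N M F hD c μ K d₀ hc hcμ hμ hK hcK hd hdK) ?_
    (SqB791.nsqX_leaf (red_OK hP hE) hpu hW (j := IN.sq) hc (by linarith) hd
      (sqLn_LE (rdE π) h c μ))
  intro v hv
  rcases hv with rfl | hv
  · exact H.ro v hw hw0 c μ K d₀ hc hcμ hμ hK hcK hd hdK
  · rw [Set.mem_singleton_iff] at hv
    subst hv
    exact H.ro v hW hW0 c μ K d₀ hc hcμ hμ hK hcK hd hdK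

/-- **the recursion of class E** -/
theorem rgFin_E (hP : ∀ lam, (π lam).OK) (hE : ∀ lam, Exc (π lam)) (hpu : FE47.PU h c₁)
    (H : LeafE π h) :
    ∀ c μ K v d₀ : ℝ, 0 < c → 1000 * c ≤ μ → μ ≤ 1 → 0 < K → 2000 * c ≤ K →
      3 * v + 300 * c ≤ 2 * K → K + 200 * c ≤ 2 * v → 0 ≤ d₀ → d₀ ≤ K →
      ∃ ε₀ : ℝ, 0 < ε₀ ∧
        RgFinX (fun lam => S0K Dk (rdE π lam) h) (LE (rdE π) h c μ) ε₀ K v c d₀ := by
  obtain ⟨w, hw, hw0, hab⟩ := exists_abs4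
  obtain ⟨W, N, M, F, hD, hW, hW0, hW1, h2⟩ := leafX_of hP hE hpu H hw hw0
  exact RXk848.rgFinX_E hpu hP hE hab (LBx48.lbNC hw hw0 hW hW0 hD hW1)
    (fun Λ q α Rn Rn' _ hK hX hE0 hroom hR hr => ⟨Or.inl hroom,
      monoR_RRC w W N M F Λ q α Rn Rn' hK hX (zero_le_one.trans hE0) hr hR⟩) h2

/-- **the terminal bound of class E** -/
theorem bessFin_E (hP : ∀ lam, (π lam).OK) (hE : ∀ lam, Exc (π lam)) (hpu : FE47.PU h c₁)
    (H : LeafE π h) :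
    ∀ c μ K d₀ : ℝ, 0 < c → 1000 * c ≤ μ → μ ≤ 1 → 0 < K → 2000 * c ≤ K → 0 ≤ d₀ → d₀ ≤ K →
      ∃ ε₀ : ℝ, 0 < ε₀ ∧ BessFinX (RX (fun _ => NCube) (rdE π) h)
        (fun lam => S0K Dk (rdE π lam) h) (LE (rdE π) h c μ) ε₀ K c d₀ := by
  obtain ⟨w, hw, hw0, hcw⟩ := Bs521.exists_wgt
  obtain ⟨W, N, M, F, hD, hW, hW0, hW1, h2⟩ := leafX_of hP hE hpu H hw hw0
  exact RX298.bessxC hP hE hpu hw hw0 hcw hW hW0 hD hW1 (by norm_num) (by norm_num) h2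

/-- **the RG field of class E** from the three leaves and the pair alternative -/
theorem expRGFP_E {PA : ℝ → ℝ → Multiset ℝ → ℝ → ℝ → ℝ → Prop} (H : DataE θ π h c₁)
    (hPA : PAok (rdE π) h PA) (hL : LeafE π h) :
    ExpRGFP θ (ex Dq (RNe π h)) (ex Dq (SPe π h)) (ex Dq (S0e π h)) PA :=
  expRGFP_of H hPA (bessFin_E H.hP H.hE H.hpu hL) (rgFin_E H.hP H.hE H.hpu hL)

end Crest.Agent.R017.RGC381
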