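import Crest.Agent.R017.Fin6_986
import Crest.Agent.R017.RGclE_545
import Crest.Agent.R017.RGclX_381

/-!
# Row 17, T.7: the field `rgE` from the leaves of the R-side (helper986)

* `LeavesE h` : the pair rules and helper381's leaves for class E
* `rgE_of` : the field `rgE` of `Open6`
-/

set_option autoImplicit false

noncomputable section

open Complex Filter Topology

namespace Crest.Agent.R017.Rg986

open Crest.Agent.R012 Crest.Agent.R012.Eis
open Crest.Agent.R017.FE47 Crest.Agent.R017.End699
open Crest.Agent.R017.B770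
open Crest.Agent.R017.Prov71 Crest.Agent.R017.ER911
open Crest.Agent.R017.SC777
open Crest.Agent.R017.Fin4 Crest.Agent.R017.Fin5 Crest.Agent.R017.Fin6
open Crest.Agent.R017.XEx298 (Rt)
open Crest.Agent.R017.XS0298 (S0x)
open Crest.Agent.R017.Red848 (red)
open Crest.Agent.R017.XC858 (SKq)
open Crest.Agent.R017.PX764 (Dk)

/-- the leaves of the recursion of class E -/
structure LeavesE (h : ℝ → ℝ) : Prop where
  /-- the pair rules (helper320, helper739, helper829) -/
  pair : RGB545.PairRules (RGB545.rdE πE) h (ex Dq (RGB545.SPe πE h))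
  /-- the R-side (helper385, helper502, helper116) -/
  leaf : RGC381.LeafE πE h

/-- **the field `rgE`** -/
theorem rgE_of {θ : ℝ} (hθ : 7 / 8 ≤ θ) (hθ1 : θ ≤ 1) (hPF : PF Set.univ θ) {h : ℝ → ℝ}
    {c₀ : ℝ} (hpu : PU h c₀) (H : LeavesE h) :
    RGE θ (ex Dq (fun lam => Rt (red (πE lam)) h)) (ex Dq (fun lam => SKq Dk (red (πE lam)) h))
      (ex Dq (fun lam => S0x (red (πE lam)) h)) := by
  have hP : ∀ lam, (πE lam).OK := fun lam => lam.2.1
  have hE := fun lam => XT6241.exc_piE lam
  exact (RGB545.expRGFz_E hθ hθ1 (RGB545.dataE_of (by linarith) hθ1 hPF hpu hP hE) H.pair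
    (RGC381.bessFin_E hP hE hpu H.leaf) (RGC381.rgFin_E hP hE hpu H.leaf)).rgf

end Crest.Agent.R017.Rg986
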