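import Crest.Agent.R017.LBnt_48
import Crest.Agent.R017.RLd_381
import Crest.Agent.R017.LBQ_791

/-!
# Row 17, C.REMg (LB), class N (helper48)

* `lbN` : **(LB) in helper64's form `LBN w Λ Rh`, with helper381's inputs `Rh`**
-/

set_option autoImplicit false
set_option linter.unusedVariables false

noncomputable section

open Complex
open scoped ComplexConjugate Classical

namespace Crest.Agent.R017.LBx48

open Crest.Agent.R012 Crest.Agent.R012.Eis Crest.Agent.R012.MC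
open Crest.Agent.R012.LS2 (S mem_S)
open Crest.Agent.R012.Weight600 (pw)
open Crest.Agent.R017.WDec180 (WD sc)
open Crest.Agent.R017.E1551 hiding tau Dg
open Crest.Agent.R017.C70 (JW)
open Crest.Agent.R017.E3M829 (Tal Sg)
open Crest.Agent.R017.E3A164 (Ys Fy)
open Crest.Agent.R017.LBu180 (SqQ SqQ_le)
open Crest.Agent.R017.Win813 (WK)
open Crest.Agent.R017.RGw813 (T9 bt)
open Crest.Agent.R017.CubP813 (alr)
open Crest.Agent.R017.Et813 (NumG NumQ)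
open Crest.Agent.R017.RG64 (LBp LBN)
open Crest.Agent.R017.RLD381 (BeAll NRc NRl NRo NSq NSp RR Rh omx K1E K2E KmE E1E)
open Crest.Agent.R017.LBo813 (Om rho)
open Crest.Agent.R017.I1146 (omr)

/-- helper381's restricted model is helper813's -/
lemma omx_eq (N₀ N₁ : ℕ) (b e : Eis) :
    omx N₀ N₁ b e = CubP813.omc (CubP813.omb (omr (Om N₀ N₁)) b) e := by
  rw [← Et813.omcb_eq]
  rfl

/-- **(Ro)** at the level `Λ N₁` is `NumG` -/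
lemma numG_of {v : ℝ → ℝ} {Λ : ℝ} {Cw η : ℝ} {Aw : ℕ} {K X Y R : ℝ} {J : ℕ} {D E0 G₀ : ℝ}
    {N₀ N₁ : ℕ} {α : Eis → ℂ} {Rn : ℝ}
    (H : BeAll (NRo v Λ) ⟨Cw, η, Aw, K, X, Y, R, J, N₀, N₁, E0, D, G₀⟩ α Rn) :
    NumG v Cw η Aw K X Y R J D E0 N₀ N₁ (Λ * N₁) α Rn := by
  intro a ha t X' φ h1 h2 h3 h4 K' b e hK' hb he
  have h5 := H a ha t X' φ h1 h2 h3 h4 K' b e hK' hb he
  rw [omx_eq] at h5
  exact h5

/-- **(Sq)** is `NumQ` -/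
lemma numQ_of {v : ℝ → ℝ} (hv : Wgt v) (hv0 : ∀ x, 0 ≤ v x) {Cw η : ℝ} {Aw : ℕ} {K X Y R : ℝ}
    {J : ℕ} {D E0 G₀ : ℝ} {N₀ N₁ : ℕ} {α : Eis → ℂ} {Rn : ℝ} (hK : 0 < K) (hE : 0 < E0)
    (H : BeAll (NSq v) ⟨Cw, η, Aw, K, X, Y, R, J, N₀, N₁, E0, D, G₀⟩ α Rn) :
    NumQ v Cw η Aw K X Y R J E0 α Rn := by
  intro a ha t X' φ h1 h2 h3 h4 K' b c hK' hK'' hb hb' hb3 hbY hc hcY
  have h5 := H a ha t X' φ h1 h2 h3 h4 K' b c hK' hK'' hb hb' hb3 hbY hc hcY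
  have hK0 : 0 < K' := lt_of_lt_of_le (by positivity) hK'
  refine le_trans ?_ h5
  rw [LBQ791.SqQ_true]
  exact SqQ_le hv hv0 hK0 _ _

/-- **(LB), class N** -/
theorem lbN {w W : ℝ → ℝ} (hw : Wgt w) (hw0 : ∀ x, 0 ≤ w x) (hW : Wgt W) (hW0 : ∀ x, 0 ≤ W x)
    {N : ℕ} {M : ℝ} {F : ℕ → ℝ → ℂ} (hD : WD w N M F)
    (hW1 : ∀ x, Real.exp (-(2 + M)) ≤ x → x ≤ Real.exp (4 + N) → 1 ≤ W x) :
    ∀ Λ : ℝ, 1 ≤ Λ → LBN w Λ (Rh w W N M F Λ) := by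
  intro Λ hΛ Cw R ε e₀ Aw J hCw hR hε he₀ hJA
  obtain ⟨C, hC, H⟩ := lbn_nt hw hw0 hW hW0 hD hW1 (Cw := Cw) (R := R) (ε := ε) (e₀ := e₀)
    (Aw := Aw) (J := J) hCw hR hε he₀ hJA hΛ
  refine ⟨C, hC, ?_⟩
  intro K X Y E0 D G₀ η N₀ N₁ hX hXY hKY hE0Y hD1 hDY hN₁Y hYE hEK hN₀ hN₀₁ h30 hη hη1 α
    hα hαR hαn Ma Ml Rn hMa hMl hRn hSA hL hRh
  obtain ⟨hroom, hDE, ⟨hRc, hRl⟩, ⟨⟨hRo, hRoW⟩, hSq⟩⟩ := hRh
  have hY : 1 ≤ Y := by linarith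
  have hE1 : 1 ≤ E0 := LBp180.one_le_E0 he₀.le hY hYE
  have hK1 : 1 ≤ K := (one_le_pow₀ hE1).trans hEK
  have hYε : 1 ≤ Y ^ ε := Real.one_le_rpow hY hε.le
  have main := H K X Y E0 D G₀ η N₀ N₁ hX hXY hKY hE0Y (by linarith) hDY hDE hN₁Y hYE hEK hN₀
    hN₀₁ h30 hη hη1 α hα hαR hαn Ma Ml Rn hMa hMl hRn hSA hL hRc hRl (numG_of hRo)
    (numG_of hRoW) (numQ_of hW hW0 (by linarith) (by linarith) hSq) ?_
  · exact LBQ791.LBnQ.toLBn hw hw0 (by linarith) main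
  · refine hroom.imp id fun h => ?_
    exact numS_of hw hw0 (one_le_mul_of_one_le_of_one_le hYε hYε) (by linarith) (by linarith)
      hRn _ h

end Crest.Agent.R017.LBx48
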