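import Crest.Agent.R017.RGB5_545

/-!
# Row 17, T.7: the fields of the RG recursion from the finite theorems (helper545), class E

* `RgFinX`, `rgx_of_fin` : the recursion
-/

set_option autoImplicit false

noncomputable section

open Set Filter Topology

namespace Crest.Agent.R017.RGB545

open Crest.Agent.R012 Crest.Agent.R012.Eis Crest.Agent.R012.LS2
open Crest.Agent.R017.XG702 (Pcs BG)
open Crest.Agent.R017.B770
open Crest.Agent.R017.Prov71
open Crest.Agent.R017.XP699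
open Crest.Agent.R017.ER911 (Ok Sh EF)
open Crest.Agent.R017.RuleM545
open Crest.Agent.R017.SC777 (PremRG sum3 ok3)

variable {Lam ι : Type*} {p : ℕ}

/-- exponents of the recursion, class E, `x = (k, n, l, n')`, `θ = ((n₁, v₁), ..)`; `e` = loss of
(T0) -/
def FrX (L : ι → Line Lam p) (K v c e : ℝ) : RI ι → (Fin 4 → ℝ) → Th 2 K × Th p K → ℝ
  | .tp, x, _ => 4 / 3 * x 3 + (x 2 + K) / 3 - Ar K ![x 0, x 1]
  | .jj, x, _ => 4 / 3 * x 3 + (x 2 + K) / 3 +
      max 0 ((x 1 - x 3) - ((x 1 - x 3) - (x 2 - v)) / 3 - c) - Ar K ![x 0, x 1]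
  | .t0, x, _ => 4 / 3 * x 3 + (x 2 + K) / 3 + e - Ar K ![x 0, x 1]
  | .q j, x, θ => 4 / 3 * θ.1.1 0 + (θ.1.1 1 + K) / 3 +
      (L j).F ![K, θ.1.1 1, θ.1.1 0, x 2, x 3] θ.2.1 - Ar K ![x 0, x 1]

/-- the unconditional exponent: `(2 n) ∨ (2/3 v + 5/3 n - d₀ + c) + (k + K - 2 n)⁺ / 3` -/
def Ax (K v c d₀ : ℝ) (x : Fin 2 → ℝ) : ℝ :=
  max (2 * x 1) (2 / 3 * v + 5 / 3 * x 1 - d₀ + c) + max 0 ((x 0 + K - 2 * x 1) / 3)

/-- **the recursion, class E, finite text**: parent `k + 50 c ≤ v`, `2 n + 100 c ≤ K + v`,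
`6 n ≤ 5 K`, `3 K ≤ 4 n`, `(v + n - K) / 3 ≤ d₀`, three lumps, the first two `≥ d₀ + 2 c`; premises for the children of the
list (`false`) and of the replaced list `rp (d₀ log X)` (`true`, (T0) without loss) -/
def RgFinX (S₀ : Lam → ℝ → List Pq → ℝ) (L : ι → Line Lam p) (ε₀ K v c d₀ : ℝ) : Prop :=
  HRcG Dq hcost S₀ (fun j : Bool × RI ι => Phr S₀ L j.2) (fun j => br L K j.2)
    (fun j => rbx d₀ j.1)
    (fun j => Gr L K v c j.2) (fun j => FrX L K v c (if j.1 = true then 0 else c / 3) j.2)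
    (HpX (fun x => max (max (max (x 0 + 50 * c - v) (2 * x 1 + 100 * c - K - v))
      (max (6 * x 1 - 5 * K) (3 * K - 4 * x 1))) ((v + x 1 - K) / 3 - d₀)) ε₀ (d₀ + 2 * c))
    (Ax K v c d₀) (fun j => zr L j.2) (TK K)

set_option maxHeartbeats 1600000 in
theorem rgx_of_fin [Finite ι] {S₀ : Lam → ℝ → List Pq → ℝ} {L : ι → Line Lam p}
    (hL : ∀ j, (L j).OK) (hS : FunOK S₀)
    (hSm : ∀ lam l l' ps, l ≤ l' → S₀ lam l ps ≤ S₀ lam l' ps) {ε₀ K v c d₀ : ℝ} (hε₀ : 0 < ε₀)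
    (hc : 0 < c)
    (hfin : RgFinX S₀ L ε₀ K v c d₀) {y₁ y₂ y₃ m a n F : ℝ} (h3 : 0 ≤ y₃) (hm : 0 ≤ m)
    (ha : 0 ≤ a) (hd : 0 ≤ d₀) (hd1 : d₀ + 2 * c ≤ y₁) (hd2 : d₀ + 2 * c ≤ y₂)
    (hn : n = y₁ + y₂ + y₃ + m + a) (h1 : 2 * n + 100 * c ≤ K + v) (hnK : 6 * n ≤ 5 * K)
    (h34 : 3 * K ≤ 4 * n)
    (hF : 0 ≤ F) (hdv : (v + n - K) / 3 ≤ d₀)
    (hbias : 2 / 3 * v + 5 / 3 * n - d₀ + c ≤ 2 * n + F)
    (hP : PremRG c (c / 3) (ex Dq S₀) (QG L) K v n F {y₁, y₂, y₃} m a)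
    (hP' : PremRG c 0 (ex Dq S₀) (QG L) K v n F {y₁ + y₂ - d₀, d₀, y₃} m a)
    {v' : ℝ} (hv0 : 0 ≤ v') (hv1 : v' + 50 * c ≤ v) :
    ex Dq S₀ v' {y₁, y₂, y₃} m a ≤ 2 * n + F + max 0 ((v' + K - 2 * n) / 3) := by
  have hn0 : 0 ≤ n := by linarith
  have hmx : 0 ≤ max 0 ((v' + K - 2 * n) / 3) := le_max_left _ _
  have hcA := continuous_Ar K
  have hPP : ∀ b : Bool, PremRG c (if b = true then 0 else c / 3) (ex Dq S₀) (QG L) K v n F
      (Yx d₀ y₁ y₂ y₃ b) m a := by
    rintro (_ | _)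
    · exact hP
    · exact hP'
  have hYn : ∀ b, (Yx d₀ y₁ y₂ y₃ b).sum + m + a = n := fun b => by rw [Yx_sum, hn]
  have hok : ∀ b, Ok (Yx d₀ y₁ y₂ y₃ b) m a := by
    rintro (_ | _)
    · exact ok3 (by linarith) (by linarith) h3 hm ha
    · exact ok3 (by linarith) hd h3 hm ha
  have hsumu : (∑ i, (![y₁, y₂, y₃] : Fin 3 → ℝ) i) = y₁ + y₂ + y₃ := by
    rw [Fin.sum_univ_three]; rfl
  have c0 : Continuous fun x : (Fin 4 → ℝ) × (Th 2 K × Th p K) => x.2.1.1 0 :=
    (continuous_apply 0).comp (continuous_subtype_val.comp (continuous_fst.comp continuous_snd))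
  have c1 : Continuous fun x : (Fin 4 → ℝ) × (Th 2 K × Th p K) => x.2.1.1 1 :=
    (continuous_apply 1).comp (continuous_subtype_val.comp (continuous_fst.comp continuous_snd))
  have key := ruleBGg (Θ := Th 2 K × Th p K) (D := Dq) (cost := hcost) (Ψ := S₀)
    (Φ := fun j : Bool × RI ι => Phr S₀ L j.2) (bθ := fun j => br L K j.2)
    (rb := fun j => rbx d₀ j.1) (u := ![y₁, y₂, y₃]) (ub := fun j => ubx d₀ y₁ y₂ y₃ j.1)
    (m := m) (a := a) (E := 2 * n + F + max 0 ((v' + K - 2 * n) / 3)) (κ := v') ?_ ?_ one_le_hcost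
    (fun q => by
      show 1 ≤ 1 + |q.t|
      linarith [abs_nonneg q.t]) ?_ ?_ ?_ hSm hfin ?_ hv0 ?_ ?_ hm ha ?_
    (parOK_HpX ?_ hε₀ ?_ hd1 hd2) ?_ ?_
  · have := ex_le hS.perm (by linarith) key
    rwa [ofFn3] at this
  · rintro ⟨b, _ | _ | _ | j⟩
    · exact continuous_const
    · exact continuous_const
    · exact continuous_const
    · exact (hL j).cb.comp (continuous_subtype_val.comp continuous_snd)
  · rintro ⟨b, _ | _ | _ | j⟩ θ
    · exact le_rfl
    · exact le_rfl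
    · exact le_rfl
    · exact (hL j).b0 _ θ.2.2.1
  · rintro ⟨b, _ | _ | _ | j⟩
    · exact Continuous.max (by fun_prop) (Continuous.max (by fun_prop) (by fun_prop))
    · exact Continuous.max (by fun_prop) (by fun_prop)
    · exact Continuous.max (by fun_prop) (by fun_prop)
    · refine Continuous.max (Continuous.max (c0.sub (by fun_prop)) (Continuous.sub (by fun_prop) c0))
        (Continuous.max (Continuous.max (Continuous.sub (Continuous.sub (by fun_prop) c0)
          (by fun_prop)) (Continuous.sub (c1.sub (by fun_prop))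
            (Continuous.sub (by fun_prop) c0))) ?_)
      exact (hL j).cG.comp ((cont5 continuous_const c1 c0 (by fun_prop)
        (by fun_prop)).prodMk (continuous_subtype_val.comp (continuous_snd.comp continuous_snd)))
  · have hA2 : Continuous fun x : (Fin 4 → ℝ) × (Th 2 K × Th p K) => Ar K ![x.1 0, x.1 1] :=
      hcA.comp (cont2 (by fun_prop) (by fun_prop))
    rintro ⟨b, _ | _ | _ | j⟩
    · exact Continuous.sub (by fun_prop) hA2
    · exact Continuous.sub (by fun_prop) hA2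
    · exact Continuous.sub (by fun_prop) hA2
    · refine Continuous.sub (Continuous.add ((continuous_const.mul c0).add
        ((c1.add continuous_const).div_const 3)) ?_) hA2
      exact (hL j).cF.comp ((cont5 continuous_const c1 c0 (by fun_prop)
        (by fun_prop)).prodMk (continuous_subtype_val.comp (continuous_snd.comp continuous_snd)))
  · unfold Ax
    fun_prop
  · rintro ⟨b, _ | _ | _ | j⟩
    · exact hS.triv2
    · exact hS.triv2
    · exact hS.triv2
    · exact (hL j).tr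
  · intro i
    fin_cases i
    · show 0 ≤ y₁
      linarith
    · show 0 ≤ y₂
      linarith
    · exact h3
  · intro j i
    have := (hok j.1).1
    rw [← ofFn_ubx] at this
    exact this _ (Multiset.mem_coe.2 ((List.mem_ofFn' _ _).2 ⟨i, rfl⟩))
  · intro j
    show BaseG Dq (rbx d₀ j.1) ![y₁, y₂, y₃] (ubx d₀ y₁ y₂ y₃ j.1)
    cases j.1 with
    | false => exact baseG_id _
    | true => exact baseG_rp hd (Or.inl (by linarith))
  · exact Continuous.max (Continuous.max (Continuous.max (by fun_prop) (by fun_prop))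
      (Continuous.max (by fun_prop) (by fun_prop))) (by fun_prop)
  · rw [hsumu]
    have e : (wt m a) Kd.mo + (wt m a) Kd.am = m + a := rfl
    rw [e, ← add_assoc, ← hn]
    show max (max (max (v' + 50 * c - v) (2 * n + 100 * c - K - v))
      (max (6 * n - 5 * K) (3 * K - 4 * n))) ((v + n - K) / 3 - d₀) ≤ 0
    exact max_le (max_le (max_le (by linarith) (by linarith)) (max_le (by linarith) (by linarith)))
      (by linarith)
  · rw [hsumu, ← hn]
    show max (2 * n) (2 / 3 * v + 5 / 3 * n - d₀ + c) + max 0 ((v' + K - 2 * n) / 3) ≤ _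
    have := max_le (show 2 * n ≤ 2 * n + F by linarith) hbias
    linarith
  · rintro ⟨b, j⟩ θ u' m' a' l h0 h1' hm0 hm1 ha0 ha1 hl hlc hG hz
    have hsh := sh_of_ubx h0 h1'
    have hsu : (∑ i, u' i) = (List.ofFn u').sum := by rw [List.sum_ofFn]
    have hsb : (∑ i, ubx d₀ y₁ y₂ y₃ b i) + m + a = n := by rw [ubx_sum, hn]
    rw [hsu] at hG ⊢
    have e4 : ((b, j) : Bool × RI ι).1 = b := rfl
    rw [e4] at hG hsh ⊢
    rw [hsb] at hG ⊢
    have hzy : zr L j → ∀ y ∈ List.ofFn u', y ≤ l := fun hzj y hy' => by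
      obtain ⟨i, rfl⟩ := (List.mem_ofFn' _ _).1 hy'
      exact hz hzj i
    obtain ⟨U, hU⟩ : ∃ U : List ℝ, U = List.ofFn u' := ⟨_, rfl⟩
    rw [← hU] at hG hsh hzy ⊢
    clear hz
    obtain ⟨pT, pJ, p0, pR⟩ := hPP b
    rcases j with _ | _ | _ | j
    · have hG' : max (c - (n - (U.sum + m' + a'))) (max (n - (U.sum + m' + a') - 2 * c)
        (l - v - (n - (U.sum + m' + a')))) ≤ 0 := hG
      have g1 := (le_max_left _ _).trans hG'
      have g2 := (le_max_left _ _).trans ((le_max_right _ _).trans hG')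
      have g3 := (le_max_right _ _).trans ((le_max_right _ _).trans hG')
      refine hS.bg2 hl ⟨hsh.nn, hm0, ha0⟩ ?_
      have h := pT (U : Multiset ℝ) m' a' (U.sum + m' + a') l hsh hm0 hm1 ha0 ha1
        (by rw [Multiset.sum_coe]) (by linarith) (by linarith) hl (by linarith)
      refine h.trans (le_of_eq ?_)
      show _ = 2 * n + F + max 0 ((v' + K - 2 * n) / 3) + (4 / 3 * (U.sum + m' + a') +
        (l + K) / 3 - (2 * n + max 0 ((v' + K - 2 * n) / 3)))
      ring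
    · have hG' : max (2 * c - (n - (U.sum + m' + a'))) (l - v - (n - (U.sum + m' + a'))) ≤ 0 := hG
      have g1 := (le_max_left _ _).trans hG'
      have g3 := (le_max_right _ _).trans hG'
      refine hS.bg2 hl ⟨hsh.nn, hm0, ha0⟩ ?_
      have h := pJ (U : Multiset ℝ) m' a' (U.sum + m' + a') l
        (((n - (U.sum + m' + a')) - (l - v)) / 3) _ hsh hm0 hm1 ha0 ha1
        (by rw [Multiset.sum_coe]) (by linarith) hl (by linarith) (by ring) rfl
      refine h.trans (le_of_eq ?_)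
      show _ = 2 * n + F + max 0 ((v' + K - 2 * n) / 3) + (4 / 3 * (U.sum + m' + a') +
        (l + K) / 3 + max 0 ((n - (U.sum + m' + a')) - ((n - (U.sum + m' + a')) - (l - v)) / 3 - c)
          - (2 * n + max 0 ((v' + K - 2 * n) / 3)))
      ring
    · have hG' : max (n - (U.sum + m' + a') - 2 * c) (l - v - (n - (U.sum + m' + a'))) ≤ 0 := hG
      have g1 := (le_max_left _ _).trans hG'
      have g3 := (le_max_right _ _).trans hG'
      refine hS.bg2 hl ⟨hsh.nn, hm0, ha0⟩ ?_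
      have h := p0 (U : Multiset ℝ) m' a' (U.sum + m' + a') l hsh hm0 hm1 ha0 ha1
        (by rw [Multiset.sum_coe]) (by linarith) hl (by linarith)
      refine h.trans (le_of_eq ?_)
      show _ = 2 * n + F + max 0 ((v' + K - 2 * n) / 3) + (4 / 3 * (U.sum + m' + a') +
        (l + K) / 3 + (if b = true then 0 else c / 3) - (2 * n + max 0 ((v' + K - 2 * n) / 3)))
      ring
    · obtain ⟨n₁, hn₁⟩ : ∃ x, x = θ.1.1 0 := ⟨_, rfl⟩
      obtain ⟨v₁, hv₁⟩ : ∃ x, x = θ.1.1 1 := ⟨_, rfl⟩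
      have hv₁0 : 0 ≤ v₁ := hv₁ ▸ θ.1.2.1 1
      have hG' : max (max (θ.1.1 0 - n) ((U.sum + m' + a') - θ.1.1 0))
        (max (max (n - θ.1.1 0 - 2 * c) (θ.1.1 1 - v - (n - θ.1.1 0)))
        ((L j).G ![K, θ.1.1 1, θ.1.1 0, l, U.sum + m' + a'] θ.2.1)) ≤ 0 := hG
      rw [← hn₁, ← hv₁] at hG'
      have g1 := (le_max_left _ _).trans ((le_max_left _ _).trans hG')
      have g2 := (le_max_right _ _).trans ((le_max_left _ _).trans hG')
      have g3 := (le_max_left _ _).trans ((le_max_left _ _).trans ((le_max_right _ _).trans hG'))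
      have g4 := (le_max_right _ _).trans ((le_max_left _ _).trans ((le_max_right _ _).trans hG'))
      have g5 := (le_max_right _ _).trans ((le_max_right _ _).trans hG')
      obtain ⟨Z, m₁, a₁, z1, z2, z3, z4, z5, z6, z7⟩ := mid hsh hm1 ha1 (x := n₁)
        (by rw [Multiset.sum_coe]; linarith) (by rw [hYn]; linarith)
      have hq := (pR Z m₁ a₁ n₁ v₁ z2 (by linarith) z4 (by linarith) z6 z7 (by linarith) hv₁0
        (by linarith)).2 j θ.2 U m' a' l z1 hm0 z3 ha0 z5 hl hlc (by rw [← z7]; exact g5) hzy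
      rw [← z7] at hq
      show BG2 Dq (L j).Φ l ((L j).b θ.2.1) U (wt m' a') (2 * n + F +
        max 0 ((v' + K - 2 * n) / 3) +
        (4 / 3 * θ.1.1 0 + (θ.1.1 1 + K) / 3 +
          (L j).F ![K, θ.1.1 1, θ.1.1 0, l, U.sum + m' + a'] θ.2.1 -
          (2 * n + max 0 ((v' + K - 2 * n) / 3))))
      rw [← hn₁, ← hv₁]
      refine hq.mono (le_of_eq ?_)
      ring

end Crest.Agent.R017.RGB545
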