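import Crest.Agent.R017.RXk_848
import Crest.Agent.R017.RGB6_545

/-!
# Row 17, T.7 (RG rule, exceptional class): the leaf of the R-side (helper848)

* `LnP` : the premises of a family of lines for the children of a base list
* `RLeafX` : the R-side hypotheses of the lower bound for the differences, from the lines (for the
  children of the list and of the replaced list) and the numbers (SA0), (L+)
* `RLeafXL` : the same with a constant `Λ` chosen by the leaf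
-/

set_option autoImplicit false

noncomputable section

open Complex
open scoped ComplexConjugate

namespace Crest.Agent.R017.RXk848

open Crest.Agent.R012 Crest.Agent.R012.Eis Crest.Agent.R012.LS2 Crest.Agent.R012.Gauss880
open Crest.Agent.R017.CM106 Crest.Agent.R017.HP842 Crest.Agent.R017.FE47
open Crest.Agent.R017.End699 hiding pw
open Crest.Agent.R017.B770
open Crest.Agent.R017.Prov71
open Crest.Agent.R017.Leg381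
open Crest.Agent.R017.RG64
open Crest.Agent.R017.RGB545 (Line Th TK rbx)
open Crest.Agent.R017.XP699 (LL Chd hcost cst)
open Crest.Agent.R017.RX298 (xs)

variable {Lam ι : Type*} {p : ℕ}

/-- **the premises of the lines**, for the children (constants `r`, `bm`) of the list `base`,
target `(n₁, v₁)` (over `log X`), bound `Bd` -/
def LnP (L : ι → Line Lam p) (lam : Lam) (K ε M r bm X n₁ v₁ Bd : ℝ) (base : List Pq) : Prop :=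
  ∀ (j : ι) (θ : Th p K) (l : ℝ) (ps' : List Pq), 0 ≤ l → l ≤ TK K * Real.log X →
    List.Forall₂ (Chd Dq hcost r bm) ps' base →
    LL Dq ps' ≤ (n₁ + ε) * Real.log X →
    (L j).G ![K, v₁, n₁, l / Real.log X, LL Dq ps' / Real.log X] θ.1 ≤ ε →
    ((L j).zl → ∀ q ∈ ps', Dq.lump q → Dq.len q ≤ l + ε * Real.log X) →
    (L j).Φ lam l ((L j).b θ.1 * Real.log X) ps' ≤ Bd * cst hcost ps' base ^ M *
      X ^ (4 / 3 * n₁ + (v₁ + K) / 3 +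
        (L j).F ![K, v₁, n₁, l / Real.log X, LL Dq ps' / Real.log X] θ.1)

/-- three lumps in front, the first two at least `x` -/
def Lmp (x : ℝ) : List Pq → Prop
  | p₁ :: p₂ :: p₃ :: _ => Dq.lump p₁ ∧ Dq.lump p₂ ∧ Dq.lump p₃ ∧ x ≤ p₁.z ∧ x ≤ p₂.z
  | _ => False

/-- the exponent of the bias of the differences, `(n₁, v₁)` over `log X`, relative to `2 n₁` -/
def bX (K c d₀ y n₁ v₁ : ℝ) : ℝ := max 0 (y * c + (v₁ + n₁ - K) / 3 - d₀)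

/-- **the R-side hypotheses from the lines** (exceptional class; `π` = the reduced data): base `X`,
`K ↦ X ^ K`, `E0 = X ^ c`, `Y = X ^ b`, `D0 = X ^ δ`; `RR` = the R-numbers (as in helper64's `RLeaf`);
the numbers (SA0), (L+) of the difference may be used with the factor `X ^ (- c / 2)`, the bias is
`X ^ (y c + (v₁ + n₁ - K) / 3 - d₀)` -/
def RLeafX (π : Lam → DPar) (h : ℝ → ℝ) (RR : LBp → (Eis → ℂ) → ℝ → Prop) (L : ι → Line Lam p)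
    (K c b d₀ y : ℝ) : Prop :=
  ∀ (lam : Lam) (N : ℕ) (c₀ : ℝ), 1 ≤ c₀ → ∃ B₀ : ℝ, 0 ≤ B₀ ∧ ∀ ε M : ℝ, 0 < ε → 0 ≤ M →
    ∃ J₀ δ₀ : ℝ, 0 ≤ J₀ ∧ 0 < δ₀ ∧ ∀ (δ : ℝ) (Jn Aw : ℕ) (Cw R η S : ℝ), 0 ≤ δ → δ ≤ δ₀ →
    J₀ ≤ Jn → Jn + 2 ≤ Aw → 0 ≤ Cw → 0 ≤ R → 0 < η → η ≤ 1 / 2 → 0 ≤ S →
    ∃ C r X₁ : ℝ, 0 ≤ C ∧ 0 ≤ r ∧ ∀ X : ℝ, 3 ≤ X → X₁ ≤ X → ∀ ps₀ : List Pq, ps₀.length ≤ N →
    (∀ q ∈ ps₀, 0 ≤ Dq.len q ∧ Dq.len q ≤ c₀ * Real.log X) → (∀ q ∈ ps₀, Dq.s2 q ≤ X ^ c₀) →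
    Lmp ((d₀ + 3 / 2 * c) * Real.log X) ps₀ →
    ∀ (q : Eis) (ps : List Pf) (Lv : ℝ) (N₀ N₁ : ℕ), RFacts K c ε X ps₀ ps Lv N₀ N₁ →
    IsPrim q → (nm q : ℝ) ≤ X ^ c₀ → SbL S ps ps₀ → ∀ Bd Ma Ml : ℝ, 1 ≤ Bd → 0 ≤ Ma → 0 ≤ Ml →
    (∀ t : Bool, LnP L lam K ε M r (C * X ^ B₀) X (LF ps / Real.log X) (Lv / Real.log X) Bd
      (rbx d₀ t X ps₀)) →
    NumS ⟨Cw, η, Aw, X ^ K, Real.exp (LF ps), X ^ b, R, Jn, N₀, N₁, X ^ c, X ^ c,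
      X ^ c⟩
      (xs q (X ^ δ) (X ^ δ) (π lam) h (d₀ * Real.log X) ps) Ma →
    NumL ⟨Cw, η, Aw, X ^ K, Real.exp (LF ps), X ^ b, R, Jn, N₀, N₁, X ^ c, X ^ c,
      X ^ c⟩
      (xs q (X ^ δ) (X ^ δ) (π lam) h (d₀ * Real.log X) ps) Ml →
    RR ⟨Cw, η, Aw, X ^ K, Real.exp (LF ps), X ^ b, R, Jn, N₀, N₁, X ^ c, X ^ c,
      X ^ c⟩
      (xs q (X ^ δ) (X ^ δ) (π lam) h (d₀ * Real.log X) ps)
      (C * X ^ ε * (Ht ps * Ht (natl ps₀)) ^ J₀ *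
          (X ^ bX K c d₀ y (LF ps / Real.log X) (Lv / Real.log X) + Bd) * Real.exp (2 * LF ps) +
        C * X ^ ε * X ^ (-(c / 2)) * (Ma + Ml))

/-- `RLeafX` with a constant `Λ` chosen by the leaf (levels up to `Λ N₁` in the T-parts of the
lower bound) -/
def RLeafXL (π : Lam → DPar) (h : ℝ → ℝ) (RR : ℝ → LBp → (Eis → ℂ) → ℝ → Prop)
    (L : ι → Line Lam p) (K c b d₀ y : ℝ) : Prop :=
  ∀ (lam : Lam) (N : ℕ) (c₀ : ℝ), 1 ≤ c₀ → ∃ B₀ : ℝ, 0 ≤ B₀ ∧ ∀ ε M : ℝ, 0 < ε → 0 ≤ M →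
    ∃ J₀ δ₀ : ℝ, 0 ≤ J₀ ∧ 0 < δ₀ ∧ ∀ (δ : ℝ) (Jn Aw : ℕ) (Cw R η S : ℝ), 0 ≤ δ → δ ≤ δ₀ →
    J₀ ≤ Jn → Jn + 2 ≤ Aw → 0 ≤ Cw → 0 ≤ R → 0 < η → η ≤ 1 / 2 → 0 ≤ S →
    ∃ C r X₁ Λ : ℝ, 0 ≤ C ∧ 0 ≤ r ∧ 1 ≤ Λ ∧ ∀ X : ℝ, 3 ≤ X → X₁ ≤ X → ∀ ps₀ : List Pq,
    ps₀.length ≤ N →
    (∀ q ∈ ps₀, 0 ≤ Dq.len q ∧ Dq.len q ≤ c₀ * Real.log X) → (∀ q ∈ ps₀, Dq.s2 q ≤ X ^ c₀) →
    Lmp ((d₀ + 3 / 2 * c) * Real.log X) ps₀ →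
    ∀ (q : Eis) (ps : List Pf) (Lv : ℝ) (N₀ N₁ : ℕ), RFacts K c ε X ps₀ ps Lv N₀ N₁ →
    IsPrim q → (nm q : ℝ) ≤ X ^ c₀ → SbL S ps ps₀ → ∀ Bd Ma Ml : ℝ, 1 ≤ Bd → 0 ≤ Ma → 0 ≤ Ml →
    (∀ t : Bool, LnP L lam K ε M r (C * X ^ B₀) X (LF ps / Real.log X) (Lv / Real.log X) Bd
      (rbx d₀ t X ps₀)) →
    NumS ⟨Cw, η, Aw, X ^ K, Real.exp (LF ps), X ^ b, R, Jn, N₀, N₁, X ^ c, X ^ c,
      X ^ c⟩
      (xs q (X ^ δ) (X ^ δ) (π lam) h (d₀ * Real.log X) ps) Ma →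
    NumL ⟨Cw, η, Aw, X ^ K, Real.exp (LF ps), X ^ b, R, Jn, N₀, N₁, X ^ c, X ^ c,
      X ^ c⟩
      (xs q (X ^ δ) (X ^ δ) (π lam) h (d₀ * Real.log X) ps) Ml →
    RR Λ ⟨Cw, η, Aw, X ^ K, Real.exp (LF ps), X ^ b, R, Jn, N₀, N₁, X ^ c, X ^ c,
      X ^ c⟩
      (xs q (X ^ δ) (X ^ δ) (π lam) h (d₀ * Real.log X) ps)
      (C * X ^ ε * (Ht ps * Ht (natl ps₀)) ^ J₀ *
          (X ^ bX K c d₀ y (LF ps / Real.log X) (Lv / Real.log X) + Bd) * Real.exp (2 * LF ps) +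
        C * X ^ ε * X ^ (-(c / 2)) * (Ma + Ml))

end Crest.Agent.R017.RXk848
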