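import Crest.Agent.R017.RLd_381
import Crest.Agent.R017.RGN1_545
import Crest.Agent.R017.QcN_791
import Crest.Agent.R017.RXl_848

/-!
# Row 17, T.5 (helper791): the squares of NT at the leaf (class N)

* `SqLn`        : what the line (sq) is used for
* `lineB_of_LnP`: the premises of the lines give the hypothesis `LineB` of the square numbers
* `nsq_leaf`    : `RLeaf π h (BeAll (NSq W)) L K c b` from a line (sq)
* `nsq_LN`      : the same for `LN`
-/

set_option autoImplicit false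
set_option maxHeartbeats 400000

noncomputable section

open Complex
open scoped ComplexConjugate

namespace Crest.Agent.R017.SqB791

open Crest.Agent.R012 Crest.Agent.R012.Eis Crest.Agent.R012.LS2 Crest.Agent.R012.Gauss880
open Crest.Agent.R012.MC (Wgt)
open Crest.Agent.R012.Weight600 (osc pw)
open Crest.Agent.R017.CM106 Crest.Agent.R017.FE47
open Crest.Agent.R017.B770
open Crest.Agent.R017.Prov71
open Crest.Agent.R017.HP842 (sqc)
open Crest.Agent.R017.XP699 (LL Chd cst hcost)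
open Crest.Agent.R017.Leg381 (Pf alF LF natl)
open Crest.Agent.R017.Win813 (WK)
open Crest.Agent.R017.RGw813 (bt T9)
open Crest.Agent.R017.RG64 (SbL Ht one_le_Ht LBp RFacts RLeaf)
open Crest.Agent.R017.LBu180 (SqQ)
open Crest.Agent.R017.RlB791
open Crest.Agent.R017.RGB545 (Line Th TK LN IN FN GN EN one)
open Crest.Agent.R017.XPD571 (RF0 RX)
open Crest.Agent.R017.RXk848 (LnP)
open Crest.Agent.R017.RLD381 (Numb BeAll NSq NSp KmE hE)

variable {Lam ι : Type*} {d : ℕ}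

/-- what the line (sq) is used for -/
structure SqLn (Ψ : Lam → ℝ → List Pq → ℝ) (c : ℝ) (L : Line Lam d) : Prop where
  Φ : ∀ lam l β ps, Ψ lam l ps ≤ L.Φ lam l β ps
  G : ∀ x θ, L.G x θ ≤ max (x 3 - x 0) (c - (x 2 - x 4))
  F : ∀ x θ, L.F x θ ≤ -((x 0 - x 3) / 3 + (x 2 - x 4) + (x 1 + x 2 - 2 * x 0) / 3)
  zl : ¬ L.zl

/-- the line of class N -/
theorem sqLn_LN (π : Lam → DPar) (h : ℝ → ℝ) (c μ : ℝ) : SqLn (RF0 π h) c (LN π h c μ IN.sq) where
  Φ _ _ _ _ := le_rfl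
  G _ _ := le_rfl
  F _ _ := le_rfl
  zl := id

/-- **the premises of the lines give `LineB`** -/
theorem lineB_of_LnP {Q : Lam → Eis → Prop} {π : Lam → DPar} {h : ℝ → ℝ} {L : ι → Line Lam d}
    {j : ι} {c : ℝ} (HL : SqLn (RX Q π h) c (L j)) {lam : Lam} {K ε M r bm X n₁ v₁ Bd : ℝ}
    {base : List Pq} (hX : 3 ≤ X) (hK : 0 ≤ K) (hBd : 0 ≤ Bd)
    (H : LnP L lam K ε M r bm X n₁ v₁ Bd base) {ε₁ K' A : ℝ} (h1 : ε₁ ≤ ε)
    (h2 : ε₁ ≤ 1) (hK' : K' ≤ K) (hc : 0 ≤ c) (hA : c * Real.log X ≤ A) :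
    LineB (Q lam) (π lam) h X r bm ε₁ M K' ((K' + 2 * K + ε₁) / 3) Bd base
      (n₁ * Real.log X - A) := by
  intro l ps' hl0 hl hch hLL
  have hX0 : 0 < X := by linarith
  have hX1 : 1 < X := by linarith
  have hl : l ≤ (K' + ε₁) * Real.log X := hl
  have hlX : 0 < Real.log X := Real.log_pos hX1
  have hTK : 0 ≤ TK K := by unfold RGB545.TK; positivity
  have hA0 : 0 ≤ c * Real.log X := by positivity
  have key := H j ⟨0, by
      constructor
      · exact le_rfl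
      · intro i; exact hTK⟩ l ps' hl0 (by
      refine hl.trans (mul_le_mul_of_nonneg_right ?_ hlX.le)
      unfold RGB545.TK
      linarith) hch (by nlinarith) (by
      refine (HL.G _ _).trans (max_le ?_ ?_)
      · show l / Real.log X - K ≤ ε
        have : l / Real.log X ≤ K' + ε₁ := by rw [div_le_iff₀ hlX]; exact hl
        linarith
      · show c - (n₁ - LL Dq ps' / Real.log X) ≤ ε
        have : LL Dq ps' / Real.log X ≤ n₁ - c + ε₁ := by
          rw [div_le_iff₀ hlX]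
          nlinarith
        linarith) (fun hz => absurd hz HL.zl)
  refine ((HL.Φ lam l _ ps').trans key).trans ?_
  have hcs : 0 ≤ cst hcost ps' base ^ M :=
    Real.rpow_nonneg (by linarith [one_le_cst ps' base]) _
  refine mul_le_mul_of_nonneg_left (Real.rpow_le_rpow_of_exponent_le hX1.le ?_) (by positivity)
  have h3 := HL.F ![K, v₁, n₁, l / Real.log X, LL Dq ps' / Real.log X] 0
  have h4 : (L j).F ![K, v₁, n₁, l / Real.log X, LL Dq ps' / Real.log X] 0 ≤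
      -((K - l / Real.log X) / 3 + (n₁ - LL Dq ps' / Real.log X) + (v₁ + n₁ - 2 * K) / 3) := h3
  have h5 : l / Real.log X ≤ K' + ε₁ := by rw [div_le_iff₀ hlX]; exact hl
  linarith

/-- the premise of `RLeaf` -/
lemma lnP_of {L : ι → Line Lam d} {lam : Lam} {K ε M r bm X Lf Lv Bd : ℝ} {base : List Pq}
    (hX : 3 ≤ X)
    (H : ∀ (j : ι) (θ : Th d K) (l : ℝ) (ps' : List Pq), 0 ≤ l → l ≤ TK K * Real.log X →
      List.Forall₂ (Chd Dq hcost r bm) ps' base →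
      LL Dq ps' ≤ Lf + ε * Real.log X →
      (L j).G ![K, Lv / Real.log X, Lf / Real.log X, l / Real.log X,
        LL Dq ps' / Real.log X] θ.1 ≤ ε →
      ((L j).zl → ∀ q ∈ ps', Dq.lump q → Dq.len q ≤ l + ε * Real.log X) →
      (L j).Φ lam l ((L j).b θ.1 * Real.log X) ps' ≤ Bd * cst hcost ps' base ^ M *
        X ^ (4 / 3 * (Lf / Real.log X) + (Lv / Real.log X + K) / 3 +
          (L j).F ![K, Lv / Real.log X, Lf / Real.log X, l / Real.log X,
            LL Dq ps' / Real.log X] θ.1)) :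
    LnP L lam K ε M r bm X (Lf / Real.log X) (Lv / Real.log X) Bd base := by
  intro j θ l ps' h0 h1 h2 h3 h4 h5
  refine H j θ l ps' h0 h1 h2 (h3.trans_eq ?_) h4 h5
  have : Real.log X ≠ 0 := (Real.log_pos (by linarith)).ne'
  field_simp

lemma log_mul_div {X Lf : ℝ} (hX : 3 ≤ X) : Lf / Real.log X * Real.log X = Lf :=
  div_mul_cancel₀ _ (Real.log_pos (by linarith)).ne'

/-- the final inequality -/
lemma nsq_final {X K K'' ε₁ ε C J₀ M H Bd Lf na T : ℝ} {Jn : ℕ} (hX : 3 ≤ X) (hC : 0 ≤ C)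
    (hε : ε₁ + ε₁ / 3 ≤ ε) (hH : 1 ≤ H) (hJ : M ≤ J₀) (hBd : 0 ≤ Bd) (hna : 0 < na) :
    C * X ^ ε₁ * H ^ M * Bd * (X ^ ((K'' + 2 * K + ε₁) / 3) * Real.exp Lf / na) *
      (1 + |T|) ^ Jn ≤
    (X ^ K'' / X ^ K) ^ (1 / 3 : ℝ) * (na⁻¹ * ((X ^ K / Real.exp Lf) *
      ((C * X ^ ε * H ^ J₀ * Bd * Real.exp (2 * Lf)) * (1 + |T|) ^ Jn))) := by
  have hX0 : 0 < X := by linarith
  have hX1 : 1 ≤ X := by linarith
  have e1 : Real.exp (2 * Lf) = Real.exp Lf * Real.exp Lf := by rw [← Real.exp_add]; congr 1; ring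
  have e2 : (X ^ K'' / X ^ K) ^ (1 / 3 : ℝ) * X ^ K = X ^ ((K'' + 2 * K) / 3) := by
    rw [← Real.rpow_sub hX0, ← Real.rpow_mul hX0.le, ← Real.rpow_add hX0]
    congr 1
    ring
  have e3 : X ^ ε₁ * X ^ ((K'' + 2 * K + ε₁) / 3) ≤ X ^ ε * X ^ ((K'' + 2 * K) / 3) := by
    rw [← Real.rpow_add hX0, ← Real.rpow_add hX0]
    refine Real.rpow_le_rpow_of_exponent_le hX1 ?_
    linarith
  have e4 : H ^ M ≤ H ^ J₀ := Real.rpow_le_rpow_of_exponent_le hH hJ
  have hT : 0 ≤ (1 + |T|) ^ Jn := pow_nonneg (by positivity) _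
  have hE : 0 < Real.exp Lf := Real.exp_pos _
  calc _ = (X ^ ε₁ * X ^ ((K'' + 2 * K + ε₁) / 3)) * H ^ M * (C * Bd * (Real.exp Lf / na) *
        (1 + |T|) ^ Jn) := by ring
    _ ≤ (X ^ ε * X ^ ((K'' + 2 * K) / 3)) * H ^ J₀ * (C * Bd * (Real.exp Lf / na) *
        (1 + |T|) ^ Jn) := by gcongr
    _ = _ := by
      rw [← e2, e1]
      field_simp

/-- **the squares of NT at the leaf** (class N and natural lists) -/
theorem nsq_leaf {π : Lam → DPar} (hP : ∀ lam, (π lam).OK) {h : ℝ → ℝ} {c₁ : ℝ} (hpu : PU h c₁)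
    {W : ℝ → ℝ} (hW : Wgt W) {L : ι → Line Lam d} {j : ι} {K c b : ℝ} (hc : 0 ≤ c)
    (hK : 50 * c ≤ K) (HL : SqLn (RF0 π h) c (L j)) :
    RLeaf π h (BeAll (NSq W)) L K c b := by
  intro lam N c₀ hc₀
  refine ⟨max c₀ b, by have := le_max_left c₀ b; linarith, fun ε M hε hM => ?_⟩
  set c₂ : ℝ := max c₀ b with hc₂
  have hc₂c : c₀ ≤ c₂ := le_max_left _ _
  have hc₂b : b ≤ c₂ := le_max_right _ _
  set ε₁ : ℝ := min (ε / 2) 1 with hε₁
  have hε₁0 : 0 < ε₁ := lt_min (by linarith) one_pos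
  have hε₁a : ε₁ ≤ ε / 2 := min_le_left _ _
  have hε₁b : ε₁ ≤ 1 := min_le_right _ _
  obtain ⟨J₀, δ₀, hJ₀, hδ₀, G⟩ := sq_alr hpu hW N (hc₀.trans hc₂c) hε₁0 hM
  refine ⟨max J₀ M, δ₀, hJ₀.trans (le_max_left _ _), hδ₀, ?_⟩
  intro δ Jn Aw Cw R η S hδ0 hδ hJn hAw hCw hR hη hη1 hS
  obtain ⟨C, r, X₁, hC, hr, G⟩ := G δ Jn Aw Cw R η S hδ0 hδ ((le_max_left _ _).trans hJn) hAw hCw
    hη (hη1.trans (by norm_num)) hS
  refine ⟨C, r, X₁, hC, hr, ?_⟩
  intro X hX3 hXX ps₀ hlen hz _ q ps Lv N₀ N₁ hF hq hqX hps Bd hBd hprem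
  have hX0 : 0 < X := by linarith
  have hX1 : 1 < X := by linarith
  have hlX : 0 < Real.log X := Real.log_pos hX1
  have hK0 : 0 ≤ K := by linarith
  have hmono : ∀ u : ℝ, u ≤ c₂ → X ^ u ≤ X ^ c₂ := fun u hu =>
    Real.rpow_le_rpow_of_exponent_le hX1.le hu
  have hlnp := lnP_of hX3 hprem
  intro p hp t X' φ hX' hXX' hWK hφ K' a b' hK'1 hK'2 ha _ haE haY hb' hbY
  have hna : (0 : ℝ) < nm a := by exact_mod_cast nm_pos.2 ha.ne_zero
  have hKm : KmE (X ^ K) (X ^ c) = X ^ (K - 50 * c) := by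
    unfold RLD381.KmE
    rw [← Real.rpow_natCast, ← Real.rpow_mul hX0.le, ← Real.rpow_neg hX0.le, ← Real.rpow_add hX0]
    congr 1
    push_cast
    ring
  have hK'1' : X ^ (K - 50 * c) ≤ K' := by rw [← hKm]; exact hK'1
  have hK'2' : K' ≤ X ^ K := hK'2
  have hK'0 : 0 < K' := lt_of_lt_of_le (Real.rpow_pos_of_pos hX0 _) hK'1'
  set K'' : ℝ := Real.log K' / Real.log X with hK''
  have hKK : X ^ K'' = K' := by
    rw [Real.rpow_def_of_pos hX0, hK'', mul_div_cancel₀ _ hlX.ne', Real.exp_log hK'0]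
  have h50 : K - 50 * c ≤ K'' := by
    rw [← hKK] at hK'1'
    exact (Real.rpow_le_rpow_left_iff hX1).1 hK'1'
  have hKle : K'' ≤ K := by
    rw [← hKK] at hK'2'
    exact (Real.rpow_le_rpow_left_iff hX1).1 hK'2'
  have haE' : (X ^ c) ^ 3 ≤ nm a := haE
  have hlog : c * Real.log X ≤ Real.log (nm a) := by
    have h1 : Real.log ((X ^ c) ^ 3) ≤ Real.log (nm a) :=
      Real.log_le_log (by positivity) haE'
    rw [Real.log_pow, Real.log_rpow hX0] at h1
    push_cast at h1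
    nlinarith [mul_nonneg hc hlX.le]
  have hline := lineB_of_LnP (A := Real.log (nm a)) HL hX3 hK0 (by linarith : 0 ≤ Bd) hlnp
    (by linarith) hε₁b hKle hc hlog
  rw [log_mul_div hX3] at hline
  have key := G X hX3 hXX (π lam) (hP lam) ps₀ hlen
    (fun q hq => (hz q hq).2.trans (mul_le_mul_of_nonneg_right hc₂c hlX.le)) q ps hq.ne_zero
    (hqX.trans (hmono _ hc₂c)) hps (fun _ _ => True) (fun k => k ≠ 0)
    (fun p _ k hk _ => mul_ne_zero hk.ne_zero (pow_ne_zero _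
      (mul_ne_zero (pow_ne_zero _ isUnit_w.ne_zero) (pow_ne_zero _ lam_ne_zero)))) a b' ha
    hb'.ne_zero (haY.trans (hmono _ hc₂b)) (hbY.trans (hmono _ hc₂b)) K'' _ Bd (by linarith)
    (by linarith) hline p hp t X' φ hX' (by
      have h1 : |Real.log X' - Real.log (Real.exp (LF ps))| ≤ R + 1 := hXX'
      rwa [Real.log_exp] at h1) hWK hφ
  have hH : 1 ≤ Ht ps * Ht (natl ps₀) :=
    one_le_mul_of_one_le_of_one_le (one_le_Ht _) (one_le_Ht _)
  have fin := nsq_final (K := K) (K'' := K'') (Lf := LF ps) (T := t) (Jn := Jn) hX3 hC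
    (by linarith : ε₁ + ε₁ / 3 ≤ ε) hH (le_max_right J₀ M) (by linarith : 0 ≤ Bd) hna
  rw [hKK] at key fin
  rw [alr_eq]
  exact key.trans fin

/-- **the squares of NT at the leaf**, the lines of class N -/
theorem nsq_LN {π : Lam → DPar} (hP : ∀ lam, (π lam).OK) {h : ℝ → ℝ} {c₁ : ℝ} (hpu : PU h c₁)
    {W : ℝ → ℝ} (hW : Wgt W) {K c b μ : ℝ} (hc : 0 ≤ c) (hK : 50 * c ≤ K) :
    RLeaf π h (BeAll (NSq W)) (LN π h c μ) K c b :=
  nsq_leaf hP hpu hW (j := IN.sq) hc hK (sqLn_LN π h c μ)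

end Crest.Agent.R017.SqB791
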