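import Crest.Agent.R017.RGN3_545
import Crest.Agent.R017.RGn_64

/-!
# Row 17, T.5: the recursion of class N from the lower bound and the leaf (helper545)

* `rgFin_N` : `RgFin` from `LBN`, `RLeafL`
-/

set_option autoImplicit false

noncomputable section

open Set Filter Topology

namespace Crest.Agent.R017.RGB545

open Crest.Agent.R012 Crest.Agent.R012.Eis Crest.Agent.R012.LS2
open Crest.Agent.R017.B770
open Crest.Agent.R017.Prov71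
open Crest.Agent.R017.XPD571
open Crest.Agent.R017.RG64 (LBp LBN Abs4 RLeafL rg_fin)

variable {Lam : Type*} {π : Lam → DPar} {h : ℝ → ℝ} {c₁ θ : ℝ}

/-- **the recursion of class N** from the lower bound and the leaf -/
theorem rgFin_N (H : DataN θ π h c₁) {w : ℝ → ℝ} (hab : Abs4 w)
    {Rh RR : ℝ → LBp → (Eis → ℂ) → ℝ → Prop} (hLB : ∀ Λ : ℝ, 1 ≤ Λ → LBN w Λ (Rh Λ))
    (hRR : ∀ (Λ : ℝ) (p : LBp) (α : Eis → ℂ) (Rn Rn' : ℝ), 1 ≤ Λ → 0 ≤ p.K → 0 ≤ p.X →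
      1 ≤ p.E0 → p.X ^ 2 * p.E0 ^ 20 ≤ p.K * p.N₀ → RR Λ p α Rn → Rn ≤ Rn' → Rh Λ p α Rn')
    (hleaf : ∀ c μ K : ℝ, 0 < c → 1000 * c ≤ μ → μ ≤ 1 → 0 < K → 2000 * c ≤ K →
      RLeafL π h RR (LN π h c μ) K c (8 * (K + 1))) :
    ∀ c μ K v : ℝ, 0 < c → 1000 * c ≤ μ → μ ≤ 1 → 0 < K → 2000 * c ≤ K →
      3 * v + 300 * c ≤ 2 * K → K + 200 * c ≤ 2 * v →
      ∃ ε₀ : ℝ, 0 < ε₀ ∧ RgFin (S0f π h) (LN π h c μ) ε₀ K v c := by
  intro c μ K v hc hcμ hμ hK hcK h3v _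
  exact ⟨min c 1 / 100, by positivity,
    rg_fin H.hP H.hpu hab hLB hRR hc (by linarith) h3v (hleaf c μ K hc hcμ hμ hK hcK)⟩

end Crest.Agent.R017.RGB545
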