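import Crest.Agent.R017.RGN3_545
import Crest.Agent.R017.RGN4_545
import Crest.Agent.R017.BsJ_521
import Crest.Agent.R017.LBcN_48
import Crest.Agent.R017.NSqL_791

/-!
# Row 17, T.5: the RG field of class N, closure (helper381)

* `exists_dom` : the dominating weight
* `Rng` : the range of the parameters of the leaves
* `expRGFn_N` : the RG field from (LB) and the leaves
-/

set_option autoImplicit false

noncomputable section

open Set Filter Topology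

namespace Crest.Agent.R017.RGC381

open Crest.Agent.R012 Crest.Agent.R012.Eis Crest.Agent.R012.LS2
open Crest.Agent.R012.MC (Wgt)
open Crest.Agent.R017.B770
open Crest.Agent.R017.Prov71
open Crest.Agent.R017.XPD571
open Crest.Agent.R017.SC777 (QL3 ExpRGn ExpRGFn)
open Crest.Agent.R017.E1551 (cP)
open Crest.Agent.R017.WDec180 (WD)
open Crest.Agent.R017.RG64
open Crest.Agent.R017.RGB545
open Crest.Agent.R017.RLD381

/-- **the dominating weight** -/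
theorem exists_dom (a b : ℝ) (ha : 0 < a) (hb : 0 < b) : ∃ W : ℝ → ℝ, Wgt W ∧ (∀ x, 0 ≤ W x) ∧
    ∀ x, a ≤ x → x ≤ b → 1 ≤ W x := by
  obtain ⟨a', ha'⟩ : ∃ a' : ℝ, a' = min a (b / 2) := ⟨_, rfl⟩
  have h0 : 0 < a' := ha' ▸ lt_min ha (by positivity)
  have h1 : a' ≤ a := ha' ▸ min_le_left _ _
  have h2 : a' ≤ b / 2 := ha' ▸ min_le_right _ _
  have h3 : a' < b := by linarith
  let f : ContDiffBump ((a' + b) / 2 : ℝ) := ⟨(b - a') / 2, b / 2, by linarith, by linarith⟩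
  refine ⟨f, ⟨f.contDiff, f.hasCompactSupport, ?_⟩, fun x => f.nonneg, ?_⟩
  · rw [f.tsupport_eq]
    intro x hx
    have h4 : dist x ((a' + b) / 2) ≤ b / 2 := Metric.mem_closedBall.1 hx
    rw [Real.dist_eq] at h4
    have := (abs_le.1 h4).1
    show 0 < x
    linarith
  · intro x hxa hxb
    refine le_of_eq (Eq.symm (f.one_of_mem_closedBall ?_))
    rw [Metric.mem_closedBall, Real.dist_eq]
    show |x - (a' + b) / 2| ≤ (b - a') / 2
    rw [abs_le]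
    constructor <;> linarith

/-- the range of the parameters -/
def Rng (P : ℝ → ℝ → ℝ → Prop) : Prop :=
  ∀ c μ K : ℝ, 0 < c → 1000 * c ≤ μ → μ ≤ 1 → 0 < K → 2000 * c ≤ K → P c μ K

variable {Lam : Type*} {π : Lam → DPar} {h : ℝ → ℝ} {c₁ θ : ℝ}

/-- **the R-side of class N**: the three leaves -/
structure LeafN (π : Lam → DPar) (h : ℝ → ℝ) : Prop where
  /-- helper106 -/
  rc : ∀ (w : ℝ → ℝ), Wgt w → (∀ x, 0 ≤ w x) → ∀ (N : ℕ) (M : ℝ) (F : ℕ → ℝ → ℂ), WD w N M F →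
    Rng fun c μ K => RLeaf π h (BeAll (NRc N M F)) (LN π h c μ) K c (8 * (K + 1))
  /-- helper83 -/
  rl : ∀ (w : ℝ → ℝ), Wgt w → (∀ x, 0 ≤ w x) → ∀ (N : ℕ) (M : ℝ) (F : ℕ → ℝ → ℂ), WD w N M F →
    Rng fun c μ K => RLeaf π h (BeAll (NRl N M F)) (LN π h c μ) K c (8 * (K + 1))
  /-- helper64, helper116 -/
  ro : ∀ (w : ℝ → ℝ), Wgt w → (∀ x, 0 ≤ w x) →
    Rng fun c μ K => RLeafL π h (fun Λ => BeAll (NRo w Λ)) (LN π h c μ) K c (8 * (K + 1))

/-- a weight with its pieces, the dominating weight, (LB) and the leaf -/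
theorem leaf_of (hP : ∀ lam, (π lam).OK) (hpu : FE47.PU h c₁) (H : LeafN π h)
    {w : ℝ → ℝ} (hw : Wgt w) (hw0 : ∀ x, 0 ≤ w x) :
    ∃ (W : ℝ → ℝ) (N : ℕ) (M : ℝ) (F : ℕ → ℝ → ℂ),
      (∀ Λ : ℝ, 1 ≤ Λ → LBN w Λ (Rh w W N M F Λ)) ∧
      Rng fun c μ K => RLeafL π h (RR w W N M F) (LN π h c μ) K c (8 * (K + 1)) := by
  obtain ⟨N, M, F, hD⟩ := WDec180.exists_WD hw
  obtain ⟨W, hW, hW0, hW1⟩ := exists_dom (Real.exp (-(2 + M))) (Real.exp (4 + N))
    (Real.exp_pos _) (Real.exp_pos _)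
  refine ⟨W, N, M, F, LBx48.lbN hw hw0 hW hW0 hD hW1, ?_⟩
  intro c μ K hc hcμ hμ hK hcK
  refine rleafL_of (H.rc w hw hw0 N M F hD c μ K hc hcμ hμ hK hcK)
    (H.rl w hw hw0 N M F hD c μ K hc hcμ hμ hK hcK) ?_
    (SqB791.nsq_LN hP hpu hW hc.le (by linarith))
  intro v hv
  rcases hv with rfl | hv
  · exact H.ro v hw hw0 c μ K hc hcμ hμ hK hcK
  · rw [Set.mem_singleton_iff] at hv
    subst hv
    exact H.ro v hW hW0 c μ K hc hcμ hμ hK hcK

/-- **the RG field of class N** from the three leaves -/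
theorem expRGFn_N (H : DataN θ π h c₁) (hL : LeafN π h) :
    ExpRGFn θ (ex Dq (RN0 π h)) (ex Dq (SP0 π h)) (ex Dq (S0f π h)) := by
  refine expRGFn_of H ?_ ?_
  · obtain ⟨w, hw, hw0, hcw⟩ := Bs521.exists_wgt
    obtain ⟨W, N, M, F, h1, h2⟩ := leaf_of H.hP H.hpu hL hw hw0
    exact Bs521.bessFin_N H.hP H.hpu hw hw0 hcw (fun Λ _ => (monoL_RR w W N M F).monoR Λ) h1 h2
  · obtain ⟨w, hw, hw0, hab⟩ := exists_abs4
    obtain ⟨W, N, M, F, h1, h2⟩ := leaf_of H.hP H.hpu hL hw hw0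
    intro c μ K v hc hcμ hμ hK hcK h3v h4v
    exact rgFin_N H hab h1 rh_of h2 c μ K v hc hcμ hμ hK hcK h3v h4v

end Crest.Agent.R017.RGC381
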