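import Crest.Agent.R017.Fin6_986
import Crest.Agent.R017.RGcl_381

/-!
# Row 17, T.5: the field `rgN` from the three leaves of the R-side (helper986)

* `LeavesN h` : helper381's leaves `LeafN` for all families of class N
* `rgN_of` : the field `rgN` of `Open6`
-/

set_option autoImplicit false

noncomputable section

open Complex Filter Topology

namespace Crest.Agent.R017.Rg986

open Crest.Agent.R012 Crest.Agent.R012.Eis
open Crest.Agent.R017.FE47 Crest.Agent.R017.End699
open Crest.Agent.R017.B770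
open Crest.Agent.R017.Prov71 Crest.Agent.R017.ER911
open Crest.Agent.R017.SC777
open Crest.Agent.R017.Fin4 Crest.Agent.R017.Fin5 Crest.Agent.R017.Fin6

/-- the leaves of the R-side, all families of class N -/
def LeavesN (h : ℝ → ℝ) : Prop :=
  ∀ (Λ : Type) (π : Λ → DPar), (∀ lam, (π lam).OK) → (∀ lam, ClN (π lam)) → RGC381.LeafN π h

/-- **the field `rgN`** -/
theorem rgN_of {θ : ℝ} (hθ : 7 / 8 ≤ θ) (hθ1 : θ ≤ 1) (hPF : PF Set.univ θ) {h : ℝ → ℝ}
    {c₀ : ℝ} (hpu : PU h c₀) (H : LeavesN h) (Λ : Type) (π : Λ → DPar)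
    (hP : ∀ lam, (π lam).OK) (hN : ∀ lam, ClN (π lam)) (hc : PM320.Clo π) :
    RGN θ (ex Dq (fun lam => Rp (π lam) h)) (ex Dq (fun lam => Sp (π lam) h))
      (ex Dq (fun lam => S0p (π lam) h)) :=
  (RGC381.expRGFn_N (RGB545.dataN_of (by linarith) hθ1 hPF hpu hP
    (fun lam k hk => hN lam k hk) hc) (H Λ π hP hN)).rgf

end Crest.Agent.R017.Rg986
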