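import Crest.Agent.R017.SgE_986
import Crest.Agent.R017.RgN_986
import Crest.Agent.R017.RgE_986

/-!
# Row 17: the top with the leaves of every section as hypotheses (helper986)

`Open7 d h` (at `θ = 7/8 + d < 1`, partition `h`) and the trees of T.2 ⟹ S0022, S0023.

* `rgN`, `rgE` : the leaves of the R-side (T.5, T.7)
* `sgnN`, `sgnE` : the leaves of T.3, T.4 at the structured functions with `e₀ = 1/64`,
  `A = 1 - d/16`, `c = d/4`, `β = 17/100`
-/

set_option autoImplicit false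

noncomputable section

open Complex Filter Topology

namespace Crest.Agent.R017.Fin7

open Crest.Agent.R012 Crest.Agent.R012.Eis
open Crest.Agent.R017.FE47 Crest.Agent.R017.End699
open Crest.Agent.R017.B770 Crest.Agent.R017.BxH986
open Crest.Agent.R017.Fin4 Crest.Agent.R017.Fin5 Crest.Agent.R017.Fin6

/-- **the remaining leaves of row 17** at `θ = 7/8 + d` -/
structure Open7 (d : ℝ) (h : ℝ → ℝ) : Prop where
  /-- T.5 -/
  rgN : Rg986.LeavesN h
  /-- T.7 -/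
  rgE : Rg986.LeavesE h
  /-- T.3 -/
  sgnN : d ≤ 1 / 42 → BunA d h → RecA d h → CovA d → ∀ r : ℝ, 0 ≤ r →
    (∀ u : ℝ, cx h u ≠ 0 → |u| ≤ r) → Sg986.LeafN d h r
  /-- T.4 -/
  sgnE : d ≤ 1 / 42 → BunE d h → RecE d h → BunA d h → RecA d h → CovA d → ∀ r : ℝ, 0 ≤ r →
    (∀ u : ℝ, cx h u ≠ 0 → |u| ≤ r) → Sg986.LeafE d h r

theorem open6_of {d : ℝ} (hd : 0 < d) (hd1 : d < 1 / 8) {h : ℝ → ℝ} {c₀ : ℝ} (hpu : PU h c₀)
    (hPF : PF Set.univ (7 / 8 + d)) (H : Open7 d h) : Open6 d h where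
  rgN := Rg986.rgN_of (by linarith) (by linarith) hPF hpu H.rgN
  rgE := Rg986.rgE_of (by linarith) (by linarith) hPF hpu H.rgE
  sgnN h1 h2 h3 h4 := Sg986.sgnN_of hd h1 hpu (H.sgnN h1 h2 h3 h4)
  sgnE h1 h2 h3 h4 h5 h6 := Sg986.sgnE_of hd h1 hpu (H.sgnE h1 h2 h3 h4 h5 h6)

/-- **the open leaves of row 17** -/
def Open : Prop := ∀ (h : ℝ → ℝ) (c₀ : ℝ), PU h c₀ → Neg h → ∀ d : ℝ, 0 < d → d < 1 / 8 →
  PF Set.univ (7 / 8 + d) → Open7 d h

theorem open_of (H : Open) : Fin6.Open := fun h c₀ hpu hneg d hd hd1 hPF =>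
  open6_of hd hd1 hpu hPF (H h c₀ hpu hneg d hd hd1 hPF)

/-- **S0022** from the open leaves -/
theorem s22_of_open7 (T : Trees) (H : Open) : S22 := s22_of_open6 T (open_of H)

/-- **S0023** from the open leaves -/
theorem s23_of_open7 (T : Trees) (H : Open) : S23 := s23_of_open6 T (open_of H)

end Crest.Agent.R017.Fin7
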