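import Crest.Agent.R017.MoN5_106
import Crest.Agent.R017.RGN1_545
import Crest.Agent.R017.RlB_791

/-!
# Row 17, E2, R-side (helper106): the pair lines from the lines (ga), (r2) of class N

* `pln_of` : `PLn` from the premises of `RLeaf`
-/

set_option autoImplicit false
set_option linter.unusedVariables false
set_option maxHeartbeats 1600000

noncomputable section

open Finset
open scoped ComplexConjugate

namespace Crest.Agent.R017.RC106

open Crest.Agent.R012 Crest.Agent.R012.Eis
open Crest.Agent.R017.B770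
open Crest.Agent.R017.Prov71
open Crest.Agent.R017.Leg381 (Pf LF natl LF_get)
open Crest.Agent.R017.XRG106 (Rl)
open Crest.Agent.R017.MoL106
open Crest.Agent.R017.RG64 (SbL Ht one_le_Ht)
open Crest.Agent.R017.XP699 (LL Chd hcost cst)
open Crest.Agent.R017.RGB545

lemma nr_div {L v i : ℝ} (hL : 0 < L) :
    max (v / L) (max (i / L) (2 / 3 * (v / L + i / L))) = nr v i / L := by
  unfold MoL106.nr
  have e : 2 / 3 * (v / L + i / L) = (2 / 3 * (v + i)) / L := by ring
  rw [e, max_div_div_right hL.le, max_div_div_right hL.le]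

lemma forall2_ofFn {C W : ℝ} {ps : List Pf} {s' : Fin ps.length → Pq}
    (h : ∀ k, Rl C W (s' k) (ps.get k).1) :
    List.Forall₂ (Rl C W) (List.ofFn s') (ps.map Prod.fst) := by
  rw [List.forall₂_iff_get]
  refine ⟨by simp, fun i h1 h2 => ?_⟩
  have h3 : i < ps.length := by simpa using h1
  have := h ⟨i, h3⟩
  simpa using this

lemma LL_ofFn {r : ℕ} (s' : Fin r → Pq) : LL Dq (List.ofFn s') = ∑ k, (s' k).z := by
  unfold XP699.LL
  rw [List.map_ofFn, List.sum_ofFn]
  rfl

/-- **the pair lines** of the natural children from the lines of class N -/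
theorem pln_of {Lam : Type*} {π : Lam → DPar} {h : ℝ → ℝ} {lam : Lam} {K c μ c₀ S C M ε X Bd r₀ Cb
    m e Lv : ℝ} {N : ℕ} {ps₀ : List Pq} {ps : List Pf} (hX3 : 3 ≤ X) (hK : 0 ≤ K)
    (hS : SbL S ps ps₀) (hlen : ps.length ≤ N) (hz : ∀ q ∈ ps₀, Dq.len q ≤ c₀ * Real.log X)
    (hC : 0 ≤ C) (hr₀ : C + S ≤ r₀) (hCb : C * Real.exp S ≤ Cb) (hM : 0 ≤ M) (hBd : 0 ≤ Bd)
    (hm : m ≤ μ * Real.log X) (he : e ≤ ε * Real.log X) (he0 : 0 ≤ e) (hm0 : 0 ≤ m)
    (hme : 2 * LF ps + K * Real.log X + m + 2 * e ≤ TK K * Real.log X)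
    (hprem : ∀ (j : IN) (θ : Th 5 K) (l : ℝ) (ps' : List Pq), 0 ≤ l → l ≤ TK K * Real.log X →
      List.Forall₂ (Chd Dq hcost r₀ (Cb * X ^ c₀)) ps' ps₀ →
      LL Dq ps' ≤ LF ps + ε * Real.log X →
      (LN π h c μ j).G ![K, Lv / Real.log X, LF ps / Real.log X, l / Real.log X,
        LL Dq ps' / Real.log X] θ.1 ≤ ε →
      ((LN π h c μ j).zl → ∀ q ∈ ps', Dq.lump q → Dq.len q ≤ l + ε * Real.log X) →
      (LN π h c μ j).Φ lam l ((LN π h c μ j).b θ.1 * Real.log X) ps' ≤
        Bd * cst hcost ps' ps₀ ^ M *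
        X ^ (4 / 3 * (LF ps / Real.log X) + (Lv / Real.log X + K) / 3 +
          (LN π h c μ j).F ![K, Lv / Real.log X, LF ps / Real.log X, l / Real.log X,
            LL Dq ps' / Real.log X] θ.1)) :
    PLn (π lam) h ((N : ℝ) * M / 2) C (fun i => (ps.get i).1) (LF ps) (K * Real.log X) Lv m e
      (Bd * (Ht ps * Ht (natl ps₀)) ^ M * X ^ (-μ)) := by
  have hX0 : 0 < X := by linarith
  obtain ⟨L, hL⟩ : ∃ L : ℝ, L = Real.log X := ⟨_, rfl⟩
  have hL1 : 1 ≤ L := by
    rw [hL, ← Real.log_exp 1]
    refine Real.log_le_log (Real.exp_pos 1) ?_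
    linarith [Real.exp_one_lt_d9]
  have hL0 : 0 < L := by linarith
  rw [← hL] at hm he hme hprem hz ⊢
  have hHH : 1 ≤ Ht ps * Ht (natl ps₀) :=
    one_le_mul_of_one_le_of_one_le (one_le_Ht _) (one_le_Ht _)
  set HH : ℝ := Ht ps * Ht (natl ps₀) with hHHd
  have hHM : 0 ≤ HH ^ M := Real.rpow_nonneg (by linarith) _
  have hε : 0 ≤ ε * L := he0.trans he
  have hμL : 0 ≤ μ * L := hm0.trans hm
  have hμ : 0 ≤ μ := nonneg_of_mul_nonneg_left hμL hL0
  have hT0 : 0 ≤ TK K := by unfold RGB545.TK; linarith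
  have hXE : ∀ x : ℝ, X ^ (x / L) = Real.exp x := fun x => by
    rw [Real.rpow_def_of_pos hX0, ← hL]
    congr 1
    field_simp
  have hdiv : ∀ a : ℝ, a ≤ ε * L → a / L ≤ ε := fun a ha => (div_le_iff₀ hL0).2 ha
  have hKL : K = (K * L) / L := by field_simp
  have hch : ∀ (s' : Fin ps.length → Pq) (W0 : ℝ), (∀ k, Rl C W0 (s' k) (ps.get k).1) →
      List.Forall₂ (Chd Dq hcost r₀ (Cb * X ^ c₀)) (List.ofFn s') ps₀ := fun s' W0 hR =>
    RlB791.chdL_mono hr₀ (mul_le_mul_of_nonneg_right hCb (Real.rpow_nonneg hX0.le _))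
      (RlB791.chdL_of_rl hX0 hC (forall2_ofFn hR) hS (by rw [← hL]; exact hz))
  have hcst : ∀ (s' : Fin ps.length → Pq) (W0 : ℝ), 1 ≤ W0 →
      (∀ k, Rl C W0 (s' k) (ps.get k).1) →
      cst hcost (List.ofFn s') ps₀ ^ M ≤ W0 ^ (2 * ((N : ℝ) * M / 2)) * HH ^ M :=
    fun s' W0 hW hR => RlB791.cst_rl_pow hW hM (forall2_ofFn hR) hS hlen
  have hz0 : ∀ (s' : Fin ps.length → Pq) (W0 : ℝ), (∀ k, Rl C W0 (s' k) (ps.get k).1) →
      0 ≤ ∑ k, (s' k).z := fun s' W0 hR => Finset.sum_nonneg fun k _ => (hR k).z0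
  constructor
  · -- (r2)
    intro s' W0 hW hR i b g hb hg hig hsum hi hib hLv
    have hzs := hz0 s' W0 hR
    set n' : ℝ := ∑ k, (s' k).z with hn'
    obtain ⟨g', hg'⟩ : ∃ g' : ℝ, g' = max 0 (LF ps - b - n') := ⟨_, rfl⟩
    have hg'0 : 0 ≤ g' := hg' ▸ le_max_left _ _
    have hg'1 : LF ps - b - n' ≤ g' := hg' ▸ le_max_right _ _
    have hg'2 : g' ≤ LF ps + e := by
      rw [hg']
      refine max_le ?_ ?_
      · linarith
      · linarith
    have hg'3 : n' + b + g' ≤ LF ps + e := by
      rw [hg']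
      rcases le_total 0 (LF ps - b - n') with h1 | h1
      · rw [max_eq_right h1]; linarith
      · rw [max_eq_left h1]; linarith
    have hg'4 : g ≤ g' + e := by linarith
    have hbox : ∀ x : ℝ, x ≤ 2 * LF ps + K * L + m + 2 * e → x / L ≤ TK K := fun x hx =>
      (div_le_iff₀ hL0).2 (hx.trans hme)
    have hKL0 : 0 ≤ K * L := by positivity
    have hb1 : b + g ≤ 2 * LF ps + K * L + m + 2 * e := by linarith
    have key := hprem IN.r2 ⟨![(b + g) / L, g / L, g' / L, 0, 0], by
        intro j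
        fin_cases j
        · show (0 : ℝ) ≤ (b + g) / L
          positivity
        · show (0 : ℝ) ≤ g / L
          positivity
        · show (0 : ℝ) ≤ g' / L
          positivity
        · exact le_rfl
        · exact le_rfl, by
        intro j
        fin_cases j
        · exact hbox _ hb1
        · exact hbox _ (by linarith)
        · exact hbox _ (by linarith)
        · exact hT0
        · exact hT0⟩ (i - 2 * g) (List.ofFn s') hig
      ((by linarith : i - 2 * g ≤ 2 * LF ps + K * L + m + 2 * e).trans hme) (hch s' W0 hR)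
      (by rw [LL_ofFn]; linarith)
      (by
        rw [LL_ofFn, ← hn']
        show max (max (n' / L + ((b + g) / L - g / L) + g' / L - LF ps / L)
          (((i - 2 * g) / L + 2 * (g / L)) -
            (Lv / L + LF ps / L - K + 3 * 0 + ((b + g) / L - g / L) + μ)))
          (max (((i - 2 * g) / L + 2 * (g / L)) + 2 * ((b + g) / L - g / L) + 3 * 0 - K - μ)
            (max (Lv / L - 2 * (((i - 2 * g) / L + 2 * (g / L)) + ((b + g) / L - g / L)))
              (max (g / L - (b + g) / L) (g / L - g' / L)))) ≤ ε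
        have hμ' : μ = (μ * L) / L := by field_simp
        refine max_le (max_le ?_ ?_) (max_le ?_ (max_le ?_ (max_le ?_ ?_)))
        · refine le_trans (le_of_eq ?_) (hdiv (n' + b + g' - LF ps) (by linarith))
          ring
        · refine le_trans (le_of_eq ?_) (hdiv (i - (Lv + LF ps - K * L + b + μ * L)) (by linarith))
          rw [hKL, hμ']; field_simp; ring
        · refine le_trans (le_of_eq ?_) (hdiv (i + 2 * b - K * L - μ * L) (by linarith))
          rw [hKL, hμ']; field_simp; ring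
        · refine le_trans (le_of_eq ?_) (hdiv (Lv - 2 * (i + b)) (by linarith))
          ring
        · refine le_trans (le_of_eq ?_) (hdiv (-b) (by linarith))
          ring
        · refine le_trans (le_of_eq ?_) (hdiv (g - g') (by linarith))
          ring)
      (fun hzl => (show False from hzl).elim)
    have key2 : PM2 (π lam) h (i - 2 * g) ((b + g) / L * L) (List.ofFn s') ≤
        Bd * cst hcost (List.ofFn s') ps₀ ^ M *
        X ^ (4 / 3 * (LF ps / L) + (Lv / L + K) / 3 +
          (0 - (Lv / L + LF ps / L - 2 * K) / 3 - μ - g' / L -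
            max (Lv / L) (max ((i - 2 * g) / L + 2 * (g / L))
              (2 / 3 * (Lv / L + ((i - 2 * g) / L + 2 * (g / L))))) +
            ((i - 2 * g) / L + 2 * (g / L)))) := key
    have e1 : (i - 2 * g) / L + 2 * (g / L) = i / L := by ring
    rw [e1, nr_div hL0, div_mul_cancel₀ _ hL0.ne'] at key2
    have e2 : 4 / 3 * (LF ps / L) + (Lv / L + K) / 3 +
          (0 - (Lv / L + LF ps / L - 2 * K) / 3 - μ - g' / L - nr Lv i / L + i / L) =
        (-μ * L + (LF ps + K * L + i - nr Lv i - g')) / L := by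
      field_simp; ring
    rw [e2, hXE, Real.exp_add] at key2
    have e3 : Real.exp (-μ * L) = X ^ (-μ) := by
      rw [Real.rpow_def_of_pos hX0, ← hL]; congr 1; ring
    rw [e3] at key2
    refine key2.trans ?_
    have h5 := hcst s' W0 hW hR
    have h6 : 0 ≤ W0 ^ (2 * ((N : ℝ) * M / 2)) := Real.rpow_nonneg (by linarith) _
    have h7 : 0 ≤ X ^ (-μ) := Real.rpow_nonneg hX0.le _
    calc Bd * cst hcost (List.ofFn s') ps₀ ^ M *
          (X ^ (-μ) * Real.exp (LF ps + K * L + i - nr Lv i - g')) ≤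
          Bd * (W0 ^ (2 * ((N : ℝ) * M / 2)) * HH ^ M) *
          (X ^ (-μ) * Real.exp (LF ps + K * L + i - nr Lv i - (LF ps - b - n'))) := by
          refine mul_le_mul (mul_le_mul_of_nonneg_left h5 hBd)
            (mul_le_mul_of_nonneg_left (Real.exp_le_exp.2 (by linarith)) h7)
            (mul_nonneg h7 (Real.exp_pos _).le) (by positivity)
      _ = _ := by ring
  · -- (ga)
    intro s' W0 hW hR i b g γ hγ hγb hg hig hsum hi hib hLv
    have hzs := hz0 s' W0 hR
    set n' : ℝ := ∑ k, (s' k).z with hn'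
    obtain ⟨g', hg'⟩ : ∃ g' : ℝ, g' = max 0 (LF ps - b - n') := ⟨_, rfl⟩
    have hg'0 : 0 ≤ g' := hg' ▸ le_max_left _ _
    have hg'1 : LF ps - b - n' ≤ g' := hg' ▸ le_max_right _ _
    have hb0 : 0 ≤ b := hγ.trans hγb
    have hg'2 : g' ≤ LF ps + e := by
      rw [hg']
      refine max_le ?_ ?_
      · linarith
      · linarith
    have hg'3 : n' + b + g' ≤ LF ps + e := by
      rw [hg']
      rcases le_total 0 (LF ps - b - n') with h1 | h1
      · rw [max_eq_right h1]; linarith
      · rw [max_eq_left h1]; linarith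
    have hbox : ∀ x : ℝ, x ≤ 2 * LF ps + K * L + m + 2 * e → x / L ≤ TK K := fun x hx =>
      (div_le_iff₀ hL0).2 (hx.trans hme)
    have hKL0 : 0 ≤ K * L := by positivity
    have hb1 : b - γ + g ≤ 2 * LF ps + K * L + m + 2 * e := by linarith
    have hbg0 : 0 ≤ b - γ + g := by linarith
    have key := hprem IN.ga ⟨![(b - γ + g) / L, g / L, g' / L, 0, γ / L], by
        intro j
        fin_cases j
        · show (0 : ℝ) ≤ (b - γ + g) / L
          positivity
        · show (0 : ℝ) ≤ g / L
          positivity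
        · show (0 : ℝ) ≤ g' / L
          positivity
        · exact le_rfl
        · show (0 : ℝ) ≤ γ / L
          positivity, by
        intro j
        fin_cases j
        · exact hbox _ hb1
        · exact hbox _ (by linarith)
        · exact hbox _ (by linarith)
        · exact hT0
        · exact hbox _ (by linarith)⟩ (i - γ - 2 * g) (List.ofFn s') hig
      ((by linarith : i - γ - 2 * g ≤ 2 * LF ps + K * L + m + 2 * e).trans hme) (hch s' W0 hR)
      (by rw [LL_ofFn]; linarith)
      (by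
        rw [LL_ofFn, ← hn']
        show max (max (n' / L + ((b - γ + g) / L + γ / L - g / L) + g' / L - LF ps / L)
          (((i - γ - 2 * g) / L + γ / L + 2 * (g / L)) -
            (Lv / L + LF ps / L - K + 3 * 0 + ((b - γ + g) / L + γ / L - g / L) + μ)))
          (max (((i - γ - 2 * g) / L + γ / L + 2 * (g / L)) +
              2 * ((b - γ + g) / L + γ / L - g / L) + 3 * 0 - K - μ)
            (max (2 * (((i - γ - 2 * g) / L + γ / L + 2 * (g / L)) +
              ((b - γ + g) / L + γ / L - g / L)) - Lv / L) (g / L - (b - γ + g) / L))) ≤ ε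
        have hμ' : μ = (μ * L) / L := by field_simp
        refine max_le (max_le ?_ ?_) (max_le ?_ (max_le ?_ ?_))
        · refine le_trans (le_of_eq ?_) (hdiv (n' + b + g' - LF ps) (by linarith))
          ring
        · refine le_trans (le_of_eq ?_) (hdiv (i - (Lv + LF ps - K * L + b + μ * L)) (by linarith))
          rw [hKL, hμ']; field_simp; ring
        · refine le_trans (le_of_eq ?_) (hdiv (i + 2 * b - K * L - μ * L) (by linarith))
          rw [hKL, hμ']; field_simp; ring
        · refine le_trans (le_of_eq ?_) (hdiv (2 * (i + b) - Lv) (by linarith))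
          ring
        · refine le_trans (le_of_eq ?_) (hdiv (-(b - γ)) (by linarith))
          ring)
      (fun hzl => (show False from hzl).elim)
    have key2 : PM2 (π lam) h (i - γ - 2 * g) ((b - γ + g) / L * L) (List.ofFn s') ≤
        Bd * cst hcost (List.ofFn s') ps₀ ^ M *
        X ^ (4 / 3 * (LF ps / L) + (Lv / L + K) / 3 +
          (0 - (Lv / L + LF ps / L - 2 * K) / 3 - μ - g' / L - Lv / L +
            ((i - γ - 2 * g) / L + γ / L + 2 * (g / L)) +
            ((b - γ + g) / L + γ / L - g / L) - 2 * (γ / L))) := key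
    rw [div_mul_cancel₀ _ hL0.ne'] at key2
    have e2 : 4 / 3 * (LF ps / L) + (Lv / L + K) / 3 +
          (0 - (Lv / L + LF ps / L - 2 * K) / 3 - μ - g' / L - Lv / L +
            ((i - γ - 2 * g) / L + γ / L + 2 * (g / L)) +
            ((b - γ + g) / L + γ / L - g / L) - 2 * (γ / L)) =
        (-μ * L + (LF ps + K * L - (Lv - i - b + 2 * γ + g'))) / L := by
      field_simp; ring
    rw [e2, hXE, Real.exp_add] at key2
    have e3 : Real.exp (-μ * L) = X ^ (-μ) := by
      rw [Real.rpow_def_of_pos hX0, ← hL]; congr 1; ring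
    rw [e3] at key2
    refine key2.trans ?_
    have h5 := hcst s' W0 hW hR
    have h6 : 0 ≤ W0 ^ (2 * ((N : ℝ) * M / 2)) := Real.rpow_nonneg (by linarith) _
    have h7 : 0 ≤ X ^ (-μ) := Real.rpow_nonneg hX0.le _
    calc Bd * cst hcost (List.ofFn s') ps₀ ^ M *
          (X ^ (-μ) * Real.exp (LF ps + K * L - (Lv - i - b + 2 * γ + g'))) ≤
          Bd * (W0 ^ (2 * ((N : ℝ) * M / 2)) * HH ^ M) *
          (X ^ (-μ) * Real.exp (LF ps + K * L - (Lv - i - b + 2 * γ + (LF ps - b - n')))) := by
          refine mul_le_mul (mul_le_mul_of_nonneg_left h5 hBd)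
            (mul_le_mul_of_nonneg_left (Real.exp_le_exp.2 (by linarith)) h7)
            (mul_nonneg h7 (Real.exp_pos _).le) (by positivity)
      _ = _ := by ring

end Crest.Agent.R017.RC106
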