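import Crest.Agent.R017.RCb_106
import Crest.Agent.R017.RCc_106
import Crest.Agent.R017.RLd_381

/-!
# Row 17, E2, R-side (helper106): the leaf (Rc) of class N

* `rc_leaf` : `RLeaf π h (BeAll (NRc N M F)) (LN π h c μ) K c b`
-/

set_option autoImplicit false
set_option linter.unusedVariables false
set_option maxHeartbeats 16000000

noncomputable section

open Finset
open scoped ComplexConjugate

namespace Crest.Agent.R017.RC106

open Crest.Agent.R012 Crest.Agent.R012.Eis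
open Crest.Agent.R012.LS2 (S mem_S)
open Crest.Agent.R017.B770
open Crest.Agent.R017.Prov71
open Crest.Agent.R017.CM106 (CS FS)
open Crest.Agent.R017.FE47 (cx PU)
open Crest.Agent.R017.HP842 (pc sqc)
open Crest.Agent.R017.Leg381 (alf alF Pf LF natl LF_get)
open Crest.Agent.R017.XRG106 (Rl)
open Crest.Agent.R017.X6C180 (GF)
open Crest.Agent.R017.Win813 (iA iA_nonneg WK)
open Crest.Agent.R017.WDec180 (WD sc)
open Crest.Agent.R017.E2440 (Fh)
open Crest.Agent.R017.QsO83 (bw FS_bw)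
open Crest.Agent.R017.NPy739 (opL)
open Crest.Agent.R017.LBx48 (REb)
open Crest.Agent.R017.RG64 (SbL Sb Ht one_le_Ht RLeaf LBp RFacts)
open Crest.Agent.R017.XP699 (LL Chd hcost cst)
open Crest.Agent.R017.RLD381
open Crest.Agent.R017.RGB545

lemma sbL_z {S b : ℝ} {ps : List Pf} {ps₀ : List Pq} (h : SbL S ps ps₀)
    (hz : ∀ q ∈ ps₀, Dq.len q ≤ b) : ∀ x ∈ ps, 0 ≤ x.1.z ∧ x.1.z ≤ b + S := by
  unfold RG64.SbL at h
  induction h with
  | nil => intro x hx; simp at hx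
  | @cons a a' l l' h1 _ ih =>
    intro x hx
    rcases List.mem_cons.1 hx with rfl | hx
    · have h2 : a'.z ≤ b := hz a' (by simp)
      exact ⟨h1.2.2.2.1, h1.2.2.2.2.trans (by linarith)⟩
    · exact ih (fun q hq => hz q (by simp [hq])) x hx

/-- **the leaf (Rc) of class N** -/
theorem rc_leaf {Lam : Type*} {π : Lam → DPar} (hP : ∀ lam, (π lam).OK) {h : ℝ → ℝ} {c₁ : ℝ}
    (hpu : PU h c₁) {w : ℝ → ℝ} {Nw : ℕ} {Mw : ℝ} {Fw : ℕ → ℝ → ℂ} (hD : WD w Nw Mw Fw)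
    {K c b μ : ℝ} (hc : 0 < c) (hcμ : 1000 * c ≤ μ) (hK : 2000 * c ≤ K) :
    RLeaf π h (BeAll (NRc Nw Mw Fw)) (LN π h c μ) K c b := by
  intro lam N c₀ hc₀
  refine ⟨c₀, by linarith, fun ε M hε hM => ?_⟩
  have hN0 : (0 : ℝ) ≤ N := Nat.cast_nonneg N
  have hK0 : 0 < K := by linarith
  have hMw := hD.M0
  have hNw : (0 : ℝ) ≤ Nw := Nat.cast_nonneg Nw
  obtain ⟨R₀, hR₀⟩ := bump_of_cs hpu.cs
  obtain ⟨Rh, hRhd⟩ : ∃ x : ℝ, x = max R₀ 0 := ⟨_, rfl⟩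
  have hRh0 : 0 ≤ Rh := hRhd ▸ le_max_right _ _
  have hRh : ∀ u, cx h u ≠ 0 → |u| ≤ Rh := fun u hu => (hR₀ u hu).trans (hRhd ▸ le_max_left _ _)
  obtain ⟨A', hA'⟩ : ∃ n : ℕ, 2 * ((N : ℝ) * (N * M / 2)) + 2 ≤ n := exists_nat_ge _
  obtain ⟨b₁, hb₁⟩ : ∃ x : ℝ, x = 8 * K + 60 + c₀ := ⟨_, rfl⟩
  have hb₁0 : 0 < b₁ := by rw [hb₁]; linarith
  obtain ⟨ε₂, hε₂d⟩ : ∃ x : ℝ, x = c / b₁ := ⟨_, rfl⟩
  have hε₂ : 0 < ε₂ := by rw [hε₂d]; positivity
  have hε₂b : ε₂ * b₁ = c := by rw [hε₂d]; field_simp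
  obtain ⟨k, C₁, hC₁, HR⟩ := reb_one hpu hRh0 hRh (μ := (N : ℝ) * M / 2) (by positivity) N hε₂ A' hA'
  obtain ⟨C₂, hC₂, HX⟩ := norm_bw_list hpu N hε₂
  obtain ⟨Sf, hSf0, hSf⟩ := hD.bd k
  refine ⟨max M A', c / (3 * N + 1), le_max_of_le_left hM, by positivity, ?_⟩
  intro δ Jn Aw Cw R η S' hδ0 hδ hJn hAw hCw hR hη hη2 hS'
  have hA'Jn : A' ≤ Jn := by
    have : (A' : ℝ) ≤ Jn := (le_max_right _ _).trans hJn
    exact_mod_cast this
  have hiA := iA_nonneg A'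
  have hiAw := iA_nonneg Aw
  have hδN : 3 * N * δ ≤ c := by
    rw [le_div_iff₀ (by positivity)] at hδ
    nlinarith
  obtain ⟨e₀, he₀⟩ : ∃ x : ℝ, x = 10 + |k9| + C₁ + R + Nw + Mw := ⟨_, rfl⟩
  have hk9 := abs_nonneg k9
  have hk9' := le_abs_self k9
  have he10 : 10 ≤ e₀ := by rw [he₀]; linarith
  obtain ⟨g₂, hg₂⟩ : ∃ x : ℝ, x = Cw * iA Aw * C₂ := ⟨_, rfl⟩
  have hg₂0 : 0 ≤ g₂ := by rw [hg₂]; positivity
  obtain ⟨a₁, ha₁⟩ : ∃ x : ℝ, x = Cw ^ 2 * iA A' * (η * (η ^ A')⁻¹) * ((100 : ℝ) ^ N) ^ 2 *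
    Real.exp (3 * e₀) := ⟨_, rfl⟩
  have ha₁0 : 0 ≤ a₁ := by rw [ha₁]; positivity
  obtain ⟨a₂, ha₂⟩ : ∃ x : ℝ, x = g₂ ^ 2 * Real.exp (9 * e₀) := ⟨_, rfl⟩
  have ha₂0 : 0 ≤ a₂ := by rw [ha₂]; positivity
  obtain ⟨Cf, hCf⟩ : ∃ x : ℝ, x = Nw * (C₁ * Sf ^ 2 * (a₁ + a₂ + 1)) := ⟨_, rfl⟩
  have hCf0 : 0 ≤ Cf := by rw [hCf]; positivity
  obtain ⟨T₀, hT₀⟩ : ∃ x : ℝ, x = S' + 20 * e₀ + e₀ / c + 2 * e₀ / ε + g₂ := ⟨_, rfl⟩
  refine ⟨max (C₁ * Real.exp S') Cf, C₁ + S', Real.exp T₀, le_max_of_le_right hCf0,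
    by positivity, ?_⟩
  intro X hX3 hXX ps₀ hlen hz _ q ps Lv N₀ N₁ hF hq hqX hps Bd hBd hprem
  have hX0 : 0 < X := by linarith
  have hX1 : 1 ≤ X := by linarith
  obtain ⟨L, hL⟩ : ∃ L : ℝ, L = Real.log X := ⟨_, rfl⟩
  have hTL : T₀ ≤ L := by
    rw [hL, Real.le_log_iff_exp_le hX0]; exact hXX
  have hL1 : 1 ≤ L := by
    rw [hL, ← Real.log_exp 1]
    refine Real.log_le_log (Real.exp_pos 1) ?_
    linarith [Real.exp_one_lt_d9]
  have hL0 : 0 < L := by linarith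
  have t1 : 0 ≤ e₀ / c := by positivity
  have t2 : 0 ≤ 2 * e₀ / ε := by positivity
  have hS'L : S' ≤ L := by linarith
  have he20 : 20 * e₀ ≤ L := by linarith
  have hec : e₀ ≤ c * L := by
    have : e₀ / c ≤ L := by linarith
    rw [div_le_iff₀ hc] at this; linarith
  have heε : 2 * e₀ ≤ ε * L := by
    have : 2 * e₀ / ε ≤ L := by linarith
    rw [div_le_iff₀ hε] at this; linarith
  have hg₂L : g₂ ≤ Real.exp L := by
    have := Real.add_one_le_exp L; linarith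
  have hXe : ∀ x : ℝ, X ^ x = Real.exp (x * L) := fun x => by
    rw [Real.rpow_def_of_pos hX0, hL, mul_comm]
  -- the sizes
  obtain ⟨n, hn⟩ : ∃ n : ℝ, n = LF ps := ⟨_, rfl⟩
  obtain ⟨κ, hκ⟩ : ∃ x : ℝ, x = K * L := ⟨_, rfl⟩
  obtain ⟨d, hd⟩ : ∃ x : ℝ, x = c * L := ⟨_, rfl⟩
  have hd0 : 0 < d := by rw [hd]; positivity
  have hκd : 2000 * d ≤ κ := by
    have := mul_le_mul_of_nonneg_right hK hL0.le
    rw [hκ, hd]; linarith
  have hμd : 1000 * d ≤ μ * L := by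
    have := mul_le_mul_of_nonneg_right hcμ hL0.le
    rw [hd]; linarith
  have hed : e₀ ≤ d := by rw [hd]; exact hec
  have hεd : ε * L ≤ d := by rw [hd]; exact mul_le_mul_of_nonneg_right hF.ec hL0.le
  have hhi : n ≤ LL Dq ps₀ + ε * L := by rw [hn, hL]; exact hF.hi
  have h56 : 6 * LL Dq ps₀ ≤ 5 * κ + ε * L := by
    have := hF.n56
    rw [← hL] at this
    rw [hκ]; linarith
  have hv3 : 3 * Lv + 200 * d ≤ 2 * κ := by
    have := hF.v3
    rw [← hL] at this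
    rw [hκ, hd]; linarith
  have hv0 := hF.v0
  have hz' := sbL_z hps (fun q hq => (hz q hq).2)
  rw [← hL] at hz'
  have hlen' : ps.length ≤ N := by rw [hps.length]; exact hlen
  have hn0 : 0 ≤ n := by
    rw [hn]
    unfold Leg381.LF
    refine List.sum_nonneg fun x hx => ?_
    obtain ⟨y, hy, rfl⟩ := List.mem_map.1 hx
    exact (hz' y hy).1
  have h6n : 6 * n ≤ 5 * κ + 7 * d := by linarith
  have hHH : 1 ≤ Ht ps * Ht (natl ps₀) :=
    one_le_mul_of_one_le_of_one_le (one_le_Ht _) (one_le_Ht _)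
  obtain ⟨HH, hHHd⟩ : ∃ x : ℝ, x = Ht ps * Ht (natl ps₀) := ⟨_, rfl⟩
  rw [← hHHd] at hHH
  have hHM0 : 0 ≤ HH ^ M := Real.rpow_nonneg (by linarith) _
  have hHMJ : HH ^ M ≤ HH ^ (max M (A' : ℝ)) :=
    Real.rpow_le_rpow_of_exponent_le hHH (le_max_left _ _)
  have hHJ1 : 1 ≤ HH ^ (max M (A' : ℝ)) := Real.one_le_rpow hHH (le_max_of_le_left hM)
  have hm : 17 * d + 8 * e₀ ≤ μ * L := by linarith
  -- the pair lines
  have hln := pln_of (C := C₁) (S := S') (r₀ := C₁ + S') (Cb := max (C₁ * Real.exp S') Cf)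
    (m := 17 * d + 8 * e₀) (e := 2 * e₀) hX3 hK0.le hps hlen' (fun q hq => (hz q hq).2)
    (by linarith) le_rfl (le_max_left _ _) hM (by linarith : 0 ≤ Bd)
    (by rw [← hL]; exact hm) (by rw [← hL]; exact heε) (by linarith) (by linarith)
    (by
      rw [← hL, ← hκ, ← hn]
      have : TK K * L = 10 * κ + 10 * L := by unfold RGB545.TK; rw [hκ]; ring
      rw [this]; linarith) hprem
  rw [← hL, ← hκ, ← hn, ← hHHd] at hln
  obtain ⟨Bb, hBb⟩ : ∃ x : ℝ, x = Bd * HH ^ M * X ^ (-μ) := ⟨_, rfl⟩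
  rw [← hBb] at hln
  have hBb0 : 0 ≤ Bb := by rw [hBb]; positivity
  -- the windows
  intro p hp t X' φ hX' hXX' hWK hφ I hI1 hI2
  have hXX2 : |Real.log X' - n| ≤ R + 1 := by
    have h1 : |Real.log X' - Real.log (Real.exp (LF ps))| ≤ R + 1 := hXX'
    rwa [Real.log_exp, ← hn] at h1
  have hWK' : WK Cw η Aw φ := hWK
  have hφ' : ∀ u, φ u ≠ 0 → |u - Real.log X'| ≤ η / 2 := hφ
  obtain ⟨Pz, hPzd⟩ : ∃ x : ℝ, x = X ^ b₁ := ⟨_, rfl⟩
  have hPze : Pz = Real.exp (b₁ * L) := by rw [hPzd, hXe]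
  have hPz0 : 0 < Pz := by rw [hPze]; exact Real.exp_pos _
  have hlP : Real.log Pz = b₁ * L := by rw [hPze, Real.log_exp]
  have hbL : b₁ * L = 8 * κ + 60 * L + c₀ * L := by rw [hb₁, hκ]; ring
  have hc₀L : L ≤ c₀ * L := le_mul_of_one_le_left hL0.le hc₀
  have hbL0 : 0 ≤ b₁ * L := by positivity
  have hPz1 : 1 ≤ Pz := by rw [hPze]; exact Real.one_le_exp hbL0
  have hFS : FS (sqc q (alF (X ^ δ) (X ^ δ) (π lam) h ps)) :=
    HP842.FS.sqc (RG64.FS_alF ⟨Rh, hRh⟩ (hP lam) _ _ ps) q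
  have hPe : Pz ^ ε₂ = Real.exp d := by
    rw [hPze, ← Real.exp_mul, hd, ← hε₂b]; congr 1; ring
  -- the size of the sequence
  obtain ⟨Ax, hAxd⟩ : ∃ x : ℝ, x = g₂ * Real.exp d := ⟨_, rfl⟩
  have hdL : d ≤ κ := by linarith
  have hAx : ∀ m, ‖bw φ p t (sqc q (alF (X ^ δ) (X ^ δ) (π lam) h ps)) m‖ ≤ Ax := by
    intro m
    have h1 := HX Cw η Aw hη (by omega) hCw φ hWK' p t (π lam) (hP lam) ps hlen' (X ^ δ) (X ^ δ) q
      Pz hPz1 hFS (fun m hm => by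
        have h2 := bw_win hm
        have h3 : (0 : ℝ) < nm m := by exact_mod_cast nm_pos.2 ((hFS.prim m h2.1).ne_zero)
        refine (win_dy (u := 0) hη2 hX' h3 (hφ' _ h2.2)).2.trans ?_
        rw [hPze, ← Real.exp_log hX', ← Real.exp_add]
        refine Real.exp_le_exp.2 ?_
        have h4 := (abs_le.1 hXX2).2
        have h5 : R ≤ e₀ := by rw [he₀]; linarith
        linarith) m
    rw [hPe, ← mul_assoc, ← hg₂] at h1
    rw [hAxd]; exact h1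
  have hAxP : Ax ≤ Pz := by
    rw [hAxd, hPze]
    calc g₂ * Real.exp d ≤ Real.exp L * Real.exp d := by gcongr
      _ = Real.exp (L + d) := by rw [Real.exp_add]
      _ ≤ _ := Real.exp_le_exp.2 (by linarith)
  have hN1 : 9 * (N₁ : ℝ) ≤ Real.exp (Lv + 4) := hF.N1
  have hN0e : Real.exp Lv ≤ (N₀ : ℝ) := hF.N0
  have hN01 : (N₀ : ℝ) ≤ N₁ := by exact_mod_cast hF.N01
  have hN1p : (0 : ℝ) < N₁ := by
    have := Real.exp_pos Lv; linarith
  have hlN1 : Real.log N₁ ≤ Lv + e₀ := by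
    have h1 : Real.log N₁ ≤ Real.log (Real.exp (Lv + 4)) :=
      Real.log_le_log hN1p (by linarith)
    rw [Real.log_exp] at h1
    linarith
  have hXc1 : 1 ≤ X ^ c := Real.one_le_rpow hX1 hc.le
  have hlXc : Real.log (X ^ c) = d := by rw [Real.log_rpow hX0, ← hL, hd]
  have hhE : hE (X ^ c) = 7 * d := by unfold RLD381.hE; rw [hlXc]
  have hXδ : 1 ≤ X ^ δ := Real.one_le_rpow hX1 hδ0
  have hD0N : (X ^ δ) ^ N ≤ Real.exp d := by
    rw [hXe, ← Real.exp_nat_mul]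
    refine Real.exp_le_exp.2 ?_
    have h1 : (N : ℝ) * (δ * L) ≤ c * L := by
      have h2 : 0 ≤ N * δ := by positivity
      nlinarith
    rw [hd]; linarith
  have hop : opL N (X ^ δ) ≤ ((100 : ℝ) ^ N) ^ 2 * Real.exp d := by
    unfold NPy739.opL
    have e1 : (X ^ δ) ^ N * ((100 * X ^ δ) ^ N) ^ 2 = ((100 : ℝ) ^ N) ^ 2 * ((X ^ δ) ^ N) ^ 3 := by
      rw [mul_pow]; ring
    rw [e1]
    refine mul_le_mul_of_nonneg_left ?_ (by positivity)
    rw [hXe, ← Real.exp_nat_mul, ← Real.exp_nat_mul]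
    refine Real.exp_le_exp.2 ?_
    push_cast
    have h1 : 3 * ((N : ℝ) * (δ * L)) = (3 * N * δ) * L := by ring
    rw [h1, hd]
    exact mul_le_mul_of_nonneg_right hδN hL0.le
  have hopN : 0 ≤ opL N (X ^ δ) := NPy739.opL_nonneg N (by linarith)
  -- the target
  obtain ⟨G, hG⟩ : ∃ x : ℝ, x = HH ^ (max M (A' : ℝ)) * Bd * (1 + |t|) ^ Jn * Real.exp (n + κ) :=
    ⟨_, rfl⟩
  have ht0 := abs_nonneg t
  have hT1 : 1 ≤ (1 + |t|) ^ Jn := one_le_pow₀ (by linarith)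
  have hTA : (1 + |t|) ^ A' ≤ (1 + |t|) ^ Jn := pow_le_pow_right₀ (by linarith) hA'Jn
  have hE1 : 1 ≤ Real.exp (n + κ) := Real.one_le_exp (by linarith)
  have hG1 : 1 ≤ G := by
    rw [hG]
    exact one_le_mul_of_one_le_of_one_le (one_le_mul_of_one_le_of_one_le
      (one_le_mul_of_one_le_of_one_le hHJ1 hBd) hT1) hE1
  have hBd0 : 0 ≤ Bd := by linarith
  have hμe : X ^ (-μ) = Real.exp (-(μ * L)) := by rw [hXe]; congr 1; ring
  -- one piece
  have hone : ∀ i ∈ Finset.range Nw, (X ^ c) ^ 2 *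
      REb (bw φ p t (sqc q (alF (X ^ δ) (X ^ δ) (π lam) h ps))) (sc (X ^ K) Mw i)
        (GF (Fh (Fw i) (hE (X ^ c)))) (S (X ^ c)) I (X ^ c) N₁ N₁ ≤
      C₁ * Sf ^ 2 * (a₁ + a₂ + 1) * G := by
    intro i hi
    have hi' : (i : ℝ) ≤ Nw := by
      have := (Finset.mem_range.1 hi).le
      exact_mod_cast this
    have hi0 : (0 : ℝ) ≤ i := Nat.cast_nonneg i
    have hXK : 0 < X ^ K := Real.rpow_pos_of_pos hX0 _
    have hlsc : Real.log (sc (X ^ K) Mw i) = κ + (i - Mw) := by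
      unfold WDec180.sc
      rw [Real.log_mul hXK.ne' (Real.exp_pos _).ne', Real.log_exp, Real.log_rpow hX0, ← hL, hκ]
    have h1 := HR (Fw i) Sf (hD.tf i) (hSf i (Finset.mem_range.1 hi)) (hE (X ^ c))
      (by rw [hhE]; linarith) Cw η hCw hη hη2 φ (WK_anti hWK' hCw hη (by omega)) X' hX' hφ' p hp t
      (π lam) (hP lam) ps hlen' (fun x hx => (hz' x hx).1) (X ^ δ) (X ^ δ) hXδ q hq e₀ Pz N₁
      (sc (X ^ K) Mw i) (X ^ c) (X ^ c) Ax I κ Lv d (7 * d) Bb hAx hAxP hPz1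
      (WDec180.sc_pos hXK Mw i) (by
        rw [hlsc, abs_le]
        constructor <;> linarith) (by
        rw [← hn]
        refine hXX2.trans ?_
        linarith) hI2 hN1p hlN1 (by rw [hhE]; linarith) hXc1 (by rw [hlXc]) (by linarith)
      (by rw [hlXc]) (by
        rw [hlP]
        have : ε₂ * (b₁ * L) = d := by rw [hd, ← hε₂b]; ring
        linarith) (by linarith) hv0 hd0.le (by rw [← hn]; linarith) he10 (by linarith)
      (by linarith) (by rw [← hn, hlP, hbL]; linarith) (hD0N.trans (by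
        rw [hPze]; exact Real.exp_le_exp.2 (by linarith))) (hqX.trans (by
        rw [hPze, hXe]; exact Real.exp_le_exp.2 (by linarith))) (fun x hx => by
        rw [hPze]
        refine Real.exp_le_exp.2 ?_
        have := (hz' x hx).2
        linarith) hBb0 (by rw [← hn]; exact hln) (by linarith) (by rw [← hn]; exact h6n)
      (by linarith)
    rw [← hn, hPe] at h1
    have hXc : X ^ c = Real.exp d := by rw [hXe, hd]
    have q1 : (X ^ c) ^ 2 * (Real.exp d * X ^ c) = Real.exp (4 * d) := by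
      rw [hXc, ← Real.exp_nat_mul, ← Real.exp_add, ← Real.exp_add]
      congr 1
      push_cast; ring
    have r1 : Real.exp (4 * d) * (Cw ^ 2 * iA A' * (η * (η ^ A')⁻¹) * (1 + |t|) ^ A' *
        opL N (X ^ δ) * (Bb * Real.exp (n + κ + 5 * d + 3 * e₀))) ≤ a₁ * G := by
      calc Real.exp (4 * d) * (Cw ^ 2 * iA A' * (η * (η ^ A')⁻¹) * (1 + |t|) ^ A' *
            opL N (X ^ δ) * (Bb * Real.exp (n + κ + 5 * d + 3 * e₀)))
          ≤ Real.exp (4 * d) * (Cw ^ 2 * iA A' * (η * (η ^ A')⁻¹) * (1 + |t|) ^ Jn *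
            (((100 : ℝ) ^ N) ^ 2 * Real.exp d) *
            ((Bd * HH ^ (max M (A' : ℝ)) * X ^ (-μ)) *
              Real.exp (n + κ + 5 * d + 3 * e₀))) := by
            rw [hBb]
            have : 0 ≤ X ^ (-μ) := Real.rpow_nonneg hX0.le _
            gcongr
        _ = Cw ^ 2 * iA A' * (η * (η ^ A')⁻¹) * ((100 : ℝ) ^ N) ^ 2 *
            (HH ^ (max M (A' : ℝ)) * Bd * (1 + |t|) ^ Jn) *
            (Real.exp (4 * d) * Real.exp d * Real.exp (-(μ * L)) *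
              Real.exp (n + κ + 5 * d + 3 * e₀)) := by rw [hμe]; ring
        _ ≤ Cw ^ 2 * iA A' * (η * (η ^ A')⁻¹) * ((100 : ℝ) ^ N) ^ 2 *
            (HH ^ (max M (A' : ℝ)) * Bd * (1 + |t|) ^ Jn) *
            (Real.exp (3 * e₀) * Real.exp (n + κ)) := by
            refine mul_le_mul_of_nonneg_left ?_ (by positivity)
            rw [← Real.exp_add, ← Real.exp_add, ← Real.exp_add, ← Real.exp_add]
            exact Real.exp_le_exp.2 (by linarith)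
        _ = a₁ * G := by rw [ha₁, hG]; ring
    have r2 : Real.exp (4 * d) * (Ax ^ 2 *
        Real.exp (n + κ - κ / 36 + 7 * d + 2 * (7 * d) + 9 * e₀)) ≤ a₂ * G := by
      have h2 : 1 ≤ HH ^ (max M (A' : ℝ)) * Bd * (1 + |t|) ^ Jn :=
        one_le_mul_of_one_le_of_one_le (one_le_mul_of_one_le_of_one_le hHJ1 hBd) hT1
      calc Real.exp (4 * d) * (Ax ^ 2 *
            Real.exp (n + κ - κ / 36 + 7 * d + 2 * (7 * d) + 9 * e₀))
          = g₂ ^ 2 * (Real.exp (4 * d) * Real.exp d ^ 2 *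
            Real.exp (n + κ - κ / 36 + 7 * d + 2 * (7 * d) + 9 * e₀)) := by rw [hAxd]; ring
        _ ≤ g₂ ^ 2 * (Real.exp (9 * e₀) * Real.exp (n + κ)) := by
            refine mul_le_mul_of_nonneg_left ?_ (by positivity)
            rw [← Real.exp_nat_mul, ← Real.exp_add, ← Real.exp_add, ← Real.exp_add]
            refine Real.exp_le_exp.2 ?_
            push_cast
            linarith
        _ ≤ g₂ ^ 2 * (Real.exp (9 * e₀) * Real.exp (n + κ)) *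
            (HH ^ (max M (A' : ℝ)) * Bd * (1 + |t|) ^ Jn) :=
            le_mul_of_one_le_right (by positivity) h2
        _ = a₂ * G := by rw [ha₂, hG]; ring
    have r3 : Real.exp (4 * d) * Pz⁻¹ ≤ 1 * G := by
      rw [one_mul]
      refine le_trans ?_ hG1
      rw [hPze, ← Real.exp_neg, ← Real.exp_add, ← Real.exp_zero]
      exact Real.exp_le_exp.2 (by linarith)
    calc (X ^ c) ^ 2 * _ ≤ (X ^ c) ^ 2 * (C₁ * Sf ^ 2 * Real.exp d * X ^ c *
          (Cw ^ 2 * iA A' * (η * (η ^ A')⁻¹) * (1 + |t|) ^ A' * opL N (X ^ δ) *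
            (Bb * Real.exp (n + κ + 5 * d + 3 * e₀)) +
          Ax ^ 2 * Real.exp (n + κ - κ / 36 + 7 * d + 2 * (7 * d) + 9 * e₀) + Pz⁻¹)) :=
          mul_le_mul_of_nonneg_left h1 (by positivity)
      _ = C₁ * Sf ^ 2 * (Real.exp (4 * d) * (Cw ^ 2 * iA A' * (η * (η ^ A')⁻¹) * (1 + |t|) ^ A' *
            opL N (X ^ δ) * (Bb * Real.exp (n + κ + 5 * d + 3 * e₀))) +
          Real.exp (4 * d) * (Ax ^ 2 *
            Real.exp (n + κ - κ / 36 + 7 * d + 2 * (7 * d) + 9 * e₀)) +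
          Real.exp (4 * d) * Pz⁻¹) := by rw [← q1]; ring
      _ ≤ C₁ * Sf ^ 2 * (a₁ * G + a₂ * G + 1 * G) :=
          mul_le_mul_of_nonneg_left (add_le_add (add_le_add r1 r2) r3) (by positivity)
      _ = _ := by ring
  show (X ^ c) ^ 2 * ∑ i ∈ Finset.range Nw,
      REb (bw φ p t (sqc q (alF (X ^ δ) (X ^ δ) (π lam) h ps))) (sc (X ^ K) Mw i)
        (GF (Fh (Fw i) (hE (X ^ c)))) (S (X ^ c)) I (X ^ c) N₁ N₁ ≤
      (X ^ K / Real.exp (LF ps)) * ((max (C₁ * Real.exp S') Cf * X ^ ε *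
        (Ht ps * Ht (natl ps₀)) ^ (max M (A' : ℝ)) * Bd * Real.exp (2 * LF ps)) *
        (1 + |t|) ^ Jn)
  rw [← hHHd, ← hn, Finset.mul_sum]
  refine (Finset.sum_le_sum hone).trans ?_
  rw [Finset.sum_const, Finset.card_range, nsmul_eq_mul]
  have hXε : 1 ≤ X ^ ε := Real.one_le_rpow hX1 hε.le
  have e5 : X ^ K / Real.exp n * Real.exp (2 * n) = Real.exp (n + κ) := by
    rw [hXe, ← hκ, ← Real.exp_sub, ← Real.exp_add]; congr 1; ring
  calc (Nw : ℝ) * (C₁ * Sf ^ 2 * (a₁ + a₂ + 1) * G) = Cf * 1 * G := by rw [hCf]; ring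
    _ ≤ max (C₁ * Real.exp S') Cf * X ^ ε * G := by
        refine mul_le_mul_of_nonneg_right ?_ (by linarith)
        exact mul_le_mul (le_max_right _ _) hXε zero_le_one (le_max_of_le_right hCf0)
    _ = X ^ K / Real.exp n * Real.exp (2 * n) * (max (C₁ * Real.exp S') Cf * X ^ ε *
        HH ^ (max M (A' : ℝ)) * Bd * (1 + |t|) ^ Jn) := by rw [e5, hG]; ring
    _ = _ := by ring

end Crest.Agent.R017.RC106
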