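import Crest.Agent.R017.RClj_83
import Crest.Agent.R017.RLd_381

/-!
# Row 17, T.5 (RG): the `l`-terms of the tail of (LB), class N (helper83)

* `rleaf_NRl` : `RLeaf π h (BeAll (NRl Nw Mw F)) (LN π h c μ) K c b`
-/

set_option autoImplicit false
set_option linter.unusedVariables false
set_option maxHeartbeats 1600000

noncomputable section

open Finset
open scoped ComplexConjugate Classical

namespace Crest.Agent.R017.RCl83

open Crest.Agent.R012 Crest.Agent.R012.Eis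
open Crest.Agent.R012.LS2 (S mem_S)
open Crest.Agent.R017.B770
open Crest.Agent.R017.Prov71
open Crest.Agent.R017.CM106 (CS FS)
open Crest.Agent.R017.FE47 (cx PU)
open Crest.Agent.R017.HP842 (pc sqc)
open Crest.Agent.R017.Leg381 (alf alF Pf LF natl)
open Crest.Agent.R017.X6C180 (GF)
open Crest.Agent.R017.X6545 (TF Bd)
open Crest.Agent.R017.X6W180 (TF1)
open Crest.Agent.R017.Win813 (iA iA_nonneg WK)
open Crest.Agent.R017.RGw813 (T9)
open Crest.Agent.R017.QsO83 (bw)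
open Crest.Agent.R017.E2440 (Fh)
open Crest.Agent.R017.WDec180 (WD sc sc_pos)
open Crest.Agent.R017.RGB545 (Line Th TK LN)
open Crest.Agent.R017.XP699 (LL Chd hcost cst)
open Crest.Agent.R017.RG64
open Crest.Agent.R017.RLD381 (BeAll NRl hE LE)
open Crest.Agent.R017.RC106 (PLn k9)
open Crest.Agent.R017.CubP813 (rl)

lemma WK.down {C η : ℝ} {A A' : ℕ} {φ : ℝ → ℝ} (h : WK C η A φ) (hC : 0 ≤ C) (hη : 0 < η)
    (hA : A' ≤ A) : WK C η A' φ := by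
  obtain ⟨k, h1, h2, h3⟩ := h
  refine ⟨k, h1, fun s => (h2 s).trans (mul_le_mul_of_nonneg_left ?_ hC), h3⟩
  unfold Win813.ew
  refine mul_le_mul_of_nonneg_left ?_ hη.le
  have h4 : 1 ≤ 1 + η * |s| := by
    have : 0 ≤ η * |s| := by positivity
    linarith
  exact inv_anti₀ (by positivity) (pow_le_pow_right₀ h4 hA)

lemma sbL_mem {s : ℝ} {ps : List Pf} {ps₀ : List Pq} (h : SbL s ps ps₀) :
    ∀ x ∈ ps, ∃ x₀ ∈ ps₀, Sb s x x₀ := by
  unfold RG64.SbL at h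
  induction h with
  | nil => intro x hx; exact absurd hx List.not_mem_nil
  | @cons p p₀ ps ps₀ h1 _ ih =>
    intro x hx
    rcases List.mem_cons.1 hx with rfl | hx
    · exact ⟨p₀, by simp, h1⟩
    · obtain ⟨x₀, h2, h3⟩ := ih x hx
      exact ⟨x₀, by simp [h2], h3⟩

lemma exp_half_lt : Real.exp (1 / 2) < 2 := by
  have h1 : Real.exp (1 / 2) ^ 2 < 2 ^ 2 := by
    rw [← Real.exp_nat_mul]
    have := Real.exp_one_lt_d9
    norm_num
    linarith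
  exact lt_of_pow_lt_pow_left₀ 2 (by norm_num) h1

/-- the window -/
lemma win_of {X' η : ℝ} (hX' : 0 < X') (hη1 : η ≤ 1 / 2) {φ : ℝ → ℝ}
    (hφ : ∀ u, φ u ≠ 0 → |u - Real.log X'| ≤ η / 2) :
    ∀ u, φ u ≠ 0 → X' * Real.exp (η / 2) / 2 < Real.exp u ∧
      Real.exp u ≤ X' * Real.exp (η / 2) := by
  intro u hu
  have h1 := abs_le.1 (hφ u hu)
  have e1 : X' = Real.exp (Real.log X') := (Real.exp_log hX').symm
  constructor
  · have h2 : Real.exp (η / 2) < 2 * Real.exp (-(η / 2)) := by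
      have h3 : Real.exp (η / 2) = Real.exp η * Real.exp (-(η / 2)) := by
        rw [← Real.exp_add]; congr 1; ring
      rw [h3]
      have h4 : Real.exp η ≤ Real.exp (1 / 2) := Real.exp_le_exp.2 hη1
      have h5 := exp_half_lt
      have h6 := Real.exp_pos (-(η / 2))
      nlinarith
    have h7 : X' * Real.exp (-(η / 2)) ≤ Real.exp u := by
      calc X' * Real.exp (-(η / 2)) = Real.exp (Real.log X' + -(η / 2)) := by
            rw [Real.exp_add, ← e1]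
        _ ≤ _ := Real.exp_le_exp.2 (by linarith)
    have h8 : X' * Real.exp (η / 2) < X' * (2 * Real.exp (-(η / 2))) :=
      mul_lt_mul_of_pos_left h2 hX'
    linarith
  · calc Real.exp u ≤ Real.exp (Real.log X' + η / 2) := Real.exp_le_exp.2 (by linarith)
      _ = _ := by rw [Real.exp_add, ← e1]

/-- the number of blocks -/
lemma I_le {I : ℕ} {N₁ Lv : ℝ} (h : (2 : ℝ) ^ I ≤ 2 * N₁) (hN : N₁ ≤ Real.exp (Lv + 4))
    : (I : ℝ) ≤ 2 * Lv + 10 := by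
  by_contra hI
  push Not at hI
  have h1 : (2 : ℝ) ^ I ≤ 2 * Real.exp (Lv + 4) := h.trans (by linarith)
  have h2 := Real.log_le_log (by positivity) h1
  rw [Real.log_pow, Real.log_mul (by norm_num) (Real.exp_pos _).ne', Real.log_exp] at h2
  have h3 := Real.log_two_gt_d9
  have h4 := Real.log_two_lt_d9
  have h5 : (0 : ℝ) ≤ I := Nat.cast_nonneg I
  nlinarith

/-- **the last number** -/
lemma tot_le {L c K n C G B T Nw Nu I cS cE Pq DD Dc : ℝ} (hL : 1 ≤ L) (hc : 0 < c) (hK : 0 ≤ K)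
    (hC : 0 ≤ C) (hG : 0 ≤ G) (hB : 0 ≤ B) (hT : 0 ≤ T) (hNw : 0 ≤ Nw) (hNu0 : 0 ≤ Nu)
    (hI0 : 0 ≤ I) (hS0 : 0 ≤ cS) (hE0 : 0 ≤ cE) (hP0 : 0 ≤ Pq) (hD0 : 0 ≤ DD) (hDc : 0 ≤ Dc)
    (hNu : Nu ≤ (2 * K + 10) * L) (hI : I ≤ (2 * K + 10) * L) (hS : cS ≤ 100 * Real.exp (c * L))
    (hE : cE ≤ 100 * Real.exp (c * L)) (hP : Pq ≤ Real.exp (c * L / 100))
    (hD : DD ≤ Dc * Real.exp (c * L / 50)) :
    Real.exp (2 * (c * L)) * (Nw * (Nu * (C * Pq * DD * (cS * (I * (cE *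
      (G * (B * T * Real.exp (n + K * L - 10 * (c * L)))))))))) ≤
      Nw * C * Dc * 10000 * (2 * K + 10) ^ 2 * G * L ^ 2 * (B * T * Real.exp (n + K * L)) := by
  have hcL : 0 ≤ c * L := by positivity
  calc Real.exp (2 * (c * L)) * (Nw * (Nu * (C * Pq * DD * (cS * (I * (cE *
      (G * (B * T * Real.exp (n + K * L - 10 * (c * L))))))))))
      ≤ Real.exp (2 * (c * L)) * (Nw * ((2 * K + 10) * L * (C * Real.exp (c * L / 100) *
        (Dc * Real.exp (c * L / 50)) * (100 * Real.exp (c * L) * ((2 * K + 10) * L *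
        (100 * Real.exp (c * L) * (G * (B * T * Real.exp (n + K * L - 10 * (c * L)))))))))) := by
        gcongr
    _ = Nw * C * Dc * 10000 * (2 * K + 10) ^ 2 * G * L ^ 2 * (B * T) *
        (Real.exp (2 * (c * L)) * Real.exp (c * L / 100) * Real.exp (c * L / 50) *
        Real.exp (c * L) * Real.exp (c * L) * Real.exp (n + K * L - 10 * (c * L))) := by ring
    _ ≤ Nw * C * Dc * 10000 * (2 * K + 10) ^ 2 * G * L ^ 2 * (B * T) *
        Real.exp (n + K * L) := by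
        refine mul_le_mul_of_nonneg_left ?_ (by positivity)
        rw [← Real.exp_add, ← Real.exp_add, ← Real.exp_add, ← Real.exp_add, ← Real.exp_add]
        refine Real.exp_le_exp.2 ?_
        linarith
    _ = _ := by ring

/-- **one piece**: `RL1` from the blocks, sizes of the leaf -/
lemma piece_le {K c μ ε L n Lv e₀ κ₁ : ℝ} {N₁ : ℕ} (hFc : Fc K c μ ε L n Lv e₀ κ₁ N₁)
    {α : Eis → ℂ} {Fg : ℝ → ℂ} {Ki i0 : ℝ} (hKi : 0 < Ki) (hKil : Real.log Ki = K * L + i0)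
    (hi1 : i0 + 4 ≤ e₀) (hi2 : -i0 + 4 ≤ e₀) {Lc : ℝ} {X₀ : ℕ} {Dd : ℝ} {I : ℕ} {E0 Z W : ℝ}
    (hW : 0 ≤ W)
    (hblk : ∀ (κ t : ℝ) (Λ : Finset Eis), 0 ≤ t → t ≤ (K + 1) * L → κ = K * L - 3 * t →
      -e₀ ≤ κ → (∀ l ∈ Λ, IsPrim l ∧ Real.exp t ≤ nm l ∧ (nm l : ℝ) ≤ Real.exp (κ₁ * L) ∧
        0 < Ki / (nm l : ℝ) ^ 3 ∧ Real.log (Ki / (nm l : ℝ) ^ 3) ≤ κ + e₀ ∧
        κ ≤ Real.log (Ki / (nm l : ℝ) ^ 3) + e₀) →
      ∑ l ∈ Λ, (nm l : ℝ)⁻¹ * ∑ a ∈ Div277.dvs (rl l),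
        LBx48.REb (MoCa83.alr α a (rl l / a)) (Ki / (nm l : ℝ) ^ 3) Fg
          ((S Dd).filter (fun δ => rl l / a ∣ δ)) I E0 Z Z ≤ W) :
    Et404.RL1 Fg (Real.exp 2) Ki Lc X₀ α Dd I E0 Z ≤ ((2 * K + 10) * L) * W := by
  have hL1 := hFc.L1
  have hcK := hFc.cK
  have hc := hFc.c0
  have hK : 0 < K := by linarith
  have hκL := hFc.κL
  have hKL0 : 0 ≤ K * L := by positivity
  have h100 := hFc.eL
  have hεc := hFc.εL
  have hc1 := hFc.cL1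
  have he1 := hFc.e0
  have h7 : (K + 1) * L = K * L + L := by ring
  have hNu1 : (K + 1) * L < ((⌊(K + 1) * L⌋₊ + 1 : ℕ) : ℝ) := by
    push_cast; exact Nat.lt_floor_add_one _
  have hfl : ((⌊(K + 1) * L⌋₊ : ℕ) : ℝ) ≤ (K + 1) * L := Nat.floor_le (by positivity)
  have hNu2 : ((⌊(K + 1) * L⌋₊ + 1 : ℕ) : ℝ) ≤ (2 * K + 10) * L := by
    push_cast
    nlinarith
  refine (rl1_le hKi (Real.exp_pos 2) (Nu := ⌊(K + 1) * L⌋₊ + 1) ?_ hW ?_).trans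
    (mul_le_mul_of_nonneg_right hNu2 hW)
  · rw [Real.log_exp, hKil]
    linarith
  · intro u Λ hne hu hΛ
    obtain ⟨l₀, hl₀⟩ := hne
    have hu0 : (0 : ℝ) ≤ u := Nat.cast_nonneg _
    have huK : (u : ℝ) ≤ (K + 1) * L := by
      have h2 : (u : ℝ) ≤ ((⌊(K + 1) * L⌋₊ : ℕ) : ℝ) := by
        have : u ≤ ⌊(K + 1) * L⌋₊ := Nat.lt_succ_iff.1 hu
        exact_mod_cast this
      exact h2.trans hfl
    have hlg : ∀ l ∈ Λ, (u : ℝ) ≤ 3 * Real.log (nm l) ∧ 3 * Real.log (nm l) < u + 1 := by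
      intro l hl
      obtain ⟨h1, h2, h3⟩ := hΛ l hl
      rw [← h2]
      exact ⟨ub_le h1, lt_ub⟩
    have hKll : ∀ l ∈ Λ, Real.log (Ki / (nm l : ℝ) ^ 3) =
        K * L + i0 - 3 * Real.log (nm l) := by
      intro l hl
      have h1 : (0 : ℝ) < nm l := by exact_mod_cast nm_pos.2 (hΛ l hl).1.ne_zero
      rw [Real.log_div hKi.ne' (by positivity), hKil, Real.log_pow]
      push_cast
      ring
    have hκe : -e₀ ≤ K * L - 3 * ((u : ℝ) / 3) := by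
      have h1 : (0 : ℝ) < nm l₀ := by exact_mod_cast nm_pos.2 (hΛ l₀ hl₀).1.ne_zero
      have h2 := Real.log_le_log (by positivity) (hΛ l₀ hl₀).2.2
      rw [Real.log_pow, Real.log_mul (Real.exp_pos 2).ne' hKi.ne', Real.log_exp, hKil] at h2
      push_cast at h2
      have h3 := (hlg l₀ hl₀).1
      linarith
    refine hblk (K * L - 3 * ((u : ℝ) / 3)) ((u : ℝ) / 3) Λ (by positivity) (by linarith) rfl hκe
      ?_
    intro l hl
    obtain ⟨h1, h2, h3⟩ := hΛ l hl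
    have h4 : (0 : ℝ) < nm l := by exact_mod_cast nm_pos.2 h1.ne_zero
    obtain ⟨h5, h6⟩ := hlg l hl
    refine ⟨h1, ?_, ?_, by positivity, ?_, ?_⟩
    · rw [← Real.le_log_iff_exp_le h4]; linarith
    · rw [← Real.log_le_iff_le_exp h4]
      linarith
    · rw [hKll l hl]; linarith
    · rw [hKll l hl]; linarith

/-- the last comparison -/
lemma last_le {XK Xe Xeps c2 Rn W1 Cn C1 B' HJ Bd Tt En E2n : ℝ}
    (h1 : Rn ≤ W1) (hc2 : 0 ≤ c2) (h2 : c2 * W1 ≤ Cn * Xeps * (B' * Tt * En)) (hC : Cn ≤ C1)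
    (hB : B' ≤ HJ * Bd) (hT : 0 ≤ Tt) (hE : 0 ≤ En) (hX : 0 ≤ Xeps) (hCn : 0 ≤ Cn)
    (hHB : 0 ≤ HJ * Bd) (hEE : En = XK / Xe * E2n) :
    c2 * Rn ≤ (XK / Xe) * (C1 * Xeps * HJ * Bd * E2n * Tt) := by
  calc c2 * Rn ≤ c2 * W1 := mul_le_mul_of_nonneg_left h1 hc2
    _ ≤ Cn * Xeps * (B' * Tt * En) := h2
    _ ≤ Cn * Xeps * ((HJ * Bd) * Tt * En) := by
        refine mul_le_mul_of_nonneg_left ?_ (mul_nonneg hCn hX)
        exact mul_le_mul_of_nonneg_right (mul_le_mul_of_nonneg_right hB hT) hE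
    _ ≤ C1 * Xeps * ((HJ * Bd) * Tt * En) := by
        refine mul_le_mul_of_nonneg_right (mul_le_mul_of_nonneg_right hC hX) ?_
        exact mul_nonneg (mul_nonneg hHB hT) hE
    _ = _ := by rw [hEE]; ring

/-- the last number against the constant -/
lemma fin_le {A Z1 L2 Ce Xe Z : ℝ} (h1 : A ≤ Z1 * L2 * Z) (h2 : L2 ≤ Ce * Xe) (h3 : 0 ≤ Z1)
    (h4 : 0 ≤ Z) : A ≤ Z1 * Ce * Xe * Z := by
  calc A ≤ Z1 * L2 * Z := h1
    _ ≤ Z1 * (Ce * Xe) * Z :=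
        mul_le_mul_of_nonneg_right (mul_le_mul_of_nonneg_left h2 h3) h4
    _ = _ := by ring

lemma L2_le {X L ε : ℝ} (hX0 : 0 < X) (hL : L = Real.log X) (hL0 : 0 < L) (hε : 0 < ε) :
    L ^ 2 ≤ (4 / ε ^ 2) * X ^ ε := by
  have h1 := Real.log_le_rpow_div hX0.le (show 0 < ε / 2 by positivity)
  rw [← hL] at h1
  have h2 : L ^ 2 ≤ (X ^ (ε / 2) / (ε / 2)) ^ 2 := pow_le_pow_left₀ hL0.le h1 2
  refine h2.trans (le_of_eq ?_)
  have h3 : X ^ ε = X ^ (ε / 2) * X ^ (ε / 2) := by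
    rw [← Real.rpow_add hX0]; congr 1; ring
  rw [h3]
  field_simp
  ring

lemma DD_le {D0 c L Dc : ℝ} {N l : ℕ} (hD01 : 1 ≤ D0) (hl : l ≤ N)
    (hDN : D0 ^ N ≤ Real.exp (c * L / 100)) (hDc : Dc = ((100 : ℝ) ^ N) ^ 2) :
    ((100 * D0) ^ l) ^ 2 ≤ Dc * Real.exp (c * L / 50) := by
  have hD00 : 0 ≤ D0 := by linarith
  have h1 : (100 * D0) ^ l ≤ (100 * D0) ^ N :=
    pow_le_pow_right₀ (by linarith) hl
  have h2 : (100 * D0) ^ N ≤ 100 ^ N * Real.exp (c * L / 100) := by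
    rw [mul_pow]
    exact mul_le_mul_of_nonneg_left hDN (by positivity)
  calc ((100 * D0) ^ l) ^ 2 ≤ (100 ^ N * Real.exp (c * L / 100)) ^ 2 :=
        pow_le_pow_left₀ (by positivity) (h1.trans h2) 2
    _ = Dc * Real.exp (c * L / 50) := by
        rw [hDc, mul_pow, ← Real.exp_nat_mul]
        congr 2
        push_cast
        ring

variable {Lam : Type*}

/-- **the `l`-terms of the tail of (LB), class N**: the leaf `NRl` of `RLeaf` -/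
theorem rleaf_NRl {π : Lam → DPar} {h : ℝ → ℝ} {c₁ : ℝ} (hP : ∀ lam, (π lam).OK)
    (hpu : PU h c₁) {w : ℝ → ℝ} {Nw : ℕ} {Mw : ℝ} {F : ℕ → ℝ → ℂ} (hD : WD w Nw Mw F)
    {c μ K b : ℝ} (hc : 0 < c) (hcμ : 1000 * c ≤ μ) (hμ : μ ≤ 1) (hcK : 2000 * c ≤ K) :
    RLeaf π h (BeAll (NRl Nw Mw F)) (LN π h c μ) K c b := by
  obtain ⟨Rh, hRh0, hRh⟩ : ∃ Rh : ℝ, 0 ≤ Rh ∧ ∀ u, cx h u ≠ 0 → |u| ≤ Rh := by
    obtain ⟨Rh₀, hRh₀⟩ := bump_of_cs hpu.cs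
    exact ⟨max Rh₀ 0, le_max_right _ _, fun u hu => (hRh₀ u hu).trans (le_max_left _ _)⟩
  have hK : 0 < K := by linarith
  have hMw := hD.M0
  intro lam N c₀ hc₀
  refine ⟨c₀, by linarith, fun ε M hε hM => ?_⟩
  obtain ⟨μc, hμc⟩ : ∃ μc : ℝ, μc = (N : ℝ) * M / 2 := ⟨_, rfl⟩
  have hN0 : (0 : ℝ) ≤ N := Nat.cast_nonneg _
  have hM0 : 0 ≤ M := by linarith
  have hμc0 : 0 ≤ μc := by rw [hμc]; exact div_nonneg (mul_nonneg hN0 hM0) (by norm_num)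
  have hNμ : 0 ≤ (N : ℝ) * μc := mul_nonneg hN0 hμc0
  refine ⟨2 * (N * μc) + 2 + M, c / (100 * (N + 1)), by linarith,
    div_pos hc (by linarith), ?_⟩
  intro δ Jn Aw Cw R η Sb hδ0 hδ hJn hAw hCw hR hη hη1 hSb
  have hJn1 : 2 * (N * μc) + 2 ≤ (Jn : ℝ) := by linarith
  obtain ⟨κ₁, hκ₁⟩ : ∃ κ₁ : ℝ, κ₁ = 20 * (K + c₀ + 2) := ⟨_, rfl⟩
  have hκ₁0 : 0 < κ₁ := by rw [hκ₁]; linarith
  have hc1 : c ≤ 1 / 1000 := by linarith
  have hκ₁1 : 40 ≤ κ₁ := by rw [hκ₁]; linarith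
  obtain ⟨εq, hεqd⟩ : ∃ εq : ℝ, εq = c / (100 * κ₁) := ⟨_, rfl⟩
  have hεq : 0 < εq := by rw [hεqd]; exact div_pos hc (by linarith)
  have hκε : κ₁ * εq ≤ c / 100 := by
    rw [hεqd]
    have : κ₁ * (c / (100 * κ₁)) = c / 100 := by field_simp
    exact this.le
  have hεq1 : εq ≤ 1 / 2 := by
    rw [hεqd, div_le_iff₀ (by linarith)]
    linarith
  obtain ⟨k, C, hC, H⟩ := blk_list hpu hRh0 hRh hμc0 N hεq hεq hεq hεq1 Jn hJn1 hCw
  obtain ⟨Sf, hSf0, hSf⟩ := hD.bd k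
  have hNw0 : (0 : ℝ) ≤ Nw := Nat.cast_nonneg _
  have hk9 := abs_nonneg k9
  obtain ⟨e₀, he₀⟩ : ∃ e₀ : ℝ, e₀ = C + |k9| + Nw + Mw + R + 20 := ⟨_, rfl⟩
  have he₀k : k9 ≤ e₀ := by
    have := le_abs_self k9
    linarith
  have he₀C : C ≤ e₀ := by linarith
  have he₀20 : 20 ≤ e₀ := by linarith
  have he₀N : (Nw : ℝ) + Mw + R + 20 ≤ e₀ := by linarith
  have hiA := iA_nonneg Jn
  have hηp : 0 ≤ η * (η ^ Jn)⁻¹ := mul_nonneg hη.le (inv_nonneg.2 (pow_nonneg hη.le _))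
  obtain ⟨G, hG⟩ : ∃ G : ℝ, G = Sf ^ 2 * (Cw ^ 2 * iA Jn * (η * (η ^ Jn)⁻¹) *
    Real.exp (3 * e₀) + C ^ 2 * Real.exp (9 * e₀) + 1) := ⟨_, rfl⟩
  have hG0 : 0 ≤ G := by
    rw [hG]
    refine mul_nonneg (sq_nonneg _) ?_
    have h1 : 0 ≤ Cw ^ 2 * iA Jn * (η * (η ^ Jn)⁻¹) * Real.exp (3 * e₀) :=
      mul_nonneg (mul_nonneg (mul_nonneg (sq_nonneg _) hiA) hηp) (Real.exp_pos _).le
    have h2 : 0 ≤ C ^ 2 * Real.exp (9 * e₀) := mul_nonneg (sq_nonneg _) (Real.exp_pos _).le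
    linarith
  obtain ⟨Dc, hDc⟩ : ∃ Dc : ℝ, Dc = ((100 : ℝ) ^ N) ^ 2 := ⟨_, rfl⟩
  have hDc0 : 0 ≤ Dc := by rw [hDc]; exact sq_nonneg _
  have hC0 : 0 ≤ C := by linarith
  obtain ⟨Z1, hZ1⟩ : ∃ Z1 : ℝ, Z1 = Nw * C * Dc * 10000 * (2 * K + 10) ^ 2 * G := ⟨_, rfl⟩
  have hZ10 : 0 ≤ Z1 := by
    rw [hZ1]
    exact mul_nonneg (mul_nonneg (mul_nonneg (mul_nonneg (mul_nonneg hNw0 hC0) hDc0)
      (by norm_num)) (sq_nonneg _)) hG0
  obtain ⟨Cn, hCn⟩ : ∃ Cn : ℝ, Cn = Z1 * (4 / ε ^ 2) := ⟨_, rfl⟩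
  have hCn0 : 0 ≤ Cn := by
    rw [hCn]; exact mul_nonneg hZ10 (div_nonneg (by norm_num) (sq_nonneg _))
  have hCS : 0 < C * Real.exp Sb := mul_pos (by linarith) (Real.exp_pos _)
  refine ⟨C * Real.exp Sb + Cn, C + Sb, Real.exp (1 + 100 * e₀ / ε + Sb), by linarith,
    by linarith, ?_⟩
  intro X hX3 hXX ps₀ hlen hz₀ hd q ps Lv N₀ N₁ hF hq hqX hps Bd hBd hprem
  have hX0 : 0 < X := by linarith
  have hX1 : 1 < X := by linarith
  obtain ⟨L, hLd⟩ : ∃ L : ℝ, L = Real.log X := ⟨_, rfl⟩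
  have eX : X = Real.exp L := by rw [hLd]; exact (Real.exp_log hX0).symm
  have hLX : 1 + 100 * e₀ / ε + Sb ≤ L := by
    rw [hLd, Real.le_log_iff_exp_le hX0]; exact hXX
  have he₀0 : 0 ≤ 100 * e₀ / ε := div_nonneg (by linarith) hε.le
  have hL1 : 1 ≤ L := by linarith
  have hL0 : 0 < L := by linarith
  have hSbL : Sb ≤ L := by linarith
  have heL : 100 * e₀ ≤ ε * L := by
    have h1 : 100 * e₀ / ε ≤ L := by linarith
    rw [div_le_iff₀ hε] at h1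
    linarith
  have hXe : ∀ a : ℝ, X ^ a = Real.exp (a * L) := fun a => by
    rw [Real.rpow_def_of_pos hX0, ← hLd, mul_comm]
  -- the list
  have hlen' : ps.length ≤ N := (hps.length).trans_le hlen
  have hzn : ∀ x ∈ ps, 0 ≤ x.1.z := hps.z_nonneg
  have hn0 : 0 ≤ LF ps := by
    unfold Leg381.LF
    refine List.sum_nonneg fun x hx => ?_
    obtain ⟨y, hy, rfl⟩ := List.mem_map.1 hx
    exact hzn y hy
  have hKL0 : 0 ≤ K * L := mul_nonneg hK.le hL0.le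
  have hc0L : 0 ≤ c₀ * L := mul_nonneg (by linarith) hL0.le
  have hκL3 : κ₁ * L = 20 * (K * L) + 20 * (c₀ * L) + 40 * L := by rw [hκ₁]; ring
  have hzu : ∀ x ∈ ps, 0 ≤ x.1.z ∧ x.1.z ≤ κ₁ * L := by
    intro x hx
    refine ⟨hzn x hx, ?_⟩
    obtain ⟨x₀, hx₀, hs⟩ := sbL_mem hps x hx
    have h1 := hs.2.2.2.2
    have h2 : x₀.z ≤ c₀ * L := by rw [hLd]; exact (hz₀ x₀ hx₀).2
    linarith
  obtain ⟨n, hn⟩ : ∃ n : ℝ, n = LF ps := ⟨_, rfl⟩
  have hn56 : 6 * n ≤ 5 * (K * L) + 7 * (ε * L) := by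
    have h1 := hF.n56
    have h2 := hF.hi
    rw [← hLd] at h1 h2
    rw [← hn] at h2
    linarith
  have hv3 : 3 * Lv ≤ 2 * (K * L) := by
    have h1 := hF.v3
    rw [← hLd] at h1
    have h2 : 0 ≤ c * L := mul_nonneg hc.le hL0.le
    linarith
  have hN₁p : 1 ≤ N₁ := by
    have h1 : (0 : ℝ) < N₀ := (Real.exp_pos _).trans_le hF.N0
    have h2 : 0 < N₀ := by exact_mod_cast h1
    exact h2.trans_le hF.N01
  have hN₁u : (N₁ : ℝ) ≤ Real.exp (Lv + 4) := by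
    have h1 := hF.N1
    have h2 : (0 : ℝ) ≤ N₁ := Nat.cast_nonneg _
    linarith
  rw [← hn] at hn0
  have hFc : Fc K c μ ε L n Lv e₀ κ₁ N₁ := ⟨hc, hcμ, hμ, hcK, hε, hF.ec, hL1, by linarith, he₀k,
    heL, hn0, hn56, hF.v0, hv3, hN₁u, hN₁p, by rw [hκ₁]; linarith⟩
  have hcL1 := hFc.cL1
  have hcL := hFc.cL
  have hεcL := hFc.εL
  have hκL := hFc.κL
  -- the lines
  have hHt1 : 1 ≤ Ht ps * Ht (natl ps₀) :=
    one_le_mul_of_one_le_of_one_le (one_le_Ht _) (one_le_Ht _)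
  obtain ⟨HM, hHM⟩ : ∃ HM : ℝ, HM = (Ht ps * Ht (natl ps₀)) ^ M := ⟨_, rfl⟩
  have hHM1 : 1 ≤ HM := by rw [hHM]; exact Real.one_le_rpow hHt1 hM
  obtain ⟨B', hB'⟩ : ∃ B' : ℝ, B' = Bd * HM := ⟨_, rfl⟩
  have hB'1 : 1 ≤ B' := by rw [hB']; exact one_le_mul_of_one_le_of_one_le hBd hHM1
  have hprem' : LnPrem π h c μ K ε M (C + Sb) ((C * Real.exp Sb + Cn) * X ^ c₀) X Bd lam ps₀ ps
      Lv := hprem
  have hec := hF.ec
  have hεle : ε ≤ 1 := by linarith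
  have hεL1 : ε * L ≤ L := by
    have := mul_le_mul_of_nonneg_right hεle hL0.le
    linarith
  have hμL1 : 1000 * (c * L) ≤ μ * L := by
    have := mul_le_mul_of_nonneg_right hcμ hL0.le
    linarith
  have hK1L : (K + 1) * Real.log X = K * L + L := by rw [← hLd]; ring
  have hpln : ∀ t : ℝ, 0 ≤ t → t ≤ (K + 1) * L → PLn (π lam) h μc C (fun i => (ps.get i).1)
      (LF ps) (K * L - 3 * t) Lv (17 * (2 * (c * L)) + 8 * e₀) (2 * e₀)
      (B' * Real.exp (4 * t - μ * L)) := by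
    intro t ht0 htK
    rw [hB', hHM, hμc, hLd]
    refine pln_of hprem' hX1 hK.le (by linarith) hμ hε.le hεle hlen' hM (by linarith)
      hC0 hps (fun q hq => (hz₀ q hq).2) le_rfl ?_ (by rw [← hn]; exact hn0) ?_ hF.v0 ht0
      (by rw [← hLd]; exact htK) ?_ (by linarith) ?_
    · refine mul_le_mul_of_nonneg_right ?_ (Real.rpow_nonneg hX0.le _)
      linarith
    · rw [← hn, hK1L]
      linarith
    · rw [← hLd]
      have h1 : (μ + ε) * L = μ * L + ε * L := by ring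
      rw [h1]
      linarith
    · rw [← hLd]
      linarith
  -- the sequence
  intro a ha t X' φ hX' hXX' hφ hφs
  have hJA : Jn ≤ Aw := by omega
  have hφ' : WK Cw η Jn φ := WK.down hφ hCw hη hJA
  intro I X₀ hI1 hI2
  show (X ^ c) ^ 2 * Et404.RLn Nw F (hE (X ^ c)) Mw (X ^ K) (LE (X ^ c)) X₀
      (bw φ a t (sqc q (alF (X ^ δ) (X ^ δ) (π lam) h ps))) (X ^ c) I (X ^ c) (N₁ : ℝ) ≤
    (X ^ K / Real.exp (LF ps)) * ((C * Real.exp Sb + Cn) * X ^ ε *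
      (Ht ps * Ht (natl ps₀)) ^ (2 * (N * μc) + 2 + M) * Bd * Real.exp (2 * LF ps) *
        (1 + |t|) ^ Jn)
  have hlogE : Real.log (X ^ c) = c * L := by rw [hXe, Real.log_exp]
  have hhE : hE (X ^ c) = 7 * (c * L) := by
    unfold RLD381.hE
    rw [hlogE]
  obtain ⟨D0, hD0d⟩ : ∃ D0 : ℝ, D0 = X ^ δ := ⟨_, rfl⟩
  rw [← hD0d]
  have hD01 : 1 ≤ D0 := by rw [hD0d]; exact Real.one_le_rpow hX1.le hδ0
  have hNδ : (N : ℝ) * δ ≤ c / 100 := by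
    calc (N : ℝ) * δ ≤ (N + 1) * (c / (100 * (N + 1))) :=
          mul_le_mul (by linarith) hδ hδ0 (by linarith)
      _ = c / 100 := by field_simp
  have hDN : D0 ^ N ≤ Real.exp (c * L / 100) := by
    rw [hD0d, hXe, ← Real.exp_nat_mul]
    refine Real.exp_le_exp.2 ?_
    have := mul_le_mul_of_nonneg_right hNδ hL0.le
    linarith
  have hDNκ : D0 ^ N ≤ Real.exp (κ₁ * L) := hDN.trans (Real.exp_le_exp.2 (by linarith))
  have hqP : (nm q : ℝ) ≤ Real.exp (κ₁ * L) := by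
    refine hqX.trans ?_
    rw [hXe]
    refine Real.exp_le_exp.2 ?_
    linarith
  obtain ⟨Xw, hXw⟩ : ∃ Xw : ℝ, Xw = X' * Real.exp (η / 2) := ⟨_, rfl⟩
  have hXw0 : 0 < Xw := by rw [hXw]; exact mul_pos hX' (Real.exp_pos _)
  have hlXw : Real.log Xw ≤ n + e₀ := by
    rw [hXw, Real.log_mul hX'.ne' (Real.exp_pos _).ne', Real.log_exp]
    have h1 := (abs_le.1 hXX').2
    have h2 : Real.log (Real.exp (LF ps)) = n := by rw [Real.log_exp, hn]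
    have h3 : Real.log X' - Real.log (Real.exp (LF ps)) ≤ R + 1 := h1
    linarith
  have hwin : ∀ u, φ u ≠ 0 → Xw / 2 < Real.exp u ∧ Real.exp u ≤ Xw := by
    rw [hXw]; exact win_of hX' hη1 hφs
  obtain ⟨Tt, hTt⟩ : ∃ Tt : ℝ, Tt = (1 + |t|) ^ Jn := ⟨_, rfl⟩
  have hTt1 : 1 ≤ Tt := by rw [hTt]; exact one_le_pow₀ (by linarith [abs_nonneg t])
  obtain ⟨NQ, hNQ⟩ : ∃ NQ : ℝ, NQ = G * (B' * Tt * Real.exp (n + K * L - 10 * (c * L))) :=
    ⟨_, rfl⟩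
  have hNQ0 : 0 ≤ NQ := by
    rw [hNQ]
    exact mul_nonneg hG0 (mul_nonneg (mul_nonneg (by linarith) (by linarith))
      (Real.exp_pos _).le)
  obtain ⟨cS, hcS⟩ : ∃ cS : ℝ, cS = ((S (X ^ c)).card : ℝ) := ⟨_, rfl⟩
  have hcS0 : 0 ≤ cS := by rw [hcS]; exact Nat.cast_nonneg _
  have hIr0 : (0 : ℝ) ≤ I := Nat.cast_nonneg _
  obtain ⟨W, hW⟩ : ∃ W : ℝ, W = C * Real.exp (κ₁ * L) ^ εq * ((100 * D0) ^ ps.length) ^ 2 *
    (cS * (I * (cS * NQ))) := ⟨_, rfl⟩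
  have hW1 : 0 ≤ C * Real.exp (κ₁ * L) ^ εq * ((100 * D0) ^ ps.length) ^ 2 :=
    mul_nonneg (mul_nonneg hC0 (Real.rpow_nonneg (Real.exp_pos _).le _)) (sq_nonneg _)
  have hW0 : 0 ≤ W := by
    rw [hW]
    exact mul_nonneg hW1 (mul_nonneg hcS0 (mul_nonneg hIr0 (mul_nonneg hcS0 hNQ0)))
  have hXc1 : 1 ≤ X ^ c := Real.one_le_rpow hX1.le hc.le
  have hXcE : X ^ c ≤ Real.exp (c * L) := by rw [hXe]
  have hhE0 : 0 ≤ hE (X ^ c) := by rw [hhE]; linarith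
  have hhE1 : hE (X ^ c) ≤ 16 * (c * L) := by rw [hhE]; linarith
  have hXK0 : 0 < X ^ K := Real.rpow_pos_of_pos hX0 _
  -- one piece
  have hpiece : ∀ i ∈ Finset.range Nw, Et404.RL1 (GF (Fh (F i) (hE (X ^ c)))) (Real.exp 2)
      (sc (X ^ K) Mw i) (LE (X ^ c)) X₀ (bw φ a t (sqc q (alF D0 D0 (π lam) h ps))) (X ^ c) I
      (X ^ c) (N₁ : ℝ) ≤ ((2 * K + 10) * L) * W := by
    intro i hi
    have hiN : (i : ℝ) ≤ Nw := by exact_mod_cast (Finset.mem_range.1 hi).le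
    have hi0 : (0 : ℝ) ≤ i := Nat.cast_nonneg _
    have hKi0 : 0 < sc (X ^ K) Mw i := sc_pos hXK0 Mw i
    have hKil : Real.log (sc (X ^ K) Mw i) = K * L + (i - Mw) := by
      unfold WDec180.sc
      rw [hXe, ← Real.exp_add, Real.log_exp]
    refine piece_le hFc hKi0 hKil (by linarith) (by linarith) hW0 ?_
    intro κ t' Λ ht0 htK hκ hκe hΛ
    have hBb : 0 ≤ B' * Real.exp (4 * t' - μ * L) :=
      mul_nonneg (by linarith) (Real.exp_pos _).le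
    have h1 := H (F i) Sf (hD.tf i) (hSf i (Finset.mem_range.1 hi)) K c μ ε L n Lv e₀ κ₁ N₁
      hFc he₀C (by linarith) (π lam) (hP lam) ps hlen' hn.symm hzu D0 D0 hD01
      hDNκ q hq hqP η hη (by linarith) φ hφ' a ha t Xw hXw0 hlXw hwin κ t' Λ
      (fun l => sc (X ^ K) Mw i / (nm l : ℝ) ^ 3) ht0 hκ hκe hΛ
      (B' * Real.exp (4 * t' - μ * L)) hBb
      (by rw [hκ]; exact hpln _ ht0 htK) (X ^ c) (X ^ c) (hE (X ^ c)) (by linarith)
      hXcE (by linarith) hXcE hhE0 hhE1 I hI2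
    refine h1.trans ?_
    have h3 := nq_le (Cφ := Cw) (η := η) (Sf := Sf) (D0 := D0) (Bd' := B') (Cb := C) (t₀ := t)
      (κ := κ) (t := t') (A' := Jn) (N := N) hFc hη
      (by linarith) hκε hκε hκε hDN hB'1 hκ
    rw [← hG, ← hTt, ← hNQ] at h3
    rw [hW, ← hcS]
    refine mul_le_mul_of_nonneg_left ?_ hW1
    refine mul_le_mul_of_nonneg_left ?_ hcS0
    refine mul_le_mul_of_nonneg_left ?_ hIr0
    exact mul_le_mul_of_nonneg_left h3 hcS0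
  have hsum : Et404.RLn Nw F (hE (X ^ c)) Mw (X ^ K) (LE (X ^ c)) X₀
      (bw φ a t (sqc q (alF D0 D0 (π lam) h ps))) (X ^ c) I (X ^ c) (N₁ : ℝ) ≤
      Nw * (((2 * K + 10) * L) * W) := by
    unfold Et404.RLn
    refine (Finset.sum_le_sum hpiece).trans ?_
    rw [Finset.sum_const, Finset.card_range, nsmul_eq_mul]
  -- the last number
  have hIle : (I : ℝ) ≤ (2 * K + 10) * L := by
    have h1 := I_le hI2 hN₁u
    have h2 : (2 * K + 10) * L = 2 * (K * L) + 10 * L := by ring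
    rw [h2]
    linarith [hF.v0]
  have hDD : ((100 * D0) ^ ps.length) ^ 2 ≤ Dc * Real.exp (c * L / 50) :=
    DD_le hD01 hlen' hDN hDc
  have hPq : Real.exp (κ₁ * L) ^ εq ≤ Real.exp (c * L / 100) := by
    rw [← Real.exp_mul]
    refine Real.exp_le_exp.2 ?_
    have := mul_le_mul_of_nonneg_right hκε hL0.le
    linarith
  have hcard : cS ≤ 100 * Real.exp (c * L) := by
    have h1 := E2440.card_S_le' hXc1
    rw [hcS]
    exact h1.trans (mul_le_mul_of_nonneg_left hXcE (by norm_num))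
  have h2K : 0 ≤ (2 * K + 10) * L := mul_nonneg (by linarith) hL0.le
  have htot := tot_le (L := L) (c := c) (K := K) (n := n) (C := C) (G := G) (B := B') (T := Tt)
    (Nw := Nw) (Nu := (2 * K + 10) * L) (I := I) (cS := cS) (cE := cS)
    (Pq := Real.exp (κ₁ * L) ^ εq) (DD := ((100 * D0) ^ ps.length) ^ 2) (Dc := Dc) hL1 hc hK.le
    hC0 hG0 (by linarith) (by linarith) hNw0 h2K hIr0
    hcS0 hcS0 (Real.rpow_nonneg (Real.exp_pos _).le _) (sq_nonneg _) hDc0 le_rfl hIle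
    hcard hcard hPq hDD
  rw [← hNQ, ← hW, ← hZ1] at htot
  have hE2 : (X ^ c) ^ 2 = Real.exp (2 * (c * L)) := by
    rw [hXe, ← Real.exp_nat_mul]
    congr 1
  have hL2 : L ^ 2 ≤ (4 / ε ^ 2) * X ^ ε := L2_le hX0 hLd hL0 hε
  have hHMJ : HM ≤ (Ht ps * Ht (natl ps₀)) ^ (2 * (N * μc) + 2 + M) := by
    rw [hHM]
    exact Real.rpow_le_rpow_of_exponent_le hHt1 (by linarith)
  have hXε : 0 < X ^ ε := Real.rpow_pos_of_pos hX0 _
  have hBTE : 0 ≤ B' * Tt * Real.exp (n + K * L) :=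
    mul_nonneg (mul_nonneg (by linarith) (by linarith)) (Real.exp_pos _).le
  have hfin : (X ^ c) ^ 2 * (Nw * (((2 * K + 10) * L) * W)) ≤
      Cn * X ^ ε * (B' * Tt * Real.exp (n + K * L)) := by
    rw [hE2, hCn]
    exact fin_le htot hL2 hZ10 hBTE
  have hHJ0 : 0 ≤ (Ht ps * Ht (natl ps₀)) ^ (2 * (N * μc) + 2 + M) :=
    Real.rpow_nonneg (by linarith) _
  rw [← hTt, ← hn]
  refine last_le hsum (sq_nonneg _) hfin (by linarith) ?_ (by linarith) (Real.exp_pos _).le hXε.le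
    hCn0 (mul_nonneg hHJ0 (by linarith)) ?_
  · rw [hB', mul_comm Bd]
    exact mul_le_mul_of_nonneg_right hHMJ (by linarith)
  · rw [hXe K, ← Real.exp_sub, ← Real.exp_add]
    congr 1
    ring

end Crest.Agent.R017.RCl83
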