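import Crest.Agent.R017.RLoC_64

/-!
# Row 17, T.5, (Ro) at the leaf (helper64), part D: the leaf

* `ro_leaf` : `RLeafL π h (fun Λ => BeAll (NRo w Λ)) (LN π h c μ) K c (8 * (K + 1))`
-/

set_option autoImplicit false
set_option maxHeartbeats 400000

noncomputable section

open Finset MeasureTheory
open scoped Classical

namespace Crest.Agent.R017.RLo64

open Crest.Agent.R012 Crest.Agent.R012.Eis Crest.Agent.R012.MC
open Crest.Agent.R012.LS2 (S mem_S bl mem_bl)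
open Crest.Agent.R012.Weight600 (pw)
open Crest.Agent.R017.CM106 (CS TG FS)
open Crest.Agent.R017.HP842 (sqc)
open Crest.Agent.R017.FE47
open Crest.Agent.R017.B770
open Crest.Agent.R017.Prov71
open Crest.Agent.R017.Leg381 (Pf alF LF natl)
open Crest.Agent.R017.XRG106 (RFp)
open Crest.Agent.R017.XP699 (LL Chd hcost cst)
open Crest.Agent.R017.RG64 (SbL Ht one_le_Ht LBp RFacts RLeafL)
open Crest.Agent.R017.RGB545 (Line Th TK LN IN FN GN EN one)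
open Crest.Agent.R017.RLD381 (Numb BeAll NRo hE)
open Crest.Agent.R017.C70 (JW okJ_JW)
open Crest.Agent.R017.E1551 (Adm)
open Crest.Agent.R017.E3Z548 (FH)
open Crest.Agent.R017.E3T829 (G2 G2_nonneg RR)
open Crest.Agent.R017.E3T1579 (T3)
open Crest.Agent.R017.E3M829 (TC)
open Crest.Agent.R017.E3Sz579 (Ld Md)
open Crest.Agent.R017.E3Kc548 (afT LI mem_LI card_LI)
open Crest.Agent.R017.E3Kf548 (afR TC_afR FS_afR T3_afR_zero afR_sqf afR_win)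
open Crest.Agent.R017.E3Sx579 (RHR)
open Crest.Agent.R017.R3571 (W2 RMm RMm_nonneg slp_two)
open Crest.Agent.R017.QsO83 (bw bw_ne FS_bw)
open Crest.Agent.R017.RGw813 (bt T9 mem_T9)
open Crest.Agent.R017.Win813 (WK wn_ne)
open Crest.Agent.R017.PX764 (n6)
open Crest.Agent.R017.RoP579 (RNp)
open Crest.Agent.R017.RoX116

variable {Lam : Type*}


lemma LF_nonneg {l : List Pf} (h : ∀ p ∈ l, 0 ≤ p.1.z) : 0 ≤ LF l := by
  unfold Leg381.LF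
  refine List.sum_nonneg ?_
  intro x hx
  obtain ⟨p, hp, rfl⟩ := List.mem_map.1 hx
  exact h p hp

lemma sqc_sq {q : Eis} {α : Eis → ℂ} {n : Eis} (hn : sqc q α n ≠ 0) : Squarefree n := by
  unfold HP842.sqc HP842.Th at hn
  by_contra h0
  exact hn (by rw [if_neg (fun h => h0 h.1), zero_mul])

set_option maxHeartbeats 1600000 in
/-- **(Ro) at the leaf, class N** -/
theorem ro_leaf {π : Lam → DPar} (hP : ∀ lam, (π lam).OK) {h : ℝ → ℝ} {cu : ℝ} (hpu : PU h cu)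
    {w : ℝ → ℝ} (hw : Wgt w) (hw0 : ∀ x, 0 ≤ w x) {c μ K : ℝ} (hc : 0 < c) (hcμ : 1000 * c ≤ μ)
    (hμ1 : μ ≤ 1) (hcK : 2000 * c ≤ K) :
    RLeafL π h (fun Λ => BeAll (NRo w Λ)) (LN π h c μ) K c (8 * (K + 1)) := by
  have hK : 0 < K := by linarith
  have hμ0 : 0 < μ := by linarith
  intro lam N c₀ hc₀
  obtain ⟨c₂, hc₂⟩ : ∃ x : ℝ, x = max c₀ (K + 3) := ⟨_, rfl⟩
  have hc₂a : c₀ ≤ c₂ := by rw [hc₂]; exact le_max_left _ _
  have hc₂b : K + 3 ≤ c₂ := by rw [hc₂]; exact le_max_right _ _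
  have hc₂1 : 1 ≤ c₂ := hc₀.trans hc₂a
  obtain ⟨W, b₀, hb₀, hW⟩ := E3M829.exists_W0 hw hw0
  have hN0 : (0 : ℝ) ≤ N := Nat.cast_nonneg _
  refine ⟨c₂, by linarith, fun ε M hε hM => ?_⟩
  obtain ⟨a, ha, H₁⟩ := R3571.RH_leaf hpu N (c₀ := c₂) (m₀ := 300 * (K + 1) + 1) (μ := μ)
    (M := M) hc₂1 (by positivity) hμ0 hM
  refine ⟨max ((N : ℝ) ^ 2 * M) M, min 1 (ε / 2 / (3 * N + 1)), hM.trans (le_max_right _ _),
    lt_min one_pos (by positivity), ?_⟩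
  intro δ Jn Aw Cw R η S' hδ0 hδ hJn hAw hCw hR hη hη1 hS
  obtain ⟨C_R, r, X_R, hC_R, hr, H₂⟩ := H₁ (ε / 2) S' (by positivity) hS
  obtain ⟨ε', hε'⟩ : ∃ x : ℝ, x = c / (16 * (K + 1)) := ⟨_, rfl⟩
  have hε'0 : 0 < ε' := by rw [hε']; positivity
  have hε'1 : ε' ≤ 1 := by
    rw [hε', div_le_one (by positivity)]
    linarith
  obtain ⟨A₀, c₁, hc₁, H₃⟩ := RoP579.pairB_N (R0 := 1) zero_le_one a (Jn + 2) (by omega) hb₀.le
    hε'0 hε'1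
  obtain ⟨C_P, hC_P, H₄⟩ := H₃ (max A₀ 2) (le_max_left _ _) 4 le_rfl
  obtain ⟨C_C, hC_C, H₅⟩ := ro_core hw hW (R := 2) (by norm_num) (A' := Jn + 2) (by omega)
    (A := max A₀ 2) (Bw := 4) (lt_of_lt_of_le (by norm_num) (le_max_right _ _)) (by norm_num) hε'0
  obtain ⟨X_N, H₆⟩ := RoNum298.ro_num hc hcμ hμ1 hcK hc₁ hR
  obtain ⟨X_T, H₇⟩ := big_const hc (k := C_C * (1 + C_P) * c₁ ^ (1 / 3 : ℝ)) (by positivity)
  obtain ⟨C₀, hC₀⟩ : ∃ x : ℝ, x = R + 15 := ⟨_, rfl⟩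
  obtain ⟨kQ, hkQ⟩ : ∃ kQ, kQ = (1 + c₁ + 1 ^ (-(2 / 3) : ℝ) + 1 ^ (-(1 / 3) : ℝ)) *
    Real.exp (11 * C₀ + 0) := ⟨_, rfl⟩
  have hkQ0 : 0 ≤ kQ := by rw [hkQ]; positivity
  obtain ⟨C_F, hC_F⟩ : ∃ x : ℝ, x = C_C * (1 + C_P) * (2 + 1 / ε') *
    (kQ * ((Cw ^ 2 * (η⁻¹) ^ Jn) * C_R)) := ⟨_, rfl⟩
  have hC_F0 : 0 ≤ C_F := by rw [hC_F]; positivity
  have he1 : (1 : ℝ) ≤ Real.exp 1 := Real.one_le_exp zero_le_one
  refine ⟨C_F + C_R, r, max X_R (max X_N X_T), c₁ * (Real.exp 1 * Real.exp 1), by linarith, hr,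
    one_le_mul_of_one_le_of_one_le hc₁ (one_le_mul_of_one_le_of_one_le he1 he1), ?_⟩
  intro X hX3 hXX ps₀ hlen hz hs2 q ps Lv N₀ N₁ hF hq hqX hps Bd hBd hprem
  have hX0 : 0 < X := by linarith
  have hX1 : 1 ≤ X := by linarith
  have hL : 0 < Real.log X := Real.log_pos (by linarith)
  have hXR : X_R ≤ X := (le_max_left _ _).trans hXX
  have hXN : X_N ≤ X := ((le_max_left _ _).trans (le_max_right _ _)).trans hXX
  have hXT : X_T ≤ X := ((le_max_right _ _).trans (le_max_right _ _)).trans hXX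
  have hmono : ∀ u : ℝ, u ≤ c₂ → X ^ u ≤ X ^ c₂ := fun u hu =>
    Real.rpow_le_rpow_of_exponent_le hX1 hu
  have hLF0 : 0 ≤ LF ps := LF_nonneg hps.z_nonneg
  intro pp hpp t X' φ hX' hXX' hWK hφ K' b' e' hK' hb' he'
  have hXn : |Real.log X' - LF ps| ≤ R + 1 := by
    have h1 : |Real.log X' - Real.log (Real.exp (LF ps))| ≤ R + 1 := hXX'
    rwa [Real.log_exp] at h1
  have hN := H₆ X hX3 hXN ε ps₀ ps Lv N₀ N₁ hε hLF0 hF X' K' hX' hXn hK'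
  -- the sequence
  obtain ⟨α, hα⟩ : ∃ α, α = sqc q (alF (X ^ δ) (X ^ δ) (π lam) h ps) := ⟨_, rfl⟩
  have hFS : FS α := by
    rw [hα]
    exact HP842.FS.sqc (RG64.FS_alF (bump_of_cs hpu.cs) (hP lam) _ _ ps) q
  obtain ⟨be, hbe⟩ : ∃ be, be = bw φ pp t α := ⟨_, rfl⟩
  have hFSb : FS be := by rw [hbe]; exact FS_bw hFS
  have hsq : ∀ n, be n ≠ 0 → Squarefree n := by
    intro n hn
    rw [hbe] at hn
    have h1 := bw_ne hn
    rw [hα] at h1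
    exact sqc_sq h1
  have hwi : ∀ n, be n ≠ 0 → |Real.log (nm n) - Real.log X'| ≤ 1 := by
    intro n hn
    rw [hbe] at hn
    exact (bw_win hφ hn).trans (by show η / 2 ≤ 1; linarith)
  have hAdm : Adm (X ^ (8 * (K + 1))) X' 2 be := by
    refine ⟨fun n hn => ?_, fun n hn => (hwi n hn).trans (by norm_num)⟩
    have h1 := hFSb.prim n hn
    rw [mem_S (by positivity)]
    refine ⟨hN.XY _ ?_ (hwi n hn), h1, hsq n hn⟩
    exact_mod_cast nm_pos.2 h1.ne_zero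
  -- the numbers
  have hN₀1 : 1 ≤ N₀ := by
    have h1 := hF.N0
    have h2 : (1 : ℝ) ≤ Real.exp Lv := Real.one_le_exp hF.v0
    exact_mod_cast h2.trans h1
  have hN2 := hF.N2
  have hN₁1 : 1 ≤ N₁ := by omega
  have hE1 : 1 ≤ X ^ c := Real.one_le_rpow hX1 hc.le
  have hZ1 : 1 ≤ X ^ (K + 1) := Real.one_le_rpow hX1 (by linarith)
  have hH1 : 1 ≤ (X ^ c) ^ 20 := one_le_pow₀ hE1
  obtain ⟨H, hH⟩ : ∃ H, H = (X ^ c) ^ 20 := ⟨_, rfl⟩
  have hH0 : 0 < H := by rw [hH]; positivity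
  obtain ⟨T, hT⟩ : ∃ T, T = T3x K μ (Real.log X) Lv (LF ps) := ⟨_, rfl⟩
  have hTC : TC (T3x K μ (Real.log X) Lv (LF ps)) (LF ps) Lv (K * Real.log X)
    (Real.log X * mm3 K (Lv / Real.log X) (LF ps / Real.log X)) (μ * Real.log X) := TC_T3x hL
  have hTn : LF ps ≤ T := by rw [hT]; exact le_T3x _ _ _ _ _
  rw [← hT] at hTC
  obtain ⟨Im, hIm⟩ : ∃ Im, Im = Lv + LF ps - K * Real.log X + μ * Real.log X := ⟨_, rfl⟩
  have hHt : 1 ≤ Ht ps * Ht (natl ps₀) :=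
    one_le_mul_of_one_le_of_one_le (one_le_Ht _) (one_le_Ht _)
  have hHtM : 0 ≤ (Ht ps * Ht (natl ps₀)) ^ M := by positivity
  obtain ⟨k₁, hk₁⟩ : ∃ k₁, k₁ = (Cw ^ 2 * (η⁻¹) ^ Jn) * (C_R * X ^ (2 * (ε / 2)) *
    (1 + |t|) ^ Jn * ((Ht ps * Ht (natl ps₀)) ^ M * Bd)) := ⟨_, rfl⟩
  have hBd0 : 0 ≤ Bd := by linarith
  have ht0 : (0 : ℝ) ≤ (1 + |t|) ^ Jn := pow_nonneg (by positivity) _
  have hk₁0 : 0 ≤ k₁ := by rw [hk₁]; positivity
  have hK1 : (Cw ^ 2 * (η⁻¹) ^ Jn) * (C_R * X ^ (2 * (ε / 2)) * (1 + |t|) ^ Jn *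
      ((Ht ps * Ht (natl ps₀)) ^ M * Bd * Real.exp (T - LF ps))) = k₁ * Real.exp (T - LF ps) := by
    rw [hk₁]; ring
  have hK10 : 0 ≤ k₁ * Real.exp (T - LF ps) := by positivity
  obtain ⟨P1, hP1⟩ : ∃ P1, P1 = c₁ * (X' * (Real.exp 1 * N₁) * H / K') := ⟨_, rfl⟩
  have hP0 : 0 < P1 := by rw [hP1, hH]; exact hN.P0
  obtain ⟨W0f, hW0f⟩ : ∃ W0f : Eis → Eis → ℝ → ℝ, W0f = fun d _e => W2 a P1
    ((k₁ * Real.exp (T - LF ps)) * (Real.exp (LF ps) / nm d) ^ (2 / 3 : ℝ)) := ⟨_, rfl⟩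
  have hSlp : ∀ d e, Mode405.Slp a (W0f d e) := by
    intro d e
    rw [hW0f]
    exact slp_two ha hP0 (by positivity)
  -- (RH)
  have hprem' : ∀ (l : ℝ) (ps' : List Pq), 0 ≤ l → l ≤ Im →
      List.Forall₂ (Chd Dq hcost r (C_R * X ^ c₂)) ps' ps₀ →
      LL Dq ps' ≤ LF ps + ε / 2 * Real.log X →
      RFp (π lam) h l ps' ≤ Bd * cst hcost ps' ps₀ ^ M *
        Real.exp (T - LF ps + LL Dq ps' - (Im - l) / 3) := by
    intro l ps' hl0 hl hch hLL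
    have h1 := r3_of hX3 hK hε.le hprem hIm (by rw [hIm]; exact hN.Im) hl0 hl
      (RlB791.chdL_mono le_rfl (mul_le_mul_of_nonneg_right (by linarith) (by positivity)) hch)
      (hLL.trans (by
        have : ε / 2 * Real.log X ≤ ε * Real.log X :=
          mul_le_mul_of_nonneg_right (by linarith) hL.le
        linarith))
    refine h1.trans ?_
    have hcs : 0 ≤ cst hcost ps' ps₀ ^ M :=
      Real.rpow_nonneg (by linarith [RlB791.one_le_cst ps' ps₀]) _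
    refine mul_le_mul_of_nonneg_left (Real.exp_le_exp.2 ?_) (by positivity)
    have h2 := TT3_le (K := K) (μ := μ) (L := Real.log X) (v := Lv) (n := LF ps) (by
      rw [← hIm]; linarith)
    rw [← hT] at h2
    linarith
  have hδ1 : δ ≤ 1 := hδ.trans (min_le_left _ _)
  have hδN : 3 * N * δ ≤ ε / 2 := by
    have h1 : δ ≤ ε / 2 / (3 * N + 1) := hδ.trans (min_le_right _ _)
    rw [le_div_iff₀ (by positivity)] at h1
    nlinarith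
  have hRHR : RHR (c₁ * (X ^ (K + 1)) ^ 300) (Jn + 2) (RR (JW (X ^ c) (1 / 10) N₁) (S (X ^ c)))
      (afR b' e' be (X ^ c)) W0f := by
    refine rhr_of (fun x hx => (okJ_JW _ _ _).prim x hx) hFSb.prim
      (fun d e P hP' => (hSlp d e).nonneg _ hP') ?_ b' e'
    intro d hd e he γ π' hγ hπ' hπm P hPp
    have hdp : IsPrim d := by
      obtain ⟨x, hx, rfl⟩ := mem_image.1 hd
      exact (okJ_JW _ _ _).prim x hx
    have hdX : (nm d : ℝ) ≤ X ^ c₂ := by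
      obtain ⟨x, hx, rfl⟩ := mem_image.1 hd
      exact ((RoP579.JW_nm hx).1.trans hN.NZ).trans (hmono _ (by linarith))
    have he2 := (mem_S (by positivity)).1 he
    have heX : (nm e : ℝ) ≤ X ^ c₂ := he2.1.trans (hN.DZ.trans (hmono _ (by linarith)))
    have key := H₂ X hX3 hXR (π lam) (hP lam) ps₀ hlen
      (fun q hq => (hz q hq).2.trans (mul_le_mul_of_nonneg_right hc₂a hL.le)) q ps hq.ne_zero
      (hqX.trans (hmono _ hc₂a)) hps (X ^ δ) δ hδ0 hδ1 hδN Bd T Im hBd hTn hprem' Cw η Aw Jn hCw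
      hη (by linarith) hAw ((le_max_left _ _).trans hJn) φ hWK pp (by
        have := (mem_T9.1 hpp).2
        omega) t ((Jn + 2 : ℕ) : ℝ) (by push_cast; exact le_rfl) d e hdp he2.2.1 hdX heX P1 hP0
      (by
        rw [hP1, hH]
        exact hN.P1X.trans (hmono _ hc₂b)) (by
        rw [hP1, hH, hIm]
        exact hN.PI) γ π' hγ hπ' (hπm.trans hN.cZ) P hPp
    rw [hK1] at key
    rw [hW0f, hbe, hα]
    exact key
  have hPB := H₄ (X ^ (K + 1)) hZ1 (X ^ c) N₀ N₁ (afR b' e' be (X ^ c)) (X ^ c) ((X ^ c) ^ 14)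
    ((X ^ c) ^ 2) K' X' H W0f (by positivity) hN₀1 hN2 (TC_afR hsq) (FS_afR hFSb)
    (fun d e he j => T3_afR_zero he d j) hN.K0 (hN.KK.trans hN.KZ) hN.NZ (by positivity) hN.EZ2
    (by positivity) hN.EZ14 hX' hN.XZ hH0 hN.cN (by rw [hH]; exact hN.cH)
    (fun ρ _ n hn => afR_sqf hsq hn) (fun ρ _ n hn => afR_win hwi hn) hSlp hRHR
  obtain ⟨RN, hRN⟩ : ∃ RN : ℕ → ℝ, RN = fun i : ℕ => RNp c₁ K' H X' (Real.exp i) W0f
    ((JW (X ^ c) (1 / 10) N₁).image Prod.fst) (S (X ^ c)) := ⟨_, rfl⟩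
  have hRN0 : ∀ i, 0 ≤ RN i := by
    intro i
    rw [hRN]
    have hc₁0 : 0 < c₁ := by linarith
    have hK'0 := hN.K0
    exact E3Sz579.RN2_nonneg (E3Sz579.Ld_nonneg hN.K0 hH0) (E3Sz579.Md_nonneg hc₁0.le hN.K0
      (Real.exp_pos _) hH0 hX') (by positivity) (fun d e => (hSlp d e).nonneg _ (by positivity)) _ _
  rw [← hRN] at hPB
  have core := H₅ c₁ H (C_P * (X ^ (K + 1)) ^ ε') (X ^ K) K' X' (X ^ (8 * (K + 1))) (X ^ (K + 1))
    (c₁ * (Real.exp 1 * Real.exp 1) * N₁) (X ^ c) (X ^ c) N₀ N₁ hc₁ (by rw [hH]; exact hH1)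
    (by positivity) hN.K0 hN.KK hX' (by positivity) hE1 hN₁1 hN.EZ2 (le_of_eq (by ring)) hN.ZT
    (by rw [hH]; exact hN.num) be hAdm b' e' RN hRN0 hPB
  obtain ⟨EH, hEH⟩ : ∃ EH, EH = (X ^ K / X') * LBx48.EHf ((Jn + 2 : ℕ) : ℝ) (X ^ K) X'
    (X ^ (8 * (K + 1))) (c₁ * (Real.exp 1 * Real.exp 1) * N₁) be := ⟨_, rfl⟩
  have hEH0 : 0 ≤ EH := by
    rw [hEH]
    have h1 : 0 ≤ LBx48.EHf ((Jn + 2 : ℕ) : ℝ) (X ^ K) X'
      (X ^ (8 * (K + 1))) (c₁ * (Real.exp 1 * Real.exp 1) * N₁) be :=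
      LBX180.EHf_nonneg (by positivity) hX'.le _
    positivity
  rw [← hEH] at core
  -- the R-part
  obtain ⟨Q, hQ⟩ : ∃ Q, Q = kQ * ((X ^ K / Real.exp (LF ps)) * (k₁ * Real.exp (2 * LF ps))) :=
    ⟨_, rfl⟩
  have hQ0 : 0 ≤ Q := by rw [hQ]; positivity
  have hlev : ∀ i ∈ LI (1 / 10) (N₁ : ℝ), FH K' H (Real.exp i) * RN i ≤
      (X ^ (5 * c))⁻¹ * Q := by
    intro i hi
    have h1 := lev_all (a := a) (i := i) (T := T) (k₁ := k₁) (E0 := X ^ c) (H := H)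
      (S5 := X ^ (5 * c)) (C₀ := C₀) (D := X ^ c) (R := R) hL rfl hX0 hc hcμ hcK hc₁ hN hX' hXn
      hN₁1 hLF0 hk₁0 hR rfl rfl hH rfl hC₀ (by
        have := hF.v3
        have h2 : 0 ≤ 200 * c * Real.log X := by positivity
        linarith) hTC hi
    rw [hRN, hQ, hkQ, hW0f, hP1]
    exact h1
  have hsum : ∑ i ∈ LI (1 / 10) (N₁ : ℝ), FH K' H (Real.exp i) * RN i ≤
      ((LI (1 / 10) (N₁ : ℝ)).card : ℝ) * ((X ^ (5 * c))⁻¹ * Q) := by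
    calc ∑ i ∈ LI (1 / 10) (N₁ : ℝ), FH K' H (Real.exp i) * RN i ≤
          ∑ _i ∈ LI (1 / 10) (N₁ : ℝ), (X ^ (5 * c))⁻¹ * Q := sum_le_sum hlev
      _ = _ := by rw [sum_const, nsmul_eq_mul]
  have hcard := card_LI (1 / 10) hZ1 (Nat.cast_nonneg N₁) hN.NZ hε'0
  have hRf := R_fin (X := X) (c := c) (K := K) (C := C_C) (C' := C_P) (ε' := ε')
    (Z := X ^ (K + 1)) (Q := Q) hX3 hc hK hC_C hC_P rfl hε' hcard hQ0 rfl hsum
  have hTf := T_fin (X := X) (c := c) (K := K) (C := C_C) (C' := C_P) (c₁ := c₁) (ε' := ε')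
    (Z := X ^ (K + 1)) hX3 hc hK hC_C hC_P hc₁ rfl hε' (H₇ X hX3 hXT)
  rw [← hH] at hTf
  have hfin : C_C * (1 + C_P) * (2 + 1 / ε') * Q ≤ (X ^ K / Real.exp (LF ps)) *
      (((C_F + C_R) * X ^ ε * (Ht ps * Ht (natl ps₀)) ^ (max ((N : ℝ) ^ 2 * M) M) * Bd *
        Real.exp (2 * LF ps)) * (1 + |t|) ^ Jn) := by
    have e1 : (Ht ps * Ht (natl ps₀)) ^ M ≤
        (Ht ps * Ht (natl ps₀)) ^ (max ((N : ℝ) ^ 2 * M) M) :=
      Real.rpow_le_rpow_of_exponent_le hHt (le_max_right _ _)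
    have e2 : X ^ (2 * (ε / 2)) = X ^ ε := by congr 1; ring
    have e3 : C_C * (1 + C_P) * (2 + 1 / ε') * Q = (X ^ K / Real.exp (LF ps)) *
        ((C_F * X ^ ε * (Ht ps * Ht (natl ps₀)) ^ M * Bd * Real.exp (2 * LF ps)) *
          (1 + |t|) ^ Jn) := by
      rw [hQ, hk₁, hC_F, e2]; ring
    rw [e3]
    have hXe : 0 ≤ X ^ ε := by positivity
    have hXK : 0 ≤ X ^ K / Real.exp (LF ps) := by positivity
    have hCR0 : 0 ≤ C_R := by linarith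
    gcongr
    linarith
  have hmain : C_C * (1 + C_P * (X ^ (K + 1)) ^ ε') * ((X ^ (K + 1)) ^ ε') ^ 3 *
      (c₁ ^ (1 / 3 : ℝ) * H ^ (-(1 / 3) : ℝ) * (X ^ c) ^ 3 * EH +
        X ^ c * ∑ i ∈ LI (1 / 10) (N₁ : ℝ), FH K' H (Real.exp i) * RN i) ≤
      ((X ^ c) ^ 3)⁻¹ * (EH + (X ^ K / Real.exp (LF ps)) *
      (((C_F + C_R) * X ^ ε * (Ht ps * Ht (natl ps₀)) ^ (max ((N : ℝ) ^ 2 * M) M) * Bd *
        Real.exp (2 * LF ps)) * (1 + |t|) ^ Jn)) := by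
    have g1 := mul_le_mul_of_nonneg_right hTf hEH0
    have g2 : ((X ^ c) ^ 3)⁻¹ * (C_C * (1 + C_P) * (2 + 1 / ε') * Q) ≤ ((X ^ c) ^ 3)⁻¹ *
      ((X ^ K / Real.exp (LF ps)) *
      (((C_F + C_R) * X ^ ε * (Ht ps * Ht (natl ps₀)) ^ (max ((N : ℝ) ^ 2 * M) M) * Bd *
        Real.exp (2 * LF ps)) * (1 + |t|) ^ Jn)) :=
      mul_le_mul_of_nonneg_left hfin (by positivity)
    have g3 := hRf.trans g2
    refine le_trans (le_of_eq ?_) ((add_le_add g1 g3).trans (le_of_eq ?_)) <;> ring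
  rw [hEH, hbe, hα] at core hmain
  exact le_trans core (add_le_add (le_refl _) hmain)

end Crest.Agent.R017.RLo64
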