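import Crest.Agent.R017.RGcl_381
import Crest.Agent.R017.RLoD_64
import Crest.Agent.R017.RCd_106
import Crest.Agent.R017.RCl_83

/-!
# Row 17, T.5: the leaves of class N and the RG field (helper64)

* `leafN` : the three leaves (helper106, helper83, helper64)
* `expRGFn_N'` : the RG field of class N
-/

set_option autoImplicit false

noncomputable section

namespace Crest.Agent.R017.RGlf64

open Crest.Agent.R012 Crest.Agent.R012.Eis Crest.Agent.R012.LS2
open Crest.Agent.R017.B770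
open Crest.Agent.R017.Prov71
open Crest.Agent.R017.XPD571
open Crest.Agent.R017.SC777 (ExpRGFn)
open Crest.Agent.R017.RGB545
open Crest.Agent.R017.RGC381 (LeafN expRGFn_N)

variable {Lam : Type*} {π : Lam → DPar} {h : ℝ → ℝ} {c₁ θ : ℝ}

/-- **the leaves of class N** -/
theorem leafN (hP : ∀ lam, (π lam).OK) (hpu : FE47.PU h c₁) : LeafN π h where
  rc := fun _ _ _ _ _ _ hD _ _ _ hc hcμ _ _ hK => RC106.rc_leaf hP hpu hD hc hcμ hK
  rl := fun _ _ _ _ _ _ hD _ _ _ hc hcμ hμ _ hK => RCl83.rleaf_NRl hP hpu hD hc hcμ hμ hK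
  ro := fun _ hw hw0 _ _ _ hc hcμ hμ _ hK => RLo64.ro_leaf hP hpu hw hw0 hc hcμ hμ hK

/-- **the RG field of class N** -/
theorem expRGFn (H : DataN θ π h c₁) :
    ExpRGFn θ (ex Dq (RN0 π h)) (ex Dq (SP0 π h)) (ex Dq (S0f π h)) :=
  expRGFn_N H (leafN H.hP H.hpu)

end Crest.Agent.R017.RGlf64
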