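import Crest.Agent.R017.RgN_986
import Crest.Agent.R017.RGlf_64

/-!
# Row 17, T.5: the field `rgN` is proved (helper986)

* `leavesN_of` : the leaves of the R-side for all families of class N (helper106, helper83, helper64)
* `rgN_all` : the field `rgN` of `Open6`
-/

set_option autoImplicit false

noncomputable section

open Complex Filter Topology

namespace Crest.Agent.R017.Rg986

open Crest.Agent.R012 Crest.Agent.R012.Eis
open Crest.Agent.R017.FE47 Crest.Agent.R017.End699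
open Crest.Agent.R017.B770
open Crest.Agent.R017.Prov71 Crest.Agent.R017.ER911
open Crest.Agent.R017.Fin4 Crest.Agent.R017.Fin5 Crest.Agent.R017.Fin6

theorem leavesN_of {h : ℝ → ℝ} {c₀ : ℝ} (hpu : PU h c₀) : LeavesN h :=
  fun _ _ hP _ => RGlf64.leafN hP hpu

/-- **T.5 is proved** -/
theorem rgN_all {θ : ℝ} (hθ : 7 / 8 ≤ θ) (hθ1 : θ ≤ 1) (hPF : PF Set.univ θ) {h : ℝ → ℝ}
    {c₀ : ℝ} (hpu : PU h c₀) (Λ : Type) (π : Λ → DPar) (hP : ∀ lam, (π lam).OK)
    (hN : ∀ lam, ClN (π lam)) (hc : PM320.Clo π) :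
    RGN θ (ex Dq (fun lam => Rp (π lam) h)) (ex Dq (fun lam => Sp (π lam) h))
      (ex Dq (fun lam => S0p (π lam) h)) :=
  rgN_of hθ hθ1 hPF hpu (leavesN_of hpu) Λ π hP hN hc

end Crest.Agent.R017.Rg986
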