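import Crest.Agent.R017.QsJn_401
import Crest.Agent.R017.RXl_848
import Crest.Agent.R017.RGE2_545

/-!
# Row 17, block C70, leaf E2 (helper401): the pair lines from the premises of the leaf `RLeafX`

* `LnEq` : the lines (ga), (r2) of a family of lines are those of `GN`, `EN`; `lnEq_E`, `lnEq_N`
* `lnGa_of`, `lnR2_of` : `LnGa`, `LnR2` from `LnP`
* `plnF_leaf`, `plnF_two` : `PLnF` for the list and the replaced list, from `LnP`
-/

set_option autoImplicit false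
set_option linter.unusedVariables false
set_option maxHeartbeats 800000

noncomputable section

open Finset
open scoped ComplexConjugate

namespace Crest.Agent.R017.QsJ401

open Crest.Agent.R012 Crest.Agent.R012.Eis Crest.Agent.R012.LS2
open Crest.Agent.R017.B770
open Crest.Agent.R017.Prov71
open Crest.Agent.R017.Leg381 (alf alF Pf LF LF_get natl)
open Crest.Agent.R017.XRG106
open Crest.Agent.R017.MoL106 (nr)
open Crest.Agent.R017.RG64 (SbL Sb Ht one_le_Ht RFacts LF_nonneg)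
open Crest.Agent.R017.XP699 (LL Chd hcost cst)
open Crest.Agent.R017.RGB545 (Line Th TK rbx IN GN EN bN LE PQe LN PFp)
open Crest.Agent.R017.RXk848 (LnP Lmp)
open Crest.Agent.R017.RX298 (rp rpB Lg LF_rp Ht_rp SbL_rp rp_length rpB_length)

variable {Lam : Type*}

/-- the lines (ga), (r2) of the family `L` -/
structure LnEq (L : IN → Line Lam 5) (lam : Lam) (Φ : ℝ → ℝ → List Pq → ℝ) (c μ : ℝ) :
    Prop where
  g1 : (L .ga).G = GN c μ .ga
  g2 : (L .ga).F = EN μ .ga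
  g3 : (L .ga).b = bN .ga
  g4 : ¬ (L .ga).zl
  g5 : (L .ga).Φ lam = Φ
  r1 : (L .r2).G = GN c μ .r2
  r2 : (L .r2).F = EN μ .r2
  r3 : (L .r2).b = bN .r2
  r4 : ¬ (L .r2).zl
  r5 : (L .r2).Φ lam = Φ

lemma lnEq_E (π : Lam → DPar) (h : ℝ → ℝ) (c μ : ℝ) (lam : Lam) :
    LnEq (LE π h c μ) lam (PQe π h lam) c μ :=
  ⟨rfl, rfl, rfl, fun h => h, rfl, rfl, rfl, rfl, fun h => h, rfl⟩

lemma lnEq_N (π : Lam → DPar) (h : ℝ → ℝ) (c μ : ℝ) (lam : Lam) :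
    LnEq (LN π h c μ) lam (PFp π h lam) c μ :=
  ⟨rfl, rfl, rfl, fun h => h, rfl, rfl, rfl, rfl, fun h => h, rfl⟩

lemma th_mem {K y a0 a1 a2 a3 : ℝ} (hy : 0 < y) (h0 : 0 ≤ a0 * y) (h0' : a0 * y ≤ TK K * y)
    (h1 : 0 ≤ a1 * y) (h1' : a1 * y ≤ TK K * y) (h2 : 0 ≤ a2 * y) (h2' : a2 * y ≤ TK K * y)
    (h3 : 0 ≤ a3 * y) (h3' : a3 * y ≤ TK K * y) :
    (![a0, a1, a2, 0, a3] : Fin 5 → ℝ) ∈ Set.Icc (0 : Fin 5 → ℝ) (fun _ => TK K) := by
  have k : ∀ a b : ℝ, a * y ≤ b * y → a ≤ b := fun a b h => le_of_mul_le_mul_right h hy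
  have k0 : ∀ a : ℝ, 0 ≤ a * y → 0 ≤ a := fun a h => k 0 a (by linarith)
  have hT : 0 ≤ TK K := k0 _ (h0.trans h0')
  constructor
  · intro i
    fin_cases i
    · exact k0 _ h0
    · exact k0 _ h1
    · exact k0 _ h2
    · exact le_rfl
    · exact k0 _ h3
  · intro i
    fin_cases i
    · exact k _ _ h0'
    · exact k _ _ h1'
    · exact k _ _ h2'
    · exact hT
    · exact k _ _ h3'

/-- **the line (ga)** -/
theorem lnGa_of {L : IN → Line Lam 5} {lam : Lam} {Φ : ℝ → ℝ → List Pq → ℝ}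
    {K ε M r bm X n v Bd c μ : ℝ} {base : List Pq} (hL : LnEq L lam Φ c μ) (hX : 1 < X)
    (H : LnP L lam K ε M r bm X (n / Real.log X) (v / Real.log X) Bd base) :
    LnGa Φ M r bm (TK K * Real.log X) (ε * Real.log X) (μ * Real.log X) n v (K * Real.log X) Bd
      base := by
  intro l β g₂ g γ ps' hl hlT hβ hβT hg₂ hg₂T hg hgT hγ hγT hch hLL h1 h2 h3 h4 h5
  have hX0 : 0 < X := by linarith
  have hy0 : 0 < Real.log X := Real.log_pos hX
  unfold RXk848.LnP at H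
  obtain ⟨y, hy⟩ : ∃ y, y = Real.log X := ⟨_, rfl⟩
  rw [← hy] at hy0 hlT hβT hg₂T hgT hγT hLL h1 h2 h3 h4 h5 ⊢
  simp only [← hy] at H
  obtain ⟨l', rfl⟩ : ∃ a, l = a * y := ⟨l / y, by field_simp⟩
  obtain ⟨β', rfl⟩ : ∃ a, β = a * y := ⟨β / y, by field_simp⟩
  obtain ⟨g₂', rfl⟩ : ∃ a, g₂ = a * y := ⟨g₂ / y, by field_simp⟩
  obtain ⟨g', rfl⟩ : ∃ a, g = a * y := ⟨g / y, by field_simp⟩
  obtain ⟨γ', rfl⟩ : ∃ a, γ = a * y := ⟨γ / y, by field_simp⟩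
  obtain ⟨n', rfl⟩ : ∃ a, n = a * y := ⟨n / y, by field_simp⟩
  obtain ⟨v', rfl⟩ : ∃ a, v = a * y := ⟨v / y, by field_simp⟩
  obtain ⟨q, hq⟩ : ∃ a, LL Dq ps' = a * y := ⟨LL Dq ps' / y, by field_simp⟩
  have hd : ∀ a : ℝ, a * y / y = a := fun a => mul_div_cancel_right₀ a hy0.ne'
  rw [hq] at hLL h1
  have k : ∀ a b : ℝ, a * y ≤ b * y → a ≤ b := fun a b h => le_of_mul_le_mul_right h hy0
  have h := H .ga ⟨_, th_mem hy0 hβ hβT hg₂ hg₂T hg hgT hγ hγT⟩ (l' * y) ps' hl hlT hch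
    (by rw [hq, hd]; linarith)
    (by
      rw [hL.g1, hq, hd, hd, hd, hd]
      show max (max (q + (β' + γ' - g₂') + g' - n')
        ((l' + γ' + 2 * g₂') - (v' + n' - K + 3 * 0 + (β' + γ' - g₂') + μ)))
        (max ((l' + γ' + 2 * g₂') + 2 * (β' + γ' - g₂') + 3 * 0 - K - μ)
        (max (2 * ((l' + γ' + 2 * g₂') + (β' + γ' - g₂')) - v') (g₂' - β'))) ≤ ε
      refine max_le (max_le (k _ _ ?_) (k _ _ ?_)) (max_le (k _ _ ?_) (max_le (k _ _ ?_)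
        (k _ _ ?_)))
      · linarith
      · linarith
      · linarith
      · linarith
      · linarith)
    (fun hz => absurd hz hL.g4)
  rw [hL.g5, hL.g3, hL.g2, hq, hd, hd, hd, hd, Real.rpow_def_of_pos hX0, ← hy] at h
  refine h.trans (le_of_eq ?_)
  congr 2
  show y * (4 / 3 * n' + (v' + K) / 3 + (0 - (v' + n' - 2 * K) / 3 - μ - g' - v' +
      (l' + γ' + 2 * g₂') + (β' + γ' - g₂') - 2 * γ')) = _
  ring

/-- **the line (r2)** -/
theorem lnR2_of {L : IN → Line Lam 5} {lam : Lam} {Φ : ℝ → ℝ → List Pq → ℝ}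
    {K ε M r bm X n v Bd c μ : ℝ} {base : List Pq} (hL : LnEq L lam Φ c μ) (hX : 1 < X)
    (H : LnP L lam K ε M r bm X (n / Real.log X) (v / Real.log X) Bd base) :
    LnR2 Φ M r bm (TK K * Real.log X) (ε * Real.log X) (μ * Real.log X) n v (K * Real.log X) Bd
      base := by
  intro l β g₂ g ps' hl hlT hβ hβT hg₂ hg₂T hg hgT hch hLL h1 h2 h3 h4 h5 h6
  have hX0 : 0 < X := by linarith
  have hy0 : 0 < Real.log X := Real.log_pos hX
  unfold RXk848.LnP at H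
  obtain ⟨y, hy⟩ : ∃ y, y = Real.log X := ⟨_, rfl⟩
  rw [← hy] at hy0 hlT hβT hg₂T hgT hLL h1 h2 h3 h4 h5 h6 ⊢
  simp only [← hy] at H
  obtain ⟨l', rfl⟩ : ∃ a, l = a * y := ⟨l / y, by field_simp⟩
  obtain ⟨β', rfl⟩ : ∃ a, β = a * y := ⟨β / y, by field_simp⟩
  obtain ⟨g₂', rfl⟩ : ∃ a, g₂ = a * y := ⟨g₂ / y, by field_simp⟩
  obtain ⟨g', rfl⟩ : ∃ a, g = a * y := ⟨g / y, by field_simp⟩
  obtain ⟨n', rfl⟩ : ∃ a, n = a * y := ⟨n / y, by field_simp⟩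
  obtain ⟨v', rfl⟩ : ∃ a, v = a * y := ⟨v / y, by field_simp⟩
  obtain ⟨q, hq⟩ : ∃ a, LL Dq ps' = a * y := ⟨LL Dq ps' / y, by field_simp⟩
  have hd : ∀ a : ℝ, a * y / y = a := fun a => mul_div_cancel_right₀ a hy0.ne'
  rw [hq] at hLL h1
  have k : ∀ a b : ℝ, a * y ≤ b * y → a ≤ b := fun a b h => le_of_mul_le_mul_right h hy0
  have hT0 : 0 ≤ TK K * y := hβ.trans hβT
  have h := H .r2 ⟨_, th_mem hy0 hβ hβT hg₂ hg₂T hg hgT (a3 := 0) (by linarith) (by linarith)⟩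
    (l' * y) ps' hl hlT hch
    (by rw [hq, hd]; linarith)
    (by
      rw [hL.r1, hq, hd, hd, hd, hd]
      show max (max (q + (β' - g₂') + g' - n')
        ((l' + 2 * g₂') - (v' + n' - K + 3 * 0 + (β' - g₂') + μ)))
        (max ((l' + 2 * g₂') + 2 * (β' - g₂') + 3 * 0 - K - μ)
        (max (v' - 2 * ((l' + 2 * g₂') + (β' - g₂'))) (max (g₂' - β') (g₂' - g')))) ≤ ε
      refine max_le (max_le (k _ _ ?_) (k _ _ ?_)) (max_le (k _ _ ?_) (max_le (k _ _ ?_)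
        (max_le (k _ _ ?_) (k _ _ ?_))))
      · linarith
      · linarith
      · linarith
      · linarith
      · linarith
      · linarith)
    (fun hz => absurd hz hL.r4)
  rw [hL.r5, hL.r3, hL.r2, hq, hd, hd, hd, hd, Real.rpow_def_of_pos hX0, ← hy] at h
  have em : max (v' * y) (max (l' * y + 2 * (g₂' * y))
      (2 / 3 * (v' * y + (l' * y + 2 * (g₂' * y))))) =
      y * max v' (max (l' + 2 * g₂') (2 / 3 * (v' + (l' + 2 * g₂')))) := by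
    rw [mul_max_of_nonneg _ _ hy0.le, mul_max_of_nonneg _ _ hy0.le]
    congr 1
    · ring
    · congr 1
      · ring
      · ring
  rw [em]
  refine h.trans (le_of_eq ?_)
  congr 2
  show y * (4 / 3 * n' + (v' + K) / 3 + (0 - (v' + n' - 2 * K) / 3 - μ - g' -
      max v' (max (l' + 2 * g₂') (2 / 3 * (v' + (l' + 2 * g₂')))) + (l' + 2 * g₂'))) = _
  ring

/-- **the pair lines of a derived list** -/
theorem plnF_leaf {L : IN → Line Lam 5} {lam : Lam} {Φ : ℝ → ℝ → List Pq → ℝ}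
    {K ε M r bm X n Bd c μ C S c₁ μ' m₁ e₁ Lv : ℝ} {base : List Pq} {l : List Pf} {N : ℕ}
    (hL : LnEq L lam Φ c μ) (hX : 1 < X)
    (H : LnP L lam K ε M r bm X (n / Real.log X) (Lv / Real.log X) Bd base)
    (hC : 0 ≤ C) (hS : SbL S l base) (hz : ∀ q ∈ base, Dq.len q ≤ c₁ * Real.log X)
    (hr : C + S ≤ r) (hbm : C * Real.exp S * X ^ c₁ ≤ bm) (hN : l.length ≤ N)
    (hM : 0 ≤ M) (hμ : N * M ≤ 2 * μ') (hBd : 0 ≤ Bd)
    (he1 : 0 ≤ e₁) (he : e₁ ≤ ε * Real.log X) (hm : m₁ ≤ (μ + ε) * Real.log X) (hm0 : 0 ≤ m₁)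
    (hK : 0 ≤ K) (hn : 0 ≤ n) (hnT : n ≤ TK K * Real.log X) (hμT : K + μ + ε ≤ TK K) :
    PLnF Φ μ' C (fun i => (l.get i).1) n (K * Real.log X) Lv m₁ e₁
      (Bd * (Ht l * Ht (natl base)) ^ M * X ^ (-μ)) := by
  have hX0 : 0 < X := by linarith
  have hy0 : 0 < Real.log X := Real.log_pos hX
  have e1 : X ^ (-μ) = Real.exp (-(μ * Real.log X)) := by
    rw [Real.rpow_def_of_pos hX0]; congr 1; ring
  rw [e1]
  refine plnF_of (lnGa_of hL hX H) (lnR2_of hL hX H) hX0 hC hS hz hr hbm hN hM hμ hBd he1 he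
    (by linarith) hm0 (by positivity) hn hnT ?_
  have h1 : (K + μ + ε) * Real.log X ≤ TK K * Real.log X := by gcongr
  linarith

lemma len_rpB' {d L : ℝ} (hd : 0 ≤ d) (hdL : d ≤ 2 * L) {ps₀ : List Pq} (hL : 0 ≤ L)
    (hz : ∀ q ∈ ps₀, Dq.len q ≤ L) : ∀ q ∈ rpB d ps₀, Dq.len q ≤ 2 * L := by
  rcases ps₀ with _ | ⟨p₁, _ | ⟨p₂, ps⟩⟩
  · intro q hq; exact absurd (show q ∈ ([] : List Pq) from hq) List.not_mem_nil
  · intro q hq
    have hq' : q ∈ [p₁] := hq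
    have := hz q hq'
    linarith
  · intro q hq
    have h1 : p₁.z ≤ L := hz p₁ (by simp)
    have h2 : p₂.z ≤ L := hz p₂ (by simp)
    have hq' : q ∈ ({p₁ with z := p₁.z + p₂.z - d} :: {p₂ with z := d} :: ps : List Pq) := hq
    rcases List.mem_cons.1 hq' with rfl | hq'
    · show p₁.z + p₂.z - d ≤ 2 * L
      linarith
    rcases List.mem_cons.1 hq' with rfl | hq'
    · exact hdL
    · have := hz q (by simp [hq'])
      linarith

lemma rpB_eq' (d : ℝ) (ps : List Pq) : rpB d ps = RuleM545.rp d ps := by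
  rcases ps with _ | ⟨p₁, _ | ⟨p₂, ps⟩⟩ <;> rfl

lemma Ht_natl_rpB' (d : ℝ) (ps : List Pq) : Ht (natl (rpB d ps)) = Ht (natl ps) := by
  rcases ps with _ | ⟨p₁, _ | ⟨p₂, ps⟩⟩ <;> rfl

/-- **the pair lines of the list and of the replaced list** (exceptional class) -/
theorem plnF_two {L : IN → Line Lam 5} {lam : Lam} {Φ : ℝ → ℝ → List Pq → ℝ}
    {K ε M r bm X Bd c c' μ C S c₀ d₀ μ' m₁ e₁ Lv : ℝ} {ps₀ : List Pq} {ps : List Pf} {N : ℕ}
    {N₀ N₁ : ℕ} (hL : LnEq L lam Φ c' μ) (hX : 1 < X)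
    (H : ∀ t : Bool, LnP L lam K ε M r bm X (LF ps / Real.log X) (Lv / Real.log X) Bd
      (rbx d₀ t X ps₀))
    (hF : RFacts K c ε X ps₀ ps Lv N₀ N₁) (hC : 0 ≤ C) (hS0 : 0 ≤ S) (hS : SbL S ps ps₀)
    (hz : ∀ q ∈ ps₀, Dq.len q ≤ c₀ * Real.log X) (hc₀ : 0 ≤ c₀) (hd₀ : 0 ≤ d₀)
    (hdc : d₀ ≤ 2 * c₀) (hLg : Lg (d₀ * Real.log X) ps)
    (hr : C + 2 * S ≤ r) (hbm : C * Real.exp (2 * S) * X ^ (2 * c₀) ≤ bm)
    (hN : ps₀.length ≤ N) (hM : 0 ≤ M) (hμ : N * M ≤ 2 * μ') (hBd : 0 ≤ Bd)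
    (he1 : 0 ≤ e₁) (he : e₁ ≤ ε * Real.log X) (hm : m₁ ≤ (μ + ε) * Real.log X) (hm0 : 0 ≤ m₁)
    (hK : 0 ≤ K) (hεT : 2 * ε ≤ 9 * K + 10) (hμT : μ + ε ≤ 9 * K + 10) :
    PLnF Φ μ' C (fun i => (ps.get i).1) (LF ps) (K * Real.log X) Lv m₁ e₁
      (Bd * (Ht ps * Ht (natl ps₀)) ^ M * X ^ (-μ)) ∧
    PLnF Φ μ' C (fun i => ((rp (d₀ * Real.log X) ps).get i).1) (LF ps) (K * Real.log X) Lv m₁ e₁
      (Bd * (Ht ps * Ht (natl ps₀)) ^ M * X ^ (-μ)) := by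
  have hX0 : 0 < X := by linarith
  have hy0 : 0 < Real.log X := Real.log_pos hX
  have hn : 0 ≤ LF ps := LF_nonneg hS.z_nonneg
  have eT : TK K = 10 * (K + 1) := rfl
  have hnT : LF ps ≤ TK K * Real.log X := by
    have h1 := hF.nK
    have h2 := hF.hi
    have h3 : (K + 2 * ε) * Real.log X ≤ TK K * Real.log X := by
      refine mul_le_mul_of_nonneg_right ?_ hy0.le
      rw [eT]; linarith
    linarith
  have hμT' : K + μ + ε ≤ TK K := by rw [eT]; linarith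
  have hlen : ps.length ≤ N := by rw [hS.length]; exact hN
  have hexp : Real.exp S ≤ Real.exp (2 * S) := Real.exp_le_exp.2 (by linarith)
  have hXc : X ^ c₀ ≤ X ^ (2 * c₀) :=
    Real.rpow_le_rpow_of_exponent_le hX.le (by linarith)
  have hp0 := H false
  have hp1 := H true
  have er0 : rbx d₀ false X ps₀ = ps₀ := by unfold RGB545.rbx; simp
  have er1 : rbx d₀ true X ps₀ = rpB (d₀ * Real.log X) ps₀ := by
    rw [rpB_eq']; unfold RGB545.rbx; simp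
  rw [er0] at hp0
  rw [er1] at hp1
  refine ⟨?_, ?_⟩
  · exact plnF_leaf hL hX hp0 hC hS hz (by linarith)
      (le_trans (by gcongr) hbm) hlen hM hμ hBd he1 he hm hm0 hK hn hnT hμT'
  · have hD : 0 ≤ d₀ * Real.log X := by positivity
    have h1 := plnF_leaf (n := LF ps) hL hX hp1 hC (SbL_rp hS0 hD hS hLg)
      (c₁ := 2 * c₀) (N := N) (μ' := μ') (e₁ := e₁) (m₁ := m₁)
      (fun q hq => by
        have := len_rpB' (L := c₀ * Real.log X) hD (by nlinarith) (by positivity) hz q hq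
        linarith)
      (by linarith) hbm (by rw [rp_length]; exact hlen) hM hμ hBd he1 he hm hm0 hK hn hnT hμT'
    rw [Ht_rp, Ht_natl_rpB'] at h1
    exact h1

end Crest.Agent.R017.QsJ401
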