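import Crest.Agent.R017.RGh_64

/-!
# Row 17, C.REMg (RG), glue (helper64), part i: the recursion with its parameters (class N)
-/

set_option autoImplicit false

noncomputable section

open Complex
open scoped ComplexConjugate

namespace Crest.Agent.R017.RG64

open Crest.Agent.R012 Crest.Agent.R012.Eis Crest.Agent.R012.LS2 Crest.Agent.R012.Gauss880
open Crest.Agent.R012.MC (Wgt)
open Crest.Agent.R012.Weight600 (osc pw)
open Crest.Agent.R017.CM106 Crest.Agent.R017.HP842 Crest.Agent.R017.FE47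
open Crest.Agent.R017.End699 hiding pw
open Crest.Agent.R017.B770
open Crest.Agent.R017.Prov71
open Crest.Agent.R017.Rough381 (VF VF_nonneg)
open Crest.Agent.R017.Leg381

lemma SbL_natl {ps₀ : List Pq} (hz : ∀ p ∈ ps₀, 0 ≤ p.z) : SbL 0 (natl ps₀) ps₀ := by
  unfold SbL natl
  induction ps₀ with
  | nil => exact List.Forall₂.nil
  | cons p ps ih =>
    refine List.Forall₂.cons ⟨rfl, rfl, fun h => h, hz p (by simp), by simp⟩
      (ih fun q hq => hz q (by simp [hq]))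

/-- growth of a geometric constant -/
lemma pow_le_rpow_aux {a ε : ℝ} (ha : 1 ≤ a) (hε : 0 < ε) (m : ℕ) {X : ℝ} (hX : 1 ≤ X)
    {C : ℝ} (hC : 0 ≤ C) (h : C ≤ a * X ^ ε) : C ^ m ≤ a ^ m * X ^ (m * ε) := by
  have hX0 : 0 < X := by linarith
  calc C ^ m ≤ (a * X ^ ε) ^ m := pow_le_pow_left₀ hC h m
    _ = a ^ m * X ^ (m * ε) := by
        rw [mul_pow, ← Real.rpow_natCast (X ^ ε) m, ← Real.rpow_mul hX0.le, mul_comm ε]

/-- the constants of the recursion -/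
lemma rg_const {C₁ C₂ C₃ Cq X ε ε₁ Bd El E₀ : ℝ} {m : ℕ} (hC₁ : 1 ≤ C₁) (hC₂ : 1 ≤ C₂)
    (hC₃ : 1 ≤ C₃) (hCq : 1 ≤ Cq) (hX : 1 ≤ X) (hε : 0 < ε) (hε₁ : 0 < ε₁) (hBd : 0 ≤ Bd)
    (hEl : 0 ≤ El) (hE : E₀ ≤ X ^ (3 * ε₁)) (hE0 : 0 ≤ E₀) :
    (C₁ * X ^ ε * (2 + C₂ * X ^ (2 * ε))) ^ m *
      (C₂ * X ^ (2 * ε) * (El + Bd * E₀ + 1) + C₃ * X ^ ε * Bd) ≤
    (Cq * ((3 * (C₁ * C₂)) ^ m * (2 * (C₂ * C₃)))) * X ^ (3 * (m * ε) + 4 * ε + 4 * ε₁) *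
      (El + Bd + 1) := by
  have hX0 : 0 < X := by linarith
  have hXε : 1 ≤ X ^ ε := Real.one_le_rpow hX hε.le
  have hX2ε : 1 ≤ X ^ (2 * ε) := Real.one_le_rpow hX (by positivity)
  have h12 : 1 ≤ C₁ * C₂ := one_le_mul_of_one_le_of_one_le hC₁ hC₂
  have h23 : 1 ≤ C₂ * C₃ := one_le_mul_of_one_le_of_one_le hC₂ hC₃
  have hEB : 0 ≤ El + Bd + 1 := by positivity
  have k1 : C₁ * X ^ ε * (2 + C₂ * X ^ (2 * ε)) ≤ 3 * (C₁ * C₂) * X ^ (3 * ε) := by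
    have e1 : X ^ (3 * ε) = X ^ ε * X ^ (2 * ε) := by
      rw [← Real.rpow_add hX0]; congr 1; ring
    have e2 : 2 + C₂ * X ^ (2 * ε) ≤ 3 * (C₂ * X ^ (2 * ε)) := by
      have : 1 ≤ C₂ * X ^ (2 * ε) := one_le_mul_of_one_le_of_one_le hC₂ hX2ε
      linarith
    calc C₁ * X ^ ε * (2 + C₂ * X ^ (2 * ε)) ≤ C₁ * X ^ ε * (3 * (C₂ * X ^ (2 * ε))) := by
          gcongr
      _ = _ := by rw [e1]; ring
  have k2 : (C₁ * X ^ ε * (2 + C₂ * X ^ (2 * ε))) ^ m ≤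
      (3 * (C₁ * C₂)) ^ m * X ^ (m * (3 * ε)) :=
    pow_le_rpow_aux (by linarith) (by positivity) m hX (by positivity) k1
  have hX3 : 1 ≤ X ^ (3 * ε₁) := Real.one_le_rpow hX (by positivity)
  have e4 : X ^ (2 * ε + 3 * ε₁) = X ^ (2 * ε) * X ^ (3 * ε₁) := Real.rpow_add hX0 _ _
  have e5 : X ^ ε ≤ X ^ (2 * ε) := Real.rpow_le_rpow_of_exponent_le hX (by linarith)
  have k3 : C₂ * X ^ (2 * ε) * (El + Bd * E₀ + 1) + C₃ * X ^ ε * Bd ≤
      2 * (C₂ * C₃) * X ^ (2 * ε + 3 * ε₁) * (El + Bd + 1) := by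
    have f1 : El + Bd * E₀ + 1 ≤ X ^ (3 * ε₁) * (El + Bd + 1) := by
      have g1 : El ≤ X ^ (3 * ε₁) * El := le_mul_of_one_le_left hEl hX3
      have g2 : Bd * E₀ ≤ Bd * X ^ (3 * ε₁) := mul_le_mul_of_nonneg_left hE hBd
      calc El + Bd * E₀ + 1 ≤ X ^ (3 * ε₁) * El + Bd * X ^ (3 * ε₁) + X ^ (3 * ε₁) := by
            linarith
        _ = _ := by ring
    have f2 : C₂ * X ^ (2 * ε) * (El + Bd * E₀ + 1) ≤
        (C₂ * C₃) * (X ^ (2 * ε) * X ^ (3 * ε₁)) * (El + Bd + 1) := by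
      calc C₂ * X ^ (2 * ε) * (El + Bd * E₀ + 1) ≤
            C₂ * X ^ (2 * ε) * (X ^ (3 * ε₁) * (El + Bd + 1)) := by gcongr
        _ = C₂ * 1 * (X ^ (2 * ε) * X ^ (3 * ε₁)) * (El + Bd + 1) := by ring
        _ ≤ _ := by gcongr
    have f3 : C₃ * X ^ ε * Bd ≤
        (C₂ * C₃) * (X ^ (2 * ε) * X ^ (3 * ε₁)) * (El + Bd + 1) := by
      calc C₃ * X ^ ε * Bd = (1 * C₃) * (X ^ ε * 1) * Bd := by ring
        _ ≤ (C₂ * C₃) * (X ^ (2 * ε) * X ^ (3 * ε₁)) * (El + Bd + 1) := by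
          gcongr
          linarith
    rw [e4]
    linarith
  have hpos : 0 ≤ (3 * (C₁ * C₂)) ^ m * (2 * (C₂ * C₃)) := by positivity
  calc (C₁ * X ^ ε * (2 + C₂ * X ^ (2 * ε))) ^ m *
        (C₂ * X ^ (2 * ε) * (El + Bd * E₀ + 1) + C₃ * X ^ ε * Bd) ≤
        ((3 * (C₁ * C₂)) ^ m * X ^ (m * (3 * ε))) *
          (2 * (C₂ * C₃) * X ^ (2 * ε + 3 * ε₁) * (El + Bd + 1)) := by
        refine mul_le_mul k2 k3 (by positivity) (by positivity)
    _ = ((3 * (C₁ * C₂)) ^ m * (2 * (C₂ * C₃))) *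
          (X ^ (m * (3 * ε)) * X ^ (2 * ε + 3 * ε₁)) * (El + Bd + 1) := by ring
    _ ≤ (Cq * ((3 * (C₁ * C₂)) ^ m * (2 * (C₂ * C₃)))) *
          X ^ (3 * (m * ε) + 4 * ε + 4 * ε₁) * (El + Bd + 1) := by
        have g1 : X ^ (m * (3 * ε)) * X ^ (2 * ε + 3 * ε₁) ≤
            X ^ (3 * (m * ε) + 4 * ε + 4 * ε₁) := by
          rw [← Real.rpow_add hX0]
          refine Real.rpow_le_rpow_of_exponent_le hX ?_
          have : (m : ℝ) * (3 * ε) = 3 * (m * ε) := by ring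
          rw [this]
          linarith
        have g2 : (3 * (C₁ * C₂)) ^ m * (2 * (C₂ * C₃)) ≤
            Cq * ((3 * (C₁ * C₂)) ^ m * (2 * (C₂ * C₃))) := le_mul_of_one_le_left hpos hCq
        gcongr

/-- consequences of the threshold -/
lemma rg_thr {n m r c₁ R S U l δ ε₁ e₃ : ℝ} (hn : 0 ≤ n) (hm : 0 ≤ m) (hr : 0 ≤ r)
    (hc : 0 ≤ c₁) (hR : 0 ≤ R) (hS : S = m * (2 * r) + r) (hl : 0 ≤ l)
    (hU : U = 16 * (m + 1) * (n + 1) * (r + 1) * (c₁ + 1) + 16 * R) (h1 : U ≤ δ * l)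
    (h2 : U ≤ ε₁ * l) (hmd : 4 ≤ m * δ) (hme : 8 * (m * e₃) ≤ ε₁) (hnd : 4 * (n * δ) ≤ ε₁)
    (hε₁ : ε₁ ≤ 1 / 16) :
    16 * ((n + 1) * r) ≤ δ * l ∧ 16 * ((n + 1) * r) ≤ ε₁ * l ∧ 8 * (n * S) ≤ ε₁ * l ∧
    16 * R ≤ ε₁ * l ∧ ε₁ * l + m * (2 * (e₃ * l + c₁ + r)) + r ≤ 2 * (ε₁ * l) ∧
    l ≤ m * (δ * l / 2) ∧ 4 * (n * (δ * l)) ≤ ε₁ * l ∧ ε₁ * l ≤ l / 16 := by
  have u1 : 16 * ((n + 1) * r) ≤ U := by
    have : (n + 1) * r ≤ (m + 1) * (n + 1) * (r + 1) * (c₁ + 1) := by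
      calc (n + 1) * r = 1 * (n + 1) * r * 1 := by ring
        _ ≤ (m + 1) * (n + 1) * (r + 1) * (c₁ + 1) := by
          gcongr <;> linarith
    rw [hU]; linarith
  have u2 : 16 * ((m + 1) * (c₁ + r + 1)) ≤ U := by
    have h3 : c₁ + r + 1 ≤ (r + 1) * (c₁ + 1) := by nlinarith
    have : (m + 1) * (c₁ + r + 1) ≤ (m + 1) * (n + 1) * (r + 1) * (c₁ + 1) := by
      calc (m + 1) * (c₁ + r + 1) ≤ (m + 1) * ((r + 1) * (c₁ + 1)) := by gcongr
        _ = (m + 1) * 1 * (r + 1) * (c₁ + 1) := by ring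
        _ ≤ (m + 1) * (n + 1) * (r + 1) * (c₁ + 1) := by gcongr <;> linarith
    rw [hU]; linarith
  have u3 : 8 * (n * S) ≤ U := by
    have h4 : m * (2 * r) + r ≤ 2 * ((m + 1) * (r + 1)) := by nlinarith
    have : n * S ≤ 2 * ((m + 1) * (n + 1) * (r + 1) * (c₁ + 1)) := by
      rw [hS]
      calc n * (m * (2 * r) + r) ≤ (n + 1) * (2 * ((m + 1) * (r + 1))) := by
            refine mul_le_mul (by linarith) h4 (by positivity) (by positivity)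
        _ = 2 * ((m + 1) * (n + 1) * (r + 1) * 1) := by ring
        _ ≤ _ := by gcongr; linarith
    rw [hU]; linarith
  have u4 : 16 * R ≤ U := by
    have : 0 ≤ 16 * (m + 1) * (n + 1) * (r + 1) * (c₁ + 1) := by positivity
    rw [hU]; linarith
  have v1 : 8 * (m * e₃) * l ≤ ε₁ * l := mul_le_mul_of_nonneg_right hme hl
  have v2 : 4 * (n * δ) * l ≤ ε₁ * l := mul_le_mul_of_nonneg_right hnd hl
  have v3 : 4 * l ≤ m * δ * l := mul_le_mul_of_nonneg_right hmd hl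
  have v4 : ε₁ * l ≤ 1 / 16 * l := mul_le_mul_of_nonneg_right hε₁ hl
  refine ⟨u1.trans h1, u1.trans h2, u3.trans h2, u4.trans h2, ?_, ?_, ?_, by linarith⟩
  · have w1 : m * (2 * (e₃ * l + c₁ + r)) + r = 2 * (m * e₃ * l) + (2 * (m * (c₁ + r)) + r) := by
      ring
    have w2 : 2 * (m * (c₁ + r)) + r ≤ 2 * ((m + 1) * (c₁ + r + 1)) := by nlinarith
    linarith
  · linarith
  · linarith

set_option maxHeartbeats 3200000 in
/-- **the recursion with its parameters** -/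
theorem rg_N {h : ℝ → ℝ} {c : ℝ} (hpu : PU h c) (N : ℕ) {w : ℝ → ℝ} (hab : Abs4 w)
    {R Ca c₁ δ ε₁ e₃ ε J : ℝ} {m Jn Aw : ℕ} (hR : 0 ≤ R) (hAL : ALp h N R Ca) (hc₁ : 0 ≤ c₁)
    (hδ : 0 < δ) (hε₁ : 0 < ε₁) (hε₁1 : ε₁ ≤ 1 / 16) (he₃ : 0 < e₃) (hε : 0 < ε) (hJ : 0 ≤ J)
    (hJn : (N : ℝ) * J ≤ Jn) (hAw : Jn + 2 ≤ Aw) (hm : 4 ≤ m * δ) (hme : 8 * (m * e₃) ≤ ε₁)
    (hNδ : 4 * (N * δ) ≤ ε₁) :
    ∃ Cw η₀ C S X₁ : ℝ, 0 ≤ Cw ∧ 0 < η₀ ∧ η₀ ≤ 1 / 2 ∧ 1 ≤ C ∧ 0 ≤ S ∧ ∀ X : ℝ, 3 ≤ X → X₁ ≤ X →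
    ∀ D : Dat, D.P.OK → D.h = h → D.D0 = X ^ δ → D.z = D.D0 → D.J = J → D.ps₀.length ≤ N →
    (∀ p ∈ D.ps₀, 0 ≤ p.z) → D.n = LF (natl D.ps₀) → 0 ≤ D.κ → 0 ≤ D.v →
    D.n ≤ Real.log X / 4 → D.v ≤ Real.log X / 4 → 2 * D.n ≤ D.κ + D.v →
    ∀ (N0 N1 : ℝ → ℕ) (ρ : ℝ → ℕ → ℝ), Cut N0 N1 ρ c₁ →
    ∀ (cc Bd El Dd : ℝ), (3 * N + 1) * (δ * Real.log X) ≤ cc → cc ≤ Real.log X / 8 →
    0 ≤ Bd → 0 ≤ El → Real.exp cc ≤ Dd →
    ClN D (exJ D.κ D.v D.n cc) Bd S (3 * (ε₁ * Real.log X)) (C * Real.exp D.n) 0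
      (D.n - cc + ε₁ * Real.log X) →
    ClN D (ex0 D.κ) Bd S (3 * (ε₁ * Real.log X)) (C * Real.exp D.n)
      (D.n - 2 * cc - ε₁ * Real.log X) (D.n - cc + ε₁ * Real.log X) →
    (∀ a : ℝ, ε₁ * Real.log X ≤ a → a ≤ 2 * (ε₁ * Real.log X) → ∀ (q : Eis) (ps : List Pf),
      IsPrim q → (nm q : ℝ) * Real.exp (LF ps) ≤ C * Real.exp D.n → NT ps →
      SbL S ps D.ps₀ → D.n - cc ≤ LF ps →
      LBn w Cw η₀ Aw (Real.exp D.κ) (Real.exp (LF ps)) X Dd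
        (N1 (D.v + (D.n - LF ps) + a + e₃ * Real.log X))
        (ρ (D.v + (D.n - LF ps) + a + e₃ * Real.log X)) R Jn
        (sqc q (alF D.z D.D0 D.P D.h ps)) (El * Ht ps ^ J * Real.exp (2 * LF ps))) →
    ∀ k : ℝ, 0 ≤ k → k ≤ D.v → SF D.z D.D0 1 D.P D.h k (natl D.ps₀) ≤
      C * X ^ (3 * (m * ε) + 4 * ε + 4 * ε₁) * (El + Bd + 1) * Ht (natl D.ps₀) ^ J *
        Real.exp (fl D.κ k D.n) := by
  classical
  have hN0 : (0 : ℝ) ≤ N := Nat.cast_nonneg _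
  have hm0 : (0 : ℝ) ≤ m := Nat.cast_nonneg _
  obtain ⟨C₁, r₁, hC₁, hr₁, hleg⟩ := leg_step2 hpu N hε hJ
  obtain ⟨Cw, C₂, η₀, r₂, X₂, hCw, hC₂, hη₀, hη₀1, hr₂, hnt⟩ :=
    nt_step hpu N hab hJ he₃ hε hR hJn hAw hAL hc₁
  obtain ⟨C₃, r₃, hC₃, hr₃, hop⟩ := open_num hpu N hε hJ
  obtain ⟨r, hr1, hr2, hr3⟩ : ∃ r : ℝ, r₁ ≤ r ∧ r₂ ≤ r ∧ r₃ ≤ r :=
    ⟨max r₁ (max r₂ r₃), le_max_left _ _, (le_max_left _ _).trans (le_max_right _ _),
      (le_max_right _ _).trans (le_max_right _ _)⟩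
  have hr0 : 0 ≤ r := hr₁.trans hr1
  set q₀ : ℝ := Real.exp ((N + 1) * r) with hq₀
  have hq₀1 : 1 ≤ q₀ := Real.one_le_exp (by positivity)
  have hqN : Real.exp (N * r) ≤ q₀ := Real.exp_le_exp.2 (by linarith)
  have hqr : Real.exp r ≤ q₀ := Real.exp_le_exp.2 (by nlinarith)
  set S : ℝ := m * (2 * r) + r with hS
  have hS0 : 0 ≤ S := by positivity
  set Cq : ℝ := (q₀ ^ 2) ^ m * q₀ with hCq
  have hCq1 : 1 ≤ Cq := one_le_mul_of_one_le_of_one_le (one_le_pow₀ (one_le_pow₀ hq₀1)) hq₀1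
  set Cf : ℝ := (3 * (C₁ * C₂)) ^ m * (2 * (C₂ * C₃)) with hCf
  have hCf1 : 1 ≤ Cf := by
    have h1 : 1 ≤ C₁ * C₂ := one_le_mul_of_one_le_of_one_le hC₁ hC₂
    have h2 : 1 ≤ C₂ * C₃ := one_le_mul_of_one_le_of_one_le hC₂ hC₃
    exact one_le_mul_of_one_le_of_one_le (one_le_pow₀ (by linarith)) (by linarith)
  -- the threshold
  set T : ℝ := (16 * (m + 1) * (N + 1) * (r + 1) * (c₁ + 1) + 16 * R) / (δ * ε₁) +
    (16 * (m + 1) * (N + 1) * (r + 1) * (c₁ + 1) + 16 * R) / ε₁ +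
    (16 * (m + 1) * (N + 1) * (r + 1) * (c₁ + 1) + 16 * R) / δ with hT
  set U : ℝ := 16 * (m + 1) * (N + 1) * (r + 1) * (c₁ + 1) + 16 * R with hU
  have hU0 : 0 ≤ U := by positivity
  refine ⟨Cw, η₀, Cq * Cf, S, max X₂ (Real.exp T), hCw, hη₀, hη₀1,
    one_le_mul_of_one_le_of_one_le hCq1 hCf1, hS0, ?_⟩
  intro X hX hXT D hP hh hD0 hz hDJ hN hz0 hn hκ hv hn4 hv4 h2n N0 N1 ρ hcut cc Bd El Dd hcc hcc8
    hBd hEl hDd hClJ hClT hLB k hk hkv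
  have hX1 : (1 : ℝ) ≤ X := by linarith
  have hX0 : 0 < X := by linarith
  set l : ℝ := Real.log X with hl
  have hl0 : 0 ≤ l := Real.log_nonneg hX1
  have hTl : T ≤ l := by
    rw [hl, ← Real.log_exp T]
    exact Real.log_le_log (Real.exp_pos _) ((le_max_right _ _).trans hXT)
  have hUδ : U ≤ δ * l := by
    have h1 : U / δ ≤ l := by
      refine le_trans ?_ hTl
      rw [hT]
      have : 0 ≤ U / (δ * ε₁) := by positivity
      have : 0 ≤ U / ε₁ := by positivity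
      linarith
    rwa [div_le_iff₀ hδ, mul_comm] at h1
  have hUε : U ≤ ε₁ * l := by
    have h1 : U / ε₁ ≤ l := by
      refine le_trans ?_ hTl
      rw [hT]
      have : 0 ≤ U / (δ * ε₁) := by positivity
      have : 0 ≤ U / δ := by positivity
      linarith
    rwa [div_le_iff₀ hε₁, mul_comm] at h1
  have hεl : 0 ≤ ε₁ * l := by positivity
  -- consequences of the threshold
  obtain ⟨w1, w2, w3, w4, w5, w6, w7, hεl16⟩ :=
    rg_thr (n := (N : ℝ)) (m := (m : ℝ)) (e₃ := e₃) hN0 hm0 hr0 hc₁ hR hS hl0 hU hUδ hUε hm hme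
      hNδ hε₁1
  have hlD : Real.log D.D0 = δ * l := by rw [hD0, Real.log_rpow hX0]
  have hD01 : 1 ≤ D.D0 := by rw [hD0]; exact Real.one_le_rpow hX1 hδ.le
  have hδl : 0 ≤ δ * l := by positivity
  -- the parameters
  set e : ℝ := δ * l / 2 with he
  set α : ℝ := e₃ * l + c₁ + r with hα
  set σ₀ : ℝ := D.n - cc with hσ₀
  set lo : ℝ := D.n - 2 * cc - N * (δ * l) - r with hlo
  have hmα : ε₁ * l + m * (2 * α) + r ≤ 2 * (ε₁ * l) := w5
  have hα0 : r ≤ α := by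
    rw [hα]
    have : 0 ≤ e₃ * l := by positivity
    linarith
  have hαX : e₃ * Real.log X + c₁ + r₂ ≤ α := by rw [hα]; linarith
  have hme' : l ≤ m * e := w6
  have hNS : 0 ≤ N * S := by positivity
  have hNδ0 : 0 ≤ N * (δ * l) := by positivity
  have hNr : 0 ≤ N * r := by positivity
  have hcc0 : 0 ≤ cc := by
    refine le_trans ?_ hcc
    positivity
  have hLFle : ∀ (s' : ℝ) (ps : List Pf), 0 ≤ s' → s' ≤ S → SbL s' ps D.ps₀ →
      LF ps ≤ D.n + N * S := by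
    intro s' ps h0 h1 h2
    have := h2.LF_le h0 hN
    rw [← hn] at this
    have : (N : ℝ) * s' ≤ N * S := mul_le_mul_of_nonneg_left h1 hN0
    linarith
  -- the terminal range
  have hterm : Cl D (Ge lo) (C₃ * X ^ ε * Bd) (0 + m * (2 * r)) (ε₁ * l + m * (2 * α))
      (Real.exp D.n * (q₀ ^ 2) ^ m) σ₀ := by
    have h1 := hop X hX D hP hh hD01 hDJ hN Bd (0 + m * (2 * r)) (ε₁ * l + m * (2 * α))
      (Real.exp D.n * (q₀ ^ 2) ^ m) q₀ lo (D.n - 2 * cc - ε₁ * l) σ₀ (D.n - cc + ε₁ * l) hBd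
      ((Real.exp_le_exp.2 (mul_le_mul_of_nonneg_left hr3 hN0)).trans hqN)
      (fun ps h1 h2 h3 => by
        constructor
        · rw [hσ₀] at h2; linarith
        · rw [hlo] at h3; linarith)
      (by
        rw [hσ₀]
        have : (N : ℝ) * r₃ ≤ N * r := mul_le_mul_of_nonneg_left hr3 hN0
        linarith)
      (by
        rw [hlo, hlD]
        have : (N : ℝ) * r₃ ≤ N * r := mul_le_mul_of_nonneg_left hr3 hN0
        linarith)
      (fun q ps' k' b1 b2 b3 b4 b5 b6 b7 b8 => hClT q ps' k' b1 (b2.trans (by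
          rw [hCq]
          calc Real.exp D.n * (q₀ ^ 2) ^ m * q₀ = ((q₀ ^ 2) ^ m * q₀) * 1 * Real.exp D.n := by
                ring
            _ ≤ ((q₀ ^ 2) ^ m * q₀) * Cf * Real.exp D.n := by gcongr))
        b3 (b4.mono (by rw [hS]; linarith)) b5 b6 b7 (by linarith))
    exact h1.expo (by positivity) (fun k m => ex0_le_fl D.κ k m)
  -- the recursion
  set Gc : ℝ := C₂ * X ^ (2 * ε) * (El + Bd * Real.exp (N * (δ * l) + 2 * (ε₁ * l)) + 1) with hGc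
  have hrec := rec_j (D := D) (N := N) (C₁ := C₁ * X ^ ε) (C₂ := C₂ * X ^ (2 * ε)) (G := Gc)
    (B₀ := C₃ * X ^ ε * Bd) (r := r) (e := e) (α := α) (q₀ := q₀) (lo := lo) (σ₀ := σ₀)
    (by
      have : 1 ≤ X ^ ε := Real.one_le_rpow hX1 hε.le
      exact one_le_mul_of_one_le_of_one_le hC₁ this)
    (by positivity) (by rw [hGc]; positivity) (by positivity) hr0 hα0 hq₀1 (by rw [he]; positivity)
    (s := 0) (a := ε₁ * l) (Q := Real.exp D.n) (Real.exp_pos _).le m hterm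
    (by rw [hlo, hσ₀, hlD]; linarith)
    (by
      intro B B' s' a' Q' σ' hB hB' h1 h2 h3 h4 h5 h6 h7
      have h8 := hleg X hX D hP hh hD01 hDJ hN B B' s' a' Q' q₀ σ' e lo hB hB'
        ((Real.exp_le_exp.2 (mul_le_mul_of_nonneg_left hr1 hN0)).trans hqN)
        (fun ps c1 c2 c3 => by
          have c4 := hLFle s' ps h1 (by rw [hS]; linarith) c1
          constructor
          · linarith
          · rw [hlo] at c3; linarith)
        (by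
          rw [hlD, he]
          have : ((N : ℝ) + 1) * r₁ ≤ (N + 1) * r := mul_le_mul_of_nonneg_left hr1 (by linarith)
          linarith)
        (h6.mono le_rfl (by linarith) (by linarith) le_rfl (by
          have : (N : ℝ) * r₁ ≤ N * r := mul_le_mul_of_nonneg_left hr1 hN0
          linarith))
        (h7.mono le_rfl (by linarith) (by linarith) le_rfl le_rfl)
      refine h8.weaken fun ps hps => ?_
      have h9 : lo + N * (2 * Real.log D.D0 + r) ≤ LF ps := hps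
      show lo + N * (2 * Real.log D.D0 + r₁) ≤ LF ps
      have : (N : ℝ) * r₁ ≤ N * r := mul_le_mul_of_nonneg_left hr1 hN0
      linarith)
    (by
      intro B s' a' Q' σ' hB h1 h2 h3 h4 h5 h6 h7 h8
      have hs'S : s' + r ≤ S := by rw [hS]; linarith
      have hQm : Real.exp D.n * (q₀ ^ 2) ^ m ≤ Cq * Cf * Real.exp D.n := by
        rw [hCq]
        have g1 : 0 ≤ (q₀ ^ 2) ^ m := by positivity
        have g2 : 1 ≤ q₀ * Cf := one_le_mul_of_one_le_of_one_le hq₀1 hCf1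
        calc Real.exp D.n * (q₀ ^ 2) ^ m = (q₀ ^ 2) ^ m * Real.exp D.n * 1 := by ring
          _ ≤ (q₀ ^ 2) ^ m * Real.exp D.n * (q₀ * Cf) :=
              mul_le_mul_of_nonneg_left g2 (by positivity)
          _ = _ := by ring
      have hQ' : Q' ≤ Cq * Cf * Real.exp D.n := by
        have : Q' ≤ Q' * q₀ := le_mul_of_one_le_right h5 hq₀1
        linarith
      have h9 := hnt X hX ((le_max_left _ _).trans hXT) D hP hh hD01 hz hDJ hN hκ N0 N1 ρ hcut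
        B Bd El s' a' α Q' q₀ (e + N * (r - r₂)) cc (ε₁ * l) lo 0 σ₀ σ' cc Dd hB hBd hEl
        (by linarith) ((Real.exp_le_exp.2 hr2).trans hqr) hαX
        (by
          rw [hlD, he]
          have q1 : (e + N * (r - r₂)) + (N + 1) * r₂ = e + N * r + r₂ := by ring
          rw [← he, q1, he]
          linarith)
        le_rfl hεl hcc0 hDd le_rfl
        (by rw [hlo, hσ₀, hlD]; linarith)
        (fun ps c1 c2 c3 => by
          have c4 := hLFle s' ps h1 (by linarith) c1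
          rw [hσ₀] at c3
          refine ⟨by linarith, by linarith, by linarith, by linarith, by linarith⟩)
        (h8.mono le_rfl (by linarith) le_rfl le_rfl (by linarith))
        (fun q ps' k' b1 b2 b3 b4 b5 b6 b7 b8 => hClJ q ps' k' b1 (by linarith)
          b3 (b4.mono (by linarith)) b5 b6 b7 (by linarith))
        (fun q ps c1 c2 c3 c4 c5 c6 => hLB a' h3 (by linarith) q ps c1 (by linarith) c3
          (c4.mono (by linarith)) c5)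
      refine h9.mono ?_ le_rfl le_rfl le_rfl le_rfl
      have h10 : Real.exp (N * Real.log D.D0 + a' + α) ≤
          Real.exp (N * (δ * l) + 2 * (ε₁ * l)) := by
        rw [hlD]; exact Real.exp_le_exp.2 (by linarith)
      rw [hGc]
      gcongr)
  -- the conclusion
  have hfin := hrec 1 (natl D.ps₀) k isPrim_one (by
      rw [nm_one, ← hn]; push_cast; linarith) (by
      show lo ≤ LF (natl D.ps₀)
      rw [← hn, hlo]; linarith) (SbL_natl hz0) (by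
      rw [← hn, hσ₀]; linarith) hk (by rw [← hn]; linarith)
  rw [← hn] at hfin
  refine hfin.trans ?_
  rw [hDJ]
  have hHt := one_le_Ht (natl D.ps₀)
  have hHJ : 0 ≤ Ht (natl D.ps₀) ^ J := Real.rpow_nonneg (by linarith) _
  refine mul_le_mul_of_nonneg_right ?_ (Real.exp_pos _).le
  refine mul_le_mul_of_nonneg_right ?_ hHJ
  refine rg_const hC₁ hC₂ hC₃ hCq1 hX1 hε hε₁ hBd hEl ?_ (Real.exp_pos _).le
  rw [Real.rpow_def_of_pos hX0]
  refine Real.exp_le_exp.2 ?_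
  rw [← hl]
  linarith

end Crest.Agent.R017.RG64
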