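import Crest.Agent.R017.RCXh_385
import Crest.Agent.R017.RLd_381
import Crest.Agent.R017.QsJo_401
import Crest.Agent.R017.RXi_848

/-!
# Row 17, T.7 [E2-e], the number (Rc) of the exceptional class (helper385): the leaf

* `rc_leafX` : `RLeafX π h (BeAll (NRc N M F)) (LE π h c μ) K c b d₀ 20`
-/

set_option autoImplicit false
set_option linter.unusedVariables false
set_option maxHeartbeats 1000000

noncomputable section

open Complex
open scoped ComplexConjugate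

namespace Crest.Agent.R017.RCX385

open Crest.Agent.R012 Crest.Agent.R012.Eis
open Crest.Agent.R012.T411 (NCube)
open Crest.Agent.R012.MC (Wgt)
open Crest.Agent.R012.LS2 (S mem_S)
open Crest.Agent.R017.B770
open Crest.Agent.R017.Prov71
open Crest.Agent.R017.FE47 (cx PU)
open Crest.Agent.R017.Leg381 (alf alF Pf LF LF_get natl)
open Crest.Agent.R017.Win813 (WK)
open Crest.Agent.R017.RGw813 (T9)
open Crest.Agent.R017.QsJ401 (PLnF plnF_two lnEq_E)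
open Crest.Agent.R017.RQd385 (PM2Q)
open Crest.Agent.R017.E2440 (Fh)
open Crest.Agent.R017.X6C180 (GF)
open Crest.Agent.R017.WDec180 (WD sc)
open Crest.Agent.R017.LBx48 (REb)
open Crest.Agent.R017.QsO83 (bw)
open Crest.Agent.R017.Sup271 (NPm)
open Crest.Agent.R017.RG64
open Crest.Agent.R017.RX298 (xs rp Mk Lg2)
open Crest.Agent.R017.RLD381 (BeAll NRc)
open Crest.Agent.R017.RGB545 (LE PQe rbx)
open Crest.Agent.R017.XP699 (LL)
open Crest.Agent.R017.RXk848 (RLeafX LnP Lmp bX)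

lemma mkB_lmp {M x : ℝ} {ps₀ : List Pq} (h : Lmp x ps₀) (hs : ∀ q ∈ ps₀, Dq.s2 q ≤ M) :
    RX298.MkB M ps₀ := by
  match ps₀, h with
  | p₁ :: p₂ :: p₃ :: gs, h =>
    obtain ⟨⟨a1, a2⟩, ⟨b1, b2⟩, _, _, _⟩ := h
    exact ⟨a2, b2, a1, b1, hs p₁ (by simp), hs p₂ (by simp)⟩

lemma lg2B_lmp {x : ℝ} {ps₀ : List Pq} (h : Lmp x ps₀) : RXi848.Lg2B x ps₀ := by
  match ps₀, h with
  | p₁ :: p₂ :: p₃ :: gs, h =>
    obtain ⟨_, _, _, a, b⟩ := h
    exact ⟨a, b⟩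

/-- the sum over the pieces in the form of the leaf -/
lemma be_fin {N : ℕ} {f : ℕ → ℝ} {Θ C1 xe T H6 XK En W V Bd HM HJ xμ C R2 : ℝ}
    (h : ∀ i < N, Θ * f i ≤ C1 * (xe * (T * H6 * (XK * En) * (W + V * (Bd * HM * xμ)))))
    (hC1 : 0 ≤ C1) (hxe : 0 ≤ xe) (hT : 0 ≤ T) (hH6 : 0 ≤ H6) (hXK : 0 < XK) (hEn : 0 < En)
    (hW : 0 ≤ W) (hBd : 0 ≤ Bd) (hV : V * xμ ≤ 1) (hHM : 1 ≤ HM) (hHJ : H6 * HM ≤ HJ)
    (hC : N * C1 ≤ C) (hR2 : 0 ≤ R2) :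
    Θ * ∑ i ∈ Finset.range N, f i ≤ XK / En * ((C * xe * HJ * (W + Bd) * (En * En) + R2) * T) := by
  have hHM0 : 0 ≤ HM := by linarith
  have h1 : W + V * (Bd * HM * xμ) ≤ (W + Bd) * HM := by
    have a1 : V * (Bd * HM * xμ) = (V * xμ) * (Bd * HM) := by ring
    have a2 : (V * xμ) * (Bd * HM) ≤ 1 * (Bd * HM) :=
      mul_le_mul_of_nonneg_right hV (by positivity)
    have a3 : W ≤ W * HM := le_mul_of_one_le_right hW hHM
    rw [a1]
    linarith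
  have hHJ0 : 0 ≤ HJ := (mul_nonneg hH6 hHM0).trans hHJ
  obtain ⟨Q, hQ⟩ : ∃ Q : ℝ, Q = xe * (T * HJ * (XK * En) * (W + Bd)) := ⟨_, rfl⟩
  have hQ0 : 0 ≤ Q := by rw [hQ]; positivity
  have h2 : ∀ i ∈ Finset.range N, Θ * f i ≤ C1 * Q := by
    intro i hi
    refine (h i (Finset.mem_range.1 hi)).trans (mul_le_mul_of_nonneg_left ?_ hC1)
    rw [hQ]
    refine mul_le_mul_of_nonneg_left ?_ hxe
    calc T * H6 * (XK * En) * (W + V * (Bd * HM * xμ))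
        ≤ T * H6 * (XK * En) * ((W + Bd) * HM) :=
          mul_le_mul_of_nonneg_left h1 (by positivity)
      _ = T * (H6 * HM) * (XK * En) * (W + Bd) := by ring
      _ ≤ T * HJ * (XK * En) * (W + Bd) := by gcongr
  rw [Finset.mul_sum]
  have h3 : ∑ i ∈ Finset.range N, Θ * f i ≤ N * (C1 * Q) := by
    refine (Finset.sum_le_sum h2).trans (le_of_eq ?_)
    rw [Finset.sum_const, Finset.card_range, nsmul_eq_mul]
  have h4 : XK / En * ((C * xe * HJ * (W + Bd) * (En * En) + R2) * T) =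
      C * Q + XK / En * (R2 * T) := by
    rw [hQ]
    field_simp
  rw [h4]
  have h5 : 0 ≤ XK / En * (R2 * T) := by positivity
  calc ∑ i ∈ Finset.range N, Θ * f i ≤ N * (C1 * Q) := h3
    _ = (N * C1) * Q := by ring
    _ ≤ C * Q := mul_le_mul_of_nonneg_right hC hQ0
    _ ≤ _ := by linarith

/-- `Ht ^ 6 * H ^ M ≤ H ^ J` -/
lemma ht_pow {a H M J : ℝ} (ha : 1 ≤ a) (haH : a ≤ H) (hJ : 6 + M ≤ J) : a ^ 6 * H ^ M ≤ H ^ J := by
  have hH : 1 ≤ H := ha.trans haH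
  have hH0 : 0 < H := by linarith
  have h1 : a ^ 6 ≤ H ^ (6 : ℝ) := by
    rw [show (6 : ℝ) = ((6 : ℕ) : ℝ) by norm_num, Real.rpow_natCast]
    exact pow_le_pow_left₀ (by linarith) haH 6
  calc a ^ 6 * H ^ M ≤ H ^ (6 : ℝ) * H ^ M :=
        mul_le_mul_of_nonneg_right h1 (Real.rpow_nonneg hH0.le _)
    _ = H ^ (6 + M) := (Real.rpow_add hH0 _ _).symm
    _ ≤ H ^ J := Real.rpow_le_rpow_of_exponent_le hH hJ

/-- the room conditions of `X` -/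
lemma room_rc {X ε c e₀ Ns x : ℝ} (hε : 0 < ε) (hc : 0 < c) (he₀ : 0 ≤ e₀) (hN : 0 ≤ Ns)
    (hX : 0 < X) (h : Real.exp (2 * e₀ / ε + 10 * e₀ / c + 2 * Ns / c) ≤ X) :
    2 * e₀ ≤ ε * Real.log X ∧ 10 * e₀ ≤ c * Real.log X ∧ 2 * Ns ≤ c * Real.log X := by
  have h1 : 2 * e₀ / ε + 10 * e₀ / c + 2 * Ns / c ≤ Real.log X :=
    (Real.le_log_iff_exp_le hX).2 h
  have a1 : 0 ≤ 2 * e₀ / ε := by positivity
  have a2 : 0 ≤ 10 * e₀ / c := by positivity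
  have a3 : 0 ≤ 2 * Ns / c := by positivity
  refine ⟨?_, ?_, ?_⟩
  · have : 2 * e₀ / ε ≤ Real.log X := by linarith
    rw [div_le_iff₀ hε] at this
    linarith
  · have : 10 * e₀ / c ≤ Real.log X := by linarith
    rw [div_le_iff₀ hc] at this
    linarith
  · have : 2 * Ns / c ≤ Real.log X := by linarith
    rw [div_le_iff₀ hc] at this
    linarith

/-- the numbers of the list -/
lemma facts_rc {K c ε X : ℝ} {ps₀ : List Pq} {ps : List Pf} {Lv : ℝ} {N₀ N₁ : ℕ} (hX : 1 ≤ X)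
    (hF : RFacts K c ε X ps₀ ps Lv N₀ N₁) :
    LF ps ≤ (K + 2 * c) * Real.log X ∧ 6 * LF ps ≤ (5 * K + 7 * c) * Real.log X ∧
      Real.exp Lv ≤ (N₁ : ℝ) := by
  have hl : 0 ≤ Real.log X := Real.log_nonneg hX
  have h1 := hF.nK
  have h2 := hF.hi
  have h3 := hF.n56
  have h4 : ε * Real.log X ≤ c * Real.log X := mul_le_mul_of_nonneg_right hF.ec hl
  refine ⟨by linarith, by linarith, hF.N0.trans ?_⟩
  exact_mod_cast hF.N01

set_option maxHeartbeats 2000000 in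
/-- **(Rc)** of the exceptional class: the leaf -/
theorem rc_leafX {Lam : Type*} {π : Lam → DPar} {h : ℝ → ℝ} {c₁ : ℝ} {w : ℝ → ℝ} {Nw : ℕ}
    {Mw : ℝ} {F : ℕ → ℝ → ℂ} {K c b d₀ μ : ℝ} (hP : ∀ lam, (π lam).OK)
    (hnp : ∀ (lam : Lam) (k : Eis), k ≠ 0 → (∃ c, k = c ^ 3) →
      ¬ NPm (π lam).n (π lam).ψ (π lam).l₂ k)
    (hpu : PU h c₁) (hWD : WD w Nw Mw F) (hc : 0 < c) (hcμ : 1000 * c ≤ μ) (hμ1 : μ ≤ 1)
    (hK : 2000 * c ≤ K) (hd₀ : 0 ≤ d₀) :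
    RLeafX π h (BeAll (NRc Nw Mw F)) (LE π h c μ) K c b d₀ 20 := by
  intro lam Nl c₀ hc₀
  obtain ⟨c₂, hc₂⟩ : ∃ z : ℝ, z = max c₀ d₀ := ⟨_, rfl⟩
  have hc₂c : c₀ ≤ c₂ := hc₂ ▸ le_max_left _ _
  have hc₂d : d₀ ≤ c₂ := hc₂ ▸ le_max_right _ _
  refine ⟨2 * c₂, by linarith, fun ε M hε hM => ?_⟩
  by_cases hεc : ε ≤ c
  swap
  · refine ⟨0, 1, le_rfl, one_pos, ?_⟩
    intro δ Jn Aw Cw R η Ss hδ0 hδ hJn hAw hCw hR hη hη1 hSs
    refine ⟨0, 0, 0, le_rfl, le_rfl, ?_⟩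
    intro X hX hX1 ps₀ hlen hz hs2 hlmp q ps Lv N₀ N₁ hF
    exact absurd hF.ec hεc
  obtain ⟨μ', hμ'⟩ : ∃ z : ℝ, z = Nl * M / 2 := ⟨_, rfl⟩
  have hNl : (0 : ℝ) ≤ Nl := Nat.cast_nonneg _
  have hμ'0 : 0 ≤ μ' := by rw [hμ']; positivity
  have hNμ : 0 ≤ Nl * μ' := by positivity
  refine ⟨2 * (Nl * μ') + 12 + (6 + M), ε / (100 * (Nl + 1)), by linarith, by positivity, ?_⟩
  intro δ Jn Aw Cw R η Ss hδ0 hδ hJn hAw hCw hR hη hη1 hSs
  obtain ⟨Cr, e₀, C1, G, hCr, he₀, hC1, hG, HK⟩ := reb_xs hpu hWD (hP lam) (hnp lam) Nl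
    (K := K) (c := c) (d₀ := d₀) (c₀ := c₀) (μ := μ') (ε := ε) hc hK hd₀ hc₀ hμ'0 hε hεc Jn Aw
    (by linarith) hAw (Cw := Cw) (R := R) (η := η) hCw hR hη hη1
  have hNw : (0 : ℝ) ≤ Nw := Nat.cast_nonneg _
  have hK0 : 0 ≤ K := by linarith
  have hCr0 : 0 ≤ Cr := by linarith
  refine ⟨Cr * Real.exp (2 * Ss) + Nw * C1, Cr + 2 * Ss,
    max (G ^ c⁻¹) (Real.exp (2 * e₀ / ε + 10 * e₀ / c + 2 * (Nl * Ss) / c)), by positivity,
    by linarith, ?_⟩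
  intro X hX hX1 ps₀ hlen hz hs2 hlmp q ps Lv N₀ N₁ hF hq hqX hS Bd Ma Ml hBd hMa hMl hln _ _
  have hX0 : 0 < X := by linarith
  have hX1' : 1 ≤ X := by linarith
  have hl : 0 < Real.log X := Real.log_pos (by linarith)
  obtain ⟨r1, r2, r3⟩ := room_rc (x := 0) hε hc (by linarith : 0 ≤ e₀)
    (by positivity : 0 ≤ Nl * Ss) hX0 ((le_max_right _ _).trans hX1)
  have hGX : G ≤ X ^ c := room_X hG hc ((le_max_left _ _).trans hX1)
  obtain ⟨n1, n2, n3⟩ := facts_rc hX1' hF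
  have hlenps : ps.length ≤ Nl := by rw [hS.length]; exact hlen
  have hzps := hS.z_nonneg
  have hMk : Mk (X ^ c₀) ps := (mkB_lmp hlmp hs2).mk hS
  have hcL : 0 < c * Real.log X := by positivity
  have hLg2 : Lg2 (d₀ * Real.log X) ps := by
    refine RXi848.lg2_of (y := c * Real.log X) (Nr := Nl) hSs hS (lg2B_lmp hlmp)
      (by rw [RXg848.LF_natl]; exact hF.lo) (by exact_mod_cast hlen) ?_
    linarith
  have hLg := hLg2.lg (by positivity)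
  have hdp := plnF_two (μ' := μ') (m₁ := 17 * (c * Real.log X) + 10 * e₀) (e₁ := 2 * e₀) (C := Cr)
    (c₀ := c₂) (N := Nl)
    (lnEq_E π h c μ lam) (by linarith) hln hF (by linarith) hSs hS
    (fun q hq => (hz q hq).2.trans (mul_le_mul_of_nonneg_right hc₂c hl.le)) (by linarith) hd₀
    (by linarith) hLg le_rfl (mul_le_mul_of_nonneg_right (by
      have : 0 ≤ Nw * C1 := by positivity
      linarith) (Real.rpow_nonneg hX0.le _)) hlen hM (by rw [hμ']; linarith) (by linarith)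
    (by linarith) r1 (by
      have h1 : 1000 * c * Real.log X ≤ μ * Real.log X := mul_le_mul_of_nonneg_right hcμ hl.le
      have h2 : 0 ≤ ε * Real.log X := by positivity
      linarith) (by linarith) hK0 (by linarith) (by linarith)
  obtain ⟨hp1, hp2⟩ := hdp
  have hHH : Ht ps ≤ Ht ps * Ht (natl ps₀) := by
    have h1 := one_le_Ht ps
    have h2 := one_le_Ht (natl ps₀)
    exact le_mul_of_one_le_right (by linarith) h2
  have hHt := one_le_Ht ps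
  obtain ⟨HH, hHHd⟩ : ∃ z : ℝ, z = Ht ps * Ht (natl ps₀) := ⟨_, rfl⟩
  rw [← hHHd] at hHH hp1 hp2
  have hHH1 : 1 ≤ HH := hHt.trans hHH
  have hHH0 : 0 ≤ HH := by linarith
  have hHM : 1 ≤ HH ^ M := Real.one_le_rpow hHH1 hM
  have hBd0 : 0 ≤ Bd := by linarith
  have hδε : δ * (100 * (Nl + 1)) ≤ ε := by
    rwa [le_div_iff₀ (by positivity)] at hδ
  intro a ha t X' φ hX' hXn hφ hφw I hI1 hI2
  have key := HK X hX hGX δ hδ0 hδε ps q Lv N₁ hlenps hzps hMk hLg2 n1 n2 hF.v0 hF.v3 n3 hF.N1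
    hq hqX (Bd * HH ^ M * X ^ (-μ)) (by positivity) hp1 hp2 a ha t X' φ hX' (by
      have : Real.log (Real.exp (LF ps)) = LF ps := Real.log_exp _
      rw [← this]; exact hXn) hφ hφw I hI2
  have hfin := be_fin (C := Cr * Real.exp (2 * Ss) + Nw * C1)
    (HJ := HH ^ (2 * (Nl * μ') + 12 + (6 + M)))
    (R2 := (Cr * Real.exp (2 * Ss) + Nw * C1) * X ^ ε * X ^ (-(c / 2)) * (Ma + Ml)) key hC1
    (Real.rpow_nonneg hX0.le _) (by positivity) (by positivity) (Real.rpow_pos_of_pos hX0 _)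
    (Real.exp_pos _) (Real.rpow_nonneg hX0.le _) hBd0 (by
      rw [← Real.rpow_add hX0, ← Real.rpow_zero X]
      exact Real.rpow_le_rpow_of_exponent_le hX1' (by linarith)) hHM
    (ht_pow hHt hHH (by linarith)) (by
      have : 0 ≤ Cr * Real.exp (2 * Ss) := by positivity
      linarith) (by positivity)
  have e1 : RLD381.hE (X ^ c) = 7 * (c * Real.log X) := by
    unfold RLD381.hE
    rw [Real.log_rpow hX0]
  have e2 : (X ^ c) ^ 2 = X ^ (2 * c) := by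
    rw [← Real.rpow_natCast, ← Real.rpow_mul hX0.le]
    congr 1
    push_cast
    ring
  have e3 : Real.exp (2 * LF ps) = Real.exp (LF ps) * Real.exp (LF ps) := by
    rw [← Real.exp_add]; congr 1; ring
  show (X ^ c) ^ 2 * ∑ i ∈ Finset.range Nw, REb
      (bw φ a t (xs q (X ^ δ) (X ^ δ) (π lam) h (d₀ * Real.log X) ps)) (sc (X ^ K) Mw i)
      (GF (Fh (F i) (RLD381.hE (X ^ c)))) (S (X ^ c)) I (X ^ c) N₁ N₁ ≤
    X ^ K / Real.exp (LF ps) * (((Cr * Real.exp (2 * Ss) + Nw * C1) * X ^ ε *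
      (Ht ps * Ht (natl ps₀)) ^ (2 * (Nl * μ') + 12 + (6 + M)) *
          (X ^ bX K c d₀ 20 (LF ps / Real.log X) (Lv / Real.log X) + Bd) *
            Real.exp (2 * LF ps) +
        (Cr * Real.exp (2 * Ss) + Nw * C1) * X ^ ε * X ^ (-(c / 2)) * (Ma + Ml)) *
      (1 + |t|) ^ Jn)
  rw [e1, e2, e3, ← hHHd]
  exact hfin

/-- the field `rc` of helper381's `LeafE` -/
theorem leafE_rc {Lam : Type*} {π : Lam → DPar} {h : ℝ → ℝ} {c₁ : ℝ} (hP : ∀ lam, (π lam).OK)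
    (hE : ∀ lam, Red848.Exc (π lam)) (hpu : PU h c₁) :
    ∀ (w : ℝ → ℝ), Wgt w → (∀ x, 0 ≤ w x) → ∀ (N : ℕ) (M : ℝ) (F : ℕ → ℝ → ℂ), WD w N M F →
    ∀ c μ K d₀ : ℝ, 0 < c → 1000 * c ≤ μ → μ ≤ 1 → 0 < K → 2000 * c ≤ K → 0 ≤ d₀ → d₀ ≤ K →
      RLeafX (RGB545.rdE π) h (BeAll (NRc N M F)) (LE (RGB545.rdE π) h c μ) K c (8 * (K + 1))
        d₀ 20 :=
  fun _ _ _ _ _ _ hWD _ _ _ _ hc hcμ hμ _ hK hd _ =>
    rc_leafX (RGB545.red_OK hP hE)
      (fun lam _ hk hcube hN => hcube.elim fun e he =>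
        ((Red848.NPm_red_iff (hP lam).ψ.q0 hk).1 hN).2 e he) hpu hWD hc hcμ hμ hK hd

end Crest.Agent.R017.RCX385
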