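import Crest.Agent.R017.RCXe_385
import Crest.Agent.R017.PrI_176

/-!
# Row 17, T.7: the number of the principal half of the `l`-terms (helper502)

* `rpl3` : the real inequality of `RPl` (176), no loss, `v + n ≤ 3/2 κ`
* `prl3` : the number in the variables of the leaf (as 385's `prn3`)
-/

set_option autoImplicit false
set_option linter.unusedVariables false

noncomputable section

open Complex
open scoped ComplexConjugate

namespace Crest.Agent.R017.PrD502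

open Crest.Agent.R012 Crest.Agent.R012.Eis
open Crest.Agent.R017.PrI176 (RPl)
open Crest.Agent.R017.WDec180 (sc)
open Crest.Agent.R017.RCX385 (log_sc)

set_option maxHeartbeats 1000000 in
/-- **the real inequality of the principal half of the `l`-terms** -/
theorem rpl3 {K' Z X nM H T E0 d0 κ n v s : ℝ} (hK' : 0 < K') (hZ : 0 < Z) (hX : 0 < X)
    (hM : 1 ≤ nM) (hH : 1 ≤ H) (hT : 0 ≤ T) (hE0 : 0 ≤ E0) (hd0 : 0 ≤ d0) (hs : 0 ≤ s)
    (h1 : |Real.log K' - κ| ≤ s) (h2 : |Real.log X - n| ≤ s) (hZv : Real.log Z ≤ v)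
    (hv : v ≤ 4 * (κ - n) + 12 * s) (hn : n ≤ κ) (h3 : n + 2 / 3 * v ≤ 23 / 18 * κ + s)
    (h4 : n + v ≤ 3 / 2 * κ + s) :
    RPl d0 K' Z X nM H T E0 ≤ nM ^ ((1 : ℝ) / 3) * (Real.exp (κ - n + 2 * s) *
      ((3 + E0 * T * H ^ ((1 : ℝ) / 3)) * Real.exp ((v + n - κ) / 3 - d0) +
        H * Real.exp (-(κ / 18)))) := by
  obtain ⟨κ', hκe'⟩ : ∃ k, K' = Real.exp k := ⟨Real.log K', (Real.exp_log hK').symm⟩
  obtain ⟨n', hne⟩ : ∃ k, X = Real.exp k := ⟨Real.log X, (Real.exp_log hX).symm⟩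
  obtain ⟨z, hze⟩ : ∃ k, Z = Real.exp k := ⟨Real.log Z, (Real.exp_log hZ).symm⟩
  obtain ⟨η, hηe⟩ : ∃ k, H = Real.exp k := ⟨Real.log H, (Real.exp_log (by linarith)).symm⟩
  subst hκe' hne hze hηe
  rw [Real.log_exp] at h1 h2 hZv
  rw [abs_le] at h1 h2
  have hη : 0 ≤ η := by
    rw [← Real.exp_zero] at hH
    exact Real.exp_le_exp.1 hH
  set m := nM ^ ((1 : ℝ) / 3) with hm
  have hm1 : 1 ≤ m := Real.one_le_rpow hM (by norm_num)
  have hm0 : 0 ≤ m := by linarith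
  set A : ℝ := Real.exp (κ - n + 2 * s) * Real.exp ((v + n - κ) / 3 - d0) with hA
  set B : ℝ := Real.exp (κ - n + 2 * s) * (Real.exp η * Real.exp (-(κ / 18))) with hB
  have hAe : A = Real.exp (κ - n + 2 * s + ((v + n - κ) / 3 - d0)) := by
    rw [hA, ← Real.exp_add]
  have hBe : B = Real.exp (κ - n + 2 * s + (η + -(κ / 18))) := by
    rw [hB, ← Real.exp_add, ← Real.exp_add]
  have hA0 : 0 ≤ A := by rw [hAe]; exact (Real.exp_pos _).le
  have hB0 : 0 ≤ B := by rw [hBe]; exact (Real.exp_pos _).le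
  have t1 : Real.exp (-d0) * Real.exp z ^ ((1 : ℝ) / 2) ≤ A := by
    rw [← Real.exp_mul, ← Real.exp_add, hAe]
    refine Real.exp_le_exp.2 ?_
    linarith
  have t2 : Real.exp (-d0) * (Real.exp κ' * Real.exp z / Real.exp n') ^ ((1 : ℝ) / 3) ≤ A := by
    rw [← Real.exp_add, ← Real.exp_sub, ← Real.exp_mul, ← Real.exp_add, hAe]
    refine Real.exp_le_exp.2 ?_
    linarith
  have t3 : Real.exp (-d0) * (Real.exp κ' ^ ((2 : ℝ) / 3) * Real.exp z ^ ((1 : ℝ) / 3) *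
      Real.exp n' ^ (-(2 / 3) : ℝ)) ≤ A := by
    rw [← Real.exp_mul, ← Real.exp_mul, ← Real.exp_mul, ← Real.exp_add, ← Real.exp_add,
      ← Real.exp_add, hAe]
    refine Real.exp_le_exp.2 ?_
    linarith
  have t4 : Real.exp κ' ^ (-(1 / 3) : ℝ) * Real.exp z ^ ((2 : ℝ) / 3) *
      Real.exp η ^ ((1 : ℝ) / 3) * Real.exp (-d0) ^ ((1 : ℝ) / 3) ≤ B := by
    rw [← Real.exp_mul, ← Real.exp_mul, ← Real.exp_mul, ← Real.exp_mul, ← Real.exp_add,
      ← Real.exp_add, ← Real.exp_add, hBe]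
    refine Real.exp_le_exp.2 ?_
    linarith
  have t5 : Real.exp κ' ^ (-(1 / 3) : ℝ) * Real.exp z * Real.exp (-d0) ≤ A := by
    rw [← Real.exp_mul, ← Real.exp_add, ← Real.exp_add, hAe]
    refine Real.exp_le_exp.2 ?_
    linarith
  have hET : 0 ≤ E0 * T := by positivity
  have hη3 : 0 ≤ Real.exp η ^ ((1 : ℝ) / 3) := by positivity
  unfold PrI176.RPl
  calc Real.exp (-d0) * (Real.exp z ^ ((1 : ℝ) / 2) +
        (Real.exp κ' * Real.exp z / Real.exp n') ^ ((1 : ℝ) / 3) +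
        Real.exp κ' ^ ((2 : ℝ) / 3) * Real.exp z ^ ((1 : ℝ) / 3) *
          Real.exp n' ^ (-(2 / 3) : ℝ) * m) +
        Real.exp κ' ^ (-(1 / 3) : ℝ) * Real.exp z ^ ((2 : ℝ) / 3) *
          Real.exp η ^ ((1 : ℝ) / 3) * Real.exp (-d0) ^ ((1 : ℝ) / 3) +
        E0 * T * (Real.exp κ' ^ (-(1 / 3) : ℝ) * Real.exp z * m * Real.exp η ^ ((1 : ℝ) / 3) *
          Real.exp (-d0)) =
      Real.exp (-d0) * Real.exp z ^ ((1 : ℝ) / 2) +
        Real.exp (-d0) * (Real.exp κ' * Real.exp z / Real.exp n') ^ ((1 : ℝ) / 3) +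
        m * (Real.exp (-d0) * (Real.exp κ' ^ ((2 : ℝ) / 3) * Real.exp z ^ ((1 : ℝ) / 3) *
          Real.exp n' ^ (-(2 / 3) : ℝ))) +
        Real.exp κ' ^ (-(1 / 3) : ℝ) * Real.exp z ^ ((2 : ℝ) / 3) *
          Real.exp η ^ ((1 : ℝ) / 3) * Real.exp (-d0) ^ ((1 : ℝ) / 3) +
        (m * (E0 * T * Real.exp η ^ ((1 : ℝ) / 3))) * (Real.exp κ' ^ (-(1 / 3) : ℝ) *
          Real.exp z * Real.exp (-d0)) := by ring
    _ ≤ m * A + m * A + m * A + m * B + (m * (E0 * T * Real.exp η ^ ((1 : ℝ) / 3))) * A := by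
        have k1 : A ≤ m * A := le_mul_of_one_le_left hA0 hm1
        have k2 : B ≤ m * B := le_mul_of_one_le_left hB0 hm1
        refine add_le_add (add_le_add (add_le_add (add_le_add (t1.trans k1) (t2.trans k1)) ?_)
          (t4.trans k2)) ?_
        · exact mul_le_mul_of_nonneg_left t3 hm0
        · exact mul_le_mul_of_nonneg_left t5 (by positivity)
    _ = _ := by rw [hA, hB]; ring

set_option maxHeartbeats 1000000 in
/-- **the number of the principal half of the `l`-terms in the variables of the leaf** -/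
theorem prl3 {Nw : ℕ} {M R K c d₀ y X n Lv N₁ X' nM H T E0 Θ : ℝ} (hM : 0 ≤ M)
    (hR : 0 ≤ R) (hc : 0 ≤ c) (hK : 7 * c ≤ K) (hd : 0 ≤ d₀) (hX : 3 ≤ X) (hX' : 0 < X')
    (hXn : |Real.log X' - n| ≤ R) (hN₁ : 1 ≤ N₁) (hNL : 9 * N₁ ≤ Real.exp (Lv + 4))
    (hv3 : 3 * Lv + 200 * c * Real.log X ≤ 2 * K * Real.log X)
    (h56 : 6 * n ≤ (5 * K + 7 * c) * Real.log X)
    {i : ℕ} (hi : i < Nw) (hnM : 1 ≤ nM) (hH : 1 ≤ H) (hT : 0 ≤ T) (hE0 : 0 ≤ E0)
    (hΘ0 : 0 ≤ Θ) (hΘ : Θ * (1 + E0 * T * H ^ ((1 : ℝ) / 3)) ≤ X ^ (y * c))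
    (hΘH : Θ * H ≤ X ^ (K / 18)) :
    Θ * RPl (d₀ * Real.log X) (sc (X ^ K) M i) N₁ X' nM H T E0 ≤
      4 * nM ^ ((1 : ℝ) / 3) * Real.exp (2 * (M + Nw + R + 13)) *
        (X ^ K / Real.exp n) *
        X ^ (max 0 (y * c + (Lv / Real.log X + n / Real.log X - K) / 3 - d₀)) := by
  have hX0 : 0 < X := by linarith
  have hX1 : 1 ≤ X := by linarith
  have hl0 : 0 < Real.log X := Real.log_pos (by linarith)
  have hNw : (0 : ℝ) ≤ Nw := Nat.cast_nonneg _
  have hlsc' := log_sc (K := K) hM hX hi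
  set L := Real.log X with hL
  set s : ℝ := M + Nw + R + 12 with hs
  have hs0 : 0 ≤ s := by positivity
  have hcL : 0 ≤ c * L := by positivity
  have hKL : 7 * (c * L) ≤ K * L := by
    have := mul_le_mul_of_nonneg_right hK hl0.le
    linarith
  have hsc0 : 0 < sc (X ^ K) M i := WDec180.sc_pos (by positivity) M i
  have hN₁e : Real.log N₁ ≤ Lv + 4 := by
    rw [← Real.log_exp (Lv + 4)]
    exact Real.log_le_log (by linarith) (by linarith)
  have hv3' : 3 * Lv + 200 * (c * L) ≤ 2 * (K * L) := by linarith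
  have h56' : 6 * n ≤ 5 * (K * L) + 7 * (c * L) := by linarith
  have key := rpl3 (K' := sc (X ^ K) M i) (Z := N₁) (X := X') (nM := nM) (H := H) (T := T)
    (E0 := E0) (d0 := d₀ * L) (κ := K * L) (n := n) (v := Lv + 4) (s := s) hsc0 (by linarith) hX'
    hnM hH hT hE0 (by positivity) hs0 (hlsc'.trans (by rw [hs]; linarith))
    (hXn.trans (by rw [hs]; linarith)) hN₁e (by linarith) (by linarith) (by linarith)
    (by linarith)
  have hm0 : 0 ≤ nM ^ ((1 : ℝ) / 3) := by positivity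
  have hH3 : 0 ≤ E0 * T * H ^ ((1 : ℝ) / 3) := by positivity
  set W : ℝ := X ^ (max 0 (y * c + (Lv / L + n / L - K) / 3 - d₀)) with hW
  have hW1 : 1 ≤ W := Real.one_le_rpow hX1 (le_max_left _ _)
  have e2 : Θ * (1 + E0 * T * H ^ ((1 : ℝ) / 3)) *
      Real.exp ((Lv + 4 + n - K * L) / 3 - d₀ * L) ≤ Real.exp (4 / 3) * W := by
    calc Θ * (1 + E0 * T * H ^ ((1 : ℝ) / 3)) * Real.exp ((Lv + 4 + n - K * L) / 3 - d₀ * L) ≤
          X ^ (y * c) * Real.exp ((Lv + 4 + n - K * L) / 3 - d₀ * L) := by gcongr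
      _ = Real.exp (4 / 3) * X ^ (y * c + (Lv / L + n / L - K) / 3 - d₀) := by
          rw [Real.rpow_def_of_pos hX0, Real.rpow_def_of_pos hX0, ← hL, ← Real.exp_add,
            ← Real.exp_add]
          congr 1
          field_simp
          ring
      _ ≤ Real.exp (4 / 3) * W := by
          refine mul_le_mul_of_nonneg_left ?_ (Real.exp_pos _).le
          exact Real.rpow_le_rpow_of_exponent_le hX1 (le_max_right _ _)
  have e3 : Θ * (H * Real.exp (-(K * L / 18))) ≤ W := by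
    have h1 : X ^ (K / 18) * Real.exp (-(K * L / 18)) = 1 := by
      rw [Real.rpow_def_of_pos hX0, ← hL, ← Real.exp_add, ← Real.exp_zero]
      congr 1
      ring
    calc Θ * (H * Real.exp (-(K * L / 18))) =
          Θ * H * Real.exp (-(K * L / 18)) := by ring
      _ ≤ X ^ (K / 18) * Real.exp (-(K * L / 18)) := by gcongr
      _ = 1 := h1
      _ ≤ W := hW1
  have e4 : Real.exp (4 / 3) ≤ Real.exp 2 := Real.exp_le_exp.2 (by norm_num)
  have e5 : (1 : ℝ) ≤ Real.exp 2 := Real.one_le_exp (by norm_num)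
  have e6 : Real.exp (K * L - n + 2 * s) * Real.exp 2 =
      Real.exp (2 * (M + Nw + R + 13)) * (X ^ K / Real.exp n) := by
    rw [Real.rpow_def_of_pos hX0, ← hL, ← Real.exp_sub, ← Real.exp_add, ← Real.exp_add, hs]
    congr 1
    ring
  have hE0' : 0 ≤ Real.exp (K * L - n + 2 * s) := (Real.exp_pos _).le
  have hex := Real.exp_pos ((Lv + 4 + n - K * L) / 3 - d₀ * L)
  calc Θ * RPl (d₀ * L) (sc (X ^ K) M i) N₁ X' nM H T E0 ≤
        Θ * (nM ^ ((1 : ℝ) / 3) * (Real.exp (K * L - n + 2 * s) *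
          ((3 + E0 * T * H ^ ((1 : ℝ) / 3)) * Real.exp ((Lv + 4 + n - K * L) / 3 - d₀ * L) +
            H * Real.exp (-(K * L / 18))))) :=
        mul_le_mul_of_nonneg_left key hΘ0
    _ ≤ Θ * (nM ^ ((1 : ℝ) / 3) * (Real.exp (K * L - n + 2 * s) *
          ((3 * (1 + E0 * T * H ^ ((1 : ℝ) / 3))) *
            Real.exp ((Lv + 4 + n - K * L) / 3 - d₀ * L) + H * Real.exp (-(K * L / 18))))) := by
        have h7 : 3 + E0 * T * H ^ ((1 : ℝ) / 3) ≤ 3 * (1 + E0 * T * H ^ ((1 : ℝ) / 3)) := by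
          linarith
        gcongr
    _ = nM ^ ((1 : ℝ) / 3) * (Real.exp (K * L - n + 2 * s) *
          (3 * (Θ * (1 + E0 * T * H ^ ((1 : ℝ) / 3)) *
            Real.exp ((Lv + 4 + n - K * L) / 3 - d₀ * L)) +
            Θ * (H * Real.exp (-(K * L / 18))))) := by ring
    _ ≤ nM ^ ((1 : ℝ) / 3) * (Real.exp (K * L - n + 2 * s) *
          (3 * (Real.exp 2 * W) + Real.exp 2 * W)) := by
        have h5 := e2.trans (mul_le_mul_of_nonneg_right e4 (by linarith : (0 : ℝ) ≤ W))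
        have h6 : Θ * (H * Real.exp (-(K * L / 18))) ≤ Real.exp 2 * W :=
          e3.trans (le_mul_of_one_le_left (by linarith) e5)
        gcongr
    _ = 4 * nM ^ ((1 : ℝ) / 3) * (Real.exp (K * L - n + 2 * s) * Real.exp 2) * W := by ring
    _ = _ := by rw [e6]; ring

end Crest.Agent.R017.PrD502
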