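import Crest.Agent.R017.RLXe_502
import Crest.Agent.R017.PrJ_502

/-!
# Row 17, T.7, the number (Rl) of the exceptional class (helper241): one block, the differences `xs`

* `num_Al` : the cell term of one block
* `rlk_xs` : the number of one block in the form of the leaf
-/

set_option autoImplicit false
set_option linter.unusedVariables false
set_option maxHeartbeats 1000000

noncomputable section

open Complex
open scoped ComplexConjugate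

namespace Crest.Agent.R017.RLX241

open Crest.Agent.R012 Crest.Agent.R012.Eis
open Crest.Agent.R012.T411 (NCube)
open Crest.Agent.R012.LS2 (S mem_S)
open Crest.Agent.R017.MoL106 (kw kw_ne)
open Crest.Agent.R017.E2440
open Crest.Agent.R017.B770
open Crest.Agent.R017.Prov71
open Crest.Agent.R017.FE47 (cx PU)
open Crest.Agent.R017.HP842 (pc sqc)
open Crest.Agent.R017.Leg381 (alf alF Pf LF LF_get)
open Crest.Agent.R017.Win813 (WK iA iA_nonneg)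
open Crest.Agent.R017.RGw813 (T9)
open Crest.Agent.R017.QsJ401 (PLnF)
open Crest.Agent.R017.NPy739 (opL opL_nonneg)
open Crest.Agent.R017.RQd385 (PM2Q)
open Crest.Agent.R017.X6C180 (GF)
open Crest.Agent.R017.WDec180 (WD sc)
open Crest.Agent.R017.LBx48 (REb neb)
open Crest.Agent.R017.QsO83 (bw FS_bw)
open Crest.Agent.R017.Sup271 (NPm)
open Crest.Agent.R017.RG64
open Crest.Agent.R017.RX298 (xs rp Mk Lg2)
open Crest.Agent.R017.PrI176 (RPl)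
open Crest.Agent.R017.RCX385
open Crest.Agent.R017.RLX502 (RLk blk rlk_key)

/-- the cell term of one block -/
lemma num_Al {X c K ε δ e₀ Cr cA T n Bd Hq W B₁ ε₁ m : ℝ} {r Nl : ℕ} (hX : 3 ≤ X) (hε : 0 < ε)
    (hδ : 0 ≤ δ) (hδε : δ * (100 * (Nl + 1)) ≤ ε) (hr : r ≤ Nl) (hc : 0 < c) (hCr : 0 ≤ Cr)
    (hcA : 0 ≤ cA) (hT : 0 ≤ T) (hBd : 0 ≤ Bd) (hHq : 1 ≤ Hq) (hW : 0 ≤ W)
    (hB : B₁ * (2 * ε₁) ≤ ε / 20) :
    X ^ (2 * c) * (X ^ c * (Real.exp (-m) * (Cr * cA * (X ^ B₁) ^ (2 * ε₁) * T * opL r (X ^ δ) *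
      (Bd * Real.exp (4 * m) * Real.exp (2 * e₀) *
        Real.exp (n + (K * Real.log X - 3 * m) + 5 * (c * Real.log X) + 3 * e₀))))) ≤
      (4 * Cr * cA * 100 ^ (2 * Nl) * Real.exp (5 * e₀)) *
        (X ^ (ε / 2) * (T * Hq * (X ^ K * Real.exp n) * (W + X ^ (9 * c) * Bd))) := by
  refine le_trans ?_ (num_A (e₀ := e₀) (B₁ := B₁) (ε₁ := ε₁) hX hε hδ hδε hr hc hCr hcA hT hBd hHq
    hW hB)
  have hX0 : 0 < X := by linarith
  have hop := opL_nonneg r (show (0 : ℝ) ≤ X ^ δ by positivity)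
  have e1 : Real.exp (-m) * (Real.exp (4 * m) *
      Real.exp (n + (K * Real.log X - 3 * m) + 5 * (c * Real.log X) + 3 * e₀)) =
      Real.exp (n + K * Real.log X + 5 * (c * Real.log X) + 3 * e₀) := by
    rw [← Real.exp_add, ← Real.exp_add]; congr 1; ring
  obtain ⟨E, hE⟩ : ∃ E : ℝ, E = Cr * cA * (X ^ B₁) ^ (2 * ε₁) * T * opL r (X ^ δ) *
      (Bd * Real.exp (2 * e₀) * Real.exp (n + K * Real.log X + 5 * (c * Real.log X) + 3 * e₀)) :=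
    ⟨_, rfl⟩
  have hE0 : 0 ≤ E := by rw [hE]; positivity
  have e2 : Real.exp (-m) * (Cr * cA * (X ^ B₁) ^ (2 * ε₁) * T * opL r (X ^ δ) *
      (Bd * Real.exp (4 * m) * Real.exp (2 * e₀) *
        Real.exp (n + (K * Real.log X - 3 * m) + 5 * (c * Real.log X) + 3 * e₀))) = E := by
    rw [hE, ← e1]; ring
  have e3 : 4 * Cr * cA * (X ^ B₁) ^ (2 * ε₁) * T * opL r (X ^ δ) *
      (Bd * Real.exp (2 * e₀) * Real.exp (n + K * Real.log X + 5 * (c * Real.log X) + 3 * e₀)) =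
      4 * E := by
    rw [hE]; ring
  rw [e2, e3]
  have h1 : E ≤ 4 * E := by linarith
  have h2 : 0 ≤ X ^ (2 * c) := by positivity
  have h3 : 0 ≤ X ^ c := by positivity
  exact mul_le_mul_of_nonneg_left (mul_le_mul_of_nonneg_left h1 h3) h2

lemma two_sq' {y z : ℝ} (h : 2 ≤ y) (hz : 1 ≤ z) : 1 + y * z ≤ (y * y) * z := by
  have h1 : (1 + y) * z ≤ (y * y) * z :=
    mul_le_mul_of_nonneg_right (two_sq h) (by linarith)
  linarith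

set_option maxHeartbeats 4000000 in
open Classical in
/-- **the number of one block** at the windowed difference, all sizes powers of `X` -/
theorem rlk_xs {h : ℝ → ℝ} {c₁ : ℝ} (hpu : PU h c₁) {w : ℝ → ℝ} {N : ℕ} {M : ℝ} {F : ℕ → ℝ → ℂ}
    (hWD : WD w N M F) {PP : DPar} (hP : PP.OK)
    (hnp : ∀ k : Eis, k ≠ 0 → (∃ c, k = c ^ 3) → ¬ NPm PP.n PP.ψ PP.l₂ k) (Nl : ℕ)
    {K c d₀ c₀ μ ε : ℝ} (hc : 0 < c) (hK : 2000 * c ≤ K) (hd₀ : 0 ≤ d₀) (hc₀ : 1 ≤ c₀)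
    (hμ : 0 ≤ μ) (hε : 0 < ε) (hεc : ε ≤ c) (Jn Aw : ℕ) (hJn : 2 * (Nl * μ) + 12 ≤ Jn)
    (hAw : Jn + 2 ≤ Aw) {Cw R η : ℝ} (hCw : 0 ≤ Cw) (hR : 0 ≤ R) (hη : 0 < η) (hη1 : η ≤ 1 / 2) :
    ∃ Cr e₀ C G : ℝ, 1 ≤ Cr ∧ 10 ≤ e₀ ∧ M + N + R + 14 ≤ e₀ ∧ 0 ≤ C ∧ 1 ≤ G ∧
      Real.exp (20 * e₀) ≤ G ∧ ∀ X : ℝ, 3 ≤ X → G ≤ X ^ c →
      ∀ δ : ℝ, 0 ≤ δ → δ * (100 * (Nl + 1)) ≤ ε → ∀ (ps : List Pf) (q : Eis) (Lv N₁ : ℝ),
      ps.length ≤ Nl → (∀ x ∈ ps, 0 ≤ x.1.z) → Mk (X ^ c₀) ps → Lg2 (d₀ * Real.log X) ps →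
      LF ps ≤ (K + 2 * c) * Real.log X → 6 * LF ps ≤ (5 * K + 7 * c) * Real.log X → 0 ≤ Lv →
      3 * Lv + 200 * c * Real.log X ≤ 2 * K * Real.log X → Real.exp Lv ≤ N₁ →
      9 * N₁ ≤ Real.exp (Lv + 4) → IsPrim q → (nm q : ℝ) ≤ X ^ c₀ → ∀ Bd : ℝ, 0 ≤ Bd →
      ∀ (m X₀ : ℕ) (Ll : ℝ), (m : ℝ) ≤ (2 + (K * Real.log X + (M + N))) / 3 →
      (∀ t₁ : ℝ, 0 ≤ t₁ → t₁ ≤ m →
        PLnF (PM2Q NCube PP h) μ Cr (fun i => (ps.get i).1) (LF ps) (K * Real.log X - 3 * t₁) Lv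
          (17 * (c * Real.log X) + 10 * e₀) (2 * e₀) (Bd * Real.exp (4 * t₁))) →
      (∀ t₁ : ℝ, 0 ≤ t₁ → t₁ ≤ m →
        PLnF (PM2Q NCube PP h) μ Cr (fun i => ((rp (d₀ * Real.log X) ps).get i).1) (LF ps)
          (K * Real.log X - 3 * t₁) Lv
          (17 * (c * Real.log X) + 10 * e₀) (2 * e₀) (Bd * Real.exp (4 * t₁))) →
      ∀ a ∈ T9, ∀ (t X' : ℝ) (φ : ℝ → ℝ), 0 < X' → |Real.log X' - LF ps| ≤ R + 1 →
      WK Cw η Aw φ → (∀ u, φ u ≠ 0 → |u - Real.log X'| ≤ η / 2) → ∀ I : ℕ,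
      (2 : ℝ) ^ I ≤ 2 * N₁ → ∀ i < N,
      X ^ (2 * c) * RLk (GF (Fh (F i) (7 * (c * Real.log X)))) (sc (X ^ K) M i)
        (blk X₀ Ll (Real.exp 2) (sc (X ^ K) M i) m)
        (bw φ a t (xs q (X ^ δ) (X ^ δ) PP h (d₀ * Real.log X) ps)) (X ^ c) I (X ^ c) N₁ ≤
      C * (X ^ ε * ((1 + |t|) ^ Jn * Ht ps ^ 6 * (X ^ K * Real.exp (LF ps)) *
        (X ^ (max 0 (20 * c + (Lv / Real.log X + LF ps / Real.log X - K) / 3 - d₀)) +
          X ^ (9 * c) * Bd))) := by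
  obtain ⟨Cr, e₀, C1, Cp, cY, B₁, ε₁, G, hCr, he₀, hC1, hCp, hcY, hε₁B, hGe₀, HK⟩ :=
    rlk_key hpu hWD hP hnp Nl hc hK hd₀ hc₀ hμ hε hεc Jn Aw hJn hAw hCw hR hη hη1
  have hM := hWD.M0
  have hNw : (0 : ℝ) ≤ N := Nat.cast_nonneg _
  obtain ⟨cA, hcA⟩ : ∃ z : ℝ, z = Cw ^ 2 * iA Jn * (η * (η ^ Jn)⁻¹) := ⟨_, rfl⟩
  have hiJ := iA_nonneg Jn
  have hcA0 : 0 ≤ cA := by rw [hcA]; positivity
  obtain ⟨cR, hcR⟩ : ∃ z : ℝ, z = 12 * Real.exp (2 * (M + N + (R + 2) + 13)) := ⟨_, rfl⟩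
  have hcR0 : 0 ≤ cR := by rw [hcR]; positivity
  obtain ⟨cP, hcP⟩ : ∃ z : ℝ, z = 12 * Real.exp (11 * (M + N) + 30) := ⟨_, rfl⟩
  have hcP0 : 0 ≤ cP := by rw [hcP]; positivity
  obtain ⟨cc, hcc⟩ : ∃ z : ℝ, z = 4 * Cr * cA * 100 ^ (2 * Nl) * Real.exp (5 * e₀) +
    Cw ^ 2 * (η⁻¹) ^ Jn * cY * cP +
    (Cw * (η⁻¹) ^ 6) ^ 2 * Cp ^ 2 * cR + 1 := ⟨_, rfl⟩
  have hcc0 : 0 ≤ cc := by rw [hcc]; positivity
  rw [← hcA, ← hcP] at HK
  refine ⟨Cr, e₀, C1 * cc, G, hCr, by linarith, he₀, by positivity,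
    (Real.one_le_exp (by linarith)).trans hGe₀, hGe₀, ?_⟩
  intro X hX hGX δ hδ hδε ps q Lv N₁ hlen hz hMk hLg hn1 hn2 hLv hv3 hN hNL hq hqX Bd hBd m X₀ Ll
    hm hln hln' a ha t X' φ hX' hXn hφ hφw I hI i hi
  have key := HK X hX hGX δ hδ hδε ps q Lv N₁ hlen hz hMk hLg hn1 hn2 hLv hv3 hN hNL hq hqX Bd hBd
    m X₀ Ll hm hln hln' a ha t X' φ hX' hXn hφ hφw I hI i hi
  clear HK hln hln'
  have hX0 : 0 < X := by linarith
  have hX1 : 1 ≤ X := by linarith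
  have hl : 0 < Real.log X := Real.log_pos (by linarith)
  have hXr : ∀ u : ℝ, X ^ u = Real.exp (u * Real.log X) := fun u => by
    rw [Real.rpow_def_of_pos hX0]; congr 1; ring
  have hle : ∀ {u v : ℝ}, u ≤ v → X ^ u ≤ X ^ v := fun huv =>
    Real.rpow_le_rpow_of_exponent_le hX1 huv
  have hadd : ∀ u v : ℝ, X ^ u * X ^ v = X ^ (u + v) := fun u v => (Real.rpow_add hX0 u v).symm
  have hGe : Real.exp (20 * e₀) ≤ X ^ c := hGe₀.trans hGX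
  have hcL : 0 < c * Real.log X := by positivity
  have hn0 : 0 ≤ LF ps := LF_nonneg hz
  have hlX2 := log_X2 hX' hη hη1 hXn
  have hN₁ : 1 ≤ N₁ := by linarith [Real.one_le_exp hLv]
  have hHt := one_le_Ht ps
  have hκ0 : 0 < sc (X ^ K) M i := WDec180.sc_pos (by positivity) M i
  obtain ⟨n, hn⟩ : ∃ n : ℝ, n = LF ps := ⟨_, rfl⟩
  rw [← hn] at key hn0 hn1 hn2 hlX2 ⊢
  obtain ⟨W, hW⟩ : ∃ W : ℝ, W = X ^ (max 0 (20 * c + (Lv / Real.log X + n / Real.log X - K) / 3 -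
    d₀)) := ⟨_, rfl⟩
  have hW1 : 1 ≤ W := by rw [hW]; exact Real.one_le_rpow hX1 (le_max_left _ _)
  have ht1 : 1 ≤ 1 + |t| := by linarith [abs_nonneg t]
  have hJn12 : 12 ≤ Jn := by
    have h0 : (0 : ℝ) ≤ Nl * μ := by positivity
    have h1 : (12 : ℝ) ≤ Jn := by linarith
    exact_mod_cast h1
  obtain ⟨T, hT⟩ : ∃ T : ℝ, T = (1 + |t|) ^ Jn := ⟨_, rfl⟩
  have hT1 : 1 ≤ T := by rw [hT]; exact one_le_pow₀ ht1
  have hT6 : ((1 + |t|) ^ 6) ^ 2 ≤ T := by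
    rw [hT, ← pow_mul]
    exact pow_le_pow_right₀ ht1 (by omega)
  have hHq : 1 ≤ Ht ps ^ 6 := one_le_pow₀ hHt
  have hqA := num_Al (X := X) (c := c) (K := K) (ε := ε) (δ := δ) (e₀ := e₀) (Cr := Cr) (cA := cA)
    (T := T) (n := n) (Bd := Bd) (Hq := Ht ps ^ 6) (W := W) (B₁ := B₁) (ε₁ := ε₁) (m := m)
    (r := ps.length) (Nl := Nl) hX hε hδ hδε hlen hc (by linarith) hcA0 (by linarith) hBd hHq
    (by linarith) hε₁B
  have hqB := num_B (X := X) (c := c) (K := K) (ε := ε) (T := T) (n := n) (Bd := Bd)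
    (Hq := Ht ps ^ 6) (W := W) (A2 := cY * X ^ (ε / 20)) (cB := Cw ^ 2 * (η⁻¹) ^ Jn)
    (cP := cP) (cY := cY) (pw := cP * (X ^ K * Real.exp n) * X ^ (-(3 * c))) hX hε (by linarith)
    hBd hHq hW1 (by positivity) hcP0 hcY le_rfl (by positivity) (by
      have e1 : X ^ (3 * c) * X ^ (-(3 * c)) = 1 := by
        rw [hadd, add_neg_cancel, Real.rpow_zero]
      calc X ^ (3 * c) * (cP * (X ^ K * Real.exp n) * X ^ (-(3 * c)))
          = (X ^ (3 * c) * X ^ (-(3 * c))) * (cP * (X ^ K * Real.exp n)) := by ring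
        _ = cP * (X ^ K * Real.exp n) := by rw [e1, one_mul]
        _ ≤ _ := le_rfl)
  have h2X : 2 ≤ X ^ c := by
    have h1 : (2 : ℝ) ≤ Real.exp (20 * e₀) := by
      have := Real.add_one_le_exp (20 * e₀)
      linarith
    linarith
  have hX2p : 0 < X' * Real.exp (η / 2) := by positivity
  have hkw1 : (1 : ℝ) ≤ nm (kw a) := one_le_nm (kw_ne a)
  have hprn := PrD502.prl3 (Nw := N) (M := M) (R := R + 2) (K := K) (c := c) (d₀ := d₀) (y := 20)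
    (X := X) (n := n) (Lv := Lv) (N₁ := N₁) (X' := X' * Real.exp (η / 2)) (nM := nm (kw a))
    (H := Real.exp (7 * (c * Real.log X))) (T := 1) (E0 := X ^ c) (Θ := X ^ (2 * c)) hM
    (by linarith) hc.le (by linarith) hd₀ hX hX2p hlX2 hN₁ hNL hv3 hn2 hi hkw1
    (Real.one_le_exp (by positivity)) zero_le_one (by positivity) (by positivity)
    (by
      have e1 : Real.exp (7 * (c * Real.log X)) ^ ((1 : ℝ) / 3) = X ^ (7 * c / 3) := by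
        rw [hXr, ← Real.exp_mul]; congr 1; ring
      rw [e1, mul_one]
      have h1 : 1 + X ^ c * X ^ (7 * c / 3) ≤ (X ^ c * X ^ c) * X ^ (7 * c / 3) :=
        two_sq' h2X (Real.one_le_rpow hX1 (by positivity))
      calc X ^ (2 * c) * (1 + X ^ c * X ^ (7 * c / 3))
          ≤ X ^ (2 * c) * ((X ^ c * X ^ c) * X ^ (7 * c / 3)) := by gcongr
        _ = X ^ (2 * c + (c + c + 7 * c / 3)) := by rw [hadd, hadd, hadd]
        _ ≤ X ^ (20 * c) := hle (by linarith))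
    (by
      have e1 : Real.exp (7 * (c * Real.log X)) = X ^ (7 * c) := by
        rw [hXr]; congr 1; ring
      rw [e1, hadd]
      exact hle (by linarith))
  rw [← hW] at hprn
  obtain ⟨RP, hRP⟩ : ∃ z : ℝ, z = RPl (d₀ * Real.log X) (sc (X ^ K) M i) N₁
      (X' * Real.exp (η / 2)) (nm (kw a)) (Real.exp (7 * (c * Real.log X))) 1 (X ^ c) := ⟨_, rfl⟩
  rw [← hRP] at hprn key
  have hprn' : X ^ (2 * c) * RP ≤ cR * (X ^ K / Real.exp n) * W := by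
    refine hprn.trans ?_
    have h1 : (nm (kw a) : ℝ) ^ ((1 : ℝ) / 3) ≤ 3 := by
      calc (nm (kw a) : ℝ) ^ ((1 : ℝ) / 3) ≤ 9 ^ ((1 : ℝ) / 3) :=
            Real.rpow_le_rpow (by linarith) (nm_kw9 ha) (by norm_num)
        _ ≤ 9 ^ ((1 : ℝ) / 2) := Real.rpow_le_rpow_of_exponent_le (by norm_num) (by norm_num)
        _ = 3 := by
            rw [show (9 : ℝ) = 3 ^ (2 : ℝ) by norm_num, ← Real.rpow_mul (by norm_num)]
            norm_num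
    have h2 : 4 * (nm (kw a) : ℝ) ^ ((1 : ℝ) / 3) ≤ 12 := by linarith
    rw [hcR]
    gcongr
  have hRP0 : 0 ≤ RP := by
    rw [hRP]
    exact PrI176.RPl_nonneg hκ0.le (by linarith) hX2p.le (by linarith) (Real.exp_pos _).le
      zero_le_one (by positivity)
  have hqC := num_C (X := X) (c := c) (K := K) (ε := ε) (δ := δ) (ε₃ := ε / 100) (T := T) (n := n)
    (Bd := Bd) (Ht := Ht ps) (W := W) (cw := Cw) (η6 := (η⁻¹) ^ 6) (t6 := (1 + |t|) ^ 6)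
    (Cp := Cp) (cR := cR) (Nl := Nl) hX hε hδ hδε le_rfl hT6 hBd (by linarith) hW1 hRP0
    hcR0 hprn'
  have hqD := num_D (X := X) (c := c) (K := K) (ε := ε) (T := T) (n := n) (Bd := Bd)
    (Hq := Ht ps ^ 6) (W := W) hX hε hc hK hn0 hT1 hBd hHq hW1
  rw [← hT] at key ⊢
  rw [← hW]
  obtain ⟨Q, hQ⟩ : ∃ Q : ℝ, Q = T * Ht ps ^ 6 * (X ^ K * Real.exp n) *
    (W + X ^ (9 * c) * Bd) := ⟨_, rfl⟩
  rw [← hQ] at hqA hqB hqC hqD ⊢
  have hX2 : 0 ≤ X ^ (2 * c) := by positivity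
  have hXX : X ^ (ε / 2) * X ^ (ε / 2) = X ^ ε := by rw [hadd]; congr 1; ring
  refine (mul_le_mul_of_nonneg_left key hX2).trans ?_
  exact sum4 (by positivity) hqA hqB hqC hqD hXX hcc

end Crest.Agent.R017.RLX241
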