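import Crest.Agent.R017.RLXg_401
import Crest.Agent.R017.RLX2_241

/-!
# Row 17, T.7, the number (Rl) of the exceptional class (helper401): the leaf

* `rlkXs` : helper241's `rlk_xs` in the form `RlkXs`
* `leafE_rl` : the field `rl` of helper381's `LeafE`
-/

set_option autoImplicit false
set_option linter.unusedVariables false

noncomputable section

open Complex
open scoped ComplexConjugate

namespace Crest.Agent.R017.RLXg401

open Crest.Agent.R012 Crest.Agent.R012.Eis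
open Crest.Agent.R017.B770
open Crest.Agent.R017.Prov71
open Crest.Agent.R017.FE47 (cx PU)
open Crest.Agent.R017.WDec180 (WD sc sc_pos)
open Crest.Agent.R017.RG64
open Crest.Agent.R017.RLD381 (BeAll NRl)
open Crest.Agent.R017.RGB545 (LE rdE)
open Crest.Agent.R017.Red848
open Crest.Agent.R017.RXk848 (RLeafX)

/-- helper241's theorem -/
theorem rlkXs {h : ℝ → ℝ} {c₁ : ℝ} (hpu : PU h c₁) {w : ℝ → ℝ} {N : ℕ} {M : ℝ}
    {F : ℕ → ℝ → ℂ} (hWD : WD w N M F) : RlkXs h N M F := by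
  intro PP hP hnp Nl K c d₀ c₀ μ ε hc hK hd₀ hc₀ hμ hε hεc Jn Aw hJn hAw Cw R η hCw hR hη hη1
  obtain ⟨Cr, e₀, C, G, h1, h2, -, h3, h4, -, H⟩ :=
    RLX241.rlk_xs hpu hWD hP hnp Nl hc hK hd₀ hc₀ hμ hε hεc Jn Aw hJn hAw hCw hR hη hη1
  exact ⟨Cr, e₀, C, G, h1, h2, h3, h4, H⟩

/-- **the field `rl` of helper381's `LeafE`** (with `RngX` written out) -/
theorem leafE_rl {Lam : Type*} {π : Lam → DPar} (hP : ∀ lam, (π lam).OK)
    (hE : ∀ lam, Exc (π lam)) {h : ℝ → ℝ} {c₁ : ℝ} (hpu : PU h c₁) :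
    ∀ (w : ℝ → ℝ), MC.Wgt w → (∀ x, 0 ≤ w x) → ∀ (N : ℕ) (M : ℝ) (F : ℕ → ℝ → ℂ), WD w N M F →
    ∀ c μ K d₀ : ℝ, 0 < c → 1000 * c ≤ μ → μ ≤ 1 → 0 < K → 2000 * c ≤ K → 0 ≤ d₀ → d₀ ≤ K →
      RLeafX (rdE π) h (BeAll (NRl N M F)) (LE (rdE π) h c μ) K c (8 * (K + 1)) d₀ 20 :=
  leafE_rl_of hP hE fun _ _ _ _ hWD => rlkXs hpu hWD

end Crest.Agent.R017.RLXg401
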