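import Crest.Agent.R017.RX7d_298
import Crest.Agent.R017.RGE2_545
import Crest.Agent.R017.ExRed2_848

/-!
# Row 17, T.7 L11 (exceptional class): the terminal bound for the reduced data (helper298)

* `npm_red_one` : the reduced Möbius character at `1` is principal
* `bessxE` : the hypothesis `hB` of helper545's `expRGFP_of`
-/

set_option autoImplicit false

noncomputable section

open Complex
open scoped ComplexConjugate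

namespace Crest.Agent.R017.RX298

open Crest.Agent.R012 Crest.Agent.R012.Eis Crest.Agent.R012.LS2 Crest.Agent.R012.Gauss880
open Crest.Agent.R012.MC (Wgt)
open Crest.Agent.R012.T411 (NCube)
open Crest.Agent.R017.CM106 Crest.Agent.R017.HP842 Crest.Agent.R017.FE47
open Crest.Agent.R017.B770
open Crest.Agent.R017.Prov71
open Crest.Agent.R017.Leg381
open Crest.Agent.R017.E1551 (cP)
open Crest.Agent.R017.RG64
open Crest.Agent.R017.PX764 (Dk)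
open Crest.Agent.R017.Sup271 (NPm)
open Crest.Agent.R017.XS0298 (S0K)
open Crest.Agent.R017.XPD571 (RX)
open Crest.Agent.R017.Red848
open Crest.Agent.R017.RGB545
open Crest.Agent.R017.RGw813 (T9)
open Crest.Agent.R017.RXk848 (RLeafXL)

lemma npm_red_one {P : DPar} (hn : P.n ≠ 0) : ¬ NPm (red P).n (red P).ψ (red P).l₂ 1 := by
  rw [NPm_red_iff hn one_ne_zero]
  exact fun h => h.2 1 (one_pow 3).symm

variable {Lam : Type*} {π : Lam → DPar} {h : ℝ → ℝ} {c₂ : ℝ}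

/-- **the terminal bound, class E**: hypothesis `hB` of `expRGFP_of` -/
theorem bessxE (hP : ∀ lam, (π lam).OK) (hE : ∀ lam, Exc (π lam)) (hpu : PU h c₂)
    {ω : ℝ → ℝ} (hω : Wgt ω) (hw0 : ∀ x, 0 ≤ ω x) (hcP : 0 < cP ω)
    {Qf : LBp → ℕ × ℕ → Eis → Prop} {Rh RR : ℝ → LBp → (Eis → ℂ) → ℝ → Prop} {hA : ℝ}
    (hA0 : 0 ≤ hA) (hA1 : hA ≤ 100) (hLB : ∀ Λ : ℝ, 1 ≤ Λ → LBNX ω Λ Qf (Rh Λ))
    (hQ : ∀ q : LBp, 1 < q.E0 → q.E0 ^ 60 ≤ q.K → ∀ b ∈ T9, ∀ k, IsPrim k → Qf q b k →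
      NCube (k * (w ^ b.1 * lam ^ b.2) ^ 2))
    (hRR : ∀ Λ : ℝ, 1 ≤ Λ → ∀ (p : LBp) (α : Eis → ℂ) (Es Rn Rn' : ℝ), 0 < p.K → 0 < p.X →
      1 ≤ p.E0 → 0 ≤ Es → S2X ω Qf hA p α Es → 0 ≤ Rn → RR Λ p α Rn → Rn + Es ≤ Rn' →
      Rh Λ p α Rn')
    {y : ℝ} (hy1 : 1 ≤ y) (hy : y ≤ 30)
    (hleaf : ∀ c μ K d₀ : ℝ, 0 < c → 1000 * c ≤ μ → μ ≤ 1 → 0 < K → 2000 * c ≤ K → 0 ≤ d₀ →
      d₀ ≤ K → RLeafXL (rdE π) h RR (LE (rdE π) h c μ) K c (8 * (K + 1)) d₀ y) :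
    ∀ c μ K d₀ : ℝ, 0 < c → 1000 * c ≤ μ → μ ≤ 1 → 0 < K → 2000 * c ≤ K → 0 ≤ d₀ → d₀ ≤ K →
      ∃ ε₀ : ℝ, 0 < ε₀ ∧ BessFinX (RX (fun _ => NCube) (rdE π) h)
        (fun lam => S0K Dk (rdE π lam) h) (LE (rdE π) h c μ) ε₀ K c d₀ := by
  intro c μ K d₀ h1 h2 h3 h4 h5 h6 h7
  exact ⟨min c 1 / 100, by have := lt_min h1 one_pos; positivity,
    bessx_fin (red_OK hP hE) (fun lm => npm_red_one (hP lm).ψ.q0) hpu hω hw0 hcP hA0 hA1 hLB hQ hRR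
      (fun _ _ _ => le_rfl) h1 h5 h6 hy1 hy (hleaf c μ K d₀ h1 h2 h3 h4 h5 h6 h7)⟩

end Crest.Agent.R017.RX298
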