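import Crest.Agent.R017.RoZ_116
import Crest.Agent.R017.RX7e_298

/-!
# Row 17, T.7, (Ro), exceptional class (helper116): the field `LeafE.ro` of helper381
-/

set_option autoImplicit false

noncomputable section

namespace Crest.Agent.R017.RoX116

open Crest.Agent.R012 Crest.Agent.R012.Eis
open Crest.Agent.R012.MC (Wgt)
open Crest.Agent.R017.FE47 (PU)
open Crest.Agent.R017.B770
open Crest.Agent.R017.RGB545 (LE rdE red_OK)
open Crest.Agent.R017.RXk848 (RLeafXL)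
open Crest.Agent.R017.RLD381 (NRo BeAll)

/-- **the field `LeafE.ro`** -/
theorem leafE_ro {Lam : Type*} {π : Lam → DPar} {h : ℝ → ℝ} {c₁ : ℝ} (hpu : PU h c₁)
    (hP : ∀ lam, (π lam).OK) (hE : ∀ lam, Red848.Exc (π lam)) (w : ℝ → ℝ) (hw : Wgt w)
    (hw0 : ∀ x, 0 ≤ w x) (c μ K d₀ : ℝ) (hc : 0 < c) (hμ : 1000 * c ≤ μ) (hμ1 : μ ≤ 1)
    (_ : 0 < K) (hK : 2000 * c ≤ K) (hd₀ : 0 ≤ d₀) (_ : d₀ ≤ K) :
    RLeafXL (rdE π) h (fun Λ => BeAll (NRo w Λ)) (LE (rdE π) h c μ) K c (8 * (K + 1)) d₀ 20 :=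
  ro_leafX hpu (red_OK hP hE) (fun lm => RX298.npm_red_one (hP lm).ψ.q0) hw hw0 hc hμ hμ1 hK
    le_rfl hd₀ le_rfl

end Crest.Agent.R017.RoX116
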