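import Crest.Agent.R017.RgE_986
import Crest.Agent.R017.RCXi_385
import Crest.Agent.R017.RLXh_401
import Crest.Agent.R017.RoW_116
import Crest.Agent.R017.XPr_829

/-!
# Row 17, T.7: the field `rgE` is proved (helper986)

* `leafE_of` : the leaves of the R-side of class E (helper385, helper401, helper116)
* `leavesE_of` : with the pair rules (helper829, helper590, helper320, helper739)
* `rgE_all` : the field `rgE` of `Open6`
-/

set_option autoImplicit false

noncomputable section

open Complex Filter Topology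

namespace Crest.Agent.R017.Rg986

open Crest.Agent.R012 Crest.Agent.R012.Eis
open Crest.Agent.R017.FE47 Crest.Agent.R017.End699
open Crest.Agent.R017.B770
open Crest.Agent.R017.Prov71 Crest.Agent.R017.ER911
open Crest.Agent.R017.Fin4 Crest.Agent.R017.Fin5 Crest.Agent.R017.Fin6
open Crest.Agent.R017.XEx298 (Rt)
open Crest.Agent.R017.XS0298 (S0x)
open Crest.Agent.R017.Red848 (red)
open Crest.Agent.R017.XC858 (SKq)
open Crest.Agent.R017.PX764 (Dk)

/-- class E is closed under conjugation -/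
theorem clo_πE : PM320.Clo πE := RGB545.clo_ncl

/-- **the leaves of the R-side**, class E -/
theorem leafE_of {Λ : Type*} {π : Λ → DPar} (hP : ∀ lam, (π lam).OK)
    (hE : ∀ lam, Red848.Exc (π lam)) {h : ℝ → ℝ} {c₀ : ℝ} (hpu : PU h c₀) :
    RGC381.LeafE π h where
  rc := RCX385.leafE_rc hP hE hpu
  rl := RLXg401.leafE_rl hP hE hpu
  ro := fun w hw hw0 => RoX116.leafE_ro hpu hP hE w hw hw0

theorem leavesE_of {h : ℝ → ℝ} {c₀ : ℝ} (hpu : PU h c₀) : LeavesE h where
  pair := XPr829.pairRules_px hpu (fun lam => lam.2.1) (fun lam => XT6241.exc_piE lam) clo_πE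
  leaf := leafE_of (fun lam => lam.2.1) (fun lam => XT6241.exc_piE lam) hpu

/-- **T.7 is proved** -/
theorem rgE_all {θ : ℝ} (hθ : 7 / 8 ≤ θ) (hθ1 : θ ≤ 1) (hPF : PF Set.univ θ) {h : ℝ → ℝ}
    {c₀ : ℝ} (hpu : PU h c₀) :
    RGE θ (ex Dq (fun lam => Rt (red (πE lam)) h)) (ex Dq (fun lam => SKq Dk (red (πE lam)) h))
      (ex Dq (fun lam => S0x (red (πE lam)) h)) :=
  rgE_of hθ hθ1 hPF hpu (leavesE_of hpu)

end Crest.Agent.R017.Rg986
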