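import Crest.Agent.R017.Fin7_986
import Crest.Agent.R017.RgF_986
import Crest.Agent.R017.RgG_986

/-!
# Row 17: the top with the leaves of T.3 and T.4 as hypotheses (helper986)

`Open8 d h` (at `θ = 7/8 + d < 1`, partition `h`) and the trees of T.2 ⟹ S0022, S0023.
-/

set_option autoImplicit false

noncomputable section

open Complex Filter Topology

namespace Crest.Agent.R017.Fin8

open Crest.Agent.R012 Crest.Agent.R012.Eis
open Crest.Agent.R017.FE47 Crest.Agent.R017.End699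
open Crest.Agent.R017.B770 Crest.Agent.R017.BxH986
open Crest.Agent.R017.Fin4 Crest.Agent.R017.Fin5 Crest.Agent.R017.Fin6

/-- **the remaining leaves of row 17** at `θ = 7/8 + d` -/
structure Open8 (d : ℝ) (h : ℝ → ℝ) : Prop where
  /-- T.3 -/
  sgnN : d ≤ 1 / 42 → BunA d h → RecA d h → CovA d → ∀ r : ℝ, 0 ≤ r →
    (∀ u : ℝ, cx h u ≠ 0 → |u| ≤ r) → Sg986.LeafN d h r
  /-- T.4 -/
  sgnE : d ≤ 1 / 42 → BunE d h → RecE d h → BunA d h → RecA d h → CovA d → ∀ r : ℝ, 0 ≤ r →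
    (∀ u : ℝ, cx h u ≠ 0 → |u| ≤ r) → Sg986.LeafE d h r

/-- **the open leaves of row 17** -/
def Open : Prop := ∀ (h : ℝ → ℝ) (c₀ : ℝ), PU h c₀ → Neg h → ∀ d : ℝ, 0 < d → d < 1 / 8 →
  PF Set.univ (7 / 8 + d) → Open8 d h

theorem open_of (H : Open) : Fin7.Open := fun h c₀ hpu hneg d hd hd1 hPF =>
  { rgN := Rg986.leavesN_of hpu
    rgE := Rg986.leavesE_of hpu
    sgnN := (H h c₀ hpu hneg d hd hd1 hPF).sgnN
    sgnE := (H h c₀ hpu hneg d hd hd1 hPF).sgnE }

/-- **S0022** from the open leaves -/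
theorem s22_of_open8 (T : Trees) (H : Open) : S22 := Fin7.s22_of_open7 T (open_of H)

/-- **S0023** from the open leaves -/
theorem s23_of_open8 (T : Trees) (H : Open) : S23 := Fin7.s23_of_open7 T (open_of H)

end Crest.Agent.R017.Fin8
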