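import Crest.Agent.R017.SgE_986
import Crest.Agent.R017.NrY_986
import Crest.Agent.R017.TSg_968
import Crest.Agent.R017.TUF_47

/-!
# Row 17, T.4: `LeafE` from its open inputs (helper986)

* `InE d h r` : the open inputs of T.4 at the family `πE`
* `leafE_of` : `Sg986.LeafE d h r`
-/

set_option autoImplicit false

noncomputable section

open Complex Filter Topology

namespace Crest.Agent.R017.LfE986

open Crest.Agent.R012 Crest.Agent.R012.Eis
open Crest.Agent.R017.FE47 Crest.Agent.R017.End699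
open Crest.Agent.R017.B770 Crest.Agent.R017.BxH986
open Crest.Agent.R017.Prov71 Crest.Agent.R017.ER911
open Crest.Agent.R017.E5B71 Crest.Agent.R017.ExP960
open Crest.Agent.R017.E5L770
open Crest.Agent.R017.SC777
open Crest.Agent.R017.Fin4 Crest.Agent.R017.Fin5 Crest.Agent.R017.Fin6
open Crest.Agent.R017.P1l54 Crest.Agent.R017.P1t54
open Crest.Agent.R017.P1X960
open Crest.Agent.R017.E5LX770
open Crest.Agent.R017.Red848 (red)
open Crest.Agent.R017.PX764 (Dk)
open Crest.Agent.R017.XS0298 (S0x S0K)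
open Crest.Agent.R017.Sg986 (AA AA_lt AA_eq AA_ge)
open Crest.Agent.R017.NrX986 (NearAllX)

/-- **the open inputs of T.4** -/
structure InE (d : ℝ) (h : ℝ → ℝ) (r : ℝ) : Prop where
  /-- the field of near-equal lists -/
  near : NearAllX d (ex Dq (fun lam => S0x (red (πE lam)) h))
  /-- P1, exact square on the natural triples: differences -/
  p10x : P10X πE h (1 / 64) (d / 4) βX (ParS (AA d) d) (LS0 d)
  /-- single lists -/
  p10s : P10S πE h (1 / 64) (d / 4) βX (ParS (AA d) d) (LS0 d)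
  /-- P1, mismatch: differences -/
  p1mx : P1MX πE h (1 / 64) (d / 4) βX (ParS (AA d) d) (LS0 d)
  /-- single lists -/
  p1ms : P1MS πE h (1 / 64) (d / 4) βX (ParS (AA d) d) (LS0 d)
  /-- the structured part -/
  str : ∃ μ : ℝ, 0 < μ ∧ StrUX πE h (7 / 8 + d) (SfEO πE h (1 / 64) r (d / 4)) (AA d) d βX μ
  /-- the tail: the three-lump side at `7/10 κ ≤ k ≤ 17/20 κ` -/
  spin : ∃ μ₁ : ℝ, 0 < μ₁ ∧ TU47.SPInX πE (TU47.SxE πE h (1 / 64) r (bfE (d / 4))
    (fun l N z => Sf770.JS (nL l N z))) (AA d) d βX μ₁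

lemma bfE_le {c : ℝ} (i : ℕ) (l N z : ℝ) : bfE c i l N z ≤ bfO l N z := min_le_left _ _

lemma bfE_le2 (d : ℝ) (i : ℕ) (l N z : ℝ) :
    2 * bfE (d / 4) i l N z ≤ topL l N z - Real.log 2 * i + d / 2 * l := by
  have h : bfE (d / 4) i l N z ≤ (topL l N z - Real.log 2 * i) / 2 + d / 4 * l := min_le_right _ _
  linarith

/-- **`LeafE` from the open inputs** -/
theorem leafE_of {d : ℝ} (hd : 0 < d) (hd1 : d ≤ 1 / 42) {h : ℝ → ℝ} {c₀ : ℝ} (hpu : PU h c₀)
    (P : BunE d h) (G : RecE d h) {r : ℝ} (H : InE d h r) : Sg986.LeafE d h r := by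
  have hA := AA_ge hd1
  have hAlt := AA_lt hd
  have hA1 := AA_eq d
  have hP : ∀ lam, (πE lam).OK := fun lam => lam.2.1
  have hown := NrX986.ownX_of_near P.rules G hd.le (by linarith) H.near
  have hownF := TSf968.ownF_of P.rules G hd.le (by linarith)
  have hJ : ∀ l N z, C70.OKJ (Sf770.JS (nL l N z)) := fun l N z => Sf770.okJ_JS (nL l N z)
  refine ⟨H.p10x, H.p10s, H.p1mx, H.p1ms, H.str, ?_⟩
  exact TU47.tailUX_fin hpu hP P hd hd1 (by linarith) hAlt hA1 (1 / 64) r (bfE (d / 4)) hJ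
    (TSf968.sIn2X hpu hP (fun lam => XT6241.exc_piE lam) rfl hd.le (by linarith) hA1 hown hownF
      (by norm_num) le_rfl r (fun i l N z => bfE_le i l N z) (fun i l N z => bfE_le2 d i l N z) hJ)
    (TSf968.sIn4X hpu hP (fun lam => XT6241.exc_piE lam) rfl hd.le (by linarith) hA1 hown hownF
      (by norm_num) le_rfl r (fun i l N z => bfE_le i l N z) (fun i l N z => bfE_le2 d i l N z) hJ)
    H.spin

end Crest.Agent.R017.LfE986
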