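import Crest.Agent.R017.SgN_986
import Crest.Agent.R017.NrA_986
import Crest.Agent.R017.TUF_47

/-!
# Row 17, T.3: `LeafN` from its open inputs (helper986)

* `InN d h r` : the open inputs of T.3 at the family `πN`
* `leafN_of` : `Sg986.LeafN d h r`
-/

set_option autoImplicit false

noncomputable section

open Complex Filter Topology

namespace Crest.Agent.R017.Lf986

open Crest.Agent.R012 Crest.Agent.R012.Eis
open Crest.Agent.R017.FE47 Crest.Agent.R017.End699
open Crest.Agent.R017.B770 Crest.Agent.R017.BxH986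
open Crest.Agent.R017.Prov71 Crest.Agent.R017.ER911
open Crest.Agent.R017.E5B71 Crest.Agent.R017.ExP960
open Crest.Agent.R017.E5L770
open Crest.Agent.R017.SC777
open Crest.Agent.R017.Fin4 Crest.Agent.R017.Fin5 Crest.Agent.R017.Fin6
open Crest.Agent.R017.P1l54 Crest.Agent.R017.P1t54
open Crest.Agent.R017.P10146 (EtU RpU E3U)
open Crest.Agent.R017.Sg986 (AA AA_lt AA_eq AA_ge)
open Crest.Agent.R017.NrA986 (NearAll)

/-- **the open inputs of T.3** -/
structure InN (d : ℝ) (h : ℝ → ℝ) (r : ℝ) : Prop where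
  /-- the field of near-equal lists -/
  near : NearAll d (ex Dq (fun lam => S0p (πN lam) h))
  /-- P1, exact square: the three inputs of helper146's `P10_of` -/
  et : EtU πN h (1 / 64) (ParS (AA d) d) (LS0 d)
  rp : RpU πN h (1 / 64) (ParS (AA d) d) (LS0 d)
  e3 : E3U πN h (1 / 64) r (ParS (AA d) d) (LS0 d)
  /-- P1, mismatch -/
  p1m : P1M πN h (1 / 64) (ParS (AA d) d) (LS0 d)
  /-- the tail: the three-lump side at `7/10 κ ≤ k ≤ 17/20 κ` -/
  spin : ∃ μ₁ : ℝ, 0 < μ₁ ∧ TU47.SPIn' πN (SfV πN h (1 / 64) r bfO Jo) (AA d) d μ₁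
  /-- the structured part -/
  str : ∃ μ : ℝ, 0 < μ ∧ StrU πN h (7 / 8 + d) (SfP πN h (1 / 64) r bfO Jo nL) (AA d) d μ

/-- **`LeafN` from the open inputs** -/
theorem leafN_of {d : ℝ} (hd : 0 < d) (hd1 : d ≤ 1 / 42) {h : ℝ → ℝ} {c₀ : ℝ} (hpu : PU h c₀)
    (hB : BunA d h) (hR : RecA d h) {r : ℝ} (hr0 : 0 ≤ r) (hr : ∀ u : ℝ, cx h u ≠ 0 → |u| ≤ r)
    (H : InN d h r) : Sg986.LeafN d h r := by
  have P : BunN d h := hB _ πN πN_ok πN_cl
  have G := hR _ πN πN_ok πN_cl clo_πN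
  have hA := AA_ge hd1
  have hAlt := AA_lt hd
  have hA1 := AA_eq d
  have hown := NrA986.own_of_near P.rules G hd.le (by linarith) H.near
  have hJ : ∀ l N z, C70.OKJ (Jo l N z) := fun l N z => Sf770.okJ_JS (nL l N z)
  refine ⟨?_, H.p1m, H.str, ?_⟩
  · exact P10146.P10_of hpu πN_ok P.rules hd.le (by linarith) hr0 hr le_rfl (by norm_num)
      (by linarith) hA1 (NrA986.fe2L_of P.rules G hd.le (by linarith) H.near) H.et H.rp H.e3
  · exact TU47.tailU_fin hpu πN_ok (fun lam k hk => πN_cl lam k hk) P hd hd1 (by linarith) hAlt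
      hA1 (1 / 64) r bfO Jo
      (TSc968.sIn2 hpu πN_ok hd.le (by linarith) hA1 hown (by norm_num) le_rfl r
        (fun _ _ _ => le_rfl) hJ)
      (TSc968.sIn4 hpu πN_ok hd.le (by linarith) hA1 hown (by norm_num) le_rfl r
        (fun _ _ _ => le_rfl) hJ)
      (TSc968.sInA hpu πN_ok hd.le (by linarith) hA1 hown (by norm_num) le_rfl r
        (fun _ _ _ => le_rfl) hJ) H.spin

end Crest.Agent.R017.Lf986
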