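import Crest.Agent.R017.XHg_512

/-!
# Row 17, C70/E4 (version 7): helper699's `XNumU` (helper512)

* **`xnumU_ofC`** : `XNumU` from `XNumC ClX`
* **`xnumU_of3`** : `XNumU` from `TNumU` and the two structured closers
* **`xnumU_of`** : `XNumU` from `VNU` and the two structured closers
-/

set_option autoImplicit false

noncomputable section

open Complex Finset
open scoped ComplexConjugate

namespace Crest.Agent.R017.XHn512

open Crest.Agent.R012 Crest.Agent.R012.Eis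
open Crest.Agent.R017.FE47 (PU SM)
open Crest.Agent.R017.C70 (OKJ)
open Crest.Agent.R017.B770
open Crest.Agent.R017.StrD699 (XNumU)

variable {Λ : Type*} {π : Λ → DPar} {h : ℝ → ℝ} {c₀ : ℝ} {A d e0 r : ℝ} {Bf : ℝ → ℝ → ℝ → ℝ}
  {Jf : ℝ → ℝ → ℝ → Finset (Eis × Eis)}

/-- **helper699's `XNumU` from `XNumC`** -/
theorem xnumU_ofC (H : XNumC π h Hg918.ClX A d e0 r Bf Jf) : XNumU π h A d e0 r Bf Jf := H

/-- **`XNumU` from the `T`-numbers and the two structured closers** -/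
theorem xnumU_of3 (hh : PU h c₀) (hP : ∀ lam, (π lam).OK) (hA : 2 / 3 ≤ A)
    (hJf : ∀ l N z, OKJ (Jf l N z)) (HT : TNumU π h A d e0 r Bf Jf)
    (H₂ : XNumC π h LTc A d e0 r Bf Jf) (H₃ : XNumC π h PVc A d e0 r Bf Jf) :
    XNumU π h A d e0 r Bf Jf :=
  xnumU_ofC (xnumC_ClX (xnumH_of hh hP hA hJf HT) H₂ H₃)

/-- **`XNumU` from `VNU` and the two structured closers** -/
theorem xnumU_of (hh : PU h c₀) (hP : ∀ lam, (π lam).OK) (hd : 0 ≤ d) (hd1 : d ≤ 1 / 8)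
    (hA0 : 2 / 3 ≤ A) (hA : A ≤ 1) (hA1 : 16 * (1 - A) ≤ d)
    (hJf : ∀ l N z, OKJ (Jf l N z)) (hV : VNU π h d)
    (H₂ : XNumC π h LTc A d e0 r Bf Jf) (H₃ : XNumC π h PVc A d e0 r Bf Jf) :
    XNumU π h A d e0 r Bf Jf :=
  xnumU_of3 hh hP hA0 hJf (tnumU_of hh hV hd hd1 hA0 hA hA1 e0 r Bf hJf) H₂ H₃

end Crest.Agent.R017.XHn512
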