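import Crest.Agent.R017.StrY_699
import Crest.Agent.R017.XHi_512
import Crest.Agent.R017.E4Sg_352
import Crest.Agent.R017.E4Ux_512
import Crest.Agent.R017.E5H_319

/-!
# Row 17, T.3, class N: the input `HX` of helper436's `strU_N` (helper699)

* **`hx_of`** : `XRU` at all `(eT e0 t, bT t)` from `E4D`, `E4F`, `VNU`, `XNumC LTc`, `XNumC PVc`
-/

set_option autoImplicit false
set_option linter.unusedVariables false

noncomputable section

namespace Crest.Agent.R017.StrF699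

open Crest.Agent.R012 Crest.Agent.R012.Eis
open Crest.Agent.R017.FE47 (PU cx SM)
open Crest.Agent.R017.B770
open Crest.Agent.R017.Prov71
open Crest.Agent.R017.C70 (OKJ)
open Crest.Agent.R017.E5B71
open Crest.Agent.R017.E5L770
open Crest.Agent.R017.E4U164
open Crest.Agent.R017.E5H319 (eT bT)
open Crest.Agent.R017.Gl918 (E4D E4F)
open Crest.Agent.R017.StrU699 (XRU)
open Crest.Agent.R017.StrD699 (TermU XNumU)
open Crest.Agent.R017.StrY699 (xru_of)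
open Crest.Agent.R017.E4St352 (termU_of)
open Crest.Agent.R017.XHn512 (VNU XNumC LTc PVc xnumU_of)

variable {Λ : Type*} {π : Λ → DPar} {h : ℝ → ℝ} {c₀ : ℝ}

/-- the inputs of the structured closers at all the parameters of the bands -/
def AtB (π : Λ → DPar) (h : ℝ → ℝ)
    (Cl : ℝ → Crest.Agent.R017.E4R70.Cls → ℝ → ℝ → ℝ → ℝ → ℝ → Prop) (A d r0 : ℝ)
    (Jo : ℝ → ℝ → ℝ → Finset (Eis × Eis)) : Prop :=
  ∀ (e0 : ℝ) (Bf : ℝ → ℝ → ℝ → ℝ), 0 ≤ e0 → 64 * e0 ≤ 1 → (∀ l N z, Bf l N z ≤ bfO l N z) →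
    XNumC π h Cl A d e0 r0 Bf Jo

/-- **the input `HX` of `strU_N`** -/
theorem hx_of (hpu : PU h c₀) (hP : ∀ lam, (π lam).OK) (HD : E4D) (HF : E4F)
    {A d μ r0 K : ℝ} {Jo : ℝ → ℝ → ℝ → Finset (Eis × Eis)} (hJo : ∀ l N z, OKJ (Jo l N z))
    (hd : 0 ≤ d) (hd1 : d ≤ 1 / 8) (hA : 2 / 3 ≤ A) (hA1 : A ≤ 1) (hAd : 16 * (1 - A) ≤ d)
    (hμ : μ ≤ d / 32) (hK : 1 ≤ K) (hV : VNU π h d)
    (H₂ : AtB π h LTc A d r0 Jo) (H₃ : AtB π h PVc A d r0 Jo)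
    {e0 : ℝ} (he0 : 0 ≤ e0) (he1 : e0 ≤ 1 / 64) :
    ∀ t : ℝ, 0 < t → t ≤ 1 → XRU π h (7 / 8 + d) A d μ (eT e0 t) r0 K (bT t) Jo := by
  intro t ht ht1
  have h0 : 0 ≤ eT e0 t := le_min he0 (by linarith)
  have h1 : 64 * eT e0 t ≤ 1 := by
    have := min_le_left e0 (t / 4)
    unfold eT
    linarith
  have hB : ∀ l N z, bT t l N z ≤ bfO l N z := fun l N z => min_le_left _ _
  exact xru_of hpu hP hd hd1 hA hA1 hAd hK hJo
    (termU_of hP HD HF hd hd1 hA1 hAd (by linarith) h1 hB hJo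
      (Crest.Agent.R017.E4Us512.szU hpu hP d hA _ _ _ hJo))
    (xnumU_of hpu hP hd hd1 hA hA1 hAd hJo hV (H₂ _ _ h0 h1 hB) (H₃ _ _ h0 h1 hB))

end Crest.Agent.R017.StrF699
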