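import Crest.Agent.R017.E5H_319
import Crest.Agent.R017.Sf_770
import Crest.Agent.R017.TUF_47
import Crest.Agent.R017.TSe_968

/-!
# Row 17, T.3 : the tails of the bands (helper858)

* `SPs` : the moments `SPIn'` at every cut
* `tailL_of`, `tails_of` : `TailL` at every cut, from helper47's `tailS_fin` and helper968's
  `sIn2`, `sIn4`, `sInA`
-/

set_option autoImplicit false

noncomputable section

namespace Crest.Agent.R017.StrT858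

open Crest.Agent.R012 Crest.Agent.R012.Eis
open Crest.Agent.R017.FE47 (PU cx)
open Crest.Agent.R017.Sup271 (NPm)
open Crest.Agent.R017.B770 Crest.Agent.R017.Prov71
open Crest.Agent.R017.ER911 Crest.Agent.R017.ExpC702 Crest.Agent.R017.SC777
open Crest.Agent.R017.E5B71 Crest.Agent.R017.E5L770 Crest.Agent.R017.E5P571
open Crest.Agent.R017.E5H319
open Crest.Agent.R017.TU47 Crest.Agent.R017.TSc968
open Crest.Agent.R017.Sf770 (JS okJ_JS)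

variable {Λ : Type*} {π : Λ → DPar} {h : ℝ → ℝ} {c₀ d A r : ℝ} {re s s₀ bc : EF}

/-- the moments of the tail at every cut -/
def SPs (π : Λ → DPar) (h : ℝ → ℝ) (A d r μ : ℝ) : Prop :=
  ∀ e0 : ℝ, 0 ≤ e0 → e0 ≤ 1 / 64 → ∀ Bf : ℝ → ℝ → ℝ → ℝ, (∀ l N z, Bf l N z ≤ bfO l N z) →
    SPIn' π (fun i => SfV π h e0 r Bf (fun l N z => JS (nL l N z)) i) A d μ

/-- **`TailL` at every cut** -/
theorem tailL_of (hpu : PU h c₀) (hP : ∀ lam, (π lam).OK)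
    (hN : ∀ lam, ∀ k : Eis, k ≠ 0 → NPm (π lam).n (π lam).ψ (π lam).l₂ k)
    (P : ProvE (7 / 8 + d) re s s₀ (ex Dq (fun lam => Rc (π lam) h)) bc) (hd : 0 < d)
    (hd1 : d ≤ 1 / 42) (hA : 99 / 100 ≤ A) (hA1 : A < 1) (hA2 : 16 * (1 - A) ≤ d)
    (hown : Own (ex Dq fun lam => S0p (π lam) h) d) {μ : ℝ} (hμ : μ ≤ 1 / 1100)
    {e0 : ℝ} (he0 : 0 ≤ e0) (he1 : e0 ≤ 1 / 64) {Bf : ℝ → ℝ → ℝ → ℝ}
    (hBf : ∀ l N z, Bf l N z ≤ bfO l N z)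
    (hSP : SPIn' π (fun i => SfV π h e0 r Bf (fun l N z => JS (nL l N z)) i) A d μ) :
    TailL π h e0 r Bf (fun l N z => JS (nL l N z)) A d μ := fun R hR =>
  tailS_fin hpu hP hN P hd hd1 (by linarith) hA1 hA2
    (fun i => SfV π h e0 r Bf (fun l N z => JS (nL l N z)) i)
    (sIn2 hpu hP hd.le (by linarith) hA2 hown he0 he1 r hBf fun l N z => okJ_JS _)
    (sIn4 hpu hP hd.le (by linarith) hA2 hown he0 he1 r hBf fun l N z => okJ_JS _)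
    (sInA hpu hP hd.le (by linarith) hA2 hown he0 he1 r hBf fun l N z => okJ_JS _) hμ hSP R hR

/-- **`TailL` at all cuts** -/
theorem tails_of (hpu : PU h c₀) (hP : ∀ lam, (π lam).OK)
    (hN : ∀ lam, ∀ k : Eis, k ≠ 0 → NPm (π lam).n (π lam).ψ (π lam).l₂ k)
    (P : ProvE (7 / 8 + d) re s s₀ (ex Dq (fun lam => Rc (π lam) h)) bc) (hd : 0 < d)
    (hd1 : d ≤ 1 / 42) (hA : 99 / 100 ≤ A) (hA1 : A < 1) (hA2 : 16 * (1 - A) ≤ d)
    (hown : Own (ex Dq fun lam => S0p (π lam) h) d) {μ₁ : ℝ} (hμ₁ : 0 < μ₁)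
    (hSP : SPs π h A d r μ₁) : ∃ μ : ℝ, 0 < μ ∧ ∀ μ' : ℝ, μ' ≤ μ →
      ∀ e0 : ℝ, 0 ≤ e0 → e0 ≤ 1 / 64 → ∀ Bf : ℝ → ℝ → ℝ → ℝ, (∀ l N z, Bf l N z ≤ bfO l N z) →
        TailL π h e0 r Bf (fun l N z => JS (nL l N z)) A d μ' := by
  refine ⟨min μ₁ (1 / 1100), by positivity, fun μ' hμ' e0 h1 h2 Bf h3 => ?_⟩
  exact tailL_of hpu hP hN P hd hd1 hA hA1 hA2 hown (hμ'.trans (min_le_right _ _)) h1 h2 h3
    ((hSP e0 h1 h2 Bf h3).mono (hμ'.trans (min_le_left _ _)))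

end Crest.Agent.R017.StrT858
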