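import Crest.Agent.R017.TEMd_792

/-!
# Row 17, E4 : the T-energies of an arbitrary sequence from its cube-free moments (helper792)

* `VN X H M K α F` : all cube-free moments of the subsequences of `α` :
  `VF (exp k) (PM q (tws (sg α g) t)) ≤ H^M X^(F (k / log X) (log nm g / log X)) (1 + |t|)^(3M)`
* **`tsdV`** : `∑_{y ∈ J, δ ∣ y.1} nm y.1^a nm y.2^(-1/3) ‖om y‖² ‖TE α y e0‖²`
* **`ttV`**, **`tssV`** : the T-moments of a ball of frequencies, of a family of cells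
* `vn_alb` : `VN` for `alb` of natural pieces
-/

set_option autoImplicit false
set_option linter.unusedVariables false
set_option linter.unusedSectionVars false

noncomputable section

open Set

namespace Crest.Agent.R017.TEM792

open Crest.Agent.R012 Crest.Agent.R012.Eis
open Crest.Agent.R012.LS2 (S mem_S bl mem_bl)
open Crest.Agent.R017.FE47 (PU cx)
open Crest.Agent.R017.XG702 (Pcs)
open Crest.Agent.R017.Prov71
open Crest.Agent.R017.B770
open Crest.Agent.R017.HP842 (pc Pc)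
open Crest.Agent.R017.TM708
open Crest.Agent.R017.UBT973 (UBs)
open Crest.Agent.R017.E1551 (tws sg Adm)
open Crest.Agent.R017.Rough381 (VF)
open Crest.Agent.R017.TEL792 (PM DS mem_DS te_pairs_oneW te_ball)
open Crest.Agent.R017.E5k54 (alb)
open Crest.Agent.R017.E2440 (TE)
open Crest.Agent.R017.C70 (OKJ)
open Crest.Agent.R017.End699 (prin0)

/-- **all cube-free moments of the subsequences of `α`** -/
def VN (X H : ℝ) (M : ℕ) (K : ℝ) (α : Eis → ℂ) (F : ℝ → ℝ → ℝ) : Prop :=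
  ∀ g : Eis, IsPrim g → Squarefree g → (nm g : ℝ) ≤ X ^ K → ∀ q : Eis, q ≠ 0 → (nm q : ℝ) ≤ X ^ K →
    ∀ k : ℝ, 0 ≤ k → k ≤ K * Real.log X → ∀ t : ℝ,
    VF (Real.exp k) (PM q (tws (sg α g) t)) ≤
      H ^ M * X ^ F (k / Real.log X) (Real.log (nm g) / Real.log X) * (1 + |t|) ^ (3 * (M : ℝ))


/-- also for a step which is not squarefree -/
lemma VN.all {X H K Yw : ℝ} {M : ℕ} {α : Eis → ℂ} {F : ℝ → ℝ → ℝ} (hV : VN X H M K α F)
    (hX : 0 < X) (hH : 0 ≤ H) (hY : 0 ≤ Yw) (hα : ∀ n, α n ≠ 0 → n ∈ S Yw) {g : Eis}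
    (hg : IsPrim g)
    (hgK : (nm g : ℝ) ≤ X ^ K) {q : Eis} (hq : q ≠ 0) (hqK : (nm q : ℝ) ≤ X ^ K) {k : ℝ}
    (hk : 0 ≤ k) (hkK : k ≤ K * Real.log X) (t : ℝ) :
    VF (Real.exp k) (PM q (tws (sg α g) t)) ≤
      H ^ M * X ^ F (k / Real.log X) (Real.log (nm g) / Real.log X) *
        (1 + |t|) ^ (3 * (M : ℝ)) := by
  by_cases hgs : Squarefree g
  · exact hV g hg hgs hgK q hq hqK k hk hkK t
  · rw [TEL792.sg_sqf hY hα hgs]
    have e1 : VF (Real.exp k) (PM q (tws (fun _ => 0) t)) = 0 := by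
      unfold Rough381.VF TEL792.PM E1551.tws CM106.TG
      simp
    rw [e1]
    positivity

lemma VN.mono {X H K K' : ℝ} {M : ℕ} {α : Eis → ℂ} {F F' : ℝ → ℝ → ℝ} (hV : VN X H M K α F)
    (hX : 1 ≤ X) (hH : 0 ≤ H) (hK : K' ≤ K)
    (hF : ∀ v γ, 0 ≤ v → v ≤ K' → 0 ≤ γ → γ ≤ K' → F v γ ≤ F' v γ) : VN X H M K' α F' := by
  intro g hg hgs hgK q hq hqK k hk hkK t
  have hX0 : 0 < X := by linarith
  have hl : 0 ≤ Real.log X := Real.log_nonneg hX
  have up : X ^ K' ≤ X ^ K := Real.rpow_le_rpow_of_exponent_le hX hK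
  refine (hV g hg hgs (hgK.trans up) q hq (hqK.trans up) k hk
    (hkK.trans (by gcongr)) t).trans ?_
  rcases hl.eq_or_lt with h0 | h0
  · -- `X = 1`
    have hX1 : X = 1 := by
      rcases Real.log_eq_zero.1 h0.symm with h | h | h <;> linarith
    rw [hX1, Real.one_rpow, Real.one_rpow]
  · have h1 : F (k / Real.log X) (Real.log (nm g) / Real.log X) ≤
        F' (k / Real.log X) (Real.log (nm g) / Real.log X) := by
      have hgn := nm_pos_r hg.ne_zero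
      have hgn1 : (1 : ℝ) ≤ nm g := by exact_mod_cast nm_pos.2 hg.ne_zero
      refine hF _ _ (by positivity) ((div_le_iff₀ h0).2 hkK)
        (div_nonneg (Real.log_nonneg hgn1) h0.le) ((div_le_iff₀ h0).2 ?_)
      rw [← Real.log_rpow hX0]
      exact Real.log_le_log hgn hgK
    have h2 : X ^ F (k / Real.log X) (Real.log (nm g) / Real.log X) ≤
        X ^ F' (k / Real.log X) (Real.log (nm g) / Real.log X) :=
      Real.rpow_le_rpow_of_exponent_le hX h1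
    gcongr

open Classical in
/-- **the T-energy with child condition and weight `nm d ^ a`, one number** -/
theorem tsdV (R : ℝ) (hR : 0 ≤ R) {ε : ℝ} (hε : 0 < ε) (K : ℝ) (hK : 1 ≤ K) (M : ℕ) :
    ∃ X₀ : ℝ, 1 < X₀ ∧ ∀ X : ℝ, X₀ ≤ X → ∀ H : ℝ, 1 ≤ H → ∀ (Yw Xw : ℝ), 0 ≤ Yw → 0 < Xw →
      ∀ α : Eis → ℂ, Adm Yw Xw R α → ∀ F : ℝ → ℝ → ℝ, VN X H M (2 * K) α F →
      ∀ V₀ V₁ B : ℝ, 0 < V₀ → 1 ≤ V₁ → V₁ ≤ X ^ K → 0 ≤ B →
      ∀ Js : Finset (Eis × Eis), OKJ Js → ∀ om : Eis × Eis → ℂ,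
      (∀ y ∈ Js, om y ≠ 0 → V₀ ≤ (nm (y.2 * y.1 ^ 2) : ℝ) ∧ (nm (y.2 * y.1 ^ 2) : ℝ) ≤ V₁) →
      (∀ y ∈ Js, ‖om y‖ ≤ B) → ∀ e0 δ : Eis, IsPrim e0 → IsPrim δ → (nm e0 : ℝ) ≤ X ^ K →
      ∀ a eT : ℝ, (∀ x : ℝ, Real.log (nm δ) / Real.log X ≤ x → 2 * x ≤ Real.log V₁ / Real.log X →
        F (Real.log V₁ / Real.log X + Real.log (nm e0) / Real.log X - 2 * x)
          (Real.log (nm e0) / Real.log X + x) ≤ eT - (2 + a) * x) →
      ∑ y ∈ Js.filter (fun y => δ ∣ y.1), (nm y.1 : ℝ) ^ a * ((nm y.2 : ℝ) ^ (-(1 / 3) : ℝ) *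
        (‖om y‖ ^ 2 * ‖TE α y e0‖ ^ 2)) ≤
        B ^ 2 * (H ^ M * X ^ (eT + ε)) * (Xw * V₀) ^ (-(1 / 3) : ℝ) / nm δ := by
  obtain ⟨C, hC, H2⟩ := te_pairs_oneW R hR (3 * M + 2) (by omega)
    (J := 3 * (M : ℝ)) (by positivity) (by push_cast; linarith)
  obtain ⟨X₂, hX₂, H3⟩ := big C ε K hε hC (by linarith)
  refine ⟨X₂, hX₂, ?_⟩
  intro X hX H hH Yw Xw hYw hXw α hα F hV V₀ V₁ B hV₀ hV₁ hV₁K hB Js hJs om hom homB e0 δ he0 hδ
    he0K a eT hRH
  have hX1 : 1 < X := lt_of_lt_of_le hX₂ hX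
  have hX0 : 0 < X := by linarith
  set L := Real.log X with hL
  have hL0 : 0 < L := Real.log_pos hX1
  have he0n := nm_pos_r he0.ne_zero
  have he01 : (1 : ℝ) ≤ nm e0 := by exact_mod_cast nm_pos.2 he0.ne_zero
  have hlogV : Real.log V₁ ≤ K * L := by
    rw [hL, ← Real.log_rpow hX0]
    exact Real.log_le_log (by linarith) hV₁K
  have hloge : Real.log (nm e0) ≤ K * L := by
    rw [hL, ← Real.log_rpow hX0]
    exact Real.log_le_log he0n he0K
  have hKK : X ^ K * X ^ K = X ^ (2 * K) := by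
    rw [← Real.rpow_add hX0]; congr 1; ring
  have hXK1 : 1 ≤ X ^ K := Real.one_le_rpow hX1.le (by linarith)
  have hyp : ∀ d ∈ DS V₁ δ, ∀ t : ℝ, VF (V₁ * nm e0 / (nm d : ℝ) ^ 2)
      (tws (sg α (d * e0)) t) ≤
      (H ^ M * X ^ eT) / (nm d : ℝ) ^ (2 + a) * (1 + |t|) ^ (3 * (M : ℝ)) := by
    intro d hd t
    obtain ⟨⟨hd1, hd2, hd3⟩, hd4⟩ := mem_DS.1 hd
    have hdn := nm_pos_r hd2.ne_zero
    have hdn1 : (1 : ℝ) ≤ nm d := by exact_mod_cast nm_pos.2 hd2.ne_zero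
    set x := Real.log (nm d) / L with hx
    have hge : IsPrim (d * e0) := hd2.mul he0
    have hdK : (nm d : ℝ) ≤ X ^ K := by
      have : (nm d : ℝ) ≤ (nm d : ℝ) ^ 2 := by nlinarith
      linarith
    have hgK : (nm (d * e0) : ℝ) ≤ X ^ (2 * K) := by
      rw [nm_mul, ← hKK]
      push_cast
      gcongr
    set k := Real.log (V₁ * nm e0 / (nm d : ℝ) ^ 2) with hk
    have hk1 : 1 ≤ V₁ * nm e0 / (nm d : ℝ) ^ 2 := by
      rw [le_div_iff₀ (by positivity), one_mul]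
      exact hd1.trans (le_mul_of_one_le_right (by linarith) he01)
    have hk0 : 0 ≤ k := Real.log_nonneg hk1
    have hke : k = Real.log V₁ + Real.log (nm e0) - 2 * Real.log (nm d) := by
      rw [hk, Real.log_div (by positivity) (by positivity), Real.log_mul (by positivity) he0n.ne',
        Real.log_pow]
      push_cast
      ring
    have hld : 0 ≤ Real.log (nm d) := Real.log_nonneg hdn1
    have hkK : k ≤ 2 * K * L := by rw [hke]; linarith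
    have hδd : Real.log (nm δ) / L ≤ x := by
      rw [hx]
      refine div_le_div_of_nonneg_right (Real.log_le_log (nm_pos_r hδ.ne_zero) ?_) hL0.le
      exact_mod_cast Div277.nm_le_of_dvd hd2.ne_zero hd4
    have hxV : 2 * x ≤ Real.log V₁ / L := by
      rw [hx, ← mul_div_assoc]
      refine div_le_div_of_nonneg_right ?_ hL0.le
      have := Real.log_le_log (by positivity) hd1
      rw [Real.log_pow] at this
      exact_mod_cast this
    have hR1 := hRH x hδd hxV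
    have e1 : Real.log V₁ / L + Real.log (nm e0) / L - 2 * x = k / L := by
      rw [hke, hx]; ring
    have e2 : Real.log (nm e0) / L + x = Real.log (nm (d * e0)) / L := by
      rw [nm_mul]
      push_cast
      rw [Real.log_mul hdn.ne' he0n.ne', hx]
      ring
    rw [e1, e2] at hR1
    have h4 := hV.all hX0 (by linarith) hYw hα.sup hge hgK (q := 1) one_ne_zero
      (by simpa using Real.one_le_rpow hX1.le (by linarith : (0 : ℝ) ≤ 2 * K)) hk0 hkK t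
    rw [PM_one, hk, Real.exp_log (by linarith)] at h4
    refine h4.trans ?_
    rw [← hk, ← hL]
    have e3 : X ^ (eT - (2 + a) * x) = X ^ eT / (nm d : ℝ) ^ (2 + a) := by
      rw [Real.rpow_sub hX0]
      congr 1
      rw [Real.rpow_def_of_pos hX0, Real.rpow_def_of_pos hdn, hx]
      congr 1
      rw [← hL]
      field_simp
    have h5 : X ^ F (k / L) (Real.log (nm (d * e0)) / L) ≤ X ^ eT / (nm d : ℝ) ^ (2 + a) := by
      rw [← e3]
      exact Real.rpow_le_rpow_of_exponent_le hX1.le hR1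
    have ht : (0 : ℝ) ≤ (1 + |t|) ^ (3 * (M : ℝ)) := by positivity
    have hHM : (0 : ℝ) ≤ H ^ M := by positivity
    calc H ^ M * X ^ F (k / L) (Real.log (nm (d * e0)) / L) * (1 + |t|) ^ (3 * (M : ℝ)) ≤
          H ^ M * (X ^ eT / (nm d : ℝ) ^ (2 + a)) * (1 + |t|) ^ (3 * (M : ℝ)) := by gcongr
      _ = _ := by ring
  have h5 := H2 Yw Xw V₀ V₁ B (H ^ M * X ^ eT) a hYw hXw hV₀ hV₁ hB (by positivity) _ hα Js hJs om
    hom homB e0 δ he0 hδ hyp
  refine h5.trans ?_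
  have hδn := nm_pos_r hδ.ne_zero
  have h6 : C * (1 + Real.log V₁) ≤ X ^ ε := by
    refine le_trans ?_ (H3 X hX)
    refine mul_le_mul_of_nonneg_left ?_ hC
    linarith
  have hq : 0 ≤ (Xw * V₀) ^ (-(1 / 3) : ℝ) := by positivity
  have hHM : (0 : ℝ) ≤ H ^ M := by positivity
  have e6 : X ^ ε * X ^ eT = X ^ (eT + ε) := by
    rw [← Real.rpow_add hX0]; congr 1; ring
  have hp : 0 ≤ X ^ eT := by positivity
  calc C * B ^ 2 * (1 + Real.log V₁) * (Xw * V₀) ^ (-(1 / 3) : ℝ) *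
        (H ^ M * X ^ eT) / nm δ =
        (C * (1 + Real.log V₁)) * (B ^ 2 * (H ^ M * X ^ eT) *
          (Xw * V₀) ^ (-(1 / 3) : ℝ) / nm δ) := by ring
    _ ≤ X ^ ε * (B ^ 2 * (H ^ M * X ^ eT) *
          (Xw * V₀) ^ (-(1 / 3) : ℝ) / nm δ) := by
        refine mul_le_mul_of_nonneg_right h6 ?_
        positivity
    _ = B ^ 2 * (H ^ M * (X ^ ε * X ^ eT)) *
          (Xw * V₀) ^ (-(1 / 3) : ℝ) / nm δ := by ring
    _ = _ := by rw [e6]

/-- **the T-moment of a sharp ball of frequencies, one number** -/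
theorem ttV (R : ℝ) (hR : 0 ≤ R) {ε : ℝ} (hε : 0 < ε) (K : ℝ) (hK : 1 ≤ K) (M : ℕ) :
    ∃ X₀ : ℝ, 1 < X₀ ∧ ∀ X : ℝ, X₀ ≤ X → ∀ H : ℝ, 1 ≤ H → ∀ (Yw Xw : ℝ), 0 ≤ Yw → 0 < Xw →
      ∀ α : Eis → ℂ, Adm Yw Xw R α → ∀ F : ℝ → ℝ → ℝ, VN X H M (4 * K) α F →
      ∀ L' : ℝ, 0 ≤ L' → L' ≤ X ^ K → ∀ e e₀ c c₀ : Eis, IsPrim e → IsPrim e₀ →
      c ≠ 0 → c₀ ≠ 0 → (nm e : ℝ) ≤ X ^ K → (nm e₀ : ℝ) ≤ X ^ K → (nm c : ℝ) ≤ X ^ K →
      (nm c₀ : ℝ) ≤ X ^ K →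
      ∀ eT : ℝ, (∀ x : ℝ, 0 ≤ x → 3 * x ≤ Real.log (L' * nm c₀ * nm e₀) / Real.log X →
        F (Real.log (L' * nm c₀ * nm e₀) / Real.log X - 3 * x)
          (Real.log (nm e) / Real.log X + Real.log (nm e₀) / Real.log X) ≤ eT - x) →
      ∑ j ∈ primBall ⌊L'⌋₊, ‖E3D579.TE0 (fun m => α (e * m)) 1 (c₀ * (j * c ^ 3)) e₀‖ ^ 2 ≤
        H ^ M * X ^ (eT + ε) * (Xw / nm e) ^ (-(1 / 3) : ℝ) := by
  obtain ⟨C, hC, H2⟩ := te_ball R hR (3 * M + 2) (by omega)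
    (J := 3 * (M : ℝ)) (by positivity) (by push_cast; linarith)
  obtain ⟨X₂, hX₂, H3⟩ := big C ε (4 * K) hε hC (by linarith)
  refine ⟨max X₂ 2, lt_of_lt_of_le hX₂ (le_max_left _ _), ?_⟩
  intro X hX H hH Yw Xw hYw hXw α hα F hV L' hL'0 hL'K e e₀ c c₀ he he₀ hc hc₀ heK he₀K hcK hc₀K
    eT hRH
  have hXX2 : X₂ ≤ X := (le_max_left _ _).trans hX
  have hX2 : 2 ≤ X := (le_max_right _ _).trans hX
  have hX1 : 1 < X := by linarith
  have hX0 : 0 < X := by linarith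
  set L := Real.log X with hL
  have hL0 : 0 < L := Real.log_pos hX1
  have hen := nm_pos_r he.ne_zero
  have he₀n := nm_pos_r he₀.ne_zero
  have hc₀n := nm_pos_r hc₀
  have he₀1 : (1 : ℝ) ≤ nm e₀ := by exact_mod_cast nm_pos.2 he₀.ne_zero
  have hc₀1 : (1 : ℝ) ≤ nm c₀ := by exact_mod_cast nm_pos.2 hc₀
  have hXK1 : 1 ≤ X ^ K := Real.one_le_rpow hX1.le (by linarith)
  by_cases hL1 : 1 ≤ L'
  swap
  · -- the ball is empty
    have h0 : ⌊L'⌋₊ = 0 := Nat.floor_eq_zero.2 (not_le.1 hL1)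
    have h1 : primBall 0 = ∅ := by
      rw [Finset.eq_empty_iff_forall_notMem]
      intro j hj
      rw [mem_primBall] at hj
      have := nm_pos.2 hj.2.ne_zero
      omega
    rw [h0, h1, Finset.sum_empty]
    positivity
  set Z : ℝ := L' * nm c₀ * nm e₀ with hZ
  have hZ1 : 1 ≤ Z := by
    calc (1 : ℝ) = 1 * 1 * 1 := by norm_num
      _ ≤ L' * nm c₀ * nm e₀ := by gcongr
  have hZK : Z ≤ X ^ (3 * K) := by
    have e1 : X ^ (3 * K) = X ^ K * X ^ K * X ^ K := by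
      rw [← Real.rpow_add hX0, ← Real.rpow_add hX0]; congr 1; ring
    rw [e1, hZ]
    exact mul_le_mul (mul_le_mul hL'K hc₀K hc₀n.le (by positivity)) he₀K he₀n.le (by positivity)
  have hlogZ : Real.log Z ≤ 3 * K * L := by
    rw [hL, ← Real.log_rpow hX0]
    exact Real.log_le_log (by linarith) hZK
  have hyp : ∀ s : Eis, s ≠ 0 → (nm s : ℝ) ^ 3 ≤ L' * nm c₀ * nm e₀ → ∀ t : ℝ,
      VF (L' * nm c₀ * nm e₀ / (nm s : ℝ) ^ 3) (PM (c * s) (tws (sg α (e * e₀)) t)) ≤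
        (H ^ M * X ^ eT) / nm s * (1 + |t|) ^ (3 * (M : ℝ)) := by
    intro s hs hs3 t
    rw [← hZ] at hs3 ⊢
    have hsn := nm_pos_r hs
    have hsn1 : (1 : ℝ) ≤ nm s := by exact_mod_cast nm_pos.2 hs
    set x := Real.log (nm s) / L with hx
    have hls : 0 ≤ Real.log (nm s) := Real.log_nonneg hsn1
    have hge : IsPrim (e * e₀) := he.mul he₀
    have hsZ : (nm s : ℝ) ^ 3 ≤ X ^ (3 * K) := hs3.trans hZK
    have hsK : (nm s : ℝ) ≤ X ^ (3 * K) := by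
      refine le_trans ?_ hsZ
      nlinarith [one_le_pow₀ hsn1 (n := 2)]
    have hgK : (nm (e * e₀) : ℝ) ≤ X ^ (4 * K) := by
      rw [nm_mul]
      push_cast
      have e1 : X ^ (4 * K) = X ^ K * X ^ K * (X ^ K * X ^ K) := by
        rw [← Real.rpow_add hX0, ← Real.rpow_add hX0]; congr 1; ring
      rw [e1]
      calc (nm e : ℝ) * nm e₀ ≤ X ^ K * X ^ K := by gcongr
        _ = X ^ K * X ^ K * 1 := (mul_one _).symm
        _ ≤ _ := by
            refine mul_le_mul_of_nonneg_left ?_ (by positivity)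
            nlinarith
    have hcs : (nm (c * s) : ℝ) ≤ X ^ (4 * K) := by
      rw [nm_mul]
      push_cast
      have e1 : X ^ (4 * K) = X ^ K * X ^ (3 * K) := by
        rw [← Real.rpow_add hX0]; congr 1; ring
      rw [e1]
      gcongr
    set k := Real.log (Z / (nm s : ℝ) ^ 3) with hk
    have hk1 : 1 ≤ Z / (nm s : ℝ) ^ 3 := by
      rw [le_div_iff₀ (by positivity), one_mul]
      exact hs3
    have hk0 : 0 ≤ k := Real.log_nonneg hk1
    have hke : k = Real.log Z - 3 * Real.log (nm s) := by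
      rw [hk, Real.log_div (by positivity) (by positivity), Real.log_pow]
      push_cast
      ring
    have hkK : k ≤ 4 * K * L := by
      rw [hke]
      have : 0 ≤ K * L := by positivity
      linarith
    have hx0 : 0 ≤ x := by positivity
    have hxZ : 3 * x ≤ Real.log Z / L := by
      rw [hx, ← mul_div_assoc]
      refine div_le_div_of_nonneg_right ?_ hL0.le
      linarith
    have hR1 := hRH x hx0 hxZ
    have e1 : Real.log Z / L - 3 * x = k / L := by rw [hke, hx]; ring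
    have e2 : Real.log (nm e) / L + Real.log (nm e₀) / L = Real.log (nm (e * e₀)) / L := by
      rw [nm_mul]
      push_cast
      rw [Real.log_mul hen.ne' he₀n.ne']
      ring
    rw [e1, e2] at hR1
    have h4 := hV.all hX0 (by linarith) hYw hα.sup hge hgK (mul_ne_zero hc hs) hcs hk0 hkK t
    rw [hk, Real.exp_log (by linarith)] at h4
    refine h4.trans ?_
    rw [← hk, ← hL]
    have e3 : X ^ (eT - x) = X ^ eT / (nm s : ℝ) := by
      rw [Real.rpow_sub hX0]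
      congr 1
      rw [Real.rpow_def_of_pos hX0, hx]
      have e5 : Real.log X * (Real.log (nm s) / L) = Real.log (nm s) := by
        rw [← hL]; field_simp
      rw [e5, Real.exp_log hsn]
    have h5 : X ^ F (k / L) (Real.log (nm (e * e₀)) / L) ≤ X ^ eT / (nm s : ℝ) := by
      rw [← e3]
      exact Real.rpow_le_rpow_of_exponent_le hX1.le hR1
    have ht : (0 : ℝ) ≤ (1 + |t|) ^ (3 * (M : ℝ)) := by positivity
    have hHM : (0 : ℝ) ≤ H ^ M := by positivity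
    calc H ^ M * X ^ F (k / L) (Real.log (nm (e * e₀)) / L) * (1 + |t|) ^ (3 * (M : ℝ)) ≤
          H ^ M * (X ^ eT / (nm s : ℝ)) * (1 + |t|) ^ (3 * (M : ℝ)) := by gcongr
      _ = _ := by ring
  have h5 := H2 Yw Xw L' (H ^ M * X ^ eT) hYw hXw hL'0 (by positivity) _ hα e e₀ c c₀ he he₀
    hc hc₀ hyp
  refine h5.trans ?_
  rw [← hZ]
  have h6 : C * (1 + Real.log (1 + Z)) ≤ X ^ ε := by
    refine le_trans ?_ (H3 X hXX2)
    refine mul_le_mul_of_nonneg_left ?_ hC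
    have h7 : Real.log (1 + Z) ≤ Real.log (X * X ^ (3 * K)) := by
      refine Real.log_le_log (by linarith) ?_
      calc 1 + Z ≤ 2 * Z := by linarith
        _ ≤ X * X ^ (3 * K) := by gcongr
    rw [Real.log_mul hX0.ne' (by positivity), Real.log_rpow hX0] at h7
    have : L ≤ K * L := le_mul_of_one_le_left hL0.le hK
    linarith
  have hq : 0 ≤ (Xw / nm e) ^ (-(1 / 3) : ℝ) := by positivity
  have hHM : (0 : ℝ) ≤ H ^ M := by positivity
  have e6 : X ^ ε * X ^ eT = X ^ (eT + ε) := by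
    rw [← Real.rpow_add hX0]; congr 1; ring
  have hp : 0 ≤ X ^ eT := by positivity
  calc C * (1 + Real.log (1 + Z)) * (Xw / nm e) ^ (-(1 / 3) : ℝ) *
        (H ^ M * X ^ eT) ≤
        X ^ ε * (Xw / nm e) ^ (-(1 / 3) : ℝ) * (H ^ M * X ^ eT) := by
        gcongr
    _ = H ^ M * (X ^ ε * X ^ eT) * (Xw / nm e) ^ (-(1 / 3) : ℝ) := by ring
    _ = _ := by rw [e6]

/-- **the T-functional of the cells as one number** -/
theorem tssV (R : ℝ) (hR : 0 ≤ R) {ε : ℝ} (hε : 0 < ε) (K : ℝ) (hK : 1 ≤ K) (M : ℕ) :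
    ∃ X₀ : ℝ, 1 < X₀ ∧ ∀ X : ℝ, X₀ ≤ X → ∀ H : ℝ, 1 ≤ H → ∀ (Yw Xw : ℝ), 0 ≤ Yw → 0 < Xw →
      ∀ α : Eis → ℂ, Adm Yw Xw R α → ∀ F : ℝ → ℝ → ℝ, VN X H M (4 * K) α F →
      ∀ L' : ℝ, 0 ≤ L' → L' ≤ X ^ K → ∀ Es : Finset Eis,
      (∀ e ∈ Es, IsPrim e ∧ (nm e : ℝ) ≤ X ^ K) → ∀ e₀ c₀ : Eis, IsPrim e₀ →
      c₀ ≠ 0 → (nm e₀ : ℝ) ≤ X ^ K → (nm c₀ : ℝ) ≤ X ^ K →
      ∀ ex tT : ℝ, (∀ e ∈ Es, ∀ w x : ℝ, 0 ≤ w → 0 ≤ x →
        3 * w + 3 * x ≤ Real.log (L' * nm c₀ * nm e₀) / Real.log X →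
        F (Real.log (L' * nm c₀ * nm e₀) / Real.log X - 3 * w - 3 * x)
          (Real.log (nm e) / Real.log X + Real.log (nm e₀) / Real.log X) ≤
          tT - x - 4 / 3 * (Real.log (nm e) / Real.log X) - (1 - ex) * w) →
      ∑ c ∈ primBall ⌊L'⌋₊, (nm c : ℝ) ^ (-ex) * ∑ e ∈ Es,
        ∑ j ∈ primBall ⌊L' / (nm c : ℝ) ^ 3⌋₊,
          ‖E3D579.TE0 (fun m => α (e * m)) 1 (c₀ * (j * c ^ 3)) e₀‖ ^ 2 ≤
        H ^ M * X ^ (tT + ε) * Xw ^ (-(1 / 3) : ℝ) := by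
  obtain ⟨X₁, hX₁, H1⟩ := ttV R hR (show 0 < ε / 3 by positivity) K hK M
  obtain ⟨X₂, hX₂, H3⟩ := big 200 (ε / 3) K (by positivity) (by norm_num) (by linarith)
  refine ⟨max X₁ X₂, lt_of_lt_of_le hX₁ (le_max_left _ _), ?_⟩
  intro X hX H hH Yw Xw hYw hXw α hα F hV L' hL'0 hL'K Es hEs e₀ c₀ he₀ hc₀ he₀K hc₀K ex tT hRH
  have hXX : X₁ ≤ X := (le_max_left _ _).trans hX
  have hX1 : 1 < X := lt_of_lt_of_le hX₁ hXX
  have hX0 : 0 < X := by linarith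
  set L := Real.log X with hL
  have hL0 : 0 < L := Real.log_pos hX1
  have he₀n := nm_pos_r he₀.ne_zero
  have hc₀n := nm_pos_r hc₀
  have hXK1 : 1 ≤ X ^ K := Real.one_le_rpow hX1.le (by linarith)
  have hq : 0 ≤ Xw ^ (-(1 / 3) : ℝ) := by positivity
  by_cases hL1 : 1 ≤ L'
  swap
  · have h0 : ⌊L'⌋₊ = 0 := Nat.floor_eq_zero.2 (not_le.1 hL1)
    have h1 : primBall 0 = ∅ := by
      rw [Finset.eq_empty_iff_forall_notMem]
      intro j hj
      rw [mem_primBall] at hj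
      have := nm_pos.2 hj.2.ne_zero
      omega
    rw [h0, h1, Finset.sum_empty]
    positivity
  have hlogK : ∀ y : ℝ, 0 ≤ y → y ≤ X ^ K → 100 * (1 + Real.log (1 + y)) ≤ X ^ (ε / 3) := by
    intro y hy hyK
    refine le_trans ?_ (H3 X ((le_max_right _ _).trans hX))
    have h1 : Real.log (1 + y) ≤ Real.log (2 * X ^ K) :=
      Real.log_le_log (by linarith) (by linarith)
    rw [Real.log_mul (by norm_num) (by positivity), Real.log_rpow hX0, ← hL] at h1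
    have h2 : Real.log 2 ≤ 1 := by
      have := Real.log_two_lt_d9
      linarith
    have h3 : 0 ≤ K * L := by positivity
    linarith
  have hone : ∀ c ∈ primBall ⌊L'⌋₊, ∀ e ∈ Es,
      ∑ j ∈ primBall ⌊L' / (nm c : ℝ) ^ 3⌋₊,
        ‖E3D579.TE0 (fun m => α (e * m)) 1 (c₀ * (j * c ^ 3)) e₀‖ ^ 2 ≤
      H ^ M * X ^ (tT + ε / 3) * Xw ^ (-(1 / 3) : ℝ) *
        ((nm c : ℝ) ^ ex * (1 / nm c)) * (1 / nm e) := by
    intro c hc e he
    obtain ⟨hc1, hc2⟩ := mem_primBall.mp hc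
    have hcL : (nm c : ℝ) ≤ L' := (Nat.le_floor_iff hL'0).mp hc1
    have hcn := nm_pos_r hc2.ne_zero
    have hcn1 : (1 : ℝ) ≤ nm c := by exact_mod_cast nm_pos.2 hc2.ne_zero
    obtain ⟨hep, heK⟩ := hEs e he
    have hen := nm_pos_r hep.ne_zero
    set w := Real.log (nm c) / L with hw
    set y := Real.log (nm e) / L with hy
    have hw0 : 0 ≤ w := div_nonneg (Real.log_nonneg hcn1) hL0.le
    have hZe : Real.log (L' / (nm c : ℝ) ^ 3 * nm c₀ * nm e₀) / L =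
        Real.log (L' * nm c₀ * nm e₀) / L - 3 * w := by
      have e1 : L' / (nm c : ℝ) ^ 3 * nm c₀ * nm e₀ = L' * nm c₀ * nm e₀ / (nm c : ℝ) ^ 3 := by
        ring
      rw [e1, Real.log_div (by positivity) (by positivity), Real.log_pow, hw]
      push_cast
      ring
    have h1 := H1 X hXX H hH Yw Xw hYw hXw α hα F hV (L' / (nm c : ℝ) ^ 3) (by positivity)
      ((div_le_self hL'0 (one_le_pow₀ hcn1)).trans hL'K) e e₀ c c₀ hep he₀ hc2.ne_zero hc₀ heK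
      he₀K (hcL.trans hL'K) hc₀K (tT - 4 / 3 * y - (1 - ex) * w) (fun x hx0 hx => by
        rw [hZe] at hx ⊢
        have h2 := hRH e he w x hw0 hx0 (by linarith)
        linarith)
    refine h1.trans (le_of_eq ?_)
    have h4 : (Xw / nm e) ^ (-(1 / 3) : ℝ) = Xw ^ (-(1 / 3) : ℝ) * (nm e : ℝ) ^ (1 / 3 : ℝ) := by
      rw [Real.div_rpow hXw.le hen.le, Real.rpow_neg hen.le (1 / 3), div_inv_eq_mul]
    have hpow : ∀ (z : ℝ) (u : Eis), u ≠ 0 → X ^ (z * (Real.log (nm u) / L)) = (nm u : ℝ) ^ z := by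
      intro z u hu
      have hun := nm_pos_r hu
      rw [Real.rpow_def_of_pos hX0, Real.rpow_def_of_pos hun, ← hL]
      congr 1
      field_simp
    have h5 : X ^ (tT - 4 / 3 * y - (1 - ex) * w + ε / 3) =
        X ^ (tT + ε / 3) * (nm e : ℝ) ^ (-(4 / 3) : ℝ) * (nm c : ℝ) ^ (ex - 1) := by
      rw [← hpow (-(4 / 3)) e hep.ne_zero, ← hpow (ex - 1) c hc2.ne_zero, ← Real.rpow_add hX0,
        ← Real.rpow_add hX0]
      congr 1
      rw [← hw, ← hy]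
      ring
    have h6 : (nm e : ℝ) ^ (-(4 / 3) : ℝ) * (nm e : ℝ) ^ (1 / 3 : ℝ) = 1 / nm e := by
      rw [← Real.rpow_add hen, show (-(4 / 3) : ℝ) + 1 / 3 = -1 by norm_num, Real.rpow_neg_one,
        one_div]
    have h7 : (nm c : ℝ) ^ (ex - 1) = (nm c : ℝ) ^ ex * (1 / nm c) := by
      rw [Real.rpow_sub hcn, Real.rpow_one]
      ring
    rw [h4, h5, ← h7, ← h6]
    ring
  set Q := H ^ M * X ^ (tT + ε / 3) * Xw ^ (-(1 / 3) : ℝ) with hQ
  have hQ0 : 0 ≤ Q := by positivity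
  have hE1 : ∑ e ∈ Es, 1 / (nm e : ℝ) ≤ X ^ (ε / 3) := by
    refine le_trans ?_ (hlogK (X ^ K) (by positivity) le_rfl)
    refine le_trans ?_ (sum_inv_pb (by positivity))
    refine Finset.sum_le_sum_of_subset_of_nonneg (fun e he => ?_) fun _ _ _ => by positivity
    exact mem_primBall.mpr ⟨Nat.le_floor (hEs e he).2, (hEs e he).1⟩
  have hone2 : ∀ c ∈ primBall ⌊L'⌋₊, (nm c : ℝ) ^ (-ex) * ∑ e ∈ Es,
      ∑ j ∈ primBall ⌊L' / (nm c : ℝ) ^ 3⌋₊,
        ‖E3D579.TE0 (fun m => α (e * m)) 1 (c₀ * (j * c ^ 3)) e₀‖ ^ 2 ≤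
      Q * X ^ (ε / 3) * (1 / nm c) := by
    intro c hc
    have hcn := nm_pos_r (mem_primBall.mp hc).2.ne_zero
    calc _ ≤ (nm c : ℝ) ^ (-ex) * ∑ e ∈ Es, Q * ((nm c : ℝ) ^ ex * (1 / nm c)) * (1 / nm e) := by
          refine mul_le_mul_of_nonneg_left (Finset.sum_le_sum fun e he => hone c hc e he)
            (by positivity)
      _ = ((nm c : ℝ) ^ (-ex) * (nm c : ℝ) ^ ex) * (Q * (1 / nm c) * ∑ e ∈ Es, 1 / (nm e : ℝ)) := by
          rw [← Finset.mul_sum]; ring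
      _ = Q * (1 / nm c) * ∑ e ∈ Es, 1 / (nm e : ℝ) := by
          rw [← Real.rpow_add hcn, neg_add_cancel, Real.rpow_zero, one_mul]
      _ ≤ Q * (1 / nm c) * X ^ (ε / 3) := by gcongr
      _ = _ := by ring
  refine (Finset.sum_le_sum hone2).trans ?_
  rw [← Finset.mul_sum]
  have hL2 := (sum_inv_pb hL'0).trans (hlogK L' hL'0 hL'K)
  calc Q * X ^ (ε / 3) * ∑ c ∈ primBall ⌊L'⌋₊, 1 / (nm c : ℝ)
      ≤ Q * X ^ (ε / 3) * X ^ (ε / 3) := by gcongr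
    _ = H ^ M * (X ^ (tT + ε / 3) * X ^ (ε / 3) * X ^ (ε / 3)) * Xw ^ (-(1 / 3) : ℝ) := by
        rw [hQ]; ring
    _ = _ := by
        rw [← Real.rpow_add hX0, ← Real.rpow_add hX0]
        congr 3
        ring

variable {Λ : Type*} {π : Λ → DPar} {h : ℝ → ℝ}

/-- **`VN` for `alb` of natural pieces** -/
theorem vn_alb (hVF : VFA h) (hP : ∀ lam, (π lam).OK) {E : (Fin 4 → ℝ) × (Kd → ℝ) → ℝ}
    (hE : Continuous E) (U : ∀ K : ℝ, UBs S3 Dq (TMF π h fun _ => 0) (fbT K) ∅ E) {ε : ℝ}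
    (hε : 0 < ε) (K : ℝ) (hK : 1 ≤ K) (lam : Λ) : ∃ (M : ℕ) (X₀ : ℝ), 1 < X₀ ∧
    ∀ X : ℝ, X₀ ≤ X → ∀ H : ℝ, 1 ≤ H → ∀ (us : Fin 3 → Pq) (β : Fin 3 → Eis),
      LD X K H us β → ∀ F : ℝ → ℝ → ℝ,
      (∀ v γ : ℝ, 0 ≤ v → v ≤ K → 0 ≤ γ → γ ≤ K →
        RH E (fun i => (us i).z / Real.log X) v (nL X us β - γ) (F v γ - ε)) →
      VN X H M K (alb (fun i => pc h ((us i).pc (π lam))) β) F := by
  obtain ⟨M, X₁, hX₁, H1⟩ := vf_num hVF hP hE U hε K hK lam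
  refine ⟨M, X₁, hX₁, ?_⟩
  intro X hX H hH us β hD F hRH g hg hgs hgK q hq hqK k hk hkK t
  have hX1 : 1 < X := lt_of_lt_of_le hX₁ hX
  have hX0 : 0 < X := by linarith
  have hL0 : 0 < Real.log X := Real.log_pos hX1
  have hgn := nm_pos_r hg.ne_zero
  have hgn1 : (1 : ℝ) ≤ nm g := by exact_mod_cast nm_pos.2 hg.ne_zero
  have h1 := H1 X hX H hH us β hD g hg hgK q hq hqK k hk hkK _
    (hRH (k / Real.log X) (Real.log (nm g) / Real.log X) (by positivity)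
      ((div_le_iff₀ hL0).2 hkK) (div_nonneg (Real.log_nonneg hgn1) hL0.le)
      ((div_le_iff₀ hL0).2 (by
        rw [← Real.log_rpow hX0]
        exact Real.log_le_log hgn hgK))) t
  rwa [sub_add_cancel] at h1

end Crest.Agent.R017.TEM792
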