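import Crest.Agent.R017.EnC_743
import Crest.Agent.R017.TEN_792

/-!
# Row 17, block C70, leaf E4 (helper743): the `T`-numbers of the large sieve total

* `TWa_mono`
* **`twa_num`** : `TWa J' (omL a.2) α e₀ 1 c` from 792's `VN`, any `J' ⊆ J3`
* **`hbn_num`** : the two numbers of `hb_vXBJ` : weight `1` and `min` (weight `nm y.1`, `Dm`)
-/

set_option autoImplicit false

noncomputable section

open Complex Finset
open scoped ComplexConjugate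

namespace Crest.Agent.R017.EnX743

open Crest.Agent.R012 Crest.Agent.R012.Eis
open Crest.Agent.R017.C70 (OKJ)
open Crest.Agent.R017.E5B71
open Crest.Agent.R017.E5L770
open Crest.Agent.R017.E4U164
open Crest.Agent.R017.E1551 (Adm)
open Crest.Agent.R017.TEM792 (VN tsdV)

/-- the window of a level -/
lemma J3_win {Jf : ℝ → ℝ → ℝ → Finset (Eis × Eis)} (hJf : ∀ l N z, OKJ (Jf l N z))
    {a : Bd × ℕ} {x : Eis × Eis} (hx : x ∈ J3 Jf a.1 a.2) :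
    (2 : ℝ) ^ a.2 / 2 ≤ nm (x.2 * x.1 ^ 2) ∧ (nm (x.2 * x.1 ^ 2) : ℝ) ≤ 2 * 2 ^ a.2 := by
  have hJ := okJ3 hJf a.1 a.2
  obtain ⟨h1, h2⟩ := mem_Jv.1 hx
  have h0 : x.2 * x.1 ^ 2 ≠ 0 := by
    refine mul_ne_zero ?_ (pow_ne_zero 2 (hJ.prim x hx).ne_zero)
    exact (E5b54.JC_cf (hJ.jc x hx)).1
  have hp : (0 : ℝ) < nm (x.2 * x.1 ^ 2) := by exact_mod_cast nm_pos.2 h0
  have h3 := abs_le.1 h2
  unfold E5L770.lv at h3
  have e2 : Real.exp (Real.log 2) = 2 := Real.exp_log two_pos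
  have e3 : Real.exp (Real.log 2 * a.2) = 2 ^ a.2 := by
    rw [Real.exp_mul, Real.exp_log two_pos, Real.rpow_natCast]
  constructor
  · have h4 : Real.exp (Real.log 2 * a.2 - Real.log 2) ≤
        Real.exp (Real.log (nm (x.2 * x.1 ^ 2))) := Real.exp_le_exp.2 (by linarith)
    rw [Real.exp_log hp, Real.exp_sub, e3, e2] at h4
    exact h4
  · have h4 : Real.exp (Real.log (nm (x.2 * x.1 ^ 2))) ≤
        Real.exp (Real.log 2 + Real.log 2 * a.2) := Real.exp_le_exp.2 (by linarith)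
    rw [Real.exp_log hp, Real.exp_add, e3, e2] at h4
    exact h4

/-- the window functions are bounded -/
lemma omL_bd : ∃ B : ℝ, 0 ≤ B ∧ ∀ (i : ℕ) (x : Eis × Eis), ‖omL i x‖ ≤ B := by
  obtain ⟨B, hB, H⟩ := wLc_bd 0
  refine ⟨B, hB, fun i x => ?_⟩
  have := H i (lv x)
  rw [iteratedDeriv_zero] at this
  exact this

lemma TWa_mono {J J' : Finset (Eis × Eis)} (h : J' ⊆ J) (om : Eis × Eis → ℂ) (α : Eis → ℂ)
    (e₀ δ : Eis) (a : ℝ) : TWa J' om α e₀ δ a ≤ TWa J om α e₀ δ a := by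
  classical
  unfold TWa
  refine sum_le_sum_of_subset_of_nonneg (filter_subset_filter _ h) fun y _ _ => ?_
  have h1 : 0 ≤ (nm y.1 : ℝ) ^ a := Real.rpow_nonneg (Nat.cast_nonneg _) _
  have h2 : 0 ≤ (nm y.2 : ℝ) ^ (-(1 / 3) : ℝ) := Real.rpow_nonneg (Nat.cast_nonneg _) _
  positivity

lemma TWa_nonneg (J : Finset (Eis × Eis)) (om : Eis × Eis → ℂ) (α : Eis → ℂ)
    (e₀ δ : Eis) (a : ℝ) : 0 ≤ TWa J om α e₀ δ a := by
  classical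
  unfold TWa
  refine sum_nonneg fun y _ => ?_
  have h1 : 0 ≤ (nm y.1 : ℝ) ^ a := Real.rpow_nonneg (Nat.cast_nonneg _) _
  have h2 : 0 ≤ (nm y.2 : ℝ) ^ (-(1 / 3) : ℝ) := Real.rpow_nonneg (Nat.cast_nonneg _) _
  positivity

/-- **the weighted `T`-sum of one level from the cube-free moments** -/
theorem twa_num (R : ℝ) (hR : 0 ≤ R) {ε : ℝ} (hε : 0 < ε) (K : ℝ) (hK : 1 ≤ K) (M : ℕ) :
    ∃ X₀ : ℝ, 1 < X₀ ∧ ∀ X : ℝ, X₀ ≤ X → ∀ H : ℝ, 1 ≤ H → ∀ (Yw Xw : ℝ), 0 ≤ Yw → 0 < Xw →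
      ∀ α : Eis → ℂ, Adm Yw Xw R α → ∀ F : ℝ → ℝ → ℝ, VN X H M (2 * K) α F →
      ∀ Jf : ℝ → ℝ → ℝ → Finset (Eis × Eis), (∀ l N z, OKJ (Jf l N z)) →
      ∀ a : Bd × ℕ, (2 * 2 ^ a.2 : ℝ) ≤ X ^ K → ∀ J' : Finset (Eis × Eis), J' ⊆ J3 Jf a.1 a.2 →
      ∀ e₀ : Eis, IsPrim e₀ → (nm e₀ : ℝ) ≤ X ^ K → ∀ c t : ℝ,
      (∀ x : ℝ, 0 ≤ x → 2 * x ≤ Real.log (2 * 2 ^ a.2) / Real.log X →
        F (Real.log (2 * 2 ^ a.2) / Real.log X + Real.log (nm e₀) / Real.log X - 2 * x)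
          (Real.log (nm e₀) / Real.log X + x) ≤ t - (2 + c) * x) →
      TWa J' (omL a.2) α e₀ 1 c ≤ H ^ M * X ^ (t + ε) * (Xw * 2 ^ a.2) ^ (-(1 / 3) : ℝ) := by
  obtain ⟨X₁, hX₁, H1⟩ := tsdV R hR (half_pos hε) K hK M
  obtain ⟨Bo, hBo, hom⟩ := omL_bd
  set Cc : ℝ := Bo ^ 2 * (1 / 2 : ℝ) ^ (-(1 / 3) : ℝ) + 1 with hCc
  have hh : 0 ≤ (1 / 2 : ℝ) ^ (-(1 / 3) : ℝ) := by positivity
  have hCc1 : 1 ≤ Cc := by
    have : 0 ≤ Bo ^ 2 * (1 / 2 : ℝ) ^ (-(1 / 3) : ℝ) := by positivity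
    linarith
  refine ⟨max X₁ (Real.exp (2 / ε * Real.log Cc)), lt_of_lt_of_le hX₁ (le_max_left _ _), ?_⟩
  intro X hX H hH Yw Xw hYw hXw α hα F hV Jf hJf a haK J' hJ' e₀ he₀ he₀K c t hF
  have hXX : X₁ ≤ X := (le_max_left _ _).trans hX
  have hX1 : 1 < X := lt_of_lt_of_le hX₁ hXX
  have hX0 : 0 < X := by linarith
  have hL0 : 0 < Real.log X := Real.log_pos hX1
  have hXe : Real.exp (2 / ε * Real.log Cc) ≤ X := (le_max_right _ _).trans hX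
  have h2 : Cc ≤ X ^ (ε / 2) := by
    have h3 : 2 / ε * Real.log Cc ≤ Real.log X := (Real.le_log_iff_exp_le hX0).2 hXe
    have h4 : Real.log Cc ≤ ε / 2 * Real.log X := by
      rw [div_mul_eq_mul_div, div_le_iff₀ hε] at h3
      linarith
    rw [Real.rpow_def_of_pos hX0, ← Real.exp_log (show 0 < Cc by linarith)]
    exact Real.exp_le_exp.2 (by linarith)
  have hp : (0 : ℝ) < 2 ^ a.2 := by positivity
  have hp1 : (1 : ℝ) ≤ 2 ^ a.2 := one_le_pow₀ (by norm_num)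
  have hJ := okJ3 hJf a.1 a.2
  have key := H1 X hXX H hH Yw Xw hYw hXw α hα F hV (2 ^ a.2 / 2) (2 * 2 ^ a.2) Bo (by positivity)
    (by linarith) haK hBo (J3 Jf a.1 a.2) hJ (omL a.2)
    (fun y hy _ => J3_win hJf hy) (fun y _ => hom a.2 y) e₀ 1 he₀ isPrim_one he₀K c t
    (fun x hx hx2 => by
      rw [nm_one, Nat.cast_one, Real.log_one, zero_div] at hx
      exact hF x hx hx2)
  rw [nm_one, Nat.cast_one, div_one] at key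
  have h5 : TWa (J3 Jf a.1 a.2) (omL a.2) α e₀ 1 c ≤
      Bo ^ 2 * (H ^ M * X ^ (t + ε / 2)) * (Xw * (2 ^ a.2 / 2)) ^ (-(1 / 3) : ℝ) := by
    refine le_trans (le_of_eq ?_) key
    unfold TWa
    rfl
  refine (TWa_mono hJ' _ _ _ _ _).trans (h5.trans ?_)
  have e1 : (Xw * (2 ^ a.2 / 2)) ^ (-(1 / 3) : ℝ) =
      (Xw * 2 ^ a.2) ^ (-(1 / 3) : ℝ) * (1 / 2 : ℝ) ^ (-(1 / 3) : ℝ) := by
    rw [← Real.mul_rpow (by positivity) (by norm_num)]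
    congr 1
    ring
  have e2 : X ^ (t + ε) = X ^ (ε / 2) * X ^ (t + ε / 2) := by
    rw [← Real.rpow_add hX0]; congr 1; ring
  have hq : 0 ≤ (Xw * 2 ^ a.2) ^ (-(1 / 3) : ℝ) := by positivity
  have hHM : (0 : ℝ) ≤ H ^ M := by positivity
  have hXt : 0 ≤ X ^ (t + ε / 2) := by positivity
  rw [e1, e2]
  calc Bo ^ 2 * (H ^ M * X ^ (t + ε / 2)) *
        ((Xw * 2 ^ a.2) ^ (-(1 / 3) : ℝ) * (1 / 2 : ℝ) ^ (-(1 / 3) : ℝ))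
      = (Bo ^ 2 * (1 / 2 : ℝ) ^ (-(1 / 3) : ℝ)) *
        (H ^ M * X ^ (t + ε / 2) * (Xw * 2 ^ a.2) ^ (-(1 / 3) : ℝ)) := by ring
    _ ≤ X ^ (ε / 2) * (H ^ M * X ^ (t + ε / 2) * (Xw * 2 ^ a.2) ^ (-(1 / 3) : ℝ)) := by
        refine mul_le_mul_of_nonneg_right ?_ (by positivity)
        linarith
    _ = _ := by ring

/-- **the two numbers of `hb_vXBJ`** : `t₀` for the weight `1`; `t₁` either from the weight
`nm y.1` or from `Dm ≤ X ^ (t₁ - t₀)` -/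
theorem hbn_num (R : ℝ) (hR : 0 ≤ R) {ε : ℝ} (hε : 0 < ε) (K : ℝ) (hK : 1 ≤ K) (M : ℕ) :
    ∃ X₀ : ℝ, 1 < X₀ ∧ ∀ X : ℝ, X₀ ≤ X → ∀ H : ℝ, 1 ≤ H → ∀ (Yw Xw : ℝ), 0 ≤ Yw → 0 < Xw →
      ∀ α : Eis → ℂ, Adm Yw Xw R α → ∀ F : ℝ → ℝ → ℝ, VN X H M (2 * K) α F →
      ∀ Jf : ℝ → ℝ → ℝ → Finset (Eis × Eis), (∀ l N z, OKJ (Jf l N z)) →
      ∀ a : Bd × ℕ, (2 * 2 ^ a.2 : ℝ) ≤ X ^ K → ∀ J' : Finset (Eis × Eis), J' ⊆ J3 Jf a.1 a.2 →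
      ∀ e₀ : Eis, IsPrim e₀ → (nm e₀ : ℝ) ≤ X ^ K → ∀ t₀ t₁ Dm : ℝ, 0 ≤ Dm →
      (∀ x : ℝ, 0 ≤ x → 2 * x ≤ Real.log (2 * 2 ^ a.2) / Real.log X →
        F (Real.log (2 * 2 ^ a.2) / Real.log X + Real.log (nm e₀) / Real.log X - 2 * x)
          (Real.log (nm e₀) / Real.log X + x) ≤ t₀ - 2 * x) →
      ((∀ x : ℝ, 0 ≤ x → 2 * x ≤ Real.log (2 * 2 ^ a.2) / Real.log X →
        F (Real.log (2 * 2 ^ a.2) / Real.log X + Real.log (nm e₀) / Real.log X - 2 * x)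
          (Real.log (nm e₀) / Real.log X + x) ≤ t₁ - 3 * x) ∨ Dm ≤ X ^ (t₁ - t₀)) →
      TWa J' (omL a.2) α e₀ 1 0 ≤ H ^ M * X ^ (t₀ + ε) * (Xw * 2 ^ a.2) ^ (-(1 / 3) : ℝ) ∧
      min (TWa J' (omL a.2) α e₀ 1 1) (Dm * TWa J' (omL a.2) α e₀ 1 0) ≤
        H ^ M * X ^ (t₁ + ε) * (Xw * 2 ^ a.2) ^ (-(1 / 3) : ℝ) := by
  obtain ⟨X₁, hX₁, H1⟩ := twa_num R hR hε K hK M
  refine ⟨X₁, hX₁, ?_⟩
  intro X hX H hH Yw Xw hYw hXw α hα F hV Jf hJf a haK J' hJ' e₀ he₀ he₀K t₀ t₁ Dm hDm hF0 hF1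
  have hX1 : 1 < X := lt_of_lt_of_le hX₁ hX
  have hX0 : 0 < X := by linarith
  have k0 := H1 X hX H hH Yw Xw hYw hXw α hα F hV Jf hJf a haK J' hJ' e₀ he₀ he₀K 0 t₀
    (fun x hx hx2 => by
      have := hF0 x hx hx2
      linarith)
  refine ⟨k0, ?_⟩
  rcases hF1 with h | h
  · refine (min_le_left _ _).trans ?_
    exact H1 X hX H hH Yw Xw hYw hXw α hα F hV Jf hJf a haK J' hJ' e₀ he₀ he₀K 1 t₁
      (fun x hx hx2 => by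
        have := h x hx hx2
        linarith)
  · refine (min_le_right _ _).trans ?_
    have e1 : X ^ (t₁ + ε) = X ^ (t₁ - t₀) * X ^ (t₀ + ε) := by
      rw [← Real.rpow_add hX0]; congr 1; ring
    rw [e1]
    calc Dm * TWa J' (omL a.2) α e₀ 1 0
        ≤ X ^ (t₁ - t₀) * (H ^ M * X ^ (t₀ + ε) * (Xw * 2 ^ a.2) ^ (-(1 / 3) : ℝ)) :=
          mul_le_mul h k0 (TWa_nonneg _ _ _ _ _ _) (by positivity)
      _ = _ := by ring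

end Crest.Agent.R017.EnX743
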