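import Crest.Agent.R017.XHe_512
import Crest.Agent.R017.HBn_743
import Crest.Agent.R017.E4Tc_918
import Crest.Agent.R017.TSVd_436

/-!
# Row 17, C70/E4 (version 7): the `T`-numbers of the large sieve half (helper512)

* `GqN` : helper792's closed form (helper918's `Ko`), `gqN_child`, `gqN_h1`
* `VNU` : helper792's `vn_gq` as a Prop
* `ld_of` : the list of the three lumps at the data
* `tr_num` : the true numbers against a near class
* **`tnumU_of`** : `TNumU` from `VNU`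
-/

set_option autoImplicit false

noncomputable section

open Complex Finset
open scoped ComplexConjugate

namespace Crest.Agent.R017.XHn512

open Crest.Agent.R012 Crest.Agent.R012.Eis
open Crest.Agent.R012.Mob705 hiding pb mem_pb
open Crest.Agent.R012.LS2 (mem_S)
open Crest.Agent.R017.FE47 (PU SM cx)
open Crest.Agent.R017.C70 (OKJ)
open Crest.Agent.R017.HP842 (pc)
open Crest.Agent.R017.B770
open Crest.Agent.R017.Prov71
open Crest.Agent.R017.E5B71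
open Crest.Agent.R017.E5L770
open Crest.Agent.R017.E5k54 (alb)
open Crest.Agent.R017.E1551 (Adm)
open Crest.Agent.R017.E4U164
open Crest.Agent.R017.E4R70
open Crest.Agent.R017.E4Dic352
open Crest.Agent.R017.E4St352
open Crest.Agent.R017.Bx918
open Crest.Agent.R017.Tc918
open Crest.Agent.R017.TEM792 (VN LD nL)
open Crest.Agent.R017.VFa436 (us3 f3_eq Adm_f3 T3_spec)
open Crest.Agent.R017.EnX743 (TWa xJB twa_num xJB_sub)
open Crest.Agent.R017.E4Us512 (Fr FrY fr_of_frL nm_beta_le bdd_PU Y3_le)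

/-! ### the closed form -/

/-- **helper792's closed form of the own number** -/
def GqN (d z u v n : ℝ) : ℝ :=
  min (max (max (2 * n) (v + n)) (4 / 3 * n + (v + Ko n v z) / 3) + 2 / 3 * d * n)
    (max (v + n + min u (n / 3)) (5 / 3 * n + v / 3))

lemma Ko_mono {n n' L L' z : ℝ} (hn : n ≤ n') (hL : L ≤ L') : Ko n L z ≤ Ko n' L' z := by
  unfold Ko
  exact max_le_max (by linarith) (max_le_max (by linarith) (max_le_max (by linarith) le_rfl))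

/-- the child rule -/
lemma gqN_child {d z u v n ξ : ℝ} (hd : 0 ≤ d) (hξ : 0 ≤ ξ) :
    GqN d z u (v - 2 * ξ) (n - ξ) ≤ GqN d z u v n - 2 * ξ := by
  have h1 := Ko_mono (z := z) (show n - ξ ≤ n by linarith) (show v - 2 * ξ ≤ v by linarith)
  have h2 : 0 ≤ d * ξ := mul_nonneg hd hξ
  have h3 : min u ((n - ξ) / 3) ≤ min u (n / 3) := min_le_min le_rfl (by linarith)
  unfold GqN
  rw [← min_sub_sub_right]
  refine min_le_min ?_ ?_
  · have : max (max (2 * (n - ξ)) (v - 2 * ξ + (n - ξ)))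
        (4 / 3 * (n - ξ) + (v - 2 * ξ + Ko (n - ξ) (v - 2 * ξ) z) / 3) ≤
        max (max (2 * n) (v + n)) (4 / 3 * n + (v + Ko n v z) / 3) - 2 * ξ := by
      have m1 : 2 * n ≤ max (max (2 * n) (v + n)) (4 / 3 * n + (v + Ko n v z) / 3) :=
        (le_max_left _ _).trans (le_max_left _ _)
      have m2 : v + n ≤ max (max (2 * n) (v + n)) (4 / 3 * n + (v + Ko n v z) / 3) :=
        (le_max_right _ _).trans (le_max_left _ _)
      have m3 : 4 / 3 * n + (v + Ko n v z) / 3 ≤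
        max (max (2 * n) (v + n)) (4 / 3 * n + (v + Ko n v z) / 3) := le_max_right _ _
      exact max_le (max_le (by linarith) (by linarith)) (by linarith)
    linarith
  · have m1 : v + n + min u (n / 3) ≤ max (v + n + min u (n / 3)) (5 / 3 * n + v / 3) :=
      le_max_left _ _
    have m2 : 5 / 3 * n + v / 3 ≤ max (v + n + min u (n / 3)) (5 / 3 * n + v / 3) :=
      le_max_right _ _
    exact max_le (by linarith) (by linarith)

/-- the number of the square part -/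
lemma gqN_h1 {d z u v n ξ : ℝ} (hξ : 0 ≤ ξ) (hv : 2 * ξ ≤ v) :
    GqN d z u (v - 2 * ξ) (n - ξ) ≤
      max (v + n + min u (n / 3)) (5 / 3 * n + 2 / 3 * v) - 3 * ξ := by
  have h3 : min u ((n - ξ) / 3) ≤ min u (n / 3) := min_le_min le_rfl (by linarith)
  have m1 : v + n + min u (n / 3) ≤ max (v + n + min u (n / 3)) (5 / 3 * n + 2 / 3 * v) :=
    le_max_left _ _
  have m2 : 5 / 3 * n + 2 / 3 * v ≤ max (v + n + min u (n / 3)) (5 / 3 * n + 2 / 3 * v) :=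
    le_max_right _ _
  refine (min_le_right _ _).trans (max_le (by linarith) (by linarith))

variable {Λ : Type*}

/-- **helper792's `vn_gq`** -/
def VNU (π : Λ → DPar) (h : ℝ → ℝ) (d : ℝ) : Prop :=
  ∀ ε : ℝ, 0 < ε → ∀ K : ℝ, 1 ≤ K → ∀ lam : Λ, ∃ M₀ : ℕ, ∀ M : ℕ, M₀ ≤ M →
    ∀ s : Eis, s ∈ SM (π lam).n → ∃ X₀ : ℝ, 1 < X₀ ∧ ∀ X : ℝ, X₀ ≤ X → ∀ H₀ : ℝ, 1 ≤ H₀ →
    ∀ (us : Fin 3 → Pq) (β : Fin 3 → Eis), LD X K H₀ us β → ∀ z u : ℝ,
    (∀ i, (us i).z / Real.log X ≤ z) → (∃ i, (us i).z / Real.log X ≤ u) →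
    VN X H₀ M K (alb (fun i => pc h (Pt (π lam) s (us i))) β)
      (fun v γ => GqN d z u v (max 0 (nL X us β - γ)) + ε)

/-! ### the list -/

lemma us3_mem (a : Bd) (i : Fin 3) : ∃ j : Fin 5, us3 a i = a.us j := by
  fin_cases i
  · exact ⟨2, rfl⟩
  · exact ⟨3, rfl⟩
  · exact ⟨4, rfl⟩

/-- **the list of the three lumps at the data** -/
theorem ld_of {A d δ δ' B X : ℝ} {N : ℕ} {a : Bd × ℕ} {ps : List Pq}
    {q : (Option (Fin 3 ⊕ Fin 5) → ℝ) × (Kd → ℝ)} (hX : 1 < X) (H : FrL A d δ δ' B X N a ps q)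
    (ha : a.1.ok) {K : ℝ} (hBK : B ≤ K) (hz : ∀ j, (a.1.us j).z ≤ K * Real.log X)
    {β : Fin 3 → Eis} (hβ : ∀ i, IsPrim (β i)) (hβX : ∀ i, (nm (β i) : ℝ) ≤ X ^ K) :
    LD X K (X ^ δ') (us3 a.1) β := by
  have hL : 0 < Real.log X := Real.log_pos hX
  have hs1 := H.win.s₁
  have hs2 := H.win.s₂
  refine ⟨fun i => ?_, fun i => ?_, fun i => ?_, fun i => ?_, fun i => ?_, hβ, hβX⟩
  · obtain ⟨j, e⟩ := us3_mem a.1 i
    rw [e]; exact (ha.1 j).1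
  · obtain ⟨j, e⟩ := us3_mem a.1 i
    rw [e]; exact (ha.1 j).2
  · obtain ⟨j, e⟩ := us3_mem a.1 i
    rw [e]; exact hz j
  · obtain ⟨j, e⟩ := us3_mem a.1 i
    have h1 : Dq.s2 (a.1.us j) ≤ XT71.mx Dq.s2 (List.ofFn a.1.us) :=
      XT71.le_mx (List.mem_ofFn.2 ⟨j, rfl⟩)
    have h2 : (nm (a.1.us j).d : ℝ) ≤ X ^ B := h1.trans ((le_max_right _ _).trans hs2)
    rw [e]
    exact h2.trans (Real.rpow_le_rpow_of_exponent_le hX.le hBK)
  · obtain ⟨j, e⟩ := us3_mem a.1 i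
    have h1 : Dq.s1 (a.1.us j) ≤ XT71.mx Dq.s1 (List.ofFn a.1.us) :=
      XT71.le_mx (List.mem_ofFn.2 ⟨j, rfl⟩)
    have h2 := h1.trans ((le_max_right _ _).trans hs1)
    rw [e]
    exact h2

/-! ### the true numbers -/

/-- the true numbers : `i` = level, `λ = log (2 2^i) / log X`, `e = log nm e₀ / log X`, `nl` = total
length after the `β i` -/
structure TrNum (κ₀ η lv e nl w : ℝ) (z' : Cls) (N' : ℝ) : Prop where
  lv0 : 0 ≤ lv
  e0 : 0 ≤ e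
  hL : lv + e ≤ κ₀ * (z'.v + z'.s) + 3 * η
  hw : κ₀ * z'.v - η ≤ w
  hnl : κ₀ * (N' - z'.β) - 4 * η ≤ nl
  hN1 : nl - e ≤ κ₀ * z'.N1 N' + 5 * η
  hN1' : κ₀ * z'.N1 N' - 5 * η ≤ nl - e

/-- **the true numbers against a near class** -/
theorem tr_num {δ η X : ℝ} (hX : 1 < X) {a : Bd × ℕ} {ps : List Pq}
    {q : (Option (Fin 3 ⊕ Fin 5) → ℝ) × (Kd → ℝ)} (V : FrV δ (Real.log X) a ps q)
    (hδ : δ ≤ η) (hη : 0 ≤ η) (h2 : Real.log 2 ≤ η * Real.log X) {κ₀ : ℝ} (hκ : 0 < κ₀)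
    (hκ1 : κ₀ ≤ 1) {β : Fin 3 → Eis} {e₀ : Eis} {z' : Cls}
    (hv : |z'.v - Real.log 2 * a.2 / (κ₀ * Real.log X)| ≤ η)
    (hb : |z'.β - lg (∏ i, β i) / (κ₀ * Real.log X)| ≤ η)
    (hs : |z'.s - lg e₀ / (κ₀ * Real.log X)| ≤ η) :
    TrNum κ₀ η (Real.log (2 * 2 ^ a.2) / Real.log X) (Real.log (nm e₀) / Real.log X)
      (nL X (us3 a.1) β) (Real.log 2 * a.2 / Real.log X) z' (cN (dn q.1) / κ₀) := by
  have hL : 0 < Real.log X := Real.log_pos hX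
  have l2 : 0 ≤ Real.log 2 := Real.log_nonneg (by norm_num)
  have d1 : ∀ y : ℝ, y / (κ₀ * Real.log X) = y / Real.log X / κ₀ := fun y => by
    rw [div_div, mul_comm κ₀]
  rw [d1] at hv hb hs
  obtain ⟨w, hw⟩ : ∃ w, w = Real.log 2 * a.2 / Real.log X := ⟨_, rfl⟩
  obtain ⟨b, hbd⟩ : ∃ b, b = lg (∏ i, β i) / Real.log X := ⟨_, rfl⟩
  obtain ⟨e, hed⟩ : ∃ e, e = Real.log (nm e₀) / Real.log X := ⟨_, rfl⟩
  have he' : lg e₀ / Real.log X = e := hed.symm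
  rw [← hw] at hv ⊢
  rw [← hbd] at hb
  rw [he'] at hs
  rw [← hed]
  have m : ∀ {y c : ℝ}, |y - c / κ₀| ≤ η → κ₀ * y - η ≤ c ∧ c ≤ κ₀ * y + η := by
    intro y c h
    obtain ⟨h1, h2⟩ := abs_le.mp h
    have e1 : κ₀ * (c / κ₀) = c := by field_simp
    have h3 := mul_le_mul_of_nonneg_left h1 hκ.le
    have h4 := mul_le_mul_of_nonneg_left h2 hκ.le
    have h5 : κ₀ * η ≤ η := by nlinarith
    constructor <;> nlinarith
  obtain ⟨v1, v2⟩ := m hv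
  obtain ⟨b1, b2⟩ := m hb
  obtain ⟨s1, s2⟩ := m hs
  have hlv : Real.log (2 * 2 ^ a.2) / Real.log X = Real.log 2 / Real.log X + w := by
    rw [Real.log_mul (by norm_num) (by positivity), Real.log_pow, hw, ← add_div]
    ring_nf
  have h2' : Real.log 2 / Real.log X ≤ η := by rw [div_le_iff₀ hL]; exact h2
  have h20 : 0 ≤ Real.log 2 / Real.log X := div_nonneg l2 hL.le
  have hw0 : 0 ≤ w := by rw [hw]; positivity
  have he0 : 0 ≤ e := by
    rw [hed]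
    exact div_nonneg (Real.log_natCast_nonneg _) hL.le
  have u : ∀ i, |(a.1.us i).z / Real.log X - cu (dn q.1) i| ≤ η := by
    intro i
    have h := V.u i
    have e1 : (a.1.us i).z / Real.log X - cu (dn q.1) i =
        ((a.1.us i).z - cu (dn q.1) i * Real.log X) / Real.log X := by field_simp
    rw [e1, abs_div, abs_of_pos hL, div_le_iff₀ hL]
    exact h.trans (mul_le_mul_of_nonneg_right hδ hL.le)
  have u2 := abs_le.mp (u 2)
  have u3 := abs_le.mp (u 3)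
  have u4 := abs_le.mp (u 4)
  have hnl : nL X (us3 a.1) β = (a.1.us 2).z / Real.log X + (a.1.us 3).z / Real.log X +
      (a.1.us 4).z / Real.log X - b := by
    unfold TEM792.nL
    rw [Fin.sum_univ_three, hbd]
    show ((a.1.us 2).z + (a.1.us 3).z + (a.1.us 4).z - Real.log (nm (∏ i, β i))) / Real.log X = _
    unfold E4Dic352.lg
    ring
  have hN : cN (dn q.1) = cu (dn q.1) 2 + cu (dn q.1) 3 + cu (dn q.1) 4 := rfl
  have eN : κ₀ * (cN (dn q.1) / κ₀) = cN (dn q.1) := by field_simp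
  have eN1 : κ₀ * z'.N1 (cN (dn q.1) / κ₀) = cN (dn q.1) - κ₀ * z'.β - κ₀ * z'.s := by
    unfold Cls.N1
    rw [mul_sub, mul_sub, eN]
  refine ⟨?_, he0, ?_, ?_, ?_, ?_, ?_⟩
  · rw [hlv]; linarith
  · rw [hlv, mul_add]; linarith
  · linarith
  · rw [mul_sub, eN, hnl]; linarith
  · rw [eN1, hnl]; linarith
  · rw [eN1, hnl]; linarith

/-- the final estimate -/
lemma fin_T {X κ₀ η lv e nl w δ' t E : ℝ} {z' : Cls} {N' : ℝ} {M i : ℕ} {Xw ε : ℝ} (hX : 1 < X)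
    (hT : TrNum κ₀ η lv e nl w z' N') (hXw : 0 < Xw) (h1 : Real.log Xw = nl * Real.log X)
    (h2 : Real.log 2 * i = w * Real.log X) (hδ : δ' * M ≤ ε / 8)
    (hE : t + ε / 4 + 2 * η - κ₀ * (z'.v + (N' - z'.β)) / 3 ≤ E) (hη : 0 ≤ η) :
    (X ^ δ') ^ M * X ^ (t + ε / 8) * (Xw * 2 ^ i) ^ (-(1 / 3) : ℝ) ≤ X ^ E := by
  have hX0 : 0 < X := by linarith
  have e1 : Xw * 2 ^ i = X ^ (nl + w) := by
    rw [← Real.exp_log (show 0 < Xw * 2 ^ i by positivity), Real.rpow_def_of_pos hX0,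
      Real.log_mul hXw.ne' (by positivity), Real.log_pow, h1]
    congr 1
    linarith
  rw [e1, ← Real.rpow_mul hX0.le, ← Real.rpow_natCast, ← Real.rpow_mul hX0.le,
    ← Real.rpow_add hX0, ← Real.rpow_add hX0]
  refine Real.rpow_le_rpow_of_exponent_le hX.le ?_
  have a1 := hT.hw
  have a2 := hT.hnl
  nlinarith

set_option maxHeartbeats 2000000 in
/-- **the `T`-numbers of the large sieve half** -/
theorem tnumU_of {π : Λ → DPar} {h : ℝ → ℝ} {c₀ : ℝ} (hh : PU h c₀) {A d : ℝ}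
    (hV : VNU π h d) (hd : 0 ≤ d) (hd1 : d ≤ 1 / 8) (hA0 : 2 / 3 ≤ A) (hA : A ≤ 1)
    (hA1 : 16 * (1 - A) ≤ d) (e0 r : ℝ) (Bf : ℝ → ℝ → ℝ → ℝ)
    {Jf : ℝ → ℝ → ℝ → Finset (Eis × Eis)} (hJf : ∀ l N z, OKJ (Jf l N z)) :
    TNumU π h A d e0 r Bf Jf := by
  classical
  intro ε hε
  obtain ⟨η, hη, hη1, hη2⟩ : ∃ η : ℝ, 0 < η ∧ η ≤ 1 / 100 ∧ η ≤ ε / 300 :=
    ⟨min (1 / 100) (ε / 300), by positivity, min_le_left _ _, min_le_right _ _⟩
  refine ⟨η, hη, ?_⟩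
  intro lam N B hD
  by_cases hlam : lam.2 ∈ SM (π lam.1).n
  swap
  · exact ⟨1, one_pos, 2, by norm_num, fun X _ δ ε' _ _ a ps q _ _ h _ => absurd h hlam⟩
  obtain ⟨R, H₀, hR0, -, hR, -⟩ := bdd_PU hh
  obtain ⟨B₁, hB₁⟩ : ∃ B₁ : ℝ, B₁ = max B 3 := ⟨_, rfl⟩
  have hB3 : 3 ≤ B₁ := by rw [hB₁]; exact le_max_right _ _
  have hBB : B ≤ B₁ := by rw [hB₁]; exact le_max_left _ _
  obtain ⟨B', hB'⟩ : ∃ B' : ℝ, B' = 1 + B₁ + |e0| * B₁ := ⟨_, rfl⟩
  have hp0 : 0 ≤ |e0| * B₁ := mul_nonneg (abs_nonneg _) (by linarith)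
  have hB'1 : 1 ≤ B' := by rw [hB']; linarith
  have hB'2 : B₁ ≤ B' := by rw [hB']; linarith
  have hB'3 : |e0| * B₁ ≤ B' := by rw [hB']; linarith
  obtain ⟨K, hK⟩ : ∃ K : ℝ, K = 4 * B' + 1 := ⟨_, rfl⟩
  have hK1 : 1 ≤ K := by rw [hK]; linarith
  have hKB : B' ≤ K := by rw [hK]; linarith
  obtain ⟨M, GM⟩ := hV (ε / 8) (by positivity) (2 * K) (by linarith) lam.1
  obtain ⟨X₁, hX₁, G1⟩ := GM M le_rfl lam.2 hlam
  obtain ⟨X₂, hX₂, G2⟩ := twa_num (2 * (3 * R)) (by positivity) (show 0 < ε / 8 by positivity) K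
    hK1 M
  refine ⟨ε / (8 * (M + 1)), by positivity,
    max (max X₁ X₂) (max (100 + Real.exp r) (Real.exp (Real.log 2 / η))),
    lt_max_of_lt_left (lt_max_of_lt_left hX₁), ?_⟩
  intro X hXX δ ε' hδ hε' a ps q hF ha hlam' haP x hx z' hok hv hb hs b₀
  have hXX₁ : X₁ ≤ X := ((le_max_left _ _).trans (le_max_left _ _)).trans hXX
  have hXX₂ : X₂ ≤ X := ((le_max_right _ _).trans (le_max_left _ _)).trans hXX
  have hXX₃ : 100 + Real.exp r ≤ X := ((le_max_left _ _).trans (le_max_right _ _)).trans hXX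
  have hXX₄ : Real.exp (Real.log 2 / η) ≤ X := ((le_max_right _ _).trans (le_max_right _ _)).trans hXX
  have her := Real.exp_pos r
  have hX100 : 100 ≤ X := by linarith
  have hX1 : 1 < X := by linarith
  have hX0 : 0 < X := by linarith
  have hL : 0 < Real.log X := Real.log_pos hX1
  have h2 : Real.log 2 ≤ η * Real.log X := by
    have h1 := Real.log_le_log (Real.exp_pos _) hXX₄
    rw [Real.log_exp, div_le_iff₀ hη] at h1
    linarith
  -- the box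
  have hSq : Sq5 A d (dn q.1) q.2 := hF.dom.1
  have hv0 : 0 ≤ q.1 none := hF.dom.2.1
  have hκ89 := hSq.toNr5.κ0
  have hκ1 := hSq.toNr5.κ1
  have BX := bx4 hd hd1 hA hA1 hSq hv0 hF.low
  have V : FrV δ (Real.log X) a ps q := frV hF hX1
  obtain ⟨κ₀, hκ₀⟩ : ∃ κ₀ : ℝ, κ₀ = cκ (dn q.1) := ⟨_, rfl⟩
  rw [← hκ₀] at hok hv hb hs hκ89 hκ1 BX ⊢
  have hκ0 : 0 < κ₀ := by linarith
  have hTr := tr_num hX1 V hδ hη.le h2 hκ0 hκ1 hv hb hs
  obtain ⟨y1, y2⟩ := y_of hSq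
  rw [← hκ₀] at y1 y2
  -- sizes
  have hFr := fr_of_frL hA0 (by linarith) hX1 hF ha haP hBB hB3
  have HY := hFr.toY (e0 := e0) (r := r) hX100 (by linarith) hB'1 hB'2 hB'3
  have hβ : ∀ i, IsPrim (x.β i) := (T3_spec hx.β).1
  have he₀ := (mem_S (Real.exp_pos _).le).mp hx.e₀
  have hXK : X ^ B' ≤ X ^ K := Real.rpow_le_rpow_of_exponent_le hX1.le hKB
  have hXK2 : X ^ K ≤ X ^ (2 * K) := Real.rpow_le_rpow_of_exponent_le hX1.le (by linarith)
  have hX4 : (X ^ B') ^ 4 ≤ X ^ K := by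
    rw [← Real.rpow_natCast, ← Real.rpow_mul hX0.le]
    refine Real.rpow_le_rpow_of_exponent_le hX1.le ?_
    push_cast
    rw [hK]
    linarith
  have hβK : ∀ i, (nm (x.β i) : ℝ) ≤ X ^ (2 * K) := by
    intro i
    have h1 := E4Us512.mem_PT (SSb54.mem_PTb.mp hx.β).1
    have h3 : (nm (x.β i) : ℝ) ≤ (X ^ B') ^ 4 := by
      refine le_trans ?_ (Y3_le HY)
      exact_mod_cast (mem_primBall.mp (h1 i)).1
    exact h3.trans (hX4.trans hXK2)
  have hzK : ∀ j, (a.1.us j).z ≤ 2 * K * Real.log X := by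
    intro j
    have h1 := Real.log_le_log (Real.exp_pos _) (HY.u j)
    rw [Real.log_exp, Real.log_rpow hX0] at h1
    nlinarith
  have he₀K : (nm x.e₀ : ℝ) ≤ X ^ K := (he₀.1.trans HY.e0l).trans hXK
  have hiK : (2 * 2 ^ a.2 : ℝ) ≤ X ^ K := by
    have h1 := HY.lv
    calc (2 * 2 ^ a.2 : ℝ) ≤ X * X ^ B' := by
          have : (2 : ℝ) ≤ X := by linarith
          gcongr
      _ = X ^ (1 + B') := by rw [Real.rpow_add hX0, Real.rpow_one]
      _ ≤ X ^ K := Real.rpow_le_rpow_of_exponent_le hX1.le (by rw [hK]; linarith)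
  have hδ'0 : 0 < ε / (8 * ((M : ℝ) + 1)) := by positivity
  have hLD := ld_of (K := 2 * K) hX1 hF ha (by linarith) hzK hβ hβK
  have hH1 : 1 ≤ X ^ (ε / (8 * ((M : ℝ) + 1))) := Real.one_le_rpow hX1.le hδ'0.le
  -- the lumps
  have u : ∀ i, (a.1.us i).z / Real.log X ≤ cu (dn q.1) i + η := by
    intro i
    rw [div_le_iff₀ hL]
    have h1 := (abs_le.mp (V.u i)).2
    nlinarith
  obtain ⟨-, n2, n3, n4⟩ := hSq.anti
  have hz : ∀ i, (us3 a.1 i).z / Real.log X ≤ cu (dn q.1) 2 + η := by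
    intro i
    have u2 := u 2
    have u3 := u 3
    have u4 := u 4
    fin_cases i
    · exact u2
    · exact u3.trans (by linarith)
    · exact u4.trans (by linarith)
  have hu : ∃ i, (us3 a.1 i).z / Real.log X ≤ cu (dn q.1) 4 + η := ⟨2, u 4⟩
  have hVN := G1 X hXX₁ (X ^ (ε / (8 * ((M : ℝ) + 1)))) hH1 (us3 a.1) x.β hLD _ _ hz hu
  have ef : (fun i => pc h (Pt (π lam.1) lam.2 (us3 a.1 i))) = f3 (π lam.1) h lam.2 a.1 := rfl
  rw [ef] at hVN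
  have hAdm := Adm_f3 hR0 hR (π lam.1) lam.2 a.1 hβ (le_refl _)
  -- the true numbers
  obtain ⟨lv, hlv⟩ : ∃ lv, lv = Real.log (2 * 2 ^ a.2) / Real.log X := ⟨_, rfl⟩
  obtain ⟨e, he⟩ : ∃ e, e = Real.log (nm x.e₀) / Real.log X := ⟨_, rfl⟩
  obtain ⟨nl, hnl⟩ : ∃ nl, nl = nL X (us3 a.1) x.β := ⟨_, rfl⟩
  rw [← hlv, ← he, ← hnl] at hTr
  have hlev := lev_le BX hok
  have hx36 : cx' (dn q.1) / κ₀ ≤ 1 / 36 := by
    have := BX.d0
    rcases BX.shr with h | ⟨h, -, -⟩ <;> linarith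
  have hN1p : 9 / 20 ≤ z'.N1 (cN (dn q.1) / κ₀) := by
    have b1 := hok.hβ
    have b2 := hok.h64
    unfold Cls.N1
    linarith
  obtain ⟨n1, hn1⟩ : ∃ n1, n1 = z'.N1 (cN (dn q.1) / κ₀) := ⟨_, rfl⟩
  have hκn : 2 / 5 ≤ κ₀ * n1 := by rw [hn1]; nlinarith
  have hκlev : κ₀ * (z'.v + z'.s) ≤ κ₀ * n1 := by
    rw [hn1]; exact mul_le_mul_of_nonneg_left hlev hκ0.le
  have t1 := hTr.hL
  have t2 := hTr.hN1
  have t3 := hTr.hN1'
  rw [← hn1] at t2 t3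
  have hpos : ∀ ξ : ℝ, 2 * ξ ≤ lv → max 0 (nl - (e + ξ)) = nl - e - ξ := by
    intro ξ hξ
    have := hTr.e0
    rw [max_eq_right]
    · ring
    · linarith
  have eκy : cu (dn q.1) 2 + η = κ₀ * (cu (dn q.1) 2 / κ₀) + η := by field_simp
  have eκu : cu (dn q.1) 4 + η = κ₀ * (cu (dn q.1) 4 / κ₀) + η := by field_simp
  have hown : GqN d (cu (dn q.1) 2 + η) (cu (dn q.1) 4 + η) (lv + e) (nl - e) ≤
      κ₀ * (z'.tT (cN (dn q.1) / κ₀) (cu (dn q.1) 4 / κ₀) +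
        2 / 3 * d * z'.N1 (cN (dn q.1) / κ₀)) + 5 * (5 * η) :=
    own_Gq BX hok y1 y2 hκ0.le (by positivity) (by rw [← hn1]; linarith) (by linarith)
      (by rw [eκy]; linarith) (by rw [eκu]; linarith)
  -- the two numbers
  have hF0 : ∀ ξ : ℝ, 0 ≤ ξ → 2 * ξ ≤ lv →
      GqN d (cu (dn q.1) 2 + η) (cu (dn q.1) 4 + η) (lv + e - 2 * ξ)
        (max 0 (nl - (e + ξ))) + ε / 8 ≤
      κ₀ * (z'.tT (cN (dn q.1) / κ₀) (cu (dn q.1) 4 / κ₀) +
        2 / 3 * d * z'.N1 (cN (dn q.1) / κ₀)) + 25 * η + ε / 8 - (2 + 0) * ξ := by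
    intro ξ h0 h1
    rw [hpos ξ h1]
    have := gqN_child (z := cu (dn q.1) 2 + η) (u := cu (dn q.1) 4 + η) (v := lv + e)
      (n := nl - e) hd h0
    linarith
  have hF1 : ∀ ξ : ℝ, 0 ≤ ξ → 2 * ξ ≤ lv →
      GqN d (cu (dn q.1) 2 + η) (cu (dn q.1) 4 + η) (lv + e - 2 * ξ)
        (max 0 (nl - (e + ξ))) + ε / 8 ≤
      max (lv + e + (nl - e) + min (cu (dn q.1) 4 + η) ((nl - e) / 3))
        (5 / 3 * (nl - e) + 2 / 3 * (lv + e)) + ε / 8 - (2 + 1) * ξ := by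
    intro ξ h0 h1
    rw [hpos ξ h1]
    have := gqN_h1 (d := d) (z := cu (dn q.1) 2 + η) (u := cu (dn q.1) 4 + η) (v := lv + e)
      (n := nl - e) h0 (by linarith [hTr.e0])
    linarith
  have hXw : 0 < Real.exp (a3 a.1 - Real.log (nm (∏ i, x.β i))) := Real.exp_pos _
  have hYw : 0 ≤ Real.exp (a3 a.1 - Real.log (nm (∏ i, x.β i)) + 3 * R) := (Real.exp_pos _).le
  have hlXw : Real.log (Real.exp (a3 a.1 - Real.log (nm (∏ i, x.β i)))) = nl * Real.log X := by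
    rw [Real.log_exp, hnl]
    unfold TEM792.nL
    rw [div_mul_cancel₀ _ hL.ne', VFa436.sum_us3]
  have hw2 : Real.log 2 * a.2 = Real.log 2 * a.2 / Real.log X * Real.log X := by
    rw [div_mul_cancel₀ _ hL.ne']
  have hδM : ε / (8 * ((M : ℝ) + 1)) * M ≤ ε / 8 := by
    rw [div_mul_eq_mul_div, div_le_div_iff₀ (by positivity) (by norm_num)]
    nlinarith [Nat.cast_nonneg (α := ℝ) M]
  have k0 := G2 X hXX₂ (X ^ (ε / (8 * ((M : ℝ) + 1)))) hH1 _ _ hYw hXw _ hAdm _ hVN Jf hJf a hiK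
    (xJB Jf a x b₀) xJB_sub x.e₀ he₀.2.1 he₀K 0 _ (fun ξ h0 h1 => by
      rw [← hlv] at h1 ⊢
      rw [← he, ← hnl]
      exact hF0 ξ h0 h1)
  have k1 := G2 X hXX₂ (X ^ (ε / (8 * ((M : ℝ) + 1)))) hH1 _ _ hYw hXw _ hAdm _ hVN Jf hJf a hiK
    (xJB Jf a x b₀) xJB_sub x.e₀ he₀.2.1 he₀K 1 _ (fun ξ h0 h1 => by
      rw [← hlv] at h1 ⊢
      rw [← he, ← hnl]
      exact hF1 ξ h0 h1)
  refine ⟨k0.trans (fin_T hX1 hTr hXw hlXw hw2 hδM ?_ hη.le), ?_⟩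
  · unfold tEx
    linarith
  · rcases le_total (max 0 (max (z'.v + z'.s + z'.N1 (cN (dn q.1) / κ₀) +
      z'.u1 (cN (dn q.1) / κ₀) (cu (dn q.1) 4 / κ₀)) (5 / 3 * z'.N1 (cN (dn q.1) / κ₀) +
        2 / 3 * (z'.v + z'.s)) - z'.tT (cN (dn q.1) / κ₀) (cu (dn q.1) 4 / κ₀)))
      (z'.v1 / 2) with hc | hc
    · left
      refine k1.trans (fin_T hX1 hTr hXw hlXw hw2 hδM ?_ hη.le)
      have hd0 : z'.d0 (cN (dn q.1) / κ₀) (cu (dn q.1) 4 / κ₀) =
          max 0 (max (z'.v + z'.s + z'.N1 (cN (dn q.1) / κ₀) +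
            z'.u1 (cN (dn q.1) / κ₀) (cu (dn q.1) 4 / κ₀)) (5 / 3 * z'.N1 (cN (dn q.1) / κ₀) +
              2 / 3 * (z'.v + z'.s)) - z'.tT (cN (dn q.1) / κ₀) (cu (dn q.1) 4 / κ₀)) := by
        unfold Cls.d0
        exact min_eq_left hc
      obtain ⟨Mx, hMx⟩ : ∃ Mx, Mx = max (z'.v + z'.s + z'.N1 (cN (dn q.1) / κ₀) +
            z'.u1 (cN (dn q.1) / κ₀) (cu (dn q.1) 4 / κ₀)) (5 / 3 * z'.N1 (cN (dn q.1) / κ₀) +
              2 / 3 * (z'.v + z'.s)) := ⟨_, rfl⟩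
      rw [← hMx] at hd0
      have m0 : Mx - z'.tT (cN (dn q.1) / κ₀) (cu (dn q.1) 4 / κ₀) ≤
          z'.d0 (cN (dn q.1) / κ₀) (cu (dn q.1) 4 / κ₀) := by
        rw [hd0]; exact le_max_right _ _
      have m1 : z'.v + z'.s + n1 + z'.u1 (cN (dn q.1) / κ₀) (cu (dn q.1) 4 / κ₀) ≤ Mx := by
        rw [hMx, hn1]; exact le_max_left _ _
      have m2 : 5 / 3 * n1 + 2 / 3 * (z'.v + z'.s) ≤ Mx := by
        rw [hMx, hn1]; exact le_max_right _ _
      have m3 := mul_le_mul_of_nonneg_left m0 hκ0.le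
      have m4 := mul_le_mul_of_nonneg_left m1 hκ0.le
      have m5 := mul_le_mul_of_nonneg_left m2 hκ0.le
      have mu : min (cu (dn q.1) 4 + η) ((nl - e) / 3) ≤
          κ₀ * z'.u1 (cN (dn q.1) / κ₀) (cu (dn q.1) 4 / κ₀) + 2 * η := by
        have e1 : κ₀ * z'.u1 (cN (dn q.1) / κ₀) (cu (dn q.1) 4 / κ₀) =
            min (κ₀ * (cu (dn q.1) 4 / κ₀)) (κ₀ * (n1 / 3)) := by
          unfold Cls.u1
          rw [mul_min_of_nonneg _ _ hκ0.le, hn1]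
        rw [e1, ← min_add_add_right]
        exact min_le_min (by rw [eκu]; linarith) (by linarith)
      have hmx : max (lv + e + (nl - e) + min (cu (dn q.1) 4 + η) ((nl - e) / 3))
          (5 / 3 * (nl - e) + 2 / 3 * (lv + e)) ≤ κ₀ * Mx + 11 * η :=
        max_le (by linarith) (by linarith)
      have hdn : 0 ≤ κ₀ * (2 / 3 * d * n1) := by
        have : 0 ≤ n1 := by rw [hn1]; linarith
        positivity
      unfold tEx
      rw [← hn1]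
      linarith
    · right
      unfold Cls.d0
      rw [min_eq_right hc]

end Crest.Agent.R017.XHn512
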