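import Crest.Agent.R017.TEU_792
import Crest.Agent.R017.XHg_512

/-!
# Row 17, C70/E4 (version 7): `VNU` from helper792's `vn_gq` (helper512)

* **`vnU_of`** : the premise of `tnumU_of` / `xnumU_of`
-/

set_option autoImplicit false

noncomputable section

open scoped ComplexConjugate

namespace Crest.Agent.R017.XHn512

open Crest.Agent.R012 Crest.Agent.R012.Eis
open Crest.Agent.R017.FE47 (PU)
open Crest.Agent.R017.Prov71 hiding K0
open Crest.Agent.R017.B770
open Crest.Agent.R017.TM708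
open Crest.Agent.R017.TK708 (AllT)
open Crest.Agent.R017.OwA90 (FarOwn ShOwn NearOwn)

lemma gqN_eq (d z u v n : ℝ) : TEX792.Gq d z u v n = GqN d z u v n := rfl

/-- **`VNU`** -/
theorem vnU_of {Λ : Type*} {π : Λ → DPar} {h : ℝ → ℝ} {d c₀ : ℝ} (hpu : PU h c₀)
    (hP : ∀ lam, (π lam).OK) (hA : AllT d (ex Dq fun lam => S0p (π lam) h))
    (hF : FarOwn d (ex Dq fun lam => S0p (π lam) h))
    (hS : ShOwn (ex Dq fun lam => S0p (π lam) h))
    (hN : NearOwn d (ex Dq fun lam => S0p (π lam) h)) (hd : 0 ≤ d) : VNU π h d := by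
  intro ε hε K hK lam
  obtain ⟨M₀, G⟩ := TEX792.vn_gq hpu hP hA hF hS hN hd hε K hK lam
  refine ⟨M₀, fun M hM s hs => ?_⟩
  obtain ⟨X₀, h1, G2⟩ := G M hM s hs
  exact ⟨X₀, h1, fun X hX H₀ hH us β hL z u hz hu => G2 X hX H₀ hH us β hL z u hz hu⟩

end Crest.Agent.R017.XHn512
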