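import Crest.Agent.R017.StrN_436
import Crest.Agent.R017.StrF_699
import Crest.Agent.R017.StrT_858
import Crest.Agent.R017.E5M_372
import Crest.Agent.R017.XHj_512
import Crest.Agent.R017.NrA_986
import Crest.Agent.R017.SgN_986

/-!
# Row 17, T.3 : the field `str` of `LeafN` from its open inputs (helper858)

* `StrIn d h r` : the open inputs
* `str_of` : `∃ μ > 0, StrU πN h (7/8 + d) (SfP πN h (1/64) r bfO Jo nL) (AA d) d μ`
-/

set_option autoImplicit false

noncomputable section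

namespace Crest.Agent.R017.StrFin858

open Crest.Agent.R012 Crest.Agent.R012.Eis
open Crest.Agent.R017.FE47 (PU cx)
open Crest.Agent.R017.Sup271 (NPm)
open Crest.Agent.R017.B770 Crest.Agent.R017.Prov71
open Crest.Agent.R017.ER911 Crest.Agent.R017.SC777
open Crest.Agent.R017.E5B71 Crest.Agent.R017.E5L770
open Crest.Agent.R017.E5H319 Crest.Agent.R017.E5Hg48
open Crest.Agent.R017.Fin4 Crest.Agent.R017.Fin5 Crest.Agent.R017.Fin6
open Crest.Agent.R017.P1l54 (Jo)
open Crest.Agent.R017.P1t54 (ParS)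
open Crest.Agent.R017.Sg986 (AA AA_lt AA_eq AA_ge)
open Crest.Agent.R017.NrA986 (NearAll)
open Crest.Agent.R017.OwA90 (FarOwn ShOwn)
open Crest.Agent.R017.FN708 (far3 short_le)
open Crest.Agent.R017.StrF699 (AtB hx_of)
open Crest.Agent.R017.StrT858 (SPs tails_of)
open Crest.Agent.R017.XHn512 (VNU LTc PVc)
open Crest.Agent.R017.E4U164 (low5)

variable {d : ℝ} {r s s₀ : EF}

/-- far lists at the own family -/
theorem farOwn_of (R : ExpRules (7 / 8 + d) r s) (Rm : ExpRGFz (7 / 8 + d) r s s₀) (hd : 0 ≤ d)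
    (hd8 : 8 * d ≤ 1) : FarOwn d s₀ := by
  intro K v A B C hf h2v
  have := far3 R Rm hd hd8 (m := 0) (a := 0) (by rw [zero_add]; exact hf) le_rfl le_rfl h2v
  have e : 2 * d * (C + 0 + 0) = 2 * d * C := by ring
  linarith

/-- short lists at the own family -/
theorem shOwn_of (R : ExpRules (7 / 8 + d) r s) (Rm : ExpRGFz (7 / 8 + d) r s s₀) :
    ShOwn s₀ := by
  intro v z₁ z₂ z₃ hv h1 h2 h3 hs
  have := short_le R Rm.toExpS0 (w := 0) hv h1 h2 h3 le_rfl (by linarith)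
  linarith

/-- **the open inputs of the field `str` of T.3** -/
structure StrIn (d : ℝ) (h : ℝ → ℝ) (r : ℝ) : Prop where
  /-- the field of near-equal lists -/
  near : NearAll d (ex Dq (fun lam => S0p (πN lam) h))
  /-- the real statements of the cubic pairs -/
  eD : Gl918.E4D
  eF : Gl918.E4F
  /-- the structured closers of the cubic pairs -/
  lt : AtB πN h LTc (AA d) d r Jo
  pv : AtB πN h PVc (AA d) d r Jo
  /-- the moments of the tail at every cut -/
  sp : ∃ μ : ℝ, 0 < μ ∧ SPs πN h (AA d) d r μ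
  /-- the high levels -/
  hi : ∃ σ : ℝ, 0 < σ ∧ 2 * σ ≤ d ∧
    (∀ t, 0 < t → t ≤ 1 → t / 4 < 1 / 64 → Hi948.HNDg πN h (t / 4) (1 / 64) (ParS (AA d) d)
      (loT low5 d t σ) top5 (LR d)) ∧
    ∀ t, 0 < t → t ≤ 1 → Hi948.HNBg πN h (1 / 64) (t / 2) (ParS (AA d) d)
      (loT low5 d t σ) top5 (LR d)

/-- **the field `str` of `LeafN`** -/
theorem str_of {d : ℝ} (hd : 0 < d) (hd1 : d ≤ 1 / 42) {h : ℝ → ℝ} {c₀ : ℝ} (hpu : PU h c₀)
    (hB : BunA d h) (hR : RecA d h) {r : ℝ} (hr0 : 0 ≤ r) (hr : ∀ u : ℝ, cx h u ≠ 0 → |u| ≤ r)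
    (H : StrIn d h r) :
    ∃ μ : ℝ, 0 < μ ∧ StrU πN h (7 / 8 + d) (SfP πN h (1 / 64) r bfO Jo nL) (AA d) d μ := by
  have P : BunN d h := hB _ πN πN_ok πN_cl
  have PL : BunF πL d h := hB _ πL (fun lam => lam.2.1) (fun lam => lam.2.2)
  have G := hR _ πN πN_ok πN_cl clo_πN
  have hA := AA_ge hd1
  have hAlt := AA_lt hd
  have hA1 := AA_eq d
  have hown := NrA986.own_of_near P.rules G hd.le (by linarith) H.near
  have hV : VNU πN h d := XHn512.vnU_of hpu πN_ok
    (TK708.allT_of P.rules G.toExpS0 hd.le (by linarith))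
    (farOwn_of P.rules G hd.le (by linarith)) (shOwn_of P.rules G)
    (NrA986.nearOwn_of P.rules G hd.le (by linarith) H.near) hd.le
  have hJ : ∀ l N z, C70.OKJ (Jo l N z) := fun l N z => Sf770.okJ_JS (nL l N z)
  obtain ⟨μ₁, hμ₁, hS⟩ := H.sp
  obtain ⟨μ₂, hμ₂, HT⟩ := tails_of hpu πN_ok (fun lam k hk => πN_cl lam k hk) P hd hd1
    (by linarith) hAlt hA1 hown hμ₁ hS
  obtain ⟨σ, hσ, hσd, hND, hNB⟩ := H.hi
  refine ⟨min μ₂ (d / 32), by positivity, ?_⟩
  exact StrL436.strU_N hpu πN_ok (fun lam k hk => πN_cl lam k hk) (π' := πL)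
    (fun lam => lam.2.1) (fun lam k hk => lam.2.2 k hk) (fun P hP hN => ⟨⟨P, hP, hN⟩, rfl⟩)
    P.rules PL.rules PL.cpl hd (by linarith) (by linarith) hAlt.le hA1
    (NrA986.fe2L_of P.rules G hd.le (by linarith) H.near) hr0 hr
    (min_le_right _ _) le_rfl (e0 := 1 / 64) (by norm_num) le_rfl r (K := 1) le_rfl hσ hσd
    (hx_of hpu πN_ok H.eD H.eF hJ hd.le (by linarith) (by linarith) hAlt.le hA1
      (min_le_right _ _) le_rfl hV H.lt H.pv (by norm_num) le_rfl) hND hNB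
    (HT _ (min_le_left _ _) _ (by norm_num) le_rfl _ fun _ _ _ => le_rfl)
    (fun t h1 h2 => HT _ (min_le_left _ _) _ (le_min (by norm_num) (by linarith))
      (min_le_left _ _) _ fun _ _ _ => min_le_left _ _)
    (E5M372.momU_372 hpu πN_ok P.rules P.cpl hd.le (by linarith))

end Crest.Agent.R017.StrFin858
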