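import Crest.Agent.R017.CovMap_702
import Crest.Agent.R017.Cov34_325
import Crest.Agent.R017.Cov5b_325

/-!
# Row 17, T.2 : the trees for three, four and five big lumps (helper325)
-/

set_option autoImplicit false

namespace Crest.Agent.R017.Tree345_325

open Crest.Agent.R017.Cov499 Crest.Agent.R017.CovMap702 Crest.Agent.R017.CovGlue741

theorem P_le (u : ℝ) : 1 / (2 * lw u) ≤ 1 / 2 := by
  unfold lw
  split_ifs with h1 h2 h3 h4 h5
  · norm_num
  · norm_num
  · norm_num
  · norm_num
  · have h : (1 : ℝ) / (2 * (2 / (3 * u))) = 3 / 4 * u := by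
      have : u ≠ 0 := by intro h; apply h1; rw [h]; norm_num
      field_simp
      ring
    rw [h]; linarith
  · norm_num

theorem P_half {u : ℝ} (h : u ≤ 1 / 2) : 1 / (2 * lw u) ≤ 3 / 8 := by
  unfold lw
  split_ifs with h1 h2 h3 h4
  · norm_num
  · norm_num
  · norm_num
  · norm_num
  · have h : (1 : ℝ) / (2 * (2 / (3 * u))) = 3 / 4 * u := by
      have : u ≠ 0 := by intro h; apply h1; rw [h]; norm_num
      field_simp
      ring
    rw [h]; linarith

theorem P_mid {u : ℝ} (h0 : 1 / 3 < u) (h : u ≤ 1 / 2) : 1 / (2 * lw u) = 3 / 4 * u := by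
  unfold lw
  rw [if_neg (by linarith), if_neg (by linarith), if_neg (by linarith), if_neg (by linarith),
    if_pos h]
  have : u ≠ 0 := by linarith
  field_simp
  ring

theorem P_third {u : ℝ} (h : u ≤ 1 / 3) : 1 / (2 * lw u) ≤ 1 / 4 := by
  unfold lw
  split_ifs with h1 h2 h3 <;> norm_num

theorem P_29 {u : ℝ} (h : u ≤ 2 / 9) : 1 / (2 * lw u) ≤ 1 / 6 := by
  unfold lw
  split_ifs with h1 h2 <;> norm_num

/-- **Tree 3** -/
theorem tree3 : Tree 3 := by
  intro w hw hlo hhi hS _ hP
  rw [Fin.sum_univ_three] at hP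
  have a01 : w 1 ≤ w 0 := hw (by decide)
  have a12 : w 2 ≤ w 1 := hw (by decide)
  have hs : (∑ j, w j) = w 0 + w 1 + w 2 := Fin.sum_univ_three _
  have h0 : 1 / 2 ≤ w 0 := by
    by_contra hc
    push Not at hc
    rcases le_or_gt (w 2) (1 / 3) with h2 | h2
    · have := P_half hc.le
      have := P_half (a01.trans hc.le)
      have := P_third h2
      linarith
    · have e0 := P_mid (u := w 0) (by linarith) hc.le
      have e1 := P_mid (u := w 1) (by linarith) (by linarith)
      have e2 := P_mid (u := w 2) h2 (by linarith)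
      rw [e0, e1, e2] at hP
      linarith
  have h1 : 2 / 9 ≤ w 1 := by
    by_contra hc
    push Not at hc
    have := P_le (w 0)
    have := P_29 hc.le
    have := P_29 (a12.trans hc.le)
    linarith
  have h := Cov34_325.cov3 w hlo hhi hS h0 h1
  exact ⟨h.1, fun v v0 v1 hv => Or.inl (h.2 v v0 v1 hv)⟩

/-- **Tree 4** -/
theorem tree4 : Tree 4 := by
  intro w hw hlo hhi hS _ hP
  rw [Fin.sum_univ_four] at hP
  have a01 : w 1 ≤ w 0 := hw (by decide)
  have a12 : w 2 ≤ w 1 := hw (by decide)
  have a23 : w 3 ≤ w 2 := hw (by decide)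
  have h0 : 1 / 3 ≤ w 0 := by
    by_contra hc
    push Not at hc
    have := P_third hc.le
    have := P_third (a01.trans hc.le)
    have := P_third ((a12.trans a01).trans hc.le)
    have := P_third ((a23.trans (a12.trans a01)).trans hc.le)
    linarith
  have h1 : 2 / 9 ≤ w 1 := by
    by_contra hc
    push Not at hc
    have := P_le (w 0)
    have := P_29 hc.le
    have := P_29 (a12.trans hc.le)
    have := P_29 ((a23.trans a12).trans hc.le)
    linarith
  have h := Cov34_325.cov4 w hw hlo hhi hS (Or.inl ⟨h0, h1⟩)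
  exact ⟨h.1, fun v v0 v1 hv => Or.inl (h.2 v v0 v1 hv)⟩

/-- **Tree 5** -/
theorem tree5 : Tree 5 := by
  intro w hw hlo hhi hS hN hP
  rw [Fin.sum_univ_five] at hP
  have a01 : w 1 ≤ w 0 := hw (by decide)
  have a12 : w 2 ≤ w 1 := hw (by decide)
  have a23 : w 3 ≤ w 2 := hw (by decide)
  have a34 : w 4 ≤ w 3 := hw (by decide)
  rcases le_or_gt (2 / 9) (w 2) with h2 | h2
  · have h := Cov5_325.cov5_hi w hw hlo hS hN h2
    exact ⟨h.1, fun v v0 v1 hv => Or.inl (h.2 v v0 (v1.trans (by norm_num)) hv)⟩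
  · have h0 : 1 / 3 ≤ w 0 := by
      by_contra hc
      push Not at hc
      have := P_third hc.le
      have := P_third (a01.trans hc.le)
      have := P_29 h2.le
      have := P_29 (a23.trans h2.le)
      have := P_29 ((a34.trans a23).trans h2.le)
      linarith
    have h := Cov5_325.cov5_big w hw hlo hS h0 h2.le
    exact ⟨h.1, fun v v0 v1 hv => Or.inl (h.2 v v0 v1 hv)⟩

end Crest.Agent.R017.Tree345_325
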