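import Crest.Agent.R017.CovMap2_702

/-!
# Row 17, T.2 : the roots of Tree 6 for the weights `lw2` (helper741, for 45)

`{Σ P > 1}`, `P u = 1 / (2 lw2 u)`, is contained in nine convex roots.
-/

set_option autoImplicit false

noncomputable section

namespace Crest.Agent.R017.Roots6741

open Crest.Agent.R017.CovMap702

theorem P1 {u : ℝ} (h : u ≤ 4 / 27) : 1 / (2 * lw2 u) ≤ 1 / 9 := by
  unfold lw2
  rw [if_pos h]
  norm_num

theorem P2 {u : ℝ} (h : u ≤ 4 / 21) : 1 / (2 * lw2 u) ≤ 1 / 7 := by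
  by_cases h1 : u ≤ 4 / 27
  · exact (P1 h1).trans (by norm_num)
  · unfold lw2
    rw [if_neg h1, if_pos h]
    norm_num

theorem P3 {u : ℝ} (h : u ≤ 1 / 5) : 1 / (2 * lw2 u) ≤ 3 / 20 := by
  by_cases h2 : u ≤ 4 / 21
  · exact (P2 h2).trans (by norm_num)
  · have h2' := not_le.1 h2
    have h1 : ¬ u ≤ 4 / 27 := not_le.2 (by linarith)
    unfold lw2
    rw [if_neg h1, if_neg h2, if_pos h]
    have hu : 0 < u := by linarith
    have e : 1 / (2 * (2 / (3 * u))) = 3 / 4 * u := by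
      field_simp
      norm_num
    rw [e]
    linarith

theorem P4 {u : ℝ} (h : u ≤ 2 / 9) : 1 / (2 * lw2 u) ≤ 1 / 6 := by
  by_cases h3 : u ≤ 1 / 5
  · exact (P3 h3).trans (by norm_num)
  · have h3' := not_le.1 h3
    have h1 : ¬ u ≤ 4 / 27 := not_le.2 (by linarith)
    have h2 : ¬ u ≤ 4 / 21 := not_le.2 (by linarith)
    unfold lw2
    rw [if_neg h1, if_neg h2, if_neg h3, if_pos h]
    norm_num

theorem P5 {u : ℝ} (h : u ≤ 1 / 3) : 1 / (2 * lw2 u) ≤ 1 / 4 := by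
  by_cases h4 : u ≤ 2 / 9
  · exact (P4 h4).trans (by norm_num)
  · have h4' := not_le.1 h4
    have h1 : ¬ u ≤ 4 / 27 := not_le.2 (by linarith)
    have h2 : ¬ u ≤ 4 / 21 := not_le.2 (by linarith)
    have h3 : ¬ u ≤ 1 / 5 := not_le.2 (by linarith)
    unfold lw2
    rw [if_neg h1, if_neg h2, if_neg h3, if_neg h4, if_pos h]
    norm_num

theorem P6 {u : ℝ} (h : u ≤ 1 / 2) : 1 / (2 * lw2 u) ≤ 3 / 8 := by
  by_cases h5 : u ≤ 1 / 3
  · exact (P5 h5).trans (by norm_num)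
  · have h5' := not_le.1 h5
    have h1 : ¬ u ≤ 4 / 27 := not_le.2 (by linarith)
    have h2 : ¬ u ≤ 4 / 21 := not_le.2 (by linarith)
    have h3 : ¬ u ≤ 1 / 5 := not_le.2 (by linarith)
    have h4 : ¬ u ≤ 2 / 9 := not_le.2 (by linarith)
    unfold lw2
    rw [if_neg h1, if_neg h2, if_neg h3, if_neg h4, if_neg h5, if_pos h]
    have hu : 0 < u := by linarith
    have e : 1 / (2 * (2 / (3 * u))) = 3 / 4 * u := by
      field_simp
      norm_num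
    rw [e]
    linarith

theorem P7 (u : ℝ) : 1 / (2 * lw2 u) ≤ 1 / 2 := by
  have h := one_le_lw2 u
  rw [div_le_div_iff₀ (by linarith) (by norm_num)]
  linarith

/-- for `1/3 ≤ u ≤ 1/2` the exact value `3 u / 4` -/
theorem P6' {u : ℝ} (h5 : 1 / 3 ≤ u) (h : u ≤ 1 / 2) : 1 / (2 * lw2 u) ≤ 3 / 4 * u := by
  rcases eq_or_lt_of_le h5 with h0 | h0
  · exact (P5 h0.ge).trans (by linarith)
  · have h1 : ¬ u ≤ 4 / 27 := not_le.2 (by linarith)
    have h2 : ¬ u ≤ 4 / 21 := not_le.2 (by linarith)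
    have h3 : ¬ u ≤ 1 / 5 := not_le.2 (by linarith)
    have h4 : ¬ u ≤ 2 / 9 := not_le.2 (by linarith)
    unfold lw2
    rw [if_neg h1, if_neg h2, if_neg h3, if_neg h4, if_neg (not_le.2 h0), if_pos h]
    have hu : 0 < u := by linarith
    have e : 1 / (2 * (2 / (3 * u))) = 3 / 4 * u := by
      field_simp
      norm_num
    rw [e]

/-- the roots of Tree 6 -/
theorem roots6 (w : Fin 6 → ℝ) (hw : Antitone w) (_h13 : ∀ j, 13 / 100 ≤ w j)
    (_hs : ∑ j, w j ≤ 4 / 3) (hP : 1 < ∑ j, 1 / (2 * lw2 (w j))) :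
    (1 ≤ 2 * w 0)
    ∨ (2 ≤ 9 * w 2 ∧ 2 * w 0 ≤ 1)
    ∨ (2 ≤ 9 * w 1 ∧ 4 ≤ 27 * w 3 ∧ 9 * w 2 ≤ 2 ∧ 2 * w 0 ≤ 1)
    ∨ (2 ≤ 9 * w 1 ∧ 1 ≤ 3 * w 0 ∧ 27 * w 3 ≤ 4 ∧ 9 * w 2 ≤ 2 ∧ 2 * w 0 ≤ 1)
    ∨ (2 ≤ 9 * w 0 ∧ 1 ≤ 5 * w 3 ∧ 4 ≤ 27 * w 4 ∧ 9 * w 1 ≤ 2 ∧ 3 * w 0 ≤ 1)
    ∨ (2 ≤ 9 * w 0 ∧ 1 ≤ 5 * w 2 ∧ 4 ≤ 27 * w 5 ∧ 9 * w 1 ≤ 2 ∧ 5 * w 3 ≤ 1 ∧ 3 * w 0 ≤ 1)
    ∨ (2 ≤ 9 * w 0 ∧ 4 ≤ 21 * w 3 ∧ 1 ≤ 5 * w 1 ∧ 4 ≤ 27 * w 5 ∧ 9 * w 1 ≤ 2 ∧ 5 * w 2 ≤ 1 ∧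
      3 * w 0 ≤ 1)
    ∨ (1 ≤ 3 * w 0 ∧ 4 ≤ 27 * w 3 ∧ 9 * w 1 ≤ 2 ∧ 2 * w 0 ≤ 1)
    ∨ (1 ≤ 3 * w 0 ∧ 1 ≤ 6 * w 1 ∧ 4 ≤ 27 * w 2 ∧ 27 * w 3 ≤ 4 ∧ 9 * w 1 ≤ 2 ∧ 2 * w 0 ≤ 1) := by
  have a01 : w 1 ≤ w 0 := hw (by decide)
  have a12 : w 2 ≤ w 1 := hw (by decide)
  have a23 : w 3 ≤ w 2 := hw (by decide)
  have a34 : w 4 ≤ w 3 := hw (by decide)
  have a45 : w 5 ≤ w 4 := hw (by decide)
  rw [Fin.sum_univ_six] at hP
  rcases le_or_gt 1 (2 * w 0) with h | h0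
  · exact Or.inl h
  refine Or.inr ?_
  rcases le_or_gt 2 (9 * w 2) with h | h2
  · exact Or.inl ⟨h, h0.le⟩
  refine Or.inr ?_
  rcases le_or_gt 2 (9 * w 1) with h1 | h1
  · rcases le_or_gt 4 (27 * w 3) with h | h3
    · exact Or.inl ⟨h1, h, h2.le, h0.le⟩
    refine Or.inr ?_
    rcases le_or_gt 1 (3 * w 0) with h | h
    · exact Or.inl ⟨h1, h, h3.le, h2.le, h0.le⟩
    exfalso
    have := P5 (u := w 0) (by linarith)
    have := P5 (u := w 1) (by linarith)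
    have := P4 (u := w 2) (by linarith)
    have := P1 (u := w 3) (by linarith)
    have := P1 (u := w 4) (by linarith)
    have := P1 (u := w 5) (by linarith)
    linarith
  refine Or.inr (Or.inr ?_)
  rcases le_or_gt 1 (3 * w 0) with h3 | h3
  · refine Or.inr (Or.inr (Or.inr ?_))
    have q0 := P6 (u := w 0) (by linarith)
    rcases le_or_gt 4 (27 * w 3) with h | h4
    · exact Or.inl ⟨h3, h, h1.le, h0.le⟩
    refine Or.inr ?_
    have q3 := P1 (u := w 3) (by linarith)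
    have q4 := P1 (u := w 4) (by linarith)
    have q5 := P1 (u := w 5) (by linarith)
    refine ⟨h3, ?_, ?_, h4.le, h1.le, h0.le⟩
    · by_contra hc
      have hc := not_le.1 hc
      have := P2 (u := w 1) (by linarith)
      have := P2 (u := w 2) (by linarith)
      linarith
    · by_contra hc
      have hc := not_le.1 hc
      have := P4 (u := w 1) (by linarith)
      have := P1 (u := w 2) (by linarith)
      linarith
  have q0 := P5 (u := w 0) (by linarith)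
  have q1 := P4 (u := w 1) (by linarith)
  have q2 := P4 (u := w 2) (by linarith)
  have q3 := P4 (u := w 3) (by linarith)
  have q4 := P4 (u := w 4) (by linarith)
  have q5 := P4 (u := w 5) (by linarith)
  have h9 : 2 ≤ 9 * w 0 := by
    by_contra hc
    have hc := not_le.1 hc
    have := P4 (u := w 0) (by linarith)
    linarith
  rcases le_or_gt 1 (5 * w 3) with h5 | h5
  · refine Or.inl ⟨h9, h5, ?_, h1.le, h3.le⟩
    by_contra hc
    have hc := not_le.1 hc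
    have := P1 (u := w 4) (by linarith)
    have := P1 (u := w 5) (by linarith)
    linarith
  refine Or.inr ?_
  have r3 := P3 (u := w 3) (by linarith)
  have r4 := P3 (u := w 4) (by linarith)
  have r5 := P3 (u := w 5) (by linarith)
  have h27 : 4 ≤ 27 * w 5 := by
    by_contra hc
    have hc := not_le.1 hc
    have := P1 (u := w 5) (by linarith)
    linarith
  rcases le_or_gt 1 (5 * w 2) with h6 | h6
  · exact Or.inl ⟨h9, h6, h27, h1.le, h5.le, h3.le⟩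
  refine Or.inr (Or.inl ⟨h9, ?_, ?_, h27, h1.le, h6.le, h3.le⟩)
  · by_contra hc
    have hc := not_le.1 hc
    have := P3 (u := w 2) (by linarith)
    have := P2 (u := w 3) (by linarith)
    have := P2 (u := w 4) (by linarith)
    have := P2 (u := w 5) (by linarith)
    linarith
  · by_contra hc
    have hc := not_le.1 hc
    have := P3 (u := w 1) (by linarith)
    have := P3 (u := w 2) (by linarith)
    linarith

end Crest.Agent.R017.Roots6741
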