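import Crest.Agent.R017.CovChk_74

/-!
# Row 17, hcore : certificates of the roots of `k = 6` (helper45)
-/

set_option autoImplicit false
set_option maxRecDepth 100000
set_option linter.all false

namespace Crest.Agent.R017.Tree6x45

open Crest.Agent.R017.Cov499 Crest.Agent.R017.CovFar74 Crest.Agent.R017.CovChk74

/-- tree AC1 -/
def tAC1 : Tree :=
 .split [-4, 3, 3, 3, 3, 3, 3, 9]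
 (.split [-4, 3, 3, 3, 3, 3, 3, 3]
  (.leaf ⟨2, 36, 1, [⟨0, [1], [0, 5], [], [], 0, 1, [29, 4, 0, 0, 0, 0, 4], [], [(1, []), (25, [0, 0, 50, 0, 0, 0, 0, 0, 1]), (75, [0, 0, 0, 0, 300, 600, 900, 1200, 12, 0, 100, 0, 0, 27]), (75, [0, 0, 0, 0, 1200, 2400, 3600, 4800, 48, 0, 400]), (25, [0, 0, 450, 0, 0, 0, 0, 0, 9]), (75, [0, 0, 0, 0, 150, 300, 450, 600, 6, 0, 50]), (75, [0, 0, 0, 0, 2400, 4800, 7200, 9600, 96, 0, 800, 0, 0, 27])]⟩, ⟨0, [1], [1, 2], [3], [4], 0, 0, [31, -4, 0, 0, 0, 0, -4], [], [(1, []), (25, [0, 0, 0, 0, 100, 200, 200, 200, 2]), (100, [0, 0, 650, 0, 900, 1800, 2700, 0, 13, 0, 300]), (25, [0, 0, 650, 0, 900, 1800, 0, 900, 22, 0, 300]), (25, [300, 0, 0, 0, 900, 1800, 900, 0, 0, 0, 0, 0, 0, 9]), (50, [0, 0, 75, 0, 50, 100, 0, 150,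 3, 0, 50]), (25, [0, 0, 400, 0, 0, 0, 0, 0, 8, 0, 300])]⟩], (1, [2]), (1, []), (1, [])⟩)
  (.leaf ⟨2, 24, 1, [⟨0, [1], [0, 4], [], [], 1, 1, [22, 0, 0, 0, 0, 0, 0, -9], [], [(1, []), (25, [0, 0, 50, 0, 0, 0, 0, 100, 1]), (20, [0, 0, 0, 0, 0, 0, 0, 0, 0, 0, 0, 0, 0, 3]), (25, [0, 0, 0, 0, 0, 0, 0, 0, 0, 0, 0, 0, 0, 9]), (200, [0, 0, 4800, 0, 0, 0, 0, 9600, 96, 0, 0, 0, 81]), (300, [200, 0, 0, 0, 600, 1200, 1800, 1800, 24, 0, 0, 0, 0, 9]), (100, [800, 0, 0, 0, 2400, 4800, 7200, 7200, 96, 0, 0, 0, 0, 33])]⟩, ⟨0, [1], [1, 2], [3], [5], 1, 0, [18, 0, 0, 0, 0, 0, 0, 9], [], [(1, []), (25, [0, 0, 0, 0, 100, 200, 200, 200, 2]), (500, [800, 0, 1200, 0, 2400, 4800, 7200, 9600, 0, 0, 0, 0, 0, 21]), (25, [200, 0, 300, 0, 600, 1200, 0, 600, 12, 0, 0, 0,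 0, 21]), (100, [0, 0, 0, 0, 4800, 9600, 9600, 9600, 96, 0, 0, 0, 0, 81]), (50, [50, 0, 75, 0, 50, 100, 0, 150, 3, 0, 0, 0, 0, 1]), (200, [1600, 0, 2400, 0, 0, 0, 0, 4800, 48, 0, 0, 0, 9])]⟩], (1, [0, 2]), (1, []), (1, [])⟩))
 (.leaf ⟨2, 36, 1, [⟨0, [1], [0, 5], [], [], 2, 2, [29, 4, 0, 0, 0, 0, 4], [], [(1, []), (25, [0, 50, 0, 0, 0, 0, 0, 1]), (25, [200, 250, 0, 600, 1200, 1800, 2400, 29]), (25, [600, 700, 0, 1800, 3600, 5400, 7200, 86]), (25, [0, 450, 0, 0, 0, 0, 0, 9]), (225, [250, 150, 0, 750, 1500, 2250, 3000, 33]), (25, [400, 200, 0, 1200, 2400, 3600, 4800, 52])]⟩, ⟨0, [1], [1, 2], [3], [4], 2, 0, [31, -4, 0, 0, 0, 0, -4], [], [(1, []), (25, [0, 0, 0, 100, 200, 200, 200, 2]), (200, [600, 1300, 0, 1800, 3600, 5400, 0, 26, 0, 0, 0, 27]),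 (25, [600, 1100, 0, 1800, 3600, 2700, 4500, 67]), (5, [0, 90, 0, 360, 720, 720, 720, 9]), (900, [1000, 1500, 0, 1200, 2400, 900, 3900, 69]), (50, [600, 800, 0, 0, 0, 0, 0, 16, 0, 0, 0, 9])]⟩], (50, [0, 150, 0, 300, 600, 900, 1200, 15, 0, 0, 0, 9]), (1, []), (1, [])⟩)

theorem cAC1 : Cert 6 false ([[-1, 2]] ++ rootA 6) :=
  Cert.of_chk tAC1 (by decide +kernel)

/-- tree AC3p -/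
def tAC3p : Tree :=
 .split [-4, 3, 3, 3, 3, 3, 3, 9]
 (.split [2, -2, 0, -2, 0, -5]
  (.split [5, -6, 0, -6, 0, 0, -6, -6]
   (.leaf ⟨2, 6, 1, [⟨0, [1], [0, 2], [5], [], 0, 1, [5], [], [(1, []), (75, [0, 0, 0, 0, 100, 0, 0, 0, 0, 0, 300, 300, 300, 3]), (50, [0, 0, 0, 0, 0, 0, 0, 0, 0, 0, 0, 0, 0, 0, 0, 0, 0, 0, 3]), (3, [0, 0, 0, 0, 0, 2, 0, 0, 0, 0, 0, 54, 54]), (25, [0, 0, 0, 0, 100, 0, 0, 0, 0, 0, 300, 300, 300, 3]), (1, [0, 1, 0, 0, 0, 0, 0, 0, 0, 0, 0, 0, 5]), (1, [1])]⟩, ⟨0, [1], [1, 3], [4], [], 0, 2, [5], [], [(1, []), (225, [0, 0, 0, 100, 0, 0, 0, 0, 0, 0, 0, 900, 900, 9]), (25, [0, 0, 0, 0, 0, 0, 0, 0, 0, 0, 0, 0, 0, 0, 0, 0, 0, 0, 3]), (3, [0, 0, 0, 0, 0, 2, 0, 0, 0, 0, 0, 54]), (75, [0, 0, 0, 100, 0, 0, 0, 0, 0, 0, 0, 900, 900,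 9]), (2700, [0, 0, 0, 0, 0, 400, 0, 0, 2700, 0, 2700, 10800, 0, 27, 0, 900]), (900, [0, 0, 0, 0, 0, 100, 0, 0, 2700, 0, 2700, 2700, 0, 27, 0, 900, 0, 0, 108])]⟩], (1, [0, 0, 2]), (1, []), (1, [])⟩)
   (.leaf ⟨2, 12, 1, [⟨0, [1], [0, 2], [5], [], 0, 1, [12, 0, 0, 0, 0, 0, -9], [], [(1, []), (675, [450, 0, 0, 0, 0, 100, 0, 0, 0, 0, 0, 2700, 2700, 0, 0, 0, 0, 0, 27]), (100, [0, 0, 0, 0, 0, 0, 0, 0, 0, 0, 0, 0, 0, 9, 0, 0, 0, 0, 12]), (1, []), (100, [400, 0, 0, 0, 0, 0, 0, 0, 0, 0, 0, 0, 0, 57, 0, 0, 0, 0, 24]), (1, [0, 1, 0, 0, 0, 0, 0, 0, 0, 0, 0, 0, 5]), (100, [0, 600, 0, 0, 0, 0, 0, 0, 0, 0, 0, 0, 3000, 9, 0, 0, 0, 0, 12])]⟩, ⟨0, [1], [1, 3], [4], [], 0, 2, [8, 0, 0, 0, 0, 0, 9], [], [(1, []), (225, [0, 0, 0, 100, 0, 0, 0, 0, 0, 0, 0, 900,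 900, 9]), (75, [0, 0, 0, 0, 0, 25, 0, 0, 0, 0, 0, 675, 675, 0, 0, 0, 0, 0, 18]), (3, [0, 0, 0, 0, 0, 8, 0, 0, 0, 0, 0, 216, 108]), (9, [0, 0, 0, 24, 0, 19, 0, 0, 0, 0, 0, 729, 729]), (450, [150, 0, 0, 0, 0, 50, 0, 0, 0, 0, 0, 1350, 0, 0, 0, 300, 0, 0, 9]), (100, [200, 0, 0, 0, 0, 0, 0, 0, 0, 0, 0, 0, 0, 9, 0, 400, 0, 0, 36])]⟩], (150, [150, 0, 0, 100, 0, 0, 0, 0, 0, 0, 0, 900, 1800, 18, 0, 0, 0, 9]), (1, []), (1, [])⟩))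
  (.leaf ⟨2, 6, 1, [⟨0, [1], [0, 4], [], [], 0, 2, [5], [], [(1, []), (9, [18, 0, 0, 0, 2, 4, 0, 0, 0, 0, 54]), (25, [0, 0, 0, 0, 0, 0, 0, 0, 0, 0, 0, 0, 0, 0, 0, 0, 0, 3]), (1, []), (3, [18, 0, 0, 0, 2, 4, 0, 0, 0, 0, 54]), (27, [0, 0, 0, 0, 2, 0, 27, 0, 0, 0, 54]), (225, [0, 0, 0, 0, 50, 0, 675, 0, 0, 0, 1350, 0, 0, 0, 0, 0, 0, 27])]⟩, ⟨0, [1], [1, 2], [3], [5], 0, 0, [5], [], [(1, []), (63, [36, 0, 28, 0, 0, 0, 36, 0, 0, 180, 180]), (9, [0, 0, 0, 0, 2, 0, 0, 0, 0, 0, 54, 54]), (3, [0, 0, 0, 0, 2]), (21, [36, 0, 28, 0, 0, 0, 36, 0, 0, 180, 180]), (450, [450, 0, 0, 0, 100, 100, 0, 0, 0, 0, 1350, 0, 9, 0, 300]), (3, [9, 0, 0, 0, 1, 2, 0, 0, 0, 0, 27, 0, 0, 0, 6])]⟩], (450, [1350, 0, 300, 0, 50, 0, 0, 0, 0, 0, 4050, 0, 27, 0, 0, 0, 27]), (1,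 []), (1, [])⟩))
 (.split [-4, 3, 3, 3, 3, 3, 3, 15]
  (.leaf ⟨2, 6, 1, [⟨0, [1], [0, 3], [], [], 2, 2, [5], [], [(1, []), (75, [0, 0, 0, 100, 0, 0, 0, 0, 0, 0, 300, 300, 3]), (25, [0, 0, 0, 0, 0, 0, 0, 0, 0, 0, 0, 0, 0, 0, 0, 0, 0, 3]), (25, [0, 0, 0, 0, 0, 0, 0, 0, 0, 0, 0, 0, 0, 0, 0, 0, 0, 9]), (25, [0, 0, 0, 100, 0, 0, 0, 0, 0, 0, 300, 300, 3]), (450, [0, 300, 100, 0, 0, 0, 0, 0, 0, 900, 900, 1800, 27, 0, 0, 0, 0, 18]), (150, [0, 300, 100, 0, 0, 0, 0, 0, 0, 900, 900, 1800, 27, 0, 0, 0, 0, 9])]⟩, ⟨0, [1], [1, 2], [4], [5], 1, 0, [5], [], [(1, []), (225, [0, 0, 100, 0, 0, 0, 0, 0, 0, 900, 900, 900, 9]), (9, [0, 0, 0, 0, 2, 0, 0, 0, 0, 0, 54, 54]), (150, [0, 300, 100, 300, 0, 0, 0, 0, 0, 900, 1800, 0, 9]), (75, [0, 0, 100, 0, 0, 0, 0, 0, 0,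 900, 900, 900, 9]), (5400, [0, 3600, 0, 3600, 200, 0, 0, 0, 0, 0, 16200, 0, 108, 0, 0, 0, 27]), (50, [0, 100, 0, 100, 0, 0, 0, 0, 0, 0, 300, 300, 3, 0, 0, 0, 3])]⟩], (1, [2]), (1, []), (1, [])⟩)
  (.split [-4, 3, 3, 3, 3, 3, 3, 18]
   (.leaf ⟨2, 6, 1, [⟨0, [1], [0, 3], [], [], 3, 2, [5], [], [(1, []), (75, [0, 0, 0, 0, 100, 0, 0, 0, 0, 0, 0, 300, 300, 3]), (375, [0, 300, 0, 100, 300, 0, 0, 0, 0, 0, 900, 1800, 2700, 36]), (125, [0, 450, 0, 150, 450, 0, 0, 0, 0, 0, 1350, 2700, 4050, 54]), (25, [0, 0, 0, 0, 100, 0, 0, 0, 0, 0, 0, 300, 300, 3]), (30, [0, 30, 0, 10, 10, 0, 0, 0, 0, 0, 90, 120, 210, 3]), (150, [0, 300, 0, 100, 0, 0, 0, 0, 0, 0, 900, 900, 1800, 27])]⟩, ⟨0, [1], [1, 2], [4], [5], 1, 0, [5], [], [(1, []), (225, [0, 0, 0, 100, 0, 0,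 0, 0, 0, 0, 900, 900, 900, 9]), (9, [0, 0, 0, 0, 0, 2, 0, 0, 0, 0, 0, 54, 54]), (750, [0, 900, 0, 300, 900, 200, 0, 0, 0, 0, 2700, 10800, 0, 27]), (75, [0, 0, 0, 100, 0, 0, 0, 0, 0, 0, 900, 900, 900, 9]), (5400, [0, 3600, 0, 0, 3600, 200, 0, 0, 0, 0, 0, 16200, 0, 108, 0, 0, 0, 135]), (50, [0, 100, 0, 0, 100, 0, 0, 0, 0, 0, 0, 300, 300, 3, 0, 0, 0, 6])]⟩], (1, [2]), (1, []), (1, [])⟩)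
   (.leaf ⟨2, 6, 1, [⟨0, [1], [0, 4], [5], [], 0, 3, [5], [], [(1, []), (75, [0, 0, 0, 0, 100, 0, 0, 0, 0, 0, 0, 0, 300, 3]), (75, [75, 0, 0, 25, 75, 0, 0, 0, 0, 0, 225, 450, 675, 9]), (200, [300, 0, 0, 100, 300, 0, 0, 0, 0, 0, 900, 1800, 2700, 0, 0, 0, 0, 27]), (25, [0, 0, 0, 0, 100, 0, 0, 0, 0, 0, 0, 0, 300, 3]), (900, [600, 0, 0, 200, 0, 0, 0, 0, 0, 0, 1800, 3600, 3600, 9, 0, 0, 0, 54]), (300, [600, 0, 0, 200, 0, 0, 0, 0, 0, 0, 1800, 3600, 3600, 36, 0, 0, 0, 27])]⟩, ⟨0, [1], [1, 2], [], [3], 5, 0, [5], [], [(1, []), (225, [0, 0, 0, 100, 0, 0, 0, 0, 0, 0, 900, 900, 900, 9]), (9, [0, 0, 0, 0, 0, 2]), (15, [75, 0, 0, 25, 75, 0, 0, 0, 0, 0, 225, 450, 675, 9]), (75, [0, 0, 0, 100, 0, 0, 0, 0, 0, 0, 900, 900, 900, 9]), (1350, [1875, 0, 0, 325,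 1875, 0, 0, 0, 0, 0, 2925, 8550, 14175, 198]), (100, [200, 0, 0, 0, 200, 0, 0, 0, 0, 0, 0, 0, 600, 12, 0, 0, 0, 3])]⟩], (75, [0, 0, 0, 50, 150, 0, 0, 0, 0, 0, 450, 900, 1350, 18, 0, 0, 0, 18]), (1, []), (1, [])⟩)))

theorem cAC3p : Cert 6 false ([[-2, 0, 9], [-1, 3], [4, 0, 0, 0, -27], [2, 0, 0, -9], [1, -2]] ++ rootA 6) :=
  Cert.of_chk tAC3p (by decide +kernel)

/-- tree AC5n -/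
def tAC5n : Tree :=
 .split [-4, 3, 3, 3, 3, 3, 3, 12]
 (.split [2, -2, 0, 0, -2, -5]
  (.split [5, -6, 0, 0, 0, -6, -6, -12]
   (.leaf ⟨2, 6, 1, [⟨0, [1], [0, 4], [5], [], 0, 2, [5], [], [(1, []), (27, [0, 0, 0, 12, 0, 4, 0, 0, 0, 0, 0, 0, 0, 108]), (25, [0, 0, 0, 0, 0, 0, 0, 0, 0, 0, 0, 0, 0, 0, 0, 0, 0, 0, 0, 3]), (5, [0, 0, 0, 0, 0, 0, 0, 18, 0, 0, 0, 0, 90, 90]), (9, [0, 0, 0, 12, 0, 4, 0, 0, 0, 0, 0, 0, 0, 108]), (1, [0, 1, 0, 0, 0, 0, 0, 0, 0, 0, 0, 0, 2, 5]), (1, [1])]⟩, ⟨0, [1], [1, 2], [3], [], 0, 2, [5], [], [(1, []), (5, [0, 0, 0, 0, 8, 0, 0, 0, 0, 0, 20]), (25, [0, 0, 0, 0, 0, 0, 0, 0, 0, 0, 0, 0, 0, 0, 0, 0, 0, 0, 0, 3]), (5, [0, 0, 0, 0, 0, 0, 0, 18]), (5, [0, 0, 0, 0, 24, 0, 0, 0, 0, 0, 60]), (9, [0, 0, 0, 0, 0, 0, 4, 9, 0,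 0, 18]), (75, [0, 0, 0, 0, 0, 0, 100, 90, 0, 0, 450, 0, 0, 0, 0, 0, 0, 0, 0, 9])]⟩], (1, [0, 0, 2]), (1, []), (1, [])⟩)
   (.leaf ⟨2, 3, 1, [⟨0, [1], [0, 4], [5], [], 0, 2, [0, 3, 0, 0, 0, 3, 3, 6], [], [(1, []), (75, [50, 0, 0, 0, 0, 0, 0, 60, 0, 0, 0, 0, 300, 300, 0, 0, 0, 0, 0, 6]), (175, [0, 150, 0, 0, 0, 0, 0, 0, 75, 0, 0, 0, 300, 525, 0, 0, 0, 0, 0, 21]), (175, [0, 825, 0, 0, 0, 0, 0, 0, 150, 0, 0, 0, 1650, 3675, 0, 0, 0, 0, 0, 42]), (350, [0, 2400, 0, 0, 0, 0, 0, 0, 850, 0, 0, 0, 4800, 9450, 0, 0, 0, 0, 0, 189]), (1, [0, 1, 0, 0, 0, 0, 0, 0, 0, 0, 0, 0, 2, 5]), (1, [])]⟩, ⟨0, [1], [1, 2], [3], [], 0, 2, [5, -3, 0, 0, 0, -3, -3, -6], [], [(1, []), (5, [0, 0, 0, 0, 8, 0, 0, 0, 0, 0, 20]), (50, [25, 0, 0, 0, 0, 0, 0, 0, 0, 0, 0, 0, 0, 0,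 0, 0, 0, 0, 0, 3]), (5, [10, 0, 0, 0, 0, 0, 0, 9]), (10, [45, 0, 0, 0, 24, 0, 0, 0, 0, 0, 60]), (75, [25, 0, 0, 0, 0, 0, 0, 45, 0, 0, 0, 0, 0, 0, 0, 0, 50, 0, 0, 3]), (25, [0, 0, 0, 0, 0, 0, 0, 0, 0, 0, 0, 0, 0, 0, 0, 0, 25, 0, 0, 3])]⟩], (35, [70, 30, 0, 0, 84, 0, 0, 0, 50, 0, 210, 0, 270, 210]), (1, []), (1, [])⟩))
  (.split [-4, 3, 3, 3, 3, 3, 3, 6]
   (.split [-4, 3, 3, 3, 3, 3, 3, 3]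
    (.leaf ⟨2, 36, 1, [⟨3, [1], [0, 1, 2], [], [], 0, 0, [31, 0, 0, 0, -4, -4], [], [(1, []), (3, [0, 0, 0, 0, 0, 0, 0, 1, 0, 1, 0, 6]), (5, [0, 0, 810, 0, 0, 324, 0, 0, 742, 0, 0, 1620, 0, 3070]), (7, [0, 0, 48, 0, 0, 0, 0, 0, 0, 32, 0, 0, 0, 72]), (21, [0, 0, 1920, 0, 0, 0, 0, 2520, 0, 1280, 0, 22680, 0, 2880]), (7, [0, 0, 288, 0, 0, 0, 0, 168, 0, 192, 0, 1512, 0, 432]), (5, [0, 0, 180, 0, 0, 72, 0, 0, 116, 0, 0, 360, 0, 560]), (7, [0, 0, 120, 0, 0, 0, 0, 84, 0, 80, 0, 756, 0, 180]), (21, [0, 0, 960, 0, 0, 0, 0, 0, 0, 640, 0, 0, 0, 1440]), (5, [0, 0, 0, 0, 0, 0, 0, 40, 8, 60, 0, 180, 0, 20])]⟩, ⟨0, [1], [3, 4], [5], [], 0, 1, [29, 0, 0, 0, 4, 4], [], [(1, []), (21, [0, 0, 24, 0, 0, 0, 0, 0, 0, 16, 0, 0, 0, 36]), (25, [0, 0, 0, 0, 0, 0, 0,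 0, 40, 0, 0, 0, 0, 100, 0, 0, 0, 0, 0, 0, 9]), (1, [0, 0, 0, 0, 0, 0, 0, 0, 28, 0, 0, 0, 0, 124, 108]), (7, [0, 0, 72, 0, 0, 0, 0, 0, 0, 48, 0, 0, 0, 108]), (5, [0, 0, 0, 0, 0, 0, 0, 0, 9, 0, 0, 0, 0, 35, 25]), (25, [0, 0, 0, 0, 0, 0, 0, 0, 500, 0, 0, 0, 0, 1700, 900, 0, 0, 0, 0, 0, 9])]⟩], (1, [2]), (1, []), (1, [])⟩)
    (.leaf ⟨2, 18, 1, [⟨0, [1], [0, 4], [], [], 0, 2, [17, 0, -2, -2, 0, 0, 0, -18], [], [(1, []), (1, [0, 0, 2, 0, 0, 0, 0, 0, 2, 0, 0, 0, 0, 6]), (50, [0, 0, 0, 0, 0, 40, 0, 0, 0, 0, 0, 100, 0, 0, 0, 0, 0, 0, 0, 0, 9]), (25, [0, 0, 0, 0, 0, 80, 0, 0, 0, 0, 0, 200, 0, 0, 0, 0, 0, 0, 0, 9]), (100, [0, 0, 1800, 0, 0, 720, 0, 0, 1800, 0, 0, 1800, 0, 5400, 0, 0, 0, 0, 0, 81]), (15, [0, 0, 0, 0, 0, 0, 0, 0, 6, 10, 0, 0, 0, 30]),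 (60, [180, 0, 0, 0, 0, 168, 20, 0, 0, 180, 0, 420, 0, 540, 0, 0, 0, 0, 0, 0, 27])]⟩, ⟨0, [1], [1, 2], [3], [5], 0, 0, [13, 0, 2, 2, 0, 0, 0, 18], [], [(1, []), (5, [0, 0, 0, 0, 0, 8, 0, 0, 0, 0, 0, 20]), (5, [30, 0, 45, 0, 0, 32, 0, 0, 27, 0, 0, 80, 0, 135]), (675, [1800, 0, 2700, 0, 0, 0, 200, 0, 8910, 0, 0, 0, 0, 8100, 0, 0, 0, 0, 0, 0, 432]), (50, [0, 0, 0, 0, 0, 360, 0, 0, 0, 0, 0, 900, 0, 0, 0, 0, 0, 0, 0, 0, 81]), (9, [0, 0, 0, 0, 0, 0, 0, 4, 9, 0, 0, 18]), (50, [300, 0, 450, 0, 0, 40, 0, 0, 450, 0, 0, 100, 0, 1350, 0, 0, 0, 0, 0, 9])]⟩], (1, [0, 2]), (1, []), (1, [])⟩))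
   (.leaf ⟨2, 6, 1, [⟨0, [1], [0, 1], [], [], 0, 3, [5], [], [(1, []), (5, [0, 10, 0, 0, 4, 0, 0, 14, 0, 0, 20, 0, 50]), (30, [90, 135, 0, 0, 108, 10, 0, 81, 0, 0, 270, 0, 405]), (1, []), (5, [0, 30, 0, 0, 12, 0, 0, 42, 0, 0, 60, 0, 150]), (9450, [6300, 5400, 0, 0, 3780, 700, 0, 0, 3600, 0, 0, 0, 8100, 0, 0, 0, 0, 0, 189]), (105, [315, 270, 0, 0, 252, 35, 0, 0, 75, 0, 315, 0, 405])]⟩, ⟨0, [1], [2, 3], [4], [5], 0, 0, [5], [], [(1, []), (105, [0, 60, 0, 0, 84, 0, 0, 0, 40, 0, 0, 0, 300]), (50, [100, 150, 0, 0, 120, 0, 0, 90, 0, 0, 300, 0, 450, 0, 0, 0, 0, 0, 3]), (5, [0, 0, 0, 0, 0, 0, 0, 18, 0, 0, 0, 0, 90]), (35, [0, 60, 0, 0, 84, 0, 0, 0, 40, 0, 0, 0, 300]), (2700, [900, 1350, 0, 0, 0, 100, 0, 4590, 0, 0, 2700, 0, 17550, 0, 0, 0, 0, 0, 27]),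 (50, [100, 150, 0, 0, 60, 0, 0, 210, 0, 0, 300, 0, 750, 0, 0, 0, 0, 0, 3])]⟩], (900, [0, 2700, 0, 0, 2160, 200, 0, 1620, 0, 0, 5400, 0, 8100, 0, 0, 0, 0, 0, 81]), (1, []), (1, [])⟩)))
 (.split [1, 0, 0, 0, 0, 0, 0, -18]
  (.split [-4, 3, 3, 3, 3, 3, 3, 18]
   (.leaf ⟨2, 24, 1, [⟨0, [1], [0, 2], [3], [], 0, 2, [22, 0, 0, 0, -9], [], [(1, []), (45, [0, 0, 0, 20, 36]), (3, [0, 8, 0, 0, 0, 1, 0, 0, 0, 0, 0, 0, 27, 27]), (5, [0, 0, 0, 0, 0, 0, 0, 36]), (15, [0, 0, 0, 80, 144, 45, 0, 0, 0, 0, 0, 0, 1215, 1215]), (675, [0, 0, 450, 0, 270, 100, 0, 405, 0, 0, 1350, 0, 0, 1350, 0, 0, 0, 0, 27]), (225, [0, 0, 1800, 0, 1080, 400, 0, 405, 0, 0, 5400, 0, 0, 5400, 0, 0, 0, 0, 54])]⟩, ⟨0, [1], [1, 4], [5], [], 1, 3, [18, 0, 0, 0, 9], [], [(1, []), (135, [0,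 0, 0, 0, 108, 20, 0, 0, 0, 0, 540, 0, 0, 540]), (15, [0, 30, 45, 15, 54, 10, 0, 0, 0, 0, 135, 0, 0, 135]), (25, [0, 0, 300, 100, 360, 0, 0, 0, 0, 0, 900, 0, 0, 900, 0, 0, 0, 0, 9]), (45, [0, 0, 0, 0, 432, 80, 0, 729, 0, 0, 2160, 0, 0, 2160]), (5400, [0, 0, 4200, 1400, 2880, 0, 0, 0, 0, 0, 1800, 0, 12600, 14400, 0, 0, 0, 0, 117]), (45, [0, 110, 195, 65, 117, 0, 55, 0, 0, 0, 0, 0, 990, 495])]⟩], (1, [2]), (1, []), (1, [])⟩)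
   (.leaf ⟨2, 12, 1, [⟨0, [1], [0, 1], [4], [], 0, 3, [11, 0, 0, 0, 0, 0, 0, -18], [], [(1, []), (45, [0, 0, 0, 20, 36, 0, 0, 0, 0, 0, 180]), (15, [15, 0, 0, 5, 18, 5, 0, 0, 0, 0, 45, 0, 45, 90]), (30, [180, 0, 0, 60, 216, 20, 0, 0, 0, 0, 540, 0, 540, 0, 0, 0, 0, 0, 27]), (300, [0, 0, 0, 800, 1440, 0, 0, 0, 0, 0, 7200, 0, 0, 0, 0, 0, 0, 0, 243]), (1080, [900, 0, 0, 60, 648, 100, 0, 0, 0, 0, 540, 0, 2700, 0, 0, 0, 0, 0, 81]), (900, [3600, 0, 0, 0, 2160, 800, 0, 0, 0, 0, 0, 0, 10800, 10800, 0, 0, 0, 0, 81])]⟩, ⟨0, [1], [2, 3], [5], [], 1, 4, [9, 0, 0, 0, 0, 0, 0, 18], [], [(1, []), (135, [0, 0, 0, 0, 108, 20, 0, 0, 0, 0, 0, 0, 540, 540]), (45, [165, 0, 0, 55, 198, 55, 0, 0, 0, 0, 495, 0, 495, 990]), (15, [90, 0, 0, 30, 108, 10, 0, 0, 0, 0, 270,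 0, 270, 540]), (45, [405, 0, 0, 135, 702, 175, 0, 0, 0, 0, 1215, 0, 2295, 3510]), (5400, [4200, 0, 0, 1400, 2880, 0, 0, 0, 0, 0, 12600, 0, 1800, 14400, 0, 0, 0, 0, 243]), (135, [315, 0, 0, 105, 54, 10, 0, 135, 0, 0, 945, 0, 0, 945])]⟩], (75, [0, 0, 0, 50, 180, 50, 0, 0, 0, 0, 450, 0, 450, 900, 0, 0, 0, 0, 18]), (1, []), (1, [])⟩))
  (.leaf ⟨2, 6, 1, [⟨0, [1], [0, 1], [3], [], 0, 2, [5], [], [(1, []), (45, [0, 0, 20, 36, 0, 0, 0, 0, 0, 180]), (15, [0, 15, 5, 18, 5, 0, 0, 0, 0, 45, 0, 45, 90]), (15, [60, 90, 30, 108, 20, 0, 0, 0, 0, 270, 0, 0, 270]), (15, [0, 0, 20, 36, 0, 0, 0, 0, 0, 180]), (135, [150, 225, 45, 216, 50, 0, 0, 0, 0, 405, 0, 0, 675]), (45, [30, 90, 0, 54, 20, 0, 0, 0, 0, 0, 0, 0, 270])]⟩, ⟨0, [1], [2, 4], [], [5], 3, 0, [5], [],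 [(1, []), (135, [0, 0, 0, 108, 20, 0, 0, 0, 0, 0, 0, 0, 540]), (45, [20, 30, 10, 36, 0, 0, 0, 0, 0, 90, 0, 90, 180]), (10, [0, 45, 15, 54, 15, 0, 0, 0, 0, 135, 0, 135, 270]), (45, [0, 0, 0, 108, 20, 0, 0, 0, 0, 0, 0, 0, 540]), (540, [0, 675, 225, 594, 185, 0, 0, 0, 0, 2025, 0, 2025, 2970]), (90, [0, 135, 45, 54, 5, 0, 0, 0, 0, 405, 0, 405, 270])]⟩], (15, [25, 0, 10, 36, 10, 0, 0, 0, 0, 90, 0, 90, 180]), (1, []), (1, [])⟩))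

theorem cAC5n : Cert 6 false ([[-2, 9], [-1, 0, 0, 5], [-4, 0, 0, 0, 0, 0, 27], [2, 0, -9], [1, 0, 0, 0, -5], [1, -3]] ++ rootA 6) :=
  Cert.of_chk tAC5n (by decide +kernel)

/-- tree AC5s -/
def tAC5s : Tree :=
 .split [-4, 3, 3, 3, 3, 3, 3, 9]
 (.split [1, 0, 0, 0, 0, 0, -6]
  (.leaf ⟨2, 6, 1, [⟨0, [1], [0, 1], [], [], 2, 1, [5], [], [(1, []), (45, [0, 0, 20, 0, 36]), (50, [0, 0, 0, 0, 0, 0, 0, 0, 0, 0, 0, 0, 0, 0, 0, 0, 0, 0, 0, 3]), (25, [0, 0, 0, 0, 0, 0, 0, 0, 0, 0, 0, 0, 0, 0, 0, 0, 0, 0, 0, 9]), (15, [0, 0, 20, 0, 36]), (90, [0, 0, 0, 0, 0, 0, 20, 0, 60, 0, 0, 0, 0, 0, 0, 0, 0, 0, 0, 9]), (150, [0, 0, 0, 0, 0, 0, 100, 0, 300, 0, 0, 0, 0, 0, 0, 0, 0, 0, 0, 27])]⟩, ⟨0, [1], [2, 3], [4], [5], 0, 0, [5], [], [(1, []), (21, [0, 0, 0, 8,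 0, 0, 0, 0, 0, 0, 0, 84]), (1, [1]), (5, [0, 0, 0, 0, 0, 0, 0, 18, 0, 0, 0, 90, 90]), (7, [0, 0, 0, 8, 0, 0, 0, 0, 0, 0, 0, 84]), (5, [0, 0, 0, 0, 0, 0, 0, 9, 0, 0, 0, 35, 25]), (5, [5, 0, 0, 0, 0, 0, 0, 18, 0, 0, 0, 60, 30])]⟩], (1, [0, 2]), (1, []), (1, [])⟩)
  (.leaf ⟨2, 3, 1, [⟨0, [1], [0, 1], [], [], 2, 1, [2, 0, 0, 0, 0, 0, 3], [], [(1, []), (45, [0, 0, 20, 0, 36]), (100, [0, 0, 0, 0, 0, 0, 0, 60, 0, 0, 0, 300, 300, 300, 0, 0, 0, 0, 0, 3]), (50, [0, 0, 0, 0, 0, 0, 0, 120, 0, 0, 0, 600, 600, 600, 0, 0, 0, 0, 0, 9]), (15, [0, 0, 10, 0, 18, 0, 0, 81, 0, 0, 0, 405, 405, 405]), (90, [0, 0, 0, 0, 0, 0, 20, 0, 60, 0, 0, 0, 0, 0, 0, 0, 0, 0, 0, 9]), (300, [150, 0, 0, 0, 0, 0, 100, 0, 300, 0, 0, 0, 0, 0, 0, 0, 0, 0, 0, 27])]⟩, ⟨0, [1], [2, 3],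 [4], [5], 0, 0, [3, 0, 0, 0, 0, 0, -3], [], [(1, []), (21, [0, 0, 0, 8, 0, 0, 0, 0, 0, 0, 0, 84]), (1, []), (5, [10, 0, 0, 0, 0, 0, 0, 9, 0, 0, 0, 45, 45]), (14, [63, 0, 0, 8, 0, 0, 0, 0, 0, 0, 0, 84]), (5, [0, 0, 0, 0, 0, 0, 0, 9, 0, 0, 0, 35, 25]), (1, [0, 0, 0, 0, 0, 0, 0, 3, 0, 0, 0, 12, 9, 6])]⟩], (1, [0, 2]), (1, []), (1, [])⟩))
 (.split [-4, 3, 3, 3, 3, 3, 3, 12]
  (.leaf ⟨2, 6, 1, [⟨0, [1], [0, 1], [4], [], 0, 2, [5], [], [(1, []), (45, [0, 0, 20, 0, 36]), (25, [0, 0, 0, 0, 0, 0, 0, 0, 0, 0, 0, 0, 0, 0, 0, 0, 0, 0, 0, 3]), (5, [0, 0, 0, 0, 0, 0, 0, 18, 0, 0, 0, 90, 90]), (15, [0, 0, 20, 0, 36]), (18900, [0, 12600, 0, 900, 0, 1400, 0, 0, 0, 0, 0, 37800, 56700, 0, 0, 0, 0, 0, 567]), (6300, [0, 12600, 0, 3600, 0, 1400, 0, 0, 0, 0, 0, 37800,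 0, 0, 0, 0, 0, 0, 189])]⟩, ⟨0, [1], [2, 3], [5], [], 0, 2, [5], [], [(1, []), (21, [0, 0, 0, 8, 0, 0, 0, 0, 0, 0, 0, 84]), (25, [0, 0, 0, 0, 0, 0, 0, 0, 0, 0, 0, 0, 0, 0, 0, 0, 0, 0, 0, 3]), (5, [0, 0, 0, 0, 0, 0, 0, 18, 0, 0, 0, 90, 90, 90]), (7, [0, 0, 0, 8, 0, 0, 0, 0, 0, 0, 0, 84]), (5, [0, 0, 0, 0, 0, 0, 0, 9, 0, 0, 0, 35, 25, 25]), (300, [0, 300, 100, 0, 180, 0, 0, 360, 0, 0, 0, 900, 0, 900, 0, 0, 0, 0, 0, 9])]⟩], (1, [2]), (1, []), (1, [])⟩)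
  (.split [-4, 3, 3, 3, 3, 3, 3, 15]
   (.split [-2, 2, 2, 0, 0, 0, 0, 27]
    (.leaf ⟨2, 3, 1, [⟨0, [1], [0, 1], [], [], 2, 3, [3, 0, 0, 0, 0, 0, 0, -9], [], [(1, []), (45, [0, 0, 0, 0, 20, 0, 36]), (1, []), (399, [378, 0, 252, 0, 0, 72, 0, 56, 0, 0, 0, 0, 0, 756, 0, 756]), (1, [3]), (1890, [0, 0, 1575, 0, 105, 450, 189, 350, 0, 0, 0, 0, 0, 4725, 0, 4725]), (315, [0, 0, 630, 0, 105, 180, 189, 140, 0, 0, 0, 0, 0, 1890, 0, 1890])]⟩, ⟨0, [1], [2, 3], [4], [5], 0, 0, [2, 0, 0, 0, 0, 0, 0, 9], [], [(1, []), (21, [0, 0, 0, 0, 0, 8, 0, 0, 0, 0, 0, 0, 0, 84]), (1260, [0, 0, 945, 0, 315, 270, 567, 70, 0, 0, 0, 0, 0, 2835, 0, 2835]), (105, [0, 0, 315, 0, 105, 90, 189, 35, 0, 0, 0, 0, 0, 945]), (20, [0, 0, 135, 0, 45, 50, 81, 30, 0, 0, 0, 0, 0, 525,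 0, 405]), (405, [180, 0, 405, 0, 95, 0, 171, 45, 0, 0, 0, 0, 0, 405, 810]), (405, [315, 0, 405, 0, 65, 0, 117])]⟩], (1, [0, 2]), (1, []), (1, [])⟩)
    (.leaf ⟨2, 9, 1, [⟨0, [1], [0, 1], [], [], 2, 3, [7, 2, 2], [], [(1, []), (45, [0, 0, 0, 0, 20, 0, 36]), (1, [1]), (133, [154, 0, 252, 0, 0, 72, 0, 56, 0, 0, 0, 0, 0, 756, 0, 756]), (1, []), (3591, [378, 0, 2142, 0, 0, 612, 0, 476, 0, 0, 0, 0, 0, 6426, 0, 6426]), (399, [357, 0, 693, 0, 0, 198, 0, 154, 0, 0, 0, 0, 0, 2079, 0, 2079])]⟩, ⟨0, [1], [2, 3], [4], [5], 0, 0, [8, -2, -2], [], [(1, []), (21, [0, 0, 0, 0, 0, 8, 0, 0, 0, 0, 0, 0, 0, 84]), (1800, [0, 0, 1350, 0, 850, 0, 1530, 0, 0, 0, 0, 0, 0, 4050, 8100, 12150, 0, 0, 0, 0, 81]), (45, [0, 0, 0, 0, 40, 0, 72, 0, 0, 243, 0, 0, 0, 1215, 1215]),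 (35, [0, 0, 0, 0, 70, 60, 126, 0, 0, 0, 0, 0, 0, 630]), (5, [0, 0, 0, 0, 0, 0, 0, 0, 0, 9, 0, 0, 0, 35, 25]), (450, [0, 0, 1350, 0, 350, 0, 630, 0, 0, 0, 0, 0, 0, 0, 0, 0, 0, 0, 0, 0, 81])]⟩], (1, [0, 2]), (1, []), (1, [])⟩))
   (.leaf ⟨2, 6, 1, [⟨0, [1], [0, 2], [4], [], 0, 3, [5], [], [(1, []), (63, [0, 0, 0, 28, 12, 0, 0, 0, 0, 0, 0, 0, 252]), (525, [630, 0, 0, 210, 180, 378, 140, 0, 0, 0, 0, 0, 1890, 0, 1890]), (180, [360, 0, 0, 120, 0, 216, 40, 0, 0, 0, 0, 0, 1080, 2160, 0, 0, 0, 0, 0, 27]), (21, [0, 0, 0, 28, 12, 0, 0, 0, 0, 0, 0, 0, 252]), (3240, [2520, 0, 0, 120, 0, 1512, 280, 0, 0, 0, 0, 0, 1080, 8640, 0, 0, 0, 0, 0, 189]), (3150, [6300, 0, 0, 0, 900, 3780, 700, 0, 0, 0, 0, 0, 0, 0, 0, 0, 0, 0, 0, 189])]⟩, ⟨0, [1], [1, 3], [5], [],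 1, 3, [5], [], [(1, []), (105, [0, 0, 0, 0, 20, 84]), (525, [630, 0, 0, 210, 180, 378, 140, 0, 0, 0, 0, 0, 1890, 0, 1890]), (1400, [4200, 0, 0, 1400, 1200, 2520, 0, 0, 0, 0, 0, 0, 12600, 0, 12600, 0, 0, 0, 0, 189]), (35, [0, 0, 0, 0, 20, 84]), (5040, [4200, 0, 0, 1400, 720, 504, 0, 0, 0, 0, 0, 0, 12600, 0, 12600, 0, 0, 0, 0, 189]), (105, [168, 0, 0, 56, 18, 0, 14, 14, 0, 0, 0, 0, 504, 0, 504])]⟩], (6300, [0, 0, 0, 4200, 3600, 7560, 2800, 0, 0, 0, 0, 0, 37800, 0, 37800, 0, 0, 0, 0, 1323]), (1, []), (1, [])⟩)))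

theorem cAC5s : Cert 6 false ([[-2, 9], [-4, 0, 0, 0, 21], [-1, 0, 5], [-4, 0, 0, 0, 0, 0, 27], [2, 0, -9], [1, 0, 0, -5], [1, -3]] ++ rootA 6) :=
  Cert.of_chk tAC5s (by decide +kernel)

/-- tree AC6 -/
def tAC6 : Tree :=
 .split [-4, 3, 3, 3, 3, 3, 3, 9]
 (.split [1, 0, 0, -1, -1, -2, -1, -1]
  (.split [2, -2, 0, 0, -2, 0, -5]
   (.split [5, -6, 0, 0, 0, -6, -6, -6]
    (.leaf ⟨2, 6, 1, [⟨0, [1], [0, 4], [5], [], 0, 1, [5], [], [(1, []), (75, [0, 0, 0, 0, 100, 0, 0, 0, 0, 0, 0, 0, 300, 3]), (50, [0, 0, 0, 0, 0, 0, 0, 0, 0, 0, 0, 0, 0, 0, 0, 0, 0, 0, 3]), (7, [0, 18, 0, 0, 12, 0, 0, 0, 0, 0, 0, 36, 36]), (25, [0, 0, 0, 0, 100, 0, 0, 0, 0, 0, 0, 0, 300, 3]), (1, [0, 1, 0, 0, 0, 0, 0, 0, 0, 0, 0, 2]), (1, [1])]⟩, ⟨0, [1], [1, 2], [3], [], 0,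 2, [5], [], [(1, []), (27, [0, 0, 0, 0, 0, 8, 0, 0, 0, 108, 216]), (25, [0, 0, 0, 0, 0, 0, 0, 0, 0, 0, 0, 0, 0, 0, 0, 0, 0, 0, 3]), (1, [0, 0, 0, 0, 0, 0, 2, 0, 0, 18, 18]), (9, [0, 0, 0, 0, 0, 8, 0, 0, 0, 108, 216]), (1, [0, 0, 0, 0, 0, 0, 1, 0, 0, 7, 5]), (25, [0, 0, 0, 0, 0, 0, 50, 0, 0, 300, 150, 0, 0, 0, 0, 0, 0, 0, 3])]⟩], (1, [0, 0, 0, 2]), (1, []), (1, [])⟩)
    (.leaf ⟨2, 12, 1, [⟨0, [1], [0, 4], [5], [], 0, 1, [12, 0, 0, 0, 0, 0, -9], [], [(1, []), (45, [50, 60, 0, 0, 0, 0, 0, 0, 0, 0, 0, 120, 0, 0, 0, 0, 0, 0, 3]), (100, [0, 0, 0, 0, 0, 0, 0, 0, 0, 0, 0, 0, 0, 9, 0, 0, 0, 0, 12]), (1, []), (100, [400, 0, 0, 0, 0, 0, 0, 0, 0, 0, 0, 0, 0, 57, 0, 0, 0, 0, 24]), (1, [0, 1, 0, 0, 0, 0, 0, 0, 0, 0, 0, 2]), (100, [0, 600, 0, 0, 0, 0, 0,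 0, 0, 0, 0, 1200, 0, 9, 0, 0, 0, 0, 12])]⟩, ⟨0, [1], [1, 2], [3], [], 0, 2, [8, 0, 0, 0, 0, 0, 9], [], [(1, []), (27, [0, 0, 0, 0, 0, 8, 0, 0, 0, 108, 216]), (10, [10, 30, 0, 0, 0, 0, 0, 0, 0, 0, 0, 60, 0, 0, 0, 0, 0, 0, 3]), (25, [150, 300, 0, 0, 0, 0, 0, 0, 0, 300, 600, 600, 0, 0, 0, 100, 0, 0, 9]), (150, [550, 1650, 0, 0, 0, 0, 0, 0, 0, 3600, 7200, 10500, 7200, 0, 0, 0, 0, 0, 33]), (100, [50, 0, 0, 0, 0, 0, 0, 0, 0, 100, 200, 0, 0, 0, 0, 100, 0, 0, 3]), (100, [200, 0, 0, 0, 0, 0, 0, 0, 0, 0, 0, 0, 0, 9, 0, 400, 0, 0, 36])]⟩], (5, [15, 12, 0, 0, 0, 2, 0, 18, 0, 30, 60, 60]), (1, []), (1, [])⟩))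
   (.split [-4, 3, 3, 3, 3, 3, 3, 3]
    (.leaf ⟨2, 36, 1, [⟨0, [1], [0, 1], [], [], 0, 1, [29, 4, 4], [], [(1, []), (21, [20, 12, 60, 0, 0, 0, 0, 0, 0, 24, 24, 0, 60]), (225, [0, 0, 0, 0, 0, 0, 100, 450, 0, 0, 0, 0, 0, 0, 0, 0, 0, 0, 81]), (9, [0, 0, 0, 0, 0, 0, 16, 72]), (7, [60, 36, 180, 0, 0, 0, 0, 0, 0, 72, 72, 0, 180]), (9, [0, 0, 0, 0, 0, 0, 2, 9]), (225, [0, 0, 0, 0, 0, 0, 800, 3600, 0, 0, 0, 0, 0, 0, 0, 0, 0, 0, 81])]⟩, ⟨0, [1], [2, 3], [4], [5], 0, 0, [31, -4, -4], [], [(1, []), (27, [0, 0, 0, 0, 0, 8, 0, 0, 0, 0, 108]), (375, [500, 0, 3900, 0, 0, 0, 0, 0, 0, 0, 2400, 4800, 11100, 0, 0, 0, 0, 12]), (540, [1040, 2760, 16920, 0, 0, 0, 0, 0, 0, 5520, 19320, 27600, 0, 0, 0, 0, 0, 69]), (25, [300, 0, 0, 0, 0, 0, 0, 0, 0, 0, 900, 1800,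 900, 0, 0, 0, 0, 0, 9]), (1200, [0, 600, 1800, 0, 0, 0, 0, 0, 0, 1200, 1800, 1200, 0, 0, 0, 400, 0, 9]), (105, [0, 480, 2400, 0, 0, 0, 0, 0, 0, 960, 960, 0, 2400, 0, 0, 460, 0, 12])]⟩], (1, [2]), (1, []), (1, [])⟩)
    (.split [1, 0, 0, 0, 0, 0, -6]
     (.leaf ⟨2, 24, 1, [⟨0, [1], [0, 3], [], [], 0, 2, [20, 0, 0, 0, 0, 9, 0, -15], [], [(1, []), (3, [5, 0, 6]), (20, [15, 20, 30, 0, 0, 0, 0, 0, 0, 0, 60, 120, 120, 0, 0, 0, 0, 0, 0, 6]), (25, [75, 100, 150, 0, 0, 0, 0, 0, 0, 0, 300, 600, 600, 0, 0, 0, 0, 0, 9]), (100, [2675, 900, 3750, 0, 0, 0, 0, 0, 0, 0, 2700, 5400, 5400, 0, 0, 0, 0, 0, 81]), (900, [0, 200, 0, 0, 0, 0, 0, 0, 600, 0, 600, 1200, 0, 600, 12, 0, 0, 0, 3]), (220, [0, 920, 1500, 0, 0, 0, 0, 0, 2760, 0, 2760, 5520, 0, 4740, 0, 0,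 0, 0, 0, 111])]⟩, ⟨0, [1], [1, 2], [4], [5], 1, 0, [20, 0, 0, 0, 0, -9, 0, 15], [], [(1, []), (27, [0, 0, 0, 0, 0, 0, 8, 0, 0, 0, 108, 216]), (20, [50, 0, 0, 0, 0, 0, 0, 0, 0, 0, 0, 0, 0, 180, 0, 0, 0, 0, 0, 3]), (5, [15, 20, 30, 0, 0, 0, 0, 0, 0, 0, 60, 120, 120, 0, 0, 0, 0, 0, 0, 6]), (180, [0, 0, 2916, 0, 0, 0, 424, 0, 2916, 0, 8640, 17280, 0, 14580, 0, 0, 0, 0, 0, 243]), (100, [75, 100, 150, 0, 0, 0, 0, 0, 0, 0, 100, 200, 200, 0, 0, 0, 0, 0, 0, 2]), (100, [1075, 900, 1350, 0, 0, 0, 0, 0, 0, 0, 300, 600, 600, 0, 0, 0, 0, 0, 9])]⟩], (1, [0, 0, 0, 0, 2]), (1, []), (1, [])⟩)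
     (.split [0, 0, 0, 0, 0, -3, 4, -3]
      (.leaf ⟨2, 3, 1, [⟨0, [1], [0, 3], [], [], 0, 2, [2, 0, 0, 0, 0, 0, 3], [], [(1, []), (21, [0, 0, 0, 12, 0, 0, 20, 0, 0, 0, 0, 0, 0, 60, 60]), (11, [12, 0, 10, 15, 0, 0, 0, 0, 0, 0, 0, 30, 60, 60, 126]), (250, [0, 0, 200, 0, 0, 0, 200, 0, 0, 0, 0, 600, 1200, 1800, 2400, 0, 0, 0, 0, 3]), (1000, [0, 0, 1400, 0, 0, 0, 3400, 0, 0, 0, 0, 4200, 8400, 18600, 22800, 0, 0, 0, 0, 21]), (300, [0, 400, 200, 0, 0, 0, 0, 0, 0, 0, 0, 600, 1200, 1200, 1800, 0, 0, 0, 0, 3]), (3, [3, 7, 3, 0, 0, 0, 0, 0, 0, 0, 0, 9, 18, 18, 36])]⟩, ⟨0, [1], [1, 2], [4], [5], 1, 0, [3, 0, 0, 0, 0, 0, -3], [], [(1, []), (3, [0, 4, 0, 0, 0, 0, 0, 0, 0, 0, 0, 12, 24, 24, 24]), (1, []), (1, [3]), (2, [0, 13, 0, 0, 0, 0, 0, 0, 0, 0, 0,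 12, 24, 24, 24]), (21, [0, 0, 35, 48, 0, 0, 3, 0, 0, 0, 0, 63, 126, 135, 135]), (1, [0, 0, 1, 0, 0, 0, 1, 0, 0, 0, 0, 0, 0, 3, 3])]⟩], (100, [0, 150, 0, 300, 0, 0, 0, 0, 0, 0, 0, 600, 1200, 1200, 1800, 0, 0, 0, 0, 9]), (1, []), (1, [])⟩)
      (.leaf ⟨2, 12, 1, [⟨0, [1], [0, 3], [], [], 0, 2, [8, 0, 0, 0, 0, 9, 0, 9], [], [(1, []), (11, [20, 0, 20, 52, 0, 0, 0, 0, 0, 0, 0, 60, 120, 120, 120]), (100, [0, 0, 200, 300, 0, 0, 0, 0, 0, 0, 0, 600, 1200, 1200, 900, 0, 0, 0, 0, 0, 27]), (25, [0, 0, 200, 300, 0, 0, 0, 0, 0, 0, 0, 600, 1200, 1200, 900, 0, 0, 0, 0, 0, 3]), (11, [39, 0, 336, 636, 0, 0, 0, 0, 0, 0, 0, 1008, 2016, 2016, 2016]), (9, [6, 13, 6, 0, 0, 0, 0, 0, 0, 0, 0, 18, 36, 36, 36]), (100, [0, 950, 400, 0, 0, 0, 0, 0, 0, 0, 0, 1200, 2400,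 2400, 4500, 0, 0, 0, 0, 0, 3])]⟩, ⟨0, [1], [1, 2], [4], [5], 1, 0, [12, 0, 0, 0, 0, -9, 0, -9], [], [(1, []), (3, [0, 4, 0, 0, 0, 0, 0, 0, 0, 0, 0, 12, 24, 24, 24]), (1, [3]), (1, []), (1, [27, 26, 0, 0, 0, 0, 0, 0, 0, 0, 0, 24, 48, 48, 48]), (33, [9, 0, 64, 96, 0, 0, 0, 0, 0, 0, 0, 126, 252, 252, 252]), (11, [51, 0, 128, 192, 0, 0, 0, 0, 0, 0, 0, 252, 504, 504, 504])]⟩], (2, [12, 5, 0, 6, 0, 0, 0, 0, 0, 0, 0, 12, 24, 24]), (1, []), (1, [])⟩)))))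
  (.leaf ⟨2, 6, 1, [⟨0, [1], [0, 1], [], [], 0, 1, [7, 0, 0, -3, -3, -3], [], [(1, []), (375, [300, 0, 500, 0, 0, 0, 0, 1500, 1200, 900, 300, 0, 0, 0, 0, 0, 3]), (500, [900, 0, 0, 0, 0, 0, 0, 0, 600, 1200, 900, 0, 0, 0, 0, 0, 39]), (125, [900, 0, 0, 0, 0, 0, 0, 0, 600, 1200, 900, 0, 0, 0, 0, 0, 9]), (500, [9300, 0, 2000, 0, 0, 0, 0, 6000, 10200, 14400, 9300, 0, 0, 0, 0, 0, 93]), (600, [900, 0, 0, 0, 0, 0, 0, 0, 300, 600, 0, 3, 0, 400, 0, 0, 9]), (400, [900, 0, 0, 0, 0, 0, 0, 0, 300, 600, 0, 15, 0, 800, 0, 0, 33])]⟩, ⟨0, [1], [2, 3], [4], [5], 0, 0, [3, 0, 0, 3, 3, 3], [], [(1, []), (125, [200, 0, 0, 0, 0, 0, 0, 0, 300, 600, 200, 0, 0, 0, 0, 0, 2]), (1, [0, 0, 1, 0, 0, 0, 0, 3, 3, 3, 3, 0, 0, 1]), (200, [0, 0, 900, 0, 0, 0, 0, 2700, 3000, 3300,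 0, 27, 0, 900]), (400, [0, 0, 1900, 0, 0, 0, 0, 5700, 5400, 5100, 0, 57, 0, 1900]), (400, [0, 0, 300, 0, 0, 0, 0, 900, 1000, 1100, 0, 9, 0, 300]), (1, [0, 0, 1, 0, 0, 0, 0, 3, 3, 3, 3, 0, 0, 1])]⟩], (1, [6, 0, 2, 0, 0, 0, 0, 6, 6, 6]), (1, []), (1, [])⟩))
 (.split [-4, 3, 3, 3, 3, 3, 3, 15]
  (.leaf ⟨2, 36, 1, [⟨0, [1], [0, 2], [], [], 2, 2, [34, 0, -4, 0, -4, 0, 0, -27], [], [(1, []), (27, [0, 0, 36, 4, 0, 0, 0, 0, 108]), (540, [0, 0, 0, 160, 0, 0, 0, 2160, 2160, 0, 0, 0, 0, 0, 0, 0, 243]), (675, [0, 0, 0, 800, 0, 0, 0, 10800, 10800, 0, 0, 0, 0, 0, 0, 0, 729]), (200, [1920, 0, 2880, 0, 0, 0, 0, 1440, 10080, 11520, 5760, 0, 0, 0, 0, 99]), (675, [0, 450, 0, 100, 0, 0, 0, 1350, 1350, 0, 1350, 27, 0, 0, 0, 0, 27]), (2700, [0, 32400, 0, 6400, 0,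 0, 0, 86400, 86400, 0, 97200, 1944, 0, 0, 0, 0, 1701])]⟩, ⟨0, [1], [1, 3], [4], [5], 1, 0, [26, 0, 4, 0, 4, 0, 0, 27], [], [(1, []), (27, [0, 0, 0, 8, 0, 0, 0, 108, 108]), (1500, [0, 4400, 4400, 0, 0, 0, 0, 7200, 20400, 27600, 40800, 0, 0, 0, 0, 0, 9]), (300, [0, 3500, 3500, 0, 0, 0, 0, 5700, 16200, 21900, 0, 105, 0, 0, 0, 0, 333]), (300, [0, 0, 0, 800, 0, 0, 0, 10800, 10800, 0, 0, 0, 0, 0, 0, 0, 729]), (800, [0, 600, 600, 0, 0, 0, 0, 200, 2000, 2200, 0, 18, 0, 0, 0, 7]), (600, [0, 5200, 5200, 0, 400, 0, 0, 0, 15600, 12000, 6000, 0, 0, 0, 0, 207])]⟩], (1, [2]), (1, []), (1, [])⟩)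
  (.split [-4, 3, 3, 3, 3, 3, 3, 21]
   (.leaf ⟨2, 12, 1, [⟨0, [1], [0, 1], [], [], 3, 2, [11, 0, 0, 0, 0, 0, 0, -12], [], [(1, []), (27, [0, 0, 0, 36, 4, 0, 0, 0, 108, 108]), (375, [0, 300, 0, 300, 100, 0, 0, 0, 900, 1800, 0, 900, 18]), (75, [0, 300, 0, 300, 100, 0, 0, 0, 900, 1800, 0, 900, 18]), (250, [400, 0, 0, 1600, 0, 0, 0, 0, 4800, 3600, 2400, 1200, 0, 0, 0, 0, 93]), (1350, [0, 1350, 0, 450, 350, 0, 0, 0, 1350, 5400, 0, 4050, 81]), (1125, [0, 5400, 0, 900, 1300, 0, 0, 0, 2700, 18900, 0, 16200, 324])]⟩, ⟨0, [1], [2, 3], [5], [4], 2, 0, [9, 0, 0, 0, 0, 0, 0, 12], [], [(1, []), (27, [0, 0, 0, 0, 8, 0, 0, 0, 0, 108]), (200, [0, 200, 0, 200, 0, 0, 0, 0, 600, 1200, 1800, 0, 6, 0, 0, 0, 3]), (75, [0, 600, 0, 600, 200, 0, 0, 0, 1800, 3600, 0,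 1800, 9]), (1125, [0, 8100, 0, 8100, 4700, 0, 0, 0, 24300, 75600, 0, 24300, 486]), (27, [0, 18, 0, 18, 1, 0, 0, 0, 54, 54, 27, 81]), (50, [0, 160, 0, 160, 0, 0, 0, 0, 480, 360, 240, 120, 0, 0, 0, 0, 9])]⟩], (1, [2]), (1, []), (1, [])⟩)
   (.leaf ⟨2, 12, 1, [⟨0, [1], [0, 1], [5], [], 0, 3, [11, 0, 0, 0, 0, 0, 0, -18], [], [(1, []), (27, [0, 0, 0, 36, 4, 0, 0, 0, 108, 108]), (175, [150, 0, 0, 150, 50, 0, 0, 0, 450, 900, 0, 450, 9]), (250, [600, 0, 0, 600, 0, 0, 0, 0, 1800, 3600, 5400, 7200, 0, 0, 0, 0, 153]), (900, [0, 0, 0, 7200, 800, 0, 0, 0, 21600, 21600, 0, 0, 0, 0, 0, 0, 729]), (900, [600, 0, 0, 0, 100, 0, 0, 0, 0, 1800, 900, 2700, 0, 0, 0, 0, 63]), (900, [3600, 0, 0, 0, 800, 0, 0, 0, 0, 10800, 0, 10800, 108, 0, 0, 0, 135])]⟩, ⟨0, [1], [2,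 3], [4], [], 2, 4, [9, 0, 0, 0, 0, 0, 0, 18], [], [(1, []), (27, [0, 0, 0, 0, 8, 0, 0, 0, 0, 108]), (525, [1650, 0, 0, 1650, 550, 0, 0, 0, 4950, 9900, 0, 4950, 99]), (175, [1200, 0, 0, 1200, 300, 0, 0, 0, 3600, 7200, 2700, 0, 36]), (1575, [12150, 0, 0, 12150, 6850, 0, 0, 0, 36450, 110700, 0, 36450, 729]), (800, [600, 0, 0, 600, 0, 0, 0, 0, 1800, 2000, 2200, 0, 18, 0, 0, 0, 23]), (200, [600, 0, 0, 600, 0, 0, 0, 0, 1800, 1200, 600, 0, 18, 0, 0, 0, 9])]⟩], (300, [0, 0, 0, 600, 200, 0, 0, 0, 1800, 3600, 0, 1800, 36, 0, 0, 0, 81]), (1, []), (1, [])⟩)))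

theorem cAC6 : Cert 6 false ([[-1, 3], [-4, 0, 0, 0, 27], [2, 0, -9], [1, -2]] ++ rootA 6) :=
  Cert.of_chk tAC6 (by decide +kernel)

/-- tree AC7 -/
def tAC7 : Tree :=
 .split [-4, 3, 3, 3, 3, 3, 3, 12]
 (.split [5, -6, 0, 0, 0, -6, 0, -18]
  (.leaf ⟨2, 6, 1, [⟨0, [1], [0, 4], [], [], 1, 2, [5], [], [(1, []), (75, [0, 0, 100, 0, 0, 0, 0, 0, 0, 0, 0, 0, 300, 3]), (25, [0, 0, 0, 0, 0, 0, 0, 0, 0, 0, 0, 0, 0, 0, 0, 0, 0, 0, 3]), (50, [0, 0, 0, 0, 0, 0, 0, 0, 0, 0, 0, 0, 0, 0, 0, 0, 0, 0, 9]), (25, [0, 0, 100, 0, 0, 0, 0, 0, 0, 0, 0, 0, 300, 3]), (162, [45, 0, 0, 0, 0, 2, 0, 27, 0, 0, 0, 54]), (1, [1])]⟩, ⟨0, [1], [1, 2], [3], [5], 1, 0, [5], [], [(1, []), (27, [0, 0, 0, 18, 4]), (9, [0, 0, 0, 0, 0, 2, 0, 0, 0, 0, 0, 54, 54]), (150, [0, 0, 0,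 0, 0, 100, 0, 0, 0, 0, 0, 0, 0, 0, 0, 0, 0, 0, 27]), (9, [0, 0, 0, 18, 4]), (540, [0, 0, 0, 0, 0, 100, 240, 0, 0, 1080, 0, 0, 0, 0, 0, 0, 0, 0, 27]), (450, [0, 0, 0, 0, 0, 200, 600, 0, 0, 2700, 0, 2700, 2700, 0, 0, 0, 0, 0, 27])]⟩], (1, [0, 2]), (1, []), (1, [])⟩)
  (.leaf ⟨2, 3, 1, [⟨0, [1], [0, 4], [], [], 1, 2, [3, 0, 0, 0, 0, 0, 0, -6], [], [(1, []), (75, [50, 0, 0, 0, 0, 0, 0, 0, 0, 0, 0, 0, 0, 0, 0, 0, 0, 0, 9]), (1, []), (54, [45, 0, 0, 0, 0, 10, 0, 135, 0, 0, 0, 270]), (9, [27, 0, 0, 0, 0, 4, 0, 54, 0, 0, 0, 108]), (540, [0, 0, 0, 0, 0, 40, 0, 540, 0, 0, 0, 1080, 0, 0, 0, 0, 0, 0, 27]), (180, [0, 0, 0, 0, 0, 20, 0, 270, 0, 0, 0, 540, 0, 0, 0, 0, 0, 0, 27])]⟩, ⟨0, [1], [1, 2], [3], [5], 1, 0, [2, 0, 0, 0, 0, 0, 0, 6], [], [(1, []), (27,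 [0, 0, 0, 18, 4]), (450, [0, 0, 0, 0, 0, 50, 0, 0, 0, 0, 0, 1350, 1350, 0, 0, 0, 0, 0, 27]), (300, [0, 0, 0, 0, 0, 100, 0, 0, 0, 0, 0, 0, 0, 0, 0, 0, 0, 0, 99]), (450, [0, 0, 0, 450, 100, 0, 0, 0, 0, 0, 0, 0, 0, 0, 0, 0, 0, 0, 243]), (900, [300, 0, 0, 0, 0, 100, 0, 0, 0, 0, 0, 0, 0, 18, 0, 600, 0, 0, 99]), (50, [25, 0, 0, 0, 0, 0, 0, 0, 0, 0, 0, 0, 0, 0, 0, 50, 0, 0, 3])]⟩], (90, [120, 0, 0, 90, 20, 0, 0, 90, 0, 0, 0, 540, 360, 9]), (1, []), (1, [])⟩))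
 (.split [2, 0, -2, -2, 0, 0, 0, -25]
  (.split [1, 2, 0, 2, 0, 0, 0, -36]
   (.split [-4, 3, 3, 3, 3, 3, 3, 21]
    (.leaf ⟨2, 24, 1, [⟨0, [1], [0, 1], [4], [], 0, 2, [20, 0, 0, 0, 0, 0, 0, 21], [], [(1, []), (3, [0, 0, 0, 0, 4, 2]), (225, [0, 0, 621, 0, 0, 207, 46]), (225, [0, 0, 756, 0, 0, 252, 56, 600, 0, 0, 0, 0, 0, 16200]), (61, [0, 189, 189, 0, 850, 551]), (1350, [0, 0, 0, 900, 0, 0, 100, 50, 0, 0, 0, 0, 0, 4050, 0, 27, 0, 0, 0, 54]), (1800, [0, 0, 0, 14400, 0, 0, 1600, 0, 0, 0, 0, 0, 0, 43200, 43200, 864, 0, 0, 0, 621])]⟩, ⟨0, [1], [2, 3], [], [5], 5, 0, [20, 0, 0, 0, 0, 0, 0, -21], [], [(1, []), (675, [0, 0, 0, 0, 0, 0, 100, 0, 0, 0, 0, 0, 0, 2700, 2700, 27]), (1800, [0, 0, 0, 0, 0, 0, 0, 1600, 0, 0, 0, 0, 0, 43200, 43200, 0, 0, 0,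 0, 189]), (225, [0, 0, 2484, 0, 0, 828, 184]), (1800, [0, 0, 0, 0, 0, 0, 3200, 0, 0, 0, 0, 0, 0, 86400, 86400, 864, 0, 0, 0, 1701]), (27, [0, 0, 27, 0, 0, 9, 0, 2]), (153, [0, 0, 837, 54, 54, 0, 0, 254, 0, 0, 0, 1836, 0, 3348, 3510])]⟩], (1, [2]), (1, []), (1, [])⟩)
    (.leaf ⟨2, 24, 1, [⟨0, [1], [0, 1], [5], [], 0, 3, [22, 0, 0, 0, 0, 0, -9], [], [(1, []), (3, [0, 0, 0, 0, 4, 2]), (2100, [7200, 0, 0, 0, 7200, 3600, 800, 0, 0, 0, 0, 0, 0, 21600, 43200, 837]), (450, [1800, 0, 0, 0, 1800, 900, 200, 0, 0, 0, 0, 0, 0, 5400, 10800, 0, 0, 0, 0, 189]), (100, [0, 0, 0, 0, 1600, 800, 0, 0, 0, 0, 0, 0, 0, 0, 0, 81]), (2700, [1800, 0, 0, 0, 0, 0, 200, 0, 0, 0, 0, 0, 0, 5400, 10800, 27, 0, 0, 0, 189]), (900, [7200, 0, 0, 0, 0, 0, 800, 0, 0, 0, 0, 0, 0,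 21600, 43200, 351, 0, 0, 0, 432])]⟩, ⟨0, [1], [2, 3], [], [4], 6, 0, [18, 0, 0, 0, 0, 0, 9], [], [(1, []), (675, [0, 0, 0, 0, 0, 0, 100, 0, 0, 0, 0, 0, 0, 2700, 2700, 27]), (1800, [5400, 0, 0, 0, 5400, 2700, 600, 400, 0, 0, 0, 0, 0, 27000, 0, 0, 0, 0, 0, 567]), (175, [3600, 0, 0, 0, 3600, 1800, 400, 0, 0, 0, 0, 0, 0, 10800, 21600, 261]), (5400, [19800, 0, 0, 0, 19800, 9900, 11800, 0, 0, 0, 0, 0, 0, 318600, 378000, 0, 0, 0, 0, 2079]), (4725, [6750, 0, 0, 0, 6750, 3375, 400, 0, 0, 0, 0, 0, 0, 10800, 31050, 513]), (100, [800, 0, 0, 0, 800, 400, 0, 0, 0, 0, 0, 0, 0, 0, 0, 33, 0, 0, 0, 12])]⟩], (900, [0, 0, 0, 0, 1800, 900, 200, 0, 0, 0, 0, 0, 0, 5400, 10800, 162, 0, 0, 0, 243]), (1, []), (1, [])⟩))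
   (.leaf ⟨2, 6, 1, [⟨0, [1], [0, 1], [2], [], 0, 2, [5], [], [(1, []), (3, [0, 0, 0, 4, 2]), (225, [0, 108, 0, 0, 36, 8]), (61, [225, 324, 0, 150, 108]), (1, [0, 0, 0, 4, 2]), (366, [375, 540, 0, 6, 58]), (45, [135, 216, 0, 0, 27, 16])]⟩, ⟨0, [1], [3, 4], [], [5], 4, 0, [5], [], [(1, []), (25, [0, 0, 0, 0, 0, 0, 0, 0, 0, 0, 0, 0, 100, 200, 2]), (9, [0, 0, 0, 0, 0, 0, 2, 0, 0, 0, 0, 0, 54, 54]), (75, [0, 216, 0, 0, 72, 16]), (25, [0, 0, 0, 0, 0, 0, 0, 0, 0, 0, 0, 0, 300, 600, 6]), (135, [0, 108, 0, 0, 36, 8, 20, 0, 0, 0, 0, 0, 270]), (225, [0, 216, 0, 0, 72, 16, 150, 0, 0, 0, 0, 0, 2700, 1350])]⟩], (1350, [1350, 0, 0, 3600, 1350, 400, 0, 0, 0, 0, 0, 0, 8100, 16200, 243]), (1, []), (1, [])⟩))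
  (.split [-4, 3, 3, 3, 3, 3, 3, 15]
   (.leaf ⟨2, 6, 1, [⟨0, [1], [0, 1], [4], [], 0, 2, [5], [], [(1, []), (3, [0, 0, 0, 4, 2]), (25, [0, 0, 0, 0, 0, 0, 0, 0, 0, 0, 0, 0, 0, 0, 0, 0, 0, 0, 0, 3]), (3, [0, 0, 0, 0, 0, 0, 2, 0, 0, 0, 0, 0, 54]), (1, [0, 0, 0, 4, 2]), (1350, [0, 432, 900, 0, 0, 68, 50, 96, 0, 0, 0, 0, 4050, 0, 27]), (75, [0, 36, 150, 0, 0, 14, 0, 8, 0, 0, 0, 0, 450, 450, 9])]⟩, ⟨0, [1], [2, 3], [], [5], 3, 0, [5], [], [(1, []), (675, [0, 0, 0, 0, 0, 100, 0, 0, 0, 0, 0, 0, 2700, 2700, 27]), (9, [0, 0, 0, 0, 0, 0, 2, 0, 0, 0, 0, 0, 54, 54]), (50, [0, 0, 0, 0, 0, 0, 0, 0, 0, 0, 0, 0, 0, 0, 0, 0, 0, 0, 0, 27]), (225, [0, 0, 0, 0, 0, 100, 0, 0, 0, 0, 0, 0, 2700, 2700, 27]), (300, [0, 0, 200, 200, 100, 0, 0, 0, 0, 0, 0, 0, 0, 600,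 12, 0, 0, 0, 0, 21]), (900, [0, 0, 1350, 1350, 450, 0, 50, 0, 0, 0, 1350, 0, 0, 4050, 27])]⟩], (1, [2]), (1, []), (1, [])⟩)
   (.leaf ⟨2, 12, 1, [⟨0, [1], [0, 1], [2], [], 0, 2, [11, 0, 0, 0, 0, 0, 0, -12], [], [(1, []), (3, [0, 0, 0, 4, 2]), (1125, [900, 0, 0, 900, 450, 100, 0, 0, 0, 0, 0, 0, 2700, 5400, 81]), (750, [9100, 6900, 0, 9100, 0, 0, 0, 0, 0, 0, 13500, 0, 27300, 54600, 819]), (25, [0, 108, 0, 200, 28, 0, 0, 0, 0, 0, 216]), (360, [700, 420, 0, 460, 0, 0, 0, 0, 0, 0, 540, 0, 2100, 4200, 63]), (375, [1900, 600, 0, 400, 0, 0, 0, 0, 0, 0, 0, 0, 5700, 11400, 171])]⟩, ⟨0, [1], [3, 4], [], [5], 4, 0, [9, 0, 0, 0, 0, 0, 0, 12], [], [(1, []), (25, [0, 0, 0, 0, 0, 0, 0, 0, 0, 0, 0, 0, 100, 200, 2]), (225, [300, 72, 0, 300, 126, 28, 0, 0, 0,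 0, 0, 0, 900, 1800]), (1125, [14400, 0, 0, 14400, 7200, 1600, 0, 0, 0, 0, 0, 0, 43200, 86400, 1296]), (125, [900, 0, 0, 900, 450, 100, 0, 0, 0, 0, 0, 0, 5700, 11400, 141]), (675, [900, 0, 0, 900, 450, 100, 0, 0, 0, 0, 0, 0, 1350, 2700, 54]), (75, [300, 72, 0, 300, 126, 28])]⟩], (450, [0, 648, 0, 900, 234, 52, 0, 0, 0, 0, 0, 0, 2700, 5400, 81]), (1, []), (1, [])⟩)))

theorem cAC7 : Cert 6 false ([[-1, 3], [-1, 0, 6], [-4, 0, 0, 27], [4, 0, 0, 0, -27], [2, 0, -9], [1, -2]] ++ rootA 6) :=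
  Cert.of_chk tAC7 (by decide +kernel)

end Crest.Agent.R017.Tree6x45
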