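import Crest.Agent.R017.CovMap2_702
import Crest.Agent.R017.Roots6_741
import Crest.Agent.R017.T6x1_45
import Crest.Agent.R017.T6x2_45
import Crest.Agent.R017.T6x3_45
import Crest.Agent.R017.T6x4_45
import Crest.Agent.R017.T6x5_45

/-!
# Row 17, T.2 : the tree for six big lumps, weights `lw2` (helper45)
-/

set_option autoImplicit false
set_option linter.all false

namespace Crest.Agent.R017.Tree6x45

open Crest.Agent.R017.Cov499 Crest.Agent.R017.CovFar74 Crest.Agent.R017.CovChk74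
  Crest.Agent.R017.CovMap702 Crest.Agent.R017.CovGlue741

/-- values of the point `(1, w, v)` -/
theorem pt6 (w : Fin 6 → ℝ) (v : ℝ) : pt w v 0 = 1 ∧ pt w v 1 = w 0 ∧ pt w v 2 = w 1 ∧
    pt w v 3 = w 2 ∧ pt w v 4 = w 3 ∧ pt w v 5 = w 4 ∧ pt w v 6 = w 5 ∧ pt w v 7 = v :=
  ⟨rfl, rfl, rfl, rfl, rfl, rfl, rfl, rfl⟩

/-- both clauses of one root -/
theorem good_of {E : List Form} (hA : Cert 6 false (E ++ rootA 6))
    (hB : Cert 6 false (E ++ rootB 6)) {w : Fin 6 → ℝ} (hw : Antitone w)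
    (h1 : ∀ j, 13 / 100 ≤ w j) (h2 : ∀ j, w j ≤ 5 / 6) (hs : ∑ j, w j ≤ 4 / 3) (hN : NoNE w)
    (hE : ∀ v, ∀ ψ ∈ E, 0 ≤ ev ψ (pt w v)) : Good Col0 Col2 (13 / 100) w := by
  have h2' : ∀ j, w j ≤ 1 := fun j => (h2 j).trans (by norm_num)
  refine ⟨fun v v0 v1 => ?_, fun v v0 v1 hv => Or.inl ?_⟩
  · refine hA.cov0 w v fun ψ hψ => ?_
    rcases List.mem_append.1 hψ with h | h
    · exact hE v ψ h
    · exact rootA_mem (by norm_num) hw h1 h2' hs hN v0 v1 ψ h
  · refine hB.cov0 w v fun ψ hψ => ?_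
    rcases List.mem_append.1 hψ with h | h
    · exact hE v ψ h
    · exact rootB_mem (by norm_num) hw h1 h2' hs hN v0 v1 hv ψ h

/-- **Tree 6** -/
theorem tree6 : TreeW lw2 6 := by
  intro w hw h1 h2 hs hN hP
  rcases Roots6741.roots6 w hw h1 hs hP with h | h | h | h | h | h | h | h | h
  · refine good_of cAC1 cBC1 hw h1 h2 hs hN fun v ψ hψ => ?_
    obtain ⟨e0, e1, e2, e3, e4, e5, e6, e7⟩ := pt6 w v
    simp only [List.mem_cons, List.not_mem_nil, or_false] at hψ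
    rcases hψ with rfl
    simp only [ev_cons, ev_nil, Nat.reduceAdd, e0, e1]
    push_cast; linarith
  · obtain ⟨g1, g2⟩ := h
    refine good_of cAC2 cBC2 hw h1 h2 hs hN fun v ψ hψ => ?_
    obtain ⟨e0, e1, e2, e3, e4, e5, e6, e7⟩ := pt6 w v
    simp only [List.mem_cons, List.not_mem_nil, or_false] at hψ
    rcases hψ with rfl | rfl <;>
    · simp only [ev_cons, ev_nil, Nat.reduceAdd, e0, e1, e2, e3, e4, e5, e6, e7]
      push_cast; linarith
  · obtain ⟨g1, g2, g3, g4⟩ := h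
    refine good_of cAC3 cBC3 hw h1 h2 hs hN fun v ψ hψ => ?_
    obtain ⟨e0, e1, e2, e3, e4, e5, e6, e7⟩ := pt6 w v
    simp only [List.mem_cons, List.not_mem_nil, or_false] at hψ
    rcases hψ with rfl | rfl | rfl | rfl <;>
    · simp only [ev_cons, ev_nil, Nat.reduceAdd, e0, e1, e2, e3, e4, e5, e6, e7]
      push_cast; linarith
  · obtain ⟨g1, g2, g3, g4, g5⟩ := h
    refine good_of cAC3p cBC3p hw h1 h2 hs hN fun v ψ hψ => ?_
    obtain ⟨e0, e1, e2, e3, e4, e5, e6, e7⟩ := pt6 w v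
    simp only [List.mem_cons, List.not_mem_nil, or_false] at hψ
    rcases hψ with rfl | rfl | rfl | rfl | rfl <;>
    · simp only [ev_cons, ev_nil, Nat.reduceAdd, e0, e1, e2, e3, e4, e5, e6, e7]
      push_cast; linarith
  · obtain ⟨g1, g2, g3, g4, g5⟩ := h
    refine good_of cAC4n cBC4n hw h1 h2 hs hN fun v ψ hψ => ?_
    obtain ⟨e0, e1, e2, e3, e4, e5, e6, e7⟩ := pt6 w v
    simp only [List.mem_cons, List.not_mem_nil, or_false] at hψ
    rcases hψ with rfl | rfl | rfl | rfl | rfl <;>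
    · simp only [ev_cons, ev_nil, Nat.reduceAdd, e0, e1, e2, e3, e4, e5, e6, e7]
      push_cast; linarith
  · obtain ⟨g1, g2, g3, g4, g5, g6⟩ := h
    refine good_of cAC5n cBC5n hw h1 h2 hs hN fun v ψ hψ => ?_
    obtain ⟨e0, e1, e2, e3, e4, e5, e6, e7⟩ := pt6 w v
    simp only [List.mem_cons, List.not_mem_nil, or_false] at hψ
    rcases hψ with rfl | rfl | rfl | rfl | rfl | rfl <;>
    · simp only [ev_cons, ev_nil, Nat.reduceAdd, e0, e1, e2, e3, e4, e5, e6, e7]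
      push_cast; linarith
  · obtain ⟨g1, g2, g3, g4, g5, g6, g7⟩ := h
    refine good_of cAC5s cBC5s hw h1 h2 hs hN fun v ψ hψ => ?_
    obtain ⟨e0, e1, e2, e3, e4, e5, e6, e7⟩ := pt6 w v
    simp only [List.mem_cons, List.not_mem_nil, or_false] at hψ
    rcases hψ with rfl | rfl | rfl | rfl | rfl | rfl | rfl <;>
    · simp only [ev_cons, ev_nil, Nat.reduceAdd, e0, e1, e2, e3, e4, e5, e6, e7]
      push_cast; linarith
  · obtain ⟨g1, g2, g3, g4⟩ := h
    refine good_of cAC6 cBC6 hw h1 h2 hs hN fun v ψ hψ => ?_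
    obtain ⟨e0, e1, e2, e3, e4, e5, e6, e7⟩ := pt6 w v
    simp only [List.mem_cons, List.not_mem_nil, or_false] at hψ
    rcases hψ with rfl | rfl | rfl | rfl <;>
    · simp only [ev_cons, ev_nil, Nat.reduceAdd, e0, e1, e2, e3, e4, e5, e6, e7]
      push_cast; linarith
  · obtain ⟨g1, g2, g3, g4, g5, g6⟩ := h
    refine good_of cAC7 cBC7 hw h1 h2 hs hN fun v ψ hψ => ?_
    obtain ⟨e0, e1, e2, e3, e4, e5, e6, e7⟩ := pt6 w v
    simp only [List.mem_cons, List.not_mem_nil, or_false] at hψ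
    rcases hψ with rfl | rfl | rfl | rfl | rfl | rfl <;>
    · simp only [ev_cons, ev_nil, Nat.reduceAdd, e0, e1, e2, e3, e4, e5, e6, e7]
      push_cast; linarith

end Crest.Agent.R017.Tree6x45
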