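import Crest.Agent.R017.Roots6_741

/-!
# Row 17, T.2 : the roots of Tree 7 for the weights `lw2` (helper741)

`{Σ P > 1}`, `P u = 1 / (2 lw2 u)`, is contained in ten convex roots.
-/

set_option autoImplicit false

noncomputable section

namespace Crest.Agent.R017.Roots7741

open Crest.Agent.R017.CovMap702 Crest.Agent.R017.Roots6741

/-- the roots of Tree 7 -/
theorem roots7 (w : Fin 7 → ℝ) (hw : Antitone w) (hP : 1 < ∑ j, 1 / (2 * lw2 (w j))) :
    (1 ≤ 3 * w 0)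
    ∨ (3 * w 0 ≤ 1 ∧ 2 ≤ 9 * w 1)
    ∨ (2 ≤ 9 * w 0 ∧ 3 * w 0 ≤ 1 ∧ 9 * w 1 ≤ 2 ∧ 1 ≤ 5 * w 1 ∧ 4 ≤ 27 * w 2)
    ∨ (2 ≤ 9 * w 0 ∧ 3 * w 0 ≤ 1 ∧ 5 * w 1 ≤ 1 ∧ 4 ≤ 27 * w 3)
    ∨ (9 * w 0 ≤ 2 ∧ 1 ≤ 5 * w 2 ∧ 4 ≤ 27 * w 4)
    ∨ (9 * w 0 ≤ 2 ∧ 1 ≤ 5 * w 1 ∧ 5 * w 2 ≤ 1 ∧ 4 ≤ 21 * w 4)
    ∨ (9 * w 0 ≤ 2 ∧ 1 ≤ 5 * w 1 ∧ 5 * w 2 ≤ 1 ∧ 21 * w 4 ≤ 4 ∧ 4 ≤ 27 * w 5)
    ∨ (9 * w 0 ≤ 2 ∧ 1 ≤ 5 * w 0 ∧ 5 * w 1 ≤ 1 ∧ 4 ≤ 21 * w 2 ∧ 4 ≤ 27 * w 5)
    ∨ (9 * w 0 ≤ 2 ∧ 5 * w 1 ≤ 1 ∧ 4 ≤ 21 * w 4 ∧ 4 ≤ 27 * w 5)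
    ∨ (9 * w 0 ≤ 2 ∧ 5 * w 1 ≤ 1 ∧ 4 ≤ 21 * w 0 ∧ 4 ≤ 27 * w 6) := by
  have a01 : w 1 ≤ w 0 := hw (by decide)
  have a12 : w 2 ≤ w 1 := hw (by decide)
  have a23 : w 3 ≤ w 2 := hw (by decide)
  have a34 : w 4 ≤ w 3 := hw (by decide)
  have a45 : w 5 ≤ w 4 := hw (by decide)
  have a56 : w 6 ≤ w 5 := hw (by decide)
  rw [Fin.sum_univ_seven] at hP
  rcases le_or_gt 1 (3 * w 0) with h | h0
  · exact Or.inl h
  refine Or.inr ?_
  rcases le_or_gt 2 (9 * w 1) with h | h1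
  · exact Or.inl ⟨h0.le, h⟩
  refine Or.inr ?_
  have q1 := P4 (u := w 1) (by linarith)
  have q2 := P4 (u := w 2) (by linarith)
  have q3 := P4 (u := w 3) (by linarith)
  have q4 := P4 (u := w 4) (by linarith)
  have q5 := P4 (u := w 5) (by linarith)
  have q6 := P4 (u := w 6) (by linarith)
  rcases le_or_gt 2 (9 * w 0) with h2 | h2
  · -- `w 0 ≥ 2/9`
    have q0 := P5 (u := w 0) (by linarith)
    rcases le_or_gt 1 (5 * w 1) with h3 | h3
    · refine Or.inl ⟨h2, h0.le, h1.le, h3, ?_⟩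
      by_contra hc
      have hc := not_le.1 hc
      have := P1 (u := w 2) (by linarith)
      have := P1 (u := w 3) (by linarith)
      have := P1 (u := w 4) (by linarith)
      have := P1 (u := w 5) (by linarith)
      have := P1 (u := w 6) (by linarith)
      linarith
    · refine Or.inr (Or.inl ⟨h2, h0.le, h3.le, ?_⟩)
      by_contra hc
      have hc := not_le.1 hc
      have := P3 (u := w 1) (by linarith)
      have := P3 (u := w 2) (by linarith)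
      have := P1 (u := w 3) (by linarith)
      have := P1 (u := w 4) (by linarith)
      have := P1 (u := w 5) (by linarith)
      have := P1 (u := w 6) (by linarith)
      linarith
  refine Or.inr (Or.inr ?_)
  have q0 := P4 (u := w 0) (by linarith)
  rcases le_or_gt 1 (5 * w 2) with h3 | h3
  · refine Or.inl ⟨h2.le, h3, ?_⟩
    by_contra hc
    have hc := not_le.1 hc
    have := P1 (u := w 4) (by linarith)
    have := P1 (u := w 5) (by linarith)
    have := P1 (u := w 6) (by linarith)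
    linarith
  refine Or.inr ?_
  have r2 := P3 (u := w 2) (by linarith)
  have r3 := P3 (u := w 3) (by linarith)
  have r4 := P3 (u := w 4) (by linarith)
  have r5 := P3 (u := w 5) (by linarith)
  have r6 := P3 (u := w 6) (by linarith)
  rcases le_or_gt 1 (5 * w 1) with h4 | h4
  · rcases le_or_gt 4 (21 * w 4) with h5 | h5
    · exact Or.inl ⟨h2.le, h4, h3.le, h5⟩
    refine Or.inr (Or.inl ⟨h2.le, h4, h3.le, h5.le, ?_⟩)
    by_contra hc
    have hc := not_le.1 hc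
    have := P2 (u := w 4) (by linarith)
    have := P1 (u := w 5) (by linarith)
    have := P1 (u := w 6) (by linarith)
    linarith
  refine Or.inr (Or.inr ?_)
  have r1 := P3 (u := w 1) (by linarith)
  rcases le_or_gt 4 (27 * w 6) with h5 | h5
  · refine Or.inr (Or.inr ⟨h2.le, h4.le, ?_, h5⟩)
    by_contra hc
    have hc := not_le.1 hc
    have := P2 (u := w 0) (by linarith)
    have := P2 (u := w 1) (by linarith)
    have := P2 (u := w 2) (by linarith)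
    have := P2 (u := w 3) (by linarith)
    have := P2 (u := w 4) (by linarith)
    have := P2 (u := w 5) (by linarith)
    have := P2 (u := w 6) (by linarith)
    linarith
  have s6 := P1 (u := w 6) (by linarith)
  have h6 : 4 ≤ 27 * w 5 := by
    by_contra hc
    have hc := not_le.1 hc
    have := P1 (u := w 5) (by linarith)
    linarith
  rcases le_or_gt 4 (21 * w 4) with h7 | h7
  · exact Or.inr (Or.inl ⟨h2.le, h4.le, h7, h6⟩)
  have s4 := P2 (u := w 4) (by linarith)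
  have s5 := P2 (u := w 5) (by linarith)
  refine Or.inl ⟨h2.le, ?_, h4.le, ?_, h6⟩
  · by_contra hc
    have hc := not_le.1 hc
    have := P3 (u := w 0) (by linarith)
    linarith
  · by_contra hc
    have hc := not_le.1 hc
    have := P2 (u := w 2) (by linarith)
    have := P2 (u := w 3) (by linarith)
    linarith

end Crest.Agent.R017.Roots7741
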