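import Crest.Agent.R017.C7Glue_325
import Crest.Agent.R017.Roots7_741

/-!
# Row 17, T.2 : **the tree for seven big lumps** (helper325)

`tree7 : TreeW lw2 7`: the roots of `Roots7_741`, the certificates `C7a_325` .. `C7o_325`.
-/

set_option autoImplicit false

namespace Crest.Agent.R017.C7_325

open Crest.Agent.R017.CovFar74 Crest.Agent.R017.CovChk74 Crest.Agent.R017.Cov499
  Crest.Agent.R017.CovMap702 Crest.Agent.R017.CovGlue741

section roots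

variable (w : Fin 7 → ℝ) (v : ℝ)

theorem memA (h : 1 ≤ 3 * w 0) :
    ∀ ψ ∈ XA, 0 ≤ ev ψ (pt w v) := by
  intro ψ hψ
  simp only [XA, List.mem_cons, List.not_mem_nil, or_false] at hψ
  have e0 : pt w v 0 = 1 := rfl
  have e1 : pt w v 1 = w 0 := pt_at w v 0 (by omega)
  have e2 : pt w v 2 = w 1 := pt_at w v 1 (by omega)
  have e3 : pt w v 3 = w 2 := pt_at w v 2 (by omega)
  have e4 : pt w v 4 = w 3 := pt_at w v 3 (by omega)
  have e5 : pt w v 5 = w 4 := pt_at w v 4 (by omega)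
  have e6 : pt w v 6 = w 5 := pt_at w v 5 (by omega)
  have e7 : pt w v 7 = w 6 := pt_at w v 6 (by omega)
  subst hψ
  simp only [ev_cons, ev_nil, e0, Nat.reduceAdd, e1]
  push_cast
  linarith

theorem memB (h : 3 * w 0 ≤ 1 ∧ 2 ≤ 9 * w 1) :
    ∀ ψ ∈ XB, 0 ≤ ev ψ (pt w v) := by
  intro ψ hψ
  obtain ⟨g0, g1⟩ := h
  simp only [XB, List.mem_cons, List.not_mem_nil, or_false] at hψ
  have e0 : pt w v 0 = 1 := rfl
  have e1 : pt w v 1 = w 0 := pt_at w v 0 (by omega)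
  have e2 : pt w v 2 = w 1 := pt_at w v 1 (by omega)
  have e3 : pt w v 3 = w 2 := pt_at w v 2 (by omega)
  have e4 : pt w v 4 = w 3 := pt_at w v 3 (by omega)
  have e5 : pt w v 5 = w 4 := pt_at w v 4 (by omega)
  have e6 : pt w v 6 = w 5 := pt_at w v 5 (by omega)
  have e7 : pt w v 7 = w 6 := pt_at w v 6 (by omega)
  rcases hψ with rfl | rfl <;>
    simp only [ev_cons, ev_nil, e0, Nat.reduceAdd, e1, e2, e3, e4, e5, e6, e7] <;> push_cast <;>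
    linarith

theorem memC (h : 2 ≤ 9 * w 0 ∧ 3 * w 0 ≤ 1 ∧ 9 * w 1 ≤ 2 ∧ 1 ≤ 5 * w 1 ∧ 4 ≤ 27 * w 2) :
    ∀ ψ ∈ XC, 0 ≤ ev ψ (pt w v) := by
  intro ψ hψ
  obtain ⟨g0, g1, g2, g3, g4⟩ := h
  simp only [XC, List.mem_cons, List.not_mem_nil, or_false] at hψ
  have e0 : pt w v 0 = 1 := rfl
  have e1 : pt w v 1 = w 0 := pt_at w v 0 (by omega)
  have e2 : pt w v 2 = w 1 := pt_at w v 1 (by omega)
  have e3 : pt w v 3 = w 2 := pt_at w v 2 (by omega)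
  have e4 : pt w v 4 = w 3 := pt_at w v 3 (by omega)
  have e5 : pt w v 5 = w 4 := pt_at w v 4 (by omega)
  have e6 : pt w v 6 = w 5 := pt_at w v 5 (by omega)
  have e7 : pt w v 7 = w 6 := pt_at w v 6 (by omega)
  rcases hψ with rfl | rfl | rfl | rfl | rfl <;>
    simp only [ev_cons, ev_nil, e0, Nat.reduceAdd, e1, e2, e3, e4, e5, e6, e7] <;> push_cast <;>
    linarith

theorem memD (h : 2 ≤ 9 * w 0 ∧ 3 * w 0 ≤ 1 ∧ 5 * w 1 ≤ 1 ∧ 4 ≤ 27 * w 3) :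
    ∀ ψ ∈ XD, 0 ≤ ev ψ (pt w v) := by
  intro ψ hψ
  obtain ⟨g0, g1, g2, g3⟩ := h
  simp only [XD, List.mem_cons, List.not_mem_nil, or_false] at hψ
  have e0 : pt w v 0 = 1 := rfl
  have e1 : pt w v 1 = w 0 := pt_at w v 0 (by omega)
  have e2 : pt w v 2 = w 1 := pt_at w v 1 (by omega)
  have e3 : pt w v 3 = w 2 := pt_at w v 2 (by omega)
  have e4 : pt w v 4 = w 3 := pt_at w v 3 (by omega)
  have e5 : pt w v 5 = w 4 := pt_at w v 4 (by omega)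
  have e6 : pt w v 6 = w 5 := pt_at w v 5 (by omega)
  have e7 : pt w v 7 = w 6 := pt_at w v 6 (by omega)
  rcases hψ with rfl | rfl | rfl | rfl <;>
    simp only [ev_cons, ev_nil, e0, Nat.reduceAdd, e1, e2, e3, e4, e5, e6, e7] <;> push_cast <;>
    linarith

theorem memE (h : 9 * w 0 ≤ 2 ∧ 1 ≤ 5 * w 2 ∧ 4 ≤ 27 * w 4) :
    ∀ ψ ∈ XE, 0 ≤ ev ψ (pt w v) := by
  intro ψ hψ
  obtain ⟨g0, g1, g2⟩ := h
  simp only [XE, List.mem_cons, List.not_mem_nil, or_false] at hψ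
  have e0 : pt w v 0 = 1 := rfl
  have e1 : pt w v 1 = w 0 := pt_at w v 0 (by omega)
  have e2 : pt w v 2 = w 1 := pt_at w v 1 (by omega)
  have e3 : pt w v 3 = w 2 := pt_at w v 2 (by omega)
  have e4 : pt w v 4 = w 3 := pt_at w v 3 (by omega)
  have e5 : pt w v 5 = w 4 := pt_at w v 4 (by omega)
  have e6 : pt w v 6 = w 5 := pt_at w v 5 (by omega)
  have e7 : pt w v 7 = w 6 := pt_at w v 6 (by omega)
  rcases hψ with rfl | rfl | rfl <;>
    simp only [ev_cons, ev_nil, e0, Nat.reduceAdd, e1, e2, e3, e4, e5, e6, e7] <;> push_cast <;>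
    linarith

theorem memF (h : 9 * w 0 ≤ 2 ∧ 1 ≤ 5 * w 1 ∧ 5 * w 2 ≤ 1 ∧ 4 ≤ 21 * w 4) :
    ∀ ψ ∈ XF, 0 ≤ ev ψ (pt w v) := by
  intro ψ hψ
  obtain ⟨g0, g1, g2, g3⟩ := h
  simp only [XF, List.mem_cons, List.not_mem_nil, or_false] at hψ
  have e0 : pt w v 0 = 1 := rfl
  have e1 : pt w v 1 = w 0 := pt_at w v 0 (by omega)
  have e2 : pt w v 2 = w 1 := pt_at w v 1 (by omega)
  have e3 : pt w v 3 = w 2 := pt_at w v 2 (by omega)
  have e4 : pt w v 4 = w 3 := pt_at w v 3 (by omega)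
  have e5 : pt w v 5 = w 4 := pt_at w v 4 (by omega)
  have e6 : pt w v 6 = w 5 := pt_at w v 5 (by omega)
  have e7 : pt w v 7 = w 6 := pt_at w v 6 (by omega)
  rcases hψ with rfl | rfl | rfl | rfl <;>
    simp only [ev_cons, ev_nil, e0, Nat.reduceAdd, e1, e2, e3, e4, e5, e6, e7] <;> push_cast <;>
    linarith

theorem memG (h : 9 * w 0 ≤ 2 ∧ 1 ≤ 5 * w 1 ∧ 5 * w 2 ≤ 1 ∧ 21 * w 4 ≤ 4 ∧ 4 ≤ 27 * w 5) :
    ∀ ψ ∈ XG, 0 ≤ ev ψ (pt w v) := by
  intro ψ hψ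
  obtain ⟨g0, g1, g2, g3, g4⟩ := h
  simp only [XG, List.mem_cons, List.not_mem_nil, or_false] at hψ
  have e0 : pt w v 0 = 1 := rfl
  have e1 : pt w v 1 = w 0 := pt_at w v 0 (by omega)
  have e2 : pt w v 2 = w 1 := pt_at w v 1 (by omega)
  have e3 : pt w v 3 = w 2 := pt_at w v 2 (by omega)
  have e4 : pt w v 4 = w 3 := pt_at w v 3 (by omega)
  have e5 : pt w v 5 = w 4 := pt_at w v 4 (by omega)
  have e6 : pt w v 6 = w 5 := pt_at w v 5 (by omega)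
  have e7 : pt w v 7 = w 6 := pt_at w v 6 (by omega)
  rcases hψ with rfl | rfl | rfl | rfl | rfl <;>
    simp only [ev_cons, ev_nil, e0, Nat.reduceAdd, e1, e2, e3, e4, e5, e6, e7] <;> push_cast <;>
    linarith

theorem memH (h : 9 * w 0 ≤ 2 ∧ 1 ≤ 5 * w 0 ∧ 5 * w 1 ≤ 1 ∧ 4 ≤ 21 * w 2 ∧ 4 ≤ 27 * w 5) :
    ∀ ψ ∈ XH, 0 ≤ ev ψ (pt w v) := by
  intro ψ hψ
  obtain ⟨g0, g1, g2, g3, g4⟩ := h
  simp only [XH, List.mem_cons, List.not_mem_nil, or_false] at hψ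
  have e0 : pt w v 0 = 1 := rfl
  have e1 : pt w v 1 = w 0 := pt_at w v 0 (by omega)
  have e2 : pt w v 2 = w 1 := pt_at w v 1 (by omega)
  have e3 : pt w v 3 = w 2 := pt_at w v 2 (by omega)
  have e4 : pt w v 4 = w 3 := pt_at w v 3 (by omega)
  have e5 : pt w v 5 = w 4 := pt_at w v 4 (by omega)
  have e6 : pt w v 6 = w 5 := pt_at w v 5 (by omega)
  have e7 : pt w v 7 = w 6 := pt_at w v 6 (by omega)
  rcases hψ with rfl | rfl | rfl | rfl | rfl <;>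
    simp only [ev_cons, ev_nil, e0, Nat.reduceAdd, e1, e2, e3, e4, e5, e6, e7] <;> push_cast <;>
    linarith

theorem memI (h : 9 * w 0 ≤ 2 ∧ 5 * w 1 ≤ 1 ∧ 4 ≤ 21 * w 4 ∧ 4 ≤ 27 * w 5) :
    ∀ ψ ∈ XI, 0 ≤ ev ψ (pt w v) := by
  intro ψ hψ
  obtain ⟨g0, g1, g2, g3⟩ := h
  simp only [XI, List.mem_cons, List.not_mem_nil, or_false] at hψ
  have e0 : pt w v 0 = 1 := rfl
  have e1 : pt w v 1 = w 0 := pt_at w v 0 (by omega)
  have e2 : pt w v 2 = w 1 := pt_at w v 1 (by omega)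
  have e3 : pt w v 3 = w 2 := pt_at w v 2 (by omega)
  have e4 : pt w v 4 = w 3 := pt_at w v 3 (by omega)
  have e5 : pt w v 5 = w 4 := pt_at w v 4 (by omega)
  have e6 : pt w v 6 = w 5 := pt_at w v 5 (by omega)
  have e7 : pt w v 7 = w 6 := pt_at w v 6 (by omega)
  rcases hψ with rfl | rfl | rfl | rfl <;>
    simp only [ev_cons, ev_nil, e0, Nat.reduceAdd, e1, e2, e3, e4, e5, e6, e7] <;> push_cast <;>
    linarith

theorem memJ (h : 9 * w 0 ≤ 2 ∧ 5 * w 1 ≤ 1 ∧ 4 ≤ 21 * w 0 ∧ 4 ≤ 27 * w 6) :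
    ∀ ψ ∈ XJ, 0 ≤ ev ψ (pt w v) := by
  intro ψ hψ
  obtain ⟨g0, g1, g2, g3⟩ := h
  simp only [XJ, List.mem_cons, List.not_mem_nil, or_false] at hψ
  have e0 : pt w v 0 = 1 := rfl
  have e1 : pt w v 1 = w 0 := pt_at w v 0 (by omega)
  have e2 : pt w v 2 = w 1 := pt_at w v 1 (by omega)
  have e3 : pt w v 3 = w 2 := pt_at w v 2 (by omega)
  have e4 : pt w v 4 = w 3 := pt_at w v 3 (by omega)
  have e5 : pt w v 5 = w 4 := pt_at w v 4 (by omega)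
  have e6 : pt w v 6 = w 5 := pt_at w v 5 (by omega)
  have e7 : pt w v 7 = w 6 := pt_at w v 6 (by omega)
  rcases hψ with rfl | rfl | rfl | rfl <;>
    simp only [ev_cons, ev_nil, e0, Nat.reduceAdd, e1, e2, e3, e4, e5, e6, e7] <;> push_cast <;>
    linarith

end roots

/-- **Tree 7** -/
theorem tree7 : TreeW lw2 7 := by
  intro w hw hlo hhi hS hN hP
  have h1 : ∀ j, w j ≤ 1 := fun j => (hhi j).trans (by norm_num)
  have key : ∃ X : List Form, CertT 7 false (X ++ rootA 7) ∧ CertT 7 true (X ++ rootB 7) ∧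
      ∀ v, ∀ ψ ∈ X, 0 ≤ ev ψ (pt w v) := by
    rcases Roots7741.roots7 w hw hP with h | h | h | h | h | h | h | h | h | h
    · exact ⟨XA, topAA, topBA, fun v => memA w v h⟩
    · exact ⟨XB, topAB, topBB, fun v => memB w v h⟩
    · exact ⟨XC, topAC, topBC, fun v => memC w v h⟩
    · exact ⟨XD, topAD, topBD, fun v => memD w v h⟩
    · exact ⟨XE, topAE, topBE, fun v => memE w v h⟩
    · exact ⟨XF, topAF, topBF, fun v => memF w v h⟩
    · exact ⟨XG, topAG, topBG, fun v => memG w v h⟩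
    · exact ⟨XH, topAH, topBH, fun v => memH w v h⟩
    · exact ⟨XI, topAI, topBI, fun v => memI w v h⟩
    · exact ⟨XJ, topAJ, topBJ, fun v => memJ w v h⟩
  obtain ⟨X, hA, hB, hX⟩ := key
  refine ⟨fun v v0 v1 => hA.cov0 w v hS (by linarith) ?_,
    fun v v0 v1 hv => hB.cov2 w v hS (by linarith) ?_⟩
  · intro ψ hψ
    rcases List.mem_append.1 hψ with h | h
    · exact hX v ψ h
    · exact rootA_mem (by norm_num) hw hlo h1 hS hN v0 v1 ψ h
  · intro ψ hψ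
    rcases List.mem_append.1 hψ with h | h
    · exact hX v ψ h
    · exact rootB_mem (by norm_num) hw hlo h1 hS hN v0 v1 hv ψ h

/-- the direct form -/
theorem treeD7 (hE : EyP) : TreeD lw2 7 := treeD_of_tree hE tree7

end Crest.Agent.R017.C7_325
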