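import Crest.Agent.R017.CovEnd2_741
import Crest.Agent.R017.Tree345_325
import Crest.Agent.R017.Tree6_45
import Crest.Agent.R017.Tree7_325
import Crest.Agent.R017.Cov8_90

/-!
# Row 17, T.2 : all trees, the certificate of the absolute boxes (helper45)
-/

set_option autoImplicit false

noncomputable section

namespace Crest.Agent.R017.T2x45

open Crest.Agent.R017.ER911 Crest.Agent.R017.CovMap702 Crest.Agent.R017.Prov71
  Crest.Agent.R017.CovM59 Crest.Agent.R017.Cone59 Crest.Agent.R017.CovEnd2741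

/-- all trees -/
theorem trees : ∀ k, 3 ≤ k → k ≤ 8 → TreeD lw2 k := by
  intro k h3 h8
  obtain rfl | rfl | rfl | rfl | rfl | rfl : k = 3 ∨ k = 4 ∨ k = 5 ∨ k = 6 ∨ k = 7 ∨ k = 8 := by
    omega
  · exact treeD2_of_tree Tree345_325.tree3
  · exact treeD2_of_tree Tree345_325.tree4
  · exact treeD2_of_tree Tree345_325.tree5
  · exact treeD2_of_tree2 Tree6x45.tree6
  · exact treeD2_of_tree2 C7_325.tree7
  · exact Cov8_90.tree8'

/-- **T.2, unconditional: the certificate of the absolute boxes** -/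
theorem certA {θ : ℝ} (hθ : 7 / 8 < θ) (hθ1 : θ < 1) : ∃ μ : ℝ, 0 < μ ∧ μ ≤ 1 / 12 ∧
    ∀ r s s₀ rc bc : EF, ProvE θ r s s₀ rc bc →
      TopC702.BoxAll θ μ (BxE986.AL (9 / 10) 1 w5) bc :=
  certA_of_trees2 trees hθ hθ1

/-- **T.2, unconditional: the coverage** -/
theorem covAll {θ : ℝ} (hθ : 7 / 8 < θ) (hθ1 : θ < 1) : ∃ e₀ t μ : ℝ, 0 ≤ t ∧ t ≤ 1 / 3 ∧
    0 < μ ∧ 2 * e₀ + (2 * θ - 1) * t + μ ≤ b2 θ ∧ BoxAll702.CovAll θ e₀ t :=
  covAll_of_trees2 trees hθ hθ1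

end Crest.Agent.R017.T2x45
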