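import Crest.Agent.R017.Fin8_986
import Crest.Agent.R017.LfN_986
import Crest.Agent.R017.LfE_986
import Crest.Agent.R017.T2_45
import Crest.Agent.R017.StrFin_858

/-!
# Row 17: S0022 and S0023 from the open inputs of the leaves (helper699)

* `OpN`, `LfE986.InE` : the open inputs of the two classes
* `s22_of`, `s23_of` : the two statements of row 17
-/

set_option autoImplicit false

noncomputable section

open Complex Filter Topology

namespace Crest.Agent.R017.Fin9b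

open Crest.Agent.R012 Crest.Agent.R012.Eis
open Crest.Agent.R017.FE47 Crest.Agent.R017.End699
open Crest.Agent.R017.B770 Crest.Agent.R017.BxH986
open Crest.Agent.R017.Prov71 Crest.Agent.R017.ER911
open Crest.Agent.R017.E5B71 Crest.Agent.R017.ExP960
open Crest.Agent.R017.E5L770
open Crest.Agent.R017.SC777
open Crest.Agent.R017.Fin4 Crest.Agent.R017.Fin5 Crest.Agent.R017.Fin6
open Crest.Agent.R017.P1l54 Crest.Agent.R017.P1t54
open Crest.Agent.R017.P10146 (EtU RpU E3U)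
open Crest.Agent.R017.Sg986 (AA)
open Crest.Agent.R017.NrA986 (NearAll)

/-- **the open inputs of class N** -/
structure OpN (d : ℝ) (h : ℝ → ℝ) (r : ℝ) : Prop where
  /-- P1, exact square -/
  et : EtU πN h (1 / 64) (ParS (AA d) d) (LS0 d)
  rp : RpU πN h (1 / 64) (ParS (AA d) d) (LS0 d)
  e3 : E3U πN h (1 / 64) r (ParS (AA d) d) (LS0 d)
  /-- P1, mismatch -/
  p1m : P1M πN h (1 / 64) (ParS (AA d) d) (LS0 d)
  /-- the structured part, the near-equal lists, the moments of the tail -/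
  str : StrFin858.StrIn d h r

/-- the inputs of `LeafN` -/
theorem inN_of {d : ℝ} (hd : 0 < d) (hd1 : d ≤ 1 / 42) {h : ℝ → ℝ} {c₀ : ℝ} (hpu : PU h c₀)
    (hB : BunA d h) (hR : RecA d h) {r : ℝ} (hr0 : 0 ≤ r) (hr : ∀ u : ℝ, cx h u ≠ 0 → |u| ≤ r)
    (H : OpN d h r) : Lf986.InN d h r where
  near := H.str.near
  et := H.et
  rp := H.rp
  e3 := H.e3
  p1m := H.p1m
  spin := by
    obtain ⟨μ, hμ, hS⟩ := H.str.sp
    exact ⟨μ, hμ, hS (1 / 64) (by norm_num) le_rfl bfO fun _ _ _ => le_rfl⟩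
  str := StrFin858.str_of hd hd1 hpu hB hR hr0 hr H.str

/-- **the open inputs of row 17** -/
structure Open9 (d : ℝ) (h : ℝ → ℝ) : Prop where
  /-- T.3 -/
  n : d ≤ 1 / 42 → BunA d h → RecA d h → CovA d → ∀ r : ℝ, 0 ≤ r →
    (∀ u : ℝ, cx h u ≠ 0 → |u| ≤ r) → OpN d h r
  /-- T.4 -/
  e : d ≤ 1 / 42 → BunE d h → RecE d h → BunA d h → RecA d h → CovA d → ∀ r : ℝ, 0 ≤ r →
    (∀ u : ℝ, cx h u ≠ 0 → |u| ≤ r) → LfE986.InE d h r

/-- **the open inputs** -/
def Open : Prop := ∀ (h : ℝ → ℝ) (c₀ : ℝ), PU h c₀ → Neg h → ∀ d : ℝ, 0 < d → d < 1 / 8 →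
  PF Set.univ (7 / 8 + d) → Open9 d h

theorem open_of (H : Open) : Fin8.Open := fun h c₀ hpu hneg d hd hd1 hPF =>
  { sgnN := fun h1 h2 h3 h4 r hr0 hr =>
      Lf986.leafN_of hd h1 hpu h2 h3 hr0 hr (inN_of hd h1 hpu h2 h3 hr0 hr
        ((H h c₀ hpu hneg d hd hd1 hPF).n h1 h2 h3 h4 r hr0 hr))
    sgnE := fun h1 h2 h3 h4 h5 h6 r hr0 hr =>
      LfE986.leafE_of hd h1 hpu h2 h3
        ((H h c₀ hpu hneg d hd hd1 hPF).e h1 h2 h3 h4 h5 h6 r hr0 hr) }

/-- **S0022** from the open inputs -/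
theorem s22_of (H : Open) : S22 := Fin8.s22_of_open8 T2x45.trees (open_of H)

/-- **S0023** from the open inputs -/
theorem s23_of (H : Open) : S23 := Fin8.s23_of_open8 T2x45.trees (open_of H)

end Crest.Agent.R017.Fin9b
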