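import Crest.Agent.R017.Fin8_986
import Crest.Agent.R017.LfN_986
import Crest.Agent.R017.LfE_986

/-!
# Row 17: the top from the open inputs of T.3 and T.4 (helper986)

* `Open9 d h` : `InN` and `InE`; `s22_of_open9`, `s23_of_open9`
-/

set_option autoImplicit false

noncomputable section

open Complex Filter Topology

namespace Crest.Agent.R017.Fin9

open Crest.Agent.R012 Crest.Agent.R012.Eis
open Crest.Agent.R017.FE47 Crest.Agent.R017.End699
open Crest.Agent.R017.B770 Crest.Agent.R017.BxH986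
open Crest.Agent.R017.Fin4 Crest.Agent.R017.Fin5 Crest.Agent.R017.Fin6

/-- **the open inputs of row 17** at `θ = 7/8 + d` -/
structure Open9 (d : ℝ) (h : ℝ → ℝ) : Prop where
  /-- T.3 -/
  inN : d ≤ 1 / 42 → BunA d h → RecA d h → CovA d → ∀ r : ℝ, 0 ≤ r →
    (∀ u : ℝ, cx h u ≠ 0 → |u| ≤ r) → Lf986.InN d h r
  /-- T.4 -/
  inE : d ≤ 1 / 42 → BunE d h → RecE d h → BunA d h → RecA d h → CovA d → ∀ r : ℝ, 0 ≤ r →
    (∀ u : ℝ, cx h u ≠ 0 → |u| ≤ r) → LfE986.InE d h r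

/-- **the open inputs of row 17** -/
def Open : Prop := ∀ (h : ℝ → ℝ) (c₀ : ℝ), PU h c₀ → Neg h → ∀ d : ℝ, 0 < d → d < 1 / 8 →
  PF Set.univ (7 / 8 + d) → Open9 d h

theorem open_of (H : Open) : Fin8.Open := fun h c₀ hpu hneg d hd hd1 hPF =>
  { sgnN := fun h1 h2 h3 h4 r h5 h6 => Lf986.leafN_of hd h1 hpu h2 h3 h5 h6
      ((H h c₀ hpu hneg d hd hd1 hPF).inN h1 h2 h3 h4 r h5 h6)
    sgnE := fun h1 h2 h3 h4 h5 h6 r h7 h8 => LfE986.leafE_of hd h1 hpu h2 h3
      ((H h c₀ hpu hneg d hd hd1 hPF).inE h1 h2 h3 h4 h5 h6 r h7 h8) }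

/-- **S0022** from the open inputs -/
theorem s22_of_open9 (T : Trees) (H : Open) : S22 := Fin8.s22_of_open8 T (open_of H)

/-- **S0023** from the open inputs -/
theorem s23_of_open9 (T : Trees) (H : Open) : S23 := Fin8.s23_of_open8 T (open_of H)

end Crest.Agent.R017.Fin9
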