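import Crest.Agent.R017.NormD_358
import Crest.Agent.R017.NormE_358
import Crest.Agent.R017.WPolyJ_681

/-!
# Row 17, sextic F2: the EC identity of `rowA` from the norm glue (helper266)

* `CtxA` : all data of the pure case
* `AutoA` : the finite autocorrelation identity
* `ecA` : `E_{a, F} = Σ_k E_{a'_k, F'_k}`
-/

set_option autoImplicit false

noncomputable section

open Complex
open scoped ComplexConjugate SchwartzMap

namespace Crest.Agent.R017.FinA266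

open Crest.Agent.R012 Crest.Agent.R012.Eis Crest.Agent.R012.Gauss880 Crest.Agent.R017.Loc266
open Crest.Agent.R012.AU681 Crest.Agent.R012.Parseval499 Crest.Agent.R012.K695
open Crest.Agent.R017.Orth681 Crest.Agent.R017.Rw266 Crest.Agent.R017.Xn590
open Crest.Agent.R017.Glue681 Crest.Agent.R017.GlueV266 Crest.Agent.R017.Norm358
open Crest.Agent.R017.XiI590 (lin datN_lin)
open Crest.Agent.R017.F1 (scl)

/-- the data of the pure case -/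
structure CtxA (N x : Eis) (s : ℂ) (ψ γ : Eis → ℂ) (m : Eis) (ξ : Eis → ℂ) (kp c0' w0 : ℂ)
    (R0 : Eis) (r2 rl : ℕ) : Prop where
  lev : Lev N
  hs : s = 1 ∨ s = -1
  ch : IsCh N ψ
  gm : Gm N γ
  xi : XiN N ψ γ m ξ
  rr : RR N R0
  pure : ∀ p, Prime p → p ∣ N → ¬ (2 : Eis) ∣ p → ¬ lam ∣ p → ξ p = 0
  w : ‖w0‖ * (6 * ‖kp‖) = 1
  lvl : Lvl2 N r2 rl
  h2 : 1 ≤ r2
  hl : 1 ≤ rl
  xip : XiP ξ kp c0'
  van : Van N x s ψ γ (cl3 R0)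

variable {N x : Eis} {s : ℂ} {ψ γ : Eis → ℂ} {m : Eis} {ξ : Eis → ℂ} {kp c0' w0 : ℂ}
    {R0 : Eis} {r2 rl : ℕ}

lemma CtxA.w0_ne (H : CtxA N x s ψ γ m ξ kp c0' w0 R0 r2 rl) : w0 ≠ 0 := by
  rintro rfl
  have := H.w
  rw [norm_zero, zero_mul] at this
  exact zero_ne_one this

/-- **The finite autocorrelation identity.** -/
def AutoA (N x : Eis) (s : ℂ) (ψ γ ξ : Eis → ℂ) (w0 : ℂ) (R0 : Eis) (r2 rl : ℕ) : Prop :=
  ∀ R : ℂ → ℂ, (∀ t, R (-t) = s * R t) → (∀ t, R t⁻¹ = conj (R t)) →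
    ∑ k : K3, ∑ j : JJ (r2 + 6) (rl + 6), ∑ j' : JJ (r2 + 6) (rl + 6),
      cR N x s w0 ψ γ ξ R0 k j * conj (cR N x s w0 ψ γ ξ R0 k j') *
        R (toC (mo j) / toC (mo j')) =
      ∑ j : JJ (r2 + 6) (rl + 6), ∑ j' : JJ (r2 + 6) (rl + 6),
        cL ξ j * conj (cL ξ j') * R (toC (mo j) / toC (mo j'))

/-- the left function -/
def FL (ξ : Eis → ℂ) (r2 rl : ℕ) (f : ℂ → ℂ) (k0 : 𝓢(ℂ, ℂ)) : Vec → ℂ :=
  FPn 6 ξ (fLw ξ (r2 + 6) (rl + 6) f) k0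

/-- the right functions -/
def FR (N x : Eis) (s : ℂ) (ψ γ ξ : Eis → ℂ) (w0 : ℂ) (R0 : Eis) (r2 rl : ℕ) (f : ℂ → ℂ)
    (k0 : 𝓢(ℂ, ℂ)) (k : K3) : Vec → ℂ :=
  FOn 6 ξ 1 (toC R0) (w0 * 2) (fRw N x s w0 ψ γ ξ R0 (r2 + 6) (rl + 6) f k) k0

/-- **The EC identity**, pure case. -/
theorem ecA (H : CtxA N x s ψ γ m ξ kp c0' w0 R0 r2 rl)
    (hA : AutoA N x s ψ γ ξ w0 R0 r2 rl) {f : ℂ → ℂ} (hf : DatN 6 s ξ f)
    {e μ : ℂ} (he : ‖e‖ = 1) (hμ : ‖μ‖ = 1) (hμ2 : μ ^ 2 ≠ 1) (hrot : ∀ y, f (e * y) = μ * f y)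
    (k0 : 𝓢(ℂ, ℂ)) {M : K695.Frm} (hM : det2 M ≠ 0) :
    EC (rowA N x (fun c => ψ c * γ c)) (FL ξ r2 rl f k0) M =
      ∑ k : K3, EC (rowA N x (gdual ψ γ (R0 * rep3 k)))
        (scl (det2 M) (FR N x s ψ γ ξ w0 R0 r2 rl f k0 k)) M := by
  have hbase := pair_base6 (f := f) H.xip H.xi.u H.hs H.rr.ss.ne H.w one_pos hf k0
  have e1 : w0 * (2 * ((1 : ℝ) : ℂ)) = w0 * 2 := by push_cast; ring
  rw [e1] at hbase
  obtain ⟨hC, hp⟩ := hbase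
  have hN := H.lev
  have hμ0 : μ ≠ 0 := by
    rintro rfl
    rw [norm_zero] at hμ
    exact zero_ne_one hμ
  have hrotL : ∀ y, fLw ξ (r2 + 6) (rl + 6) f (e * y) = μ * fLw ξ (r2 + 6) (rl + 6) f y :=
    fun y => lin_rot hrot _ _ y
  have hrotR : ∀ k y, fRw N x s w0 ψ γ ξ R0 (r2 + 6) (rl + 6) f k (e * y) =
      μ * fRw N x s w0 ψ γ ξ R0 (r2 + 6) (rl + 6) f k y :=
    fun k y => lin_rot hrot _ _ y
  refine glueN (χ := chiA N) hN.ne (norm_chiA hN) (Rg := RgA N) (s := s)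
    (W := fun k => wK N x s ψ γ (cl3 R0) k)
    (cof_psi hN x H.ch H.gm) (fun k => cof_gdual hN x H.ch H.gm (H.rr.ss.mul (ss_e3 hN _ _ _)))
    (fun g hg => rowA_ne_zero hg) (fun k g hg => rowA_ne_zero hg)
    (lawV_fwd hN H.ch H.gm (cls3 hN H.rr.ss) H.van)
    (fun g hg => unitAt_rowA hg) (fun k g hg => unitAt_rowA hg)
    (tst_L hf hp) (fun k => tst_R H.xip hC hf k0 hp k)
    (fun k => bdd_wK hN H.hs H.ch H.gm k)
    (fun k M hM => m1_wK hN H.hs H.ch H.gm H.xi H.rr H.pure H.w0_ne H.lvl H.h2 H.hl H.xip hC hf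
      k0 hp k M hM) he hμ hμ2
    (fun u => rot_FPn he hrotL k0 u)
    (fun k u => rot_FOn he hμ0 (hrotR k) k0 u)
    (gramA hN H.ch H.gm) (gramD hN H.ch H.gm H.rr.ss) ?_ hM
  have h := nrm_of_auto H.hs hp (c := fun j : JJ (r2 + 6) (rl + 6) => toC (mo j))
    (fun j => moC_ne j) (cL ξ) (fun k j => cR N x s w0 ψ γ ξ R0 k j) hA
  have eL : FPn 6 ξ (fLw ξ (r2 + 6) (rl + 6) f) k0 = _ := FPn_fLw hf k0

  rw [eL]
  simp_rw [FOn_fRw H.xip hC hf k0]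
  exact h

end Crest.Agent.R017.FinA266
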