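import Crest.Agent.R017.GG5_90

/-!
# Row 17: the complete table at `2`

`η` : the sextic character modulo `8` (`Eta`: `η(-1) = 1`, `η(√-3) = η(1+4ω) = -1`, `η(ω) ≠ 1`).

* `tab3` : the table of `j ↦ S2 (χ η^j) (2^j) 3`, `χ` modulo `8` with `χ(5) = 1`
* `tab` : the table of `v ↦ S2 (χ η^v) (2^v) r`, `r ≥ 3`
* `tab_pure` : the same for `χ` not of Hilbert type.
-/

set_option autoImplicit false
set_option linter.unusedTactic false

noncomputable section

open Complex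
open scoped ComplexConjugate

namespace Crest.Agent.R017.GG90

open Crest.Agent.R012 Crest.Agent.R012.Eis Crest.Agent.R012.Gauss880 Crest.Agent.R017.Loc266
open Crest.Agent.R017.Sx440 Crest.Agent.R017.Kub664 Crest.Agent.R017.Tw266
open Crest.Agent.R017.Rw266 Crest.Agent.R017.QS411 Crest.Agent.R017.GmK411
open Crest.Agent.R017.Tame74 Crest.Agent.R017.LS848

variable {χ η : Eis → ℂ}

/-- the sextic character modulo `8` attached to the prime `2` -/
structure Eta (η : Eis → ℂ) : Prop where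
  ch : IsCh 8 η
  neg : η (-1) = 1
  sq : η sq3 = -1
  q : η (1 + 4 * w) = -1
  w1 : η w ≠ 1

lemma Eta.five (h : Eta η) : η 5 = 1 := by
  have h1 : η (sq3 * sq3) = η 5 := h.ch.per.congr ⟨-1, by have := sq3_sq; linear_combination this⟩
  rw [← h1, h.ch.mul, h.sq]; norm_num

/-- the twist -/
def te (χ η : Eis → ℂ) (j : ℕ) (c : Eis) : ℂ := χ c * η c ^ j

lemma isCh_pow {m : Eis} (h : IsCh m χ) (j : ℕ) (hj : j ≠ 0) : IsCh m (fun c => χ c ^ j) where
  one := by rw [h.one, one_pow]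
  mul x y := by rw [h.mul, mul_pow]
  per := fun x t => by beta_reduce; rw [h.per]
  zero x hx := by rw [h.zero x hx, zero_pow hj]

lemma isCh_te {r : ℕ} (hr : 3 ≤ r) (hχ : IsCh (2 ^ r) χ) (hη : Eta η) (j : ℕ) :
    IsCh (2 ^ r) (te χ η j) where
  one := by unfold te; rw [hχ.one, hη.ch.one, one_pow, one_mul]
  mul x y := by unfold te; rw [hχ.mul, hη.ch.mul, mul_pow]; ring
  per := fun x t => by
    have h8 : (8 : Eis) ∣ 2 ^ r := by rw [eight_eq]; exact pow_dvd_pow 2 hr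
    have h1 : η (x + 2 ^ r * t) = η x := hη.ch.per.congr (h8.trans ⟨t, by ring⟩)
    unfold te; rw [hχ.per, h1]
  zero x hx := by unfold te; rw [hχ.zero x hx, zero_mul]

lemma isCh_te8 (hχ : IsCh 8 χ) (hη : Eta η) (j : ℕ) : IsCh 8 (te χ η j) := by
  have := isCh_te (le_refl 3) (by rw [← eight_eq]; exact hχ) hη j
  rwa [← eight_eq] at this

section vals

variable (hη : Eta η) (j : ℕ)

lemma te_w : te χ η j w = χ w * η w ^ j := rfl

include hη

lemma te_neg : te χ η j (-1) = χ (-1) := by unfold te; rw [hη.neg, one_pow, mul_one]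
lemma te_five : te χ η j 5 = χ 5 := by unfold te; rw [hη.five, one_pow, mul_one]
lemma te_sq : te χ η j sq3 = χ sq3 * (-1) ^ j := by unfold te; rw [hη.sq]
lemma te_q : te χ η j (1 + 4 * w) = χ (1 + 4 * w) * (-1) ^ j := by unfold te; rw [hη.q]
end vals

/-- the common value of the tail -/
lemma PP_te (hη : Eta η) (j : ℕ) : PP (te χ η j) =
    2 * I * (1 - χ (-1)) + 2 * (χ sq3 * (-1) ^ j) * (1 + χ (-1)) := by
  unfold PP; rw [te_neg hη, te_sq hη]

lemma norm_PP (hχ : IsCh 8 χ) (h5 : χ 5 = 1) : ‖PP χ‖ = 4 := by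
  unfold PP
  rcases ch_pm_one hχ with h1 | h1 <;> rcases ch_sq3_pm hχ h5 with h2 | h2 <;> rw [h1, h2] <;>
    norm_num

/-- cube roots of unity -/
lemma cube_cases {z : ℂ} (h : z ^ 3 = 1) (h1 : z ≠ 1) : 1 + z + z ^ 2 = 0 := by
  have : (z - 1) * (1 + z + z ^ 2) = 0 := by linear_combination h
  exact (mul_eq_zero.mp this).resolve_left (sub_ne_zero.mpr h1)

lemma exists_exp {z ξ : ℂ} (hz : z ^ 3 = 1) (hξ : ξ ^ 3 = 1) (h1 : ξ ≠ 1) :
    ∃ m : ℕ, m < 3 ∧ z * ξ ^ m = 1 := by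
  have h2 := cube_cases hξ h1
  have key : (z - 1) * (z - ξ) * (z - ξ ^ 2) = 0 := by
    linear_combination hz - z ^ 2 * h2 + (z * ξ) * h2 - hξ
  rcases mul_eq_zero.mp key with h | h
  · rcases mul_eq_zero.mp h with h | h
    · exact ⟨0, by norm_num, by rw [sub_eq_zero.mp h]; ring⟩
    · exact ⟨2, by norm_num, by rw [sub_eq_zero.mp h]; linear_combination hξ⟩
  · exact ⟨1, by norm_num, by rw [sub_eq_zero.mp h]; linear_combination hξ⟩

lemma pow_mod3 {ξ : ℂ} (hξ : ξ ^ 3 = 1) (j : ℕ) : ξ ^ j = ξ ^ (j % 3) := by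
  conv_lhs => rw [← Nat.div_add_mod j 3]
  rw [pow_add, pow_mul, hξ, one_pow, one_mul]

lemma val_exp {z ξ : ℂ} (hξ : ξ ^ 3 = 1) (h1 : ξ ≠ 1) {m : ℕ} (hm : z * ξ ^ m = 1) (j : ℕ) :
    (j % 3 = m % 3 → z * ξ ^ j = 1) ∧ (j % 3 ≠ m % 3 → z * ξ ^ j ≠ 1) := by
  have hξ0 : ξ ≠ 0 := by rintro rfl; norm_num at hξ
  have hz0 : z ≠ 0 := by rintro rfl; simp at hm
  constructor
  · intro h
    rw [pow_mod3 hξ j, h, ← pow_mod3 hξ m, hm]
  · intro h h'
    have h2 : ξ ^ (j % 3) = ξ ^ (m % 3) := by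
      rw [← pow_mod3 hξ, ← pow_mod3 hξ]
      exact mul_left_cancel₀ hz0 (h'.trans hm.symm)
    have hj : j % 3 < 3 := Nat.mod_lt _ (by norm_num)
    have hm3 : m % 3 < 3 := Nat.mod_lt _ (by norm_num)
    generalize j % 3 = a at *
    generalize m % 3 = b at *
    have h3 : ξ ^ 2 ≠ 1 := by
      intro h3
      apply h1
      calc ξ = ξ * 1 := by ring
        _ = ξ * ξ ^ 2 := by rw [h3]
        _ = ξ ^ 3 := by ring
        _ = 1 := hξ
    have h4 : ξ ^ 2 ≠ ξ := by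
      intro h4
      apply h1
      have : ξ * ξ = ξ * 1 := by rw [mul_one, ← pow_two, h4]
      exact mul_left_cancel₀ hξ0 this
    interval_cases a <;> interval_cases b
    · exact h rfl
    · rw [pow_zero, pow_one] at h2; exact h1 h2.symm
    · rw [pow_zero] at h2; exact h3 h2.symm
    · rw [pow_zero, pow_one] at h2; exact h1 h2
    · exact h rfl
    · rw [pow_one] at h2; exact h4 h2.symm
    · rw [pow_zero] at h2; exact h3 h2
    · rw [pow_one] at h2; exact h4 h2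
    · exact h rfl

/-- `1 + z_j + z_j²` -/
lemma tail_val {z ξ : ℂ} (hz : z ^ 3 = 1) (hξ : ξ ^ 3 = 1) (h1 : ξ ≠ 1) {m : ℕ}
    (hm : z * ξ ^ m = 1) (j : ℕ) :
    1 + z * ξ ^ j + (z * ξ ^ j) ^ 2 = if j % 3 = m % 3 then 3 else 0 := by
  have h := val_exp hξ h1 hm j
  split_ifs with hj
  · rw [h.1 hj]; norm_num
  · refine cube_cases ?_ (h.2 hj)
    rw [mul_pow, ← pow_mul, mul_comm j 3, pow_mul, hξ, one_pow, hz, mul_one]

/-! ### the table at level `8` -/

/-- shape of the local table: support from `ρ`, gap `d`, `q = 4`, unit `C = 4^r` -/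
structure Tab (T : ℕ → ℂ) (C : ℝ) (ρ d : ℕ) (κ κ' : ℂ) : Prop where
  d1 : 1 ≤ d
  d6 : d ≤ 6
  lt : ∀ j < ρ, T j = 0
  eq : T ρ = C * κ
  gt : ∀ j, ρ < j → T j = if j % 6 = (ρ + d) % 6 then C * (3 / 4 * κ') else 0
  norm' : ‖κ'‖ = 1
  six : d = 6 → κ = -κ' / 4
  norm : d ≠ 6 → ‖κ‖ = 1 / 2
  three : d = 3 → κ * conj κ' = conj κ * κ'

lemma sgn_even {j : ℕ} (h : j % 2 = 0) : (-1 : ℂ) ^ j = 1 := (Nat.even_iff.mpr h).neg_one_pow
lemma sgn_odd {j : ℕ} (h : j % 2 = 1) : (-1 : ℂ) ^ j = -1 := (Nat.odd_iff.mpr h).neg_one_pow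

section table

variable (hχ : IsCh 8 χ) (h5 : χ 5 = 1) (hη : Eta η)
include hχ h5 hη

omit h5 in
/-- at `j` with `χ η^j` of conductor `8` and `j ≥ 1` -/
lemma T_eight {j : ℕ} (hj : j ≠ 0) (hq : χ (1 + 4 * w) * (-1) ^ j = -1) :
    S2 (te χ η j) (2 ^ j) 3 = 0 := by
  obtain ⟨k, rfl⟩ := Nat.exists_eq_succ_of_ne_zero hj
  rw [pow_succ', S2_eight_even (isCh_te8 hχ hη _)]
  rw [te_q hη, hq]; norm_num

/-- at `j` with `χ η^j` of period `4` -/
lemma T_four {j : ℕ} (hq : χ (1 + 4 * w) * (-1) ^ j = 1) :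
    IsCh 4 (te χ η j) :=
  isCh_four (isCh_te8 hχ hη _) (by rw [te_five hη, h5]) (by rw [te_q hη, hq])

lemma T_four_succ {j : ℕ} (hq : χ (1 + 4 * w) * (-1) ^ (j + 1) = 1) :
    S2 (te χ η (j + 1)) (2 ^ (j + 1)) 3 = 4 * S2 (te χ η (j + 1)) (2 ^ j) 2 := by
  rw [pow_succ', S2_four_three (T_four hχ h5 hη hq)]

/-- the tail -/
lemma T_tail {m : ℕ} (hm : χ w * η w ^ m = 1) {j : ℕ} (hj : 3 ≤ j)
    (hq : χ (1 + 4 * w) * (-1) ^ j = 1) :
    S2 (te χ η j) (2 ^ j) 3 = 4 * ((if j % 3 = m % 3 then 3 else 0) * PP (te χ η j)) := by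
  obtain ⟨k, rfl⟩ : ∃ k, j = k + 2 + 1 := ⟨j - 3, by omega⟩
  rw [T_four_succ hχ h5 hη hq, S2_congr (v' := 0), S2_zero_two (T_four hχ h5 hη hq), te_w,
    ← tail_val (ch_w_cube hχ) (ch_w_cube hη.ch) hη.w1 hm]
  rw [sub_zero]; exact pow_dvd_pow 2 (by omega)

end table

lemma exists_gap : ∀ ρ < 3, ∀ p < 2, ∀ m < 3, ∃ d, 1 ≤ d ∧ d ≤ 6 ∧ (ρ + d) % 2 = p ∧
    (ρ + d) % 3 = m := by
  intro ρ hρ p hp m hm
  interval_cases ρ <;> interval_cases p <;> interval_cases m
  exacts [⟨6, by norm_num⟩, ⟨4, by norm_num⟩, ⟨2, by norm_num⟩, ⟨3, by norm_num⟩,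
    ⟨1, by norm_num⟩, ⟨5, by norm_num⟩, ⟨5, by norm_num⟩, ⟨3, by norm_num⟩, ⟨1, by norm_num⟩,
    ⟨2, by norm_num⟩, ⟨6, by norm_num⟩, ⟨4, by norm_num⟩, ⟨4, by norm_num⟩, ⟨2, by norm_num⟩,
    ⟨6, by norm_num⟩, ⟨1, by norm_num⟩, ⟨5, by norm_num⟩, ⟨3, by norm_num⟩]

lemma mk_tab {T : ℕ → ℂ} {P : ℂ} (hP : ‖P‖ = 4) {ρ p m : ℕ} (hρ : ρ < 3) (hp : p < 2)
    (hm : m < 3) (hlt : ∀ j < ρ, T j = 0)
    (hgt : ∀ j, ρ < j → T j = if j % 2 = p ∧ j % 3 = m then 12 * P else 0)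
    (h6 : ρ % 2 = p → ρ % 3 = m → T ρ = -(4 * P))
    (hn : ¬ (ρ % 2 = p ∧ ρ % 3 = m) → ‖T ρ‖ = 32)
    (h3 : ρ % 2 ≠ p → ρ % 3 = m → T ρ * conj P = conj (T ρ) * P) :
    ∃ (ρ d : ℕ) (κ κ' : ℂ), ρ ≤ 2 ∧ Tab T 64 ρ d κ κ' := by
  obtain ⟨d, hd1, hd6, hdp, hdm⟩ := exists_gap ρ hρ p hp m hm
  refine ⟨ρ, d, T ρ / 64, P / 4, by omega, ⟨hd1, hd6, hlt, ?_, ?_, ?_, ?_, ?_, ?_⟩⟩
  · push_cast; ring
  · intro j hj
    rw [hgt j hj]
    have : (j % 2 = p ∧ j % 3 = m) ↔ j % 6 = (ρ + d) % 6 := by omega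
    by_cases h : j % 6 = (ρ + d) % 6
    · rw [if_pos h, if_pos (this.mpr h)]; push_cast; ring
    · rw [if_neg h, if_neg (fun h' => h (this.mp h'))]
  · rw [norm_div, hP]; norm_num
  · intro hd
    rw [h6 (by omega) (by omega)]; ring
  · intro hd
    rw [norm_div, hn (by omega)]; norm_num
  · intro hd
    have h := h3 (by omega) (by omega)
    rw [map_div₀, map_div₀]
    have e1 : conj (4 : ℂ) = 4 := by
      have : (4 : ℂ) = ((4 : ℝ) : ℂ) := by norm_num
      rw [this, Complex.conj_ofReal]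
    have e2 : conj (64 : ℂ) = 64 := by
      have : (64 : ℂ) = ((64 : ℝ) : ℂ) := by norm_num
      rw [this, Complex.conj_ofReal]
    rw [e1, e2]
    linear_combination (1 / 256) * h

lemma sq_one (hχ : IsCh 8 χ) (h5 : χ 5 = 1) (z : Eis) : χ (1 + 2 * z) * χ (1 + 2 * z) = 1 := by
  rw [← hχ.mul, show (1 + 2 * z) * (1 + 2 * z) = 1 + 4 * (z ^ 2 + z) by ring,
    ch_one_four hχ h5, if_pos]
  have : (z ^ 2 + z).im = 2 * (z.re * z.im) - (z.im * z.im - z.im) := by
    rw [pow_two, QuadraticAlgebra.im_add, im_mul']; ring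
  rw [this]
  have h2 : (z.im * z.im - z.im) % 2 = 0 := by
    rcases Int.emod_two_eq_zero_or_one z.im with h | h
    · obtain ⟨k, hk⟩ := Int.dvd_of_emod_eq_zero h
      rw [hk]
      have : 2 * k * (2 * k) - 2 * k = 2 * (2 * k * k - k) := by ring
      rw [this]; exact Int.mul_emod_right 2 _
    · obtain ⟨k, hk⟩ : ∃ k, z.im = 2 * k + 1 := ⟨z.im / 2, by omega⟩
      rw [hk]
      have : (2 * k + 1) * (2 * k + 1) - (2 * k + 1) = 2 * (2 * k * k + k) := by ring
      rw [this]; exact Int.mul_emod_right 2 _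
  omega

lemma odd_class {c : Eis} (hc : Od c) : ∃ k z : Eis, (k = 1 ∨ k = w ∨ k = w ^ 2) ∧
    k * c = 1 + 2 * z := by
  have hs : c = (c.re : Eis) + (c.im : Eis) * w := by
    apply ext'
    · rw [QuadraticAlgebra.re_add, re_mul']; simp
    · rw [QuadraticAlgebra.im_add, im_mul']; simp
  have h3 := w_cube
  have hw2 := w_sq
  rcases Int.emod_two_eq_zero_or_one c.re with ha | ha <;>
    rcases Int.emod_two_eq_zero_or_one c.im with hb | hb
  · exfalso
    obtain ⟨a, ha'⟩ := Int.dvd_of_emod_eq_zero ha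
    obtain ⟨b, hb'⟩ := Int.dvd_of_emod_eq_zero hb
    apply hc
    rw [hs, ha', hb']
    exact ⟨(a : Eis) + b * w, by push_cast; ring⟩
  · obtain ⟨a, ha'⟩ := Int.dvd_of_emod_eq_zero ha
    obtain ⟨b, hb'⟩ : ∃ b, c.im = 2 * b + 1 := ⟨c.im / 2, by omega⟩
    refine ⟨w ^ 2, (a : Eis) * w ^ 2 + b, Or.inr (Or.inr rfl), ?_⟩
    rw [hs, ha', hb']
    push_cast
    linear_combination (2 * (b : Eis) + 1) * h3
  · obtain ⟨a, ha'⟩ : ∃ a, c.re = 2 * a + 1 := ⟨c.re / 2, by omega⟩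
    obtain ⟨b, hb'⟩ := Int.dvd_of_emod_eq_zero hb
    refine ⟨1, (a : Eis) + b * w, Or.inl rfl, ?_⟩
    rw [hs, ha', hb']
    push_cast; ring
  · obtain ⟨a, ha'⟩ : ∃ a, c.re = 2 * a + 1 := ⟨c.re / 2, by omega⟩
    obtain ⟨b, hb'⟩ : ∃ b, c.im = 2 * b + 1 := ⟨c.im / 2, by omega⟩
    refine ⟨w, (a : Eis) * w + b * w ^ 2 - 1, Or.inr (Or.inl rfl), ?_⟩
    rw [hs, ha', hb']
    push_cast
    linear_combination hw2

/-- quadratic characters modulo `8` are real -/
lemma conj_of_quad (hχ : IsCh 8 χ) (h5 : χ 5 = 1) (hw : χ w = 1) (c : Eis) :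
    conj (χ c) = χ c := by
  by_cases hc : Od c
  · obtain ⟨k, z, hk, hkz⟩ := odd_class hc
    have h1 : χ k = 1 := by
      rcases hk with rfl | rfl | rfl
      · exact hχ.one
      · exact hw
      · rw [pow_two, hχ.mul, hw, one_mul]
    have h2 : χ c = χ (1 + 2 * z) := by rw [← hkz, hχ.mul, h1, one_mul]
    have h3 := sq_one hχ h5 z
    rw [← h2] at h3
    rcases mul_self_eq_one_iff.mp h3 with h | h <;> rw [h] <;> simp
  · have h2 : (2 : Eis) ∣ c := by unfold Od at hc; push Not at hc; exact hc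
    rw [hχ.zero _ (not_cop_of_even ⟨4, by norm_num⟩ h2), map_zero]

lemma norm_of_cube {z : ℂ} (h : z ^ 3 = 1) : ‖z‖ = 1 := by
  have h1 : ‖z‖ ^ 3 = 1 := by rw [← norm_pow, h, norm_one]
  have h0 := norm_nonneg z
  nlinarith [sq_nonneg (‖z‖ - 1), sq_nonneg (‖z‖ + 1), sq_nonneg ‖z‖]

theorem tab3 (hχ : IsCh 8 χ) (h5 : χ 5 = 1) (hη : Eta η) : ∃ (ρ d : ℕ) (κ κ' : ℂ), ρ ≤ 2 ∧
    Tab (fun j => S2 (te χ η j) (2 ^ j) 3) 64 ρ d κ κ' := by
  have hz3 := ch_w_cube hχ
  have hξ3 := ch_w_cube hη.ch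
  obtain ⟨m, hm3, hm⟩ := exists_exp hz3 hξ3 hη.w1
  have hmm : m % 3 = m := Nat.mod_eq_of_lt hm3
  have hz : ∀ j, (χ w * η w ^ j) ^ 3 = 1 := by
    intro j
    rw [mul_pow, ← pow_mul, mul_comm j 3, pow_mul, hξ3, one_pow, hz3, mul_one]
  rcases ch_q_pm hχ with hδ | hδ
  · -- type C
    have hev : ∀ j, j % 2 = 0 → χ (1 + 4 * w) * (-1) ^ j = 1 := by
      intro j hj; rw [sgn_even hj, hδ, one_mul]
    have hod : ∀ j, j % 2 = 1 → χ (1 + 4 * w) * (-1) ^ j = -1 := by
      intro j hj; rw [sgn_odd hj, hδ, one_mul]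
    have hPP : ∀ j, j % 2 = 0 → PP (te χ η j) = PP χ := by
      intro j hj; rw [PP_te hη, sgn_even hj, mul_one]; rfl
    have hT2 : S2 (te χ η 2) (2 ^ 2) 3 =
        4 * ((1 - χ w * η w ^ 2 - (χ w * η w ^ 2) ^ 2) * PP χ) := by
      have h1 := T_four_succ hχ h5 hη (j := 1) (hev 2 (by norm_num))
      rw [pow_one, S2_two_two (T_four hχ h5 hη (hev 2 (by norm_num))), te_w,
        hPP 2 (by norm_num)] at h1
      exact h1
    refine mk_tab (P := PP χ) (ρ := 2) (p := 0) (m := m) (norm_PP hχ h5) (by norm_num)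
      (by norm_num) hm3 ?_ ?_ ?_ ?_ ?_
    · intro j hj
      interval_cases j
      · beta_reduce
        rw [pow_zero]
        exact S2_four_three_odd (T_four hχ h5 hη (hev 0 rfl)) od_one
      · exact T_eight hχ hη (by norm_num) (hod 1 rfl)
    · intro j hj
      beta_reduce
      rcases Nat.mod_two_eq_zero_or_one j with h | h
      · rw [T_tail hχ h5 hη hm (by omega) (hev j h), hPP j h, hmm]
        by_cases h3 : j % 3 = m
        · rw [if_pos h3, if_pos ⟨h, h3⟩]; ring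
        · rw [if_neg h3, if_neg (fun h' => h3 h'.2)]; ring
      · rw [T_eight hχ hη (by omega) (hod j h), if_neg (by omega)]
    · intro _ h
      beta_reduce
      rw [hT2, (val_exp hξ3 hη.w1 hm 2).1 (by omega)]; ring
    · intro h
      beta_reduce
      have h1 : χ w * η w ^ 2 ≠ 1 := (val_exp hξ3 hη.w1 hm 2).2 (by omega)
      have h2 := cube_cases (hz 2) h1
      have h3 : 1 - χ w * η w ^ 2 - (χ w * η w ^ 2) ^ 2 = 2 := by linear_combination -h2
      rw [hT2, h3, norm_mul, norm_mul, norm_PP hχ h5]; norm_num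
    · intro h; exact absurd rfl h
  · have hev : ∀ j, j % 2 = 0 → χ (1 + 4 * w) * (-1) ^ j = -1 := by
      intro j hj; rw [sgn_even hj, hδ, mul_one]
    have hod : ∀ j, j % 2 = 1 → χ (1 + 4 * w) * (-1) ^ j = 1 := by
      intro j hj; rw [sgn_odd hj, hδ]; norm_num
    have hT0 : S2 (te χ η 0) (2 ^ 0) 3 = gl (te χ η 0) 1 8 * ((1 - χ (-1)) * (1 + χ sq3)) := by
      rw [pow_zero, S2_eight (isCh_te8 hχ hη 0) (by rw [te_five hη, h5])
        (by rw [te_q hη, hev 0 rfl]), te_neg hη, te_sq hη, pow_zero, mul_one]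
    have hT1 : S2 (te χ η 1) (2 ^ 1) 3 = 4 * S2 (te χ η 1) 1 2 := by
      have h1 := T_four_succ hχ h5 hη (j := 0) (hod 1 (by norm_num))
      rw [pow_zero] at h1
      exact h1
    have hS1 := S2_one_two (T_four hχ h5 hη (hod 1 (by norm_num)))
    rw [te_w, te_neg hη, te_sq hη, pow_one, pow_one] at hS1
    set z := χ w * η w with hzdef
    have hz1 : χ w * η w ^ 1 = z := by rw [pow_one]
    by_cases hA : χ (-1) = -1 ∧ χ sq3 = 1
    · -- type A
      obtain ⟨hε, hσ⟩ := hA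
      rw [hε, hσ] at hS1
      have hS1' : S2 (te χ η 1) 1 2 = 4 * I * (1 + z + z ^ 2) := by
        rw [hS1]; linear_combination (0 : ℂ) * Complex.I_sq
      refine mk_tab (P := 4 * I) (ρ := 0) (p := 1) (m := m) (by norm_num) (by norm_num)
        (by norm_num) hm3 ?_ ?_ ?_ ?_ ?_
      · intro j hj; omega
      · intro j hj
        beta_reduce
        rcases Nat.mod_two_eq_zero_or_one j with h | h
        · rw [T_eight hχ hη (by omega) (hev j h), if_neg (by omega)]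
        · by_cases hj1 : j = 1
          · subst hj1
            have h4 := tail_val hz3 hξ3 hη.w1 hm 1
            rw [hz1] at h4
            rw [hT1, hS1', h4, hmm]
            by_cases h3 : 1 % 3 = m
            · rw [if_pos h3, if_pos ⟨h, h3⟩]; ring
            · rw [if_neg h3, if_neg (fun h' => h3 h'.2)]; ring
          · rw [T_tail hχ h5 hη hm (by omega) (hod j h), PP_te hη, hε, hmm]
            by_cases h3 : j % 3 = m
            · rw [if_pos h3, if_pos ⟨h, h3⟩]; ring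
            · rw [if_neg h3, if_neg (fun h' => h3 h'.2)]; ring
      · intro h; omega
      · intro _
        beta_reduce
        have h4 : (te χ η 0) (1 + 4 * w) ≠ 1 := by
          rw [te_q hη, hev 0 rfl]; norm_num
        rw [hT0, hε, hσ, norm_mul, norm_gl_eight (isCh_te8 hχ hη 0) h4]; norm_num
      · intro _ h
        beta_reduce
        have hm0 : m = 0 := by omega
        rw [hm0, pow_zero, mul_one] at hm
        have ht0 : te χ η 0 = χ := by funext c; unfold te; rw [pow_zero, mul_one]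
        have h8 : IsCh (2 ^ 3) χ := by rw [← eight_eq]; exact hχ
        have h6 := conj_S2 (r := 3) (by norm_num) h8 (2 ^ 0)
        have h7 : (fun c => conj (χ c)) = χ := funext fun c => conj_of_quad hχ h5 hm c
        rw [h7, hε] at h6
        rw [ht0, h6, map_mul, Complex.conj_I]
        have e1 : conj (4 : ℂ) = 4 := by
          have : (4 : ℂ) = ((4 : ℝ) : ℂ) := by norm_num
          rw [this, Complex.conj_ofReal]
        rw [e1]; ring
    · -- type B
      have hε := ch_pm_one hχ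
      have hσ := ch_sq3_pm hχ h5
      have h01 : (1 - χ (-1)) * (1 + χ sq3) = 0 := by
        rcases hε with h | h
        · rw [h]; ring
        · rcases hσ with h' | h'
          · exact absurd ⟨h, h'⟩ hA
          · rw [h']; ring
      have hPP : ∀ j, j % 2 = 1 → PP (te χ η j) = PP (te χ η 1) := by
        intro j hj; rw [PP_te hη, PP_te hη, sgn_odd hj, pow_one]
      have hPP1 : PP (te χ η 1) = 2 * I * (1 - χ (-1)) - 2 * χ sq3 * (1 + χ (-1)) := by
        rw [PP_te hη, pow_one]; ring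
      refine mk_tab (P := PP (te χ η 1)) (ρ := 1) (p := 1) (m := m)
        (norm_PP (isCh_te8 hχ hη 1) (by rw [te_five hη, h5])) (by norm_num)
        (by norm_num) hm3 ?_ ?_ ?_ ?_ ?_
      · intro j hj
        interval_cases j
        beta_reduce
        rw [hT0, h01, mul_zero]
      · intro j hj
        beta_reduce
        rcases Nat.mod_two_eq_zero_or_one j with h | h
        · rw [T_eight hχ hη (by omega) (hev j h), if_neg (by omega)]
        · rw [T_tail hχ h5 hη hm (by omega) (hod j h), hPP j h, hmm]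
          by_cases h3 : j % 3 = m
          · rw [if_pos h3, if_pos ⟨h, h3⟩]; ring
          · rw [if_neg h3, if_neg (fun h' => h3 h'.2)]; ring
      · intro _ h
        beta_reduce
        have h1 : z = 1 := by rw [← hz1]; exact (val_exp hξ3 hη.w1 hm 1).1 (by omega)
        rw [h1] at hS1
        rw [hT1, hS1, hPP1]
        rcases hε with h | h
        · rw [h]; ring
        · rcases hσ with h' | h'
          · exact absurd ⟨h, h'⟩ hA
          · rw [h, h']; ring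
      · intro h
        beta_reduce
        have h1 : z ≠ 1 := by rw [← hz1]; exact (val_exp hξ3 hη.w1 hm 1).2 (by omega)
        have hzc : z ^ 3 = 1 := by rw [← hz1]; exact hz 1
        have h2 := cube_cases hzc h1
        have hnz := norm_of_cube hzc
        rw [hT1, hS1, norm_mul]
        rcases hε with h | h
        · rcases hσ with h' | h'
          · have : 2 * I * (1 + I * z - I * z ^ 2) - 2 * I * χ (-1) * (1 - I * z + I * z ^ 2)
                + 2 * (χ sq3 * -1) * (-1 - I * z - I * z ^ 2)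
                + 2 * χ (-1) * (χ sq3 * -1) * (-1 + I * z + I * z ^ 2) = -8 * z := by
              rw [h, h']
              linear_combination 4 * (z - z ^ 2) * Complex.I_sq + 4 * h2
            rw [this, norm_mul, hnz]; norm_num
          · have : 2 * I * (1 + I * z - I * z ^ 2) - 2 * I * χ (-1) * (1 - I * z + I * z ^ 2)
                + 2 * (χ sq3 * -1) * (-1 - I * z - I * z ^ 2)
                + 2 * χ (-1) * (χ sq3 * -1) * (-1 + I * z + I * z ^ 2) = 8 * z ^ 2 := by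
              rw [h, h']
              linear_combination 4 * (z - z ^ 2) * Complex.I_sq - 4 * h2
            rw [this, norm_mul, norm_pow, hnz]; norm_num
        · rcases hσ with h' | h'
          · exact absurd ⟨h, h'⟩ hA
          · have : 2 * I * (1 + I * z - I * z ^ 2) - 2 * I * χ (-1) * (1 - I * z + I * z ^ 2)
                + 2 * (χ sq3 * -1) * (-1 - I * z - I * z ^ 2)
                + 2 * χ (-1) * (χ sq3 * -1) * (-1 + I * z + I * z ^ 2) = 8 * I := by
              rw [h, h']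
              linear_combination (-4 * I) * h2
            rw [this]; norm_num
      · intro h; exact absurd rfl h

/-! ### the table at level `2^r` -/

/-- **the table at `2`**, `χ` of Hilbert type (`χ` modulo `8`, `χ(5) = 1`) -/
theorem tab {r : ℕ} (hr : 3 ≤ r) (hχ : IsCh 8 χ) (h5 : χ 5 = 1) (hη : Eta η) :
    ∃ (ρ d : ℕ) (κ κ' : ℂ), r ≤ ρ + 3 ∧ ρ + 1 ≤ r ∧
      Tab (fun v => S2 (te χ η v) (2 ^ v) r) (4 ^ r) ρ d κ κ' := by
  obtain ⟨k, rfl⟩ : ∃ k, r = 3 + k := ⟨r - 3, by omega⟩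
  -- the table for `χ η^k`
  have h8 := isCh_te8 hχ hη k
  obtain ⟨ρ, d, κ, κ', hρ, H⟩ := tab3 h8 (by rw [te_five hη, h5]) hη
  have hte : ∀ j, te (te χ η k) η j = te χ η (j + k) := by
    intro j; funext c; unfold te; rw [pow_add]; ring
  have hper : ∀ v, PMod (2 ^ 3) (te χ η v) := by
    intro v; rw [← eight_eq]; exact (isCh_te8 hχ hη v).per
  have key : ∀ j, S2 (te χ η (j + k)) (2 ^ (j + k)) (3 + k) =
      4 ^ k * S2 (te (te χ η k) η j) (2 ^ j) 3 := by
    intro j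
    rw [hte, pow_add, mul_comm, S2_mul_pow (by norm_num) (hper _)]
  refine ⟨ρ + k, d, κ, κ', by omega, by omega, ⟨H.d1, H.d6, ?_, ?_, ?_, H.norm', H.six, H.norm,
    H.three⟩⟩
  · intro v hv
    by_cases h : v < k
    · beta_reduce
      refine S2_pow_zero (by norm_num) (hper _) k ?_
      rw [pow_dvd_pow_iff two_ne prime_two.not_isUnit]
      omega
    · obtain ⟨j, rfl⟩ : ∃ j, v = j + k := ⟨v - k, by omega⟩
      have h2 : S2 (te (te χ η k) η j) (2 ^ j) 3 = 0 := H.lt j (by omega)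
      beta_reduce
      rw [key, h2, mul_zero]
  · have := H.eq
    beta_reduce at this ⊢
    rw [key, this]
    push_cast
    rw [pow_add]; ring
  · intro v hv
    obtain ⟨j, rfl⟩ : ∃ j, v = j + k := ⟨v - k, by omega⟩
    have := H.gt j (by omega)
    beta_reduce at this ⊢
    rw [key, this]
    by_cases h : j % 6 = (ρ + d) % 6
    · rw [if_pos h, if_pos (by omega)]
      push_cast
      rw [pow_add]; ring
    · rw [if_neg h, if_neg (by omega), mul_zero]

lemma pure_te {s : ℕ} (hs : Pure2 s χ) (hη : Eta η) (v : ℕ) : Pure2 s (te χ η v) := by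
  rcases hs with ⟨h4, hp⟩ | ⟨rfl, h5⟩
  · refine Or.inl ⟨h4, ?_⟩
    refine prm_of_prp (pow2_ne s) ?_
    intro p hp' hps
    obtain ⟨u, hu, h1, h2⟩ := hp.prp p hp' hps
    refine ⟨u, hu, h1, ?_⟩
    have hp2 : Associated p 2 := hp'.associated_of_dvd prime_two (hp'.dvd_of_dvd_pow hps)
    have h3 : (2 : Eis) ^ s ∣ (u - 1) * 2 := by
      obtain ⟨x, hx⟩ := hp2
      rw [← hx]
      obtain ⟨y, hy⟩ := h1
      exact ⟨y * x, by rw [← mul_assoc, hy, hx, mul_assoc]⟩
    have h4' : (8 : Eis) ∣ u - 1 := by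
      obtain ⟨y, hy⟩ := h3
      refine ⟨2 ^ (s - 4) * y, ?_⟩
      have e : (2 : Eis) ^ s = 2 * (8 * 2 ^ (s - 4)) := by
        rw [eight_eq, ← pow_add, ← pow_succ']; congr 1; omega
      rw [e] at hy
      have : 2 * (u - 1) = 2 * (8 * (2 ^ (s - 4) * y)) := by linear_combination hy
      exact mul_left_cancel₀ two_ne this
    have h5 : η u = 1 := by
      have := hη.ch.per.congr h4'
      rw [this, hη.ch.one]
    unfold te
    rwa [h5, one_pow, mul_one]
  · refine Or.inr ⟨rfl, ?_⟩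
    rwa [te_five hη]

/-- **the table at `2`**, `χ` not of Hilbert type, conductor `2^s`, level `2^{s+k}`: only `v = k` -/
theorem tab_pure {s : ℕ} (hχ : IsCh (2 ^ s) χ) (hs : Pure2 s χ) (hη : Eta η) (k : ℕ) :
    (∀ v, v ≠ k → S2 (te χ η v) (2 ^ v) (s + k) = 0) ∧
      ‖S2 (te χ η k) (2 ^ k) (s + k)‖ = 2 ^ (2 * k + s + 1) := by
  have h3 := hs.three_le
  have hch : ∀ v, IsCh (2 ^ s) (te χ η v) := fun v => isCh_te h3 hχ hη v
  constructor
  · intro v hv
    by_cases h : v < k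
    · refine S2_pow_zero (by omega) (hch v).per k ?_
      rw [pow_dvd_pow_iff two_ne prime_two.not_isUnit]
      omega
    · obtain ⟨j, rfl⟩ : ∃ j, v = j + 1 + k := ⟨v - k - 1, by omega⟩
      rw [pow_add (2 : Eis) (j + 1) k, mul_comm, S2_mul_pow (by omega) (hch _).per,
        S2_eq_zero (hch _) (pure_te hs hη _) (dvd_pow_self 2 (by omega)), mul_zero]
  · have h1 := S2_mul_pow (s := s) (by omega) (hch k).per k 1
    rw [mul_one] at h1
    have h2 := norm_S2_sq (hch k) (pure_te hs hη k) od_one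
    rw [h1, norm_mul, norm_pow]
    have h4 : ‖(4 : ℂ)‖ = 4 := by norm_num
    rw [h4]
    have h5 : ‖S2 (te χ η k) 1 s‖ = 2 ^ (s + 1) := by
      have h0 := norm_nonneg (S2 (te χ η k) 1 s)
      have e : (4 : ℝ) ^ (s + 1) = (2 ^ (s + 1)) ^ 2 := by
        rw [← pow_mul, mul_comm, pow_mul]; norm_num
      rw [e] at h2
      exact (sq_eq_sq₀ h0 (by positivity)).mp h2
    rw [h5]
    have e : (4 : ℝ) = 2 ^ 2 := by norm_num
    rw [e, ← pow_mul, ← pow_add]; congr 1

end Crest.Agent.R017.GG90
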