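import Crest.Agent.R017.FinA2_266
import Crest.Agent.R017.FinA3_266
import Crest.Agent.R017.GLn_74
import Crest.Agent.R017.GG6_90
import Crest.Agent.R017.AS1_590

/-!
# Row 17, sextic F2: all data of the pure case (helper266)

* `gk` : the weight `γ = conj κ₄`
* `DatA` : level, row character, `R0`, `ξ`; `exists_datA`
* `DatA.ctx` : `CtxA` for every `x` prime to `N`
-/

set_option autoImplicit false

noncomputable section

open Complex
open scoped ComplexConjugate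

namespace Crest.Agent.R017.FinA266

open Crest.Agent.R012 Crest.Agent.R012.Eis Crest.Agent.R012.Gauss880 Crest.Agent.R017.Loc266
open Crest.Agent.R017.Sx440 Crest.Agent.R017.Kub664 Crest.Agent.R017.Tw266
open Crest.Agent.R017.Rw266 Crest.Agent.R017.GG90 Crest.Agent.R017.LamP64
open Crest.Agent.R017.GLm74 Crest.Agent.R017.GLn74 Crest.Agent.R017.Glue681
open Crest.Agent.R017.Xn590 Crest.Agent.R017.QS411
open Crest.Agent.R017.End699 (HC)

variable {M A x e m1 R0 m : Eis} {ψ0 ψ ξ : Eis → ℂ} {r t : ℕ} {c : ℂ} {s : ℂ}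

/-- the weight -/
def gk (c : Eis) : ℂ := conj (kap4 c)

lemma gam4_gk : Gam4 gk := gam4_conj_kap4

lemma gk_pow_six {c : Eis} (hc : nm c % 2 = 1) : gk (c ^ 6) = 1 := by
  unfold gk
  rw [A590.kap4_pow_six hc, map_one]

/-- the cofactor of `A` -/
def cB (r t : ℕ) : Eis := 2 ^ r * sq3 ^ t

lemma lvN_eq (r t : ℕ) (A : Eis) : A * cB r t = lvN r t A := by unfold cB lvN; ring

lemma eight_dvd_cB (hr : 4 ≤ r) : (8 : Eis) ∣ cB r t := by
  have : (8 : Eis) = 2 ^ 3 := by norm_num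
  rw [this]
  exact (pow_dvd_pow 2 (by omega)).mul_right _

lemma nine_dvd_cB (ht : 5 ≤ t) : (9 : Eis) ∣ cB r t := by
  rw [← sq3_pow_four]
  exact (pow_dvd_pow sq3 (by omega)).mul_left _

/-- all data -/
structure DatA (M : Eis) (ψ0 : Eis → ℂ) (r t : ℕ) (A e : Eis) (ψ : Eis → ℂ) (m1 R0 m : Eis)
    (ξ : Eis → ℂ) (c : ℂ) : Prop where
  lv : LvN M ψ0 r t A
  hc : HC M ψ0
  lvl : Lvl A (cB r t) e
  ch : IsCh (lvN r t A) ψ
  row : RowC (lvN r t A) ψ0 ψ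
  pu : PureL A (cB r t) ψ
  fac : A = m1 * R0
  prim : IsPrim R0
  per : PerA A e ψ m1
  min : ∀ m', PerA A e ψ m' → nm m1 ≤ nm m'
  xi : XiN (lvN r t A) ψ gk m ξ
  xip : XiP ξ (toC sq3 * toC m) c

lemma lvl_of (H : LvN M ψ0 r t A) : ∃ e, Lvl A (cB r t) e := by
  have hB0 : cB r t ≠ 0 := mul_ne_zero (pow_ne_zero _ two_ne_zero') (sq3_pow_ne t)
  have h2A : IsCoprime A (2 : Eis) :=
    ((prime_two.irreducible.coprime_iff_not_dvd).mpr H.A2).symm
  have h3A : IsCoprime A sq3 :=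
    ((prime_sq3.irreducible.coprime_iff_not_dvd).mpr H.A3).symm
  obtain ⟨e, he⟩ := exists_blk H.A0 hB0 (h2A.pow_right.mul_right h3A.pow_right)
  refine ⟨e, he, ?_, Or.inr (eight_dvd_cB H.r4), Or.inr (nine_dvd_cB H.t5)⟩
  rw [lvN_eq]; exact H.lev

theorem exists_datA (h36 : (36 : Eis) ∣ M) (h0 : HC M ψ0) (hP : A590.Pure M ψ0) :
    ∃ r t A e ψ m1 R0 m ξ c, DatA M ψ0 r t A e ψ m1 R0 m ξ c := by
  obtain ⟨r, t, A, H⟩ := exists_lvN h36 h0
  obtain ⟨e, he⟩ := lvl_of H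
  obtain ⟨ψ, hψ, hrow⟩ := exists_row h0 H.lev H.cop H.triv
  have hpu := H.pure h0 hP hrow
  have h4 : (4 : Eis) ∣ lvN r t A := four_dvd_72.trans H.lev.d72
  obtain ⟨m1, R0, hfac, hprim, hper, hmin⟩ := exists_R0 he (nine_dvd_cB H.t5)
    (ψ := ψ) (by rw [lvN_eq]; exact hψ)
  obtain ⟨m, ξ, c, h1, h2, h3, h5, h6, -, h8, h9⟩ := exists_xiA H.lev hψ (gam4_gk.gm h4)
  exact ⟨r, t, A, e, ψ, m1, R0, m, ξ, c, H, h0, he, hψ, hrow, hpu, hfac, hprim, hper, hmin,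
    ⟨h1, h2, h3, h5, h8, h9⟩, h6⟩

namespace DatA

variable (D : DatA M ψ0 r t A e ψ m1 R0 m ξ c)
include D

lemma gm : Gm (lvN r t A) gk := gam4_gk.gm (four_dvd_72.trans D.lv.lev.d72)

lemma ch' : IsCh (A * cB r t) ψ := by rw [lvN_eq]; exact D.ch

lemma B8 : (8 : Eis) ∣ cB r t := eight_dvd_cB D.lv.r4

lemma B9 : (9 : Eis) ∣ cB r t := nine_dvd_cB D.lv.t5

lemma cnd : Cnd A (cB r t) ψ m1 :=
  ⟨D.per.1, fun _ hc h => perA_one D.lvl D.ch' D.per hc h,
    fun _ _ hp h => perA_low D.lvl D.B8 D.B9 D.ch' D.pu D.per D.min hp h⟩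

/-- `ξ = ψ^6` -/
lemma xi_six {a : Eis} (ha : IsCoprime a (lvN r t A)) : ξ a = ψ a ^ 6 := by
  have hod := od_of_cop_lev D.lv.lev ha
  rw [D.xi.eq a ha]
  unfold xiA
  rw [gk_pow_six (odd_of_od hod), mul_one]

lemma R0_ne : R0 ≠ 0 := by
  rintro rfl
  exact D.lv.A0 (by rw [D.fac, mul_zero])

lemma A_dvd : A ∣ lvN r t A := by unfold lvN; exact dvd_mul_left _ _

lemma R0_dvd : R0 ∣ A := by rw [D.fac]; exact dvd_mul_left _ _

lemma rr : RR (lvN r t A) R0 where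
  ss := ⟨D.R0_ne, fun p _ hd => (hd.trans D.R0_dvd).trans D.A_dvd⟩
  n2 h := D.lv.A2 (h.trans D.R0_dvd)
  nl h := D.lv.A3 (by
    have : sq3 ∣ lam := ⟨w ^ 2, by rw [sq3_eq]; linear_combination (-lam) * w_cube⟩
    exact (this.trans h).trans D.R0_dvd)

lemma dvd_m1 {p : Eis} (hp : Prime p) (hpN : p ∣ lvN r t A) (h2 : ¬ (2 : Eis) ∣ p)
    (hl : ¬ lam ∣ p) : p ∣ m1 := by
  apply D.per.1.pr p hp
  unfold lvN at hpN
  rcases hp.dvd_or_dvd hpN with h1 | h1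
  · rcases hp.dvd_or_dvd h1 with h3 | h3
    · exact absurd ((hp.associated_of_dvd prime_two (hp.dvd_of_dvd_pow h3)).symm.dvd) h2
    · exfalso
      have h4 := (hp.associated_of_dvd prime_sq3 (hp.dvd_of_dvd_pow h3)).symm.dvd
      apply hl
      have : lam ∣ sq3 := ⟨w, by rw [sq3_eq]; ring⟩
      exact this.trans h4
  · exact h1

/-- the `A`-part of the conductor of `ξ` -/
lemma xi_part' : ∃ a b, m = a * b ∧ a ∣ A ∧ b ∣ cB r t ∧ Associated a m1 := by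
  have hmN : m ∣ A * cB r t := by rw [lvN_eq]; exact D.xi.mN
  obtain ⟨a, b, ha, hb, hab⟩ := exists_dvd_and_dvd_of_dvd_mul hmN
  refine ⟨a, b, hab, ha, hb, ?_⟩
  refine xi_part D.lvl D.cnd hmN D.xi.ch (prm_of_prp D.xi.m0 D.xi.prp) (fun z hz _ => ?_) hab ha hb
  rw [lvN_eq] at hz
  exact D.xi_six hz

lemma xi_zero {p : Eis} (hp : Prime p) (hpN : p ∣ lvN r t A) (h2 : ¬ (2 : Eis) ∣ p)
    (hl : ¬ lam ∣ p) : ξ p = 0 := by
  obtain ⟨a, b, hab, -, -, has⟩ := D.xi_part'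
  have h1 : p ∣ m := by
    rw [hab]
    exact ((D.dvd_m1 hp hpN h2 hl).trans has.symm.dvd).mul_right b
  refine D.xi.ch.zero p (fun h => ?_)
  have h3 : IsCoprime p p := IsCoprime.of_isCoprime_of_dvd_right h h1
  exact hp.not_isUnit (isCoprime_self.mp h3)

lemma lvl2 : Lvl2 (lvN r t A) r t where
  two := by
    refine ⟨sq3 ^ t * A, by unfold lvN; ring, ?_⟩
    have h1 : ¬ (2 : Eis) ∣ sq3 ^ t * A := by
      intro h
      rcases prime_two.dvd_or_dvd h with h2 | h2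
      · exact od_sq3 (prime_two.dvd_of_dvd_pow h2)
      · exact D.lv.A2 h2
    exact (prime_two.irreducible.coprime_iff_not_dvd).mpr h1
  lam := by
    refine ⟨w ^ t * 2 ^ r * A, by unfold lvN; rw [sq3_eq]; ring, ?_⟩
    have h1 : ¬ lam ∣ w ^ t * 2 ^ r * A := by
      intro h
      have hls : sq3 ∣ lam := ⟨w ^ 2, by rw [sq3_eq]; linear_combination (-lam) * w_cube⟩
      rcases prime_lam.dvd_or_dvd h with h2 | h2
      · rcases prime_lam.dvd_or_dvd h2 with h3 | h3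
        · exact prime_lam.not_isUnit (isUnit_of_dvd_unit h3 (Eis.isUnit_w.pow t))
        · exact not_lam_dvd_two (prime_lam.dvd_of_dvd_pow h3)
      · exact D.lv.A3 (hls.trans h2)
    exact (prime_lam.irreducible.coprime_iff_not_dvd).mpr h1

/-- the table of supports, for every cubic twist -/
theorem supp {θ : Eis → ℂ} (hθ : IsCh (lvN r t A) θ)
    (h3 : ∀ c, Gd c → IsCoprime c (lvN r t A) → θ c ^ 3 = ψ c ^ 3)
    (hx : IsCoprime x (lvN r t A)) {z : Eis} (hz : Ss (lvN r t A) z)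
    (hne : GG (lvN r t A) x (fun c => θ c * gk c) z 1 ≠ 0) :
    ∃ b, z = R0 * b ∧ IsCoprime b A := by
  have hθ' : IsCh (A * cB r t) θ := by rw [lvN_eq]; exact hθ
  have h3' : ∀ c, Gd c → IsCoprime c (A * cB r t) → θ c ^ 3 = ψ c ^ 3 := by
    rw [lvN_eq]; exact h3
  have hsu : SU (A * cB r t) z := by rw [lvN_eq]; exact ⟨hz.ne, hz.pr⟩
  rw [tot_eq_GG, ← lvN_eq, tot_split D.lvl hθ' gam4_gk hsu] at hne
  have h1 := left_ne_zero_of_mul hne
  have hper := perA_of D.lvl D.B9 D.ch' hθ' h3' D.per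
  have hmin : ∀ m', PerA A e θ m' → nm m1 ≤ nm m' := fun m' hm' =>
    D.min m' ((perA_iff D.lvl D.B9 D.ch' hθ' h3' m').mpr hm')
  have hpu := pureL_of D.lvl D.B8 D.B9 h3' D.pu
  have hxA : IsCoprime x A := IsCoprime.of_isCoprime_of_dvd_right hx D.A_dvd
  exact (pure_block_min D.lvl D.B8 D.B9 hθ' gam4_gk hxA hpu hper hmin D.fac).1 z hsu h1

lemma six_of {b : Eis} (hb : Ss (lvN r t A) b) (hbA : IsCoprime b A) (p : Eis) (hp : Prime p)
    (hpb : p ∣ b) : p ∣ 6 := by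
  have h1 := hb.pr p hp hpb
  have e6 : (6 : Eis) = 2 * (sq3 * -sq3) := by
    rw [← three_eq_sq3]; norm_num
  unfold lvN at h1
  rcases hp.dvd_or_dvd h1 with h2 | h2
  · rcases hp.dvd_or_dvd h2 with h3 | h3
    · rw [e6]; exact (hp.dvd_of_dvd_pow h3).mul_right _
    · rw [e6]; exact ((hp.dvd_of_dvd_pow h3).mul_right _).mul_left _
  · exfalso
    have h3 : IsCoprime p p := IsCoprime.of_isCoprime_of_dvd_left
      (IsCoprime.of_isCoprime_of_dvd_right hbA h2) hpb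
    exact hp.not_isUnit (isCoprime_self.mp h3)

theorem van (hx : IsCoprime x (lvN r t A)) : Van (lvN r t A) x s ψ gk (cl3 R0) := by
  refine van3 fun θ hθ h3 hS hss hne => ?_
  have key : ∀ z, Ss (lvN r t A) z → GG (lvN r t A) x (fun c => θ c * gk c) z 1 ≠ 0 →
      ∃ b, z = R0 * b ∧ ∀ p, Prime p → p ∣ b → p ∣ 6 := by
    intro z hz hg
    obtain ⟨b, hb, hbA⟩ := D.supp hθ h3 hx hz hg
    refine ⟨b, hb, fun p hp hpb => ?_⟩
    refine D.six_of ⟨?_, fun q hq hqb => hz.pr q hq ?_⟩ hbA p hp hpb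
    · rintro rfl
      exact hz.ne (by rw [hb, mul_zero])
    · rw [hb]; exact hqb.mul_left _
  by_cases h1 : GG (lvN r t A) x (fun c => θ c * gk c) hS 1 = 0
  · have h2 : GG (lvN r t A) x (fun c => θ c * gk c) (-hS) 1 ≠ 0 := by
      intro h2
      apply hne
      unfold WS
      rw [h1, h2]; simp
    obtain ⟨b, hb, hp⟩ := key _ hss.neg h2
    refine ⟨-b, by linear_combination -hb, fun p hp' hpb => hp p hp' ((dvd_neg).mp hpb)⟩
  · exact key _ hss h1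

/-- normalisation of the base weight -/
def _root_.Crest.Agent.R017.FinA266.w00 (m : Eis) : ℂ := ((6 * ‖toC sq3 * toC m‖ : ℝ) : ℂ)⁻¹

lemma w00_eq : ‖w00 m‖ * (6 * ‖toC sq3 * toC m‖) = 1 := by
  have h1 : toC sq3 * toC m ≠ 0 := D.xip.κ0
  have h2 : 0 < 6 * ‖toC sq3 * toC m‖ := by positivity
  unfold w00
  rw [norm_inv, Complex.norm_real, Real.norm_of_nonneg h2.le]
  exact inv_mul_cancel₀ h2.ne'

/-- **the context of the pure case** -/
theorem ctx (hs : s = 1 ∨ s = -1) (hx : IsCoprime x (lvN r t A)) :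
    CtxA (lvN r t A) x s ψ gk m ξ (toC sq3 * toC m) c (w00 m) R0 r t where
  lev := D.lv.lev
  hs := hs
  ch := D.ch
  gm := D.gm
  xi := D.xi
  rr := D.rr
  pure _ hp hpN h2 hl := D.xi_zero hp hpN h2 hl
  w := D.w00_eq
  lvl := D.lvl2
  h2 := by have := D.lv.r4; omega
  hl := by have := D.lv.t5; omega
  xip := D.xip
  van := D.van hx

end DatA

end Crest.Agent.R017.FinA266
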