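import Crest.Agent.R017.GG8_90
import Crest.Agent.R017.Cond2_499

/-!
# Row 17 (A, norm): autocorrelation at `2`, uniform in the type

* `two_cases` : `Hil2` / `Pur2` from the exact level (`Lvx`) of `ψ`
* `lvx_unique`
* `N2_all` : in terms of the exact level `s₂` of `ψ⁶`:
  `Σ_a Q u(a) conj (Q u(a + 3n)) = 16^r/4^{s₂+1} (1 + ‖X‖²/16 | n = 0, -conj X/4 | n = 2, 0)`
-/

set_option autoImplicit false
set_option linter.unusedTactic false

noncomputable section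

open Complex
open scoped ComplexConjugate

namespace Crest.Agent.R017.GG90

open Crest.Agent.R012 Crest.Agent.R012.Eis Crest.Agent.R012.Gauss880 Crest.Agent.R017.Loc266
open Crest.Agent.R017.Sx440 Crest.Agent.R017.Kub664 Crest.Agent.R017.Tw266
open Crest.Agent.R017.Rw266 Crest.Agent.R017.QS411 Crest.Agent.R017.GmK411
open Crest.Agent.R017.Tame74 Crest.Agent.R017.LS848 Crest.Agent.R017.Cond499

variable {r c : ℕ} {B e : Eis} {ψ γ : Eis → ℂ}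

lemma lvx_unique {N B p : Eis} {r s s' : ℕ} {χ : Eis → ℂ} (h : Lvx N B p r s χ)
    (h' : Lvx N B p r s' χ) : s = s' := by
  have key : ∀ {s s' : ℕ}, Lvx N B p r s χ → Lvx N B p r s' χ → s ≤ s' := by
    intro s s' h h'
    by_contra hlt
    push Not at hlt
    exact h.nfl (by omega) (h'.fl.mono (mul_dvd_mul_right (pow_dvd_pow p (by omega)) B))
  exact le_antisymm (key h h') (key h' h)

lemma cop_of_five {z : Eis} (h5 : (8 : Eis) ∣ z - 5) (hB : B ∣ z - 1) :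
    IsCoprime z ((2 : Eis) ^ r * B) := by
  refine IsCoprime.mul_right (cop_pow2 ?_ r) ?_
  · intro h2
    have h3 : (2 : Eis) ∣ z - 5 := (Dvd.intro 4 (by norm_num : (2 : Eis) * 4 = 8)).trans h5
    have := dvd_sub h2 h3
    rw [show z - (z - 5) = 5 by ring] at this
    exact od_five this
  · obtain ⟨t, ht⟩ := hB
    exact ⟨1, -t, by linear_combination ht⟩

/-- the three cases at `2` -/
theorem two_cases (hψ : IsCh (2 ^ r * B) ψ) (hB : IsCoprime ((2 : Eis) ^ r) B) (hr : 3 ≤ r) {s₂ : ℕ}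
    (h6 : Lvx ((2 : Eis) ^ r * B) B 2 r s₂ (fun z => ψ z ^ 6)) :
    (s₂ = 0 ∧ Hil2 r B ψ) ∨ (s₂ ≠ 0 ∧ Pur2 (s₂ + 1) r B ψ) := by
  obtain ⟨c, hc⟩ := exists_lvx (p := 2) (r := r) hψ
  by_cases h4 : 4 ≤ c
  · right
    have h := lvx_unique h6 (hc.two_wild hψ h4)
    have hcr := hc.le
    refine ⟨by omega, ?_⟩
    have e : s₂ + 1 = c := by omega
    rw [e]
    refine ⟨by omega, hcr, hc.fl, Or.inl ⟨h4, ?_⟩⟩
    have := hc.nfl (by omega)
    unfold FL at this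
    push Not at this
    obtain ⟨z, h1, h2, h3⟩ := this
    exact ⟨z, h1, h2, h3⟩
  · have hc3 : c ≤ 3 := by omega
    have h3 : FL ((2 : Eis) ^ r * B) ((2 : Eis) ^ 3 * B) ψ :=
      hc.fl.mono (mul_dvd_mul_right (pow_dvd_pow 2 hc3) B)
    by_cases h5 : ∃ z, (8 : Eis) ∣ z - 5 ∧ B ∣ z - 1 ∧ ψ z ≠ 1
    · right
      have h := lvx_unique h6 (hc.two_three hψ hB hr hc3 h5)
      refine ⟨by omega, ?_⟩
      rw [h]
      obtain ⟨z, z1, z2, z3⟩ := h5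
      exact ⟨by norm_num, hr, h3, Or.inr ⟨rfl, z, cop_of_five z1 z2, z2, z1, z3⟩⟩
    · left
      push Not at h5
      have h := lvx_unique h6 (hc.two_hilb hψ hB hr hc3 h5)
      refine ⟨h, ⟨?_, fun z _ z2 z3 => h5 z z3 z2⟩⟩
      intro z z1 z2
      apply h3 z z1
      rw [← eight_eq]; exact z2

/-- **autocorrelation at `2`**, every type. -/
theorem N2_all (H : Lvl (2 ^ r) B e) (hr : 3 ≤ r) (hψ : IsCh (2 ^ r * B) ψ) (hγ : Wt γ)
    {x : Eis} (hx : Od x) {s₂ : ℕ} (h6 : Lvx ((2 : Eis) ^ r * B) B 2 r s₂ (fun z => ψ z ^ 6))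
    {u : ℕ → ℂ} {c g : ℂ} (hc : ‖c‖ = 1) (hg : ‖g‖ = 1)
    (hu : ∀ a, u a = c * g ^ a * SL (2 ^ r * B) (2 ^ r) e x ψ γ (2 ^ a)) {R : ℕ} {X : ℂ}
    (hX : ∀ a, R ≤ a → u (a + 6) = X * u a) (hX0 : s₂ ≠ 0 → X = 0) :
    (∀ a, r + 6 ≤ a → Qs X u a = 0) ∧
    ∀ A, r + 6 ≤ A → ∀ n, ∑ a ∈ Finset.range A, Qs X u a * conj (Qs X u (a + 3 * n)) =
      (16 ^ r / 4 ^ (s₂ + 1)) *
        (if n = 0 then 1 + (((‖X‖ ^ 2 / 4 ^ 2 : ℝ)) : ℂ) else if n = 2 then -(conj X / 4) else 0) := by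
  rcases two_cases hψ H.toBlk.cop hr h6 with ⟨h0, hh⟩ | ⟨h0, hh⟩
  · obtain ⟨h1, h2, h3⟩ := N2_hil H hr hψ hγ hx hh hc hg hu hX
    refine ⟨h2, fun A hA n => ?_⟩
    rw [h3 A hA n, h0, h1]
    congr 1
    · norm_num
    · by_cases hn : n = 0
      · rw [if_pos hn, if_pos hn]; push_cast; norm_num
      · rw [if_neg hn, if_neg hn]
  · have hX' := hX0 h0
    subst hX'
    obtain ⟨h1, h2⟩ := N2_pure H hψ hγ hx hh hc hg hu
    rw [Qs_zero]
    refine ⟨fun a ha => h1 a (by omega), fun A hA n => ?_⟩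
    rw [h2 A (by omega) n]
    have hsr := hh.sr
    by_cases hn : n = 0
    · rw [if_pos hn, if_pos hn]
      have e1 : (16 : ℂ) ^ r = 4 ^ (2 * r - (s₂ + 1)) * 4 ^ (s₂ + 1) := by
        rw [← pow_add, show 2 * r - (s₂ + 1) + (s₂ + 1) = 2 * r by omega, pow_mul]; norm_num
      rw [e1]
      have : (4 : ℂ) ^ (s₂ + 1) ≠ 0 := pow_ne_zero _ (by norm_num)
      field_simp
      norm_num
    · rw [if_neg hn, if_neg hn]
      by_cases h2' : n = 2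
      · rw [if_pos h2', map_zero]; ring
      · rw [if_neg h2', mul_zero]

/-- the same with the literal right-hand side of 358's `Eg X 4 n` -/
theorem N2_Eg (H : Lvl (2 ^ r) B e) (hr : 3 ≤ r) (hψ : IsCh (2 ^ r * B) ψ) (hγ : Wt γ)
    {x : Eis} (hx : Od x) {s₂ : ℕ} (h6 : Lvx ((2 : Eis) ^ r * B) B 2 r s₂ (fun z => ψ z ^ 6))
    {u : ℕ → ℂ} {c g : ℂ} (hc : ‖c‖ = 1) (hg : ‖g‖ = 1)
    (hu : ∀ a, u a = c * g ^ a * SL (2 ^ r * B) (2 ^ r) e x ψ γ (2 ^ a)) {R : ℕ} {X : ℂ}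
    (hX : ∀ a, R ≤ a → u (a + 6) = X * u a) (hX0 : s₂ ≠ 0 → X = 0) :
    (∀ a, r + 6 ≤ a → Qs X u a = 0) ∧
    ∀ A, r + 6 ≤ A → ∀ n, ∑ a ∈ Finset.range A, Qs X u a * conj (Qs X u (a + 3 * n)) =
      (16 ^ r / 4 ^ (s₂ + 1)) *
        (if n = 0 then 1 + X * conj X * ((1 / 4 : ℝ) : ℂ) ^ 2
          else if n = 2 then -(conj X * ((1 / 4 : ℝ) : ℂ)) else 0) := by
  obtain ⟨h1, h2⟩ := N2_all H hr hψ hγ hx h6 hc hg hu hX hX0
  refine ⟨h1, fun A hA n => ?_⟩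
  rw [h2 A hA n]
  congr 1
  by_cases h0 : n = 0
  · rw [if_pos h0, if_pos h0, Complex.mul_conj, Complex.normSq_eq_norm_sq]
    push_cast; ring
  · rw [if_neg h0, if_neg h0]
    by_cases h2 : n = 2
    · rw [if_pos h2, if_pos h2]; push_cast; ring
    · rw [if_neg h2, if_neg h2]

end Crest.Agent.R017.GG90
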