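import Crest.Agent.R017.FinA5_266
import Crest.Agent.R017.Cond2_499
import Crest.Agent.R017.GL2_64
import Crest.Agent.R017.GG9_90

/-!
# Row 17, sextic F2: the cases at `λ` (helper266)

* `lam_cubic`, `lam_wild`, `lam_cases` : type of `ψ` at `λ = √-3` from the exact level of `ψ⁶`
* `DatA.two`, `DatA.lam` : the exact levels of `ψ⁶` for the data of the pure case
-/

set_option autoImplicit false

noncomputable section

open Complex
open scoped ComplexConjugate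

namespace Crest.Agent.R017.FinA266

open Crest.Agent.R012 Crest.Agent.R012.Eis Crest.Agent.R012.Gauss880 Crest.Agent.R017.Loc266
open Crest.Agent.R017.Sx440 Crest.Agent.R017.Kub664 Crest.Agent.R017.Tw266
open Crest.Agent.R017.Rw266 Crest.Agent.R017.GG90 Crest.Agent.R017.LamP64
open Crest.Agent.R017.GLm74 Crest.Agent.R017.GLn74 Crest.Agent.R017.Glue681
open Crest.Agent.R017.Xn590 Crest.Agent.R017.QS411 Crest.Agent.R017.Cond499
open Crest.Agent.R017.End699 (HC)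

section lam

variable {B e : Eis} {ψ : Eis → ℂ} {j : ℕ}

lemma isCh_lf3 (H : Lvl (sq3 ^ (j + 4)) B e) (hψ : IsCh (sq3 ^ (j + 4) * B) ψ) :
    IsCh (sq3 ^ (j + 4)) (fun c => ψ (lf e c)) where
  one := by beta_reduce; rw [lf_one, hψ.one]
  mul x y := by beta_reduce; rw [← hψ.mul]; exact hψ.per.congr (lf_mul H.toBlk x y)
  per x t := by
    beta_reduce
    exact hψ.per.congr (lf_congr H.toBlk ⟨t, by ring⟩)
  zero x hx := by
    beta_reduce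
    exact hψ.zero _ fun h => hx ((cop_lf H.toBlk x).mp h)

/-- the lifts `≡ 1 mod λ^k` -/
lemma lf_fl (H : Lvl (sq3 ^ (j + 4)) B e) {k : ℕ}
    (h : Cond499.FL (sq3 ^ (j + 4) * B) (sq3 ^ (k + 1) * B) ψ) (z : Eis) :
    ψ (lf e (1 + sq3 ^ (k + 1) * z)) = 1 := by
  apply h _ ((cop_lf H.toBlk _).mpr (cop_one_add_sq3 k z (j + 4)))
  obtain ⟨e', he⟩ := H.e0
  refine ⟨z * e', ?_⟩
  unfold lf
  rw [he]; ring

/-- cubic type -/
theorem lam_cubic (H : Lvl (sq3 ^ (j + 4)) B e) (hψ : IsCh (sq3 ^ (j + 4) * B) ψ)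
    (h : Cond499.FL (sq3 ^ (j + 4) * B) (sq3 ^ 4 * B) ψ) :
    ∃ β, ∀ y, ψ (lf e (1 + sq3 ^ 2 * y)) = ea (sq3 ^ 2) β y := by
  have hχ := isCh_lf3 H hψ
  have hl : ∀ z, ψ (lf e (1 + sq3 ^ 4 * z)) = 1 := lf_fl (k := 3) H h
  -- invariance modulo `λ⁴`
  have hinv : ∀ x x' : Eis, IsCoprime x (sq3 ^ (j + 4)) → sq3 ^ 4 ∣ x' - x →
      ψ (lf e x') = ψ (lf e x) := by
    intro x x' hx hd
    obtain ⟨a, b, hab⟩ := hx
    obtain ⟨s, hs⟩ := hd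
    have h1 : ψ (lf e (x * (1 + sq3 ^ 4 * (a * s)))) = ψ (lf e x) := by
      have := hχ.mul x (1 + sq3 ^ 4 * (a * s))
      rw [this, hl, mul_one]
    rw [← h1]
    apply hχ.per.congr (f := fun c => ψ (lf e c))
    exact ⟨s * sq3 ^ 4 * b, by linear_combination hs - (s * sq3 ^ 4) * hab⟩
  apply exists_ea_of_add
  · rw [mul_zero, add_zero, lf_one, hψ.one]
  · intro s t
    have h1 := hχ.mul (1 + sq3 ^ 2 * s) (1 + sq3 ^ 2 * t)
    beta_reduce at h1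
    rw [← h1]
    apply hinv
    · exact (cop_one_add_sq3 1 s (j + 4)).mul_left (cop_one_add_sq3 1 t (j + 4))
    · exact ⟨-(s * t), by ring⟩
  · intro t
    rw [show sq3 ^ 2 * (sq3 ^ 2 * t) = sq3 ^ 4 * t by ring]
    exact hl t

/-- wild type -/
theorem lam_wild (H : Lvl (sq3 ^ (j + 4)) B e) (hψ : IsCh (sq3 ^ (j + 4) * B) ψ)
    (h : ¬ Cond499.FL (sq3 ^ (j + 4) * B) (sq3 ^ (j + 3) * B) ψ) :
    ∃ κ, ¬ sq3 ∣ κ ∧ ∀ y, ψ (lf e (1 + sq3 ^ (j + 2) * y)) = ea (sq3 ^ 2) κ y := by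
  have hχ := isCh_lf3 H hψ
  obtain ⟨κ, hκ⟩ := exists_kap hχ
  refine ⟨κ, fun hd => h ?_, hκ⟩
  obtain ⟨κ', rfl⟩ := hd
  have h1 : ∀ z, ψ (lf e (1 + sq3 ^ (j + 3) * z)) = 1 := by
    intro z
    have h2 := hκ (sq3 * z)
    beta_reduce at h2
    rw [show (1 : Eis) + sq3 ^ (j + 3) * z = 1 + sq3 ^ (j + 2) * (sq3 * z) by ring, h2,
      ea_sq3_two]
    have h3 : (3 : ℤ) ∣ -(sq3 * κ' * (sq3 * z)).im := by
      have : sq3 * κ' * (sq3 * z) = -3 * (κ' * z) := by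
        linear_combination (κ' * z) * sq3_sq
      rw [this]
      refine ⟨(κ' * z).im, ?_⟩
      simp
    obtain ⟨n, hn⟩ := h3
    rw [hn, zpow_mul]
    have : wC ^ (3 : ℤ) = 1 := by
      rw [show (3 : ℤ) = ((3 : ℕ) : ℤ) by rfl, zpow_natCast, wC_cube]
    rw [this, one_zpow]
  intro c hc hd
  obtain ⟨s, hs⟩ := hd
  have h2 : sq3 ^ (j + 4) * B ∣ c - lf e c := by
    have hcop : IsCoprime (sq3 ^ (j + 4)) B := H.toBlk.cop
    refine hcop.mul_dvd ?_ ?_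
    · have := lf_A H.toBlk c
      rw [← neg_sub, dvd_neg]; exact this
    · have h3 := lf_B H.toBlk c
      have h4 : B ∣ c - 1 := ⟨sq3 ^ (j + 3) * s, by rw [hs]; ring⟩
      have := dvd_sub h4 h3
      rwa [show c - 1 - (lf e c - 1) = c - lf e c by ring] at this
  rw [hψ.per.congr h2]
  have h5 : c = 1 + sq3 ^ (j + 3) * (B * s) := by linear_combination hs
  rw [h5]
  exact h1 _

/-- the cases at `λ` -/
theorem lam_cases (H : Lvl (sq3 ^ (j + 4)) B e) (hψ : IsCh (sq3 ^ (j + 4) * B) ψ) (hj : 1 ≤ j)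
    (hB : IsCoprime sq3 B) {c : ℕ} (hc : Lvx (sq3 ^ (j + 4) * B) B sq3 (j + 4) c ψ)
    (hcj : c = j + 4 ∨ c ≤ 4) {sl : ℕ}
    (h6 : Lvx (sq3 ^ (j + 4) * B) B sq3 (j + 4) sl (fun z => ψ z ^ 6)) :
    (sl = 0 ∧ ∃ β, ∀ y, ψ (lf e (1 + sq3 ^ 2 * y)) = ea (sq3 ^ 2) β y) ∨
    (sl = j + 2 ∧ ∃ κ, ¬ sq3 ∣ κ ∧ ∀ y, ψ (lf e (1 + sq3 ^ (j + 2) * y)) = ea (sq3 ^ 2) κ y) := by
  rcases hcj with rfl | h4
  · right
    have h := lvx_unique h6 (hc.sq3_wild hψ (by omega))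
    refine ⟨by omega, lam_wild H hψ ?_⟩
    have := hc.nfl (by omega)
    rwa [show j + 4 - 1 = j + 3 by omega] at this
  · left
    have h := lvx_unique h6 (hc.sq3_hilb hψ hB (by omega) h4)
    exact ⟨h, lam_cubic H hψ (hc.fl.mono (mul_dvd_mul_right (pow_dvd_pow sq3 h4) B))⟩

end lam

variable {M A x e m1 R0 m : Eis} {ψ0 ψ ξ : Eis → ℂ} {r t : ℕ} {c : ℂ} {s : ℂ}

lemma lvN_two (r t : ℕ) (A : Eis) : (2 : Eis) ^ r * (sq3 ^ t * A) = lvN r t A := by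
  unfold lvN; ring

lemma lvN_sq3 (r t : ℕ) (A : Eis) : sq3 ^ t * ((2 : Eis) ^ r * A) = lvN r t A := by
  unfold lvN; ring

namespace DatA

variable (D : DatA M ψ0 r t A e ψ m1 R0 m ξ c)
include D

lemma ch2 : IsCh ((2 : Eis) ^ r * (sq3 ^ t * A)) ψ := by rw [lvN_two]; exact D.ch

lemma ch3 : IsCh (sq3 ^ t * ((2 : Eis) ^ r * A)) ψ := by rw [lvN_sq3]; exact D.ch

lemma cop3B : IsCoprime sq3 ((2 : Eis) ^ r * A) := by
  refine IsCoprime.mul_right ?_ ((prime_sq3.irreducible.coprime_iff_not_dvd).mpr D.lv.A3)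
  apply IsCoprime.pow_right
  exact ⟨sq3, 2, by linear_combination sq3_sq⟩

/-- the exact level of `ψ⁶` at `2` -/
theorem exists_s2 : ∃ s2, Lvx (lvN r t A) (sq3 ^ t * A) 2 r s2 (fun z => ψ z ^ 6) := by
  have := exists_lvx (p := (2 : Eis)) (r := r) (isCh_pow D.ch2 (n := 6) (by norm_num))
  rwa [lvN_two] at this

/-- the exact level of `ψ⁶` at `λ` -/
theorem exists_sl : ∃ sl, Lvx (lvN r t A) ((2 : Eis) ^ r * A) sq3 t sl (fun z => ψ z ^ 6) := by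
  have := exists_lvx (p := sq3) (r := t) (isCh_pow D.ch3 (n := 6) (by norm_num))
  rwa [lvN_sq3] at this

/-- the exact level of `ψ` at `λ` -/
theorem lvx_lam : ∃ c, Lvx (lvN r t A) ((2 : Eis) ^ r * A) sq3 t c ψ ∧ (c = t ∨ (c ≤ 4 ∧ t = 5)) := by
  obtain ⟨c, hc⟩ := exists_lvx (p := sq3) (r := t) D.ch3
  rw [lvN_sq3] at hc
  refine ⟨c, hc, ?_⟩
  by_contra hcon
  push Not at hcon
  obtain ⟨h1, h2⟩ := hcon
  have hle := hc.le
  by_cases ht : t = 5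
  · exact h2 (by omega) ht
  · obtain ⟨z, hz1, hz2, hz3⟩ := D.lv.ex3' D.row ht
    apply hz3
    apply hc.fl z hz1
    refine dvd_trans ?_ hz2
    have : sq3 ^ c * ((2 : Eis) ^ r * A) ∣ sq3 ^ (t - 1) * ((2 : Eis) ^ r * A) :=
      mul_dvd_mul_right (pow_dvd_pow sq3 (by omega)) _
    refine this.trans ?_
    unfold lvN
    exact ⟨1, by ring⟩

/-- **the cases at `2`** -/
theorem two {s2 : ℕ} (h6 : Lvx (lvN r t A) (sq3 ^ t * A) 2 r s2 (fun z => ψ z ^ 6)) :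
    (s2 = 0 ∧ Hil2 r (sq3 ^ t * A) ψ) ∨ (s2 ≠ 0 ∧ Pur2 (s2 + 1) r (sq3 ^ t * A) ψ) := by
  rw [← lvN_two] at h6
  refine two_cases D.ch2 ?_ (by have := D.lv.r4; omega) h6
  have h2A : IsCoprime (2 : Eis) A := (prime_two.irreducible.coprime_iff_not_dvd).mpr D.lv.A2
  have h23 : IsCoprime (2 : Eis) sq3 := by
    have := D.cop3B
    exact (IsCoprime.of_isCoprime_of_dvd_right this
      ((dvd_pow_self 2 (by have := D.lv.r4; omega)).mul_right A)).symm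
  exact (h23.pow_right.mul_right h2A).pow_left

/-- **the cases at `λ`**, `t = j + 4` -/
theorem lam {j : ℕ} (hj : t = j + 4) {e2 : Eis} (H : Lvl (sq3 ^ (j + 4)) ((2 : Eis) ^ r * A) e2)
    {sl : ℕ} (h6 : Lvx (lvN r t A) ((2 : Eis) ^ r * A) sq3 t sl (fun z => ψ z ^ 6)) :
    (sl = 0 ∧ ∃ β, ∀ y, ψ (lf e2 (1 + sq3 ^ 2 * y)) = ea (sq3 ^ 2) β y) ∨
    (sl = j + 2 ∧ ∃ κ, ¬ sq3 ∣ κ ∧ ∀ y, ψ (lf e2 (1 + sq3 ^ (j + 2) * y)) = ea (sq3 ^ 2) κ y) := by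
  obtain ⟨c', hc', hcc⟩ := D.lvx_lam
  have ht := D.lv.t5
  have hψ := D.ch3
  rw [← lvN_sq3] at h6 hc'
  subst hj
  exact lam_cases H hψ (by omega) D.cop3B hc' (by omega) h6

end DatA

end Crest.Agent.R017.FinA266
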