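import Crest.Agent.R017.P10FS_764
import Crest.Agent.R017.CrJ_241
import Crest.Agent.R017.ETj_548
import Crest.Agent.R017.ER_764

/-!
# Row 17, exceptional class, P1S (helper764): the cross error of the single lists, second form

* `pn_S` : `N + x ≤ 21/25 κ` on the exact square
* **`e2s_G`** : `E2SU` at the reduced data from `RpGU`, `CsGUc (7/8)`, `GkGUc (7/8)`
-/

set_option autoImplicit false
set_option linter.unusedVariables false

noncomputable section

open Finset MeasureTheory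
open scoped ComplexConjugate Classical

namespace Crest.Agent.R017.P10FS764

open Crest.Agent.R012 Crest.Agent.R012.Eis
open Crest.Agent.R017.B770
open Crest.Agent.R017.FE47 (PU cx SM)
open Crest.Agent.R017.Prov71 Crest.Agent.R017.ER911 Crest.Agent.R017.SC777
open Crest.Agent.R017.I1146 (LipS LN)
open Crest.Agent.R017.E5B71 Crest.Agent.R017.E5P571 Crest.Agent.R017.E5L770
open Crest.Agent.R017.ExBox960 Crest.Agent.R017.ExP960
open Crest.Agent.R017.P1l54 (ParOK)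
open Crest.Agent.R017.P1t54 (ParS LS0 parOK_Sq5)
open Crest.Agent.R017.P1X960
open Crest.Agent.R017.PX764 (Dk)
open Crest.Agent.R017.TM708 (T5 K5)
open Crest.Agent.R017.TK708 (sh5 FE2G AllT)
open Crest.Agent.R017.P10X764
open Crest.Agent.R017.E2G764 (MnGU RpGU EtGeU CrGU)
open Crest.Agent.R017.D5X939 (D5X)
open Crest.Agent.R017.Red848 (red Exc red_ok)
open Crest.Agent.R017.XS0298 (S0x S0K)
open Crest.Agent.R017.ER764 (etR etR_nn etR_lv etR_hi3)
open Crest.Agent.R017.ETd548 (RoomX)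
open Crest.Agent.R017.ETk548 (CsGUc GkGUc)

/-- the length of the parents -/
lemma pn_S {A d : ℝ} (hd : 0 ≤ d) (hd1 : d ≤ 1 / 8) (hA1 : 16 * (1 - A) ≤ d)
    {p : Fin 3 ⊕ Fin 5 → ℝ} (hp : p ∈ ParS A d) : cN p + cx' p ≤ 21 / 25 * cκ p := by
  obtain ⟨k0, k1, u4, u34, u23, y27, n0, n1, x0, hx⟩ := P10146.sq_facts hd hd1 hA1 hp
  rcases hx with h | ⟨h1, h2, h3⟩ <;> linarith

variable {Λ : Type*} {π : Λ → DPar} {h : ℝ → ℝ} {c₀ : ℝ} {A d : ℝ}

/-- **`E2SU` at the reduced data**, second form -/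
theorem e2s_G (hpu : PU h c₀) (hP : ∀ lam, (π lam).OK) (hE : ∀ lam, Exc (π lam))
    (hd : 0 ≤ d) (hd1 : d ≤ 1 / 42) (hA : 9 / 10 ≤ A) (hA1 : 16 * (1 - A) ≤ d)
    (hAll : AllT d (ex Dq fun lam => S0K Dk (red (π lam)) h))
    (hFE : FE2G (ex Dq fun lam => S0K Dk (red (π lam)) h) D5X K5 T5 fun b => 3 / 4 * d * b 0)
    {Rh : ℝ} (hRh0 : 0 ≤ Rh) (hRh : ∀ u, cx h u ≠ 0 → |u| ≤ Rh)
    (rp : RpGU (alS (fun lam => red (π lam)) h) (okS fun lam => red (π lam)) (1 / 64) (d / 4) etR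
      (17 / 100) (ParS A d) (SinL (17 / 100)) (LS0 d) (ShS sh5))
    {CE : (I8X ⊕ Unit → ℝ) × (Kd → ℝ) → ℝ}
    (hcs : CsGUc (7 / 8) (fun lam => red (π lam)) (alS (fun lam => red (π lam)) h)
      (okS fun lam => red (π lam)) (d / 4) (17 / 100) (ParS A d) (SinL (17 / 100)) CE)
    (hgk : GkGUc (7 / 8) (alS (fun lam => red (π lam)) h) (okS fun lam => red (π lam)) (1 / 64)
      (d / 4) (17 / 100) (ParS A d) (SinL (17 / 100)) (fun q => RoomX (LS0 d) q - CE q)) :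
    E2SU (fun lam => red (π lam)) h (1 / 64) (d / 4) Rh (17 / 100) (ParS A d) (LS0 d) := by
  have H := E3Ux744.frHS_E hpu hP hE hd hd1 hA hA1 hAll hFE hRh0 hRh
  have ett : EtGeU (alS (fun lam => red (π lam)) h) (okS fun lam => red (π lam)) (1 / 64) (d / 4)
      etR (17 / 100) (ParS A d) (SinL (17 / 100)) (LS0 d) :=
    ETj548.etS_of H.hpu H.hP H.hRh0 H.hRh H.he0 (H.he0'.trans (by norm_num)) H.hc0 H.hc1 H.hPar
      H.hDN H.hDR H.hR5 H.hKN H.hKR H.hTN H.hTR H.hcb H.hL0 etR_nn etR_hi3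
      (hcs.toCsGU H.hPar (by norm_num)) (hgk.toGkGU H.hPar (by norm_num))
  have cr : CrGU (alS (fun lam => red (π lam)) h) (okS fun lam => red (π lam)) (1 / 64) (d / 4)
      etR (17 / 100) (ParS A d) (SinL (17 / 100)) (LS0 d) :=
    CrG241.crS8 H.hP H.hPar (fun p hp => pn_S hd (by linarith) hA1 hp) hcs hgk
  exact e2s_E hpu hP hE hd hd1 hA hA1 hAll hFE hRh0 hRh etR_nn etR_lv rp ett cr

end Crest.Agent.R017.P10FS764
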