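import Crest.Agent.R017.P10H_385
import Crest.Agent.R017.P10GS_764
import Crest.Agent.R017.ETy5_71
import Crest.Agent.R017.RXxa_440
import Crest.Agent.R017.RgG_986
import Crest.Agent.R017.EbA_986

/-!
# Row 17: the cross errors of class E from the Gram sums (helper839)

* `e2s_of` : the field `e2s` from `GkGUc`
-/

set_option autoImplicit false
set_option linter.unusedVariables false

noncomputable section

open Finset MeasureTheory
open scoped ComplexConjugate Classical

namespace Crest.Agent.R017.FinT839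

open Crest.Agent.R012 Crest.Agent.R012.Eis Crest.Agent.R012.MC
open Crest.Agent.R017.C70
open Crest.Agent.R017.B770
open Crest.Agent.R017.FE47 (PU cx SM)
open Crest.Agent.R017.Prov71 Crest.Agent.R017.ER911 Crest.Agent.R017.SC777
open Crest.Agent.R017.I1146 (X2 c3 c3_nonneg LipS LN)
open Crest.Agent.R017.UM71 Crest.Agent.R017.End699
open Crest.Agent.R017.E5B71 Crest.Agent.R017.E5P571 Crest.Agent.R017.E5L770
open Crest.Agent.R017.ExBox960 Crest.Agent.R017.ExP960
open Crest.Agent.R017.P1l54 (ParOK)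
open Crest.Agent.R017.P1t54 (ParS LS0 parOK_Sq5)
open Crest.Agent.R017.P1X960
open Crest.Agent.R017.PX764 (Dk)
open Crest.Agent.R017.TM708 (PD R5 T5 K5)
open Crest.Agent.R017.TK708 (sh5 FE2G AllT cb_K)
open Crest.Agent.R017.P10X764
open Crest.Agent.R017.E2G764 (MnG MnGU RpGU EtGeU CrGU)
open Crest.Agent.R017.D5X939 (D5X D5X_compact)
open Crest.Agent.R017.Red848 (red Exc red_ok)
open Crest.Agent.R017.XS0298 (S0x S0K)
open Crest.Agent.R017.ETd548 (RoomX S8Xk)
open Crest.Agent.R017.ETk548 (CsGUc GkGUc)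
open Crest.Agent.R017.ETy71 (CEX CES)
open Crest.Agent.R017.Fin4 Crest.Agent.R017.Fin5 Crest.Agent.R017.Fin6
open Crest.Agent.R017.Sg986 (AA AA_lt AA_eq AA_ge)
open Crest.Agent.R017.NrX986 (NearAllX)
open Crest.Agent.R017.ER764

variable {h : ℝ → ℝ} {c₀ : ℝ} {d : ℝ}

theorem e2s_of (hpu : PU h c₀) (hd : 0 < d) (hd1 : d ≤ 1 / 42) (hPF : PF Set.univ (7 / 8 + d))
    (P : BunE d h) (G : RecE d h)
    (near : NearAllX d (ex Dq (fun lam => S0x (red (πE lam)) h)))
    {r : ℝ} (hr0 : 0 ≤ r) (hr : ∀ u : ℝ, cx h u ≠ 0 → |u| ≤ r)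
    (hgk : GkGUc (7 / 8) (alS (fun lam => red (πE lam)) h) (okS fun lam => red (πE lam)) (1 / 64)
      (d / 4) (17 / 100) (ParS (AA d) d) (SinL (17 / 100)) fun q => RoomX (LS0 d) q - CES d q) :
    E2SU (fun lam => red (πE lam)) h (1 / 64) (d / 4) r βX (ParS (AA d) d) (LS0 d) := by
  have hA := AA_ge hd1
  have hAl := (AA_lt hd).le
  have hA1 := AA_eq d
  have hOK : ∀ lam, (πE lam).OK := fun lam => lam.2.1
  have hX : ∀ lam, Exc (πE lam) := fun lam => XT6241.exc_piE lam
  have hP : ∀ lam, (red (πE lam)).OK := fun lam => red_ok (hOK lam) (hX lam)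
  have hAll := TK708.allT_of P.rules G.toExpS0 hd.le (by linarith)
  have hFE := NrX986.fe2G_D P.rules G hd.le (by linarith) near
  exact P10FS764.e2s_G hpu hOK hX hd.le hd1 (by linarith) hA1 hAll hFE hr0 hr
    (RXxa440.rpS_F hPF hpu hOK hX Rg986.clo_πE P.rules hr0 hr hd.le hd1 (by linarith) hAl hA1)
    (ETy71.csS_S hpu hP P.rules G hd.le hd1 (by linarith) hAl hA1) hgk

end Crest.Agent.R017.FinT839
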