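import Crest.Agent.R017.LnY_47
import Crest.Agent.R017.ETm_548
import Crest.Agent.R017.ETy3_71
import Crest.Agent.R017.FrX_579

/-!
# Row 17, exceptional class (helper47): the common exponent of `H` of the high families

* `hfG` : `log H` at the actual family, level, length, `δ`, `s₀`; nominal parent
* `GXq`, `GSq` : the exponents of the high half (differences, single lists)
* `uNS`, `uRS` : the smallest lengths of a single list
* `hfG_lip`, `hfG_eq`
-/

set_option autoImplicit false
set_option linter.unusedVariables false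

noncomputable section

open scoped Classical

namespace Crest.Agent.R017.LnY47

open Crest.Agent.R017.B770
open Crest.Agent.R017.Prov71
open Crest.Agent.R017.I1146 (LN)
open Crest.Agent.R017.E5B71 Crest.Agent.R017.E5P571 Crest.Agent.R017.E5L770
open Crest.Agent.R017.ExBox960 Crest.Agent.R017.ExP960
open Crest.Agent.R017.P1X960
open Crest.Agent.R017.P10X764 (nw alX clN nW_hi)
open Crest.Agent.R017.ETd548 (BkX S8Xk)
open Crest.Agent.R017.ETm548 (QK HfK kB)
open Crest.Agent.R017.ETy71 (mV vN vR pQ bq)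
open Crest.Agent.R012 Crest.Agent.R012.Eis

/-- **the common `log H`** : actual family, level, length, `δ` and `s₀`, nominal parent -/
def hfG {Λ : Type*} (d : ℝ) (uNf uRf F : QK → ℝ) (sf : BcX → ℝ) : HfK Λ := fun lam X a qs q i g =>
  Real.log X * P1L7904.hX (cN (prX (bq q))) (cκ (prX (bq q))) (kB a / Real.log X)
    ((i : ℝ) / Real.log X) (LN (clN a.1 qs) / Real.log X) (g / Real.log X) (cx' (prX (bq q)))
    (d * cκ (prX (bq q))) (uNf q) (uRf q) (sf a.1 / Real.log X) (F q)

/-- **the exponent of the high half, differences** -/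
def GXq (d : ℝ) (q : QK) : ℝ :=
  P1L7904.GX (cN (prX (bq q))) (cκ (prX (bq q))) (q.1 (.inr ())) (pQ q) (mV (vN q)) (mV (vR q))
    (cx' (prX (bq q))) (d * cκ (prX (bq q)))

/-- single lists: the natural smallest length -/
def uNS (q : QK) : ℝ :=
  if NatL (bq q) (q.1 (.inl (.inr 0))) (q.1 (.inl (.inr 1))) (q.1 (.inl (.inr 2))) then mV (vN q)
  else cu (prX (bq q)) 4 - 17 / 100 * cκ (prX (bq q))

/-- single lists: the replaced smallest length -/
def uRS (q : QK) : ℝ :=
  if NatL (bq q) (q.1 (.inl (.inr 0))) (q.1 (.inl (.inr 1))) (q.1 (.inl (.inr 2))) then 0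
  else mV (vN q)

/-- **the exponent of the high half, single lists** -/
def GSq (d : ℝ) (q : QK) : ℝ :=
  P1L7904.GX (cN (prX (bq q))) (cκ (prX (bq q))) (q.1 (.inr ())) (pQ q) (uNS q) (uRS q)
    (cx' (prX (bq q))) (d * cκ (prX (bq q)))

variable {Λ : Type*} {d : ℝ} {uNf uRf F : QK → ℝ} {sf : BcX → ℝ}

/-- Lipschitz in `log N d` -/
theorem hfG_lip {X : ℝ} (hX : 1 < X) (lam : Λ × Eis) (a : BkX) (qs : List Pq) (q : QK) (i : ℕ)
    (x y : ℝ) : hfG d uNf uRf F sf lam X a qs q i x ≤
      hfG d uNf uRf F sf lam X a qs q i y + 4 * |x - y| := by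
  have hL : 0 < Real.log X := Real.log_pos hX
  unfold hfG
  have h := hX_lip (N := cN (prX (bq q))) (k := cκ (prX (bq q))) (q := kB a / Real.log X)
    (v := (i : ℝ) / Real.log X) (p := LN (clN a.1 qs) / Real.log X) (δ := x / Real.log X)
    (δ' := y / Real.log X) (x := cx' (prX (bq q))) (D := d * cκ (prX (bq q))) (uN := uNf q)
    (uR := uRf q) (s₀ := sf a.1 / Real.log X) (F := F q)
  have e : |x / Real.log X - y / Real.log X| = |x - y| / Real.log X := by
    rw [← sub_div, abs_div, abs_of_pos hL]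
  rw [e] at h
  refine (mul_le_mul_of_nonneg_left h hL.le).trans (le_of_eq ?_)
  rw [mul_add]
  congr 1
  field_simp

/-- in units `log X` -/
theorem hfG_eq {X : ℝ} (hX : 1 < X) (lam : Λ × Eis) (a : BkX) (qs : List Pq) (q : QK) (i : ℕ)
    (δ : ℝ) : hfG d uNf uRf F sf lam X a qs q i (δ * Real.log X) / Real.log X =
      P1L7904.hX (cN (prX (bq q))) (cκ (prX (bq q))) (kB a / Real.log X)
        ((i : ℝ) / Real.log X) (LN (clN a.1 qs) / Real.log X) δ (cx' (prX (bq q)))
        (d * cκ (prX (bq q))) (uNf q) (uRf q) (sf a.1 / Real.log X) (F q) := by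
  have hL : Real.log X ≠ 0 := (Real.log_pos hX).ne'
  unfold hfG
  rw [mul_div_cancel_right₀ δ hL]
  exact mul_div_cancel_left₀ _ hL

end Crest.Agent.R017.LnY47
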