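import Crest.Agent.R017.RnXi_571
import Crest.Agent.R017.RnSf_629
import Crest.Agent.R017.P1Gb_90

/-!
# Row 17, class E, R8 (helper521): the `R`-half of the Gram sums of one datum

* `RLg` : the real lines of one level
* **`rhX`** : the difference `xD`;  **`rhS`** : one list
-/

set_option autoImplicit false
set_option linter.unusedVariables false

noncomputable section

open Finset
open scoped ComplexConjugate Classical

namespace Crest.Agent.R017.GkR521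

open Crest.Agent.R012 Crest.Agent.R012.Eis Crest.Agent.R012.MC
open Crest.Agent.R012.LS2 (S mem_S bl mem_bl)
open Crest.Agent.R012.T411 (NCube)
open Crest.Agent.R017.FE47 (PU SM)
open Crest.Agent.R017.CM106
open Crest.Agent.R017.Prov71
open Crest.Agent.R017.B770
open Crest.Agent.R017.ER911 Crest.Agent.R017.ExpC702
open Crest.Agent.R017.HP842 (Pc pc sqc al alL)
open Crest.Agent.R017.E5B71 (Pt)
open Crest.Agent.R017.RM986 (Plain)
open Crest.Agent.R017.R3571 (RMm RMm_nonneg slp_two W2)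
open Crest.Agent.R017.Mode405 (Slp)
open Crest.Agent.R017.PX764 (n6)
open Crest.Agent.R017.E3Z548 (FH)
open Crest.Agent.R017.E3Sz579 (Ld)
open Crest.Agent.R017.E3Hi290 (RN2XF)
open Crest.Agent.R017.TM708 (PD)
open Crest.Agent.R017.I1146 (LN)
open Crest.Agent.R017.Sup271 (NPm)
open Crest.Agent.R017.End699 (PF)
open Crest.Agent.R017.XEx298 (Rt)
open Crest.Agent.R017.RnP571
open Crest.Agent.R017.RnX571 (Nx rnx_pd rmx_NC)
open Crest.Agent.R017.RnS629 (rns_pd)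
open Crest.Agent.R017.PoHx72 (Cls)
open Crest.Agent.R017.ROX744 (PrU)
open Crest.Agent.R017.P1X960 (xD rzD)

/-- **the real lines of one level**, units `log X` : family `k`, level `v`, `H = exp (h δ)`, size
`p`, twin length `s`, third lump `z₃`, small lengths `w`, ranges `δ ≤ m`, `e ≤ E` -/
structure RLg (dd k v p s z₃ w m E ε G : ℝ) (h : ℝ → ℝ) : Prop where
  C : ∀ δ e : ℝ, 0 ≤ δ → δ ≤ m → 0 ≤ e → e ≤ E → 0 ≤ h δ + 2 * v - k - δ →
    Nx v (h δ) p δ e s ≤ G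
  R : ∀ δ e : ℝ, 0 ≤ δ → δ ≤ m → 0 ≤ e → e ≤ E → 0 ≤ h δ + 2 * v - k - δ → ∀ w₁ w₂ : ℝ,
    LnR (EN dd) g2 G k v (h δ) p δ e w₁ w₂ z₃ w ε

lemma rl_div {L a b c d : ℝ} (hL : 0 < L) (h : 0 ≤ a + 2 * b - c - d) :
    0 ≤ a / L + 2 * (b / L) - c / L - d / L := by
  have e1 : a / L + 2 * (b / L) - c / L - d / L = (a + 2 * b - c - d) / L := by ring
  rw [e1]
  exact div_nonneg h hL.le

section

variable {Λ : Type*} {π : Λ → DPar} {h : ℝ → ℝ}

set_option maxHeartbeats 1600000 in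
/-- **the `R`-half of a difference** -/
theorem rhX {c₀ : ℝ} (hpu : PU h c₀) (hP : ∀ lam, (π lam).OK)
    (hNC : ∀ lam, ∀ k : Eis, k ≠ 0 → (NPm (π lam).n (π lam).ψ (π lam).l₂ k ↔ NCube k))
    {dd : ℝ} {s : ER911.EF} (R : ExpRules (7 / 8 + dd) (ex Dq (fun lam => Rt (π lam) h)) s)
    (hPF : PF Set.univ (7 / 8 + dd)) (hd : 0 ≤ dd) (hd8 : dd ≤ 1 / 8) {ε : ℝ} (hε : 0 < ε)
    (hε1 : ε ≤ 1) :
    ∃ τ : ℝ, 0 < τ ∧ τ ≤ ε ∧ ∀ (lam : Λ) (t : Eis), t ≠ 0 → ∀ (N : ℕ) (B : ℝ),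
      ∃ (M a A₀ : ℕ), 1 ≤ a ∧ ∀ c : ℝ, 1 ≤ c → ∃ X₀ : ℝ, 1 < X₀ ∧ ∀ X : ℝ, X₀ ≤ X →
      ∀ (b b' : Fin 5 → ℝ) (us : Fin 3 → Pq) (gs : List Pq) (D κ s₀ H : ℝ),
      PD X τ B H N b 1 us gs κ → PD X τ B H N b' 1 (rzD us D) gs κ → (∀ i, b i + τ ≤ 8) →
      (∀ i, b' i + τ ≤ 8) → s₀ ≤ (us 0).z → s₀ ≤ (us 1).z → s₀ ≤ (us 0).z - D →
      s₀ ≤ (us 1).z + D →
      ∀ (k m E0 G : ℝ) (hf : ℕ → ℝ → ℝ) (I : Finset ℕ) (Ds : Finset Eis),
      (∀ d ∈ Ds, IsPrim d ∧ (nm d : ℝ) ≤ X ^ B ∧ Real.log (nm d) ≤ m) → 0 < E0 → E0 ≤ X ^ B →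
      (∀ i ∈ I, ∀ d ∈ Ds, LN ([us 0, us 1, us 2] ++ gs) + i + hf i (Real.log (nm d)) - k ≤
        8 * Real.log X) →
      (∀ i ∈ I, RLg dd (k / Real.log X) (i / Real.log X)
        (LN ([us 0, us 1, us 2] ++ gs) / Real.log X) (s₀ / Real.log X) ((us 2).z / Real.log X)
        (LN gs / Real.log X) (m / Real.log X) (Real.log E0 / Real.log X) ε G
        (fun δ => hf i (δ * Real.log X) / Real.log X)) →
      ∃ W0 : ℕ → Bool → Eis → Eis → ℝ → ℝ, (∀ i jj d e, Slp a (W0 i jj d e)) ∧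
      (∀ A : ℕ, A₀ ≤ A → ∀ i ∈ I, ∀ jj, ∀ d ∈ Ds, ∀ e ∈ S E0, ∀ γ φ, IsPrim γ → IsPrim φ →
        (nm φ : ℝ) ≤ X ^ B → ∀ P : ℝ, 0 < P →
        (nm γ : ℝ) * n6 γ ^ 2 * ∑ r ∈ (bl P).filter (Cls (PrU (t * t)) jj),
          RMm A (fun n => xD h (π lam) t us D gs (d * n)) e γ φ r ≤ W0 i jj d e P) ∧
      ∀ i ∈ I, ∀ d ∈ Ds, ∀ e ∈ S E0,
        FH (Real.exp k) (Real.exp (hf i (Real.log (nm d)))) (Real.exp i) *
          RN2XF c (Real.exp k) (Real.exp i) (Real.exp (LN ([us 0, us 1, us 2] ++ gs)))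
            (fun d _ => Real.exp (hf i (Real.log (nm d)))) (W0 i) d e ≤
        H ^ M * X ^ (G + ε) / (nm d * nm e) := by
  have hnp : ∀ lam, ¬ NPm (π lam).n (π lam).ψ (π lam).l₂ 1 := fun lam h1 =>
    ((hNC lam 1 one_ne_zero).1 h1).2 1 (by ring)
  obtain ⟨τ, hτ0, hτε, HR⟩ := rnx_pd (E := EN dd) hpu hP hnp (Kc := 8) (by norm_num)
    (rmx_NC hpu hP hNC R hPF hd hd8 (8 + 2)) (RM986.cont_E3c dd) hε hε1
  refine ⟨τ, hτ0, hτε, fun lam t ht N B => ?_⟩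
  obtain ⟨M, a, A₀, ha, HR⟩ := HR lam t ht N B
  refine ⟨M, a, A₀, ha, fun c hc => ?_⟩
  obtain ⟨X₁, hX₁, HR⟩ := HR c hc
  refine ⟨X₁, hX₁, ?_⟩
  intro X hX b b' us gs D κ s₀ H hPD hPD' hb hb' hs1 hs2 hs3 hs4 k m E0 G hf I Ds hDs hE0 hE0X hsz
    hline
  have hX1 : 1 < X := by linarith
  have hX0 : 0 < X := by linarith
  have hL : 0 < Real.log X := Real.log_pos hX1
  have key : ∀ i : ℕ, ∃ W0 : Bool → Eis → Eis → ℝ → ℝ, (∀ jj d e, Slp a (W0 jj d e)) ∧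
      (i ∈ I → (∀ A : ℕ, A₀ ≤ A → ∀ jj, ∀ d ∈ Ds, ∀ e ∈ S E0, ∀ γ φ, IsPrim γ → IsPrim φ →
        (nm φ : ℝ) ≤ X ^ B → ∀ P : ℝ, 0 < P →
        (nm γ : ℝ) * n6 γ ^ 2 * ∑ k ∈ (bl P).filter (Cls (PrU (t * t)) jj),
          RMm A (fun j => xD h (π lam) t us D gs (d * j)) e γ φ k ≤ W0 jj d e P) ∧
        ∀ d ∈ Ds, ∀ e ∈ S E0,
          FH (Real.exp k) (Real.exp (hf i (Real.log (nm d)))) (Real.exp i) *
          RN2XF c (Real.exp k) (Real.exp i) (Real.exp (LN ([us 0, us 1, us 2] ++ gs)))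
            (fun d _ => Real.exp (hf i (Real.log (nm d)))) W0 d e ≤
          H ^ M * X ^ (G + ε) / (nm d * nm e)) := by
    intro i
    by_cases hi : i ∈ I
    swap
    · exact ⟨fun _ _ _ => W2 a 1 0, fun _ _ _ => slp_two ha one_pos le_rfl, fun h1 => absurd h1 hi⟩
    obtain ⟨W0, k1, k2, k3⟩ := HR X hX b b' us gs D κ s₀ H hPD hPD' hb hb' hs1 hs2 hs3 hs4
      (Real.exp k) (Real.exp i) (fun d _ => Real.exp (hf i (Real.log (nm d)))) (fun _ _ => G)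
      (Real.exp_pos _) (Real.exp_pos _) (fun _ _ => Real.exp_pos _) (fun d e => d ∈ Ds ∧ e ∈ S E0)
      (fun d e hde => by
        obtain ⟨h1, h2, h3⟩ := (mem_S hE0.le).1 hde.2
        exact ⟨(hDs d hde.1).1, h2, (hDs d hde.1).2.1, h1.trans hE0X⟩)
      (fun d e hde => by
        have h1 := hsz i hi d hde.1
        rw [← Real.exp_add, ← Real.exp_add, ← Real.exp_sub, Real.rpow_def_of_pos hX0]
        exact Real.exp_le_exp.2 (by linarith))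
      (fun d e hde h1 => by
        obtain ⟨g1, g2', g3⟩ := (mem_S hE0.le).1 hde.2
        obtain ⟨pd, hdB, hdm⟩ := hDs d hde.1
        have nd1 : (1 : ℝ) ≤ nm d := by exact_mod_cast nm_pos.2 pd.ne_zero
        have ne1 : (1 : ℝ) ≤ nm e := by exact_mod_cast nm_pos.2 g2'.ne_zero
        have h2 := Real.log_nonneg h1
        rw [log_Ld (Real.exp_pos _) (Real.exp_pos _) (Real.exp_pos _) pd.ne_zero] at h2
        unfold RnP571.lL at h2
        simp only [Real.log_exp] at h2 ⊢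
        obtain ⟨hC, hRl⟩ := hline i hi
        have a1 : 0 ≤ Real.log (nm d) / Real.log X := div_nonneg (Real.log_nonneg nd1) hL.le
        have a2 : Real.log (nm d) / Real.log X ≤ m / Real.log X :=
          div_le_div_of_nonneg_right hdm hL.le
        have a3 : 0 ≤ Real.log (nm e) / Real.log X := div_nonneg (Real.log_nonneg ne1) hL.le
        have a4 : Real.log (nm e) / Real.log X ≤ Real.log E0 / Real.log X :=
          div_le_div_of_nonneg_right (Real.log_le_log (by linarith) g1) hL.le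
        have e0 : Real.log (nm d) / Real.log X * Real.log X = Real.log (nm d) :=
          div_mul_cancel₀ _ hL.ne'
        have a5 := rl_div hL h2
        have b1 := hC _ _ a1 a2 a3 a4 (by rw [e0]; exact a5)
        have b2 := hRl _ _ a1 a2 a3 a4 (by rw [e0]; exact a5)
        beta_reduce at b1 b2
        rw [e0] at b1 b2
        exact ⟨b1, b2⟩)
    exact ⟨W0, k1, fun _ => ⟨fun A hA jj d hd e he => k2 A hA jj d e ⟨hd, he⟩,
      fun d hd e he => k3 d e ⟨hd, he⟩⟩⟩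
  choose W0 k1 k2 using key
  exact ⟨W0, fun i jj d e => k1 i jj d e, fun A hA i hi jj d hd e he => (k2 i hi).1 A hA jj d hd
    e he, fun i hi d hd e he => (k2 i hi).2 d hd e he⟩

set_option maxHeartbeats 1600000 in
/-- **the `R`-half of one list** -/
theorem rhS {c₀ : ℝ} (hpu : PU h c₀) (hP : ∀ lam, (π lam).OK)
    (hNC : ∀ lam, ∀ k : Eis, k ≠ 0 → (NPm (π lam).n (π lam).ψ (π lam).l₂ k ↔ NCube k))
    {dd : ℝ} {s : ER911.EF} (R : ExpRules (7 / 8 + dd) (ex Dq (fun lam => Rt (π lam) h)) s)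
    (hPF : PF Set.univ (7 / 8 + dd)) (hd : 0 ≤ dd) (hd8 : dd ≤ 1 / 8) {ε : ℝ} (hε : 0 < ε)
    (hε1 : ε ≤ 1) :
    ∃ τ : ℝ, 0 < τ ∧ τ ≤ ε ∧ ∀ (lam : Λ) (t : Eis), t ≠ 0 → ∀ (N : ℕ) (B : ℝ),
      ∃ (M a A₀ : ℕ), 1 ≤ a ∧ ∀ c : ℝ, 1 ≤ c → ∃ X₀ : ℝ, 1 < X₀ ∧ ∀ X : ℝ, X₀ ≤ X →
      ∀ (b : Fin 5 → ℝ) (us : Fin 3 → Pq) (gs : List Pq) (κ H : ℝ),
      PD X τ B H N b 1 us gs κ → (∀ i, b i + τ ≤ 8) →
      ∀ (k m E0 G : ℝ) (hf : ℕ → ℝ → ℝ) (I : Finset ℕ) (Ds : Finset Eis),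
      (∀ d ∈ Ds, IsPrim d ∧ (nm d : ℝ) ≤ X ^ B ∧ Real.log (nm d) ≤ m) → 0 < E0 → E0 ≤ X ^ B →
      (∀ i ∈ I, ∀ d ∈ Ds, LN ([us 0, us 1, us 2] ++ gs) + i + hf i (Real.log (nm d)) - k ≤
        8 * Real.log X) →
      (∀ i ∈ I, RLg dd (k / Real.log X) (i / Real.log X)
        (LN ([us 0, us 1, us 2] ++ gs) / Real.log X) 0 ((us 2).z / Real.log X)
        (LN gs / Real.log X) (m / Real.log X) (Real.log E0 / Real.log X) ε G
        (fun δ => hf i (δ * Real.log X) / Real.log X)) →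
      ∃ W0 : ℕ → Bool → Eis → Eis → ℝ → ℝ, (∀ i jj d e, Slp a (W0 i jj d e)) ∧
      (∀ A : ℕ, A₀ ≤ A → ∀ i ∈ I, ∀ jj, ∀ d ∈ Ds, ∀ e ∈ S E0, ∀ γ φ, IsPrim γ → IsPrim φ →
        (nm φ : ℝ) ≤ X ^ B → ∀ P : ℝ, 0 < P →
        (nm γ : ℝ) * n6 γ ^ 2 * ∑ r ∈ (bl P).filter (Cls (PrU (t * t)) jj),
          RMm A (fun n => sqc 1 (alL h ((List.ofFn us ++ gs).map (Pt (π lam) t))) (d * n))
            e γ φ r ≤ W0 i jj d e P) ∧
      ∀ i ∈ I, ∀ d ∈ Ds, ∀ e ∈ S E0,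
        FH (Real.exp k) (Real.exp (hf i (Real.log (nm d)))) (Real.exp i) *
          RN2XF c (Real.exp k) (Real.exp i) (Real.exp (LN ([us 0, us 1, us 2] ++ gs)))
            (fun d _ => Real.exp (hf i (Real.log (nm d)))) (W0 i) d e ≤
        H ^ M * X ^ (G + ε) / (nm d * nm e) := by
  obtain ⟨τ, hτ0, hτε, HR⟩ := rns_pd (E := EN dd) hpu hP (Kc := 8) (by norm_num)
    (rmx_NC hpu hP hNC R hPF hd hd8 (8 + 2)) (RM986.cont_E3c dd) hε hε1
  refine ⟨τ, hτ0, hτε, fun lam t ht N B => ?_⟩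
  obtain ⟨M, a, A₀, ha, HR⟩ := HR lam t ht N B
  refine ⟨M, a, A₀, ha, fun c hc => ?_⟩
  obtain ⟨X₁, hX₁, HR⟩ := HR c hc
  refine ⟨X₁, hX₁, ?_⟩
  intro X hX b us gs κ H hPD hb k m E0 G hf I Ds hDs hE0 hE0X hsz hline
  have hX1 : 1 < X := by linarith
  have hX0 : 0 < X := by linarith
  have hL : 0 < Real.log X := Real.log_pos hX1
  have key : ∀ i : ℕ, ∃ W0 : Bool → Eis → Eis → ℝ → ℝ, (∀ jj d e, Slp a (W0 jj d e)) ∧
      (i ∈ I → (∀ A : ℕ, A₀ ≤ A → ∀ jj, ∀ d ∈ Ds, ∀ e ∈ S E0, ∀ γ φ, IsPrim γ → IsPrim φ →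
        (nm φ : ℝ) ≤ X ^ B → ∀ P : ℝ, 0 < P →
        (nm γ : ℝ) * n6 γ ^ 2 * ∑ k ∈ (bl P).filter (Cls (PrU (t * t)) jj),
          RMm A (fun j => sqc 1 (alL h ((List.ofFn us ++ gs).map (Pt (π lam) t))) (d * j))
            e γ φ k ≤ W0 jj d e P) ∧
        ∀ d ∈ Ds, ∀ e ∈ S E0,
          FH (Real.exp k) (Real.exp (hf i (Real.log (nm d)))) (Real.exp i) *
          RN2XF c (Real.exp k) (Real.exp i) (Real.exp (LN ([us 0, us 1, us 2] ++ gs)))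
            (fun d _ => Real.exp (hf i (Real.log (nm d)))) W0 d e ≤
          H ^ M * X ^ (G + ε) / (nm d * nm e)) := by
    intro i
    by_cases hi : i ∈ I
    swap
    · exact ⟨fun _ _ _ => W2 a 1 0, fun _ _ _ => slp_two ha one_pos le_rfl, fun h1 => absurd h1 hi⟩
    obtain ⟨W0, k1, k2, k3⟩ := HR X hX b us gs κ H hPD hb
      (Real.exp k) (Real.exp i) (fun d _ => Real.exp (hf i (Real.log (nm d)))) (fun _ _ => G)
      (Real.exp_pos _) (Real.exp_pos _) (fun _ _ => Real.exp_pos _) (fun d e => d ∈ Ds ∧ e ∈ S E0)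
      (fun d e hde => by
        obtain ⟨h1, h2, h3⟩ := (mem_S hE0.le).1 hde.2
        exact ⟨(hDs d hde.1).1, h2, (hDs d hde.1).2.1, h1.trans hE0X⟩)
      (fun d e hde => by
        have h1 := hsz i hi d hde.1
        rw [← Real.exp_add, ← Real.exp_add, ← Real.exp_sub, Real.rpow_def_of_pos hX0]
        exact Real.exp_le_exp.2 (by linarith))
      (fun d e hde h1 => by
        obtain ⟨g1, g2', g3⟩ := (mem_S hE0.le).1 hde.2
        obtain ⟨pd, hdB, hdm⟩ := hDs d hde.1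
        have nd1 : (1 : ℝ) ≤ nm d := by exact_mod_cast nm_pos.2 pd.ne_zero
        have ne1 : (1 : ℝ) ≤ nm e := by exact_mod_cast nm_pos.2 g2'.ne_zero
        have h2 := Real.log_nonneg h1
        rw [log_Ld (Real.exp_pos _) (Real.exp_pos _) (Real.exp_pos _) pd.ne_zero] at h2
        unfold RnP571.lL at h2
        simp only [Real.log_exp] at h2 ⊢
        obtain ⟨hC, hRl⟩ := hline i hi
        have a1 : 0 ≤ Real.log (nm d) / Real.log X := div_nonneg (Real.log_nonneg nd1) hL.le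
        have a2 : Real.log (nm d) / Real.log X ≤ m / Real.log X :=
          div_le_div_of_nonneg_right hdm hL.le
        have a3 : 0 ≤ Real.log (nm e) / Real.log X := div_nonneg (Real.log_nonneg ne1) hL.le
        have a4 : Real.log (nm e) / Real.log X ≤ Real.log E0 / Real.log X :=
          div_le_div_of_nonneg_right (Real.log_le_log (by linarith) g1) hL.le
        have e0 : Real.log (nm d) / Real.log X * Real.log X = Real.log (nm d) :=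
          div_mul_cancel₀ _ hL.ne'
        have a5 := rl_div hL h2
        have b1 := hC _ _ a1 a2 a3 a4 (by rw [e0]; exact a5)
        have b2 := hRl _ _ a1 a2 a3 a4 (by rw [e0]; exact a5)
        beta_reduce at b1 b2
        rw [e0] at b1 b2
        exact ⟨b1, b2⟩)
    exact ⟨W0, k1, fun _ => ⟨fun A hA jj d hd e he => k2 A hA jj d e ⟨hd, he⟩,
      fun d hd e he => k3 d e ⟨hd, he⟩⟩⟩
  choose W0 k1 k2 using key
  exact ⟨W0, fun i jj d e => k1 i jj d e, fun A hA i hi jj d hd e he => (k2 i hi).1 A hA jj d hd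
    e he, fun i hi d hd e he => (k2 i hi).2 d hd e he⟩

end

end Crest.Agent.R017.GkR521
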