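import Crest.Agent.R017.P1L_904

/-!
# Row 17, class E (helper702): the cube number of the class-form Gram sum

Families `3/5 .. 7/8`, room `GX = 2 (k + p + max 0 (5/4 N - k) - (k - q)/3) + 3/5 D -
max (RSm at uN) (RS0 at uR)`, rows `h ≤ max (hL .. (GX - F)) (bias number)`.
* `Rc` : the branches of the character side; `nxC`, `emC` : the linear cores
* **`nx_X`** : the cube number (differences); **`nx_S`** : no dual at the single lists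
-/

set_option autoImplicit false
set_option linter.unusedVariables false

noncomputable section

namespace Crest.Agent.R017.P1X702

open Crest.Agent.R017.RnP571 (Dh)
open Crest.Agent.R017.P1L904 (RS0 RS1 RSm RSm_le0 RSm_le1 hL hL_le)

/-- branches of the character side: natural list far, replaced list near -/
def Rc (k q p uN uR x R : ℝ) : Prop :=
  R ≤ q + p ∨ R ≤ p + (2 * q + k) / 3 ∨ R ≤ p + (2 * q + (p + uN)) / 3 ∨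
    R ≤ p + (q + 2 * p + k / 3) / 3 ∨ R ≤ p + (q + 2 * p + (p + uN) / 3) / 3 ∨
    R ≤ p + (q + 3 * p - 5 / 12 * (p + uN - x)) / 3 ∨
  R ≤ 2 / 3 * q + 4 / 3 * p + uR / 2 ∨ R ≤ 2 / 3 * q + 4 / 3 * p + 4 / 15 * (uR + x)

/-- near branches only -/
def Rn (q p um x R : ℝ) : Prop :=
  R ≤ q + p ∨ R ≤ 2 / 3 * q + 4 / 3 * p + um / 2 ∨ R ≤ 2 / 3 * q + 4 / 3 * p + 4 / 15 * (um + x)

lemma rn_RS0 (q p um x : ℝ) : Rn q p um x (RS0 q p um x) := by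
  have h : RS0 q p um x ≤ RS0 q p um x := le_rfl
  nth_rewrite 2 [RS0] at h
  rcases le_max_iff.1 h with h | h
  · exact Or.inl h
  · rcases max_choice (um / 2) (4 / 15 * (um + x)) with h2 | h2
    · rw [h2] at h; exact Or.inr (Or.inl h)
    · rw [h2] at h; exact Or.inr (Or.inr h)

lemma rn_RSm (k q p um x : ℝ) : Rn q p um x (RSm k q p um x) := RSm_le0 _ _ _ _ _

lemma rc_max (k q p uN uR x : ℝ) : Rc k q p uN uR x (max (RSm k q p uN x) (RS0 q p uR x)) := by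
  unfold Rc
  rcases max_choice (RSm k q p uN x) (RS0 q p uR x) with h | h <;> rw [h]
  · rcases RSm_le1 k q p uN x with h | h | h | h | h | h
    · exact Or.inl h
    · exact Or.inr (Or.inl h)
    · exact Or.inr (Or.inr (Or.inl h))
    · exact Or.inr (Or.inr (Or.inr (Or.inl h)))
    · exact Or.inr (Or.inr (Or.inr (Or.inr (Or.inl h))))
    · exact Or.inr (Or.inr (Or.inr (Or.inr (Or.inr (Or.inl h)))))
  · rcases rn_RS0 q p uR x with h | h | h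
    · exact Or.inl h
    · exact Or.inr (Or.inr (Or.inr (Or.inr (Or.inr (Or.inr (Or.inl h))))))
    · exact Or.inr (Or.inr (Or.inr (Or.inr (Or.inr (Or.inr (Or.inr h))))))

/-- the rows against the linear pieces (`G` = room minus loss, `B` = room) -/
def Hc (q v p δ x K5 G B s₀ t h : ℝ) : Prop :=
  h ≤ 2 * q + 4 * p - δ - 3 * G + t ∨
  (h ≤ 2 * q + 2 * v + 3 * p + 2 * x - 4 * δ - 3 * G + t ∧ h ≤ 2 * q + 3 * p + K5 - 3 * G + t) ∨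
  (h ≤ 2 * q + 2 * v + 3 * p + 2 * x - 4 * δ - 3 * G + t ∧
    h ≤ 2 * q + 3 * p + (4 / 3 * p + 2 / 3 * x - 4 / 3 * δ) - 3 * G + t) ∨
  (h ≤ 2 * q + v + 4 * p - 3 * δ - 3 * B + t ∧
    h ≤ 2 * q + v + 4 * p - 3 * δ - 3 * (s₀ - δ) - 3 * B + t)

lemma hc_max {q v p δ x K5 G B s₀ t h : ℝ} (hh : h ≤ max (hL q v p δ x K5 G)
    (2 * q + v + 4 * p - 3 * δ - 3 * max 0 (s₀ - δ) - 3 * B) + t) :
    Hc q v p δ x K5 G B s₀ t h := by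
  unfold Hc
  have m1 := le_max_left 0 (s₀ - δ)
  have m2 := le_max_right 0 (s₀ - δ)
  rcases max_choice (hL q v p δ x K5 G) (2 * q + v + 4 * p - 3 * δ - 3 * max 0 (s₀ - δ) - 3 * B)
    with e | e <;> rw [e] at hh
  · rcases hL_le q v p δ x K5 G with ⟨h1, -⟩ | ⟨h1, h2 | h2⟩
    · left; linarith
    · right; left; constructor <;> linarith
    · right; right; left; constructor <;> linarith
  · right; right; right; constructor <;> linarith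

set_option maxHeartbeats 64000000 in
/-- the linear core of the cube number -/
lemma nxC {k y₃ y₄ u x D t q p uN uR v δ e ℓ y s₀ h G B R K5 m : ℝ} (hD : Dh k y₃ y₄ u x D)
    (t0 : 0 ≤ t) (t1 : t ≤ k / 20000) (q0 : 3 / 5 * k - t ≤ q) (q1 : q ≤ 7 / 8 * k + t)
    (p0 : k / 2 - 2 * x - t ≤ p) (y0 : 0 ≤ y) (yx : y ≤ x) (p1 : p ≤ y₃ + y₄ + u + x - ℓ - y + t)
    (p2 : p ≤ y₃ + y₄ + uN + x + t) (uN1 : uN ≤ u + t) (uN2 : 3 * uN ≤ p + t)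
    (uR1 : uR ≤ u + t) (uR2 : 3 * uR ≤ p + t) (uR3 : uR ≤ 153 / 800 * k + t) (ℓ0 : 0 ≤ ℓ + t)
    (v1 : v ≤ 2 * (y₃ + y₄ + u) - k + 11 / 5 * x + t)
    (v2 : v ≤ 3 / 4 * (y₃ + y₄ + u) + 11 / 5 * x + t)
    (v3 : v ≤ 2 * (y₃ + y₄ + u) - k + 11 / 5 * x - 2 * (ℓ - y) + k / 50 + t)
    (v4 : v ≤ 3 / 4 * (y₃ + y₄ + u) + 11 / 5 * x - 2 * (ℓ - y) + k / 50 + t)
    (hs : 17 / 100 * k - ℓ - t ≤ s₀) (δ0 : 0 ≤ δ) (e0 : 0 ≤ e) (e1 : e ≤ k / 64 + t)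
    (hK' : k ≤ K5) (hK'' : 5 / 4 * (y₃ + y₄ + u) ≤ K5)
    (hB : 2 * (k + p + (K5 - k) - (k - q) / 3) + 3 / 5 * D - R ≤ B)
    (hG : B - 5 / 9 * D ≤ G) (hR : Rc k q p uN uR x R) (hh : Hc q v p δ x K5 G B s₀ t h)
    (hL' : 0 ≤ h + 2 * v - q - δ + t) (m1 : m ≤ 0) (m2 : m ≤ δ + e - s₀) :
    h / 3 + 4 / 3 * v + 4 / 3 * p - δ + e + m + k / 200 ≤ B := by
  obtain ⟨k0, u4, y43, u0, y3, N1, near, x0, adm, d0, d1⟩ := hD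
  rcases hh with hh | ⟨hh, hh'⟩ | ⟨hh, hh'⟩ | ⟨hh, hh'⟩ <;>
  rcases hR with hR | hR | hR | hR | hR | hR | hR | hR <;>
  rcases adm with ⟨a0, rfl | a1⟩ | ⟨a1, a2, a3⟩ <;> linarith

set_option maxHeartbeats 16000000 in
/-- the linear core of the emptiness at the single lists -/
lemma emC {k y₃ y₄ u x D t q p um v δ ℓ y s₀ h G B R K5 : ℝ} (hD : Dh k y₃ y₄ u x D)
    (t0 : 0 ≤ t) (t1 : t ≤ k / 20000) (q0 : 3 / 5 * k - t ≤ q) (q1 : q ≤ 7 / 8 * k + t)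
    (p0 : k / 2 - 2 * x - t ≤ p) (y0 : 0 ≤ y) (yx : y ≤ x) (p1 : p ≤ y₃ + y₄ + u + x - ℓ - y + t)
    (um1 : um ≤ u + t) (um2 : 3 * um ≤ p + t) (ℓ0 : 17 / 100 * k ≤ ℓ + t)
    (v1 : v ≤ 2 * (y₃ + y₄ + u) - k + 11 / 5 * x + t)
    (v2 : v ≤ 3 / 4 * (y₃ + y₄ + u) + 11 / 5 * x + t)
    (v3 : v ≤ 2 * (y₃ + y₄ + u) - k + 11 / 5 * x - 2 * (ℓ - y) + k / 50 + t)
    (v4 : v ≤ 3 / 4 * (y₃ + y₄ + u) + 11 / 5 * x - 2 * (ℓ - y) + k / 50 + t) (δ0 : 0 ≤ δ)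
    (hK' : k ≤ K5) (hK'' : 5 / 4 * (y₃ + y₄ + u) ≤ K5)
    (hB : 2 * (k + p + (K5 - k) - (k - q) / 3) + 3 / 5 * D - R ≤ B)
    (hG : B - 5 / 9 * D ≤ G) (hR : Rn q p um x R) (hh : Hc q v p δ x K5 G B s₀ t h) :
    h + 2 * v + k / 200 ≤ q + δ := by
  obtain ⟨k0, u4, y43, u0, y3, N1, near, x0, adm, d0, d1⟩ := hD
  rcases hh with hh | ⟨hh, hh'⟩ | ⟨hh, hh'⟩ | ⟨hh, hh'⟩ <;>
  rcases hR with hR | hR | hR <;>
  rcases adm with ⟨a0, rfl | a1⟩ | ⟨a1, a2, a3⟩ <;> linarith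

lemma ex_eq (N k : ℝ) : max k (5 / 4 * N) - k = max 0 (5 / 4 * N - k) := by
  rw [← max_sub_sub_right, sub_self]

/-- **the cube number, differences** -/
theorem nx_X {k y₃ y₄ u x D t q p uN uR v δ e ℓ y s₀ h F B : ℝ} (hD : Dh k y₃ y₄ u x D)
    (t0 : 0 ≤ t) (t1 : t ≤ k / 20000) (q0 : 3 / 5 * k - t ≤ q) (q1 : q ≤ 7 / 8 * k + t)
    (p0 : k / 2 - 2 * x - t ≤ p) (y0 : 0 ≤ y) (yx : y ≤ x) (p1 : p ≤ y₃ + y₄ + u + x - ℓ - y + t)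
    (p2 : p ≤ y₃ + y₄ + uN + x + t) (uN1 : uN ≤ u + t) (uN2 : 3 * uN ≤ p + t)
    (uR1 : uR ≤ u + t) (uR2 : 3 * uR ≤ p + t) (uR3 : uR ≤ 153 / 800 * k + t) (ℓ0 : 0 ≤ ℓ + t)
    (v1 : v ≤ 2 * (y₃ + y₄ + u) - k + 11 / 5 * x + t)
    (v2 : v ≤ 3 / 4 * (y₃ + y₄ + u) + 11 / 5 * x + t)
    (v3 : v ≤ 2 * (y₃ + y₄ + u) - k + 11 / 5 * x - 2 * (ℓ - y) + k / 50 + t)
    (v4 : v ≤ 3 / 4 * (y₃ + y₄ + u) + 11 / 5 * x - 2 * (ℓ - y) + k / 50 + t)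
    (hs : 17 / 100 * k - ℓ - t ≤ s₀) (δ0 : 0 ≤ δ) (e0 : 0 ≤ e) (e1 : e ≤ k / 64 + t)
    (hB : 2 * (k + p + max 0 (5 / 4 * (y₃ + y₄ + u) - k) - (k - q) / 3) + 3 / 5 * D -
      max (RSm k q p uN x) (RS0 q p uR x) ≤ B) (F1 : F ≤ 5 / 9 * D)
    (hh : h ≤ max (hL q v p δ x (max k (5 / 4 * (y₃ + y₄ + u))) (B - F))
      (2 * q + v + 4 * p - 3 * δ - 3 * max 0 (s₀ - δ) - 3 * B) + t)
    (hL' : 0 ≤ h + 2 * v - q - δ + t) :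
    h / 3 + 4 / 3 * v + 4 / 3 * p - δ + e + min 0 (δ + e - s₀) + k / 200 ≤ B :=
  nxC hD t0 t1 q0 q1 p0 y0 yx p1 p2 uN1 uN2 uR1 uR2 uR3 ℓ0 v1 v2 v3 v4 hs δ0 e0 e1
    (le_max_left _ _) (le_max_right _ _) (by rw [ex_eq]; exact hB) (by linarith)
    (rc_max _ _ _ _ _ _) (hc_max hh) hL' (min_le_left _ _) (min_le_right _ _)

/-- **no dual at the single lists** -/
theorem nx_S {k y₃ y₄ u x D t q p um v δ ℓ y s₀ h F B R : ℝ} (hD : Dh k y₃ y₄ u x D)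
    (t0 : 0 ≤ t) (t1 : t ≤ k / 20000) (q0 : 3 / 5 * k - t ≤ q) (q1 : q ≤ 7 / 8 * k + t)
    (p0 : k / 2 - 2 * x - t ≤ p) (y0 : 0 ≤ y) (yx : y ≤ x) (p1 : p ≤ y₃ + y₄ + u + x - ℓ - y + t)
    (um1 : um ≤ u + t) (um2 : 3 * um ≤ p + t) (ℓ0 : 17 / 100 * k ≤ ℓ + t)
    (v1 : v ≤ 2 * (y₃ + y₄ + u) - k + 11 / 5 * x + t)
    (v2 : v ≤ 3 / 4 * (y₃ + y₄ + u) + 11 / 5 * x + t)
    (v3 : v ≤ 2 * (y₃ + y₄ + u) - k + 11 / 5 * x - 2 * (ℓ - y) + k / 50 + t)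
    (v4 : v ≤ 3 / 4 * (y₃ + y₄ + u) + 11 / 5 * x - 2 * (ℓ - y) + k / 50 + t) (δ0 : 0 ≤ δ)
    (hB : 2 * (k + p + max 0 (5 / 4 * (y₃ + y₄ + u) - k) - (k - q) / 3) + 3 / 5 * D - R ≤ B)
    (F1 : F ≤ 5 / 9 * D) (hR : R = RSm k q p um x ∨ R = RS0 q p um x)
    (hh : h ≤ max (hL q v p δ x (max k (5 / 4 * (y₃ + y₄ + u))) (B - F))
      (2 * q + v + 4 * p - 3 * δ - 3 * max 0 (s₀ - δ) - 3 * B) + t) :
    h + 2 * v + k / 200 ≤ q + δ :=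
  emC hD t0 t1 q0 q1 p0 y0 yx p1 um1 um2 ℓ0 v1 v2 v3 v4 δ0
    (le_max_left _ _) (le_max_right _ _) (by rw [ex_eq]; exact hB) (by linarith)
    (by rcases hR with rfl | rfl; exacts [rn_RSm _ _ _ _ _, rn_RS0 _ _ _ _]) (hc_max hh)

end Crest.Agent.R017.P1X702
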