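import Crest.Agent.R017.P1X8_904
import Crest.Agent.R017.P1X9_702
import Crest.Agent.R017.GkR_521

/-!
# Row 17, class E, R8 (helper629): the real lines of the `R`-half of the class-form Gram sum

* `lnr_GX` : the noncubes, from `coreLX`, `coreL2X`
* **`rlg_X`** : helper521's `RLg` at helper904's `hX`, `GX`
-/

set_option autoImplicit false
set_option linter.unusedVariables false

noncomputable section

namespace Crest.Agent.R017.RkX629

open Crest.Agent.R017.RnP571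
open Crest.Agent.R017.P1L904 (RS0 RS1 RSm RSm_le0 RSm_le1 hL hL_le hL_ge)
open Crest.Agent.R017.P1Q904 (gQ gQ_cases)
open Crest.Agent.R017.P1L7904
open Crest.Agent.R017.RnX571 (Nx)
open Crest.Agent.R017.GkR521 (RLg)

set_option maxHeartbeats 1600000 in
/-- **the real line of the class form**, class E -/
theorem lnr_GX {d k q y₃ y₄ u x t ε p uN uR ℓ s₀ v h δ e z₁ z₂ z₃ w F : ℝ}
    (hD : Dh k y₃ y₄ u x (d * k)) (hC : Ch k y₃ y₄ u x (d * k) t q p uN uR v ℓ s₀)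
    (ε0 : 0 ≤ ε) (εt : 4 * ε ≤ t)
    (hh : h ≤ hX (y₃ + y₄ + u) k q v p δ x (d * k) uN uR s₀ F + ε) (hL : 0 ≤ h + 2 * v - q - δ)
    (F1 : F ≤ 5 / 9 * (d * k)) (δ0 : 0 ≤ δ) (e0 : 0 ≤ e) (e1 : e ≤ k / 64 + ε) (z3 : z₃ ≤ u + ε)
    (w1 : w ≤ x + ε) :
    LnR (EN d) g2 (GX (y₃ + y₄ + u) k q p uN uR x (d * k)) q v h p δ e z₁ z₂ z₃ w ε := by
  have hk0 := hD.k0
  have hdk := hD.d0
  have hd0 : 0 ≤ d := by
    by_contra h0
    push Not at h0
    nlinarith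
  set W : ℝ := v + h with hW
  have a1 : h + 2 * v - q - δ = W + v - q - δ := by rw [hW]; ring
  have a2 : p + v + h - q = W + p - q := by rw [hW]; ring
  have hg : g2 (h + 2 * v - q - δ) (p + v + h - q) = gQ (W + v - q - δ) (W + p - q) := by
    rw [g2_eq, a1, a2]
  have hNn : Nn g2 q v h p δ e = 2 / 3 * q - W / 3 + 5 / 3 * δ + 2 * e +
      gQ (W + v - q - δ) (W + p - q) + 2 / 3 * (p - δ) := by
    unfold Nn
    rw [hg, hW]
    ring
  have b4 : W ≤ v + hX (y₃ + y₄ + u) k q v p δ x (d * k) uN uR s₀ F + t := by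
    rw [hW]; linarith
  have b5 : 0 ≤ W + v - q - δ + t := by rw [← a1]; linarith
  have b6 : e ≤ k / 64 + t := by linarith
  refine ⟨?_, ?_⟩
  · have h1 := coreL2X (x' := 0) hD hC F1 b4 b5 δ0 e0 b6 le_rfl
      (by have := hD.x0; linarith)
    have h2 : 0 ≤ max 0 ((W + p - q) / 3 + 0) := le_max_left _ _
    rw [hNn]
    linarith
  · intro i q₁ q₂ q₃ x' i0 hi q10 q1' q20 q2 q30 q3 x0' x1 hn
    rw [hNn, a2]
    rw [a2] at hi
    unfold EN
    have hx1 : x' ≤ x + t := by linarith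
    have hn' : q₁ + q₂ + q₃ + x' ≤ p - δ - e + t := by linarith
    have hi' : i ≤ W + p - q + t := by linarith
    have t1 := hC.t1
    have key1 : RM986.r3 d i q₁ q₂ q₃ 0 x' + (W + p - q - i) / 3 +
        (2 / 3 * q - W / 3 + 5 / 3 * δ + 2 * e + gQ (W + v - q - δ) (W + p - q) +
          2 / 3 * (p - δ)) ≤
        GX (y₃ + y₄ + u) k q p uN uR x (d * k) + (q₁ + q₂ + q₃ + x') := by
      have h1 := RM986.r3_le_P1 (d := d) (m := 0) (a := x') i0 q10 q20 q30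
      set ζ₁ := min q₁ i
      set ζ₂ := min q₂ i
      set ζ₃ := min q₃ i
      have c1 : ζ₁ ≤ q₁ := min_le_left _ _
      have c2 : ζ₂ ≤ q₂ := min_le_left _ _
      have c3 : ζ₃ ≤ q₃ := min_le_left _ _
      obtain ⟨l1, l2, l3, l4, l5, l6⟩ := P1F904.l3_le i ζ₁ ζ₂ ζ₃
      unfold P1R904.r3 at h1
      rw [zero_add] at h1
      generalize P1R904.l3 i ζ₁ ζ₂ ζ₃ = l at h1 l1 l2 l3 l4 l5 l6
      have hS : l + x' ≤ 305 / 1000 * k := by
        obtain ⟨k0, u4, y43, u0, y3, N1, near, x0, adm, d0, d1⟩ := hD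
        rcases adm with ⟨a0, -⟩ | ⟨-, a2', -⟩ <;> linarith
      have hdS : (3 / 4 + 2 * d) * (l + x') ≤ 3 / 4 * (l + x') + 61 / 100 * (d * k) := by
        have := mul_le_mul_of_nonneg_left hS hd0
        nlinarith
      have key := coreLX (S := l + x') (i := i) (n := q₁ + q₂ + q₃ + x') (x' := x') hD hC F1 b4 b5
        δ0 e0 b6 x0' hx1 hn' i0 hi' (by linarith) (by linarith) (by linarith)
      linarith
    have key2 : i / 3 + 2 * x' + 2 * (7 / 8 + d) * 0 + (W + p - q - i) / 3 +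
        (2 / 3 * q - W / 3 + 5 / 3 * δ + 2 * e + gQ (W + v - q - δ) (W + p - q) +
          2 / 3 * (p - δ)) ≤
        GX (y₃ + y₄ + u) k q p uN uR x (d * k) + (q₁ + q₂ + q₃ + x') := by
      have key := coreL2X (x' := x') hD hC F1 b4 b5 δ0 e0 b6 x0' hx1
      have h2 : (W + p - q) / 3 + x' ≤ max 0 ((W + p - q) / 3 + x') := le_max_right _ _
      linarith
    rcases max_choice (RM986.r3 d i q₁ q₂ q₃ 0 x') (i / 3 + 2 * x' + 2 * (7 / 8 + d) * 0) with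
      h0 | h0 <;> rw [h0]
    · exact key1
    · exact key2

lemma LnR.up {E : ℝ → ℝ → ℝ → ℝ → ℝ → ℝ → ℝ} {gg : ℝ → ℝ → ℝ}
    {T T' k v h p δ e z₁ z₂ z₃ w t : ℝ} (H : LnR E gg T k v h p δ e z₁ z₂ z₃ w t) (hT : T ≤ T') :
    LnR E gg T' k v h p δ e z₁ z₂ z₃ w t where
  n := H.n.trans hT
  l := fun i y₁ y₂ y₃ x a1 a2 a3 a4 a5 a6 a7 a8 a9 a10 a11 => by
    have := H.l i y₁ y₂ y₃ x a1 a2 a3 a4 a5 a6 a7 a8 a9 a10 a11
    linarith

/-- **helper521's `RLg` at helper904's `hX`, `GX`** -/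
theorem rlg_X {dd k q y₃ y₄ u x t ε p uN uR ℓ s₀ v z₃ w m E F G : ℝ} {h : ℝ → ℝ}
    (hD : Dh k y₃ y₄ u x (dd * k)) (hC : Ch k y₃ y₄ u x (dd * k) t q p uN uR v ℓ s₀)
    (ε0 : 0 ≤ ε) (εt : 4 * ε ≤ t)
    (hh : ∀ δ, 0 ≤ δ → δ ≤ m → h δ ≤ hX (y₃ + y₄ + u) k q v p δ x (dd * k) uN uR s₀ F + ε)
    (F1 : F ≤ 5 / 9 * (dd * k)) (hE : E ≤ k / 64 + ε) (hz : z₃ ≤ u + ε) (hw : w ≤ x + ε)
    (hG : GX (y₃ + y₄ + u) k q p uN uR x (dd * k) ≤ G) :
    RLg dd q v p s₀ z₃ w m E ε G h where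
  C := fun δ e δ0 δm e0 eE hl => by
    obtain ⟨t0, t1, q0, q1, p0, p1, p1', p2, um0, um1, um2, r1, r2, r3, v1, v2,
      ⟨y, yy0, yx, py, v3, v4⟩, l0, s0⟩ := hC
    have hk0 := hD.k0
    have hd1 := hD.d1
    have h0 := hh δ δ0 δm
    have h1 := P1X702.nx_X (B := GX (y₃ + y₄ + u) k q p uN uR x (dd * k)) (h := h δ) (e := e) hD
      t0 t1 q0 q1 p0 yy0 yx (by linarith) p2 um1 um2 r1 r2 r3 l0 v1 v2 (by linarith) (by linarith)
      s0 δ0 e0 (by linarith) (le_refl _) F1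
      (by
        unfold hX hB at h0
        linarith)
      (by linarith)
    unfold RnX571.Nx
    linarith
  R := fun δ e δ0 δm e0 eE hl w₁ w₂ =>
    LnR.up (lnr_GX hD hC ε0 εt (hh δ δ0 δm) hl F1 δ0 e0 (by linarith) hz hw) hG

end Crest.Agent.R017.RkX629
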