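import Crest.Agent.R017.GkE_521
import Crest.Agent.R017.RkX_629
import Crest.Agent.R017.ChX_629
import Crest.Agent.R017.HfG_47
import Crest.Agent.R017.UbOr_381
import Crest.Agent.R017.RnSh_629

/-!
# Row 17, class E, R8 (helper629): the real lines of the `R`-half at every datum, single lists

* `vt_S` : the top of a level
* `ch_S` : the child at a datum
* **`rlnf_S`** : helper521's `RLnF` at the single lists
-/

set_option autoImplicit false
set_option linter.unusedVariables false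

noncomputable section

open Finset
open scoped Classical

namespace Crest.Agent.R017.GkFS629

open Crest.Agent.R012 Crest.Agent.R012.Eis Crest.Agent.R012.MC
open Crest.Agent.R017.CM106
open Crest.Agent.R017.XG702 (Pcs)
open Crest.Agent.R017.XT71 (Sys Win mx)
open Crest.Agent.R017.Prov71
open Crest.Agent.R017.B770
open Crest.Agent.R017.E5B71 Crest.Agent.R017.E5L770
open Crest.Agent.R017.Sf770 (nO JS okJ_JS tO)
open Crest.Agent.R017.E3Kc548 (LI mem_LI)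
open Crest.Agent.R017.I1146 (LN)
open Crest.Agent.R017.RnP571
open Crest.Agent.R017.P1l54 (ParOK)
open Crest.Agent.R017.ExBox960 Crest.Agent.R017.ExP960
open Crest.Agent.R017.P1X960
open Crest.Agent.R017.P10X764
open Crest.Agent.R017.S8X50 (F8X)
open Crest.Agent.R017.ETd548 (BkX S8Xk)
open Crest.Agent.R017.ETk548 (DomKc)
open Crest.Agent.R017.ETm548
open Crest.Agent.R017.GkR521 (RLg)
open Crest.Agent.R017.GkD521 (win_inl)
open Crest.Agent.R017.GkE521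
open Crest.Agent.R017.P1L7904 (Ch GX hX)
open Crest.Agent.R017.LnY47 (hfG hfG_eq GSq uNS uRS GX_lip)
open Crest.Agent.R017.ETy71 (mV vN vR pQ bq)
open Crest.Agent.R017.UbOr381 (DomHi)
open Crest.Agent.R017.RnS629 (s8s_frame bS frRS)
open Crest.Agent.R017.RnX571 (vt_le)
open Crest.Agent.R017.ChX629 (chN chR')
open Crest.Agent.R017.RkX629 (rlg_X)

set_option maxHeartbeats 1600000 in
/-- the top of a level -/
lemma vt_S {c : ℝ} {X δ t₀ pq bb : ℝ} {p : IX5 → ℝ} {a : BcX} {qs : List Pq}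
    (hX1 : 1 < X) (hδ : 0 ≤ δ) (hδt : 100 * δ ≤ t₀) (hLt : 4 ≤ t₀ * Real.log X) (hc0 : 0 ≤ c)
    (hc1 : c ≤ 1) (hPp : ParOK (prX p)) (hb1 : 2 * bb ≤ top5 (prX p) + 2 * c * cκ (prX p))
    (F : F8X X δ (Real.log X) p pq bb a qs) :
    (1 : ℝ) + nw c a * Real.log 2 ≤
      min (min (2 * cN (prX p) - cκ (prX p)) (3 / 4 * cN (prX p)) + 11 / 5 * cx' (prX p))
        (min (2 * cN (prX p) - cκ (prX p)) (3 / 4 * cN (prX p)) + 11 / 5 * cx' (prX p) +
          2 * (c * cκ (prX p)) - 2 * bb) * Real.log X + 2 * (t₀ * Real.log X) := by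
  obtain ⟨hκ, hx, hN, hn, lo, hi, us0, us1, us2, zs, hd, hb, top⟩ := F
  set L := Real.log X with hL
  have hL0 : 0 < L := Real.log_pos hX1
  have hδL : 0 ≤ δ * L := by positivity
  have hδt' : 100 * (δ * L) ≤ t₀ * L := by
    have := mul_le_mul_of_nonneg_right hδt hL0.le
    linarith
  have hlog2 : Real.log 2 ≤ 1 := by
    have := Real.log_two_lt_d9
    linarith
  have ht := tO_near (k3 := 11 / 5) hL0 hδ (by norm_num) (by norm_num) hκ hx hN
  have hnw := nW_hi c a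
  have etO : tO a.1.toBd = min (2 * a3 a.1.toBd - a.1.l) (3 / 4 * a3 a.1.toBd) + 11 / 5 * a.1.z :=
    rfl
  rw [← etO] at ht
  have et5 : top5 (prX p) = min (2 * cN (prX p) - cκ (prX p)) (3 / 4 * cN (prX p)) +
      11 / 5 * cx' (prX p) := rfl
  rw [et5] at hb1
  have hmm : 0 ≤ min (2 * cN (prX p) - cκ (prX p)) (3 / 4 * cN (prX p)) := by
    have h1 := hPp.N0
    have h2 := hPp.κ0
    exact le_min (by linarith) (by linarith)
  have hx0 := hPp.x0
  generalize htt : min (2 * cN (prX p) - cκ (prX p)) (3 / 4 * cN (prX p)) +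
      11 / 5 * cx' (prX p) = tt at ht hb1 et5 ⊢
  have htt0 : 0 ≤ tt := by rw [← htt]; linarith
  obtain ⟨t1, t2⟩ := abs_le.1 ht
  obtain ⟨b1, b2⟩ := abs_le.1 hb
  obtain ⟨k1, k2⟩ := abs_le.1 hκ
  have hcl : c * a.1.l ≤ c * cκ (prX p) * L + δ * L := by
    have h1 : c * (a.1.l - cκ (prX p) * L) ≤ c * (δ * L) := mul_le_mul_of_nonneg_left k2 hc0
    have h2 : c * (δ * L) ≤ 1 * (δ * L) := mul_le_mul_of_nonneg_right hc1 hδL
    linarith
  have hmin : max 0 (min (tO a.1.toBd) (tO a.1.toBd + 2 * (c * a.1.l) - 2 * a.2.2)) ≤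
      min tt (tt + 2 * (c * cκ (prX p)) - 2 * bb) * L + 14 * (δ * L) := by
    have hM0 : 0 ≤ min tt (tt + 2 * (c * cκ (prX p)) - 2 * bb) :=
      le_min htt0 (by linarith)
    refine max_le (by positivity) ?_
    rw [min_mul_of_nonneg _ _ hL0.le, ← min_add_add_right]
    refine min_le_min ?_ ?_
    · linarith
    · have e1 : (tt + 2 * (c * cκ (prX p)) - 2 * bb) * L =
        tt * L + 2 * (c * cκ (prX p) * L) - 2 * (bb * L) := by ring
      rw [e1]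
      linarith
  linarith

/-- the child of a single list at a datum -/
lemma ch_S {c D t : ℝ} {Par : Set (Fin 3 ⊕ Fin 5 → ℝ)} {q : QK} {k p v : ℝ} (t0 : 0 ≤ t)
    (t1 : t ≤ cκ (prX (bq q)) / 20000) (hPp : ParOK (prX (bq q)))
    (hD : Dh (cκ (prX (bq q))) (cu (prX (bq q)) 2) (cu (prX (bq q)) 3) (cu (prX (bq q)) 4)
      (cx' (prX (bq q))) D) (hc : 4 * (c * cκ (prX (bq q))) ≤ D)
    (hC : ChC c (17 / 100) Par (bq q) (q.1 (.inl (.inr 0))) (q.1 (.inl (.inr 1)))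
      (q.1 (.inl (.inr 2))) (q.1 (.inl (.inr 3))) (q.2 .am))
    (hS : SinL (17 / 100) (bq q) (q.1 (.inl (.inr 0))) (q.1 (.inl (.inr 1)))
      (q.1 (.inl (.inr 2))))
    (q0 : 3 / 5 * cκ (prX (bq q)) - t ≤ k) (q1 : k ≤ 7 / 8 * cκ (prX (bq q)) + t)
    (hv : v ≤ min (min (2 * cN (prX (bq q)) - cκ (prX (bq q))) (3 / 4 * cN (prX (bq q))) +
        11 / 5 * cx' (prX (bq q)))
      (min (2 * cN (prX (bq q)) - cκ (prX (bq q))) (3 / 4 * cN (prX (bq q))) +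
        11 / 5 * cx' (prX (bq q)) + 2 * (c * cκ (prX (bq q))) - 2 * q.1 (.inl (.inr 3))) + t)
    (hp : |p - pQ q| ≤ t)
    (hp0 : cκ (prX (bq q)) / 2 - 2 * cx' (prX (bq q)) - t ≤ p) :
    Ch (cκ (prX (bq q))) (cu (prX (bq q)) 2) (cu (prX (bq q)) 3) (cu (prX (bq q)) 4)
      (cx' (prX (bq q))) D t k p (uNS q) (uRS q) v
      (cN (prX (bq q)) - (q.1 (.inl (.inr 0)) + q.1 (.inl (.inr 1)) + q.1 (.inl (.inr 2)))) 0 := by
  unfold pQ at hp
  obtain ⟨hL, hm⟩ := hS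
  have e1 : mV (vN q) = min (q.1 (.inl (.inr 0))) (min (q.1 (.inl (.inr 1)))
      (q.1 (.inl (.inr 2)))) := rfl
  by_cases hN : NatL (bq q) (q.1 (.inl (.inr 0))) (q.1 (.inl (.inr 1))) (q.1 (.inl (.inr 2)))
  · have eN : uNS q = min (q.1 (.inl (.inr 0))) (min (q.1 (.inl (.inr 1)))
        (q.1 (.inl (.inr 2)))) := by
      rw [← e1]; exact if_pos hN
    have eR : uRS q = 0 := if_pos hN
    rw [eN, eR]
    exact chN hPp.κ0 t0 t1 rfl hD hc hC.v0 hC.v1 hC.v2 hN.1 hN.2.1 hN.2.2 hC.x0 hC.x1 hC.s2 hm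
      q0 q1 hv hp hp0
  · have hR := hL.resolve_left hN
    have eN : uNS q = cu (prX (bq q)) 4 - 17 / 100 * cκ (prX (bq q)) := if_neg hN
    have eR : uRS q = min (q.1 (.inl (.inr 0))) (min (q.1 (.inl (.inr 1)))
        (q.1 (.inl (.inr 2)))) := by
      rw [← e1]; exact if_neg hN
    rw [eN, eR]
    exact chR' hPp.κ0 t0 t1 rfl hD hc rfl (hC.zr 1).2 hC.v0 hC.v1 hC.v2 hR.1 hR.2.1 hR.2.2 hC.x0
      hC.x1 hC.s2 hm q0 q1 hv hp hp0

variable {Λ : Type*} {π : Λ → DPar}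

set_option maxHeartbeats 3200000 in
/-- **helper521's `RLnF`, single lists** -/
theorem rlnf_S {dd : ℝ} {e0 : ℝ} (he0 : 0 ≤ e0) (he0' : e0 ≤ 1 / 64) {c : ℝ} (hc0 : 0 ≤ c)
    (hc1 : c ≤ 1) {Par : Set (Fin 3 ⊕ Fin 5 → ℝ)} (hPar : ∀ p ∈ Par, ParOK p)
    (hDh : ∀ p ∈ Par, Dh (cκ p) (cu p 2) (cu p 3) (cu p 4) (cx' p) (dd * cκ p))
    (hcD : ∀ p ∈ Par, 4 * (c * cκ p) ≤ dd * cκ p) {F : QK → ℝ}
    (hF : ∀ q ∈ DomHi (3 / 5) (7 / 8) c (17 / 100) Par (SinL (17 / 100)),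
      F q ≤ 5 / 9 * (dd * cκ (prX (bq q)))) :
    RLnF dd (fun (lam : Λ × Eis) a qs => okCX (π lam.1) lam.2 a qs) e0 c
      (DomHi (3 / 5) (7 / 8) c (17 / 100) Par (SinL (17 / 100))) (fun _ => 0)
      (fun q => q.1 (.inl (.inr 2))) (hfG dd uNS uRS F fun _ => 0) (GSq dd) := by
  intro ε hε
  refine ⟨min (1 / 1000000) (ε / 6), by positivity, fun ε₁ hε₁ hε₁0 => ?_⟩
  have hε₁1 : ε₁ ≤ 1 / 1000000 := hε₁0.trans (min_le_left _ _)
  have hε₁ε : ε₁ ≤ ε / 6 := hε₁0.trans (min_le_right _ _)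
  obtain ⟨t₀, ht₀d⟩ : ∃ t₀ : ℝ, t₀ = ε₁ / 4 := ⟨_, rfl⟩
  have ht₀ : 0 < t₀ := by rw [ht₀d]; positivity
  refine ⟨t₀ / 100, by positivity, fun lam N B => ?_⟩
  refine ⟨1, one_pos, Real.exp (4 / t₀), Real.one_lt_exp_iff.2 (by positivity), ?_⟩
  intro X hX a qs q hW
  have hX1 : 1 < X := (Real.one_lt_exp_iff.2 (by positivity)).trans_le hX
  have hX0 : 0 < X := by linarith
  obtain ⟨L, hLd⟩ : ∃ L : ℝ, L = Real.log X := ⟨_, rfl⟩
  have hL : 0 < L := hLd ▸ Real.log_pos hX1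
  have hLt : 4 ≤ t₀ * L := by
    have h1 := Real.log_le_log (Real.exp_pos _) hX
    rw [Real.log_exp, div_le_iff₀ ht₀, ← hLd] at h1
    linarith
  have hdm := hW.dom
  have hD8 := hdm.1.1
  have hw' := win_inl hW.win
  obtain ⟨F8, PN⟩ := s8s_frame (q := ((fun i => q.1 (.inl i)), q.2)) (δ := t₀ / 100) (τ := t₀)
    hX1 (by positivity) (by linarith) (by norm_num : (0 : ℝ) ≤ 1) hW.len hW.gl hD8 hw' hW.ms
    hW.gd (fun p hp hlp => absurd hlp (hW.nlp p hp)) hW.hok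
  have hpar : prX (bp fun i => q.1 (.inl i)) ∈ Par := hD8.1.par
  have hPp := hPar _ hpar
  have hDp := hDh _ hpar
  have hcp := hcD _ hpar
  have hC := hD8.1
  have hS := hD8.2.1
  obtain ⟨hTf, -⟩ := frRS (q := ((fun i => q.1 (.inl i)), q.2)) (β := 17 / 100) (Par := Par) hX1
    (by positivity) ht₀ (by rw [ht₀d]; linarith) (by linarith) (by rw [← hLd]; exact hLt) hc0 hc1
    hPp hDp hcp le_rfl hD8 F8
  have hvk := vt_le hTf
  have hvt := vt_S (t₀ := t₀) hX1 (by positivity) (by linarith) (by rw [← hLd]; exact hLt) hc0 hc1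
    hPp hC.b1 F8
  have hev : |kB a / Real.log X - q.1 (.inr ())| ≤ t₀ / 100 := hW.win.ev (.inr ())
  obtain ⟨P, hP⟩ : ∃ P : IX5 → ℝ, P = bq q := ⟨_, rfl⟩
  have hDp' : Dh (cκ (prX P)) (cu (prX P) 2) (cu (prX P) 3) (cu (prX P) 4) (cx' (prX P))
    (dd * cκ (prX P)) := by rw [hP]; exact hDp
  have hvk' : 1 + (nw c a.1 : ℝ) * Real.log 2 ≤ cκ (prX P) * L := by rw [hP, hLd]; exact hvk
  have hvt' : 1 + (nw c a.1 : ℝ) * Real.log 2 ≤
      min (min (2 * cN (prX P) - cκ (prX P)) (3 / 4 * cN (prX P)) + 11 / 5 * cx' (prX P))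
        (min (2 * cN (prX P) - cκ (prX P)) (3 / 4 * cN (prX P)) + 11 / 5 * cx' (prX P) +
          2 * (c * cκ (prX P)) - 2 * q.1 (.inl (.inr 3))) * L + 2 * (t₀ * L) := by
    rw [hP, hLd]; exact hvt
  have hn : |LN (clN a.1 qs) - pQ q * L| ≤ 4 * (t₀ / 100 * L) := by rw [hLd]; exact F8.hn
  have hlo : (cκ (prX P) / 2 - 2 * cx' (prX P)) * L - 4 * (t₀ / 100 * L) ≤ LN (clN a.1 qs) := by
    rw [hP, hLd]; exact F8.lo
  have hhi : LN (clN a.1 qs) ≤ (cN (prX P) + cx' (prX P)) * L + 4 * (t₀ / 100 * L) := by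
    rw [hP, hLd]; exact F8.hi
  have hκw : |a.1.1.l - cκ (prX P) * L| ≤ t₀ / 100 * L := by rw [hP, hLd]; exact F8.hκ
  have hkd : 3 / 5 * cκ (prX P) ≤ q.1 (.inr ()) := by rw [hP]; exact hdm.2
  have hku : q.1 (.inr ()) ≤ 7 / 8 * cκ (prX P) := by rw [hP]; exact hdm.1.2.2
  have hk0 := hdm.1.2.1
  have hκ0 : 8 / 9 ≤ cκ (prX P) := by rw [hP]; exact hPp.κ0
  have hκ1 : cκ (prX P) ≤ 1 := by rw [hP]; exact hPp.κ1
  have hN1 := hDp'.N1
  have hy3 := hDp'.y3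
  have hx0 := hDp'.x0
  have hu0 := hDp'.u0
  have hu4 := hDp'.u4
  have hy43 := hDp'.y43
  have hkB0 : 0 ≤ kB a := by
    unfold kB
    have := Real.log_pos (one_lt_two : (1 : ℝ) < 2)
    positivity
  have htL : 0 ≤ t₀ * L := by positivity
  have hκL : cκ (prX P) * L ≤ 1 * L := mul_le_mul_of_nonneg_right hκ1 hL.le
  rw [← hLd] at hev ⊢
  -- the top of the window
  have hnwX : (2 : ℝ) ^ nw c a.1 ≤ X := by
    have h1 : (nw c a.1 : ℝ) * Real.log 2 ≤ L := by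
      linarith
    rw [← Real.log_pow, hLd] at h1
    exact (Real.log_le_log_iff (by positivity) hX0).1 h1
  refine ⟨hnwX, fun i hi => ?_⟩
  have hiv : (i : ℝ) ≤ 1 + nw c a.1 * Real.log 2 := by
    have h1 := (mem_LI hi).2.2
    have h2 : Real.exp 1 * (2 : ℝ) ^ (a.2.1 + 1) ≤ Real.exp 1 * 2 ^ nw c a.1 :=
      mul_le_mul_of_nonneg_left (pow_le_pow_right₀ (by norm_num) hW.lvl) (Real.exp_pos _).le
    have h3 := Real.log_le_log (Real.exp_pos _) (h1.trans h2)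
    rwa [Real.log_exp, Real.log_mul (Real.exp_pos _).ne' (by positivity), Real.log_exp,
      Real.log_pow] at h3
  have hdv : ∀ {x y : ℝ}, x ≤ y * L → x / L ≤ y := fun h => (div_le_iff₀ hL).2 h
  have hiL : (i : ℝ) / L ≤ min (min (2 * cN (prX P) - cκ (prX P)) (3 / 4 * cN (prX P)) +
        11 / 5 * cx' (prX P))
      (min (2 * cN (prX P) - cκ (prX P)) (3 / 4 * cN (prX P)) +
        11 / 5 * cx' (prX P) + 2 * (c * cκ (prX P)) - 2 * q.1 (.inl (.inr 3))) + 4 * ε₁ := by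
    refine hdv ?_
    rw [add_mul]
    have h1 : 2 * (t₀ * L) ≤ 4 * ε₁ * L := by
      have h2 : 2 * t₀ ≤ 4 * ε₁ := by rw [ht₀d]; linarith
      have := mul_le_mul_of_nonneg_right h2 hL.le
      linarith
    exact (hiv.trans hvt').trans (by linarith)
  obtain ⟨n1, n2⟩ := abs_le.1 hn
  have hnL : |LN (clN a.1 qs) / L - pQ q| ≤ 4 * (t₀ / 100) := by
    have e : LN (clN a.1 qs) / L - pQ q = (LN (clN a.1 qs) - pQ q * L) / L := by
      field_simp
    rw [e, abs_div, abs_of_pos hL]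
    exact (div_le_iff₀ hL).2 (hn.trans (le_of_eq (by ring)))
  have hloL : cκ (prX P) / 2 - 2 * cx' (prX P) - 4 * (t₀ / 100) ≤ LN (clN a.1 qs) / L := by
    rw [le_div_iff₀ hL]
    refine le_trans (le_of_eq ?_) hlo
    ring
  obtain ⟨k1, k2⟩ := abs_le.1 hev
  have hCh : Ch (cκ (prX P)) (cu (prX P) 2) (cu (prX P) 3) (cu (prX P) 4)
      (cx' (prX P)) (dd * cκ (prX P)) (4 * ε₁) (kB a / L) (LN (clN a.1 qs) / L) (uNS q) (uRS q)
      ((i : ℝ) / L)
      (cN (prX P) - (q.1 (.inl (.inr 0)) + q.1 (.inl (.inr 1)) + q.1 (.inl (.inr 2))))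
      ((fun _ : BcX => (0 : ℝ)) a.1 / L) := by
    have e0 : (fun _ : BcX => (0 : ℝ)) a.1 / L = 0 := zero_div _
    rw [e0]
    have t1 : 4 * ε₁ ≤ cκ (prX P) / 20000 := by linarith
    have q0 : 3 / 5 * cκ (prX P) - 4 * ε₁ ≤ kB a / L := by linarith
    have q1 : kB a / L ≤ 7 / 8 * cκ (prX P) + 4 * ε₁ := by linarith
    have p0 : cκ (prX P) / 2 - 2 * cx' (prX P) - 4 * ε₁ ≤ LN (clN a.1 qs) / L := by linarith
    rw [hP] at t1 q0 q1 p0 hiL ⊢
    exact ch_S (by positivity) t1 hPp hDp hcp hC hS q0 q1 hiL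
      (hnL.trans (by linarith)) p0
  have F1 : F q ≤ 5 / 9 * (dd * cκ (prX P)) := by rw [hP]; exact hF q hdm
  refine ⟨fun g g0 => ?_, fun hz hw => ?_⟩
  · have h1 := LnX47.hX_neg (δ := g / L) hDp' hCh (div_nonneg g0 hL.le) F1
    have h2 : hfG dd uNS uRS F (fun _ => 0) lam X a qs q i g ≤ 0 := by
      unfold LnY47.hfG
      rw [← hLd, ← hP]
      refine mul_nonpos_of_nonneg_of_nonpos hL.le ?_
      refine le_trans ?_ (show (0 : ℝ) - cκ (prX P) / 20 ≤ 0 by linarith)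
      exact le_sub_iff_add_le.2 h1
    have h3 : (cN (prX P) + cx' (prX P)) * L ≤ 2 * L := by
      refine mul_le_mul_of_nonneg_right ?_ hL.le
      have : cN (prX P) = cu (prX P) 2 + cu (prX P) 3 + cu (prX P) 4 := rfl
      rw [this]
      linarith
    have h4 : t₀ * L ≤ 1 * L := mul_le_mul_of_nonneg_right (by rw [ht₀d]; linarith) hL.le
    linarith
  · have hG : GX (cu (prX P) 2 + cu (prX P) 3 + cu (prX P) 4) (cκ (prX P)) (kB a / L)
        (LN (clN a.1 qs) / L) (uNS q) (uRS q) (cx' (prX P)) (dd * cκ (prX P)) ≤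
        GSq dd q + ε := by
      have h1 := GX_lip (N := cN (prX P)) (k := cκ (prX P)) (uN := uNS q) (uR := uRS q)
        (x := cx' (prX P)) (D := dd * cκ (prX P)) (hev.trans (by linarith : t₀ / 100 ≤ ε₁))
        (hnL.trans (by linarith : 4 * (t₀ / 100) ≤ ε₁))
      have h2 : GSq dd q + 6 * ε₁ ≤ GSq dd q + ε := by linarith
      rw [hP] at h1 ⊢
      exact h1.trans h2
    refine rlg_X hDp' hCh hε₁.le le_rfl (F := F q) (fun δ δ0 _ => ?_) F1 ?_ ?_ ?_ hG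
    · rw [hLd, hfG_eq hX1, hP]
      exact le_add_of_nonneg_right hε₁.le
    · refine hdv ?_
      obtain ⟨κ1', κ2'⟩ := abs_le.1 hκw
      have hl0 : 0 ≤ a.1.1.l := by
        have h1 : 8 / 9 * L ≤ cκ (prX P) * L := mul_le_mul_of_nonneg_right hκ0 hL.le
        have h4 : t₀ * L ≤ 1 / 1000000 * L :=
          mul_le_mul_of_nonneg_right (by rw [ht₀d]; linarith) hL.le
        linarith
      have h1 := mul_le_mul_of_nonneg_right he0' hl0
      have h2 : t₀ * L ≤ ε₁ * L := mul_le_mul_of_nonneg_right (by rw [ht₀d]; linarith) hL.le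
      linarith
    · refine hdv (hz.trans (mul_le_mul_of_nonneg_right ?_ hL.le))
      have h1 : q.1 (.inl (.inr 2)) ≤ cu (prX P) 4 := by
        rw [hP]
        rcases hS.1 with h | h
        · exact h.2.2
        · exact h.2.2
      linarith
    · rw [hP]
      exact hdv hw

end Crest.Agent.R017.GkFS629
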