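import Crest.Agent.R017.GkW_968
import Crest.Agent.R017.ETm_548
import Crest.Agent.R017.UbOr_381
import Crest.Agent.R017.ETy3_71
import Crest.Agent.R017.ChX_629
import Crest.Agent.R017.HfG_47

/-!
# Row 17, exceptional class (helper65): the `T`-half of the Gram sums, single lists

* `ch_S` : the child of helper904's real lines from the windows
* **`tfr_S`** : helper548's `TFr` for `alS`, families `3/5 κ .. 7/8 κ`
-/

set_option autoImplicit false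
set_option linter.unusedSectionVars false
set_option linter.unusedVariables false

noncomputable section

open Finset
open scoped Classical

namespace Crest.Agent.R017.TFs65

open Crest.Agent.R012 Crest.Agent.R012.Eis Crest.Agent.R012.MC
open Crest.Agent.R017.FE47 (PU cx)
open Crest.Agent.R017.B770
open Crest.Agent.R017.Prov71
open Crest.Agent.R017.XT71 (Sys Win mx)
open Crest.Agent.R017.E5B71 Crest.Agent.R017.E5P571 Crest.Agent.R017.E5L770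
open Crest.Agent.R017.ExBox960 Crest.Agent.R017.ExP960
open Crest.Agent.R017.Sf770
open Crest.Agent.R017.I1146 (LN)
open Crest.Agent.R017.PX764 (Dk)
open Crest.Agent.R017.TM708 (R5)
open Crest.Agent.R017.P1e54 Crest.Agent.R017.P1f54 Crest.Agent.R017.P1k54
open Crest.Agent.R017.P1l54 (ParOK)
open Crest.Agent.R017.P1X960
open Crest.Agent.R017.P10X764
open Crest.Agent.R017.E3Nx744 (CBA)
open Crest.Agent.R017.TNj90 (JBc)
open Crest.Agent.R017.E1551 (Adm)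
open Crest.Agent.R017.E3N146 (ShT)
open Crest.Agent.R017.ETd548 (BkX S8Xk GkG stG)
open Crest.Agent.R017.ETk548 (DomKc GkGUc)
open Crest.Agent.R017.ET490 (LnT)
open Crest.Agent.R017.E3Kc548 (LI mem_LI)
open Crest.Agent.R017.FrX579 (lmX svX)
open Crest.Agent.R017.FrS829 (ShSl FrSD frS)
open Crest.Agent.R017.RnP571 (Dh)
open Crest.Agent.R017.P1L7904 (GX hX Ch)
open Crest.Agent.R017.ChX629 (chN chR')
open Crest.Agent.R017.UbOr381 (DomHi)
open Crest.Agent.R017.GkW968 (q8 win_inl)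
open Crest.Agent.R017.SP521 (LI_win)
open Crest.Agent.R017.ETm548
open Crest.Agent.R017.LnY47 (hfG hfG_lip GSq uNS uRS tl_abs GX_lip)
open Crest.Agent.R017.XG702 (Good_mono)

/-- the smallest length of the list -/
def mN (q : QK) : ℝ :=
  min (q.1 (.inl (.inr 0))) (min (q.1 (.inl (.inr 1))) (q.1 (.inl (.inr 2))))

/-- the length of the list -/
def pN (q : QK) : ℝ :=
  q.1 (.inl (.inr 0)) + q.1 (.inl (.inr 1)) + q.1 (.inl (.inr 2)) + q.2 .am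

/-- the lengths `uN`, `uR` of a single list -/
def US (q : QK) (uN uR : ℝ) : Prop :=
  (NatL (bp (q8 q).1) (q.1 (.inl (.inr 0))) (q.1 (.inl (.inr 1))) (q.1 (.inl (.inr 2))) ∧
    uN = mN q ∧ uR = 0) ∨
  (RepL (bp (q8 q).1) (q.1 (.inl (.inr 0))) (q.1 (.inl (.inr 1))) (q.1 (.inl (.inr 2))) ∧
    uN = cu (prX (bp (q8 q).1)) 4 - 17 / 100 * cκ (prX (bp (q8 q).1)) ∧ uR = mN q)

/-- **the child from the windows** -/
theorem ch_S {c β d : ℝ} {Par : Set (Fin 3 ⊕ Fin 5 → ℝ)} {q : QK} (hβ : β = 17 / 100)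
    (hPar : ∀ p ∈ Par, ParOK p)
    (hDh : ∀ p ∈ Par, Dh (cκ p) (cu p 2) (cu p 3) (cu p 4) (cx' p) (d * cκ p))
    (hcd : ∀ p ∈ Par, 4 * (c * cκ p) ≤ d * cκ p)
    (hq : q ∈ DomHi (3 / 5) (7 / 8) c β Par (SinL β)) {t K P V uN uR : ℝ} (t0 : 0 ≤ t)
    (t1 : t ≤ cκ (prX (bp (q8 q).1)) / 20000) (hK : |K - q.1 (.inr ())| ≤ t)
    (hP : |P - pN q| ≤ t)
    (hP0 : cκ (prX (bp (q8 q).1)) / 2 - 2 * cx' (prX (bp (q8 q).1)) - t ≤ P)
    (hV : V ≤ tpW c (bp (q8 q).1) (q.1 (.inl (.inr 3))) + t) (hU : US q uN uR) :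
    Ch (cκ (prX (bp (q8 q).1))) (cu (prX (bp (q8 q).1)) 2) (cu (prX (bp (q8 q).1)) 3)
      (cu (prX (bp (q8 q).1)) 4) (cx' (prX (bp (q8 q).1))) (d * cκ (prX (bp (q8 q).1))) t K P
      uN uR V (cN (prX (bp (q8 q).1)) -
        (q.1 (.inl (.inr 0)) + q.1 (.inl (.inr 1)) + q.1 (.inl (.inr 2)))) 0 := by
  obtain ⟨⟨⟨hC, hS, -, -⟩, hk0, hk1⟩, hk2⟩ := hq
  have hpar : prX (bp (q8 q).1) ∈ Par := hC.par
  have hO := hPar _ hpar
  have hD := hDh _ hpar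
  have hc := hcd _ hpar
  have hN : cN (prX (bp (q8 q).1)) = cu (prX (bp (q8 q).1)) 2 + cu (prX (bp (q8 q).1)) 3 +
    cu (prX (bp (q8 q).1)) 4 := rfl
  have hZ := hC.zr 1
  have h0 := hC.v0
  have h1 := hC.v1
  have h2 := hC.v2
  have hx0 := hC.x0
  have hx1 := hC.x1
  have hs2 := hC.s2
  have hm := hS.2
  obtain ⟨k1, k2⟩ := abs_le.1 hK
  have hk1' : q.1 (.inr ()) ≤ 7 / 8 * cκ (prX (bp (q8 q).1)) := hk1
  have hk2' : 3 / 5 * cκ (prX (bp (q8 q).1)) ≤ q.1 (.inr ()) := hk2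
  rw [hβ] at hm
  rcases hU with ⟨⟨n0, n1, n2⟩, rfl, rfl⟩ | ⟨⟨n0, n1, n2⟩, rfl, rfl⟩
  · exact chN hO.κ0 t0 t1 hN hD hc h0 h1 h2 n0 n1 n2 hx0 hx1 hs2 hm (by linarith) (by linarith)
      hV hP hP0
  · exact chR' hO.κ0 t0 t1 hN hD hc hβ hZ.2 h0 h1 h2 n0 n1 n2 hx0 hx1 hs2 hm (by linarith)
      (by linarith) hV hP hP0

lemma US_of {β : ℝ} {q : QK} (h : SinL β (bp (q8 q).1) (q.1 (.inl (.inr 0)))
    (q.1 (.inl (.inr 1))) (q.1 (.inl (.inr 2)))) : US q (uNS q) (uRS q) := by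
  unfold US uNS uRS
  by_cases hn : NatL (bp (q8 q).1) (q.1 (.inl (.inr 0))) (q.1 (.inl (.inr 1)))
      (q.1 (.inl (.inr 2)))
  · exact Or.inl ⟨hn, if_pos hn, if_pos hn⟩
  · exact Or.inr ⟨h.1.resolve_left hn, if_neg hn, if_neg hn⟩

set_option maxHeartbeats 8000000 in
/-- **the `T`-half of the Gram sums, single lists**, families `3/5 κ .. 7/8 κ` -/
theorem tfr_S {Λ : Type*} {π : Λ → DPar} {h : ℝ → ℝ} {c₀ : ℝ} (hpu : PU h c₀)
    (hP : ∀ lam, (π lam).OK)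
    {Rh : ℝ} (hRh0 : 0 ≤ Rh) (hRh : ∀ u, cx h u ≠ 0 → |u| ≤ Rh) {e0 : ℝ}
    (he0 : 0 ≤ e0) (he1 : e0 ≤ 1 / 64) {c β : ℝ} (hc0 : 0 ≤ c) (hc1 : c ≤ 1)
    {Par : Set (Fin 3 ⊕ Fin 5 → ℝ)} (hPar : ∀ p ∈ Par, ParOK p)
    {D5 : Set (Fin 5 → ℝ)} {ℓ Kf Tf : (Fin 5 → ℝ) → ℝ}
    (hDN : ∀ p : IX5 → ℝ, prX p ∈ Par → ZR β p → bN p ∈ D5)
    (hDR : ∀ p : IX5 → ℝ, prX p ∈ Par → ZR β p → bR p ∈ D5)
    (hR5 : ∀ p : IX5 → ℝ, prX p ∈ Par → ZR β p → R5 (bN p))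
    (hKN : ∀ p : IX5 → ℝ, prX p ∈ Par → ZR β p →
      Kf (bN p) = max (cκ (prX p)) (5 / 4 * cN (prX p)))
    (hKR : ∀ p : IX5 → ℝ, prX p ∈ Par → ZR β p →
      Kf (bR p) = max (cκ (prX p)) (5 / 4 * cN (prX p)))
    (hTN : ∀ (p : IX5 → ℝ) (v₀ v₁ v₂ b x' : ℝ), ChC c β Par p v₀ v₁ v₂ b x' →
      SinL β p v₀ v₁ v₂ → tpW c p b ≤ Tf (bN p))
    (hTR : ∀ (p : IX5 → ℝ) (v₀ v₁ v₂ b x' : ℝ), ChC c β Par p v₀ v₁ v₂ b x' →
      SinL β p v₀ v₁ v₂ → tpW c p b ≤ Tf (bR p))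
    (hcb : CBA π h Dk Kf Tf D5 ℓ) {ok : Λ × Eis → BcX → List Pq → Prop}
    (hok : ∀ lam a qs, ok lam a qs → okCX (π lam.1) lam.2 a qs) (hβ : β = 17 / 100) {d : ℝ}
    (hDh : ∀ p ∈ Par, Dh (cκ p) (cu p 2) (cu p 3) (cu p 4) (cx' p) (d * cκ p))
    (hcd : ∀ p ∈ Par, 4 * (c * cκ p) ≤ d * cκ p) {F : QK → ℝ}
    (hF : ∀ q ∈ DomHi (3 / 5) (7 / 8) c β Par (SinL β), lmX ℓ Kf Tf (bp (q8 q).1) ≤ F q ∧
      F q ≤ 5 / 9 * (d * cκ (prX (bp (q8 q).1)))) :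
    TFr (alS π h) ok e0 c (DomHi (3 / 5) (7 / 8) c β Par (SinL β)) 4
      (hfG d uNS uRS F fun _ => 0) (GSq d) := by
  intro ε hε
  obtain ⟨t₀, ht₀, ht1, ht2⟩ : ∃ t₀ : ℝ, 0 < t₀ ∧ t₀ ≤ 1 / 1000000 ∧ 100 * t₀ ≤ ε :=
    ⟨min (1 / 1000000) (ε / 100), lt_min (by norm_num) (by positivity), min_le_left _ _, by
      have := min_le_right (1 / 1000000 : ℝ) (ε / 100)
      linarith⟩
  obtain ⟨δ₁, hδ₁, F₀⟩ := frS hpu hP hRh0 hRh he0 (by linarith) hc0 hc1 hPar hDN hDR hR5 hKN hKR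
    hTN hTR hcb (ε := ε) (t₀ := t₀) hε ht₀
  refine ⟨min δ₁ t₀, lt_min hδ₁ ht₀, fun lam N B => ?_⟩
  obtain ⟨B₁, J₁, R', -, -, hR', δa, hδa, X₁, hX₁, F₁⟩ := F₀ lam N B 1 le_rfl
  refine ⟨R', hR', fun cw hcw => ?_⟩
  obtain ⟨B₂, J, R₂, hB₂, hJ, -, δb, hδb, X₂, hX₂, F₂⟩ := F₀ lam N B cw hcw
  refine ⟨B₂, J, hJ, min δa δb, lt_min hδa hδb,
    max (max X₁ X₂) (Real.exp ((Real.log cw + 4) / t₀)),
    lt_max_of_lt_left (lt_max_of_lt_left hX₁), ?_⟩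
  intro X hX a qs q W
  have x1 : X₁ ≤ X := ((le_max_left _ _).trans (le_max_left _ _)).trans hX
  have x2 : X₂ ≤ X := ((le_max_right _ _).trans (le_max_left _ _)).trans hX
  have hX1 : 1 < X := hX₁.trans_le x1
  have hX0 : 0 < X := by linarith
  have hL0 : 0 < Real.log X := Real.log_pos hX1
  have hcw0 : 0 < cw := by linarith
  have hlcw : 0 ≤ Real.log cw := Real.log_nonneg hcw
  have x3 : Real.log cw + 4 ≤ t₀ * Real.log X := by
    have h2 : (Real.log cw + 4) / t₀ ≤ Real.log X := by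
      have := Real.log_le_log (Real.exp_pos _) ((le_max_right _ _).trans hX)
      rwa [Real.log_exp] at this
    rw [div_le_iff₀ ht₀] at h2
    linarith
  have hq := W.dom
  have hq8 : q8 q ∈ Dom8X c β Par (SinL β) := hq.1.1
  have hw := win_inl W.win
  have D₁ := F₁ X x1 a.1 qs W.len
    (fun p hp => (W.gl p hp).imp id fun h => h.trans (min_le_left _ _)) (q8 q) hq8
    (hw.mono hX1.le (min_le_left _ _) le_rfl le_rfl (min_le_left _ _))
    (fun t => (W.ms t).trans (min_le_left _ _)) (Good_mono hX1.le W.gd (min_le_left _ _)) W.nlp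
    (hok _ _ _ W.hok)
  have D := F₂ X x2 a.1 qs W.len
    (fun p hp => (W.gl p hp).imp id fun h => h.trans (min_le_left _ _)) (q8 q) hq8
    (hw.mono hX1.le (min_le_left _ _) le_rfl le_rfl (min_le_right _ _))
    (fun t => (W.ms t).trans (min_le_left _ _)) (Good_mono hX1.le W.gd (min_le_right _ _)) W.nlp
    (hok _ _ _ W.hok)
  have hz0 : 0 ≤ a.1.1.z := (hok _ _ _ W.hok).1.base.2.1
  have hpar : prX (bp (q8 q).1) ∈ Par := hq8.1.par
  have hO := hPar _ hpar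
  have hD := hDh _ hpar
  have hκ0 := hO.κ0
  have hκ1 := hO.κ1
  have hN1 := hO.N1
  have hx0 := hO.x0
  have hx1 := hO.x1
  obtain ⟨hF1, hF2⟩ := hF q hq
  obtain ⟨k1, k2⟩ := abs_le.1 D.kl
  obtain ⟨z1, z2⟩ := abs_le.1 D.zl
  obtain ⟨A1, A2⟩ := abs_le.1 D.Al
  have n1 := D.n1
  have ht0L : t₀ * Real.log X ≤ 1 / 1000000 * Real.log X :=
    mul_le_mul_of_nonneg_right ht1 hL0.le
  have hfam : |kB a - q.1 (.inr ()) * Real.log X| ≤ t₀ * Real.log X := by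
    have h0 : |((a.2.2.1 : ℝ) + 1) * Real.log 2 / Real.log X - q.1 (.inr ())| ≤ min δ₁ t₀ :=
      W.win.ev (.inr ())
    have h1 := mul_le_mul_of_nonneg_right (h0.trans (min_le_right _ _)) hL0.le
    rw [← abs_of_pos hL0, ← abs_mul, abs_of_pos hL0, sub_mul, div_mul_cancel₀ _ hL0.ne'] at h1
    exact h1
  obtain ⟨f1, f2⟩ := abs_le.1 hfam
  have hk2 : q.1 (.inr ()) ≤ 7 / 8 * cκ (prX (bp (q8 q).1)) := hq.1.2.2
  have dv : ∀ {x y : ℝ}, |x - y * Real.log X| ≤ t₀ * Real.log X → |x / Real.log X - y| ≤ t₀ := by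
    intro x y hxy
    have e : x / Real.log X - y = (x - y * Real.log X) / Real.log X := by field_simp
    rw [e, abs_div, abs_of_pos hL0, div_le_iff₀ hL0]
    exact hxy
  have hK' := dv hfam
  have hP' : |LN (clN a.1 qs) / Real.log X - pN q| ≤ t₀ := dv D.nl
  have hP0 : cκ (prX (bp (q8 q).1)) / 2 - 2 * cx' (prX (bp (q8 q).1)) - 2 * t₀ ≤
      LN (clN a.1 qs) / Real.log X := by
    rw [le_div_iff₀ hL0]
    have := D.n0
    have h2 : 0 ≤ t₀ * Real.log X := by positivity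
    linarith
  have hyl := D.yl
  have hlt : a.2.1 + 1 ≤ nw c a.1 := W.lvl
  have hlog2 : 0 < Real.log 2 := Real.log_pos (by norm_num)
  have hV : ∀ i ∈ LI (2 ^ a.2.1 / 4) (2 ^ (a.2.1 + 1)), (i : ℝ) / Real.log X ≤
      tpW c (bp (q8 q).1) (q.1 (.inl (.inr 3))) + 2 * t₀ := by
    intro i hi
    rw [div_le_iff₀ hL0]
    obtain ⟨i1, i2⟩ := abs_le.1 (LI_win hi)
    have h1 : Real.log 2 * (a.2.1 : ℝ) ≤ Real.log (2 ^ nw c a.1) := by
      rw [Real.log_pow, mul_comm]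
      refine mul_le_mul_of_nonneg_right ?_ hlog2.le
      exact_mod_cast (by omega : a.2.1 ≤ nw c a.1)
    have h2 : Real.log (2 ^ nw c a.1) ≤ tpW c (bp (q8 q).1) (q.1 (.inl (.inr 3))) *
        Real.log X + t₀ * Real.log X := hyl
    linarith
  have hU : US q (uNS q) (uRS q) := US_of hq8.2.1
  have hCh : ∀ i ∈ LI (2 ^ a.2.1 / 4) (2 ^ (a.2.1 + 1)),
      Ch (cκ (prX (bp (q8 q).1))) (cu (prX (bp (q8 q).1)) 2) (cu (prX (bp (q8 q).1)) 3)
        (cu (prX (bp (q8 q).1)) 4) (cx' (prX (bp (q8 q).1))) (d * cκ (prX (bp (q8 q).1)))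
        (2 * t₀) (kB a / Real.log X) (LN (clN a.1 qs) / Real.log X) (uNS q) (uRS q)
        ((i : ℝ) / Real.log X) (cN (prX (bp (q8 q).1)) -
        (q.1 (.inl (.inr 0)) + q.1 (.inl (.inr 1)) + q.1 (.inl (.inr 2)))) 0 := by
    intro i hi
    exact ch_S hβ hPar hDh hcd hq (by positivity) (by linarith) (hK'.trans (by linarith))
      (hP'.trans (by linarith)) hP0 (hV i hi) hU
  have hGX : GX (cu (prX (bp (q8 q).1)) 2 + cu (prX (bp (q8 q).1)) 3 + cu (prX (bp (q8 q).1)) 4)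
      (cκ (prX (bp (q8 q).1))) (kB a / Real.log X) (LN (clN a.1 qs) / Real.log X) (uNS q) (uRS q)
      (cx' (prX (bp (q8 q).1))) (d * cκ (prX (bp (q8 q).1))) + 14 * (2 * t₀) ≤ GSq d q + ε := by
    have h1 : GX (cu (prX (bp (q8 q).1)) 2 + cu (prX (bp (q8 q).1)) 3 +
        cu (prX (bp (q8 q).1)) 4) (cκ (prX (bp (q8 q).1))) (kB a / Real.log X)
        (LN (clN a.1 qs) / Real.log X) (uNS q) (uRS q) (cx' (prX (bp (q8 q).1)))
        (d * cκ (prX (bp (q8 q).1))) ≤ GSq d q + 6 * t₀ := GX_lip hK' hP'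
    linarith
  have hE : e0 * a.1.1.l ≤ (cκ (prX (bp (q8 q).1)) / 64 + 2 * t₀) * Real.log X := by
    have hl0 : 0 ≤ a.1.1.l := by
      have : 8 / 9 * Real.log X ≤ cκ (prX (bp (q8 q).1)) * Real.log X :=
        mul_le_mul_of_nonneg_right hκ0 hL0.le
      linarith
    have h1 : e0 * a.1.1.l ≤ 1 / 64 * a.1.1.l := mul_le_mul_of_nonneg_right he1 hl0
    have h2 : 0 ≤ t₀ * Real.log X := by positivity
    linarith
  have hlm : lmX ℓ Kf Tf (bp (q8 q).1) * Real.log X ≤ (F q + 2 * t₀) * Real.log X :=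
    mul_le_mul_of_nonneg_right (by linarith) hL0.le
  have hk5 : k5X a.1 ≤ (max (cκ (prX (bp (q8 q).1))) (5 / 4 * (cu (prX (bp (q8 q).1)) 2 +
      cu (prX (bp (q8 q).1)) 3 + cu (prX (bp (q8 q).1)) 4)) + 2 * t₀) * Real.log X := by
    have hN : cN (prX (bp (q8 q).1)) = cu (prX (bp (q8 q).1)) 2 + cu (prX (bp (q8 q).1)) 3 +
      cu (prX (bp (q8 q).1)) 4 := rfl
    rw [← hN, add_mul, max_mul_of_nonneg _ _ hL0.le]
    have h2 : 0 ≤ t₀ * Real.log X := by positivity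
    have m1 := le_max_left (cκ (prX (bp (q8 q).1)) * Real.log X)
      (5 / 4 * cN (prX (bp (q8 q).1)) * Real.log X)
    have m2 := le_max_right (cκ (prX (bp (q8 q).1)) * Real.log X)
      (5 / 4 * cN (prX (bp (q8 q).1)) * Real.log X)
    unfold P10X764.k5X
    refine max_le ?_ ?_
    · linarith
    · linarith
  have TL := fun (i : ℕ) (hi : i ∈ LI (2 ^ a.2.1 / 4) (2 ^ (a.2.1 + 1))) (g : ℝ) (hg : 0 ≤ g) =>
    tl_abs (K := kB a) (V := (i : ℝ)) (P := LN (clN a.1 qs)) (S₀ := 0) (um' := (a.1.2.1 2).z)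
      (F := F q) (z := a.1.1.z) (h := hfG d uNS uRS F (fun _ => 0) lam X a qs q i g) hL0 hD
      (by rw [zero_div]; exact hCh i hi) hF2 hg hlm hk5 hz0
      (by
        have h2 : 0 ≤ t₀ * Real.log X := by positivity
        linarith)
      (show Real.log cw ≤ 2 * t₀ * Real.log X by
        have h2 : 0 ≤ t₀ * Real.log X := by positivity
        linarith) hE hGX rfl
  have hκL : 8 / 9 * Real.log X ≤ cκ (prX (bp (q8 q).1)) * Real.log X :=
    mul_le_mul_of_nonneg_right hκ0 hL0.le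
  have hκL1 : cκ (prX (bp (q8 q).1)) * Real.log X ≤ 1 * Real.log X :=
    mul_le_mul_of_nonneg_right hκ1 hL0.le
  have hNL1 : cN (prX (bp (q8 q).1)) * Real.log X ≤ 1 * Real.log X :=
    mul_le_mul_of_nonneg_right hN1 hL0.le
  have hxL1 : cx' (prX (bp (q8 q).1)) * Real.log X ≤ 1 / 3 * Real.log X :=
    mul_le_mul_of_nonneg_right hx1 hL0.le
  have hqL : q.1 (.inr ()) * Real.log X ≤ 7 / 8 * cκ (prX (bp (q8 q).1)) * Real.log X :=
    mul_le_mul_of_nonneg_right hk2 hL0.le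
  have h2pos : (0 : ℝ) < 2 ^ nw c a.1 := by positivity
  exact ⟨YcX Rh a.1 qs, ShSl (lmX ℓ Kf Tf (bp (q8 q).1) * Real.log X) a.1 qs,
    { Y1 := D.Y1
      YX := D.YX
      l0 := by linarith
      l2 := by linarith
      n0 := D.np
      n2 := by linarith
      k2 := by linarith
      yX := (le_mul_of_one_le_left h2pos.le hcw).trans D.yX
      adm := D₁.adm
      jb := D.jb
      lip := fun i x y => hfG_lip hX1 lam a qs q i x y
      sz := fun i hi g hg => (TL i hi g hg).1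
      ln := fun i hi g hg _ => (TL i hi g hg).2.1
      le := fun i hi g hg _ => (TL i hi g hg).2.2.1 }⟩

end Crest.Agent.R017.TFs65
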