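import Crest.Agent.R017.GkAll_381
import Crest.Agent.R017.Cba59_744
import Crest.Agent.R017.TFs_65
import Crest.Agent.R017.GkFS_629
import Crest.Agent.R017.Fin18_986

/-!
# Row 17, T.4 (helper986): the kernel bound of the single lists at the top data

* `gsq_le` : the room of the high families
* **`gkS_E`** : `GkS d h`
-/

set_option autoImplicit false

noncomputable section

open Complex Filter Topology

namespace Crest.Agent.R017.GkSE986

open Crest.Agent.R012 Crest.Agent.R012.Eis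
open Crest.Agent.R017.FE47 Crest.Agent.R017.End699
open Crest.Agent.R017.B770 Crest.Agent.R017.BxH986
open Crest.Agent.R017.Prov71 Crest.Agent.R017.ER911
open Crest.Agent.R017.E5B71 Crest.Agent.R017.ExP960 Crest.Agent.R017.ExBox960
open Crest.Agent.R017.E5L770
open Crest.Agent.R017.SC777
open Crest.Agent.R017.Fin4 Crest.Agent.R017.Fin5 Crest.Agent.R017.Fin6
open Crest.Agent.R017.P1l54 Crest.Agent.R017.P1t54
open Crest.Agent.R017.P1X960
open Crest.Agent.R017.P10X764
open Crest.Agent.R017.E5LX770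
open Crest.Agent.R017.Red848 (red)
open Crest.Agent.R017.PX764 (Dk)
open Crest.Agent.R017.XS0298 (S0x S0K)
open Crest.Agent.R017.Sg986 (AA AA_lt AA_eq AA_ge)
open Crest.Agent.R017.NrX986 (NearAllX)
open Crest.Agent.R017.ETd548 (RoomX)
open Crest.Agent.R017.ETk548 (CsGUc GkGUc DomKc)
open Crest.Agent.R017.UbOr381 (DomHi)
open Crest.Agent.R017.LnY47 (GSq uNS uRS)
open Crest.Agent.R017.ETy71 (CEX CES bq pQ mV vN vR)
open Crest.Agent.R017.P1L904 (RSm)

/-- **the room of the high families, single lists** -/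
theorem gsq_le {d : ℝ} {q : (I8X ⊕ Unit → ℝ) × (Kd → ℝ)}
    (h : 3 / 5 * cκ (prX (bq q)) < q.1 (.inr ())) :
    GSq d q ≤ RoomX (LS0 d) q - CES d q := by
  rw [GkR381.room_eq]
  unfold LnY47.GSq LnY47.uNS LnY47.uRS ETy71.CES P1L7904.GX ET371.RS0k
  rw [if_neg (not_le.2 h)]
  split_ifs
  · have := le_max_left (RSm (cκ (prX (bq q))) (q.1 (.inr ())) (pQ q) (mV (vN q))
      (cx' (prX (bq q)))) (P1L904.RS0 (q.1 (.inr ())) (pQ q) 0 (cx' (prX (bq q))))
    linarith
  · have := le_max_right (RSm (cκ (prX (bq q))) (q.1 (.inr ())) (pQ q)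
      (cu (prX (bq q)) 4 - 17 / 100 * cκ (prX (bq q)))
      (cx' (prX (bq q)))) (P1L904.RS0 (q.1 (.inr ())) (pQ q) (mV (vN q)) (cx' (prX (bq q))))
    unfold P1L904.RS0 at this ⊢
    linarith

/-- **the kernel bound of the single lists, class E** -/
theorem gkS_E {d : ℝ} (hd : 0 < d) (hd1 : d ≤ 1 / 42) {h : ℝ → ℝ} {c₀ : ℝ} (hpu : PU h c₀)
    (hPF : PF Set.univ (7 / 8 + d)) (P : BunE d h) (G : RecE d h)
    (near : NearAllX d (ex Dq (fun lam => S0x (red (πE lam)) h))) : Fin18.GkS d h := by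
  obtain ⟨Rh, hR0, hRh⟩ := Sg986.exists_Rh hpu
  have hA := AA_ge hd1
  have hA0 := (AA_lt hd).le
  have hA1 := AA_eq d
  have hP : ∀ lam, (πE lam).OK := fun lam => lam.2.1
  have hE : ∀ lam, Red848.Exc (πE lam) := fun lam => XT6241.exc_piE lam
  have hAll := TK708.allT_of P.rules G.toExpS0 hd.le (by linarith : d ≤ 1 / 8)
  have hFE := Cba59744.fe2G_59 P.rules G hd.le (by linarith) near
  have H := Cba59744.frHS_59 hpu hP hE hd.le hd1 (by linarith) hA1 hAll hFE hR0 hRh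
  have hDh := fun p (hp : p ∈ ParS (AA d) d) =>
    E3Nx744.dh_sq5 (A := AA d) hd.le (by linarith) hA0 hA1 hp
  have hlm := fun (p : IX5 → ℝ) (hp : prX p ∈ ParS (AA d) d) =>
    Cba59744.lm_59 hd.le (by linarith : d ≤ 1 / 8) hA1 hp
  have hLo := Cba59744.low_S hpu hP hE hd.le hd1 (by linarith) hA0 hA1 hAll hFE hR0 hRh
  have hT := TFs65.tfr_S (c := d / 4) (d := d) hpu H.hP hR0 hRh (by norm_num) le_rfl
    (by linarith) (by linarith) H.hPar H.hDN H.hDR H.hR5 H.hKN H.hKR H.hTN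
    H.hTR H.hcb (ok := okS fun lam => red (πE lam)) (fun _ _ _ h => h) rfl hDh
    (fun p _ => by linarith)
    (F := fun q => FrX579.lmX (fun b => 5 / 9 * d * b 0) TM708.K5 LfX986.T9 (ETy71.bq q))
    (fun q hq => ⟨le_rfl, hlm _ hq.1.1.1.par⟩)
  have hln := GkFS629.rlnf_S (c := d / 4) (dd := d) (π := fun lam => red (πE lam))
    (by norm_num : (0 : ℝ) ≤ 1 / 64) le_rfl (by linarith) (by linarith) H.hPar hDh
    (fun p _ => by linarith)
    (F := fun q => FrX579.lmX (fun b => 5 / 9 * d * b 0) TM708.K5 LfX986.T9 (ETy71.bq q))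
    (fun q hq => hlm _ hq.1.1.1.par)
  have hR := GkE521.rfr_S (k₁ := 7 / 8) hpu H.hP
    (fun lam k hk => Red848.NPm_red_iff (hP lam).ψ.q0 hk) P.rules hPF hd.le (by linarith)
    (by norm_num) (by norm_num) H.hPar hDh (fun q hq => hq.1) hln
  exact UbOr381.gk_or hLo (ETn548.gkG_of (by norm_num) (by norm_num) (by norm_num)
    (fun lam a qs ho => mul_ne_zero ho.2.1.1 ho.2.1.1)
    (fun lam a qs _ n hn => CopU631.cop_u hn) hT hR)
    (fun q hq => (GkR381.roomS_lo hq.2.2).ge) (fun q _ hk => gsq_le hk)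

end Crest.Agent.R017.GkSE986
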