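import Crest.Agent.R017.GkXE_986
import Crest.Agent.R017.GkSE_986
import Crest.Agent.R017.T2_45

/-!
# Row 17: the top (helper986)

* `openZ` : no open leaf is left
* **`s22`**, **`s23`**
-/

set_option autoImplicit false

noncomputable section

open Complex Filter Topology

namespace Crest.Agent.R017.FinZ986

open Crest.Agent.R012 Crest.Agent.R012.Eis
open Crest.Agent.R017.FE47 Crest.Agent.R017.End699
open Crest.Agent.R017.B770 Crest.Agent.R017.BxH986
open Crest.Agent.R017.Prov71 Crest.Agent.R017.ER911
open Crest.Agent.R017.Fin4 Crest.Agent.R017.Fin5 Crest.Agent.R017.Fin6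

/-- **no open leaf is left** -/
theorem openZ : Fin18.Open := fun _ _ hpu _ hd hd1 hPF P G near =>
  ⟨GkXE986.gkX_E hd hd1 hpu hPF P G near, GkSE986.gkS_E hd hd1 hpu hPF P G near⟩

/-- **S0022** -/
theorem s22 : S22 := Fin18.s22_of_open18 T2x45.trees openZ

/-- **S0023** -/
theorem s23 : S23 := Fin18.s23_of_open18 T2x45.trees openZ

end Crest.Agent.R017.FinZ986
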