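import Crest.Agent.R017.E3Uy_744
import Crest.Agent.R017.E3Fw_579

/-!
# Row 17, class E (helper385): the frames at the sharp loss `2 d (N/3 + x)`

* `l5`, `fe2G_L` : the flat claims with the sharp loss
* `cba_L` : the T-claims;  `lmX_L` : the loss is at most `5/9 d κ`
* **`frH_L`**, **`frHS_L`** : the frames of the differences and of the single lists
-/

set_option autoImplicit false
set_option linter.unusedVariables false

noncomputable section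

open Set

namespace Crest.Agent.R017.FrL385

open Crest.Agent.R012 Crest.Agent.R012.Eis
open Crest.Agent.R017.FE47 (PU cx)
open Crest.Agent.R017.Prov71 Crest.Agent.R017.ER911 Crest.Agent.R017.SC777
open Crest.Agent.R017.B770 Crest.Agent.R017.E5B71 Crest.Agent.R017.E5L770
open Crest.Agent.R017.ExP960 (IX5 prX ZR)
open Crest.Agent.R017.P1t54 (ParS LS0 parOK_Sq5)
open Crest.Agent.R017.P1X960
open Crest.Agent.R017.P10X764
open Crest.Agent.R017.TM708 (T5 K5 R5)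
open Crest.Agent.R017.TK708 (FE2G AllT)
open Crest.Agent.R017.D5X939 (D5X D5X_compact)
open Crest.Agent.R017.NrX986 (NearAllX bN_mem bR_mem Tf1 rf_D D5X_near)
open Crest.Agent.R017.Red848 (red Exc red_ok)
open Crest.Agent.R017.PX764 (Dk)
open Crest.Agent.R017.XS0298 (S0K)
open Crest.Agent.R017.LfP986 (npm_one sum_bR r5_bN btl_of bts_of')
open Crest.Agent.R017.LfX986 (T9 T9_cont T9_le K5_cont K5_bN K5_bR T9_bN T9_bR thK_bN thK_bR)
open Crest.Agent.R017.E3Nx744 (CBA thK cba_K)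
open Crest.Agent.R017.NEx911 (fe2G_of_nex)

/-- **the sharp loss** -/
def l5 (d : ℝ) (b : Fin 5 → ℝ) : ℝ := 2 * d * ((b 1 + b 2 + b 3) / 3 + b 4)

lemma l5_bR (d : ℝ) (p : IX5 → ℝ) : l5 d (bR p) = l5 d (bN p) := by
  unfold l5
  rw [sum_bR]
  rfl

/-- **the flat claims with the sharp loss** -/
theorem fe2G_L {d : ℝ} {r s s₀ : EF} (R : ExpRules (7 / 8 + d) r s)
    (Rm : ExpRGFz (7 / 8 + d) r s s₀) (hd : 0 ≤ d) (hd8 : 8 * d ≤ 1) (hG : NearAllX d s₀) :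
    FE2G s₀ D5X K5 T5 (l5 d) :=
  fe2G_of_nex R Rm hd hd8 (fun _ hb => rf_D hb) (fun _ hb hn => D5X_near hb hn)
    (fun _ _ => le_rfl) hG

variable {Λ : Type*} {π : Λ → DPar} {h : ℝ → ℝ} {c₀ : ℝ} {A d : ℝ}

/-- **the T-claims at `(K5, T9)`, sharp loss** -/
theorem cba_L (hpu : PU h c₀) (hP : ∀ lam, (π lam).OK) (hE : ∀ lam, Exc (π lam)) (hd : 0 ≤ d)
    (hAll : AllT d (ex Dq fun lam => S0K Dk (red (π lam)) h))
    (hFE : FE2G (ex Dq fun lam => S0K Dk (red (π lam)) h) D5X K5 T5 (l5 d)) :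
    CBA (fun lam => red (π lam)) h Dk K5 T9 D5X (l5 d) :=
  cba_K (π := fun lam => red (π lam)) hpu (fun lam => red_ok (hP lam) (hE lam)) hAll K5_cont
    T9_cont D5X_compact (fun b hb => hb.1.x0) (ℓ := l5 d) (by unfold l5; fun_prop)
    (fun b hb => by
      have h1 := hb.1.y1
      have h2 := hb.1.y2
      have h3 := hb.1.y3
      have h4 := hb.1.x0
      unfold l5
      positivity)
    fun b hb v z₁ z₂ z₃ w h0 h1 h2 h3 h4 h5 h6 h7 h8 h9 =>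
      hFE b hb v z₁ z₂ z₃ w h0 h1 h2 h3 h4 h5 h6 h7 h8 (by linarith [T9_le hb.1.x0])

/-- the sharp loss at a parent of the square -/
lemma l5_par (hd : 0 ≤ d) (hd1 : d ≤ 1 / 8) (hA1 : 16 * (1 - A) ≤ d) {p : IX5 → ℝ}
    (hp : prX p ∈ ParS A d) : 0 ≤ l5 d (bN p) ∧ l5 d (bN p) ≤ 5 / 9 * (d * cκ (prX p)) := by
  obtain ⟨k0, k1, u4, u34, u23, y27, n0, n1, x0, hx⟩ := P10146.sq_facts hd hd1 hA1 hp
  have e : l5 d (bN p) = 2 * d * (cN (prX p) / 3 + cx' (prX p)) := rfl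
  rw [e]
  have h0 : 0 ≤ cN (prX p) / 3 + cx' (prX p) := by linarith
  have h1 : cN (prX p) / 3 + cx' (prX p) ≤ 5 / 18 * cκ (prX p) := by
    rcases hx with h | ⟨h1, h2, h3⟩ <;> linarith
  refine ⟨by positivity, ?_⟩
  have h2 := mul_le_mul_of_nonneg_left h1 hd
  linarith

/-- **the loss in the frame is at most `5/9 d κ`** -/
lemma lmX_L (hd : 0 ≤ d) (hd1 : d ≤ 1 / 8) (hA1 : 16 * (1 - A) ≤ d) {p : IX5 → ℝ}
    (hp : prX p ∈ ParS A d) : FrX579.lmX (l5 d) K5 T9 p ≤ 5 / 9 * (d * cκ (prX p)) := by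
  obtain ⟨h0, h1⟩ := l5_par hd hd1 hA1 hp
  unfold FrX579.lmX
  rw [thK_bR, thK_bN hd hd1 hA1 hp, l5_bR, max_self, zero_add, max_eq_right h0]
  exact h1

/-- the field `hL0` -/
lemma hL0_L (hd : 0 ≤ d) (hd1 : d ≤ 1 / 8) (hA1 : 16 * (1 - A) ≤ d) {p : IX5 → ℝ}
    (hp : prX p ∈ ParS A d) :
    max 0 (5 / 4 * cN (prX p) - cκ (prX p)) + FrX579.lmX (l5 d) K5 T9 p ≤ LS0 d (prX p) := by
  have h1 := lmX_L hd hd1 hA1 hp
  have h2 := mul_nonneg hd (LfP986.κ_nonneg hp)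
  unfold P1t54.LS0
  linarith

/-- **the frame of the differences, sharp loss** -/
theorem frH_L (hpu : PU h c₀) (hP : ∀ lam, (π lam).OK) (hE : ∀ lam, Exc (π lam))
    (hd : 0 ≤ d) (hd1 : d ≤ 1 / 42) (hA : 9 / 10 ≤ A) (hA0 : A ≤ 1) (hA1 : 16 * (1 - A) ≤ d)
    (hAll : AllT d (ex Dq fun lam => S0K Dk (red (π lam)) h))
    (hFE : FE2G (ex Dq fun lam => S0K Dk (red (π lam)) h) D5X K5 T5 (l5 d))
    {Rh : ℝ} (hRh0 : 0 ≤ Rh) (hRh : ∀ u, cx h u ≠ 0 → |u| ≤ Rh) :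
    E3Fw579.FrH (fun lam => red (π lam)) h c₀ Rh (1 / 64) (d / 4) (17 / 100) (ParS A d) D5X
      (l5 d) K5 T9 Tf1 (LS0 d) where
  hpu := hpu
  hP := fun lam => red_ok (hP lam) (hE lam)
  hex := fun lam => npm_one (π lam)
  hRh0 := hRh0
  hRh := hRh
  he0 := by norm_num
  he0' := le_rfl
  hc0 := by linarith
  hc1 := by linarith
  hPar := fun p hp => parOK_Sq5 hA hp
  hDN := fun p hp _ => bN_mem hd (by linarith) hA1 hp
  hDR := fun p hp hz => bR_mem hd (by linarith) hA1 hp hz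
  hR5 := fun p hp _ => r5_bN hd hd1 hA1 hp
  hKN := fun p _ _ => K5_bN p
  hKR := fun p _ _ => (K5_bR p).trans (K5_bN p)
  hTN := fun p _ _ _ _ _ _ _ => (min_le_left _ _).trans (T9_bN p).ge
  hTR := fun p _ _ _ _ _ _ _ => (min_le_left _ _).trans ((T9_bR p).trans (T9_bN p)).ge
  hcb := cba_L hpu hP hE hd hAll hFE
  hL0 := fun p hp _ => hL0_L hd (by linarith) hA1 hp
  hbt := btl_of hd hd1 hA hA0 hA1

/-- **the frame of the single lists, sharp loss** -/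
theorem frHS_L (hpu : PU h c₀) (hP : ∀ lam, (π lam).OK) (hE : ∀ lam, Exc (π lam))
    (hd : 0 ≤ d) (hd1 : d ≤ 1 / 42) (hA : 9 / 10 ≤ A) (hA1 : 16 * (1 - A) ≤ d)
    (hAll : AllT d (ex Dq fun lam => S0K Dk (red (π lam)) h))
    (hFE : FE2G (ex Dq fun lam => S0K Dk (red (π lam)) h) D5X K5 T5 (l5 d))
    {Rh : ℝ} (hRh0 : 0 ≤ Rh) (hRh : ∀ u, cx h u ≠ 0 → |u| ≤ Rh) :
    E3Sw829.FrHS (fun lam => red (π lam)) h c₀ Rh (1 / 64) (d / 4) (17 / 100) (ParS A d) D5X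
      (l5 d) K5 T9 Tf1 (LS0 d) where
  hpu := hpu
  hP := fun lam => red_ok (hP lam) (hE lam)
  hRh0 := hRh0
  hRh := hRh
  he0 := by norm_num
  he0' := le_rfl
  hc0 := by linarith
  hc1 := by linarith
  hPar := fun p hp => parOK_Sq5 hA hp
  hDN := fun p hp _ => bN_mem hd (by linarith) hA1 hp
  hDR := fun p hp hz => bR_mem hd (by linarith) hA1 hp hz
  hR5 := fun p hp _ => r5_bN hd hd1 hA1 hp
  hKN := fun p _ _ => K5_bN p
  hKR := fun p _ _ => (K5_bR p).trans (K5_bN p)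
  hTN := fun p _ _ _ _ _ _ _ => (min_le_left _ _).trans (T9_bN p).ge
  hTR := fun p _ _ _ _ _ _ _ => (min_le_left _ _).trans ((T9_bR p).trans (T9_bN p)).ge
  hcb := cba_L hpu hP hE hd hAll hFE
  hL0 := fun p hp _ => hL0_L hd (by linarith) hA1 hp
  hbt := bts_of' hd hd1 hA hA1

end Crest.Agent.R017.FrL385
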