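import Crest.Agent.R017.PX6e_241

/-!
# Row 17, exceptional class, rule (P'_ex), fully iterated (helper241)

* `recurT` : the recursion over the common divisors with a twist
* `iterExG` : (P'_ex), fully iterated
-/

set_option autoImplicit false

noncomputable section

namespace Crest.Agent.R017.PX6

open Crest.Agent.R012 MeasureTheory
open Eis CharSum852 Gauss880 Tau671 Mob705 LS2 CR2 MelSep811 DualIneq811
open Crest.Agent.R017.PA842 Crest.Agent.R017.PM106 Crest.Agent.R017.PX764 Crest.Agent.R017.PX5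
open Div277 (tau)
open PI106 (pairs_le tau_dvd_le sub_one_eq S_mono exp_bound tau_pow_le sum_sub_sq_le
  sub_eq_zero_of_not_mem)
open scoped ComplexConjugate

lemma sub_ne {w : Eis → ℂ} {g : Eis} (h : sub w g ≠ 0) : ∃ k, w (g * k) ≠ 0 := by
  by_contra hc
  push Not at hc
  apply h
  funext k
  exact hc k

lemma copG_sub {w : Eis → ℂ} {X : ℝ} (hX : 0 ≤ X) (hw : Supp w X) {g g' : Eis}
    (hg' : IsPrim g') (hcop : CopG g w) : CopG (g * g') (sub w g') := by
  intro k hk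
  have h1 : w (g' * k) ≠ 0 := hk
  have h2 := (mem_S hX).1 (hw _ h1)
  have h3 : IsCoprime g' k := cop_of_sqf hg' h2.2.2
  exact (hcop _ h1).of_mul_right_right.mul_left h3

lemma sqf_twist {w : Eis → ℂ} {g g' : Eis} (hgs : Squarefree g) (hgs' : Squarefree g')
    (hcop : CopG g w) (h : sub w g' ≠ 0) : Squarefree (g * g') := by
  obtain ⟨k, hk⟩ := sub_ne h
  exact (sqf_mul (hcop _ hk).of_mul_right_left).2 ⟨hgs, hgs'⟩

open Classical in
/-- **the recursion over the common divisors, with a twist** -/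
theorem recurT {Y X₀ : ℝ} (hY : 1 ≤ Y) (F B : Eis → ℝ → (Eis → ℂ) → ℝ)
    (hB : ∀ g X w, 0 ≤ B g X w) (hB0 : ∀ g X, B g X 0 = 0) (hF0 : ∀ g X, F g X 0 = 0)
    (hstep : ∀ g X w, IsPrim g → Squarefree g → 1 ≤ X → X ≤ X₀ → Supp w X → CopG g w →
      F g X w ≤ B g X w + ∑ g' ∈ (S X).filter (fun g' => Y < (nm g' : ℝ)),
        (tau g' : ℝ) * F (g * g') (X / nm g') (sub w g'))
    (n : ℕ) : ∀ g X w, IsPrim g → Squarefree g → 1 ≤ X → X ≤ X₀ → X ≤ Y ^ (n + 1) →
      Supp w X → CopG g w →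
      F g X w ≤ ∑ h ∈ S X, (tau h : ℝ) ^ (2 * n) * B (g * h) (X / nm h) (sub w h) := by
  induction n with
  | zero =>
    intro g X w hg hgs hX hX0 hXY hw hcop
    have hXn : 0 ≤ X := by linarith
    have h1 := hstep g X w hg hgs hX hX0 hw hcop
    have h2 : (S X).filter (fun g => Y < (nm g : ℝ)) = ∅ := by
      rw [Finset.filter_eq_empty_iff]
      intro g hg
      have := ((mem_S hXn).1 hg).1
      rw [zero_add, pow_one] at hXY
      exact not_lt.2 (this.trans hXY)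
    rw [h2, Finset.sum_empty, add_zero] at h1
    refine h1.trans ?_
    have h3 : B g X w = (tau (1 : Eis) : ℝ) ^ (2 * 0) * B (g * 1) (X / nm (1 : Eis)) (sub w 1) := by
      rw [nm_one, sub_one_eq, mul_one]; simp
    rw [h3]
    exact Finset.single_le_sum
      (f := fun h => (tau h : ℝ) ^ (2 * 0) * B (g * h) (X / nm h) (sub w h))
      (fun g _ => mul_nonneg (by positivity) (hB _ _ _)) (PX5.one_mem_S hX)
  | succ n ih =>
    intro g X w hg hgs hX hX0 hXY hw hcop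
    have hXn : 0 ≤ X := by linarith
    have hYp : 0 < Y := by linarith
    refine (hstep g X w hg hgs hX hX0 hw hcop).trans ?_
    have h1 : ∑ g' ∈ (S X).filter (fun g' => Y < (nm g' : ℝ)), (tau g' : ℝ) *
        F (g * g') (X / nm g') (sub w g') ≤
        ∑ g' ∈ (S X).filter (fun g' => Y < (nm g' : ℝ)), (tau g' : ℝ) * ∑ h ∈ S (X / nm g'),
          (tau h : ℝ) ^ (2 * n) * B (g * (g' * h)) (X / nm (g' * h)) (sub w (g' * h)) := by
      refine Finset.sum_le_sum fun g' hg' => ?_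
      rw [Finset.mem_filter] at hg'
      have hg'' := (mem_S hXn).1 hg'.1
      have hgp : (0 : ℝ) < nm g' := by exact_mod_cast nm_pos.2 hg''.2.1.ne_zero
      refine mul_le_mul_of_nonneg_left ?_ (Nat.cast_nonneg _)
      by_cases h0 : sub w g' = 0
      · rw [h0, hF0]
        refine Finset.sum_nonneg fun h _ => mul_nonneg (by positivity) (hB _ _ _)
      have a1 : 1 ≤ X / nm g' := by rw [le_div_iff₀ hgp, one_mul]; exact hg''.1
      have a0 : X / nm g' ≤ X := by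
        apply div_le_self hXn
        exact_mod_cast nm_pos.2 hg''.2.1.ne_zero
      have a2 : X / nm g' ≤ Y ^ (n + 1) := by
        rw [div_le_iff₀ hgp]
        calc X ≤ Y ^ (n + 1 + 1) := hXY
          _ = Y ^ (n + 1) * Y := pow_succ _ _
          _ ≤ Y ^ (n + 1) * nm g' := by gcongr; exact hg'.2.le
      refine (ih (g * g') (X / nm g') (sub w g') (hg.mul hg''.2.1)
        (sqf_twist hgs hg''.2.2 hcop h0) a1 (a0.trans hX0) a2 (supp_sub hXn hw hg''.2.1)
        (copG_sub hXn hw hg''.2.1 hcop)).trans (le_of_eq ?_)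
      refine Finset.sum_congr rfl fun h _ => ?_
      rw [PA842.sub_sub, nm_mul, Nat.cast_mul, div_div, mul_assoc g g' h]
    refine (add_le_add_right h1 _).trans ?_
    set T := (S X).erase 1 with hT
    have h2 : ∑ g' ∈ (S X).filter (fun g' => Y < (nm g' : ℝ)), (tau g' : ℝ) *
        ∑ h ∈ S (X / nm g'),
          (tau h : ℝ) ^ (2 * n) * B (g * (g' * h)) (X / nm (g' * h)) (sub w (g' * h)) ≤
        ∑ m ∈ T, (tau m : ℝ) * (tau m : ℝ) ^ (2 * n + 1) * B (g * m) (X / nm m) (sub w m) := by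
      refine pairs_le hXn (Finset.filter_subset _ _) (fun g => (tau g : ℝ))
        (fun h => (tau h : ℝ) ^ (2 * n)) (fun m => (tau m : ℝ) ^ (2 * n + 1))
        (fun m => B (g * m) (X / nm m) (sub w m)) (fun m => hB _ _ _) (fun m => by positivity)
        ?_ ?_ ?_
      · intro g' hg' h hh hne
        rw [Finset.mem_filter] at hg'
        have hg'' := (mem_S hXn).1 hg'.1
        have hh' := (mem_S (by positivity)).1 hh
        have hgh : IsPrim (g' * h) := hg''.2.1.mul hh'.2.1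
        rw [hT, Finset.mem_erase]
        constructor
        · intro h1
          have h2 : nm g' * nm h = 1 := by rw [← nm_mul, h1, nm_one]
          have h3 : nm g' = 1 := Nat.eq_one_of_mul_eq_one_right h2
          have h4 := hg'.2
          rw [h3] at h4
          push_cast at h4
          linarith
        · by_contra h0
          apply hne
          show B (g * (g' * h)) (X / nm (g' * h)) (sub w (g' * h)) = 0
          rw [sub_eq_zero_of_not_mem hXn hw hgh h0]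
          exact hB0 _ _
      · intro m hm
        exact ((mem_S hXn).1 (Finset.mem_of_mem_erase hm)).2.1.ne_zero
      · intro g' hg' h hh hm
        have hm0 : g' * h ≠ 0 := ((mem_S hXn).1 (Finset.mem_of_mem_erase hm)).2.1.ne_zero
        have t1 : (tau g' : ℝ) ≤ tau (g' * h) := by
          exact_mod_cast tau_dvd_le hm0 (dvd_mul_right _ _)
        have t2 : (tau h : ℝ) ≤ tau (g' * h) := by
          exact_mod_cast tau_dvd_le hm0 (dvd_mul_left _ _)
        show (tau g' : ℝ) * (tau h : ℝ) ^ (2 * n) ≤ (tau (g' * h) : ℝ) ^ (2 * n + 1)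
        calc (tau g' : ℝ) * (tau h : ℝ) ^ (2 * n) ≤
              (tau (g' * h) : ℝ) * (tau (g' * h) : ℝ) ^ (2 * n) := by gcongr
          _ = _ := by rw [pow_succ, mul_comm]
    refine (add_le_add_right h2 _).trans ?_
    rw [← Finset.add_sum_erase (S X) _ (PX5.one_mem_S hX)]
    have h3 : (tau (1 : Eis) : ℝ) ^ (2 * (n + 1)) * B (g * 1) (X / nm (1 : Eis)) (sub w 1) =
        (tau (1 : Eis) : ℝ) ^ (2 * (n + 1)) * B g X w := by
      rw [nm_one, sub_one_eq, mul_one]; simp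
    rw [h3]
    have h4 : (1 : ℝ) ≤ (tau (1 : Eis) : ℝ) ^ (2 * (n + 1)) := by
      apply one_le_pow₀
      exact_mod_cast Div277.one_le_tau one_ne_zero
    refine add_le_add ?_ (le_of_eq ?_)
    · calc B g X w = 1 * B g X w := (one_mul _).symm
        _ ≤ _ := mul_le_mul_of_nonneg_right h4 (hB _ _ _)
    · refine Finset.sum_congr rfl fun m _ => ?_
      rw [← pow_succ']
      ring_nf

/-! ### zero coefficients -/

lemma VRt_zero (X L : ℝ) (g : Eis) : VRt X L g 0 = 0 := by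
  unfold VRt Rf
  simp

lemma dsT_zero (X : ℝ) (g d e f l : Eis) (s : ℂ) : dsT 0 X g d e f l s = 0 := by
  unfold dsT; simp

lemma DICt_zero (M : ℕ) (σ X : ℝ) (g d e f : Eis) (L : ℝ) : DICt M σ 0 X g d e f L = 0 := by
  unfold DICt
  simp [dsT_zero]

lemma DDT_zero (M : ℕ) (σ X L Y ε : ℝ) (g : Eis) : DDT M σ X L Y ε g 0 = 0 := by
  unfold DDT
  simp [DICt_zero]

lemma CrossT_zero (X L : ℝ) (g d : Eis) : CrossT X L g 0 d = 0 := by
  classical
  unfold CrossT ws
  simp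

lemma KKT_zero (X L Y : ℝ) (g : Eis) : KKT X L Y g 0 = 0 := by
  unfold KKT
  simp [CrossT_zero]

/-- the one-step bound -/
def BTX (C A : ℝ) (M : ℕ) (σ L Y ε : ℝ) (Q : ℝ) (g : Eis) (X' : ℝ) (w' : Eis → ℂ) : ℝ :=
  C * Q * ∑ h ∈ S X', ‖w' h‖ ^ 2 + C * A * DDT M σ X' L Y ε g w' + 2 * pC * KKT X' L Y g w'

lemma BTX_nonneg {C A L Q : ℝ} (hC : 0 ≤ C) (hA : 0 ≤ A) (hL : 0 ≤ L) (hQ : 0 ≤ Q) (M : ℕ)
    (σ Y ε : ℝ) (g : Eis) (X' : ℝ) (w' : Eis → ℂ) : 0 ≤ BTX C A M σ L Y ε Q g X' w' :=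
  add_nonneg (add_nonneg (mul_nonneg (mul_nonneg hC hQ) (Finset.sum_nonneg fun _ _ => by positivity))
    (mul_nonneg (mul_nonneg hC hA) (DDT_nonneg M σ X' hL Y ε g w')))
    (mul_nonneg (by have := pC_pos; positivity) (KKT_nonneg _ _ _ _ _))

lemma BTX_zero (C A : ℝ) (M : ℕ) (σ L Y ε Q : ℝ) (g : Eis) (X' : ℝ) :
    BTX C A M σ L Y ε Q g X' 0 = 0 := by
  unfold BTX
  rw [DDT_zero, KKT_zero]
  simp

lemma final_arith2 {C C1 C2 p u v q W W' D K XL : ℝ} (hC : 0 ≤ C) (hC1 : 0 ≤ C1) (hC2 : 1 ≤ C2)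
    (hp : 0 ≤ p) (hu : 1 ≤ u) (hq : 1 ≤ q) (hv : 0 ≤ v) (hXL : 0 ≤ XL) (hD : 0 ≤ D) (hK : 0 ≤ K)
    (hW : W' ≤ C2 * u * W) (hW0 : 0 ≤ W) :
    C1 * u * (C * (q * XL) * W' + C * v * D + 2 * p * K) ≤
      (C * C1 * C2 + 2 * p * C1 * C2) * (u * u * q) * (XL * W + v * D + K) := by
  have hu0 : 0 ≤ u := by linarith
  have hq0 : 0 ≤ q := by linarith
  have hC20 : 0 ≤ C2 := by linarith
  have h7 : 1 ≤ C2 * u := one_le_mul_of_one_le_of_one_le hC2 hu
  have h8 : 1 ≤ C2 * u * q := one_le_mul_of_one_le_of_one_le h7 hq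
  have b1 : C1 * u * (C * (q * XL) * W') ≤ C * C1 * C2 * (u * u * q) * (XL * W) := by
    calc _ ≤ C1 * u * (C * (q * XL) * (C2 * u * W)) := by gcongr
      _ = _ := by ring
  have b2 : C1 * u * (C * v * D) ≤ C * C1 * C2 * (u * u * q) * (v * D) := by
    calc C1 * u * (C * v * D) = C1 * u * (C * v * D) * 1 := by ring
      _ ≤ C1 * u * (C * v * D) * (C2 * u * q) := by gcongr
      _ = _ := by ring
  have b3 : C1 * u * (2 * p * K) ≤ 2 * p * C1 * C2 * (u * u * q) * K := by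
    calc C1 * u * (2 * p * K) = C1 * u * (2 * p * K) * 1 := by ring
      _ ≤ C1 * u * (2 * p * K) * (C2 * u * q) := by gcongr
      _ = _ := by ring
  have r1 : 0 ≤ C * C1 * C2 * (u * u * q) * K := by positivity
  have r2 : 0 ≤ 2 * p * C1 * C2 * (u * u * q) * (XL * W + v * D) := by positivity
  calc _ = C1 * u * (C * (q * XL) * W') + C1 * u * (C * v * D) + C1 * u * (2 * p * K) := by ring
    _ ≤ C * C1 * C2 * (u * u * q) * (XL * W) + C * C1 * C2 * (u * u * q) * (v * D) +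
        2 * p * C1 * C2 * (u * u * q) * K := by linarith
    _ ≤ C * C1 * C2 * (u * u * q) * (XL * W) + C * C1 * C2 * (u * u * q) * (v * D) +
        2 * p * C1 * C2 * (u * u * q) * K + C * C1 * C2 * (u * u * q) * K +
        2 * p * C1 * C2 * (u * u * q) * (XL * W + v * D) := by linarith
    _ = _ := by ring

open Classical in
/-- **(P'_ex), fully iterated** -/
theorem iterExG {σ ε : ℝ} (hσ : 0 < σ) (hσ1 : σ ≤ 1 / 2) (hε : 0 < ε) {M : ℕ} (hM : 1 ≤ M) :
    ∃ C : ℝ, 1 ≤ C ∧ ∀ X L : ℝ, 1 ≤ X → 1 ≤ L → ∀ w : Eis → ℂ, Supp w X →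
    VR X L w ≤ C * (X * L) ^ ε * ((X + L) * ∑ h ∈ S X, ‖w h‖ ^ 2 +
      X ^ (3 * σ) * ∑ g ∈ S X, DDT M σ (X / nm g) L (X ^ ε) ε g (sub w g) +
      ∑ g ∈ S X, KKT (X / nm g) L (X ^ ε) g (sub w g)) := by
  obtain ⟨C, hC, hone⟩ := one_step_T hM hσ hσ1 hε (ε' := ε / 3) (by positivity)
  obtain ⟨C1, hC1, ht1⟩ := tau_pow_le (ε := ε / 3) (by positivity) (2 * ⌈1 / ε⌉₊)
  obtain ⟨C2, hC2, ht2⟩ := tau_pow_le (ε := ε / 3) (by positivity) 1
  have hp := pC_pos
  refine ⟨C * C1 * C2 + 2 * pC * C1 * C2, ?_, fun X L hX hL w hw => ?_⟩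
  · have h1 : 1 ≤ C * C1 * C2 :=
      one_le_mul_of_one_le_of_one_le (one_le_mul_of_one_le_of_one_le hC hC1) hC2
    have h2 : 0 ≤ 2 * pC * C1 * C2 := by positivity
    linarith
  have hX0 : (0 : ℝ) ≤ X := by linarith
  have hXp : (0 : ℝ) < X := by linarith
  have hL0 : (0 : ℝ) ≤ L := by linarith
  have hC0 : (0 : ℝ) ≤ C := by linarith
  have hC10 : (0 : ℝ) ≤ C1 := by linarith
  have hY : 1 ≤ X ^ ε := Real.one_le_rpow hX hε.le
  have hXs : 0 < X ^ (3 * σ) := Real.rpow_pos_of_pos hXp _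
  have hXL1 : 1 ≤ X * L := one_le_mul_of_one_le_of_one_le hX hL
  set Q : ℝ := (X * L) ^ (ε / 3) * (X + L) with hQ
  have hQ0 : 0 ≤ Q := by positivity
  -- the recursion, for `nm g * X' ≤ X`
  have key := recurT (X₀ := X) hY
    (fun g X' w' => if nm g * X' ≤ X then VRt X' L g w' else 0)
    (fun g X' w' => BTX C (X ^ (3 * σ)) M σ L (X ^ ε) ε Q g X' w')
    (fun g X' w' => BTX_nonneg hC0 hXs.le hL0 hQ0 M σ (X ^ ε) ε g X' w')
    (fun g X' => BTX_zero C (X ^ (3 * σ)) M σ L (X ^ ε) ε Q g X')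
    (fun g X' => by simp only [VRt_zero, ite_self])
    (by
      intro g X' w' hg hgs hX' hX'X hw' hcop
      have hX'p : 0 < X' := by linarith
      by_cases hgX : nm g * X' ≤ X
      · simp only [if_pos hgX]
        have h1 := hone X' L (X ^ ε) hX' hL g hg hgs w' hw' hcop
        have h3 : X' ^ (3 * σ) ≤ X ^ (3 * σ) := Real.rpow_le_rpow hX'p.le hX'X (by positivity)
        have h4 := DDT_nonneg M σ X' hL0 (X ^ ε) ε g w'
        have h5 : C * X' ^ (3 * σ) * DDT M σ X' L (X ^ ε) ε g w' ≤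
            C * X ^ (3 * σ) * DDT M σ X' L (X ^ ε) ε g w' :=
          mul_le_mul_of_nonneg_right (mul_le_mul_of_nonneg_left h3 hC0) h4
        have h6 : (nm g * X' * L) ^ (ε / 3) * (X' + L) ≤ Q := by
          rw [hQ]
          have a1 : (nm g * X' * L) ^ (ε / 3) ≤ (X * L) ^ (ε / 3) := by
            apply Real.rpow_le_rpow (by positivity) _ (by positivity)
            gcongr
          gcongr
        have h7 : C * ((nm g * X' * L) ^ (ε / 3) * (X' + L)) * ∑ h ∈ S X', ‖w' h‖ ^ 2 ≤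
            C * Q * ∑ h ∈ S X', ‖w' h‖ ^ 2 :=
          mul_le_mul_of_nonneg_right (mul_le_mul_of_nonneg_left h6 hC0)
            (Finset.sum_nonneg fun _ _ => by positivity)
        refine h1.trans ?_
        have h8 : ∑ g' ∈ (S X').filter (fun g' => X ^ ε < (nm g' : ℝ)),
            (tau g' : ℝ) * VRt (X' / nm g') L (g * g') (sub w' g') =
            ∑ g' ∈ (S X').filter (fun g' => X ^ ε < (nm g' : ℝ)),
            (tau g' : ℝ) * (if nm (g * g') * (X' / nm g') ≤ X then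
              VRt (X' / nm g') L (g * g') (sub w' g') else 0) := by
          refine Finset.sum_congr rfl fun g' hg' => ?_
          have hg'' := (mem_S hX'p.le).1 (Finset.mem_filter.1 hg').1
          have hn : (0 : ℝ) < nm g' := by exact_mod_cast nm_pos.2 hg''.2.1.ne_zero
          rw [if_pos]
          have : (nm (g * g') : ℝ) * (X' / nm g') = nm g * X' := by
            rw [nm_mul]
            push_cast
            field_simp
          rw [this]
          exact hgX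
        rw [h8]
        unfold BTX
        exact add_le_add_left (add_le_add_left (add_le_add h7 h5) _) _
      · simp only [if_neg hgX]
        refine add_nonneg (BTX_nonneg hC0 hXs.le hL0 hQ0 M σ (X ^ ε) ε g X' w') ?_
        refine Finset.sum_nonneg fun g' hg' => mul_nonneg (Nat.cast_nonneg _) ?_
        have hg'' := (mem_S hX'p.le).1 (Finset.mem_filter.1 hg').1
        split_ifs
        · exact VRt_nonneg (by linarith) (mul_ne_zero hg.ne_zero hg''.2.1.ne_zero) _ _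
        · exact le_rfl)
    ⌈1 / ε⌉₊ 1 X w isPrim_one squarefree_one hX le_rfl (exp_bound hX hε) hw
    (fun n _ => isCoprime_one_left)
  have h0 : (nm (1 : Eis) : ℝ) * X ≤ X := by rw [nm_one]; simp
  simp only [if_pos h0, VRt_one, one_mul] at key
  refine key.trans ?_
  have h5 : ∑ g ∈ S X, (tau g : ℝ) ^ (2 * ⌈1 / ε⌉₊) *
        BTX C (X ^ (3 * σ)) M σ L (X ^ ε) ε Q g (X / nm g) (sub w g) ≤
      ∑ g ∈ S X, (C1 * X ^ (ε / 3)) *
        BTX C (X ^ (3 * σ)) M σ L (X ^ ε) ε Q g (X / nm g) (sub w g) :=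
    Finset.sum_le_sum fun g hg => mul_le_mul_of_nonneg_right (ht1 X hX g hg)
      (BTX_nonneg hC0 hXs.le hL0 hQ0 M σ (X ^ ε) ε _ _ _)
  refine h5.trans ?_
  rw [← Finset.mul_sum]
  have h5b : ∑ g ∈ S X, BTX C (X ^ (3 * σ)) M σ L (X ^ ε) ε Q g (X / nm g) (sub w g) =
      C * Q * ∑ g ∈ S X, ∑ k ∈ S (X / nm g), ‖sub w g k‖ ^ 2 +
      C * X ^ (3 * σ) * ∑ g ∈ S X, DDT M σ (X / nm g) L (X ^ ε) ε g (sub w g) +
      2 * pC * ∑ g ∈ S X, KKT (X / nm g) L (X ^ ε) g (sub w g) := by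
    unfold BTX
    rw [Finset.sum_add_distrib, Finset.sum_add_distrib, ← Finset.mul_sum, ← Finset.mul_sum,
      ← Finset.mul_sum]
  rw [h5b]
  have h6 : ∑ g ∈ S X, ∑ k ∈ S (X / nm g), ‖sub w g k‖ ^ 2 ≤
      C2 * X ^ (ε / 3) * ∑ h ∈ S X, ‖w h‖ ^ 2 := by
    refine (sum_sub_sq_le hX0 hw).trans ?_
    rw [Finset.mul_sum]
    refine Finset.sum_le_sum fun h hh => ?_
    have := ht2 X hX h hh
    rw [pow_one] at this
    exact mul_le_mul_of_nonneg_right this (by positivity)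
  have hDD : 0 ≤ ∑ g ∈ S X, DDT M σ (X / nm g) L (X ^ ε) ε g (sub w g) :=
    Finset.sum_nonneg fun g _ => DDT_nonneg _ _ _ hL0 _ _ _ _
  have hKK : 0 ≤ ∑ g ∈ S X, KKT (X / nm g) L (X ^ ε) g (sub w g) :=
    Finset.sum_nonneg fun g _ => KKT_nonneg _ _ _ _ _
  have hXe : 1 ≤ X ^ (ε / 3) := Real.one_le_rpow hX (by positivity)
  have hXLe : 1 ≤ (X * L) ^ (ε / 3) := Real.one_le_rpow hXL1 (by positivity)
  have hW0 : 0 ≤ ∑ h ∈ S X, ‖w h‖ ^ 2 := Finset.sum_nonneg fun _ _ => by positivity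
  have fin := final_arith2 (XL := X + L) (v := X ^ (3 * σ)) hC0 hC10 hC2 hp.le hXe hXLe hXs.le
    (by linarith) hDD hKK h6 hW0
  rw [← hQ] at fin
  refine fin.trans ?_
  have e1 : X ^ (ε / 3) * X ^ (ε / 3) * (X * L) ^ (ε / 3) ≤ (X * L) ^ ε := by
    have a1 : X ^ (ε / 3) ≤ (X * L) ^ (ε / 3) := by
      apply Real.rpow_le_rpow hX0 _ (by positivity)
      nlinarith
    calc X ^ (ε / 3) * X ^ (ε / 3) * (X * L) ^ (ε / 3) ≤
          (X * L) ^ (ε / 3) * (X * L) ^ (ε / 3) * (X * L) ^ (ε / 3) := by gcongr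
      _ = (X * L) ^ ε := by
        rw [← Real.rpow_add (by linarith), ← Real.rpow_add (by linarith)]
        congr 1; ring
  have hnn : 0 ≤ (X + L) * ∑ h ∈ S X, ‖w h‖ ^ 2 +
      X ^ (3 * σ) * ∑ g ∈ S X, DDT M σ (X / nm g) L (X ^ ε) ε g (sub w g) +
      ∑ g ∈ S X, KKT (X / nm g) L (X ^ ε) g (sub w g) :=
    add_nonneg (add_nonneg (mul_nonneg (by linarith) hW0) (mul_nonneg hXs.le hDD)) hKK
  have hcc : 0 ≤ C * C1 * C2 + 2 * pC * C1 * C2 := by positivity
  exact mul_le_mul_of_nonneg_right (mul_le_mul_of_nonneg_left e1 hcc) hnn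

end Crest.Agent.R017.PX6
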