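import Crest.Agent.R017.GR3_106
import Crest.Agent.R017.PX6f_241

/-!
# Row 17, exceptional class: the rule (P'_ex) for closed families, part 1 (helper241)

Mirror of helper106's `G_rule` with the frequencies restricted by a predicate `Q` (noncubes).
-/

set_option autoImplicit false

noncomputable section

open MeasureTheory Finset
open scoped ComplexConjugate

namespace Crest.Agent.R017.GE241

open Crest.Agent.R012
open Eis CharSum852 Gauss880 Tau671 Mob705 LS2 CR2 DualIneq811 MelSep811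
open Crest.Agent.R017.PA842 (V Supp V_nonneg summable_V Lde_nonneg)
open Crest.Agent.R017.PM106 Crest.Agent.R017.PG106 Crest.Agent.R017.PI106
open Crest.Agent.R017.CM106 (CS TG FS)
open Crest.Agent.R017.TP320 (VC VG Fam SplitAt tw sq)
open Crest.Agent.R017.GR106
open Div277 (tau dvs mem_dvs tau_le_rpow)

open Classical in
/-- second moment over the frequencies with property `Q` -/
def VQ (Q : Eis → Prop) (K : ℝ) (α : Eis → ℂ) : ℝ := ∑ k ∈ (bl K).filter Q, ‖CS α k‖ ^ 2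

/-- second moment over the noncubes -/
abbrev VCN (K : ℝ) (α : Eis → ℂ) : ℝ := VQ T411.NCube K α

lemma VQ_nonneg (Q : Eis → Prop) (K : ℝ) (α : Eis → ℂ) : 0 ≤ VQ Q K α :=
  Finset.sum_nonneg fun _ _ => by positivity

open Classical in
lemma VQ_mono (Q : Eis → Prop) {K L : ℝ} (hK : 0 ≤ K) (h : K ≤ L) (α : Eis → ℂ) :
    VQ Q K α ≤ VQ Q L α := by
  unfold VQ
  refine Finset.sum_le_sum_of_subset_of_nonneg ?_ (fun _ _ _ => by positivity)
  intro k hk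
  rw [Finset.mem_filter] at hk ⊢
  exact ⟨TP320.bl_mono hK h hk.1, hk.2⟩

open Classical in
lemma VQ_le_VC (Q : Eis → Prop) (K : ℝ) (α : Eis → ℂ) : VQ Q K α ≤ VC K α :=
  Finset.sum_le_sum_of_subset_of_nonneg (Finset.filter_subset _ _) (fun _ _ _ => by positivity)

open Classical in
/-- **merging the frequencies `l (g c)²`**, restricted -/
theorem merge_sqQ (Q : Eis → Prop) {Λ : ℝ} (hΛ : 0 ≤ Λ) (P : Finset (Eis × Eis)) {c : Eis}
    (hc : c ≠ 0)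
    (hP : ∀ p ∈ P, IsPrim p.1 ∧ p.2 * (p.1 * c) ^ 2 ∈ bl Λ ∧ Q (p.2 * (p.1 * c) ^ 2))
    (F : Eis → ℝ) (hF : ∀ r, 0 ≤ F r) :
    ∑ p ∈ P, F (p.2 * (p.1 * c) ^ 2) ≤ ∑ r ∈ (bl Λ).filter Q, (tau r : ℝ) * F r := by
  have h1 := merge_sq hΛ P hc (fun p hp => ⟨(hP p hp).1, (hP p hp).2.1⟩)
    (fun r => if Q r then F r else 0) (fun r => by split_ifs; exacts [hF r, le_rfl])
  have h2 : ∑ p ∈ P, F (p.2 * (p.1 * c) ^ 2) = ∑ p ∈ P,
      (if Q (p.2 * (p.1 * c) ^ 2) then F (p.2 * (p.1 * c) ^ 2) else 0) :=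
    Finset.sum_congr rfl fun p hp => by rw [if_pos (hP p hp).2.2]
  rw [h2]
  refine h1.trans (le_of_eq ?_)
  rw [Finset.sum_filter]
  refine Finset.sum_congr rfl fun r _ => ?_
  split_ifs <;> simp

open Classical in
/-- one dyadic class of the long dual sums -/
theorem long_mQ (Q : Eis → Prop) {J : Type} {Φ : Fam J} {R A ε s0 C : ℝ} (hΦ : Φ.Ok R A)
    (hs : SplitAt Φ R A ε s0 C) {j : J} {q d e : Eis} (hd : IsPrim d) (he : e ≠ 0)
    {X L Λ a Tt S1 m t : ℝ} (hL : 0 < L) (hΛ : 0 ≤ Λ) (ha : 0 ≤ a)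
    (hTt : ∀ r ∈ bl Λ, (tau r : ℝ) ≤ Tt) (hTt0 : 0 ≤ Tt) (hm : 0 ≤ m)
    (hS1 : ∑ f ∈ S X, 1 / (nm f : ℝ) ≤ S1)
    (HV : ∀ j' f, Φ.good j' → Φ.dom R j' j → Φ.len j' ≤ Φ.len j + R → f ∈ S X →
      VQ Q Λ (TP320.sq (q * f) (Φ.w j')) ≤ a / L * Real.exp (Φ.len j + Φ.len j') * Φ.ht j' ^ 2)
    (I : Finset (Eis × Eis × Eis))
    (hI : ∀ x ∈ I, x.1 ∈ S X ∧ IsPrim x.1 ∧ IsPrim x.2.1 ∧
      (x.2.2 * (x.2.1 * (d * e * sq3)) ^ 2 ∈ bl Λ ∧ Q (x.2.2 * (x.2.1 * (d * e * sq3)) ^ 2)) ∧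
      m ≤ Real.log (nm (x.2.1 * d * x.1)) ∧ Real.log (nm (x.2.1 * d * x.1)) ≤ m + 1) :
    ∑ x ∈ I, L / nm x.1 * ‖∑ b ∈ S (Real.exp (Φ.len j + 2 * R)),
      Φ.w j (x.2.1 * d * x.1 * b) * tw s0 t b * cc q d e x b‖ ^ 2 ≤
      (C * Real.exp (ε * |m|) * Real.exp (-s0 * (Φ.len j - m)) * (1 + |t|) ^ A *
        Real.sqrt (S1 * Tt * a * Real.exp (2 * Φ.len j - m + R)) * Φ.ht j) ^ 2 := by
  have hS10 : 0 ≤ S1 := le_trans (Finset.sum_nonneg fun _ _ => by positivity) hS1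
  have hht : ∀ j, 0 ≤ Φ.ht j := fun j => zero_le_one.trans (hΦ.ht1 j)
  refine split_sq hs I (fun x => x.2.1 * d * x.1) (fun x => L / nm x.1)
    (fun x _ => by positivity) (S (Real.exp (Φ.len j + 2 * R))) (cc q d e) j m t
    (fun x hx => ?_) (fun x hx b _ hb => ?_) (Real.sqrt_nonneg _) hht ?_
  · obtain ⟨_, h2, h3, _, h5, h6⟩ := hI x hx
    exact ⟨(h3.mul hd).mul h2, h5, h6⟩
  · exact ⟨(cc_ne hb).1, cc_cop hb⟩
  · intro j' hg hdm hl
    have hR := hΦ.R0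
    have hl' : Φ.len j' ≤ Φ.len j + R := by linarith
    have hX2 : 0 ≤ Real.exp (Φ.len j + 2 * R) := (Real.exp_pos _).le
    have hw : ∀ b, Φ.w j' b ≠ 0 → IsPrim b → Squarefree b →
        b ∈ S (Real.exp (Φ.len j + 2 * R)) := by
      intro b hb hp hsf
      rw [mem_S hX2]
      refine ⟨?_, hp, hsf⟩
      have h1 := (abs_le.1 (hΦ.supp j' b hb)).2
      have hb0 : (0 : ℝ) < nm b := by exact_mod_cast nm_pos.2 hp.ne_zero
      rw [← Real.log_le_iff_le_exp hb0]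
      linarith
    have e1 : ∀ x ∈ I, L / nm x.1 * ‖∑ b ∈ S (Real.exp (Φ.len j + 2 * R)),
        Φ.w j' b * cc q d e x b‖ ^ 2 = L / nm x.1 *
          ‖CS (TP320.sq (q * x.1) (Φ.w j')) (x.2.2 * (x.2.1 * (d * e * sq3)) ^ 2)‖ ^ 2 := by
      intro x _
      rw [sum_cc_eq hw]
    rw [Finset.sum_congr rfl e1]
    have e2 : ∑ x ∈ I, L / nm x.1 *
          ‖CS (TP320.sq (q * x.1) (Φ.w j')) (x.2.2 * (x.2.1 * (d * e * sq3)) ^ 2)‖ ^ 2 ≤
        ∑ x ∈ (S X) ×ˢ (I.image Prod.snd), L / nm x.1 *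
          ‖CS (TP320.sq (q * x.1) (Φ.w j')) (x.2.2 * (x.2.1 * (d * e * sq3)) ^ 2)‖ ^ 2 := by
      refine Finset.sum_le_sum_of_subset_of_nonneg (fun x hx => ?_) (fun _ _ _ => by positivity)
      rw [Finset.mem_product]
      exact ⟨(hI x hx).1, Finset.mem_image_of_mem _ hx⟩
    refine e2.trans ?_
    rw [Finset.sum_product]
    have e3 : ∀ f ∈ S X, ∑ y ∈ I.image Prod.snd, L / nm (f, y).1 *
          ‖CS (TP320.sq (q * (f, y).1) (Φ.w j')) ((f, y).2.2 *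
            ((f, y).2.1 * (d * e * sq3)) ^ 2)‖ ^ 2 ≤
        1 / (nm f : ℝ) * (Tt * (a * Real.exp (Φ.len j + Φ.len j') * Φ.ht j' ^ 2)) := by
      intro f hf
      show ∑ y ∈ I.image Prod.snd, L / nm f *
          ‖CS (TP320.sq (q * f) (Φ.w j')) (y.2 * (y.1 * (d * e * sq3)) ^ 2)‖ ^ 2 ≤ _
      rw [← Finset.mul_sum]
      have hc0 : d * e * sq3 ≠ 0 := mul_ne_zero (mul_ne_zero hd.ne_zero he) (by decide)
      have h1 := merge_sqQ Q hΛ (I.image Prod.snd) hc0 (by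
        intro y hy
        obtain ⟨x, hx, rfl⟩ := Finset.mem_image.1 hy
        exact ⟨(hI x hx).2.2.1, (hI x hx).2.2.2.1⟩)
        (fun r => ‖CS (TP320.sq (q * f) (Φ.w j')) r‖ ^ 2) (fun _ => by positivity)
      have h2 : ∑ r ∈ (bl Λ).filter Q, (tau r : ℝ) * ‖CS (TP320.sq (q * f) (Φ.w j')) r‖ ^ 2 ≤
          Tt * VQ Q Λ (TP320.sq (q * f) (Φ.w j')) := by
        unfold VQ
        rw [Finset.mul_sum]
        exact Finset.sum_le_sum fun r hr => mul_le_mul_of_nonneg_right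
          (hTt r (Finset.mem_filter.1 hr).1) (by positivity)
      have h3 := HV j' f hg hdm hl' hf
      have h4 : ∑ y ∈ I.image Prod.snd,
          ‖CS (TP320.sq (q * f) (Φ.w j')) (y.2 * (y.1 * (d * e * sq3)) ^ 2)‖ ^ 2 ≤
          Tt * (a / L * Real.exp (Φ.len j + Φ.len j') * Φ.ht j' ^ 2) :=
        (h1.trans h2).trans (mul_le_mul_of_nonneg_left h3 hTt0)
      calc L / nm f * ∑ y ∈ I.image Prod.snd,
          ‖CS (TP320.sq (q * f) (Φ.w j')) (y.2 * (y.1 * (d * e * sq3)) ^ 2)‖ ^ 2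
          ≤ L / nm f * (Tt * (a / L * Real.exp (Φ.len j + Φ.len j') * Φ.ht j' ^ 2)) :=
            mul_le_mul_of_nonneg_left h4 (by positivity)
        _ = _ := by field_simp
    refine (Finset.sum_le_sum e3).trans ?_
    rw [← Finset.sum_mul]
    have e4 : 0 ≤ Tt * (a * Real.exp (Φ.len j + Φ.len j') * Φ.ht j' ^ 2) := by positivity
    refine (mul_le_mul_of_nonneg_right hS1 e4).trans ?_
    rw [mul_pow, Real.sq_sqrt (by positivity)]
    have e5 : Real.exp (Φ.len j + Φ.len j') ≤ Real.exp (2 * Φ.len j - m + R) := by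
      apply Real.exp_le_exp.2
      linarith
    calc S1 * (Tt * (a * Real.exp (Φ.len j + Φ.len j') * Φ.ht j' ^ 2))
        ≤ S1 * (Tt * (a * Real.exp (2 * Φ.len j - m + R) * Φ.ht j' ^ 2)) := by gcongr
      _ = _ := by ring

end Crest.Agent.R017.GE241
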