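import Crest.Agent.R017.GE1_241

/-!
# Row 17, exceptional class: the rule (P'_ex) for closed families, part 2 (helper241)
-/

set_option autoImplicit false

noncomputable section

open MeasureTheory Finset
open scoped ComplexConjugate

namespace Crest.Agent.R017.GE241

open Crest.Agent.R012
open Eis CharSum852 Gauss880 Tau671 Mob705 LS2 CR2 DualIneq811 MelSep811
open Crest.Agent.R017.PA842 (V Supp V_nonneg summable_V Lde_nonneg)
open Crest.Agent.R017.PM106 Crest.Agent.R017.PG106 Crest.Agent.R017.PI106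
open Crest.Agent.R017.CM106 (CS TG FS)
open Crest.Agent.R017.TP320 (VC VG Fam SplitAt tw sq)
open Crest.Agent.R017.GR106
open Div277 (tau dvs mem_dvs tau_le_rpow)

/-- the data of the dual side at fixed `d, e` -/
structure DatQ (Q : Eis → Prop) {J : Type} (Φ : Fam J) (R A ε σ C : ℝ) (j : J) (q : Eis) (X L Λ a Tt S1 B : ℝ) :
    Prop where
  ok : Φ.Ok R A
  sp : SplitAt Φ R A ε (1 / 2 - σ) C
  σ0 : 0 ≤ σ
  ε0 : 0 ≤ ε
  hX : X = Real.exp (Φ.len j + R)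
  X1 : 1 ≤ X
  L1 : 1 ≤ L
  Λ0 : 0 ≤ Λ
  a0 : 0 ≤ a
  T0 : 0 ≤ Tt
  hT : ∀ r ∈ bl Λ, (tau r : ℝ) ≤ Tt
  hS : ∑ f ∈ S X, 1 / (nm f : ℝ) ≤ S1
  B0 : 0 ≤ B
  hB : ∀ n, IsPrim n → ‖TP320.sq q (Φ.w j) n‖ ≤ B
  HV : ∀ j' f, Φ.good j' → Φ.dom R j' j → Φ.len j' ≤ Φ.len j + R → f ∈ S X →
      VQ Q Λ (TP320.sq (q * f) (Φ.w j')) ≤ a / L * Real.exp (Φ.len j + Φ.len j') * Φ.ht j' ^ 2

lemma DatQ.wX {Q : Eis → Prop} {J : Type} {Φ : Fam J} {R A ε σ C : ℝ} {j : J} {q : Eis}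
    {X L Λ a Tt S1 B : ℝ} (D : DatQ Q Φ R A ε σ C j q X L Λ a Tt S1 B) :
    ∀ n, Φ.w j n ≠ 0 → (nm n : ℝ) ≤ X := by
  intro n hn
  have h1 := (abs_le.1 (D.ok.supp j n hn)).2
  have hn0 : (0 : ℝ) < nm n := by exact_mod_cast nm_pos.2 (D.ok.prim j n hn).ne_zero
  rw [D.hX, ← Real.log_le_iff_le_exp hn0]
  linarith

open Classical in
/-- the long part -/
theorem long_sumQ (Q : Eis → Prop) {J : Type} {Φ : Fam J} {R A ε σ C : ℝ} {j : J} {q d e : Eis}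
    {X L Λ a Tt S1 B t : ℝ} (D : DatQ Q Φ R A ε σ C j q X L Λ a Tt S1 B) (hd : IsPrim d) (he : e ≠ 0)
    (hΛ : 18 * (X * L) ^ ε * (nm e : ℝ) ^ 3 * X ^ 2 / L ≤ Λ) :
    ∑ g ∈ (S X).filter (Long X L d e), ∑ f ∈ S X, L / nm f *
      ∑ l ∈ (bl (Lde (X / nm g) L ε d e)).filter (fun l => Q (l * (g * (d * e * sq3)) ^ 2)),
        ‖dGg (TP320.sq q (Φ.w j)) (X / nm g) g d e f l (σ + t * Complex.I)‖ ^ 2 ≤
    (Real.log X + 1) * (C ^ 2 * X ^ (2 * ε + 2 * σ) * Real.exp (Φ.len j + R) * (S1 * Tt * a) *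
      Φ.ht j ^ 2 * ((1 + |t|) ^ A) ^ 2) := by
  have hX0 : 0 < X := by linarith [D.X1]
  have hL0 : 0 < L := by linarith [D.L1]
  have hR := D.ok.R0
  have hS10 : 0 ≤ S1 := le_trans (Finset.sum_nonneg fun _ _ => by positivity) D.hS
  have hlogX : 0 ≤ Real.log X := Real.log_nonneg D.X1
  set Gs := (S X).filter (Long X L d e) with hGs
  set BL := (S X).biUnion (fun g => bl (Lde (X / nm g) L ε d e)) with hBL
  set X₁ := Real.exp (Φ.len j + 2 * R) with hX₁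
  have hXX₁ : X ≤ X₁ := by rw [D.hX, hX₁]; exact Real.exp_le_exp.2 (by linarith)
  set I0 := ((S X) ×ˢ (Gs ×ˢ BL)).filter
    (fun x => x.2.2 ∈ (bl (Lde (X / nm x.2.1) L ε d e)).filter
      (fun l => Q (l * (x.2.1 * (d * e * sq3)) ^ 2))) with hI0
  have hH0 : ∀ x, 0 ≤ HH Φ j q d e σ t L X₁ x := fun x => by unfold HH; positivity
  have hwX := D.wX
  have hGm : ∀ g ∈ Gs, g ∈ S X ∧ Long X L d e g := fun g hg => Finset.mem_filter.1 hg
  have step1 : ∑ g ∈ Gs, ∑ f ∈ S X, L / nm f * ∑ l ∈ (bl (Lde (X / nm g) L ε d e)).filter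
        (fun l => Q (l * (g * (d * e * sq3)) ^ 2)),
        ‖dGg (TP320.sq q (Φ.w j)) (X / nm g) g d e f l (σ + t * Complex.I)‖ ^ 2 ≤
      ∑ x ∈ I0, HH Φ j q d e σ t L X₁ x := by
    rw [hI0, triple_sum (S X) Gs BL (fun g => (bl (Lde (X / nm g) L ε d e)).filter
      (fun l => Q (l * (g * (d * e * sq3)) ^ 2)))
      (fun g hg => (Finset.filter_subset _ _).trans
        (Finset.subset_biUnion_of_mem (fun g => bl (Lde (X / nm g) L ε d e)) (hGm g hg).1))]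
    refine Finset.sum_le_sum fun g hg => Finset.sum_le_sum fun f hf => ?_
    rw [Finset.mul_sum]
    refine Finset.sum_le_sum fun l _ => ?_
    unfold HH
    refine mul_le_mul_of_nonneg_left ?_ (by positivity)
    exact pow_le_pow_left₀ (norm_nonneg _) (dGg_le hX0.le hXX₁ hwX l
      ((mem_S hX0.le).1 (hGm g hg).1).2.1 hd ((mem_S hX0.le).1 hf).2.1 σ t) 2
  refine step1.trans ?_
  -- only the products of norm at most `X` count
  set I1 := I0.filter (fun x => (nm (x.2.1 * d * x.1) : ℝ) ≤ X) with hI1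
  have step2 : ∑ x ∈ I0, HH Φ j q d e σ t L X₁ x = ∑ x ∈ I1, HH Φ j q d e σ t L X₁ x := by
    symm
    rw [hI1]
    apply Finset.sum_filter_of_ne
    intro x hx hne
    by_contra h0
    apply hne
    unfold HH
    have : ∑ b ∈ S X₁, Φ.w j (x.2.1 * d * x.1 * b) * tw (1 / 2 - σ) t b * cc q d e x b = 0 := by
      refine Finset.sum_eq_zero fun b hb => ?_
      have h1 : Φ.w j (x.2.1 * d * x.1 * b) = 0 := by
        by_contra h2
        apply h0
        refine le_trans ?_ (hwX _ h2)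
        have h3 := (D.ok.prim j _ h2).ne_zero
        exact_mod_cast Div277.nm_le_of_dvd h3 (dvd_mul_right _ _)
      rw [h1, zero_mul, zero_mul]
    rw [this, norm_zero]
    ring
  rw [step2]
  have hImem : ∀ x ∈ I1, x.1 ∈ S X ∧ x.2.1 ∈ Gs ∧ (x.2.2 ∈ bl (Lde (X / nm x.2.1) L ε d e) ∧
      Q (x.2.2 * (x.2.1 * (d * e * sq3)) ^ 2)) ∧
      (nm (x.2.1 * d * x.1) : ℝ) ≤ X := by
    intro x hx
    rw [hI1, Finset.mem_filter, hI0, Finset.mem_filter, Finset.mem_product,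
      Finset.mem_product] at hx
    exact ⟨hx.1.1.1, hx.1.1.2.1, Finset.mem_filter.1 hx.1.2, hx.2⟩
  -- dyadic classes
  set cl : Eis × Eis × Eis → ℕ := fun x => ⌊Real.log (nm (x.2.1 * d * x.1))⌋₊ with hcl
  set N := ⌊Real.log X⌋₊ + 1 with hN
  have hmaps : ∀ x ∈ I1, cl x ∈ Finset.range N := by
    intro x hx
    obtain ⟨h1, h2, _, h4⟩ := hImem x hx
    have hp : IsPrim (x.2.1 * d * x.1) :=
      (((mem_S hX0.le).1 (hGm _ h2).1).2.1.mul hd).mul ((mem_S hX0.le).1 h1).2.1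
    have hp0 : (0 : ℝ) < nm (x.2.1 * d * x.1) := by exact_mod_cast nm_pos.2 hp.ne_zero
    rw [Finset.mem_range, hN, Nat.lt_succ_iff]
    exact Nat.floor_le_floor (Real.log_le_log hp0 h4)
  rw [← Finset.sum_fiberwise_of_maps_to hmaps]
  have hcls : ∀ i ∈ Finset.range N, ∑ x ∈ I1.filter (fun x => cl x = i),
      HH Φ j q d e σ t L X₁ x ≤ C ^ 2 * X ^ (2 * ε + 2 * σ) * Real.exp (Φ.len j + R) *
        (S1 * Tt * a) * Φ.ht j ^ 2 * ((1 + |t|) ^ A) ^ 2 := by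
    intro i hi
    have hi' : (i : ℝ) ≤ Real.log X := by
      rw [Finset.mem_range, hN, Nat.lt_succ_iff] at hi
      exact (Nat.cast_le.2 hi).trans (Nat.floor_le hlogX)
    refine le_trans ?_ (class_bound (C := C) (A := A) (t := t) D.σ0 D.ε0 D.hX hR
      (Nat.cast_nonneg i) hi' D.X1 hS10 D.T0 D.a0)
    refine long_mQ Q D.ok D.sp hd he hL0 D.Λ0 D.a0 D.hT D.T0 (Nat.cast_nonneg i) D.hS D.HV _ ?_
    intro x hx
    rw [Finset.mem_filter] at hx
    obtain ⟨h1, h2, h3, h4⟩ := hImem x hx.1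
    have hg := (hGm _ h2)
    have hgp := ((mem_S hX0.le).1 hg.1).2.1
    have hfp := ((mem_S hX0.le).1 h1).2.1
    have hp : IsPrim (x.2.1 * d * x.1) := (hgp.mul hd).mul hfp
    have hp1 : (1 : ℝ) ≤ nm (x.2.1 * d * x.1) := by exact_mod_cast nm_pos.2 hp.ne_zero
    have hlog : 0 ≤ Real.log (nm (x.2.1 * d * x.1)) := Real.log_nonneg hp1
    have hfl : ⌊Real.log (nm (x.2.1 * d * x.1))⌋₊ = i := hx.2
    have h5 := Nat.floor_le hlog
    have h6 := Nat.lt_floor_add_one (Real.log (nm (x.2.1 * d * x.1)))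
    rw [hfl] at h5 h6
    exact ⟨h1, hfp, hgp, ⟨long_freq D.X1 D.L1 D.ε0 hgp hd he hg.2 h3.1 hΛ, h3.2⟩, h5, h6.le⟩
  refine (Finset.sum_le_sum hcls).trans ?_
  rw [Finset.sum_const, Finset.card_range, nsmul_eq_mul]
  refine mul_le_mul_of_nonneg_right ?_ ?_
  · rw [hN]
    push_cast
    linarith [Nat.floor_le hlogX]
  · have := D.T0
    have := D.a0
    positivity

end Crest.Agent.R017.GE241
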