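import Crest.Agent.R017.GE2_241

/-!
# Row 17, exceptional class: the rule (P'_ex) for closed families, part 3 (helper241)
-/

set_option autoImplicit false

noncomputable section

open MeasureTheory Finset
open scoped ComplexConjugate

namespace Crest.Agent.R017.GE241

open Crest.Agent.R012
open Eis CharSum852 Gauss880 Tau671 Mob705 LS2 CR2 DualIneq811 MelSep811
open Crest.Agent.R017.PA842 (V Supp V_nonneg summable_V Lde_nonneg)
open Crest.Agent.R017.PM106 Crest.Agent.R017.PG106 Crest.Agent.R017.PI106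
open Crest.Agent.R017.CM106 (CS TG FS)
open Crest.Agent.R017.TP320 (VC VG Fam SplitAt tw sq)
open Crest.Agent.R017.GR106
open Div277 (tau dvs mem_dvs tau_le_rpow)

open Classical in
/-- the frequencies `l` with `Q (l (g d e √-3)²)` -/
def Ql (Q : Eis → Prop) (Λ : ℝ) (g d e : Eis) : Finset Eis :=
  (bl Λ).filter (fun l => Q (l * (g * (d * e * sq3)) ^ 2))

/-- second moment of the dual sums, restricted -/
def DICgQ (Q : Eis → Prop) (M : ℕ) (σ : ℝ) (w : Eis → ℂ) (X : ℝ) (g d e f : Eis) (L : ℝ) : ℝ :=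
  ∫ t : ℝ, ((1 + t ^ 2) ^ M)⁻¹ * ∑ l ∈ Ql Q L g d e, ‖dGg w X g d e f l (σ + t * Complex.I)‖ ^ 2

lemma integrable_DICgQ (Q : Eis → Prop) {M : ℕ} (hM : 1 ≤ M) (σ : ℝ) {X : ℝ} (hX : 0 ≤ X)
    (w : Eis → ℂ) (g d e f : Eis) (L : ℝ) :
    Integrable (fun t : ℝ => ((1 + t ^ 2) ^ M)⁻¹ *
      ∑ l ∈ Ql Q L g d e, ‖dGg w X g d e f l (σ + t * Complex.I)‖ ^ 2) := by
  have : (fun t : ℝ => ((1 + t ^ 2) ^ M)⁻¹ *
      ∑ l ∈ Ql Q L g d e, ‖dGg w X g d e f l (σ + t * Complex.I)‖ ^ 2) =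
      fun t : ℝ => ∑ l ∈ Ql Q L g d e, ((1 + t ^ 2) ^ M)⁻¹ *
        ‖dGg w X g d e f l (σ + t * Complex.I)‖ ^ 2 := by
    funext t; rw [Finset.mul_sum]
  rw [this]
  exact integrable_finsetSum _ fun l _ => integrable_dGg hM hX w g d e f l σ

lemma DICgQ_nonneg (Q : Eis → Prop) (M : ℕ) (σ : ℝ) (w : Eis → ℂ) (X : ℝ) (g d e f : Eis)
    (L : ℝ) : 0 ≤ DICgQ Q M σ w X g d e f L :=
  integral_nonneg fun t => by positivity

open Classical in
/-- the dual terms of one step on the Gauss side, common divisor `g`, restricted -/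
def DDGQ (Q : Eis → Prop) (M : ℕ) (σ X Z Y ε : ℝ) (w : Eis → ℂ) (g : Eis) : ℝ :=
  ∑ d ∈ (S X).filter (fun d => (nm d : ℝ) ≤ Y), ∑ e ∈ (S X).filter (· ∣ d), ∑ f ∈ S X,
    Z / nm f * DICgQ Q M σ w X g d e f (Lde X Z ε d e)

lemma long_sumQ' (Q : Eis → Prop) {J : Type} {Φ : Fam J} {R A ε σ C : ℝ} {j : J} {q d e : Eis}
    {X L Λ a Tt S1 B t : ℝ} (D : DatQ Q Φ R A ε σ C j q X L Λ a Tt S1 B) (hd : IsPrim d)
    (he : e ≠ 0) [DecidablePred (Long X L d e)]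
    (hΛ : 18 * (X * L) ^ ε * (nm e : ℝ) ^ 3 * X ^ 2 / L ≤ Λ) :
    ∑ g ∈ (S X).filter (Long X L d e), ∑ f ∈ S X, L / nm f *
      ∑ l ∈ Ql Q (Lde (X / nm g) L ε d e) g d e,
        ‖dGg (TP320.sq q (Φ.w j)) (X / nm g) g d e f l (σ + t * Complex.I)‖ ^ 2 ≤
    (Real.log X + 1) * (C ^ 2 * X ^ (2 * ε + 2 * σ) * Real.exp (Φ.len j + R) * (S1 * Tt * a) *
      Φ.ht j ^ 2 * ((1 + |t|) ^ A) ^ 2) := by
  classical
  refine le_trans (le_of_eq ?_) (long_sumQ Q (t := t) D hd he hΛ)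
  apply Finset.sum_congr
  · ext g; simp
  · intro g _
    rfl

theorem de_tQ (Q : Eis → Prop) {J : Type} {Φ : Fam J} {R A ε σ C : ℝ} {j : J} {q d e : Eis}
    {X L Λ a Tt S1 B t : ℝ} (D : DatQ Q Φ R A ε σ C j q X L Λ a Tt S1 B) (hd : IsPrim d) (he : e ≠ 0)
    (hΛ : 18 * (X * L) ^ ε * (nm e : ℝ) ^ 3 * X ^ 2 / L ≤ Λ) :
    ∑ g ∈ S X, ∑ f ∈ S X, L / nm f *
      ∑ l ∈ Ql Q (Lde (X / nm g) L ε d e) g d e,
        ‖dGg (TP320.sq q (Φ.w j)) (X / nm g) g d e f l (σ + t * Complex.I)‖ ^ 2 ≤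
    (K1 X L B σ ε S1 + K2 X C σ ε (Real.exp (Φ.len j + R)) S1 Tt a (Φ.ht j)) *
      ((1 + |t|) ^ A) ^ 2 := by
  classical
  have hX0 : 0 < X := by linarith [D.X1]
  have hL0 : 0 < L := by linarith [D.L1]
  have hS10 : 0 ≤ S1 := le_trans (Finset.sum_nonneg fun _ _ => by positivity) D.hS
  have hB0 := D.B0
  have hlogX : 0 ≤ Real.log X := Real.log_nonneg D.X1
  rw [← Finset.sum_filter_add_sum_filter_not (S X) (Long X L d e)]
  have h1 := long_sumQ' Q (t := t) D hd he hΛ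
  have h2 : ∑ g ∈ (S X).filter (fun g => ¬ Long X L d e g), ∑ f ∈ S X, L / nm f *
      ∑ l ∈ Ql Q (Lde (X / nm g) L ε d e) g d e,
        ‖dGg (TP320.sq q (Φ.w j)) (X / nm g) g d e f l (σ + t * Complex.I)‖ ^ 2 ≤
      K1 X L B σ ε S1 := by
    have e1 : ∀ g ∈ (S X).filter (fun g => ¬ Long X L d e g), ∑ f ∈ S X, L / nm f *
      ∑ l ∈ Ql Q (Lde (X / nm g) L ε d e) g d e,
        ‖dGg (TP320.sq q (Φ.w j)) (X / nm g) g d e f l (σ + t * Complex.I)‖ ^ 2 ≤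
      (1 / (nm g : ℝ)) * (512 * (X * L) ^ ε * (B ^ 2 * X ^ (2 * σ) * S1) * (L * X) * S1) := by
      intro g hg
      rw [Finset.mem_filter] at hg
      have hgp := ((mem_S hX0.le).1 hg.1).2.1
      have e2 : ∀ f ∈ S X, L / nm f * ∑ l ∈ Ql Q (Lde (X / nm g) L ε d e) g d e,
          ‖dGg (TP320.sq q (Φ.w j)) (X / nm g) g d e f l (σ + t * Complex.I)‖ ^ 2 ≤
          (1 / (nm g : ℝ)) * (512 * (X * L) ^ ε * (B ^ 2 * X ^ (2 * σ) * S1) * (L * X)) *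
            (1 / (nm f : ℝ)) := by
        intro f hf
        have h3' := short_g D.X1 D.L1 D.σ0 D.ε0 D.hB hB0 D.hS hgp hd
          ((mem_S hX0.le).1 hf).2.1 (e := e) hg.2 t
        have h3 := le_trans (Finset.sum_le_sum_of_subset_of_nonneg (Finset.filter_subset
          (fun l => Q (l * (g * (d * e * sq3)) ^ 2)) (bl (Lde (X / nm g) L ε d e)))
          (fun l _ _ => by positivity)) h3'
        have h4 := mul_le_mul_of_nonneg_left h3 (show 0 ≤ L / (nm f : ℝ) by positivity)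
        refine h4.trans (le_of_eq ?_)
        ring
      refine (Finset.sum_le_sum e2).trans ?_
      rw [← Finset.mul_sum]
      refine (mul_le_mul_of_nonneg_left D.hS (by positivity)).trans (le_of_eq ?_)
      ring
    refine (Finset.sum_le_sum e1).trans ?_
    rw [← Finset.sum_mul]
    have e3 : ∑ g ∈ (S X).filter (fun g => ¬ Long X L d e g), 1 / (nm g : ℝ) ≤ S1 := by
      refine le_trans ?_ D.hS
      exact Finset.sum_le_sum_of_subset_of_nonneg (Finset.filter_subset _ _)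
        (fun _ _ _ => by positivity)
    refine (mul_le_mul_of_nonneg_right e3 (by positivity)).trans (le_of_eq ?_)
    unfold K1
    ring
  have h3 : (1 : ℝ) ≤ ((1 + |t|) ^ A) ^ 2 := by
    apply one_le_pow₀
    exact Real.one_le_rpow (by linarith [abs_nonneg t]) D.ok.A0
  have hK1 : 0 ≤ K1 X L B σ ε S1 := by unfold K1; positivity
  calc _ ≤ (Real.log X + 1) * (C ^ 2 * X ^ (2 * ε + 2 * σ) * Real.exp (Φ.len j + R) *
        (S1 * Tt * a) * Φ.ht j ^ 2 * ((1 + |t|) ^ A) ^ 2) + K1 X L B σ ε S1 := add_le_add h1 h2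
    _ ≤ K2 X C σ ε (Real.exp (Φ.len j + R)) S1 Tt a (Φ.ht j) * ((1 + |t|) ^ A) ^ 2 +
        K1 X L B σ ε S1 * ((1 + |t|) ^ A) ^ 2 := by
        refine add_le_add (le_of_eq ?_) (le_mul_of_one_le_right hK1 h3)
        unfold K2
        ring
    _ = _ := by ring

/-- integrated over `t` -/
theorem de_intQ (Q : Eis → Prop) {J : Type} {Φ : Fam J} {R A ε σ C : ℝ} {j : J} {q d e : Eis} {M : ℕ}
    {X L Λ a Tt S1 B : ℝ} (D : DatQ Q Φ R A ε σ C j q X L Λ a Tt S1 B) (hd : IsPrim d) (he : e ≠ 0)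
    (hM : A + 1 ≤ M)
    (hΛ : 18 * (X * L) ^ ε * (nm e : ℝ) ^ 3 * X ^ 2 / L ≤ Λ) :
    ∑ g ∈ S X, ∑ f ∈ S X, L / nm f *
      DICgQ Q M σ (TP320.sq q (Φ.w j)) (X / nm g) g d e f (Lde (X / nm g) L ε d e) ≤
    (K1 X L B σ ε S1 + K2 X C σ ε (Real.exp (Φ.len j + R)) S1 Tt a (Φ.ht j)) *
      ((2 : ℝ) ^ A * Real.pi) := by
  have hX0 : 0 < X := by linarith [D.X1]
  have hL0 : 0 < L := by linarith [D.L1]
  have hA0 := D.ok.A0
  have hM1 : 1 ≤ M := by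
    have : (1 : ℝ) ≤ M := by linarith
    exact_mod_cast this
  have hS10 : 0 ≤ S1 := le_trans (Finset.sum_nonneg fun _ _ => by positivity) D.hS
  have hlogX : 0 ≤ Real.log X := Real.log_nonneg D.X1
  have hK : 0 ≤ K1 X L B σ ε S1 + K2 X C σ ε (Real.exp (Φ.len j + R)) S1 Tt a (Φ.ht j) := by
    have := D.B0
    have := D.T0
    have := D.a0
    unfold K1 K2
    positivity
  have hint : ∀ g f : Eis, Integrable (fun t : ℝ => L / nm f * (((1 + t ^ 2) ^ M)⁻¹ *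
      ∑ l ∈ Ql Q (Lde (X / nm g) L ε d e) g d e,
        ‖dGg (TP320.sq q (Φ.w j)) (X / nm g) g d e f l (σ + t * Complex.I)‖ ^ 2)) := fun g f =>
    (integrable_DICgQ Q hM1 σ (by positivity) _ g d e f _).const_mul _
  have e1 : ∑ g ∈ S X, ∑ f ∈ S X, L / nm f *
      DICgQ Q M σ (TP320.sq q (Φ.w j)) (X / nm g) g d e f (Lde (X / nm g) L ε d e) =
      ∫ t : ℝ, ∑ g ∈ S X, ∑ f ∈ S X, L / nm f * (((1 + t ^ 2) ^ M)⁻¹ *
        ∑ l ∈ Ql Q (Lde (X / nm g) L ε d e) g d e,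
          ‖dGg (TP320.sq q (Φ.w j)) (X / nm g) g d e f l (σ + t * Complex.I)‖ ^ 2) := by
    rw [integral_finsetSum _ (fun g _ => integrable_finsetSum _ fun f _ => hint g f)]
    refine Finset.sum_congr rfl fun g _ => ?_
    rw [integral_finsetSum _ (fun f _ => hint g f)]
    refine Finset.sum_congr rfl fun f _ => ?_
    unfold DICgQ
    rw [← integral_const_mul]
  rw [e1]
  have e2 : (K1 X L B σ ε S1 + K2 X C σ ε (Real.exp (Φ.len j + R)) S1 Tt a (Φ.ht j)) *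
      ((2 : ℝ) ^ A * Real.pi) = ∫ t : ℝ,
      (K1 X L B σ ε S1 + K2 X C σ ε (Real.exp (Φ.len j + R)) S1 Tt a (Φ.ht j)) *
      ((2 : ℝ) ^ A * (1 + t ^ 2)⁻¹) := by
    rw [integral_const_mul, integral_const_mul, integral_univ_inv_one_add_sq]
  rw [e2]
  refine integral_mono (integrable_finsetSum _ fun g _ => integrable_finsetSum _ fun f _ =>
    hint g f) ((integrable_inv_one_add_sq.const_mul _).const_mul _) (fun t => ?_)
  show ∑ g ∈ S X, ∑ f ∈ S X, L / nm f * (((1 + t ^ 2) ^ M)⁻¹ *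
        ∑ l ∈ Ql Q (Lde (X / nm g) L ε d e) g d e,
          ‖dGg (TP320.sq q (Φ.w j)) (X / nm g) g d e f l (σ + t * Complex.I)‖ ^ 2) ≤ _
  have e3 : ∑ g ∈ S X, ∑ f ∈ S X, L / nm f * (((1 + t ^ 2) ^ M)⁻¹ *
        ∑ l ∈ Ql Q (Lde (X / nm g) L ε d e) g d e,
          ‖dGg (TP320.sq q (Φ.w j)) (X / nm g) g d e f l (σ + t * Complex.I)‖ ^ 2) =
      ((1 + t ^ 2) ^ M)⁻¹ * ∑ g ∈ S X, ∑ f ∈ S X, L / nm f *
        ∑ l ∈ Ql Q (Lde (X / nm g) L ε d e) g d e,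
          ‖dGg (TP320.sq q (Φ.w j)) (X / nm g) g d e f l (σ + t * Complex.I)‖ ^ 2 := by
    rw [Finset.mul_sum]
    refine Finset.sum_congr rfl fun g _ => ?_
    rw [Finset.mul_sum]
    refine Finset.sum_congr rfl fun f _ => ?_
    ring
  rw [e3]
  have h1 := de_tQ Q (t := t) D hd he hΛ
  calc _ ≤ ((1 + t ^ 2) ^ M)⁻¹ * ((K1 X L B σ ε S1 +
        K2 X C σ ε (Real.exp (Φ.len j + R)) S1 Tt a (Φ.ht j)) * ((1 + |t|) ^ A) ^ 2) :=
        mul_le_mul_of_nonneg_left h1 (by positivity)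
    _ = (K1 X L B σ ε S1 + K2 X C σ ε (Real.exp (Φ.len j + R)) S1 Tt a (Φ.ht j)) *
        (((1 + t ^ 2) ^ M)⁻¹ * ((1 + |t|) ^ A) ^ 2) := by ring
    _ ≤ _ := mul_le_mul_of_nonneg_left (ker_ht hA0 hM t) hK

open Classical in
/-- all the dual terms -/
theorem dual_allQ (Q : Eis → Prop) {J : Type} {Φ : Fam J} {R A ε σ C : ℝ} {j : J} {q : Eis} {M : ℕ}
    {X L Λ a Tt S1 B : ℝ} (D : DatQ Q Φ R A ε σ C j q X L Λ a Tt S1 B) (hM : A + 1 ≤ M)
    (hΛ : 18 * (X * L) ^ ε * (X ^ ε) ^ 3 * X ^ 2 / L ≤ Λ) :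
    ∑ g ∈ S X, DDGQ Q M σ (X / nm g) L (X ^ ε) ε (TP320.sq q (Φ.w j)) g ≤
      (16 * X ^ ε) ^ 2 *
      ((K1 X L B σ ε S1 + K2 X C σ ε (Real.exp (Φ.len j + R)) S1 Tt a (Φ.ht j)) *
      ((2 : ℝ) ^ A * Real.pi)) := by
  have hX0 : 0 < X := by linarith [D.X1]
  have hL0 : 0 < L := by linarith [D.L1]
  have hXe : 0 ≤ X ^ ε := by positivity
  set P := (S X).filter (fun d => (nm d : ℝ) ≤ X ^ ε) with hP
  have hPm : ∀ d ∈ P, d ∈ S X ∧ (nm d : ℝ) ≤ X ^ ε := fun d hd => Finset.mem_filter.1 hd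
  have hcard : (P.card : ℝ) ≤ 16 * X ^ ε := by
    refine le_trans ?_ (cardS_le hXe)
    have : P ⊆ S (X ^ ε) := fun d hd => by
      rw [mem_S hXe]
      exact ⟨(hPm d hd).2, ((mem_S hX0.le).1 (hPm d hd).1).2⟩
    exact_mod_cast Finset.card_le_card this
  set F : Eis → Eis → Eis → Eis → ℝ := fun g d e f => L / nm f *
    DICgQ Q M σ (TP320.sq q (Φ.w j)) (X / nm g) g d e f (Lde (X / nm g) L ε d e) with hF
  have hF0 : ∀ g d e f, 0 ≤ F g d e f := fun g d e f => by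
    simp only [hF]
    exact mul_nonneg (by positivity) (DICgQ_nonneg Q _ _ _ _ _ _ _ _ _)
  have step1 : ∀ g ∈ S X, DDGQ Q M σ (X / nm g) L (X ^ ε) ε (TP320.sq q (Φ.w j)) g ≤
      ∑ d ∈ P, ∑ e ∈ P, ∑ f ∈ S X, F g d e f := by
    intro g hg
    have hg' := (mem_S hX0.le).1 hg
    have hg1 : (1 : ℝ) ≤ nm g := by exact_mod_cast nm_pos.2 hg'.2.1.ne_zero
    have hX' : 0 ≤ X / nm g := by positivity
    have hsub : S (X / nm g) ⊆ S X := S_mono hX' (div_le_self hX0.le hg1)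
    unfold DDGQ
    have h1 : (S (X / nm g)).filter (fun d => (nm d : ℝ) ≤ X ^ ε) ⊆ P := by
      intro d hd
      rw [Finset.mem_filter] at hd
      rw [hP, Finset.mem_filter]
      exact ⟨hsub hd.1, hd.2⟩
    refine le_trans ?_ (Finset.sum_le_sum_of_subset_of_nonneg h1 (fun d _ _ =>
      Finset.sum_nonneg fun e _ => Finset.sum_nonneg fun f _ => hF0 g d e f))
    refine Finset.sum_le_sum fun d hd => ?_
    rw [Finset.mem_filter] at hd
    have hd' := (mem_S hX').1 hd.1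
    have h2 : (S (X / nm g)).filter (fun x => x ∣ d) ⊆ P := by
      intro e he
      rw [Finset.mem_filter] at he
      rw [hP, Finset.mem_filter]
      refine ⟨hsub he.1, le_trans ?_ hd.2⟩
      exact_mod_cast Div277.nm_le_of_dvd hd'.2.1.ne_zero he.2
    refine le_trans ?_ (Finset.sum_le_sum_of_subset_of_nonneg h2 (fun e _ _ =>
      Finset.sum_nonneg fun f _ => hF0 g d e f))
    refine Finset.sum_le_sum fun e _ => ?_
    exact Finset.sum_le_sum_of_subset_of_nonneg hsub (fun f _ _ => hF0 g d e f)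
  refine (Finset.sum_le_sum step1).trans ?_
  have step2 : ∑ g ∈ S X, ∑ d ∈ P, ∑ e ∈ P, ∑ f ∈ S X, F g d e f =
      ∑ d ∈ P, ∑ e ∈ P, ∑ g ∈ S X, ∑ f ∈ S X, F g d e f := by
    rw [Finset.sum_comm]
    refine Finset.sum_congr rfl fun d _ => ?_
    rw [Finset.sum_comm]
  rw [step2]
  set KK := (K1 X L B σ ε S1 + K2 X C σ ε (Real.exp (Φ.len j + R)) S1 Tt a (Φ.ht j)) *
      ((2 : ℝ) ^ A * Real.pi) with hKK
  have hS10 : 0 ≤ S1 := le_trans (Finset.sum_nonneg fun _ _ => by positivity) D.hS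
  have hlogX : 0 ≤ Real.log X := Real.log_nonneg D.X1
  have hKK0 : 0 ≤ KK := by
    have := D.B0
    have := D.T0
    have := D.a0
    have := Real.pi_pos
    simp only [hKK]
    unfold K1 K2
    positivity
  have step3 : ∀ d ∈ P, ∀ e ∈ P, ∑ g ∈ S X, ∑ f ∈ S X, F g d e f ≤ KK := by
    intro d hd e he
    have hd' := ((mem_S hX0.le).1 (hPm d hd).1).2.1
    have he' := ((mem_S hX0.le).1 (hPm e he).1).2.1
    refine de_intQ Q D hd' he'.ne_zero hM (le_trans ?_ hΛ)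
    have h1 : (nm e : ℝ) ^ 3 ≤ (X ^ ε) ^ 3 :=
      pow_le_pow_left₀ (Nat.cast_nonneg _) (hPm e he).2 3
    gcongr
  calc ∑ d ∈ P, ∑ e ∈ P, ∑ g ∈ S X, ∑ f ∈ S X, F g d e f ≤ ∑ d ∈ P, ∑ e ∈ P, KK :=
        Finset.sum_le_sum fun d hd => Finset.sum_le_sum fun e he => step3 d hd e he
    _ = (P.card : ℝ) ^ 2 * KK := by
        rw [Finset.sum_const, Finset.sum_const, nsmul_eq_mul, nsmul_eq_mul]; ring
    _ ≤ (16 * X ^ ε) ^ 2 * KK :=
        mul_le_mul_of_nonneg_right (pow_le_pow_left₀ (Nat.cast_nonneg _) hcard 2) hKK0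

end Crest.Agent.R017.GE241
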