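import Crest.Agent.R017.GE3_241
import Crest.Agent.R017.HP1_842

/-!
# Row 17, exceptional class: the rule (P'_ex) for closed families (helper241)

* `GE_rule` : the bias-corrected Gauss side of a closed family against ONE dual family over the
  noncubes, plus the cross terms `KCr`
-/

set_option autoImplicit false

noncomputable section

open MeasureTheory Finset
open scoped ComplexConjugate

namespace Crest.Agent.R017.GE241

open Crest.Agent.R012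
open Eis CharSum852 Gauss880 Tau671 Mob705 LS2 CR2 DualIneq811 MelSep811
open Crest.Agent.R017.PA842 (V Supp V_nonneg summable_V Lde_nonneg)
open Crest.Agent.R017.PM106 Crest.Agent.R017.PG106 Crest.Agent.R017.PI106
open Crest.Agent.R017.CM106 (CS TG FS)
open Crest.Agent.R017.TP320 (VC VG Fam SplitAt tw sq)
open Crest.Agent.R017.GR106
open Crest.Agent.R017.PX764 (VR Rf Dk)
open Crest.Agent.R017.PX6 (DDT KKT DICt dsT iterExG)
open Crest.Agent.R017.PX5 (fq2)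
open Div277 (tau dvs mem_dvs tau_le_rpow)

/-- the cross terms of all levels -/
def KCr (X L Y : ℝ) (w : Eis → ℂ) : ℝ := ∑ g ∈ S X, KKT (X / nm g) L Y g (PA842.sub w g)

lemma KCr_nonneg (X L Y : ℝ) (w : Eis → ℂ) : 0 ≤ KCr X L Y w :=
  Finset.sum_nonneg fun _ _ => PX6.KKT_nonneg _ _ _ _ _

lemma KCr_zero (X L Y : ℝ) : KCr X L Y 0 = 0 := by
  unfold KCr
  refine Finset.sum_eq_zero fun g _ => ?_
  have : PA842.sub (0 : Eis → ℂ) g = 0 := rfl
  rw [this, PX6.KKT_zero]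

/-- the bias-corrected Gauss side over a ball -/
def VK (L : ℝ) (α : Eis → ℂ) : ℝ := ∑ x ∈ bl L, ‖HP842.KS Dk α x‖ ^ 2

lemma VK_nonneg (L : ℝ) (α : Eis → ℂ) : 0 ≤ VK L α := Finset.sum_nonneg fun _ _ => by positivity

lemma KS_eq_Rf {X : ℝ} {w : Eis → ℂ} (hw : Supp w X) (x : Eis) : HP842.KS Dk w x = Rf X w x := by
  unfold HP842.KS Rf
  apply tsum_eq_sum
  intro n hn
  have : w n = 0 := by
    by_contra h
    exact hn (hw n h)
  rw [this, zero_mul]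

lemma VK_le_VR {X L : ℝ} (hX : 0 ≤ X) (hL : 0 < L) {w : Eis → ℂ} (hw : Supp w X) :
    VK L w ≤ Real.exp 1 * VR X L w := by
  classical
  rw [← PX6.VRt_one]
  unfold VK PX6.VRt
  have hs := PX6.summable_VRt hL hX (g := 1) one_ne_zero w
  have h2 : ∑ x ∈ bl L, ‖HP842.KS Dk w x‖ ^ 2 ≤ Real.exp 1 * ∑ x ∈ bl L,
      (PX5.wL L x * ‖Rf X w (1 * x)‖ ^ 2) := by
    rw [Finset.mul_sum]
    refine Finset.sum_le_sum fun x hx => ?_
    have hx' := (mem_bl hL.le).1 hx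
    unfold PX5.wL
    rw [if_neg hx'.1, KS_eq_Rf hw, ← mul_assoc, one_mul]
    refine le_mul_of_one_le_left (by positivity) ?_
    rw [← Real.exp_add]
    apply Real.one_le_exp
    have : (nm x : ℝ) / L ≤ 1 := by rw [div_le_one hL]; exact hx'.2
    rw [neg_div]
    linarith
  refine h2.trans (mul_le_mul_of_nonneg_left ?_ (Real.exp_pos 1).le)
  exact hs.sum_le_tsum _ (fun x _ => mul_nonneg (PX5.wL_nonneg L x) (by positivity))

lemma DICt_sub_eq (M : ℕ) (σ : ℝ) (w : Eis → ℂ) (X : ℝ) (g d e f : Eis) (L : ℝ) :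
    DICt M σ (PA842.sub w g) X g d e f L = DICgQ T411.NCube M σ w X g d e f L := by
  classical
  have h1 : ∀ l, fq2 (g * d) e l = l * (g * (d * e * sq3)) ^ 2 := by
    intro l; unfold PX5.fq2; ring
  have h2 : ∀ l s, dsT (PA842.sub w g) X g d e f l s = dGg w X g d e f l s := by
    intro l s
    unfold PX6.dsT dGg PA842.sub
    refine Finset.sum_congr rfl fun k _ => ?_
    rw [h1 l, show g * (d * f * k) = g * d * f * k by ring,
      show l * (g * (d * e * sq3)) ^ 2 = l * (g * d * e * sq3) ^ 2 by ring]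
  unfold PX6.DICt DICgQ Ql
  congr 1
  funext t
  congr 1
  apply Finset.sum_congr
  · ext l
    simp only [Finset.mem_filter, h1]
  · intro l _
    rw [h2]

lemma DDT_sub_eq (M : ℕ) (σ X L Y ε : ℝ) (w : Eis → ℂ) (g : Eis) :
    DDT M σ X L Y ε g (PA842.sub w g) = DDGQ T411.NCube M σ X L Y ε w g := by
  classical
  unfold PX6.DDT DDGQ
  apply Finset.sum_congr
  · ext d; simp only [Finset.mem_filter]
  · intro d _
    apply Finset.sum_congr
    · ext e; simp only [Finset.mem_filter]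
    · intro e _
      refine Finset.sum_congr rfl fun f _ => ?_
      rw [DICt_sub_eq]

/-- final arithmetic -/
lemma fin_arithX {C1 C2 C3 C4 C5 C6 P κ u v z L E a h VGv D0 k1 k2 K : ℝ}
    (hC1 : 0 ≤ C1) (hC4 : 0 ≤ C4) (hC5 : 0 ≤ C5)
    (hC6 : 0 ≤ C6) (hP : 0 ≤ P) (hκ : 1 ≤ κ) (hu : 1 ≤ u) (hv1 : 1 ≤ v) (hv : v ≤ κ * u)
    (hz : 1 ≤ z) (hL : 0 ≤ L) (hE : 0 ≤ E) (ha : 0 ≤ a) (hh : 1 ≤ h) (hK : 0 ≤ K)
    (hD0 : 0 ≤ D0) (hk : 0 ≤ k1 + k2)
    (hD : D0 ≤ 16 * (κ * E) * (C2 * v) ^ 2)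
    (hk1 : k1 ≤ 512 * (κ * u ^ 2) * ((C2 * v) ^ 2 * v ^ 2 * (C5 * v)) * (L * (κ * E)) *
      (C5 * v) ^ 2)
    (hk2 : k2 ≤ C6 * v * (C3 ^ 2 * v ^ 4 * (κ * E) * ((C5 * v) * (C4 * (18 * κ ^ 6) * z) * a) *
      h ^ 2))
    (hV : VGv ≤ C1 * (κ * u ^ 2) * ((κ * E + L) * D0 + v ^ 3 * ((16 * v) ^ 2 * ((k1 + k2) * P)) +
      K)) :
    VGv ≤ (C1 * κ ^ 22 * (1 + 16 * C2 ^ 2 + 256 * P * (512 * C2 ^ 2 * C5 ^ 3 +
      18 * C6 * C3 ^ 2 * C5 * C4))) * (u ^ 17 * z) * ((E + L + a) * E * h ^ 2 + K) := by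
  have hκ0 : 0 ≤ κ := by linarith
  have hu0 : 0 ≤ u := by linarith
  have hz0 : 0 ≤ z := by linarith
  have hv0 : 0 ≤ v := by linarith
  have hL' : 0 ≤ κ * E + L := by positivity
  have hk1' : k1 ≤ 512 * (κ * u ^ 2) * ((C2 * v) ^ 2 * v ^ 2 * (C5 * v)) *
      ((κ * E + L) * (κ * E)) * (C5 * v) ^ 2 := by
    refine hk1.trans ?_
    have : L ≤ κ * E + L := by
      have : 0 ≤ κ * E := by positivity
      linarith
    gcongr
  have hA : 0 ≤ (κ * E + L) * D0 + v ^ 3 * ((16 * v) ^ 2 * ((k1 + k2) * P)) := by positivity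
  have h1 := fin_arith (e1 := κ * u ^ 2) (C1 := C1) (C2 := C2) (C3 := C3) (C4 := C4) (C5 := C5)
    (C6 := C6) (P := P) (κ := κ) (u := u) (v := v) (z := z) (L := κ * E + L) (E := E) (a := a)
    (h := h) (D0 := D0) (k1 := k1) (k2 := k2)
    (VGv := κ * u ^ 2 * (C1 * v * ((κ * E + L) * D0 + v ^ 3 * ((16 * v) ^ 2 * ((k1 + k2) * P)))))
    (by positivity) hC1 hC4 hC5 hC6 hP hκ hu hv0 hv hz hL' hE ha hh hD hk1' hk2 le_rfl
  set c := 16 * C2 ^ 2 + 256 * P * (512 * C2 ^ 2 * C5 ^ 3 + 18 * C6 * C3 ^ 2 * C5 * C4) with hc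
  have hc0 : 0 ≤ c := by positivity
  have h2 : C1 * (κ * u ^ 2) * ((κ * E + L) * D0 + v ^ 3 * ((16 * v) ^ 2 * ((k1 + k2) * P))) ≤
      κ * u ^ 2 * (C1 * v * ((κ * E + L) * D0 + v ^ 3 * ((16 * v) ^ 2 * ((k1 + k2) * P)))) := by
    have : C1 * (κ * u ^ 2) * ((κ * E + L) * D0 + v ^ 3 * ((16 * v) ^ 2 * ((k1 + k2) * P))) * 1 ≤
      C1 * (κ * u ^ 2) * ((κ * E + L) * D0 + v ^ 3 * ((16 * v) ^ 2 * ((k1 + k2) * P))) * v :=
      mul_le_mul_of_nonneg_left hv1 (by positivity)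
    calc _ = C1 * (κ * u ^ 2) * ((κ * E + L) * D0 + v ^ 3 * ((16 * v) ^ 2 * ((k1 + k2) * P))) * 1 := by
          ring
      _ ≤ _ := this
      _ = _ := by ring
  have h3 : κ * E + L + a ≤ κ * (E + L + a) := by
    have t1 : L ≤ κ * L := le_mul_of_one_le_left hL hκ
    have t2 : a ≤ κ * a := le_mul_of_one_le_left ha hκ
    linarith
  have h4 : κ * u ^ 2 * C1 * κ ^ 20 * c * (u ^ 15 * z) * (κ * E + L + a) * E * h ^ 2 ≤
      C1 * κ ^ 22 * c * (u ^ 17 * z) * ((E + L + a) * E * h ^ 2) := by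
    calc κ * u ^ 2 * C1 * κ ^ 20 * c * (u ^ 15 * z) * (κ * E + L + a) * E * h ^ 2
        ≤ κ * u ^ 2 * C1 * κ ^ 20 * c * (u ^ 15 * z) * (κ * (E + L + a)) * E * h ^ 2 := by
          gcongr
      _ = _ := by ring
  have h5 : C1 * (κ * u ^ 2) * K ≤ C1 * κ ^ 22 * (u ^ 17 * z) * K := by
    have t1 : κ ≤ κ ^ 22 := le_self_pow₀ hκ (by norm_num)
    have t2 : u ^ 2 ≤ u ^ 17 := pow_le_pow_right₀ hu (by norm_num)
    have t3 : u ^ 2 ≤ u ^ 17 * z := t2.trans (le_mul_of_one_le_right (by positivity) hz)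
    calc C1 * (κ * u ^ 2) * K ≤ C1 * (κ ^ 22 * (u ^ 17 * z)) * K := by gcongr
      _ = _ := by ring
  have h6 : 0 ≤ C1 * κ ^ 22 * (u ^ 17 * z) * ((E + L + a) * E * h ^ 2) := by positivity
  have h7 : 0 ≤ C1 * κ ^ 22 * c * (u ^ 17 * z) * K := by positivity
  calc VGv ≤ C1 * (κ * u ^ 2) * ((κ * E + L) * D0 + v ^ 3 * ((16 * v) ^ 2 * ((k1 + k2) * P))) +
        C1 * (κ * u ^ 2) * K := by rw [← mul_add]; exact hV
    _ ≤ C1 * κ ^ 22 * c * (u ^ 17 * z) * ((E + L + a) * E * h ^ 2) +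
        C1 * κ ^ 22 * (u ^ 17 * z) * K := add_le_add (h2.trans (h1.trans h4)) h5
    _ ≤ C1 * κ ^ 22 * c * (u ^ 17 * z) * ((E + L + a) * E * h ^ 2) +
        C1 * κ ^ 22 * (u ^ 17 * z) * K + (C1 * κ ^ 22 * (u ^ 17 * z) * ((E + L + a) * E * h ^ 2) +
        C1 * κ ^ 22 * c * (u ^ 17 * z) * K) := by linarith
    _ = _ := by ring

end Crest.Agent.R017.GE241
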