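import Crest.Agent.R017.Loc1_266
import Crest.Agent.R017.Sx1_440

/-!
# Row 17: Gauss sums at `2` against the genuine (metaplectic) weight

`th2 c = Σ_{y mod 2} e(-c y²/4)` (so `-(i/2) th2 c` is the weight `G₂(c)` on squarefree odd primary
`c`), `S2 χ v r = Σ_{c mod 2^r} χ(c) th2(c) e(v c/(√-3 2^r))`.

* `S2_eq` : `S2 χ v r = Σ_{y mod 2} gl χ (v - 2^{r-2} √-3 y²)`;
* `Pure2 r χ` : `χ` is not of Hilbert type: (`r ≥ 4` and `χ` primitive) or (`r = 3`, `χ(5) ≠ 1`);
* `norm_S2_sq` : `|S2|² = 4^{r+1}` for odd `v`, `S2_eq_zero` : `S2 = 0` for even `v`.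
-/

set_option autoImplicit false

noncomputable section

open Complex
open scoped ComplexConjugate

namespace Crest.Agent.R017.GG90

open Crest.Agent.R012 Crest.Agent.R012.Eis Crest.Agent.R012.Gauss880 Crest.Agent.R017.Loc266
open Crest.Agent.R017.Sx440

variable {χ : Eis → ℂ} {r : ℕ}

lemma two_ne : (2 : Eis) ≠ 0 := prime_two.ne_zero

lemma pow2_ne (r : ℕ) : (2 : Eis) ^ r ≠ 0 := pow_ne_zero _ two_ne

lemma od_iff' {c : Eis} : Od c ↔ IsCoprime c 2 := od_iff.trans isCoprime_comm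

lemma cop_pow2 {c : Eis} (h : Od c) (r : ℕ) : IsCoprime c (2 ^ r) :=
  (od_iff'.mp h).pow_right

lemma od_of_cop {c : Eis} (hr : r ≠ 0) (h : IsCoprime c (2 ^ r)) : Od c :=
  od_iff'.mpr ((IsCoprime.pow_right_iff (Nat.pos_of_ne_zero hr)).mp h)

lemma od_add_two {c : Eis} (h : Od c) (t : Eis) : Od (c + 2 * t) := fun h' =>
  h ((dvd_add_left (dvd_mul_right 2 t)).mp h')

/-- rescaling of the additive character -/
lemma ea_scale {m k : Eis} (hk : k ≠ 0) (s x : Eis) : ea (m * k) (s * k) x = ea m s x := by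
  have hk' := toC_ne_zero hk
  unfold ea
  congr 1
  rw [map_mul, map_mul]
  by_cases hm : toC m = 0
  · rw [hm]; simp
  · have h3 := sq3C_ne
    field_simp

/-- `Σ_{y mod 2} e(-c y²/4)` -/
def th2 (c : Eis) : ℂ := sumMod 2 (fun y => ea 4 (-(sq3 * y ^ 2)) c)

lemma four_ne : (4 : Eis) ≠ 0 := by
  have : (4 : Eis) = 2 ^ 2 := by norm_num
  rw [this]; exact pow2_ne 2

lemma th2_pmod : PMod 4 th2 := by
  intro c t
  unfold th2
  refine sumMod_congr fun y => ?_
  exact pmod_ea four_ne _ c t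

/-- the local sum at `2` -/
def S2 (χ : Eis → ℂ) (v : Eis) (r : ℕ) : ℂ :=
  sumMod (2 ^ r) (fun c => χ c * th2 c * ea (2 ^ r) v c)

/-- reduction to ordinary Gauss sums. -/
theorem S2_eq (hr : 2 ≤ r) (v : Eis) :
    S2 χ v r = sumMod 2 (fun y => gl χ (v - 2 ^ (r - 2) * (sq3 * y ^ 2)) (2 ^ r)) := by
  have h2r := pow2_ne r
  have e1 : ∀ c : Eis, χ c * th2 c * ea (2 ^ r) v c
      = sumMod 2 (fun y => χ c * ea (2 ^ r) (v - 2 ^ (r - 2) * (sq3 * y ^ 2)) c) := by
    intro c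
    have : χ c * th2 c * ea (2 ^ r) v c = (χ c * ea (2 ^ r) v c) * th2 c := by ring
    rw [this]
    unfold th2
    rw [← sumMod_mul_left two_ne]
    refine sumMod_congr fun y => ?_
    have h4 : ea 4 (-(sq3 * y ^ 2)) c = ea (2 ^ r) (-(2 ^ (r - 2) * (sq3 * y ^ 2))) c := by
      have e2 : (2 : Eis) ^ r = 4 * 2 ^ (r - 2) := by
        have : (4 : Eis) = 2 ^ 2 := by norm_num
        rw [this, ← pow_add]; congr 1; omega
      have e3 : -(2 ^ (r - 2) * (sq3 * y ^ 2)) = -(sq3 * y ^ 2) * 2 ^ (r - 2) := by ring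
      rw [e2, e3, ea_scale (pow2_ne _)]
    rw [h4, sub_eq_add_neg, ea_add_left]
    ring
  unfold S2
  rw [sumMod_congr e1, sumMod_comm' h2r two_ne]
  rfl

/-- not of Hilbert type at `2` -/
def Pure2 (r : ℕ) (χ : Eis → ℂ) : Prop :=
  (4 ≤ r ∧ Prm (2 ^ r) χ) ∨ (r = 3 ∧ χ 5 ≠ 1)

lemma Pure2.three_le (h : Pure2 r χ) : 3 ≤ r := by
  rcases h with h | h
  · omega
  · omega

lemma Pure2.prm (hχ : IsCh (2 ^ r) χ) (h : Pure2 r χ) : Prm (2 ^ r) χ := by
  rcases h with h | ⟨rfl, h5⟩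
  · exact h.2
  · intro s hs
    have h2 : (2 : Eis) ∣ s := by
      by_contra hcon
      exact hs (cop_pow2 hcon 3)
    obtain ⟨t, rfl⟩ := h2
    refine ⟨5, ?_, ⟨t, by norm_num; ring⟩, h5⟩
    apply cop_pow2
    intro h
    have : (2 : Eis) ∣ 1 := by
      have h' : (2 : Eis) ∣ 2 * 2 := dvd_mul_right 2 2
      have := dvd_sub h h'
      norm_num at this
      exact this
    exact od_one this

lemma Pure2.conj (h : Pure2 r χ) : Pure2 r (fun x => conj (χ x)) := by
  rcases h with h | h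
  · exact Or.inl ⟨h.1, Prm.conj h.2⟩
  · refine Or.inr ⟨h.1, fun h5 => h.2 ?_⟩
    have := congrArg conj h5
    simpa using this

/-- the key algebraic identity -/
lemma key_id (X z d s : Eis) :
    (1 + X * (z + s + d) ^ 2) * (1 + X * z ^ 2) =
      (1 + X * (z + s) ^ 2) * (1 + X * (z + d) ^ 2)
        + (2 * X * (s * d) - X ^ 2 * (s * d) * (2 * z ^ 2 + 2 * z * (s + d) + s * d)) := by
  ring

/-- for every odd `e`, a shift changing the phase -/
lemma exists_shift (hχ : IsCh (2 ^ r) χ) (hp : Pure2 r χ) {β d : Eis} (hβ : Od β) (hd : Od d) :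
    ∃ s κ, κ ≠ 1 ∧ ∀ z : Eis,
      χ (1 + 2 ^ (r - 2) * β * (z + s + d) ^ 2) * χ (1 + 2 ^ (r - 2) * β * z ^ 2) =
      κ * (χ (1 + 2 ^ (r - 2) * β * (z + s) ^ 2) * χ (1 + 2 ^ (r - 2) * β * (z + d) ^ 2)) := by
  have hβd : Od (β * d) := hβ.mul hd
  obtain ⟨a, b, hab⟩ := od_iff'.mp hβd
  -- a * (β d) + b * 2 = 1
  have h3r := hp.three_le
  have hX2 : ∀ z : Eis, Od (1 + 2 ^ (r - 2) * β * z ^ 2) := by
    intro z
    have e : (2 : Eis) ^ (r - 2) = 2 * 2 ^ (r - 3) := by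
      rw [← pow_succ']; congr 1; omega
    rw [e, show (1 : Eis) + 2 * 2 ^ (r - 3) * β * z ^ 2 = 1 + 2 * (2 ^ (r - 3) * β * z ^ 2) by ring]
    exact od_add_two od_one _
  have hpow : (2 : Eis) ^ r = 2 * 2 ^ (r - 1) := by
    rw [← pow_succ']; congr 1; omega
  have hpow1 : (2 : Eis) ^ (r - 1) = 2 * 2 ^ (r - 2) := by
    rw [← pow_succ']; congr 1; omega
  -- general reduction
  have main : ∀ s q : Eis,
      (∀ z : Eis, (2 : Eis) ^ r ∣ (2 * (2 ^ (r - 2) * β) * (s * d)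
        - (2 ^ (r - 2) * β) ^ 2 * (s * d) * (2 * z ^ 2 + 2 * z * (s + d) + s * d))
          - 2 ^ (r - 1) * q) → χ (1 + 2 ^ (r - 1) * q) ≠ 1 →
      ∃ s κ, κ ≠ 1 ∧ ∀ z : Eis,
        χ (1 + 2 ^ (r - 2) * β * (z + s + d) ^ 2) * χ (1 + 2 ^ (r - 2) * β * z ^ 2) =
        κ * (χ (1 + 2 ^ (r - 2) * β * (z + s) ^ 2) *
          χ (1 + 2 ^ (r - 2) * β * (z + d) ^ 2)) := by
    intro s q hq hκ
    refine ⟨s, χ (1 + 2 ^ (r - 1) * q), hκ, fun z => ?_⟩
    rw [← hχ.mul, ← hχ.mul, ← hχ.mul]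
    apply hχ.per.congr
    rw [key_id]
    have hA := hX2 (z + s)
    set X := (2 : Eis) ^ (r - 2) * β with hXdef
    -- (1 + X(z+s)²)(1+X(z+d)²) ≡ 1 mod 2
    have h2d : (2 : Eis) ∣ (1 + X * (z + s) ^ 2) * (1 + X * (z + d) ^ 2) - 1 := by
      have e : X = 2 * (2 ^ (r - 3) * β) := by
        have : (2 : Eis) ^ (r - 2) = 2 * 2 ^ (r - 3) := by
          rw [← pow_succ']; congr 1; omega
        rw [hXdef, this]; ring
      rw [e]
      refine ⟨(2 ^ (r - 3) * β) * ((z + s) ^ 2 + (z + d) ^ 2)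
        + 2 * (2 ^ (r - 3) * β) ^ 2 * (z + s) ^ 2 * (z + d) ^ 2, by ring⟩
    obtain ⟨t, ht⟩ := hq z
    obtain ⟨w, hw⟩ := h2d
    refine ⟨t - w * q, ?_⟩
    have e5 : (1 + X * (z + s) ^ 2) * (1 + X * (z + d) ^ 2) = 1 + 2 * w := by
      rw [← hw]; ring
    rw [e5]
    have ht' : 2 * X * (s * d) - X ^ 2 * (s * d) * (2 * z ^ 2 + 2 * z * (s + d) + s * d)
      = 2 ^ r * t + 2 ^ (r - 1) * q := by
      rw [← ht]; ring
    rw [ht', hpow]; ring
  rcases hp with ⟨h4, hprm⟩ | ⟨rfl, h5⟩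
  · obtain ⟨u, hu, hu2, hu1⟩ := hprm 2 (fun hc => od_of_cop (by omega) hc dvd_rfl)
    have : ∃ t, u = 1 + 2 ^ (r - 1) * t := by
      obtain ⟨t, ht⟩ := hu2
      refine ⟨t, ?_⟩
      rw [hpow] at ht
      have h' : 2 * (u - 1) = 2 * (2 ^ (r - 1) * t) := by
        rw [show 2 * (u - 1) = (u - 1) * 2 by ring, ht]; ring
      have := mul_left_cancel₀ two_ne h'
      rw [← this]; ring
    obtain ⟨t, rfl⟩ := this
    refine main (a * t) (β * d * (a * t)) (fun z => ?_) ?_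
    · have e2 : (2 : Eis) ^ (r - 2) * 2 ^ (r - 2) = 2 ^ r * 2 ^ (r - 4) := by
        rw [← pow_add, ← pow_add]; congr 1; omega
      have : (2 * (2 ^ (r - 2) * β) * (a * t * d)
        - (2 ^ (r - 2) * β) ^ 2 * (a * t * d) * (2 * z ^ 2 + 2 * z * (a * t + d) + a * t * d))
          - 2 ^ (r - 1) * (β * d * (a * t)) =
        -(((2 : Eis) ^ (r - 2) * 2 ^ (r - 2)) * (β ^ 2 * (a * t * d) *
          (2 * z ^ 2 + 2 * z * (a * t + d) + a * t * d))) := by
        rw [hpow1]; ring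
      rw [this, e2]
      refine ⟨-(2 ^ (r - 4) * (β ^ 2 * (a * t * d) *
          (2 * z ^ 2 + 2 * z * (a * t + d) + a * t * d))), by ring⟩
    · intro h1
      apply hu1
      rw [← h1]
      apply hχ.per.congr
      refine ⟨b * t, ?_⟩
      have e : β * d * (a * t) = t - b * 2 * t := by
        linear_combination t * hab
      rw [e, hpow]; ring
  · -- r = 3
    refine main (a * w) (β * d * (a * w) - (β * d * (a * w)) ^ 2) (fun z => ?_) ?_
    · norm_num
      refine ⟨-(β ^ 2 * (a * w * d) * (z ^ 2 + z * (a * w + d))), by ring⟩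
    · norm_num
      intro h1
      apply h5
      rw [← h1]
      apply hχ.per.congr
      -- 5 - (1 + 4 (ω' - ω'^2)), with ω' = ω - 2bω
      have e : β * d * (a * w) = w - 2 * b * w := by
        linear_combination w * hab
      rw [e]
      have hom : w ^ 2 = -1 - w := w_sq
      refine ⟨-w + b * w + 2 * b ^ 2 * w ^ 2 - 2 * b * w ^ 2, ?_⟩
      norm_num
      linear_combination (4 : Eis) * hom

/-- the quadratic exponential sum `Σ_{y mod 2} χ(1 + 2^{r-2} β y²)` has absolute value `2` -/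
def T2 (χ : Eis → ℂ) (r : ℕ) (β : Eis) : ℂ :=
  sumMod 2 (fun y => χ (1 + 2 ^ (r - 2) * β * y ^ 2))

lemma per_T2 (hr : 2 ≤ r) (hχ : IsCh (2 ^ r) χ) (β : Eis) :
    PMod 2 (fun y => χ (1 + 2 ^ (r - 2) * β * y ^ 2)) := by
  intro y t
  beta_reduce
  apply hχ.per.congr
  have e : (2 : Eis) ^ r = 2 ^ (r - 2) * 4 := by
    have : (4 : Eis) = 2 ^ 2 := by norm_num
    rw [this, ← pow_add]; congr 1; omega
  refine ⟨β * (y * t + t ^ 2), ?_⟩
  rw [e]; ring

theorem norm_T2_sq (hχ : IsCh (2 ^ r) χ) (hp : Pure2 r χ) {β : Eis} (hβ : Od β) :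
    ‖T2 χ r β‖ ^ 2 = 4 := by
  classical
  have h3r := hp.three_le
  have hr2 : 2 ≤ r := by omega
  have h2r := pow2_ne r
  have hP := per_T2 hr2 hχ β
  set f : Eis → ℂ := fun y => χ (1 + 2 ^ (r - 2) * β * y ^ 2) with hf
  have hunit : ∀ y, f y * conj (f y) = 1 := by
    intro y
    refine hχ.mul_conj_self h2r (cop_pow2 ?_ r)
    have e : (2 : Eis) ^ (r - 2) = 2 * 2 ^ (r - 3) := by
      rw [← pow_succ']; congr 1; omega
    rw [e, show (1 : Eis) + 2 * 2 ^ (r - 3) * β * y ^ 2 = 1 + 2 * (2 ^ (r - 3) * β * y ^ 2) by ring]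
    exact od_add_two od_one _
  have e1 : T2 χ r β * conj (T2 χ r β)
      = sumMod 2 (fun d => sumMod 2 (fun z => f (z + d) * conj (f z))) := by
    unfold T2
    rw [sumMod_star two_ne]
    rw [← sumMod_mul_left two_ne]
    rw [sumMod_comm' two_ne two_ne (fun d z => f (z + d) * conj (f z))]
    refine sumMod_congr fun z => ?_
    rw [← sumMod_shift two_ne hP z, sumMod_mul_right two_ne]
    congr 1
    refine sumMod_congr fun d => ?_
    rw [add_comm]
  have e2 : ∀ d : Eis, sumMod 2 (fun z => f (z + d) * conj (f z))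
      = (if (2 : Eis) ∣ d then 4 else 0 : ℂ) := by
    intro d
    by_cases hd : (2 : Eis) ∣ d
    · rw [if_pos hd]
      obtain ⟨t, rfl⟩ := hd
      have : ∀ z, f (z + 2 * t) * conj (f z) = 1 := by
        intro z
        rw [hP z t, hunit]
      rw [sumMod_congr this, SumMod880.sumMod_const two_ne]
      have : nm (2 : Eis) = 4 := by
        have := nm_natCast 2
        push_cast at this; rw [this]
      rw [this]; norm_num
    · rw [if_neg hd]
      obtain ⟨s, κ, hκ, h⟩ := exists_shift hχ hp hβ hd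
      refine SumMod880.sumMod_eq_zero_of_shift two_ne ?_ s κ hκ (fun z => ?_)
      · intro x y hxy
        have h1 : f (x + d) = f (y + d) := hP.congr (by
          rwa [show x + d - (y + d) = x - y by ring])
        beta_reduce
        rw [h1, hP.congr hxy]
      · have h1 := h z
        -- f(z+s+d) f(z) = κ f(z+s) f(z+d)
        have h2 : f (z + s + d) * f z = κ * (f (z + s) * f (z + d)) := h1
        have h3 := hunit z
        have h4 := hunit (z + s)
        calc f (z + s + d) * conj (f (z + s))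
            = (f (z + s + d) * f z) * conj (f z) * conj (f (z + s)) := by
              linear_combination (-(f (z + s + d) * conj (f (z + s)))) * h3
          _ = κ * (f (z + d) * conj (f z)) := by
              rw [h2]
              linear_combination (κ * (f (z + d) * conj (f z))) * h4
  rw [sumMod_congr e2] at e1
  have e3 : sumMod 2 (fun d => (if (2 : Eis) ∣ d then 4 else 0 : ℂ)) = 4 := by
    have h1 := sumMod_ea two_ne (0 : Eis)
    have hper : PMod 2 (fun d : Eis => (if (2 : Eis) ∣ d then 4 else 0 : ℂ)) := by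
      intro d t
      have : (2 : Eis) ∣ d + 2 * t ↔ (2 : Eis) ∣ d := dvd_add_left (dvd_mul_right 2 t)
      by_cases h : (2 : Eis) ∣ d
      · simp only [if_pos h, if_pos (this.mpr h)]
      · simp only [if_neg h, if_neg (fun h' => h (this.mp h'))]
    have hcrs := isCRS_crs two_ne
    rw [sumMod_eq_sum hcrs hper]
    obtain ⟨s, ⟨hs, hsd⟩, hun⟩ := hcrs 0
    rw [Finset.sum_eq_single s]
    · rw [if_pos]
      have : (2 : Eis) ∣ -(0 - s) := (dvd_neg).mpr hsd
      simpa using this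
    · intro t ht hts
      rw [if_neg]
      intro h
      apply hts
      refine hun t ⟨ht, ?_⟩
      simpa using h
    · intro h; exact absurd hs h
  rw [e3, Complex.mul_conj, Complex.normSq_eq_norm_sq] at e1
  exact_mod_cast e1

theorem S2_eq_T2 (hχ : IsCh (2 ^ r) χ) (hp : Pure2 r χ) {v v' : Eis}
    (hv : (2 : Eis) ^ r ∣ v * v' - 1) :
    S2 χ v r = gl χ 1 (2 ^ r) * (conj (χ v) * conj (T2 χ r (-(sq3 * v')))) := by
  have h3r := hp.three_le
  have h2r := pow2_ne r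
  have hprm := hp.prm hχ
  rw [S2_eq (by omega)]
  unfold T2
  rw [sumMod_star two_ne, ← sumMod_mul_left two_ne, ← sumMod_mul_left two_ne]
  refine sumMod_congr fun y => ?_
  rw [gl_prim h2r hχ hprm, mul_comm, ← map_mul, ← hχ.mul]
  congr 2
  apply hχ.per.congr
  obtain ⟨t, ht⟩ := hv
  refine ⟨2 ^ (r - 2) * sq3 * y ^ 2 * t, ?_⟩
  linear_combination (2 ^ (r - 2) * sq3 * y ^ 2) * ht

theorem S2_eq_zero (hχ : IsCh (2 ^ r) χ) (hp : Pure2 r χ) {v : Eis} (hv : (2 : Eis) ∣ v) :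
    S2 χ v r = 0 := by
  have h3r := hp.three_le
  have h2r := pow2_ne r
  have hprm := hp.prm hχ
  rw [S2_eq (by omega)]
  have : ∀ y : Eis, gl χ (v - 2 ^ (r - 2) * (sq3 * y ^ 2)) (2 ^ r) = 0 := by
    intro y
    rw [gl_prim h2r hχ hprm, hχ.zero, map_zero, zero_mul]
    intro h
    refine od_of_cop (by omega) h (dvd_sub hv ?_)
    refine Dvd.dvd.mul_right (dvd_pow_self 2 (by omega)) _
  rw [sumMod_congr this, SumMod880.sumMod_zero two_ne]

theorem norm_S2_sq (hχ : IsCh (2 ^ r) χ) (hp : Pure2 r χ) {v : Eis} (hv : Od v) :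
    ‖S2 χ v r‖ ^ 2 = 4 ^ (r + 1) := by
  have h3r := hp.three_le
  have h2r := pow2_ne r
  have hprm := hp.prm hχ
  obtain ⟨a, b, hab⟩ := cop_pow2 hv r
  have hva : (2 : Eis) ^ r ∣ v * a - 1 := ⟨-b, by linear_combination hab⟩
  have ha : Od a := by
    intro h2
    have : (2 : Eis) ∣ 1 := by
      rw [← hab]
      exact dvd_add (h2.mul_right v) ((dvd_pow_self 2 (by omega)).mul_left b)
    exact od_one this
  have hsq : Od sq3 := by
    intro h2
    obtain ⟨t, ht⟩ := h2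
    have := congrArg nm ht
    rw [nm_mul] at this
    have h4 : nm (2 : Eis) = 4 := by
      have := nm_natCast 2
      push_cast at this; rw [this]
    have h3 : nm sq3 = 3 := by decide
    rw [h4, h3] at this
    omega
  rw [S2_eq_T2 hχ hp hva, norm_mul, norm_mul, mul_pow, mul_pow, norm_gl_sq h2r hχ hprm,
    RCLike.norm_conj, RCLike.norm_conj, norm_T2_sq hχ hp, hχ.norm_eq_one h2r (cop_pow2 hv r)]
  · have h4 : nm (2 : Eis) = 4 := by
      have := nm_natCast 2
      push_cast at this; rw [this]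
    rw [nm_pow, h4]; push_cast; ring
  · intro h; exact (hsq.mul ha) ((dvd_neg).mp h)

end Crest.Agent.R017.GG90
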