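import Crest.Agent.R017.Rw1_266
import Crest.Agent.R017.GG1_90
import Crest.Agent.R012.CharInst_766
import Crest.Agent.R012.GaussInst_880

/-!
# Row 17: block lifts, symbols of `S`-units on lifts

`Blk A B e` : `e ≡ 1 mod A`, `e ≡ 0 mod B`; `lf e c = 1 + (c-1) e` (`≡ c mod A`, `≡ 1 mod B`).
`Kap A B e b` : `(b/lf c)_6 = ρ₂(lf b, lf c)` for all admissible `c` — holds for all `b` whose
primes divide `B` (`kap_neg_one`, `kap_prime`, `kap_neg_two`, `kap_sq3`, `kap_w`, `Kap.mul`).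
-/

set_option autoImplicit false

noncomputable section

open Complex
open scoped ComplexConjugate

namespace Crest.Agent.R017.GG90

open Crest.Agent.R012 Crest.Agent.R012.Eis Crest.Agent.R012.Gauss880 Crest.Agent.R017.Loc266
open Crest.Agent.R017.Sx440 Crest.Agent.R017.Kub664 Crest.Agent.R017.Tw266
open Crest.Agent.R017.Rw266

/-! ### basic symbol facts -/

lemma sy6_eq (x c : Eis) : sy6 x c = sy2 x c * conj (sy x c) := rfl

/-- `(-1/c)_6 = ρ₂(-1, c)` -/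
lemma sy6_neg_one {c : Eis} (hc : Gd c) : sy6 (-1) c = rho2 (-1) c := by
  have h1 : sy2 (-1) c = rho2 (-1) c * sy2 c (-1) :=
    recF2.rel (-1) c (od_of_isUnit isUnit_one.neg) hc.2
  rw [sy2_unit_right c isUnit_one.neg, mul_one] at h1
  rw [sy6_eq, h1, sy_neg_one syG hc.1, map_one, mul_one]

lemma sy2_unit_left {u c : Eis} (hu : IsUnit u) (hc : Od c) : sy2 u c = rho2 u c := by
  have h1 : sy2 u c = rho2 u c * sy2 c u := recF2.rel u c (od_of_isUnit hu) hc
  rwa [sy2_unit_right c hu, mul_one] at h1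

/-- reciprocity for a primary odd `p` -/
lemma sy6_rec {p c : Eis} (hp : Gd p) (hc : Gd c) : sy6 p c = rho2 p c * sy6 c p := by
  have h1 : sy2 p c = rho2 p c * sy2 c p := recF2.rel p c hp.2 hc.2
  rw [sy6_eq, sy6_eq, h1, Sym645.sy_reciprocity hp.1 hc.1]; ring

lemma sy6_one_of_dvd {c p : Eis} (hp : Gd p) (h : p ∣ c - 1) : sy6 c p = 1 := by
  rw [sy6_congr hp.1 hp.2 h, sy6_one_left hp.1 hp.2]

/-- `sy2 2 c = 1` for `c ≡ 1 mod 8`. -/
lemma sy2_two_aux {z : Eis} (hz : Od z) : sy2 2 (1 + 8 * z) = 1 := by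
  set c : Eis := 1 + 8 * z with hc
  have hco : Od c := by
    rw [hc, show (1 : Eis) + 8 * z = 1 + 2 * (4 * z) by ring]; exact od_add_two od_one _
  have h4 : (4 : Eis) ∣ c - 1 := ⟨2 * z, by rw [hc]; ring⟩
  -- (8z / c) = (c - 1 / c) = (-1 / c) = 1
  have e1 : sy2 (8 * z) c = sy2 (-1) c := sy2_congr hco ⟨1, by rw [hc]; ring⟩
  have e2 : sy2 (-1) c = 1 := by
    rw [sy2_unit_left isUnit_one.neg hco, rho2_of_four_right (od_of_isUnit isUnit_one.neg) h4]
  have e3 : sy2 z c = sy2 c z := by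
    have := recF2.rel z c hz hco
    rwa [rho2_of_four_right hz h4, one_mul] at this
  have e4 : sy2 c z = 1 := by
    rw [sy2_congr hz (show z ∣ c - 1 from ⟨8, by rw [hc]; ring⟩), (isCh_sy2 hz).one]
  have h2c : IsCoprime (2 : Eis) c := od_iff.mp hco
  have e5 : sy2 8 c = sy2 2 c := by
    rw [show (8 : Eis) = 2 ^ 2 * 2 by norm_num, sy2_mul_left hco, sy2_sq_left hco h2c, one_mul]
  rw [sy2_mul_left hco, e5, e3, e4, mul_one, e2] at e1
  exact e1

lemma sy2_two_eight {c : Eis} (h : (8 : Eis) ∣ c - 1) : sy2 2 c = 1 := by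
  obtain ⟨z, hz⟩ := h
  have hc : c = 1 + 8 * z := by rw [← hz]; ring
  rw [hc]
  by_cases hodd : Od z
  · exact sy2_two_aux hodd
  · -- multiply by `9 = 1 + 8`
    have h2 : (2 : Eis) ∣ z := by unfold Od at hodd; push Not at hodd; exact hodd
    have h9 : Od (9 : Eis) := by
      rw [show (9 : Eis) = 1 + 2 * 4 by norm_num]; exact od_add_two od_one _
    have hco : Od (1 + 8 * z) := by
      rw [show (1 : Eis) + 8 * z = 1 + 2 * (4 * z) by ring]; exact od_add_two od_one _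
    have e1 : sy2 2 9 = 1 := by
      have := sy2_two_aux od_one
      rwa [show (1 : Eis) + 8 * 1 = 9 by norm_num] at this
    have e2 : sy2 2 ((1 + 8 * z) * 9) = 1 := by
      rw [show (1 + 8 * z) * 9 = 1 + 8 * (1 + 9 * z) by ring]
      apply sy2_two_aux
      obtain ⟨t, rfl⟩ := h2
      rw [show (1 : Eis) + 9 * (2 * t) = 1 + 2 * (9 * t) by ring]; exact od_add_two od_one _
    rw [sy2_mul_right _ hco.ne_zero h9.ne_zero, e1, mul_one] at e2
    exact e2

/-- inverse modulo `8` (helper) -/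
lemma sy2_two_congr {c c' : Eis} (hc : Od c) (h : (8 : Eis) ∣ c - c') : sy2 2 c = sy2 2 c' := by
  have hc' : Od c' := od_congr' (Dvd.dvd.trans ⟨4, by norm_num⟩ h) hc
  obtain ⟨a, b, hab⟩ := cop_pow2 hc 3
  have h8 : (2 : Eis) ^ 3 = 8 := by norm_num
  rw [h8] at hab
  have ha : Od a := by
    intro h2
    have : (2 : Eis) ∣ 1 := by
      rw [← hab]
      exact dvd_add (h2.mul_right c) ((Dvd.intro 4 (by norm_num : (2 : Eis) * 4 = 8)).mul_left b)
    exact od_one this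
  have e1 : sy2 2 (a * c) = 1 := sy2_two_eight ⟨-b, by linear_combination hab⟩
  have e2 : sy2 2 (a * c') = 1 := by
    apply sy2_two_eight
    obtain ⟨t, ht⟩ := h
    exact ⟨-b - a * t, by linear_combination hab - a * ht⟩
  rw [sy2_mul_right _ ha.ne_zero hc.ne_zero] at e1
  rw [sy2_mul_right _ ha.ne_zero hc'.ne_zero] at e2
  have h0 : sy2 2 a ≠ 0 := by
    intro h0; rw [h0, zero_mul] at e1; exact zero_ne_one e1
  exact mul_left_cancel₀ h0 (e1.trans e2.symm)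

lemma sy_two_one {c : Eis} (hc : IsPrim c) (h : (2 : Eis) ∣ c - 1) : sy 2 c = 1 := by
  have hp2 : IsPrim (-2) := ⟨-1, by norm_num⟩
  have e1 : sy (-2) c = sy c (-2) := Sym645.sy_reciprocity hp2 hc
  have hnm := Sym645.prim_nm_mod hc
  have e2 : sy (-2) c = sy (-1) c * sy 2 c := by
    rw [show (-2 : Eis) = (-1) * 2 by ring, Sym645.sy_mul_left hnm]
  have e3 : sy c (-2) = 1 := by
    have h' : (-2 : Eis) ∣ c - 1 := (neg_dvd).mpr h
    have hc2 := isCh_sy syG hp2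
    have := hc2.per.congr h'
    beta_reduce at this
    rw [this]; exact hc2.one
  rw [e2, sy_neg_one syG hc, one_mul] at e1
  rw [e1, e3]

/-- `(2/c)_6 = 1` for primary `c ≡ 1 mod 8` -/
lemma sy6_two_one {c : Eis} (hc : IsPrim c) (h : (8 : Eis) ∣ c - 1) : sy6 2 c = 1 := by
  rw [sy6_eq, sy2_two_eight h, sy_two_one hc (Dvd.dvd.trans ⟨4, by norm_num⟩ h), map_one, mul_one]

lemma sy_w_one {c : Eis} (h : (9 : Eis) ∣ c - 1) : sy w c = 1 := by
  have hc : IsPrim c := Dvd.dvd.trans ⟨3, by norm_num⟩ h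
  have h1 : IsPrim (1 : Eis) := by unfold IsPrim; simp
  rw [Char766.suppl.w9 c 1 hc h1 h, Sym645.sy_one_right]

lemma sy_lam_one {c : Eis} (h : (9 : Eis) ∣ c - 1) : sy lam c = 1 := by
  have hc : IsPrim c := Dvd.dvd.trans ⟨3, by norm_num⟩ h
  have h1 : IsPrim (1 : Eis) := by unfold IsPrim; simp
  rw [Char766.suppl.lam9 c 1 hc h1 h, Sym645.sy_one_right]

lemma sy_sq3_one {c : Eis} (h : (9 : Eis) ∣ c - 1) : sy sq3 c = 1 := by
  have hc : IsPrim c := Dvd.dvd.trans ⟨3, by norm_num⟩ h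
  rw [sq3_eq, Sym645.sy_mul_left (Sym645.prim_nm_mod hc), sy_w_one h, sy_lam_one h, one_mul]

lemma od_sq3 : Od sq3 := by
  intro h2
  obtain ⟨t, ht⟩ := h2
  have := congrArg nm ht
  rw [nm_mul] at this
  have h3 : nm sq3 = 3 := by decide
  rw [nm_two, h3] at this
  omega

lemma three_eq_sq3 : (3 : Eis) = sq3 * (-sq3) := by
  have := sq3_sq
  linear_combination this

lemma sq3_dvd_three : sq3 ∣ (3 : Eis) := ⟨-sq3, three_eq_sq3⟩

/-- `(√-3/c)_2 = ρ₂(√-3, c)` for primary `c` -/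
lemma sy2_sq3 {c : Eis} (hc : Gd c) : sy2 sq3 c = rho2 sq3 c := by
  have h1 : sy2 sq3 c = rho2 sq3 c * sy2 c sq3 := recF2.rel sq3 c od_sq3 hc.2
  have h2 : sy2 c sq3 = 1 := by
    rw [sy2_congr od_sq3 (sq3_dvd_three.trans hc.1), (isCh_sy2 od_sq3).one]
  rw [h1, h2, mul_one]

lemma sy6_sq3 {c : Eis} (hc : Gd c) (h : (9 : Eis) ∣ c - 1) : sy6 sq3 c = rho2 sq3 c := by
  rw [sy6_eq, sy2_sq3 hc, sy_sq3_one h, map_one, mul_one]

lemma isUnit_w : IsUnit w :=
  isUnit_iff_exists_inv.mpr ⟨w ^ 2, by rw [← pow_succ', w_cube]⟩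

lemma sy6_w {c : Eis} (hc : Gd c) (h : (9 : Eis) ∣ c - 1) : sy6 w c = rho2 w c := by
  rw [sy6_eq, sy2_unit_left isUnit_w hc.2, sy_w_one h, map_one, mul_one]

/-! ### blocks -/

/-- `e ≡ 1 mod A`, `e ≡ 0 mod B` -/
structure Blk (A B e : Eis) : Prop where
  A0 : A ≠ 0
  B0 : B ≠ 0
  e1 : A ∣ e - 1
  e0 : B ∣ e

lemma Blk.symm {A B e : Eis} (H : Blk A B e) : Blk B A (1 - e) where
  A0 := H.B0
  B0 := H.A0
  e1 := by rw [show 1 - e - 1 = -e by ring]; exact (dvd_neg).mpr H.e0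
  e0 := by rw [show 1 - e = -(e - 1) by ring]; exact (dvd_neg).mpr H.e1

lemma Blk.cop {A B e : Eis} (H : Blk A B e) : IsCoprime A B := by
  obtain ⟨a, ha⟩ := H.e1
  obtain ⟨b, hb⟩ := H.e0
  exact ⟨-a, b, by linear_combination ha - hb⟩

lemma exists_blk {A B : Eis} (hA : A ≠ 0) (hB : B ≠ 0) (h : IsCoprime A B) : ∃ e, Blk A B e := by
  obtain ⟨a, b, hab⟩ := h
  exact ⟨b * B, hA, hB, ⟨-a, by linear_combination hab⟩, ⟨b, by ring⟩⟩

lemma Blk.mulE {A B e : Eis} (H : Blk A B e) : A * B ∣ e * (1 - e) := by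
  obtain ⟨a, ha⟩ := H.e1
  obtain ⟨b, hb⟩ := H.e0
  exact ⟨-(a * b), by linear_combination (-e + 1) * hb - (B * b) * ha⟩

/-- the lift -/
def lf (e c : Eis) : Eis := 1 + (c - 1) * e

section lift

variable {A B e : Eis}

lemma lf_A (H : Blk A B e) (c : Eis) : A ∣ lf e c - c := by
  rw [show lf e c - c = (c - 1) * (e - 1) by unfold lf; ring]
  exact H.e1.mul_left _

lemma lf_B (H : Blk A B e) (c : Eis) : B ∣ lf e c - 1 := by
  rw [show lf e c - 1 = (c - 1) * e by unfold lf; ring]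
  exact H.e0.mul_left _

lemma lf_congr (H : Blk A B e) {c c' : Eis} (h : A ∣ c - c') : A * B ∣ lf e c - lf e c' := by
  rw [show lf e c - lf e c' = (c - c') * e by unfold lf; ring]
  exact mul_dvd_mul h H.e0

lemma lf_mul (H : Blk A B e) (c c' : Eis) : A * B ∣ lf e (c * c') - lf e c * lf e c' := by
  rw [show lf e (c * c') - lf e c * lf e c' = (c - 1) * (c' - 1) * (e * (1 - e)) by
    unfold lf; ring]
  exact H.mulE.mul_left _

lemma lf_split (H : Blk A B e) (c : Eis) : A * B ∣ c - lf e c * lf (1 - e) c := by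
  rw [show c - lf e c * lf (1 - e) c = -((c - 1) ^ 2 * (e * (1 - e))) by unfold lf; ring]
  exact (dvd_neg).mpr (H.mulE.mul_left _)

lemma lf_one : lf e 1 = 1 := by unfold lf; ring

lemma cop_B_lf (H : Blk A B e) (c : Eis) : IsCoprime (lf e c) B := by
  obtain ⟨t, ht⟩ := lf_B H c
  exact ⟨1, -t, by linear_combination ht⟩

lemma cop_A_lf (H : Blk A B e) (c : Eis) : IsCoprime (lf e c) A ↔ IsCoprime c A :=
  cop_congr (lf_A H c)

lemma cop_lf (H : Blk A B e) (c : Eis) : IsCoprime (lf e c) (A * B) ↔ IsCoprime c A := by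
  rw [IsCoprime.mul_right_iff, cop_A_lf H]
  exact and_iff_left (cop_B_lf H c)

end lift

/-- good elements modulo `N` -/
def Gn (N c : Eis) : Prop := Gd c ∧ IsCoprime c N

lemma gn_congr {N a b : Eis} (hN : (72 : Eis) ∣ N) (h : N ∣ a - b) : Gn N a ↔ Gn N b :=
  and_congr (gd_congr (hN.trans h)) (cop_congr h)

lemma Gn.mul {N a b : Eis} (ha : Gn N a) (hb : Gn N b) : Gn N (a * b) :=
  ⟨ha.1.mul hb.1, ha.2.mul_left hb.2⟩

lemma gn_mul_iff {N a b : Eis} (ha : Gn N a) : Gn N (a * b) ↔ Gn N b :=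
  ⟨fun h => ⟨(gd_mul_iff ha.1).mp h.1, h.2.of_mul_left_right⟩, fun h => ha.mul h⟩

/-- Level split into two coprime blocks, each of `2`, `3` in one of the blocks. -/
structure Lvl (A B e : Eis) : Prop extends Blk A B e where
  lev : Lev (A * B)
  d8 : (8 : Eis) ∣ A ∨ (8 : Eis) ∣ B
  d9 : (9 : Eis) ∣ A ∨ (9 : Eis) ∣ B

lemma Lvl.symm {A B e : Eis} (H : Lvl A B e) : Lvl B A (1 - e) where
  toBlk := H.toBlk.symm
  lev := by rw [mul_comm]; exact H.lev
  d8 := H.d8.symm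
  d9 := H.d9.symm

section level

variable {A B e : Eis}

lemma Lvl.ne (H : Lvl A B e) : A * B ≠ 0 := H.lev.ne

/-- `b` is admissible at `A` -/
def Adm (A b : Eis) : Prop := IsCoprime b A ∧ ((9 : Eis) ∣ A → IsPrim b)

lemma Adm.mul {b c : Eis} (hb : Adm A b) (hc : Adm A c) : Adm A (b * c) :=
  ⟨hb.1.mul_left hc.1, fun h => (hb.2 h).mul (hc.2 h)⟩

lemma adm_one : Adm A 1 := ⟨isCoprime_one_left, fun _ => by unfold IsPrim; simp⟩

lemma gd_lf (H : Lvl A B e) {c : Eis} (h : Adm A c) : Gn (A * B) (lf e c) := by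
  have h1 : IsCoprime (lf e c) (A * B) := (cop_lf H.toBlk c).mpr h.1
  refine ⟨⟨?_, ?_⟩, h1⟩
  · rcases H.d9 with h9 | h9
    · have := h.2 h9
      have h2 : (3 : Eis) ∣ c - lf e c := by
        have := lf_A H.toBlk c
        rw [← neg_sub, dvd_neg]
        exact (Dvd.dvd.trans ⟨3, by norm_num⟩ h9).trans this
      exact prim_congr' h2 this
    · exact (Dvd.dvd.trans ⟨3, by norm_num⟩ h9).trans (lf_B H.toBlk c)
  · intro h2
    have h3 : (2 : Eis) ∣ A * B := two_dvd_72.trans H.lev.d72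
    have h4 : IsCoprime (2 : Eis) 2 := IsCoprime.of_isCoprime_of_dvd_left
      (IsCoprime.of_isCoprime_of_dvd_right h1 h3) h2
    exact prime_two.not_isUnit (isCoprime_self.mp h4)

lemma adm_of_gn (H : Lvl A B e) {c : Eis} (h : Gn (A * B) (lf e c)) : Adm A c := by
  refine ⟨(cop_lf H.toBlk c).mp h.2, fun h9 => ?_⟩
  have h2 : (3 : Eis) ∣ lf e c - c := (Dvd.dvd.trans ⟨3, by norm_num⟩ h9).trans (lf_A H.toBlk c)
  exact prim_congr' h2 h.1.1

lemma gn_lf_iff (H : Lvl A B e) {c : Eis} : Gn (A * B) (lf e c) ↔ Adm A c :=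
  ⟨adm_of_gn H, gd_lf H⟩

lemma gn_iff (H : Lvl A B e) {c : Eis} : Gn (A * B) c ↔ Adm A c ∧ Adm B c := by
  have h1 := gn_congr H.lev.d72 (lf_split H.toBlk c)
  rw [h1, ← gn_lf_iff H, ← gn_lf_iff H.symm, mul_comm B A]
  constructor
  · intro h
    have hA : Adm A c := by
      refine ⟨?_, fun h9 => ?_⟩
      · have h2 : IsCoprime (lf e c * lf (1 - e) c) (A * B) := h.2
        have h3 : IsCoprime c (A * B) := (cop_congr (lf_split H.toBlk c)).mpr h2
        exact IsCoprime.of_isCoprime_of_dvd_right h3 (dvd_mul_right A B)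
      · have h2 : Gn (A * B) c := h1.mpr h
        exact h2.1.1
    have hB : Adm B c := by
      refine ⟨?_, fun h9 => ?_⟩
      · have h2 : IsCoprime (lf e c * lf (1 - e) c) (A * B) := h.2
        have h3 : IsCoprime c (A * B) := (cop_congr (lf_split H.toBlk c)).mpr h2
        exact IsCoprime.of_isCoprime_of_dvd_right h3 (dvd_mul_left B A)
      · have h2 : Gn (A * B) c := h1.mpr h
        exact h2.1.1
    refine ⟨gd_lf H hA, ?_⟩
    have := gd_lf H.symm hB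
    rwa [mul_comm B A] at this
  · intro h
    exact h.1.mul h.2

/-- `(b/lf c)_6 = ρ₂(lf b, lf c)` -/
def Kap (A e b : Eis) : Prop :=
  Adm A b ∧ ∀ c, Adm A c → sy6 b (lf e c) = rho2 (lf e b) (lf e c)

lemma Kap.mul (H : Lvl A B e) {b b' : Eis} (hb : Kap A e b) (hb' : Kap A e b') :
    Kap A e (b * b') := by
  refine ⟨hb.1.mul hb'.1, fun c hc => ?_⟩
  have g := gd_lf H hc
  have g1 := gd_lf H hb.1
  have g2 := gd_lf H hb'.1
  have g3 := gd_lf H (hb.1.mul hb'.1)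
  rw [sy6_mul_left g.1.1 g.1.2, hb.2 c hc, hb'.2 c hc,
    ← rho2_mul_left g1.1.2 g2.1.2 g.1.2]
  exact (rho2_congr_left g3.1.2 g.1.2
    ((four_dvd_72.trans H.lev.d72).trans (lf_mul H.toBlk b b'))).symm

lemma Kap.pow (H : Lvl A B e) {b : Eis} (hb : Kap A e b) (n : ℕ) (hn : n ≠ 0) :
    Kap A e (b ^ n) := by
  induction n with
  | zero => exact absurd rfl hn
  | succ n ih =>
    by_cases h : n = 0
    · subst h; rw [zero_add, pow_one]; exact hb
    · rw [pow_succ]; exact (ih h).mul H hb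

/-- if `8 ∣ B` everything on lifts is `≡ 1 mod 8` -/
lemma rho2_lf_of_B (H : Lvl A B e) (h8 : (8 : Eis) ∣ B) {a c : Eis} (ha : Od a) :
    rho2 a (lf e c) = 1 :=
  rho2_of_four_right ha ((Dvd.dvd.trans ⟨2, by norm_num⟩ h8).trans (lf_B H.toBlk c))

lemma rho2_lf_left (H : Lvl A B e) {b c : Eis} (hb : Od b) (hbl : Od (lf e b))
    (hc : Od (lf e c)) : rho2 b (lf e c) = rho2 (lf e b) (lf e c) := by
  rcases H.d8 with h8 | h8
  · refine rho2_congr_left hb hc ?_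
    rw [← neg_sub, dvd_neg]
    exact (Dvd.dvd.trans ⟨2, by norm_num⟩ h8).trans (lf_A H.toBlk b)
  · rw [rho2_lf_of_B H h8 hb, rho2_lf_of_B H h8 hbl]

lemma kap_neg_one (H : Lvl A B e) (h9 : ¬ (9 : Eis) ∣ A) : Kap A e (-1) := by
  have had : Adm A (-1) := ⟨(isCoprime_of_isUnit isUnit_one.neg A), fun h => absurd h h9⟩
  refine ⟨had, fun c hc => ?_⟩
  have g := gd_lf H hc
  rw [sy6_neg_one g.1]
  exact rho2_lf_left H (od_of_isUnit isUnit_one.neg) (gd_lf H had).1.2 g.1.2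

lemma kap_prime (H : Lvl A B e) {p : Eis} (hp : Gd p) (hpA : IsCoprime p A) (hpB : p ∣ B) :
    Kap A e p := by
  have had : Adm A p := ⟨hpA, fun _ => hp.1⟩
  refine ⟨had, fun c hc => ?_⟩
  have g := gd_lf H hc
  rw [sy6_rec hp g.1, sy6_one_of_dvd hp (hpB.trans (lf_B H.toBlk c)), mul_one]
  exact rho2_lf_left H hp.2 (gd_lf H had).1.2 g.1.2

lemma not9 {A B e : Eis} (H : Lvl A B e) (h9 : (9 : Eis) ∣ B) : ¬ (9 : Eis) ∣ A := by
  intro h
  have h1 : IsCoprime (9 : Eis) 9 := IsCoprime.of_isCoprime_of_dvd_right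
    (IsCoprime.of_isCoprime_of_dvd_left H.toBlk.cop h) h9
  have h2 := isCoprime_self.mp h1
  have h3 : IsUnit (3 : Eis) := isUnit_of_dvd_unit ⟨3, by norm_num⟩ h2
  have h4 := isUnit_iff.mp h3
  have h5 : nm (3 : Eis) = 9 := by
    have := nm_natCast 3
    push_cast at this; rw [this]
  omega

lemma kap_sq3 (H : Lvl A B e) (h9 : (9 : Eis) ∣ B) : Kap A e sq3 := by
  have h3B : sq3 ∣ B := (sq3_dvd_three.trans ⟨3, by norm_num⟩).trans h9
  have had : Adm A sq3 := ⟨(IsCoprime.of_isCoprime_of_dvd_right H.toBlk.cop h3B).symm,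
    fun h => absurd h (not9 H h9)⟩
  refine ⟨had, fun c hc => ?_⟩
  have g := gd_lf H hc
  rw [sy6_sq3 g.1 (h9.trans (lf_B H.toBlk c))]
  exact rho2_lf_left H od_sq3 (gd_lf H had).1.2 g.1.2

lemma kap_w (H : Lvl A B e) (h9 : (9 : Eis) ∣ B) : Kap A e w := by
  have had : Adm A w := ⟨isCoprime_of_isUnit isUnit_w A, fun h => absurd h (not9 H h9)⟩
  refine ⟨had, fun c hc => ?_⟩
  have g := gd_lf H hc
  rw [sy6_w g.1 (h9.trans (lf_B H.toBlk c))]
  exact rho2_lf_left H (od_of_isUnit isUnit_w) (gd_lf H had).1.2 g.1.2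

lemma kap_neg_two (H : Lvl A B e) (h8 : (8 : Eis) ∣ B) : Kap A e (-2) := by
  have h2B : (2 : Eis) ∣ B := (Dvd.dvd.trans ⟨4, by norm_num⟩ h8)
  have had : Adm A (-2) := ⟨((IsCoprime.of_isCoprime_of_dvd_right H.toBlk.cop h2B).symm).neg_left,
    fun _ => ⟨-1, by norm_num⟩⟩
  refine ⟨had, fun c hc => ?_⟩
  have g := gd_lf H hc
  have h8c := h8.trans (lf_B H.toBlk c)
  rw [show (-2 : Eis) = (-1) * 2 by ring, sy6_mul_left g.1.1 g.1.2, sy6_neg_one g.1,
    sy6_two_one g.1.1 h8c, mul_one, rho2_lf_of_B H h8 (od_of_isUnit isUnit_one.neg)]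
  have := rho2_lf_of_B H h8 (c := c) (gd_lf H had).1.2
  rw [show (-1 : Eis) * 2 = -2 by ring, this]

end level

end Crest.Agent.R017.GG90
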