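import Crest.Agent.R017.GG2_90

/-!
# Row 17: factorisation of the Gauss sum `GG` into local sums, equivariance

* `QQ N ψ γ t c = ψ(c) γ(c) (-t/c)_6` on primary odd `c` prime to `N`
* `Tot N x ψ γ t = Σ_{c mod N} QQ(t, c) e(-t x c̄/N)` (`tot_eq_GG`: 266's `GG` at `h' = 1`)
* `SL N A e x ψ γ t` : local sum at the block `A` of `N = A B`
* `tot_split : Tot = SL_A · SL_B`
* `SL_equiv : Kap A e b → SL (b t) = QQ (b t) (lf e b) · SL t`
-/

set_option autoImplicit false

noncomputable section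

open Complex
open scoped ComplexConjugate

namespace Crest.Agent.R017.GG90

open Crest.Agent.R012 Crest.Agent.R012.Eis Crest.Agent.R012.Gauss880 Crest.Agent.R017.Loc266
open Crest.Agent.R017.Sx440 Crest.Agent.R017.Kub664 Crest.Agent.R017.Tw266
open Crest.Agent.R017.Rw266

/-- the genuine weight: period `4` -/
structure Gam4 (γ : Eis → ℂ) : Prop where
  per : PMod 4 γ
  mul : ∀ a b, Od a → Od b → γ (a * b) = γ a * γ b * rho2 a b
  norm : ∀ a, Od a → ‖γ a‖ = 1

lemma Gam4.ne {γ : Eis → ℂ} (h : Gam4 γ) {a : Eis} (ha : Od a) : γ a ≠ 0 := by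
  intro h0
  have := h.norm a ha
  rw [h0, norm_zero] at this
  exact zero_ne_one this

lemma rho2_one_left {c : Eis} (hc : Od c) : rho2 1 c = 1 :=
  rho2_of_four_left (by rw [sub_self]; exact dvd_zero _) hc

lemma Gam4.one {γ : Eis → ℂ} (h : Gam4 γ) : γ 1 = 1 := by
  have h1 := h.mul 1 1 od_one od_one
  rw [mul_one, rho2_one_left od_one, mul_one] at h1
  exact (mul_left_cancel₀ (h.ne od_one) (by rw [mul_one]; exact h1)).symm

lemma Gam4.one_of {γ : Eis → ℂ} (h : Gam4 γ) {c : Eis} (hc : (4 : Eis) ∣ c - 1) : γ c = 1 := by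
  rw [h.per.congr hc, h.one]

lemma Gam4.gm {γ : Eis → ℂ} (h : Gam4 γ) {N : Eis} (hN : (4 : Eis) ∣ N) : Gm N γ :=
  ⟨h.per.mono hN, h.mul, h.norm⟩

/-- primes of `t` divide `N` -/
structure SU (N t : Eis) : Prop where
  ne : t ≠ 0
  pr : ∀ p, Prime p → p ∣ t → p ∣ N

lemma SU.mul {N t t' : Eis} (h : SU N t) (h' : SU N t') : SU N (t * t') :=
  ⟨mul_ne_zero h.ne h'.ne, fun p hp hd => (hp.dvd_or_dvd hd).elim (h.pr p hp) (h'.pr p hp)⟩

lemma SU.neg {N t : Eis} (h : SU N t) : SU N (-t) :=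
  ⟨neg_ne_zero.mpr h.ne, fun p hp hd => h.pr p hp ((dvd_neg).mp hd)⟩

lemma SU.of_isUnit {N u : Eis} (h : IsUnit u) : SU N u :=
  ⟨h.ne_zero, fun _ hp hd => absurd (isUnit_of_dvd_unit hd h) hp.not_isUnit⟩

lemma SU.of_prime {N p : Eis} (hp : Prime p) (h : p ∣ N) : SU N p :=
  ⟨hp.ne_zero, fun _ _ hd => hd.trans h⟩

open Classical in
/-- `ψ(c) γ(c) (-t/c)_6` on good `c` -/
def QQ (N : Eis) (ψ γ : Eis → ℂ) (t c : Eis) : ℂ :=
  if Gn N c then ψ c * γ c * sy6 (-t) c else 0

/-- the total sum -/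
def Tot (N x : Eis) (ψ γ : Eis → ℂ) (t : Eis) : ℂ :=
  sumMod N (fun c => QQ N ψ γ t c * ea N x (-t * ivN N c))

/-- the local sum at the block `A` -/
def SL (N A e x : Eis) (ψ γ : Eis → ℂ) (t : Eis) : ℂ :=
  sumMod A (fun c => QQ N ψ γ t (lf e c) * ea N (x * e) (-t * ivN N (lf e c)))

lemma tot_eq_GG (N x : Eis) (ψ γ : Eis → ℂ) (t : Eis) :
    GG N x (fun c => ψ c * γ c) t 1 = Tot N x ψ γ t := by
  classical
  unfold GG Tot
  refine sumMod_congr fun c => ?_
  unfold QQ
  by_cases h : Gd c ∧ IsCoprime c N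
  · have h' : Gn N c := h
    rw [if_pos h, if_pos h']
    unfold etaH
    rw [rho2_one_left h.1.2, mul_one, mul_one]
  · have h' : ¬ Gn N c := h
    rw [if_neg h, if_neg h', zero_mul]

section basics

variable {N : Eis} {ψ γ : Eis → ℂ} {t : Eis}

lemma QQ_pos {c : Eis} (h : Gn N c) : QQ N ψ γ t c = ψ c * γ c * sy6 (-t) c := by
  unfold QQ; rw [if_pos h]

lemma QQ_neg {c : Eis} (h : ¬ Gn N c) : QQ N ψ γ t c = 0 := by
  unfold QQ; rw [if_neg h]

lemma QQ_congr (hN : Lev N) (hψ : IsCh N ψ) (hγ : Gam4 γ) (ht : SU N t) {c c' : Eis}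
    (h : N ∣ c - c') : QQ N ψ γ t c = QQ N ψ γ t c' := by
  by_cases hc : Gn N c
  · have hc' := (gn_congr hN.d72 h).mp hc
    rw [QQ_pos hc, QQ_pos hc', hψ.per.congr h,
      hγ.per.congr ((four_dvd_72.trans hN.d72).trans h),
      per_S hN (neg_ne_zero.mpr ht.ne) (fun p hp hd => ht.pr p hp ((dvd_neg).mp hd))
        hc.1.g6 hc'.1.g6 h]
  · have hc' : ¬ Gn N c' := fun h' => hc ((gn_congr hN.d72 h).mpr h')
    rw [QQ_neg hc, QQ_neg hc']

lemma QQ_mul (hψ : IsCh N ψ) (hγ : Gam4 γ) {c c' : Eis} (hc : Gn N c) (hc' : Gn N c') :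
    QQ N ψ γ t (c * c') = QQ N ψ γ t c * QQ N ψ γ t c' * rho2 c c' := by
  rw [QQ_pos hc, QQ_pos hc', QQ_pos (hc.mul hc'), hψ.mul, hγ.mul _ _ hc.1.2 hc'.1.2,
    sy6_mul_right _ hc.1.ne hc'.1.ne]
  ring

lemma norm_QQ (hN : Lev N) (hψ : IsCh N ψ) (hγ : Gam4 γ) (ht : SU N t) {c : Eis} (hc : Gn N c) :
    ‖QQ N ψ γ t c‖ = 1 := by
  have hcop : IsCoprime (-t) c := by
    refine isCoprime_of_prime_dvd (fun h => ht.ne (by simpa using h.1)) (fun q hq h1 h2 => ?_)
    have h3 : IsCoprime q q := IsCoprime.of_isCoprime_of_dvd_left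
      (IsCoprime.of_isCoprime_of_dvd_right hc.2 (ht.pr q hq ((dvd_neg).mp h1))) h2
    exact hq.not_isUnit (isCoprime_self.mp h3)
  rw [QQ_pos hc, norm_mul, norm_mul, hψ.norm_eq_one hN.ne hc.2, hγ.norm _ hc.1.2,
    norm_sy6 hc.1.1 hc.1.2 hcop]
  norm_num

lemma QQ_smul {s c : Eis} (hc : Gn N c) :
    QQ N ψ γ (s * t) c = sy6 s c * QQ N ψ γ t c := by
  rw [QQ_pos hc, QQ_pos hc, show -(s * t) = s * (-t) by ring, sy6_mul_left hc.1.1 hc.1.2]
  ring

/-- inverses modulo a divisor -/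
lemma ivN_congr_dvd {A c c' : Eis} (hA : A ∣ N) (hc : IsCoprime c N) (hc' : IsCoprime c' N)
    (h : A ∣ c - c') : A ∣ ivN N c - ivN N c' := by
  refine iv_unique (N := A) (c := c) (hA.trans (ivN_spec hc).2) ?_
  have : c * ivN N c' - 1 = (c' * ivN N c' - 1) + (c - c') * ivN N c' := by ring
  rw [this]
  exact dvd_add (hA.trans (ivN_spec hc').2) (h.mul_right _)

end basics

section level

variable {A B e : Eis} {ψ γ : Eis → ℂ} {t x : Eis}

lemma ea_A (H : Lvl A B e) {z z' : Eis} (h : A ∣ z - z') :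
    ea (A * B) (x * e) z = ea (A * B) (x * e) z' := by
  have h1 : ea (A * B) (x * e) z = ea (A * B) (e * z) x := by
    unfold ea; congr 1; simp only [map_mul]; ring
  have h2 : ea (A * B) (x * e) z' = ea (A * B) (e * z') x := by
    unfold ea; congr 1; simp only [map_mul]; ring
  rw [h1, h2]
  apply ea_congr H.ne
  rw [show e * z - e * z' = (z - z') * e by ring]
  exact mul_dvd_mul h H.e0

/-- the local summand has period `A` -/
lemma pmod_SL (H : Lvl A B e) (hψ : IsCh (A * B) ψ) (hγ : Gam4 γ) (ht : SU (A * B) t) :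
    PMod A (fun c => QQ (A * B) ψ γ t (lf e c) *
      ea (A * B) (x * e) (-t * ivN (A * B) (lf e c))) := by
  intro c s
  have h1 : A ∣ (c + A * s) - c := ⟨s, by ring⟩
  have h2 := lf_congr H.toBlk h1
  beta_reduce
  rw [QQ_congr H.lev hψ hγ ht h2]
  by_cases hc : Gn (A * B) (lf e c)
  · have hc' : Gn (A * B) (lf e (c + A * s)) := (gn_congr H.lev.d72 h2).mpr hc
    congr 1
    apply ea_A H
    rw [show -t * ivN (A * B) (lf e (c + A * s)) - -t * ivN (A * B) (lf e c) =
      (ivN (A * B) (lf e (c + A * s)) - ivN (A * B) (lf e c)) * (-t) by ring]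
    exact (ivN_congr_dvd (dvd_mul_right A B) hc'.2 hc.2 ((dvd_mul_right A B).trans h2)).mul_right _
  · rw [QQ_neg hc, zero_mul, zero_mul]

/-- **factorisation** -/
theorem tot_split (H : Lvl A B e) (hψ : IsCh (A * B) ψ) (hγ : Gam4 γ) (ht : SU (A * B) t) :
    Tot (A * B) x ψ γ t = SL (A * B) A e x ψ γ t * SL (A * B) B (1 - e) x ψ γ t := by
  have HB := pmod_SL (x := x) H.symm (by rw [mul_comm]; exact hψ) hγ
    (t := t) (by rw [mul_comm]; exact ht)
  rw [mul_comm B A] at HB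
  unfold Tot SL
  rw [← sumMod_mul_of_coprime H.A0 H.B0 H.toBlk.cop (pmod_SL H hψ hγ ht) HB]
  refine sumMod_congr fun c => ?_
  by_cases hc : Gn (A * B) c
  · obtain ⟨hA, hB⟩ := (gn_iff H).mp hc
    have gA := gd_lf H hA
    have gB : Gn (A * B) (lf (1 - e) c) := by
      have := gd_lf H.symm hB; rwa [mul_comm B A] at this
    have hsp := lf_split H.toBlk c
    have h1 : QQ (A * B) ψ γ t c =
        QQ (A * B) ψ γ t (lf e c) * QQ (A * B) ψ γ t (lf (1 - e) c) := by
      rw [QQ_congr H.lev hψ hγ ht hsp, QQ_mul hψ hγ gA gB]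
      have : rho2 (lf e c) (lf (1 - e) c) = 1 := by
        rcases H.d8 with h8 | h8
        · refine rho2_of_four_right gA.1.2 ((Dvd.dvd.trans ⟨2, by norm_num⟩ h8).trans ?_)
          exact lf_B H.toBlk.symm c
        · exact rho2_of_four_left ((Dvd.dvd.trans ⟨2, by norm_num⟩ h8).trans
            (lf_B H.toBlk c)) gB.1.2
      rw [this, mul_one]
    have h2 : ea (A * B) x (-t * ivN (A * B) c) =
        ea (A * B) (x * e) (-t * ivN (A * B) (lf e c)) *
          ea (A * B) (x * (1 - e)) (-t * ivN (A * B) (lf (1 - e) c)) := by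
      have e1 : ea (A * B) x (-t * ivN (A * B) c) = ea (A * B) (x * e) (-t * ivN (A * B) c) *
          ea (A * B) (x * (1 - e)) (-t * ivN (A * B) c) := by
        rw [← ea_add_left]; congr 1; ring
      rw [e1]
      congr 1
      · apply ea_A H
        rw [show -t * ivN (A * B) c - -t * ivN (A * B) (lf e c) =
          (ivN (A * B) c - ivN (A * B) (lf e c)) * (-t) by ring]
        refine (ivN_congr_dvd (dvd_mul_right A B) hc.2 gA.2 ?_).mul_right _
        rw [← neg_sub, dvd_neg]; exact lf_A H.toBlk c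
      · have key := ea_A (x := x) H.symm (z := -t * ivN (A * B) c)
          (z' := -t * ivN (A * B) (lf (1 - e) c)) (by
          rw [show -t * ivN (A * B) c - -t * ivN (A * B) (lf (1 - e) c) =
            (ivN (A * B) c - ivN (A * B) (lf (1 - e) c)) * (-t) by ring]
          refine (ivN_congr_dvd (dvd_mul_left B A) hc.2 gB.2 ?_).mul_right _
          rw [← neg_sub, dvd_neg]; exact lf_A H.toBlk.symm c)
        rwa [mul_comm B A] at key
    rw [h1, h2]; ring
  · rw [QQ_neg hc, zero_mul]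
    have h1 : ¬ (Adm A c ∧ Adm B c) := fun h => hc ((gn_iff H).mpr h)
    by_cases hA : Adm A c
    · have hB : ¬ Adm B c := fun h => h1 ⟨hA, h⟩
      have : ¬ Gn (A * B) (lf (1 - e) c) := by
        intro h
        have h' : Gn (B * A) (lf (1 - e) c) := by rwa [mul_comm B A]
        exact hB (adm_of_gn H.symm h')
      rw [QQ_neg this]; ring
    · have : ¬ Gn (A * B) (lf e c) := fun h => hA (adm_of_gn H h)
      rw [QQ_neg this]; ring

/-- **equivariance** -/
theorem SL_equiv (H : Lvl A B e) (hψ : IsCh (A * B) ψ) (hγ : Gam4 γ) (ht : SU (A * B) t)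
    {b : Eis} (hb : Kap A e b) (hbS : SU (A * B) b) :
    SL (A * B) A e x ψ γ (b * t) =
      QQ (A * B) ψ γ (b * t) (lf e b) * SL (A * B) A e x ψ γ t := by
  have hbt : SU (A * B) (b * t) := hbS.mul ht
  have gb := gd_lf H hb.1
  unfold SL
  rw [← sumMod_mul_coprime H.A0 (pmod_SL H hψ hγ hbt) hb.1.1, ← sumMod_mul_left H.A0]
  refine sumMod_congr fun c => ?_
  have hm := lf_mul H.toBlk b c
  rw [QQ_congr H.lev hψ hγ hbt hm]
  by_cases hc : Adm A c
  · have gc := gd_lf H hc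
    have gbc : Gn (A * B) (lf e (b * c)) := gd_lf H (hb.1.mul hc)
    rw [QQ_mul hψ hγ gb gc]
    have h1 : QQ (A * B) ψ γ (b * t) (lf e c) =
        rho2 (lf e b) (lf e c) * QQ (A * B) ψ γ t (lf e c) := by
      rw [QQ_smul gc, hb.2 c hc]
    have h2 : ea (A * B) (x * e) (-(b * t) * ivN (A * B) (lf e (b * c))) =
        ea (A * B) (x * e) (-t * ivN (A * B) (lf e c)) := by
      apply ea_A H
      have h3 : A ∣ b * ivN (A * B) (lf e (b * c)) - ivN (A * B) (lf e c) := by
        refine iv_unique (N := A) (c := lf e c) ?_ ((dvd_mul_right A B).trans (ivN_spec gc.2).2)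
        have h4 := (dvd_mul_right A B).trans (ivN_spec gbc.2).2
        have h5 : A ∣ lf e (b * c) - b * lf e c := by
          have h6 := lf_A H.toBlk (b * c)
          have h7 := (lf_A H.toBlk c).mul_left b
          have := dvd_sub h6 h7
          rwa [show lf e (b * c) - b * c - b * (lf e c - c) = lf e (b * c) - b * lf e c by ring]
            at this
        have h8 := h5.mul_right (ivN (A * B) (lf e (b * c)))
        have := dvd_sub h4 h8
        rwa [show lf e (b * c) * ivN (A * B) (lf e (b * c)) - 1 -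
          (lf e (b * c) - b * lf e c) * ivN (A * B) (lf e (b * c)) =
          lf e c * (b * ivN (A * B) (lf e (b * c))) - 1 by ring] at this
      rw [show -(b * t) * ivN (A * B) (lf e (b * c)) - -t * ivN (A * B) (lf e c) =
        (b * ivN (A * B) (lf e (b * c)) - ivN (A * B) (lf e c)) * (-t) by ring]
      exact h3.mul_right _
    rw [h1, h2]
    have h9 := rho2_sq (lf e b) (lf e c)
    linear_combination (QQ (A * B) ψ γ (b * t) (lf e b) * QQ (A * B) ψ γ t (lf e c) *
      ea (A * B) (x * e) (-t * ivN (A * B) (lf e c))) * h9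
  · have h1 : ¬ Gn (A * B) (lf e c) := fun h => hc (adm_of_gn H h)
    have h2 : ¬ Gn (A * B) (lf e b * lf e c) := fun h => h1 ((gn_mul_iff gb).mp h)
    rw [QQ_neg h1, QQ_neg h2]; ring

end level

end Crest.Agent.R017.GG90
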