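import Crest.Agent.R017.GG3_90
import Crest.Agent.R017.GmK_411
import Crest.Agent.R017.TameP_74

/-!
# Row 17: the sums at `2` modulo `4` and `8`, closed forms

* `th2_eq`, `kap4_eq : kap4 c = -(i/2) th2 c` (odd `c`)
* `sumMod4` : explicit sum over `(O/4)^*`
* `S2_four_one`, `S2_four_two`, `S2_four_zero` : closed forms for characters modulo `4`
* `T2_eight` : `Σ_y conj χ(1 - 2√-3 y²) = (1 - χ(-1)) (1 + χ(√-3))` for the characters of
  conductor `8` with `χ(5) = 1`.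
-/

set_option autoImplicit false

noncomputable section

open Complex
open scoped ComplexConjugate

namespace Crest.Agent.R017.GG90

open Crest.Agent.R012 Crest.Agent.R012.Eis Crest.Agent.R012.Gauss880 Crest.Agent.R017.Loc266
open Crest.Agent.R017.Sx440 Crest.Agent.R017.Kub664 Crest.Agent.R017.Tw266
open Crest.Agent.R017.Rw266 Crest.Agent.R017.QS411 Crest.Agent.R017.GmK411
open Crest.Agent.R017.Tame74

variable {χ : Eis → ℂ}

/-! ### `th2` -/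

lemma ea_four (y c : Eis) :
    ea 4 (-(sq3 * y ^ 2)) c = eC (toC (3 * c * y ^ 2) / 4) := by
  have h3 := sq3C_ne
  unfold ea
  have e1 : toC (-(sq3 * y ^ 2)) * toC c / (toC sq3 * toC 4) =
      toC (3 * c * y ^ 2) / 4 + toC (-(c * y ^ 2)) := by
    simp only [map_neg, map_mul, map_pow, map_ofNat]
    field_simp
    ring
  rw [e1, Poisson381.eC_add, Poisson381.eC_toC, mul_one]

lemma th2_eq (c : Eis) : th2 c =
    1 + (-I) ^ (2 * c.re - c.im) + (-I) ^ (-c.re - c.im) + (-I) ^ (2 * c.im - c.re) := by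
  rw [← LS848.sumMod_two c]
  unfold th2
  exact sumMod_congr fun y => ea_four y c

lemma kap4_eq {c : Eis} (hc : Od c) : kap4 c = -(I / 2) * th2 c := by
  -- `c' = 4 - 3c ≡ c mod 4`, `≡ 1 mod 3`
  set c' : Eis := 4 - 3 * c with hc'
  have h4 : (4 : Eis) ∣ c - c' := ⟨c - 1, by rw [hc']; ring⟩
  have hp : IsPrim c' := ⟨1 - c, by rw [hc']; ring⟩
  have ho : Od c' := od_congr' (Dvd.dvd.trans ⟨2, by norm_num⟩ h4) hc
  rw [kap4_congr h4, th2_pmod.congr h4, ← LS848.eps2_eq_kap4 hp ho, LS848.eps2_eq hp, th2_eq]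

lemma gam4_kap4 : Gam4 kap4 where
  per := kap4_pmod dvd_rfl
  mul a b ha hb := by
    rw [kap4_mul (odd_of_od ha) (odd_of_od hb), rho2_eq_eps4 ha hb]; ring
  norm a _ := norm_kap4 a

lemma gam4_conj_kap4 : Gam4 (fun c => conj (kap4 c)) where
  per := fun c t => by
    show conj (kap4 (c + 4 * t)) = conj (kap4 c)
    rw [kap4_pmod dvd_rfl c t]
  mul a b ha hb := by
    show conj (kap4 (a * b)) = conj (kap4 a) * conj (kap4 b) * rho2 a b
    rw [kap4_mul (odd_of_od ha) (odd_of_od hb), rho2_eq_eps4 ha hb, map_mul, map_mul,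
      map_intCast]
    ring
  norm a _ := by
    show ‖conj (kap4 a)‖ = 1
    rw [Complex.norm_conj, norm_kap4]

/-! ### explicit sum over `(O/4)^*` -/

lemma four_dvd_iff {a b : ℤ} : (4 : Eis) ∣ (⟨a, b⟩ : Eis) ↔ (4 ∣ a ∧ 4 ∣ b) := by
  constructor
  · rintro ⟨t, ht⟩
    have h1 := congrArg QuadraticAlgebra.re ht
    have h2 := congrArg QuadraticAlgebra.im ht
    have e4 : (4 : Eis) = ((4 : ℕ) : Eis) := by norm_num
    rw [e4] at h1 h2
    constructor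
    · refine ⟨t.re, ?_⟩
      have := h1
      simp [re_mul'] at this
      exact this
    · refine ⟨t.im, ?_⟩
      have := h2
      simp [im_mul'] at this
      exact this
  · rintro ⟨⟨s, rfl⟩, ⟨t, rfl⟩⟩
    refine ⟨⟨s, t⟩, ?_⟩
    have e4 : (4 : Eis) = ((4 : ℕ) : Eis) := by norm_num
    rw [e4]
    apply ext' <;> simp [re_mul', im_mul']

/-- sum over the odd classes modulo `4` -/
theorem sumMod4 {f : Eis → ℂ} (hf : PMod 4 f) (hz : ∀ c, (2 : Eis) ∣ c → f c = 0) :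
    sumMod 4 f = (f 1 + f (-1) + f sq3 + f (-sq3)) +
      (f w + f (-w) + f (w * sq3) + f (-(w * sq3))) +
      (f (w ^ 2) + f (-(w ^ 2)) + f (w ^ 2 * sq3) + f (-(w ^ 2 * sq3))) := by
  have e4 : (4 : Eis) = ((4 : ℕ) : Eis) := by norm_num
  have key : ∀ x y : Eis, (4 : Eis) ∣ x - y → f x = f y := fun x y h => hf.congr h
  have h0 : ∀ a b : ℤ, 2 ∣ a → 2 ∣ b → f ⟨a, b⟩ = 0 := by
    rintro a b ⟨s, rfl⟩ ⟨t, rfl⟩
    apply hz
    refine ⟨⟨s, t⟩, ?_⟩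
    have e2 : (2 : Eis) = ((2 : ℕ) : Eis) := by norm_num
    rw [e2]
    apply ext' <;> simp [re_mul', im_mul']
  rw [e4] at hf ⊢
  rw [sumMod_natCast (by norm_num) hf]
  simp only [Finset.sum_range_succ, Finset.sum_range_zero, zero_add]
  have z00 := h0 ((0 : ℕ) : ℤ) ((0 : ℕ) : ℤ) (by norm_num) (by norm_num)
  have z02 := h0 ((0 : ℕ) : ℤ) ((2 : ℕ) : ℤ) (by norm_num) (by norm_num)
  have z20 := h0 ((2 : ℕ) : ℤ) ((0 : ℕ) : ℤ) (by norm_num) (by norm_num)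
  have z22 := h0 ((2 : ℕ) : ℤ) ((2 : ℕ) : ℤ) (by norm_num) (by norm_num)
  have t10 : f ⟨((1 : ℕ) : ℤ), ((0 : ℕ) : ℤ)⟩ = f 1 := by
    apply key; exact ⟨0, by decide⟩
  have t30 : f ⟨((3 : ℕ) : ℤ), ((0 : ℕ) : ℤ)⟩ = f (-1) := by
    apply key; exact ⟨1, by decide⟩
  have t12 : f ⟨((1 : ℕ) : ℤ), ((2 : ℕ) : ℤ)⟩ = f sq3 := by
    apply key; exact ⟨0, by decide⟩
  have t32 : f ⟨((3 : ℕ) : ℤ), ((2 : ℕ) : ℤ)⟩ = f (-sq3) := by
    apply key; exact ⟨1 + w, by decide⟩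
  have t01 : f ⟨((0 : ℕ) : ℤ), ((1 : ℕ) : ℤ)⟩ = f w := by
    apply key; exact ⟨0, by decide⟩
  have t03 : f ⟨((0 : ℕ) : ℤ), ((3 : ℕ) : ℤ)⟩ = f (-w) := by
    apply key; exact ⟨w, by decide⟩
  have t23 : f ⟨((2 : ℕ) : ℤ), ((3 : ℕ) : ℤ)⟩ = f (w * sq3) := by
    apply key; exact ⟨1 + w, by decide⟩
  have t21 : f ⟨((2 : ℕ) : ℤ), ((1 : ℕ) : ℤ)⟩ = f (-(w * sq3)) := by
    apply key; exact ⟨0, by decide⟩
  have t33 : f ⟨((3 : ℕ) : ℤ), ((3 : ℕ) : ℤ)⟩ = f (w ^ 2) := by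
    apply key; exact ⟨1 + w, by decide⟩
  have t11 : f ⟨((1 : ℕ) : ℤ), ((1 : ℕ) : ℤ)⟩ = f (-(w ^ 2)) := by
    apply key; exact ⟨0, by decide⟩
  have t13 : f ⟨((1 : ℕ) : ℤ), ((3 : ℕ) : ℤ)⟩ = f (w ^ 2 * sq3) := by
    apply key; exact ⟨w, by decide⟩
  have t31 : f ⟨((3 : ℕ) : ℤ), ((1 : ℕ) : ℤ)⟩ = f (-(w ^ 2 * sq3)) := by
    apply key; exact ⟨1, by decide⟩
  rw [z00, z02, z20, z22, t10, t30, t12, t32, t01, t03, t23, t21, t33, t11, t13, t31]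
  ring

end Crest.Agent.R017.GG90
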