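import Crest.Agent.R017.GG4_90

/-!
# Row 17: the sums at `2` modulo `4` and `8`, closed forms

`S2 χ v r = Σ_{c mod 2^r} χ(c) th2(c) e(v c/(√-3 2^r))`, `ζ = χ(ω)`, `ε = χ(-1)`, `σ = χ(√-3)`.

* `S2_one_two`, `S2_two_two`, `S2_zero_two` : characters modulo `4`
* `S2_mul_pow`, `S2_pow_zero` : change of level
* `S2_unit` : equivariance, `conj_S2` : conjugation
* `S2_eight` : `S2 χ 1 3 = gl χ 1 8 conj ((1-ε)(1+σ))` for `χ` of conductor `8`, `χ(5) = 1`.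
-/

set_option autoImplicit false

noncomputable section

open Complex
open scoped ComplexConjugate

namespace Crest.Agent.R017.GG90

open Crest.Agent.R012 Crest.Agent.R012.Eis Crest.Agent.R012.Gauss880 Crest.Agent.R017.Loc266
open Crest.Agent.R017.Sx440 Crest.Agent.R017.Kub664 Crest.Agent.R017.Tw266
open Crest.Agent.R017.Rw266 Crest.Agent.R017.QS411 Crest.Agent.R017.GmK411
open Crest.Agent.R017.Tame74 Crest.Agent.R017.LS848

variable {χ : Eis → ℂ}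

/-! ### the additive characters modulo `4` -/

lemma ea4 (s c : Eis) : ea 4 (sq3 * s) c = I ^ (trE (s * c)) := by
  rw [← eC_quarter]
  have h3 := sq3C_ne
  unfold ea
  congr 1
  simp only [map_mul, map_ofNat]
  field_simp

lemma ea4_one (c : Eis) : ea 4 1 c = I ^ (c.im) := by
  have h : (4 : Eis) ∣ 1 - sq3 * sq3 := ⟨1, by have := sq3_sq; linear_combination -this⟩
  rw [ea_congr four_ne h, ea4]
  have h4 : trE (sq3 * c) = c.im + 4 * (-c.im) := by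
    unfold trE; rw [re_mul', im_mul']; simp; ring
  rw [h4, zpow_add₀ Complex.I_ne_zero, zpow_mul]
  have : (I : ℂ) ^ (4 : ℤ) = 1 := by
    have h : (I : ℂ) ^ (4 : ℤ) = I ^ 4 := by norm_cast
    rw [h, Complex.I_pow_four]
  rw [this, one_zpow, mul_one]

lemma ea4_two (c : Eis) : ea 4 2 c = (-1) ^ (c.im) := by
  rw [show (2 : Eis) = 1 + 1 by norm_num, ea_add_left, ea4_one, ← mul_zpow, Complex.I_mul_I]

lemma ea4_zero (c : Eis) : ea 4 0 c = 1 := by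
  rw [ea_comm, ea_zero]

/-! ### `th2` on the odd classes modulo `4` -/

lemma negI_zpow (n : ℤ) : (-I : ℂ) ^ n =
    if n % 4 = 0 then 1 else if n % 4 = 1 then -I else if n % 4 = 2 then -1 else I := by
  rw [negI_zpow_congr (n := n % 4) (by omega)]
  have h0 : 0 ≤ n % 4 := Int.emod_nonneg _ (by norm_num)
  have h1 : n % 4 < 4 := Int.emod_lt_of_pos _ (by norm_num)
  generalize n % 4 = k at *
  interval_cases k
  · simp
  · simp
  · simp only [show ¬ ((2 : ℤ) = 0) by norm_num, show ¬ ((2 : ℤ) = 1) by norm_num, if_false, if_true]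
    have : (-I : ℂ) ^ (2 : ℤ) = (-I) ^ 2 := by norm_cast
    rw [this, neg_sq, Complex.I_sq]
  · simp only [show ¬ ((3 : ℤ) = 0) by norm_num, show ¬ ((3 : ℤ) = 1) by norm_num,
      show ¬ ((3 : ℤ) = 2) by norm_num, if_false]
    have : (-I : ℂ) ^ (3 : ℤ) = (-I) ^ 3 := by norm_cast
    rw [this]
    linear_combination (-I) * Complex.I_sq

lemma th2_mk {c : Eis} (a b : ℤ) (h : c = ⟨a, b⟩) : th2 c =
    1 + (-I) ^ (2 * a - b) + (-I) ^ (-a - b) + (-I) ^ (2 * b - a) := by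
  rw [th2_eq, h]

lemma th2_w_mul (c : Eis) : th2 (w * c) = th2 c := by
  rw [th2_eq, th2_eq]
  have h1 : (w * c).re = -c.im := by rw [re_mul']; simp
  have h2 : (w * c).im = c.re - c.im := by rw [im_mul']; simp
  rw [h1, h2]
  have e1 : 2 * -c.im - (c.re - c.im) = -c.re - c.im := by ring
  have e2 : -(-c.im) - (c.re - c.im) = 2 * c.im - c.re := by ring
  have e3 : 2 * (c.re - c.im) - -c.im = 2 * c.re - c.im := by ring
  rw [e1, e2, e3]; ring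

lemma th2_one : th2 1 = 2 * I := by
  rw [th2_mk 1 0 (by decide)]
  simp only [negI_zpow]; norm_num; ring

lemma th2_neg_one : th2 (-1) = -(2 * I) := by
  rw [th2_mk (-1) 0 (by decide)]
  simp only [negI_zpow]; norm_num; ring

lemma th2_sq3 : th2 sq3 = 2 := by
  rw [th2_mk 1 2 (by decide)]
  simp only [negI_zpow]; norm_num

lemma th2_neg_sq3 : th2 (-sq3) = 2 := by
  rw [th2_mk (-1) (-2) (by decide)]
  simp only [negI_zpow]; norm_num

/-! ### characters modulo `4` -/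

lemma not_cop_of_even {m c : Eis} (hm : (2 : Eis) ∣ m) (h : (2 : Eis) ∣ c) : ¬ IsCoprime c m := by
  intro hc
  have h4 : IsCoprime (2 : Eis) 2 := IsCoprime.of_isCoprime_of_dvd_left
    (IsCoprime.of_isCoprime_of_dvd_right hc hm) h
  exact prime_two.not_isUnit (isCoprime_self.mp h4)

lemma S2_two_eq (hχ : IsCh 4 χ) (v : Eis) :
    S2 χ v 2 = (χ 1 * th2 1 * ea 4 v 1 + χ (-1) * th2 (-1) * ea 4 v (-1) +
        χ sq3 * th2 sq3 * ea 4 v sq3 + χ (-sq3) * th2 (-sq3) * ea 4 v (-sq3)) +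
      (χ w * th2 w * ea 4 v w + χ (-w) * th2 (-w) * ea 4 v (-w) +
        χ (w * sq3) * th2 (w * sq3) * ea 4 v (w * sq3) +
        χ (-(w * sq3)) * th2 (-(w * sq3)) * ea 4 v (-(w * sq3))) +
      (χ (w ^ 2) * th2 (w ^ 2) * ea 4 v (w ^ 2) + χ (-(w ^ 2)) * th2 (-(w ^ 2)) * ea 4 v (-(w ^ 2)) +
        χ (w ^ 2 * sq3) * th2 (w ^ 2 * sq3) * ea 4 v (w ^ 2 * sq3) +
        χ (-(w ^ 2 * sq3)) * th2 (-(w ^ 2 * sq3)) * ea 4 v (-(w ^ 2 * sq3))) := by
  have e4 : (2 : Eis) ^ 2 = 4 := by norm_num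
  unfold S2
  rw [e4]
  refine sumMod4 (f := fun c => χ c * th2 c * ea 4 v c)
    ((hχ.per.mul th2_pmod).mul (pmod_ea four_ne v)) (fun c hc => ?_)
  rw [hχ.zero c (not_cop_of_even ⟨2, by norm_num⟩ hc), zero_mul, zero_mul]

lemma th2_w : th2 w = 2 * I := by
  have := th2_w_mul 1; rw [mul_one, th2_one] at this; exact this
lemma th2_neg_w : th2 (-w) = -(2 * I) := by
  have := th2_w_mul (-1)
  rw [th2_neg_one, show w * (-1 : Eis) = -w by ring] at this; exact this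
lemma th2_w_sq3 : th2 (w * sq3) = 2 := by rw [th2_w_mul, th2_sq3]
lemma th2_neg_w_sq3 : th2 (-(w * sq3)) = 2 := by
  rw [show -(w * sq3) = w * (-sq3) by ring, th2_w_mul, th2_neg_sq3]
lemma th2_w2 : th2 (w ^ 2) = 2 * I := by rw [pow_two, th2_w_mul, th2_w]
lemma th2_neg_w2 : th2 (-(w ^ 2)) = -(2 * I) := by
  rw [show -(w ^ 2) = w * (-w) by ring, th2_w_mul, th2_neg_w]
lemma th2_w2_sq3 : th2 (w ^ 2 * sq3) = 2 := by
  rw [show w ^ 2 * sq3 = w * (w * sq3) by ring, th2_w_mul, th2_w_sq3]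
lemma th2_neg_w2_sq3 : th2 (-(w ^ 2 * sq3)) = 2 := by
  rw [show -(w ^ 2 * sq3) = w * (-(w * sq3)) by ring, th2_w_mul, th2_neg_w_sq3]

lemma ch_neg {m : Eis} (hχ : IsCh m χ) (c : Eis) : χ (-c) = χ (-1) * χ c := by
  rw [← hχ.mul]; congr 1; ring

lemma im_1 : (1 : Eis).im = 0 := by decide
lemma im_2 : (-1 : Eis).im = 0 := by decide
lemma im_3 : (sq3 : Eis).im = 2 := by decide
lemma im_4 : (-sq3 : Eis).im = -2 := by decide
lemma im_5 : (w : Eis).im = 1 := by decide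
lemma im_6 : (-w : Eis).im = -1 := by decide
lemma im_7 : (w * sq3 : Eis).im = -1 := by decide
lemma im_8 : (-(w * sq3) : Eis).im = 1 := by decide
lemma im_9 : (w ^ 2 : Eis).im = -1 := by decide
lemma im_10 : (-(w ^ 2) : Eis).im = 1 := by decide
lemma im_11 : (w ^ 2 * sq3 : Eis).im = -1 := by decide
lemma im_12 : (-(w ^ 2 * sq3) : Eis).im = 1 := by decide

/-- `P = 2 i (1 - ε) + 2 σ (1 + ε)` -/
def PP (χ : Eis → ℂ) : ℂ := 2 * I * (1 - χ (-1)) + 2 * χ sq3 * (1 + χ (-1))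

theorem S2_one_two (hχ : IsCh 4 χ) : S2 χ 1 2 =
    2 * I * (1 + I * χ w - I * χ w ^ 2) - 2 * I * χ (-1) * (1 - I * χ w + I * χ w ^ 2)
      + 2 * χ sq3 * (-1 - I * χ w - I * χ w ^ 2)
      + 2 * χ (-1) * χ sq3 * (-1 + I * χ w + I * χ w ^ 2) := by
  rw [S2_two_eq hχ]
  simp only [ea4_one, im_1, im_2, im_3, im_4, im_5, im_6, im_7, im_8, im_9, im_10, im_11, im_12,
    th2_one, th2_neg_one, th2_sq3, th2_neg_sq3, th2_w, th2_neg_w, th2_w_sq3, th2_neg_w_sq3,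
    th2_w2, th2_neg_w2, th2_w2_sq3, th2_neg_w2_sq3]
  rw [ch_neg hχ sq3, ch_neg hχ w, ch_neg hχ (w * sq3), ch_neg hχ (w ^ 2), ch_neg hχ (w ^ 2 * sq3),
    hχ.mul w sq3, hχ.mul (w ^ 2) sq3, pow_two w, hχ.mul w w, hχ.one]
  have i2 : (I : ℂ) ^ (2 : ℤ) = -1 := by
    have h : (I : ℂ) ^ (2 : ℤ) = I ^ 2 := by norm_cast
    rw [h, Complex.I_sq]
  have i3 : (I : ℂ) ^ (-2 : ℤ) = -1 := by rw [zpow_neg, i2]; norm_num
  have i4 : (I : ℂ) ^ (-1 : ℤ) = -I := by rw [zpow_neg, zpow_one, Complex.inv_I]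
  rw [i2, i3, i4, zpow_one, zpow_zero]
  linear_combination (0 : ℂ) * Complex.I_sq

theorem S2_two_two (hχ : IsCh 4 χ) : S2 χ 2 2 = (1 - χ w - χ w ^ 2) * PP χ := by
  rw [S2_two_eq hχ]
  simp only [ea4_two, im_1, im_2, im_3, im_4, im_5, im_6, im_7, im_8, im_9, im_10, im_11, im_12,
    th2_one, th2_neg_one, th2_sq3, th2_neg_sq3, th2_w, th2_neg_w, th2_w_sq3, th2_neg_w_sq3,
    th2_w2, th2_neg_w2, th2_w2_sq3, th2_neg_w2_sq3]
  rw [ch_neg hχ sq3, ch_neg hχ w, ch_neg hχ (w * sq3), ch_neg hχ (w ^ 2), ch_neg hχ (w ^ 2 * sq3),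
    hχ.mul w sq3, hχ.mul (w ^ 2) sq3, pow_two w, hχ.mul w w, hχ.one]
  have i2 : (-1 : ℂ) ^ (2 : ℤ) = 1 := by norm_num
  have i3 : (-1 : ℂ) ^ (-2 : ℤ) = 1 := by norm_num
  have i4 : (-1 : ℂ) ^ (-1 : ℤ) = -1 := by norm_num
  rw [i2, i3, i4, zpow_one, zpow_zero]
  unfold PP
  ring

theorem S2_zero_two (hχ : IsCh 4 χ) : S2 χ 0 2 = (1 + χ w + χ w ^ 2) * PP χ := by
  rw [S2_two_eq hχ]
  simp only [ea4_zero,
    th2_one, th2_neg_one, th2_sq3, th2_neg_sq3, th2_w, th2_neg_w, th2_w_sq3, th2_neg_w_sq3,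
    th2_w2, th2_neg_w2, th2_w2_sq3, th2_neg_w2_sq3]
  rw [ch_neg hχ sq3, ch_neg hχ w, ch_neg hχ (w * sq3), ch_neg hχ (w ^ 2), ch_neg hχ (w ^ 2 * sq3),
    hχ.mul w sq3, hχ.mul (w ^ 2) sq3, pow_two w, hχ.mul w w, hχ.one]
  unfold PP
  ring

/-! ### change of level, equivariance, conjugation -/

lemma S2_gl (χ : Eis → ℂ) (v : Eis) (r : ℕ) : S2 χ v r = gl (fun c => χ c * th2 c) v (2 ^ r) := rfl

lemma pmod_th2_mul {s : ℕ} (hs : 2 ≤ s) (hχ : PMod (2 ^ s) χ) :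
    PMod (2 ^ s) (fun c => χ c * th2 c) := by
  refine hχ.mul (th2_pmod.mono ?_)
  have : (4 : Eis) = 2 ^ 2 := by norm_num
  rw [this]; exact pow_dvd_pow 2 hs

theorem S2_mul_pow {s : ℕ} (hs : 2 ≤ s) (hχ : PMod (2 ^ s) χ) (k : ℕ) (u : Eis) :
    S2 χ (2 ^ k * u) (s + k) = 4 ^ k * S2 χ u s := by
  rw [S2_gl, S2_gl, pow_add, gl_level_mul (pow2_ne s) (pow2_ne k) (pmod_th2_mul hs hχ), nm_pow,
    nm_two]
  push_cast; rfl

theorem S2_pow_zero {s : ℕ} (hs : 2 ≤ s) (hχ : PMod (2 ^ s) χ) (k : ℕ) {v : Eis}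
    (hv : ¬ (2 : Eis) ^ k ∣ v) : S2 χ v (s + k) = 0 := by
  rw [S2_gl, pow_add]
  exact gl_level_zero (pow2_ne s) (pow2_ne k) (pmod_th2_mul hs hχ) hv

lemma th2_kap {c : Eis} (hc : Od c) : th2 c = 2 * I * kap4 c := by
  rw [kap4_eq hc]
  linear_combination (th2 c) * Complex.I_sq

lemma kap4_conj_self (u : Eis) : kap4 u * conj (kap4 u) = 1 := by
  rw [Complex.mul_conj, Complex.normSq_eq_norm_sq, norm_kap4]; norm_num

/-- equivariance -/
theorem S2_unit {r : ℕ} (hr : 2 ≤ r) (hχ : IsCh (2 ^ r) χ) {u : Eis} (hu : Od u) (v : Eis) :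
    χ u * S2 χ (u * v) r = conj (kap4 u) * rho2 u u * S2 (fun c => χ c * rho2 u c) v r := by
  have h2r := pow2_ne r
  have hr4 : (4 : Eis) ∣ 2 ^ r := by
    have : (4 : Eis) = 2 ^ 2 := by norm_num
    rw [this]; exact pow_dvd_pow 2 hr
  have hρ : PMod (2 ^ r) (fun c => χ c * rho2 u c) := by
    intro c t
    by_cases hc : Od c
    · have h4 : (4 : Eis) ∣ (c + 2 ^ r * t) - c := hr4.trans ⟨t, by ring⟩
      have hc' : Od (c + 2 ^ r * t) := od_congr' (by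
        rw [← neg_sub, dvd_neg]
        exact (Dvd.dvd.trans ⟨2, by norm_num⟩ h4)) hc
      beta_reduce
      rw [hχ.per, rho2_congr_right hu hc' h4]
    · have h1 : ¬ IsCoprime c (2 ^ r) := fun h => hc (od_of_cop (by omega) h)
      beta_reduce
      rw [hχ.per, hχ.zero c h1, zero_mul, zero_mul]
  have hP : PMod (2 ^ r) (fun c => χ c * rho2 u c * th2 c * ea (2 ^ r) v c) :=
    (pmod_th2_mul hr hρ).mul (pmod_ea h2r v)
  unfold S2
  rw [← sumMod_mul_left h2r, ← sumMod_mul_coprime h2r hP (cop_pow2 hu r), ← sumMod_mul_left h2r]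
  refine sumMod_congr fun c => ?_
  rw [ea_mul, mul_comm v u]
  by_cases hc : Od c
  · rw [th2_kap hc, th2_kap (hu.mul hc), gam4_kap4.mul u c hu hc, hχ.mul,
      rho2_mul_right hu hu hc]
    have h1 := kap4_conj_self u
    have h2 := rho2_sq u c
    have h3 := rho2_sq u u
    linear_combination (-(χ u * χ c * (2 * I * kap4 c) * ea (2 ^ r) (u * v) c *
      (rho2 u u ^ 2 * rho2 u c ^ 2))) * h1 - (χ u * χ c * (2 * I * kap4 c) * ea (2 ^ r) (u * v) c *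
      rho2 u u ^ 2) * h2 - (χ u * χ c * (2 * I * kap4 c) * ea (2 ^ r) (u * v) c) * h3
  · have : ¬ IsCoprime c (2 ^ r) := fun h => hc (od_of_cop (by omega) h)
    rw [hχ.mul, hχ.zero c this]; ring

lemma conj_th2 (c : Eis) : conj (th2 c) = th2 (-c) := by
  unfold th2
  rw [sumMod_star two_ne]
  refine sumMod_congr fun y => ?_
  rw [star_ea, ea_comm, ea_comm _ _ (-c)]
  unfold ea; congr 1; simp only [map_neg]; ring

/-- conjugation -/
theorem conj_S2 {r : ℕ} (hr : 2 ≤ r) (hχ : IsCh (2 ^ r) χ) (v : Eis) :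
    conj (S2 χ v r) = χ (-1) * S2 (fun c => conj (χ c)) v r := by
  have h2r := pow2_ne r
  have hP : PMod (2 ^ r) (fun c => conj (χ c) * th2 c * ea (2 ^ r) v c) :=
    (pmod_th2_mul hr hχ.conj.per).mul (pmod_ea h2r v)
  have h1 : conj (χ (-1)) * χ (-1) = 1 := by
    rw [mul_comm]; exact hχ.mul_conj_self h2r (isCoprime_of_isUnit isUnit_one.neg _)
  unfold S2
  rw [sumMod_star h2r, ← sumMod_neg h2r hP, ← sumMod_mul_left h2r]
  refine sumMod_congr fun c => ?_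
  rw [map_mul, map_mul, conj_th2, star_ea, ch_neg hχ c, map_mul]
  have e1 : ea (2 ^ r) (-v) c = ea (2 ^ r) v (-c) := by
    unfold ea; congr 1; simp only [map_neg]; ring
  rw [e1]
  linear_combination (-(conj (χ c) * th2 (-c) * ea (2 ^ r) v (-c))) * h1

/-! ### characters modulo `8` with `χ(5) = 1` -/

lemma eight_eq : (8 : Eis) = 2 ^ 3 := by norm_num

lemma ch_pm_one {m : Eis} (hχ : IsCh m χ) : χ (-1) = 1 ∨ χ (-1) = -1 := by
  have h : χ (-1) * χ (-1) = 1 := by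
    rw [← hχ.mul, show (-1 : Eis) * -1 = 1 by ring, hχ.one]
  exact mul_self_eq_one_iff.mp h

lemma ch_sq3_sq (hχ : IsCh 8 χ) (h5 : χ 5 = 1) : χ sq3 * χ sq3 = 1 := by
  have h1 : χ (sq3 * sq3) = χ 5 := hχ.per.congr ⟨-1, by have := sq3_sq; linear_combination this⟩
  rw [← hχ.mul, h1, h5]

lemma ch_sq3_pm (hχ : IsCh 8 χ) (h5 : χ 5 = 1) : χ sq3 = 1 ∨ χ sq3 = -1 :=
  mul_self_eq_one_iff.mp (ch_sq3_sq hχ h5)

lemma ch_q_pm (hχ : IsCh 8 χ) : χ (1 + 4 * w) = 1 ∨ χ (1 + 4 * w) = -1 := by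
  have h : χ (1 + 4 * w) * χ (1 + 4 * w) = 1 := by
    rw [← hχ.mul, ← hχ.one]
    exact hχ.per.congr ⟨w + 2 * w ^ 2, by ring⟩
  exact mul_self_eq_one_iff.mp h

lemma ch_w_cube {m : Eis} (hχ : IsCh m χ) : χ w ^ 3 = 1 := by
  rw [pow_three, ← hχ.mul, ← hχ.mul, show w * (w * w) = w ^ 3 by ring, w_cube, hχ.one]

/-- `χ(1 + 4 s)` -/
lemma ch_one_four (hχ : IsCh 8 χ) (h5 : χ 5 = 1) (s : Eis) :
    χ (1 + 4 * s) = if s.im % 2 = 0 then 1 else χ (1 + 4 * w) := by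
  have hs : s = (s.re : Eis) + (s.im : Eis) * w := by
    apply ext'
    · rw [QuadraticAlgebra.re_add, re_mul']; simp
    · rw [QuadraticAlgebra.im_add, im_mul']; simp
  have key : ∀ x y : Eis, (8 : Eis) ∣ x - y → χ x = χ y := fun x y h => hχ.per.congr h
  have e55 : χ (5 * (1 + 4 * w)) = χ (1 + 4 * w) := by rw [hχ.mul, h5, one_mul]
  rcases Int.emod_two_eq_zero_or_one s.re with ha | ha <;>
    rcases Int.emod_two_eq_zero_or_one s.im with hb | hb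
  · rw [if_pos hb, ← hχ.one]
    apply key
    obtain ⟨a, ha'⟩ := Int.dvd_of_emod_eq_zero ha
    obtain ⟨b, hb'⟩ := Int.dvd_of_emod_eq_zero hb
    rw [hs, ha', hb']
    exact ⟨(a : Eis) + b * w, by push_cast; ring⟩
  · rw [if_neg (by omega)]
    apply key
    obtain ⟨a, ha'⟩ := Int.dvd_of_emod_eq_zero ha
    have hb' : s.im = 2 * (s.im / 2) + 1 := by omega
    rw [hs, ha', hb']
    exact ⟨(a : Eis) + ((s.im / 2 : ℤ) : Eis) * w, by push_cast; ring⟩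
  · rw [if_pos hb, ← h5]
    apply key
    obtain ⟨b, hb'⟩ := Int.dvd_of_emod_eq_zero hb
    have ha' : s.re = 2 * (s.re / 2) + 1 := by omega
    rw [hs, ha', hb']
    exact ⟨((s.re / 2 : ℤ) : Eis) + b * w, by push_cast; ring⟩
  · rw [if_neg (by omega), ← e55]
    apply key
    have ha' : s.re = 2 * (s.re / 2) + 1 := by omega
    have hb' : s.im = 2 * (s.im / 2) + 1 := by omega
    rw [hs, ha', hb']
    exact ⟨((s.re / 2 : ℤ) : Eis) + ((s.im / 2 : ℤ) : Eis) * w - 2 * w, by push_cast; ring⟩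

/-- period `4` -/
theorem isCh_four (hχ : IsCh 8 χ) (h5 : χ 5 = 1) (h4 : χ (1 + 4 * w) = 1) : IsCh 4 χ where
  one := hχ.one
  mul := hχ.mul
  zero x hx := hχ.zero x (fun h => hx (IsCoprime.of_isCoprime_of_dvd_right h ⟨2, by norm_num⟩))
  per := by
    intro c t
    by_cases hc : Od c
    · obtain ⟨a, b, hab⟩ := cop_pow2 hc 3
      have h1 : χ (1 + 4 * (a * t)) = 1 := by
        rw [ch_one_four hχ h5, h4]; split_ifs <;> rfl
      have h2 : χ (c * (1 + 4 * (a * t))) = χ c := by rw [hχ.mul, h1, mul_one]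
      rw [← h2]
      apply hχ.per.congr
      exact ⟨4 * b * t, by linear_combination (-(4 * t)) * hab⟩
    · have h2 : (2 : Eis) ∣ c := by unfold Od at hc; push Not at hc; exact hc
      have h3 : (2 : Eis) ∣ c + 4 * t := dvd_add h2 ⟨2 * t, by ring⟩
      rw [hχ.zero _ (not_cop_of_even ⟨4, by norm_num⟩ h2),
        hχ.zero _ (not_cop_of_even ⟨4, by norm_num⟩ h3)]

/-- primitive modulo `8` -/
theorem prm_eight (hχ : IsCh 8 χ) (h4 : χ (1 + 4 * w) ≠ 1) : Prm (2 ^ 3) χ := by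
  intro s hs
  have h2 : (2 : Eis) ∣ s := by
    by_contra hcon
    exact hs (cop_pow2 hcon 3)
  obtain ⟨t, rfl⟩ := h2
  refine ⟨1 + 4 * w, ?_, ⟨w * t, by norm_num; ring⟩, h4⟩
  apply cop_pow2
  rw [show (1 : Eis) + 4 * w = 1 + 2 * (2 * w) by ring]
  exact od_add_two od_one _

lemma S2_eight_gl (hχ : IsCh 8 χ) (h4 : χ (1 + 4 * w) ≠ 1) (v : Eis) :
    S2 χ v 3 = gl χ 1 8 * sumMod 2 (fun y => conj (χ (v - 2 * (sq3 * y ^ 2)))) := by
  have h8 : IsCh (2 ^ 3) χ := by rw [← eight_eq]; exact hχ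
  rw [S2_eq (by norm_num), ← sumMod_mul_left two_ne, eight_eq]
  refine sumMod_congr fun y => ?_
  rw [gl_prim (pow2_ne 3) h8 (prm_eight hχ h4), mul_comm]
  norm_num

theorem S2_eight_even (hχ : IsCh 8 χ) (h4 : χ (1 + 4 * w) ≠ 1) (u : Eis) :
    S2 χ (2 * u) 3 = 0 := by
  rw [S2_eight_gl hχ h4]
  have : ∀ y : Eis, conj (χ (2 * u - 2 * (sq3 * y ^ 2))) = 0 := by
    intro y
    rw [hχ.zero, map_zero]
    exact not_cop_of_even ⟨4, by norm_num⟩ ⟨u - sq3 * y ^ 2, by ring⟩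
  rw [sumMod_congr this, SumMod880.sumMod_zero two_ne, mul_zero]

theorem S2_eight (hχ : IsCh 8 χ) (h5 : χ 5 = 1) (h4 : χ (1 + 4 * w) = -1) :
    S2 χ 1 3 = gl χ 1 8 * ((1 - χ (-1)) * (1 + χ sq3)) := by
  have h4' : χ (1 + 4 * w) ≠ 1 := by rw [h4]; norm_num
  have hP : PMod 2 (fun y => conj (χ (1 - 2 * (sq3 * y ^ 2)))) := by
    intro y t
    beta_reduce
    congr 1
    apply hχ.per.congr
    exact ⟨-(sq3 * (y * t + t ^ 2)), by ring⟩
  rw [S2_eight_gl hχ h4']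
  congr 1
  have e2 : (2 : Eis) = ((2 : ℕ) : Eis) := by norm_num
  have hP' := hP
  rw [e2] at hP' ⊢
  rw [sumMod_natCast (by norm_num) hP']
  simp only [Finset.sum_range_succ, Finset.sum_range_zero, zero_add]
  have key : ∀ x y : Eis, (8 : Eis) ∣ x - y → χ x = χ y := fun x y h => hχ.per.congr h
  have hss := ch_sq3_sq hχ h5
  have a00 : χ (1 - ((2 : ℕ) : Eis) * (sq3 * (⟨((0 : ℕ) : ℤ), ((0 : ℕ) : ℤ)⟩ : Eis) ^ 2)) = 1 := by
    rw [← hχ.one]; apply key; exact ⟨0, by decide⟩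
  have a10 : χ (1 - ((2 : ℕ) : Eis) * (sq3 * (⟨((1 : ℕ) : ℤ), ((0 : ℕ) : ℤ)⟩ : Eis) ^ 2))
      = -χ (-1) := by
    have : χ ((-1) * (1 + 4 * w)) = -χ (-1) := by rw [hχ.mul, h4]; ring
    rw [← this]; apply key; exact ⟨0, by decide⟩
  have b11 : χ (5 + 2 * w) = χ sq3 := by
    have h1 : χ (sq3 * (5 + 2 * w)) = 1 := by
      rw [← hχ.one]; apply key; exact ⟨w, by decide⟩
    rw [hχ.mul] at h1
    calc χ (5 + 2 * w) = (χ sq3 * χ sq3) * χ (5 + 2 * w) := by rw [hss, one_mul]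
      _ = χ sq3 * (χ sq3 * χ (5 + 2 * w)) := by ring
      _ = _ := by rw [h1, mul_one]
  have a11 : χ (1 - ((2 : ℕ) : Eis) * (sq3 * (⟨((1 : ℕ) : ℤ), ((1 : ℕ) : ℤ)⟩ : Eis) ^ 2))
      = χ sq3 := by
    rw [← b11]; apply key; exact ⟨0, by decide⟩
  have b01 : χ (-1 + 2 * w) = -(χ (-1) * χ sq3) := by
    have h1 : χ (sq3 * (-1 + 2 * w)) = -χ (-1) := by
      have : χ ((-1) * (5 * (1 + 4 * w))) = -χ (-1) := by rw [hχ.mul, hχ.mul, h4, h5]; ring
      rw [← this]; apply key; exact ⟨2 * w, by decide⟩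
    rw [hχ.mul] at h1
    calc χ (-1 + 2 * w) = (χ sq3 * χ sq3) * χ (-1 + 2 * w) := by rw [hss, one_mul]
      _ = χ sq3 * (χ sq3 * χ (-1 + 2 * w)) := by ring
      _ = _ := by rw [h1]; ring
  have a01 : χ (1 - ((2 : ℕ) : Eis) * (sq3 * (⟨((0 : ℕ) : ℤ), ((1 : ℕ) : ℤ)⟩ : Eis) ^ 2))
      = -(χ (-1) * χ sq3) := by
    rw [← b01]; apply key; exact ⟨0, by decide⟩
  rw [a00, a10, a11, a01]
  rcases ch_pm_one hχ with h1 | h1 <;> rcases ch_sq3_pm hχ h5 with h2 | h2 <;>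
    rw [h1, h2] <;> norm_num

theorem norm_gl_eight (hχ : IsCh 8 χ) (h4 : χ (1 + 4 * w) ≠ 1) : ‖gl χ 1 8‖ = 8 := by
  have h8 : IsCh (2 ^ 3) χ := by rw [← eight_eq]; exact hχ
  have h := norm_gl_sq (pow2_ne 3) h8 (prm_eight hχ h4)
  rw [← eight_eq] at h
  have h9 : nm (8 : Eis) = 64 := by
    rw [eight_eq, nm_pow, nm_two]; norm_num
  rw [h9] at h
  have h0 := norm_nonneg (gl χ 1 8)
  push_cast at h
  nlinarith

/-- period `4`: the level `8` -/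
theorem S2_four_three (hχ : IsCh 4 χ) (u : Eis) : S2 χ (2 * u) 3 = 4 * S2 χ u 2 := by
  have h4 : PMod (2 ^ 2) χ := by
    have : (2 : Eis) ^ 2 = 4 := by norm_num
    rw [this]; exact hχ.per
  have := S2_mul_pow (le_refl 2) h4 1 u
  simpa using this

theorem S2_four_three_odd (hχ : IsCh 4 χ) {v : Eis} (hv : Od v) : S2 χ v 3 = 0 := by
  have h4 : PMod (2 ^ 2) χ := by
    have : (2 : Eis) ^ 2 = 4 := by norm_num
    rw [this]; exact hχ.per
  have := S2_pow_zero (le_refl 2) h4 1 (v := v) (by rw [pow_one]; exact hv)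
  exact this

lemma S2_congr {r : ℕ} {v v' : Eis} (h : (2 : Eis) ^ r ∣ v - v') : S2 χ v r = S2 χ v' r := by
  rw [S2_gl, S2_gl]; exact gl_congr (pow2_ne r) h

end Crest.Agent.R017.GG90
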