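import Crest.Agent.R017.GG6_90
import Crest.Agent.R012.Sym5_645

/-!
# Row 17: the local sum `SL` at the block `A = 2^r`

* `eta2 c = (2/c)_2 (c/2)_3`, `eta_eta2 : Eta eta2`
* `kap4_sq : kap4(z)^2 = ρ₂(z, z)`
* `SL2_eq` : `SL (2^v) = c₀ g^v S2 (χ₀ η^v) (2^v) r / 2`, `‖c₀‖ = ‖g‖ = 1`
* `SL2_tab` : Hilbert case, `SL (2^v) = c₀ g^v T v`, `Tab T (4^r/2) ρ d κ κ'`
* `SL2_pure` : the other case
-/

set_option autoImplicit false
set_option linter.unusedTactic false

noncomputable section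

open Complex
open scoped ComplexConjugate

namespace Crest.Agent.R017.GG90

open Crest.Agent.R012 Crest.Agent.R012.Eis Crest.Agent.R012.Gauss880 Crest.Agent.R017.Loc266
open Crest.Agent.R017.Sx440 Crest.Agent.R017.Kub664 Crest.Agent.R017.Tw266
open Crest.Agent.R017.Rw266 Crest.Agent.R017.QS411 Crest.Agent.R017.GmK411
open Crest.Agent.R017.Tame74 Crest.Agent.R017.LS848

/-! ### `eta2` -/

lemma prim_neg_two : IsPrim (-2) := ⟨-1, by norm_num⟩

/-- the sextic character modulo `8` -/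
def eta2 (c : Eis) : ℂ := sy2 2 c * sy c (-2)

lemma ch_cub2 : IsCh (-2) (fun c => sy c (-2)) := isCh_sy syG prim_neg_two

lemma cub2_congr {c c' : Eis} (h : (2 : Eis) ∣ c - c') : sy c (-2) = sy c' (-2) :=
  ch_cub2.per.congr ((neg_dvd).mpr h)

lemma rho2_neg_one_sq3 : rho2 (-1) sq3 = -1 := by
  rw [rho2_eq_eps4 (od_of_isUnit isUnit_one.neg) od_sq3]
  have : eps4 (-1) sq3 = -1 := by decide +kernel
  rw [this]; norm_num

lemma sy2_neg_one_sq3 : sy2 (-1) sq3 = -1 := by
  rw [sy2_unit_left isUnit_one.neg od_sq3, rho2_neg_one_sq3]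

lemma sy2_two_sq3 : sy2 2 sq3 = -1 := by
  rw [sy2_congr od_sq3 (y := -1) (by
    rw [show (2 : Eis) - -1 = 3 by norm_num]; exact sq3_dvd_three), sy2_neg_one_sq3]

lemma sy2_two_q : sy2 2 (1 + 4 * w) = -1 := by
  set c : Eis := 1 + 4 * w with hc
  have hco : Od c := by
    rw [hc, show (1 : Eis) + 4 * w = 1 + 2 * (2 * w) by ring]; exact od_add_two od_one _
  have h4 : (4 : Eis) ∣ c - 1 := ⟨w, by rw [hc]; ring⟩
  have h1 : sy2 (2 * w) c = sy2 (-sq3) c := by
    apply sy2_congr hco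
    refine ⟨1, ?_⟩
    have e : (sq3 : Eis) = 1 + 2 * w := by decide
    rw [hc, e]; ring
  have h2 : sy2 w c = 1 := by
    rw [sy2_unit_left isUnit_w hco, rho2_of_four_right (od_of_isUnit isUnit_w) h4]
  have h3 : sy2 (-1) c = 1 := by
    rw [sy2_unit_left isUnit_one.neg hco, rho2_of_four_right (od_of_isUnit isUnit_one.neg) h4]
  have h5 : sy2 sq3 c = sy2 c sq3 := by
    have := recF2.rel sq3 c od_sq3 hco
    rwa [rho2_of_four_right od_sq3 h4, one_mul] at this
  have h6 : sy2 c sq3 = -1 := by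
    rw [sy2_congr od_sq3 (y := -1), sy2_neg_one_sq3]
    refine ⟨2, ?_⟩
    have e : (sq3 : Eis) = 1 + 2 * w := by decide
    rw [hc, e]; ring
  rw [sy2_mul_left hco, h2, mul_one, show -sq3 = (-1) * sq3 by ring, sy2_mul_left hco, h3, one_mul,
    h5, h6] at h1
  exact h1

theorem eta_eta2 : Eta eta2 where
  ch := {
    one := by
      unfold eta2
      rw [sy2_one_right, ch_cub2.one, one_mul]
    mul := fun x y => by
      unfold eta2
      have h := ch_cub2.mul x y
      beta_reduce at h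
      rw [h]
      by_cases hx : x = 0
      · subst hx
        have : sy 0 (-2) = 0 := ch_cub2.zero 0 (by
          rw [isCoprime_zero_left]
          intro hu
          exact prime_two.not_isUnit ((IsUnit.neg_iff _).mp hu))
        rw [this]; ring
      · by_cases hy : y = 0
        · subst hy
          have : sy 0 (-2) = 0 := ch_cub2.zero 0 (by
            rw [isCoprime_zero_left]
            intro hu
            exact prime_two.not_isUnit ((IsUnit.neg_iff _).mp hu))
          rw [this]; ring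
        · rw [sy2_mul_right _ hx hy]; ring
    per := fun x t => by
      have h2 : (2 : Eis) ∣ (x + 8 * t) - x := ⟨4 * t, by ring⟩
      unfold eta2
      rw [cub2_congr h2]
      by_cases hx : Od x
      · have hx' : Od (x + 8 * t) := by
          rw [show x + 8 * t = x + 2 * (4 * t) by ring]; exact od_add_two hx _
        rw [sy2_two_congr hx' ⟨t, by ring⟩]
      · have : sy x (-2) = 0 := ch_cub2.zero x (by
          intro hc
          apply hx
          intro hd
          have h4 : IsCoprime (2 : Eis) 2 := IsCoprime.of_isCoprime_of_dvd_left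
            (IsCoprime.of_isCoprime_of_dvd_right hc ⟨-1, by ring⟩) hd
          exact prime_two.not_isUnit (isCoprime_self.mp h4))
        rw [this]; ring
    zero := fun x hx => by
      unfold eta2
      have : sy x (-2) = 0 := ch_cub2.zero x (by
        intro hc
        apply hx
        rw [eight_eq]
        exact (IsCoprime.of_isCoprime_of_dvd_right hc ⟨-1, by ring⟩).pow_right)
      rw [this]; ring }
  neg := by
    unfold eta2
    rw [sy2_unit_right 2 isUnit_one.neg, sy_neg_one syG prim_neg_two, mul_one]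
  sq := by
    unfold eta2
    rw [sy2_two_sq3, cub2_congr (c' := 1) ⟨w, by decide⟩]
    have := ch_cub2.one
    beta_reduce at this
    rw [this]; ring
  q := by
    unfold eta2
    rw [sy2_two_q, cub2_congr (c' := 1) ⟨2 * w, by ring⟩]
    have := ch_cub2.one
    beta_reduce at this
    rw [this]; ring
  w1 := by
    unfold eta2
    rw [sy2_unit_right 2 isUnit_w, one_mul]
    have hn : nm (-2 : Eis) = 4 := by decide
    have h1 := Sym645.sy_w (c := -2) (by rw [hn])
    rw [hn] at h1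
    norm_num at h1
    rw [h1]
    intro h
    have := congrArg Complex.im h
    simp [wC] at this

/-! ### the weight at squares -/

lemma fin_check_sq : ∀ x y : Fin 4, nf (x : ℕ) (y : ℕ) % 2 = 1 →
    (2 * kx (x : ℕ) (y : ℕ)) % 4 =
      (if e4 (x : ℕ) (y : ℕ) (x : ℕ) (y : ℕ) = -1 then 2 else 0) % 4 := by
  decide +kernel

lemma kap4_sq {z : Eis} (hz : Od z) : kap4 z * kap4 z = rho2 z z := by
  rw [rho2_eq_eps4 hz hz]
  obtain ⟨x, hx⟩ := fin4 z.re
  obtain ⟨y, hy⟩ := fin4 z.im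
  have k1 : nf (x : ℕ) (y : ℕ) % 2 = 1 :=
    Eq.trans (nf_modEq (mod2_of_mod4 hx) (mod2_of_mod4 hy)) (odd_nf z (odd_of_od hz))
  have h := fin_check_sq x y k1
  rw [kx_congr hx hy, e4_congr hx hy hx hy] at h
  unfold kap4
  rw [← pow_add, ← two_mul, I_pow_mod h]
  unfold eps4
  rcases e4_cases z.re z.im z.re z.im with h1 | h1
  · rw [h1]; norm_num
  · rw [h1]; simp

lemma kap4_neg_one : kap4 (-1) = -1 := by
  rw [kap4_eq (od_of_isUnit isUnit_one.neg), th2_neg_one]
  linear_combination Complex.I_sq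

/-- inverses modulo `4` -/
lemma kap4_inv {c z : Eis} (hc : Od c) (hz : Od z) (h : (4 : Eis) ∣ c * z - 1) :
    kap4 c = kap4 z := by
  have h1 : kap4 (c * z) = 1 := gam4_kap4.one_of h
  rw [gam4_kap4.mul c z hc hz] at h1
  have h2 : rho2 c z * rho2 z z = 1 := by
    rw [← rho2_mul_left hc hz hz, rho2_of_four_left h hz]
  have h3 := kap4_sq hz
  have h4 := rho2_sq c z
  have h5 := kap4_conj_self z
  -- kap4 c * kap4 z * ρ(c,z) = 1,  ρ(c,z) = ρ(z,z) = kap4 z ^ 2
  have h6 : rho2 c z = rho2 z z := by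
    have := rho2_sq z z
    calc rho2 c z = rho2 c z * (rho2 z z * rho2 z z) := by rw [this, mul_one]
      _ = (rho2 c z * rho2 z z) * rho2 z z := by ring
      _ = _ := by rw [h2, one_mul]
  have h7 : kap4 c * kap4 z * rho2 c z * (kap4 z * rho2 c z) = kap4 z * rho2 c z := by
    rw [h1, one_mul]
  have h8 : kap4 c * kap4 z * rho2 c z * (kap4 z * rho2 c z) =
      kap4 c * (kap4 z * kap4 z) * (rho2 c z * rho2 c z) := by ring
  rw [h8, h4, h3, mul_one, h6] at h7
  have h9 : rho2 z z ≠ 0 := by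
    intro h0
    have := rho2_sq z z
    rw [h0, mul_zero] at this
    exact zero_ne_one this
  exact mul_right_cancel₀ h9 h7

lemma conj_kap4 {z : Eis} (hz : Od z) : conj (kap4 z) = kap4 z * rho2 z z := by
  have h3 := kap4_sq hz
  have h5 := kap4_conj_self z
  have h6 := rho2_sq z z
  calc conj (kap4 z) = (rho2 z z * rho2 z z) * conj (kap4 z) := by rw [h6, one_mul]
    _ = (kap4 z * kap4 z) * rho2 z z * conj (kap4 z) := by rw [h3]
    _ = kap4 z * rho2 z z * (kap4 z * conj (kap4 z)) := by ring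
    _ = _ := by rw [h5, mul_one]

lemma kap4_neg {z : Eis} (hz : Od z) : kap4 (-z) = -(kap4 z * rho2 (-1) z) := by
  rw [show -z = (-1) * z by ring, gam4_kap4.mul _ _ (od_of_isUnit isUnit_one.neg) hz,
    kap4_neg_one]; ring

lemma conj_kap4' {z : Eis} (hz : Od z) : conj (kap4 z) = -kap4 (-z) := by
  have hz' : Od (-z) := fun h => hz ((dvd_neg).mp h)
  have h1 : kap4 z = -(I / 2) * th2 z := kap4_eq hz
  have h2 : kap4 (-z) = -(I / 2) * th2 (-z) := kap4_eq hz'
  rw [h1, h2, map_mul, conj_th2]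
  have : conj (-(I / 2)) = I / 2 := by
    rw [map_neg, map_div₀, Complex.conj_I]
    have : conj (2 : ℂ) = 2 := by
      have : (2 : ℂ) = ((2 : ℝ) : ℂ) := by norm_num
      rw [this, Complex.conj_ofReal]
    rw [this]; ring
  rw [this]; ring

/-! ### characters on lifts -/

section lifts

variable {B e : Eis} {r : ℕ} {ψ γ χ : Eis → ℂ}

lemma isCh_lf {A : Eis} (H : Blk A B e) (hψ : IsCh (A * B) ψ) : IsCh A (fun c => ψ (lf e c)) where
  one := by rw [lf_one, hψ.one]
  mul x y := by rw [← hψ.mul]; exact hψ.per.congr (lf_mul H x y)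
  per := fun x t => hψ.per.congr (lf_congr H ⟨t, by ring⟩)
  zero x hx := hψ.zero _ (fun h => hx ((cop_lf H x).mp h))

/-- a twist by `ρ₂(u, ·)` -/
def rt (u : Eis) (χ : Eis → ℂ) (c : Eis) : ℂ := χ c * rho2 u c

lemma isCh_rt (hr : 2 ≤ r) (hχ : IsCh (2 ^ r) χ) {u : Eis} (hu : Od u) : IsCh (2 ^ r) (rt u χ) where
  one := by
    unfold rt
    rw [hχ.one, rho2_of_four_right hu (by rw [sub_self]; exact dvd_zero _), mul_one]
  mul x y := by
    unfold rt
    by_cases hx : Od x
    · by_cases hy : Od y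
      · rw [hχ.mul, rho2_mul_right hu hx hy]; ring
      · rw [hχ.mul, hχ.zero y (fun h => hy (od_of_cop (by omega) h))]; ring
    · rw [hχ.mul, hχ.zero x (fun h => hx (od_of_cop (by omega) h))]; ring
  per := by
    intro c t
    unfold rt
    rw [hχ.per]
    by_cases hc : Od c
    · have h4 : (4 : Eis) ∣ (c + 2 ^ r * t) - c := by
        have : (4 : Eis) ∣ 2 ^ r := by
          have : (4 : Eis) = 2 ^ 2 := by norm_num
          rw [this]; exact pow_dvd_pow 2 hr
        exact this.trans ⟨t, by ring⟩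
      have hc' : Od (c + 2 ^ r * t) := od_congr' (by
        rw [← neg_sub, dvd_neg]
        exact (Dvd.dvd.trans ⟨2, by norm_num⟩ h4)) hc
      rw [rho2_congr_right hu hc' h4]
    · rw [hχ.zero c (fun h => hc (od_of_cop (by omega) h)), zero_mul, zero_mul]
  zero x hx := by unfold rt; rw [hχ.zero x hx, zero_mul]

lemma rt_of_four {u c : Eis} (hu : Od u) (h : (4 : Eis) ∣ c - 1) : rt u χ c = χ c := by
  unfold rt; rw [rho2_of_four_right hu h, mul_one]

/-- lowering the modulus -/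
lemma isCh_lower {s : ℕ} (hs : s ≠ 0) (hsr : s ≤ r) (hχ : IsCh (2 ^ r) χ)
    (h1 : ∀ t, χ (1 + 2 ^ s * t) = 1) : IsCh (2 ^ s) χ where
  one := hχ.one
  mul := hχ.mul
  zero x hx := by
    apply hχ.zero
    intro h
    exact hx (IsCoprime.of_isCoprime_of_dvd_right h (pow_dvd_pow 2 hsr))
  per := by
    intro c t
    by_cases hc : Od c
    · obtain ⟨a, b, hab⟩ := cop_pow2 hc r
      have h2 : χ (c * (1 + 2 ^ s * (a * t))) = χ c := by rw [hχ.mul, h1, mul_one]
      rw [← h2]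
      apply hχ.per.congr
      exact ⟨2 ^ s * b * t, by linear_combination (-(2 ^ s * t)) * hab⟩
    · have hd : (2 : Eis) ∣ 2 ^ s := dvd_pow_self 2 hs
      have hc' : ¬ Od (c + 2 ^ s * t) := by
        intro h
        apply hc
        intro h2
        exact h (dvd_add h2 (hd.mul_right t))
      rw [hχ.zero c (fun h => hc (od_of_cop (by omega) h)),
        hχ.zero _ (fun h => hc' (od_of_cop (by omega) h))]

/-- the two genuine weights -/
def Wt (γ : Eis → ℂ) : Prop := γ = kap4 ∨ γ = fun c => conj (kap4 c)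

lemma Wt.gam4 (h : Wt γ) : Gam4 γ := by
  rcases h with rfl | rfl
  · exact gam4_kap4
  · exact gam4_conj_kap4

/-- a weight is `kap4` up to the character `ρ₂(-1, ·)` -/
lemma Wt.eq (h : Wt γ) : (∀ c, Od c → γ c = kap4 c) ∨ (∀ c, Od c → γ c = kap4 c * rho2 (-1) c) := by
  rcases h with rfl | rfl
  · left; intro c _; rfl
  · right; intro c hc
    beta_reduce
    rw [conj_kap4' hc, kap4_neg hc, neg_neg]

section main

variable (H : Lvl (2 ^ r) B e) (hr : 3 ≤ r)
include H

lemma nine_B : (9 : Eis) ∣ B := by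
  rcases H.d9 with h | h
  · exfalso
    have h9 : Od (9 : Eis) := by
      rw [show (9 : Eis) = 1 + 2 * 4 by norm_num]; exact od_add_two od_one _
    have h2 := isCoprime_self.mp (IsCoprime.of_isCoprime_of_dvd_right (cop_pow2 h9 r) h)
    have h3 : IsUnit (3 : Eis) := isUnit_of_dvd_unit ⟨3, by norm_num⟩ h2
    have h4 := isUnit_iff.mp h3
    have h5 : nm (3 : Eis) = 9 := by
      have := nm_natCast 3
      push_cast at this; rw [this]
    omega
  · exact h

lemma adm2_iff (hr0 : r ≠ 0) {c : Eis} : Adm (2 ^ r) c ↔ Od c := by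
  constructor
  · intro h; exact od_of_cop hr0 h.1
  · intro h
    exact ⟨cop_pow2 h r, fun h9 => absurd h9 (not9 H (nine_B H))⟩

include hr

lemma eight_dvd_lf (c : Eis) : (8 : Eis) ∣ lf e c - c := by
  have h8 : (8 : Eis) ∣ 2 ^ r := by rw [eight_eq]; exact pow_dvd_pow 2 hr
  exact h8.trans (lf_A H.toBlk c)

lemma od_lf {c : Eis} (hc : Od c) : Od (lf e c) := (gd_lf H ((adm2_iff H (by omega)).mpr hc)).1.2

lemma sy6_two_lf {c : Eis} (hc : Od c) : sy6 2 (lf e c) = conj (eta2 c) := by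
  have g := gd_lf H ((adm2_iff H (by omega)).mpr hc)
  have h8 := eight_dvd_lf H hr c
  have h2 : (2 : Eis) ∣ lf e c - c := (Dvd.intro 4 (by norm_num : (2 : Eis) * 4 = 8)).trans h8
  have e1 : sy 2 (lf e c) = sy c (-2) := by
    have h3 : sy (-2) (lf e c) = sy (lf e c) (-2) := Sym645.sy_reciprocity prim_neg_two g.1.1
    have h4 : sy (-2) (lf e c) = sy (-1) (lf e c) * sy 2 (lf e c) := by
      rw [show (-2 : Eis) = (-1) * 2 by ring, Sym645.sy_mul_left (Sym645.prim_nm_mod g.1.1)]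
    rw [sy_neg_one syG g.1.1, one_mul] at h4
    rw [← h4, h3, cub2_congr h2]
  rw [sy6_eq, sy2_two_congr g.1.2 h8, e1]
  unfold eta2
  rw [map_mul]
  congr 1
  rcases sy2_cases hc (od_iff.mp hc) with h | h <;> rw [h] <;> simp

lemma QQ_two {ψ γ : Eis → ℂ} (hγ : Gam4 γ) (v : ℕ) {c : Eis} (hc : Od c) :
    QQ (2 ^ r * B) ψ γ (2 ^ v) (lf e c) =
      ψ (lf e c) * γ c * rho2 (-1) c * conj (eta2 c) ^ v := by
  have g := gd_lf H ((adm2_iff H (by omega)).mpr hc)
  have h8 := eight_dvd_lf H hr c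
  have h4 : (4 : Eis) ∣ lf e c - c := (Dvd.intro 2 (by norm_num : (4 : Eis) * 2 = 8)).trans h8
  have hpow : ∀ n : ℕ, sy6 (2 ^ n) (lf e c) = sy6 2 (lf e c) ^ n := by
    intro n
    induction n with
    | zero => rw [pow_zero, pow_zero, sy6_one_left g.1.1 g.1.2]
    | succ n ih => rw [pow_succ, pow_succ, sy6_mul_left g.1.1 g.1.2, ih]
  rw [QQ_pos g, show -((2 : Eis) ^ v) = (-1) * 2 ^ v by ring, sy6_mul_left g.1.1 g.1.2, hpow,
    sy6_two_lf H hr hc, sy6_neg_one g.1, hγ.per.congr h4,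
    rho2_congr_right (od_of_isUnit isUnit_one.neg) g.1.2 h4]
  ring

/-- the primal character at `2` -/
def chi0 (e : Eis) (ψ γ : Eis → ℂ) (c : Eis) : ℂ :=
  conj (ψ (lf e c)) * (conj (kap4 c) * γ c * rho2 (-1) c)

omit hr in
lemma isCh_chi0 (hr' : 2 ≤ r) {ψ γ : Eis → ℂ} (hψ : IsCh (2 ^ r * B) ψ) (hγ : Wt γ) :
    IsCh (2 ^ r) (chi0 e ψ γ) := by
  have h1 : IsCh (2 ^ r) (fun c => conj (ψ (lf e c))) := (isCh_lf H.toBlk hψ).conj
  have h2 : IsCh (2 ^ r) (rt (-1) (fun c => conj (ψ (lf e c)))) :=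
    isCh_rt hr' h1 (od_of_isUnit isUnit_one.neg)
  have hk : ∀ c, kap4 c * conj (kap4 c) = 1 := kap4_conj_self
  rcases hγ.eq with h | h
  · have : chi0 e ψ γ = rt (-1) (fun c => conj (ψ (lf e c))) := by
      funext c
      unfold chi0 rt
      by_cases hc : Od c
      · rw [h c hc]
        linear_combination (conj (ψ (lf e c)) * rho2 (-1) c) * hk c
      · have : conj (ψ (lf e c)) = 0 := h1.zero c (fun h' => hc (od_of_cop (by omega) h'))
        beta_reduce
        rw [this, zero_mul, zero_mul]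
    rw [this]; exact h2
  · have : chi0 e ψ γ = (fun c => conj (ψ (lf e c))) := by
      funext c
      unfold chi0
      by_cases hc : Od c
      · rw [h c hc]
        have h5 := rho2_sq (-1) c
        linear_combination (conj (ψ (lf e c))) * h5 +
          (conj (ψ (lf e c)) * (rho2 (-1) c * rho2 (-1) c)) * hk c
      · have : conj (ψ (lf e c)) = 0 := h1.zero c (fun h' => hc (od_of_cop (by omega) h'))
        rw [this, zero_mul]
    rw [this]; exact h1

/-- **the local sum as an `S2`** -/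
theorem SL2_eq {ψ γ : Eis → ℂ} (hψ : IsCh (2 ^ r * B) ψ) (hγ : Wt γ) {x e' : Eis}
    (he : e = B * e') (v : ℕ) :
    SL (2 ^ r * B) (2 ^ r) e x ψ γ (2 ^ v) =
      -(I / 2) * S2 (te (chi0 e ψ γ) eta2 v) (-(x * e') * 2 ^ v) r := by
  have hA := H.A0
  unfold SL S2
  rw [← sumMod_mul_left hA]
  refine sumMod_inv hA ?_ ?_ ?_
  · intro c hc
    rw [QQ_neg, zero_mul]
    intro h
    exact hc (adm_of_gn H h).1
  · intro c hc
    have := (isCh_te hr (isCh_chi0 H (by omega) hψ hγ) eta_eta2 v).zero c hc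
    rw [this]; ring
  · intro c z hcz
    by_cases hc : Od c
    · have h2 : (2 : Eis) ∣ c * z - 1 := (dvd_pow_self 2 (by omega)).trans hcz
      have hz : Od z := by
        intro h
        apply od_one
        have := dvd_sub (h.mul_left c) h2
        rwa [show c * z - (c * z - 1) = 1 by ring] at this
      have h4 : (4 : Eis) ∣ c * z - 1 := by
        refine Dvd.dvd.trans ?_ hcz
        have : (4 : Eis) = 2 ^ 2 := by norm_num
        rw [this]; exact pow_dvd_pow 2 (by omega)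
      have h8 : (8 : Eis) ∣ c * z - 1 := by
        refine Dvd.dvd.trans ?_ hcz
        rw [eight_eq]; exact pow_dvd_pow 2 hr
      have gc := gd_lf H ((adm2_iff H (by omega)).mpr hc)
      have gz := gd_lf H ((adm2_iff H (by omega)).mpr hz)
      rw [QQ_two H hr hγ.gam4 v hc]
      -- the pieces
      have p1 : ψ (lf e c) = conj (ψ (lf e z)) := by
        have hch := isCh_lf H.toBlk hψ
        have h5 : ψ (lf e c) * ψ (lf e z) = 1 := by
          rw [← hch.mul, ← hch.one]; exact hch.per.congr hcz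
        have h6 := hch.mul_conj_self hA (cop_pow2 hz r)
        calc ψ (lf e c) = ψ (lf e c) * (ψ (lf e z) * conj (ψ (lf e z))) := by rw [h6, mul_one]
          _ = (ψ (lf e c) * ψ (lf e z)) * conj (ψ (lf e z)) := by ring
          _ = _ := by rw [h5, one_mul]
      have p2 : conj (eta2 c) = eta2 z := by
        have h5 : eta2 c * eta2 z = 1 := by
          rw [← eta_eta2.ch.mul, ← eta_eta2.ch.one]; exact eta_eta2.ch.per.congr h8
        have h6 := eta_eta2.ch.mul_conj_self (by rw [eight_eq]; exact pow2_ne 3)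
          (c := 8) (by rw [eight_eq]; exact cop_pow2 hc 3)
        calc conj (eta2 c) = (eta2 c * eta2 z) * conj (eta2 c) := by rw [h5, one_mul]
          _ = (eta2 c * conj (eta2 c)) * eta2 z := by ring
          _ = _ := by rw [h6, one_mul]
      have p3 : rho2 (-1) c = rho2 (-1) z := by
        have h5 : rho2 (-1) c * rho2 (-1) z = 1 := by
          rw [← rho2_mul_right (od_of_isUnit isUnit_one.neg) hc hz]
          exact rho2_of_four_right (od_of_isUnit isUnit_one.neg) h4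
        have h6 := rho2_sq (-1) z
        calc rho2 (-1) c = rho2 (-1) c * (rho2 (-1) z * rho2 (-1) z) := by rw [h6, mul_one]
          _ = (rho2 (-1) c * rho2 (-1) z) * rho2 (-1) z := by ring
          _ = _ := by rw [h5, one_mul]
      have p4 := kap4_inv hc hz h4
      have p5 : γ c = γ z := by
        rcases hγ.eq with h | h
        · rw [h c hc, h z hz, p4]
        · rw [h c hc, h z hz, p4, p3]
      have p6 : th2 z = 2 * I * kap4 z := th2_kap hz
      have p7 := kap4_conj_self z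
      have p8 : ea (2 ^ r * B) (x * e) (-2 ^ v * ivN (2 ^ r * B) (lf e c)) =
          ea (2 ^ r) (-(x * e') * 2 ^ v) z := by
        have h7 : ea (2 ^ r * B) (x * e) (-2 ^ v * ivN (2 ^ r * B) (lf e c))
            = ea (2 ^ r * B) (x * e) (-2 ^ v * z) := by
          apply ea_A H
          have h8 : (2 : Eis) ^ r ∣ ivN (2 ^ r * B) (lf e c) - z := by
            refine iv_unique (c := lf e c) ((dvd_mul_right _ _).trans (ivN_spec gc.2).2) ?_
            have h9 := lf_A H.toBlk c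
            have : lf e c * z - 1 = (c * z - 1) + (lf e c - c) * z := by ring
            rw [this]; exact dvd_add hcz (h9.mul_right z)
          rw [show -2 ^ v * ivN (2 ^ r * B) (lf e c) - -2 ^ v * z =
            (ivN (2 ^ r * B) (lf e c) - z) * (-2 ^ v) by ring]
          exact h8.mul_right _
        rw [h7]
        have hB := toC_ne_zero H.B0
        have hAC := toC_ne_zero hA
        have h3C := sq3C_ne
        unfold ea
        congr 1
        rw [he]
        simp only [map_mul, map_neg]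
        field_simp
      rw [p8, p1, p2, p3, p5, p6]
      unfold te chi0
      linear_combination (-(conj (ψ (lf e z)) * γ z * rho2 (-1) z * eta2 z ^ v *
        ea (2 ^ r) (-(x * e') * 2 ^ v) z)) * p7 + (conj (ψ (lf e z)) * γ z * rho2 (-1) z *
        eta2 z ^ v * ea (2 ^ r) (-(x * e') * 2 ^ v) z * kap4 z * conj (kap4 z)) * Complex.I_sq
    · have hz : ¬ Od z := by
        intro hz
        apply hc
        intro h
        apply od_one
        have h2 : (2 : Eis) ∣ c * z - 1 := (dvd_pow_self 2 (by omega)).trans hcz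
        have := dvd_sub (h.mul_right z) h2
        rwa [show c * z - (c * z - 1) = 1 by ring] at this
      have h1 := (isCh_te hr (isCh_chi0 H (by omega) hψ hγ) eta_eta2 v).zero z
        (fun h => hz (od_of_cop (by omega) h))
      rw [QQ_neg (fun h => hc ((adm2_iff H (by omega)).mp (adm_of_gn H h))), h1]
      ring

lemma od_beta {x e' : Eis} (he : e = B * e') (hx : Od x) : Od (-(x * e')) := by
  have h1 : (2 : Eis) ∣ e - 1 := (dvd_pow_self 2 (by omega)).trans H.e1
  have h2 : Od e' := by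
    intro h
    apply od_one
    have h3 : (2 : Eis) ∣ e := by rw [he]; exact h.mul_left B
    have := dvd_sub h3 h1
    rwa [show e - (e - 1) = 1 by ring] at this
  intro h
  exact (hx.mul h2) ((dvd_neg).mp h)

/-- the local sum at `2^v`, unit frequency -/
theorem SL2_eq' {ψ γ : Eis → ℂ} (hψ : IsCh (2 ^ r * B) ψ) (hγ : Wt γ) {x : Eis} (hx : Od x) :
    ∃ (u : Eis) (c₀ g : ℂ), Od u ∧ ‖c₀‖ = 1 ∧ ‖g‖ = 1 ∧ ∀ v,
      SL (2 ^ r * B) (2 ^ r) e x ψ γ (2 ^ v) =
        c₀ * g ^ v * (S2 (te (rt u (chi0 e ψ γ)) eta2 v) (2 ^ v) r / 2) := by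
  obtain ⟨e', he⟩ := H.e0
  have hu := od_beta H hr he hx
  set u := -(x * e') with hudef
  have hch := isCh_chi0 H (by omega) hψ hγ
  have hn1 : ‖chi0 e ψ γ u‖ = 1 := hch.norm_eq_one (pow2_ne r) (cop_pow2 hu r)
  have hn2 : ‖eta2 u‖ = 1 := eta_eta2.ch.norm_eq_one (by rw [eight_eq]; exact pow2_ne 3)
    (by rw [eight_eq]; exact cop_pow2 hu 3)
  have hm1 : chi0 e ψ γ u * conj (chi0 e ψ γ u) = 1 := by
    rw [Complex.mul_conj, Complex.normSq_eq_norm_sq, hn1]; norm_num
  have hm2 : eta2 u * conj (eta2 u) = 1 := by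
    rw [Complex.mul_conj, Complex.normSq_eq_norm_sq, hn2]; norm_num
  have hrho : ‖rho2 u u‖ = 1 := by
    have h := rho2_sq u u
    have h2 : ‖rho2 u u‖ * ‖rho2 u u‖ = 1 := by rw [← norm_mul, h, norm_one]
    nlinarith [norm_nonneg (rho2 u u)]
  refine ⟨u, -I * conj (chi0 e ψ γ u) * (conj (kap4 u) * rho2 u u), conj (eta2 u), hu, ?_, ?_, ?_⟩
  · rw [norm_mul, norm_mul, norm_mul, norm_neg, Complex.norm_I, Complex.norm_conj,
      Complex.norm_conj, hn1, norm_kap4, hrho]; norm_num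
  · rw [Complex.norm_conj, hn2]
  · intro v
    rw [SL2_eq H hr hψ hγ he v]
    have hte := isCh_te hr hch eta_eta2 v
    have h1 := S2_unit (r := r) (by omega) hte hu (2 ^ v)
    have h2 : (fun c => te (chi0 e ψ γ) eta2 v c * rho2 u c) =
        te (rt u (chi0 e ψ γ)) eta2 v := by
      funext c; unfold te rt; ring
    rw [h2] at h1
    have h3 : te (chi0 e ψ γ) eta2 v u = chi0 e ψ γ u * eta2 u ^ v := rfl
    rw [h3] at h1
    have hpow : eta2 u ^ v * conj (eta2 u) ^ v = 1 := by rw [← mul_pow, hm2, one_pow]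
    have h4 : S2 (te (chi0 e ψ γ) eta2 v) (u * 2 ^ v) r =
        (conj (chi0 e ψ γ u) * conj (eta2 u) ^ v) *
          (conj (kap4 u) * rho2 u u * S2 (te (rt u (chi0 e ψ γ)) eta2 v) (2 ^ v) r) := by
      rw [← h1]
      linear_combination (-(S2 (te (chi0 e ψ γ) eta2 v) (u * 2 ^ v) r)) * hpow -
        (S2 (te (chi0 e ψ γ) eta2 v) (u * 2 ^ v) r * (eta2 u ^ v * conj (eta2 u) ^ v)) * hm1
    rw [h4]; ring

end main

lemma rt_chi0_four {u c : Eis} (hγ : Wt γ) (hu : Od u) (h : (4 : Eis) ∣ c - 1) :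
    rt u (chi0 e ψ γ) c = conj (ψ (lf e c)) := by
  rw [rt_of_four hu h]
  unfold chi0
  rw [gam4_kap4.one_of h, hγ.gam4.one_of h, rho2_of_four_right (od_of_isUnit isUnit_one.neg) h]
  simp

/-- Hilbert type at `2` -/
structure Hil2 (r : ℕ) (B : Eis) (ψ : Eis → ℂ) : Prop where
  h8 : ∀ c, IsCoprime c (2 ^ r * B) → 8 * B ∣ c - 1 → ψ c = 1
  h5 : ∀ c, IsCoprime c (2 ^ r * B) → B ∣ c - 1 → (8 : Eis) ∣ c - 5 → ψ c = 1

/-- not of Hilbert type at `2`, conductor exponent `s` -/
structure Pur2 (s r : ℕ) (B : Eis) (ψ : Eis → ℂ) : Prop where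
  s3 : 3 ≤ s
  sr : s ≤ r
  one : ∀ c, IsCoprime c (2 ^ r * B) → 2 ^ s * B ∣ c - 1 → ψ c = 1
  low : (4 ≤ s ∧ ∃ c, IsCoprime c (2 ^ r * B) ∧ 2 ^ (s - 1) * B ∣ c - 1 ∧ ψ c ≠ 1) ∨
    (s = 3 ∧ ∃ c, IsCoprime c (2 ^ r * B) ∧ B ∣ c - 1 ∧ (8 : Eis) ∣ c - 5 ∧ ψ c ≠ 1)

lemma cop_lf_odd (H : Lvl (2 ^ r) B e) {c : Eis} (hc : Od c) :
    IsCoprime (lf e c) (2 ^ r * B) := (cop_lf H.toBlk c).mpr (cop_pow2 hc r)

lemma od_one_add_pow {s : ℕ} (hs : s ≠ 0) (t : Eis) : Od (1 + 2 ^ s * t) := by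
  obtain ⟨k, rfl⟩ := Nat.exists_eq_succ_of_ne_zero hs
  rw [show (1 : Eis) + 2 ^ (k + 1) * t = 1 + 2 * (2 ^ k * t) by ring]
  exact od_add_two od_one _

lemma od_five : Od (5 : Eis) := by
  rw [show (5 : Eis) = 1 + 2 * 2 by norm_num]; exact od_add_two od_one _

lemma psi_lf_one_add (H : Lvl (2 ^ r) B e) {s : ℕ} (hs : s ≠ 0)
    (h : ∀ c, IsCoprime c (2 ^ r * B) → 2 ^ s * B ∣ c - 1 → ψ c = 1) (t : Eis) :
    ψ (lf e (1 + 2 ^ s * t)) = 1 := by
  apply h _ (cop_lf_odd H (od_one_add_pow hs t))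
  obtain ⟨e', he⟩ := H.e0
  refine ⟨t * e', ?_⟩
  unfold lf
  rw [he]; ring

/-- **the local table at `2`, Hilbert type** -/
theorem SL2_hil (H : Lvl (2 ^ r) B e) (hr : 3 ≤ r) (hψ : IsCh (2 ^ r * B) ψ) (hγ : Wt γ)
    {x : Eis} (hx : Od x) (hh : Hil2 r B ψ) :
    ∃ (c₀ g : ℂ) (ρ d : ℕ) (κ κ' : ℂ) (T : ℕ → ℂ), ‖c₀‖ = 1 ∧ ‖g‖ = 1 ∧ r ≤ ρ + 3 ∧ ρ + 1 ≤ r ∧
      Tab T (4 ^ r / 2) ρ d κ κ' ∧
      ∀ v, SL (2 ^ r * B) (2 ^ r) e x ψ γ (2 ^ v) = c₀ * g ^ v * T v := by
  obtain ⟨u, c₀, g, hu, hc₀, hg, hSL⟩ := SL2_eq' H hr hψ hγ hx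
  have hch : IsCh (2 ^ r) (rt u (chi0 e ψ γ)) :=
    isCh_rt (by omega) (isCh_chi0 H (by omega) hψ hγ) hu
  have h8 : ∀ t, rt u (chi0 e ψ γ) (1 + 2 ^ 3 * t) = 1 := by
    intro t
    have h := psi_lf_one_add (ψ := ψ) H (s := 3) (by norm_num)
      (by rw [← eight_eq]; exact hh.h8) t
    rw [rt_chi0_four hγ hu ⟨2 * t, by ring⟩, h, map_one]
  have hch8 : IsCh 8 (rt u (chi0 e ψ γ)) := by
    rw [eight_eq]; exact isCh_lower (by norm_num) hr hch h8
  have h5 : rt u (chi0 e ψ γ) 5 = 1 := by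
    rw [rt_chi0_four hγ hu ⟨1, by norm_num⟩]
    have : ψ (lf e 5) = 1 := by
      apply hh.h5 _ (cop_lf_odd H od_five) (lf_B H.toBlk 5) (eight_dvd_lf H hr 5)
    rw [this, map_one]
  obtain ⟨ρ, d, κ, κ', h1, h2, HT⟩ := tab hr hch8 h5 eta_eta2
  refine ⟨c₀, g, ρ, d, κ, κ', fun v => S2 (te (rt u (chi0 e ψ γ)) eta2 v) (2 ^ v) r / 2, hc₀, hg,
    h1, h2, ⟨HT.d1, HT.d6, ?_, ?_, ?_, HT.norm', HT.six, HT.norm, HT.three⟩, hSL⟩
  · intro j hj
    have := HT.lt j hj
    beta_reduce at this ⊢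
    rw [this, zero_div]
  · have := HT.eq
    beta_reduce at this ⊢
    rw [this]; push_cast; ring
  · intro j hj
    have := HT.gt j hj
    beta_reduce at this ⊢
    rw [this]
    split_ifs
    · push_cast; ring
    · rw [zero_div]

/-- **the local table at `2`, pure type** -/
theorem SL2_pure (H : Lvl (2 ^ r) B e) {s : ℕ} (hψ : IsCh (2 ^ r * B) ψ) (hγ : Wt γ)
    {x : Eis} (hx : Od x) (hh : Pur2 s r B ψ) :
    (∀ v, v ≠ r - s → SL (2 ^ r * B) (2 ^ r) e x ψ γ (2 ^ v) = 0) ∧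
      ‖SL (2 ^ r * B) (2 ^ r) e x ψ γ (2 ^ (r - s))‖ = 2 ^ (2 * r - s) := by
  have hs3 := hh.s3
  have hsr := hh.sr
  have hr : 3 ≤ r := by omega
  obtain ⟨u, c₀, g, hu, hc₀, hg, hSL⟩ := SL2_eq' H hr hψ hγ hx
  have hch : IsCh (2 ^ r) (rt u (chi0 e ψ γ)) :=
    isCh_rt (by omega) (isCh_chi0 H (by omega) hψ hγ) hu
  have h4s : (4 : Eis) ∣ 2 ^ s := by
    have : (4 : Eis) = 2 ^ 2 := by norm_num
    rw [this]; exact pow_dvd_pow 2 (by omega)
  have hs : ∀ t, rt u (chi0 e ψ γ) (1 + 2 ^ s * t) = 1 := by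
    intro t
    rw [rt_chi0_four hγ hu (by
      rw [show 1 + 2 ^ s * t - 1 = 2 ^ s * t by ring]; exact h4s.mul_right t),
      psi_lf_one_add H (by omega) hh.one, map_one]
  have hchs : IsCh (2 ^ s) (rt u (chi0 e ψ γ)) := isCh_lower (by omega) hsr hch hs
  have hlfc : ∀ c, B ∣ c - 1 → ψ (lf e c) = ψ c := by
    intro c hc
    apply hψ.per.congr
    rw [show lf e c - c = (e - 1) * (c - 1) by unfold lf; ring]
    exact mul_dvd_mul H.e1 hc
  have hne : ∀ z : ℂ, z ≠ 1 → conj z ≠ 1 := by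
    intro z hz h
    apply hz
    have := congrArg conj h
    simpa using this
  have hpure : Pure2 s (rt u (chi0 e ψ γ)) := by
    rcases hh.low with ⟨h4, c, hc, hc1, hc2⟩ | ⟨h3, c, hc, hc1, hc5, hc2⟩
    · refine Or.inl ⟨h4, ?_⟩
      intro y hy
      have hy2 : (2 : Eis) ∣ y := by
        by_contra hcon
        exact hy (cop_pow2 hcon s)
      have hcB : B ∣ c - 1 := (dvd_mul_left B _).trans hc1
      have hc21 : (2 : Eis) ^ (s - 1) ∣ c - 1 := (dvd_mul_right _ B).trans hc1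
      have hcA : IsCoprime c (2 ^ r) := IsCoprime.of_isCoprime_of_dvd_right hc (dvd_mul_right _ B)
      refine ⟨c, cop_pow2 (od_of_cop (by omega) hcA) s, ?_, ?_⟩
      · have : (2 : Eis) ^ s = 2 ^ (s - 1) * 2 := by
          rw [← pow_succ]; congr 1; omega
        rw [this]; exact mul_dvd_mul hc21 hy2
      · have h41 : (4 : Eis) ∣ c - 1 := by
          refine Dvd.dvd.trans ?_ hc21
          have : (4 : Eis) = 2 ^ 2 := by norm_num
          rw [this]; exact pow_dvd_pow 2 (by omega)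
        rw [rt_chi0_four hγ hu h41, hlfc c hcB]
        exact hne _ hc2
    · refine Or.inr ⟨h3, ?_⟩
      have h8r : rt u (chi0 e ψ γ) 5 = rt u (chi0 e ψ γ) c := by
        have := hchs.per.congr (x := c) (y := 5) (by rw [h3, ← eight_eq]; exact hc5)
        exact this.symm
      have h41 : (4 : Eis) ∣ c - 1 := by
        have h1 : (4 : Eis) ∣ c - 5 := (Dvd.intro 2 (by norm_num : (4 : Eis) * 2 = 8)).trans hc5
        have := dvd_add h1 (Dvd.intro 1 (by norm_num : (4 : Eis) * 1 = 4))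
        rwa [show c - 5 + 4 = c - 1 by ring] at this
      rw [h8r, rt_chi0_four hγ hu h41, hlfc c hc1]
      exact hne _ hc2
  obtain ⟨h1, h2⟩ := tab_pure hchs hpure eta_eta2 (r - s)
  have hrs : s + (r - s) = r := by omega
  rw [hrs] at h1 h2
  constructor
  · intro v hv
    rw [hSL v, h1 v hv]; ring
  · rw [hSL, norm_mul, norm_mul, norm_pow, hc₀, hg, norm_div, h2]
    have e2 : 2 * (r - s) + s + 1 = (2 * r - s) + 1 := by omega
    rw [e2, pow_succ]
    norm_num

end lifts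

end Crest.Agent.R017.GG90
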