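import Crest.Agent.R017.GG7_90

/-!
# Row 17 (A, norm): autocorrelation of the local sums at `2`

* `Qs x u a = u a - x u (a - 6)`
* `Tab.auto` : `Σ_a Q u(a) conj (Q u(a + 3n))` for `u a = c g^a T a`, `Tab T C ρ d κ κ'`
* `N2_hil`, `N2_pure` : for `u a = c g^a SL_2 (2^a)`
* `SL2_neg`, `SL2_b` : dependence on the part prime to `2`
-/

set_option autoImplicit false
set_option linter.unusedTactic false

noncomputable section

open Complex
open scoped ComplexConjugate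

namespace Crest.Agent.R017.GG90

open Crest.Agent.R012 Crest.Agent.R012.Eis Crest.Agent.R012.Gauss880 Crest.Agent.R017.Loc266
open Crest.Agent.R017.Sx440 Crest.Agent.R017.Kub664 Crest.Agent.R017.Tw266
open Crest.Agent.R017.Rw266 Crest.Agent.R017.QS411 Crest.Agent.R017.GmK411
open Crest.Agent.R017.Tame74 Crest.Agent.R017.LS848

/-- `(1 - x [6]) u` -/
def Qs (x : ℂ) (u : ℕ → ℂ) (a : ℕ) : ℂ := u a - (if 6 ≤ a then x * u (a - 6) else 0)

section auto

variable {T : ℕ → ℂ} {C : ℝ} {ρ d : ℕ} {κ κ' : ℂ}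

/-- the values of `(1 - [6]) T` from `ρ` on -/
def Dv (d : ℕ) (κ κ' : ℂ) (i : ℕ) : ℂ :=
  if i = 0 then κ else if i = 6 then (if d = 6 then κ' else -κ)
    else if i = d then 3 / 4 * κ' else 0

lemma Tab.Q_lt (H : Tab T C ρ d κ κ') {a : ℕ} (ha : a < ρ) : Qs 1 T a = 0 := by
  unfold Qs
  rw [H.lt a ha]
  split_ifs with h
  · rw [H.lt (a - 6) (by omega)]; ring
  · ring

lemma Tab.Q_ge (H : Tab T C ρ d κ κ') (i : ℕ) : Qs 1 T (ρ + i) = C * Dv d κ κ' i := by
  have hd1 := H.d1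
  have hd6 := H.d6
  unfold Qs Dv
  by_cases h0 : i = 0
  · subst h0
    rw [if_pos rfl, add_zero, H.eq]
    split_ifs with h
    · rw [H.lt (ρ - 6) (by omega)]; ring
    · ring
  · rw [if_neg h0, H.gt (ρ + i) (by omega)]
    by_cases h6 : i < 6
    · rw [if_neg (show ¬ i = 6 by omega)]
      have e1 : (if 6 ≤ ρ + i then 1 * T (ρ + i - 6) else 0) = 0 := by
        split_ifs with h
        · rw [H.lt _ (by omega), mul_zero]
        · rfl
      rw [e1, sub_zero]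
      by_cases hid : i = d
      · rw [if_pos hid, if_pos (by omega)]
      · rw [if_neg hid, if_neg (by omega), mul_zero]
    · rw [if_pos (show 6 ≤ ρ + i by omega)]
      by_cases h6' : i = 6
      · subst h6'
        rw [if_pos rfl, show ρ + 6 - 6 = ρ by omega, H.eq]
        by_cases hd : d = 6
        · rw [if_pos hd, if_pos (by omega), H.six hd]; ring
        · rw [if_neg hd, if_neg (by omega)]; ring
      · rw [if_neg h6', if_neg (show ¬ i = d by omega), H.gt (ρ + i - 6) (by omega)]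
        by_cases hc : (ρ + i) % 6 = (ρ + d) % 6
        · rw [if_pos hc, if_pos (by omega)]; ring
        · rw [if_neg hc, if_neg (by omega)]; ring

lemma Dv_zero {i : ℕ} (hd : d ≤ 6) (hi : 6 < i) : Dv d κ κ' i = 0 := by
  unfold Dv
  rw [if_neg (by omega), if_neg (by omega), if_neg (by omega)]

/-- the finite autocorrelation -/
def auto (d : ℕ) (κ κ' : ℂ) (n : ℕ) : ℂ :=
  ∑ i ∈ Finset.range 7, Dv d κ κ' i * conj (Dv d κ κ' (i + 3 * n))

lemma conj_real (t : ℝ) : conj ((t : ℝ) : ℂ) = t := Complex.conj_ofReal t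

lemma mul_conj_of_norm {z : ℂ} {t : ℝ} (h : ‖z‖ = t) : z * conj z = ((t ^ 2 : ℝ) : ℂ) := by
  rw [Complex.mul_conj, Complex.normSq_eq_norm_sq, h]

theorem auto_eq (H : Tab T C ρ d κ κ') (n : ℕ) :
    auto d κ κ' n = if n = 0 then 17 / 16 else if n = 2 then -(1 / 4) else 0 := by
  have hd1 := H.d1
  have hd6 := H.d6
  have hk' := mul_conj_of_norm H.norm'
  have hk : d ≠ 6 → κ * conj κ = 1 / 4 := by
    intro h
    have := mul_conj_of_norm (H.norm h)
    rw [this]; push_cast; norm_num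
  norm_num at hk'
  have e34 : conj (3 / 4 : ℂ) = 3 / 4 := by
    have : (3 / 4 : ℂ) = ((3 / 4 : ℝ) : ℂ) := by push_cast; ring
    rw [this, Complex.conj_ofReal]
  have e4 : conj (-κ' / 4 : ℂ) = -conj κ' / 4 := by
    rw [map_div₀, map_neg]
    have : conj (4 : ℂ) = 4 := by
      have : (4 : ℂ) = ((4 : ℝ) : ℂ) := by norm_num
      rw [this, Complex.conj_ofReal]
    rw [this]
  unfold auto
  rcases n with _ | _ | _ | n
  · rw [if_pos rfl]
    simp only [Finset.sum_range_succ, Finset.sum_range_zero, zero_add, mul_zero, add_zero]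
    interval_cases d
    all_goals simp only [Dv]
    all_goals norm_num [e34]
    · have hk2 := hk (by norm_num)
      linear_combination 2 * hk2 + 9 / 16 * hk'
    · have hk2 := hk (by norm_num)
      linear_combination 2 * hk2 + 9 / 16 * hk'
    · have hk2 := hk (by norm_num)
      linear_combination 2 * hk2 + 9 / 16 * hk'
    · have hk2 := hk (by norm_num)
      linear_combination 2 * hk2 + 9 / 16 * hk'
    · have hk2 := hk (by norm_num)
      linear_combination 2 * hk2 + 9 / 16 * hk'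
    · rw [H.six rfl, e4]
      linear_combination 17 / 16 * hk'
  · rw [if_neg (by norm_num), if_neg (by norm_num)]
    simp only [Finset.sum_range_succ, Finset.sum_range_zero, zero_add, mul_one]
    interval_cases d
    all_goals simp only [Dv]
    all_goals norm_num [e34]
    have h3 := H.three rfl
    linear_combination (3 / 4) * h3
  · rw [if_neg (by norm_num), if_pos (by norm_num)]
    simp only [Finset.sum_range_succ, Finset.sum_range_zero, zero_add]
    interval_cases d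
    all_goals simp only [Dv]
    all_goals norm_num [e34]
    · have hk2 := hk (by norm_num)
      linear_combination hk2
    · have hk2 := hk (by norm_num)
      linear_combination hk2
    · have hk2 := hk (by norm_num)
      linear_combination hk2
    · have hk2 := hk (by norm_num)
      linear_combination hk2
    · have hk2 := hk (by norm_num)
      linear_combination hk2
    · rw [H.six rfl]
      linear_combination -(1 / 4) * hk'
  · rw [if_neg (by omega), if_neg (by omega)]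
    apply Finset.sum_eq_zero
    intro i _
    rw [Dv_zero (i := i + 3 * (n + 1 + 1 + 1)) hd6 (by omega), map_zero, mul_zero]

/-- **autocorrelation of a table** -/
theorem Tab.auto_sum (H : Tab T C ρ d κ κ') {u : ℕ → ℂ} {c g : ℂ} (hc : ‖c‖ = 1) (hg : ‖g‖ = 1)
    (hu : ∀ a, u a = c * g ^ a * T a) :
    (∀ a, ρ + 7 ≤ a → Qs (g ^ 6) u a = 0) ∧
    ∀ A, ρ + 7 ≤ A → ∀ n, ∑ a ∈ Finset.range A, Qs (g ^ 6) u a * conj (Qs (g ^ 6) u (a + 3 * n)) =
      (C : ℂ) ^ 2 * (if n = 0 then 17 / 16 else if n = 2 then -(conj (g ^ 6) / 4) else 0) := by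
  have hcc : c * conj c = 1 := by rw [mul_conj_of_norm hc]; norm_num
  have hgg : g * conj g = 1 := by rw [mul_conj_of_norm hg]; norm_num
  have hQ : ∀ a, Qs (g ^ 6) u a = c * g ^ a * Qs 1 T a := by
    intro a
    unfold Qs
    rw [hu a]
    split_ifs with h
    · rw [hu (a - 6)]
      have : g ^ a = g ^ 6 * g ^ (a - 6) := by rw [← pow_add]; congr 1; omega
      rw [this]; ring
    · ring
  have hQ7 : ∀ a, ρ + 7 ≤ a → Qs (g ^ 6) u a = 0 := by
    intro a ha
    obtain ⟨i, rfl⟩ : ∃ i, a = ρ + i := ⟨a - ρ, by omega⟩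
    rw [hQ, H.Q_ge, Dv_zero H.d6 (by omega)]; ring
  refine ⟨hQ7, ?_⟩
  intro A hA n
  -- restrict to `ρ ≤ a < ρ + 7`
  have e1 : ∑ a ∈ Finset.range A, Qs (g ^ 6) u a * conj (Qs (g ^ 6) u (a + 3 * n)) =
      ∑ a ∈ Finset.range (ρ + 7), Qs (g ^ 6) u a * conj (Qs (g ^ 6) u (a + 3 * n)) := by
    symm
    apply Finset.sum_subset (Finset.range_mono hA)
    intro a _ ha
    rw [hQ7 a (by simpa using ha), zero_mul]
  have e2 : ∑ a ∈ Finset.range ρ, Qs (g ^ 6) u a * conj (Qs (g ^ 6) u (a + 3 * n)) = 0 := by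
    apply Finset.sum_eq_zero
    intro a ha
    rw [hQ a, H.Q_lt (Finset.mem_range.mp ha)]; ring
  rw [e1, Finset.sum_range_add, e2, zero_add]
  have hpow : ∀ m : ℕ, g ^ m * conj g ^ m = 1 := by
    intro m; rw [← mul_pow, hgg, one_pow]
  have e3 : ∀ i ∈ Finset.range 7, Qs (g ^ 6) u (ρ + i) * conj (Qs (g ^ 6) u (ρ + i + 3 * n)) =
      ((C : ℂ) ^ 2 * conj g ^ (3 * n)) * (Dv d κ κ' i * conj (Dv d κ κ' (i + 3 * n))) := by
    intro i _
    rw [hQ, hQ, H.Q_ge, add_assoc, H.Q_ge]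
    simp only [map_mul, map_pow, Complex.conj_ofReal]
    have h1 : conj g ^ (ρ + (i + 3 * n)) = conj g ^ (ρ + i) * conj g ^ (3 * n) := by
      rw [← pow_add]; congr 1; ring
    rw [h1]
    linear_combination ((C : ℂ) ^ 2 * conj g ^ (3 * n) *
      (Dv d κ κ' i * conj (Dv d κ κ' (i + 3 * n)))) * (hpow (ρ + i)) +
      ((C : ℂ) ^ 2 * conj g ^ (3 * n) * (Dv d κ κ' i * conj (Dv d κ κ' (i + 3 * n))) *
        (g ^ (ρ + i) * conj g ^ (ρ + i))) * hcc
  rw [Finset.sum_congr rfl e3, ← Finset.mul_sum]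
  have e4 := auto_eq H n
  unfold auto at e4
  rw [e4]
  by_cases h0 : n = 0
  · subst h0; rw [if_pos rfl, if_pos rfl]; ring
  · rw [if_neg h0, if_neg h0]
    by_cases h2 : n = 2
    · subst h2; rw [if_pos rfl, if_pos rfl, map_pow]; ring
    · rw [if_neg h2, if_neg h2]; ring

/-- the multiplier is `g^6` -/
theorem Tab.mult (H : Tab T C ρ d κ κ') (hC : C ≠ 0) {u : ℕ → ℂ} {c g x : ℂ} (hc : ‖c‖ = 1)
    (hg : ‖g‖ = 1) (hu : ∀ a, u a = c * g ^ a * T a) {R : ℕ}
    (hx : ∀ a, R ≤ a → u (a + 6) = x * u a) : x = g ^ 6 := by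
  set a := ρ + d + 6 * R with ha
  have hd1 := H.d1
  have h1 := hx a (by omega)
  rw [hu, hu, H.gt a (by omega), H.gt (a + 6) (by omega), if_pos (by omega), if_pos (by omega)] at h1
  have hk0 : κ' ≠ 0 := by
    intro h
    have := H.norm'
    rw [h, norm_zero] at this
    exact zero_ne_one this
  have hc0 : c ≠ 0 := by intro h; rw [h, norm_zero] at hc; exact zero_ne_one hc
  have hg0 : g ≠ 0 := by intro h; rw [h, norm_zero] at hg; exact zero_ne_one hg
  have hC' : (C : ℂ) ≠ 0 := by exact_mod_cast hC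
  have h2 : c * g ^ a * ((C : ℂ) * (3 / 4 * κ')) ≠ 0 := by
    refine mul_ne_zero (mul_ne_zero hc0 (pow_ne_zero _ hg0)) (mul_ne_zero hC' ?_)
    exact mul_ne_zero (by norm_num) hk0
  have h3 : g ^ 6 * (c * g ^ a * ((C : ℂ) * (3 / 4 * κ'))) =
      x * (c * g ^ a * ((C : ℂ) * (3 / 4 * κ'))) := by
    rw [← h1, pow_add]; ring
  exact (mul_right_cancel₀ h2 h3).symm

end auto

/-! ### the local sums -/

section local2

variable {r : ℕ} {B e : Eis} {ψ γ : Eis → ℂ}

lemma Qs_zero (u : ℕ → ℂ) : Qs 0 u = u := by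
  funext a; unfold Qs; rw [zero_mul, ite_self, sub_zero]

/-- **autocorrelation at `2`, Hilbert type** -/
theorem N2_hil (H : Lvl (2 ^ r) B e) (hr : 3 ≤ r) (hψ : IsCh (2 ^ r * B) ψ) (hγ : Wt γ)
    {x : Eis} (hx : Od x) (hh : Hil2 r B ψ) {u : ℕ → ℂ} {c g : ℂ} (hc : ‖c‖ = 1) (hg : ‖g‖ = 1)
    (hu : ∀ a, u a = c * g ^ a * SL (2 ^ r * B) (2 ^ r) e x ψ γ (2 ^ a)) {R : ℕ} {X : ℂ}
    (hX : ∀ a, R ≤ a → u (a + 6) = X * u a) :
    ‖X‖ = 1 ∧ (∀ a, r + 6 ≤ a → Qs X u a = 0) ∧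
    ∀ A, r + 6 ≤ A → ∀ n, ∑ a ∈ Finset.range A, Qs X u a * conj (Qs X u (a + 3 * n)) =
      (16 ^ r / 4) * (if n = 0 then 17 / 16 else if n = 2 then -(conj X / 4) else 0) := by
  obtain ⟨c₀, g₀, ρ, d, κ, κ', T, hc₀, hg₀, h1, h2, HT, hSL⟩ := SL2_hil H hr hψ hγ hx hh
  have hu' : ∀ a, u a = (c * c₀) * (g * g₀) ^ a * T a := by
    intro a; rw [hu, hSL, mul_pow]; ring
  have hc' : ‖c * c₀‖ = 1 := by rw [norm_mul, hc, hc₀, one_mul]
  have hg' : ‖g * g₀‖ = 1 := by rw [norm_mul, hg, hg₀, one_mul]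
  have hX' : X = (g * g₀) ^ 6 := HT.mult (by positivity) hc' hg' hu' hX
  obtain ⟨h3, h4⟩ := HT.auto_sum hc' hg' hu'
  rw [hX']
  refine ⟨by rw [norm_pow, hg', one_pow], fun a ha => h3 a (by omega), fun A hA n => ?_⟩
  rw [h4 A (by omega) n]
  congr 1
  push_cast
  have : (16 : ℂ) = 4 ^ 2 := by norm_num
  rw [this, ← pow_mul]
  ring

/-- **autocorrelation at `2`, pure type** -/
theorem N2_pure (H : Lvl (2 ^ r) B e) {s : ℕ} (hψ : IsCh (2 ^ r * B) ψ) (hγ : Wt γ)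
    {x : Eis} (hx : Od x) (hh : Pur2 s r B ψ) {u : ℕ → ℂ} {c g : ℂ} (hc : ‖c‖ = 1) (hg : ‖g‖ = 1)
    (hu : ∀ a, u a = c * g ^ a * SL (2 ^ r * B) (2 ^ r) e x ψ γ (2 ^ a)) :
    (∀ a, r ≤ a → u a = 0) ∧
    ∀ A, r ≤ A → ∀ n, ∑ a ∈ Finset.range A, u a * conj (u (a + 3 * n)) =
      if n = 0 then 4 ^ (2 * r - s) else 0 := by
  obtain ⟨h1, h2⟩ := SL2_pure H hψ hγ hx hh
  have hs3 := hh.s3
  have hsr := hh.sr
  have hz : ∀ a, a ≠ r - s → u a = 0 := by
    intro a ha; rw [hu, h1 a ha, mul_zero]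
  have hn : ‖u (r - s)‖ = 2 ^ (2 * r - s) := by
    rw [hu, norm_mul, norm_mul, norm_pow, hc, hg, h2]; ring
  refine ⟨fun a ha => hz a (by omega), fun A hA n => ?_⟩
  rw [Finset.sum_eq_single (r - s)]
  · by_cases h0 : n = 0
    · subst h0
      rw [if_pos rfl, mul_zero, add_zero, mul_conj_of_norm hn, ← pow_mul, mul_comm, pow_mul]
      norm_num
    · rw [if_neg h0, hz (r - s + 3 * n) (by omega), map_zero, mul_zero]
  · intro b _ hb
    rw [hz b hb, zero_mul]
  · intro h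
    exact absurd (Finset.mem_range.mpr (by omega)) h

lemma rho2_neg_one_self {b : Eis} (hb : Od b) : rho2 (-1) b = rho2 b b := by
  have h1 := conj_kap4' hb
  rw [kap4_neg hb, neg_neg, conj_kap4 hb] at h1
  have h2 : kap4 b ≠ 0 := by
    intro h
    have := norm_kap4 b
    rw [h, norm_zero] at this
    exact zero_ne_one this
  exact (mul_left_cancel₀ h2 h1).symm

/-- `SL_2 (b 2^v)` -/
theorem SL2_b (H : Lvl (2 ^ r) B e) (hr : 3 ≤ r) (hψ : IsCh (2 ^ r * B) ψ) (hγ : Gam4 γ)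
    {x b : Eis} (hb : Kap (2 ^ r) e b) (hbS : SU (2 ^ r * B) b) (v : ℕ) :
    SL (2 ^ r * B) (2 ^ r) e x ψ γ (b * 2 ^ v) =
      ψ (lf e b) * γ b * conj (eta2 b) ^ v * SL (2 ^ r * B) (2 ^ r) e x ψ γ (2 ^ v) := by
  have h2N : (2 : Eis) ∣ 2 ^ r * B := (dvd_pow_self 2 (by omega)).mul_right B
  have hSU : SU (2 ^ r * B) (2 ^ v) := by
    refine ⟨pow2_ne v, fun p hp hd => ?_⟩
    have h3 : p ∣ (2 : Eis) := hp.dvd_of_dvd_pow hd
    exact h3.trans h2N
  rw [SL_equiv H hψ hγ hSU hb hbS]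
  congr 1
  have hob : Od b := od_of_cop (by omega) hb.1.1
  have g := gd_lf H hb.1
  have h8 := eight_dvd_lf H hr b
  have h4 : (4 : Eis) ∣ lf e b - b := (Dvd.intro 2 (by norm_num : (4 : Eis) * 2 = 8)).trans h8
  have hpow : ∀ n : ℕ, sy6 (2 ^ n) (lf e b) = sy6 2 (lf e b) ^ n := by
    intro n
    induction n with
    | zero => rw [pow_zero, pow_zero, sy6_one_left g.1.1 g.1.2]
    | succ n ih => rw [pow_succ, pow_succ, sy6_mul_left g.1.1 g.1.2, ih]
  have e1 : sy6 b (lf e b) = rho2 b b := by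
    rw [hb.2 b hb.1, rho2_congr_left g.1.2 g.1.2 h4, rho2_congr_right hob g.1.2 h4]
  rw [QQ_pos g, show -(b * 2 ^ v) = (-1) * (b * 2 ^ v) by ring, sy6_mul_left g.1.1 g.1.2,
    sy6_mul_left g.1.1 g.1.2, hpow, sy6_two_lf H hr hob, sy6_neg_one g.1, hγ.per.congr h4,
    rho2_congr_right (od_of_isUnit isUnit_one.neg) g.1.2 h4, e1, rho2_neg_one_self hob]
  have h5 := rho2_sq b b
  linear_combination (ψ (lf e b) * γ b * conj (eta2 b) ^ v) * h5

/-- `SL_2 ((-2)^v)` -/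
theorem SL2_neg2 (H : Lvl (2 ^ r) B e) (hr : 3 ≤ r) (hψ : IsCh (2 ^ r * B) ψ) (hγ : Wt γ)
    {x : Eis} (v : ℕ) :
    SL (2 ^ r * B) (2 ^ r) e x ψ γ ((-2) ^ v) =
      (-ψ (lf e (-1))) ^ v * SL (2 ^ r * B) (2 ^ r) e x ψ γ (2 ^ v) := by
  have hk := kap_neg_one H (not9 H (nine_B H))
  have hsq : (-ψ (lf e (-1))) ^ 2 = 1 := by
    have hch := isCh_lf H.toBlk hψ
    have : ψ (lf e (-1)) * ψ (lf e (-1)) = 1 := by
      rw [← hch.mul, show (-1 : Eis) * -1 = 1 by ring]; exact hch.one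
    rw [neg_sq, pow_two, this]
  have hg1 : γ (-1) = -1 := by
    rcases hγ with rfl | rfl
    · exact kap4_neg_one
    · beta_reduce; rw [kap4_neg_one, map_neg, map_one]
  rcases Nat.even_or_odd v with h | h
  · rw [h.neg_pow]
    obtain ⟨k, rfl⟩ := h
    rw [← two_mul, pow_mul (-ψ (lf e (-1))), hsq, one_pow, one_mul]
  · rw [h.neg_pow, show -(2 : Eis) ^ v = (-1) * 2 ^ v by ring,
      SL2_b H hr hψ hγ.gam4 hk (SU.of_isUnit isUnit_one.neg), hg1, eta_eta2.neg]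
    obtain ⟨k, rfl⟩ := h
    rw [map_one, one_pow, pow_succ (-ψ (lf e (-1))), pow_mul (-ψ (lf e (-1))), hsq]
    ring

end local2

end Crest.Agent.R017.GG90
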