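import Crest.Agent.R017.GHB4_842

/-!
# Row 17, R8: fourth moments by the cubic large sieve, part 1 (helper90; sketch: helper47)

* `Q4 K W = K W^{2/3} + W² + (K W²)^{2/3}`
* `h4` : `∑_{k ∈ S K} ‖CS β k‖⁴ ≤ .. Q4 K N (∑ ‖β‖²)²`, `β` supported in `S N`
-/

set_option autoImplicit false
set_option maxHeartbeats 400000

noncomputable section

open Complex
open scoped ComplexConjugate Classical

namespace Crest.Agent.R017.GH490

open Crest.Agent.R012 Crest.Agent.R012.Eis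
open Crest.Agent.R012.LS2 (S mem_S HB Final)
open Crest.Agent.R012.Div277 (dvs mem_dvs isPrim_of_mem_dvs dvd_of_mem_dvs tau tau_le_rpow
  sum_primBall_dvs sum_inv_primBall_le)
open Crest.Agent.R017.CM106 (CS)
open Crest.Agent.R017.PX764 (norm_sy_le')
open Crest.Agent.R017.E1551 (nmpos CS_fin nm_ge_one)
open Crest.Agent.R017.E3P842
open Crest.Agent.R017.GHB842
open Gauss880 (syG)

/-- the norm of the fourth moment -/
def Q4 (K W : ℝ) : ℝ := K * W ^ ((2 : ℝ) / 3) + W ^ 2 + (K * W ^ 2) ^ ((2 : ℝ) / 3)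

lemma Q4_nonneg {K W : ℝ} (hK : 0 ≤ K) (hW : 0 ≤ W) : 0 ≤ Q4 K W := by unfold Q4; positivity

/-- the large sieve for one common part, exact length -/
lemma hb_ga' {ε C : ℝ} (hε : 0 ≤ ε) (hC0 : 0 ≤ C) (hC : ∀ M N : ℝ, 1 ≤ M → 1 ≤ N →
    HB M N (C * (M * N) ^ ε * (M + N + (M * N) ^ ((2 : ℝ) / 3)))) {K N B : ℝ} (hK : 1 ≤ K)
    (hN : 1 ≤ N) (hB : 1 ≤ B) {β b : Eis → ℂ}
    (hβ : ∀ n, β n ≠ 0 → n ∈ S N) (hb : ∀ n, b n ≠ 0 → n ∈ S B) {s : Eis} (hs : IsPrim s) :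
    ∑ k ∈ S K, ‖∑ u ∈ primBall ⌊N * B⌋₊, ga β b s u * sy k u‖ ^ 2 ≤
      C * (K * (N * B)) ^ ε * (K + N * B / (nm s : ℝ) ^ 2 +
        (K * (N * B / (nm s : ℝ) ^ 2)) ^ ((2 : ℝ) / 3)) *
        ∑ u ∈ primBall ⌊N * B⌋₊, ‖ga β b s u‖ ^ 2 := by
  have hN0 : 0 ≤ N := by linarith
  have hB0 : 0 ≤ B := by linarith
  set Y := ⌊N * B⌋₊ with hY
  by_cases h0 : ∀ u, ga β b s u = 0
  · simp only [h0]
    simp
  push Not at h0
  obtain ⟨u₀, hu₀⟩ := h0
  have n0 : (1 : ℝ) ≤ nm s := nm_ge_one hs.ne_zero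
  set U : ℝ := N * B / (nm s : ℝ) ^ 2 with hU
  have hs2 : (1 : ℝ) ≤ (nm s : ℝ) ^ 2 := one_le_pow₀ n0
  have hUNB : U ≤ N * B := div_le_self (by positivity) hs2
  have hmem : ∀ u, ga β b s u ≠ 0 → u ∈ S U ∧ 1 ≤ U := fun u hu => by
    obtain ⟨h1, h2, h3⟩ := ga_ne hN0 hB0 hβ hb hs hu
    have h4 : (nm u : ℝ) ≤ U := by
      rw [hU, le_div_iff₀ (by positivity)]
      linarith
    have h5 : (1 : ℝ) ≤ nm u := nm_ge_one h1.ne_zero
    exact ⟨(mem_S (by positivity)).2 ⟨h4, h1, h2⟩, h5.trans h4⟩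
  have hU1 : 1 ≤ U := (hmem u₀ hu₀).2
  have hU0 : 0 ≤ U := by linarith
  have hsub : S U ⊆ primBall Y := fun u hu => by
    have h := (mem_S hU0).1 hu
    rw [mem_primBall]
    exact ⟨Nat.le_floor (h.1.trans hUNB), h.2.1⟩
  have e1 : ∀ k, ∑ u ∈ primBall Y, ga β b s u * sy k u = ∑ u ∈ S U, ga β b s u * sy k u := by
    intro k
    symm
    refine Finset.sum_subset hsub fun u _ hu => ?_
    by_contra hne
    exact hu (hmem u (left_ne_zero_of_mul hne)).1
  simp only [e1]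
  refine (hC K U hK hU1 (ga β b s)).trans ?_
  have hKU : K * U ≤ K * (N * B) := mul_le_mul_of_nonneg_left hUNB (by linarith)
  have h1 : C * (K * U) ^ ε ≤ C * (K * (N * B)) ^ ε :=
    mul_le_mul_of_nonneg_left (Real.rpow_le_rpow (by positivity) hKU hε) hC0
  have h3 : ∑ n ∈ S U, ‖ga β b s n‖ ^ 2 ≤ ∑ u ∈ primBall Y, ‖ga β b s u‖ ^ 2 :=
    Finset.sum_le_sum_of_subset_of_nonneg hsub fun _ _ _ => by positivity
  have h4 : 0 ≤ ∑ n ∈ S U, ‖ga β b s n‖ ^ 2 := Finset.sum_nonneg fun _ _ => by positivity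
  have hpos : 0 ≤ C * (K * (N * B)) ^ ε := by positivity
  refine mul_le_mul (mul_le_mul_of_nonneg_right h1 (by positivity)) h3 h4 ?_
  positivity

/-- the inner sum over the two cofactors -/
lemma ga_sum {β b : Eis → ℂ} (Y : ℕ) (s k : Eis) :
    ∑ u ∈ primBall Y, ga β b s u * sy k u =
      ∑ d ∈ primBall Y, ∑ m ∈ primBall (Y / nm d),
        b (s * d) * ua β (s * d) s m * sy k (d * m) := by
  have : ∀ u ∈ primBall Y, ga β b s u * sy k u =
      ∑ a ∈ dvs u, b (s * a) * ua β (s * a) s (u / a) * sy k u := fun u _ => by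
    unfold ga; rw [Finset.sum_mul]
  rw [Finset.sum_congr rfl this,
    sum_primBall_dvs Y fun a u => b (s * a) * ua β (s * a) s (u / a) * sy k u]
  refine Finset.sum_congr rfl fun d hd => Finset.sum_congr rfl fun m _ => ?_
  have hd0 := (mem_primBall.mp hd).2.ne_zero
  simp only [mul_div_cancel_left₀ m hd0]

/-- small common part -/
lemma real_small {K N s : ℝ} (hK : 0 ≤ K) (hN : 1 ≤ N) (hs1 : 1 ≤ s)
    (hs : s ≤ N ^ ((2 : ℝ) / 3)) :
    s * (K + N * N / s ^ 2 + (K * (N * N / s ^ 2)) ^ ((2 : ℝ) / 3)) ≤ Q4 K N := by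
  have s0 : 0 < s := by linarith
  have N0 : 0 < N := by linarith
  have t1 : s * K ≤ K * N ^ ((2 : ℝ) / 3) := by
    rw [mul_comm]
    exact mul_le_mul_of_nonneg_left hs hK
  have t2 : s * (N * N / s ^ 2) ≤ N ^ 2 := by
    have : s * (N * N / s ^ 2) = N ^ 2 / s := by field_simp
    rw [this]
    exact div_le_self (by positivity) hs1
  have t3 : s * (K * (N * N / s ^ 2)) ^ ((2 : ℝ) / 3) ≤ (K * N ^ 2) ^ ((2 : ℝ) / 3) := by
    have e1 : (K * (N * N / s ^ 2)) ^ ((2 : ℝ) / 3) =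
        (K * N ^ 2) ^ ((2 : ℝ) / 3) * ((s ^ 2) ^ ((2 : ℝ) / 3))⁻¹ := by
      rw [← Real.inv_rpow (by positivity), ← Real.mul_rpow (by positivity) (by positivity)]
      congr 1
      field_simp
    have e2 : s ≤ (s ^ 2) ^ ((2 : ℝ) / 3) := by
      rw [← Real.rpow_natCast, ← Real.rpow_mul s0.le]
      calc s = s ^ (1 : ℝ) := (Real.rpow_one s).symm
        _ ≤ _ := Real.rpow_le_rpow_of_exponent_le hs1 (by norm_num)
    have e3 : s * ((s ^ 2) ^ ((2 : ℝ) / 3))⁻¹ ≤ 1 := by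
      rw [← div_eq_mul_inv]
      exact (div_le_one (by positivity)).2 e2
    rw [e1]
    calc s * ((K * N ^ 2) ^ ((2 : ℝ) / 3) * ((s ^ 2) ^ ((2 : ℝ) / 3))⁻¹)
        = (K * N ^ 2) ^ ((2 : ℝ) / 3) * (s * ((s ^ 2) ^ ((2 : ℝ) / 3))⁻¹) := by ring
      _ ≤ (K * N ^ 2) ^ ((2 : ℝ) / 3) * 1 := mul_le_mul_of_nonneg_left e3 (by positivity)
      _ = _ := mul_one _
  unfold Q4
  calc s * (K + N * N / s ^ 2 + (K * (N * N / s ^ 2)) ^ ((2 : ℝ) / 3)) =
      s * K + s * (N * N / s ^ 2) + s * (K * (N * N / s ^ 2)) ^ ((2 : ℝ) / 3) := by ring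
    _ ≤ _ := by linarith

/-- large common part -/
lemma real_large {K N : ℝ} (hK : 0 ≤ K) (hN : 1 ≤ N) :
    N ^ ((2 : ℝ) / 3) * (K + N + (K * N) ^ ((2 : ℝ) / 3)) ≤ Q4 K N := by
  have N0 : 0 < N := by linarith
  have t2 : N ^ ((2 : ℝ) / 3) * N ≤ N ^ 2 := by
    have : N ^ ((2 : ℝ) / 3) ≤ N := by
      calc N ^ ((2 : ℝ) / 3) ≤ N ^ (1 : ℝ) := Real.rpow_le_rpow_of_exponent_le hN (by norm_num)
        _ = N := Real.rpow_one N
    nlinarith
  have t3 : N ^ ((2 : ℝ) / 3) * (K * N) ^ ((2 : ℝ) / 3) = (K * N ^ 2) ^ ((2 : ℝ) / 3) := by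
    rw [← Real.mul_rpow N0.le (by positivity)]
    congr 1
    ring
  unfold Q4
  calc N ^ ((2 : ℝ) / 3) * (K + N + (K * N) ^ ((2 : ℝ) / 3)) =
      K * N ^ ((2 : ℝ) / 3) + N ^ ((2 : ℝ) / 3) * N +
        N ^ ((2 : ℝ) / 3) * (K * N) ^ ((2 : ℝ) / 3) := by ring
    _ ≤ _ := by rw [t3]; linarith

/-- `∑_d ‖β (s d)‖² ≤ ∑ ‖β‖²` -/
lemma D_le {N : ℝ} {Y : ℕ} {β : Eis → ℂ}
    (hβ : ∀ n, β n ≠ 0 → n ∈ S N) {s : Eis} (hs : IsPrim s) :
    ∑ m ∈ primBall Y, ‖β (s * m)‖ ^ 2 ≤ ∑ n ∈ S N, ‖β n‖ ^ 2 := by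
  calc ∑ m ∈ primBall Y, ‖β (s * m)‖ ^ 2
      = ∑ m ∈ (primBall Y).filter (fun m => β (s * m) ≠ 0), ‖β (s * m)‖ ^ 2 := by
        rw [Finset.sum_filter]
        refine Finset.sum_congr rfl fun m _ => ?_
        split_ifs with h
        · rfl
        · push Not at h
          rw [h]; simp
    _ = ∑ n ∈ ((primBall Y).filter (fun m => β (s * m) ≠ 0)).image (fun m => s * m), ‖β n‖ ^ 2 := by
        rw [Finset.sum_image]
        intro a _ b _ h
        exact mul_left_cancel₀ hs.ne_zero h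
    _ ≤ _ := by
        refine Finset.sum_le_sum_of_subset_of_nonneg (fun n hn => ?_) fun _ _ _ => by positivity
        obtain ⟨m, hm, rfl⟩ := Finset.mem_image.1 hn
        exact hβ _ (Finset.mem_filter.1 hm).2

/-- the sum over the common parts -/
lemma sum_D_sq {N : ℝ} {Y : ℕ} (hN0 : 0 ≤ N) (hNY : S N ⊆ primBall Y) {β : Eis → ℂ}
    (hβ : ∀ n, β n ≠ 0 → n ∈ S N) {T : ℝ} (hT : ∀ u ∈ primBall Y, (tau u : ℝ) ≤ T) :
    ∑ s ∈ primBall Y, (∑ m ∈ primBall Y, ‖β (s * m)‖ ^ 2) ^ 2 ≤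
      T * (∑ n ∈ S N, ‖β n‖ ^ 2) ^ 2 := by
  set Sβ := ∑ n ∈ S N, ‖β n‖ ^ 2 with hSβ
  have h0 : 0 ≤ Sβ := Finset.sum_nonneg fun _ _ => by positivity
  calc ∑ s ∈ primBall Y, (∑ m ∈ primBall Y, ‖β (s * m)‖ ^ 2) ^ 2
      ≤ ∑ s ∈ primBall Y, Sβ * ∑ m ∈ primBall Y, ‖β (s * m)‖ ^ 2 := by
        refine Finset.sum_le_sum fun s hs => ?_
        rw [pow_two]
        exact mul_le_mul_of_nonneg_right (D_le hβ (mem_primBall.mp hs).2)
          (Finset.sum_nonneg fun _ _ => by positivity)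
    _ = Sβ * ∑ s ∈ primBall Y, ∑ m ∈ primBall Y, ‖β (s * m)‖ ^ 2 := by rw [Finset.mul_sum]
    _ ≤ Sβ * (T * Sβ) := mul_le_mul_of_nonneg_left (sum_beta_le hNY hβ hT) h0
    _ = _ := by ring

set_option maxHeartbeats 4000000 in
/-- the part of the large common factors -/
lemma h4_large {ε C : ℝ} (hε : 0 ≤ ε) (hC0 : 0 ≤ C) (hC : ∀ M N : ℝ, 1 ≤ M → 1 ≤ N →
    HB M N (C * (M * N) ^ ε * (M + N + (M * N) ^ ((2 : ℝ) / 3)))) {K N : ℝ} (hK : 1 ≤ K)
    (hN : 1 ≤ N) {β : Eis → ℂ} (hβ : ∀ n, β n ≠ 0 → n ∈ S N) {T : ℝ}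
    (hT : ∀ u ∈ primBall ⌊N * N⌋₊, (tau u : ℝ) ≤ T) :
    ∑ k ∈ S K, ‖∑ s ∈ (primBall ⌊N * N⌋₊).filter (fun s => N ^ ((2 : ℝ) / 3) < nm s),
      conj (sy k s) * ∑ u ∈ primBall ⌊N * N⌋₊, ga β β s u * sy k u‖ ^ 2 ≤
      (100 * (1 + Real.log (N * N))) ^ 2 * (C * (K * (N * N)) ^ ε) * T *
        (Q4 K N * (∑ n ∈ S N, ‖β n‖ ^ 2) ^ 2) := by
  have hN0 : 0 < N := by linarith
  have hNN1 : 1 ≤ N * N := by nlinarith
  have hNN : N ≤ N * N := by nlinarith
  set Y := ⌊N * N⌋₊ with hY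
  set A := (primBall Y).filter (fun s => N ^ ((2 : ℝ) / 3) < nm s) with hA
  set D := primBall ⌊N ^ ((1 : ℝ) / 3)⌋₊ with hD
  set Sβ := ∑ n ∈ S N, ‖β n‖ ^ 2 with hSβ
  have hSβ0 : 0 ≤ Sβ := Finset.sum_nonneg fun _ _ => by positivity
  set R : ℝ := C * (K * (N * N)) ^ ε with hR
  have hR0 : 0 ≤ R := by positivity
  set L : ℝ := 100 * (1 + Real.log (N * N)) with hL
  have hL0 : 0 ≤ L := by have := Real.log_nonneg hNN1; positivity
  have h13 : (1 : ℝ) ≤ N ^ ((1 : ℝ) / 3) := Real.one_le_rpow hN (by norm_num)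
  have hDY : D ⊆ primBall Y := by
    refine Div277.primBall_mono (Nat.floor_le_floor ?_)
    calc N ^ ((1 : ℝ) / 3) ≤ N ^ (1 : ℝ) := Real.rpow_le_rpow_of_exponent_le hN (by norm_num)
      _ = N := Real.rpow_one N
      _ ≤ N * N := hNN
  have hLs : ∑ s ∈ D, (1 / (nm s : ℝ)) ≤ L := by
    refine (sum_inv_primBall_le _).trans ?_
    have hY1 : 1 ≤ ⌊N ^ ((1 : ℝ) / 3)⌋₊ := Nat.le_floor (by exact_mod_cast h13)
    have h2 : Real.log ⌊N ^ ((1 : ℝ) / 3)⌋₊ ≤ Real.log (N * N) := by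
      refine Real.log_le_log (by exact_mod_cast hY1) ((Nat.floor_le (by positivity)).trans ?_)
      calc N ^ ((1 : ℝ) / 3) ≤ N ^ (1 : ℝ) := Real.rpow_le_rpow_of_exponent_le hN (by norm_num)
        _ = N := Real.rpow_one N
        _ ≤ N * N := hNN
    rw [hL]; linarith
  have hD0 : ∀ s ∈ D, s ≠ 0 := fun s hs => (mem_primBall.mp hs).2.ne_zero
  -- the cofactors of a large common part are short
  have hshort : ∀ s ∈ A, ∀ d : Eis, IsPrim d → β (s * d) ≠ 0 → d ∈ D := by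
    intro s hs d hd hne
    have h1 := (Finset.mem_filter.1 hs).2
    have h2 := ((mem_S hN0.le).1 (hβ _ hne)).1
    rw [nm_mul] at h2
    push_cast at h2
    have h3 : (nm d : ℝ) ≤ N ^ ((1 : ℝ) / 3) := by
      have e1 : N = N ^ ((2 : ℝ) / 3) * N ^ ((1 : ℝ) / 3) := by
        rw [← Real.rpow_add hN0]; norm_num
      have h4 : N ^ ((2 : ℝ) / 3) * (nm d : ℝ) ≤ N ^ ((2 : ℝ) / 3) * N ^ ((1 : ℝ) / 3) := by
        rw [← e1]
        exact (mul_le_mul_of_nonneg_right h1.le (Nat.cast_nonneg _)).trans h2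
      exact le_of_mul_le_mul_left h4 (by positivity)
    rw [hD, mem_primBall]
    exact ⟨Nat.le_floor h3, hd⟩
  -- the coefficients
  set c : Eis → Eis → Eis → ℂ := fun d m s =>
    if s ∈ A then β (s * d) * ua β (s * d) s m else 0 with hc
  have hcS : ∀ d m s, c d m s ≠ 0 → s ∈ S N := by
    intro d m s h
    simp only [hc] at h
    split_ifs at h with h1
    · have h2 := (mem_S hN0.le).1 (hβ _ (left_ne_zero_of_mul h))
      have hsp := (mem_primBall.mp (Finset.mem_filter.1 h1).1).2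
      refine (mem_S hN0.le).2 ⟨?_, hsp, h2.2.2.squarefree_of_dvd (dvd_mul_right _ _)⟩
      have h3 := h2.1
      rw [nm_mul] at h3
      push_cast at h3
      have hd0 : d ≠ 0 := by
        rintro rfl
        have := h2.2.1.ne_zero
        simp at this
      have h4 : (1 : ℝ) ≤ nm d := nm_ge_one hd0
      have h5 : (0 : ℝ) ≤ nm s := Nat.cast_nonneg _
      nlinarith
    · exact absurd rfl h
  have hcn : ∀ d m s, ‖c d m s‖ ^ 2 ≤ ‖β (s * d)‖ ^ 2 * ‖β (s * m)‖ ^ 2 := by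
    intro d m s
    simp only [hc]
    split_ifs with h1
    · rw [norm_mul, mul_pow]
      refine mul_le_mul_of_nonneg_left ?_ (by positivity)
      exact pow_le_pow_left₀ (norm_nonneg _) (norm_ua_le _ _ _ _) 2
    · rw [norm_zero, zero_pow two_ne_zero]
      positivity
  -- the identity
  have key : ∀ k, ∑ s ∈ A, conj (sy k s) * ∑ u ∈ primBall Y, ga β β s u * sy k u =
      ∑ d ∈ D, ∑ m ∈ D, sy k (d * m) * ∑ s ∈ S N, c d m s * conj (sy k s) := by
    intro k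
    have e1 : ∀ s ∈ A, conj (sy k s) * ∑ u ∈ primBall Y, ga β β s u * sy k u =
        ∑ d ∈ D, ∑ m ∈ D, sy k (d * m) * (c d m s * conj (sy k s)) := by
      intro s hs
      rw [ga_sum, Finset.mul_sum]
      have hz : ∀ d ∈ primBall Y, d ∉ D → conj (sy k s) * ∑ m ∈ primBall (Y / nm d),
          β (s * d) * ua β (s * d) s m * sy k (d * m) = 0 := by
        intro d hd hdn
        have h0 : β (s * d) = 0 := by
          by_contra hne
          exact hdn (hshort s hs d (mem_primBall.mp hd).2 hne)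
        rw [h0]; simp
      rw [← Finset.sum_subset hDY hz]
      refine Finset.sum_congr rfl fun d hd => ?_
      have hdp := (mem_primBall.mp hd).2
      -- the inner sum over `m`
      have e2 : ∑ m ∈ primBall (Y / nm d), β (s * d) * ua β (s * d) s m * sy k (d * m) =
          ∑ m ∈ D, β (s * d) * ua β (s * d) s m * sy k (d * m) := by
        have hsp := (mem_primBall.mp (Finset.mem_filter.1 hs).1).2
        have g : ∀ m, IsPrim m → β (s * d) * ua β (s * d) s m * sy k (d * m) ≠ 0 →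
            m ∈ D ∧ m ∈ primBall (Y / nm d) := by
          intro m hmp hm
          have g1 := left_ne_zero_of_mul hm
          have g2 := left_ne_zero_of_mul g1
          have g3 := (ua_ne (right_ne_zero_of_mul g1)).2
          refine ⟨hshort s hs m hmp g3, ?_⟩
          rw [mem_primBall]
          refine ⟨?_, hmp⟩
          rw [Nat.le_div_iff_mul_le (nm_pos.mpr hdp.ne_zero)]
          refine Nat.le_floor ?_
          have a1 := ((mem_S hN0.le).1 (hβ _ g2)).1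
          have a2 := ((mem_S hN0.le).1 (hβ _ g3)).1
          rw [nm_mul] at a1 a2
          push_cast at a1 a2 ⊢
          have b0 : (1 : ℝ) ≤ nm s := nm_ge_one hsp.ne_zero
          have b1 : (0 : ℝ) ≤ nm d := Nat.cast_nonneg _
          have b2 : (0 : ℝ) ≤ nm m := Nat.cast_nonneg _
          have c1 : (nm d : ℝ) ≤ N := by nlinarith
          have c2 : (nm m : ℝ) ≤ N := by nlinarith
          exact mul_le_mul c2 c1 b1 hN0.le
        have hL1 : ∑ m ∈ primBall (Y / nm d), β (s * d) * ua β (s * d) s m * sy k (d * m) =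
            ∑ m ∈ primBall (Y / nm d) ∩ D, β (s * d) * ua β (s * d) s m * sy k (d * m) := by
          symm
          refine Finset.sum_subset Finset.inter_subset_left fun m hm hmn => ?_
          by_contra hne
          exact hmn (Finset.mem_inter.2 ⟨hm, (g m (mem_primBall.mp hm).2 hne).1⟩)
        have hL2 : ∑ m ∈ D, β (s * d) * ua β (s * d) s m * sy k (d * m) =
            ∑ m ∈ primBall (Y / nm d) ∩ D, β (s * d) * ua β (s * d) s m * sy k (d * m) := by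
          symm
          refine Finset.sum_subset Finset.inter_subset_right fun m hm hmn => ?_
          by_contra hne
          exact hmn (Finset.mem_inter.2 ⟨(g m (mem_primBall.mp hm).2 hne).2, hm⟩)
        rw [hL1, hL2]
      rw [e2, Finset.mul_sum]
      refine Finset.sum_congr rfl fun m _ => ?_
      simp only [hc, if_pos hs]
      ring
    rw [Finset.sum_congr rfl e1, Finset.sum_comm]
    refine Finset.sum_congr rfl fun d _ => ?_
    rw [Finset.sum_comm]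
    refine Finset.sum_congr rfl fun m _ => ?_
    rw [← Finset.mul_sum]
    congr 1
    -- `A` and `S N`
    have hL1 : ∑ s ∈ A, c d m s * conj (sy k s) = ∑ s ∈ A ∩ S N, c d m s * conj (sy k s) := by
      symm
      refine Finset.sum_subset Finset.inter_subset_left fun s hs hsn => ?_
      by_contra hne
      exact hsn (Finset.mem_inter.2 ⟨hs, hcS d m s (left_ne_zero_of_mul hne)⟩)
    have hL2 : ∑ s ∈ S N, c d m s * conj (sy k s) = ∑ s ∈ A ∩ S N, c d m s * conj (sy k s) := by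
      symm
      refine Finset.sum_subset Finset.inter_subset_right fun s hs hsn => ?_
      by_contra hne
      have h1 := left_ne_zero_of_mul hne
      have h2 : s ∈ A := by
        by_contra h3
        simp only [hc, if_neg h3] at h1
        exact h1 rfl
      exact hsn (Finset.mem_inter.2 ⟨h2, hs⟩)
    rw [hL1, hL2]
  -- Cauchy over the cofactors
  have hpt : ∀ k, ‖∑ s ∈ A, conj (sy k s) * ∑ u ∈ primBall Y, ga β β s u * sy k u‖ ^ 2 ≤
      L * ∑ d ∈ D, (nm d : ℝ) * (L * ∑ m ∈ D, (nm m : ℝ) *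
        ‖∑ s ∈ S N, c d m s * conj (sy k s)‖ ^ 2) := by
    intro k
    rw [key k]
    refine (cauchy_w hD0 _).trans ?_
    refine mul_le_mul hLs (Finset.sum_le_sum fun d hd => ?_)
      (Finset.sum_nonneg fun _ _ => by positivity) hL0
    refine mul_le_mul_of_nonneg_left ?_ (by positivity)
    refine (cauchy_w hD0 _).trans ?_
    refine mul_le_mul hLs (Finset.sum_le_sum fun m hm => ?_)
      (Finset.sum_nonneg fun _ _ => by positivity) hL0
    refine mul_le_mul_of_nonneg_left ?_ (by positivity)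
    refine pow_le_pow_left₀ (norm_nonneg _) ?_ 2
    rw [norm_mul]
    exact mul_le_of_le_one_left (norm_nonneg _)
      (norm_sy_le' ((mem_primBall.mp hd).2.mul (mem_primBall.mp hm).2))
  -- the large sieve
  have hls : ∀ d m, ∑ k ∈ S K, ‖∑ s ∈ S N, c d m s * conj (sy k s)‖ ^ 2 ≤
      R * (K + N + (K * N) ^ ((2 : ℝ) / 3)) *
        ∑ s ∈ S N, ‖β (s * d)‖ ^ 2 * ‖β (s * m)‖ ^ 2 := by
    intro d m
    have e1 : ∀ k, ‖∑ s ∈ S N, c d m s * conj (sy k s)‖ =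
        ‖∑ s ∈ S N, conj (c d m s) * sy k s‖ := by
      intro k
      rw [← RCLike.norm_conj, map_sum]
      congr 1
      refine Finset.sum_congr rfl fun s _ => ?_
      rw [map_mul, Complex.conj_conj]
    simp only [e1]
    refine (hC K N hK hN (fun s => conj (c d m s))).trans ?_
    have hKN : K * N ≤ K * (N * N) := mul_le_mul_of_nonneg_left hNN (by linarith)
    have h1 : C * (K * N) ^ ε ≤ R :=
      mul_le_mul_of_nonneg_left (Real.rpow_le_rpow (by positivity) hKN hε) hC0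
    refine mul_le_mul (mul_le_mul_of_nonneg_right h1 (by positivity))
      (Finset.sum_le_sum fun s _ => ?_) (Finset.sum_nonneg fun _ _ => by positivity)
      (by positivity)
    rw [RCLike.norm_conj]
    exact hcn d m s
  have hQ0 : 0 ≤ K + N + (K * N) ^ ((2 : ℝ) / 3) := by positivity
  have hDn : ∀ d ∈ D, (nm d : ℝ) ≤ N ^ ((1 : ℝ) / 3) := fun d hd =>
    (Nat.cast_le.2 (mem_primBall.mp hd).1).trans (Nat.floor_le (by positivity))
  have h23 : N ^ ((1 : ℝ) / 3) * N ^ ((1 : ℝ) / 3) = N ^ ((2 : ℝ) / 3) := by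
    rw [← Real.rpow_add hN0]; norm_num
  have hSNY : S N ⊆ primBall Y := fun n hn => by
    have h := (mem_S hN0.le).1 hn
    rw [mem_primBall]
    exact ⟨Nat.le_floor (h.1.trans hNN), h.2.1⟩
  calc ∑ k ∈ S K, ‖∑ s ∈ A, conj (sy k s) * ∑ u ∈ primBall Y, ga β β s u * sy k u‖ ^ 2
      ≤ ∑ k ∈ S K, L * ∑ d ∈ D, (nm d : ℝ) * (L * ∑ m ∈ D, (nm m : ℝ) *
        ‖∑ s ∈ S N, c d m s * conj (sy k s)‖ ^ 2) := Finset.sum_le_sum fun k _ => hpt k
    _ = L * ∑ d ∈ D, (nm d : ℝ) * (L * ∑ m ∈ D, (nm m : ℝ) *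
        ∑ k ∈ S K, ‖∑ s ∈ S N, c d m s * conj (sy k s)‖ ^ 2) := by
        rw [← Finset.mul_sum, Finset.sum_comm]
        congr 1
        refine Finset.sum_congr rfl fun d _ => ?_
        rw [← Finset.mul_sum, ← Finset.mul_sum, Finset.sum_comm]
        congr 2
        refine Finset.sum_congr rfl fun m _ => ?_
        rw [← Finset.mul_sum]
    _ ≤ L * ∑ d ∈ D, N ^ ((1 : ℝ) / 3) * (L * ∑ m ∈ D, N ^ ((1 : ℝ) / 3) *
        (R * (K + N + (K * N) ^ ((2 : ℝ) / 3)) *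
          ∑ s ∈ S N, ‖β (s * d)‖ ^ 2 * ‖β (s * m)‖ ^ 2)) := by
        refine mul_le_mul_of_nonneg_left (Finset.sum_le_sum fun d hd => ?_) hL0
        refine mul_le_mul (hDn d hd) ?_ ?_ (by positivity)
        · refine mul_le_mul_of_nonneg_left (Finset.sum_le_sum fun m hm => ?_) hL0
          exact mul_le_mul (hDn m hm) (hls d m) (Finset.sum_nonneg fun _ _ => by positivity)
            (by positivity)
        · exact mul_nonneg hL0 (Finset.sum_nonneg fun _ _ => mul_nonneg (by positivity)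
            (Finset.sum_nonneg fun _ _ => by positivity))
    _ = L ^ 2 * R * (N ^ ((2 : ℝ) / 3) * (K + N + (K * N) ^ ((2 : ℝ) / 3))) *
        ∑ s ∈ S N, (∑ d ∈ D, ‖β (s * d)‖ ^ 2) ^ 2 := by
        have e1 : ∑ s ∈ S N, (∑ d ∈ D, ‖β (s * d)‖ ^ 2) ^ 2 =
            ∑ d ∈ D, ∑ m ∈ D, ∑ s ∈ S N, ‖β (s * d)‖ ^ 2 * ‖β (s * m)‖ ^ 2 := by
          have : ∀ s ∈ S N, (∑ d ∈ D, ‖β (s * d)‖ ^ 2) ^ 2 =
              ∑ d ∈ D, ∑ m ∈ D, ‖β (s * d)‖ ^ 2 * ‖β (s * m)‖ ^ 2 := fun s _ => by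
            rw [pow_two, Finset.sum_mul_sum]
          rw [Finset.sum_congr rfl this, Finset.sum_comm]
          refine Finset.sum_congr rfl fun d _ => ?_
          rw [Finset.sum_comm]
        rw [e1, ← h23, Finset.mul_sum, Finset.mul_sum]
        refine Finset.sum_congr rfl fun d _ => ?_
        rw [Finset.mul_sum, Finset.mul_sum, Finset.mul_sum, Finset.mul_sum]
        refine Finset.sum_congr rfl fun m _ => ?_
        ring
    _ ≤ L ^ 2 * R * Q4 K N * (T * Sβ ^ 2) := by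
        have h1 := real_large (K := K) (by linarith) hN
        have h2 : ∑ s ∈ S N, (∑ d ∈ D, ‖β (s * d)‖ ^ 2) ^ 2 ≤ T * Sβ ^ 2 := by
          refine le_trans ?_ (sum_D_sq hN0.le hSNY hβ hT)
          calc ∑ s ∈ S N, (∑ d ∈ D, ‖β (s * d)‖ ^ 2) ^ 2
              ≤ ∑ s ∈ primBall Y, (∑ d ∈ D, ‖β (s * d)‖ ^ 2) ^ 2 :=
                Finset.sum_le_sum_of_subset_of_nonneg hSNY fun _ _ _ => by positivity
            _ ≤ _ := by
                refine Finset.sum_le_sum fun s _ => pow_le_pow_left₀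
                  (Finset.sum_nonneg fun _ _ => by positivity) ?_ 2
                exact Finset.sum_le_sum_of_subset_of_nonneg hDY fun _ _ _ => by positivity
        refine mul_le_mul (mul_le_mul_of_nonneg_left h1 (by positivity)) h2
          (Finset.sum_nonneg fun _ _ => by positivity) ?_
        exact mul_nonneg (by positivity) (Q4_nonneg (by linarith) hN0.le)
    _ = _ := by ring

/-- the part of the small common factors -/
lemma h4_small {ε C : ℝ} (hε : 0 ≤ ε) (hC0 : 0 ≤ C) (hC : ∀ M N : ℝ, 1 ≤ M → 1 ≤ N →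
    HB M N (C * (M * N) ^ ε * (M + N + (M * N) ^ ((2 : ℝ) / 3)))) {K N : ℝ} (hK : 1 ≤ K)
    (hN : 1 ≤ N) {β : Eis → ℂ} (hβ : ∀ n, β n ≠ 0 → n ∈ S N) {T : ℝ}
    (hT : ∀ u ∈ primBall ⌊N * N⌋₊, (tau u : ℝ) ≤ T) (hT0 : 0 ≤ T) :
    ∑ k ∈ S K, ‖∑ s ∈ (primBall ⌊N * N⌋₊).filter (fun s => ¬ N ^ ((2 : ℝ) / 3) < nm s),
      conj (sy k s) * ∑ u ∈ primBall ⌊N * N⌋₊, ga β β s u * sy k u‖ ^ 2 ≤
      (100 * (1 + Real.log (N * N))) * (C * (K * (N * N)) ^ ε) * T ^ 2 *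
        (Q4 K N * (∑ n ∈ S N, ‖β n‖ ^ 2) ^ 2) := by
  have hN0 : 0 < N := by linarith
  have hNN1 : 1 ≤ N * N := by nlinarith
  have hNN : N ≤ N * N := by nlinarith
  set Y := ⌊N * N⌋₊ with hY
  set A := (primBall Y).filter (fun s => ¬ N ^ ((2 : ℝ) / 3) < nm s) with hA
  set Sβ := ∑ n ∈ S N, ‖β n‖ ^ 2 with hSβ
  have hSβ0 : 0 ≤ Sβ := Finset.sum_nonneg fun _ _ => by positivity
  set R : ℝ := C * (K * (N * N)) ^ ε with hR
  have hR0 : 0 ≤ R := by positivity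
  set L : ℝ := 100 * (1 + Real.log (N * N)) with hL
  have hL0 : 0 ≤ L := by have := Real.log_nonneg hNN1; positivity
  have hAY : A ⊆ primBall Y := Finset.filter_subset _ _
  have hA0 : ∀ s ∈ A, s ≠ 0 := fun s hs => (mem_primBall.mp (hAY hs)).2.ne_zero
  have hLs : ∑ s ∈ A, (1 / (nm s : ℝ)) ≤ L := by
    refine (Finset.sum_le_sum_of_subset_of_nonneg hAY fun _ _ _ => by positivity).trans ?_
    refine (sum_inv_primBall_le Y).trans ?_
    have hY1 : 1 ≤ Y := Nat.le_floor (by exact_mod_cast hNN1)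
    have : Real.log Y ≤ Real.log (N * N) :=
      Real.log_le_log (by exact_mod_cast hY1) (Nat.floor_le (by positivity))
    rw [hL]; linarith
  have hSNY : S N ⊆ primBall Y := fun n hn => by
    have h := (mem_S hN0.le).1 hn
    rw [mem_primBall]
    exact ⟨Nat.le_floor (h.1.trans hNN), h.2.1⟩
  have hga : ∀ s ∈ A, ∑ u ∈ primBall Y, ‖ga β β s u‖ ^ 2 ≤
      T * (∑ m ∈ primBall Y, ‖β (s * m)‖ ^ 2) ^ 2 := by
    intro s hs
    have hsp := (mem_primBall.mp (hAY hs)).2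
    have ns := nmpos hsp.ne_zero
    have h1 := sum_ga_le (N := N) (B := N) hN hN (β := β) (b := β)
      (Mb := nm s * ∑ d ∈ primBall ⌊N⌋₊, ‖β (s * d)‖ ^ 2) hsp hβ
      (le_of_eq (by field_simp)) hT hT0
    refine h1.trans ?_
    have h2 : nm s * ∑ d ∈ primBall ⌊N⌋₊, ‖β (s * d)‖ ^ 2 / nm s =
        ∑ d ∈ primBall ⌊N⌋₊, ‖β (s * d)‖ ^ 2 := by
      rw [← Finset.sum_div]
      field_simp
    refine mul_le_mul_of_nonneg_left ?_ hT0
    rw [pow_two]
    refine mul_le_mul_of_nonneg_right ?_ (Finset.sum_nonneg fun _ _ => by positivity)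
    have e : (nm s : ℝ) * (∑ d ∈ primBall ⌊N⌋₊, ‖β (s * d)‖ ^ 2) / nm s =
        ∑ d ∈ primBall ⌊N⌋₊, ‖β (s * d)‖ ^ 2 := by field_simp
    rw [e]
    exact Finset.sum_le_sum_of_subset_of_nonneg
      (Div277.primBall_mono (Nat.floor_le_floor hNN)) fun _ _ _ => by positivity
  calc ∑ k ∈ S K, ‖∑ s ∈ A, conj (sy k s) * ∑ u ∈ primBall Y, ga β β s u * sy k u‖ ^ 2
      ≤ ∑ k ∈ S K, L * ∑ s ∈ A, (nm s : ℝ) *
          ‖∑ u ∈ primBall Y, ga β β s u * sy k u‖ ^ 2 := by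
        refine Finset.sum_le_sum fun k _ => ?_
        refine (cauchy_w hA0 _).trans ?_
        refine mul_le_mul hLs (Finset.sum_le_sum fun s hs => ?_)
          (Finset.sum_nonneg fun _ _ => by positivity) hL0
        refine mul_le_mul_of_nonneg_left ?_ (by positivity)
        refine pow_le_pow_left₀ (norm_nonneg _) ?_ 2
        rw [norm_mul, RCLike.norm_conj]
        exact mul_le_of_le_one_left (norm_nonneg _) (norm_sy_le' (mem_primBall.mp (hAY hs)).2)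
    _ = L * ∑ s ∈ A, (nm s : ℝ) * ∑ k ∈ S K,
          ‖∑ u ∈ primBall Y, ga β β s u * sy k u‖ ^ 2 := by
        rw [← Finset.mul_sum, Finset.sum_comm]
        congr 1
        refine Finset.sum_congr rfl fun s _ => ?_
        rw [Finset.mul_sum]
    _ ≤ L * ∑ s ∈ A, R * Q4 K N * (T * (∑ m ∈ primBall Y, ‖β (s * m)‖ ^ 2) ^ 2) := by
        refine mul_le_mul_of_nonneg_left (Finset.sum_le_sum fun s hs => ?_) hL0
        have hsp := (mem_primBall.mp (hAY hs)).2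
        have ns1 : (1 : ℝ) ≤ nm s := nm_ge_one hsp.ne_zero
        have hsN : (nm s : ℝ) ≤ N ^ ((2 : ℝ) / 3) := not_lt.1 (Finset.mem_filter.1 hs).2
        have h1 := hb_ga' hε hC0 hC hK hN hN (β := β) (b := β) hβ hβ hsp
        have h2 := real_small (K := K) (by linarith) hN ns1 hsN
        have h3 := hga s hs
        have h4 : 0 ≤ ∑ u ∈ primBall Y, ‖ga β β s u‖ ^ 2 :=
          Finset.sum_nonneg fun _ _ => by positivity
        calc (nm s : ℝ) * ∑ k ∈ S K, ‖∑ u ∈ primBall Y, ga β β s u * sy k u‖ ^ 2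
            ≤ (nm s : ℝ) * (R * (K + N * N / (nm s : ℝ) ^ 2 +
              (K * (N * N / (nm s : ℝ) ^ 2)) ^ ((2 : ℝ) / 3)) *
              ∑ u ∈ primBall Y, ‖ga β β s u‖ ^ 2) :=
              mul_le_mul_of_nonneg_left h1 (by positivity)
          _ = R * ((nm s : ℝ) * (K + N * N / (nm s : ℝ) ^ 2 +
              (K * (N * N / (nm s : ℝ) ^ 2)) ^ ((2 : ℝ) / 3))) *
              ∑ u ∈ primBall Y, ‖ga β β s u‖ ^ 2 := by ring
          _ ≤ R * Q4 K N * (T * (∑ m ∈ primBall Y, ‖β (s * m)‖ ^ 2) ^ 2) := by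
              refine mul_le_mul (mul_le_mul_of_nonneg_left h2 hR0) h3 h4 ?_
              exact mul_nonneg hR0 (Q4_nonneg (by linarith) hN0.le)
    _ = L * (R * Q4 K N * T * ∑ s ∈ A, (∑ m ∈ primBall Y, ‖β (s * m)‖ ^ 2) ^ 2) := by
        congr 1
        rw [Finset.mul_sum]
        refine Finset.sum_congr rfl fun s _ => ?_
        ring
    _ ≤ L * (R * Q4 K N * T * (T * Sβ ^ 2)) := by
        have hQ := Q4_nonneg (K := K) (by linarith) hN0.le
        refine mul_le_mul_of_nonneg_left (mul_le_mul_of_nonneg_left ?_ (by positivity)) hL0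
        exact (Finset.sum_le_sum_of_subset_of_nonneg hAY fun _ _ _ => by positivity).trans
          (sum_D_sq hN0.le hSNY hβ hT)
    _ = _ := by ring

/-- **the fourth moment**, explicit parameters -/
theorem h4 {ε C : ℝ} (hε : 0 ≤ ε) (hC0 : 0 ≤ C) (hC : ∀ M N : ℝ, 1 ≤ M → 1 ≤ N →
    HB M N (C * (M * N) ^ ε * (M + N + (M * N) ^ ((2 : ℝ) / 3)))) {K N : ℝ} (hK : 1 ≤ K)
    (hN : 1 ≤ N) {β : Eis → ℂ} (hβ : ∀ n, β n ≠ 0 → n ∈ S N) {T : ℝ}
    (hT : ∀ u ∈ primBall ⌊N * N⌋₊, (tau u : ℝ) ≤ T) (hT1 : 1 ≤ T) :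
    ∑ k ∈ S K, ‖CS β k‖ ^ 4 ≤
      4 * ((100 * (1 + Real.log (N * N))) ^ 2 * (C * (K * (N * N)) ^ ε) * T ^ 2) *
        (Q4 K N * (∑ n ∈ S N, ‖β n‖ ^ 2) ^ 2) := by
  have hN0 : 0 < N := by linarith
  have hNN1 : 1 ≤ N * N := by nlinarith
  have h1 := h4_large hε hC0 hC hK hN hβ hT
  have h2 := h4_small hε hC0 hC hK hN hβ hT (by linarith)
  set Y := ⌊N * N⌋₊ with hY
  set L : ℝ := 100 * (1 + Real.log (N * N)) with hL
  have hL1 : 1 ≤ L := by have := Real.log_nonneg hNN1; rw [hL]; linarith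
  set R : ℝ := C * (K * (N * N)) ^ ε with hR
  have hR0 : 0 ≤ R := by positivity
  set Z := Q4 K N * (∑ n ∈ S N, ‖β n‖ ^ 2) ^ 2 with hZ
  have hZ0 : 0 ≤ Z := mul_nonneg (Q4_nonneg (by linarith) hN0.le) (by positivity)
  have hpt : ∀ k ∈ S K, ‖CS β k‖ ^ 4 ≤
      2 * ‖∑ s ∈ (primBall Y).filter (fun s => N ^ ((2 : ℝ) / 3) < nm s),
        conj (sy k s) * ∑ u ∈ primBall Y, ga β β s u * sy k u‖ ^ 2 +
      2 * ‖∑ s ∈ (primBall Y).filter (fun s => ¬ N ^ ((2 : ℝ) / 3) < nm s),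
        conj (sy k s) * ∑ u ∈ primBall Y, ga β β s u * sy k u‖ ^ 2 := by
    intro k _
    have e1 : ‖CS β k‖ ^ 4 = ‖CS β k * CS β k‖ ^ 2 := by rw [norm_mul]; ring
    rw [e1, prod_eq hN hN hβ hβ k, ← Finset.sum_filter_add_sum_filter_not (primBall Y)
      (fun s => N ^ ((2 : ℝ) / 3) < nm s)]
    set a := ∑ s ∈ (primBall Y).filter (fun s => N ^ ((2 : ℝ) / 3) < nm s),
        conj (sy k s) * ∑ u ∈ primBall Y, ga β β s u * sy k u
    set b := ∑ s ∈ (primBall Y).filter (fun s => ¬ N ^ ((2 : ℝ) / 3) < nm s),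
        conj (sy k s) * ∑ u ∈ primBall Y, ga β β s u * sy k u
    have h3 := norm_add_le a b
    have h4 := norm_nonneg a
    have h5 := norm_nonneg b
    have h6 := norm_nonneg (a + b)
    nlinarith [sq_nonneg (‖a‖ - ‖b‖)]
  refine (Finset.sum_le_sum hpt).trans ?_
  rw [Finset.sum_add_distrib, ← Finset.mul_sum, ← Finset.mul_sum]
  have e1 : L ^ 2 * R * T * Z ≤ L ^ 2 * R * T ^ 2 * Z := by
    have : T ≤ T ^ 2 := by nlinarith
    gcongr
  have e2 : L * R * T ^ 2 * Z ≤ L ^ 2 * R * T ^ 2 * Z := by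
    have : L ≤ L ^ 2 := by nlinarith
    gcongr
  linarith

end Crest.Agent.R017.GH490
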