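import Crest.Agent.R017.GH4a_90

/-!
# Row 17, R8: fourth moments by the cubic large sieve, part 2 (helper90; sketch: helper47)

**`gram4`** : the fourth moment of the structured function at a fixed cube
-/

set_option autoImplicit false
set_option maxHeartbeats 400000

noncomputable section

open Complex
open scoped ComplexConjugate Classical

namespace Crest.Agent.R017.GH490

open Crest.Agent.R012 Crest.Agent.R012.Eis
open Crest.Agent.R012.LS2 (S mem_S HB Final)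
open Crest.Agent.R012.Div277 (dvs mem_dvs isPrim_of_mem_dvs dvd_of_mem_dvs tau tau_le_rpow
  sum_primBall_dvs sum_inv_primBall_le poly_log_le)
open Crest.Agent.R017.CM106 (CS)
open Crest.Agent.R017.PX764 (norm_sy_le' n6)
open Crest.Agent.R017.E1551 (nmpos CS_fin nm_ge_one)
open Crest.Agent.R017.C70 (JC CbF OKJ)
open Crest.Agent.R017.GrB829 (IsC)
open Crest.Agent.R017.E3P842
open Crest.Agent.R017.E3A164
open Crest.Agent.R017.GHB842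
open Gauss880 (syG)

variable {J : Finset (Eis × Eis)} {om : Eis × Eis → ℂ} {T : Eis → Eis → Eis → ℂ} {q t : Eis}

/-- Minkowski -/
lemma mink {ι κ : Type*} (A : Finset κ) (Y : Finset ι) (a : ι → κ → ℝ) (c : ι → ℝ)
    (hc : ∀ y ∈ Y, 0 ≤ c y)
    (h : ∀ y ∈ Y, ∑ k ∈ A, a y k ^ 2 ≤ c y ^ 2) :
    ∑ k ∈ A, (∑ y ∈ Y, a y k) ^ 2 ≤ (∑ y ∈ Y, c y) ^ 2 := by
  have e1 : ∑ k ∈ A, (∑ y ∈ Y, a y k) ^ 2 = ∑ y ∈ Y, ∑ y' ∈ Y, ∑ k ∈ A, a y k * a y' k := by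
    have : ∀ k ∈ A, (∑ y ∈ Y, a y k) ^ 2 = ∑ y ∈ Y, ∑ y' ∈ Y, a y k * a y' k := fun k _ => by
      rw [pow_two, Finset.sum_mul_sum]
    rw [Finset.sum_congr rfl this, Finset.sum_comm]
    refine Finset.sum_congr rfl fun y _ => ?_
    rw [Finset.sum_comm]
  rw [e1, pow_two, Finset.sum_mul_sum]
  refine Finset.sum_le_sum fun y hy => Finset.sum_le_sum fun y' hy' => ?_
  have h1 := Finset.sum_mul_sq_le_sq_mul_sq A (a y) (a y')
  have h2 : (∑ k ∈ A, a y k * a y' k) ^ 2 ≤ (c y * c y') ^ 2 := by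
    refine h1.trans ?_
    rw [mul_pow]
    exact mul_le_mul (h y hy) (h y' hy') (Finset.sum_nonneg fun _ _ => sq_nonneg _)
      (sq_nonneg _)
  exact le_of_sq_le_sq h2 (mul_nonneg (hc y hy) (hc y' hy'))
where
  le_of_sq_le_sq {x z : ℝ} (h : x ^ 2 ≤ z ^ 2) (hz : 0 ≤ z) : x ≤ z :=
    abs_le_of_sq_le_sq' h hz |>.2

lemma sum_sq_le {ι : Type*} (A : Finset ι) (B : ι → ℝ) (hB : ∀ i ∈ A, 0 ≤ B i) :
    ∑ i ∈ A, B i ^ 2 ≤ (∑ i ∈ A, B i) ^ 2 := by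
  rw [pow_two, Finset.sum_mul]
  refine Finset.sum_le_sum fun i hi => ?_
  rw [pow_two]
  exact mul_le_mul_of_nonneg_left (Finset.single_le_sum hB hi) (hB i hi)

lemma alg_ineq4 {K W a γ c : ℝ} (hK : 0 < K) (hW : 0 < W) (ha : 1 ≤ a) (hγ : 1 ≤ γ)
    (hc : 1 ≤ c) (hc' : c ≤ 27) :
    (γ * a ^ 2) ^ ((2 : ℝ) / 3) * (a * c * γ ^ 2) ^ ((2 : ℝ) / 3) *
      Q4 (K / (a ^ 2 * γ)) (W / (a * c * γ ^ 2)) ≤ 9 * Q4 K W := by
  have a0 : 0 < a := by linarith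
  have g0 : 0 < γ := by linarith
  have c0 : 0 < c := by linarith
  have ag1 : 1 ≤ a * γ := by nlinarith
  have e1 : (γ * a ^ 2) ^ ((2 : ℝ) / 3) * (a * c * γ ^ 2) ^ ((2 : ℝ) / 3) =
      c ^ ((2 : ℝ) / 3) * (a * γ) ^ 2 := by
    rw [← Real.mul_rpow (by positivity) (by positivity)]
    have : γ * a ^ 2 * (a * c * γ ^ 2) = c * (a * γ) ^ 3 := by ring
    rw [this, Real.mul_rpow (by positivity) (by positivity)]
    congr 1
    rw [← Real.rpow_natCast (a * γ) 3, ← Real.rpow_mul (by positivity),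
      ← Real.rpow_natCast (a * γ) 2]
    norm_num
  have e2 : c ^ ((2 : ℝ) / 3) ≤ 9 := by
    calc c ^ ((2 : ℝ) / 3) ≤ (27 : ℝ) ^ ((2 : ℝ) / 3) :=
          Real.rpow_le_rpow (by positivity) hc' (by norm_num)
      _ = 9 := by
          rw [show (27 : ℝ) = 3 ^ (3 : ℝ) by norm_num, ← Real.rpow_mul (by norm_num)]
          norm_num
  -- the three terms
  have t1 : (a * γ) ^ 2 * (K / (a ^ 2 * γ) * (W / (a * c * γ ^ 2)) ^ ((2 : ℝ) / 3)) ≤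
      K * W ^ ((2 : ℝ) / 3) := by
    have f1 : (W / (a * c * γ ^ 2)) ^ ((2 : ℝ) / 3) =
        W ^ ((2 : ℝ) / 3) * ((a * c * γ ^ 2) ^ ((2 : ℝ) / 3))⁻¹ := by
      rw [div_eq_mul_inv, Real.mul_rpow hW.le (by positivity), Real.inv_rpow (by positivity)]
    have f2 : γ ≤ (a * c * γ ^ 2) ^ ((2 : ℝ) / 3) := by
      calc γ = γ ^ (1 : ℝ) := (Real.rpow_one γ).symm
        _ ≤ γ ^ ((4 : ℝ) / 3) := Real.rpow_le_rpow_of_exponent_le hγ (by norm_num)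
        _ = (γ ^ 2) ^ ((2 : ℝ) / 3) := by
            rw [← Real.rpow_natCast, ← Real.rpow_mul g0.le]; norm_num
        _ ≤ _ := Real.rpow_le_rpow (by positivity)
            (le_mul_of_one_le_left (by positivity) (by nlinarith)) (by norm_num)
    have f3 : γ * ((a * c * γ ^ 2) ^ ((2 : ℝ) / 3))⁻¹ ≤ 1 := by
      rw [← div_eq_mul_inv]
      exact (div_le_one (by positivity)).2 f2
    rw [f1]
    calc (a * γ) ^ 2 * (K / (a ^ 2 * γ) * (W ^ ((2 : ℝ) / 3) *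
          ((a * c * γ ^ 2) ^ ((2 : ℝ) / 3))⁻¹))
        = K * W ^ ((2 : ℝ) / 3) * (γ * ((a * c * γ ^ 2) ^ ((2 : ℝ) / 3))⁻¹) := by
          field_simp
      _ ≤ K * W ^ ((2 : ℝ) / 3) * 1 := mul_le_mul_of_nonneg_left f3 (by positivity)
      _ = _ := mul_one _
  have t2 : (a * γ) ^ 2 * (W / (a * c * γ ^ 2)) ^ 2 ≤ W ^ 2 := by
    have : (a * γ) ^ 2 * (W / (a * c * γ ^ 2)) ^ 2 = W ^ 2 / (c * γ) ^ 2 := by
      field_simp
    rw [this]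
    exact div_le_self (by positivity) (one_le_pow₀ (by nlinarith))
  have t3 : (a * γ) ^ 2 * (K / (a ^ 2 * γ) * (W / (a * c * γ ^ 2)) ^ 2) ^ ((2 : ℝ) / 3) ≤
      (K * W ^ 2) ^ ((2 : ℝ) / 3) := by
    have f1 : (K / (a ^ 2 * γ) * (W / (a * c * γ ^ 2)) ^ 2) ^ ((2 : ℝ) / 3) =
        (K * W ^ 2) ^ ((2 : ℝ) / 3) * ((c ^ 2 * a ^ 4 * γ ^ 5) ^ ((2 : ℝ) / 3))⁻¹ := by
      rw [← Real.inv_rpow (by positivity), ← Real.mul_rpow (by positivity) (by positivity)]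
      congr 1
      field_simp
    have f2 : (a * γ) ^ 2 ≤ (c ^ 2 * a ^ 4 * γ ^ 5) ^ ((2 : ℝ) / 3) := by
      calc (a * γ) ^ 2 = ((a * γ) ^ 3) ^ ((2 : ℝ) / 3) := by
            rw [← Real.rpow_natCast (a * γ) 3, ← Real.rpow_mul (by positivity),
              ← Real.rpow_natCast (a * γ) 2]
            norm_num
        _ ≤ _ := by
            refine Real.rpow_le_rpow (by positivity) ?_ (by norm_num)
            calc (a * γ) ^ 3 = a ^ 3 * γ ^ 3 := by ring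
              _ ≤ a ^ 4 * γ ^ 5 := mul_le_mul (pow_le_pow_right₀ ha (by norm_num))
                  (pow_le_pow_right₀ hγ (by norm_num)) (by positivity) (by positivity)
              _ ≤ c ^ 2 * (a ^ 4 * γ ^ 5) :=
                  le_mul_of_one_le_left (by positivity) (one_le_pow₀ hc)
              _ = _ := by ring
    have f3 : (a * γ) ^ 2 * ((c ^ 2 * a ^ 4 * γ ^ 5) ^ ((2 : ℝ) / 3))⁻¹ ≤ 1 := by
      rw [← div_eq_mul_inv]
      exact (div_le_one (by positivity)).2 f2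
    rw [f1]
    calc (a * γ) ^ 2 * ((K * W ^ 2) ^ ((2 : ℝ) / 3) *
          ((c ^ 2 * a ^ 4 * γ ^ 5) ^ ((2 : ℝ) / 3))⁻¹)
        = (K * W ^ 2) ^ ((2 : ℝ) / 3) *
          ((a * γ) ^ 2 * ((c ^ 2 * a ^ 4 * γ ^ 5) ^ ((2 : ℝ) / 3))⁻¹) := by ring
      _ ≤ (K * W ^ 2) ^ ((2 : ℝ) / 3) * 1 := mul_le_mul_of_nonneg_left f3 (by positivity)
      _ = _ := mul_one _
  rw [e1]
  unfold Q4
  calc c ^ ((2 : ℝ) / 3) * (a * γ) ^ 2 *
        (K / (a ^ 2 * γ) * (W / (a * c * γ ^ 2)) ^ ((2 : ℝ) / 3) + (W / (a * c * γ ^ 2)) ^ 2 +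
          (K / (a ^ 2 * γ) * (W / (a * c * γ ^ 2)) ^ 2) ^ ((2 : ℝ) / 3))
      = c ^ ((2 : ℝ) / 3) *
        ((a * γ) ^ 2 * (K / (a ^ 2 * γ) * (W / (a * c * γ ^ 2)) ^ ((2 : ℝ) / 3)) +
          (a * γ) ^ 2 * (W / (a * c * γ ^ 2)) ^ 2 +
          (a * γ) ^ 2 * (K / (a ^ 2 * γ) * (W / (a * c * γ ^ 2)) ^ 2) ^ ((2 : ℝ) / 3)) := by ring
    _ ≤ 9 * (K * W ^ ((2 : ℝ) / 3) + W ^ 2 + (K * W ^ 2) ^ ((2 : ℝ) / 3)) :=
        mul_le_mul e2 (by linarith) (by positivity) (by norm_num)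

lemma n6_four (m : Eis) : n6 m ^ 4 = (nm m : ℝ) ^ (-(2 : ℝ) / 3) := by
  unfold n6
  rw [← Real.rpow_natCast, ← Real.rpow_mul (Nat.cast_nonneg _)]
  norm_num

/-- the common factor -/
def W4 (C ε τ K V : ℝ) : ℝ :=
  4 * ((100 * (1 + Real.log (V * V))) ^ 2 * (C * (K * (V * V)) ^ ε) * τ ^ 2)

set_option maxHeartbeats 1000000 in
/-- one parameter `y` -/
lemma one_y4 {ε C : ℝ} (hε : 0 ≤ ε) (hC0 : 0 ≤ C) (hC : ∀ M N : ℝ, 1 ≤ M → 1 ≤ N →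
    HB M N (C * (M * N) ^ ε * (M + N + (M * N) ^ ((2 : ℝ) / 3)))) {K V : ℝ} (hK : 1 ≤ K)
    (hV : 1 ≤ V) (hJ : OKJ J)
    (hJV : ∀ x ∈ J, (nm x.2 : ℝ) * (nm x.1 : ℝ) ^ 2 ≤ V) {E0 : ℝ}
    (hq : IsPrim q) {y : Yp} (hy : y ∈ Ys J E0 V) {τ : ℝ}
    (hτ : ∀ u ∈ primBall ⌊V * V⌋₊, (tau u : ℝ) ≤ τ) (hτ1 : 1 ≤ τ) :
    ∑ k₁ ∈ (S (K / (nm q : ℝ) ^ 2)).filter (fun k => y.2.2.2 ∣ k),
      (nm (k₁ * q ^ 2) : ℝ) ^ ((2 : ℝ) / 3) * ‖Fy J om T q t k₁ y‖ ^ 4 ≤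
      9 * W4 C ε τ K V * Q4 K (V / (nm y.1 : ℝ) ^ 2) * (∑ n ∈ S V, hn J om T q y n) ^ 2 := by
  have hV0 : 0 ≤ V := by linarith
  have hK0 : 0 ≤ K := by linarith
  have hy' := hy
  unfold Ys at hy'
  rw [Finset.mem_product, Finset.mem_product, Finset.mem_product, mem_Cs] at hy'
  obtain ⟨hy1, hy2, hy3, hy4⟩ := hy'
  obtain ⟨h4', h5, h6⟩ := (mem_S hV0).1 hy4
  have hdp : IsPrim y.1 := by
    obtain ⟨x, hx, hxe⟩ := Finset.mem_image.mp hy1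
    rw [← hxe]
    exact hJ.prim x hx
  obtain ⟨hc1, hc2⟩ := nm_C_le hy3
  have ha1 : (1 : ℝ) ≤ nm q := nm_ge_one hq.ne_zero
  have hg1 : (1 : ℝ) ≤ nm y.2.2.2 := nm_ge_one h5.ne_zero
  have hd1 : (1 : ℝ) ≤ nm y.1 := nm_ge_one hdp.ne_zero
  set a : ℝ := (nm q : ℝ) with ha
  set γ : ℝ := (nm y.2.2.2 : ℝ) with hγ
  set c : ℝ := (nm y.2.2.1 : ℝ) with hc
  set d : ℝ := (nm y.1 : ℝ) with hd
  set K' : ℝ := K / a ^ 2 / γ with hK'
  have hK'0 : 0 ≤ K' := by positivity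
  set N : ℝ := V / d ^ 2 / (a * c * γ ^ 2) with hN
  have hVV1 : 1 ≤ V * V := by nlinarith
  have hlogVV := Real.log_nonneg hVV1
  have hW0 : 0 ≤ W4 C ε τ K V := by unfold W4; positivity
  have hRHS : 0 ≤ 9 * W4 C ε τ K V * Q4 K (V / d ^ 2) * (∑ n ∈ S V, hn J om T q y n) ^ 2 := by
    have h2 := Q4_nonneg hK0 (by positivity : 0 ≤ V / d ^ 2)
    positivity
  -- reduction to `k'`
  have s1 : ∑ k₁ ∈ (S (K / a ^ 2)).filter (fun k => y.2.2.2 ∣ k),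
      (nm (k₁ * q ^ 2) : ℝ) ^ ((2 : ℝ) / 3) * ‖Fy J om T q t k₁ y‖ ^ 4 ≤
      (γ * a ^ 2) ^ ((2 : ℝ) / 3) * ∑ k ∈ S K', ‖CS (be J om T q y) k‖ ^ 4 := by
    refine (sum_S_dvd (by positivity) h5 (fun k₁ => (nm (k₁ * q ^ 2) : ℝ) ^ ((2 : ℝ) / 3) *
        ‖Fy J om T q t k₁ y‖ ^ 4) fun k => by positivity).trans ?_
    rw [Finset.mul_sum]
    refine Finset.sum_le_sum fun k hk => ?_
    obtain ⟨k1, k2, k3⟩ := (mem_S hK'0).1 hk
    have nk := nmpos k2.ne_zero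
    have e1 : (nm (y.2.2.2 * k * q ^ 2) : ℝ) ^ ((2 : ℝ) / 3) =
        (γ * a ^ 2) ^ ((2 : ℝ) / 3) * (nm k : ℝ) ^ ((2 : ℝ) / 3) := by
      rw [nm_mul, nm_mul, nm_pow]
      push_cast
      rw [← Real.mul_rpow (by positivity) (by positivity)]
      congr 1
      ring
    have e3 := norm_Fy_le (om := om) (T := T) (q := q) (t := t) hJ hV0 hy
      (rfl : y.2.2.2 * k = y.2.2.2 * k) k2
    have e4 : ‖Fy J om T q t (y.2.2.2 * k) y‖ ^ 4 ≤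
        (nm k : ℝ) ^ (-(2 : ℝ) / 3) * ‖CS (be J om T q y) k‖ ^ 4 := by
      refine (pow_le_pow_left₀ (norm_nonneg _) e3 4).trans (le_of_eq ?_)
      rw [mul_pow, n6_four]
    rw [e1]
    calc (γ * a ^ 2) ^ ((2 : ℝ) / 3) * (nm k : ℝ) ^ ((2 : ℝ) / 3) *
          ‖Fy J om T q t (y.2.2.2 * k) y‖ ^ 4
        ≤ (γ * a ^ 2) ^ ((2 : ℝ) / 3) * (nm k : ℝ) ^ ((2 : ℝ) / 3) *
          ((nm k : ℝ) ^ (-(2 : ℝ) / 3) * ‖CS (be J om T q y) k‖ ^ 4) := by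
          gcongr
      _ = (γ * a ^ 2) ^ ((2 : ℝ) / 3) * (((nm k : ℝ) ^ ((2 : ℝ) / 3) *
          (nm k : ℝ) ^ (-(2 : ℝ) / 3)) * ‖CS (be J om T q y) k‖ ^ 4) := by ring
      _ = _ := by
          rw [← Real.rpow_add nk]
          norm_num
  refine s1.trans ?_
  -- trivial cases
  by_cases hK1 : K' < 1
  · have : S K' = ∅ := by
      rw [Finset.eq_empty_iff_forall_notMem]
      intro k hk
      obtain ⟨k1, k2, k3⟩ := (mem_S hK'0).1 hk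
      have : (1 : ℝ) ≤ nm k := nm_ge_one k2.ne_zero
      linarith
    rw [this, Finset.sum_empty, mul_zero]
    exact hRHS
  push Not at hK1
  by_cases hbe : ∀ n, be J om T q y n = 0
  · have : ∀ k, CS (be J om T q y) k = 0 := fun k => by unfold CS; simp [hbe]
    simp only [this]
    simpa using hRHS
  push Not at hbe
  obtain ⟨n₀, hn₀⟩ := hbe
  have hNmem : ∀ n, be J om T q y n ≠ 0 → IsPrim n ∧ Squarefree n ∧ (nm n : ℝ) ≤ N ∧ 1 ≤ N := by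
    intro n hn
    obtain ⟨g1, g2, g3, g4⟩ := be_ne hn
    have g5 := hJV _ g4
    have e1 : (nm (fq q y.2.2.1 y.2.2.2 n) : ℝ) = (a * c * γ ^ 2) * nm n := by
      unfold fq
      rw [nm_mul, nm_mul, nm_mul, nm_pow]
      push_cast
      ring
    simp only at g5
    rw [e1] at g5
    have g6 : (nm n : ℝ) ≤ N := by
      rw [hN, div_div, le_div_iff₀ (by positivity)]
      calc (nm n : ℝ) * (d ^ 2 * (a * c * γ ^ 2)) = (a * c * γ ^ 2) * nm n * d ^ 2 := by ring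
        _ ≤ V := g5
    exact ⟨g1, g2, g6, (nm_ge_one g1.ne_zero).trans g6⟩
  have hN1 : 1 ≤ N := (hNmem n₀ hn₀).2.2.2
  have hN0 : 0 ≤ N := by linarith
  have hNV : N ≤ V := by
    rw [hN, div_div]
    refine div_le_self hV0 ?_
    have h1 : (1 : ℝ) ≤ d ^ 2 := one_le_pow₀ hd1
    have h2 : (1 : ℝ) ≤ γ ^ 2 := one_le_pow₀ hg1
    have h3 : (1 : ℝ) ≤ a * c := by nlinarith
    have h4 : (1 : ℝ) ≤ a * c * γ ^ 2 := by nlinarith
    nlinarith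
  have hNN : N * N ≤ V * V := mul_le_mul hNV hNV hN0 hV0
  have hNN1 : 1 ≤ N * N := by nlinarith
  have hK'K : K' ≤ K := by
    rw [hK', div_div]
    exact div_le_self hK0 (by nlinarith [one_le_pow₀ ha1 (n := 2)])
  have key := h4 hε hC0 hC hK1 hN1 (β := be J om T q y)
    (fun n hn => (mem_S hN0).2 ⟨(hNmem n hn).2.2.1, (hNmem n hn).1, (hNmem n hn).2.1⟩)
    (T := τ) (fun u hu => hτ u (Div277.primBall_mono (Nat.floor_le_floor hNN) hu)) hτ1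
  have hS0 : 0 ≤ ∑ n ∈ S N, ‖be J om T q y n‖ ^ 2 := Finset.sum_nonneg fun _ _ => by positivity
  have w1 : 4 * ((100 * (1 + Real.log (N * N))) ^ 2 * (C * (K' * (N * N)) ^ ε) * τ ^ 2) ≤
      W4 C ε τ K V := by
    unfold W4
    have l1 : Real.log (N * N) ≤ Real.log (V * V) := Real.log_le_log (by linarith) hNN
    have l0 := Real.log_nonneg hNN1
    have l2 : K' * (N * N) ≤ K * (V * V) := mul_le_mul hK'K hNN (by positivity) hK0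
    have l3 : (K' * (N * N)) ^ ε ≤ (K * (V * V)) ^ ε := Real.rpow_le_rpow (by positivity) l2 hε
    gcongr
  have w2 : ∑ n ∈ S N, ‖be J om T q y n‖ ^ 2 ≤
      (a * c * γ ^ 2) ^ ((1 : ℝ) / 3) * ∑ n ∈ S V, hn J om T q y n := by
    rw [Finset.mul_sum]
    calc ∑ n ∈ S N, ‖be J om T q y n‖ ^ 2
        ≤ ∑ n ∈ S V, ‖be J om T q y n‖ ^ 2 := by
          refine Finset.sum_le_sum_of_subset_of_nonneg (fun n hn => ?_) fun _ _ _ => by positivity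
          obtain ⟨k1, k2, k3⟩ := (mem_S hN0).1 hn
          exact (mem_S hV0).2 ⟨k1.trans hNV, k2, k3⟩
      _ ≤ _ := Finset.sum_le_sum fun n _ => norm_be_sq_le hq.ne_zero hy3 h5.ne_zero n
  have hSV : 0 ≤ ∑ n ∈ S V, hn J om T q y n := Finset.sum_nonneg fun n _ => hn_nonneg y n
  have w2' : (∑ n ∈ S N, ‖be J om T q y n‖ ^ 2) ^ 2 ≤
      (a * c * γ ^ 2) ^ ((2 : ℝ) / 3) * (∑ n ∈ S V, hn J om T q y n) ^ 2 := by
    refine (pow_le_pow_left₀ hS0 w2 2).trans (le_of_eq ?_)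
    rw [mul_pow, ← Real.rpow_natCast ((a * c * γ ^ 2) ^ ((1 : ℝ) / 3)) 2,
      ← Real.rpow_mul (by positivity)]
    norm_num
  have w3 := alg_ineq4 (K := K) (W := V / d ^ 2) (a := a) (γ := γ) (c := c) (by linarith)
    (by positivity) ha1 hg1 hc1 hc2
  have e5 : K / (a ^ 2 * γ) = K' := by rw [hK', div_div]
  rw [e5, ← hN] at w3
  have hQ0 : 0 ≤ Q4 K' N := Q4_nonneg hK'0 hN0
  calc (γ * a ^ 2) ^ ((2 : ℝ) / 3) * ∑ k ∈ S K', ‖CS (be J om T q y) k‖ ^ 4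
      ≤ (γ * a ^ 2) ^ ((2 : ℝ) / 3) * (W4 C ε τ K V * (Q4 K' N *
          ((a * c * γ ^ 2) ^ ((2 : ℝ) / 3) * (∑ n ∈ S V, hn J om T q y n) ^ 2))) := by
        refine mul_le_mul_of_nonneg_left (key.trans ?_) (by positivity)
        exact mul_le_mul w1 (mul_le_mul_of_nonneg_left w2' hQ0) (by positivity) hW0
    _ = W4 C ε τ K V * ((γ * a ^ 2) ^ ((2 : ℝ) / 3) * (a * c * γ ^ 2) ^ ((2 : ℝ) / 3) *
        Q4 K' N) * (∑ n ∈ S V, hn J om T q y n) ^ 2 := by ring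
    _ ≤ W4 C ε τ K V * (9 * Q4 K (V / d ^ 2)) * (∑ n ∈ S V, hn J om T q y n) ^ 2 := by
        refine mul_le_mul_of_nonneg_right ?_ (by positivity)
        exact mul_le_mul_of_nonneg_left w3 hW0
    _ = _ := by ring

set_option maxHeartbeats 4000000 in
/-- with explicit parameters -/
lemma gram4_0 {ε C : ℝ} (hε : 0 ≤ ε) (hC0 : 0 ≤ C) (hC : ∀ M N : ℝ, 1 ≤ M → 1 ≤ N →
    HB M N (C * (M * N) ^ ε * (M + N + (M * N) ^ ((2 : ℝ) / 3)))) {K V : ℝ} (hK : 1 ≤ K)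
    (hV : 1 ≤ V) (hJ : OKJ J)
    (hJV : ∀ x ∈ J, (nm x.2 : ℝ) * (nm x.1 : ℝ) ^ 2 ≤ V) {E0 : ℝ}
    (ht : IsPrim t) {τ Z : ℝ}
    (hZ : K ^ 2 * nm t ≤ Z) (hZV : V * V ≤ Z)
    (hτ : ∀ u : Eis, u ≠ 0 → (nm u : ℝ) ≤ Z → (tau u : ℝ) ≤ τ) (hτ1 : 1 ≤ τ) :
    ∑ k ∈ (primBall ⌊K⌋₊).filter CbF, (nm k : ℝ) ^ ((2 : ℝ) / 3) *
      ‖SteT J om E0 T (k * t ^ 3)‖ ^ 4 ≤
      ((100 * (1 + Real.log V)) * (4 * τ ^ 2)) ^ 2 * (9 * W4 C ε τ K V) * (4 * τ ^ 2) ^ 2 *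
        (∑ x ∈ J, (nm x.1 : ℝ) * Q4 K (V / (nm x.1 : ℝ) ^ 2) ^ ((1 : ℝ) / 2) *
          ((nm x.2 : ℝ) ^ (-(1 : ℝ) / 3) *
            (‖om x‖ ^ 2 * ∑ e ∈ S E0, ‖T x.1 e x.2‖ ^ 2))) ^ 2 := by
  have hτ0 : 0 ≤ τ := by linarith
  have hV0 : 0 ≤ V := by linarith
  have hK0 : 0 ≤ K := by linarith
  have hlogV := Real.log_nonneg hV
  have hVV1 : 1 ≤ V * V := by nlinarith
  have hlogVV := Real.log_nonneg hVV1
  have nt : (1 : ℝ) ≤ nm t := nm_ge_one ht.ne_zero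
  have hW0 : 0 ≤ W4 C ε τ K V := by unfold W4; positivity
  have hR : ∀ x ∈ J, (nm x.2 : ℝ) ≤ V := fun x hx => by
    have h1 := hJV x hx
    have h2 : (1 : ℝ) ≤ nm x.1 := nm_ge_one (hJ.prim x hx).ne_zero
    have h3 : (0 : ℝ) ≤ nm x.2 := Nat.cast_nonneg _
    have h4 : (1 : ℝ) ≤ (nm x.1 : ℝ) ^ 2 := one_le_pow₀ h2
    nlinarith
  have hD : ∀ x ∈ J, (nm x.1 : ℝ) ≤ V := fun x hx => by
    have h1 := hJV x hx
    have h2 : (1 : ℝ) ≤ nm x.1 := nm_ge_one (hJ.prim x hx).ne_zero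
    have h3 : (1 : ℝ) ≤ nm x.2 := nm_ge_one (JC_ne (hJ.jc x hx))
    nlinarith
  have hQx : ∀ d : ℝ, 0 ≤ Q4 K (V / d ^ 2) := fun d => Q4_nonneg hK0 (by positivity)
  set L : ℝ := (100 * (1 + Real.log V)) * (4 * τ ^ 2) with hL
  have hL0 : 0 ≤ L := by positivity
  set G : Eis → ℝ := fun k => (nm k : ℝ) ^ ((2 : ℝ) / 3) *
      ‖SteT J om E0 T (k * t ^ 3)‖ ^ 4 with hG
  have hG0 : ∀ k, 0 ≤ G k := fun k => by rw [hG]; positivity
  -- step 1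
  have s1 : ∑ k ∈ (primBall ⌊K⌋₊).filter CbF, G k ≤ ∑ q ∈ S K,
      ∑ k₁ ∈ (S (K / (nm q : ℝ) ^ 2)).filter (fun k => IsCoprime k q), G (k₁ * q ^ 2) :=
    sum_CbF hK G hG0
  set w9 : ℝ := (9 * W4 C ε τ K V) ^ ((1 : ℝ) / 2) with hw9
  have hw90 : 0 ≤ w9 := by positivity
  have hw9sq : w9 ^ 2 = 9 * W4 C ε τ K V := by
    rw [hw9, ← Real.rpow_natCast, ← Real.rpow_mul (by positivity)]
    norm_num
  have hQsq : ∀ d : ℝ, (Q4 K (V / d ^ 2) ^ ((1 : ℝ) / 2)) ^ 2 = Q4 K (V / d ^ 2) := fun d => by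
    rw [← Real.rpow_natCast, ← Real.rpow_mul (hQx d)]
    norm_num
  set cy : Eis → Yp → ℝ := fun q y => (nm y.1 : ℝ) *
    (w9 * Q4 K (V / (nm y.1 : ℝ) ^ 2) ^ ((1 : ℝ) / 2) * ∑ n ∈ S V, hn J om T q y n) with hcy
  have hcy0 : ∀ q y, 0 ≤ cy q y := fun q y => by
    rw [hcy]
    have h1 : 0 ≤ ∑ n ∈ S V, hn J om T q y n := Finset.sum_nonneg fun n _ => hn_nonneg y n
    have h2 := Real.rpow_nonneg (hQx (nm y.1)) ((1 : ℝ) / 2)
    positivity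
  -- step 2
  have s2 : ∀ q ∈ S K, ∑ k₁ ∈ (S (K / (nm q : ℝ) ^ 2)).filter (fun k => IsCoprime k q),
      G (k₁ * q ^ 2) ≤ L ^ 2 * (∑ y ∈ Ys J E0 V, cy q y) ^ 2 := by
    intro q hq
    obtain ⟨hq1, hqp, hqs⟩ := (mem_S hK0).1 hq
    have nq : (1 : ℝ) ≤ nm q := nm_ge_one hqp.ne_zero
    have hKq : 0 ≤ K / (nm q : ℝ) ^ 2 := by positivity
    set ay : Yp → Eis → ℝ := fun y k₁ => if y.2.2.2 ∣ k₁ then (nm y.1 : ℝ) *
      ((nm (k₁ * q ^ 2) : ℝ) ^ ((1 : ℝ) / 3) * ‖Fy J om T q t k₁ y‖ ^ 2) else 0 with hay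
    have hay0 : ∀ y k, 0 ≤ ay y k := fun y k => by
      rw [hay]
      simp only
      split_ifs <;> positivity
    have p1 : ∀ k₁ ∈ (S (K / (nm q : ℝ) ^ 2)).filter (fun k => IsCoprime k q),
        G (k₁ * q ^ 2) ≤ L ^ 2 * (∑ y ∈ Ys J E0 V, ay y k₁) ^ 2 := by
      intro k₁ hk
      rw [Finset.mem_filter, mem_S hKq] at hk
      obtain ⟨⟨k1, k2, k3⟩, k4⟩ := hk
      have nk : (1 : ℝ) ≤ nm k₁ := nm_ge_one k2.ne_zero
      have k1' : (nm k₁ : ℝ) * (nm q : ℝ) ^ 2 ≤ K := by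
        rwa [le_div_iff₀ (by positivity)] at k1
      have kK : (nm k₁ : ℝ) ≤ K := by nlinarith [one_le_pow₀ nq (n := 2)]
      have z1 : (nm k₁ : ℝ) ≤ Z := by
        refine le_trans ?_ hZ
        calc (nm k₁ : ℝ) ≤ K := kK
          _ ≤ K ^ 2 := by nlinarith
          _ ≤ K ^ 2 * nm t := by nlinarith [sq_nonneg K]
      have z2 : (nm (k₁ * q * t) : ℝ) ≤ Z := by
        refine le_trans ?_ hZ
        rw [nm_mul, nm_mul]
        push_cast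
        refine mul_le_mul_of_nonneg_right ?_ (by positivity)
        rw [pow_two]
        exact mul_le_mul kK hq1 (by positivity) hK0
      have hc := pt_cauchy (om := om) (T := T) (q := q) (t := t) hJ hV hR hD E0 k2 k3 hqp hqs k4
        ht hτ0 (hτ _ k2.ne_zero z1) (hτ _ ((k2.mul hqp).mul ht).ne_zero z2)
      have e1 : ∑ y ∈ Ys J E0 V, ay y k₁ = (nm (k₁ * q ^ 2) : ℝ) ^ ((1 : ℝ) / 3) *
          ∑ y ∈ (Ys J E0 V).filter (fun y => y.2.2.2 ∣ k₁), (nm y.1 : ℝ) *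
            ‖Fy J om T q t k₁ y‖ ^ 2 := by
        rw [Finset.sum_filter, Finset.mul_sum]
        refine Finset.sum_congr rfl fun y _ => ?_
        rw [hay]
        simp only
        split_ifs <;> ring
      have e2 : ((nm (k₁ * q ^ 2) : ℝ) ^ ((1 : ℝ) / 3)) ^ 2 =
          (nm (k₁ * q ^ 2) : ℝ) ^ ((2 : ℝ) / 3) := by
        rw [← Real.rpow_natCast, ← Real.rpow_mul (Nat.cast_nonneg _)]
        norm_num
      have e3 : G (k₁ * q ^ 2) = (nm (k₁ * q ^ 2) : ℝ) ^ ((2 : ℝ) / 3) *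
          (‖SteT J om E0 T (k₁ * q ^ 2 * t ^ 3)‖ ^ 2) ^ 2 := by
        rw [hG]
        simp only
        ring
      have h3 := pow_le_pow_left₀ (sq_nonneg _) hc 2
      rw [e3, e1]
      set Sy := ∑ y ∈ (Ys J E0 V).filter (fun y => y.2.2.2 ∣ k₁), (nm y.1 : ℝ) *
              ‖Fy J om T q t k₁ y‖ ^ 2 with hSy
      calc (nm (k₁ * q ^ 2) : ℝ) ^ ((2 : ℝ) / 3) *
            (‖SteT J om E0 T (k₁ * q ^ 2 * t ^ 3)‖ ^ 2) ^ 2
          ≤ (nm (k₁ * q ^ 2) : ℝ) ^ ((2 : ℝ) / 3) * (L * Sy) ^ 2 :=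
            mul_le_mul_of_nonneg_left h3 (by positivity)
        _ = ((nm (k₁ * q ^ 2) : ℝ) ^ ((1 : ℝ) / 3)) ^ 2 * (L * Sy) ^ 2 := by rw [e2]
        _ = _ := by ring
    calc ∑ k₁ ∈ (S (K / (nm q : ℝ) ^ 2)).filter (fun k => IsCoprime k q), G (k₁ * q ^ 2)
        ≤ ∑ k₁ ∈ (S (K / (nm q : ℝ) ^ 2)).filter (fun k => IsCoprime k q),
            L ^ 2 * (∑ y ∈ Ys J E0 V, ay y k₁) ^ 2 := Finset.sum_le_sum p1
      _ ≤ ∑ k₁ ∈ S (K / (nm q : ℝ) ^ 2), L ^ 2 * (∑ y ∈ Ys J E0 V, ay y k₁) ^ 2 :=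
          Finset.sum_le_sum_of_subset_of_nonneg (Finset.filter_subset _ _)
            fun _ _ _ => by positivity
      _ = L ^ 2 * ∑ k₁ ∈ S (K / (nm q : ℝ) ^ 2), (∑ y ∈ Ys J E0 V, ay y k₁) ^ 2 := by
          rw [Finset.mul_sum]
      _ ≤ L ^ 2 * (∑ y ∈ Ys J E0 V, cy q y) ^ 2 := by
          refine mul_le_mul_of_nonneg_left ?_ (by positivity)
          refine mink _ _ ay (cy q) (fun y _ => hcy0 q y) fun y hy => ?_
          have h1 := one_y4 (om := om) (T := T) (t := t) hε hC0 hC hK hV hJ hJV hqp hy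
            (fun u hu => by
              obtain ⟨u1, u2⟩ := mem_primBall.mp hu
              exact hτ u u2.ne_zero (((Nat.le_floor_iff (by positivity)).mp u1).trans hZV)) hτ1
          have e1 : ∑ k ∈ S (K / (nm q : ℝ) ^ 2), ay y k ^ 2 = (nm y.1 : ℝ) ^ 2 *
              ∑ k₁ ∈ (S (K / (nm q : ℝ) ^ 2)).filter (fun k => y.2.2.2 ∣ k),
                (nm (k₁ * q ^ 2) : ℝ) ^ ((2 : ℝ) / 3) * ‖Fy J om T q t k₁ y‖ ^ 4 := by
            rw [Finset.sum_filter, Finset.mul_sum]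
            refine Finset.sum_congr rfl fun k _ => ?_
            rw [hay]
            simp only
            split_ifs
            · have e2 : ((nm (k * q ^ 2) : ℝ) ^ ((1 : ℝ) / 3)) ^ 2 =
                  (nm (k * q ^ 2) : ℝ) ^ ((2 : ℝ) / 3) := by
                rw [← Real.rpow_natCast, ← Real.rpow_mul (Nat.cast_nonneg _)]
                norm_num
              rw [mul_pow, mul_pow, e2]
              ring
            · ring
          rw [e1]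
          refine (mul_le_mul_of_nonneg_left h1 (by positivity)).trans (le_of_eq ?_)
          rw [hcy]
          simp only
          rw [mul_pow, mul_pow, mul_pow, hQsq, hw9sq]
  -- step 3
  have s3 : ∑ q ∈ S K, L ^ 2 * (∑ y ∈ Ys J E0 V, cy q y) ^ 2 ≤
      L ^ 2 * (∑ q ∈ S K, ∑ y ∈ Ys J E0 V, cy q y) ^ 2 := by
    rw [← Finset.mul_sum]
    exact mul_le_mul_of_nonneg_left (sum_sq_le _ _ fun q _ =>
      Finset.sum_nonneg fun y _ => hcy0 q y) (by positivity)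
  refine s1.trans ((Finset.sum_le_sum s2).trans (s3.trans ?_))
  -- step 4
  set Ph : Eis → Eis × Eis → ℝ := fun e x => (nm x.1 : ℝ) *
    Q4 K (V / (nm x.1 : ℝ) ^ 2) ^ ((1 : ℝ) / 2) *
    ((nm x.2 : ℝ) ^ (-(1 : ℝ) / 3) * (‖om x‖ ^ 2 * ‖T x.1 e x.2‖ ^ 2)) with hPh
  have hPh0 : ∀ e x, 0 ≤ Ph e x := fun e x => by
    rw [hPh]
    have := Real.rpow_nonneg (hQx (nm x.1)) ((1 : ℝ) / 2)
    positivity
  have e3 : ∀ q, ∑ y ∈ Ys J E0 V, cy q y =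
      w9 * ∑ e ∈ S E0, ∑ d ∈ J.image Prod.fst, ∑ c ∈ Cs, ∑ g ∈ S V,
        ∑ n ∈ S V, (if (d, fq q c g n) ∈ J then Ph e (d, fq q c g n) else 0) := by
    intro q
    unfold Ys
    simp only [Finset.sum_product]
    rw [Finset.sum_comm, Finset.mul_sum]
    refine Finset.sum_congr rfl fun e _ => ?_
    rw [Finset.mul_sum]
    refine Finset.sum_congr rfl fun d _ => ?_
    rw [Finset.mul_sum]
    refine Finset.sum_congr rfl fun c _ => ?_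
    rw [Finset.mul_sum]
    refine Finset.sum_congr rfl fun g _ => ?_
    simp only [hcy]
    rw [Finset.mul_sum, Finset.mul_sum, Finset.mul_sum]
    refine Finset.sum_congr rfl fun n _ => ?_
    unfold hn
    simp only [hPh]
    split_ifs <;> ring
  have e4 : ∑ q ∈ S K, ∑ y ∈ Ys J E0 V, cy q y ≤ w9 * (4 * τ ^ 2) *
      ∑ x ∈ J, (nm x.1 : ℝ) * Q4 K (V / (nm x.1 : ℝ) ^ 2) ^ ((1 : ℝ) / 2) *
          ((nm x.2 : ℝ) ^ (-(1 : ℝ) / 3) *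
            (‖om x‖ ^ 2 * ∑ e ∈ S E0, ‖T x.1 e x.2‖ ^ 2)) := by
    simp only [e3]
    rw [← Finset.mul_sum, Finset.sum_comm, mul_assoc w9]
    refine mul_le_mul_of_nonneg_left ?_ hw90
    calc ∑ e ∈ S E0, ∑ q ∈ S K, ∑ d ∈ J.image Prod.fst,
        ∑ c ∈ Cs, ∑ g ∈ S V, ∑ n ∈ S V,
          (if (d, fq q c g n) ∈ J then Ph e (d, fq q c g n) else 0)
        ≤ ∑ e ∈ S E0, 4 * τ ^ 2 * ∑ x ∈ J, Ph e x := by
          refine Finset.sum_le_sum fun e _ => ?_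
          refine sum_fq hJ (fun q hq => ((mem_S hK0).1 hq).2.1)
            (fun g hg => ((mem_S hV0).1 hg).2.1) hτ0 (fun x hx => ?_) (Ph e) (hPh0 e)
          refine hτ _ (JC_ne (hJ.jc x hx)) ((hR x hx).trans ?_)
          exact le_trans (by nlinarith) hZV
      _ = _ := by
          rw [← Finset.mul_sum, Finset.sum_comm]
          congr 1
          refine Finset.sum_congr rfl fun x _ => ?_
          simp only [hPh]
          rw [Finset.mul_sum, Finset.mul_sum, Finset.mul_sum]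
  have h0 : 0 ≤ ∑ q ∈ S K, ∑ y ∈ Ys J E0 V, cy q y :=
    Finset.sum_nonneg fun q _ => Finset.sum_nonneg fun y _ => hcy0 q y
  refine (mul_le_mul_of_nonneg_left (pow_le_pow_left₀ h0 e4 2) (by positivity)).trans
    (le_of_eq ?_)
  rw [← hw9sq]
  ring

lemma final4 {A0 C1 C2 P6 Y LX LV τ W : ℝ} (hA : A0 = 36 * 256 * 16 * C1 * (1 + C2) ^ 10 * P6)
    (h1 : 0 ≤ C1) (h2 : 0 ≤ 1 + C2) (h3 : 0 ≤ P6) (hY : 0 ≤ Y) (hLV : 0 ≤ LV)
    (hW0 : 0 ≤ W) (hτ : τ = (1 + C2) * Y ^ 3) (a1 : LV ≤ LX)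
    (b1 : W ≤ 4 * ((2 * LX) ^ 2 * (C1 * Y ^ 3) * τ ^ 2)) (b2 : LX ^ 4 ≤ P6 * Y) :
    (LV * (4 * τ ^ 2)) ^ 2 * (9 * W) * (4 * τ ^ 2) ^ 2 ≤ A0 * Y ^ 34 := by
  have hτ0 : 0 ≤ τ := by rw [hτ]; positivity
  have e1 : (LV * (4 * τ ^ 2)) ^ 2 ≤ (LX * (4 * τ ^ 2)) ^ 2 :=
    pow_le_pow_left₀ (by positivity) (mul_le_mul_of_nonneg_right a1 (by positivity)) 2
  have e2 : 9 * W ≤ 9 * (4 * ((2 * LX) ^ 2 * (C1 * Y ^ 3) * τ ^ 2)) := by linarith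
  calc (LV * (4 * τ ^ 2)) ^ 2 * (9 * W) * (4 * τ ^ 2) ^ 2
      ≤ (LX * (4 * τ ^ 2)) ^ 2 * (9 * (4 * ((2 * LX) ^ 2 * (C1 * Y ^ 3) * τ ^ 2))) *
        (4 * τ ^ 2) ^ 2 :=
        mul_le_mul_of_nonneg_right (mul_le_mul e1 e2 (by linarith) (by positivity))
          (by positivity)
    _ = 36 * 4 * 256 * C1 * τ ^ 10 * Y ^ 3 * LX ^ 4 := by ring
    _ ≤ 36 * 4 * 256 * C1 * τ ^ 10 * Y ^ 3 * (P6 * Y) :=
        mul_le_mul_of_nonneg_left b2 (by positivity)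
    _ = 36 * 4 * 256 * C1 * (1 + C2) ^ 10 * P6 * Y ^ 34 := by rw [hτ]; ring
    _ ≤ A0 * Y ^ 34 := by
        have : 0 ≤ C1 * (1 + C2) ^ 10 * P6 * Y ^ 34 := by positivity
        rw [hA]
        nlinarith

set_option maxHeartbeats 2000000 in
/-- **the fourth moment of the structured function at a fixed cube** (helper47's `gram4`) -/
theorem gram4 {ε : ℝ} (hε : 0 < ε) : ∃ C : ℝ, 0 < C ∧ ∀ X K V : ℝ,
    1 ≤ K → 1 ≤ V → K ≤ X → V ≤ X →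
    ∀ (J : Finset (Eis × Eis)) (om : Eis × Eis → ℂ) (T : Eis → Eis → Eis → ℂ) (E0 : ℝ) (t : Eis),
      OKJ J → (∀ x ∈ J, (nm x.2 : ℝ) * (nm x.1 : ℝ) ^ 2 ≤ V) → IsPrim t → (nm t : ℝ) ≤ X →
    ∑ k ∈ (primBall ⌊K⌋₊).filter CbF, (nm k : ℝ) ^ ((2 : ℝ) / 3) *
      ‖SteT J om E0 T (k * t ^ 3)‖ ^ 4 ≤
      C * X ^ ε * (∑ x ∈ J, (nm x.1 : ℝ) * Q4 K (V / (nm x.1 : ℝ) ^ 2) ^ ((1 : ℝ) / 2) *
        ((nm x.2 : ℝ) ^ (-(1 : ℝ) / 3) *
          (‖om x‖ ^ 2 * ∑ e ∈ S E0, ‖T x.1 e x.2‖ ^ 2))) ^ 2 := by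
  set η : ℝ := ε / 34 with hη
  have hη0 : 0 < η := by positivity
  obtain ⟨C1, hC1, hHB⟩ := LS2.hb_final η hη0
  obtain ⟨C2, hC2, hτ⟩ := tau_le_rpow hη0
  have hC20 : 0 < C2 := by linarith
  set P6 : ℝ := (100 * (1 + ((4 : ℕ) : ℝ) / η)) ^ 4 with hP6
  have hP60 : 0 < P6 := by positivity
  refine ⟨36 * 256 * 16 * C1 * (1 + C2) ^ 10 * P6, by positivity, ?_⟩
  intro X K V hK hV hKX hVX J om T E0 t hJ hJV ht htX
  have hX : 1 ≤ X := hK.trans hKX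
  have hX0 : 0 < X := by linarith
  have nt0 : (0 : ℝ) ≤ nm t := Nat.cast_nonneg _
  have hZ : K ^ 2 * nm t ≤ X ^ 3 := by
    calc K ^ 2 * nm t ≤ X ^ 2 * X := mul_le_mul (pow_le_pow_left₀ (by linarith) hKX 2) htX nt0
          (by positivity)
      _ = X ^ 3 := by ring
  have hVV : V * V ≤ X ^ 2 := by
    rw [pow_two]
    exact mul_le_mul hVX hVX (by linarith) hX0.le
  have hZV : V * V ≤ X ^ 3 := hVV.trans (pow_le_pow_right₀ hX (by norm_num))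
  set Y : ℝ := X ^ η with hY
  have hY0 : 0 < Y := by positivity
  have hY1 : 1 ≤ Y := Real.one_le_rpow hX hη0.le
  have hY3 : (X ^ 3) ^ η = Y ^ 3 := by
    rw [hY, ← Real.rpow_natCast X 3, ← Real.rpow_mul hX0.le, ← Real.rpow_natCast (X ^ η) 3,
      ← Real.rpow_mul hX0.le]
    congr 1
    ring
  set τ : ℝ := (1 + C2) * Y ^ 3 with hτd
  have hτ1 : 1 ≤ τ := by
    have h1 : 1 ≤ Y ^ 3 := one_le_pow₀ hY1
    nlinarith
  have hτ' : ∀ u : Eis, u ≠ 0 → (nm u : ℝ) ≤ X ^ 3 → (tau u : ℝ) ≤ τ := by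
    intro u hu huX
    refine (hτ u hu).trans ?_
    rw [hτd, ← hY3]
    exact mul_le_mul (by linarith) (Real.rpow_le_rpow (Nat.cast_nonneg _) huX hη0.le)
      (Real.rpow_nonneg (Nat.cast_nonneg _) _) (by positivity)
  refine (gram4_0 (om := om) (T := T) (E0 := E0) hη0.le hC1.le hHB hK hV hJ hJV ht
    hZ hZV hτ' hτ1).trans ?_
  set Sx : ℝ := ∑ x ∈ J, (nm x.1 : ℝ) * Q4 K (V / (nm x.1 : ℝ) ^ 2) ^ ((1 : ℝ) / 2) *
        ((nm x.2 : ℝ) ^ (-(1 : ℝ) / 3) *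
          (‖om x‖ ^ 2 * ∑ e ∈ S E0, ‖T x.1 e x.2‖ ^ 2)) with hSx
  set LX : ℝ := 100 * (1 + Real.log X) with hLX
  have lX := Real.log_nonneg hX
  have lV := Real.log_nonneg hV
  have lVV : 0 ≤ Real.log (V * V) := Real.log_nonneg (by nlinarith)
  have l1 : Real.log V ≤ Real.log X := Real.log_le_log (by linarith) hVX
  have l3 : Real.log (V * V) ≤ 2 * Real.log X := by
    rw [Real.log_mul (by linarith) (by linarith)]; linarith
  have a1 : 100 * (1 + Real.log V) ≤ LX := by rw [hLX]; linarith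
  have a3 : 100 * (1 + Real.log (V * V)) ≤ 2 * LX := by rw [hLX]; linarith
  have a4 : (K * (V * V)) ^ η ≤ Y ^ 3 := by
    rw [← hY3]
    refine Real.rpow_le_rpow (by positivity) ?_ hη0.le
    calc K * (V * V) ≤ X * X ^ 2 := mul_le_mul hKX hVV (by positivity) hX0.le
      _ = X ^ 3 := by ring
  have hLX0 : 0 ≤ LX := by positivity
  have b1 : W4 C1 η τ K V ≤ 4 * ((2 * LX) ^ 2 * (C1 * Y ^ 3) * τ ^ 2) := by
    unfold W4
    gcongr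
  have b2 : LX ^ 4 ≤ P6 * Y := by
    have h1 := poly_log_le 4 hX hη0
    rw [hLX]
    exact h1
  have b3 : X ^ ε = Y ^ 34 := by
    rw [hY, ← Real.rpow_natCast (X ^ η) 34, ← Real.rpow_mul hX0.le]
    congr 1
    rw [hη]; push_cast; ring
  have hW0 : 0 ≤ W4 C1 η τ K V := by unfold W4; positivity
  have hτ0 : 0 ≤ τ := by linarith
  rw [b3]
  refine mul_le_mul_of_nonneg_right ?_ (sq_nonneg Sx)
  exact final4 rfl hC1.le (by linarith) hP60.le hY0.le (by positivity) hW0 hτd a1 b1 b2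

end Crest.Agent.R017.GH490
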