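import Crest.Agent.R017.E3P5_842
import Crest.Agent.R012.LS2Main_381

/-!
# Row 17, R8: Gram sums by the cubic large sieve, part 1 (helper842)

`prod_hb` : the large sieve for a product `CS β k · CS b k`, `β` supported on squarefree numbers,
`b` supported on arbitrary primary numbers:
`∑_{k ∈ S K} ‖CS β k · CS b k‖² ≤ C X^ε Mb (K + N B + (K N B)^{2/3}) ∑ ‖β‖²`, when
`∑_d ‖b (s d)‖² ≤ Mb / nm s` for all `s`.
-/

set_option autoImplicit false
set_option maxHeartbeats 400000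

noncomputable section

open Complex
open scoped ComplexConjugate Classical

namespace Crest.Agent.R017.GHB842

open Crest.Agent.R012 Crest.Agent.R012.Eis
open Crest.Agent.R012.LS2 (S mem_S HB Final)
open Crest.Agent.R012.Div277 (dvs mem_dvs isPrim_of_mem_dvs dvd_of_mem_dvs tau tau_le_rpow
  sum_primBall_dvs sum_inv_primBall_le)
open Crest.Agent.R017.CM106 (CS)
open Crest.Agent.R017.PX764 (norm_sy_le')
open Crest.Agent.R017.E1551 (nmpos CS_fin nm_ge_one)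
open Crest.Agent.R017.E3P842
open Gauss880 (syG)

/-- the sequence of the common part `s` -/
def ga (β b : Eis → ℂ) (s u : Eis) : ℂ :=
  ∑ a ∈ dvs u, b (s * a) * ua β (s * a) s (u / a)

lemma ga_ne {N B : ℝ} (hN : 0 ≤ N) (hB : 0 ≤ B) {β b : Eis → ℂ} (hβ : ∀ n, β n ≠ 0 → n ∈ S N)
    (hb : ∀ n, b n ≠ 0 → n ∈ S B) {s u : Eis} (hs : IsPrim s) (h : ga β b s u ≠ 0) :
    IsPrim u ∧ Squarefree u ∧ (nm s : ℝ) ^ 2 * nm u ≤ N * B := by
  unfold ga at h
  obtain ⟨a, ha, hne⟩ := Finset.exists_ne_zero_of_sum_ne_zero h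
  have hap := isPrim_of_mem_dvs ha
  have h1 := (mem_S hB).1 (hb _ (left_ne_zero_of_mul hne))
  obtain ⟨h2, h3⟩ := ua_ne (right_ne_zero_of_mul hne)
  have h4 := (mem_S hN).1 (hβ _ h3)
  have hu : u = a * (u / a) := (EuclideanDomain.mul_div_cancel' hap.ne_zero
    (dvd_of_mem_dvs ha)).symm
  set m := u / a with hm
  have hmp : IsPrim m := IsPrim.of_mul_left h4.2.1 hs
  refine ⟨hu ▸ hap.mul hmp, ?_, ?_⟩
  · rw [hu]
    refine squarefree_mul_iff.mpr ⟨?_, h1.2.2.squarefree_of_dvd (dvd_mul_left _ _),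
      h4.2.2.squarefree_of_dvd (dvd_mul_left _ _)⟩
    exact (IsCoprime.of_mul_right_right h2).symm.isRelPrime
  · have g1 : (nm s : ℝ) * nm a ≤ B := by
      have := h1.1; rw [nm_mul] at this; push_cast at this; exact this
    have g2 : (nm s : ℝ) * nm m ≤ N := by
      have := h4.1; rw [nm_mul] at this; push_cast at this; exact this
    rw [hu, nm_mul]
    push_cast
    calc (nm s : ℝ) ^ 2 * (nm a * nm m) = (nm s * nm m) * (nm s * nm a) := by ring
      _ ≤ N * B := mul_le_mul g2 g1 (by positivity) hN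

/-- **product identity** -/
theorem prod_eq {N B : ℝ} (hN : 1 ≤ N) (hB : 1 ≤ B) {β b : Eis → ℂ}
    (hβ : ∀ n, β n ≠ 0 → n ∈ S N) (hb : ∀ n, b n ≠ 0 → n ∈ S B) (k : Eis) :
    CS β k * CS b k = ∑ s ∈ primBall ⌊N * B⌋₊, conj (sy k s) *
      ∑ u ∈ primBall ⌊N * B⌋₊, ga β b s u * sy k u := by
  have hN0 : 0 ≤ N := by linarith
  have hB0 : 0 ≤ B := by linarith
  set Y := ⌊N * B⌋₊ with hY
  have hNB : B ≤ N * B := by nlinarith
  have hNN : N ≤ N * B := by nlinarith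
  have hbY : ∀ n, b n ≠ 0 → n ∈ primBall Y := fun n hn => by
    have h := (mem_S hB0).1 (hb n hn)
    rw [mem_primBall]
    exact ⟨Nat.le_floor (h.1.trans hNB), h.2.1⟩
  have hβY : ∀ n, β n ≠ 0 → n ∈ primBall Y := fun n hn => by
    have h := (mem_S hN0).1 (hβ n hn)
    rw [mem_primBall]
    exact ⟨Nat.le_floor (h.1.trans hNN), h.2.1⟩
  have e1 : CS b k = ∑ a ∈ primBall Y, b a * sy k a := by
    unfold CS
    refine tsum_eq_sum fun n hn => ?_
    by_contra h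
    exact hn (hbY n (left_ne_zero_of_mul h))
  have e2 : CS β k * CS b k = ∑ a ∈ primBall Y, ∑ s ∈ dvs a,
      b a * (sy k (a / s) * conj (sy k s) * CS (ua β a s) k) := by
    rw [e1, Finset.mul_sum]
    refine Finset.sum_congr rfl fun a ha => ?_
    have hap := (mem_primBall.mp ha).2
    rw [← Finset.mul_sum, ← sy_mul_CS hβ hN0 hap]
    ring
  rw [e2, sum_primBall_dvs Y fun s a => b a * (sy k (a / s) * conj (sy k s) * CS (ua β a s) k)]
  refine Finset.sum_congr rfl fun s hs => ?_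
  obtain ⟨hsY, hsp⟩ := mem_primBall.mp hs
  have hs0 := hsp.ne_zero
  -- the inner sum
  have e3 : ∑ u ∈ primBall Y, ga β b s u * sy k u =
      ∑ d ∈ primBall Y, ∑ m ∈ primBall (Y / nm d), b (s * d) * ua β (s * d) s m * sy k (d * m) := by
    have : ∀ u ∈ primBall Y, ga β b s u * sy k u =
        ∑ a ∈ dvs u, b (s * a) * ua β (s * a) s (u / a) * sy k u := fun u _ => by
      unfold ga; rw [Finset.sum_mul]
    rw [Finset.sum_congr rfl this,
      sum_primBall_dvs Y fun a u => b (s * a) * ua β (s * a) s (u / a) * sy k u]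
    refine Finset.sum_congr rfl fun d hd => Finset.sum_congr rfl fun m _ => ?_
    have hd0 := (mem_primBall.mp hd).2.ne_zero
    simp only [mul_div_cancel_left₀ m hd0]
  rw [e3, Finset.mul_sum]
  have hsub : primBall (Y / nm s) ⊆ primBall Y :=
    Div277.primBall_mono (Nat.div_le_self _ _)
  rw [Finset.sum_subset hsub]
  · refine Finset.sum_congr rfl fun d hd => ?_
    obtain ⟨hdY, hdp⟩ := mem_primBall.mp hd
    rw [mul_div_cancel_left₀ d hs0]
    have e4 : CS (ua β (s * d) s) k = ∑ m ∈ primBall (Y / nm d), ua β (s * d) s m * sy k m ∨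
        b (s * d) = 0 := by
      by_cases hbd : b (s * d) = 0
      · exact Or.inr hbd
      · left
        unfold CS
        refine tsum_eq_sum fun m hm => ?_
        by_contra h
        apply hm
        obtain ⟨-, h2⟩ := ua_ne (left_ne_zero_of_mul h)
        have h3 := (mem_S hN0).1 (hβ _ h2)
        have h4 := (mem_S hB0).1 (hb _ hbd)
        have hmp : IsPrim m := IsPrim.of_mul_left h3.2.1 hsp
        rw [mem_primBall]
        refine ⟨?_, hmp⟩
        rw [Nat.le_div_iff_mul_le (nm_pos.mpr hdp.ne_zero)]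
        refine Nat.le_floor ?_
        have n0 : (1 : ℝ) ≤ nm s := nm_ge_one hs0
        have n1 := nmpos hmp.ne_zero
        have n2 := nmpos hdp.ne_zero
        have g1 : (nm s : ℝ) * nm d ≤ B := by
          have := h4.1; rw [nm_mul] at this; push_cast at this; exact this
        have g2 : (nm s : ℝ) * nm m ≤ N := by
          have := h3.1; rw [nm_mul] at this; push_cast at this; exact this
        push_cast
        calc (nm m : ℝ) * nm d ≤ (nm s * nm m) * (nm s * nm d) := by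
              have h5 : (nm m : ℝ) ≤ nm s * nm m := by nlinarith
              have h6 : (nm d : ℝ) ≤ nm s * nm d := by nlinarith
              exact mul_le_mul h5 h6 n2.le (by positivity)
          _ ≤ N * B := mul_le_mul g2 g1 (by positivity) hN0
    rcases e4 with e4 | e4
    · rw [e4, Finset.mul_sum, Finset.mul_sum, Finset.mul_sum]
      refine Finset.sum_congr rfl fun m hm => ?_
      rw [syG.mul_right _ _ _ hdp (mem_primBall.mp hm).2]
      ring
    · simp [e4]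
  · intro d hd hdn
    have h0 : b (s * d) = 0 := by
      by_contra hne
      apply hdn
      have hdp := (mem_primBall.mp hd).2
      have h := mem_primBall.mp (hbY _ hne)
      rw [mem_primBall]
      refine ⟨?_, hdp⟩
      rw [Nat.le_div_iff_mul_le (nm_pos.mpr hs0), mul_comm]
      rw [← nm_mul]
      exact h.1
    rw [h0]
    ring


/-! ### the large sieve for the product -/

lemma cauchy_w {P : Finset Eis} (hP : ∀ s ∈ P, s ≠ 0) (z : Eis → ℂ) :
    ‖∑ s ∈ P, z s‖ ^ 2 ≤ (∑ s ∈ P, (1 / (nm s : ℝ))) * ∑ s ∈ P, (nm s : ℝ) * ‖z s‖ ^ 2 := by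
  refine (pow_le_pow_left₀ (norm_nonneg _) (norm_sum_le _ _) 2).trans ?_
  refine Finset.sum_sq_le_sum_mul_sum_of_sq_eq_mul P (fun s hs => ?_) (fun s hs => ?_)
    (fun s hs => ?_)
  · positivity
  · positivity
  · have := nmpos (hP s hs)
    field_simp

lemma norm_ua_le (U : Eis → ℂ) (q a n : Eis) : ‖ua U q a n‖ ≤ ‖U (a * n)‖ := by
  unfold ua
  split_ifs
  · exact le_rfl
  · simp

lemma sum_ga_le {N B : ℝ} (hN : 1 ≤ N) (hB : 1 ≤ B) {β b : Eis → ℂ}
    {Mb : ℝ} {s : Eis} (hs : IsPrim s)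
    (hb : ∀ n, b n ≠ 0 → n ∈ S B)
    (hMb : ∑ d ∈ primBall ⌊B⌋₊, ‖b (s * d)‖ ^ 2 ≤ Mb / nm s) {T : ℝ}
    (hT : ∀ u ∈ primBall ⌊N * B⌋₊, (tau u : ℝ) ≤ T) (hT0 : 0 ≤ T) :
    ∑ u ∈ primBall ⌊N * B⌋₊, ‖ga β b s u‖ ^ 2 ≤
      T * ((Mb / nm s) * ∑ m ∈ primBall ⌊N * B⌋₊, ‖β (s * m)‖ ^ 2) := by
  have hB0 : 0 ≤ B := by linarith
  set Y := ⌊N * B⌋₊ with hY
  have hNB : B ≤ N * B := by nlinarith
  have h1 : ∀ u ∈ primBall Y, ‖ga β b s u‖ ^ 2 ≤
      T * ∑ a ∈ dvs u, ‖b (s * a)‖ ^ 2 * ‖β (s * (u / a))‖ ^ 2 := by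
    intro u hu
    unfold ga
    calc ‖∑ a ∈ dvs u, b (s * a) * ua β (s * a) s (u / a)‖ ^ 2
        ≤ (∑ a ∈ dvs u, ‖b (s * a) * ua β (s * a) s (u / a)‖) ^ 2 :=
          pow_le_pow_left₀ (norm_nonneg _) (norm_sum_le _ _) 2
      _ ≤ ((dvs u).card : ℝ) * ∑ a ∈ dvs u, ‖b (s * a) * ua β (s * a) s (u / a)‖ ^ 2 :=
          sq_sum_le_card_mul_sum_sq
      _ ≤ T * ∑ a ∈ dvs u, ‖b (s * a)‖ ^ 2 * ‖β (s * (u / a))‖ ^ 2 := by
          refine mul_le_mul (hT u hu) (Finset.sum_le_sum fun a _ => ?_)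
            (Finset.sum_nonneg fun _ _ => by positivity) hT0
          rw [norm_mul, mul_pow]
          exact mul_le_mul_of_nonneg_left (pow_le_pow_left₀ (norm_nonneg _)
            (norm_ua_le _ _ _ _) 2) (by positivity)
  refine (Finset.sum_le_sum h1).trans ?_
  rw [← Finset.mul_sum]
  refine mul_le_mul_of_nonneg_left ?_ hT0
  rw [sum_primBall_dvs Y fun a u => ‖b (s * a)‖ ^ 2 * ‖β (s * (u / a))‖ ^ 2]
  calc ∑ d ∈ primBall Y, ∑ m ∈ primBall (Y / nm d),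
        ‖b (s * d)‖ ^ 2 * ‖β (s * (d * m / d))‖ ^ 2
      ≤ ∑ d ∈ primBall Y, ∑ m ∈ primBall Y, ‖b (s * d)‖ ^ 2 * ‖β (s * m)‖ ^ 2 := by
        refine Finset.sum_le_sum fun d hd => ?_
        have hd0 := (mem_primBall.mp hd).2.ne_zero
        simp only [mul_div_cancel_left₀ _ hd0]
        exact Finset.sum_le_sum_of_subset_of_nonneg (Div277.primBall_mono (Nat.div_le_self _ _))
          fun _ _ _ => by positivity
    _ = (∑ d ∈ primBall Y, ‖b (s * d)‖ ^ 2) * ∑ m ∈ primBall Y, ‖β (s * m)‖ ^ 2 := by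
        rw [Finset.sum_mul_sum]
    _ ≤ _ := by
        refine mul_le_mul_of_nonneg_right ?_ (Finset.sum_nonneg fun _ _ => by positivity)
        refine le_trans (le_of_eq ?_) hMb
        symm
        refine Finset.sum_subset (Div277.primBall_mono (Nat.floor_le_floor hNB)) ?_
        intro d hd hdn
        by_contra hne
        apply hdn
        have h2 : b (s * d) ≠ 0 := by
          intro h0; apply hne; rw [h0]; simp
        have h3 := (mem_S hB0).1 (hb _ h2)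
        rw [mem_primBall]
        refine ⟨Nat.le_floor ?_, (mem_primBall.mp hd).2⟩
        have n0 : (1 : ℝ) ≤ nm s := nm_ge_one hs.ne_zero
        have n1 : (0 : ℝ) ≤ nm d := Nat.cast_nonneg _
        have := h3.1
        rw [nm_mul] at this
        push_cast at this
        nlinarith

lemma sum_beta_le {N : ℝ} {Y : ℕ} (hNY : S N ⊆ primBall Y) {β : Eis → ℂ}
    (hβ : ∀ n, β n ≠ 0 → n ∈ S N) {T : ℝ} (hT : ∀ u ∈ primBall Y, (tau u : ℝ) ≤ T) :
    ∑ s ∈ primBall Y, ∑ m ∈ primBall Y, ‖β (s * m)‖ ^ 2 ≤ T * ∑ n ∈ S N, ‖β n‖ ^ 2 := by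
  have e1 : ∀ s ∈ primBall Y, ∑ m ∈ primBall Y, ‖β (s * m)‖ ^ 2 =
      ∑ m ∈ primBall (Y / nm s), ‖β (s * m)‖ ^ 2 := by
    intro s hs
    symm
    refine Finset.sum_subset (Div277.primBall_mono (Nat.div_le_self _ _)) ?_
    intro m hm hmn
    by_contra hne
    apply hmn
    have h2 : β (s * m) ≠ 0 := by
      intro h0; apply hne; rw [h0]; simp
    have h3 := mem_primBall.mp (hNY (hβ _ h2))
    rw [mem_primBall]
    refine ⟨?_, (mem_primBall.mp hm).2⟩
    rw [Nat.le_div_iff_mul_le (nm_pos.mpr (mem_primBall.mp hs).2.ne_zero), mul_comm, ← nm_mul]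
    exact h3.1
  rw [Finset.sum_congr rfl e1]
  have e2 := sum_primBall_dvs Y fun (d : Eis) n => ‖β n‖ ^ 2
  rw [← e2]
  simp only [Finset.sum_const, nsmul_eq_mul]
  calc ∑ n ∈ primBall Y, ((dvs n).card : ℝ) * ‖β n‖ ^ 2 ≤
      ∑ n ∈ primBall Y, T * ‖β n‖ ^ 2 := Finset.sum_le_sum fun n hn =>
        mul_le_mul_of_nonneg_right (hT n hn) (by positivity)
    _ = T * ∑ n ∈ S N, ‖β n‖ ^ 2 := by
        rw [← Finset.mul_sum]
        congr 1
        symm
        refine Finset.sum_subset hNY ?_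
        intro n _ hn
        by_contra hne
        apply hn
        apply hβ
        intro h0; apply hne; rw [h0]; simp

/-- the large sieve for one common part -/
lemma hb_ga {ε C : ℝ} (hε : 0 ≤ ε) (hC0 : 0 ≤ C) (hC : ∀ M N : ℝ, 1 ≤ M → 1 ≤ N →
    HB M N (C * (M * N) ^ ε * (M + N + (M * N) ^ ((2 : ℝ) / 3)))) {K N B : ℝ} (hK : 1 ≤ K)
    (hN : 1 ≤ N) (hB : 1 ≤ B) {β b : Eis → ℂ}
    (hβ : ∀ n, β n ≠ 0 → n ∈ S N) (hb : ∀ n, b n ≠ 0 → n ∈ S B) {s : Eis} (hs : IsPrim s) :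
    ∑ k ∈ S K, ‖∑ u ∈ primBall ⌊N * B⌋₊, ga β b s u * sy k u‖ ^ 2 ≤
      C * (K * (N * B)) ^ ε * (K + N * B + (K * (N * B)) ^ ((2 : ℝ) / 3)) *
        ∑ u ∈ primBall ⌊N * B⌋₊, ‖ga β b s u‖ ^ 2 := by
  have hN0 : 0 ≤ N := by linarith
  have hB0 : 0 ≤ B := by linarith
  set Y := ⌊N * B⌋₊ with hY
  by_cases h0 : ∀ u, ga β b s u = 0
  · simp only [h0]
    simp
  push_neg at h0
  obtain ⟨u₀, hu₀⟩ := h0
  have n0 : (1 : ℝ) ≤ nm s := nm_ge_one hs.ne_zero
  set U : ℝ := N * B / (nm s : ℝ) ^ 2 with hU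
  have hs2 : (1 : ℝ) ≤ (nm s : ℝ) ^ 2 := one_le_pow₀ n0
  have hUNB : U ≤ N * B := div_le_self (by positivity) hs2
  have hmem : ∀ u, ga β b s u ≠ 0 → u ∈ S U ∧ 1 ≤ U := fun u hu => by
    obtain ⟨h1, h2, h3⟩ := ga_ne hN0 hB0 hβ hb hs hu
    have h4 : (nm u : ℝ) ≤ U := by
      rw [hU, le_div_iff₀ (by positivity)]
      linarith
    have h5 : (1 : ℝ) ≤ nm u := nm_ge_one h1.ne_zero
    exact ⟨(mem_S (by positivity)).2 ⟨h4, h1, h2⟩, h5.trans h4⟩
  have hU1 : 1 ≤ U := (hmem u₀ hu₀).2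
  have hU0 : 0 ≤ U := by linarith
  have hsub : S U ⊆ primBall Y := fun u hu => by
    have h := (mem_S hU0).1 hu
    rw [mem_primBall]
    exact ⟨Nat.le_floor (h.1.trans hUNB), h.2.1⟩
  have e1 : ∀ k, ∑ u ∈ primBall Y, ga β b s u * sy k u = ∑ u ∈ S U, ga β b s u * sy k u := by
    intro k
    symm
    refine Finset.sum_subset hsub fun u _ hu => ?_
    by_contra hne
    exact hu (hmem u (left_ne_zero_of_mul hne)).1
  simp only [e1]
  refine (hC K U hK hU1 (ga β b s)).trans ?_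
  have hKU : K * U ≤ K * (N * B) := mul_le_mul_of_nonneg_left hUNB (by linarith)
  have h1 : C * (K * U) ^ ε ≤ C * (K * (N * B)) ^ ε :=
    mul_le_mul_of_nonneg_left (Real.rpow_le_rpow (by positivity) hKU hε) hC0
  have h2 : K + U + (K * U) ^ ((2 : ℝ) / 3) ≤ K + N * B + (K * (N * B)) ^ ((2 : ℝ) / 3) := by
    have := Real.rpow_le_rpow (by positivity) hKU (by norm_num : (0 : ℝ) ≤ 2 / 3)
    linarith
  have h3 : ∑ n ∈ S U, ‖ga β b s n‖ ^ 2 ≤ ∑ u ∈ primBall Y, ‖ga β b s u‖ ^ 2 :=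
    Finset.sum_le_sum_of_subset_of_nonneg hsub fun _ _ _ => by positivity
  have h4 : 0 ≤ ∑ n ∈ S U, ‖ga β b s n‖ ^ 2 := Finset.sum_nonneg fun _ _ => by positivity
  have hpos : 0 ≤ C * (K * (N * B)) ^ ε := by positivity
  refine mul_le_mul (mul_le_mul h1 h2 (by positivity) hpos) h3 h4 ?_
  positivity

/-- squarefree second factor, with parameters -/
lemma prod_hb0 {ε C : ℝ} (hε : 0 ≤ ε) (hC0 : 0 ≤ C) (hC : ∀ M N : ℝ, 1 ≤ M → 1 ≤ N →
    HB M N (C * (M * N) ^ ε * (M + N + (M * N) ^ ((2 : ℝ) / 3)))) {K N B : ℝ} (hK : 1 ≤ K)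
    (hN : 1 ≤ N) (hB : 1 ≤ B) {β b : Eis → ℂ}
    (hβ : ∀ n, β n ≠ 0 → n ∈ S N) (hb : ∀ n, b n ≠ 0 → n ∈ S B) {Mb : ℝ} (hMb0 : 0 ≤ Mb)
    (hMb : ∀ s, IsPrim s → ∑ d ∈ primBall ⌊B⌋₊, ‖b (s * d)‖ ^ 2 ≤ Mb / nm s) {T : ℝ}
    (hT : ∀ u ∈ primBall ⌊N * B⌋₊, (tau u : ℝ) ≤ T) (hT0 : 0 ≤ T) :
    ∑ k ∈ S K, ‖CS β k * CS b k‖ ^ 2 ≤
      (100 * (1 + Real.log (N * B))) * (C * (K * (N * B)) ^ ε) * T ^ 2 *
        (Mb * (K + N * B + (K * (N * B)) ^ ((2 : ℝ) / 3)) * ∑ n ∈ S N, ‖β n‖ ^ 2) := by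
  have hN0 : 0 ≤ N := by linarith
  have hB0 : 0 ≤ B := by linarith
  have hNB1 : 1 ≤ N * B := by nlinarith
  set Y := ⌊N * B⌋₊ with hY
  set Q : ℝ := K + N * B + (K * (N * B)) ^ ((2 : ℝ) / 3) with hQ
  set R : ℝ := C * (K * (N * B)) ^ ε with hR
  have hQ0 : 0 ≤ Q := by positivity
  have hR0 : 0 ≤ R := by positivity
  set L : ℝ := 100 * (1 + Real.log (N * B)) with hL
  have hL0 : 0 ≤ L := by have := Real.log_nonneg hNB1; positivity
  have hP0 : ∀ s ∈ primBall Y, s ≠ 0 := fun s hs => (mem_primBall.mp hs).2.ne_zero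
  have hLs : ∑ s ∈ primBall Y, (1 / (nm s : ℝ)) ≤ L := by
    refine (sum_inv_primBall_le Y).trans ?_
    have hY1 : 1 ≤ Y := Nat.le_floor (by exact_mod_cast hNB1)
    have : Real.log Y ≤ Real.log (N * B) :=
      Real.log_le_log (by exact_mod_cast hY1) (Nat.floor_le (by positivity))
    rw [hL]; linarith
  calc ∑ k ∈ S K, ‖CS β k * CS b k‖ ^ 2
      ≤ ∑ k ∈ S K, L * ∑ s ∈ primBall Y, (nm s : ℝ) *
          ‖∑ u ∈ primBall Y, ga β b s u * sy k u‖ ^ 2 := by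
        refine Finset.sum_le_sum fun k _ => ?_
        rw [prod_eq hN hB hβ hb k]
        refine (cauchy_w hP0 _).trans ?_
        refine mul_le_mul hLs (Finset.sum_le_sum fun s hs => ?_)
          (Finset.sum_nonneg fun _ _ => by positivity) hL0
        refine mul_le_mul_of_nonneg_left ?_ (by positivity)
        refine pow_le_pow_left₀ (norm_nonneg _) ?_ 2
        rw [norm_mul, RCLike.norm_conj]
        exact mul_le_of_le_one_left (norm_nonneg _) (norm_sy_le' (mem_primBall.mp hs).2)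
    _ = L * ∑ s ∈ primBall Y, (nm s : ℝ) * ∑ k ∈ S K,
          ‖∑ u ∈ primBall Y, ga β b s u * sy k u‖ ^ 2 := by
        rw [← Finset.mul_sum, Finset.sum_comm]
        congr 1
        refine Finset.sum_congr rfl fun s _ => ?_
        rw [Finset.mul_sum]
    _ ≤ L * ∑ s ∈ primBall Y, (nm s : ℝ) * (R * Q * (T * ((Mb / nm s) *
          ∑ m ∈ primBall Y, ‖β (s * m)‖ ^ 2))) := by
        refine mul_le_mul_of_nonneg_left (Finset.sum_le_sum fun s hs => ?_) hL0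
        refine mul_le_mul_of_nonneg_left ?_ (by positivity)
        have hsp := (mem_primBall.mp hs).2
        refine (hb_ga hε hC0 hC hK hN hB hβ hb hsp).trans ?_
        exact mul_le_mul_of_nonneg_left (sum_ga_le hN hB hsp hb (hMb s hsp) hT hT0)
          (by positivity)
    _ = L * (R * Q * T * Mb * ∑ s ∈ primBall Y, ∑ m ∈ primBall Y, ‖β (s * m)‖ ^ 2) := by
        congr 1
        rw [Finset.mul_sum]
        refine Finset.sum_congr rfl fun s hs => ?_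
        have := nmpos (hP0 s hs)
        field_simp
    _ ≤ L * (R * Q * T * Mb * (T * ∑ n ∈ S N, ‖β n‖ ^ 2)) := by
        refine mul_le_mul_of_nonneg_left (mul_le_mul_of_nonneg_left ?_ (by positivity)) hL0
        refine sum_beta_le (fun n hn => ?_) hβ hT
        have h := (mem_S hN0).1 hn
        rw [mem_primBall]
        exact ⟨Nat.le_floor (h.1.trans (by nlinarith)), h.2.1⟩
    _ = _ := by ring

/-! ### arbitrary second factor -/

/-- the cubic decomposition `a = a₀ c² r³` -/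
def dec (a : Eis) : Eis × Eis × Eis :=
  if h : IsPrim a then
    ((Char766.exists_prim_cubic_decomp h).choose,
      (Char766.exists_prim_cubic_decomp h).choose_spec.choose,
      (Char766.exists_prim_cubic_decomp h).choose_spec.choose_spec.choose) else (1, 1, 1)

lemma dec_spec {a : Eis} (h : IsPrim a) : IsPrim (dec a).1 ∧ IsPrim (dec a).2.1 ∧
    IsPrim (dec a).2.2 ∧ Squarefree (dec a).1 ∧
    a = (dec a).1 * ((dec a).2.1 ^ 2 * (dec a).2.2 ^ 3) := by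
  unfold dec
  rw [dif_pos h]
  obtain ⟨h1, h2, h3, h4, h5, h6, h7⟩ :=
    (Char766.exists_prim_cubic_decomp h).choose_spec.choose_spec.choose_spec
  refine ⟨h1, h2, h3, h4, ?_⟩
  simp only
  rw [← mul_assoc]
  exact h7

/-- the part `(c, r)` of `b` -/
def bc (b : Eis → ℂ) (c r : Eis) (n : Eis) : ℂ :=
  if IsPrim n ∧ Squarefree n ∧ dec (n * (c ^ 2 * r ^ 3)) = (n, c, r) then
    b (n * (c ^ 2 * r ^ 3)) else 0

lemma norm_bc_le (b : Eis → ℂ) (c r n : Eis) : ‖bc b c r n‖ ≤ ‖b (n * (c ^ 2 * r ^ 3))‖ := by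
  unfold bc
  split_ifs
  · exact le_rfl
  · simp

lemma bc_ne {b : Eis → ℂ} {c r n : Eis} (h : bc b c r n ≠ 0) :
    (IsPrim n ∧ Squarefree n ∧ dec (n * (c ^ 2 * r ^ 3)) = (n, c, r)) ∧
      b (n * (c ^ 2 * r ^ 3)) ≠ 0 := by
  unfold bc at h
  split_ifs at h with h1
  · exact ⟨h1, h⟩
  · exact absurd rfl h

lemma nm_le_mul {c : Eis} (hc : c ≠ 0) (n : Eis) : nm n ≤ nm (n * c) := by
  rw [nm_mul]
  exact Nat.le_mul_of_pos_right _ (nm_pos.mpr hc)

lemma CS_bc {Y : ℕ} {b : Eis → ℂ} (hb : ∀ n, b n ≠ 0 → n ∈ primBall Y) {c r : Eis}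
    (hc : IsPrim c) (hr : IsPrim r) (k : Eis) :
    sy k (c ^ 2 * r ^ 3) * CS (bc b c r) k =
      ∑ a ∈ (primBall Y).filter (fun a => (dec a).2 = (c, r)), b a * sy k a := by
  have hcr : IsPrim (c ^ 2 * r ^ 3) := (hc.pow 2).mul (hr.pow 3)
  have e1 : CS (bc b c r) k = ∑ n ∈ primBall Y, bc b c r n * sy k n := by
    unfold CS
    refine tsum_eq_sum fun n hn => ?_
    by_contra h
    obtain ⟨h1, h2⟩ := bc_ne (left_ne_zero_of_mul h)
    apply hn
    rw [mem_primBall]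
    exact ⟨(nm_le_mul hcr.ne_zero n).trans (mem_primBall.mp (hb _ h2)).1, h1.1⟩
  rw [e1, Finset.mul_sum]
  symm
  refine Finset.sum_bij_ne_zero (fun a _ _ => (dec a).1) ?_ ?_ ?_ ?_
  · intro a ha hne
    rw [Finset.mem_filter] at ha
    obtain ⟨ha1, ha2⟩ := ha
    have hap := (mem_primBall.mp ha1).2
    obtain ⟨h1, h2, h3, h4, h5⟩ := dec_spec hap
    rw [mem_primBall]
    refine ⟨?_, h1⟩
    have : nm (dec a).1 ≤ nm a := by
      conv_rhs => rw [h5]
      exact nm_le_mul ((h2.pow 2).mul (h3.pow 3)).ne_zero _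
    exact this.trans (mem_primBall.mp ha1).1
  · intro a ha hne a' ha' hne' he
    rw [Finset.mem_filter] at ha ha'
    obtain ⟨-, -, -, -, h5⟩ := dec_spec (mem_primBall.mp ha.1).2
    obtain ⟨-, -, -, -, h5'⟩ := dec_spec (mem_primBall.mp ha'.1).2
    rw [h5, h5', he, ha.2, ha'.2]
  · intro n hn hne
    have hbn := left_ne_zero_of_mul (right_ne_zero_of_mul hne)
    obtain ⟨⟨h1, h2, h3⟩, h4⟩ := bc_ne hbn
    refine ⟨n * (c ^ 2 * r ^ 3), ?_, ?_, ?_⟩
    · rw [Finset.mem_filter]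
      exact ⟨hb _ h4, by rw [h3]⟩
    · rw [syG.mul_right _ _ _ h1 hcr]
      exact mul_ne_zero h4 (mul_ne_zero (right_ne_zero_of_mul (right_ne_zero_of_mul hne))
        (left_ne_zero_of_mul hne))
    · rw [h3]
  · intro a ha hne
    rw [Finset.mem_filter] at ha
    obtain ⟨h1, h2, h3, h4, h5⟩ := dec_spec (mem_primBall.mp ha.1).2
    have e2 : (dec a).2.1 = c := by rw [ha.2]
    have e3 : (dec a).2.2 = r := by rw [ha.2]
    rw [e2, e3] at h5
    have e4 : bc b c r (dec a).1 = b a := by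
      unfold bc
      rw [if_pos, ← h5]
      refine ⟨h1, h4, ?_⟩
      rw [← h5]
      exact Prod.ext rfl ha.2
    have e5 : sy k a = sy k (dec a).1 * sy k (c ^ 2 * r ^ 3) := by
      rw [← syG.mul_right _ _ _ h1 hcr, ← h5]
    rw [e4, e5]
    ring

lemma CS_dec {Y : ℕ} {b : Eis → ℂ} (hb : ∀ n, b n ≠ 0 → n ∈ primBall Y) (k : Eis) :
    CS b k = ∑ c ∈ primBall Y, ∑ r ∈ primBall Y, sy k (c ^ 2 * r ^ 3) * CS (bc b c r) k := by
  have e1 : CS b k = ∑ a ∈ primBall Y, b a * sy k a := by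
    unfold CS
    refine tsum_eq_sum fun n hn => ?_
    by_contra h
    exact hn (hb n (left_ne_zero_of_mul h))
  rw [e1, ← Finset.sum_product']
  have hmap : ∀ a ∈ primBall Y, (dec a).2 ∈ primBall Y ×ˢ primBall Y := by
    intro a ha
    obtain ⟨haY, hap⟩ := mem_primBall.mp ha
    obtain ⟨h1, h2, h3, h4, h5⟩ := dec_spec hap
    rw [Finset.mem_product, mem_primBall, mem_primBall]
    have g1 : (dec a).2.1 ∣ a := by
      conv_rhs => rw [h5]
      exact ⟨(dec a).1 * ((dec a).2.1 * (dec a).2.2 ^ 3), by ring⟩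
    have g2 : (dec a).2.2 ∣ a := by
      conv_rhs => rw [h5]
      exact ⟨(dec a).1 * ((dec a).2.1 ^ 2 * (dec a).2.2 ^ 2), by ring⟩
    exact ⟨⟨(Div277.nm_le_of_dvd hap.ne_zero g1).trans haY, h2⟩,
      ⟨(Div277.nm_le_of_dvd hap.ne_zero g2).trans haY, h3⟩⟩
  rw [← Finset.sum_fiberwise_of_maps_to hmap]
  refine Finset.sum_congr rfl fun x hx => ?_
  rw [Finset.mem_product] at hx
  exact (CS_bc hb (mem_primBall.mp hx.1).2 (mem_primBall.mp hx.2).2 k).symm

/-- arbitrary second factor, with parameters -/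
lemma prod_hb1 {ε C : ℝ} (hε : 0 ≤ ε) (hC0 : 0 ≤ C) (hC : ∀ M N : ℝ, 1 ≤ M → 1 ≤ N →
    HB M N (C * (M * N) ^ ε * (M + N + (M * N) ^ ((2 : ℝ) / 3)))) {K N B : ℝ} (hK : 1 ≤ K)
    (hN : 1 ≤ N) (hB : 1 ≤ B) {β b : Eis → ℂ}
    (hβ : ∀ n, β n ≠ 0 → n ∈ S N) (hb : ∀ n, b n ≠ 0 → n ∈ primBall ⌊B⌋₊) {Mb : ℝ}
    (hMb0 : 0 ≤ Mb)
    (hMb : ∀ s, IsPrim s → ∑ d ∈ primBall ⌊B⌋₊, ‖b (s * d)‖ ^ 2 ≤ Mb / nm s) {T : ℝ}
    (hT : ∀ u ∈ primBall ⌊N * B⌋₊, (tau u : ℝ) ≤ T) (hT0 : 0 ≤ T) :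
    ∑ k ∈ S K, ‖CS β k * CS b k‖ ^ 2 ≤
      (100 * (1 + Real.log B)) ^ 4 *
      ((100 * (1 + Real.log (N * B))) * (C * (K * (N * B)) ^ ε) * T ^ 2 *
        (Mb * (K + N * B + (K * (N * B)) ^ ((2 : ℝ) / 3)) * ∑ n ∈ S N, ‖β n‖ ^ 2)) := by
  have hB0 : 0 ≤ B := by linarith
  set Y := ⌊B⌋₊ with hY
  set L : ℝ := 100 * (1 + Real.log B) with hL
  have hL0 : 0 ≤ L := by have := Real.log_nonneg hB; positivity
  have hLs : ∑ s ∈ primBall Y, (1 / (nm s : ℝ)) ≤ L := by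
    refine (sum_inv_primBall_le Y).trans ?_
    have hY1 : 1 ≤ Y := Nat.le_floor (by exact_mod_cast hB)
    have : Real.log Y ≤ Real.log B :=
      Real.log_le_log (by exact_mod_cast hY1) (Nat.floor_le hB0)
    rw [hL]; linarith
  have hs0 : 0 ≤ ∑ s ∈ primBall Y, (1 / (nm s : ℝ)) := Finset.sum_nonneg fun _ _ => by positivity
  have hP0 : ∀ s ∈ primBall Y, s ≠ 0 := fun s hs => (mem_primBall.mp hs).2.ne_zero
  set W : ℝ := (100 * (1 + Real.log (N * B))) * (C * (K * (N * B)) ^ ε) * T ^ 2 with hW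
  set Q : ℝ := (K + N * B + (K * (N * B)) ^ ((2 : ℝ) / 3)) with hQ
  set Sβ : ℝ := ∑ n ∈ S N, ‖β n‖ ^ 2 with hSβ
  have hW0 : 0 ≤ W := by
    have := Real.log_nonneg (by nlinarith : (1 : ℝ) ≤ N * B)
    positivity
  have hSβ0 : 0 ≤ Sβ := Finset.sum_nonneg fun _ _ => by positivity
  have hQ0 : 0 ≤ Q := by positivity
  -- pointwise Cauchy
  have hpt : ∀ k, ‖CS β k * CS b k‖ ^ 2 ≤ L * ∑ c ∈ primBall Y, (nm c : ℝ) *
      (L * ∑ r ∈ primBall Y, (nm r : ℝ) * ‖CS β k * CS (bc b c r) k‖ ^ 2) := by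
    intro k
    rw [CS_dec hb k, Finset.mul_sum]
    refine (cauchy_w hP0 _).trans ?_
    refine mul_le_mul hLs (Finset.sum_le_sum fun c hc => ?_)
      (Finset.sum_nonneg fun _ _ => by positivity) hL0
    refine mul_le_mul_of_nonneg_left ?_ (by positivity)
    rw [Finset.mul_sum]
    refine (cauchy_w hP0 _).trans ?_
    refine mul_le_mul hLs (Finset.sum_le_sum fun r hr => ?_)
      (Finset.sum_nonneg fun _ _ => by positivity) hL0
    refine mul_le_mul_of_nonneg_left ?_ (by positivity)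
    refine pow_le_pow_left₀ (norm_nonneg _) ?_ 2
    have hcr : IsPrim (c ^ 2 * r ^ 3) :=
      ((mem_primBall.mp hc).2.pow 2).mul ((mem_primBall.mp hr).2.pow 3)
    calc ‖CS β k * (sy k (c ^ 2 * r ^ 3) * CS (bc b c r) k)‖
        = ‖sy k (c ^ 2 * r ^ 3)‖ * ‖CS β k * CS (bc b c r) k‖ := by
          rw [norm_mul, norm_mul, norm_mul]; ring
      _ ≤ ‖CS β k * CS (bc b c r) k‖ := mul_le_of_le_one_left (norm_nonneg _) (norm_sy_le' hcr)
  have hone : ∀ c ∈ primBall Y, ∀ r ∈ primBall Y,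
      ∑ k ∈ S K, ‖CS β k * CS (bc b c r) k‖ ^ 2 ≤
        W * (Mb / ((nm c : ℝ) ^ 2 * (nm r : ℝ) ^ 3) * Q * Sβ) := by
    intro c hc r hr
    have hcp := (mem_primBall.mp hc).2
    have hrp := (mem_primBall.mp hr).2
    have hcr : IsPrim (c ^ 2 * r ^ 3) := (hcp.pow 2).mul (hrp.pow 3)
    have nc := nmpos hcp.ne_zero
    have nr := nmpos hrp.ne_zero
    refine prod_hb0 hε hC0 hC hK hN hB hβ (b := bc b c r) (fun n hn => ?_)
      (by positivity) (fun s hs => ?_) hT hT0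
    · obtain ⟨h1, h2⟩ := bc_ne hn
      refine (mem_S hB0).2 ⟨?_, h1.1, h1.2.1⟩
      have h3 := (nm_le_mul hcr.ne_zero n).trans (mem_primBall.mp (hb _ h2)).1
      exact (Nat.le_floor_iff hB0).mp h3
    · have h1 := hMb (s * (c ^ 2 * r ^ 3)) (hs.mul hcr)
      have e2 : (nm (s * (c ^ 2 * r ^ 3)) : ℝ) = nm s * ((nm c : ℝ) ^ 2 * (nm r : ℝ) ^ 3) := by
        rw [nm_mul, nm_mul, nm_pow, nm_pow]; push_cast; ring
      rw [e2] at h1
      have e3 : Mb / ((nm c : ℝ) ^ 2 * (nm r : ℝ) ^ 3) / nm s =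
          Mb / (nm s * ((nm c : ℝ) ^ 2 * (nm r : ℝ) ^ 3)) := by
        rw [div_div, mul_comm (nm s : ℝ)]
      rw [e3]
      refine le_trans (Finset.sum_le_sum fun d _ => ?_) h1
      refine pow_le_pow_left₀ (norm_nonneg _) ?_ 2
      refine (norm_bc_le b c r (s * d)).trans (le_of_eq ?_)
      congr 2
      ring
  calc ∑ k ∈ S K, ‖CS β k * CS b k‖ ^ 2
      ≤ ∑ k ∈ S K, L * ∑ c ∈ primBall Y, (nm c : ℝ) *
      (L * ∑ r ∈ primBall Y, (nm r : ℝ) * ‖CS β k * CS (bc b c r) k‖ ^ 2) :=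
        Finset.sum_le_sum fun k _ => hpt k
    _ = L * ∑ c ∈ primBall Y, (nm c : ℝ) * (L * ∑ r ∈ primBall Y, (nm r : ℝ) *
          ∑ k ∈ S K, ‖CS β k * CS (bc b c r) k‖ ^ 2) := by
        rw [← Finset.mul_sum, Finset.sum_comm]
        congr 1
        refine Finset.sum_congr rfl fun c _ => ?_
        rw [← Finset.mul_sum, ← Finset.mul_sum, Finset.sum_comm]
        congr 2
        refine Finset.sum_congr rfl fun r _ => ?_
        rw [← Finset.mul_sum]
    _ ≤ L * ∑ c ∈ primBall Y, (nm c : ℝ) * (L * ∑ r ∈ primBall Y, (nm r : ℝ) *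
          (W * (Mb / ((nm c : ℝ) ^ 2 * (nm r : ℝ) ^ 3) * Q * Sβ))) := by
        refine mul_le_mul_of_nonneg_left (Finset.sum_le_sum fun c hc => ?_) hL0
        refine mul_le_mul_of_nonneg_left ?_ (by positivity)
        refine mul_le_mul_of_nonneg_left (Finset.sum_le_sum fun r hr => ?_) hL0
        exact mul_le_mul_of_nonneg_left (hone c hc r hr) (by positivity)
    _ ≤ L * ∑ c ∈ primBall Y, (1 / (nm c : ℝ)) * (L * ∑ r ∈ primBall Y, (1 / (nm r : ℝ)) *
          (W * (Mb * Q * Sβ))) := by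
        refine mul_le_mul_of_nonneg_left (Finset.sum_le_sum fun c hc => ?_) hL0
        have nc := nmpos (hP0 c hc)
        have e0 : ∀ F : Eis → ℝ, ∀ x : ℝ, x * (L * ∑ r ∈ primBall Y, F r) =
            L * ∑ r ∈ primBall Y, x * F r := fun F x => by
          rw [← Finset.mul_sum]; ring
        rw [e0, e0]
        refine mul_le_mul_of_nonneg_left (Finset.sum_le_sum fun r hr => ?_) hL0
        have nr := nmpos (hP0 r hr)
        have nr1 : (1 : ℝ) ≤ nm r := nm_ge_one (hP0 r hr)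
        have e : (nm c : ℝ) * ((nm r : ℝ) * (W * (Mb / ((nm c : ℝ) ^ 2 * (nm r : ℝ) ^ 3) * Q * Sβ)))
            = 1 / (nm c : ℝ) * (1 / (nm r : ℝ) ^ 2 * (W * (Mb * Q * Sβ))) := by
          field_simp
        rw [e]
        refine mul_le_mul_of_nonneg_left ?_ (by positivity)
        refine mul_le_mul_of_nonneg_right ?_ (by positivity)
        exact one_div_le_one_div_of_le nr (by nlinarith)
    _ = L ^ 2 * (∑ c ∈ primBall Y, (1 / (nm c : ℝ))) * (∑ r ∈ primBall Y, (1 / (nm r : ℝ))) *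
          (W * (Mb * Q * Sβ)) := by
        rw [← Finset.sum_mul, ← Finset.sum_mul]; ring
    _ ≤ L ^ 2 * L * L * (W * (Mb * Q * Sβ)) := by
        refine mul_le_mul_of_nonneg_right ?_ (by positivity)
        exact mul_le_mul (mul_le_mul_of_nonneg_left hLs (by positivity)) hLs hs0 (by positivity)
    _ = _ := by ring

end Crest.Agent.R017.GHB842
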