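import Crest.Agent.R017.GHB1_842
import Crest.Agent.R017.E3A_164
import Crest.Agent.R017.E2m_440

/-!
# Row 17, R8: Gram sums by the cubic large sieve, part 2 (helper842)
-/

set_option autoImplicit false
set_option maxHeartbeats 400000

noncomputable section

open Complex
open scoped ComplexConjugate Classical

namespace Crest.Agent.R017.GHB842

open Crest.Agent.R012 Crest.Agent.R012.Eis
open Crest.Agent.R012.LS2 (S mem_S HB Final)
open Crest.Agent.R012.Div277 (dvs mem_dvs isPrim_of_mem_dvs dvd_of_mem_dvs tau tau_le_rpow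
  sum_primBall_dvs sum_inv_primBall_le)
open Crest.Agent.R017.CM106 (CS)
open Crest.Agent.R017.PX764 (norm_sy_le' n6)
open Crest.Agent.R017.E1551 (nmpos CS_fin nm_ge_one)
open Crest.Agent.R017.C70 (JC CbF OKJ)
open Crest.Agent.R017.GrB829 (IsC)
open Crest.Agent.R017.E3P842
open Crest.Agent.R017.E3A164
open Gauss880 (syG)

/-! ### sums over frequencies -/

lemma sum_S_dvd {Z : ℝ} (hZ : 0 ≤ Z) {g : Eis} (hg : IsPrim g) (F : Eis → ℝ) (hF : ∀ k, 0 ≤ F k) :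
    ∑ k ∈ (S Z).filter (fun k => g ∣ k), F k ≤ ∑ k ∈ S (Z / nm g), F (g * k) := by
  have ng := nmpos hg.ne_zero
  calc ∑ k ∈ (S Z).filter (fun k => g ∣ k), F k
      ≤ ∑ k ∈ (S (Z / nm g)).image (fun k => g * k), F k := by
        refine Finset.sum_le_sum_of_subset_of_nonneg (fun k hk => ?_) fun k _ _ => hF k
        rw [Finset.mem_filter, mem_S hZ] at hk
        obtain ⟨⟨h1, h2, h3⟩, ⟨m, rfl⟩⟩ := hk
        rw [Finset.mem_image]
        refine ⟨m, (mem_S (by positivity)).2 ⟨?_, IsPrim.of_mul_left h2 hg,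
          h3.squarefree_of_dvd (dvd_mul_left _ _)⟩, rfl⟩
        rw [le_div_iff₀ ng]
        rw [nm_mul] at h1
        push_cast at h1
        linarith
    _ ≤ _ := Finset.sum_image_le_of_nonneg fun k _ => hF k

lemma sum_CbF {K : ℝ} (hK : 1 ≤ K) (F : Eis → ℝ) (hF : ∀ k, 0 ≤ F k) :
    ∑ k ∈ (primBall ⌊K⌋₊).filter CbF, F k ≤
      ∑ q ∈ S K, ∑ k₁ ∈ (S (K / (nm q : ℝ) ^ 2)).filter (fun k => IsCoprime k q),
        F (k₁ * q ^ 2) := by
  have hK0 : 0 ≤ K := by linarith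
  rw [Finset.sum_sigma']
  set Om : Finset (Σ _ : Eis, Eis) := (S K).sigma fun q =>
    (S (K / (nm q : ℝ) ^ 2)).filter (fun k => IsCoprime k q) with hOm
  calc ∑ k ∈ (primBall ⌊K⌋₊).filter CbF, F k
      ≤ ∑ k ∈ Om.image (fun z => z.2 * z.1 ^ 2), F k := by
        refine Finset.sum_le_sum_of_subset_of_nonneg (fun k hk => ?_) fun k _ _ => hF k
        rw [Finset.mem_filter, mem_primBall] at hk
        obtain ⟨⟨h1, h2⟩, h3⟩ := hk
        obtain ⟨n, g, hn, hns, hg, hgs, hc, rfl⟩ := cbf_dec h2 h3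
        rw [Finset.mem_image]
        refine ⟨⟨g, n⟩, ?_, rfl⟩
        have n1 : (1 : ℝ) ≤ nm n := nm_ge_one hn.ne_zero
        have n2 : (1 : ℝ) ≤ nm g := nm_ge_one hg.ne_zero
        have h4 : (nm n : ℝ) * (nm g : ℝ) ^ 2 ≤ K := by
          have := (Nat.le_floor_iff hK0).mp h1
          rw [nm_mul, nm_pow] at this
          push_cast at this
          exact this
        rw [hOm, Finset.mem_sigma, Finset.mem_filter, mem_S hK0, mem_S (by positivity)]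
        refine ⟨⟨?_, hg, hgs⟩, ⟨?_, hn, hns⟩, hc⟩
        · calc (nm g : ℝ) ≤ (nm g : ℝ) ^ 2 := by nlinarith
            _ ≤ nm n * (nm g : ℝ) ^ 2 := by nlinarith [sq_nonneg (nm g : ℝ)]
            _ ≤ K := h4
        · rw [le_div_iff₀ (by positivity)]
          exact h4
    _ ≤ _ := Finset.sum_image_le_of_nonneg fun k _ => hF k

/-! ### real inequalities -/

lemma nm_C_le {c : Eis} (hc : IsC c) : (1 : ℝ) ≤ nm c ∧ (nm c : ℝ) ≤ 27 := by
  refine ⟨nm_ge_one hc.ne_zero, ?_⟩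
  have : nm c ≤ 27 := by
    rcases hc with rfl | rfl | rfl | rfl <;> decide
  exact_mod_cast this

lemma alg_ineq {K VB a γ c d : ℝ} (hK : 0 < K) (hV : 0 < VB) (ha : 1 ≤ a) (hγ : 1 ≤ γ)
    (hc : 1 ≤ c) (hc' : c ≤ 27) (hd : 1 ≤ d) :
    (γ * a ^ 2) ^ ((1 : ℝ) / 3) * (a * c * γ ^ 2) ^ ((1 : ℝ) / 3) *
      (K / (a ^ 2 * γ) + VB / (d ^ 2 * (a * c * γ ^ 2)) +
        (K / (a ^ 2 * γ) * (VB / (d ^ 2 * (a * c * γ ^ 2)))) ^ ((2 : ℝ) / 3)) ≤
      3 * (K + VB / d ^ 2 + (K * (VB / d ^ 2)) ^ ((2 : ℝ) / 3)) := by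
  have a0 : 0 < a := by linarith
  have g0 : 0 < γ := by linarith
  have c0 : 0 < c := by linarith
  have d0 : 0 < d := by linarith
  have e1 : (γ * a ^ 2) ^ ((1 : ℝ) / 3) * (a * c * γ ^ 2) ^ ((1 : ℝ) / 3) =
      c ^ ((1 : ℝ) / 3) * (a * γ) := by
    rw [← Real.mul_rpow (by positivity) (by positivity)]
    have : γ * a ^ 2 * (a * c * γ ^ 2) = c * (a * γ) ^ 3 := by ring
    rw [this, Real.mul_rpow (by positivity) (by positivity)]
    congr 1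
    rw [← Real.rpow_natCast, ← Real.rpow_mul (by positivity)]
    norm_num
  have e2 : c ^ ((1 : ℝ) / 3) ≤ 3 := by
    calc c ^ ((1 : ℝ) / 3) ≤ (27 : ℝ) ^ ((1 : ℝ) / 3) :=
          Real.rpow_le_rpow (by positivity) hc' (by norm_num)
      _ = 3 := by
          rw [show (27 : ℝ) = 3 ^ (3 : ℝ) by norm_num, ← Real.rpow_mul (by norm_num)]
          norm_num
  have e3 : (K / (a ^ 2 * γ) * (VB / (d ^ 2 * (a * c * γ ^ 2)))) ^ ((2 : ℝ) / 3) =
      (K * (VB / d ^ 2)) ^ ((2 : ℝ) / 3) * ((c * (a * γ) ^ 3) ^ ((2 : ℝ) / 3))⁻¹ := by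
    rw [← Real.inv_rpow (by positivity), ← Real.mul_rpow (by positivity) (by positivity)]
    congr 1
    field_simp
  have e4 : (a * γ) ^ 2 ≤ (c * (a * γ) ^ 3) ^ ((2 : ℝ) / 3) := by
    calc (a * γ) ^ 2 = ((a * γ) ^ 3) ^ ((2 : ℝ) / 3) := by
          rw [← Real.rpow_natCast (a * γ) 3, ← Real.rpow_mul (by positivity),
            ← Real.rpow_natCast (a * γ) 2]
          norm_num
      _ ≤ _ := Real.rpow_le_rpow (by positivity)
          (le_mul_of_one_le_left (by positivity) hc) (by norm_num)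
  have ag1 : 1 ≤ a * γ := by nlinarith
  set Z := (K * (VB / d ^ 2)) ^ ((2 : ℝ) / 3) with hZ
  have hZ0 : 0 ≤ Z := by positivity
  rw [e1, e3]
  have t1 : (a * γ) * (K / (a ^ 2 * γ)) ≤ K := by
    have : (a * γ) * (K / (a ^ 2 * γ)) = K / a := by field_simp
    rw [this]
    exact div_le_self hK.le ha
  have t2 : (a * γ) * (VB / (d ^ 2 * (a * c * γ ^ 2))) ≤ VB / d ^ 2 := by
    have : (a * γ) * (VB / (d ^ 2 * (a * c * γ ^ 2))) = VB / d ^ 2 / (c * γ) := by field_simp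
    rw [this]
    exact div_le_self (by positivity) (by nlinarith)
  have t3 : (a * γ) * (Z * ((c * (a * γ) ^ 3) ^ ((2 : ℝ) / 3))⁻¹) ≤ Z := by
    have h1 : ((c * (a * γ) ^ 3) ^ ((2 : ℝ) / 3))⁻¹ ≤ ((a * γ) ^ 2)⁻¹ :=
      inv_anti₀ (by positivity) e4
    calc (a * γ) * (Z * ((c * (a * γ) ^ 3) ^ ((2 : ℝ) / 3))⁻¹)
        ≤ (a * γ) * (Z * ((a * γ) ^ 2)⁻¹) :=
          mul_le_mul_of_nonneg_left (mul_le_mul_of_nonneg_left h1 hZ0) (by positivity)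
      _ = Z / (a * γ) := by field_simp
      _ ≤ Z := div_le_self hZ0 ag1
  calc c ^ ((1 : ℝ) / 3) * (a * γ) * (K / (a ^ 2 * γ) + VB / (d ^ 2 * (a * c * γ ^ 2)) +
        Z * ((c * (a * γ) ^ 3) ^ ((2 : ℝ) / 3))⁻¹)
      = c ^ ((1 : ℝ) / 3) * ((a * γ) * (K / (a ^ 2 * γ)) +
          (a * γ) * (VB / (d ^ 2 * (a * c * γ ^ 2))) +
          (a * γ) * (Z * ((c * (a * γ) ^ 3) ^ ((2 : ℝ) / 3))⁻¹)) := by ring
    _ ≤ 3 * (K + VB / d ^ 2 + Z) :=
        mul_le_mul e2 (by linarith) (by positivity) (by norm_num)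

/-! ### the pointwise Cauchy inequality -/

section pt

variable {J : Finset (Eis × Eis)} {om : Eis × Eis → ℂ} {T : Eis → Eis → Eis → ℂ} {q t k₁ : Eis}

lemma norm_G_one {n : Eis} (hn : IsPrim n) (hs : Squarefree n) : ‖G n‖ = 1 := by
  have := Gauss880.G_mul_conj syG hn hs
  have h3 : ‖G n‖ ^ 2 = 1 := by
    rw [← Complex.normSq_eq_norm_sq, ← Complex.ofReal_inj, ← Complex.mul_conj, this]; simp
  exact (pow_eq_one_iff_of_nonneg (norm_nonneg _) (by norm_num)).mp h3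

lemma norm_Fy_le (hJ : OKJ J) {E0 R : ℝ} (hR : 0 ≤ R) {y : Yp} (hy : y ∈ Ys J E0 R) {k' : Eis}
    (hk : k₁ = y.2.2.2 * k') (hk' : IsPrim k') :
    ‖Fy J om T q t k₁ y‖ ≤ n6 k' * ‖CS (be J om T q y) k'‖ := by
  unfold Ys at hy
  rw [Finset.mem_product, Finset.mem_product, Finset.mem_product, mem_Cs] at hy
  obtain ⟨hy1, hy2, hy3, hy4⟩ := hy
  obtain ⟨h4, h5, h6⟩ := (mem_S hR).1 hy4
  have hd : IsPrim y.1 := by
    obtain ⟨x, hx, hxe⟩ := Finset.mem_image.mp hy1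
    rw [← hxe]
    exact hJ.prim x hx
  have hn6 : 0 ≤ n6 k' := by unfold n6; positivity
  have hqu : qu k₁ y.2.2.2 = k' := by rw [hk, qu_mul h5.ne_zero]
  unfold Fy
  rw [hqu]
  split_ifs with h
  · have g1 := norm_kap_le (q := q) (t := t) hy3 h5 h6 hd
    have g2 : ‖sy y.2.2.1 k'‖ ≤ 1 := norm_sy_le' hk'
    have g3 : ‖sy k' (y.1 * y.2.2.2)‖ ≤ 1 := norm_sy_le' (hd.mul h5)
    rw [norm_mul, norm_mul, norm_mul, norm_mul, RCLike.norm_conj, Complex.norm_real,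
      Real.norm_eq_abs, abs_of_nonneg hn6]
    calc ‖kap q t y‖ * (n6 k' * ‖sy y.2.2.1 k'‖ * ‖sy k' (y.1 * y.2.2.2)‖ *
          ‖CS (be J om T q y) k'‖) ≤ 1 * (n6 k' * 1 * 1 * ‖CS (be J om T q y) k'‖) := by
          gcongr
      _ = _ := by ring
  · rw [norm_zero]
    exact mul_nonneg hn6 (norm_nonneg _)

lemma Fy_zero {E0 R : ℝ} {y : Yp} (h : ¬ (y.2.2.2 ∣ k₁ ∧ y.2.1 ∣ k₁ * q * t)) :
    Fy J om T q t k₁ y = 0 := by
  unfold Fy
  rw [if_neg h]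

/-- pointwise Cauchy -/
lemma pt_cauchy (hJ : OKJ J) {R : ℝ} (hR1 : 1 ≤ R) (hR : ∀ x ∈ J, (nm x.2 : ℝ) ≤ R)
    (hD : ∀ x ∈ J, (nm x.1 : ℝ) ≤ R) (E0 : ℝ)
    (hk₁ : IsPrim k₁) (hs : Squarefree k₁) (hq : IsPrim q) (hqs : Squarefree q)
    (hkq : IsCoprime k₁ q) (ht : IsPrim t) {τ : ℝ} (hτ0 : 0 ≤ τ) (hτ1 : (tau k₁ : ℝ) ≤ τ)
    (hτ2 : (tau (k₁ * q * t) : ℝ) ≤ τ) :
    ‖SteT J om E0 T (k₁ * q ^ 2 * t ^ 3)‖ ^ 2 ≤
      (100 * (1 + Real.log R)) * (4 * τ ^ 2) *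
        ∑ y ∈ (Ys J E0 R).filter (fun y => y.2.2.2 ∣ k₁), (nm y.1 : ℝ) *
          ‖Fy J om T q t k₁ y‖ ^ 2 := by
  have hR0 : 0 ≤ R := by linarith
  have e1 : ‖SteT J om E0 T (k₁ * q ^ 2 * t ^ 3)‖ = ‖∑ y ∈ Ys J E0 R, Fy J om T q t k₁ y‖ := by
    rw [← RCLike.norm_conj, conj_SteT_eq hJ hR E0 hk₁ hs hq hqs hkq ht, norm_mul,
      RCLike.norm_conj, norm_G_one hk₁ hs, one_mul]
  set Y1 := (Ys J E0 R).filter (fun y => y.2.2.2 ∣ k₁ ∧ y.2.1 ∣ k₁ * q * t) with hY1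
  have e2 : ∑ y ∈ Ys J E0 R, Fy J om T q t k₁ y = ∑ y ∈ Y1, Fy J om T q t k₁ y := by
    symm
    refine Finset.sum_subset (Finset.filter_subset _ _) fun y hy hyn => ?_
    rw [hY1, Finset.mem_filter, not_and] at hyn
    exact Fy_zero (E0 := E0) (R := R) (hyn hy)
  have hmem : ∀ y ∈ Ys J E0 R, IsPrim y.1 ∧ (nm y.1 : ℝ) ≤ R ∧ IsPrim y.2.1 ∧
      IsC y.2.2.1 ∧ IsPrim y.2.2.2 := by
    intro y hy
    unfold Ys at hy
    rw [Finset.mem_product, Finset.mem_product, Finset.mem_product, mem_Cs] at hy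
    obtain ⟨hy1, hy2, hy3, hy4⟩ := hy
    obtain ⟨h4, h5, h6⟩ := (mem_S hR0).1 hy4
    obtain ⟨x, hx, hxe⟩ := Finset.mem_image.mp hy1
    refine ⟨hxe ▸ hJ.prim x hx, hxe ▸ hD x hx, ?_, hy3, h5⟩
    unfold S at hy2
    rw [Finset.mem_filter, mem_primBall] at hy2
    exact hy2.1.2
  have h1 : ‖∑ y ∈ Y1, Fy J om T q t k₁ y‖ ^ 2 ≤ (∑ y ∈ Y1, (1 / (nm y.1 : ℝ))) *
      ∑ y ∈ Y1, (nm y.1 : ℝ) * ‖Fy J om T q t k₁ y‖ ^ 2 := by
    refine (pow_le_pow_left₀ (norm_nonneg _) (norm_sum_le _ _) 2).trans ?_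
    refine Finset.sum_sq_le_sum_mul_sum_of_sq_eq_mul Y1 (fun s hs => ?_) (fun s hs => ?_)
      (fun s hs => ?_)
    · positivity
    · positivity
    · have := nmpos (hmem s (Finset.mem_filter.mp hs).1).1.ne_zero
      field_simp
  have hkqt : IsPrim (k₁ * q * t) := (hk₁.mul hq).mul ht
  have h2 : ∑ y ∈ Y1, (1 / (nm y.1 : ℝ)) ≤ (100 * (1 + Real.log R)) * (4 * τ ^ 2) := by
    have hsub : Y1 ⊆ primBall ⌊R⌋₊ ×ˢ (dvs (k₁ * q * t) ×ˢ (Cs ×ˢ dvs k₁)) := by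
      intro y hy
      obtain ⟨hy1, hy2, hy3⟩ := Finset.mem_filter.mp hy
      obtain ⟨m1, m2, m3, m4, m5⟩ := hmem y hy1
      rw [Finset.mem_product, Finset.mem_product, Finset.mem_product, mem_Cs, mem_primBall,
        mem_dvs hkqt.ne_zero, mem_dvs hk₁.ne_zero]
      exact ⟨⟨Nat.le_floor m2, m1⟩, ⟨m3, hy3⟩, m4, m5, hy2⟩
    calc ∑ y ∈ Y1, (1 / (nm y.1 : ℝ))
        ≤ ∑ y ∈ primBall ⌊R⌋₊ ×ˢ (dvs (k₁ * q * t) ×ˢ (Cs ×ˢ dvs k₁)), (1 / (nm y.1 : ℝ)) :=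
          Finset.sum_le_sum_of_subset_of_nonneg hsub fun _ _ _ => by positivity
      _ = (∑ d ∈ primBall ⌊R⌋₊, (1 / (nm d : ℝ))) *
            ((dvs (k₁ * q * t)).card * (Cs.card * (dvs k₁).card) : ℕ) := by
          rw [Finset.sum_product]
          simp only [Finset.sum_const, Finset.card_product, nsmul_eq_mul]
          rw [← Finset.mul_sum, mul_comm]
      _ ≤ (100 * (1 + Real.log R)) * (4 * τ ^ 2) := by
          have g1 : ∑ d ∈ primBall ⌊R⌋₊, (1 / (nm d : ℝ)) ≤ 100 * (1 + Real.log R) := by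
            refine (sum_inv_primBall_le _).trans ?_
            have hY1 : 1 ≤ ⌊R⌋₊ := Nat.le_floor (by exact_mod_cast hR1)
            have : Real.log ⌊R⌋₊ ≤ Real.log R :=
              Real.log_le_log (by exact_mod_cast hY1) (Nat.floor_le hR0)
            linarith
          have g2 : (((dvs (k₁ * q * t)).card * (Cs.card * (dvs k₁).card) : ℕ) : ℝ) ≤
              4 * τ ^ 2 := by
            have c1 : ((Cs.card : ℕ) : ℝ) ≤ 4 := by
              have : Cs.card ≤ 4 := by unfold Cs; exact Finset.card_le_four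
              exact_mod_cast this
            have c2 : (((dvs (k₁ * q * t)).card : ℕ) : ℝ) ≤ τ := hτ2
            have c3 : (((dvs k₁).card : ℕ) : ℝ) ≤ τ := hτ1
            push_cast
            calc ((dvs (k₁ * q * t)).card : ℝ) * (Cs.card * (dvs k₁).card)
                ≤ τ * (4 * τ) := by gcongr
              _ = _ := by ring
          have g3 := Real.log_nonneg hR1
          exact mul_le_mul g1 g2 (by positivity) (by positivity)
  rw [e1, e2]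
  refine h1.trans ?_
  refine mul_le_mul h2 ?_ (Finset.sum_nonneg fun _ _ => by positivity) ?_
  · refine Finset.sum_le_sum_of_subset_of_nonneg (fun y hy => ?_) fun _ _ _ => by positivity
    obtain ⟨hy1, hy2, hy3⟩ := Finset.mem_filter.mp hy
    exact Finset.mem_filter.mpr ⟨hy1, hy2⟩
  · have := Real.log_nonneg hR1
    positivity

end pt

end Crest.Agent.R017.GHB842
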