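import Crest.Agent.R017.GHB2_842

/-!
# Row 17, R8: Gram sums by the cubic large sieve, part 3 (helper842)
-/

set_option autoImplicit false
set_option maxHeartbeats 400000

noncomputable section

open Complex
open scoped ComplexConjugate Classical

namespace Crest.Agent.R017.GHB842

open Crest.Agent.R012 Crest.Agent.R012.Eis
open Crest.Agent.R012.LS2 (S mem_S HB Final)
open Crest.Agent.R012.Div277 (dvs mem_dvs isPrim_of_mem_dvs dvd_of_mem_dvs tau tau_le_rpow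
  sum_primBall_dvs sum_inv_primBall_le)
open Crest.Agent.R017.CM106 (CS)
open Crest.Agent.R017.PX764 (norm_sy_le' n6)
open Crest.Agent.R017.E1551 (nmpos CS_fin nm_ge_one)
open Crest.Agent.R017.C70 (JC CbF OKJ)
open Crest.Agent.R017.GrB829 (IsC)
open Crest.Agent.R017.E3P842
open Crest.Agent.R017.E3A164
open Gauss880 (syG)

variable {J : Finset (Eis × Eis)} {om : Eis × Eis → ℂ} {T : Eis → Eis → Eis → ℂ} {q t : Eis}

/-- the weighted coefficient -/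
def hn (J : Finset (Eis × Eis)) (om : Eis × Eis → ℂ) (T : Eis → Eis → Eis → ℂ) (q : Eis) (y : Yp)
    (n : Eis) : ℝ :=
  if (y.1, fq q y.2.2.1 y.2.2.2 n) ∈ J then
    (nm (fq q y.2.2.1 y.2.2.2 n) : ℝ) ^ (-(1 : ℝ) / 3) *
      (‖om (y.1, fq q y.2.2.1 y.2.2.2 n)‖ ^ 2 *
        ‖T y.1 y.2.1 (fq q y.2.2.1 y.2.2.2 n)‖ ^ 2) else 0

lemma hn_nonneg (y : Yp) (n : Eis) : 0 ≤ hn J om T q y n := by
  unfold hn
  split_ifs
  · positivity
  · exact le_rfl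

lemma n6_sq (m : Eis) : n6 m ^ 2 = (nm m : ℝ) ^ (-(1 : ℝ) / 3) := by
  unfold n6
  rw [← Real.rpow_natCast, ← Real.rpow_mul (Nat.cast_nonneg _)]
  norm_num

lemma norm_be_sq_le (hq : q ≠ 0) {y : Yp} (hc : IsC y.2.2.1) (hg : y.2.2.2 ≠ 0) (n : Eis) :
    ‖be J om T q y n‖ ^ 2 ≤
      ((nm q : ℝ) * nm y.2.2.1 * (nm y.2.2.2 : ℝ) ^ 2) ^ ((1 : ℝ) / 3) * hn J om T q y n := by
  have a0 := nmpos hq
  have c0 := nmpos hc.ne_zero
  have g0 := nmpos hg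
  set M : ℝ := (nm q : ℝ) * nm y.2.2.1 * (nm y.2.2.2 : ℝ) ^ 2 with hM
  have hM0 : 0 < M := by positivity
  by_cases h : be J om T q y n = 0
  · rw [h, norm_zero, zero_pow two_ne_zero]
    have := hn_nonneg (J := J) (om := om) (T := T) (q := q) y n
    positivity
  obtain ⟨h1, h2, h3, h4⟩ := be_ne h
  have n0 := nmpos h1.ne_zero
  unfold be hn
  rw [if_pos ⟨h1, h2, h3, h4⟩, if_pos h4]
  have e1 : (nm (fq q y.2.2.1 y.2.2.2 n) : ℝ) = M * nm n := by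
    unfold fq
    rw [nm_mul, nm_mul, nm_mul, nm_pow, hM]
    push_cast
    ring
  have e2 : M ^ ((1 : ℝ) / 3) * (nm (fq q y.2.2.1 y.2.2.2 n) : ℝ) ^ (-(1 : ℝ) / 3) =
      n6 n ^ 2 := by
    rw [e1, n6_sq, Real.mul_rpow hM0.le n0.le, ← mul_assoc, ← Real.rpow_add hM0]
    norm_num
  have hn6 : 0 ≤ n6 n := by unfold n6; positivity
  simp only [norm_mul, RCLike.norm_conj, Complex.norm_real, Real.norm_eq_abs, abs_of_nonneg hn6,
    norm_G_one h1 h2, one_mul]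
  have g2 : ‖sy y.2.2.1 n‖ ≤ 1 := norm_sy_le' h1
  calc (‖om (y.1, fq q y.2.2.1 y.2.2.2 n)‖ * (‖sy y.2.2.1 n‖ * n6 n) *
        ‖T y.1 y.2.1 (fq q y.2.2.1 y.2.2.2 n)‖) ^ 2
      ≤ (‖om (y.1, fq q y.2.2.1 y.2.2.2 n)‖ * (1 * n6 n) *
        ‖T y.1 y.2.1 (fq q y.2.2.1 y.2.2.2 n)‖) ^ 2 := by gcongr
    _ = n6 n ^ 2 * (‖om (y.1, fq q y.2.2.1 y.2.2.2 n)‖ ^ 2 *
        ‖T y.1 y.2.1 (fq q y.2.2.1 y.2.2.2 n)‖ ^ 2) := by ring
    _ = _ := by rw [← mul_assoc (M ^ ((1 : ℝ) / 3)), e2]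

/-- the common factor -/
def WW (C ε τ K V B : ℝ) : ℝ :=
  (100 * (1 + Real.log B)) ^ 4 * ((100 * (1 + Real.log (V * B))) * (C * (K * (V * B)) ^ ε) * τ ^ 2)

/-- the weight of `δ` -/
def Qd (K V B d : ℝ) : ℝ := K + V * B / d ^ 2 + (K * (V * B / d ^ 2)) ^ ((2 : ℝ) / 3)

lemma Qd_nonneg {K V B d : ℝ} (hK : 0 ≤ K) (hV : 0 ≤ V) (hB : 0 ≤ B) (hd : 0 ≤ d) :
    0 ≤ Qd K V B d := by unfold Qd; positivity

/-- one parameter `y` -/
lemma one_y {ε C : ℝ} (hε : 0 ≤ ε) (hC0 : 0 ≤ C) (hC : ∀ M N : ℝ, 1 ≤ M → 1 ≤ N →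
    HB M N (C * (M * N) ^ ε * (M + N + (M * N) ^ ((2 : ℝ) / 3)))) {K V B : ℝ} (hK : 1 ≤ K)
    (hV : 1 ≤ V) (hB : 1 ≤ B) (hJ : OKJ J)
    (hJV : ∀ x ∈ J, (nm x.2 : ℝ) * (nm x.1 : ℝ) ^ 2 ≤ V) {E0 : ℝ}
    (hq : IsPrim q) (ht : IsPrim t) {y : Yp} (hy : y ∈ Ys J E0 V)
    {b : Eis → ℂ} (hb : ∀ n, b n ≠ 0 → n ∈ primBall ⌊B⌋₊) {Mb : ℝ} (hMb0 : 0 ≤ Mb)
    (hMb : ∀ s, IsPrim s → ∑ d ∈ primBall ⌊B⌋₊, ‖b (s * d)‖ ^ 2 ≤ Mb / nm s) {τ : ℝ}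
    (hτ : ∀ u ∈ primBall ⌊V * B⌋₊, (tau u : ℝ) ≤ τ) (hτ0 : 0 ≤ τ) :
    ∑ k₁ ∈ (S (K / (nm q : ℝ) ^ 2)).filter (fun k => y.2.2.2 ∣ k),
      (nm (k₁ * q ^ 2) : ℝ) ^ ((1 : ℝ) / 3) *
        (‖Fy J om T q t k₁ y‖ ^ 2 * ‖CS b (k₁ * q ^ 2 * t ^ 3)‖ ^ 2) ≤
      WW C ε τ K V B * (3 * Mb) * Qd K V B (nm y.1) * ∑ n ∈ S V, hn J om T q y n := by
  have hV0 : 0 ≤ V := by linarith
  have hB0 : 0 ≤ B := by linarith
  have hK0 : 0 ≤ K := by linarith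
  have hy' := hy
  unfold Ys at hy'
  rw [Finset.mem_product, Finset.mem_product, Finset.mem_product, mem_Cs] at hy'
  obtain ⟨hy1, hy2, hy3, hy4⟩ := hy'
  obtain ⟨h4, h5, h6⟩ := (mem_S hV0).1 hy4
  have hdp : IsPrim y.1 := by
    obtain ⟨x, hx, hxe⟩ := Finset.mem_image.mp hy1
    rw [← hxe]
    exact hJ.prim x hx
  have hR : ∀ x ∈ J, (nm x.2 : ℝ) ≤ V := fun x hx => by
    have h1 := hJV x hx
    have h2 : (1 : ℝ) ≤ nm x.1 := nm_ge_one (hJ.prim x hx).ne_zero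
    have h3 : (0 : ℝ) ≤ nm x.2 := Nat.cast_nonneg _
    have h4 : (1 : ℝ) ≤ (nm x.1 : ℝ) ^ 2 := one_le_pow₀ h2
    nlinarith
  obtain ⟨hc1, hc2⟩ := nm_C_le hy3
  have ha1 : (1 : ℝ) ≤ nm q := nm_ge_one hq.ne_zero
  have hg1 : (1 : ℝ) ≤ nm y.2.2.2 := nm_ge_one h5.ne_zero
  have hd1 : (1 : ℝ) ≤ nm y.1 := nm_ge_one hdp.ne_zero
  set a : ℝ := (nm q : ℝ) with ha
  set γ : ℝ := (nm y.2.2.2 : ℝ) with hγ
  set c : ℝ := (nm y.2.2.1 : ℝ) with hc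
  set d : ℝ := (nm y.1 : ℝ) with hd
  set K' : ℝ := K / a ^ 2 / γ with hK'
  have hK'0 : 0 ≤ K' := by positivity
  set N : ℝ := V / (d ^ 2 * (a * c * γ ^ 2)) with hN
  have hlogB := Real.log_nonneg hB
  have hVB1 : 1 ≤ V * B := by nlinarith
  have hlogVB := Real.log_nonneg hVB1
  have hWW0 : 0 ≤ WW C ε τ K V B := by unfold WW; positivity
  have hRHS : 0 ≤ WW C ε τ K V B * (3 * Mb) * Qd K V B d * ∑ n ∈ S V, hn J om T q y n := by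
    have h1 : 0 ≤ ∑ n ∈ S V, hn J om T q y n := Finset.sum_nonneg fun n _ => hn_nonneg y n
    have h2 := Qd_nonneg hK0 hV0 hB0 (by positivity : 0 ≤ d)
    positivity
  set b' : Eis → ℂ := fun n => b n * sy (y.2.2.2 * q ^ 2 * t ^ 3) n with hb'
  have hbp : ∀ n, b n ≠ 0 → IsPrim n := fun n hn => (mem_primBall.mp (hb n hn)).2
  -- reduction to `k'`
  have s1 : ∑ k₁ ∈ (S (K / a ^ 2)).filter (fun k => y.2.2.2 ∣ k),
      (nm (k₁ * q ^ 2) : ℝ) ^ ((1 : ℝ) / 3) *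
        (‖Fy J om T q t k₁ y‖ ^ 2 * ‖CS b (k₁ * q ^ 2 * t ^ 3)‖ ^ 2) ≤
      (γ * a ^ 2) ^ ((1 : ℝ) / 3) * ∑ k ∈ S K', ‖CS (be J om T q y) k * CS b' k‖ ^ 2 := by
    refine (sum_S_dvd (by positivity) h5 (fun k₁ => (nm (k₁ * q ^ 2) : ℝ) ^ ((1 : ℝ) / 3) *
        (‖Fy J om T q t k₁ y‖ ^ 2 * ‖CS b (k₁ * q ^ 2 * t ^ 3)‖ ^ 2))
        fun k => by positivity).trans ?_
    rw [Finset.mul_sum]
    refine Finset.sum_le_sum fun k hk => ?_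
    obtain ⟨k1, k2, k3⟩ := (mem_S hK'0).1 hk
    have nk := nmpos k2.ne_zero
    have e1 : (nm (y.2.2.2 * k * q ^ 2) : ℝ) ^ ((1 : ℝ) / 3) =
        (γ * a ^ 2) ^ ((1 : ℝ) / 3) * (nm k : ℝ) ^ ((1 : ℝ) / 3) := by
      rw [nm_mul, nm_mul, nm_pow]
      push_cast
      rw [← Real.mul_rpow (by positivity) (by positivity)]
      congr 1
      ring
    have e2 : CS b (y.2.2.2 * k * q ^ 2 * t ^ 3) = CS b' k := by
      rw [hb', ← CS_smul_sy hbp]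
      congr 1
      ring
    have e3 := norm_Fy_le (om := om) (T := T) (q := q) (t := t) hJ hV0 hy
      (rfl : y.2.2.2 * k = y.2.2.2 * k) k2
    have e4 : ‖Fy J om T q t (y.2.2.2 * k) y‖ ^ 2 ≤
        (nm k : ℝ) ^ (-(1 : ℝ) / 3) * ‖CS (be J om T q y) k‖ ^ 2 := by
      refine (pow_le_pow_left₀ (norm_nonneg _) e3 2).trans (le_of_eq ?_)
      rw [mul_pow, n6_sq]
    rw [e1, e2, norm_mul, mul_pow]
    calc (γ * a ^ 2) ^ ((1 : ℝ) / 3) * (nm k : ℝ) ^ ((1 : ℝ) / 3) *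
          (‖Fy J om T q t (y.2.2.2 * k) y‖ ^ 2 * ‖CS b' k‖ ^ 2)
        ≤ (γ * a ^ 2) ^ ((1 : ℝ) / 3) * (nm k : ℝ) ^ ((1 : ℝ) / 3) *
          (((nm k : ℝ) ^ (-(1 : ℝ) / 3) * ‖CS (be J om T q y) k‖ ^ 2) * ‖CS b' k‖ ^ 2) := by
          gcongr
      _ = (γ * a ^ 2) ^ ((1 : ℝ) / 3) * (((nm k : ℝ) ^ ((1 : ℝ) / 3) *
          (nm k : ℝ) ^ (-(1 : ℝ) / 3)) * (‖CS (be J om T q y) k‖ ^ 2 * ‖CS b' k‖ ^ 2)) := by ring
      _ = _ := by
          rw [← Real.rpow_add nk]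
          norm_num
  refine s1.trans ?_
  -- trivial cases
  by_cases hK1 : K' < 1
  · have : S K' = ∅ := by
      rw [Finset.eq_empty_iff_forall_notMem]
      intro k hk
      obtain ⟨k1, k2, k3⟩ := (mem_S hK'0).1 hk
      have : (1 : ℝ) ≤ nm k := nm_ge_one k2.ne_zero
      linarith
    rw [this, Finset.sum_empty, mul_zero]
    exact hRHS
  push Not at hK1
  by_cases hbe : ∀ n, be J om T q y n = 0
  · have : ∀ k, CS (be J om T q y) k = 0 := fun k => by unfold CS; simp [hbe]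
    simp only [this]
    simpa using hRHS
  push Not at hbe
  obtain ⟨n₀, hn₀⟩ := hbe
  have hNmem : ∀ n, be J om T q y n ≠ 0 → IsPrim n ∧ Squarefree n ∧ (nm n : ℝ) ≤ N ∧ 1 ≤ N := by
    intro n hn
    obtain ⟨g1, g2, g3, g4⟩ := be_ne hn
    have g5 := hJV _ g4
    have e1 : (nm (fq q y.2.2.1 y.2.2.2 n) : ℝ) = (a * c * γ ^ 2) * nm n := by
      unfold fq
      rw [nm_mul, nm_mul, nm_mul, nm_pow]
      push_cast
      ring
    simp only at g5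
    rw [e1] at g5
    have g6 : (nm n : ℝ) ≤ N := by
      rw [hN, le_div_iff₀ (by positivity)]
      calc (nm n : ℝ) * (d ^ 2 * (a * c * γ ^ 2)) = (a * c * γ ^ 2) * nm n * d ^ 2 := by ring
        _ ≤ V := g5
    exact ⟨g1, g2, g6, (nm_ge_one g1.ne_zero).trans g6⟩
  have hN1 : 1 ≤ N := (hNmem n₀ hn₀).2.2.2
  have hN0 : 0 ≤ N := by linarith
  have hNV : N ≤ V := by
    refine div_le_self hV0 ?_
    have h1 : (1 : ℝ) ≤ d ^ 2 := one_le_pow₀ hd1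
    have h2 : (1 : ℝ) ≤ γ ^ 2 := one_le_pow₀ hg1
    have h3 : (1 : ℝ) ≤ a * c := by nlinarith
    have h4 : (1 : ℝ) ≤ a * c * γ ^ 2 := by nlinarith
    nlinarith
  have hNB : N * B ≤ V * B := mul_le_mul_of_nonneg_right hNV hB0
  have hNB1 : 1 ≤ N * B := by nlinarith
  have hK'K : K' ≤ K := by
    rw [hK', div_div]
    exact div_le_self hK0 (by nlinarith [one_le_pow₀ ha1 (n := 2)])
  have key := prod_hb1 hε hC0 hC hK1 hN1 hB (β := be J om T q y) (b := b')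
    (fun n hn => (mem_S hN0).2 ⟨(hNmem n hn).2.2.1, (hNmem n hn).1, (hNmem n hn).2.1⟩)
    (fun n hn => hb n (left_ne_zero_of_mul hn)) hMb0
    (fun s hs => by
      refine le_trans (Finset.sum_le_sum fun x hx => ?_) (hMb s hs)
      refine pow_le_pow_left₀ (norm_nonneg _) ?_ 2
      rw [hb']
      simp only [norm_mul]
      exact mul_le_of_le_one_right (norm_nonneg _) (norm_sy_le' (hs.mul (mem_primBall.mp hx).2)))
    (T := τ) (fun u hu => hτ u (Div277.primBall_mono (Nat.floor_le_floor hNB) hu)) hτ0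
  have hS0 : 0 ≤ ∑ n ∈ S N, ‖be J om T q y n‖ ^ 2 := Finset.sum_nonneg fun _ _ => by positivity
  have w1 : (100 * (1 + Real.log B)) ^ 4 *
      ((100 * (1 + Real.log (N * B))) * (C * (K' * (N * B)) ^ ε) * τ ^ 2) ≤ WW C ε τ K V B := by
    unfold WW
    have l1 : Real.log (N * B) ≤ Real.log (V * B) := Real.log_le_log (by linarith) hNB
    have l0 := Real.log_nonneg hNB1
    have l2 : K' * (N * B) ≤ K * (V * B) := mul_le_mul hK'K hNB (by positivity) hK0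
    have l3 : (K' * (N * B)) ^ ε ≤ (K * (V * B)) ^ ε := Real.rpow_le_rpow (by positivity) l2 hε
    gcongr
  have w2 : ∑ n ∈ S N, ‖be J om T q y n‖ ^ 2 ≤
      (a * c * γ ^ 2) ^ ((1 : ℝ) / 3) * ∑ n ∈ S V, hn J om T q y n := by
    rw [Finset.mul_sum]
    calc ∑ n ∈ S N, ‖be J om T q y n‖ ^ 2
        ≤ ∑ n ∈ S V, ‖be J om T q y n‖ ^ 2 := by
          refine Finset.sum_le_sum_of_subset_of_nonneg (fun n hn => ?_) fun _ _ _ => by positivity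
          obtain ⟨k1, k2, k3⟩ := (mem_S hN0).1 hn
          exact (mem_S hV0).2 ⟨k1.trans hNV, k2, k3⟩
      _ ≤ _ := Finset.sum_le_sum fun n _ => norm_be_sq_le hq.ne_zero hy3 h5.ne_zero n
  have w3 := alg_ineq (K := K) (VB := V * B) (a := a) (γ := γ) (c := c) (d := d) (by linarith)
    (by positivity) ha1 hg1 hc1 hc2 hd1
  have e5 : K / (a ^ 2 * γ) = K' := by rw [hK', div_div]
  have e6 : V * B / (d ^ 2 * (a * c * γ ^ 2)) = N * B := by rw [hN]; ring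
  rw [e5, e6] at w3
  have hSV : 0 ≤ ∑ n ∈ S V, hn J om T q y n := Finset.sum_nonneg fun n _ => hn_nonneg y n
  calc (γ * a ^ 2) ^ ((1 : ℝ) / 3) * ∑ k ∈ S K', ‖CS (be J om T q y) k * CS b' k‖ ^ 2
      ≤ (γ * a ^ 2) ^ ((1 : ℝ) / 3) * (WW C ε τ K V B *
        (Mb * (K' + N * B + (K' * (N * B)) ^ ((2 : ℝ) / 3)) *
          ((a * c * γ ^ 2) ^ ((1 : ℝ) / 3) * ∑ n ∈ S V, hn J om T q y n))) := by
        refine mul_le_mul_of_nonneg_left (key.trans ?_) (by positivity)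
        rw [← mul_assoc ((100 * (1 + Real.log B)) ^ 4)]
        exact mul_le_mul w1 (mul_le_mul_of_nonneg_left w2 (by positivity)) (by positivity) hWW0
    _ = WW C ε τ K V B * Mb * ((γ * a ^ 2) ^ ((1 : ℝ) / 3) * (a * c * γ ^ 2) ^ ((1 : ℝ) / 3) *
        (K' + N * B + (K' * (N * B)) ^ ((2 : ℝ) / 3))) * ∑ n ∈ S V, hn J om T q y n := by ring
    _ ≤ WW C ε τ K V B * Mb * (3 * (K + V * B / d ^ 2 + (K * (V * B / d ^ 2)) ^ ((2 : ℝ) / 3))) *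
        ∑ n ∈ S V, hn J om T q y n := by
        refine mul_le_mul_of_nonneg_right ?_ hSV
        exact mul_le_mul_of_nonneg_left w3 (by positivity)
    _ = _ := by unfold Qd; ring

end Crest.Agent.R017.GHB842
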