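import Crest.Agent.R017.GHB4_842
import Crest.Agent.R017.E2m_440

/-!
# Row 17, R8: Gram sums by the cubic large sieve, dyadic levels (helper90)

* `lvJ J i` : the dyadic level `2^i ≤ N(j δ²) < 2^(i+1)`
* `SteT_sq_le` : `|SteT|² ≤ I ∑_i |SteT of the level i|²`
* `sum_low` : the lower cut of `k`
-/

set_option autoImplicit false

noncomputable section

open Complex
open scoped ComplexConjugate Classical

namespace Crest.Agent.R017.GHL90

open Crest.Agent.R012 Crest.Agent.R012.Eis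
open Crest.Agent.R012.LS2 (S mem_S)
open Crest.Agent.R017.CM106 (CS)
open Crest.Agent.R017.E1551 (nmpos nm_ge_one)
open Crest.Agent.R017.C70 (JC CbF OKJ)
open Crest.Agent.R017.E3A164 (SteT)
open Crest.Agent.R017.E2440 (StE TE)

/-- the dyadic level `2^i ≤ N(j δ²) < 2^(i+1)` -/
def lvJ (J : Finset (Eis × Eis)) (i : ℕ) : Finset (Eis × Eis) :=
  J.filter fun x => Nat.log 2 (nm (x.2 * x.1 ^ 2)) = i

lemma OKJ_sub {J J' : Finset (Eis × Eis)} (h : OKJ J) (hs : J' ⊆ J) : OKJ J' :=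
  ⟨fun x hx => h.prim x (hs hx), fun x hx => h.sqf x (hs hx), fun x hx => h.jc x (hs hx)⟩

lemma OKJ_lv {J : Finset (Eis × Eis)} (h : OKJ J) (i : ℕ) : OKJ (lvJ J i) :=
  OKJ_sub h (Finset.filter_subset _ _)

lemma nm_pos_x {J : Finset (Eis × Eis)} (h : OKJ J) {x : Eis × Eis} (hx : x ∈ J) :
    nm (x.2 * x.1 ^ 2) ≠ 0 := by
  have h1 := GHB842.JC_ne (h.jc x hx)
  have h2 := (h.prim x hx).ne_zero
  exact (nm_pos.2 (mul_ne_zero h1 (pow_ne_zero 2 h2))).ne'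

lemma lv_bounds {J : Finset (Eis × Eis)} (h : OKJ J) {i : ℕ} {x : Eis × Eis} (hx : x ∈ lvJ J i) :
    (2 : ℝ) ^ i ≤ nm (x.2 * x.1 ^ 2) ∧ (nm (x.2 * x.1 ^ 2) : ℝ) < 2 ^ (i + 1) := by
  obtain ⟨h1, h2⟩ := Finset.mem_filter.1 hx
  have h0 := nm_pos_x h h1
  constructor
  · have := Nat.pow_log_le_self 2 h0
    rw [h2] at this
    exact_mod_cast this
  · have := Nat.lt_pow_succ_log_self (b := 2) (by norm_num) (nm (x.2 * x.1 ^ 2))
    rw [h2] at this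
    exact_mod_cast this

lemma nm_x (x : Eis × Eis) : (nm (x.2 * x.1 ^ 2) : ℝ) = (nm x.2 : ℝ) * (nm x.1 : ℝ) ^ 2 := by
  rw [nm_mul, pow_two, nm_mul]
  push_cast
  ring

/-- the levels of a window of height `Y₁ ≤ 2^I` -/
lemma log_lt {J : Finset (Eis × Eis)} {Y₁ : ℝ} {I : ℕ}
    (hY : ∀ x ∈ J, (nm (x.2 * x.1 ^ 2) : ℝ) ≤ Y₁) (hI : Y₁ < 2 ^ I) (hJ : OKJ J) :
    ∀ x ∈ J, Nat.log 2 (nm (x.2 * x.1 ^ 2)) < I := by
  intro x hx
  refine Nat.log_lt_of_lt_pow (nm_pos_x hJ hx) ?_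
  exact_mod_cast (hY x hx).trans_lt hI

lemma sum_lv {M : Type*} [AddCommMonoid M] {J : Finset (Eis × Eis)} {I : ℕ}
    (h : ∀ x ∈ J, Nat.log 2 (nm (x.2 * x.1 ^ 2)) < I) (f : Eis × Eis → M) :
    ∑ x ∈ J, f x = ∑ i ∈ Finset.range I, ∑ x ∈ lvJ J i, f x :=
  (Finset.sum_fiberwise_of_maps_to (fun x hx => Finset.mem_range.2 (h x hx)) f).symm

lemma SteT_lv {J : Finset (Eis × Eis)} {I : ℕ}
    (h : ∀ x ∈ J, Nat.log 2 (nm (x.2 * x.1 ^ 2)) < I) (om : Eis × Eis → ℂ) (E0 : ℝ)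
    (T : Eis → Eis → Eis → ℂ) (k : Eis) :
    SteT J om E0 T k = ∑ i ∈ Finset.range I, SteT (lvJ J i) om E0 T k := by
  unfold SteT
  exact sum_lv h _

lemma sq_sum_le {ι : Type*} (s : Finset ι) (z : ι → ℂ) :
    ‖∑ i ∈ s, z i‖ ^ 2 ≤ s.card * ∑ i ∈ s, ‖z i‖ ^ 2 := by
  have h1 : ‖∑ i ∈ s, z i‖ ^ 2 ≤ (∑ i ∈ s, ‖z i‖) ^ 2 :=
    pow_le_pow_left₀ (norm_nonneg _) (norm_sum_le _ _) 2
  exact h1.trans (sq_sum_le_card_mul_sum_sq (s := s) (f := fun i => ‖z i‖))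

lemma SteT_sq_le {J : Finset (Eis × Eis)} {I : ℕ}
    (h : ∀ x ∈ J, Nat.log 2 (nm (x.2 * x.1 ^ 2)) < I) (om : Eis × Eis → ℂ) (E0 : ℝ)
    (T : Eis → Eis → Eis → ℂ) (k : Eis) :
    ‖SteT J om E0 T k‖ ^ 2 ≤ I * ∑ i ∈ Finset.range I, ‖SteT (lvJ J i) om E0 T k‖ ^ 2 := by
  rw [SteT_lv h]
  have := sq_sum_le (Finset.range I) fun i => SteT (lvJ J i) om E0 T k
  rwa [Finset.card_range] at this

/-- `StE` is `SteT` with the coefficients `TE` -/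
lemma StE_eq (E0 : ℝ) (J : Finset (Eis × Eis)) (om : Eis × Eis → ℂ) (al : Eis → ℂ) (k : Eis) :
    StE E0 J om al k = SteT J om E0 (fun d e j => TE al (d, j) e) k := rfl

/-- **dyadic levels** : a bound for each level gives a bound for the sum -/
theorem sum_levels {J : Finset (Eis × Eis)} {I : ℕ}
    (h : ∀ x ∈ J, Nat.log 2 (nm (x.2 * x.1 ^ 2)) < I) (om : Eis × Eis → ℂ) (E0 : ℝ)
    (T : Eis → Eis → Eis → ℂ) (A : Finset Eis) (w f : Eis → ℝ) (hw : ∀ k ∈ A, 0 ≤ w k)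
    (hf : ∀ k ∈ A, 0 ≤ f k) (g : Eis → Eis) {G : ℝ}
    (hG : ∀ i < I, (lvJ J i).Nonempty →
      ∑ k ∈ A, w k * (‖SteT (lvJ J i) om E0 T (g k)‖ ^ 2 * f k) ≤ G) (hG0 : 0 ≤ G) :
    ∑ k ∈ A, w k * (‖SteT J om E0 T (g k)‖ ^ 2 * f k) ≤ (I : ℝ) ^ 2 * G := by
  calc ∑ k ∈ A, w k * (‖SteT J om E0 T (g k)‖ ^ 2 * f k)
      ≤ ∑ k ∈ A, I * ∑ i ∈ Finset.range I, w k * (‖SteT (lvJ J i) om E0 T (g k)‖ ^ 2 * f k) := by
        refine Finset.sum_le_sum fun k hk => ?_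
        have h1 := SteT_sq_le h om E0 T (g k)
        have h2 := hw k hk
        have h3 := hf k hk
        calc w k * (‖SteT J om E0 T (g k)‖ ^ 2 * f k)
            ≤ w k * ((I * ∑ i ∈ Finset.range I, ‖SteT (lvJ J i) om E0 T (g k)‖ ^ 2) * f k) := by
              gcongr
          _ = _ := by
              rw [← Finset.mul_sum, ← Finset.sum_mul]
              ring
    _ = I * ∑ i ∈ Finset.range I, ∑ k ∈ A, w k * (‖SteT (lvJ J i) om E0 T (g k)‖ ^ 2 * f k) := by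
        rw [← Finset.mul_sum, Finset.sum_comm]
    _ ≤ I * ∑ i ∈ Finset.range I, G := by
        refine mul_le_mul_of_nonneg_left (Finset.sum_le_sum fun i hi => ?_) (Nat.cast_nonneg _)
        rcases (lvJ J i).eq_empty_or_nonempty with he | hne
        · rw [he]
          refine le_trans (le_of_eq (Finset.sum_eq_zero fun k _ => ?_)) hG0
          simp [SteT]
        · exact hG i (Finset.mem_range.1 hi) hne
    _ = _ := by
        rw [Finset.sum_const, Finset.card_range, nsmul_eq_mul]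
        ring

/-- **the lower cut** : `L ≤ N k` -/
theorem sum_low {A : Finset Eis} {L : ℝ} (hL : 0 < L) (F : Eis → ℝ) (hF : ∀ k, 0 ≤ F k) :
    ∑ k ∈ A.filter (fun k => L ≤ nm k), F k ≤
      L ^ (-(1 : ℝ) / 3) * ∑ k ∈ A, (nm k : ℝ) ^ ((1 : ℝ) / 3) * F k := by
  rw [Finset.mul_sum]
  calc ∑ k ∈ A.filter (fun k => L ≤ nm k), F k
      ≤ ∑ k ∈ A.filter (fun k => L ≤ nm k),
          L ^ (-(1 : ℝ) / 3) * ((nm k : ℝ) ^ ((1 : ℝ) / 3) * F k) := by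
        refine Finset.sum_le_sum fun k hk => ?_
        have h1 := (Finset.mem_filter.1 hk).2
        have h2 : 1 ≤ L ^ (-(1 : ℝ) / 3) * (nm k : ℝ) ^ ((1 : ℝ) / 3) := by
          have h3 : L ^ ((1 : ℝ) / 3) ≤ (nm k : ℝ) ^ ((1 : ℝ) / 3) :=
            Real.rpow_le_rpow hL.le h1 (by norm_num)
          have h4 : L ^ (-(1 : ℝ) / 3) * L ^ ((1 : ℝ) / 3) = 1 := by
            rw [← Real.rpow_add hL]
            norm_num
          calc (1 : ℝ) = L ^ (-(1 : ℝ) / 3) * L ^ ((1 : ℝ) / 3) := h4.symm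
            _ ≤ _ := mul_le_mul_of_nonneg_left h3 (Real.rpow_nonneg hL.le _)
        calc F k ≤ (L ^ (-(1 : ℝ) / 3) * (nm k : ℝ) ^ ((1 : ℝ) / 3)) * F k :=
              le_mul_of_one_le_left (hF k) h2
          _ = _ := by ring
    _ ≤ _ := Finset.sum_le_sum_of_subset_of_nonneg (Finset.filter_subset _ _) fun k _ _ => by
        have := hF k
        have := Real.rpow_nonneg hL.le (-(1 : ℝ) / 3)
        positivity

end Crest.Agent.R017.GHL90
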