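import Crest.Agent.R017.LamP_64
import Crest.Agent.R017.LSd_848
import Crest.Agent.R012.Sym5_645

/-!
# Row 17 (A.loc): the local sums at `λ = √-3`, II

* `ea_sq3_two` : `e(κ t / λ³) = ω^{-im(κ t)}`
* `sy_w_one_add`, `sy_sq3_one_add` : `(ω/c)_3`, `(λ/c)_3` at `c = 1 + λ² t`
* `exists_kap` : every additive character of `O/λ²` is `t ↦ e(κ t/λ³)`
* `Sl_supp`, `norm_Sl_sq` : characters modulo `λ^{j+4}`
-/

set_option autoImplicit false

noncomputable section

open Complex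
open scoped ComplexConjugate

namespace Crest.Agent.R017.LamP64

open Crest.Agent.R012 Crest.Agent.R012.Eis Crest.Agent.R012.Gauss880 Crest.Agent.R017.Loc266

lemma exp_third : cexp (2 * Real.pi / 3 * I) = wC := by
  have h5 : (2 * Real.pi / 3 : ℂ) = ((2 * Real.pi / 3 : ℝ) : ℂ) := by push_cast; ring
  rw [h5, Complex.exp_mul_I, ← Complex.ofReal_cos, ← Complex.ofReal_sin]
  have h6 : 2 * Real.pi / 3 = Real.pi - Real.pi / 3 := by ring
  rw [h6, Real.cos_pi_sub, Real.sin_pi_sub, Real.cos_pi_div_three, Real.sin_pi_div_three]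
  apply Complex.ext
  · simp [wC]; norm_num
  · simp [wC]

/-- `e(x / λ³) = ω^{-im x}` -/
lemma eC_div_sq3_cube (x : Eis) : eC (toC x / (toC sq3 * toC (sq3 ^ 2))) = wC ^ (-x.im) := by
  have h0 := sq3C_ne
  have h1 : toC x / (toC sq3 * toC (sq3 ^ 2)) = toC (x * sq3) / ((9 : ℝ) : ℂ) := by
    have h2 : toC (sq3 ^ 2) = -3 := by rw [sq3_sq, map_neg, map_ofNat]
    have h3 : toC sq3 * toC sq3 = -3 := by rw [← map_mul, ← pow_two, h2]
    rw [h2, map_mul, div_eq_div_iff (by simp [h0]) (by norm_num)]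
    push_cast
    linear_combination (3 * toC x) * h3
  rw [h1, LS848.eC_eq, Complex.div_ofReal_re, toC_re]
  have h4 : ((x * sq3).re : ℝ) - ((x * sq3).im : ℝ) / 2 = -(3 / 2) * (x.im : ℝ) := by
    rw [re_mul', im_mul', sq3_re, sq3_im]; push_cast; ring
  rw [h4]
  have h5 : ((4 * Real.pi * (-(3 / 2) * (x.im : ℝ) / 9) : ℝ) : ℂ) * I
      = ((-x.im : ℤ) : ℂ) * (2 * Real.pi / 3 * I) := by
    push_cast; ring
  rw [h5, Complex.exp_int_mul, exp_third]

lemma ea_sq3_two (κ t : Eis) : ea (sq3 ^ 2) κ t = wC ^ (-(κ * t).im) := by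
  unfold ea
  rw [← map_mul, eC_div_sq3_cube]

lemma prim_one_add (t : Eis) : IsPrim (1 + sq3 ^ 2 * t) := by
  unfold IsPrim
  rw [show 1 + sq3 ^ 2 * t - 1 = sq3 ^ 2 * t by ring, ← sq3_two_dvd_iff]
  exact dvd_mul_right _ _

lemma one_add_re (t : Eis) : (1 + sq3 ^ 2 * t).re = 1 - 3 * t.re := by
  have : 1 + sq3 ^ 2 * t = 1 - 3 * t := by rw [sq3_sq]; ring
  rw [this]; simp

lemma one_add_im (t : Eis) : (1 + sq3 ^ 2 * t).im = - (3 * t.im) := by
  have : 1 + sq3 ^ 2 * t = 1 - 3 * t := by rw [sq3_sq]; ring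
  rw [this]; simp

/-- `(ω/c)_3` at `c = 1 + λ² t` -/
lemma sy_w_one_add (t : Eis) : sy w (1 + sq3 ^ 2 * t) = ea (sq3 ^ 2) sq3 t := by
  rw [Sym645.sy_w_prim (prim_one_add t), ea_sq3_two, one_add_re, one_add_im, im_mul', sq3_re,
    sq3_im]
  apply Sym645.wC_zpow_mod
  omega

/-- `(λ/c)_3` at `c = 1 + λ² t`, `λ = √-3` -/
lemma sy_sq3_one_add (t : Eis) : sy sq3 (1 + sq3 ^ 2 * t) = ea (sq3 ^ 2) (-1) t := by
  have hp := prim_one_add t
  have e : sq3 = w * lam := by decide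
  have h1 : sy sq3 (1 + sq3 ^ 2 * t) = sy w (1 + sq3 ^ 2 * t) * sy lam (1 + sq3 ^ 2 * t) := by
    have h2 := Sym645.sy_mul_left (Sym645.prim_nm_mod hp) w lam
    rwa [← e] at h2
  rw [h1, Sym645.sy_w_prim hp, Sym645.sy_lam hp, ← zpow_add₀ wC_ne_zero, ea_sq3_two,
    one_add_re, one_add_im, im_mul']
  apply Sym645.wC_zpow_mod
  simp
  omega


/-! ### additive characters of `O/λ²` -/

lemma cube_eq_one {x : ℂ} (h : x ^ 3 = 1) : ∃ i : ℤ, x = wC ^ i := by
  have hs := wC_sq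
  have h1 : (x - 1) * ((x - wC) * (x - wC ^ 2)) = 0 := by
    have h3 := wC_cube
    have : (x - 1) * ((x - wC) * (x - wC ^ 2)) = x ^ 3 - (1 + wC + wC ^ 2) * x ^ 2
      + (wC + wC ^ 2 + wC ^ 3) * x - wC ^ 3 := by ring
    rw [this, h3, h, hs]; ring
  rcases mul_eq_zero.mp h1 with h2 | h2
  · exact ⟨0, by rw [zpow_zero]; exact sub_eq_zero.mp h2⟩
  · rcases mul_eq_zero.mp h2 with h2 | h2
    · exact ⟨1, by rw [zpow_one]; exact sub_eq_zero.mp h2⟩
    · exact ⟨2, by rw [show (2 : ℤ) = ((2 : ℕ) : ℤ) by rfl, zpow_natCast]; exact sub_eq_zero.mp h2⟩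

lemma zsmul_of_add {f : Eis → ℂ} (h0 : f 0 = 1) (hadd : ∀ s t, f (s + t) = f s * f t)
    (n : ℤ) (s : Eis) : f (n • s) = f s ^ n := by
  let φ : Multiplicative Eis →* ℂ :=
    { toFun := fun x => f x.toAdd
      map_one' := h0
      map_mul' := fun x y => hadd _ _ }
  have h1 : (φ.toHomUnits (Multiplicative.ofAdd s ^ n) : ℂ) = (φ.toHomUnits (Multiplicative.ofAdd s) : ℂ) ^ n := by
    rw [map_zpow]; simp
  exact h1

lemma exists_ea_of_add {f : Eis → ℂ} (h0 : f 0 = 1) (hadd : ∀ s t, f (s + t) = f s * f t)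
    (h3 : ∀ t, f (sq3 ^ 2 * t) = 1) : ∃ κ, ∀ t, f t = ea (sq3 ^ 2) κ t := by
  have hcube : ∀ s, f s ^ 3 = 1 := by
    intro s
    have h := zsmul_of_add h0 hadd 3 s
    have h4 : f ((3 : ℤ) • s) = 1 := by
      have : (3 : ℤ) • s = sq3 ^ 2 * (-s) := by
        rw [sq3_sq, zsmul_eq_mul]; push_cast; ring
      rw [this, h3]
    rw [h4] at h
    have h5 : f s ^ (3 : ℤ) = f s ^ 3 := by
      rw [show (3 : ℤ) = ((3 : ℕ) : ℤ) by rfl, zpow_natCast]
    rw [← h5, ← h]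
  obtain ⟨i, hi⟩ := cube_eq_one (hcube 1)
  obtain ⟨j, hj⟩ := cube_eq_one (hcube w)
  refine ⟨⟨-i - j, -i⟩, fun t => ?_⟩
  have ht : t = t.re • (1 : Eis) + t.im • w := by
    apply ext' <;> simp
  rw [ea_sq3_two]
  conv_lhs => rw [ht]
  rw [hadd, zsmul_of_add h0 hadd, zsmul_of_add h0 hadd, hi, hj, ← zpow_mul, ← zpow_mul,
    ← zpow_add₀ wC_ne_zero, im_mul']
  congr 1
  ring


/-! ### characters modulo `λ^{j+4}` -/

lemma prime_sq3 : Prime sq3 := (associated_lam_sq3.prime_iff).mp prime_lam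

variable {j : ℕ} {χ : Eis → ℂ}

lemma cop_one_add_sq3 (k : ℕ) (t : Eis) (n : ℕ) : IsCoprime (1 + sq3 ^ (k + 1) * t) (sq3 ^ n) := by
  apply IsCoprime.pow_right
  refine ⟨1, -(sq3 ^ k * t), ?_⟩
  rw [pow_succ]; ring

/-- `χ(1 + λ^{r-2} t) = e(κ t/λ³)`, `r = j + 4` -/
lemma exists_kap (hχ : IsCh (sq3 ^ (j + 4)) χ) :
    ∃ κ, ∀ t, χ (1 + sq3 ^ (j + 2) * t) = ea (sq3 ^ 2) κ t := by
  apply exists_ea_of_add
  · rw [mul_zero, add_zero, hχ.one]
  · intro s t
    rw [← hχ.mul]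
    apply hχ.per.congr
    refine ⟨-(sq3 ^ j * (s * t)), ?_⟩
    rw [show sq3 ^ (j + 4) = sq3 ^ j * sq3 ^ 4 by rw [pow_add],
      show sq3 ^ (j + 2) = sq3 ^ j * sq3 ^ 2 by rw [pow_add]]
    ring
  · intro t
    have : χ (1 + sq3 ^ (j + 2) * (sq3 ^ 2 * t)) = χ 1 := by
      apply hχ.per.congr
      exact ⟨t, by rw [show sq3 ^ (j + 4) = sq3 ^ (j + 2) * sq3 ^ 2 by rw [← pow_add]]; ring⟩
    rw [this, hχ.one]

/-- support -/
theorem Sl_supp (hχ : IsCh (sq3 ^ (j + 4)) χ) {κ : Eis}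
    (hκ : ∀ t, χ (1 + sq3 ^ (j + 2) * t) = ea (sq3 ^ 2) κ t) {v : Eis}
    (h : Sl (j + 4) χ v ≠ 0) : (3 : Eis) ∣ v + κ := by
  -- `Sl (v u) = conj χ(u) Sl v` with `u = 1 + λ^{j+2} t`; and `v u ≡ v + ...`
  have hN : sq3 ^ (j + 4) ≠ 0 := sq3_pow_ne _
  have h1 : ∀ t, ea (sq3 ^ 2) (v + κ) t = 1 := by
    intro t
    have huc := cop_one_add_sq3 (j + 1) t (j + 4)
    rw [show j + 1 + 1 = j + 2 by ring] at huc
    set u : Eis := 1 + sq3 ^ (j + 2) * t with hu
    have e1 : Sl (j + 4) χ v = (ea (sq3 ^ 2) (v + κ) t) * Sl (j + 4) χ v := by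
      conv_lhs => rw [Sl_def, ← sumMod_mul_coprime hN
        ((pmod_cut (k := j + 2) hχ.per).mul (pmod_ea hN v)) huc]
      rw [Sl_def, ← sumMod_mul_left hN]
      refine sumMod_congr fun x => ?_
      by_cases hx : (3 : Eis) ∣ x - 1
      · have hx' : (3 : Eis) ∣ u * x - 1 := by
          have : u * x - 1 = (x - 1) + sq3 ^ (j + 2) * (t * x) := by rw [hu]; ring
          rw [this]
          exact dvd_add hx ((three_dvd_sq3_pow j).mul_right _)
        rw [cut_of hx, cut_of hx', hχ.mul, hu, hκ, ← hu]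
        have e2 : ea (sq3 ^ (j + 4)) v (u * x) = ea (sq3 ^ (j + 4)) v x * ea (sq3 ^ 2) v t := by
          have e3 : u * x = x + sq3 ^ (j + 2) * (t * x) := by rw [hu]; ring
          rw [e3, ea_add hN]
          congr 1
          rw [show sq3 ^ (j + 4) = sq3 ^ (j + 2) * sq3 ^ 2 by rw [← pow_add],
            ea_mul_mod (sq3_pow_ne _), ea_comm, ea_comm _ v]
          apply ea_congr (sq3_pow_ne 2)
          rw [sq3_two_dvd_iff, show t * x - t = t * (x - 1) by ring]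
          exact hx.mul_left t
        rw [e2, ea_add_left]; ring
      · have hx' : ¬ (3 : Eis) ∣ u * x - 1 := by
          intro h'
          apply hx
          have : x - 1 = (u * x - 1) - sq3 ^ (j + 2) * (t * x) := by rw [hu]; ring
          rw [this]
          exact dvd_sub h' ((three_dvd_sq3_pow j).mul_right _)
        rw [cut_of_not hx, cut_of_not hx']; ring
    have e4 : (1 - ea (sq3 ^ 2) (v + κ) t) * Sl (j + 4) χ v = 0 := by linear_combination e1
    exact (sub_eq_zero.mp ((mul_eq_zero.mp e4).resolve_right h)).symm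
  have h2 := sumMod_ea (sq3_pow_ne 2) (v + κ)
  rw [sumMod_congr (g := fun _ => (1 : ℂ)) h1, sumMod_const (sq3_pow_ne 2)] at h2
  by_contra hcon
  rw [← sq3_two_dvd_iff] at hcon
  rw [if_neg hcon, mul_one, nm_sq3_pow] at h2
  norm_num at h2

/-- the norm, pure case -/
theorem norm_Sl_sq (hχ : IsCh (sq3 ^ (j + 4)) χ) {κ : Eis}
    (hκ : ∀ t, χ (1 + sq3 ^ (j + 2) * t) = ea (sq3 ^ 2) κ t) (hp : ¬ sq3 ∣ κ) {v : Eis}
    (hv : (3 : Eis) ∣ v + κ) : ‖Sl (j + 4) χ v‖ ^ 2 = 3 ^ (j + 4) := by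
  classical
  have hN : sq3 ^ (j + 4) ≠ 0 := sq3_pow_ne _
  have hpm : PMod (sq3 ^ (j + 4)) (cut χ) := pmod_cut (k := j + 2) hχ.per
  have h1 := parseval hN (cut χ) hpm
  -- the right hand side
  have hcnt : cnt (sq3 ^ (j + 4)) (cut χ) = 3 ^ (j + 2) := by
    unfold cnt
    have hP : PMod (sq3 ^ (j + 4)) (fun x => cut χ x * conj (cut χ x)) :=
      hpm.mul (hpm.comp _)
    have := sumMod_one_mod (k := j + 2) hP (fun x hx => by rw [cut_of_not hx, zero_mul])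
    rw [show j + 2 + 2 = j + 4 by ring] at this
    rw [this]
    have e : ∀ t, (cut χ (1 + sq3 ^ 2 * t)) * conj (cut χ (1 + sq3 ^ 2 * t)) = (fun _ => (1 : ℂ)) t := by
      intro t
      have h3 : (3 : Eis) ∣ 1 + sq3 ^ 2 * t - 1 := prim_one_add t
      beta_reduce
      rw [cut_of h3]
      exact hχ.mul_conj_self hN (cop_one_add_sq3 1 t _)
    rw [sumMod_congr e, sumMod_const (sq3_pow_ne _), nm_sq3_pow]
    push_cast; ring
  -- the left hand side: constant absolute value on the class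
  have hvc : IsCoprime v (sq3 ^ (j + 4)) := by
    apply IsCoprime.pow_right
    have hpr : Prime sq3 := prime_sq3
    rw [isCoprime_comm, hpr.coprime_iff_not_dvd]
    intro h
    apply hp
    have h3 : sq3 ∣ v + κ := Dvd.dvd.trans ⟨-sq3, by linear_combination sq3_sq⟩ hv
    have := dvd_sub h3 h
    rwa [show v + κ - v = κ by ring] at this
  have hval : ∀ x, (3 : Eis) ∣ x - v →
      Sl (j + 4) χ x * conj (Sl (j + 4) χ x) = Sl (j + 4) χ v * conj (Sl (j + 4) χ v) := by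
    intro x hx
    obtain ⟨a, b, hab⟩ := hvc
    -- `x ≡ v u mod λ^{j+4}` with `u = 1 + (x - v) a`
    have hu : (3 : Eis) ∣ 1 + (x - v) * a - 1 := by
      rw [show 1 + (x - v) * a - 1 = (x - v) * a by ring]; exact hx.mul_right a
    have h3 : Sl (j + 4) χ x = Sl (j + 4) χ (v * (1 + (x - v) * a)) := by
      apply Sl_congr
      refine ⟨b * (x - v), ?_⟩
      linear_combination (-(x - v)) * hab
    have h4 := Sl_mul (k := j + 2) hχ v hu
    rw [show j + 2 + 2 = j + 4 by ring] at h4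
    rw [h3, h4]
    have huc : IsCoprime (1 + (x - v) * a) (sq3 ^ (j + 4)) := by
      obtain ⟨s, hs⟩ := hu
      have : 1 + (x - v) * a = 1 + sq3 ^ 2 * (-s) := by rw [sq3_sq]; linear_combination hs
      rw [this]; exact cop_one_add_sq3 1 _ _
    have h5 := hχ.mul_conj_self hN huc
    rw [map_mul, Complex.conj_conj]
    linear_combination (Sl (j + 4) χ v * conj (Sl (j + 4) χ v)) * h5
  have hzero : ∀ x, ¬ (3 : Eis) ∣ x - v → Sl (j + 4) χ x * conj (Sl (j + 4) χ x) = 0 := by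
    intro x hx
    have : Sl (j + 4) χ x = 0 := by
      by_contra h
      have h6 := Sl_supp hχ hκ h
      apply hx
      have := dvd_sub h6 hv
      rwa [show x + κ - (v + κ) = x - v by ring] at this
    rw [this, zero_mul]
  have hP : PMod (sq3 ^ (j + 4)) (fun x => Sl (j + 4) χ x * conj (Sl (j + 4) χ x)) := by
    intro x t
    beta_reduce
    have : Sl (j + 4) χ (x + sq3 ^ (j + 4) * t) = Sl (j + 4) χ x := Sl_congr ⟨t, by ring⟩
    rw [this]
  -- shift the sum by `v - 1`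
  have h2 : sumMod (sq3 ^ (j + 4)) (fun r => gl (cut χ) r (sq3 ^ (j + 4)) *
      conj (gl (cut χ) r (sq3 ^ (j + 4)))) = 3 ^ (j + 2) * (Sl (j + 4) χ v * conj (Sl (j + 4) χ v)) := by
    have e0 : (fun r => gl (cut χ) r (sq3 ^ (j + 4)) * conj (gl (cut χ) r (sq3 ^ (j + 4))))
        = (fun x => Sl (j + 4) χ x * conj (Sl (j + 4) χ x)) := rfl
    rw [e0, ← sumMod_shift hN hP (v - 1)]
    have hP' : PMod (sq3 ^ (j + 2 + 2)) (fun x => Sl (j + 4) χ (x + (v - 1)) *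
        conj (Sl (j + 4) χ (x + (v - 1)))) := hP.comp_add (v - 1)
    rw [sumMod_one_mod (k := j + 2) hP' (fun x hx => by
      apply hzero
      rwa [show x + (v - 1) - v = x - 1 by ring])]
    have e1 : ∀ t, Sl (j + 4) χ (1 + sq3 ^ 2 * t + (v - 1)) *
        conj (Sl (j + 4) χ (1 + sq3 ^ 2 * t + (v - 1))) =
        (fun _ => Sl (j + 4) χ v * conj (Sl (j + 4) χ v)) t := by
      intro t
      apply hval
      rw [show 1 + sq3 ^ 2 * t + (v - 1) - v = sq3 ^ 2 * t by ring, ← sq3_two_dvd_iff]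
      exact dvd_mul_right _ _
    rw [sumMod_congr e1, sumMod_const (sq3_pow_ne _), nm_sq3_pow]
    push_cast; ring
  rw [h2, hcnt, nm_sq3_pow] at h1
  have h3 : (3 : ℂ) ^ (j + 2) ≠ 0 := pow_ne_zero _ (by norm_num)
  have h4 : Sl (j + 4) χ v * conj (Sl (j + 4) χ v) = 3 ^ (j + 4) := by
    apply mul_left_cancel₀ h3
    rw [h1]; push_cast; ring
  rw [Complex.mul_conj, Complex.normSq_eq_norm_sq] at h4
  exact_mod_cast h4

end Crest.Agent.R017.LamP64
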