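import Crest.Agent.R017.GG3_90
import Crest.Agent.R017.LamQ_64

/-!
# Row 17 (A.loc): the block at `λ = √-3`

Level `N = λ^{j+4} B`, `H : Lvl (λ^{j+4}) B e`, `e = B e'`.

* `kap_of_su` : primary `q` with primes dividing `N` satisfy `Kap`
* `QQ_lf` : `QQ(± ω^i λ^l q, lf c) = ψ(lf c) conj (ω/c)_3^i conj (λ/c)_3^l`, `c` primary
* `SL_eq_Sl` : `SL t = Sl χ_t (-(x e' t))`, `χ_t(c) = conj QQ(t, lf c)`
* `SL_cubic` : the complete table for `ψ(lf (1 + λ² y)) = e(β y/λ³)`
-/

set_option autoImplicit false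

noncomputable section

open Complex
open scoped ComplexConjugate

namespace Crest.Agent.R017.GL64

open Crest.Agent.R012 Crest.Agent.R012.Eis Crest.Agent.R012.Gauss880 Crest.Agent.R017.Loc266
open Crest.Agent.R017.Sx440 Crest.Agent.R017.Kub664 Crest.Agent.R017.Tw266
open Crest.Agent.R017.Rw266 Crest.Agent.R017.GG90 Crest.Agent.R017.LamP64

variable {B e : Eis} {j : ℕ}

lemma not_even_sq3_pow (n : ℕ) : ¬ (2 : Eis) ∣ sq3 ^ n := fun h =>
  od_sq3 (prime_two.dvd_of_dvd_pow h)

lemma eight_dvd (H : Lvl (sq3 ^ j) B e) : (8 : Eis) ∣ B :=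
  H.d8.resolve_left (fun h => not_even_sq3_pow j (Dvd.dvd.trans ⟨4, by norm_num⟩ h))

lemma nine_dvd (j : ℕ) : (9 : Eis) ∣ sq3 ^ (j + 4) := by
  refine ⟨sq3 ^ j, ?_⟩
  have : (9 : Eis) = (sq3 ^ 2) ^ 2 := by rw [sq3_sq]; norm_num
  rw [this]; ring

lemma adm_iff {c : Eis} : Adm (sq3 ^ (j + 4)) c ↔ IsPrim c := by
  constructor
  · intro h; exact h.2 (nine_dvd j)
  · intro h
    refine ⟨?_, fun _ => h⟩
    obtain ⟨s, hs⟩ := h
    have : c = 1 + sq3 ^ 2 * (-s) := by rw [sq3_sq]; linear_combination hs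
    rw [this]; exact cop_one_add_sq3 1 _ _

section

variable (H : Lvl (sq3 ^ (j + 4)) B e)
include H

lemma lf_four (c : Eis) : (4 : Eis) ∣ lf e c - 1 :=
  (Dvd.dvd.trans ⟨2, by norm_num⟩ (eight_dvd H)).trans (lf_B H.toBlk c)

lemma lf_nine (c : Eis) : (9 : Eis) ∣ lf e c - c := (nine_dvd j).trans (lf_A H.toBlk c)

lemma gn_lf {c : Eis} (hc : IsPrim c) : Gn (sq3 ^ (j + 4) * B) (lf e c) := gd_lf H (adm_iff.mpr hc)

lemma rho2_lf_one {a c : Eis} (ha : Od a) : rho2 a (lf e c) = 1 :=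
  rho2_of_four_right ha (lf_four H c)

lemma sy6_lf_neg_one {c : Eis} (hc : IsPrim c) : sy6 (-1) (lf e c) = 1 := by
  rw [sy6_neg_one (gn_lf H hc).1, rho2_lf_one H (od_of_isUnit isUnit_one.neg)]

lemma sy6_lf_w {c : Eis} (hc : IsPrim c) : sy6 w (lf e c) = conj (sy w c) := by
  have g := (gn_lf H hc).1
  rw [sy6_eq, sy2_unit_left Crest.Agent.R017.GG90.isUnit_w g.2,
    rho2_lf_one H (od_of_isUnit Crest.Agent.R017.GG90.isUnit_w), one_mul,
    Char766.suppl.w9 _ c g.1 hc (lf_nine H c)]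

lemma sy_sq3_lf {c : Eis} (hc : IsPrim c) : sy sq3 (lf e c) = sy sq3 c := by
  have g := (gn_lf H hc).1
  rw [sq3_eq, Sym645.sy_mul_left (Sym645.prim_nm_mod g.1),
    Sym645.sy_mul_left (Sym645.prim_nm_mod hc), Char766.suppl.w9 _ c g.1 hc (lf_nine H c),
    Char766.suppl.lam9 _ c g.1 hc (lf_nine H c)]

lemma sy6_lf_sq3 {c : Eis} (hc : IsPrim c) : sy6 sq3 (lf e c) = conj (sy sq3 c) := by
  have g := (gn_lf H hc).1
  rw [sy6_eq, sy2_sq3 g, rho2_lf_one H od_sq3, one_mul, sy_sq3_lf H hc]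

lemma sy6_lf_kap {b : Eis} (hb : Kap (sq3 ^ (j + 4)) e b) {c : Eis} (hc : IsPrim c) :
    sy6 b (lf e c) = 1 := by
  rw [hb.2 c (adm_iff.mpr hc)]
  exact rho2_lf_one H (gd_lf H hb.1).1.2

lemma kap_one : Kap (sq3 ^ (j + 4)) e 1 := by
  refine ⟨adm_one, fun c hc => ?_⟩
  have g := gd_lf H hc
  rw [sy6_one_left g.1.1 g.1.2, lf_one, rho2_one_left g.1.2]

lemma exists_kap_mul {q : Eis} (hq0 : q ≠ 0) (hqs : ∀ p, Prime p → p ∣ q → p ∣ B) :
    ∃ u, IsUnit u ∧ Kap (sq3 ^ (j + 4)) e (u * q) := by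
  induction q using UniqueFactorizationMonoid.induction_on_prime with
  | h₁ => exact absurd rfl hq0
  | h₂ x hx =>
    obtain ⟨v, hv⟩ := isUnit_iff_exists_inv'.mp hx
    have hvu : IsUnit v := IsUnit.of_mul_eq_one x hv
    exact ⟨v, hvu, by rw [hv]; exact kap_one H⟩
  | h₃ a p ha hp ih =>
    obtain ⟨u, hu, hK⟩ := ih ha (fun p' hp' hd => hqs p' hp' (hd.mul_left _))
    have hpB : p ∣ B := hqs p hp (dvd_mul_right _ _)
    have hps : ¬ sq3 ∣ p := by
      intro h
      have h1 : sq3 ∣ B := h.trans hpB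
      have h2 : IsCoprime sq3 sq3 := IsCoprime.of_isCoprime_of_dvd_left
        (IsCoprime.of_isCoprime_of_dvd_right H.toBlk.cop h1) (dvd_pow_self sq3 (by omega))
      exact prime_sq3.not_isUnit (isCoprime_self.mp h2)
    have hpl : ¬ lam ∣ p := fun h => hps (associated_lam_sq3.symm.dvd.trans h)
    obtain ⟨v, hv⟩ := exists_unit_mul_isPrim hpl
    have hvK : Kap (sq3 ^ (j + 4)) e ((v : Eis) * p) := by
      by_cases h2 : (2 : Eis) ∣ p
      · -- `p ~ 2`, primary associate `-2`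
        have has : Associated (2 : Eis) p := prime_two.associated_of_dvd hp h2
        have hp2 : IsPrim (-2) := ⟨-1, by norm_num⟩
        have h3 : Associated ((v : Eis) * p) (-2) := by
          have a1 : Associated ((v : Eis) * p) p := associated_unit_mul_left p _ v.isUnit
          have a2 : Associated p (-2) := has.symm.trans (Associated.neg_right (Associated.refl _))
          exact a1.trans a2
        rw [hv.eq_of_associated hp2 h3]
        exact kap_neg_two H (eight_dvd H)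
      · have hod : Od ((v : Eis) * p) := by
          intro h
          exact h2 ((v.isUnit.dvd_mul_left).mp h)
        have hvpB : (v : Eis) * p ∣ B := (v.isUnit.mul_left_dvd).mpr hpB
        refine kap_prime H ⟨hv, hod⟩ ?_ hvpB
        exact (adm_iff (j := j).mpr hv).1
    refine ⟨v * u, v.isUnit.mul hu, ?_⟩
    rw [show (v : Eis) * u * (p * a) = (v * p) * (u * a) by ring]
    exact hvK.mul H hK

lemma kap_of_su {q : Eis} (hq : IsPrim q) (hqs : SU (sq3 ^ (j + 4) * B) q) :
    Kap (sq3 ^ (j + 4)) e q := by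
  have hqB : ∀ p, Prime p → p ∣ q → p ∣ B := by
    intro p hp hd
    rcases hp.dvd_or_dvd (hqs.pr p hp hd) with h | h
    · exfalso
      have h1 : p ∣ sq3 := hp.dvd_of_dvd_pow h
      have h2 : Associated p sq3 := hp.associated_of_dvd prime_sq3 h1
      have h3 : sq3 ∣ q := h2.symm.dvd.trans hd
      have h4 : IsCoprime q (sq3 ^ (0 + 4)) := (adm_iff (j := 0).mpr hq).1
      have h5 : IsCoprime sq3 sq3 := IsCoprime.of_isCoprime_of_dvd_left
        (IsCoprime.of_isCoprime_of_dvd_right h4 (dvd_pow_self sq3 (by omega))) h3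
      exact prime_sq3.not_isUnit (isCoprime_self.mp h5)
    · exact h
  obtain ⟨u, hu, hK⟩ := exists_kap_mul H hqs.ne hqB
  have h1 : IsPrim (u * q) := adm_iff.mp hK.1
  have h2 : IsPrim u := by
    rw [mul_comm] at h1
    exact Sym645.prim_of_mul_left hq h1
  rw [Sym645.prim_unit_eq_one hu h2, one_mul] at hK
  exact hK

variable {ψ γ : Eis → ℂ}

/-- `QQ` on the lifts at `λ` -/
theorem QQ_lf (hγ : Gam4 γ) {s q c : Eis} {i l : ℕ} (hs : s = 1 ∨ s = -1) (hq : IsPrim q)
    (hqs : SU (sq3 ^ (j + 4) * B) q) (hc : IsPrim c) :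
    QQ (sq3 ^ (j + 4) * B) ψ γ (s * w ^ i * sq3 ^ l * q) (lf e c)
      = ψ (lf e c) * (conj (sy w c) ^ i * conj (sy sq3 c) ^ l) := by
  have g := gn_lf H hc
  rw [QQ_pos g, hγ.one_of (lf_four H c), mul_one]
  congr 1
  have e1 : -(s * w ^ i * sq3 ^ l * q) = (-s) * (w ^ i * (sq3 ^ l * q)) := by ring
  have hpow : ∀ (a : Eis) (n : ℕ), sy6 (a ^ n) (lf e c) = sy6 a (lf e c) ^ n := by
    intro a n
    induction n with
    | zero => rw [pow_zero, pow_zero, sy6_one_left g.1.1 g.1.2]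
    | succ n ih => rw [pow_succ, pow_succ, sy6_mul_left g.1.1 g.1.2, ih]
  have h1 : sy6 (-s) (lf e c) = 1 := by
    rcases hs with rfl | rfl
    · exact sy6_lf_neg_one H hc
    · rw [neg_neg]; exact sy6_one_left g.1.1 g.1.2
  rw [e1, sy6_mul_left g.1.1 g.1.2, sy6_mul_left g.1.1 g.1.2, sy6_mul_left g.1.1 g.1.2, hpow,
    hpow, h1, sy6_lf_w H hc, sy6_lf_sq3 H hc, sy6_lf_kap H (kap_of_su H hq hqs) hc]
  ring

/-- the local sum as an `Sl` -/
theorem SL_eq_Sl (hψ : IsCh (sq3 ^ (j + 4) * B) ψ) (hγ : Gam4 γ) {t x e' : Eis}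
    (ht : SU (sq3 ^ (j + 4) * B) t) (he : e = B * e') :
    SL (sq3 ^ (j + 4) * B) (sq3 ^ (j + 4)) e x ψ γ t
      = Sl (j + 4) (fun c => conj (QQ (sq3 ^ (j + 4) * B) ψ γ t (lf e c))) (-(x * e' * t)) := by
  have hA := H.A0
  unfold SL
  rw [Sl_def]
  refine sumMod_inv hA ?_ ?_ ?_
  · intro c hc
    rw [QQ_neg, zero_mul]
    intro h
    exact hc (adm_of_gn H h).1
  · intro c hc
    rw [cut_of_not, zero_mul]
    intro h
    exact hc (adm_iff.mpr h).1
  · intro c z hcz
    by_cases hc : IsPrim c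
    · have hz : IsPrim z := by
        have h3 : (3 : Eis) ∣ c * z - 1 :=
          (Dvd.dvd.trans ⟨3, by norm_num⟩ (nine_dvd j)).trans hcz
        unfold IsPrim at hc ⊢
        have : z - 1 = (c * z - 1) - (c - 1) * z := by ring
        rw [this]; exact dvd_sub h3 (hc.mul_right z)
      have gc := gn_lf H hc
      have gz := gn_lf H hz
      rw [cut_of hz]
      congr 1
      · -- `QQ (lf c) = conj (QQ (lf z))`
        have h1 : QQ (sq3 ^ (j + 4) * B) ψ γ t (lf e c * lf e z) = 1 := by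
          have h2 : sq3 ^ (j + 4) * B ∣ lf e c * lf e z - 1 := by
            have h3 := lf_mul H.toBlk c z
            have h4 := lf_congr H.toBlk hcz
            rw [lf_one] at h4
            have := dvd_sub h4 h3
            rwa [show lf e (c * z) - 1 - (lf e (c * z) - lf e c * lf e z) = lf e c * lf e z - 1 by
              ring] at this
          rw [QQ_congr H.lev hψ hγ ht h2]
          have g1 : Gn (sq3 ^ (j + 4) * B) 1 := by
            have := gn_lf H (show IsPrim (1 : Eis) by unfold IsPrim; simp)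
            rwa [lf_one] at this
          rw [QQ_pos g1, hψ.one, hγ.one, Sx440.sy6_one_right]; ring
        rw [QQ_mul hψ hγ gc gz, rho2_lf_one H gc.1.2, mul_one] at h1
        have h5 := norm_QQ H.lev hψ hγ ht gz
        have h6 : QQ (sq3 ^ (j + 4) * B) ψ γ t (lf e z) *
            conj (QQ (sq3 ^ (j + 4) * B) ψ γ t (lf e z)) = 1 := by
          rw [Complex.mul_conj, Complex.normSq_eq_norm_sq, h5]; norm_num
        calc QQ (sq3 ^ (j + 4) * B) ψ γ t (lf e c)
            = QQ (sq3 ^ (j + 4) * B) ψ γ t (lf e c) * (QQ (sq3 ^ (j + 4) * B) ψ γ t (lf e z) *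
              conj (QQ (sq3 ^ (j + 4) * B) ψ γ t (lf e z))) := by rw [h6, mul_one]
          _ = (QQ (sq3 ^ (j + 4) * B) ψ γ t (lf e c) * QQ (sq3 ^ (j + 4) * B) ψ γ t (lf e z)) *
              conj (QQ (sq3 ^ (j + 4) * B) ψ γ t (lf e z)) := by ring
          _ = _ := by rw [h1, one_mul]
      · -- the additive character
        have h7 : ea (sq3 ^ (j + 4) * B) (x * e) (-t * ivN (sq3 ^ (j + 4) * B) (lf e c))
            = ea (sq3 ^ (j + 4) * B) (x * e) (-t * z) := by
          apply ea_A H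
          have h8 : sq3 ^ (j + 4) ∣ ivN (sq3 ^ (j + 4) * B) (lf e c) - z := by
            refine iv_unique (c := lf e c) ((dvd_mul_right _ _).trans (ivN_spec gc.2).2) ?_
            have h9 := lf_A H.toBlk c
            have : lf e c * z - 1 = (c * z - 1) + (lf e c - c) * z := by ring
            rw [this]; exact dvd_add hcz (h9.mul_right z)
          rw [show -t * ivN (sq3 ^ (j + 4) * B) (lf e c) - -t * z =
            (ivN (sq3 ^ (j + 4) * B) (lf e c) - z) * (-t) by ring]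
          exact h8.mul_right _
        rw [h7]
        have hB := toC_ne_zero H.B0
        have hAC := toC_ne_zero hA
        have h3C := sq3C_ne
        unfold ea
        congr 1
        rw [he]
        simp only [map_mul, map_neg]
        field_simp
    · have hz : ¬ IsPrim z := by
        intro hz
        apply hc
        have h3 : (3 : Eis) ∣ c * z - 1 :=
          (Dvd.dvd.trans ⟨3, by norm_num⟩ (nine_dvd j)).trans hcz
        unfold IsPrim at hz ⊢
        have : c - 1 = (c * z - 1) - (z - 1) * c := by ring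
        rw [this]; exact dvd_sub h3 (hz.mul_right c)
      rw [QQ_neg (fun h => hc (adm_iff.mp (adm_of_gn H h))), cut_of_not hz, zero_mul, zero_mul]

end

end Crest.Agent.R017.GL64
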