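import Crest.Agent.R017.GG3_90

/-!
# Row 17, sextic F2: splitting of the local sums over several blocks

* `SL_mul` : `SL_{A A'} = SL_A · SL_{A'}` (`e'' = e + e'`)
* `tot_split3` : `Tot = SL_{A₁} · SL_{A₂} · SL_{A₃}` (`e₁ + e₂ + e₃ = 1`)
* `exists_lvl3` : existence of the three idempotents
-/

set_option autoImplicit false

noncomputable section

open Complex
open scoped ComplexConjugate

namespace Crest.Agent.R017.GLs74

open Crest.Agent.R012 Crest.Agent.R012.Eis Crest.Agent.R012.Gauss880 Crest.Agent.R017.Loc266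
open Crest.Agent.R017.Sx440 Crest.Agent.R017.Kub664 Crest.Agent.R017.Tw266
open Crest.Agent.R017.Rw266 Crest.Agent.R017.GG90

variable {N A B A' B' C e e' : Eis} {ψ γ : Eis → ℂ} {t x : Eis}

/-- `z` matters modulo `A` only -/
lemma ea_A' (H : Lvl A B e) (hN : A * B = N) {z z' : Eis} (h : A ∣ z - z') :
    ea N (x * e) z = ea N (x * e) z' := by
  subst hN; exact ea_A H h

/-- **product of two blocks** -/
theorem SL_mul (H : Lvl A B e) (H' : Lvl A' B' e') (H'' : Lvl (A * A') C (e + e'))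
    (hN : A * B = N) (hN' : A' * B' = N) (hN'' : A * A' * C = N) (hc : IsCoprime A A')
    (hψ : IsCh N ψ) (hγ : Gam4 γ) (ht : SU N t) :
    SL N (A * A') (e + e') x ψ γ t = SL N A e x ψ γ t * SL N A' e' x ψ γ t := by
  have hlev : Lev N := hN ▸ H.lev
  have hP : PMod A (fun c => QQ N ψ γ t (lf e c) * ea N (x * e) (-t * ivN N (lf e c))) := by
    subst hN; exact pmod_SL H hψ hγ ht
  have hP' : PMod A' (fun c => QQ N ψ γ t (lf e' c) *
      ea N (x * e') (-t * ivN N (lf e' c))) := by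
    subst hN'; exact pmod_SL H' hψ hγ ht
  have gA : ∀ {c}, Adm A c → Gn N (lf e c) := fun h => hN ▸ gd_lf H h
  have gA' : ∀ {c}, Adm A' c → Gn N (lf e' c) := fun h => hN' ▸ gd_lf H' h
  have gAA : ∀ {c}, Adm (A * A') c → Gn N (lf (e + e') c) := fun h => hN'' ▸ gd_lf H'' h
  have aA : ∀ {c}, Gn N (lf e c) → Adm A c := fun h => adm_of_gn H (hN.symm ▸ h)
  have aA' : ∀ {c}, Gn N (lf e' c) → Adm A' c := fun h => adm_of_gn H' (hN'.symm ▸ h)
  have aAA : ∀ {c}, Gn N (lf (e + e') c) → Adm (A * A') c := fun h => adm_of_gn H'' (hN''.symm ▸ h)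
  -- `A' ∣ e`, `A ∣ e'`
  have hA'B : A' ∣ B := by
    have h1 : A' ∣ A * B := by rw [hN, ← hN']; exact dvd_mul_right _ _
    exact hc.symm.dvd_of_dvd_mul_left h1
  have hAB' : A ∣ B' := by
    have h1 : A ∣ A' * B' := by rw [hN', ← hN]; exact dvd_mul_right _ _
    exact hc.dvd_of_dvd_mul_left h1
  have hN0 : N ≠ 0 := hlev.ne
  -- `lf (e+e') c ≡ lf e c * lf e' c mod N`
  have hee : N ∣ e * e' := by
    have h1 : A * A' ∣ e * e' := by
      rw [mul_comm A A']
      exact mul_dvd_mul (hA'B.trans H.e0) (hAB'.trans H'.e0)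
    have hCe : C ∣ e := by
      have h2 : C ∣ B := by
        have h3 : C * A' ∣ B := by
          have h4 : A * (A' * C) = A * B := by rw [hN, ← hN'']; ring
          exact ⟨1, by rw [mul_one, mul_comm C]; exact (mul_left_cancel₀ H.A0 h4).symm⟩
        exact (dvd_mul_right C A').trans h3
      exact h2.trans H.e0
    rw [← hN'']
    exact H''.toBlk.cop.mul_dvd h1 (hCe.mul_right e')
  have hlf : ∀ c, N ∣ lf (e + e') c - lf e c * lf e' c := by
    intro c
    rw [show lf (e + e') c - lf e c * lf e' c = -((c - 1) ^ 2 * (e * e')) by unfold lf; ring]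
    exact (dvd_neg).mpr (hee.mul_left _)
  have hadm : ∀ c, Adm (A * A') c ↔ Adm A c ∧ Adm A' c := by
    intro c
    constructor
    · intro h
      refine ⟨⟨h.1.of_mul_right_left, fun h9 => h.2 (h9.mul_right _)⟩,
        ⟨h.1.of_mul_right_right, fun h9 => h.2 (h9.mul_left _)⟩⟩
    · intro h
      refine ⟨h.1.1.mul_right h.2.1, fun h9 => ?_⟩
      rcases H.d9 with h | h9B
      · rename_i h0; exact h0.1.2 h
      · rcases H'.d9 with h' | h9B'
        · exact h.2.2 h'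
        · -- `9 ∣ A A'`, `9 ∣ B`, `9 ∣ B'`: impossible
          exfalso
          have h1 : IsCoprime (9 : Eis) A := IsCoprime.of_isCoprime_of_dvd_left H.toBlk.cop.symm h9B
          have h2 : IsCoprime (9 : Eis) A' :=
            IsCoprime.of_isCoprime_of_dvd_left H'.toBlk.cop.symm h9B'
          have h3 : IsCoprime (9 : Eis) 9 := IsCoprime.of_isCoprime_of_dvd_right (h1.mul_right h2) h9
          have h4 := isCoprime_self.mp h3
          have h5 : IsUnit (3 : Eis) := isUnit_of_dvd_unit ⟨3, by norm_num⟩ h4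
          have h6 := isUnit_iff.mp h5
          have h7 : nm (3 : Eis) = 9 := by decide
          omega
  unfold SL
  rw [← sumMod_mul_of_coprime H.A0 H'.A0 hc hP hP']
  refine sumMod_congr fun c => ?_
  by_cases hcc : Adm (A * A') c
  · obtain ⟨hA, hA'⟩ := (hadm c).mp hcc
    have g := gA hA
    have g' := gA' hA'
    have g'' := gAA hcc
    have hr : rho2 (lf e c) (lf e' c) = 1 := by
      rcases H.d8 with h8 | h8
      · refine rho2_of_four_right g.1.2 ((Dvd.dvd.trans ⟨2, by norm_num⟩ h8).trans ?_)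
        exact hAB'.trans (lf_B H'.toBlk c)
      · exact rho2_of_four_left ((Dvd.dvd.trans ⟨2, by norm_num⟩ h8).trans
          (lf_B H.toBlk c)) g'.1.2
    have h1 : QQ N ψ γ t (lf (e + e') c) = QQ N ψ γ t (lf e c) * QQ N ψ γ t (lf e' c) := by
      rw [QQ_congr hlev hψ hγ ht (hlf c), QQ_mul hψ hγ g g', hr, mul_one]
    have h2 : ea N (x * (e + e')) (-t * ivN N (lf (e + e') c)) =
        ea N (x * e) (-t * ivN N (lf e c)) * ea N (x * e') (-t * ivN N (lf e' c)) := by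
      rw [show x * (e + e') = x * e + x * e' by ring, ea_add_left]
      congr 1
      · apply ea_A' H hN
        rw [show -t * ivN N (lf (e + e') c) - -t * ivN N (lf e c) =
          (ivN N (lf (e + e') c) - ivN N (lf e c)) * (-t) by ring]
        refine (ivN_congr_dvd (hN ▸ dvd_mul_right A B) g''.2 g.2 ?_).mul_right _
        have k1 : A ∣ lf e' c - 1 := hAB'.trans (lf_B H'.toBlk c)
        have k2 : A ∣ lf (e + e') c - lf e c * lf e' c :=
          (hN ▸ dvd_mul_right A B : A ∣ N).trans (hlf c)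
        rw [show lf (e + e') c - lf e c = (lf (e + e') c - lf e c * lf e' c) +
          lf e c * (lf e' c - 1) by ring]
        exact dvd_add k2 (k1.mul_left _)
      · apply ea_A' H' hN'
        rw [show -t * ivN N (lf (e + e') c) - -t * ivN N (lf e' c) =
          (ivN N (lf (e + e') c) - ivN N (lf e' c)) * (-t) by ring]
        refine (ivN_congr_dvd (hN' ▸ dvd_mul_right A' B') g''.2 g'.2 ?_).mul_right _
        have k1 : A' ∣ lf e c - 1 := hA'B.trans (lf_B H.toBlk c)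
        have k2 : A' ∣ lf (e + e') c - lf e c * lf e' c :=
          (hN' ▸ dvd_mul_right A' B' : A' ∣ N).trans (hlf c)
        rw [show lf (e + e') c - lf e' c = (lf (e + e') c - lf e c * lf e' c) +
          lf e' c * (lf e c - 1) by ring]
        exact dvd_add k2 (k1.mul_left _)
    rw [h1, h2]; ring
  · have hn : ¬ Gn N (lf (e + e') c) := fun h => hcc (aAA h)
    rw [QQ_neg hn, zero_mul]
    by_cases hA : Adm A c
    · have hA' : ¬ Gn N (lf e' c) := fun h => hcc ((hadm c).mpr ⟨hA, aA' h⟩)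
      rw [QQ_neg hA']; ring
    · have hA' : ¬ Gn N (lf e c) := fun h => hA (aA h)
      rw [QQ_neg hA']; ring

/-- Three blocks of `N`. -/
structure Lvl3 (N A₁ A₂ A₃ e₁ e₂ e₃ : Eis) : Prop where
  hN : A₁ * A₂ * A₃ = N
  h1 : Lvl A₁ (A₂ * A₃) e₁
  h2 : Lvl A₂ (A₁ * A₃) e₂
  h3 : Lvl A₃ (A₁ * A₂) e₃
  sum : e₁ + e₂ + e₃ = 1

/-- **factorisation, three blocks** -/
theorem tot_split3 {A₁ A₂ A₃ e₁ e₂ e₃ : Eis} (H : Lvl3 N A₁ A₂ A₃ e₁ e₂ e₃)
    (hψ : IsCh N ψ) (hγ : Gam4 γ) (ht : SU N t) :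
    Tot N x ψ γ t = SL N A₁ e₁ x ψ γ t * SL N A₂ e₂ x ψ γ t * SL N A₃ e₃ x ψ γ t := by
  have e1 : A₁ * (A₂ * A₃) = N := by rw [← H.hN]; ring
  have e2 : A₂ * (A₁ * A₃) = N := by rw [← H.hN]; ring
  have e3 : A₃ * (A₁ * A₂) = N := by rw [← H.hN]; ring
  have he : 1 - e₁ = e₂ + e₃ := by linear_combination -H.sum
  have h0 : Lvl (A₂ * A₃) A₁ (e₂ + e₃) := he ▸ H.h1.symm
  have hc : IsCoprime A₂ A₃ := H.h2.toBlk.cop.of_mul_right_right
  have h4 : Tot N x ψ γ t = SL N A₁ e₁ x ψ γ t * SL N (A₂ * A₃) (1 - e₁) x ψ γ t := by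
    have := tot_split (x := x) H.h1 (by rwa [e1]) hγ (t := t) (by rwa [e1])
    rwa [e1] at this
  rw [h4, he, SL_mul H.h2 H.h3 h0 e2 e3 (by rw [← e1]; ring) hc hψ hγ ht]
  ring

lemma exists_lvl3 {A₁ A₂ A₃ : Eis} (hL : Lev N) (hN : A₁ * A₂ * A₃ = N)
    (h12 : IsCoprime A₁ A₂) (h13 : IsCoprime A₁ A₃) (h23 : IsCoprime A₂ A₃)
    (h8 : (8 : Eis) ∣ A₁) (h9 : (9 : Eis) ∣ A₂) :
    ∃ e₁ e₂ e₃, Lvl3 N A₁ A₂ A₃ e₁ e₂ e₃ := by
  have hN0 := hL.ne
  have hA1 : A₁ ≠ 0 := by rintro rfl; exact hN0 (by rw [← hN]; ring)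
  have hA2 : A₂ ≠ 0 := by rintro rfl; exact hN0 (by rw [← hN]; ring)
  have hA3 : A₃ ≠ 0 := by rintro rfl; exact hN0 (by rw [← hN]; ring)
  have e1 : A₁ * (A₂ * A₃) = N := by rw [← hN]; ring
  have e2 : A₂ * (A₁ * A₃) = N := by rw [← hN]; ring
  have e3 : A₃ * (A₁ * A₂) = N := by rw [← hN]; ring
  obtain ⟨e₁, b1⟩ := exists_blk hA1 (mul_ne_zero hA2 hA3) (h12.mul_right h13)
  obtain ⟨e₂, b2⟩ := exists_blk hA2 (mul_ne_zero hA1 hA3) (h12.symm.mul_right h23)
  have b3 : Blk A₃ (A₁ * A₂) (1 - e₁ - e₂) := by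
    refine ⟨hA3, mul_ne_zero hA1 hA2, ?_, ?_⟩
    · rw [show 1 - e₁ - e₂ - 1 = -(e₁ + e₂) by ring, dvd_neg]
      exact dvd_add ((dvd_mul_left A₃ A₂).trans b1.e0) ((dvd_mul_left A₃ A₁).trans b2.e0)
    · refine h12.mul_dvd ?_ ?_
      · rw [show 1 - e₁ - e₂ = -((e₁ - 1) + e₂) by ring, dvd_neg]
        exact dvd_add b1.e1 ((dvd_mul_right A₁ A₃).trans b2.e0)
      · rw [show 1 - e₁ - e₂ = -((e₂ - 1) + e₁) by ring, dvd_neg]
        exact dvd_add b2.e1 ((dvd_mul_right A₂ A₃).trans b1.e0)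
  exact ⟨e₁, e₂, 1 - e₁ - e₂, {
    hN := hN
    h1 := { toBlk := b1, lev := e1.symm ▸ hL, d8 := Or.inl h8, d9 := Or.inr (h9.mul_right _) }
    h2 := { toBlk := b2, lev := e2.symm ▸ hL, d8 := Or.inr (h8.mul_right _), d9 := Or.inl h9 }
    h3 := { toBlk := b3, lev := e3.symm ▸ hL, d8 := Or.inr (h8.mul_right _),
            d9 := Or.inr (h9.mul_left _) }
    sum := by ring }⟩

end Crest.Agent.R017.GLs74
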