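import Crest.Agent.R017.LBz_48
import Crest.Agent.R017.NTa_813

/-!
# Row 17, C.REMg (LB), NT (helper48): the two Gram numbers of NT

* `gn1` : the cut Gram sum at `K`, model restricted to `b ∣ x.1`, `(x.1, e) = 1`
* `gn2` : the same at the second scale
-/

set_option autoImplicit false
set_option linter.unusedVariables false

noncomputable section

open Complex MeasureTheory
open scoped ComplexConjugate Classical

namespace Crest.Agent.R017.LBx48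

open Crest.Agent.R012 Crest.Agent.R012.Eis Crest.Agent.R012.MC
open Crest.Agent.R012.LS2 (S mem_S)
open Crest.Agent.R017.CM106 (CS FS)
open Crest.Agent.R017.E1551 (Adm nmpos)
open Crest.Agent.R017.C70 (JW OKJ okJ_JW)
open Crest.Agent.R017.E2440 (TE StE StT TOK tok_TE Fh)
open Crest.Agent.R017.EHu320 (EHc)
open Crest.Agent.R017.LB48 (CrP GrP)
open Crest.Agent.R017.I1146 (omr)
open Crest.Agent.R017.E3M829 (Cut Tal Sg)
open Crest.Agent.R017.E3A164 (SteT Ys Fy)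
open Crest.Agent.R017.LBo813 (Om rho Om_nonneg Om_le_one norm_bt_le)
open Crest.Agent.R017.CubP813 (omb)

/-- the restricted model -/
lemma norm_omcb_le (N₀ N₁ : ℕ) (b e : Eis) (x : Eis × Eis) :
    ‖CubP813.omc (omb (omr (Om N₀ N₁)) b) e x‖ ≤ 1 := by
  refine (CubP813.norm_omc_le _ _ _).trans ?_
  unfold omb
  split_ifs
  · exact omr_le_one N₀ N₁ x
  · simp

lemma gn_mono {C Pe kx f f' s s' θ g x3 Bx : ℝ} (hC : 0 ≤ C) (hPe : 0 ≤ Pe) (hkx : 0 ≤ kx)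
    (hθ : 0 ≤ θ) (hf : f ≤ f') (hs : s ≤ s')
    (hg : g ≤ C * Pe * (kx * (f + θ * s)) + x3 * (kx * f' + Bx)) :
    g ≤ C * Pe * (kx * (f' + θ * s')) + x3 * (kx * f' + Bx) := by
  refine hg.trans (add_le_add ?_ le_rfl)
  have h1 : f + θ * s ≤ f' + θ * s' := add_le_add hf (mul_le_mul_of_nonneg_left hs hθ)
  exact mul_le_mul_of_nonneg_left (mul_le_mul_of_nonneg_left h1 hkx) (by positivity)

/-- `K e^(-h)` : the sixth root against `θ` -/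
lemma z_le_th' {E0 K N₁ : ℝ} (h : 1 ≤ E0) (hNn : 0 ≤ N₁) (hK : 0 < K)
    (h30 : N₁ * E0 ^ 30 ≤ K ^ 2) :
    (N₁ / (K * Real.exp (-hN E0)) ^ 2) ^ (1 / 6 : ℝ) ≤ tN E0 := by
  have h0 : 0 < E0 := by linarith
  rw [exp_hNn h]
  unfold tN
  refine LBp180.six_le (by positivity) (by positivity) ?_
  rw [div_le_iff₀ (by positivity)]
  have e1 : ((E0 ^ 2)⁻¹) ^ 6 * (K * (E0 ^ 7)⁻¹) ^ 2 = K ^ 2 * (E0 ^ 26)⁻¹ := by
    field_simp
  rw [e1, ← div_eq_mul_inv, le_div_iff₀ (by positivity)]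
  refine le_trans (mul_le_mul_of_nonneg_left ?_ hNn) h30
  exact pow_le_pow_right₀ h (by norm_num)

/-- **the Gram numbers of NT** -/
theorem gn_both {W : ℝ → ℝ} (hW : Wgt W) (hW0 : ∀ x, 0 ≤ W x) {ε : ℝ} (hε : 0 < ε) {J : ℕ} :
    ∃ C : ℝ, 0 ≤ C ∧
    ∀ (K X' Y D E0 Z' Bx : ℝ) (N₀ N₁ : ℕ), 0 < K → K ≤ Y → 0 < X' → 1 ≤ Y → 0 ≤ D → D ≤ Y →
    1 ≤ E0 → E0 ≤ Y → 1 ≤ N₁ → (N₁ : ℝ) ≤ Y → (N₁ : ℝ) ≤ Z' → (N₁ : ℝ) * E0 ^ 30 ≤ K ^ 2 →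
    ∀ be : Eis → ℂ, Adm Y X' 1 be → ∀ b e : Eis,
    (∀ K' : ℝ, K' = K ∨ K' = K * Real.exp (-hN E0) →
      Sg W K' (E0 ^ 2) N₁ (E0 ^ 14) (fun q t k₁ => ‖∑ y ∈ Ys (JW D (1 / 10) N₁) E0 N₁,
        Fy (JW D (1 / 10) N₁) (CubP813.omc (omb (omr (Om N₀ N₁)) b) e) (Tal be) q t k₁ y‖ ^ 2) ≤
      Sg W K' (E0 ^ 2) N₁ (E0 ^ 14) (fun q t k₁ => E3M829.Dg (JW D (1 / 10) N₁)
        (CubP813.omc (omb (omr (Om N₀ N₁)) b) e) (Tal be) E0 N₁ q t k₁) +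
        (E0 ^ 3)⁻¹ * ((K / X') * EHf ((J + 2 : ℕ) : ℝ) K X' Y Z' be + Bx)) →
    GrP W K (fun r => if Cut (E0 ^ 14) r then
      StE E0 (JW D (1 / 10) N₁) (CubP813.omc (omb (omr (Om N₀ N₁)) b) e) be r else 0) ≤
      C * Y ^ ε * ((K / X') * (EHf ((J + 2 : ℕ) : ℝ) K X' Y Z' be +
        tN E0 * EHs ((J + 2 : ℕ) : ℝ) K X' Y Z' E0 be)) +
      (E0 ^ 3)⁻¹ * ((K / X') * EHf ((J + 2 : ℕ) : ℝ) K X' Y Z' be + Bx) ∧
    GrP W (K * Real.exp (-hN E0)) (fun r => if Cut (E0 ^ 14) r then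
      StE E0 (JW D (1 / 10) N₁) (CubP813.omc (omb (omr (Om N₀ N₁)) b) e) be r else 0) ≤
      C * Y ^ ε * (E0 ^ 4)⁻¹ * ((K / X') * (EHf ((J + 2 : ℕ) : ℝ) K X' Y Z' be +
        EHs ((J + 2 : ℕ) : ℝ) K X' Y Z' E0 be)) +
      (E0 ^ 3)⁻¹ * ((K / X') * EHf ((J + 2 : ℕ) : ℝ) K X' Y Z' be + Bx) := by
  obtain ⟨C, hC, H⟩ := Et813.gram_T hW hW0 (R := 1) zero_le_one (A := J + 2) (by omega)
    (ε := ε) hε
  refine ⟨C, hC, ?_⟩
  intro K X' Y D E0 Z' Bx N₀ N₁ hK hKY hX' hY hD hDY hE1 hE0Y hN1 hN₁Y hNZ h30 be hadm b e hNr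
  have hE0 : 0 < E0 := by linarith
  have hY0 : 0 < Y := by linarith
  have hN10 : (0 : ℝ) < N₁ := by exact_mod_cast hN1
  have hK' : 0 < K * Real.exp (-hN E0) := by positivity
  have hK'K : K * Real.exp (-hN E0) ≤ K :=
    mul_le_of_le_one_right hK.le (Real.exp_le_one_iff.mpr (by linarith [hN_nonneg hE1]))
  have hf : EHf ((J + 2 : ℕ) : ℝ) K X' Y N₁ be ≤ EHf ((J + 2 : ℕ) : ℝ) K X' Y Z' be :=
    LBX180.EHc_monoZ _ (fun n => by positivity) _ hK.le hX'.le hNZ be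
  have hs : EHs ((J + 2 : ℕ) : ℝ) K X' Y N₁ E0 be ≤ EHs ((J + 2 : ℕ) : ℝ) K X' Y Z' E0 be :=
    LBX180.EHc_monoZ _ (fun n => Nat.cast_nonneg n) _ hK.le hX'.le hNZ be
  have hf0 : 0 ≤ EHf ((J + 2 : ℕ) : ℝ) K X' Y N₁ be :=
    EHc_nonneg (fun n => by positivity) _ hK.le hX'.le be
  have hs0 : 0 ≤ EHs ((J + 2 : ℕ) : ℝ) K X' Y N₁ E0 be :=
    EHc_nonneg (fun n => Nat.cast_nonneg n) _ hK.le hX'.le be
  have hkx : 0 ≤ K / X' := by positivity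
  have hYe : 0 ≤ Y ^ ε := by positivity
  constructor
  · have g := H Y K X' Y D (1 / 10) N₁ E0 (E0 ^ 14) (E0 ^ 2) (tN E0) hY hK hKY hX' hY le_rfl hD
      hDY hN10 hN₁Y hE0.le hE0Y (one_le_pow₀ hE1) (tN_pos hE1).le le_rfl
      (LBp180.z_le_th hE1 hN10.le hK h30) be hadm
      (CubP813.omc (omb (omr (Om N₀ N₁)) b) e) (norm_omcb_le N₀ N₁ b e) (fun r => Cut (E0 ^ 14) r)
      (fun k _ _ h => h) _ (hNr K (Or.inl rfl))
    exact gn_mono hC hYe hkx (tN_pos hE1).le hf hs g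
  · have g := H Y (K * Real.exp (-hN E0)) X' Y D (1 / 10) N₁ E0 (E0 ^ 14) (E0 ^ 2) (tN E0) hY hK'
      (hK'K.trans hKY) hX' hY le_rfl hD
      hDY hN10 hN₁Y hE0.le hE0Y (one_le_pow₀ hE1) (tN_pos hE1).le le_rfl
      (z_le_th' hE1 hN10.le hK h30) be hadm
      (CubP813.omc (omb (omr (Om N₀ N₁)) b) e) (norm_omcb_le N₀ N₁ b e) (fun r => Cut (E0 ^ 14) r)
      (fun k _ _ h => h) _ (hNr _ (Or.inr rfl))
    have e1 : EHf ((J + 2 : ℕ) : ℝ) (K * Real.exp (-hN E0)) X' Y N₁ be =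
        Real.exp (hN E0 / 3) * EHf ((J + 2 : ℕ) : ℝ) K X' Y N₁ be := by
      have := LBX180.EHc_sc (Real.exp_pos (-hN E0)).le (fun n => ((n : ℝ))⁻¹) (fun _ => True)
        (A := ((J + 2 : ℕ) : ℝ)) (X := X') (Y := Y) (Z := N₁) hK.le be
      refine this.trans ?_
      rw [← Real.exp_mul]
      congr 2
      ring
    have e2 : EHs ((J + 2 : ℕ) : ℝ) (K * Real.exp (-hN E0)) X' Y N₁ E0 be =
        Real.exp (hN E0 / 3) * EHs ((J + 2 : ℕ) : ℝ) K X' Y N₁ E0 be := by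
      have := LBX180.EHc_sc (Real.exp_pos (-hN E0)).le (fun n => (n : ℝ)) (fun e => e ∈ S E0)
        (A := ((J + 2 : ℕ) : ℝ)) (X := X') (Y := Y) (Z := N₁) hK.le be
      refine this.trans ?_
      rw [← Real.exp_mul]
      congr 2
      ring
    rw [e1, e2] at g
    refine g.trans (add_le_add ?_ le_rfl)
    have e3 : Real.exp (-hN E0) * Real.exp (hN E0 / 3) ≤ (E0 ^ 4)⁻¹ := by
      rw [← Real.exp_add]
      have a1 : Real.exp (-hN E0 + hN E0 / 3) = E0 ^ (7 * (-(2 / 3)) : ℝ) := by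
        rw [← exp_hN hE1]
        congr 1
        ring
      rw [a1]
      have a2 : (E0 ^ 4)⁻¹ = E0 ^ (-4 : ℝ) := by
        rw [Real.rpow_neg hE0.le]
        norm_num
      rw [a2]
      exact Real.rpow_le_rpow_of_exponent_le hE1 (by norm_num)
    have hin : EHf ((J + 2 : ℕ) : ℝ) K X' Y N₁ be +
        tN E0 * EHs ((J + 2 : ℕ) : ℝ) K X' Y N₁ E0 be ≤
        EHf ((J + 2 : ℕ) : ℝ) K X' Y Z' be + EHs ((J + 2 : ℕ) : ℝ) K X' Y Z' E0 be :=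
      add_le_add hf ((mul_le_of_le_one_left hs0 (tN_le_one hE1)).trans hs)
    have hin0 : 0 ≤ EHf ((J + 2 : ℕ) : ℝ) K X' Y N₁ be +
        tN E0 * EHs ((J + 2 : ℕ) : ℝ) K X' Y N₁ E0 be :=
      add_nonneg hf0 (mul_nonneg (tN_pos hE1).le hs0)
    calc C * Y ^ ε * (K * Real.exp (-hN E0) / X' *
          (Real.exp (hN E0 / 3) * EHf ((J + 2 : ℕ) : ℝ) K X' Y N₁ be +
            tN E0 * (Real.exp (hN E0 / 3) * EHs ((J + 2 : ℕ) : ℝ) K X' Y N₁ E0 be))) =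
          C * Y ^ ε * ((Real.exp (-hN E0) * Real.exp (hN E0 / 3)) * ((K / X') *
            (EHf ((J + 2 : ℕ) : ℝ) K X' Y N₁ be +
              tN E0 * EHs ((J + 2 : ℕ) : ℝ) K X' Y N₁ E0 be))) := by
          ring
      _ ≤ C * Y ^ ε * ((E0 ^ 4)⁻¹ * ((K / X') *
            (EHf ((J + 2 : ℕ) : ℝ) K X' Y Z' be + EHs ((J + 2 : ℕ) : ℝ) K X' Y Z' E0 be))) := by
          refine mul_le_mul_of_nonneg_left ?_ (by positivity)
          exact mul_le_mul e3 (mul_le_mul_of_nonneg_left hin hkx) (mul_nonneg hkx hin0)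
            (by positivity)
      _ = _ := by ring

end Crest.Agent.R017.LBx48
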