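import Crest.Agent.R017.PI1_106
import Crest.Agent.R017.TPFam_320

/-!
# Row 17, rule (P') for closed families (helper106)

* `split_sq` : vector-valued splitting, as an inequality between weighted sums of squares
* `merge_sq` : merging the frequencies `l (g c)^2`
* `G_rule` : Gauss side → character side for every closed family
-/

set_option autoImplicit false

noncomputable section

open MeasureTheory Finset
open scoped ComplexConjugate

namespace Crest.Agent.R017.GR106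

open Crest.Agent.R012
open Eis CharSum852 Gauss880 Tau671 Mob705 LS2 CR2 DualIneq811 MelSep811
open Crest.Agent.R017.PA842 (V Supp V_nonneg summable_V Lde_nonneg)
open Crest.Agent.R017.PM106 Crest.Agent.R017.PG106 Crest.Agent.R017.PI106
open Crest.Agent.R017.CM106 (CS TG FS)
open Crest.Agent.R017.TP320 (VC VG Fam SplitAt tw sq)
open Div277 (tau dvs mem_dvs tau_le_rpow)

/-- **vector-valued splitting as sums of squares** -/
theorem split_sq {J : Type} {Φ : Fam J} {R A ε s0 C : ℝ} (h : SplitAt Φ R A ε s0 C)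
    {β : Type} (I : Finset β) (a : β → Eis) (W : β → ℝ) (hW : ∀ i ∈ I, 0 ≤ W i)
    (K : Finset Eis) (c : β → Eis → ℂ) (j : J) (α τ : ℝ)
    (hα : ∀ i ∈ I, IsPrim (a i) ∧ α ≤ Real.log (nm (a i)) ∧ Real.log (nm (a i)) ≤ α + 1)
    (hc : ∀ i ∈ I, ∀ b ∈ K, c i b ≠ 0 → IsPrim b ∧ IsCoprime (a i) b)
    {M : ℝ} (hM : 0 ≤ M) (ht : ∀ j, 0 ≤ Φ.ht j)
    (hyp : ∀ j', Φ.good j' → Φ.dom R j' j → Φ.len j' ≤ Φ.len j - α + R →
      ∑ i ∈ I, W i * ‖∑ b ∈ K, Φ.w j' b * c i b‖ ^ 2 ≤ (M * Φ.ht j') ^ 2) :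
    ∑ i ∈ I, W i * ‖∑ b ∈ K, Φ.w j (a i * b) * tw s0 τ b * c i b‖ ^ 2 ≤
      (C * Real.exp (ε * |α|) * Real.exp (-s0 * (Φ.len j - α)) * (1 + |τ|) ^ A * M *
        Φ.ht j) ^ 2 := by
  classical
  set T : Finset (Eis × Eis) := ((I.image a) ×ˢ K).filter
    (fun p => IsPrim p.1 ∧ IsPrim p.2 ∧ IsCoprime p.1 p.2) with hT
  set v : Eis → Eis → EuclideanSpace ℂ I := fun p b =>
    WithLp.toLp 2 (fun i : I => if a i.1 = p then (Real.sqrt (W i.1) : ℂ) * c i.1 b else 0) with hv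
  have key : ∀ (x : Eis → Eis → ℂ) (i : I),
      (∑ p ∈ T, x p.1 p.2 • v p.1 p.2) i =
        (Real.sqrt (W i.1) : ℂ) * ∑ b ∈ K, x (a i.1) b * c i.1 b := by
    intro x i
    have e0 : (∑ p ∈ T, x p.1 p.2 • v p.1 p.2) i =
        ∑ p ∈ T, x p.1 p.2 * (if a i.1 = p.1 then (Real.sqrt (W i.1) : ℂ) * c i.1 p.2 else 0) := by
      rw [WithLp.ofLp_sum, Finset.sum_apply]
      refine Finset.sum_congr rfl fun p _ => ?_
      simp [hv]
    rw [e0]
    have e1 : ∑ p ∈ T, x p.1 p.2 * (if a i.1 = p.1 then (Real.sqrt (W i.1) : ℂ) * c i.1 p.2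
        else 0) = ∑ p ∈ (I.image a) ×ˢ K, x p.1 p.2 *
          (if a i.1 = p.1 then (Real.sqrt (W i.1) : ℂ) * c i.1 p.2 else 0) := by
      rw [hT]
      apply Finset.sum_filter_of_ne
      intro p hp hne
      rw [Finset.mem_product] at hp
      by_cases h1 : a i.1 = p.1
      · rw [if_pos h1] at hne
        have h2 : c i.1 p.2 ≠ 0 := fun h0 => hne (by rw [h0, mul_zero, mul_zero])
        have h3 := hc i.1 i.2 p.2 hp.2 h2
        rw [← h1]
        exact ⟨(hα i.1 i.2).1, h3.1, h3.2⟩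
      · rw [if_neg h1, mul_zero] at hne
        exact absurd rfl hne
    rw [e1, Finset.sum_product, Finset.sum_eq_single (a i.1)]
    · rw [Finset.mul_sum]
      refine Finset.sum_congr rfl fun b _ => ?_
      rw [if_pos rfl]
      ring
    · intro b _ hb
      refine Finset.sum_eq_zero fun y _ => ?_
      show x b y * (if a i.1 = b then _ else 0) = 0
      rw [if_neg (fun h0 => hb h0.symm), mul_zero]
    · intro h0
      exact absurd (Finset.mem_image_of_mem a i.2) h0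
  have norm_key : ∀ (x : Eis → Eis → ℂ), ‖∑ p ∈ T, x p.1 p.2 • v p.1 p.2‖ ^ 2 =
      ∑ i ∈ I, W i * ‖∑ b ∈ K, x (a i) b * c i b‖ ^ 2 := by
    intro x
    rw [EuclideanSpace.norm_sq_eq]
    have e1 : ∀ i : I, ‖(∑ p ∈ T, x p.1 p.2 • v p.1 p.2) i‖ ^ 2 =
        (fun i : β => W i * ‖∑ b ∈ K, x (a i) b * c i b‖ ^ 2) i.1 := by
      intro i
      show _ = W i.1 * ‖∑ b ∈ K, x (a i.1) b * c i.1 b‖ ^ 2
      rw [key x i, norm_mul, mul_pow]
      congr 1
      rw [Complex.norm_real, Real.norm_eq_abs, sq_abs, Real.sq_sqrt (hW i.1 i.2)]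
    rw [Finset.sum_congr rfl (fun i _ => e1 i)]
    exact Finset.sum_coe_sort I (fun i : β => W i * ‖∑ b ∈ K, x (a i) b * c i b‖ ^ 2)
  have hTm : ∀ p ∈ T, IsPrim p.1 ∧ IsPrim p.2 ∧ IsCoprime p.1 p.2 ∧
      α ≤ Real.log (nm p.1) ∧ Real.log (nm p.1) ≤ α + 1 := by
    intro p hp
    rw [hT, Finset.mem_filter, Finset.mem_product, Finset.mem_image] at hp
    obtain ⟨⟨⟨i, hi, hip⟩, _⟩, h1, h2, h3⟩ := hp
    have := hα i hi
    rw [hip] at this
    exact ⟨h1, h2, h3, this.2.1, this.2.2⟩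
  have h1 := h j α τ I T v M hM hTm (by
    intro κ hκ j' hg hd hl _
    have h2 : ‖∑ p ∈ T, (κ p.1 * Φ.w j' p.2) • v p.1 p.2‖ ^ 2 ≤ (M * Φ.ht j') ^ 2 := by
      have e := norm_key (fun x y => κ x * Φ.w j' y)
      rw [e]
      refine le_trans ?_ (hyp j' hg hd hl)
      refine Finset.sum_le_sum fun i hi => mul_le_mul_of_nonneg_left ?_ (hW i hi)
      apply pow_le_pow_left₀ (norm_nonneg _)
      have e2 : ∑ b ∈ K, κ (a i) * Φ.w j' b * c i b =
          κ (a i) * ∑ b ∈ K, Φ.w j' b * c i b := by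
        rw [Finset.mul_sum]
        exact Finset.sum_congr rfl fun _ _ => by ring
      show ‖∑ b ∈ K, κ (a i) * Φ.w j' b * c i b‖ ≤ _
      rw [e2, norm_mul]
      exact mul_le_of_le_one_left (norm_nonneg _) (hκ _)
    exact le_of_sq_le_sq h2 (mul_nonneg hM (ht j')))
  have e3 := norm_key (fun x y => Φ.w j (x * y) * tw s0 τ y)
  rw [← e3]
  exact pow_le_pow_left₀ (norm_nonneg _) h1 2

open Classical in
/-- **merging the frequencies `l (g c)²`** -/
theorem merge_sq {Λ : ℝ} (hΛ : 0 ≤ Λ) (P : Finset (Eis × Eis)) {c : Eis} (hc : c ≠ 0)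
    (hP : ∀ p ∈ P, IsPrim p.1 ∧ p.2 * (p.1 * c) ^ 2 ∈ bl Λ)
    (F : Eis → ℝ) (hF : ∀ r, 0 ≤ F r) :
    ∑ p ∈ P, F (p.2 * (p.1 * c) ^ 2) ≤ ∑ r ∈ bl Λ, (tau r : ℝ) * F r := by
  have hmaps : ∀ x ∈ P, x.2 * (x.1 * c) ^ 2 ∈ bl Λ := fun x hx => (hP x hx).2
  rw [← Finset.sum_fiberwise_of_maps_to hmaps]
  refine Finset.sum_le_sum fun r hr => ?_
  have hr0 : r ≠ 0 := ((mem_bl hΛ).1 hr).1
  set Bx := P.filter (fun x => x.2 * (x.1 * c) ^ 2 = r) with hBx
  have hmem : ∀ x ∈ Bx, x ∈ P ∧ x.2 * (x.1 * c) ^ 2 = r := by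
    intro x hx
    rwa [hBx, Finset.mem_filter] at hx
  have h1 : ∑ x ∈ Bx, F (x.2 * (x.1 * c) ^ 2) = ∑ x ∈ Bx, F r :=
    Finset.sum_congr rfl fun x hx => by rw [(hmem x hx).2]
  rw [h1, Finset.sum_const, nsmul_eq_mul]
  refine mul_le_mul_of_nonneg_right ?_ (hF r)
  unfold tau
  norm_cast
  apply Finset.card_le_card_of_injOn (fun x => x.1)
  · intro x hx
    obtain ⟨h1, h2⟩ := hmem x (Finset.mem_coe.1 hx)
    rw [Finset.mem_coe, mem_dvs hr0]
    refine ⟨(hP _ h1).1, ?_⟩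
    rw [← h2]
    exact ⟨x.2 * c ^ 2 * x.1, by ring⟩
  · intro x hx y hy hxy
    obtain ⟨h1, h2⟩ := hmem x (Finset.mem_coe.1 hx)
    obtain ⟨h1', h2'⟩ := hmem y (Finset.mem_coe.1 hy)
    have hxy' : x.1 = y.1 := hxy
    have h0 : (x.1 * c) ^ 2 ≠ 0 := pow_ne_zero 2 (mul_ne_zero (hP _ h1).1.ne_zero hc)
    have h4 : x.2 = y.2 := by
      apply mul_right_cancel₀ h0
      rw [h2, hxy', h2']
    exact Prod.ext hxy' h4

/-- the character sum of the squarefree part as a finite sum -/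
lemma CS_sq_eq {w : Eis → ℂ} {q : Eis} {X : ℝ}
    (hw : ∀ b, w b ≠ 0 → IsPrim b → Squarefree b → b ∈ S X) (r : Eis) :
    CS (TP320.sq q w) r = ∑ b ∈ S X, TP320.sq q w b * sy r b := by
  unfold CS
  apply tsum_eq_sum
  intro b hb
  have : TP320.sq q w b = 0 := by
    unfold TP320.sq
    split_ifs with h
    · by_contra h0
      exact hb (hw b h0 h.1 h.2.1)
    · rfl
  rw [this, zero_mul]

open Classical in
/-- the coefficients of the dual sums -/
def cc (q d e : Eis) (x : Eis × Eis × Eis) (b : Eis) : ℂ :=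
  if IsPrim b ∧ Squarefree b ∧ IsCoprime b (q * x.1) then
    sy (x.2.2 * (x.2.1 * (d * e * sq3)) ^ 2) b else 0

lemma cc_ne {q d e b : Eis} {x : Eis × Eis × Eis} (h : cc q d e x b ≠ 0) :
    IsPrim b ∧ Squarefree b ∧ IsCoprime b (q * x.1) ∧
      IsCoprime (x.2.2 * (x.2.1 * (d * e * sq3)) ^ 2) b := by
  unfold cc at h
  split_ifs at h with h1
  · refine ⟨h1.1, h1.2.1, h1.2.2, ?_⟩
    by_contra h2
    exact h ((syG.eq_zero _ b h1.1).2 h2)
  · exact absurd rfl h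

lemma cc_cop {q d e b : Eis} {x : Eis × Eis × Eis} (h : cc q d e x b ≠ 0) :
    IsCoprime (x.2.1 * d * x.1) b := by
  obtain ⟨_, _, h3, h4⟩ := cc_ne h
  have h5 : IsCoprime (x.2.1 * (d * e * sq3)) b := by
    have := h4.of_mul_left_right
    rw [pow_two] at this
    exact this.of_mul_left_left
  have h6 : IsCoprime x.2.1 b := h5.of_mul_left_left
  have h7 : IsCoprime d b := h5.of_mul_left_right.of_mul_left_left.of_mul_left_left
  have h8 : IsCoprime x.1 b := (h3.of_mul_right_right).symm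
  exact (h6.mul_left h7).mul_left h8

lemma sum_cc_eq {w : Eis → ℂ} {q d e : Eis} {X : ℝ}
    (hw : ∀ b, w b ≠ 0 → IsPrim b → Squarefree b → b ∈ S X) (x : Eis × Eis × Eis) :
    ∑ b ∈ S X, w b * cc q d e x b =
      CS (TP320.sq (q * x.1) w) (x.2.2 * (x.2.1 * (d * e * sq3)) ^ 2) := by
  rw [CS_sq_eq hw]
  refine Finset.sum_congr rfl fun b hb => ?_
  unfold cc TP320.sq
  split_ifs <;> simp

/-- one dyadic class of the long dual sums -/
theorem long_m {J : Type} {Φ : Fam J} {R A ε s0 C : ℝ} (hΦ : Φ.Ok R A)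
    (hs : SplitAt Φ R A ε s0 C) {j : J} {q d e : Eis} (hd : IsPrim d) (he : e ≠ 0)
    {X L Λ a Tt S1 m t : ℝ} (hL : 0 < L) (hΛ : 0 ≤ Λ) (ha : 0 ≤ a)
    (hTt : ∀ r ∈ bl Λ, (tau r : ℝ) ≤ Tt) (hTt0 : 0 ≤ Tt) (hm : 0 ≤ m)
    (hS1 : ∑ f ∈ S X, 1 / (nm f : ℝ) ≤ S1)
    (HV : ∀ j' f, Φ.good j' → Φ.dom R j' j → Φ.len j' ≤ Φ.len j + R → f ∈ S X →
      VC Λ (TP320.sq (q * f) (Φ.w j')) ≤ a / L * Real.exp (Φ.len j + Φ.len j') * Φ.ht j' ^ 2)
    (I : Finset (Eis × Eis × Eis))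
    (hI : ∀ x ∈ I, x.1 ∈ S X ∧ IsPrim x.1 ∧ IsPrim x.2.1 ∧
      x.2.2 * (x.2.1 * (d * e * sq3)) ^ 2 ∈ bl Λ ∧
      m ≤ Real.log (nm (x.2.1 * d * x.1)) ∧ Real.log (nm (x.2.1 * d * x.1)) ≤ m + 1) :
    ∑ x ∈ I, L / nm x.1 * ‖∑ b ∈ S (Real.exp (Φ.len j + 2 * R)),
      Φ.w j (x.2.1 * d * x.1 * b) * tw s0 t b * cc q d e x b‖ ^ 2 ≤
      (C * Real.exp (ε * |m|) * Real.exp (-s0 * (Φ.len j - m)) * (1 + |t|) ^ A *
        Real.sqrt (S1 * Tt * a * Real.exp (2 * Φ.len j - m + R)) * Φ.ht j) ^ 2 := by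
  classical
  have hS10 : 0 ≤ S1 := le_trans (Finset.sum_nonneg fun _ _ => by positivity) hS1
  have hht : ∀ j, 0 ≤ Φ.ht j := fun j => zero_le_one.trans (hΦ.ht1 j)
  refine split_sq hs I (fun x => x.2.1 * d * x.1) (fun x => L / nm x.1)
    (fun x _ => by positivity) (S (Real.exp (Φ.len j + 2 * R))) (cc q d e) j m t
    (fun x hx => ?_) (fun x hx b _ hb => ?_) (Real.sqrt_nonneg _) hht ?_
  · obtain ⟨_, h2, h3, _, h5, h6⟩ := hI x hx
    exact ⟨(h3.mul hd).mul h2, h5, h6⟩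
  · exact ⟨(cc_ne hb).1, cc_cop hb⟩
  · intro j' hg hdm hl
    have hR := hΦ.R0
    have hl' : Φ.len j' ≤ Φ.len j + R := by linarith
    have hX2 : 0 ≤ Real.exp (Φ.len j + 2 * R) := (Real.exp_pos _).le
    have hw : ∀ b, Φ.w j' b ≠ 0 → IsPrim b → Squarefree b →
        b ∈ S (Real.exp (Φ.len j + 2 * R)) := by
      intro b hb hp hsf
      rw [mem_S hX2]
      refine ⟨?_, hp, hsf⟩
      have h1 := (abs_le.1 (hΦ.supp j' b hb)).2
      have hb0 : (0 : ℝ) < nm b := by exact_mod_cast nm_pos.2 hp.ne_zero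
      rw [← Real.log_le_iff_le_exp hb0]
      linarith
    have e1 : ∀ x ∈ I, L / nm x.1 * ‖∑ b ∈ S (Real.exp (Φ.len j + 2 * R)),
        Φ.w j' b * cc q d e x b‖ ^ 2 = L / nm x.1 *
          ‖CS (TP320.sq (q * x.1) (Φ.w j')) (x.2.2 * (x.2.1 * (d * e * sq3)) ^ 2)‖ ^ 2 := by
      intro x _
      rw [sum_cc_eq hw]
    rw [Finset.sum_congr rfl e1]
    have e2 : ∑ x ∈ I, L / nm x.1 *
          ‖CS (TP320.sq (q * x.1) (Φ.w j')) (x.2.2 * (x.2.1 * (d * e * sq3)) ^ 2)‖ ^ 2 ≤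
        ∑ x ∈ (S X) ×ˢ (I.image Prod.snd), L / nm x.1 *
          ‖CS (TP320.sq (q * x.1) (Φ.w j')) (x.2.2 * (x.2.1 * (d * e * sq3)) ^ 2)‖ ^ 2 := by
      refine Finset.sum_le_sum_of_subset_of_nonneg (fun x hx => ?_) (fun _ _ _ => by positivity)
      rw [Finset.mem_product]
      exact ⟨(hI x hx).1, Finset.mem_image_of_mem _ hx⟩
    refine e2.trans ?_
    rw [Finset.sum_product]
    have e3 : ∀ f ∈ S X, ∑ y ∈ I.image Prod.snd, L / nm (f, y).1 *
          ‖CS (TP320.sq (q * (f, y).1) (Φ.w j')) ((f, y).2.2 *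
            ((f, y).2.1 * (d * e * sq3)) ^ 2)‖ ^ 2 ≤
        1 / (nm f : ℝ) * (Tt * (a * Real.exp (Φ.len j + Φ.len j') * Φ.ht j' ^ 2)) := by
      intro f hf
      show ∑ y ∈ I.image Prod.snd, L / nm f *
          ‖CS (TP320.sq (q * f) (Φ.w j')) (y.2 * (y.1 * (d * e * sq3)) ^ 2)‖ ^ 2 ≤ _
      rw [← Finset.mul_sum]
      have hc0 : d * e * sq3 ≠ 0 := mul_ne_zero (mul_ne_zero hd.ne_zero he) (by decide)
      have h1 := merge_sq hΛ (I.image Prod.snd) hc0 (by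
        intro y hy
        obtain ⟨x, hx, rfl⟩ := Finset.mem_image.1 hy
        exact ⟨(hI x hx).2.2.1, (hI x hx).2.2.2.1⟩)
        (fun r => ‖CS (TP320.sq (q * f) (Φ.w j')) r‖ ^ 2) (fun _ => by positivity)
      have h2 : ∑ r ∈ bl Λ, (tau r : ℝ) * ‖CS (TP320.sq (q * f) (Φ.w j')) r‖ ^ 2 ≤
          Tt * VC Λ (TP320.sq (q * f) (Φ.w j')) := by
        unfold VC
        rw [Finset.mul_sum]
        exact Finset.sum_le_sum fun r hr => mul_le_mul_of_nonneg_right (hTt r hr) (by positivity)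
      have h3 := HV j' f hg hdm hl' hf
      have h4 : ∑ y ∈ I.image Prod.snd,
          ‖CS (TP320.sq (q * f) (Φ.w j')) (y.2 * (y.1 * (d * e * sq3)) ^ 2)‖ ^ 2 ≤
          Tt * (a / L * Real.exp (Φ.len j + Φ.len j') * Φ.ht j' ^ 2) :=
        (h1.trans h2).trans (mul_le_mul_of_nonneg_left h3 hTt0)
      calc L / nm f * ∑ y ∈ I.image Prod.snd,
          ‖CS (TP320.sq (q * f) (Φ.w j')) (y.2 * (y.1 * (d * e * sq3)) ^ 2)‖ ^ 2
          ≤ L / nm f * (Tt * (a / L * Real.exp (Φ.len j + Φ.len j') * Φ.ht j' ^ 2)) :=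
            mul_le_mul_of_nonneg_left h4 (by positivity)
        _ = _ := by field_simp
    refine (Finset.sum_le_sum e3).trans ?_
    rw [← Finset.sum_mul]
    have e4 : 0 ≤ Tt * (a * Real.exp (Φ.len j + Φ.len j') * Φ.ht j' ^ 2) := by positivity
    refine (mul_le_mul_of_nonneg_right hS1 e4).trans ?_
    rw [mul_pow, Real.sq_sqrt (by positivity)]
    have e5 : Real.exp (Φ.len j + Φ.len j') ≤ Real.exp (2 * Φ.len j - m + R) := by
      apply Real.exp_le_exp.2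
      linarith
    calc S1 * (Tt * (a * Real.exp (Φ.len j + Φ.len j') * Φ.ht j' ^ 2))
        ≤ S1 * (Tt * (a * Real.exp (2 * Φ.len j - m + R) * Φ.ht j' ^ 2)) := by gcongr
      _ = _ := by ring

lemma dGg_le {w : Eis → ℂ} {X X₁ : ℝ} (hX : 0 ≤ X) (hXX : X ≤ X₁)
    (hw : ∀ n, w n ≠ 0 → (nm n : ℝ) ≤ X) {q g d e f : Eis} (l : Eis)
    (hg : IsPrim g) (hd : IsPrim d) (hf : IsPrim f) (σ t : ℝ) :
    ‖dGg (TP320.sq q w) (X / nm g) g d e f l (σ + t * Complex.I)‖ ≤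
      ‖∑ b ∈ S X₁, w (g * d * f * b) * tw (1 / 2 - σ) t b * cc q d e (f, g, l) b‖ := by
  classical
  have hX' : 0 ≤ X / nm g := by positivity
  have hX1 : 0 ≤ X₁ := hX.trans hXX
  have hg0 : (0 : ℝ) < nm g := by exact_mod_cast nm_pos.2 hg.ne_zero
  have hg1 : (1 : ℝ) ≤ nm g := by exact_mod_cast nm_pos.2 hg.ne_zero
  by_cases hsf : Squarefree (g * d * f) ∧ IsCoprime (g * d * f) q
  swap
  · have e0 : dGg (TP320.sq q w) (X / nm g) g d e f l (σ + t * Complex.I) = 0 := by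
      unfold dGg
      refine Finset.sum_eq_zero fun k _ => ?_
      have : TP320.sq q w (g * d * f * k) = 0 := by
        unfold TP320.sq
        rw [if_neg]
        rintro ⟨_, h2, h3⟩
        exact hsf ⟨h2.squarefree_of_dvd (dvd_mul_right _ _), h3.of_mul_left_left⟩
      rw [this, zero_mul, zero_mul]
    rw [e0, norm_zero]
    exact norm_nonneg _
  apply le_of_eq
  congr 1
  have hsub : S (X / nm g) ⊆ S X₁ := by
    apply S_mono hX'
    exact (div_le_self hX hg1).trans hXX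
  unfold dGg
  have e1 : ∀ k ∈ S (X / nm g), TP320.sq q w (g * d * f * k) *
      sy (l * (g * d * e * sq3) ^ 2) k * (nm k : ℂ) ^ ((σ + t * Complex.I : ℂ) - 1 / 2) =
      w (g * d * f * k) * tw (1 / 2 - σ) t k * cc q d e (f, g, l) k := by
    intro k hk
    have hk' := (mem_S hX').1 hk
    have e2 : (nm k : ℂ) ^ ((σ + t * Complex.I : ℂ) - 1 / 2) = tw (1 / 2 - σ) t k := by
      unfold tw
      congr 1
      push_cast
      ring
    have e3 : l * (g * d * e * sq3) ^ 2 = l * (g * (d * e * sq3)) ^ 2 := by ring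
    rw [e2, e3]
    by_cases h0 : sy (l * (g * (d * e * sq3)) ^ 2) k = 0
    · have : cc q d e (f, g, l) k = 0 := by
        unfold cc
        split_ifs
        · exact h0
        · rfl
      rw [h0, this]
      ring
    · have hcop : IsCoprime (l * (g * (d * e * sq3)) ^ 2) k := by
        by_contra h1
        exact h0 ((syG.eq_zero _ k hk'.2.1).2 h1)
      have h5 : IsCoprime (g * (d * e * sq3)) k := by
        have := hcop.of_mul_left_right
        rw [pow_two] at this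
        exact this.of_mul_left_left
      have h6 : IsCoprime g k := h5.of_mul_left_left
      have h7 : IsCoprime d k := h5.of_mul_left_right.of_mul_left_left.of_mul_left_left
      have hiff : (IsPrim (g * d * f * k) ∧ Squarefree (g * d * f * k) ∧
          IsCoprime (g * d * f * k) q) ↔
          (IsPrim k ∧ Squarefree k ∧ IsCoprime k (q * f)) := by
        constructor
        · rintro ⟨_, h2, h3⟩
          refine ⟨hk'.2.1, hk'.2.2, ?_⟩
          have h8 : IsCoprime (g * d * f) k := cop_of_sqf h2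
          exact (h3.of_mul_left_right).mul_right (h8.of_mul_left_right).symm
        · rintro ⟨_, _, h3⟩
          refine ⟨((hg.mul hd).mul hf).mul hk'.2.1, ?_, ?_⟩
          · have h8 : IsCoprime (g * d * f) k :=
              (h6.mul_left h7).mul_left h3.of_mul_right_right.symm
            exact (squarefree_mul_iff.mpr ⟨h8.isRelPrime, hsf.1, hk'.2.2⟩)
          · exact hsf.2.mul_left h3.of_mul_right_left
      unfold TP320.sq cc
      by_cases h9 : IsPrim k ∧ Squarefree k ∧ IsCoprime k (q * f)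
      · rw [if_pos (hiff.2 h9), if_pos h9]
        ring
      · rw [if_neg (fun h => h9 (hiff.1 h)), if_neg h9]
        ring
  rw [Finset.sum_congr rfl e1]
  apply Finset.sum_subset hsub
  intro b hb hb'
  by_contra h0
  apply hb'
  have h1 := (mem_S hX1).1 hb
  have h2 : w (g * d * f * b) ≠ 0 := left_ne_zero_of_mul (left_ne_zero_of_mul h0)
  rw [mem_S hX', le_div_iff₀ hg0]
  refine ⟨?_, h1.2⟩
  refine le_trans ?_ (hw _ h2)
  have h3 : b * g ∣ g * d * f * b := ⟨d * f, by ring⟩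
  have h4 : g * d * f * b ≠ 0 :=
    (((hg.mul hd).mul hf).mul h1.2.1).ne_zero
  have h5 := Div277.nm_le_of_dvd h4 h3
  rw [nm_mul b g] at h5
  exact_mod_cast h5

end Crest.Agent.R017.GR106
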