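import Crest.Agent.R017.GR1_106

/-!
# Row 17, rule (P') for closed families, part 2 (helper106)
-/

set_option autoImplicit false

noncomputable section

open MeasureTheory Finset
open scoped ComplexConjugate

namespace Crest.Agent.R017.GR106

open Crest.Agent.R012
open Eis CharSum852 Gauss880 Tau671 Mob705 LS2 CR2 DualIneq811 MelSep811
open Crest.Agent.R017.PA842 (V Supp V_nonneg summable_V Lde_nonneg)
open Crest.Agent.R017.PM106 Crest.Agent.R017.PG106 Crest.Agent.R017.PI106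
open Crest.Agent.R017.CM106 (CS TG FS)
open Crest.Agent.R017.TP320 (VC VG Fam SplitAt tw)
open Div277 (tau dvs mem_dvs tau_le_rpow)

lemma cardS_le {X : ℝ} (hX : 0 ≤ X) : ((S X).card : ℝ) ≤ 16 * X := by
  refine le_trans ?_ (card_bl_le hX)
  have : S X ⊆ bl X := fun n hn => by
    rw [mem_S hX] at hn
    rw [mem_bl hX]
    exact ⟨hn.2.1.ne_zero, hn.1⟩
  exact_mod_cast Finset.card_le_card this

lemma dGg_triv {α : Eis → ℂ} {X B σ S1 : ℝ} (hX : 0 ≤ X) (hσ : 0 ≤ σ)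
    (hα : ∀ n, IsPrim n → ‖α n‖ ≤ B) (hB : 0 ≤ B)
    (hS1 : ∑ f ∈ S X, 1 / (nm f : ℝ) ≤ S1) {g d e f : Eis} (l : Eis)
    (hg : IsPrim g) (hd : IsPrim d) (hf : IsPrim f) (t : ℝ) :
    ‖dGg α (X / nm g) g d e f l (σ + t * Complex.I)‖ ^ 2 ≤
      16 * (X / nm g) * (B ^ 2 * X ^ (2 * σ) * S1) := by
  have hg1 : (1 : ℝ) ≤ nm g := by exact_mod_cast nm_pos.2 hg.ne_zero
  have hX' : 0 ≤ X / nm g := by positivity
  have hXX : X / nm g ≤ X := div_le_self hX hg1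
  have h1 : ‖dGg α (X / nm g) g d e f l (σ + t * Complex.I)‖ ≤
      ∑ k ∈ S (X / nm g), B * (nm k : ℝ) ^ (σ - 1 / 2) := by
    unfold dGg
    refine (norm_sum_le _ _).trans (Finset.sum_le_sum fun k hk => ?_)
    have hk' := (mem_S hX').1 hk
    rw [norm_mul, norm_mul]
    have h2 : ‖(nm k : ℂ) ^ ((σ + t * Complex.I : ℂ) - 1 / 2)‖ = (nm k : ℝ) ^ (σ - 1 / 2) := by
      rw [Complex.norm_natCast_cpow_of_pos (nm_pos.2 hk'.2.1.ne_zero)]
      congr 1
      simp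
    rw [h2]
    refine mul_le_mul_of_nonneg_right ?_ (by positivity)
    calc ‖α (g * d * f * k)‖ * ‖sy (l * (g * d * e * sq3) ^ 2) k‖ ≤ B * 1 :=
          mul_le_mul (hα _ (((hg.mul hd).mul hf).mul hk'.2.1)) (CM106.norm_sy_le' hk'.2.1)
            (norm_nonneg _) hB
      _ = B := mul_one _
  calc ‖dGg α (X / nm g) g d e f l (σ + t * Complex.I)‖ ^ 2 ≤
        (∑ k ∈ S (X / nm g), B * (nm k : ℝ) ^ (σ - 1 / 2)) ^ 2 :=
          pow_le_pow_left₀ (norm_nonneg _) h1 2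
    _ ≤ ((S (X / nm g)).card : ℝ) * ∑ k ∈ S (X / nm g), (B * (nm k : ℝ) ^ (σ - 1 / 2)) ^ 2 :=
          sq_sum_le_card_mul_sum_sq
    _ ≤ (16 * (X / nm g)) * (B ^ 2 * X ^ (2 * σ) * S1) := by
          refine mul_le_mul (cardS_le hX') ?_ (Finset.sum_nonneg fun _ _ => by positivity)
            (by positivity)
          calc ∑ k ∈ S (X / nm g), (B * (nm k : ℝ) ^ (σ - 1 / 2)) ^ 2 ≤
                ∑ k ∈ S (X / nm g), B ^ 2 * X ^ (2 * σ) * (1 / (nm k : ℝ)) := by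
                refine Finset.sum_le_sum fun k hk => ?_
                have hk' := (mem_S hX').1 hk
                have hk0 : (0 : ℝ) < nm k := by exact_mod_cast nm_pos.2 hk'.2.1.ne_zero
                rw [mul_pow, mul_assoc]
                refine mul_le_mul_of_nonneg_left ?_ (by positivity)
                have e1 : ((nm k : ℝ) ^ (σ - 1 / 2)) ^ 2 = (nm k : ℝ) ^ (2 * σ) * (1 / nm k) := by
                  rw [← Real.rpow_natCast, ← Real.rpow_mul hk0.le]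
                  have : (σ - 1 / 2) * ((2 : ℕ) : ℝ) = 2 * σ - 1 := by push_cast; ring
                  rw [this, Real.rpow_sub_one hk0.ne']
                  ring
                rw [e1]
                refine mul_le_mul_of_nonneg_right ?_ (by positivity)
                exact Real.rpow_le_rpow hk0.le (hk'.1.trans hXX) (by positivity)
            _ = B ^ 2 * X ^ (2 * σ) * ∑ k ∈ S (X / nm g), 1 / (nm k : ℝ) := by
                rw [Finset.mul_sum]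
            _ ≤ B ^ 2 * X ^ (2 * σ) * S1 := by
                refine mul_le_mul_of_nonneg_left ?_ (by positivity)
                refine le_trans ?_ hS1
                exact Finset.sum_le_sum_of_subset_of_nonneg (S_mono hX' hXX)
                  (fun _ _ _ => by positivity)

/-- the long common divisors -/
def Long (X L : ℝ) (d e g : Eis) : Prop :=
  1 < (nm e : ℝ) * (X / nm g) ^ 2 / ((nm d : ℝ) ^ 2 * L)

/-- the sum over the short common divisors -/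
lemma short_g {α : Eis → ℂ} {X L B σ ε S1 : ℝ} (hX : 1 ≤ X) (hL : 1 ≤ L) (hσ : 0 ≤ σ)
    (hε : 0 ≤ ε) (hα : ∀ n, IsPrim n → ‖α n‖ ≤ B) (hB : 0 ≤ B)
    (hS1 : ∑ f ∈ S X, 1 / (nm f : ℝ) ≤ S1) {g d e f : Eis}
    (hg : IsPrim g) (hd : IsPrim d) (hf : IsPrim f) (hs : ¬ Long X L d e g) (t : ℝ) :
    ∑ l ∈ bl (Lde (X / nm g) L ε d e), ‖dGg α (X / nm g) g d e f l (σ + t * Complex.I)‖ ^ 2 ≤
      512 * (X * L) ^ ε * (X / nm g) * (B ^ 2 * X ^ (2 * σ) * S1) := by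
  have hX0 : 0 ≤ X := by linarith
  have hL0 : 0 ≤ L := by linarith
  have hS10 : 0 ≤ S1 := le_trans (Finset.sum_nonneg fun _ _ => by positivity) hS1
  have hg1 : (1 : ℝ) ≤ nm g := by exact_mod_cast nm_pos.2 hg.ne_zero
  have hX' : 0 ≤ X / nm g := by positivity
  have hXX : X / nm g ≤ X := div_le_self hX0 hg1
  refine (Finset.sum_le_sum fun l _ => dGg_triv (e := e) hX0 hσ hα hB hS1 l hg hd hf t).trans ?_
  rw [Finset.sum_const, nsmul_eq_mul]
  have h1 : Lde (X / nm g) L ε d e ≤ 2 * (X * L) ^ ε := by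
    unfold Lde
    unfold Long at hs
    push Not at hs
    have h2 : (X / nm g * L) ^ ε ≤ (X * L) ^ ε := by
      apply Real.rpow_le_rpow (by positivity) _ hε
      exact mul_le_mul_of_nonneg_right hXX hL0
    calc (X / nm g * L) ^ ε * (1 + nm e * (X / nm g) ^ 2 / ((nm d : ℝ) ^ 2 * L)) ≤
          (X * L) ^ ε * 2 := by
          refine mul_le_mul h2 (by linarith) ?_ (by positivity)
          have : 0 ≤ (nm e : ℝ) * (X / nm g) ^ 2 / ((nm d : ℝ) ^ 2 * L) := by positivity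
          linarith
      _ = _ := by ring
  have h3 : ((bl (Lde (X / nm g) L ε d e)).card : ℝ) ≤ 16 * (2 * (X * L) ^ ε) :=
    (card_bl_le (Lde_nonneg hX' hL0 ε d e)).trans (by linarith)
  calc ((bl (Lde (X / nm g) L ε d e)).card : ℝ) *
        (16 * (X / nm g) * (B ^ 2 * X ^ (2 * σ) * S1)) ≤
        (16 * (2 * (X * L) ^ ε)) * (16 * (X / nm g) * (B ^ 2 * X ^ (2 * σ) * S1)) := by
        refine mul_le_mul_of_nonneg_right h3 (by positivity)
    _ = _ := by ring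

/-- the frequencies of the long common divisors -/
lemma long_freq {X L ε Λ : ℝ} (hX : 1 ≤ X) (hL : 1 ≤ L) (hε : 0 ≤ ε) {g d e l : Eis}
    (hg : IsPrim g) (hd : IsPrim d) (he : e ≠ 0) (hlong : Long X L d e g)
    (hl : l ∈ bl (Lde (X / nm g) L ε d e)) (hΛ : 18 * (X * L) ^ ε * (nm e : ℝ) ^ 3 * X ^ 2 / L ≤ Λ) :
    l * (g * (d * e * sq3)) ^ 2 ∈ bl Λ := by
  have hX0 : 0 < X := by linarith
  have hL0 : 0 < L := by linarith
  have hg0 : (0 : ℝ) < nm g := by exact_mod_cast nm_pos.2 hg.ne_zero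
  have hg1 : (1 : ℝ) ≤ nm g := by exact_mod_cast nm_pos.2 hg.ne_zero
  have hd0 : (0 : ℝ) < nm d := by exact_mod_cast nm_pos.2 hd.ne_zero
  have he0 : (0 : ℝ) < nm e := by exact_mod_cast nm_pos.2 he
  have hX' : 0 ≤ X / nm g := by positivity
  have hXX : X / nm g ≤ X := div_le_self hX0.le hg1
  have hl' := (mem_bl (Lde_nonneg hX' hL0.le ε d e)).1 hl
  have hΛ0 : 0 ≤ Λ := le_trans (by positivity) hΛ
  rw [mem_bl hΛ0]
  refine ⟨mul_ne_zero hl'.1 (pow_ne_zero 2 (mul_ne_zero hg.ne_zero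
    (mul_ne_zero (mul_ne_zero hd.ne_zero he) (by decide)))), ?_⟩
  refine le_trans ?_ hΛ
  have h1 : Lde (X / nm g) L ε d e ≤
      (X * L) ^ ε * (2 * (nm e * (X / nm g) ^ 2 / ((nm d : ℝ) ^ 2 * L))) := by
    unfold Lde
    unfold Long at hlong
    have h2 : (X / nm g * L) ^ ε ≤ (X * L) ^ ε := by
      apply Real.rpow_le_rpow (by positivity) _ hε
      exact mul_le_mul_of_nonneg_right hXX hL0.le
    refine mul_le_mul h2 (by linarith) ?_ (by positivity)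
    have : 0 ≤ (nm e : ℝ) * (X / nm g) ^ 2 / ((nm d : ℝ) ^ 2 * L) := by positivity
    linarith
  have h3 : nm (l * (g * (d * e * sq3)) ^ 2) = nm l * (nm g * (nm d * nm e * 3)) ^ 2 := by
    have : nm sq3 = 3 := by decide
    rw [nm_mul, pow_two (g * (d * e * sq3)), nm_mul (g * (d * e * sq3)), nm_mul g, nm_mul (d * e),
      nm_mul d, this, pow_two]
  rw [h3]
  push_cast
  calc (nm l : ℝ) * (nm g * (nm d * nm e * 3)) ^ 2 ≤
        ((X * L) ^ ε * (2 * (nm e * (X / nm g) ^ 2 / ((nm d : ℝ) ^ 2 * L)))) *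
          (nm g * (nm d * nm e * 3)) ^ 2 :=
        mul_le_mul_of_nonneg_right (hl'.2.trans h1) (by positivity)
    _ = 18 * (X * L) ^ ε * (nm e : ℝ) ^ 3 * X ^ 2 / L := by
        field_simp
        ring

/-- the bound of one dyadic class, made uniform -/
lemma class_bound {C ε σ len m R A S1 Tt a ht X t : ℝ} (hσ : 0 ≤ σ)
    (hε : 0 ≤ ε) (hX : X = Real.exp (len + R)) (hR : 0 ≤ R) (hm : 0 ≤ m)
    (hmX : m ≤ Real.log X) (hX1 : 1 ≤ X) (hS1 : 0 ≤ S1) (hT : 0 ≤ Tt) (ha : 0 ≤ a) :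
    (C * Real.exp (ε * |m|) * Real.exp (-(1 / 2 - σ) * (len - m)) * (1 + |t|) ^ A *
        Real.sqrt (S1 * Tt * a * Real.exp (2 * len - m + R)) * ht) ^ 2 ≤
      C ^ 2 * X ^ (2 * ε + 2 * σ) * Real.exp (len + R) * (S1 * Tt * a) * ht ^ 2 *
        ((1 + |t|) ^ A) ^ 2 := by
  have hX0 : 0 < X := by linarith
  have hlog : Real.log X = len + R := by rw [hX, Real.log_exp]
  rw [abs_of_nonneg hm]
  have e1 : (C * Real.exp (ε * m) * Real.exp (-(1 / 2 - σ) * (len - m)) * (1 + |t|) ^ A *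
        Real.sqrt (S1 * Tt * a * Real.exp (2 * len - m + R)) * ht) ^ 2 =
      C ^ 2 * (Real.exp (ε * m) ^ 2 * Real.exp (-(1 / 2 - σ) * (len - m)) ^ 2 *
        Real.exp (2 * len - m + R)) * (S1 * Tt * a) * ht ^ 2 * ((1 + |t|) ^ A) ^ 2 := by
    have := Real.sq_sqrt (show 0 ≤ S1 * Tt * a * Real.exp (2 * len - m + R) by positivity)
    calc (C * Real.exp (ε * m) * Real.exp (-(1 / 2 - σ) * (len - m)) * (1 + |t|) ^ A *
        Real.sqrt (S1 * Tt * a * Real.exp (2 * len - m + R)) * ht) ^ 2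
        = C ^ 2 * Real.exp (ε * m) ^ 2 * Real.exp (-(1 / 2 - σ) * (len - m)) ^ 2 *
          ((1 + |t|) ^ A) ^ 2 * (Real.sqrt (S1 * Tt * a * Real.exp (2 * len - m + R))) ^ 2 *
          ht ^ 2 := by ring
      _ = _ := by rw [this]; ring
  rw [e1]
  have e2 : Real.exp (ε * m) ^ 2 * Real.exp (-(1 / 2 - σ) * (len - m)) ^ 2 *
        Real.exp (2 * len - m + R) ≤ X ^ (2 * ε + 2 * σ) * Real.exp (len + R) := by
    rw [← Real.exp_nat_mul, ← Real.exp_nat_mul, ← Real.exp_add, ← Real.exp_add,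
      Real.rpow_def_of_pos hX0, ← Real.exp_add]
    apply Real.exp_le_exp.2
    have h1 : ε * m ≤ ε * Real.log X := mul_le_mul_of_nonneg_left hmX hε
    have h2 : σ * (len - m) ≤ σ * Real.log X := mul_le_mul_of_nonneg_left (by linarith) hσ
    push_cast
    nlinarith
  have h3 : 0 ≤ S1 * Tt * a := by positivity
  have h4 : C ^ 2 * (Real.exp (ε * m) ^ 2 * Real.exp (-(1 / 2 - σ) * (len - m)) ^ 2 *
        Real.exp (2 * len - m + R)) ≤ C ^ 2 * (X ^ (2 * ε + 2 * σ) * Real.exp (len + R)) :=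
    mul_le_mul_of_nonneg_left e2 (sq_nonneg C)
  have h5 := mul_le_mul_of_nonneg_right (mul_le_mul_of_nonneg_right
    (mul_le_mul_of_nonneg_right h4 h3) (sq_nonneg ht)) (sq_nonneg ((1 + |t|) ^ A))
  refine h5.trans (le_of_eq ?_)
  ring

/-- the data of the dual side at fixed `d, e` -/
structure Dat {J : Type} (Φ : Fam J) (R A ε σ C : ℝ) (j : J) (q : Eis) (X L Λ a Tt S1 B : ℝ) :
    Prop where
  ok : Φ.Ok R A
  sp : SplitAt Φ R A ε (1 / 2 - σ) C
  σ0 : 0 ≤ σ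
  ε0 : 0 ≤ ε
  hX : X = Real.exp (Φ.len j + R)
  X1 : 1 ≤ X
  L1 : 1 ≤ L
  Λ0 : 0 ≤ Λ
  a0 : 0 ≤ a
  T0 : 0 ≤ Tt
  hT : ∀ r ∈ bl Λ, (tau r : ℝ) ≤ Tt
  hS : ∑ f ∈ S X, 1 / (nm f : ℝ) ≤ S1
  B0 : 0 ≤ B
  hB : ∀ n, IsPrim n → ‖TP320.sq q (Φ.w j) n‖ ≤ B
  HV : ∀ j' f, Φ.good j' → Φ.dom R j' j → Φ.len j' ≤ Φ.len j + R → f ∈ S X →
      VC Λ (TP320.sq (q * f) (Φ.w j')) ≤ a / L * Real.exp (Φ.len j + Φ.len j') * Φ.ht j' ^ 2

lemma Dat.wX {J : Type} {Φ : Fam J} {R A ε σ C : ℝ} {j : J} {q : Eis}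
    {X L Λ a Tt S1 B : ℝ} (D : Dat Φ R A ε σ C j q X L Λ a Tt S1 B) :
    ∀ n, Φ.w j n ≠ 0 → (nm n : ℝ) ≤ X := by
  intro n hn
  have h1 := (abs_le.1 (D.ok.supp j n hn)).2
  have hn0 : (0 : ℝ) < nm n := by exact_mod_cast nm_pos.2 (D.ok.prim j n hn).ne_zero
  rw [D.hX, ← Real.log_le_iff_le_exp hn0]
  linarith

/-- the terms of the long part -/
def HH {J : Type} (Φ : Fam J) (j : J) (q d e : Eis) (σ t L X₁ : ℝ) (x : Eis × Eis × Eis) : ℝ :=
  L / nm x.1 * ‖∑ b ∈ S X₁,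
      Φ.w j (x.2.1 * d * x.1 * b) * tw (1 / 2 - σ) t b * cc q d e x b‖ ^ 2

open Classical in
lemma triple_sum (SX Gs BL : Finset Eis) (Bl : Eis → Finset Eis) (hB : ∀ g ∈ Gs, Bl g ⊆ BL)
    (F : Eis × Eis × Eis → ℝ) :
    ∑ x ∈ (SX ×ˢ (Gs ×ˢ BL)).filter (fun x => x.2.2 ∈ Bl x.2.1), F x =
      ∑ g ∈ Gs, ∑ f ∈ SX, ∑ l ∈ Bl g, F (f, g, l) := by
  rw [Finset.sum_filter, Finset.sum_product, Finset.sum_comm' (t' := SX) (s' := fun _ => Gs)
    (by simp [and_comm])]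
  refine Finset.sum_congr rfl fun f _ => ?_
  rw [Finset.sum_product]
  refine Finset.sum_congr rfl fun g hg => ?_
  show ∑ l ∈ BL, (if l ∈ Bl g then F (f, g, l) else 0) = _
  rw [← Finset.sum_filter]
  apply Finset.sum_congr _ fun _ _ => rfl
  ext l
  rw [Finset.mem_filter]
  exact ⟨fun h => h.2, fun h => ⟨hB g hg h, h⟩⟩

open Classical in
/-- the long part -/
theorem long_sum {J : Type} {Φ : Fam J} {R A ε σ C : ℝ} {j : J} {q d e : Eis}
    {X L Λ a Tt S1 B t : ℝ} (D : Dat Φ R A ε σ C j q X L Λ a Tt S1 B) (hd : IsPrim d) (he : e ≠ 0)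
    (hΛ : 18 * (X * L) ^ ε * (nm e : ℝ) ^ 3 * X ^ 2 / L ≤ Λ) :
    ∑ g ∈ (S X).filter (Long X L d e), ∑ f ∈ S X, L / nm f *
      ∑ l ∈ bl (Lde (X / nm g) L ε d e),
        ‖dGg (TP320.sq q (Φ.w j)) (X / nm g) g d e f l (σ + t * Complex.I)‖ ^ 2 ≤
    (Real.log X + 1) * (C ^ 2 * X ^ (2 * ε + 2 * σ) * Real.exp (Φ.len j + R) * (S1 * Tt * a) *
      Φ.ht j ^ 2 * ((1 + |t|) ^ A) ^ 2) := by
  have hX0 : 0 < X := by linarith [D.X1]
  have hL0 : 0 < L := by linarith [D.L1]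
  have hR := D.ok.R0
  have hS10 : 0 ≤ S1 := le_trans (Finset.sum_nonneg fun _ _ => by positivity) D.hS
  have hlogX : 0 ≤ Real.log X := Real.log_nonneg D.X1
  set Gs := (S X).filter (Long X L d e) with hGs
  set BL := (S X).biUnion (fun g => bl (Lde (X / nm g) L ε d e)) with hBL
  set X₁ := Real.exp (Φ.len j + 2 * R) with hX₁
  have hXX₁ : X ≤ X₁ := by rw [D.hX, hX₁]; exact Real.exp_le_exp.2 (by linarith)
  set I0 := ((S X) ×ˢ (Gs ×ˢ BL)).filter
    (fun x => x.2.2 ∈ bl (Lde (X / nm x.2.1) L ε d e)) with hI0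
  have hH0 : ∀ x, 0 ≤ HH Φ j q d e σ t L X₁ x := fun x => by unfold HH; positivity
  have hwX := D.wX
  have hGm : ∀ g ∈ Gs, g ∈ S X ∧ Long X L d e g := fun g hg => Finset.mem_filter.1 hg
  have step1 : ∑ g ∈ Gs, ∑ f ∈ S X, L / nm f * ∑ l ∈ bl (Lde (X / nm g) L ε d e),
        ‖dGg (TP320.sq q (Φ.w j)) (X / nm g) g d e f l (σ + t * Complex.I)‖ ^ 2 ≤
      ∑ x ∈ I0, HH Φ j q d e σ t L X₁ x := by
    rw [hI0, triple_sum (S X) Gs BL (fun g => bl (Lde (X / nm g) L ε d e))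
      (fun g hg => Finset.subset_biUnion_of_mem (fun g => bl (Lde (X / nm g) L ε d e))
        (hGm g hg).1)]
    refine Finset.sum_le_sum fun g hg => Finset.sum_le_sum fun f hf => ?_
    rw [Finset.mul_sum]
    refine Finset.sum_le_sum fun l _ => ?_
    unfold HH
    refine mul_le_mul_of_nonneg_left ?_ (by positivity)
    exact pow_le_pow_left₀ (norm_nonneg _) (dGg_le hX0.le hXX₁ hwX l
      ((mem_S hX0.le).1 (hGm g hg).1).2.1 hd ((mem_S hX0.le).1 hf).2.1 σ t) 2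
  refine step1.trans ?_
  -- only the products of norm at most `X` count
  set I1 := I0.filter (fun x => (nm (x.2.1 * d * x.1) : ℝ) ≤ X) with hI1
  have step2 : ∑ x ∈ I0, HH Φ j q d e σ t L X₁ x = ∑ x ∈ I1, HH Φ j q d e σ t L X₁ x := by
    symm
    rw [hI1]
    apply Finset.sum_filter_of_ne
    intro x hx hne
    by_contra h0
    apply hne
    unfold HH
    have : ∑ b ∈ S X₁, Φ.w j (x.2.1 * d * x.1 * b) * tw (1 / 2 - σ) t b * cc q d e x b = 0 := by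
      refine Finset.sum_eq_zero fun b hb => ?_
      have h1 : Φ.w j (x.2.1 * d * x.1 * b) = 0 := by
        by_contra h2
        apply h0
        refine le_trans ?_ (hwX _ h2)
        have h3 := (D.ok.prim j _ h2).ne_zero
        exact_mod_cast Div277.nm_le_of_dvd h3 (dvd_mul_right _ _)
      rw [h1, zero_mul, zero_mul]
    rw [this, norm_zero]
    ring
  rw [step2]
  have hImem : ∀ x ∈ I1, x.1 ∈ S X ∧ x.2.1 ∈ Gs ∧ x.2.2 ∈ bl (Lde (X / nm x.2.1) L ε d e) ∧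
      (nm (x.2.1 * d * x.1) : ℝ) ≤ X := by
    intro x hx
    rw [hI1, Finset.mem_filter, hI0, Finset.mem_filter, Finset.mem_product,
      Finset.mem_product] at hx
    exact ⟨hx.1.1.1, hx.1.1.2.1, hx.1.2, hx.2⟩
  -- dyadic classes
  set cl : Eis × Eis × Eis → ℕ := fun x => ⌊Real.log (nm (x.2.1 * d * x.1))⌋₊ with hcl
  set N := ⌊Real.log X⌋₊ + 1 with hN
  have hmaps : ∀ x ∈ I1, cl x ∈ Finset.range N := by
    intro x hx
    obtain ⟨h1, h2, _, h4⟩ := hImem x hx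
    have hp : IsPrim (x.2.1 * d * x.1) :=
      (((mem_S hX0.le).1 (hGm _ h2).1).2.1.mul hd).mul ((mem_S hX0.le).1 h1).2.1
    have hp0 : (0 : ℝ) < nm (x.2.1 * d * x.1) := by exact_mod_cast nm_pos.2 hp.ne_zero
    rw [Finset.mem_range, hN, Nat.lt_succ_iff]
    exact Nat.floor_le_floor (Real.log_le_log hp0 h4)
  rw [← Finset.sum_fiberwise_of_maps_to hmaps]
  have hcls : ∀ i ∈ Finset.range N, ∑ x ∈ I1.filter (fun x => cl x = i),
      HH Φ j q d e σ t L X₁ x ≤ C ^ 2 * X ^ (2 * ε + 2 * σ) * Real.exp (Φ.len j + R) *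
        (S1 * Tt * a) * Φ.ht j ^ 2 * ((1 + |t|) ^ A) ^ 2 := by
    intro i hi
    have hi' : (i : ℝ) ≤ Real.log X := by
      rw [Finset.mem_range, hN, Nat.lt_succ_iff] at hi
      exact (Nat.cast_le.2 hi).trans (Nat.floor_le hlogX)
    refine le_trans ?_ (class_bound (C := C) (A := A) (t := t) D.σ0 D.ε0 D.hX hR
      (Nat.cast_nonneg i) hi' D.X1 hS10 D.T0 D.a0)
    refine long_m D.ok D.sp hd he hL0 D.Λ0 D.a0 D.hT D.T0 (Nat.cast_nonneg i) D.hS D.HV _ ?_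
    intro x hx
    rw [Finset.mem_filter] at hx
    obtain ⟨h1, h2, h3, h4⟩ := hImem x hx.1
    have hg := (hGm _ h2)
    have hgp := ((mem_S hX0.le).1 hg.1).2.1
    have hfp := ((mem_S hX0.le).1 h1).2.1
    have hp : IsPrim (x.2.1 * d * x.1) := (hgp.mul hd).mul hfp
    have hp1 : (1 : ℝ) ≤ nm (x.2.1 * d * x.1) := by exact_mod_cast nm_pos.2 hp.ne_zero
    have hlog : 0 ≤ Real.log (nm (x.2.1 * d * x.1)) := Real.log_nonneg hp1
    have hfl : ⌊Real.log (nm (x.2.1 * d * x.1))⌋₊ = i := hx.2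
    have h5 := Nat.floor_le hlog
    have h6 := Nat.lt_floor_add_one (Real.log (nm (x.2.1 * d * x.1)))
    rw [hfl] at h5 h6
    exact ⟨h1, hfp, hgp, long_freq D.X1 D.L1 D.ε0 hgp hd he hg.2 h3 hΛ, h5, h6.le⟩
  refine (Finset.sum_le_sum hcls).trans ?_
  rw [Finset.sum_const, Finset.card_range, nsmul_eq_mul]
  refine mul_le_mul_of_nonneg_right ?_ ?_
  · rw [hN]
    push_cast
    linarith [Nat.floor_le hlogX]
  · have := D.T0
    have := D.a0
    positivity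

end Crest.Agent.R017.GR106
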