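import Crest.Agent.R017.GkRoom_381
import Crest.Agent.R017.ETn_548
import Crest.Agent.R017.CopU_631

/-!
# Row 17, exceptional class (helper381): the Gram half `GkGUc (7/8)` of a difference from its parts

* **`gkAll_X`** (differences)
-/

set_option autoImplicit false
set_option linter.unusedVariables false

noncomputable section

open Finset
open scoped ComplexConjugate Classical

namespace Crest.Agent.R017.GkA381

open Crest.Agent.R012 Crest.Agent.R012.Eis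
open Crest.Agent.R017.B770
open Crest.Agent.R017.Prov71
open Crest.Agent.R017.E5B71 Crest.Agent.R017.E5P571 Crest.Agent.R017.E5L770
open Crest.Agent.R017.ExBox960 Crest.Agent.R017.ExP960
open Crest.Agent.R017.Sf770
open Crest.Agent.R017.P1e54 Crest.Agent.R017.P1f54 Crest.Agent.R017.P1k54
open Crest.Agent.R017.P1l54 (ParOK)
open Crest.Agent.R017.P1t54 (LS0)
open Crest.Agent.R017.P1X960
open Crest.Agent.R017.P10X764
open Crest.Agent.R017.ETd548 Crest.Agent.R017.ETk548 Crest.Agent.R017.UbOr381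
open Crest.Agent.R017.ETm548
open Crest.Agent.R017.ETy71 (CEX CES bq pQ mV vN vR)

variable {Λ : Type*} {π : Λ → DPar} {h : ℝ → ℝ} {d e0 c β Lh : ℝ}
  {Par : Set (Fin 3 ⊕ Fin 5 → ℝ)} {ok : Λ × Eis → BcX → List Pq → Prop} {hf : HfK Λ}
  {GE₁ GE₂ : QK → ℝ}

/-- **differences** -/
theorem gkAll_X (he0 : 0 ≤ e0) (he1 : e0 ≤ 1) (hLh : 0 ≤ Lh)
    (hok : ∀ lam a qs, ok lam a qs → okCX (π lam.1) lam.2 a qs)
    (hG₁ : ∀ q ∈ DomKc (3 / 5) c β Par DifL, GE₁ q ≤ RoomX (LS0 d) q - CEX d q)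
    (hG₂ : ∀ q ∈ DomKc (7 / 8) c β Par DifL, 3 / 5 * cκ (prX (bq q)) < q.1 (.inr ()) →
      GE₂ q ≤ RoomX (LS0 d) q - CEX d q)
    (hLo : GkGUc (3 / 5) (alX π h) ok e0 c β Par DifL GE₁)
    (hT : TFr (alX π h) ok e0 c (DomHi (3 / 5) (7 / 8) c β Par DifL) Lh hf GE₂)
    (hR : RFr (alX π h) ok e0 c (DomHi (3 / 5) (7 / 8) c β Par DifL) (fun lam => lam.2 * lam.2)
      hf GE₂) :
    GkGUc (7 / 8) (alX π h) ok e0 c β Par DifL fun q => RoomX (LS0 d) q - CEX d q :=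
  gk_or hLo (ETn548.gkG_of he0 he1 hLh
    (fun lam a qs ho => mul_ne_zero (hok lam a qs ho).2.1.1 (hok lam a qs ho).2.1.1)
    (fun lam a qs ho n hn => CopU631.cop_xD hn) hT hR) hG₁ hG₂

end Crest.Agent.R017.GkA381
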