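import Crest.Agent.R017.P1G_90
import Crest.Agent.R017.P1Gb_90
import Crest.Agent.R017.ET4b_90
import Crest.Agent.R017.E3Nd_146

/-!
# Row 17, R8 (N.et): the real lines of the class half (helper575)

* `hL_mul`, `RG_mul`, `dh_mul` : homogeneity
* `lnT_g` : `LnT` at `ShT`; `dia_g` : the diagonal with its own number; `kx_g`
-/

set_option autoImplicit false
set_option linter.unusedVariables false

noncomputable section

namespace Crest.Agent.R017.GkB575

open Crest.Agent.R017.RnP571 (Dh)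
open Crest.Agent.R017.P1L904
open Crest.Agent.R017.P1G90
open Crest.Agent.R017.E3N146 (ShT ShT_le)
open Crest.Agent.R017.ET490 (LnT)

lemma hL_mul {q v p δ x K5 G s : ℝ} (hs : 0 ≤ s) :
    P1L904.hL (q * s) (v * s) (p * s) (δ * s) (x * s) (K5 * s) (G * s) =
      P1L904.hL q v p δ x K5 G * s := by
  have e1 : (2 * q + 3 * p + max K5 (4 / 3 * p + 2 / 3 * x - 4 / 3 * δ) - 3 * G) * s =
      2 * (q * s) + 3 * (p * s) +
        max (K5 * s) (4 / 3 * (p * s) + 2 / 3 * (x * s) - 4 / 3 * (δ * s)) - 3 * (G * s) := by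
    have e2 : 4 / 3 * (p * s) + 2 / 3 * (x * s) - 4 / 3 * (δ * s) =
        (4 / 3 * p + 2 / 3 * x - 4 / 3 * δ) * s := by ring
    rw [e2, ← max_mul_of_nonneg _ _ hs]
    ring
  have e3 : (2 * q + 2 * v + 3 * p + 2 * x - 4 * δ - 3 * G) * s =
      2 * (q * s) + 2 * (v * s) + 3 * (p * s) + 2 * (x * s) - 4 * (δ * s) - 3 * (G * s) := by ring
  have e4 : (2 * q + 4 * p - δ - 3 * G) * s = 2 * (q * s) + 4 * (p * s) - δ * s - 3 * (G * s) := by
    ring
  unfold P1L904.hL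
  rw [max_mul_of_nonneg _ _ hs, min_mul_of_nonneg _ _ hs, e1, e3, e4]

lemma RSm_mul {k q p um x s : ℝ} (hs : 0 ≤ s) :
    RSm (k * s) (q * s) (p * s) (um * s) (x * s) = RSm k q p um x * s := by
  unfold RSm
  rw [min_mul_of_nonneg _ _ hs]
  congr 1
  · unfold RS0
    rw [max_mul_of_nonneg _ _ hs]
    have e1 : (2 / 3 * q + 4 / 3 * p + max (um / 2) (4 / 15 * (um + x))) * s =
        2 / 3 * (q * s) + 4 / 3 * (p * s) + max (um * s / 2) (4 / 15 * (um * s + x * s)) := by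
      have e2 : um * s / 2 = um / 2 * s := by ring
      have e3 : 4 / 15 * (um * s + x * s) = 4 / 15 * (um + x) * s := by ring
      rw [e2, e3, ← max_mul_of_nonneg _ _ hs]
      ring
    rw [e1, add_mul]
  · unfold RS1
    have e0 : max (k * s) (p * s + um * s) = max k (p + um) * s := by
      rw [max_mul_of_nonneg _ _ hs, add_mul]
    rw [e0]
    generalize max k (p + um) = m
    rw [add_mul, max_mul_of_nonneg _ _ hs, max_mul_of_nonneg _ _ hs,
      max_mul_of_nonneg _ _ hs]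
    have e1 : (2 * q + m) / 3 * s = (2 * (q * s) + m * s) / 3 := by ring
    have e2 : (q + 2 * p + m / 3) / 3 * s =
        (q * s + 2 * (p * s) + m * s / 3) / 3 := by ring
    have e3 : (q + 3 * p - 5 / 12 * (p + um - x)) / 3 * s =
        (q * s + 3 * (p * s) - 5 / 12 * (p * s + um * s - x * s)) / 3 := by ring
    rw [e1, e2, e3]

lemma RG_mul {N k q p um x D G s : ℝ} (hs : 0 ≤ s) (h : RG N k q p um x D G) :
    RG (N * s) (k * s) (q * s) (p * s) (um * s) (x * s) (D * s) (G * s) := by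
  unfold RG at h ⊢
  have h1 := mul_le_mul_of_nonneg_right h hs
  have e1 : max 0 (5 / 4 * (N * s) - k * s) = max 0 (5 / 4 * N - k) * s := by
    rw [max_mul_of_nonneg _ _ hs, zero_mul]
    congr 1
    ring
  rw [RSm_mul hs, e1]
  linarith

/-- the domain is a cone -/
lemma dh_mul {k y₃ y₄ u x D L : ℝ} (h : Dh k y₃ y₄ u x D) (hL : 0 < L) :
    Dh (k * L) (y₃ * L) (y₄ * L) (u * L) (x * L) (D * L) := by
  obtain ⟨k0, u4, y43, u0, y3, N1, near, x0, adm, d0, d1⟩ := h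
  have m : ∀ {a b : ℝ}, a ≤ b → a * L ≤ b * L := fun h => mul_le_mul_of_nonneg_right h hL.le
  refine ⟨by positivity, m u4, m y43, ?_, ?_, ?_, ?_, by positivity, ?_, by positivity, ?_⟩
  · have := m u0; linarith
  · have := m y3; linarith
  · have := m N1; linarith
  · have := m near; linarith
  · rcases adm with ⟨h1, h2⟩ | ⟨h1, h2, h3⟩
    · left
      refine ⟨by have := m h1; linarith, ?_⟩
      rcases h2 with h2 | h2
      · left; rw [h2, zero_mul]
      · right; have := m h2; linarith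
    · right
      exact ⟨by have := m h1; linarith, by have := m h2; linarith, by have := m h3; linarith⟩
  · have := m d1; linarith

/-- the frame, absolute units -/
structure Fr (k y₃ y₄ u x D t q p um vt G : ℝ) : Prop where
  hD : Dh k y₃ y₄ u x D
  t0 : 0 ≤ t
  t1 : t ≤ k / 20000
  q0 : 3 / 5 * k - t ≤ q
  q1 : q ≤ 17 / 20 * k + t
  p0 : k / 2 - 2 * x - t ≤ p
  p1 : p ≤ y₃ + y₄ + u + x + t
  p2 : p ≤ y₃ + y₄ + um + x + t
  um0 : 0 ≤ um
  um1 : um ≤ u + t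
  um2 : 3 * um ≤ p + t
  v1 : vt ≤ 2 * (y₃ + y₄ + u) - k + 11 / 5 * x + t
  v2 : vt ≤ 3 / 4 * (y₃ + y₄ + u) + 11 / 5 * x + t
  hG : RG (y₃ + y₄ + u) k q p um x D G

lemma ShT_bd (K5 x um p δ b l : ℝ) : ShT K5 x um p δ b l ≤
    max (tL K5 b (l + b) (p - δ - b) ((p - δ - b) / 3 + 2 / 3 * x)) (l + b + (p - δ - b)) := by
  have h := ShT_le (k5 := K5) (x := x) (um := um) (p := p) (γ := δ) (b := b) (l := l + b)
    (m := (p - δ - b) / 3 + 2 / 3 * x) (min_le_right _ _)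
  rw [add_sub_cancel_right] at h
  exact h

/-- **the lines of `LnT`** -/
theorem lnT_g {k y₃ y₄ u x D t q p um vt G v δ t' E : ℝ} (F : Fr k y₃ y₄ u x D t q p um vt G)
    (hv : v ≤ vt) (δ0 : 0 ≤ δ) (ht : t' ≤ t) :
    LnT (ShT (max k (5 / 4 * (y₃ + y₄ + u))) x um p) q v
      (P1L904.hL q v p δ x (max k (5 / 4 * (y₃ + y₄ + u))) G) p E δ t' (G + 12 * t) := by
  have hx0 := F.hD.x0
  refine ⟨fun b l hb hl hlv => ?_, fun b l hb hl hlv => ?_⟩
  · have h := c0_g (n := p - δ - b) (m := (p - δ - b) / 3 + 2 / 3 * x) (x' := x) (b := b) (v' := l)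
      (v := v) F.hD F.t0 F.t1 F.q0 F.q1 F.p0 F.p1 F.p2 F.um0 F.um1 F.um2 (hv.trans F.v1)
      (hv.trans F.v2) δ0 hb (by linarith) hx0 (by linarith [F.t0]) (by linarith [F.t0])
      (by linarith) F.hG (ShT_bd _ x um p δ b l) rfl
    have h2 := le_max_left 0 (b - E)
    have e : ET490.lw0 q v (P1L904.hL q v p δ x (max k (5 / 4 * (y₃ + y₄ + u))) G) =
      P1L904.lw0 q v (P1L904.hL q v p δ x (max k (5 / 4 * (y₃ + y₄ + u))) G) := rfl
    rw [e]
    linarith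
  · have h := c1_g (n := p - δ - b) (m := (p - δ - b) / 3 + 2 / 3 * x) (x' := x) (b := b) (v' := l)
      (v := v) F.hD F.t0 F.t1 F.q0 F.q1 F.p0 F.p1 F.p2 F.um0 F.um1 F.um2 (hv.trans F.v1)
      (hv.trans F.v2) δ0 hb (by linarith) hx0 (by linarith [F.t0]) (by linarith [F.t0])
      (by linarith) F.hG (ShT_bd _ x um p δ b l) rfl
    have h2 := le_max_left 0 (b - E)
    have e : ET490.lw1 q v (P1L904.hL q v p δ x (max k (5 / 4 * (y₃ + y₄ + u))) G) =
      P1L904.lw1 q v (P1L904.hL q v p δ x (max k (5 / 4 * (y₃ + y₄ + u))) G) := rfl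
    rw [e]
    linarith

set_option maxHeartbeats 8000000 in
lemma coreD {k y₃ y₄ u x D t q p um vt v δ b l n m x' G R K5 T : ℝ} (hD : Dh k y₃ y₄ u x D)
    (t0 : 0 ≤ t) (t1 : t ≤ k / 20000) (q0 : 3 / 5 * k - t ≤ q) (q1 : q ≤ 17 / 20 * k + t)
    (p0 : k / 2 - 2 * x - t ≤ p)
    (p1 : p ≤ y₃ + y₄ + u + x + t) (um1 : um ≤ u + t) (um2 : 3 * um ≤ p + t)
    (v1 : vt ≤ 2 * (y₃ + y₄ + u) - k + 11 / 5 * x + t)
    (v2 : vt ≤ 3 / 4 * (y₃ + y₄ + u) + 11 / 5 * x + t) (hv : v ≤ vt) (δ0 : 0 ≤ δ) (b0 : 0 ≤ b)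
    (hl : l ≤ v - 2 * δ + b + t) (hn : n ≤ p - δ - b + t) (hm : 3 * (m - x) ≤ n - x)
    (hK' : k ≤ K5)
    (hG : 2 * (k + p + (K5 - k) - (k - q) / 3) + 2 / 45 * D - R ≤ G)
    (hR : R ≤ q + p ∨ R ≤ 2 / 3 * q + 4 / 3 * p + um / 2 ∨
      R ≤ 2 / 3 * q + 4 / 3 * p + 4 / 15 * (um + x))
    (hT1 : T ≤ l + n + m ∨ T ≤ 5 / 3 * n + l / 3 ∨ T ≤ l + n) :
    vt - v / 3 - q / 3 + 2 * δ + T - p / 3 ≤ G + 10 * t := by
  obtain ⟨k0, u4, y43, u0, y3, N1, near, x0, adm, d0, d1⟩ := hD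
  rcases hR with hR | hR | hR <;>
  rcases hT1 with hT1 | hT1 | hT1 <;>
  rcases adm with ⟨a0, rfl | a1⟩ | ⟨a1, a2, a3⟩ <;> linarith

/-- **the diagonal with its own number** -/
theorem dia_g {k y₃ y₄ u x D t q p um vt G v δ t' E b l : ℝ}
    (F : Fr k y₃ y₄ u x D t q p um vt G) (hv : v ≤ vt) (δ0 : 0 ≤ δ) (ht : t' ≤ t) (hb : 0 ≤ b)
    (hl : 0 ≤ l) (hlv : l ≤ v - 2 * δ + t') :
    2 / 3 * q - v / 3 + ShT (max k (5 / 4 * (y₃ + y₄ + u))) x um p δ b l + 2 * δ -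
      max 0 (b - E) - p / 3 ≤ G + 12 * t - max 0 (vt - q) := by
  have hx0 := F.hD.x0
  have ht0 := F.t0
  rcases le_total (vt - q) 0 with hc | hc
  · rw [max_eq_left hc]
    have h := (lnT_g (E := E) F hv δ0 ht).c0 b l hb hl hlv
    have h1 : 2 / 3 * q - v / 3 ≤ ET490.lw0 q v
        (P1L904.hL q v p δ x (max k (5 / 4 * (y₃ + y₄ + u))) G) := le_max_left _ _
    linarith
  · rw [max_eq_right hc]
    have hS := ShT_bd (max k (5 / 4 * (y₃ + y₄ + u))) x um p δ b l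
    have h2 := le_max_left 0 (b - E)
    have hT1 : ShT (max k (5 / 4 * (y₃ + y₄ + u))) x um p δ b l ≤
          (l + b) + (p - δ - b) + ((p - δ - b) / 3 + 2 / 3 * x) ∨
        ShT (max k (5 / 4 * (y₃ + y₄ + u))) x um p δ b l ≤
          5 / 3 * (p - δ - b) + (l + b) / 3 ∨
        ShT (max k (5 / 4 * (y₃ + y₄ + u))) x um p δ b l ≤ (l + b) + (p - δ - b) := by
      rcases le_max_iff.1 hS with h | h
      · rcases (tL_cases (max k (5 / 4 * (y₃ + y₄ + u))) b (l + b) (p - δ - b)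
          ((p - δ - b) / 3 + 2 / 3 * x)).1 with h1 | h1
        · exact Or.inl (h.trans h1)
        · exact Or.inr (Or.inl (h.trans h1))
      · exact Or.inr (Or.inr h)
    have h := coreD (x' := x) (b := b) (l := l + b) (n := p - δ - b)
      (m := (p - δ - b) / 3 + 2 / 3 * x) F.hD F.t0 F.t1 F.q0 F.q1 F.p0 F.p1 F.um1 F.um2 F.v1 F.v2
      hv δ0 hb (by linarith) (by linarith) (by linarith) (le_max_left _ _) (rG F.hG)
      (RSm_le0 _ _ _ _ _) hT1
    linarith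

/-- **the range of `H`** -/
theorem kx_g {k y₃ y₄ u x D t q p um vt G v δ : ℝ}
    (F : Fr k y₃ y₄ u x D t q p um vt G) (hv : v ≤ vt) (δ0 : 0 ≤ δ) :
    P1L904.hL q v p δ x (max k (5 / 4 * (y₃ + y₄ + u))) G + 2 * v + k / 100 ≤ q + p := by
  have h := thL_g (v := v) F.hD F.t0 F.t1 F.q0 F.q1 F.p0 F.p1 F.p2 F.um0 F.um1 F.um2
    (hv.trans F.v1) (hv.trans F.v2) F.hG δ0
  have v1 := hv.trans F.v1
  have v2 := hv.trans F.v2
  have p0 := F.p0
  have t1 := F.t1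
  obtain ⟨k0, u4, y43, u0, y3, N1, near, x0, adm, d0, d1⟩ := F.hD
  rcases adm with ⟨a0, rfl | a1⟩ | ⟨a1, a2, a3⟩ <;> linarith

lemma hL_lip (q v p x K5 G a b : ℝ) :
    P1L904.hL q v p a x K5 G ≤ P1L904.hL q v p b x K5 G + 4 * |a - b| := by
  have h1 := le_abs_self (a - b)
  have h2 := neg_abs_le (a - b)
  have h0 := abs_nonneg (a - b)
  unfold P1L904.hL
  refine max_le ?_ ?_
  · have := le_max_left (2 * q + 4 * p - b - 3 * G)
      (min (2 * q + 2 * v + 3 * p + 2 * x - 4 * b - 3 * G)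
        (2 * q + 3 * p + max K5 (4 / 3 * p + 2 / 3 * x - 4 / 3 * b) - 3 * G))
    linarith
  · have g1 := le_max_right (2 * q + 4 * p - b - 3 * G)
      (min (2 * q + 2 * v + 3 * p + 2 * x - 4 * b - 3 * G)
        (2 * q + 3 * p + max K5 (4 / 3 * p + 2 / 3 * x - 4 / 3 * b) - 3 * G))
    have g2 : min (2 * q + 2 * v + 3 * p + 2 * x - 4 * a - 3 * G)
        (2 * q + 3 * p + max K5 (4 / 3 * p + 2 / 3 * x - 4 / 3 * a) - 3 * G) ≤
        min (2 * q + 2 * v + 3 * p + 2 * x - 4 * b - 3 * G)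
        (2 * q + 3 * p + max K5 (4 / 3 * p + 2 / 3 * x - 4 / 3 * b) - 3 * G) + 4 * |a - b| := by
      rw [← min_add_add_right]
      refine min_le_min (by linarith) ?_
      have g3 : max K5 (4 / 3 * p + 2 / 3 * x - 4 / 3 * a) ≤
          max K5 (4 / 3 * p + 2 / 3 * x - 4 / 3 * b) + 4 * |a - b| := by
        have g4 := le_max_left K5 (4 / 3 * p + 2 / 3 * x - 4 / 3 * b)
        have g5 := le_max_right K5 (4 / 3 * p + 2 / 3 * x - 4 / 3 * b)
        exact max_le (by linarith) (by linarith)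
      linarith
    linarith

end Crest.Agent.R017.GkB575
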