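import Crest.Agent.R017.GkR_521
import Crest.Agent.R017.RnSh_629
import Crest.Agent.R017.ETk_548

/-!
# Row 17, class E, R8 (helper521): the `R`-half of the Gram sums over the premises of `GkGUc`

* `win_inl` : the window of the child
* **`rhU_X`** : the differences;  **`rhU_S`** : the single lists
-/

set_option autoImplicit false
set_option linter.unusedVariables false

noncomputable section

open Finset
open scoped ComplexConjugate Classical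

namespace Crest.Agent.R017.GkD521

open Crest.Agent.R012 Crest.Agent.R012.Eis Crest.Agent.R012.MC
open Crest.Agent.R012.LS2 (S mem_S bl mem_bl)
open Crest.Agent.R012.T411 (NCube)
open Crest.Agent.R017.FE47 (PU SM)
open Crest.Agent.R017.CM106
open Crest.Agent.R017.XG702 (Pcs)
open Crest.Agent.R017.XT71 (Sys Win mx)
open Crest.Agent.R017.Prov71
open Crest.Agent.R017.B770
open Crest.Agent.R017.ER911 Crest.Agent.R017.ExpC702
open Crest.Agent.R017.HP842 (Pc pc sqc al alL)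
open Crest.Agent.R017.E5B71 Crest.Agent.R017.E5L770
open Crest.Agent.R017.R3571 (RMm)
open Crest.Agent.R017.Mode405 (Slp)
open Crest.Agent.R017.PX764 (n6)
open Crest.Agent.R017.E3Z548 (FH)
open Crest.Agent.R017.E3Hi290 (RN2XF)
open Crest.Agent.R017.TM708 (PD)
open Crest.Agent.R017.I1146 (LN)
open Crest.Agent.R017.Sup271 (NPm)
open Crest.Agent.R017.End699 (PF)
open Crest.Agent.R017.XEx298 (Rt)
open Crest.Agent.R017.RnP571
open Crest.Agent.R017.RnX571 (Nx PD_mono Pt_cop xD_cop)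
open Crest.Agent.R017.RnS629 (s8s_frame bS)
open Crest.Agent.R017.PoHx72 (Cls)
open Crest.Agent.R017.ROX744 (PrU)
open Crest.Agent.R017.P1l54 (ParOK)
open Crest.Agent.R017.ExBox960 Crest.Agent.R017.ExP960
open Crest.Agent.R017.P1X960
open Crest.Agent.R017.P10X764
open Crest.Agent.R017.S8X50 (F8X s8x_frame)
open Crest.Agent.R017.ETd548 (BkX S8Xk)
open Crest.Agent.R017.ETk548 (DomKc)
open Crest.Agent.R017.GkR521

lemma win_inl {X δ ρ B : ℝ} {N : ℕ} {q : I8X ⊕ Unit → ℝ} {a : BkX}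
    (h : Win S8Xk q δ N B ρ X a) : Win S8X (fun i => q (.inl i)) δ N B ρ X a.1 :=
  ⟨fun i => h.ev (.inl i), h.g, Nat.zero_le _, h.s₁, (le_max_left _ _).trans h.s₂⟩

lemma list_X (a : BcX) (qs : List Pq) : [a.2.1 0, a.2.1 1, a.2.1 2] ++ qs = clN a qs := by
  unfold clN
  rw [ofFn3]

section

variable {Λ : Type*} {π : Λ → DPar} {h : ℝ → ℝ}

set_option maxHeartbeats 1600000 in
/-- **the `R`-half of the differences, all data** -/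
theorem rhU_X {c₀ : ℝ} (hpu : PU h c₀) (hP : ∀ lam, (π lam).OK)
    (hNC : ∀ lam, ∀ k : Eis, k ≠ 0 → (NPm (π lam).n (π lam).ψ (π lam).l₂ k ↔ NCube k))
    {dd : ℝ} {s : ER911.EF} (R : ExpRules (7 / 8 + dd) (ex Dq (fun lam => Rt (π lam) h)) s)
    (hPF : PF Set.univ (7 / 8 + dd)) (hd : 0 ≤ dd) (hd8 : dd ≤ 1 / 8) {c β k₁ : ℝ}
    (hβ : 17 / 100 ≤ β) (hβ' : β ≤ 1 / 5) {Par : Set (Fin 3 ⊕ Fin 5 → ℝ)} (hPar : ∀ p ∈ Par, ParOK p)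
    (hDh : ∀ p ∈ Par, Dh (cκ p) (cu p 2) (cu p 3) (cu p 4) (cx' p) (dd * cκ p))
    {ε : ℝ} (hε : 0 < ε) (hε1 : ε ≤ 1) :
    ∃ δ : ℝ, 0 < δ ∧ δ ≤ ε ∧ ∀ (lam : Λ × Eis) (N : ℕ) (B B₂ : ℝ), max B 3 ≤ B₂ →
      ∃ (M a₁ A₀ : ℕ), 1 ≤ a₁ ∧ ∀ cc : ℝ, 1 ≤ cc → ∃ X₀ : ℝ, 1 < X₀ ∧ ∀ X : ℝ, X₀ ≤ X →
      ∀ δ' : ℝ, 0 ≤ δ' → ∀ (a : BkX) (qs : List Pq), qs.length ≤ N →
      (∀ p ∈ qs, Dq.lump p ∨ Dq.nl X p ≤ δ) → ∀ q ∈ DomKc k₁ c β Par DifL,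
      Win S8Xk q.1 δ N B δ' X a → (∀ t, |Dq.mass X qs t - q.2 t| ≤ δ) → Dq.Good X δ' B qs →
      (∀ p ∈ qs, Dq.lump p → (S8Xk.ev X a, Dq.nl X p) ∈ (∅ : Set ((I8X ⊕ Unit → ℝ) × ℝ))) →
      okCX (π lam.1) lam.2 a.1 qs → okD a.1 →
      (lam.2 * lam.2 ≠ 0 ∧ (∀ n, alX π h lam a.1 qs n ≠ 0 →
        IsPrim n ∧ IsCoprime (lam.2 * lam.2) n) ∧
        (a.1.2.1 2).z ≤ (cu (prX (bp fun i => q.1 (.inl i))) 4 + ε) * Real.log X ∧
        LN qs ≤ (cx' (prX (bp fun i => q.1 (.inl i))) + ε) * Real.log X) ∧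
      ∀ (k m E0 G : ℝ) (hf : ℕ → ℝ → ℝ) (I : Finset ℕ) (Ds : Finset Eis),
      (∀ d ∈ Ds, IsPrim d ∧ (nm d : ℝ) ≤ X ^ B₂ ∧ Real.log (nm d) ≤ m) → 0 < E0 → E0 ≤ X ^ B₂ →
      (∀ i ∈ I, ∀ d ∈ Ds, LN (clN a.1 qs) + i + hf i (Real.log (nm d)) - k ≤ 8 * Real.log X) →
      (∀ i ∈ I, RLg dd (k / Real.log X) (i / Real.log X) (LN (clN a.1 qs) / Real.log X)
        (s0X a.1 / Real.log X) ((a.1.2.1 2).z / Real.log X) (LN qs / Real.log X)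
        (m / Real.log X) (Real.log E0 / Real.log X) ε G
        (fun δ => hf i (δ * Real.log X) / Real.log X)) →
      ∃ W0 : ℕ → Bool → Eis → Eis → ℝ → ℝ, (∀ i jj d e, Slp a₁ (W0 i jj d e)) ∧
      (∀ A : ℕ, A₀ ≤ A → ∀ i ∈ I, ∀ jj, ∀ d ∈ Ds, ∀ e ∈ S E0, ∀ γ φ, IsPrim γ → IsPrim φ →
        (nm φ : ℝ) ≤ X ^ B₂ → ∀ P : ℝ, 0 < P →
        (nm γ : ℝ) * n6 γ ^ 2 * ∑ r ∈ (bl P).filter (Cls (PrU (lam.2 * lam.2)) jj),
          RMm A (fun n => alX π h lam a.1 qs (d * n)) e γ φ r ≤ W0 i jj d e P) ∧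
      ∀ i ∈ I, ∀ d ∈ Ds, ∀ e ∈ S E0,
        FH (Real.exp k) (Real.exp (hf i (Real.log (nm d)))) (Real.exp i) *
          RN2XF cc (Real.exp k) (Real.exp i) (Real.exp (LN (clN a.1 qs)))
            (fun d _ => Real.exp (hf i (Real.log (nm d)))) (W0 i) d e ≤
        (X ^ δ') ^ M * X ^ (G + ε) / (nm d * nm e) := by
  obtain ⟨τ, hτ0, hτε, HR⟩ := rhX hpu hP hNC R hPF hd hd8 hε hε1
  refine ⟨τ / 100, by positivity, by linarith, fun lam N B B₂ hB₂ => ?_⟩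
  by_cases ht : lam.2 = 0
  · exact ⟨0, 1, 0, le_rfl, fun cc _ => ⟨2, one_lt_two, fun X _ δ' _ a qs _ _ q _ _ _ _ _ hok _ =>
      absurd ht hok.2.1.1⟩⟩
  obtain ⟨M, a₁, A₀, ha₁, HR⟩ := HR lam.1 lam.2 ht N B₂
  refine ⟨M, a₁, A₀, ha₁, fun cc hcc => ?_⟩
  obtain ⟨X₁, hX₁, HR⟩ := HR cc hcc
  refine ⟨X₁, hX₁, ?_⟩
  intro X hX δ' hδ' a qs hlen hgl q hq hw hm hg hl hokC hokD
  have hX1 : 1 < X := by linarith
  have hL0' : 0 < Real.log X := Real.log_pos hX1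
  have hw' := win_inl hw
  obtain ⟨F, PN, PR⟩ := s8x_frame (q := ((fun i => q.1 (.inl i)), q.2)) (δ := τ / 100) (τ := τ)
    hX1 (by positivity) (by linarith) hδ' hlen hgl hq.1 hw' hm hg
    (fun p hp hlp => absurd (hl p hp hlp) (Set.notMem_empty _)) hokC hokD
  have hpar : prX (bp fun i => q.1 (.inl i)) ∈ Par := hq.1.1.par
  have hzr : ZR β (bp fun i => q.1 (.inl i)) := hq.1.1.zr
  have hPp := hPar _ hpar
  have hDp := hDh _ hpar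
  have hτε' : τ * Real.log X ≤ ε * Real.log X := mul_le_mul_of_nonneg_right hτε hL0'.le
  refine ⟨⟨mul_ne_zero ht ht, fun n hn => xD_cop (hP lam.1) hokC.2.1 hn, ?_, ?_⟩, ?_⟩
  · have h8 : (a.1.2.1 2).z ≤ (cu (prX (bp fun i => q.1 (.inl i))) 4 + τ) * Real.log X := PN.z3
    linarith
  · have h8 : LN qs ≤ (cx' (prX (bp fun i => q.1 (.inl i))) + τ) * Real.log X := PN.x
    linarith
  intro k m E0 G hf I Ds hDs hE0 hE0X hsz hline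
  have hbN : ∀ i, bN (bp fun i => q.1 (.inl i)) i + τ ≤ 8 := by
    have k1 := hPp.κ1
    have k0 := hPp.κ0
    have x1 := hPp.x1
    have y3 := hDp.y3
    have y43 := hDp.y43
    have u4 := hDp.u4
    have x0 := hDp.x0
    intro i
    fin_cases i <;> simp [bN] <;> linarith
  have hbR : ∀ i, bR (bp fun i => q.1 (.inl i)) i + τ ≤ 8 := by
    have k1 := hPp.κ1
    have k0 := hPp.κ0
    have x1 := hPp.x1
    have y3 := hDp.y3
    have y43 := hDp.y43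
    have u4 := hDp.u4
    have x0 := hDp.x0
    have z1 := (hzr 1).1
    have z2 := (hzr 1).2
    have z3 : β * cκ (prX (bp fun i => q.1 (.inl i))) ≤
        1 / 5 * cκ (prX (bp fun i => q.1 (.inl i))) :=
      mul_le_mul_of_nonneg_right hβ' (by linarith)
    have z4 : 0 ≤ β * cκ (prX (bp fun i => q.1 (.inl i))) := by positivity
    intro i
    fin_cases i <;> simp [bR] <;> linarith
  have key := HR X hX (bN (bp fun i => q.1 (.inl i))) (bR (bp fun i => q.1 (.inl i))) a.1.2.1 qs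
    (dz a.1.1) a.1.1.l (s0X a.1) (X ^ δ') (PD_mono hX1.le hB₂ PN) (PD_mono hX1.le hB₂ PR) hbN hbR
    ((min_le_left _ _).trans (min_le_left _ _)) ((min_le_left _ _).trans (min_le_right _ _))
    ((min_le_right _ _).trans (min_le_left _ _)) ((min_le_right _ _).trans (min_le_right _ _))
    k m E0 G hf I Ds hDs hE0 hE0X
  rw [list_X] at key
  exact key hsz hline

set_option maxHeartbeats 1600000 in
/-- **the `R`-half of the single lists, all data** -/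
theorem rhU_S {c₀ : ℝ} (hpu : PU h c₀) (hP : ∀ lam, (π lam).OK)
    (hNC : ∀ lam, ∀ k : Eis, k ≠ 0 → (NPm (π lam).n (π lam).ψ (π lam).l₂ k ↔ NCube k))
    {dd : ℝ} {s : ER911.EF} (R : ExpRules (7 / 8 + dd) (ex Dq (fun lam => Rt (π lam) h)) s)
    (hPF : PF Set.univ (7 / 8 + dd)) (hd : 0 ≤ dd) (hd8 : dd ≤ 1 / 8) {c β k₁ : ℝ}
    {Par : Set (Fin 3 ⊕ Fin 5 → ℝ)} (hPar : ∀ p ∈ Par, ParOK p)
    (hDh : ∀ p ∈ Par, Dh (cκ p) (cu p 2) (cu p 3) (cu p 4) (cx' p) (dd * cκ p))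
    {ε : ℝ} (hε : 0 < ε) (hε1 : ε ≤ 1) :
    ∃ δ : ℝ, 0 < δ ∧ δ ≤ ε ∧ ∀ (lam : Λ × Eis) (N : ℕ) (B B₂ : ℝ), max B 3 ≤ B₂ →
      ∃ (M a₁ A₀ : ℕ), 1 ≤ a₁ ∧ ∀ cc : ℝ, 1 ≤ cc → ∃ X₀ : ℝ, 1 < X₀ ∧ ∀ X : ℝ, X₀ ≤ X →
      ∀ δ' : ℝ, 0 ≤ δ' → ∀ (a : BkX) (qs : List Pq), qs.length ≤ N →
      (∀ p ∈ qs, Dq.lump p ∨ Dq.nl X p ≤ δ) → ∀ q ∈ DomKc k₁ c β Par (SinL β),
      Win S8Xk q.1 δ N B δ' X a → (∀ t, |Dq.mass X qs t - q.2 t| ≤ δ) → Dq.Good X δ' B qs →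
      (∀ p ∈ qs, Dq.lump p → (S8Xk.ev X a, Dq.nl X p) ∈ (∅ : Set ((I8X ⊕ Unit → ℝ) × ℝ))) →
      okCX (π lam.1) lam.2 a.1 qs →
      (lam.2 * lam.2 ≠ 0 ∧ (∀ n, alS π h lam a.1 qs n ≠ 0 →
        IsPrim n ∧ IsCoprime (lam.2 * lam.2) n) ∧
        (a.1.2.1 2).z ≤ (q.1 (.inl (.inr 2)) + ε) * Real.log X ∧
        LN qs ≤ (cx' (prX (bp fun i => q.1 (.inl i))) + ε) * Real.log X) ∧
      ∀ (k m E0 G : ℝ) (hf : ℕ → ℝ → ℝ) (I : Finset ℕ) (Ds : Finset Eis),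
      (∀ d ∈ Ds, IsPrim d ∧ (nm d : ℝ) ≤ X ^ B₂ ∧ Real.log (nm d) ≤ m) → 0 < E0 → E0 ≤ X ^ B₂ →
      (∀ i ∈ I, ∀ d ∈ Ds, LN (clN a.1 qs) + i + hf i (Real.log (nm d)) - k ≤ 8 * Real.log X) →
      (∀ i ∈ I, RLg dd (k / Real.log X) (i / Real.log X) (LN (clN a.1 qs) / Real.log X)
        0 ((a.1.2.1 2).z / Real.log X) (LN qs / Real.log X)
        (m / Real.log X) (Real.log E0 / Real.log X) ε G
        (fun δ => hf i (δ * Real.log X) / Real.log X)) →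
      ∃ W0 : ℕ → Bool → Eis → Eis → ℝ → ℝ, (∀ i jj d e, Slp a₁ (W0 i jj d e)) ∧
      (∀ A : ℕ, A₀ ≤ A → ∀ i ∈ I, ∀ jj, ∀ d ∈ Ds, ∀ e ∈ S E0, ∀ γ φ, IsPrim γ → IsPrim φ →
        (nm φ : ℝ) ≤ X ^ B₂ → ∀ P : ℝ, 0 < P →
        (nm γ : ℝ) * n6 γ ^ 2 * ∑ r ∈ (bl P).filter (Cls (PrU (lam.2 * lam.2)) jj),
          RMm A (fun n => alS π h lam a.1 qs (d * n)) e γ φ r ≤ W0 i jj d e P) ∧
      ∀ i ∈ I, ∀ d ∈ Ds, ∀ e ∈ S E0,
        FH (Real.exp k) (Real.exp (hf i (Real.log (nm d)))) (Real.exp i) *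
          RN2XF cc (Real.exp k) (Real.exp i) (Real.exp (LN (clN a.1 qs)))
            (fun d _ => Real.exp (hf i (Real.log (nm d)))) (W0 i) d e ≤
        (X ^ δ') ^ M * X ^ (G + ε) / (nm d * nm e) := by
  obtain ⟨τ, hτ0, hτε, HR⟩ := rhS hpu hP hNC R hPF hd hd8 hε hε1
  refine ⟨τ / 100, by positivity, by linarith, fun lam N B B₂ hB₂ => ?_⟩
  by_cases ht : lam.2 = 0
  · exact ⟨0, 1, 0, le_rfl, fun cc _ => ⟨2, one_lt_two, fun X _ δ' _ a qs _ _ q _ _ _ _ _ hok =>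
      absurd ht hok.2.1.1⟩⟩
  obtain ⟨M, a₁, A₀, ha₁, HR⟩ := HR lam.1 lam.2 ht N B₂
  refine ⟨M, a₁, A₀, ha₁, fun cc hcc => ?_⟩
  obtain ⟨X₁, hX₁, HR⟩ := HR cc hcc
  refine ⟨X₁, hX₁, ?_⟩
  intro X hX δ' hδ' a qs hlen hgl q hq hw hm hg hl hokC
  have hX1 : 1 < X := by linarith
  have hL0' : 0 < Real.log X := Real.log_pos hX1
  have hw' := win_inl hw
  obtain ⟨F, PN⟩ := s8s_frame (q := ((fun i => q.1 (.inl i)), q.2)) (δ := τ / 100) (τ := τ)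
    hX1 (by positivity) (by linarith) hδ' hlen hgl hq.1 hw' hm hg
    (fun p hp hlp => absurd (hl p hp hlp) (Set.notMem_empty _)) hokC
  have hpar : prX (bp fun i => q.1 (.inl i)) ∈ Par := hq.1.1.par
  have hPp := hPar _ hpar
  have hDp := hDh _ hpar
  have hτε' : τ * Real.log X ≤ ε * Real.log X := mul_le_mul_of_nonneg_right hτε hL0'.le
  refine ⟨⟨mul_ne_zero ht ht, fun n hn => Pt_cop (hP lam.1) hokC.2.1
    (right_ne_zero_of_mul hn), ?_, ?_⟩, ?_⟩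
  · have h8 : (a.1.2.1 2).z ≤ (q.1 (.inl (.inr 2)) + τ) * Real.log X := PN.z3
    linarith
  · have h8 : LN qs ≤ (cx' (prX (bp fun i => q.1 (.inl i))) + τ) * Real.log X := PN.x
    linarith
  intro k m E0 G hf I Ds hDs hE0 hE0X hsz hline
  have hbN : ∀ i, bS (bp fun i => q.1 (.inl i)) (q.1 (.inl (.inr 0))) (q.1 (.inl (.inr 1)))
      (q.1 (.inl (.inr 2))) i + τ ≤ 8 := by
    have k1 := hPp.κ1
    have k0 := hPp.κ0
    have x1 := hPp.x1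
    have y3 := hDp.y3
    have y43 := hDp.y43
    have u4 := hDp.u4
    have x0 := hDp.x0
    have hs1 := hq.1.1.s1
    have hb0 := hq.1.1.b0
    have v0 := hq.1.1.v0
    have v1 := hq.1.1.v1
    have v2 := hq.1.1.v2
    have hcN : cN (prX (bp fun i => q.1 (.inl i))) = cu (prX (bp fun i => q.1 (.inl i))) 2 +
      cu (prX (bp fun i => q.1 (.inl i))) 3 + cu (prX (bp fun i => q.1 (.inl i))) 4 := rfl
    dsimp only at hs1 hb0 v0 v1 v2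
    intro i
    fin_cases i <;> simp [bS] <;> linarith
  have key := HR X hX (bS (bp fun i => q.1 (.inl i)) (q.1 (.inl (.inr 0))) (q.1 (.inl (.inr 1)))
      (q.1 (.inl (.inr 2)))) a.1.2.1 qs
    a.1.1.l (X ^ δ') (PD_mono hX1.le hB₂ PN) hbN k m E0 G hf I Ds hDs hE0 hE0X
  rw [list_X] at key
  exact key hsz hline

end

end Crest.Agent.R017.GkD521
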