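import Crest.Agent.R017.GkD_521
import Crest.Agent.R017.ETm_548

/-!
# Row 17, class E, R8 (helper521): helper548's `RFr` for both sequences

* `RLnF` : the real lines at every datum
* **`rfr_X`** : the differences;  **`rfr_S`** : the single lists
-/

set_option autoImplicit false
set_option linter.unusedVariables false

noncomputable section

open Finset
open scoped ComplexConjugate Classical

namespace Crest.Agent.R017.GkE521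

open Crest.Agent.R012 Crest.Agent.R012.Eis Crest.Agent.R012.MC
open Crest.Agent.R012.LS2 (S mem_S bl mem_bl)
open Crest.Agent.R012.T411 (NCube)
open Crest.Agent.R017.FE47 (PU SM)
open Crest.Agent.R017.CM106
open Crest.Agent.R017.XG702 (Pcs)
open Crest.Agent.R017.XT71 (Sys Win mx)
open Crest.Agent.R017.Prov71
open Crest.Agent.R017.B770
open Crest.Agent.R017.ER911 Crest.Agent.R017.ExpC702
open Crest.Agent.R017.E5B71 Crest.Agent.R017.E5L770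
open Crest.Agent.R017.R3571 (RMm)
open Crest.Agent.R017.Mode405 (Slp)
open Crest.Agent.R017.PX764 (n6)
open Crest.Agent.R017.E3Z548 (FH)
open Crest.Agent.R017.E3Kc548 (LI mem_LI)
open Crest.Agent.R017.E3Hi290 (RN2XF)
open Crest.Agent.R017.I1146 (LN)
open Crest.Agent.R017.Sup271 (NPm)
open Crest.Agent.R017.End699 (PF)
open Crest.Agent.R017.XEx298 (Rt)
open Crest.Agent.R017.RnP571
open Crest.Agent.R017.PoHx72 (Cls)
open Crest.Agent.R017.ROX744 (PrU)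
open Crest.Agent.R017.P1l54 (ParOK)
open Crest.Agent.R017.ExBox960 Crest.Agent.R017.ExP960
open Crest.Agent.R017.P1X960
open Crest.Agent.R017.P10X764
open Crest.Agent.R017.ETd548 (BkX S8Xk)
open Crest.Agent.R017.ETk548 (DomKc)
open Crest.Agent.R017.ETm548
open Crest.Agent.R017.SP521 (Jw Jw_mem Jw_ne)
open Crest.Agent.R017.GkR521
open Crest.Agent.R017.GkD521

section

variable {Λ : Type*} (dd : ℝ) (ok : Λ × Eis → BcX → List Pq → Prop) (e0 c : ℝ) (Dm : Set QK)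

/-- **the real lines at every datum** : twin length `sf`, third lump `zf` -/
def RLnF (sf : BcX → ℝ) (zf : QK → ℝ) (hf : HfK Λ) (GE : QK → ℝ) : Prop :=
  ∀ ε : ℝ, 0 < ε → ∃ ε₀ : ℝ, 0 < ε₀ ∧ ∀ ε₁ : ℝ, 0 < ε₁ → ε₁ ≤ ε₀ → ∃ δ : ℝ, 0 < δ ∧
    ∀ (lam : Λ × Eis) (N : ℕ) (B : ℝ), ∃ δ' : ℝ, 0 < δ' ∧ ∃ X₀ : ℝ, 1 < X₀ ∧
    ∀ X : ℝ, X₀ ≤ X → ∀ (a : BkX) (qs : List Pq) (q : QK),
      WinK ok c Dm δ δ' N B X lam a qs q → (2 : ℝ) ^ nw c a.1 ≤ X ∧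
      ∀ i ∈ LI (2 ^ a.2.1 / 4) (2 ^ (a.2.1 + 1)),
        (∀ g : ℝ, 0 ≤ g → LN (clN a.1 qs) + i + hf lam X a qs q i g - kB a ≤
          8 * Real.log X) ∧
        ((a.1.2.1 2).z ≤ (zf q + ε₁) * Real.log X →
          LN qs ≤ (cx' (prX (bp fun i => q.1 (.inl i))) + ε₁) * Real.log X →
          RLg dd (kB a / Real.log X) (i / Real.log X) (LN (clN a.1 qs) / Real.log X)
            (sf a.1 / Real.log X) ((a.1.2.1 2).z / Real.log X) (LN qs / Real.log X)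
            (Real.log 2 * ((a.2.1 : ℝ) + 1) / 2 / Real.log X) (e0 * a.1.1.l / Real.log X) ε₁
            (GE q + ε) (fun g => hf lam X a qs q i (g * Real.log X) / Real.log X))

end

lemma WinK_mono {Λ : Type*} {ok : Λ × Eis → BcX → List Pq → Prop} {c : ℝ}
    {Dm : Set QK} {δ₁ δ₁' δ₂ δ₂' B X : ℝ}
    {N : ℕ} {lam : Λ × Eis} {a : BkX} {qs : List Pq} {q : QK} (hX : 1 ≤ X)
    (h : WinK ok c Dm δ₁ δ₁' N B X lam a qs q) (h1 : δ₁ ≤ δ₂) (h2 : δ₁' ≤ δ₂') :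
    WinK ok c Dm δ₂ δ₂' N B X lam a qs q where
  len := h.len
  gl := fun p hp => (h.gl p hp).imp id fun h3 => h3.trans h1
  dom := h.dom
  win := h.win.mono hX h1 le_rfl le_rfl h2
  ms := fun t => (h.ms t).trans h1
  gd := XG702.Good_mono hX h.gd h2
  nlp := h.nlp
  hok := h.hok
  mp := h.mp
  lvl := h.lvl

section

variable {Λ : Type*} {π : Λ → DPar} {h : ℝ → ℝ}

private lemma nm1e {z : Eis} (h : z ≠ 0) : (1 : ℝ) ≤ nm z := by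
  exact_mod_cast nm_pos.mpr h

/-- the elements of the window of a level -/
lemma jw_fst {j n : ℕ} {X B₂ : ℝ} (hX : 1 ≤ X) (hB : 1 ≤ B₂) (hj : j < n) (hn : (2 : ℝ) ^ n ≤ X)
    {d : Eis} (hd : d ∈ (Jw j n).image Prod.fst) :
    IsPrim d ∧ (nm d : ℝ) ≤ X ^ B₂ ∧ Real.log (nm d) ≤ Real.log 2 * ((j : ℝ) + 1) / 2 := by
  obtain ⟨x, hx, rfl⟩ := mem_image.1 hd
  have hp := (Jw_mem hx).1
  have h1 := (Jw_mem hx).2.2
  have h2 := nm1e (Jw_ne hx)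
  have h0 := nm1e hp.ne_zero
  have h3 : (nm x.1 : ℝ) ^ 2 ≤ 2 ^ (j + 1) := (le_mul_of_one_le_left (by positivity) h2).trans h1
  have h4 : (2 : ℝ) ^ (j + 1) ≤ 2 ^ n := pow_le_pow_right₀ (by norm_num) hj
  refine ⟨hp, ?_, ?_⟩
  · have h5 : (nm x.1 : ℝ) ≤ X := (le_self_pow₀ h0 (by norm_num)).trans (h3.trans (h4.trans hn))
    calc (nm x.1 : ℝ) ≤ X := h5
      _ = X ^ (1 : ℝ) := (Real.rpow_one X).symm
      _ ≤ X ^ B₂ := Real.rpow_le_rpow_of_exponent_le hX hB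
  · have h5 := Real.log_le_log (by positivity) h3
    rw [Real.log_pow, Real.log_pow] at h5
    push_cast at h5
    linarith

set_option maxHeartbeats 1600000 in
/-- **`RFr` for the differences** -/
theorem rfr_X {c₀ : ℝ} (hpu : PU h c₀) (hP : ∀ lam, (π lam).OK)
    (hNC : ∀ lam, ∀ k : Eis, k ≠ 0 → (NPm (π lam).n (π lam).ψ (π lam).l₂ k ↔ NCube k))
    {dd : ℝ} {s : ER911.EF} (R : ExpRules (7 / 8 + dd) (ex Dq (fun lam => Rt (π lam) h)) s)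
    (hPF : PF Set.univ (7 / 8 + dd)) (hd : 0 ≤ dd) (hd8 : dd ≤ 1 / 8) {e0 c β k₁ : ℝ}
    (he0 : 0 ≤ e0) (he1 : e0 ≤ 1) (hβ : 17 / 100 ≤ β) (hβ' : β ≤ 1 / 5)
    {Par : Set (Fin 3 ⊕ Fin 5 → ℝ)} (hPar : ∀ p ∈ Par, ParOK p)
    (hDh : ∀ p ∈ Par, Dh (cκ p) (cu p 2) (cu p 3) (cu p 4) (cx' p) (dd * cκ p))
    {Dm : Set QK} (hDm : ∀ q ∈ Dm, q ∈ DomKc k₁ c β Par DifL) {hf : HfK Λ} {GE : QK → ℝ}
    (hln : RLnF dd (fun (lam : Λ × Eis) a qs => okCX (π lam.1) lam.2 a qs ∧ okD a) e0 c Dm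
      s0X (fun q => cu (prX (bp fun i => q.1 (.inl i))) 4) hf GE) :
    RFr (alX π h) (fun lam a qs => okCX (π lam.1) lam.2 a qs ∧ okD a) e0 c Dm
      (fun lam => lam.2 * lam.2) hf GE := by
  intro ε hε
  obtain ⟨ε₀, hε₀, hln⟩ := hln (ε / 4) (by positivity)
  obtain ⟨ε₁, hε₁, hε₁0, hε₁ε, hε₁1⟩ : ∃ ε₁ : ℝ, 0 < ε₁ ∧ ε₁ ≤ ε₀ ∧ ε₁ ≤ ε / 4 ∧ ε₁ ≤ 1 :=
    ⟨min (min ε₀ (ε / 4)) 1, by positivity, (min_le_left _ _).trans (min_le_left _ _),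
      (min_le_left _ _).trans (min_le_right _ _), min_le_right _ _⟩
  obtain ⟨δ₁, hδ₁, hδ₁ε, HR⟩ := rhU_X (c := c) (k₁ := k₁) hpu hP hNC R hPF hd hd8 hβ hβ' hPar hDh
    hε₁ hε₁1
  obtain ⟨δ₂, hδ₂, HL⟩ := hln ε₁ hε₁ hε₁0
  refine ⟨min δ₁ δ₂, lt_min hδ₁ hδ₂, fun lam N B Bp => ?_⟩
  obtain ⟨B₂, hB₂d⟩ : ∃ B₂ : ℝ, B₂ = max (max B 3) Bp := ⟨_, rfl⟩
  have hB₂ : max B 3 ≤ B₂ := hB₂d ▸ le_max_left _ _
  have hBp : Bp ≤ B₂ := hB₂d ▸ le_max_right _ _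
  have hB3 : 3 ≤ B₂ := (le_max_right B 3).trans hB₂
  obtain ⟨M, a₁, A₀, ha₁, HR⟩ := HR lam N B B₂ hB₂
  obtain ⟨δ₂', hδ₂', X₂, hX₂, HL⟩ := HL lam N B
  refine ⟨a₁, max A₀ 2, lt_of_lt_of_le (by norm_num) (le_max_right _ _), fun cc hcc => ?_⟩
  obtain ⟨X₁, hX₁, HR⟩ := HR cc hcc
  have hM0 : (0 : ℝ) ≤ M := Nat.cast_nonneg _
  obtain ⟨δ', hδ', hδ'2, hδ'M⟩ : ∃ δ' : ℝ, 0 < δ' ∧ δ' ≤ δ₂' ∧ δ' * M ≤ ε / 4 := by
    refine ⟨min δ₂' (ε / (4 * (M + 1))), by positivity, min_le_left _ _, ?_⟩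
    have h1 := mul_le_mul_of_nonneg_right (min_le_right δ₂' (ε / (4 * (M + 1)))) hM0
    refine h1.trans ?_
    rw [div_mul_eq_mul_div, div_le_iff₀ (by positivity)]
    nlinarith
  refine ⟨δ', hδ', max X₁ X₂, lt_max_of_lt_left hX₁, ?_⟩
  intro X hX a qs q hW
  have hXX₁ : X₁ ≤ X := (le_max_left _ _).trans hX
  have hXX₂ : X₂ ≤ X := (le_max_right _ _).trans hX
  have hX1 : 1 < X := by linarith
  have hX0 : 0 < X := by linarith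
  have hL : 0 < Real.log X := Real.log_pos hX1
  have hW1 := WinK_mono hX1.le hW (min_le_left _ _) le_rfl
  have hW2 := WinK_mono hX1.le hW (min_le_right δ₁ δ₂) hδ'2
  obtain ⟨hnw, hline⟩ := HL X hXX₂ a qs q hW2
  obtain ⟨⟨-, -, hz, hw⟩, H⟩ := HR X hXX₁ δ' hδ'.le a qs hW1.len hW1.gl q (hDm q hW1.dom) hW1.win hW1.ms
    hW1.gd (fun p hp hl => absurd hl (hW1.nlp p hp)) hW1.hok.1 hW1.hok.2
  have hpar : prX (bp fun i => q.1 (.inl i)) ∈ Par := (hDm q hW1.dom).1.1.par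
  have hPp := hPar _ hpar
  have hl3 : a.1.1.l ≤ 3 * Real.log X := by
    have h1 : |a.1.1.l / Real.log X - cκ (prX (bp fun i => q.1 (.inl i)))| ≤ δ₁ :=
      hW1.win.ev (.inl (.inl (.inl (.inl 0))))
    have h2 := (abs_le.1 h1).2
    have h3 := hPp.κ1
    rw [← div_le_iff₀ hL]
    linarith
  have hE0X : Real.exp (e0 * a.1.1.l) ≤ X ^ B₂ := by
    rw [Real.rpow_def_of_pos hX0]
    refine Real.exp_le_exp.2 ?_
    have h1 : e0 * a.1.1.l ≤ e0 * (3 * Real.log X) := mul_le_mul_of_nonneg_left hl3 he0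
    have h2 : e0 * (3 * Real.log X) ≤ 1 * (3 * Real.log X) :=
      mul_le_mul_of_nonneg_right he1 (by positivity)
    have h3 : Real.log X * 3 ≤ Real.log X * B₂ := mul_le_mul_of_nonneg_left hB3 hL.le
    linarith
  obtain ⟨W0, hS, hRH, hnum⟩ := H (kB a) (Real.log 2 * ((a.2.1 : ℝ) + 1) / 2)
    (Real.exp (e0 * a.1.1.l)) (GE q + ε / 4) (hf lam X a qs q)
    (LI (2 ^ a.2.1 / 4) (2 ^ (a.2.1 + 1))) ((Jw a.2.1 (nw c a.1)).image Prod.fst)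
    (fun d hd => jw_fst hX1.le (by linarith) hW.lvl hnw hd) (Real.exp_pos _) hE0X
    (fun i hi d hd => (hline i hi).1 _ (Real.log_nonneg (nm1e
      (jw_fst hX1.le (show (1 : ℝ) ≤ 1 from le_rfl) hW.lvl hnw hd).1.ne_zero)))
    (fun i hi => by
      rw [Real.log_exp]
      exact (hline i hi).2 hz hw)
  refine ⟨W0, hS, ?_, ?_⟩
  · intro i hi jj d hd f hf' γ φ hγ hφ hφm P hPp
    have h1 := hRH (max A₀ 2) (le_max_left _ _) i hi jj d hd f hf' γ φ hγ hφ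
      (hφm.trans (Real.rpow_le_rpow_of_exponent_le hX1.le hBp)) P hPp
    exact h1
  · intro i hi d hd f hf'
    refine (hnum i hi d hd f hf').trans ?_
    refine div_le_div_of_nonneg_right ?_ (by positivity)
    rw [← Real.rpow_natCast, ← Real.rpow_mul hX0.le, ← Real.rpow_add hX0]
    exact Real.rpow_le_rpow_of_exponent_le hX1.le (by linarith)

set_option maxHeartbeats 1600000 in
/-- **`RFr` for the single lists** -/
theorem rfr_S {c₀ : ℝ} (hpu : PU h c₀) (hP : ∀ lam, (π lam).OK)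
    (hNC : ∀ lam, ∀ k : Eis, k ≠ 0 → (NPm (π lam).n (π lam).ψ (π lam).l₂ k ↔ NCube k))
    {dd : ℝ} {s : ER911.EF} (R : ExpRules (7 / 8 + dd) (ex Dq (fun lam => Rt (π lam) h)) s)
    (hPF : PF Set.univ (7 / 8 + dd)) (hd : 0 ≤ dd) (hd8 : dd ≤ 1 / 8) {e0 c β k₁ : ℝ}
    (he0 : 0 ≤ e0) (he1 : e0 ≤ 1)
    {Par : Set (Fin 3 ⊕ Fin 5 → ℝ)} (hPar : ∀ p ∈ Par, ParOK p)
    (hDh : ∀ p ∈ Par, Dh (cκ p) (cu p 2) (cu p 3) (cu p 4) (cx' p) (dd * cκ p))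
    {Dm : Set QK} (hDm : ∀ q ∈ Dm, q ∈ DomKc k₁ c β Par (SinL β)) {hf : HfK Λ} {GE : QK → ℝ}
    (hln : RLnF dd (fun (lam : Λ × Eis) a qs => okCX (π lam.1) lam.2 a qs) e0 c Dm
      (fun _ => 0) (fun q => q.1 (.inl (.inr 2))) hf GE) :
    RFr (alS π h) (fun lam a qs => okCX (π lam.1) lam.2 a qs) e0 c Dm
      (fun lam => lam.2 * lam.2) hf GE := by
  intro ε hε
  obtain ⟨ε₀, hε₀, hln⟩ := hln (ε / 4) (by positivity)
  obtain ⟨ε₁, hε₁, hε₁0, hε₁ε, hε₁1⟩ : ∃ ε₁ : ℝ, 0 < ε₁ ∧ ε₁ ≤ ε₀ ∧ ε₁ ≤ ε / 4 ∧ ε₁ ≤ 1 :=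
    ⟨min (min ε₀ (ε / 4)) 1, by positivity, (min_le_left _ _).trans (min_le_left _ _),
      (min_le_left _ _).trans (min_le_right _ _), min_le_right _ _⟩
  obtain ⟨δ₁, hδ₁, hδ₁ε, HR⟩ := rhU_S (c := c) (β := β) (k₁ := k₁) hpu hP hNC R hPF hd hd8 hPar
    hDh hε₁ hε₁1
  obtain ⟨δ₂, hδ₂, HL⟩ := hln ε₁ hε₁ hε₁0
  refine ⟨min δ₁ δ₂, lt_min hδ₁ hδ₂, fun lam N B Bp => ?_⟩
  obtain ⟨B₂, hB₂d⟩ : ∃ B₂ : ℝ, B₂ = max (max B 3) Bp := ⟨_, rfl⟩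
  have hB₂ : max B 3 ≤ B₂ := hB₂d ▸ le_max_left _ _
  have hBp : Bp ≤ B₂ := hB₂d ▸ le_max_right _ _
  have hB3 : 3 ≤ B₂ := (le_max_right B 3).trans hB₂
  obtain ⟨M, a₁, A₀, ha₁, HR⟩ := HR lam N B B₂ hB₂
  obtain ⟨δ₂', hδ₂', X₂, hX₂, HL⟩ := HL lam N B
  refine ⟨a₁, max A₀ 2, lt_of_lt_of_le (by norm_num) (le_max_right _ _), fun cc hcc => ?_⟩
  obtain ⟨X₁, hX₁, HR⟩ := HR cc hcc
  have hM0 : (0 : ℝ) ≤ M := Nat.cast_nonneg _
  obtain ⟨δ', hδ', hδ'2, hδ'M⟩ : ∃ δ' : ℝ, 0 < δ' ∧ δ' ≤ δ₂' ∧ δ' * M ≤ ε / 4 := by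
    refine ⟨min δ₂' (ε / (4 * (M + 1))), by positivity, min_le_left _ _, ?_⟩
    have h1 := mul_le_mul_of_nonneg_right (min_le_right δ₂' (ε / (4 * (M + 1)))) hM0
    refine h1.trans ?_
    rw [div_mul_eq_mul_div, div_le_iff₀ (by positivity)]
    nlinarith
  refine ⟨δ', hδ', max X₁ X₂, lt_max_of_lt_left hX₁, ?_⟩
  intro X hX a qs q hW
  have hXX₁ : X₁ ≤ X := (le_max_left _ _).trans hX
  have hXX₂ : X₂ ≤ X := (le_max_right _ _).trans hX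
  have hX1 : 1 < X := by linarith
  have hX0 : 0 < X := by linarith
  have hL : 0 < Real.log X := Real.log_pos hX1
  have hW1 := WinK_mono hX1.le hW (min_le_left _ _) le_rfl
  have hW2 := WinK_mono hX1.le hW (min_le_right δ₁ δ₂) hδ'2
  obtain ⟨hnw, hline⟩ := HL X hXX₂ a qs q hW2
  obtain ⟨⟨-, -, hz, hw⟩, H⟩ := HR X hXX₁ δ' hδ'.le a qs hW1.len hW1.gl q (hDm q hW1.dom) hW1.win hW1.ms
    hW1.gd (fun p hp hl => absurd hl (hW1.nlp p hp)) hW1.hok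
  have hpar : prX (bp fun i => q.1 (.inl i)) ∈ Par := (hDm q hW1.dom).1.1.par
  have hPp := hPar _ hpar
  have hl3 : a.1.1.l ≤ 3 * Real.log X := by
    have h1 : |a.1.1.l / Real.log X - cκ (prX (bp fun i => q.1 (.inl i)))| ≤ δ₁ :=
      hW1.win.ev (.inl (.inl (.inl (.inl 0))))
    have h2 := (abs_le.1 h1).2
    have h3 := hPp.κ1
    rw [← div_le_iff₀ hL]
    linarith
  have hE0X : Real.exp (e0 * a.1.1.l) ≤ X ^ B₂ := by
    rw [Real.rpow_def_of_pos hX0]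
    refine Real.exp_le_exp.2 ?_
    have h1 : e0 * a.1.1.l ≤ e0 * (3 * Real.log X) := mul_le_mul_of_nonneg_left hl3 he0
    have h2 : e0 * (3 * Real.log X) ≤ 1 * (3 * Real.log X) :=
      mul_le_mul_of_nonneg_right he1 (by positivity)
    have h3 : Real.log X * 3 ≤ Real.log X * B₂ := mul_le_mul_of_nonneg_left hB3 hL.le
    linarith
  obtain ⟨W0, hS, hRH, hnum⟩ := H (kB a) (Real.log 2 * ((a.2.1 : ℝ) + 1) / 2)
    (Real.exp (e0 * a.1.1.l)) (GE q + ε / 4) (hf lam X a qs q)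
    (LI (2 ^ a.2.1 / 4) (2 ^ (a.2.1 + 1))) ((Jw a.2.1 (nw c a.1)).image Prod.fst)
    (fun d hd => jw_fst hX1.le (by linarith) hW.lvl hnw hd) (Real.exp_pos _) hE0X
    (fun i hi d hd => (hline i hi).1 _ (Real.log_nonneg (nm1e
      (jw_fst hX1.le (show (1 : ℝ) ≤ 1 from le_rfl) hW.lvl hnw hd).1.ne_zero)))
    (fun i hi => by
      rw [Real.log_exp]
      have h1 := (hline i hi).2 hz hw
      rw [zero_div] at h1
      exact h1)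
  refine ⟨W0, hS, ?_, ?_⟩
  · intro i hi jj d hd f hf' γ φ hγ hφ hφm P hPp
    have h1 := hRH (max A₀ 2) (le_max_left _ _) i hi jj d hd f hf' γ φ hγ hφ
      (hφm.trans (Real.rpow_le_rpow_of_exponent_le hX1.le hBp)) P hPp
    exact h1
  · intro i hi d hd f hf'
    refine (hnum i hi d hd f hf').trans ?_
    refine div_le_div_of_nonneg_right ?_ (by positivity)
    rw [← Real.rpow_natCast, ← Real.rpow_mul hX0.le, ← Real.rpow_add hX0]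
    exact Real.rpow_le_rpow_of_exponent_le hX1.le (by linarith)

end

end Crest.Agent.R017.GkE521
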