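import Crest.Agent.R017.GkE_521
import Crest.Agent.R017.FrX_579
import Crest.Agent.R017.FrS_829
import Crest.Agent.R017.ETy3_71
import Crest.Agent.R017.ChX_629
import Crest.Agent.R017.UbOr_381
import Crest.Agent.R017.HfG_47
import Crest.Agent.R017.RkX_629

/-!
# Row 17, class E, R8 (helper521): the real lines at every datum, families `3/5 κ ≤ k ≤ 7/8 κ`

* `GX_lip`, `ch_X` : the child of helper904's lines at a datum
* **`rlnF_X`** : `RLnF` for the differences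
-/

set_option autoImplicit false
set_option linter.unusedVariables false

noncomputable section

open Finset
open scoped ComplexConjugate Classical

namespace Crest.Agent.R017.GkF521

open Crest.Agent.R012 Crest.Agent.R012.Eis Crest.Agent.R012.MC
open Crest.Agent.R017.FE47 (PU SM cx)
open Crest.Agent.R017.XG702 (Pcs)
open Crest.Agent.R017.XT71 (Sys Win mx)
open Crest.Agent.R017.Prov71
open Crest.Agent.R017.B770
open Crest.Agent.R017.E5B71 Crest.Agent.R017.E5L770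
open Crest.Agent.R017.E3Kc548 (LI mem_LI)
open Crest.Agent.R017.I1146 (LN)
open Crest.Agent.R017.Sup271 (NPm)
open Crest.Agent.R017.RnP571
open Crest.Agent.R017.P1l54 (ParOK)
open Crest.Agent.R017.TM708 (R5)
open Crest.Agent.R017.PX764 (Dk)
open Crest.Agent.R017.ExBox960 Crest.Agent.R017.ExP960
open Crest.Agent.R017.P1X960
open Crest.Agent.R017.P10X764
open Crest.Agent.R017.E3Nx744 (CBA)
open Crest.Agent.R017.FrX579
open Crest.Agent.R017.FrS829
open Crest.Agent.R017.ETd548 (BkX S8Xk)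
open Crest.Agent.R017.ETk548 (DomKc)
open Crest.Agent.R017.ETm548
open Crest.Agent.R017.ETy71 (mV vN vR pQ bq Dz)
open Crest.Agent.R017.SP521 (Jw Jw_mem Jw_ne LI_win)
open Crest.Agent.R017.P1L904 (RS0 RS1 RSm)
open Crest.Agent.R017.P1L7904 (GX hX Ch thX_le)
open Crest.Agent.R017.ChX629
open Crest.Agent.R017.UbOr381 (DomHi)
open Crest.Agent.R017.LnY47 (hfG hfG_eq GXq)
open Crest.Agent.R017.RkX629 (rlg_X)
open Crest.Agent.R017.GkR521
open Crest.Agent.R017.GkD521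
open Crest.Agent.R017.GkE521

/-! ### the room is Lipschitz -/

lemma RS0_lip {q p q' p' um x t : ℝ} (ht : 0 ≤ t) (hq : |q - q'| ≤ t) (hp : |p - p'| ≤ t) :
    RS0 q p um x ≤ RS0 q' p' um x + 3 * t := by
  obtain ⟨q1, q2⟩ := abs_le.1 hq
  obtain ⟨p1, p2⟩ := abs_le.1 hp
  unfold Crest.Agent.R017.P1L904.RS0
  have h1 := le_max_left (q' + p') (2 / 3 * q' + 4 / 3 * p' + max (um / 2) (4 / 15 * (um + x)))
  have h2 := le_max_right (q' + p') (2 / 3 * q' + 4 / 3 * p' + max (um / 2) (4 / 15 * (um + x)))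
  exact max_le (by linarith) (by linarith)

lemma RS1_lip {k q p q' p' um x t : ℝ} (ht : 0 ≤ t) (hq : |q - q'| ≤ t) (hp : |p - p'| ≤ t) :
    RS1 k q p um x ≤ RS1 k q' p' um x + 3 * t := by
  obtain ⟨q1, q2⟩ := abs_le.1 hq
  obtain ⟨p1, p2⟩ := abs_le.1 hp
  unfold Crest.Agent.R017.P1L904.RS1
  have hm : max k (p + um) ≤ max k (p' + um) + t :=
    max_le (by linarith [le_max_left k (p' + um)]) (by linarith [le_max_right k (p' + um)])
  have h1 := le_max_left q' (max ((2 * q' + max k (p' + um)) / 3)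
    (max ((q' + 2 * p' + max k (p' + um) / 3) / 3) ((q' + 3 * p' - 5 / 12 * (p' + um - x)) / 3)))
  have h2 := le_max_right q' (max ((2 * q' + max k (p' + um)) / 3)
    (max ((q' + 2 * p' + max k (p' + um) / 3) / 3) ((q' + 3 * p' - 5 / 12 * (p' + um - x)) / 3)))
  have h3 := le_max_left ((2 * q' + max k (p' + um)) / 3)
    (max ((q' + 2 * p' + max k (p' + um) / 3) / 3) ((q' + 3 * p' - 5 / 12 * (p' + um - x)) / 3))
  have h4 := le_max_right ((2 * q' + max k (p' + um)) / 3)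
    (max ((q' + 2 * p' + max k (p' + um) / 3) / 3) ((q' + 3 * p' - 5 / 12 * (p' + um - x)) / 3))
  have h5 := le_max_left ((q' + 2 * p' + max k (p' + um) / 3) / 3)
    ((q' + 3 * p' - 5 / 12 * (p' + um - x)) / 3)
  have h6 := le_max_right ((q' + 2 * p' + max k (p' + um) / 3) / 3)
    ((q' + 3 * p' - 5 / 12 * (p' + um - x)) / 3)
  rw [← sub_nonneg]
  have key : max q (max ((2 * q + max k (p + um)) / 3)
      (max ((q + 2 * p + max k (p + um) / 3) / 3) ((q + 3 * p - 5 / 12 * (p + um - x)) / 3))) ≤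
      max q' (max ((2 * q' + max k (p' + um)) / 3)
        (max ((q' + 2 * p' + max k (p' + um) / 3) / 3)
          ((q' + 3 * p' - 5 / 12 * (p' + um - x)) / 3))) + 2 * t :=
    max_le (by linarith) (max_le (by linarith) (max_le (by linarith) (by linarith)))
  linarith

lemma GX_lip {N k q p q' p' uN uR x D t : ℝ} (ht : 0 ≤ t) (hq : |q - q'| ≤ t)
    (hp : |p - p'| ≤ t) : GX N k q p uN uR x D ≤ GX N k q' p' uN uR x D + 6 * t := by
  obtain ⟨q1, q2⟩ := abs_le.1 hq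
  obtain ⟨p1, p2⟩ := abs_le.1 hp
  have hq' : |q' - q| ≤ t := by rw [abs_sub_comm]; exact hq
  have hp' : |p' - p| ≤ t := by rw [abs_sub_comm]; exact hp
  have h1 : RSm k q' p' uN x ≤ RSm k q p uN x + 3 * t := by
    unfold Crest.Agent.R017.P1L904.RSm
    have e1 := RS0_lip (um := uN) (x := x) ht hq' hp'
    have e2 := RS1_lip (k := k) (um := uN) (x := x) ht hq' hp'
    rw [← min_add_add_right]
    exact min_le_min e1 e2
  have h2 := RS0_lip (um := uR) (x := x) ht hq' hp'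
  have h3 : max (RSm k q' p' uN x) (RS0 q' p' uR x) ≤
      max (RSm k q p uN x) (RS0 q p uR x) + 3 * t :=
    max_le (by linarith [le_max_left (RSm k q p uN x) (RS0 q p uR x)])
      (by linarith [le_max_right (RSm k q p uN x) (RS0 q p uR x)])
  unfold Crest.Agent.R017.P1L7904.GX
  linarith

section

variable {Λ : Type*} {π : Λ → DPar} {h : ℝ → ℝ}

/-- the level against the window -/
lemma lev_i {i j n : ℕ} {L T t₀ : ℝ} (hL : 0 < L) (hi : i ∈ LI (2 ^ j / 4) (2 ^ (j + 1)))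
    (hj : j < n) (hn : Real.log ((2 : ℝ) ^ n) ≤ T * L + t₀ * L) (h4 : 4 ≤ t₀ * L) :
    (i : ℝ) / L ≤ T + 2 * t₀ := by
  have h1 := (abs_le.1 (LI_win hi)).2
  have h2 : Real.log 2 * (j : ℝ) ≤ Real.log ((2 : ℝ) ^ n) := by
    rw [Real.log_pow, mul_comm]
    exact mul_le_mul_of_nonneg_right (by exact_mod_cast hj.le) (Real.log_nonneg (by norm_num))
  rw [div_le_iff₀ hL]
  linarith

/-- **the child of helper904's lines at a datum of the differences** -/
theorem ch_X {c β : ℝ} {Par : Set (Fin 3 ⊕ Fin 5 → ℝ)} {Rh e0 : ℝ} {ℓ Kf Tf : (Fin 5 → ℝ) → ℝ}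
    {cw B₂ J R' t₀ ε X : ℝ} {lam : Λ × Eis} {a : BkX} {qs : List Pq} {q : QK} {d t : ℝ}
    (F : FrXD π h Rh e0 c ℓ Kf Tf cw B₂ J R' t₀ ε X lam a.1 qs ((fun i => q.1 (.inl i)), q.2))
    (hX : 1 < X) (hβ : β = 17 / 100)
    (hq : ((fun i => q.1 (.inl i)), q.2) ∈ Dom8X c β Par DifL)
    (hPO : ParOK (prX (bp fun i => q.1 (.inl i))))
    (hD : Dh (cκ (prX (bp fun i => q.1 (.inl i)))) (cu (prX (bp fun i => q.1 (.inl i))) 2)
      (cu (prX (bp fun i => q.1 (.inl i))) 3) (cu (prX (bp fun i => q.1 (.inl i))) 4)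
      (cx' (prX (bp fun i => q.1 (.inl i)))) (d * cκ (prX (bp fun i => q.1 (.inl i)))))
    (hc : 4 * (c * cκ (prX (bp fun i => q.1 (.inl i)))) ≤
      d * cκ (prX (bp fun i => q.1 (.inl i))))
    (h35 : 3 / 5 * cκ (prX (bp fun i => q.1 (.inl i))) ≤ q.1 (.inr ()))
    (h78 : q.1 (.inr ()) ≤ 7 / 8 * cκ (prX (bp fun i => q.1 (.inl i))))
    (ht₀ : 0 < t₀) (ht : 2 * t₀ ≤ t) (ht1 : t ≤ 1 / 40000) (h4 : 4 ≤ t₀ * Real.log X)
    (hk : |kB a / Real.log X - q.1 (.inr ())| ≤ t₀) (hlv : a.2.1 < nw c a.1) {i : ℕ}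
    (hi : i ∈ LI (2 ^ a.2.1 / 4) (2 ^ (a.2.1 + 1))) :
    Ch (cκ (prX (bp fun i => q.1 (.inl i)))) (cu (prX (bp fun i => q.1 (.inl i))) 2)
      (cu (prX (bp fun i => q.1 (.inl i))) 3) (cu (prX (bp fun i => q.1 (.inl i))) 4)
      (cx' (prX (bp fun i => q.1 (.inl i)))) (d * cκ (prX (bp fun i => q.1 (.inl i)))) t
      (kB a / Real.log X) (LN (clN a.1 qs) / Real.log X) (mV (vN q)) (mV (vR q))
      ((i : ℝ) / Real.log X)
      (cN (prX (bp fun i => q.1 (.inl i))) -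
        (q.1 (.inl (.inr 0)) + q.1 (.inl (.inr 1)) + q.1 (.inl (.inr 2))))
      (s0X a.1 / Real.log X) := by
  have hL : 0 < Real.log X := Real.log_pos hX
  obtain ⟨hC, hDf, hmo, hfar⟩ := hq
  obtain ⟨⟨n1, n2, n3⟩, r1, r2⟩ := hDf
  have hZ := hC.zr 1
  have hlev := lev_i hL hi hlv F.yl h4
  have hk' := abs_le.1 hk
  have hκ := hPO.κ0
  have ht0 : 0 ≤ t := by linarith
  have dv : ∀ {u v : ℝ}, |u - v * Real.log X| ≤ t₀ * Real.log X → |u / Real.log X - v| ≤ t₀ := by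
    intro u v huv
    rw [show u / Real.log X - v = (u - v * Real.log X) / Real.log X by field_simp, abs_div,
      abs_of_pos hL, div_le_iff₀ hL]
    exact huv
  have hp := dv F.nl
  have hs := dv F.sl
  have hn0 : cκ (prX (bp fun i => q.1 (.inl i))) / 2 -
      2 * cx' (prX (bp fun i => q.1 (.inl i))) - t₀ ≤ LN (clN a.1 qs) / Real.log X := by
    rw [le_div_iff₀ hL]
    have := F.n0
    linarith
  refine chX (c := c) (β := β) (Z := bp (fun i => q.1 (.inl i)) (.inr 1)) (b := q.1 (.inl (.inr 3)))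
    (x' := q.2 .am) (v₀ := q.1 (.inl (.inr 0))) (v₁ := q.1 (.inl (.inr 1)))
    (v₂ := q.1 (.inl (.inr 2))) hκ ht0 (by linarith) rfl hD hc hβ hZ.1 hZ.2 hC.v0 hC.v1 hC.v2
    n1 n2 n3 hC.x0 hC.x1 hC.s2 (by linarith) (by linarith) ?_ (hp.trans (by linarith))
    (by linarith) (hs.trans (by linarith))
  refine hlev.trans ?_
  have e1 : tpW c (bp fun i => q.1 (.inl i)) (q.1 (.inl (.inr 3))) =
      min (min (2 * cN (prX (bp fun i => q.1 (.inl i))) - cκ (prX (bp fun i => q.1 (.inl i))))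
          (3 / 4 * cN (prX (bp fun i => q.1 (.inl i)))) +
          11 / 5 * cx' (prX (bp fun i => q.1 (.inl i))))
        (min (2 * cN (prX (bp fun i => q.1 (.inl i))) - cκ (prX (bp fun i => q.1 (.inl i))))
          (3 / 4 * cN (prX (bp fun i => q.1 (.inl i)))) +
          11 / 5 * cx' (prX (bp fun i => q.1 (.inl i))) +
          2 * (c * cκ (prX (bp fun i => q.1 (.inl i)))) - 2 * q.1 (.inl (.inr 3))) := rfl
  show tpW c (bp fun i => q.1 (.inl i)) (q.1 (.inl (.inr 3))) + 2 * t₀ ≤ _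
  rw [e1]
  linarith

set_option maxHeartbeats 1600000 in
/-- **the real lines of the differences** : `RLnF` at helper47's `hfG`, exponent `GXq d` -/
theorem rlnF_X {c₀ : ℝ} (hpu : PU h c₀) (hP : ∀ lam, (π lam).OK)
    (hex : ∀ lam, ¬ NPm (π lam).n (π lam).ψ (π lam).l₂ 1)
    {Rh : ℝ} (hRh0 : 0 ≤ Rh) (hRh : ∀ u, cx h u ≠ 0 → |u| ≤ Rh) {e0 : ℝ}
    (he0 : 0 ≤ e0) (he0' : e0 ≤ 1 / 64) {c β d : ℝ} (hc0 : 0 ≤ c) (hc1 : c ≤ 1)
    (hβ : β = 17 / 100) {Par : Set (Fin 3 ⊕ Fin 5 → ℝ)} (hPar : ∀ p ∈ Par, ParOK p)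
    {D5 : Set (Fin 5 → ℝ)} {ℓ Kf Tf : (Fin 5 → ℝ) → ℝ}
    (hDN : ∀ p : IX5 → ℝ, prX p ∈ Par → ZR β p → bN p ∈ D5)
    (hDR : ∀ p : IX5 → ℝ, prX p ∈ Par → ZR β p → bR p ∈ D5)
    (hR5 : ∀ p : IX5 → ℝ, prX p ∈ Par → ZR β p → R5 (bN p))
    (hKN : ∀ p : IX5 → ℝ, prX p ∈ Par → ZR β p →
      Kf (bN p) = max (cκ (prX p)) (5 / 4 * cN (prX p)))
    (hKR : ∀ p : IX5 → ℝ, prX p ∈ Par → ZR β p →
      Kf (bR p) = max (cκ (prX p)) (5 / 4 * cN (prX p)))
    (hTN : ∀ (p : IX5 → ℝ) (v₀ v₁ v₂ b x' : ℝ), ChC c β Par p v₀ v₁ v₂ b x' →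
      DifL p v₀ v₁ v₂ → tpW c p b ≤ Tf (bN p))
    (hTR : ∀ (p : IX5 → ℝ) (v₀ v₁ v₂ b x' : ℝ), ChC c β Par p v₀ v₁ v₂ b x' →
      DifL p v₀ v₁ v₂ → tpW c p b ≤ Tf (bR p))
    (hcb : CBA π h Dk Kf Tf D5 ℓ)
    (hDh : ∀ p ∈ Par, Dh (cκ p) (cu p 2) (cu p 3) (cu p 4) (cx' p) (d * cκ p))
    (hcd : ∀ p ∈ Par, 4 * (c * cκ p) ≤ d * cκ p)
    {Dm : Set QK} (hDm : ∀ q ∈ Dm, q ∈ DomHi (3 / 5) (7 / 8) c β Par DifL)
    {F : QK → ℝ} (hF : ∀ q ∈ Dm, F q ≤ 5 / 9 * (d * cκ (prX (bq q)))) :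
    RLnF d (fun (lam : Λ × Eis) a qs => okCX (π lam.1) lam.2 a qs ∧ okD a) e0 c Dm
      s0X (fun q => cu (prX (bp fun i => q.1 (.inl i))) 4)
      (hfG d (fun q => mV (vN q)) (fun q => mV (vR q)) F s0X) (GXq d) := by
  intro ε hε
  refine ⟨1 / 160000, by norm_num, fun ε₁ hε₁ hε₁0 => ?_⟩
  obtain ⟨t₀, ht₀, ht₀ε, ht₀1, ht₀2⟩ : ∃ t₀ : ℝ, 0 < t₀ ∧ 6 * t₀ ≤ ε ∧ t₀ ≤ 1 / 80000 ∧ t₀ ≤ ε₁ :=
    ⟨min (ε / 6) (min (1 / 80000) ε₁), by positivity,
      by have := min_le_left (ε / 6) (min (1 / 80000) ε₁); linarith,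
      (min_le_right _ _).trans (min_le_left _ _), (min_le_right _ _).trans (min_le_right _ _)⟩
  obtain ⟨δ, hδ, HF⟩ := frX (e0 := e0) hpu hP hex hRh0 hRh he0 (by linarith) hc0 hc1 hPar hDN hDR
    hR5 hKN hKR hTN hTR hcb (ε := 1) one_pos ht₀
  refine ⟨min δ t₀, lt_min hδ ht₀, fun lam N B => ?_⟩
  obtain ⟨B₂, J, R', hB₂, hJ, hR', δ', hδ', X₀, hX₀, HF⟩ := HF lam N B 1 le_rfl
  refine ⟨δ', hδ', max X₀ (Real.exp (4 / t₀)), lt_max_of_lt_left hX₀, ?_⟩
  intro X hX a qs q hW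
  have hXX₀ : X₀ ≤ X := (le_max_left _ _).trans hX
  have hX1 : 1 < X := by linarith
  have hX0 : 0 < X := by linarith
  have hL : 0 < Real.log X := Real.log_pos hX1
  have h4 : 4 ≤ t₀ * Real.log X := by
    have h1 := (Real.le_log_iff_exp_le hX0).2 ((le_max_right _ _).trans hX)
    rw [div_le_iff₀ ht₀] at h1
    linarith
  obtain ⟨⟨hq8, hk0, hk78⟩, hk35⟩ := hDm q hW.dom
  have hpar : prX (bp fun i => q.1 (.inl i)) ∈ Par := hq8.1.par
  have hPO := hPar _ hpar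
  have hD := hDh _ hpar
  have hc := hcd _ hpar
  have hFq := hF q hW.dom
  have hκ := hPO.κ0
  have hκ1 := hPO.κ1
  have hW1 := WinK_mono hX1.le hW (min_le_left _ _) le_rfl
  have F₁ := HF X hXX₀ a.1 qs hW1.len hW1.gl ((fun i => q.1 (.inl i)), q.2) hq8 (win_inl hW1.win)
    hW1.ms hW1.gd hW1.nlp hW1.hok
  have hwk : |kB a / Real.log X - q.1 (.inr ())| ≤ t₀ :=
    (hW.win.ev (.inr ())).trans (min_le_right _ _)
  refine ⟨by have := F₁.yX; linarith, fun i hi => ?_⟩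
  have hC := ch_X (t := 1 / 40000) F₁ hX1 hβ hq8 hPO hD hc hk35 hk78 ht₀ (by linarith) le_rfl h4
    hwk hW.lvl hi
  refine ⟨fun g hg => ?_, fun hz hw => ?_⟩
  · have h1 := (thX_le (δ := g / Real.log X) hD hC (by positivity) hFq).2
    have h2 : hfG d (fun q => mV (vN q)) (fun q => mV (vR q)) F s0X lam X a qs q i g ≤ 0 :=
      mul_nonpos_of_nonneg_of_nonpos hL.le h1
    have h3 := F₁.n1
    have h5 := hC.v2
    rw [div_le_iff₀ hL] at h5
    have h6 : 0 ≤ kB a := by unfold kB; positivity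
    have h7 := hPO.N1
    have h8 := hPO.x1
    have h9 : (cN (prX (bp fun i => q.1 (.inl i))) + cx' (prX (bp fun i => q.1 (.inl i)))) *
        Real.log X ≤ 4 / 3 * Real.log X := mul_le_mul_of_nonneg_right (by linarith) hL.le
    have h10 : (3 / 4 * (cu (prX (bp fun i => q.1 (.inl i))) 2 +
        cu (prX (bp fun i => q.1 (.inl i))) 3 + cu (prX (bp fun i => q.1 (.inl i))) 4) +
        11 / 5 * cx' (prX (bp fun i => q.1 (.inl i))) + 1 / 40000) * Real.log X ≤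
        2 * Real.log X := by
      have e1 : cN (prX (bp fun i => q.1 (.inl i))) = cu (prX (bp fun i => q.1 (.inl i))) 2 +
        cu (prX (bp fun i => q.1 (.inl i))) 3 + cu (prX (bp fun i => q.1 (.inl i))) 4 := rfl
      refine mul_le_mul_of_nonneg_right ?_ hL.le
      linarith
    have h11 : t₀ * Real.log X ≤ 1 * Real.log X := mul_le_mul_of_nonneg_right (by linarith) hL.le
    linarith
  · refine rlg_X (F := F q) hD hC hε₁.le (by linarith) (fun δ₀ h1 h2 => ?_) hFq ?_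
      ((div_le_iff₀ hL).2 hz) ((div_le_iff₀ hL).2 hw) ?_
    · show hfG d (fun q => mV (vN q)) (fun q => mV (vR q)) F s0X lam X a qs q i
        (δ₀ * Real.log X) / Real.log X ≤ _
      rw [hfG_eq hX1]
      exact le_add_of_nonneg_right hε₁.le
    · have h1 := (abs_le.1 F₁.kl).2
      have h1' := (abs_le.1 F₁.kl).1
      have h2 : a.1.1.l ≤ (cκ (prX (bp fun i => q.1 (.inl i))) + t₀) * Real.log X := by
        show a.1.1.l ≤ (cκ (prX (bp (fun i => q.1 (.inl i)))) + t₀) * Real.log X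
        linarith
      have h0 : 0 ≤ (cκ (prX (bp fun i => q.1 (.inl i))) + t₀) * Real.log X := by positivity
      rw [div_le_iff₀ hL]
      calc e0 * a.1.1.l ≤ e0 * ((cκ (prX (bp fun i => q.1 (.inl i))) + t₀) * Real.log X) :=
            mul_le_mul_of_nonneg_left h2 he0
        _ ≤ 1 / 64 * ((cκ (prX (bp fun i => q.1 (.inl i))) + t₀) * Real.log X) :=
            mul_le_mul_of_nonneg_right he0' h0
        _ = (cκ (prX (bp fun i => q.1 (.inl i))) / 64 + t₀ / 64) * Real.log X := by ring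
        _ ≤ _ := mul_le_mul_of_nonneg_right (by linarith) hL.le
    · have hp : |LN (clN a.1 qs) / Real.log X - pQ q| ≤ t₀ := by
        rw [show LN (clN a.1 qs) / Real.log X - pQ q =
          (LN (clN a.1 qs) - pQ q * Real.log X) / Real.log X by field_simp, abs_div,
          abs_of_pos hL, div_le_iff₀ hL]
        exact F₁.nl
      have h1 := GX_lip (N := cN (prX (bq q))) (k := cκ (prX (bq q))) (uN := mV (vN q))
        (uR := mV (vR q)) (x := cx' (prX (bq q))) (D := d * cκ (prX (bq q))) ht₀.le hwk hp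
      refine (le_trans (le_of_eq ?_) h1).trans ?_
      · rfl
      · unfold Crest.Agent.R017.LnY47.GXq
        linarith

end

end Crest.Agent.R017.GkF521
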