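import Crest.Agent.R017.GkF_521
import Crest.Agent.R017.ETn_548
import Crest.Agent.R017.CopU_631

/-!
# Row 17, class E, R8 (helper521): the class Gram sums, families `3/5 κ ≤ k ≤ 7/8 κ`

* **`gkHi_X`** : differences, from the `T`-half;  **`gkHi_S`** : single lists
-/

set_option autoImplicit false
set_option linter.unusedVariables false

noncomputable section

open Finset
open scoped ComplexConjugate Classical

namespace Crest.Agent.R017.GkH521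

open Crest.Agent.R012 Crest.Agent.R012.Eis Crest.Agent.R012.MC
open Crest.Agent.R012.T411 (NCube)
open Crest.Agent.R017.FE47 (PU SM cx)
open Crest.Agent.R017.XG702 (Pcs)
open Crest.Agent.R017.XT71 (Sys Win mx)
open Crest.Agent.R017.Prov71
open Crest.Agent.R017.B770
open Crest.Agent.R017.ER911 Crest.Agent.R017.ExpC702
open Crest.Agent.R017.E5B71 Crest.Agent.R017.E5L770
open Crest.Agent.R017.I1146 (LN)
open Crest.Agent.R017.Sup271 (NPm)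
open Crest.Agent.R017.End699 (PF)
open Crest.Agent.R017.XEx298 (Rt)
open Crest.Agent.R017.RnP571
open Crest.Agent.R017.P1l54 (ParOK)
open Crest.Agent.R017.TM708 (R5)
open Crest.Agent.R017.PX764 (Dk)
open Crest.Agent.R017.ExBox960 Crest.Agent.R017.ExP960
open Crest.Agent.R017.P1X960
open Crest.Agent.R017.P10X764
open Crest.Agent.R017.E3Nx744 (CBA)
open Crest.Agent.R017.FrX579
open Crest.Agent.R017.ETd548 (BkX S8Xk GkG)
open Crest.Agent.R017.ETk548 (DomKc)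
open Crest.Agent.R017.ETm548
open Crest.Agent.R017.ETn548
open Crest.Agent.R017.ETy71 (mV vN vR pQ bq Dz)
open Crest.Agent.R017.UbOr381 (DomHi)
open Crest.Agent.R017.LnY47
open Crest.Agent.R017.GkE521
open Crest.Agent.R017.GkF521

variable {Λ : Type*} {π : Λ → DPar} {h : ℝ → ℝ}

/-- **differences** -/
theorem gkHi_X {c₀ : ℝ} (hpu : PU h c₀) (hP : ∀ lam, (π lam).OK)
    (hex : ∀ lam, ¬ NPm (π lam).n (π lam).ψ (π lam).l₂ 1)
    (hNC : ∀ lam, ∀ k : Eis, k ≠ 0 → (NPm (π lam).n (π lam).ψ (π lam).l₂ k ↔ NCube k))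
    {d : ℝ} {s : ER911.EF} (R : ExpRules (7 / 8 + d) (ex Dq (fun lam => Rt (π lam) h)) s)
    (hPF : PF Set.univ (7 / 8 + d)) (hd : 0 ≤ d) (hd8 : d ≤ 1 / 8)
    {Rh : ℝ} (hRh0 : 0 ≤ Rh) (hRh : ∀ u, cx h u ≠ 0 → |u| ≤ Rh) {e0 : ℝ}
    (he0 : 0 ≤ e0) (he0' : e0 ≤ 1 / 64) {c β : ℝ} (hc0 : 0 ≤ c) (hc1 : c ≤ 1)
    (hβ : β = 17 / 100) {Par : Set (Fin 3 ⊕ Fin 5 → ℝ)} (hPar : ∀ p ∈ Par, ParOK p)
    {D5 : Set (Fin 5 → ℝ)} {ℓ Kf Tf : (Fin 5 → ℝ) → ℝ}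
    (hDN : ∀ p : IX5 → ℝ, prX p ∈ Par → ZR β p → bN p ∈ D5)
    (hDR : ∀ p : IX5 → ℝ, prX p ∈ Par → ZR β p → bR p ∈ D5)
    (hR5 : ∀ p : IX5 → ℝ, prX p ∈ Par → ZR β p → R5 (bN p))
    (hKN : ∀ p : IX5 → ℝ, prX p ∈ Par → ZR β p →
      Kf (bN p) = max (cκ (prX p)) (5 / 4 * cN (prX p)))
    (hKR : ∀ p : IX5 → ℝ, prX p ∈ Par → ZR β p →
      Kf (bR p) = max (cκ (prX p)) (5 / 4 * cN (prX p)))
    (hTN : ∀ (p : IX5 → ℝ) (v₀ v₁ v₂ b x' : ℝ), ChC c β Par p v₀ v₁ v₂ b x' →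
      DifL p v₀ v₁ v₂ → tpW c p b ≤ Tf (bN p))
    (hTR : ∀ (p : IX5 → ℝ) (v₀ v₁ v₂ b x' : ℝ), ChC c β Par p v₀ v₁ v₂ b x' →
      DifL p v₀ v₁ v₂ → tpW c p b ≤ Tf (bR p))
    (hcb : CBA π h Dk Kf Tf D5 ℓ)
    (hDh : ∀ p ∈ Par, Dh (cκ p) (cu p 2) (cu p 3) (cu p 4) (cx' p) (d * cκ p))
    (hcd : ∀ p ∈ Par, 4 * (c * cκ p) ≤ d * cκ p)
    {F : QK → ℝ} (hF : ∀ q ∈ DomHi (3 / 5) (7 / 8) c β Par DifL,
      F q ≤ 5 / 9 * (d * cκ (prX (bq q)))) {Lh : ℝ} (hLh : 0 ≤ Lh)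
    (hT : TFr (alX π h) (fun lam a qs => okCX (π lam.1) lam.2 a qs ∧ okD a) e0 c
      (DomHi (3 / 5) (7 / 8) c β Par DifL) Lh
      (hfG d (fun q => mV (vN q)) (fun q => mV (vR q)) F s0X) (GXq d)) :
    UB S8Xk Dq (GkG (alX π h) (fun lam a qs => okCX (π lam.1) lam.2 a qs ∧ okD a) e0 c)
      (DomHi (3 / 5) (7 / 8) c β Par DifL) ∅ (GXq d) := by
  refine gkG_of he0 (by linarith) hLh (uu := fun lam => lam.2 * lam.2) ?_ ?_ hT
    (rfr_X (k₁ := 7 / 8) hpu hP hNC R hPF hd hd8 he0 (by linarith) (by linarith)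
      (by linarith) hPar hDh (fun q hq => hq.1)
      (rlnF_X hpu hP hex hRh0 hRh he0 he0' hc0 hc1 hβ hPar hDN hDR hR5 hKN hKR hTN hTR hcb hDh hcd
        (fun q hq => hq) hF))
  · intro lam a qs hok
    exact mul_ne_zero hok.1.2.1.1 hok.1.2.1.1
  · intro lam a qs hok n hn
    exact CopU631.cop_xD hn

end Crest.Agent.R017.GkH521
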