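import Crest.Agent.R017.P1Ld_904

/-!
# Row 17, exceptional class (helper381): the class Gram sums of `et`, families `q ≤ 3/5 κ`

The real lines of the second moment (`TMn_968.gram_core`, form of `GHR_90.hb_core`):
`- p/3 - v/3 + 3 δ + qd + T - q/3 ≤ GL`, `GL := 2 (k + p + max 0 (5/4 N - k) + 3/4 D) - 2/3 (k - q) -
(q + p + (3/4 + 2 d) (um + x))`.
-/

set_option autoImplicit false
set_option linter.unusedVariables false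

noncomputable section

namespace Crest.Agent.R017.GkL381

open Crest.Agent.R017.RnP571 (Dh)

/-- the windows of a child, families `q ≤ 3/5 k` -/
structure CL (k y₃ y₄ u x D t q p um v : ℝ) : Prop where
  dh : Dh k y₃ y₄ u x D
  t0 : 0 ≤ t
  t1 : t ≤ k / 20000
  q0 : 0 ≤ q
  q1 : q ≤ 3 / 5 * k + t
  p0 : k / 2 - 2 * x - t ≤ p
  p1 : p ≤ y₃ + y₄ + u + x + t
  um0 : 0 ≤ um
  um1 : um ≤ u + t
  um2 : 3 * um ≤ p + t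
  v0 : 0 ≤ v
  v1 : v ≤ 2 * (y₃ + y₄ + u) - k + 11 / 5 * x + t
  v2 : v ≤ 3 / 4 * (y₃ + y₄ + u) + 11 / 5 * x + t

set_option maxHeartbeats 8000000 in
/-- the lists -/
lemma coreT {k y₃ y₄ u x D t q p um v δ b l n F Q T R : ℝ}
    (H : CL k y₃ y₄ u x D t q p um v)
    (e0 : 0 ≤ R) (e1 : 5 / 4 * (y₃ + y₄ + u) - k ≤ R)
    (δ0 : 0 ≤ δ) (δ1 : 2 * δ ≤ v + t) (b0 : 0 ≤ b) (l0 : 0 ≤ l)
    (hl : l ≤ v - 2 * δ + t) (hn : n ≤ p - δ - b + t)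
    (F1 : F ≤ 5 / 9 * D)
    (hQ : Q ≤ q ∨ Q ≤ v - 2 * δ ∨ Q ≤ 2 / 3 * (q + (v - 2 * δ)))
    (hT1 : T ≤ 2 * n ∨ T ≤ 4 / 3 * n + (k + b / 2 + (l + b)) / 3 ∨
      T ≤ 4 / 3 * n + (5 / 4 * (y₃ + y₄ + u) + b / 2 + (l + b)) / 3 ∨
      T ≤ 4 / 3 * n + (3 / 2 * (l + b) + (l + b)) / 3 ∨ T ≤ (l + b) + n)
    (hT2 : T ≤ (l + b) + n + (n / 3 + 2 / 3 * (x + t)) ∨ T ≤ 5 / 3 * n + (l + b) / 3) :
    - p / 3 - v / 3 + 3 * δ + Q + (T + F) - q / 3 ≤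
      2 * (k + p + R + 3 / 4 * D) - 2 / 3 * (k - q) - (q + p + 3 / 4 * (um + x) + 3 / 5 * D) +
        20 * t := by
  obtain ⟨⟨k0, u4, y43, u0, y3, N1, near, x0, adm, d0, d1⟩, t0, t1, q0, q1, p0, p1, um0, um1, um2,
    v0, v1, v2⟩ := H
  rcases adm with ⟨a0, rfl | a1⟩ | ⟨a1, a2, a3⟩ <;> rcases hQ with hQ | hQ | hQ <;>
  rcases hT1 with hT1 | hT1 | hT1 | hT1 | hT1 <;> rcases hT2 with hT2 | hT2 <;> linarith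

set_option maxHeartbeats 8000000 in
/-- the bias -/
lemma coreB {k y₃ y₄ u x D t q p um v δ b l s M Q R : ℝ}
    (H : CL k y₃ y₄ u x D t q p um v)
    (e0 : 0 ≤ R) (e1 : 5 / 4 * (y₃ + y₄ + u) - k ≤ R)
    (hs : (v + p - k) / 3 - t ≤ s)
    (δ0 : 0 ≤ δ) (δ1 : 2 * δ ≤ v + t) (b0 : 0 ≤ b) (l0 : 0 ≤ l)
    (hl : l ≤ v - 2 * δ + t) (M0 : 0 ≤ M) (M1 : s - (δ + b) ≤ M)
    (hQ : Q ≤ q ∨ Q ≤ v - 2 * δ ∨ Q ≤ 2 / 3 * (q + (v - 2 * δ))) :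
    - p / 3 - v / 3 + 3 * δ + Q + (5 / 3 * p + (2 / 3 * (l + b) - 5 / 3 * (δ + b) - M)) - q / 3 ≤
      2 * (k + p + R + 3 / 4 * D) - 2 / 3 * (k - q) - (q + p + 3 / 4 * (um + x) + 3 / 5 * D) +
        20 * t := by
  obtain ⟨⟨k0, u4, y43, u0, y3, N1, near, x0, adm, d0, d1⟩, t0, t1, q0, q1, p0, p1, um0, um1, um2,
    v0, v1, v2⟩ := H
  rcases adm with ⟨a0, rfl | a1⟩ | ⟨a1, a2, a3⟩ <;> rcases hQ with hQ | hQ | hQ <;> linarith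

end Crest.Agent.R017.GkL381
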