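import Crest.Agent.R017.ET4a_548
import Crest.Agent.R017.RnS_579

/-!
# Row 17, R8 (E3t) (helper290): `ET4a548.ET4aQ` at `K / μ³`, re-expressed at the main data `K`, `H`

* `GkQ` : any range `Q` of `f`;  `Gk` : all `f`
-/

set_option autoImplicit false
set_option linter.unusedVariables false

noncomputable section

open Finset
open scoped Classical ComplexConjugate ContDiff

namespace Crest.Agent.R017.GkN290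

open Crest.Agent.R012 Crest.Agent.R012.Eis Crest.Agent.R012.Div277
open Crest.Agent.R012.MC (Wgt)
open Crest.Agent.R012.LS2 (S mem_S bl)
open Crest.Agent.R012.Mob705 (pb mem_pb)
open Crest.Agent.R012.Weight600 (pw)
open Crest.Agent.R017.C70 (JC OKJ JW okJ_JW CbF)
open Crest.Agent.R017.CM106 (CS FS)
open Crest.Agent.R017.HB645 (hh)
open Crest.Agent.R017.E1551 (nmpos)
open Crest.Agent.R017.E3M829 (TC Tal Cut)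
open Crest.Agent.R017.E3F548
open Crest.Agent.R017.E3Z548
open Crest.Agent.R017.E3Kc548 Crest.Agent.R017.E3Ke548
open Crest.Agent.R017.Mode405 (Slp)
open Crest.Agent.R017.E2440 (TE StE StT)
open Crest.Agent.R017.PX764 (n6)
open Crest.Agent.R017.R3571 (RMm)
open Crest.Agent.R017.RnS579
open Crest.Agent.R017.E3Hf290 (RN2F)

/-- **`ET4a548.ET4aQ` at `K / μ³`, main data `K`, `H`** -/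
theorem GkQ {ρ : ℝ} (hρ : 0 < ρ) (hρ1 : ρ ≤ 1) {R0 : ℝ} (hR0 : 0 ≤ R0) (a A₁ : ℕ)
    (hA₁ : 1 < A₁) {ε : ℝ} (hε : 0 < ε) (hε1 : ε ≤ 1) :
    ∃ (A : ℕ) (c C : ℝ), 1 ≤ c ∧ 1 ≤ C ∧
    ∀ (Om : ℝ → ℂ) (Mb : ℝ), 0 ≤ Mb → ContDiff ℝ ∞ Om →
      (∀ n ≤ A + 2, ∀ x, ‖iteratedDeriv n Om x‖ ≤ Mb) →
    ∀ (τ : ℝ) (κ : ℂ), ‖κ‖ ≤ 1 → ∀ (Z : ℝ), 1 ≤ Z → ∀ (D Y₀ Y₁ : ℝ)
      (om : Eis × Eis → ℂ) (α : Eis → ℂ) (Q : Eis → Prop) (E0 R K μ X : ℝ) (m : Eis)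
      (KK : Finset Eis) (H : ℕ → Eis → Eis → ℝ) (W0 : ℕ → Eis → Eis → ℝ → ℝ),
      FS α → (∀ n, α n ≠ 0 → Squarefree n) →
      (∀ n, α n ≠ 0 → |Real.log (nm n) - Real.log X| ≤ R0) →
      IsPrim m → (nm m : ℝ) ≤ Z → 0 ≤ D → 0 ≤ Y₁ →
      (∀ x ∈ JW D Y₀ Y₁, om x = κ * (Om (Real.log (nm (x.2 * x.1 ^ 2))) * pw τ (nm x.2))) →
      (∀ i ∈ LI Y₀ Y₁, ∀ n : ℕ, 0 < n → hh (Real.log n - i) ≠ 0 → Om (Real.log n) ≠ 0 →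
        Y₀ < n ∧ (n : ℝ) ≤ Y₁) →
      0 < K → 0 < μ → K / μ ^ 3 ≤ Z →
      (∀ k ∈ KK, IsPrim k ∧ CbF k ∧ ρ * (K / μ ^ 3) ≤ nm k ∧ (nm k : ℝ) ≤ K / μ ^ 3) →
      0 ≤ R → R ≤ Z → 0 ≤ E0 → E0 ≤ Z → Y₁ ≤ Z →
      (∀ x ∈ JW D Y₀ Y₁, (nm x.1 : ℝ) ≤ Z) → (∀ x ∈ JW D Y₀ Y₁, (nm x.2 : ℝ) ≤ R) →
      0 < X → X ≤ Z ^ 5 → (∀ i d f, 0 < H i d f) → (∀ i ∈ LI Y₀ Y₁, c * Real.exp i ≤ Z ^ 5) →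
      (∀ i ∈ LI Y₀ Y₁, ∀ d ∈ S (Z ^ 5), ∀ f ∈ (S E0).filter Q,
        c * (H i d f * Real.exp i ^ 2) ≤ K * X) →
      (∀ i d f, Slp a (W0 i d f)) →
      (∀ i ∈ LI Y₀ Y₁, ∀ d ∈ (JW D Y₀ Y₁).image Prod.fst, ∀ f ∈ (S E0).filter Q, ∀ γ π,
        IsPrim γ → IsPrim π → (nm π : ℝ) ≤ c * Z ^ 300 → ∀ P : ℝ, 0 < P →
        (nm γ : ℝ) * n6 γ ^ 2 * ∑ r ∈ bl P, RMm A₁ (fun n => α (d * n)) f γ π r ≤ W0 i d f P) →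
      ∑ k ∈ KK, ‖StT E0 (JW D Y₀ Y₁) om (fun x e => if Q e then TE α x e else 0) (m ^ 3 * k)‖ ^ 2 ≤
      C * Z ^ ε * ((K / μ ^ 3) ^ (2 / 3 : ℝ) * ∑ f ∈ (S E0).filter Q,
        (((nm (EuclideanDomain.gcd f m) : ℝ) / nm f +
        (R / (K / μ ^ 3) ^ 2) ^ (1 / 6 : ℝ) * (nm f : ℝ) ^ (1 / 2 : ℝ) + R / (K / μ ^ 3)) *
          XE (JW D Y₀ Y₁) om (Tal α) f) +
      Mb ^ 2 * (1 + |τ|) ^ A * (μ⁻¹ * ∑ f ∈ (S E0).filter Q, ∑ i ∈ LI Y₀ Y₁,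
        ∑ d ∈ (JW D Y₀ Y₁).image Prod.fst,
        (nm f : ℝ)⁻¹ * LVn (fun d _ n => α (d * n)) {d} {f} c (Z ^ 5) K (H i d f) (Real.exp i)
          (Real.exp i) μ 1 1 (RN2F c K (Real.exp i) X (H i) (W0 i) d f))) := by
  obtain ⟨A, c, C, hc, hC, h⟩ := ET4a548.ET4aQ hρ hρ1 hR0 a A₁ hA₁ hε hε1
  refine ⟨A, c, C, hc, hC, ?_⟩
  intro Om Mb hMb hOm hOb τ κ hκ Z hZ D Y₀ Y₁ om α Q E0 R K μ X m KK H W0 hα hsq hwin hm hmZ hD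
    hY hom hwn hK hμ0 hKZ hKK hR0' hRZ hE0 hE0Z hYZ hJ1 hJ2 hX hXZ hH hcV hKX hS hRH
  have hμ3 : 0 < μ ^ 3 := by positivity
  have hK' : 0 < K / μ ^ 3 := by positivity
  have k := h Om Mb hMb hOm hOb τ κ hκ Z hZ D Y₀ Y₁ om α Q E0 R (K / μ ^ 3) X m KK
    (fun i d f => H i d f / μ ^ 3) W0 hα hsq hwin hm hmZ hD hY hom hwn hK' hKZ hKK hR0' hRZ hE0
    hE0Z hYZ hJ1 hJ2 hX hXZ (fun i d f => div_pos (hH i d f) hμ3) hcV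
    (fun i hi d hd f hf => KX_div hμ0 (hKX i hi d hd f hf)) hS hRH
  refine k.trans (le_of_eq ?_)
  congr 2
  congr 1
  rw [mul_sum]
  refine sum_congr rfl fun f _ => ?_
  rw [mul_sum]
  refine sum_congr rfl fun i _ => ?_
  rw [mul_sum]
  refine sum_congr rfl fun d _ => ?_
  have he3 := Real.exp_pos (i : ℝ)
  rw [RN2F_div hμ0, LVn_div hK (hH i d f) he3 he3 hμ0, mul_one]
  ring

/-- **all `f`** -/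
theorem Gk {ρ : ℝ} (hρ : 0 < ρ) (hρ1 : ρ ≤ 1) {R0 : ℝ} (hR0 : 0 ≤ R0) (a A₁ : ℕ)
    (hA₁ : 1 < A₁) {ε : ℝ} (hε : 0 < ε) (hε1 : ε ≤ 1) :
    ∃ (A : ℕ) (c C : ℝ), 1 ≤ c ∧ 1 ≤ C ∧
    ∀ (Om : ℝ → ℂ) (Mb : ℝ), 0 ≤ Mb → ContDiff ℝ ∞ Om →
      (∀ n ≤ A + 2, ∀ x, ‖iteratedDeriv n Om x‖ ≤ Mb) →
    ∀ (τ : ℝ) (κ : ℂ), ‖κ‖ ≤ 1 → ∀ (Z : ℝ), 1 ≤ Z → ∀ (D Y₀ Y₁ : ℝ)
      (om : Eis × Eis → ℂ) (α : Eis → ℂ) (E0 R K μ X : ℝ) (m : Eis)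
      (KK : Finset Eis) (H : ℕ → Eis → Eis → ℝ) (W0 : ℕ → Eis → Eis → ℝ → ℝ),
      FS α → (∀ n, α n ≠ 0 → Squarefree n) →
      (∀ n, α n ≠ 0 → |Real.log (nm n) - Real.log X| ≤ R0) →
      IsPrim m → (nm m : ℝ) ≤ Z → 0 ≤ D → 0 ≤ Y₁ →
      (∀ x ∈ JW D Y₀ Y₁, om x = κ * (Om (Real.log (nm (x.2 * x.1 ^ 2))) * pw τ (nm x.2))) →
      (∀ i ∈ LI Y₀ Y₁, ∀ n : ℕ, 0 < n → hh (Real.log n - i) ≠ 0 → Om (Real.log n) ≠ 0 →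
        Y₀ < n ∧ (n : ℝ) ≤ Y₁) →
      0 < K → 0 < μ → K / μ ^ 3 ≤ Z →
      (∀ k ∈ KK, IsPrim k ∧ CbF k ∧ ρ * (K / μ ^ 3) ≤ nm k ∧ (nm k : ℝ) ≤ K / μ ^ 3) →
      0 ≤ R → R ≤ Z → 0 ≤ E0 → E0 ≤ Z → Y₁ ≤ Z →
      (∀ x ∈ JW D Y₀ Y₁, (nm x.1 : ℝ) ≤ Z) → (∀ x ∈ JW D Y₀ Y₁, (nm x.2 : ℝ) ≤ R) →
      0 < X → X ≤ Z ^ 5 → (∀ i d f, 0 < H i d f) → (∀ i ∈ LI Y₀ Y₁, c * Real.exp i ≤ Z ^ 5) →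
      (∀ i ∈ LI Y₀ Y₁, ∀ d ∈ S (Z ^ 5), ∀ f ∈ S E0,
        c * (H i d f * Real.exp i ^ 2) ≤ K * X) →
      (∀ i d f, Slp a (W0 i d f)) →
      (∀ i ∈ LI Y₀ Y₁, ∀ d ∈ (JW D Y₀ Y₁).image Prod.fst, ∀ f ∈ S E0, ∀ γ π,
        IsPrim γ → IsPrim π → (nm π : ℝ) ≤ c * Z ^ 300 → ∀ P : ℝ, 0 < P →
        (nm γ : ℝ) * n6 γ ^ 2 * ∑ r ∈ bl P, RMm A₁ (fun n => α (d * n)) f γ π r ≤ W0 i d f P) →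
      ∑ k ∈ KK, ‖StE E0 (JW D Y₀ Y₁) om α (m ^ 3 * k)‖ ^ 2 ≤
      C * Z ^ ε * ((K / μ ^ 3) ^ (2 / 3 : ℝ) * ∑ f ∈ S E0,
        (((nm (EuclideanDomain.gcd f m) : ℝ) / nm f +
        (R / (K / μ ^ 3) ^ 2) ^ (1 / 6 : ℝ) * (nm f : ℝ) ^ (1 / 2 : ℝ) + R / (K / μ ^ 3)) *
          XE (JW D Y₀ Y₁) om (Tal α) f) +
      Mb ^ 2 * (1 + |τ|) ^ A * (μ⁻¹ * ∑ f ∈ S E0, ∑ i ∈ LI Y₀ Y₁,
        ∑ d ∈ (JW D Y₀ Y₁).image Prod.fst,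
        (nm f : ℝ)⁻¹ * LVn (fun d _ n => α (d * n)) {d} {f} c (Z ^ 5) K (H i d f) (Real.exp i)
          (Real.exp i) μ 1 1 (RN2F c K (Real.exp i) X (H i) (W0 i) d f))) := by
  obtain ⟨A, c, C, hc, hC, h⟩ := GkQ hρ hρ1 hR0 a A₁ hA₁ hε hε1
  refine ⟨A, c, C, hc, hC, ?_⟩
  intro Om Mb hMb hOm hOb τ κ hκ Z hZ D Y₀ Y₁ om α E0 R K μ X m KK H W0 hα hsq hwin hm hmZ hD
    hY hom hwn hK hμ0 hKZ hKK hR0' hRZ hE0 hE0Z hYZ hJ1 hJ2 hX hXZ hH hcV hKX hS hRH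
  have k := h Om Mb hMb hOm hOb τ κ hκ Z hZ D Y₀ Y₁ om α (fun _ => True) E0 R K μ X m KK H W0
    hα hsq hwin hm hmZ hD hY hom hwn hK hμ0 hKZ hKK hR0' hRZ hE0 hE0Z hYZ hJ1 hJ2 hX hXZ hH hcV
    (fun i hi d hd f hf => hKX i hi d hd f (by rwa [ET4a548.filt_true] at hf)) hS
    (fun i hi d hd f hf => hRH i hi d hd f (by rwa [ET4a548.filt_true] at hf))
  simp only [ET4a548.filt_true, if_true] at k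
  exact k

end Crest.Agent.R017.GkN290
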