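import Crest.Agent.R017.P1M7_904

/-!
# Row 17, R8: the class-form Gram sum of class E, real lines at helper71's room (helper904)

Families `q ∈ [3/5, 7/8] k`. `GX` = room with the character side
`max (RSm .. uN) (RS0 .. uR)` (natural list, replaced list), `hB` = exponent of `H` of the bias
number, `ℓ` = what the lumps of the child lost, `s₀` = shortest of the four lengths.
`hX = max (hL .. (GX - F)) hB`.
* `thX_le` : `2 hX + 3 v ≤ 2 q`, `hX ≤ 0`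
* `c0_X`, `c1_X` : `T ≤ max (tL ..) (l + n)` at the room `GX - F`
* `c0_B`, `c1_B` : `T ≤ 5/3 (p - δ - b) + 2/3 (v' + b) - max 0 (s₀ - δ - b)` at the room `GX`
-/

set_option autoImplicit false
set_option linter.unusedVariables false

noncomputable section

namespace Crest.Agent.R017.P1L7904

open Crest.Agent.R017.RnP571 (Dh)
open Crest.Agent.R017.P1L904 (RS0 RS1 RSm RSm_le0 RSm_le1 hL hL_le hL_ge tL tL_cases lw0 lw1 tG_le)

/-- the exponent of `H` of the bias number -/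
def hB (q v p δ s₀ G : ℝ) : ℝ := 2 * q + v + 4 * p - 3 * δ - 3 * max 0 (s₀ - δ) - 3 * G

/-- the room -/
def GX (N k q p uN uR x D : ℝ) : ℝ :=
  2 * (k + p + max 0 (5 / 4 * N - k) - (k - q) / 3) + 3 / 5 * D -
    max (RSm k q p uN x) (RS0 q p uR x)

/-- the exponent of `H` -/
def hX (N k q v p δ x D uN uR s₀ F : ℝ) : ℝ :=
  max (hL q v p δ x (max k (5 / 4 * N)) (GX N k q p uN uR x D - F))
    (hB q v p δ s₀ (GX N k q p uN uR x D))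

/-- the child -/
structure Ch (k y₃ y₄ u x D t q p uN uR v ℓ s₀ : ℝ) : Prop where
  t0 : 0 ≤ t
  t1 : t ≤ k / 20000
  q0 : 3 / 5 * k - t ≤ q
  q1 : q ≤ 7 / 8 * k + t
  p0 : k / 2 - 2 * x - t ≤ p
  p1 : p ≤ y₃ + y₄ + u - ℓ + x + t
  p1' : p ≤ y₃ + y₄ + u + x + t
  p2 : p ≤ y₃ + y₄ + uN + x + t
  um0 : 0 ≤ uN
  um1 : uN ≤ u + t
  um2 : 3 * uN ≤ p + t
  r1 : uR ≤ u + t
  r2 : 3 * uR ≤ p + t
  r3 : uR ≤ 153 / 800 * k + t
  v1 : v ≤ 2 * (y₃ + y₄ + u) - k + 11 / 5 * x + t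
  v2 : v ≤ 3 / 4 * (y₃ + y₄ + u) + 11 / 5 * x + t
  vy : ∃ y, 0 ≤ y ∧ y ≤ x ∧ p ≤ y₃ + y₄ + u - ℓ + x - y + t ∧
    v ≤ 2 * (y₃ + y₄ + u) - k + 11 / 5 * x + D / 2 - 2 * (ℓ - y) + t ∧
    v ≤ 3 / 4 * (y₃ + y₄ + u) + 11 / 5 * x + D / 2 - 2 * (ℓ - y) + t
  l0 : 0 ≤ ℓ + t
  s0 : 17 / 100 * k - ℓ - t ≤ s₀

/-- the six lines of `RS1` -/
def R1d (R k q p um x : ℝ) : Prop := R ≤ q + p ∨ R ≤ p + (2 * q + k) / 3 ∨
  R ≤ p + (2 * q + (p + um)) / 3 ∨ R ≤ p + (q + 2 * p + k / 3) / 3 ∨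
  R ≤ p + (q + 2 * p + (p + um) / 3) / 3 ∨ R ≤ p + (q + 3 * p - 5 / 12 * (p + um - x)) / 3

/-- the three lines of `RS0` -/
def R0d (R q p um x : ℝ) : Prop := R ≤ q + p ∨ R ≤ 2 / 3 * q + 4 / 3 * p + um / 2 ∨
  R ≤ 2 / 3 * q + 4 / 3 * p + 4 / 15 * (um + x)

lemma RX_cases (k q p uN uR x : ℝ) :
    (R1d (max (RSm k q p uN x) (RS0 q p uR x)) k q p uN x ∧
      R0d (max (RSm k q p uN x) (RS0 q p uR x)) q p uN x) ∨
    R0d (max (RSm k q p uN x) (RS0 q p uR x)) q p uR x := by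
  rcases max_choice (RSm k q p uN x) (RS0 q p uR x) with h | h <;> rw [h]
  · exact Or.inl ⟨RSm_le1 _ _ _ _ _, RSm_le0 _ _ _ _ _⟩
  · refine Or.inr ?_
    unfold R0d RS0
    rcases max_choice (q + p) (2 / 3 * q + 4 / 3 * p + max (uR / 2) (4 / 15 * (uR + x))) with h | h
    · left; rw [h]
    · right; rw [h]
      rcases max_choice (uR / 2) (4 / 15 * (uR + x)) with h | h
      · left; rw [h]
      · right; rw [h]

lemma GX_eq (N k q p uN uR x D : ℝ) : 2 * (k + p + (max k (5 / 4 * N) - k) - (k - q) / 3) +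
    3 / 5 * D - max (RSm k q p uN x) (RS0 q p uR x) = GX N k q p uN uR x D := by
  unfold GX
  generalize max (RSm k q p uN x) (RS0 q p uR x) = R
  rcases le_total k (5 / 4 * N) with h | h
  · rw [max_eq_right h, max_eq_right (by linarith)]
  · rw [max_eq_left h, max_eq_left (by linarith)]; ring

/-- closes against the target -/
theorem kEX (N k q p uN uR x D : ℝ) :
    (k - q) / 3 + (GX N k q p uN uR x D +
      (max (RSm k q p uN x) (RS0 q p uR x) + 9 / 10 * D)) / 2 ≤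
    k + p + max 0 (5 / 4 * N - k) + 3 / 4 * D := by
  unfold GX; linarith

set_option maxHeartbeats 8000000 in
lemma coreThA {k y₃ y₄ u x D t q p uN uR v ℓ s₀ δ h G R K5 : ℝ} (hD : Dh k y₃ y₄ u x D)
    (hC : Ch k y₃ y₄ u x D t q p uN uR v ℓ s₀) (δ0 : 0 ≤ δ)
    (hK : K5 = k ∨ K5 = 5 / 4 * (y₃ + y₄ + u)) (hK' : k ≤ K5) (hK'' : 5 / 4 * (y₃ + y₄ + u) ≤ K5)
    (hG : 2 * (k + p + (K5 - k) - (k - q) / 3) + 2 / 45 * D - R ≤ G)
    (hh : h = 2 * q + 4 * p - δ - 3 * G ∨ h ≤ 2 * q + 3 * p + K5 - 3 * G ∨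
        h ≤ 2 * q + 3 * p + (4 / 3 * p + 2 / 3 * x - 4 / 3 * δ) - 3 * G)
    (hR : R1d R k q p uN x) :
    2 * h + 3 * v ≤ 2 * q ∧ h ≤ 0 := by
  obtain ⟨t0, t1, q0, q1, p0, p1, p1', p2, um0, um1, um2, r1, r2, r3, v1, v2, ⟨y, yy0, yx, py, v3, v4⟩, l0, s0⟩ := hC
  obtain ⟨k0, u4, y43, u0, y3, N1, near, x0, adm, d0, d1⟩ := hD
  rcases hR with hR | hR | hR | hR | hR | hR <;> rcases hK with rfl | rfl <;>
  rcases hh with hh | hh | hh <;>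
  rcases adm with ⟨a0, rfl | a1⟩ | ⟨a1, a2, a3⟩ <;> constructor <;> linarith

set_option maxHeartbeats 8000000 in
lemma coreHbA {k y₃ y₄ u x D t q p uN uR v ℓ s₀ δ h G R K5 : ℝ} (hD : Dh k y₃ y₄ u x D)
    (hC : Ch k y₃ y₄ u x D t q p uN uR v ℓ s₀) (δ0 : 0 ≤ δ)
    (hK : K5 = k ∨ K5 = 5 / 4 * (y₃ + y₄ + u)) (hK' : k ≤ K5) (hK'' : 5 / 4 * (y₃ + y₄ + u) ≤ K5)
    (hG : 2 * (k + p + (K5 - k) - (k - q) / 3) + 3 / 5 * D - R ≤ G)
    (h1 : h ≤ 2 * q + v + 4 * p - 3 * δ - 3 * G) (h2 : h ≤ 2 * q + v + 4 * p - 3 * s₀ - 3 * G)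
    (hR : R1d R k q p uN x) :
    2 * h + 3 * v ≤ 2 * q ∧ h ≤ 0 := by
  obtain ⟨t0, t1, q0, q1, p0, p1, p1', p2, um0, um1, um2, r1, r2, r3, v1, v2, ⟨y, yy0, yx, py, v3, v4⟩, l0, s0⟩ := hC
  obtain ⟨k0, u4, y43, u0, y3, N1, near, x0, adm, d0, d1⟩ := hD
  rcases hR with hR | hR | hR | hR | hR | hR <;> rcases hK with rfl | rfl <;>
  rcases adm with ⟨a0, rfl | a1⟩ | ⟨a1, a2, a3⟩ <;> constructor <;> linarith

set_option maxHeartbeats 8000000 in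
lemma coreThB {k y₃ y₄ u x D t q p uN uR v ℓ s₀ δ h G R K5 : ℝ} (hD : Dh k y₃ y₄ u x D)
    (hC : Ch k y₃ y₄ u x D t q p uN uR v ℓ s₀) (δ0 : 0 ≤ δ)
    (hK : K5 = k ∨ K5 = 5 / 4 * (y₃ + y₄ + u)) (hK' : k ≤ K5) (hK'' : 5 / 4 * (y₃ + y₄ + u) ≤ K5)
    (hG : 2 * (k + p + (K5 - k) - (k - q) / 3) + 2 / 45 * D - R ≤ G)
    (hh : h = 2 * q + 4 * p - δ - 3 * G ∨ h ≤ 2 * q + 3 * p + K5 - 3 * G ∨
        h ≤ 2 * q + 3 * p + (4 / 3 * p + 2 / 3 * x - 4 / 3 * δ) - 3 * G)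
    (hR : R0d R q p uR x) :
    2 * h + 3 * v ≤ 2 * q ∧ h ≤ 0 := by
  obtain ⟨t0, t1, q0, q1, p0, p1, p1', p2, um0, um1, um2, r1, r2, r3, v1, v2, ⟨y, yy0, yx, py, v3, v4⟩, l0, s0⟩ := hC
  obtain ⟨k0, u4, y43, u0, y3, N1, near, x0, adm, d0, d1⟩ := hD
  rcases hR with hR | hR | hR <;> rcases hK with rfl | rfl <;>
  rcases hh with hh | hh | hh <;>
  rcases adm with ⟨a0, rfl | a1⟩ | ⟨a1, a2, a3⟩ <;> constructor <;> linarith

set_option maxHeartbeats 8000000 in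
lemma coreHbB {k y₃ y₄ u x D t q p uN uR v ℓ s₀ δ h G R K5 : ℝ} (hD : Dh k y₃ y₄ u x D)
    (hC : Ch k y₃ y₄ u x D t q p uN uR v ℓ s₀) (δ0 : 0 ≤ δ)
    (hK : K5 = k ∨ K5 = 5 / 4 * (y₃ + y₄ + u)) (hK' : k ≤ K5) (hK'' : 5 / 4 * (y₃ + y₄ + u) ≤ K5)
    (hG : 2 * (k + p + (K5 - k) - (k - q) / 3) + 3 / 5 * D - R ≤ G)
    (h1 : h ≤ 2 * q + v + 4 * p - 3 * δ - 3 * G) (h2 : h ≤ 2 * q + v + 4 * p - 3 * s₀ - 3 * G)
    (hR : R0d R q p uR x) :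
    2 * h + 3 * v ≤ 2 * q ∧ h ≤ 0 := by
  obtain ⟨t0, t1, q0, q1, p0, p1, p1', p2, um0, um1, um2, r1, r2, r3, v1, v2, ⟨y, yy0, yx, py, v3, v4⟩, l0, s0⟩ := hC
  obtain ⟨k0, u4, y43, u0, y3, N1, near, x0, adm, d0, d1⟩ := hD
  rcases hR with hR | hR | hR <;> rcases hK with rfl | rfl <;>
  rcases adm with ⟨a0, rfl | a1⟩ | ⟨a1, a2, a3⟩ <;> constructor <;> linarith

set_option maxHeartbeats 4000000 in
lemma coreSb {k y₃ y₄ u x D t q p uN uR v ℓ s₀ um G R K5 : ℝ} (hD : Dh k y₃ y₄ u x D)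
    (hC : Ch k y₃ y₄ u x D t q p uN uR v ℓ s₀) (m1 : um ≤ u + t) (m2 : 3 * um ≤ p + t)
    (hK : K5 = k ∨ K5 = 5 / 4 * (y₃ + y₄ + u)) (hK' : k ≤ K5) (hK'' : 5 / 4 * (y₃ + y₄ + u) ≤ K5)
    (hG : 2 * (k + p + (K5 - k) - (k - q) / 3) + 3 / 5 * D - R ≤ G)
    (hR : R0d R q p um x) :
    4 / 3 * v + 4 / 3 * p - s₀ ≤ G := by
  obtain ⟨t0, t1, q0, q1, p0, p1, p1', p2, um0, um1, um2, r1, r2, r3, v1, v2, ⟨y, yy0, yx, py, v3, v4⟩, l0, s0⟩ := hC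
  obtain ⟨k0, u4, y43, u0, y3, N1, near, x0, adm, d0, d1⟩ := hD
  rcases hR with hR | hR | hR <;> rcases hK with rfl | rfl <;>
  rcases adm with ⟨a0, rfl | a1⟩ | ⟨a1, a2, a3⟩ <;> linarith


lemma max_sd (s δ : ℝ) : s ≤ δ + max 0 (s - δ) := by
  have := le_max_right 0 (s - δ)
  linarith

/-- **`2 h + 3 v ≤ 2 q`, `h ≤ 0`** -/
theorem thX_le {k y₃ y₄ u x D t q p uN uR v ℓ s₀ δ F : ℝ} (hD : Dh k y₃ y₄ u x D)
    (hC : Ch k y₃ y₄ u x D t q p uN uR v ℓ s₀) (δ0 : 0 ≤ δ) (F1 : F ≤ 5 / 9 * D) :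
    2 * hX (y₃ + y₄ + u) k q v p δ x D uN uR s₀ F + 3 * v ≤ 2 * q ∧
      hX (y₃ + y₄ + u) k q v p δ x D uN uR s₀ F ≤ 0 := by
  have hG := GX_eq (y₃ + y₄ + u) k q p uN uR x D
  have hR := RX_cases k q p uN uR x
  have d0 := hD.d0
  unfold hX
  generalize max (RSm k q p uN x) (RS0 q p uR x) = R at *
  generalize GX (y₃ + y₄ + u) k q p uN uR x D = G at *
  rcases max_choice (hL q v p δ x (max k (5 / 4 * (y₃ + y₄ + u))) (G - F)) (hB q v p δ s₀ G)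
    with h | h <;> rw [h]
  · have hh : hL q v p δ x (max k (5 / 4 * (y₃ + y₄ + u))) (G - F) = 2 * q + 4 * p - δ - 3 * (G - F) ∨
        hL q v p δ x (max k (5 / 4 * (y₃ + y₄ + u))) (G - F) ≤
          2 * q + 3 * p + max k (5 / 4 * (y₃ + y₄ + u)) - 3 * (G - F) ∨
        hL q v p δ x (max k (5 / 4 * (y₃ + y₄ + u))) (G - F) ≤
          2 * q + 3 * p + (4 / 3 * p + 2 / 3 * x - 4 / 3 * δ) - 3 * (G - F) := by
      rcases hL_le q v p δ x (max k (5 / 4 * (y₃ + y₄ + u))) (G - F) with ⟨h, -⟩ | ⟨-, h | h⟩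
      · exact Or.inl h
      · exact Or.inr (Or.inl h)
      · exact Or.inr (Or.inr h)
    rcases hR with ⟨hR, -⟩ | hR
    · exact coreThA hD hC δ0 (max_choice _ _) (le_max_left _ _) (le_max_right _ _)
        (by linarith) hh hR
    · exact coreThB hD hC δ0 (max_choice _ _) (le_max_left _ _) (le_max_right _ _)
        (by linarith) hh hR
  · have m1 := le_max_left 0 (s₀ - δ)
    have m2 := le_max_right 0 (s₀ - δ)
    have b1 : hB q v p δ s₀ G ≤ 2 * q + v + 4 * p - 3 * δ - 3 * G := by unfold hB; linarith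
    have b2 : hB q v p δ s₀ G ≤ 2 * q + v + 4 * p - 3 * s₀ - 3 * G := by unfold hB; linarith
    rcases hR with ⟨hR, -⟩ | hR
    · exact coreHbA hD hC δ0 (max_choice _ _) (le_max_left _ _) (le_max_right _ _) hG.le b1 b2 hR
    · exact coreHbB hD hC δ0 (max_choice _ _) (le_max_left _ _) (le_max_right _ _) hG.le b1 b2 hR

/-- **`c0` of `LnT`**, room `GX - F` -/
theorem c0_X {k y₃ y₄ u x D t q p uN uR v ℓ s₀ δ b v' n m x' T h F : ℝ} (hD : Dh k y₃ y₄ u x D)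
    (hC : Ch k y₃ y₄ u x D t q p uN uR v ℓ s₀) (δ0 : 0 ≤ δ) (b0 : 0 ≤ b)
    (hl : v' ≤ v - 2 * δ + t) (x0' : 0 ≤ x') (x1' : x' ≤ x + t)
    (hn : n ≤ p - δ - b + t) (hm : 3 * (m - x') ≤ n - x') (F1 : F ≤ 5 / 9 * D)
    (hT : T ≤ max (tL (max k (5 / 4 * (y₃ + y₄ + u))) b (v' + b) n m) (v' + b + n))
    (h1 : hX (y₃ + y₄ + u) k q v p δ x D uN uR s₀ F - t ≤ h)
    (h2 : h ≤ hX (y₃ + y₄ + u) k q v p δ x D uN uR s₀ F + t) :
    lw0 q v h + T + 2 * δ - p / 3 ≤ GX (y₃ + y₄ + u) k q p uN uR x D - F + 12 * t := by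
  have k0 := hD.k0
  have x0 : 0 ≤ x := hD.x0
  obtain ⟨-, hN⟩ := thX_le hD hC δ0 F1
  have hG := GX_eq (y₃ + y₄ + u) k q p uN uR x D
  have hR := RX_cases k q p uN uR x
  have hx : hL q v p δ x (max k (5 / 4 * (y₃ + y₄ + u))) (GX (y₃ + y₄ + u) k q p uN uR x D - F) ≤
      hX (y₃ + y₄ + u) k q v p δ x D uN uR s₀ F := le_max_left _ _
  generalize hX (y₃ + y₄ + u) k q v p δ x D uN uR s₀ F = H at *
  generalize max (RSm k q p uN x) (RS0 q p uR x) = R at *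
  generalize GX (y₃ + y₄ + u) k q p uN uR x D = G at *
  obtain ⟨t0, t1, q0, q1, p0, p1, p1', p2, um0, um1, um2, r1, r2, r3, v1, v2, ⟨y, yy0, yx, py, v3, v4⟩, l0, s0⟩ := hC
  have hA := tG_le (q := q) (G := G - F) hD t0 t1 p0
    (by linarith) (by linarith) δ0 b0
    (by linarith : v' + b ≤ v - 2 * δ + b + t) x0' x1' hn hm hT
  have hB' : 2 / 3 * v + 2 * δ + T - p / 3 ≤ G - F + 10 * t := by
    have key : ∀ um, um ≤ u + t → 3 * um ≤ p + t → R0d R q p um x →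
        2 / 3 * v + 2 * δ + T - p / 3 ≤ G - F + 10 * t := by
      intro um m1 m2 hR
      rcases le_max_iff.1 hT with hT | hT
      · obtain ⟨hT1, hT2⟩ := tL_cases (max k (5 / 4 * (y₃ + y₄ + u))) b (v' + b) n m
        refine coreSF hD t0 t1 q0 q1 p1' m1 m2 v1 v2 δ0 b0 (by linarith : v' + b ≤ v - 2 * δ + b + t) x0' x1' hn
          hm (max_choice _ _) (le_max_left _ _) (le_max_right _ _) hG.le hR F1 ?_ ?_
        · exact hT1.imp hT.trans hT.trans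
        · exact hT2.imp hT.trans fun h => h.imp hT.trans hT.trans
      · exact coreSF' hD t0 t1 q0 q1 p0 p1' m1 m2 v1 v2 δ0 b0 (by linarith : v' + b ≤ v - 2 * δ + b + t) hn
          (le_max_left _ _) hG.le hR F1 hT
    rcases hR with ⟨-, hR⟩ | hR
    · exact key uN um1 um2 hR
    · exact key uR r1 r2 hR
  have hw : lw0 q v h ≤ G - F + 12 * t - (T + 2 * δ - p / 3) :=
    max_le (by linarith) (max_le (by linarith) (by linarith))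
  linarith

/-- **`c1` of `LnT`**, room `GX - F` -/
theorem c1_X {k y₃ y₄ u x D t q p uN uR v ℓ s₀ δ b v' n m x' T h F : ℝ} (hD : Dh k y₃ y₄ u x D)
    (hC : Ch k y₃ y₄ u x D t q p uN uR v ℓ s₀) (δ0 : 0 ≤ δ) (b0 : 0 ≤ b)
    (hl : v' ≤ v - 2 * δ + t) (x0' : 0 ≤ x') (x1' : x' ≤ x + t)
    (hn : n ≤ p - δ - b + t) (hm : 3 * (m - x') ≤ n - x') (F1 : F ≤ 5 / 9 * D)
    (hT : T ≤ max (tL (max k (5 / 4 * (y₃ + y₄ + u))) b (v' + b) n m) (v' + b + n))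
    (h1 : hX (y₃ + y₄ + u) k q v p δ x D uN uR s₀ F - t ≤ h)
    (h2 : h ≤ hX (y₃ + y₄ + u) k q v p δ x D uN uR s₀ F + t) :
    lw1 q v h + T + 2 * δ + (v - 2 * δ - v') / 3 - p / 3 ≤
      GX (y₃ + y₄ + u) k q p uN uR x D - F + 12 * t := by
  have k0 := hD.k0
  have x0 : 0 ≤ x := hD.x0
  obtain ⟨hth, hN⟩ := thX_le hD hC δ0 F1
  have hx : hL q v p δ x (max k (5 / 4 * (y₃ + y₄ + u))) (GX (y₃ + y₄ + u) k q p uN uR x D - F) ≤
      hX (y₃ + y₄ + u) k q v p δ x D uN uR s₀ F := le_max_left _ _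
  generalize hX (y₃ + y₄ + u) k q v p δ x D uN uR s₀ F = H at *
  generalize GX (y₃ + y₄ + u) k q p uN uR x D = G at *
  obtain ⟨t0, t1, q0, q1, p0, p1, p1', p2, um0, um1, um2, r1, r2, r3, v1, v2, ⟨y, yy0, yx, py, v3, v4⟩, l0, s0⟩ := hC
  have hA := tG_le (q := q) (G := G - F) hD t0 t1 p0
    (by linarith) (by linarith) δ0 b0
    (by linarith : v' + b ≤ v - 2 * δ + b + t) x0' x1' hn hm hT
  have hw : lw1 q v h ≤ G - F + 12 * t - (T + 2 * δ + (v - 2 * δ - v') / 3 - p / 3) :=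
    max_le (by linarith) (max_le (by linarith) (by linarith))
  linarith

lemma bias_b {s₀ δ b p v' T t : ℝ} (b0 : 0 ≤ b)
    (hT : T ≤ 5 / 3 * (p - δ - b) + 2 / 3 * (v' + b) - max 0 (s₀ - δ - b)) :
    T ≤ 5 / 3 * (p - δ) + 2 / 3 * v' - max 0 (s₀ - δ) := by
  have h : max 0 (s₀ - δ) ≤ max 0 (s₀ - δ - b) + b :=
    max_le (by have := le_max_left 0 (s₀ - δ - b); linarith)
      (by have := le_max_right 0 (s₀ - δ - b); linarith)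
  linarith

/-- **`c0` of `LnT`** for the bias number, room `GX` -/
theorem c0_B {k y₃ y₄ u x D t q p uN uR v ℓ s₀ δ b v' T h F : ℝ} (hD : Dh k y₃ y₄ u x D)
    (hC : Ch k y₃ y₄ u x D t q p uN uR v ℓ s₀) (δ0 : 0 ≤ δ) (b0 : 0 ≤ b)
    (hl : v' ≤ v - 2 * δ + t) (F1 : F ≤ 5 / 9 * D)
    (hT : T ≤ 5 / 3 * (p - δ - b) + 2 / 3 * (v' + b) - max 0 (s₀ - δ - b))
    (h1 : hX (y₃ + y₄ + u) k q v p δ x D uN uR s₀ F - t ≤ h)
    (h2 : h ≤ hX (y₃ + y₄ + u) k q v p δ x D uN uR s₀ F + t) :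
    lw0 q v h + T + 2 * δ - p / 3 ≤ GX (y₃ + y₄ + u) k q p uN uR x D + 12 * t := by
  have k0 := hD.k0
  have x0 : 0 ≤ x := hD.x0
  obtain ⟨-, hN⟩ := thX_le hD hC δ0 F1
  have hG := GX_eq (y₃ + y₄ + u) k q p uN uR x D
  have hR := RX_cases k q p uN uR x
  have hx : hB q v p δ s₀ (GX (y₃ + y₄ + u) k q p uN uR x D) ≤
      hX (y₃ + y₄ + u) k q v p δ x D uN uR s₀ F := le_max_right _ _
  generalize hX (y₃ + y₄ + u) k q v p δ x D uN uR s₀ F = H at *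
  generalize max (RSm k q p uN x) (RS0 q p uR x) = R at *
  generalize GX (y₃ + y₄ + u) k q p uN uR x D = G at *
  have hT' := bias_b (t := t) b0 hT
  have hsd := max_sd s₀ δ
  have t0 := hC.t0
  have hS : 4 / 3 * v + 4 / 3 * p - s₀ ≤ G := by
    rcases hR with ⟨-, hR⟩ | hR
    · exact coreSb hD hC hC.um1 hC.um2 (max_choice _ _) (le_max_left _ _) (le_max_right _ _) hG.le hR
    · exact coreSb hD hC hC.r1 hC.r2 (max_choice _ _) (le_max_left _ _) (le_max_right _ _) hG.le hR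
  unfold hB at hx
  have hw : lw0 q v h ≤ G + 12 * t - (T + 2 * δ - p / 3) :=
    max_le (by linarith) (max_le (by linarith) (by linarith))
  linarith

/-- **`c1` of `LnT`** for the bias number, room `GX` -/
theorem c1_B {k y₃ y₄ u x D t q p uN uR v ℓ s₀ δ b v' T h F : ℝ} (hD : Dh k y₃ y₄ u x D)
    (hC : Ch k y₃ y₄ u x D t q p uN uR v ℓ s₀) (δ0 : 0 ≤ δ) (b0 : 0 ≤ b)
    (hl : v' ≤ v - 2 * δ + t) (F1 : F ≤ 5 / 9 * D)
    (hT : T ≤ 5 / 3 * (p - δ - b) + 2 / 3 * (v' + b) - max 0 (s₀ - δ - b))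
    (h1 : hX (y₃ + y₄ + u) k q v p δ x D uN uR s₀ F - t ≤ h)
    (h2 : h ≤ hX (y₃ + y₄ + u) k q v p δ x D uN uR s₀ F + t) :
    lw1 q v h + T + 2 * δ + (v - 2 * δ - v') / 3 - p / 3 ≤
      GX (y₃ + y₄ + u) k q p uN uR x D + 12 * t := by
  have k0 := hD.k0
  have x0 : 0 ≤ x := hD.x0
  obtain ⟨hth, hN⟩ := thX_le hD hC δ0 F1
  have hx : hB q v p δ s₀ (GX (y₃ + y₄ + u) k q p uN uR x D) ≤
      hX (y₃ + y₄ + u) k q v p δ x D uN uR s₀ F := le_max_right _ _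
  generalize hX (y₃ + y₄ + u) k q v p δ x D uN uR s₀ F = H at *
  generalize GX (y₃ + y₄ + u) k q p uN uR x D = G at *
  have hT' := bias_b (t := t) b0 hT
  have t0 := hC.t0
  unfold hB at hx
  have hw : lw1 q v h ≤ G + 12 * t - (T + 2 * δ + (v - 2 * δ - v') / 3 - p / 3) :=
    max_le (by linarith) (max_le (by linarith) (by linarith))
  linarith

end Crest.Agent.R017.P1L7904
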