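import Crest.Agent.R017.ETy3_71
import Crest.Agent.R017.P1X7_904
import Crest.Agent.R017.GkLb_381
import Crest.Agent.R017.UbOr_381
import Crest.Agent.R017.P1t_54

/-!
# Row 17, exceptional class (helper381): the rooms `RoomX - CEX`, `RoomX - CES`

* **`room_lo`**, **`room_hi`** (differences), **`roomS_lo`**, **`roomS_hi`** (single lists)
-/

set_option autoImplicit false
set_option linter.unusedVariables false

noncomputable section

open Finset
open scoped ComplexConjugate Classical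

namespace Crest.Agent.R017.GkR381

open Crest.Agent.R012 Crest.Agent.R012.Eis
open Crest.Agent.R017.B770
open Crest.Agent.R017.Prov71
open Crest.Agent.R017.E5B71 Crest.Agent.R017.E5P571 Crest.Agent.R017.E5L770
open Crest.Agent.R017.ExBox960 Crest.Agent.R017.ExP960
open Crest.Agent.R017.Sf770
open Crest.Agent.R017.P1e54 Crest.Agent.R017.P1f54 Crest.Agent.R017.P1k54
open Crest.Agent.R017.P1l54 (ParOK)
open Crest.Agent.R017.P1t54 (LS0)
open Crest.Agent.R017.P1X960
open Crest.Agent.R017.ETd548 Crest.Agent.R017.ETk548 Crest.Agent.R017.UbOr381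
open Crest.Agent.R017.ETy71 (CEX CES bq pQ mV vN vR)
open Crest.Agent.R017.GkL381 (GLo)
open Crest.Agent.R017.P1L904 (RSm)

variable {d : ℝ} {q : (I8X ⊕ Unit → ℝ) × (Kd → ℝ)}

/-- `RoomX` -/
lemma room_eq : RoomX (LS0 d) q =
    2 * (cκ (prX (bq q)) + pQ q + (max 0 (5 / 4 * cN (prX (bq q)) - cκ (prX (bq q))) +
      3 / 4 * (d * cκ (prX (bq q)))) - (cκ (prX (bq q)) - q.1 (.inr ())) / 3) := by
  have e : RoomX (LS0 d) q = 2 * (cκ (prX (bq q)) + (q.1 (.inl (.inr 0)) + q.1 (.inl (.inr 1)) +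
      q.1 (.inl (.inr 2))) + q.2 .am + (max 0 (5 / 4 * cN (prX (bq q)) - cκ (prX (bq q))) +
      3 / 4 * d * cκ (prX (bq q))) - (cκ (prX (bq q)) - q.1 (.inr ())) / 3) := rfl
  rw [e]
  unfold ETy71.pQ
  ring

/-- **low families, differences** -/
theorem room_lo (h : q.1 (.inr ()) ≤ 3 / 5 * cκ (prX (bq q))) :
    RoomX (LS0 d) q - CEX d q = GLo d (cN (prX (bq q))) (cκ (prX (bq q))) (q.1 (.inr ())) (pQ q)
      (min (q.1 (.inl (.inr 2))) (pQ q / 3)) (cx' (prX (bq q))) (d * cκ (prX (bq q))) := by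
  rw [room_eq]
  unfold ETy71.CEX GkL381.GLo
  rw [if_pos h]
  ring

/-- **low families, single lists** -/
theorem roomS_lo (h : q.1 (.inr ()) ≤ 3 / 5 * cκ (prX (bq q))) :
    RoomX (LS0 d) q - CES d q = GLo d (cN (prX (bq q))) (cκ (prX (bq q))) (q.1 (.inr ())) (pQ q)
      (min (q.1 (.inl (.inr 2))) (pQ q / 3)) (cx' (prX (bq q))) (d * cκ (prX (bq q))) := by
  rw [room_eq]
  unfold ETy71.CES GkL381.GLo
  rw [if_pos h]
  ring

/-- **high families, differences** -/
theorem room_hi (h : 3 / 5 * cκ (prX (bq q)) < q.1 (.inr ())) :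
    RoomX (LS0 d) q - CEX d q = P1L7904.GX (cN (prX (bq q))) (cκ (prX (bq q))) (q.1 (.inr ()))
      (pQ q) (mV (vN q)) (mV (vR q)) (cx' (prX (bq q))) (d * cκ (prX (bq q))) := by
  rw [room_eq]
  unfold ETy71.CEX P1L7904.GX ET371.RS0k P1L904.RS0
  rw [if_neg (not_le.2 h)]
  ring

/-- **high families, single lists** : the room of `GX` (both terms at the natural minimum) -/
theorem roomS_hi (h : 3 / 5 * cκ (prX (bq q)) < q.1 (.inr ())) :
    P1L7904.GX (cN (prX (bq q))) (cκ (prX (bq q))) (q.1 (.inr ()))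
      (pQ q) (mV (vN q)) (mV (vN q)) (cx' (prX (bq q))) (d * cκ (prX (bq q))) ≤
      RoomX (LS0 d) q - CES d q := by
  rw [room_eq]
  unfold ETy71.CES P1L7904.GX ET371.RS0k
  rw [if_neg (not_le.2 h)]
  split_ifs
  · have := le_max_left (RSm (cκ (prX (bq q))) (q.1 (.inr ())) (pQ q) (mV (vN q))
      (cx' (prX (bq q)))) (P1L904.RS0 (q.1 (.inr ())) (pQ q) (mV (vN q)) (cx' (prX (bq q))))
    linarith
  · have := le_max_right (RSm (cκ (prX (bq q))) (q.1 (.inr ())) (pQ q) (mV (vN q))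
      (cx' (prX (bq q)))) (P1L904.RS0 (q.1 (.inr ())) (pQ q) (mV (vN q)) (cx' (prX (bq q))))
    unfold P1L904.RS0 at this ⊢
    linarith

/-- the room decreases when the minimum of the lists increases : `RS0` -/
lemma RS0_mono {k p um um' x : ℝ} (h : um ≤ um') : P1L904.RS0 k p um x ≤ P1L904.RS0 k p um' x := by
  unfold P1L904.RS0
  refine max_le_max le_rfl (add_le_add le_rfl (max_le_max (by linarith) ?_))
  linarith

end Crest.Agent.R017.GkR381
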