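import Crest.Agent.R017.GLo_968
import Crest.Agent.R017.ETk_548
import Crest.Agent.R017.FrX_579
import Crest.Agent.R017.FrS_829

/-!
# Row 17, class E, R8 (helper968): the Gram half of the low families `q ≤ 3/5 κ`

* `gkLo_of` : the Gram half from joint numbers and the real line `LoT` at every child
* **`gkLo_S`**, **`gkLo_X`** : the same from helper829's `frS`, helper579's `frX`
-/

set_option autoImplicit false
set_option linter.unusedSectionVars false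
set_option linter.unusedVariables false

noncomputable section

open Finset
open scoped ComplexConjugate Classical

namespace Crest.Agent.R017.GkW968

open Crest.Agent.R012 Crest.Agent.R012.Eis
open Crest.Agent.R017.FE47 (PU cx SM)
open Crest.Agent.R017.CM106
open Crest.Agent.R017.XG702 (Pcs Good_mono)
open Crest.Agent.R017.XT71 (Sys Win mx)
open Crest.Agent.R017.Prov71
open Crest.Agent.R017.B770
open Crest.Agent.R017.E5B71 Crest.Agent.R017.E5P571 Crest.Agent.R017.E5L770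
open Crest.Agent.R017.ExBox960 Crest.Agent.R017.ExP960
open Crest.Agent.R017.Sf770
open Crest.Agent.R017.I1146 (LN)
open Crest.Agent.R017.Sup271 (NPm)
open Crest.Agent.R017.PX764 (Dk)
open Crest.Agent.R017.TM708 (R5)
open Crest.Agent.R017.P1e54 Crest.Agent.R017.P1f54 Crest.Agent.R017.P1k54
open Crest.Agent.R017.P1l54 (ParOK)
open Crest.Agent.R017.P1X960
open Crest.Agent.R017.P10X764
open Crest.Agent.R017.E3Nx744 (CBA)
open Crest.Agent.R017.TNj90 (JBc)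
open Crest.Agent.R017.E1551 (Adm)
open Crest.Agent.R017.ETd548 (BkX S8Xk GkG stG)
open Crest.Agent.R017.ETk548 (DomKc GkGUc)
open Crest.Agent.R017.FrX579 (lmX svX ShXl FrXD frX)
open Crest.Agent.R017.FrS829 (ShSl FrSD frS)
open Crest.Agent.R017.GLo968

/-- a point -/
abbrev QK := (I8X ⊕ Unit → ℝ) × (Kd → ℝ)

/-- the configuration of the child -/
def q8 (q : QK) : (I8X → ℝ) × (Kd → ℝ) := ((fun i => q.1 (.inl i)), q.2)

lemma win_inl {X δ ρ B : ℝ} {N : ℕ} {q : I8X ⊕ Unit → ℝ} {a : BkX}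
    (h : Win S8Xk q δ N B ρ X a) : Win S8X (fun i => q (.inl i)) δ N B ρ X a.1 :=
  ⟨fun i => h.ev (.inl i), h.g, Nat.zero_le _, h.s₁, (le_max_left _ _).trans h.s₂⟩

variable {Λ : Type*}

/-- **the facts of one child for the large sieve** -/
structure LOne (α : Eis → ℂ) (B₂ J R' ε X G : ℝ) (a : BkX) (qs : List Pq) (Y : ℝ)
    (Sh : ℝ → ℝ → ℝ → ℝ) : Prop where
  Y1 : 1 ≤ Y
  YX : Y ≤ X ^ B₂
  adm : Adm Y (Real.exp (LN (clN a.1 qs))) R' α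
  jb : JBc Y (2 ^ (a.2.1 + 1)) (X ^ ε) J Sh α
  kX : (2 : ℝ) ^ (a.2.2.1 + 1) ≤ X
  vX : (2 : ℝ) ^ (a.2.1 + 1) ≤ X
  lo : LoT Sh (((a.2.2.1 : ℝ) + 1) * Real.log 2) (((a.2.1 : ℝ) + 1) * Real.log 2)
    (LN (clN a.1 qs)) (2 * Real.log 2) (G * Real.log X)

set_option maxHeartbeats 1000000 in
/-- **the Gram half of the low families from the facts of the children** -/
theorem gkLo_of {al : Λ × Eis → BcX → List Pq → Eis → ℂ} {ok : Λ × Eis → BcX → List Pq → Prop}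
    {e0 c β : ℝ} {Par : Set (Fin 3 ⊕ Fin 5 → ℝ)} {L : (IX5 → ℝ) → ℝ → ℝ → ℝ → Prop} {GE : QK → ℝ}
    (H : ∀ ε : ℝ, 0 < ε → ∃ δ : ℝ, 0 < δ ∧ ∀ (lam : Λ × Eis) (N : ℕ) (B : ℝ),
      ∃ B₂ J R' : ℝ, 0 ≤ J ∧ 0 ≤ R' ∧ ∃ δ' : ℝ, 0 < δ' ∧ ∃ X₀ : ℝ, 1 < X₀ ∧
      ∀ X : ℝ, X₀ ≤ X → ∀ (a : BkX) (qs : List Pq), qs.length ≤ N →
      (∀ p ∈ qs, Dq.lump p ∨ Dq.nl X p ≤ δ) → ∀ q ∈ DomKc (3 / 5) c β Par L,
      Win S8Xk q.1 δ N B δ' X a → (∀ t, |Dq.mass X qs t - q.2 t| ≤ δ) → Dq.Good X δ' B qs →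
      (∀ p ∈ qs, ¬ Dq.lump p) → ok lam a.1 qs → a.2.1 < nw c a.1 →
      ∃ (Y : ℝ) (Sh : ℝ → ℝ → ℝ → ℝ), LOne (al lam a.1 qs) B₂ J R' ε X (GE q + ε) a qs Y Sh) :
    GkGUc (3 / 5) al ok e0 c β Par L GE := by
  intro ε hε
  obtain ⟨δ, hδ, H⟩ := H (ε / 4) (by positivity)
  refine ⟨δ, hδ, fun lam N B => ?_⟩
  obtain ⟨B₂, J, R', hJ, hR', δ', hδ', X₁, hX₁, H⟩ := H lam N B
  set B₃ : ℝ := max B 1 with hB₃
  have hB1 : 1 ≤ B₃ := le_max_right _ _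
  have hB0 : 0 < B₃ := by linarith
  obtain ⟨C, hC, G⟩ := gram_lo (ε := ε / (4 * B₃)) (J₀ := J) (R := R') (a₁ := max B₂ 1)
    (by positivity) hJ hR' (le_max_right _ _)
  refine ⟨δ', hδ', max X₁ ((C + 1) ^ (4 / ε)), lt_max_of_lt_left hX₁, ?_⟩
  intro X hX a qs hlen hgl q hq hw hm hg hal
  have x1 : X₁ ≤ X := (le_max_left _ _).trans hX
  have hX1 : 1 < X := hX₁.trans_le x1
  have hX0 : 0 < X := by linarith
  have x2 : (C + 1) ^ (4 / ε) ≤ X := (le_max_right _ _).trans hX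
  unfold ETd548.GkG
  split_ifs with hok
  swap
  · positivity
  obtain ⟨hok1, hmp, hlv⟩ := hok
  obtain ⟨Y, Sh, F⟩ := H X x1 a qs hlen hgl q hq hw hm hg
    (fun p hp hlp => absurd (hal p hp hlp) (Set.notMem_empty _)) hok1 hlv
  have hXB : X ≤ X ^ B₃ := by
    calc X = X ^ (1 : ℝ) := (Real.rpow_one X).symm
      _ ≤ _ := Real.rpow_le_rpow_of_exponent_le hX1.le hB1
  have hXB1 : 1 ≤ X ^ B₃ := hX1.le.trans hXB
  have hmX : (nm a.2.2.2 : ℝ) ≤ X ^ B₃ :=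
    ((le_max_right _ _).trans hw.s₂).trans
      (Real.rpow_le_rpow_of_exponent_le hX1.le (le_max_left _ _))
  have hYX : Y ≤ (X ^ B₃) ^ max B₂ 1 := by
    refine F.YX.trans ((Real.rpow_le_rpow_of_exponent_le hX1.le (le_max_left B₂ 1)).trans ?_)
    exact Real.rpow_le_rpow hX0.le hXB ((zero_le_one).trans (le_max_right _ _))
  have key := G (X ^ B₃) hXB1 Y (LN (clN a.1 qs)) (al lam a.1 qs) F.Y1 hYX F.adm a.2.2.1 a.2.1
    (Real.exp (e0 * a.1.1.l)) (X ^ (ε / 4)) ((GE q + ε / 4) * Real.log X) Sh (F.kX.trans hXB)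
    (F.vX.trans hXB) (Real.rpow_nonneg hX0.le _) F.jb F.lo (JS (nw c a.1)) (okJ_JS _) a.2.2.2 hmp
    hmX
  refine key.trans ?_
  have h1 : (X ^ B₃) ^ (ε / (4 * B₃)) = X ^ (ε / 4) := by
    rw [← Real.rpow_mul hX0.le]
    congr 1
    field_simp
  have h2 : Real.exp ((GE q + ε / 4) * Real.log X) = X ^ (GE q + ε / 4) := by
    rw [Real.rpow_def_of_pos hX0, mul_comm]
  have h3 : C ≤ X ^ (ε / 4) := by
    have h0 : (0 : ℝ) ≤ C + 1 := by linarith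
    calc C ≤ C + 1 := by linarith
      _ = ((C + 1) ^ (4 / ε)) ^ (ε / 4) := by
          rw [← Real.rpow_mul h0, show 4 / ε * (ε / 4) = 1 by field_simp, Real.rpow_one]
      _ ≤ X ^ (ε / 4) := Real.rpow_le_rpow (by positivity) x2 (by positivity)
  rw [h1, h2]
  calc C * X ^ (ε / 4) * (X ^ (ε / 4) * X ^ (GE q + ε / 4))
      ≤ X ^ (ε / 4) * X ^ (ε / 4) * (X ^ (ε / 4) * X ^ (GE q + ε / 4)) := by gcongr
    _ = X ^ (GE q + ε) := by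
        rw [← Real.rpow_add hX0, ← Real.rpow_add hX0, ← Real.rpow_add hX0]
        congr 1
        ring

variable {π : Λ → DPar} {h : ℝ → ℝ}

set_option maxHeartbeats 1000000 in
/-- **the Gram half of the low families, single lists** -/
theorem gkLo_S {c₀ : ℝ} (hpu : PU h c₀) (hP : ∀ lam, (π lam).OK)
    {Rh : ℝ} (hRh0 : 0 ≤ Rh) (hRh : ∀ u, cx h u ≠ 0 → |u| ≤ Rh) {e0 : ℝ}
    (he0 : 0 ≤ e0) (he0' : e0 ≤ 1) {c β : ℝ} (hc0 : 0 ≤ c) (hc1 : c ≤ 1)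
    {Par : Set (Fin 3 ⊕ Fin 5 → ℝ)} (hPar : ∀ p ∈ Par, ParOK p)
    {D5 : Set (Fin 5 → ℝ)} {ℓ Kf Tf : (Fin 5 → ℝ) → ℝ}
    (hDN : ∀ p : IX5 → ℝ, prX p ∈ Par → ZR β p → bN p ∈ D5)
    (hDR : ∀ p : IX5 → ℝ, prX p ∈ Par → ZR β p → bR p ∈ D5)
    (hR5 : ∀ p : IX5 → ℝ, prX p ∈ Par → ZR β p → R5 (bN p))
    (hKN : ∀ p : IX5 → ℝ, prX p ∈ Par → ZR β p →
      Kf (bN p) = max (cκ (prX p)) (5 / 4 * cN (prX p)))
    (hKR : ∀ p : IX5 → ℝ, prX p ∈ Par → ZR β p →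
      Kf (bR p) = max (cκ (prX p)) (5 / 4 * cN (prX p)))
    (hTN : ∀ (p : IX5 → ℝ) (v₀ v₁ v₂ b x' : ℝ), ChC c β Par p v₀ v₁ v₂ b x' →
      SinL β p v₀ v₁ v₂ → tpW c p b ≤ Tf (bN p))
    (hTR : ∀ (p : IX5 → ℝ) (v₀ v₁ v₂ b x' : ℝ), ChC c β Par p v₀ v₁ v₂ b x' →
      SinL β p v₀ v₁ v₂ → tpW c p b ≤ Tf (bR p))
    (hcb : CBA π h Dk Kf Tf D5 ℓ) {ok : Λ × Eis → BcX → List Pq → Prop}
    (hok : ∀ lam a qs, ok lam a qs → okCX (π lam.1) lam.2 a qs) {GE : QK → ℝ}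
    (hLo : ∀ (cw B₂ J R' t₀ ε X : ℝ) (lam : Λ × Eis) (a : BkX) (qs : List Pq) (q : QK),
      FrSD π h Rh e0 c ℓ Kf Tf cw B₂ J R' t₀ ε X lam a.1 qs (q8 q) → 1 < X → 0 < t₀ →
      t₀ ≤ 1 / 1000000 → 4 ≤ t₀ * Real.log X → q ∈ DomKc (3 / 5) c β Par (SinL β) →
      |((a.2.2.1 : ℝ) + 1) * Real.log 2 - q.1 (.inr ()) * Real.log X| ≤ t₀ * Real.log X →
      a.2.1 < nw c a.1 →
      LoT (ShSl (lmX ℓ Kf Tf (bp (q8 q).1) * Real.log X) a.1 qs)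
        (((a.2.2.1 : ℝ) + 1) * Real.log 2) (((a.2.1 : ℝ) + 1) * Real.log 2) (LN (clN a.1 qs))
        (2 * Real.log 2) (GE q * Real.log X + 100 * (t₀ * Real.log X))) :
    GkGUc (3 / 5) (alS π h) ok e0 c β Par (SinL β) GE := by
  refine gkLo_of fun ε hε => ?_
  obtain ⟨t₀, ht₀, ht1, ht2⟩ : ∃ t₀ : ℝ, 0 < t₀ ∧ t₀ ≤ 1 / 1000000 ∧ 100 * t₀ ≤ ε :=
    ⟨min (1 / 1000000) (ε / 100), lt_min (by norm_num) (by positivity), min_le_left _ _, by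
      have := min_le_right (1 / 1000000 : ℝ) (ε / 100)
      linarith⟩
  obtain ⟨δ₁, hδ₁, F⟩ := frS hpu hP hRh0 hRh he0 he0' hc0 hc1 hPar hDN hDR hR5 hKN hKR hTN hTR hcb
    (ε := ε) (t₀ := t₀) hε ht₀
  refine ⟨min δ₁ t₀, lt_min hδ₁ ht₀, fun lam N B => ?_⟩
  obtain ⟨B₂, J, R', hB₂, hJ, hR', δ', hδ', X₁, hX₁, F⟩ := F lam N B 1 le_rfl
  refine ⟨B₂, J, R', hJ, hR', δ', hδ', max X₁ (Real.exp (4 / t₀)), lt_max_of_lt_left hX₁, ?_⟩
  intro X hX a qs hlen hgl q hq hw hm hg hnl hok1 hlv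
  have x1 : X₁ ≤ X := (le_max_left _ _).trans hX
  have hX1 : 1 < X := hX₁.trans_le x1
  have hX0 : 0 < X := by linarith
  have hL0 : 0 < Real.log X := Real.log_pos hX1
  have x2 : 4 ≤ t₀ * Real.log X := by
    have h2 : 4 / t₀ ≤ Real.log X := by
      have := Real.log_le_log (Real.exp_pos _) ((le_max_right _ _).trans hX)
      rwa [Real.log_exp] at this
    rw [div_le_iff₀ ht₀] at h2
    linarith
  have hw' : Win S8X (q8 q).1 δ₁ N B δ' X a.1 :=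
    (win_inl hw).mono hX1.le (min_le_left _ _) le_rfl le_rfl le_rfl
  have D := F X x1 a.1 qs hlen (fun p hp => (hgl p hp).imp id fun h => h.trans (min_le_left _ _))
    (q8 q) hq.1 hw' (fun t => (hm t).trans (min_le_left _ _)) hg hnl (hok _ _ _ hok1)
  have hfam : |((a.2.2.1 : ℝ) + 1) * Real.log 2 - q.1 (.inr ()) * Real.log X| ≤
      t₀ * Real.log X := by
    have h0 : |((a.2.2.1 : ℝ) + 1) * Real.log 2 / Real.log X - q.1 (.inr ())| ≤ min δ₁ t₀ :=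
      hw.ev (.inr ())
    have h1 := mul_le_mul_of_nonneg_right (h0.trans (min_le_right _ _)) hL0.le
    rw [← abs_of_pos hL0, ← abs_mul, abs_of_pos hL0, sub_mul, div_mul_cancel₀ _ hL0.ne'] at h1
    exact h1
  have hkX : (2 : ℝ) ^ (a.2.2.1 + 1) ≤ X := by
    refine (Real.log_le_log_iff (by positivity) hX0).1 ?_
    rw [Real.log_pow]
    push_cast
    have hPp := hPar _ hq.1.1.par
    have h1 := (abs_le.1 hfam).2
    have h2 : q.1 (.inr ()) ≤ 3 / 5 * cκ (prX (bp fun i => q.1 (.inl i))) := hq.2.2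
    have h3 := hPp.κ1
    have h4 : q.1 (.inr ()) * Real.log X ≤ 3 / 5 * Real.log X :=
      mul_le_mul_of_nonneg_right (by linarith) hL0.le
    have h5 : t₀ * Real.log X ≤ 1 / 1000000 * Real.log X := mul_le_mul_of_nonneg_right ht1 hL0.le
    linarith
  have hvn : (2 : ℝ) ^ (a.2.1 + 1) ≤ 1 * 2 ^ nw c a.1 := by
    rw [one_mul]
    exact pow_le_pow_right₀ (by norm_num) hlv
  have hLT := hLo 1 B₂ J R' t₀ ε X lam a qs q D hX1 ht₀ ht1 x2 hq hfam hlv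
  exact ⟨YcX Rh a.1 qs, ShSl (lmX ℓ Kf Tf (bp (q8 q).1) * Real.log X) a.1 qs,
    { Y1 := D.Y1
      YX := D.YX
      adm := D.adm
      jb := D.jb.mono hvn
      kX := hkX
      vX := hvn.trans D.yX
      lo := ⟨fun δ b l h1 h2 h3 h4 h5 h6 => (hLT.ln δ b l h1 h2 h3 h4 h5 h6).trans (by
        have := mul_le_mul_of_nonneg_right ht2 hL0.le
        linarith)⟩ }⟩

set_option maxHeartbeats 1000000 in
/-- **the Gram half of the low families, differences** -/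
theorem gkLo_X {c₀ : ℝ} (hpu : PU h c₀) (hP : ∀ lam, (π lam).OK)
    (hex : ∀ lam, ¬ NPm (π lam).n (π lam).ψ (π lam).l₂ 1)
    {Rh : ℝ} (hRh0 : 0 ≤ Rh) (hRh : ∀ u, cx h u ≠ 0 → |u| ≤ Rh) {e0 : ℝ}
    (he0 : 0 ≤ e0) (he0' : e0 ≤ 1) {c β : ℝ} (hc0 : 0 ≤ c) (hc1 : c ≤ 1)
    {Par : Set (Fin 3 ⊕ Fin 5 → ℝ)} (hPar : ∀ p ∈ Par, ParOK p)
    {D5 : Set (Fin 5 → ℝ)} {ℓ Kf Tf : (Fin 5 → ℝ) → ℝ}
    (hDN : ∀ p : IX5 → ℝ, prX p ∈ Par → ZR β p → bN p ∈ D5)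
    (hDR : ∀ p : IX5 → ℝ, prX p ∈ Par → ZR β p → bR p ∈ D5)
    (hR5 : ∀ p : IX5 → ℝ, prX p ∈ Par → ZR β p → R5 (bN p))
    (hKN : ∀ p : IX5 → ℝ, prX p ∈ Par → ZR β p →
      Kf (bN p) = max (cκ (prX p)) (5 / 4 * cN (prX p)))
    (hKR : ∀ p : IX5 → ℝ, prX p ∈ Par → ZR β p →
      Kf (bR p) = max (cκ (prX p)) (5 / 4 * cN (prX p)))
    (hTN : ∀ (p : IX5 → ℝ) (v₀ v₁ v₂ b x' : ℝ), ChC c β Par p v₀ v₁ v₂ b x' →
      DifL p v₀ v₁ v₂ → tpW c p b ≤ Tf (bN p))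
    (hTR : ∀ (p : IX5 → ℝ) (v₀ v₁ v₂ b x' : ℝ), ChC c β Par p v₀ v₁ v₂ b x' →
      DifL p v₀ v₁ v₂ → tpW c p b ≤ Tf (bR p))
    (hcb : CBA π h Dk Kf Tf D5 ℓ) {ok : Λ × Eis → BcX → List Pq → Prop}
    (hok : ∀ lam a qs, ok lam a qs → okCX (π lam.1) lam.2 a qs ∧ okD a) {GE : QK → ℝ}
    (hLo : ∀ (cw B₂ J R' t₀ ε X : ℝ) (lam : Λ × Eis) (a : BkX) (qs : List Pq) (q : QK),
      FrXD π h Rh e0 c ℓ Kf Tf cw B₂ J R' t₀ ε X lam a.1 qs (q8 q) → 1 < X → 0 < t₀ →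
      t₀ ≤ 1 / 1000000 → 4 ≤ t₀ * Real.log X → q ∈ DomKc (3 / 5) c β Par DifL →
      |((a.2.2.1 : ℝ) + 1) * Real.log 2 - q.1 (.inr ()) * Real.log X| ≤ t₀ * Real.log X →
      a.2.1 < nw c a.1 →
      LoT (ShXl (lmX ℓ Kf Tf (bp (q8 q).1) * Real.log X) a.1 qs)
        (((a.2.2.1 : ℝ) + 1) * Real.log 2) (((a.2.1 : ℝ) + 1) * Real.log 2) (LN (clN a.1 qs))
        (2 * Real.log 2) (GE q * Real.log X + 100 * (t₀ * Real.log X))) :
    GkGUc (3 / 5) (alX π h) ok e0 c β Par DifL GE := by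
  refine gkLo_of fun ε hε => ?_
  obtain ⟨t₀, ht₀, ht1, ht2⟩ : ∃ t₀ : ℝ, 0 < t₀ ∧ t₀ ≤ 1 / 1000000 ∧ 100 * t₀ ≤ ε :=
    ⟨min (1 / 1000000) (ε / 100), lt_min (by norm_num) (by positivity), min_le_left _ _, by
      have := min_le_right (1 / 1000000 : ℝ) (ε / 100)
      linarith⟩
  obtain ⟨δ₁, hδ₁, F⟩ := frX hpu hP hex hRh0 hRh he0 he0' hc0 hc1 hPar hDN hDR hR5 hKN hKR hTN hTR
    hcb (ε := ε) (t₀ := t₀) hε ht₀
  refine ⟨min δ₁ t₀, lt_min hδ₁ ht₀, fun lam N B => ?_⟩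
  obtain ⟨B₂, J, R', hB₂, hJ, hR', δ', hδ', X₁, hX₁, F⟩ := F lam N B 1 le_rfl
  refine ⟨B₂, J, R', hJ, hR', δ', hδ', max X₁ (Real.exp (4 / t₀)), lt_max_of_lt_left hX₁, ?_⟩
  intro X hX a qs hlen hgl q hq hw hm hg hnl hok1 hlv
  have x1 : X₁ ≤ X := (le_max_left _ _).trans hX
  have hX1 : 1 < X := hX₁.trans_le x1
  have hX0 : 0 < X := by linarith
  have hL0 : 0 < Real.log X := Real.log_pos hX1
  have x2 : 4 ≤ t₀ * Real.log X := by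
    have h2 : 4 / t₀ ≤ Real.log X := by
      have := Real.log_le_log (Real.exp_pos _) ((le_max_right _ _).trans hX)
      rwa [Real.log_exp] at this
    rw [div_le_iff₀ ht₀] at h2
    linarith
  have hw' : Win S8X (q8 q).1 δ₁ N B δ' X a.1 :=
    (win_inl hw).mono hX1.le (min_le_left _ _) le_rfl le_rfl le_rfl
  have D := F X x1 a.1 qs hlen (fun p hp => (hgl p hp).imp id fun h => h.trans (min_le_left _ _))
    (q8 q) hq.1 hw' (fun t => (hm t).trans (min_le_left _ _)) hg hnl (hok _ _ _ hok1)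
  have hfam : |((a.2.2.1 : ℝ) + 1) * Real.log 2 - q.1 (.inr ()) * Real.log X| ≤
      t₀ * Real.log X := by
    have h0 : |((a.2.2.1 : ℝ) + 1) * Real.log 2 / Real.log X - q.1 (.inr ())| ≤ min δ₁ t₀ :=
      hw.ev (.inr ())
    have h1 := mul_le_mul_of_nonneg_right (h0.trans (min_le_right _ _)) hL0.le
    rw [← abs_of_pos hL0, ← abs_mul, abs_of_pos hL0, sub_mul, div_mul_cancel₀ _ hL0.ne'] at h1
    exact h1
  have hkX : (2 : ℝ) ^ (a.2.2.1 + 1) ≤ X := by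
    refine (Real.log_le_log_iff (by positivity) hX0).1 ?_
    rw [Real.log_pow]
    push_cast
    have hPp := hPar _ hq.1.1.par
    have h1 := (abs_le.1 hfam).2
    have h2 : q.1 (.inr ()) ≤ 3 / 5 * cκ (prX (bp fun i => q.1 (.inl i))) := hq.2.2
    have h3 := hPp.κ1
    have h4 : q.1 (.inr ()) * Real.log X ≤ 3 / 5 * Real.log X :=
      mul_le_mul_of_nonneg_right (by linarith) hL0.le
    have h5 : t₀ * Real.log X ≤ 1 / 1000000 * Real.log X := mul_le_mul_of_nonneg_right ht1 hL0.le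
    linarith
  have hvn : (2 : ℝ) ^ (a.2.1 + 1) ≤ 1 * 2 ^ nw c a.1 := by
    rw [one_mul]
    exact pow_le_pow_right₀ (by norm_num) hlv
  have hLT := hLo 1 B₂ J R' t₀ ε X lam a qs q D hX1 ht₀ ht1 x2 hq hfam hlv
  exact ⟨YcX Rh a.1 qs, ShXl (lmX ℓ Kf Tf (bp (q8 q).1) * Real.log X) a.1 qs,
    { Y1 := D.Y1
      YX := D.YX
      adm := D.adm
      jb := D.jb.mono hvn
      kX := hkX
      vX := hvn.trans D.yX
      lo := ⟨fun δ b l h1 h2 h3 h4 h5 h6 => (hLT.ln δ b l h1 h2 h3 h4 h5 h6).trans (by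
        have := mul_le_mul_of_nonneg_right ht2 hL0.le
        linarith)⟩ }⟩

end Crest.Agent.R017.GkW968
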