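import Crest.Agent.R017.HfG_47
import Crest.Agent.R017.ChX_629
import Crest.Agent.R017.UbOr_381
import Crest.Agent.R017.FrX_579
import Crest.Agent.R017.ETm_548

/-!
# Row 17, exceptional class (helper770): the `T`-half of the high families, differences

* **`tfr_X`** : 548's `TFr` at `alX` from helper579's `frX`, helper47's `tl_abs`, helper629's `chX`
-/

set_option autoImplicit false
set_option linter.unusedSectionVars false
set_option linter.unusedVariables false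

noncomputable section

open Finset
open scoped ComplexConjugate Classical

namespace Crest.Agent.R017.TFx770

open Crest.Agent.R012 Crest.Agent.R012.Eis
open Crest.Agent.R017.FE47 (PU cx SM)
open Crest.Agent.R017.CM106
open Crest.Agent.R017.XG702 (Pcs Good_mono)
open Crest.Agent.R017.XT71 (Sys Win mx)
open Crest.Agent.R017.Prov71
open Crest.Agent.R017.B770
open Crest.Agent.R017.E5B71 Crest.Agent.R017.E5P571 Crest.Agent.R017.E5L770
open Crest.Agent.R017.ExBox960 Crest.Agent.R017.ExP960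
open Crest.Agent.R017.Sf770
open Crest.Agent.R017.I1146 (LN)
open Crest.Agent.R017.Sup271 (NPm)
open Crest.Agent.R017.PX764 (Dk)
open Crest.Agent.R017.TM708 (R5)
open Crest.Agent.R017.P1e54 Crest.Agent.R017.P1f54 Crest.Agent.R017.P1k54
open Crest.Agent.R017.P1l54 (ParOK)
open Crest.Agent.R017.P1X960
open Crest.Agent.R017.P10X764
open Crest.Agent.R017.E3Nx744 (CBA)
open Crest.Agent.R017.TNj90 (JBc)
open Crest.Agent.R017.E1551 (Adm)
open Crest.Agent.R017.ETd548 (BkX S8Xk GkG stG)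
open Crest.Agent.R017.ETk548 (DomKc GkGUc)
open Crest.Agent.R017.UbOr381 (DomHi)
open Crest.Agent.R017.FrX579 (lmX svX ShXl FrXD frX s0R)
open Crest.Agent.R017.ETm548
open Crest.Agent.R017.E3Kc548 (LI mem_LI)
open Crest.Agent.R017.ETy71 (mV vN vR pQ bq Dz)
open Crest.Agent.R017.LnY47
open Crest.Agent.R017.RnP571 (Dh)

/-- the configuration of the child -/
def q8 (q : QK) : (I8X → ℝ) × (Kd → ℝ) := ((fun i => q.1 (.inl i)), q.2)

lemma win_inl {X δ ρ B : ℝ} {N : ℕ} {q : I8X ⊕ Unit → ℝ} {a : BkX}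
    (h : Win S8Xk q δ N B ρ X a) : Win S8X (fun i => q (.inl i)) δ N B ρ X a.1 :=
  ⟨fun i => h.ev (.inl i), h.g, Nat.zero_le _, h.s₁, (le_max_left _ _).trans h.s₂⟩

/-- the level in logarithms -/
lemma lev_le {i j n : ℕ} (hi : i ∈ LI ((2 : ℝ) ^ j / 4) (2 ^ (j + 1))) (hj : j < n) :
    (i : ℝ) ≤ 1 + Real.log (2 ^ n) := by
  have h1 := (mem_LI hi).2.2
  have h2 : Real.exp (i : ℝ) ≤ Real.exp 1 * 2 ^ n :=
    h1.trans (mul_le_mul_of_nonneg_left (pow_le_pow_right₀ (by norm_num) hj) (Real.exp_pos _).le)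
  have h3 := Real.log_le_log (Real.exp_pos _) h2
  rwa [Real.log_exp, Real.log_mul (Real.exp_pos _).ne' (by positivity), Real.log_exp] at h3

variable {Λ : Type*} {π : Λ → DPar} {h : ℝ → ℝ}

set_option maxHeartbeats 2000000 in
/-- **the `T`-half of the high families, differences** -/
theorem tfr_X {c₀ : ℝ} (hpu : PU h c₀) (hP : ∀ lam, (π lam).OK)
    (hex : ∀ lam, ¬ NPm (π lam).n (π lam).ψ (π lam).l₂ 1)
    {Rh : ℝ} (hRh0 : 0 ≤ Rh) (hRh : ∀ u, cx h u ≠ 0 → |u| ≤ Rh) {e0 : ℝ}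
    (he0 : 0 ≤ e0) (he0' : e0 ≤ 1 / 64) {c d : ℝ} (hc0 : 0 ≤ c) (hc1 : c ≤ 1)
    (hcd : 4 * c ≤ d)
    {Par : Set (Fin 3 ⊕ Fin 5 → ℝ)} (hPar : ∀ p ∈ Par, ParOK p)
    (hDh : ∀ p ∈ Par, Dh (cκ p) (cu p 2) (cu p 3) (cu p 4) (cx' p) (d * cκ p))
    {D5 : Set (Fin 5 → ℝ)} {ℓ Kf Tf : (Fin 5 → ℝ) → ℝ}
    (hDN : ∀ p : IX5 → ℝ, prX p ∈ Par → ZR (17 / 100) p → bN p ∈ D5)
    (hDR : ∀ p : IX5 → ℝ, prX p ∈ Par → ZR (17 / 100) p → bR p ∈ D5)
    (hR5 : ∀ p : IX5 → ℝ, prX p ∈ Par → ZR (17 / 100) p → R5 (bN p))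
    (hKN : ∀ p : IX5 → ℝ, prX p ∈ Par → ZR (17 / 100) p →
      Kf (bN p) = max (cκ (prX p)) (5 / 4 * cN (prX p)))
    (hKR : ∀ p : IX5 → ℝ, prX p ∈ Par → ZR (17 / 100) p →
      Kf (bR p) = max (cκ (prX p)) (5 / 4 * cN (prX p)))
    (hTN : ∀ (p : IX5 → ℝ) (v₀ v₁ v₂ b x' : ℝ), ChC c (17 / 100) Par p v₀ v₁ v₂ b x' →
      DifL p v₀ v₁ v₂ → tpW c p b ≤ Tf (bN p))
    (hTR : ∀ (p : IX5 → ℝ) (v₀ v₁ v₂ b x' : ℝ), ChC c (17 / 100) Par p v₀ v₁ v₂ b x' →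
      DifL p v₀ v₁ v₂ → tpW c p b ≤ Tf (bR p))
    (hcb : CBA π h Dk Kf Tf D5 ℓ)
    (hlm : ∀ p : IX5 → ℝ, prX p ∈ Par → ZR (17 / 100) p →
      lmX ℓ Kf Tf p ≤ 5 / 9 * (d * cκ (prX p)))
    {ok : Λ × Eis → BcX → List Pq → Prop}
    (hok : ∀ lam a qs, ok lam a qs → okCX (π lam.1) lam.2 a qs ∧ okD a) :
    TFr (alX π h) ok e0 c (DomHi (3 / 5) (7 / 8) c (17 / 100) Par DifL) 4
      (hfG d (fun q => mV (vN q)) (fun q => mV (vR q)) (fun q => lmX ℓ Kf Tf (bq q)) s0X)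
      (GXq d) := by
  intro ε hε
  obtain ⟨t₀, ht₀, ht1, ht2⟩ : ∃ t₀ : ℝ, 0 < t₀ ∧ t₀ ≤ 1 / 1000000 ∧ 100 * t₀ ≤ ε :=
    ⟨min (1 / 1000000) (ε / 100), lt_min (by norm_num) (by positivity), min_le_left _ _, by
      have := min_le_right (1 / 1000000 : ℝ) (ε / 100)
      linarith⟩
  obtain ⟨δ₁, hδ₁, F⟩ := frX hpu hP hex hRh0 hRh he0 (he0'.trans (by norm_num)) hc0 hc1 hPar hDN
    hDR hR5 hKN hKR hTN hTR hcb (ε := ε) (t₀ := t₀) hε ht₀
  refine ⟨min δ₁ t₀, lt_min hδ₁ ht₀, fun lam N B => ?_⟩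
  obtain ⟨B₁, J₁, R', hB₁, hJ₁, hR', δ₁', hδ₁', X₁, hX₁, F₁⟩ := F lam N B 1 le_rfl
  refine ⟨R', hR', fun cw hcw => ?_⟩
  obtain ⟨B₂, J, R₂, hB₂, hJ, hR₂, δ₂', hδ₂', X₂, hX₂, F₂⟩ := F lam N B cw hcw
  have hcl0 : 0 ≤ Real.log cw := Real.log_nonneg hcw
  refine ⟨B₂, J, hJ, min δ₁' δ₂', lt_min hδ₁' hδ₂',
    max (max X₁ X₂) (Real.exp ((4 + Real.log cw) / t₀)),
    lt_max_of_lt_left (lt_max_of_lt_left hX₁), ?_⟩
  intro X hX a qs q W
  have x1 : X₁ ≤ X := (le_max_left _ _).trans ((le_max_left _ _).trans hX)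
  have x2 : X₂ ≤ X := (le_max_right _ _).trans ((le_max_left _ _).trans hX)
  have hX1 : 1 < X := hX₁.trans_le x1
  have hX0 : 0 < X := by linarith
  have hL0 : 0 < Real.log X := Real.log_pos hX1
  have x3 : 4 + Real.log cw ≤ t₀ * Real.log X := by
    have h2 : (4 + Real.log cw) / t₀ ≤ Real.log X := by
      have := Real.log_le_log (Real.exp_pos _) ((le_max_right _ _).trans hX)
      rwa [Real.log_exp] at this
    rw [div_le_iff₀ ht₀] at h2
    linarith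
  have hdom : q ∈ DomKc (7 / 8) c (17 / 100) Par DifL := W.dom.1
  have hqlo : 3 / 5 * cκ (prX (bp fun i => q.1 (.inl i))) ≤ q.1 (.inr ()) := W.dom.2
  have hqhi : q.1 (.inr ()) ≤ 7 / 8 * cκ (prX (bp fun i => q.1 (.inl i))) := hdom.2.2
  have hokc := hok _ _ _ W.hok
  have hw₁ : Win S8X (q8 q).1 δ₁ N B δ₁' X a.1 :=
    (win_inl W.win).mono hX1.le (min_le_left _ _) le_rfl le_rfl (min_le_left _ _)
  have hw₂ : Win S8X (q8 q).1 δ₁ N B δ₂' X a.1 :=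
    (win_inl W.win).mono hX1.le (min_le_left _ _) le_rfl le_rfl (min_le_right _ _)
  have hgl : ∀ p ∈ qs, Dq.lump p ∨ Dq.nl X p ≤ δ₁ :=
    fun p hp => (W.gl p hp).imp id fun h => h.trans (min_le_left _ _)
  have hms : ∀ t, |Dq.mass X qs t - (q8 q).2 t| ≤ δ₁ := fun t => (W.ms t).trans (min_le_left _ _)
  have D₁ := F₁ X x1 a.1 qs W.len hgl (q8 q) hdom.1 hw₁ hms
    (Good_mono hX1.le W.gd (min_le_left _ _)) W.nlp hokc
  have D₂ := F₂ X x2 a.1 qs W.len hgl (q8 q) hdom.1 hw₂ hms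
    (Good_mono hX1.le W.gd (min_le_right _ _)) W.nlp hokc
  set L := Real.log X with hL
  have hfam : |kB a - q.1 (.inr ()) * L| ≤ t₀ * L := by
    have h0 : |((a.2.2.1 : ℝ) + 1) * Real.log 2 / Real.log X - q.1 (.inr ())| ≤ min δ₁ t₀ :=
      W.win.ev (.inr ())
    have h1 := mul_le_mul_of_nonneg_right (h0.trans (min_le_right _ _)) hL0.le
    rw [← abs_of_pos hL0, ← abs_mul, abs_of_pos hL0, sub_mul, ← hL, div_mul_cancel₀ _ hL0.ne'] at h1
    exact h1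
  -- the frame
  obtain ⟨hC, hDf, hmo, hhalf⟩ := hdom.1
  set p : IX5 → ℝ := bp fun i => q.1 (.inl i) with hp
  have hpar : prX p ∈ Par := hC.par
  have hPp := hPar _ hpar
  have hD := hDh _ hpar
  set κ := cκ (prX p) with hκ
  have hκ0 : 8 / 9 ≤ κ := hPp.κ0
  have hκ1 : κ ≤ 1 := hPp.κ1
  have hκL : 8 / 9 * L ≤ κ * L := mul_le_mul_of_nonneg_right hκ0 hL0.le
  have hκL1 : κ * L ≤ 1 * L := mul_le_mul_of_nonneg_right hκ1 hL0.le
  have htL : t₀ * L ≤ 1 / 1000000 * L := mul_le_mul_of_nonneg_right ht1 hL0.le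
  have kl : |a.1.1.l - κ * L| ≤ t₀ * L := D₂.kl
  have zl : |a.1.1.z - cx' (prX p) * L| ≤ t₀ * L := D₂.zl
  have Al : |a3 a.1.1.toBd - cN (prX p) * L| ≤ t₀ * L := D₂.Al
  have nl : |LN (clN a.1 qs) - svX (q8 q) * L| ≤ t₀ * L := D₂.nl
  have sl : |s0X a.1 - s0R (q8 q) * L| ≤ t₀ * L := D₂.sl
  have n0 : (κ / 2 - 2 * cx' (prX p)) * L - t₀ * L ≤ LN (clN a.1 qs) := D₂.n0
  have n1 : LN (clN a.1 qs) ≤ (cN (prX p) + cx' (prX p)) * L + t₀ * L := D₂.n1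
  have yl : Real.log (2 ^ nw c a.1) ≤ tpW c p (q.1 (.inl (.inr 3))) * L + t₀ * L := D₂.yl
  obtain ⟨k1, k2⟩ := abs_le.1 kl
  obtain ⟨z1, z2⟩ := abs_le.1 zl
  obtain ⟨A1, A2⟩ := abs_le.1 Al
  obtain ⟨q1, q2⟩ := abs_le.1 hfam
  have hz0 : 0 ≤ a.1.1.z := hokc.1.1.base.2.1
  have hdv : ∀ {x y s : ℝ}, |x - y * L| ≤ s * L → |x / L - y| ≤ s := by
    intro x y s h1
    have e : x / L - y = (x - y * L) / L := by field_simp
    rw [e, abs_div, abs_of_pos hL0, div_le_iff₀ hL0]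
    exact h1
  have dq : |kB a / L - q.1 (.inr ())| ≤ t₀ := hdv hfam
  have dp : |LN (clN a.1 qs) / L - pQ q| ≤ t₀ := hdv nl
  have ds : |s0X a.1 / L - s0R (q8 q)| ≤ t₀ := hdv sl
  obtain ⟨dq1, dq2⟩ := abs_le.1 dq
  have hF : lmX ℓ Kf Tf p ≤ 5 / 9 * (d * κ) := hlm p hpar hC.zr
  have hcκ : 4 * (c * κ) ≤ d * κ := by
    have := mul_le_mul_of_nonneg_right hcd (show (0 : ℝ) ≤ κ by linarith)
    linarith
  -- the windows at one level
  have hCh : ∀ i ∈ LI ((2 : ℝ) ^ a.2.1 / 4) (2 ^ (a.2.1 + 1)),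
      P1L7904.Ch κ (cu (prX p) 2) (cu (prX p) 3) (cu (prX p) 4) (cx' (prX p)) (d * κ) (3 * t₀)
        (kB a / L) (LN (clN a.1 qs) / L) (mV (vN q)) (mV (vR q)) ((i : ℝ) / L)
        (cN (prX p) - (q.1 (.inl (.inr 0)) + q.1 (.inl (.inr 1)) + q.1 (.inl (.inr 2))))
        (s0X a.1 / L) := by
    intro i hi
    have hi1 := lev_le hi W.lvl
    have hi2 : (i : ℝ) / L ≤ tpW c p (q.1 (.inl (.inr 3))) + 3 * t₀ := by
      rw [div_le_iff₀ hL0]
      have : 1 ≤ t₀ * L := by linarith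
      linarith
    refine ChX629.chX hκ0 (by positivity) (by linarith) rfl hD hcκ rfl (hC.zr 1).1 (hC.zr 1).2
      hC.v0 hC.v1 hC.v2 hDf.1.1 hDf.1.2.1 hDf.1.2.2 hC.x0 hC.x1 hC.s2 (by linarith) (by linarith)
      ?_ (dp.trans (by linarith)) ?_ (ds.trans (by linarith))
    · refine hi2.trans (le_of_eq ?_)
      unfold tpW E5L770.top5
      rfl
    · rw [le_div_iff₀ hL0]
      linarith
  have hkey : ∀ i ∈ LI ((2 : ℝ) ^ a.2.1 / 4) (2 ^ (a.2.1 + 1)), ∀ g : ℝ, 0 ≤ g →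
      (Real.log cw + hfG d (fun q => mV (vN q)) (fun q => mV (vR q))
        (fun q => lmX ℓ Kf Tf (bq q)) s0X lam X a qs q i g + 2 * (i : ℝ) ≤
          kB a + LN (clN a.1 qs)) ∧
      ET490.LnT (ShXl (lmX ℓ Kf Tf p * L) a.1 qs) (kB a) i
        (hfG d (fun q => mV (vN q)) (fun q => mV (vR q)) (fun q => lmX ℓ Kf Tf (bq q)) s0X
          lam X a qs q i g) (LN (clN a.1 qs)) (e0 * a.1.1.l) g (Real.log cw)
        ((GXq d q + ε) * L) ∧
      (∀ b l : ℝ, 0 ≤ b → 0 ≤ l → l ≤ (i : ℝ) - 2 * g + Real.log cw →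
        e0 * a.1.1.l + ShXl (lmX ℓ Kf Tf p * L) a.1 qs g b l + 2 * g -
          max 0 (b - e0 * a.1.1.l) - LN (clN a.1 qs) / 3 ≤ (GXq d q + ε) * L) := by
    intro i hi g hg
    have key := tl_abs (um' := (a.1.2.1 2).z) (lm := lmX ℓ Kf Tf p * L) (k5 := k5X a.1)
      (z := a.1.1.z) (cl := Real.log cw) (E := e0 * a.1.1.l) (G := GXq d q + ε)
      (F := lmX ℓ Kf Tf p) (g := g)
      (h := hfG d (fun q => mV (vN q)) (fun q => mV (vR q)) (fun q => lmX ℓ Kf Tf (bq q)) s0X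
          lam X a qs q i g) hL0 hD
      (hCh i hi) hF hg (by
        have : 0 ≤ 3 * t₀ * L := by positivity
        linarith) (by
        unfold k5X
        rw [add_mul, max_mul_of_nonneg _ _ hL0.le]
        have e1 : κ * L ≤ max (κ * L) (5 / 4 * (cu (prX p) 2 + cu (prX p) 3 + cu (prX p) 4) * L) :=
          le_max_left _ _
        have e2 : 5 / 4 * (cu (prX p) 2 + cu (prX p) 3 + cu (prX p) 4) * L ≤
            max (κ * L) (5 / 4 * (cu (prX p) 2 + cu (prX p) 3 + cu (prX p) 4) * L) :=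
          le_max_right _ _
        have e3 : cN (prX p) = cu (prX p) 2 + cu (prX p) 3 + cu (prX p) 4 := rfl
        rw [e3] at A1 A2
        refine max_le (by linarith) (by linarith)) hz0 (by linarith) (by linarith) (by
        have h1 : e0 * a.1.1.l ≤ 1 / 64 * a.1.1.l :=
          mul_le_mul_of_nonneg_right he0' (by linarith)
        linarith) (by
        have h1 := GX_lip (N := cN (prX p)) (k := κ) (q := kB a / L) (q' := q.1 (.inr ()))
          (p := LN (clN a.1 qs) / L) (p' := pQ q) (uN := mV (vN q)) (uR := mV (vR q))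
          (x := cx' (prX p)) (D := d * κ) dq dp
        have e : GXq d q = P1L7904.GX (cN (prX p)) κ (q.1 (.inr ())) (pQ q) (mV (vN q)) (mV (vR q))
          (cx' (prX p)) (d * κ) := rfl
        rw [e]
        have e3 : cu (prX p) 2 + cu (prX p) 3 + cu (prX p) 4 = cN (prX p) := rfl
        rw [e3]
        linarith) rfl
    exact ⟨key.1, key.2.1, key.2.2.1⟩
  have hN1 : cN (prX p) ≤ 1 := hPp.N1
  have hx1 : cx' (prX p) ≤ 1 / 3 := hPp.x1
  have hNx : (cN (prX p) + cx' (prX p)) * L ≤ 4 / 3 * L :=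
    mul_le_mul_of_nonneg_right (by linarith) hL0.le
  have hcw0 : 0 < cw := by linarith
  refine ⟨YcX Rh a.1 qs, ShXl (lmX ℓ Kf Tf p * L) a.1 qs, ?_⟩
  exact
    { Y1 := D₂.Y1
      YX := D₂.YX
      l0 := by linarith
      l2 := by linarith
      n0 := D₂.np
      n2 := by linarith
      k2 := by
        have h1 : q.1 (.inr ()) * L ≤ 1 * L := mul_le_mul_of_nonneg_right (by linarith) hL0.le
        linarith
      yX := (le_mul_of_one_le_left (by positivity) hcw).trans D₂.yX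
      adm := D₁.adm
      jb := D₂.jb
      lip := fun i x y => hfG_lip hX1 lam a qs q i x y
      sz := fun i hi g hg => (hkey i hi g hg).1
      ln := fun i hi g hg _ => (hkey i hi g hg).2.1
      le := fun i hi g hg _ => (hkey i hi g hg).2.2 }

end Crest.Agent.R017.TFx770
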