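import Crest.Agent.R017.GkAll_381
import Crest.Agent.R017.Cba59_744
import Crest.Agent.R017.TFx_770
import Crest.Agent.R017.GkF_521
import Crest.Agent.R017.Fin17_986

/-!
# Row 17, T.4 (helper986): the kernel bound of the differences at the top data

* **`gkX_E`** : `GkX d h`
-/

set_option autoImplicit false

noncomputable section

open Complex Filter Topology

namespace Crest.Agent.R017.GkXE986

open Crest.Agent.R012 Crest.Agent.R012.Eis
open Crest.Agent.R017.FE47 Crest.Agent.R017.End699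
open Crest.Agent.R017.B770 Crest.Agent.R017.BxH986
open Crest.Agent.R017.Prov71 Crest.Agent.R017.ER911
open Crest.Agent.R017.E5B71 Crest.Agent.R017.ExP960 Crest.Agent.R017.ExBox960
open Crest.Agent.R017.E5L770
open Crest.Agent.R017.SC777
open Crest.Agent.R017.Fin4 Crest.Agent.R017.Fin5 Crest.Agent.R017.Fin6
open Crest.Agent.R017.P1l54 Crest.Agent.R017.P1t54
open Crest.Agent.R017.P1X960
open Crest.Agent.R017.P10X764
open Crest.Agent.R017.E5LX770
open Crest.Agent.R017.Red848 (red)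
open Crest.Agent.R017.PX764 (Dk)
open Crest.Agent.R017.XS0298 (S0x S0K)
open Crest.Agent.R017.Sg986 (AA AA_lt AA_eq AA_ge)
open Crest.Agent.R017.NrX986 (NearAllX)
open Crest.Agent.R017.ETd548 (RoomX)
open Crest.Agent.R017.ETk548 (CsGUc GkGUc DomKc)
open Crest.Agent.R017.UbOr381 (DomHi)

/-- **the kernel bound of the differences, class E** -/
theorem gkX_E {d : ℝ} (hd : 0 < d) (hd1 : d ≤ 1 / 42) {h : ℝ → ℝ} {c₀ : ℝ} (hpu : PU h c₀)
    (hPF : PF Set.univ (7 / 8 + d)) (P : BunE d h) (G : RecE d h)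
    (near : NearAllX d (ex Dq (fun lam => S0x (red (πE lam)) h))) : Fin17.GkX d h := by
  obtain ⟨Rh, hR0, hRh⟩ := Sg986.exists_Rh hpu
  have hA := AA_ge hd1
  have hA0 := (AA_lt hd).le
  have hA1 := AA_eq d
  have hP : ∀ lam, (πE lam).OK := fun lam => lam.2.1
  have hE : ∀ lam, Red848.Exc (πE lam) := fun lam => XT6241.exc_piE lam
  have hAll := TK708.allT_of P.rules G.toExpS0 hd.le (by linarith : d ≤ 1 / 8)
  have hFE := Cba59744.fe2G_59 P.rules G hd.le (by linarith) near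
  have H := Cba59744.frH_59 hpu hP hE hd.le hd1 (by linarith) hA0 hA1 hAll hFE hR0 hRh
  have hDh := fun p (hp : p ∈ ParS (AA d) d) =>
    E3Nx744.dh_sq5 (A := AA d) hd.le (by linarith) hA0 hA1 hp
  have hlm := fun (p : IX5 → ℝ) (hp : prX p ∈ ParS (AA d) d) =>
    Cba59744.lm_59 hd.le (by linarith : d ≤ 1 / 8) hA1 hp
  have hLo := Cba59744.low_X hpu hP hE hd.le hd1 (by linarith) hA0 hA1 hAll hFE hR0 hRh
  have hT := TFx770.tfr_X (c := d / 4) (d := d) hpu H.hP H.hex hR0 hRh (by norm_num) le_rfl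
    (by linarith) (by linarith) (by linarith) H.hPar hDh H.hDN H.hDR H.hR5 H.hKN H.hKR H.hTN
    H.hTR H.hcb (fun p hp _ => hlm p hp) (ok := okX fun lam => red (πE lam)) (fun _ _ _ h => h)
  have hln := GkF521.rlnF_X (c := d / 4) (d := d) hpu H.hP H.hex hR0 hRh
    (by norm_num : (0 : ℝ) ≤ 1 / 64) le_rfl
    (by linarith) (by linarith) rfl H.hPar H.hDN H.hDR H.hR5 H.hKN H.hKR H.hTN H.hTR H.hcb hDh
    (fun p _ => by linarith) (Dm := DomHi (3 / 5) (7 / 8) (d / 4) (17 / 100) (ParS (AA d) d) DifL)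
    (fun _ h => h)
    (F := fun q => FrX579.lmX (fun b => 5 / 9 * d * b 0) TM708.K5 LfX986.T9 (ETy71.bq q))
    (fun q hq => hlm _ hq.1.1.1.par)
  have hR := GkE521.rfr_X (k₁ := 7 / 8) hpu H.hP
    (fun lam k hk => Red848.NPm_red_iff (hP lam).ψ.q0 hk) P.rules hPF hd.le (by linarith)
    (by norm_num) (by norm_num) le_rfl (by norm_num) H.hPar hDh (fun q hq => hq.1) hln
  exact GkA381.gkAll_X (π := fun lam => red (πE lam)) (by norm_num) (by norm_num) (by norm_num)
    (fun _ _ _ h => h.1) (fun q hq => (GkR381.room_lo hq.2.2).ge)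
    (fun q _ hk => (GkR381.room_hi hk).ge) hLo hT hR

end Crest.Agent.R017.GkXE986
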