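import Crest.Agent.R017.ET4ax_290
import Crest.Agent.R017.RnS_579

/-!
# Row 17, R8 (E3t), class E (helper290): `ET4ax290.ET4ayQ` at `K / μ³`, re-expressed at the main data `K`, `H`

* `GkXQ` : any range `Q` of `f`;  `GkX` : all `f`
-/

set_option autoImplicit false
set_option linter.unusedVariables false

noncomputable section

open Finset
open scoped Classical ComplexConjugate ContDiff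

namespace Crest.Agent.R017.GkX290

open Crest.Agent.R012 Crest.Agent.R012.Eis Crest.Agent.R012.Div277
open Crest.Agent.R012.MC (Wgt)
open Crest.Agent.R012.LS2 (S mem_S bl)
open Crest.Agent.R012.Mob705 (pb mem_pb)
open Crest.Agent.R012.Weight600 (pw)
open Crest.Agent.R017.C70 (JC OKJ JW okJ_JW CbF)
open Crest.Agent.R017.CM106 (CS FS)
open Crest.Agent.R017.HB645 (hh)
open Crest.Agent.R017.E1551 (nmpos)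
open Crest.Agent.R017.E3M829 (TC Tal Cut)
open Crest.Agent.R017.E3F548
open Crest.Agent.R017.E3Z548
open Crest.Agent.R017.E3Kc548 Crest.Agent.R017.E3Ke548
open Crest.Agent.R017.Mode405 (Slp)
open Crest.Agent.R017.E2440 (TE StE StT)
open Crest.Agent.R017.PX764 (n6)
open Crest.Agent.R017.R3571 (RMm)
open Crest.Agent.R017.RnS579
open Crest.Agent.R017.E3Hi290 (RN2XF)
open Crest.Agent.R017.PoHx72 (Cls)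
open Crest.Agent.R017.ROX744 (PrU)

/-- **`ET4ax290.ET4ayQ` at `K / μ³`, main data `K`, `H`** -/
theorem GkXQ {ρ : ℝ} (hρ : 0 < ρ) (hρ1 : ρ ≤ 1) {R0 : ℝ} (hR0 : 0 ≤ R0) (a A₁ : ℕ)
    (hA₁ : 1 < A₁) {ε : ℝ} (hε : 0 < ε) (hε1 : ε ≤ 1) :
    ∃ (A : ℕ) (c C : ℝ), 1 ≤ c ∧ 1 ≤ C ∧
    ∀ (Om : ℝ → ℂ) (Mb : ℝ), 0 ≤ Mb → ContDiff ℝ ∞ Om →
      (∀ n ≤ A + 2, ∀ x, ‖iteratedDeriv n Om x‖ ≤ Mb) →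
    ∀ (τ : ℝ) (κ : ℂ), ‖κ‖ ≤ 1 → ∀ (Z : ℝ), 1 ≤ Z → ∀ (D Y₀ Y₁ : ℝ)
      (om : Eis × Eis → ℂ) (α : Eis → ℂ) (Q : Eis → Prop) (E0 R K μ X : ℝ) (m : Eis)
      (KK : Finset Eis) (H : ℕ → Eis → Eis → ℝ) (u : Eis) (W0 : ℕ → Bool → Eis → Eis → ℝ → ℝ),
      u ≠ 0 → (∀ n, α n ≠ 0 → IsCoprime u n) →
      FS α → (∀ n, α n ≠ 0 → Squarefree n) →
      (∀ n, α n ≠ 0 → |Real.log (nm n) - Real.log X| ≤ R0) →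
      IsPrim m → (nm m : ℝ) ≤ Z → 0 ≤ D → 0 ≤ Y₁ →
      (∀ x ∈ JW D Y₀ Y₁, om x = κ * (Om (Real.log (nm (x.2 * x.1 ^ 2))) * pw τ (nm x.2))) →
      (∀ i ∈ LI Y₀ Y₁, ∀ n : ℕ, 0 < n → hh (Real.log n - i) ≠ 0 → Om (Real.log n) ≠ 0 →
        Y₀ < n ∧ (n : ℝ) ≤ Y₁) →
      0 < K → 0 < μ → K / μ ^ 3 ≤ Z →
      (∀ k ∈ KK, IsPrim k ∧ CbF k ∧ ρ * (K / μ ^ 3) ≤ nm k ∧ (nm k : ℝ) ≤ K / μ ^ 3) →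
      0 ≤ R → R ≤ Z → 0 ≤ E0 → E0 ≤ Z → Y₁ ≤ Z →
      (∀ x ∈ JW D Y₀ Y₁, (nm x.1 : ℝ) ≤ Z) → (∀ x ∈ JW D Y₀ Y₁, (nm x.2 : ℝ) ≤ R) →
      0 < X → X ≤ Z ^ 5 → (∀ i d f, 0 < H i d f) → (∀ i ∈ LI Y₀ Y₁, c * Real.exp i ≤ Z ^ 5) →
      (∀ i ∈ LI Y₀ Y₁, ∀ d ∈ S (Z ^ 5), ∀ f ∈ (S E0).filter Q,
        c * (H i d f * Real.exp i ^ 2) ≤ K * X) →
      (∀ i jj d f, Slp a (W0 i jj d f)) →
      (∀ i ∈ LI Y₀ Y₁, ∀ jj, ∀ d ∈ (JW D Y₀ Y₁).image Prod.fst, ∀ f ∈ (S E0).filter Q, ∀ γ π,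
        IsPrim γ → IsPrim π → (nm π : ℝ) ≤ c * Z ^ 300 → ∀ P : ℝ, 0 < P →
        (nm γ : ℝ) * n6 γ ^ 2 * ∑ r ∈ (bl P).filter (Cls (PrU u) jj),
          RMm A₁ (fun n => α (d * n)) f γ π r ≤ W0 i jj d f P) →
      ∑ k ∈ KK, ‖StT E0 (JW D Y₀ Y₁) om (fun x e => if Q e then TE α x e else 0) (m ^ 3 * k)‖ ^ 2 ≤
      C * Z ^ ε * ((K / μ ^ 3) ^ (2 / 3 : ℝ) * ∑ f ∈ (S E0).filter Q,
        (((nm (EuclideanDomain.gcd f m) : ℝ) / nm f +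
        (R / (K / μ ^ 3) ^ 2) ^ (1 / 6 : ℝ) * (nm f : ℝ) ^ (1 / 2 : ℝ) + R / (K / μ ^ 3)) *
          XE (JW D Y₀ Y₁) om (Tal α) f) +
      Mb ^ 2 * (1 + |τ|) ^ A * (μ⁻¹ * ∑ f ∈ (S E0).filter Q, ∑ i ∈ LI Y₀ Y₁,
        ∑ d ∈ (JW D Y₀ Y₁).image Prod.fst,
        (nm f : ℝ)⁻¹ * LVn (fun d _ n => α (d * n)) {d} {f} c (Z ^ 5) K (H i d f) (Real.exp i)
          (Real.exp i) μ 1 1 (RN2XF c K (Real.exp i) X (H i) (W0 i) d f))) := by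
  obtain ⟨A, c, C, hc, hC, h⟩ := ET4ax290.ET4ayQ hρ hρ1 hR0 a A₁ hA₁ hε hε1
  refine ⟨A, c, C, hc, hC, ?_⟩
  intro Om Mb hMb hOm hOb τ κ hκ Z hZ D Y₀ Y₁ om α Q E0 R K μ X m KK H u W0 hu huc hα hsq hwin hm hmZ hD
    hY hom hwn hK hμ0 hKZ hKK hR0' hRZ hE0 hE0Z hYZ hJ1 hJ2 hX hXZ hH hcV hKX hS hRH
  have hμ3 : 0 < μ ^ 3 := by positivity
  have hK' : 0 < K / μ ^ 3 := by positivity
  have k := h Om Mb hMb hOm hOb τ κ hκ Z hZ D Y₀ Y₁ om α Q E0 R (K / μ ^ 3) X m KK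
    (fun i d f => H i d f / μ ^ 3) u W0 hu huc hα hsq hwin hm hmZ hD hY hom hwn hK' hKZ hKK hR0' hRZ hE0
    hE0Z hYZ hJ1 hJ2 hX hXZ (fun i d f => div_pos (hH i d f) hμ3) hcV
    (fun i hi d hd f hf => KX_div hμ0 (hKX i hi d hd f hf)) hS hRH
  refine k.trans (le_of_eq ?_)
  congr 2
  congr 1
  rw [mul_sum]
  refine sum_congr rfl fun f _ => ?_
  rw [mul_sum]
  refine sum_congr rfl fun i _ => ?_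
  rw [mul_sum]
  refine sum_congr rfl fun d _ => ?_
  have he3 := Real.exp_pos (i : ℝ)
  rw [RN2XF_div hμ0, LVn_div hK (hH i d f) he3 he3 hμ0, mul_one]
  ring

/-- **all `f`** -/
theorem GkX {ρ : ℝ} (hρ : 0 < ρ) (hρ1 : ρ ≤ 1) {R0 : ℝ} (hR0 : 0 ≤ R0) (a A₁ : ℕ)
    (hA₁ : 1 < A₁) {ε : ℝ} (hε : 0 < ε) (hε1 : ε ≤ 1) :
    ∃ (A : ℕ) (c C : ℝ), 1 ≤ c ∧ 1 ≤ C ∧
    ∀ (Om : ℝ → ℂ) (Mb : ℝ), 0 ≤ Mb → ContDiff ℝ ∞ Om →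
      (∀ n ≤ A + 2, ∀ x, ‖iteratedDeriv n Om x‖ ≤ Mb) →
    ∀ (τ : ℝ) (κ : ℂ), ‖κ‖ ≤ 1 → ∀ (Z : ℝ), 1 ≤ Z → ∀ (D Y₀ Y₁ : ℝ)
      (om : Eis × Eis → ℂ) (α : Eis → ℂ) (E0 R K μ X : ℝ) (m : Eis)
      (KK : Finset Eis) (H : ℕ → Eis → Eis → ℝ) (u : Eis) (W0 : ℕ → Bool → Eis → Eis → ℝ → ℝ),
      u ≠ 0 → (∀ n, α n ≠ 0 → IsCoprime u n) →
      FS α → (∀ n, α n ≠ 0 → Squarefree n) →
      (∀ n, α n ≠ 0 → |Real.log (nm n) - Real.log X| ≤ R0) →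
      IsPrim m → (nm m : ℝ) ≤ Z → 0 ≤ D → 0 ≤ Y₁ →
      (∀ x ∈ JW D Y₀ Y₁, om x = κ * (Om (Real.log (nm (x.2 * x.1 ^ 2))) * pw τ (nm x.2))) →
      (∀ i ∈ LI Y₀ Y₁, ∀ n : ℕ, 0 < n → hh (Real.log n - i) ≠ 0 → Om (Real.log n) ≠ 0 →
        Y₀ < n ∧ (n : ℝ) ≤ Y₁) →
      0 < K → 0 < μ → K / μ ^ 3 ≤ Z →
      (∀ k ∈ KK, IsPrim k ∧ CbF k ∧ ρ * (K / μ ^ 3) ≤ nm k ∧ (nm k : ℝ) ≤ K / μ ^ 3) →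
      0 ≤ R → R ≤ Z → 0 ≤ E0 → E0 ≤ Z → Y₁ ≤ Z →
      (∀ x ∈ JW D Y₀ Y₁, (nm x.1 : ℝ) ≤ Z) → (∀ x ∈ JW D Y₀ Y₁, (nm x.2 : ℝ) ≤ R) →
      0 < X → X ≤ Z ^ 5 → (∀ i d f, 0 < H i d f) → (∀ i ∈ LI Y₀ Y₁, c * Real.exp i ≤ Z ^ 5) →
      (∀ i ∈ LI Y₀ Y₁, ∀ d ∈ S (Z ^ 5), ∀ f ∈ S E0,
        c * (H i d f * Real.exp i ^ 2) ≤ K * X) →
      (∀ i jj d f, Slp a (W0 i jj d f)) →
      (∀ i ∈ LI Y₀ Y₁, ∀ jj, ∀ d ∈ (JW D Y₀ Y₁).image Prod.fst, ∀ f ∈ S E0, ∀ γ π,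
        IsPrim γ → IsPrim π → (nm π : ℝ) ≤ c * Z ^ 300 → ∀ P : ℝ, 0 < P →
        (nm γ : ℝ) * n6 γ ^ 2 * ∑ r ∈ (bl P).filter (Cls (PrU u) jj),
          RMm A₁ (fun n => α (d * n)) f γ π r ≤ W0 i jj d f P) →
      ∑ k ∈ KK, ‖StE E0 (JW D Y₀ Y₁) om α (m ^ 3 * k)‖ ^ 2 ≤
      C * Z ^ ε * ((K / μ ^ 3) ^ (2 / 3 : ℝ) * ∑ f ∈ S E0,
        (((nm (EuclideanDomain.gcd f m) : ℝ) / nm f +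
        (R / (K / μ ^ 3) ^ 2) ^ (1 / 6 : ℝ) * (nm f : ℝ) ^ (1 / 2 : ℝ) + R / (K / μ ^ 3)) *
          XE (JW D Y₀ Y₁) om (Tal α) f) +
      Mb ^ 2 * (1 + |τ|) ^ A * (μ⁻¹ * ∑ f ∈ S E0, ∑ i ∈ LI Y₀ Y₁,
        ∑ d ∈ (JW D Y₀ Y₁).image Prod.fst,
        (nm f : ℝ)⁻¹ * LVn (fun d _ n => α (d * n)) {d} {f} c (Z ^ 5) K (H i d f) (Real.exp i)
          (Real.exp i) μ 1 1 (RN2XF c K (Real.exp i) X (H i) (W0 i) d f))) := by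
  obtain ⟨A, c, C, hc, hC, h⟩ := GkXQ hρ hρ1 hR0 a A₁ hA₁ hε hε1
  refine ⟨A, c, C, hc, hC, ?_⟩
  intro Om Mb hMb hOm hOb τ κ hκ Z hZ D Y₀ Y₁ om α E0 R K μ X m KK H u W0 hu huc hα hsq hwin hm hmZ hD
    hY hom hwn hK hμ0 hKZ hKK hR0' hRZ hE0 hE0Z hYZ hJ1 hJ2 hX hXZ hH hcV hKX hS hRH
  have k := h Om Mb hMb hOm hOb τ κ hκ Z hZ D Y₀ Y₁ om α (fun _ => True) E0 R K μ X m KK H u W0 hu huc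
    hα hsq hwin hm hmZ hD hY hom hwn hK hμ0 hKZ hKK hR0' hRZ hE0 hE0Z hYZ hJ1 hJ2 hX hXZ hH hcV
    (fun i hi d hd f hf => hKX i hi d hd f (by rwa [ET4a548.filt_true] at hf)) hS
    (fun i hi jj d hd f hf => hRH i hi jj d hd f (by rwa [ET4a548.filt_true] at hf))
  simp only [ET4a548.filt_true, if_true] at k
  exact k

end Crest.Agent.R017.GkX290
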