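import Crest.Agent.R017.TFx_770
import Crest.Agent.R017.GkF_521
import Crest.Agent.R017.GkLx_744
import Crest.Agent.R017.GkRoom_381
import Crest.Agent.R017.ETn_548
import Crest.Agent.R017.CopU_631

/-!
# Row 17, exceptional class (helper770): the Gram sums of the differences, all families

* **`gkX_all`** : `GkGUc (7/8)` at `alX` (low families: helper744; high: helper548's `gkG_of`)
-/

set_option autoImplicit false
set_option linter.unusedSectionVars false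
set_option linter.unusedVariables false

noncomputable section

open Finset
open scoped ComplexConjugate Classical

namespace Crest.Agent.R017.GkX770

open Crest.Agent.R012 Crest.Agent.R012.Eis
open Crest.Agent.R012.T411 (NCube)
open Crest.Agent.R017.FE47 (PU cx SM)
open Crest.Agent.R017.CM106
open Crest.Agent.R017.XG702 (Pcs Good_mono)
open Crest.Agent.R017.XT71 (Sys Win mx)
open Crest.Agent.R017.Prov71
open Crest.Agent.R017.B770
open Crest.Agent.R017.ER911 Crest.Agent.R017.ExpC702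
open Crest.Agent.R017.End699 (PF)
open Crest.Agent.R017.XEx298 (Rt)
open Crest.Agent.R017.E5B71 Crest.Agent.R017.E5P571 Crest.Agent.R017.E5L770
open Crest.Agent.R017.ExBox960 Crest.Agent.R017.ExP960
open Crest.Agent.R017.Sf770
open Crest.Agent.R017.I1146 (LN)
open Crest.Agent.R017.Sup271 (NPm)
open Crest.Agent.R017.PX764 (Dk)
open Crest.Agent.R017.TM708 (R5)
open Crest.Agent.R017.P1e54 Crest.Agent.R017.P1f54 Crest.Agent.R017.P1k54
open Crest.Agent.R017.P1l54 (ParOK)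
open Crest.Agent.R017.P1t54 (LS0)
open Crest.Agent.R017.P1X960
open Crest.Agent.R017.P10X764
open Crest.Agent.R017.E3Nx744 (CBA)
open Crest.Agent.R017.ETd548 (BkX S8Xk GkG stG RoomX)
open Crest.Agent.R017.ETk548 (DomKc GkGUc)
open Crest.Agent.R017.UbOr381 (DomHi gk_or)
open Crest.Agent.R017.FrX579 (lmX svX ShXl FrXD frX s0R)
open Crest.Agent.R017.ETm548
open Crest.Agent.R017.ETy71 (mV vN vR pQ bq Dz CEX)
open Crest.Agent.R017.LnY47
open Crest.Agent.R017.RnP571 (Dh)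

variable {Λ : Type*} {π : Λ → DPar} {h : ℝ → ℝ}

/-- **the Gram sums of the differences**, families up to `7/8 κ` -/
theorem gkX_all {c₀ : ℝ} (hpu : PU h c₀) (hP : ∀ lam, (π lam).OK)
    (hNC : ∀ lam, ∀ k : Eis, k ≠ 0 → (NPm (π lam).n (π lam).ψ (π lam).l₂ k ↔ NCube k))
    (hex : ∀ lam, ¬ NPm (π lam).n (π lam).ψ (π lam).l₂ 1)
    {Rh : ℝ} (hRh0 : 0 ≤ Rh) (hRh : ∀ u, cx h u ≠ 0 → |u| ≤ Rh) {e0 : ℝ}
    (he0 : 0 ≤ e0) (he0' : e0 ≤ 1 / 64) {c d : ℝ} (hc0 : 0 ≤ c) (hc1 : c ≤ 1)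
    (hcd : 4 * c ≤ d) (hd : 0 ≤ d) (hd8 : d ≤ 1 / 8)
    {s : ER911.EF} (R : ExpRules (7 / 8 + d) (ex Dq (fun lam => Rt (π lam) h)) s)
    (hPF : PF Set.univ (7 / 8 + d))
    {Par : Set (Fin 3 ⊕ Fin 5 → ℝ)} (hPar : ∀ p ∈ Par, ParOK p)
    (hDh : ∀ p ∈ Par, Dh (cκ p) (cu p 2) (cu p 3) (cu p 4) (cx' p) (d * cκ p))
    {D5 : Set (Fin 5 → ℝ)} {ℓ Kf Tf : (Fin 5 → ℝ) → ℝ}
    (hDN : ∀ p : IX5 → ℝ, prX p ∈ Par → ZR (17 / 100) p → bN p ∈ D5)
    (hDR : ∀ p : IX5 → ℝ, prX p ∈ Par → ZR (17 / 100) p → bR p ∈ D5)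
    (hR5 : ∀ p : IX5 → ℝ, prX p ∈ Par → ZR (17 / 100) p → R5 (bN p))
    (hKN : ∀ p : IX5 → ℝ, prX p ∈ Par → ZR (17 / 100) p →
      Kf (bN p) = max (cκ (prX p)) (5 / 4 * cN (prX p)))
    (hKR : ∀ p : IX5 → ℝ, prX p ∈ Par → ZR (17 / 100) p →
      Kf (bR p) = max (cκ (prX p)) (5 / 4 * cN (prX p)))
    (hTN : ∀ (p : IX5 → ℝ) (v₀ v₁ v₂ b x' : ℝ), ChC c (17 / 100) Par p v₀ v₁ v₂ b x' →
      DifL p v₀ v₁ v₂ → tpW c p b ≤ Tf (bN p))
    (hTR : ∀ (p : IX5 → ℝ) (v₀ v₁ v₂ b x' : ℝ), ChC c (17 / 100) Par p v₀ v₁ v₂ b x' →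
      DifL p v₀ v₁ v₂ → tpW c p b ≤ Tf (bR p))
    (hcb : CBA π h Dk Kf Tf D5 ℓ)
    (hlm : ∀ p : IX5 → ℝ, prX p ∈ Par → ZR (17 / 100) p →
      lmX ℓ Kf Tf p ≤ 5 / 9 * (d * cκ (prX p))) :
    GkGUc (7 / 8) (alX π h) (fun lam a qs => okCX (π lam.1) lam.2 a qs ∧ okD a) e0 c (17 / 100)
      Par DifL (fun q => RoomX (LS0 d) q - CEX d q) := by
  have hcD : ∀ p ∈ Par, 4 * (c * cκ p) ≤ d * cκ p := fun p hp => by
    have := mul_le_mul_of_nonneg_right hcd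
      (show (0 : ℝ) ≤ cκ p by linarith [(hPar p hp).κ0])
    linarith
  have hlo := GkL744.lowX hpu hP hex hRh0 hRh he0 (he0'.trans (by norm_num)) hc0 hc1 hPar hDN hDR
    hR5 hKN hKR hTN hTR hcb hd (hd8.trans (by norm_num)) hDh hcD le_rfl (by norm_num) hlm
  have hT := TFx770.tfr_X hpu hP hex hRh0 hRh he0 he0' hc0 hc1 hcd hPar hDh hDN hDR hR5 hKN hKR
    hTN hTR hcb hlm (ok := fun lam a qs => okCX (π lam.1) lam.2 a qs ∧ okD a)
    (fun _ _ _ h => h)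
  have hL := GkF521.rlnF_X hpu hP hex hRh0 hRh he0 he0' hc0 hc1 rfl hPar hDN hDR hR5 hKN hKR hTN
    hTR hcb hDh hcD (Dm := DomHi (3 / 5) (7 / 8) c (17 / 100) Par DifL) (fun _ hq => hq)
    (F := fun q => lmX ℓ Kf Tf (bq q)) (fun q hq => hlm _ hq.1.1.1.par hq.1.1.1.zr)
  have hR := GkE521.rfr_X hpu hP hNC R hPF hd hd8 he0 (he0'.trans (by norm_num)) le_rfl
    (by norm_num) hPar hDh (k₁ := 7 / 8) (fun _ hq => hq.1) hL
  have hhi := ETn548.gkG_of he0 (he0'.trans (by norm_num)) (by norm_num)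
    (uu := fun lam : Λ × Eis => lam.2 * lam.2)
    (fun lam a qs hk => mul_ne_zero hk.1.2.1.1 hk.1.2.1.1)
    (fun lam a qs _ n hn => CopU631.cop_xD hn) hT hR
  refine gk_or hlo hhi (fun q hq => ?_) (fun q hq hk => ?_)
  · exact (GkR381.room_lo (d := d) (q := q) hq.2.2).ge
  · exact (GkR381.room_hi (d := d) (q := q) hk).ge

end Crest.Agent.R017.GkX770
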