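import Crest.Agent.R017.P1Lb_904

/-!
# Row 17, exceptional class (helper381): the class Gram sums of `et`, real lines

Homogeneous (`k` = family of the parent, `D = d k`), tolerance `t`, as helper904's `P1L`.
`s` = shortest length of the difference, `F` = loss of the `T`-claims.
* `GX`, `GXl` : the room for `q ≥ 3/5 k`, for `q ≤ 3/5 k`
* `hB` : the bias exponent, `hX = max hL hB`
* `lineA`, `lineB`, ... : the lines
-/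

set_option autoImplicit false
set_option linter.unusedVariables false

noncomputable section

namespace Crest.Agent.R017.GkX381

open Crest.Agent.R017.RnP571 (Dh)
open Crest.Agent.R017.P1L904 (RSm hL lw0 lw1 RSm_le0 RSm_le1 hL_ge hL_le coreT coreT')

/-- the room, `q ≥ 3/5 k` -/
def GX (N k q p um x D : ℝ) : ℝ :=
  2 * (k + p + max 0 (5 / 4 * N - k) - (k - q) / 3) + 3 / 5 * D - RSm k q p um x

/-- the bias exponent of `H` -/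
def hB (q v p δ s G : ℝ) : ℝ := 2 * q + v + 4 * p - 3 * δ - 3 * max 0 (s - δ) - 3 * G

/-- the exponent of `H` -/
def hX (q v p δ x K5 s G G' : ℝ) : ℝ := max (hL q v p δ x K5 G') (hB q v p δ s G)

/-- the configurations of a child of a difference -/
structure Cf (k y₃ y₄ u x D t p um s : ℝ) : Prop where
  dh : Dh k y₃ y₄ u x D
  t0 : 0 ≤ t
  t1 : t ≤ k / 20000
  p0 : k / 2 - 2 * x - t ≤ p
  p1 : p ≤ y₃ + y₄ + u + x + t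
  p2 : p ≤ y₃ + y₄ + um + x + t
  um0 : 0 ≤ um
  um1 : um ≤ u + t
  um2 : 3 * um ≤ p + t
  s2 : 17 / 100 * k - (y₃ + y₄ + u + x - p) - t ≤ s

lemma GX_cases (N k q p um x D : ℝ) : ∃ K5, (K5 = k ∨ K5 = 5 / 4 * N) ∧ k ≤ K5 ∧ 5 / 4 * N ≤ K5 ∧
    GX N k q p um x D = 2 * (k + p + (K5 - k) - (k - q) / 3) + 3 / 5 * D - RSm k q p um x := by
  unfold GX
  rcases le_total k (5 / 4 * N) with h | h
  · refine ⟨5 / 4 * N, Or.inr rfl, h, le_rfl, ?_⟩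
    rw [max_eq_right (by linarith)]
  · refine ⟨k, Or.inl rfl, le_rfl, h, ?_⟩
    rw [max_eq_left (by linarith)]
    ring

set_option maxHeartbeats 8000000 in
/-- `(B)` for the bias -/
lemma coreBb {k y₃ y₄ u x D t q p um s v R K5 G : ℝ} (H : Cf k y₃ y₄ u x D t p um s)
    (q0 : 3 / 5 * k - t ≤ q) (q1 : q ≤ 17 / 20 * k + t)
    (v1 : v ≤ 2 * (y₃ + y₄ + u) - k + 11 / 5 * x + t)
    (v2 : v ≤ 3 / 4 * (y₃ + y₄ + u) + 11 / 5 * x + t) (hs : (v + p - k) / 3 - t ≤ s)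
    (hK : K5 = k ∨ K5 = 5 / 4 * (y₃ + y₄ + u)) (hK' : k ≤ K5) (hK'' : 5 / 4 * (y₃ + y₄ + u) ≤ K5)
    (hG : 2 * (k + p + (K5 - k) - (k - q) / 3) + 3 / 5 * D - R ≤ G)
    (hR : R ≤ q + p ∨ R ≤ 2 / 3 * q + 4 / 3 * p + um / 2 ∨
      R ≤ 2 / 3 * q + 4 / 3 * p + 4 / 15 * (um + x)) :
    4 / 3 * (v + p) - s ≤ G + 10 * t := by
  obtain ⟨⟨k0, u4, y43, u0, y3, N1, near, x0, adm, d0, d1⟩, t0, t1, p0, p1, p2, um0, um1, um2, s2⟩ := H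
  rcases hR with hR | hR | hR <;> rcases hK with rfl | rfl <;>
  rcases adm with ⟨a0, rfl | a1⟩ | ⟨a1, a2, a3⟩ <;> linarith

set_option maxHeartbeats 8000000 in
/-- `(C)` for the bias exponent, and its sign -/
lemma coreCb {k y₃ y₄ u x D t q p um s v R K5 G : ℝ} (H : Cf k y₃ y₄ u x D t p um s)
    (q0 : 3 / 5 * k - t ≤ q) (q1 : q ≤ 17 / 20 * k + t) (v0 : 0 ≤ v)
    (v1 : v ≤ 2 * (y₃ + y₄ + u) - k + 11 / 5 * x + t)
    (v2 : v ≤ 3 / 4 * (y₃ + y₄ + u) + 11 / 5 * x + t) (hs : (v + p - k) / 3 - t ≤ s)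
    (hK : K5 = k ∨ K5 = 5 / 4 * (y₃ + y₄ + u)) (hK' : k ≤ K5) (hK'' : 5 / 4 * (y₃ + y₄ + u) ≤ K5)
    (hG : 2 * (k + p + (K5 - k) - (k - q) / 3) + 3 / 5 * D - R ≤ G)
    (hR : R ≤ q + p ∨ R ≤ 2 / 3 * q + 4 / 3 * p + um / 2 ∨
      R ≤ 2 / 3 * q + 4 / 3 * p + 4 / 15 * (um + x)) :
    2 * (2 * q + v + 4 * p - 3 * s - 3 * G) + 3 * v + k / 100 ≤ 2 * q ∧
      2 * q + v + 4 * p - 3 * s - 3 * G + k / 100 ≤ 0 := by
  obtain ⟨⟨k0, u4, y43, u0, y3, N1, near, x0, adm, d0, d1⟩, t0, t1, p0, p1, p2, um0, um1, um2, s2⟩ := H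
  constructor <;> rcases hR with hR | hR | hR <;> rcases hK with rfl | rfl <;>
  rcases adm with ⟨a0, rfl | a1⟩ | ⟨a1, a2, a3⟩ <;> linarith

/-- the far number, with its entries -/
structure FarM (k q p um x M : ℝ) : Prop where
  a1 : q ≤ M
  a2 : (2 * q + k) / 3 ≤ M
  a3 : (2 * q + (p + um)) / 3 ≤ M
  a4 : (q + 2 * p + k / 3) / 3 ≤ M
  a5 : (q + 2 * p + (p + um) / 3) / 3 ≤ M
  a6 : (q + 3 * p - 5 / 12 * (p + um - x)) / 3 ≤ M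
  ch : M ≤ q ∨ M ≤ (2 * q + k) / 3 ∨ M ≤ (2 * q + (p + um)) / 3 ∨ M ≤ (q + 2 * p + k / 3) / 3 ∨
    M ≤ (q + 2 * p + (p + um) / 3) / 3 ∨ M ≤ (q + 3 * p - 5 / 12 * (p + um - x)) / 3

set_option maxHeartbeats 16000000 in
/-- `(D)` : no dual range where the bias exponent is the larger one -/
lemma coreDb {k y₃ y₄ u x D t q p um s v δ e R M K5 G h : ℝ} (H : Cf k y₃ y₄ u x D t p um s)
    (q0 : 3 / 5 * k - t ≤ q) (q1 : q ≤ 17 / 20 * k + t) (v0 : 0 ≤ v)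
    (v1 : v ≤ 2 * (y₃ + y₄ + u) - k + 11 / 5 * x + t)
    (v2 : v ≤ 3 / 4 * (y₃ + y₄ + u) + 11 / 5 * x + t)
    (v3 : v ≤ 2 * p - k + 21 / 5 * x + k / 50 + t)
    (v4 : v ≤ 3 / 4 * (y₃ + y₄ + u) + 2 * (p - (y₃ + y₄ + u)) + 21 / 5 * x + k / 50 + t)
    (hs : (v + p - k) / 3 - t ≤ s) (δ0 : 0 ≤ δ)
    (hK : K5 = k ∨ K5 = 5 / 4 * (y₃ + y₄ + u)) (hK' : k ≤ K5) (hK'' : 5 / 4 * (y₃ + y₄ + u) ≤ K5)
    (hG : 2 * (k + p + (K5 - k) - (k - q) / 3) + 3 / 5 * D - R ≤ G)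
    (hM : FarM k q p um x M) (hR : R ≤ p + M)
    (hR0 : R ≤ q + p ∨ R ≤ 2 / 3 * q + 4 / 3 * p + um / 2 ∨
      R ≤ 2 / 3 * q + 4 / 3 * p + 4 / 15 * (um + x))
    (he : s - δ ≤ e) (he0 : 0 ≤ e) (hh : h = 2 * q + v + 4 * p - 3 * δ - 3 * e - 3 * G)
    (h1 : 2 * q + 4 * p - δ - 3 * G ≤ h + t)
    (h2 : 2 * q + 2 * v + 3 * p + 2 * x - 4 * δ - 3 * G ≤ h + t ∨
      2 * q + 3 * p + K5 - 3 * G ≤ h + t) : h + 2 * v - q - δ + k / 200 ≤ 0 := by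
  obtain ⟨⟨k0, u4, y43, u0, y3, N1, near, x0, adm, d0, d1⟩, t0, t1, p0, p1, p2, um0, um1, um2, s2⟩ := H
  obtain ⟨a1, a2, a3, a4, a5, a6, ch⟩ := hM
  subst hh
  rcases hR0 with hR0 | hR0 | hR0 <;> rcases ch with ch | ch | ch | ch | ch | ch <;>
  rcases hK with rfl | rfl <;> rcases h2 with h2 | h2 <;>
  rcases adm with ⟨b0, rfl | b1⟩ | ⟨b1, b2, b3⟩ <;> linarith

end Crest.Agent.R017.GkX381
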