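import Crest.Agent.R017.RnXe_571
import Crest.Agent.R017.RnPf_571
import Crest.Agent.R017.E3Br_744

/-!
# Row 17, class E of `P1` (helper571): the real lines and the frame of a difference

* `lnr_X` : the noncubes, helper271's `H`, `δ ≤ κ/6`
* `bias_R` : the cubes
* `rnx_pd`, `rnx_lev` : the numbers of a difference, one level / all levels
-/

set_option autoImplicit false
set_option maxHeartbeats 400000

noncomputable section

open Finset
open scoped ComplexConjugate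

namespace Crest.Agent.R017.RnX571

open Crest.Agent.R012 Crest.Agent.R012.Eis Crest.Agent.R012.MC
open Crest.Agent.R012.LS2 (S mem_S bl mem_bl)
open Crest.Agent.R012.T411 (NCube)
open Crest.Agent.R017.FE47 (PU SM)
open Crest.Agent.R017.CM106
open Crest.Agent.R017.XG702 (Pcs BG)
open Crest.Agent.R017.Prov71
open Crest.Agent.R017.B770
open Crest.Agent.R017.HP842 (Pc pc sqc al alL)
open Crest.Agent.R017.E5B71 (Pt)
open Crest.Agent.R017.RM986 (Plain)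
open Crest.Agent.R017.R3571 (RMm RMm_nonneg)
open Crest.Agent.R017.Mode405 (Slp)
open Crest.Agent.R017.PX764 (n6)
open Crest.Agent.R017.E3D579 (n6_nonneg)
open Crest.Agent.R017.E3Z548 (FH)
open Crest.Agent.R017.E3Sz579 (Ld Md)
open Crest.Agent.R017.E3Sx744 (Mxd)
open Crest.Agent.R017.E3T829 (G2)
open Crest.Agent.R017.E3Hi290 (RN2XF)
open Crest.Agent.R017.TM708 (PD)
open Crest.Agent.R017.I1146 (LN)
open Crest.Agent.R017.Sup271 (NPm)
open Crest.Agent.R017.I1K764 (xT)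
open Crest.Agent.R017.P1Q904 (gQ gQ_cases)
open Crest.Agent.R017.RnP571
open Crest.Agent.R017.PoHx72 (Cls)
open Crest.Agent.R017.ROX744 (PrU)
open Crest.Agent.R017.P1X960 (xD rzD)

set_option maxHeartbeats 8000000 in
/-- **the structured part, second form** (`w = log (H V)`, `S` bounds `l + x'`) -/
lemma coreX {k y₃ y₄ u x D t p v w δ e i n x' S : ℝ} (hD : Dh k y₃ y₄ u x D) (t0 : 0 ≤ t)
    (t1 : t ≤ k / 20000) (p1 : p ≤ y₃ + y₄ + u + x + t)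
    (v1 : v ≤ 2 * (y₃ + y₄ + u) - k + 3 * x + t) (v2 : v ≤ 3 / 4 * (y₃ + y₄ + u) + 3 * x + t)
    (hw : w ≤ v + hJ k p δ x (max 0 (5 / 4 * (y₃ + y₄ + u) - k)) + t)
    (hL : 0 ≤ w + v - k - δ + t) (δ0 : 0 ≤ δ) (δ1 : δ ≤ k / 6 + t) (e0 : 0 ≤ e)
    (e1 : e ≤ k / 64 + t)
    (x0' : 0 ≤ x') (x1' : x' ≤ x + t) (hn : n ≤ p - δ - e + t) (i0 : 0 ≤ i)
    (hi : i ≤ w + p - k + t) (s1 : S - x' ≤ u + t) (s2 : 3 * (S - x') ≤ n - x')
    (s3 : 2 * (S - x') ≤ i) :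
    2 / 3 * k - w / 3 + 5 / 3 * δ + 2 * e + gQ (w + v - k - δ) (w + p - k) + 2 / 3 * (p - δ) +
      (i + 3 / 4 * S + 61 / 100 * D) + (w + p - k - i) / 3 + k / 200 ≤
      k + p + P1Q904.LQ (y₃ + y₄ + u) k D := by
  unfold P1Q904.LQ
  have L0 := le_max_left 0 (5 / 4 * (y₃ + y₄ + u) - k)
  have L1 := le_max_right 0 (5 / 4 * (y₃ + y₄ + u) - k)
  unfold hJ at hw
  have hh := max_choice (k / 64)
    (4 / 3 * (p - δ) - k + x - 3 * max 0 (5 / 4 * (y₃ + y₄ + u) - k))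
  have hg := gQ_cases (w + v - k - δ) (w + p - k)
  generalize max 0 (5 / 4 * (y₃ + y₄ + u) - k) = L at *
  generalize gQ (w + v - k - δ) (w + p - k) = g at *
  obtain ⟨k0, u4, y43, u0, y3, N1, near, x0, adm, d0, d1⟩ := hD
  rcases hg with rfl | rfl | rfl | rfl <;> rcases hh with hh | hh <;> rw [hh] at hw <;>
    rcases adm with ⟨a0, rfl | a1⟩ | ⟨a1, a2, a3⟩ <;> linarith

set_option maxHeartbeats 8000000 in
/-- the principal part -/
lemma coreX2 {k y₃ y₄ u x D t p v w δ e x' : ℝ} (hD : Dh k y₃ y₄ u x D) (t0 : 0 ≤ t)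
    (t1 : t ≤ k / 20000) (p0 : k / 2 - 2 * x - t ≤ p) (p1 : p ≤ y₃ + y₄ + u + x + t)
    (v1 : v ≤ 2 * (y₃ + y₄ + u) - k + 3 * x + t) (v2 : v ≤ 3 / 4 * (y₃ + y₄ + u) + 3 * x + t)
    (hw : w ≤ v + hJ k p δ x (max 0 (5 / 4 * (y₃ + y₄ + u) - k)) + t)
    (hL : 0 ≤ w + v - k - δ + t) (δ0 : 0 ≤ δ) (δ1 : δ ≤ k / 6 + t) (e0 : 0 ≤ e)
    (e1 : e ≤ k / 64 + t) (x0' : 0 ≤ x') (x1' : x' ≤ x + t) :
    2 / 3 * k - w / 3 + 5 / 3 * δ + 2 * e + gQ (w + v - k - δ) (w + p - k) + 2 / 3 * (p - δ) +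
      max 0 ((w + p - k) / 3 + x') + k / 200 ≤ k + p + P1Q904.LQ (y₃ + y₄ + u) k D := by
  unfold P1Q904.LQ
  have L0 := le_max_left 0 (5 / 4 * (y₃ + y₄ + u) - k)
  have L1 := le_max_right 0 (5 / 4 * (y₃ + y₄ + u) - k)
  unfold hJ at hw
  have hh := max_choice (k / 64)
    (4 / 3 * (p - δ) - k + x - 3 * max 0 (5 / 4 * (y₃ + y₄ + u) - k))
  have hg := gQ_cases (w + v - k - δ) (w + p - k)
  generalize max 0 (5 / 4 * (y₃ + y₄ + u) - k) = L at *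
  generalize gQ (w + v - k - δ) (w + p - k) = g at *
  have h0 : max 0 ((w + p - k) / 3 + x') = 0 ∨
      max 0 ((w + p - k) / 3 + x') = (w + p - k) / 3 + x' := max_choice _ _
  obtain ⟨k0, u4, y43, u0, y3, N1, near, x0, adm, d0, d1⟩ := hD
  rcases h0 with h0 | h0 <;> rw [h0] <;>
  rcases hg with rfl | rfl | rfl | rfl <;> rcases hh with hh | hh <;> rw [hh] at hw <;>
    rcases adm with ⟨a0, rfl | a1⟩ | ⟨a1, a2, a3⟩ <;> linarith

set_option maxHeartbeats 1600000 in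
/-- **the real line of `P1_0`**, helper271's `H` -/
theorem lnr_X {d k k' y₃ y₄ u x t p v h δ e z₁ z₂ z₃ w : ℝ} (hD : Dh k y₃ y₄ u x (d * k))
    (t0 : 0 ≤ t) (t1 : t ≤ k / 80000) (hk : |k' - k| ≤ t) (p0 : k / 2 - 2 * x - t ≤ p)
    (p1 : p ≤ y₃ + y₄ + u + x + 4 * t) (v1 : v ≤ 2 * (y₃ + y₄ + u) - k + 3 * x + t)
    (v2 : v ≤ 3 / 4 * (y₃ + y₄ + u) + 3 * x + t)
    (hh : h ≤ hJ k p δ x (max 0 (5 / 4 * (y₃ + y₄ + u) - k)) + t) (hL : 0 ≤ h + 2 * v - k' - δ)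
    (δ0 : 0 ≤ δ) (δ1 : δ ≤ k / 6 + t) (e0 : 0 ≤ e) (e1 : e ≤ k / 64 + t) (z3 : z₃ ≤ u + t) (w1 : w ≤ x + t) :
    LnR (EN d) g2 (k + p + P1Q904.LQ (y₃ + y₄ + u) k (d * k)) k' v h p δ e z₁ z₂ z₃ w t := by
  obtain ⟨hkk, hkk'⟩ := abs_le.1 hk
  have hk0 := hD.k0
  have hdk := hD.d0
  have hd0 : 0 ≤ d := by
    by_contra h0
    push Not at h0
    nlinarith
  set s : ℝ := k' - k with hs
  set W : ℝ := v + h - s with hW
  have a1 : h + 2 * v - k' - δ = W + v - k - δ := by rw [hW, hs]; ring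
  have a2 : p + v + h - k' = W + p - k := by rw [hW, hs]; ring
  have hg : g2 (h + 2 * v - k' - δ) (p + v + h - k') = gQ (W + v - k - δ) (W + p - k) := by
    rw [g2_eq, a1, a2]
  have hNn : Nn g2 k' v h p δ e = 2 / 3 * k - W / 3 + 5 / 3 * δ + 2 * e +
      gQ (W + v - k - δ) (W + p - k) + 2 / 3 * (p - δ) + s / 3 := by
    unfold Nn
    rw [hg, hW, hs]
    ring
  have t4 : 4 * t ≤ k / 20000 := by linarith
  have t40 : 0 ≤ 4 * t := by linarith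
  have b1 : k / 2 - 2 * x - 4 * t ≤ p := by linarith
  have b2 : v ≤ 2 * (y₃ + y₄ + u) - k + 3 * x + 4 * t := by linarith
  have b3 : v ≤ 3 / 4 * (y₃ + y₄ + u) + 3 * x + 4 * t := by linarith
  have b4 : W ≤ v + hJ k p δ x (max 0 (5 / 4 * (y₃ + y₄ + u) - k)) + 4 * t := by
    rw [hW]; linarith
  have b7 : δ ≤ k / 6 + 4 * t := by linarith
  have b5 : 0 ≤ W + v - k - δ + 4 * t := by rw [← a1]; linarith
  have b6 : e ≤ k / 64 + 4 * t := by linarith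
  refine ⟨?_, ?_⟩
  · have h1 := coreX2 (x' := 0) hD t40 t4 b1 p1 b2 b3 b4 b5 δ0 b7 e0 b6 le_rfl
      (by have := hD.x0; linarith)
    have h2 : 0 ≤ max 0 ((W + p - k) / 3 + 0) := le_max_left _ _
    rw [hNn]
    linarith
  · intro i q₁ q₂ q₃ x' i0 hi q10 q1 q20 q2 q30 q3 x0' x1 hn
    rw [hNn, a2]
    rw [a2] at hi
    unfold EN
    have hx1 : x' ≤ x + 4 * t := by linarith
    have hn' : q₁ + q₂ + q₃ + x' ≤ p - δ - e + 4 * t := by linarith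
    have hi' : i ≤ W + p - k + 4 * t := by linarith
    have key1 : RM986.r3 d i q₁ q₂ q₃ 0 x' + (W + p - k - i) / 3 +
        (2 / 3 * k - W / 3 + 5 / 3 * δ + 2 * e + gQ (W + v - k - δ) (W + p - k) +
          2 / 3 * (p - δ) + s / 3) ≤
        k + p + P1Q904.LQ (y₃ + y₄ + u) k (d * k) + (q₁ + q₂ + q₃ + x') := by
      have h1 := RM986.r3_le_P1 (d := d) (m := 0) (a := x') i0 q10 q20 q30
      set ζ₁ := min q₁ i
      set ζ₂ := min q₂ i
      set ζ₃ := min q₃ i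
      have c1 : ζ₁ ≤ q₁ := min_le_left _ _
      have c2 : ζ₂ ≤ q₂ := min_le_left _ _
      have c3 : ζ₃ ≤ q₃ := min_le_left _ _
      obtain ⟨l1, l2, l3, l4, l5, l6⟩ := P1F904.l3_le i ζ₁ ζ₂ ζ₃
      unfold P1R904.r3 at h1
      rw [zero_add] at h1
      generalize P1R904.l3 i ζ₁ ζ₂ ζ₃ = l at h1 l1 l2 l3 l4 l5 l6
      have hS : l + x' ≤ 305 / 1000 * k := by
        obtain ⟨k0, u4, y43, u0, y3, N1, near, x0, adm, d0, d1⟩ := hD
        rcases adm with ⟨a0, -⟩ | ⟨-, a2', -⟩ <;> linarith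
      have hdS : (3 / 4 + 2 * d) * (l + x') ≤ 3 / 4 * (l + x') + 61 / 100 * (d * k) := by
        have := mul_le_mul_of_nonneg_left hS hd0
        nlinarith
      have key := coreX (S := l + x') (i := i) (n := q₁ + q₂ + q₃ + x') (x' := x') hD t40 t4 p1 b2
        b3 b4 b5 δ0 b7 e0 b6 x0' hx1 hn' i0 hi' (by linarith) (by linarith) (by linarith)
      linarith
    have key2 : i / 3 + 2 * x' + 2 * (7 / 8 + d) * 0 + (W + p - k - i) / 3 +
        (2 / 3 * k - W / 3 + 5 / 3 * δ + 2 * e + gQ (W + v - k - δ) (W + p - k) +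
          2 / 3 * (p - δ) + s / 3) ≤
        k + p + P1Q904.LQ (y₃ + y₄ + u) k (d * k) + (q₁ + q₂ + q₃ + x') := by
      have key := coreX2 (x' := x') hD t40 t4 b1 p1 b2 b3 b4 b5 δ0 b7 e0 b6 x0' hx1
      have h2 : (W + p - k) / 3 + x' ≤ max 0 ((W + p - k) / 3 + x') := le_max_right _ _
      linarith
    rcases max_choice (RM986.r3 d i q₁ q₂ q₃ 0 x') (i / 3 + 2 * x' + 2 * (7 / 8 + d) * 0) with
      h0 | h0 <;> rw [h0]
    · exact key1
    · exact key2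

/-- **the cubes** -/
theorem bias_R {k N x ex vt v p s0 D m y t δ e h : ℝ} (H : E3N146.Bf k N x ex vt p s0 D m y t)
    (e1 : e ≤ k / 64 + t) (hv : v ≤ vt)
    (hh : h ≤ max (k / 64) (4 / 3 * (p - δ) - k + x - 3 * ex) + t) (δ0 : 0 ≤ δ) :
    h / 3 + 4 / 3 * v + p / 3 - δ + e + min 0 (δ + e - s0) + k / 200 ≤ k + ex + 10 * t := by
  obtain ⟨k0, x0, N1, adm, ex0, ex1, m0, y0, yx, D1, v1, v2, v3, v4, p1, s1, t0, t1⟩ := H
  have hA := min_le_left 0 (δ + e - s0)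
  have hB := min_le_right 0 (δ + e - s0)
  generalize min 0 (δ + e - s0) = M at *
  rcases max_choice (k / 64) (4 / 3 * (p - δ) - k + x - 3 * ex) with h0 | h0 <;> rw [h0] at hh <;>
    rcases adm with ⟨a1, rfl | a2⟩ | ⟨a1, a2, a3⟩ <;> linarith

section

variable {Λ : Type*} {π : Λ → DPar} {h : ℝ → ℝ}

set_option maxHeartbeats 3200000 in
open Classical in
/-- **the numbers of a difference, one level** -/
theorem rnx_pd {c₀ : ℝ} (hpu : PU h c₀) (hP : ∀ lam, (π lam).OK)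
    (hnp : ∀ lam, ¬ NPm (π lam).n (π lam).ψ (π lam).l₂ 1) {Kc : ℝ} (hKc : 0 ≤ Kc)
    {E : ℝ → ℝ → ℝ → ℝ → ℝ → ℝ → ℝ} (PL : Plain (fun _ k => NCube k) π h (Kc + 2) E)
    (hE : Continuous (fun q : (Fin 4 → ℝ) × (Kd → ℝ) =>
      E (q.1 0) (q.1 1) (q.1 2) (q.1 3) (q.2 .mo) (q.2 .am)))
    {ε : ℝ} (hε : 0 < ε) (hε1 : ε ≤ 1) :
    ∃ τ : ℝ, 0 < τ ∧ τ ≤ ε ∧ ∀ (lam : Λ) (t : Eis), t ≠ 0 → ∀ (N : ℕ) (B : ℝ),
      ∃ (M a A₀ : ℕ), 1 ≤ a ∧ ∀ c : ℝ, 1 ≤ c → ∃ X₀ : ℝ, 1 < X₀ ∧ ∀ X : ℝ, X₀ ≤ X →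
      ∀ (b b' : Fin 5 → ℝ) (us : Fin 3 → Pq) (gs : List Pq) (D κ s₀ H : ℝ),
      PD X τ B H N b 1 us gs κ → PD X τ B H N b' 1 (rzD us D) gs κ → (∀ i, b i + τ ≤ Kc) →
      (∀ i, b' i + τ ≤ Kc) → s₀ ≤ (us 0).z → s₀ ≤ (us 1).z → s₀ ≤ (us 0).z - D →
      s₀ ≤ (us 1).z + D →
      ∀ (K V : ℝ) (Hf T : Eis → Eis → ℝ), 0 < K → 0 < V → (∀ d e, 0 < Hf d e) →
      ∀ Pr : Eis → Eis → Prop,
      (∀ d e, Pr d e → IsPrim d ∧ IsPrim e ∧ (nm d : ℝ) ≤ X ^ B ∧ (nm e : ℝ) ≤ X ^ B) →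
      (∀ d e, Pr d e → Real.exp (LN ([us 0, us 1, us 2] ++ gs)) * V * Hf d e / K ≤ X ^ Kc) →
      (∀ d e, Pr d e → 1 ≤ Ld K V (Hf d e) d →
        Nx (Real.log V / Real.log X) (Real.log (Hf d e) / Real.log X)
          (LN ([us 0, us 1, us 2] ++ gs) / Real.log X) (Real.log (nm d) / Real.log X)
          (Real.log (nm e) / Real.log X) (s₀ / Real.log X) ≤ T d e ∧
        ∀ w₁ w₂ : ℝ, LnR E g2 (T d e) (Real.log K / Real.log X) (Real.log V / Real.log X)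
          (Real.log (Hf d e) / Real.log X) (LN ([us 0, us 1, us 2] ++ gs) / Real.log X)
          (Real.log (nm d) / Real.log X) (Real.log (nm e) / Real.log X) w₁ w₂
          ((us 2).z / Real.log X) (LN gs / Real.log X) ε) →
      ∃ W0 : Bool → Eis → Eis → ℝ → ℝ, (∀ jj d e, Slp a (W0 jj d e)) ∧
      (∀ A : ℕ, A₀ ≤ A → ∀ jj d e, Pr d e → ∀ γ φ, IsPrim γ → IsPrim φ → (nm φ : ℝ) ≤ X ^ B →
        ∀ P : ℝ, 0 < P → (nm γ : ℝ) * n6 γ ^ 2 * ∑ k ∈ (bl P).filter (Cls (PrU (t * t)) jj),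
          RMm A (fun j => xD h (π lam) t us D gs (d * j)) e γ φ k ≤ W0 jj d e P) ∧
      ∀ d e, Pr d e →
        FH K (Hf d e) V * RN2XF c K V (Real.exp (LN ([us 0, us 1, us 2] ++ gs))) Hf W0 d e ≤
        H ^ M * X ^ (T d e + ε) / (nm d * nm e) := by
  obtain ⟨Gb, hGb, hEb⟩ := bdd_of_cont hE (Kc + 2)
  obtain ⟨σ, hσ0, hσε, HR⟩ := rnx_raw hpu hP hnp hKc PL (gg := g2)
    (fun c hc l I => g2_hom hc l I) hGb (fun i y₁ y₂ y₃ x => hEb i y₁ y₂ y₃ x) hε hε1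
  refine ⟨σ, hσ0, hσε, fun lam t ht N B => ?_⟩
  obtain ⟨M, a, A₀, ha, HR⟩ := HR lam t ht N B
  refine ⟨M, a, A₀, ha, fun c hc => ?_⟩
  obtain ⟨X₁, hX₁, HR⟩ := HR c hc
  refine ⟨X₁, hX₁, ?_⟩
  intro X hX b b' us gs D κ s₀ H hPD hPD' hb hb' hs1 hs2 hs3 hs4 K V Hf T hK hV hHf Pr hPr hsz hline
  have hX1 : 1 < X := by linarith
  have hL : 0 < Real.log X := Real.log_pos hX1
  have hn : LN ([us 0, us 1, us 2] ++ gs) =
      (us 0).z + (us 1).z + (us 2).z + (gs.map Pq.z).sum := by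
    unfold I1146.LN
    simp only [List.cons_append, List.nil_append, List.map_cons, List.sum_cons]
    ring
  have hLg : LN gs = (gs.map Pq.z).sum := rfl
  have hz : ∀ i, (us i).z ≤ Kc * Real.log X := by
    intro i
    have h0 : ∀ j : Fin 5, (b j + σ) * Real.log X ≤ Kc * Real.log X := fun j =>
      mul_le_mul_of_nonneg_right (hb j) hL.le
    fin_cases i
    · exact hPD.z1.trans (h0 1)
    · exact hPD.z2.trans (h0 2)
    · exact hPD.z3.trans (h0 3)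
  have hz0' : (us 0).z - D ≤ Kc * Real.log X :=
    (show (us 0).z - D ≤ (b' 1 + σ) * Real.log X from hPD'.z1).trans
      (mul_le_mul_of_nonneg_right (hb' 1) hL.le)
  have hz1' : (us 1).z + D ≤ Kc * Real.log X :=
    (show (us 1).z + D ≤ (b' 2 + σ) * Real.log X from hPD'.z2).trans
      (mul_le_mul_of_nonneg_right (hb' 2) hL.le)
  have hp0' : 0 ≤ (us 0).z - D := hPD'.us0 0
  have hp1' : 0 ≤ (us 1).z + D := hPD'.us0 1
  have e0 : (us 0).z + (us 1).z - ((us 1).z + D) = (us 0).z - D := by ring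
  obtain ⟨W0, hW1, hW2, hW3⟩ := HR X hX (us 0) (us 1) (us 2) gs ((us 1).z + D) s₀ H (fun p hp => by
      simp only [List.mem_cons, List.not_mem_nil, or_false] at hp
      rcases hp with rfl | rfl | rfl
      · exact ⟨(Dq_lump _).2 (hPD.lump 0), hPD.us0 0, hz 0, hPD.usB 0⟩
      · exact ⟨(Dq_lump _).2 (hPD.lump 1), hPD.us0 1, hz 1, hPD.usB 1⟩
      · exact ⟨(Dq_lump _).2 (hPD.lump 2), hPD.us0 2, hz 2, hPD.usB 2⟩) hp1' hz1'
    (by rw [e0]; exact hp0') (by rw [e0]; exact hz0') hs1 hs2 hs4 (by rw [e0]; exact hs3) hPD.len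
    (fun p hp => by
      obtain ⟨a1, a2, a3, a4, a5⟩ := hPD.am p hp
      exact ⟨a1, a2, a3, a4⟩)
    (hPD.x.trans (mul_le_mul_of_nonneg_right (hb 4) hL.le)) hPD.H1
    (fun p hp => by
      simp only [List.mem_cons] at hp
      rcases hp with rfl | rfl | rfl | hp
      · exact hPD.usH 0
      · exact hPD.usH 1
      · exact hPD.usH 2
      · exact (hPD.am p hp).2.2.2.2)
    (LN ([us 0, us 1, us 2] ++ gs)) hn K V Hf (fun d e => G2 (Ld K V (Hf d e) d)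
    (Md c K V (Hf d e) (Real.exp (LN ([us 0, us 1, us 2] ++ gs))) d)
    (Real.exp (LN ([us 0, us 1, us 2] ++ gs)) * V * Hf d e / K)) T hK hV hHf Pr hPr
    (fun d e hde => ⟨hsz d e hde, by
      have h1 := hHf d e
      have pd := (hPr d e hde).1
      refine E3T829.G2_nonneg (Ld_pos hK hV h1 pd.ne_zero).le ?_ (by positivity)
      exact E3Sz579.Md_nonneg (by linarith) hK hV h1 (Real.exp_pos _) d,
      w2_le hc hK hV (hHf d e) (hPr d e hde).1.ne_zero⟩) (fun d e hde h1 => by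
      obtain ⟨h0, h2⟩ := hline d e hde h1
      have e1 : (LN ([us 0, us 1, us 2] ++ gs) + Real.log V + Real.log (Hf d e) - Real.log K) /
          Real.log X = LN ([us 0, us 1, us 2] ++ gs) / Real.log X + Real.log V / Real.log X +
            Real.log (Hf d e) / Real.log X - Real.log K / Real.log X := by
        rw [sub_div, add_div, add_div]
      have e2 : (LN ([us 0, us 1, us 2] ++ gs) - Real.log (nm d) - Real.log (nm e)) /
          Real.log X = LN ([us 0, us 1, us 2] ++ gs) / Real.log X -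
            Real.log (nm d) / Real.log X - Real.log (nm e) / Real.log X := by
        rw [sub_div, sub_div]
      rw [e1, e2]
      exact ⟨h0, (h2 0 0).n, fun w₁ w₂ _ => (h2 (w₁ / Real.log X) (w₂ / Real.log X)).l⟩)
  refine ⟨W0, hW1, fun A hA jj d e hde γ φ hγ hφ hφB P hPp => ?_, fun d e hde => hW3 d e hde⟩
  refine le_trans ?_ (hW2 A hA jj d e hde γ φ hγ hφ hφB P hPp)
  refine mul_le_mul_of_nonneg_left (sum_le_sum fun k _ => ?_)
    (mul_nonneg (Nat.cast_nonneg _) (sq_nonneg _))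
  rw [P10X764.xD_eq]
  exact RMm_cmp (z := ExP960.oc us (us 0).z (us 1).z) (ExP960.norm_oc _ _ _).le
    (fun n _ _ => rfl) (fun n h1 h2 => absurd h1 h2) (fun n h1 h2 => absurd h1 h2) γ φ k

end

end Crest.Agent.R017.RnX571
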