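import Crest.Agent.R017.HfG_47

/-!
# Row 17, exceptional class (helper47): the rooms of the high half

* `roomX_hi`, `roomS_hi` : `GXq`, `GSq` against `RoomX L0 - CEX`, `RoomX L0 - CES`, `k > 3/5 κ`
-/

set_option autoImplicit false
set_option linter.unusedVariables false

noncomputable section

open scoped Classical

namespace Crest.Agent.R017.LnY47

open Crest.Agent.R017.B770
open Crest.Agent.R017.Prov71
open Crest.Agent.R017.E5B71 Crest.Agent.R017.E5P571 Crest.Agent.R017.E5L770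
open Crest.Agent.R017.ExBox960 Crest.Agent.R017.ExP960
open Crest.Agent.R017.P1X960
open Crest.Agent.R017.ETd548 (RoomX)
open Crest.Agent.R017.ETm548 (QK)
open Crest.Agent.R017.ETy71 (mV vN vR pQ bq CEX CES)

variable {d : ℝ} {q : QK} {L0 : (Fin 3 ⊕ Fin 5 → ℝ) → ℝ}

lemma roomX_eq : RoomX L0 q = 2 * (cκ (prX (bq q)) + pQ q + L0 (prX (bq q)) -
    (cκ (prX (bq q)) - q.1 (.inr ())) / 3) := by
  unfold ETd548.RoomX E8X ETy71.pQ ETy71.bq
  ring

/-- the room of the differences -/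
theorem roomX_hi (hL0 : max 0 (5 / 4 * cN (prX (bq q)) - cκ (prX (bq q))) +
      3 / 4 * (d * cκ (prX (bq q))) ≤ L0 (prX (bq q)))
    (hk : 3 / 5 * cκ (prX (bq q)) < q.1 (.inr ())) : GXq d q ≤ RoomX L0 q - CEX d q := by
  rw [roomX_eq]
  unfold GXq P1L7904.GX ETy71.CEX
  rw [if_neg (not_le.2 hk)]
  have e : max (P1L904.RSm (cκ (prX (bq q))) (q.1 (.inr ())) (pQ q) (mV (vN q)) (cx' (prX (bq q))))
      (P1L904.RS0 (q.1 (.inr ())) (pQ q) (mV (vR q)) (cx' (prX (bq q)))) =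
      max (P1L904.RSm (cκ (prX (bq q))) (q.1 (.inr ())) (pQ q) (mV (vN q)) (cx' (prX (bq q))))
      (ET371.RS0k (q.1 (.inr ())) (pQ q) (mV (vR q)) (cx' (prX (bq q)))) := rfl
  rw [e]
  linarith

/-- the room of the single lists -/
theorem roomS_hi (hL0 : max 0 (5 / 4 * cN (prX (bq q)) - cκ (prX (bq q))) +
      3 / 4 * (d * cκ (prX (bq q))) ≤ L0 (prX (bq q)))
    (hk : 3 / 5 * cκ (prX (bq q)) < q.1 (.inr ())) : GSq d q ≤ RoomX L0 q - CES d q := by
  rw [roomX_eq]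
  unfold GSq P1L7904.GX ETy71.CES
  rw [if_neg (not_le.2 hk)]
  by_cases hN : NatL (bq q) (q.1 (.inl (.inr 0))) (q.1 (.inl (.inr 1))) (q.1 (.inl (.inr 2)))
  · rw [if_pos hN]
    unfold uNS uRS
    rw [if_pos hN, if_pos hN]
    have := le_max_left
      (P1L904.RSm (cκ (prX (bq q))) (q.1 (.inr ())) (pQ q) (mV (vN q)) (cx' (prX (bq q))))
      (P1L904.RS0 (q.1 (.inr ())) (pQ q) 0 (cx' (prX (bq q))))
    linarith
  · rw [if_neg hN]
    unfold uNS uRS
    rw [if_neg hN, if_neg hN]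
    have := le_max_right
      (P1L904.RSm (cκ (prX (bq q))) (q.1 (.inr ())) (pQ q)
        (cu (prX (bq q)) 4 - 17 / 100 * cκ (prX (bq q))) (cx' (prX (bq q))))
      (P1L904.RS0 (q.1 (.inr ())) (pQ q) (mV (vN q)) (cx' (prX (bq q))))
    have e : P1L904.RS0 (q.1 (.inr ())) (pQ q) (mV (vN q)) (cx' (prX (bq q))) =
      ET371.RS0k (q.1 (.inr ())) (pQ q) (mV (vN q)) (cx' (prX (bq q))) := rfl
    linarith

end Crest.Agent.R017.LnY47
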