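import Crest.Agent.R017.GkX_770
import Crest.Agent.R017.TFs_65
import Crest.Agent.R017.GkFS_629
import Crest.Agent.R017.GkLs_968
import Crest.Agent.R017.RmS_47
import Crest.Agent.R017.FrL_385
import Crest.Agent.R017.P10I_385

/-!
# Row 17, exceptional class (helper770): the Gram sums of the single lists; both at the top data

* **`gkS_all`** : `GkGUc (7/8)` at `alS`
* **`gkX_E`**, **`gkS_E`** : the two Gram halves at `πE`
-/

set_option autoImplicit false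
set_option linter.unusedSectionVars false
set_option linter.unusedVariables false

noncomputable section

open Finset
open scoped ComplexConjugate Classical

namespace Crest.Agent.R017.GkY770

open Crest.Agent.R012 Crest.Agent.R012.Eis
open Crest.Agent.R012.T411 (NCube)
open Crest.Agent.R017.FE47 (PU cx SM)
open Crest.Agent.R017.CM106
open Crest.Agent.R017.XG702 (Pcs Good_mono)
open Crest.Agent.R017.XT71 (Sys Win mx)
open Crest.Agent.R017.Prov71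
open Crest.Agent.R017.B770
open Crest.Agent.R017.ER911 Crest.Agent.R017.ExpC702
open Crest.Agent.R017.End699 (PF)
open Crest.Agent.R017.XEx298 (Rt)
open Crest.Agent.R017.E5B71 Crest.Agent.R017.E5P571 Crest.Agent.R017.E5L770
open Crest.Agent.R017.ExBox960 Crest.Agent.R017.ExP960
open Crest.Agent.R017.Sf770
open Crest.Agent.R017.I1146 (LN)
open Crest.Agent.R017.Sup271 (NPm)
open Crest.Agent.R017.PX764 (Dk)
open Crest.Agent.R017.TM708 (R5)
open Crest.Agent.R017.P1e54 Crest.Agent.R017.P1f54 Crest.Agent.R017.P1k54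
open Crest.Agent.R017.P1l54 (ParOK)
open Crest.Agent.R017.P1t54 (LS0 ParS parOK_Sq5)
open Crest.Agent.R017.P1X960
open Crest.Agent.R017.P10X764
open Crest.Agent.R017.E3Nx744 (CBA)
open Crest.Agent.R017.ETd548 (BkX S8Xk GkG stG RoomX)
open Crest.Agent.R017.ETk548 (DomKc GkGUc)
open Crest.Agent.R017.UbOr381 (DomHi gk_or)
open Crest.Agent.R017.FrX579 (lmX svX ShXl FrXD frX s0R)
open Crest.Agent.R017.ETm548
open Crest.Agent.R017.ETy71 (mV vN vR pQ bq Dz CEX CES)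
open Crest.Agent.R017.LnY47
open Crest.Agent.R017.RnP571 (Dh)
open Crest.Agent.R017.Fin4 Crest.Agent.R017.Fin5 Crest.Agent.R017.Fin6
open Crest.Agent.R017.Red848 (red)
open Crest.Agent.R017.XS0298 (S0x S0K)
open Crest.Agent.R017.Sg986 (AA AA_lt AA_eq AA_ge)
open Crest.Agent.R017.NrX986 (NearAllX)
open Crest.Agent.R017.BxH986

section
variable {Λ : Type*} {π : Λ → DPar} {h : ℝ → ℝ}

/-- **the Gram sums of the single lists**, families up to `7/8 κ` -/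
theorem gkS_all {c₀ : ℝ} (hpu : PU h c₀) (hP : ∀ lam, (π lam).OK)
    (hNC : ∀ lam, ∀ k : Eis, k ≠ 0 → (NPm (π lam).n (π lam).ψ (π lam).l₂ k ↔ NCube k))
    {Rh : ℝ} (hRh0 : 0 ≤ Rh) (hRh : ∀ u, cx h u ≠ 0 → |u| ≤ Rh) {e0 : ℝ}
    (he0 : 0 ≤ e0) (he0' : e0 ≤ 1 / 64) {c d : ℝ} (hc0 : 0 ≤ c) (hc1 : c ≤ 1)
    (hcd : 4 * c ≤ d) (hd : 0 ≤ d) (hd8 : d ≤ 1 / 8)
    {s : ER911.EF} (R : ExpRules (7 / 8 + d) (ex Dq (fun lam => Rt (π lam) h)) s)
    (hPF : PF Set.univ (7 / 8 + d))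
    {Par : Set (Fin 3 ⊕ Fin 5 → ℝ)} (hPar : ∀ p ∈ Par, ParOK p)
    (hDh : ∀ p ∈ Par, Dh (cκ p) (cu p 2) (cu p 3) (cu p 4) (cx' p) (d * cκ p))
    {D5 : Set (Fin 5 → ℝ)} {ℓ Kf Tf : (Fin 5 → ℝ) → ℝ}
    (hDN : ∀ p : IX5 → ℝ, prX p ∈ Par → ZR (17 / 100) p → bN p ∈ D5)
    (hDR : ∀ p : IX5 → ℝ, prX p ∈ Par → ZR (17 / 100) p → bR p ∈ D5)
    (hR5 : ∀ p : IX5 → ℝ, prX p ∈ Par → ZR (17 / 100) p → R5 (bN p))
    (hKN : ∀ p : IX5 → ℝ, prX p ∈ Par → ZR (17 / 100) p →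
      Kf (bN p) = max (cκ (prX p)) (5 / 4 * cN (prX p)))
    (hKR : ∀ p : IX5 → ℝ, prX p ∈ Par → ZR (17 / 100) p →
      Kf (bR p) = max (cκ (prX p)) (5 / 4 * cN (prX p)))
    (hTN : ∀ (p : IX5 → ℝ) (v₀ v₁ v₂ b x' : ℝ), ChC c (17 / 100) Par p v₀ v₁ v₂ b x' →
      SinL (17 / 100) p v₀ v₁ v₂ → tpW c p b ≤ Tf (bN p))
    (hTR : ∀ (p : IX5 → ℝ) (v₀ v₁ v₂ b x' : ℝ), ChC c (17 / 100) Par p v₀ v₁ v₂ b x' →
      SinL (17 / 100) p v₀ v₁ v₂ → tpW c p b ≤ Tf (bR p))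
    (hcb : CBA π h Dk Kf Tf D5 ℓ)
    (hlm : ∀ p : IX5 → ℝ, prX p ∈ Par → ZR (17 / 100) p →
      lmX ℓ Kf Tf p ≤ 5 / 9 * (d * cκ (prX p)))
    (hL0 : ∀ p ∈ Par, max 0 (5 / 4 * cN p - cκ p) + 3 / 4 * (d * cκ p) ≤ LS0 d p) :
    GkGUc (7 / 8) (alS π h) (fun lam a qs => okCX (π lam.1) lam.2 a qs) e0 c (17 / 100)
      Par (SinL (17 / 100)) (fun q => RoomX (LS0 d) q - CES d q) := by
  have hcD : ∀ p ∈ Par, 4 * (c * cκ p) ≤ d * cκ p := fun p hp => by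
    have := mul_le_mul_of_nonneg_right hcd
      (show (0 : ℝ) ≤ cκ p by linarith [(hPar p hp).κ0])
    linarith
  have hlo := GkLs968.gkLoS hpu hP hRh0 hRh he0 (he0'.trans (by norm_num)) hc0 hc1 hPar hDN hDR
    hR5 hKN hKR hTN hTR hcb (ok := fun lam a qs => okCX (π lam.1) lam.2 a qs) (fun _ _ _ h => h)
    hd (hd8.trans (by norm_num)) hcd le_rfl hDh hlm
  have hT := TFs65.tfr_S hpu hP hRh0 hRh he0 he0' hc0 hc1 hPar hDN hDR hR5 hKN hKR
    hTN hTR hcb (ok := fun lam a qs => okCX (π lam.1) lam.2 a qs)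
    (fun _ _ _ h => h) rfl hDh hcD (F := fun q => lmX ℓ Kf Tf (bq q))
    (fun q hq => ⟨le_rfl, hlm _ hq.1.1.1.par hq.1.1.1.zr⟩)
  have hL := GkFS629.rlnf_S (π := π) he0 he0' hc0 hc1 hPar hDh hcD
    (F := fun q => lmX ℓ Kf Tf (bq q)) (fun q hq => hlm _ hq.1.1.1.par hq.1.1.1.zr)
  have hR := GkE521.rfr_S hpu hP hNC R hPF hd hd8 he0 (he0'.trans (by norm_num)) hPar hDh
    (k₁ := 7 / 8) (fun _ hq => hq.1) hL
  have hhi := ETn548.gkG_of he0 (he0'.trans (by norm_num)) (by norm_num)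
    (uu := fun lam : Λ × Eis => lam.2 * lam.2)
    (fun lam a qs hk => mul_ne_zero hk.2.1.1 hk.2.1.1)
    (fun lam a qs _ n hn => CopU631.cop_u hn) hT hR
  refine gk_or hlo hhi (fun q hq => ?_) (fun q hq hk => ?_)
  · exact (GkR381.roomS_lo (d := d) (q := q) hq.2.2).ge
  · exact LnY47.roomS_hi (hL0 _ hq.1.1.par) hk

end

section
variable {h : ℝ → ℝ} {c₀ d : ℝ}

/-- **the Gram half of the differences at the top data** -/
theorem gkX_E (hd : 0 < d) (hd1 : d ≤ 1 / 42) (hpu : PU h c₀)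
    (hPF : PF Set.univ (7 / 8 + d)) (P : BunE d h) (G : RecE d h)
    (near : NearAllX d (ex Dq (fun lam => S0x (red (πE lam)) h))) {r : ℝ} (hr0 : 0 ≤ r)
    (hr : ∀ u : ℝ, cx h u ≠ 0 → |u| ≤ r) :
    GkGUc (7 / 8) (alX (fun lam => red (πE lam)) h) (okX fun lam => red (πE lam)) (1 / 64)
      (d / 4) βX (ParS (AA d) d) DifL fun q => RoomX (LS0 d) q - ETy71.CEX d q := by
  have hA := AA_ge hd1
  have hA0 := (AA_lt hd).le
  have hA1 := AA_eq d
  have hP : ∀ lam, (πE lam).OK := fun lam => lam.2.1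
  have hE : ∀ lam, Red848.Exc (πE lam) := fun lam => XT6241.exc_piE lam
  have H := FrL385.frH_L hpu hP hE hd.le hd1 (by linarith) hA0 hA1
    (TK708.allT_of P.rules G.toExpS0 hd.le (by linarith))
    (FrL385.fe2G_L P.rules G hd.le (by linarith) near) hr0 hr
  exact GkX770.gkX_all H.hpu H.hP (fun lam k hk => Red848.NPm_red_iff (hP lam).ψ.q0 hk) H.hex
    H.hRh0 H.hRh H.he0 H.he0' H.hc0 H.hc1 (by linarith) hd.le (by linarith) P.rules hPF H.hPar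
    (fun p hp => E3Nx744.dh_sq5 hd.le (by linarith) hA0 hA1 hp) H.hDN H.hDR H.hR5 H.hKN H.hKR
    H.hTN H.hTR H.hcb (fun p hp _ => FrL385.lmX_L hd.le (by linarith) hA1 hp)

/-- **the Gram half of the single lists at the top data** -/
theorem gkS_E (hd : 0 < d) (hd1 : d ≤ 1 / 42) (hpu : PU h c₀)
    (hPF : PF Set.univ (7 / 8 + d)) (P : BunE d h) (G : RecE d h)
    (near : NearAllX d (ex Dq (fun lam => S0x (red (πE lam)) h))) {r : ℝ} (hr0 : 0 ≤ r)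
    (hr : ∀ u : ℝ, cx h u ≠ 0 → |u| ≤ r) :
    GkGUc (7 / 8) (alS (fun lam => red (πE lam)) h) (okS fun lam => red (πE lam)) (1 / 64)
      (d / 4) βX (ParS (AA d) d) (SinL βX) fun q => RoomX (LS0 d) q - ETy71.CES d q := by
  have hA := AA_ge hd1
  have hA0 := (AA_lt hd).le
  have hA1 := AA_eq d
  have hP : ∀ lam, (πE lam).OK := fun lam => lam.2.1
  have hE : ∀ lam, Red848.Exc (πE lam) := fun lam => XT6241.exc_piE lam
  have H := FrL385.frHS_L hpu hP hE hd.le hd1 (by linarith) hA1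
    (TK708.allT_of P.rules G.toExpS0 hd.le (by linarith))
    (FrL385.fe2G_L P.rules G hd.le (by linarith) near) hr0 hr
  exact gkS_all H.hpu H.hP (fun lam k hk => Red848.NPm_red_iff (hP lam).ψ.q0 hk)
    H.hRh0 H.hRh H.he0 H.he0' H.hc0 H.hc1 (by linarith) hd.le (by linarith) P.rules hPF H.hPar
    (fun p hp => E3Nx744.dh_sq5 hd.le (by linarith) hA0 hA1 hp) H.hDN H.hDR H.hR5 H.hKN H.hKR
    H.hTN H.hTR H.hcb (fun p hp _ => FrL385.lmX_L hd.le (by linarith) hA1 hp)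
    (fun p hp => by
      have e : LS0 d p = max 0 (5 / 4 * cN p - cκ p) + 3 / 4 * d * cκ p := rfl
      rw [e]
      linarith)

end

end Crest.Agent.R017.GkY770
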