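import Crest.Agent.R017.GkAll_381
import Crest.Agent.R017.GkRoom_381
import Crest.Agent.R017.Cba59_744
import Crest.Agent.R017.TFs_65
import Crest.Agent.R017.GkFS_629
import Crest.Agent.R017.GkE_521
import Crest.Agent.R017.CopU_631
import Crest.Agent.R017.E2Sb_764
import Crest.Agent.R017.EbA_986

/-!
# Row 17: the Gram sums of the single lists at the top data (helper839)

* `roomS` : the room of the high families
* **`gkS_E`** : `GkGUc (7/8)` at `alS (red ∘ πE)`
-/

set_option autoImplicit false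
set_option linter.unusedVariables false

noncomputable section

open Finset MeasureTheory
open scoped ComplexConjugate Classical

namespace Crest.Agent.R017.GkY839

open Crest.Agent.R012 Crest.Agent.R012.Eis Crest.Agent.R012.MC
open Crest.Agent.R017.C70
open Crest.Agent.R017.B770
open Crest.Agent.R017.FE47 (PU cx SM)
open Crest.Agent.R017.Prov71 Crest.Agent.R017.ER911 Crest.Agent.R017.SC777
open Crest.Agent.R017.I1146 (X2 c3 c3_nonneg LipS LN)
open Crest.Agent.R017.UM71 Crest.Agent.R017.End699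
open Crest.Agent.R017.E5B71 Crest.Agent.R017.E5P571 Crest.Agent.R017.E5L770
open Crest.Agent.R017.ExBox960 Crest.Agent.R017.ExP960
open Crest.Agent.R017.P1l54 (ParOK)
open Crest.Agent.R017.P1t54 (ParS LS0 parOK_Sq5)
open Crest.Agent.R017.P1X960
open Crest.Agent.R017.PX764 (Dk)
open Crest.Agent.R017.TM708 (PD R5 T5 K5)
open Crest.Agent.R017.TK708 (sh5 FE2G AllT cb_K)
open Crest.Agent.R017.P10X764
open Crest.Agent.R017.D5X939 (D5X D5X_compact)
open Crest.Agent.R017.Red848 (red Exc red_ok)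
open Crest.Agent.R017.XS0298 (S0x S0K)
open Crest.Agent.R017.ETd548 (RoomX S8Xk)
open Crest.Agent.R017.ETk548 (CsGUc GkGUc DomKc)
open Crest.Agent.R017.ETy71 (CEX CES bq pQ mV vN vR)
open Crest.Agent.R017.Fin4 Crest.Agent.R017.Fin5 Crest.Agent.R017.Fin6
open Crest.Agent.R017.Sg986 (AA AA_lt AA_eq AA_ge)
open Crest.Agent.R017.NrX986 (NearAllX)

variable {h : ℝ → ℝ} {c₀ : ℝ} {d : ℝ}

/-- the room of the high families -/
lemma roomS {q : (I8X ⊕ Unit → ℝ) × (Kd → ℝ)}
    (h : 3 / 5 * cκ (prX (bq q)) < q.1 (.inr ())) :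
    LnY47.GSq d q ≤ RoomX (LS0 d) q - CES d q := by
  rw [GkR381.room_eq]
  unfold LnY47.GSq LnY47.uNS LnY47.uRS ETy71.CES P1L7904.GX ET371.RS0k
  rw [if_neg (not_le.2 h)]
  split_ifs
  · have := le_max_left (P1L904.RSm (cκ (prX (bq q))) (q.1 (.inr ())) (pQ q) (mV (vN q))
      (cx' (prX (bq q)))) (P1L904.RS0 (q.1 (.inr ())) (pQ q) 0 (cx' (prX (bq q))))
    linarith
  · have := le_max_right (P1L904.RSm (cκ (prX (bq q))) (q.1 (.inr ())) (pQ q)
      (cu (prX (bq q)) 4 - 17 / 100 * cκ (prX (bq q))) (cx' (prX (bq q))))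
      (P1L904.RS0 (q.1 (.inr ())) (pQ q) (mV (vN q)) (cx' (prX (bq q))))
    unfold P1L904.RS0 at this ⊢
    linarith

theorem gkS_E (hd : 0 < d) (hd1 : d ≤ 1 / 42) (hpu : PU h c₀) (hPF : PF Set.univ (7 / 8 + d))
    (P : BunE d h) (G : RecE d h)
    (near : NearAllX d (ex Dq (fun lam => S0x (red (πE lam)) h))) :
    GkGUc (7 / 8) (alS (fun lam => red (πE lam)) h) (okS fun lam => red (πE lam)) (1 / 64)
      (d / 4) βX (ParS (AA d) d) (SinL βX) fun q => RoomX (LS0 d) q - CES d q := by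
  have hA := AA_ge hd1
  have hAl := (AA_lt hd).le
  have hA1 := AA_eq d
  obtain ⟨Rh, hR0, hRh⟩ := Sg986.exists_Rh hpu
  have hOK : ∀ lam, (πE lam).OK := fun lam => lam.2.1
  have hX : ∀ lam, Exc (πE lam) := fun lam => XT6241.exc_piE lam
  have hAll := TK708.allT_of P.rules G.toExpS0 hd.le (by linarith)
  have hFE := Cba59744.fe2G_59 P.rules G hd.le (by linarith) near
  have H := Cba59744.frHS_59 hpu hOK hX hd.le hd1 (by linarith) hA1 hAll hFE hR0 hRh
  have hNC : ∀ lam, ∀ k : Eis, k ≠ 0 →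
      (Sup271.NPm (red (πE lam)).n (red (πE lam)).ψ (red (πE lam)).l₂ k ↔
        Crest.Agent.R012.T411.NCube k) :=
    fun lam k hk => Red848.NPm_red_iff (hOK lam).ψ.q0 hk
  have hDh := fun p hp => E3Nx744.dh_sq5 (p := p) hd.le (by linarith) hAl hA1 hp
  have hlm := fun (p : IX5 → ℝ) (hp : prX p ∈ ParS (AA d) d) =>
    Cba59744.lm_59 hd.le (by linarith) hA1 hp
  refine UbOr381.gk_or (Cba59744.low_S hpu hOK hX hd.le hd1 (by linarith) hAl hA1 hAll hFE hR0 hRh)
    (GE₂ := LnY47.GSq d)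
    (ETn548.gkG_of (uu := fun lam => lam.2 * lam.2) (Lh := 4)
      (hf := LnY47.hfG d LnY47.uNS LnY47.uRS
        (fun q => FrX579.lmX (fun b => 5 / 9 * d * b 0) K5 LfX986.T9 (bq q)) fun _ => 0) H.he0
      (H.he0'.trans (by norm_num)) (by norm_num)
      (fun lam a qs ho => mul_ne_zero ho.2.1.1 ho.2.1.1)
      (fun lam a qs ho n hn => CopU631.cop_u hn)
      (TFs65.tfr_S hpu H.hP hR0 hRh H.he0 H.he0' H.hc0 H.hc1 H.hPar
        H.hDN H.hDR H.hR5 H.hKN H.hKR H.hTN H.hTR H.hcb (fun _ _ _ h => h) rfl hDh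
        (fun p hp => by linarith) (fun q hq => ⟨le_rfl, hlm (bq q) hq.1.1.1.par⟩))
      (GkE521.rfr_S hpu H.hP hNC P.rules hPF hd.le (by linarith) H.he0
        (H.he0'.trans (by norm_num)) H.hPar hDh (fun q hq => hq.1)
        (GkFS629.rlnf_S H.he0 H.he0' H.hc0 H.hc1 H.hPar hDh (fun p hp => by linarith)
          (fun q hq => hlm (bq q) hq.1.1.1.par)))) ?_ ?_
  · intro q hq
    rw [GkR381.roomS_lo hq.2.2]
    exact le_of_eq rfl
  · intro q hq hlt
    exact roomS hlt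

end Crest.Agent.R017.GkY839
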