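import Crest.Agent.R017.Cba59_744
import Crest.Agent.R017.GkAll_381
import Crest.Agent.R017.RmS_47
import Crest.Agent.R017.TFx_770
import Crest.Agent.R017.TFs_65
import Crest.Agent.R017.GkF_521
import Crest.Agent.R017.GkFS_629
import Crest.Agent.R017.P10I_385

/-!
# Row 17, exceptional class (helper65): the Gram halves `GkGUc (7/8)` at the reduced data

* **`gkX`**, **`gkS`** : general `π`;  **`gkX_E`**, **`gkS_E`** : at the top data
-/

set_option autoImplicit false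
set_option linter.unusedVariables false

noncomputable section

open Set

namespace Crest.Agent.R017.GkZ65

open Crest.Agent.R012 Crest.Agent.R012.Eis
open Crest.Agent.R017.FE47 Crest.Agent.R017.End699
open Crest.Agent.R017.Prov71 Crest.Agent.R017.ER911
open Crest.Agent.R017.SC777
open Crest.Agent.R017.B770 Crest.Agent.R017.E5B71 Crest.Agent.R017.E5L770
open Crest.Agent.R017.ExP960 Crest.Agent.R017.ExBox960
open Crest.Agent.R017.P1l54 Crest.Agent.R017.P1t54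
open Crest.Agent.R017.P1X960
open Crest.Agent.R017.P10X764
open Crest.Agent.R017.E5LX770
open Crest.Agent.R017.TM708 (T5 K5 R5)
open Crest.Agent.R017.TK708 (FE2G AllT)
open Crest.Agent.R017.D5X939 (D5X D5X_compact)
open Crest.Agent.R017.NrX986 (Tf1 NearAllX)
open Crest.Agent.R017.Red848 (red Exc red_ok)
open Crest.Agent.R017.PX764 (Dk)
open Crest.Agent.R017.XS0298 (S0x S0K)
open Crest.Agent.R017.XEx298 (Rt)
open Crest.Agent.R017.LfX986 (T9)
open Crest.Agent.R017.ETd548 (RoomX)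
open Crest.Agent.R017.ETk548 (CsGUc GkGUc)
open Crest.Agent.R017.ETm548 (QK)
open Crest.Agent.R017.UbOr381 (DomHi gk_or)
open Crest.Agent.R017.ETy71 (CEX CES bq pQ mV vN vR)
open Crest.Agent.R017.Sg986 (AA AA_lt AA_eq AA_ge)
open Crest.Agent.R017.Fin4 Crest.Agent.R017.Fin5 Crest.Agent.R017.Fin6
open Crest.Agent.R017.BxH986

section
variable {Λ : Type*} {π : Λ → DPar} {h : ℝ → ℝ} {c₀ A d : ℝ}

/-- **the Gram half of the differences**, reduced data -/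
theorem gkX (hpu : PU h c₀) (hP : ∀ lam, (π lam).OK) (hE : ∀ lam, Exc (π lam))
    (hd : 0 ≤ d) (hd1 : d ≤ 1 / 42) (hA : 9 / 10 ≤ A) (hA0 : A ≤ 1) (hA1 : 16 * (1 - A) ≤ d)
    (hPF : PF Set.univ (7 / 8 + d)) {s : EF}
    (R : ExpRules (7 / 8 + d) (ex Dq fun lam => Rt (red (π lam)) h) s)
    (hAll : AllT d (ex Dq fun lam => S0K Dk (red (π lam)) h))
    (hFE : FE2G (ex Dq fun lam => S0K Dk (red (π lam)) h) D5X K5 T5 fun b => 5 / 9 * d * b 0)
    {Rh : ℝ} (hRh0 : 0 ≤ Rh) (hRh : ∀ u, cx h u ≠ 0 → |u| ≤ Rh) :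
    GkGUc (7 / 8) (alX (fun lam => red (π lam)) h)
      (fun lam a qs => okCX (red (π lam.1)) lam.2 a qs ∧ okD a) (1 / 64) (d / 4) (17 / 100)
      (ParS A d) DifL fun q => RoomX (LS0 d) q - CEX d q := by
  have H := Cba59744.frH_59 hpu hP hE hd hd1 hA hA0 hA1 hAll hFE hRh0 hRh
  have hDh : ∀ p ∈ ParS A d, RnP571.Dh (cκ p) (cu p 2) (cu p 3) (cu p 4) (cx' p) (d * cκ p) :=
    fun p hp => E3Nx744.dh_sq5 hd (by linarith) hA0 hA1 hp
  have hlm : ∀ p : IX5 → ℝ, prX p ∈ ParS A d → ZR (17 / 100) p →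
      FrX579.lmX (fun b => 5 / 9 * d * b 0) K5 T9 p ≤ 5 / 9 * (d * cκ (prX p)) :=
    fun p hp _ => Cba59744.lm_59 hd (by linarith) hA1 hp
  have hNC : ∀ lam, ∀ k : Eis, k ≠ 0 →
      (Sup271.NPm (red (π lam)).n (red (π lam)).ψ (red (π lam)).l₂ k ↔ T411.NCube k) :=
    fun lam k hk => Red848.NPm_red_iff (hP lam).ψ.q0 hk
  have hT := TFx770.tfr_X hpu H.hP H.hex hRh0 hRh H.he0 H.he0' H.hc0 H.hc1
    (by linarith : 4 * (d / 4) ≤ d) H.hPar hDh H.hDN H.hDR H.hR5 H.hKN H.hKR H.hTN H.hTR H.hcb hlm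
    (ok := fun lam a qs => okCX (red (π lam.1)) lam.2 a qs ∧ okD a) (fun _ _ _ h => h)
  have hln := GkF521.rlnF_X hpu H.hP H.hex hRh0 hRh H.he0 H.he0' H.hc0 H.hc1 (d := d) rfl H.hPar
    H.hDN H.hDR H.hR5 H.hKN H.hKR H.hTN H.hTR H.hcb hDh (fun p _ => by linarith)
    (Dm := DomHi (3 / 5) (7 / 8) (d / 4) (17 / 100) (ParS A d) DifL) (fun q hq => hq)
    (F := fun q => FrX579.lmX (fun b => 5 / 9 * d * b 0) K5 T9 (bq q))
    (fun q hq => hlm _ hq.1.1.1.par hq.1.1.1.zr)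
  have hR := GkE521.rfr_X hpu H.hP hNC R hPF hd (by linarith) H.he0 (H.he0'.trans (by norm_num))
    le_rfl (by norm_num) H.hPar hDh (k₁ := 7 / 8) (fun q hq => hq.1) hln
  exact GkA381.gkAll_X H.he0 (H.he0'.trans (by norm_num)) (by norm_num) (fun _ _ _ h => h.1)
    (fun q hq => (GkR381.room_lo hq.2.2).ge)
    (fun q hq hk => (GkR381.room_hi hk).ge)
    (Cba59744.low_X hpu hP hE hd hd1 hA hA0 hA1 hAll hFE hRh0 hRh) hT hR

/-- **the Gram half of the single lists**, reduced data -/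
theorem gkS (hpu : PU h c₀) (hP : ∀ lam, (π lam).OK) (hE : ∀ lam, Exc (π lam))
    (hd : 0 ≤ d) (hd1 : d ≤ 1 / 42) (hA : 9 / 10 ≤ A) (hA0 : A ≤ 1) (hA1 : 16 * (1 - A) ≤ d)
    (hPF : PF Set.univ (7 / 8 + d)) {s : EF}
    (R : ExpRules (7 / 8 + d) (ex Dq fun lam => Rt (red (π lam)) h) s)
    (hAll : AllT d (ex Dq fun lam => S0K Dk (red (π lam)) h))
    (hFE : FE2G (ex Dq fun lam => S0K Dk (red (π lam)) h) D5X K5 T5 fun b => 5 / 9 * d * b 0)
    {Rh : ℝ} (hRh0 : 0 ≤ Rh) (hRh : ∀ u, cx h u ≠ 0 → |u| ≤ Rh) :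
    GkGUc (7 / 8) (alS (fun lam => red (π lam)) h)
      (fun lam a qs => okCX (red (π lam.1)) lam.2 a qs) (1 / 64) (d / 4) (17 / 100)
      (ParS A d) (SinL (17 / 100)) fun q => RoomX (LS0 d) q - CES d q := by
  have H := Cba59744.frHS_59 hpu hP hE hd hd1 hA hA1 hAll hFE hRh0 hRh
  have hDh : ∀ p ∈ ParS A d, RnP571.Dh (cκ p) (cu p 2) (cu p 3) (cu p 4) (cx' p) (d * cκ p) :=
    fun p hp => E3Nx744.dh_sq5 hd (by linarith) hA0 hA1 hp
  have hlm : ∀ p : IX5 → ℝ, prX p ∈ ParS A d → ZR (17 / 100) p →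
      FrX579.lmX (fun b => 5 / 9 * d * b 0) K5 T9 p ≤ 5 / 9 * (d * cκ (prX p)) :=
    fun p hp _ => Cba59744.lm_59 hd (by linarith) hA1 hp
  have hNC : ∀ lam, ∀ k : Eis, k ≠ 0 →
      (Sup271.NPm (red (π lam)).n (red (π lam)).ψ (red (π lam)).l₂ k ↔ T411.NCube k) :=
    fun lam k hk => Red848.NPm_red_iff (hP lam).ψ.q0 hk
  have hT := TFs65.tfr_S hpu H.hP hRh0 hRh H.he0 H.he0' H.hc0 H.hc1 H.hPar H.hDN H.hDR H.hR5
    H.hKN H.hKR H.hTN H.hTR H.hcb (ok := fun lam a qs => okCX (red (π lam.1)) lam.2 a qs)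
    (fun _ _ _ h => h) rfl hDh (fun p _ => by linarith)
    (F := fun q => FrX579.lmX (fun b => 5 / 9 * d * b 0) K5 T9 (bq q))
    (fun q hq => ⟨le_rfl, hlm _ hq.1.1.1.par hq.1.1.1.zr⟩)
  have hln := GkFS629.rlnf_S (π := fun lam => red (π lam)) (dd := d) H.he0 H.he0' H.hc0 H.hc1
    H.hPar hDh (fun p _ => by linarith)
    (F := fun q => FrX579.lmX (fun b => 5 / 9 * d * b 0) K5 T9 (bq q))
    (fun q hq => hlm _ hq.1.1.1.par hq.1.1.1.zr)
  have hR := GkE521.rfr_S hpu H.hP hNC R hPF hd (by linarith) H.he0 (H.he0'.trans (by norm_num))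
    H.hPar hDh (k₁ := 7 / 8) (fun q hq => hq.1) hln
  exact gk_or (Cba59744.low_S hpu hP hE hd hd1 hA hA0 hA1 hAll hFE hRh0 hRh)
    (ETn548.gkG_of H.he0 (H.he0'.trans (by norm_num)) (by norm_num)
      (fun lam a qs ho => mul_ne_zero ho.2.1.1 ho.2.1.1)
      (fun lam a qs ho n hn => CopU631.cop_u hn) hT hR)
    (fun q hq => (GkR381.roomS_lo hq.2.2).ge)
    (fun q hq hk => LnY47.roomS_hi (by unfold P1t54.LS0; linarith) hk)

end

/-- **the Gram half of the differences at the top data** -/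
theorem gkX_E {d : ℝ} (hd : 0 < d) (hd1 : d ≤ 1 / 42) {h : ℝ → ℝ} {c₀ : ℝ} (hpu : PU h c₀)
    (hPF : PF Set.univ (7 / 8 + d)) (P : BunE d h) (G : RecE d h)
    (near : NearAllX d (ex Dq (fun lam => S0x (red (πE lam)) h))) {r : ℝ} (hr0 : 0 ≤ r)
    (hr : ∀ u : ℝ, cx h u ≠ 0 → |u| ≤ r) :
    GkGUc (7 / 8) (alX (fun lam => red (πE lam)) h) (okX fun lam => red (πE lam)) (1 / 64)
      (d / 4) βX (ParS (AA d) d) DifL fun q => RoomX (LS0 d) q - ETy71.CEX d q :=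
  gkX hpu (fun lam => lam.2.1) (fun lam => XT6241.exc_piE lam) hd.le hd1
    (by linarith [AA_ge hd1]) (AA_lt hd).le (AA_eq d) hPF P.rules
    (TK708.allT_of P.rules G.toExpS0 hd.le (by linarith))
    (Cba59744.fe2G_59 P.rules G hd.le (by linarith) near) hr0 hr

/-- **the Gram half of the single lists at the top data** -/
theorem gkS_E {d : ℝ} (hd : 0 < d) (hd1 : d ≤ 1 / 42) {h : ℝ → ℝ} {c₀ : ℝ} (hpu : PU h c₀)
    (hPF : PF Set.univ (7 / 8 + d)) (P : BunE d h) (G : RecE d h)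
    (near : NearAllX d (ex Dq (fun lam => S0x (red (πE lam)) h))) {r : ℝ} (hr0 : 0 ≤ r)
    (hr : ∀ u : ℝ, cx h u ≠ 0 → |u| ≤ r) :
    GkGUc (7 / 8) (alS (fun lam => red (πE lam)) h) (okS fun lam => red (πE lam)) (1 / 64)
      (d / 4) βX (ParS (AA d) d) (SinL βX) fun q => RoomX (LS0 d) q - ETy71.CES d q :=
  gkS hpu (fun lam => lam.2.1) (fun lam => XT6241.exc_piE lam) hd.le hd1
    (by linarith [AA_ge hd1]) (AA_lt hd).le (AA_eq d) hPF P.rules
    (TK708.allT_of P.rules G.toExpS0 hd.le (by linarith))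
    (Cba59744.fe2G_59 P.rules G hd.le (by linarith) near) hr0 hr

end Crest.Agent.R017.GkZ65
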