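import Crest.Agent.R017.GkAll_381
import Crest.Agent.R017.GkRoom_381
import Crest.Agent.R017.Cba59_744
import Crest.Agent.R017.TFx_770
import Crest.Agent.R017.GkF_521
import Crest.Agent.R017.EbA_986

/-!
# Row 17: the Gram sums of the differences at the top data (helper839)

* **`gkX_E`** : `GkGUc (7/8)` at `alX (red ∘ πE)`
-/

set_option autoImplicit false
set_option linter.unusedVariables false

noncomputable section

open Finset MeasureTheory
open scoped ComplexConjugate Classical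

namespace Crest.Agent.R017.GkZ839

open Crest.Agent.R012 Crest.Agent.R012.Eis Crest.Agent.R012.MC
open Crest.Agent.R017.C70
open Crest.Agent.R017.B770
open Crest.Agent.R017.FE47 (PU cx SM)
open Crest.Agent.R017.Prov71 Crest.Agent.R017.ER911 Crest.Agent.R017.SC777
open Crest.Agent.R017.I1146 (X2 c3 c3_nonneg LipS LN)
open Crest.Agent.R017.UM71 Crest.Agent.R017.End699
open Crest.Agent.R017.E5B71 Crest.Agent.R017.E5P571 Crest.Agent.R017.E5L770
open Crest.Agent.R017.ExBox960 Crest.Agent.R017.ExP960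
open Crest.Agent.R017.P1l54 (ParOK)
open Crest.Agent.R017.P1t54 (ParS LS0 parOK_Sq5)
open Crest.Agent.R017.P1X960
open Crest.Agent.R017.PX764 (Dk)
open Crest.Agent.R017.TM708 (PD R5 T5 K5)
open Crest.Agent.R017.TK708 (sh5 FE2G AllT cb_K)
open Crest.Agent.R017.P10X764
open Crest.Agent.R017.D5X939 (D5X D5X_compact)
open Crest.Agent.R017.Red848 (red Exc red_ok)
open Crest.Agent.R017.XS0298 (S0x S0K)
open Crest.Agent.R017.ETd548 (RoomX S8Xk)
open Crest.Agent.R017.ETk548 (CsGUc GkGUc DomKc)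
open Crest.Agent.R017.ETy71 (CEX CES bq pQ mV vN vR)
open Crest.Agent.R017.Fin4 Crest.Agent.R017.Fin5 Crest.Agent.R017.Fin6
open Crest.Agent.R017.Sg986 (AA AA_lt AA_eq AA_ge)
open Crest.Agent.R017.NrX986 (NearAllX)

variable {h : ℝ → ℝ} {c₀ : ℝ} {d : ℝ}

theorem gkX_E (hd : 0 < d) (hd1 : d ≤ 1 / 42) (hpu : PU h c₀) (hPF : PF Set.univ (7 / 8 + d))
    (P : BunE d h) (G : RecE d h)
    (near : NearAllX d (ex Dq (fun lam => S0x (red (πE lam)) h))) :
    GkGUc (7 / 8) (alX (fun lam => red (πE lam)) h) (okX fun lam => red (πE lam)) (1 / 64)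
      (d / 4) βX (ParS (AA d) d) DifL fun q => RoomX (LS0 d) q - CEX d q := by
  have hA := AA_ge hd1
  have hAl := (AA_lt hd).le
  have hA1 := AA_eq d
  obtain ⟨Rh, hR0, hRh⟩ := Sg986.exists_Rh hpu
  have hOK : ∀ lam, (πE lam).OK := fun lam => lam.2.1
  have hX : ∀ lam, Exc (πE lam) := fun lam => XT6241.exc_piE lam
  have hAll := TK708.allT_of P.rules G.toExpS0 hd.le (by linarith)
  have hFE := Cba59744.fe2G_59 P.rules G hd.le (by linarith) near
  have H := Cba59744.frH_59 hpu hOK hX hd.le hd1 (by linarith) hAl hA1 hAll hFE hR0 hRh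
  have hNC : ∀ lam, ∀ k : Eis, k ≠ 0 →
      (Sup271.NPm (red (πE lam)).n (red (πE lam)).ψ (red (πE lam)).l₂ k ↔
        Crest.Agent.R012.T411.NCube k) :=
    fun lam k hk => Red848.NPm_red_iff (hOK lam).ψ.q0 hk
  have hDh := fun p hp => E3Nx744.dh_sq5 (p := p) hd.le (by linarith) hAl hA1 hp
  have hlm := fun (p : IX5 → ℝ) (hp : prX p ∈ ParS (AA d) d) =>
    Cba59744.lm_59 hd.le (by linarith) hA1 hp
  refine GkA381.gkAll_X (π := fun lam => red (πE lam)) (GE₂ := LnY47.GXq d) (Lh := 4) H.he0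
    (H.he0'.trans (by norm_num)) (by norm_num) (fun lam a qs ho => ho.1) ?_ ?_
    (Cba59744.low_X hpu hOK hX hd.le hd1 (by linarith) hAl hA1 hAll hFE hR0 hRh)
    (TFx770.tfr_X hpu H.hP H.hex hR0 hRh H.he0 H.he0' H.hc0 H.hc1 (by linarith) H.hPar hDh
      H.hDN H.hDR H.hR5 H.hKN H.hKR H.hTN H.hTR H.hcb (fun p hp _ => hlm p hp)
      (fun _ _ _ h => h))
    (GkE521.rfr_X hpu H.hP hNC P.rules hPF hd.le (by linarith) H.he0
      (H.he0'.trans (by norm_num)) le_rfl (by norm_num) H.hPar hDh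
      (fun q hq => hq.1)
      (GkF521.rlnF_X hpu H.hP H.hex hR0 hRh H.he0 H.he0' H.hc0 H.hc1 rfl H.hPar H.hDN H.hDR
        H.hR5 H.hKN H.hKR H.hTN H.hTR H.hcb hDh (fun p hp => by linarith) (fun q hq => hq)
        (fun q hq => hlm (bq q) hq.1.1.1.par)))
  · intro q hq
    rw [GkR381.room_lo hq.2.2]
    exact le_of_eq rfl
  · intro q hq hlt
    rw [GkR381.room_hi hlt]
    exact le_of_eq rfl

end Crest.Agent.R017.GkZ839
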