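import Crest.Agent.R017.Glue3_681
import Crest.Agent.R012.Dec_766

/-!
# Row 17, section A: the glue, part 4 (helper681)

Iteration of the (T) step over a list of primes, in product form.
-/

set_option autoImplicit false

noncomputable section

open MeasureTheory Complex Set Filter
open scoped ENNReal ComplexConjugate Topology SchwartzMap

namespace Crest.Agent.R017.Glue681

open Crest.Agent.R012 Crest.Agent.R012.Eis Crest.Agent.R012.K695 Crest.Agent.R012.AU681
  Crest.Agent.R012.Parseval499 Crest.Agent.R017.Orth681 Crest.Agent.R017.Xn590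
open Crest.Agent.R017.F1 (scl PL)

/-! ### Valuations -/

/-- `v_p(h)` (for `h ≠ 0`, `p` prime). -/
def vp (p h : Eis) : ℕ := multiplicity p h

lemma finM {p h : Eis} (hp : Prime p) (hh : h ≠ 0) : FiniteMultiplicity p h :=
  FiniteMultiplicity.of_prime_left hp hh

lemma vp_mul {p x y : Eis} (hp : Prime p) (hx : x ≠ 0) (hy : y ≠ 0) :
    vp p (x * y) = vp p x + vp p y :=
  multiplicity_mul hp (finM hp (mul_ne_zero hx hy))

lemma vp_pow_self {p : Eis} (hp : Prime p) (m : ℕ) : vp p (p ^ m) = m :=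
  multiplicity_pow_self_of_prime hp m

lemma vp_of_not_dvd {p x : Eis} (h : ¬ p ∣ x) : vp p x = 0 := multiplicity_eq_zero.mpr h

lemma vp_other {p q : Eis} (hp : Prime p) (hq : Prime q) (h : ¬ Associated p q) (m : ℕ) :
    vp q (p ^ m) = 0 := by
  apply vp_of_not_dvd
  intro hd
  have h1 := hq.dvd_of_dvd_pow hd
  exact h ((hq.associated_of_dvd hp h1).symm)

lemma pow_dvd_iff {p h : Eis} (hp : Prime p) (hh : h ≠ 0) (m : ℕ) : p ^ m ∣ h ↔ m ≤ vp p h :=
  (finM hp hh).pow_dvd_iff_le_multiplicity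

/-! ### Local data -/

/-- Local data of a (T) step. -/
structure Loc where
  p : Eis
  m : ℕ
  k : ℂ
  y : ℂ
  y' : ℂ
  c : ℂ
  c' : ℂ
  w : ℕ → ℂ
  w' : ℕ → ℂ
  w0 : ℕ → ℂ
  w0' : ℕ → ℂ

/-- The local relations. -/
structure Loc.Ok (l : Loc) : Prop where
  prime : Prime l.p
  hy : l.y * l.y' = 1
  hc : l.c * l.c' = 1
  bw : ∃ K : ℝ, ∀ v, ‖l.w v‖ ≤ K
  bw' : ∃ K : ℝ, ∀ v, ‖l.w' v‖ ≤ K
  bw0 : ∃ K : ℝ, ∀ v, ‖l.w0 v‖ ≤ K
  bw0' : ∃ K : ℝ, ∀ v, ‖l.w0' v‖ ≤ K
  r1 : ∀ v, l.w (v + l.m) + l.k * l.y * l.w v = l.c * (l.y * l.w0 v + l.k * l.w0 (v + l.m))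
  r1n : ∀ v, v < l.m → l.w v = l.c * (l.k * l.w0 v)
  r2 : ∀ v, l.w' (v + l.m) + l.k * l.y' * l.w' v =
    l.c' * (l.y' * l.w0' v + l.k * l.w0' (v + l.m))
  r2n : ∀ v, v < l.m → l.w' v = l.c' * (l.k * l.w0' v)

/-- the dilation element. -/
def Loc.b (l : Loc) : Eis := l.p ^ l.m

/-- products of local weights. -/
def prW (L : List Loc) (h : Eis) : ℂ := (L.map fun l => l.w (vp l.p h)).prod
def prW' (L : List Loc) (h : Eis) : ℂ := (L.map fun l => l.w' (vp l.p h)).prod
def prW0 (L : List Loc) (h : Eis) : ℂ := (L.map fun l => l.w0 (vp l.p h)).prod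
def prW0' (L : List Loc) (h : Eis) : ℂ := (L.map fun l => l.w0' (vp l.p h)).prod

/-- left and right functions after all steps. -/
def stepsL : List Loc → (ℂ → ℂ) → (ℂ → ℂ)
  | [], f => f
  | l :: L, f => stepL (toC l.b) (l.k * l.y) (stepsL L f)

def stepsR : List Loc → (ℂ → ℂ) → (ℂ → ℂ)
  | [], f => f
  | l :: L, f => stepR (toC l.b) l.y l.k l.c (stepsR L f)

/-- all primes of the list are distinct. -/
def Dist (L : List Loc) : Prop := L.Pairwise fun a b => ¬ Associated a.p b.p

/-- invariance of the spectator factor. -/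
def Inv (L : List Loc) (U : Eis → ℂ) : Prop := ∀ l ∈ L, ∀ h, h ≠ 0 → U (l.p * h) = U h

lemma Bdd.mul {U W : Eis → ℂ} (hU : Bdd U) (hW : Bdd W) : Bdd (fun h => U h * W h) := by
  obtain ⟨K, hK⟩ := hU
  obtain ⟨L, hL⟩ := hW
  refine ⟨K * L, fun h => ?_⟩
  rw [norm_mul]
  exact mul_le_mul (hK h) (hL h) (norm_nonneg _) ((norm_nonneg _).trans (hK h))

lemma bdd_vp {w : ℕ → ℂ} (hw : ∃ K : ℝ, ∀ v, ‖w v‖ ≤ K) (p : Eis) : Bdd (fun h => w (vp p h)) := by
  obtain ⟨K, hK⟩ := hw
  exact ⟨K, fun h => hK _⟩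

lemma bdd_list (L : List Loc) (F : Loc → Eis → ℂ) (h : ∀ l ∈ L, Bdd (F l)) :
    Bdd (fun x => (L.map fun l => F l x).prod) := by
  induction L with
  | nil => exact ⟨1, fun _ => by simp⟩
  | cons l L ih =>
    have h1 := h l (by simp)
    have h2 := ih fun a ha => h a (by simp [ha])
    have h3 := h1.mul h2
    refine ⟨h3.choose, fun x => ?_⟩
    have := h3.choose_spec x
    simpa using this

lemma inv_pow {U : Eis → ℂ} {p : Eis} (hp : Prime p) (h : ∀ x, x ≠ 0 → U (p * x) = U x) (m : ℕ)
    {x : Eis} (hx : x ≠ 0) : U (p ^ m * x) = U x := by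
  induction m with
  | zero => simp
  | succ m ih =>
    rw [pow_succ', mul_assoc, h _ (mul_ne_zero (pow_ne_zero m hp.ne_zero) hx), ih]

lemma inv_vp {p q : Eis} (hp : Prime p) (hq : Prime q) (hpq : ¬ Associated p q) (w : ℕ → ℂ)
    {x : Eis} (hx : x ≠ 0) : w (vp q (p * x)) = w (vp q x) := by
  rw [vp_mul hq hp.ne_zero hx, show vp q p = 0 by simpa using vp_other hp hq hpq 1, zero_add]

lemma inv_list {p : Eis} (hp : Prime p) (L : List Loc) (F : Loc → ℕ → ℂ)
    (hL : ∀ l ∈ L, Prime l.p ∧ ¬ Associated p l.p) {x : Eis} (hx : x ≠ 0) :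
    (L.map fun l => F l (vp l.p (p * x))).prod = (L.map fun l => F l (vp l.p x)).prod := by
  congr 1
  apply List.map_congr_left
  intro l hl
  exact inv_vp hp (hL l hl).1 (hL l hl).2 (F l) hx

variable {n : ℕ} {s : ℂ} {ξ : Eis → ℂ} {κ c0' : ℂ} {V : ℝ} {h0 B B' : ℂ}

lemma b_ne {l : Loc} (hl : l.Ok) : l.b ≠ 0 := pow_ne_zero _ hl.prime.ne_zero

lemma datN_stepsL (hn : n ≠ 0) (L : List Loc) (hL : ∀ l ∈ L, l.Ok) {f : ℂ → ℂ}
    (hf : DatN n s ξ f) : DatN n s ξ (stepsL L f) := by
  induction L with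
  | nil => exact hf
  | cons l L ih =>
    exact datN_stepL hn (ih fun a ha => hL a (by simp [ha]))
      (by rw [Ne, toC_eq_zero]; exact b_ne (hL l (by simp))) _

lemma datN_stepsR (hn : n ≠ 0) (L : List Loc) (hL : ∀ l ∈ L, l.Ok) {f : ℂ → ℂ}
    (hf : DatN n s ξ f) : DatN n s ξ (stepsR L f) := by
  induction L with
  | nil => exact hf
  | cons l L ih =>
    exact datN_stepR hn (ih fun a ha => hL a (by simp [ha]))
      (by rw [Ne, toC_eq_zero]; exact b_ne (hL l (by simp))) _ _ _

/-- **Iteration of the (T) step over a list of primes.** -/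
theorem pair_steps (X : XiP ξ κ c0') (C : XnC n s κ V h0 B B') {fL fR : ℂ → ℂ} (k0 : 𝓢(ℂ, ℂ))
    (hL : DatN n s ξ fL) (hR : DatN n s ξ fR) (L : List Loc) (hok : ∀ l ∈ L, l.Ok)
    (hd : Dist L) {U U' : Eis → ℂ} (bU : Bdd U) (bU' : Bdd U') (hU : Inv L U) (hU' : Inv L U')
    (hp : PairW s (fun h => U h * prW0 L h) (fun h => U' h * prW0' L h) (FPn n ξ fL k0)
      (FOn n ξ V h0 B fR k0)) :
    PairW s (fun h => U h * prW L h) (fun h => U' h * prW' L h) (FPn n ξ (stepsL L fL) k0)
      (FOn n ξ V h0 B (stepsR L fR) k0) := by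
  have hn : n ≠ 0 := by have := C.n2; omega
  induction L generalizing U U' with
  | nil => exact hp
  | cons l L ih =>
    have hl : l.Ok := hok l (by simp)
    have hok' : ∀ a ∈ L, a.Ok := fun a ha => hok a (by simp [ha])
    have hdl : ∀ a ∈ L, ¬ Associated l.p a.p := by
      unfold Dist at hd
      rw [List.pairwise_cons] at hd
      exact hd.1
    have hd' : Dist L := by
      unfold Dist at hd ⊢
      rw [List.pairwise_cons] at hd
      exact hd.2
    -- the rest of the list, with the base weight at `l`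
    have h1 := ih (U := fun h => U h * l.w0 (vp l.p h)) (U' := fun h => U' h * l.w0' (vp l.p h))
      hok' hd' (bU.mul (bdd_vp hl.bw0 _)) (bU'.mul (bdd_vp hl.bw0' _))
      (fun a ha h hh => by
        simp only
        rw [hU a (by simp [ha]) h hh, inv_vp (hok' a ha).prime hl.prime
          (fun hc => hdl a ha hc.symm) l.w0 hh])
      (fun a ha h hh => by
        simp only
        rw [hU' a (by simp [ha]) h hh, inv_vp (hok' a ha).prime hl.prime
          (fun hc => hdl a ha hc.symm) l.w0' hh])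
      (by
        refine hp.congr ?_ ?_ ?_ ?_
        · exact (bU.mul (bdd_vp hl.bw0 _)).mul (bdd_list L (fun l h => l.w0 (vp l.p h))
            fun a ha => bdd_vp (hok' a ha).bw0 _)
        · exact (bU'.mul (bdd_vp hl.bw0' _)).mul (bdd_list L (fun l h => l.w0' (vp l.p h))
            fun a ha => bdd_vp (hok' a ha).bw0' _)
        · intro h _
          unfold prW0
          rw [List.map_cons, List.prod_cons]
          ring
        · intro h _
          unfold prW0'
          rw [List.map_cons, List.prod_cons]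
          ring)
    -- the step at `l`
    have hiw : ∀ (F : Loc → ℕ → ℂ) (m : ℕ) (x : Eis), x ≠ 0 →
        (L.map fun a => F a (vp a.p (l.p ^ m * x))).prod = (L.map fun a => F a (vp a.p x)).prod := by
      intro F m x hx
      exact inv_pow (U := fun x => (L.map fun a => F a (vp a.p x)).prod) hl.prime
        (fun y hy => inv_list hl.prime L F (fun a ha => ⟨(hok' a ha).prime, hdl a ha⟩) hy) m hx
    have hUm : ∀ (m : ℕ) (x : Eis), x ≠ 0 → U (l.p ^ m * x) = U x := fun m x hx =>
      inv_pow hl.prime (hU l (by simp)) m hx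
    have hUm' : ∀ (m : ℕ) (x : Eis), x ≠ 0 → U' (l.p ^ m * x) = U' x := fun m x hx =>
      inv_pow hl.prime (hU' l (by simp)) m hx
    have hv : ∀ x, x ≠ 0 → vp l.p (l.b * x) = vp l.p x + l.m := by
      intro x hx
      unfold Loc.b
      rw [vp_mul hl.prime (pow_ne_zero _ hl.prime.ne_zero) hx, vp_pow_self hl.prime, add_comm]
    have h2 := pair_step X C k0 (datN_stepsL hn L hok' hL) (datN_stepsR hn L hok' hR) h1
      (b := l.b) (b_ne hl) hl.hy hl.hc (k := l.k)
      (W := fun h => U h * (l.w (vp l.p h) * prW L h))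
      (W' := fun h => U' h * (l.w' (vp l.p h) * prW' L h))
      (bU.mul ((bdd_vp hl.bw _).mul (bdd_list L (fun l h => l.w (vp l.p h))
        fun a ha => bdd_vp (hok' a ha).bw _)))
      (bU'.mul ((bdd_vp hl.bw' _).mul (bdd_list L (fun l h => l.w' (vp l.p h))
        fun a ha => bdd_vp (hok' a ha).bw' _))) ?_ ?_ ?_ ?_
    · refine h2.congr h2.bW h2.bW' (fun _ _ => rfl) (fun _ _ => rfl) |>.congr ?_ ?_ ?_ ?_
      · exact bU.mul (bdd_list (l :: L) (fun l h => l.w (vp l.p h))
          fun a ha => bdd_vp (hok a ha).bw _)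
      · exact bU'.mul (bdd_list (l :: L) (fun l h => l.w' (vp l.p h))
          fun a ha => bdd_vp (hok a ha).bw' _)
      · intro h _
        unfold prW
        rw [List.map_cons, List.prod_cons]
      · intro h _
        unfold prW'
        rw [List.map_cons, List.prod_cons]
    · intro t ht
      have e1 : prW L (l.b * t) = prW L t := hiw (fun a => a.w) l.m t ht
      have e2 : U (l.b * t) = U t := hUm l.m t ht
      rw [hv t ht, e1, e2]
      linear_combination (U t * prW L t) * hl.r1 (vp l.p t)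
    · intro h hnd
      by_cases hh : h = 0
      · exact absurd (hh ▸ dvd_zero _) hnd
      · have h3 : vp l.p h < l.m := by
          rw [← not_le, ← pow_dvd_iff hl.prime hh]
          exact hnd
        rw [hl.r1n _ h3]
        ring
    · intro t ht
      have e1 : prW' L (l.b * t) = prW' L t := hiw (fun a => a.w') l.m t ht
      have e2 : U' (l.b * t) = U' t := hUm' l.m t ht
      rw [hv t ht, e1, e2]
      linear_combination (U' t * prW' L t) * hl.r2 (vp l.p t)
    · intro h hnd
      by_cases hh : h = 0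
      · exact absurd (hh ▸ dvd_zero _) hnd
      · have h3 : vp l.p h < l.m := by
          rw [← not_le, ← pow_dvd_iff hl.prime hh]
          exact hnd
        rw [hl.r2n _ h3]
        ring

/-! ### Expansions -/

/-- the expansion of `stepsL`: coefficients and dilations. -/
def expL : List Loc → List (ℂ × Eis)
  | [] => [(1, 1)]
  | l :: L => (expL L) ++ (expL L).map fun x =>
      (l.k * l.y * ((‖toC l.b‖ ^ 2 : ℝ) : ℂ) * x.1, l.b * x.2)

/-- the expansion of `stepsR`. -/
def expR : List Loc → List (ℂ × Eis)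
  | [] => [(1, 1)]
  | l :: L => ((expR L).map fun x => (l.c * l.k * x.1, x.2)) ++ (expR L).map fun x =>
      (l.c * l.y * ((‖toC l.b‖ ^ 2 : ℝ) : ℂ) * x.1, l.b * x.2)

/-- `∑ r f(b x)` over a list of pairs `(r, b)`. -/
def combF (E : List (ℂ × Eis)) (f : ℂ → ℂ) (x : ℂ) : ℂ := (E.map fun e => e.1 * f (toC e.2 * x)).sum

lemma stepsL_eq (L : List Loc) (f : ℂ → ℂ) (x : ℂ) : stepsL L f x = combF (expL L) f x := by
  induction L generalizing x with
  | nil => simp [stepsL, combF, expL]
  | cons l L ih =>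
    unfold stepsL stepL expL combF
    rw [List.map_append, List.sum_append, ih, ih]
    unfold combF
    congr 1
    rw [List.map_map, ← List.sum_map_mul_left]
    congr 1
    apply List.map_congr_left
    intro e _
    simp only [Function.comp, map_mul]
    rw [mul_assoc (toC l.b), mul_left_comm (toC l.b)]
    ring_nf

lemma stepsR_eq (L : List Loc) (f : ℂ → ℂ) (x : ℂ) : stepsR L f x = combF (expR L) f x := by
  induction L generalizing x with
  | nil => simp [stepsR, combF, expR]
  | cons l L ih =>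
    unfold stepsR stepR expR combF
    rw [List.map_append, List.sum_append, ih, ih]
    unfold combF
    rw [List.map_map, List.map_map, ← List.sum_map_mul_left, ← List.sum_map_mul_left,
      ← List.sum_map_add, ← List.sum_map_mul_left, ← List.sum_map_add]
    congr 1
    apply List.map_congr_left
    intro e _
    simp only [Function.comp, map_mul]
    have : toC e.2 * (toC l.b * x) = toC l.b * toC e.2 * x := by ring
    rw [this]
    ring

end Crest.Agent.R017.Glue681
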