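import Crest.Agent.R017.Glue4_681

/-!
# Row 17, section A: the glue, part 5 (helper681)

* `strip`, `stripL` : removing the primes of a list
* `PL_prime_mul`
* `HP` : Hilbert prime data of the two types, `HP.loc`, `HP.loc_ok`
* `WForm` : explicit weights, `pair_final`
-/

set_option autoImplicit false

noncomputable section

open MeasureTheory Complex Set Filter
open scoped ENNReal ComplexConjugate Topology SchwartzMap

namespace Crest.Agent.R017.Glue681

open Crest.Agent.R012 Crest.Agent.R012.Eis Crest.Agent.R012.K695 Crest.Agent.R012.AU681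
  Crest.Agent.R012.Parseval499 Crest.Agent.R017.Orth681 Crest.Agent.R017.Xn590
open Crest.Agent.R017.F1 (scl PL)

/-! ### Stripping a prime -/

lemma exists_strip (p h : Eis) : ∃ c, h = p ^ (vp p h) * c := pow_multiplicity_dvd p h

open Classical in
/-- `h / p^{v_p(h)}`. -/
def strip (p h : Eis) : Eis := if h = 0 then 0 else (exists_strip p h).choose

lemma strip_zero (p : Eis) : strip p 0 = 0 := by
  unfold strip
  rw [if_pos rfl]

lemma strip_spec {p h : Eis} (hh : h ≠ 0) : h = p ^ (vp p h) * strip p h := by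
  unfold strip
  rw [if_neg hh]
  exact (exists_strip p h).choose_spec

lemma strip_ne {p h : Eis} (hh : h ≠ 0) : strip p h ≠ 0 := by
  intro h0
  have := strip_spec (p := p) hh
  rw [h0, mul_zero] at this
  exact hh this

lemma strip_not_dvd {p h : Eis} (hp : Prime p) (hh : h ≠ 0) : ¬ p ∣ strip p h := by
  rintro ⟨t, ht⟩
  have h1 := strip_spec (p := p) hh
  have h2 : p ^ (vp p h + 1) ∣ h := ⟨t, by
    conv_lhs => rw [h1, ht]
    ring⟩
  rw [pow_dvd_iff hp hh] at h2
  omega

lemma strip_unique {p h c : Eis} (hp : Prime p) {v : ℕ} (hc : ¬ p ∣ c) (e : h = p ^ v * c) :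
    vp p h = v ∧ strip p h = c := by
  have hc0 : c ≠ 0 := fun h0 => hc (h0 ▸ dvd_zero p)
  have hh : h ≠ 0 := by rw [e]; exact mul_ne_zero (pow_ne_zero _ hp.ne_zero) hc0
  have hv : vp p h = v := by
    rw [e, vp_mul hp (pow_ne_zero _ hp.ne_zero) hc0, vp_pow_self hp, vp_of_not_dvd hc, add_zero]
  refine ⟨hv, ?_⟩
  have h1 := strip_spec (p := p) hh
  rw [hv] at h1
  exact mul_left_cancel₀ (pow_ne_zero v hp.ne_zero) (h1.symm.trans e)

lemma strip_mul {p x y : Eis} (hp : Prime p) (hx : x ≠ 0) (hy : y ≠ 0) :
    strip p (x * y) = strip p x * strip p y := by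
  refine (strip_unique hp (v := vp p x + vp p y) ?_ ?_).2
  · intro h
    rcases hp.dvd_or_dvd h with h | h
    · exact strip_not_dvd hp hx h
    · exact strip_not_dvd hp hy h
  · conv_lhs => rw [strip_spec (p := p) hx, strip_spec (p := p) hy]
    rw [pow_add]
    ring

lemma strip_self {p : Eis} (hp : Prime p) : strip p p = 1 :=
  (strip_unique hp (v := 1) (fun h => hp.not_isUnit (isUnit_of_dvd_one h)) (by ring)).2

lemma strip_of_not_dvd {p x : Eis} (hp : Prime p) (hx : ¬ p ∣ x) : strip p x = x :=
  (strip_unique hp (v := 0) hx (by ring)).2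

lemma strip_neg {p : Eis} (hp : Prime p) (h : Eis) : strip p (-h) = -strip p h := by
  by_cases hh : h = 0
  · rw [hh, neg_zero, strip_zero, neg_zero]
  · refine (strip_unique hp (v := vp p h) ?_ ?_).2
    · rw [dvd_neg]
      exact strip_not_dvd hp hh
    · conv_lhs => rw [strip_spec (p := p) hh]
      ring

lemma not_dvd_of_not_assoc {p q : Eis} (hp : Prime p) (hq : Prime q) (h : ¬ Associated p q) :
    ¬ p ∣ q := fun hd => h (hp.associated_of_dvd hq hd)

/-- removing all primes of a list. -/
def stripL : List Loc → Eis → Eis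
  | [], h => h
  | l :: L, h => stripL L (strip l.p h)

lemma stripL_zero (L : List Loc) : stripL L 0 = 0 := by
  induction L with
  | nil => rfl
  | cons l L ih => unfold stripL; rw [strip_zero, ih]

lemma stripL_ne (L : List Loc) {h : Eis} (hh : h ≠ 0) : stripL L h ≠ 0 := by
  induction L generalizing h with
  | nil => exact hh
  | cons l L ih => unfold stripL; exact ih (strip_ne hh)

lemma stripL_neg (L : List Loc) (hp : ∀ l ∈ L, Prime l.p) (h : Eis) :
    stripL L (-h) = -stripL L h := by
  induction L generalizing h with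
  | nil => rfl
  | cons l L ih =>
    unfold stripL
    rw [strip_neg (hp l (by simp)), ih fun a ha => hp a (by simp [ha])]

lemma stripL_mul (L : List Loc) (hp : ∀ l ∈ L, Prime l.p) {x y : Eis} (hx : x ≠ 0) (hy : y ≠ 0) :
    stripL L (x * y) = stripL L x * stripL L y := by
  induction L generalizing x y with
  | nil => rfl
  | cons l L ih =>
    unfold stripL
    rw [strip_mul (hp l (by simp)) hx hy,
      ih (fun a ha => hp a (by simp [ha])) (strip_ne hx) (strip_ne hy)]

lemma stripL_of_cop (L : List Loc) (hp : ∀ l ∈ L, Prime l.p) {x : Eis}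
    (hx : ∀ l ∈ L, ¬ l.p ∣ x) : stripL L x = x := by
  induction L with
  | nil => rfl
  | cons l L ih =>
    unfold stripL
    rw [strip_of_not_dvd (hp l (by simp)) (hx l (by simp))]
    exact ih (fun a ha => hp a (by simp [ha])) fun a ha => hx a (by simp [ha])

lemma stripL_mem (L : List Loc) (hp : ∀ l ∈ L, Prime l.p) (hd : Dist L) {l : Loc} (hl : l ∈ L) :
    stripL L l.p = 1 := by
  induction L with
  | nil => simp at hl
  | cons a L ih =>
    unfold Dist at hd
    rw [List.pairwise_cons] at hd
    have hp' : ∀ l ∈ L, Prime l.p := fun b hb => hp b (by simp [hb])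
    unfold stripL
    rw [List.mem_cons] at hl
    rcases hl with rfl | hl
    · rw [strip_self (hp l (by simp))]
      exact stripL_of_cop L hp' fun b hb h => (hp' b hb).not_isUnit (isUnit_of_dvd_one h)
    · rw [strip_of_not_dvd (hp a (by simp))
        (not_dvd_of_not_assoc (hp a (by simp)) (hp' l hl) (hd.1 l hl))]
      exact ih hp' hd.2 hl

/-- products of powers of the primes of the list. -/
def prP (L : List Loc) (a : Eis → ℕ) : Eis := (L.map fun l => l.p ^ a l.p).prod

lemma prP_cons (l : Loc) (L : List Loc) (a : Eis → ℕ) : prP (l :: L) a = l.p ^ a l.p * prP L a := by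
  unfold prP
  rw [List.map_cons, List.prod_cons]

lemma prP_ne (L : List Loc) (hp : ∀ l ∈ L, Prime l.p) (a : Eis → ℕ) : prP L a ≠ 0 := by
  induction L with
  | nil => simp [prP]
  | cons l L ih =>
    rw [prP_cons]
    exact mul_ne_zero (pow_ne_zero _ (hp l (by simp)).ne_zero) (ih fun a ha => hp a (by simp [ha]))

lemma prP_add (L : List Loc) (a b : Eis → ℕ) :
    prP L (fun p => a p + b p) = prP L a * prP L b := by
  induction L with
  | nil => simp [prP]
  | cons l L ih =>
    rw [prP_cons, prP_cons, prP_cons, ih, pow_add]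
    ring

lemma prP_smul (L : List Loc) (n : ℕ) (a : Eis → ℕ) :
    prP L (fun p => n * a p) = prP L a ^ n := by
  induction L with
  | nil => simp [prP]
  | cons l L ih =>
    rw [prP_cons, prP_cons, ih, mul_pow, ← pow_mul, mul_comm n]

lemma prP_congr (L : List Loc) {a b : Eis → ℕ} (h : ∀ l ∈ L, a l.p = b l.p) :
    prP L a = prP L b := by
  unfold prP
  congr 1
  apply List.map_congr_left
  intro l hl
  rw [h l hl]

/-- `q ∤ prP L a` for primes `q` outside the list. -/
lemma not_dvd_prP (L : List Loc) (hp : ∀ l ∈ L, Prime l.p) {q : Eis} (hq : Prime q)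
    (hqL : ∀ l ∈ L, ¬ Associated q l.p) (a : Eis → ℕ) : ¬ q ∣ prP L a := by
  induction L with
  | nil => 
    simp only [prP, List.map_nil, List.prod_nil]
    exact fun h => hq.not_isUnit (isUnit_of_dvd_one h)
  | cons l L ih =>
    rw [prP_cons]
    intro h
    rcases hq.dvd_or_dvd h with h | h
    · exact not_dvd_of_not_assoc hq (hp l (by simp)) (hqL l (by simp)) (hq.dvd_of_dvd_pow h)
    · exact ih (fun a ha => hp a (by simp [ha])) (fun a ha => hqL a (by simp [ha])) h

lemma vp_prP (L : List Loc) (hp : ∀ l ∈ L, Prime l.p) (hd : Dist L) {x : Eis} (hx0 : x ≠ 0)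
    (a : Eis → ℕ) {l : Loc} (hl : l ∈ L) (hx : ¬ l.p ∣ x) : vp l.p (prP L a * x) = a l.p := by
  induction L with
  | nil => simp at hl
  | cons b L ih =>
    unfold Dist at hd
    rw [List.pairwise_cons] at hd
    have hp' : ∀ l ∈ L, Prime l.p := fun b hb => hp b (by simp [hb])
    have hb := hp b (by simp)
    rw [prP_cons, mul_assoc]
    rw [List.mem_cons] at hl
    have hne : prP L a * x ≠ 0 := mul_ne_zero (prP_ne L hp' a) hx0
    rcases hl with rfl | hl
    · rw [vp_mul hb (pow_ne_zero _ hb.ne_zero) hne, vp_pow_self hb, vp_of_not_dvd, add_zero]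
      intro h
      rcases hb.dvd_or_dvd h with h | h
      · exact not_dvd_prP L hp' hb hd.1 a h
      · exact hx h
    · rw [vp_mul (hp' l hl) (pow_ne_zero _ hb.ne_zero) hne, vp_other hb (hp' l hl) (hd.1 l hl),
        zero_add]
      exact ih hp' hd.2 hl

/-- decomposition of `h ≠ 0`. -/
lemma decomp (L : List Loc) (hp : ∀ l ∈ L, Prime l.p) (hd : Dist L) {h : Eis} (hh : h ≠ 0) :
    h = prP L (fun p => vp p h) * stripL L h := by
  induction L generalizing h with
  | nil => simp [prP, stripL]
  | cons l L ih =>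
    unfold Dist at hd
    rw [List.pairwise_cons] at hd
    have hp' : ∀ l ∈ L, Prime l.p := fun b hb => hp b (by simp [hb])
    have hl := hp l (by simp)
    rw [prP_cons]
    unfold stripL
    have h1 := ih hp' hd.2 (strip_ne (p := l.p) hh)
    have h2 : prP L (fun p => vp p (strip l.p h)) = prP L (fun p => vp p h) := by
      apply prP_congr
      intro b hb
      conv_rhs => rw [strip_spec (p := l.p) hh]
      rw [vp_mul (hp' b hb) (pow_ne_zero _ hl.ne_zero) (strip_ne hh),
        vp_other hl (hp' b hb) (hd.1 b hb), zero_add]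
    rw [h2] at h1
    conv_lhs => rw [strip_spec (p := l.p) hh, h1]
    ring

lemma stripL_not_dvd (L : List Loc) (hp : ∀ l ∈ L, Prime l.p) (hd : Dist L) {h : Eis} (hh : h ≠ 0)
    {l : Loc} (hl : l ∈ L) : ¬ l.p ∣ stripL L h := by
  induction L generalizing h with
  | nil => simp at hl
  | cons b L ih =>
    unfold Dist at hd
    rw [List.pairwise_cons] at hd
    have hp' : ∀ l ∈ L, Prime l.p := fun b hb => hp b (by simp [hb])
    have hb := hp b (by simp)
    unfold stripL
    rw [List.mem_cons] at hl
    rcases hl with rfl | hl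
    · intro hdv
      have h1 := decomp L hp' hd.2 (strip_ne (p := l.p) hh)
      exact strip_not_dvd hb hh (h1 ▸ hdv.mul_left _)
    · exact ih hp' hd.2 (strip_ne hh) hl

lemma stripL_prP (L : List Loc) (hp : ∀ l ∈ L, Prime l.p) (hd : Dist L) (a : Eis → ℕ)
    {x : Eis} (hx0 : x ≠ 0) (hx : ∀ l ∈ L, ¬ l.p ∣ x) : stripL L (prP L a * x) = x := by
  have hne : prP L a * x ≠ 0 := mul_ne_zero (prP_ne L hp a) hx0
  have h1 := decomp L hp hd hne
  have h2 : prP L (fun p => vp p (prP L a * x)) = prP L a :=
    prP_congr L fun l hl => vp_prP L hp hd hx0 a hl (hx l hl)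
  rw [h2] at h1
  exact (mul_left_cancel₀ (prP_ne L hp a) h1).symm

end Crest.Agent.R017.Glue681
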