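import Crest.Agent.R017.GlueW_74

/-!
# Row 17, section A: local big-cell weights at two primes (helper74)

* `loc2 p q wp wq U h = wp (v_p h) wq (v_q h) U (h')`, `h = p^a q^b h'`
* `PairW.step_p`, `PairW.step_q` : the (T)-step for local sequences
* `LS n z a0 N` : the level-one sequence; `W0_loc2`
* `StS` (Steinberg type), `YS` (half-step type) with their relations `stS_R1`, `stS_R2`, `yS_R1`, `yS_R2`.
-/

set_option autoImplicit false

noncomputable section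

open MeasureTheory Complex Set Filter
open scoped ENNReal ComplexConjugate Topology

namespace Crest.Agent.R017.GlueW74

open Crest.Agent.R012 Crest.Agent.R012.Eis Crest.Agent.R012.K695 Crest.Agent.R012.AU681
  Crest.Agent.R012.Parseval499 Crest.Agent.R017.Orth681 Crest.Agent.R017.Xn590 Crest.Agent.R017.F1
  Crest.Agent.R017.Glue681 Crest.Agent.R012.Mob705

/-! ### Unique decomposition -/

/-- two non-associated primes -/
structure TwoP (p q : Eis) : Prop where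
  hp : Prime p
  hq : Prime q
  pq : ¬ p ∣ q
  qp : ¬ q ∣ p

lemma pow_mul_unique {p : Eis} (hp : Prime p) : ∀ {a b : ℕ} {x y : Eis}, ¬ p ∣ x → ¬ p ∣ y →
    p ^ a * x = p ^ b * y → a = b ∧ x = y := by
  intro a
  induction a with
  | zero =>
    intro b x y hx hy h
    cases b with
    | zero => simpa using h
    | succ b =>
      exfalso
      apply hx
      rw [pow_zero, one_mul] at h
      rw [h, pow_succ]
      exact Dvd.intro (p ^ b * y) (by ring)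
  | succ a ih =>
    intro b x y hx hy h
    cases b with
    | zero =>
      exfalso
      apply hy
      rw [pow_zero, one_mul] at h
      rw [← h, pow_succ]
      exact Dvd.intro (p ^ a * x) (by ring)
    | succ b =>
      have h1 : p ^ a * x = p ^ b * y := by
        apply mul_left_cancel₀ hp.ne_zero
        rw [pow_succ, pow_succ] at h
        linear_combination h
      obtain ⟨h2, h3⟩ := ih hx hy h1
      exact ⟨by rw [h2], h3⟩

lemma TwoP.not_dvd {p q : Eis} (h : TwoP p q) {b : ℕ} {x : Eis} (hx : ¬ p ∣ x) :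
    ¬ p ∣ q ^ b * x := by
  intro hd
  rcases h.hp.dvd_or_dvd hd with h1 | h1
  · exact h.pq (h.hp.dvd_of_dvd_pow h1)
  · exact hx h1

lemma TwoP.unique {p q : Eis} (h : TwoP p q) {a b a' b' : ℕ} {x x' : Eis} (hx : ¬ p ∣ x)
    (hx' : ¬ p ∣ x') (hy : ¬ q ∣ x) (hy' : ¬ q ∣ x')
    (he : p ^ a * (q ^ b * x) = p ^ a' * (q ^ b' * x')) : a = a' ∧ b = b' ∧ x = x' := by
  obtain ⟨h1, h2⟩ := pow_mul_unique h.hp (h.not_dvd hx) (h.not_dvd hx') he
  obtain ⟨h3, h4⟩ := pow_mul_unique h.hq hy hy' h2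
  exact ⟨h1, h3, h4⟩

lemma exists_pow_mul {p : Eis} (hp : Prime p) {h : Eis} (hh : h ≠ 0) :
    ∃ (a : ℕ) (x : Eis), h = p ^ a * x ∧ ¬ p ∣ x := by
  have hf : FiniteMultiplicity p h := FiniteMultiplicity.of_prime_left hp hh
  obtain ⟨x, h1, h2⟩ := hf.exists_eq_pow_mul_and_not_dvd
  exact ⟨_, x, h1, h2⟩

lemma TwoP.exists {p q : Eis} (h : TwoP p q) {x : Eis} (hx : x ≠ 0) :
    ∃ (a b : ℕ) (y : Eis), x = p ^ a * (q ^ b * y) ∧ ¬ p ∣ y ∧ ¬ q ∣ y := by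
  obtain ⟨a, x1, h1, h2⟩ := exists_pow_mul h.hp hx
  have hx1 : x1 ≠ 0 := by
    rintro rfl
    exact h2 (dvd_zero p)
  obtain ⟨b, y, h3, h4⟩ := exists_pow_mul h.hq hx1
  refine ⟨a, b, y, by rw [h1, h3], ?_, h4⟩
  intro hd
  apply h2
  rw [h3]
  exact hd.mul_left _

/-! ### Local weights -/

/-- `wp (v_p h) wq (v_q h) U (h')` -/
def loc2 (p q : Eis) (wp wq : ℕ → ℂ) (U : Eis → ℂ) (h : Eis) : ℂ := by
  classical
  exact if H : ∃ t : ℕ × ℕ × Eis, h = p ^ t.1 * (q ^ t.2.1 * t.2.2) ∧ ¬ p ∣ t.2.2 ∧ ¬ q ∣ t.2.2 then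
    wp H.choose.1 * wq H.choose.2.1 * U H.choose.2.2 else 0

lemma loc2_eq {p q : Eis} (hpq : TwoP p q) (wp wq : ℕ → ℂ) (U : Eis → ℂ) (a b : ℕ) {x : Eis}
    (hx : ¬ p ∣ x) (hy : ¬ q ∣ x) :
    loc2 p q wp wq U (p ^ a * (q ^ b * x)) = wp a * wq b * U x := by
  classical
  have H : ∃ t : ℕ × ℕ × Eis, p ^ a * (q ^ b * x) = p ^ t.1 * (q ^ t.2.1 * t.2.2) ∧
      ¬ p ∣ t.2.2 ∧ ¬ q ∣ t.2.2 := ⟨(a, b, x), rfl, hx, hy⟩
  unfold loc2
  rw [dif_pos H]
  obtain ⟨h1, h2, h3⟩ := H.choose_spec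
  obtain ⟨h4, h5, h6⟩ := hpq.unique hx h2 hy h3 h1
  rw [← h4, ← h5, ← h6]

/-- bounded sequences -/
def BdS (w : ℕ → ℂ) : Prop := ∃ B : ℝ, ∀ k, ‖w k‖ ≤ B

lemma bd_loc2 {p q : Eis} {wp wq : ℕ → ℂ} {U : Eis → ℂ} (hp : BdS wp) (hq : BdS wq)
    (hU : Bd U) : Bd (loc2 p q wp wq U) := by
  classical
  obtain ⟨B1, h1⟩ := hp
  obtain ⟨B2, h2⟩ := hq
  obtain ⟨B3, h3⟩ := hU
  have k1 : 0 ≤ B1 := (norm_nonneg _).trans (h1 0)
  have k2 : 0 ≤ B2 := (norm_nonneg _).trans (h2 0)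
  have k3 : 0 ≤ B3 := (norm_nonneg _).trans (h3 0)
  refine ⟨B1 * B2 * B3, fun h => ?_⟩
  unfold loc2
  split_ifs with H
  · rw [norm_mul, norm_mul]
    exact mul_le_mul (mul_le_mul (h1 _) (h2 _) (norm_nonneg _) k1) (h3 _) (norm_nonneg _)
      (by positivity)
  · rw [norm_zero]
    positivity

/-- shifted sequence -/
def shS (d : ℕ) (w : ℕ → ℂ) (k : ℕ) : ℂ := if d ≤ k then w (k - d) else 0

lemma sh_loc2_p {p q : Eis} (hpq : TwoP p q) (wp wq : ℕ → ℂ) (U : Eis → ℂ) (d a b : ℕ) {x : Eis}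
    (hx : ¬ p ∣ x) (hy : ¬ q ∣ x) :
    sh (p ^ d) (loc2 p q wp wq U) (p ^ a * (q ^ b * x)) = shS d wp a * wq b * U x := by
  unfold shS
  split_ifs with hd
  · have e : p ^ a * (q ^ b * x) = p ^ d * (p ^ (a - d) * (q ^ b * x)) := by
      rw [← mul_assoc (p ^ d), ← pow_add, Nat.add_sub_cancel' hd]
    rw [e, sh_mul (pow_ne_zero d hpq.hp.ne_zero), loc2_eq hpq wp wq U _ _ hx hy]
  · rw [sh_of_not, zero_mul, zero_mul]
    rintro ⟨t, ht⟩
    apply hpq.not_dvd (b := b) hx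
    push Not at hd
    have h1 : p ^ a * (q ^ b * x) = p ^ a * (p ^ (d - a) * t) := by
      rw [ht, ← mul_assoc, ← pow_add, Nat.add_sub_cancel' hd.le]
    have h2 := mul_left_cancel₀ (pow_ne_zero a hpq.hp.ne_zero) h1
    rw [h2]
    exact (dvd_pow_self p (by omega)).mul_right t

lemma TwoP.symm {p q : Eis} (h : TwoP p q) : TwoP q p := ⟨h.hq, h.hp, h.qp, h.pq⟩

lemma sh_loc2_q {p q : Eis} (hpq : TwoP p q) (wp wq : ℕ → ℂ) (U : Eis → ℂ) (d a b : ℕ) {x : Eis}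
    (hx : ¬ p ∣ x) (hy : ¬ q ∣ x) :
    sh (q ^ d) (loc2 p q wp wq U) (p ^ a * (q ^ b * x)) = wp a * shS d wq b * U x := by
  unfold shS
  split_ifs with hd
  · have e : p ^ a * (q ^ b * x) = q ^ d * (p ^ a * (q ^ (b - d) * x)) := by
      have : q ^ b = q ^ d * q ^ (b - d) := by rw [← pow_add, Nat.add_sub_cancel' hd]
      rw [this]; ring
    rw [e, sh_mul (pow_ne_zero d hpq.hq.ne_zero), loc2_eq hpq wp wq U _ _ hx hy]
  · rw [sh_of_not]
    · ring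
    rintro ⟨t, ht⟩
    apply hpq.symm.not_dvd (b := a) hy
    push Not at hd
    have h1 : q ^ b * (p ^ a * x) = q ^ b * (q ^ (d - b) * t) := by
      have : q ^ d = q ^ b * q ^ (d - b) := by rw [← pow_add, Nat.add_sub_cancel' hd.le]
      rw [← mul_assoc (q ^ b) (q ^ (d - b)), ← this, ← ht]; ring
    have h2 := mul_left_cancel₀ (pow_ne_zero b hpq.hq.ne_zero) h1
    rw [h2]
    exact (dvd_pow_self q (by omega)).mul_right t

/-- the (T)-step at `p` -/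
theorem PairW.step_p {s K K' : ℂ} {p q : Eis} (hpq : TwoP p q) {wp wq wp' wq' : ℕ → ℂ}
    {U U' : Eis → ℂ} {F F' : Vec → ℂ}
    (P : PairW s K K' (loc2 p q wp wq U) (loc2 p q wp' wq' U') F F') (d : ℕ) {κ α β ρ : ℂ}
    {wp1 wp1' : ℕ → ℂ} (h1 : BdS wp1) (h1' : BdS wp1') (hq : BdS wq) (hq' : BdS wq')
    (hU : Bd U) (hU' : Bd U')
    (R1 : ∀ k, wp1 k + κ * shS d wp1 k = α * wp k + β * shS d wp k)
    (R2 : ∀ k, β * wp1' k + α * shS d wp1' k = ρ * (κ * wp' k + shS d wp' k)) :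
    PairW s K (ρ * K') (loc2 p q wp1 wq U) (loc2 p q wp1' wq' U')
      (lc 1 (κ * ((‖toC (p ^ d)‖ ^ 2 : ℝ) : ℂ)) F (dil (toC (p ^ d)) F))
      (lc α (β * (((‖toC (p ^ d)‖ ^ 2)⁻¹ : ℝ) : ℂ)) F' (dil (toC (p ^ d))⁻¹ F')) := by
  refine P.step (pow_ne_zero d hpq.hp.ne_zero) (bd_loc2 h1 hq hU) (bd_loc2 h1' hq' hU') ?_ ?_
  · intro h hh
    obtain ⟨a, b, x, rfl, hx, hy⟩ := hpq.exists hh
    rw [sh_loc2_p hpq _ _ _ _ _ _ hx hy, sh_loc2_p hpq _ _ _ _ _ _ hx hy,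
      loc2_eq hpq _ _ _ _ _ hx hy, loc2_eq hpq _ _ _ _ _ hx hy]
    linear_combination (wq b * U x) * R1 a
  · intro h hh
    obtain ⟨a, b, x, rfl, hx, hy⟩ := hpq.exists hh
    rw [sh_loc2_p hpq _ _ _ _ _ _ hx hy, sh_loc2_p hpq _ _ _ _ _ _ hx hy,
      loc2_eq hpq _ _ _ _ _ hx hy, loc2_eq hpq _ _ _ _ _ hx hy]
    linear_combination (wq' b * U' x) * R2 a

/-- the (T)-step at `q` -/
theorem PairW.step_q {s K K' : ℂ} {p q : Eis} (hpq : TwoP p q) {wp wq wp' wq' : ℕ → ℂ}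
    {U U' : Eis → ℂ} {F F' : Vec → ℂ}
    (P : PairW s K K' (loc2 p q wp wq U) (loc2 p q wp' wq' U') F F') (d : ℕ) {κ α β ρ : ℂ}
    {wq1 wq1' : ℕ → ℂ} (h1 : BdS wq1) (h1' : BdS wq1') (hp : BdS wp) (hp' : BdS wp')
    (hU : Bd U) (hU' : Bd U')
    (R1 : ∀ k, wq1 k + κ * shS d wq1 k = α * wq k + β * shS d wq k)
    (R2 : ∀ k, β * wq1' k + α * shS d wq1' k = ρ * (κ * wq' k + shS d wq' k)) :
    PairW s K (ρ * K') (loc2 p q wp wq1 U) (loc2 p q wp' wq1' U')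
      (lc 1 (κ * ((‖toC (q ^ d)‖ ^ 2 : ℝ) : ℂ)) F (dil (toC (q ^ d)) F))
      (lc α (β * (((‖toC (q ^ d)‖ ^ 2)⁻¹ : ℝ) : ℂ)) F' (dil (toC (q ^ d))⁻¹ F')) := by
  refine P.step (pow_ne_zero d hpq.hq.ne_zero) (bd_loc2 hp h1 hU) (bd_loc2 hp' h1' hU') ?_ ?_
  · intro h hh
    obtain ⟨a, b, x, rfl, hx, hy⟩ := hpq.exists hh
    rw [sh_loc2_q hpq _ _ _ _ _ _ hx hy, sh_loc2_q hpq _ _ _ _ _ _ hx hy,
      loc2_eq hpq _ _ _ _ _ hx hy, loc2_eq hpq _ _ _ _ _ hx hy]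
    linear_combination (wp a * U x) * R1 b
  · intro h hh
    obtain ⟨a, b, x, rfl, hx, hy⟩ := hpq.exists hh
    rw [sh_loc2_q hpq _ _ _ _ _ _ hx hy, sh_loc2_q hpq _ _ _ _ _ _ hx hy,
      loc2_eq hpq _ _ _ _ _ hx hy, loc2_eq hpq _ _ _ _ _ hx hy]
    linear_combination (wp' a * U' x) * R2 b

/-! ### `PL` at an arbitrary prime -/

lemma PL_unit_mul {u j : Eis} (hu : IsUnit u) (hj : j ≠ 0) : PL (u * j) = PL j := by
  classical
  have h1 : lam ∣ u * j ↔ lam ∣ j := hu.dvd_mul_left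
  have h2 : PE (u * j) = PE j := by
    unfold PE
    rw [pp_mul hu.ne_zero hj, XnDiv960.pp_unit hu, Finset.empty_union]
  unfold PL
  rw [h2]
  simp only [h1]

lemma PL_prime_mul {p : Eis} (hp : Prime p) {j : Eis} (hj : j ≠ 0) :
    (p ∣ j → PL (p * j) = PL j) ∧ (¬ p ∣ j → PL (p * j) = (1 - 1 / (nm p : ℝ)) * PL j) := by
  obtain ⟨p0, hg, hd⟩ := XnDiv960.exists_gp hp.ne_zero hp.not_isUnit
  have hass : Associated p0 p := hg.prime.associated_of_dvd hp hd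
  obtain ⟨u, hu⟩ := hass
  have e : p * j = (u : Eis) * (p0 * j) := by rw [← hu]; ring
  have hdv : p ∣ j ↔ p0 ∣ j := by rw [← hu]; exact u.isUnit.mul_right_dvd
  have hnm : nm p = nm p0 := by
    rw [← hu, nm_mul, isUnit_iff.mp u.isUnit, mul_one]
  have h1 := XnDiv960.PL_gp_mul hg hj
  rw [e, PL_unit_mul u.isUnit (mul_ne_zero hg.prime.ne_zero hj), hdv, hnm]
  exact h1

lemma PL_pow_mul {p : Eis} (hp : Prime p) {j : Eis} (hj : j ≠ 0) (hpj : ¬ p ∣ j) (i : ℕ) :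
    PL (p ^ i * j) = (if i = 0 then 1 else 1 - 1 / (nm p : ℝ)) * PL j := by
  cases i with
  | zero => simp
  | succ i =>
    rw [if_neg (Nat.succ_ne_zero i)]
    induction i with
    | zero =>
      rw [pow_one]
      exact (PL_prime_mul hp hj).2 hpj
    | succ i ih =>
      have e : p ^ (i + 1 + 1) * j = p * (p ^ (i + 1) * j) := by ring
      rw [e, (PL_prime_mul hp (mul_ne_zero (pow_ne_zero _ hp.ne_zero) hj)).1
        ((dvd_pow_self p (Nat.succ_ne_zero i)).mul_right j), ih]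

/-! ### The level-one sequence -/

/-- the level-one local sequence: `z^i (1 - 1/N)` at `a0 + n i` (`1` at `a0`) -/
def LS (n : ℕ) (z : ℂ) (N : ℝ) (a0 k : ℕ) : ℂ :=
  if a0 ≤ k ∧ n ∣ (k - a0) then z ^ ((k - a0) / n) * (if k = a0 then 1 else ((1 - 1 / N : ℝ) : ℂ))
  else 0

lemma LS_at {n : ℕ} (hn : n ≠ 0) (z : ℂ) (N : ℝ) (a0 i : ℕ) :
    LS n z N a0 (a0 + n * i) = z ^ i * (if i = 0 then 1 else ((1 - 1 / N : ℝ) : ℂ)) := by
  unfold LS
  have e1 : a0 + n * i - a0 = n * i := by omega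
  rw [e1, if_pos ⟨by omega, Dvd.intro i rfl⟩, Nat.mul_div_cancel_left _ (Nat.pos_of_ne_zero hn)]
  congr 1
  have h1 : a0 + n * i = a0 ↔ i = 0 := by
    constructor
    · intro h
      have : n * i = 0 := by omega
      rcases Nat.mul_eq_zero.mp this with h2 | h2
      · exact absurd h2 hn
      · exact h2
    · rintro rfl; simp
  simp only [h1]

/-- **The level-one weight is local.** -/
theorem W0_loc2 {n : ℕ} (hn : n ≠ 0) {p q : Eis} (hpq : TwoP p q) {ξ : Eis → ℂ}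
    (hmul : ∀ a b, ξ (a * b) = ξ a * ξ b) (a0 b0 : ℕ) {e1 : Eis} (he1 : ¬ p ∣ e1) (he1' : ¬ q ∣ e1)
    {h : Eis} (hh : h ≠ 0) :
    W0 n (p ^ a0 * (q ^ b0 * e1)) ξ h =
      loc2 p q (LS n (ξ p) (nm p) a0) (LS n (ξ q) (nm q) b0) (W0 n e1 ξ) h := by
  classical
  have he0 : e1 ≠ 0 := by rintro rfl; exact he1 (dvd_zero _)
  have hpow : ∀ (x : Eis) (i : ℕ) (y : Eis), ξ (x ^ i * y) = ξ x ^ i * ξ y := by
    intro x i y
    induction i with
    | zero => simp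
    | succ i ih =>
      have : x ^ (i + 1) * y = x * (x ^ i * y) := by ring
      rw [this, hmul, ih]; ring
  obtain ⟨a, b, x, rfl, hx, hy⟩ := hpq.exists hh
  rw [loc2_eq hpq _ _ _ _ _ hx hy]
  -- decomposition of a root
  have hroot : ∀ j : Eis, j ≠ 0 → p ^ a0 * (q ^ b0 * e1) * j ^ n = p ^ a * (q ^ b * x) →
      ∃ i k : ℕ, ∃ j1 : Eis, a = a0 + n * i ∧ b = b0 + n * k ∧ j = p ^ i * (q ^ k * j1) ∧
        e1 * j1 ^ n = x := by
    intro j hj he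
    obtain ⟨i, k, j1, rfl, h1, h2⟩ := hpq.exists hj
    have e2 : p ^ (a0 + n * i) * (q ^ (b0 + n * k) * (e1 * j1 ^ n)) = p ^ a * (q ^ b * x) := by
      rw [← he]
      rw [mul_pow, mul_pow, ← pow_mul, ← pow_mul, pow_add, pow_add, mul_comm i n, mul_comm k n]
      ring
    have h3 : ¬ p ∣ e1 * j1 ^ n := by
      intro hd
      rcases hpq.hp.dvd_or_dvd hd with h4 | h4
      · exact he1 h4
      · exact h1 (hpq.hp.dvd_of_dvd_pow h4)
    have h3' : ¬ q ∣ e1 * j1 ^ n := by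
      intro hd
      rcases hpq.hq.dvd_or_dvd hd with h4 | h4
      · exact he1' h4
      · exact h2 (hpq.hq.dvd_of_dvd_pow h4)
    obtain ⟨h5, h6, h7⟩ := hpq.unique h3 hx h3' hy e2
    exact ⟨i, k, j1, h5.symm, h6.symm, rfl, h7⟩
  by_cases hc : ∃ i k : ℕ, a = a0 + n * i ∧ b = b0 + n * k
  · obtain ⟨i, k, rfl, rfl⟩ := hc
    rw [LS_at hn, LS_at hn]
    unfold W0
    have hpik : p ^ i * q ^ k ≠ 0 := mul_ne_zero (pow_ne_zero _ hpq.hp.ne_zero)
      (pow_ne_zero _ hpq.hq.ne_zero)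
    have hinj : Function.Injective (fun j : Eis => p ^ i * (q ^ k * j)) := by
      intro x y h
      simp only at h
      exact mul_left_cancel₀ hpik (by linear_combination h)
    rw [← hinj.tsum_eq (f := fun j : Eis => if j ≠ 0 ∧ p ^ a0 * (q ^ b0 * e1) * j ^ n =
      p ^ (a0 + n * i) * (q ^ (b0 + n * k) * x) then ξ j * (PL j : ℂ) else 0)]
    · suffices hkey : (∑' j1 : Eis, if p ^ i * (q ^ k * j1) ≠ 0 ∧
          p ^ a0 * (q ^ b0 * e1) * (p ^ i * (q ^ k * j1)) ^ n =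
          p ^ (a0 + n * i) * (q ^ (b0 + n * k) * x) then
            ξ (p ^ i * (q ^ k * j1)) * (PL (p ^ i * (q ^ k * j1)) : ℂ) else 0) =
          (ξ p ^ i * (if i = 0 then 1 else ((1 - 1 / (nm p : ℝ) : ℝ) : ℂ)) *
            (ξ q ^ k * (if k = 0 then 1 else ((1 - 1 / (nm q : ℝ) : ℝ) : ℂ)))) *
          ∑' j : Eis, (if j ≠ 0 ∧ e1 * j ^ n = x then ξ j * (PL j : ℂ) else 0) by
        rw [hkey]; ring
      rw [← tsum_mul_left]
      refine tsum_congr fun j1 => ?_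
      have e3 : p ^ a0 * (q ^ b0 * e1) * (p ^ i * (q ^ k * j1)) ^ n =
          p ^ (a0 + n * i) * (q ^ (b0 + n * k) * (e1 * j1 ^ n)) := by
        rw [mul_pow, mul_pow, ← pow_mul, ← pow_mul, pow_add, pow_add, mul_comm i n, mul_comm k n]
        ring
      have hiff : (p ^ i * (q ^ k * j1) ≠ 0 ∧ p ^ a0 * (q ^ b0 * e1) * (p ^ i * (q ^ k * j1)) ^ n =
          p ^ (a0 + n * i) * (q ^ (b0 + n * k) * x)) ↔ (j1 ≠ 0 ∧ e1 * j1 ^ n = x) := by
        rw [e3]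
        constructor
        · rintro ⟨h1, h2⟩
          refine ⟨?_, ?_⟩
          · rintro rfl; simp at h1
          · exact mul_left_cancel₀ (pow_ne_zero _ hpq.hq.ne_zero)
              (mul_left_cancel₀ (pow_ne_zero _ hpq.hp.ne_zero) h2)
        · rintro ⟨h1, h2⟩
          refine ⟨?_, by rw [h2]⟩
          exact mul_ne_zero (pow_ne_zero _ hpq.hp.ne_zero)
            (mul_ne_zero (pow_ne_zero _ hpq.hq.ne_zero) h1)
      simp only [hiff]
      by_cases hcond : j1 ≠ 0 ∧ e1 * j1 ^ n = x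
      · rw [if_pos hcond, if_pos hcond]
        have h1 : ¬ p ∣ j1 := by
          intro hd
          apply hx
          rw [← hcond.2]
          exact (dvd_pow hd hn).mul_left _
        have h2 : ¬ q ∣ j1 := by
          intro hd
          apply hy
          rw [← hcond.2]
          exact (dvd_pow hd hn).mul_left _
        rw [hpow, hpow, PL_pow_mul hpq.hp (mul_ne_zero (pow_ne_zero _ hpq.hq.ne_zero) hcond.1)
          (hpq.not_dvd h1), PL_pow_mul hpq.hq hcond.1 h2]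
        split_ifs <;> push_cast <;> ring
      · rw [if_neg hcond, if_neg hcond, mul_zero]
    · intro j hj
      rw [Function.mem_support] at hj
      have hc : j ≠ 0 ∧ p ^ a0 * (q ^ b0 * e1) * j ^ n =
          p ^ (a0 + n * i) * (q ^ (b0 + n * k) * x) := by
        by_contra hno
        exact hj (if_neg hno)
      obtain ⟨i', k', j1, h1, h2, h3, h4⟩ := hroot j hc.1 hc.2
      have hi : i = i' := by
        have : n * i = n * i' := by omega
        exact Nat.eq_of_mul_eq_mul_left (Nat.pos_of_ne_zero hn) this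
      have hk : k = k' := by
        have : n * k = n * k' := by omega
        exact Nat.eq_of_mul_eq_mul_left (Nat.pos_of_ne_zero hn) this
      exact ⟨j1, by rw [h3, hi, hk]⟩
  · have h0 : W0 n (p ^ a0 * (q ^ b0 * e1)) ξ (p ^ a * (q ^ b * x)) = 0 := by
      apply W0_zero
      rintro ⟨j, hj, he⟩
      obtain ⟨i, k, j1, h1, h2, -, -⟩ := hroot j hj he
      exact hc ⟨i, k, h1, h2⟩
    rw [h0]
    have hz : LS n (ξ p) (nm p) a0 a = 0 ∨ LS n (ξ q) (nm q) b0 b = 0 := by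
      by_contra hno
      push Not at hno
      apply hc
      have h1 : a0 ≤ a ∧ n ∣ (a - a0) := by
        by_contra h
        exact hno.1 (if_neg h)
      have h2 : b0 ≤ b ∧ n ∣ (b - b0) := by
        by_contra h
        exact hno.2 (if_neg h)
      obtain ⟨h3, i, h4⟩ := h1
      obtain ⟨h5, k, h6⟩ := h2
      exact ⟨i, k, by omega, by omega⟩
    rcases hz with h | h
    · rw [h]; ring
    · rw [h]; ring

/-! ### Sequences with step `d` -/

/-- the sequence `u((k - a0)/d)` -/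
def GS (d a0 : ℕ) (u : ℕ → ℂ) (k : ℕ) : ℂ := if a0 ≤ k ∧ d ∣ (k - a0) then u ((k - a0) / d) else 0

lemma GS_at {d : ℕ} (hd : d ≠ 0) (a0 : ℕ) (u : ℕ → ℂ) (i : ℕ) : GS d a0 u (a0 + d * i) = u i := by
  unfold GS
  have e1 : a0 + d * i - a0 = d * i := by omega
  rw [e1, if_pos ⟨by omega, Dvd.intro i rfl⟩, Nat.mul_div_cancel_left _ (Nat.pos_of_ne_zero hd)]

lemma GS_not {d a0 : ℕ} (u : ℕ → ℂ) {k : ℕ} (h : ¬ ∃ i, k = a0 + d * i) : GS d a0 u k = 0 := by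
  unfold GS
  rw [if_neg]
  rintro ⟨h1, i, h2⟩
  exact h ⟨i, by omega⟩

lemma shS_GS {d : ℕ} (hd : d ≠ 0) (a0 : ℕ) (u : ℕ → ℂ) (k : ℕ) :
    shS d (GS d a0 u) k = GS d a0 (shS 1 u) k := by
  by_cases hk : ∃ i, k = a0 + d * i
  · obtain ⟨i, rfl⟩ := hk
    rw [GS_at hd]
    cases i with
    | zero =>
      have : shS 1 u 0 = 0 := by unfold shS; simp
      rw [this]
      unfold shS
      split_ifs with h
      · apply GS_not
        rintro ⟨i, hi⟩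
        have := Nat.pos_of_ne_zero hd
        omega
      · rfl
    | succ i =>
      have e : shS 1 u (i + 1) = u i := by
        unfold shS
        rw [if_pos (by omega)]
        simp
      rw [e]
      unfold shS
      have h1 : a0 + d * (i + 1) - d = a0 + d * i := by
        rw [Nat.mul_succ]; omega
      rw [if_pos (by rw [Nat.mul_succ]; omega), h1, GS_at hd]
  · rw [GS_not _ hk]
    unfold shS
    split_ifs with h
    · apply GS_not
      rintro ⟨i, hi⟩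
      exact hk ⟨i + 1, by rw [Nat.mul_succ]; omega⟩
    · rfl

lemma bdS_GS {d a0 : ℕ} {u : ℕ → ℂ} (hu : BdS u) : BdS (GS d a0 u) := by
  obtain ⟨B, hB⟩ := hu
  refine ⟨B, fun k => ?_⟩
  unfold GS
  split_ifs
  · exact hB _
  · rw [norm_zero]
    exact (norm_nonneg _).trans (hB 0)

/-- transfer of relations -/
lemma GS_rel {d : ℕ} (hd : d ≠ 0) (a0 : ℕ) {u v : ℕ → ℂ} {a b c e : ℂ}
    (h : ∀ i, a * u i + b * shS 1 u i = c * v i + e * shS 1 v i) (k : ℕ) :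
    a * GS d a0 u k + b * shS d (GS d a0 u) k = c * GS d a0 v k + e * shS d (GS d a0 v) k := by
  rw [shS_GS hd, shS_GS hd]
  by_cases hk : ∃ i, k = a0 + d * i
  · obtain ⟨i, rfl⟩ := hk
    rw [GS_at hd, GS_at hd, GS_at hd, GS_at hd]
    exact h i
  · rw [GS_not _ hk, GS_not _ hk, GS_not _ hk, GS_not _ hk]
    ring

/-- level one, step `n` -/
def lv (z : ℂ) (N : ℝ) (i : ℕ) : ℂ := z ^ i * (if i = 0 then 1 else ((1 - 1 / N : ℝ) : ℂ))

lemma LS_eq {n : ℕ} (hn : n ≠ 0) (z : ℂ) (N : ℝ) (a0 : ℕ) : LS n z N a0 = GS n a0 (lv z N) := by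
  funext k
  by_cases hk : ∃ i, k = a0 + n * i
  · obtain ⟨i, rfl⟩ := hk
    rw [LS_at hn, GS_at hn]
    rfl
  · rw [GS_not _ hk]
    unfold LS
    rw [if_neg]
    rintro ⟨h1, i, h2⟩
    exact hk ⟨i, by omega⟩

/-- Steinberg type: `c (-1/N; z^i (1 - 1/N))` -/
def stq (c z : ℂ) (N : ℝ) (i : ℕ) : ℂ :=
  c * (if i = 0 then ((-(1 / N) : ℝ) : ℂ) else z ^ i * ((1 - 1 / N : ℝ) : ℂ))

lemma shS_zero (u : ℕ → ℂ) : shS 1 u 0 = 0 := by unfold shS; simp

lemma shS_succ (u : ℕ → ℂ) (i : ℕ) : shS 1 u (i + 1) = u i := by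
  unfold shS
  rw [if_pos (by omega)]
  simp

lemma stq_R1 (c z : ℂ) (N : ℝ) (i : ℕ) :
    1 * stq c z N i + (-(z / N)) * shS 1 (stq c z N) i =
      (-(c / N)) * lv z N i + (c * z) * shS 1 (lv z N) i := by
  match i with
  | 0 =>
    rw [shS_zero, shS_zero]
    unfold stq lv
    simp
    ring
  | 1 =>
    rw [shS_succ, shS_succ]
    unfold stq lv
    simp
    ring
  | (i + 2) =>
    rw [shS_succ, shS_succ]
    unfold stq lv
    simp only [Nat.add_eq_zero_iff, OfNat.ofNat_ne_zero, and_false, if_false, one_ne_zero]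
    push_cast
    ring

lemma stq_R2 {c c' z z' : ℂ} (hz : z * z' = 1) (N : ℝ) (i : ℕ) :
    (c * z) * stq c' z' N i + (-(c / N)) * shS 1 (stq c' z' N) i =
      (c * c' * (-(z / N))) * lv z' N i + (c * c') * shS 1 (lv z' N) i := by
  match i with
  | 0 =>
    rw [shS_zero, shS_zero]
    unfold stq lv
    simp
    ring
  | 1 =>
    rw [shS_succ, shS_succ]
    unfold stq lv
    simp only [if_true, one_ne_zero, if_false, pow_one, pow_zero]
    push_cast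
    linear_combination (c * c' * (1 - 1 / (N : ℂ)) * (1 + 1 / (N : ℂ))) * hz
  | (i + 2) =>
    rw [shS_succ, shS_succ]
    unfold stq lv
    simp only [Nat.add_eq_zero_iff, OfNat.ofNat_ne_zero, and_false, if_false, one_ne_zero]
    push_cast
    linear_combination (c * c' * (1 - 1 / (N : ℂ)) * (1 + 1 / (N : ℂ)) * z' ^ (i + 1)) * hz

/-- level one in half steps (`z = y²`) -/
def lvh (y : ℂ) (N : ℝ) (i : ℕ) : ℂ :=
  if Even i then y ^ i * (if i = 0 then 1 else ((1 - 1 / N : ℝ) : ℂ)) else 0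

lemma LS_eq_half {d : ℕ} (hd : d ≠ 0) (y : ℂ) (N : ℝ) (a0 : ℕ) :
    LS (2 * d) (y ^ 2) N a0 = GS d a0 (lvh y N) := by
  have h2d : 2 * d ≠ 0 := by omega
  funext k
  by_cases hk : ∃ i, k = a0 + d * i
  · obtain ⟨i, rfl⟩ := hk
    rw [GS_at hd]
    unfold lvh
    split_ifs with h1 h2
    · subst h2
      have := LS_at h2d (y ^ 2) N a0 0
      simpa using this
    · obtain ⟨j, hj⟩ := h1
      have e : a0 + d * i = a0 + 2 * d * j := by rw [hj]; ring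
      rw [e, LS_at h2d, if_neg (by omega), ← pow_mul, hj]
      congr 2
      omega
    · unfold LS
      rw [if_neg]
      rintro ⟨-, j, hj⟩
      apply h1
      have h3 : a0 + d * i - a0 = d * i := by omega
      rw [h3] at hj
      have h4 : i = 2 * j := Nat.eq_of_mul_eq_mul_left (Nat.pos_of_ne_zero hd) (by rw [hj]; ring)
      exact ⟨j, by omega⟩
  · rw [GS_not _ hk]
    unfold LS
    rw [if_neg]
    rintro ⟨h1, j, h2⟩
    exact hk ⟨2 * j, by rw [← mul_assoc, mul_comm d 2]; omega⟩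

/-- half-step type: `c (κ; y^i (1 - 1/N), i odd)` -/
def ytq (c κ y : ℂ) (N : ℝ) (i : ℕ) : ℂ :=
  c * (if i = 0 then κ else if Even i then 0 else y ^ i * ((1 - 1 / N : ℝ) : ℂ))

lemma ytq_R1 {c κ y : ℂ} {N : ℝ} (hκ : κ ^ 2 = ((1 / N : ℝ) : ℂ)) (i : ℕ) :
    1 * ytq c κ y N i + (κ * y) * shS 1 (ytq c κ y N) i =
      (c * κ) * lvh y N i + (c * y) * shS 1 (lvh y N) i := by
  match i with
  | 0 =>
    rw [shS_zero, shS_zero]
    unfold ytq lvh
    simp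
  | 1 =>
    rw [shS_succ, shS_succ]
    unfold ytq lvh
    simp only [if_true, one_ne_zero, if_false, pow_one, pow_zero, Even.zero, Nat.not_even_one]
    push_cast
    push_cast at hκ
    linear_combination (c * y) * hκ
  | (i + 2) =>
    rw [shS_succ, shS_succ]
    unfold ytq lvh
    simp only [Nat.add_eq_zero_iff, OfNat.ofNat_ne_zero, and_false, if_false, one_ne_zero,
      Nat.even_add_one, not_not]
    by_cases he : Even i
    · simp only [he, if_true, not_true, if_false]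
      push_cast
      ring
    · simp only [he, if_false, not_false_iff, if_true]
      push_cast
      ring

lemma ytq_R2 {c c' κ y y' : ℂ} {N : ℝ} (hκ : κ ^ 2 = ((1 / N : ℝ) : ℂ)) (hy : y * y' = 1) (i : ℕ) :
    (c * y) * ytq c' κ y' N i + (c * κ) * shS 1 (ytq c' κ y' N) i =
      (c * c' * (κ * y)) * lvh y' N i + (c * c') * shS 1 (lvh y' N) i := by
  match i with
  | 0 =>
    rw [shS_zero, shS_zero]
    unfold ytq lvh
    simp
    ring
  | 1 =>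
    rw [shS_succ, shS_succ]
    unfold ytq lvh
    simp only [if_true, one_ne_zero, if_false, pow_one, pow_zero, Even.zero, Nat.not_even_one]
    push_cast
    push_cast at hκ
    linear_combination (c * c') * hκ + (c * c' * (1 - 1 / (N : ℂ))) * hy
  | (i + 2) =>
    rw [shS_succ, shS_succ]
    unfold ytq lvh
    simp only [Nat.add_eq_zero_iff, OfNat.ofNat_ne_zero, and_false, if_false, one_ne_zero,
      Nat.even_add_one, not_not]
    by_cases he : Even i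
    · simp only [he, if_true, not_true, if_false]
      push_cast
      linear_combination (-(c * c' * κ * (1 - 1 / (N : ℂ)) * y' ^ (i + 1))) * hy
    · simp only [he, if_false, not_false_iff, if_true]
      push_cast
      linear_combination (c * c' * (1 - 1 / (N : ℂ)) * y' ^ (i + 1)) * hy

/-! ### Bounds -/

lemma one_sub_inv_bd {N : ℝ} (hN : 1 ≤ N) : ‖((1 - 1 / N : ℝ) : ℂ)‖ ≤ 1 := by
  rw [Complex.norm_real, Real.norm_of_nonneg]
  · have : 0 ≤ 1 / N := by positivity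
    linarith
  · have : 1 / N ≤ 1 := by rw [div_le_one (by linarith)]; exact hN
    linarith

lemma bdS_lv {z : ℂ} (hz : ‖z‖ ≤ 1) {N : ℝ} (hN : 1 ≤ N) : BdS (lv z N) := by
  refine ⟨1, fun i => ?_⟩
  unfold lv
  rw [norm_mul, norm_pow]
  have h1 : ‖z‖ ^ i ≤ 1 := pow_le_one₀ (norm_nonneg z) hz
  have h2 : ‖(if i = 0 then (1 : ℂ) else ((1 - 1 / N : ℝ) : ℂ))‖ ≤ 1 := by
    split_ifs
    · simp
    · exact one_sub_inv_bd hN
  exact mul_le_one₀ h1 (norm_nonneg _) h2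

lemma bdS_LS {n : ℕ} (hn : n ≠ 0) {z : ℂ} (hz : ‖z‖ ≤ 1) {N : ℝ} (hN : 1 ≤ N) (a0 : ℕ) :
    BdS (LS n z N a0) := by
  rw [LS_eq hn]
  exact bdS_GS (bdS_lv hz hN)

lemma bdS_stq (c : ℂ) {z : ℂ} (hz : ‖z‖ ≤ 1) {N : ℝ} (hN : 1 ≤ N) : BdS (stq c z N) := by
  refine ⟨‖c‖, fun i => ?_⟩
  unfold stq
  rw [norm_mul]
  refine mul_le_of_le_one_right (norm_nonneg c) ?_
  split_ifs
  · rw [Complex.norm_real, norm_neg, Real.norm_of_nonneg (by positivity), div_le_one (by linarith)]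
    exact hN
  · rw [norm_mul, norm_pow]
    exact mul_le_one₀ (pow_le_one₀ (norm_nonneg z) hz) (norm_nonneg _) (one_sub_inv_bd hN)

lemma bdS_ytq (c κ : ℂ) {y : ℂ} (hy : ‖y‖ ≤ 1) {N : ℝ} (hN : 1 ≤ N) : BdS (ytq c κ y N) := by
  refine ⟨‖c‖ * (‖κ‖ + 1), fun i => ?_⟩
  unfold ytq
  rw [norm_mul]
  refine mul_le_mul_of_nonneg_left ?_ (norm_nonneg c)
  have h0 := norm_nonneg κ
  split_ifs
  · linarith
  · rw [norm_zero]; linarith
  · rw [norm_mul, norm_pow]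
    have := mul_le_one₀ (pow_le_one₀ (n := i) (norm_nonneg y) hy) (norm_nonneg _) (one_sub_inv_bd hN)
    linarith

/-! ### The base pair and the four steps -/

lemma PairW.congr {s K K' : ℂ} {W W' W1 W1' : Eis → ℂ} {F F' : Vec → ℂ}
    (P : PairW s K K' W W' F F') (hb : Bd W1) (hb' : Bd W1') (h : ∀ x, x ≠ 0 → W x = W1 x)
    (h' : ∀ x, x ≠ 0 → W' x = W1' x) : PairW s K K' W1 W1' F F' where
  tst := P.tst
  tst' := P.tst'
  bd := hb
  bd' := hb'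
  m1 M hM := by rw [← MW_congr h]; exact P.m1 M hM
  m2 M hM := by rw [← MW_congr h']; exact P.m2 M hM

lemma Bd.smul {W : Eis → ℂ} (hW : Bd W) (c : ℂ) : Bd (fun x => c * W x) := by
  have := hW.lin hW c 0
  simpa using this

lemma one_le_nm {p : Eis} (hp : p ≠ 0) : (1 : ℝ) ≤ nm p := by
  exact_mod_cast nm_pos.mpr hp

/-- **The base pair with local weights at `p`, `q`.** -/
theorem base_loc2 {n : ℕ} (hn : n ≠ 0) {p q : Eis} (hpq : TwoP p q) {s : ℂ} {ξ : Eis → ℂ}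
    (hmul : ∀ a b, ξ (a * b) = ξ a * ξ b) (hξ : ∀ a, ‖ξ a‖ ≤ 1) {V : ℝ} (hV : V ≠ 0)
    (a0 b0 : ℕ) {e1 : Eis} (he1 : ¬ p ∣ e1) (he1' : ¬ q ∣ e1) {B B' : ℂ} {F F' : Vec → ℂ}
    (h : FEPairN n s ξ V (toC (p ^ a0 * (q ^ b0 * e1))) B B' F F') (K K' : ℂ) :
    PairW s K K'
      (loc2 p q (LS n (ξ p) (nm p) a0) (LS n (ξ q) (nm q) b0) (fun x => K * B / V * W0 n e1 ξ x))
      (loc2 p q (LS n (conj (ξ p)) (nm p) a0) (LS n (conj (ξ q)) (nm q) b0)
        (fun x => K' * B' / V * W0 n e1 (fun j => conj (ξ j)) x)) F F' := by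
  have he0 : e1 ≠ 0 := by rintro rfl; exact he1 (dvd_zero _)
  have hne : p ^ a0 * (q ^ b0 * e1) ≠ 0 := mul_ne_zero (pow_ne_zero _ hpq.hp.ne_zero)
    (mul_ne_zero (pow_ne_zero _ hpq.hq.ne_zero) he0)
  have hξ' : ∀ a, ‖(fun j => conj (ξ j)) a‖ ≤ 1 := by
    intro a
    change ‖conj (ξ a)‖ ≤ 1
    rw [RCLike.norm_conj]
    exact hξ a
  have hcj : ∀ a, ‖conj (ξ a)‖ ≤ 1 := hξ'
  have hmul' : ∀ a b, (fun j => conj (ξ j)) (a * b) =
      (fun j => conj (ξ j)) a * (fun j => conj (ξ j)) b := by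
    intro a b
    simp only
    rw [hmul, map_mul]
  have hNp := one_le_nm hpq.hp.ne_zero
  have hNq := one_le_nm hpq.hq.ne_zero
  refine (pairW_of_FE hn hξ hV hne h K K').congr ?_ ?_ ?_ ?_
  · exact bd_loc2 (bdS_LS hn (hξ p) hNp a0) (bdS_LS hn (hξ q) hNq b0) ((bd_W0 hn he0 hξ).smul _)
  · exact bd_loc2 (bdS_LS hn (hcj p) hNp a0) (bdS_LS hn (hcj q) hNq b0)
      ((bd_W0 hn he0 hξ').smul _)
  · intro x hx
    rw [W0_loc2 hn hpq hmul a0 b0 he1 he1' hx]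
    obtain ⟨a, b, y, rfl, hy, hy'⟩ := hpq.exists hx
    rw [loc2_eq hpq _ _ _ _ _ hy hy', loc2_eq hpq _ _ _ _ _ hy hy']
    ring
  · intro x hx
    rw [W0_loc2 hn hpq hmul' a0 b0 he1 he1' hx]
    obtain ⟨a, b, y, rfl, hy, hy'⟩ := hpq.exists hx
    rw [loc2_eq hpq _ _ _ _ _ hy hy', loc2_eq hpq _ _ _ _ _ hy hy']
    ring

section steps

variable {s K K' : ℂ} {p q : Eis} {wp wq wp' wq' : ℕ → ℂ} {U U' : Eis → ℂ} {F F' : Vec → ℂ}

/-- Steinberg step at `p` -/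
theorem PairW.st_p (hpq : TwoP p q) {n : ℕ} (hn : n ≠ 0) {z z' : ℂ} (hz : ‖z‖ ≤ 1)
    (hz' : ‖z'‖ ≤ 1) (hzz : z * z' = 1) {a0 : ℕ} (c c' : ℂ)
    (P : PairW s K K' (loc2 p q (LS n z (nm p) a0) wq U) (loc2 p q (LS n z' (nm p) a0) wq' U') F F')
    (hq : BdS wq) (hq' : BdS wq') (hU : Bd U) (hU' : Bd U') :
    PairW s K (c * c' * K') (loc2 p q (GS n a0 (stq c z (nm p))) wq U)
      (loc2 p q (GS n a0 (stq c' z' (nm p))) wq' U')
      (lc 1 (-(z / (nm p : ℝ)) * ((‖toC (p ^ n)‖ ^ 2 : ℝ) : ℂ)) F (dil (toC (p ^ n)) F))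
      (lc (-(c / (nm p : ℝ))) (c * z * (((‖toC (p ^ n)‖ ^ 2)⁻¹ : ℝ) : ℂ)) F'
        (dil (toC (p ^ n))⁻¹ F')) := by
  have hN := one_le_nm hpq.hp.ne_zero
  refine P.step_p hpq n (bdS_GS (bdS_stq c hz hN)) (bdS_GS (bdS_stq c' hz' hN)) hq hq' hU hU' ?_ ?_
  · intro k
    have h := GS_rel hn a0 (stq_R1 c z (nm p)) k
    rw [LS_eq hn]
    rw [one_mul] at h
    exact h
  · intro k
    have h := GS_rel hn a0 (stq_R2 (c := c) (c' := c') hzz (nm p)) k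
    rw [LS_eq hn, h]
    ring

/-- Steinberg step at `q` -/
theorem PairW.st_q (hpq : TwoP p q) {n : ℕ} (hn : n ≠ 0) {z z' : ℂ} (hz : ‖z‖ ≤ 1)
    (hz' : ‖z'‖ ≤ 1) (hzz : z * z' = 1) {b0 : ℕ} (c c' : ℂ)
    (P : PairW s K K' (loc2 p q wp (LS n z (nm q) b0) U) (loc2 p q wp' (LS n z' (nm q) b0) U') F F')
    (hp : BdS wp) (hp' : BdS wp') (hU : Bd U) (hU' : Bd U') :
    PairW s K (c * c' * K') (loc2 p q wp (GS n b0 (stq c z (nm q))) U)
      (loc2 p q wp' (GS n b0 (stq c' z' (nm q))) U')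
      (lc 1 (-(z / (nm q : ℝ)) * ((‖toC (q ^ n)‖ ^ 2 : ℝ) : ℂ)) F (dil (toC (q ^ n)) F))
      (lc (-(c / (nm q : ℝ))) (c * z * (((‖toC (q ^ n)‖ ^ 2)⁻¹ : ℝ) : ℂ)) F'
        (dil (toC (q ^ n))⁻¹ F')) := by
  have hN := one_le_nm hpq.hq.ne_zero
  refine P.step_q hpq n (bdS_GS (bdS_stq c hz hN)) (bdS_GS (bdS_stq c' hz' hN)) hp hp' hU hU' ?_ ?_
  · intro k
    have h := GS_rel hn b0 (stq_R1 c z (nm q)) k
    rw [LS_eq hn]
    rw [one_mul] at h
    exact h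
  · intro k
    have h := GS_rel hn b0 (stq_R2 (c := c) (c' := c') hzz (nm q)) k
    rw [LS_eq hn, h]
    ring

/-- half step at `p` -/
theorem PairW.yt_p (hpq : TwoP p q) {d : ℕ} (hd : d ≠ 0) {y y' : ℂ} (hy : ‖y‖ ≤ 1)
    (hy' : ‖y'‖ ≤ 1) (hyy : y * y' = 1) {κ : ℂ} (hκ : κ ^ 2 = ((1 / (nm p : ℝ) : ℝ) : ℂ)) {a0 : ℕ}
    (c c' : ℂ)
    (P : PairW s K K' (loc2 p q (LS (2 * d) (y ^ 2) (nm p) a0) wq U)
      (loc2 p q (LS (2 * d) (y' ^ 2) (nm p) a0) wq' U') F F')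
    (hq : BdS wq) (hq' : BdS wq') (hU : Bd U) (hU' : Bd U') :
    PairW s K (c * c' * K') (loc2 p q (GS d a0 (ytq c κ y (nm p))) wq U)
      (loc2 p q (GS d a0 (ytq c' κ y' (nm p))) wq' U')
      (lc 1 (κ * y * ((‖toC (p ^ d)‖ ^ 2 : ℝ) : ℂ)) F (dil (toC (p ^ d)) F))
      (lc (c * κ) (c * y * (((‖toC (p ^ d)‖ ^ 2)⁻¹ : ℝ) : ℂ)) F' (dil (toC (p ^ d))⁻¹ F')) := by
  have hN := one_le_nm hpq.hp.ne_zero
  refine P.step_p hpq d (bdS_GS (bdS_ytq c κ hy hN)) (bdS_GS (bdS_ytq c' κ hy' hN)) hq hq' hU hU'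
    ?_ ?_
  · intro k
    have h := GS_rel hd a0 (ytq_R1 (c := c) (y := y) hκ) k
    rw [LS_eq_half hd]
    rw [one_mul] at h
    exact h
  · intro k
    have h := GS_rel hd a0 (ytq_R2 (c := c) (c' := c') hκ hyy) k
    rw [LS_eq_half hd, h]
    ring

/-- half step at `q` -/
theorem PairW.yt_q (hpq : TwoP p q) {d : ℕ} (hd : d ≠ 0) {y y' : ℂ} (hy : ‖y‖ ≤ 1)
    (hy' : ‖y'‖ ≤ 1) (hyy : y * y' = 1) {κ : ℂ} (hκ : κ ^ 2 = ((1 / (nm q : ℝ) : ℝ) : ℂ)) {b0 : ℕ}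
    (c c' : ℂ)
    (P : PairW s K K' (loc2 p q wp (LS (2 * d) (y ^ 2) (nm q) b0) U)
      (loc2 p q wp' (LS (2 * d) (y' ^ 2) (nm q) b0) U') F F')
    (hp : BdS wp) (hp' : BdS wp') (hU : Bd U) (hU' : Bd U') :
    PairW s K (c * c' * K') (loc2 p q wp (GS d b0 (ytq c κ y (nm q))) U)
      (loc2 p q wp' (GS d b0 (ytq c' κ y' (nm q))) U')
      (lc 1 (κ * y * ((‖toC (q ^ d)‖ ^ 2 : ℝ) : ℂ)) F (dil (toC (q ^ d)) F))
      (lc (c * κ) (c * y * (((‖toC (q ^ d)‖ ^ 2)⁻¹ : ℝ) : ℂ)) F' (dil (toC (q ^ d))⁻¹ F')) := by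
  have hN := one_le_nm hpq.hq.ne_zero
  refine P.step_q hpq d (bdS_GS (bdS_ytq c κ hy hN)) (bdS_GS (bdS_ytq c' κ hy' hN)) hp hp' hU hU'
    ?_ ?_
  · intro k
    have h := GS_rel hd b0 (ytq_R1 (c := c) (y := y) hκ) k
    rw [LS_eq_half hd]
    rw [one_mul] at h
    exact h
  · intro k
    have h := GS_rel hd b0 (ytq_R2 (c := c) (c' := c') hκ hyy) k
    rw [LS_eq_half hd, h]
    ring

end steps

end Crest.Agent.R017.GlueW74
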