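import Crest.Agent.R017.Glue_681
import Crest.Agent.R017.XnDiv_960

/-!
# Row 17, section A: the glue with arbitrary big-cell weights (helper74)

* `MW W F M = ∑_{h ≠ 0} W h ∫ F (h η + z ζ) dz`
* `CellW N χ W a a'` : big-cell law with an arbitrary weight `W : Eis → ℂ`
* `PairW s K K' W W' F F'` : `MW W F = K scl F'`, `MW W' (scl F') = K' F`
* `glueW` : `E_{a,F} = E_{a',F'}`
* `PairW.step` : the (T)-step, `F₁ = F + κ N(δ) F(δ ·)`, `F₁' = α F' + β N(δ)⁻¹ F'(· / δ)`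
* `PairW.of_FEPairN` : the level-one pair.
-/

set_option autoImplicit false

noncomputable section

open MeasureTheory Complex Set Filter
open scoped ENNReal ComplexConjugate Topology

namespace Crest.Agent.R017.GlueW74

open Crest.Agent.R012 Crest.Agent.R012.Eis Crest.Agent.R012.K695 Crest.Agent.R012.AU681
  Crest.Agent.R012.Parseval499 Crest.Agent.R017.Orth681 Crest.Agent.R017.Xn590 Crest.Agent.R017.F1
  Crest.Agent.R017.Glue681

/-! ### Line integrals -/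

/-- `∫ F (h η + z ζ) dz` -/
def JL (F : Vec → ℂ) (M : K695.Frm) (h : ℂ) : ℂ := ∫ z : ℂ, F (h • M.1 + z • M.2)

/-- `∑_{h ≠ 0} W h ∫ F (h η + z ζ) dz` -/
def MW (W : Eis → ℂ) (F : Vec → ℂ) (M : K695.Frm) : ℂ := by
  classical
  exact ∑' h : Eis, if h = 0 then 0 else W h * JL F M (toC h)

/-- continuous functions with the standard decay -/
structure Dec4 (F : Vec → ℂ) : Prop where
  cont : Continuous F
  dec : ∃ C : ℝ, ∀ u, ‖F u‖ ≤ C * ((1 + n2 u) ^ 4)⁻¹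

lemma dec4_of_tst {s : ℂ} {F : Vec → ℂ} (h : TstN s F) : Dec4 F := ⟨h.cont, h.dec⟩

lemma JL_neg {s : ℂ} {F : Vec → ℂ} (hF : ∀ u, F (-u) = s * F u) (M : K695.Frm) (h : ℂ) :
    JL F M (-h) = s * JL F M h := by
  unfold JL
  rw [← integral_const_mul, ← integral_neg_eq_self (fun z : ℂ => F (-h • M.1 + z • M.2))]
  refine integral_congr_ae (Filter.Eventually.of_forall fun z => ?_)
  simp only
  rw [← hF]
  congr 1
  rw [neg_smul, neg_smul, neg_add]

lemma lint_le {F : Vec → ℂ} {C : ℝ} (hC : ∀ u, ‖F u‖ ≤ C * ((1 + n2 u) ^ 4)⁻¹) {M : K695.Frm}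
    (hM : det2 M ≠ 0) {h : ℂ} (hh : h ≠ 0) :
    ∫⁻ z : ℂ, ‖F (h • M.1 + z • M.2)‖ₑ ≤
      ENNReal.ofReal |C| * (ENNReal.ofReal (n2 M.2 / ‖h * det2 M‖ ^ 4) * c0) := by
  have h1 : ∀ z : ℂ, ‖F (h • M.1 + z • M.2)‖ₑ ≤ ENNReal.ofReal |C| * GE (h • M.1 + z • M.2) := by
    intro z
    unfold GE
    rw [← ENNReal.ofReal_mul (abs_nonneg C), ← ofReal_norm]
    apply ENNReal.ofReal_le_ofReal
    refine (hC _).trans ?_
    exact mul_le_mul_of_nonneg_right (le_abs_self C) (GG_nonneg _)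
  refine (lintegral_mono h1).trans ?_
  rw [lintegral_const_mul' _ _ ENNReal.ofReal_ne_top]
  exact mul_le_mul' le_rfl (lint_hline hM hh)

lemma integrable_JL {F : Vec → ℂ} (hF : Dec4 F) {M : K695.Frm} (hM : det2 M ≠ 0) {h : ℂ}
    (hh : h ≠ 0) : Integrable (fun z : ℂ => F (h • M.1 + z • M.2)) := by
  obtain ⟨C, hC⟩ := hF.dec
  refine ⟨(hF.cont.comp (by fun_prop)).aestronglyMeasurable, ?_⟩
  refine lt_of_le_of_lt (lint_le hC hM hh) ?_
  exact (ENNReal.mul_ne_top ENNReal.ofReal_ne_top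
    (ENNReal.mul_ne_top ENNReal.ofReal_ne_top c0_ne_top)).lt_top

lemma norm_JL_le {F : Vec → ℂ} (hF : Dec4 F) {M : K695.Frm} (hM : det2 M ≠ 0) :
    ∃ C : ℝ, 0 ≤ C ∧ ∀ h : ℂ, h ≠ 0 → ‖JL F M h‖ ≤ C * (‖h‖ ^ 4)⁻¹ := by
  obtain ⟨C, hC⟩ := hF.dec
  have hn := n2_nonneg M.2
  have hd : 0 < ‖det2 M‖ := norm_pos_iff.mpr hM
  refine ⟨|C| * (n2 M.2 / ‖det2 M‖ ^ 4 * c0.toReal), by positivity, fun h hh => ?_⟩
  have hh' : 0 < ‖h‖ := norm_pos_iff.mpr hh
  have h1 := norm_integral_le_lintegral_norm (μ := (volume : Measure ℂ))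
    (fun z : ℂ => F (h • M.1 + z • M.2))
  have h2 : ∫⁻ z : ℂ, ENNReal.ofReal ‖F (h • M.1 + z • M.2)‖ ≤
      ENNReal.ofReal |C| * (ENNReal.ofReal (n2 M.2 / ‖h * det2 M‖ ^ 4) * c0) := by
    simp_rw [ofReal_norm]
    exact lint_le hC hM hh
  have htop : ENNReal.ofReal |C| * (ENNReal.ofReal (n2 M.2 / ‖h * det2 M‖ ^ 4) * c0) ≠ ∞ :=
    ENNReal.mul_ne_top ENNReal.ofReal_ne_top (ENNReal.mul_ne_top ENNReal.ofReal_ne_top c0_ne_top)
  refine h1.trans ((ENNReal.toReal_mono htop h2).trans (le_of_eq ?_))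
  rw [ENNReal.toReal_mul, ENNReal.toReal_mul, ENNReal.toReal_ofReal (abs_nonneg C),
    ENNReal.toReal_ofReal (by positivity), norm_mul, mul_pow]
  field_simp

lemma summable_inv_sq : Summable (fun h : Eis => ((‖toC h‖ ^ 4)⁻¹ : ℝ)) := by
  have hs := (Poisson381.summable_eis (b := 4) (by norm_num)).mul_left 16
  refine Summable.of_nonneg_of_le (fun _ => by positivity) (fun h => ?_) hs
  by_cases h0 : h = 0
  · subst h0
    simp
  have h1 : 1 ≤ ‖toC h‖ := Orth681.one_le_norm_toC h0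
  rw [Real.rpow_neg (by positivity)]
  have e : (1 + ‖toC h‖) ^ (4 : ℝ) = (1 + ‖toC h‖) ^ 4 := by
    rw [← Real.rpow_natCast]; norm_num
  rw [e, inv_eq_one_div, ← div_eq_mul_inv, div_le_div_iff₀ (by positivity) (by positivity), one_mul]
  calc (1 + ‖toC h‖) ^ 4 ≤ (2 * ‖toC h‖) ^ 4 := by gcongr; linarith
    _ = 16 * ‖toC h‖ ^ 4 := by ring

/-- bounded weights -/
def Bd (W : Eis → ℂ) : Prop := ∃ B : ℝ, ∀ h, ‖W h‖ ≤ B

lemma summable_MW {W : Eis → ℂ} (hW : Bd W) {F : Vec → ℂ} (hF : Dec4 F) {M : K695.Frm}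
    (hM : det2 M ≠ 0) :
    Summable (fun h : Eis => if h = 0 then 0 else W h * JL F M (toC h)) := by
  classical
  obtain ⟨B, hB⟩ := hW
  obtain ⟨C, hC0, hC⟩ := norm_JL_le hF hM
  have hB0 : 0 ≤ B := (norm_nonneg _).trans (hB 0)
  refine Summable.of_norm_bounded (summable_inv_sq.mul_left (B * C)) fun h => ?_
  by_cases h0 : h = 0
  · rw [if_pos h0, norm_zero]
    positivity
  · rw [if_neg h0, norm_mul]
    have h1 := hC (toC h) (by rwa [Ne, toC_eq_zero])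
    calc ‖W h‖ * ‖JL F M (toC h)‖ ≤ B * (C * (‖toC h‖ ^ 4)⁻¹) :=
          mul_le_mul (hB h) h1 (norm_nonneg _) hB0
      _ = _ := by ring

lemma MW_add_left {W W' : Eis → ℂ} (hW : Bd W) (hW' : Bd W') {F : Vec → ℂ} (hF : Dec4 F)
    {M : K695.Frm} (hM : det2 M ≠ 0) (a b : ℂ) :
    MW (fun h => a * W h + b * W' h) F M = a * MW W F M + b * MW W' F M := by
  classical
  unfold MW
  rw [← tsum_mul_left, ← tsum_mul_left,
    ← ((summable_MW hW hF hM).mul_left a).tsum_add ((summable_MW hW' hF hM).mul_left b)]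
  refine tsum_congr fun h => ?_
  by_cases h0 : h = 0
  · simp [h0]
  · simp only [if_neg h0]; ring

lemma MW_congr {W W' : Eis → ℂ} (h : ∀ x, x ≠ 0 → W x = W' x) (F : Vec → ℂ) (M : K695.Frm) :
    MW W F M = MW W' F M := by
  classical
  unfold MW
  refine tsum_congr fun x => ?_
  by_cases h0 : x = 0
  · simp [h0]
  · simp only [if_neg h0, h x h0]

/-! ### The glue -/

/-- Big-cell law with an arbitrary weight. -/
structure CellW (N : Eis) (χ : GN N → ℂ) (W : Eis → ℂ) (a a' : Eis × Eis → ℂ) : Prop where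
  law : ∀ g : SLE, Reg χ g → (a (br g) ≠ 0 ∨ a' (br g) ≠ 0) → ∀ h : Eis, h ≠ 0 →
    sumMod (h * N) (fun y => a (rmulS (h, y) g)) = (nm h : ℂ) * W h * a' (br g)

lemma ct_cellW {N : Eis} (hN : N ≠ 0) {χ : GN N → ℂ} {W : Eis → ℂ} {a a' : Eis × Eis → ℂ}
    (ha : Cof N χ a) (hc : CellW N χ W a a') {H : ℂ → Vec → ℂ} (hH : TFD H) {g : SLE}
    (hg : Reg χ g) (hsup : a (br g) ≠ 0 ∨ a' (br g) ≠ 0) {M : K695.Frm} (hM : det2 M ≠ 0) :
    CT N g (ED a H) M =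
      (covol (toC N) : ℂ) * ∑' y : Eis, a (rmulS (0, y) g) * H (det2 M) (toC y • M.2) +
      a' (br g) * MW W (H (det2 M)) M := by
  classical
  rw [ct_formula hN ha hH hg hM]
  congr 1
  unfold MW
  rw [← tsum_mul_left]
  refine tsum_congr fun h => ?_
  by_cases h0 : h = 0
  · simp [h0]
  · rw [if_neg h0, if_neg h0, hc.law g hg hsup h h0]
    have hnm : (nm h : ℂ) ≠ 0 := by exact_mod_cast (nm_pos.mpr h0).ne'
    unfold JL
    field_simp

/-- only the unit `1` acts on the union of the supports -/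
def Unit1 (a a' : Eis × Eis → ℂ) : Prop :=
  ∀ (r : Eis × Eis) (y : Eis), (a r ≠ 0 ∨ a' r ≠ 0) →
    (a (y * r.1, y * r.2) ≠ 0 ∨ a' (y * r.1, y * r.2) ≠ 0) → y = 1

lemma unit_term1 {a : Eis × Eis → ℂ} {g : SLE}
    (huni : ∀ y : Eis, a (rmulS (0, y) g) ≠ 0 → y = 1) {F : Vec → ℂ} (v : Vec) :
    ∑' y : Eis, a (rmulS (0, y) g) * F (toC y • v) = a (br g) * F v := by
  rw [tsum_eq_single 1]
  · have e1 : rmulS (0, 1) g = br g := by simp [rmulS, br]
    rw [e1, map_one, one_smul]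
  · intro y hy
    have : a (rmulS (0, y) g) = 0 := by
      by_contra hne
      exact hy (huni y hne)
    rw [this, zero_mul]

/-- **The glue with weights.** -/
theorem glueW {N : Eis} (hN : N ≠ 0) {χ : GN N → ℂ} (hχ : ∀ g, ‖χ g‖ = 1) {W W' : Eis → ℂ}
    {a a' : Eis × Eis → ℂ} (ha : Cof N χ a) (ha' : Cof N χ a')
    (hc : CellW N χ W a a') (hc' : CellW N χ W' a' a) (huni : Unit1 a a') {s : ℂ}
    {F F' : Vec → ℂ} (hF : TstN s F) (hF' : TstN s F')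
    (m1 : ∀ M : K695.Frm, det2 M ≠ 0 → MW W F M = (covol (toC N) : ℂ) * scl (det2 M) F' M.2)
    (m2 : ∀ M : K695.Frm, det2 M ≠ 0 → MW W' (scl (det2 M) F') M = (covol (toC N) : ℂ) * F M.2)
    {M : K695.Frm} (hM : det2 M ≠ 0) : EC a F M = EC a' (scl (det2 M) F') M := by
  have hT : TFD (fun _ u => F u) := tfd_const hF
  have hT' : TFD (fun δ u => scl δ F' u) := tfd_scl hF'
  refine eq_of_ct hN hχ ha ha' hT hT' ?_ hM
  intro g hg hsup X hX
  have hu1 : ∀ y : Eis, a (rmulS (0, y) g) ≠ 0 → y = 1 := by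
    intro y hy
    refine huni (br g) y hsup (Or.inl ?_)
    have : rmulS (0, y) g = (y * (br g).1, y * (br g).2) := by simp [rmulS, br]
    rwa [← this]
  have hu2 : ∀ y : Eis, a' (rmulS (0, y) g) ≠ 0 → y = 1 := by
    intro y hy
    refine huni (br g) y hsup (Or.inr ?_)
    have : rmulS (0, y) g = (y * (br g).1, y * (br g).2) := by simp [rmulS, br]
    rwa [← this]
  rw [ct_cellW hN ha hc hT hg hsup hX, ct_cellW hN ha' hc' hT' hg hsup.symm hX,
    unit_term1 hu1, unit_term1 hu2 (F := fun u => scl (det2 X) F' u)]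
  have h1 := m1 X hX
  have h2 := m2 X hX
  change _ + a' (br g) * MW W F X = _ + a (br g) * MW W' (scl (det2 X) F') X
  rw [h1, h2]
  ring

/-- symmetrisation of the weight -/
lemma MW_symm {s : ℂ} (hs : s = 1 ∨ s = -1) {W W1 : Eis → ℂ} (hW : Bd W) (hW1 : Bd W1)
    {F : Vec → ℂ} (hF : Dec4 F) (hpar : ∀ u, F (-u) = s * F u)
    (h : ∀ x, x ≠ 0 → W x + s * W (-x) = W1 x + s * W1 (-x)) {M : K695.Frm} (hM : det2 M ≠ 0) :
    MW W F M = MW W1 F M := by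
  classical
  have hss : s * s = 1 := by rcases hs with h | h <;> rw [h] <;> ring
  have key : ∀ {W : Eis → ℂ}, Bd W → 2 * MW W F M =
      ∑' x : Eis, if x = 0 then 0 else (W x + s * W (-x)) * JL F M (toC x) := by
    intro W hW
    have h1 := summable_MW hW hF hM
    have h2 : MW W F M = ∑' x : Eis, if x = 0 then 0 else s * W (-x) * JL F M (toC x) := by
      unfold MW
      rw [← (Equiv.neg Eis).tsum_eq]
      refine tsum_congr fun x => ?_
      simp only [Equiv.neg_apply, neg_eq_zero]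
      by_cases h0 : x = 0
      · simp [h0]
      · rw [if_neg h0, if_neg h0, map_neg, JL_neg hpar]
        ring
    have h3 : Summable (fun x : Eis => if x = 0 then 0 else s * W (-x) * JL F M (toC x)) := by
      refine ((Equiv.neg Eis).summable_iff.mpr h1).congr fun x => ?_
      simp only [Function.comp, Equiv.neg_apply, neg_eq_zero]
      by_cases h0 : x = 0
      · simp [h0]
      · rw [if_neg h0, if_neg h0, map_neg, JL_neg hpar]
        ring
    rw [two_mul]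
    nth_rewrite 2 [h2]
    unfold MW
    rw [← h1.tsum_add h3]
    refine tsum_congr fun x => ?_
    by_cases h0 : x = 0
    · simp [h0]
    · simp only [if_neg h0]; ring
  have e1 := key hW
  have e2 := key hW1
  have e3 : 2 * MW W F M = 2 * MW W1 F M := by
    rw [e1, e2]
    refine tsum_congr fun x => ?_
    by_cases h0 : x = 0
    · simp [h0]
    · rw [if_neg h0, if_neg h0, h x h0]
  exact mul_left_cancel₀ two_ne_zero e3

/-! ### Dilations -/

/-- `F(δ ·)` -/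
def dil (δ : ℂ) (F : Vec → ℂ) (u : Vec) : ℂ := F (δ • u)

/-- linear combination of two functions -/
def lc (a b : ℂ) (F G : Vec → ℂ) (u : Vec) : ℂ := a * F u + b * G u

lemma one_add_n2_le (δ : ℂ) (hδ : δ ≠ 0) (u : Vec) :
    ((1 + n2 (δ • u)) ^ 4)⁻¹ ≤ (1 + (‖δ‖ ^ 2)⁻¹) ^ 4 * ((1 + n2 u) ^ 4)⁻¹ := by
  have h0 := n2_nonneg u
  have hd : 0 < ‖δ‖ ^ 2 := by positivity
  rw [n2_smul, inv_eq_one_div, ← div_eq_mul_inv, div_le_div_iff₀ (by positivity) (by positivity),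
    one_mul, ← mul_pow]
  apply pow_le_pow_left₀ (by positivity)
  have h1 : (‖δ‖ ^ 2)⁻¹ * (‖δ‖ ^ 2 * n2 u) = n2 u := by field_simp
  have h2 : 0 ≤ (‖δ‖ ^ 2)⁻¹ := by positivity
  have h3 : 0 ≤ ‖δ‖ ^ 2 * n2 u := by positivity
  nlinarith

lemma tst_dil {s : ℂ} {F : Vec → ℂ} (h : TstN s F) {δ : ℂ} (hδ : δ ≠ 0) : TstN s (dil δ F) where
  cont := h.cont.comp (by fun_prop)
  par u := by
    unfold dil
    rw [smul_neg, h.par]
  dec := by
    obtain ⟨C, hC⟩ := h.dec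
    refine ⟨|C| * (1 + (‖δ‖ ^ 2)⁻¹) ^ 4, fun u => ?_⟩
    refine (hC (δ • u)).trans ?_
    have h1 := one_add_n2_le δ hδ u
    have h2 : 0 ≤ ((1 + n2 (δ • u)) ^ 4)⁻¹ := by
      have := n2_nonneg (δ • u)
      positivity
    calc C * ((1 + n2 (δ • u)) ^ 4)⁻¹ ≤ |C| * ((1 + n2 (δ • u)) ^ 4)⁻¹ :=
          mul_le_mul_of_nonneg_right (le_abs_self C) h2
      _ ≤ |C| * ((1 + (‖δ‖ ^ 2)⁻¹) ^ 4 * ((1 + n2 u) ^ 4)⁻¹) :=
          mul_le_mul_of_nonneg_left h1 (abs_nonneg C)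
      _ = _ := by ring

lemma tst_lc {s : ℂ} {F G : Vec → ℂ} (h : TstN s F) (h' : TstN s G) (a b : ℂ) :
    TstN s (lc a b F G) where
  cont := (continuous_const.mul h.cont).add (continuous_const.mul h'.cont)
  par u := by
    unfold lc
    rw [h.par, h'.par]
    ring
  dec := by
    obtain ⟨C, hC⟩ := h.dec
    obtain ⟨C', hC'⟩ := h'.dec
    refine ⟨‖a‖ * C + ‖b‖ * C', fun u => ?_⟩
    unfold lc
    refine (norm_add_le _ _).trans ?_
    rw [norm_mul, norm_mul]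
    have h1 := mul_le_mul_of_nonneg_left (hC u) (norm_nonneg a)
    have h2 := mul_le_mul_of_nonneg_left (hC' u) (norm_nonneg b)
    linarith

lemma Dec4.smul_fun {F : Vec → ℂ} (h : Dec4 F) (a : ℂ) : Dec4 (fun u => a * F u) where
  cont := continuous_const.mul h.cont
  dec := by
    obtain ⟨C, hC⟩ := h.dec
    refine ⟨‖a‖ * C, fun u => ?_⟩
    rw [norm_mul]
    have h1 := mul_le_mul_of_nonneg_left (hC u) (norm_nonneg a)
    linarith

lemma Dec4.dil {F : Vec → ℂ} (h : Dec4 F) {δ : ℂ} (hδ : δ ≠ 0) : Dec4 (dil δ F) where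
  cont := h.cont.comp (by fun_prop)
  dec := by
    obtain ⟨C, hC⟩ := h.dec
    refine ⟨|C| * (1 + (‖δ‖ ^ 2)⁻¹) ^ 4, fun u => ?_⟩
    refine (hC (δ • u)).trans ?_
    have h1 := one_add_n2_le δ hδ u
    have h2 : 0 ≤ ((1 + n2 (δ • u)) ^ 4)⁻¹ := by
      have := n2_nonneg (δ • u)
      positivity
    calc C * ((1 + n2 (δ • u)) ^ 4)⁻¹ ≤ |C| * ((1 + n2 (δ • u)) ^ 4)⁻¹ :=
          mul_le_mul_of_nonneg_right (le_abs_self C) h2
      _ ≤ |C| * ((1 + (‖δ‖ ^ 2)⁻¹) ^ 4 * ((1 + n2 u) ^ 4)⁻¹) :=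
          mul_le_mul_of_nonneg_left h1 (abs_nonneg C)
      _ = _ := by ring

lemma dec4_scl {F : Vec → ℂ} (h : Dec4 F) {D : ℂ} (hD : D ≠ 0) : Dec4 (scl D F) := by
  have h1 := (h.dil (inv_ne_zero hD)).smul_fun (((‖D‖ ^ 2)⁻¹ : ℝ) : ℂ)
  exact h1

lemma JL_dil {δ : ℂ} (hδ : δ ≠ 0) (F : Vec → ℂ) (M : K695.Frm) (h : ℂ) :
    JL (dil δ F) M h = (((‖δ‖ ^ 2)⁻¹ : ℝ) : ℂ) * JL F M (δ * h) := by
  unfold JL
  rw [← int_affine hδ 0]
  refine integral_congr_ae (Filter.Eventually.of_forall fun z => ?_)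
  simp only [dil, smul_add, smul_smul, add_zero]

lemma JL_lc {F G : Vec → ℂ} (hF : Dec4 F) (hG : Dec4 G) {M : K695.Frm} (hM : det2 M ≠ 0) {h : ℂ}
    (hh : h ≠ 0) (a b : ℂ) : JL (lc a b F G) M h = a * JL F M h + b * JL G M h := by
  unfold JL lc
  rw [integral_add ((integrable_JL hF hM hh).const_mul a) ((integrable_JL hG hM hh).const_mul b),
    integral_const_mul, integral_const_mul]

/-- scaling of the second vector -/
lemma JL_snd {b : ℂ} (hb : b ≠ 0) (F : Vec → ℂ) (η ζ : Vec) (h : ℂ) :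
    JL F (η, b • ζ) h = (((‖b‖ ^ 2)⁻¹ : ℝ) : ℂ) * JL F (η, ζ) h := by
  unfold JL
  rw [← int_affine hb 0]
  refine integral_congr_ae (Filter.Eventually.of_forall fun z => ?_)
  simp only [smul_smul, add_zero]
  rw [mul_comm z b]

/-- scaling of the first vector -/
lemma JL_fst (a : ℂ) (F : Vec → ℂ) (η ζ : Vec) (h : ℂ) :
    JL F (a • η, ζ) h = JL F (η, ζ) (a * h) := by
  unfold JL
  refine integral_congr_ae (Filter.Eventually.of_forall fun z => ?_)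
  simp only [smul_smul]
  rw [mul_comm h a]

/-! ### Shifts of weights -/

/-- `W(h/δ)`, zero if `δ ∤ h` -/
def sh (δ : Eis) (W : Eis → ℂ) (h : Eis) : ℂ := by
  classical
  exact if hd : δ ∣ h then W hd.choose else 0

lemma sh_mul {δ : Eis} (hδ : δ ≠ 0) (W : Eis → ℂ) (h : Eis) : sh δ W (δ * h) = W h := by
  classical
  have hd : δ ∣ δ * h := Dvd.intro h rfl
  unfold sh
  rw [dif_pos hd]
  congr 1
  exact (mul_left_cancel₀ hδ hd.choose_spec).symm

lemma sh_of_not {δ : Eis} (W : Eis → ℂ) {h : Eis} (hd : ¬ δ ∣ h) : sh δ W h = 0 := by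
  classical
  unfold sh
  rw [dif_neg hd]

lemma Bd.sh {W : Eis → ℂ} (hW : Bd W) {δ : Eis} (hδ : δ ≠ 0) : Bd (sh δ W) := by
  obtain ⟨B, hB⟩ := hW
  refine ⟨max B 0, fun h => ?_⟩
  by_cases hd : δ ∣ h
  · obtain ⟨t, rfl⟩ := hd
    rw [sh_mul hδ]
    exact (hB t).trans (le_max_left _ _)
  · rw [sh_of_not W hd, norm_zero]
    exact le_max_right _ _

lemma Bd.lin {W W' : Eis → ℂ} (hW : Bd W) (hW' : Bd W') (a b : ℂ) :
    Bd (fun h => a * W h + b * W' h) := by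
  obtain ⟨B, hB⟩ := hW
  obtain ⟨B', hB'⟩ := hW'
  refine ⟨‖a‖ * B + ‖b‖ * B', fun h => ?_⟩
  refine (norm_add_le _ _).trans ?_
  rw [norm_mul, norm_mul]
  exact add_le_add (mul_le_mul_of_nonneg_left (hB h) (norm_nonneg a))
    (mul_le_mul_of_nonneg_left (hB' h) (norm_nonneg b))

lemma tsum_sh {δ : Eis} (hδ : δ ≠ 0) (W : Eis → ℂ) (J : Eis → ℂ) :
    ∑' h : Eis, (if h = 0 then 0 else sh δ W h * J h) =
      ∑' h : Eis, (if h = 0 then 0 else W h * J (δ * h)) := by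
  classical
  have hinj : Function.Injective (fun h : Eis => δ * h) := fun x y h => mul_left_cancel₀ hδ h
  rw [← hinj.tsum_eq (f := fun h : Eis => if h = 0 then 0 else sh δ W h * J h)]
  · refine tsum_congr fun h => ?_
    by_cases h0 : h = 0
    · simp [h0]
    · rw [if_neg h0, if_neg (mul_ne_zero hδ h0), sh_mul hδ]
  · intro h hh
    rw [Function.mem_support] at hh
    by_contra hno
    apply hh
    by_cases h0 : h = 0
    · rw [if_pos h0]
    · rw [if_neg h0, sh_of_not, zero_mul]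
      rintro ⟨t, rfl⟩
      exact hno ⟨t, rfl⟩

/-- shifting the weight = dilating the first vector -/
lemma MW_sh {δ : Eis} (hδ : δ ≠ 0) (W : Eis → ℂ) (F : Vec → ℂ) (η ζ : Vec) :
    MW (sh δ W) F (η, ζ) = MW W F (toC δ • η, ζ) := by
  classical
  unfold MW
  rw [tsum_sh hδ]
  refine tsum_congr fun h => ?_
  by_cases h0 : h = 0
  · simp [h0]
  · rw [if_neg h0, if_neg h0, JL_fst, map_mul]

/-! ### Pairs -/

/-- `F, F'` is a pair for the weights `W, W'`. -/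
structure PairW (s K K' : ℂ) (W W' : Eis → ℂ) (F F' : Vec → ℂ) : Prop where
  tst : TstN s F
  tst' : TstN s F'
  bd : Bd W
  bd' : Bd W'
  m1 : ∀ M : K695.Frm, det2 M ≠ 0 → MW W F M = K * scl (det2 M) F' M.2
  m2 : ∀ M : K695.Frm, det2 M ≠ 0 → MW W' (scl (det2 M) F') M = K' * F M.2

lemma det2_fst (a : ℂ) (η ζ : Vec) : det2 ((a • η, ζ) : K695.Frm) = a * det2 ((η, ζ) : K695.Frm) := by
  unfold det2
  simp
  ring

lemma det2_snd (a : ℂ) (η ζ : Vec) : det2 ((η, a • ζ) : K695.Frm) = a * det2 ((η, ζ) : K695.Frm) := by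
  unfold det2
  simp
  ring

/-- **The (T)-step.** -/
theorem PairW.step {s K K' : ℂ} {W W' : Eis → ℂ} {F F' : Vec → ℂ} (P : PairW s K K' W W' F F')
    {δ : Eis} (hδ : δ ≠ 0) {κ α β ρ : ℂ} {W1 W1' : Eis → ℂ} (hb : Bd W1) (hb' : Bd W1')
    (R1 : ∀ h, h ≠ 0 → W1 h + κ * sh δ W1 h = α * W h + β * sh δ W h)
    (R2 : ∀ h, h ≠ 0 → β * W1' h + α * sh δ W1' h = ρ * (κ * W' h + sh δ W' h)) :
    PairW s K (ρ * K') W1 W1' (lc 1 (κ * ((‖toC δ‖ ^ 2 : ℝ) : ℂ)) F (dil (toC δ) F))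
      (lc α (β * (((‖toC δ‖ ^ 2)⁻¹ : ℝ) : ℂ)) F' (dil (toC δ)⁻¹ F')) := by
  classical
  have hδC : toC δ ≠ 0 := by rwa [Ne, toC_eq_zero]
  have hd2 : ((‖toC δ‖ ^ 2 : ℝ) : ℂ) ≠ 0 := by
    have : 0 < ‖toC δ‖ := norm_pos_iff.mpr hδC
    exact_mod_cast (by positivity : (‖toC δ‖ ^ 2 : ℝ) ≠ 0)
  have hd1 : (‖toC δ‖ : ℂ) ≠ 0 := by
    exact_mod_cast (norm_pos_iff.mpr hδC).ne'
  have hF4 := dec4_of_tst P.tst
  have hF4' := dec4_of_tst P.tst'
  refine ⟨tst_lc P.tst (tst_dil P.tst hδC) _ _, tst_lc P.tst' (tst_dil P.tst' (inv_ne_zero hδC)) _ _, hb, hb',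
    ?_, ?_⟩
  · rintro ⟨η, ζ⟩ hM
    -- expand the left side
    have e1 : MW W1 (lc 1 (κ * ((‖toC δ‖ ^ 2 : ℝ) : ℂ)) F (dil (toC δ) F)) (η, ζ) =
        MW (fun h => 1 * W1 h + κ * sh δ W1 h) F (η, ζ) := by
      rw [MW_add_left hb (hb.sh hδ) hF4 hM, MW_sh hδ]
      have hs1 := summable_MW hb hF4 hM
      have hM' : det2 ((toC δ • η, ζ) : K695.Frm) ≠ 0 := by
        rw [det2_fst]; exact mul_ne_zero hδC hM
      have hs2 := summable_MW hb hF4 hM'
      unfold MW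
      rw [← tsum_mul_left, ← tsum_mul_left, ← (hs1.mul_left 1).tsum_add (hs2.mul_left κ)]
      refine tsum_congr fun h => ?_
      by_cases h0 : h = 0
      · simp [h0]
      · have hhC : toC h ≠ 0 := by rwa [Ne, toC_eq_zero]
        simp only [if_neg h0]
        rw [JL_lc hF4 (hF4.dil hδC) hM hhC, JL_dil hδC, JL_fst]
        push_cast
        field_simp
    rw [e1, MW_congr (W' := fun h => α * W h + β * sh δ W h) (fun h h0 => by rw [one_mul]; exact R1 h h0),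
      MW_add_left P.bd (P.bd.sh hδ) hF4 hM, MW_sh hδ, P.m1 _ hM, P.m1 _ (by
        rw [det2_fst]; exact mul_ne_zero hδC hM), det2_fst]
    simp only [scl, lc, dil]
    have e2 : (toC δ * det2 ((η, ζ) : K695.Frm))⁻¹ • ζ = (toC δ)⁻¹ • ((det2 ((η, ζ) : K695.Frm))⁻¹ • ζ) := by
      rw [smul_smul, mul_inv]
    rw [e2, norm_mul, mul_pow, mul_inv]
    push_cast
    ring
  · rintro ⟨η, ζ⟩ hM
    set D := det2 ((η, ζ) : K695.Frm) with hD
    set G := scl D F' with hG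
    have hG4 : Dec4 G := dec4_scl hF4' hM
    -- frame with divided first vector
    set η1 : Vec := (toC δ)⁻¹ • η with hη1
    have hη : toC δ • η1 = η := by rw [hη1, smul_smul, mul_inv_cancel₀ hδC, one_smul]
    have hM1 : det2 ((η1, ζ) : K695.Frm) ≠ 0 := by
      rw [hη1, det2_fst]; exact mul_ne_zero (inv_ne_zero hδC) hM
    have hD1 : toC δ * det2 ((η1, ζ) : K695.Frm) = D := by
      rw [hη1, det2_fst, hD]; field_simp
    have e0 : scl D (lc α (β * (((‖toC δ‖ ^ 2)⁻¹ : ℝ) : ℂ)) F' (dil (toC δ)⁻¹ F')) =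
        lc α (β * (((‖toC δ‖ ^ 2)⁻¹ : ℝ) : ℂ)) G (dil (toC δ)⁻¹ G) := by
      funext u
      simp only [scl, lc, dil, hG]
      rw [smul_comm D⁻¹ (toC δ)⁻¹ u]
      ring
    change MW W1' (scl D _) (η, ζ) = _
    rw [e0]
    have e1 : MW W1' (lc α (β * (((‖toC δ‖ ^ 2)⁻¹ : ℝ) : ℂ)) G (dil (toC δ)⁻¹ G)) (η, ζ) =
        MW (fun h => β * W1' h + α * sh δ W1' h) G (η1, ζ) := by
      rw [MW_add_left hb' (hb'.sh hδ) hG4 hM1, MW_sh hδ, hη]
      have hs1 := summable_MW hb' hG4 hM1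
      have hs2 := summable_MW hb' hG4 hM
      unfold MW
      rw [← tsum_mul_left, ← tsum_mul_left, ← (hs1.mul_left β).tsum_add (hs2.mul_left α)]
      refine tsum_congr fun h => ?_
      by_cases h0 : h = 0
      · simp [h0]
      · have hhC : toC h ≠ 0 := by rwa [Ne, toC_eq_zero]
        simp only [if_neg h0]
        rw [JL_lc hG4 (hG4.dil (inv_ne_zero hδC)) hM hhC, JL_dil (inv_ne_zero hδC), ← JL_fst, ← hη1]
        have e3 : ((((‖(toC δ)⁻¹‖ ^ 2)⁻¹ : ℝ)) : ℂ) = ((‖toC δ‖ ^ 2 : ℝ) : ℂ) := by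
          rw [norm_inv, inv_pow, inv_inv]
        rw [e3]
        push_cast
        push_cast at hd2
        field_simp
        ring
    rw [e1, MW_congr (W' := fun h => (ρ * κ) * W' h + ρ * sh δ W' h) (fun h h0 => by
      rw [R2 h h0]; ring), MW_add_left P.bd' (P.bd'.sh hδ) hG4 hM1, MW_sh hδ, hη]
    have h2 := P.m2 ((η, ζ) : K695.Frm) hM
    have h3 : MW W' G (η1, ζ) = ((‖toC δ‖ ^ 2 : ℝ) : ℂ) * (K' * F (toC δ • ζ)) := by
      have hM2 : det2 ((η1, toC δ • ζ) : K695.Frm) ≠ 0 := by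
        rw [det2_snd]; exact mul_ne_zero hδC hM1
      have h4 := P.m2 ((η1, toC δ • ζ) : K695.Frm) hM2
      rw [det2_snd, hD1] at h4
      change MW W' G _ = K' * F (toC δ • ζ) at h4
      rw [← h4]
      unfold MW
      rw [← tsum_mul_left]
      refine tsum_congr fun h => ?_
      by_cases h0 : h = 0
      · simp [h0]
      · rw [if_neg h0, if_neg h0, JL_snd hδC]
        push_cast
        push_cast at hd2
        field_simp
    rw [h3]
    change _ * _ + _ * MW W' (scl D F') (η, ζ) = _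
    rw [h2]
    simp only [lc, dil]
    ring

/-! ### The level-one pair -/

/-- `W0 h = (1/6) Σ_{j ≠ 0, e₀ jⁿ = h} ξ(j) P(j)` -/
def W0 (n : ℕ) (e0 : Eis) (ξ : Eis → ℂ) (h : Eis) : ℂ := by
  classical
  exact (1 / 6 : ℂ) * ∑' j : Eis, if j ≠ 0 ∧ e0 * j ^ n = h then ξ j * (PL j : ℂ) else 0

lemma W0_zero {n : ℕ} {e0 : Eis} {ξ : Eis → ℂ} {h : Eis}
    (hno : ¬ ∃ j, j ≠ 0 ∧ e0 * j ^ n = h) : W0 n e0 ξ h = 0 := by
  classical
  unfold W0
  have : ∀ j : Eis, (if j ≠ 0 ∧ e0 * j ^ n = h then ξ j * (PL j : ℂ) else 0) = 0 := by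
    intro j
    rw [if_neg (fun hj => hno ⟨j, hj⟩)]
  rw [tsum_congr this, tsum_zero, mul_zero]

/-- roots of the same element are associated -/
lemma root_assoc {n : ℕ} (hn0 : n ≠ 0) {e0 : Eis} (he0 : e0 ≠ 0) {j j0 : Eis} (hj0 : j0 ≠ 0)
    (h : e0 * j ^ n = e0 * j0 ^ n) : ∃ u, IsUnit u ∧ j = u * j0 := by
  have h1 : j ^ n = j0 ^ n := mul_left_cancel₀ he0 h
  have he1 : j0 ∣ j := (IsIntegrallyClosed.pow_dvd_pow_iff hn0).mp (h1 ▸ dvd_rfl)
  have he2 : j ∣ j0 := (IsIntegrallyClosed.pow_dvd_pow_iff hn0).mp (h1 ▸ dvd_rfl)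
  obtain ⟨u, rfl⟩ := he1
  refine ⟨u, ?_, mul_comm _ _⟩
  obtain ⟨v, hv⟩ := he2
  refine IsUnit.of_mul_eq_one v ?_
  apply mul_left_cancel₀ hj0
  linear_combination -hv

/-- finite form of `W0` -/
lemma W0_eq {n : ℕ} (hn0 : n ≠ 0) {e0 : Eis} (he0 : e0 ≠ 0) (ξ : Eis → ℂ) {j0 : Eis}
    (hj0 : j0 ≠ 0) : W0 n e0 ξ (e0 * j0 ^ n) =
      (1 / 6 : ℂ) * ∑ u ∈ U6, if u ^ n = 1 then ξ (u * j0) * (PL (u * j0) : ℂ) else 0 := by
  classical
  unfold W0
  congr 1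
  have hinj : Set.InjOn (fun u : Eis => u * j0) U6 := fun x _ y _ h => mul_right_cancel₀ hj0 h
  rw [tsum_eq_sum (s := U6.image (fun u => u * j0)), Finset.sum_image hinj]
  · refine Finset.sum_congr rfl fun u hu => ?_
    have hu0 : u ≠ 0 := (mem_U6.mp hu).ne_zero
    have hiff : (u * j0 ≠ 0 ∧ e0 * (u * j0) ^ n = e0 * j0 ^ n) ↔ u ^ n = 1 := by
      constructor
      · rintro ⟨-, h⟩
        have h1 := mul_left_cancel₀ he0 h
        rw [mul_pow] at h1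
        apply mul_right_cancel₀ (pow_ne_zero n hj0)
        rw [h1, one_mul]
      · intro h
        exact ⟨mul_ne_zero hu0 hj0, by rw [mul_pow, h, one_mul]⟩
    simp only [hiff]
  · intro j hj
    rw [if_neg]
    rintro ⟨-, h⟩
    obtain ⟨u, hu, rfl⟩ := root_assoc hn0 he0 hj0 h
    exact hj (Finset.mem_image.mpr ⟨u, mem_U6.mpr hu, rfl⟩)

lemma PL_abs_le (j : Eis) : ‖(PL j : ℂ)‖ ≤ 1 := by
  rw [Complex.norm_real, Real.norm_of_nonneg (XnDiv960.PL_nonneg j)]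
  exact XnDiv960.PL_le_one j

lemma bd_W0 {n : ℕ} (hn0 : n ≠ 0) {e0 : Eis} (he0 : e0 ≠ 0) {ξ : Eis → ℂ} (hξ : ∀ a, ‖ξ a‖ ≤ 1) :
    Bd (W0 n e0 ξ) := by
  classical
  refine ⟨1, fun h => ?_⟩
  by_cases hex : ∃ j, j ≠ 0 ∧ e0 * j ^ n = h
  · obtain ⟨j0, hj0, rfl⟩ := hex
    rw [W0_eq hn0 he0 ξ hj0, norm_mul]
    have h1 : ‖∑ u ∈ U6, (if u ^ n = 1 then ξ (u * j0) * (PL (u * j0) : ℂ) else 0)‖ ≤ 6 := by
      refine (norm_sum_le _ _).trans ?_
      have h2 : ∀ u ∈ U6, ‖(if u ^ n = 1 then ξ (u * j0) * (PL (u * j0) : ℂ) else 0)‖ ≤ 1 := by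
        intro u _
        split_ifs
        · rw [norm_mul]
          have h3 := hξ (u * j0)
          have h4 := PL_abs_le (u * j0)
          have h5 := norm_nonneg (ξ (u * j0))
          have h6 := norm_nonneg (PL (u * j0) : ℂ)
          nlinarith
        · simp
      refine (Finset.sum_le_sum h2).trans ?_
      rw [Finset.sum_const, card_U6]
      norm_num
    have h7 : ‖(1 / 6 : ℂ)‖ = 1 / 6 := by norm_num
    rw [h7]
    linarith
  · rw [W0_zero hex, norm_zero]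
    exact zero_le_one

lemma one_le_norm_pow {j : Eis} (hj : j ≠ 0) (n : ℕ) : 1 ≤ ‖toC j‖ ^ n :=
  one_le_pow₀ (Orth681.one_le_norm_toC hj)

lemma summable_roots {n : ℕ} (hn0 : n ≠ 0) {e0 : Eis} (he0 : e0 ≠ 0) {ξ : Eis → ℂ}
    (hξ : ∀ a, ‖ξ a‖ ≤ 1) {F : Vec → ℂ} (hF : Dec4 F) {M : K695.Frm} (hM : det2 M ≠ 0) :
    Summable (fun j : Eis => if j = 0 then 0 else
      ξ j * ((PL j : ℂ) * JL F M (toC e0 * toC j ^ n))) := by
  classical
  obtain ⟨C, hC0, hC⟩ := norm_JL_le hF hM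
  refine Summable.of_norm_bounded (summable_inv_sq.mul_left C) fun j => ?_
  by_cases h0 : j = 0
  · rw [if_pos h0, norm_zero]
    positivity
  · rw [if_neg h0, norm_mul, norm_mul]
    have hj : 0 < ‖toC j‖ := lt_of_lt_of_le one_pos (Orth681.one_le_norm_toC h0)
    have hne : toC e0 * toC j ^ n ≠ 0 :=
      mul_ne_zero (by rwa [Ne, toC_eq_zero]) (pow_ne_zero n (by rwa [Ne, toC_eq_zero]))
    have h1 := hC _ hne
    have h2 : ‖toC j‖ ≤ ‖toC e0 * toC j ^ n‖ := by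
      rw [norm_mul, norm_pow]
      have h3 := Orth681.one_le_norm_toC he0
      have h4 : ‖toC j‖ ≤ ‖toC j‖ ^ n := by
        obtain ⟨k, rfl⟩ := Nat.exists_eq_succ_of_ne_zero hn0
        rw [pow_succ]
        have := one_le_norm_pow h0 k
        nlinarith
      nlinarith [norm_nonneg (toC j)]
    have h5 : (‖toC e0 * toC j ^ n‖ ^ 4)⁻¹ ≤ (‖toC j‖ ^ 4)⁻¹ := by
      apply inv_anti₀ (by positivity)
      exact pow_le_pow_left₀ hj.le h2 4
    have h6 := hξ j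
    have h7 := PL_abs_le j
    calc ‖ξ j‖ * (‖(PL j : ℂ)‖ * ‖JL F M (toC e0 * toC j ^ n)‖)
        ≤ 1 * (1 * (C * (‖toC j‖ ^ 4)⁻¹)) := by
          refine mul_le_mul h6 (mul_le_mul h7 (h1.trans ?_) (norm_nonneg _) zero_le_one)
            (by positivity) zero_le_one
          exact mul_le_mul_of_nonneg_left h5 hC0
      _ = _ := by ring

/-- `MW` of the level-one weight -/
lemma MW_W0 {n : ℕ} (hn0 : n ≠ 0) {e0 : Eis} (he0 : e0 ≠ 0) {ξ : Eis → ℂ}
    (hξ : ∀ a, ‖ξ a‖ ≤ 1) {F : Vec → ℂ} (hF : Dec4 F) {M : K695.Frm} (hM : det2 M ≠ 0) :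
    MW (W0 n e0 ξ) F M = (1 / 6 : ℂ) * ∑' j : Eis, (if j = 0 then 0 else
      ξ j * ((PL j : ℂ) * JL F M (toC e0 * toC j ^ n))) := by
  classical
  have hs := summable_roots hn0 he0 hξ hF hM
  rw [← (hs.hasSum.tsum_fiberwise (fun j : Eis => e0 * j ^ n)).tsum_eq, ← tsum_mul_left]
  unfold MW
  refine tsum_congr fun h => ?_
  rw [tsum_subtype ((fun j : Eis => e0 * j ^ n) ⁻¹' {h}) (fun j : Eis => if j = 0 then 0 else
      ξ j * ((PL j : ℂ) * JL F M (toC e0 * toC j ^ n)))]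
  by_cases h0 : h = 0
  · rw [if_pos h0]
    have : ∀ j : Eis, ((fun j : Eis => e0 * j ^ n) ⁻¹' {h}).indicator (fun j : Eis =>
        if j = 0 then (0 : ℂ) else ξ j * ((PL j : ℂ) * JL F M (toC e0 * toC j ^ n))) j = 0 := by
      intro j
      by_cases hj : j ∈ ((fun j : Eis => e0 * j ^ n) ⁻¹' {h})
      · rw [Set.indicator_of_mem hj, if_pos]
        rw [Set.mem_preimage, Set.mem_singleton_iff, h0] at hj
        rcases mul_eq_zero.mp hj with h1 | h1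
        · exact absurd h1 he0
        · exact pow_eq_zero_iff hn0 |>.mp h1
      · rw [Set.indicator_of_notMem hj]
    rw [tsum_congr this, tsum_zero, mul_zero]
  · rw [if_neg h0]
    unfold W0
    rw [mul_assoc, ← tsum_mul_right]
    congr 1
    refine tsum_congr fun j => ?_
    by_cases hj : j ∈ ((fun j : Eis => e0 * j ^ n) ⁻¹' {h})
    · have hj' : e0 * j ^ n = h := hj
      rw [Set.indicator_of_mem hj]
      by_cases hj0 : j = 0
      · exfalso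
        apply h0
        rw [← hj', hj0, zero_pow hn0, mul_zero]
      · rw [if_neg hj0, if_pos ⟨hj0, hj'⟩, ← hj', map_mul, map_pow]
        ring
    · rw [Set.indicator_of_notMem hj, if_neg, zero_mul]
      rintro ⟨-, h2⟩
      exact hj h2

/-- **The level-one pair.** -/
theorem pairW_of_FE {n : ℕ} (hn0 : n ≠ 0) {s : ℂ} {ξ : Eis → ℂ} (hξ : ∀ a, ‖ξ a‖ ≤ 1) {V : ℝ}
    (hV : V ≠ 0) {e0 : Eis} (he0 : e0 ≠ 0) {B B' : ℂ} {F F' : Vec → ℂ}
    (h : FEPairN n s ξ V (toC e0) B B' F F') (K K' : ℂ) :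
    PairW s K K' (fun x => K * B / V * W0 n e0 ξ x)
      (fun x => K' * B' / V * W0 n e0 (fun j => conj (ξ j)) x) F F' := by
  have hVC : (V : ℂ) ≠ 0 := by exact_mod_cast hV
  have hξ' : ∀ a, ‖(fun j => conj (ξ j)) a‖ ≤ 1 := by
    intro a
    change ‖conj (ξ a)‖ ≤ 1
    rw [RCLike.norm_conj]
    exact hξ a
  have hb := bd_W0 hn0 he0 hξ
  have hb' := bd_W0 hn0 he0 hξ'
  have hlin : ∀ (c : ℂ) {W : Eis → ℂ}, Bd W → ∀ {G : Vec → ℂ}, Dec4 G → ∀ {M : K695.Frm},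
      det2 M ≠ 0 → MW (fun x => c * W x) G M = c * MW W G M := by
    intro c W hW G hG M hM
    have := MW_add_left hW hW hG hM c 0
    simp only [zero_mul, add_zero] at this
    exact this
  have hbl : ∀ (c : ℂ) {W : Eis → ℂ}, Bd W → Bd (fun x => c * W x) := by
    intro c W hW
    have := hW.lin hW c 0
    simpa using this
  refine ⟨h.tst, h.tst', hbl _ hb, hbl _ hb', ?_, ?_⟩
  · intro M hM
    rw [hlin _ hb (dec4_of_tst h.tst) hM, MW_W0 hn0 he0 hξ (dec4_of_tst h.tst) hM, ← h.m1 M hM]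
    unfold MOpn JL
    push_cast
    field_simp
  · intro M hM
    have hG4 : Dec4 (scl (det2 M) F') := dec4_scl (dec4_of_tst h.tst') hM
    rw [hlin _ hb' hG4 hM, MW_W0 hn0 he0 hξ' hG4 hM, ← h.m2 M hM]
    unfold MOpn JL
    push_cast
    field_simp

end Crest.Agent.R017.GlueW74
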