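import Crest.Agent.R017.OrthG_681
import Crest.Agent.R017.XnDefs_590

/-!
# Row 17, section A: the glue (helper681)

From the big-cell law of two row functions `a, a'` (level `N`) and a pair `F, F'` of test functions
(`FEPairN`) to `E_{a,F} = E_{a',F'}` on all frames.
-/

set_option autoImplicit false

noncomputable section

open MeasureTheory Complex Set Filter
open scoped ENNReal ComplexConjugate Topology

namespace Crest.Agent.R017.Glue681

open Crest.Agent.R012 Crest.Agent.R012.Eis Crest.Agent.R012.K695 Crest.Agent.R012.AU681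
  Crest.Agent.R012.Parseval499 Crest.Agent.R017.Orth681 Crest.Agent.R017.Xn590 Crest.Agent.R017.F1

/-! ### Sixth (and third) powers up to sign -/

/-- the six units. -/
def U6 : Finset Eis := (ball 1).filter fun z => z ≠ 0

lemma mem_U6 {u : Eis} : u ∈ U6 ↔ IsUnit u := by
  unfold U6
  rw [Finset.mem_filter, mem_ball, isUnit_iff]
  constructor
  · rintro ⟨h1, h2⟩
    have := nm_pos.mpr h2
    omega
  · intro h
    refine ⟨h.le, ?_⟩
    rintro rfl
    simp at h

lemma card_U6 : U6.card = 6 := by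
  unfold U6
  decide

lemma unit_pow {n : ℕ} (hn : 3 ∣ n) {u : Eis} (hu : IsUnit u) : u ^ n = 1 ∨ u ^ n = -1 := by
  obtain ⟨k, rfl⟩ := hn
  have h3 : u ^ 3 = 1 ∨ u ^ 3 = -1 := by
    rcases isUnit_cases hu with h | h | h | h | h | h <;> subst h
    · left; simp
    · right; ring
    · left; exact w_cube
    · right
      have := w_cube
      linear_combination -this
    · left
      have : (w ^ 2) ^ 3 = (w ^ 3) ^ 2 := by ring
      rw [this, w_cube]; ring
    · right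
      have : (-w ^ 2) ^ 3 = -(w ^ 3) ^ 2 := by ring
      rw [this, w_cube]; ring
  rw [pow_mul]
  rcases h3 with h | h
  · left; rw [h, one_pow]
  · rw [h]
    exact neg_one_pow_eq_or Eis k

/-- sign. -/
def sgB (b : Bool) : Eis := if b then 1 else -1

lemma sgB_ne (b : Bool) : sgB b ≠ 0 := by
  cases b <;> simp [sgB]

/-- `(ε, j) ↦ ε e₀ jⁿ`. -/
def ps (n : ℕ) (e0 : Eis) (x : Bool × Eis) : Eis := sgB x.1 * (e0 * x.2 ^ n)

lemma neg_one_ne_one : (-1 : Eis) ≠ 1 := by decide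

/-- the fibre over `ε e₀ jⁿ` has six elements. -/
lemma fiber {n : ℕ} (hn0 : n ≠ 0) (hn : 3 ∣ n) {e0 : Eis} (he0 : e0 ≠ 0) {x0 : Bool × Eis}
    (hj : x0.2 ≠ 0) : ∃ S : Finset (Bool × Eis), S.card = 6 ∧ ps n e0 ⁻¹' {ps n e0 x0} = ↑S := by
  classical
  obtain ⟨b0, j0⟩ := x0
  simp only at hj
  let bu : Eis → Bool := fun u => if u ^ n = 1 then b0 else !b0
  have hbu : ∀ u, IsUnit u → sgB (bu u) * u ^ n = sgB b0 := by
    intro u hu
    rcases unit_pow hn hu with h | h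
    · simp only [bu, h, if_true, mul_one]
    · simp only [bu, h, neg_one_ne_one, if_false]
      cases b0 <;> simp [sgB]
  refine ⟨U6.image (fun u => (bu u, u * j0)), ?_, ?_⟩
  · rw [Finset.card_image_of_injective, card_U6]
    intro u v h
    simp only [Prod.mk.injEq] at h
    exact mul_right_cancel₀ hj h.2
  · ext ⟨b, j⟩
    rw [Set.mem_preimage, Set.mem_singleton_iff, Finset.mem_coe, Finset.mem_image]
    unfold ps
    simp only [Prod.mk.injEq]
    constructor
    · intro h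
      have hs : ∀ b : Bool, sgB b * sgB b = 1 := by intro b; cases b <;> simp [sgB]
      have h1 : sgB b * j ^ n = sgB b0 * j0 ^ n := by
        apply mul_left_cancel₀ he0
        linear_combination h
      have hd1 : j0 ^ n ∣ j ^ n := ⟨sgB b * sgB b0, by
        linear_combination (sgB b) * h1 - (j ^ n) * (hs b)⟩
      have hd2 : j ^ n ∣ j0 ^ n := ⟨sgB b * sgB b0, by
        linear_combination -(sgB b0) * h1 - (j0 ^ n) * (hs b0)⟩
      have he1 : j0 ∣ j := (IsIntegrallyClosed.pow_dvd_pow_iff hn0).mp hd1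
      have he2 : j ∣ j0 := (IsIntegrallyClosed.pow_dvd_pow_iff hn0).mp hd2
      obtain ⟨u, rfl⟩ := he1
      have hu : IsUnit u := by
        obtain ⟨v, hv⟩ := he2
        refine IsUnit.of_mul_eq_one v ?_
        apply mul_left_cancel₀ hj
        linear_combination -hv
      refine ⟨u, mem_U6.mpr hu, ?_, mul_comm _ _⟩
      have h2 : sgB b * u ^ n = sgB b0 := by
        apply mul_right_cancel₀ (pow_ne_zero n hj)
        rw [mul_pow] at h1
        linear_combination h1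
      have h3 := hbu u hu
      have h4 : sgB (bu u) = sgB b := by
        apply mul_right_cancel₀ (pow_ne_zero n hu.ne_zero)
        rw [h3, h2]
      revert h4
      generalize bu u = c
      cases b <;> cases c <;> simp [sgB, neg_one_ne_one, neg_one_ne_one.symm]
    · rintro ⟨u, hu, rfl, rfl⟩
      rw [mul_pow]
      linear_combination (e0 * j0 ^ n) * hbu u (mem_U6.mp hu)

/-- **Fibre lemma**: `∑_h f(h) = (1/3) ∑_{j ≠ 0} f(e₀ jⁿ)` for `f` even, supported on `± e₀ jⁿ`. -/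
theorem tsum_powers {n : ℕ} (hn0 : n ≠ 0) (hn : 3 ∣ n) {e0 : Eis} (he0 : e0 ≠ 0) {f : Eis → ℂ}
    (hf : Summable f) (hev : ∀ h, f (-h) = f h)
    (hsupp : ∀ h, f h ≠ 0 → ∃ j, j ≠ 0 ∧ (h = e0 * j ^ n ∨ -h = e0 * j ^ n)) :
    Summable (fun j : Eis => if j = 0 then 0 else f (e0 * j ^ n)) ∧
    ∑' h, f h = (1 / 3 : ℂ) * ∑' j : Eis, (if j = 0 then 0 else f (e0 * j ^ n)) := by
  classical
  have h00 : f 0 = 0 := by
    by_contra h
    obtain ⟨j, hj, h1 | h1⟩ := hsupp 0 h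
    · exact mul_ne_zero he0 (pow_ne_zero n hj) h1.symm
    · rw [neg_zero] at h1
      exact mul_ne_zero he0 (pow_ne_zero n hj) h1.symm
  let g : Bool × Eis → ℂ := fun x => if x.2 = 0 then 0 else f (ps n e0 x)
  -- fibre sums
  have hfib : ∀ (A : Type) [AddCommMonoid A] [TopologicalSpace A] [T2Space A] (F : Eis → A) (_ : F 0 = 0)
      (_ : ∀ h, (¬ ∃ x : Bool × Eis, x.2 ≠ 0 ∧ h = ps n e0 x) → F h = 0) (h : Eis),
      ∑' x : (ps n e0 ⁻¹' {h} : Set (Bool × Eis)), (if x.1.2 = 0 then 0 else F (ps n e0 x.1)) = 6 • F h := by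
    intro A _ _ _ F hF0 hFs h
    by_cases hx : ∃ x : Bool × Eis, x.2 ≠ 0 ∧ h = ps n e0 x
    · obtain ⟨x0, hj, rfl⟩ := hx
      obtain ⟨S, hS, hSe⟩ := fiber hn0 hn he0 hj
      have e1 : ∀ x : (ps n e0 ⁻¹' {ps n e0 x0} : Set (Bool × Eis)),
          (if x.1.2 = 0 then 0 else F (ps n e0 x.1)) = F (ps n e0 x0) := by
        rintro ⟨x, hx⟩
        rw [Set.mem_preimage, Set.mem_singleton_iff] at hx
        simp only
        rw [if_neg, hx]
        intro hz
        have : ps n e0 x = 0 := by unfold ps; rw [hz, zero_pow hn0]; ring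
        rw [this] at hx
        have h2 : ps n e0 x0 ≠ 0 := mul_ne_zero (sgB_ne _) (mul_ne_zero he0 (pow_ne_zero n hj))
        exact h2 hx.symm
      rw [tsum_congr e1, hSe]
      rw [Finset.tsum_subtype' S (fun _ => F (ps n e0 x0)), Finset.sum_const, hS]
    · rw [hFs h hx, smul_zero]
      have e1 : ∀ x : (ps n e0 ⁻¹' {h} : Set (Bool × Eis)),
          (if x.1.2 = 0 then 0 else F (ps n e0 x.1)) = 0 := by
        rintro ⟨x, hx2⟩
        rw [Set.mem_preimage, Set.mem_singleton_iff] at hx2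
        simp only
        split_ifs with hz
        · rfl
        · rw [hx2]; exact hFs h hx
      rw [tsum_congr e1, tsum_zero]
  have hfs : ∀ h, (¬ ∃ x : Bool × Eis, x.2 ≠ 0 ∧ h = ps n e0 x) → f h = 0 := by
    intro h hx
    by_contra hne
    obtain ⟨j, hj, h1 | h1⟩ := hsupp h hne
    · exact hx ⟨(true, j), hj, by simp [ps, sgB, h1]⟩
    · exact hx ⟨(false, j), hj, by rw [eq_comm, neg_eq_iff_eq_neg.mp h1]; simp [ps, sgB]⟩
  have hgs : Summable g := by
    have h1 : ∑' x : Bool × Eis, ‖g x‖ₑ = ∑' h : Eis, 6 • ‖f h‖ₑ := by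
      rw [← ENNReal.tsum_fiberwise (fun x => ‖g x‖ₑ) (ps n e0)]
      refine tsum_congr fun h => ?_
      rw [← hfib ℝ≥0∞ (fun h => ‖f h‖ₑ) (by simp [h00]) (fun h hx => by rw [hfs h hx]; simp) h]
      refine tsum_congr fun x => ?_
      change ‖(if x.1.2 = 0 then 0 else f (ps n e0 x.1))‖ₑ = _
      split_ifs <;> simp
    have h2 : ∑' h : Eis, ‖f h‖ₑ ≠ ∞ := by
      have := (ENNReal.tsum_coe_ne_top_iff_summable_coe (f := fun h => ‖f h‖₊)).mpr (by
        simpa using hf.norm)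
      exact this
    have h3 : ∑' x : Bool × Eis, ‖g x‖ₑ ≠ ∞ := by
      rw [h1]
      simp_rw [nsmul_eq_mul]
      rw [ENNReal.tsum_mul_left]
      exact ENNReal.mul_ne_top (by simp) h2
    have h4 : ∑' x : Bool × Eis, ((‖g x‖₊ : NNReal) : ℝ≥0∞) ≠ ∞ := h3
    exact (ENNReal.tsum_coe_ne_top_iff_summable_coe.mp h4).of_norm
  have htot : ∑' x, g x = 6 * ∑' h, f h := by
    rw [← (hgs.hasSum.tsum_fiberwise (ps n e0)).tsum_eq, ← tsum_mul_left]
    refine tsum_congr fun h => ?_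
    have := hfib ℂ f h00 hfs h
    rw [nsmul_eq_mul] at this
    push_cast at this
    exact this
  have hgt : ∀ j, g (true, j) = if j = 0 then 0 else f (e0 * j ^ n) := by
    intro j
    simp [g, ps, sgB]
  have hgf : ∀ j, g (false, j) = if j = 0 then 0 else f (e0 * j ^ n) := by
    intro j
    simp [g, ps, sgB, hev]
  have hst : Summable (fun j => g (true, j)) := hgs.comp_injective (Prod.mk_right_injective true)
  simp_rw [hgt] at hst
  refine ⟨hst, ?_⟩
  have h5 : ∑' x, g x = 2 * ∑' j : Eis, (if j = 0 then 0 else f (e0 * j ^ n)) := by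
    rw [hgs.tsum_prod, tsum_bool]
    simp_rw [hgt, hgf]
    ring
  rw [h5] at htot
  linear_combination -(1 / 6 : ℂ) * htot

/-! ### Test functions -/

lemma tfd_const {s : ℂ} {F : Vec → ℂ} (h : TstN s F) : TFD (fun _ u => F u) where
  cont := (h.cont.comp continuous_snd).continuousOn
  dec D := by
    obtain ⟨C, hC⟩ := h.dec
    exact ⟨C, fun _ _ u => hC u⟩

lemma n2_smul (c : ℂ) (u : Vec) : n2 (c • u) = ‖c‖ ^ 2 * n2 u := by
  unfold n2
  simp only [Prod.smul_fst, Prod.smul_snd, smul_eq_mul, norm_mul]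
  ring

lemma tfd_scl {s : ℂ} {F : Vec → ℂ} (h : TstN s F) : TFD (fun δ u => scl δ F u) where
  cont := by
    intro p hp
    have hp0 : p.1 ≠ 0 := hp
    apply ContinuousAt.continuousWithinAt
    have hn : ‖p.1‖ ^ 2 ≠ 0 := pow_ne_zero 2 (norm_ne_zero_iff.mpr hp0)
    have h1 : ContinuousAt (fun p : ℂ × Vec => (((‖p.1‖ ^ 2)⁻¹ : ℝ) : ℂ)) p := by
      refine Complex.continuous_ofReal.continuousAt.comp ?_
      exact ((continuous_fst.norm.pow 2).continuousAt).inv₀ hn
    have h2 : ContinuousAt (fun p : ℂ × Vec => F (p.1⁻¹ • p.2)) p := by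
      refine ContinuousAt.comp (f := fun p : ℂ × Vec => p.1⁻¹ • p.2) h.cont.continuousAt ?_
      exact (continuous_fst.continuousAt.inv₀ hp0).smul continuous_snd.continuousAt
    exact h1.mul h2
  dec D := by
    obtain ⟨C, hC⟩ := h.dec
    refine ⟨|C| * (D ^ 2 * (1 + D ^ 2) ^ 4), fun δ hδ u => ?_⟩
    have hD : 0 < D := An_pos hδ
    have hδ0 : δ ≠ 0 := An_ne hδ
    have hδn : 0 < ‖δ‖ := norm_pos_iff.mpr hδ0
    have hn := n2_nonneg u
    unfold scl
    rw [norm_mul, Complex.norm_real, Real.norm_of_nonneg (by positivity)]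
    have h1 : (‖δ‖ ^ 2)⁻¹ ≤ D ^ 2 := by
      rw [inv_eq_one_div, div_le_iff₀ (by positivity)]
      have : 1 ≤ (D * ‖δ‖) ^ 2 := one_le_pow₀ hδ.1
      nlinarith
    have h2 : ‖F (δ⁻¹ • u)‖ ≤ |C| * ((1 + D ^ 2) ^ 4 * GG u) := by
      refine (hC _).trans ?_
      have hn' := n2_nonneg (δ⁻¹ • u)
      have h3 : ((1 + n2 (δ⁻¹ • u)) ^ 4)⁻¹ ≤ (1 + D ^ 2) ^ 4 * GG u := by
        unfold GG
        rw [inv_eq_one_div, ← div_eq_mul_inv, div_le_div_iff₀ (by positivity) (by positivity),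
          one_mul, ← mul_pow]
        apply pow_le_pow_left₀ (by positivity)
        rw [n2_smul, norm_inv, inv_pow]
        have h4 : n2 u ≤ D ^ 2 * ((‖δ‖ ^ 2)⁻¹ * n2 u) := by
          have h5 : ‖δ‖ ^ 2 ≤ D ^ 2 := by
            have := hδ.2
            gcongr
          have h6 : 1 ≤ D ^ 2 * (‖δ‖ ^ 2)⁻¹ := by
            rw [← div_eq_mul_inv, le_div_iff₀ (by positivity)]
            linarith
          nlinarith
        have h7 : 0 ≤ (‖δ‖ ^ 2)⁻¹ * n2 u := by positivity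
        nlinarith
      calc C * ((1 + n2 (δ⁻¹ • u)) ^ 4)⁻¹ ≤ |C| * ((1 + n2 (δ⁻¹ • u)) ^ 4)⁻¹ := by
            gcongr
            exact le_abs_self C
        _ ≤ _ := by gcongr
    have h3 := GG_nonneg u
    calc (‖δ‖ ^ 2)⁻¹ * ‖F (δ⁻¹ • u)‖ ≤ D ^ 2 * (|C| * ((1 + D ^ 2) ^ 4 * GG u)) := by
          gcongr
      _ = _ := by ring

lemma scl_neg {s : ℂ} {F : Vec → ℂ} (h : TstN s F) (δ : ℂ) (u : Vec) :
    scl δ F (-u) = s * scl δ F u := by
  unfold scl
  rw [smul_neg, h.par]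
  ring

/-! ### The big cell -/

/-- **The big-cell law** from `a` to `a'`. -/
structure BigCell (N : Eis) (χ : GN N → ℂ) (n : ℕ) (e0 : Eis) (ξ : Eis → ℂ) (Kw : ℂ)
    (a a' : Eis × Eis → ℂ) : Prop where
  law : ∀ g : SLE, Reg χ g → (a (br g) ≠ 0 ∨ a' (br g) ≠ 0) → ∀ j : Eis, j ≠ 0 →
    sumMod (e0 * j ^ n * N) (fun y => a (rmulS (e0 * j ^ n, y) g)) =
      (nm (e0 * j ^ n) : ℂ) * (Kw * (ξ j * (PL j : ℂ))) * a' (br g)
  zero : ∀ g : SLE, Reg χ g → (a (br g) ≠ 0 ∨ a' (br g) ≠ 0) → ∀ h : Eis, h ≠ 0 →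
    (¬ ∃ j, h = e0 * j ^ n ∨ -h = e0 * j ^ n) →
    sumMod (h * N) (fun y => a (rmulS (h, y) g)) = 0

lemma rmulS_neg (h y : Eis) (g : SLE) : rmulS (-h, -y) g = -rmulS (h, y) g := by
  unfold rmulS
  ext1 <;> simp <;> ring

/-- parity of the local sums. -/
lemma sumMod_par {N : Eis} (hN : N ≠ 0) {s : ℂ} {a : Eis × Eis → ℂ}
    (hpar : ∀ r, a (-r) = s * a r) {g : SLE}
    (hper : ∀ h, PMod (h * N) (fun y => a (rmulS (h, y) g))) {h : Eis} (hh : h ≠ 0) :
    sumMod (-h * N) (fun y => a (rmulS (-h, y) g)) =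
      s * sumMod (h * N) (fun y => a (rmulS (h, y) g)) := by
  have hhN : h * N ≠ 0 := mul_ne_zero hh hN
  have hassoc : Associated (-h * N) (h * N) := by
    rw [neg_mul]
    exact Associated.neg_left (Associated.refl _)
  have hhN' : -h * N ≠ 0 := mul_ne_zero (neg_ne_zero.mpr hh) hN
  rw [sumMod_associated hhN' hassoc (hper (-h))]
  rw [← sumMod_mul_left hhN]
  have hp : PMod (h * N) (fun y => a (rmulS (-h, y) g)) := (hper (-h)).of_associated hassoc
  rw [← sumMod_neg hhN hp]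
  refine sumMod_congr fun y => ?_
  rw [rmulS_neg, hpar]

/-- **Constant term with a big-cell law.** -/
theorem ct_bigcell {N : Eis} (hN : N ≠ 0) {χ : GN N → ℂ} {n : ℕ} (hn0 : n ≠ 0) (hn : 3 ∣ n)
    {e0 : Eis} (he0 : e0 ≠ 0) {ξ : Eis → ℂ} {Kw s : ℂ} (hs : s = 1 ∨ s = -1)
    {a a' : Eis × Eis → ℂ} (ha : Cof N χ a) (hbc : BigCell N χ n e0 ξ Kw a a')
    (hpar : ∀ r, a (-r) = s * a r) {H : ℂ → Vec → ℂ} (hH : TFD H)
    (hHpar : ∀ δ u, H δ (-u) = s * H δ u) {g : SLE} (hg : Reg χ g)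
    (hsup : a (br g) ≠ 0 ∨ a' (br g) ≠ 0) {M : K695.Frm} (hM : det2 M ≠ 0) :
    CT N g (ED a H) M =
      (covol (toC N) : ℂ) * ∑' y : Eis, a (rmulS (0, y) g) * H (det2 M) (toC y • M.2) +
      (1 / 3 : ℂ) * (Kw * a' (br g)) * ∑' j : Eis, (if j = 0 then 0 else
        ξ j * ((PL j : ℂ) * ∫ x : ℂ, H (det2 M) ((toC e0 * toC j ^ n) • M.1 + x • M.2))) := by
  classical
  rw [ct_formula hN ha hH hg hM]
  congr 1
  set f : Eis → ℂ := fun h => if h = 0 then 0 else ((nm h : ℂ))⁻¹ *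
        (sumMod (h * N) (fun y => a (rmulS (h, y) g)) *
          ∫ z : ℂ, H (det2 M) (toC h • M.1 + z • M.2)) with hf
  have hfs : Summable f := summable_ct hN ha hH hg hM
  have hss : s * s = 1 := by rcases hs with h | h <;> rw [h] <;> ring
  have hI : ∀ h : Eis, ∫ z : ℂ, H (det2 M) (toC (-h) • M.1 + z • M.2) =
      s * ∫ z : ℂ, H (det2 M) (toC h • M.1 + z • M.2) := by
    intro h
    rw [← integral_const_mul, ← integral_neg_eq_self
      (fun z : ℂ => H (det2 M) (toC (-h) • M.1 + z • M.2))]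
    refine integral_congr_ae (Filter.Eventually.of_forall fun z => ?_)
    simp only
    rw [← hHpar]
    congr 1
    rw [map_neg, neg_smul, neg_smul, neg_add]
  have hev : ∀ h, f (-h) = f h := by
    intro h
    by_cases h0 : h = 0
    · rw [h0, neg_zero]
    · simp only [hf]
      rw [if_neg (neg_ne_zero.mpr h0), if_neg h0, hI, sumMod_par hN hpar (pmod_of_reg ha hg) h0,
        nm_neg]
      linear_combination (((nm h : ℂ))⁻¹ * (sumMod (h * N) (fun y => a (rmulS (h, y) g)) *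
          ∫ z : ℂ, H (det2 M) (toC h • M.1 + z • M.2))) * hss
  have hsupp : ∀ h, f h ≠ 0 → ∃ j, j ≠ 0 ∧ (h = e0 * j ^ n ∨ -h = e0 * j ^ n) := by
    intro h hne
    have h0 : h ≠ 0 := by
      rintro rfl
      exact hne (by simp [hf])
    by_contra hno
    apply hne
    simp only [hf]
    rw [if_neg h0, hbc.zero g hg hsup h h0 ?_]
    · simp
    · rintro ⟨j, hj⟩
      refine hno ⟨j, ?_, hj⟩
      rintro rfl
      rw [zero_pow hn0, mul_zero, neg_eq_zero, or_self] at hj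
      exact h0 hj
  rw [(tsum_powers hn0 hn he0 hfs hev hsupp).2, mul_assoc]
  congr 1
  rw [← tsum_mul_left]
  refine tsum_congr fun j => ?_
  by_cases hj : j = 0
  · rw [if_pos hj, if_pos hj, mul_zero]
  · rw [if_neg hj, if_neg hj]
    have hne : e0 * j ^ n ≠ 0 := mul_ne_zero he0 (pow_ne_zero n hj)
    simp only [hf]
    rw [if_neg hne, hbc.law g hg hsup j hj]
    have hnm : (nm (e0 * j ^ n) : ℂ) ≠ 0 := by exact_mod_cast (nm_pos.mpr hne).ne'
    rw [map_mul, map_pow]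
    field_simp

/-- The unit term. -/
lemma unit_term {s : ℂ} (hs : s = 1 ∨ s = -1) {a : Eis × Eis → ℂ} (hpar : ∀ r, a (-r) = s * a r)
    {g : SLE} (huni : ∀ y : Eis, a (rmulS (0, y) g) ≠ 0 → y = 1 ∨ y = -1) {F : Vec → ℂ}
    (hF : ∀ u, F (-u) = s * F u) (v : Vec) :
    ∑' y : Eis, a (rmulS (0, y) g) * F (toC y • v) = 2 * (a (br g) * F v) := by
  have hss : s * s = 1 := by rcases hs with h | h <;> rw [h] <;> ring
  rw [tsum_eq_sum (s := {1, -1})]
  · rw [Finset.sum_pair neg_one_ne_one.symm]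
    have e1 : rmulS (0, 1) g = br g := by simp [rmulS, br]
    have e2 : rmulS (0, -1) g = -br g := by
      unfold rmulS br
      ext1 <;> simp
    rw [e1, e2, hpar, map_one, one_smul, map_neg, map_one, neg_one_smul, hF]
    linear_combination (a (br g) * F v) * hss
  · intro y hy
    have : a (rmulS (0, y) g) = 0 := by
      by_contra hne
      apply hy
      rcases huni y hne with h | h <;> simp [h]
    rw [this, zero_mul]

/-- units acting on the support. -/
def UnitPM (a a' : Eis × Eis → ℂ) : Prop :=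
  ∀ (r : Eis × Eis) (y : Eis), (a r ≠ 0 ∨ a' r ≠ 0) →
    (a (y * r.1, y * r.2) ≠ 0 ∨ a' (y * r.1, y * r.2) ≠ 0) → y = 1 ∨ y = -1

/-- **The glue.** -/
theorem glue {N : Eis} (hN : N ≠ 0) {χ : GN N → ℂ} (hχ : ∀ g, ‖χ g‖ = 1) {n : ℕ} (hn0 : n ≠ 0)
    (hn : 3 ∣ n) {e0 : Eis} (he0 : e0 ≠ 0) {ξ : Eis → ℂ} {Kw Kw' s B B' : ℂ} {V : ℝ}
    (hs : s = 1 ∨ s = -1) (hV : V ≠ 0) {a a' : Eis × Eis → ℂ} (ha : Cof N χ a) (ha' : Cof N χ a')
    (hbc : BigCell N χ n e0 ξ Kw a a') (hbc' : BigCell N χ n e0 (fun j => conj (ξ j)) Kw' a' a)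
    (hpar : ∀ r, a (-r) = s * a r) (hpar' : ∀ r, a' (-r) = s * a' r) (huni : UnitPM a a')
    (hK : Kw * V = covol (toC N) * B) (hK' : Kw' * V = covol (toC N) * B')
    {F F' : Vec → ℂ} (hF : FEPairN n s ξ V (toC e0) B B' F F')
    {M : K695.Frm} (hM : det2 M ≠ 0) : EC a F M = EC a' (scl (det2 M) F') M := by
  have hVC : (V : ℂ) ≠ 0 := by exact_mod_cast hV
  have hT : TFD (fun _ u => F u) := tfd_const hF.tst
  have hT' : TFD (fun δ u => scl δ F' u) := tfd_scl hF.tst'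
  have key := eq_of_ct hN hχ ha ha' hT hT' ?_ hM
  · exact key
  · intro g hg hsup X hX
    have hu1 : ∀ y : Eis, a (rmulS (0, y) g) ≠ 0 → y = 1 ∨ y = -1 := by
      intro y hy
      refine huni (br g) y hsup (Or.inl ?_)
      have : rmulS (0, y) g = (y * (br g).1, y * (br g).2) := by simp [rmulS, br]
      rwa [← this]
    have hu2 : ∀ y : Eis, a' (rmulS (0, y) g) ≠ 0 → y = 1 ∨ y = -1 := by
      intro y hy
      refine huni (br g) y hsup (Or.inr ?_)
      have : rmulS (0, y) g = (y * (br g).1, y * (br g).2) := by simp [rmulS, br]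
      rwa [← this]
    rw [ct_bigcell hN hn0 hn he0 hs ha hbc hpar hT (fun _ u => hF.tst.par u) hg hsup hX,
      ct_bigcell hN hn0 hn he0 hs ha' hbc' hpar' hT' (fun δ u => scl_neg hF.tst' δ u) hg hsup.symm hX,
      unit_term hs hpar hu1 (fun u => hF.tst.par u),
      unit_term hs hpar' hu2 (F := fun u => scl (det2 X) F' u) (fun u => scl_neg hF.tst' _ u)]
    have h1 := hF.m1 X hX
    have h2 := hF.m2 X hX
    unfold MOpn at h1 h2
    set S1 : ℂ := ∑' j : Eis, (if j = 0 then 0 else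
        ξ j * ((PL j : ℂ) * ∫ x : ℂ, F ((toC e0 * toC j ^ n) • X.1 + x • X.2))) with hS1
    set S2 : ℂ := ∑' j : Eis, (if j = 0 then 0 else
        conj (ξ j) * ((PL j : ℂ) * ∫ x : ℂ, scl (det2 X) F' ((toC e0 * toC j ^ n) • X.1 + x • X.2)))
      with hS2
    rw [← h1, ← h2]
    push_cast
    have hk1 : Kw = (covol (toC N) : ℂ) * B / V := by field_simp; exact hK
    have hk2 : Kw' = (covol (toC N) : ℂ) * B' / V := by field_simp; exact hK'
    rw [hk1, hk2]
    field_simp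
    ring

end Crest.Agent.R017.Glue681
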