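import Crest.Agent.R017.Leg5_381

/-!
# Row 17, RG3 (helper381): the rule for a fixed divisor `g`, list form

* `ChG r p' p` : children
* every child has `∑ len' ≥ ∑ len - log nm g - N log D0 - r`
* `sub_list` : `VF (e^k) (sqc (q g) (sub (alF z D0 P h ps) g)) ≤ C X^ε Bd` from the bounds
  `SF z D0 (q g) P h l ps' ≤ Bd * cst^M * exp (∑ len' + log nm g - ∑ len)` for all children,
  `l = k + ∑ len - log nm g - ∑ len'`; for lists of truncated pieces and `g ≠ 1` every child is
  shorter by `min (log z) (log D0) - r`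
-/

set_option autoImplicit false
set_option linter.unusedSectionVars false
set_option linter.unusedVariables false

noncomputable section

open Complex
open scoped ComplexConjugate

namespace Crest.Agent.R017.Leg381

open Crest.Agent.R012 Crest.Agent.R012.Eis Crest.Agent.R012.LS2 Crest.Agent.R012.Gauss880
open Crest.Agent.R012.Mob705
open Crest.Agent.R012.Div277 (tau dvs mem_dvs isPrim_of_mem_dvs dvd_of_mem_dvs tau_le_rpow)
open Crest.Agent.R017.CM106 Crest.Agent.R017.HP842 Crest.Agent.R017.FE47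
open Crest.Agent.R017.End699 Crest.Agent.R017.XC858
open Crest.Agent.R017.B770
open Crest.Agent.R017.Prov71
open Crest.Agent.R017.Rough381

/-- children -/
def ChG (r : ℝ) (p' p : Pf) : Prop :=
  p'.1.kd = p.1.kd ∧ p'.1.d = p.1.d ∧ (p.1.u = .one → p'.1.u = .one) ∧
  0 ≤ p'.1.z ∧ p'.1.z ≤ p.1.z + r ∧ (p.2 = false → p'.2 = false)

lemma forall₂_ofFnG {r : ℝ} (ps : List Pf) (g : Fin ps.length → Pf)
    (hg : ∀ i, ChG r (g i) (ps.get i)) : List.Forall₂ (ChG r) (List.ofFn g) ps := by
  rw [List.forall₂_iff_get]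
  refine ⟨by simp, fun i h1 h2 => ?_⟩
  have := hg ⟨i, h2⟩
  simpa using this

lemma FS_alW {ι : Type} [Fintype ι] [DecidableEq ι] {h : ℝ → ℝ} {R : ℝ}
    (hR : ∀ u, cx h u ≠ 0 → |u| ≤ R) {s : ι → Pc} (hs : ∀ i, (s i).OK) (W : ι → Eis → ℂ) :
    FS (alW h s W) := by
  unfold alW
  refine FS_cv fun i => ?_
  have h1 := FS_pc hR (hs i)
  refine ⟨h1.fin.subset fun n hn h0 => hn ?_, fun m hm => h1.prim m fun h0 => hm ?_⟩
  · have h0' : pc h (s i) n = 0 := h0
    show pc h (s i) n * W i n = 0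
    rw [h0', zero_mul]
  · rw [h0, zero_mul]

lemma TG_sum {κ : Type*} (S : Finset κ) (a : κ → ℂ) (w : κ → Eis → ℂ) (hw : ∀ x, FS (w x))
    (l : Eis) : TG (fun n => ∑ x ∈ S, a x * w x n) l = ∑ x ∈ S, a x * TG (w x) l := by
  unfold TG
  have e1 : ∀ n, (∑ x ∈ S, a x * w x n) * (G n * conj (sy l n)) =
      ∑ x ∈ S, a x * (w x n * (G n * conj (sy l n))) := by
    intro n
    rw [Finset.sum_mul]
    exact Finset.sum_congr rfl fun x _ => by ring
  rw [tsum_congr e1, Summable.tsum_finsetSum]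
  · exact Finset.sum_congr rfl fun x _ => tsum_mul_left
  · intro x _
    exact ((hw x).summable _).mul_left _

/-- several sequences -/
lemma VF_sum_le {κ : Type*} (L : ℝ) (S : Finset κ) (a : κ → ℂ) (ha : ∀ x ∈ S, ‖a x‖ ≤ 1)
    (w : κ → Eis → ℂ) (hw : ∀ x, FS (w x)) :
    VF L (fun n => ∑ x ∈ S, a x * w x n) ≤ (S.card : ℝ) * ∑ x ∈ S, VF L (w x) := by
  classical
  unfold VF
  have e1 : ∀ j ∈ (bl L).filter CubeFree, ‖TG (fun n => ∑ x ∈ S, a x * w x n) j‖ ^ 2 ≤
      (S.card : ℝ) * ∑ x ∈ S, ‖TG (w x) j‖ ^ 2 := by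
    intro j _
    rw [TG_sum S a w hw]
    refine (CR2.norm_sum_sq_le_card S _).trans ?_
    refine mul_le_mul_of_nonneg_left ?_ (Nat.cast_nonneg _)
    refine Finset.sum_le_sum fun x hx => ?_
    rw [norm_mul]
    refine pow_le_pow_left₀ (by positivity) ?_ 2
    exact mul_le_of_le_one_left (norm_nonneg _) (ha x hx)
  refine (Finset.sum_le_sum e1).trans (le_of_eq ?_)
  rw [← Finset.mul_sum, Finset.sum_comm]

/-- **the rule for a fixed divisor, list form** -/
theorem sub_list {h : ℝ → ℝ} {c : ℝ} (hpu : PU h c) (N : ℕ) {B₀ : ℝ} (hB₀ : 0 ≤ B₀) {ε : ℝ}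
    (hε : 0 < ε) {M : ℝ} (hM : 0 ≤ M) : ∃ C r : ℝ, 1 ≤ C ∧ 0 ≤ r ∧ ∀ X : ℝ, 3 ≤ X →
    ∀ (P : DPar), P.OK → ∀ (z D0 : ℝ) (q : Eis), 1 ≤ D0 →
    ∀ g : Eis, IsPrim g → (nm g : ℝ) ≤ X ^ B₀ →
    ∀ (k : ℝ) (ps : List Pf), 0 ≤ k → k ≤ Real.log X → ps.length ≤ N →
    (∀ p ∈ ps, 0 ≤ p.1.z ∧ p.1.z ≤ Real.log X) → ∀ Bd : ℝ, 0 ≤ Bd →
    (∀ (l : ℝ) (ps' : List Pf), 0 ≤ l → List.Forall₂ (ChG r) ps' ps →
      LF ps' ≤ LF ps - Real.log (nm g) + r →
      LF ps - Real.log (nm g) - N * Real.log D0 - r ≤ LF ps' →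
      (g ≠ 1 → 1 ≤ z → (∀ p ∈ ps, p.2 = true) →
        LF ps' ≤ LF ps - min (Real.log z) (Real.log D0) + r) →
      |l - (k + LF ps - Real.log (nm g) - LF ps')| ≤ r →
      SF z D0 (q * g) P h l ps' ≤
        Bd * cstF ps' ps ^ M * Real.exp (LF ps' + Real.log (nm g) - LF ps)) →
    VF (Real.exp k) (sqc (q * g) (CM106.sub (alF z D0 P h ps) g)) ≤ C * X ^ ε * Bd := by
  classical
  obtain ⟨R₀, hR₀⟩ := bump_of_cs hpu.cs
  set R := max R₀ 0 with hRd
  have hR0 : 0 ≤ R := le_max_right _ _
  have hR : ∀ u, cx h u ≠ 0 → |u| ≤ R := fun u hu => (hR₀ u hu).trans (le_max_left _ _)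
  obtain ⟨C₁, hC₁, H⟩ := gen_split hpu hR0 hR M
  -- constants
  set η := ε / (8 * ((N : ℝ) + 1) * ((N : ℝ) + 1) * (B₀ + 1)) with hη
  have hN0 : (0 : ℝ) ≤ N := Nat.cast_nonneg _
  have hη0 : 0 < η := by positivity
  obtain ⟨C₂, hC₂, hτ⟩ := tau_le_rpow hη0
  set c₀ : ℝ := Real.log 2 + R + 1 with hc₀
  have hc₀0 : 0 ≤ c₀ := by have := Real.log_nonneg (by norm_num : (1 : ℝ) ≤ 2); linarith
  obtain ⟨C₃, hC₃, hlog⟩ := log_pow_le (ε := ε / 4) (by linarith) (2 * N) hc₀0
  set A : ℝ := Real.exp 1 * (2 * Real.exp R) with hA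
  have hA1 : 1 ≤ A := by
    have h1 : 1 ≤ Real.exp 1 := Real.one_le_exp zero_le_one
    have h2 : 1 ≤ Real.exp R := Real.one_le_exp hR0
    nlinarith
  set r : ℝ := N * (2 * R + 2) with hr
  have hr0 : 0 ≤ r := by positivity
  refine ⟨(C₂ ^ N) ^ 2 * (C₁ ^ N * (C₂ ^ 2) ^ N * C₃) * (C₂ ^ N * (A ^ N) ^ (η * N)) * Real.exp r,
    r + (2 * R + 2), ?_, by linarith, ?_⟩
  · have h1 : 1 ≤ C₁ ^ N := one_le_pow₀ hC₁
    have h2 : 1 ≤ C₂ ^ N := one_le_pow₀ hC₂
    have h2' : 1 ≤ (C₂ ^ 2) ^ N := one_le_pow₀ (one_le_pow₀ hC₂)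
    have h3 : 1 ≤ (A ^ N) ^ (η * N) := Real.one_le_rpow (one_le_pow₀ hA1) (by positivity)
    have h4 : 1 ≤ Real.exp r := Real.one_le_exp hr0
    exact one_le_mul_of_one_le_of_one_le (one_le_mul_of_one_le_of_one_le
      (one_le_mul_of_one_le_of_one_le (one_le_pow₀ h2) (one_le_mul_of_one_le_of_one_le
        (one_le_mul_of_one_le_of_one_le h1 h2') hC₃)) (one_le_mul_of_one_le_of_one_le h2 h3)) h4
  intro X hX P hP z D0 q hD0 g hg hgX k ps hk hkX hlen hps Bd hBd hyp
  have hX1 : (1 : ℝ) ≤ X := by linarith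
  have hX0 : (0 : ℝ) < X := by linarith
  set n := ps.length with hn
  have hnN : (n : ℝ) ≤ N := by exact_mod_cast hlen
  set s : Fin n → Pc := fun i => (ps.get i).1.pc P with hs
  set f : Fin n → Bool := fun i => (ps.get i).2 with hf
  have hsOK : ∀ i, (s i).OK := fun i => Pq.ok hP _
  have hseq : alF z D0 P h ps = alf z D0 h s f := alF_get z D0 P h ps
  -- the support bound
  set X' : ℕ := ⌈X * Real.exp R⌉₊ with hX'
  have h1R : 1 ≤ Real.exp R := Real.one_le_exp hR0
  have hXR : 1 ≤ X * Real.exp R := by nlinarith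
  have hX'1 : 1 ≤ X' := by
    rw [hX']
    exact Nat.one_le_ceil_iff.2 (by linarith)
  have hX'2 : (X' : ℝ) ≤ 2 * Real.exp R * X := by
    have := (Nat.ceil_lt_add_one (by linarith : 0 ≤ X * Real.exp R)).le
    rw [hX']
    linarith
  have hsX : ∀ i, (s i).Y * Real.exp R ≤ X' := by
    intro i
    refine le_trans ?_ (Nat.le_ceil _)
    refine mul_le_mul_of_nonneg_right ?_ (Real.exp_pos _).le
    show Real.exp (ps.get i).1.z ≤ X
    calc Real.exp (ps.get i).1.z ≤ Real.exp (Real.log X) :=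
          Real.exp_le_exp.2 (hps _ (List.get_mem ps i)).2
      _ = X := Real.exp_log hX0
  have hlogX' : Real.log X' ≤ Real.log X + (Real.log 2 + R) := by
    calc Real.log X' ≤ Real.log (2 * Real.exp R * X) :=
          Real.log_le_log (by exact_mod_cast hX'1) hX'2
      _ = Real.log X + (Real.log 2 + R) := by
          rw [Real.log_mul (by positivity) hX0.ne', Real.log_mul two_ne_zero
            (Real.exp_pos _).ne', Real.log_exp]
          ring
  -- the divisor bound on the family
  set D : ℝ := C₂ ^ N * (A ^ N) ^ (η * N) * X ^ (ε / 4) with hD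
  have hD00 : 0 ≤ D := by positivity
  have hB1 : 1 ≤ B₀ + 1 := by linarith
  have hηN : η * N * ((N : ℝ) + 1) ≤ ε / 8 := by
    rw [hη, div_mul_eq_mul_div, div_mul_eq_mul_div, div_le_div_iff₀ (by positivity) (by norm_num)]
    have h1 : ε * N * ((N : ℝ) + 1) ≤ ε * ((N : ℝ) + 1) * ((N : ℝ) + 1) := by
      have : (N : ℝ) ≤ N + 1 := by linarith
      gcongr
    have h2 : ε * ((N : ℝ) + 1) * ((N : ℝ) + 1) ≤
        ε * ((N : ℝ) + 1) * ((N : ℝ) + 1) * (B₀ + 1) :=
      le_mul_of_one_le_right (by positivity) hB1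
    nlinarith
  have hηB : η * B₀ * (2 * N) ≤ ε / 4 := by
    rw [hη, div_mul_eq_mul_div, div_mul_eq_mul_div, div_le_div_iff₀ (by positivity) (by norm_num)]
    have h1 : ε * B₀ * (2 * N) ≤ ε * (B₀ + 1) * (2 * ((N : ℝ) + 1)) := by
      gcongr <;> linarith
    have h2 : ε * (B₀ + 1) * (2 * ((N : ℝ) + 1)) ≤
        ε * (B₀ + 1) * (2 * ((N : ℝ) + 1)) * ((N : ℝ) + 1) :=
      le_mul_of_one_le_right (by positivity) (by linarith)
    nlinarith
  -- the size of `g`
  have hg1 : (1 : ℝ) ≤ nm g := by exact_mod_cast nm_pos.2 hg.ne_zero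
  set T : ℝ := C₂ * X ^ (η * B₀) with hT
  have hgη : (nm g : ℝ) ^ η ≤ X ^ (η * B₀) := by
    calc (nm g : ℝ) ^ η ≤ (X ^ B₀) ^ η := Real.rpow_le_rpow (by linarith) hgX hη0.le
      _ = X ^ (η * B₀) := by rw [← Real.rpow_mul hX0.le]; congr 1; ring
  have hT1 : 1 ≤ T := one_le_mul_of_one_le_of_one_le hC₂ (Real.one_le_rpow hX1 (by positivity))
  have hτg : (tau g : ℝ) ≤ T := by
    refine (hτ g hg.ne_zero).trans ?_
    rw [hT]
    exact mul_le_mul_of_nonneg_left hgη (by linarith)
  have hτx : ∀ x ∈ Tu (Fin n) g, ∀ i, (tau (x i) : ℝ) ≤ T := by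
    intro x hx i
    have h1 : (tau (x i) : ℝ) ≤ tau g := by
      exact_mod_cast Div277.tau_le_of_dvd hg.ne_zero (Tu_dvd hx i)
    linarith
  -- one tuple
  set B : ℝ := (C₁ * T ^ 2 * (Real.log X' + 1) ^ 2) ^ n * (D * (Bd * Real.exp r)) with hB
  have hone : ∀ x ∈ Tu (Fin n) g,
      VF (Real.exp k) (sqc (q * g) (alW h (shS s x) (fun i => WS z D0 (f i) (x i)))) ≤ B := by
    intro x hx
    have hxp : ∀ i, IsPrim (x i) := fun i => ((mem_Tu).1 hx).1 i
    have hxpos : ∀ i, (0 : ℝ) < nm (x i) := fun i => by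
      exact_mod_cast nm_pos.2 (hxp i).ne_zero
    have hxlog : ∀ i, 0 ≤ Real.log (nm (x i)) := fun i => by
      apply Real.log_nonneg
      exact_mod_cast nm_pos.2 (hxp i).ne_zero
    have hglog : Real.log (nm g) = ∑ i, Real.log (nm (x i)) := by
      rw [← ((mem_Tu).1 hx).2, nm_prodI]
      push_cast
      rw [Real.log_prod fun i _ => (hxpos i).ne']
    have hW : WSy z D0 (fun i => WS z D0 (f i) (x i)) (fun i => cS z D0 (f i) (x i))
        (fun i _ => φS z (f i) (x i)) := ⟨fun i m _ => rfl, fun i d hd => cS_sm hd⟩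
    refine (H (Fin n) (shS s x) (fun i => sh_OK (hsOK i) (hxp i)) X' hX'1 (fun i => ?_) z D0
      (fun i => WS z D0 (f i) (x i)) (fun i => cS z D0 (f i) (x i))
      (fun i _ => φS z (f i) (x i)) hW (q * g) (Real.exp k) (Real.exp_pos _).le
      (Bd * Real.exp r) D T (mul_nonneg hBd (Real.exp_pos _).le) hD00 hT1 ?_ ?_ ?_).trans
      (le_of_eq ?_)
    · exact (mul_le_mul_of_nonneg_right (sh_Y_le (hsOK i).Y0 (hxp i)) (Real.exp_pos _).le).trans
        (hsX i)
    · intro i d _ _
      exact (norm_cS_le z D0 (f i) (hxp i).ne_zero d).trans (hτx x hx i)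
    · intro j hj0 hj
      rw [Fintype.card_fin] at hj ⊢
      have hj1 : (1 : ℝ) ≤ nm j := by exact_mod_cast nm_pos.2 hj0
      have h1 : (nm j : ℝ) ≤ A ^ N * X ^ ((N : ℝ) + 1) := by
        have h2 : Real.exp k ≤ X := by
          calc Real.exp k ≤ Real.exp (Real.log X) := Real.exp_le_exp.2 hkX
            _ = X := Real.exp_log hX0
        have h3 : Real.exp 1 * X' ≤ A * X := by
          rw [hA]
          have := mul_le_mul_of_nonneg_left hX'2 (Real.exp_pos 1).le
          linarith
        have h4 : 1 ≤ A * X := by nlinarith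
        calc (nm j : ℝ) ≤ Real.exp k * (Real.exp 1 * X') ^ n := hj
          _ ≤ X * (A * X) ^ n := by
              refine mul_le_mul h2 (pow_le_pow_left₀ (by positivity) h3 n) (by positivity) hX0.le
          _ ≤ X * (A * X) ^ N :=
              mul_le_mul_of_nonneg_left (pow_le_pow_right₀ h4 hlen) hX0.le
          _ = A ^ N * X ^ ((N : ℝ) + 1) := by
              rw [mul_pow, Real.rpow_add hX0, Real.rpow_natCast, Real.rpow_one]; ring
      have h5 : (tau j : ℝ) ≤ C₂ * (nm j : ℝ) ^ η := hτ j hj0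
      have h6 : (1 : ℝ) ≤ C₂ * (nm j : ℝ) ^ η := by
        have := Real.one_le_rpow hj1 hη0.le
        nlinarith
      calc (tau j : ℝ) ^ n ≤ (C₂ * (nm j : ℝ) ^ η) ^ n :=
            pow_le_pow_left₀ (Nat.cast_nonneg _) h5 n
        _ ≤ (C₂ * (nm j : ℝ) ^ η) ^ N := pow_le_pow_right₀ h6 hlen
        _ = C₂ ^ N * (nm j : ℝ) ^ (η * N) := by
            rw [mul_pow, ← Real.rpow_natCast ((nm j : ℝ) ^ η), ← Real.rpow_mul (by positivity)]
        _ ≤ C₂ ^ N * (A ^ N * X ^ ((N : ℝ) + 1)) ^ (η * N) := by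
            refine mul_le_mul_of_nonneg_left ?_ (by positivity)
            exact Real.rpow_le_rpow (by positivity) h1 (by positivity)
        _ = C₂ ^ N * ((A ^ N) ^ (η * N) * X ^ (((N : ℝ) + 1) * (η * N))) := by
            rw [Real.mul_rpow (by positivity) (by positivity), ← Real.rpow_mul hX0.le]
        _ ≤ C₂ ^ N * ((A ^ N) ^ (η * N) * X ^ (ε / 4)) := by
            refine mul_le_mul_of_nonneg_left ?_ (by positivity)
            refine mul_le_mul_of_nonneg_left ?_ (by positivity)
            refine Real.rpow_le_rpow_of_exponent_le hX1 ?_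
            linarith
        _ = D := by rw [hD]; ring
    · intro b gf m Y t hm hxd hY
      obtain ⟨d, hd⟩ := hxd
      -- the child list
      set gg : Fin n → Pf := fun i => (mkc (ps.get i).1 (vk (shS s x) b i) (Y i) (t i), gf i)
        with hgg
      set ps' := List.ofFn gg with hps'
      set l := k + ∑ i, ((m i : ℝ) + 1) with hl
      have hY0 : ∀ i, 0 < Y i := fun i => by have := (hY i).1; linarith
      have hlogs : ∀ i, Real.log (shS s x i).Y = (ps.get i).1.z - Real.log (nm (x i)) := by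
        intro i
        show Real.log (Real.exp (ps.get i).1.z / nm (x i)) = _
        rw [Real.log_div (Real.exp_pos _).ne' (hxpos i).ne', Real.log_exp]
      have hgz : ∀ i, (gg i).1.z = Real.log (Y i) := fun i => rfl
      have hm0 : ∀ i, (0 : ℝ) ≤ m i := fun i => Nat.cast_nonneg _
      have hup : ∀ i, Real.log (Y i) + ((m i : ℝ) + 1) ≤
          (ps.get i).1.z - Real.log (nm (x i)) + (2 * R + 2) := by
        intro i
        have := (abs_le.1 (hY i).2).2
        rw [hlogs i] at this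
        linarith
      have hlo : ∀ i, (ps.get i).1.z - Real.log (nm (x i)) - (2 * R + 1) ≤
          Real.log (Y i) + ((m i : ℝ) + 1) := by
        intro i
        have := (abs_le.1 (hY i).2).1
        rw [hlogs i] at this
        linarith
      have hcardn : ∑ _i : Fin n, (2 * R + 2) = n * (2 * R + 2) := by
        rw [Finset.sum_const, Finset.card_univ, Fintype.card_fin, nsmul_eq_mul]
      have hnr : (n : ℝ) * (2 * R + 2) ≤ r := by
        rw [hr]; exact mul_le_mul_of_nonneg_right hnN (by linarith)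
      have hLF' : LF ps' = ∑ i, Real.log (Y i) := by
        rw [hps', LF_ofFn]
        exact Finset.sum_congr rfl fun i _ => hgz i
      have hLF : LF ps = ∑ i, (ps.get i).1.z := LF_get ps
      have hsum1 : LF ps' + ∑ i, ((m i : ℝ) + 1) ≤ LF ps - Real.log (nm g) + r := by
        rw [hLF', hLF, hglog, ← Finset.sum_add_distrib, ← Finset.sum_sub_distrib]
        calc ∑ i, (Real.log (Y i) + ((m i : ℝ) + 1)) ≤
              ∑ i, ((ps.get i).1.z - Real.log (nm (x i)) + (2 * R + 2)) :=
              Finset.sum_le_sum fun i _ => hup i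
          _ = (∑ i, ((ps.get i).1.z - Real.log (nm (x i)))) + n * (2 * R + 2) := by
              rw [Finset.sum_add_distrib, hcardn]
          _ ≤ _ := by linarith
      have hsum2 : LF ps - Real.log (nm g) - r ≤ LF ps' + ∑ i, ((m i : ℝ) + 1) := by
        rw [hLF', hLF, hglog, ← Finset.sum_add_distrib, ← Finset.sum_sub_distrib]
        calc (∑ i, ((ps.get i).1.z - Real.log (nm (x i)))) - r ≤
              (∑ i, ((ps.get i).1.z - Real.log (nm (x i)))) - n * (2 * R + 2) := by linarith
          _ = ∑ i, ((ps.get i).1.z - Real.log (nm (x i)) - (2 * R + 2)) := by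
              rw [Finset.sum_sub_distrib _ (fun _ => 2 * R + 2), hcardn]
          _ ≤ ∑ i, (Real.log (Y i) + ((m i : ℝ) + 1)) :=
              Finset.sum_le_sum fun i _ => by have := hlo i; linarith
      have hsum0 : 0 ≤ ∑ i, ((m i : ℝ) + 1) :=
        Finset.sum_nonneg fun i _ => by have := hm0 i; linarith
      have hl0 : 0 ≤ l := by rw [hl]; linarith
      have hchild : List.Forall₂ (ChG (r + (2 * R + 2))) ps' ps := by
        refine forall₂_ofFnG ps gg fun i => ⟨rfl, rfl, ?_, ?_, ?_, ?_⟩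
        · intro hu
          show vk (shS s x) b i = .one
          have hu' : (s i).u = .one := hu
          have hu2 : (shS s x i).u = .one := by
            show UT.sub (s i).u (x i) = .one
            unfold UT.sub
            rw [hu', if_neg (by simp)]
          unfold vk
          rw [if_neg (by rw [hu2]; simp), hu2]
        · rw [hgz i]
          exact Real.log_nonneg (hY i).1
        · rw [hgz i]
          have := hup i
          have := hm0 i
          have := hxlog i
          linarith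
        · intro hfi
          show gf i = false
          rw [(hd i).2.2.1]
          have hfi' : f i = false := hfi
          unfold φS
          rw [hfi']
          rfl
      have hlin : |l - (k + LF ps - Real.log (nm g) - LF ps')| ≤ r + (2 * R + 2) := by
        rw [hl, abs_le]
        constructor <;> linarith
      have hshort : g ≠ 1 → 1 ≤ z → (∀ p ∈ ps, p.2 = true) →
          LF ps' ≤ LF ps - min (Real.log z) (Real.log D0) + (r + (2 * R + 2)) := by
        intro hg1' hz1 hall
        by_cases hrough : ∀ i, Rg z (x i)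
        · -- some entry is not `1`
          have h1 : ∃ i, x i ≠ 1 := by
            by_contra hcon
            push Not at hcon
            apply hg1'
            rw [← ((mem_Tu).1 hx).2]
            exact Finset.prod_eq_one fun i _ => hcon i
          obtain ⟨i, hi⟩ := h1
          obtain ⟨p, hp, hpx⟩ := exists_pp_dvd_of_isPrim (hxp i) hi
          have h2 : z < nm p := hrough i p hp hpx
          have h3 : (nm p : ℝ) ≤ nm g := by
            exact_mod_cast nm_le_of_dvd' hg.ne_zero (hpx.trans (Tu_dvd hx i))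
          have h4 : Real.log z ≤ Real.log (nm g) :=
            Real.log_le_log (by linarith) (by linarith)
          have h5 := min_le_left (Real.log z) (Real.log D0)
          linarith
        · push Not at hrough
          obtain ⟨i, hi⟩ := hrough
          have hfi : f i = true := hall _ (List.get_mem ps i)
          have h1 := (hd i).2.1
          have h1' : cS z D0 true (x i) (d i) ≠ 0 := by
            have h0 : cS z D0 (f i) (x i) (d i) ≠ 0 := h1
            rwa [hfi] at h0
          have h2 := cS_large (hxp i) hi h1'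
          have hdpos : (0 : ℝ) < nm (d i) := by exact_mod_cast nm_pos.2 (hd i).1.ne_zero
          have h3 : Real.log D0 < Real.log (nm (x i)) + ((m i : ℝ) + 1) := by
            calc Real.log D0 < Real.log ((nm (x i) : ℝ) * nm (d i)) :=
                  Real.log_lt_log (by linarith) h2
              _ = Real.log (nm (x i)) + Real.log (nm (d i)) :=
                  Real.log_mul (hxpos i).ne' hdpos.ne'
              _ < _ := by linarith [(hd i).2.2.2.2]
          have h4 : Real.log (nm (x i)) + ((m i : ℝ) + 1) ≤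
              Real.log (nm g) + ∑ i, ((m i : ℝ) + 1) := by
            rw [hglog]
            refine add_le_add ?_ ?_
            · exact Finset.single_le_sum (f := fun i => Real.log (nm (x i)))
                (fun i _ => hxlog i) (Finset.mem_univ i)
            · exact Finset.single_le_sum (f := fun i => ((m i : ℝ) + 1))
                (fun i _ => by have := hm0 i; linarith) (Finset.mem_univ i)
          have h5 := min_le_right (Real.log z) (Real.log D0)
          linarith
      have hlow : LF ps - Real.log (nm g) - N * Real.log D0 - (r + (2 * R + 2)) ≤ LF ps' := by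
        have hlD : 0 ≤ Real.log D0 := Real.log_nonneg hD0
        have h1 : ∀ i, (m i : ℝ) ≤ Real.log D0 := by
          intro i
          have h2 : (nm (d i) : ℝ) ≤ D0 := cS_small hD0 (hxp i) (hd i).2.1
          have h3 : (0 : ℝ) < nm (d i) := by exact_mod_cast nm_pos.2 (hd i).1.ne_zero
          have h4 := Real.log_le_log h3 h2
          linarith [(hd i).2.2.2.1]
        have h2 : LF ps - Real.log (nm g) - (n : ℝ) * Real.log D0 - r ≤ LF ps' := by
          rw [hLF', hLF, hglog, ← Finset.sum_sub_distrib]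
          have h3 : ∑ _i : Fin n, Real.log D0 = n * Real.log D0 := by
            rw [Finset.sum_const, Finset.card_univ, Fintype.card_fin, nsmul_eq_mul]
          rw [← h3]
          calc (∑ i, ((ps.get i).1.z - Real.log (nm (x i)))) - ∑ _i : Fin n, Real.log D0 - r ≤
                (∑ i, ((ps.get i).1.z - Real.log (nm (x i)))) - ∑ _i : Fin n, Real.log D0 -
                  n * (2 * R + 2) := by linarith
            _ = ∑ i, ((ps.get i).1.z - Real.log (nm (x i)) - Real.log D0 - (2 * R + 2)) := by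
                rw [Finset.sum_sub_distrib _ (fun _ => 2 * R + 2), hcardn,
                  Finset.sum_sub_distrib _ (fun _ => Real.log D0)]
            _ ≤ ∑ i, Real.log (Y i) := by
                refine Finset.sum_le_sum fun i _ => ?_
                have h4 := hlo i
                have h5 := h1 i
                linarith
        have h6 : (n : ℝ) * Real.log D0 ≤ N * Real.log D0 :=
          mul_le_mul_of_nonneg_right hnN hlD
        linarith
      have h1 := hyp l ps' hl0 hchild (by linarith) hlow hshort hlin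
      have e1 : SF z D0 (q * g) P h l ps' = VF (Real.exp k * Real.exp (∑ i, ((m i : ℝ) + 1)))
          (sqc (q * g) (alf z D0 h (cellP (shS s x) (vk (shS s x) b) Y t) gf)) := by
        unfold SF
        rw [hl, Real.exp_add, hps', alF_ofFn]
        congr 3
        funext i
        exact mkc_pc P (ps.get i).1 (vk (shS s x) b i) (hY0 i) (t i)
      rw [← e1]
      refine h1.trans ?_
      have e2 : cstF ps' ps = ∏ i, (1 + |t i - (shS s x i).t|) := by
        rw [hps', cstF_ofFn]
        rfl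
      have e3 : cstF ps' ps ^ M = ∏ i, (1 + |t i - (shS s x i).t|) ^ M := by
        rw [e2, Real.finsetProd_rpow _ _ fun i _ => by positivity]
      rw [e3]
      have h3 : Real.exp (LF ps' + Real.log (nm g) - LF ps) ≤
          Real.exp r * Real.exp (-∑ i, ((m i : ℝ) + 1)) := by
        rw [← Real.exp_add]
        exact Real.exp_le_exp.2 (by linarith)
      have h4 : 0 ≤ ∏ i, (1 + |t i - (shS s x i).t|) ^ M :=
        Finset.prod_nonneg fun i _ => Real.rpow_nonneg (by positivity) _
      calc Bd * (∏ i, (1 + |t i - (shS s x i).t|) ^ M) *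
            Real.exp (LF ps' + Real.log (nm g) - LF ps)
          ≤ Bd * (∏ i, (1 + |t i - (shS s x i).t|) ^ M) *
            (Real.exp r * Real.exp (-∑ i, ((m i : ℝ) + 1))) :=
            mul_le_mul_of_nonneg_left h3 (mul_nonneg hBd h4)
        _ = _ := by ring
    · rw [hB, Fintype.card_fin]
  -- all tuples
  have hB0 : 0 ≤ B := by
    have h2 : 0 ≤ Real.log X' := Real.log_nonneg (by exact_mod_cast hX'1)
    have h3 : 0 ≤ C₁ := by linarith
    positivity
  have hsub : sqc (q * g) (CM106.sub (alF z D0 P h ps) g) = fun m => ∑ x ∈ Tu (Fin n) g,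
      scS s x * sqc (q * g) (alW h (shS s x) (fun i => WS z D0 (f i) (x i))) m := by
    funext m
    rw [hseq]
    exact sub_alf hsOK z D0 f q hg m
  have hcardTu : ((Tu (Fin n) g).card : ℝ) ≤ (C₂ ^ N) * X ^ (η * B₀ * N) := by
    have h1 : ((Tu (Fin n) g).card : ℝ) ≤ (tau g : ℝ) ^ n := by
      have := card_Tu_le (ι := Fin n) g
      rw [Fintype.card_fin] at this
      exact_mod_cast this
    calc ((Tu (Fin n) g).card : ℝ) ≤ (tau g : ℝ) ^ n := h1
      _ ≤ T ^ n := pow_le_pow_left₀ (Nat.cast_nonneg _) hτg n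
      _ ≤ T ^ N := pow_le_pow_right₀ hT1 hlen
      _ = C₂ ^ N * X ^ (η * B₀ * N) := by
          rw [hT, mul_pow, ← Real.rpow_natCast (X ^ (η * B₀)), ← Real.rpow_mul hX0.le]
  rw [hsub]
  have hfin : VF (Real.exp k) (fun m => ∑ x ∈ Tu (Fin n) g,
      scS s x * sqc (q * g) (alW h (shS s x) (fun i => WS z D0 (f i) (x i))) m) ≤
      ((Tu (Fin n) g).card : ℝ) * ∑ x ∈ Tu (Fin n) g, B := by
    -- outside `Tu g` the sequences are replaced by `0`
    set w : (Fin n → Eis) → Eis → ℂ := fun x => if x ∈ Tu (Fin n) g then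
      sqc (q * g) (alW h (shS s x) (fun i => WS z D0 (f i) (x i))) else fun _ => 0 with hw
    have hwFS : ∀ x, FS (w x) := by
      intro x
      rw [hw]
      beta_reduce
      split_ifs with hx
      · have hxp : ∀ i, IsPrim (x i) := fun i => ((mem_Tu).1 hx).1 i
        exact HP842.FS.sqc (FS_alW hR (fun i => sh_OK (hsOK i) (hxp i)) _) (q * g)
      · exact ⟨by simp [Function.support], fun m hm => absurd rfl hm⟩
    have e1 : (fun m => ∑ x ∈ Tu (Fin n) g,
        scS s x * sqc (q * g) (alW h (shS s x) (fun i => WS z D0 (f i) (x i))) m) =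
        fun m => ∑ x ∈ Tu (Fin n) g, scS s x * w x m := by
      funext m
      refine Finset.sum_congr rfl fun x hx => ?_
      rw [hw]
      beta_reduce
      rw [if_pos hx]
    rw [e1]
    refine (VF_sum_le (Real.exp k) (Tu (Fin n) g) (fun x => scS s x) ?_ w hwFS).trans ?_
    · intro x hx
      exact norm_scS_le hsOK fun i => ((mem_Tu).1 hx).1 i
    · refine mul_le_mul_of_nonneg_left ?_ (Nat.cast_nonneg _)
      refine Finset.sum_le_sum fun x hx => ?_
      rw [hw]
      beta_reduce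
      rw [if_pos hx]
      exact hone x hx
  refine hfin.trans ?_
  rw [Finset.sum_const, nsmul_eq_mul]
  have hlogpow : (C₁ * T ^ 2 * (Real.log X' + 1) ^ 2) ^ n ≤
      C₁ ^ N * ((C₂ ^ 2) ^ N * X ^ (ε / 4)) * (C₃ * X ^ (ε / 4)) := by
    have h2 : 0 ≤ Real.log X' := Real.log_nonneg (by exact_mod_cast hX'1)
    have h3 : 1 ≤ C₁ * T ^ 2 * (Real.log X' + 1) ^ 2 :=
      one_le_mul_of_one_le_of_one_le (one_le_mul_of_one_le_of_one_le hC₁ (one_le_pow₀ hT1))
        (one_le_pow₀ (by linarith))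
    have h4 : (T ^ 2) ^ N ≤ (C₂ ^ 2) ^ N * X ^ (ε / 4) := by
      rw [hT, mul_pow, mul_pow (C₂ ^ 2) ((X ^ (η * B₀)) ^ 2) N]
      refine mul_le_mul_of_nonneg_left ?_ (by positivity)
      rw [← pow_mul, ← Real.rpow_natCast (X ^ (η * B₀)), ← Real.rpow_mul hX0.le]
      refine Real.rpow_le_rpow_of_exponent_le hX1 ?_
      push_cast
      linarith
    calc (C₁ * T ^ 2 * (Real.log X' + 1) ^ 2) ^ n ≤ (C₁ * T ^ 2 * (Real.log X' + 1) ^ 2) ^ N :=
          pow_le_pow_right₀ h3 hlen
      _ = C₁ ^ N * (T ^ 2) ^ N * (Real.log X' + 1) ^ (2 * N) := by rw [mul_pow, mul_pow, pow_mul]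
      _ ≤ C₁ ^ N * ((C₂ ^ 2) ^ N * X ^ (ε / 4)) * (Real.log X + c₀) ^ (2 * N) := by
          refine mul_le_mul (mul_le_mul_of_nonneg_left h4 (by positivity)) ?_ (by positivity)
            (by positivity)
          exact pow_le_pow_left₀ (by linarith) (by rw [hc₀]; linarith) _
      _ ≤ _ := mul_le_mul_of_nonneg_left (hlog X hX1) (by positivity)
  have hDB : 0 ≤ D * (Bd * Real.exp r) := by positivity
  have hBle : B ≤ C₁ ^ N * ((C₂ ^ 2) ^ N * X ^ (ε / 4)) * (C₃ * X ^ (ε / 4)) *
      (D * (Bd * Real.exp r)) := mul_le_mul_of_nonneg_right hlogpow hDB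
  have hTu2 : ((Tu (Fin n) g).card : ℝ) * ((Tu (Fin n) g).card : ℝ) ≤
      (C₂ ^ N) ^ 2 * X ^ (ε / 4) := by
    calc ((Tu (Fin n) g).card : ℝ) * ((Tu (Fin n) g).card : ℝ) ≤
          (C₂ ^ N * X ^ (η * B₀ * N)) * (C₂ ^ N * X ^ (η * B₀ * N)) :=
          mul_le_mul hcardTu hcardTu (Nat.cast_nonneg _) (by positivity)
      _ = (C₂ ^ N) ^ 2 * X ^ (η * B₀ * (2 * N)) := by
          have : X ^ (η * B₀ * (2 * N)) = X ^ (η * B₀ * N) * X ^ (η * B₀ * N) := by
            rw [← Real.rpow_add hX0]; congr 1; ring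
          rw [this]; ring
      _ ≤ (C₂ ^ N) ^ 2 * X ^ (ε / 4) := by
          refine mul_le_mul_of_nonneg_left ?_ (by positivity)
          exact Real.rpow_le_rpow_of_exponent_le hX1 hηB
  have hfinal : (((Tu (Fin n) g).card : ℝ) * ((Tu (Fin n) g).card : ℝ)) * B ≤
      ((C₂ ^ N) ^ 2 * X ^ (ε / 4)) * (C₁ ^ N * ((C₂ ^ 2) ^ N * X ^ (ε / 4)) *
        (C₃ * X ^ (ε / 4)) * (D * (Bd * Real.exp r))) :=
    mul_le_mul hTu2 hBle hB0 (by positivity)
  calc ((Tu (Fin n) g).card : ℝ) * (((Tu (Fin n) g).card : ℝ) * B)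
      = (((Tu (Fin n) g).card : ℝ) * ((Tu (Fin n) g).card : ℝ)) * B := by ring
    _ ≤ _ := hfinal
    _ = _ := by
        rw [hD]
        have e : X ^ ε = X ^ (ε / 4) * X ^ (ε / 4) * X ^ (ε / 4) * X ^ (ε / 4) := by
          rw [← Real.rpow_add hX0, ← Real.rpow_add hX0, ← Real.rpow_add hX0]; congr 1; ring
        rw [e]
        ring

end Crest.Agent.R017.Leg381
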