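import Crest.Agent.R017.StF_828
import Crest.Agent.R017.P1f_54
import Crest.Agent.R017.Leg9_381

/-!
# Row 17, R8/P1: the mismatch coefficients on lists (helper828)

* `ht` : height of a piece;  `sub_al` : multiples of `ρ` of a list
* `af_dec` : `Σ_a η(g a) W(a) xa a (rs g α) (d D m)` through children lists
-/

set_option autoImplicit false

noncomputable section

open Finset MeasureTheory
open scoped ComplexConjugate

namespace Crest.Agent.R017.GrC828

open Crest.Agent.R012 Crest.Agent.R012.Eis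
open Crest.Agent.R012.Div277 (tau dvs mem_dvs exists_prim_factor)
open Crest.Agent.R012.LS2 (S mem_S)
open Crest.Agent.R012.Weight600 (osc norm_osc pw)
open Crest.Agent.R017.CM106 (CS TG FS)
open Crest.Agent.R017.StA828 (xa gp gp_spec)
open Crest.Agent.R017.StC828 (rs)
open Crest.Agent.R017.HP842 (Pc pc al cv Tu mem_Tu sc' scS sqc Th)
open Crest.Agent.R017.Rough381 (sh shS sh_OK)
open Crest.Agent.R017.Leg381 (Tu_dvd)

variable {ι κ : Type} [Fintype ι] [Fintype κ] [DecidableEq ι] [DecidableEq κ]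

/-! ### heights -/

/-- a piece with an additional height -/
def ht (t : ℝ) (P : Pc) : Pc := ⟨P.u, P.ψ, P.Y, P.t + t⟩

lemma ht_OK {t : ℝ} {P : Pc} (h : P.OK) : (ht t P).OK := ⟨h.ch, h.Y0⟩

lemma sh_ht (t : ℝ) (P : Pc) (a : Eis) : sh (ht t P) a = ht t (sh P a) := rfl

lemma pc_ht (h : ℝ → ℝ) (t : ℝ) (P : Pc) (b : Eis) :
    pc h (ht t P) b = pc h P b * pw t (nm b) := by
  unfold pc ht HSep813.gw
  split_ifs
  · show _ * (osc (P.t + t) (Real.log (nm b)) * _) = _
    rw [Weight600.osc_add_left]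
    unfold pw
    ring
  · rw [zero_mul]

lemma al_ht (h : ℝ → ℝ) (t : ℝ) (s : ι → Pc) (m : Eis) :
    al h (fun i => ht t (s i)) m = pw t (nm m) * al h s m := by
  unfold al cv
  rw [mul_sum]
  refine sum_congr rfl fun x hx => ?_
  rw [mem_Tu] at hx
  simp_rw [pc_ht]
  rw [prod_mul_distrib, mul_comm]
  congr 1
  rw [← hx.2]
  have key : ∀ T : Finset ι, pw t (nm (∏ i ∈ T, x i)) = ∏ i ∈ T, pw t (nm (x i)) := by
    intro T
    induction T using Finset.induction_on with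
    | empty => simp [pw, osc]
    | insert a T ha ih =>
      rw [prod_insert ha, prod_insert ha, nm_mul, ← ih]
      push_cast
      have h1 : IsPrim (∏ i ∈ T, x i) := HP842.isPrim_prod hx.1
      exact Weight600.pw_mul (by exact_mod_cast (nm_pos.2 (hx.1 a).ne_zero).ne')
        (by exact_mod_cast (nm_pos.2 h1.ne_zero).ne') t
  exact (key univ).symm

/-! ### divisors of a product, multiples -/

lemma prim_ext' {a b : Eis} (ha : IsPrim a) (hb : IsPrim b) (h1 : a ∣ b) (h2 : b ∣ a) : a = b :=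
  ha.eq_of_associated hb (associated_of_dvd_dvd h1 h2)

lemma sum_dvs_mul {A : Type*} [AddCommMonoid A] {b c : Eis} (hb : b ≠ 0) (hc : c ≠ 0)
    (h : IsCoprime b c) (F : Eis → A) :
    ∑ e ∈ dvs (b * c), F e = ∑ e₁ ∈ dvs b, ∑ e₂ ∈ dvs c, F (e₁ * e₂) := by
  classical
  rw [← Finset.sum_product']
  symm
  refine Finset.sum_nbij (fun p => p.1 * p.2) ?_ ?_ ?_ (fun _ _ => rfl)
  · intro p hp
    rw [Finset.mem_product, mem_dvs hb, mem_dvs hc] at hp
    rw [mem_dvs (mul_ne_zero hb hc)]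
    exact ⟨hp.1.1.mul hp.2.1, mul_dvd_mul hp.1.2 hp.2.2⟩
  · intro p hp p' hp' heq
    rw [Finset.mem_coe, Finset.mem_product, mem_dvs hb, mem_dvs hc] at hp hp'
    simp only at heq
    have c1 : IsCoprime p.1 p'.2 :=
      (h.of_isCoprime_of_dvd_left hp.1.2).of_isCoprime_of_dvd_right hp'.2.2
    have c2 : IsCoprime p'.1 p.2 :=
      (h.of_isCoprime_of_dvd_left hp'.1.2).of_isCoprime_of_dvd_right hp.2.2
    have d1 : p.1 ∣ p'.1 := c1.dvd_of_dvd_mul_right (heq ▸ dvd_mul_right _ _)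
    have d2 : p'.1 ∣ p.1 := c2.dvd_of_dvd_mul_right (heq ▸ dvd_mul_right _ _)
    have e1 : p.1 = p'.1 := prim_ext' hp.1.1 hp'.1.1 d1 d2
    have e2 : p.2 = p'.2 := by
      rw [e1] at heq
      exact mul_left_cancel₀ hp'.1.1.ne_zero heq
    exact Prod.ext e1 e2
  · intro d hd
    rw [Finset.mem_coe, mem_dvs (mul_ne_zero hb hc)] at hd
    obtain ⟨x, y, hx, hy, hxb, hyc, rfl⟩ := exists_prim_factor hd.1 hd.2
    exact ⟨(x, y), by
      rw [Finset.mem_coe, Finset.mem_product, mem_dvs hb, mem_dvs hc]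
      exact ⟨⟨hx, hxb⟩, ⟨hy, hyc⟩⟩, rfl⟩

/-- the multiples of `ρ` -/
theorem sub_al {h : ℝ → ℝ} {s : ι → Pc} (hs : ∀ i, (s i).OK) {ρ a : Eis} (hρ : IsPrim ρ)
    (ha : IsPrim a) (hc : IsCoprime ρ a) :
    al h s (ρ * a) = ∑ x ∈ Tu ι ρ, scS s x * al h (shS s x) a := by
  classical
  unfold al
  rw [HP842.cv_mul _ hρ ha hc]
  refine Finset.sum_congr rfl fun x hx => ?_
  have hxp : ∀ i, IsPrim (x i) := ((mem_Tu).1 hx).1
  unfold cv scS
  rw [Finset.mul_sum]
  refine Finset.sum_congr rfl fun y hy => ?_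
  rw [mem_Tu] at hy
  rw [← Finset.prod_mul_distrib]
  refine Finset.prod_congr rfl fun i _ => ?_
  have hyn : y i ∣ a := by
    rw [← hy.2]; exact Finset.dvd_prod_of_mem _ (Finset.mem_univ i)
  have hci : IsCoprime (x i) (y i) :=
    (hc.of_isCoprime_of_dvd_left (Tu_dvd hx i)).of_isCoprime_of_dvd_right hyn
  show pc h (s i) (x i * y i) = _
  rw [HP842.pc_mul h (hs i).ch (hs i).Y0 (hxp i), Rough381.pc_sub_rough (s i) hci]
  rfl

lemma sqc_prim {q n : Eis} {h : ℝ → ℝ} {s : ι → Pc} (hn : sqc q (al h s) n ≠ 0) :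
    IsPrim n ∧ Squarefree n ∧ IsCoprime n q := by
  unfold sqc at hn
  have h1 := left_ne_zero_of_mul hn
  have h2 := right_ne_zero_of_mul hn
  refine ⟨by_contra fun h3 => h2 (HP842.cv_not_prim h3), ?_⟩
  unfold Th at h1
  split_ifs at h1 with h4
  · exact h4
  · exact absurd rfl h1

lemma sqc_one {n : Eis} {h : ℝ → ℝ} {s : ι → Pc} (hn : Squarefree n) :
    sqc 1 (al h s) n = al h s n := by
  unfold sqc Th
  rw [if_pos ⟨hn, isCoprime_one_right⟩, one_mul]

/-! ### splitting tuples of a sum type -/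

/-- tuples on a sum type -/
theorem sum_Tu_sum {A : Type*} [AddCommMonoid A] {G : Eis} (hG : IsPrim G)
    (F : Eis → (ι → Eis) → (κ → Eis) → A) :
    ∑ a ∈ dvs G, ∑ x ∈ Tu ι a, ∑ y ∈ Tu κ (G / a), F a x y =
      ∑ z ∈ Tu (ι ⊕ κ) G, F (∏ i, z (.inl i)) (fun i => z (.inl i)) (fun j => z (.inr j)) := by
  classical
  have e1 : ∀ a ∈ dvs G, ∑ x ∈ Tu ι a, ∑ y ∈ Tu κ (G / a), F a x y =
      ∑ p ∈ Tu ι a ×ˢ Tu κ (G / a), F a p.1 p.2 := fun a _ => (sum_product' _ _ _).symm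
  rw [sum_congr rfl e1, sum_sigma']
  symm
  refine sum_bij' (fun z _ => ⟨∏ i, z (.inl i), (fun i => z (.inl i), fun j => z (.inr j))⟩)
    (fun p _ => Sum.elim p.2.1 p.2.2) ?_ ?_ ?_ ?_ ?_
  · intro z hz
    rw [mem_Tu, Fintype.prod_sum_type] at hz
    have h1 : IsPrim (∏ i, z (.inl i)) := HP842.isPrim_prod fun i => hz.1 _
    rw [mem_sigma, mem_product, mem_Tu, mem_Tu, mem_dvs hG.ne_zero]
    refine ⟨⟨h1, ⟨_, hz.2.symm⟩⟩, ⟨fun i => hz.1 _, rfl⟩, fun j => hz.1 _, ?_⟩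
    show ∏ j, z (.inr j) = G / ∏ i, z (.inl i)
    conv_rhs => rw [← hz.2]
    rw [mul_div_cancel_left₀ _ h1.ne_zero]
  · rintro ⟨a, x, y⟩ hp
    rw [mem_sigma, mem_product, mem_Tu, mem_Tu, mem_dvs hG.ne_zero] at hp
    obtain ⟨⟨h1, h2⟩, ⟨h3, h4⟩, h5, h6⟩ := hp
    simp only at h1 h2 h3 h4 h5 h6 ⊢
    rw [mem_Tu]
    refine ⟨?_, ?_⟩
    · rintro (i | j)
      · exact h3 i
      · exact h5 j
    · rw [Fintype.prod_sum_type]
      simp only [Sum.elim_inl, Sum.elim_inr]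
      rw [h4, h6]
      obtain ⟨b, rfl⟩ := h2
      rw [mul_div_cancel_left₀ _ h1.ne_zero]
  · intro z _
    funext s
    rcases s with i | j <;> rfl
  · rintro ⟨a, x, y⟩ hp
    rw [mem_sigma, mem_product, mem_Tu] at hp
    have : ∏ i, x i = a := hp.2.1.2
    subst this
    rfl
  · intro z _
    rfl

/-! ### the decomposition -/

/-- the family with heights on the first part -/
def fam (θ : ℝ) (s1 : ι → Pc) (s2 : κ → Pc) : ι ⊕ κ → Pc := Sum.elim (fun i => ht θ (s1 i)) s2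

lemma fam_OK {θ : ℝ} {s1 : ι → Pc} {s2 : κ → Pc} (h1 : ∀ i, (s1 i).OK) (h2 : ∀ j, (s2 j).OK)
    (i : ι ⊕ κ) : (fam θ s1 s2 i).OK := by
  rcases i with i | j
  · exact ht_OK (h1 i)
  · exact h2 j

/-- the scalar -/
def kf (Γ : Eis → ℂ) (s1 : ι → Pc) (s2 : κ → Pc) (x : ι → Eis) (y : κ → Eis) (z : ι ⊕ κ → Eis) :
    ℂ :=
  scS s1 (fun i => x i * z (.inl i)) * scS s2 (fun j => y j * z (.inr j)) * Γ (∏ i, z (.inl i))

lemma norm_scS_le {s : ι → Pc} (hs : ∀ i, (s i).OK) {x : ι → Eis} (hx : ∀ i, IsPrim (x i)) :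
    ‖scS s x‖ ≤ 1 := by
  unfold scS
  rw [norm_prod]
  exact Finset.prod_le_one (fun i _ => norm_nonneg _) fun i _ =>
    HP842.norm_sc'_le (hs i).ch (hx i)

lemma norm_kf_le {Γ : Eis → ℂ} (hΓ : ∀ a, ‖Γ a‖ ≤ 1) {s1 : ι → Pc} {s2 : κ → Pc}
    (h1 : ∀ i, (s1 i).OK) (h2 : ∀ j, (s2 j).OK) {x : ι → Eis} {y : κ → Eis} {z : ι ⊕ κ → Eis}
    (hx : ∀ i, IsPrim (x i)) (hy : ∀ j, IsPrim (y j)) (hz : ∀ i, IsPrim (z i)) :
    ‖kf Γ s1 s2 x y z‖ ≤ 1 := by
  unfold kf
  rw [norm_mul, norm_mul]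
  exact mul_le_one₀ (mul_le_one₀ (norm_scS_le h1 fun i => (hx i).mul (hz _)) (norm_nonneg _)
    (norm_scS_le h2 fun i => (hy i).mul (hz _))) (norm_nonneg _) (hΓ _)

lemma isCoprime_dvs {a b c : Eis} (ha : IsPrim c) (hac : a ∈ dvs c) (h : IsCoprime c b) :
    IsCoprime a b :=
  h.of_isCoprime_of_dvd_left ((mem_dvs ha.ne_zero).1 hac).2

/-- a product of a divisor and its cofactor -/
lemma mul_div_dvs {a c : Eis} (hc : IsPrim c) (h : a ∈ dvs c) : a * (c / a) = c := by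
  obtain ⟨h1, h2⟩ := (mem_dvs hc.ne_zero).1 h
  obtain ⟨b, rfl⟩ := h2
  rw [mul_div_cancel_left₀ _ h1.ne_zero]

/-- **the core identity**: the convolution over the divisors of `G m` -/
theorem core_dec {h : ℝ → ℝ} {s1 : ι → Pc} {s2 : κ → Pc} (h1 : ∀ i, (s1 i).OK)
    (h2 : ∀ j, (s2 j).OK) {g G m : Eis} (hg : IsPrim g) (hG : IsPrim G) (hm : IsPrim m)
    (hsq : Squarefree (g * G * m)) {θ : ℝ} {W Γ : Eis → ℂ}
    (hW : ∀ a ∈ dvs G, ∀ b ∈ dvs m, W (a * b) = Γ a * pw θ (nm b)) :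
    ∑ a ∈ dvs (G * m), al h s1 (g * a) * W a * al h s2 (g * (G * m / a)) =
      ∑ x ∈ Tu ι g, ∑ y ∈ Tu κ g, ∑ z ∈ Tu (ι ⊕ κ) G, kf Γ s1 s2 x y z *
        al h (shS (fam θ s1 s2) (fun i => Sum.elim x y i * z i)) m := by
  classical
  obtain ⟨hgG, hsgG, hsm⟩ := squarefree_mul_iff.1 hsq
  obtain ⟨hgG', hsg, hsG⟩ := squarefree_mul_iff.1 hsgG
  have cgGm : IsCoprime (g * G) m := hgG.isCoprime
  have cgG : IsCoprime g G := hgG'.isCoprime
  have cgm : IsCoprime g m := cgGm.of_mul_left_left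
  have cGm : IsCoprime G m := cgGm.of_mul_left_right
  rw [sum_dvs_mul hG.ne_zero hm.ne_zero cGm]
  -- the term
  have key : ∀ a ∈ dvs G, ∑ b ∈ dvs m, al h s1 (g * (a * b)) * W (a * b) *
      al h s2 (g * (G * m / (a * b))) =
      ∑ x ∈ Tu ι g, ∑ y ∈ Tu κ g, ∑ x' ∈ Tu ι a, ∑ y' ∈ Tu κ (G / a),
        kf Γ s1 s2 x y (Sum.elim x' y') *
          al h (shS (fam θ s1 s2) (fun i => Sum.elim x y i * Sum.elim x' y' i)) m := by
    intro a ha
    obtain ⟨pa, da⟩ := (mem_dvs hG.ne_zero).1 ha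
    have hGa : IsPrim (G / a) := by
      have := mul_div_dvs hG ha
      exact (show IsPrim (a * (G / a)) by rw [this]; exact hG).of_mul_left pa
    have dGa : G / a ∣ G := ⟨a, by rw [mul_comm]; exact (mul_div_dvs hG ha).symm⟩
    have cga : IsCoprime g a := cgG.of_isCoprime_of_dvd_right da
    have cgGa : IsCoprime g (G / a) := cgG.of_isCoprime_of_dvd_right dGa
    -- one `b`
    have hb : ∀ b ∈ dvs m, al h s1 (g * (a * b)) * W (a * b) *
        al h s2 (g * (G * m / (a * b))) =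
        ∑ x ∈ Tu ι g, ∑ y ∈ Tu κ g, ∑ x' ∈ Tu ι a, ∑ y' ∈ Tu κ (G / a),
          kf Γ s1 s2 x y (Sum.elim x' y') *
          (al h (fun i => ht θ (sh (s1 i) (x i * x' i))) b *
            al h (fun j => sh (s2 j) (y j * y' j)) (m / b)) := by
      intro b hb
      obtain ⟨pb, db⟩ := (mem_dvs hm.ne_zero).1 hb
      have emb := mul_div_dvs hm hb
      have pmb : IsPrim (m / b) := (show IsPrim (b * (m / b)) by rw [emb]; exact hm).of_mul_left pb
      have dmb : m / b ∣ m := ⟨b, by rw [mul_comm]; exact emb.symm⟩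
      have eG : G * m / (a * b) = G / a * (m / b) := by
        have e1 : G * m = a * b * (G / a * (m / b)) := by
          conv_lhs => rw [← mul_div_dvs hG ha, ← emb]
          ring
        rw [e1, mul_div_cancel_left₀ _ (mul_ne_zero pa.ne_zero pb.ne_zero)]
      rw [eG, hW a ha b hb, show g * (a * b) = (g * a) * b by ring,
        show g * (G / a * (m / b)) = (g * (G / a)) * (m / b) by ring]
      have c1 : IsCoprime (g * a) b :=
        (cgm.mul_left (cGm.of_isCoprime_of_dvd_left da)).of_isCoprime_of_dvd_right db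
      have c2 : IsCoprime (g * (G / a)) (m / b) :=
        (cgm.mul_left (cGm.of_isCoprime_of_dvd_left dGa)).of_isCoprime_of_dvd_right dmb
      rw [sub_al h1 (hg.mul pa) pb c1, sub_al h2 (hg.mul hGa) pmb c2,
        Leg381.sum_Tu_mul hg pa cga, Leg381.sum_Tu_mul hg hGa cgGa]
      rw [sum_mul, sum_mul]
      refine sum_congr rfl fun x hx => ?_
      rw [mul_sum]
      refine sum_congr rfl fun y hy => ?_
      rw [sum_mul, sum_mul]
      refine sum_congr rfl fun x' hx' => ?_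
      rw [mul_sum]
      refine sum_congr rfl fun y' hy' => ?_
      have e3 : al h (fun i => ht θ (sh (s1 i) (x i * x' i))) b =
          pw θ (nm b) * al h (shS s1 fun i => x i * x' i) b := al_ht h θ _ b
      rw [e3]
      unfold kf
      simp only [Sum.elim_inl, Sum.elim_inr]
      rw [((mem_Tu).1 hx').2]
      show _ = _ * _ * _ * (_ * _ * al h (shS s2 fun j => y j * y' j) (m / b))
      ring
    rw [sum_congr rfl hb, sum_comm]
    refine sum_congr rfl fun x _ => ?_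
    rw [sum_comm]
    refine sum_congr rfl fun y _ => ?_
    rw [sum_comm]
    refine sum_congr rfl fun x' _ => ?_
    rw [sum_comm]
    refine sum_congr rfl fun y' _ => ?_
    rw [← mul_sum]
    congr 1
    have e4 : (fun i : ι ⊕ κ => pc h (shS (fam θ s1 s2)
        (fun i => Sum.elim x y i * Sum.elim x' y' i) i)) =
        Sum.elim (fun i => pc h (ht θ (sh (s1 i) (x i * x' i))))
          (fun j => pc h (sh (s2 j) (y j * y' j))) := by
      funext i
      rcases i with i | j <;> rfl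
    show _ = cv _ m
    rw [e4, P1f54.cv_elim _ _ hm]
    rfl
  rw [sum_congr rfl key, sum_comm]
  refine sum_congr rfl fun x _ => ?_
  rw [sum_comm]
  refine sum_congr rfl fun y _ => ?_
  rw [sum_Tu_sum hG (fun _ x' y' => kf Γ s1 s2 x y (Sum.elim x' y') *
    al h (shS (fam θ s1 s2) (fun i => Sum.elim x y i * Sum.elim x' y' i)) m)]
  refine sum_congr rfl fun z _ => ?_
  have e5 : (Sum.elim (fun i => z (Sum.inl i)) (fun j => z (Sum.inr j))) = z := by
    funext i
    rcases i with i | j <;> rfl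
  rw [e5]

open Classical in
/-- **the decomposition of the mismatch coefficient** -/
theorem af_dec {h : ℝ → ℝ} {s1 : ι → Pc} {s2 : κ → Pc} (h1 : ∀ i, (s1 i).OK)
    (h2 : ∀ j, (s2 j).OK) {g N : Eis} (hg : IsPrim g) (hN : IsPrim N)
    (hgN : g ∣ N) {Z : ℝ} (hZ : 0 ≤ Z)
    (hsup : ∀ a, sqc 1 (al h s1) (g * a) ≠ 0 → a ∈ S Z) {θ : ℝ} {W Γ : Eis → ℂ} {m : Eis}
    (hW : ∀ a ∈ dvs (N / g), ∀ b ∈ dvs m, W (a * b) = Γ a * pw θ (nm b)) :
    ∑ a ∈ S Z, sqc 1 (al h s1) (g * a) * W a * xa a (rs g (sqc 1 (al h s2))) (N * m) =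
      ∑ x ∈ Tu ι g, ∑ y ∈ Tu κ g, ∑ z ∈ Tu (ι ⊕ κ) (N / g), kf Γ s1 s2 x y z *
        (if Squarefree N then sqc N
          (al h (shS (fam θ s1 s2) (fun i => Sum.elim x y i * z i))) m else 0) := by
  classical
  obtain ⟨G, rfl⟩ := hgN
  have hG : IsPrim G := hN.of_mul_left hg
  rw [mul_div_cancel_left₀ _ hg.ne_zero] at hW ⊢
  by_cases hgood : IsPrim m ∧ Squarefree (g * G * m)
  swap
  · -- both sides vanish
    have hl : ∀ a ∈ S Z, sqc 1 (al h s1) (g * a) * W a *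
        xa a (rs g (sqc 1 (al h s2))) (g * G * m) = 0 := by
      intro a ha
      by_contra hne
      apply hgood
      obtain ⟨-, ha1, ha2⟩ := (mem_S hZ).1 ha
      have h3 := right_ne_zero_of_mul hne
      obtain ⟨n, hn, h4, h5⟩ := StC828.xa_ne ha1.ne_zero h3
      obtain ⟨h6, h7⟩ := StC828.rs_ne h5
      obtain ⟨h8, h9, -⟩ := sqc_prim h7
      rw [hn]
      refine ⟨?_, squarefree_mul_iff.2 ⟨h4.isRelPrime, ha2, h9⟩⟩
      have h10 : IsPrim (g * G * m) := by rw [hn]; exact ha1.mul h8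
      exact h10.of_mul_left hN
    rw [sum_eq_zero hl]
    symm
    refine sum_eq_zero fun x _ => sum_eq_zero fun y _ => sum_eq_zero fun z _ => ?_
    split_ifs with hsN
    · have h0 : sqc (g * G) (al h (shS (fam θ s1 s2) (fun i => Sum.elim x y i * z i))) m = 0 := by
        by_contra hne
        obtain ⟨h3, h4, h5⟩ := sqc_prim hne
        exact hgood ⟨h3, squarefree_mul_iff.2 ⟨h5.symm.isRelPrime, hsN, h4⟩⟩
      rw [h0, mul_zero]
    · rw [mul_zero]
  obtain ⟨hm, hsq⟩ := hgood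
  obtain ⟨hgG, hsgG, hsm⟩ := squarefree_mul_iff.1 hsq
  have cgGm : IsCoprime (g * G) m := hgG.isCoprime
  obtain ⟨hgG', hsg, hsG⟩ := squarefree_mul_iff.1 hsgG
  have cgG : IsCoprime g G := hgG'.isCoprime
  have hGm : IsPrim (G * m) := hG.mul hm
  -- the left hand side
  have e1 : ∀ a ∈ S Z, sqc 1 (al h s1) (g * a) * W a *
      xa a (rs g (sqc 1 (al h s2))) (g * G * m) =
      if a ∣ G * m then al h s1 (g * a) * W a * al h s2 (g * (G * m / a)) else 0 := by
    intro a ha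
    obtain ⟨-, ha1, ha2⟩ := (mem_S hZ).1 ha
    by_cases hd : a ∣ G * m
    · rw [if_pos hd]
      obtain ⟨b, hb⟩ := hd
      have hbp : IsPrim b := (show IsPrim (a * b) by rw [← hb]; exact hGm).of_mul_left ha1
      have e2 : g * G * m = a * (g * b) := by rw [mul_assoc, hb]; ring
      have hsq' : Squarefree (a * (g * b)) := by rw [← e2]; exact hsq
      have hc : IsCoprime a (g * b) := (squarefree_mul_iff.1 hsq').1.isCoprime
      have hga : Squarefree (g * a) := by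
        have : Squarefree (g * a * b) := by
          rw [show g * a * b = a * (g * b) by ring]; exact hsq'
        exact this.of_mul_left
      have hgb : Squarefree (g * b) := hsq'.of_mul_right
      have e3 : G * m / a = b := by rw [hb, mul_div_cancel_left₀ _ ha1.ne_zero]
      rw [e2, StA828.xa_mul ha1.ne_zero, e3, sqc_one hga]
      unfold StA828.ca rs
      rw [if_pos hc, if_pos (dvd_mul_right _ _), sqc_one hgb]
    · rw [if_neg hd]
      by_contra hne
      have h3 := right_ne_zero_of_mul hne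
      obtain ⟨n, hn, h4, h5⟩ := StC828.xa_ne ha1.ne_zero h3
      obtain ⟨⟨k, rfl⟩, h7⟩ := StC828.rs_ne h5
      apply hd
      refine ⟨k, ?_⟩
      apply mul_left_cancel₀ hg.ne_zero
      rw [← mul_assoc, hn]
      ring
  rw [sum_congr rfl e1, ← sum_filter]
  have e4 : ∑ a ∈ (S Z).filter (fun a => a ∣ G * m),
      al h s1 (g * a) * W a * al h s2 (g * (G * m / a)) =
      ∑ a ∈ dvs (G * m), al h s1 (g * a) * W a * al h s2 (g * (G * m / a)) := by
    refine sum_subset (fun a ha => ?_) fun a ha hna => ?_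
    · obtain ⟨h3, h4⟩ := mem_filter.1 ha
      exact (mem_dvs hGm.ne_zero).2 ⟨((mem_S hZ).1 h3).2.1, h4⟩
    · obtain ⟨h3, h4⟩ := (mem_dvs hGm.ne_zero).1 ha
      by_contra hne
      apply hna
      rw [mem_filter]
      refine ⟨hsup a ?_, h4⟩
      have hga : Squarefree (g * a) := by
        obtain ⟨b, hb⟩ := h4
        have : Squarefree (g * a * b) := by
          rw [show g * a * b = g * (a * b) by ring, ← hb, ← mul_assoc]; exact hsq
        exact this.of_mul_left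
      rw [sqc_one hga]
      exact left_ne_zero_of_mul (left_ne_zero_of_mul hne)
  rw [e4, core_dec h1 h2 hg hG hm hsq hW]
  refine sum_congr rfl fun x _ => sum_congr rfl fun y _ => sum_congr rfl fun z _ => ?_
  rw [if_pos hsgG]
  congr 1
  unfold sqc Th
  rw [if_pos ⟨hsm, cgGm.symm⟩, one_mul]

end Crest.Agent.R017.GrC828
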