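import Crest.Agent.R017.GrC_829

/-!
# Row 17, R8 (E3): the diagonal sums restricted to `E ∣ k` (helper579)

`j ∈ JC`, `b ≠ 0`, `(j, b) = (E, b) = 1`, `E` primary (any). `j E = i g³`, `i ∈ JC`, `g` primary:

* `FJE_bound` : `Σ_{k primary, N k ≤ y, (k,b)=1, E ∣ k} |th(j k)|²
    = (3/2) κ₀ PE(b) N(j)^(-1/3) (N g / N E) y^(2/3) + O(..)`
* `GDE_bound` : the same with a smooth weight
* `FJE_cop`, `GDE_cop` : `(E, j) = 1`, `E` cube-free : `g = 1`, `i = j E` (factor `1 / N E`).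
-/

set_option autoImplicit false

noncomputable section

open Finset MeasureTheory
open scoped ComplexConjugate

namespace Crest.Agent.R017.GrE579

open Crest.Agent.R012 Crest.Agent.R012.Eis Crest.Agent.R012.Tau85 Crest.Agent.R012.T3_85
open Crest.Agent.R012.Mob705 Crest.Agent.R012.Div277 Crest.Agent.R012.Gauss880
open Crest.Agent.R017.PX764 Crest.Agent.R017.P3all283 Crest.Agent.R017.C70
open Crest.Agent.R017.GrB829 Crest.Agent.R017.GrC829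

/-! ### cube-free parts -/

lemma cbF_dec {k1 k2 : Eis} (s1 : Squarefree k1) (s2 : Squarefree k2) (hc : IsCoprime k1 k2) :
    CbF (k1 * k2 ^ 2) := by
  intro p hp hd
  by_cases h1 : p ∣ k1
  · have h2 : IsCoprime (p ^ 3) (k2 ^ 2) := by
      have : IsCoprime p k2 := hc.of_isCoprime_of_dvd_left h1
      exact this.pow
    have h3 : p ^ 3 ∣ k1 := h2.dvd_of_dvd_mul_right hd
    exact hp.not_isUnit (s1 p (dvd_trans ⟨p, by ring⟩ h3))
  · have h2 : IsCoprime (p ^ 3) k1 := by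
      refine IsCoprime.pow_left ?_
      exact (hp.irreducible.coprime_iff_not_dvd).2 h1
    have h3 : p ^ 3 ∣ k2 ^ 2 := h2.dvd_of_dvd_mul_left hd
    have h4 : p ∣ k2 := hp.dvd_of_dvd_pow (dvd_trans ⟨p ^ 2, by ring⟩ h3)
    obtain ⟨r, rfl⟩ := h4
    have h5 : p ∣ r ^ 2 := by
      have h6 : p ^ 2 * p ∣ p ^ 2 * r ^ 2 := by
        have e1 : p ^ 2 * p = p ^ 3 := by ring
        have e2 : p ^ 2 * r ^ 2 = (p * r) ^ 2 := by ring
        rw [e1, e2]; exact h3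
      exact (mul_dvd_mul_iff_left (pow_ne_zero 2 hp.ne_zero)).1 h6
    have h6 : p ∣ r := hp.dvd_of_dvd_pow h5
    exact hp.not_isUnit (s2 p (mul_dvd_mul_left p h6))

lemma cbF_mul {j E : Eis} (hj : CbF j) (hE : CbF E) (hc : IsCoprime j E) : CbF (j * E) := by
  intro p hp hd
  by_cases h1 : p ∣ E
  · have h2 : IsCoprime (p ^ 3) j :=
      (hc.symm.of_isCoprime_of_dvd_left h1).pow_left
    exact hE p hp (h2.dvd_of_dvd_mul_left hd)
  · have h2 : IsCoprime (p ^ 3) E :=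
      IsCoprime.pow_left ((hp.irreducible.coprime_iff_not_dvd).2 h1)
    exact hj p hp (h2.dvd_of_dvd_mul_right hd)

lemma cbF_of_sqf {E : Eis} (hE : Squarefree E) : CbF E := by
  intro p hp hd
  exact hp.not_isUnit (hE p (dvd_trans ⟨p, by ring⟩ hd))

lemma cbF_sq {e : Eis} (he : Squarefree e) : CbF (e ^ 2) := by
  have := cbF_dec squarefree_one he isCoprime_one_left
  rwa [one_mul] at this

lemma JC.ne_zero {j : Eis} (hj : JC j) : j ≠ 0 := by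
  obtain ⟨c, hc, j', hp, -, rfl⟩ := hj
  exact mul_ne_zero (GrB829.IsC.ne_zero hc) hp.ne_zero

/-- `j E = i g³` -/
lemma exists_jc {j E : Eis} (hj : JC j) (hE : IsPrim E) :
    ∃ i g : Eis, JC i ∧ IsPrim g ∧ j * E = i * g ^ 3 := by
  obtain ⟨c, hc, j', hp, -, rfl⟩ := hj
  obtain ⟨k1, k2, m, p1, p2, pm, s1, s2, hcop, he⟩ := Char766.exists_prim_cubic_decomp (hp.mul hE)
  refine ⟨c * (k1 * k2 ^ 2), m, ⟨c, hc, k1 * k2 ^ 2, p1.mul (p2.pow 2), cbF_dec s1 s2 hcop, rfl⟩,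
    pm, ?_⟩
  rw [mul_assoc, he]
  ring

lemma jc_mul {j E : Eis} (hj : JC j) (hE : IsPrim E) (hEc : CbF E) (hc : IsCoprime j E) :
    JC (j * E) := by
  obtain ⟨c, hc', j', hp, hcf, rfl⟩ := hj
  exact ⟨c, hc', j' * E, hp.mul hE, cbF_mul hcf hEc hc.of_mul_left_right, by ring⟩

/-! ### sharp sums -/

open Classical in
/-- `Σ_{k primary, N k ≤ y, (k,b)=1, E ∣ k} |th(j k)|²` -/
def FJE (j b E : Eis) (y : ℝ) : ℝ := ∑ k ∈ (cop b y).filter (fun k => E ∣ k), ‖th (j * k)‖ ^ 2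

lemma FJ_cube {i g b : Eis} (hg : IsPrim g) (y : ℝ) : FJ (i * g ^ 3) b y = FJ i b y := by
  unfold FJ
  refine Finset.sum_congr rfl fun k _ => ?_
  rw [show i * g ^ 3 * k = (i * k) * g ^ 3 by ring, th_cube hg]

lemma FJE_eq {j b E : Eis} (hE : IsPrim E) (hEb : IsCoprime E b) (y : ℝ) :
    FJE j b E y = FJ (j * E) b (y / nm E) := by
  classical
  unfold FJE FJ
  rw [show ((cop b y).filter (fun k => E ∣ k)) = (cop b (y / nm E)).map (mulEmb E hE.ne_zero) by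
    rw [← cop_filter_dvd b y hE hEb], Finset.sum_map]
  refine Finset.sum_congr rfl fun k _ => ?_
  rw [mulEmb_apply, ← mul_assoc]

/-- the main terms agree -/
lemma main_eq {j E i g : Eis} (hj : j ≠ 0) (hE : E ≠ 0) (hi : i ≠ 0) (hg : g ≠ 0)
    (h : j * E = i * g ^ 3) {X : ℝ} (hX : 0 ≤ X) :
    (nm i : ℝ) ^ (-(1 : ℝ) / 3) * (X / nm E) ^ (2 / 3 : ℝ) =
      (nm j : ℝ) ^ (-(1 : ℝ) / 3) * ((nm g : ℝ) / nm E) * X ^ (2 / 3 : ℝ) := by
  have n1 : (0 : ℝ) < nm j := by exact_mod_cast nm_pos.2 hj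
  have n2 : (0 : ℝ) < nm E := by exact_mod_cast nm_pos.2 hE
  have n3 : (0 : ℝ) < nm i := by exact_mod_cast nm_pos.2 hi
  have n4 : (0 : ℝ) < nm g := by exact_mod_cast nm_pos.2 hg
  have e1 : (nm j : ℝ) * nm E = nm i * (nm g : ℝ) ^ 3 := by
    have := congrArg nm h
    rw [nm_mul, nm_mul, nm_pow] at this
    exact_mod_cast this
  have e2 : (nm i : ℝ) = nm j * nm E * ((nm g : ℝ) ^ 3)⁻¹ := by
    rw [e1]; field_simp
  have e3 : (nm i : ℝ) ^ (-(1 : ℝ) / 3) =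
      (nm j : ℝ) ^ (-(1 : ℝ) / 3) * (nm E : ℝ) ^ (-(1 : ℝ) / 3) * nm g := by
    rw [e2, Real.mul_rpow (by positivity) (by positivity), Real.mul_rpow n1.le n2.le,
      Real.inv_rpow (by positivity), ← Real.rpow_natCast, ← Real.rpow_mul n4.le]
    congr 1
    rw [← Real.rpow_neg n4.le]
    norm_num
  have e4 : (nm E : ℝ) ^ (-(1 : ℝ) / 3) * ((nm E : ℝ) ^ (2 / 3 : ℝ))⁻¹ = (nm E : ℝ)⁻¹ := by
    rw [← Real.rpow_neg n2.le, ← Real.rpow_add n2, ← Real.rpow_neg_one]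
    norm_num
  rw [e3, Real.div_rpow hX n2.le]
  calc (nm j : ℝ) ^ (-(1 : ℝ) / 3) * (nm E : ℝ) ^ (-(1 : ℝ) / 3) * nm g *
        (X ^ (2 / 3 : ℝ) / (nm E : ℝ) ^ (2 / 3 : ℝ))
      = (nm j : ℝ) ^ (-(1 : ℝ) / 3) * nm g * X ^ (2 / 3 : ℝ) *
        ((nm E : ℝ) ^ (-(1 : ℝ) / 3) * ((nm E : ℝ) ^ (2 / 3 : ℝ))⁻¹) := by ring
    _ = _ := by rw [e4]; ring

/-- **sharp sums over `E ∣ k`** -/
theorem FJE_bound {j b E i g : Eis} (hj : JC j) (hb : b ≠ 0) (hjb : IsCoprime j b)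
    (hE : IsPrim E) (hEb : IsCoprime E b) (hi : JC i) (hg : IsPrim g) (h : j * E = i * g ^ 3)
    {y : ℝ} (hy : 0 ≤ y) :
    |FJE j b E y - 3 / 2 * (kap0 * PE b) * (nm j : ℝ) ^ (-(1 : ℝ) / 3) * ((nm g : ℝ) / nm E) *
        y ^ (2 / 3 : ℝ)| ≤
      10000000 * sig b * (tau i : ℝ) ^ 2 * n6 i * (y / nm E) ^ (1 / 3 : ℝ) * EL (y / nm E) := by
  have hib : IsCoprime i b := by
    have h1 : IsCoprime (j * E) b := hjb.mul_left hEb
    rw [h] at h1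
    exact h1.of_mul_left_left
  have h1 := FJ_bound hi hb hib (y := y / nm E) (div_nonneg hy (Nat.cast_nonneg _))
  rw [FJE_eq hE hEb, h, FJ_cube hg]
  have h2 := main_eq (JC.ne_zero hj) hE.ne_zero (JC.ne_zero hi) hg.ne_zero h hy
  have e1 : 3 / 2 * (kap0 * PE b) * (nm i : ℝ) ^ (-(1 : ℝ) / 3) * (y / nm E) ^ (2 / 3 : ℝ) =
      3 / 2 * (kap0 * PE b) * (nm j : ℝ) ^ (-(1 : ℝ) / 3) * ((nm g : ℝ) / nm E) *
        y ^ (2 / 3 : ℝ) := by
    rw [mul_assoc (3 / 2 * (kap0 * PE b)), h2]; ring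
  rw [e1] at h1
  exact h1

/-! ### smooth weights -/

variable {φ : ℝ → ℂ} {a₀ b₀ D : ℝ}

open Classical in
/-- the smooth diagonal sum over the multiples of `E` -/
def GDE (φ : ℝ → ℂ) (X : ℝ) (j b E : Eis) : ℂ :=
  ∑' k : Eis, if IsPrim k ∧ IsCoprime k b ∧ E ∣ k then
    φ ((nm k : ℝ) / X) * ((‖th (j * k)‖ ^ 2 : ℝ) : ℂ) else 0

open Classical in
lemma GDE_eq (h : Wt φ a₀ b₀ D) {X : ℝ} (hX : 0 < X) {j b E i g : Eis} (hE : IsPrim E)
    (hEb : IsCoprime E b) (hg : IsPrim g) (hd : j * E = i * g ^ 3) :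
    GDE φ X j b E = GD φ (X / nm E) i b := by
  have n2 : (0 : ℝ) < nm E := by exact_mod_cast nm_pos.2 hE.ne_zero
  rw [GD_eq h (div_pos hX n2)]
  unfold GDE
  rw [tsum_eq_sum (s := (cop b (b₀ * X)).filter (fun k => E ∣ k))]
  · rw [show ((cop b (b₀ * X)).filter (fun k => E ∣ k)) =
      (cop b (b₀ * X / nm E)).map (mulEmb E hE.ne_zero) by
      rw [← cop_filter_dvd b (b₀ * X) hE hEb], Finset.sum_map, ← mul_div_assoc]
    refine Finset.sum_congr rfl fun k hk => ?_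
    rw [mem_cop] at hk
    rw [mulEmb_apply, if_pos ⟨hE.mul hk.1.2, hEb.mul_left hk.2, dvd_mul_right E k⟩,
      show j * (E * k) = (i * k) * g ^ 3 by rw [← mul_assoc, hd]; ring, th_cube hg, mul_comm]
    congr 2
    rw [nm_mul]
    push_cast
    field_simp
  · intro k hk
    split_ifs with hc
    · have h1 : b₀ * X < nm k := by
        by_contra hh
        exact hk (Finset.mem_filter.2 ⟨mem_cop.2 ⟨⟨not_lt.1 hh, hc.1⟩, hc.2.1⟩, hc.2.2⟩)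
      rw [h.supp, zero_mul]
      rintro ⟨_, h2⟩
      rw [div_le_iff₀ hX] at h2
      linarith
    · rfl

/-- **the smooth diagonal sum over the multiples of `E`** -/
theorem GDE_bound (h : Wt φ a₀ b₀ D) {X : ℝ} (hX : 0 < X) {j b E i g : Eis} (hj : JC j)
    (hb : b ≠ 0) (hjb : IsCoprime j b) (hE : IsPrim E) (hEb : IsCoprime E b) (hi : JC i)
    (hg : IsPrim g) (hd : j * E = i * g ^ 3) :
    ‖GDE φ X j b E - ((kap0 * PE b * (nm j : ℝ) ^ (-(1 : ℝ) / 3) * ((nm g : ℝ) / nm E) *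
        X ^ (2 / 3 : ℝ) : ℝ) : ℂ) *
      ∫ t in Set.Ioi (0 : ℝ), ((t ^ (-(1 : ℝ) / 3) : ℝ) : ℂ) * φ t‖ ≤
      (b₀ - a₀) * D * (10000000 * sig b * (tau i : ℝ) ^ 2 * n6 i *
        (b₀ * (X / nm E)) ^ (1 / 3 : ℝ) * EL (b₀ * (X / nm E))) := by
  have n2 : (0 : ℝ) < nm E := by exact_mod_cast nm_pos.2 hE.ne_zero
  have hib : IsCoprime i b := by
    have h1 : IsCoprime (j * E) b := hjb.mul_left hEb
    rw [hd] at h1
    exact h1.of_mul_left_left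
  rw [GDE_eq h hX hE hEb hg hd]
  have h1 := GD_bound h (div_pos hX n2) hi hb hib
  have h2 := main_eq (JC.ne_zero hj) hE.ne_zero (JC.ne_zero hi) hg.ne_zero hd hX.le
  have e1 : kap0 * PE b * (nm i : ℝ) ^ (-(1 : ℝ) / 3) * (X / nm E) ^ (2 / 3 : ℝ) =
      kap0 * PE b * (nm j : ℝ) ^ (-(1 : ℝ) / 3) * ((nm g : ℝ) / nm E) * X ^ (2 / 3 : ℝ) := by
    rw [mul_assoc (kap0 * PE b), h2]; ring
  rw [e1] at h1
  exact h1

/-! ### `(E, j) = 1`, `E` cube-free: the factor `1 / N E` -/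

theorem FJE_cop {j b E : Eis} (hj : JC j) (hb : b ≠ 0) (hjb : IsCoprime j b)
    (hE : IsPrim E) (hEb : IsCoprime E b) (hEc : CbF E) (hjE : IsCoprime j E)
    {y : ℝ} (hy : 0 ≤ y) :
    |FJE j b E y - 3 / 2 * (kap0 * PE b) * (nm j : ℝ) ^ (-(1 : ℝ) / 3) * (1 / (nm E : ℝ)) *
        y ^ (2 / 3 : ℝ)| ≤
      10000000 * sig b * (tau (j * E) : ℝ) ^ 2 * n6 (j * E) * (y / nm E) ^ (1 / 3 : ℝ) *
        EL (y / nm E) := by
  have h1 := FJE_bound hj hb hjb hE hEb (jc_mul hj hE hEc hjE) isPrim_one (by ring) hy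
  rw [nm_one] at h1
  simpa using h1

theorem GDE_cop (h : Wt φ a₀ b₀ D) {X : ℝ} (hX : 0 < X) {j b E : Eis} (hj : JC j)
    (hb : b ≠ 0) (hjb : IsCoprime j b) (hE : IsPrim E) (hEb : IsCoprime E b) (hEc : CbF E)
    (hjE : IsCoprime j E) :
    ‖GDE φ X j b E - ((kap0 * PE b * (nm j : ℝ) ^ (-(1 : ℝ) / 3) * (1 / (nm E : ℝ)) *
        X ^ (2 / 3 : ℝ) : ℝ) : ℂ) *
      ∫ t in Set.Ioi (0 : ℝ), ((t ^ (-(1 : ℝ) / 3) : ℝ) : ℂ) * φ t‖ ≤
      (b₀ - a₀) * D * (10000000 * sig b * (tau (j * E) : ℝ) ^ 2 * n6 (j * E) *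
        (b₀ * (X / nm E)) ^ (1 / 3 : ℝ) * EL (b₀ * (X / nm E))) := by
  have h1 := GDE_bound h hX hj hb hjb hE hEb (jc_mul hj hE hEc hjE) isPrim_one (by ring)
  rw [nm_one] at h1
  simpa using h1

end Crest.Agent.R017.GrE579
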