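import Crest.Agent.R017.GrT2_828

/-!
# Row 17, R8/P1: the `T`-side of the mismatch, part 3 (helper828)

* `core_sum` : the mean square at one height
* `T_core` : the mean square of the inner sums over a block `(U, j)`
-/

set_option autoImplicit false

noncomputable section

open Finset MeasureTheory
open scoped ComplexConjugate

namespace Crest.Agent.R017.GrT828

open Crest.Agent.R012 Crest.Agent.R012.Eis
open Crest.Agent.R012.Div277 (tau dvs mem_dvs exists_prim_factor tau_le_rpow)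
open Crest.Agent.R012.LS2 (S mem_S bl mem_bl)
open Crest.Agent.R012.Weight600 (osc norm_osc pw norm_pw)
open Crest.Agent.R017.CM106 (CS TG FS)
open Crest.Agent.R017.HP842 (Pc pc al cv Tu mem_Tu sc' scS sqc Th card_Tu_le)
open Crest.Agent.R017.Rough381 (sh shS sh_OK VF nm_prodI)
open Crest.Agent.R017.Leg381 (Th_ne_zero shS_mul TG_sum FS_alW sum_Tu_mul)
open Crest.Agent.R017.FE47 (PU cx)
open Crest.Agent.R017.Prov71 (CubeFree)
open Crest.Agent.R017.StA828 Crest.Agent.R017.StC828 Crest.Agent.R017.StF828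
open Crest.Agent.R017.StB828 (one_le_nmR)
open Crest.Agent.R017.GrC828
open Crest.Agent.R017.PX764 (n6 Gh sqf_mul)
open Crest.Agent.R017.E2440 (TE)
open Crest.Agent.R017.E3D579 (TE0)
open Crest.Agent.R017.E1551 (Adm Wf jb jb_pos)

lemma sq_sum_le {β : Type*} (T : Finset β) (f : β → ℂ) :
    ‖∑ x ∈ T, f x‖ ^ 2 ≤ (T.card : ℝ) * ∑ x ∈ T, ‖f x‖ ^ 2 := by
  have h1 : ‖∑ x ∈ T, f x‖ ^ 2 ≤ (∑ x ∈ T, ‖f x‖) ^ 2 :=
    pow_le_pow_left₀ (norm_nonneg _) (norm_sum_le _ _) 2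
  exact h1.trans sq_sum_le_card_mul_sum_sq

set_option maxHeartbeats 1000000 in
open Classical in
/-- **one height** -/
theorem core_sum {h : ℝ → ℝ} {c : ℝ} (hpu : PU h c) {R : ℝ} (hR0 : 0 ≤ R)
    (hR : ∀ u, cx h u ≠ 0 → |u| ≤ R) (N : ℕ) {B₀ : ℝ} (hB₀ : 0 ≤ B₀) {ε : ℝ} (hε : 0 < ε)
    {M : ℝ} (hM : 0 ≤ M) : ∃ C r : ℝ, 1 ≤ C ∧ 0 ≤ r ∧ ∀ X : ℝ, 3 ≤ X →
    ∀ (ι κ : Type) [Fintype ι] [Fintype κ] [DecidableEq ι] [DecidableEq κ],
    Fintype.card ι + Fintype.card κ ≤ N → ∀ (s1 : ι → Pc) (s2 : κ → Pc), (∀ i, (s1 i).OK) →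
    (∀ j, (s2 j).OK) → (∀ i, Real.log (s1 i).Y ≤ Real.log X) →
    (∀ j, Real.log (s2 j).Y ≤ Real.log X) → ∀ Z : ℝ, 0 ≤ Z →
    (∀ n, sqc 1 (al h s1) n ≠ 0 → (nm n : ℝ) ≤ Z) → ∀ (θ : ℝ) (W : Eis → Eis → Eis → ℂ),
    WOK θ W → ∀ g d : Eis, IsPrim g → IsPrim d → (nm g : ℝ) ≤ X ^ B₀ → (nm d : ℝ) ≤ X ^ B₀ →
    ∀ (b k : ℝ), 0 ≤ b → b ≤ B₀ * Real.log X → 0 ≤ k → k ≤ B₀ * Real.log X →
    ∀ Us Js : Finset Eis, (∀ U ∈ Us, IsPrim U ∧ |Real.log (nm U) - b| ≤ 1) →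
    (∀ j ∈ Js, CubeFree j ∧ (nm j : ℝ) * nm (cc g d) ≤ Real.exp k) →
    ∀ es : Eis → Eis, (∀ U ∈ Us, IsPrim (es U) ∧ es U ∣ cc g d * U) → ∀ Bd : ℝ, 0 ≤ Bd →
    (∀ (l : ℝ) (s' : ι ⊕ κ → Pc), 0 ≤ l → ChF r s' (Sum.elim s1 s2) →
      |LY s' - (LY s1 + LY s2 - Real.log (nm g) - Real.log (nm d * nm (cc g d)) - b)| ≤ r →
      |l - (k + b)| ≤ r →
      VF (Real.exp l) (sqc (d * cc g d) (al h s')) ≤ Bd * cF s' (Sum.elim s1 s2) ^ M) →
    ∀ τ : ℝ, ∑ U ∈ Us, ∑ j ∈ Js.filter (fun j => IsCoprime j (cc g d * U)),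
      ‖TG (fun m => afW W Z (sqc 1 (al h s1)) (sqc 1 (al h s2)) g (es U) d (cc g d * U * m) *
        pw τ (nm m)) (j * (cc g d * U))‖ ^ 2 ≤
      C * X ^ ε * (((1 + |θ|) * (1 + |τ|)) ^ (N * M)) * Bd := by
  obtain ⟨C₁, r, hC₁, hr, H⟩ := merge_fam hpu hR0 hR N hB₀ (ε := ε / 2) (by linarith) (M := M)
  set η := ε / (8 * (N + 1) * (B₀ + 1)) with hη
  have hN0 : (0 : ℝ) ≤ N := Nat.cast_nonneg N
  have hη0 : 0 < η := by positivity
  obtain ⟨C₂, hC₂, hτ⟩ := tau_le_rpow hη0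
  refine ⟨C₂ ^ (4 * N) * C₁, r, one_le_mul_of_one_le_of_one_le (one_le_pow₀ hC₂) hC₁, hr, ?_⟩
  intro X hX ι κ _ _ _ _ hcard s1 s2 h1 h2 h1X h2X Z hZ hsup θ W hW g d hg hd hgX hdX b k hb hbX
    hk hkX Us Js hUs hJs es hes Bd hBd hyp τ
  have hX1 : (1 : ℝ) ≤ X := by linarith
  have hX0 : (0 : ℝ) < X := by linarith
  set cg := cc g d with hcg
  set d0 := d / gp d g with hd0
  have hcgp : IsPrim cg := cc_prim hg
  have hd0p : IsPrim d0 := d0_prim hg hd
  have hdc : d * cg = g * d0 := cc_mul hg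
  have hngpos : (0 : ℝ) < nm g := by exact_mod_cast nm_pos.2 hg.ne_zero
  have hndpos : (0 : ℝ) < nm d := by exact_mod_cast nm_pos.2 hd.ne_zero
  have hnd0pos : (0 : ℝ) < nm d0 := by exact_mod_cast nm_pos.2 hd0p.ne_zero
  have hncpos : (0 : ℝ) < nm cg := by exact_mod_cast nm_pos.2 hcgp.ne_zero
  have hdcn : (nm d : ℝ) * nm cg = nm g * nm d0 := by
    have := congrArg nm hdc
    rw [nm_mul, nm_mul] at this
    exact_mod_cast this
  set Fτ : ι ⊕ κ → Pc := fun i => ht τ (fam θ s1 s2 i) with hFτ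
  have hFOK : ∀ i, (Fτ i).OK := fun i => ht_OK (fam_OK h1 h2 i)
  have hFX : ∀ i, Real.log (Fτ i).Y ≤ Real.log X := by
    rintro (i | i)
    · exact h1X i
    · exact h2X i
  -- the index set
  set Q : Finset ((ι → Eis) × (κ → Eis) × (ι ⊕ κ → Eis)) :=
    Tu ι g ×ˢ Tu κ g ×ˢ Tu (ι ⊕ κ) d0 with hQ
  have hQm : ∀ p ∈ Q, (∀ i, IsPrim (p.1 i)) ∧ (∀ i, IsPrim (p.2.1 i)) ∧ (∀ i, IsPrim (p.2.2 i)) ∧
      ∏ i, p.1 i = g ∧ ∏ i, p.2.1 i = g ∧ ∏ i, p.2.2 i = d0 := by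
    intro p hp
    rw [hQ, Finset.mem_product, Finset.mem_product, mem_Tu, mem_Tu, mem_Tu] at hp
    exact ⟨hp.1.1, hp.2.1.1, hp.2.2.1, hp.1.2, hp.2.1.2, hp.2.2.2⟩
  set av : (ι → Eis) × (κ → Eis) × (ι ⊕ κ → Eis) → ι ⊕ κ → Eis :=
    fun p i => Sum.elim p.1 p.2.1 i * p.2.2 i with hav
  have hpe : ∀ p ∈ Q, ∀ i, IsPrim (Sum.elim p.1 p.2.1 i) := by
    intro p hp
    rintro (i | i)
    · exact (hQm p hp).1 i
    · exact (hQm p hp).2.1 i
  have havp : ∀ p ∈ Q, ∀ i, IsPrim (av p i) := fun p hp i =>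
    (hpe p hp i).mul ((hQm p hp).2.2.1 i)
  set σ : (ι → Eis) × (κ → Eis) × (ι ⊕ κ → Eis) → (ι ⊕ κ → Eis) → ℂ := fun p u =>
    kf (W (es (∏ i, u i)) d) s1 s2 p.1 p.2.1 (fun i => p.2.2 i * u i) with hσ
  -- one frequency
  have hone : ∀ U ∈ Us, Squarefree (d * (cg * U)) → ∀ rr : Eis,
      TG (fun m => afW W Z (sqc 1 (al h s1)) (sqc 1 (al h s2)) g (es U) d (cg * U * m) *
        pw τ (nm m)) rr = ∑ p ∈ Q, ∑ u ∈ Tu (ι ⊕ κ) U, σ p u *
          TG (sqc (d * cg * U) (al h (shS (shS Fτ (av p)) u))) rr := by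
    intro U hU hsq rr
    have hUp := (hUs U hU).1
    have hN1 : d * (cg * U) = g * (d0 * U) := by rw [← mul_assoc, hdc, mul_assoc]
    have hcop : IsCoprime d0 U := by
      have h3 : Squarefree (d0 * U) := by
        rw [hN1] at hsq
        exact hsq.of_mul_right
      exact (squarefree_mul_iff.1 h3).1.isCoprime
    have e0 := TG_afW hR h1 h2 hW hZ hsup hg hd (hcgp.mul hUp) (hes U hU).1 (hes U hU).2
      (by rw [hN1]; exact dvd_mul_right _ _) τ rr
    have hdiv : d * (cg * U) / g = d0 * U := by rw [hN1, mul_div_cancel_left₀ _ hg.ne_zero]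
    rw [e0, hdiv]
    have e1 : ∀ x ∈ Tu ι g, ∀ y ∈ Tu κ g, ∑ z ∈ Tu (ι ⊕ κ) (d0 * U),
        kf (W (es U) d) s1 s2 x y z * (if Squarefree (d * (cg * U)) then
          TG (sqc (d * (cg * U)) (al h (shS (fun i => ht τ (fam θ s1 s2 i))
            (fun i => Sum.elim x y i * z i)))) rr else 0) =
        ∑ z ∈ Tu (ι ⊕ κ) d0, ∑ u ∈ Tu (ι ⊕ κ) U, σ (x, y, z) u *
          TG (sqc (d * cg * U) (al h (shS (shS Fτ (av (x, y, z))) u))) rr := by
      intro x hx y hy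
      rw [sum_Tu_mul hd0p hUp hcop]
      refine Finset.sum_congr rfl fun z hz => Finset.sum_congr rfl fun u hu => ?_
      rw [if_pos hsq]
      have hzQ : (x, y, z) ∈ Q := by
        rw [hQ, Finset.mem_product, Finset.mem_product]
        exact ⟨hx, hy, hz⟩
      have hup := ((mem_Tu).1 hu).1
      rw [shS_mul Fτ (havp _ hzQ) hup, hσ]
      simp only
      rw [((mem_Tu).1 hu).2, mul_assoc d cg U]
      congr 4
      congr 2
      funext i
      rw [hav]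
      simp only
      rw [mul_assoc]
    rw [hQ, Finset.sum_product]
    refine Finset.sum_congr rfl fun x hx => ?_
    rw [Finset.sum_product]
    exact Finset.sum_congr rfl fun y hy => e1 x hx y hy
  -- the vanishing frequencies
  have hzero : ∀ U ∈ Us, ¬ Squarefree (d * (cg * U)) → ∀ rr : Eis,
      TG (fun m => afW W Z (sqc 1 (al h s1)) (sqc 1 (al h s2)) g (es U) d (cg * U * m) *
        pw τ (nm m)) rr = 0 := by
    intro U hU hsq rr
    have : (fun m => afW W Z (sqc 1 (al h s1)) (sqc 1 (al h s2)) g (es U) d (cg * U * m) *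
        pw τ (nm m)) = fun _ => 0 := by
      funext m
      rw [afW_zero_of_not_sqf hZ, zero_mul]
      intro h3
      apply hsq
      rw [← mul_assoc] at h3
      exact h3.of_mul_left
    rw [this]
    unfold TG
    simp
  -- the bound of a tuple
  set Bd' : ℝ := Bd * ((1 + |θ|) * (1 + |τ|)) ^ (N * M) with hBd'
  have hht1 : (1 : ℝ) ≤ (1 + |θ|) * (1 + |τ|) := by
    have h3 := abs_nonneg θ
    have h4 := abs_nonneg τ
    nlinarith [mul_nonneg h3 h4]
  have hBd'0 : 0 ≤ Bd' := by positivity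
  set GG : (ι → Eis) × (κ → Eis) × (ι ⊕ κ → Eis) → Eis → Eis → ℝ := fun p U κ' =>
    ‖∑ u ∈ Tu (ι ⊕ κ) U, σ p u * TG (sqc (d * cg * U) (al h (shS (shS Fτ (av p)) u)))
      (κ' * U)‖ ^ 2 with hGG
  have hGG0 : ∀ p U κ', 0 ≤ GG p U κ' := fun p U κ' => by positivity
  set Us' := Us.filter (fun U => Squarefree (d * (cg * U))) with hUs'
  have hmerge : ∀ p ∈ Q, ∑ U ∈ Us', ∑ κ' ∈ (bl (Real.exp k)).filter
      (fun κ' => CubeFree (κ' * U)), GG p U κ' ≤ C₁ * X ^ (ε / 2) * Bd' := by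
    intro p hp
    refine H X hX (ι ⊕ κ) (by rw [Fintype.card_sum]; exact hcard) Fτ hFOK hFX (av p)
      (havp p hp) (d * cg) b k Us' hb hbX hk hkX (fun U hU => hUs U (Finset.mem_filter.1 hU).1)
      Bd' hBd'0 ?_ (σ p) ?_
    · intro l s' hl hch hLY hlk
      have hprod : ∏ i, av p i = g * g * d0 := by
        rw [hav]
        simp only
        rw [Finset.prod_mul_distrib, (hQm p hp).2.2.2.2.2, Fintype.prod_sum_type]
        simp only [Sum.elim_inl, Sum.elim_inr]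
        rw [(hQm p hp).2.2.2.1, (hQm p hp).2.2.2.2.1]
      have hlog : Real.log (nm (∏ i, av p i)) =
          Real.log (nm g) + Real.log (nm d * nm cg) := by
        rw [hprod, hdcn, nm_mul, nm_mul]
        push_cast
        rw [mul_assoc, Real.log_mul hngpos.ne' (by positivity)]
      rw [hlog, LY_fam] at hLY
      have h3 := hyp l s' hl (chF_ht hch) (by
        have e : LY s1 + LY s2 - Real.log (nm g) - Real.log (nm d * nm cg) - b =
          LY s1 + LY s2 - (Real.log (nm g) + Real.log (nm d * nm cg)) - b := by ring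
        rw [e]; exact hLY) hlk
      refine h3.trans ?_
      have h4 := cF_le (s1 := s1) (s2 := s2) (θ := θ) (τ := τ) s'
      have h5 : cF s' (Sum.elim s1 s2) ^ M ≤
          cF s' Fτ ^ M * ((1 + |θ|) * (1 + |τ|)) ^ (N * M) := by
        calc cF s' (Sum.elim s1 s2) ^ M ≤
              (cF s' Fτ * ((1 + |θ|) * (1 + |τ|)) ^ (Fintype.card (ι ⊕ κ))) ^ M :=
              Real.rpow_le_rpow (cF_nonneg _ _) h4 hM
          _ = cF s' Fτ ^ M * ((1 + |θ|) * (1 + |τ|)) ^ ((Fintype.card (ι ⊕ κ) : ℝ) * M) := by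
              rw [Real.mul_rpow (cF_nonneg _ _) (by positivity), ← Real.rpow_natCast,
                ← Real.rpow_mul (by positivity)]
          _ ≤ _ := by
              refine mul_le_mul_of_nonneg_left ?_ (Real.rpow_nonneg (cF_nonneg _ _) _)
              refine Real.rpow_le_rpow_of_exponent_le hht1 ?_
              refine mul_le_mul_of_nonneg_right ?_ hM
              rw [Fintype.card_sum]
              exact_mod_cast hcard
      calc Bd * cF s' (Sum.elim s1 s2) ^ M ≤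
            Bd * (cF s' Fτ ^ M * ((1 + |θ|) * (1 + |τ|)) ^ (N * M)) :=
            mul_le_mul_of_nonneg_left h5 hBd
        _ = Bd' * cF s' Fτ ^ M := by rw [hBd']; ring
    · intro U hU u hu
      have hup := ((mem_Tu).1 hu).1
      exact norm_kf_le (fun a => hW.le _ _ _) h1 h2 (hQm p hp).1 (hQm p hp).2.1
        (fun i => ((hQm p hp).2.2.1 i).mul (hup i))
  -- one block
  have hblock : ∀ U ∈ Us', ∑ j ∈ Js.filter (fun j => IsCoprime j (cg * U)),
      ‖TG (fun m => afW W Z (sqc 1 (al h s1)) (sqc 1 (al h s2)) g (es U) d (cg * U * m) *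
        pw τ (nm m)) (j * (cg * U))‖ ^ 2 ≤
      (Q.card : ℝ) * ∑ p ∈ Q, ∑ κ' ∈ (bl (Real.exp k)).filter
        (fun κ' => CubeFree (κ' * U)), GG p U κ' := by
    intro U hU
    obtain ⟨hU1, hU2⟩ := Finset.mem_filter.1 hU
    have hUp := (hUs U hU1).1
    have hterm : ∀ j ∈ Js.filter (fun j => IsCoprime j (cg * U)),
        ‖TG (fun m => afW W Z (sqc 1 (al h s1)) (sqc 1 (al h s2)) g (es U) d (cg * U * m) *
          pw τ (nm m)) (j * (cg * U))‖ ^ 2 ≤ (Q.card : ℝ) * ∑ p ∈ Q, GG p U (j * cg) := by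
      intro j _
      rw [hone U hU1 hU2]
      refine (sq_sum_le _ _).trans (le_of_eq ?_)
      rw [hGG]
      simp only
      rw [mul_assoc j cg U]
    refine (Finset.sum_le_sum hterm).trans ?_
    rw [← Finset.mul_sum, Finset.sum_comm]
    refine mul_le_mul_of_nonneg_left (Finset.sum_le_sum fun p hp => ?_) (Nat.cast_nonneg _)
    have hinj : Set.InjOn (fun j => j * cg)
        (Js.filter (fun j => IsCoprime j (cg * U)) : Finset Eis) := fun x _ y _ hxy =>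
      mul_right_cancel₀ hcgp.ne_zero hxy
    rw [← Finset.sum_image (f := fun κ' => GG p U κ') hinj]
    refine Finset.sum_le_sum_of_subset_of_nonneg (fun κ' hκ' => ?_) fun _ _ _ => hGG0 _ _ _
    obtain ⟨j, hj, rfl⟩ := Finset.mem_image.1 hκ'
    obtain ⟨hj1, hj2⟩ := Finset.mem_filter.1 hj
    obtain ⟨hj3, hj4⟩ := hJs j hj1
    rw [Finset.mem_filter, mem_bl (Real.exp_pos _).le]
    refine ⟨⟨mul_ne_zero hj3.1 hcgp.ne_zero, ?_⟩, ?_⟩
    · rw [nm_mul]; push_cast; exact hj4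
    · show CubeFree (j * cg * U)
      rw [mul_assoc]
      have h3 : Squarefree (cg * U) := hU2.of_mul_right
      exact Rough381.cubeFree_mul hj3 h3 (hcgp.mul hUp).ne_zero hj2
  -- the number of tuples
  have hQc : (Q.card : ℝ) ≤ C₂ ^ (2 * N) * X ^ (ε / 4) := by
    have hgτ : (tau g : ℝ) ≤ C₂ * X ^ (B₀ * η) := by
      refine (hτ g hg.ne_zero).trans (mul_le_mul_of_nonneg_left ?_ (by linarith))
      rw [Real.rpow_mul hX0.le]
      exact Real.rpow_le_rpow (Nat.cast_nonneg _) hgX hη0.le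
    have hd0X : (nm d0 : ℝ) ≤ X ^ B₀ := by
      refine le_trans ?_ hdX
      have h3 : (nm d : ℝ) = nm (gp d g) * nm d0 := by
        have := (gp_spec d hg).2.2.1
        conv_lhs => rw [this]
        rw [nm_mul]; push_cast; rfl
      rw [h3]
      exact le_mul_of_one_le_left (Nat.cast_nonneg _) (one_le_nmR (gp_spec d hg).1)
    have hdτ : (tau d0 : ℝ) ≤ C₂ * X ^ (B₀ * η) := by
      refine (hτ d0 hd0p.ne_zero).trans (mul_le_mul_of_nonneg_left ?_ (by linarith))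
      rw [Real.rpow_mul hX0.le]
      exact Real.rpow_le_rpow (Nat.cast_nonneg _) hd0X hη0.le
    set T := C₂ * X ^ (B₀ * η) with hT
    have hT1 : 1 ≤ T := one_le_mul_of_one_le_of_one_le hC₂ (Real.one_le_rpow hX1 (by positivity))
    have hc1 : ((Tu ι g).card : ℝ) ≤ T ^ Fintype.card ι := by
      have : ((Tu ι g).card : ℝ) ≤ (tau g : ℝ) ^ Fintype.card ι := by
        exact_mod_cast card_Tu_le (ι := ι) g
      exact this.trans (pow_le_pow_left₀ (Nat.cast_nonneg _) hgτ _)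
    have hc2 : ((Tu κ g).card : ℝ) ≤ T ^ Fintype.card κ := by
      have : ((Tu κ g).card : ℝ) ≤ (tau g : ℝ) ^ Fintype.card κ := by
        exact_mod_cast card_Tu_le (ι := κ) g
      exact this.trans (pow_le_pow_left₀ (Nat.cast_nonneg _) hgτ _)
    have hc3 : ((Tu (ι ⊕ κ) d0).card : ℝ) ≤ T ^ (Fintype.card ι + Fintype.card κ) := by
      have : ((Tu (ι ⊕ κ) d0).card : ℝ) ≤ (tau d0 : ℝ) ^ (Fintype.card ι + Fintype.card κ) := by
        have := card_Tu_le (ι := ι ⊕ κ) d0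
        rw [Fintype.card_sum] at this
        exact_mod_cast this
      exact this.trans (pow_le_pow_left₀ (Nat.cast_nonneg _) hdτ _)
    have e1 : (Q.card : ℝ) = (Tu ι g).card * ((Tu κ g).card * (Tu (ι ⊕ κ) d0).card) := by
      rw [hQ, Finset.card_product, Finset.card_product]
      push_cast
      rfl
    rw [e1]
    calc ((Tu ι g).card : ℝ) * ((Tu κ g).card * (Tu (ι ⊕ κ) d0).card) ≤
          T ^ Fintype.card ι * (T ^ Fintype.card κ * T ^ (Fintype.card ι + Fintype.card κ)) := by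
          gcongr
      _ = T ^ (2 * (Fintype.card ι + Fintype.card κ)) := by
          rw [← pow_add, ← pow_add]; congr 1; ring
      _ ≤ T ^ (2 * N) := pow_le_pow_right₀ hT1 (by omega)
      _ = C₂ ^ (2 * N) * X ^ (B₀ * η * (2 * N)) := by
          rw [hT, mul_pow, ← Real.rpow_natCast (X ^ (B₀ * η)), ← Real.rpow_mul hX0.le]
          push_cast
          rfl
      _ ≤ _ := by
          refine mul_le_mul_of_nonneg_left ?_ (by positivity)
          refine Real.rpow_le_rpow_of_exponent_le hX1 ?_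
          have h3 : η * (8 * (N + 1) * (B₀ + 1)) = ε := by
            rw [hη]; field_simp
          nlinarith [mul_nonneg hη0.le hB₀, mul_nonneg hη0.le hN0,
            mul_nonneg (mul_nonneg hη0.le hB₀) hN0]
  -- conclusion
  have hsplit : ∑ U ∈ Us, ∑ j ∈ Js.filter (fun j => IsCoprime j (cg * U)),
      ‖TG (fun m => afW W Z (sqc 1 (al h s1)) (sqc 1 (al h s2)) g (es U) d (cg * U * m) *
        pw τ (nm m)) (j * (cg * U))‖ ^ 2 =
      ∑ U ∈ Us', ∑ j ∈ Js.filter (fun j => IsCoprime j (cg * U)),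
      ‖TG (fun m => afW W Z (sqc 1 (al h s1)) (sqc 1 (al h s2)) g (es U) d (cg * U * m) *
        pw τ (nm m)) (j * (cg * U))‖ ^ 2 := by
    rw [hUs', Finset.sum_filter]
    refine Finset.sum_congr rfl fun U hU => ?_
    split_ifs with hsq
    · rfl
    · refine Finset.sum_eq_zero fun j _ => ?_
      rw [hzero U hU hsq, norm_zero]
      ring
  rw [hsplit]
  have hQ0 : (0 : ℝ) ≤ Q.card := Nat.cast_nonneg _
  calc ∑ U ∈ Us', ∑ j ∈ Js.filter (fun j => IsCoprime j (cg * U)),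
      ‖TG (fun m => afW W Z (sqc 1 (al h s1)) (sqc 1 (al h s2)) g (es U) d (cg * U * m) *
        pw τ (nm m)) (j * (cg * U))‖ ^ 2 ≤
        ∑ U ∈ Us', (Q.card : ℝ) * ∑ p ∈ Q, ∑ κ' ∈ (bl (Real.exp k)).filter
          (fun κ' => CubeFree (κ' * U)), GG p U κ' := Finset.sum_le_sum hblock
    _ = (Q.card : ℝ) * ∑ p ∈ Q, ∑ U ∈ Us', ∑ κ' ∈ (bl (Real.exp k)).filter
          (fun κ' => CubeFree (κ' * U)), GG p U κ' := by
        rw [← Finset.mul_sum, Finset.sum_comm]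
    _ ≤ (Q.card : ℝ) * ∑ _p ∈ Q, C₁ * X ^ (ε / 2) * Bd' :=
        mul_le_mul_of_nonneg_left (Finset.sum_le_sum hmerge) hQ0
    _ = (Q.card : ℝ) ^ 2 * (C₁ * X ^ (ε / 2) * Bd') := by
        rw [Finset.sum_const, nsmul_eq_mul]; ring
    _ ≤ (C₂ ^ (2 * N) * X ^ (ε / 4)) ^ 2 * (C₁ * X ^ (ε / 2) * Bd') := by
        refine mul_le_mul_of_nonneg_right (pow_le_pow_left₀ hQ0 hQc 2) ?_
        have : 0 ≤ C₁ := by linarith
        positivity
    _ = C₂ ^ (4 * N) * C₁ * X ^ ε * ((1 + |θ|) * (1 + |τ|)) ^ (N * M) * Bd := by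
        have e1 : X ^ ε = (X ^ (ε / 4)) ^ 2 * X ^ (ε / 2) := by
          rw [← Real.rpow_natCast, ← Real.rpow_mul hX0.le, ← Real.rpow_add hX0]
          congr 1; push_cast; ring
        have e2 : C₂ ^ (4 * N) = (C₂ ^ (2 * N)) ^ 2 := by
          rw [← pow_mul]; congr 1; ring
        rw [e1, e2, hBd']
        ring

end Crest.Agent.R017.GrT828
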