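import Crest.Agent.R017.StE_828

/-!
# Row 17, R8/P1: the mismatch of the structured functions, level weights removed (helper828)

* `T3 af d e j` : inner sum with a coefficient `af e d m`
* `afa` : the coefficient `Σ_a η(g a) gt(a, e) (N q(a))^{it} N((d, q(a)))^{-3it} xa a (rs g α) (d m)`
* `SteT_win` : mean squares of `SteT JJ 1 E (Tq ..)` by those of `SteT JJ (omw i s) E (T3 (afa ..))`
* `Tm_eq` : the coefficient `Tm` for the plateau weight
-/

set_option autoImplicit false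

noncomputable section

open Finset MeasureTheory
open scoped ComplexConjugate

namespace Crest.Agent.R017.StF828

open Crest.Agent.R012 Crest.Agent.R012.Eis Crest.Agent.R012.Div277
open Crest.Agent.R012.Mob705 hiding pb mem_pb
open Crest.Agent.R012.Gauss880
open Crest.Agent.R012.LS2 (S mem_S)
open Crest.Agent.R012.Weight600 (osc norm_osc pw)
open Crest.Agent.R017.CM106 Crest.Agent.R017.PX764 Crest.Agent.R017.C70
open Crest.Agent.R017.StA828 Crest.Agent.R017.StB828 Crest.Agent.R017.StC828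
open Crest.Agent.R017.StD828 Crest.Agent.R017.StE828
open Crest.Agent.R017.E2440 (TE StE)
open Crest.Agent.R017.E3A164 (SteT)
open Crest.Agent.R017.Win813

open Classical in
/-- inner sum with a three-variable coefficient -/
def T3 (af : Eis → Eis → Eis → ℂ) (d e j : Eis) : ℂ :=
  ∑' m : Eis, if e ∣ m ∧ IsCoprime j (d * m) then af e d m * ((n6 m : ℂ) * Gh j m) else 0

/-- the coefficient -/
def afa (gt : Eis → Eis → ℂ) (q : Eis → Eis) (Y : ℝ) (η α : Eis → ℂ) (g : Eis) (t : ℝ)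
    (e d m : Eis) : ℂ :=
  ∑ a ∈ S Y, (η (g * a) * (gt a e * (pw t (nm (q a)) * pw (-3 * t) (nm (gp d (q a)))))) *
    xa a (rs g α) (d * m)

/-- the weighted coefficient -/
def Tq (gt : Eis → Eis → ℂ) (q : Eis → Eis) (Y : ℝ) (I J : Finset ℕ) (η α : Eis → ℂ)
    (g d e j : Eis) : ℂ :=
  ∑ a ∈ S Y, η (g * a) * ((gt a e * (lD I (ln (d, j)) * oD J (ln (psi (q a) (d, j))))) *
    TE (xa a (rs g α)) (d, j) e)

/-- the localised weight with height -/
def omw (i : ℕ) (s : ℝ) (y : Eis × Eis) : ℂ :=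
  ((wD i (Real.log (nm (ln y))) : ℝ) : ℂ) * pw s (nm (ln y))

lemma ln_ne {y : Eis × Eis} (h1 : IsPrim y.1) (h2 : JC y.2) : ln y ≠ 0 :=
  mul_ne_zero (JC_ne_zero h2) (pow_ne_zero 2 h1.ne_zero)

lemma ln_psi_ne {a : Eis} (ha : IsPrim a) {y : Eis × Eis} (h : ln y ≠ 0) :
    ln (psi a y) ≠ 0 := by
  intro h0
  have := ln_psi ha y
  rw [h0, zero_mul] at this
  exact mul_ne_zero ha.ne_zero h this.symm

lemma gp_ne {d a : Eis} (ha : IsPrim a) : gp d a ≠ 0 := (gp_spec d ha).1.ne_zero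

/-- logarithms of the levels -/
lemma log_ln_psi {a : Eis} (ha : IsPrim a) {y : Eis × Eis} (h : ln y ≠ 0) :
    Real.log (nm (ln (psi a y))) = Real.log (nm a) + Real.log (nm (ln y)) -
      3 * Real.log (nm (gp y.1 a)) := by
  have e := congrArg nm (ln_psi ha y)
  rw [nm_mul, nm_mul, nm_pow] at e
  have e' : (nm (ln (psi a y)) : ℝ) * (nm (gp y.1 a) : ℝ) ^ 3 = nm a * nm (ln y) := by
    exact_mod_cast e
  have p1 : (0 : ℝ) < nm (ln (psi a y)) := by exact_mod_cast nm_pos.2 (ln_psi_ne ha h)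
  have p2 : (0 : ℝ) < nm (gp y.1 a) := by exact_mod_cast nm_pos.2 (gp_ne ha)
  have p3 : (0 : ℝ) < nm a := by exact_mod_cast nm_pos.2 ha.ne_zero
  have p4 : (0 : ℝ) < nm (ln y) := by exact_mod_cast nm_pos.2 h
  have e2 := congrArg Real.log e'
  rw [Real.log_mul p1.ne' (pow_pos p2 3).ne', Real.log_mul p3.ne' p4.ne', Real.log_pow] at e2
  push_cast at e2
  linarith

lemma pw_ln_psi {a : Eis} (ha : IsPrim a) {y : Eis × Eis} (h : ln y ≠ 0) (t : ℝ) :
    pw t (nm (ln (psi a y))) =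
      pw t (nm (ln y)) * (pw t (nm a) * pw (-3 * t) (nm (gp y.1 a))) := by
  unfold pw osc
  rw [log_ln_psi ha h, ← Complex.exp_add, ← Complex.exp_add]
  congr 1
  push_cast
  ring

/-- the sum over `a` with heights is a three-variable inner sum -/
lemma sum_TE {gt : Eis → Eis → ℂ} {q : Eis → Eis} {Y : ℝ} (hY : 0 ≤ Y)
    (hq : ∀ a ∈ S Y, IsPrim (q a)) {α : Eis → ℂ} (hα : FS α) (η : Eis → ℂ) (g : Eis) (t : ℝ)
    {y : Eis × Eis} (h1 : IsPrim y.1) (h2 : JC y.2) (e : Eis) :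
    ∑ a ∈ S Y, η (g * a) * ((gt a e * pw t (nm (ln (psi (q a) y)))) *
      TE (xa a (rs g α)) y e) = pw t (nm (ln y)) * T3 (afa gt q Y η α g t) y.1 e y.2 := by
  have e1 : T3 (afa gt q Y η α g t) y.1 e y.2 = TE (∑ a ∈ S Y,
      (η (g * a) * (gt a e * (pw t (nm (q a)) * pw (-3 * t) (nm (gp y.1 (q a)))))) •
        xa a (rs g α)) y e := by
    unfold T3 TE afa
    refine tsum_congr fun m => ?_
    simp only [Finset.sum_apply, Pi.smul_apply, smul_eq_mul]
  rw [e1, TE_sum _ _ (fun a ha => FS_smul (FS_xa (FS_rs hα g) ((mem_S hY).1 ha).2.1) _) h1.ne_zero,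
    mul_sum]
  refine sum_congr rfl fun a ha => ?_
  rw [TE_smul, pw_ln_psi (hq a ha) (ln_ne h1 h2)]
  ring

/-- the coefficient of the linear form -/
def Ak (E' : ℝ) (gt : Eis → Eis → ℂ) (η α : Eis → ℂ) (g k : Eis)
    (b : (Eis × Eis) × Eis × Eis) : ℂ := by
  classical
  exact (if b.2.1 ∣ k then 1 else 0) * ((sy k b.1.1 * conj (th (b.1.2 * k))) *
    ((mu b.2.1 : ℂ) * (η (g * b.2.2) * (gt b.2.2 b.2.1 * TE (xa b.2.2 (rs g α)) b.1 b.2.1))))

open Classical in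
lemma SteT_form {JJ : Finset (Eis × Eis)} (om : Eis × Eis → ℂ) (w : Eis × Eis → Eis → ℂ) {Y E' : ℝ}
    (gt : Eis → Eis → ℂ) (η α : Eis → ℂ) (g k : Eis) (T : Eis → Eis → Eis → ℂ)
    (hT : ∀ y ∈ JJ, ∀ e, om y * T y.1 e y.2 = ∑ a ∈ S Y, η (g * a) * ((gt a e * w y a) *
      TE (xa a (rs g α)) y e)) :
    SteT JJ om E' T k = ∑ b ∈ JJ ×ˢ ((S E') ×ˢ (S Y)), Ak E' gt η α g k b * w b.1 b.2.2 := by
  unfold SteT
  rw [sum_product]
  refine sum_congr rfl fun y hy => ?_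
  rw [sum_product, mul_left_comm, mul_sum, mul_sum, sum_filter]
  refine sum_congr rfl fun e _ => ?_
  split_ifs with he
  · have h1 := hT y hy e
    rw [show om y * ((muE e : ℂ) * T y.1 e y.2) = (muE e : ℂ) * (om y * T y.1 e y.2) by ring, h1,
      mul_sum, mul_sum]
    refine sum_congr rfl fun a _ => ?_
    unfold Ak
    rw [if_pos he]
    show _ = (1 * ((sy k y.1 * conj (th (y.2 * k))) * (((muE e : ℤ) : ℂ) * _))) * w y a
    ring
  · symm
    refine Finset.sum_eq_zero fun a _ => ?_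
    unfold Ak
    rw [if_neg he]
    ring

/-- **removal of the level weights**. -/
theorem SteT_win {A : ℕ} (hA : 2 ≤ A) : ∃ C : ℝ, 0 ≤ C ∧ ∀ (JJ : Finset (Eis × Eis)), OKJ JJ →
    ∀ (Y E' : ℝ), 0 ≤ Y → ∀ (gt : Eis → Eis → ℂ) (q : Eis → Eis), (∀ a ∈ S Y, IsPrim (q a)) →
    ∀ (η α : Eis → ℂ), FS α → ∀ (g : Eis) (I J : Finset ℕ),
    ∀ (K : Finset Eis) (W : Eis → ℝ), (∀ k ∈ K, 0 ≤ W k) →
    ∑ k ∈ K, W k * ‖SteT JJ (fun _ => 1) E' (Tq gt q Y I J η α g) k‖ ^ 2 ≤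
      C * (I.card * (J.card : ℝ) ^ 2) * ∑ i ∈ I, ∫ s, ew A 2 s * ∑ k ∈ K, W k *
        ‖SteT JJ (omw i s) E' (T3 (afa gt q Y η α g s)) k‖ ^ 2 := by
  obtain ⟨C, hC, H⟩ := multi_win hA
  refine ⟨C, hC, ?_⟩
  intro JJ hJ Y E' hY gt q hq η α hα g I J K W hW
  have h := H (JJ ×ˢ ((S E') ×ˢ (S Y))) (fun b => ln (psi (q b.2.2) b.1)) (fun b => ln b.1) I J
    K W (fun k b => Ak E' gt η α g k b) hW
  have e1 : ∀ k, SteT JJ (fun _ => 1) E' (Tq gt q Y I J η α g) k =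
      ∑ b ∈ JJ ×ˢ ((S E') ×ˢ (S Y)), Ak E' gt η α g k b *
        (lD I (ln b.1) * oD J (ln (psi (q b.2.2) b.1))) := fun k =>
    SteT_form (fun _ => 1) (fun y a => lD I (ln y) * oD J (ln (psi (q a) y))) gt η α g k _
      (fun y _ e => by rw [one_mul]; rfl)
  have e2 : ∀ (i : ℕ) (s : ℝ) (k : Eis),
      SteT JJ (omw i s) E' (T3 (afa gt q Y η α g s)) k =
      HF (JJ ×ˢ ((S E') ×ˢ (S Y))) (fun b => ln (psi (q b.2.2) b.1)) (fun b => Ak E' gt η α g k b *
        ((wD i (Real.log (nm (ln b.1))) : ℝ) : ℂ)) s := by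
    intro i s k
    rw [SteT_form (omw i s) (fun y a => ((wD i (Real.log (nm (ln y))) : ℝ) : ℂ) *
      pw s (nm (ln (psi (q a) y)))) gt η α g k _ ?_]
    · unfold HF
      refine sum_congr rfl fun b _ => ?_
      ring
    · intro y hy e
      have h3 := sum_TE (gt := gt) hY hq hα η g s (hJ.prim y hy) (hJ.jc y hy) e
      unfold omw
      rw [mul_assoc, ← h3, mul_sum]
      refine sum_congr rfl fun a _ => ?_
      ring
  simp only [e1, e2]
  exact h

/-! ### the plateau weight -/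

open Classical in
/-- the gates -/
def g1 (E0 : ℝ) (_ e : Eis) : ℂ := if (nm e : ℝ) ≤ E0 then 1 else 0

open Classical in
/-- the gates -/
def g2 (E0 : ℝ) (a e : Eis) : ℂ :=
  if ¬ (nm e : ℝ) ≤ E0 ∧ (nm (e / gp e a) : ℝ) ≤ E0 then 1 else 0

/-- levels near the top -/
def I1 (M n : ℕ) (Y : ℝ) : Finset ℕ := by
  classical
  exact (range M).filter fun i => Real.log 2 * n - Real.log Y - 3 * Real.log 2 ≤ Real.log 2 * i ∧
    Real.log 2 * i ≤ Real.log 2 * n + 2 * Real.log Y + 3 * Real.log 2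

/-- all levels -/
def I2 (M n : ℕ) (Y : ℝ) : Finset ℕ := by
  classical
  exact (range M).filter fun i => Real.log 2 * i ≤ Real.log 2 * n + 2 * Real.log Y + 3 * Real.log 2

lemma log_bounds {Y : ℝ} (hY : 0 ≤ Y) {a : Eis} (ha : a ∈ S Y) {y : Eis × Eis} (h : ln y ≠ 0) :
    Real.log (nm (ln y)) - 2 * Real.log Y ≤ Real.log (nm (ln (psi a y))) ∧
      Real.log (nm (ln (psi a y))) ≤ Real.log (nm (ln y)) + Real.log Y := by
  obtain ⟨h1, h2, h3⟩ := (mem_S hY).1 ha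
  obtain ⟨k1, k2, k3, k4, k5⟩ := gp_spec y.1 h2
  have h4 := log_ln_psi h2 h
  have p1 : (1 : ℝ) ≤ nm a := one_le_nmR h2
  have p2 : (1 : ℝ) ≤ nm (gp y.1 a) := one_le_nmR k1
  have p3 : (nm (gp y.1 a) : ℝ) ≤ nm a := by
    exact_mod_cast Div277.nm_le_of_dvd h2.ne_zero ⟨_, k4⟩
  have q1 := Real.log_nonneg p2
  have q2 := Real.log_le_log (by linarith) p3
  have q3 := Real.log_le_log (by linarith) h1
  rw [h4]
  constructor <;> linarith

lemma lD_split {M n : ℕ} {Y : ℝ} (hY : 0 ≤ Y) {a b : Eis} (ha : a ∈ S Y) (hb : b ∈ S Y)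
    {y : Eis × Eis} (h : ln y ≠ 0) (hM : Real.log (nm (ln y)) + Real.log 2 ≤ Real.log 2 * M) :
    oD (range n) (ln (psi a y)) - oD (range n) (ln (psi b y)) =
      lD (I1 M n Y) (ln y) * (oD (range n) (ln (psi a y)) - oD (range n) (ln (psi b y))) := by
  classical
  by_cases heq : oD (range n) (ln (psi a y)) = oD (range n) (ln (psi b y))
  · rw [heq, sub_self, mul_zero]
  have h1 : lD (I1 M n Y) (ln y) = 1 := by
    unfold lD
    rw [← Complex.ofReal_one, ← sum_wD (log_nm_nonneg (ln y)) hM, ← Complex.ofReal_sum]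
    congr 1
    unfold I1
    refine sum_subset (filter_subset _ _) fun i hi hn => ?_
    by_contra hne
    apply heq
    have h3 := abs_le.mp (wD_ne hne)
    obtain ⟨a1, a2⟩ := log_bounds hY ha h
    obtain ⟨b1, b2⟩ := log_bounds hY hb h
    rw [mem_filter, not_and, not_and_or] at hn
    rcases hn hi with h4 | h4
    · push Not at h4
      rw [oD_one (by linarith), oD_one (by linarith)]
    · push Not at h4
      rw [oD_zero (by linarith), oD_zero (by linarith)]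
  rw [h1, one_mul]

lemma lD_split2 {M n : ℕ} {Y : ℝ} (hY : 0 ≤ Y) {a : Eis} (ha : a ∈ S Y)
    {y : Eis × Eis} (h : ln y ≠ 0) (hM : Real.log (nm (ln y)) + Real.log 2 ≤ Real.log 2 * M) :
    oD (range n) (ln (psi a y)) =
      lD (I2 M n Y) (ln y) * oD (range n) (ln (psi a y)) := by
  classical
  by_cases heq : oD (range n) (ln (psi a y)) = 0
  · rw [heq, mul_zero]
  have h1 : lD (I2 M n Y) (ln y) = 1 := by
    unfold lD
    rw [← Complex.ofReal_one, ← sum_wD (log_nm_nonneg (ln y)) hM, ← Complex.ofReal_sum]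
    congr 1
    unfold I2
    refine sum_subset (filter_subset _ _) fun i hi hn => ?_
    by_contra hne
    apply heq
    have h3 := abs_le.mp (wD_ne hne)
    obtain ⟨a1, a2⟩ := log_bounds hY ha h
    rw [mem_filter, not_and] at hn
    have h4 := hn hi
    push Not at h4
    exact oD_zero (by linarith)
  rw [h1, one_mul]

/-- **the coefficient of the difference for the plateau weight** -/
lemma Tm_eq {E0 Y : ℝ} (hY : 0 ≤ Y) {n M : ℕ} (η α : Eis → ℂ) {g : Eis}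
    (hg : g ∈ S Y) {d e j : Eis} (hd : IsPrim d) (hj : JC j)
    (hM : Real.log (nm (ln (d, j))) + Real.log 2 ≤ Real.log 2 * M) :
    Tm E0 Y (oD (range n)) η α g d e j = Tq (g1 E0) id Y (I1 M n Y) (range n) η α g d e j -
      Tq (g1 E0) (fun _ => g) Y (I1 M n Y) (range n) η α g d e j +
      Tq (g2 E0) id Y (I2 M n Y) (range n) η α g d e j := by
  have hln : ln (d, j) ≠ 0 := ln_ne (y := (d, j)) hd hj
  unfold Tm Tq
  rw [← sum_sub_distrib, ← sum_add_distrib]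
  refine sum_congr rfl fun a ha => ?_
  rw [← mul_sub, ← mul_add]
  congr 1
  rw [← sub_mul, ← add_mul]
  congr 1
  have h1 := lD_split (n := n) hY ha hg hln hM
  have h2 := lD_split2 (n := n) hY ha hln hM
  unfold g1 g2
  simp only [id]
  by_cases h5 : (nm e : ℝ) ≤ E0
  · have h6 : (nm (e / gp e a) : ℝ) ≤ E0 := by
      refine le_trans ?_ h5
      obtain ⟨-, ha2, -⟩ := (mem_S hY).1 ha
      obtain ⟨k1, k2, k3, k4, k5⟩ := gp_spec e ha2
      have h7 : (nm e : ℝ) = nm (gp e a) * nm (e / gp e a) := by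
        conv_lhs => rw [k3]
        rw [nm_mul]; push_cast; ring
      rw [h7]
      exact le_mul_of_one_le_left (Nat.cast_nonneg _) (one_le_nmR k1)
    rw [if_pos h5, if_pos h6, if_neg (fun h => h.1 h5)]
    linear_combination h1
  · by_cases h6 : (nm (e / gp e a) : ℝ) ≤ E0
    · rw [if_neg h5, if_pos h6, if_pos ⟨h5, h6⟩]
      linear_combination h2
    · rw [if_neg h5, if_neg h6, if_neg (fun h => h6 h.2)]; ring

open Classical in
lemma SteT_congr {JJ : Finset (Eis × Eis)} (om : Eis × Eis → ℂ) {E' : ℝ}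
    {T T' : Eis → Eis → Eis → ℂ} (h : ∀ y ∈ JJ, ∀ e, T y.1 e y.2 = T' y.1 e y.2) (k : Eis) :
    SteT JJ om E' T k = SteT JJ om E' T' k := by
  unfold SteT
  refine sum_congr rfl fun y hy => ?_
  rw [sum_congr rfl fun e _ => by rw [h y hy e]]

open Classical in
lemma SteT_lin {JJ : Finset (Eis × Eis)} (om : Eis × Eis → ℂ) {E' : ℝ}
    (T T' T'' : Eis → Eis → Eis → ℂ) (k : Eis) :
    SteT JJ om E' (fun d e j => T d e j - T' d e j + T'' d e j) k =
      SteT JJ om E' T k - SteT JJ om E' T' k + SteT JJ om E' T'' k := by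
  unfold SteT
  rw [← sum_sub_distrib, ← sum_add_distrib]
  refine sum_congr rfl fun y _ => ?_
  rw [← mul_sub, ← mul_add, ← mul_sub, ← mul_add, ← sum_sub_distrib, ← sum_add_distrib]
  congr 2
  refine sum_congr rfl fun e _ => ?_
  ring

/-- **the mismatch**: mean squares, level weights removed. -/
theorem mism {A : ℕ} (hA : 2 ≤ A) : ∃ C : ℝ, 0 ≤ C ∧ ∀ (JJ : Finset (Eis × Eis)), OKJ JJ →
    ∀ (M n : ℕ), (∀ y ∈ JJ, Real.log (nm (ln y)) + Real.log 2 ≤ Real.log 2 * M) →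
    ∀ (Y E0 E' : ℝ), 0 ≤ Y → ∀ (η α : Eis → ℂ), FS α → ∀ g ∈ S Y,
    ∀ (K : Finset Eis) (W : Eis → ℝ), (∀ k ∈ K, 0 ≤ W k) →
    ∑ k ∈ K, W k * ‖SteT JJ (fun _ => 1) E' (Tm E0 Y (oD (range n)) η α g) k‖ ^ 2 ≤
      C * (M * (n : ℝ) ^ 2) * (
        (∑ i ∈ I1 M n Y, ∫ s, ew A 2 s * ∑ k ∈ K, W k *
          ‖SteT JJ (omw i s) E' (T3 (afa (g1 E0) id Y η α g s)) k‖ ^ 2) +
        (∑ i ∈ I1 M n Y, ∫ s, ew A 2 s * ∑ k ∈ K, W k *
          ‖SteT JJ (omw i s) E' (T3 (afa (g1 E0) (fun _ => g) Y η α g s)) k‖ ^ 2) +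
        (∑ i ∈ I2 M n Y, ∫ s, ew A 2 s * ∑ k ∈ K, W k *
          ‖SteT JJ (omw i s) E' (T3 (afa (g2 E0) id Y η α g s)) k‖ ^ 2)) := by
  obtain ⟨C, hC, H⟩ := SteT_win hA
  refine ⟨3 * C, by positivity, ?_⟩
  intro JJ hJ M n hM Y E0 E' hY η α hα g hg K W hW
  obtain ⟨-, hgp, -⟩ := (mem_S hY).1 hg
  have hid : ∀ a ∈ S Y, IsPrim (id a) := fun a ha => ((mem_S hY).1 ha).2.1
  have b1 := H JJ hJ Y E' hY (g1 E0) id hid η α hα g (I1 M n Y) (range n) K W hW
  have b2 := H JJ hJ Y E' hY (g1 E0) (fun _ => g) (fun _ _ => hgp) η α hα g (I1 M n Y) (range n)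
    K W hW
  have b3 := H JJ hJ Y E' hY (g2 E0) id hid η α hα g (I2 M n Y) (range n) K W hW
  have e1 : ∀ k, SteT JJ (fun _ => 1) E' (Tm E0 Y (oD (range n)) η α g) k =
      SteT JJ (fun _ => 1) E' (Tq (g1 E0) id Y (I1 M n Y) (range n) η α g) k -
      SteT JJ (fun _ => 1) E' (Tq (g1 E0) (fun _ => g) Y (I1 M n Y) (range n) η α g) k +
      SteT JJ (fun _ => 1) E' (Tq (g2 E0) id Y (I2 M n Y) (range n) η α g) k := by
    intro k
    rw [← SteT_lin]
    exact SteT_congr _ (fun y hy e => Tm_eq hY η α hg (hJ.prim y hy) (hJ.jc y hy) (hM y hy)) k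
  have e2 : ∀ k ∈ K, W k * ‖SteT JJ (fun _ => 1) E' (Tm E0 Y (oD (range n)) η α g) k‖ ^ 2 ≤
      3 * (W k * ‖SteT JJ (fun _ => 1) E' (Tq (g1 E0) id Y (I1 M n Y) (range n) η α g) k‖ ^ 2 +
        W k * ‖SteT JJ (fun _ => 1) E'
          (Tq (g1 E0) (fun _ => g) Y (I1 M n Y) (range n) η α g) k‖ ^ 2 +
        W k * ‖SteT JJ (fun _ => 1) E' (Tq (g2 E0) id Y (I2 M n Y) (range n) η α g) k‖ ^ 2) := by
    intro k hk
    rw [e1 k, ← mul_add, ← mul_add, mul_left_comm]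
    refine mul_le_mul_of_nonneg_left ?_ (hW k hk)
    set x := SteT JJ (fun _ => 1) E' (Tq (g1 E0) id Y (I1 M n Y) (range n) η α g) k
    set y := SteT JJ (fun _ => 1) E' (Tq (g1 E0) (fun _ => g) Y (I1 M n Y) (range n) η α g) k
    set z := SteT JJ (fun _ => 1) E' (Tq (g2 E0) id Y (I2 M n Y) (range n) η α g) k
    have h1 : ‖x - y + z‖ ≤ ‖x‖ + ‖y‖ + ‖z‖ :=
      (norm_add_le _ _).trans (by linarith [norm_sub_le x y])
    have h2 := pow_le_pow_left₀ (norm_nonneg _) h1 2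
    nlinarith [sq_nonneg (‖x‖ - ‖y‖), sq_nonneg (‖y‖ - ‖z‖), sq_nonneg (‖x‖ - ‖z‖)]
  have hI : ∀ q : Eis → Eis, ∀ gt : Eis → Eis → ℂ, ∀ i : ℕ, 0 ≤ ∫ s, ew A 2 s * ∑ k ∈ K, W k *
      ‖SteT JJ (omw i s) E' (T3 (afa gt q Y η α g s)) k‖ ^ 2 := fun q gt i =>
    integral_nonneg fun s => mul_nonneg (ew_nonneg (by norm_num) s)
      (sum_nonneg fun k hk => mul_nonneg (hW k hk) (by positivity))
  have c1 : ((I1 M n Y).card : ℝ) ≤ M := by
    have : (I1 M n Y).card ≤ (range M).card := card_le_card (filter_subset _ _)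
    rw [card_range] at this
    exact_mod_cast this
  have c2 : ((I2 M n Y).card : ℝ) ≤ M := by
    have : (I2 M n Y).card ≤ (range M).card := card_le_card (filter_subset _ _)
    rw [card_range] at this
    exact_mod_cast this
  have mono : ∀ {x y R : ℝ}, x ≤ y → 0 ≤ R → C * (x * ((range n).card : ℝ) ^ 2) * R ≤
      C * (y * (n : ℝ) ^ 2) * R := by
    intro x y R hxy hR
    rw [card_range]
    refine mul_le_mul_of_nonneg_right (mul_le_mul_of_nonneg_left ?_ hC) hR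
    exact mul_le_mul_of_nonneg_right hxy (by positivity)
  have d1 := b1.trans (mono c1 (sum_nonneg fun i _ => hI _ _ i))
  have d2 := b2.trans (mono c1 (sum_nonneg fun i _ => hI _ _ i))
  have d3 := b3.trans (mono c2 (sum_nonneg fun i _ => hI _ _ i))
  refine (sum_le_sum e2).trans ?_
  rw [← mul_sum, sum_add_distrib, sum_add_distrib]
  nlinarith [d1, d2, d3]

end Crest.Agent.R017.StF828
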