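import Crest.Agent.R017.E2m_440
import Crest.Agent.R017.E1l_551
import Crest.Agent.R017.E1k_146

/-!
# Row 17, C.REMg, (LB), part a (helper48): the coefficients of the structured function

`norm_TE_sq_le` : in a window at `X`,
`‖TE α (δ, κ) e‖² ≤ C (X / nm δ)^(-1/3) Wf A α δ κ e`.
-/

set_option autoImplicit false

noncomputable section

open Complex MeasureTheory
open scoped ComplexConjugate Classical

namespace Crest.Agent.R017.LBx48

open Crest.Agent.R012 Crest.Agent.R012.Eis Crest.Agent.R012.MC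
open Crest.Agent.R012.LS2 (S mem_S)
open Crest.Agent.R012.Weight600 (osc pw)
open Crest.Agent.R017.PX764 (Gh n6)
open Crest.Agent.R017.Dual2813 (S_of_dvd)
open Crest.Agent.R017.CM106 (CS TG FS)
open Crest.Agent.R017.E1551
open Crest.Agent.R017.E2440 (TE)

/-- a kernel for `e^(-u/6)` -/
lemma sixth_kernel (R : ℝ) (hR : 0 ≤ R) (A : ℕ) : ∃ C : ℝ, 0 ≤ C ∧ ∃ k : ℝ → ℂ, Continuous k ∧
    Integrable k ∧ (∀ t, ‖k t‖ ≤ C * jb (A : ℝ) t) ∧
    ∀ u, |u| ≤ R → ((Real.exp (-u / 6) : ℝ) : ℂ) = ∫ t, k t * osc t u := by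
  obtain ⟨D, hD, h⟩ := E1c146.kernel_of_bounds R hR A
  obtain ⟨k, h1, h2, h3, h4⟩ := h
    (fun n u => (((-(1 / 6)) ^ n * Real.exp (-u / 6) : ℝ) : ℂ)) (Real.exp ((R + 1) / 6))
    (Real.exp_pos _).le (fun n u => by
      have h1 : HasDerivAt (fun u : ℝ => -u / 6) (-(1 / 6)) u := by
        have := (hasDerivAt_id u).neg.div_const 6
        convert! this using 1
        norm_num
      have h2 := (h1.exp.const_mul ((-(1 / 6) : ℝ) ^ n)).ofReal_comp
      convert! h2 using 1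
      push_cast
      ring) (fun n _ u hu => by
      rw [Complex.norm_real, Real.norm_eq_abs, abs_mul, abs_pow, abs_neg,
        abs_of_pos (Real.exp_pos _)]
      have e3 : |(1 / 6 : ℝ)| ^ n ≤ 1 := by
        apply pow_le_one₀ (abs_nonneg _)
        rw [abs_of_pos (by norm_num)]; norm_num
      have e4 : Real.exp (-u / 6) ≤ Real.exp ((R + 1) / 6) := by
        apply Real.exp_le_exp.mpr
        have := (abs_le.1 hu).1
        linarith
      calc |(1 / 6 : ℝ)| ^ n * Real.exp (-u / 6) ≤ 1 * Real.exp ((R + 1) / 6) :=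
            mul_le_mul e3 e4 (Real.exp_pos _).le zero_le_one
        _ = _ := one_mul _)
  refine ⟨D * Real.exp ((R + 1) / 6), by positivity, k, h1, h2, fun t => ?_, fun u hu => ?_⟩
  · have h5 := h3 t
    unfold jb
    rw [Real.rpow_neg (by positivity), Real.rpow_natCast, ← div_eq_mul_inv,
      le_div_iff₀ (by positivity)]
    exact h5
  · rw [← h4 u hu]
    push_cast
    simp

/-- the coefficient as a finite sum -/
lemma TE_eq_sum {Y : ℝ} (hY : 0 ≤ Y) {α : Eis → ℂ} (hα : ∀ n, α n ≠ 0 → n ∈ S Y)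
    {δ κ : Eis} (hδ : IsPrim δ) (hc : IsCoprime κ δ) (e : Eis) :
    TE α (δ, κ) e = ∑ k ∈ S Y, if (1 : Eis) ∣ k ∧ e ∣ k then cc α δ κ k * (n6 k : ℂ) else 0 := by
  unfold E2440.TE
  rw [tsum_eq_sum (s := S Y)]
  · refine Finset.sum_congr rfl fun k hk => ?_
    have hkp := ((mem_S hY).1 hk).2.1
    by_cases he : e ∣ k
    · by_cases hk2 : IsCoprime κ k
      · rw [if_pos ⟨he, hc.mul_right hk2⟩, if_pos ⟨one_dvd _, he⟩]
        unfold cc PX764.Gh
        ring
      · rw [if_neg (fun h => hk2 h.2.of_mul_right_right), if_pos ⟨one_dvd _, he⟩]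
        unfold cc
        rw [Tau671.sy_eq_zero hkp hk2]
        simp
    · rw [if_neg (fun h => he h.1), if_neg (fun h => he h.2)]
  · intro k hk
    have : α (δ * k) = 0 := by
      by_contra h
      have h1 := hα _ h
      have h2 := (mem_S hY).1 h1
      exact hk (S_of_dvd hY h1 (IsPrim.of_mul_left h2.2.1 hδ) (dvd_mul_left _ δ))
    show (if e ∣ k ∧ IsCoprime κ (δ * k) then α (δ * k) * ((n6 k : ℂ) * Gh κ k) else 0) = 0
    rw [this]
    simp

lemma TE_not_cop {α : Eis → ℂ} {δ κ : Eis} (hc : ¬ IsCoprime κ δ) (e : Eis) :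
    TE α (δ, κ) e = 0 := by
  unfold E2440.TE
  refine (tsum_congr fun k => ?_).trans tsum_zero
  exact if_neg (fun h : e ∣ k ∧ IsCoprime κ (δ * k) => hc h.2.of_mul_right_left)

/-- the coefficient as an integral -/
lemma TE_eq_int {Y R X' : ℝ} (hY : 0 ≤ Y) {α : Eis → ℂ} (hα : ∀ n, α n ≠ 0 → n ∈ S Y)
    {δ κ : Eis} (hδ : IsPrim δ) (hs : SupC Y R α δ X') (hc : IsCoprime κ δ) (e : Eis)
    {k : ℝ → ℂ} (hki : Integrable k)
    (hk : ∀ u, |u| ≤ R / 2 → ((Real.exp (-u / 6) : ℝ) : ℂ) = ∫ t, k t * osc t u) :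
    TE α (δ, κ) e = ((Real.exp (-X' / 6) : ℝ) : ℂ) * ∫ t, k t * Uf Y α δ κ X' 1 e t := by
  rw [TE_eq_sum hY hα hδ hc e]
  have hint : ∀ m : Eis, Integrable fun t => k t *
      (if (1 : Eis) ∣ m ∧ e ∣ m then cc α δ κ m * osc t (Real.log (nm m) - X') else 0) := by
    intro m
    refine hki.mul_bdd (c := ‖cc α δ κ m‖) ?_ (Filter.Eventually.of_forall fun t => ?_)
    · split_ifs
      · exact (continuous_const.mul (Weight600.continuous_osc_left _)).aestronglyMeasurable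
      · exact continuous_const.aestronglyMeasurable
    · split_ifs
      · rw [norm_mul, Weight600.norm_osc, mul_one]
      · rw [norm_zero]; exact norm_nonneg _
  have e1 : ∀ t, k t * Uf Y α δ κ X' 1 e t = ∑ m ∈ S Y, k t *
      (if (1 : Eis) ∣ m ∧ e ∣ m then cc α δ κ m * osc t (Real.log (nm m) - X') else 0) := by
    intro t
    unfold Uf
    rw [Finset.mul_sum]
  simp_rw [e1]
  rw [integral_finsetSum _ fun m _ => hint m, Finset.mul_sum]
  refine Finset.sum_congr rfl fun m hm => ?_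
  split_ifs with h
  · by_cases h0 : α (δ * m) = 0
    · have : cc α δ κ m = 0 := by unfold cc; rw [h0, zero_mul]
      simp [this]
    have hm' := ((mem_S hY).1 hm).2.1
    have hn := nmpos hm'.ne_zero
    have e2 : ∀ t, k t * (cc α δ κ m * osc t (Real.log (nm m) - X')) =
        cc α δ κ m * (k t * osc t (Real.log (nm m) - X')) := fun t => by ring
    simp_rw [e2]
    rw [integral_const_mul, ← hk _ (hs m hm h0)]
    have e3 : n6 m = Real.exp (-X' / 6) * Real.exp (-(Real.log (nm m) - X') / 6) := by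
      unfold PX764.n6
      rw [Real.rpow_def_of_pos hn, ← Real.exp_add]
      congr 1
      ring
    rw [e3]
    push_cast
    ring
  · simp

/-- **the coefficients of the structured function** -/
theorem norm_TE_sq_le (R : ℝ) (hR : 0 ≤ R) (A : ℕ) (hA : 2 ≤ A) : ∃ C : ℝ, 0 ≤ C ∧
    ∀ (Y X : ℝ), 0 ≤ Y → 0 < X → ∀ α : Eis → ℂ, Adm Y X R α → ∀ δ κ e : Eis, IsPrim δ →
      IsPrim e →
      ‖TE α (δ, κ) e‖ ^ 2 ≤ C * (X / nm δ) ^ (-(1 / 3) : ℝ) * Wf (A : ℝ) α δ κ e := by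
  obtain ⟨C, hC, k, hk1, hk2, hk3, hk4⟩ := sixth_kernel (R / 2) (by positivity) A
  have hA1 : (1 : ℝ) < A := by exact_mod_cast hA
  set I := ∫ t, jb (A : ℝ) t with hI
  have hI0 : 0 ≤ I := integral_nonneg fun t => (jb_pos _ t).le
  refine ⟨C ^ 2 * I, by positivity, fun Y X hY hX α hα δ κ e hδ he => ?_⟩
  have hδn := nmpos hδ.ne_zero
  have hXd : 0 < X / nm δ := by positivity
  have hW := Wf_nonneg (A : ℝ) α δ κ e
  by_cases hc : IsCoprime κ δ
  swap
  · rw [TE_not_cop hc, norm_zero]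
    have h0 : 0 ≤ C ^ 2 * I * (X / nm δ) ^ (-(1 / 3) : ℝ) * Wf (A : ℝ) α δ κ e := by positivity
    simpa using h0
  set X' := Real.log (X / nm δ) with hX'
  have hs := hα.supC hY hX hδ
  rw [TE_eq_int hY hα.sup hδ hs hc e hk2 hk4, norm_mul, mul_pow, Complex.norm_real,
    Real.norm_of_nonneg (Real.exp_pos _).le]
  have e1 : Real.exp (-X' / 6) ^ 2 = (X / nm δ) ^ (-(1 / 3) : ℝ) := by
    rw [← Real.exp_nat_mul, Real.rpow_def_of_pos hXd, ← hX']
    congr 1
    push_cast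
    ring
  rw [e1]
  have hU := Ef_le hA1 hY hα.sup (κ := κ) (f := 1) (D := e) (L := e) hδ he
    (fun k => ⟨fun h => ⟨one_dvd _, h⟩, fun h => h.2⟩) X'
  refine le_trans ?_ (le_of_eq_of_le rfl (mul_le_mul_of_nonneg_left hU (show 0 ≤
    C ^ 2 * I * (X / nm δ) ^ (-(1 / 3) : ℝ) by positivity)))
  rw [mul_comm (C ^ 2 * I), mul_assoc]
  refine mul_le_mul_of_nonneg_left ?_ (by positivity)
  -- Cauchy
  obtain ⟨M, hM⟩ : ∃ M : ℝ, ∀ t, ‖Uf Y α δ κ X' 1 e t‖ ≤ M := ⟨_, norm_Uf_le Y α δ κ X' 1 e⟩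
  have hUc := continuous_Uf Y α δ κ X' 1 e
  have hM0 : 0 ≤ M := (norm_nonneg _).trans (hM 0)
  have h1 : ‖∫ t, k t * Uf Y α δ κ X' 1 e t‖ ≤ C * ∫ t, jb (A : ℝ) t * ‖Uf Y α δ κ X' 1 e t‖ := by
    rw [← integral_const_mul]
    refine norm_integral_le_of_norm_le ?_ (Filter.Eventually.of_forall fun t => ?_)
    · exact (integrable_jb_mul hA1 hUc.norm (B := M) fun t => by
        rw [abs_of_nonneg (norm_nonneg _)]; exact hM t).const_mul C
    · rw [norm_mul, ← mul_assoc]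
      exact mul_le_mul_of_nonneg_right (hk3 t) (norm_nonneg _)
  have h2 : (∫ t, jb (A : ℝ) t * ‖Uf Y α δ κ X' 1 e t‖) ^ 2 ≤
      I * ∫ t, jb (A : ℝ) t * ‖Uf Y α δ κ X' 1 e t‖ ^ 2 := by
    have i1 : Integrable fun t => jb (A : ℝ) t * ‖Uf Y α δ κ X' 1 e t‖ :=
      integrable_jb_mul hA1 hUc.norm (B := M) fun t => by
        rw [abs_of_nonneg (norm_nonneg _)]; exact hM t
    have i2 := integrable_Ef hA1 Y α δ κ X' 1 e
    have i0 := integrable_jb hA1
    set a := ∫ t, jb (A : ℝ) t * ‖Uf Y α δ κ X' 1 e t‖ with ha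
    set b := ∫ t, jb (A : ℝ) t * ‖Uf Y α δ κ X' 1 e t‖ ^ 2 with hb
    have h3 : ∀ c : ℝ, 0 ≤ b - 2 * c * a + c ^ 2 * I := by
      intro c
      have : b - 2 * c * a + c ^ 2 * I = ∫ t, jb (A : ℝ) t * (‖Uf Y α δ κ X' 1 e t‖ - c) ^ 2 := by
        have e5 : ∀ t, jb (A : ℝ) t * (‖Uf Y α δ κ X' 1 e t‖ - c) ^ 2 =
            jb (A : ℝ) t * ‖Uf Y α δ κ X' 1 e t‖ ^ 2 -
              2 * c * (jb (A : ℝ) t * ‖Uf Y α δ κ X' 1 e t‖) + c ^ 2 * jb (A : ℝ) t := by
          intro t; ring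
        simp_rw [e5]
        rw [integral_add (f := fun t => jb (A : ℝ) t * ‖Uf Y α δ κ X' 1 e t‖ ^ 2 -
          2 * c * (jb (A : ℝ) t * ‖Uf Y α δ κ X' 1 e t‖)) (g := fun t => c ^ 2 * jb (A : ℝ) t)
          (i2.sub (i1.const_mul (2 * c))) (i0.const_mul (c ^ 2)),
          integral_sub i2 (i1.const_mul (2 * c)), integral_const_mul, integral_const_mul]
      rw [this]
      exact integral_nonneg fun t => mul_nonneg (jb_pos _ t).le (by positivity)
    rcases eq_or_lt_of_le hI0 with h0 | h0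
    · have ha0 : a = 0 := by
        by_contra hne
        have h6 := h3 ((b + 1) / (2 * a))
        rw [← h0] at h6
        have : 2 * ((b + 1) / (2 * a)) * a = b + 1 := by field_simp
        rw [this] at h6
        linarith
      rw [ha0, ← h0]; simp
    · have h6 := h3 (a / I)
      have e6 : b - 2 * (a / I) * a + (a / I) ^ 2 * I = b - a ^ 2 / I := by
        field_simp
        ring
      rw [e6, sub_nonneg, div_le_iff₀ h0] at h6
      linarith
  calc ‖∫ t, k t * Uf Y α δ κ X' 1 e t‖ ^ 2 ≤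
        (C * ∫ t, jb (A : ℝ) t * ‖Uf Y α δ κ X' 1 e t‖) ^ 2 :=
        pow_le_pow_left₀ (norm_nonneg _) h1 2
    _ = C ^ 2 * (∫ t, jb (A : ℝ) t * ‖Uf Y α δ κ X' 1 e t‖) ^ 2 := by ring
    _ ≤ C ^ 2 * (I * ∫ t, jb (A : ℝ) t * ‖Uf Y α δ κ X' 1 e t‖ ^ 2) :=
        mul_le_mul_of_nonneg_left h2 (by positivity)
    _ = C ^ 2 * I * Ef (A : ℝ) Y α δ κ X' 1 e := by unfold Ef; ring

end Crest.Agent.R017.LBx48
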