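import Crest.Agent.R017.MgF_828
import Crest.Agent.R017.TEb_48
import Crest.Agent.R017.StF_828
import Crest.Agent.R017.E3D_579
import Crest.Agent.R017.DgA_829

/-!
# Row 17, R8/P1: the `T`-side of the mismatch, part 1 (helper828)

* `WOK`, `afW` : admissible weights, the coefficient of the mismatch
* `afa_eq`, `wok_*` : the coefficients of `mism`
* `TE0_D` : the inner sum over the multiples of `c = g / (g, d)`
* `afW_adm` : window and support of the coefficient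
-/

set_option autoImplicit false

noncomputable section

open Finset MeasureTheory
open scoped ComplexConjugate

namespace Crest.Agent.R017.GrT828

open Crest.Agent.R012 Crest.Agent.R012.Eis
open Crest.Agent.R012.Div277 (tau dvs mem_dvs exists_prim_factor tau_le_rpow)
open Crest.Agent.R012.LS2 (S mem_S bl mem_bl)
open Crest.Agent.R012.Weight600 (osc norm_osc pw norm_pw)
open Crest.Agent.R017.CM106 (CS TG FS)
open Crest.Agent.R017.HP842 (Pc pc al cv Tu mem_Tu sc' scS sqc Th card_Tu_le)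
open Crest.Agent.R017.Rough381 (sh shS sh_OK VF)
open Crest.Agent.R017.FE47 (PU cx)
open Crest.Agent.R017.Prov71 (CubeFree)
open Crest.Agent.R017.StA828 Crest.Agent.R017.StC828 Crest.Agent.R017.StF828
open Crest.Agent.R017.StB828 (one_le_nmR)
open Crest.Agent.R017.GrC828
open Crest.Agent.R017.PX764 (n6 Gh sqf_mul)
open Crest.Agent.R017.E2440 (TE)
open Crest.Agent.R017.E3D579 (TE0)
open Crest.Agent.R017.E1551 (Adm Wf jb)
open Crest.Agent.R017.DgA829 (lc lc_prim lc_dvd)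

/-! ### weights -/

/-- admissible weights -/
structure WOK (θ : ℝ) (W : Eis → Eis → Eis → ℂ) : Prop where
  le : ∀ e d a, ‖W e d a‖ ≤ 1
  mul : ∀ e d a b, IsPrim e → IsPrim a → IsPrim b → IsCoprime b d → IsCoprime b e →
    W e d (a * b) = W e d a * pw θ (nm b)

/-- the coefficient -/
def afW (W : Eis → Eis → Eis → ℂ) (Z : ℝ) (η α : Eis → ℂ) (g e d m : Eis) : ℂ :=
  ∑ a ∈ S Z, (η (g * a) * W e d a) * xa a (rs g α) (d * m)

/-- the weights of `mism` -/
def Wq (gt : Eis → Eis → ℂ) (q : Eis → Eis) (t : ℝ) (e d a : Eis) : ℂ :=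
  gt a e * (pw t (nm (q a)) * pw (-3 * t) (nm (gp d (q a))))

lemma afa_eq (gt : Eis → Eis → ℂ) (q : Eis → Eis) (Y : ℝ) (η α : Eis → ℂ) (g : Eis) (t : ℝ)
    (e d m : Eis) : afa gt q Y η α g t e d m = afW (Wq gt q t) Y η α g e d m := rfl

lemma gp_mul_cop {l a b : Eis} (ha : IsPrim a) (hb : IsPrim b) (h : IsCoprime b l) :
    gp l (a * b) = gp l a := by
  obtain ⟨h1, h2, h3, h4, h5⟩ := gp_spec l ha
  refine gp_eq (l₁ := l / gp l a) (u₁ := a / gp l a * b) (ha.mul hb) h1 h3 ?_ ?_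
  · rw [← mul_assoc, ← h4]
  · refine h5.mul_right ?_
    have : l / gp l a ∣ l := ⟨gp l a, by rw [mul_comm]; exact h3⟩
    exact (h.symm).of_isCoprime_of_dvd_left this

lemma pw_mul' {t : ℝ} {a b : Eis} (ha : IsPrim a) (hb : IsPrim b) :
    pw t (nm (a * b)) = pw t (nm a) * pw t (nm b) := by
  rw [nm_mul]
  push_cast
  exact Weight600.pw_mul (by exact_mod_cast (nm_pos.2 ha.ne_zero).ne')
        (by exact_mod_cast (nm_pos.2 hb.ne_zero).ne') t

open Classical in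
lemma norm_g1_le (E0 : ℝ) (a e : Eis) : ‖g1 E0 a e‖ ≤ 1 := by
  unfold g1; split_ifs <;> simp

open Classical in
lemma norm_g2_le (E0 : ℝ) (a e : Eis) : ‖g2 E0 a e‖ ≤ 1 := by
  unfold g2; split_ifs <;> simp

lemma norm_Wq_le {gt : Eis → Eis → ℂ} (h : ∀ a e, ‖gt a e‖ ≤ 1) (q : Eis → Eis) (t : ℝ)
    (e d a : Eis) : ‖Wq gt q t e d a‖ ≤ 1 := by
  unfold Wq
  rw [norm_mul, norm_mul, norm_pw, norm_pw, one_mul, mul_one]
  exact h a e

open Classical in
lemma wok_1 (E0 t : ℝ) : WOK t (Wq (g1 E0) id t) where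
  le := norm_Wq_le (norm_g1_le E0) id t
  mul e d a b _ ha hb hd he := by
    unfold Wq g1
    simp only [id]
    rw [gp_mul_cop ha hb hd, pw_mul' ha hb]
    ring

open Classical in
lemma wok_2 (E0 t : ℝ) (g : Eis) : WOK 0 (Wq (g1 E0) (fun _ => g) t) where
  le := norm_Wq_le (norm_g1_le E0) _ t
  mul e d a b _ ha hb hd he := by
    unfold Wq g1
    have : pw 0 (nm b) = 1 := by unfold pw osc; simp
    rw [this, mul_one]

open Classical in
lemma wok_3 (E0 t : ℝ) : WOK t (Wq (g2 E0) id t) where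
  le := norm_Wq_le (norm_g2_le E0) id t
  mul e d a b _ ha hb hd he := by
    unfold Wq g2
    simp only [id]
    rw [gp_mul_cop ha hb hd, gp_mul_cop ha hb he, pw_mul' ha hb]
    ring

/-! ### the support -/

lemma afW_ne {W : Eis → Eis → Eis → ℂ} {Z : ℝ} (hZ : 0 ≤ Z) {η α : Eis → ℂ} {g e d m : Eis}
    (h : afW W Z η α g e d m ≠ 0) : ∃ a n, a ∈ S Z ∧ η (g * a) ≠ 0 ∧ α n ≠ 0 ∧ g ∣ n ∧
      d * m = a * n ∧ IsCoprime a n := by
  unfold afW at h
  obtain ⟨a, ha, h0⟩ := Finset.exists_ne_zero_of_sum_ne_zero h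
  have h1 := left_ne_zero_of_mul (left_ne_zero_of_mul h0)
  obtain ⟨n, h2, h3, h4⟩ := xa_ne ((mem_S hZ).1 ha).2.1.ne_zero (right_ne_zero_of_mul h0)
  obtain ⟨h5, h6⟩ := rs_ne h4
  exact ⟨a, n, ha, h1, h6, h5, h2, h3⟩

/-- the missing part of `g` -/
def cc (g d : Eis) : Eis := g / gp d g

lemma cc_prim {g d : Eis} (hg : IsPrim g) : IsPrim (cc g d) := (gp_spec d hg).2.1

lemma cc_dvd {g d : Eis} (hg : IsPrim g) : cc g d ∣ g :=
  ⟨gp d g, by rw [mul_comm]; exact (gp_spec d hg).2.2.2.1⟩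

lemma cc_dvd_of {g d m : Eis} (hg : IsPrim g) (h : g ∣ d * m) : cc g d ∣ m := by
  obtain ⟨h1, h2, h3, h4, h5⟩ := gp_spec d hg
  have h6 : gp d g * cc g d ∣ gp d g * (d / gp d g * m) := by
    rw [← mul_assoc, ← h3]
    show gp d g * (g / gp d g) ∣ _
    rwa [← h4]
  have h7 := (mul_dvd_mul_iff_left h1.ne_zero).1 h6
  exact h5.symm.dvd_of_dvd_mul_left h7

/-- `d c = g d₀` -/
lemma cc_mul {g d : Eis} (hg : IsPrim g) : d * cc g d = g * (d / gp d g) := by
  obtain ⟨h1, h2, h3, h4, h5⟩ := gp_spec d hg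
  calc d * cc g d = (gp d g * (d / gp d g)) * (g / gp d g) := by rw [← h3]; rfl
    _ = (gp d g * (g / gp d g)) * (d / gp d g) := by ring
    _ = _ := by rw [← h4]

lemma d0_prim {g d : Eis} (hg : IsPrim g) (hd : IsPrim d) : IsPrim (d / gp d g) := by
  obtain ⟨h1, h2, h3, h4, h5⟩ := gp_spec d hg
  exact (h3 ▸ hd : IsPrim (gp d g * (d / gp d g))).of_mul_left h1

open Classical in
/-- the inner sum over the multiples of `c` -/
lemma TE0_D {b : Eis → ℂ} {c e j dl : Eis} (hc : IsPrim c) (he : IsPrim e)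
    (hb : ∀ m, b m ≠ 0 → c ∣ m) : TE0 b dl j e =
      if IsCoprime j dl then TE b (1, j) (lc c e) else 0 := by
  unfold E3D579.TE0 E2440.TE
  split_ifs with hj
  · refine tsum_congr fun m => ?_
    simp only [one_mul]
    by_cases hm : b m = 0
    · rw [hm]; simp
    have h1 := hb m hm
    by_cases h2 : e ∣ m ∧ IsCoprime j (dl * m)
    · rw [if_pos h2, if_pos ⟨(lc_dvd hc he m).2 ⟨h1, h2.1⟩, h2.2.of_mul_right_right⟩]
    · rw [if_neg h2, if_neg]
      rintro ⟨h3, h4⟩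
      exact h2 ⟨((lc_dvd hc he m).1 h3).2, hj.mul_right h4⟩
  · refine (tsum_congr fun m => ?_).trans tsum_zero
    rw [if_neg]
    rintro ⟨-, h4⟩
    exact hj h4.of_mul_right_left

lemma T3_TE0 (af : Eis → Eis → Eis → ℂ) (d e j : Eis) : T3 af d e j = TE0 (af e d) d j e := rfl

lemma afW_c {W : Eis → Eis → Eis → ℂ} {Z : ℝ} (hZ : 0 ≤ Z) {η α : Eis → ℂ} {g : Eis}
    (hg : IsPrim g) {e d m : Eis} (h : afW W Z η α g e d m ≠ 0) : cc g d ∣ m := by
  obtain ⟨a, n, -, -, -, h4, h5, -⟩ := afW_ne hZ h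
  exact cc_dvd_of hg (h5 ▸ h4.mul_left a)

/-- window of a family -/
lemma al_win {ι : Type} [Fintype ι] [DecidableEq ι] {h : ℝ → ℝ} {R : ℝ}
    (hR : ∀ u, cx h u ≠ 0 → |u| ≤ R) {s : ι → Pc}
    (hs : ∀ i, (s i).OK) {q n : Eis} (hn : sqc q (al h s) n ≠ 0) :
    IsPrim n ∧ Squarefree n ∧ |Real.log (nm n) - LY s| ≤ Fintype.card ι * R := by
  classical
  have h0 : Th q n ≠ 0 := left_ne_zero_of_mul hn
  have h1 : al h s n ≠ 0 := right_ne_zero_of_mul hn
  have hsq : Squarefree n := (Leg381.Th_ne_zero h0).1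
  unfold al cv at h1
  obtain ⟨x, hx, h2⟩ := Finset.exists_ne_zero_of_sum_ne_zero h1
  rw [mem_Tu] at hx
  have hp : ∀ i, IsPrim (x i) := hx.1
  have hpos : ∀ i, (0 : ℝ) < nm (x i) := fun i => by exact_mod_cast nm_pos.2 (hp i).ne_zero
  have h3 : ∀ i, |Real.log (nm (x i)) - Real.log (s i).Y| ≤ R := by
    intro i
    have h4 : pc h (s i) (x i) ≠ 0 := fun h5 => h2 (Finset.prod_eq_zero (Finset.mem_univ i) h5)
    unfold pc at h4
    rw [if_pos (hp i)] at h4
    have h6 : HSep813.gw h (s i).Y (s i).t (x i) ≠ 0 := right_ne_zero_of_mul h4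
    unfold HSep813.gw at h6
    exact hR _ (right_ne_zero_of_mul h6)
  refine ⟨hx.2 ▸ HP842.isPrim_prod hp, hsq, ?_⟩
  have e1 : Real.log (nm n) = ∑ i, Real.log (nm (x i)) := by
    rw [← hx.2, Rough381.nm_prodI]
    push_cast
    rw [Real.log_prod fun i _ => (hpos i).ne']
  rw [e1]
  unfold LY
  rw [← Finset.sum_sub_distrib]
  refine (Finset.abs_sum_le_sum_abs _ _).trans ?_
  calc ∑ i, |Real.log (nm (x i)) - Real.log (s i).Y| ≤ ∑ _i : ι, R :=
        Finset.sum_le_sum fun i _ => h3 i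
    _ = Fintype.card ι * R := by rw [Finset.sum_const, Finset.card_univ, nsmul_eq_mul]

section

variable {ι κ : Type} [Fintype ι] [Fintype κ] [DecidableEq ι] [DecidableEq κ]

/-- **window and support of the coefficient** -/
theorem afW_adm {h : ℝ → ℝ} {R : ℝ} (hR0 : 0 ≤ R) (hR : ∀ u, cx h u ≠ 0 → |u| ≤ R) {s1 : ι → Pc}
    {s2 : κ → Pc} (h1 : ∀ i, (s1 i).OK) (h2 : ∀ j, (s2 j).OK) {N : ℕ}
    (hN : Fintype.card ι + Fintype.card κ ≤ N) (W : Eis → Eis → Eis → ℂ) {Z : ℝ} (hZ : 0 ≤ Z)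
    {g d : Eis} (hg : IsPrim g) (hd : IsPrim d) (e : Eis) :
    ∃ Y : ℝ, 0 ≤ Y ∧ Adm Y (Real.exp (LY s1 + LY s2) / (nm g * nm d)) (2 * (N * R))
      (afW W Z (sqc 1 (al h s1)) (sqc 1 (al h s2)) g e d) := by
  have hg0 : (0 : ℝ) < nm g := by exact_mod_cast nm_pos.2 hg.ne_zero
  have hd0 : (0 : ℝ) < nm d := by exact_mod_cast nm_pos.2 hd.ne_zero
  set L := LY s1 + LY s2 with hL
  have key : ∀ m, afW W Z (sqc 1 (al h s1)) (sqc 1 (al h s2)) g e d m ≠ 0 →
      IsPrim m ∧ Squarefree m ∧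
        |Real.log (nm m) - (L - (Real.log (nm g) + Real.log (nm d)))| ≤ N * R := by
    intro m hm
    obtain ⟨a, n, ha, k1, k2, k3, k4, k5⟩ := afW_ne hZ hm
    obtain ⟨a1, a2, a3⟩ := (mem_S hZ).1 ha
    obtain ⟨p1, p2, p3⟩ := al_win hR h1 k1
    obtain ⟨n1, n2, n3⟩ := al_win hR h2 k2
    have hdm : IsPrim (d * m) := k4 ▸ a2.mul n1
    have hm1 : IsPrim m := hdm.of_mul_left hd
    have hsq : Squarefree (d * m) := by
      rw [k4]
      exact (sqf_mul k5).2 ⟨a3, n2⟩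
    refine ⟨hm1, hsq.of_mul_right, ?_⟩
    have hm0 : (0 : ℝ) < nm m := by exact_mod_cast nm_pos.2 hm1.ne_zero
    have ha0 : (0 : ℝ) < nm a := by exact_mod_cast nm_pos.2 a2.ne_zero
    have hn0 : (0 : ℝ) < nm n := by exact_mod_cast nm_pos.2 n1.ne_zero
    have e1 : Real.log (nm d) + Real.log (nm m) = Real.log (nm a) + Real.log (nm n) := by
      rw [← Real.log_mul hd0.ne' hm0.ne', ← Real.log_mul ha0.ne' hn0.ne']
      have := congrArg nm k4
      rw [nm_mul, nm_mul] at this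
      congr 1
      exact_mod_cast this
    have e2 : Real.log (nm (g * a)) = Real.log (nm g) + Real.log (nm a) := by
      rw [nm_mul]
      push_cast
      rw [Real.log_mul hg0.ne' ha0.ne']
    rw [e2] at p3
    have hc : (Fintype.card ι : ℝ) * R + Fintype.card κ * R ≤ N * R := by
      rw [← add_mul]
      refine mul_le_mul_of_nonneg_right ?_ hR0
      exact_mod_cast hN
    have b1 := abs_le.1 p3
    have b2 := abs_le.1 n3
    rw [abs_le]
    constructor <;> linarith [b1.1, b1.2, b2.1, b2.2]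
  refine ⟨Real.exp (L - (Real.log (nm g) + Real.log (nm d)) + N * R), (Real.exp_pos _).le, ?_, ?_⟩
  · intro m hm
    obtain ⟨k1, k2, k3⟩ := key m hm
    rw [mem_S (Real.exp_pos _).le]
    refine ⟨?_, k1, k2⟩
    have hm0 : (0 : ℝ) < nm m := by exact_mod_cast nm_pos.2 k1.ne_zero
    rw [← Real.log_le_iff_le_exp hm0]
    linarith [(abs_le.1 k3).2]
  · intro m hm
    obtain ⟨k1, k2, k3⟩ := key m hm
    have e1 : Real.log (Real.exp L / (nm g * nm d)) =
        L - (Real.log (nm g) + Real.log (nm d)) := by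
      rw [Real.log_div (Real.exp_pos _).ne' (by positivity), Real.log_exp,
        Real.log_mul hg0.ne' hd0.ne']
    rw [e1]
    linarith

end

end Crest.Agent.R017.GrT828
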