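import Crest.Agent.R017.GrT1_828

/-!
# Row 17, R8/P1: the `T`-side of the mismatch, part 2 (helper828)

* `TG_afW` : the Gauss sums of the multiples of `c U`
* `core_sum` : the mean square at one height
* `T_core` : the mean square of the inner sums over a block `(U, j)`
-/

set_option autoImplicit false

noncomputable section

open Finset MeasureTheory
open scoped ComplexConjugate

namespace Crest.Agent.R017.GrT828

open Crest.Agent.R012 Crest.Agent.R012.Eis
open Crest.Agent.R012.Div277 (tau dvs mem_dvs exists_prim_factor tau_le_rpow)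
open Crest.Agent.R012.LS2 (S mem_S bl mem_bl)
open Crest.Agent.R012.Weight600 (osc norm_osc pw norm_pw)
open Crest.Agent.R017.CM106 (CS TG FS)
open Crest.Agent.R017.HP842 (Pc pc al cv Tu mem_Tu sc' scS sqc Th card_Tu_le)
open Crest.Agent.R017.Rough381 (sh shS sh_OK VF nm_prodI)
open Crest.Agent.R017.Leg381 (Th_ne_zero shS_mul TG_sum FS_alW sum_Tu_mul)
open Crest.Agent.R017.FE47 (PU cx)
open Crest.Agent.R017.Prov71 (CubeFree)
open Crest.Agent.R017.StA828 Crest.Agent.R017.StC828 Crest.Agent.R017.StF828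
open Crest.Agent.R017.StB828 (one_le_nmR)
open Crest.Agent.R017.GrC828
open Crest.Agent.R017.PX764 (n6 Gh sqf_mul)
open Crest.Agent.R017.E2440 (TE)
open Crest.Agent.R017.E3D579 (TE0)
open Crest.Agent.R017.E1551 (Adm Wf jb jb_pos)

variable {ι κ : Type} [Fintype ι] [Fintype κ] [DecidableEq ι] [DecidableEq κ]

lemma afW_zero_of_not_sqf {W : Eis → Eis → Eis → ℂ} {Z : ℝ} (hZ : 0 ≤ Z) {h : ℝ → ℝ}
    {s1 : ι → Pc} {s2 : κ → Pc} {g e d m : Eis} (hs : ¬ Squarefree (d * m)) :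
    afW W Z (sqc 1 (al h s1)) (sqc 1 (al h s2)) g e d m = 0 := by
  by_contra h0
  obtain ⟨a, n, ha, k1, k2, k3, k4, k5⟩ := afW_ne hZ h0
  obtain ⟨a1, a2, a3⟩ := (mem_S hZ).1 ha
  have h2 : Squarefree n := (Th_ne_zero (left_ne_zero_of_mul k2)).1
  exact hs (k4 ▸ (sqf_mul k5).2 ⟨a3, h2⟩)

lemma FS_sqcal {h : ℝ → ℝ} {R : ℝ} (hR : ∀ u, cx h u ≠ 0 → |u| ≤ R) {s : ι → Pc}
    (hs : ∀ i, (s i).OK) (q : Eis) : FS (sqc q (al h s)) := by
  rw [← alW_one]
  exact HP842.FS.sqc (FS_alW hR hs _) q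

lemma FS_zero' : FS (fun _ : Eis => (0 : ℂ)) :=
  ⟨by simp [Function.support], fun m hm => absurd rfl hm⟩

open Classical in
/-- **the Gauss sums of the multiples of `D`** -/
theorem TG_afW {h : ℝ → ℝ} {R : ℝ} (hR : ∀ u, cx h u ≠ 0 → |u| ≤ R) {s1 : ι → Pc}
    {s2 : κ → Pc} (h1 : ∀ i, (s1 i).OK) (h2 : ∀ j, (s2 j).OK) {θ : ℝ}
    {W : Eis → Eis → Eis → ℂ} (hW : WOK θ W) {Z : ℝ} (hZ : 0 ≤ Z)
    (hsup : ∀ n, sqc 1 (al h s1) n ≠ 0 → (nm n : ℝ) ≤ Z) {g d D e : Eis} (hg : IsPrim g)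
    (hd : IsPrim d) (hD : IsPrim D) (he : IsPrim e) (heD : e ∣ D) (hgD : g ∣ d * D) (τ : ℝ)
    (r : Eis) :
    TG (fun m => afW W Z (sqc 1 (al h s1)) (sqc 1 (al h s2)) g e d (D * m) * pw τ (nm m)) r =
      ∑ x ∈ Tu ι g, ∑ y ∈ Tu κ g, ∑ z ∈ Tu (ι ⊕ κ) (d * D / g), kf (W e d) s1 s2 x y z *
        (if Squarefree (d * D) then TG (sqc (d * D)
          (al h (shS (fun i => ht τ (fam θ s1 s2 i)) (fun i => Sum.elim x y i * z i)))) r
          else 0) := by
  set N := d * D with hN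
  have hNp : IsPrim N := hd.mul hD
  set Fτ : ι ⊕ κ → Pc := fun i => ht τ (fam θ s1 s2 i) with hFτ
  have hFOK : ∀ i, (Fτ i).OK := fun i => ht_OK (fam_OK h1 h2 i)
  -- the sequence
  have e1 : ∀ m, afW W Z (sqc 1 (al h s1)) (sqc 1 (al h s2)) g e d (D * m) * pw τ (nm m) =
      ∑ x ∈ Tu ι g, ∑ y ∈ Tu κ g, ∑ z ∈ Tu (ι ⊕ κ) (N / g), kf (W e d) s1 s2 x y z *
        (if Squarefree N then sqc N
          (al h (shS Fτ (fun i => Sum.elim x y i * z i))) m else 0) := by
    intro m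
    have hht : ∀ (v : ι ⊕ κ → Eis), al h (shS Fτ v) m =
        pw τ (nm m) * al h (shS (fam θ s1 s2) v) m := by
      intro v
      rw [← al_ht]
      rfl
    by_cases hsq : Squarefree (N * m)
    · have hsN : Squarefree N := hsq.of_mul_left
      have hcm : IsCoprime N m := (squarefree_mul_iff.1 hsq).1.isCoprime
      have hm0 : m ≠ 0 := right_ne_zero_of_mul hsq.ne_zero
      have hWm : ∀ a ∈ dvs (N / g), ∀ b ∈ dvs m, W e d (a * b) = W e d a * pw θ (nm b) := by
        intro a ha b hb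
        obtain ⟨N', hN'⟩ := hgD
        have hNg : N / g = N' := by rw [hN', mul_div_cancel_left₀ _ hg.ne_zero]
        have hN'0 : N' ≠ 0 := by
          intro h0
          apply hNp.ne_zero
          rw [hN', h0, mul_zero]
        rw [hNg, mem_dvs hN'0] at ha
        rw [mem_dvs hm0] at hb
        have hc1 : IsCoprime b N := (hcm.symm).of_isCoprime_of_dvd_left hb.2
        refine hW.mul e d a b he ha.1 hb.1 ?_ ?_
        · exact hc1.of_isCoprime_of_dvd_right (dvd_mul_right _ _)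
        · exact hc1.of_isCoprime_of_dvd_right (heD.trans (dvd_mul_left _ _))
      have h3 := af_dec (h := h) h1 h2 hg hNp hgD hZ (fun a ha => by
        obtain ⟨a1, a2⟩ := sqc_prim ha
        have hap : IsPrim a := IsPrim.of_mul_left a1 hg
        rw [mem_S hZ]
        refine ⟨le_trans ?_ (hsup _ ha), hap, a2.1.of_mul_right⟩
        rw [nm_mul]
        push_cast
        exact le_mul_of_one_le_left (Nat.cast_nonneg _) (one_le_nmR hg)) (m := m) hWm
      have h4 : afW W Z (sqc 1 (al h s1)) (sqc 1 (al h s2)) g e d (D * m) =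
          ∑ a ∈ S Z, sqc 1 (al h s1) (g * a) * W e d a *
            xa a (rs g (sqc 1 (al h s2))) (N * m) := by
        unfold afW
        rw [← mul_assoc]
      rw [h4, h3, Finset.sum_mul]
      refine Finset.sum_congr rfl fun x _ => ?_
      rw [Finset.sum_mul]
      refine Finset.sum_congr rfl fun y _ => ?_
      rw [Finset.sum_mul]
      refine Finset.sum_congr rfl fun z _ => ?_
      rw [if_pos hsN, if_pos hsN]
      unfold HP842.sqc
      rw [hht]
      ring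
    · have h0 : afW W Z (sqc 1 (al h s1)) (sqc 1 (al h s2)) g e d (D * m) = 0 := by
        refine afW_zero_of_not_sqf hZ ?_
        rwa [← mul_assoc]
      rw [h0, zero_mul]
      symm
      refine Finset.sum_eq_zero fun x _ => Finset.sum_eq_zero fun y _ =>
        Finset.sum_eq_zero fun z _ => ?_
      split_ifs with hsN
      · have : Th N m = 0 := by
          by_contra h5
          obtain ⟨h6, h7⟩ := Th_ne_zero h5
          exact hsq ((sqf_mul h7.symm).2 ⟨hsN, h6⟩)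
        unfold HP842.sqc
        rw [this]; simp
      · rw [mul_zero]
  set Q : Finset ((ι → Eis) × (κ → Eis) × (ι ⊕ κ → Eis)) :=
    Tu ι g ×ˢ Tu κ g ×ˢ Tu (ι ⊕ κ) (N / g) with hQ
  have e2 : ∀ G : (ι → Eis) → (κ → Eis) → (ι ⊕ κ → Eis) → ℂ,
      ∑ x ∈ Tu ι g, ∑ y ∈ Tu κ g, ∑ z ∈ Tu (ι ⊕ κ) (N / g), G x y z =
      ∑ p ∈ Q, G p.1 p.2.1 p.2.2 := by
    intro G
    rw [hQ, Finset.sum_product]
    refine Finset.sum_congr rfl fun x _ => ?_
    rw [Finset.sum_product]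
  set w : (ι → Eis) × (κ → Eis) × (ι ⊕ κ → Eis) → Eis → ℂ := fun p => if p ∈ Q ∧ Squarefree N then
    sqc N (al h (shS Fτ (fun i => Sum.elim p.1 p.2.1 i * p.2.2 i))) else fun _ => 0 with hw
  have hwFS : ∀ p, FS (w p) := by
    intro p
    rw [hw]
    beta_reduce
    split_ifs with hp
    · obtain ⟨hp, -⟩ := hp
      rw [hQ, Finset.mem_product, Finset.mem_product] at hp
      refine FS_sqcal hR (fun i => sh_OK (hFOK i) ?_) N
      refine IsPrim.mul ?_ (((mem_Tu).1 hp.2.2).1 i)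
      rcases i with i | i
      · exact ((mem_Tu).1 hp.1).1 i
      · exact ((mem_Tu).1 hp.2.1).1 i
    · exact FS_zero'
  have e3 : (fun m => afW W Z (sqc 1 (al h s1)) (sqc 1 (al h s2)) g e d (D * m) * pw τ (nm m)) =
      fun m => ∑ p ∈ Q, kf (W e d) s1 s2 p.1 p.2.1 p.2.2 * w p m := by
    funext m
    rw [e1 m, e2]
    refine Finset.sum_congr rfl fun p hp => ?_
    rw [hw]
    beta_reduce
    by_cases hsN : Squarefree N
    · rw [if_pos hsN, if_pos ⟨hp, hsN⟩]
    · rw [if_neg hsN, if_neg (fun h => hsN h.2)]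
  rw [e3, TG_sum Q _ w hwFS r, e2]
  refine Finset.sum_congr rfl fun p hp => ?_
  rw [hw]
  beta_reduce
  by_cases hsN : Squarefree N
  · rw [if_pos hsN, if_pos ⟨hp, hsN⟩]
  · rw [if_neg hsN, if_neg (fun h => hsN h.2)]
    congr 1
    unfold TG
    simp

/-- the heights -/
lemma cF_le {s1 : ι → Pc} {s2 : κ → Pc} {θ τ : ℝ} (s' : ι ⊕ κ → Pc) :
    cF s' (Sum.elim s1 s2) ≤ cF s' (fun i => ht τ (fam θ s1 s2 i)) *
      ((1 + |θ|) * (1 + |τ|)) ^ (Fintype.card (ι ⊕ κ)) := by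
  unfold cF
  rw [← Finset.card_univ, ← Finset.prod_const, ← Finset.prod_mul_distrib]
  refine Finset.prod_le_prod (fun i _ => by positivity) fun i _ => ?_
  have key : ∀ t' t u : ℝ, |u| ≤ |θ| + |τ| →
      1 + |t' - t| ≤ (1 + |t' - (t + u)|) * ((1 + |θ|) * (1 + |τ|)) := by
    intro t' t u hu
    have h1 : |t' - t| ≤ |t' - (t + u)| + |u| := by
      have := abs_add_le (t' - (t + u)) u
      have e : t' - (t + u) + u = t' - t := by ring
      rwa [e] at this
    have h2 := abs_nonneg θ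
    have h3 := abs_nonneg τ
    have h4 := abs_nonneg (t' - (t + u))
    nlinarith [mul_nonneg h2 h3, mul_nonneg h4 h2, mul_nonneg h4 h3,
      mul_nonneg h4 (mul_nonneg h2 h3)]
  rcases i with i | i
  · show 1 + |(s' (.inl i)).t - (s1 i).t| ≤ (1 + |(s' (.inl i)).t - ((s1 i).t + θ + τ)|) * _
    rw [add_assoc]
    exact key _ _ _ (abs_add_le θ τ)
  · show 1 + |(s' (.inr i)).t - (s2 i).t| ≤ (1 + |(s' (.inr i)).t - ((s2 i).t + τ)|) * _
    exact key _ _ _ (by linarith [abs_nonneg θ])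

lemma chF_ht {s1 : ι → Pc} {s2 : κ → Pc} {θ τ r : ℝ} {s' : ι ⊕ κ → Pc}
    (h : ChF r s' (fun i => ht τ (fam θ s1 s2 i))) : ChF r s' (Sum.elim s1 s2) := by
  intro i
  have h1 := h i
  rcases i with i | i
  · exact h1
  · exact h1

lemma LY_fam {s1 : ι → Pc} {s2 : κ → Pc} {θ τ : ℝ} :
    LY (fun i => ht τ (fam θ s1 s2 i)) = LY s1 + LY s2 := by
  unfold LY
  rw [Fintype.sum_sum_type]
  rfl

end Crest.Agent.R017.GrT828
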