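import Crest.Agent.R017.GrU4_404

/-!
# Row 17, R8/P1: the `T`-side of the mismatch with a gate, part 5 (helper404)

* `T_numW` : the sum over `e` at one `d` with arbitrary weights `ω e ≤ Ω b`
-/

set_option autoImplicit false

noncomputable section

open Finset MeasureTheory
open scoped ComplexConjugate

namespace Crest.Agent.R017.GrG404

open Crest.Agent.R012 Crest.Agent.R012.Eis
open Crest.Agent.R012.Div277 (tau dvs mem_dvs exists_prim_factor tau_le_rpow)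
open Crest.Agent.R012.LS2 (S mem_S bl mem_bl)
open Crest.Agent.R012.Weight600 (osc norm_osc pw norm_pw)
open Crest.Agent.R017.CM106 (CS TG FS)
open Crest.Agent.R017.HP842 (Pc pc al cv Tu mem_Tu sc' scS sqc Th card_Tu_le)
open Crest.Agent.R017.Rough381 (sh shS sh_OK VF nm_prodI)
open Crest.Agent.R017.Leg381 (Th_ne_zero shS_mul TG_sum FS_alW sum_Tu_mul)
open Crest.Agent.R017.FE47 (PU cx)
open Crest.Agent.R017.Prov71 (CubeFree)
open Crest.Agent.R017.StA828 Crest.Agent.R017.StC828 Crest.Agent.R017.StF828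
open Crest.Agent.R017.StB828 (one_le_nmR)
open Crest.Agent.R017.GrC828 Crest.Agent.R017.GrT828
open Crest.Agent.R017.PX764 (n6 Gh sqf_mul)
open Crest.Agent.R017.E2440 (TE)
open Crest.Agent.R017.E3D579 (TE0)
open Crest.Agent.R017.E1551 (Adm Wf jb jb_pos integrable_jb integrable_Wf)
open Crest.Agent.R017.DgA829 (lc lc_prim lc_dvd)

set_option maxHeartbeats 1000000 in
open Classical in
/-- **the sum over `e` at one `d`, gated weight, weights `ω e`** -/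
theorem T_numW {h : ℝ → ℝ} {c : ℝ} (hpu : PU h c) {R : ℝ} (hR0 : 0 ≤ R)
    (hR : ∀ u, cx h u ≠ 0 → |u| ≤ R) (N : ℕ) {B₀ : ℝ} (hB₀ : 0 ≤ B₀) {ε : ℝ} (hε : 0 < ε)
    {M : ℝ} (hM : 0 ≤ M) : ∃ C r : ℝ, 1 ≤ C ∧ 0 ≤ r ∧ ∀ X : ℝ, 3 ≤ X →
    ∀ (ι κ : Type) [Fintype ι] [Fintype κ] [DecidableEq ι] [DecidableEq κ],
    Fintype.card ι + Fintype.card κ ≤ N → ∀ (s1 : ι → Pc) (s2 : κ → Pc), (∀ i, (s1 i).OK) →
    (∀ j, (s2 j).OK) → (∀ i, Real.log (s1 i).Y ≤ Real.log X) →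
    (∀ j, Real.log (s2 j).Y ≤ Real.log X) → ∀ Z : ℝ, 0 ≤ Z →
    (∀ n, sqc 1 (al h s1) n ≠ 0 → (nm n : ℝ) ≤ Z) → ∀ (θ : ℝ) (W : Eis → Eis → Eis → ℂ),
    WOK θ W → ∀ g d t : Eis, IsPrim g → IsPrim d → IsPrim t → (nm g : ℝ) ≤ X ^ B₀ →
    (nm d : ℝ) ≤ X ^ B₀ → (nm t : ℝ) ≤ X ^ B₀ →
    ∀ y₀ : ℝ, (∀ e a, IsPrim e → IsPrim a → W e d a ≠ 0 → Real.log (nm (gp d a)) ≤ y₀) →
    ∀ Es Js : Finset Eis, (∀ e ∈ Es, IsPrim e ∧ (nm e : ℝ) ≤ X ^ B₀) → ∀ k : ℝ, 0 ≤ k →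
    k ≤ B₀ * Real.log X →
    (∀ j ∈ Js, CubeFree j ∧ (nm j : ℝ) * nm (cc g d) ≤ Real.exp k) →
    ∀ Bf : ℕ → ℝ, (∀ b, 0 ≤ Bf b) →
    (∀ (b : ℕ) (l : ℝ) (s' : ι ⊕ κ → Pc), (b : ℝ) ≤ 2 * B₀ * Real.log X → 0 ≤ l →
      ChF r s' (Sum.elim s1 s2) →
      |LY s' - (LY s1 + LY s2 - Real.log (nm g) - Real.log (nm d * nm (cc g d)) - b)| ≤ r →
      |l - (k + b)| ≤ r →
      LY s1 - Real.log (nm g) - y₀ - b - r ≤ LY (fun i => s' (.inl i)) →
      VF (Real.exp l) (sqc (d * cc g d) (al h s')) ≤ Bf b * cF s' (Sum.elim s1 s2) ^ M) →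
    ∀ (ω : Eis → ℝ) (Ω : ℕ → ℝ), (∀ b, 0 ≤ Ω b) →
    (∀ e ∈ Es, ∀ b : ℕ, |Real.log (nm (lc (lc (cc g d) e) t / cc g d)) - b| ≤ 1 → ω e ≤ Ω b) →
    ∑ e ∈ Es, ω e * ∑ j ∈ Js,
      ‖TE (afW W Z (sqc 1 (al h s1)) (sqc 1 (al h s2)) g e d) (1, j)
        (lc (lc (cc g d) e) t)‖ ^ 2 ≤
      C * X ^ ε * (1 + |θ|) ^ (N * M) *
        (Real.exp (LY s1 + LY s2) / (nm g * nm d)) ^ (-(1 / 3) : ℝ) *
        ∑ b ∈ range (⌊2 * B₀ * Real.log X⌋₊ + 1), Ω b * Bf b := by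
  obtain ⟨C₁, r, hC₁, hr, H⟩ := T_coreG hpu hR0 hR N (B₀ := 2 * B₀) (by positivity)
    (ε := ε / 2) (by linarith) hM
  set η := ε / (2 * (3 * B₀ + 1)) with hη
  have hη0 : 0 < η := by positivity
  obtain ⟨C₂, hC₂, hτ⟩ := tau_le_rpow hη0
  refine ⟨C₂ * C₁, r, one_le_mul_of_one_le_of_one_le hC₂ hC₁, hr, ?_⟩
  intro X hX ι κ _ _ _ _ hcard s1 s2 h1 h2 h1X h2X Z hZ hsup θ W hW g d t hg hd ht hgX hdX htX
    y₀ hy₀ Es Js hEs k hk hkX hJs Bf hBf hyp ω Ω hΩ hω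
  have hX1 : (1 : ℝ) ≤ X := by linarith
  have hX0 : (0 : ℝ) < X := by linarith
  have hlX : 0 ≤ Real.log X := Real.log_nonneg hX1
  have hcgp : IsPrim (cc g d) := cc_prim hg
  have hXB : X ^ B₀ ≤ X ^ (2 * B₀) := Real.rpow_le_rpow_of_exponent_le hX1 (by linarith)
  have hC20 : 0 ≤ C₂ := by linarith
  have hC10 : 0 ≤ C₁ := by linarith
  have hθ : 0 ≤ 1 + |θ| := by positivity
  set X' : ℝ := Real.exp (LY s1 + LY s2) / (nm g * nm d) with hX'
  have hX'0 : 0 ≤ X' := by positivity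
  set De : Eis → Eis := fun e => lc (lc (cc g d) e) t with hDe
  set Ue : Eis → Eis := fun e => De e / cc g d with hUe
  have hDep : ∀ e ∈ Es, IsPrim (De e) := fun e he =>
    lc_prim (lc_prim hcgp (hEs e he).1) ht
  have hDc : ∀ e ∈ Es, cc g d ∣ De e ∧ e ∣ De e := by
    intro e he
    have h3 := ((lc_dvd (lc_prim hcgp (hEs e he).1) ht (De e)).1 dvd_rfl).1
    exact (lc_dvd hcgp (hEs e he).1 (De e)).1 h3
  have hDU : ∀ e ∈ Es, De e = cc g d * Ue e := by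
    intro e he
    exact (EuclideanDomain.mul_div_cancel' hcgp.ne_zero (hDc e he).1).symm
  have hUp : ∀ e ∈ Es, IsPrim (Ue e) := by
    intro e he
    have h3 := hDep e he
    rw [hDU e he] at h3
    exact h3.of_mul_left hcgp
  have hUdvd : ∀ e ∈ Es, Ue e ∣ e * t := by
    intro e he
    have h3 : De e ∣ cc g d * (e * t) := by
      refine (lc_dvd (lc_prim hcgp (hEs e he).1) ht _).2 ⟨?_, ?_⟩
      · refine (lc_dvd hcgp (hEs e he).1 _).2 ⟨dvd_mul_right _ _, ?_⟩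
        exact (dvd_mul_right e t).trans (dvd_mul_left _ _)
      · exact (dvd_mul_left t e).trans (dvd_mul_left _ _)
    rw [hDU e he] at h3
    exact (mul_dvd_mul_iff_left hcgp.ne_zero).1 h3
  have hUnm : ∀ e ∈ Es, (nm (Ue e) : ℝ) ≤ nm e * nm t := by
    intro e he
    have h3 : nm (Ue e) ≤ nm (e * t) :=
      Div277.nm_le_of_dvd ((hEs e he).1.mul ht).ne_zero (hUdvd e he)
    rw [nm_mul] at h3
    exact_mod_cast h3
  have hnt : (1 : ℝ) ≤ nm t := one_le_nmR ht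
  have hntp : (0 : ℝ) < nm t := by linarith
  have hcX : (nm (cc g d) : ℝ) ≤ X ^ B₀ := by
    refine le_trans ?_ hgX
    exact_mod_cast Div277.nm_le_of_dvd hg.ne_zero (cc_dvd hg)
  -- the blocks
  set q : Eis → Eis → ℝ := fun e U =>
    ∑ j ∈ Js, ‖TE (afW W Z (sqc 1 (al h s1)) (sqc 1 (al h s2)) g e d) (1, j) (cc g d * U)‖ ^ 2
    with hq
  have hq0 : ∀ e U, 0 ≤ q e U := fun e U => Finset.sum_nonneg fun _ _ => by positivity
  set Im := Es.image Ue with hIm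
  have hes : ∀ U : Eis, ∃ e : Eis, U ∈ Im → e ∈ Es ∧ Ue e = U ∧
      ∀ e' ∈ Es, Ue e' = U → q e' U ≤ q e U := by
    intro U
    by_cases hU : U ∈ Im
    · obtain ⟨e0, he0, rfl⟩ := Finset.mem_image.1 hU
      obtain ⟨e, he, hmax⟩ := Finset.exists_max_image (Es.filter fun e => Ue e = Ue e0)
        (fun e => q e (Ue e0)) ⟨e0, Finset.mem_filter.2 ⟨he0, rfl⟩⟩
      obtain ⟨he1, he2⟩ := Finset.mem_filter.1 he
      exact ⟨e, fun _ => ⟨he1, he2, fun e' he' h' => hmax e' (Finset.mem_filter.2 ⟨he', h'⟩)⟩⟩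
    · exact ⟨0, fun h => absurd h hU⟩
  choose es hes using hes
  have hcount : ∀ U ∈ Im, ((Es.filter fun e => Ue e = U).card : ℝ) ≤ C₂ * X ^ (ε / 2) := by
    intro U hU
    obtain ⟨e0, he0, rfl⟩ := Finset.mem_image.1 hU
    have hDp := hDep e0 he0
    have h3 : (Es.filter fun e => Ue e = Ue e0) ⊆ dvs (De e0) := by
      intro e he
      obtain ⟨he1, he2⟩ := Finset.mem_filter.1 he
      rw [mem_dvs hDp.ne_zero]
      refine ⟨(hEs e he1).1, ?_⟩
      have h4 := (hDc e he1).2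
      rwa [hDU e he1, he2, ← hDU e0 he0] at h4
    have h4 : ((Es.filter fun e => Ue e = Ue e0).card : ℝ) ≤ tau (De e0) := by
      exact_mod_cast card_le_card h3
    refine h4.trans ((hτ _ hDp.ne_zero).trans (mul_le_mul_of_nonneg_left ?_ hC20))
    have h5 : (nm (De e0) : ℝ) ≤ X ^ (3 * B₀) := by
      have h6 : (nm (De e0) : ℝ) = nm (cc g d) * nm (Ue e0) := by
        rw [hDU e0 he0, nm_mul]; push_cast; rfl
      have h7 : X ^ (3 * B₀) = X ^ B₀ * (X ^ B₀ * X ^ B₀) := by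
        rw [← Real.rpow_add hX0, ← Real.rpow_add hX0]; congr 1; ring
      rw [h6, h7]
      refine mul_le_mul hcX ((hUnm e0 he0).trans ?_) (Nat.cast_nonneg _) (by positivity)
      exact mul_le_mul (hEs e0 he0).2 htX (Nat.cast_nonneg _) (by positivity)
    calc (nm (De e0) : ℝ) ^ η ≤ (X ^ (3 * B₀)) ^ η :=
          Real.rpow_le_rpow (Nat.cast_nonneg _) h5 hη0.le
      _ = X ^ (3 * B₀ * η) := by rw [← Real.rpow_mul hX0.le]
      _ ≤ X ^ (ε / 2) := by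
          refine Real.rpow_le_rpow_of_exponent_le hX1 ?_
          have h6 : η * (2 * (3 * B₀ + 1)) = ε := by rw [hη]; field_simp
          nlinarith
  set nb : Eis → ℕ := fun U => ⌊Real.log (nm U)⌋₊ with hnb
  -- the fibres
  have hfib : ∑ e ∈ Es, ω e * q e (Ue e) ≤
      ∑ U ∈ Im, (C₂ * X ^ (ε / 2)) * (Ω (nb U) * q (es U) U) := by
    rw [← Finset.sum_fiberwise_of_maps_to (s := Es) (t := Im) (g := Ue)
      (fun e he => Finset.mem_image_of_mem _ he)]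
    refine Finset.sum_le_sum fun U hU => ?_
    obtain ⟨he1, he2, he3⟩ := hes U hU
    have hUpp : IsPrim U := he2 ▸ hUp _ he1
    have hterm : ∀ e ∈ Es.filter (fun e => Ue e = U), ω e * q e (Ue e) ≤
        Ω (nb U) * q (es U) U := by
      intro e he
      obtain ⟨k1, k2⟩ := Finset.mem_filter.1 he
      have k3 : ω e ≤ Ω (nb U) := by
        refine hω e k1 (nb U) ?_
        have hl0 : 0 ≤ Real.log (nm U) := Real.log_nonneg (one_le_nmR hUpp)
        have k4 := Nat.floor_le hl0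
        have k5 := (Nat.lt_floor_add_one (Real.log (nm U))).le
        have k6 : lc (lc (cc g d) e) t / cc g d = U := k2
        rw [k6, abs_le]
        constructor
        · show -1 ≤ Real.log (nm U) - ((⌊Real.log (nm U)⌋₊ : ℕ) : ℝ)
          linarith
        · show Real.log (nm U) - ((⌊Real.log (nm U)⌋₊ : ℕ) : ℝ) ≤ 1
          linarith
      rw [k2]
      exact (mul_le_mul_of_nonneg_right k3 (hq0 _ _)).trans
        (mul_le_mul_of_nonneg_left (he3 e k1 k2) (hΩ _))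
    refine (Finset.sum_le_sum hterm).trans ?_
    rw [Finset.sum_const, nsmul_eq_mul]
    exact mul_le_mul_of_nonneg_right (hcount U hU) (mul_nonneg (hΩ _) (hq0 _ _))
  -- the blocks of `U`
  set Bn := ⌊2 * B₀ * Real.log X⌋₊ + 1 with hBn
  have hImB : ∀ U ∈ Im, nb U ∈ range Bn ∧ IsPrim U ∧ (nb U : ℝ) ≤ Real.log (nm U) ∧
      Real.log (nm U) ≤ nb U + 1 ∧ (nb U : ℝ) ≤ 2 * B₀ * Real.log X := by
    intro U hU
    obtain ⟨e0, he0, rfl⟩ := Finset.mem_image.1 hU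
    have hUpp := hUp e0 he0
    have hU1 : (1 : ℝ) ≤ nm (Ue e0) := one_le_nmR hUpp
    have hl0 : 0 ≤ Real.log (nm (Ue e0)) := Real.log_nonneg hU1
    have h3 : Real.log (nm (Ue e0)) ≤ 2 * B₀ * Real.log X := by
      have h4 : (nm (Ue e0) : ℝ) ≤ X ^ (2 * B₀) := by
        have h7 : X ^ (2 * B₀) = X ^ B₀ * X ^ B₀ := by
          rw [← Real.rpow_add hX0]; congr 1; ring
        rw [h7]
        exact (hUnm e0 he0).trans
          (mul_le_mul (hEs e0 he0).2 htX (Nat.cast_nonneg _) (by positivity))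
      have h5 := Real.log_le_log (by linarith) h4
      rwa [Real.log_rpow hX0] at h5
    have h4 := Nat.floor_le hl0
    refine ⟨?_, hUpp, h4, (Nat.lt_floor_add_one _).le, h4.trans h3⟩
    rw [Finset.mem_range, hBn]
    exact Nat.lt_succ_of_le (Nat.floor_le_floor h3)
  have hblk : ∀ b ∈ range Bn, ∑ U ∈ Im.filter (fun U => nb U = b),
      Ω (nb U) * q (es U) U ≤
      Ω b * (C₁ * X ^ (ε / 2) * (1 + |θ|) ^ (N * M) *
        X' ^ (-(1 / 3) : ℝ) * Bf b) := by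
    intro b hb
    have hbX : (b : ℝ) ≤ 2 * B₀ * Real.log X := by
      have h3 := Finset.mem_range.1 hb
      rw [hBn] at h3
      have h4 : b ≤ ⌊2 * B₀ * Real.log X⌋₊ := Nat.le_of_lt_succ h3
      exact (Nat.cast_le.2 h4).trans (Nat.floor_le (by positivity))
    have h3 := H X hX ι κ hcard s1 s2 h1 h2 h1X h2X Z hZ hsup θ W hW g d hg hd (hgX.trans hXB)
      (hdX.trans hXB) y₀ hy₀ b k (Nat.cast_nonneg b) hbX hk
      (hkX.trans (by nlinarith [mul_nonneg hB₀ hlX]))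
      (Im.filter (fun U => nb U = b)) Js (fun U hU => by
        obtain ⟨k1, k2⟩ := Finset.mem_filter.1 hU
        obtain ⟨-, k3, k4, k5, -⟩ := hImB U k1
        rw [k2] at k4 k5
        refine ⟨k3, ?_⟩
        rw [abs_le]
        constructor <;> linarith) hJs es (fun U hU => by
        obtain ⟨k1, k2⟩ := Finset.mem_filter.1 hU
        obtain ⟨he1, he2, -⟩ := hes U k1
        refine ⟨(hEs _ he1).1, ?_⟩
        have h4 := (hDc _ he1).2
        rwa [hDU _ he1, he2] at h4) (Bf b) (hBf b)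
      (fun l s' hl hch hLY hlk hamp => hyp b l s' hbX hl hch hLY hlk hamp)
    have h4 : ∑ U ∈ Im.filter (fun U => nb U = b), Ω (nb U) * q (es U) U =
        Ω b * ∑ U ∈ Im.filter (fun U => nb U = b), q (es U) U := by
      rw [Finset.mul_sum]
      refine Finset.sum_congr rfl fun U hU => ?_
      rw [(Finset.mem_filter.1 hU).2]
    rw [h4]
    exact mul_le_mul_of_nonneg_left h3 (hΩ b)
  have hsplit : ∑ U ∈ Im, Ω (nb U) * q (es U) U =
      ∑ b ∈ range Bn, ∑ U ∈ Im.filter (fun U => nb U = b), Ω (nb U) * q (es U) U :=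
    (Finset.sum_fiberwise_of_maps_to (fun U hU => (hImB U hU).1) _).symm
  have hLHS : ∑ e ∈ Es, ω e * ∑ j ∈ Js,
      ‖TE (afW W Z (sqc 1 (al h s1)) (sqc 1 (al h s2)) g e d) (1, j)
        (lc (lc (cc g d) e) t)‖ ^ 2 = ∑ e ∈ Es, ω e * q e (Ue e) := by
    refine Finset.sum_congr rfl fun e he => ?_
    rw [hq]
    simp only
    rw [← hDU e he]
  rw [hLHS]
  refine hfib.trans ?_
  calc ∑ U ∈ Im, (C₂ * X ^ (ε / 2)) * (Ω (nb U) * q (es U) U) =
        (C₂ * X ^ (ε / 2)) * ∑ U ∈ Im, Ω (nb U) * q (es U) U := by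
        rw [Finset.mul_sum]
    _ ≤ (C₂ * X ^ (ε / 2)) * ∑ b ∈ range Bn,
          Ω b * (C₁ * X ^ (ε / 2) * (1 + |θ|) ^ (N * M) *
            X' ^ (-(1 / 3) : ℝ) * Bf b) := by
        rw [hsplit]
        exact mul_le_mul_of_nonneg_left (Finset.sum_le_sum hblk) (by positivity)
    _ = C₂ * C₁ * X ^ ε * (1 + |θ|) ^ (N * M) * X' ^ (-(1 / 3) : ℝ) *
          ∑ b ∈ range Bn, Ω b * Bf b := by
        have e1 : X ^ ε = X ^ (ε / 2) * X ^ (ε / 2) := by
          rw [← Real.rpow_add hX0]; congr 1; ring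
        have e2 : ∑ b ∈ range Bn, Ω b * (C₁ * X ^ (ε / 2) *
            (1 + |θ|) ^ (N * M) * X' ^ (-(1 / 3) : ℝ) * Bf b) =
            (C₁ * X ^ (ε / 2) * (1 + |θ|) ^ (N * M) * X' ^ (-(1 / 3) : ℝ)) *
            ∑ b ∈ range Bn, Ω b * Bf b := by
          rw [Finset.mul_sum]
          exact Finset.sum_congr rfl fun b _ => by ring
        rw [e1, e2]
        ring

end Crest.Agent.R017.GrG404
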