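import Crest.Agent.R017.GrV_404

/-!
# Row 17, R8/P1: the `T`-numbers of the mismatch at one `d`, sharper gate (helper404)

* `TPdPm`, `TPdm`, `TPdm_cf` : `TPdP`, `TPd`, `TPd_cf`, claims only for the children with amplifier
  part `≥ LY s1 - log N g - min (y5 Z g c) (log N (hh d)) - b - r`
-/

set_option autoImplicit false

noncomputable section

open Finset MeasureTheory
open scoped ComplexConjugate

namespace Crest.Agent.R017.GrG404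

open Crest.Agent.R012 Crest.Agent.R012.Eis
open Crest.Agent.R012.Div277 (tau dvs mem_dvs tau_le_rpow)
open Crest.Agent.R012.LS2 (S mem_S bl mem_bl)
open Crest.Agent.R012.Weight600 (osc norm_osc pw norm_pw)
open Crest.Agent.R012.Mob705 (mu)
open Crest.Agent.R017.CM106 (CS TG FS)
open Crest.Agent.R017.HP842 (Pc pc al cv Tu mem_Tu sc' scS sqc Th card_Tu_le)
open Crest.Agent.R017.Rough381 (sh shS sh_OK VF nm_prodI)
open Crest.Agent.R017.FE47 (PU cx)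
open Crest.Agent.R017.StA828 Crest.Agent.R017.StC828 Crest.Agent.R017.StF828
open Crest.Agent.R017.StB828 (one_le_nmR)
open Crest.Agent.R017.GrC828 Crest.Agent.R017.GrT828 Crest.Agent.R017.StG828
open Crest.Agent.R017.StJ319
open Crest.Agent.R017.E2440 (TE)
open Crest.Agent.R017.E3D579 (TE0)
open Crest.Agent.R017.E3T829 (cg)
open Crest.Agent.R017.E1551 (Adm CF exists_cf BF mem_BF)
open Crest.Agent.R017.DgA829 (lc lc_prim lc_dvd lc_unique)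

lemma log_gp_le {D a : Eis} (hD : IsPrim D) (ha : IsPrim a) :
    Real.log (nm (gp D a)) ≤ Real.log (nm D) := by
  have h1 := one_le_nmR (gp_spec D ha).1
  refine Real.log_le_log (by linarith) ?_
  exact_mod_cast Div277.nm_le_of_dvd hD.ne_zero ⟨_, (gp_spec D ha).2.2.1⟩

set_option maxHeartbeats 1000000 in
open Classical in
/-- **the number of one line at one `d`**, cube parts in `P` -/
theorem TPdPm {h : ℝ → ℝ} {c₀ : ℝ} (hpu : PU h c₀) {R : ℝ} (hR0 : 0 ≤ R)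
    (hR : ∀ u, cx h u ≠ 0 → |u| ≤ R) (N : ℕ) {B₀ : ℝ} (hB₀ : 0 ≤ B₀) {ε : ℝ} (hε : 0 < ε)
    {M : ℝ} (hM : 0 ≤ M) : ∃ C r : ℝ, 1 ≤ C ∧ 0 ≤ r ∧ ∀ X : ℝ, 3 ≤ X →
    ∀ (ι κ : Type) [Fintype ι] [Fintype κ] [DecidableEq ι] [DecidableEq κ],
    Fintype.card ι + Fintype.card κ ≤ N → ∀ (s1 : ι → Pc) (s2 : κ → Pc), (∀ i, (s1 i).OK) →
    (∀ j, (s2 j).OK) → (∀ i, Real.log (s1 i).Y ≤ Real.log X) →
    (∀ j, Real.log (s2 j).Y ≤ Real.log X) → ∀ Z : ℝ, 0 ≤ Z →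
    (∀ n, sqc 1 (al h s1) n ≠ 0 → (nm n : ℝ) ≤ Z) →
    ∀ (E0 : ℝ) (c : Fin 5) (s : ℝ) (g hh d γ : Eis), IsPrim g → IsPrim hh → IsPrim d →
    IsPrim γ → (nm g : ℝ) ≤ X ^ B₀ → (nm (hh * d) : ℝ) ≤ X ^ B₀ → (nm γ : ℝ) ≤ X ^ B₀ →
    ∀ Es Js : Finset Eis, (∀ e ∈ Es, IsPrim e ∧ (nm e : ℝ) ≤ X ^ B₀) →
    ∀ W : ℝ, W ≤ X ^ B₀ → (∀ j ∈ Js, j ≠ 0 ∧ (nm j : ℝ) ≤ W) →
    ∀ P : ℝ → Prop, (∀ j ∈ Js, ∀ κ' c' : Eis, j = κ' * c' ^ 3 → P (Real.log (nm c'))) →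
    ∀ (ω : Eis → ℝ) (Ω : ℕ → ℝ), (∀ e ∈ Es, 0 ≤ ω e) → (∀ b, 0 ≤ Ω b) →
    (∀ e ∈ Es, ∀ b : ℕ,
      Real.log (nm (lc (cc g (hh * d)) e / cc g (hh * d))) ≤ b + 1 → ω e ≤ Ω b) →
    ∀ (Bf : ℕ → ℝ → ℝ) (G : ℝ), (∀ b k, 0 ≤ Bf b k) → 0 ≤ G →
    (∀ (b : ℕ) (k l : ℝ) (s' : ι ⊕ κ → Pc), (b : ℝ) ≤ 4 * B₀ * Real.log X → 0 ≤ k →
      k ≤ Real.log W + Real.log (nm (cc g (hh * d))) → 0 ≤ l → ChF r s' (Sum.elim s1 s2) →
      |LY s' - (LY s1 + LY s2 - Real.log (nm g) -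
        Real.log (nm (hh * d) * nm (cc g (hh * d))) - b)| ≤ r →
      |l - (k + b)| ≤ r →
      LY s1 - Real.log (nm g) - min (y5 Z g c) (Real.log (nm (hh * d))) - b - r ≤ LY (fun i => s' (.inl i)) →
      VF (Real.exp l) (sqc (hh * d * cc g (hh * d)) (al h s')) ≤
        Bf b k * cF s' (Sum.elim s1 s2) ^ M) →
    (∀ (b : ℕ) (n : ℝ), 0 ≤ n → 3 * n ≤ Real.log W → P n →
      Ω b * Bf b (Real.log W + Real.log (nm (cc g (hh * d))) - 3 * n) ≤ G * Real.exp (-n)) →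
    ∀ dl : Eis, ∑ e ∈ Es, ω e * ∑ j ∈ Js, ‖TE0 (cg γ (afrb (gt5 E0 Z g c) (q5 g c) Z
        (sqc 1 (al h s1)) (sqc 1 (al h s2)) g hh s e d)) dl j e‖ ^ 2 ≤
      C * X ^ ε * (1 + |s|) ^ (N * M) *
        (Real.exp (LY s1 + LY s2) / (nm g * nm (hh * d))) ^ (-(1 / 3) : ℝ) * G := by
  obtain ⟨C₁, r, hC₁, hr, H⟩ := T_numW hpu hR0 hR N (B₀ := 2 * B₀) (by positivity)
    (ε := ε / 4) (by linarith) hM
  set η := ε / (16 * (B₀ + 1)) with hη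
  have hη0 : 0 < η := by positivity
  obtain ⟨C₂, hC₂, hτ⟩ := tau_le_rpow hη0
  obtain ⟨C₃, hC₃, hlog⟩ := Rough381.log_pow_le (ε := ε / 4) (by linarith) 1
    (c₀ := 1) zero_le_one
  obtain ⟨C₄, hC₄, hsum⟩ := Eul571.sum_nm_rpow_le (s := 1 + η) (by linarith)
  refine ⟨1 + C₂ ^ 4 * C₁ * ((4 * B₀ + 1) * C₃) * C₄, r, ?_, hr, ?_⟩
  · have : 0 ≤ C₂ ^ 4 * C₁ * ((4 * B₀ + 1) * C₃) * C₄ := by
      have h1 : 0 ≤ C₁ := by linarith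
      have h3 : 0 ≤ C₃ := by linarith
      positivity
    linarith
  intro X hX ι κ _ _ _ _ hcard s1 s2 h1 h2 h1X h2X Z hZ hsup E0 c s g hh d γ hg hhp hd hγ hgX hdX
    hγX Es Js hEs W hWX hJs P hP ω Ω hω0 hΩ hωΩ Bf G hBf hG hyp hline dl
  have hX1 : (1 : ℝ) ≤ X := by linarith
  have hX0 : (0 : ℝ) < X := by linarith
  have hlX : 0 ≤ Real.log X := Real.log_nonneg hX1
  set D := hh * d with hD
  have hDp : IsPrim D := hhp.mul hd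
  set c₁ := cc g D with hc₁
  have hc₁p : IsPrim c₁ := cc_prim hg
  set X' : ℝ := (Real.exp (LY s1 + LY s2) / (nm g * nm D)) ^ (-(1 / 3) : ℝ) with hX'
  have hX'0 : 0 ≤ X' := by positivity
  have hs1 : 0 ≤ 1 + |s| := by positivity
  have hC10 : 0 ≤ C₁ := by linarith
  have hC30 : 0 ≤ C₃ := by linarith
  have hC20 : 0 ≤ C₂ := by linarith
  rcases Js.eq_empty_or_nonempty with hJe | ⟨j₀, hj₀⟩
  · rw [hJe]
    simp only [Finset.sum_empty, mul_zero, Finset.sum_const_zero]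
    have : 0 ≤ 1 + C₂ ^ 4 * C₁ * ((4 * B₀ + 1) * C₃) * C₄ := by positivity
    positivity
  have hW1 : 1 ≤ W := by
    have h3 : (1 : ℝ) ≤ nm j₀ := by exact_mod_cast nm_pos.mpr (hJs j₀ hj₀).1
    exact h3.trans (hJs j₀ hj₀).2
  have hW0 : 0 < W := by linarith
  have hlW : 0 ≤ Real.log W := Real.log_nonneg hW1
  have hlWX : Real.log W ≤ B₀ * Real.log X := by
    have h3 := Real.log_le_log hW0 hWX
    rwa [Real.log_rpow hX0] at h3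
  have hc₁1 : (1 : ℝ) ≤ nm c₁ := one_le_nmR hc₁p
  have hc₁X : (nm c₁ : ℝ) ≤ X ^ B₀ := by
    refine le_trans ?_ hgX
    exact_mod_cast Div277.nm_le_of_dvd hg.ne_zero (cc_dvd hg)
  have hlc₁ : 0 ≤ Real.log (nm c₁) := Real.log_nonneg hc₁1
  have hlc₁X : Real.log (nm c₁) ≤ B₀ * Real.log X := by
    have h3 := Real.log_le_log (by linarith) hc₁X
    rwa [Real.log_rpow hX0] at h3
  have hXB : X ^ B₀ ≤ X ^ (2 * B₀) := Real.rpow_le_rpow_of_exponent_le hX1 (by linarith)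
  have hXB2 : X ^ B₀ * X ^ B₀ = X ^ (2 * B₀) := by
    rw [← Real.rpow_add hX0]; congr 1; ring
  obtain ⟨θ, hθs, hWok⟩ := wok5 E0 Z g c s
  set Wt := Wb (gt5 E0 Z g c) (q5 g c) s with hWt
  set Cs := (bl W).filter (fun c => (nm c : ℝ) ^ 3 ≤ W ∧ P (Real.log (nm c))) with hCs
  have hCs' : ∀ c' ∈ Cs, c' ≠ 0 ∧ (nm c' : ℝ) ≤ W ∧ (nm c' : ℝ) ^ 3 ≤ W ∧ (1 : ℝ) ≤ nm c' := by
    intro c' hc'
    obtain ⟨k1, k2, -⟩ := Finset.mem_filter.1 hc'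
    obtain ⟨k3, k4⟩ := (mem_bl hW0.le).1 k1
    exact ⟨k3, k4, k2, by exact_mod_cast nm_pos.mpr k3⟩
  -- the inner numbers
  set Q : Eis → Eis → Eis → ℝ := fun e κ' u =>
    ‖TE (Ae Z E0 (sqc 1 (al h s1)) (sqc 1 (al h s2)) g c s e D) (1, κ')
      (lc (lc c₁ e) u)‖ ^ 2 with hQ
  have hQ0 : ∀ e κ' u, 0 ≤ Q e κ' u := fun e κ' u => by positivity
  set Gf : Eis → Eis → Eis → ℝ := fun e c' κ' => ((tau c' : ℝ) * tau γ) *
    ∑ t ∈ dvs c', ∑ t' ∈ dvs γ, Q e κ' (lc t t') with hGf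
  have hGf0 : ∀ e c' κ', 0 ≤ Gf e c' κ' := fun e c' κ' =>
    mul_nonneg (by positivity) (Finset.sum_nonneg fun t _ => Finset.sum_nonneg fun t' _ =>
      hQ0 _ _ _)
  have hone : ∀ e ∈ Es, ∑ j ∈ Js, ‖TE0 (cg γ (afrb (gt5 E0 Z g c) (q5 g c) Z
        (sqc 1 (al h s1)) (sqc 1 (al h s2)) g hh s e d)) dl j e‖ ^ 2 ≤
      ∑ c' ∈ Cs, ∑ κ' ∈ BF (W / (nm c' : ℝ) ^ 3), Gf e c' κ' := by
    intro e he
    obtain ⟨Y, hY, hadm⟩ := afW_adm hR0 hR h1 h2 hcard Wt hZ hg hDp e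
    refine sum_cubes hW0.le hJs hP (F := fun j => ‖TE0 (cg γ (afrb (gt5 E0 Z g c) (q5 g c) Z
        (sqc 1 (al h s1)) (sqc 1 (al h s2)) g hh s e d)) dl j e‖ ^ 2) (fun c' κ' => hGf0 e c' κ')
      (fun κ' c' _ hc' => ?_)
    refine (pow_le_pow_left₀ (norm_nonneg _) (norm_TE0_afrb_le E0 Z _ _ g hh c s e d γ dl
      (κ' * c' ^ 3) e) 2).trans ?_
    exact norm_TE0_two (b := Ae Z E0 (sqc 1 (al h s1)) (sqc 1 (al h s2)) g c s e D) hY hadm.sup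
      hc₁p (fun m hm => afW_c hZ hg hm) hγ hc' (hEs e he).1 dl κ'
  -- one cube part, one pair of divisors
  set Nb : ℝ := ((⌊2 * (2 * B₀) * Real.log X⌋₊ + 1 : ℕ) : ℝ) with hNb
  set K₀ : ℝ := C₁ * X ^ (ε / 4) * (1 + |s|) ^ (N * M) * X' with hK₀
  have hK₀0 : 0 ≤ K₀ := by positivity
  have hcell : ∀ c' ∈ Cs, ∀ t ∈ dvs c', ∀ t' ∈ dvs γ,
      ∑ e ∈ Es, ω e * ∑ κ' ∈ BF (W / (nm c' : ℝ) ^ 3), Q e κ' (lc t t') ≤
        K₀ * (Nb * (G * (nm c' : ℝ)⁻¹)) := by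
    intro c' hc' t ht t' ht'
    obtain ⟨k1, k2, k3, k4⟩ := hCs' c' hc'
    obtain ⟨t1, t2⟩ := one_le_nm_dvs k1 ht
    obtain ⟨t3, t4⟩ := one_le_nm_dvs hγ.ne_zero ht'
    have hu : IsPrim (lc t t') := lc_prim t1 t3
    have huX : (nm (lc t t') : ℝ) ≤ X ^ (2 * B₀) := by
      refine (nm_lc_le' t1 t3).trans ?_
      rw [← hXB2]
      exact mul_le_mul (t2.trans (k2.trans hWX)) (t4.trans hγX) (Nat.cast_nonneg _)
        (by positivity)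
    have hc'0 : (0 : ℝ) < nm c' := by linarith
    have hlc' : 0 ≤ Real.log (nm c') := Real.log_nonneg k4
    have h3lc : 3 * Real.log (nm c') ≤ Real.log W := by
      have h3 := Real.log_le_log (by positivity) k3
      rw [Real.log_pow] at h3
      push_cast at h3
      exact h3
    set k : ℝ := Real.log W + Real.log (nm c₁) - 3 * Real.log (nm c') with hk
    have hk0 : 0 ≤ k := by rw [hk]; linarith
    have hkX : k ≤ 2 * B₀ * Real.log X := by rw [hk]; nlinarith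
    have hkexp : Real.exp k = W / (nm c' : ℝ) ^ 3 * nm c₁ := by
      rw [hk, Real.exp_sub, Real.exp_add, Real.exp_log hW0, Real.exp_log (by linarith),
        show 3 * Real.log (nm c' : ℝ) = Real.log ((nm c' : ℝ) ^ 3) by
          rw [Real.log_pow]; push_cast; ring, Real.exp_log (by positivity)]
      ring
    have h3 := H X hX ι κ hcard s1 s2 h1 h2 h1X h2X Z hZ hsup θ Wt hWok g D (lc t t') hg hDp hu
      (hgX.trans hXB) (hdX.trans hXB) huX (min (y5 Z g c) (Real.log (nm D)))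
      (fun e a _ ha hne => le_min (y5_le hg c ha hne) (log_gp_le hDp ha))
      Es (BF (W / (nm c' : ℝ) ^ 3)) (fun e he => ⟨(hEs e he).1, (hEs e he).2.trans hXB⟩) k hk0
      hkX (fun j hj => by
        obtain ⟨j1, j2⟩ := mem_BF.1 hj
        refine ⟨j1, ?_⟩
        rw [hkexp]
        exact mul_le_mul_of_nonneg_right j2 (Nat.cast_nonneg _))
      (fun b => Bf b k) (fun b => hBf b k)
      (fun b l s' hb hl hch hLY hlk hamp => hyp b k l s' (by linarith) hk0 (by rw [hk]; linarith)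
        hl hch hLY hlk hamp) ω Ω hΩ (fun e he b hb => by
        refine hωΩ e he b ?_
        have h4 := log_U_mono hc₁p (hEs e he).1 hu
        linarith [(abs_le.1 hb).2])
    refine h3.trans ?_
    have h4 : ∑ b ∈ range (⌊2 * (2 * B₀) * Real.log X⌋₊ + 1), Ω b * Bf b k ≤
        Nb * (G * (nm c' : ℝ)⁻¹) := by
      have h5 : ∀ b ∈ range (⌊2 * (2 * B₀) * Real.log X⌋₊ + 1), Ω b * Bf b k ≤
          G * (nm c' : ℝ)⁻¹ := by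
        intro b _
        have h6 := hline b (Real.log (nm c')) hlc' h3lc (Finset.mem_filter.1 hc').2.2
        rwa [Real.exp_neg, Real.exp_log hc'0] at h6
      refine (Finset.sum_le_sum h5).trans (le_of_eq ?_)
      rw [Finset.sum_const, Finset.card_range, nsmul_eq_mul]
    have h5 : (1 + |θ|) ^ ((N : ℝ) * M) ≤ (1 + |s|) ^ ((N : ℝ) * M) :=
      Real.rpow_le_rpow (by positivity) (by linarith) (by positivity)
    have h6 : 0 ≤ Nb * (G * (nm c' : ℝ)⁻¹) := by positivity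
    calc C₁ * X ^ (ε / 4) * (1 + |θ|) ^ ((N : ℝ) * M) * X' *
          ∑ b ∈ range (⌊2 * (2 * B₀) * Real.log X⌋₊ + 1), Ω b * Bf b k ≤
          C₁ * X ^ (ε / 4) * (1 + |θ|) ^ ((N : ℝ) * M) * X' * (Nb * (G * (nm c' : ℝ)⁻¹)) :=
          mul_le_mul_of_nonneg_left h4 (by positivity)
      _ ≤ C₁ * X ^ (ε / 4) * (1 + |s|) ^ ((N : ℝ) * M) * X' * (Nb * (G * (nm c' : ℝ)⁻¹)) := by
          refine mul_le_mul_of_nonneg_right ?_ h6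
          exact mul_le_mul_of_nonneg_right (mul_le_mul_of_nonneg_left h5 (by positivity)) hX'0
      _ = _ := by rw [hK₀]
  -- the divisor bounds
  have hτX : ∀ z : Eis, z ≠ 0 → (nm z : ℝ) ≤ X ^ B₀ → (tau z : ℝ) ≤ C₂ * X ^ (ε / 16) := by
    intro z hz hzX
    refine (hτ z hz).trans (mul_le_mul_of_nonneg_left ?_ hC20)
    calc (nm z : ℝ) ^ η ≤ (X ^ B₀) ^ η := Real.rpow_le_rpow (Nat.cast_nonneg _) hzX hη0.le
      _ = X ^ (B₀ * η) := by rw [← Real.rpow_mul hX0.le]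
      _ ≤ X ^ (ε / 16) := by
          refine Real.rpow_le_rpow_of_exponent_le hX1 ?_
          have h6 : η * (16 * (B₀ + 1)) = ε := by rw [hη]; field_simp
          nlinarith
  set T : ℝ := C₂ * X ^ (ε / 16) with hT
  have hT0 : 0 ≤ T := by positivity
  have hT4 : T ^ 4 = C₂ ^ 4 * X ^ (ε / 4) := by
    rw [hT, mul_pow, ← Real.rpow_natCast (X ^ (ε / 16)), ← Real.rpow_mul hX0.le]
    congr 2
    push_cast
    ring
  have hcube : ∀ c' ∈ Cs, ∑ e ∈ Es, ω e * ∑ κ' ∈ BF (W / (nm c' : ℝ) ^ 3), Gf e c' κ' ≤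
      T ^ 4 * (K₀ * (Nb * (G * (nm c' : ℝ)⁻¹))) := by
    intro c' hc'
    obtain ⟨k1, k2, k3, k4⟩ := hCs' c' hc'
    have e1 : ∑ e ∈ Es, ω e * ∑ κ' ∈ BF (W / (nm c' : ℝ) ^ 3), Gf e c' κ' =
        ((tau c' : ℝ) * tau γ) * ∑ t ∈ dvs c', ∑ t' ∈ dvs γ, ∑ e ∈ Es, ω e *
          ∑ κ' ∈ BF (W / (nm c' : ℝ) ^ 3), Q e κ' (lc t t') := by
      have e2 : ∀ e ∈ Es, ω e * ∑ κ' ∈ BF (W / (nm c' : ℝ) ^ 3), Gf e c' κ' =
          ((tau c' : ℝ) * tau γ) * ∑ t ∈ dvs c', ∑ t' ∈ dvs γ, ω e *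
            ∑ κ' ∈ BF (W / (nm c' : ℝ) ^ 3), Q e κ' (lc t t') := by
        intro e _
        rw [hGf]
        simp only
        rw [← Finset.mul_sum, mul_left_comm]
        congr 1
        rw [Finset.sum_comm, Finset.mul_sum]
        refine Finset.sum_congr rfl fun t _ => ?_
        rw [Finset.sum_comm, Finset.mul_sum]
      rw [Finset.sum_congr rfl e2, ← Finset.mul_sum]
      congr 1
      rw [Finset.sum_comm]
      refine Finset.sum_congr rfl fun t _ => ?_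
      rw [Finset.sum_comm]
    rw [e1]
    have hB : 0 ≤ K₀ * (Nb * (G * (nm c' : ℝ)⁻¹)) := by positivity
    have h3 : ∑ t ∈ dvs c', ∑ t' ∈ dvs γ, ∑ e ∈ Es, ω e *
          ∑ κ' ∈ BF (W / (nm c' : ℝ) ^ 3), Q e κ' (lc t t') ≤
        (tau c' : ℝ) * (tau γ * (K₀ * (Nb * (G * (nm c' : ℝ)⁻¹)))) := by
      refine (Finset.sum_le_sum fun t ht => Finset.sum_le_sum fun t' ht' =>
        hcell c' hc' t ht t' ht').trans (le_of_eq ?_)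
      rw [Finset.sum_const, Finset.sum_const, nsmul_eq_mul, nsmul_eq_mul]
      rfl
    have h4 := hτX c' k1 (k2.trans hWX)
    have h5 := hτX γ hγ.ne_zero hγX
    have h6 : (0 : ℝ) ≤ tau c' := Nat.cast_nonneg _
    have h7 : (0 : ℝ) ≤ tau γ := Nat.cast_nonneg _
    calc ((tau c' : ℝ) * tau γ) * ∑ t ∈ dvs c', ∑ t' ∈ dvs γ, ∑ e ∈ Es, ω e *
          ∑ κ' ∈ BF (W / (nm c' : ℝ) ^ 3), Q e κ' (lc t t') ≤
          ((tau c' : ℝ) * tau γ) * ((tau c' : ℝ) * (tau γ *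
            (K₀ * (Nb * (G * (nm c' : ℝ)⁻¹))))) :=
          mul_le_mul_of_nonneg_left h3 (by positivity)
      _ = ((tau c' : ℝ) * tau γ) ^ 2 * (K₀ * (Nb * (G * (nm c' : ℝ)⁻¹))) := by ring
      _ ≤ (T * T) ^ 2 * (K₀ * (Nb * (G * (nm c' : ℝ)⁻¹))) := by
          refine mul_le_mul_of_nonneg_right ?_ hB
          exact pow_le_pow_left₀ (by positivity) (mul_le_mul h4 h5 h7 hT0) 2
      _ = _ := by ring
  -- the sum over the cube parts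
  have hinv : ∑ c' ∈ Cs, (nm c' : ℝ)⁻¹ ≤ X ^ (ε / 4) * C₄ := by
    have h3 : ∀ c' ∈ Cs, (nm c' : ℝ)⁻¹ ≤ X ^ (ε / 4) * (nm c' : ℝ) ^ (-(1 + η)) := by
      intro c' hc'
      obtain ⟨k1, k2, k3, k4⟩ := hCs' c' hc'
      have hc'0 : (0 : ℝ) < nm c' := by linarith
      have h4 : (nm c' : ℝ)⁻¹ = (nm c' : ℝ) ^ η * (nm c' : ℝ) ^ (-(1 + η)) := by
        rw [← Real.rpow_add hc'0, ← Real.rpow_neg_one]
        congr 1; ring
      rw [h4]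
      refine mul_le_mul_of_nonneg_right ?_ (by positivity)
      calc (nm c' : ℝ) ^ η ≤ (X ^ B₀) ^ η :=
            Real.rpow_le_rpow (Nat.cast_nonneg _) (k2.trans hWX) hη0.le
        _ = X ^ (B₀ * η) := by rw [← Real.rpow_mul hX0.le]
        _ ≤ X ^ (ε / 4) := by
            refine Real.rpow_le_rpow_of_exponent_le hX1 ?_
            have h6 : η * (16 * (B₀ + 1)) = ε := by rw [hη]; field_simp
            nlinarith
    refine (Finset.sum_le_sum h3).trans ?_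
    rw [← Finset.mul_sum]
    exact mul_le_mul_of_nonneg_left (hsum Cs) (by positivity)
  have hNbX : Nb ≤ (4 * B₀ + 1) * (C₃ * X ^ (ε / 4)) := by
    have h3 := hlog X hX1
    rw [pow_one] at h3
    have h4 : Nb ≤ 4 * B₀ * Real.log X + 1 := by
      rw [hNb]
      push_cast
      have := Nat.floor_le (show 0 ≤ 2 * (2 * B₀) * Real.log X by positivity)
      linarith
    have h5 : 4 * B₀ * Real.log X + 1 ≤ (4 * B₀ + 1) * (Real.log X + 1) := by nlinarith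
    exact h4.trans (h5.trans (mul_le_mul_of_nonneg_left h3 (by positivity)))
  calc ∑ e ∈ Es, ω e * ∑ j ∈ Js, ‖TE0 (cg γ (afrb (gt5 E0 Z g c) (q5 g c) Z
        (sqc 1 (al h s1)) (sqc 1 (al h s2)) g hh s e d)) dl j e‖ ^ 2 ≤
        ∑ e ∈ Es, ω e * ∑ c' ∈ Cs, ∑ κ' ∈ BF (W / (nm c' : ℝ) ^ 3), Gf e c' κ' :=
        Finset.sum_le_sum fun e he => mul_le_mul_of_nonneg_left (hone e he) (hω0 e he)
    _ = ∑ c' ∈ Cs, ∑ e ∈ Es, ω e * ∑ κ' ∈ BF (W / (nm c' : ℝ) ^ 3), Gf e c' κ' := by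
        rw [Finset.sum_comm]
        refine Finset.sum_congr rfl fun e _ => ?_
        rw [Finset.mul_sum]
    _ ≤ ∑ c' ∈ Cs, T ^ 4 * (K₀ * (Nb * (G * (nm c' : ℝ)⁻¹))) := Finset.sum_le_sum hcube
    _ = T ^ 4 * K₀ * Nb * G * ∑ c' ∈ Cs, (nm c' : ℝ)⁻¹ := by
        rw [Finset.mul_sum]
        exact Finset.sum_congr rfl fun c' _ => by ring
    _ ≤ T ^ 4 * K₀ * Nb * G * (X ^ (ε / 4) * C₄) :=
        mul_le_mul_of_nonneg_left hinv (by positivity)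
    _ ≤ T ^ 4 * K₀ * ((4 * B₀ + 1) * (C₃ * X ^ (ε / 4))) * G * (X ^ (ε / 4) * C₄) := by
        refine mul_le_mul_of_nonneg_right (mul_le_mul_of_nonneg_right
          (mul_le_mul_of_nonneg_left hNbX (by positivity)) hG) (by positivity)
    _ = (C₂ ^ 4 * C₁ * ((4 * B₀ + 1) * C₃) * C₄) * X ^ ε * (1 + |s|) ^ (N * M) * X' * G := by
        have hXe : X ^ ε = X ^ (ε / 4) * X ^ (ε / 4) * (X ^ (ε / 4) * X ^ (ε / 4)) := by
          rw [← Real.rpow_add hX0, ← Real.rpow_add hX0]; congr 1; ring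
        rw [hT4, hK₀, hXe]
        ring
    _ ≤ (1 + C₂ ^ 4 * C₁ * ((4 * B₀ + 1) * C₃) * C₄) * X ^ ε * (1 + |s|) ^ (N * M) * X' * G := by
        have h3 : 0 ≤ X ^ ε * (1 + |s|) ^ ((N : ℝ) * M) * X' * G := by positivity
        nlinarith

open Classical in
/-- **the number of one line at one `d`**, all frequencies -/
theorem TPdm {h : ℝ → ℝ} {c₀ : ℝ} (hpu : PU h c₀) {R : ℝ} (hR0 : 0 ≤ R)
    (hR : ∀ u, cx h u ≠ 0 → |u| ≤ R) (N : ℕ) {B₀ : ℝ} (hB₀ : 0 ≤ B₀) {ε : ℝ} (hε : 0 < ε)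
    {M : ℝ} (hM : 0 ≤ M) : ∃ C r : ℝ, 1 ≤ C ∧ 0 ≤ r ∧ ∀ X : ℝ, 3 ≤ X →
    ∀ (ι κ : Type) [Fintype ι] [Fintype κ] [DecidableEq ι] [DecidableEq κ],
    Fintype.card ι + Fintype.card κ ≤ N → ∀ (s1 : ι → Pc) (s2 : κ → Pc), (∀ i, (s1 i).OK) →
    (∀ j, (s2 j).OK) → (∀ i, Real.log (s1 i).Y ≤ Real.log X) →
    (∀ j, Real.log (s2 j).Y ≤ Real.log X) → ∀ Z : ℝ, 0 ≤ Z →
    (∀ n, sqc 1 (al h s1) n ≠ 0 → (nm n : ℝ) ≤ Z) →
    ∀ (E0 : ℝ) (c : Fin 5) (s : ℝ) (g hh d γ : Eis), IsPrim g → IsPrim hh → IsPrim d →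
    IsPrim γ → (nm g : ℝ) ≤ X ^ B₀ → (nm (hh * d) : ℝ) ≤ X ^ B₀ → (nm γ : ℝ) ≤ X ^ B₀ →
    ∀ Es Js : Finset Eis, (∀ e ∈ Es, IsPrim e ∧ (nm e : ℝ) ≤ X ^ B₀) →
    ∀ W : ℝ, W ≤ X ^ B₀ → (∀ j ∈ Js, j ≠ 0 ∧ (nm j : ℝ) ≤ W) →
    ∀ (ω : Eis → ℝ) (Ω : ℕ → ℝ), (∀ e ∈ Es, 0 ≤ ω e) → (∀ b, 0 ≤ Ω b) →
    (∀ e ∈ Es, ∀ b : ℕ,
      Real.log (nm (lc (cc g (hh * d)) e / cc g (hh * d))) ≤ b + 1 → ω e ≤ Ω b) →
    ∀ (Bf : ℕ → ℝ → ℝ) (G : ℝ), (∀ b k, 0 ≤ Bf b k) → 0 ≤ G →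
    (∀ (b : ℕ) (k l : ℝ) (s' : ι ⊕ κ → Pc), (b : ℝ) ≤ 4 * B₀ * Real.log X → 0 ≤ k →
      k ≤ Real.log W + Real.log (nm (cc g (hh * d))) → 0 ≤ l → ChF r s' (Sum.elim s1 s2) →
      |LY s' - (LY s1 + LY s2 - Real.log (nm g) -
        Real.log (nm (hh * d) * nm (cc g (hh * d))) - b)| ≤ r →
      |l - (k + b)| ≤ r →
      LY s1 - Real.log (nm g) - min (y5 Z g c) (Real.log (nm (hh * d))) - b - r ≤ LY (fun i => s' (.inl i)) →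
      VF (Real.exp l) (sqc (hh * d * cc g (hh * d)) (al h s')) ≤
        Bf b k * cF s' (Sum.elim s1 s2) ^ M) →
    (∀ (b : ℕ) (n : ℝ), 0 ≤ n → 3 * n ≤ Real.log W →
      Ω b * Bf b (Real.log W + Real.log (nm (cc g (hh * d))) - 3 * n) ≤ G * Real.exp (-n)) →
    ∀ dl : Eis, ∑ e ∈ Es, ω e * ∑ j ∈ Js, ‖TE0 (cg γ (afrb (gt5 E0 Z g c) (q5 g c) Z
        (sqc 1 (al h s1)) (sqc 1 (al h s2)) g hh s e d)) dl j e‖ ^ 2 ≤
      C * X ^ ε * (1 + |s|) ^ (N * M) *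
        (Real.exp (LY s1 + LY s2) / (nm g * nm (hh * d))) ^ (-(1 / 3) : ℝ) * G := by
  obtain ⟨C, r, hC, hr, H⟩ := TPdPm hpu hR0 hR N hB₀ hε hM
  refine ⟨C, r, hC, hr, ?_⟩
  intro X hX ι κ _ _ _ _ hcard s1 s2 h1 h2 h1X h2X Z hZ hsup E0 c s g hh d γ hg hhp hd hγ hgX hdX
    hγX Es Js hEs W hWX hJs ω Ω hω0 hΩ hωΩ Bf G hBf hG hyp hline dl
  exact H X hX ι κ hcard s1 s2 h1 h2 h1X h2X Z hZ hsup E0 c s g hh d γ hg hhp hd hγ hgX hdX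
    hγX Es Js hEs W hWX hJs (fun _ => True) (fun _ _ _ _ _ => trivial) ω Ω hω0 hΩ hωΩ Bf G hBf hG
    hyp (fun b n hn hn3 _ => hline b n hn hn3) dl

open Classical in
/-- **the number of one line at one `d`**, cube-free frequencies -/
theorem TPdm_cf {h : ℝ → ℝ} {c₀ : ℝ} (hpu : PU h c₀) {R : ℝ} (hR0 : 0 ≤ R)
    (hR : ∀ u, cx h u ≠ 0 → |u| ≤ R) (N : ℕ) {B₀ : ℝ} (hB₀ : 0 ≤ B₀) {ε : ℝ} (hε : 0 < ε)
    {M : ℝ} (hM : 0 ≤ M) : ∃ C r : ℝ, 1 ≤ C ∧ 0 ≤ r ∧ ∀ X : ℝ, 3 ≤ X →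
    ∀ (ι κ : Type) [Fintype ι] [Fintype κ] [DecidableEq ι] [DecidableEq κ],
    Fintype.card ι + Fintype.card κ ≤ N → ∀ (s1 : ι → Pc) (s2 : κ → Pc), (∀ i, (s1 i).OK) →
    (∀ j, (s2 j).OK) → (∀ i, Real.log (s1 i).Y ≤ Real.log X) →
    (∀ j, Real.log (s2 j).Y ≤ Real.log X) → ∀ Z : ℝ, 0 ≤ Z →
    (∀ n, sqc 1 (al h s1) n ≠ 0 → (nm n : ℝ) ≤ Z) →
    ∀ (E0 : ℝ) (c : Fin 5) (s : ℝ) (g hh d γ : Eis), IsPrim g → IsPrim hh → IsPrim d →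
    IsPrim γ → (nm g : ℝ) ≤ X ^ B₀ → (nm (hh * d) : ℝ) ≤ X ^ B₀ → (nm γ : ℝ) ≤ X ^ B₀ →
    ∀ Es Js : Finset Eis, (∀ e ∈ Es, IsPrim e ∧ (nm e : ℝ) ≤ X ^ B₀) →
    ∀ W : ℝ, W ≤ X ^ B₀ → (∀ j ∈ Js, CF j ∧ (nm j : ℝ) ≤ W) →
    ∀ (ω : Eis → ℝ) (Ω : ℕ → ℝ), (∀ e ∈ Es, 0 ≤ ω e) → (∀ b, 0 ≤ Ω b) →
    (∀ e ∈ Es, ∀ b : ℕ,
      Real.log (nm (lc (cc g (hh * d)) e / cc g (hh * d))) ≤ b + 1 → ω e ≤ Ω b) →
    ∀ (Bf : ℕ → ℝ → ℝ) (G : ℝ), (∀ b k, 0 ≤ Bf b k) → 0 ≤ G →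
    (∀ (b : ℕ) (k l : ℝ) (s' : ι ⊕ κ → Pc), (b : ℝ) ≤ 4 * B₀ * Real.log X → 0 ≤ k →
      k ≤ Real.log W + Real.log (nm (cc g (hh * d))) → 0 ≤ l → ChF r s' (Sum.elim s1 s2) →
      |LY s' - (LY s1 + LY s2 - Real.log (nm g) -
        Real.log (nm (hh * d) * nm (cc g (hh * d))) - b)| ≤ r →
      |l - (k + b)| ≤ r →
      LY s1 - Real.log (nm g) - min (y5 Z g c) (Real.log (nm (hh * d))) - b - r ≤ LY (fun i => s' (.inl i)) →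
      VF (Real.exp l) (sqc (hh * d * cc g (hh * d)) (al h s')) ≤
        Bf b k * cF s' (Sum.elim s1 s2) ^ M) →
    (∀ b : ℕ, Ω b * Bf b (Real.log W + Real.log (nm (cc g (hh * d)))) ≤ G) →
    ∀ dl : Eis, ∑ e ∈ Es, ω e * ∑ j ∈ Js, ‖TE0 (cg γ (afrb (gt5 E0 Z g c) (q5 g c) Z
        (sqc 1 (al h s1)) (sqc 1 (al h s2)) g hh s e d)) dl j e‖ ^ 2 ≤
      C * X ^ ε * (1 + |s|) ^ (N * M) *
        (Real.exp (LY s1 + LY s2) / (nm g * nm (hh * d))) ^ (-(1 / 3) : ℝ) * G := by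
  obtain ⟨C, r, hC, hr, H⟩ := TPdPm hpu hR0 hR N hB₀ hε hM
  refine ⟨C, r, hC, hr, ?_⟩
  intro X hX ι κ _ _ _ _ hcard s1 s2 h1 h2 h1X h2X Z hZ hsup E0 c s g hh d γ hg hhp hd hγ hgX hdX
    hγX Es Js hEs W hWX hJs ω Ω hω0 hΩ hωΩ Bf G hBf hG hyp hline dl
  refine H X hX ι κ hcard s1 s2 h1 h2 h1X h2X Z hZ hsup E0 c s g hh d γ hg hhp hd hγ hgX hdX
    hγX Es Js hEs W hWX (fun j hj => ⟨(hJs j hj).1.1, (hJs j hj).2⟩) (fun n => n = 0) ?_ ω Ω hω0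
    hΩ hωΩ Bf G hBf hG hyp (fun b n hn hn3 hn0 => ?_) dl
  · intro j hj κ' c' hjc
    obtain ⟨hj0, hcf⟩ := (hJs j hj).1
    have hc0 : c' ≠ 0 := by
      rintro rfl
      exact hj0 (by rw [hjc]; simp)
    have hu : IsUnit c' := by
      by_contra hnu
      obtain ⟨p, hp, hpc⟩ := WfDvdMonoid.exists_irreducible_factor hnu hc0
      exact hcf p hp.prime (hjc ▸ (pow_dvd_pow_of_dvd hpc 3).mul_left κ')
    have h3 : nm c' = 1 := Crest.Agent.R012.Eis.isUnit_iff.1 hu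
    rw [h3]
    simp
  · subst hn0
    simpa using hline b

end Crest.Agent.R017.GrG404
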