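import Crest.Agent.R017.StI_828

/-!
# Row 17, R8/P1: the mismatch with the support information of `(d, a)` (helper319)

Copy of helper828's `StH_828`, `StI_828` with gates `gt d a e` depending on `d`.

* `gtb gt c d a e = gt a e` if `N(d, a)³ ≤ c`, else `0`
* `afb` : the coefficient, `Tzb`, `SteT_winb` : level weights removed
* `lD_low` : for levels of `psi g y` below the top, the difference of the level weights of `psi a y`
  and `psi g y` vanishes unless `N(d, a)³ ≤ Y N(g)`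
* **`mism3`** : the mismatch, five types of terms: below the top with the gate `N(d, a)³ ≤ Y N(g)`,
  above the top without gate
-/

set_option autoImplicit false

noncomputable section

open Finset MeasureTheory
open scoped ComplexConjugate

namespace Crest.Agent.R017.StJ319

open Crest.Agent.R012 Crest.Agent.R012.Eis Crest.Agent.R012.Div277
open Crest.Agent.R012.Mob705 hiding pb mem_pb
open Crest.Agent.R012.Gauss880
open Crest.Agent.R012.LS2 (S mem_S)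
open Crest.Agent.R012.Weight600 (osc norm_osc pw norm_pw)
open Crest.Agent.R017.CM106 Crest.Agent.R017.PX764 Crest.Agent.R017.C70
open Crest.Agent.R017.StA828 Crest.Agent.R017.StB828 Crest.Agent.R017.StC828
open Crest.Agent.R017.StD828 Crest.Agent.R017.StE828 Crest.Agent.R017.StF828
open Crest.Agent.R017.E2440 (TE StE)
open Crest.Agent.R017.E3A164 (SteT)
open Crest.Agent.R017.Win813
open Crest.Agent.R017.StG828

/-! ### coefficients with gates depending on `d` -/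

/-- the coefficient -/
def afb (gt : Eis → Eis → Eis → ℂ) (q : Eis → Eis) (Y : ℝ) (η α : Eis → ℂ) (g : Eis) (t : ℝ)
    (e d m : Eis) : ℂ :=
  ∑ a ∈ S Y, (η (g * a) * (gt d a e * (pw t (nm (q a)) * pw (-3 * t) (nm (gp d (q a)))))) *
    xa a (rs g α) (d * m)

/-- the weighted coefficient, localised in the level of `psi g y` -/
def Tzb (gt : Eis → Eis → Eis → ℂ) (q : Eis → Eis) (Y : ℝ) (I J : Finset ℕ) (η α : Eis → ℂ)
    (g d e j : Eis) : ℂ :=
  ∑ a ∈ S Y, η (g * a) * ((gt d a e * (lD I (ln (psi g (d, j))) * oD J (ln (psi (q a) (d, j))))) *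
    TE (xa a (rs g α)) (d, j) e)

/-- the sum over `a` with heights is a three-variable inner sum -/
lemma sum_TEb {gt : Eis → Eis → Eis → ℂ} {q : Eis → Eis} {Y : ℝ} (hY : 0 ≤ Y)
    (hq : ∀ a ∈ S Y, IsPrim (q a)) {α : Eis → ℂ} (hα : FS α) (η : Eis → ℂ) (g : Eis) (t : ℝ)
    {y : Eis × Eis} (h1 : IsPrim y.1) (h2 : JC y.2) (e : Eis) :
    ∑ a ∈ S Y, η (g * a) * ((gt y.1 a e * pw t (nm (ln (psi (q a) y)))) *
      TE (xa a (rs g α)) y e) = pw t (nm (ln y)) * T3 (afb gt q Y η α g t) y.1 e y.2 := by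
  have e1 : T3 (afb gt q Y η α g t) y.1 e y.2 = TE (∑ a ∈ S Y,
      (η (g * a) * (gt y.1 a e * (pw t (nm (q a)) * pw (-3 * t) (nm (gp y.1 (q a)))))) •
        xa a (rs g α)) y e := by
    unfold T3 TE afb
    refine tsum_congr fun m => ?_
    simp only [Finset.sum_apply, Pi.smul_apply, smul_eq_mul]
  rw [e1, TE_sum _ _ (fun a ha => FS_smul (FS_xa (FS_rs hα g) ((mem_S hY).1 ha).2.1) _) h1.ne_zero,
    mul_sum]
  refine sum_congr rfl fun a ha => ?_
  rw [TE_smul, pw_ln_psi (hq a ha) (ln_ne h1 h2)]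
  ring

/-- the coefficient of the linear form -/
def Akb (gt : Eis → Eis → Eis → ℂ) (η α : Eis → ℂ) (g k : Eis)
    (b : (Eis × Eis) × Eis × Eis) : ℂ := by
  classical
  exact (if b.2.1 ∣ k then 1 else 0) * ((sy k b.1.1 * conj (th (b.1.2 * k))) *
    ((mu b.2.1 : ℂ) * (η (g * b.2.2) * (gt b.1.1 b.2.2 b.2.1 * TE (xa b.2.2 (rs g α)) b.1 b.2.1))))

open Classical in
lemma SteT_formb {JJ : Finset (Eis × Eis)} (om : Eis × Eis → ℂ) (w : Eis × Eis → Eis → ℂ)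
    {Y E' : ℝ} (gt : Eis → Eis → Eis → ℂ) (η α : Eis → ℂ) (g k : Eis) (T : Eis → Eis → Eis → ℂ)
    (hT : ∀ y ∈ JJ, ∀ e, om y * T y.1 e y.2 = ∑ a ∈ S Y, η (g * a) * ((gt y.1 a e * w y a) *
      TE (xa a (rs g α)) y e)) :
    SteT JJ om E' T k = ∑ b ∈ JJ ×ˢ ((S E') ×ˢ (S Y)), Akb gt η α g k b * w b.1 b.2.2 := by
  unfold SteT
  rw [sum_product]
  refine sum_congr rfl fun y hy => ?_
  rw [sum_product, mul_left_comm, mul_sum, mul_sum, sum_filter]
  refine sum_congr rfl fun e _ => ?_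
  split_ifs with he
  · have h1 := hT y hy e
    rw [show om y * ((muE e : ℂ) * T y.1 e y.2) = (muE e : ℂ) * (om y * T y.1 e y.2) by ring, h1,
      mul_sum, mul_sum]
    refine sum_congr rfl fun a _ => ?_
    unfold Akb
    rw [if_pos he]
    show _ = (1 * ((sy k y.1 * conj (th (y.2 * k))) * (((muE e : ℤ) : ℂ) * _))) * w y a
    ring
  · symm
    refine Finset.sum_eq_zero fun a _ => ?_
    unfold Akb
    rw [if_neg he]
    ring

/-- **removal of the level weights**. -/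
theorem SteT_winb {A : ℕ} (hA : 2 ≤ A) : ∃ C : ℝ, 0 ≤ C ∧ ∀ (JJ : Finset (Eis × Eis)), OKJ JJ →
    ∀ (Y E' : ℝ), 0 ≤ Y → ∀ (gt : Eis → Eis → Eis → ℂ) (q : Eis → Eis),
    (∀ a ∈ S Y, IsPrim (q a)) →
    ∀ (η α : Eis → ℂ), FS α → ∀ (g : Eis) (I J : Finset ℕ),
    ∀ (K : Finset Eis) (W : Eis → ℝ), (∀ k ∈ K, 0 ≤ W k) →
    ∑ k ∈ K, W k * ‖SteT JJ (fun _ => 1) E' (Tzb gt q Y I J η α g) k‖ ^ 2 ≤
      C * (I.card * (J.card : ℝ) ^ 2) * ∑ i ∈ I, ∫ s, ew A 2 s * ∑ k ∈ K, W k *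
        ‖SteT JJ (omz g i s) E' (T3 (afb gt q Y η α g s)) k‖ ^ 2 := by
  obtain ⟨C, hC, H⟩ := multi_win hA
  refine ⟨C, hC, ?_⟩
  intro JJ hJ Y E' hY gt q hq η α hα g I J K W hW
  have h := H (JJ ×ˢ ((S E') ×ˢ (S Y))) (fun b => ln (psi (q b.2.2) b.1))
    (fun b => ln (psi g b.1)) I J K W (fun k b => Akb gt η α g k b) hW
  have e1 : ∀ k, SteT JJ (fun _ => 1) E' (Tzb gt q Y I J η α g) k =
      ∑ b ∈ JJ ×ˢ ((S E') ×ˢ (S Y)), Akb gt η α g k b *
        (lD I (ln (psi g b.1)) * oD J (ln (psi (q b.2.2) b.1))) := fun k =>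
    SteT_formb (fun _ => 1) (fun y a => lD I (ln (psi g y)) * oD J (ln (psi (q a) y))) gt η α g k _
      (fun y _ e => by rw [one_mul]; rfl)
  have e2 : ∀ (i : ℕ) (s : ℝ) (k : Eis),
      SteT JJ (omz g i s) E' (T3 (afb gt q Y η α g s)) k =
      HF (JJ ×ˢ ((S E') ×ˢ (S Y))) (fun b => ln (psi (q b.2.2) b.1)) (fun b => Akb gt η α g k b *
        ((wD i (Real.log (nm (ln (psi g b.1)))) : ℝ) : ℂ)) s := by
    intro i s k
    rw [SteT_formb (omz g i s) (fun y a => ((wD i (Real.log (nm (ln (psi g y)))) : ℝ) : ℂ) *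
      pw s (nm (ln (psi (q a) y)))) gt η α g k _ ?_]
    · unfold HF
      refine sum_congr rfl fun b _ => ?_
      ring
    · intro y hy e
      have h3 := sum_TEb (gt := gt) hY hq hα η g s (hJ.prim y hy) (hJ.jc y hy) e
      unfold omz
      rw [mul_assoc, ← h3, mul_sum]
      refine sum_congr rfl fun a _ => ?_
      ring
  simp only [e1, e2]
  exact h

/-! ### the gate -/

open Classical in
/-- the gate `N(d, a)³ ≤ c` -/
def gtb (gt : Eis → Eis → ℂ) (c : ℝ) (d a e : Eis) : ℂ :=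
  gt a e * (if (nm (gp d a) : ℝ) ^ 3 ≤ c then 1 else 0)

open Classical in
lemma norm_gtb_le {gt : Eis → Eis → ℂ} (h : ∀ a e, ‖gt a e‖ ≤ 1) (c : ℝ) (d a e : Eis) :
    ‖gtb gt c d a e‖ ≤ 1 := by
  unfold gtb
  rw [norm_mul]
  have h1 : ‖(if (nm (gp d a) : ℝ) ^ 3 ≤ c then (1 : ℂ) else 0)‖ ≤ 1 := by
    split_ifs <;> simp
  exact mul_le_one₀ (h a e) (norm_nonneg _) h1

lemma gtb_ne {gt : Eis → Eis → ℂ} {c : ℝ} {d a e : Eis} (h : gtb gt c d a e ≠ 0) :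
    (nm (gp d a) : ℝ) ^ 3 ≤ c := by
  by_contra hc
  apply h
  unfold gtb
  rw [if_neg hc, mul_zero]

/-- levels below the top -/
def Ilo (g : Eis) (M n : ℕ) (Y : ℝ) : Finset ℕ := by
  classical
  exact (I1z g M n Y).filter fun i => i + 3 ≤ n

/-- levels above the top -/
def Ihi (g : Eis) (M n : ℕ) (Y : ℝ) : Finset ℕ := by
  classical
  exact (I1z g M n Y).filter fun i => ¬ i + 3 ≤ n

lemma lD_I1z (g : Eis) (M n : ℕ) (Y : ℝ) (z : Eis) :
    lD (I1z g M n Y) z = lD (Ilo g M n Y) z + lD (Ihi g M n Y) z := by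
  classical
  unfold lD Ilo Ihi
  exact (sum_filter_add_sum_filter_not _ _ _).symm

open Classical in
/-- **below the top the difference of the level weights sees the gate** -/
lemma lD_low {M n : ℕ} {Y : ℝ} {g a : Eis} (hg : IsPrim g) (ha : IsPrim a)
    (hga : (nm g : ℝ) * nm a ≤ Y) {y : Eis × Eis} (h : ln y ≠ 0) :
    lD (Ilo g M n Y) (ln (psi g y)) *
        (oD (range n) (ln (psi a y)) - oD (range n) (ln (psi g y))) =
      (if (nm (gp y.1 a) : ℝ) ^ 3 ≤ Y * nm g then 1 else 0) *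
        (lD (Ilo g M n Y) (ln (psi g y)) *
          (oD (range n) (ln (psi a y)) - oD (range n) (ln (psi g y)))) := by
  split_ifs with hc
  · rw [one_mul]
  rw [zero_mul]
  by_contra hne
  have h1 := left_ne_zero_of_mul hne
  have h2 := right_ne_zero_of_mul hne
  -- the level of `psi g y`
  unfold lD at h1
  obtain ⟨i, hi, h3⟩ := Finset.exists_ne_zero_of_sum_ne_zero h1
  have hin : i + 3 ≤ n := by
    unfold Ilo at hi
    exact (mem_filter.1 hi).2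
  have h4 : wD i (Real.log (nm (ln (psi g y)))) ≠ 0 := by
    intro h0
    apply h3
    rw [h0]; simp
  have h5 := (abs_le.1 (wD_ne h4)).2
  have hl := Real.log_pos (by norm_num : (1 : ℝ) < 2)
  have hin' : (i : ℝ) + 3 ≤ n := by exact_mod_cast hin
  have h6 : Real.log (nm (ln (psi g y))) + 2 * Real.log 2 ≤ Real.log 2 * n := by
    have : Real.log 2 * ((i : ℝ) + 3) ≤ Real.log 2 * n :=
      mul_le_mul_of_nonneg_left hin' hl.le
    linarith
  have h7 : oD (range n) (ln (psi g y)) = 1 := oD_one (by linarith)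
  have h8 : Real.log 2 * n < Real.log (nm (ln (psi a y))) + Real.log 2 := by
    by_contra hcc
    push Not at hcc
    exact h2 (by rw [h7, oD_one hcc, sub_self])
  -- the levels
  have k1 := log_ln_psi ha h
  have k2 := log_ln_psi hg h
  obtain ⟨a1, a2, a3, a4, a5⟩ := gp_spec y.1 ha
  obtain ⟨m1, m2, m3, m4, m5⟩ := gp_spec y.1 hg
  have ha0 := one_le_nmR ha
  have hg0 := one_le_nmR hg
  have p3 : (nm (gp y.1 g) : ℝ) ≤ nm g := by
    exact_mod_cast Div277.nm_le_of_dvd hg.ne_zero ⟨_, m4⟩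
  have q3 := Real.log_le_log (by linarith [one_le_nmR m1]) p3
  have h9 : Real.log (nm g) + Real.log (nm a) ≤ Real.log Y := by
    rw [← Real.log_mul (by linarith) (by linarith)]
    exact Real.log_le_log (by nlinarith) hga
  have hY0 : 0 < Y := lt_of_lt_of_le (by nlinarith) hga
  have h10 : 3 * Real.log (nm (gp y.1 a)) ≤ Real.log (Y * nm g) := by
    rw [Real.log_mul hY0.ne' (by linarith)]
    linarith
  apply hc
  have hp : (0 : ℝ) < nm (gp y.1 a) := by exact_mod_cast nm_pos.2 a1.ne_zero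
  have h11 : Real.log ((nm (gp y.1 a) : ℝ) ^ 3) ≤ Real.log (Y * nm g) := by
    rw [Real.log_pow]
    push_cast
    exact h10
  exact (Real.log_le_log_iff (pow_pos hp 3) (mul_pos hY0 (by linarith))).1 h11

open Classical in
/-- the trivial gate -/
lemma gate_one {Y : ℝ} {a d : Eis} (ha : IsPrim a) (haY : (nm a : ℝ) ≤ Y) :
    (nm (gp d a) : ℝ) ^ 3 ≤ Y ^ 3 := by
  obtain ⟨a1, a2, a3, a4, a5⟩ := gp_spec d ha
  have p3 : (nm (gp d a) : ℝ) ≤ nm a := by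
    exact_mod_cast Div277.nm_le_of_dvd ha.ne_zero ⟨_, a4⟩
  exact pow_le_pow_left₀ (Nat.cast_nonneg _) (p3.trans haY) 3

/-- **the coefficient of the difference for the plateau weight** -/
lemma Tm_eqb {E0 Y : ℝ} (hY : 0 ≤ Y) {n M : ℕ} {η α : Eis → ℂ}
    (hη : ∀ n, η n ≠ 0 → (nm n : ℝ) ≤ Y) {g : Eis}
    (hg : IsPrim g) {d e j : Eis} (hd : IsPrim d) (hj : JC j)
    (hM : Real.log 2 * n + 2 * Real.log Y + Real.log 2 ≤ Real.log 2 * M) :
    Tm E0 Y (oD (range n)) η α g d e j =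
      (Tzb (gtb (g1 E0) (Y * nm g)) id Y (Ilo g M n Y) (range n) η α g d e j -
      Tzb (gtb (g1 E0) (Y * nm g)) (fun _ => g) Y (Ilo g M n Y) (range n) η α g d e j) +
      (Tzb (gtb (g1 E0) (Y ^ 3)) id Y (Ihi g M n Y) (range n) η α g d e j -
      Tzb (gtb (g1 E0) (Y ^ 3)) (fun _ => g) Y (Ihi g M n Y) (range n) η α g d e j) +
      Tzb (gtb (g2 E0) (Y ^ 3)) id Y (I2z g M n Y) (range n) η α g d e j := by
  have hln : ln (d, j) ≠ 0 := ln_ne (y := (d, j)) hd hj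
  unfold Tm Tzb
  rw [← sum_sub_distrib, ← sum_sub_distrib, ← sum_add_distrib, ← sum_add_distrib]
  refine sum_congr rfl fun a ha => ?_
  rw [← mul_sub, ← mul_sub, ← mul_add, ← mul_add]
  by_cases h0 : η (g * a) = 0
  · rw [h0, zero_mul, zero_mul]
  have hap : IsPrim a := ((mem_S hY).1 ha).2.1
  have hga : (nm g : ℝ) * nm a ≤ Y := by
    have := hη _ h0
    rw [nm_mul] at this
    exact_mod_cast this
  congr 1
  rw [← sub_mul, ← sub_mul, ← add_mul, ← add_mul]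
  congr 1
  have h1 := lD_splitz (M := M) (n := n) hg hap hga hln hM
  have h2 := lD_splitz2 (M := M) (n := n) hg hap hga hln hM
  have h3 := lD_low (M := M) (n := n) hg hap hga hln
  have h4 := lD_I1z g M n Y (ln (psi g (d, j)))
  have h5 : (nm (gp d a) : ℝ) ^ 3 ≤ Y ^ 3 := gate_one hap ((mem_S hY).1 ha).1
  rw [h4, add_mul, h3] at h1
  unfold gtb g1 g2
  simp only [id, if_pos h5, mul_one]
  simp only at h1 h3
  generalize (if (nm (gp d a) : ℝ) ^ 3 ≤ Y * nm g then (1 : ℂ) else 0) = G at h1 h3 ⊢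
  by_cases h6 : (nm e : ℝ) ≤ E0
  · have h7 : (nm (e / gp e a) : ℝ) ≤ E0 := by
      refine le_trans ?_ h6
      obtain ⟨k1, k2, k3, k4, k5⟩ := gp_spec e hap
      have h8 : (nm e : ℝ) = nm (gp e a) * nm (e / gp e a) := by
        conv_lhs => rw [k3]
        rw [nm_mul]; push_cast; ring
      rw [h8]
      exact le_mul_of_one_le_left (Nat.cast_nonneg _) (one_le_nmR k1)
    rw [if_pos h6, if_pos h7, if_neg (fun h => h.1 h6)]
    linear_combination h1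
  · by_cases h7 : (nm (e / gp e a) : ℝ) ≤ E0
    · rw [if_neg h6, if_pos h7, if_pos ⟨h6, h7⟩]
      linear_combination h2
    · rw [if_neg h6, if_neg h7, if_neg (fun h => h7 h.2)]; ring

open Classical in
lemma SteT_lin5 {JJ : Finset (Eis × Eis)} (om : Eis × Eis → ℂ) {E' : ℝ}
    (T T' U U' V : Eis → Eis → Eis → ℂ) (k : Eis) :
    SteT JJ om E' (fun d e j => (T d e j - T' d e j) + (U d e j - U' d e j) + V d e j) k =
      (SteT JJ om E' T k - SteT JJ om E' T' k) + (SteT JJ om E' U k - SteT JJ om E' U' k) +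
        SteT JJ om E' V k := by
  unfold SteT
  rw [← sum_sub_distrib, ← sum_sub_distrib, ← sum_add_distrib, ← sum_add_distrib]
  refine sum_congr rfl fun y _ => ?_
  have h1 : ∑ e ∈ (S E').filter (· ∣ k), (muE e : ℂ) * ((T y.1 e y.2 - T' y.1 e y.2) +
      (U y.1 e y.2 - U' y.1 e y.2) + V y.1 e y.2) =
      (∑ e ∈ (S E').filter (· ∣ k), (muE e : ℂ) * T y.1 e y.2 -
        ∑ e ∈ (S E').filter (· ∣ k), (muE e : ℂ) * T' y.1 e y.2) +
      (∑ e ∈ (S E').filter (· ∣ k), (muE e : ℂ) * U y.1 e y.2 -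
        ∑ e ∈ (S E').filter (· ∣ k), (muE e : ℂ) * U' y.1 e y.2) +
      ∑ e ∈ (S E').filter (· ∣ k), (muE e : ℂ) * V y.1 e y.2 := by
    rw [← sum_sub_distrib, ← sum_sub_distrib, ← sum_add_distrib, ← sum_add_distrib]
    exact sum_congr rfl fun e _ => by ring
  rw [h1]
  ring

lemma sq5 (a b c d e : ℂ) : ‖(a - b) + (c - d) + e‖ ^ 2 ≤
    5 * (‖a‖ ^ 2 + ‖b‖ ^ 2 + ‖c‖ ^ 2 + ‖d‖ ^ 2 + ‖e‖ ^ 2) := by
  have h1 : ‖(a - b) + (c - d) + e‖ ≤ ‖a‖ + ‖b‖ + ‖c‖ + ‖d‖ + ‖e‖ := by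
    have h2 := norm_add_le ((a - b) + (c - d)) e
    have h3 := norm_add_le (a - b) (c - d)
    have h4 := norm_sub_le a b
    have h5 := norm_sub_le c d
    linarith
  have h2 := pow_le_pow_left₀ (norm_nonneg _) h1 2
  have := norm_nonneg a
  nlinarith [sq_nonneg (‖a‖ - ‖b‖), sq_nonneg (‖a‖ - ‖c‖), sq_nonneg (‖a‖ - ‖d‖),
    sq_nonneg (‖a‖ - ‖e‖), sq_nonneg (‖b‖ - ‖c‖), sq_nonneg (‖b‖ - ‖d‖), sq_nonneg (‖b‖ - ‖e‖),
    sq_nonneg (‖c‖ - ‖d‖), sq_nonneg (‖c‖ - ‖e‖), sq_nonneg (‖d‖ - ‖e‖)]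

/-- the five types of terms: gates -/
def gt5 (E0 Y : ℝ) (g : Eis) : Fin 5 → Eis → Eis → Eis → ℂ :=
  ![gtb (g1 E0) (Y * nm g), gtb (g1 E0) (Y * nm g), gtb (g1 E0) (Y ^ 3), gtb (g1 E0) (Y ^ 3),
    gtb (g2 E0) (Y ^ 3)]

/-- the five types of terms -/
def q5 (g : Eis) : Fin 5 → Eis → Eis := ![id, fun _ => g, id, fun _ => g, id]

/-- the five types of terms: levels -/
def I5 (g : Eis) (M n : ℕ) (Y : ℝ) : Fin 5 → Finset ℕ :=
  ![Ilo g M n Y, Ilo g M n Y, Ihi g M n Y, Ihi g M n Y, I2z g M n Y]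

lemma I5_sub (g : Eis) (M n : ℕ) (Y : ℝ) (c : Fin 5) : I5 g M n Y c ⊆ range M := by
  classical
  have h1 : I1z g M n Y ⊆ range M := by unfold I1z; exact filter_subset _ _
  have h2 : I2z g M n Y ⊆ range M := by unfold I2z; exact filter_subset _ _
  have h3 : Ilo g M n Y ⊆ range M := by
    unfold Ilo; exact (filter_subset _ _).trans h1
  have h4 : Ihi g M n Y ⊆ range M := by
    unfold Ihi; exact (filter_subset _ _).trans h1
  fin_cases c
  · exact h3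
  · exact h3
  · exact h4
  · exact h4
  · exact h2

/-- **the mismatch**: mean squares, level weights removed. -/
theorem mismb {A : ℕ} (hA : 2 ≤ A) : ∃ C : ℝ, 0 ≤ C ∧ ∀ (JJ : Finset (Eis × Eis)), OKJ JJ →
    ∀ (M n : ℕ) (Y E0 E' : ℝ), 0 ≤ Y →
    Real.log 2 * n + 2 * Real.log Y + Real.log 2 ≤ Real.log 2 * M → ∀ (η α : Eis → ℂ),
    (∀ n, η n ≠ 0 → (nm n : ℝ) ≤ Y) → FS α → ∀ g, IsPrim g →
    ∀ (K : Finset Eis) (W : Eis → ℝ), (∀ k ∈ K, 0 ≤ W k) →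
    ∑ k ∈ K, W k * ‖SteT JJ (fun _ => 1) E' (Tm E0 Y (oD (range n)) η α g) k‖ ^ 2 ≤
      C * (M * (n : ℝ) ^ 2) * ∑ c : Fin 5, ∑ i ∈ I5 g M n Y c, ∫ s, ew A 2 s * ∑ k ∈ K, W k *
          ‖SteT JJ (omz g i s) E' (T3 (afb (gt5 E0 Y g c) (q5 g c) Y η α g s)) k‖ ^ 2 := by
  obtain ⟨C, hC, H⟩ := SteT_winb hA
  refine ⟨5 * C, by positivity, ?_⟩
  intro JJ hJ M n Y E0 E' hY hM η α hη hα g hg K W hW
  have hq : ∀ c : Fin 5, ∀ a ∈ S Y, IsPrim (q5 g c a) := by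
    intro c a ha
    have h1 : IsPrim a := ((mem_S hY).1 ha).2.1
    fin_cases c
    · exact h1
    · exact hg
    · exact h1
    · exact hg
    · exact h1
  have hb := fun c : Fin 5 =>
    H JJ hJ Y E' hY (gt5 E0 Y g c) (q5 g c) (hq c) η α hα g (I5 g M n Y c) (range n) K W hW
  set F : Fin 5 → Eis → ℂ := fun c k =>
    SteT JJ (fun _ => 1) E' (Tzb (gt5 E0 Y g c) (q5 g c) Y (I5 g M n Y c) (range n) η α g) k
    with hF
  have e1 : ∀ k, SteT JJ (fun _ => 1) E' (Tm E0 Y (oD (range n)) η α g) k =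
      (F 0 k - F 1 k) + (F 2 k - F 3 k) + F 4 k := by
    intro k
    rw [hF]
    simp only
    rw [← SteT_lin5]
    exact SteT_congr _ (fun y hy e => Tm_eqb hY hη hg (hJ.prim y hy) (hJ.jc y hy) hM) k
  have e2 : ∀ k ∈ K, W k * ‖SteT JJ (fun _ => 1) E' (Tm E0 Y (oD (range n)) η α g) k‖ ^ 2 ≤
      5 * ∑ c : Fin 5, W k * ‖F c k‖ ^ 2 := by
    intro k hk
    rw [e1 k, Fin.sum_univ_five, ← mul_add, ← mul_add, ← mul_add, ← mul_add, mul_left_comm]
    exact mul_le_mul_of_nonneg_left (sq5 _ _ _ _ _) (hW k hk)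
  have hI : ∀ c : Fin 5, 0 ≤ ∑ i ∈ I5 g M n Y c, ∫ s, ew A 2 s * ∑ k ∈ K, W k *
      ‖SteT JJ (omz g i s) E' (T3 (afb (gt5 E0 Y g c) (q5 g c) Y η α g s)) k‖ ^ 2 := fun c =>
    sum_nonneg fun i _ => integral_nonneg fun s => mul_nonneg (ew_nonneg (by norm_num) s)
      (sum_nonneg fun k hk => mul_nonneg (hW k hk) (by positivity))
  have c1 : ∀ c : Fin 5, ((I5 g M n Y c).card : ℝ) ≤ M := by
    intro c
    have : (I5 g M n Y c).card ≤ (range M).card := card_le_card (I5_sub g M n Y c)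
    rw [card_range] at this
    exact_mod_cast this
  have d1 : ∀ c : Fin 5, ∑ k ∈ K, W k * ‖F c k‖ ^ 2 ≤ C * (M * (n : ℝ) ^ 2) *
      ∑ i ∈ I5 g M n Y c, ∫ s, ew A 2 s * ∑ k ∈ K, W k *
        ‖SteT JJ (omz g i s) E' (T3 (afb (gt5 E0 Y g c) (q5 g c) Y η α g s)) k‖ ^ 2 := by
    intro c
    refine (hb c).trans (mul_le_mul_of_nonneg_right ?_ (hI c))
    rw [card_range]
    exact mul_le_mul_of_nonneg_left (mul_le_mul_of_nonneg_right (c1 c) (by positivity)) hC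
  refine (sum_le_sum e2).trans ?_
  rw [← mul_sum, sum_comm]
  calc 5 * ∑ c : Fin 5, ∑ k ∈ K, W k * ‖F c k‖ ^ 2 ≤
      5 * ∑ c : Fin 5, C * (M * (n : ℝ) ^ 2) *
        ∑ i ∈ I5 g M n Y c, ∫ s, ew A 2 s * ∑ k ∈ K, W k *
          ‖SteT JJ (omz g i s) E' (T3 (afb (gt5 E0 Y g c) (q5 g c) Y η α g s)) k‖ ^ 2 :=
        mul_le_mul_of_nonneg_left (sum_le_sum fun c _ => d1 c) (by norm_num)
    _ = _ := by rw [← mul_sum]; ring

/-! ### admissible coefficients -/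

lemma afb_dat {gt : Eis → Eis → Eis → ℂ} {q : Eis → Eis} {Y : ℝ} (hY : 0 ≤ Y) {η α : Eis → ℂ}
    (hα : PSu α) {g : Eis} {s : ℝ} {e d m : Eis} (h : afb gt q Y η α g s e d m ≠ 0) :
    g ∣ d * m ∧ IsPrim (d * m) ∧ Squarefree (d * m) := by
  unfold afb at h
  obtain ⟨a, ha, h0⟩ := Finset.exists_ne_zero_of_sum_ne_zero h
  obtain ⟨a1, a2, a3⟩ := (mem_S hY).1 ha
  obtain ⟨n, h2, h3, h4⟩ := xa_ne a2.ne_zero (right_ne_zero_of_mul h0)
  obtain ⟨h5, h6⟩ := rs_ne h4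
  obtain ⟨n1, n2⟩ := hα n h6
  rw [h2]
  exact ⟨h5.mul_left a, a2.mul n1, (sqf_mul h3).2 ⟨a3, n2⟩⟩

/-- gates which only see `(d, a)` -/
def GOK (gt : Eis → Eis → Eis → ℂ) : Prop :=
  ∀ d d' a e, gp d a = gp d' a → gt d a e = gt d' a e

lemma gok_gtb (gt : Eis → Eis → ℂ) (c : ℝ) : GOK (gtb gt c) := by
  intro d d' a e h
  unfold gtb
  rw [h]

lemma aokb_id {gt : Eis → Eis → Eis → ℂ} (hgt : GOK gt) {Y : ℝ} (hY : 0 ≤ Y) {η α : Eis → ℂ}
    (hα : PSu α) {g : Eis} (hg : IsPrim g) (s : ℝ) : AOK g (afb gt id Y η α g s) where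
  dvd e d m h := (afb_dat hY hα h).1
  prim e d m h := (afb_dat hY hα h).2
  cov h T hh hT hd := by
    refine ⟨1, by simp, fun e δ m hδ => ?_⟩
    rw [one_mul]
    unfold afb
    refine sum_congr rfl fun a ha => ?_
    have hap : IsPrim a := ((mem_S hY).1 ha).2.1
    have e1 : h * T * δ * m = h * δ * (T * m) := by ring
    rw [e1]
    by_cases h0 : xa a (rs g α) (h * δ * (T * m)) = 0
    · rw [h0, mul_zero, mul_zero]
    obtain ⟨n, n1, n2, n3⟩ := xa_ne hap.ne_zero h0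
    obtain ⟨n4, n5⟩ := rs_ne n3
    have hag : IsCoprime a g := n2.of_isCoprime_of_dvd_right n4
    have hTa : IsCoprime T a := hag.symm.of_isCoprime_of_dvd_left ((dvd_mul_left T h).trans hd)
    have e2 : gp (h * T * δ) a = gp (h * δ) a := by
      rw [show h * T * δ = T * (h * δ) by ring]
      exact gp_cop_left hap hTa
    have e3 : gp (h * T * δ) (id a) = gp (h * δ) (id a) := e2
    rw [e3, hgt _ _ a e e2]

lemma aokb_g {gt : Eis → Eis → Eis → ℂ} (hgt : GOK gt) {Y : ℝ} (hY : 0 ≤ Y) {η α : Eis → ℂ}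
    (hα : PSu α) {g : Eis} (hg : IsPrim g) (s : ℝ) :
    AOK g (afb gt (fun _ => g) Y η α g s) where
  dvd e d m h := (afb_dat hY hα h).1
  prim e d m h := (afb_dat hY hα h).2
  cov h T hh hT hd := by
    refine ⟨pw (-3 * s) (nm T), (norm_pw _ _).le, fun e δ m hδ => ?_⟩
    unfold afb
    rw [mul_sum]
    refine sum_congr rfl fun a ha => ?_
    have hap : IsPrim a := ((mem_S hY).1 ha).2.1
    have e1 : h * T * δ * m = h * δ * (T * m) := by ring
    rw [e1]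
    by_cases h0 : xa a (rs g α) (h * δ * (T * m)) = 0
    · rw [h0]; ring
    obtain ⟨n, n1, n2, n3⟩ := xa_ne hap.ne_zero h0
    obtain ⟨n4, n5⟩ := rs_ne n3
    have hag : IsCoprime a g := n2.of_isCoprime_of_dvd_right n4
    have hTa : IsCoprime T a := hag.symm.of_isCoprime_of_dvd_left ((dvd_mul_left T h).trans hd)
    have e5 : gp (h * T * δ) a = gp (h * δ) a := by
      rw [show h * T * δ = T * (h * δ) by ring]
      exact gp_cop_left hap hTa
    have e2 : gp (h * T * δ) g = h * T := gp_of_mul hg hh hT hd hδ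
    have e3 : gp (h * δ) g = h := by
      have h1 := gp_of_mul hg hh isPrim_one (by rw [mul_one]; exact (dvd_mul_right h T).trans hd) hδ
      rwa [mul_one] at h1
    have e4 : pw (-3 * s) (nm (h * T)) = pw (-3 * s) (nm h) * pw (-3 * s) (nm T) :=
      GrT828.pw_mul' hh hT
    rw [e2, e3, e4, hgt _ _ a e e5]
    ring

lemma aok5 {E0 Y : ℝ} (hY : 0 ≤ Y) {η α : Eis → ℂ} (hα : PSu α) {g : Eis} (hg : IsPrim g)
    (c : Fin 5) (s : ℝ) : AOK g (afb (gt5 E0 Y g c) (q5 g c) Y η α g s) := by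
  fin_cases c
  · exact aokb_id (gok_gtb _ _) hY hα hg s
  · exact aokb_g (gok_gtb _ _) hY hα hg s
  · exact aokb_id (gok_gtb _ _) hY hα hg s
  · exact aokb_g (gok_gtb _ _) hY hα hg s
  · exact aokb_id (gok_gtb _ _) hY hα hg s

/-! ### reduced coordinates -/

/-- the reduced coefficient -/
def afrb (gt : Eis → Eis → Eis → ℂ) (q : Eis → Eis) (Y : ℝ) (η α : Eis → ℂ) (g h : Eis) (s : ℝ)
    (e d m : Eis) : ℂ := pw (2 * s) (nm d) * afd (afb gt q Y η α g s) g h e d m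

lemma SteT_ompb {gt : Eis → Eis → Eis → ℂ} {q : Eis → Eis} {Y : ℝ} {η α : Eis → ℂ} {g h : Eis}
    {D : ℝ} (hD : 0 ≤ D) (i : ℕ) (s E' : ℝ) (k : Eis) :
    SteT (JB D) (omr g h i s) E' (T3 (afd (afb gt q Y η α g s) g h)) k =
      SteT (JB D) (omp (g / h) i s) E' (T3 (afrb gt q Y η α g h s)) k := by
  classical
  unfold SteT
  refine sum_congr rfl fun x hx => ?_
  obtain ⟨x1, x2, x3, x4⟩ := (mem_JB hD).1 hx
  have e1 : ∀ e, T3 (afrb gt q Y η α g h s) x.1 e x.2 =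
      pw (2 * s) (nm x.1) * T3 (afd (afb gt q Y η α g s) g h) x.1 e x.2 := by
    intro e
    unfold T3 afrb
    rw [← tsum_mul_left]
    refine tsum_congr fun m => ?_
    split_ifs
    · ring
    · rw [mul_zero]
  have e2 : pw s (nm (ln x)) = pw s (nm x.2) * pw (2 * s) (nm x.1) := by
    have h1 : (nm x.1 : ℝ) ≠ 0 := by exact_mod_cast (nm_pos.2 x1.ne_zero).ne'
    have h2 : (nm x.2 : ℝ) ≠ 0 := by exact_mod_cast (nm_pos.2 (JC_ne_zero x3)).ne'
    unfold ln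
    rw [nm_mul, nm_pow]
    push_cast
    unfold pw osc
    rw [← Complex.exp_add, Real.log_mul h2 (pow_ne_zero 2 h1), Real.log_pow]
    congr 1
    push_cast
    ring
  have e3 : ∑ e ∈ (S E').filter (fun e => e ∣ k), (muE e : ℂ) *
      T3 (afrb gt q Y η α g h s) x.1 e x.2 = pw (2 * s) (nm x.1) *
      ∑ e ∈ (S E').filter (fun e => e ∣ k), (muE e : ℂ) *
        T3 (afd (afb gt q Y η α g s) g h) x.1 e x.2 := by
    rw [mul_sum]
    refine sum_congr rfl fun e _ => ?_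
    rw [e1]; ring
  unfold omr omp
  rw [e2, e3]
  ring

/-- one type of terms -/
lemma one_typeb {gt : Eis → Eis → Eis → ℂ} {q : Eis → Eis} {Y : ℝ} (hY : 1 ≤ Y) {η α : Eis → ℂ}
    {g : Eis} (hg : g ∈ S Y) (ha : ∀ s, AOK g (afb gt q Y η α g s)) {J M : ℕ} {D E' : ℝ}
    (hD : 0 ≤ D) (hDM : Real.exp (Real.log 2 * (M + 1)) * Y ^ 3 ≤ D ^ 2)
    {K : Finset Eis} {W : Eis → ℝ} (hW : ∀ k ∈ K, 0 ≤ W k) {Bd : ℝ}
    {I : Finset ℕ} (hI : I ⊆ range M)
    (hB : ∀ i ∈ I, ∀ h ∈ dvs g, ∀ s : ℝ, ∑ k ∈ K, W k *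
      ‖SteT (JB D) (omp (g / h) i s) E' (T3 (afrb gt q Y η α g h s)) k‖ ^ 2 ≤
        Bd * (1 + |s|) ^ J) :
    ∑ i ∈ I, ∫ s, ew (J + 2) 2 s * ∑ k ∈ K, W k *
      ‖SteT (JB D) (omz g i s) E' (T3 (afb gt q Y η α g s)) k‖ ^ 2 ≤
      I.card * ((tau g : ℝ) ^ 4 * Bd * iA 2) := by
  have hY0 : 0 ≤ Y := by linarith
  obtain ⟨g1, g2, g3⟩ := (mem_S hY0).1 hg
  rw [← nsmul_eq_mul]
  refine sum_le_card_nsmul _ _ _ fun i hi => ?_
  have hiM : (i : ℝ) + 1 ≤ M + 1 := by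
    have := mem_range.1 (hI hi)
    have h2 : (i : ℝ) < M := by exact_mod_cast this
    linarith
  have hl := Real.log_pos (by norm_num : (1 : ℝ) < 2)
  have hiD : Real.exp (Real.log 2 * (i + 1)) * (nm g : ℝ) ^ 3 ≤ D ^ 2 := by
    refine le_trans ?_ hDM
    refine mul_le_mul (Real.exp_le_exp.2 (mul_le_mul_of_nonneg_left hiM hl.le))
      (pow_le_pow_left₀ (Nat.cast_nonneg _) g1 3) (by positivity) (Real.exp_pos _).le
  have hcard : ((dvs g).card : ℝ) = tau g := rfl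
  have htau : (1 : ℝ) ≤ tau g := by
    have : 0 < tau g := Finset.card_pos.mpr ⟨1, one_mem_dvs g2.ne_zero⟩
    exact_mod_cast this
  have hBd : 0 ≤ Bd := by
    have h1 := hB i hi 1 (one_mem_dvs g2.ne_zero) 0
    rw [abs_zero, add_zero, one_pow, mul_one] at h1
    exact le_trans (sum_nonneg fun k hk => mul_nonneg (hW k hk) (by positivity)) h1
  have key : ∀ s : ℝ, ∑ k ∈ K, W k *
      ‖SteT (JB D) (omz g i s) E' (T3 (afb gt q Y η α g s)) k‖ ^ 2 ≤
      (tau g : ℝ) ^ 4 * Bd * (1 + |s|) ^ J := by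
    intro s
    have h1 : ∀ k ∈ K, W k * ‖SteT (JB D) (omz g i s) E' (T3 (afb gt q Y η α g s)) k‖ ^ 2 ≤
        (tau g : ℝ) ^ 3 * ∑ h ∈ dvs g, W k *
          ‖SteT (JB D) (omp (g / h) i s) E' (T3 (afrb gt q Y η α g h s)) k‖ ^ 2 := by
      intro k hk
      have h2 := red g2 g3 (ha s) hD hiD s E' k
      have h3 := pow_le_pow_left₀ (norm_nonneg _) h2 2
      simp only [SteT_ompb hD] at h3
      rw [mul_pow] at h3
      have h4 := sum3_sq (dvs g) (fun h =>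
        ‖SteT (JB D) (omp (g / h) i s) E' (T3 (afrb gt q Y η α g h s)) k‖)
      rw [hcard] at h4
      have h5 : ‖SteT (JB D) (omz g i s) E' (T3 (afb gt q Y η α g s)) k‖ ^ 2 ≤
          (tau g : ℝ) ^ 3 * ∑ h ∈ dvs g,
            ‖SteT (JB D) (omp (g / h) i s) E' (T3 (afrb gt q Y η α g h s)) k‖ ^ 2 := by
        refine h3.trans ((mul_le_mul_of_nonneg_left h4 (by positivity)).trans (le_of_eq ?_))
        ring
      refine (mul_le_mul_of_nonneg_left h5 (hW k hk)).trans (le_of_eq ?_)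
      rw [mul_left_comm, mul_sum]
    refine (sum_le_sum h1).trans ?_
    rw [← mul_sum, sum_comm]
    have h6 : ∑ h ∈ dvs g, ∑ k ∈ K, W k *
        ‖SteT (JB D) (omp (g / h) i s) E' (T3 (afrb gt q Y η α g h s)) k‖ ^ 2 ≤
        (dvs g).card • (Bd * (1 + |s|) ^ J) :=
      sum_le_card_nsmul _ _ _ fun h hh => hB i hi h hh s
    rw [nsmul_eq_mul, hcard] at h6
    refine (mul_le_mul_of_nonneg_left h6 (by positivity)).trans (le_of_eq ?_)
    ring
  have hint : Integrable fun s : ℝ => ((tau g : ℝ) ^ 4 * Bd) * ew 2 2 s :=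
    (integrable_ew le_rfl (by norm_num)).const_mul _
  have h7 : ∫ s, ew (J + 2) 2 s * ∑ k ∈ K, W k *
      ‖SteT (JB D) (omz g i s) E' (T3 (afb gt q Y η α g s)) k‖ ^ 2 ≤
      ∫ s : ℝ, ((tau g : ℝ) ^ 4 * Bd) * ew 2 2 s := by
    refine integral_mono_of_nonneg (Filter.Eventually.of_forall fun s => ?_) hint
      (Filter.Eventually.of_forall fun s => ?_)
    · exact mul_nonneg (ew_nonneg (by norm_num) s)
        (sum_nonneg fun k hk => mul_nonneg (hW k hk) (by positivity))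
    · have h8 := mul_le_mul_of_nonneg_left (key s) (ew_nonneg (A := J + 2) (η := 2) (by norm_num) s)
      refine h8.trans ?_
      have h9 := ew_shift (A := J + 2) (J := J) le_rfl (η := 2) (by norm_num) s 0
      rw [zero_add, abs_zero, mul_zero, add_zero, one_pow, one_mul] at h9
      have h10 : ew (J + 2) 2 s * (1 + |s|) ^ J ≤ ew (J + 2) 2 s * (1 + 2 * |s|) ^ J := by
        refine mul_le_mul_of_nonneg_left ?_ (ew_nonneg (by norm_num) s)
        exact pow_le_pow_left₀ (by positivity) (by linarith [abs_nonneg s]) J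
      calc ew (J + 2) 2 s * ((tau g : ℝ) ^ 4 * Bd * (1 + |s|) ^ J) =
          ((tau g : ℝ) ^ 4 * Bd) * (ew (J + 2) 2 s * (1 + |s|) ^ J) := by ring
        _ ≤ ((tau g : ℝ) ^ 4 * Bd) * ew 2 2 s :=
          mul_le_mul_of_nonneg_left (h10.trans h9) (by positivity)
  refine h7.trans (le_of_eq ?_)
  rw [integral_const_mul, integral_ew 2 (by norm_num)]

/-- **the mismatch in reduced coordinates, with the gate below the top** -/
theorem mism3 (J : ℕ) : ∃ C : ℝ, 0 ≤ C ∧ ∀ (M n : ℕ) (Y E0 E' D D₀ : ℝ), 1 ≤ Y → 0 ≤ D₀ →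
    D₀ ≤ D → Real.exp (Real.log 2 * n) * Y ^ 2 ≤ D₀ ^ 2 →
    Real.log 2 * n + 2 * Real.log Y + Real.log 2 ≤ Real.log 2 * M →
    Real.exp (Real.log 2 * (M + 1)) * Y ^ 3 ≤ D ^ 2 → ∀ (η α : Eis → ℂ),
    (∀ n, η n ≠ 0 → (nm n : ℝ) ≤ Y) → FS α → PSu α → ∀ g ∈ S Y,
    ∀ (K : Finset Eis) (W : Eis → ℝ), (∀ k ∈ K, 0 ≤ W k) → ∀ Bd : ℝ, 0 ≤ Bd →
    (∀ c : Fin 5, ∀ i ∈ I5 g M n Y c, ∀ h ∈ dvs g, ∀ s : ℝ, ∑ k ∈ K, W k *
      ‖SteT (JB D) (omp (g / h) i s) E' (T3 (afrb (gt5 E0 Y g c) (q5 g c) Y η α g h s)) k‖ ^ 2 ≤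
        Bd * (1 + |s|) ^ J) →
    ∑ k ∈ K, W k * ‖SteT (JB D₀) (fun _ => 1) E' (Tm E0 Y (oD (range n)) η α g) k‖ ^ 2 ≤
      C * (M : ℝ) ^ 2 * (n : ℝ) ^ 2 * (tau g : ℝ) ^ 4 * Bd := by
  obtain ⟨C, hC, H⟩ := mismb (A := J + 2) (by omega)
  have hA2 := iA_nonneg 2
  refine ⟨5 * C * iA 2, by positivity, ?_⟩
  intro M n Y E0 E' D D₀ hY hD₀ hDD hn hM hDM η α hη hα hα2 g hg K W hW Bd hBd hB
  have hY0 : 0 ≤ Y := by linarith
  have hD : 0 ≤ D := hD₀.trans hDD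
  obtain ⟨p1, p2, p3⟩ := (mem_S hY0).1 hg
  have h1 := H (JB D) (okJ_JB D) M n Y E0 E' hY0 hM η α hη hα g p2 K W hW
  have e1 : ∀ k, SteT (JB D₀) (fun _ => 1) E' (Tm E0 Y (oD (range n)) η α g) k =
      SteT (JB D) (fun _ => 1) E' (Tm E0 Y (oD (range n)) η α g) k := fun k =>
    Tm_big hD₀ hDD hY hn hg k
  simp only [e1]
  refine h1.trans ?_
  have hX : 0 ≤ (tau g : ℝ) ^ 4 * Bd * iA 2 := by positivity
  have t : ∀ c : Fin 5, ∑ i ∈ I5 g M n Y c, ∫ s, ew (J + 2) 2 s * ∑ k ∈ K, W k *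
      ‖SteT (JB D) (omz g i s) E' (T3 (afb (gt5 E0 Y g c) (q5 g c) Y η α g s)) k‖ ^ 2 ≤
      M * ((tau g : ℝ) ^ 4 * Bd * iA 2) := by
    intro c
    have c1 : ((I5 g M n Y c).card : ℝ) ≤ M := by
      have : (I5 g M n Y c).card ≤ (range M).card := card_le_card (I5_sub g M n Y c)
      rw [card_range] at this
      exact_mod_cast this
    exact (one_typeb hY hg (fun s => aok5 hY0 hα2 p2 c s) hD hDM hW (I5_sub g M n Y c)
      (hB c)).trans (mul_le_mul_of_nonneg_right c1 hX)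
  have h5 : 0 ≤ C * (M * (n : ℝ) ^ 2) := by positivity
  refine (mul_le_mul_of_nonneg_left (sum_le_sum fun c _ => t c) h5).trans (le_of_eq ?_)
  rw [sum_const, card_univ, Fintype.card_fin, nsmul_eq_mul]
  push_cast
  ring

end Crest.Agent.R017.StJ319
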