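import Crest.Agent.R017.GrU5_404
import Crest.Agent.R017.StJ_319
import Crest.Agent.R017.OTb_551

/-!
# Row 17, R8/P1: the `T`-numbers of the mismatch at one `d` (helper404)

* `Wb`, `wok5`, `y5`, `y5_le` : the weights of 319's five types, the gate
* `norm_TE0_afrb` : the inner sums of the reduced coefficient at `j = κ c³`
* `TPdP`, `TPd` : the number of one line at one `d`, all frequencies
* `TPd_cf` : cube-free frequencies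
-/

set_option autoImplicit false

noncomputable section

open Finset MeasureTheory
open scoped ComplexConjugate

namespace Crest.Agent.R017.GrG404

open Crest.Agent.R012 Crest.Agent.R012.Eis
open Crest.Agent.R012.Div277 (tau dvs mem_dvs tau_le_rpow)
open Crest.Agent.R012.LS2 (S mem_S bl mem_bl)
open Crest.Agent.R012.Weight600 (osc norm_osc pw norm_pw)
open Crest.Agent.R012.Mob705 (mu)
open Crest.Agent.R017.CM106 (CS TG FS)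
open Crest.Agent.R017.HP842 (Pc pc al cv Tu mem_Tu sc' scS sqc Th card_Tu_le)
open Crest.Agent.R017.Rough381 (sh shS sh_OK VF nm_prodI)
open Crest.Agent.R017.FE47 (PU cx)
open Crest.Agent.R017.StA828 Crest.Agent.R017.StC828 Crest.Agent.R017.StF828
open Crest.Agent.R017.StB828 (one_le_nmR)
open Crest.Agent.R017.GrC828 Crest.Agent.R017.GrT828 Crest.Agent.R017.StG828
open Crest.Agent.R017.StJ319
open Crest.Agent.R017.E2440 (TE)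
open Crest.Agent.R017.E3D579 (TE0)
open Crest.Agent.R017.E3T829 (cg)
open Crest.Agent.R017.E1551 (Adm CF exists_cf BF mem_BF)
open Crest.Agent.R017.DgA829 (lc lc_prim lc_dvd lc_unique)

/-! ### the weights -/

/-- the weights of 319's coefficients -/
def Wb (gt : Eis → Eis → Eis → ℂ) (q : Eis → Eis) (t : ℝ) (e d a : Eis) : ℂ :=
  gt d a e * (pw t (nm (q a)) * pw (-3 * t) (nm (gp d (q a))))

lemma afb_eq (gt : Eis → Eis → Eis → ℂ) (q : Eis → Eis) (Y : ℝ) (η α : Eis → ℂ) (g : Eis) (t : ℝ)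
    (e d m : Eis) : afb gt q Y η α g t e d m = afW (Wb gt q t) Y η α g e d m := rfl

lemma norm_Wb_le {gt : Eis → Eis → Eis → ℂ} (h : ∀ d a e, ‖gt d a e‖ ≤ 1) (q : Eis → Eis) (t : ℝ)
    (e d a : Eis) : ‖Wb gt q t e d a‖ ≤ 1 := by
  unfold Wb
  rw [norm_mul, norm_mul, norm_pw, norm_pw, one_mul, mul_one]
  exact h d a e

lemma wokb_id1 (E0 c t : ℝ) : WOK t (Wb (gtb (g1 E0) c) id t) where
  le := norm_Wb_le (norm_gtb_le (norm_g1_le E0) c) id t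
  mul e d a b _ ha hb hd he := by
    unfold Wb gtb g1
    simp only [id]
    rw [gp_mul_cop ha hb hd, pw_mul' ha hb]
    ring

lemma wokb_g (E0 c t : ℝ) (g : Eis) : WOK 0 (Wb (gtb (g1 E0) c) (fun _ => g) t) where
  le := norm_Wb_le (norm_gtb_le (norm_g1_le E0) c) _ t
  mul e d a b _ ha hb hd he := by
    unfold Wb gtb g1
    have : pw 0 (nm b) = 1 := by unfold pw osc; simp
    rw [gp_mul_cop ha hb hd, this, mul_one]

lemma wokb_id2 (E0 c t : ℝ) : WOK t (Wb (gtb (g2 E0) c) id t) where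
  le := norm_Wb_le (norm_gtb_le (norm_g2_le E0) c) id t
  mul e d a b _ ha hb hd he := by
    unfold Wb gtb g2
    simp only [id]
    rw [gp_mul_cop ha hb hd, gp_mul_cop ha hb he, pw_mul' ha hb]
    ring

/-- the five types are admissible -/
lemma wok5 (E0 Y : ℝ) (g : Eis) (c : Fin 5) (t : ℝ) :
    ∃ θ : ℝ, |θ| ≤ |t| ∧ WOK θ (Wb (gt5 E0 Y g c) (q5 g c) t) := by
  fin_cases c
  · exact ⟨t, le_rfl, wokb_id1 _ _ _⟩
  · exact ⟨0, by simp, wokb_g _ _ _ _⟩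
  · exact ⟨t, le_rfl, wokb_id1 _ _ _⟩
  · exact ⟨0, by simp, wokb_g _ _ _ _⟩
  · exact ⟨t, le_rfl, wokb_id2 _ _ _⟩

/-- the gate: the largest possible `log N(gp d a)` -/
def y5 (Y : ℝ) (g : Eis) : Fin 5 → ℝ :=
  ![(Real.log Y + Real.log (nm g)) / 3, (Real.log Y + Real.log (nm g)) / 3, Real.log Y,
    Real.log Y, Real.log Y]

lemma gate_lo {gt : Eis → Eis → ℂ} {q : Eis → Eis} {t Y : ℝ} {g e d a : Eis} (hg : IsPrim g)
    (ha : IsPrim a) (h : Wb (gtb gt (Y * nm g)) q t e d a ≠ 0) :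
    Real.log (nm (gp d a)) ≤ (Real.log Y + Real.log (nm g)) / 3 := by
  have h1 := gtb_ne (left_ne_zero_of_mul h)
  have h2 := one_le_nmR (gp_spec d ha).1
  have hg0 := one_le_nmR hg
  have h3 : (1 : ℝ) ≤ (nm (gp d a) : ℝ) ^ 3 := one_le_pow₀ h2
  have hY : 0 < Y := by
    by_contra hc
    push Not at hc
    have : Y * nm g ≤ 0 := mul_nonpos_of_nonpos_of_nonneg hc (by linarith)
    linarith
  have h4 := Real.log_le_log (by linarith) h1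
  rw [Real.log_pow, Real.log_mul hY.ne' (by linarith)] at h4
  push_cast at h4
  linarith

lemma gate_hi {gt : Eis → Eis → ℂ} {q : Eis → Eis} {t Y : ℝ} {e d a : Eis}
    (ha : IsPrim a) (h : Wb (gtb gt (Y ^ 3)) q t e d a ≠ 0) :
    Real.log (nm (gp d a)) ≤ Real.log Y := by
  have h1 := gtb_ne (left_ne_zero_of_mul h)
  have h2 := one_le_nmR (gp_spec d ha).1
  have h3 : (1 : ℝ) ≤ (nm (gp d a) : ℝ) ^ 3 := one_le_pow₀ h2
  have h4 := Real.log_le_log (by linarith) h1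
  rw [Real.log_pow, Real.log_pow] at h4
  push_cast at h4
  linarith

lemma y5_le {E0 Y t : ℝ} {g : Eis} (hg : IsPrim g) (c : Fin 5) {e d a : Eis} (ha : IsPrim a)
    (h : Wb (gt5 E0 Y g c) (q5 g c) t e d a ≠ 0) : Real.log (nm (gp d a)) ≤ y5 Y g c := by
  fin_cases c
  · exact gate_lo hg ha h
  · exact gate_lo hg ha h
  · exact gate_hi ha h
  · exact gate_hi ha h
  · exact gate_hi ha h

/-! ### the inner sums -/

lemma lc_shuffle {c e t t' : Eis} (hc : IsPrim c) (he : IsPrim e) (ht : IsPrim t)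
    (ht' : IsPrim t') : lc c (lc (lc e t) t') = lc (lc c e) (lc t t') := by
  refine lc_unique hc (lc_prim (lc_prim he ht) ht') (lc_prim (lc_prim hc he) (lc_prim ht ht'))
    fun k => ?_
  rw [lc_dvd (lc_prim hc he) (lc_prim ht ht'), lc_dvd hc he, lc_dvd ht ht',
    lc_dvd (lc_prim he ht) ht', lc_dvd he ht]
  tauto

lemma sq_sum2_le {β : Type*} (T : Finset β) (f : β → ℂ) :
    ‖∑ x ∈ T, f x‖ ^ 2 ≤ (T.card : ℝ) * ∑ x ∈ T, ‖f x‖ ^ 2 := by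
  have h1 : ‖∑ x ∈ T, f x‖ ^ 2 ≤ (∑ x ∈ T, ‖f x‖) ^ 2 :=
    pow_le_pow_left₀ (norm_nonneg _) (norm_sum_le _ _) 2
  exact h1.trans sq_sum_le_card_mul_sum_sq

lemma norm_mu_mul_sq (t : Eis) (z : ℂ) : ‖(mu t : ℂ) * z‖ ^ 2 ≤ ‖z‖ ^ 2 := by
  rw [norm_mul]
  have m1 : ‖(mu t : ℂ)‖ ≤ 1 := by
    rw [Complex.norm_intCast]; exact_mod_cast Mob705.abs_mu_le_one t
  exact pow_le_pow_left₀ (by positivity) (mul_le_of_le_one_left (norm_nonneg _) m1) 2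

/-- the inner sums of a coefficient supported on the multiples of `c₁`, at `j = κ c³` -/
lemma norm_TE0_two {b : Eis → ℂ} {Y : ℝ} (hY : 0 ≤ Y) (hb : ∀ m, b m ≠ 0 → m ∈ S Y) {c₁ : Eis}
    (hc₁ : IsPrim c₁) (hbc : ∀ m, b m ≠ 0 → c₁ ∣ m) {γ c e : Eis} (hγ : IsPrim γ) (hc : c ≠ 0)
    (he : IsPrim e) (dl κ : Eis) :
    ‖TE0 (cg γ b) dl (κ * c ^ 3) e‖ ^ 2 ≤ ((tau c : ℝ) * tau γ) * ∑ t ∈ dvs c, ∑ t' ∈ dvs γ,
      ‖TE b (1, κ) (lc (lc c₁ e) (lc t t'))‖ ^ 2 := by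
  have hs : ∀ m, cg γ b m ≠ 0 → m ∈ S Y := fun m hm => by
    have h0 : b m ≠ 0 := fun h => hm (by unfold E3T829.cg; simp [h])
    exact hb m h0
  have h1 := OT551.norm_TE0_cube hY hs dl κ c e
  rw [OT551.TE0_cg hY hs hc κ he] at h1
  have h2 : ∀ t ∈ dvs c, ‖(mu t : ℂ) * TE0 (cg γ b) 1 κ (lc e t)‖ ^ 2 ≤
      (tau γ : ℝ) * ∑ t' ∈ dvs γ, ‖TE b (1, κ) (lc (lc c₁ e) (lc t t'))‖ ^ 2 := by
    intro t ht
    have htp := ((mem_dvs hc).mp ht).1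
    refine (norm_mu_mul_sq _ _).trans ?_
    rw [OT551.TE0_cg hY hb hγ.ne_zero κ (lc_prim he htp)]
    refine (sq_sum2_le _ _).trans ?_
    refine mul_le_mul_of_nonneg_left (Finset.sum_le_sum fun t' ht' => ?_) (Nat.cast_nonneg _)
    have htp' := ((mem_dvs hγ.ne_zero).mp ht').1
    refine (norm_mu_mul_sq _ _).trans (le_of_eq ?_)
    rw [TE0_D hc₁ (lc_prim (lc_prim he htp) htp') hbc, if_pos isCoprime_one_right,
      lc_shuffle hc₁ he htp htp']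
  calc ‖TE0 (cg γ b) dl (κ * c ^ 3) e‖ ^ 2 ≤
        ‖∑ t ∈ dvs c, (mu t : ℂ) * TE0 (cg γ b) 1 κ (lc e t)‖ ^ 2 :=
        pow_le_pow_left₀ (norm_nonneg _) h1 2
    _ ≤ ((dvs c).card : ℝ) * ∑ t ∈ dvs c, ‖(mu t : ℂ) * TE0 (cg γ b) 1 κ (lc e t)‖ ^ 2 :=
        sq_sum2_le _ _
    _ ≤ ((dvs c).card : ℝ) * ∑ t ∈ dvs c, ((tau γ : ℝ) *
          ∑ t' ∈ dvs γ, ‖TE b (1, κ) (lc (lc c₁ e) (lc t t'))‖ ^ 2) :=
        mul_le_mul_of_nonneg_left (Finset.sum_le_sum h2) (Nat.cast_nonneg _)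
    _ = _ := by
        rw [← Finset.mul_sum]
        unfold Div277.tau
        ring

/-- a factor of norm at most one -/
lemma norm_TE0_smul_le {b b' : Eis → ℂ} {z : ℂ} (hz : ‖z‖ ≤ 1) (h : ∀ m, b' m = z * b m)
    (γ dl j e : Eis) : ‖TE0 (cg γ b') dl j e‖ ≤ ‖TE0 (cg γ b) dl j e‖ := by
  have e1 : TE0 (cg γ b') dl j e = z * TE0 (cg γ b) dl j e := by
    unfold E3D579.TE0 E3T829.cg
    rw [← tsum_mul_left]
    refine tsum_congr fun m => ?_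
    rw [h m]
    split_ifs <;> ring
  rw [e1, norm_mul]
  exact mul_le_of_le_one_left (norm_nonneg _) hz

open Classical in
/-- the sum over the frequencies -/
lemma sum_cubes {W : ℝ} (hW : 0 ≤ W) {Js : Finset Eis}
    (hJ : ∀ j ∈ Js, j ≠ 0 ∧ (nm j : ℝ) ≤ W) {P : ℝ → Prop}
    (hP : ∀ j ∈ Js, ∀ κ c : Eis, j = κ * c ^ 3 → P (Real.log (nm c)))
    {F : Eis → ℝ} {Gf : Eis → Eis → ℝ}
    (hG : ∀ c κ, 0 ≤ Gf c κ) (hF : ∀ κ c, CF κ → c ≠ 0 → F (κ * c ^ 3) ≤ Gf c κ) :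
    ∑ j ∈ Js, F j ≤ ∑ c ∈ (bl W).filter (fun c => (nm c : ℝ) ^ 3 ≤ W ∧ P (Real.log (nm c))),
      ∑ κ ∈ BF (W / (nm c : ℝ) ^ 3), Gf c κ := by
  have hdec : ∀ j : Eis, ∃ x : Eis × Eis, j ≠ 0 → j = x.1 * x.2 ^ 3 ∧ CF x.1 ∧ x.2 ≠ 0 := by
    intro j
    by_cases hj : j = 0
    · exact ⟨(1, 1), fun h => absurd hj h⟩
    · obtain ⟨κ, s, h⟩ := exists_cf hj
      exact ⟨(κ, s), fun _ => h⟩
  choose kc hkc using hdec
  have hn : ∀ j ∈ Js, (nm (kc j).1 : ℝ) * (nm (kc j).2 : ℝ) ^ 3 ≤ W ∧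
      (1 : ℝ) ≤ nm (kc j).1 ∧ (1 : ℝ) ≤ nm (kc j).2 := by
    intro j hj
    obtain ⟨f1, f2, f3⟩ := hkc j (hJ j hj).1
    refine ⟨?_, by exact_mod_cast nm_pos.mpr f2.1, by exact_mod_cast nm_pos.mpr f3⟩
    have f4 : (nm j : ℝ) = nm (kc j).1 * (nm (kc j).2 : ℝ) ^ 3 := by
      conv_lhs => rw [f1]
      rw [nm_mul, nm_pow]; push_cast; ring
    rw [← f4]
    exact (hJ j hj).2
  have hmap : ∀ j ∈ Js, (kc j).2 ∈
      (bl W).filter (fun c => (nm c : ℝ) ^ 3 ≤ W ∧ P (Real.log (nm c))) := by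
    intro j hj
    obtain ⟨n1, n2, n3⟩ := hn j hj
    have n4 : (nm (kc j).2 : ℝ) ^ 3 ≤ W :=
      le_trans (le_mul_of_one_le_left (by positivity) n2) n1
    rw [Finset.mem_filter, mem_bl hW]
    refine ⟨⟨(hkc j (hJ j hj).1).2.2, le_trans ?_ n4⟩, n4, hP j hj _ _ (hkc j (hJ j hj).1).1⟩
    exact le_self_pow₀ n3 (by norm_num)
  rw [← Finset.sum_fiberwise_of_maps_to (g := fun j => (kc j).2) hmap]
  refine Finset.sum_le_sum fun c hc => ?_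
  have hinj : Set.InjOn (fun j => (kc j).1) (Js.filter (fun j => (kc j).2 = c) : Finset Eis) := by
    intro x hx y hy hxy
    have hx' := Finset.mem_filter.1 (Finset.mem_coe.1 hx)
    have hy' := Finset.mem_filter.1 (Finset.mem_coe.1 hy)
    have h1 := (hkc x (hJ x hx'.1).1).1
    have h2 := (hkc y (hJ y hy'.1).1).1
    beta_reduce at hxy
    rw [h1, h2, hxy, hx'.2, hy'.2]
  calc ∑ j ∈ Js.filter (fun j => (kc j).2 = c), F j ≤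
        ∑ j ∈ Js.filter (fun j => (kc j).2 = c), Gf c ((kc j).1) := by
        refine Finset.sum_le_sum fun j hj => ?_
        obtain ⟨h1, h2⟩ := Finset.mem_filter.1 hj
        obtain ⟨f1, f2, f3⟩ := hkc j (hJ j h1).1
        have h3 := hF _ _ f2 f3
        rw [← f1, h2] at h3
        exact h3
    _ = ∑ κ ∈ (Js.filter (fun j => (kc j).2 = c)).image (fun j => (kc j).1), Gf c κ :=
        (Finset.sum_image hinj).symm
    _ ≤ _ := by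
        refine Finset.sum_le_sum_of_subset_of_nonneg (fun κ hκ => ?_) fun κ _ _ => hG c κ
        obtain ⟨j, hj, rfl⟩ := Finset.mem_image.1 hκ
        obtain ⟨h1, h2⟩ := Finset.mem_filter.1 hj
        obtain ⟨n1, n2, n3⟩ := hn j h1
        rw [mem_BF]
        refine ⟨(hkc j (hJ j h1).1).2.1, ?_⟩
        rw [h2] at n1 n3
        rwa [le_div_iff₀ (by positivity)]

/-! ### the number at one `d` -/

/-- the coefficient of one type -/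
def Ae (Z E0 : ℝ) (η α : Eis → ℂ) (g : Eis) (c : Fin 5) (s : ℝ) (e D : Eis) : Eis → ℂ :=
  afW (Wb (gt5 E0 Z g c) (q5 g c) s) Z η α g e D

lemma norm_TE0_afrb_le (E0 Z : ℝ) (η α : Eis → ℂ) (g hh : Eis) (c : Fin 5) (s : ℝ)
    (e d γ dl j e' : Eis) :
    ‖TE0 (cg γ (afrb (gt5 E0 Z g c) (q5 g c) Z η α g hh s e d)) dl j e'‖ ≤
      ‖TE0 (cg γ (Ae Z E0 η α g c s e (hh * d))) dl j e'‖ := by
  classical
  refine norm_TE0_smul_le (z := pw (2 * s) (nm d) * (if IsCoprime d g then 1 else 0)) ?_ ?_ _ _ _ _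
  · rw [norm_mul, norm_pw, one_mul]
    split_ifs <;> simp
  · intro m
    unfold afrb afd Ae
    rw [← afb_eq]
    split_ifs
    · ring
    · ring

lemma one_le_nm_dvs {a t : Eis} (ha : a ≠ 0) (ht : t ∈ dvs a) :
    IsPrim t ∧ (nm t : ℝ) ≤ nm a := by
  obtain ⟨h1, h2⟩ := (mem_dvs ha).mp ht
  exact ⟨h1, by exact_mod_cast Div277.nm_le_of_dvd ha h2⟩

lemma nm_lc_le' {t t' : Eis} (ht : IsPrim t) (ht' : IsPrim t') :
    (nm (lc t t') : ℝ) ≤ nm t * nm t' := by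
  have h1 : lc t t' ∣ t * t' := (lc_dvd ht ht' _).2 ⟨dvd_mul_right _ _, dvd_mul_left _ _⟩
  have h2 := Div277.nm_le_of_dvd (ht.mul ht').ne_zero h1
  rw [nm_mul] at h2
  exact_mod_cast h2

/-- enlarging the modulus -/
lemma log_U_mono {c₁ e u : Eis} (hc₁ : IsPrim c₁) (he : IsPrim e) (hu : IsPrim u) :
    Real.log (nm (lc c₁ e / c₁)) ≤ Real.log (nm (lc (lc c₁ e) u / c₁)) := by
  have h1 : IsPrim (lc c₁ e) := lc_prim hc₁ he
  have h2 : IsPrim (lc (lc c₁ e) u) := lc_prim h1 hu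
  have d1 : c₁ ∣ lc c₁ e := ((lc_dvd hc₁ he _).1 dvd_rfl).1
  have d2 : lc c₁ e ∣ lc (lc c₁ e) u := ((lc_dvd h1 hu _).1 dvd_rfl).1
  obtain ⟨U, hU⟩ := d1
  obtain ⟨V, hV⟩ := d2
  have e1 : lc c₁ e / c₁ = U := by rw [hU, mul_div_cancel_left₀ _ hc₁.ne_zero]
  have e2 : lc (lc c₁ e) u / c₁ = U * V := by
    rw [hV, hU, mul_assoc, mul_div_cancel_left₀ _ hc₁.ne_zero]
  have hU0 : U ≠ 0 := fun h => h1.ne_zero (by rw [hU, h, mul_zero])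
  have hV0 : V ≠ 0 := fun h => h2.ne_zero (by rw [hV, h, mul_zero])
  rw [e1, e2, nm_mul]
  push_cast
  have n1 : (1 : ℝ) ≤ nm U := by exact_mod_cast nm_pos.mpr hU0
  have n2 : (1 : ℝ) ≤ nm V := by exact_mod_cast nm_pos.mpr hV0
  exact Real.log_le_log (by linarith) (le_mul_of_one_le_right (by linarith) n2)

set_option maxHeartbeats 1000000 in
open Classical in
/-- **the number of one line at one `d`**, cube parts in `P` -/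
theorem TPdP {h : ℝ → ℝ} {c₀ : ℝ} (hpu : PU h c₀) {R : ℝ} (hR0 : 0 ≤ R)
    (hR : ∀ u, cx h u ≠ 0 → |u| ≤ R) (N : ℕ) {B₀ : ℝ} (hB₀ : 0 ≤ B₀) {ε : ℝ} (hε : 0 < ε)
    {M : ℝ} (hM : 0 ≤ M) : ∃ C r : ℝ, 1 ≤ C ∧ 0 ≤ r ∧ ∀ X : ℝ, 3 ≤ X →
    ∀ (ι κ : Type) [Fintype ι] [Fintype κ] [DecidableEq ι] [DecidableEq κ],
    Fintype.card ι + Fintype.card κ ≤ N → ∀ (s1 : ι → Pc) (s2 : κ → Pc), (∀ i, (s1 i).OK) →
    (∀ j, (s2 j).OK) → (∀ i, Real.log (s1 i).Y ≤ Real.log X) →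
    (∀ j, Real.log (s2 j).Y ≤ Real.log X) → ∀ Z : ℝ, 0 ≤ Z →
    (∀ n, sqc 1 (al h s1) n ≠ 0 → (nm n : ℝ) ≤ Z) →
    ∀ (E0 : ℝ) (c : Fin 5) (s : ℝ) (g hh d γ : Eis), IsPrim g → IsPrim hh → IsPrim d →
    IsPrim γ → (nm g : ℝ) ≤ X ^ B₀ → (nm (hh * d) : ℝ) ≤ X ^ B₀ → (nm γ : ℝ) ≤ X ^ B₀ →
    ∀ Es Js : Finset Eis, (∀ e ∈ Es, IsPrim e ∧ (nm e : ℝ) ≤ X ^ B₀) →
    ∀ W : ℝ, W ≤ X ^ B₀ → (∀ j ∈ Js, j ≠ 0 ∧ (nm j : ℝ) ≤ W) →
    ∀ P : ℝ → Prop, (∀ j ∈ Js, ∀ κ' c' : Eis, j = κ' * c' ^ 3 → P (Real.log (nm c'))) →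
    ∀ (ω : Eis → ℝ) (Ω : ℕ → ℝ), (∀ e ∈ Es, 0 ≤ ω e) → (∀ b, 0 ≤ Ω b) →
    (∀ e ∈ Es, ∀ b : ℕ,
      Real.log (nm (lc (cc g (hh * d)) e / cc g (hh * d))) ≤ b + 1 → ω e ≤ Ω b) →
    ∀ (Bf : ℕ → ℝ → ℝ) (G : ℝ), (∀ b k, 0 ≤ Bf b k) → 0 ≤ G →
    (∀ (b : ℕ) (k l : ℝ) (s' : ι ⊕ κ → Pc), (b : ℝ) ≤ 4 * B₀ * Real.log X → 0 ≤ k →
      k ≤ Real.log W + Real.log (nm (cc g (hh * d))) → 0 ≤ l → ChF r s' (Sum.elim s1 s2) →
      |LY s' - (LY s1 + LY s2 - Real.log (nm g) -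
        Real.log (nm (hh * d) * nm (cc g (hh * d))) - b)| ≤ r →
      |l - (k + b)| ≤ r →
      LY s1 - Real.log (nm g) - y5 Z g c - b - r ≤ LY (fun i => s' (.inl i)) →
      VF (Real.exp l) (sqc (hh * d * cc g (hh * d)) (al h s')) ≤
        Bf b k * cF s' (Sum.elim s1 s2) ^ M) →
    (∀ (b : ℕ) (n : ℝ), 0 ≤ n → 3 * n ≤ Real.log W → P n →
      Ω b * Bf b (Real.log W + Real.log (nm (cc g (hh * d))) - 3 * n) ≤ G * Real.exp (-n)) →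
    ∀ dl : Eis, ∑ e ∈ Es, ω e * ∑ j ∈ Js, ‖TE0 (cg γ (afrb (gt5 E0 Z g c) (q5 g c) Z
        (sqc 1 (al h s1)) (sqc 1 (al h s2)) g hh s e d)) dl j e‖ ^ 2 ≤
      C * X ^ ε * (1 + |s|) ^ (N * M) *
        (Real.exp (LY s1 + LY s2) / (nm g * nm (hh * d))) ^ (-(1 / 3) : ℝ) * G := by
  obtain ⟨C₁, r, hC₁, hr, H⟩ := T_numW hpu hR0 hR N (B₀ := 2 * B₀) (by positivity)
    (ε := ε / 4) (by linarith) hM
  set η := ε / (16 * (B₀ + 1)) with hη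
  have hη0 : 0 < η := by positivity
  obtain ⟨C₂, hC₂, hτ⟩ := tau_le_rpow hη0
  obtain ⟨C₃, hC₃, hlog⟩ := Rough381.log_pow_le (ε := ε / 4) (by linarith) 1
    (c₀ := 1) zero_le_one
  obtain ⟨C₄, hC₄, hsum⟩ := Eul571.sum_nm_rpow_le (s := 1 + η) (by linarith)
  refine ⟨1 + C₂ ^ 4 * C₁ * ((4 * B₀ + 1) * C₃) * C₄, r, ?_, hr, ?_⟩
  · have : 0 ≤ C₂ ^ 4 * C₁ * ((4 * B₀ + 1) * C₃) * C₄ := by
      have h1 : 0 ≤ C₁ := by linarith
      have h3 : 0 ≤ C₃ := by linarith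
      positivity
    linarith
  intro X hX ι κ _ _ _ _ hcard s1 s2 h1 h2 h1X h2X Z hZ hsup E0 c s g hh d γ hg hhp hd hγ hgX hdX
    hγX Es Js hEs W hWX hJs P hP ω Ω hω0 hΩ hωΩ Bf G hBf hG hyp hline dl
  have hX1 : (1 : ℝ) ≤ X := by linarith
  have hX0 : (0 : ℝ) < X := by linarith
  have hlX : 0 ≤ Real.log X := Real.log_nonneg hX1
  set D := hh * d with hD
  have hDp : IsPrim D := hhp.mul hd
  set c₁ := cc g D with hc₁
  have hc₁p : IsPrim c₁ := cc_prim hg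
  set X' : ℝ := (Real.exp (LY s1 + LY s2) / (nm g * nm D)) ^ (-(1 / 3) : ℝ) with hX'
  have hX'0 : 0 ≤ X' := by positivity
  have hs1 : 0 ≤ 1 + |s| := by positivity
  have hC10 : 0 ≤ C₁ := by linarith
  have hC30 : 0 ≤ C₃ := by linarith
  have hC20 : 0 ≤ C₂ := by linarith
  rcases Js.eq_empty_or_nonempty with hJe | ⟨j₀, hj₀⟩
  · rw [hJe]
    simp only [Finset.sum_empty, mul_zero, Finset.sum_const_zero]
    have : 0 ≤ 1 + C₂ ^ 4 * C₁ * ((4 * B₀ + 1) * C₃) * C₄ := by positivity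
    positivity
  have hW1 : 1 ≤ W := by
    have h3 : (1 : ℝ) ≤ nm j₀ := by exact_mod_cast nm_pos.mpr (hJs j₀ hj₀).1
    exact h3.trans (hJs j₀ hj₀).2
  have hW0 : 0 < W := by linarith
  have hlW : 0 ≤ Real.log W := Real.log_nonneg hW1
  have hlWX : Real.log W ≤ B₀ * Real.log X := by
    have h3 := Real.log_le_log hW0 hWX
    rwa [Real.log_rpow hX0] at h3
  have hc₁1 : (1 : ℝ) ≤ nm c₁ := one_le_nmR hc₁p
  have hc₁X : (nm c₁ : ℝ) ≤ X ^ B₀ := by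
    refine le_trans ?_ hgX
    exact_mod_cast Div277.nm_le_of_dvd hg.ne_zero (cc_dvd hg)
  have hlc₁ : 0 ≤ Real.log (nm c₁) := Real.log_nonneg hc₁1
  have hlc₁X : Real.log (nm c₁) ≤ B₀ * Real.log X := by
    have h3 := Real.log_le_log (by linarith) hc₁X
    rwa [Real.log_rpow hX0] at h3
  have hXB : X ^ B₀ ≤ X ^ (2 * B₀) := Real.rpow_le_rpow_of_exponent_le hX1 (by linarith)
  have hXB2 : X ^ B₀ * X ^ B₀ = X ^ (2 * B₀) := by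
    rw [← Real.rpow_add hX0]; congr 1; ring
  obtain ⟨θ, hθs, hWok⟩ := wok5 E0 Z g c s
  set Wt := Wb (gt5 E0 Z g c) (q5 g c) s with hWt
  set Cs := (bl W).filter (fun c => (nm c : ℝ) ^ 3 ≤ W ∧ P (Real.log (nm c))) with hCs
  have hCs' : ∀ c' ∈ Cs, c' ≠ 0 ∧ (nm c' : ℝ) ≤ W ∧ (nm c' : ℝ) ^ 3 ≤ W ∧ (1 : ℝ) ≤ nm c' := by
    intro c' hc'
    obtain ⟨k1, k2, -⟩ := Finset.mem_filter.1 hc'
    obtain ⟨k3, k4⟩ := (mem_bl hW0.le).1 k1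
    exact ⟨k3, k4, k2, by exact_mod_cast nm_pos.mpr k3⟩
  -- the inner numbers
  set Q : Eis → Eis → Eis → ℝ := fun e κ' u =>
    ‖TE (Ae Z E0 (sqc 1 (al h s1)) (sqc 1 (al h s2)) g c s e D) (1, κ')
      (lc (lc c₁ e) u)‖ ^ 2 with hQ
  have hQ0 : ∀ e κ' u, 0 ≤ Q e κ' u := fun e κ' u => by positivity
  set Gf : Eis → Eis → Eis → ℝ := fun e c' κ' => ((tau c' : ℝ) * tau γ) *
    ∑ t ∈ dvs c', ∑ t' ∈ dvs γ, Q e κ' (lc t t') with hGf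
  have hGf0 : ∀ e c' κ', 0 ≤ Gf e c' κ' := fun e c' κ' =>
    mul_nonneg (by positivity) (Finset.sum_nonneg fun t _ => Finset.sum_nonneg fun t' _ =>
      hQ0 _ _ _)
  have hone : ∀ e ∈ Es, ∑ j ∈ Js, ‖TE0 (cg γ (afrb (gt5 E0 Z g c) (q5 g c) Z
        (sqc 1 (al h s1)) (sqc 1 (al h s2)) g hh s e d)) dl j e‖ ^ 2 ≤
      ∑ c' ∈ Cs, ∑ κ' ∈ BF (W / (nm c' : ℝ) ^ 3), Gf e c' κ' := by
    intro e he
    obtain ⟨Y, hY, hadm⟩ := afW_adm hR0 hR h1 h2 hcard Wt hZ hg hDp e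
    refine sum_cubes hW0.le hJs hP (F := fun j => ‖TE0 (cg γ (afrb (gt5 E0 Z g c) (q5 g c) Z
        (sqc 1 (al h s1)) (sqc 1 (al h s2)) g hh s e d)) dl j e‖ ^ 2) (fun c' κ' => hGf0 e c' κ')
      (fun κ' c' _ hc' => ?_)
    refine (pow_le_pow_left₀ (norm_nonneg _) (norm_TE0_afrb_le E0 Z _ _ g hh c s e d γ dl
      (κ' * c' ^ 3) e) 2).trans ?_
    exact norm_TE0_two (b := Ae Z E0 (sqc 1 (al h s1)) (sqc 1 (al h s2)) g c s e D) hY hadm.sup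
      hc₁p (fun m hm => afW_c hZ hg hm) hγ hc' (hEs e he).1 dl κ'
  -- one cube part, one pair of divisors
  set Nb : ℝ := ((⌊2 * (2 * B₀) * Real.log X⌋₊ + 1 : ℕ) : ℝ) with hNb
  set K₀ : ℝ := C₁ * X ^ (ε / 4) * (1 + |s|) ^ (N * M) * X' with hK₀
  have hK₀0 : 0 ≤ K₀ := by positivity
  have hcell : ∀ c' ∈ Cs, ∀ t ∈ dvs c', ∀ t' ∈ dvs γ,
      ∑ e ∈ Es, ω e * ∑ κ' ∈ BF (W / (nm c' : ℝ) ^ 3), Q e κ' (lc t t') ≤
        K₀ * (Nb * (G * (nm c' : ℝ)⁻¹)) := by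
    intro c' hc' t ht t' ht'
    obtain ⟨k1, k2, k3, k4⟩ := hCs' c' hc'
    obtain ⟨t1, t2⟩ := one_le_nm_dvs k1 ht
    obtain ⟨t3, t4⟩ := one_le_nm_dvs hγ.ne_zero ht'
    have hu : IsPrim (lc t t') := lc_prim t1 t3
    have huX : (nm (lc t t') : ℝ) ≤ X ^ (2 * B₀) := by
      refine (nm_lc_le' t1 t3).trans ?_
      rw [← hXB2]
      exact mul_le_mul (t2.trans (k2.trans hWX)) (t4.trans hγX) (Nat.cast_nonneg _)
        (by positivity)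
    have hc'0 : (0 : ℝ) < nm c' := by linarith
    have hlc' : 0 ≤ Real.log (nm c') := Real.log_nonneg k4
    have h3lc : 3 * Real.log (nm c') ≤ Real.log W := by
      have h3 := Real.log_le_log (by positivity) k3
      rw [Real.log_pow] at h3
      push_cast at h3
      exact h3
    set k : ℝ := Real.log W + Real.log (nm c₁) - 3 * Real.log (nm c') with hk
    have hk0 : 0 ≤ k := by rw [hk]; linarith
    have hkX : k ≤ 2 * B₀ * Real.log X := by rw [hk]; nlinarith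
    have hkexp : Real.exp k = W / (nm c' : ℝ) ^ 3 * nm c₁ := by
      rw [hk, Real.exp_sub, Real.exp_add, Real.exp_log hW0, Real.exp_log (by linarith),
        show 3 * Real.log (nm c' : ℝ) = Real.log ((nm c' : ℝ) ^ 3) by
          rw [Real.log_pow]; push_cast; ring, Real.exp_log (by positivity)]
      ring
    have h3 := H X hX ι κ hcard s1 s2 h1 h2 h1X h2X Z hZ hsup θ Wt hWok g D (lc t t') hg hDp hu
      (hgX.trans hXB) (hdX.trans hXB) huX (y5 Z g c) (fun e a _ ha hne => y5_le hg c ha hne)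
      Es (BF (W / (nm c' : ℝ) ^ 3)) (fun e he => ⟨(hEs e he).1, (hEs e he).2.trans hXB⟩) k hk0
      hkX (fun j hj => by
        obtain ⟨j1, j2⟩ := mem_BF.1 hj
        refine ⟨j1, ?_⟩
        rw [hkexp]
        exact mul_le_mul_of_nonneg_right j2 (Nat.cast_nonneg _))
      (fun b => Bf b k) (fun b => hBf b k)
      (fun b l s' hb hl hch hLY hlk hamp => hyp b k l s' (by linarith) hk0 (by rw [hk]; linarith)
        hl hch hLY hlk hamp) ω Ω hΩ (fun e he b hb => by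
        refine hωΩ e he b ?_
        have h4 := log_U_mono hc₁p (hEs e he).1 hu
        linarith [(abs_le.1 hb).2])
    refine h3.trans ?_
    have h4 : ∑ b ∈ range (⌊2 * (2 * B₀) * Real.log X⌋₊ + 1), Ω b * Bf b k ≤
        Nb * (G * (nm c' : ℝ)⁻¹) := by
      have h5 : ∀ b ∈ range (⌊2 * (2 * B₀) * Real.log X⌋₊ + 1), Ω b * Bf b k ≤
          G * (nm c' : ℝ)⁻¹ := by
        intro b _
        have h6 := hline b (Real.log (nm c')) hlc' h3lc (Finset.mem_filter.1 hc').2.2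
        rwa [Real.exp_neg, Real.exp_log hc'0] at h6
      refine (Finset.sum_le_sum h5).trans (le_of_eq ?_)
      rw [Finset.sum_const, Finset.card_range, nsmul_eq_mul]
    have h5 : (1 + |θ|) ^ ((N : ℝ) * M) ≤ (1 + |s|) ^ ((N : ℝ) * M) :=
      Real.rpow_le_rpow (by positivity) (by linarith) (by positivity)
    have h6 : 0 ≤ Nb * (G * (nm c' : ℝ)⁻¹) := by positivity
    calc C₁ * X ^ (ε / 4) * (1 + |θ|) ^ ((N : ℝ) * M) * X' *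
          ∑ b ∈ range (⌊2 * (2 * B₀) * Real.log X⌋₊ + 1), Ω b * Bf b k ≤
          C₁ * X ^ (ε / 4) * (1 + |θ|) ^ ((N : ℝ) * M) * X' * (Nb * (G * (nm c' : ℝ)⁻¹)) :=
          mul_le_mul_of_nonneg_left h4 (by positivity)
      _ ≤ C₁ * X ^ (ε / 4) * (1 + |s|) ^ ((N : ℝ) * M) * X' * (Nb * (G * (nm c' : ℝ)⁻¹)) := by
          refine mul_le_mul_of_nonneg_right ?_ h6
          exact mul_le_mul_of_nonneg_right (mul_le_mul_of_nonneg_left h5 (by positivity)) hX'0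
      _ = _ := by rw [hK₀]
  -- the divisor bounds
  have hτX : ∀ z : Eis, z ≠ 0 → (nm z : ℝ) ≤ X ^ B₀ → (tau z : ℝ) ≤ C₂ * X ^ (ε / 16) := by
    intro z hz hzX
    refine (hτ z hz).trans (mul_le_mul_of_nonneg_left ?_ hC20)
    calc (nm z : ℝ) ^ η ≤ (X ^ B₀) ^ η := Real.rpow_le_rpow (Nat.cast_nonneg _) hzX hη0.le
      _ = X ^ (B₀ * η) := by rw [← Real.rpow_mul hX0.le]
      _ ≤ X ^ (ε / 16) := by
          refine Real.rpow_le_rpow_of_exponent_le hX1 ?_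
          have h6 : η * (16 * (B₀ + 1)) = ε := by rw [hη]; field_simp
          nlinarith
  set T : ℝ := C₂ * X ^ (ε / 16) with hT
  have hT0 : 0 ≤ T := by positivity
  have hT4 : T ^ 4 = C₂ ^ 4 * X ^ (ε / 4) := by
    rw [hT, mul_pow, ← Real.rpow_natCast (X ^ (ε / 16)), ← Real.rpow_mul hX0.le]
    congr 2
    push_cast
    ring
  have hcube : ∀ c' ∈ Cs, ∑ e ∈ Es, ω e * ∑ κ' ∈ BF (W / (nm c' : ℝ) ^ 3), Gf e c' κ' ≤
      T ^ 4 * (K₀ * (Nb * (G * (nm c' : ℝ)⁻¹))) := by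
    intro c' hc'
    obtain ⟨k1, k2, k3, k4⟩ := hCs' c' hc'
    have e1 : ∑ e ∈ Es, ω e * ∑ κ' ∈ BF (W / (nm c' : ℝ) ^ 3), Gf e c' κ' =
        ((tau c' : ℝ) * tau γ) * ∑ t ∈ dvs c', ∑ t' ∈ dvs γ, ∑ e ∈ Es, ω e *
          ∑ κ' ∈ BF (W / (nm c' : ℝ) ^ 3), Q e κ' (lc t t') := by
      have e2 : ∀ e ∈ Es, ω e * ∑ κ' ∈ BF (W / (nm c' : ℝ) ^ 3), Gf e c' κ' =
          ((tau c' : ℝ) * tau γ) * ∑ t ∈ dvs c', ∑ t' ∈ dvs γ, ω e *
            ∑ κ' ∈ BF (W / (nm c' : ℝ) ^ 3), Q e κ' (lc t t') := by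
        intro e _
        rw [hGf]
        simp only
        rw [← Finset.mul_sum, mul_left_comm]
        congr 1
        rw [Finset.sum_comm, Finset.mul_sum]
        refine Finset.sum_congr rfl fun t _ => ?_
        rw [Finset.sum_comm, Finset.mul_sum]
      rw [Finset.sum_congr rfl e2, ← Finset.mul_sum]
      congr 1
      rw [Finset.sum_comm]
      refine Finset.sum_congr rfl fun t _ => ?_
      rw [Finset.sum_comm]
    rw [e1]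
    have hB : 0 ≤ K₀ * (Nb * (G * (nm c' : ℝ)⁻¹)) := by positivity
    have h3 : ∑ t ∈ dvs c', ∑ t' ∈ dvs γ, ∑ e ∈ Es, ω e *
          ∑ κ' ∈ BF (W / (nm c' : ℝ) ^ 3), Q e κ' (lc t t') ≤
        (tau c' : ℝ) * (tau γ * (K₀ * (Nb * (G * (nm c' : ℝ)⁻¹)))) := by
      refine (Finset.sum_le_sum fun t ht => Finset.sum_le_sum fun t' ht' =>
        hcell c' hc' t ht t' ht').trans (le_of_eq ?_)
      rw [Finset.sum_const, Finset.sum_const, nsmul_eq_mul, nsmul_eq_mul]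
      rfl
    have h4 := hτX c' k1 (k2.trans hWX)
    have h5 := hτX γ hγ.ne_zero hγX
    have h6 : (0 : ℝ) ≤ tau c' := Nat.cast_nonneg _
    have h7 : (0 : ℝ) ≤ tau γ := Nat.cast_nonneg _
    calc ((tau c' : ℝ) * tau γ) * ∑ t ∈ dvs c', ∑ t' ∈ dvs γ, ∑ e ∈ Es, ω e *
          ∑ κ' ∈ BF (W / (nm c' : ℝ) ^ 3), Q e κ' (lc t t') ≤
          ((tau c' : ℝ) * tau γ) * ((tau c' : ℝ) * (tau γ *
            (K₀ * (Nb * (G * (nm c' : ℝ)⁻¹))))) :=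
          mul_le_mul_of_nonneg_left h3 (by positivity)
      _ = ((tau c' : ℝ) * tau γ) ^ 2 * (K₀ * (Nb * (G * (nm c' : ℝ)⁻¹))) := by ring
      _ ≤ (T * T) ^ 2 * (K₀ * (Nb * (G * (nm c' : ℝ)⁻¹))) := by
          refine mul_le_mul_of_nonneg_right ?_ hB
          exact pow_le_pow_left₀ (by positivity) (mul_le_mul h4 h5 h7 hT0) 2
      _ = _ := by ring
  -- the sum over the cube parts
  have hinv : ∑ c' ∈ Cs, (nm c' : ℝ)⁻¹ ≤ X ^ (ε / 4) * C₄ := by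
    have h3 : ∀ c' ∈ Cs, (nm c' : ℝ)⁻¹ ≤ X ^ (ε / 4) * (nm c' : ℝ) ^ (-(1 + η)) := by
      intro c' hc'
      obtain ⟨k1, k2, k3, k4⟩ := hCs' c' hc'
      have hc'0 : (0 : ℝ) < nm c' := by linarith
      have h4 : (nm c' : ℝ)⁻¹ = (nm c' : ℝ) ^ η * (nm c' : ℝ) ^ (-(1 + η)) := by
        rw [← Real.rpow_add hc'0, ← Real.rpow_neg_one]
        congr 1; ring
      rw [h4]
      refine mul_le_mul_of_nonneg_right ?_ (by positivity)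
      calc (nm c' : ℝ) ^ η ≤ (X ^ B₀) ^ η :=
            Real.rpow_le_rpow (Nat.cast_nonneg _) (k2.trans hWX) hη0.le
        _ = X ^ (B₀ * η) := by rw [← Real.rpow_mul hX0.le]
        _ ≤ X ^ (ε / 4) := by
            refine Real.rpow_le_rpow_of_exponent_le hX1 ?_
            have h6 : η * (16 * (B₀ + 1)) = ε := by rw [hη]; field_simp
            nlinarith
    refine (Finset.sum_le_sum h3).trans ?_
    rw [← Finset.mul_sum]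
    exact mul_le_mul_of_nonneg_left (hsum Cs) (by positivity)
  have hNbX : Nb ≤ (4 * B₀ + 1) * (C₃ * X ^ (ε / 4)) := by
    have h3 := hlog X hX1
    rw [pow_one] at h3
    have h4 : Nb ≤ 4 * B₀ * Real.log X + 1 := by
      rw [hNb]
      push_cast
      have := Nat.floor_le (show 0 ≤ 2 * (2 * B₀) * Real.log X by positivity)
      linarith
    have h5 : 4 * B₀ * Real.log X + 1 ≤ (4 * B₀ + 1) * (Real.log X + 1) := by nlinarith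
    exact h4.trans (h5.trans (mul_le_mul_of_nonneg_left h3 (by positivity)))
  calc ∑ e ∈ Es, ω e * ∑ j ∈ Js, ‖TE0 (cg γ (afrb (gt5 E0 Z g c) (q5 g c) Z
        (sqc 1 (al h s1)) (sqc 1 (al h s2)) g hh s e d)) dl j e‖ ^ 2 ≤
        ∑ e ∈ Es, ω e * ∑ c' ∈ Cs, ∑ κ' ∈ BF (W / (nm c' : ℝ) ^ 3), Gf e c' κ' :=
        Finset.sum_le_sum fun e he => mul_le_mul_of_nonneg_left (hone e he) (hω0 e he)
    _ = ∑ c' ∈ Cs, ∑ e ∈ Es, ω e * ∑ κ' ∈ BF (W / (nm c' : ℝ) ^ 3), Gf e c' κ' := by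
        rw [Finset.sum_comm]
        refine Finset.sum_congr rfl fun e _ => ?_
        rw [Finset.mul_sum]
    _ ≤ ∑ c' ∈ Cs, T ^ 4 * (K₀ * (Nb * (G * (nm c' : ℝ)⁻¹))) := Finset.sum_le_sum hcube
    _ = T ^ 4 * K₀ * Nb * G * ∑ c' ∈ Cs, (nm c' : ℝ)⁻¹ := by
        rw [Finset.mul_sum]
        exact Finset.sum_congr rfl fun c' _ => by ring
    _ ≤ T ^ 4 * K₀ * Nb * G * (X ^ (ε / 4) * C₄) :=
        mul_le_mul_of_nonneg_left hinv (by positivity)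
    _ ≤ T ^ 4 * K₀ * ((4 * B₀ + 1) * (C₃ * X ^ (ε / 4))) * G * (X ^ (ε / 4) * C₄) := by
        refine mul_le_mul_of_nonneg_right (mul_le_mul_of_nonneg_right
          (mul_le_mul_of_nonneg_left hNbX (by positivity)) hG) (by positivity)
    _ = (C₂ ^ 4 * C₁ * ((4 * B₀ + 1) * C₃) * C₄) * X ^ ε * (1 + |s|) ^ (N * M) * X' * G := by
        have hXe : X ^ ε = X ^ (ε / 4) * X ^ (ε / 4) * (X ^ (ε / 4) * X ^ (ε / 4)) := by
          rw [← Real.rpow_add hX0, ← Real.rpow_add hX0]; congr 1; ring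
        rw [hT4, hK₀, hXe]
        ring
    _ ≤ (1 + C₂ ^ 4 * C₁ * ((4 * B₀ + 1) * C₃) * C₄) * X ^ ε * (1 + |s|) ^ (N * M) * X' * G := by
        have h3 : 0 ≤ X ^ ε * (1 + |s|) ^ ((N : ℝ) * M) * X' * G := by positivity
        nlinarith

open Classical in
/-- **the number of one line at one `d`**, all frequencies -/
theorem TPd {h : ℝ → ℝ} {c₀ : ℝ} (hpu : PU h c₀) {R : ℝ} (hR0 : 0 ≤ R)
    (hR : ∀ u, cx h u ≠ 0 → |u| ≤ R) (N : ℕ) {B₀ : ℝ} (hB₀ : 0 ≤ B₀) {ε : ℝ} (hε : 0 < ε)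
    {M : ℝ} (hM : 0 ≤ M) : ∃ C r : ℝ, 1 ≤ C ∧ 0 ≤ r ∧ ∀ X : ℝ, 3 ≤ X →
    ∀ (ι κ : Type) [Fintype ι] [Fintype κ] [DecidableEq ι] [DecidableEq κ],
    Fintype.card ι + Fintype.card κ ≤ N → ∀ (s1 : ι → Pc) (s2 : κ → Pc), (∀ i, (s1 i).OK) →
    (∀ j, (s2 j).OK) → (∀ i, Real.log (s1 i).Y ≤ Real.log X) →
    (∀ j, Real.log (s2 j).Y ≤ Real.log X) → ∀ Z : ℝ, 0 ≤ Z →
    (∀ n, sqc 1 (al h s1) n ≠ 0 → (nm n : ℝ) ≤ Z) →
    ∀ (E0 : ℝ) (c : Fin 5) (s : ℝ) (g hh d γ : Eis), IsPrim g → IsPrim hh → IsPrim d →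
    IsPrim γ → (nm g : ℝ) ≤ X ^ B₀ → (nm (hh * d) : ℝ) ≤ X ^ B₀ → (nm γ : ℝ) ≤ X ^ B₀ →
    ∀ Es Js : Finset Eis, (∀ e ∈ Es, IsPrim e ∧ (nm e : ℝ) ≤ X ^ B₀) →
    ∀ W : ℝ, W ≤ X ^ B₀ → (∀ j ∈ Js, j ≠ 0 ∧ (nm j : ℝ) ≤ W) →
    ∀ (ω : Eis → ℝ) (Ω : ℕ → ℝ), (∀ e ∈ Es, 0 ≤ ω e) → (∀ b, 0 ≤ Ω b) →
    (∀ e ∈ Es, ∀ b : ℕ,
      Real.log (nm (lc (cc g (hh * d)) e / cc g (hh * d))) ≤ b + 1 → ω e ≤ Ω b) →
    ∀ (Bf : ℕ → ℝ → ℝ) (G : ℝ), (∀ b k, 0 ≤ Bf b k) → 0 ≤ G →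
    (∀ (b : ℕ) (k l : ℝ) (s' : ι ⊕ κ → Pc), (b : ℝ) ≤ 4 * B₀ * Real.log X → 0 ≤ k →
      k ≤ Real.log W + Real.log (nm (cc g (hh * d))) → 0 ≤ l → ChF r s' (Sum.elim s1 s2) →
      |LY s' - (LY s1 + LY s2 - Real.log (nm g) -
        Real.log (nm (hh * d) * nm (cc g (hh * d))) - b)| ≤ r →
      |l - (k + b)| ≤ r →
      LY s1 - Real.log (nm g) - y5 Z g c - b - r ≤ LY (fun i => s' (.inl i)) →
      VF (Real.exp l) (sqc (hh * d * cc g (hh * d)) (al h s')) ≤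
        Bf b k * cF s' (Sum.elim s1 s2) ^ M) →
    (∀ (b : ℕ) (n : ℝ), 0 ≤ n → 3 * n ≤ Real.log W →
      Ω b * Bf b (Real.log W + Real.log (nm (cc g (hh * d))) - 3 * n) ≤ G * Real.exp (-n)) →
    ∀ dl : Eis, ∑ e ∈ Es, ω e * ∑ j ∈ Js, ‖TE0 (cg γ (afrb (gt5 E0 Z g c) (q5 g c) Z
        (sqc 1 (al h s1)) (sqc 1 (al h s2)) g hh s e d)) dl j e‖ ^ 2 ≤
      C * X ^ ε * (1 + |s|) ^ (N * M) *
        (Real.exp (LY s1 + LY s2) / (nm g * nm (hh * d))) ^ (-(1 / 3) : ℝ) * G := by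
  obtain ⟨C, r, hC, hr, H⟩ := TPdP hpu hR0 hR N hB₀ hε hM
  refine ⟨C, r, hC, hr, ?_⟩
  intro X hX ι κ _ _ _ _ hcard s1 s2 h1 h2 h1X h2X Z hZ hsup E0 c s g hh d γ hg hhp hd hγ hgX hdX
    hγX Es Js hEs W hWX hJs ω Ω hω0 hΩ hωΩ Bf G hBf hG hyp hline dl
  exact H X hX ι κ hcard s1 s2 h1 h2 h1X h2X Z hZ hsup E0 c s g hh d γ hg hhp hd hγ hgX hdX
    hγX Es Js hEs W hWX hJs (fun _ => True) (fun _ _ _ _ _ => trivial) ω Ω hω0 hΩ hωΩ Bf G hBf hG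
    hyp (fun b n hn hn3 _ => hline b n hn hn3) dl

open Classical in
/-- **the number of one line at one `d`**, cube-free frequencies -/
theorem TPd_cf {h : ℝ → ℝ} {c₀ : ℝ} (hpu : PU h c₀) {R : ℝ} (hR0 : 0 ≤ R)
    (hR : ∀ u, cx h u ≠ 0 → |u| ≤ R) (N : ℕ) {B₀ : ℝ} (hB₀ : 0 ≤ B₀) {ε : ℝ} (hε : 0 < ε)
    {M : ℝ} (hM : 0 ≤ M) : ∃ C r : ℝ, 1 ≤ C ∧ 0 ≤ r ∧ ∀ X : ℝ, 3 ≤ X →
    ∀ (ι κ : Type) [Fintype ι] [Fintype κ] [DecidableEq ι] [DecidableEq κ],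
    Fintype.card ι + Fintype.card κ ≤ N → ∀ (s1 : ι → Pc) (s2 : κ → Pc), (∀ i, (s1 i).OK) →
    (∀ j, (s2 j).OK) → (∀ i, Real.log (s1 i).Y ≤ Real.log X) →
    (∀ j, Real.log (s2 j).Y ≤ Real.log X) → ∀ Z : ℝ, 0 ≤ Z →
    (∀ n, sqc 1 (al h s1) n ≠ 0 → (nm n : ℝ) ≤ Z) →
    ∀ (E0 : ℝ) (c : Fin 5) (s : ℝ) (g hh d γ : Eis), IsPrim g → IsPrim hh → IsPrim d →
    IsPrim γ → (nm g : ℝ) ≤ X ^ B₀ → (nm (hh * d) : ℝ) ≤ X ^ B₀ → (nm γ : ℝ) ≤ X ^ B₀ →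
    ∀ Es Js : Finset Eis, (∀ e ∈ Es, IsPrim e ∧ (nm e : ℝ) ≤ X ^ B₀) →
    ∀ W : ℝ, W ≤ X ^ B₀ → (∀ j ∈ Js, CF j ∧ (nm j : ℝ) ≤ W) →
    ∀ (ω : Eis → ℝ) (Ω : ℕ → ℝ), (∀ e ∈ Es, 0 ≤ ω e) → (∀ b, 0 ≤ Ω b) →
    (∀ e ∈ Es, ∀ b : ℕ,
      Real.log (nm (lc (cc g (hh * d)) e / cc g (hh * d))) ≤ b + 1 → ω e ≤ Ω b) →
    ∀ (Bf : ℕ → ℝ → ℝ) (G : ℝ), (∀ b k, 0 ≤ Bf b k) → 0 ≤ G →
    (∀ (b : ℕ) (k l : ℝ) (s' : ι ⊕ κ → Pc), (b : ℝ) ≤ 4 * B₀ * Real.log X → 0 ≤ k →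
      k ≤ Real.log W + Real.log (nm (cc g (hh * d))) → 0 ≤ l → ChF r s' (Sum.elim s1 s2) →
      |LY s' - (LY s1 + LY s2 - Real.log (nm g) -
        Real.log (nm (hh * d) * nm (cc g (hh * d))) - b)| ≤ r →
      |l - (k + b)| ≤ r →
      LY s1 - Real.log (nm g) - y5 Z g c - b - r ≤ LY (fun i => s' (.inl i)) →
      VF (Real.exp l) (sqc (hh * d * cc g (hh * d)) (al h s')) ≤
        Bf b k * cF s' (Sum.elim s1 s2) ^ M) →
    (∀ b : ℕ, Ω b * Bf b (Real.log W + Real.log (nm (cc g (hh * d)))) ≤ G) →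
    ∀ dl : Eis, ∑ e ∈ Es, ω e * ∑ j ∈ Js, ‖TE0 (cg γ (afrb (gt5 E0 Z g c) (q5 g c) Z
        (sqc 1 (al h s1)) (sqc 1 (al h s2)) g hh s e d)) dl j e‖ ^ 2 ≤
      C * X ^ ε * (1 + |s|) ^ (N * M) *
        (Real.exp (LY s1 + LY s2) / (nm g * nm (hh * d))) ^ (-(1 / 3) : ℝ) * G := by
  obtain ⟨C, r, hC, hr, H⟩ := TPdP hpu hR0 hR N hB₀ hε hM
  refine ⟨C, r, hC, hr, ?_⟩
  intro X hX ι κ _ _ _ _ hcard s1 s2 h1 h2 h1X h2X Z hZ hsup E0 c s g hh d γ hg hhp hd hγ hgX hdX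
    hγX Es Js hEs W hWX hJs ω Ω hω0 hΩ hωΩ Bf G hBf hG hyp hline dl
  refine H X hX ι κ hcard s1 s2 h1 h2 h1X h2X Z hZ hsup E0 c s g hh d γ hg hhp hd hγ hgX hdX
    hγX Es Js hEs W hWX (fun j hj => ⟨(hJs j hj).1.1, (hJs j hj).2⟩) (fun n => n = 0) ?_ ω Ω hω0
    hΩ hωΩ Bf G hBf hG hyp (fun b n hn hn3 hn0 => ?_) dl
  · intro j hj κ' c' hjc
    obtain ⟨hj0, hcf⟩ := (hJs j hj).1
    have hc0 : c' ≠ 0 := by
      rintro rfl
      exact hj0 (by rw [hjc]; simp)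
    have hu : IsUnit c' := by
      by_contra hnu
      obtain ⟨p, hp, hpc⟩ := WfDvdMonoid.exists_irreducible_factor hnu hc0
      exact hcf p hp.prime (hjc ▸ (pow_dvd_pow_of_dvd hpc 3).mul_left κ')
    have h3 : nm c' = 1 := Crest.Agent.R012.Eis.isUnit_iff.1 hu
    rw [h3]
    simp
  · subst hn0
    simpa using hline b

end Crest.Agent.R017.GrG404
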