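import Crest.Agent.R017.GrV2_404
import Crest.Agent.R017.GrW_404

/-!
# Row 17, R8/P1: the `T`-part of the numbers `LVn` of the mismatch, sharper gate (helper404)

* **`TPsm`** : `TPs`, claims only for the children with amplifier part
  `≥ LY s1 - log N g - min (y5 Z g c) (log N (hh d)) - b - r`
-/

set_option autoImplicit false

noncomputable section

open Finset MeasureTheory
open scoped ComplexConjugate Classical

namespace Crest.Agent.R017.GrG404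

open Crest.Agent.R012 Crest.Agent.R012.Eis
open Crest.Agent.R012.Div277 (tau dvs mem_dvs tau_le_rpow)
open Crest.Agent.R012.LS2 (S mem_S)
open Crest.Agent.R017.HP842 (Pc pc al sqc)
open Crest.Agent.R017.Rough381 (VF)
open Crest.Agent.R017.FE47 (PU cx)
open Crest.Agent.R017.StA828 Crest.Agent.R017.StC828 Crest.Agent.R017.StF828
open Crest.Agent.R017.StB828 (one_le_nmR)
open Crest.Agent.R017.GrC828 Crest.Agent.R017.GrT828 Crest.Agent.R017.StG828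
open Crest.Agent.R017.StJ319
open Crest.Agent.R017.E3D579 (TE0)
open Crest.Agent.R017.E3T829 (cg)
open Crest.Agent.R017.E1551 (CF)
open Crest.Agent.R017.DgA829 (lc)
open Crest.Agent.R017.E3Z548 (TN JV JVc mem_JV FH FH_nonneg LVn)
open Crest.Agent.R017.E3N146 (cLS cTT CF_of_JC)

set_option maxHeartbeats 1000000 in
/-- **the `T`-part of `Σ ρ LVn`** for the mismatch coefficients -/
theorem TPsm {h : ℝ → ℝ} {c₀ : ℝ} (hpu : PU h c₀) {R : ℝ} (hR0 : 0 ≤ R)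
    (hR : ∀ u, cx h u ≠ 0 → |u| ≤ R) (N : ℕ) {B₀ : ℝ} (hB₀ : 0 ≤ B₀) {ε : ℝ} (hε : 0 < ε)
    {M : ℝ} (hM : 0 ≤ M) : ∃ C r : ℝ, 1 ≤ C ∧ 0 ≤ r ∧ ∀ X : ℝ, 3 ≤ X →
    ∀ (ι κ : Type) [Fintype ι] [Fintype κ] [DecidableEq ι] [DecidableEq κ],
    Fintype.card ι + Fintype.card κ ≤ N → ∀ (s1 : ι → Pc) (s2 : κ → Pc), (∀ i, (s1 i).OK) →
    (∀ j, (s2 j).OK) → (∀ i, Real.log (s1 i).Y ≤ Real.log X) →
    (∀ j, Real.log (s2 j).Y ≤ Real.log X) → ∀ Z : ℝ, 0 ≤ Z →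
    (∀ n, sqc 1 (al h s1) n ≠ 0 → (nm n : ℝ) ≤ Z) →
    ∀ (E0 : ℝ) (c : Fin 5) (s : ℝ) (g hh : Eis), IsPrim g → IsPrim hh → (nm g : ℝ) ≤ X ^ B₀ →
    ∀ Ds Es : Finset Eis, (∀ d ∈ Ds, IsPrim d ∧ (nm (hh * d) : ℝ) ≤ X ^ B₀) →
    (∀ e ∈ Es, IsPrim e ∧ (nm e : ℝ) ≤ X ^ B₀) →
    ∀ (cV Yg K V V' E1 B G1 : ℝ) (H RN ρ : Eis → Eis → ℝ), 0 < K → 0 < V → cV * V ≤ X ^ B₀ →
    (∀ d ∈ Ds, ∀ e ∈ Es, 0 < H d e) → (∀ d ∈ Ds, ∀ e ∈ Es, 0 ≤ ρ d e) →
    (∀ d ∈ Ds, ∀ e ∈ Es, 0 ≤ cLS K (H d e) V V' E1 B G1) →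
    ∀ (Φ₀ Φ₁ : Eis → ℕ → ℝ) (Bf : Eis → ℕ → ℝ → ℝ) (m : ℝ), (∀ d b, 0 ≤ Φ₀ d b) →
    (∀ d b, 0 ≤ Φ₁ d b) → (∀ d b k, 0 ≤ Bf d b k) →
    (∀ d ∈ Ds, ∀ e ∈ Es, ∀ b : ℕ,
      Real.log (nm (lc (cc g (hh * d)) e / cc g (hh * d))) ≤ b + 1 →
      ρ d e * (FH K (H d e) V * cLS K (H d e) V V' E1 B G1) * nm e ≤ Φ₀ d b) →
    (∀ d ∈ Ds, ∀ e ∈ Es, ∀ b : ℕ,
      Real.log (nm (lc (cc g (hh * d)) e / cc g (hh * d))) ≤ b + 1 →
      ρ d e * (FH K (H d e) V * cTT K (H d e) V) * nm e ≤ Φ₁ d b) →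
    (∀ d ∈ Ds, ∀ (b : ℕ) (k l : ℝ) (s' : ι ⊕ κ → Pc), (b : ℝ) ≤ 4 * B₀ * Real.log X → 0 ≤ k →
      k ≤ Real.log (cV * V / (nm d : ℝ) ^ 2) + Real.log (nm (cc g (hh * d))) → 0 ≤ l →
      ChF r s' (Sum.elim s1 s2) →
      |LY s' - (LY s1 + LY s2 - Real.log (nm g) -
        Real.log (nm (hh * d) * nm (cc g (hh * d))) - b)| ≤ r →
      |l - (k + b)| ≤ r →
      LY s1 - Real.log (nm g) - min (y5 Z g c) (Real.log (nm (hh * d))) - b - r ≤ LY (fun i => s' (.inl i)) →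
      VF (Real.exp l) (sqc (hh * d * cc g (hh * d)) (al h s')) ≤
        Bf d b k * cF s' (Sum.elim s1 s2) ^ M) →
    (∀ d ∈ Ds, (nm d : ℝ) ^ 2 ≤ cV * V → ∀ b : ℕ, (b : ℝ) ≤ 4 * B₀ * Real.log X →
      Φ₀ d b * Bf d b (Real.log (cV * V / (nm d : ℝ) ^ 2) + Real.log (nm (cc g (hh * d)))) *
        (nm d : ℝ) ^ 2 ≤ Real.exp m) →
    (∀ d ∈ Ds, ∀ (b : ℕ) (n : ℝ), (b : ℝ) ≤ 4 * B₀ * Real.log X → 0 ≤ n →
      (nm d : ℝ) ^ 2 ≤ cV * V → 3 * n ≤ Real.log (cV * V / (nm d : ℝ) ^ 2) →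
      Φ₁ d b * Bf d b (Real.log (cV * V / (nm d : ℝ) ^ 2) + Real.log (nm (cc g (hh * d))) -
        3 * n) * (nm d : ℝ) ^ 2 * Real.exp n ≤ Real.exp m) →
    ∑ d ∈ Ds, ∑ e ∈ Es, ρ d e * LVn (fun d e => afrb (gt5 E0 Z g c) (q5 g c) Z
        (sqc 1 (al h s1)) (sqc 1 (al h s2)) g hh s e d) {d} {e} cV Yg K (H d e) V V' E1 B G1
        (RN d e) ≤
      C * X ^ ε * (1 + |s|) ^ (N * M) * Real.exp (-((LY s1 + LY s2) / 3)) *
        (nm g * nm hh : ℝ) ^ (1 / 3 : ℝ) * Real.exp m +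
      ∑ d ∈ Ds, ∑ e ∈ Es, ρ d e * (FH K (H d e) V * RN d e) := by
  obtain ⟨C₁, r, hC₁, hr, HP⟩ := TPdPm hpu hR0 hR N hB₀ (ε := ε / 2) (by linarith) hM
  obtain ⟨C₃, hC₃, hsγ⟩ := Eul571.sum_nm_rpow_le (s := 3 / 2) (by norm_num)
  set η := ε / (2 * (B₀ + 1)) with hη
  have hη0 : 0 < η := by positivity
  obtain ⟨C₄, hC₄, hsd⟩ := Eul571.sum_nm_rpow_le (s := 1 + η) (by linarith)
  have hC10 : 0 ≤ C₁ := by linarith
  refine ⟨1 + C₁ * (1 + C₃) * C₄, r, ?_, hr, ?_⟩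
  · have : 0 ≤ C₁ * (1 + C₃) * C₄ := by positivity
    linarith
  intro X hX ι κ _ _ _ _ hcard s1 s2 h1 h2 h1X h2X Z hZ hsup E0 c s g hh hg hhp hgX Ds Es hDs hEs
    cV Yg K V V' E1 B G1 Hf RN ρ hK hV hcVX hH hρ hcLS Φ₀ Φ₁ Bf m hΦ₀ hΦ₁ hBf hdom₀ hdom₁ hcl
    hla hlb
  have hX1 : (1 : ℝ) ≤ X := by linarith
  have hX0 : (0 : ℝ) < X := by linarith
  have hlX : 0 ≤ Real.log X := Real.log_nonneg hX1
  set af : Eis → Eis → Eis → ℂ := fun d e => afrb (gt5 E0 Z g c) (q5 g c) Z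
    (sqc 1 (al h s1)) (sqc 1 (al h s2)) g hh s e d with haf
  have hs1 : 0 ≤ 1 + |s| := by positivity
  set A0 : ℝ := C₁ * X ^ (ε / 2) * (1 + |s|) ^ (N * M) * Real.exp (-((LY s1 + LY s2) / 3)) *
    (nm g * nm hh : ℝ) ^ (1 / 3 : ℝ) * Real.exp m with hA0
  have hA00 : 0 ≤ A0 := by positivity
  have hnd : ∀ d ∈ Ds, (1 : ℝ) ≤ nm d := fun d hd => one_le_nmR (hDs d hd).1
  -- the scale
  have hsc : ∀ d ∈ Ds, ∀ Q : ℝ, C₁ * X ^ (ε / 2) * (1 + |s|) ^ (N * M) *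
      (Real.exp (LY s1 + LY s2) / (nm g * nm (hh * d))) ^ (-(1 / 3) : ℝ) * (Real.exp m / Q) =
      A0 * ((nm d : ℝ) ^ (1 / 3 : ℝ) / Q) := by
    intro d hd Q
    have e1 : (Real.exp (LY s1 + LY s2) / (nm g * nm (hh * d))) ^ (-(1 / 3) : ℝ) =
        Real.exp (-((LY s1 + LY s2) / 3)) * ((nm g * nm hh : ℝ) ^ (1 / 3 : ℝ) *
          (nm d : ℝ) ^ (1 / 3 : ℝ)) := by
      rw [Real.div_rpow (Real.exp_nonneg _) (by positivity), ← Real.exp_mul, nm_mul]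
      push_cast
      rw [← mul_assoc, Real.rpow_neg (by positivity),
        Real.mul_rpow (by positivity) (by positivity), div_inv_eq_mul]
      congr 2
      ring
    rw [e1, hA0]
    ring
  -- the numbers
  set Bg : Eis → ℕ → ℝ → ℝ := fun d b k => if (b : ℝ) ≤ 4 * B₀ * Real.log X then Bf d b k else 0
    with hBg
  have hBg0 : ∀ d b k, 0 ≤ Bg d b k := by
    intro d b k
    simp only [hBg]
    split_ifs
    · exact hBf d b k
    · exact le_rfl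
  have hFH : ∀ d ∈ Ds, ∀ e ∈ Es, 0 ≤ FH K (Hf d e) V := fun d hd e he =>
    FH_nonneg hK.le (hH d hd e he).le hV.le
  have hcTT : ∀ d ∈ Ds, ∀ e ∈ Es, 0 ≤ cTT K (Hf d e) V := fun d hd e he => by
    have hq : 0 ≤ Hf d e ^ 2 * V ^ 3 / K ^ 2 := by positivity
    have ht : 0 ≤ (Hf d e ^ 2 * V ^ 3 / K ^ 2) ^ (1 / 3 : ℝ) := Real.rpow_nonneg hq _
    have ht' : 0 ≤ (Hf d e ^ 2 * V ^ 3 / K ^ 2) ^ (1 / 2 : ℝ) := Real.rpow_nonneg hq _
    unfold cTT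
    linarith
  have hA : ∀ d ∈ Ds, ∑ e ∈ Es, (ρ d e * (FH K (Hf d e) V * cLS K (Hf d e) V V' E1 B G1) * nm e) *
      ∑ j ∈ JVc cV V d 1, ‖TE0 (cg 1 (af d e)) d j e‖ ^ 2 ≤
      A0 * ((nm d : ℝ) ^ (1 / 3 : ℝ) / (nm d : ℝ) ^ 2) := by
    intro d hd
    obtain ⟨hdp, hdX⟩ := hDs d hd
    have hd1 := hnd d hd
    by_cases hW : (nm d : ℝ) ^ 2 ≤ cV * V
    · rw [← hsc d hd]
      have hW1 : 1 ≤ cV * V / (nm d : ℝ) ^ 2 := by rwa [one_le_div (by positivity)]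
      have hWX : cV * V / (nm d : ℝ) ^ 2 ≤ X ^ B₀ := by
        rw [div_le_iff₀ (by positivity)]
        have h3 : (1 : ℝ) ≤ (nm d : ℝ) ^ 2 := one_le_pow₀ hd1
        have h4 : 0 ≤ X ^ B₀ := by positivity
        nlinarith
      refine HP X hX ι κ hcard s1 s2 h1 h2 h1X h2X Z hZ hsup E0 c s g hh d 1 hg hhp hdp
        isPrim_one hgX hdX ?_ Es (JVc cV V d 1) hEs (cV * V / (nm d : ℝ) ^ 2) hWX ?_
        (fun n => n = 0) ?_ _ (Φ₀ d) ?_ (hΦ₀ d) (hdom₀ d hd) (Bg d) (Real.exp m / (nm d : ℝ) ^ 2)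
        (hBg0 d) (by positivity) ?_ ?_ d
      · rw [nm_one]
        push_cast
        exact Real.one_le_rpow hX1 hB₀
      · intro j hj
        obtain ⟨h3, h4⟩ := (mem_JV hdp.ne_zero one_ne_zero).1 (mem_filter.1 hj).1
        refine ⟨h3, ?_⟩
        rw [le_div_iff₀ (by positivity)]
        simpa using h4
      · intro j hj κ' c' hjc
        obtain ⟨hj0, hcf⟩ := CF_of_JC (mem_filter.1 hj).2
        have hc0 : c' ≠ 0 := by
          rintro rfl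
          exact hj0 (by rw [hjc]; simp)
        have hu : IsUnit c' := by
          by_contra hnu
          obtain ⟨p, hp, hpc⟩ := WfDvdMonoid.exists_irreducible_factor hnu hc0
          exact hcf p hp.prime (hjc ▸ (pow_dvd_pow_of_dvd hpc 3).mul_left κ')
        have h3 : nm c' = 1 := Crest.Agent.R012.Eis.isUnit_iff.1 hu
        rw [h3]
        simp
      · intro e he
        have := hρ d hd e he
        have := hFH d hd e he
        have := hcLS d hd e he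
        positivity
      · intro b k l s' hb hk hkW hl hF hLY hlk hgate
        simp only [hBg]
        rw [if_pos hb]
        exact hcl d hd b k l s' hb hk hkW hl hF hLY hlk hgate
      · intro b n hn hn3 hn0
        subst hn0
        simp only [hBg]
        split_ifs with hb
        · have h3 := hla d hd hW b hb
          rw [mul_zero, sub_zero, neg_zero, Real.exp_zero, mul_one, le_div_iff₀ (by positivity)]
          exact h3
        · rw [mul_zero]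
          positivity
    · have hemp : JVc cV V d 1 = ∅ := by
        rw [Finset.eq_empty_iff_forall_notMem]
        intro j hj
        obtain ⟨h3, h4⟩ := (mem_JV hdp.ne_zero one_ne_zero).1 (mem_filter.1 hj).1
        have h5 : (1 : ℝ) ≤ nm j := by exact_mod_cast nm_pos.mpr h3
        apply hW
        refine le_trans ?_ h4
        rw [nm_one]
        push_cast
        nlinarith [sq_nonneg (nm d : ℝ)]
      simp only [hemp, Finset.sum_empty, mul_zero, Finset.sum_const_zero]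
      positivity
  have hB : ∀ d ∈ Ds, ∀ γ ∈ primBall ⌊Yg⌋₊,
      ∑ e ∈ Es, (ρ d e * (FH K (Hf d e) V * cTT K (Hf d e) V) * nm e) *
        ∑ j ∈ JV cV V d γ, ‖TE0 (cg γ (af d e)) 1 j e‖ ^ 2 ≤
      A0 * ((nm d : ℝ) ^ (1 / 3 : ℝ) / ((nm d : ℝ) ^ 2 * nm γ)) := by
    intro d hd γ hγ
    obtain ⟨hdp, hdX⟩ := hDs d hd
    have hd1 := hnd d hd
    have hγp : IsPrim γ := (mem_primBall.1 hγ).2
    have hγ1 := one_le_nmR hγp
    have hd2 : (1 : ℝ) ≤ (nm d : ℝ) ^ 2 := one_le_pow₀ hd1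
    have hγ3 : (1 : ℝ) ≤ (nm γ : ℝ) ^ 3 := one_le_pow₀ hγ1
    have hγ4 : (nm γ : ℝ) ≤ (nm γ : ℝ) ^ 3 := by nlinarith [sq_nonneg ((nm γ : ℝ) - 1)]
    by_cases hW : (nm d : ℝ) ^ 2 * (nm γ : ℝ) ^ 3 ≤ cV * V
    · rw [← hsc d hd]
      have hW1 : 1 ≤ cV * V / ((nm d : ℝ) ^ 2 * (nm γ : ℝ) ^ 3) := by
        rwa [one_le_div (by positivity)]
      have hWd : (nm d : ℝ) ^ 2 ≤ cV * V := le_trans (le_mul_of_one_le_right (by positivity) hγ3) hW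
      have hWX : cV * V / ((nm d : ℝ) ^ 2 * (nm γ : ℝ) ^ 3) ≤ X ^ B₀ := by
        rw [div_le_iff₀ (by positivity)]
        have h3 : (1 : ℝ) ≤ (nm d : ℝ) ^ 2 * (nm γ : ℝ) ^ 3 :=
          one_le_mul_of_one_le_of_one_le hd2 hγ3
        have h4 : 0 ≤ X ^ B₀ := by positivity
        nlinarith
      have hcV0 : 0 < cV * V := by nlinarith
      have hlog : Real.log (cV * V / ((nm d : ℝ) ^ 2 * (nm γ : ℝ) ^ 3)) =
          Real.log (cV * V / (nm d : ℝ) ^ 2) - 3 * Real.log (nm γ) := by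
        rw [← div_div, Real.log_div (by positivity) (by positivity), Real.log_pow]
        push_cast
        ring
      have hlγ : 0 ≤ Real.log (nm γ) := Real.log_nonneg hγ1
      refine HP X hX ι κ hcard s1 s2 h1 h2 h1X h2X Z hZ hsup E0 c s g hh d γ hg hhp hdp
        hγp hgX hdX ?_ Es (JV cV V d γ) hEs (cV * V / ((nm d : ℝ) ^ 2 * (nm γ : ℝ) ^ 3)) hWX ?_
        (fun _ => True) (fun _ _ _ _ _ => trivial) _ (Φ₁ d) ?_ (hΦ₁ d) (hdom₁ d hd) (Bg d)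
        (Real.exp m / ((nm d : ℝ) ^ 2 * nm γ)) (hBg0 d) (by positivity) ?_ ?_ 1
      · refine le_trans ?_ hcVX
        nlinarith
      · intro j hj
        obtain ⟨h3, h4⟩ := (mem_JV hdp.ne_zero hγp.ne_zero).1 hj
        refine ⟨h3, ?_⟩
        rw [le_div_iff₀ (by positivity)]
        linarith
      · intro e he
        have := hρ d hd e he
        have := hFH d hd e he
        have := hcTT d hd e he
        positivity
      · intro b k l s' hb hk hkW hl hF hLY hlk hgate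
        simp only [hBg]
        rw [if_pos hb]
        refine hcl d hd b k l s' hb hk ?_ hl hF hLY hlk hgate
        rw [hlog] at hkW
        linarith
      · intro b n hn hn3 _
        rw [hlog] at hn3
        simp only [hBg]
        split_ifs with hb
        · have h3 := hlb d hd b (n + Real.log (nm γ)) hb (by linarith) hWd (by linarith)
          have e2 : Real.log (cV * V / ((nm d : ℝ) ^ 2 * (nm γ : ℝ) ^ 3)) +
              Real.log (nm (cc g (hh * d))) - 3 * n = Real.log (cV * V / (nm d : ℝ) ^ 2) +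
              Real.log (nm (cc g (hh * d))) - 3 * (n + Real.log (nm γ)) := by
            rw [hlog]
            ring
          rw [e2]
          rw [Real.exp_add, Real.exp_log (by linarith)] at h3
          rw [Real.exp_neg, ← div_eq_mul_inv, div_div, le_div_iff₀ (by positivity)]
          calc _ = _ := by ring
            _ ≤ _ := h3
        · rw [mul_zero]
          positivity
    · have hemp : JV cV V d γ = ∅ := by
        rw [Finset.eq_empty_iff_forall_notMem]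
        intro j hj
        obtain ⟨h3, h4⟩ := (mem_JV hdp.ne_zero hγp.ne_zero).1 hj
        have h5 : (1 : ℝ) ≤ nm j := by exact_mod_cast nm_pos.mpr h3
        apply hW
        refine le_trans ?_ h4
        rw [mul_assoc]
        exact le_mul_of_one_le_left (by positivity) h5
      simp only [hemp, Finset.sum_empty, mul_zero, Finset.sum_const_zero]
      positivity
  -- the sum over `d`
  have hdsum : ∑ d ∈ Ds, (nm d : ℝ)⁻¹ ≤ X ^ (ε / 2) * C₄ := by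
    calc ∑ d ∈ Ds, (nm d : ℝ)⁻¹ ≤ ∑ d ∈ Ds, X ^ (ε / 2) * (nm d : ℝ) ^ (-(1 + η)) := by
          refine sum_le_sum fun d hd => ?_
          have hd1 := hnd d hd
          have hd0 : (0 : ℝ) < nm d := by linarith
          have h3 : (nm d : ℝ) ≤ X ^ B₀ := by
            refine le_trans ?_ (hDs d hd).2
            rw [nm_mul]
            push_cast
            exact le_mul_of_one_le_left hd0.le (one_le_nmR hhp)
          have h4 : (nm d : ℝ) ^ η ≤ X ^ (ε / 2) := by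
            calc (nm d : ℝ) ^ η ≤ (X ^ B₀) ^ η := Real.rpow_le_rpow hd0.le h3 hη0.le
              _ = X ^ (B₀ * η) := by rw [← Real.rpow_mul hX0.le]
              _ ≤ X ^ (ε / 2) := by
                refine Real.rpow_le_rpow_of_exponent_le hX1 ?_
                have e3 : η * (2 * (B₀ + 1)) = ε := by
                  rw [hη]; field_simp
                nlinarith
          calc (nm d : ℝ)⁻¹ = (nm d : ℝ) ^ η * (nm d : ℝ) ^ (-(1 + η)) := by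
                rw [← Real.rpow_add hd0, ← Real.rpow_neg_one]
                congr 1
                ring
            _ ≤ _ := mul_le_mul_of_nonneg_right h4 (by positivity)
      _ = X ^ (ε / 2) * ∑ d ∈ Ds, (nm d : ℝ) ^ (-(1 + η)) := by rw [mul_sum]
      _ ≤ _ := mul_le_mul_of_nonneg_left (hsd Ds) (by positivity)
  have hγsum : ∑ γ ∈ primBall ⌊Yg⌋₊, (nm γ : ℝ) ^ (-(1 / 2) : ℝ) * (nm γ : ℝ)⁻¹ ≤ C₃ := by
    refine le_trans (le_of_eq (sum_congr rfl fun γ hγ => ?_)) (hsγ (primBall ⌊Yg⌋₊))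
    have hγ1 := one_le_nmR (mem_primBall.1 hγ).2
    rw [← Real.rpow_neg_one, ← Real.rpow_add (by linarith)]
    congr 1
    norm_num
  have hpw : ∀ d ∈ Ds, (nm d : ℝ) ^ (2 / 3 : ℝ) * ((nm d : ℝ) ^ (1 / 3 : ℝ) / (nm d : ℝ) ^ 2) =
      (nm d : ℝ)⁻¹ := by
    intro d hd
    have hd0 : (0 : ℝ) < nm d := by linarith [hnd d hd]
    rw [← mul_div_assoc, ← Real.rpow_add hd0]
    norm_num
    field_simp
  -- the decomposition
  have key : ∑ d ∈ Ds, ∑ e ∈ Es, ρ d e * LVn af {d} {e} cV Yg K (Hf d e) V V' E1 B G1 (RN d e) ≤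
      ∑ d ∈ Ds, (nm d : ℝ) ^ (2 / 3 : ℝ) * ∑ e ∈ Es,
        (ρ d e * (FH K (Hf d e) V * cLS K (Hf d e) V V' E1 B G1) * nm e) *
        ∑ j ∈ JVc cV V d 1, ‖TE0 (cg 1 (af d e)) d j e‖ ^ 2 +
      ∑ d ∈ Ds, (nm d : ℝ) ^ (2 / 3 : ℝ) * ∑ γ ∈ primBall ⌊Yg⌋₊, (nm γ : ℝ) ^ (-(1 / 2) : ℝ) *
        ∑ e ∈ Es, (ρ d e * (FH K (Hf d e) V * cTT K (Hf d e) V) * nm e) *
          ∑ j ∈ JV cV V d γ, ‖TE0 (cg γ (af d e)) 1 j e‖ ^ 2 +
      ∑ d ∈ Ds, ∑ e ∈ Es, ρ d e * (FH K (Hf d e) V * RN d e) := by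
    rw [← sum_add_distrib, ← sum_add_distrib]
    refine sum_le_sum fun d hd => ?_
    have e4 : (nm d : ℝ) ^ (2 / 3 : ℝ) * ∑ γ ∈ primBall ⌊Yg⌋₊, (nm γ : ℝ) ^ (-(1 / 2) : ℝ) *
        ∑ e ∈ Es, (ρ d e * (FH K (Hf d e) V * cTT K (Hf d e) V) * nm e) *
          ∑ j ∈ JV cV V d γ, ‖TE0 (cg γ (af d e)) 1 j e‖ ^ 2 =
        ∑ e ∈ Es, ρ d e * ((nm d : ℝ) ^ (2 / 3 : ℝ) * (FH K (Hf d e) V * cTT K (Hf d e) V * nm e *
        ∑ γ ∈ primBall ⌊Yg⌋₊, (nm γ : ℝ) ^ (-(1 / 2) : ℝ) *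
          ∑ j ∈ JV cV V d γ, ‖TE0 (cg γ (af d e)) 1 j e‖ ^ 2)) := by
      simp only [mul_sum]
      rw [sum_comm]
      refine sum_congr rfl fun e _ => sum_congr rfl fun γ _ => sum_congr rfl fun j _ => ?_
      ring
    rw [e4, mul_sum, ← sum_add_distrib, ← sum_add_distrib]
    refine sum_le_sum fun e he => ?_
    have h3 := LVn_le2 af d e (c := cV) (Y := Yg) (V' := V') (E1 := E1) (B := B) (G1 := G1)
      (RN := RN d e) hK.le (hH d hd e he).le hV.le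
    calc ρ d e * LVn af {d} {e} cV Yg K (Hf d e) V V' E1 B G1 (RN d e) ≤ ρ d e * _ :=
          mul_le_mul_of_nonneg_left h3 (hρ d hd e he)
      _ = _ := by ring
  have hT0 : ∑ d ∈ Ds, (nm d : ℝ) ^ (2 / 3 : ℝ) * ∑ e ∈ Es,
        (ρ d e * (FH K (Hf d e) V * cLS K (Hf d e) V V' E1 B G1) * nm e) *
        ∑ j ∈ JVc cV V d 1, ‖TE0 (cg 1 (af d e)) d j e‖ ^ 2 ≤ A0 * (X ^ (ε / 2) * C₄) := by
    refine le_trans (sum_le_sum fun d hd => mul_le_mul_of_nonneg_left (hA d hd) (by positivity)) ?_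
    refine le_trans (le_of_eq ?_) (mul_le_mul_of_nonneg_left hdsum hA00)
    rw [mul_sum]
    refine sum_congr rfl fun d hd => ?_
    rw [← hpw d hd]
    ring
  have hT1 : ∑ d ∈ Ds, (nm d : ℝ) ^ (2 / 3 : ℝ) * ∑ γ ∈ primBall ⌊Yg⌋₊,
        (nm γ : ℝ) ^ (-(1 / 2) : ℝ) *
        ∑ e ∈ Es, (ρ d e * (FH K (Hf d e) V * cTT K (Hf d e) V) * nm e) *
          ∑ j ∈ JV cV V d γ, ‖TE0 (cg γ (af d e)) 1 j e‖ ^ 2 ≤
      A0 * C₃ * (X ^ (ε / 2) * C₄) := by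
    have h3 : ∀ d ∈ Ds, (nm d : ℝ) ^ (2 / 3 : ℝ) * ∑ γ ∈ primBall ⌊Yg⌋₊,
        (nm γ : ℝ) ^ (-(1 / 2) : ℝ) *
        ∑ e ∈ Es, (ρ d e * (FH K (Hf d e) V * cTT K (Hf d e) V) * nm e) *
          ∑ j ∈ JV cV V d γ, ‖TE0 (cg γ (af d e)) 1 j e‖ ^ 2 ≤ A0 * C₃ * (nm d : ℝ)⁻¹ := by
      intro d hd
      calc _ ≤ (nm d : ℝ) ^ (2 / 3 : ℝ) * ∑ γ ∈ primBall ⌊Yg⌋₊, (nm γ : ℝ) ^ (-(1 / 2) : ℝ) *
            (A0 * ((nm d : ℝ) ^ (1 / 3 : ℝ) / ((nm d : ℝ) ^ 2 * nm γ))) :=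
            mul_le_mul_of_nonneg_left (sum_le_sum fun γ hγ =>
              mul_le_mul_of_nonneg_left (hB d hd γ hγ) (by positivity)) (by positivity)
        _ = A0 * (∑ γ ∈ primBall ⌊Yg⌋₊, (nm γ : ℝ) ^ (-(1 / 2) : ℝ) * (nm γ : ℝ)⁻¹) *
            ((nm d : ℝ) ^ (2 / 3 : ℝ) * ((nm d : ℝ) ^ (1 / 3 : ℝ) / (nm d : ℝ) ^ 2)) := by
            rw [mul_sum, mul_sum, sum_mul]
            refine sum_congr rfl fun γ _ => ?_
            rw [← div_div]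
            ring
        _ = A0 * (∑ γ ∈ primBall ⌊Yg⌋₊, (nm γ : ℝ) ^ (-(1 / 2) : ℝ) * (nm γ : ℝ)⁻¹) *
            (nm d : ℝ)⁻¹ := by rw [hpw d hd]
        _ ≤ _ := mul_le_mul_of_nonneg_right (mul_le_mul_of_nonneg_left hγsum hA00) (by positivity)
    refine le_trans (sum_le_sum h3) ?_
    rw [← mul_sum]
    exact mul_le_mul_of_nonneg_left hdsum (by positivity)
  have hfin : A0 * (X ^ (ε / 2) * C₄) + A0 * C₃ * (X ^ (ε / 2) * C₄) ≤
      (1 + C₁ * (1 + C₃) * C₄) * X ^ ε * (1 + |s|) ^ (N * M) *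
        Real.exp (-((LY s1 + LY s2) / 3)) * (nm g * nm hh : ℝ) ^ (1 / 3 : ℝ) * Real.exp m := by
    have hXe : X ^ ε = X ^ (ε / 2) * X ^ (ε / 2) := by
      rw [← Real.rpow_add hX0]; congr 1; ring
    have e5 : A0 * (X ^ (ε / 2) * C₄) + A0 * C₃ * (X ^ (ε / 2) * C₄) =
        (C₁ * (1 + C₃) * C₄) * (X ^ ε * (1 + |s|) ^ (N * M) *
        Real.exp (-((LY s1 + LY s2) / 3)) * (nm g * nm hh : ℝ) ^ (1 / 3 : ℝ) * Real.exp m) := by
      rw [hXe, hA0]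
      ring
    rw [e5]
    have h3 : 0 ≤ X ^ ε * (1 + |s|) ^ (N * M) *
        Real.exp (-((LY s1 + LY s2) / 3)) * (nm g * nm hh : ℝ) ^ (1 / 3 : ℝ) * Real.exp m := by
      positivity
    nlinarith
  calc _ ≤ _ := key
    _ ≤ A0 * (X ^ (ε / 2) * C₄) + A0 * C₃ * (X ^ (ε / 2) * C₄) +
        ∑ d ∈ Ds, ∑ e ∈ Es, ρ d e * (FH K (Hf d e) V * RN d e) := by gcongr
    _ ≤ _ := by gcongr

end Crest.Agent.R017.GrG404
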