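import Crest.Agent.R017.GrX_404
import Crest.Agent.R017.GrW_404

/-!
# Row 17, R8/P1: the `T`-half of the mismatch from the mean squares of the blocks, part 2 (helper404)

* `TPdPH` : the number of one line at one `d` from `CoreB`
* **`TPsH`** : the `T`-part of `Σ_d Σ_e ρ d e * LVn` from `CoreB` (any `η`, `α`)
-/

set_option autoImplicit false

noncomputable section

open Finset MeasureTheory
open scoped ComplexConjugate Classical

namespace Crest.Agent.R017.GrK404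

open Crest.Agent.R012 Crest.Agent.R012.Eis
open Crest.Agent.R012.Div277 (tau dvs mem_dvs tau_le_rpow)
open Crest.Agent.R012.LS2 (S mem_S bl mem_bl)
open Crest.Agent.R012.Weight600 (osc norm_osc pw norm_pw)
open Crest.Agent.R012.Mob705 (mu)
open Crest.Agent.R017.CM106 (CS TG FS)
open Crest.Agent.R017.FE47 (PU cx)
open Crest.Agent.R017.StA828 Crest.Agent.R017.StC828 Crest.Agent.R017.StF828
open Crest.Agent.R017.StB828 (one_le_nmR)
open Crest.Agent.R017.GrC828 Crest.Agent.R017.GrT828 Crest.Agent.R017.StG828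
open Crest.Agent.R017.StJ319
open Crest.Agent.R017.E2440 (TE)
open Crest.Agent.R017.E3D579 (TE0)
open Crest.Agent.R017.E3T829 (cg)
open Crest.Agent.R017.E1551 (Adm CF exists_cf BF mem_BF)
open Crest.Agent.R017.DgA829 (lc lc_prim lc_dvd lc_unique)
open Crest.Agent.R017.E3Z548 (TN JV JVc mem_JV FH FH_nonneg LVn)
open Crest.Agent.R017.E3N146 (cLS cTT CF_of_JC)
open Crest.Agent.R017.GrG404

set_option maxHeartbeats 1000000 in
/-- **the number of one line at one `d` from `CoreB`**, cube parts in `P` -/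
theorem TPdPH {R' : ℝ} (hR' : 0 ≤ R') {J : ℝ} (hJ : 0 ≤ J) {B₀ : ℝ} (hB₀ : 0 ≤ B₀) {ε : ℝ}
    (hε : 0 < ε) : ∃ C : ℝ, 1 ≤ C ∧ ∀ X : ℝ, 3 ≤ X → ∀ (a : Eis → Eis → ℂ) (c₁ γ : Eis),
    IsPrim c₁ → IsPrim γ → (nm c₁ : ℝ) ≤ X ^ B₀ → (nm γ : ℝ) ≤ X ^ B₀ → ∀ X' : ℝ, 0 < X' →
    (∀ e, ∃ Y, 0 ≤ Y ∧ Adm Y X' R' (a e)) → (∀ e m, a e m ≠ 0 → c₁ ∣ m) →
    ∀ Es Js : Finset Eis, (∀ e ∈ Es, IsPrim e ∧ (nm e : ℝ) ≤ X ^ B₀) →
    ∀ W : ℝ, W ≤ X ^ B₀ → (∀ j ∈ Js, j ≠ 0 ∧ (nm j : ℝ) ≤ W) →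
    ∀ P : ℝ → Prop, (∀ j ∈ Js, ∀ κ' c' : Eis, j = κ' * c' ^ 3 → P (Real.log (nm c'))) →
    ∀ (ω : Eis → ℝ) (Ω : ℕ → ℝ), (∀ e ∈ Es, 0 ≤ ω e) → (∀ b, 0 ≤ Ω b) →
    (∀ e ∈ Es, ∀ b : ℕ, Real.log (nm (lc c₁ e / c₁)) ≤ b + 1 → ω e ≤ Ω b) →
    ∀ (Bf : ℕ → ℝ → ℝ) (G : ℝ), (∀ b k, 0 ≤ Bf b k) → 0 ≤ G →
    (∀ (b : ℕ) (k : ℝ), (b : ℝ) ≤ 4 * B₀ * Real.log X → 0 ≤ k →
      k ≤ Real.log W + Real.log (nm c₁) → CoreB a c₁ b k J (Bf b k)) →
    (∀ (b : ℕ) (n : ℝ), (b : ℝ) ≤ 4 * B₀ * Real.log X → 0 ≤ n → 3 * n ≤ Real.log W → P n →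
      Ω b * Bf b (Real.log W + Real.log (nm c₁) - 3 * n) ≤ G * Real.exp (-n)) →
    ∀ dl : Eis, ∑ e ∈ Es, ω e * ∑ j ∈ Js, ‖TE0 (cg γ (a e)) dl j e‖ ^ 2 ≤
      C * X ^ ε * X' ^ (-(1 / 3) : ℝ) * G := by
  obtain ⟨C₁, hC₁, H⟩ := T_numH hR' hJ (B₀ := 2 * B₀) (by positivity) (ε := ε / 4)
    (by linarith)
  set η := ε / (16 * (B₀ + 1)) with hη
  have hη0 : 0 < η := by positivity
  obtain ⟨C₂, hC₂, hτ⟩ := tau_le_rpow hη0
  obtain ⟨C₃, hC₃, hlog⟩ := Rough381.log_pow_le (ε := ε / 4) (by linarith) 1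
    (c₀ := 1) zero_le_one
  obtain ⟨C₄, hC₄, hsum⟩ := Eul571.sum_nm_rpow_le (s := 1 + η) (by linarith)
  refine ⟨1 + C₂ ^ 4 * C₁ * ((4 * B₀ + 1) * C₃) * C₄, ?_, ?_⟩
  · have : 0 ≤ C₂ ^ 4 * C₁ * ((4 * B₀ + 1) * C₃) * C₄ := by
      have h1 : 0 ≤ C₁ := by linarith
      have h3 : 0 ≤ C₃ := by linarith
      positivity
    linarith
  intro X hX a c₁ γ hc₁p hγ hc₁X hγX Xs hXs hadm hca Es Js hEs W hWX hJs P hP ω Ω hω0 hΩ hωΩ Bf G
    hBf hG hyp hline dl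
  have hX1 : (1 : ℝ) ≤ X := by linarith
  have hX0 : (0 : ℝ) < X := by linarith
  have hlX : 0 ≤ Real.log X := Real.log_nonneg hX1
  set X' : ℝ := Xs ^ (-(1 / 3) : ℝ) with hX'
  have hX'0 : 0 ≤ X' := by positivity
  have hC10 : 0 ≤ C₁ := by linarith
  have hC30 : 0 ≤ C₃ := by linarith
  have hC20 : 0 ≤ C₂ := by linarith
  rcases Js.eq_empty_or_nonempty with hJe | ⟨j₀, hj₀⟩
  · rw [hJe]
    simp only [Finset.sum_empty, mul_zero, Finset.sum_const_zero]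
    have : 0 ≤ 1 + C₂ ^ 4 * C₁ * ((4 * B₀ + 1) * C₃) * C₄ := by positivity
    positivity
  have hW1 : 1 ≤ W := by
    have h3 : (1 : ℝ) ≤ nm j₀ := by exact_mod_cast nm_pos.mpr (hJs j₀ hj₀).1
    exact h3.trans (hJs j₀ hj₀).2
  have hW0 : 0 < W := by linarith
  have hlW : 0 ≤ Real.log W := Real.log_nonneg hW1
  have hlWX : Real.log W ≤ B₀ * Real.log X := by
    have h3 := Real.log_le_log hW0 hWX
    rwa [Real.log_rpow hX0] at h3
  have hc₁1 : (1 : ℝ) ≤ nm c₁ := one_le_nmR hc₁p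
  have hlc₁ : 0 ≤ Real.log (nm c₁) := Real.log_nonneg hc₁1
  have hlc₁X : Real.log (nm c₁) ≤ B₀ * Real.log X := by
    have h3 := Real.log_le_log (by linarith) hc₁X
    rwa [Real.log_rpow hX0] at h3
  have hXB : X ^ B₀ ≤ X ^ (2 * B₀) := Real.rpow_le_rpow_of_exponent_le hX1 (by linarith)
  have hXB2 : X ^ B₀ * X ^ B₀ = X ^ (2 * B₀) := by
    rw [← Real.rpow_add hX0]; congr 1; ring
  set Cs := (bl W).filter (fun c => (nm c : ℝ) ^ 3 ≤ W ∧ P (Real.log (nm c))) with hCs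
  have hCs' : ∀ c' ∈ Cs, c' ≠ 0 ∧ (nm c' : ℝ) ≤ W ∧ (nm c' : ℝ) ^ 3 ≤ W ∧ (1 : ℝ) ≤ nm c' := by
    intro c' hc'
    obtain ⟨k1, k2, -⟩ := Finset.mem_filter.1 hc'
    obtain ⟨k3, k4⟩ := (mem_bl hW0.le).1 k1
    exact ⟨k3, k4, k2, by exact_mod_cast nm_pos.mpr k3⟩
  -- the inner numbers
  set Q : Eis → Eis → Eis → ℝ := fun e κ' u =>
    ‖TE (a e) (1, κ') (lc (lc c₁ e) u)‖ ^ 2 with hQ
  have hQ0 : ∀ e κ' u, 0 ≤ Q e κ' u := fun e κ' u => by positivity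
  set Gf : Eis → Eis → Eis → ℝ := fun e c' κ' => ((tau c' : ℝ) * tau γ) *
    ∑ t ∈ dvs c', ∑ t' ∈ dvs γ, Q e κ' (lc t t') with hGf
  have hGf0 : ∀ e c' κ', 0 ≤ Gf e c' κ' := fun e c' κ' =>
    mul_nonneg (by positivity) (Finset.sum_nonneg fun t _ => Finset.sum_nonneg fun t' _ =>
      hQ0 _ _ _)
  have hone : ∀ e ∈ Es, ∑ j ∈ Js, ‖TE0 (cg γ (a e)) dl j e‖ ^ 2 ≤
      ∑ c' ∈ Cs, ∑ κ' ∈ BF (W / (nm c' : ℝ) ^ 3), Gf e c' κ' := by
    intro e he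
    obtain ⟨Y, hY, hadm⟩ := hadm e
    refine sum_cubes hW0.le hJs hP (F := fun j => ‖TE0 (cg γ (a e)) dl j e‖ ^ 2) (fun c' κ' => hGf0 e c' κ')
      (fun κ' c' _ hc' => ?_)
    exact norm_TE0_two (b := a e) hY hadm.sup
      hc₁p (fun m hm => hca e m hm) hγ hc' (hEs e he).1 dl κ'
  -- one cube part, one pair of divisors
  set Nb : ℝ := ((⌊2 * (2 * B₀) * Real.log X⌋₊ + 1 : ℕ) : ℝ) with hNb
  set K₀ : ℝ := C₁ * X ^ (ε / 4) * X' with hK₀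
  have hK₀0 : 0 ≤ K₀ := by positivity
  have hcell : ∀ c' ∈ Cs, ∀ t ∈ dvs c', ∀ t' ∈ dvs γ,
      ∑ e ∈ Es, ω e * ∑ κ' ∈ BF (W / (nm c' : ℝ) ^ 3), Q e κ' (lc t t') ≤
        K₀ * (Nb * (G * (nm c' : ℝ)⁻¹)) := by
    intro c' hc' t ht t' ht'
    obtain ⟨k1, k2, k3, k4⟩ := hCs' c' hc'
    obtain ⟨t1, t2⟩ := one_le_nm_dvs k1 ht
    obtain ⟨t3, t4⟩ := one_le_nm_dvs hγ.ne_zero ht'
    have hu : IsPrim (lc t t') := lc_prim t1 t3
    have huX : (nm (lc t t') : ℝ) ≤ X ^ (2 * B₀) := by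
      refine (nm_lc_le' t1 t3).trans ?_
      rw [← hXB2]
      exact mul_le_mul (t2.trans (k2.trans hWX)) (t4.trans hγX) (Nat.cast_nonneg _)
        (by positivity)
    have hc'0 : (0 : ℝ) < nm c' := by linarith
    have hlc' : 0 ≤ Real.log (nm c') := Real.log_nonneg k4
    have h3lc : 3 * Real.log (nm c') ≤ Real.log W := by
      have h3 := Real.log_le_log (by positivity) k3
      rw [Real.log_pow] at h3
      push_cast at h3
      exact h3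
    set k : ℝ := Real.log W + Real.log (nm c₁) - 3 * Real.log (nm c') with hk
    have hk0 : 0 ≤ k := by rw [hk]; linarith
    have hkX : k ≤ 2 * B₀ * Real.log X := by rw [hk]; nlinarith
    have hkexp : Real.exp k = W / (nm c' : ℝ) ^ 3 * nm c₁ := by
      rw [hk, Real.exp_sub, Real.exp_add, Real.exp_log hW0, Real.exp_log (by linarith),
        show 3 * Real.log (nm c' : ℝ) = Real.log ((nm c' : ℝ) ^ 3) by
          rw [Real.log_pow]; push_cast; ring, Real.exp_log (by positivity)]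
      ring
    have h3 := H X hX a c₁ (lc t t') hc₁p hu (hc₁X.trans hXB) huX Xs hXs hadm
      Es (BF (W / (nm c' : ℝ) ^ 3)) (fun e he => ⟨(hEs e he).1, (hEs e he).2.trans hXB⟩) k
      (fun j hj => by
        obtain ⟨j1, j2⟩ := mem_BF.1 hj
        refine ⟨j1, ?_⟩
        rw [hkexp]
        exact mul_le_mul_of_nonneg_right j2 (Nat.cast_nonneg _))
      (fun b => Bf b k) (fun b => hBf b k)
      (fun b hb => hyp b k (by linarith) hk0 (by rw [hk]; linarith)) ω Ω hΩ (fun e he b hb => by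
        refine hωΩ e he b ?_
        have h4 := log_U_mono hc₁p (hEs e he).1 hu
        linarith [(abs_le.1 hb).2])
    refine h3.trans ?_
    have h4 : ∑ b ∈ range (⌊2 * (2 * B₀) * Real.log X⌋₊ + 1), Ω b * Bf b k ≤
        Nb * (G * (nm c' : ℝ)⁻¹) := by
      have h5 : ∀ b ∈ range (⌊2 * (2 * B₀) * Real.log X⌋₊ + 1), Ω b * Bf b k ≤
          G * (nm c' : ℝ)⁻¹ := by
        intro b hb
        have hbX : (b : ℝ) ≤ 4 * B₀ * Real.log X := by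
          have h7 : b ≤ ⌊2 * (2 * B₀) * Real.log X⌋₊ := Nat.le_of_lt_succ (Finset.mem_range.1 hb)
          have h8 := (Nat.cast_le (α := ℝ).2 h7).trans (Nat.floor_le (by positivity))
          linarith
        have h6 := hline b (Real.log (nm c')) hbX hlc' h3lc (Finset.mem_filter.1 hc').2.2
        rwa [Real.exp_neg, Real.exp_log hc'0] at h6
      refine (Finset.sum_le_sum h5).trans (le_of_eq ?_)
      rw [Finset.sum_const, Finset.card_range, nsmul_eq_mul]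
    rw [hK₀]
    exact mul_le_mul_of_nonneg_left h4 (by positivity)
  -- the divisor bounds
  have hτX : ∀ z : Eis, z ≠ 0 → (nm z : ℝ) ≤ X ^ B₀ → (tau z : ℝ) ≤ C₂ * X ^ (ε / 16) := by
    intro z hz hzX
    refine (hτ z hz).trans (mul_le_mul_of_nonneg_left ?_ hC20)
    calc (nm z : ℝ) ^ η ≤ (X ^ B₀) ^ η := Real.rpow_le_rpow (Nat.cast_nonneg _) hzX hη0.le
      _ = X ^ (B₀ * η) := by rw [← Real.rpow_mul hX0.le]
      _ ≤ X ^ (ε / 16) := by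
          refine Real.rpow_le_rpow_of_exponent_le hX1 ?_
          have h6 : η * (16 * (B₀ + 1)) = ε := by rw [hη]; field_simp
          nlinarith
  set T : ℝ := C₂ * X ^ (ε / 16) with hT
  have hT0 : 0 ≤ T := by positivity
  have hT4 : T ^ 4 = C₂ ^ 4 * X ^ (ε / 4) := by
    rw [hT, mul_pow, ← Real.rpow_natCast (X ^ (ε / 16)), ← Real.rpow_mul hX0.le]
    congr 2
    push_cast
    ring
  have hcube : ∀ c' ∈ Cs, ∑ e ∈ Es, ω e * ∑ κ' ∈ BF (W / (nm c' : ℝ) ^ 3), Gf e c' κ' ≤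
      T ^ 4 * (K₀ * (Nb * (G * (nm c' : ℝ)⁻¹))) := by
    intro c' hc'
    obtain ⟨k1, k2, k3, k4⟩ := hCs' c' hc'
    have e1 : ∑ e ∈ Es, ω e * ∑ κ' ∈ BF (W / (nm c' : ℝ) ^ 3), Gf e c' κ' =
        ((tau c' : ℝ) * tau γ) * ∑ t ∈ dvs c', ∑ t' ∈ dvs γ, ∑ e ∈ Es, ω e *
          ∑ κ' ∈ BF (W / (nm c' : ℝ) ^ 3), Q e κ' (lc t t') := by
      have e2 : ∀ e ∈ Es, ω e * ∑ κ' ∈ BF (W / (nm c' : ℝ) ^ 3), Gf e c' κ' =
          ((tau c' : ℝ) * tau γ) * ∑ t ∈ dvs c', ∑ t' ∈ dvs γ, ω e *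
            ∑ κ' ∈ BF (W / (nm c' : ℝ) ^ 3), Q e κ' (lc t t') := by
        intro e _
        rw [hGf]
        simp only
        rw [← Finset.mul_sum, mul_left_comm]
        congr 1
        rw [Finset.sum_comm, Finset.mul_sum]
        refine Finset.sum_congr rfl fun t _ => ?_
        rw [Finset.sum_comm, Finset.mul_sum]
      rw [Finset.sum_congr rfl e2, ← Finset.mul_sum]
      congr 1
      rw [Finset.sum_comm]
      refine Finset.sum_congr rfl fun t _ => ?_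
      rw [Finset.sum_comm]
    rw [e1]
    have hB : 0 ≤ K₀ * (Nb * (G * (nm c' : ℝ)⁻¹)) := by positivity
    have h3 : ∑ t ∈ dvs c', ∑ t' ∈ dvs γ, ∑ e ∈ Es, ω e *
          ∑ κ' ∈ BF (W / (nm c' : ℝ) ^ 3), Q e κ' (lc t t') ≤
        (tau c' : ℝ) * (tau γ * (K₀ * (Nb * (G * (nm c' : ℝ)⁻¹)))) := by
      refine (Finset.sum_le_sum fun t ht => Finset.sum_le_sum fun t' ht' =>
        hcell c' hc' t ht t' ht').trans (le_of_eq ?_)
      rw [Finset.sum_const, Finset.sum_const, nsmul_eq_mul, nsmul_eq_mul]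
      rfl
    have h4 := hτX c' k1 (k2.trans hWX)
    have h5 := hτX γ hγ.ne_zero hγX
    have h6 : (0 : ℝ) ≤ tau c' := Nat.cast_nonneg _
    have h7 : (0 : ℝ) ≤ tau γ := Nat.cast_nonneg _
    calc ((tau c' : ℝ) * tau γ) * ∑ t ∈ dvs c', ∑ t' ∈ dvs γ, ∑ e ∈ Es, ω e *
          ∑ κ' ∈ BF (W / (nm c' : ℝ) ^ 3), Q e κ' (lc t t') ≤
          ((tau c' : ℝ) * tau γ) * ((tau c' : ℝ) * (tau γ *
            (K₀ * (Nb * (G * (nm c' : ℝ)⁻¹))))) :=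
          mul_le_mul_of_nonneg_left h3 (by positivity)
      _ = ((tau c' : ℝ) * tau γ) ^ 2 * (K₀ * (Nb * (G * (nm c' : ℝ)⁻¹))) := by ring
      _ ≤ (T * T) ^ 2 * (K₀ * (Nb * (G * (nm c' : ℝ)⁻¹))) := by
          refine mul_le_mul_of_nonneg_right ?_ hB
          exact pow_le_pow_left₀ (by positivity) (mul_le_mul h4 h5 h7 hT0) 2
      _ = _ := by ring
  -- the sum over the cube parts
  have hinv : ∑ c' ∈ Cs, (nm c' : ℝ)⁻¹ ≤ X ^ (ε / 4) * C₄ := by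
    have h3 : ∀ c' ∈ Cs, (nm c' : ℝ)⁻¹ ≤ X ^ (ε / 4) * (nm c' : ℝ) ^ (-(1 + η)) := by
      intro c' hc'
      obtain ⟨k1, k2, k3, k4⟩ := hCs' c' hc'
      have hc'0 : (0 : ℝ) < nm c' := by linarith
      have h4 : (nm c' : ℝ)⁻¹ = (nm c' : ℝ) ^ η * (nm c' : ℝ) ^ (-(1 + η)) := by
        rw [← Real.rpow_add hc'0, ← Real.rpow_neg_one]
        congr 1; ring
      rw [h4]
      refine mul_le_mul_of_nonneg_right ?_ (by positivity)
      calc (nm c' : ℝ) ^ η ≤ (X ^ B₀) ^ η :=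
            Real.rpow_le_rpow (Nat.cast_nonneg _) (k2.trans hWX) hη0.le
        _ = X ^ (B₀ * η) := by rw [← Real.rpow_mul hX0.le]
        _ ≤ X ^ (ε / 4) := by
            refine Real.rpow_le_rpow_of_exponent_le hX1 ?_
            have h6 : η * (16 * (B₀ + 1)) = ε := by rw [hη]; field_simp
            nlinarith
    refine (Finset.sum_le_sum h3).trans ?_
    rw [← Finset.mul_sum]
    exact mul_le_mul_of_nonneg_left (hsum Cs) (by positivity)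
  have hNbX : Nb ≤ (4 * B₀ + 1) * (C₃ * X ^ (ε / 4)) := by
    have h3 := hlog X hX1
    rw [pow_one] at h3
    have h4 : Nb ≤ 4 * B₀ * Real.log X + 1 := by
      rw [hNb]
      push_cast
      have := Nat.floor_le (show 0 ≤ 2 * (2 * B₀) * Real.log X by positivity)
      linarith
    have h5 : 4 * B₀ * Real.log X + 1 ≤ (4 * B₀ + 1) * (Real.log X + 1) := by nlinarith
    exact h4.trans (h5.trans (mul_le_mul_of_nonneg_left h3 (by positivity)))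
  calc ∑ e ∈ Es, ω e * ∑ j ∈ Js, ‖TE0 (cg γ (a e)) dl j e‖ ^ 2 ≤
        ∑ e ∈ Es, ω e * ∑ c' ∈ Cs, ∑ κ' ∈ BF (W / (nm c' : ℝ) ^ 3), Gf e c' κ' :=
        Finset.sum_le_sum fun e he => mul_le_mul_of_nonneg_left (hone e he) (hω0 e he)
    _ = ∑ c' ∈ Cs, ∑ e ∈ Es, ω e * ∑ κ' ∈ BF (W / (nm c' : ℝ) ^ 3), Gf e c' κ' := by
        rw [Finset.sum_comm]
        refine Finset.sum_congr rfl fun e _ => ?_
        rw [Finset.mul_sum]
    _ ≤ ∑ c' ∈ Cs, T ^ 4 * (K₀ * (Nb * (G * (nm c' : ℝ)⁻¹))) := Finset.sum_le_sum hcube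
    _ = T ^ 4 * K₀ * Nb * G * ∑ c' ∈ Cs, (nm c' : ℝ)⁻¹ := by
        rw [Finset.mul_sum]
        exact Finset.sum_congr rfl fun c' _ => by ring
    _ ≤ T ^ 4 * K₀ * Nb * G * (X ^ (ε / 4) * C₄) :=
        mul_le_mul_of_nonneg_left hinv (by positivity)
    _ ≤ T ^ 4 * K₀ * ((4 * B₀ + 1) * (C₃ * X ^ (ε / 4))) * G * (X ^ (ε / 4) * C₄) := by
        refine mul_le_mul_of_nonneg_right (mul_le_mul_of_nonneg_right
          (mul_le_mul_of_nonneg_left hNbX (by positivity)) hG) (by positivity)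
    _ = (C₂ ^ 4 * C₁ * ((4 * B₀ + 1) * C₃) * C₄) * X ^ ε * X' * G := by
        have hXe : X ^ ε = X ^ (ε / 4) * X ^ (ε / 4) * (X ^ (ε / 4) * X ^ (ε / 4)) := by
          rw [← Real.rpow_add hX0, ← Real.rpow_add hX0]; congr 1; ring
        rw [hT4, hK₀, hXe]
        ring
    _ ≤ (1 + C₂ ^ 4 * C₁ * ((4 * B₀ + 1) * C₃) * C₄) * X ^ ε * X' * G := by
        have h3 : 0 ≤ X ^ ε * X' * G := by positivity
        nlinarith

end Crest.Agent.R017.GrK404
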