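import Crest.Agent.R017.GrK3_404
import Crest.Agent.R017.GrX_404
import Crest.Agent.R017.GrV2_404
import Crest.Agent.R017.RX2_241
import Crest.Agent.R017.DkB_848

/-!
# Row 17, R8/P1: `CoreB` for the mismatch coefficients (helper404)

* `core_K` : `core_sumK` for 319's five weights, gate `min (y5 Z g c) (log N D)`
* **`coreB_N`** : `CoreB` in class N from the claims `VF`
* **`coreB_x`** : `CoreB` at a difference `x` from the claims `VK Dk` of the two lists and the bias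
-/

set_option autoImplicit false

noncomputable section

open Finset MeasureTheory
open scoped ComplexConjugate Classical

namespace Crest.Agent.R017.GrK404

open Crest.Agent.R012 Crest.Agent.R012.Eis
open Crest.Agent.R012.Div277 (tau dvs mem_dvs tau_le_rpow)
open Crest.Agent.R012.LS2 (S mem_S bl mem_bl)
open Crest.Agent.R012.Weight600 (osc norm_osc pw norm_pw)
open Crest.Agent.R017.CM106 (CS TG FS)
open Crest.Agent.R017.HP842 (Pc pc al cv Tu mem_Tu sc' scS sqc Th card_Tu_le Ker KS Kg ker_Kg KS_Kg)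
open Crest.Agent.R017.Rough381 (sh shS sh_OK VF nm_prodI)
open Crest.Agent.R017.Leg381 (Th_ne_zero FS_alW)
open Crest.Agent.R017.LegK545 (VK VK_Kg)
open Crest.Agent.R017.FE47 (PU cx)
open Crest.Agent.R017.Prov71 (CubeFree)
open Crest.Agent.R017.StA828 Crest.Agent.R017.StC828 Crest.Agent.R017.StF828
open Crest.Agent.R017.StB828 (one_le_nmR)
open Crest.Agent.R017.GrC828 Crest.Agent.R017.GrT828
open Crest.Agent.R017.StJ319
open Crest.Agent.R017.E1551 (Adm)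
open Crest.Agent.R017.PX764 (Dk th md pC_pos)
open Crest.Agent.R017.RX241 (Md TG_sq_le)
open Crest.Agent.R017.GrG404

/-- **one height against a kernel**, 319's five weights -/
theorem core_K {Kn : Eis → Eis → ℂ} (hKn : Ker Kn) {h : ℝ → ℝ} {c₀ : ℝ} (hpu : PU h c₀) {R : ℝ}
    (hR0 : 0 ≤ R) (hR : ∀ u, cx h u ≠ 0 → |u| ≤ R) (N : ℕ) {B₀ : ℝ} (hB₀ : 0 ≤ B₀) {ε : ℝ}
    (hε : 0 < ε) {M : ℝ} (hM : 0 ≤ M) : ∃ C r : ℝ, 1 ≤ C ∧ 0 ≤ r ∧ ∀ X : ℝ, 3 ≤ X →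
    ∀ (ι κ : Type) [Fintype ι] [Fintype κ] [DecidableEq ι] [DecidableEq κ],
    Fintype.card ι + Fintype.card κ ≤ N → ∀ (s1 : ι → Pc) (s2 : κ → Pc), (∀ i, (s1 i).OK) →
    (∀ j, (s2 j).OK) → (∀ i, Real.log (s1 i).Y ≤ Real.log X) →
    (∀ j, Real.log (s2 j).Y ≤ Real.log X) → ∀ Z : ℝ, 0 ≤ Z →
    (∀ n, sqc 1 (al h s1) n ≠ 0 → (nm n : ℝ) ≤ Z) → ∀ (E0 : ℝ) (c : Fin 5) (s : ℝ) (g D : Eis),
    IsPrim g → IsPrim D → (nm g : ℝ) ≤ X ^ B₀ → (nm D : ℝ) ≤ X ^ B₀ →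
    ∀ (b k : ℝ), 0 ≤ b → b ≤ B₀ * Real.log X → 0 ≤ k → k ≤ B₀ * Real.log X →
    ∀ Us Js : Finset Eis, (∀ U ∈ Us, IsPrim U ∧ |Real.log (nm U) - b| ≤ 1) →
    (∀ j ∈ Js, CubeFree j ∧ (nm j : ℝ) * nm (cc g D) ≤ Real.exp k) →
    ∀ es : Eis → Eis, (∀ U ∈ Us, IsPrim (es U) ∧ es U ∣ cc g D * U) → ∀ Bd : ℝ, 0 ≤ Bd →
    (∀ (l : ℝ) (s' : ι ⊕ κ → Pc), 0 ≤ l → ChF r s' (Sum.elim s1 s2) →
      |LY s' - (LY s1 + LY s2 - Real.log (nm g) - Real.log (nm D * nm (cc g D)) - b)| ≤ r →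
      |l - (k + b)| ≤ r →
      LY s1 - Real.log (nm g) - min (y5 Z g c) (Real.log (nm D)) - b - r ≤
        LY (fun i => s' (.inl i)) →
      VK Kn (Real.exp l) (sqc (D * cc g D) (al h s')) ≤ Bd * cF s' (Sum.elim s1 s2) ^ M) →
    ∀ τ : ℝ, ∑ U ∈ Us, ∑ j ∈ Js.filter (fun j => IsCoprime j (cc g D * U)),
      ‖KS Kn (fun m => Ae Z E0 (sqc 1 (al h s1)) (sqc 1 (al h s2)) g c s (es U) D
        (cc g D * U * m) * pw τ (nm m)) (j * (cc g D * U))‖ ^ 2 ≤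
      C * X ^ ε * (1 + |s|) ^ (N * M) * Bd * (1 + |τ|) ^ (N * M) := by
  obtain ⟨C, r, hC, hr, H⟩ := core_sumK hKn hpu hR0 hR N hB₀ hε hM
  refine ⟨C, r, hC, hr, ?_⟩
  intro X hX ι κ _ _ _ _ hcard s1 s2 h1 h2 h1X h2X Z hZ hsup E0 c s g D hg hD hgX hDX b k hb hbX
    hk hkX Us Js hUs hJs es hes Bd hBd hyp τ
  obtain ⟨θ, hθs, hWok⟩ := wok5 E0 Z g c s
  have h3 := H X hX ι κ hcard s1 s2 h1 h2 h1X h2X Z hZ hsup θ (Wb (gt5 E0 Z g c) (q5 g c) s)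
    hWok g D hg hD hgX hDX (min (y5 Z g c) (Real.log (nm D)))
    (fun e a _ ha hne => le_min (y5_le hg c ha hne) (log_gp_le hD ha)) b k hb hbX hk hkX Us Js
    hUs hJs es hes Bd hBd hyp τ
  refine h3.trans ?_
  have hτ : 0 ≤ 1 + |τ| := by positivity
  have hθ : 0 ≤ 1 + |θ| := by positivity
  have hNM : 0 ≤ (N : ℝ) * M := by positivity
  have h4 : ((1 + |θ|) * (1 + |τ|)) ^ ((N : ℝ) * M) ≤
      (1 + |s|) ^ ((N : ℝ) * M) * (1 + |τ|) ^ ((N : ℝ) * M) := by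
    rw [Real.mul_rpow hθ hτ]
    exact mul_le_mul_of_nonneg_right (Real.rpow_le_rpow hθ (by linarith) hNM) (by positivity)
  have hX0 : (0 : ℝ) < X := by linarith
  have hC0 : 0 ≤ C := by linarith
  calc C * X ^ ε * ((1 + |θ|) * (1 + |τ|)) ^ ((N : ℝ) * M) * Bd ≤
        C * X ^ ε * ((1 + |s|) ^ ((N : ℝ) * M) * (1 + |τ|) ^ ((N : ℝ) * M)) * Bd := by gcongr
    _ = _ := by ring

/-- **`CoreB` in class N** -/
theorem coreB_N {h : ℝ → ℝ} {c₀ : ℝ} (hpu : PU h c₀) {R : ℝ}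
    (hR0 : 0 ≤ R) (hR : ∀ u, cx h u ≠ 0 → |u| ≤ R) (N : ℕ) {B₀ : ℝ} (hB₀ : 0 ≤ B₀) {ε : ℝ}
    (hε : 0 < ε) {M : ℝ} (hM : 0 ≤ M) : ∃ C r : ℝ, 1 ≤ C ∧ 0 ≤ r ∧ ∀ X : ℝ, 3 ≤ X →
    ∀ (ι κ : Type) [Fintype ι] [Fintype κ] [DecidableEq ι] [DecidableEq κ],
    Fintype.card ι + Fintype.card κ ≤ N → ∀ (s1 : ι → Pc) (s2 : κ → Pc), (∀ i, (s1 i).OK) →
    (∀ j, (s2 j).OK) → (∀ i, Real.log (s1 i).Y ≤ Real.log X) →
    (∀ j, Real.log (s2 j).Y ≤ Real.log X) → ∀ Z : ℝ, 0 ≤ Z →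
    (∀ n, sqc 1 (al h s1) n ≠ 0 → (nm n : ℝ) ≤ Z) → ∀ (E0 : ℝ) (c : Fin 5) (s : ℝ) (g D : Eis),
    IsPrim g → IsPrim D → (nm g : ℝ) ≤ X ^ B₀ → (nm D : ℝ) ≤ X ^ B₀ →
    ∀ (b k : ℝ), 0 ≤ b → b ≤ B₀ * Real.log X → 0 ≤ k → k ≤ B₀ * Real.log X →
    ∀ Bd : ℝ, 0 ≤ Bd →
    (∀ (l : ℝ) (s' : ι ⊕ κ → Pc), 0 ≤ l → ChF r s' (Sum.elim s1 s2) →
      |LY s' - (LY s1 + LY s2 - Real.log (nm g) - Real.log (nm D * nm (cc g D)) - b)| ≤ r →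
      |l - (k + b)| ≤ r →
      LY s1 - Real.log (nm g) - min (y5 Z g c) (Real.log (nm D)) - b - r ≤
        LY (fun i => s' (.inl i)) →
      VF (Real.exp l) (sqc (D * cc g D) (al h s')) ≤ Bd * cF s' (Sum.elim s1 s2) ^ M) →
    CoreB (fun e => Ae Z E0 (sqc 1 (al h s1)) (sqc 1 (al h s2)) g c s e D) (cc g D) b k
      (N * M) (C * X ^ ε * (1 + |s|) ^ (N * M) * Bd) := by
  obtain ⟨C, r, hC, hr, H⟩ := core_K ker_Kg hpu hR0 hR N hB₀ hε hM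
  refine ⟨C, r, hC, hr, ?_⟩
  intro X hX ι κ _ _ _ _ hcard s1 s2 h1 h2 h1X h2X Z hZ hsup E0 c s g D hg hD hgX hDX b k hb hbX
    hk hkX Bd hBd hyp Us Js hUs hJs es hes τ
  exact H X hX ι κ hcard s1 s2 h1 h2 h1X h2X Z hZ hsup E0 c s g D hg hD hgX hDX b k hb hbX
    hk hkX Us Js hUs hJs es hes Bd hBd (fun l s' hl hF hLY hlk hgate => by
      rw [VK_Kg]
      exact hyp l s' hl hF hLY hlk hgate) τ

/-! ### linearity -/

lemma xa_sub {α β x : Eis → ℂ} {ζ : ℂ} (hx : ∀ n, x n = α n - ζ * β n) (a g n : Eis) :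
    xa a (rs g x) n = xa a (rs g α) n - ζ * xa a (rs g β) n := by
  unfold xa rs
  split_ifs
  · rw [hx]
  · simp
  · simp

lemma Ae_sub (Z E0 : ℝ) (η : Eis → ℂ) {α β x : Eis → ℂ} {ζ : ℂ}
    (hx : ∀ n, x n = α n - ζ * β n) (g : Eis) (c : Fin 5) (s : ℝ) (e D m : Eis) :
    Ae Z E0 η x g c s e D m = Ae Z E0 η α g c s e D m - ζ * Ae Z E0 η β g c s e D m := by
  unfold Ae afW
  rw [mul_sum, ← sum_sub_distrib]
  refine sum_congr rfl fun a _ => ?_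
  rw [xa_sub hx]
  ring

/-- finite support of the coefficient -/
lemma FS_seq {a : Eis → ℂ} {Y : ℝ} (hY : 0 ≤ Y) (ha : ∀ m, a m ≠ 0 → m ∈ S Y) {D : Eis}
    (hD : IsPrim D) (τ : ℝ) : FS (fun m => a (D * m) * pw τ (nm m)) := by
  have h0 : FS a := ⟨(S Y).finite_toSet.subset fun n hn => ha n hn,
    fun m hm => ((mem_S hY).1 (ha m hm)).2.1⟩
  exact RX241.fs_ts h0 hD τ

/-! ### the mean square of `th` over a block -/

lemma th_block {η : ℝ} (hη : 0 < η) : ∃ C : ℝ, 0 ≤ C ∧ ∀ (c : Eis), IsPrim c →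
    ∀ (b k : ℝ), 0 ≤ b → 0 ≤ k → ∀ Us Js : Finset Eis,
    (∀ U ∈ Us, IsPrim U ∧ |Real.log (nm U) - b| ≤ 1) →
    (∀ j ∈ Js, CubeFree j ∧ (nm j : ℝ) * nm c ≤ Real.exp k) →
    ∑ U ∈ Us, ∑ j ∈ Js, ‖th (j * (c * U))‖ ^ 2 ≤
      C * Real.exp ((2 / 3 + η) * (k + b)) := by
  obtain ⟨C₁, hC₁, H⟩ := Dk848.sum_th_sq
  obtain ⟨C₂, hC₂, hτ⟩ := tau_le_rpow hη
  refine ⟨C₂ * C₁ * Real.exp (2 / 3 + η), by positivity, ?_⟩
  intro c hc b k hb hk Us Js hUs hJs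
  set L := Real.exp (k + b + 1) with hL
  have hL1 : 1 ≤ L := Real.one_le_exp (by linarith)
  have hL0 : 0 < L := by linarith
  have hmem : ∀ p ∈ Us ×ˢ Js, p.2 * (c * p.1) ∈ bl L := by
    rintro ⟨U, j⟩ hp
    obtain ⟨hU, hj⟩ := mem_product.1 hp
    obtain ⟨hU1, hU2⟩ := hUs U hU
    obtain ⟨hj1, hj2⟩ := hJs j hj
    rw [mem_bl hL0.le]
    refine ⟨mul_ne_zero hj1.1 (mul_ne_zero hc.ne_zero hU1.ne_zero), ?_⟩
    have hU0 : (0 : ℝ) < nm U := by exact_mod_cast nm_pos.2 hU1.ne_zero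
    have h3 : (nm U : ℝ) ≤ Real.exp (b + 1) := by
      rw [← Real.log_le_iff_le_exp hU0]
      linarith [(abs_le.1 hU2).2]
    show (nm (j * (c * U)) : ℝ) ≤ L
    rw [nm_mul, nm_mul]
    push_cast
    calc (nm j : ℝ) * (nm c * nm U) = (nm j * nm c) * nm U := by ring
      _ ≤ Real.exp k * Real.exp (b + 1) := mul_le_mul hj2 h3 hU0.le (Real.exp_pos _).le
      _ = L := by rw [hL, ← Real.exp_add]; congr 1; ring
  have e1 : ∑ U ∈ Us, ∑ j ∈ Js, ‖th (j * (c * U))‖ ^ 2 =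
      ∑ p ∈ Us ×ˢ Js, ‖th (p.2 * (c * p.1))‖ ^ 2 := by
    rw [sum_product]
  rw [e1, ← sum_fiberwise_of_maps_to (g := fun p : Eis × Eis => p.2 * (c * p.1)) hmem]
  have hfib : ∀ x ∈ bl L, ∑ p ∈ (Us ×ˢ Js).filter (fun p => p.2 * (c * p.1) = x),
      ‖th (p.2 * (c * p.1))‖ ^ 2 ≤ C₂ * L ^ η * ‖th x‖ ^ 2 := by
    intro x hx
    obtain ⟨hx0, hxL⟩ := (mem_bl hL0.le).1 hx
    have e2 : ∑ p ∈ (Us ×ˢ Js).filter (fun p => p.2 * (c * p.1) = x),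
        ‖th (p.2 * (c * p.1))‖ ^ 2 =
        ((Us ×ˢ Js).filter (fun p => p.2 * (c * p.1) = x)).card * ‖th x‖ ^ 2 := by
      rw [sum_congr rfl fun p hp => by rw [(mem_filter.1 hp).2], sum_const, nsmul_eq_mul]
    rw [e2]
    refine mul_le_mul_of_nonneg_right ?_ (by positivity)
    have h3 : ((Us ×ˢ Js).filter (fun p => p.2 * (c * p.1) = x)).card ≤ (dvs x).card := by
      refine card_le_card_of_injOn Prod.fst (fun p hp => ?_) (fun p hp q hq hpq => ?_)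
      · obtain ⟨k1, k2⟩ := mem_filter.1 hp
        obtain ⟨k3, -⟩ := mem_product.1 k1
        rw [mem_coe, mem_dvs hx0]
        refine ⟨(hUs _ k3).1, ?_⟩
        rw [← k2]
        exact (dvd_mul_left _ _).trans (dvd_mul_left _ _)
      · obtain ⟨k1, k2⟩ := mem_filter.1 hp
        obtain ⟨k3, k4⟩ := mem_filter.1 hq
        obtain ⟨k5, -⟩ := mem_product.1 k1
        have hpq' : p.1 = q.1 := hpq
        have h0 : c * p.1 ≠ 0 := mul_ne_zero hc.ne_zero (hUs _ k5).1.ne_zero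
        refine Prod.ext hpq' ?_
        have h4 : p.2 * (c * p.1) = q.2 * (c * p.1) := by
          rw [k2, hpq', k4]
        exact mul_right_cancel₀ h0 h4
    have h4 : ((dvs x).card : ℝ) ≤ C₂ * (nm x : ℝ) ^ η := hτ x hx0
    calc (((Us ×ˢ Js).filter (fun p => p.2 * (c * p.1) = x)).card : ℝ) ≤ (dvs x).card := by
          exact_mod_cast h3
      _ ≤ C₂ * (nm x : ℝ) ^ η := h4
      _ ≤ C₂ * L ^ η := mul_le_mul_of_nonneg_left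
          (Real.rpow_le_rpow (Nat.cast_nonneg _) hxL hη.le) (by linarith)
  refine (sum_le_sum hfib).trans ?_
  rw [← mul_sum]
  have h5 := H L hL1
  have e3 : L ^ η * L ^ ((2 : ℝ) / 3) = Real.exp (2 / 3 + η) * Real.exp ((2 / 3 + η) * (k + b)) := by
    rw [← Real.rpow_add hL0, hL, ← Real.exp_mul, ← Real.exp_add]
    congr 1
    ring
  calc C₂ * L ^ η * ∑ x ∈ bl L, ‖th x‖ ^ 2 ≤ C₂ * L ^ η * (C₁ * L ^ ((2 : ℝ) / 3)) :=
        mul_le_mul_of_nonneg_left h5 (by positivity)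
    _ = C₂ * C₁ * (L ^ η * L ^ ((2 : ℝ) / 3)) := by ring
    _ = _ := by rw [e3]; ring

/-- the three parts of the Gauss sums of a difference -/
lemma TG_x_le {Z E0 : ℝ} {η α β x : Eis → ℂ} {ζ : ℂ} (hζ : ‖ζ‖ ≤ 1)
    (hx : ∀ n, x n = α n - ζ * β n) {g : Eis} {c : Fin 5} {s : ℝ} {e D : Eis} {Y Y' : ℝ}
    (hY : 0 ≤ Y) (hY' : 0 ≤ Y') (hα : ∀ m, Ae Z E0 η α g c s e D m ≠ 0 → m ∈ S Y)
    (hβ : ∀ m, Ae Z E0 η β g c s e D m ≠ 0 → m ∈ S Y') {Q : Eis} (hQ : IsPrim Q) (τ : ℝ)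
    (j : Eis) :
    ‖TG (fun m => Ae Z E0 η x g c s e D (Q * m) * pw τ (nm m)) j‖ ^ 2 ≤
      3 * (‖KS Dk (fun m => Ae Z E0 η α g c s e D (Q * m) * pw τ (nm m)) j‖ ^ 2 +
        ‖KS Dk (fun m => Ae Z E0 η β g c s e D (Q * m) * pw τ (nm m)) j‖ ^ 2 +
        pC ^ 2 * (‖th j‖ ^ 2 *
          ‖Md (fun m => Ae Z E0 η x g c s e D (Q * m) * pw τ (nm m)) j‖ ^ 2)) := by
  refine TG_sq_le hζ (FS_seq hY hα hQ τ) (FS_seq hY' hβ hQ τ) (fun n => ?_) j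
  rw [Ae_sub Z E0 η hx]
  ring

set_option maxHeartbeats 1000000 in
/-- **`CoreB` at a difference** -/
theorem coreB_x {h : ℝ → ℝ} {c₀ : ℝ} (hpu : PU h c₀) {R : ℝ}
    (hR0 : 0 ≤ R) (hR : ∀ u, cx h u ≠ 0 → |u| ≤ R) (N : ℕ) {B₀ : ℝ} (hB₀ : 0 ≤ B₀) {ε : ℝ}
    (hε : 0 < ε) {M : ℝ} (hM : 0 ≤ M) {J : ℝ} (hJ : (N : ℝ) * M ≤ J) :
    ∃ C r : ℝ, 1 ≤ C ∧ 0 ≤ r ∧ ∀ X : ℝ, 3 ≤ X →
    ∀ (ι κ : Type) [Fintype ι] [Fintype κ] [DecidableEq ι] [DecidableEq κ],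
    Fintype.card ι + Fintype.card κ ≤ N → ∀ (s1 : ι → Pc) (s2 s3 : κ → Pc),
    (∀ i, (s1 i).OK) → (∀ j, (s2 j).OK) → (∀ j, (s3 j).OK) →
    (∀ i, Real.log (s1 i).Y ≤ Real.log X) → (∀ j, Real.log (s2 j).Y ≤ Real.log X) →
    (∀ j, Real.log (s3 j).Y ≤ Real.log X) → ∀ Z : ℝ, 0 ≤ Z →
    (∀ n, sqc 1 (al h s1) n ≠ 0 → (nm n : ℝ) ≤ Z) → ∀ ζ : ℂ, ‖ζ‖ ≤ 1 → ∀ x : Eis → ℂ,
    (∀ n, x n = sqc 1 (al h s2) n - ζ * sqc 1 (al h s3) n) →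
    ∀ (E0 : ℝ) (c : Fin 5) (s : ℝ) (g D : Eis),
    IsPrim g → IsPrim D → (nm g : ℝ) ≤ X ^ B₀ → (nm D : ℝ) ≤ X ^ B₀ →
    ∀ (b k : ℝ), 0 ≤ b → b ≤ B₀ * Real.log X → 0 ≤ k → k ≤ B₀ * Real.log X →
    ∀ Bd Bd' Eb : ℝ, 0 ≤ Bd → 0 ≤ Bd' → 0 ≤ Eb →
    (∀ (l : ℝ) (s' : ι ⊕ κ → Pc), 0 ≤ l → ChF r s' (Sum.elim s1 s2) →
      |LY s' - (LY s1 + LY s2 - Real.log (nm g) - Real.log (nm D * nm (cc g D)) - b)| ≤ r →
      |l - (k + b)| ≤ r →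
      LY s1 - Real.log (nm g) - min (y5 Z g c) (Real.log (nm D)) - b - r ≤
        LY (fun i => s' (.inl i)) →
      VK Dk (Real.exp l) (sqc (D * cc g D) (al h s')) ≤ Bd * cF s' (Sum.elim s1 s2) ^ M) →
    (∀ (l : ℝ) (s' : ι ⊕ κ → Pc), 0 ≤ l → ChF r s' (Sum.elim s1 s3) →
      |LY s' - (LY s1 + LY s3 - Real.log (nm g) - Real.log (nm D * nm (cc g D)) - b)| ≤ r →
      |l - (k + b)| ≤ r →
      LY s1 - Real.log (nm g) - min (y5 Z g c) (Real.log (nm D)) - b - r ≤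
        LY (fun i => s' (.inl i)) →
      VK Dk (Real.exp l) (sqc (D * cc g D) (al h s')) ≤ Bd' * cF s' (Sum.elim s1 s3) ^ M) →
    (∀ U e : Eis, IsPrim U → |Real.log (nm U) - b| ≤ 1 → IsPrim e → e ∣ cc g D * U →
      ∀ j : Eis, CubeFree j → (nm j : ℝ) * nm (cc g D) ≤ Real.exp k →
      IsCoprime j (cc g D * U) → ∀ τ : ℝ,
      ‖Md (fun m => Ae Z E0 (sqc 1 (al h s1)) x g c s e D (cc g D * U * m) * pw τ (nm m))
        (j * (cc g D * U))‖ ^ 2 ≤ Eb * (1 + |τ|) ^ J) →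
    CoreB (fun e => Ae Z E0 (sqc 1 (al h s1)) x g c s e D) (cc g D) b k J
      (C * X ^ ε * ((1 + |s|) ^ (N * M) * (Bd + Bd') + Real.exp (2 / 3 * (k + b)) * Eb)) := by
  obtain ⟨C₁, r, hC₁, hr, H⟩ := core_K Dk848.ker_Dk hpu hR0 hR N hB₀ hε hM
  set δ := ε / (2 * B₀ + 1) with hδ
  have hδ0 : 0 < δ := by positivity
  obtain ⟨C₂, hC₂, Hth⟩ := th_block hδ0
  refine ⟨3 * C₁ + 3 * pC ^ 2 * C₂, r, ?_, hr, ?_⟩
  · have : 0 ≤ 3 * pC ^ 2 * C₂ := by positivity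
    linarith
  intro X hX ι κ _ _ _ _ hcard s1 s2 s3 h1 h2 h3 h1X h2X h3X Z hZ hsup ζ hζ x hx E0 c s g D hg hD
    hgX hDX b k hb hbX hk hkX Bd Bd' Eb hBd hBd' hEb hyp hyp' hbias Us Js hUs hJs es hes τ
  have hX1 : (1 : ℝ) ≤ X := by linarith
  have hX0 : (0 : ℝ) < X := by linarith
  have hlX : 0 ≤ Real.log X := Real.log_nonneg hX1
  have hC10 : 0 ≤ C₁ := by linarith
  have k1 := H X hX ι κ hcard s1 s2 h1 h2 h1X h2X Z hZ hsup E0 c s g D hg hD hgX hDX b k hb hbX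
    hk hkX Us Js hUs hJs es hes Bd hBd hyp τ
  have k2 := H X hX ι κ hcard s1 s3 h1 h3 h1X h3X Z hZ hsup E0 c s g D hg hD hgX hDX b k hb hbX
    hk hkX Us Js hUs hJs es hes Bd' hBd' hyp' τ
  have hcp : IsPrim (cc g D) := cc_prim hg
  set η := sqc 1 (al h s1) with hη
  set Jf : Eis → Finset Eis := fun U => Js.filter (fun j => IsCoprime j (cc g D * U)) with hJf
  have hτ1 : (1 : ℝ) ≤ 1 + |τ| := by linarith [abs_nonneg τ]
  have hτJ : (1 + |τ|) ^ ((N : ℝ) * M) ≤ (1 + |τ|) ^ J := Real.rpow_le_rpow_of_exponent_le hτ1 hJ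
  have hτ0 : 0 ≤ (1 + |τ|) ^ J := by positivity
  -- the three parts
  have hpart : ∀ U ∈ Us, ∀ j ∈ Jf U,
      ‖TG (fun m => Ae Z E0 η x g c s (es U) D (cc g D * U * m) * pw τ (nm m))
        (j * (cc g D * U))‖ ^ 2 ≤
      3 * ‖KS Dk (fun m => Ae Z E0 η (sqc 1 (al h s2)) g c s (es U) D (cc g D * U * m) *
        pw τ (nm m)) (j * (cc g D * U))‖ ^ 2 +
      3 * ‖KS Dk (fun m => Ae Z E0 η (sqc 1 (al h s3)) g c s (es U) D (cc g D * U * m) *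
        pw τ (nm m)) (j * (cc g D * U))‖ ^ 2 +
      3 * pC ^ 2 * (Eb * (1 + |τ|) ^ J) * ‖th (j * (cc g D * U))‖ ^ 2 := by
    intro U hU j hj
    obtain ⟨j1, j2⟩ := mem_filter.1 hj
    obtain ⟨Y, hY, ha⟩ := afW_adm hR0 hR h1 h2 hcard (Wb (gt5 E0 Z g c) (q5 g c) s) hZ hg hD (es U)
    obtain ⟨Y', hY', ha'⟩ := afW_adm hR0 hR h1 h3 hcard (Wb (gt5 E0 Z g c) (q5 g c) s) hZ hg hD
      (es U)
    have k3 := TG_x_le (Z := Z) (E0 := E0) (η := η) hζ hx (g := g) (c := c) (s := s) (e := es U)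
      (D := D) hY hY' ha.sup ha'.sup (hcp.mul (hUs U hU).1) τ (j * (cc g D * U))
    have k4 := hbias U (es U) (hUs U hU).1 (hUs U hU).2 (hes U hU).1 (hes U hU).2 j
      (hJs j j1).1 (hJs j j1).2 j2 τ
    have k5 : 0 ≤ 3 * pC ^ 2 * ‖th (j * (cc g D * U))‖ ^ 2 := by positivity
    have k6 := mul_le_mul_of_nonneg_left k4 k5
    linarith
  have hth := Hth (cc g D) hcp b k hb hk Us Js hUs hJs
  have hthf : ∑ U ∈ Us, ∑ j ∈ Jf U, ‖th (j * (cc g D * U))‖ ^ 2 ≤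
      ∑ U ∈ Us, ∑ j ∈ Js, ‖th (j * (cc g D * U))‖ ^ 2 :=
    sum_le_sum fun U _ => sum_le_sum_of_subset_of_nonneg (filter_subset _ _)
      fun _ _ _ => by positivity
  have hexp : Real.exp ((2 / 3 + δ) * (k + b)) ≤ X ^ ε * Real.exp (2 / 3 * (k + b)) := by
    rw [Real.rpow_def_of_pos hX0, ← Real.exp_add]
    refine Real.exp_le_exp.2 ?_
    have e3 : δ * (2 * B₀ + 1) = ε := by
      rw [hδ]; field_simp
    have e4 : δ * (k + b) ≤ δ * (2 * B₀ * Real.log X) :=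
      mul_le_mul_of_nonneg_left (by linarith) hδ0.le
    nlinarith [mul_nonneg hδ0.le hlX]
  calc ∑ U ∈ Us, ∑ j ∈ Jf U,
      ‖TG (fun m => Ae Z E0 η x g c s (es U) D (cc g D * U * m) * pw τ (nm m))
        (j * (cc g D * U))‖ ^ 2 ≤ ∑ U ∈ Us, ∑ j ∈ Jf U,
      (3 * ‖KS Dk (fun m => Ae Z E0 η (sqc 1 (al h s2)) g c s (es U) D (cc g D * U * m) *
        pw τ (nm m)) (j * (cc g D * U))‖ ^ 2 +
      3 * ‖KS Dk (fun m => Ae Z E0 η (sqc 1 (al h s3)) g c s (es U) D (cc g D * U * m) *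
        pw τ (nm m)) (j * (cc g D * U))‖ ^ 2 +
      3 * pC ^ 2 * (Eb * (1 + |τ|) ^ J) * ‖th (j * (cc g D * U))‖ ^ 2) :=
        sum_le_sum fun U hU => sum_le_sum fun j hj => hpart U hU j hj
    _ = 3 * (∑ U ∈ Us, ∑ j ∈ Jf U,
        ‖KS Dk (fun m => Ae Z E0 η (sqc 1 (al h s2)) g c s (es U) D (cc g D * U * m) *
          pw τ (nm m)) (j * (cc g D * U))‖ ^ 2) +
        3 * (∑ U ∈ Us, ∑ j ∈ Jf U,
        ‖KS Dk (fun m => Ae Z E0 η (sqc 1 (al h s3)) g c s (es U) D (cc g D * U * m) *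
          pw τ (nm m)) (j * (cc g D * U))‖ ^ 2) +
        3 * pC ^ 2 * (Eb * (1 + |τ|) ^ J) *
          ∑ U ∈ Us, ∑ j ∈ Jf U, ‖th (j * (cc g D * U))‖ ^ 2 := by
        rw [mul_sum, mul_sum, mul_sum, ← sum_add_distrib, ← sum_add_distrib]
        refine sum_congr rfl fun U _ => ?_
        rw [mul_sum, mul_sum, mul_sum, ← sum_add_distrib, ← sum_add_distrib]
    _ ≤ 3 * (C₁ * X ^ ε * (1 + |s|) ^ (N * M) * Bd * (1 + |τ|) ^ J) +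
        3 * (C₁ * X ^ ε * (1 + |s|) ^ (N * M) * Bd' * (1 + |τ|) ^ J) +
        3 * pC ^ 2 * (Eb * (1 + |τ|) ^ J) * (C₂ * (X ^ ε * Real.exp (2 / 3 * (k + b)))) := by
        have p1 : ∑ U ∈ Us, ∑ j ∈ Jf U,
            ‖KS Dk (fun m => Ae Z E0 η (sqc 1 (al h s2)) g c s (es U) D (cc g D * U * m) *
              pw τ (nm m)) (j * (cc g D * U))‖ ^ 2 ≤
            C₁ * X ^ ε * (1 + |s|) ^ (N * M) * Bd * (1 + |τ|) ^ J :=
          k1.trans (mul_le_mul_of_nonneg_left hτJ (by positivity))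
        have p2 : ∑ U ∈ Us, ∑ j ∈ Jf U,
            ‖KS Dk (fun m => Ae Z E0 η (sqc 1 (al h s3)) g c s (es U) D (cc g D * U * m) *
              pw τ (nm m)) (j * (cc g D * U))‖ ^ 2 ≤
            C₁ * X ^ ε * (1 + |s|) ^ (N * M) * Bd' * (1 + |τ|) ^ J :=
          k2.trans (mul_le_mul_of_nonneg_left hτJ (by positivity))
        have p3 : ∑ U ∈ Us, ∑ j ∈ Jf U, ‖th (j * (cc g D * U))‖ ^ 2 ≤
            C₂ * (X ^ ε * Real.exp (2 / 3 * (k + b))) :=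
          hthf.trans (hth.trans (mul_le_mul_of_nonneg_left hexp hC₂))
        have p4 : 0 ≤ 3 * pC ^ 2 * (Eb * (1 + |τ|) ^ J) := by positivity
        have p5 := mul_le_mul_of_nonneg_left p3 p4
        linarith
    _ ≤ (3 * C₁ + 3 * pC ^ 2 * C₂) * X ^ ε * ((1 + |s|) ^ (N * M) * (Bd + Bd') +
        Real.exp (2 / 3 * (k + b)) * Eb) * (1 + |τ|) ^ J := by
        set T := (1 + |τ|) ^ J with hT
        set Q := X ^ ε with hQ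
        set G := (1 + |s|) ^ (N * M) with hG
        set F := Real.exp (2 / 3 * (k + b)) with hF
        have hG0 : 0 ≤ G := by positivity
        have hQ0 : 0 ≤ Q := by positivity
        have hF0 : 0 ≤ F := (Real.exp_pos _).le
        have e1 : (3 * C₁ + 3 * pC ^ 2 * C₂) * Q * (G * (Bd + Bd') + F * Eb) * T =
            (3 * (C₁ * Q * G * Bd * T) + 3 * (C₁ * Q * G * Bd' * T) +
              3 * pC ^ 2 * (Eb * T) * (C₂ * (Q * F))) +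
            (3 * C₁ * Q * (F * Eb) * T + 3 * pC ^ 2 * C₂ * Q * (G * (Bd + Bd')) * T) := by ring
        rw [e1]
        have e2 : 0 ≤ 3 * C₁ * Q * (F * Eb) * T + 3 * pC ^ 2 * C₂ * Q * (G * (Bd + Bd')) * T := by
          positivity
        linarith

end Crest.Agent.R017.GrK404
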