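import Crest.Agent.R017.GrY_404

/-!
# Row 17, R8/P1: the `T`-half of the mismatch from the mean squares of the blocks, part 3 (helper404)

* `afW_admG` : the window of the coefficient, any `η`, `α`
* **`TPsH`** : the `T`-part of `Σ_d Σ_e ρ d e * LVn` from `CoreB` (any `η`, `α`)
-/

set_option autoImplicit false

noncomputable section

open Finset MeasureTheory
open scoped ComplexConjugate Classical

namespace Crest.Agent.R017.GrK404

open Crest.Agent.R012 Crest.Agent.R012.Eis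
open Crest.Agent.R012.Div277 (tau dvs mem_dvs tau_le_rpow)
open Crest.Agent.R012.LS2 (S mem_S bl mem_bl)
open Crest.Agent.R012.Weight600 (osc norm_osc pw norm_pw)
open Crest.Agent.R012.Mob705 (mu)
open Crest.Agent.R017.CM106 (CS TG FS)
open Crest.Agent.R017.FE47 (PU cx)
open Crest.Agent.R017.StA828 Crest.Agent.R017.StC828 Crest.Agent.R017.StF828
open Crest.Agent.R017.StB828 (one_le_nmR)
open Crest.Agent.R017.GrC828 Crest.Agent.R017.GrT828 Crest.Agent.R017.StG828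
open Crest.Agent.R017.StJ319
open Crest.Agent.R017.E2440 (TE)
open Crest.Agent.R017.E3D579 (TE0)
open Crest.Agent.R017.E3T829 (cg)
open Crest.Agent.R017.E1551 (Adm CF exists_cf BF mem_BF)
open Crest.Agent.R017.DgA829 (lc lc_prim lc_dvd lc_unique)
open Crest.Agent.R017.E3Z548 (TN JV JVc mem_JV FH FH_nonneg LVn)
open Crest.Agent.R017.E3N146 (cLS cTT CF_of_JC)
open Crest.Agent.R017.GrG404
open Crest.Agent.R017.PX764 (sqf_mul)

/-- the support of a sequence -/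
def SWin (α : Eis → ℂ) (L r : ℝ) : Prop :=
  ∀ n, α n ≠ 0 → IsPrim n ∧ Squarefree n ∧ |Real.log (nm n) - L| ≤ r

/-- the window of the coefficient -/
theorem afW_admG {η α : Eis → ℂ} {L₁ L₂ r₁ r₂ : ℝ} (hη : SWin η L₁ r₁) (hα : SWin α L₂ r₂)
    (W : Eis → Eis → Eis → ℂ) {Z : ℝ} (hZ : 0 ≤ Z) {g d : Eis} (hg : IsPrim g) (hd : IsPrim d)
    (e : Eis) : ∃ Y : ℝ, 0 ≤ Y ∧ Adm Y (Real.exp (L₁ + L₂) / (nm g * nm d)) (2 * (r₁ + r₂))
      (afW W Z η α g e d) := by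
  have hg0 : (0 : ℝ) < nm g := by exact_mod_cast nm_pos.2 hg.ne_zero
  have hd0 : (0 : ℝ) < nm d := by exact_mod_cast nm_pos.2 hd.ne_zero
  set L := L₁ + L₂ with hL
  have key : ∀ m, afW W Z η α g e d m ≠ 0 →
      IsPrim m ∧ Squarefree m ∧
        |Real.log (nm m) - (L - (Real.log (nm g) + Real.log (nm d)))| ≤ r₁ + r₂ := by
    intro m hm
    obtain ⟨a, n, ha, k1, k2, k3, k4, k5⟩ := afW_ne hZ hm
    obtain ⟨a1, a2, a3⟩ := (mem_S hZ).1 ha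
    obtain ⟨p1, p2, p3⟩ := hη _ k1
    obtain ⟨n1, n2, n3⟩ := hα _ k2
    have hdm : IsPrim (d * m) := k4 ▸ a2.mul n1
    have hm1 : IsPrim m := hdm.of_mul_left hd
    have hsq : Squarefree (d * m) := by
      rw [k4]
      exact (sqf_mul k5).2 ⟨a3, n2⟩
    refine ⟨hm1, hsq.of_mul_right, ?_⟩
    have hm0 : (0 : ℝ) < nm m := by exact_mod_cast nm_pos.2 hm1.ne_zero
    have ha0 : (0 : ℝ) < nm a := by exact_mod_cast nm_pos.2 a2.ne_zero
    have hn0 : (0 : ℝ) < nm n := by exact_mod_cast nm_pos.2 n1.ne_zero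
    have e1 : Real.log (nm d) + Real.log (nm m) = Real.log (nm a) + Real.log (nm n) := by
      rw [← Real.log_mul hd0.ne' hm0.ne', ← Real.log_mul ha0.ne' hn0.ne']
      have := congrArg nm k4
      rw [nm_mul, nm_mul] at this
      congr 1
      exact_mod_cast this
    have e2 : Real.log (nm (g * a)) = Real.log (nm g) + Real.log (nm a) := by
      rw [nm_mul]
      push_cast
      rw [Real.log_mul hg0.ne' ha0.ne']
    rw [e2] at p3
    have b1 := abs_le.1 p3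
    have b2 := abs_le.1 n3
    rw [abs_le]
    constructor <;> linarith [b1.1, b1.2, b2.1, b2.2]
  refine ⟨Real.exp (L - (Real.log (nm g) + Real.log (nm d)) + (r₁ + r₂)), (Real.exp_pos _).le, ?_, ?_⟩
  · intro m hm
    obtain ⟨k1, k2, k3⟩ := key m hm
    rw [mem_S (Real.exp_pos _).le]
    refine ⟨?_, k1, k2⟩
    have hm0 : (0 : ℝ) < nm m := by exact_mod_cast nm_pos.2 k1.ne_zero
    rw [← Real.log_le_iff_le_exp hm0]
    linarith [(abs_le.1 k3).2]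
  · intro m hm
    obtain ⟨k1, k2, k3⟩ := key m hm
    have e1 : Real.log (Real.exp L / (nm g * nm d)) =
        L - (Real.log (nm g) + Real.log (nm d)) := by
      rw [Real.log_div (Real.exp_pos _).ne' (by positivity), Real.log_exp,
        Real.log_mul hg0.ne' hd0.ne']
    rw [e1]
    linarith

set_option maxHeartbeats 1000000 in
/-- **the `T`-part of `Σ ρ LVn`** for the mismatch coefficients, from `CoreB` -/
theorem TPsH {R' : ℝ} (hR' : 0 ≤ R') {J : ℝ} (hJ : 0 ≤ J) {B₀ : ℝ} (hB₀ : 0 ≤ B₀) {ε : ℝ}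
    (hε : 0 < ε) : ∃ C : ℝ, 1 ≤ C ∧ ∀ X : ℝ, 3 ≤ X →
    ∀ (η α : Eis → ℂ) (L₁ L₂ r₁ r₂ : ℝ), SWin η L₁ r₁ → SWin α L₂ r₂ → 2 * (r₁ + r₂) ≤ R' →
    ∀ Z : ℝ, 0 ≤ Z →
    ∀ (E0 : ℝ) (c : Fin 5) (s : ℝ) (g hh : Eis), IsPrim g → IsPrim hh → (nm g : ℝ) ≤ X ^ B₀ →
    ∀ Ds Es : Finset Eis, (∀ d ∈ Ds, IsPrim d ∧ (nm (hh * d) : ℝ) ≤ X ^ B₀) →
    (∀ e ∈ Es, IsPrim e ∧ (nm e : ℝ) ≤ X ^ B₀) →
    ∀ (cV Yg K V V' E1 B G1 : ℝ) (H RN ρ : Eis → Eis → ℝ), 0 < K → 0 < V → cV * V ≤ X ^ B₀ →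
    (∀ d ∈ Ds, ∀ e ∈ Es, 0 < H d e) → (∀ d ∈ Ds, ∀ e ∈ Es, 0 ≤ ρ d e) →
    (∀ d ∈ Ds, ∀ e ∈ Es, 0 ≤ cLS K (H d e) V V' E1 B G1) →
    ∀ (Φ₀ Φ₁ : Eis → ℕ → ℝ) (Bf : Eis → ℕ → ℝ → ℝ) (m : ℝ), (∀ d b, 0 ≤ Φ₀ d b) →
    (∀ d b, 0 ≤ Φ₁ d b) → (∀ d b k, 0 ≤ Bf d b k) →
    (∀ d ∈ Ds, ∀ e ∈ Es, ∀ b : ℕ,
      Real.log (nm (lc (cc g (hh * d)) e / cc g (hh * d))) ≤ b + 1 →
      ρ d e * (FH K (H d e) V * cLS K (H d e) V V' E1 B G1) * nm e ≤ Φ₀ d b) →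
    (∀ d ∈ Ds, ∀ e ∈ Es, ∀ b : ℕ,
      Real.log (nm (lc (cc g (hh * d)) e / cc g (hh * d))) ≤ b + 1 →
      ρ d e * (FH K (H d e) V * cTT K (H d e) V) * nm e ≤ Φ₁ d b) →
    (∀ d ∈ Ds, ∀ (b : ℕ) (k : ℝ), (b : ℝ) ≤ 4 * B₀ * Real.log X → 0 ≤ k →
      k ≤ Real.log (cV * V / (nm d : ℝ) ^ 2) + Real.log (nm (cc g (hh * d))) →
      CoreB (fun e => Ae Z E0 η α g c s e (hh * d)) (cc g (hh * d)) b k J (Bf d b k)) →
    (∀ d ∈ Ds, (nm d : ℝ) ^ 2 ≤ cV * V → ∀ b : ℕ, (b : ℝ) ≤ 4 * B₀ * Real.log X →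
      Φ₀ d b * Bf d b (Real.log (cV * V / (nm d : ℝ) ^ 2) + Real.log (nm (cc g (hh * d)))) *
        (nm d : ℝ) ^ 2 ≤ Real.exp m) →
    (∀ d ∈ Ds, ∀ (b : ℕ) (n : ℝ), (b : ℝ) ≤ 4 * B₀ * Real.log X → 0 ≤ n →
      (nm d : ℝ) ^ 2 ≤ cV * V → 3 * n ≤ Real.log (cV * V / (nm d : ℝ) ^ 2) →
      Φ₁ d b * Bf d b (Real.log (cV * V / (nm d : ℝ) ^ 2) + Real.log (nm (cc g (hh * d))) -
        3 * n) * (nm d : ℝ) ^ 2 * Real.exp n ≤ Real.exp m) →
    ∑ d ∈ Ds, ∑ e ∈ Es, ρ d e * LVn (fun d e => afrb (gt5 E0 Z g c) (q5 g c) Z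
        η α g hh s e d) {d} {e} cV Yg K (H d e) V V' E1 B G1 (RN d e) ≤
      C * X ^ ε * Real.exp (-((L₁ + L₂) / 3)) *
        (nm g * nm hh : ℝ) ^ (1 / 3 : ℝ) * Real.exp m +
      ∑ d ∈ Ds, ∑ e ∈ Es, ρ d e * (FH K (H d e) V * RN d e) := by
  obtain ⟨C₁, hC₁, HP⟩ := TPdPH hR' hJ hB₀ (ε := ε / 2) (by linarith)
  obtain ⟨C₃, hC₃, hsγ⟩ := Eul571.sum_nm_rpow_le (s := 3 / 2) (by norm_num)
  set δ := ε / (2 * (B₀ + 1)) with hδ
  have hδ0 : 0 < δ := by positivity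
  obtain ⟨C₄, hC₄, hsd⟩ := Eul571.sum_nm_rpow_le (s := 1 + δ) (by linarith)
  have hC10 : 0 ≤ C₁ := by linarith
  refine ⟨1 + C₁ * (1 + C₃) * C₄, ?_, ?_⟩
  · have : 0 ≤ C₁ * (1 + C₃) * C₄ := by positivity
    linarith
  intro X hX η α L₁ L₂ r₁ r₂ hηw hαw hrr Z hZ E0 c s g hh hg hhp hgX Ds Es hDs hEs
    cV Yg K V V' E1 B G1 Hf RN ρ hK hV hcVX hH hρ hcLS Φ₀ Φ₁ Bf m hΦ₀ hΦ₁ hBf hdom₀ hdom₁ hcl
    hla hlb
  have hX1 : (1 : ℝ) ≤ X := by linarith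
  have hX0 : (0 : ℝ) < X := by linarith
  have hlX : 0 ≤ Real.log X := Real.log_nonneg hX1
  set af : Eis → Eis → Eis → ℂ := fun d e => afrb (gt5 E0 Z g c) (q5 g c) Z
    η α g hh s e d with haf
  set A0 : ℝ := C₁ * X ^ (ε / 2) * Real.exp (-((L₁ + L₂) / 3)) *
    (nm g * nm hh : ℝ) ^ (1 / 3 : ℝ) * Real.exp m with hA0
  have hA00 : 0 ≤ A0 := by positivity
  have hnd : ∀ d ∈ Ds, (1 : ℝ) ≤ nm d := fun d hd => one_le_nmR (hDs d hd).1
  -- the scale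
  have hsc : ∀ d ∈ Ds, ∀ Q : ℝ, C₁ * X ^ (ε / 2) *
      (Real.exp (L₁ + L₂) / (nm g * nm (hh * d))) ^ (-(1 / 3) : ℝ) * (Real.exp m / Q) =
      A0 * ((nm d : ℝ) ^ (1 / 3 : ℝ) / Q) := by
    intro d hd Q
    have e1 : (Real.exp (L₁ + L₂) / (nm g * nm (hh * d))) ^ (-(1 / 3) : ℝ) =
        Real.exp (-((L₁ + L₂) / 3)) * ((nm g * nm hh : ℝ) ^ (1 / 3 : ℝ) *
          (nm d : ℝ) ^ (1 / 3 : ℝ)) := by
      rw [Real.div_rpow (Real.exp_nonneg _) (by positivity), ← Real.exp_mul, nm_mul]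
      push_cast
      rw [← mul_assoc, Real.rpow_neg (by positivity),
        Real.mul_rpow (by positivity) (by positivity), div_inv_eq_mul]
      congr 2
      ring
    rw [e1, hA0]
    ring
  -- the numbers
  have hFH : ∀ d ∈ Ds, ∀ e ∈ Es, 0 ≤ FH K (Hf d e) V := fun d hd e he =>
    FH_nonneg hK.le (hH d hd e he).le hV.le
  have hcTT : ∀ d ∈ Ds, ∀ e ∈ Es, 0 ≤ cTT K (Hf d e) V := fun d hd e he => by
    have hq : 0 ≤ Hf d e ^ 2 * V ^ 3 / K ^ 2 := by positivity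
    have ht : 0 ≤ (Hf d e ^ 2 * V ^ 3 / K ^ 2) ^ (1 / 3 : ℝ) := Real.rpow_nonneg hq _
    have ht' : 0 ≤ (Hf d e ^ 2 * V ^ 3 / K ^ 2) ^ (1 / 2 : ℝ) := Real.rpow_nonneg hq _
    unfold cTT
    linarith
  have hω₀ : ∀ d ∈ Ds, ∀ e ∈ Es,
      0 ≤ ρ d e * (FH K (Hf d e) V * cLS K (Hf d e) V V' E1 B G1) * nm e := fun d hd e he => by
    have := hρ d hd e he
    have := hFH d hd e he
    have := hcLS d hd e he
    positivity
  have hω₁ : ∀ d ∈ Ds, ∀ e ∈ Es,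
      0 ≤ ρ d e * (FH K (Hf d e) V * cTT K (Hf d e) V) * nm e := fun d hd e he => by
    have := hρ d hd e he
    have := hFH d hd e he
    have := hcTT d hd e he
    positivity
  have hccX : ∀ d, (nm (cc g (hh * d)) : ℝ) ≤ X ^ B₀ := fun d => by
    refine le_trans ?_ hgX
    exact_mod_cast Div277.nm_le_of_dvd hg.ne_zero (cc_dvd hg)
  have hX'0 : ∀ d ∈ Ds, 0 < Real.exp (L₁ + L₂) / (nm g * nm (hh * d) : ℝ) := fun d hd => by
    have h3 : (0 : ℝ) < nm g := by exact_mod_cast nm_pos.2 hg.ne_zero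
    have h4 : (0 : ℝ) < nm (hh * d) := by
      exact_mod_cast nm_pos.2 (hhp.mul (hDs d hd).1).ne_zero
    positivity
  have hadm : ∀ d ∈ Ds, ∀ e, ∃ Y, 0 ≤ Y ∧ Adm Y (Real.exp (L₁ + L₂) / (nm g * nm (hh * d))) R'
      (Ae Z E0 η α g c s e (hh * d)) := fun d hd e => by
    obtain ⟨Y, hY, h3⟩ := afW_admG hηw hαw (Wb (gt5 E0 Z g c) (q5 g c) s) hZ hg
      (hhp.mul (hDs d hd).1) e
    exact ⟨Y, hY, h3.sup, fun n hn => (h3.win n hn).trans (by linarith)⟩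
  have hA : ∀ d ∈ Ds, ∑ e ∈ Es, (ρ d e * (FH K (Hf d e) V * cLS K (Hf d e) V V' E1 B G1) * nm e) *
      ∑ j ∈ JVc cV V d 1, ‖TE0 (cg 1 (af d e)) d j e‖ ^ 2 ≤
      A0 * ((nm d : ℝ) ^ (1 / 3 : ℝ) / (nm d : ℝ) ^ 2) := by
    intro d hd
    obtain ⟨hdp, hdX⟩ := hDs d hd
    have hd1 := hnd d hd
    by_cases hW : (nm d : ℝ) ^ 2 ≤ cV * V
    · rw [← hsc d hd]
      have hW1 : 1 ≤ cV * V / (nm d : ℝ) ^ 2 := by rwa [one_le_div (by positivity)]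
      have hWX : cV * V / (nm d : ℝ) ^ 2 ≤ X ^ B₀ := by
        rw [div_le_iff₀ (by positivity)]
        have h3 : (1 : ℝ) ≤ (nm d : ℝ) ^ 2 := one_le_pow₀ hd1
        have h4 : 0 ≤ X ^ B₀ := by positivity
        nlinarith
      refine (sum_le_sum fun e he => mul_le_mul_of_nonneg_left (sum_le_sum fun j _ =>
        pow_le_pow_left₀ (norm_nonneg _) (norm_TE0_afrb_le E0 Z η α g hh c s e d 1 d j e) 2)
        (hω₀ d hd e he)).trans ?_
      refine HP X hX (fun e => Ae Z E0 η α g c s e (hh * d)) (cc g (hh * d)) 1 (cc_prim hg)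
        isPrim_one (hccX d) ?_ _ (hX'0 d hd) (hadm d hd) (fun e m hm => afW_c hZ hg hm) Es
        (JVc cV V d 1) hEs (cV * V / (nm d : ℝ) ^ 2) hWX ?_
        (fun n => n = 0) ?_ _ (Φ₀ d) (hω₀ d hd) (hΦ₀ d) (hdom₀ d hd) (Bf d)
        (Real.exp m / (nm d : ℝ) ^ 2) (hBf d) (by positivity) ?_ ?_ d
      · rw [nm_one]
        push_cast
        exact Real.one_le_rpow hX1 hB₀
      · intro j hj
        obtain ⟨h3, h4⟩ := (mem_JV hdp.ne_zero one_ne_zero).1 (mem_filter.1 hj).1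
        refine ⟨h3, ?_⟩
        rw [le_div_iff₀ (by positivity)]
        simpa using h4
      · intro j hj κ' c' hjc
        obtain ⟨hj0, hcf⟩ := CF_of_JC (mem_filter.1 hj).2
        have hc0 : c' ≠ 0 := by
          rintro rfl
          exact hj0 (by rw [hjc]; simp)
        have hu : IsUnit c' := by
          by_contra hnu
          obtain ⟨p, hp, hpc⟩ := WfDvdMonoid.exists_irreducible_factor hnu hc0
          exact hcf p hp.prime (hjc ▸ (pow_dvd_pow_of_dvd hpc 3).mul_left κ')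
        have h3 : nm c' = 1 := Crest.Agent.R012.Eis.isUnit_iff.1 hu
        rw [h3]
        simp
      · intro b k hb hk hkW
        exact hcl d hd b k hb hk hkW
      · intro b n hb hn hn3 hn0
        subst hn0
        have h3 := hla d hd hW b hb
        rw [mul_zero, sub_zero, neg_zero, Real.exp_zero, mul_one, le_div_iff₀ (by positivity)]
        exact h3
    · have hemp : JVc cV V d 1 = ∅ := by
        rw [Finset.eq_empty_iff_forall_notMem]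
        intro j hj
        obtain ⟨h3, h4⟩ := (mem_JV hdp.ne_zero one_ne_zero).1 (mem_filter.1 hj).1
        have h5 : (1 : ℝ) ≤ nm j := by exact_mod_cast nm_pos.mpr h3
        apply hW
        refine le_trans ?_ h4
        rw [nm_one]
        push_cast
        nlinarith [sq_nonneg (nm d : ℝ)]
      simp only [hemp, Finset.sum_empty, mul_zero, Finset.sum_const_zero]
      positivity
  have hB : ∀ d ∈ Ds, ∀ γ ∈ primBall ⌊Yg⌋₊,
      ∑ e ∈ Es, (ρ d e * (FH K (Hf d e) V * cTT K (Hf d e) V) * nm e) *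
        ∑ j ∈ JV cV V d γ, ‖TE0 (cg γ (af d e)) 1 j e‖ ^ 2 ≤
      A0 * ((nm d : ℝ) ^ (1 / 3 : ℝ) / ((nm d : ℝ) ^ 2 * nm γ)) := by
    intro d hd γ hγ
    obtain ⟨hdp, hdX⟩ := hDs d hd
    have hd1 := hnd d hd
    have hγp : IsPrim γ := (mem_primBall.1 hγ).2
    have hγ1 := one_le_nmR hγp
    have hd2 : (1 : ℝ) ≤ (nm d : ℝ) ^ 2 := one_le_pow₀ hd1
    have hγ3 : (1 : ℝ) ≤ (nm γ : ℝ) ^ 3 := one_le_pow₀ hγ1
    have hγ4 : (nm γ : ℝ) ≤ (nm γ : ℝ) ^ 3 := by nlinarith [sq_nonneg ((nm γ : ℝ) - 1)]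
    by_cases hW : (nm d : ℝ) ^ 2 * (nm γ : ℝ) ^ 3 ≤ cV * V
    · rw [← hsc d hd]
      have hW1 : 1 ≤ cV * V / ((nm d : ℝ) ^ 2 * (nm γ : ℝ) ^ 3) := by
        rwa [one_le_div (by positivity)]
      have hWd : (nm d : ℝ) ^ 2 ≤ cV * V := le_trans (le_mul_of_one_le_right (by positivity) hγ3) hW
      have hWX : cV * V / ((nm d : ℝ) ^ 2 * (nm γ : ℝ) ^ 3) ≤ X ^ B₀ := by
        rw [div_le_iff₀ (by positivity)]
        have h3 : (1 : ℝ) ≤ (nm d : ℝ) ^ 2 * (nm γ : ℝ) ^ 3 :=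
          one_le_mul_of_one_le_of_one_le hd2 hγ3
        have h4 : 0 ≤ X ^ B₀ := by positivity
        nlinarith
      have hcV0 : 0 < cV * V := by nlinarith
      have hlog : Real.log (cV * V / ((nm d : ℝ) ^ 2 * (nm γ : ℝ) ^ 3)) =
          Real.log (cV * V / (nm d : ℝ) ^ 2) - 3 * Real.log (nm γ) := by
        rw [← div_div, Real.log_div (by positivity) (by positivity), Real.log_pow]
        push_cast
        ring
      have hlγ : 0 ≤ Real.log (nm γ) := Real.log_nonneg hγ1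
      refine (sum_le_sum fun e he => mul_le_mul_of_nonneg_left (sum_le_sum fun j _ =>
        pow_le_pow_left₀ (norm_nonneg _) (norm_TE0_afrb_le E0 Z η α g hh c s e d γ 1 j e) 2)
        (hω₁ d hd e he)).trans ?_
      refine HP X hX (fun e => Ae Z E0 η α g c s e (hh * d)) (cc g (hh * d)) γ (cc_prim hg)
        hγp (hccX d) ?_ _ (hX'0 d hd) (hadm d hd) (fun e m hm => afW_c hZ hg hm) Es
        (JV cV V d γ) hEs (cV * V / ((nm d : ℝ) ^ 2 * (nm γ : ℝ) ^ 3)) hWX ?_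
        (fun _ => True) (fun _ _ _ _ _ => trivial) _ (Φ₁ d) (hω₁ d hd) (hΦ₁ d) (hdom₁ d hd)
        (Bf d) (Real.exp m / ((nm d : ℝ) ^ 2 * nm γ)) (hBf d) (by positivity) ?_ ?_ 1
      · refine le_trans ?_ hcVX
        nlinarith
      · intro j hj
        obtain ⟨h3, h4⟩ := (mem_JV hdp.ne_zero hγp.ne_zero).1 hj
        refine ⟨h3, ?_⟩
        rw [le_div_iff₀ (by positivity)]
        linarith
      · intro b k hb hk hkW
        refine hcl d hd b k hb hk ?_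
        rw [hlog] at hkW
        linarith
      · intro b n hb hn hn3 _
        rw [hlog] at hn3
        · have h3 := hlb d hd b (n + Real.log (nm γ)) hb (by linarith) hWd (by linarith)
          have e2 : Real.log (cV * V / ((nm d : ℝ) ^ 2 * (nm γ : ℝ) ^ 3)) +
              Real.log (nm (cc g (hh * d))) - 3 * n = Real.log (cV * V / (nm d : ℝ) ^ 2) +
              Real.log (nm (cc g (hh * d))) - 3 * (n + Real.log (nm γ)) := by
            rw [hlog]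
            ring
          rw [e2]
          rw [Real.exp_add, Real.exp_log (by linarith)] at h3
          rw [Real.exp_neg, ← div_eq_mul_inv, div_div, le_div_iff₀ (by positivity)]
          calc _ = _ := by ring
            _ ≤ _ := h3
    · have hemp : JV cV V d γ = ∅ := by
        rw [Finset.eq_empty_iff_forall_notMem]
        intro j hj
        obtain ⟨h3, h4⟩ := (mem_JV hdp.ne_zero hγp.ne_zero).1 hj
        have h5 : (1 : ℝ) ≤ nm j := by exact_mod_cast nm_pos.mpr h3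
        apply hW
        refine le_trans ?_ h4
        rw [mul_assoc]
        exact le_mul_of_one_le_left (by positivity) h5
      simp only [hemp, Finset.sum_empty, mul_zero, Finset.sum_const_zero]
      positivity
  -- the sum over `d`
  have hdsum : ∑ d ∈ Ds, (nm d : ℝ)⁻¹ ≤ X ^ (ε / 2) * C₄ := by
    calc ∑ d ∈ Ds, (nm d : ℝ)⁻¹ ≤ ∑ d ∈ Ds, X ^ (ε / 2) * (nm d : ℝ) ^ (-(1 + δ)) := by
          refine sum_le_sum fun d hd => ?_
          have hd1 := hnd d hd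
          have hd0 : (0 : ℝ) < nm d := by linarith
          have h3 : (nm d : ℝ) ≤ X ^ B₀ := by
            refine le_trans ?_ (hDs d hd).2
            rw [nm_mul]
            push_cast
            exact le_mul_of_one_le_left hd0.le (one_le_nmR hhp)
          have h4 : (nm d : ℝ) ^ δ ≤ X ^ (ε / 2) := by
            calc (nm d : ℝ) ^ δ ≤ (X ^ B₀) ^ δ := Real.rpow_le_rpow hd0.le h3 hδ0.le
              _ = X ^ (B₀ * δ) := by rw [← Real.rpow_mul hX0.le]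
              _ ≤ X ^ (ε / 2) := by
                refine Real.rpow_le_rpow_of_exponent_le hX1 ?_
                have e3 : δ * (2 * (B₀ + 1)) = ε := by
                  rw [hδ]; field_simp
                nlinarith
          calc (nm d : ℝ)⁻¹ = (nm d : ℝ) ^ δ * (nm d : ℝ) ^ (-(1 + δ)) := by
                rw [← Real.rpow_add hd0, ← Real.rpow_neg_one]
                congr 1
                ring
            _ ≤ _ := mul_le_mul_of_nonneg_right h4 (by positivity)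
      _ = X ^ (ε / 2) * ∑ d ∈ Ds, (nm d : ℝ) ^ (-(1 + δ)) := by rw [mul_sum]
      _ ≤ _ := mul_le_mul_of_nonneg_left (hsd Ds) (by positivity)
  have hγsum : ∑ γ ∈ primBall ⌊Yg⌋₊, (nm γ : ℝ) ^ (-(1 / 2) : ℝ) * (nm γ : ℝ)⁻¹ ≤ C₃ := by
    refine le_trans (le_of_eq (sum_congr rfl fun γ hγ => ?_)) (hsγ (primBall ⌊Yg⌋₊))
    have hγ1 := one_le_nmR (mem_primBall.1 hγ).2
    rw [← Real.rpow_neg_one, ← Real.rpow_add (by linarith)]
    congr 1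
    norm_num
  have hpw : ∀ d ∈ Ds, (nm d : ℝ) ^ (2 / 3 : ℝ) * ((nm d : ℝ) ^ (1 / 3 : ℝ) / (nm d : ℝ) ^ 2) =
      (nm d : ℝ)⁻¹ := by
    intro d hd
    have hd0 : (0 : ℝ) < nm d := by linarith [hnd d hd]
    rw [← mul_div_assoc, ← Real.rpow_add hd0]
    norm_num
    field_simp
  -- the decomposition
  have key : ∑ d ∈ Ds, ∑ e ∈ Es, ρ d e * LVn af {d} {e} cV Yg K (Hf d e) V V' E1 B G1 (RN d e) ≤
      ∑ d ∈ Ds, (nm d : ℝ) ^ (2 / 3 : ℝ) * ∑ e ∈ Es,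
        (ρ d e * (FH K (Hf d e) V * cLS K (Hf d e) V V' E1 B G1) * nm e) *
        ∑ j ∈ JVc cV V d 1, ‖TE0 (cg 1 (af d e)) d j e‖ ^ 2 +
      ∑ d ∈ Ds, (nm d : ℝ) ^ (2 / 3 : ℝ) * ∑ γ ∈ primBall ⌊Yg⌋₊, (nm γ : ℝ) ^ (-(1 / 2) : ℝ) *
        ∑ e ∈ Es, (ρ d e * (FH K (Hf d e) V * cTT K (Hf d e) V) * nm e) *
          ∑ j ∈ JV cV V d γ, ‖TE0 (cg γ (af d e)) 1 j e‖ ^ 2 +
      ∑ d ∈ Ds, ∑ e ∈ Es, ρ d e * (FH K (Hf d e) V * RN d e) := by
    rw [← sum_add_distrib, ← sum_add_distrib]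
    refine sum_le_sum fun d hd => ?_
    have e4 : (nm d : ℝ) ^ (2 / 3 : ℝ) * ∑ γ ∈ primBall ⌊Yg⌋₊, (nm γ : ℝ) ^ (-(1 / 2) : ℝ) *
        ∑ e ∈ Es, (ρ d e * (FH K (Hf d e) V * cTT K (Hf d e) V) * nm e) *
          ∑ j ∈ JV cV V d γ, ‖TE0 (cg γ (af d e)) 1 j e‖ ^ 2 =
        ∑ e ∈ Es, ρ d e * ((nm d : ℝ) ^ (2 / 3 : ℝ) * (FH K (Hf d e) V * cTT K (Hf d e) V * nm e *
        ∑ γ ∈ primBall ⌊Yg⌋₊, (nm γ : ℝ) ^ (-(1 / 2) : ℝ) *
          ∑ j ∈ JV cV V d γ, ‖TE0 (cg γ (af d e)) 1 j e‖ ^ 2)) := by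
      simp only [mul_sum]
      rw [sum_comm]
      refine sum_congr rfl fun e _ => sum_congr rfl fun γ _ => sum_congr rfl fun j _ => ?_
      ring
    rw [e4, mul_sum, ← sum_add_distrib, ← sum_add_distrib]
    refine sum_le_sum fun e he => ?_
    have h3 := LVn_le2 af d e (c := cV) (Y := Yg) (V' := V') (E1 := E1) (B := B) (G1 := G1)
      (RN := RN d e) hK.le (hH d hd e he).le hV.le
    calc ρ d e * LVn af {d} {e} cV Yg K (Hf d e) V V' E1 B G1 (RN d e) ≤ ρ d e * _ :=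
          mul_le_mul_of_nonneg_left h3 (hρ d hd e he)
      _ = _ := by ring
  have hT0 : ∑ d ∈ Ds, (nm d : ℝ) ^ (2 / 3 : ℝ) * ∑ e ∈ Es,
        (ρ d e * (FH K (Hf d e) V * cLS K (Hf d e) V V' E1 B G1) * nm e) *
        ∑ j ∈ JVc cV V d 1, ‖TE0 (cg 1 (af d e)) d j e‖ ^ 2 ≤ A0 * (X ^ (ε / 2) * C₄) := by
    refine le_trans (sum_le_sum fun d hd => mul_le_mul_of_nonneg_left (hA d hd) (by positivity)) ?_
    refine le_trans (le_of_eq ?_) (mul_le_mul_of_nonneg_left hdsum hA00)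
    rw [mul_sum]
    refine sum_congr rfl fun d hd => ?_
    rw [← hpw d hd]
    ring
  have hT1 : ∑ d ∈ Ds, (nm d : ℝ) ^ (2 / 3 : ℝ) * ∑ γ ∈ primBall ⌊Yg⌋₊,
        (nm γ : ℝ) ^ (-(1 / 2) : ℝ) *
        ∑ e ∈ Es, (ρ d e * (FH K (Hf d e) V * cTT K (Hf d e) V) * nm e) *
          ∑ j ∈ JV cV V d γ, ‖TE0 (cg γ (af d e)) 1 j e‖ ^ 2 ≤
      A0 * C₃ * (X ^ (ε / 2) * C₄) := by
    have h3 : ∀ d ∈ Ds, (nm d : ℝ) ^ (2 / 3 : ℝ) * ∑ γ ∈ primBall ⌊Yg⌋₊,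
        (nm γ : ℝ) ^ (-(1 / 2) : ℝ) *
        ∑ e ∈ Es, (ρ d e * (FH K (Hf d e) V * cTT K (Hf d e) V) * nm e) *
          ∑ j ∈ JV cV V d γ, ‖TE0 (cg γ (af d e)) 1 j e‖ ^ 2 ≤ A0 * C₃ * (nm d : ℝ)⁻¹ := by
      intro d hd
      calc _ ≤ (nm d : ℝ) ^ (2 / 3 : ℝ) * ∑ γ ∈ primBall ⌊Yg⌋₊, (nm γ : ℝ) ^ (-(1 / 2) : ℝ) *
            (A0 * ((nm d : ℝ) ^ (1 / 3 : ℝ) / ((nm d : ℝ) ^ 2 * nm γ))) :=
            mul_le_mul_of_nonneg_left (sum_le_sum fun γ hγ =>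
              mul_le_mul_of_nonneg_left (hB d hd γ hγ) (by positivity)) (by positivity)
        _ = A0 * (∑ γ ∈ primBall ⌊Yg⌋₊, (nm γ : ℝ) ^ (-(1 / 2) : ℝ) * (nm γ : ℝ)⁻¹) *
            ((nm d : ℝ) ^ (2 / 3 : ℝ) * ((nm d : ℝ) ^ (1 / 3 : ℝ) / (nm d : ℝ) ^ 2)) := by
            rw [mul_sum, mul_sum, sum_mul]
            refine sum_congr rfl fun γ _ => ?_
            rw [← div_div]
            ring
        _ = A0 * (∑ γ ∈ primBall ⌊Yg⌋₊, (nm γ : ℝ) ^ (-(1 / 2) : ℝ) * (nm γ : ℝ)⁻¹) *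
            (nm d : ℝ)⁻¹ := by rw [hpw d hd]
        _ ≤ _ := mul_le_mul_of_nonneg_right (mul_le_mul_of_nonneg_left hγsum hA00) (by positivity)
    refine le_trans (sum_le_sum h3) ?_
    rw [← mul_sum]
    exact mul_le_mul_of_nonneg_left hdsum (by positivity)
  have hfin : A0 * (X ^ (ε / 2) * C₄) + A0 * C₃ * (X ^ (ε / 2) * C₄) ≤
      (1 + C₁ * (1 + C₃) * C₄) * X ^ ε *
        Real.exp (-((L₁ + L₂) / 3)) * (nm g * nm hh : ℝ) ^ (1 / 3 : ℝ) * Real.exp m := by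
    have hXe : X ^ ε = X ^ (ε / 2) * X ^ (ε / 2) := by
      rw [← Real.rpow_add hX0]; congr 1; ring
    have e5 : A0 * (X ^ (ε / 2) * C₄) + A0 * C₃ * (X ^ (ε / 2) * C₄) =
        (C₁ * (1 + C₃) * C₄) * (X ^ ε *
        Real.exp (-((L₁ + L₂) / 3)) * (nm g * nm hh : ℝ) ^ (1 / 3 : ℝ) * Real.exp m) := by
      rw [hXe, hA0]
      ring
    rw [e5]
    have h3 : 0 ≤ X ^ ε *
        Real.exp (-((L₁ + L₂) / 3)) * (nm g * nm hh : ℝ) ^ (1 / 3 : ℝ) * Real.exp m := by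
      positivity
    nlinarith
  calc _ ≤ _ := key
    _ ≤ A0 * (X ^ (ε / 2) * C₄) + A0 * C₃ * (X ^ (ε / 2) * C₄) +
        ∑ d ∈ Ds, ∑ e ∈ Es, ρ d e * (FH K (Hf d e) V * RN d e) := by gcongr
    _ ≤ _ := by gcongr

end Crest.Agent.R017.GrK404
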