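import Crest.Agent.R017.GrZ3_404

/-!
# Row 17, R8/P1: the `T`-half of the mismatch at a difference, part 2 (helper404)

* **`TPsX`** : the `T`-part of `Σ_d Σ_e ρ d e * LVn` at a difference, from the claims of the two
  lists and the biases of the child differences
-/

set_option autoImplicit false

noncomputable section

open Finset MeasureTheory
open scoped ComplexConjugate Classical

namespace Crest.Agent.R017.GrK404

open Crest.Agent.R012 Crest.Agent.R012.Eis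
open Crest.Agent.R012.LS2 (S mem_S bl mem_bl)
open Crest.Agent.R017.HP842 (Pc pc al sqc Ker KS)
open Crest.Agent.R017.LegK545 (VK)
open Crest.Agent.R017.FE47 (PU cx)
open Crest.Agent.R017.Prov71 (CubeFree)
open Crest.Agent.R017.StA828 Crest.Agent.R017.StC828 Crest.Agent.R017.StF828
open Crest.Agent.R017.StB828 (one_le_nmR)
open Crest.Agent.R017.GrC828 Crest.Agent.R017.GrT828 Crest.Agent.R017.StG828
open Crest.Agent.R017.StJ319
open Crest.Agent.R017.DgA829 (lc)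
open Crest.Agent.R017.E3Z548 (TN JV JVc mem_JV FH FH_nonneg LVn)
open Crest.Agent.R017.E3N146 (cLS cTT)
open Crest.Agent.R017.PX764 (Dk)
open Crest.Agent.R017.RX241 (Md)
open Crest.Agent.R017.GrG404

/-- window of a difference -/
lemma swin_x {κ : Type} [Fintype κ] [DecidableEq κ] {h : ℝ → ℝ} {R : ℝ}
    (hR : ∀ u, cx h u ≠ 0 → |u| ≤ R) {s2 s3 : κ → Pc} (h2 : ∀ i, (s2 i).OK)
    (h3 : ∀ i, (s3 i).OK) (hL : LY s3 = LY s2) {ζ : ℂ} {x : Eis → ℂ}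
    (hx : ∀ n, x n = sqc 1 (al h s2) n - ζ * sqc 1 (al h s3) n) :
    SWin x (LY s2) (Fintype.card κ * R) := by
  intro n hn
  by_cases h4 : sqc 1 (al h s2) n = 0
  · have h5 : sqc 1 (al h s3) n ≠ 0 := by
      intro h6
      exact hn (by rw [hx, h4, h6]; ring)
    have h6 := al_win hR h3 h5
    rwa [hL] at h6
  · exact al_win hR h2 h4

set_option maxHeartbeats 1000000 in
/-- **the `T`-part of `Σ ρ LVn`** for the mismatch coefficients at a difference -/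
theorem TPsX {h : ℝ → ℝ} {c₀ : ℝ} (hpu : PU h c₀) {R : ℝ} (hR0 : 0 ≤ R)
    (hR : ∀ u, cx h u ≠ 0 → |u| ≤ R) (N : ℕ) {B₀ : ℝ} (hB₀ : 0 ≤ B₀) {ε : ℝ} (hε : 0 < ε)
    {M : ℝ} (hM : 0 ≤ M) {J : ℝ} (hJ : (N : ℝ) * M ≤ J) :
    ∃ C r : ℝ, 1 ≤ C ∧ 0 ≤ r ∧ ∀ X : ℝ, 3 ≤ X →
    ∀ (ι κ : Type) [Fintype ι] [Fintype κ] [DecidableEq ι] [DecidableEq κ],
    Fintype.card ι + Fintype.card κ ≤ N → ∀ (s1 : ι → Pc) (s2 s3 : κ → Pc),
    (∀ i, (s1 i).OK) → (∀ j, (s2 j).OK) → (∀ j, (s3 j).OK) → SameT s2 s3 → LY s3 = LY s2 →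
    (∀ i, Real.log (s1 i).Y ≤ Real.log X) → (∀ j, Real.log (s2 j).Y ≤ Real.log X) →
    (∀ j, Real.log (s3 j).Y ≤ Real.log X) → ∀ Z : ℝ, 0 ≤ Z →
    (∀ n, sqc 1 (al h s1) n ≠ 0 → (nm n : ℝ) ≤ Z) → ∀ ζ : ℂ, ‖ζ‖ ≤ 1 → ∀ x : Eis → ℂ,
    (∀ n, x n = sqc 1 (al h s2) n - ζ * sqc 1 (al h s3) n) →
    ∀ (E0 : ℝ) (c : Fin 5) (s : ℝ) (g hh : Eis), IsPrim g → IsPrim hh → (nm g : ℝ) ≤ X ^ B₀ →
    ∀ Ds Es : Finset Eis, (∀ d ∈ Ds, IsPrim d ∧ (nm (hh * d) : ℝ) ≤ X ^ B₀) →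
    (∀ e ∈ Es, IsPrim e ∧ (nm e : ℝ) ≤ X ^ B₀) →
    ∀ (cV Yg K V V' E1 B G1 : ℝ) (H RN ρ : Eis → Eis → ℝ), 0 < K → 0 < V → 0 < cV →
    cV * V ≤ X ^ B₀ →
    (∀ d ∈ Ds, ∀ e ∈ Es, 0 < H d e) → (∀ d ∈ Ds, ∀ e ∈ Es, 0 ≤ ρ d e) →
    (∀ d ∈ Ds, ∀ e ∈ Es, 0 ≤ cLS K (H d e) V V' E1 B G1) →
    ∀ (Φ₀ Φ₁ : Eis → ℕ → ℝ) (Bf : Eis → ℕ → ℝ → ℝ) (Eb : Eis → ℕ → ℝ) (m : ℝ),
    (∀ d b, 0 ≤ Φ₀ d b) → (∀ d b, 0 ≤ Φ₁ d b) → (∀ d b k, 0 ≤ Bf d b k) → (∀ d b, 0 ≤ Eb d b) →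
    (∀ d ∈ Ds, ∀ e ∈ Es, ∀ b : ℕ,
      Real.log (nm (lc (cc g (hh * d)) e / cc g (hh * d))) ≤ b + 1 →
      ρ d e * (FH K (H d e) V * cLS K (H d e) V V' E1 B G1) * nm e ≤ Φ₀ d b) →
    (∀ d ∈ Ds, ∀ e ∈ Es, ∀ b : ℕ,
      Real.log (nm (lc (cc g (hh * d)) e / cc g (hh * d))) ≤ b + 1 →
      ρ d e * (FH K (H d e) V * cTT K (H d e) V) * nm e ≤ Φ₁ d b) →
    -- the claims of the first list
    (∀ d ∈ Ds, ∀ (b : ℕ) (k l : ℝ) (s' : ι ⊕ κ → Pc), (b : ℝ) ≤ 4 * B₀ * Real.log X → 0 ≤ k →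
      k ≤ Real.log (cV * V / (nm d : ℝ) ^ 2) + Real.log (nm (cc g (hh * d))) → 0 ≤ l →
      ChF r s' (Sum.elim s1 s2) →
      |LY s' - (LY s1 + LY s2 - Real.log (nm g) -
        Real.log (nm (hh * d) * nm (cc g (hh * d))) - b)| ≤ r →
      |l - (k + b)| ≤ r →
      LY s1 - Real.log (nm g) - min (y5 Z g c) (Real.log (nm (hh * d))) - b - r ≤
        LY (fun i => s' (.inl i)) →
      VK Dk (Real.exp l) (sqc (hh * d * cc g (hh * d)) (al h s')) ≤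
        Bf d b k * cF s' (Sum.elim s1 s2) ^ M) →
    -- the claims of the second list
    (∀ d ∈ Ds, ∀ (b : ℕ) (k l : ℝ) (s' : ι ⊕ κ → Pc), (b : ℝ) ≤ 4 * B₀ * Real.log X → 0 ≤ k →
      k ≤ Real.log (cV * V / (nm d : ℝ) ^ 2) + Real.log (nm (cc g (hh * d))) → 0 ≤ l →
      ChF r s' (Sum.elim s1 s3) →
      |LY s' - (LY s1 + LY s3 - Real.log (nm g) -
        Real.log (nm (hh * d) * nm (cc g (hh * d))) - b)| ≤ r →
      |l - (k + b)| ≤ r →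
      LY s1 - Real.log (nm g) - min (y5 Z g c) (Real.log (nm (hh * d))) - b - r ≤
        LY (fun i => s' (.inl i)) →
      VK Dk (Real.exp l) (sqc (hh * d * cc g (hh * d)) (al h s')) ≤
        Bf d b k * cF s' (Sum.elim s1 s3) ^ M) →
    -- the biases of the child differences
    (∀ d ∈ Ds, ∀ b : ℕ, (b : ℝ) ≤ 4 * B₀ * Real.log X → ∀ U : Eis, IsPrim U →
      |Real.log (nm U) - b| ≤ 1 → Squarefree (hh * d * (cc g (hh * d) * U)) →
      ∀ a : ι ⊕ κ → Eis, (∀ i, IsPrim (a i)) →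
      (∀ i, a i ∣ hh * d * (cc g (hh * d) * U)) →
      ∏ i, a i = g * (hh * d * (cc g (hh * d) * U)) →
      ∀ j : Eis, CubeFree j → (nm j : ℝ) * (nm d : ℝ) ^ 2 ≤ cV * V →
      IsCoprime j (cc g (hh * d) * U) → ∀ θ τ : ℝ, |θ| ≤ |s| →
      ‖Md (cdf h ζ τ θ s1 s2 s3 (hh * d * (cc g (hh * d) * U)) a)
        (j * (cc g (hh * d) * U))‖ ^ 2 ≤ Eb d b * (1 + |s|) ^ J * (1 + |τ|) ^ J) →
    (∀ d ∈ Ds, ∀ (b : ℕ) (k : ℝ), (b : ℝ) ≤ 4 * B₀ * Real.log X → 0 ≤ k →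
      k ≤ Real.log (cV * V / (nm d : ℝ) ^ 2) + Real.log (nm (cc g (hh * d))) →
      Real.exp (2 / 3 * (k + b)) * Eb d b ≤ Bf d b k) →
    (∀ d ∈ Ds, (nm d : ℝ) ^ 2 ≤ cV * V → ∀ b : ℕ, (b : ℝ) ≤ 4 * B₀ * Real.log X →
      Φ₀ d b * Bf d b (Real.log (cV * V / (nm d : ℝ) ^ 2) + Real.log (nm (cc g (hh * d)))) *
        (nm d : ℝ) ^ 2 ≤ Real.exp m) →
    (∀ d ∈ Ds, ∀ (b : ℕ) (n : ℝ), (b : ℝ) ≤ 4 * B₀ * Real.log X → 0 ≤ n →
      (nm d : ℝ) ^ 2 ≤ cV * V → 3 * n ≤ Real.log (cV * V / (nm d : ℝ) ^ 2) →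
      Φ₁ d b * Bf d b (Real.log (cV * V / (nm d : ℝ) ^ 2) + Real.log (nm (cc g (hh * d))) -
        3 * n) * (nm d : ℝ) ^ 2 * Real.exp n ≤ Real.exp m) →
    ∑ d ∈ Ds, ∑ e ∈ Es, ρ d e * LVn (fun d e => afrb (gt5 E0 Z g c) (q5 g c) Z
        (sqc 1 (al h s1)) x g hh s e d) {d} {e} cV Yg K (H d e) V V' E1 B G1
        (RN d e) ≤
      C * X ^ ε * (1 + |s|) ^ J * Real.exp (-((LY s1 + LY s2) / 3)) *
        (nm g * nm hh : ℝ) ^ (1 / 3 : ℝ) * Real.exp m +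
      ∑ d ∈ Ds, ∑ e ∈ Es, ρ d e * (FH K (H d e) V * RN d e) := by
  have hJ0 : 0 ≤ J := le_trans (by positivity) hJ
  obtain ⟨C₁, r, hC₁, hr, H₁⟩ := coreB_xd hpu hR0 hR N (B₀ := 4 * B₀) (by positivity)
    (ε := ε / 2) (by linarith) hM hJ
  obtain ⟨C₂, hC₂, H₂⟩ := TPsH (R' := 2 * (N * R)) (by positivity) hJ0 hB₀ (ε := ε / 2)
    (by linarith)
  refine ⟨3 * C₁ * C₂, r, by nlinarith, hr, ?_⟩
  intro X hX ι κ _ _ _ _ hcard s1 s2 s3 h1 h2 h3 hs hL h1X h2X h3X Z hZ hsup ζ hζ x hx E0 c s g hh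
    hg hhp hgX Ds Es hDs hEs cV Yg K V V' E1 B G1 Hf RN ρ hK hV hcV hcVX hH hρ hcLS Φ₀ Φ₁ Bf Eb m
    hΦ₀ hΦ₁ hBf hEb hdom₀ hdom₁ hcl hcl' hbias hbl hla hlb
  have hX1 : (1 : ℝ) ≤ X := by linarith
  have hX0 : (0 : ℝ) < X := by linarith
  have hlX : 0 ≤ Real.log X := Real.log_nonneg hX1
  have hs1 : (1 : ℝ) ≤ 1 + |s| := by linarith [abs_nonneg s]
  have hXB : X ^ B₀ ≤ X ^ (4 * B₀) := Real.rpow_le_rpow_of_exponent_le hX1 (by linarith)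
  set Q : ℝ := 3 * C₁ * X ^ (ε / 2) * (1 + |s|) ^ J with hQ
  have hC10 : 0 < C₁ := by linarith
  have hQ0 : 0 < Q := by
    have : 0 < (1 + |s|) ^ J := Real.rpow_pos_of_pos (by linarith) _
    positivity
  have hlcc : ∀ d, Real.log (nm (cc g (hh * d))) ≤ B₀ * Real.log X := by
    intro d
    have hcc1 : (1 : ℝ) ≤ nm (cc g (hh * d)) := one_le_nmR (cc_prim hg)
    have h4 : (nm (cc g (hh * d)) : ℝ) ≤ X ^ B₀ := by
      refine le_trans ?_ hgX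
      exact_mod_cast Div277.nm_le_of_dvd hg.ne_zero (cc_dvd hg)
    have h5 := Real.log_le_log (by linarith) h4
    rwa [Real.log_rpow hX0] at h5
  have hlW : ∀ d ∈ Ds, Real.log (cV * V / (nm d : ℝ) ^ 2) ≤ B₀ * Real.log X := by
    intro d hd
    have hd1 := one_le_nmR (hDs d hd).1
    have hd2 : (1 : ℝ) ≤ (nm d : ℝ) ^ 2 := one_le_pow₀ hd1
    have h4 : cV * V / (nm d : ℝ) ^ 2 ≤ X ^ B₀ :=
      (div_le_self (by positivity) hd2).trans hcVX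
    have h6 := Real.log_le_log (by positivity) h4
    rwa [Real.log_rpow hX0] at h6
  have hcore : ∀ d ∈ Ds, ∀ (b : ℕ) (k : ℝ), (b : ℝ) ≤ 4 * B₀ * Real.log X → 0 ≤ k →
      k ≤ Real.log (cV * V / (nm d : ℝ) ^ 2) + Real.log (nm (cc g (hh * d))) →
      CoreB (fun e => Ae Z E0 (sqc 1 (al h s1)) x g c s e (hh * d)) (cc g (hh * d)) b k J
        (Q * Bf d b k) := by
    intro d hd b k hb hk hkW
    obtain ⟨hdp, hdX⟩ := hDs d hd
    have hd1 := one_le_nmR hdp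
    have hkX : k ≤ 4 * B₀ * Real.log X := by
      have h4 := hlW d hd
      have h5 := hlcc d
      have h6 : 0 ≤ B₀ * Real.log X := by positivity
      linarith
    have h4 := H₁ X hX ι κ hcard s1 s2 s3 h1 h2 h3 hs h1X h2X h3X Z hZ hsup ζ hζ x hx E0 c s g
      (hh * d) hg (hhp.mul hdp) (hgX.trans hXB) (hdX.trans hXB) b k (Nat.cast_nonneg b) hb hk hkX
      (Bf d b k) (Bf d b k) (Eb d b) (hBf d b k) (hBf d b k) (hEb d b)
      (fun l s' hl hF hLY hlk hgate => hcl d hd b k l s' hb hk hkW hl hF hLY hlk hgate)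
      (fun l s' hl hF hLY hlk hgate => hcl' d hd b k l s' hb hk hkW hl hF hLY hlk hgate)
      (fun U hU hUb hsq a ha had hap j hj hjk hjc θ τ hθ => by
        refine hbias d hd b hb U hU hUb hsq a ha had hap j hj ?_ hjc θ τ hθ
        have hcc0 : (0 : ℝ) < nm (cc g (hh * d)) := by
          have := one_le_nmR (cc_prim (d := hh * d) hg)
          linarith
        have hj1 : (1 : ℝ) ≤ nm j := by exact_mod_cast nm_pos.2 hj.1
        have h5 : Real.log (nm j) ≤ Real.log (cV * V / (nm d : ℝ) ^ 2) := by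
          have h6 := Real.log_le_log (by positivity) hjk
          rw [Real.log_exp, Real.log_mul (by linarith) hcc0.ne'] at h6
          linarith
        have hlj : 0 ≤ Real.log (nm j) := Real.log_nonneg hj1
        have h7 : 0 < cV * V := mul_pos hcV hV
        have h8 : 0 < cV * V / (nm d : ℝ) ^ 2 := by positivity
        have h9 := (Real.log_le_log_iff (by linarith) h8).1 h5
        rwa [le_div_iff₀ (by positivity)] at h9)
    refine h4.mono ?_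
    have h5 := hbl d hd b k hb hk hkW
    have h6 : 0 ≤ C₁ * X ^ (ε / 2) * (1 + |s|) ^ J := by positivity
    calc C₁ * X ^ (ε / 2) * (1 + |s|) ^ J *
          (Bf d b k + Bf d b k + Real.exp (2 / 3 * (k + b)) * Eb d b) ≤
          C₁ * X ^ (ε / 2) * (1 + |s|) ^ J * (Bf d b k + Bf d b k + Bf d b k) := by gcongr
      _ = _ := by rw [hQ]; ring
  have hη : SWin (sqc 1 (al h s1)) (LY s1) (Fintype.card ι * R) := fun n hn => al_win hR h1 hn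
  have hα := swin_x hR h2 h3 hL hx
  have hrr : 2 * ((Fintype.card ι : ℝ) * R + Fintype.card κ * R) ≤ 2 * (N * R) := by
    rw [← add_mul]
    have h4 : ((Fintype.card ι : ℝ) + Fintype.card κ) ≤ N := by exact_mod_cast hcard
    have := mul_le_mul_of_nonneg_right h4 hR0
    linarith
  have hexp : Real.exp (m + Real.log Q) = Real.exp m * Q := by
    rw [Real.exp_add, Real.exp_log hQ0]
  have main := H₂ X hX (sqc 1 (al h s1)) x (LY s1) (LY s2) (Fintype.card ι * R)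
    (Fintype.card κ * R) hη hα hrr Z hZ E0 c s g hh hg hhp hgX Ds Es hDs hEs cV Yg K V V' E1 B G1
    Hf RN ρ hK hV hcVX hH hρ hcLS Φ₀ Φ₁ (fun d b k => Q * Bf d b k) (m + Real.log Q) hΦ₀ hΦ₁
    (fun d b k => mul_nonneg hQ0.le (hBf d b k)) hdom₀ hdom₁ hcore
    (fun d hd hW b hb => by
      rw [hexp]
      have h4 := mul_le_mul_of_nonneg_right (hla d hd hW b hb) hQ0.le
      calc _ = _ := by ring
        _ ≤ _ := h4)
    (fun d hd b n hb hn hW hn3 => by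
      rw [hexp]
      have h4 := mul_le_mul_of_nonneg_right (hlb d hd b n hb hn hW hn3) hQ0.le
      calc _ = _ := by ring
        _ ≤ _ := h4)
  refine main.trans (le_of_eq ?_)
  congr 1
  have hXe : X ^ ε = X ^ (ε / 2) * X ^ (ε / 2) := by
    rw [← Real.rpow_add hX0]; congr 1; ring
  rw [hexp, hQ, hXe]
  ring

end Crest.Agent.R017.GrK404
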