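import Crest.Agent.R017.CM1_106

/-!
# Row 17: conjugation symmetry of the cubic character sums (helper401)

`sy (d B²) m = conj (sy (d² B) m)` for every primary `m` (no condition on `d`, `B`: both sides
vanish unless `m` is prime to `d B`), hence
`CS α (d B²) = conj (CS (conj α) (d² B))` for every `α` with `FS α`.
-/

set_option autoImplicit false

noncomputable section

open Complex
open scoped ComplexConjugate

namespace Crest.Agent.R017.PMB401

open Crest.Agent.R012 Crest.Agent.R012.Eis Crest.Agent.R012.LS2 Crest.Agent.R012.Gauss880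
open Crest.Agent.R017.CM106

/-- the conjugate sequence -/
def cj (α : Eis → ℂ) : Eis → ℂ := fun m => conj (α m)

@[simp] lemma cj_apply (α : Eis → ℂ) (m : Eis) : cj α m = conj (α m) := rfl

@[simp] lemma cj_cj (α : Eis → ℂ) : cj (cj α) = α := by
  funext m
  simp [cj]

lemma norm_cj (α : Eis → ℂ) (m : Eis) : ‖cj α m‖ = ‖α m‖ := by
  simp [cj]

lemma cj_ne {α : Eis → ℂ} {m : Eis} : cj α m ≠ 0 ↔ α m ≠ 0 := by
  simp [cj]

lemma FS_cj {α : Eis → ℂ} (h : FS α) : FS (cj α) where
  fin := h.fin.subset fun m hm => by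
    rw [Function.mem_support] at hm ⊢
    exact cj_ne.mp hm
  prim := fun m hm => h.prim m (cj_ne.mp hm)

/-- the square of a value of the symbol is its conjugate -/
lemma sy_sq {x m : Eis} (hm : IsPrim m) : sy x m ^ 2 = conj (sy x m) := by
  by_cases h : IsCoprime x m
  · have h1 := syG.cube x m hm h
    have h2 : ‖sy x m‖ = 1 := by
      have h3 : ‖sy x m‖ ^ 3 = 1 := by rw [← norm_pow, h1, norm_one]
      exact (pow_eq_one_iff_of_nonneg (norm_nonneg _) (by norm_num)).mp h3
    have h3 : sy x m * conj (sy x m) = 1 := by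
      rw [Complex.mul_conj, Complex.normSq_eq_norm_sq, h2]; simp
    have h4 : sy x m ≠ 0 := left_ne_zero_of_mul_eq_one h3
    apply mul_left_cancel₀ h4
    rw [h3, ← h1]; ring
  · rw [(syG.eq_zero x m hm).mpr h]; simp

lemma sy_mul {x y m : Eis} (hm : IsPrim m) : sy (x * y) m = sy x m * sy y m :=
  Sym645.sy_mul_left (Sym645.prim_nm_mod hm) x y

/-- **the symmetry of the symbol** -/
theorem sy_conj_symm (d B : Eis) {m : Eis} (hm : IsPrim m) :
    sy (d * B ^ 2) m = conj (sy (d ^ 2 * B) m) := by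
  rw [sy_mul hm, sy_mul hm, pow_two B, pow_two d, sy_mul hm, sy_mul hm, ← pow_two, ← pow_two,
    sy_sq hm, sy_sq hm, map_mul, Complex.conj_conj]

/-- **conjugation symmetry of the character sums** -/
theorem CS_conj_symm {α : Eis → ℂ} (h : FS α) (d B : Eis) :
    CS α (d * B ^ 2) = conj (CS (cj α) (d ^ 2 * B)) := by
  unfold CS
  rw [Complex.conj_tsum]
  refine tsum_congr fun m => ?_
  by_cases hm : α m = 0
  · simp [cj, hm]
  · rw [sy_conj_symm d B (h.prim m hm), map_mul, cj_apply, Complex.conj_conj]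

/-- **the lemma of 777**: norms -/
theorem norm_CS_conj_symm {α : Eis → ℂ} (h : FS α) (d B : Eis) :
    ‖CS α (d * B ^ 2)‖ = ‖CS (cj α) (d ^ 2 * B)‖ := by
  rw [CS_conj_symm h, RCLike.norm_conj]

/-- the same, the other way round -/
theorem norm_CS_conj_symm' {α : Eis → ℂ} (h : FS α) (d B : Eis) :
    ‖CS α (d ^ 2 * B)‖ = ‖CS (cj α) (d * B ^ 2)‖ := by
  rw [norm_CS_conj_symm (FS_cj h), cj_cj]

/-- sums over a finite set of `B` -/
theorem sum_CS_conj_symm {α : Eis → ℂ} (h : FS α) (S D : Finset Eis) (w : Eis → Eis → ℝ) :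
    ∑ B ∈ S, ∑ d ∈ D, w B d * ‖CS α (d * B ^ 2)‖ ^ 2 =
      ∑ d ∈ D, ∑ B ∈ S, w B d * ‖CS (cj α) (B * d ^ 2)‖ ^ 2 := by
  rw [Finset.sum_comm]
  refine Finset.sum_congr rfl fun d _ => Finset.sum_congr rfl fun B _ => ?_
  rw [norm_CS_conj_symm h, mul_comm (d ^ 2)]

end Crest.Agent.R017.PMB401
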