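import Crest.Agent.R017.H1q_401
import Crest.Agent.R017.PMBj_401

/-!
# Row 17, block C70, leaf E2 (helper401): the joint large sieve in `(B, d)`, part a

The `r`-character of the pair `(B, d)` is `sy r d * conj (sy r B)` (label `d B²`). With
`g = gcd (B, m)`, `B = g B'`, `m = g m'` the label is `m' (x B')²`: one large sieve for each `g`.
* `gc`, `gc_spec` : the primary gcd
* `GB g B d` : `g` is the exact common part of `B` and `d`
* `ls_g` : the large sieve for fixed `g`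
-/

set_option autoImplicit false

noncomputable section

open Finset
open scoped ComplexConjugate

namespace Crest.Agent.R017.H1401

open Crest.Agent.R012 Crest.Agent.R012.Eis Crest.Agent.R012.LS2 Crest.Agent.R012.GaussLoc283
open Crest.Agent.R012.Div277 (tau dvs mem_dvs tau_le_rpow)
open Crest.Agent.R012.BilG811 (hbB Sq bil_ls)
open Crest.Agent.R017.CM106

open Classical in
/-- the primary gcd -/
def gc (B m : Eis) : Eis := if h : IsPrim m then (X6D502.exists_gcd B h).choose else 1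

lemma gc_spec (B : Eis) {m : Eis} (hm : IsPrim m) : ∃ B' m' : Eis, IsPrim (gc B m) ∧ IsPrim m' ∧
    B = gc B m * B' ∧ m = gc B m * m' ∧ IsCoprime B' m' := by
  unfold gc
  rw [dif_pos hm]
  obtain ⟨l, u, h⟩ := (X6D502.exists_gcd B hm).choose_spec
  exact ⟨l, u, h.1, h.2.1, h.2.2.1, h.2.2.2.1, h.2.2.2.2⟩

/-- `g` is the exact common part of `B` and `d` -/
def GB (g B d : Eis) : Prop :=
  ∃ B' d' : Eis, B = g * B' ∧ d = g * d' ∧ IsCoprime B' d ∧ IsCoprime g d'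

/-- the label -/
def lbl (g : Eis) (p : Eis × Eis × Eis) : Eis × Eis := (p.2.2 / g, p.2.1 * (p.1 / g))

lemma lbl_eq {g B' m' : Eis} (hg : g ≠ 0) {p : Eis × Eis × Eis} (h1 : p.1 = g * B')
    (h2 : p.2.2 = g * m') : lbl g p = (m', p.2.1 * B') := by
  unfold lbl
  rw [h1, h2, mul_div_cancel_left₀ _ hg, mul_div_cancel_left₀ _ hg]

lemma chi_eq {s g B' m' x : Eis} (hg : IsPrim g) (hB : IsPrim B') (hm : IsPrim m')
    (hx : IsPrim x) (hc : IsCoprime s g) :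
    sy s ((g * m') * x ^ 2) * conj (sy s (g * B')) = sy s (m' * (x * B') ^ 2) := by
  have e1 : sy s ((g * m') * x ^ 2) = sy s g * sy s m' * (sy s x * sy s x) := by
    rw [syAx.mul_right _ _ _ (hg.mul hm) (hx.pow 2), syAx.mul_right _ _ _ hg hm, pow_two,
      syAx.mul_right _ _ _ hx hx]
  have e2 : sy s (g * B') = sy s g * sy s B' := syAx.mul_right _ _ _ hg hB
  have e3 : sy s (m' * (x * B') ^ 2) = sy s m' * ((sy s x * sy s B') * (sy s x * sy s B')) := by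
    rw [syAx.mul_right _ _ _ hm ((hx.mul hB).pow 2), pow_two,
      syAx.mul_right _ _ _ (hx.mul hB) (hx.mul hB), syAx.mul_right _ _ _ hx hB]
  have e4 : conj (sy s g) = sy s g ^ 2 := (PMB401.sy_sq hg).symm
  have e5 : conj (sy s B') = sy s B' ^ 2 := (PMB401.sy_sq hB).symm
  have e6 : sy s g ^ 3 = 1 := Gauss880.syG.cube s g hg hc
  rw [e1, e2, e3, map_mul, e4, e5]
  calc sy s g * sy s m' * (sy s x * sy s x) * (sy s g ^ 2 * sy s B' ^ 2)
      = sy s g ^ 3 * (sy s m' * ((sy s x * sy s B') * (sy s x * sy s B'))) := by ring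
    _ = _ := by rw [e6, one_mul]

lemma chi_zero {s g B' : Eis} (hg : IsPrim g) (hB : IsPrim B') (hc : ¬ IsCoprime s g) :
    sy s (g * B') = 0 := by
  rw [syAx.mul_right _ _ _ hg hB, (Sym645.syFacts.eq_zero s g hg).2 hc, zero_mul]

open Classical in
/-- **the large sieve for fixed `g`** -/
theorem ls_g : ∃ K : ℝ, 0 < K ∧ ∀ R Q Tb : ℝ, 1 ≤ R → 1 ≤ Q → ∀ A : Finset Eis,
    (∀ s ∈ A, IsPrim s ∧ (nm s : ℝ) ≤ R) → ∀ g : Eis, IsPrim g →
    ∀ P : Finset (Eis × Eis × Eis),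
    (∀ p ∈ P, ∃ B' m' : Eis, p.1 = g * B' ∧ p.2.2 = g * m' ∧ IsPrim B' ∧ IsPrim m' ∧
      IsPrim p.2.1 ∧ Squarefree m' ∧ Squarefree (p.2.1 * B') ∧ IsCoprime m' (p.2.1 * B') ∧
      (nm m' : ℝ) * nm (p.2.1 * B') ≤ Q ∧ (tau (p.2.1 * B') : ℝ) ≤ Tb) →
    ∀ β : Eis × Eis × Eis → ℂ,
      ∑ s ∈ A, ‖∑ p ∈ P, β p * (sy s (p.2.2 * p.2.1 ^ 2) * conj (sy s p.1))‖ ^ 2 ≤
        K * (R + Q ^ 2) * (Tb * ∑ p ∈ P, ‖β p‖ ^ 2) := by
  obtain ⟨K, hK, hLS⟩ := l1_dual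
  refine ⟨K, hK, fun R Q Tb hR hQ A hA g hg P hP β => ?_⟩
  set L := P.image (lbl g) with hL
  set γ : Eis × Eis → ℂ := fun l => ∑ p ∈ P.filter (fun p => lbl g p = l), β p with hγ
  have h1 : ∀ s ∈ A, ‖∑ p ∈ P, β p * (sy s (p.2.2 * p.2.1 ^ 2) * conj (sy s p.1))‖ ≤
      ‖∑ l ∈ L, γ l * sy s (l.1 * l.2 ^ 2)‖ := by
    intro s hs
    by_cases hc : IsCoprime s g
    · apply le_of_eq
      congr 1
      rw [← Finset.sum_fiberwise_of_maps_to (fun p hp => Finset.mem_image_of_mem (lbl g) hp), ← hL]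
      refine Finset.sum_congr rfl fun l _ => ?_
      rw [hγ, Finset.sum_mul]
      refine Finset.sum_congr rfl fun p hp => ?_
      rw [Finset.mem_filter] at hp
      obtain ⟨B', m', a1, a2, a3, a4, a5, -⟩ := hP p hp.1
      rw [← hp.2, lbl_eq hg.ne_zero a1 a2, a1, a2, chi_eq hg a3 a4 a5 hc]
    · have : ∑ p ∈ P, β p * (sy s (p.2.2 * p.2.1 ^ 2) * conj (sy s p.1)) = 0 := by
        refine Finset.sum_eq_zero fun p hp => ?_
        obtain ⟨B', m', a1, a2, a3, a4, a5, -⟩ := hP p hp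
        rw [a1, chi_zero hg a3 hc, map_zero, mul_zero, mul_zero]
      rw [this, norm_zero]
      exact norm_nonneg _
  have h2 := hLS R Q hR hQ L (fun l hl => by
    rw [hL, Finset.mem_image] at hl
    obtain ⟨p, hp, rfl⟩ := hl
    obtain ⟨B', m', a1, a2, a3, a4, a5, a6, a7, a8, a9, -⟩ := hP p hp
    rw [lbl_eq hg.ne_zero a1 a2]
    exact ⟨a4, a5.mul a3, a6, a7, a8, a9⟩) A hA γ
  have h3 : ∑ l ∈ L, ‖γ l‖ ^ 2 ≤ Tb * ∑ p ∈ P, ‖β p‖ ^ 2 := by
    rw [← Finset.sum_fiberwise_of_maps_to (fun p hp => Finset.mem_image_of_mem (lbl g) hp), ← hL,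
      Finset.mul_sum]
    refine Finset.sum_le_sum fun l hl => ?_
    have h4 : ‖γ l‖ ^ 2 ≤ (P.filter (fun p => lbl g p = l)).card *
        ∑ p ∈ P.filter (fun p => lbl g p = l), ‖β p‖ ^ 2 := by
      rw [hγ]
      exact (pow_le_pow_left₀ (norm_nonneg _) (norm_sum_le _ _) 2).trans sq_sum_le_card_mul_sum_sq
    refine h4.trans (mul_le_mul_of_nonneg_right ?_ (Finset.sum_nonneg fun _ _ => by positivity))
    rw [hL, Finset.mem_image] at hl
    obtain ⟨p0, hp0, hpl⟩ := hl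
    obtain ⟨B0, m0, a1, a2, a3, a4, a5, a6, a7, a8, a9, a10⟩ := hP p0 hp0
    refine le_trans ?_ a10
    have hl2 : l = (m0, p0.2.1 * B0) := by rw [← hpl, lbl_eq hg.ne_zero a1 a2]
    unfold tau
    norm_cast
    refine Finset.card_le_card_of_injOn (fun p => p.2.1) ?_ ?_
    · intro p hp
      rw [Finset.mem_coe, Finset.mem_filter] at hp
      obtain ⟨B', m', b1, b2, b3, b4, b5, -⟩ := hP p hp.1
      rw [Finset.mem_coe, mem_dvs (a5.mul a3).ne_zero]
      refine ⟨b5, ⟨B', ?_⟩⟩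
      have h5 := hp.2
      rw [lbl_eq hg.ne_zero b1 b2, hl2] at h5
      exact (congrArg Prod.snd h5).symm
    · rintro ⟨p1, p2, p3⟩ hp ⟨q1, q2, q3⟩ hq h
      rw [Finset.mem_coe, Finset.mem_filter] at hp hq
      obtain ⟨B', m', b1, b2, b3, b4, b5, -⟩ := hP _ hp.1
      obtain ⟨B'', m'', c1, c2, c3, c4, c5, -⟩ := hP _ hq.1
      simp only at h b1 b2 b5 c1 c2 c5
      subst h
      have h5 := hp.2
      have h6 := hq.2
      rw [lbl_eq hg.ne_zero (p := (p1, p2, p3)) b1 b2] at h5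
      rw [lbl_eq hg.ne_zero (p := (q1, p2, q3)) c1 c2, ← h5] at h6
      simp only [Prod.mk.injEq] at h6
      obtain ⟨h7, h8⟩ := h6
      have h9 : B'' = B' := mul_left_cancel₀ b5.ne_zero h8
      rw [b1, b2, c1, c2, h7, h9]
  calc _ ≤ ∑ s ∈ A, ‖∑ l ∈ L, γ l * sy s (l.1 * l.2 ^ 2)‖ ^ 2 :=
        Finset.sum_le_sum fun s hs => pow_le_pow_left₀ (norm_nonneg _) (h1 s hs) 2
    _ ≤ K * (R + Q ^ 2) * ∑ l ∈ L, ‖γ l‖ ^ 2 := h2
    _ ≤ _ := mul_le_mul_of_nonneg_left h3 (by positivity)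

end Crest.Agent.R017.H1401
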