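import Crest.Agent.R017.H1Ja_401

/-!
# Row 17, block C70, leaf E2 (helper401): the joint large sieve in `(B, d)`, part b: one block
-/

set_option autoImplicit false

noncomputable section

open Finset
open scoped ComplexConjugate

namespace Crest.Agent.R017.H1401

open Crest.Agent.R012 Crest.Agent.R012.Eis Crest.Agent.R012.LS2 Crest.Agent.R012.GaussLoc283
open Crest.Agent.R012.Div277 (tau dvs mem_dvs tau_le_rpow)
open Crest.Agent.R012.BilG811 (hbB Sq bil_ls)
open Crest.Agent.R017.CM106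

open Classical in
/-- the weight with exact common part `g` -/
def wJ (b c : Eis → Eis → ℂ) (g B x y d : Eis) : ℝ :=
  if GB g B d then wt (b B) (c B) x y d else 0

lemma wJ_nonneg (b c : Eis → Eis → ℂ) (g B x y d : Eis) : 0 ≤ wJ b c g B x y d := by
  unfold wJ
  split_ifs
  · exact wt_nonneg _ _ _ _ _
  · exact le_rfl

/-- the joint sum -/
def VJ (κ : Eis) (b c : Eis → Eis → ℂ) (Bs Bk : Finset Eis) (Z : ℝ) (n v y z s : Eis) : ℂ :=
  ∑ B ∈ Bs, conj (sy ((z * y) * s) B) * ∑ x ∈ Bk, UU κ (b B) (c B) Z n v x y z s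

/-- the coefficient -/
def bJ (κ : Eis) (b c : Eis → Eis → ℂ) (n v y z : Eis) (p : Eis × Eis × Eis) : ℂ :=
  conj (sy (z * y) p.1) * (b p.1 (QQ n p.2.1 y z p.2.2) *
    (conj (gs (κ * ((z * (y * n)) * (p.2.1 * (y * n)))) (QQ n p.2.1 y z p.2.2)) *
      sy (v ^ 2) (QQ n p.2.1 y z p.2.2)) * CS (sub (c p.1) (p.2.1 * y)) (QQ n p.2.1 y z p.2.2))

/-- facts on a tuple with non-zero coefficient -/
lemma bJ_str {κ : Eis} {b c : Eis → Eis → ℂ} {n v y z : Eis} {Z : ℝ} {p : Eis × Eis × Eis}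
    (hB : IsPrim p.1) (hBs : Squarefree p.1) (hx : IsPrim p.2.1) (hxs : Squarefree p.2.1)
    (hm : IsPrim p.2.2) (hms : Squarefree p.2.2)
    (hG : GG Z n p.2.1 y z p.2.2)
    (hc : ∀ D, c p.1 D ≠ 0 → Squarefree (p.1 * D) ∧ IsCoprime (p.1 * D) n)
    (h0 : bJ κ b c n v y z p ≠ 0) :
    ∃ B' m' : Eis, p.1 = gc p.1 p.2.2 * B' ∧ p.2.2 = gc p.1 p.2.2 * m' ∧ IsPrim (gc p.1 p.2.2) ∧
      Squarefree (gc p.1 p.2.2) ∧ IsPrim B' ∧ IsPrim m' ∧ Squarefree m' ∧
      Squarefree (p.2.1 * B') ∧ IsCoprime m' (p.2.1 * B') ∧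
      GB (gc p.1 p.2.2) p.1 (QQ n p.2.1 y z p.2.2) := by
  obtain ⟨B, x, m⟩ := p
  simp only at hB hBs hx hxs hm hms hG hc ⊢
  unfold bJ at h0
  simp only at h0
  have h1 : sy (z * y) B ≠ 0 := by
    intro h
    apply h0
    rw [h, map_zero, zero_mul]
  have hzyB : IsCoprime (z * y) B := isCoprime_of_sy_ne_zero hB h1
  have h2 : CS (sub (c B) (x * y)) (QQ n x y z m) ≠ 0 := by
    intro h
    apply h0
    rw [h, mul_zero, mul_zero]
  obtain ⟨m0, hm0⟩ : ∃ m0, c B (x * y * m0) ≠ 0 := by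
    by_contra hcon
    push_neg at hcon
    apply h2
    unfold CS
    rw [tsum_congr (fun m => by
      have : sub (c B) (x * y) m = 0 := hcon m
      rw [this, zero_mul]), tsum_zero]
  obtain ⟨h3, h4⟩ := hc _ hm0
  have hBx : IsCoprime B x := by
    have h5 : Squarefree (B * x) := h3.squarefree_of_dvd ⟨y * m0, by ring⟩
    exact (squarefree_mul_iff.mp h5).1.isCoprime
  have hBy : IsCoprime B y := hzyB.of_mul_left_right.symm
  have hBz : IsCoprime B z := hzyB.of_mul_left_left.symm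
  have hBn : IsCoprime B n := h4.of_mul_left_left
  obtain ⟨B', m', hg, hm', e1, e2, hcop⟩ := gc_spec B hm
  set g := gc B m with hgd
  have hgs : Squarefree g := by
    have := hBs
    rw [e1] at this
    exact this.of_mul_left
  have hB' : IsPrim B' := by
    have := hB
    rw [e1] at this
    exact this.of_mul_left hg
  have hms' : Squarefree m' := by
    have := hms
    rw [e2] at this
    exact this.of_mul_right
  have hBs' : Squarefree B' := by
    have := hBs
    rw [e1] at this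
    exact this.of_mul_right
  have hgB' : IsCoprime g B' := by
    have := hBs
    rw [e1] at this
    exact (squarefree_mul_iff.mp this).1.isCoprime
  have hgm' : IsCoprime g m' := by
    have := hms
    rw [e2] at this
    exact (squarefree_mul_iff.mp this).1.isCoprime
  have dB' : B' ∣ B := ⟨g, by rw [mul_comm]; exact e1⟩
  have dg : g ∣ B := ⟨B', e1⟩
  have hx' : IsCoprime B' x := hBx.of_isCoprime_of_dvd_left dB'
  have hy' : IsCoprime B' y := hBy.of_isCoprime_of_dvd_left dB'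
  have hz' : IsCoprime B' z := hBz.of_isCoprime_of_dvd_left dB'
  have hn' : IsCoprime B' n := hBn.of_isCoprime_of_dvd_left dB'
  have hmx : IsCoprime m x := by
    have h5 : Squarefree (m * x) := hG.1.squarefree_of_dvd ⟨(y * n) * z, by ring⟩
    exact (squarefree_mul_iff.mp h5).1.isCoprime
  have hm'x : IsCoprime m' x := hmx.of_isCoprime_of_dvd_left ⟨g, by rw [mul_comm]; exact e2⟩
  refine ⟨B', m', e1, e2, hg, hgs, hB', hm', hms', ?_, ?_, ?_⟩
  · exact squarefree_mul_iff.mpr ⟨hx'.symm.isRelPrime, hxs, hBs'⟩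
  · exact hm'x.mul_right hcop.symm
  · refine ⟨B', m' * (x ^ 2 * z ^ 2 * (y * n) ^ 3), e1, ?_, ?_, ?_⟩
    · unfold QQ
      calc m * (x ^ 2 * z ^ 2 * (y * n) ^ 3) = (g * m') * (x ^ 2 * z ^ 2 * (y * n) ^ 3) := by
            rw [← e2]
        _ = _ := by ring
    · unfold QQ
      have h6 : IsCoprime B' m := by
        rw [e2]
        exact hgB'.symm.mul_right hcop
      exact h6.mul_right (((hx'.pow_right).mul_right hz'.pow_right).mul_right
        (hy'.mul_right hn').pow_right)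
    · exact hgm'.mul_right ((((hBx.of_isCoprime_of_dvd_left dg).pow_right).mul_right
        (hBz.of_isCoprime_of_dvd_left dg).pow_right).mul_right
        ((hBy.of_isCoprime_of_dvd_left dg).mul_right (hBn.of_isCoprime_of_dvd_left dg)).pow_right)

open Classical in
/-- expansion of the joint sum -/
lemma VJ_eq {κ : Eis} {b c : Eis → Eis → ℂ} {Bs Bk : Finset Eis} {Z : ℝ} (hZ : 0 ≤ Z)
    {n v y z s : Eis} (hn : IsPrim n) (hy : IsPrim y) (hz : IsPrim z)
    (hBs : ∀ B ∈ Bs, IsPrim B) (hBk : ∀ x ∈ Bk, IsPrim x) :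
    VJ κ b c Bs Bk Z n v y z s = sy s (z ^ 2 * (y * n) ^ 3) *
      ∑ p ∈ (Bs ×ˢ Bk ×ˢ S Z).filter (fun p => GG Z n p.2.1 y z p.2.2 ∧ bJ κ b c n v y z p ≠ 0),
        bJ κ b c n v y z p * (sy s (p.2.2 * p.2.1 ^ 2) * conj (sy s p.1)) := by
  set q : Eis := z ^ 2 * (y * n) ^ 3 with hq
  have hqp : IsPrim q := (hz.pow 2).mul ((hy.mul hn).pow 3)
  have e0 : ∑ p ∈ (Bs ×ˢ Bk ×ˢ S Z).filter
        (fun p => GG Z n p.2.1 y z p.2.2 ∧ bJ κ b c n v y z p ≠ 0),
        bJ κ b c n v y z p * (sy s (p.2.2 * p.2.1 ^ 2) * conj (sy s p.1)) =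
      ∑ p ∈ (Bs ×ˢ Bk ×ˢ S Z).filter (fun p => GG Z n p.2.1 y z p.2.2),
        bJ κ b c n v y z p * (sy s (p.2.2 * p.2.1 ^ 2) * conj (sy s p.1)) := by
    refine Finset.sum_subset ?_ ?_
    · intro p hp
      rw [Finset.mem_filter] at hp ⊢
      exact ⟨hp.1, hp.2.1⟩
    · intro p hp hp'
      rw [Finset.mem_filter] at hp
      have : bJ κ b c n v y z p = 0 := by
        by_contra h
        exact hp' (Finset.mem_filter.mpr ⟨hp.1, hp.2, h⟩)
      rw [this, zero_mul]
  rw [e0, Finset.sum_filter]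
  simp only [Finset.sum_product]
  unfold VJ
  rw [Finset.mul_sum]
  refine Finset.sum_congr rfl fun B hB => ?_
  have hB1 := hBs B hB
  rw [Finset.mul_sum, Finset.mul_sum]
  refine Finset.sum_congr rfl fun x hx => ?_
  have hx1 := hBk x hx
  unfold UU
  rw [Finset.mul_sum, Finset.mul_sum]
  refine Finset.sum_congr rfl fun m hm => ?_
  have hm1 := ((mem_S hZ).mp hm).2.1
  by_cases hg : GG Z n x y z m
  · rw [if_pos hg, if_pos hg]
    have hmx : IsPrim (m * x ^ 2) := hm1.mul (hx1.pow 2)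
    have hQm : QQ n x y z m = (m * x ^ 2) * q := by unfold QQ; rw [hq]; ring
    have hQp : IsPrim (QQ n x y z m) := hQm ▸ hmx.mul hqp
    have e2 : sy (s * v ^ 2) (QQ n x y z m) =
        (sy s (m * x ^ 2) * sy s q) * sy (v ^ 2) (QQ n x y z m) := by
      rw [syAx.mul_left _ _ _ hQp]
      congr 1
      rw [hQm, syAx.mul_right _ _ _ hmx hqp]
    have e3 : sy ((z * y) * s) B = sy (z * y) B * sy s B := syAx.mul_left _ _ _ hB1
    simp only [TT, dT, bJ]
    rw [e2, e3, map_mul]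
    ring
  · rw [if_neg hg, if_neg hg, mul_zero, mul_zero]

end Crest.Agent.R017.H1401
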