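import Crest.Agent.R017.H1Jb_401

/-!
# Row 17, block C70, leaf E2 (helper401): the joint large sieve in `(B, d)`, part c: one block
-/

set_option autoImplicit false

noncomputable section

open Finset
open scoped ComplexConjugate

namespace Crest.Agent.R017.H1401

open Crest.Agent.R012 Crest.Agent.R012.Eis Crest.Agent.R012.LS2 Crest.Agent.R012.GaussLoc283
open Crest.Agent.R012.Div277 (tau dvs mem_dvs tau_le_rpow)
open Crest.Agent.R012.BilG811 (hbB Sq bil_ls)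
open Crest.Agent.R017.CM106

open Classical in
/-- the inner weight sum -/
def WbJ (b c : Eis → Eis → ℂ) (Z : ℝ) (g B n x y z : Eis) : ℝ :=
  ∑ m ∈ S Z, if GG Z n x y z m then wJ b c g B x y (QQ n x y z m) else 0

lemma WbJ_nonneg (b c : Eis → Eis → ℂ) (Z : ℝ) (g B n x y z : Eis) : 0 ≤ WbJ b c Z g B n x y z := by
  unfold WbJ
  refine Finset.sum_nonneg fun m _ => ?_
  split_ifs
  · exact wJ_nonneg _ _ _ _ _ _ _
  · exact le_rfl

lemma QQ_xm (n x y z m : Eis) : QQ n x y z m = (m * x ^ 2) * (z ^ 2 * (y * n) ^ 3) := by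
  unfold QQ; ring

set_option maxHeartbeats 1000000 in
open Classical in
/-- **the joint large sieve, one block** -/
theorem ls_J {ε : ℝ} (hε : 0 < ε) : ∃ K : ℝ, 0 < K ∧
    ∀ R Z B1 G : ℝ, 1 ≤ R → 1 ≤ Z → 1 ≤ B1 → 1 ≤ G → ∀ κ : Eis, Cp κ →
    ∀ (b c : Eis → Eis → ℂ) (Bs Bk : Finset Eis) (n v y z : Eis), IsPrim n → IsPrim y → IsPrim z →
      (∀ x ∈ Bk, IsPrim x ∧ Squarefree x ∧ G ≤ nm x) →
      (∀ B ∈ Bs, IsPrim B ∧ Squarefree B ∧ (nm B : ℝ) ≤ B1) →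
      (∀ B ∈ Bs, ∀ D, c B D ≠ 0 → Squarefree (B * D) ∧ IsCoprime (B * D) n) →
      ∑ s ∈ S R, (if (z * y) * s ∈ S R then ‖VJ κ b c Bs Bk Z n v y z s‖ ^ 2 else 0) ≤
        K * (Z * B1) ^ ε * nm n * ∑ g ∈ S B1, (nm g : ℝ) *
          (R + (Z / (nm n : ℝ) ^ 3 * B1 / (G * (nm g : ℝ) ^ 2)) ^ 2) *
          ∑ B ∈ Bs, ∑ x ∈ Bk, (nm x : ℝ) * WbJ b c Z g B n x y z := by
  set δ : ℝ := ε / 2 with hδ
  have hδ0 : 0 < δ := by rw [hδ]; linarith
  obtain ⟨K, hK, hLS⟩ := ls_g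
  obtain ⟨Ct, hCt1, hCt⟩ := tau_le_rpow hδ0
  obtain ⟨Ci, hCi1, hCi⟩ := sum_inv_le hδ0
  refine ⟨K * Ct * Ci, by positivity,
    fun R Z B1 G hR hZ hB1 hG κ hκ b c Bs Bk n v y z hn hy hz hBk hBs hc => ?_⟩
  have hR0 : (0 : ℝ) ≤ R := by linarith
  have hZ0 : (0 : ℝ) ≤ Z := by linarith
  have hB0 : (0 : ℝ) ≤ B1 := by linarith
  have hG0 : (0 : ℝ) < G := by linarith
  have hY1 : (1 : ℝ) ≤ nm y := nm_ge_one hy
  have hZ1 : (1 : ℝ) ≤ nm z := nm_ge_one hz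
  have hN1 : (1 : ℝ) ≤ nm n := nm_ge_one hn
  set A := (S R).filter (fun s => (z * y) * s ∈ S R) with hA
  set P := (Bs ×ˢ Bk ×ˢ S Z).filter
    (fun p => GG Z n p.2.1 y z p.2.2 ∧ bJ κ b c n v y z p ≠ 0) with hP
  set q : Eis := z ^ 2 * (y * n) ^ 3 with hq
  have hqp : IsPrim q := (hz.pow 2).mul ((hy.mul hn).pow 3)
  have hnq : (nm q : ℝ) = (nm z : ℝ) ^ 2 * ((nm y : ℝ) * nm n) ^ 3 := by
    rw [hq]; simp only [nm_mul, nm_pow]; push_cast; ring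
  have hq1 : (1 : ℝ) ≤ nm q := nm_ge_one hqp
  have hq0 : (0 : ℝ) < nm q := by linarith
  set β := bJ κ b c n v y z with hβ
  have hPm : ∀ p ∈ P, (p.1 ∈ Bs ∧ p.2.1 ∈ Bk ∧ p.2.2 ∈ S Z) ∧ GG Z n p.2.1 y z p.2.2 ∧
      β p ≠ 0 := by
    intro p hp
    rw [hP, Finset.mem_filter, Finset.mem_product, Finset.mem_product] at hp
    exact hp
  have hstr : ∀ p ∈ P, ∃ B' m' : Eis, p.1 = gc p.1 p.2.2 * B' ∧ p.2.2 = gc p.1 p.2.2 * m' ∧
      IsPrim (gc p.1 p.2.2) ∧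
      Squarefree (gc p.1 p.2.2) ∧ IsPrim B' ∧ IsPrim m' ∧ Squarefree m' ∧
      Squarefree (p.2.1 * B') ∧ IsCoprime m' (p.2.1 * B') ∧
      GB (gc p.1 p.2.2) p.1 (QQ n p.2.1 y z p.2.2) := by
    intro p hp
    obtain ⟨⟨h1, h2, h3⟩, h4, h5⟩ := hPm p hp
    obtain ⟨a1, a2, a3⟩ := hBs _ h1
    obtain ⟨b1, b2, b3⟩ := hBk _ h2
    obtain ⟨c1, c2, c3⟩ := (mem_S hZ0).mp h3
    exact bJ_str a1 a2 b1 b2 c2 c3 h4 (hc _ h1) h5
  rw [← Finset.sum_filter, ← hA]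
  -- the right side is non-negative
  have hin0 : ∀ g : Eis, 0 ≤ ∑ B ∈ Bs, ∑ x ∈ Bk, (nm x : ℝ) * WbJ b c Z g B n x y z := fun g =>
    Finset.sum_nonneg fun B _ => Finset.sum_nonneg fun x _ =>
      mul_nonneg (by positivity) (WbJ_nonneg _ _ _ _ _ _ _ _ _)
  -- the classes of `g`
  have hmaps : ∀ p ∈ P, gc p.1 p.2.2 ∈ S B1 := by
    intro p hp
    obtain ⟨B', m', e1, e2, hg, hgs, -⟩ := hstr p hp
    obtain ⟨⟨h1, -, -⟩, -, -⟩ := hPm p hp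
    rw [mem_S hB0]
    refine ⟨le_trans ?_ (hBs _ h1).2.2, hg, hgs⟩
    exact_mod_cast Div277.nm_le_of_dvd (hBs _ h1).1.ne_zero ⟨B', e1⟩
  set T : Eis → Eis → ℂ := fun g s => ∑ p ∈ P.filter (fun p => gc p.1 p.2.2 = g),
    β p * (sy s (p.2.2 * p.2.1 ^ 2) * conj (sy s p.1)) with hT
  have h1 : ∀ s ∈ A, ‖VJ κ b c Bs Bk Z n v y z s‖ ^ 2 ≤
      (∑ g ∈ S B1, ((nm g : ℝ))⁻¹) * ∑ g ∈ S B1, (nm g : ℝ) * ‖T g s‖ ^ 2 := by
    intro s _
    have e1 : ∑ p ∈ P, β p * (sy s (p.2.2 * p.2.1 ^ 2) * conj (sy s p.1)) =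
        ∑ g ∈ S B1, T g s := by
      rw [← Finset.sum_fiberwise_of_maps_to hmaps]
    rw [VJ_eq hZ0 hn hy hz (fun B hB => (hBs B hB).1) (fun x hx => (hBk x hx).1), norm_mul, mul_pow]
    rw [← hP, ← hβ, e1]
    calc _ ≤ 1 * ‖∑ g ∈ S B1, T g s‖ ^ 2 := by
          refine mul_le_mul_of_nonneg_right ?_ (by positivity)
          exact pow_le_one₀ (norm_nonneg _) (norm_sy_le' hqp)
      _ = ‖∑ g ∈ S B1, T g s‖ ^ 2 := one_mul _
      _ ≤ _ := cauchy_w (S B1) (fun g => (nm g : ℝ)) (fun g hg => by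
          have := nm_ge_one ((mem_S hB0).mp hg).2.1
          linarith) _
  set Q : Eis → ℝ := fun g => Z * B1 / (G * nm q * (nm g : ℝ) ^ 2) with hQ
  set Tb : ℝ := Ct * (Z * B1) ^ δ with hTb
  have hTb0 : 0 ≤ Tb := by rw [hTb]; positivity
  -- the large sieve for `g`
  have h2 : ∀ g ∈ S B1, ∑ s ∈ A, ‖T g s‖ ^ 2 ≤
      K * (R / ((nm z : ℝ) * nm y) + Q g ^ 2) *
        (Tb * ∑ p ∈ P.filter (fun p => gc p.1 p.2.2 = g), ‖β p‖ ^ 2) := by
    intro g hg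
    obtain ⟨hgB, hg1, hgs⟩ := (mem_S hB0).mp hg
    have hng : (1 : ℝ) ≤ nm g := nm_ge_one hg1
    have hrhs : 0 ≤ K * (R / ((nm z : ℝ) * nm y) + Q g ^ 2) *
        (Tb * ∑ p ∈ P.filter (fun p => gc p.1 p.2.2 = g), ‖β p‖ ^ 2) := by positivity
    rcases A.eq_empty_or_nonempty with hAe | hAne
    · rw [hAe, Finset.sum_empty]; exact hrhs
    rcases (P.filter (fun p => gc p.1 p.2.2 = g)).eq_empty_or_nonempty with hPe | hPne
    · have : ∀ s ∈ A, ‖T g s‖ ^ 2 = 0 := by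
        intro s _
        rw [hT]
        simp only
        rw [hPe, Finset.sum_empty, norm_zero]
        norm_num
      rw [Finset.sum_congr rfl this, Finset.sum_const_zero]; exact hrhs
    have hSA : ∀ s ∈ A, IsPrim s ∧ (nm s : ℝ) ≤ R / ((nm z : ℝ) * nm y) := by
      intro s hs
      rw [hA, Finset.mem_filter, mem_S hR0, mem_S hR0] at hs
      refine ⟨hs.1.2.1, ?_⟩
      rw [le_div_iff₀ (by positivity)]
      have := hs.2.1
      simp only [nm_mul] at this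
      push_cast at this
      linarith
    have hC1 : 1 ≤ R / ((nm z : ℝ) * nm y) := by
      obtain ⟨s, hs⟩ := hAne
      obtain ⟨h1, h3⟩ := hSA s hs
      exact le_trans (nm_ge_one h1) h3
    have hPg : ∀ p ∈ P.filter (fun p => gc p.1 p.2.2 = g), ∃ B' m' : Eis, p.1 = g * B' ∧
        p.2.2 = g * m' ∧ IsPrim B' ∧ IsPrim m' ∧ IsPrim p.2.1 ∧ Squarefree m' ∧
        Squarefree (p.2.1 * B') ∧ IsCoprime m' (p.2.1 * B') ∧
        (nm m' : ℝ) * nm (p.2.1 * B') ≤ Q g ∧ (tau (p.2.1 * B') : ℝ) ≤ Tb := by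
      intro p hp
      rw [Finset.mem_filter] at hp
      obtain ⟨B', m', e1, e2, a1, a2, a3, a4, a5, a6, a7, -⟩ := hstr p hp.1
      rw [hp.2] at e1 e2
      obtain ⟨⟨h1, h2, h3⟩, h4, h5⟩ := hPm p hp.1
      obtain ⟨b1, b2, b3⟩ := hBs _ h1
      obtain ⟨c1, c2, c3⟩ := hBk _ h2
      have hm'1 : (1 : ℝ) ≤ nm m' := nm_ge_one a4
      have hB'1 : (1 : ℝ) ≤ nm B' := nm_ge_one a3
      have hx1 : (1 : ℝ) ≤ nm p.2.1 := nm_ge_one c1
      have hsz : (nm m' : ℝ) * nm (p.2.1 * B') ≤ Q g := by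
        have h6 := h4.2
        rw [QQ_xm, nm_mul, nm_mul, nm_pow, e2, nm_mul] at h6
        push_cast at h6
        rw [← hq] at h6
        have h7 := b3
        rw [e1, nm_mul] at h7
        push_cast at h7
        simp only [hQ]
        rw [le_div_iff₀ (by positivity), nm_mul]
        push_cast
        have h8 : ((nm g : ℝ) * nm m' * (nm p.2.1 : ℝ) ^ 2 * nm q) * ((nm g : ℝ) * nm B') ≤
            Z * B1 := mul_le_mul h6 h7 (by positivity) hZ0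
        calc (nm m' : ℝ) * ((nm p.2.1 : ℝ) * nm B') * (G * nm q * (nm g : ℝ) ^ 2)
            = (nm m' : ℝ) * (nm p.2.1 : ℝ) * nm B' * nm q * (nm g : ℝ) ^ 2 * G := by ring
          _ ≤ (nm m' : ℝ) * (nm p.2.1 : ℝ) * nm B' * nm q * (nm g : ℝ) ^ 2 * nm p.2.1 := by
              gcongr
          _ = ((nm g : ℝ) * nm m' * (nm p.2.1 : ℝ) ^ 2 * nm q) * ((nm g : ℝ) * nm B') := by ring
          _ ≤ Z * B1 := h8
      refine ⟨B', m', e1, e2, a3, a4, c1, a5, a6, a7, hsz, ?_⟩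
      refine (hCt _ (c1.mul a3).ne_zero).trans ?_
      rw [hTb]
      refine mul_le_mul_of_nonneg_left (Real.rpow_le_rpow (by positivity) ?_ hδ0.le) (by linarith)
      have h9 : Q g ≤ Z * B1 := by
        simp only [hQ]
        refine div_le_self (by positivity) ?_
        exact one_le_mul_of_one_le_of_one_le (one_le_mul_of_one_le_of_one_le hG hq1)
          (one_le_pow₀ hng)
      have h10 : (nm (p.2.1 * B') : ℝ) ≤ (nm m' : ℝ) * nm (p.2.1 * B') :=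
        le_mul_of_one_le_left (by positivity) hm'1
      linarith
    have hD1 : 1 ≤ Q g := by
      obtain ⟨p, hp⟩ := hPne
      obtain ⟨B', m', e1, e2, a3, a4, c1, a5, a6, a7, hsz, -⟩ := hPg p hp
      refine le_trans ?_ hsz
      exact one_le_mul_of_one_le_of_one_le (nm_ge_one a4) (nm_ge_one (c1.mul a3))
    exact hLS _ _ Tb hC1 hD1 A hSA g hg1 _ hPg β
  -- the coefficients
  have h3 : ∀ g ∈ S B1, ∑ p ∈ P.filter (fun p => gc p.1 p.2.2 = g), ‖β p‖ ^ 2 ≤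
      ((nm z : ℝ) * nm y * nm n) *
        ∑ B ∈ Bs, ∑ x ∈ Bk, (nm x : ℝ) * WbJ b c Z g B n x y z := by
    intro g _
    have e1 : ∑ B ∈ Bs, ∑ x ∈ Bk, (nm x : ℝ) * WbJ b c Z g B n x y z =
        ∑ p ∈ Bs ×ˢ Bk ×ˢ S Z, (nm p.2.1 : ℝ) * (if GG Z n p.2.1 y z p.2.2 then
          wJ b c g p.1 p.2.1 y (QQ n p.2.1 y z p.2.2) else 0) := by
      simp only [Finset.sum_product]
      refine Finset.sum_congr rfl fun B _ => Finset.sum_congr rfl fun x _ => ?_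
      unfold WbJ
      rw [Finset.mul_sum]
    rw [e1, Finset.mul_sum]
    refine le_trans (Finset.sum_le_sum (g := fun p => ((nm z : ℝ) * nm y * nm n) *
      ((nm p.2.1 : ℝ) * (if GG Z n p.2.1 y z p.2.2 then
          wJ b c g p.1 p.2.1 y (QQ n p.2.1 y z p.2.2) else 0))) fun p hp => ?_) ?_
    · rw [Finset.mem_filter] at hp
      obtain ⟨⟨k1, k2, k3⟩, k4, k5⟩ := hPm p hp.1
      obtain ⟨B', m', -, -, -, -, -, -, -, -, -, hGB⟩ := hstr p hp.1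
      rw [hp.2] at hGB
      obtain ⟨b1, b2, b3⟩ := hBs _ k1
      obtain ⟨c1, c2, c3⟩ := hBk _ k2
      obtain ⟨d1, d2, d3⟩ := (mem_S hZ0).mp k3
      rw [if_pos k4]
      have hw : wJ b c g p.1 p.2.1 y (QQ n p.2.1 y z p.2.2) =
          wt (b p.1) (c p.1) p.2.1 y (QQ n p.2.1 y z p.2.2) := by
        unfold wJ
        rw [if_pos hGB]
      rw [hw]
      have hg := gs_bd hκ hn c1 hy hz d2 k4.1
      have hQp : IsPrim (QQ n p.2.1 y z p.2.2) := by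
        rw [QQ_xm]
        exact (d2.mul (c1.pow 2)).mul hqp
      have hsy : ‖sy (v ^ 2) (QQ n p.2.1 y z p.2.2)‖ ≤ 1 := norm_sy_le' hQp
      have hsB : ‖sy (z * y) p.1‖ ≤ 1 := norm_sy_le' b1
      rw [hβ]
      unfold bJ wt
      simp only [norm_mul, RCLike.norm_conj]
      set N1 := ‖gs (κ * ((z * (y * n)) * (p.2.1 * (y * n)))) (QQ n p.2.1 y z p.2.2)‖ with hN1'
      set N2 := ‖sy (v ^ 2) (QQ n p.2.1 y z p.2.2)‖ with hN2'
      set N3 := ‖sy (z * y) p.1‖ with hN3'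
      set N4 := ‖b p.1 (QQ n p.2.1 y z p.2.2)‖ with hN4'
      set N5 := ‖CS (sub (c p.1) (p.2.1 * y)) (QQ n p.2.1 y z p.2.2)‖ with hN5'
      calc (N3 * (N4 * (N1 * N2) * N5)) ^ 2
          = N4 ^ 2 * N5 ^ 2 * (N1 ^ 2 * (N2 ^ 2 * N3 ^ 2)) := by ring
        _ ≤ N4 ^ 2 * N5 ^ 2 * (((nm (QQ n p.2.1 y z p.2.2) : ℝ) *
            ((nm p.2.1 : ℝ) * nm z * nm y * nm n)) * (1 * 1)) := by
            gcongr
            · exact pow_le_one₀ (norm_nonneg _) hsy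
            · exact pow_le_one₀ (norm_nonneg _) hsB
        _ = _ := by ring
    · refine Finset.sum_le_sum_of_subset_of_nonneg ?_ ?_
      · exact (Finset.filter_subset _ _).trans (Finset.filter_subset _ _)
      · intro p _ _
        refine mul_nonneg (by positivity) (mul_nonneg (by positivity) ?_)
        split_ifs
        · exact wJ_nonneg _ _ _ _ _ _ _
        · exact le_rfl
  -- the weight
  have hW : ∀ g ∈ S B1, (R / ((nm z : ℝ) * nm y) + Q g ^ 2) * ((nm z : ℝ) * nm y) ≤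
      R + (Z / (nm n : ℝ) ^ 3 * B1 / (G * (nm g : ℝ) ^ 2)) ^ 2 := by
    intro g hg
    have hng : (1 : ℝ) ≤ nm g := nm_ge_one ((mem_S hB0).mp hg).2.1
    have t1 : R / ((nm z : ℝ) * nm y) * ((nm z : ℝ) * nm y) = R := by field_simp
    have t2 : Q g ^ 2 * ((nm z : ℝ) * nm y) ≤
        (Z / (nm n : ℝ) ^ 3 * B1 / (G * (nm g : ℝ) ^ 2)) ^ 2 := by
      have e : Q g ^ 2 = (Z / (nm n : ℝ) ^ 3 * B1 / (G * (nm g : ℝ) ^ 2)) ^ 2 /
          ((nm z : ℝ) ^ 2 * (nm y : ℝ) ^ 3) ^ 2 := by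
        simp only [hQ]
        rw [hnq]
        field_simp
      rw [e, div_mul_eq_mul_div, div_le_iff₀ (by positivity)]
      apply mul_le_mul_of_nonneg_left _ (by positivity)
      have h1 : (nm z : ℝ) * nm y ≤ (nm z : ℝ) ^ 2 * (nm y : ℝ) ^ 3 := by
        have a1 : (nm z : ℝ) ≤ (nm z : ℝ) ^ 2 := by nlinarith
        have a2 : (nm y : ℝ) ≤ (nm y : ℝ) ^ 3 := by
          calc (nm y : ℝ) = (nm y : ℝ) ^ 1 := (pow_one _).symm
            _ ≤ _ := pow_le_pow_right₀ hY1 (by norm_num)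
        exact mul_le_mul a1 a2 (by positivity) (by positivity)
      have h2 : (1 : ℝ) ≤ (nm z : ℝ) ^ 2 * (nm y : ℝ) ^ 3 :=
        one_le_mul_of_one_le_of_one_le (one_le_pow₀ hZ1) (one_le_pow₀ hY1)
      nlinarith
    rw [add_mul, t1]; linarith
  -- conclusion
  have hCi' : ∑ g ∈ S B1, ((nm g : ℝ))⁻¹ ≤ Ci * (Z * B1) ^ δ := by
    refine (hCi B1 hB1).trans (mul_le_mul_of_nonneg_left ?_ (by linarith))
    exact Real.rpow_le_rpow hB0 (le_mul_of_one_le_left hB0 hZ) hδ0.le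
  have hS0 : 0 ≤ ∑ g ∈ S B1, (nm g : ℝ) * ∑ s ∈ A, ‖T g s‖ ^ 2 :=
    Finset.sum_nonneg fun g _ => mul_nonneg (by positivity)
      (Finset.sum_nonneg fun _ _ => by positivity)
  have hZB0 : 0 ≤ (Z * B1) ^ δ := by positivity
  calc ∑ s ∈ A, ‖VJ κ b c Bs Bk Z n v y z s‖ ^ 2
      ≤ ∑ s ∈ A, (∑ g ∈ S B1, ((nm g : ℝ))⁻¹) * ∑ g ∈ S B1, (nm g : ℝ) * ‖T g s‖ ^ 2 :=
        Finset.sum_le_sum h1
    _ = (∑ g ∈ S B1, ((nm g : ℝ))⁻¹) * ∑ g ∈ S B1, (nm g : ℝ) * ∑ s ∈ A, ‖T g s‖ ^ 2 := by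
        rw [← Finset.mul_sum, Finset.sum_comm]
        congr 1
        exact Finset.sum_congr rfl fun g _ => (Finset.mul_sum _ _ _).symm
    _ ≤ (Ci * (Z * B1) ^ δ) * ∑ g ∈ S B1, (nm g : ℝ) * ∑ s ∈ A, ‖T g s‖ ^ 2 :=
        mul_le_mul_of_nonneg_right hCi' hS0
    _ ≤ (Ci * (Z * B1) ^ δ) * ∑ g ∈ S B1, (nm g : ℝ) *
          (K * (R / ((nm z : ℝ) * nm y) + Q g ^ 2) * (Tb * (((nm z : ℝ) * nm y * nm n) *
            ∑ B ∈ Bs, ∑ x ∈ Bk, (nm x : ℝ) * WbJ b c Z g B n x y z))) := by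
        refine mul_le_mul_of_nonneg_left ?_ (by positivity)
        refine Finset.sum_le_sum fun g hg => mul_le_mul_of_nonneg_left ?_ (by positivity)
        refine (h2 g hg).trans (mul_le_mul_of_nonneg_left ?_ (by positivity))
        exact mul_le_mul_of_nonneg_left (h3 g hg) hTb0
    _ = (Ci * (Z * B1) ^ δ) * (K * Tb * nm n) * ∑ g ∈ S B1, (nm g : ℝ) *
          (((R / ((nm z : ℝ) * nm y) + Q g ^ 2) * ((nm z : ℝ) * nm y)) *
            ∑ B ∈ Bs, ∑ x ∈ Bk, (nm x : ℝ) * WbJ b c Z g B n x y z) := by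
        rw [mul_assoc (Ci * (Z * B1) ^ δ)]
        congr 1
        rw [Finset.mul_sum]
        exact Finset.sum_congr rfl fun g _ => by ring
    _ ≤ (Ci * (Z * B1) ^ δ) * (K * Tb * nm n) * ∑ g ∈ S B1, (nm g : ℝ) *
          ((R + (Z / (nm n : ℝ) ^ 3 * B1 / (G * (nm g : ℝ) ^ 2)) ^ 2) *
            ∑ B ∈ Bs, ∑ x ∈ Bk, (nm x : ℝ) * WbJ b c Z g B n x y z) := by
        refine mul_le_mul_of_nonneg_left ?_ (by positivity)
        refine Finset.sum_le_sum fun g hg => mul_le_mul_of_nonneg_left ?_ (by positivity)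
        exact mul_le_mul_of_nonneg_right (hW g hg) (hin0 g)
    _ = (K * Ct * Ci) * ((Z * B1) ^ δ * (Z * B1) ^ δ) * nm n * ∑ g ∈ S B1, (nm g : ℝ) *
          (R + (Z / (nm n : ℝ) ^ 3 * B1 / (G * (nm g : ℝ) ^ 2)) ^ 2) *
          ∑ B ∈ Bs, ∑ x ∈ Bk, (nm x : ℝ) * WbJ b c Z g B n x y z := by
        rw [hTb]
        have : ∀ g : Eis, (nm g : ℝ) *
          ((R + (Z / (nm n : ℝ) ^ 3 * B1 / (G * (nm g : ℝ) ^ 2)) ^ 2) *
            ∑ B ∈ Bs, ∑ x ∈ Bk, (nm x : ℝ) * WbJ b c Z g B n x y z) = (nm g : ℝ) *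
          (R + (Z / (nm n : ℝ) ^ 3 * B1 / (G * (nm g : ℝ) ^ 2)) ^ 2) *
          ∑ B ∈ Bs, ∑ x ∈ Bk, (nm x : ℝ) * WbJ b c Z g B n x y z := fun g => by ring
        simp only [this]
        ring
    _ = _ := by
        rw [← Real.rpow_add (by positivity)]
        have : δ + δ = ε := by rw [hδ]; ring
        rw [this]

end Crest.Agent.R017.H1401
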