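import Crest.Agent.R017.H1a_401

/-!
# Row 17, block C70, leaf E2, input (H1) (helper401), part b: the splitting identity
-/

set_option autoImplicit false

noncomputable section

open Finset
open scoped ComplexConjugate

namespace Crest.Agent.R017.H1401

open Crest.Agent.R012 Crest.Agent.R012.Eis Crest.Agent.R012.LS2 Crest.Agent.R012.GaussLoc283
open Crest.Agent.R012.Div277 (tau dvs mem_dvs tau_le_rpow)
open Crest.Agent.R017.CM106

/-- all primary elements of norm at most `Z` -/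
def pb (Z : ℝ) : Finset Eis := primBall ⌊Z⌋₊

lemma mem_pb {Z : ℝ} (hZ : 0 ≤ Z) {d : Eis} : d ∈ pb Z ↔ (nm d : ℝ) ≤ Z ∧ IsPrim d := by
  unfold pb
  rw [mem_primBall, Nat.le_floor_iff hZ]

/-- squarefree `q` splits with respect to `d` -/
lemma split_pt {d q : Eis} (hq : IsPrim q) (hs : Squarefree q) :
    ∃ E m, IsPrim E ∧ IsPrim m ∧ q = E * m ∧ E ∣ d ∧ IsCoprime m d := by
  obtain ⟨g, l₁, u₁, hg, hu₁, h1, h2, hc⟩ := X6D502.exists_gcd d hq
  refine ⟨g, u₁, hg, hu₁, h2, ⟨l₁, h1⟩, ?_⟩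
  rw [h1]
  rw [h2] at hs
  exact (((squarefree_mul_iff.mp hs).1.isCoprime).symm).mul_right hc.symm

lemma split_unique {d E m E' m' : Eis} (hE : IsPrim E) (hE' : IsPrim E') (h : E * m = E' * m')
    (hd : E ∣ d) (hd' : E' ∣ d) (hc : IsCoprime m d) (hc' : IsCoprime m' d) :
    E = E' ∧ m = m' := by
  obtain ⟨l, hl⟩ := hd
  obtain ⟨l', hl'⟩ := hd'
  have h1 : IsCoprime l m :=
    (hc.of_isCoprime_of_dvd_right (hl ▸ dvd_mul_left l E)).symm
  have h2 : IsCoprime l' m' :=
    (hc'.of_isCoprime_of_dvd_right (hl' ▸ dvd_mul_left l' E')).symm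
  have := X6D502.gcd_unique hE hE' (hl.symm.trans hl') h h1 h2
  exact ⟨this.1, this.2.2⟩

/-- **splitting of the coefficient sum** -/
theorem split_D {c : Eis → ℂ} (hc : FS c) (hs : ∀ D, c D ≠ 0 → Squarefree D) (u : Eis) {d : Eis}
    (hd : IsPrim d) :
    ∑' D : Eis, c D * conj (gs (u * D) d) =
      ∑ E ∈ dvs d, conj (gs (u * E) d) * CS (sub c E) d := by
  classical
  set Sf := hc.fin.toFinset with hSf
  obtain ⟨N, hN⟩ : ∃ N : ℕ, ∀ D ∈ Sf, nm D ≤ N :=
    ⟨Sf.sup nm, fun D hD => Finset.le_sup (f := nm) hD⟩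
  have e1 : ∑' D : Eis, c D * conj (gs (u * D) d) = ∑ D ∈ Sf, c D * conj (gs (u * D) d) := by
    refine tsum_eq_sum fun D hD => ?_
    have : c D = 0 := by
      by_contra h
      exact hD (by rw [hSf, Set.Finite.mem_toFinset]; exact h)
    rw [this, zero_mul]
  have e2 : ∀ E ∈ dvs d, CS (sub c E) d = ∑ m ∈ primBall N, c (E * m) * sy d m := by
    intro E hE
    have hE' := (mem_dvs hd.ne_zero).mp hE
    unfold CS
    refine tsum_eq_sum fun m hm => ?_
    have : sub c E m = 0 := by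
      by_contra h
      have h' : c (E * m) ≠ 0 := h
      have hp : IsPrim m := (hc.prim _ h').of_mul_left hE'.1
      apply hm
      rw [mem_primBall]
      refine ⟨?_, hp⟩
      have h2 := hN (E * m) (by rw [hSf, Set.Finite.mem_toFinset]; exact h')
      rw [nm_mul] at h2
      exact le_trans (Nat.le_mul_of_pos_left _ (nm_pos.mpr hE'.1.ne_zero)) h2
    rw [this, zero_mul]
  rw [e1]
  have e3 : ∑ E ∈ dvs d, conj (gs (u * E) d) * CS (sub c E) d =
      ∑ x ∈ dvs d ×ˢ primBall N, conj (gs (u * x.1) d) * (c (x.1 * x.2) * sy d x.2) := by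
    rw [Finset.sum_product]
    refine Finset.sum_congr rfl fun E hE => ?_
    rw [e2 E hE, Finset.mul_sum]
  rw [e3]
  symm
  have hval : ∀ x : Eis × Eis, x ∈ dvs d ×ˢ primBall N →
      conj (gs (u * x.1) d) * (c (x.1 * x.2) * sy d x.2) ≠ 0 →
      IsPrim x.1 ∧ x.1 ∣ d ∧ IsPrim x.2 ∧ IsCoprime x.2 d ∧ c (x.1 * x.2) ≠ 0 := by
    intro x hx hne
    rw [Finset.mem_product, mem_dvs hd.ne_zero, mem_primBall] at hx
    refine ⟨hx.1.1, hx.1.2, hx.2.2, ?_, left_ne_zero_of_mul (right_ne_zero_of_mul hne)⟩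
    have h1 : sy d x.2 ≠ 0 := right_ne_zero_of_mul (right_ne_zero_of_mul hne)
    by_contra hcop
    exact h1 ((Sym645.syFacts.eq_zero d x.2 hx.2.2).2 fun h => hcop h.symm)
  refine Finset.sum_bij_ne_zero (fun x _ _ => x.1 * x.2) ?_ ?_ ?_ ?_
  · intro x hx hne
    rw [hSf, Set.Finite.mem_toFinset]
    exact (hval x hx hne).2.2.2.2
  · intro x hx hne x' hx' hne' h
    obtain ⟨a1, a2, a3, a4, a5⟩ := hval x hx hne
    obtain ⟨b1, b2, b3, b4, b5⟩ := hval x' hx' hne'
    have := split_unique a1 b1 h a2 b2 a4 b4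
    exact Prod.ext this.1 this.2
  · intro D hD hne
    have hcD : c D ≠ 0 := left_ne_zero_of_mul hne
    obtain ⟨E, m, hE, hm, hq, hEd, hmd⟩ := split_pt (d := d) (hc.prim D hcD) (hs D hcD)
    refine ⟨(E, m), ?_, ?_, hq.symm⟩
    · rw [Finset.mem_product, mem_dvs hd.ne_zero, mem_primBall]
      refine ⟨⟨hE, hEd⟩, ?_, hm⟩
      have h2 := hN D hD
      rw [hq, nm_mul] at h2
      exact le_trans (Nat.le_mul_of_pos_left _ (nm_pos.mpr hE.ne_zero)) h2
    · have h3 : gs (u * D) d = conj (sy m d) * gs (u * E) d := by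
        rw [hq, ← mul_assoc]; exact gs_mul_left syAx _ hd hmd
      rw [h3, syAx.recip m d hm hd, hq] at hne
      intro h0
      apply hne
      rw [map_mul, Complex.conj_conj]
      have : conj (gs (u * E) d) * (c (E * m) * sy d m) = 0 := h0
      rw [← this]; ring
  · intro x hx hne
    obtain ⟨a1, a2, a3, a4, a5⟩ := hval x hx hne
    have h3 : gs (u * (x.1 * x.2)) d = conj (sy x.2 d) * gs (u * x.1) d := by
      rw [← mul_assoc]; exact gs_mul_left syAx _ hd a4
    rw [h3, syAx.recip x.2 d a3 hd, map_mul, Complex.conj_conj]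
    ring

end Crest.Agent.R017.H1401
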