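import Crest.Agent.R017.H1b_401

/-!
# Row 17, block C70, leaf E2, input (H1) (helper401), part c: the master identity
-/

set_option autoImplicit false

noncomputable section

open Finset
open scoped ComplexConjugate

namespace Crest.Agent.R017.H1401

open Crest.Agent.R012 Crest.Agent.R012.Eis Crest.Agent.R012.LS2 Crest.Agent.R012.GaussLoc283
open Crest.Agent.R012.Div277 (tau dvs mem_dvs tau_le_rpow)
open Crest.Agent.R017.CM106

/-- no primary prime divides `κ` -/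
def Cp (κ : Eis) : Prop := ∀ p : Eis, Prime p → IsPrim p → ¬ p ∣ κ

lemma Cp.coprime {κ : Eis} (h : Cp κ) {d : Eis} (hd : IsPrim d) : IsCoprime κ d := by
  have key : ∀ c, Sx545.Sm 1 c → IsCoprime κ c := by
    refine Sx545.Sm.induction_coprime (m := 1) isCoprime_one_right ?_
    intro p j b hpS hpp _ _ _ ih
    exact (((isCoprime_iff_not_dvd hpp κ).mpr (h p hpp hpS.prim)).pow_right).mul_right ih
  exact key d (Sx545.sm_one_iff.mpr hd)

/-- the denominator -/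
def QQ (n x y z m : Eis) : Eis := m * (x ^ 2 * z ^ 2 * (y * n) ^ 3)

/-- index tuples `(n, v, x, y, z, s, m)` -/
abbrev Tup := Eis × Eis × Eis × Eis × Eis × Eis × Eis

/-- the denominator of a tuple -/
def dT (p : Tup) : Eis := QQ p.1 p.2.2.1 p.2.2.2.1 p.2.2.2.2.1 p.2.2.2.2.2.2

/-- the condition -/
def Cnd (r ν : Eis) (Z : ℝ) (p : Tup) : Prop :=
  p.1 * p.2.1 = ν ∧ (p.2.2.2.2.1 * p.2.2.2.1) * p.2.2.2.2.2.1 = r ∧
    Squarefree (p.2.2.2.2.2.2 * (p.2.2.1 * ((p.2.2.2.1 * p.1) * p.2.2.2.2.1))) ∧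
    (nm (dT p) : ℝ) ≤ Z

/-- the term -/
def TT (κ : Eis) (b c : Eis → ℂ) (p : Tup) : ℂ :=
  b (dT p) * (conj (gs (κ * ((p.2.2.2.2.1 * (p.2.2.2.1 * p.1)) * (p.2.2.1 * (p.2.2.2.1 * p.1))))
    (dT p)) * sy (p.2.2.2.2.2.1 * p.2.1 ^ 2) (dT p)) * CS (sub c (p.2.2.1 * p.2.2.2.1)) (dT p)

/-- the index set -/
def II (ν : Eis) (R Z X : ℝ) : Finset Tup :=
  dvs ν ×ˢ dvs ν ×ˢ S X ×ˢ S X ×ˢ S R ×ˢ S R ×ˢ S Z

lemma isCoprime_of_sy_ne_zero {a d : Eis} (hd : IsPrim d) (h : sy a d ≠ 0) : IsCoprime a d := by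
  by_contra hc
  exact h ((Sym645.syFacts.eq_zero a d hd).2 hc)

lemma dvd_of_coprime_mul {n x z y : Eis} (hxz : IsCoprime x z) (h1 : n ∣ x * y) (h2 : n ∣ z * y) :
    n ∣ y := by
  obtain ⟨a, b, hab⟩ := hxz
  have : y = a * (x * y) + b * (z * y) := by linear_combination (-y) * hab
  rw [this]
  exact dvd_add (h1.mul_left a) (h2.mul_left b)

open Classical in
/-- **master identity** -/
theorem master {R Z X : ℝ} (hR : 1 ≤ R) (hZ : 1 ≤ Z) (hX : 1 ≤ X) {κ ν : Eis} (hκ : Cp κ)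
    (hν : IsPrim ν) (hνs : Squarefree ν) {c b : Eis → ℂ} (hc : FS c)
    (hs : ∀ D, c D ≠ 0 → Squarefree D ∧ (nm D : ℝ) ≤ X ∧ IsCoprime D ν) {r : Eis}
    (hr : r ∈ S R) (hrν : IsCoprime r ν) :
    ∑ d ∈ pb Z, b d * ∑' D : Eis, c D * conj (gs (κ * r * ν ^ 2 * D) d) =
      ∑ p ∈ II ν R Z X, if Cnd r ν Z p then TT κ b c p else 0 := by
  have hR0 : (0 : ℝ) ≤ R := by linarith
  have hZ0 : (0 : ℝ) ≤ Z := by linarith
  have hX0 : (0 : ℝ) ≤ X := by linarith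
  obtain ⟨hrR, hrp, hrs⟩ := (mem_S hR0).mp hr
  have e1 : ∑ d ∈ pb Z, b d * ∑' D : Eis, c D * conj (gs (κ * r * ν ^ 2 * D) d) =
      ∑ q ∈ (pb Z ×ˢ pb Z).filter (fun q => q.2 ∣ q.1),
        b q.1 * (conj (gs (κ * r * ν ^ 2 * q.2) q.1) * CS (sub c q.2) q.1) := by
    rw [Finset.sum_filter, Finset.sum_product]
    refine Finset.sum_congr rfl fun d hd => ?_
    have hd' := (mem_pb hZ0).mp hd
    rw [split_D hc (fun D hD => (hs D hD).1) _ hd'.2, Finset.mul_sum, ← Finset.sum_filter]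
    refine Finset.sum_congr ?_ fun _ _ => rfl
    ext E
    rw [mem_dvs hd'.2.ne_zero, Finset.mem_filter, mem_pb hZ0]
    constructor
    · rintro ⟨h1, h2⟩
      exact ⟨⟨le_trans (by exact_mod_cast Div277.nm_le_of_dvd hd'.2.ne_zero h2) hd'.1, h1⟩, h2⟩
    · rintro ⟨⟨_, h1⟩, h2⟩
      exact ⟨h1, h2⟩
  rw [e1, ← Finset.sum_filter]
  symm
  -- facts on tuples
  have hval : ∀ p : Tup, p ∈ (II ν R Z X).filter (Cnd r ν Z) → TT κ b c p ≠ 0 →
      (IsPrim p.1 ∧ IsPrim p.2.1 ∧ IsPrim p.2.2.1 ∧ IsPrim p.2.2.2.1 ∧ IsPrim p.2.2.2.2.1 ∧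
        IsPrim p.2.2.2.2.2.1 ∧ IsPrim p.2.2.2.2.2.2) ∧ IsPrim (dT p) ∧
      IsCoprime p.2.1 (dT p) ∧ IsCoprime p.2.2.2.2.2.1 (dT p) ∧
      IsCoprime (p.2.2.2.2.2.1 * p.2.1 ^ 2) (dT p) ∧ Cnd r ν Z p := by
    intro p hp hne
    rw [Finset.mem_filter] at hp
    obtain ⟨hpI, hC⟩ := hp
    unfold II at hpI
    simp only [Finset.mem_product] at hpI
    obtain ⟨h1, h2, h3, h4, h5, h6, h7⟩ := hpI
    rw [mem_dvs hν.ne_zero] at h1 h2
    rw [mem_S hX0] at h3 h4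
    rw [mem_S hR0] at h5 h6
    rw [mem_S hZ0] at h7
    have hd : IsPrim (dT p) :=
      h7.2.1.mul (((h3.2.1.pow 2).mul (h5.2.1.pow 2)).mul ((h4.2.1.mul h1.1).pow 3))
    have hcop : IsCoprime (p.2.2.2.2.2.1 * p.2.1 ^ 2) (dT p) := by
      apply isCoprime_of_sy_ne_zero hd
      exact right_ne_zero_of_mul (right_ne_zero_of_mul (left_ne_zero_of_mul hne))
    have hc1 : IsCoprime p.2.2.2.2.2.1 (dT p) := hcop.of_mul_left_left
    have hc2 : IsCoprime p.2.1 (dT p) :=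
      (IsCoprime.pow_left_iff (by norm_num)).mp hcop.of_mul_left_right
    exact ⟨⟨h1.1, h2.1, h3.2.1, h4.2.1, h5.2.1, h6.2.1, h7.2.1⟩, hd, hc2, hc1, hcop, hC⟩
  have heq : ∀ p : Tup, (IsCoprime (p.2.2.2.2.2.1 * p.2.1 ^ 2) (dT p)) → IsPrim (dT p) →
      p.1 * p.2.1 = ν → (p.2.2.2.2.1 * p.2.2.2.1) * p.2.2.2.2.2.1 = r →
      TT κ b c p = b (dT p) * (conj (gs (κ * r * ν ^ 2 * (p.2.2.1 * p.2.2.2.1)) (dT p)) *
        CS (sub c (p.2.2.1 * p.2.2.2.1)) (dT p)) := by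
    intro p hcop hd h1 h2
    have e2 : κ * r * ν ^ 2 * (p.2.2.1 * p.2.2.2.1) =
        (κ * ((p.2.2.2.2.1 * (p.2.2.2.1 * p.1)) * (p.2.2.1 * (p.2.2.2.1 * p.1)))) *
          (p.2.2.2.2.2.1 * p.2.1 ^ 2) := by
      rw [← h1, ← h2]; ring
    rw [e2, gs_mul_left syAx _ hd hcop, map_mul, Complex.conj_conj]
    unfold TT
    ring
  refine Finset.sum_bij_ne_zero (fun p _ _ => (dT p, p.2.2.1 * p.2.2.2.1)) ?_ ?_ ?_ ?_
  · intro p hp hne
    obtain ⟨⟨p1, p2, p3, p4, p5, p6, p7⟩, hd, hc2, hc1, hcop, hC⟩ := hval p hp hne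
    have hdv : p.2.2.1 * p.2.2.2.1 ∣ dT p := by
      unfold dT QQ
      exact ⟨p.2.2.2.2.2.2 * (p.2.2.1 * p.2.2.2.2.1 ^ 2 * (p.2.2.2.1 ^ 2 * p.1 ^ 3)), by ring⟩
    rw [Finset.mem_filter, Finset.mem_product, mem_pb hZ0, mem_pb hZ0]
    exact ⟨⟨⟨hC.2.2.2, hd⟩, le_trans (by exact_mod_cast Div277.nm_le_of_dvd hd.ne_zero hdv)
      hC.2.2.2, p3.mul p4⟩, hdv⟩
  · intro p hp hne q hq hne' h
    obtain ⟨⟨p1, p2, p3, p4, p5, p6, p7⟩, hd, hc2, hc1, hcop, hC⟩ := hval p hp hne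
    obtain ⟨⟨q1, q2, q3, q4, q5, q6, q7⟩, hd', hc2', hc1', hcop', hC'⟩ := hval q hq hne'
    obtain ⟨n, v, x, y, z, s, m⟩ := p
    obtain ⟨n', v', x', y', z', s', m'⟩ := q
    simp only [Prod.mk.injEq] at h
    obtain ⟨hdd, hxy⟩ := h
    unfold Cnd at hC hC'
    simp only [dT] at *
    have a1 : n ∣ QQ n x y z m := ⟨m * (x ^ 2 * z ^ 2 * (y ^ 3 * n ^ 2)), by unfold QQ; ring⟩
    have a2 : n' ∣ QQ n x y z m := hdd ▸ ⟨m' * (x' ^ 2 * z' ^ 2 * (y' ^ 3 * n' ^ 2)), by unfold QQ; ring⟩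
    obtain ⟨f1, f2⟩ := split_unique p1 q1 (hC.1.trans hC'.1.symm) a1 a2 hc2 (hdd ▸ hc2')
    have a3 : z * y ∣ QQ n x y z m := ⟨m * (x ^ 2 * z * (y ^ 2 * n ^ 3)), by unfold QQ; ring⟩
    have a4 : z' * y' ∣ QQ n x y z m :=
      hdd ▸ ⟨m' * (x' ^ 2 * z' * (y' ^ 2 * n' ^ 3)), by unfold QQ; ring⟩
    obtain ⟨f3, f4⟩ := split_unique (p5.mul p4) (q5.mul q4) (hC.2.1.trans hC'.2.1.symm) a3 a4
      hc1 (hdd ▸ hc1')
    have hxz : IsCoprime x z := by
      have h3 : x * z ∣ m * (x * (y * n * z)) := ⟨m * (y * n), by ring⟩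
      exact (squarefree_mul_iff.mp (hC.2.2.1.squarefree_of_dvd h3)).1.isCoprime
    have hxz' : IsCoprime x' z' := by
      have h3 : x' * z' ∣ m' * (x' * (y' * n' * z')) := ⟨m' * (y' * n'), by ring⟩
      exact (squarefree_mul_iff.mp (hC'.2.2.1.squarefree_of_dvd h3)).1.isCoprime
    obtain ⟨f5, f6, f7⟩ := X6D502.gcd_unique (g := y) (g' := y') (l₁ := x) (l₁' := x') (u₁ := z)
      (u₁' := z') p4 q4 (by rw [mul_comm y, mul_comm y']; exact hxy)
      (by rw [mul_comm y, mul_comm y']; exact f3) hxz hxz'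
    subst f1 f2 f4 f5 f6 f7
    have f8 : m = m' := by
      unfold QQ at hdd
      have h0 : x ^ 2 * z ^ 2 * (y * n) ^ 3 ≠ 0 :=
        (((p3.pow 2).mul (p5.pow 2)).mul ((p4.mul p1).pow 3)).ne_zero
      exact mul_right_cancel₀ h0 hdd
    rw [f8]
  · rintro ⟨d, E⟩ hq hne
    simp only at hne
    rw [Finset.mem_filter, Finset.mem_product, mem_pb hZ0, mem_pb hZ0] at hq
    obtain ⟨⟨⟨hdZ, hd⟩, -, hE⟩, hEd⟩ := hq
    simp only at hdZ hd hE hEd
    have hgs : gs (κ * r * ν ^ 2 * E) d ≠ 0 := by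
      intro h0
      apply hne
      rw [h0, map_zero]; ring
    have hCS : CS (sub c E) d ≠ 0 := right_ne_zero_of_mul (right_ne_zero_of_mul hne)
    obtain ⟨m0, hm0⟩ : ∃ m0, c (E * m0) ≠ 0 := by
      by_contra hcon
      push_neg at hcon
      apply hCS
      unfold CS
      rw [tsum_congr (fun m => by
        have : sub c E m = 0 := hcon m
        rw [this, zero_mul]), tsum_zero]
    obtain ⟨g1, g2, g3⟩ := hs _ hm0
    have hEs : Squarefree E := g1.of_mul_left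
    have hEX : (nm E : ℝ) ≤ X := by
      refine le_trans ?_ g2
      exact_mod_cast Div277.nm_le_of_dvd (hc.prim _ hm0).ne_zero (dvd_mul_right E m0)
    have hEν : IsCoprime E ν := g3.of_mul_left_left
    obtain ⟨F, s, hF, hsp, hrF, hFd, hsd⟩ := split_pt (d := d) hrp hrs
    obtain ⟨n, v, hn, hv, hνn, hnd, hvd⟩ := split_pt (d := d) hν hνs
    have hrs' := hrs
    rw [hrF] at hrs'
    have hFs : Squarefree F := hrs'.of_mul_left
    have hνs' := hνs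
    rw [hνn] at hνs'
    have hns : Squarefree n := hνs'.of_mul_left
    have hcop : IsCoprime (s * v ^ 2) d := hsd.mul_left hvd.pow_left
    have hFn : IsCoprime n F := by
      have h3 := hrν
      rw [hrF, hνn] at h3
      exact (h3.of_mul_left_left).of_mul_right_left.symm
    have hEn : IsCoprime n E := by
      have h3 := hEν
      rw [hνn] at h3
      exact h3.of_mul_right_left.symm
    have e2 : κ * r * ν ^ 2 * E = (κ * ((n * F) * (n * E))) * (s * v ^ 2) := by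
      rw [hrF, hνn]; ring
    have hgs2 : gs (κ * ((n * F) * (n * E))) d ≠ 0 := by
      intro h0
      apply hgs
      rw [e2, gs_mul_left syAx _ hd hcop, h0, mul_zero]
    have hnE : Squarefree (n * E) := squarefree_mul_iff.mpr ⟨hEn.isRelPrime, hns, hEs⟩
    have hnF : Squarefree (n * F) := squarefree_mul_iff.mpr ⟨hFn.isRelPrime, hns, hFs⟩
    obtain ⟨x, y', z, m, hx, hy', hz, hm, hsq, k1, k2, k3, -⟩ := gs_str hd κ (n * E) (n * F)
      (hκ.coprime hd) (hn.mul hE) hnE (hEn.mul_dvd hnd hEd) (hn.mul hF) hnF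
      (hFn.mul_dvd hnd hFd) hgs2
    have hxz : IsCoprime x z := by
      have h3 : x * z ∣ m * (x * (y' * z)) := ⟨m * y', by ring⟩
      exact (squarefree_mul_iff.mp (hsq.squarefree_of_dvd h3)).1.isCoprime
    obtain ⟨y, hy⟩ : n ∣ y' := dvd_of_coprime_mul hxz ⟨E, k1.symm⟩ ⟨F, k2.symm⟩
    subst hy
    have hyp : IsPrim y := hy'.of_mul_left hn
    have hExy : E = x * y := by
      apply mul_left_cancel₀ hn.ne_zero
      rw [k1]; ring
    have hFzy : F = z * y := by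
      apply mul_left_cancel₀ hn.ne_zero
      rw [k2]; ring
    have hdT : dT (n, v, x, y, z, s, m) = d := by
      unfold dT QQ
      rw [k3]; ring
    have hCC : Cnd r ν Z (n, v, x, y, z, s, m) := by
      refine ⟨hνn.symm, ?_, ?_, ?_⟩
      · simp only; rw [hrF, hFzy]
      · simp only
        have : m * (x * (y * n * z)) = m * (x * (n * y * z)) := by ring
        rw [this]; exact hsq
      · rw [hdT]; exact hdZ
    have hTT := heq (n, v, x, y, z, s, m) (by rw [hdT]; exact hcop) (by rw [hdT]; exact hd)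
      hνn.symm hCC.2.1
    rw [hdT] at hTT
    simp only at hTT
    rw [← hExy] at hTT
    refine ⟨(n, v, x, y, z, s, m), ?_, ?_, ?_⟩
    · rw [Finset.mem_filter]
      refine ⟨?_, hCC⟩
      unfold II
      simp only [Finset.mem_product]
      have hxs : Squarefree x := hsq.squarefree_of_dvd ⟨m * (n * y * z), by ring⟩
      have hys : Squarefree y := hsq.squarefree_of_dvd ⟨m * (x * (n * z)), by ring⟩
      have hzs : Squarefree z := hsq.squarefree_of_dvd ⟨m * (x * (n * y)), by ring⟩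
      have hms : Squarefree m := hsq.squarefree_of_dvd ⟨x * (n * y * z), by ring⟩
      refine ⟨(mem_dvs hν.ne_zero).mpr ⟨hn, ⟨v, hνn⟩⟩,
        (mem_dvs hν.ne_zero).mpr ⟨hv, ⟨n, by rw [hνn]; ring⟩⟩,
        (mem_S hX0).mpr ⟨?_, hx, hxs⟩, (mem_S hX0).mpr ⟨?_, hyp, hys⟩,
        (mem_S hR0).mpr ⟨?_, hz, hzs⟩, (mem_S hR0).mpr ⟨?_, hsp, ?_⟩,
        (mem_S hZ0).mpr ⟨?_, hm, hms⟩⟩
      · refine le_trans ?_ hEX
        exact_mod_cast Div277.nm_le_of_dvd hE.ne_zero (hExy ▸ dvd_mul_right x y)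
      · refine le_trans ?_ hEX
        exact_mod_cast Div277.nm_le_of_dvd hE.ne_zero (hExy ▸ dvd_mul_left y x)
      · refine le_trans ?_ hrR
        have h5 : z ∣ r := by rw [hrF, hFzy]; exact ⟨y * s, by ring⟩
        exact_mod_cast Div277.nm_le_of_dvd hrp.ne_zero h5
      · refine le_trans ?_ hrR
        have h5 : s ∣ r := by rw [hrF]; exact ⟨F, by ring⟩
        exact_mod_cast Div277.nm_le_of_dvd hrp.ne_zero h5
      · exact hrs'.of_mul_right
      · refine le_trans ?_ hdZ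
        have h5 : m ∣ d := by rw [k3]; exact dvd_mul_right _ _
        exact_mod_cast Div277.nm_le_of_dvd hd.ne_zero h5
    · rw [hTT]
      exact hne
    · rw [hdT, Prod.mk.injEq]
      exact ⟨rfl, hExy.symm⟩
  · intro p hp hne
    obtain ⟨⟨p1, p2, p3, p4, p5, p6, p7⟩, hd, hc2, hc1, hcop, hC⟩ := hval p hp hne
    exact heq p hcop hd hC.1 hC.2.1

end Crest.Agent.R017.H1401
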