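import Crest.Agent.R017.H1c_401
import Crest.Agent.R012.CrossA_869

/-!
# Row 17, block C70, leaf E2, input (H1) (helper401), part d: the large sieve for a fixed tuple
-/

set_option autoImplicit false

noncomputable section

open Finset
open scoped ComplexConjugate

namespace Crest.Agent.R017.H1401

open Crest.Agent.R012 Crest.Agent.R012.Eis Crest.Agent.R012.LS2 Crest.Agent.R012.GaussLoc283
open Crest.Agent.R012.Div277 (tau dvs mem_dvs tau_le_rpow)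
open Crest.Agent.R012.BilG811 (hbB Sq bil_ls)
open Crest.Agent.R017.CM106

lemma sqf_coprime_xz {m x t z : Eis} (h : Squarefree (m * (x * (t * z)))) : IsCoprime x z := by
  have h3 : x * z ∣ m * (x * (t * z)) := ⟨m * t, by ring⟩
  exact (squarefree_mul_iff.mp (h.squarefree_of_dvd h3)).1.isCoprime

/-- the size of the Gauss sum of a tuple -/
lemma gs_bd {κ n x y z m : Eis} (hκ : Cp κ) (hn : IsPrim n) (hx : IsPrim x) (hy : IsPrim y)
    (hz : IsPrim z) (hm : IsPrim m) (hs : Squarefree (m * (x * ((y * n) * z)))) :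
    ‖gs (κ * ((z * (y * n)) * (x * (y * n)))) (QQ n x y z m)‖ ^ 2 ≤
      (nm (QQ n x y z m) : ℝ) * ((nm x : ℝ) * nm z * nm y * nm n) := by
  by_cases h0 : gs (κ * ((z * (y * n)) * (x * (y * n)))) (QQ n x y z m) = 0
  · rw [h0, norm_zero, zero_pow two_ne_zero]; positivity
  have hyn : IsPrim (y * n) := hy.mul hn
  have hd : IsPrim (QQ n x y z m) := hm.mul (((hx.pow 2).mul (hz.pow 2)).mul (hyn.pow 3))
  obtain ⟨x1, y1, z1, m1, hx1, hy1, hz1, hm1, hsq, k1, k2, k3, k4⟩ := gs_str hd κ (x * (y * n))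
    (z * (y * n)) (hκ.coprime hd) (hx.mul hyn)
    (hs.squarefree_of_dvd ⟨m * z, by ring⟩)
    ⟨m * (x * z ^ 2 * (y * n) ^ 2), by unfold QQ; ring⟩ (hz.mul hyn)
    (hs.squarefree_of_dvd ⟨m * x, by ring⟩)
    ⟨m * (x ^ 2 * z * (y * n) ^ 2), by unfold QQ; ring⟩ h0
  have hxz := sqf_coprime_xz hs
  have hxz1 := sqf_coprime_xz hsq
  obtain ⟨f1, f2, f3⟩ := X6D502.gcd_unique (g := y * n) (g' := y1) (l₁ := x) (l₁' := x1) (u₁ := z)
    (u₁' := z1) hyn hy1 (by rw [mul_comm _ x, mul_comm _ x1]; exact k1)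
    (by rw [mul_comm _ z, mul_comm _ z1]; exact k2) hxz hxz1
  have f4 : m1 = m := by
    have h0' : x ^ 2 * z ^ 2 * (y * n) ^ 3 ≠ 0 :=
      (((hx.pow 2).mul (hz.pow 2)).mul (hyn.pow 3)).ne_zero
    apply mul_right_cancel₀ h0'
    rw [← f1, ← f2, ← f3] at k3
    rw [← k3]
    rfl
  rw [f4, ← f1, ← f2, ← f3] at k4
  refine k4.trans (le_of_eq ?_)
  unfold QQ
  simp only [nm_mul, nm_pow]
  push_cast
  ring

/-- condition on `m` -/
def GG (Z : ℝ) (n x y z m : Eis) : Prop :=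
  Squarefree (m * (x * ((y * n) * z))) ∧ (nm (QQ n x y z m) : ℝ) ≤ Z

open Classical in
/-- the inner sum -/
def UU (κ : Eis) (b c : Eis → ℂ) (Z : ℝ) (n v x y z s : Eis) : ℂ :=
  ∑ m ∈ S Z, if GG Z n x y z m then TT κ b c (n, v, x, y, z, s, m) else 0

/-- the weights -/
def wt (b c : Eis → ℂ) (x y d : Eis) : ℝ :=
  (nm d : ℝ) * ‖b d‖ ^ 2 * ‖CS (sub c (x * y)) d‖ ^ 2

lemma wt_nonneg (b c : Eis → ℂ) (x y d : Eis) : 0 ≤ wt b c x y d := by
  unfold wt; positivity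

lemma hbB_weight {ε K R Z X1 Z1 Y1 N1 : ℝ} (hε : 0 < ε) (hK : 0 < K) (hR : 0 ≤ R) (hZ : 0 ≤ Z)
    (hX1 : 1 ≤ X1) (hZ1 : 1 ≤ Z1) (hY1 : 1 ≤ Y1) (hN1 : 1 ≤ N1) :
    hbB ε K (R / (Z1 * Y1)) (Z / (X1 ^ 2 * Z1 ^ 2 * (Y1 * N1) ^ 3)) * (Z1 * Y1) ≤
      K * (R * Z) ^ ε * (R + Z + (R * Z) ^ ((2 : ℝ) / 3)) := by
  unfold hbB
  set P := Z1 * Y1 with hP
  set Q := X1 ^ 2 * Z1 ^ 2 * (Y1 * N1) ^ 3 with hQ
  have hP1 : 1 ≤ P := by rw [hP]; exact one_le_mul_of_one_le_of_one_le hZ1 hY1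
  have hP0 : 0 < P := by linarith
  have hQP : P ^ 2 ≤ Q := by
    rw [hP, hQ]
    have h1 : 1 ≤ X1 ^ 2 := one_le_pow₀ hX1
    have h2 : Y1 ^ 2 ≤ (Y1 * N1) ^ 3 := by
      calc Y1 ^ 2 ≤ Y1 ^ 3 := pow_le_pow_right₀ hY1 (by norm_num)
        _ ≤ (Y1 * N1) ^ 3 := by
          apply pow_le_pow_left₀ (by linarith)
          nlinarith
    calc (Z1 * Y1) ^ 2 = 1 * Z1 ^ 2 * Y1 ^ 2 := by ring
      _ ≤ X1 ^ 2 * Z1 ^ 2 * (Y1 * N1) ^ 3 := by gcongr
  have hQ0 : 0 < Q := lt_of_lt_of_le (by positivity) hQP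
  have hQ1 : 1 ≤ Q := le_trans (one_le_pow₀ hP1) hQP
  have hPQ : P ≤ Q := le_trans (by nlinarith) hQP
  have e0 : R / P * (Z / Q) = R * Z / (P * Q) := by field_simp
  have h1 : (R / P * (Z / Q)) ^ ε ≤ (R * Z) ^ ε := by
    rw [e0]
    apply Real.rpow_le_rpow (by positivity) _ hε.le
    exact div_le_self (by positivity) (one_le_mul_of_one_le_of_one_le hP1 hQ1)
  have h2 : (R / P + Z / Q + (R / P * (Z / Q)) ^ ((2 : ℝ) / 3)) * P ≤
      R + Z + (R * Z) ^ ((2 : ℝ) / 3) := by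
    have t1 : R / P * P = R := by field_simp
    have t2 : Z / Q * P ≤ Z := by
      rw [div_mul_eq_mul_div, div_le_iff₀ hQ0]
      exact mul_le_mul_of_nonneg_left hPQ hZ
    have t3 : (R / P * (Z / Q)) ^ ((2 : ℝ) / 3) * P ≤ (R * Z) ^ ((2 : ℝ) / 3) := by
      rw [e0, Real.div_rpow (by positivity) (by positivity), div_mul_eq_mul_div,
        div_le_iff₀ (by positivity)]
      apply mul_le_mul_of_nonneg_left _ (by positivity)
      calc P = (P ^ (3 : ℝ)) ^ ((1 : ℝ) / 3) := by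
            rw [← Real.rpow_mul hP0.le]; norm_num
        _ ≤ (P * Q) ^ ((1 : ℝ) / 3) := by
            apply Real.rpow_le_rpow (by positivity) _ (by norm_num)
            have : P ^ (3 : ℝ) = P * P ^ 2 := by
              rw [show (3 : ℝ) = ((3 : ℕ) : ℝ) by norm_num, Real.rpow_natCast]; ring
            rw [this]
            exact mul_le_mul_of_nonneg_left hQP hP0.le
        _ ≤ (P * Q) ^ ((2 : ℝ) / 3) := by
            apply Real.rpow_le_rpow_of_exponent_le _ (by norm_num)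
            exact one_le_mul_of_one_le_of_one_le hP1 hQ1
    calc (R / P + Z / Q + (R / P * (Z / Q)) ^ ((2 : ℝ) / 3)) * P =
          R / P * P + Z / Q * P + (R / P * (Z / Q)) ^ ((2 : ℝ) / 3) * P := by ring
      _ ≤ _ := by rw [t1]; linarith
  calc K * (R / P * (Z / Q)) ^ ε * (R / P + Z / Q + (R / P * (Z / Q)) ^ ((2 : ℝ) / 3)) * P =
        K * (R / P * (Z / Q)) ^ ε *
          ((R / P + Z / Q + (R / P * (Z / Q)) ^ ((2 : ℝ) / 3)) * P) := by ring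
    _ ≤ K * (R * Z) ^ ε * (R + Z + (R * Z) ^ ((2 : ℝ) / 3)) := by
        gcongr

open Classical in
/-- **the large sieve for a fixed tuple** -/
theorem ls_tuple (HL : LS2.Final) {ε : ℝ} (hε : 0 < ε) : ∃ K : ℝ, 0 < K ∧
    ∀ R Z : ℝ, 1 ≤ R → 1 ≤ Z → ∀ κ : Eis, Cp κ → ∀ (b c : Eis → ℂ) (n v x y z : Eis),
      IsPrim n → IsPrim x → IsPrim y → IsPrim z →
      (nm x : ℝ) * ∑ s ∈ S R, (if (z * y) * s ∈ S R then ‖UU κ b c Z n v x y z s‖ ^ 2 else 0) ≤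
        K * (R * Z) ^ ε * (R + Z + (R * Z) ^ ((2 : ℝ) / 3)) * ((nm x : ℝ) ^ 2 * nm n) *
          ∑ m ∈ S Z, if GG Z n x y z m then wt b c x y (QQ n x y z m) else 0 := by
  obtain ⟨K, hK, hLS⟩ := bil_ls HL hε
  refine ⟨K, hK, fun R Z hR hZ κ hκ b c n v x y z hn hx hy hz => ?_⟩
  have hR0 : (0 : ℝ) ≤ R := by linarith
  have hZ0 : (0 : ℝ) ≤ Z := by linarith
  have hX1 : (1 : ℝ) ≤ nm x := by exact_mod_cast nm_pos.mpr hx.ne_zero
  have hY1 : (1 : ℝ) ≤ nm y := by exact_mod_cast nm_pos.mpr hy.ne_zero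
  have hZ1 : (1 : ℝ) ≤ nm z := by exact_mod_cast nm_pos.mpr hz.ne_zero
  have hN1 : (1 : ℝ) ≤ nm n := by exact_mod_cast nm_pos.mpr hn.ne_zero
  have hrhs : 0 ≤ K * (R * Z) ^ ε * (R + Z + (R * Z) ^ ((2 : ℝ) / 3)) *
      ((nm x : ℝ) ^ 2 * nm n) *
        ∑ m ∈ S Z, (if GG Z n x y z m then wt b c x y (QQ n x y z m) else 0) := by
    apply mul_nonneg (by positivity)
    apply Finset.sum_nonneg
    intro m _
    split_ifs
    · exact wt_nonneg _ _ _ _ _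
    · exact le_rfl
  set A := (S R).filter (fun s => (z * y) * s ∈ S R) with hA
  set B := (S Z).filter (fun m => GG Z n x y z m) with hB
  set q : Eis := x ^ 2 * z ^ 2 * (y * n) ^ 3 with hq
  have hqp : IsPrim q := ((hx.pow 2).mul (hz.pow 2)).mul ((hy.mul hn).pow 3)
  have hnq : (nm q : ℝ) = (nm x : ℝ) ^ 2 * (nm z : ℝ) ^ 2 * ((nm y : ℝ) * nm n) ^ 3 := by
    rw [hq]; simp only [nm_mul, nm_pow]; push_cast; ring
  have hq1 : (1 : ℝ) ≤ nm q := by exact_mod_cast nm_pos.mpr hqp.ne_zero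
  rw [← Finset.sum_filter, ← Finset.sum_filter, ← hA, ← hB]
  rw [← Finset.sum_filter, ← hB] at hrhs
  -- the coefficients
  set β : Eis → ℂ := fun m => b (QQ n x y z m) *
    (conj (gs (κ * ((z * (y * n)) * (x * (y * n)))) (QQ n x y z m)) * sy (v ^ 2) (QQ n x y z m)) *
    CS (sub c (x * y)) (QQ n x y z m) with hβ
  have hB' : ∀ m ∈ B, IsPrim m ∧ Squarefree m ∧ GG Z n x y z m := by
    intro m hm
    rw [hB, Finset.mem_filter, mem_S hZ0] at hm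
    exact ⟨hm.1.2.1, hm.1.2.2, hm.2⟩
  have hU : ∀ s ∈ A, ‖UU κ b c Z n v x y z s‖ ≤ ‖∑ m ∈ B, β m * sy s m‖ := by
    intro s hs
    have e1 : UU κ b c Z n v x y z s = sy s q * ∑ m ∈ B, β m * sy s m := by
      unfold UU
      rw [← Finset.sum_filter, ← hB, Finset.mul_sum]
      refine Finset.sum_congr rfl fun m hm => ?_
      obtain ⟨hm1, hm2, hm3⟩ := hB' m hm
      have hQm : QQ n x y z m = m * q := rfl
      have hQp : IsPrim (QQ n x y z m) := hm1.mul hqp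
      have e2 : sy (s * v ^ 2) (QQ n x y z m) =
          (sy s m * sy s q) * sy (v ^ 2) (QQ n x y z m) := by
        rw [syAx.mul_left _ _ _ hQp]
        congr 1
        rw [hQm, syAx.mul_right _ _ _ hm1 hqp]
      simp only [TT, dT, hβ]
      rw [e2]
      ring
    rw [e1, norm_mul]
    exact mul_le_of_le_one_left (norm_nonneg _) (norm_sy_le' hqp)
  rcases A.eq_empty_or_nonempty with hAe | hAne
  · rw [hAe, Finset.sum_empty, mul_zero]; exact hrhs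
  rcases B.eq_empty_or_nonempty with hBe | hBne
  · have : ∀ s ∈ A, ‖UU κ b c Z n v x y z s‖ ^ 2 = 0 := by
      intro s hs
      have h1 := hU s hs
      rw [hBe, Finset.sum_empty, norm_zero] at h1
      have h2 : ‖UU κ b c Z n v x y z s‖ = 0 := le_antisymm h1 (norm_nonneg _)
      rw [h2]; norm_num
    rw [Finset.sum_congr rfl this, Finset.sum_const_zero, mul_zero]; exact hrhs
  have hSA : Sq (R / ((nm z : ℝ) * nm y)) A := by
    intro s hs
    rw [hA, Finset.mem_filter, mem_S hR0, mem_S hR0] at hs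
    refine ⟨hs.1.2.1, hs.1.2.2, ?_⟩
    rw [le_div_iff₀ (by positivity)]
    have := hs.2.1
    simp only [nm_mul] at this
    push_cast at this
    linarith
  have hSB : Sq (Z / ((nm x : ℝ) ^ 2 * (nm z : ℝ) ^ 2 * ((nm y : ℝ) * nm n) ^ 3)) B := by
    intro m hm
    obtain ⟨hm1, hm2, hm3⟩ := hB' m hm
    refine ⟨hm1, hm2, ?_⟩
    rw [← hnq, le_div_iff₀ (by linarith)]
    have := hm3.2
    have hQm : QQ n x y z m = m * q := rfl
    rw [hQm, nm_mul] at this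
    push_cast at this
    exact this
  have hC1 : 1 ≤ R / ((nm z : ℝ) * nm y) := by
    obtain ⟨s, hs⟩ := hAne
    obtain ⟨h1, h2, h3⟩ := hSA s hs
    exact le_trans (by exact_mod_cast nm_pos.mpr h1.ne_zero) h3
  have hD1 : 1 ≤ Z / ((nm x : ℝ) ^ 2 * (nm z : ℝ) ^ 2 * ((nm y : ℝ) * nm n) ^ 3) := by
    obtain ⟨m, hm⟩ := hBne
    obtain ⟨h1, h2, h3⟩ := hSB m hm
    exact le_trans (by exact_mod_cast nm_pos.mpr h1.ne_zero) h3
  have hmain := hLS _ _ hC1 hD1 A B hSA hSB β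
  have hβn : ∑ m ∈ B, ‖β m‖ ^ 2 ≤ ((nm x : ℝ) * nm z * nm y * nm n) *
      ∑ m ∈ B, wt b c x y (QQ n x y z m) := by
    rw [Finset.mul_sum]
    refine Finset.sum_le_sum fun m hm => ?_
    obtain ⟨hm1, hm2, hm3⟩ := hB' m hm
    have hg := gs_bd hκ hn hx hy hz hm1 hm3.1
    have hQp : IsPrim (QQ n x y z m) := hm1.mul hqp
    have hsy : ‖sy (v ^ 2) (QQ n x y z m)‖ ≤ 1 := norm_sy_le' hQp
    simp only [hβ, norm_mul, RCLike.norm_conj]
    unfold wt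
    calc (‖b (QQ n x y z m)‖ * (‖gs (κ * ((z * (y * n)) * (x * (y * n)))) (QQ n x y z m)‖ *
          ‖sy (v ^ 2) (QQ n x y z m)‖) * ‖CS (sub c (x * y)) (QQ n x y z m)‖) ^ 2
        = ‖b (QQ n x y z m)‖ ^ 2 * ‖CS (sub c (x * y)) (QQ n x y z m)‖ ^ 2 *
          (‖gs (κ * ((z * (y * n)) * (x * (y * n)))) (QQ n x y z m)‖ ^ 2 *
          ‖sy (v ^ 2) (QQ n x y z m)‖ ^ 2) := by ring
      _ ≤ ‖b (QQ n x y z m)‖ ^ 2 * ‖CS (sub c (x * y)) (QQ n x y z m)‖ ^ 2 *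
          (((nm (QQ n x y z m) : ℝ) * ((nm x : ℝ) * nm z * nm y * nm n)) * 1) := by
        gcongr
        exact pow_le_one₀ (norm_nonneg _) hsy
      _ = _ := by ring
  have hW := hbB_weight (ε := ε) (K := K) hε hK hR0 hZ0 hX1 hZ1 hY1 hN1
  have hh0 : 0 ≤ hbB ε K (R / ((nm z : ℝ) * nm y))
      (Z / ((nm x : ℝ) ^ 2 * (nm z : ℝ) ^ 2 * ((nm y : ℝ) * nm n) ^ 3)) := by
    unfold hbB; positivity
  have hSw : 0 ≤ ∑ m ∈ B, wt b c x y (QQ n x y z m) :=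
    Finset.sum_nonneg fun m _ => wt_nonneg _ _ _ _ _
  calc (nm x : ℝ) * ∑ s ∈ A, ‖UU κ b c Z n v x y z s‖ ^ 2
      ≤ (nm x : ℝ) * ∑ s ∈ A, ‖∑ m ∈ B, β m * sy s m‖ ^ 2 := by
        apply mul_le_mul_of_nonneg_left _ (by linarith)
        exact Finset.sum_le_sum fun s hs => pow_le_pow_left₀ (norm_nonneg _) (hU s hs) 2
    _ ≤ (nm x : ℝ) * (hbB ε K (R / ((nm z : ℝ) * nm y))
          (Z / ((nm x : ℝ) ^ 2 * (nm z : ℝ) ^ 2 * ((nm y : ℝ) * nm n) ^ 3)) *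
          (((nm x : ℝ) * nm z * nm y * nm n) * ∑ m ∈ B, wt b c x y (QQ n x y z m))) := by
        apply mul_le_mul_of_nonneg_left _ (by linarith)
        exact hmain.trans (mul_le_mul_of_nonneg_left hβn hh0)
    _ = (hbB ε K (R / ((nm z : ℝ) * nm y))
          (Z / ((nm x : ℝ) ^ 2 * (nm z : ℝ) ^ 2 * ((nm y : ℝ) * nm n) ^ 3)) *
          ((nm z : ℝ) * nm y)) * ((nm x : ℝ) ^ 2 * nm n) *
          ∑ m ∈ B, wt b c x y (QQ n x y z m) := by ring
    _ ≤ _ := by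
        apply mul_le_mul_of_nonneg_right _ hSw
        apply mul_le_mul_of_nonneg_right hW (by positivity)

end Crest.Agent.R017.H1401
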