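import Crest.Agent.R017.H1e_401

/-!
# Row 17, block C70, leaf E2, input (H1) (helper401), part f: the sharp form

`DD ν g₂ g₃ d` : `d = m g₂² z² (g₃ n)³`, `n ∣ ν`, `m g₂ g₃ n z` squarefree.
`H1s` : `H1` with the right side restricted to these `d` (so `p³ ∥ d` only for `p ∣ g₃ ν`).
-/

set_option autoImplicit false

noncomputable section

open Finset
open scoped ComplexConjugate

namespace Crest.Agent.R017.H1401

open Crest.Agent.R012 Crest.Agent.R012.Eis Crest.Agent.R012.LS2 Crest.Agent.R012.GaussLoc283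
open Crest.Agent.R012.Div277 (tau dvs mem_dvs tau_le_rpow)
open Crest.Agent.R012.BilG811 (hbB Sq bil_ls)
open Crest.Agent.R017.CM106

/-- the denominators that really occur -/
def DD (ν g₂ g₃ d : Eis) : Prop :=
  ∃ n z m : Eis, IsPrim n ∧ IsPrim z ∧ IsPrim m ∧ n ∣ ν ∧
    Squarefree (m * (g₂ * ((g₃ * n) * z))) ∧ d = QQ n g₂ g₃ z m

lemma DD.dvd {ν g₂ g₃ d : Eis} (h : DD ν g₂ g₃ d) : g₂ ^ 2 * g₃ ^ 3 ∣ d := by
  obtain ⟨n, z, m, -, -, -, -, -, rfl⟩ := h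
  exact ⟨m * (z ^ 2 * n ^ 3), by unfold QQ; ring⟩

/-- a cube-structured decomposition: `d = m A² B³`, `m A B` squarefree, `g₂ ∣ A`, `B = g₃ n`,
`n ∣ ν` -/
lemma DD.str {ν g₂ g₃ d : Eis} (h : DD ν g₂ g₃ d) :
    ∃ m A n : Eis, Squarefree (m * (A * (g₃ * n))) ∧ g₂ ∣ A ∧ n ∣ ν ∧
      d = m * (A ^ 2 * (g₃ * n) ^ 3) := by
  obtain ⟨n, z, m, -, -, -, h1, h2, rfl⟩ := h
  refine ⟨m, g₂ * z, n, ?_, dvd_mul_right _ _, h1, by unfold QQ; ring⟩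
  have e : m * (g₂ * z * (g₃ * n)) = m * (g₂ * ((g₃ * n) * z)) := by ring
  rw [e]; exact h2

open Classical in
/-- the divisor sum for fixed `x`, `y` -/
lemma div_sum' {R Z : ℝ} (hR : 1 ≤ R) (hZ : 1 ≤ Z) {ν : Eis} (hν : IsPrim ν) {x y : Eis}
    (hx : IsPrim x) (hy : IsPrim y) {Tb : ℝ} (hT : ∀ d ∈ pb Z, (tau d : ℝ) ^ 2 ≤ Tb)
    (F : Eis → ℝ) (hF : ∀ d, 0 ≤ F d) :
    ∑ n ∈ dvs ν, ∑ z ∈ S R, ∑ m ∈ S Z, (if GG Z n x y z m then F (QQ n x y z m) else 0) ≤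
      Tb * ∑ d ∈ (pb Z).filter (DD ν x y), F d := by
  have hR0 : (0 : ℝ) ≤ R := by linarith
  have hZ0 : (0 : ℝ) ≤ Z := by linarith
  set P := (dvs ν ×ˢ S R ×ˢ S Z).filter (fun p => GG Z p.1 x y p.2.1 p.2.2) with hP
  set D := (pb Z).filter (DD ν x y) with hD
  have e1 : ∑ n ∈ dvs ν, ∑ z ∈ S R, ∑ m ∈ S Z,
      (if GG Z n x y z m then F (QQ n x y z m) else 0) = ∑ p ∈ P, F (QQ p.1 x y p.2.1 p.2.2) := by
    rw [hP, Finset.sum_filter, Finset.sum_product]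
    refine Finset.sum_congr rfl fun n _ => ?_
    rw [Finset.sum_product]
  have hPn : ∀ p ∈ P, p.1 ∣ ν := by
    intro p hp
    rw [hP, Finset.mem_filter, Finset.mem_product, mem_dvs hν.ne_zero] at hp
    exact hp.1.1.2
  have hPm : ∀ p ∈ P, IsPrim p.1 ∧ IsPrim p.2.1 ∧ IsPrim p.2.2 ∧ GG Z p.1 x y p.2.1 p.2.2 := by
    intro p hp
    rw [hP, Finset.mem_filter, Finset.mem_product, Finset.mem_product, mem_dvs hν.ne_zero,
      mem_S hR0, mem_S hZ0] at hp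
    exact ⟨hp.1.1.1, hp.1.2.1.2.1, hp.1.2.2.2.1, hp.2⟩
  have hmaps : ∀ p ∈ P, QQ p.1 x y p.2.1 p.2.2 ∈ D := by
    intro p hp
    obtain ⟨h1, h2, h3, h4⟩ := hPm p hp
    rw [hD, Finset.mem_filter, mem_pb hZ0]
    refine ⟨⟨h4.2, ?_⟩, ?_⟩
    · exact h3.mul (((hx.pow 2).mul (h2.pow 2)).mul ((hy.mul h1).pow 3))
    · exact ⟨p.1, p.2.1, p.2.2, h1, h2, h3, hPn p hp, h4.1, rfl⟩
  rw [e1, ← Finset.sum_fiberwise_of_maps_to hmaps, Finset.mul_sum]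
  refine Finset.sum_le_sum fun d hd => ?_
  rw [Finset.sum_congr rfl (g := fun _ => F d) (fun p hp => by
    rw [(Finset.mem_filter.mp hp).2]), Finset.sum_const, nsmul_eq_mul]
  refine mul_le_mul_of_nonneg_right ?_ (hF d)
  have hdZ : d ∈ pb Z := (Finset.mem_filter.mp hd).1
  refine le_trans ?_ (hT d hdZ)
  have hd0 : d ≠ 0 := ((mem_pb hZ0).mp hdZ).2.ne_zero
  have hcard : (P.filter (fun p => QQ p.1 x y p.2.1 p.2.2 = d)).card ≤ (dvs d ×ˢ dvs d).card := by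
    refine Finset.card_le_card_of_injOn (fun p => (p.1, p.2.1)) ?_ ?_
    · intro p hp
      have hp' := Finset.mem_filter.mp (Finset.mem_coe.mp hp)
      obtain ⟨h1, h2, h3, h4⟩ := hPm p hp'.1
      rw [Finset.mem_coe, Finset.mem_product, mem_dvs hd0, mem_dvs hd0, ← hp'.2]
      exact ⟨⟨h1, ⟨p.2.2 * (x ^ 2 * p.2.1 ^ 2 * (y ^ 3 * p.1 ^ 2)), by unfold QQ; ring⟩⟩,
        ⟨h2, ⟨p.2.2 * (x ^ 2 * p.2.1 * (y * p.1) ^ 3), by unfold QQ; ring⟩⟩⟩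
    · intro p hp q hq h
      have hp' := Finset.mem_filter.mp (Finset.mem_coe.mp hp)
      have hq' := Finset.mem_filter.mp (Finset.mem_coe.mp hq)
      obtain ⟨h1, h2, h3, h4⟩ := hPm p hp'.1
      obtain ⟨n, z, m⟩ := p
      obtain ⟨n', z', m'⟩ := q
      simp only [Prod.mk.injEq] at h
      obtain ⟨rfl, rfl⟩ := h
      have h5 : QQ n x y z m = QQ n x y z m' := hp'.2.trans hq'.2.symm
      unfold QQ at h5
      have h0' : x ^ 2 * z ^ 2 * (y * n) ^ 3 ≠ 0 :=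
        (((hx.pow 2).mul (h2.pow 2)).mul ((hy.mul h1).pow 3)).ne_zero
      rw [mul_right_cancel₀ h0' h5]
  rw [Finset.card_product] at hcard
  unfold tau
  calc ((P.filter (fun p => QQ p.1 x y p.2.1 p.2.2 = d)).card : ℝ) ≤
        (((dvs d).card * (dvs d).card : ℕ) : ℝ) := by exact_mod_cast hcard
    _ = _ := by push_cast; ring

set_option maxHeartbeats 1000000 in
open Classical in
/-- **(H1), sharp form** -/
theorem H1s {ε : ℝ} (hε : 0 < ε) : ∃ C : ℝ, 1 ≤ C ∧ ∀ R Z X : ℝ, 1 ≤ R → 1 ≤ Z → 1 ≤ X →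
    ∀ κ ν : Eis, (∀ p : Eis, Prime p → IsPrim p → ¬ p ∣ κ) → IsPrim ν → Squarefree ν →
    ∀ c b : Eis → ℂ, FS c →
    (∀ D, c D ≠ 0 → Squarefree D ∧ (nm D : ℝ) ≤ X ∧ IsCoprime D ν) →
    ∑ r ∈ (S R).filter (fun r => IsCoprime r ν),
      ‖∑ d ∈ pb Z, b d * ∑' D : Eis, c D * conj (gs (κ * r * ν ^ 2 * D) d)‖ ^ 2 ≤
      C * (R * Z * X * nm ν) ^ ε * nm ν * (R + Z + (R * Z) ^ ((2 : ℝ) / 3)) *
        ∑ g₂ ∈ S X, ∑ g₃ ∈ S X, (nm g₂ : ℝ) ^ 2 *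
          ∑ d ∈ (pb Z).filter (DD ν g₂ g₃),
            (nm d : ℝ) * ‖b d‖ ^ 2 * ‖CS (sub c (g₂ * g₃)) d‖ ^ 2 := by
  set δ : ℝ := ε / 4 with hδ
  have hδ0 : 0 < δ := by rw [hδ]; linarith
  obtain ⟨K, hK, hLS⟩ := ls_tuple LS448.hb_final hδ0
  obtain ⟨Ct, hCt1, hCt⟩ := tau_le_rpow hδ0
  obtain ⟨Ci, hCi1, hCi⟩ := sum_inv_le hδ0
  refine ⟨max 1 (Ct ^ 2 * Ct ^ 3 * Ci * K * Ct ^ 2), le_max_left _ _,
    fun R Z X hR hZ hX κ ν hκ hν hνs c b hc hs => ?_⟩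
  have hR0 : (0 : ℝ) ≤ R := by linarith
  have hZ0 : (0 : ℝ) ≤ Z := by linarith
  have hX0 : (0 : ℝ) ≤ X := by linarith
  have hν1 : (1 : ℝ) ≤ nm ν := nm_ge_one hν
  set Sm : ℝ := ∑ g₂ ∈ S X, ∑ g₃ ∈ S X, (nm g₂ : ℝ) ^ 2 *
          ∑ d ∈ (pb Z).filter (DD ν g₂ g₃),
            (nm d : ℝ) * ‖b d‖ ^ 2 * ‖CS (sub c (g₂ * g₃)) d‖ ^ 2 with hSm
  have hSm0 : 0 ≤ Sm := by
    rw [hSm]
    refine Finset.sum_nonneg fun _ _ => Finset.sum_nonneg fun _ _ => mul_nonneg (by positivity) ?_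
    exact Finset.sum_nonneg fun _ _ => by positivity
  set W1 : ℝ := (Ct * (nm ν : ℝ) ^ δ) ^ 2 * (Ct * R ^ δ) ^ 3 * (Ci * X ^ δ) with hW1
  set LSB : ℝ := K * (R * Z) ^ δ * (R + Z + (R * Z) ^ ((2 : ℝ) / 3)) with hLSB
  have hLSB0 : 0 ≤ LSB := by rw [hLSB]; positivity
  have hW10 : 0 ≤ W1 := by
    rw [hW1]
    have : 0 ≤ Ct := by linarith
    have : 0 ≤ Ci := by linarith
    positivity
  have hstep1 : ∀ r ∈ (S R).filter (fun r => IsCoprime r ν),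
      ‖∑ d ∈ pb Z, b d * ∑' D : Eis, c D * conj (gs (κ * r * ν ^ 2 * D) d)‖ ^ 2 ≤
      W1 * ∑ p ∈ (AA ν R X ×ˢ S R).filter (fun p => (p.1.2.2.2.2 * p.1.2.2.2.1) * p.2 = r),
        (nm p.1.2.2.1 : ℝ) * ‖Ua κ b c Z p.1 p.2‖ ^ 2 := by
    intro r hr
    rw [Finset.mem_filter] at hr
    rw [master2 hR hZ hX hκ hν hνs hc hs hr.1 hr.2]
    refine (cauchy_w _ (fun p => (nm p.1.2.2.1 : ℝ)) ?_ _).trans ?_
    · intro p hp
      rw [Finset.mem_filter, Finset.mem_product, mem_AA hν.ne_zero hR0 hX0] at hp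
      exact lt_of_lt_of_le one_pos (nm_ge_one hp.1.1.1.2.2.1.2.1)
    · apply mul_le_mul_of_nonneg_right _ (Finset.sum_nonneg fun _ _ => by positivity)
      refine (first_factor hR hX hν hr.1).trans ?_
      obtain ⟨h1, h2, h3⟩ := (mem_S hR0).mp hr.1
      have t1 : (tau ν : ℝ) ≤ Ct * (nm ν : ℝ) ^ δ := hCt ν hν.ne_zero
      have t2 : (tau r : ℝ) ≤ Ct * R ^ δ := (hCt r h2.ne_zero).trans
        (mul_le_mul_of_nonneg_left (Real.rpow_le_rpow (by positivity) h1 hδ0.le) (by linarith))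
      have t3 := hCi X hX
      rw [hW1]
      have t4 : 0 ≤ ∑ x ∈ S X, ((nm x : ℝ))⁻¹ := Finset.sum_nonneg fun _ _ => by positivity
      have t5 : (tau ν : ℝ) ^ 2 ≤ (Ct * (nm ν : ℝ) ^ δ) ^ 2 := pow_le_pow_left₀ (Nat.cast_nonneg _) t1 2
      have t6 : (tau r : ℝ) ^ 3 ≤ (Ct * R ^ δ) ^ 3 := pow_le_pow_left₀ (Nat.cast_nonneg _) t2 3
      exact mul_le_mul (mul_le_mul t5 t6 (by positivity) (by positivity)) t3 t4 (by positivity)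
  have hstep2 : ∑ r ∈ (S R).filter (fun r => IsCoprime r ν),
      ‖∑ d ∈ pb Z, b d * ∑' D : Eis, c D * conj (gs (κ * r * ν ^ 2 * D) d)‖ ^ 2 ≤
      W1 * ∑ a ∈ AA ν R X, (nm a.2.2.1 : ℝ) * ∑ s ∈ S R,
        (if (a.2.2.2.2 * a.2.2.2.1) * s ∈ S R then ‖Ua κ b c Z a s‖ ^ 2 else 0) := by
    refine (Finset.sum_le_sum hstep1).trans ?_
    rw [← Finset.mul_sum]
    apply mul_le_mul_of_nonneg_left _ hW10
    refine (second_factor (R := R) _ (Finset.filter_subset _ _) (AA ν R X)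
      (fun a s => (nm a.2.2.1 : ℝ) * ‖Ua κ b c Z a s‖ ^ 2) (fun a s => by positivity)).trans ?_
    refine Finset.sum_le_sum fun a _ => ?_
    rw [Finset.mul_sum]
    refine Finset.sum_le_sum fun s _ => ?_
    split_ifs
    · exact le_rfl
    · rw [mul_zero]
  have hstep3 : ∀ a ∈ AA ν R X, (nm a.2.2.1 : ℝ) * ∑ s ∈ S R,
        (if (a.2.2.2.2 * a.2.2.2.1) * s ∈ S R then ‖Ua κ b c Z a s‖ ^ 2 else 0) ≤
      LSB * (nm ν : ℝ) * ((nm a.2.2.1 : ℝ) ^ 2 * ∑ m ∈ S Z,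
        (if GG Z a.1 a.2.2.1 a.2.2.2.1 a.2.2.2.2 m then
          wt b c a.2.2.1 a.2.2.2.1 (QQ a.1 a.2.2.1 a.2.2.2.1 a.2.2.2.2 m) else 0)) := by
    intro a ha
    rw [mem_AA hν.ne_zero hR0 hX0] at ha
    obtain ⟨⟨h1, h2, h3, h4, h5⟩, h6⟩ := ha
    have h := hLS R Z hR hZ κ hκ b c a.1 a.2.1 a.2.2.1 a.2.2.2.1 a.2.2.2.2 h1.1 h3.2.1 h4.2.1 h5.2.1
    refine h.trans ?_
    have hw : 0 ≤ ∑ m ∈ S Z,
        (if GG Z a.1 a.2.2.1 a.2.2.2.1 a.2.2.2.2 m then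
          wt b c a.2.2.1 a.2.2.2.1 (QQ a.1 a.2.2.1 a.2.2.2.1 a.2.2.2.2 m) else 0) := by
      refine Finset.sum_nonneg fun m _ => ?_
      split_ifs
      · exact wt_nonneg _ _ _ _ _
      · exact le_rfl
    have hn : (nm a.1 : ℝ) ≤ nm ν := by exact_mod_cast Div277.nm_le_of_dvd hν.ne_zero h1.2
    calc _ = LSB * (nm a.1 : ℝ) * ((nm a.2.2.1 : ℝ) ^ 2 * ∑ m ∈ S Z,
        (if GG Z a.1 a.2.2.1 a.2.2.2.1 a.2.2.2.2 m then
          wt b c a.2.2.1 a.2.2.2.1 (QQ a.1 a.2.2.1 a.2.2.2.1 a.2.2.2.2 m) else 0)) := by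
          rw [hLSB]; ring
      _ ≤ _ := by gcongr
  have hT : ∀ d ∈ pb Z, (tau d : ℝ) ^ 2 ≤ (Ct * Z ^ δ) ^ 2 := by
    intro d hd
    obtain ⟨h1, h2⟩ := (mem_pb hZ0).mp hd
    have t2 : (tau d : ℝ) ≤ Ct * Z ^ δ := (hCt d h2.ne_zero).trans
      (mul_le_mul_of_nonneg_left (Real.rpow_le_rpow (by positivity) h1 hδ0.le) (by linarith))
    exact pow_le_pow_left₀ (Nat.cast_nonneg _) t2 2
  have hstep4 : ∑ a ∈ AA ν R X, (nm a.2.2.1 : ℝ) ^ 2 * ∑ m ∈ S Z,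
        (if GG Z a.1 a.2.2.1 a.2.2.2.1 a.2.2.2.2 m then
          wt b c a.2.2.1 a.2.2.2.1 (QQ a.1 a.2.2.1 a.2.2.2.1 a.2.2.2.2 m) else 0) ≤
      (Ct * Z ^ δ) ^ 2 * Sm := by
    set f : Eis → Eis → Eis → Eis → ℝ := fun n x y z => (nm x : ℝ) ^ 2 * ∑ m ∈ S Z,
        (if GG Z n x y z m then wt b c x y (QQ n x y z m) else 0) with hf
    have hf0 : ∀ n x y z, 0 ≤ f n x y z := by
      intro n x y z
      rw [hf]
      refine mul_nonneg (by positivity) (Finset.sum_nonneg fun m _ => ?_)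
      split_ifs
      · exact wt_nonneg _ _ _ _ _
      · exact le_rfl
    -- `v` is determined by `n`
    have e1 : ∑ a ∈ AA ν R X, f a.1 a.2.2.1 a.2.2.2.1 a.2.2.2.2 ≤
        ∑ n ∈ dvs ν, ∑ x ∈ S X, ∑ y ∈ S X, ∑ z ∈ S R, f n x y z := by
      have e2 : ∑ n ∈ dvs ν, ∑ x ∈ S X, ∑ y ∈ S X, ∑ z ∈ S R, f n x y z =
          ∑ q ∈ dvs ν ×ˢ S X ×ˢ S X ×ˢ S R, f q.1 q.2.1 q.2.2.1 q.2.2.2 := by
        simp only [Finset.sum_product]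
      rw [e2]
      have hinj : Set.InjOn (fun a : Ta => ((a.1, a.2.2.1, a.2.2.2.1, a.2.2.2.2) :
          Eis × Eis × Eis × Eis)) (AA ν R X) := by
        rintro ⟨a1, a2, a3, a4, a5⟩ ha ⟨b1, b2, b3, b4, b5⟩ hb h
        rw [Finset.mem_coe, mem_AA hν.ne_zero hR0 hX0] at ha hb
        simp only [Prod.mk.injEq] at h ⊢
        obtain ⟨rfl, rfl, rfl, rfl⟩ := h
        refine ⟨rfl, ?_, rfl, rfl, rfl⟩
        exact mul_left_cancel₀ ha.1.1.1.ne_zero (ha.2.trans hb.2.symm)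
      have e3 : ∑ a ∈ AA ν R X, f a.1 a.2.2.1 a.2.2.2.1 a.2.2.2.2 =
          ∑ q ∈ (AA ν R X).image (fun a : Ta => ((a.1, a.2.2.1, a.2.2.2.1, a.2.2.2.2) :
          Eis × Eis × Eis × Eis)), f q.1 q.2.1 q.2.2.1 q.2.2.2 := by
        rw [Finset.sum_image hinj]
      rw [e3]
      refine Finset.sum_le_sum_of_subset_of_nonneg ?_ (fun q _ _ => hf0 _ _ _ _)
      intro q hq
      rw [Finset.mem_image] at hq
      obtain ⟨a, ha, rfl⟩ := hq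
      rw [mem_AA hν.ne_zero hR0 hX0] at ha
      simp only [Finset.mem_product]
      rw [mem_dvs hν.ne_zero, mem_S hX0, mem_S hX0, mem_S hR0]
      exact ⟨ha.1.1, ha.1.2.2.1, ha.1.2.2.2.1, ha.1.2.2.2.2⟩
    refine e1.trans ?_
    rw [Finset.sum_comm, hSm, Finset.mul_sum]
    refine Finset.sum_le_sum fun x hx => ?_
    rw [Finset.sum_comm, Finset.mul_sum]
    refine Finset.sum_le_sum fun y hy => ?_
    have hx' := ((mem_S hX0).mp hx).2.1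
    have hy' := ((mem_S hX0).mp hy).2.1
    have h7 := div_sum' (R := R) (Z := Z) hR hZ hν hx' hy' hT (wt b c x y) (wt_nonneg b c x y)
    have e4 : ∑ n ∈ dvs ν, ∑ z ∈ S R, f n x y z = (nm x : ℝ) ^ 2 *
        ∑ n ∈ dvs ν, ∑ z ∈ S R, ∑ m ∈ S Z,
          (if GG Z n x y z m then wt b c x y (QQ n x y z m) else 0) := by
      rw [hf, Finset.mul_sum]
      refine Finset.sum_congr rfl fun n _ => ?_
      rw [Finset.mul_sum]
    rw [e4]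
    calc _ ≤ (nm x : ℝ) ^ 2 * ((Ct * Z ^ δ) ^ 2 *
          ∑ d ∈ (pb Z).filter (DD ν x y), wt b c x y d) :=
          mul_le_mul_of_nonneg_left h7 (by positivity)
      _ = _ := by unfold wt; ring
  have hstep5 : ∑ r ∈ (S R).filter (fun r => IsCoprime r ν),
      ‖∑ d ∈ pb Z, b d * ∑' D : Eis, c D * conj (gs (κ * r * ν ^ 2 * D) d)‖ ^ 2 ≤
      W1 * (LSB * (nm ν : ℝ) * ((Ct * Z ^ δ) ^ 2 * Sm)) := by
    refine hstep2.trans (mul_le_mul_of_nonneg_left ?_ hW10)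
    refine (Finset.sum_le_sum hstep3).trans ?_
    rw [← Finset.mul_sum]
    exact mul_le_mul_of_nonneg_left hstep4 (by positivity)
  refine hstep5.trans ?_
  have hCt0 : 0 ≤ Ct := by linarith
  have hCi0 : 0 ≤ Ci := by linarith
  have hpow : ((nm ν : ℝ) ^ δ) ^ 2 * (R ^ δ) ^ 3 * X ^ δ * (R * Z) ^ δ * (Z ^ δ) ^ 2 ≤
      (R * Z * X * nm ν) ^ ε := by
    have a1 : (1 : ℝ) ≤ (nm ν : ℝ) ^ δ := Real.one_le_rpow hν1 hδ0.le
    have a2 : (1 : ℝ) ≤ R ^ δ := Real.one_le_rpow hR hδ0.le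
    have a3 : (1 : ℝ) ≤ X ^ δ := Real.one_le_rpow hX hδ0.le
    have a4 : (1 : ℝ) ≤ Z ^ δ := Real.one_le_rpow hZ hδ0.le
    have e1 : (R * Z * X * nm ν) ^ ε = (R ^ δ) ^ 4 * (Z ^ δ) ^ 4 * (X ^ δ) ^ 4 *
        ((nm ν : ℝ) ^ δ) ^ 4 := by
      rw [Real.mul_rpow (by positivity) (by positivity), Real.mul_rpow (by positivity) hX0,
        Real.mul_rpow hR0 hZ0]
      have h4 : ∀ t : ℝ, 0 ≤ t → t ^ ε = (t ^ δ) ^ 4 := by
        intro t ht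
        rw [← Real.rpow_natCast, ← Real.rpow_mul ht]
        congr 1
        rw [hδ]; push_cast; ring
      rw [h4 R hR0, h4 Z hZ0, h4 X hX0, h4 _ (by positivity)]
    rw [e1, Real.mul_rpow hR0 hZ0]
    set r1 := R ^ δ
    set z1 := Z ^ δ
    set x1 := X ^ δ
    set n1 := (nm ν : ℝ) ^ δ
    have b1 : z1 ^ 3 ≤ z1 ^ 4 := pow_le_pow_right₀ a4 (by norm_num)
    have b2 : x1 ≤ x1 ^ 4 := by
      calc x1 = x1 ^ 1 := (pow_one _).symm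
        _ ≤ x1 ^ 4 := pow_le_pow_right₀ a3 (by norm_num)
    have b3 : n1 ^ 2 ≤ n1 ^ 4 := pow_le_pow_right₀ a1 (by norm_num)
    calc n1 ^ 2 * r1 ^ 3 * x1 * (r1 * z1) * z1 ^ 2 = r1 ^ 4 * z1 ^ 3 * x1 * n1 ^ 2 := by ring
      _ ≤ r1 ^ 4 * z1 ^ 4 * x1 ^ 4 * n1 ^ 4 := by gcongr
  calc W1 * (LSB * (nm ν : ℝ) * ((Ct * Z ^ δ) ^ 2 * Sm))
      = (Ct ^ 2 * Ct ^ 3 * Ci * K * Ct ^ 2) *
        (((nm ν : ℝ) ^ δ) ^ 2 * (R ^ δ) ^ 3 * X ^ δ * (R * Z) ^ δ * (Z ^ δ) ^ 2) * (nm ν : ℝ) *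
        (R + Z + (R * Z) ^ ((2 : ℝ) / 3)) * Sm := by
        rw [hW1, hLSB]; ring
    _ ≤ (max 1 (Ct ^ 2 * Ct ^ 3 * Ci * K * Ct ^ 2)) * (R * Z * X * nm ν) ^ ε * (nm ν : ℝ) *
        (R + Z + (R * Z) ^ ((2 : ℝ) / 3)) * Sm := by
        gcongr
        exact le_max_right _ _

end Crest.Agent.R017.H1401
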