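import Crest.Agent.R017.H1f_401

/-!
# Row 17, block C70, leaf E2, input (H1) (helper401), part g: the weighted form

`H1w` : `H1s` with the large sieve weight inside the `(g₂, g₃)` sum
-/

set_option autoImplicit false

noncomputable section

open Finset
open scoped ComplexConjugate

namespace Crest.Agent.R017.H1401

open Crest.Agent.R012 Crest.Agent.R012.Eis Crest.Agent.R012.LS2 Crest.Agent.R012.GaussLoc283
open Crest.Agent.R012.Div277 (tau dvs mem_dvs tau_le_rpow)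
open Crest.Agent.R012.BilG811 (hbB Sq bil_ls)
open Crest.Agent.R017.CM106

/-- the large sieve weight at `(g₂, g₃)` -/
def HW (R Z : ℝ) (x y : Eis) : ℝ :=
  R + Z / ((nm x : ℝ) * nm y) ^ 2 + (R * (Z / ((nm x : ℝ) * nm y) ^ 2)) ^ ((2 : ℝ) / 3)

lemma HW_nonneg {R Z : ℝ} (hR : 0 ≤ R) (hZ : 0 ≤ Z) (x y : Eis) : 0 ≤ HW R Z x y := by
  unfold HW; positivity

/-- `HW ≤` the unweighted factor -/
lemma HW_le {R Z : ℝ} (hR : 0 ≤ R) (hZ : 0 ≤ Z) {x y : Eis} (hx : IsPrim x) (hy : IsPrim y) :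
    HW R Z x y ≤ R + Z + (R * Z) ^ ((2 : ℝ) / 3) := by
  have hX1 : (1 : ℝ) ≤ nm x := nm_ge_one hx
  have hY1 : (1 : ℝ) ≤ nm y := nm_ge_one hy
  have h1 : (1 : ℝ) ≤ ((nm x : ℝ) * nm y) ^ 2 :=
    one_le_pow₀ (one_le_mul_of_one_le_of_one_le hX1 hY1)
  have h2 : Z / ((nm x : ℝ) * nm y) ^ 2 ≤ Z := div_le_self hZ h1
  have h3 : (R * (Z / ((nm x : ℝ) * nm y) ^ 2)) ^ ((2 : ℝ) / 3) ≤ (R * Z) ^ ((2 : ℝ) / 3) :=
    Real.rpow_le_rpow (by positivity) (mul_le_mul_of_nonneg_left h2 hR) (by norm_num)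
  unfold HW
  linarith

lemma hbB_weight_w {ε K R Z X1 Z1 Y1 N1 : ℝ} (hε : 0 < ε) (hK : 0 < K) (hR : 0 ≤ R) (hZ : 0 ≤ Z)
    (hX1 : 1 ≤ X1) (hZ1 : 1 ≤ Z1) (hY1 : 1 ≤ Y1) (hN1 : 1 ≤ N1) :
    hbB ε K (R / (Z1 * Y1)) (Z / (X1 ^ 2 * Z1 ^ 2 * (Y1 * N1) ^ 3)) * (Z1 * Y1) ≤
      K * (R * Z) ^ ε * (R + Z / (X1 * Y1) ^ 2 + (R * (Z / (X1 * Y1) ^ 2)) ^ ((2 : ℝ) / 3)) := by
  unfold hbB
  set P := Z1 * Y1 with hP
  set Q := X1 ^ 2 * Z1 ^ 2 * (Y1 * N1) ^ 3 with hQ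
  set G := (X1 * Y1) ^ 2 with hG
  have hP1 : 1 ≤ P := by rw [hP]; exact one_le_mul_of_one_le_of_one_le hZ1 hY1
  have hP0 : 0 < P := by linarith
  have hG1 : 1 ≤ G := by
    rw [hG]; exact one_le_pow₀ (one_le_mul_of_one_le_of_one_le hX1 hY1)
  have hG0 : 0 < G := by linarith
  have hN3 : (1 : ℝ) ≤ N1 ^ 3 := one_le_pow₀ hN1
  -- `G P ≤ Q` , `G² P ... `
  have hGP : G * P ≤ Q := by
    have e1 : Q = (X1 ^ 2 * Z1 ^ 2 * Y1 ^ 3) * N1 ^ 3 := by rw [hQ]; ring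
    have e2 : G * P = (X1 ^ 2 * Z1 * Y1 ^ 3) := by rw [hG, hP]; ring
    have h1 : Z1 ≤ Z1 ^ 2 := by nlinarith
    rw [e1, e2]
    calc X1 ^ 2 * Z1 * Y1 ^ 3 ≤ X1 ^ 2 * Z1 ^ 2 * Y1 ^ 3 := by gcongr
      _ ≤ (X1 ^ 2 * Z1 ^ 2 * Y1 ^ 3) * N1 ^ 3 := le_mul_of_one_le_right (by positivity) hN3
  have hQ0 : 0 < Q := lt_of_lt_of_le (by positivity) hGP
  have hPQ1 : 1 ≤ P * Q := by
    have : 1 ≤ Q := le_trans (one_le_mul_of_one_le_of_one_le hG1 hP1) hGP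
    exact one_le_mul_of_one_le_of_one_le hP1 this
  have e0 : R / P * (Z / Q) = R * Z / (P * Q) := by field_simp
  have h1 : (R / P * (Z / Q)) ^ ε ≤ (R * Z) ^ ε := by
    rw [e0]
    apply Real.rpow_le_rpow (by positivity) _ hε.le
    exact div_le_self (by positivity) hPQ1
  have h2 : (R / P + Z / Q + (R / P * (Z / Q)) ^ ((2 : ℝ) / 3)) * P ≤
      R + Z / G + (R * (Z / G)) ^ ((2 : ℝ) / 3) := by
    have t1 : R / P * P = R := by field_simp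
    have t2 : Z / Q * P ≤ Z / G := by
      rw [div_mul_eq_mul_div, div_le_div_iff₀ hQ0 hG0, mul_assoc]
      apply mul_le_mul_of_nonneg_left _ hZ
      linarith
    have t3 : (R / P * (Z / Q)) ^ ((2 : ℝ) / 3) * P ≤ (R * (Z / G)) ^ ((2 : ℝ) / 3) := by
      rw [e0, show R * (Z / G) = R * Z / G by ring, Real.div_rpow (by positivity) (by positivity),
        Real.div_rpow (by positivity) (by positivity), div_mul_eq_mul_div,
        div_le_div_iff₀ (by positivity) (by positivity), mul_assoc]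
      apply mul_le_mul_of_nonneg_left _ (by positivity)
      -- `P G^(2/3) ≤ (P Q)^(2/3)` : `P³ G² ≤ (P Q)²`
      have h5 : P ^ 3 * G ^ 2 ≤ (P * Q) ^ 2 * 1 := by
        have e1 : Q = (X1 ^ 2 * Z1 ^ 2 * Y1 ^ 3) * N1 ^ 3 := by rw [hQ]; ring
        have e2 : P ^ 3 * G ^ 2 = P ^ 2 * (X1 ^ 4 * Z1 * Y1 ^ 5) := by rw [hG, hP]; ring
        have e3 : X1 ^ 4 * Z1 * Y1 ^ 5 ≤ Q ^ 2 := by
          have h6 : Z1 ≤ Z1 ^ 4 := by
            calc Z1 = Z1 ^ 1 := (pow_one _).symm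
              _ ≤ Z1 ^ 4 := pow_le_pow_right₀ hZ1 (by norm_num)
          have h7 : Y1 ^ 5 ≤ Y1 ^ 6 := pow_le_pow_right₀ hY1 (by norm_num)
          have h8 : (1 : ℝ) ≤ (N1 ^ 3) ^ 2 := one_le_pow₀ hN3
          calc X1 ^ 4 * Z1 * Y1 ^ 5 ≤ X1 ^ 4 * Z1 ^ 4 * Y1 ^ 6 := by gcongr
            _ ≤ (X1 ^ 4 * Z1 ^ 4 * Y1 ^ 6) * (N1 ^ 3) ^ 2 :=
                le_mul_of_one_le_right (by positivity) h8
            _ = Q ^ 2 := by rw [e1]; ring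
        calc P ^ 3 * G ^ 2 = P ^ 2 * (X1 ^ 4 * Z1 * Y1 ^ 5) := e2
          _ ≤ P ^ 2 * Q ^ 2 := mul_le_mul_of_nonneg_left e3 (by positivity)
          _ = (P * Q) ^ 2 * 1 := by ring
      have h6 : (P ^ 3 * G ^ 2) ^ ((1 : ℝ) / 3) ≤ ((P * Q) ^ 2) ^ ((1 : ℝ) / 3) :=
        Real.rpow_le_rpow (by positivity) (by linarith) (by norm_num)
      have e4 : (P ^ 3 * G ^ 2) ^ ((1 : ℝ) / 3) = P * G ^ ((2 : ℝ) / 3) := by
        rw [Real.mul_rpow (by positivity) (by positivity)]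
        congr 1
        · rw [← Real.rpow_natCast, ← Real.rpow_mul hP0.le]; norm_num
        · rw [← Real.rpow_natCast, ← Real.rpow_mul hG0.le]; norm_num
      have e5 : ((P * Q) ^ 2) ^ ((1 : ℝ) / 3) = (P * Q) ^ ((2 : ℝ) / 3) := by
        rw [← Real.rpow_natCast, ← Real.rpow_mul (by positivity)]; norm_num
      rw [e4, e5] at h6
      exact h6
    calc (R / P + Z / Q + (R / P * (Z / Q)) ^ ((2 : ℝ) / 3)) * P =
          R / P * P + Z / Q * P + (R / P * (Z / Q)) ^ ((2 : ℝ) / 3) * P := by ring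
      _ ≤ _ := by rw [t1]; linarith
  calc K * (R / P * (Z / Q)) ^ ε * (R / P + Z / Q + (R / P * (Z / Q)) ^ ((2 : ℝ) / 3)) * P =
        K * (R / P * (Z / Q)) ^ ε *
          ((R / P + Z / Q + (R / P * (Z / Q)) ^ ((2 : ℝ) / 3)) * P) := by ring
    _ ≤ K * (R * Z) ^ ε * (R + Z / G + (R * (Z / G)) ^ ((2 : ℝ) / 3)) := by
        gcongr

open Classical in
/-- **the large sieve for a fixed tuple**, weighted -/
theorem ls_tuple_w (HL : LS2.Final) {ε : ℝ} (hε : 0 < ε) : ∃ K : ℝ, 0 < K ∧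
    ∀ R Z : ℝ, 1 ≤ R → 1 ≤ Z → ∀ κ : Eis, Cp κ → ∀ (b c : Eis → ℂ) (n v x y z : Eis),
      IsPrim n → IsPrim x → IsPrim y → IsPrim z →
      (nm x : ℝ) * ∑ s ∈ S R, (if (z * y) * s ∈ S R then ‖UU κ b c Z n v x y z s‖ ^ 2 else 0) ≤
        K * (R * Z) ^ ε * HW R Z x y * ((nm x : ℝ) ^ 2 * nm n) *
          ∑ m ∈ S Z, if GG Z n x y z m then wt b c x y (QQ n x y z m) else 0 := by
  obtain ⟨K, hK, hLS⟩ := bil_ls HL hε
  refine ⟨K, hK, fun R Z hR hZ κ hκ b c n v x y z hn hx hy hz => ?_⟩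
  have hR0 : (0 : ℝ) ≤ R := by linarith
  have hZ0 : (0 : ℝ) ≤ Z := by linarith
  have hX1 : (1 : ℝ) ≤ nm x := by exact_mod_cast nm_pos.mpr hx.ne_zero
  have hY1 : (1 : ℝ) ≤ nm y := by exact_mod_cast nm_pos.mpr hy.ne_zero
  have hZ1 : (1 : ℝ) ≤ nm z := by exact_mod_cast nm_pos.mpr hz.ne_zero
  have hN1 : (1 : ℝ) ≤ nm n := by exact_mod_cast nm_pos.mpr hn.ne_zero
  have hHW0 : 0 ≤ HW R Z x y := HW_nonneg hR0 hZ0 x y
  have hrhs : 0 ≤ K * (R * Z) ^ ε * HW R Z x y *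
      ((nm x : ℝ) ^ 2 * nm n) *
        ∑ m ∈ S Z, (if GG Z n x y z m then wt b c x y (QQ n x y z m) else 0) := by
    apply mul_nonneg (by positivity)
    apply Finset.sum_nonneg
    intro m _
    split_ifs
    · exact wt_nonneg _ _ _ _ _
    · exact le_rfl
  set A := (S R).filter (fun s => (z * y) * s ∈ S R) with hA
  set B := (S Z).filter (fun m => GG Z n x y z m) with hB
  set q : Eis := x ^ 2 * z ^ 2 * (y * n) ^ 3 with hq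
  have hqp : IsPrim q := ((hx.pow 2).mul (hz.pow 2)).mul ((hy.mul hn).pow 3)
  have hnq : (nm q : ℝ) = (nm x : ℝ) ^ 2 * (nm z : ℝ) ^ 2 * ((nm y : ℝ) * nm n) ^ 3 := by
    rw [hq]; simp only [nm_mul, nm_pow]; push_cast; ring
  have hq1 : (1 : ℝ) ≤ nm q := by exact_mod_cast nm_pos.mpr hqp.ne_zero
  rw [← Finset.sum_filter, ← Finset.sum_filter, ← hA, ← hB]
  rw [← Finset.sum_filter, ← hB] at hrhs
  -- the coefficients
  set β : Eis → ℂ := fun m => b (QQ n x y z m) *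
    (conj (gs (κ * ((z * (y * n)) * (x * (y * n)))) (QQ n x y z m)) * sy (v ^ 2) (QQ n x y z m)) *
    CS (sub c (x * y)) (QQ n x y z m) with hβ
  have hB' : ∀ m ∈ B, IsPrim m ∧ Squarefree m ∧ GG Z n x y z m := by
    intro m hm
    rw [hB, Finset.mem_filter, mem_S hZ0] at hm
    exact ⟨hm.1.2.1, hm.1.2.2, hm.2⟩
  have hU : ∀ s ∈ A, ‖UU κ b c Z n v x y z s‖ ≤ ‖∑ m ∈ B, β m * sy s m‖ := by
    intro s hs
    have e1 : UU κ b c Z n v x y z s = sy s q * ∑ m ∈ B, β m * sy s m := by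
      unfold UU
      rw [← Finset.sum_filter, ← hB, Finset.mul_sum]
      refine Finset.sum_congr rfl fun m hm => ?_
      obtain ⟨hm1, hm2, hm3⟩ := hB' m hm
      have hQm : QQ n x y z m = m * q := rfl
      have hQp : IsPrim (QQ n x y z m) := hm1.mul hqp
      have e2 : sy (s * v ^ 2) (QQ n x y z m) =
          (sy s m * sy s q) * sy (v ^ 2) (QQ n x y z m) := by
        rw [syAx.mul_left _ _ _ hQp]
        congr 1
        rw [hQm, syAx.mul_right _ _ _ hm1 hqp]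
      simp only [TT, dT, hβ]
      rw [e2]
      ring
    rw [e1, norm_mul]
    exact mul_le_of_le_one_left (norm_nonneg _) (norm_sy_le' hqp)
  rcases A.eq_empty_or_nonempty with hAe | hAne
  · rw [hAe, Finset.sum_empty, mul_zero]; exact hrhs
  rcases B.eq_empty_or_nonempty with hBe | hBne
  · have : ∀ s ∈ A, ‖UU κ b c Z n v x y z s‖ ^ 2 = 0 := by
      intro s hs
      have h1 := hU s hs
      rw [hBe, Finset.sum_empty, norm_zero] at h1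
      have h2 : ‖UU κ b c Z n v x y z s‖ = 0 := le_antisymm h1 (norm_nonneg _)
      rw [h2]; norm_num
    rw [Finset.sum_congr rfl this, Finset.sum_const_zero, mul_zero]; exact hrhs
  have hSA : Sq (R / ((nm z : ℝ) * nm y)) A := by
    intro s hs
    rw [hA, Finset.mem_filter, mem_S hR0, mem_S hR0] at hs
    refine ⟨hs.1.2.1, hs.1.2.2, ?_⟩
    rw [le_div_iff₀ (by positivity)]
    have := hs.2.1
    simp only [nm_mul] at this
    push_cast at this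
    linarith
  have hSB : Sq (Z / ((nm x : ℝ) ^ 2 * (nm z : ℝ) ^ 2 * ((nm y : ℝ) * nm n) ^ 3)) B := by
    intro m hm
    obtain ⟨hm1, hm2, hm3⟩ := hB' m hm
    refine ⟨hm1, hm2, ?_⟩
    rw [← hnq, le_div_iff₀ (by linarith)]
    have := hm3.2
    have hQm : QQ n x y z m = m * q := rfl
    rw [hQm, nm_mul] at this
    push_cast at this
    exact this
  have hC1 : 1 ≤ R / ((nm z : ℝ) * nm y) := by
    obtain ⟨s, hs⟩ := hAne
    obtain ⟨h1, h2, h3⟩ := hSA s hs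
    exact le_trans (by exact_mod_cast nm_pos.mpr h1.ne_zero) h3
  have hD1 : 1 ≤ Z / ((nm x : ℝ) ^ 2 * (nm z : ℝ) ^ 2 * ((nm y : ℝ) * nm n) ^ 3) := by
    obtain ⟨m, hm⟩ := hBne
    obtain ⟨h1, h2, h3⟩ := hSB m hm
    exact le_trans (by exact_mod_cast nm_pos.mpr h1.ne_zero) h3
  have hmain := hLS _ _ hC1 hD1 A B hSA hSB β
  have hβn : ∑ m ∈ B, ‖β m‖ ^ 2 ≤ ((nm x : ℝ) * nm z * nm y * nm n) *
      ∑ m ∈ B, wt b c x y (QQ n x y z m) := by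
    rw [Finset.mul_sum]
    refine Finset.sum_le_sum fun m hm => ?_
    obtain ⟨hm1, hm2, hm3⟩ := hB' m hm
    have hg := gs_bd hκ hn hx hy hz hm1 hm3.1
    have hQp : IsPrim (QQ n x y z m) := hm1.mul hqp
    have hsy : ‖sy (v ^ 2) (QQ n x y z m)‖ ≤ 1 := norm_sy_le' hQp
    simp only [hβ, norm_mul, RCLike.norm_conj]
    unfold wt
    calc (‖b (QQ n x y z m)‖ * (‖gs (κ * ((z * (y * n)) * (x * (y * n)))) (QQ n x y z m)‖ *
          ‖sy (v ^ 2) (QQ n x y z m)‖) * ‖CS (sub c (x * y)) (QQ n x y z m)‖) ^ 2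
        = ‖b (QQ n x y z m)‖ ^ 2 * ‖CS (sub c (x * y)) (QQ n x y z m)‖ ^ 2 *
          (‖gs (κ * ((z * (y * n)) * (x * (y * n)))) (QQ n x y z m)‖ ^ 2 *
          ‖sy (v ^ 2) (QQ n x y z m)‖ ^ 2) := by ring
      _ ≤ ‖b (QQ n x y z m)‖ ^ 2 * ‖CS (sub c (x * y)) (QQ n x y z m)‖ ^ 2 *
          (((nm (QQ n x y z m) : ℝ) * ((nm x : ℝ) * nm z * nm y * nm n)) * 1) := by
        gcongr
        exact pow_le_one₀ (norm_nonneg _) hsy
      _ = _ := by ring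
  have hW := hbB_weight_w (ε := ε) (K := K) hε hK hR0 hZ0 hX1 hZ1 hY1 hN1
  have hh0 : 0 ≤ hbB ε K (R / ((nm z : ℝ) * nm y))
      (Z / ((nm x : ℝ) ^ 2 * (nm z : ℝ) ^ 2 * ((nm y : ℝ) * nm n) ^ 3)) := by
    unfold hbB; positivity
  have hSw : 0 ≤ ∑ m ∈ B, wt b c x y (QQ n x y z m) :=
    Finset.sum_nonneg fun m _ => wt_nonneg _ _ _ _ _
  calc (nm x : ℝ) * ∑ s ∈ A, ‖UU κ b c Z n v x y z s‖ ^ 2
      ≤ (nm x : ℝ) * ∑ s ∈ A, ‖∑ m ∈ B, β m * sy s m‖ ^ 2 := by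
        apply mul_le_mul_of_nonneg_left _ (by linarith)
        exact Finset.sum_le_sum fun s hs => pow_le_pow_left₀ (norm_nonneg _) (hU s hs) 2
    _ ≤ (nm x : ℝ) * (hbB ε K (R / ((nm z : ℝ) * nm y))
          (Z / ((nm x : ℝ) ^ 2 * (nm z : ℝ) ^ 2 * ((nm y : ℝ) * nm n) ^ 3)) *
          (((nm x : ℝ) * nm z * nm y * nm n) * ∑ m ∈ B, wt b c x y (QQ n x y z m))) := by
        apply mul_le_mul_of_nonneg_left _ (by linarith)
        exact hmain.trans (mul_le_mul_of_nonneg_left hβn hh0)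
    _ = (hbB ε K (R / ((nm z : ℝ) * nm y))
          (Z / ((nm x : ℝ) ^ 2 * (nm z : ℝ) ^ 2 * ((nm y : ℝ) * nm n) ^ 3)) *
          ((nm z : ℝ) * nm y)) * ((nm x : ℝ) ^ 2 * nm n) *
          ∑ m ∈ B, wt b c x y (QQ n x y z m) := by ring
    _ ≤ _ := by
        apply mul_le_mul_of_nonneg_right _ hSw
        apply mul_le_mul_of_nonneg_right _ (by positivity)
        exact hW

set_option maxHeartbeats 1000000 in
open Classical in
/-- **(H1), sharp form, with the large sieve weight inside the sum** -/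
theorem H1w {ε : ℝ} (hε : 0 < ε) : ∃ C : ℝ, 1 ≤ C ∧ ∀ R Z X : ℝ, 1 ≤ R → 1 ≤ Z → 1 ≤ X →
    ∀ κ ν : Eis, (∀ p : Eis, Prime p → IsPrim p → ¬ p ∣ κ) → IsPrim ν → Squarefree ν →
    ∀ c b : Eis → ℂ, FS c →
    (∀ D, c D ≠ 0 → Squarefree D ∧ (nm D : ℝ) ≤ X ∧ IsCoprime D ν) →
    ∑ r ∈ (S R).filter (fun r => IsCoprime r ν),
      ‖∑ d ∈ pb Z, b d * ∑' D : Eis, c D * conj (gs (κ * r * ν ^ 2 * D) d)‖ ^ 2 ≤
      C * (R * Z * X * nm ν) ^ ε * nm ν *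
        ∑ g₂ ∈ S X, ∑ g₃ ∈ S X, (nm g₂ : ℝ) ^ 2 * HW R Z g₂ g₃ *
          ∑ d ∈ (pb Z).filter (DD ν g₂ g₃),
            (nm d : ℝ) * ‖b d‖ ^ 2 * ‖CS (sub c (g₂ * g₃)) d‖ ^ 2 := by
  set δ : ℝ := ε / 4 with hδ
  have hδ0 : 0 < δ := by rw [hδ]; linarith
  obtain ⟨K, hK, hLS⟩ := ls_tuple_w LS448.hb_final hδ0
  obtain ⟨Ct, hCt1, hCt⟩ := tau_le_rpow hδ0
  obtain ⟨Ci, hCi1, hCi⟩ := sum_inv_le hδ0
  refine ⟨max 1 (Ct ^ 2 * Ct ^ 3 * Ci * K * Ct ^ 2), le_max_left _ _,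
    fun R Z X hR hZ hX κ ν hκ hν hνs c b hc hs => ?_⟩
  have hR0 : (0 : ℝ) ≤ R := by linarith
  have hZ0 : (0 : ℝ) ≤ Z := by linarith
  have hX0 : (0 : ℝ) ≤ X := by linarith
  have hν1 : (1 : ℝ) ≤ nm ν := nm_ge_one hν
  set Sm : ℝ := ∑ g₂ ∈ S X, ∑ g₃ ∈ S X, (nm g₂ : ℝ) ^ 2 * HW R Z g₂ g₃ *
          ∑ d ∈ (pb Z).filter (DD ν g₂ g₃),
            (nm d : ℝ) * ‖b d‖ ^ 2 * ‖CS (sub c (g₂ * g₃)) d‖ ^ 2 with hSm
  have hSm0 : 0 ≤ Sm := by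
    rw [hSm]
    refine Finset.sum_nonneg fun x _ => Finset.sum_nonneg fun y _ =>
      mul_nonneg (mul_nonneg (by positivity) (HW_nonneg hR0 hZ0 x y)) ?_
    exact Finset.sum_nonneg fun _ _ => by positivity
  set W1 : ℝ := (Ct * (nm ν : ℝ) ^ δ) ^ 2 * (Ct * R ^ δ) ^ 3 * (Ci * X ^ δ) with hW1
  set LSB : ℝ := K * (R * Z) ^ δ with hLSB
  have hLSB0 : 0 ≤ LSB := by rw [hLSB]; positivity
  have hW10 : 0 ≤ W1 := by
    rw [hW1]
    have : 0 ≤ Ct := by linarith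
    have : 0 ≤ Ci := by linarith
    positivity
  have hstep1 : ∀ r ∈ (S R).filter (fun r => IsCoprime r ν),
      ‖∑ d ∈ pb Z, b d * ∑' D : Eis, c D * conj (gs (κ * r * ν ^ 2 * D) d)‖ ^ 2 ≤
      W1 * ∑ p ∈ (AA ν R X ×ˢ S R).filter (fun p => (p.1.2.2.2.2 * p.1.2.2.2.1) * p.2 = r),
        (nm p.1.2.2.1 : ℝ) * ‖Ua κ b c Z p.1 p.2‖ ^ 2 := by
    intro r hr
    rw [Finset.mem_filter] at hr
    rw [master2 hR hZ hX hκ hν hνs hc hs hr.1 hr.2]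
    refine (cauchy_w _ (fun p => (nm p.1.2.2.1 : ℝ)) ?_ _).trans ?_
    · intro p hp
      rw [Finset.mem_filter, Finset.mem_product, mem_AA hν.ne_zero hR0 hX0] at hp
      exact lt_of_lt_of_le one_pos (nm_ge_one hp.1.1.1.2.2.1.2.1)
    · apply mul_le_mul_of_nonneg_right _ (Finset.sum_nonneg fun _ _ => by positivity)
      refine (first_factor hR hX hν hr.1).trans ?_
      obtain ⟨h1, h2, h3⟩ := (mem_S hR0).mp hr.1
      have t1 : (tau ν : ℝ) ≤ Ct * (nm ν : ℝ) ^ δ := hCt ν hν.ne_zero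
      have t2 : (tau r : ℝ) ≤ Ct * R ^ δ := (hCt r h2.ne_zero).trans
        (mul_le_mul_of_nonneg_left (Real.rpow_le_rpow (by positivity) h1 hδ0.le) (by linarith))
      have t3 := hCi X hX
      rw [hW1]
      have t4 : 0 ≤ ∑ x ∈ S X, ((nm x : ℝ))⁻¹ := Finset.sum_nonneg fun _ _ => by positivity
      have t5 : (tau ν : ℝ) ^ 2 ≤ (Ct * (nm ν : ℝ) ^ δ) ^ 2 := pow_le_pow_left₀ (Nat.cast_nonneg _) t1 2
      have t6 : (tau r : ℝ) ^ 3 ≤ (Ct * R ^ δ) ^ 3 := pow_le_pow_left₀ (Nat.cast_nonneg _) t2 3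
      exact mul_le_mul (mul_le_mul t5 t6 (by positivity) (by positivity)) t3 t4 (by positivity)
  have hstep2 : ∑ r ∈ (S R).filter (fun r => IsCoprime r ν),
      ‖∑ d ∈ pb Z, b d * ∑' D : Eis, c D * conj (gs (κ * r * ν ^ 2 * D) d)‖ ^ 2 ≤
      W1 * ∑ a ∈ AA ν R X, (nm a.2.2.1 : ℝ) * ∑ s ∈ S R,
        (if (a.2.2.2.2 * a.2.2.2.1) * s ∈ S R then ‖Ua κ b c Z a s‖ ^ 2 else 0) := by
    refine (Finset.sum_le_sum hstep1).trans ?_
    rw [← Finset.mul_sum]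
    apply mul_le_mul_of_nonneg_left _ hW10
    refine (second_factor (R := R) _ (Finset.filter_subset _ _) (AA ν R X)
      (fun a s => (nm a.2.2.1 : ℝ) * ‖Ua κ b c Z a s‖ ^ 2) (fun a s => by positivity)).trans ?_
    refine Finset.sum_le_sum fun a _ => ?_
    rw [Finset.mul_sum]
    refine Finset.sum_le_sum fun s _ => ?_
    split_ifs
    · exact le_rfl
    · rw [mul_zero]
  have hstep3 : ∀ a ∈ AA ν R X, (nm a.2.2.1 : ℝ) * ∑ s ∈ S R,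
        (if (a.2.2.2.2 * a.2.2.2.1) * s ∈ S R then ‖Ua κ b c Z a s‖ ^ 2 else 0) ≤
      LSB * (nm ν : ℝ) * ((nm a.2.2.1 : ℝ) ^ 2 * HW R Z a.2.2.1 a.2.2.2.1 * ∑ m ∈ S Z,
        (if GG Z a.1 a.2.2.1 a.2.2.2.1 a.2.2.2.2 m then
          wt b c a.2.2.1 a.2.2.2.1 (QQ a.1 a.2.2.1 a.2.2.2.1 a.2.2.2.2 m) else 0)) := by
    intro a ha
    rw [mem_AA hν.ne_zero hR0 hX0] at ha
    obtain ⟨⟨h1, h2, h3, h4, h5⟩, h6⟩ := ha
    have h := hLS R Z hR hZ κ hκ b c a.1 a.2.1 a.2.2.1 a.2.2.2.1 a.2.2.2.2 h1.1 h3.2.1 h4.2.1 h5.2.1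
    refine h.trans ?_
    have hw : 0 ≤ ∑ m ∈ S Z,
        (if GG Z a.1 a.2.2.1 a.2.2.2.1 a.2.2.2.2 m then
          wt b c a.2.2.1 a.2.2.2.1 (QQ a.1 a.2.2.1 a.2.2.2.1 a.2.2.2.2 m) else 0) := by
      refine Finset.sum_nonneg fun m _ => ?_
      split_ifs
      · exact wt_nonneg _ _ _ _ _
      · exact le_rfl
    have hn : (nm a.1 : ℝ) ≤ nm ν := by exact_mod_cast Div277.nm_le_of_dvd hν.ne_zero h1.2
    have hH := HW_nonneg hR0 hZ0 a.2.2.1 a.2.2.2.1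
    calc _ = LSB * (nm a.1 : ℝ) * ((nm a.2.2.1 : ℝ) ^ 2 * HW R Z a.2.2.1 a.2.2.2.1 * ∑ m ∈ S Z,
        (if GG Z a.1 a.2.2.1 a.2.2.2.1 a.2.2.2.2 m then
          wt b c a.2.2.1 a.2.2.2.1 (QQ a.1 a.2.2.1 a.2.2.2.1 a.2.2.2.2 m) else 0)) := by
          rw [hLSB]; ring
      _ ≤ _ := by gcongr
  have hT : ∀ d ∈ pb Z, (tau d : ℝ) ^ 2 ≤ (Ct * Z ^ δ) ^ 2 := by
    intro d hd
    obtain ⟨h1, h2⟩ := (mem_pb hZ0).mp hd
    have t2 : (tau d : ℝ) ≤ Ct * Z ^ δ := (hCt d h2.ne_zero).trans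
      (mul_le_mul_of_nonneg_left (Real.rpow_le_rpow (by positivity) h1 hδ0.le) (by linarith))
    exact pow_le_pow_left₀ (Nat.cast_nonneg _) t2 2
  have hstep4 : ∑ a ∈ AA ν R X, (nm a.2.2.1 : ℝ) ^ 2 * HW R Z a.2.2.1 a.2.2.2.1 * ∑ m ∈ S Z,
        (if GG Z a.1 a.2.2.1 a.2.2.2.1 a.2.2.2.2 m then
          wt b c a.2.2.1 a.2.2.2.1 (QQ a.1 a.2.2.1 a.2.2.2.1 a.2.2.2.2 m) else 0) ≤
      (Ct * Z ^ δ) ^ 2 * Sm := by
    set f : Eis → Eis → Eis → Eis → ℝ := fun n x y z => (nm x : ℝ) ^ 2 * HW R Z x y * ∑ m ∈ S Z,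
        (if GG Z n x y z m then wt b c x y (QQ n x y z m) else 0) with hf
    have hf0 : ∀ n x y z, 0 ≤ f n x y z := by
      intro n x y z
      rw [hf]
      refine mul_nonneg (mul_nonneg (by positivity) (HW_nonneg hR0 hZ0 x y))
        (Finset.sum_nonneg fun m _ => ?_)
      split_ifs
      · exact wt_nonneg _ _ _ _ _
      · exact le_rfl
    -- `v` is determined by `n`
    have e1 : ∑ a ∈ AA ν R X, f a.1 a.2.2.1 a.2.2.2.1 a.2.2.2.2 ≤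
        ∑ n ∈ dvs ν, ∑ x ∈ S X, ∑ y ∈ S X, ∑ z ∈ S R, f n x y z := by
      have e2 : ∑ n ∈ dvs ν, ∑ x ∈ S X, ∑ y ∈ S X, ∑ z ∈ S R, f n x y z =
          ∑ q ∈ dvs ν ×ˢ S X ×ˢ S X ×ˢ S R, f q.1 q.2.1 q.2.2.1 q.2.2.2 := by
        simp only [Finset.sum_product]
      rw [e2]
      have hinj : Set.InjOn (fun a : Ta => ((a.1, a.2.2.1, a.2.2.2.1, a.2.2.2.2) :
          Eis × Eis × Eis × Eis)) (AA ν R X) := by
        rintro ⟨a1, a2, a3, a4, a5⟩ ha ⟨b1, b2, b3, b4, b5⟩ hb h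
        rw [Finset.mem_coe, mem_AA hν.ne_zero hR0 hX0] at ha hb
        simp only [Prod.mk.injEq] at h ⊢
        obtain ⟨rfl, rfl, rfl, rfl⟩ := h
        refine ⟨rfl, ?_, rfl, rfl, rfl⟩
        exact mul_left_cancel₀ ha.1.1.1.ne_zero (ha.2.trans hb.2.symm)
      have e3 : ∑ a ∈ AA ν R X, f a.1 a.2.2.1 a.2.2.2.1 a.2.2.2.2 =
          ∑ q ∈ (AA ν R X).image (fun a : Ta => ((a.1, a.2.2.1, a.2.2.2.1, a.2.2.2.2) :
          Eis × Eis × Eis × Eis)), f q.1 q.2.1 q.2.2.1 q.2.2.2 := by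
        rw [Finset.sum_image hinj]
      rw [e3]
      refine Finset.sum_le_sum_of_subset_of_nonneg ?_ (fun q _ _ => hf0 _ _ _ _)
      intro q hq
      rw [Finset.mem_image] at hq
      obtain ⟨a, ha, rfl⟩ := hq
      rw [mem_AA hν.ne_zero hR0 hX0] at ha
      simp only [Finset.mem_product]
      rw [mem_dvs hν.ne_zero, mem_S hX0, mem_S hX0, mem_S hR0]
      exact ⟨ha.1.1, ha.1.2.2.1, ha.1.2.2.2.1, ha.1.2.2.2.2⟩
    refine e1.trans ?_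
    rw [Finset.sum_comm, hSm, Finset.mul_sum]
    refine Finset.sum_le_sum fun x hx => ?_
    rw [Finset.sum_comm, Finset.mul_sum]
    refine Finset.sum_le_sum fun y hy => ?_
    have hx' := ((mem_S hX0).mp hx).2.1
    have hy' := ((mem_S hX0).mp hy).2.1
    have h7 := div_sum' (R := R) (Z := Z) hR hZ hν hx' hy' hT (wt b c x y) (wt_nonneg b c x y)
    have e4 : ∑ n ∈ dvs ν, ∑ z ∈ S R, f n x y z = (nm x : ℝ) ^ 2 * HW R Z x y *
        ∑ n ∈ dvs ν, ∑ z ∈ S R, ∑ m ∈ S Z,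
          (if GG Z n x y z m then wt b c x y (QQ n x y z m) else 0) := by
      rw [hf, Finset.mul_sum]
      refine Finset.sum_congr rfl fun n _ => ?_
      rw [Finset.mul_sum]
    rw [e4]
    calc _ ≤ (nm x : ℝ) ^ 2 * HW R Z x y * ((Ct * Z ^ δ) ^ 2 *
          ∑ d ∈ (pb Z).filter (DD ν x y), wt b c x y d) :=
          mul_le_mul_of_nonneg_left h7 (mul_nonneg (by positivity) (HW_nonneg hR0 hZ0 x y))
      _ = _ := by unfold wt; ring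
  have hstep5 : ∑ r ∈ (S R).filter (fun r => IsCoprime r ν),
      ‖∑ d ∈ pb Z, b d * ∑' D : Eis, c D * conj (gs (κ * r * ν ^ 2 * D) d)‖ ^ 2 ≤
      W1 * (LSB * (nm ν : ℝ) * ((Ct * Z ^ δ) ^ 2 * Sm)) := by
    refine hstep2.trans (mul_le_mul_of_nonneg_left ?_ hW10)
    refine (Finset.sum_le_sum hstep3).trans ?_
    rw [← Finset.mul_sum]
    exact mul_le_mul_of_nonneg_left hstep4 (by positivity)
  refine hstep5.trans ?_
  have hCt0 : 0 ≤ Ct := by linarith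
  have hCi0 : 0 ≤ Ci := by linarith
  have hpow : ((nm ν : ℝ) ^ δ) ^ 2 * (R ^ δ) ^ 3 * X ^ δ * (R * Z) ^ δ * (Z ^ δ) ^ 2 ≤
      (R * Z * X * nm ν) ^ ε := by
    have a1 : (1 : ℝ) ≤ (nm ν : ℝ) ^ δ := Real.one_le_rpow hν1 hδ0.le
    have a2 : (1 : ℝ) ≤ R ^ δ := Real.one_le_rpow hR hδ0.le
    have a3 : (1 : ℝ) ≤ X ^ δ := Real.one_le_rpow hX hδ0.le
    have a4 : (1 : ℝ) ≤ Z ^ δ := Real.one_le_rpow hZ hδ0.le
    have e1 : (R * Z * X * nm ν) ^ ε = (R ^ δ) ^ 4 * (Z ^ δ) ^ 4 * (X ^ δ) ^ 4 *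
        ((nm ν : ℝ) ^ δ) ^ 4 := by
      rw [Real.mul_rpow (by positivity) (by positivity), Real.mul_rpow (by positivity) hX0,
        Real.mul_rpow hR0 hZ0]
      have h4 : ∀ t : ℝ, 0 ≤ t → t ^ ε = (t ^ δ) ^ 4 := by
        intro t ht
        rw [← Real.rpow_natCast, ← Real.rpow_mul ht]
        congr 1
        rw [hδ]; push_cast; ring
      rw [h4 R hR0, h4 Z hZ0, h4 X hX0, h4 _ (by positivity)]
    rw [e1, Real.mul_rpow hR0 hZ0]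
    set r1 := R ^ δ
    set z1 := Z ^ δ
    set x1 := X ^ δ
    set n1 := (nm ν : ℝ) ^ δ
    have b1 : z1 ^ 3 ≤ z1 ^ 4 := pow_le_pow_right₀ a4 (by norm_num)
    have b2 : x1 ≤ x1 ^ 4 := by
      calc x1 = x1 ^ 1 := (pow_one _).symm
        _ ≤ x1 ^ 4 := pow_le_pow_right₀ a3 (by norm_num)
    have b3 : n1 ^ 2 ≤ n1 ^ 4 := pow_le_pow_right₀ a1 (by norm_num)
    calc n1 ^ 2 * r1 ^ 3 * x1 * (r1 * z1) * z1 ^ 2 = r1 ^ 4 * z1 ^ 3 * x1 * n1 ^ 2 := by ring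
      _ ≤ r1 ^ 4 * z1 ^ 4 * x1 ^ 4 * n1 ^ 4 := by gcongr
  calc W1 * (LSB * (nm ν : ℝ) * ((Ct * Z ^ δ) ^ 2 * Sm))
      = (Ct ^ 2 * Ct ^ 3 * Ci * K * Ct ^ 2) *
        (((nm ν : ℝ) ^ δ) ^ 2 * (R ^ δ) ^ 3 * X ^ δ * (R * Z) ^ δ * (Z ^ δ) ^ 2) * (nm ν : ℝ) *
        Sm := by
        rw [hW1, hLSB]; ring
    _ ≤ (max 1 (Ct ^ 2 * Ct ^ 3 * Ci * K * Ct ^ 2)) * (R * Z * X * nm ν) ^ ε * (nm ν : ℝ) *
        Sm := by
        gcongr
        exact le_max_right _ _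

end Crest.Agent.R017.H1401
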