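import Crest.Agent.R017.H1g_401
import Crest.Agent.R012.Glue1_372

/-!
# Row 17, block C70, leaf E2, input (H1) (helper401), part m: joint large sieve per `g₂`-block

`ls_joint` : the large sieve with `x = g₂` kept inside (conductor form)
-/

set_option autoImplicit false

noncomputable section

open Finset
open scoped ComplexConjugate

namespace Crest.Agent.R017.H1401

open Crest.Agent.R012 Crest.Agent.R012.Eis Crest.Agent.R012.LS2 Crest.Agent.R012.GaussLoc283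
open Crest.Agent.R012.Div277 (tau dvs mem_dvs tau_le_rpow)
open Crest.Agent.R012.BilG811 (hbB Sq bil_ls)
open Crest.Agent.R012.NonCube52 (Ker kv Good L1Prop)
open Crest.Agent.R017.CM106

/-- duality -/
lemma dual_ls {ι κ : Type*} (I : Finset ι) (J : Finset κ) (a : ι → κ → ℂ) {Δ : ℝ} (hΔ : 0 ≤ Δ)
    (h : ∀ β : κ → ℂ, ∑ i ∈ I, ‖∑ j ∈ J, β j * a i j‖ ^ 2 ≤ Δ * ∑ j ∈ J, ‖β j‖ ^ 2) (γ : ι → ℂ) :
    ∑ j ∈ J, ‖∑ i ∈ I, γ i * a i j‖ ^ 2 ≤ Δ * ∑ i ∈ I, ‖γ i‖ ^ 2 := by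
  set T : ℝ := ∑ j ∈ J, ‖∑ i ∈ I, γ i * a i j‖ ^ 2 with hT
  have hT0 : 0 ≤ T := Finset.sum_nonneg fun _ _ => by positivity
  set β : κ → ℂ := fun j => conj (∑ i ∈ I, γ i * a i j) with hβ
  have e1 : (T : ℂ) = ∑ i ∈ I, γ i * ∑ j ∈ J, β j * a i j := by
    calc (T : ℂ) = ∑ j ∈ J, β j * ∑ i ∈ I, γ i * a i j := by
          rw [hT]; push_cast
          refine Finset.sum_congr rfl fun j _ => ?_
          rw [hβ]
          rw [← Complex.conj_mul']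
      _ = ∑ j ∈ J, ∑ i ∈ I, β j * (γ i * a i j) :=
          Finset.sum_congr rfl fun j _ => Finset.mul_sum _ _ _
      _ = ∑ i ∈ I, ∑ j ∈ J, β j * (γ i * a i j) := Finset.sum_comm
      _ = _ := by
          refine Finset.sum_congr rfl fun i _ => ?_
          rw [Finset.mul_sum]
          exact Finset.sum_congr rfl fun j _ => by ring
  have e2 : T ≤ ∑ i ∈ I, ‖γ i‖ * ‖∑ j ∈ J, β j * a i j‖ := by
    calc T = ‖(T : ℂ)‖ := by rw [Complex.norm_real, Real.norm_of_nonneg hT0]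
      _ ≤ _ := by
          rw [e1]
          exact (norm_sum_le _ _).trans (le_of_eq (Finset.sum_congr rfl fun i _ => norm_mul _ _))
  have e3 : T ^ 2 ≤ (∑ i ∈ I, ‖γ i‖ ^ 2) * (Δ * T) := by
    calc T ^ 2 ≤ (∑ i ∈ I, ‖γ i‖ * ‖∑ j ∈ J, β j * a i j‖) ^ 2 := pow_le_pow_left₀ hT0 e2 2
      _ ≤ (∑ i ∈ I, ‖γ i‖ ^ 2) * ∑ i ∈ I, ‖∑ j ∈ J, β j * a i j‖ ^ 2 :=
          Finset.sum_mul_sq_le_sq_mul_sq I _ _
      _ ≤ (∑ i ∈ I, ‖γ i‖ ^ 2) * (Δ * T) := by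
          refine mul_le_mul_of_nonneg_left ((h β).trans (le_of_eq ?_))
            (Finset.sum_nonneg fun _ _ => by positivity)
          rw [hT, hβ]
          simp only [RCLike.norm_conj]
  rcases hT0.eq_or_lt with h0 | h0
  · rw [← h0]
    exact mul_nonneg hΔ (Finset.sum_nonneg fun _ _ => by positivity)
  · have : T * T ≤ (Δ * ∑ i ∈ I, ‖γ i‖ ^ 2) * T := by nlinarith [e3]
    exact le_of_mul_le_mul_right this h0

/-- the dual conductor form -/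
theorem l1_dual : ∃ C : ℝ, 0 < C ∧ ∀ B Q : ℝ, 1 ≤ B → 1 ≤ Q → ∀ P : Finset (Eis × Eis),
    (∀ p ∈ P, IsPrim p.1 ∧ IsPrim p.2 ∧ Squarefree p.1 ∧ Squarefree p.2 ∧ IsCoprime p.1 p.2 ∧
      (nm p.1 : ℝ) * nm p.2 ≤ Q) →
    ∀ T : Finset Eis, (∀ s ∈ T, IsPrim s ∧ (nm s : ℝ) ≤ B) → ∀ γ : Eis × Eis → ℂ,
      ∑ s ∈ T, ‖∑ p ∈ P, γ p * sy s (p.1 * p.2 ^ 2)‖ ^ 2 ≤ C * (B + Q ^ 2) * ∑ p ∈ P, ‖γ p‖ ^ 2 := by
  classical
  obtain ⟨C, hC, h⟩ := Glue372.L1Prop_holds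
  refine ⟨C, hC, fun B Q hB hQ P hP T hT γ => ?_⟩
  refine dual_ls P T (fun p s => sy s (p.1 * p.2 ^ 2)) (by positivity) (fun β => ?_) γ
  have h1 := h B Q hB hQ (P.image fun p => (((0, 0), p) : Ker)) (fun κ hκ => by
    rw [Finset.mem_image] at hκ
    obtain ⟨p, hp, rfl⟩ := hκ
    obtain ⟨a1, a2, a3, a4, a5, a6⟩ := hP p hp
    exact ⟨⟨by norm_num, by norm_num, a1, a2, a3, a4, a5⟩, a6⟩) T hT β
  rw [Finset.sum_image (fun p _ p' _ h => (Prod.mk.inj h).2)] at h1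
  refine le_trans (le_of_eq ?_) h1
  refine Finset.sum_congr rfl fun p hp => ?_
  obtain ⟨a1, a2, a3, a4, a5, a6⟩ := hP p hp
  congr 2
  refine Finset.sum_congr rfl fun s hs => ?_
  have e : kv (((0, 0), p) : Ker) = p.1 * p.2 ^ 2 := by
    unfold NonCube52.kv; simp
  rw [e, syAx.recip s (p.1 * p.2 ^ 2) (hT s hs).1 (a1.mul (a2.pow 2))]

open Classical in
/-- **the large sieve with `x` kept inside** -/
theorem ls_joint : ∃ K : ℝ, 0 < K ∧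
    ∀ R Z G : ℝ, 1 ≤ R → 1 ≤ Z → 1 ≤ G → ∀ κ : Eis, Cp κ → ∀ (b c : Eis → ℂ) (Bk : Finset Eis)
      (n v y z : Eis), IsPrim n → IsPrim y → IsPrim z →
      (∀ x ∈ Bk, IsPrim x ∧ Squarefree x ∧ G ≤ nm x) →
      ∑ s ∈ S R, (if (z * y) * s ∈ S R then ‖∑ x ∈ Bk, UU κ b c Z n v x y z s‖ ^ 2 else 0) ≤
        K * (R + (Z / G) ^ 2) * nm n *
          ∑ x ∈ Bk, (nm x : ℝ) * ∑ m ∈ S Z, if GG Z n x y z m then wt b c x y (QQ n x y z m) else 0
    := by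
  obtain ⟨K, hK, hLS⟩ := l1_dual
  refine ⟨K, hK, fun R Z G hR hZ hG κ hκ b c Bk n v y z hn hy hz hBk => ?_⟩
  have hR0 : (0 : ℝ) ≤ R := by linarith
  have hZ0 : (0 : ℝ) ≤ Z := by linarith
  have hG0 : (0 : ℝ) < G := by linarith
  have hY1 : (1 : ℝ) ≤ nm y := by exact_mod_cast nm_pos.mpr hy.ne_zero
  have hZ1 : (1 : ℝ) ≤ nm z := by exact_mod_cast nm_pos.mpr hz.ne_zero
  have hN1 : (1 : ℝ) ≤ nm n := by exact_mod_cast nm_pos.mpr hn.ne_zero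
  set A := (S R).filter (fun s => (z * y) * s ∈ S R) with hA
  set P := ((S Z) ×ˢ Bk).filter (fun p => GG Z n p.2 y z p.1) with hP
  set q : Eis := z ^ 2 * (y * n) ^ 3 with hq
  have hqp : IsPrim q := (hz.pow 2).mul ((hy.mul hn).pow 3)
  have hnq : (nm q : ℝ) = (nm z : ℝ) ^ 2 * ((nm y : ℝ) * nm n) ^ 3 := by
    rw [hq]; simp only [nm_mul, nm_pow]; push_cast; ring
  have hq1 : (1 : ℝ) ≤ nm q := by exact_mod_cast nm_pos.mpr hqp.ne_zero
  have hq0 : (0 : ℝ) < nm q := by linarith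
  -- right side as a sum over `P`
  have hRS : ∑ x ∈ Bk, (nm x : ℝ) * ∑ m ∈ S Z, (if GG Z n x y z m then
      wt b c x y (QQ n x y z m) else 0) = ∑ p ∈ P, (nm p.2 : ℝ) * wt b c p.2 y (QQ n p.2 y z p.1) := by
    rw [hP, Finset.sum_filter, Finset.sum_product_right]
    refine Finset.sum_congr rfl fun x _ => ?_
    rw [Finset.mul_sum]
    refine Finset.sum_congr rfl fun m _ => ?_
    split_ifs <;> simp
  rw [← Finset.sum_filter, ← hA, hRS]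
  have hrhs : 0 ≤ K * (R + (Z / G) ^ 2) * nm n *
      ∑ p ∈ P, (nm p.2 : ℝ) * wt b c p.2 y (QQ n p.2 y z p.1) := by
    apply mul_nonneg (by positivity)
    exact Finset.sum_nonneg fun p _ => mul_nonneg (by positivity) (wt_nonneg _ _ _ _ _)
  -- the coefficients
  set β : Eis × Eis → ℂ := fun p => b (QQ n p.2 y z p.1) *
    (conj (gs (κ * ((z * (y * n)) * (p.2 * (y * n)))) (QQ n p.2 y z p.1)) *
      sy (v ^ 2) (QQ n p.2 y z p.1)) * CS (sub c (p.2 * y)) (QQ n p.2 y z p.1) with hβ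
  have hP' : ∀ p ∈ P, (IsPrim p.1 ∧ Squarefree p.1) ∧ (IsPrim p.2 ∧ Squarefree p.2 ∧ G ≤ nm p.2) ∧
      GG Z n p.2 y z p.1 := by
    intro p hp
    rw [hP, Finset.mem_filter, Finset.mem_product, mem_S hZ0] at hp
    exact ⟨hp.1.1.2, hBk _ hp.1.2, hp.2⟩
  have hU : ∀ s ∈ A, ‖∑ x ∈ Bk, UU κ b c Z n v x y z s‖ ≤
      ‖∑ p ∈ P, β p * sy s (p.1 * p.2 ^ 2)‖ := by
    intro s hs
    have e1 : ∑ x ∈ Bk, UU κ b c Z n v x y z s = sy s q * ∑ p ∈ P, β p * sy s (p.1 * p.2 ^ 2) := by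
      rw [hP, Finset.sum_filter, Finset.sum_product_right, Finset.mul_sum]
      refine Finset.sum_congr rfl fun x hx => ?_
      obtain ⟨hx1, hx2, hx3⟩ := hBk x hx
      unfold UU
      rw [Finset.mul_sum]
      refine Finset.sum_congr rfl fun m hm => ?_
      have hm1 := ((mem_S hZ0).mp hm).2.1
      by_cases hg : GG Z n x y z m
      · rw [if_pos hg, if_pos hg]
        have hmx : IsPrim (m * x ^ 2) := hm1.mul (hx1.pow 2)
        have hQm : QQ n x y z m = (m * x ^ 2) * q := by unfold QQ; rw [hq]; ring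
        have hQp : IsPrim (QQ n x y z m) := hQm ▸ hmx.mul hqp
        have e2 : sy (s * v ^ 2) (QQ n x y z m) =
            (sy s (m * x ^ 2) * sy s q) * sy (v ^ 2) (QQ n x y z m) := by
          rw [syAx.mul_left _ _ _ hQp]
          congr 1
          rw [hQm, syAx.mul_right _ _ _ hmx hqp]
        simp only [TT, dT, hβ]
        rw [e2]
        ring
      · rw [if_neg hg, if_neg hg, mul_zero]
    rw [e1, norm_mul]
    exact mul_le_of_le_one_left (norm_nonneg _) (norm_sy_le' hqp)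
  rcases A.eq_empty_or_nonempty with hAe | hAne
  · rw [hAe, Finset.sum_empty]; exact hrhs
  rcases P.eq_empty_or_nonempty with hPe | hPne
  · have : ∀ s ∈ A, ‖∑ x ∈ Bk, UU κ b c Z n v x y z s‖ ^ 2 = 0 := by
      intro s hs
      have h1 := hU s hs
      rw [hPe, Finset.sum_empty, norm_zero] at h1
      have h2 : ‖∑ x ∈ Bk, UU κ b c Z n v x y z s‖ = 0 := le_antisymm h1 (norm_nonneg _)
      rw [h2]; norm_num
    rw [Finset.sum_congr rfl this, Finset.sum_const_zero]; exact hrhs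
  have hSA : ∀ s ∈ A, IsPrim s ∧ (nm s : ℝ) ≤ R / ((nm z : ℝ) * nm y) := by
    intro s hs
    rw [hA, Finset.mem_filter, mem_S hR0, mem_S hR0] at hs
    refine ⟨hs.1.2.1, ?_⟩
    rw [le_div_iff₀ (by positivity)]
    have := hs.2.1
    simp only [nm_mul] at this
    push_cast at this
    linarith
  have hSP : ∀ p ∈ P, IsPrim p.1 ∧ IsPrim p.2 ∧ Squarefree p.1 ∧ Squarefree p.2 ∧
      IsCoprime p.1 p.2 ∧ (nm p.1 : ℝ) * nm p.2 ≤ Z / (G * nm q) := by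
    intro p hp
    obtain ⟨⟨a1, a2⟩, ⟨a3, a4, a5⟩, a6⟩ := hP' p hp
    have hc : IsCoprime p.1 p.2 := by
      have h3 : p.1 * p.2 ∣ p.1 * (p.2 * ((y * n) * z)) := ⟨(y * n) * z, by ring⟩
      exact (squarefree_mul_iff.mp (a6.1.squarefree_of_dvd h3)).1.isCoprime
    refine ⟨a1, a3, a2, a4, hc, ?_⟩
    have h4 := a6.2
    have hQm : QQ n p.2 y z p.1 = (p.1 * p.2 ^ 2) * q := by unfold QQ; rw [hq]; ring
    rw [hQm, nm_mul, nm_mul, nm_pow] at h4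
    push_cast at h4
    rw [le_div_iff₀ (by positivity)]
    have h5 : (0 : ℝ) ≤ nm p.1 := Nat.cast_nonneg _
    calc (nm p.1 : ℝ) * nm p.2 * (G * nm q) ≤ (nm p.1 : ℝ) * nm p.2 * (nm p.2 * nm q) := by gcongr
      _ = (nm p.1 : ℝ) * (nm p.2 : ℝ) ^ 2 * nm q := by ring
      _ ≤ Z := h4
  have hC1 : 1 ≤ R / ((nm z : ℝ) * nm y) := by
    obtain ⟨s, hs⟩ := hAne
    obtain ⟨h1, h3⟩ := hSA s hs
    exact le_trans (by exact_mod_cast nm_pos.mpr h1.ne_zero) h3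
  have hD1 : 1 ≤ Z / (G * nm q) := by
    obtain ⟨p, hp⟩ := hPne
    obtain ⟨h1, h2, -, -, -, h3⟩ := hSP p hp
    refine le_trans ?_ h3
    have t1 : (1 : ℝ) ≤ nm p.1 := by exact_mod_cast nm_pos.mpr h1.ne_zero
    have t2 : (1 : ℝ) ≤ nm p.2 := by exact_mod_cast nm_pos.mpr h2.ne_zero
    exact one_le_mul_of_one_le_of_one_le t1 t2
  have hmain := hLS _ _ hC1 hD1 P hSP A hSA β
  have hβn : ∑ p ∈ P, ‖β p‖ ^ 2 ≤ ((nm z : ℝ) * nm y * nm n) *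
      ∑ p ∈ P, (nm p.2 : ℝ) * wt b c p.2 y (QQ n p.2 y z p.1) := by
    rw [Finset.mul_sum]
    refine Finset.sum_le_sum fun p hp => ?_
    obtain ⟨⟨a1, a2⟩, ⟨a3, a4, a5⟩, a6⟩ := hP' p hp
    have hg := gs_bd hκ hn a3 hy hz a1 a6.1
    have hQm : QQ n p.2 y z p.1 = (p.1 * p.2 ^ 2) * q := by unfold QQ; rw [hq]; ring
    have hQp : IsPrim (QQ n p.2 y z p.1) := hQm ▸ (a1.mul (a3.pow 2)).mul hqp
    have hsy : ‖sy (v ^ 2) (QQ n p.2 y z p.1)‖ ≤ 1 := norm_sy_le' hQp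
    simp only [hβ, norm_mul, RCLike.norm_conj]
    unfold wt
    calc (‖b (QQ n p.2 y z p.1)‖ * (‖gs (κ * ((z * (y * n)) * (p.2 * (y * n))))
          (QQ n p.2 y z p.1)‖ * ‖sy (v ^ 2) (QQ n p.2 y z p.1)‖) *
          ‖CS (sub c (p.2 * y)) (QQ n p.2 y z p.1)‖) ^ 2
        = ‖b (QQ n p.2 y z p.1)‖ ^ 2 * ‖CS (sub c (p.2 * y)) (QQ n p.2 y z p.1)‖ ^ 2 *
          (‖gs (κ * ((z * (y * n)) * (p.2 * (y * n)))) (QQ n p.2 y z p.1)‖ ^ 2 *
          ‖sy (v ^ 2) (QQ n p.2 y z p.1)‖ ^ 2) := by ring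
      _ ≤ ‖b (QQ n p.2 y z p.1)‖ ^ 2 * ‖CS (sub c (p.2 * y)) (QQ n p.2 y z p.1)‖ ^ 2 *
          (((nm (QQ n p.2 y z p.1) : ℝ) * ((nm p.2 : ℝ) * nm z * nm y * nm n)) * 1) := by
        gcongr
        exact pow_le_one₀ (norm_nonneg _) hsy
      _ = _ := by ring
  have hSw : 0 ≤ ∑ p ∈ P, (nm p.2 : ℝ) * wt b c p.2 y (QQ n p.2 y z p.1) :=
    Finset.sum_nonneg fun p _ => mul_nonneg (by positivity) (wt_nonneg _ _ _ _ _)
  have hW : (R / ((nm z : ℝ) * nm y) + (Z / (G * nm q)) ^ 2) * ((nm z : ℝ) * nm y) ≤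
      R + (Z / G) ^ 2 := by
    have t1 : R / ((nm z : ℝ) * nm y) * ((nm z : ℝ) * nm y) = R := by field_simp
    have t2 : (Z / (G * nm q)) ^ 2 * ((nm z : ℝ) * nm y) ≤ (Z / G) ^ 2 := by
      have e : (Z / (G * nm q)) ^ 2 = (Z / G) ^ 2 / (nm q : ℝ) ^ 2 := by
        rw [← div_div, div_pow]
      rw [e, div_mul_eq_mul_div, div_le_iff₀ (by positivity)]
      apply mul_le_mul_of_nonneg_left _ (by positivity)
      have h1 : (nm z : ℝ) * nm y ≤ nm q := by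
        rw [hnq]
        calc (nm z : ℝ) * nm y ≤ (nm z : ℝ) ^ 2 * ((nm y : ℝ) * nm n) := by
              apply mul_le_mul (by nlinarith) (by nlinarith) (by positivity) (by positivity)
          _ ≤ (nm z : ℝ) ^ 2 * ((nm y : ℝ) * nm n) ^ 3 := by
              apply mul_le_mul_of_nonneg_left _ (by positivity)
              have : (1 : ℝ) ≤ (nm y : ℝ) * nm n := one_le_mul_of_one_le_of_one_le hY1 hN1
              calc (nm y : ℝ) * nm n = ((nm y : ℝ) * nm n) ^ 1 := (pow_one _).symm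
                _ ≤ _ := pow_le_pow_right₀ this (by norm_num)
      nlinarith
    rw [add_mul, t1]; linarith
  calc ∑ s ∈ A, ‖∑ x ∈ Bk, UU κ b c Z n v x y z s‖ ^ 2
      ≤ ∑ s ∈ A, ‖∑ p ∈ P, β p * sy s (p.1 * p.2 ^ 2)‖ ^ 2 :=
        Finset.sum_le_sum fun s hs => pow_le_pow_left₀ (norm_nonneg _) (hU s hs) 2
    _ ≤ K * (R / ((nm z : ℝ) * nm y) + (Z / (G * nm q)) ^ 2) * (((nm z : ℝ) * nm y * nm n) *
          ∑ p ∈ P, (nm p.2 : ℝ) * wt b c p.2 y (QQ n p.2 y z p.1)) :=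
        hmain.trans (mul_le_mul_of_nonneg_left hβn (by positivity))
    _ = K * ((R / ((nm z : ℝ) * nm y) + (Z / (G * nm q)) ^ 2) * ((nm z : ℝ) * nm y)) * nm n *
          ∑ p ∈ P, (nm p.2 : ℝ) * wt b c p.2 y (QQ n p.2 y z p.1) := by ring
    _ ≤ K * (R + (Z / G) ^ 2) * nm n *
          ∑ p ∈ P, (nm p.2 : ℝ) * wt b c p.2 y (QQ n p.2 y z p.1) :=
        mul_le_mul_of_nonneg_right (mul_le_mul_of_nonneg_right
          (mul_le_mul_of_nonneg_left hW hK.le) (by positivity)) hSw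

end Crest.Agent.R017.H1401
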