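import Crest.Agent.R017.H1m_401

/-!
# Row 17, block C70, leaf E2, input (H1) (helper401), part n: the minimum form

`H1m` : `H1w` with the weight `nm x * min (nm x * HW R Z x y) (R + (Z / nm x)²)`
-/

set_option autoImplicit false

noncomputable section

open Finset
open scoped ComplexConjugate

namespace Crest.Agent.R017.H1401

open Crest.Agent.R012 Crest.Agent.R012.Eis Crest.Agent.R012.LS2 Crest.Agent.R012.GaussLoc283
open Crest.Agent.R012.Div277 (tau dvs mem_dvs tau_le_rpow)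
open Crest.Agent.R012.BilG811 (hbB Sq bil_ls)
open Crest.Agent.R017.CM106

/-- the weight of the minimum form -/
def WM (R Z : ℝ) (x y : Eis) : ℝ :=
  (nm x : ℝ) * min ((nm x : ℝ) * HW R Z x y) (R + (Z / nm x) ^ 2)

lemma WM_nonneg {R Z : ℝ} (hR : 0 ≤ R) (hZ : 0 ≤ Z) (x y : Eis) : 0 ≤ WM R Z x y := by
  unfold WM
  have := HW_nonneg hR hZ x y
  exact mul_nonneg (by positivity) (le_min (mul_nonneg (by positivity) this) (by positivity))

lemma WM_le_HW {R Z : ℝ} (x y : Eis) : WM R Z x y ≤ (nm x : ℝ) ^ 2 * HW R Z x y := by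
  unfold WM
  calc _ ≤ (nm x : ℝ) * ((nm x : ℝ) * HW R Z x y) :=
        mul_le_mul_of_nonneg_left (min_le_left _ _) (by positivity)
    _ = _ := by ring

lemma WM_le_C {R Z : ℝ} (x y : Eis) : WM R Z x y ≤ (nm x : ℝ) * (R + (Z / nm x) ^ 2) :=
  mul_le_mul_of_nonneg_left (min_le_right _ _) (by positivity)

/-- the blocks -/
def bk (X : ℝ) (i : ℕ) : Finset Eis := (S X).filter fun x => Nat.log 2 (nm x) = i

lemma mem_bk {X : ℝ} (hX : 0 ≤ X) {i : ℕ} {x : Eis} : x ∈ bk X i ↔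
    ((nm x : ℝ) ≤ X ∧ IsPrim x ∧ Squarefree x) ∧ Nat.log 2 (nm x) = i := by
  unfold bk
  rw [Finset.mem_filter, mem_S hX]

lemma bk_size {X : ℝ} (hX : 0 ≤ X) {i : ℕ} {x : Eis} (hx : x ∈ bk X i) :
    (2 : ℝ) ^ i ≤ nm x ∧ (nm x : ℝ) < 2 * 2 ^ i := by
  obtain ⟨⟨-, h1, -⟩, h2⟩ := (mem_bk hX).mp hx
  have h0 : nm x ≠ 0 := (nm_pos.mpr h1.ne_zero).ne'
  constructor
  · have := Nat.pow_log_le_self 2 h0
    rw [h2] at this
    exact_mod_cast this
  · have := Nat.lt_pow_succ_log_self (b := 2) (by norm_num) (nm x)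
    rw [h2, pow_succ] at this
    have h3 : nm x < 2 * 2 ^ i := by linarith
    exact_mod_cast h3

lemma card_bk {X : ℝ} (hX : 0 ≤ X) (i : ℕ) : ((bk X i).card : ℝ) ≤ 200 * 2 ^ i := by
  have h1 : bk X i ⊆ Div277.nz (2 * 2 ^ i) := by
    intro x hx
    have h2 := bk_size hX hx
    rw [Div277.mem_nz]
    refine ⟨((mem_bk hX).mp hx).1.2.1.ne_zero, ?_⟩
    have : (nm x : ℝ) ≤ ((2 * 2 ^ i : ℕ) : ℝ) := by push_cast; exact h2.2.le
    exact_mod_cast this
  have h2 : ((bk X i).card : ℝ) ≤ (Div277.nz (2 * 2 ^ i)).card := by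
    exact_mod_cast Finset.card_le_card h1
  refine h2.trans ((Div277.card_nz_le _).trans (le_of_eq ?_))
  push_cast; ring

/-- real form of the first weight -/
def hA (R Z u t : ℝ) : ℝ := t * (t * (R + Z / (t * u) ^ 2 + (R * (Z / (t * u) ^ 2)) ^ ((2 : ℝ) / 3)))

/-- real form of the second weight -/
def hB (R Z t : ℝ) : ℝ := t * (R + (Z / t) ^ 2)

lemma WM_eq (R Z : ℝ) (x y : Eis) : WM R Z x y = min (hA R Z (nm y) (nm x)) (hB R Z (nm x)) := by
  unfold WM hA hB HW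
  rw [mul_min_of_nonneg _ _ (by positivity)]

lemma hA_mono {R Z u G t : ℝ} (hR : 0 ≤ R) (hZ : 0 ≤ Z) (hu : 1 ≤ u) (hG : 1 ≤ G) (h1 : G ≤ t) :
    hA R Z u G ≤ hA R Z u t := by
  have hG0 : 0 < G := by linarith
  have ht0 : 0 < t := by linarith
  have key : ∀ g : ℝ, 0 < g → hA R Z u g = g ^ 2 * R + Z / u ^ 2 +
      g ^ ((2 : ℝ) / 3) * (R * (Z / u ^ 2)) ^ ((2 : ℝ) / 3) := by
    intro g hg
    unfold hA
    have e1 : R * (Z / (g * u) ^ 2) = (R * (Z / u ^ 2)) / g ^ 2 := by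
      rw [mul_pow]; field_simp
    rw [e1, Real.div_rpow (by positivity) (by positivity)]
    have e2 : g ^ 2 / (g ^ 2) ^ ((2 : ℝ) / 3) = g ^ ((2 : ℝ) / 3) := by
      rw [← Real.rpow_natCast, ← Real.rpow_mul hg.le, ← Real.rpow_sub hg]
      norm_num
    rw [← e2]
    have e3 : g * (g * (Z / (g * u) ^ 2)) = Z / u ^ 2 := by
      rw [mul_pow]; field_simp
    calc g * (g * (R + Z / (g * u) ^ 2 +
          (R * (Z / u ^ 2)) ^ ((2 : ℝ) / 3) / (g ^ 2) ^ ((2 : ℝ) / 3)))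
        = g ^ 2 * R + g * (g * (Z / (g * u) ^ 2)) + g ^ 2 / (g ^ 2) ^ ((2 : ℝ) / 3) *
          (R * (Z / u ^ 2)) ^ ((2 : ℝ) / 3) := by ring
      _ = _ := by rw [e3]
  rw [key G hG0, key t ht0]
  gcongr

lemma hA_le {R Z u G t : ℝ} (hR : 0 ≤ R) (hZ : 0 ≤ Z) (hu : 1 ≤ u) (hG : 1 ≤ G) (h1 : G ≤ t)
    (h2 : t ≤ 2 * G) : hA R Z u t ≤ 4 * hA R Z u G := by
  have hG0 : 0 < G := by linarith
  have ht0 : 0 < t := by linarith
  have hu0 : 0 < u := by linarith
  unfold hA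
  have e1 : Z / (t * u) ^ 2 ≤ Z / (G * u) ^ 2 := by gcongr
  have e2 : (R * (Z / (t * u) ^ 2)) ^ ((2 : ℝ) / 3) ≤ (R * (Z / (G * u) ^ 2)) ^ ((2 : ℝ) / 3) :=
    Real.rpow_le_rpow (by positivity) (by gcongr) (by norm_num)
  calc t * (t * (R + Z / (t * u) ^ 2 + (R * (Z / (t * u) ^ 2)) ^ ((2 : ℝ) / 3)))
      ≤ (2 * G) * ((2 * G) * (R + Z / (G * u) ^ 2 + (R * (Z / (G * u) ^ 2)) ^ ((2 : ℝ) / 3))) := by
        gcongr
    _ = _ := by ring

lemma hB_le {R Z G t : ℝ} (hR : 0 ≤ R) (hZ : 0 ≤ Z) (hG : 1 ≤ G) (h1 : G ≤ t)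
    (h2 : t ≤ 2 * G) : hB R Z G ≤ 2 * hB R Z t := by
  have hG0 : 0 < G := by linarith
  have ht0 : 0 < t := by linarith
  have key : ∀ g : ℝ, 0 < g → hB R Z g = g * R + Z ^ 2 / g := by
    intro g hg
    unfold hB
    field_simp
  rw [key G hG0, key t ht0]
  have e1 : Z ^ 2 / G ≤ 2 * (Z ^ 2 / t) := by
    rw [← mul_div_assoc, div_le_div_iff₀ hG0 ht0]
    nlinarith [sq_nonneg Z]
  nlinarith

/-- **uniform choice on a block** -/
lemma min_block {R Z u G : ℝ} (hR : 0 ≤ R) (hZ : 0 ≤ Z) (hu : 1 ≤ u) (hG : 1 ≤ G) :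
    (∀ t, G ≤ t → t ≤ 2 * G → hA R Z u t ≤ 8 * min (hA R Z u t) (hB R Z t)) ∨
    (∀ t, G ≤ t → t ≤ 2 * G →
      t * (R + (Z / G) ^ 2) ≤ 8 * min (hA R Z u t) (hB R Z t)) := by
  have hG0 : 0 < G := by linarith
  rcases le_total (hA R Z u G) (hB R Z G) with h | h
  · left
    intro t h1 h2
    have a1 := hA_mono (u := u) hR hZ hu hG h1
    have a2 := hA_le (u := u) hR hZ hu hG h1 h2
    have a3 := hB_le (t := t) hR hZ hG h1 h2
    have a0 : 0 ≤ hA R Z u G := by unfold hA; positivity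
    rcases min_choice (hA R Z u t) (hB R Z t) with h5 | h5 <;> rw [h5] <;> linarith
  · right
    intro t h1 h2
    have a1 := hA_mono (u := u) hR hZ hu hG h1
    have a3 := hB_le (t := t) hR hZ hG h1 h2
    have a0 : 0 ≤ hB R Z G := by unfold hB; positivity
    have a4 : t * (R + (Z / G) ^ 2) ≤ 2 * hB R Z G := by
      unfold hB
      calc t * (R + (Z / G) ^ 2) ≤ (2 * G) * (R + (Z / G) ^ 2) := by gcongr
        _ = _ := by ring
    rcases min_choice (hA R Z u t) (hB R Z t) with h5 | h5 <;> rw [h5] <;> linarith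

/-- the joint sum over a block -/
def Ub (κ : Eis) (b c : Eis → ℂ) (X Z : ℝ) (n v : Eis) (i : ℕ) (y z s : Eis) : ℂ :=
  ∑ x ∈ bk X i, UU κ b c Z n v x y z s

open Classical in
/-- the inner weight sum -/
def Wb (b c : Eis → ℂ) (Z : ℝ) (n x y z : Eis) : ℝ :=
  ∑ m ∈ S Z, if GG Z n x y z m then wt b c x y (QQ n x y z m) else 0

lemma Wb_nonneg (b c : Eis → ℂ) (Z : ℝ) (n x y z : Eis) : 0 ≤ Wb b c Z n x y z := by
  unfold Wb
  refine Finset.sum_nonneg fun m _ => ?_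
  split_ifs
  · exact wt_nonneg _ _ _ _ _
  · exact le_rfl

open Classical in
/-- **the large sieve on a block** -/
theorem block_le {ε : ℝ} (hε : 0 < ε) : ∃ K : ℝ, 0 < K ∧
    ∀ R Z X : ℝ, 1 ≤ R → 1 ≤ Z → 1 ≤ X → ∀ κ : Eis, Cp κ → ∀ (b c : Eis → ℂ) (n v : Eis) (i : ℕ)
      (y z : Eis), IsPrim n → IsPrim y → IsPrim z →
      ∑ s ∈ S R, (if (z * y) * s ∈ S R then ‖Ub κ b c X Z n v i y z s‖ ^ 2 else 0) ≤
        K * (R * Z) ^ ε * nm n * ∑ x ∈ bk X i, WM R Z x y * Wb b c Z n x y z := by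
  obtain ⟨K1, hK1, hA1⟩ := ls_tuple_w LS448.hb_final hε
  obtain ⟨K2, hK2, hB1⟩ := ls_joint
  refine ⟨1600 * K1 + 8 * K2, by positivity, fun R Z X hR hZ hX κ hκ b c n v i y z hn hy hz => ?_⟩
  have hR0 : (0 : ℝ) ≤ R := by linarith
  have hZ0 : (0 : ℝ) ≤ Z := by linarith
  have hX0 : (0 : ℝ) ≤ X := by linarith
  have hRZ : 1 ≤ (R * Z) ^ ε := Real.one_le_rpow (by nlinarith) hε.le
  have hy1 : (1 : ℝ) ≤ nm y := nm_ge_one hy
  have hG1 : (1 : ℝ) ≤ 2 ^ i := one_le_pow₀ (by norm_num)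
  have hG0 : (0 : ℝ) < 2 ^ i := by positivity
  set Sx : ℝ := ∑ x ∈ bk X i, WM R Z x y * Wb b c Z n x y z with hSx
  have hSx0 : 0 ≤ Sx := Finset.sum_nonneg fun x _ =>
    mul_nonneg (WM_nonneg hR0 hZ0 x y) (Wb_nonneg _ _ _ _ _ _ _)
  rcases min_block (R := R) (Z := Z) (u := nm y) (G := 2 ^ i) hR0 hZ0 hy1 hG1 with hc | hc
  · -- fixed `x`
    have h1 : ∀ s ∈ S R, (if (z * y) * s ∈ S R then ‖Ub κ b c X Z n v i y z s‖ ^ 2 else 0) ≤
        ∑ x ∈ bk X i, 200 * ((nm x : ℝ) *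
          (if (z * y) * s ∈ S R then ‖UU κ b c Z n v x y z s‖ ^ 2 else 0)) := by
      intro s _
      by_cases h : (z * y) * s ∈ S R
      · simp only [if_pos h]
        calc ‖Ub κ b c X Z n v i y z s‖ ^ 2 ≤ (∑ x ∈ bk X i, ‖UU κ b c Z n v x y z s‖) ^ 2 :=
              pow_le_pow_left₀ (norm_nonneg _) (norm_sum_le _ _) 2
          _ ≤ (bk X i).card * ∑ x ∈ bk X i, ‖UU κ b c Z n v x y z s‖ ^ 2 :=
              sq_sum_le_card_mul_sum_sq
          _ ≤ (200 * 2 ^ i) * ∑ x ∈ bk X i, ‖UU κ b c Z n v x y z s‖ ^ 2 :=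
              mul_le_mul_of_nonneg_right (card_bk hX0 i) (Finset.sum_nonneg fun _ _ => by positivity)
          _ ≤ _ := by
              rw [Finset.mul_sum]
              refine Finset.sum_le_sum fun x hx => ?_
              have := (bk_size hX0 hx).1
              have h5 : 0 ≤ ‖UU κ b c Z n v x y z s‖ ^ 2 := by positivity
              nlinarith
      · simp only [if_neg h]
        exact Finset.sum_nonneg fun _ _ => by simp
    calc _ ≤ ∑ s ∈ S R, ∑ x ∈ bk X i, 200 * ((nm x : ℝ) *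
          (if (z * y) * s ∈ S R then ‖UU κ b c Z n v x y z s‖ ^ 2 else 0)) :=
          Finset.sum_le_sum h1
      _ = ∑ x ∈ bk X i, 200 * ((nm x : ℝ) * ∑ s ∈ S R,
          (if (z * y) * s ∈ S R then ‖UU κ b c Z n v x y z s‖ ^ 2 else 0)) := by
          rw [Finset.sum_comm]
          refine Finset.sum_congr rfl fun x _ => ?_
          rw [Finset.mul_sum, Finset.mul_sum]
      _ ≤ ∑ x ∈ bk X i, (1600 * K1) * (R * Z) ^ ε * nm n * (WM R Z x y * Wb b c Z n x y z) := by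
          refine Finset.sum_le_sum fun x hx => ?_
          have hx1 := (mem_bk hX0).mp hx
          have h2 := hA1 R Z hR hZ κ hκ b c n v x y z hn hx1.1.2.1 hy hz
          have h3 := bk_size hX0 hx
          have h4 := hc (nm x) h3.1 h3.2.le
          rw [← WM_eq] at h4
          have h5 : hA R Z (nm y) (nm x) = (nm x : ℝ) ^ 2 * HW R Z x y := by
            unfold hA HW; ring
          rw [h5] at h4
          have h6 := Wb_nonneg b c Z n x y z
          have h7 : (0 : ℝ) ≤ nm n := Nat.cast_nonneg _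
          calc 200 * ((nm x : ℝ) * ∑ s ∈ S R,
              (if (z * y) * s ∈ S R then ‖UU κ b c Z n v x y z s‖ ^ 2 else 0))
              ≤ 200 * (K1 * (R * Z) ^ ε * HW R Z x y * ((nm x : ℝ) ^ 2 * nm n) *
                Wb b c Z n x y z) := mul_le_mul_of_nonneg_left h2 (by norm_num)
            _ = 200 * (K1 * (R * Z) ^ ε * nm n) * (((nm x : ℝ) ^ 2 * HW R Z x y) *
                Wb b c Z n x y z) := by ring
            _ ≤ 200 * (K1 * (R * Z) ^ ε * nm n) * ((8 * WM R Z x y) * Wb b c Z n x y z) := by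
                gcongr
            _ = _ := by ring
      _ = (1600 * K1) * (R * Z) ^ ε * nm n * Sx := by rw [hSx, Finset.mul_sum]
      _ ≤ _ := by
          have : (0 : ℝ) ≤ nm n := Nat.cast_nonneg _
          gcongr
          linarith
  · -- joint
    have h2 := hB1 R Z (2 ^ i) hR hZ hG1 κ hκ b c (bk X i) n v y z hn hy hz (fun x hx => by
      have hx1 := (mem_bk hX0).mp hx
      exact ⟨hx1.1.2.1, hx1.1.2.2, (bk_size hX0 hx).1⟩)
    calc _ ≤ K2 * (R + (Z / 2 ^ i) ^ 2) * nm n *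
          ∑ x ∈ bk X i, (nm x : ℝ) * Wb b c Z n x y z := h2
      _ = K2 * nm n * ∑ x ∈ bk X i, ((nm x : ℝ) * (R + (Z / 2 ^ i) ^ 2)) * Wb b c Z n x y z := by
          rw [Finset.mul_sum, Finset.mul_sum]
          exact Finset.sum_congr rfl fun x _ => by ring
      _ ≤ K2 * nm n * ∑ x ∈ bk X i, (8 * WM R Z x y) * Wb b c Z n x y z := by
          refine mul_le_mul_of_nonneg_left ?_ (by positivity)
          refine Finset.sum_le_sum fun x hx => ?_
          have h3 := bk_size hX0 hx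
          have h4 := hc (nm x) h3.1 h3.2.le
          rw [← WM_eq] at h4
          exact mul_le_mul_of_nonneg_right h4 (Wb_nonneg _ _ _ _ _ _ _)
      _ = (8 * K2) * 1 * nm n * Sx := by
          rw [hSx, Finset.mul_sum, Finset.mul_sum]
          exact Finset.sum_congr rfl fun x _ => by ring
      _ ≤ _ := by
          have : (0 : ℝ) ≤ nm n := Nat.cast_nonneg _
          gcongr
          linarith

end Crest.Agent.R017.H1401
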