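import Crest.Agent.R017.H1o_401

/-!
# Row 17, block C70, leaf E2, input (H1) (helper401), part p: the `n`-sum kept inside

`DN n g₂ g₃ d`, the large sieves with the weight at `Z / nm n ^ 3`
-/

set_option autoImplicit false

noncomputable section

open Finset
open scoped ComplexConjugate

namespace Crest.Agent.R017.H1401

open Crest.Agent.R012 Crest.Agent.R012.Eis Crest.Agent.R012.LS2 Crest.Agent.R012.GaussLoc283
open Crest.Agent.R012.Div277 (tau dvs mem_dvs tau_le_rpow)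
open Crest.Agent.R012.BilG811 (hbB Sq bil_ls)
open Crest.Agent.R017.CM106

/-- the denominators at fixed `n` -/
def DN (n g₂ g₃ d : Eis) : Prop :=
  ∃ z m : Eis, IsPrim z ∧ IsPrim m ∧ Squarefree (m * (g₂ * ((g₃ * n) * z))) ∧ d = QQ n g₂ g₃ z m

lemma DN.dvd {n g₂ g₃ d : Eis} (h : DN n g₂ g₃ d) : n ^ 3 * (g₂ ^ 2 * g₃ ^ 3) ∣ d := by
  obtain ⟨z, m, -, -, -, rfl⟩ := h
  exact ⟨m * z ^ 2, by unfold QQ; ring⟩

lemma DN.toDD {ν n g₂ g₃ d : Eis} (h : DN n g₂ g₃ d) (hn : IsPrim n) (hnν : n ∣ ν) :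
    DD ν g₂ g₃ d := by
  obtain ⟨z, m, h1, h2, h3, h4⟩ := h
  exact ⟨n, z, m, hn, h1, h2, hnν, h3, h4⟩

open Classical in
/-- the divisor sum for fixed `n`, `x`, `y` -/
lemma div_sum_n {R Z : ℝ} (hR : 1 ≤ R) (hZ : 1 ≤ Z) {n x y : Eis} (hn : IsPrim n)
    (hx : IsPrim x) (hy : IsPrim y) {Tb : ℝ} (hT : ∀ d ∈ pb Z, (tau d : ℝ) ^ 2 ≤ Tb)
    (F : Eis → ℝ) (hF : ∀ d, 0 ≤ F d) :
    ∑ z ∈ S R, ∑ m ∈ S Z, (if GG Z n x y z m then F (QQ n x y z m) else 0) ≤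
      Tb * ∑ d ∈ (pb Z).filter (DN n x y), F d := by
  have hR0 : (0 : ℝ) ≤ R := by linarith
  have hZ0 : (0 : ℝ) ≤ Z := by linarith
  set P := (S R ×ˢ S Z).filter (fun p => GG Z n x y p.1 p.2) with hP
  set D := (pb Z).filter (DN n x y) with hD
  have e1 : ∑ z ∈ S R, ∑ m ∈ S Z,
      (if GG Z n x y z m then F (QQ n x y z m) else 0) = ∑ p ∈ P, F (QQ n x y p.1 p.2) := by
    rw [hP, Finset.sum_filter, Finset.sum_product]
  have hPm : ∀ p ∈ P, IsPrim p.1 ∧ IsPrim p.2 ∧ GG Z n x y p.1 p.2 := by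
    intro p hp
    rw [hP, Finset.mem_filter, Finset.mem_product, mem_S hR0, mem_S hZ0] at hp
    exact ⟨hp.1.1.2.1, hp.1.2.2.1, hp.2⟩
  have hmaps : ∀ p ∈ P, QQ n x y p.1 p.2 ∈ D := by
    intro p hp
    obtain ⟨h2, h3, h4⟩ := hPm p hp
    rw [hD, Finset.mem_filter, mem_pb hZ0]
    refine ⟨⟨h4.2, ?_⟩, ?_⟩
    · exact h3.mul (((hx.pow 2).mul (h2.pow 2)).mul ((hy.mul hn).pow 3))
    · exact ⟨p.1, p.2, h2, h3, h4.1, rfl⟩
  rw [e1, ← Finset.sum_fiberwise_of_maps_to hmaps, Finset.mul_sum]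
  refine Finset.sum_le_sum fun d hd => ?_
  rw [Finset.sum_congr rfl (g := fun _ => F d) (fun p hp => by
    rw [(Finset.mem_filter.mp hp).2]), Finset.sum_const, nsmul_eq_mul]
  refine mul_le_mul_of_nonneg_right ?_ (hF d)
  have hdZ : d ∈ pb Z := (Finset.mem_filter.mp hd).1
  refine le_trans ?_ (hT d hdZ)
  have hd0 : d ≠ 0 := ((mem_pb hZ0).mp hdZ).2.ne_zero
  have hcard : (P.filter (fun p => QQ n x y p.1 p.2 = d)).card ≤ (dvs d).card := by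
    refine Finset.card_le_card_of_injOn (fun p => p.1) ?_ ?_
    · intro p hp
      have hp' := Finset.mem_filter.mp (Finset.mem_coe.mp hp)
      obtain ⟨h2, h3, h4⟩ := hPm p hp'.1
      rw [Finset.mem_coe, mem_dvs hd0, ← hp'.2]
      exact ⟨h2, ⟨p.2 * (x ^ 2 * p.1 * (y * n) ^ 3), by unfold QQ; ring⟩⟩
    · intro p hp q hq h
      have hp' := Finset.mem_filter.mp (Finset.mem_coe.mp hp)
      have hq' := Finset.mem_filter.mp (Finset.mem_coe.mp hq)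
      obtain ⟨h2, h3, h4⟩ := hPm p hp'.1
      obtain ⟨z, m⟩ := p
      obtain ⟨z', m'⟩ := q
      simp only at h
      subst h
      have h5 : QQ n x y z m = QQ n x y z m' := hp'.2.trans hq'.2.symm
      unfold QQ at h5
      have h0' : x ^ 2 * z ^ 2 * (y * n) ^ 3 ≠ 0 :=
        (((hx.pow 2).mul (h2.pow 2)).mul ((hy.mul hn).pow 3)).ne_zero
      rw [mul_right_cancel₀ h0' h5]
  have ht1 : (1 : ℝ) ≤ tau d := by exact_mod_cast Div277.one_le_tau hd0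
  have h6 : ((P.filter (fun p => QQ n x y p.1 p.2 = d)).card : ℝ) ≤ tau d := by
    unfold tau
    exact_mod_cast hcard
  nlinarith

lemma hbB_weight_n {ε K R Z X1 Z1 Y1 N1 : ℝ} (hε : 0 < ε) (hK : 0 < K) (hR : 0 ≤ R) (hZ : 0 ≤ Z)
    (hX1 : 1 ≤ X1) (hZ1 : 1 ≤ Z1) (hY1 : 1 ≤ Y1) (hN1 : 1 ≤ N1) :
    hbB ε K (R / (Z1 * Y1)) (Z / (X1 ^ 2 * Z1 ^ 2 * (Y1 * N1) ^ 3)) * (Z1 * Y1) ≤
      K * (R * Z) ^ ε * (R + (Z / N1 ^ 3) / (X1 * Y1) ^ 2 +
        (R * ((Z / N1 ^ 3) / (X1 * Y1) ^ 2)) ^ ((2 : ℝ) / 3)) := by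
  have h := hbB_weight_w (ε := ε) (K := K) (R := R) (Z := Z / N1 ^ 3) (X1 := X1) (Z1 := Z1)
    (Y1 := Y1) (N1 := 1) hε hK hR (by positivity) hX1 hZ1 hY1 le_rfl
  have e1 : Z / N1 ^ 3 / (X1 ^ 2 * Z1 ^ 2 * (Y1 * 1) ^ 3) = Z / (X1 ^ 2 * Z1 ^ 2 * (Y1 * N1) ^ 3) := by
    rw [div_div, mul_pow, mul_pow]
    congr 1
    ring
  rw [e1] at h
  refine h.trans ?_
  have h1 : (R * (Z / N1 ^ 3)) ^ ε ≤ (R * Z) ^ ε := by
    refine Real.rpow_le_rpow (by positivity) ?_ hε.le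
    exact mul_le_mul_of_nonneg_left (div_le_self hZ (one_le_pow₀ hN1)) hR
  exact mul_le_mul_of_nonneg_right (mul_le_mul_of_nonneg_left h1 hK.le) (by positivity)

/-- the weight at `Z / nm n ^ 3` -/
def HN (R Z : ℝ) (n x y : Eis) : ℝ := HW R (Z / (nm n : ℝ) ^ 3) x y

lemma HN_nonneg {R Z : ℝ} (hR : 0 ≤ R) (hZ : 0 ≤ Z) (n x y : Eis) : 0 ≤ HN R Z n x y :=
  HW_nonneg hR (by positivity) x y

open Classical in
/-- **the large sieve for a fixed tuple**, weight at `Z / nm n ^ 3` -/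
theorem ls_tuple_n (HL : LS2.Final) {ε : ℝ} (hε : 0 < ε) : ∃ K : ℝ, 0 < K ∧
    ∀ R Z : ℝ, 1 ≤ R → 1 ≤ Z → ∀ κ : Eis, Cp κ → ∀ (b c : Eis → ℂ) (n v x y z : Eis),
      IsPrim n → IsPrim x → IsPrim y → IsPrim z →
      (nm x : ℝ) * ∑ s ∈ S R, (if (z * y) * s ∈ S R then ‖UU κ b c Z n v x y z s‖ ^ 2 else 0) ≤
        K * (R * Z) ^ ε * HN R Z n x y * ((nm x : ℝ) ^ 2 * nm n) *
          ∑ m ∈ S Z, if GG Z n x y z m then wt b c x y (QQ n x y z m) else 0 := by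
  obtain ⟨K, hK, hLS⟩ := bil_ls HL hε
  refine ⟨K, hK, fun R Z hR hZ κ hκ b c n v x y z hn hx hy hz => ?_⟩
  have hR0 : (0 : ℝ) ≤ R := by linarith
  have hZ0 : (0 : ℝ) ≤ Z := by linarith
  have hX1 : (1 : ℝ) ≤ nm x := by exact_mod_cast nm_pos.mpr hx.ne_zero
  have hY1 : (1 : ℝ) ≤ nm y := by exact_mod_cast nm_pos.mpr hy.ne_zero
  have hZ1 : (1 : ℝ) ≤ nm z := by exact_mod_cast nm_pos.mpr hz.ne_zero
  have hN1 : (1 : ℝ) ≤ nm n := by exact_mod_cast nm_pos.mpr hn.ne_zero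
  have hHN0 : 0 ≤ HN R Z n x y := HN_nonneg hR0 hZ0 n x y
  have hrhs : 0 ≤ K * (R * Z) ^ ε * HN R Z n x y *
      ((nm x : ℝ) ^ 2 * nm n) *
        ∑ m ∈ S Z, (if GG Z n x y z m then wt b c x y (QQ n x y z m) else 0) := by
    apply mul_nonneg (by positivity)
    apply Finset.sum_nonneg
    intro m _
    split_ifs
    · exact wt_nonneg _ _ _ _ _
    · exact le_rfl
  set A := (S R).filter (fun s => (z * y) * s ∈ S R) with hA
  set B := (S Z).filter (fun m => GG Z n x y z m) with hB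
  set q : Eis := x ^ 2 * z ^ 2 * (y * n) ^ 3 with hq
  have hqp : IsPrim q := ((hx.pow 2).mul (hz.pow 2)).mul ((hy.mul hn).pow 3)
  have hnq : (nm q : ℝ) = (nm x : ℝ) ^ 2 * (nm z : ℝ) ^ 2 * ((nm y : ℝ) * nm n) ^ 3 := by
    rw [hq]; simp only [nm_mul, nm_pow]; push_cast; ring
  have hq1 : (1 : ℝ) ≤ nm q := by exact_mod_cast nm_pos.mpr hqp.ne_zero
  rw [← Finset.sum_filter, ← Finset.sum_filter, ← hA, ← hB]
  rw [← Finset.sum_filter, ← hB] at hrhs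
  -- the coefficients
  set β : Eis → ℂ := fun m => b (QQ n x y z m) *
    (conj (gs (κ * ((z * (y * n)) * (x * (y * n)))) (QQ n x y z m)) * sy (v ^ 2) (QQ n x y z m)) *
    CS (sub c (x * y)) (QQ n x y z m) with hβ
  have hB' : ∀ m ∈ B, IsPrim m ∧ Squarefree m ∧ GG Z n x y z m := by
    intro m hm
    rw [hB, Finset.mem_filter, mem_S hZ0] at hm
    exact ⟨hm.1.2.1, hm.1.2.2, hm.2⟩
  have hU : ∀ s ∈ A, ‖UU κ b c Z n v x y z s‖ ≤ ‖∑ m ∈ B, β m * sy s m‖ := by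
    intro s hs
    have e1 : UU κ b c Z n v x y z s = sy s q * ∑ m ∈ B, β m * sy s m := by
      unfold UU
      rw [← Finset.sum_filter, ← hB, Finset.mul_sum]
      refine Finset.sum_congr rfl fun m hm => ?_
      obtain ⟨hm1, hm2, hm3⟩ := hB' m hm
      have hQm : QQ n x y z m = m * q := rfl
      have hQp : IsPrim (QQ n x y z m) := hm1.mul hqp
      have e2 : sy (s * v ^ 2) (QQ n x y z m) =
          (sy s m * sy s q) * sy (v ^ 2) (QQ n x y z m) := by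
        rw [syAx.mul_left _ _ _ hQp]
        congr 1
        rw [hQm, syAx.mul_right _ _ _ hm1 hqp]
      simp only [TT, dT, hβ]
      rw [e2]
      ring
    rw [e1, norm_mul]
    exact mul_le_of_le_one_left (norm_nonneg _) (norm_sy_le' hqp)
  rcases A.eq_empty_or_nonempty with hAe | hAne
  · rw [hAe, Finset.sum_empty, mul_zero]; exact hrhs
  rcases B.eq_empty_or_nonempty with hBe | hBne
  · have : ∀ s ∈ A, ‖UU κ b c Z n v x y z s‖ ^ 2 = 0 := by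
      intro s hs
      have h1 := hU s hs
      rw [hBe, Finset.sum_empty, norm_zero] at h1
      have h2 : ‖UU κ b c Z n v x y z s‖ = 0 := le_antisymm h1 (norm_nonneg _)
      rw [h2]; norm_num
    rw [Finset.sum_congr rfl this, Finset.sum_const_zero, mul_zero]; exact hrhs
  have hSA : Sq (R / ((nm z : ℝ) * nm y)) A := by
    intro s hs
    rw [hA, Finset.mem_filter, mem_S hR0, mem_S hR0] at hs
    refine ⟨hs.1.2.1, hs.1.2.2, ?_⟩
    rw [le_div_iff₀ (by positivity)]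
    have := hs.2.1
    simp only [nm_mul] at this
    push_cast at this
    linarith
  have hSB : Sq (Z / ((nm x : ℝ) ^ 2 * (nm z : ℝ) ^ 2 * ((nm y : ℝ) * nm n) ^ 3)) B := by
    intro m hm
    obtain ⟨hm1, hm2, hm3⟩ := hB' m hm
    refine ⟨hm1, hm2, ?_⟩
    rw [← hnq, le_div_iff₀ (by linarith)]
    have := hm3.2
    have hQm : QQ n x y z m = m * q := rfl
    rw [hQm, nm_mul] at this
    push_cast at this
    exact this
  have hC1 : 1 ≤ R / ((nm z : ℝ) * nm y) := by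
    obtain ⟨s, hs⟩ := hAne
    obtain ⟨h1, h2, h3⟩ := hSA s hs
    exact le_trans (by exact_mod_cast nm_pos.mpr h1.ne_zero) h3
  have hD1 : 1 ≤ Z / ((nm x : ℝ) ^ 2 * (nm z : ℝ) ^ 2 * ((nm y : ℝ) * nm n) ^ 3) := by
    obtain ⟨m, hm⟩ := hBne
    obtain ⟨h1, h2, h3⟩ := hSB m hm
    exact le_trans (by exact_mod_cast nm_pos.mpr h1.ne_zero) h3
  have hmain := hLS _ _ hC1 hD1 A B hSA hSB β
  have hβn : ∑ m ∈ B, ‖β m‖ ^ 2 ≤ ((nm x : ℝ) * nm z * nm y * nm n) *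
      ∑ m ∈ B, wt b c x y (QQ n x y z m) := by
    rw [Finset.mul_sum]
    refine Finset.sum_le_sum fun m hm => ?_
    obtain ⟨hm1, hm2, hm3⟩ := hB' m hm
    have hg := gs_bd hκ hn hx hy hz hm1 hm3.1
    have hQp : IsPrim (QQ n x y z m) := hm1.mul hqp
    have hsy : ‖sy (v ^ 2) (QQ n x y z m)‖ ≤ 1 := norm_sy_le' hQp
    simp only [hβ, norm_mul, RCLike.norm_conj]
    unfold wt
    calc (‖b (QQ n x y z m)‖ * (‖gs (κ * ((z * (y * n)) * (x * (y * n)))) (QQ n x y z m)‖ *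
          ‖sy (v ^ 2) (QQ n x y z m)‖) * ‖CS (sub c (x * y)) (QQ n x y z m)‖) ^ 2
        = ‖b (QQ n x y z m)‖ ^ 2 * ‖CS (sub c (x * y)) (QQ n x y z m)‖ ^ 2 *
          (‖gs (κ * ((z * (y * n)) * (x * (y * n)))) (QQ n x y z m)‖ ^ 2 *
          ‖sy (v ^ 2) (QQ n x y z m)‖ ^ 2) := by ring
      _ ≤ ‖b (QQ n x y z m)‖ ^ 2 * ‖CS (sub c (x * y)) (QQ n x y z m)‖ ^ 2 *
          (((nm (QQ n x y z m) : ℝ) * ((nm x : ℝ) * nm z * nm y * nm n)) * 1) := by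
        gcongr
        exact pow_le_one₀ (norm_nonneg _) hsy
      _ = _ := by ring
  have hW := hbB_weight_n (ε := ε) (K := K) hε hK hR0 hZ0 hX1 hZ1 hY1 hN1
  have hh0 : 0 ≤ hbB ε K (R / ((nm z : ℝ) * nm y))
      (Z / ((nm x : ℝ) ^ 2 * (nm z : ℝ) ^ 2 * ((nm y : ℝ) * nm n) ^ 3)) := by
    unfold hbB; positivity
  have hSw : 0 ≤ ∑ m ∈ B, wt b c x y (QQ n x y z m) :=
    Finset.sum_nonneg fun m _ => wt_nonneg _ _ _ _ _
  calc (nm x : ℝ) * ∑ s ∈ A, ‖UU κ b c Z n v x y z s‖ ^ 2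
      ≤ (nm x : ℝ) * ∑ s ∈ A, ‖∑ m ∈ B, β m * sy s m‖ ^ 2 := by
        apply mul_le_mul_of_nonneg_left _ (by linarith)
        exact Finset.sum_le_sum fun s hs => pow_le_pow_left₀ (norm_nonneg _) (hU s hs) 2
    _ ≤ (nm x : ℝ) * (hbB ε K (R / ((nm z : ℝ) * nm y))
          (Z / ((nm x : ℝ) ^ 2 * (nm z : ℝ) ^ 2 * ((nm y : ℝ) * nm n) ^ 3)) *
          (((nm x : ℝ) * nm z * nm y * nm n) * ∑ m ∈ B, wt b c x y (QQ n x y z m))) := by
        apply mul_le_mul_of_nonneg_left _ (by linarith)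
        exact hmain.trans (mul_le_mul_of_nonneg_left hβn hh0)
    _ = (hbB ε K (R / ((nm z : ℝ) * nm y))
          (Z / ((nm x : ℝ) ^ 2 * (nm z : ℝ) ^ 2 * ((nm y : ℝ) * nm n) ^ 3)) *
          ((nm z : ℝ) * nm y)) * ((nm x : ℝ) ^ 2 * nm n) *
          ∑ m ∈ B, wt b c x y (QQ n x y z m) := by ring
    _ ≤ _ := by
        apply mul_le_mul_of_nonneg_right _ hSw
        apply mul_le_mul_of_nonneg_right _ (by positivity)
        exact hW

open Classical in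
/-- **the large sieve with `x` kept inside**, weight at `Z / nm n ^ 3` -/
theorem ls_joint_n : ∃ K : ℝ, 0 < K ∧
    ∀ R Z G : ℝ, 1 ≤ R → 1 ≤ Z → 1 ≤ G → ∀ κ : Eis, Cp κ → ∀ (b c : Eis → ℂ) (Bk : Finset Eis)
      (n v y z : Eis), IsPrim n → IsPrim y → IsPrim z →
      (∀ x ∈ Bk, IsPrim x ∧ Squarefree x ∧ G ≤ nm x) →
      ∑ s ∈ S R, (if (z * y) * s ∈ S R then ‖∑ x ∈ Bk, UU κ b c Z n v x y z s‖ ^ 2 else 0) ≤
        K * (R + (Z / (nm n : ℝ) ^ 3 / G) ^ 2) * nm n *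
          ∑ x ∈ Bk, (nm x : ℝ) * ∑ m ∈ S Z, if GG Z n x y z m then wt b c x y (QQ n x y z m) else 0
    := by
  obtain ⟨K, hK, hLS⟩ := l1_dual
  refine ⟨K, hK, fun R Z G hR hZ hG κ hκ b c Bk n v y z hn hy hz hBk => ?_⟩
  have hR0 : (0 : ℝ) ≤ R := by linarith
  have hZ0 : (0 : ℝ) ≤ Z := by linarith
  have hG0 : (0 : ℝ) < G := by linarith
  have hY1 : (1 : ℝ) ≤ nm y := by exact_mod_cast nm_pos.mpr hy.ne_zero
  have hZ1 : (1 : ℝ) ≤ nm z := by exact_mod_cast nm_pos.mpr hz.ne_zero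
  have hN1 : (1 : ℝ) ≤ nm n := by exact_mod_cast nm_pos.mpr hn.ne_zero
  set A := (S R).filter (fun s => (z * y) * s ∈ S R) with hA
  set P := ((S Z) ×ˢ Bk).filter (fun p => GG Z n p.2 y z p.1) with hP
  set q : Eis := z ^ 2 * (y * n) ^ 3 with hq
  have hqp : IsPrim q := (hz.pow 2).mul ((hy.mul hn).pow 3)
  have hnq : (nm q : ℝ) = (nm z : ℝ) ^ 2 * ((nm y : ℝ) * nm n) ^ 3 := by
    rw [hq]; simp only [nm_mul, nm_pow]; push_cast; ring
  have hq1 : (1 : ℝ) ≤ nm q := by exact_mod_cast nm_pos.mpr hqp.ne_zero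
  have hq0 : (0 : ℝ) < nm q := by linarith
  -- right side as a sum over `P`
  have hRS : ∑ x ∈ Bk, (nm x : ℝ) * ∑ m ∈ S Z, (if GG Z n x y z m then
      wt b c x y (QQ n x y z m) else 0) = ∑ p ∈ P, (nm p.2 : ℝ) * wt b c p.2 y (QQ n p.2 y z p.1) := by
    rw [hP, Finset.sum_filter, Finset.sum_product_right]
    refine Finset.sum_congr rfl fun x _ => ?_
    rw [Finset.mul_sum]
    refine Finset.sum_congr rfl fun m _ => ?_
    split_ifs <;> simp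
  rw [← Finset.sum_filter, ← hA, hRS]
  have hrhs : 0 ≤ K * (R + (Z / (nm n : ℝ) ^ 3 / G) ^ 2) * nm n *
      ∑ p ∈ P, (nm p.2 : ℝ) * wt b c p.2 y (QQ n p.2 y z p.1) := by
    apply mul_nonneg (by positivity)
    exact Finset.sum_nonneg fun p _ => mul_nonneg (by positivity) (wt_nonneg _ _ _ _ _)
  -- the coefficients
  set β : Eis × Eis → ℂ := fun p => b (QQ n p.2 y z p.1) *
    (conj (gs (κ * ((z * (y * n)) * (p.2 * (y * n)))) (QQ n p.2 y z p.1)) *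
      sy (v ^ 2) (QQ n p.2 y z p.1)) * CS (sub c (p.2 * y)) (QQ n p.2 y z p.1) with hβ
  have hP' : ∀ p ∈ P, (IsPrim p.1 ∧ Squarefree p.1) ∧ (IsPrim p.2 ∧ Squarefree p.2 ∧ G ≤ nm p.2) ∧
      GG Z n p.2 y z p.1 := by
    intro p hp
    rw [hP, Finset.mem_filter, Finset.mem_product, mem_S hZ0] at hp
    exact ⟨hp.1.1.2, hBk _ hp.1.2, hp.2⟩
  have hU : ∀ s ∈ A, ‖∑ x ∈ Bk, UU κ b c Z n v x y z s‖ ≤
      ‖∑ p ∈ P, β p * sy s (p.1 * p.2 ^ 2)‖ := by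
    intro s hs
    have e1 : ∑ x ∈ Bk, UU κ b c Z n v x y z s = sy s q * ∑ p ∈ P, β p * sy s (p.1 * p.2 ^ 2) := by
      rw [hP, Finset.sum_filter, Finset.sum_product_right, Finset.mul_sum]
      refine Finset.sum_congr rfl fun x hx => ?_
      obtain ⟨hx1, hx2, hx3⟩ := hBk x hx
      unfold UU
      rw [Finset.mul_sum]
      refine Finset.sum_congr rfl fun m hm => ?_
      have hm1 := ((mem_S hZ0).mp hm).2.1
      by_cases hg : GG Z n x y z m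
      · rw [if_pos hg, if_pos hg]
        have hmx : IsPrim (m * x ^ 2) := hm1.mul (hx1.pow 2)
        have hQm : QQ n x y z m = (m * x ^ 2) * q := by unfold QQ; rw [hq]; ring
        have hQp : IsPrim (QQ n x y z m) := hQm ▸ hmx.mul hqp
        have e2 : sy (s * v ^ 2) (QQ n x y z m) =
            (sy s (m * x ^ 2) * sy s q) * sy (v ^ 2) (QQ n x y z m) := by
          rw [syAx.mul_left _ _ _ hQp]
          congr 1
          rw [hQm, syAx.mul_right _ _ _ hmx hqp]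
        simp only [TT, dT, hβ]
        rw [e2]
        ring
      · rw [if_neg hg, if_neg hg, mul_zero]
    rw [e1, norm_mul]
    exact mul_le_of_le_one_left (norm_nonneg _) (norm_sy_le' hqp)
  rcases A.eq_empty_or_nonempty with hAe | hAne
  · rw [hAe, Finset.sum_empty]; exact hrhs
  rcases P.eq_empty_or_nonempty with hPe | hPne
  · have : ∀ s ∈ A, ‖∑ x ∈ Bk, UU κ b c Z n v x y z s‖ ^ 2 = 0 := by
      intro s hs
      have h1 := hU s hs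
      rw [hPe, Finset.sum_empty, norm_zero] at h1
      have h2 : ‖∑ x ∈ Bk, UU κ b c Z n v x y z s‖ = 0 := le_antisymm h1 (norm_nonneg _)
      rw [h2]; norm_num
    rw [Finset.sum_congr rfl this, Finset.sum_const_zero]; exact hrhs
  have hSA : ∀ s ∈ A, IsPrim s ∧ (nm s : ℝ) ≤ R / ((nm z : ℝ) * nm y) := by
    intro s hs
    rw [hA, Finset.mem_filter, mem_S hR0, mem_S hR0] at hs
    refine ⟨hs.1.2.1, ?_⟩
    rw [le_div_iff₀ (by positivity)]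
    have := hs.2.1
    simp only [nm_mul] at this
    push_cast at this
    linarith
  have hSP : ∀ p ∈ P, IsPrim p.1 ∧ IsPrim p.2 ∧ Squarefree p.1 ∧ Squarefree p.2 ∧
      IsCoprime p.1 p.2 ∧ (nm p.1 : ℝ) * nm p.2 ≤ Z / (G * nm q) := by
    intro p hp
    obtain ⟨⟨a1, a2⟩, ⟨a3, a4, a5⟩, a6⟩ := hP' p hp
    have hc : IsCoprime p.1 p.2 := by
      have h3 : p.1 * p.2 ∣ p.1 * (p.2 * ((y * n) * z)) := ⟨(y * n) * z, by ring⟩
      exact (squarefree_mul_iff.mp (a6.1.squarefree_of_dvd h3)).1.isCoprime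
    refine ⟨a1, a3, a2, a4, hc, ?_⟩
    have h4 := a6.2
    have hQm : QQ n p.2 y z p.1 = (p.1 * p.2 ^ 2) * q := by unfold QQ; rw [hq]; ring
    rw [hQm, nm_mul, nm_mul, nm_pow] at h4
    push_cast at h4
    rw [le_div_iff₀ (by positivity)]
    have h5 : (0 : ℝ) ≤ nm p.1 := Nat.cast_nonneg _
    calc (nm p.1 : ℝ) * nm p.2 * (G * nm q) ≤ (nm p.1 : ℝ) * nm p.2 * (nm p.2 * nm q) := by gcongr
      _ = (nm p.1 : ℝ) * (nm p.2 : ℝ) ^ 2 * nm q := by ring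
      _ ≤ Z := h4
  have hC1 : 1 ≤ R / ((nm z : ℝ) * nm y) := by
    obtain ⟨s, hs⟩ := hAne
    obtain ⟨h1, h3⟩ := hSA s hs
    exact le_trans (by exact_mod_cast nm_pos.mpr h1.ne_zero) h3
  have hD1 : 1 ≤ Z / (G * nm q) := by
    obtain ⟨p, hp⟩ := hPne
    obtain ⟨h1, h2, -, -, -, h3⟩ := hSP p hp
    refine le_trans ?_ h3
    have t1 : (1 : ℝ) ≤ nm p.1 := by exact_mod_cast nm_pos.mpr h1.ne_zero
    have t2 : (1 : ℝ) ≤ nm p.2 := by exact_mod_cast nm_pos.mpr h2.ne_zero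
    exact one_le_mul_of_one_le_of_one_le t1 t2
  have hmain := hLS _ _ hC1 hD1 P hSP A hSA β
  have hβn : ∑ p ∈ P, ‖β p‖ ^ 2 ≤ ((nm z : ℝ) * nm y * nm n) *
      ∑ p ∈ P, (nm p.2 : ℝ) * wt b c p.2 y (QQ n p.2 y z p.1) := by
    rw [Finset.mul_sum]
    refine Finset.sum_le_sum fun p hp => ?_
    obtain ⟨⟨a1, a2⟩, ⟨a3, a4, a5⟩, a6⟩ := hP' p hp
    have hg := gs_bd hκ hn a3 hy hz a1 a6.1
    have hQm : QQ n p.2 y z p.1 = (p.1 * p.2 ^ 2) * q := by unfold QQ; rw [hq]; ring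
    have hQp : IsPrim (QQ n p.2 y z p.1) := hQm ▸ (a1.mul (a3.pow 2)).mul hqp
    have hsy : ‖sy (v ^ 2) (QQ n p.2 y z p.1)‖ ≤ 1 := norm_sy_le' hQp
    simp only [hβ, norm_mul, RCLike.norm_conj]
    unfold wt
    calc (‖b (QQ n p.2 y z p.1)‖ * (‖gs (κ * ((z * (y * n)) * (p.2 * (y * n))))
          (QQ n p.2 y z p.1)‖ * ‖sy (v ^ 2) (QQ n p.2 y z p.1)‖) *
          ‖CS (sub c (p.2 * y)) (QQ n p.2 y z p.1)‖) ^ 2
        = ‖b (QQ n p.2 y z p.1)‖ ^ 2 * ‖CS (sub c (p.2 * y)) (QQ n p.2 y z p.1)‖ ^ 2 *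
          (‖gs (κ * ((z * (y * n)) * (p.2 * (y * n)))) (QQ n p.2 y z p.1)‖ ^ 2 *
          ‖sy (v ^ 2) (QQ n p.2 y z p.1)‖ ^ 2) := by ring
      _ ≤ ‖b (QQ n p.2 y z p.1)‖ ^ 2 * ‖CS (sub c (p.2 * y)) (QQ n p.2 y z p.1)‖ ^ 2 *
          (((nm (QQ n p.2 y z p.1) : ℝ) * ((nm p.2 : ℝ) * nm z * nm y * nm n)) * 1) := by
        gcongr
        exact pow_le_one₀ (norm_nonneg _) hsy
      _ = _ := by ring
  have hSw : 0 ≤ ∑ p ∈ P, (nm p.2 : ℝ) * wt b c p.2 y (QQ n p.2 y z p.1) :=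
    Finset.sum_nonneg fun p _ => mul_nonneg (by positivity) (wt_nonneg _ _ _ _ _)
  have hW : (R / ((nm z : ℝ) * nm y) + (Z / (G * nm q)) ^ 2) * ((nm z : ℝ) * nm y) ≤
      R + (Z / (nm n : ℝ) ^ 3 / G) ^ 2 := by
    have t1 : R / ((nm z : ℝ) * nm y) * ((nm z : ℝ) * nm y) = R := by field_simp
    have t2 : (Z / (G * nm q)) ^ 2 * ((nm z : ℝ) * nm y) ≤ (Z / (nm n : ℝ) ^ 3 / G) ^ 2 := by
      have e : (Z / (G * nm q)) ^ 2 = (Z / (nm n : ℝ) ^ 3 / G) ^ 2 /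
          ((nm z : ℝ) ^ 2 * (nm y : ℝ) ^ 3) ^ 2 := by
        rw [hnq]
        field_simp
      rw [e, div_mul_eq_mul_div, div_le_iff₀ (by positivity)]
      apply mul_le_mul_of_nonneg_left _ (by positivity)
      have h1 : (nm z : ℝ) * nm y ≤ (nm z : ℝ) ^ 2 * (nm y : ℝ) ^ 3 := by
        have a1 : (nm z : ℝ) ≤ (nm z : ℝ) ^ 2 := by nlinarith
        have a2 : (nm y : ℝ) ≤ (nm y : ℝ) ^ 3 := by
          calc (nm y : ℝ) = (nm y : ℝ) ^ 1 := (pow_one _).symm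
            _ ≤ _ := pow_le_pow_right₀ hY1 (by norm_num)
        exact mul_le_mul a1 a2 (by positivity) (by positivity)
      have h2 : (1 : ℝ) ≤ (nm z : ℝ) ^ 2 * (nm y : ℝ) ^ 3 :=
        one_le_mul_of_one_le_of_one_le (one_le_pow₀ hZ1) (one_le_pow₀ hY1)
      nlinarith
    rw [add_mul, t1]; linarith
  calc ∑ s ∈ A, ‖∑ x ∈ Bk, UU κ b c Z n v x y z s‖ ^ 2
      ≤ ∑ s ∈ A, ‖∑ p ∈ P, β p * sy s (p.1 * p.2 ^ 2)‖ ^ 2 :=
        Finset.sum_le_sum fun s hs => pow_le_pow_left₀ (norm_nonneg _) (hU s hs) 2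
    _ ≤ K * (R / ((nm z : ℝ) * nm y) + (Z / (G * nm q)) ^ 2) * (((nm z : ℝ) * nm y * nm n) *
          ∑ p ∈ P, (nm p.2 : ℝ) * wt b c p.2 y (QQ n p.2 y z p.1)) :=
        hmain.trans (mul_le_mul_of_nonneg_left hβn (by positivity))
    _ = K * ((R / ((nm z : ℝ) * nm y) + (Z / (G * nm q)) ^ 2) * ((nm z : ℝ) * nm y)) * nm n *
          ∑ p ∈ P, (nm p.2 : ℝ) * wt b c p.2 y (QQ n p.2 y z p.1) := by ring
    _ ≤ K * (R + (Z / (nm n : ℝ) ^ 3 / G) ^ 2) * nm n *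
          ∑ p ∈ P, (nm p.2 : ℝ) * wt b c p.2 y (QQ n p.2 y z p.1) :=
        mul_le_mul_of_nonneg_right (mul_le_mul_of_nonneg_right
          (mul_le_mul_of_nonneg_left hW hK.le) (by positivity)) hSw

end Crest.Agent.R017.H1401
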