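import Crest.Agent.R017.EndE2_699

/-!
# Row 17: Heath-Brown's identity for Möbius sums over primary Eisenstein integers (algebra)

`hb_identity`: for `F` vanishing at primary elements of norm `> X`, a cut-off Möbius function `c`
(`c = μ` on norms `≤ z`) and `X ≤ z ^ L`,

`∑_{b} μ(b) F(b) = ∑_{j=1}^{L} (-1)^{j+1} C(L,j) ∑_{a_1..a_j, b_1..b_{j-1}} c(a_1)⋯c(a_j) F(∏ a ∏ b)`.
-/

set_option autoImplicit false

noncomputable section

namespace Crest.Agent.R017.HB645

open Crest.Agent.R012 Crest.Agent.R012.Eis Crest.Agent.R012.PSer47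

/-- the monoid algebra of the Eisenstein integers -/
abbrev AA := MonoidAlgebra ℂ Eis

/-- finite formal sums -/
def el (S : Finset Eis) (f : Eis → ℂ) : AA := ∑ x ∈ S, MonoidAlgebra.single x (f x)

open Classical in
lemma coeff_el (S : Finset Eis) (f : Eis → ℂ) (b : Eis) :
    (el S f).coeff b = if b ∈ S then f b else 0 := by
  unfold el
  rw [MonoidAlgebra.coeff_sum, Finsupp.finsetSum_apply]
  simp only [MonoidAlgebra.coeff_single, Finsupp.single_apply]
  simp

lemma el_mul_el (S T : Finset Eis) (f g : Eis → ℂ) :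
    el S f * el T g = ∑ p ∈ S ×ˢ T, MonoidAlgebra.single (p.1 * p.2) (f p.1 * g p.2) := by
  unfold el
  rw [Finset.sum_mul_sum, Finset.sum_product]
  simp only [MonoidAlgebra.single_mul_single]

open Classical in
lemma coeff_el_mul_el (S T : Finset Eis) (f g : Eis → ℂ) (b : Eis) :
    (el S f * el T g).coeff b = ∑ p ∈ (S ×ˢ T).filter (fun p => p.1 * p.2 = b), f p.1 * g p.2 := by
  rw [el_mul_el, MonoidAlgebra.coeff_sum, Finsupp.finsetSum_apply]
  simp only [MonoidAlgebra.coeff_single, Finsupp.single_apply]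
  rw [Finset.sum_filter]

/-- the linear functional attached to `F` -/
def Lf (F : Eis → ℂ) : AA →+ ℂ :=
  (Finsupp.liftAddHom fun b => (AddMonoidHom.mulRight (F b))).comp
    MonoidAlgebra.coeffAddEquiv.toAddMonoidHom

lemma Lf_single (F : Eis → ℂ) (b : Eis) (c : ℂ) : Lf F (MonoidAlgebra.single b c) = c * F b := by
  simp [Lf]

lemma Lf_apply (F : Eis → ℂ) (f : AA) : Lf F f = ∑ b ∈ f.coeff.support, f.coeff b * F b := by
  simp [Lf, Finsupp.sum]

lemma Lf_smul (F : Eis → ℂ) (c : ℂ) (f : AA) : Lf F (c • f) = c * Lf F f := by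
  induction f using MonoidAlgebra.induction_linear with
  | zero => simp
  | add x y hx hy => rw [smul_add, map_add, map_add, hx, hy, mul_add]
  | single m r => rw [MonoidAlgebra.smul_single, Lf_single, Lf_single, smul_eq_mul, mul_assoc]

lemma Lf_intCast_mul (F : Eis → ℂ) (c : ℤ) (f : AA) : Lf F ((c : AA) * f) = (c : ℂ) * Lf F f := by
  rw [← zsmul_eq_mul, map_zsmul, zsmul_eq_mul]

/-- supported on primary elements -/
def Pr (f : AA) : Prop := ∀ b, f.coeff b ≠ 0 → IsPrim b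

/-- supported on primary elements of norm `> n` -/
def Hi (n : ℕ) (f : AA) : Prop := ∀ b, f.coeff b ≠ 0 → IsPrim b ∧ n < nm b

lemma exists_of_coeff_mul {f g : AA} {b : Eis} (h : (f * g).coeff b ≠ 0) :
    ∃ x y, x * y = b ∧ f.coeff x ≠ 0 ∧ g.coeff y ≠ 0 := by
  classical
  rw [MonoidAlgebra.coeff_mul] at h
  obtain ⟨x, hx, h1⟩ := Finset.exists_ne_zero_of_sum_ne_zero h
  obtain ⟨y, hy, h2⟩ := Finset.exists_ne_zero_of_sum_ne_zero h1
  refine ⟨x, y, ?_, Finsupp.mem_support_iff.mp hx, Finsupp.mem_support_iff.mp hy⟩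
  by_contra h3
  simp [h3] at h2

lemma Pr.mul {f g : AA} (hf : Pr f) (hg : Pr g) : Pr (f * g) := by
  intro b hb
  obtain ⟨x, y, hxy, hx, hy⟩ := exists_of_coeff_mul hb
  rw [← hxy]
  exact (hf x hx).mul (hg y hy)

lemma Pr_one : Pr (1 : AA) := by
  classical
  intro b hb
  rw [MonoidAlgebra.one_def, MonoidAlgebra.coeff_single, Finsupp.single_apply] at hb
  have h1 : b = 1 := by
    by_contra h
    exact hb (if_neg (fun h2 => h h2.symm))
  rw [h1]
  exact isPrim_one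

lemma Pr.pow {f : AA} (hf : Pr f) (n : ℕ) : Pr (f ^ n) := by
  induction n with
  | zero => rw [pow_zero]; exact Pr_one
  | succ n ih => rw [pow_succ]; exact ih.mul hf

lemma Pr_el {S : Finset Eis} (hS : ∀ x ∈ S, IsPrim x) (f : Eis → ℂ) : Pr (el S f) := by
  classical
  intro b hb
  rw [coeff_el] at hb
  by_cases h : b ∈ S
  · exact hS b h
  · rw [if_neg h] at hb
    exact absurd rfl hb

lemma Hi.pr {n : ℕ} {f : AA} (h : Hi n f) : Pr f := fun b hb => (h b hb).1

lemma Hi.mono {n m : ℕ} {f : AA} (h : Hi n f) (hm : m ≤ n) : Hi m f :=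
  fun b hb => ⟨(h b hb).1, hm.trans_lt (h b hb).2⟩

lemma Hi.mul_pr {n : ℕ} {f g : AA} (hf : Hi n f) (hg : Pr g) : Hi n (f * g) := by
  intro b hb
  obtain ⟨x, y, hxy, hx, hy⟩ := exists_of_coeff_mul hb
  have h1 := hf x hx
  have h2 := hg y hy
  rw [← hxy, nm_mul]
  have h3 : 0 < nm y := nm_pos.mpr h2.ne_zero
  exact ⟨h1.1.mul h2, by nlinarith [h1.2]⟩

lemma Hi.mul {n m : ℕ} {f g : AA} (hf : Hi n f) (hg : Hi m g) : Hi (n * m) (f * g) := by
  intro b hb
  obtain ⟨x, y, hxy, hx, hy⟩ := exists_of_coeff_mul hb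
  have h1 := hf x hx
  have h2 := hg y hy
  rw [← hxy, nm_mul]
  exact ⟨h1.1.mul h2.1, Nat.mul_lt_mul'' h1.2 h2.2⟩

lemma Hi.pow {n : ℕ} {f : AA} (hf : Hi n f) {L : ℕ} (hL : 1 ≤ L) : Hi (n ^ L) (f ^ L) := by
  induction L, hL using Nat.le_induction with
  | base => rw [pow_one, pow_one]; exact hf
  | succ L _ ih => rw [pow_succ, pow_succ]; exact ih.mul hf

/-- `F` vanishes at primary elements of norm `> X` -/
def Van (X : ℕ) (F : Eis → ℂ) : Prop := ∀ b, IsPrim b → X < nm b → F b = 0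

lemma Lf_eq_zero {X : ℕ} {F : Eis → ℂ} (hF : Van X F) {f : AA} (hf : Hi X f) : Lf F f = 0 := by
  rw [Lf_apply]
  refine Finset.sum_eq_zero fun b hb => ?_
  have h := hf b (Finsupp.mem_support_iff.mp hb)
  rw [hF b h.1 h.2, mul_zero]

/-- all elements of norm `≤ X` with coefficient one -/
def UU (X : ℕ) : AA := el (primBall X) (fun _ => 1)

lemma Pr_UU (X : ℕ) : Pr (UU X) := Pr_el (fun _ hx => (mem_primBall.mp hx).2) _

lemma Pr_elp (Y : ℕ) (c : Eis → ℂ) : Pr (el (primBall Y) c) :=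
  Pr_el (fun _ hx => (mem_primBall.mp hx).2) _

/-- `1 - U M` is supported on norms `> z` -/
lemma Hi_one_sub {X Y z : ℕ} {c : Eis → ℂ} (hz1 : z ≤ X) (hz2 : z ≤ Y)
    (hc : ∀ b, IsPrim b → nm b ≤ z → c b = (muE b : ℂ)) :
    Hi z (1 - UU X * el (primBall Y) c) := by
  classical
  have hp : Pr (1 - UU X * el (primBall Y) c) := by
    intro b hb
    rw [MonoidAlgebra.coeff_sub, Finsupp.sub_apply] at hb
    by_contra hn
    have h1 : (1 : AA).coeff b = 0 := by
      by_contra h; exact hn (Pr_one b h)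
    have h2 : (UU X * el (primBall Y) c).coeff b = 0 := by
      by_contra h; exact hn ((Pr_UU X).mul (Pr_elp Y c) b h)
    rw [h1, h2, sub_zero] at hb
    exact hb rfl
  intro b hb
  refine ⟨hp b hb, ?_⟩
  by_contra hle
  push Not at hle
  apply hb
  have hbp := hp b hb
  rw [MonoidAlgebra.coeff_sub, Finsupp.sub_apply, UU, coeff_el_mul_el]
  have e1 : (primBall X ×ˢ primBall Y).filter (fun p => p.1 * p.2 = b) = padiv b := by
    ext p
    rw [mem_padiv, Finset.mem_filter, Finset.mem_product, mem_primBall, mem_primBall]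
    constructor
    · rintro ⟨⟨⟨_, h1⟩, ⟨_, h2⟩⟩, h3⟩
      exact ⟨h3, h1, h2⟩
    · rintro ⟨h1, h2, h3⟩
      have hn : nm p.1 * nm p.2 = nm b := by rw [← nm_mul, h1]
      have p1 : 0 < nm p.1 := nm_pos.mpr h2.ne_zero
      have p2 : 0 < nm p.2 := nm_pos.mpr h3.ne_zero
      exact ⟨⟨⟨by nlinarith, h2⟩, ⟨by nlinarith, h3⟩⟩, h1⟩
  rw [e1]
  have e2 : ∑ p ∈ padiv b, (1 : ℂ) * c p.2 = ∑ p ∈ padiv b, (muE p.1 : ℂ) := by
    rw [← Finset.sum_bij (i := fun (p : Eis × Eis) _ => (p.2, p.1)) (s := padiv b) (t := padiv b)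
      (f := fun p => (muE p.2 : ℂ)) (g := fun p => (muE p.1 : ℂ))]
    · refine Finset.sum_congr rfl fun p hp1 => ?_
      rw [mem_padiv] at hp1
      rw [one_mul, hc p.2 hp1.2.2]
      have hn : nm p.1 * nm p.2 = nm b := by rw [← nm_mul, hp1.1]
      have p1 : 0 < nm p.1 := nm_pos.mpr hp1.2.1.ne_zero
      nlinarith
    · intro p hp1
      rw [mem_padiv] at hp1 ⊢
      exact ⟨by rw [mul_comm]; exact hp1.1, hp1.2.2, hp1.2.1⟩
    · intro p _ q _ h
      have h1 := congrArg Prod.fst h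
      have h2 := congrArg Prod.snd h
      exact Prod.ext h2 h1
    · intro p hp1
      rw [mem_padiv] at hp1
      exact ⟨(p.2, p.1), mem_padiv.mpr ⟨by rw [mul_comm]; exact hp1.1, hp1.2.2, hp1.2.1⟩, rfl⟩
    · intro p _; rfl
  rw [e2, End699.sum_padiv_muE hbp, MonoidAlgebra.one_def, MonoidAlgebra.coeff_single,
    Finsupp.single_apply]
  by_cases h1 : b = 1
  · rw [if_pos h1, if_pos h1.symm, sub_self]
  · rw [if_neg h1, if_neg (fun h => h1 h.symm), sub_self]

/-- Heath-Brown's identity, abstract form. -/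
theorem hb_abstract {X X0 Y z L : ℕ} (hL : 1 ≤ L) (hX : X0 ≤ X) (hz1 : z ≤ X) (hz2 : z ≤ Y)
    (hzL : X0 ≤ z ^ L) {c : Eis → ℂ} (hc : ∀ b, IsPrim b → nm b ≤ z → c b = (muE b : ℂ))
    {F : Eis → ℂ} (hF : Van X0 F) :
    Lf F (el (primBall X) fun b => (muE b : ℂ)) =
      ∑ j ∈ Finset.Icc 1 L, (-1 : ℂ) ^ (j + 1) * (L.choose j : ℂ) *
        Lf F (UU X ^ (j - 1) * el (primBall Y) c ^ j) := by
  set U : AA := UU X with hU
  set M : AA := el (primBall Y) c with hM
  set MX : AA := el (primBall X) fun b => (muE b : ℂ) with hMX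
  have hPU : Pr U := Pr_UU X
  have hPM : Pr M := Pr_elp Y c
  have hPMX : Pr MX := Pr_elp X _
  have h1 : Hi z (1 - U * M) := Hi_one_sub hz1 hz2 hc
  have h2 : Hi X0 (1 - U * MX) := (Hi_one_sub le_rfl le_rfl (fun _ _ _ => rfl)).mono hX
  have h3 : Lf F ((1 - U * M) ^ L * MX) = 0 :=
    Lf_eq_zero hF (((h1.pow hL).mono hzL).mul_pr hPMX)
  -- expand
  have h4 : (1 - U * M) ^ L = ∑ j ∈ Finset.range (L + 1),
      ((((-1) ^ j * (L.choose j : ℤ) : ℤ)) : AA) * (U * M) ^ j := by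
    rw [sub_eq_add_neg, add_comm, add_pow]
    refine Finset.sum_congr rfl fun j _ => ?_
    rw [one_pow, mul_one, neg_pow]
    push_cast
    ring
  have h5 : Lf F ((1 - U * M) ^ L * MX) = ∑ j ∈ Finset.range (L + 1),
      ((((-1) ^ j * (L.choose j : ℤ) : ℤ)) : ℂ) * Lf F ((U * M) ^ j * MX) := by
    rw [h4, Finset.sum_mul, map_sum]
    refine Finset.sum_congr rfl fun j _ => ?_
    rw [mul_assoc, Lf_intCast_mul]
  have h6 : ∀ j, 1 ≤ j → Lf F ((U * M) ^ j * MX) = Lf F (U ^ (j - 1) * M ^ j) := by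
    intro j hj
    obtain ⟨i, rfl⟩ : ∃ i, j = i + 1 := ⟨j - 1, by omega⟩
    have e : (U * M) ^ (i + 1) * MX = U ^ (i + 1 - 1) * M ^ (i + 1) -
        (1 - U * MX) * (U ^ i * M ^ (i + 1)) := by
      rw [Nat.add_sub_cancel]
      ring
    rw [e, map_sub, Lf_eq_zero hF (h2.mul_pr ((hPU.pow i).mul (hPM.pow (i + 1)))), sub_zero]
  rw [h5, Finset.range_eq_Ico, Finset.sum_eq_sum_Ico_succ_bot (by omega)] at h3
  simp only [pow_zero, Nat.choose_zero_right, one_mul, Nat.cast_one, Int.cast_one, zero_add] at h3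
  have h7 : ∑ j ∈ Finset.Ico 1 (L + 1),
      ((((-1) ^ j * (L.choose j : ℤ) : ℤ)) : ℂ) * Lf F ((U * M) ^ j * MX) =
      - ∑ j ∈ Finset.Icc 1 L, (-1 : ℂ) ^ (j + 1) * (L.choose j : ℂ) *
        Lf F (U ^ (j - 1) * M ^ j) := by
    rw [← Finset.sum_neg_distrib]
    refine Finset.sum_congr ?_ fun j hj => ?_
    · ext j; simp only [Finset.mem_Ico, Finset.mem_Icc]; omega
    · rw [h6 j (Finset.mem_Icc.mp hj).1]
      push_cast
      ring
  rw [h7] at h3
  linear_combination h3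

/-! ### Conversion into sums over tuples -/

variable {ι : Type*}

lemma prod_single (s : Finset ι) (x : ι → Eis) (c : ι → ℂ) :
    ∏ i ∈ s, (MonoidAlgebra.single (x i) (c i) : AA) =
      MonoidAlgebra.single (∏ i ∈ s, x i) (∏ i ∈ s, c i) := by
  classical
  induction s using Finset.induction_on with
  | empty => simp [MonoidAlgebra.one_def]
  | insert a s ha ih =>
    rw [Finset.prod_insert ha, Finset.prod_insert ha, Finset.prod_insert ha, ih,
      MonoidAlgebra.single_mul_single]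

lemma prod_el [Fintype ι] [DecidableEq ι] (S : ι → Finset Eis) (f : ι → Eis → ℂ) :
    ∏ i, el (S i) (f i) = ∑ x ∈ Fintype.piFinset S,
      MonoidAlgebra.single (∏ i, x i) (∏ i, f i (x i)) := by
  unfold el
  rw [Finset.prod_univ_sum]
  exact Finset.sum_congr rfl fun x _ => prod_single _ _ _

lemma Lf_prod_el [Fintype ι] [DecidableEq ι] (F : Eis → ℂ) (S : ι → Finset Eis)
    (f : ι → Eis → ℂ) :
    Lf F (∏ i, el (S i) (f i)) = ∑ x ∈ Fintype.piFinset S, (∏ i, f i (x i)) * F (∏ i, x i) := by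
  rw [prod_el, map_sum]
  exact Finset.sum_congr rfl fun x _ => Lf_single _ _ _

lemma Lf_el (F : Eis → ℂ) (S : Finset Eis) (f : Eis → ℂ) :
    Lf F (el S f) = ∑ x ∈ S, f x * F x := by
  unfold el
  rw [map_sum]
  exact Finset.sum_congr rfl fun x _ => Lf_single _ _ _

/-- **Heath-Brown's identity** for primary Eisenstein integers.  The variables are indexed by
`Fin (j - 1) ⊕ Fin j`: the first ones have coefficient one, the last ones the cut-off Möbius
function `c`. -/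
theorem hb_identity {X X0 z L : ℕ} (hL : 1 ≤ L) (hX : X0 ≤ X) (hz1 : z ≤ X)
    (hzL : X0 ≤ z ^ L) {c : Eis → ℂ} (hc : ∀ b, IsPrim b → nm b ≤ z → c b = (muE b : ℂ))
    {F : Eis → ℂ} (hF : Van X0 F) :
    ∑ b ∈ primBall X, (muE b : ℂ) * F b =
      ∑ j ∈ Finset.Icc 1 L, (-1 : ℂ) ^ (j + 1) * (L.choose j : ℂ) *
        ∑ x ∈ Fintype.piFinset (fun _ : Fin (j - 1) ⊕ Fin j => primBall X),
          (∏ i, c (x (Sum.inr i))) * F (∏ i, x i) := by
  rw [← Lf_el, hb_abstract hL hX hz1 hz1 hzL hc hF]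
  refine Finset.sum_congr rfl fun j _ => ?_
  have e : UU X ^ (j - 1) * el (primBall X) c ^ j =
      ∏ i : Fin (j - 1) ⊕ Fin j, el (primBall X) (Sum.elim (fun _ _ => (1 : ℂ)) (fun _ => c) i) := by
    rw [Fintype.prod_sum_type]
    simp [UU]
  rw [e, Lf_prod_el]
  congr 1
  refine Finset.sum_congr rfl fun x _ => ?_
  rw [Fintype.prod_sum_type]
  simp

end Crest.Agent.R017.HB645
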