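import Crest.Agent.R017.HB2_645

/-!
# Row 17: Heath-Brown's identity with smooth separated pieces, final forms

* `hb_log`: one character, logarithmic weight;
* `hb_family`: sums over a family with nonnegative weights, given bounds for all boxes;
* `hb_family_V`: the same for a weight `V (nm b / Q)`.
-/

set_option autoImplicit false

noncomputable section

namespace Crest.Agent.R017.HB645

open Crest.Agent.R012 Crest.Agent.R012.Eis Crest.Agent.R012.PSer47 Crest.Agent.R012.Weight600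
open MeasureTheory Set
open scoped ContDiff

open Classical in
/-- the boxes: `κ (inl i)` are the scales of the smooth pieces, `κ (inr i)` those of the Möbius
pieces -/
def boxes (j K : ℕ) (y R w : ℝ) : Finset (Fin (j - 1) ⊕ Fin j → ℕ) :=
  (adm (Fin (j - 1) ⊕ Fin j) K y R).filter fun κ => ∀ i : Fin j, (κ (Sum.inr i) : ℝ) ≤ w

/-- product of the absolute values of the pieces of a box -/
def GP (ψ : Eis → ℂ) (z : ℝ) {j : ℕ} (κ : Fin (j - 1) ⊕ Fin j → ℕ) (t : ℝ) : ℝ :=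
  (∏ i, ‖PS ψ (κ (Sum.inl i)) t‖) * ∏ i, ‖PM ψ z (κ (Sum.inr i)) t‖

lemma GP_nonneg (ψ : Eis → ℂ) (z : ℝ) {j : ℕ} (κ : Fin (j - 1) ⊕ Fin j → ℕ) (t : ℝ) :
    0 ≤ GP ψ z κ t :=
  mul_nonneg (Finset.prod_nonneg fun _ _ => norm_nonneg _) (Finset.prod_nonneg fun _ _ => norm_nonneg _)

lemma continuous_GP (ψ : Eis → ℂ) (z : ℝ) {j : ℕ} (κ : Fin (j - 1) ⊕ Fin j → ℕ) :
    Continuous (GP ψ z κ) := by
  unfold GP
  refine Continuous.mul ?_ ?_
  · exact continuous_finsetProd _ fun i _ => (continuous_PG ψ _).norm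
  · exact continuous_finsetProd _ fun i _ => (continuous_PG (fun b => cM z b * ψ b) _).norm

lemma mem_boxes {j K : ℕ} {y R w : ℝ} {κ : Fin (j - 1) ⊕ Fin j → ℕ} :
    κ ∈ boxes j K y R w ↔ (∀ i, κ i ≤ K) ∧
      |∑ i, (κ (Sum.inl i) : ℝ) + ∑ i, (κ (Sum.inr i) : ℝ) - y| ≤ R ∧
      ∀ i : Fin j, (κ (Sum.inr i) : ℝ) ≤ w := by
  classical
  simp only [boxes, adm, Finset.mem_filter, Fintype.mem_piFinset, Finset.mem_range,
    Fintype.sum_sum_type, and_assoc]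
  constructor
  · rintro ⟨h1, h2, h3⟩
    exact ⟨fun i => Nat.lt_succ_iff.mp (h1 i), h2, h3⟩
  · rintro ⟨h1, h2, h3⟩
    exact ⟨fun i => Nat.lt_succ_of_le (h1 i), h2, h3⟩

lemma card_boxes_le (j K : ℕ) (y R w : ℝ) : (boxes j K y R w).card ≤ (K + 1) ^ (2 * j) := by
  classical
  refine (Finset.card_filter_le _ _).trans ((Finset.card_filter_le _ _).trans ?_)
  rw [Fintype.card_piFinset, Finset.prod_const, Finset.card_range, Finset.card_univ,
    Fintype.card_sum, Fintype.card_fin, Fintype.card_fin]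
  exact Nat.pow_le_pow_right (by omega) (by omega)

lemma IsChar_prod {ψ : Eis → ℂ} (h : IsChar ψ) {ι : Type*} (s : Finset ι) (x : ι → Eis)
    (hx : ∀ i, IsPrim (x i)) : ψ (∏ i ∈ s, x i) = ∏ i ∈ s, ψ (x i) := by
  classical
  induction s using Finset.induction_on with
  | empty => simp [h.one]
  | insert a s ha ih =>
    rw [Finset.prod_insert ha, Finset.prod_insert ha, ← ih]
    exact h.mul _ _ (hx a) (Finset.prod_induction x IsPrim (fun _ _ h1 h2 => h1.mul h2) isPrim_one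
      (fun i _ => hx i))

/-- one weight in `t` -/
lemma integrable_wt {k : ℕ} (hk : 2 ≤ k) : Integrable fun t : ℝ => ((1 + |t|) ^ k)⁻¹ := by
  have hpos : ∀ t : ℝ, 0 < 1 + |t| := fun t => by positivity
  have h2 : Integrable fun t : ℝ => (1 + ‖t‖) ^ (-(2 : ℝ)) :=
    integrable_one_add_norm (by simp)
  refine h2.mono' ?_ ?_
  · refine Continuous.aestronglyMeasurable ?_
    refine Continuous.inv₀ (by fun_prop) fun t => ?_
    exact (pow_pos (hpos t) k).ne'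
  · refine Filter.Eventually.of_forall fun t => ?_
    rw [Real.norm_of_nonneg (by have := hpos t; positivity)]
    rw [Real.rpow_neg (by have := hpos t; rw [Real.norm_eq_abs]; exact this.le), Real.norm_eq_abs]
    refine inv_anti₀ (by have := hpos t; positivity) ?_
    rw [show (2 : ℝ) = ((2 : ℕ) : ℝ) by norm_num, Real.rpow_natCast]
    exact pow_le_pow_right₀ (by linarith [abs_nonneg t]) hk

lemma GP_bdd (ψ : Eis → ℂ) (z : ℝ) {j : ℕ} (κ : Fin (j - 1) ⊕ Fin j → ℕ) :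
    ∃ B : ℝ, 0 ≤ B ∧ ∀ t, GP ψ z κ t ≤ B := by
  choose B1 hB10 hB1 using fun i : Fin (j - 1) => norm_PG_le ψ (κ (Sum.inl i))
  choose B2 hB20 hB2 using fun i : Fin j => norm_PG_le (fun b => cM z b * ψ b) (κ (Sum.inr i))
  refine ⟨(∏ i, B1 i) * ∏ i, B2 i, mul_nonneg (Finset.prod_nonneg fun i _ => hB10 i)
    (Finset.prod_nonneg fun i _ => hB20 i), fun t => ?_⟩
  unfold GP
  refine mul_le_mul ?_ ?_ (Finset.prod_nonneg fun _ _ => norm_nonneg _)
    (Finset.prod_nonneg fun i _ => hB10 i)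
  · exact Finset.prod_le_prod (fun i _ => norm_nonneg _) fun i _ => hB1 i t
  · exact Finset.prod_le_prod (fun i _ => norm_nonneg _) fun i _ => hB2 i t

lemma integrable_GP {k : ℕ} (hk : 2 ≤ k) (ψ : Eis → ℂ) (z : ℝ) {j : ℕ}
    (κ : Fin (j - 1) ⊕ Fin j → ℕ) : Integrable fun t : ℝ => ((1 + |t|) ^ k)⁻¹ * GP ψ z κ t := by
  obtain ⟨B, _, hB⟩ := GP_bdd ψ z κ
  refine (integrable_wt hk).mul_bdd (c := B) (continuous_GP ψ z κ).aestronglyMeasurable ?_
  refine Filter.Eventually.of_forall fun t => ?_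
  rw [Real.norm_of_nonneg (GP_nonneg ψ z κ t)]
  exact hB t

/-- **Heath-Brown's identity with smooth separated pieces**, logarithmic weight `V (log nm b - y)`
(think `y = log Q`). -/
theorem hb_log {V : ℝ → ℂ} (hV : ContDiff ℝ ∞ V) (hV2 : HasCompactSupport V) {β : ℝ}
    (hβ0 : 0 ≤ β) (hβ : ∀ u, β < |u| → V u = 0) {L : ℕ} (hL : 1 ≤ L) {k : ℕ} (hk : 2 ≤ k) :
    ∃ C : ℝ, 0 < C ∧ ∀ (y : ℝ) (z : ℕ) (ψ : Eis → ℂ), IsChar ψ → 1 ≤ z →
      Real.exp (y + β) ≤ (z : ℝ) ^ L → ∀ X : ℕ, Real.exp (y + β) ≤ X →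
      ‖∑ b ∈ primBall X, (muE b : ℂ) * (ψ b * V (Real.log (nm b) - y))‖ ≤
        C * ∑ j ∈ Finset.Icc 1 L, ∑ κ ∈ boxes j ⌈y + β⌉₊ y (β + 2 * j) (Real.log z + 2),
          ∫ t : ℝ, ((1 + |t|) ^ k)⁻¹ * GP ψ z κ t := by
  classical
  obtain ⟨C0, hC0, hC⟩ := ker_decay hV hV2 k
  refine ⟨2 ^ L * C0, by positivity, ?_⟩
  intro y z ψ hψ hz hzL X hX
  set K : ℕ := ⌈y + β⌉₊ with hK
  have hyK : y + β ≤ K := Nat.le_ceil _
  set X1 : ℕ := max (max X z) ⌈Real.exp (K + 1)⌉₊ with hX1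
  have hX1a : X ≤ X1 := (le_max_left _ _).trans (le_max_left _ _)
  have hX1b : z ≤ X1 := (le_max_right _ _).trans (le_max_left _ _)
  have hX1c : Real.exp (K + 1) ≤ X1 :=
    (Nat.le_ceil _).trans (Nat.cast_le.mpr (le_max_right _ _))
  set X0 : ℕ := ⌊Real.exp (y + β)⌋₊ with hX0
  have hX0X : X0 ≤ X := Nat.floor_le_of_le hX
  have hX0z : X0 ≤ z ^ L := Nat.floor_le_of_le (by push_cast; exact hzL)
  set F : Eis → ℂ := fun b => ψ b * V (Real.log (nm b) - y) with hF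
  have hvan : Van X0 F := by
    intro b hb hlt
    rw [hX0, Nat.floor_lt (Real.exp_pos _).le] at hlt
    have h1 : y + β < Real.log (nm b) := by
      rw [Real.lt_log_iff_exp_lt ((Real.exp_pos _).trans hlt)]
      exact hlt
    simp only [hF]
    rw [hβ _ (by rw [abs_of_pos (by linarith)]; linarith), mul_zero]
  have e0 : ∑ b ∈ primBall X, (muE b : ℂ) * (ψ b * V (Real.log (nm b) - y)) =
      ∑ b ∈ primBall X1, (muE b : ℂ) * F b := by
    apply Finset.sum_subset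
    · intro b hb
      rw [mem_primBall] at hb ⊢
      exact ⟨hb.1.trans hX1a, hb.2⟩
    · intro b hb hb2
      rw [mem_primBall] at hb hb2
      have h1 : X0 < nm b := by
        by_contra h
        push Not at h
        exact hb2 ⟨h.trans hX0X, hb.2⟩
      rw [show ψ b * V (Real.log (nm b) - y) = F b from rfl, hvan b hb.2 h1, mul_zero]
  have hcM : ∀ b, IsPrim b → nm b ≤ z → cM z b = (muE b : ℂ) := by
    intro b hb hle
    unfold cM
    have h1 : (0 : ℝ) < nm b := by exact_mod_cast nm_pos.mpr hb.ne_zero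
    have h2 : Real.log (nm b) ≤ Real.log z := Real.log_le_log h1 (by exact_mod_cast hle)
    rw [sg_of_le (by linarith), sub_zero, Complex.ofReal_one, mul_one]
  rw [e0, hb_identity hL (hX0X.trans hX1a) hX1b hX0z hcM hvan]
  rw [Finset.mul_sum]
  refine (norm_sum_le _ _).trans (Finset.sum_le_sum fun j hj => ?_)
  rw [Finset.mem_Icc] at hj
  rw [norm_mul, norm_mul, norm_pow, norm_neg, norm_one, one_pow, one_mul, Complex.norm_natCast]
  set g : Fin (j - 1) ⊕ Fin j → Eis → ℂ :=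
    Sum.elim (fun _ => ψ) (fun _ => fun b => cM z b * ψ b) with hg
  have e1 : ∑ x ∈ Fintype.piFinset (fun _ : Fin (j - 1) ⊕ Fin j => primBall X1),
      (∏ i, cM z (x (Sum.inr i))) * F (∏ i, x i) =
      ∑ x ∈ Fintype.piFinset (fun _ : Fin (j - 1) ⊕ Fin j => primBall X1),
        (∏ i, g i (x i)) * V (Real.log (nm (∏ i, x i)) - y) := by
    refine Finset.sum_congr rfl fun x hx => ?_
    rw [Fintype.mem_piFinset] at hx
    have hxp : ∀ i, IsPrim (x i) := fun i => (mem_primBall.mp (hx i)).2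
    have h1 : ∏ i, g i (x i) = (∏ i, cM z (x (Sum.inr i))) * ψ (∏ i, x i) := by
      rw [IsChar_prod hψ _ x hxp, Fintype.prod_sum_type, Fintype.prod_sum_type]
      simp only [hg, Sum.elim_inl, Sum.elim_inr]
      rw [Finset.prod_mul_distrib]
      ring
    rw [h1]
    simp only [hF]
    ring
  rw [e1]
  have h2 := norm_box_expand hV hV2 hβ hk hC g (ι := Fin (j - 1) ⊕ Fin j) hyK hX1c (y := y)
  have hch : (L.choose j : ℝ) ≤ 2 ^ L := by
    have := Nat.choose_le_two_pow L j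
    exact_mod_cast this
  have e2 : ∑ κ ∈ adm (Fin (j - 1) ⊕ Fin j) K y (β + Fintype.card (Fin (j - 1) ⊕ Fin j)),
      ∫ t : ℝ, ((1 + |t|) ^ k)⁻¹ * ∏ i, ‖PG (g i) (κ i) t‖ ≤
      ∑ κ ∈ boxes j K y (β + 2 * j) (Real.log z + 2),
          ∫ t : ℝ, ((1 + |t|) ^ k)⁻¹ * GP ψ z κ t := by
    have e3 : ∀ κ : Fin (j - 1) ⊕ Fin j → ℕ, ∀ t : ℝ, ∏ i, ‖PG (g i) (κ i) t‖ = GP ψ z κ t := by
      intro κ t
      rw [Fintype.prod_sum_type]
      rfl
    simp only [e3]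
    set S := (adm (Fin (j - 1) ⊕ Fin j) K y (β + Fintype.card (Fin (j - 1) ⊕ Fin j))).filter
      (fun κ => ∀ i : Fin j, (κ (Sum.inr i) : ℝ) ≤ Real.log z + 2) with hS
    have h3 : ∑ κ ∈ adm (Fin (j - 1) ⊕ Fin j) K y (β + Fintype.card (Fin (j - 1) ⊕ Fin j)),
        ∫ t : ℝ, ((1 + |t|) ^ k)⁻¹ * GP ψ z κ t = ∑ κ ∈ S,
        ∫ t : ℝ, ((1 + |t|) ^ k)⁻¹ * GP ψ z κ t := by
      symm
      apply Finset.sum_subset (Finset.filter_subset _ _)
      intro κ hκ hκ2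
      have h4 : ∃ i : Fin j, Real.log z + 2 < (κ (Sum.inr i) : ℝ) := by
        by_contra hcon
        push Not at hcon
        exact hκ2 (Finset.mem_filter.mpr ⟨hκ, hcon⟩)
      obtain ⟨i, hi⟩ := h4
      have h5 : ∀ t, GP ψ z κ t = 0 := by
        intro t
        unfold GP
        have h6 : ∏ i, ‖PM ψ z (κ (Sum.inr i)) t‖ = 0 :=
          Finset.prod_eq_zero (Finset.mem_univ i) (by rw [PM_eq_zero ψ hi.le t, norm_zero])
        rw [h6, mul_zero]
      simp [h5]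
    rw [h3]
    apply Finset.sum_le_sum_of_subset_of_nonneg
    · intro κ hκ
      have h4 := Finset.mem_filter.mp hκ
      refine Finset.mem_filter.mpr ⟨?_, h4.2⟩
      have h5 := Finset.mem_filter.mp h4.1
      refine Finset.mem_filter.mpr ⟨h5.1, h5.2.trans ?_⟩
      rw [Fintype.card_sum, Fintype.card_fin, Fintype.card_fin]
      have h6 : ((j - 1 + j : ℕ) : ℝ) ≤ 2 * j := by
        have : j - 1 + j ≤ 2 * j := by omega
        exact_mod_cast this
      linarith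
    · intro κ _ _
      exact integral_nonneg fun t => mul_nonneg (by positivity) (GP_nonneg ψ z κ t)
  calc (L.choose j : ℝ) * ‖∑ x ∈ Fintype.piFinset (fun _ : Fin (j - 1) ⊕ Fin j => primBall X1),
        (∏ i, g i (x i)) * V (Real.log (nm (∏ i, x i)) - y)‖
      ≤ 2 ^ L * (C0 * ∑ κ ∈ adm (Fin (j - 1) ⊕ Fin j) K y (β + Fintype.card (Fin (j - 1) ⊕ Fin j)),
          ∫ t : ℝ, ((1 + |t|) ^ k)⁻¹ * ∏ i, ‖PG (g i) (κ i) t‖) := by
        gcongr
    _ ≤ 2 ^ L * (C0 * ∑ κ ∈ boxes j K y (β + 2 * j) (Real.log z + 2),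
          ∫ t : ℝ, ((1 + |t|) ^ k)⁻¹ * GP ψ z κ t) := by
        gcongr
    _ = _ := by ring

/-- family form: `‖Möbius sum‖` summed over a finite family with nonnegative weights -/
theorem hb_family {V : ℝ → ℂ} (hV : ContDiff ℝ ∞ V) (hV2 : HasCompactSupport V) {β : ℝ}
    (hβ0 : 0 ≤ β) (hβ : ∀ u, β < |u| → V u = 0) {L : ℕ} (hL : 1 ≤ L) (A : ℕ) :
    ∃ C : ℝ, 0 < C ∧ ∀ (y : ℝ) (z : ℕ), 0 ≤ y → 1 ≤ z → Real.exp (y + β) ≤ (z : ℝ) ^ L →
      ∀ X : ℕ, Real.exp (y + β) ≤ X → ∀ {σ : Type} (H : Finset σ) (w : σ → ℝ)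
      (ψ : σ → Eis → ℂ), (∀ h ∈ H, 0 ≤ w h) → (∀ h ∈ H, IsChar (ψ h)) → ∀ B : ℝ, 0 ≤ B →
      (∀ j ∈ Finset.Icc 1 L, ∀ κ ∈ boxes j ⌈y + β⌉₊ y (β + 2 * j) (Real.log z + 2), ∀ t : ℝ,
        ∑ h ∈ H, w h * GP (ψ h) z κ t ≤ B * (1 + |t|) ^ A) →
      ∑ h ∈ H, w h * ‖∑ b ∈ primBall X, (muE b : ℂ) * (ψ h b * V (Real.log (nm b) - y))‖ ≤
        C * (1 + y) ^ (2 * L) * B := by
  classical
  obtain ⟨C0, hC0, hC⟩ := hb_log hV hV2 hβ0 hβ hL (k := A + 2) (by omega)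
  set I : ℝ := ∫ t : ℝ, ((1 + |t|) ^ 2)⁻¹ with hI
  have hI0 : 0 ≤ I := integral_nonneg fun t => by positivity
  refine ⟨C0 * (L * (β + 2) ^ (2 * L) * I) + 1, by positivity, ?_⟩
  intro y z hy hz hzL X hX σ H w ψ hw hψ B hB hyp
  set K : ℕ := ⌈y + β⌉₊ with hK
  have hK1 : (K : ℝ) + 1 ≤ (β + 2) * (1 + y) := by
    have := Nat.ceil_lt_add_one (show 0 ≤ y + β by linarith)
    nlinarith [mul_nonneg hβ0 hy]
  have h1 : ∀ h ∈ H, w h * ‖∑ b ∈ primBall X, (muE b : ℂ) * (ψ h b * V (Real.log (nm b) - y))‖ ≤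
      w h * (C0 * ∑ j ∈ Finset.Icc 1 L, ∑ κ ∈ boxes j K y (β + 2 * j) (Real.log z + 2),
        ∫ t : ℝ, ((1 + |t|) ^ (A + 2))⁻¹ * GP (ψ h) z κ t) := fun h hh =>
    mul_le_mul_of_nonneg_left (hC y z (ψ h) (hψ h hh) hz hzL X hX) (hw h hh)
  refine (Finset.sum_le_sum h1).trans ?_
  have e1 : ∑ h ∈ H, w h * (C0 * ∑ j ∈ Finset.Icc 1 L,
      ∑ κ ∈ boxes j K y (β + 2 * j) (Real.log z + 2),
        ∫ t : ℝ, ((1 + |t|) ^ (A + 2))⁻¹ * GP (ψ h) z κ t) =
      C0 * ∑ j ∈ Finset.Icc 1 L, ∑ κ ∈ boxes j K y (β + 2 * j) (Real.log z + 2),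
        ∫ t : ℝ, ((1 + |t|) ^ (A + 2))⁻¹ * ∑ h ∈ H, w h * GP (ψ h) z κ t := by
    have e2 : ∀ (j : ℕ) (κ : Fin (j - 1) ⊕ Fin j → ℕ),
        ∫ t : ℝ, ((1 + |t|) ^ (A + 2))⁻¹ * ∑ h ∈ H, w h * GP (ψ h) z κ t =
        ∑ h ∈ H, w h * ∫ t : ℝ, ((1 + |t|) ^ (A + 2))⁻¹ * GP (ψ h) z κ t := by
      intro j κ
      simp only [Finset.mul_sum]
      rw [integral_finsetSum]
      · refine Finset.sum_congr rfl fun h _ => ?_
        rw [← integral_const_mul]
        congr 1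
        ext t
        ring
      · intro h _
        have := (integrable_GP (k := A + 2) (by omega) (ψ h) z κ).const_mul (w h)
        refine this.congr (Filter.Eventually.of_forall fun t => ?_)
        simp only
        ring
    simp only [e2]
    simp only [Finset.mul_sum]
    rw [Finset.sum_comm]
    refine Finset.sum_congr rfl fun j _ => ?_
    rw [Finset.sum_comm]
    refine Finset.sum_congr rfl fun κ _ => ?_
    refine Finset.sum_congr rfl fun h _ => ?_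
    ring
  rw [e1]
  have h2 : ∀ j ∈ Finset.Icc 1 L, ∑ κ ∈ boxes j K y (β + 2 * j) (Real.log z + 2),
      ∫ t : ℝ, ((1 + |t|) ^ (A + 2))⁻¹ * ∑ h ∈ H, w h * GP (ψ h) z κ t ≤
      ((β + 2) * (1 + y)) ^ (2 * L) * (B * I) := by
    intro j hj
    have h3 : ∀ κ ∈ boxes j K y (β + 2 * j) (Real.log z + 2),
        ∫ t : ℝ, ((1 + |t|) ^ (A + 2))⁻¹ * ∑ h ∈ H, w h * GP (ψ h) z κ t ≤ B * I := by
      intro κ hκ
      rw [hI, ← integral_const_mul]
      apply integral_mono_of_nonneg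
      · exact Filter.Eventually.of_forall fun t => mul_nonneg (by positivity)
          (Finset.sum_nonneg fun h hh => mul_nonneg (hw h hh) (GP_nonneg _ _ _ _))
      · exact (integrable_wt le_rfl).const_mul B
      · refine Filter.Eventually.of_forall fun t => ?_
        have h4 := hyp j hj κ hκ t
        have h5 : (0 : ℝ) < 1 + |t| := by positivity
        calc ((1 + |t|) ^ (A + 2))⁻¹ * ∑ h ∈ H, w h * GP (ψ h) z κ t
            ≤ ((1 + |t|) ^ (A + 2))⁻¹ * (B * (1 + |t|) ^ A) := by gcongr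
          _ = B * ((1 + |t|) ^ 2)⁻¹ := by
              rw [pow_add]
              field_simp
    refine (Finset.sum_le_card_nsmul _ _ _ h3).trans ?_
    rw [nsmul_eq_mul]
    refine mul_le_mul_of_nonneg_right ?_ (mul_nonneg hB hI0)
    have h6 : ((boxes j K y (β + 2 * j) (Real.log z + 2)).card : ℝ) ≤ ((K : ℝ) + 1) ^ (2 * j) := by
      exact_mod_cast card_boxes_le j K y (β + 2 * j) (Real.log z + 2)
    refine h6.trans ?_
    have h7 : (K : ℝ) + 1 ≥ 1 := by have : (0 : ℝ) ≤ K := Nat.cast_nonneg _; linarith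
    have h8 := (Finset.mem_Icc.mp hj).2
    calc ((K : ℝ) + 1) ^ (2 * j) ≤ ((K : ℝ) + 1) ^ (2 * L) := pow_le_pow_right₀ h7 (by omega)
      _ ≤ _ := by gcongr
  have h9 := Finset.sum_le_card_nsmul _ _ _ h2
  rw [Nat.card_Icc, nsmul_eq_mul] at h9
  have h10 : ((L + 1 - 1 : ℕ) : ℝ) = L := by simp
  rw [h10] at h9
  calc C0 * ∑ j ∈ Finset.Icc 1 L, ∑ κ ∈ boxes j K y (β + 2 * j) (Real.log z + 2),
        ∫ t : ℝ, ((1 + |t|) ^ (A + 2))⁻¹ * ∑ h ∈ H, w h * GP (ψ h) z κ t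
      ≤ C0 * (L * (((β + 2) * (1 + y)) ^ (2 * L) * (B * I))) := by gcongr
    _ = (C0 * (L * (β + 2) ^ (2 * L) * I)) * (1 + y) ^ (2 * L) * B := by
        rw [mul_pow]; ring
    _ ≤ _ := by
        have : 0 ≤ (1 + y) ^ (2 * L) * B := by positivity
        nlinarith

lemma log_weight' {V : ℝ → ℂ} (h1 : ContDiff ℝ ∞ V) (h2 : HasCompactSupport V)
    (h3 : tsupport V ⊆ Set.Ioi 0) :
    ContDiff ℝ ∞ (fun u : ℝ => V (Real.exp u)) ∧ HasCompactSupport (fun u : ℝ => V (Real.exp u)) := by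
  refine ⟨h1.comp Real.contDiff_exp, ?_⟩
  have hK : IsCompact (Real.log '' tsupport V) := by
    apply h2.isCompact.image_of_continuousOn
    apply Real.continuousOn_log.mono
    intro x hx
    exact ne_of_gt (h3 hx)
  refine HasCompactSupport.intro hK fun u hu => ?_
  apply image_eq_zero_of_notMem_tsupport
  intro h4
  exact hu ⟨Real.exp u, h4, Real.log_exp u⟩

/-- canonical truncation: `zz L w = ⌈e^{w/L}⌉` -/
def zz (L : ℕ) (w : ℝ) : ℕ := ⌈Real.exp (w / L)⌉₊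

lemma one_le_zz (L : ℕ) (w : ℝ) : 1 ≤ zz L w := Nat.one_le_ceil_iff.mpr (Real.exp_pos _)

lemma exp_le_zz_pow {L : ℕ} (hL : 1 ≤ L) (w : ℝ) : Real.exp w ≤ (zz L w : ℝ) ^ L := by
  have h1 : Real.exp (w / L) ≤ (zz L w : ℝ) := Nat.le_ceil _
  have h2 := pow_le_pow_left₀ (Real.exp_pos _).le h1 L
  rw [← Real.exp_nat_mul] at h2
  have hL0 : (L : ℝ) ≠ 0 := by exact_mod_cast (by omega : L ≠ 0)
  rwa [mul_div_cancel₀ _ hL0] at h2

lemma log_zz_le {L : ℕ} {w : ℝ} (hw : 0 ≤ w) : Real.log (zz L w) ≤ w / L + 1 := by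
  have h0 : 0 ≤ w / (L : ℝ) := div_nonneg hw (Nat.cast_nonneg _)
  have h1 : (zz L w : ℝ) < Real.exp (w / L) + 1 := Nat.ceil_lt_add_one (Real.exp_pos _).le
  have h2 : 1 ≤ Real.exp (w / L) := Real.one_le_exp h0
  have h3 : (0 : ℝ) < zz L w := by exact_mod_cast one_le_zz L w
  rw [Real.log_le_iff_le_exp h3, Real.exp_add]
  have h4 : 2 ≤ Real.exp 1 := by
    have := Real.add_one_le_exp (1 : ℝ)
    linarith
  nlinarith [Real.exp_pos (w / (L : ℝ))]

/-- the cut-off Möbius function is bounded by one -/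
lemma norm_cM_le (z : ℝ) (b : Eis) : ‖cM z b‖ ≤ 1 := by
  unfold cM
  rw [norm_mul, Complex.norm_real]
  refine mul_le_one₀ ?_ (norm_nonneg _) ?_
  · have h1 := Mob705.abs_muE b
    have h2 : ‖((muE b : ℤ) : ℂ)‖ = ((|muE b| : ℤ) : ℝ) := by
      rw [Complex.norm_intCast]; push_cast; rfl
    rw [h2, h1]
    split_ifs <;> simp
  · rw [Real.norm_of_nonneg (by linarith [sg_le_one (Real.log (nm b) - Real.log z)])]
    linarith [sg_nonneg (Real.log (nm b) - Real.log z)]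

/-- **Heath-Brown's identity, final family form**: weight `V (nm b / Q)`, `V` smooth with compact
support in `(0, ∞)`.  The boxes have total length `log Q + O(1)`, the Möbius pieces are of length
`≤ (log Q) / L + O(1)`. -/
theorem hb_family_V {V : ℝ → ℂ} (hV : ContDiff ℝ ∞ V) (hV2 : HasCompactSupport V)
    (hV3 : tsupport V ⊆ Set.Ioi 0) {L : ℕ} (hL : 1 ≤ L) (A : ℕ) :
    ∃ C β R : ℝ, 0 < C ∧ 0 ≤ β ∧ 0 ≤ R ∧ ∀ Q : ℝ, 1 ≤ Q →
      ∀ {σ : Type} (H : Finset σ) (w : σ → ℝ)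
      (ψ : σ → Eis → ℂ), (∀ h ∈ H, 0 ≤ w h) → (∀ h ∈ H, IsChar (ψ h)) → ∀ B : ℝ, 0 ≤ B →
      (∀ j : ℕ, 1 ≤ j → j ≤ L → ∀ κ : Fin (j - 1) ⊕ Fin j → ℕ,
        |∑ i, (κ (Sum.inl i) : ℝ) + ∑ i, (κ (Sum.inr i) : ℝ) - Real.log Q| ≤ R →
        (∀ i : Fin j, (κ (Sum.inr i) : ℝ) ≤ Real.log Q / L + R) → ∀ t : ℝ,
        ∑ h ∈ H, w h * GP (ψ h) (zz L (Real.log Q + β)) κ t ≤ B * (1 + |t|) ^ A) →
      ∀ X : ℕ, (∀ b, IsPrim b → X < nm b → V (nm b / Q) = 0) →
      ∑ h ∈ H, w h * ‖∑ b ∈ primBall X, (muE b : ℂ) * ψ h b * V (nm b / Q)‖ ≤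
        C * (1 + Real.log Q) ^ (2 * L) * B := by
  classical
  obtain ⟨h1, h2⟩ := log_weight' hV hV2 hV3
  obtain ⟨β, hβ0, hβ⟩ : ∃ β : ℝ, 0 ≤ β ∧ ∀ u, β < |u| → V (Real.exp u) = 0 := by
    obtain ⟨r, hr⟩ := h2.isCompact.isBounded.subset_closedBall 0
    refine ⟨max r 0, le_max_right _ _, fun u hu => ?_⟩
    have h3 : u ∉ tsupport (fun u : ℝ => V (Real.exp u)) := by
      intro h4
      have h5 := hr h4
      rw [Metric.mem_closedBall, dist_zero_right, Real.norm_eq_abs] at h5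
      exact absurd (h5.trans (le_max_left r 0)) (not_le.mpr hu)
    exact image_eq_zero_of_notMem_tsupport (f := fun u : ℝ => V (Real.exp u)) h3
  obtain ⟨C, hC0, hC⟩ := hb_family h1 h2 hβ0 hβ hL A
  refine ⟨C, β, β + 2 * L + 3, hC0, hβ0, by positivity, ?_⟩
  intro Q hQ σ H w ψ hw hψ B hB hyp X hX
  have hQ0 : 0 < Q := by linarith
  have hy : 0 ≤ Real.log Q := Real.log_nonneg hQ
  have hyβ : 0 ≤ Real.log Q + β := by linarith
  -- enlarge the range
  set X1 : ℕ := max X ⌈Real.exp (Real.log Q + β)⌉₊ with hX1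
  have hX1a : Real.exp (Real.log Q + β) ≤ X1 :=
    (Nat.le_ceil _).trans (Nat.cast_le.mpr (le_max_right _ _))
  have key := hC (Real.log Q) (zz L (Real.log Q + β)) hy (one_le_zz _ _)
    (exp_le_zz_pow hL _) X1 hX1a H w ψ hw hψ B hB ?_
  · refine le_trans (le_of_eq ?_) key
    refine Finset.sum_congr rfl fun h _ => ?_
    congr 2
    have e1 : ∀ b, IsPrim b → (muE b : ℂ) * ψ h b * V (nm b / Q) =
        (muE b : ℂ) * (ψ h b * (fun u : ℝ => V (Real.exp u)) (Real.log (nm b) - Real.log Q)) := by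
      intro b hb
      have hb0 : (0 : ℝ) < nm b := by exact_mod_cast nm_pos.mpr hb.ne_zero
      simp only
      rw [Real.exp_sub, Real.exp_log hb0, Real.exp_log hQ0]
      ring
    rw [← Finset.sum_congr rfl fun b hb => e1 b (mem_primBall.mp hb).2]
    apply Finset.sum_subset
    · intro b hb
      rw [mem_primBall] at hb ⊢
      exact ⟨hb.1.trans (le_max_left _ _), hb.2⟩
    · intro b hb hb2
      rw [mem_primBall] at hb hb2
      have h3 : X < nm b := by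
        by_contra h4
        exact hb2 ⟨not_lt.mp h4, hb.2⟩
      rw [hX b hb.2 h3, mul_zero]
  · intro j hj κ hκ t
    rw [Finset.mem_Icc] at hj
    rw [mem_boxes] at hκ
    have hjL : (j : ℝ) ≤ L := by exact_mod_cast hj.2
    refine hyp j hj.1 hj.2 κ (hκ.2.1.trans (by linarith)) (fun i => ?_) t
    refine (hκ.2.2 i).trans ?_
    have h3 := log_zz_le (L := L) hyβ
    have hL1 : (1 : ℝ) ≤ L := by exact_mod_cast hL
    have h4 : (Real.log Q + β) / L ≤ Real.log Q / L + β := by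
      rw [add_div]
      have : β / L ≤ β := div_le_self hβ0 hL1
      linarith
    linarith

end Crest.Agent.R017.HB645
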