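import Mathlib

/-!
# Row 17, leaf HBI (helper146), part a: the Heath-Brown identity

Abstract form over arithmetic functions: `a * m = 1`, `W = 1` on `[0, z]`, `mW = m · W` (pointwise);
then for `n < (z+1)^r`
`m n = Σ_{j<r} (-1)^j C(r, j+1) (a^j * mW^(j+1)) n`.
-/

set_option autoImplicit false

noncomputable section

open Finset

namespace Crest.Agent.R017.HBI146

variable {R : Type*} [CommRing R]

/-- pointwise product of an arithmetic function and a function -/
def tr (m : ArithmeticFunction R) (W : ℕ → R) : ArithmeticFunction R :=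
  ⟨fun n => m n * W n, by simp⟩

@[simp] lemma tr_apply (m : ArithmeticFunction R) (W : ℕ → R) (n : ℕ) : tr m W n = m n * W n := rfl

/-- evaluation as an additive map -/
def ev (n : ℕ) : ArithmeticFunction R →+ R where
  toFun f := f n
  map_zero' := rfl
  map_add' _ _ := rfl

@[simp] lemma ev_apply (n : ℕ) (f : ArithmeticFunction R) : ev n f = f n := rfl

lemma pow_supp {e : ArithmeticFunction R} {z : ℕ} (he : ∀ k ≤ z, e k = 0) (r : ℕ) :
    ∀ k < (z + 1) ^ r, (e ^ r) k = 0 := by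
  induction r with
  | zero =>
    intro k hk
    have : k = 0 := by simpa using hk
    subst this; simp
  | succ r ih =>
    intro k hk
    rw [pow_succ, ArithmeticFunction.mul_apply]
    apply Finset.sum_eq_zero
    intro p hp
    have h1 := Nat.mem_divisorsAntidiagonal.mp hp
    by_cases h2 : p.1 < (z + 1) ^ r
    · rw [ih _ h2, zero_mul]
    · by_cases h3 : p.2 ≤ z
      · rw [he _ h3, mul_zero]
      · exfalso
        push Not at h2 h3
        have h4 : (z + 1) ^ r * (z + 1) ≤ p.1 * p.2 := Nat.mul_le_mul h2 h3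
        rw [h1.1, ← pow_succ] at h4
        omega

lemma mul_supp {m e : ArithmeticFunction R} {B : ℕ} (he : ∀ k < B, e k = 0) :
    ∀ k < B, (m * e) k = 0 := by
  intro k hk
  rw [ArithmeticFunction.mul_apply]
  apply Finset.sum_eq_zero
  intro p hp
  have h1 := Nat.mem_divisorsAntidiagonal.mp hp
  have h2 : p.2 ≤ k := Nat.le_of_dvd (Nat.pos_of_ne_zero h1.2) (Dvd.intro_left _ h1.1)
  rw [he _ (by omega), mul_zero]

/-- the Heath-Brown identity -/
theorem heath_brown {a m : ArithmeticFunction R} (h : a * m = 1) {W : ℕ → R} {z : ℕ}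
    (hW : ∀ n ≤ z, W n = 1) (r : ℕ) {n : ℕ} (hn : n < (z + 1) ^ r) :
    m n = ∑ j ∈ Finset.range r, ((-1) ^ j * (r.choose (j + 1) : ℤ)) •
      (a ^ j * (tr m W) ^ (j + 1)) n := by
  set X : ArithmeticFunction R := a * tr m W with hX
  set e : ArithmeticFunction R := 1 - X with he
  have he0 : ∀ k ≤ z, e k = 0 := by
    intro k hk
    have e1 : X k = (a * m) k := by
      rw [hX, ArithmeticFunction.mul_apply, ArithmeticFunction.mul_apply]
      apply Finset.sum_congr rfl
      intro p hp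
      have h1 := Nat.mem_divisorsAntidiagonal.mp hp
      have h2 : p.2 ≤ k := Nat.le_of_dvd (Nat.pos_of_ne_zero h1.2) (Dvd.intro_left _ h1.1)
      rw [tr_apply, hW _ (h2.trans hk), mul_one]
    have e2 : e k = (1 : ArithmeticFunction R) k - X k := by
      have := (ev k).map_sub (1 : ArithmeticFunction R) X
      simpa [he] using this
    rw [e2, e1, h, sub_self]
  have h1 : (m * e ^ r) n = 0 := mul_supp (pow_supp he0 r) n hn
  have h2 : m * e ^ r = m + ∑ j ∈ Finset.range r,
      (((-1) ^ (j + 1) * (r.choose (j + 1) : ℤ)) • (a ^ j * (tr m W) ^ (j + 1))) := by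
    have e1 : e ^ r = ∑ j ∈ Finset.range (r + 1), (-X) ^ j * (r.choose j : ArithmeticFunction R) := by
      rw [he, sub_eq_add_neg, add_comm, add_pow]
      simp
    rw [e1, Finset.mul_sum, Finset.sum_range_succ']
    rw [add_comm]
    congr 1
    · simp
    · apply Finset.sum_congr rfl
      intro j _
      rw [neg_pow, hX, mul_pow, zsmul_eq_mul]
      push_cast
      have e3 : m * (((-1) ^ (j + 1) * (a ^ (j + 1) * tr m W ^ (j + 1))) *
          ((r.choose (j + 1) : ℕ) : ArithmeticFunction R)) =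
          (a * m) * ((-1) ^ (j + 1) * ((r.choose (j + 1) : ℕ) : ArithmeticFunction R) *
            (a ^ j * tr m W ^ (j + 1))) := by
        rw [pow_succ a j]; ring
      rw [e3, h, one_mul]
  rw [h2] at h1
  have h3 := (ev (R := R) n).map_add m (∑ j ∈ Finset.range r,
      (((-1) ^ (j + 1) * (r.choose (j + 1) : ℤ)) • (a ^ j * (tr m W) ^ (j + 1))))
  rw [map_sum] at h3
  simp only [map_zsmul, ev_apply] at h3
  rw [h1] at h3
  have h4 : m n = - ∑ j ∈ Finset.range r, (((-1) ^ (j + 1) * (r.choose (j + 1) : ℤ)) •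
      (a ^ j * (tr m W) ^ (j + 1)) n) := by
    rw [eq_neg_iff_add_eq_zero]; exact h3.symm
  rw [h4, ← Finset.sum_neg_distrib]
  apply Finset.sum_congr rfl
  intro j _
  rw [← neg_zsmul]
  congr 1
  ring

/-! ### Agreement up to a bound -/

/-- `f` and `g` agree up to `N` -/
def Agr (N : ℕ) (f g : ArithmeticFunction R) : Prop := ∀ n ≤ N, f n = g n

lemma Agr.refl (N : ℕ) (f : ArithmeticFunction R) : Agr N f f := fun _ _ => rfl

lemma Agr.mul {N : ℕ} {f f' g g' : ArithmeticFunction R} (h : Agr N f f') (h' : Agr N g g') :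
    Agr N (f * g) (f' * g') := by
  intro n hn
  rw [ArithmeticFunction.mul_apply, ArithmeticFunction.mul_apply]
  apply Finset.sum_congr rfl
  intro p hp
  have h1 := Nat.mem_divisorsAntidiagonal.mp hp
  have h2 : p.2 ≤ n := Nat.le_of_dvd (Nat.pos_of_ne_zero h1.2) (Dvd.intro_left _ h1.1)
  have h3 : p.1 ≤ n := Nat.le_of_dvd (Nat.pos_of_ne_zero h1.2) (Dvd.intro _ h1.1)
  rw [h _ (h3.trans hn), h' _ (h2.trans hn)]

lemma Agr.pow {N : ℕ} {f f' : ArithmeticFunction R} (h : Agr N f f') (j : ℕ) :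
    Agr N (f ^ j) (f' ^ j) := by
  induction j with
  | zero => simp [Agr]
  | succ j ih => rw [pow_succ, pow_succ]; exact ih.mul h

/-! ### Dyadic pieces -/

/-- the dyadic weight attached to a cut-off `φ` -/
def dw (φ : ℝ → R) (x : ℝ) : R := φ x - φ (2 * x)

/-- the dyadic piece of an arithmetic function -/
def pc (φ : ℝ → R) (f : ArithmeticFunction R) (k : ℕ) : ArithmeticFunction R :=
  tr f (fun n => dw φ ((n : ℝ) / 2 ^ k))

lemma pc_apply (φ : ℝ → R) (f : ArithmeticFunction R) (k n : ℕ) :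
    pc φ f k n = f n * dw φ ((n : ℝ) / 2 ^ k) := rfl

/-- a cut-off: `1` on `[0,1]`, `0` on `[2,∞)` -/
structure Cut (φ : ℝ → R) : Prop where
  one : ∀ x ≤ 1, φ x = 1
  zero : ∀ x, 2 ≤ x → φ x = 0

lemma Cut.dw_small {φ : ℝ → R} (h : Cut φ) {x : ℝ} (hx : x ≤ 1 / 2) : dw φ x = 0 := by
  unfold dw; rw [h.one x (by linarith), h.one (2 * x) (by linarith), sub_self]

lemma Cut.dw_large {φ : ℝ → R} (h : Cut φ) {x : ℝ} (hx : 2 ≤ x) : dw φ x = 0 := by
  unfold dw; rw [h.zero x hx, h.zero (2 * x) (by linarith), sub_self]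

lemma sum_dw (φ : ℝ → R) (L : ℕ) (x : ℝ) :
    ∑ k ∈ Finset.range (L + 1), dw φ (x / 2 ^ k) = φ (x / 2 ^ L) - φ (2 * x) := by
  induction L with
  | zero => simp [dw]
  | succ L ih =>
    rw [Finset.sum_range_succ, ih]
    unfold dw
    have : 2 * (x / 2 ^ (L + 1)) = x / 2 ^ L := by rw [pow_succ]; field_simp
    rw [this]; ring

lemma sum_pc_apply {φ : ℝ → R} (h : Cut φ) (f : ArithmeticFunction R) {L n : ℕ}
    (hn : n ≤ 2 ^ L) : (∑ k ∈ Finset.range (L + 1), pc φ f k) n = f n := by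
  have h1 := map_sum (ev (R := R) n) (fun k => pc φ f k) (Finset.range (L + 1))
  simp only [ev_apply] at h1
  rw [h1]
  simp only [pc_apply]
  rw [← Finset.mul_sum, sum_dw]
  rcases Nat.eq_zero_or_pos n with rfl | hpos
  · simp
  · rw [h.one, h.zero, sub_zero, mul_one]
    · have : (1 : ℝ) ≤ n := by exact_mod_cast hpos
      linarith
    · rw [div_le_one (by positivity)]
      exact_mod_cast hn

lemma agr_pc {φ : ℝ → R} (h : Cut φ) (f : ArithmeticFunction R) {L N : ℕ} (hN : N ≤ 2 ^ L) :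
    Agr N f (∑ k ∈ Finset.range (L + 1), pc φ f k) :=
  fun _ hn => (sum_pc_apply h f (hn.trans hN)).symm

/-- power of a finite sum -/
lemma sum_pow_eq {A : Type*} [CommSemiring A] (s : Finset ℕ) (F : ℕ → A) (j : ℕ) :
    (∑ k ∈ s, F k) ^ j = ∑ k ∈ Fintype.piFinset (fun _ : Fin j => s), ∏ i, F (k i) := by
  rw [← Finset.prod_univ_sum]
  simp

/-- The Heath-Brown identity with dyadic pieces. -/
theorem heath_brown_pc {a m : ArithmeticFunction R} (h : a * m = 1) {W : ℕ → R} {z : ℕ}
    (hW : ∀ n ≤ z, W n = 1) {φ : ℝ → R} (hφ : Cut φ) (r : ℕ) {L n : ℕ} (hn : n < (z + 1) ^ r)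
    (hL : n ≤ 2 ^ L) :
    m n = ∑ j ∈ Finset.range r, ((-1) ^ j * (r.choose (j + 1) : ℤ)) •
      ∑ k ∈ Fintype.piFinset (fun _ : Fin j => Finset.range (L + 1)),
      ∑ l ∈ Fintype.piFinset (fun _ : Fin (j + 1) => Finset.range (L + 1)),
        ((∏ i, pc φ a (k i)) * (∏ i, pc φ (tr m W) (l i))) n := by
  rw [heath_brown h hW r hn]
  apply Finset.sum_congr rfl
  intro j _
  congr 1
  have h1 := ((agr_pc hφ a hL).pow j).mul ((agr_pc hφ (tr m W) hL).pow (j + 1)) n le_rfl
  rw [h1, sum_pow_eq, sum_pow_eq, Finset.sum_mul_sum]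
  have h2 := map_sum (ev (R := R) n) (fun k => ∑ l ∈ Fintype.piFinset
    (fun _ : Fin (j + 1) => Finset.range (L + 1)),
      ((∏ i, pc φ a (k i)) * (∏ i, pc φ (tr m W) (l i))))
      (Fintype.piFinset (fun _ : Fin j => Finset.range (L + 1)))
  simp only [ev_apply] at h2
  rw [h2]
  apply Finset.sum_congr rfl
  intro k _
  have h3 := map_sum (ev (R := R) n) (fun l =>
      ((∏ i, pc φ a (k i)) * (∏ i, pc φ (tr m W) (l i))))
      (Fintype.piFinset (fun _ : Fin (j + 1) => Finset.range (L + 1)))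
  simpa only [ev_apply] using h3

end Crest.Agent.R017.HBI146
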