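import Crest.Agent.R017.HBIa_146
import Crest.Agent.R012.Weight_600

/-!
# Row 17, leaf HBI (helper146), part b: Mellin separation of the pieces

`DP f t = Σ f(n) n^{it}` for finitely supported `f`; the pointwise Heath-Brown majorant
`HBI`.
-/

set_option autoImplicit false

noncomputable section

open Finset MeasureTheory Complex Crest.Agent.R012.Weight600
open scoped ContDiff

namespace Crest.Agent.R017.HBI146

/-- finitely supported -/
def FS (f : ArithmeticFunction ℂ) : Prop := ∃ B : ℕ, ∀ n, B < n → f n = 0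

lemma FS.one : FS 1 := ⟨1, fun n hn => ArithmeticFunction.one_apply_ne (by omega)⟩

lemma FS.mul {f g : ArithmeticFunction ℂ} (hf : FS f) (hg : FS g) : FS (f * g) := by
  obtain ⟨B, hB⟩ := hf
  obtain ⟨C, hC⟩ := hg
  refine ⟨B * C, fun n hn => ?_⟩
  rw [ArithmeticFunction.mul_apply]
  apply Finset.sum_eq_zero
  intro p hp
  have h1 := Nat.mem_divisorsAntidiagonal.mp hp
  by_cases h2 : B < p.1
  · rw [hB _ h2, zero_mul]
  · by_cases h3 : C < p.2
    · rw [hC _ h3, mul_zero]
    · exfalso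
      push Not at h2 h3
      have := Nat.mul_le_mul h2 h3
      rw [h1.1] at this
      omega

lemma FS.prod {ι : Type*} (s : Finset ι) (F : ι → ArithmeticFunction ℂ) (h : ∀ i ∈ s, FS (F i)) :
    FS (∏ i ∈ s, F i) := by
  classical
  induction s using Finset.induction_on with
  | empty => simpa using FS.one
  | insert i s hi ih =>
    rw [Finset.prod_insert hi]
    exact (h i (Finset.mem_insert_self _ _)).mul (ih fun j hj => h j (Finset.mem_insert_of_mem hj))

/-- Dirichlet polynomial `Σ f(n) n^{it}` -/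
def DP (f : ArithmeticFunction ℂ) (t : ℝ) : ℂ := LSeries (fun n => f n) (-((t : ℂ) * I))

lemma term_eq (f : ArithmeticFunction ℂ) (t : ℝ) (n : ℕ) :
    LSeries.term (fun n => f n) (-((t : ℂ) * I)) n = f n * pw t n := by
  rcases Nat.eq_zero_or_pos n with rfl | hn
  · simp
  · rw [LSeries.term_of_ne_zero hn.ne', pw_eq_cpow (by exact_mod_cast hn), Complex.cpow_neg,
      div_inv_eq_mul]
    norm_cast

lemma FS.summable {f : ArithmeticFunction ℂ} (hf : FS f) (t : ℝ) :
    LSeriesSummable (fun n => f n) (-((t : ℂ) * I)) := by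
  obtain ⟨B, hB⟩ := hf
  unfold LSeriesSummable
  apply summable_of_ne_finset_zero (s := Finset.range (B + 1))
  intro n hn
  rw [term_eq, hB n (by rw [Finset.mem_range] at hn; omega), zero_mul]

lemma DP_eq {f : ArithmeticFunction ℂ} {B : ℕ} (hB : ∀ n, B < n → f n = 0) (t : ℝ) :
    DP f t = ∑ n ∈ Finset.range (B + 1), f n * pw t n := by
  unfold DP LSeries
  rw [tsum_eq_sum (s := Finset.range (B + 1))]
  · exact Finset.sum_congr rfl fun n _ => term_eq f t n
  · intro n hn
    rw [term_eq, hB n (by rw [Finset.mem_range] at hn; omega), zero_mul]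

lemma DP_one (t : ℝ) : DP 1 t = 1 := by
  rw [DP_eq (B := 1) (fun n hn => ArithmeticFunction.one_apply_ne (by omega))]
  simp [Finset.sum_range_succ, pw_one]

lemma DP_mul {f g : ArithmeticFunction ℂ} (hf : FS f) (hg : FS g) (t : ℝ) :
    DP (f * g) t = DP f t * DP g t :=
  ArithmeticFunction.LSeries_mul' (hf.summable t) (hg.summable t)

lemma DP_prod {ι : Type*} (s : Finset ι) (F : ι → ArithmeticFunction ℂ) (h : ∀ i ∈ s, FS (F i))
    (t : ℝ) : DP (∏ i ∈ s, F i) t = ∏ i ∈ s, DP (F i) t := by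
  classical
  induction s using Finset.induction_on with
  | empty => simp [DP_one]
  | insert i s hi ih =>
    have h1 : ∀ j ∈ s, FS (F j) := fun j hj => h j (Finset.mem_insert_of_mem hj)
    rw [Finset.prod_insert hi, Finset.prod_insert hi,
      DP_mul (h i (Finset.mem_insert_self _ _)) (FS.prod s F h1), ih h1]

lemma continuous_DP {f : ArithmeticFunction ℂ} (hf : FS f) : Continuous (DP f) := by
  obtain ⟨B, hB⟩ := hf
  have : DP f = fun t => ∑ n ∈ Finset.range (B + 1), f n * pw t n := by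
    ext t; exact DP_eq hB t
  rw [this]
  exact continuous_finsetSum _ fun n _ => continuous_const.mul (continuous_pw_left _)

lemma norm_DP_le {f : ArithmeticFunction ℂ} {B : ℕ} (hB : ∀ n, B < n → f n = 0) (t : ℝ) :
    ‖DP f t‖ ≤ ∑ n ∈ Finset.range (B + 1), ‖f n‖ := by
  rw [DP_eq hB]
  refine (norm_sum_le _ _).trans (Finset.sum_le_sum fun n _ => ?_)
  rw [norm_mul, norm_pw, mul_one]

/-- separation of the weight -/
theorem sep {v : ℝ → ℂ} (h1 : ContDiff ℝ ∞ v) (h2 : HasCompactSupport v)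
    {f : ArithmeticFunction ℂ} (hf : FS f) {Q : ℝ} (hQ : 0 < Q) :
    ∑' n : ℕ, f n * v (Real.log (n / Q)) = ∫ t, ker v t * pw t Q⁻¹ * DP f t := by
  obtain ⟨B, hB⟩ := hf
  rw [tsum_eq_sum (s := Finset.range (B + 1))
    (fun n hn => by rw [hB n (by rw [Finset.mem_range] at hn; omega), zero_mul])]
  have e1 : ∀ n ∈ Finset.range (B + 1), f n * v (Real.log (n / Q)) =
      ∫ t, f n * (ker v t * pw t ((n : ℝ) / Q)) := by
    intro n _
    rw [integral_const_mul]
    congr 1
    exact (inversion_smooth h1 h2 _).symm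
  rw [Finset.sum_congr rfl e1, ← integral_finsetSum]
  · congr 1
    ext t
    rw [DP_eq hB, Finset.mul_sum]
    apply Finset.sum_congr rfl
    intro n _
    rcases Nat.eq_zero_or_pos n with rfl | hn
    · simp
    · rw [div_eq_mul_inv, pw_mul (by exact_mod_cast hn.ne') (by positivity)]
      ring
  · intro n _
    apply Integrable.const_mul
    apply (ker_integrable h1 h2).mul_bdd (c := 1)
    · exact (continuous_pw_left _).aestronglyMeasurable
    · exact Filter.Eventually.of_forall fun t => (norm_pw _ _).le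

theorem norm_sep_le {v : ℝ → ℂ} (h1 : ContDiff ℝ ∞ v) (h2 : HasCompactSupport v)
    {f : ArithmeticFunction ℂ} (hf : FS f) {Q : ℝ} (hQ : 0 < Q) :
    ‖∑' n : ℕ, f n * v (Real.log (n / Q))‖ ≤ ∫ t, ‖ker v t‖ * ‖DP f t‖ := by
  rw [sep h1 h2 hf hQ]
  refine (norm_integral_le_integral_norm _).trans (le_of_eq ?_)
  congr 1
  ext t
  rw [norm_mul, norm_mul, norm_pw, mul_one]

/-! ### Supports -/

/-- supported in `[lo, hi]` -/
def Sup (f : ArithmeticFunction ℂ) (lo hi : ℝ) : Prop := ∀ n : ℕ, f n ≠ 0 → lo ≤ n ∧ (n : ℝ) ≤ hi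

lemma Sup.mul {f g : ArithmeticFunction ℂ} {a b c d : ℝ} (hf : Sup f a b) (hg : Sup g c d)
    (ha : 0 ≤ a) (hc : 0 ≤ c) (hd : 0 ≤ d) : Sup (f * g) (a * c) (b * d) := by
  intro n hn
  rw [ArithmeticFunction.mul_apply] at hn
  obtain ⟨p, hp, hpn⟩ := Finset.exists_ne_zero_of_sum_ne_zero hn
  have h1 := Nat.mem_divisorsAntidiagonal.mp hp
  have h2 := hf p.1 (left_ne_zero_of_mul hpn)
  have h3 := hg p.2 (right_ne_zero_of_mul hpn)
  have h4 : (n : ℝ) = (p.1 : ℝ) * (p.2 : ℝ) := by exact_mod_cast h1.1.symm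
  rw [h4]
  constructor
  · exact mul_le_mul h2.1 h3.1 hc (by positivity)
  · exact mul_le_mul h2.2 h3.2 (by positivity) ((by positivity : (0:ℝ) ≤ (p.1 : ℝ)).trans h2.2)

lemma Sup.one : Sup 1 1 1 := by
  intro n hn
  by_cases h : n = 1
  · subst h; simp
  · exact absurd (ArithmeticFunction.one_apply_ne h) hn

lemma Sup.prod {ι : Type*} (s : Finset ι) (F : ι → ArithmeticFunction ℂ) (lo hi : ι → ℝ)
    (h : ∀ i ∈ s, Sup (F i) (lo i) (hi i)) (h0 : ∀ i ∈ s, 0 ≤ lo i) (h0' : ∀ i ∈ s, 0 ≤ hi i) :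
    Sup (∏ i ∈ s, F i) (∏ i ∈ s, lo i) (∏ i ∈ s, hi i) := by
  classical
  induction s using Finset.induction_on with
  | empty => simpa using Sup.one
  | insert i s hi' ih =>
    rw [Finset.prod_insert hi', Finset.prod_insert hi', Finset.prod_insert hi']
    have h2 : ∀ j ∈ s, 0 ≤ lo j := fun j hj => h0 j (Finset.mem_insert_of_mem hj)
    have h3 : ∀ j ∈ s, 0 ≤ hi j := fun j hj => h0' j (Finset.mem_insert_of_mem hj)
    exact (h i (Finset.mem_insert_self _ _)).mul
      (ih (fun j hj => h j (Finset.mem_insert_of_mem hj)) h2 h3)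
      (h0 i (Finset.mem_insert_self _ _)) (Finset.prod_nonneg h2) (Finset.prod_nonneg h3)

lemma sup_pc {φ : ℝ → ℂ} (hφ : Cut φ) (f : ArithmeticFunction ℂ) (k : ℕ) :
    Sup (pc φ f k) (2 ^ k / 2) (2 ^ k * 2) := by
  intro n hn
  rw [pc_apply] at hn
  have h1 := right_ne_zero_of_mul hn
  have h2 : (0 : ℝ) < 2 ^ k := by positivity
  constructor
  · by_contra h
    push Not at h
    exact h1 (hφ.dw_small (by rw [div_le_iff₀ h2]; linarith))
  · by_contra h
    push Not at h
    exact h1 (hφ.dw_large (by rw [le_div_iff₀ h2]; linarith))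

lemma fs_pc {φ : ℝ → ℂ} (hφ : Cut φ) (f : ArithmeticFunction ℂ) (k : ℕ) : FS (pc φ f k) := by
  refine ⟨2 ^ k * 2, fun n hn => ?_⟩
  by_contra h
  have h1 := (sup_pc hφ f k n h).2
  have h2 : (n : ℝ) ≤ ((2 ^ k * 2 : ℕ) : ℝ) := by push_cast; exact h1
  have h3 : n ≤ 2 ^ k * 2 := by exact_mod_cast h2
  omega

lemma pc_tr_eq_zero {φ : ℝ → ℂ} (hφ : Cut φ) (m : ArithmeticFunction ℂ) {W : ℕ → ℂ} {Z : ℕ}
    (hW : ∀ n, Z < n → W n = 0) {l : ℕ} (hl : 2 * Z < 2 ^ l) : pc φ (tr m W) l = 0 := by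
  ext n
  rw [ArithmeticFunction.zero_apply]
  by_contra h
  have h1 := (sup_pc hφ _ l n h).1
  rw [pc_apply, tr_apply] at h
  have h2 : Z < n := by
    have h3 : ((2 * Z : ℕ) : ℝ) < ((2 ^ l : ℕ) : ℝ) := by exact_mod_cast hl
    push_cast at h3
    have h4 : (Z : ℝ) < n := by linarith
    exact_mod_cast h4
  rw [hW n h2] at h
  simp at h

/-! ### The pointwise Heath-Brown majorant -/

/-- compatibility of a tuple of dyadic lengths -/
def Compat (lo hi : ℝ) (Z j : ℕ) (k : Fin j → ℕ) (l : Fin (j + 1) → ℕ) : Prop :=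
  (2 : ℝ) ^ (∑ i, k i + ∑ i, l i) ≤ 2 ^ (2 * j + 1) * hi ∧
  lo ≤ 2 ^ (2 * j + 1) * 2 ^ (∑ i, k i + ∑ i, l i) ∧ ∀ i, 2 ^ l i ≤ 2 * Z

open Classical in
/-- **HBI**, abstract form.  `a * m = 1`; `W` cuts `m` off smoothly between `z` and `Z`. -/
theorem HBI {a m : ArithmeticFunction ℂ} (ham : a * m = 1) {W : ℕ → ℂ} {z Z : ℕ}
    (hW : ∀ n ≤ z, W n = 1) (hWZ : ∀ n, Z < n → W n = 0) {φ : ℝ → ℂ} (hφ : Cut φ)
    {v : ℝ → ℂ} (h1 : ContDiff ℝ ∞ v) (h2 : HasCompactSupport v) {α β : ℝ}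
    (hv : ∀ u, v u ≠ 0 → α ≤ u ∧ u ≤ β) {Q : ℝ} (hQ : 0 < Q) {r L : ℕ}
    (hr : Q * Real.exp β < ((z + 1) ^ r : ℕ)) (hL : Q * Real.exp β ≤ 2 ^ L) :
    ‖∑' n : ℕ, m n * v (Real.log (n / Q))‖ ≤
      ∑ j ∈ Finset.range r, (r.choose (j + 1) : ℝ) *
      ∑ k ∈ Fintype.piFinset (fun _ : Fin j => Finset.range (L + 1)),
      ∑ l ∈ Fintype.piFinset (fun _ : Fin (j + 1) => Finset.range (L + 1)),
        if Compat (Q * Real.exp α) (Q * Real.exp β) Z j k l then
          ∫ t, ‖ker v t‖ * ((∏ i, ‖DP (pc φ a (k i)) t‖) * ∏ i, ‖DP (pc φ (tr m W) (l i)) t‖)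
        else 0 := by
  -- the support of the weight
  have hsup : ∀ n : ℕ, 0 < n → v (Real.log (n / Q)) ≠ 0 →
      Q * Real.exp α ≤ n ∧ (n : ℝ) ≤ Q * Real.exp β := by
    intro n hn hne
    have hn' : (0 : ℝ) < n := by exact_mod_cast hn
    obtain ⟨h3, h4⟩ := hv _ hne
    have h5 : Real.exp (Real.log (n / Q)) = n / Q := Real.exp_log (by positivity)
    constructor
    · have := Real.exp_le_exp.mpr h3
      rw [h5, le_div_iff₀ hQ] at this
      linarith
    · have := Real.exp_le_exp.mpr h4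
      rw [h5, div_le_iff₀ hQ] at this
      linarith
  set F : (j : ℕ) → (Fin j → ℕ) → (Fin (j + 1) → ℕ) → ArithmeticFunction ℂ := fun j k l =>
    (∏ i, pc φ a (k i)) * (∏ i, pc φ (tr m W) (l i)) with hF
  have hFS : ∀ j k l, FS (F j k l) := fun j k l =>
    (FS.prod _ _ fun i _ => fs_pc hφ _ _).mul (FS.prod _ _ fun i _ => fs_pc hφ _ _)
  set T : ℕ := ⌊Q * Real.exp β⌋₊ with hT
  have hTn : ∀ n : ℕ, 0 < n → v (Real.log (n / Q)) ≠ 0 → n ≤ T := fun n hn hne =>
    Nat.le_floor (hsup n hn hne).2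
  have e1 : ∑' n : ℕ, m n * v (Real.log (n / Q)) =
      ∑ n ∈ Finset.Icc 1 T, m n * v (Real.log (n / Q)) := by
    apply tsum_eq_sum
    intro n hn
    rw [Finset.mem_Icc] at hn
    rcases Nat.eq_zero_or_pos n with rfl | hpos
    · simp
    · by_cases h3 : v (Real.log (n / Q)) = 0
      · rw [h3, mul_zero]
      · exact absurd ⟨hpos, hTn n hpos h3⟩ hn
  have e2 : ∀ j k l, ∑ n ∈ Finset.Icc 1 T, F j k l n * v (Real.log (n / Q)) =
      ∑' n : ℕ, F j k l n * v (Real.log (n / Q)) := by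
    intro j k l
    symm
    apply tsum_eq_sum
    intro n hn
    rw [Finset.mem_Icc] at hn
    rcases Nat.eq_zero_or_pos n with rfl | hpos
    · simp
    · by_cases h3 : v (Real.log (n / Q)) = 0
      · rw [h3, mul_zero]
      · exact absurd ⟨hpos, hTn n hpos h3⟩ hn
  have e3 : ∑ n ∈ Finset.Icc 1 T, m n * v (Real.log (n / Q)) =
      ∑ j ∈ Finset.range r, ((-1) ^ j * (r.choose (j + 1) : ℤ)) •
      ∑ k ∈ Fintype.piFinset (fun _ : Fin j => Finset.range (L + 1)),
      ∑ l ∈ Fintype.piFinset (fun _ : Fin (j + 1) => Finset.range (L + 1)),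
        ∑' n : ℕ, F j k l n * v (Real.log (n / Q)) := by
    simp_rw [← e2]
    have hTr : ∀ n ∈ Finset.Icc 1 T, n < (z + 1) ^ r ∧ n ≤ 2 ^ L := by
      intro n hn
      rw [Finset.mem_Icc] at hn
      have h3 : (n : ℝ) ≤ Q * Real.exp β := (Nat.le_floor_iff (by positivity)).mp hn.2
      constructor
      · have : (n : ℝ) < ((z + 1) ^ r : ℕ) := lt_of_le_of_lt h3 hr
        exact_mod_cast this
      · have : (n : ℝ) ≤ 2 ^ L := h3.trans hL
        exact_mod_cast this
    have e4 : ∀ n ∈ Finset.Icc 1 T, m n * v (Real.log (n / Q)) =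
        ∑ j ∈ Finset.range r, ((-1) ^ j * (r.choose (j + 1) : ℤ)) •
        ∑ k ∈ Fintype.piFinset (fun _ : Fin j => Finset.range (L + 1)),
        ∑ l ∈ Fintype.piFinset (fun _ : Fin (j + 1) => Finset.range (L + 1)),
          F j k l n * v (Real.log (n / Q)) := by
      intro n hn
      rw [heath_brown_pc ham hW hφ r (hTr n hn).1 (hTr n hn).2, Finset.sum_mul]
      apply Finset.sum_congr rfl
      intro j _
      rw [smul_mul_assoc, Finset.sum_mul]
      congr 1
      apply Finset.sum_congr rfl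
      intro k _
      rw [Finset.sum_mul]
    rw [Finset.sum_congr rfl e4, Finset.sum_comm]
    apply Finset.sum_congr rfl
    intro j _
    rw [← Finset.smul_sum]
    congr 1
    rw [Finset.sum_comm]
    apply Finset.sum_congr rfl
    intro k _
    rw [Finset.sum_comm]
  rw [e1, e3]
  refine (norm_sum_le _ _).trans (Finset.sum_le_sum fun j _ => ?_)
  rw [zsmul_eq_mul, norm_mul]
  have h3 : ‖(((-1) ^ j * (r.choose (j + 1) : ℤ) : ℤ) : ℂ)‖ = (r.choose (j + 1) : ℝ) := by
    push_cast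
    rw [norm_mul, norm_pow, norm_neg, norm_one, one_pow, one_mul, Complex.norm_natCast]
  rw [h3]
  apply mul_le_mul_of_nonneg_left _ (Nat.cast_nonneg _)
  refine (norm_sum_le _ _).trans (Finset.sum_le_sum fun k _ => ?_)
  refine (norm_sum_le _ _).trans (Finset.sum_le_sum fun l _ => ?_)
  split_ifs with hc
  · refine (norm_sep_le h1 h2 (hFS j k l) hQ).trans (le_of_eq ?_)
    congr 1
    ext t
    rw [hF]
    dsimp only
    rw [DP_mul (FS.prod _ _ fun i _ => fs_pc hφ _ _) (FS.prod _ _ fun i _ => fs_pc hφ _ _),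
      DP_prod _ _ (fun i _ => fs_pc hφ _ _), DP_prod _ _ (fun i _ => fs_pc hφ _ _), norm_mul,
      norm_prod, norm_prod]
  · -- the incompatible tuples vanish
    rw [norm_le_zero_iff]
    by_cases hZ : ∀ i, 2 ^ l i ≤ 2 * Z
    · rw [← tsum_zero (α := ℂ) (β := ℕ)]
      congr 1
      ext n
      by_contra hne
      have hF0 : F j k l n ≠ 0 := left_ne_zero_of_mul hne
      have hv0 := right_ne_zero_of_mul hne
      have hpos : 0 < n := by
        rcases Nat.eq_zero_or_pos n with rfl | h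
        · simp at hF0
        · exact h
      obtain ⟨h4, h5⟩ := hsup n hpos hv0
      have hS := ((Sup.prod Finset.univ (fun i => pc φ a (k i)) (fun i => 2 ^ k i / 2)
          (fun i => 2 ^ k i * 2) (fun i _ => sup_pc hφ _ _) (fun i _ => by positivity)
          (fun i _ => by positivity)).mul
        (Sup.prod Finset.univ (fun i => pc φ (tr m W) (l i)) (fun i => 2 ^ l i / 2)
          (fun i => 2 ^ l i * 2) (fun i _ => sup_pc hφ _ _) (fun i _ => by positivity)
          (fun i _ => by positivity)) (Finset.prod_nonneg fun i _ => by positivity)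
          (Finset.prod_nonneg fun i _ => by positivity)
          (Finset.prod_nonneg fun i _ => by positivity)) n hF0
      simp only [Finset.prod_div_distrib, Finset.prod_mul_distrib, Finset.prod_const,
        Finset.card_univ, Fintype.card_fin, Finset.prod_pow_eq_pow_sum] at hS
      apply hc
      refine ⟨?_, ?_, hZ⟩
      · have h6 := hS.1.trans h5
        have h7 : (2 : ℝ) ^ (∑ i, k i) / 2 ^ j * (2 ^ (∑ i, l i) / 2 ^ (j + 1)) =
            2 ^ (∑ i, k i + ∑ i, l i) / 2 ^ (2 * j + 1) := by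
          rw [div_mul_div_comm, ← pow_add, ← pow_add]
          congr 2
          ring
        rw [h7, div_le_iff₀ (by positivity)] at h6
        linarith
      · have h6 := h4.trans hS.2
        have h7 : (2 : ℝ) ^ (∑ i, k i) * 2 ^ j * (2 ^ (∑ i, l i) * 2 ^ (j + 1)) =
            2 ^ (2 * j + 1) * 2 ^ (∑ i, k i + ∑ i, l i) := by
          rw [pow_add 2 (∑ i, k i), show 2 * j + 1 = j + (j + 1) by ring, pow_add 2 j]
          ring
        rw [h7] at h6
        exact h6
    · push Not at hZ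
      obtain ⟨i, hi⟩ := hZ
      have hz0 : F j k l = 0 := by
        rw [hF]
        dsimp only
        have : ∏ i, pc φ (tr m W) (l i) = 0 :=
          Finset.prod_eq_zero (Finset.mem_univ i) (pc_tr_eq_zero hφ m hWZ hi)
        rw [this, mul_zero]
      simp [hz0]

end Crest.Agent.R017.HBI146
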