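import Crest.Agent.R017.HBS_271

/-!
# Row 17: signed Heath-Brown identity with an outer sum and varying lengths (helper271)

`hb_outer` : `∑_D ‖∑_h ρ_D(h) ∑_b μ(b) ψ_{D,h}(b) V(nm b / (Q e^{s_D}))‖` is bounded by the box
sums `∑_D ‖∑_h ρ_D(h) GC (ψ_{D,h}) z κ t‖`, `|s_D| ≤ s₀`.
-/

set_option autoImplicit false

noncomputable section

open MeasureTheory Set
open scoped ContDiff

namespace Crest.Agent.R017.HBS271

open Crest.Agent.R012 Crest.Agent.R012.Eis Crest.Agent.R012.PSer47 Crest.Agent.R012.Weight600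
open Crest.Agent.R017.HB645

lemma ker_shift (V : ℝ → ℂ) (s t : ℝ) : ker (fun u => V (u - s)) t = osc t (-s) * ker V t := by
  unfold ker
  rw [mul_left_comm]
  congr 1
  rw [← integral_const_mul, ← integral_sub_right_eq_self (fun u => osc t (-s) * (V u * osc t (-u))) s]
  congr 1
  ext u
  have : osc t (-u) = osc t (-s) * osc t (-(u - s)) := by
    rw [← osc_add_right]; congr 1; ring
  beta_reduce
  rw [this]
  ring

lemma norm_ker_shift (V : ℝ → ℂ) (s t : ℝ) : ‖ker (fun u => V (u - s)) t‖ = ‖ker V t‖ := by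
  rw [ker_shift, norm_mul, norm_osc, one_mul]

lemma contDiff_shift {V : ℝ → ℂ} (hV : ContDiff ℝ ∞ V) (s : ℝ) :
    ContDiff ℝ ∞ (fun u => V (u - s)) := hV.comp (contDiff_id.sub contDiff_const)

lemma cpt_shift {V : ℝ → ℂ} (hV : HasCompactSupport V) (s : ℝ) :
    HasCompactSupport (fun u => V (u - s)) := by
  have h := hV.comp_homeomorph (Homeomorph.addRight (-s))
  exact h

lemma GC_bdd (ψ : Eis → ℂ) (z : ℝ) {j : ℕ} (κ : Fin (j - 1) ⊕ Fin j → ℕ) :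
    ∃ B : ℝ, 0 ≤ B ∧ ∀ t, ‖GC ψ z κ t‖ ≤ B := by
  obtain ⟨B, hB0, hB⟩ := GP_bdd ψ z κ
  exact ⟨B, hB0, fun t => by rw [norm_GC]; exact hB t⟩

lemma integrable_sumGC {k : ℕ} (hk : 2 ≤ k) {σ : Type} (H : Finset σ) (ρ : σ → ℂ)
    (ψ : σ → Eis → ℂ) (z : ℝ) {j : ℕ} (κ : Fin (j - 1) ⊕ Fin j → ℕ) :
    Integrable fun t : ℝ => ((1 + |t|) ^ k)⁻¹ * ‖∑ h ∈ H, ρ h * GC (ψ h) z κ t‖ := by
  choose B hB0 hB using fun h : σ => GC_bdd (ψ h) z κ
  refine (integrable_wt hk).mul_bdd (c := ∑ h ∈ H, ‖ρ h‖ * B h) ?_ ?_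
  · refine Continuous.aestronglyMeasurable ?_
    refine (continuous_finsetSum _ fun h _ => ?_).norm
    exact continuous_const.mul (continuous_GC (ψ h) z κ)
  · refine Filter.Eventually.of_forall fun t => ?_
    rw [norm_norm]
    refine (norm_sum_le _ _).trans (Finset.sum_le_sum fun h _ => ?_)
    rw [norm_mul]
    exact mul_le_mul_of_nonneg_left (hB h t) (norm_nonneg _)

/-- one member: integral majorant with arbitrary complex weights and a shift of the scale -/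
lemma hb_signed_int {V : ℝ → ℂ} (hV : ContDiff ℝ ∞ V) (hV2 : HasCompactSupport V) {β s₀ : ℝ}
    (hβ : ∀ u, β < |u| → V u = 0) {L : ℕ} (hL : 1 ≤ L) {k : ℕ} (hk : 2 ≤ k) {C0 : ℝ}
    (hC : ∀ t, ‖ker V t‖ * (1 + |t|) ^ k ≤ C0)
    (y : ℝ) (z : ℕ) (hz : 1 ≤ z) (hzL : Real.exp (y + (β + s₀)) ≤ (z : ℝ) ^ L) (X : ℕ)
    (hX : Real.exp (y + (β + s₀)) ≤ X) {s : ℝ} (hs : |s| ≤ s₀) {σ : Type} (H : Finset σ)
    (ρ : σ → ℂ) (ψ : σ → Eis → ℂ) (hψ : ∀ h ∈ H, IsChar (ψ h)) :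
    ‖∑ h ∈ H, ρ h * ∑ b ∈ primBall X, (muE b : ℂ) * (ψ h b * V (Real.log (nm b) - (y + s)))‖ ≤
      ∑ j ∈ Finset.Icc 1 L, 2 ^ L *
        ∑ κ ∈ boxes j ⌈y + (β + s₀)⌉₊ y (β + s₀ + 2 * j) (Real.log z + 2),
          ∫ t : ℝ, C0 * (((1 + |t|) ^ k)⁻¹ * ‖∑ h ∈ H, ρ h * GC (ψ h) z κ t‖) := by
  classical
  have hV' := contDiff_shift hV s
  have hV2' := cpt_shift hV2 s
  have hβ' : ∀ u, β + s₀ < |u| → (fun u => V (u - s)) u = 0 := by
    intro u hu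
    apply hβ
    have h1 := abs_sub_abs_le_abs_sub u s
    linarith
  have e0 : ∀ h ∈ H, ∑ b ∈ primBall X, (muE b : ℂ) * (ψ h b * V (Real.log (nm b) - (y + s))) =
      ∑ j ∈ Finset.Icc 1 L, (-1 : ℂ) ^ (j + 1) * (L.choose j : ℂ) *
        ∑ κ ∈ boxes j ⌈y + (β + s₀)⌉₊ y (β + s₀ + 2 * j) (Real.log z + 2),
          ∫ t : ℝ, ker (fun u => V (u - s)) t * osc t (-y) * GC (ψ h) z κ t := by
    intro h hh
    rw [← hb_log_eq hV' hV2' hβ' hL y z (ψ h) (hψ h hh) hz hzL X hX]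
    refine Finset.sum_congr rfl fun b _ => ?_
    rw [sub_sub]
  have e1 : ∑ h ∈ H, ρ h * ∑ b ∈ primBall X,
        (muE b : ℂ) * (ψ h b * V (Real.log (nm b) - (y + s))) =
      ∑ j ∈ Finset.Icc 1 L, (-1 : ℂ) ^ (j + 1) * (L.choose j : ℂ) *
        ∑ κ ∈ boxes j ⌈y + (β + s₀)⌉₊ y (β + s₀ + 2 * j) (Real.log z + 2),
          ∫ t : ℝ, ker (fun u => V (u - s)) t * osc t (-y) * ∑ h ∈ H, ρ h * GC (ψ h) z κ t := by
    have e2 : ∀ (j : ℕ) (κ : Fin (j - 1) ⊕ Fin j → ℕ),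
        ∫ t : ℝ, ker (fun u => V (u - s)) t * osc t (-y) * ∑ h ∈ H, ρ h * GC (ψ h) z κ t =
        ∑ h ∈ H, ρ h * ∫ t : ℝ, ker (fun u => V (u - s)) t * osc t (-y) * GC (ψ h) z κ t := by
      intro j κ
      simp only [Finset.mul_sum]
      rw [integral_finsetSum]
      · refine Finset.sum_congr rfl fun h _ => ?_
        rw [← integral_const_mul]
        congr 1
        ext t
        ring
      · intro h _
        have := (integrable_GC hV' hV2' y (ψ h) z κ).const_mul (ρ h)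
        refine this.congr (Filter.Eventually.of_forall fun t => ?_)
        simp only
        ring
    simp only [e2]
    rw [Finset.sum_congr rfl fun h hh => by rw [e0 h hh]]
    simp only [Finset.mul_sum]
    rw [Finset.sum_comm]
    refine Finset.sum_congr rfl fun j _ => ?_
    rw [Finset.sum_comm]
    refine Finset.sum_congr rfl fun κ _ => ?_
    refine Finset.sum_congr rfl fun h _ => ?_
    ring
  rw [e1]
  refine (norm_sum_le _ _).trans (Finset.sum_le_sum fun j _ => ?_)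
  have hch : (L.choose j : ℝ) ≤ 2 ^ L := by
    have := Nat.choose_le_two_pow L j
    exact_mod_cast this
  rw [norm_mul, norm_mul, norm_pow, norm_neg, norm_one, one_pow, one_mul, Complex.norm_natCast]
  have h8 : ‖∑ κ ∈ boxes j ⌈y + (β + s₀)⌉₊ y (β + s₀ + 2 * j) (Real.log z + 2),
        ∫ t : ℝ, ker (fun u => V (u - s)) t * osc t (-y) * ∑ h ∈ H, ρ h * GC (ψ h) z κ t‖ ≤
      ∑ κ ∈ boxes j ⌈y + (β + s₀)⌉₊ y (β + s₀ + 2 * j) (Real.log z + 2),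
          ∫ t : ℝ, C0 * (((1 + |t|) ^ k)⁻¹ * ‖∑ h ∈ H, ρ h * GC (ψ h) z κ t‖) := by
    refine (norm_sum_le _ _).trans (Finset.sum_le_sum fun κ _ => ?_)
    refine norm_integral_le_of_norm_le ((integrable_sumGC hk H ρ ψ z κ).const_mul C0) ?_
    refine Filter.Eventually.of_forall fun t => ?_
    rw [norm_mul, norm_mul, norm_osc, mul_one, norm_ker_shift, ← mul_assoc]
    refine mul_le_mul_of_nonneg_right ?_ (norm_nonneg _)
    have h5 : (0 : ℝ) < 1 + |t| := by positivity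
    rw [← div_eq_mul_inv, le_div_iff₀ (by positivity)]
    exact hC t
  have h9 : 0 ≤ ‖∑ κ ∈ boxes j ⌈y + (β + s₀)⌉₊ y (β + s₀ + 2 * j) (Real.log z + 2),
        ∫ t : ℝ, ker (fun u => V (u - s)) t * osc t (-y) * ∑ h ∈ H, ρ h * GC (ψ h) z κ t‖ :=
    norm_nonneg _
  calc _ ≤ (2 : ℝ) ^ L * ‖∑ κ ∈ boxes j ⌈y + (β + s₀)⌉₊ y (β + s₀ + 2 * j) (Real.log z + 2),
        ∫ t : ℝ, ker (fun u => V (u - s)) t * osc t (-y) * ∑ h ∈ H, ρ h * GC (ψ h) z κ t‖ :=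
        mul_le_mul_of_nonneg_right hch h9
    _ ≤ _ := mul_le_mul_of_nonneg_left h8 (by positivity)

/-- **signed Heath-Brown with an outer sum**, logarithmic weights. -/
theorem hb_outer {V : ℝ → ℂ} (hV : ContDiff ℝ ∞ V) (hV2 : HasCompactSupport V) {β s₀ : ℝ}
    (hβ0 : 0 ≤ β) (hs0 : 0 ≤ s₀) (hβ : ∀ u, β < |u| → V u = 0) {L : ℕ} (hL : 1 ≤ L) (A : ℕ) :
    ∃ C : ℝ, 0 < C ∧ ∀ (y : ℝ) (z : ℕ), 0 ≤ y → 1 ≤ z →
      Real.exp (y + (β + s₀)) ≤ (z : ℝ) ^ L → ∀ X : ℕ, Real.exp (y + (β + s₀)) ≤ X →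
      ∀ {τ σ : Type} (T : Finset τ) (s : τ → ℝ), (∀ d ∈ T, |s d| ≤ s₀) →
      ∀ (H : τ → Finset σ) (ρ : τ → σ → ℂ) (ψ : τ → σ → Eis → ℂ),
      (∀ d ∈ T, ∀ h ∈ H d, IsChar (ψ d h)) → ∀ B : ℝ, 0 ≤ B →
      (∀ j ∈ Finset.Icc 1 L, ∀ κ ∈ boxes j ⌈y + (β + s₀)⌉₊ y (β + s₀ + 2 * j) (Real.log z + 2),
        ∀ t : ℝ, ∑ d ∈ T, ‖∑ h ∈ H d, ρ d h * GC (ψ d h) z κ t‖ ≤ B * (1 + |t|) ^ A) →
      ∑ d ∈ T, ‖∑ h ∈ H d, ρ d h * ∑ b ∈ primBall X,
        (muE b : ℂ) * (ψ d h b * V (Real.log (nm b) - (y + s d)))‖ ≤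
        C * (1 + y) ^ (2 * L) * B := by
  classical
  obtain ⟨C0, hC0, hC⟩ := ker_decay hV hV2 (A + 2)
  set I : ℝ := ∫ t : ℝ, ((1 + |t|) ^ 2)⁻¹ with hI
  have hI0 : 0 ≤ I := integral_nonneg fun t => by positivity
  set β' : ℝ := β + s₀ with hβ'
  have hβ'0 : 0 ≤ β' := by positivity
  refine ⟨2 ^ L * C0 * (L * (β' + 2) ^ (2 * L) * I) + 1, by positivity, ?_⟩
  intro y z hy hz hzL X hX τ σ T s hs H ρ ψ hψ B hB hyp
  set K : ℕ := ⌈y + β'⌉₊ with hK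
  have hK1 : (K : ℝ) + 1 ≤ (β' + 2) * (1 + y) := by
    have := Nat.ceil_lt_add_one (show 0 ≤ y + β' by linarith)
    nlinarith [mul_nonneg hβ'0 hy]
  have h1 : ∀ d ∈ T, ‖∑ h ∈ H d, ρ d h * ∑ b ∈ primBall X,
        (muE b : ℂ) * (ψ d h b * V (Real.log (nm b) - (y + s d)))‖ ≤
      ∑ j ∈ Finset.Icc 1 L, 2 ^ L *
        ∑ κ ∈ boxes j K y (β' + 2 * j) (Real.log z + 2),
          ∫ t : ℝ, C0 * (((1 + |t|) ^ (A + 2))⁻¹ * ‖∑ h ∈ H d, ρ d h * GC (ψ d h) z κ t‖) :=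
    fun d hd => hb_signed_int hV hV2 hβ hL (by omega) hC y z hz hzL X hX (hs d hd) (H d) (ρ d)
      (ψ d) (hψ d hd)
  refine (Finset.sum_le_sum h1).trans ?_
  rw [Finset.sum_comm]
  have h2 : ∀ j ∈ Finset.Icc 1 L, ∑ d ∈ T, 2 ^ L *
        ∑ κ ∈ boxes j K y (β' + 2 * j) (Real.log z + 2),
          ∫ t : ℝ, C0 * (((1 + |t|) ^ (A + 2))⁻¹ * ‖∑ h ∈ H d, ρ d h * GC (ψ d h) z κ t‖) ≤
      2 ^ L * (((β' + 2) * (1 + y)) ^ (2 * L) * (C0 * B * I)) := by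
    intro j hj
    rw [← Finset.mul_sum]
    refine mul_le_mul_of_nonneg_left ?_ (by positivity)
    rw [Finset.sum_comm]
    have h3 : ∀ κ ∈ boxes j K y (β' + 2 * j) (Real.log z + 2),
        ∑ d ∈ T, ∫ t : ℝ, C0 * (((1 + |t|) ^ (A + 2))⁻¹ *
          ‖∑ h ∈ H d, ρ d h * GC (ψ d h) z κ t‖) ≤ C0 * B * I := by
      intro κ hκ
      rw [← integral_finsetSum]
      · rw [hI, ← integral_const_mul]
        apply integral_mono_of_nonneg
        · exact Filter.Eventually.of_forall fun t => Finset.sum_nonneg fun d _ => by positivity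
        · exact (integrable_wt le_rfl).const_mul _
        · refine Filter.Eventually.of_forall fun t => ?_
          have h4 := hyp j hj κ hκ t
          have h5 : (0 : ℝ) < 1 + |t| := by positivity
          calc ∑ d ∈ T, C0 * (((1 + |t|) ^ (A + 2))⁻¹ * ‖∑ h ∈ H d, ρ d h * GC (ψ d h) z κ t‖)
              = C0 * ((1 + |t|) ^ (A + 2))⁻¹ *
                ∑ d ∈ T, ‖∑ h ∈ H d, ρ d h * GC (ψ d h) z κ t‖ := by
                rw [Finset.mul_sum]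
                exact Finset.sum_congr rfl fun d _ => by ring
            _ ≤ C0 * ((1 + |t|) ^ (A + 2))⁻¹ * (B * (1 + |t|) ^ A) := by gcongr
            _ = C0 * B * ((1 + |t|) ^ 2)⁻¹ := by
                rw [pow_add]
                field_simp
      · intro d _
        exact (integrable_sumGC (by omega) (H d) (ρ d) (ψ d) z κ).const_mul C0
    refine (Finset.sum_le_card_nsmul _ _ _ h3).trans ?_
    rw [nsmul_eq_mul]
    refine mul_le_mul_of_nonneg_right ?_ (by positivity)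
    have h6 : ((boxes j K y (β' + 2 * j) (Real.log z + 2)).card : ℝ) ≤ ((K : ℝ) + 1) ^ (2 * j) := by
      exact_mod_cast card_boxes_le j K y (β' + 2 * j) (Real.log z + 2)
    refine h6.trans ?_
    have h7 : (K : ℝ) + 1 ≥ 1 := by have : (0 : ℝ) ≤ K := Nat.cast_nonneg _; linarith
    have h8 := (Finset.mem_Icc.mp hj).2
    calc ((K : ℝ) + 1) ^ (2 * j) ≤ ((K : ℝ) + 1) ^ (2 * L) := pow_le_pow_right₀ h7 (by omega)
      _ ≤ _ := by gcongr
  refine (Finset.sum_le_card_nsmul _ _ _ h2).trans ?_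
  rw [Nat.card_Icc, nsmul_eq_mul]
  have h10 : ((L + 1 - 1 : ℕ) : ℝ) = L := by simp
  rw [h10]
  calc (L : ℝ) * (2 ^ L * (((β' + 2) * (1 + y)) ^ (2 * L) * (C0 * B * I)))
      = (2 ^ L * C0 * (L * (β' + 2) ^ (2 * L) * I)) * (1 + y) ^ (2 * L) * B := by
        rw [mul_pow]; ring
    _ ≤ _ := by
        have : 0 ≤ (1 + y) ^ (2 * L) * B := by positivity
        nlinarith

end Crest.Agent.R017.HBS271
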