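import Crest.Agent.R017.HB3_645

/-!
# Row 17: Heath-Brown's identity with smooth separated pieces, signed version (helper271)

The exact identity (`hb_log_eq`) and the family form with ARBITRARY complex weights
(`hb_signed`, `hb_signed_V`).
-/

set_option autoImplicit false

noncomputable section

open MeasureTheory Set
open scoped ContDiff

namespace Crest.Agent.R017.HBS271

open Crest.Agent.R012 Crest.Agent.R012.Eis Crest.Agent.R012.PSer47 Crest.Agent.R012.Weight600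
open Crest.Agent.R017.HB645

/-- the product of the pieces of a box -/
def GC (ψ : Eis → ℂ) (z : ℝ) {j : ℕ} (κ : Fin (j - 1) ⊕ Fin j → ℕ) (t : ℝ) : ℂ :=
  (∏ i, PS ψ (κ (Sum.inl i)) t) * ∏ i, PM ψ z (κ (Sum.inr i)) t

lemma norm_GC (ψ : Eis → ℂ) (z : ℝ) {j : ℕ} (κ : Fin (j - 1) ⊕ Fin j → ℕ) (t : ℝ) :
    ‖GC ψ z κ t‖ = GP ψ z κ t := by
  unfold GC GP
  rw [norm_mul, norm_prod, norm_prod]

lemma continuous_GC (ψ : Eis → ℂ) (z : ℝ) {j : ℕ} (κ : Fin (j - 1) ⊕ Fin j → ℕ) :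
    Continuous (GC ψ z κ) := by
  unfold GC
  refine Continuous.mul ?_ ?_
  · exact continuous_finsetProd _ fun i _ => continuous_PG ψ _
  · exact continuous_finsetProd _ fun i _ => continuous_PG (fun b => cM z b * ψ b) _

lemma integrable_GC {V : ℝ → ℂ} (hV : ContDiff ℝ ∞ V) (hV2 : HasCompactSupport V) (y : ℝ)
    (ψ : Eis → ℂ) (z : ℝ) {j : ℕ} (κ : Fin (j - 1) ⊕ Fin j → ℕ) :
    Integrable fun t : ℝ => ker V t * osc t (-y) * GC ψ z κ t := by
  obtain ⟨B, hB0, hB⟩ := GP_bdd ψ z κ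
  have h1 : Integrable fun t : ℝ => ker V t * osc t (-y) := by
    refine (ker_integrable hV hV2).mul_bdd (c := 1) ?_ ?_
    · exact (continuous_osc_left _).aestronglyMeasurable
    · exact Filter.Eventually.of_forall fun u => (norm_osc _ _).le
  refine h1.mul_bdd (c := B) (continuous_GC ψ z κ).aestronglyMeasurable ?_
  refine Filter.Eventually.of_forall fun t => ?_
  rw [norm_GC]
  exact hB t

/-- **Heath-Brown's identity with smooth separated pieces**, exact form. -/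
theorem hb_log_eq {V : ℝ → ℂ} (hV : ContDiff ℝ ∞ V) (hV2 : HasCompactSupport V) {β : ℝ}
    (hβ : ∀ u, β < |u| → V u = 0) {L : ℕ} (hL : 1 ≤ L)
    (y : ℝ) (z : ℕ) (ψ : Eis → ℂ) (hψ : IsChar ψ) (hz : 1 ≤ z)
    (hzL : Real.exp (y + β) ≤ (z : ℝ) ^ L) (X : ℕ) (hX : Real.exp (y + β) ≤ X) :
    ∑ b ∈ primBall X, (muE b : ℂ) * (ψ b * V (Real.log (nm b) - y)) =
      ∑ j ∈ Finset.Icc 1 L, (-1 : ℂ) ^ (j + 1) * (L.choose j : ℂ) *
        ∑ κ ∈ boxes j ⌈y + β⌉₊ y (β + 2 * j) (Real.log z + 2),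
          ∫ t : ℝ, ker V t * osc t (-y) * GC ψ z κ t := by
  classical
  set K : ℕ := ⌈y + β⌉₊ with hK
  have hyK : y + β ≤ K := Nat.le_ceil _
  set X1 : ℕ := max (max X z) ⌈Real.exp (K + 1)⌉₊ with hX1
  have hX1a : X ≤ X1 := (le_max_left _ _).trans (le_max_left _ _)
  have hX1b : z ≤ X1 := (le_max_right _ _).trans (le_max_left _ _)
  have hX1c : Real.exp (K + 1) ≤ X1 :=
    (Nat.le_ceil _).trans (Nat.cast_le.mpr (le_max_right _ _))
  set X0 : ℕ := ⌊Real.exp (y + β)⌋₊ with hX0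
  have hX0X : X0 ≤ X := Nat.floor_le_of_le hX
  have hX0z : X0 ≤ z ^ L := Nat.floor_le_of_le (by push_cast; exact hzL)
  set F : Eis → ℂ := fun b => ψ b * V (Real.log (nm b) - y) with hF
  have hvan : Van X0 F := by
    intro b hb hlt
    rw [hX0, Nat.floor_lt (Real.exp_pos _).le] at hlt
    have h1 : y + β < Real.log (nm b) := by
      rw [Real.lt_log_iff_exp_lt ((Real.exp_pos _).trans hlt)]
      exact hlt
    simp only [hF]
    rw [hβ _ (by exact lt_of_lt_of_le (by linarith) (le_abs_self _)), mul_zero]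
  have e0 : ∑ b ∈ primBall X, (muE b : ℂ) * (ψ b * V (Real.log (nm b) - y)) =
      ∑ b ∈ primBall X1, (muE b : ℂ) * F b := by
    apply Finset.sum_subset
    · intro b hb
      rw [mem_primBall] at hb ⊢
      exact ⟨hb.1.trans hX1a, hb.2⟩
    · intro b hb hb2
      rw [mem_primBall] at hb hb2
      have h1 : X0 < nm b := by
        by_contra h
        push Not at h
        exact hb2 ⟨h.trans hX0X, hb.2⟩
      rw [show ψ b * V (Real.log (nm b) - y) = F b from rfl, hvan b hb.2 h1, mul_zero]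
  have hcM : ∀ b, IsPrim b → nm b ≤ z → cM z b = (muE b : ℂ) := by
    intro b hb hle
    unfold cM
    have h1 : (0 : ℝ) < nm b := by exact_mod_cast nm_pos.mpr hb.ne_zero
    have h2 : Real.log (nm b) ≤ Real.log z := Real.log_le_log h1 (by exact_mod_cast hle)
    rw [sg_of_le (by linarith), sub_zero, Complex.ofReal_one, mul_one]
  rw [e0, hb_identity hL (hX0X.trans hX1a) hX1b hX0z hcM hvan]
  refine Finset.sum_congr rfl fun j hj => ?_
  rw [Finset.mem_Icc] at hj
  congr 1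
  set g : Fin (j - 1) ⊕ Fin j → Eis → ℂ :=
    Sum.elim (fun _ => ψ) (fun _ => fun b => cM z b * ψ b) with hg
  have e1 : ∑ x ∈ Fintype.piFinset (fun _ : Fin (j - 1) ⊕ Fin j => primBall X1),
      (∏ i, cM z (x (Sum.inr i))) * F (∏ i, x i) =
      ∑ x ∈ Fintype.piFinset (fun _ : Fin (j - 1) ⊕ Fin j => primBall X1),
        (∏ i, g i (x i)) * V (Real.log (nm (∏ i, x i)) - y) := by
    refine Finset.sum_congr rfl fun x hx => ?_
    rw [Fintype.mem_piFinset] at hx
    have hxp : ∀ i, IsPrim (x i) := fun i => (mem_primBall.mp (hx i)).2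
    have h1 : ∏ i, g i (x i) = (∏ i, cM z (x (Sum.inr i))) * ψ (∏ i, x i) := by
      rw [IsChar_prod hψ _ x hxp, Fintype.prod_sum_type, Fintype.prod_sum_type]
      simp only [hg, Sum.elim_inl, Sum.elim_inr]
      rw [Finset.prod_mul_distrib]
      ring
    rw [h1]
    simp only [hF]
    ring
  rw [e1, box_expand hV hV2 hβ g (ι := Fin (j - 1) ⊕ Fin j) hyK hX1c (y := y)]
  have e3 : ∀ κ : Fin (j - 1) ⊕ Fin j → ℕ, ∀ t : ℝ, ∏ i, PG (g i) (κ i) t = GC ψ z κ t := by
    intro κ t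
    rw [Fintype.prod_sum_type]
    rfl
  simp only [e3]
  have hzero : ∀ κ : Fin (j - 1) ⊕ Fin j → ℕ, (∃ i : Fin j, Real.log z + 2 < (κ (Sum.inr i) : ℝ)) →
      ∫ t : ℝ, ker V t * osc t (-y) * GC ψ z κ t = 0 := by
    rintro κ ⟨i, hi⟩
    have h5 : ∀ t, GC ψ z κ t = 0 := by
      intro t
      unfold GC
      have h6 : ∏ i, PM ψ z (κ (Sum.inr i)) t = 0 :=
        Finset.prod_eq_zero (Finset.mem_univ i) (PM_eq_zero ψ hi.le t)
      rw [h6, mul_zero]
    simp [h5]
  -- both sums run over the boxes with nonzero contribution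
  have hcard : ((Fintype.card (Fin (j - 1) ⊕ Fin j) : ℕ) : ℝ) ≤ 2 * j := by
    rw [Fintype.card_sum, Fintype.card_fin, Fintype.card_fin]
    have : j - 1 + j ≤ 2 * j := by omega
    exact_mod_cast this
  set S := (adm (Fin (j - 1) ⊕ Fin j) K y (β + Fintype.card (Fin (j - 1) ⊕ Fin j))).filter
      (fun κ => ∀ i : Fin j, (κ (Sum.inr i) : ℝ) ≤ Real.log z + 2) with hS
  have h3 : ∑ κ ∈ adm (Fin (j - 1) ⊕ Fin j) K y (β + Fintype.card (Fin (j - 1) ⊕ Fin j)),
      ∫ t : ℝ, ker V t * osc t (-y) * GC ψ z κ t = ∑ κ ∈ S,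
      ∫ t : ℝ, ker V t * osc t (-y) * GC ψ z κ t := by
    symm
    apply Finset.sum_subset (Finset.filter_subset _ _)
    intro κ hκ hκ2
    apply hzero
    by_contra hcon
    push Not at hcon
    exact hκ2 (Finset.mem_filter.mpr ⟨hκ, hcon⟩)
  rw [h3]
  apply Finset.sum_subset
  · intro κ hκ
    have h4 := Finset.mem_filter.mp hκ
    refine Finset.mem_filter.mpr ⟨?_, h4.2⟩
    have h5 := Finset.mem_filter.mp h4.1
    refine Finset.mem_filter.mpr ⟨h5.1, h5.2.trans ?_⟩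
    linarith
  · intro κ hκ hκ2
    -- a box outside `adm` with the smaller radius has zero contribution
    have h4 := Finset.mem_filter.mp hκ
    have h5 := Finset.mem_filter.mp h4.1
    have h6 : β + Fintype.card (Fin (j - 1) ⊕ Fin j) < |∑ i, (κ i : ℝ) - y| := by
      by_contra hcon
      push Not at hcon
      exact hκ2 (Finset.mem_filter.mpr ⟨Finset.mem_filter.mpr ⟨h5.1, hcon⟩, h4.2⟩)
    -- expand the integral
    have e2 : ∀ t : ℝ, ker V t * osc t (-y) * GC ψ z κ t =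
        ∑ x ∈ Fintype.piFinset (fun _ : Fin (j - 1) ⊕ Fin j => primBall X1),
          (∏ i, (g i (x i) * (hh (Real.log (nm (x i)) - κ i) : ℂ))) *
            (ker V t * osc t (Real.log (nm (∏ i, x i)) - y)) := by
      intro t
      rw [← e3]
      have hκK : ∀ i, κ i ≤ K := by
        intro i
        have := Finset.mem_range.mp (Fintype.mem_piFinset.mp h5.1 i)
        omega
      have e4 : ∏ i, PG (g i) (κ i) t =
          ∑ x ∈ Fintype.piFinset (fun _ : Fin (j - 1) ⊕ Fin j => primBall X1),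
          ∏ i, (g i (x i) * pw t (nm (x i)) * (hh (Real.log (nm (x i)) - κ i) : ℂ)) := by
        rw [← Finset.prod_univ_sum (fun _ : Fin (j - 1) ⊕ Fin j => primBall X1)
          (fun i b => g i b * pw t (nm b) * (hh (Real.log (nm b) - κ i) : ℂ))]
        refine Finset.prod_congr rfl fun i _ => ?_
        apply PG_eq
        refine le_trans ?_ hX1c
        have : (κ i : ℝ) ≤ K := by exact_mod_cast hκK i
        exact Real.exp_le_exp.mpr (by linarith)
      rw [e4, Finset.mul_sum]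
      refine Finset.sum_congr rfl fun x hx => ?_
      rw [Fintype.mem_piFinset] at hx
      have hxp : ∀ i, IsPrim (x i) := fun i => (mem_primBall.mp (hx i)).2
      rw [log_nm_prod x hxp, sub_eq_add_neg, osc_add_right, osc_sum]
      have e5 : ∏ i, (g i (x i) * pw t (nm (x i)) * (hh (Real.log (nm (x i)) - κ i) : ℂ)) =
          (∏ i, (g i (x i) * (hh (Real.log (nm (x i)) - κ i) : ℂ))) *
            ∏ i, osc t (Real.log (nm (x i))) := by
        rw [← Finset.prod_mul_distrib]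
        refine Finset.prod_congr rfl fun i _ => ?_
        unfold pw
        ring
      rw [e5]
      ring
    rw [integral_congr_ae (Filter.Eventually.of_forall e2)]
    rw [integral_finsetSum]
    · refine Finset.sum_eq_zero fun x hx => ?_
      rw [Fintype.mem_piFinset] at hx
      have hxp : ∀ i, IsPrim (x i) := fun i => (mem_primBall.mp (hx i)).2
      rw [integral_const_mul, inversion_smooth hV hV2]
      by_cases hne : ∏ i, (g i (x i) * (hh (Real.log (nm (x i)) - κ i) : ℂ)) = 0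
      · rw [hne, zero_mul]
      · have h7 : ∀ i, |Real.log (nm (x i)) - κ i| ≤ 1 := by
          intro i
          have h8 := Finset.prod_ne_zero_iff.mp hne i (Finset.mem_univ i)
          have h9 : hh (Real.log (nm (x i)) - κ i) ≠ 0 := by
            intro h0; rw [h0] at h8; simp at h8
          exact (abs_lt_of_hh h9).le
        have h8 : |∑ i, Real.log (nm (x i)) - ∑ i, (κ i : ℝ)| ≤
            Fintype.card (Fin (j - 1) ⊕ Fin j) := by
          rw [← Finset.sum_sub_distrib]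
          refine (Finset.abs_sum_le_sum_abs _ _).trans ?_
          refine (Finset.sum_le_sum fun i _ => h7 i).trans ?_
          simp
        have h9 : β < |Real.log (nm (∏ i, x i)) - y| := by
          rw [log_nm_prod x hxp]
          have h10 : |∑ i, (κ i : ℝ) - y| ≤ |∑ i, Real.log (nm (x i)) - y| +
              |∑ i, Real.log (nm (x i)) - ∑ i, (κ i : ℝ)| := by
            have h11 : ∑ i, (κ i : ℝ) - y = (∑ i, Real.log (nm (x i)) - y) -
                (∑ i, Real.log (nm (x i)) - ∑ i, (κ i : ℝ)) := by ring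
            rw [h11]
            exact abs_sub _ _
          linarith
        rw [hβ _ h9, mul_zero]
    · intro x _
      apply Integrable.const_mul
      refine (ker_integrable hV hV2).mul_bdd (c := 1) ?_ ?_
      · exact (continuous_osc_left _).aestronglyMeasurable
      · exact Filter.Eventually.of_forall fun u => (norm_osc _ _).le

/-- **Signed family form.**  Arbitrary complex weights `ρ`. -/
theorem hb_signed {V : ℝ → ℂ} (hV : ContDiff ℝ ∞ V) (hV2 : HasCompactSupport V) {β : ℝ}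
    (hβ0 : 0 ≤ β) (hβ : ∀ u, β < |u| → V u = 0) {L : ℕ} (hL : 1 ≤ L) (A : ℕ) :
    ∃ C : ℝ, 0 < C ∧ ∀ (y : ℝ) (z : ℕ), 0 ≤ y → 1 ≤ z → Real.exp (y + β) ≤ (z : ℝ) ^ L →
      ∀ X : ℕ, Real.exp (y + β) ≤ X → ∀ {σ : Type} (H : Finset σ) (ρ : σ → ℂ)
      (ψ : σ → Eis → ℂ), (∀ h ∈ H, IsChar (ψ h)) → ∀ B : ℝ, 0 ≤ B →
      (∀ j ∈ Finset.Icc 1 L, ∀ κ ∈ boxes j ⌈y + β⌉₊ y (β + 2 * j) (Real.log z + 2), ∀ t : ℝ,
        ‖∑ h ∈ H, ρ h * GC (ψ h) z κ t‖ ≤ B * (1 + |t|) ^ A) →
      ‖∑ h ∈ H, ρ h * ∑ b ∈ primBall X, (muE b : ℂ) * (ψ h b * V (Real.log (nm b) - y))‖ ≤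
        C * (1 + y) ^ (2 * L) * B := by
  classical
  obtain ⟨C0, hC0, hC⟩ := ker_decay hV hV2 (A + 2)
  set I : ℝ := ∫ t : ℝ, ((1 + |t|) ^ 2)⁻¹ with hI
  have hI0 : 0 ≤ I := integral_nonneg fun t => by positivity
  refine ⟨2 ^ L * C0 * (L * (β + 2) ^ (2 * L) * I) + 1, by positivity, ?_⟩
  intro y z hy hz hzL X hX σ H ρ ψ hψ B hB hyp
  set K : ℕ := ⌈y + β⌉₊ with hK
  have hK1 : (K : ℝ) + 1 ≤ (β + 2) * (1 + y) := by
    have := Nat.ceil_lt_add_one (show 0 ≤ y + β by linarith)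
    nlinarith [mul_nonneg hβ0 hy]
  have e1 : ∑ h ∈ H, ρ h * ∑ b ∈ primBall X, (muE b : ℂ) * (ψ h b * V (Real.log (nm b) - y)) =
      ∑ j ∈ Finset.Icc 1 L, (-1 : ℂ) ^ (j + 1) * (L.choose j : ℂ) *
        ∑ κ ∈ boxes j K y (β + 2 * j) (Real.log z + 2),
          ∫ t : ℝ, ker V t * osc t (-y) * ∑ h ∈ H, ρ h * GC (ψ h) z κ t := by
    have e2 : ∀ (j : ℕ) (κ : Fin (j - 1) ⊕ Fin j → ℕ),
        ∫ t : ℝ, ker V t * osc t (-y) * ∑ h ∈ H, ρ h * GC (ψ h) z κ t =
        ∑ h ∈ H, ρ h * ∫ t : ℝ, ker V t * osc t (-y) * GC (ψ h) z κ t := by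
      intro j κ
      simp only [Finset.mul_sum]
      rw [integral_finsetSum]
      · refine Finset.sum_congr rfl fun h _ => ?_
        rw [← integral_const_mul]
        congr 1
        ext t
        ring
      · intro h _
        have := (integrable_GC hV hV2 y (ψ h) z κ).const_mul (ρ h)
        refine this.congr (Filter.Eventually.of_forall fun t => ?_)
        simp only
        ring
    simp only [e2]
    rw [Finset.sum_congr rfl fun h hh => by
      rw [hb_log_eq hV hV2 hβ hL y z (ψ h) (hψ h hh) hz hzL X hX]]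
    simp only [Finset.mul_sum]
    rw [Finset.sum_comm]
    refine Finset.sum_congr rfl fun j _ => ?_
    rw [Finset.sum_comm]
    refine Finset.sum_congr rfl fun κ _ => ?_
    refine Finset.sum_congr rfl fun h _ => ?_
    ring
  rw [e1]
  have h2 : ∀ j ∈ Finset.Icc 1 L, ‖(-1 : ℂ) ^ (j + 1) * (L.choose j : ℂ) *
        ∑ κ ∈ boxes j K y (β + 2 * j) (Real.log z + 2),
          ∫ t : ℝ, ker V t * osc t (-y) * ∑ h ∈ H, ρ h * GC (ψ h) z κ t‖ ≤
      2 ^ L * (((β + 2) * (1 + y)) ^ (2 * L) * (C0 * B * I)) := by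
    intro j hj
    have h3 : ∀ κ ∈ boxes j K y (β + 2 * j) (Real.log z + 2),
        ‖∫ t : ℝ, ker V t * osc t (-y) * ∑ h ∈ H, ρ h * GC (ψ h) z κ t‖ ≤ C0 * B * I := by
      intro κ hκ
      rw [hI, ← integral_const_mul]
      refine norm_integral_le_of_norm_le ((integrable_wt le_rfl).const_mul (C0 * B)) ?_
      refine Filter.Eventually.of_forall fun t => ?_
      rw [norm_mul, norm_mul, norm_osc, mul_one]
      have h4 := hyp j hj κ hκ t
      have h5 : (0 : ℝ) < 1 + |t| := by positivity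
      have h6 := hC t
      have h7 : ‖ker V t‖ ≤ C0 * ((1 + |t|) ^ (A + 2))⁻¹ := by
        rw [← div_eq_mul_inv, le_div_iff₀ (by positivity)]
        exact h6
      calc ‖ker V t‖ * ‖∑ h ∈ H, ρ h * GC (ψ h) z κ t‖
          ≤ (C0 * ((1 + |t|) ^ (A + 2))⁻¹) * (B * (1 + |t|) ^ A) := by gcongr
        _ = C0 * B * ((1 + |t|) ^ 2)⁻¹ := by
            rw [pow_add]
            field_simp
    have hch : (L.choose j : ℝ) ≤ 2 ^ L := by
      have := Nat.choose_le_two_pow L j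
      exact_mod_cast this
    rw [norm_mul, norm_mul, norm_pow, norm_neg, norm_one, one_pow, one_mul, Complex.norm_natCast]
    have h8 : ‖∑ κ ∈ boxes j K y (β + 2 * j) (Real.log z + 2),
          ∫ t : ℝ, ker V t * osc t (-y) * ∑ h ∈ H, ρ h * GC (ψ h) z κ t‖ ≤
        ((β + 2) * (1 + y)) ^ (2 * L) * (C0 * B * I) := by
      refine (norm_sum_le _ _).trans ((Finset.sum_le_card_nsmul _ _ _ h3).trans ?_)
      rw [nsmul_eq_mul]
      refine mul_le_mul_of_nonneg_right ?_ (by positivity)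
      have h6 : ((boxes j K y (β + 2 * j) (Real.log z + 2)).card : ℝ) ≤ ((K : ℝ) + 1) ^ (2 * j) := by
        exact_mod_cast card_boxes_le j K y (β + 2 * j) (Real.log z + 2)
      refine h6.trans ?_
      have h7 : (K : ℝ) + 1 ≥ 1 := by have : (0 : ℝ) ≤ K := Nat.cast_nonneg _; linarith
      have h8 := (Finset.mem_Icc.mp hj).2
      calc ((K : ℝ) + 1) ^ (2 * j) ≤ ((K : ℝ) + 1) ^ (2 * L) := pow_le_pow_right₀ h7 (by omega)
        _ ≤ _ := by gcongr
    gcongr
  refine (norm_sum_le _ _).trans ((Finset.sum_le_card_nsmul _ _ _ h2).trans ?_)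
  rw [Nat.card_Icc, nsmul_eq_mul]
  have h10 : ((L + 1 - 1 : ℕ) : ℝ) = L := by simp
  rw [h10]
  calc (L : ℝ) * (2 ^ L * (((β + 2) * (1 + y)) ^ (2 * L) * (C0 * B * I)))
      = (2 ^ L * C0 * (L * (β + 2) ^ (2 * L) * I)) * (1 + y) ^ (2 * L) * B := by
        rw [mul_pow]; ring
    _ ≤ _ := by
        have : 0 ≤ (1 + y) ^ (2 * L) * B := by positivity
        nlinarith

/-- **Heath-Brown's identity, signed family form**, weight `V (nm b / Q)`, arbitrary complex
weights `ρ`. -/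
theorem hb_signed_V {V : ℝ → ℂ} (hV : ContDiff ℝ ∞ V) (hV2 : HasCompactSupport V)
    (hV3 : tsupport V ⊆ Set.Ioi 0) {L : ℕ} (hL : 1 ≤ L) (A : ℕ) :
    ∃ C β R : ℝ, 0 < C ∧ 0 ≤ β ∧ 0 ≤ R ∧ ∀ Q : ℝ, 1 ≤ Q →
      ∀ {σ : Type} (H : Finset σ) (ρ : σ → ℂ)
      (ψ : σ → Eis → ℂ), (∀ h ∈ H, IsChar (ψ h)) → ∀ B : ℝ, 0 ≤ B →
      (∀ j : ℕ, 1 ≤ j → j ≤ L → ∀ κ : Fin (j - 1) ⊕ Fin j → ℕ,
        |∑ i, (κ (Sum.inl i) : ℝ) + ∑ i, (κ (Sum.inr i) : ℝ) - Real.log Q| ≤ R →
        (∀ i : Fin j, (κ (Sum.inr i) : ℝ) ≤ Real.log Q / L + R) → ∀ t : ℝ,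
        ‖∑ h ∈ H, ρ h * GC (ψ h) (zz L (Real.log Q + β)) κ t‖ ≤ B * (1 + |t|) ^ A) →
      ∀ X : ℕ, (∀ b, IsPrim b → X < nm b → V (nm b / Q) = 0) →
      ‖∑ h ∈ H, ρ h * ∑ b ∈ primBall X, (muE b : ℂ) * ψ h b * V (nm b / Q)‖ ≤
        C * (1 + Real.log Q) ^ (2 * L) * B := by
  classical
  obtain ⟨h1, h2⟩ := log_weight' hV hV2 hV3
  obtain ⟨β, hβ0, hβ⟩ : ∃ β : ℝ, 0 ≤ β ∧ ∀ u, β < |u| → V (Real.exp u) = 0 := by
    obtain ⟨r, hr⟩ := h2.isCompact.isBounded.subset_closedBall 0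
    refine ⟨max r 0, le_max_right _ _, fun u hu => ?_⟩
    have h3 : u ∉ tsupport (fun u : ℝ => V (Real.exp u)) := by
      intro h4
      have h5 := hr h4
      rw [Metric.mem_closedBall, dist_zero_right, Real.norm_eq_abs] at h5
      exact absurd (h5.trans (le_max_left r 0)) (not_le.mpr hu)
    exact image_eq_zero_of_notMem_tsupport (f := fun u : ℝ => V (Real.exp u)) h3
  obtain ⟨C, hC0, hC⟩ := hb_signed h1 h2 hβ0 hβ hL A
  refine ⟨C, β, β + 2 * L + 3, hC0, hβ0, by positivity, ?_⟩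
  intro Q hQ σ H ρ ψ hψ B hB hyp X hX
  have hQ0 : 0 < Q := by linarith
  have hy : 0 ≤ Real.log Q := Real.log_nonneg hQ
  have hyβ : 0 ≤ Real.log Q + β := by linarith
  set X1 : ℕ := max X ⌈Real.exp (Real.log Q + β)⌉₊ with hX1
  have hX1a : Real.exp (Real.log Q + β) ≤ X1 :=
    (Nat.le_ceil _).trans (Nat.cast_le.mpr (le_max_right _ _))
  have key := hC (Real.log Q) (zz L (Real.log Q + β)) hy (one_le_zz _ _)
    (exp_le_zz_pow hL _) X1 hX1a H ρ ψ hψ B hB ?_
  · refine le_trans (le_of_eq ?_) key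
    congr 1
    refine Finset.sum_congr rfl fun h _ => ?_
    congr 1
    have e1 : ∀ b, IsPrim b → (muE b : ℂ) * ψ h b * V (nm b / Q) =
        (muE b : ℂ) * (ψ h b * (fun u : ℝ => V (Real.exp u)) (Real.log (nm b) - Real.log Q)) := by
      intro b hb
      have hb0 : (0 : ℝ) < nm b := by exact_mod_cast nm_pos.mpr hb.ne_zero
      simp only
      rw [Real.exp_sub, Real.exp_log hb0, Real.exp_log hQ0]
      ring
    rw [← Finset.sum_congr rfl fun b hb => e1 b (mem_primBall.mp hb).2]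
    apply Finset.sum_subset
    · intro b hb
      rw [mem_primBall] at hb ⊢
      exact ⟨hb.1.trans (le_max_left _ _), hb.2⟩
    · intro b hb hb2
      rw [mem_primBall] at hb hb2
      have h3 : X < nm b := by
        by_contra h4
        exact hb2 ⟨not_lt.mp h4, hb.2⟩
      rw [hX b hb.2 h3, mul_zero]
  · intro j hj κ hκ t
    rw [Finset.mem_Icc] at hj
    rw [mem_boxes] at hκ
    have hjL : (j : ℝ) ≤ L := by exact_mod_cast hj.2
    refine hyp j hj.1 hj.2 κ (hκ.2.1.trans (by linarith)) (fun i => ?_) t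
    refine (hκ.2.2 i).trans ?_
    have h3 := log_zz_le (L := L) hyβ
    have hL1 : (1 : ℝ) ≤ L := by exact_mod_cast hL
    have h4 : (Real.log Q + β) / L ≤ Real.log Q / L + β := by
      rw [add_div]
      have : β / L ≤ β := div_le_self hβ0 hL1
      linarith
    linarith

end Crest.Agent.R017.HBS271
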