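import Crest.Agent.R017.GrZ3_404
import Crest.Agent.R017.ExT3_764

/-!
# Row 17, exceptional class, P1CX (helper408): the bias of the child difference

* `shf_sh`, `shf_ht`, `shf_fam` : `Shf` for the families of the children
* **`hbc_gen`**, **`hbc`** : (HBc) of 404's `coreB_xd` / `TPsX`
-/

set_option autoImplicit false
set_option linter.unusedSectionVars false

noncomputable section

open Finset
open scoped ComplexConjugate

namespace Crest.Agent.R017.HBc408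

open Crest.Agent.R012 Crest.Agent.R012.Eis
open Crest.Agent.R012.Div277 (tau dvs mem_dvs tau_le_rpow)
open Crest.Agent.R012.Weight600 (osc norm_osc pw norm_pw)
open Crest.Agent.R017.CM106 (CS TG FS)
open Crest.Agent.R017.HP842 (Pc pc al cv Tu mem_Tu sc' scS sqc Th card_Tu_le KS UT)
open Crest.Agent.R017.Rough381 (sh shS sh_OK nm_prodI)
open Crest.Agent.R017.FE47 (PU cx)
open Crest.Agent.R017.Prov71 (CubeFree)
open Crest.Agent.R017.StA828 Crest.Agent.R017.StC828 Crest.Agent.R017.StF828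
open Crest.Agent.R017.GrC828 Crest.Agent.R017.GrT828
open Crest.Agent.R017.PX764 (md)
open Crest.Agent.R017.RX241 (Md)
open Crest.Agent.R017.E1551 (sg tws)
open Crest.Agent.R017.End699 (prin0)
open Crest.Agent.R017.ExT764 (Shf shY zeP xA bias_al)
open Crest.Agent.R017.GrK404 (cdf)
open Crest.Agent.R017.ExD791 (ht_le Mg Mg_sq)

/-! ### the families of the children -/

lemma sh_shY (δ : ℝ) (P : Pc) (a : Eis) : sh (shY δ P) a = shY δ (sh P a) := by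
  have h1 : P.Y * Real.exp δ / nm a = P.Y / nm a * Real.exp δ := by ring
  show (⟨P.u.sub a, P.ψ, P.Y * Real.exp δ / nm a, P.t⟩ : Pc) =
    ⟨P.u.sub a, P.ψ, P.Y / nm a * Real.exp δ, P.t⟩
  rw [h1]

section

variable {τ : Type*} [Fintype τ] [DecidableEq τ]

lemma shf_sh {s s' : τ → Pc} {i1 i2 : τ} {δ : ℝ} (hs : Shf s s' i1 i2 δ) (v : τ → Eis) :
    Shf (shS s v) (shS s' v) i1 i2 δ where
  ne := hs.ne
  e1 := by
    show sh (s' i1) (v i1) = shY δ (sh (s i1) (v i1))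
    rw [hs.e1, sh_shY]
  e2 := by
    show sh (s' i2) (v i2) = shY (-δ) (sh (s i2) (v i2))
    rw [hs.e2, sh_shY]
  e3 := fun i h1 h2 => by
    show sh (s' i) (v i) = sh (s i) (v i)
    rw [hs.e3 i h1 h2]

lemma shf_ht {s s' : τ → Pc} {i1 i2 : τ} {δ : ℝ} (hs : Shf s s' i1 i2 δ) (t : ℝ) :
    Shf (fun i => ht t (s i)) (fun i => ht t (s' i)) i1 i2 δ where
  ne := hs.ne
  e1 := by
    show ht t (s' i1) = shY δ (ht t (s i1))
    rw [hs.e1]; rfl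
  e2 := by
    show ht t (s' i2) = shY (-δ) (ht t (s i2))
    rw [hs.e2]; rfl
  e3 := fun i h1 h2 => by
    show ht t (s' i) = ht t (s i)
    rw [hs.e3 i h1 h2]

lemma scS_shf {s s' : τ → Pc} {i1 i2 : τ} {δ : ℝ} (hs : Shf s s' i1 i2 δ) (v : τ → Eis) :
    scS s' v = scS s v := by
  unfold HP842.scS
  refine prod_congr rfl fun i _ => ?_
  by_cases h1 : i = i1
  · rw [h1, hs.e1]; rfl
  · by_cases h2 : i = i2
    · rw [h2, hs.e2]; rfl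
    · rw [hs.e3 i h1 h2]

end

lemma zeP_ht (p1 p2 : Pc) (t δ : ℝ) : zeP (ht t p1) (ht t p2) δ = zeP p1 p2 δ := by
  unfold ExT764.zeP
  show osc (p1.t + t) (-δ) * osc (p2.t + t) δ = _
  rw [Weight600.osc_add_left, Weight600.osc_add_left]
  have h1 : osc t (-δ) * osc t δ = 1 := by
    rw [← Weight600.osc_add_right, neg_add_cancel]
    unfold Weight600.osc
    simp
  linear_combination (osc p1.t (-δ) * osc p2.t δ) * h1

lemma tws_one (x : Eis → ℂ) : tws (sg x 1) 0 = x := by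
  funext n
  show x (1 * n) * pw 0 (nm n) = x n
  have h1 : pw 0 (nm n) = 1 := by
    unfold Weight600.pw Weight600.osc
    simp
  rw [h1, one_mul, mul_one]

section

variable {ι κ : Type} [Fintype ι] [Fintype κ] [DecidableEq ι] [DecidableEq κ]

lemma shf_fam {s s' : κ → Pc} {i1 i2 : κ} {δ : ℝ} (hs : Shf s s' i1 i2 δ) (θ : ℝ)
    (s1 : ι → Pc) : Shf (fam θ s1 s) (fam θ s1 s') (.inr i1) (.inr i2) δ where
  ne := fun h => hs.ne (Sum.inr_injective h)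
  e1 := hs.e1
  e2 := hs.e2
  e3 := by
    rintro (i | i) h1 h2
    · rfl
    · exact hs.e3 i (fun h => h1 (by rw [h])) (fun h => h2 (by rw [h]))

/-- the child family -/
def chf (τ θ : ℝ) (s1 : ι → Pc) (s2 : κ → Pc) (a : ι ⊕ κ → Eis) : ι ⊕ κ → Pc :=
  shS (fun i => ht τ (fam θ s1 s2 i)) a

lemma shf_chf {s s' : κ → Pc} {i1 i2 : κ} {δ : ℝ} (hs : Shf s s' i1 i2 δ) (τ θ : ℝ)
    (s1 : ι → Pc) (a : ι ⊕ κ → Eis) :
    Shf (chf τ θ s1 s a) (chf τ θ s1 s' a) (.inr i1) (.inr i2) δ :=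
  shf_sh (shf_ht (shf_fam hs θ s1) τ) _

lemma zeP_chf (s : κ → Pc) (i1 i2 : κ) (δ τ θ : ℝ) (s1 : ι → Pc) (a : ι ⊕ κ → Eis) :
    zeP (chf τ θ s1 s a (.inr i1)) (chf τ θ s1 s a (.inr i2)) δ = zeP (s i1) (s i2) δ := by
  rw [← zeP_ht (s i1) (s i2) τ δ]
  rfl

lemma cdf_eq (h : ℝ → ℝ) (s s' : κ → Pc) (i1 i2 : κ) (δ τ θ : ℝ) (s1 : ι → Pc) (q : Eis)
    (a : ι ⊕ κ → Eis) : cdf h (zeP (s i1) (s i2) δ) τ θ s1 s s' q a =
      xA h q (chf τ θ s1 s a) (chf τ θ s1 s' a) (.inr i1) (.inr i2) δ := by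
  funext n
  unfold GrK404.cdf ExT764.xA
  rw [zeP_chf]
  rfl

end

set_option maxHeartbeats 1000000 in
/-- **(HBc), any tuple** -/
theorem hbc_gen {h : ℝ → ℝ} {c₀ : ℝ} (hpu : PU h c₀) (N : ℕ) {B₀ : ℝ} (hB₀ : 0 ≤ B₀) {ε : ℝ}
    (hε : 0 < ε) : ∃ C : ℝ, 1 ≤ C ∧ ∀ X : ℝ, 3 ≤ X →
    ∀ (ι κ : Type) [Fintype ι] [Fintype κ] [DecidableEq ι] [DecidableEq κ],
    Fintype.card ι + Fintype.card κ ≤ N → ∀ (s1 : ι → Pc) (s2 s3 : κ → Pc) (i1 i2 : κ) (δ : ℝ),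
    Shf s2 s3 i1 i2 δ → (∀ i, (s1 i).OK) → (∀ j, (s2 j).OK) →
    (∀ i, Real.log (s1 i).Y ≤ Real.log X) → (∀ j, Real.log (s2 j).Y ≤ Real.log X) →
    (s2 i1).u = .one → (s2 i2).u = .one → ∀ ρ1 ρ2 : Eis, ρ1 ≠ 0 → ρ2 ≠ 0 →
    (nm ρ1 : ℝ) ≤ X ^ B₀ → (nm ρ2 : ℝ) ≤ X ^ B₀ →
    (∀ b, IsPrim b → (s2 i1).ψ b = prin0 ρ1 b) → (∀ b, IsPrim b → (s2 i2).ψ b = prin0 ρ2 b) →
    ∀ a : ι ⊕ κ → Eis, (∀ i, IsPrim (a i)) → ∀ d0 : ℝ,
    d0 ≤ Real.log (s2 i1).Y - Real.log (nm (a (.inr i1))) →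
    d0 ≤ Real.log (s2 i2).Y - Real.log (nm (a (.inr i2))) →
    d0 ≤ Real.log (s2 i1).Y + δ - Real.log (nm (a (.inr i1))) →
    d0 ≤ Real.log (s2 i2).Y - δ - Real.log (nm (a (.inr i2))) →
    ∀ q : Eis, q ≠ 0 → (nm q : ℝ) ≤ X ^ B₀ → ∀ j : Eis, j ≠ 0 → (nm j : ℝ) ≤ X ^ B₀ →
    ∀ θ τ J : ℝ, 12 ≤ J →
    ‖Md (cdf h (zeP (s2 i1) (s2 i2) δ) τ θ s1 s2 s3 q a) j‖ ^ 2 ≤
      C * X ^ ε * ((1 + |(s2 i1).t|) * (1 + |(s2 i2).t|)) ^ 6 *
        Real.exp (5 / 3 * (LY s1 + LY s2 - Real.log (nm (∏ i, a i)))) *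
        min 1 (Real.exp (-d0)) * (1 + |τ|) ^ J := by
  classical
  set B : ℝ := N + B₀ + 1 with hB
  have hN0 : (0 : ℝ) ≤ N := Nat.cast_nonneg N
  have hB0 : 0 ≤ B := by positivity
  obtain ⟨C₁, hC₁, H⟩ := bias_al hpu N hB0 (ε := ε / 2) (by positivity)
  refine ⟨C₁ ^ 2, one_le_pow₀ hC₁, ?_⟩
  intro X hX ι κ _ _ _ _ hcard s1 s2 s3 i1 i2 δ hs h1 h2 h1X h2X hu1 hu2 ρ1 ρ2 hρ1 hρ2 hn1 hn2
    hp1 hp2 a ha d0 hy1 hy2 hy3 hy4 q hq hqX j hj hjX θ τ J hJ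
  have hX1 : (1 : ℝ) ≤ X := by linarith
  have hX0 : (0 : ℝ) < X := by linarith
  have hlX : 0 ≤ Real.log X := Real.log_nonneg hX1
  have hC10 : 0 ≤ C₁ := by linarith
  have hBB : X ^ B₀ ≤ X ^ B := Real.rpow_le_rpow_of_exponent_le hX1 (by rw [hB]; linarith)
  have hapos : ∀ i, (0 : ℝ) < nm (a i) := fun i => by exact_mod_cast nm_pos.2 (ha i).ne_zero
  have ha1 : ∀ i, (1 : ℝ) ≤ nm (a i) := fun i => by exact_mod_cast nm_pos.2 (ha i).ne_zero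
  set F : ι ⊕ κ → Pc := fun i => ht τ (fam θ s1 s2 i) with hF
  have hFOK : ∀ i, (F i).OK := fun i => ht_OK (fam_OK h1 h2 i)
  have hSOK : ∀ i, (chf τ θ s1 s2 a i).OK := fun i => sh_OK (hFOK i) (ha i)
  have hFX : ∀ i, Real.log (F i).Y ≤ Real.log X := by
    rintro (i | i)
    · exact h1X i
    · exact h2X i
  have hlogS : ∀ i, Real.log (chf τ θ s1 s2 a i).Y =
      Real.log (F i).Y - Real.log (nm (a i)) := fun i => by
    show Real.log ((F i).Y / nm (a i)) = _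
    rw [Real.log_div (hFOK i).Y0.ne' (hapos i).ne']
  have hsumv : ∑ i, Real.log (nm (a i)) = Real.log (nm (∏ i, a i)) := by
    rw [nm_prodI]
    push_cast
    rw [Real.log_prod fun i _ => (hapos i).ne']
  have hLYF : ∑ i, Real.log (F i).Y = LY s1 + LY s2 := LY_fam
  have hsum : ∑ i, Real.log (chf τ θ s1 s2 a i).Y =
      LY s1 + LY s2 - Real.log (nm (∏ i, a i)) := by
    rw [Finset.sum_congr rfl fun i _ => hlogS i, Finset.sum_sub_distrib, hLYF, hsumv]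
  have main := H (ι ⊕ κ) (by rw [Fintype.card_sum]; exact hcard) X hX (chf τ θ s1 s2 a)
    (chf τ θ s1 s3 a) (.inr i1) (.inr i2) δ (shf_chf hs τ θ s1 a) hSOK
    (by
      show (s2 i1).u.sub _ = .one
      rw [hu1]
      unfold HP842.UT.sub
      simp)
    (by
      show (s2 i2).u.sub _ = .one
      rw [hu2]
      unfold HP842.UT.sub
      simp)
    (by
      have h3 : ∀ i ∈ (Finset.univ.erase (Sum.inr i1 : ι ⊕ κ)).erase (.inr i2),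
          Real.log (chf τ θ s1 s2 a i).Y ≤ Real.log X := fun i _ => by
        rw [hlogS i]
        linarith [hFX i, Real.log_nonneg (ha1 i)]
      refine (Finset.sum_le_card_nsmul _ _ _ h3).trans ?_
      rw [nsmul_eq_mul]
      refine mul_le_mul_of_nonneg_right ?_ hlX
      have h4 : ((Finset.univ.erase (Sum.inr i1 : ι ⊕ κ)).erase (.inr i2)).card ≤ N := by
        refine (Finset.card_le_univ _).trans ?_
        rw [Fintype.card_sum]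
        exact hcard
      have h5 : (((Finset.univ.erase (Sum.inr i1 : ι ⊕ κ)).erase (.inr i2)).card : ℝ) ≤ N := by
        exact_mod_cast h4
      rw [hB]
      linarith)
    ρ1 ρ2 hρ1 hρ2 (hn1.trans hBB) (hn2.trans hBB) hp1 hp2 j hj (hjX.trans hBB) d0
    (by rw [hlogS]; exact hy1)
    (by rw [hlogS]; exact hy2)
    (by
      rw [hlogS]
      have h3 : (F (.inr i1)).Y = (s2 i1).Y := rfl
      rw [h3]
      linarith)
    (by
      rw [hlogS]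
      have h3 : (F (.inr i2)).Y = (s2 i2).Y := rfl
      rw [h3]
      linarith)
    (by
      have h3 : d0 ≤ Real.log X := by
        have h4 := h2X i1
        have h5 := Real.log_nonneg (ha1 (.inr i1))
        linarith
      have h4 : Real.log X ≤ B * Real.log X :=
        le_mul_of_one_le_left hlX (by rw [hB]; linarith)
      linarith)
    q 1 hq (hqX.trans hBB) isPrim_one
    (by rw [nm_one]; push_cast; exact Real.one_le_rpow hX1 hB0) 0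
  rw [tws_one] at main
  rw [cdf_eq]
  have ht1 : (chf τ θ s1 s2 a (.inr i1)).t = (s2 i1).t + τ := rfl
  have ht2 : (chf τ θ s1 s2 a (.inr i2)).t = (s2 i2).t + τ := rfl
  rw [ht1, ht2, hsum, add_zero, add_zero] at main
  set L := LY s1 + LY s2 - Real.log (nm (∏ i, a i)) with hL
  have hMg : Mg d0 1 ^ 2 = min 1 (Real.exp (-d0)) := by
    rw [Mg_sq, nm_one]; push_cast; rw [one_mul]
  have hE : ((Real.exp L / nm (1 : Eis)) ^ (5 / 6 : ℝ)) ^ 2 = Real.exp (5 / 3 * L) := by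
    rw [nm_one, Nat.cast_one, div_one, ← Real.exp_mul, ← Real.exp_nat_mul]
    congr 1
    push_cast
    ring
  have hX2 : (X ^ (ε / 2)) ^ 2 = X ^ ε := by
    rw [← Real.rpow_natCast, ← Real.rpow_mul hX0.le]; congr 1; push_cast; ring
  have hT : ((1 + |(s2 i1).t + τ|) * (1 + |(s2 i2).t + τ|)) ^ 6 ≤
      ((1 + |(s2 i1).t|) * (1 + |(s2 i2).t|)) ^ 6 * (1 + |τ|) ^ J := by
    have h3 := pow_le_pow_left₀ (by positivity) (ht_le (s2 i1).t (s2 i2).t τ) 6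
    refine h3.trans ?_
    rw [mul_pow, ← pow_mul]
    refine mul_le_mul_of_nonneg_left ?_ (by positivity)
    rw [← Real.rpow_natCast]
    refine Real.rpow_le_rpow_of_exponent_le (by linarith [abs_nonneg τ]) ?_
    push_cast
    linarith
  have hm0 : 0 ≤ min 1 (Real.exp (-d0)) := by positivity
  refine (pow_le_pow_left₀ (norm_nonneg _) main 2).trans ?_
  calc (C₁ * X ^ (ε / 2) * ((1 + |(s2 i1).t + τ|) * (1 + |(s2 i2).t + τ|)) ^ 3 *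
          ((Real.exp L / nm (1 : Eis)) ^ (5 / 6 : ℝ) * Mg d0 1)) ^ 2
      = C₁ ^ 2 * (X ^ (ε / 2)) ^ 2 * ((1 + |(s2 i1).t + τ|) * (1 + |(s2 i2).t + τ|)) ^ 6 *
          (((Real.exp L / nm (1 : Eis)) ^ (5 / 6 : ℝ)) ^ 2 * Mg d0 1 ^ 2) := by ring
    _ ≤ C₁ ^ 2 * X ^ ε * (((1 + |(s2 i1).t|) * (1 + |(s2 i2).t|)) ^ 6 * (1 + |τ|) ^ J) *
          (Real.exp (5 / 3 * L) * min 1 (Real.exp (-d0))) := by
        rw [hX2, hE, hMg]
        gcongr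
    _ = _ := by ring

/-- **(HBc)** : `d0 = s0 - log nm q`, `a i ∣ q` -/
theorem hbc {h : ℝ → ℝ} {c₀ : ℝ} (hpu : PU h c₀) (N : ℕ) {B₀ : ℝ} (hB₀ : 0 ≤ B₀) {ε : ℝ}
    (hε : 0 < ε) : ∃ C : ℝ, 1 ≤ C ∧ ∀ X : ℝ, 3 ≤ X →
    ∀ (ι κ : Type) [Fintype ι] [Fintype κ] [DecidableEq ι] [DecidableEq κ],
    Fintype.card ι + Fintype.card κ ≤ N → ∀ (s1 : ι → Pc) (s2 s3 : κ → Pc) (i1 i2 : κ) (δ : ℝ),
    Shf s2 s3 i1 i2 δ → (∀ i, (s1 i).OK) → (∀ j, (s2 j).OK) →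
    (∀ i, Real.log (s1 i).Y ≤ Real.log X) → (∀ j, Real.log (s2 j).Y ≤ Real.log X) →
    (s2 i1).u = .one → (s2 i2).u = .one → ∀ ρ1 ρ2 : Eis, ρ1 ≠ 0 → ρ2 ≠ 0 →
    (nm ρ1 : ℝ) ≤ X ^ B₀ → (nm ρ2 : ℝ) ≤ X ^ B₀ →
    (∀ b, IsPrim b → (s2 i1).ψ b = prin0 ρ1 b) → (∀ b, IsPrim b → (s2 i2).ψ b = prin0 ρ2 b) →
    ∀ s0 : ℝ, s0 ≤ Real.log (s2 i1).Y → s0 ≤ Real.log (s2 i2).Y →
    s0 ≤ Real.log (s2 i1).Y + δ → s0 ≤ Real.log (s2 i2).Y - δ →
    ∀ g q : Eis, IsPrim g → IsPrim q → (nm q : ℝ) ≤ X ^ B₀ →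
    ∀ a : ι ⊕ κ → Eis, (∀ i, IsPrim (a i)) → ∏ i, a i = g * q → (∀ i, a i ∣ q) →
    ∀ j : Eis, j ≠ 0 → (nm j : ℝ) ≤ X ^ B₀ → ∀ θ τ J : ℝ, 12 ≤ J →
    ‖Md (cdf h (zeP (s2 i1) (s2 i2) δ) τ θ s1 s2 s3 q a) j‖ ^ 2 ≤
      C * X ^ ε * ((1 + |(s2 i1).t|) * (1 + |(s2 i2).t|)) ^ 6 *
        Real.exp (5 / 3 * (LY s1 + LY s2 - Real.log (nm g) - Real.log (nm q))) *
        min 1 (nm q * Real.exp (-s0)) * (1 + |τ|) ^ J := by
  obtain ⟨C, hC, H⟩ := hbc_gen hpu N hB₀ hε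
  refine ⟨C, hC, ?_⟩
  intro X hX ι κ _ _ _ _ hcard s1 s2 s3 i1 i2 δ hs h1 h2 h1X h2X hu1 hu2 ρ1 ρ2 hρ1 hρ2 hn1 hn2
    hp1 hp2 s0 hy1 hy2 hy3 hy4 g q hg hq hqX a ha hap hdv j hj hjX θ τ J hJ
  have hq0 : (0 : ℝ) < nm q := by exact_mod_cast nm_pos.2 hq.ne_zero
  have hg0 : (0 : ℝ) < nm g := by exact_mod_cast nm_pos.2 hg.ne_zero
  have hapos : ∀ i, (0 : ℝ) < nm (a i) := fun i => by exact_mod_cast nm_pos.2 (ha i).ne_zero
  have hle : ∀ i, Real.log (nm (a i)) ≤ Real.log (nm q) := fun i =>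
    Real.log_le_log (hapos i) (by exact_mod_cast Div277.nm_le_of_dvd hq.ne_zero (hdv i))
  have l1 := hle (.inr i1)
  have l2 := hle (.inr i2)
  have main := H X hX ι κ hcard s1 s2 s3 i1 i2 δ hs h1 h2 h1X h2X hu1 hu2 ρ1 ρ2 hρ1 hρ2 hn1 hn2
    hp1 hp2 a ha (s0 - Real.log (nm q)) (by linarith) (by linarith) (by linarith) (by linarith)
    q hq.ne_zero hqX j hj hjX θ τ J hJ
  have e1 : Real.log (nm (∏ i, a i)) = Real.log (nm g) + Real.log (nm q) := by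
    rw [hap, nm_mul]
    push_cast
    rw [Real.log_mul hg0.ne' hq0.ne']
  have e2 : Real.exp (-(s0 - Real.log (nm q))) = nm q * Real.exp (-s0) := by
    rw [show -(s0 - Real.log (nm q)) = Real.log (nm q) + -s0 by ring, Real.exp_add,
      Real.exp_log hq0]
  rw [e1, e2, ← sub_sub] at main
  exact main

end Crest.Agent.R017.HBc408
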