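import Crest.Agent.R017.P1f_54
import Crest.Agent.R017.SSb_54

/-!
# Row 17, R8/P1 at list level, part 3 (helper54): the structured function over the small tuples

* `err_mulT`, `err_leT`, `err_listT` : the same as `err_mul`, `err_le`, `err_list` for
  `SST T f E0 J om` : the constant is `c` on `T` and `0` off `T`
-/

set_option autoImplicit false

noncomputable section

open Finset
open scoped ComplexConjugate

namespace Crest.Agent.R017.P1h54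

open Crest.Agent.R012 Crest.Agent.R012.Eis Crest.Agent.R012.Div277
open Crest.Agent.R012.Mob705 hiding pb mem_pb
open Crest.Agent.R012.LS2 (S mem_S)
open Crest.Agent.R017.CM106 Crest.Agent.R017.C70
open Crest.Agent.R017.StC828 (SqS cvc)
open Crest.Agent.R017.StD828 (ln Tm)
open Crest.Agent.R017.E2440 (TE StE)
open Crest.Agent.R017.E3A164 (SteT)
open Crest.Agent.R017.E5k54 (PT alb SS)
open Crest.Agent.R017.P1e54 Crest.Agent.R017.P1f54 Crest.Agent.R017.SSb54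
open Crest.Agent.R017.HP842 (Pc pc al cv Tu mem_Tu scS sc' sqc Th)
open Crest.Agent.R017.Rough381 (sh)
open Crest.Agent.R017.End699 (prin0)

variable {ι κ : Type*} [Fintype ι] [Fintype κ]

open Classical in
/-- the constant -/
def cT (T : Finset (κ → Eis)) (c : ℂ) (β : κ → Eis) : ℂ := if β ∈ T then c else 0

lemma cT_mem {T : Finset (κ → Eis)} {c : ℂ} {β : κ → Eis} (h : β ∈ T) : cT T c β = c := if_pos h

lemma cT_not {T : Finset (κ → Eis)} {c : ℂ} {β : κ → Eis} (h : β ∉ T) : cT T c β = 0 := if_neg h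

theorem err_mulT {f : κ → Eis → ℂ} {fa : ι → Eis → ℂ} {Y : ℕ} {Zf : κ → ℝ} {Za : ι → ℝ} {Z : ℝ}
    (hf : ∀ i m, f i m ≠ 0 → IsPrim m ∧ nm m ≤ Y) (hfa : ∀ i m, fa i m ≠ 0 → IsPrim m ∧ nm m ≤ Y)
    (hf' : ∀ i m, f i m ≠ 0 → IsPrim m ∧ (nm m : ℝ) ≤ Zf i)
    (hfa' : ∀ i m, fa i m ≠ 0 → IsPrim m ∧ (nm m : ℝ) ≤ Za i) (hZ : ∏ i, Za i ≤ Z) (hZ0 : 0 ≤ Z)
    {D Y₀ Y₁ D' Y₀' Y₁' : ℝ} (hD : 0 ≤ D) (h0 : Y₀ < 1) (hY1 : 0 ≤ Y₁) (h1 : Y₁ ≤ D ^ 2)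
    (hD' : 0 ≤ D') (h0' : Y₀' < 1) (h1' : Y₁' ≤ D' ^ 2) (hYY : Y₁ * Z ^ 2 ≤ Y₁') {o : Eis → ℂ}
    (ho : ∀ z, o z ≠ 0 → (nm z : ℝ) ≤ Y₁) {E0 : ℝ} (hE : 0 ≤ E0)
    {T : Finset (κ → Eis)} (hT : T ⊆ PT κ Y) (c : ℂ) (k : Eis) :
    (∏ i, CS (fa i) k) * (∏ j, CS (f j) k - c * SST T f E0 (JW D Y₀ Y₁) (fun x => o (ln x)) k) =
      ∑ β ∈ PT κ Y, ∑ γ ∈ PT ι Y, ∑ g ∈ S Z, sy k (∏ j, β j) * sy k (∏ i, γ i) *
        (sy k g * (sy k g * (CS (rho Z f fa β γ g) k -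
          cT T c β * StE E0 (JW D Y₀ Y₁) (fun x => o (ln x)) (rho Z f fa β γ g) k) -
          cT T c β * SteT (JW D' Y₀' Y₁') (fun _ => 1) (E0 * Z)
            (Tm E0 Z o (alb fa γ) (alb f β) g) k)) := by
  classical
  rw [SSb54.prod_subT hf hT]
  have e1 : ∏ i, CS (fa i) k = ∑ γ ∈ PT ι Y, sy k (∏ i, γ i) * CS (alb fa γ) k := by
    rw [E554.prod_CS hfa]; rfl
  rw [e1, Finset.sum_mul_sum, Finset.sum_comm]
  refine sum_congr rfl fun β hβ => sum_congr rfl fun γ hγ => ?_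
  have h2 := StD828.mul_hyb hZ0 (η := alb fa γ) (fun a ha => alb_mem_S hfa' (mem_PT hγ) hZ hZ0 ha)
    (FS_alb hf' (mem_PT hβ)) (SqS_alb f β) k hD h0 hY1 h1 hD' h0' h1' hYY ho hE (cT T c β)
  calc sy k (∏ i, γ i) * CS (alb fa γ) k * (sy k (∏ j, β j) * (CS (alb f β) k -
        cT T c β * StE E0 (JW D Y₀ Y₁) (fun x => o (ln x)) (alb f β) k))
      = sy k (∏ j, β j) * sy k (∏ i, γ i) * (CS (alb fa γ) k * (CS (alb f β) k -
        cT T c β * StE E0 (JW D Y₀ Y₁) (fun x => o (ln x)) (alb f β) k)) := by ring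
    _ = _ := by
        rw [h2, Finset.mul_sum]
        rfl

/-- **the second moment of the amplified error** -/
theorem err_leT (ι κ : Type*) [Fintype ι] [Fintype κ] {δ : ℝ} (hδ : 0 < δ) :
    ∃ C : ℝ, 0 ≤ C ∧ ∀ {f : κ → Eis → ℂ} {fa : ι → Eis → ℂ} {Y : ℕ} {Zf : κ → ℝ} {Za : ι → ℝ}
      {Z : ℝ}, (∀ i m, f i m ≠ 0 → IsPrim m ∧ nm m ≤ Y) →
      (∀ i m, fa i m ≠ 0 → IsPrim m ∧ nm m ≤ Y) →
      (∀ i m, f i m ≠ 0 → IsPrim m ∧ (nm m : ℝ) ≤ Zf i) →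
      (∀ i m, fa i m ≠ 0 → IsPrim m ∧ (nm m : ℝ) ≤ Za i) → ∏ i, Za i ≤ Z → 0 ≤ Z →
      ∀ {D Y₀ Y₁ D' Y₀' Y₁' : ℝ}, 0 ≤ D → Y₀ < 1 → 0 ≤ Y₁ → Y₁ ≤ D ^ 2 → 0 ≤ D' → Y₀' < 1 →
      Y₁' ≤ D' ^ 2 → Y₁ * Z ^ 2 ≤ Y₁' → ∀ {o : Eis → ℂ}, (∀ z, o z ≠ 0 → (nm z : ℝ) ≤ Y₁) →
      ∀ {E0 : ℝ}, 0 ≤ E0 → ∀ {T : Finset (κ → Eis)}, T ⊆ PT κ Y →
      ∀ (c : ℂ) {u : Eis → ℝ}, (∀ k, 0 ≤ u k) →
      (Function.support u).Finite →
      M2 u (fun k => (∏ i, CS (fa i) k) *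
        (∏ j, CS (f j) k - c * SST T f E0 (JW D Y₀ Y₁) (fun x => o (ln x)) k)) ≤
      C * ∑ β ∈ PT κ Y, ∑ γ ∈ PT ι Y, ∑ g ∈ S Z, (wt δ β γ g)⁻¹ *
        (M2 u (fun k => CS (rho Z f fa β γ g) k -
            cT T c β * StE E0 (JW D Y₀ Y₁) (fun x => o (ln x)) (rho Z f fa β γ g) k) +
          ‖cT T c β‖ ^ 2 * M2 u (SteT (JW D' Y₀' Y₁') (fun _ => 1) (E0 * Z)
            (Tm E0 Z o (alb fa γ) (alb f β) g))) := by
  classical
  obtain ⟨C, hC, hw⟩ := sum_wt_le ι κ hδ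
  refine ⟨C * 2, by positivity, ?_⟩
  intro f fa Y Zf Za Z hf hfa hf' hfa' hZ hZ0 D Y₀ Y₁ D' Y₀' Y₁' hD h0 hY1 h1 hD' h0' h1' hYY o ho
    E0 hE T hT c u hu0 hu
  set U : Finset ((κ → Eis) × (ι → Eis) × Eis) := PT κ Y ×ˢ (PT ι Y ×ˢ S Z) with hU
  set x : (κ → Eis) × (ι → Eis) × Eis → Eis → ℂ := fun t k =>
    sy k (∏ j, t.1 j) * sy k (∏ i, t.2.1 i) *
        (sy k t.2.2 * (sy k t.2.2 * (CS (rho Z f fa t.1 t.2.1 t.2.2) k -
          cT T c t.1 * StE E0 (JW D Y₀ Y₁) (fun x => o (ln x)) (rho Z f fa t.1 t.2.1 t.2.2) k) -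
          cT T c t.1 * SteT (JW D' Y₀' Y₁') (fun _ => 1) (E0 * Z)
            (Tm E0 Z o (alb fa t.2.1) (alb f t.1) t.2.2) k)) with hx
  have e1 : (fun k => (∏ i, CS (fa i) k) *
        (∏ j, CS (f j) k - c * SST T f E0 (JW D Y₀ Y₁) (fun x => o (ln x)) k)) =
      fun k => ∑ t ∈ U, x t k := by
    funext k
    rw [err_mulT hf hfa hf' hfa' hZ hZ0 hD h0 hY1 h1 hD' h0' h1' hYY ho hE hT c k, hU, sum_product]
    refine sum_congr rfl fun β _ => ?_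
    rw [sum_product]
  have hW : ∀ t ∈ U, 0 < wt δ t.1 t.2.1 t.2.2 := by
    intro t ht
    rw [hU, mem_product, mem_product] at ht
    exact wt_pos (mem_PT ht.1) (mem_PT ht.2.1) ((mem_S hZ0).1 ht.2.2).2.1
  rw [e1]
  refine (M2_sum_le hu0 hu U x (fun t => wt δ t.1 t.2.1 t.2.2) hW).trans ?_
  have hsum : ∑ t ∈ U, wt δ t.1 t.2.1 t.2.2 ≤ C := by
    rw [hU, sum_product]
    simp_rw [sum_product]
    exact hw Y Z
  have key : ∀ t ∈ U, (wt δ t.1 t.2.1 t.2.2)⁻¹ * M2 u (x t) ≤ 2 * ((wt δ t.1 t.2.1 t.2.2)⁻¹ *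
      (M2 u (fun k => CS (rho Z f fa t.1 t.2.1 t.2.2) k -
            cT T c t.1 * StE E0 (JW D Y₀ Y₁) (fun x => o (ln x)) (rho Z f fa t.1 t.2.1 t.2.2) k) +
          ‖cT T c t.1‖ ^ 2 * M2 u (SteT (JW D' Y₀' Y₁') (fun _ => 1) (E0 * Z)
            (Tm E0 Z o (alb fa t.2.1) (alb f t.1) t.2.2)))) := by
    intro t ht
    have ht' := ht
    rw [hU, mem_product, mem_product] at ht'
    have g1 : IsPrim t.2.2 := ((mem_S hZ0).1 ht'.2.2).2.1
    have h2 : M2 u (x t) ≤ M2 u (fun k => (sy k t.2.2 * (CS (rho Z f fa t.1 t.2.1 t.2.2) k -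
          cT T c t.1 * StE E0 (JW D Y₀ Y₁) (fun x => o (ln x)) (rho Z f fa t.1 t.2.1 t.2.2) k)) -
          cT T c t.1 * SteT (JW D' Y₀' Y₁') (fun _ => 1) (E0 * Z)
            (Tm E0 Z o (alb fa t.2.1) (alb f t.1) t.2.2) k) := by
      refine M2_mono hu0 hu fun k => ?_
      rw [hx]
      simp only [norm_mul]
      have s1 := norm_sy_le k (E554.isPrim_prod fun i (_ : i ∈ univ) => mem_PT ht'.1 i)
      have s2 := norm_sy_le k (E554.isPrim_prod fun i (_ : i ∈ univ) => mem_PT ht'.2.1 i)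
      have s3 := norm_sy_le k g1
      have s12 : ‖sy k (∏ j, t.1 j)‖ * ‖sy k (∏ i, t.2.1 i)‖ ≤ 1 :=
        mul_le_one₀ s1 (norm_nonneg _) s2
      have s123 : ‖sy k (∏ j, t.1 j)‖ * ‖sy k (∏ i, t.2.1 i)‖ * ‖sy k t.2.2‖ ≤ 1 :=
        mul_le_one₀ s12 (norm_nonneg _) s3
      rw [← mul_assoc]
      exact mul_le_of_le_one_left (norm_nonneg _) s123
    have h3 := M2_sub_le hu0 hu (fun k => sy k t.2.2 * (CS (rho Z f fa t.1 t.2.1 t.2.2) k -
          cT T c t.1 * StE E0 (JW D Y₀ Y₁) (fun x => o (ln x)) (rho Z f fa t.1 t.2.1 t.2.2) k))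
      (SteT (JW D' Y₀' Y₁') (fun _ => 1) (E0 * Z)
            (Tm E0 Z o (alb fa t.2.1) (alb f t.1) t.2.2)) (cT T c t.1)
    have h4 : M2 u (fun k => sy k t.2.2 * (CS (rho Z f fa t.1 t.2.1 t.2.2) k -
          cT T c t.1 * StE E0 (JW D Y₀ Y₁) (fun x => o (ln x)) (rho Z f fa t.1 t.2.1 t.2.2) k)) ≤
        M2 u (fun k => CS (rho Z f fa t.1 t.2.1 t.2.2) k -
          cT T c t.1 * StE E0 (JW D Y₀ Y₁) (fun x => o (ln x)) (rho Z f fa t.1 t.2.1 t.2.2) k) := by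
      refine M2_mono hu0 hu fun k => ?_
      rw [norm_mul]
      exact mul_le_of_le_one_left (norm_nonneg _) (norm_sy_le k g1)
    have hWi : 0 ≤ (wt δ t.1 t.2.1 t.2.2)⁻¹ := inv_nonneg.2 (hW t ht).le
    have h5 := mul_le_mul_of_nonneg_left ((h2.trans h3).trans
      (mul_le_mul_of_nonneg_left (add_le_add_left h4 _) (by norm_num : (0 : ℝ) ≤ 2))) hWi
    refine h5.trans (le_of_eq ?_)
    ring
  have hnn : 0 ≤ ∑ t ∈ U, (wt δ t.1 t.2.1 t.2.2)⁻¹ * M2 u (x t) :=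
    sum_nonneg fun t ht => mul_nonneg (inv_nonneg.2 (hW t ht).le) (M2_nonneg hu0 _)
  refine (mul_le_mul hsum (sum_le_sum key) hnn hC).trans (le_of_eq ?_)
  rw [← mul_sum, ← mul_assoc, hU, sum_product]
  congr 1
  refine sum_congr rfl fun β _ => ?_
  rw [sum_product]

set_option maxHeartbeats 1000000 in
/-- **the second moment of the amplified error, list form, small tuples**: if the errors of all
children and the mismatches with `β ∈ T`, and the plain second moments of the children with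
`β ∉ T`, are `≤ B / (N(γ) N(β) N(g)²)`, then the total is `≤ C X^ε B`. -/
theorem err_listT (ι κ : Type*) [Fintype ι] [Fintype κ] [DecidableEq ι] [DecidableEq κ]
    {ε : ℝ} (hε : 0 < ε) : ∃ C : ℝ, 0 ≤ C ∧ ∀ (X : ℝ), 1 ≤ X → ∀ {h : ℝ → ℝ} {R : ℝ},
      (∀ u, FE47.cx h u ≠ 0 → |u| ≤ R) → ∀ {s : ι ⊕ κ → Pc}, (∀ i, (s i).OK) →
      ∀ {Y : ℕ} {Z : ℝ}, (Y : ℝ) ≤ X → 0 ≤ Z → Z ≤ X →
      (∀ i m, pc h (s i) m ≠ 0 → nm m ≤ Y) →
      ∏ i : ι, ((s (.inl i)).Y * Real.exp R) ≤ Z →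
      ∀ {D Y₀ Y₁ D' Y₀' Y₁' : ℝ}, 0 ≤ D → Y₀ < 1 → 0 ≤ Y₁ → Y₁ ≤ D ^ 2 → 0 ≤ D' → Y₀' < 1 →
      Y₁' ≤ D' ^ 2 → Y₁ * Z ^ 2 ≤ Y₁' → ∀ {o : Eis → ℂ}, (∀ z, o z ≠ 0 → (nm z : ℝ) ≤ Y₁) →
      ∀ {E0 : ℝ}, 0 ≤ E0 → ∀ {T : Finset (κ → Eis)}, T ⊆ PT κ Y → ∀ (c : ℂ) {u : Eis → ℝ},
      (∀ k, 0 ≤ u k) → (Function.support u).Finite → ∀ {B : ℝ}, 0 ≤ B →
      (∀ (γ : ι → Eis) (β : κ → Eis) (g : Eis), γ ∈ PT ι Y → β ∈ T → g ∈ S Z →
        ∀ x ∈ Tu ι g, ∀ y ∈ Tu κ g,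
        M2 u (Er c E0 (JW D Y₀ Y₁) (fun x => o (ln x)) (sqc 1 (al h (chS s γ β g x y)))) ≤
          B * sf γ β g) →
      (∀ (γ : ι → Eis) (β : κ → Eis) (g : Eis), γ ∈ PT ι Y → β ∈ PT κ Y → β ∉ T → g ∈ S Z →
        ∀ x ∈ Tu ι g, ∀ y ∈ Tu κ g,
        M2 u (fun k => CS (sqc 1 (al h (chS s γ β g x y))) k) ≤ B * sf γ β g) →
      (∀ (γ : ι → Eis) (β : κ → Eis) (g : Eis), γ ∈ PT ι Y → β ∈ T → g ∈ S Z →
        M2 u (SteT (JW D' Y₀' Y₁') (fun _ => 1) (E0 * Z)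
          (Tm E0 Z o (alb (fun i => pc h (s (.inl i))) γ) (alb (fun j => pc h (s (.inr j))) β) g)) ≤
          B * sf γ β g) →
      M2 u (fun k => (∏ i, CS (pc h (s (.inl i))) k) * (∏ j, CS (pc h (s (.inr j))) k -
        c * SST T (fun j => pc h (s (.inr j))) E0 (JW D Y₀ Y₁) (fun x => o (ln x)) k)) ≤
      C * X ^ ε * ((1 + ‖c‖ ^ 2) * B) := by
  classical
  set n := Fintype.card ι + Fintype.card κ + 1 with hn
  have hn0 : (0 : ℝ) < n := by positivity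
  set δ := ε / (4 * n) with hδd
  have hδ : 0 < δ := by positivity
  obtain ⟨C1, hC1, h1⟩ := err_leT ι κ hδ
  obtain ⟨C2, hC2, h2⟩ := sum_wt_le ι κ hδ
  obtain ⟨C3, hC31, h3⟩ := Div277.tau_le_rpow (ε := δ) hδ
  have hC3 : 0 ≤ C3 := by linarith
  refine ⟨C1 * (C2 * (1 + (C3 ^ Fintype.card ι * C3 ^ Fintype.card κ) ^ 2)), by positivity, ?_⟩
  intro X hX h R hR s hs Y Z hYX hZ0 hZX hY hZ D Y₀ Y₁ D' Y₀' Y₁' hD h0 hY1 h1' hD' h0' h1'' hYY
    o ho E0 hE T hT c u hu0 hu B hB hch hcl hmm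
  have hprim : ∀ i m, pc h (s i) m ≠ 0 → IsPrim m := by
    intro i m hm
    by_contra h0
    apply hm
    unfold pc
    rw [if_neg h0]
  have hsupp : ∀ i m, pc h (s i) m ≠ 0 → IsPrim m ∧ (nm m : ℝ) ≤ (s i).Y * Real.exp R := by
    intro i m hm
    refine ⟨hprim i m hm, ?_⟩
    have hX' : (s i).Y * Real.exp R ≤ (⌈(s i).Y * Real.exp R⌉₊ : ℝ) := Nat.le_ceil _
    have h5 := hm
    unfold pc at h5
    rw [if_pos (hprim i m hm)] at h5
    have h6 : HSep813.gw h (s i).Y (s i).t m ≠ 0 := right_ne_zero_of_mul h5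
    unfold HSep813.gw at h6
    have h7 := hR _ (right_ne_zero_of_mul h6)
    have h8 : (0 : ℝ) < nm m := by exact_mod_cast nm_pos.2 (hprim i m hm).ne_zero
    have h9 : Real.log (nm m) ≤ Real.log (s i).Y + R := by
      have := (abs_le.1 h7).2
      linarith
    calc (nm m : ℝ) = Real.exp (Real.log (nm m)) := (Real.exp_log h8).symm
      _ ≤ Real.exp (Real.log (s i).Y + R) := Real.exp_le_exp.2 h9
      _ = (s i).Y * Real.exp R := by rw [Real.exp_add, Real.exp_log (hs i).Y0]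
  have key := h1 (f := fun j => pc h (s (.inr j))) (fa := fun i => pc h (s (.inl i))) (Y := Y)
    (fun i m hm => ⟨hprim _ m hm, hY _ m hm⟩) (fun i m hm => ⟨hprim _ m hm, hY _ m hm⟩)
    (fun i m hm => hsupp (.inr i) m hm) (fun i m hm => hsupp (.inl i) m hm) hZ hZ0 hD h0 hY1 h1'
    hD' h0' h1'' hYY ho hE hT c hu0 hu
  refine key.trans ?_
  rw [mul_assoc C1, mul_assoc C1]
  refine mul_le_mul_of_nonneg_left ?_ hC1
  have hXp : (0 : ℝ) < X := by linarith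
  have hterm : ∀ β ∈ PT κ Y, ∀ γ ∈ PT ι Y, ∀ g ∈ S Z, (wt δ β γ g)⁻¹ *
      (M2 u (fun k => CS (rho Z (fun j => pc h (s (.inr j))) (fun i => pc h (s (.inl i))) β γ g) k -
            cT T c β * StE E0 (JW D Y₀ Y₁) (fun x => o (ln x))
              (rho Z (fun j => pc h (s (.inr j))) (fun i => pc h (s (.inl i))) β γ g) k) +
          ‖cT T c β‖ ^ 2 * M2 u (SteT (JW D' Y₀' Y₁') (fun _ => 1) (E0 * Z)
            (Tm E0 Z o (alb (fun i => pc h (s (.inl i))) γ)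
              (alb (fun j => pc h (s (.inr j))) β) g))) ≤
      wt δ β γ g * ((1 + (C3 ^ Fintype.card ι * C3 ^ Fintype.card κ) ^ 2) *
        (X ^ ε * ((1 + ‖c‖ ^ 2) * B))) := by
    intro β hβ γ hγ g hg
    obtain ⟨g1, g2, g3⟩ := (mem_S hZ0).1 hg
    have pγ := mem_PT hγ
    have pβ := mem_PT hβ
    have hw := wt_pos (δ := δ) pβ pγ g2
    have hsfn : 0 ≤ sf γ β g := by unfold sf; positivity
    have hBs : 0 ≤ B * sf γ β g := mul_nonneg hB hsfn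
    have hsup : ∀ a, sub (alb (fun i => pc h (s (.inl i))) γ) g a ≠ 0 → a ∈ S Z := by
      intro a ha
      have h5 := alb_mem_S (f := fun i => pc h (s (.inl i))) (β := γ)
        (fun i m hm => hsupp (.inl i) m hm) pγ hZ hZ0 (n := g * a) ha
      obtain ⟨b1, b2, b3⟩ := (mem_S hZ0).1 h5
      refine (mem_S hZ0).2 ⟨le_trans ?_ b1, b2.of_mul_left g2, b3.of_mul_right⟩
      rw [nm_mul]
      push_cast
      exact le_mul_of_one_le_left (Nat.cast_nonneg _) (one_le_nm g2)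
    have hr := err_rho_le hR hs pγ pβ g2 g3 hZ0 hsup (cT T c β) E0 (J := JW D Y₀ Y₁)
      (fun x hx => ((okJ_JW D Y₀ Y₁).prim x hx).ne_zero) (fun x => o (ln x)) hu0 hu hBs
      (fun x hx y hy => by
        by_cases hβT : β ∈ T
        · rw [cT_mem hβT]
          exact hch γ β g hγ hβT hg x hx y hy
        · rw [cT_not hβT]
          refine le_trans (le_of_eq ?_) (hcl γ β g hγ hβ hβT hg x hx y hy)
          congr 1
          funext k
          unfold Er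
          rw [zero_mul, sub_zero])
    have hm : ‖cT T c β‖ ^ 2 * M2 u (SteT (JW D' Y₀' Y₁') (fun _ => 1) (E0 * Z)
            (Tm E0 Z o (alb (fun i => pc h (s (.inl i))) γ)
              (alb (fun j => pc h (s (.inr j))) β) g)) ≤ ‖c‖ ^ 2 * (B * sf γ β g) := by
      by_cases hβT : β ∈ T
      · rw [cT_mem hβT]
        exact mul_le_mul_of_nonneg_left (hmm γ β g hγ hβT hg) (sq_nonneg _)
      · rw [cT_not hβT, norm_zero]
        have : (0 : ℝ) ^ 2 * M2 u (SteT (JW D' Y₀' Y₁') (fun _ => 1) (E0 * Z)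
            (Tm E0 Z o (alb (fun i => pc h (s (.inl i))) γ)
              (alb (fun j => pc h (s (.inr j))) β) g)) = 0 := by ring
        rw [this]
        positivity
    have hτ : (tau g : ℝ) ≤ C3 * (nm g : ℝ) ^ δ := h3 g g2.ne_zero
    have hng : (1 : ℝ) ≤ nm g := one_le_nm g2
    have hngX : (nm g : ℝ) ≤ X := g1.trans hZX
    have hgδ : (nm g : ℝ) ^ δ ≤ X ^ δ := Real.rpow_le_rpow (Nat.cast_nonneg _) hngX hδ.le
    have hτ2 : (tau g : ℝ) ^ Fintype.card ι * (tau g : ℝ) ^ Fintype.card κ ≤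
        (C3 ^ Fintype.card ι * C3 ^ Fintype.card κ) * X ^ (δ * n) := by
      have h5 : (tau g : ℝ) ≤ C3 * X ^ δ := hτ.trans (mul_le_mul_of_nonneg_left hgδ hC3)
      have h6 : (1 : ℝ) ≤ X ^ δ := Real.one_le_rpow hX hδ.le
      calc (tau g : ℝ) ^ Fintype.card ι * (tau g : ℝ) ^ Fintype.card κ
          ≤ (C3 * X ^ δ) ^ Fintype.card ι * (C3 * X ^ δ) ^ Fintype.card κ :=
            mul_le_mul (pow_le_pow_left₀ (Nat.cast_nonneg _) h5 _)
              (pow_le_pow_left₀ (Nat.cast_nonneg _) h5 _) (by positivity) (by positivity)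
        _ = (C3 ^ Fintype.card ι * C3 ^ Fintype.card κ) *
              (X ^ δ) ^ (Fintype.card ι + Fintype.card κ) := by
            rw [mul_pow, mul_pow, pow_add]; ring
        _ ≤ (C3 ^ Fintype.card ι * C3 ^ Fintype.card κ) * (X ^ δ) ^ n :=
            mul_le_mul_of_nonneg_left (pow_le_pow_right₀ h6 (by omega)) (by positivity)
        _ = _ := by rw [← Real.rpow_natCast (X ^ δ) n, ← Real.rpow_mul hXp.le]
    set c3 := C3 ^ Fintype.card ι * C3 ^ Fintype.card κ with hc3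
    have hc30 : 0 ≤ c3 := by positivity
    have hτ3 : ((tau g : ℝ) ^ Fintype.card ι * (tau g : ℝ) ^ Fintype.card κ) ^ 2 ≤
        c3 ^ 2 * X ^ (2 * (δ * n)) := by
      calc _ ≤ (c3 * X ^ (δ * n)) ^ 2 := pow_le_pow_left₀ (by positivity) hτ2 2
        _ = c3 ^ 2 * X ^ (2 * (δ * n)) := by
            rw [mul_pow, ← Real.rpow_natCast (X ^ (δ * (n : ℝ))) 2, ← Real.rpow_mul hXp.le]
            congr 2
            push_cast; ring
    have h1X : (1 : ℝ) ≤ X ^ (2 * (δ * n)) := Real.one_le_rpow hX (by positivity)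
    have hinner : M2 u (fun k => CS (rho Z (fun j => pc h (s (.inr j)))
            (fun i => pc h (s (.inl i))) β γ g) k -
            cT T c β * StE E0 (JW D Y₀ Y₁) (fun x => o (ln x))
              (rho Z (fun j => pc h (s (.inr j))) (fun i => pc h (s (.inl i))) β γ g) k) +
          ‖cT T c β‖ ^ 2 * M2 u (SteT (JW D' Y₀' Y₁') (fun _ => 1) (E0 * Z)
            (Tm E0 Z o (alb (fun i => pc h (s (.inl i))) γ)
              (alb (fun j => pc h (s (.inr j))) β) g)) ≤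
        ((1 + c3 ^ 2) * (X ^ (2 * (δ * n)) * ((1 + ‖c‖ ^ 2) * B))) * sf γ β g := by
      have a1 : M2 u (fun k => CS (rho Z (fun j => pc h (s (.inr j)))
            (fun i => pc h (s (.inl i))) β γ g) k -
            cT T c β * StE E0 (JW D Y₀ Y₁) (fun x => o (ln x))
              (rho Z (fun j => pc h (s (.inr j))) (fun i => pc h (s (.inl i))) β γ g) k) ≤
          c3 ^ 2 * X ^ (2 * (δ * n)) * (B * sf γ β g) :=
        le_trans hr (mul_le_mul_of_nonneg_right hτ3 hBs)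
      have a2 := hm
      have hX2 : 0 ≤ X ^ (2 * (δ * n)) := by linarith
      have a3 : ‖c‖ ^ 2 * (B * sf γ β g) ≤ ‖c‖ ^ 2 * (B * sf γ β g) * X ^ (2 * (δ * n)) :=
        le_mul_of_one_le_right (by positivity) h1X
      have a4 : 0 ≤ ‖c‖ ^ 2 * (B * sf γ β g) * X ^ (2 * (δ * n)) := by positivity
      have a5 : 0 ≤ c3 ^ 2 * X ^ (2 * (δ * n)) * (B * sf γ β g) := by positivity
      have a6 : 0 ≤ X ^ (2 * (δ * n)) * (B * sf γ β g) := by positivity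
      nlinarith [mul_nonneg a4 (sq_nonneg c3), mul_nonneg (sq_nonneg ‖c‖) a5]
    have hwi : 0 ≤ (wt δ β γ g)⁻¹ := inv_nonneg.2 hw.le
    refine (mul_le_mul_of_nonneg_left hinner hwi).trans ?_
    have e5 : (wt δ β γ g)⁻¹ * ((1 + c3 ^ 2) * (X ^ (2 * (δ * n)) * ((1 + ‖c‖ ^ 2) * B)) *
        sf γ β g) = ((wt δ β γ g)⁻¹ * sf γ β g) *
          ((1 + c3 ^ 2) * (X ^ (2 * (δ * n)) * ((1 + ‖c‖ ^ 2) * B))) := by ring
    rw [e5, sf_wt pγ pβ g2]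
    have hprod : ((nm (∏ i, γ i) : ℝ) * nm (∏ j, β j) * nm g) ^ (2 * δ) ≤ X ^ (2 * (δ * n)) := by
      have h7 : (nm (∏ i, γ i) : ℝ) * nm (∏ j, β j) * nm g ≤ X ^ (n : ℝ) := by
        calc (nm (∏ i, γ i) : ℝ) * nm (∏ j, β j) * nm g
            ≤ X ^ (Fintype.card ι : ℝ) * X ^ (Fintype.card κ : ℝ) * X := by
              refine mul_le_mul (mul_le_mul (PT_nm_le hYX hγ) (PT_nm_le hYX hβ) (Nat.cast_nonneg _)
                (by positivity)) hngX (Nat.cast_nonneg _) (by positivity)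
          _ = X ^ (n : ℝ) := by
              have e6 : (n : ℝ) = (Fintype.card ι : ℝ) + (Fintype.card κ : ℝ) + 1 := by
                rw [hn]; push_cast; ring
              rw [e6, Real.rpow_add hXp, Real.rpow_add hXp, Real.rpow_one]
      calc _ ≤ (X ^ (n : ℝ)) ^ (2 * δ) := Real.rpow_le_rpow (by positivity) h7 (by positivity)
        _ = X ^ (2 * (δ * n)) := by
            rw [← Real.rpow_mul hXp.le]; congr 1; ring
    have hfin : X ^ (2 * (δ * n)) * X ^ (2 * (δ * n)) = X ^ ε := by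
      rw [← Real.rpow_add hXp]
      congr 1
      rw [hδd]; field_simp; ring
    calc wt δ β γ g * ((nm (∏ i, γ i) : ℝ) * nm (∏ j, β j) * nm g) ^ (2 * δ) *
          ((1 + c3 ^ 2) * (X ^ (2 * (δ * n)) * ((1 + ‖c‖ ^ 2) * B)))
        ≤ wt δ β γ g * X ^ (2 * (δ * n)) *
          ((1 + c3 ^ 2) * (X ^ (2 * (δ * n)) * ((1 + ‖c‖ ^ 2) * B))) := by
          refine mul_le_mul_of_nonneg_right (mul_le_mul_of_nonneg_left hprod hw.le) ?_
          positivity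
      _ = wt δ β γ g * ((1 + c3 ^ 2) * ((X ^ (2 * (δ * n)) * X ^ (2 * (δ * n))) *
            ((1 + ‖c‖ ^ 2) * B))) := by ring
      _ = _ := by rw [hfin]
  have hsum := sum_le_sum fun β hβ => sum_le_sum fun γ hγ => sum_le_sum fun g hg =>
    hterm β hβ γ hγ g hg
  refine hsum.trans ?_
  simp_rw [← sum_mul]
  have hnn : 0 ≤ (1 + (C3 ^ Fintype.card ι * C3 ^ Fintype.card κ) ^ 2) *
        (X ^ ε * ((1 + ‖c‖ ^ 2) * B)) := by positivity
  refine (mul_le_mul_of_nonneg_right (h2 Y Z) hnn).trans (le_of_eq ?_)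
  ring


end Crest.Agent.R017.P1h54
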