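import Crest.Agent.R017.HBs_445
import Crest.Agent.R017.P1h_54

/-!
# Row 17, T.3 / P1: the children outside the small tuples (helper445)

* `M2_hb`, `M2_hb_short` : `HBs_445` for 54's weighted second moment `M2 u`
* `prod_chS` : the total length of a child is `(∏ Y) / (N(γ) N(β) N(g)²)`
* `child_hb` : the hypothesis of `err_listT` for `β ∉ PTb κ Y B0`
-/

set_option autoImplicit false

noncomputable section

open Finset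
open scoped ComplexConjugate

namespace Crest.Agent.R017.HBsB445

set_option linter.unusedSectionVars false
set_option linter.unusedVariables false

open Crest.Agent.R012 Crest.Agent.R012.Eis
open Crest.Agent.R012.LS2 (S mem_S bl mem_bl)
open Crest.Agent.R012.Div277 (tau dvs mem_dvs)
open Crest.Agent.R017.CM106 (CS FS)
open Crest.Agent.R017.FE47 (cx)
open Crest.Agent.R017.HP842 (Pc pc al alL cv Tu mem_Tu sqc Th)
open Crest.Agent.R017.Rough381 (sh)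
open Crest.Agent.R017.E5k54 (PT)
open Crest.Agent.R017.P1e54 (M2 mem_PT)
open Crest.Agent.R017.P1f54 (ch1 chS chS_OK sf nmP)
open Crest.Agent.R017.SSb54 (PTb mem_PTb)
open Crest.Agent.R017.HBs445

lemma M2_le_sum {u : Eis → ℝ} {U K : ℝ} (h0 : ∀ k, 0 ≤ u k) (hU : ∀ k, u k ≤ U) (hK : 0 ≤ K)
    (hu : ∀ k, u k ≠ 0 → k ≠ 0 ∧ (nm k : ℝ) ≤ K) (F : Eis → ℂ) :
    M2 u F ≤ U * ∑ k ∈ bl K, ‖F k‖ ^ 2 := by
  unfold M2
  rw [tsum_eq_sum (s := bl K) fun k hk => by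
    have : u k = 0 := by
      by_contra h1
      exact hk ((mem_bl hK).2 (hu k h1))
    rw [this, zero_mul], Finset.mul_sum]
  exact Finset.sum_le_sum fun k _ => mul_le_mul_of_nonneg_right (hU k) (sq_nonneg _)

/-- **the cubic large sieve for a natural list**, weighted -/
theorem M2_hb (ι : Type*) [Fintype ι] [DecidableEq ι] {ε : ℝ} (hε : 0 < ε) (A : ℝ) :
    ∃ C : ℝ, 0 ≤ C ∧ ∀ X : ℝ, 1 ≤ X → ∀ {K N U : ℝ}, 1 ≤ K → K ≤ X → N ≤ X →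
      ∀ {u : Eis → ℝ}, (∀ k, 0 ≤ u k) → (∀ k, u k ≤ U) →
      (∀ k, u k ≠ 0 → k ≠ 0 ∧ (nm k : ℝ) ≤ K) →
      ∀ {h : ℝ → ℝ} {R : ℝ}, (∀ u, cx h u ≠ 0 → |u| ≤ R) → (∀ u, ‖cx h u‖ ≤ A) →
      ∀ {s : ι → Pc}, (∀ i, (s i).OK) → ∏ i, ((s i).Y * Real.exp R) ≤ N → ∀ q : Eis,
      M2 u (CS (sqc q (al h s))) ≤
        C * X ^ ε * (U * ((K + K ^ (1 / 3 : ℝ) * N + (K * N) ^ (2 / 3 : ℝ)) * N)) := by
  obtain ⟨C, hC, key⟩ := hbs ι hε A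
  refine ⟨C, hC, ?_⟩
  intro X hX K N U hK hKX hNX u h0 hU hu h R hR hA s hs hN q
  have hU0 : 0 ≤ U := (h0 0).trans (hU 0)
  refine (M2_le_sum h0 hU (by linarith) hu _).trans ?_
  have h1 := mul_le_mul_of_nonneg_left (key X hX hK hKX hNX hR hA hs hN q) hU0
  refine h1.trans (le_of_eq ?_)
  ring

/-- short lists, weighted -/
theorem M2_hb_short (ι : Type*) [Fintype ι] [DecidableEq ι] {ε : ℝ} (hε : 0 < ε) (A : ℝ) :
    ∃ C : ℝ, 0 ≤ C ∧ ∀ X : ℝ, 1 ≤ X → ∀ {K N U ρ : ℝ}, 1 ≤ K → K ≤ X → N ≤ X → 1 ≤ ρ →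
      N ^ 2 ≤ ρ * K →
      ∀ {u : Eis → ℝ}, (∀ k, 0 ≤ u k) → (∀ k, u k ≤ U) →
      (∀ k, u k ≠ 0 → k ≠ 0 ∧ (nm k : ℝ) ≤ K) →
      ∀ {h : ℝ → ℝ} {R : ℝ}, (∀ u, cx h u ≠ 0 → |u| ≤ R) → (∀ u, ‖cx h u‖ ≤ A) →
      ∀ {s : ι → Pc}, (∀ i, (s i).OK) → ∏ i, ((s i).Y * Real.exp R) ≤ N → ∀ q : Eis,
      M2 u (CS (sqc q (al h s))) ≤ C * X ^ ε * (U * (ρ * K * N)) := by
  obtain ⟨C, hC, key⟩ := hbs_short ι hε A
  refine ⟨C, hC, ?_⟩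
  intro X hX K N U ρ hK hKX hNX hρ hNK u h0 hU hu h R hR hA s hs hN q
  have hU0 : 0 ≤ U := (h0 0).trans (hU 0)
  refine (M2_le_sum h0 hU (by linarith) hu _).trans ?_
  have h1 := mul_le_mul_of_nonneg_left (key X hX hK hKX hNX hρ hNK hR hA hs hN q) hU0
  refine h1.trans (le_of_eq ?_)
  ring

/-! ### the children -/

section
variable {ι κ : Type*} [Fintype ι] [Fintype κ] [DecidableEq ι] [DecidableEq κ]

lemma prod_ch1 (s : ι → Pc) (e : ℝ) {γ x : ι → Eis} (hγ : ∀ i, IsPrim (γ i)) {g : Eis}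
    (hg : IsPrim g) (hx : x ∈ Tu ι g) :
    ∏ i, ((ch1 s γ x g i).Y * e) = (∏ i, ((s i).Y * e)) * ((nm (∏ i, γ i) : ℝ) * nm g)⁻¹ := by
  rw [mem_Tu] at hx
  have h1 : (nm (∏ i, γ i) : ℝ) * nm g = ∏ i, ((nm (γ i) : ℝ) * nm (x i)) := by
    rw [Finset.prod_mul_distrib, ← hx.2, nm_prodF, nm_prodF]
    push_cast
    rfl
  rw [h1, ← Finset.prod_inv_distrib, ← Finset.prod_mul_distrib]
  refine Finset.prod_congr rfl fun i _ => ?_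
  show (s i).Y / (nm (γ i * x i) : ℝ) * e = _
  rw [nm_mul]
  push_cast
  rw [div_eq_mul_inv]
  ring

/-- **the total length of a child** -/
theorem prod_chS (s : ι ⊕ κ → Pc) (e : ℝ) {γ x : ι → Eis} {β y : κ → Eis}
    (hγ : ∀ i, IsPrim (γ i)) (hβ : ∀ i, IsPrim (β i)) {g : Eis} (hg : IsPrim g)
    (hx : x ∈ Tu ι g) (hy : y ∈ Tu κ g) :
    ∏ i, ((chS s γ β g x y i).Y * e) = (∏ i, ((s i).Y * e)) * sf γ β g := by
  rw [Fintype.prod_sum_type, Fintype.prod_sum_type]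
  have e1 : ∏ i, ((chS s γ β g x y (.inl i)).Y * e) =
      ∏ i, ((ch1 (fun i => s (.inl i)) γ x g i).Y * e) := rfl
  have e2 : ∏ i, ((chS s γ β g x y (.inr i)).Y * e) =
      ∏ i, ((ch1 (fun i => s (.inr i)) β y g i).Y * e) := rfl
  rw [e1, e2, prod_ch1 _ e hγ hg hx, prod_ch1 _ e hβ hg hy]
  unfold sf
  simp only [mul_inv, sq]
  ring

lemma sf_pos {γ : ι → Eis} {β : κ → Eis} {g : Eis} (hγ : ∀ i, IsPrim (γ i))
    (hβ : ∀ i, IsPrim (β i)) (hg : IsPrim g) : 0 < sf γ β g := by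
  have h1 := nmP hγ
  have h2 := nmP hβ
  have h3 : (1 : ℝ) ≤ nm g := by exact_mod_cast nm_pos.2 hg.ne_zero
  unfold sf
  positivity

lemma sf_le {γ : ι → Eis} {β : κ → Eis} {g : Eis} (hγ : ∀ i, IsPrim (γ i))
    (hβ : ∀ i, IsPrim (β i)) (hg : IsPrim g) : sf γ β g ≤ (nm (∏ j, β j) : ℝ)⁻¹ := by
  have h1 := nmP hγ
  have h2 := nmP hβ
  have h3 : (1 : ℝ) ≤ nm g := by exact_mod_cast nm_pos.2 hg.ne_zero
  have h4 : (1 : ℝ) ≤ (nm g : ℝ) ^ 2 := one_le_pow₀ h3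
  unfold sf
  refine inv_anti₀ (by linarith) ?_
  have h5 : (nm (∏ j, β j) : ℝ) ≤ (nm (∏ i, γ i) : ℝ) * nm (∏ j, β j) :=
    le_mul_of_one_le_left (by linarith) h1
  exact h5.trans (le_mul_of_one_le_right (by positivity) h4)

end

/-- **the plain second moments of the children with `N(β) > B0`** (hypothesis of `err_listT`) -/
theorem child_hb (ι κ : Type*) [Fintype ι] [Fintype κ] [DecidableEq ι] [DecidableEq κ]
    {ε : ℝ} (hε : 0 < ε) (A : ℝ) : ∃ C : ℝ, 0 ≤ C ∧ ∀ X : ℝ, 1 ≤ X →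
      ∀ {K N U B0 ρ : ℝ}, 1 ≤ K → K ≤ X → N ≤ X → 1 ≤ ρ → 0 < B0 → (N / B0) ^ 2 ≤ ρ * K →
      ∀ {u : Eis → ℝ}, (∀ k, 0 ≤ u k) → (∀ k, u k ≤ U) →
      (∀ k, u k ≠ 0 → k ≠ 0 ∧ (nm k : ℝ) ≤ K) →
      ∀ {h : ℝ → ℝ} {R : ℝ}, (∀ u, cx h u ≠ 0 → |u| ≤ R) → (∀ u, ‖cx h u‖ ≤ A) →
      ∀ {s : ι ⊕ κ → Pc}, (∀ i, (s i).OK) → ∏ i, ((s i).Y * Real.exp R) ≤ N →
      ∀ {Y : ℕ} {Z : ℝ}, 0 ≤ Z → ∀ (γ : ι → Eis) (β : κ → Eis) (g : Eis), γ ∈ PT ι Y →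
      β ∈ PT κ Y → β ∉ PTb κ Y B0 → g ∈ S Z → ∀ x ∈ Tu ι g, ∀ y ∈ Tu κ g,
      M2 u (fun k => CS (sqc 1 (al h (chS s γ β g x y))) k) ≤
        C * X ^ ε * (U * (ρ * K * N)) * sf γ β g := by
  classical
  obtain ⟨C, hC, key⟩ := M2_hb_short (ι ⊕ κ) hε A
  refine ⟨C, hC, ?_⟩
  intro X hX K N U B0 ρ hK hKX hNX hρ hB0 hNB u h0 hU hu h R hR hA s hs hN Y Z hZ γ β g hγ hβ hβB
    hg x hx y hy
  have pγ := mem_PT hγ
  have pβ := mem_PT hβ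
  have pg : IsPrim g := ((mem_S hZ).1 hg).2.1
  have hsf := sf_pos pγ pβ pg
  have hsf1 := sf_le pγ pβ pg
  have hNp : 0 < N := lt_of_lt_of_le (Finset.prod_pos fun i _ =>
    mul_pos (hs i).Y0 (Real.exp_pos _)) hN
  have hβ1 : B0 < (nm (∏ j, β j) : ℝ) := by
    by_contra h1
    exact hβB (mem_PTb.2 ⟨hβ, not_lt.1 h1⟩)
  have hsfB : sf γ β g ≤ B0⁻¹ := hsf1.trans (inv_anti₀ hB0 hβ1.le)
  have hsf2 : sf γ β g ≤ 1 := hsf1.trans (inv_le_one_of_one_le₀ (nmP pβ))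
  have hlen : ∏ i, ((chS s γ β g x y i).Y * Real.exp R) ≤ N * sf γ β g := by
    rw [prod_chS s (Real.exp R) pγ pβ pg hx hy]
    exact mul_le_mul_of_nonneg_right hN hsf.le
  have hNX' : N * sf γ β g ≤ X := (mul_le_of_le_one_right hNp.le hsf2).trans hNX
  have hsq : (N * sf γ β g) ^ 2 ≤ ρ * K := by
    refine le_trans (pow_le_pow_left₀ (by positivity) ?_ 2) hNB
    rw [div_eq_mul_inv]
    exact mul_le_mul_of_nonneg_left hsfB hNp.le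
  have hOK : ∀ i, (chS s γ β g x y i).OK :=
    chS_OK hs pγ ((mem_Tu.1 hx).1) pβ ((mem_Tu.1 hy).1) g
  have h1 := key X hX hK hKX hNX' hρ hsq h0 hU hu hR hA hOK hlen 1
  refine h1.trans (le_of_eq ?_)
  ring

end Crest.Agent.R017.HBsB445
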