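import Crest.Agent.R017.HP3_842
import Crest.Agent.R017.TPD_813

/-!
# Row 17, sides: support and total weight of the conversion squarefree → natural (helper842)

* `lamQ_zero` : `lamQ q a = 0` if a prime divides `∏ a` exactly once and does not divide `q`
* `sum_lamQ_le` : `∑_{a ∈ box X} ‖lamQ q a‖ nm(∏ a)^{-1/2} ≤ C (nm q X)^ε`
-/

set_option autoImplicit false
set_option linter.unusedSectionVars false
set_option linter.unusedVariables false

noncomputable section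

open Complex
open scoped ComplexConjugate

namespace Crest.Agent.R017.HP842

open Crest.Agent.R012 Crest.Agent.R012.Eis Crest.Agent.R012.LS2 Crest.Agent.R012.Gauss880
open Crest.Agent.R012.Mob705
open Crest.Agent.R012.PSer47 (padiv mem_padiv IsChar)
open Crest.Agent.R012.Div277 (tau dvs mem_dvs tau_le_rpow)
open Crest.Agent.R017.CM106
open Crest.Agent.R017.Asm986 (Pf)

set_option maxHeartbeats 400000

/-! ### moving a prime -/

lemma cop_of_prime {π x : Eis} (hp : Prime π) (h : ¬ π ∣ x) : IsCoprime π x :=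
  (hp.irreducible.coprime_iff_not_dvd).2 h

lemma Th_mul_prime {q π n : Eis} (hp : Prime π) (hq : ¬ π ∣ q) (hn : ¬ π ∣ n) :
    Th q (π * n) = Th q n := by
  unfold Th
  have h1 := cop_of_prime hp hn
  have h2 := cop_of_prime hp hq
  have : (Squarefree (π * n) ∧ IsCoprime (π * n) q) ↔ (Squarefree n ∧ IsCoprime n q) := by
    rw [squarefree_mul_iff, IsCoprime.mul_left_iff]
    exact ⟨fun h => ⟨h.1.2.2, h.2.2⟩, fun h => ⟨⟨h1.isRelPrime, hp.squarefree, h.1⟩, h2, h.2⟩⟩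
  by_cases h : Squarefree n ∧ IsCoprime n q
  · rw [if_pos (this.2 h), if_pos h]
  · rw [if_neg (fun h' => h (this.1 h')), if_neg h]

lemma muE_prime_mul {π x : Eis} (hp : Prime π) (hx0 : x ≠ 0) (hx : ¬ π ∣ x) :
    muE (π * x) = - muE x := by
  rw [muE_mul hp.ne_zero hx0 (cop_of_prime hp hx), muE_prime hp]
  ring

lemma flip_term {q π x c N : Eis} (hp : Prime π) (hq : ¬ π ∣ q) (hx0 : x ≠ 0) (hx : ¬ π ∣ x)
    (hc : ¬ π ∣ c) (hN : ¬ π ∣ N) :
    (muE (π * x) : ℂ) * Th q (c * N) + (muE x : ℂ) * Th q ((π * c) * N) = 0 := by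
  have h1 : ¬ π ∣ c * N := fun h => (hp.dvd_or_dvd h).elim hc hN
  rw [mul_assoc π c N, Th_mul_prime hp hq h1, muE_prime_mul hp hx0 hx]
  push_cast
  ring

open Classical in
/-- moving `π` between the two components -/
def fl (π : Eis) (p : Eis × Eis) : Eis × Eis :=
  if π ∣ p.1 then (p.1 / π, π * p.2) else (π * p.1, p.2 / π)

variable {ι : Type*} [Fintype ι] [DecidableEq ι]

lemma prod_upd (i0 : ι) (p : ι → Eis × Eis) (r : Eis × Eis) (F : Eis × Eis → Eis) :
    ∏ i, F (Function.update p i0 r i) = F r * ∏ i ∈ Finset.univ.erase i0, F (p i) := by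
  rw [← Finset.mul_prod_erase Finset.univ _ (Finset.mem_univ i0), Function.update_self]
  congr 1
  refine Finset.prod_congr rfl fun i hi => ?_
  rw [Function.update_of_ne (Finset.ne_of_mem_erase hi)]

lemma prod_updC (i0 : ι) (p : ι → Eis × Eis) (r : Eis × Eis) (F : Eis × Eis → ℂ) :
    ∏ i, F (Function.update p i0 r i) = F r * ∏ i ∈ Finset.univ.erase i0, F (p i) := by
  rw [← Finset.mul_prod_erase Finset.univ _ (Finset.mem_univ i0), Function.update_self]
  congr 1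
  refine Finset.prod_congr rfl fun i hi => ?_
  rw [Function.update_of_ne (Finset.ne_of_mem_erase hi)]

lemma lamQ_eq (q : Eis) (a : ι → Eis) : lamQ q a =
    ∑ p ∈ Fintype.piFinset (fun i => padiv (a i)),
      (∏ i, (muE (p i).1 : ℂ)) * Th q (∏ i, (p i).2) := rfl

/-- **support of the coefficients** -/
theorem lamQ_zero {q π : Eis} (hπ : IsPP π) (hq : ¬ π ∣ q) {a : ι → Eis}
    (ha : ∀ i, IsPrim (a i)) (h1 : π ∣ ∏ i, a i) (h2 : ¬ π * π ∣ ∏ i, a i) : lamQ q a = 0 := by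
  classical
  have hp := hπ.prime
  obtain ⟨i0, _, hi0⟩ := (hp.dvd_finsetProd_iff _).1 h1
  obtain ⟨a', ha'⟩ := hi0
  have hprod : ∏ i, a i = a i0 * ∏ i ∈ Finset.univ.erase i0, a i :=
    (Finset.mul_prod_erase Finset.univ _ (Finset.mem_univ i0)).symm
  have h3 : ¬ π ∣ a' := by
    rintro ⟨c, rfl⟩
    apply h2
    rw [hprod, ha']
    exact ⟨c * ∏ i ∈ Finset.univ.erase i0, a i, by ring⟩
  have h4 : ¬ π ∣ ∏ i ∈ Finset.univ.erase i0, a i := by
    rintro ⟨c, hc⟩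
    apply h2
    rw [hprod, ha', hc]
    exact ⟨a' * c, by ring⟩
  have ha'p : IsPrim a' := (ha' ▸ ha i0 : IsPrim (π * a')).of_mul_left hπ.isPrim
  -- structure of pairs over `a i0`
  have key : ∀ p ∈ padiv (a i0), (∃ c, IsPrim c ∧ p.1 = π * c ∧ ¬ π ∣ c ∧ ¬ π ∣ p.2 ∧
      c * p.2 = a') ∨ (∃ c, IsPrim c ∧ p.2 = π * c ∧ ¬ π ∣ p.1 ∧ ¬ π ∣ c ∧ p.1 * c = a') := by
    intro p hpm
    rw [mem_padiv] at hpm
    have hd : π ∣ p.1 * p.2 := by rw [hpm.1, ha']; exact dvd_mul_right _ _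
    rcases hp.dvd_or_dvd hd with ⟨c, hc⟩ | ⟨c, hc⟩
    · left
      have hcp : IsPrim c := (hc ▸ hpm.2.1 : IsPrim (π * c)).of_mul_left hπ.isPrim
      have e : c * p.2 = a' := by
        apply mul_left_cancel₀ hp.ne_zero
        rw [← ha', ← hpm.1, hc]; ring
      exact ⟨c, hcp, hc, fun h => h3 (e ▸ h.mul_right _), fun h => h3 (e ▸ h.mul_left _), e⟩
    · right
      have hcp : IsPrim c := (hc ▸ hpm.2.2 : IsPrim (π * c)).of_mul_left hπ.isPrim
      have e : p.1 * c = a' := by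
        apply mul_left_cancel₀ hp.ne_zero
        rw [← ha', ← hpm.1, hc]; ring
      exact ⟨c, hcp, hc, fun h => h3 (e ▸ h.mul_right _), fun h => h3 (e ▸ h.mul_left _), e⟩
  have fl1 : ∀ p c : Eis, fl π (π * c, p) = (c, π * p) := by
    intro p c
    unfold fl
    rw [if_pos (dvd_mul_right _ _)]
    rw [mul_div_cancel_left₀ c hp.ne_zero]
  have fl2 : ∀ p c : Eis, ¬ π ∣ p → fl π (p, π * c) = (π * p, c) := by
    intro p c h
    unfold fl
    rw [if_neg h]
    rw [mul_div_cancel_left₀ c hp.ne_zero]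
  have Nd : ∀ p ∈ Fintype.piFinset (fun i => padiv (a i)),
      ¬ π ∣ ∏ i ∈ Finset.univ.erase i0, (p i).2 := by
    intro p hpm h
    rw [Fintype.mem_piFinset] at hpm
    apply h4
    refine h.trans (Finset.prod_dvd_prod_of_dvd _ _ fun i _ => ?_)
    have := (mem_padiv.1 (hpm i)).1
    exact ⟨(p i).1, by rw [← this]; ring⟩
  rw [lamQ_eq]
  refine Finset.sum_involution (fun p _ => Function.update p i0 (fl π (p i0))) ?_ ?_ ?_ ?_
  · intro p hpm
    have hN := Nd p hpm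
    rw [Fintype.mem_piFinset] at hpm
    have e1 : ∏ i, (muE (Function.update p i0 (fl π (p i0)) i).1 : ℂ) =
        (muE (fl π (p i0)).1 : ℂ) * ∏ i ∈ Finset.univ.erase i0, (muE (p i).1 : ℂ) :=
      prod_updC i0 p _ (fun r => (muE r.1 : ℂ))
    have e2 : ∏ i, (Function.update p i0 (fl π (p i0)) i).2 =
        (fl π (p i0)).2 * ∏ i ∈ Finset.univ.erase i0, (p i).2 :=
      prod_upd i0 p _ (fun r => r.2)
    have e3 : ∏ i, (muE (p i).1 : ℂ) =
        (muE (p i0).1 : ℂ) * ∏ i ∈ Finset.univ.erase i0, (muE (p i).1 : ℂ) :=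
      (Finset.mul_prod_erase Finset.univ _ (Finset.mem_univ i0)).symm
    have e4 : ∏ i, (p i).2 = (p i0).2 * ∏ i ∈ Finset.univ.erase i0, (p i).2 :=
      (Finset.mul_prod_erase Finset.univ _ (Finset.mem_univ i0)).symm
    rw [e1, e2, e3, e4]
    set P1 := ∏ i ∈ Finset.univ.erase i0, (muE (p i).1 : ℂ)
    set N := ∏ i ∈ Finset.univ.erase i0, (p i).2
    rcases key (p i0) (hpm i0) with ⟨c, hc, hp1, hc3, hp2, _⟩ | ⟨c, hc, hp2, hp1, hc3, _⟩
    · have e5 : p i0 = (π * c, (p i0).2) := Prod.ext hp1 rfl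
      have e6 : fl π (p i0) = (c, π * (p i0).2) := by
        conv_lhs => rw [e5]
        exact fl1 _ _
      rw [e6, hp1]
      have := flip_term hp hq hc.ne_zero hc3 hp2 hN
      linear_combination P1 * this
    · have e5 : p i0 = ((p i0).1, π * c) := Prod.ext rfl hp2
      have e6 : fl π (p i0) = (π * (p i0).1, c) := by
        conv_lhs => rw [e5]
        exact fl2 _ _ hp1
      rw [e6, hp2]
      have hx0 : (p i0).1 ≠ 0 := (mem_padiv.1 (hpm i0)).2.1.ne_zero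
      have := flip_term hp hq hx0 hp1 hc3 hN
      linear_combination P1 * this
  · intro p hpm _ heq
    rw [Fintype.mem_piFinset] at hpm
    have h5 : fl π (p i0) = p i0 := by
      have := congrFun heq i0
      rwa [Function.update_self] at this
    rcases key (p i0) (hpm i0) with ⟨c, hc, hp1, hc3, hp2, _⟩ | ⟨c, hc, hp2, hp1, hc3, _⟩
    · have e5 : p i0 = (π * c, (p i0).2) := Prod.ext hp1 rfl
      have e6 : fl π (p i0) = (c, π * (p i0).2) := by
        conv_lhs => rw [e5]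
        exact fl1 _ _
      rw [e6] at h5
      have h6 : c = (p i0).1 := congrArg Prod.fst h5
      exact hc3 (h6 ▸ hp1 ▸ dvd_mul_right _ _)
    · have e5 : p i0 = ((p i0).1, π * c) := Prod.ext rfl hp2
      have e6 : fl π (p i0) = (π * (p i0).1, c) := by
        conv_lhs => rw [e5]
        exact fl2 _ _ hp1
      rw [e6] at h5
      have h6 : π * (p i0).1 = (p i0).1 := congrArg Prod.fst h5
      exact hp1 (h6 ▸ dvd_mul_right _ _)
  · intro p hpm
    rw [Fintype.mem_piFinset] at hpm ⊢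
    intro i
    by_cases hi : i = i0
    · subst hi
      rw [Function.update_self]
      have h7 := mem_padiv.1 (hpm i)
      rcases key (p i) (hpm i) with ⟨c, hc, hp1, hc3, hp2, e⟩ | ⟨c, hc, hp2, hp1, hc3, e⟩
      · have e5 : p i = (π * c, (p i).2) := Prod.ext hp1 rfl
        have e6 : fl π (p i) = (c, π * (p i).2) := by
          conv_lhs => rw [e5]
          exact fl1 _ _
        rw [e6, mem_padiv]
        refine ⟨?_, hc, hπ.isPrim.mul h7.2.2⟩
        rw [ha', ← e]; ring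
      · have e5 : p i = ((p i).1, π * c) := Prod.ext rfl hp2
        have e6 : fl π (p i) = (π * (p i).1, c) := by
          conv_lhs => rw [e5]
          exact fl2 _ _ hp1
        rw [e6, mem_padiv]
        refine ⟨?_, hπ.isPrim.mul h7.2.1, hc⟩
        rw [ha', ← e]; ring
    · rw [Function.update_of_ne hi]
      exact hpm i
  · intro p hpm
    rw [Fintype.mem_piFinset] at hpm
    rw [Function.update_idem, Function.update_self]
    have : fl π (fl π (p i0)) = p i0 := by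
      rcases key (p i0) (hpm i0) with ⟨c, hc, hp1, hc3, hp2, _⟩ | ⟨c, hc, hp2, hp1, hc3, _⟩
      · have e5 : p i0 = (π * c, (p i0).2) := Prod.ext hp1 rfl
        have e6 : fl π (p i0) = (c, π * (p i0).2) := by
          conv_lhs => rw [e5]
          exact fl1 _ _
        rw [e6, fl2 _ _ hc3]
        exact e5.symm
      · have e5 : p i0 = ((p i0).1, π * c) := Prod.ext rfl hp2
        have e6 : fl π (p i0) = (π * (p i0).1, c) := by
          conv_lhs => rw [e5]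
          exact fl2 _ _ hp1
        rw [e6, fl1]
        exact e5.symm
    rw [this, Function.update_eq_self]


/-! ### total weight -/

lemma nm_prod' (s : Finset ι) (a : ι → Eis) : nm (∏ i ∈ s, a i) = ∏ i ∈ s, nm (a i) := by
  classical
  induction s using Finset.induction_on with
  | empty => simp
  | insert i s hi ih => rw [Finset.prod_insert hi, Finset.prod_insert hi, nm_mul, ih]

lemma tau_prod_le (a : ι → Eis) (ha : ∀ i, IsPrim (a i)) (i : ι) :
    tau (a i) ≤ tau (∏ j, a j) :=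
  Div277.tau_le_of_dvd (isPrim_prod ha).ne_zero (Finset.dvd_prod_of_mem a (Finset.mem_univ i))

lemma norm_lamQ_le' (q : Eis) {a : ι → Eis} (ha : ∀ i, IsPrim (a i)) :
    ‖lamQ q a‖ ≤ (tau (∏ i, a i) : ℝ) ^ Fintype.card ι := by
  refine (norm_lamQ_le q a).trans ?_
  rw [Fintype.card, ← Finset.prod_const]
  refine Finset.prod_le_prod (fun i _ => Nat.cast_nonneg _) fun i _ => ?_
  exact_mod_cast tau_prod_le a ha i

/-- the support: `∏ a = u v`, `u` powerful, `v ∣ q` -/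
lemma lamQ_supp {q : Eis} {a : ι → Eis} (ha : ∀ i, IsPrim (a i))
    (h : lamQ q a ≠ 0) : ∃ u v, IsPrim u ∧ IsPrim v ∧ ∏ i, a i = u * v ∧ Pf u ∧ v ∣ q := by
  obtain ⟨u, v, hu, hv, huv, hpf, hsf, hco⟩ :=
    NSx545.exists_pfsf _ le_rfl (isPrim_prod (s := Finset.univ) ha)
  refine ⟨u, v, hu, hv, huv, hpf, ?_⟩
  rw [← prod_pp hv hsf]
  refine (ppSet_pp v).prod_dvd.2 fun p hp => ?_
  have hpp := isPP_of_mem_pp hp
  have hpv := dvd_of_mem_pp hp
  by_contra hq
  apply h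
  refine lamQ_zero hpp hq ha (huv ▸ hpv.mul_left u) ?_
  intro h2
  rw [huv] at h2
  have h3 : ¬ p ∣ u := fun h4 => hpp.prime.not_isUnit (hco.isUnit_of_dvd' h4 hpv)
  have h4 : p ^ 2 ∣ v := hpp.prime.pow_dvd_of_dvd_mul_left 2 h3 (by rwa [pow_two])
  rw [pow_two] at h4
  exact hpp.prime.not_isUnit (hsf p h4)

lemma final_arith {c K Q Y S C2 Xe C3 Qe : ℝ} (hc : 0 ≤ c) (hK : 0 ≤ K) (hQ : 0 ≤ Q) (hY : 0 ≤ Y)
    (hS : 0 ≤ S) (hC2 : 0 ≤ C2) (h1 : c ≤ C2 * Q) (h2 : Y ≤ Xe) (h3 : S ≤ C3 + 1)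
    (h4 : Q * Q ≤ Qe) (hXe : 0 ≤ Xe) :
    c * (K * Q * Y * S) ≤ K * C2 * (C3 + 1) * Qe * Xe := by
  have hC3 : 0 ≤ C3 + 1 := hS.trans h3
  calc c * (K * Q * Y * S) ≤ (C2 * Q) * (K * Q * Xe * (C3 + 1)) := by gcongr
    _ = K * C2 * (C3 + 1) * (Q * Q) * Xe := by ring
    _ ≤ _ := by gcongr

/-- sums over tuples with a powerful × divisor-of-`q` product -/
theorem sum_box_le (r : ℕ) {ε : ℝ} (hε : 0 < ε) : ∃ C : ℝ, 1 ≤ C ∧ ∀ (ι : Type) [Fintype ι]
    [DecidableEq ι], Fintype.card ι ≤ r → ∀ (q : Eis), q ≠ 0 → ∀ X : ℕ, 1 ≤ X →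
    ∀ F : (ι → Eis) → ℝ, (∀ a, 0 ≤ F a) →
    (∀ a, (∀ i, IsPrim (a i)) → F a ≤ (tau (∏ i, a i) : ℝ) ^ r) →
    (∀ a, (∀ i, IsPrim (a i)) → F a ≠ 0 →
      ∃ u v, IsPrim u ∧ IsPrim v ∧ ∏ i, a i = u * v ∧ Pf u ∧ v ∣ q) →
    ∑ a ∈ Fintype.piFinset (fun _ : ι => primBall X), F a * (nm (∏ i, a i) : ℝ) ^ (-(1 / 2 : ℝ)) ≤
      C * (nm q : ℝ) ^ ε * (X : ℝ) ^ ε := by
  classical
  set δ : ℝ := ε / (2 * (r + 1)) with hδ
  have hr : (0 : ℝ) ≤ r := Nat.cast_nonneg _
  have hδ0 : 0 < δ := by rw [hδ]; positivity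
  obtain ⟨C1, hC1, h1⟩ := tau_le_rpow (ε := δ / (2 * r + 1)) (by positivity)
  obtain ⟨C2, hC2, h2⟩ := tau_le_rpow hδ0
  obtain ⟨C3, hC3, h3⟩ := TPD813.sum_pf_le hδ0
  refine ⟨C1 ^ (2 * r) * C2 * (C3 + 1), ?_, ?_⟩
  · have a1 : 1 ≤ C1 ^ (2 * r) := one_le_pow₀ hC1
    have a2 : 1 ≤ C1 ^ (2 * r) * C2 := one_le_mul_of_one_le_of_one_le a1 hC2
    exact one_le_mul_of_one_le_of_one_le a2 (by linarith)
  intro ι _ _ hcard q hq X hX F hF0 hF1 hF2
  have hX1 : (1 : ℝ) ≤ X := by exact_mod_cast hX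
  have hq1 : (1 : ℝ) ≤ nm q := by exact_mod_cast nm_pos.2 hq
  -- the divisor function
  have htau : ∀ n : Eis, n ≠ 0 → (tau n : ℝ) ^ (2 * r) ≤ C1 ^ (2 * r) * (nm n : ℝ) ^ δ := by
    intro n hn
    have b1 := h1 n hn
    have hn1 : (1 : ℝ) ≤ nm n := by exact_mod_cast nm_pos.2 hn
    calc (tau n : ℝ) ^ (2 * r) ≤ (C1 * (nm n : ℝ) ^ (δ / (2 * r + 1))) ^ (2 * r) :=
          pow_le_pow_left₀ (Nat.cast_nonneg _) b1 _
      _ = C1 ^ (2 * r) * (nm n : ℝ) ^ (δ / (2 * r + 1) * (2 * r : ℕ)) := by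
          rw [mul_pow, ← Real.rpow_natCast ((nm n : ℝ) ^ _), ← Real.rpow_mul (by linarith)]
      _ ≤ C1 ^ (2 * r) * (nm n : ℝ) ^ δ := by
          refine mul_le_mul_of_nonneg_left ?_ (by positivity)
          apply Real.rpow_le_rpow_of_exponent_le hn1
          rw [div_mul_eq_mul_div, div_le_iff₀ (by positivity)]
          push_cast
          nlinarith
  set A := Fintype.piFinset (fun _ : ι => primBall X) with hA
  set U := (primBall (X ^ r)).filter Pf with hU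
  have hmA : ∀ x, x ∈ A ↔ ∀ i, nm (x i) ≤ X ∧ IsPrim (x i) := by
    intro x
    rw [hA, Fintype.mem_piFinset]
    exact forall_congr' fun i => mem_primBall
  set Gf : (ι → Eis) → ℝ := fun a => F a * (nm (∏ i, a i) : ℝ) ^ (-(1 / 2 : ℝ)) with hG
  have hG0 : ∀ a, 0 ≤ Gf a := fun a => mul_nonneg (hF0 a) (by positivity)
  have e1 : ∀ a ∈ A, Gf a ≤ ∑ p ∈ U ×ˢ dvs q, if ∏ i, a i = p.1 * p.2 then Gf a else 0 := by
    intro a ha
    rw [hmA] at ha
    by_cases h0 : F a = 0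
    · have : Gf a = 0 := by rw [hG]; simp only; rw [h0, zero_mul]
      rw [this]
      exact Finset.sum_nonneg fun p _ => by split_ifs <;> exact le_rfl
    obtain ⟨u, v, hu, hv, huv, hpf, hvq⟩ := hF2 a (fun i => (ha i).2) h0
    have hmem : (u, v) ∈ U ×ˢ dvs q := by
      rw [Finset.mem_product]
      refine ⟨?_, (mem_dvs hq).2 ⟨hv, hvq⟩⟩
      rw [hU, Finset.mem_filter, mem_primBall]
      refine ⟨⟨?_, hu⟩, hpf⟩
      have b1 : nm u ≤ nm (∏ i, a i) := Div277.nm_le_of_dvd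
        (isPrim_prod fun i => (ha i).2).ne_zero ⟨v, huv⟩
      refine b1.trans ?_
      rw [nm_prod']
      calc ∏ i, nm (a i) ≤ ∏ _i : ι, X := Finset.prod_le_prod' fun i _ => (ha i).1
        _ = X ^ Fintype.card ι := by rw [Finset.prod_const, Fintype.card]
        _ ≤ X ^ r := Nat.pow_le_pow_right hX hcard
    have hs := Finset.single_le_sum (f := fun p : Eis × Eis =>
      if ∏ i, a i = p.1 * p.2 then Gf a else 0) (fun p _ => by
        show 0 ≤ if ∏ i, a i = p.1 * p.2 then Gf a else 0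
        split_ifs
        · exact hG0 a
        · exact le_rfl) hmem
    have hs' : (if ∏ i, a i = u * v then Gf a else 0) ≤
      ∑ p ∈ U ×ˢ dvs q, if ∏ i, a i = p.1 * p.2 then Gf a else 0 := hs
    rwa [if_pos huv] at hs'
  refine (Finset.sum_le_sum e1).trans ?_
  rw [Finset.sum_comm]
  have e2 : ∀ p ∈ U ×ˢ dvs q, ∑ a ∈ A, (if ∏ i, a i = p.1 * p.2 then Gf a else 0) ≤
      C1 ^ (2 * r) * (nm q : ℝ) ^ δ * (((X : ℝ) ^ r) ^ (2 * δ)) *
        (nm p.1 : ℝ) ^ (-(1 / 2 + δ)) := by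
    rintro ⟨u, v⟩ hp
    rw [Finset.mem_product, hU, Finset.mem_filter, mem_primBall, mem_dvs hq] at hp
    obtain ⟨⟨⟨hu1, hu⟩, hpf⟩, hv, hvq⟩ := hp
    simp only at hu1 hu hpf hv hvq ⊢
    have hn : IsPrim (u * v) := hu.mul hv
    rw [← Finset.sum_filter]
    have c1 : ∀ a ∈ A.filter (fun a => ∏ i, a i = u * v), Gf a ≤
        (tau (u * v) : ℝ) ^ r * (nm (u * v) : ℝ) ^ (-(1 / 2 : ℝ)) := by
      intro a ha
      rw [Finset.mem_filter, hmA] at ha
      rw [hG]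
      simp only
      rw [ha.2]
      refine mul_le_mul_of_nonneg_right ?_ (by positivity)
      have := hF1 a fun i => (ha.1 i).2
      rwa [ha.2] at this
    refine (Finset.sum_le_sum c1).trans ?_
    rw [Finset.sum_const, nsmul_eq_mul]
    have c2 : ((A.filter (fun a => ∏ i, a i = u * v)).card : ℝ) ≤ (tau (u * v) : ℝ) ^ r := by
      have d1 : (A.filter (fun a => ∏ i, a i = u * v)).card ≤ (Tu ι (u * v)).card := by
        apply Finset.card_le_card
        intro a ha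
        rw [Finset.mem_filter, hmA] at ha
        rw [mem_Tu]
        exact ⟨fun i => (ha.1 i).2, ha.2⟩
      have d2 : 1 ≤ tau (u * v) := Div277.one_le_tau hn.ne_zero
      have d3 : (Tu ι (u * v)).card ≤ tau (u * v) ^ r :=
        (card_Tu_le _).trans (Nat.pow_le_pow_right d2 hcard)
      exact_mod_cast d1.trans d3
    have hu1' : (1 : ℝ) ≤ nm u := by exact_mod_cast nm_pos.2 hu.ne_zero
    have hv1' : (1 : ℝ) ≤ nm v := by exact_mod_cast nm_pos.2 hv.ne_zero
    have hnuv : (nm (u * v) : ℝ) = (nm u : ℝ) * nm v := by rw [nm_mul]; push_cast; ring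
    calc ((A.filter (fun a => ∏ i, a i = u * v)).card : ℝ) *
          ((tau (u * v) : ℝ) ^ r * (nm (u * v) : ℝ) ^ (-(1 / 2 : ℝ)))
        ≤ (tau (u * v) : ℝ) ^ r * ((tau (u * v) : ℝ) ^ r * (nm (u * v) : ℝ) ^ (-(1 / 2 : ℝ))) := by
          gcongr
      _ = (tau (u * v) : ℝ) ^ (2 * r) * (nm (u * v) : ℝ) ^ (-(1 / 2 : ℝ)) := by
          rw [two_mul, pow_add]; ring
      _ ≤ (C1 ^ (2 * r) * (nm (u * v) : ℝ) ^ δ) * (nm (u * v) : ℝ) ^ (-(1 / 2 : ℝ)) := by
          gcongr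
          exact htau _ hn.ne_zero
      _ = C1 ^ (2 * r) * ((nm u : ℝ) ^ δ * (nm u : ℝ) ^ (-(1 / 2 : ℝ))) *
          ((nm v : ℝ) ^ δ * (nm v : ℝ) ^ (-(1 / 2 : ℝ))) := by
          rw [hnuv, Real.mul_rpow (by positivity) (by positivity),
            Real.mul_rpow (by positivity) (by positivity)]
          ring
      _ ≤ C1 ^ (2 * r) * ((((X : ℝ) ^ r) ^ (2 * δ)) * (nm u : ℝ) ^ (-(1 / 2 + δ))) *
          ((nm q : ℝ) ^ δ * 1) := by
          have g1 : (nm u : ℝ) ^ δ * (nm u : ℝ) ^ (-(1 / 2 : ℝ)) ≤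
              (((X : ℝ) ^ r) ^ (2 * δ)) * (nm u : ℝ) ^ (-(1 / 2 + δ)) := by
            have g2 : (nm u : ℝ) ^ δ * (nm u : ℝ) ^ (-(1 / 2 : ℝ)) =
                (nm u : ℝ) ^ (2 * δ) * (nm u : ℝ) ^ (-(1 / 2 + δ)) := by
              rw [← Real.rpow_add (by linarith), ← Real.rpow_add (by linarith)]
              congr 1; ring
            rw [g2]
            gcongr
            have : nm u ≤ X ^ r := hu1
            exact_mod_cast this
          have g3 : (nm v : ℝ) ^ δ * (nm v : ℝ) ^ (-(1 / 2 : ℝ)) ≤ (nm q : ℝ) ^ δ * 1 := by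
            gcongr
            · exact_mod_cast Div277.nm_le_of_dvd hq hvq
            · exact Real.rpow_le_one_of_one_le_of_nonpos hv1' (by norm_num)
          gcongr
      _ = _ := by ring
  refine (Finset.sum_le_sum e2).trans ?_
  rw [Finset.sum_product]
  simp only [Finset.sum_const, nsmul_eq_mul]
  rw [← Finset.mul_sum, ← Finset.mul_sum]
  have e3 := h3 (X ^ r)
  have e4 : ((dvs q).card : ℝ) ≤ C2 * (nm q : ℝ) ^ δ := h2 q hq
  have e5 : ((X : ℝ) ^ r) ^ (2 * δ) ≤ (X : ℝ) ^ ε := by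
    rw [← Real.rpow_natCast, ← Real.rpow_mul (by linarith)]
    apply Real.rpow_le_rpow_of_exponent_le hX1
    rw [hδ]
    rw [mul_div_assoc', mul_div_assoc', div_le_iff₀ (by positivity)]
    nlinarith
  have e6 : (nm q : ℝ) ^ δ * (nm q : ℝ) ^ δ ≤ (nm q : ℝ) ^ ε := by
    rw [← Real.rpow_add (by linarith)]
    apply Real.rpow_le_rpow_of_exponent_le hq1
    rw [hδ, ← add_div, div_le_iff₀ (by positivity)]
    nlinarith
  set S : ℝ := ∑ i ∈ U, (nm i : ℝ) ^ (-(1 / 2 + δ)) with hS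
  have hS0 : 0 ≤ S := Finset.sum_nonneg fun _ _ => by positivity
  have hS1 : S ≤ C3 + 1 := by linarith
  have hc0 : (0 : ℝ) ≤ ((dvs q).card : ℝ) := Nat.cast_nonneg _
  have hQ0 : 0 ≤ (nm q : ℝ) ^ δ := by positivity
  have hQ1 : 0 ≤ (nm q : ℝ) ^ ε := by positivity
  have hX0 : 0 ≤ ((X : ℝ) ^ r) ^ (2 * δ) := by positivity
  have hX2 : 0 ≤ (X : ℝ) ^ ε := by positivity
  have hK0 : 0 ≤ C1 ^ (2 * r) := by positivity
  exact final_arith hc0 hK0 hQ0 hX0 hS0 (by linarith) e4 e5 hS1 e6 hX2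

end Crest.Agent.R017.HP842
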