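import Crest.Agent.R017.HP4_842
import Crest.Agent.R017.HPL_842
import Crest.Agent.R017.E5a_54

/-!
# Row 17, sides: squarefree ↔ natural for all typed sides (helper842)

* `sq_nat`, `nat_sq` : for families of sequences, any finite set of `k`, any weights
* `sq_nat_pc`, `nat_sq_pc` : for families of typed pieces
* `sq_natL`, `nat_sqL` : for lists of typed pieces
-/

set_option autoImplicit false
set_option linter.unusedSectionVars false
set_option linter.unusedVariables false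
set_option maxHeartbeats 400000

noncomputable section

open Complex
open scoped ComplexConjugate

namespace Crest.Agent.R017.HP842

open Crest.Agent.R012 Crest.Agent.R012.Eis Crest.Agent.R012.LS2 Crest.Agent.R012.Gauss880
open Crest.Agent.R012.Mob705
open Crest.Agent.R012.PSer47 (padiv mem_padiv IsChar)
open Crest.Agent.R012.Div277 (tau dvs mem_dvs tau_le_rpow)
open Crest.Agent.R017.CM106
open Crest.Agent.R017.Asm986 (Pf)

/-- weighted Cauchy-Schwarz -/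
lemma cauchy_box {T κ : Type*} (A : Finset T) (c n : T → ℝ) (hc : ∀ a ∈ A, 0 ≤ c a)
    (hn : ∀ a ∈ A, 0 < n a) (Ks : Finset κ) (W : κ → ℝ) (hW : ∀ k ∈ Ks, 0 ≤ W k)
    (S : κ → ℝ) (z : T → κ → ℝ) (hS0 : ∀ k ∈ Ks, 0 ≤ S k)
    (hS : ∀ k ∈ Ks, S k ≤ ∑ a ∈ A, c a * z a k) {B : ℝ}
    (hB : ∀ a ∈ A, c a ≠ 0 → ∑ k ∈ Ks, W k * z a k ^ 2 ≤ B / n a) :
    ∑ k ∈ Ks, W k * S k ^ 2 ≤ (∑ a ∈ A, c a * n a ^ (-(1 / 2 : ℝ))) ^ 2 * B := by
  set F : ℝ := ∑ a ∈ A, c a * n a ^ (-(1 / 2 : ℝ)) with hF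
  have hF0 : 0 ≤ F := Finset.sum_nonneg fun a ha => mul_nonneg (hc a ha) (Real.rpow_nonneg (hn a ha).le _)
  have e1 : ∀ k ∈ Ks, W k * S k ^ 2 ≤
      W k * (F * ∑ a ∈ A, c a * n a ^ (1 / 2 : ℝ) * z a k ^ 2) := by
    intro k hk
    refine mul_le_mul_of_nonneg_left ?_ (hW k hk)
    refine (pow_le_pow_left₀ (hS0 k hk) (hS k hk) 2).trans ?_
    refine Finset.sum_sq_le_sum_mul_sum_of_sq_eq_mul A
      (fun a ha => mul_nonneg (hc a ha) (Real.rpow_nonneg (hn a ha).le _))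
      (fun a ha => mul_nonneg (mul_nonneg (hc a ha) (Real.rpow_nonneg (hn a ha).le _)) (sq_nonneg _))
      fun a ha => ?_
    have h1 : n a ^ (-(1 / 2 : ℝ)) * n a ^ (1 / 2 : ℝ) = 1 := by
      rw [← Real.rpow_add (hn a ha)]; norm_num
    calc (c a * z a k) ^ 2 = c a * c a * z a k ^ 2 * 1 := by ring
      _ = c a * c a * z a k ^ 2 * (n a ^ (-(1 / 2 : ℝ)) * n a ^ (1 / 2 : ℝ)) := by rw [h1]
      _ = _ := by ring
  refine (Finset.sum_le_sum e1).trans ?_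
  have e2 : ∑ k ∈ Ks, W k * (F * ∑ a ∈ A, c a * n a ^ (1 / 2 : ℝ) * z a k ^ 2) =
      F * ∑ a ∈ A, c a * n a ^ (1 / 2 : ℝ) * ∑ k ∈ Ks, W k * z a k ^ 2 := by
    simp_rw [Finset.mul_sum]
    rw [Finset.sum_comm]
    refine Finset.sum_congr rfl fun a _ => Finset.sum_congr rfl fun k _ => ?_
    ring
  rw [e2, pow_two, mul_assoc]
  refine mul_le_mul_of_nonneg_left ?_ hF0
  rw [hF, Finset.sum_mul]
  refine Finset.sum_le_sum fun a ha => ?_
  by_cases h0 : c a = 0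
  · rw [h0]; simp
  have hna := hn a ha
  have h2 : n a ^ (1 / 2 : ℝ) / n a = n a ^ (-(1 / 2 : ℝ)) := by
    rw [div_eq_iff hna.ne']
    nth_rewrite 3 [← Real.rpow_one (n a)]
    rw [← Real.rpow_add hna]; norm_num
  calc c a * n a ^ (1 / 2 : ℝ) * ∑ k ∈ Ks, W k * z a k ^ 2
      ≤ c a * n a ^ (1 / 2 : ℝ) * (B / n a) :=
        mul_le_mul_of_nonneg_left (hB a ha h0)
          (mul_nonneg (hc a ha) (Real.rpow_nonneg hna.le _))
    _ = c a * (n a ^ (1 / 2 : ℝ) / n a) * B := by ring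
    _ = _ := by rw [h2]

lemma norm_sy_prim {k b : Eis} (hb : IsPrim b) : ‖sy k b‖ ≤ 1 := norm_sy_le' hb

/-- the character side of a squarefree restriction -/
lemma CS_sqc {ι : Type*} [Fintype ι] [DecidableEq ι] {f : ι → Eis → ℂ} {X : ℕ} (hf : Bd X f)
    (hfs : ∀ i, FS (f i)) (q k : Eis) :
    CS (sqc q (cv f)) k = ∑ a ∈ Fintype.piFinset (fun _ : ι => primBall X), lamQ q a *
      (sy k (∏ i, a i) * CS (cv (fun i => sub (f i) (a i))) k) := by
  unfold CS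
  rw [sum_sqc_cv hf q (fun m => sy k m)]
  refine Finset.sum_congr rfl fun a ha => ?_
  rw [Fintype.mem_piFinset] at ha
  have hap : ∀ i, IsPrim (a i) := fun i => (mem_primBall.1 (ha i)).2
  congr 1
  rw [← tsum_mul_left (a := sy k (∏ i, a i))]
  refine tsum_congr fun m => ?_
  by_cases hm : IsPrim m
  · rw [Sym645.syFacts.mul_right _ _ _ (isPrim_prod hap) hm]; ring
  · rw [cv_not_prim hm]; ring

/-- **squarefree → natural** -/
theorem sq_nat (r : ℕ) {ε : ℝ} (hε : 0 < ε) : ∃ C : ℝ, 1 ≤ C ∧ ∀ (ι : Type) [Fintype ι]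
    [DecidableEq ι], Fintype.card ι ≤ r → ∀ (f : ι → Eis → ℂ) (X : ℕ), 1 ≤ X → Bd X f →
    (∀ i, FS (f i)) → ∀ q : Eis, q ≠ 0 → ∀ (Ks : Finset Eis) (W : Eis → ℝ), (∀ k ∈ Ks, 0 ≤ W k) →
    ∀ B : ℝ, 0 ≤ B →
    (∀ a : ι → Eis, (∀ i, IsPrim (a i)) → (∀ i, nm (a i) ≤ X) →
      ∑ k ∈ Ks, W k * ‖CS (cv (fun i => sub (f i) (a i))) k‖ ^ 2 ≤ B / nm (∏ i, a i)) →
    ∑ k ∈ Ks, W k * ‖CS (sqc q (cv f)) k‖ ^ 2 ≤ C * (nm q : ℝ) ^ ε * (X : ℝ) ^ ε * B := by
  obtain ⟨C, hC, H⟩ := sum_box_le r (ε := ε / 2) (by positivity)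
  refine ⟨C ^ 2, one_le_pow₀ hC, ?_⟩
  intro ι _ _ hcard f X hX hf hfs q hq Ks W hW B hB0 hB
  set A := Fintype.piFinset (fun _ : ι => primBall X) with hA
  have hmA : ∀ x, x ∈ A → ∀ i, nm (x i) ≤ X ∧ IsPrim (x i) := by
    intro x hx i
    rw [hA, Fintype.mem_piFinset] at hx
    exact mem_primBall.1 (hx i)
  have hX1 : (1 : ℝ) ≤ X := by exact_mod_cast hX
  have hq1 : (1 : ℝ) ≤ nm q := by exact_mod_cast nm_pos.2 hq
  have h1 := cauchy_box A (fun a => ‖lamQ q a‖) (fun a => (nm (∏ i, a i) : ℝ))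
    (fun a _ => norm_nonneg _)
    (fun a ha => by
      have : IsPrim (∏ i, a i) := isPrim_prod fun i => (hmA a ha i).2
      exact_mod_cast nm_pos.2 this.ne_zero) Ks W hW
    (fun k => ‖CS (sqc q (cv f)) k‖) (fun a k => ‖CS (cv (fun i => sub (f i) (a i))) k‖)
    (fun k _ => norm_nonneg _)
    (fun k _ => by
      show ‖CS (sqc q (cv f)) k‖ ≤ _
      rw [CS_sqc hf hfs q k]
      refine (norm_sum_le _ _).trans (Finset.sum_le_sum fun a ha => ?_)
      rw [norm_mul, norm_mul]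
      have : ‖sy k (∏ i, a i)‖ ≤ 1 := norm_sy_prim (isPrim_prod fun i => (hmA a ha i).2)
      refine mul_le_mul_of_nonneg_left ?_ (norm_nonneg _)
      exact mul_le_of_le_one_left (norm_nonneg _) this)
    (B := B) (fun a ha _ => hB a (fun i => (hmA a ha i).2) (fun i => (hmA a ha i).1))
  have h2 := H ι hcard q hq X hX (fun a => ‖lamQ q a‖) (fun a => norm_nonneg _)
    (fun a ha => (norm_lamQ_le' q ha).trans (by
      refine pow_le_pow_right₀ ?_ hcard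
      exact_mod_cast Div277.one_le_tau (isPrim_prod ha).ne_zero))
    (fun a ha h0 => lamQ_supp ha (norm_ne_zero_iff.1 h0))
  refine h1.trans ?_
  set T0 := ∑ a ∈ A, ‖lamQ q a‖ * (nm (∏ i, a i) : ℝ) ^ (-(1 / 2 : ℝ)) with hS
  have hS0 : 0 ≤ T0 := Finset.sum_nonneg fun a _ => by positivity
  have h3 : T0 ^ 2 ≤ (C * (nm q : ℝ) ^ (ε / 2) * (X : ℝ) ^ (ε / 2)) ^ 2 :=
    pow_le_pow_left₀ hS0 h2 2
  have h4 : (C * (nm q : ℝ) ^ (ε / 2) * (X : ℝ) ^ (ε / 2)) ^ 2 =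
      C ^ 2 * (nm q : ℝ) ^ ε * (X : ℝ) ^ ε := by
    rw [mul_pow, mul_pow, ← Real.rpow_natCast ((nm q : ℝ) ^ _), ← Real.rpow_mul (by linarith),
      ← Real.rpow_natCast ((X : ℝ) ^ _), ← Real.rpow_mul (by linarith)]
    congr 2
    · congr 2; push_cast; ring
    · congr 1; push_cast; ring
  rw [h4] at h3
  exact mul_le_mul_of_nonneg_right h3 hB0

lemma sqc_eq54 {ι : Type*} [Fintype ι] [DecidableEq ι] (g : ι → Eis → ℂ) (b : Eis) :
    E554.sqc g b = sqc b (cv g) := by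
  classical
  funext n
  unfold E554.sqc sqc Th cv Tu
  split_ifs
  · rw [one_mul]
    refine Finset.sum_congr ?_ fun _ _ => rfl
    ext a
    simp only [Finset.mem_filter, Fintype.mem_piFinset]
  · rw [zero_mul]

open Classical in
/-- the natural sum as a sum over powerful parts -/
lemma CS_cv_pf {ι : Type*} [Fintype ι] [DecidableEq ι] {f : ι → Eis → ℂ} {X : ℕ} (hf : Bd X f)
    (hfs : ∀ i, FS (f i)) (k : Eis) :
    CS (cv f) k = ∑ a ∈ Fintype.piFinset (fun _ : ι => primBall X), if Pf (∏ i, a i) then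
      sy k (∏ i, a i) * CS (sqc (∏ i, a i) (cv (fun i => sub (f i) (a i)))) k else 0 := by
  rw [CS_cv hfs, E554.prod_CS (X := X) (fun i m hm => by
        have := hf i m hm
        rw [mem_primBall] at this
        exact ⟨this.2, this.1⟩) k, Finset.sum_filter]
  refine Finset.sum_congr ?_ fun a _ => ?_
  · ext a
    simp only [Fintype.mem_piFinset]
  · by_cases h : Pf (∏ i, a i)
    · rw [if_pos h, if_pos h, sqc_eq54]
    · rw [if_neg h, if_neg h]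

/-- **natural → squarefree** -/
theorem nat_sq (r : ℕ) {ε : ℝ} (hε : 0 < ε) : ∃ C : ℝ, 1 ≤ C ∧ ∀ (ι : Type) [Fintype ι]
    [DecidableEq ι], Fintype.card ι ≤ r → ∀ (f : ι → Eis → ℂ) (X : ℕ), 1 ≤ X → Bd X f →
    (∀ i, FS (f i)) → ∀ (Ks : Finset Eis) (W : Eis → ℝ), (∀ k ∈ Ks, 0 ≤ W k) →
    ∀ B : ℝ, 0 ≤ B →
    (∀ a : ι → Eis, (∀ i, IsPrim (a i)) → (∀ i, nm (a i) ≤ X) → Pf (∏ i, a i) →
      ∑ k ∈ Ks, W k * ‖CS (sqc (∏ i, a i) (cv (fun i => sub (f i) (a i)))) k‖ ^ 2 ≤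
        B / nm (∏ i, a i)) →
    ∑ k ∈ Ks, W k * ‖CS (cv f) k‖ ^ 2 ≤ C * (X : ℝ) ^ ε * B := by
  classical
  obtain ⟨C, hC, H⟩ := sum_box_le r (ε := ε / 2) (by positivity)
  refine ⟨C ^ 2, one_le_pow₀ hC, ?_⟩
  intro ι _ _ hcard f X hX hf hfs Ks W hW B hB0 hB
  set A := Fintype.piFinset (fun _ : ι => primBall X) with hA
  have hmA : ∀ x, x ∈ A → ∀ i, nm (x i) ≤ X ∧ IsPrim (x i) := by
    intro x hx i
    rw [hA, Fintype.mem_piFinset] at hx
    exact mem_primBall.1 (hx i)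
  have hX1 : (1 : ℝ) ≤ X := by exact_mod_cast hX
  obtain ⟨c, hc1, hc0⟩ : ∃ c : (ι → Eis) → ℝ, (∀ a, Pf (∏ i, a i) → c a = 1) ∧
      (∀ a, ¬ Pf (∏ i, a i) → c a = 0) :=
    ⟨fun a => if Pf (∏ i, a i) then 1 else 0, fun a h => if_pos h, fun a h => if_neg h⟩
  have hcn : ∀ a, 0 ≤ c a := by
    intro a
    by_cases h : Pf (∏ i, a i)
    · rw [hc1 a h]; norm_num
    · rw [hc0 a h]
  have h1 := cauchy_box A c (fun a => (nm (∏ i, a i) : ℝ))
    (fun a _ => hcn a)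
    (fun a ha => by
      have : IsPrim (∏ i, a i) := isPrim_prod fun i => (hmA a ha i).2
      exact_mod_cast nm_pos.2 this.ne_zero) Ks W hW
    (fun k => ‖CS (cv f) k‖)
    (fun a k => ‖CS (sqc (∏ i, a i) (cv (fun i => sub (f i) (a i)))) k‖)
    (fun k _ => norm_nonneg _)
    (fun k _ => by
      show ‖CS (cv f) k‖ ≤ _
      rw [CS_cv_pf hf hfs k]
      refine (norm_sum_le _ _).trans (Finset.sum_le_sum fun a ha => ?_)
      by_cases hp : Pf (∏ i, a i)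
      · rw [if_pos hp, hc1 a hp, norm_mul, one_mul]
        have : ‖sy k (∏ i, a i)‖ ≤ 1 := norm_sy_prim (isPrim_prod fun i => (hmA a ha i).2)
        exact mul_le_of_le_one_left (norm_nonneg _) this
      · rw [if_neg hp, hc0 a hp, norm_zero, zero_mul])
    (B := B) (fun a ha h0 => by
      have hp : Pf (∏ i, a i) := by
        by_contra hp
        exact h0 (hc0 a hp)
      exact hB a (fun i => (hmA a ha i).2) (fun i => (hmA a ha i).1) hp)
  have h2 := H ι hcard 1 one_ne_zero X hX c hcn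
    (fun a ha => by
      have : (1 : ℝ) ≤ (tau (∏ i, a i) : ℝ) := by
        exact_mod_cast Div277.one_le_tau (isPrim_prod ha).ne_zero
      have h3 : (1 : ℝ) ≤ (tau (∏ i, a i) : ℝ) ^ r := one_le_pow₀ this
      by_cases h : Pf (∏ i, a i)
      · rw [hc1 a h]; exact h3
      · rw [hc0 a h]; linarith)
    (fun a ha h0 => by
      refine ⟨∏ i, a i, 1, isPrim_prod ha, isPrim_one, (mul_one _).symm, ?_, one_dvd _⟩
      by_contra hp
      exact h0 (hc0 a hp))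
  refine h1.trans ?_
  set T0 := ∑ a ∈ A, c a * (nm (∏ i, a i) : ℝ) ^ (-(1 / 2 : ℝ)) with hS
  have hS0 : 0 ≤ T0 := Finset.sum_nonneg fun a _ => by
    exact mul_nonneg (hcn a) (Real.rpow_nonneg (Nat.cast_nonneg _) _)
  rw [nm_one, Nat.cast_one, Real.one_rpow, mul_one] at h2
  have h3 : T0 ^ 2 ≤ (C * (X : ℝ) ^ (ε / 2)) ^ 2 := pow_le_pow_left₀ hS0 h2 2
  have h4 : (C * (X : ℝ) ^ (ε / 2)) ^ 2 = C ^ 2 * (X : ℝ) ^ ε := by
    rw [mul_pow, ← Real.rpow_natCast ((X : ℝ) ^ _), ← Real.rpow_mul (by linarith)]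
    congr 2
    push_cast; ring
  rw [h4] at h3
  exact mul_le_mul_of_nonneg_right h3 hB0

end Crest.Agent.R017.HP842
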