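import Crest.Agent.R017.HmX_813
import Crest.Agent.R017.RnPa_571

/-!
# Row 17, exceptional class, mismatch: the savings of the bias (helper65)

* `S0X` : the shortest of the four lengths of the exchanged pair
* `loX` : each of the four lengths is at least the parent's minus the own number and `4 τ log X`
* `hS0_D`, `hS0_S` : the premise `hS0` of helper72's `xmG_of`
* `hs_D`, `hs_S` : the premise `hs` of helper957's `ltG_of`
-/

set_option autoImplicit false
set_option linter.unusedVariables false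

noncomputable section

open Finset Filter

namespace Crest.Agent.R017.HS065

open Crest.Agent.R012 Crest.Agent.R012.Eis Crest.Agent.R012.Div277
open Crest.Agent.R017.CM106 Crest.Agent.R017.C70
open Crest.Agent.R017.P1e54 Crest.Agent.R017.P1f54 Crest.Agent.R017.P1k54
open Crest.Agent.R017.P1l54 (ParOK oN)
open Crest.Agent.R017.P1u54
open Crest.Agent.R017.B770 Crest.Agent.R017.Prov71
open Crest.Agent.R017.E5B71 Crest.Agent.R017.E5P571 Crest.Agent.R017.E5L770
open Crest.Agent.R017.ExBox960 Crest.Agent.R017.ExP960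
open Crest.Agent.R017.P1X960
open Crest.Agent.R017.TM708 (PD)
open Crest.Agent.R017.I1146 (LN)
open Crest.Agent.R017.RnP571 (Dh)
open Crest.Agent.R017.P1MU960
open Crest.Agent.R017.P1yX72
open Crest.Agent.R017.HmX813

/-- the shortest of the four lengths of the exchanged pair -/
def S0X (a : BmX) : ℝ :=
  min (min (a.1.2.1 0).z (a.1.2.1 1).z) (min ((a.1.2.1 0).z - dz a.1.1) ((a.1.2.1 1).z + dz a.1.1))

variable {c β : ℝ} {p : IX5 → ℝ} {X τ B H : ℝ} {N : ℕ} {a : BmX} {qs : List Pq}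

/-- the four lengths -/
theorem loX (F : Fr9X c β p X τ B H N a qs) (G : FrD p X τ B H N a qs) :
    cu (prX p) 2 * Real.log X - a.1.2.2 - 4 * (τ * Real.log X) ≤ (a.1.2.1 0).z ∧
    cu (prX p) 3 * Real.log X - a.1.2.2 - 4 * (τ * Real.log X) ≤ (a.1.2.1 1).z ∧
    p (.inr 1) * Real.log X - a.1.2.2 - 4 * (τ * Real.log X) ≤ (a.1.2.1 0).z - dz a.1.1 ∧
    (cu (prX p) 2 + cu (prX p) 3 - p (.inr 1)) * Real.log X - a.1.2.2 -
      4 * (τ * Real.log X) ≤ (a.1.2.1 1).z + dz a.1.1 := by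
  have hL := F.L
  obtain ⟨b1, b2⟩ := abs_le.1 F.b
  obtain ⟨A1, A2⟩ := abs_le.1 F.A
  have hN : cN (prX p) = cu (prX p) 2 + cu (prX p) 3 + cu (prX p) 4 := rfl
  rw [hN] at A1 A2
  have z1 : (a.1.2.1 0).z ≤ (cu (prX p) 2 + τ) * Real.log X := G.pdN.z1
  have z2 : (a.1.2.1 1).z ≤ (cu (prX p) 3 + τ) * Real.log X := G.pdN.z2
  have z3 : (a.1.2.1 2).z ≤ (cu (prX p) 4 + τ) * Real.log X := G.pdN.z3
  have r1 : (a.1.2.1 0).z - dz a.1.1 ≤ (p (.inr 1) + τ) * Real.log X := G.pdR.z1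
  have r2 : (a.1.2.1 1).z + dz a.1.1 ≤
      (cu (prX p) 2 + cu (prX p) 3 - p (.inr 1) + τ) * Real.log X := G.pdR.z2
  refine ⟨by linarith, by linarith, by linarith, by linarith⟩

/-- the shortest length at a difference -/
theorem S0X_lo (F : Fr9X c β p X τ B H N a qs) (G : FrD p X τ B H N a qs)
    (hβ : 17 / 100 ≤ β) (hβ1 : β ≤ 1 / 5) {D : ℝ}
    (hDh : Dh (cκ (prX p)) (cu (prX p) 2) (cu (prX p) 3) (cu (prX p) 4) (cx' (prX p)) D) :
    17 / 100 * (cκ (prX p) * Real.log X) - a.1.2.2 - 4 * (τ * Real.log X) ≤ S0X a := by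
  have hL := F.L
  obtain ⟨h1, h2, h3, h4⟩ := loX F G
  have hκ := F.par.κ0
  have hκ1 := F.par.κ1
  obtain ⟨q1, q2⟩ := F.zr 1
  have u0 := hDh.u0
  have u4 := hDh.u4
  have y43 := hDh.y43
  have e1 : 17 / 100 * cκ (prX p) ≤ cu (prX p) 2 := by linarith
  have e2 : 17 / 100 * cκ (prX p) ≤ cu (prX p) 3 := by linarith
  have e3 : 17 / 100 * cκ (prX p) ≤ p (.inr 1) := by
    have : 17 / 100 * cκ (prX p) ≤ β * cκ (prX p) :=
      mul_le_mul_of_nonneg_right hβ (by linarith)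
    linarith
  have e4 : 17 / 100 * cκ (prX p) ≤ cu (prX p) 2 + cu (prX p) 3 - p (.inr 1) := by linarith
  have m1 := mul_le_mul_of_nonneg_right e1 hL.le
  have m2 := mul_le_mul_of_nonneg_right e2 hL.le
  have m3 := mul_le_mul_of_nonneg_right e3 hL.le
  have m4 := mul_le_mul_of_nonneg_right e4 hL.le
  have g : 17 / 100 * (cκ (prX p) * Real.log X) = 17 / 100 * cκ (prX p) * Real.log X := by ring
  rw [g]
  unfold S0X
  refine le_min (le_min ?_ ?_) (le_min ?_ ?_)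
  · linarith
  · linarith
  · linarith
  · linarith

/-- what a single list lost -/
theorem lost_S (F : Fr9X c β p X τ B H N a qs) (G : FrS β p X τ B H N a qs)
    (hβ : 17 / 100 ≤ β) :
    17 / 100 * (cκ (prX p) * Real.log X) - 2 * (τ * Real.log X) ≤ a.1.2.2 := by
  have hL := F.L
  have hκ := F.par.κ0
  obtain ⟨b1, b2⟩ := abs_le.1 F.b
  have hl := G.lost
  have h1 : 17 / 100 * (cκ (prX p) * Real.log X) ≤ β * cκ (prX p) * Real.log X := by
    have h2 : 0 ≤ cκ (prX p) * Real.log X := mul_nonneg (by linarith) hL.le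
    have h3 := mul_le_mul_of_nonneg_right hβ h2
    linarith [mul_assoc β (cκ (prX p)) (Real.log X)]
  linarith

/-- helper72's `hS0` at the differences -/
theorem hS0_D (hβ : 17 / 100 ≤ β) (hβ1 : β ≤ 1 / 5) {D : ℝ}
    (hDh : Dh (cκ (prX p)) (cu (prX p) 2) (cu (prX p) 3) (cu (prX p) 4) (cx' (prX p)) D)
    (hτ : 0 ≤ τ) (F : Fr9X c β p X τ B H N a qs) (G : FrD p X τ B H N a qs) :
    17 / 100 * (cκ (prX p) * Real.log X) - a.1.2.2 - 9 * (τ * Real.log X) ≤ S0X a := by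
  have h := S0X_lo F G hβ hβ1 hDh
  have h0 : 0 ≤ τ * Real.log X := mul_nonneg hτ F.L.le
  linarith

/-- helper72's `hS0` at the single lists -/
theorem hS0_S (hβ : 17 / 100 ≤ β) (hτ : 0 ≤ τ) (F : Fr9X c β p X τ B H N a qs)
    (G : FrS β p X τ B H N a qs) :
    17 / 100 * (cκ (prX p) * Real.log X) - a.1.2.2 - 9 * (τ * Real.log X) ≤ 0 := by
  have h := lost_S F G hβ
  have h0 : 0 ≤ τ * Real.log X := mul_nonneg hτ F.L.le
  linarith

/-- helper957's `hs` at the differences -/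
theorem hs_D (hβ : 17 / 100 ≤ β) (hβ1 : β ≤ 1 / 5) {D : ℝ}
    (hDh : Dh (cκ (prX p)) (cu (prX p) 2) (cu (prX p) 3) (cu (prX p) 4) (cx' (prX p)) D)
    (h0 : 0 ≤ τ * Real.log X) (F : Fr9X c β p X τ B H N a qs) (G : FrD p X τ B H N a qs) :
    (sX a ≤ 0 ∨ sX a ≤ S0X a - Real.log (nm a.2.1) + 5 * (τ * Real.log X)) ∧
    17 / 100 * (cκ (prX p) * Real.log X) - a.1.2.2 - Real.log (nm a.2.1) -
      5 * (τ * Real.log X) ≤ sX a := by
  have h := S0X_lo F G hβ hβ1 hDh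
  obtain ⟨k1, k2⟩ := abs_le.1 F.l
  constructor
  · right
    unfold sX
    linarith
  · unfold sX
    linarith

/-- helper957's `hs` at the single lists -/
theorem hs_S (hβ : 17 / 100 ≤ β) (h0 : 0 ≤ τ * Real.log X) (F : Fr9X c β p X τ B H N a qs)
    (G : FrS β p X τ B H N a qs) (s : ℝ) :
    ((0 : ℝ) ≤ 0 ∨ (0 : ℝ) ≤ s - Real.log (nm a.2.1) + 5 * (τ * Real.log X)) ∧
    17 / 100 * (cκ (prX p) * Real.log X) - a.1.2.2 - Real.log (nm a.2.1) -
      5 * (τ * Real.log X) ≤ 0 := by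
  have h := lost_S F G hβ
  have hg := F.g0
  exact ⟨Or.inl le_rfl, by linarith⟩

end Crest.Agent.R017.HS065
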