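import Crest.Agent.R017.P1X1_960

/-!
# Row 17, exceptional class, P1 for a combination of two families, list form (helper960)

* `Sim` : two families of the same shape (only the lengths differ)
* `cX` : the sequence of a child;  `err_rho_leX`, `err_listX` (own windows)
-/

set_option autoImplicit false

noncomputable section

open Finset
open scoped ComplexConjugate

namespace Crest.Agent.R017.P1X960

open Crest.Agent.R012 Crest.Agent.R012.Eis Crest.Agent.R012.Div277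
open Crest.Agent.R012.Mob705 hiding pb mem_pb
open Crest.Agent.R012.LS2 (S mem_S)
open Crest.Agent.R017.CM106 Crest.Agent.R017.C70
open Crest.Agent.R017.StC828 (SqS cvc)
open Crest.Agent.R017.StD828 (ln Tm)
open Crest.Agent.R017.E2440 (TE StE)
open Crest.Agent.R017.E3A164 (SteT)
open Crest.Agent.R017.E5k54 (PT alb SS)
open Crest.Agent.R017.P1e54 Crest.Agent.R017.P1f54 Crest.Agent.R017.SSb54 Crest.Agent.R017.P1h54
open Crest.Agent.R017.HP842 (Pc pc al cv Tu mem_Tu scS sc' sqc Th)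
open Crest.Agent.R017.Rough381 (sh)
open Crest.Agent.R017.End699 (prin0)

variable {ι κ : Type*} [Fintype ι] [Fintype κ] [DecidableEq ι] [DecidableEq κ]

/-- the same shape: only the lengths differ, and not on the left -/
structure Sim (s₁ s₂ : ι ⊕ κ → Pc) : Prop where
  l : ∀ i, s₁ (.inl i) = s₂ (.inl i)
  u : ∀ i, (s₁ i).u = (s₂ i).u
  ψ : ∀ i, (s₁ i).ψ = (s₂ i).ψ
  t : ∀ i, (s₁ i).t = (s₂ i).t

lemma sc'_sim {p q : Pc} (hu : p.u = q.u) (hψ : p.ψ = q.ψ) (ht : p.t = q.t) (a : Eis) :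
    sc' p a = sc' q a := by
  unfold sc' HP842.sc
  rw [hu, hψ, ht]

lemma kS_sim {s₁ s₂ : ι ⊕ κ → Pc} (h : Sim s₁ s₂) (γ : ι → Eis) (β : κ → Eis) (g : Eis)
    (x : ι → Eis) (y : κ → Eis) : kS s₁ γ β g x y = kS s₂ γ β g x y := by
  unfold kS k1
  congr 1
  · split_ifs
    · exact prod_congr rfl fun i _ => sc'_sim (h.u _) (h.ψ _) (h.t _) _
    · rfl
  · split_ifs
    · exact prod_congr rfl fun i _ => sc'_sim (h.u _) (h.ψ _) (h.t _) _
    · rfl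

/-- the sequence of a child -/
def cX (z w : ℂ) (h : ℝ → ℝ) (s₁ s₂ : ι ⊕ κ → Pc) (γ : ι → Eis) (β : κ → Eis) (g : Eis)
    (x : ι → Eis) (y : κ → Eis) : Eis → ℂ :=
  cmb z w (sqc 1 (al h (chS s₁ γ β g x y))) (sqc 1 (al h (chS s₂ γ β g x y)))

/-- **the error of the product through the children** -/
theorem err_rho_leX {h : ℝ → ℝ} {R : ℝ} (hR : ∀ u, FE47.cx h u ≠ 0 → |u| ≤ R)
    {s₁ s₂ : ι ⊕ κ → Pc} (hs₁ : ∀ i, (s₁ i).OK) (hs₂ : ∀ i, (s₂ i).OK) (hS : Sim s₁ s₂)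
    {γ : ι → Eis} {β : κ → Eis}
    (hγ : ∀ i, IsPrim (γ i)) (hβ : ∀ i, IsPrim (β i)) {g : Eis} (hg : IsPrim g)
    (hgs : Squarefree g) {Z : ℝ} (hZ : 0 ≤ Z)
    (hsup : ∀ a, sub (alb (fun i => pc h (s₁ (.inl i))) γ) g a ≠ 0 → a ∈ S Z)
    (z w c : ℂ) (E0 : ℝ) {J : Finset (Eis × Eis)} (hJ : ∀ x ∈ J, x.1 ≠ 0) (om : Eis × Eis → ℂ)
    {u : Eis → ℝ} (h0 : ∀ k, 0 ≤ u k) (hu : (Function.support u).Finite) {B : ℝ} (hB : 0 ≤ B)
    (hch : ∀ x ∈ Tu ι g, ∀ y ∈ Tu κ g, M2 u (Er c E0 J om (cX z w h s₁ s₂ γ β g x y)) ≤ B) :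
    M2 u (Er c E0 J om (rhX z w Z (fun j => pc h (s₁ (.inr j))) (fun j => pc h (s₂ (.inr j)))
      (fun i => pc h (s₁ (.inl i))) β γ g)) ≤
      ((tau g : ℝ) ^ Fintype.card ι * (tau g : ℝ) ^ Fintype.card κ) ^ 2 * B := by
  classical
  have hl : (fun i => pc h (s₁ (.inl i))) = fun i => pc h (s₂ (.inl i)) := by
    funext i; rw [hS.l]
  have hFc : ∀ x ∈ Tu ι g, ∀ y ∈ Tu κ g, FS (cX z w h s₁ s₂ γ β g x y) := fun x hx y hy =>
    FS_cmb (FS_sqc_al hR (chS_OK hs₁ hγ ((mem_Tu.1 hx).1) hβ ((mem_Tu.1 hy).1) g) 1)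
      (FS_sqc_al hR (chS_OK hs₂ hγ ((mem_Tu.1 hx).1) hβ ((mem_Tu.1 hy).1) g) 1) z w
  have e1 : Er c E0 J om (rhX z w Z (fun j => pc h (s₁ (.inr j))) (fun j => pc h (s₂ (.inr j)))
      (fun i => pc h (s₁ (.inl i))) β γ g) =
      fun k => ∑ p ∈ Tu ι g ×ˢ Tu κ g, kS s₁ γ β g p.1 p.2 *
        Er c E0 J om (cX z w h s₁ s₂ γ β g p.1 p.2) k := by
    funext k
    have e2 : rhX z w Z (fun j => pc h (s₁ (.inr j))) (fun j => pc h (s₂ (.inr j)))
        (fun i => pc h (s₁ (.inl i))) β γ g =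
        ∑ p ∈ Tu ι g ×ˢ Tu κ g, kS s₁ γ β g p.1 p.2 • cX z w h s₁ s₂ γ β g p.1 p.2 := by
      unfold rhX cmb
      rw [rho_eq hs₁ hγ hβ hg hgs hZ hsup]
      conv_lhs => rw [hl]
      rw [rho_eq hs₂ hγ hβ hg hgs hZ (by rw [← hl]; exact hsup), smul_sum, smul_sum,
        ← sum_add_distrib]
      refine sum_congr rfl fun p _ => ?_
      rw [← kS_sim hS]
      unfold cX cmb
      rw [smul_add, smul_comm z, smul_comm w]
    rw [e2]
    refine Er_sum _ _ _ (fun p hp => ?_) c E0 hJ om k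
    obtain ⟨h1, h2⟩ := mem_product.1 hp
    exact hFc _ h1 _ h2
  rw [e1]
  refine (M2_sum_le h0 hu _ _ (fun _ => 1) (fun _ _ => one_pos)).trans ?_
  have hcard : ((Tu ι g ×ˢ Tu κ g).card : ℝ) ≤
      (tau g : ℝ) ^ Fintype.card ι * (tau g : ℝ) ^ Fintype.card κ := by
    rw [card_product]
    push_cast
    exact mul_le_mul (by exact_mod_cast HP842.card_Tu_le g) (by exact_mod_cast HP842.card_Tu_le g)
      (Nat.cast_nonneg _) (by positivity)
  have h2 : ∑ p ∈ Tu ι g ×ˢ Tu κ g, ((1 : ℝ))⁻¹ * M2 u (fun k => kS s₁ γ β g p.1 p.2 *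
        Er c E0 J om (cX z w h s₁ s₂ γ β g p.1 p.2) k) ≤ ∑ _p ∈ Tu ι g ×ˢ Tu κ g, B := by
    refine sum_le_sum fun p hp => ?_
    obtain ⟨h1, h2⟩ := mem_product.1 hp
    rw [inv_one, one_mul]
    refine (M2_mono h0 hu fun k => ?_).trans (hch p.1 h1 p.2 h2)
    rw [norm_mul]
    exact mul_le_of_le_one_left (norm_nonneg _)
      (norm_kS_le hs₁ hγ ((mem_Tu.1 h1).1) hβ ((mem_Tu.1 h2).1) g)
  rw [sum_const, nsmul_eq_mul] at h2
  have h3 : ∑ _p ∈ Tu ι g ×ˢ Tu κ g, (1 : ℝ) = ((Tu ι g ×ˢ Tu κ g).card : ℝ) := by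
    rw [sum_const, nsmul_eq_mul, mul_one]
  rw [h3]
  calc ((Tu ι g ×ˢ Tu κ g).card : ℝ) * _ ≤ ((Tu ι g ×ˢ Tu κ g).card : ℝ) *
        (((Tu ι g ×ˢ Tu κ g).card : ℝ) * B) := mul_le_mul_of_nonneg_left h2 (Nat.cast_nonneg _)
    _ = ((Tu ι g ×ˢ Tu κ g).card : ℝ) ^ 2 * B := by ring
    _ ≤ _ := mul_le_mul_of_nonneg_right (pow_le_pow_left₀ (Nat.cast_nonneg _) hcard 2) hB

set_option maxHeartbeats 1000000 in
/-- **the second moment of the amplified error, list form, small tuples**: if the errors of all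
children and the mismatches with `β ∈ T`, and the plain second moments of the children with
`β ∉ T`, are `≤ B / (N(γ) N(β) N(g)²)`, then the total is `≤ C X^ε B`. -/
theorem err_listX (ι κ : Type*) [Fintype ι] [Fintype κ] [DecidableEq ι] [DecidableEq κ]
    {ε : ℝ} (hε : 0 < ε) : ∃ C : ℝ, 0 ≤ C ∧ ∀ (X : ℝ), 1 ≤ X → ∀ {h : ℝ → ℝ} {R : ℝ},
      (∀ u, FE47.cx h u ≠ 0 → |u| ≤ R) → ∀ {s₁ s₂ : ι ⊕ κ → Pc}, (∀ i, (s₁ i).OK) →
      (∀ i, (s₂ i).OK) → Sim s₁ s₂ →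
      ∀ {Y : ℕ} {Z : ℝ}, (Y : ℝ) ≤ X → 0 ≤ Z → Z ≤ X →
      (∀ i m, pc h (s₁ i) m ≠ 0 → nm m ≤ Y) → (∀ i m, pc h (s₂ i) m ≠ 0 → nm m ≤ Y) →
      ∏ i : ι, ((s₁ (.inl i)).Y * Real.exp R) ≤ Z →
      ∀ {D Y₀ Y₁ D' Y₀' Y₁' : ℝ}, 0 ≤ D → Y₀ < 1 → 0 ≤ Y₁ → Y₁ ≤ D ^ 2 → 0 ≤ D' → Y₀' < 1 →
      Y₁' ≤ D' ^ 2 → Y₁ * Z ^ 2 ≤ Y₁' → ∀ {o : (κ → Eis) → Eis → ℂ},
      (∀ β z, o β z ≠ 0 → (nm z : ℝ) ≤ Y₁) →
      ∀ {E0 : ℝ}, 0 ≤ E0 → ∀ {T : Finset (κ → Eis)}, T ⊆ PT κ Y → ∀ (z w c : ℂ) {u : Eis → ℝ},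
      (∀ k, 0 ≤ u k) → (Function.support u).Finite → ∀ {B : ℝ}, 0 ≤ B →
      (∀ (γ : ι → Eis) (β : κ → Eis) (g : Eis), γ ∈ PT ι Y → β ∈ T → g ∈ S Z →
        ∀ x ∈ Tu ι g, ∀ y ∈ Tu κ g,
        M2 u (Er c E0 (JW D Y₀ Y₁) (fun x => o β (ln x)) (cX z w h s₁ s₂ γ β g x y)) ≤
          B * sf γ β g) →
      (∀ (γ : ι → Eis) (β : κ → Eis) (g : Eis), γ ∈ PT ι Y → β ∈ PT κ Y → β ∉ T → g ∈ S Z →
        ∀ x ∈ Tu ι g, ∀ y ∈ Tu κ g,
        M2 u (fun k => CS (cX z w h s₁ s₂ γ β g x y) k) ≤ B * sf γ β g) →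
      (∀ (γ : ι → Eis) (β : κ → Eis) (g : Eis), γ ∈ PT ι Y → β ∈ T → g ∈ S Z →
        M2 u (SteT (JW D' Y₀' Y₁') (fun _ => 1) (E0 * Z)
          (TmX z w E0 Z (o β) (alb (fun i => pc h (s₁ (.inl i))) γ)
            (alb (fun j => pc h (s₁ (.inr j))) β) (alb (fun j => pc h (s₂ (.inr j))) β) g)) ≤
          B * sf γ β g) →
      M2 u (fun k => (∏ i, CS (pc h (s₁ (.inl i))) k) *
        (z * (∏ j, CS (pc h (s₁ (.inr j))) k -
            c * SSo T (fun j => pc h (s₁ (.inr j))) E0 (JW D Y₀ Y₁) (fun β x => o β (ln x)) k) +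
          w * (∏ j, CS (pc h (s₂ (.inr j))) k -
            c * SSo T (fun j => pc h (s₂ (.inr j))) E0 (JW D Y₀ Y₁) (fun β x => o β (ln x)) k))) ≤
      C * X ^ ε * ((1 + ‖c‖ ^ 2) * B) := by
  classical
  set n := Fintype.card ι + Fintype.card κ + 1 with hn
  have hn0 : (0 : ℝ) < n := by positivity
  set δ := ε / (4 * n) with hδd
  have hδ : 0 < δ := by positivity
  obtain ⟨C1, hC1, h1⟩ := err_leX ι κ hδ
  obtain ⟨C2, hC2, h2⟩ := sum_wt_le ι κ hδ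
  obtain ⟨C3, hC31, h3⟩ := Div277.tau_le_rpow (ε := δ) hδ
  have hC3 : 0 ≤ C3 := by linarith
  refine ⟨C1 * (C2 * (1 + (C3 ^ Fintype.card ι * C3 ^ Fintype.card κ) ^ 2)), by positivity, ?_⟩
  intro X hX h R hR s₁ s₂ hs₁ hs₂ hS Y Z hYX hZ0 hZX hY₁ hY₂ hZ D Y₀ Y₁ D' Y₀' Y₁' hD h0 hY1 h1' hD' h0' h1'' hYY
    o ho E0 hE T hT z w c u hu0 hu B hB hch hcl hmm
  have hprim : ∀ (s : Pc) m, pc h s m ≠ 0 → IsPrim m := by
    intro s m hm
    by_contra h0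
    apply hm
    unfold pc
    rw [if_neg h0]
  have hsupp : ∀ s : Pc, s.OK → ∀ m, pc h s m ≠ 0 → IsPrim m ∧ (nm m : ℝ) ≤ s.Y * Real.exp R := by
    intro s hs m hm
    refine ⟨hprim s m hm, ?_⟩
    have h5 := hm
    unfold pc at h5
    rw [if_pos (hprim s m hm)] at h5
    have h6 : HSep813.gw h s.Y s.t m ≠ 0 := right_ne_zero_of_mul h5
    unfold HSep813.gw at h6
    have h7 := hR _ (right_ne_zero_of_mul h6)
    have h8 : (0 : ℝ) < nm m := by exact_mod_cast nm_pos.2 (hprim s m hm).ne_zero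
    have h9 : Real.log (nm m) ≤ Real.log s.Y + R := by
      have := (abs_le.1 h7).2
      linarith
    calc (nm m : ℝ) = Real.exp (Real.log (nm m)) := (Real.exp_log h8).symm
      _ ≤ Real.exp (Real.log s.Y + R) := Real.exp_le_exp.2 h9
      _ = s.Y * Real.exp R := by rw [Real.exp_add, Real.exp_log hs.Y0]
  have hE0 : (0 : ℝ) ≤ Real.exp R := (Real.exp_pos R).le
  have key := h1 (f₁ := fun j => pc h (s₁ (.inr j))) (f₂ := fun j => pc h (s₂ (.inr j)))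
    (fa := fun i => pc h (s₁ (.inl i))) (Y := Y)
    (Zf := fun j => max (s₁ (.inr j)).Y (s₂ (.inr j)).Y * Real.exp R)
    (fun i m hm => ⟨hprim _ m hm, hY₁ _ m hm⟩) (fun i m hm => ⟨hprim _ m hm, hY₂ _ m hm⟩)
    (fun i m hm => ⟨hprim _ m hm, hY₁ _ m hm⟩)
    (fun i m hm => (hsupp _ (hs₁ (.inr i)) m hm).imp_right fun h5 =>
      h5.trans (mul_le_mul_of_nonneg_right (le_max_left _ _) hE0))
    (fun i m hm => (hsupp _ (hs₂ (.inr i)) m hm).imp_right fun h5 =>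
      h5.trans (mul_le_mul_of_nonneg_right (le_max_right _ _) hE0))
    (fun i m hm => hsupp _ (hs₁ (.inl i)) m hm) hZ hZ0 hD h0 hY1 h1'
    hD' h0' h1'' hYY ho hE hT z w c hu0 hu
  refine key.trans ?_
  rw [mul_assoc C1, mul_assoc C1]
  refine mul_le_mul_of_nonneg_left ?_ hC1
  have hXp : (0 : ℝ) < X := by linarith
  have hterm : ∀ β ∈ PT κ Y, ∀ γ ∈ PT ι Y, ∀ g ∈ S Z, (wt δ β γ g)⁻¹ *
      (M2 u (fun k => CS (rhX z w Z (fun j => pc h (s₁ (.inr j))) (fun j => pc h (s₂ (.inr j)))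
              (fun i => pc h (s₁ (.inl i))) β γ g) k -
            cT T c β * StE E0 (JW D Y₀ Y₁) (fun x => o β (ln x))
              (rhX z w Z (fun j => pc h (s₁ (.inr j))) (fun j => pc h (s₂ (.inr j)))
              (fun i => pc h (s₁ (.inl i))) β γ g) k) +
          ‖cT T c β‖ ^ 2 * M2 u (SteT (JW D' Y₀' Y₁') (fun _ => 1) (E0 * Z)
            (TmX z w E0 Z (o β) (alb (fun i => pc h (s₁ (.inl i))) γ)
              (alb (fun j => pc h (s₁ (.inr j))) β) (alb (fun j => pc h (s₂ (.inr j))) β) g))) ≤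
      wt δ β γ g * ((1 + (C3 ^ Fintype.card ι * C3 ^ Fintype.card κ) ^ 2) *
        (X ^ ε * ((1 + ‖c‖ ^ 2) * B))) := by
    intro β hβ γ hγ g hg
    obtain ⟨g1, g2, g3⟩ := (mem_S hZ0).1 hg
    have pγ := mem_PT hγ
    have pβ := mem_PT hβ
    have hw := wt_pos (δ := δ) pβ pγ g2
    have hsfn : 0 ≤ sf γ β g := by unfold sf; positivity
    have hBs : 0 ≤ B * sf γ β g := mul_nonneg hB hsfn
    have hsup : ∀ a, sub (alb (fun i => pc h (s₁ (.inl i))) γ) g a ≠ 0 → a ∈ S Z := by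
      intro a ha
      have h5 := alb_mem_S (f := fun i => pc h (s₁ (.inl i))) (β := γ)
        (fun i m hm => hsupp _ (hs₁ (.inl i)) m hm) pγ hZ hZ0 (n := g * a) ha
      obtain ⟨b1, b2, b3⟩ := (mem_S hZ0).1 h5
      refine (mem_S hZ0).2 ⟨le_trans ?_ b1, b2.of_mul_left g2, b3.of_mul_right⟩
      rw [nm_mul]
      push_cast
      exact le_mul_of_one_le_left (Nat.cast_nonneg _) (one_le_nm g2)
    have hr := err_rho_leX hR hs₁ hs₂ hS pγ pβ g2 g3 hZ0 hsup z w (cT T c β) E0 (J := JW D Y₀ Y₁)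
      (fun x hx => ((okJ_JW D Y₀ Y₁).prim x hx).ne_zero) (fun x => o β (ln x)) hu0 hu hBs
      (fun x hx y hy => by
        by_cases hβT : β ∈ T
        · rw [cT_mem hβT]
          exact hch γ β g hγ hβT hg x hx y hy
        · rw [cT_not hβT]
          refine le_trans (le_of_eq ?_) (hcl γ β g hγ hβ hβT hg x hx y hy)
          congr 1
          funext k
          unfold Er
          rw [zero_mul, sub_zero])
    have hm : ‖cT T c β‖ ^ 2 * M2 u (SteT (JW D' Y₀' Y₁') (fun _ => 1) (E0 * Z)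
            (TmX z w E0 Z (o β) (alb (fun i => pc h (s₁ (.inl i))) γ)
              (alb (fun j => pc h (s₁ (.inr j))) β) (alb (fun j => pc h (s₂ (.inr j))) β) g)) ≤ ‖c‖ ^ 2 * (B * sf γ β g) := by
      by_cases hβT : β ∈ T
      · rw [cT_mem hβT]
        exact mul_le_mul_of_nonneg_left (hmm γ β g hγ hβT hg) (sq_nonneg _)
      · rw [cT_not hβT, norm_zero]
        have : (0 : ℝ) ^ 2 * M2 u (SteT (JW D' Y₀' Y₁') (fun _ => 1) (E0 * Z)
            (TmX z w E0 Z (o β) (alb (fun i => pc h (s₁ (.inl i))) γ)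
              (alb (fun j => pc h (s₁ (.inr j))) β) (alb (fun j => pc h (s₂ (.inr j))) β) g)) = 0 := by ring
        rw [this]
        positivity
    have hτ : (tau g : ℝ) ≤ C3 * (nm g : ℝ) ^ δ := h3 g g2.ne_zero
    have hng : (1 : ℝ) ≤ nm g := one_le_nm g2
    have hngX : (nm g : ℝ) ≤ X := g1.trans hZX
    have hgδ : (nm g : ℝ) ^ δ ≤ X ^ δ := Real.rpow_le_rpow (Nat.cast_nonneg _) hngX hδ.le
    have hτ2 : (tau g : ℝ) ^ Fintype.card ι * (tau g : ℝ) ^ Fintype.card κ ≤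
        (C3 ^ Fintype.card ι * C3 ^ Fintype.card κ) * X ^ (δ * n) := by
      have h5 : (tau g : ℝ) ≤ C3 * X ^ δ := hτ.trans (mul_le_mul_of_nonneg_left hgδ hC3)
      have h6 : (1 : ℝ) ≤ X ^ δ := Real.one_le_rpow hX hδ.le
      calc (tau g : ℝ) ^ Fintype.card ι * (tau g : ℝ) ^ Fintype.card κ
          ≤ (C3 * X ^ δ) ^ Fintype.card ι * (C3 * X ^ δ) ^ Fintype.card κ :=
            mul_le_mul (pow_le_pow_left₀ (Nat.cast_nonneg _) h5 _)
              (pow_le_pow_left₀ (Nat.cast_nonneg _) h5 _) (by positivity) (by positivity)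
        _ = (C3 ^ Fintype.card ι * C3 ^ Fintype.card κ) *
              (X ^ δ) ^ (Fintype.card ι + Fintype.card κ) := by
            rw [mul_pow, mul_pow, pow_add]; ring
        _ ≤ (C3 ^ Fintype.card ι * C3 ^ Fintype.card κ) * (X ^ δ) ^ n :=
            mul_le_mul_of_nonneg_left (pow_le_pow_right₀ h6 (by omega)) (by positivity)
        _ = _ := by rw [← Real.rpow_natCast (X ^ δ) n, ← Real.rpow_mul hXp.le]
    set c3 := C3 ^ Fintype.card ι * C3 ^ Fintype.card κ with hc3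
    have hc30 : 0 ≤ c3 := by positivity
    have hτ3 : ((tau g : ℝ) ^ Fintype.card ι * (tau g : ℝ) ^ Fintype.card κ) ^ 2 ≤
        c3 ^ 2 * X ^ (2 * (δ * n)) := by
      calc _ ≤ (c3 * X ^ (δ * n)) ^ 2 := pow_le_pow_left₀ (by positivity) hτ2 2
        _ = c3 ^ 2 * X ^ (2 * (δ * n)) := by
            rw [mul_pow, ← Real.rpow_natCast (X ^ (δ * (n : ℝ))) 2, ← Real.rpow_mul hXp.le]
            congr 2
            push_cast; ring
    have h1X : (1 : ℝ) ≤ X ^ (2 * (δ * n)) := Real.one_le_rpow hX (by positivity)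
    have hinner : M2 u (fun k => CS (rhX z w Z (fun j => pc h (s₁ (.inr j))) (fun j => pc h (s₂ (.inr j)))
              (fun i => pc h (s₁ (.inl i))) β γ g) k -
            cT T c β * StE E0 (JW D Y₀ Y₁) (fun x => o β (ln x))
              (rhX z w Z (fun j => pc h (s₁ (.inr j))) (fun j => pc h (s₂ (.inr j)))
              (fun i => pc h (s₁ (.inl i))) β γ g) k) +
          ‖cT T c β‖ ^ 2 * M2 u (SteT (JW D' Y₀' Y₁') (fun _ => 1) (E0 * Z)
            (TmX z w E0 Z (o β) (alb (fun i => pc h (s₁ (.inl i))) γ)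
              (alb (fun j => pc h (s₁ (.inr j))) β) (alb (fun j => pc h (s₂ (.inr j))) β) g)) ≤
        ((1 + c3 ^ 2) * (X ^ (2 * (δ * n)) * ((1 + ‖c‖ ^ 2) * B))) * sf γ β g := by
      have a1 : M2 u (fun k => CS (rhX z w Z (fun j => pc h (s₁ (.inr j))) (fun j => pc h (s₂ (.inr j)))
              (fun i => pc h (s₁ (.inl i))) β γ g) k -
            cT T c β * StE E0 (JW D Y₀ Y₁) (fun x => o β (ln x))
              (rhX z w Z (fun j => pc h (s₁ (.inr j))) (fun j => pc h (s₂ (.inr j)))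
              (fun i => pc h (s₁ (.inl i))) β γ g) k) ≤
          c3 ^ 2 * X ^ (2 * (δ * n)) * (B * sf γ β g) :=
        le_trans hr (mul_le_mul_of_nonneg_right hτ3 hBs)
      have a2 := hm
      have hX2 : 0 ≤ X ^ (2 * (δ * n)) := by linarith
      have a3 : ‖c‖ ^ 2 * (B * sf γ β g) ≤ ‖c‖ ^ 2 * (B * sf γ β g) * X ^ (2 * (δ * n)) :=
        le_mul_of_one_le_right (by positivity) h1X
      have a4 : 0 ≤ ‖c‖ ^ 2 * (B * sf γ β g) * X ^ (2 * (δ * n)) := by positivity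
      have a5 : 0 ≤ c3 ^ 2 * X ^ (2 * (δ * n)) * (B * sf γ β g) := by positivity
      have a6 : 0 ≤ X ^ (2 * (δ * n)) * (B * sf γ β g) := by positivity
      nlinarith [mul_nonneg a4 (sq_nonneg c3), mul_nonneg (sq_nonneg ‖c‖) a5]
    have hwi : 0 ≤ (wt δ β γ g)⁻¹ := inv_nonneg.2 hw.le
    refine (mul_le_mul_of_nonneg_left hinner hwi).trans ?_
    have e5 : (wt δ β γ g)⁻¹ * ((1 + c3 ^ 2) * (X ^ (2 * (δ * n)) * ((1 + ‖c‖ ^ 2) * B)) *
        sf γ β g) = ((wt δ β γ g)⁻¹ * sf γ β g) *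
          ((1 + c3 ^ 2) * (X ^ (2 * (δ * n)) * ((1 + ‖c‖ ^ 2) * B))) := by ring
    rw [e5, sf_wt pγ pβ g2]
    have hprod : ((nm (∏ i, γ i) : ℝ) * nm (∏ j, β j) * nm g) ^ (2 * δ) ≤ X ^ (2 * (δ * n)) := by
      have h7 : (nm (∏ i, γ i) : ℝ) * nm (∏ j, β j) * nm g ≤ X ^ (n : ℝ) := by
        calc (nm (∏ i, γ i) : ℝ) * nm (∏ j, β j) * nm g
            ≤ X ^ (Fintype.card ι : ℝ) * X ^ (Fintype.card κ : ℝ) * X := by
              refine mul_le_mul (mul_le_mul (PT_nm_le hYX hγ) (PT_nm_le hYX hβ) (Nat.cast_nonneg _)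
                (by positivity)) hngX (Nat.cast_nonneg _) (by positivity)
          _ = X ^ (n : ℝ) := by
              have e6 : (n : ℝ) = (Fintype.card ι : ℝ) + (Fintype.card κ : ℝ) + 1 := by
                rw [hn]; push_cast; ring
              rw [e6, Real.rpow_add hXp, Real.rpow_add hXp, Real.rpow_one]
      calc _ ≤ (X ^ (n : ℝ)) ^ (2 * δ) := Real.rpow_le_rpow (by positivity) h7 (by positivity)
        _ = X ^ (2 * (δ * n)) := by
            rw [← Real.rpow_mul hXp.le]; congr 1; ring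
    have hfin : X ^ (2 * (δ * n)) * X ^ (2 * (δ * n)) = X ^ ε := by
      rw [← Real.rpow_add hXp]
      congr 1
      rw [hδd]; field_simp; ring
    calc wt δ β γ g * ((nm (∏ i, γ i) : ℝ) * nm (∏ j, β j) * nm g) ^ (2 * δ) *
          ((1 + c3 ^ 2) * (X ^ (2 * (δ * n)) * ((1 + ‖c‖ ^ 2) * B)))
        ≤ wt δ β γ g * X ^ (2 * (δ * n)) *
          ((1 + c3 ^ 2) * (X ^ (2 * (δ * n)) * ((1 + ‖c‖ ^ 2) * B))) := by
          refine mul_le_mul_of_nonneg_right (mul_le_mul_of_nonneg_left hprod hw.le) ?_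
          positivity
      _ = wt δ β γ g * ((1 + c3 ^ 2) * ((X ^ (2 * (δ * n)) * X ^ (2 * (δ * n))) *
            ((1 + ‖c‖ ^ 2) * B))) := by ring
      _ = _ := by rw [hfin]
  have hsum := sum_le_sum fun β hβ => sum_le_sum fun γ hγ => sum_le_sum fun g hg =>
    hterm β hβ γ hγ g hg
  refine hsum.trans ?_
  simp_rw [← sum_mul]
  have hnn : 0 ≤ (1 + (C3 ^ Fintype.card ι * C3 ^ Fintype.card κ) ^ 2) *
        (X ^ ε * ((1 + ‖c‖ ^ 2) * B)) := by positivity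
  refine (mul_le_mul_of_nonneg_right (h2 Y Z) hnn).trans (le_of_eq ?_)
  ring


end Crest.Agent.R017.P1X960
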