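import Crest.Agent.R017.Hi3_54
import Crest.Agent.R017.P1X3_960
import Crest.Agent.R017.P1X2_960

/-!
# Row 17, exceptional class, StrUX high levels (helper54), part 4: texts and the child

* `HnX`, `DomHX`, **`HNX`** : the plain second moment of one level of one difference
* `HiFX`, **`HiUX`** : the plain second moment of one level of the structured function
* `dif_child` : one powerful tuple by the child
-/

set_option autoImplicit false

noncomputable section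

open Finset
open scoped ComplexConjugate

namespace Crest.Agent.R017.Hi454

open Crest.Agent.R012 Crest.Agent.R012.Eis
open Crest.Agent.R012.Mob705 hiding pb mem_pb
open Crest.Agent.R012.LS2 (S mem_S)
open Crest.Agent.R012.Weight600 (osc osc_add_right norm_osc)
open Crest.Agent.R017.CM106 Crest.Agent.R017.C70
open Crest.Agent.R017.FE47 (PU cx SM)
open Crest.Agent.R017.StD828 (ln Tm)
open Crest.Agent.R017.E2440 (TE StE)
open Crest.Agent.R017.E5k54 (PT alb)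
open Crest.Agent.R017.SSb54 (SST SSb PTb mem_PTb PTb_sub)
open Crest.Agent.R017.P1e54 Crest.Agent.R017.P1f54 Crest.Agent.R017.P1h54
open Crest.Agent.R017.P1i54 Crest.Agent.R017.P1k54
open Crest.Agent.R017.P1l54 hiding nO
open Crest.Agent.R017.HP842 (Pc pc al alL cv Tu mem_Tu sqc Th)
open Crest.Agent.R017.B770 Crest.Agent.R017.Prov71
open Crest.Agent.R017.XG702 (Pcs)
open Crest.Agent.R017.XT71 (Sys Win mx mx_le le_mx)
open Crest.Agent.R017.UM71
open Crest.Agent.R017.E5P571 (PB mem_PB PC)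
open Crest.Agent.R017.E5B71 Crest.Agent.R017.E5L770
open Crest.Agent.R017.ExBox960 Crest.Agent.R017.ExP960
open Crest.Agent.R017.Sf770
open Crest.Agent.R017.E5LX770 (SfEV SfEOV bfE atEV)
open Crest.Agent.R017.P1X960
open Crest.Agent.R017.Rough381 (sh)

/-! ### the texts -/

section
variable {Λ : Type*} (π : Λ → DPar) (h : ℝ → ℝ) (e0 : ℝ)

open Classical in
/-- **the plain second moment of one level** (`a.2`) **of one difference** -/
def HnX (R : Λ → ℝ) (lam : Λ × Eis) (a : BcX × ℕ) (_ : List Pq) : ℝ :=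
  if okCX (π lam.1) lam.2 a.1 [] ∧ okD a.1 then
    M2 (uM (R lam.1) (Real.exp a.1.1.l) (Real.exp (a.1.1.l / 20)))
      (StE (Real.exp (e0 * a.1.1.l)) (JS (nO a.1.1.toBd)) (omL a.2)
        (xD h (π lam.1) lam.2 a.1.2.1 (dz a.1.1) []))
  else 0

/-- configurations: the level `q.1 none` between `lo` and `hi`, `b = N - Σ v`,
`level + 2 b ≤ T_S + 2 c κ`, all four lengths of the pair `≥ 0` -/
def DomHX (c β : ℝ) (Par : Set (Fin 3 ⊕ Fin 5 → ℝ)) (lo hi : (Fin 3 ⊕ Fin 5 → ℝ) → ℝ) :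
    Set ((Option I8X → ℝ) × (Kd → ℝ)) :=
  {q | (fun q₁ : I8X → ℝ => ChC c β Par (bp q₁) (q₁ (.inr 0)) (q₁ (.inr 1)) (q₁ (.inr 2))
      (q₁ (.inr 3)) 0 ∧ DifL (bp q₁) (q₁ (.inr 0)) (q₁ (.inr 1)) (q₁ (.inr 2)) ∧
      q₁ (.inr 3) = cN (prX (bp q₁)) - (q₁ (.inr 0) + q₁ (.inr 1) + q₁ (.inr 2)) ∧ q.2 = 0 ∧
      cκ (prX (bp q₁)) / 2 ≤ q₁ (.inr 0) + q₁ (.inr 1) + q₁ (.inr 2) + 2 * cx' (prX (bp q₁)) ∧
      lo (prX (bp q₁)) ≤ q.1 none ∧ q.1 none ≤ hi (prX (bp q₁)) ∧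
      q.1 none + 2 * q₁ (.inr 3) ≤ top5 (prX (bp q₁)) + 2 * c * cκ (prX (bp q₁)))
    fun i => q.1 (some i)}

/-- target -/
def EHX (LH : (Fin 3 ⊕ Fin 5 → ℝ) → ℝ) (q : (Option I8X → ℝ) × (Kd → ℝ)) : ℝ :=
  (fun q₁ : I8X → ℝ => cκ (prX (bp q₁)) + (q₁ (.inr 0) + q₁ (.inr 1) + q₁ (.inr 2)) +
    LH (prX (bp q₁))) fun i => q.1 (some i)

/-- **HNX** : the plain second moment of one level of one difference -/
def HNX (c β : ℝ) (Par : Set (Fin 3 ⊕ Fin 5 → ℝ)) (lo hi LH : (Fin 3 ⊕ Fin 5 → ℝ) → ℝ) : Prop :=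
  ∀ R : Λ → ℝ, (∀ lam, 0 ≤ R lam) → UB (lev (Real.log 2) S8X) Dq (HnX π h e0 R)
    (DomHX c β Par lo hi) ∅ (EHX LH)

open Classical in
/-- **the second moment of one level of a structured function** over the cut, no amplifier -/
def HiFX (Sf : SFX Λ) (R : Λ → ℝ) (lam : Λ × Eis) (a : BdX) : ℝ :=
  if a.ok ∧ lam.2 ∈ SM (π lam.1).n then
    ∑ k ∈ (PB (π lam.1).n ⌊Real.exp (a.l + R lam.1)⌋₊).filter
        (fun k => cutE (Real.exp (a.l / 20)) k ∧ Real.exp (a.l - R lam.1) ≤ nm k),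
      ‖SFX.at Sf lam a k‖ ^ 2
  else 0

/-- **HiUX** : all levels between `lo` and `hi` -/
def HiUX (r c β : ℝ) (Par : Set (Fin 3 ⊕ Fin 5 → ℝ)) (lo hi LH : (Fin 3 ⊕ Fin 5 → ℝ) → ℝ)
    (al : Set ((Option IX5 → ℝ) × ℝ)) : Prop :=
  ∀ R : Λ → ℝ, (∀ lam, 0 ≤ R lam) → UB (lev (Real.log 2) S5X) Dq
    (fun lam (a : BdX × ℕ) _ => HiFX π (SfEOV π h e0 r c a.2) R lam a.1)
    {q | (fun p : IX5 → ℝ => prX p ∈ Par ∧ ZR β p ∧ lo (prX p) ≤ q.1 none ∧
      q.1 none ≤ hi (prX p)) fun i => q.1 (some i)} al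
    (fun q => (fun p : IX5 → ℝ => cκ (prX p) + cN (prX p) + LH (prX p)) fun i => q.1 (some i))

end

/-! ### the child -/

/-- the lumps of the child -/
def vX (a : BdX) {β : Fin 3 → Eis} (hβ : ∀ i, IsPrim (β i)) (j : Fin 3) : Pq :=
  chP (u3 a j) (β j * 1) ((∏ j, β j) * 1) (mod_ne hβ isPrim_one)
    ((u3 a j).z - Real.log (nm (β j))) (u3 a j).t

section
variable {P : DPar} {t₀ : Eis} {a : BdX} {β : Fin 3 → Eis}

lemma sh_Y (p : Pq) {b m : Eis} (hb : IsPrim b) (z : ℝ) (hz : z = p.z - Real.log (nm b)) :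
    ((sh (Pt P t₀ p) (b * 1)).cop m).Y = Real.exp z := by
  have hn : (0 : ℝ) < nm b := by exact_mod_cast nm_pos.2 hb.ne_zero
  show Real.exp p.z / (nm (b * 1) : ℝ) = _
  rw [mul_one, hz, Real.exp_sub, Real.exp_log hn]

lemma Pt_child (p : Pq) {b m : Eis} (hb : IsPrim b) (hm : m ≠ 0) (z : ℝ)
    (hz : z = p.z - Real.log (nm b)) :
    Pt P t₀ (chP p (b * 1) m hm z p.t) = (sh (Pt P t₀ p) (b * 1)).cop m := by
  rw [Pt_chP, ← sh_Y (P := P) (t₀ := t₀) (m := m) p hb z hz]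
  rfl

/-- the children of the natural pieces -/
lemma Pt_vX (hβ : ∀ i, IsPrim (β i)) : (fun j => Pt P t₀ (vX a hβ j)) =
    ch1 (fun j => Pt P t₀ (u3 a j)) β (fun _ => 1) 1 := by
  funext j
  exact Pt_child (u3 a j) (hβ j) _ _ rfl

/-- the children of the replaced pieces -/
lemma Pt_rzD (ha : a.ok) (hβ : ∀ i, IsPrim (β i)) :
    (fun j => Pt P t₀ (rzD (vX a hβ) (dz a) j)) =
      ch1 (fun j => Pt P t₀ (u3' a j)) β (fun _ => 1) 1 := by
  funext j
  fin_cases j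
  · exact Pt_child (u3' a 0) (hβ 0) (mod_ne hβ isPrim_one)
      ((vX a hβ 0).z - dz a) (by
        show (a.us 2).z - Real.log (nm (β 0)) - ((a.us 2).z - a.zs 2) =
          a.zs 2 - Real.log (nm (β 0))
        ring)
  · exact Pt_child (u3' a 1) (hβ 1) (mod_ne hβ isPrim_one)
      ((vX a hβ 1).z + dz a) (by
        have h := ha.s23
        show (a.us 3).z - Real.log (nm (β 1)) + ((a.us 2).z - a.zs 2) =
          a.zs 3 - Real.log (nm (β 1))
        linarith)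
  · exact Pt_child (u3' a 2) (hβ 2) (mod_ne hβ isPrim_one)
      (vX a hβ 2).z rfl

/-- the common phase of a child -/
def wX (a : BdX) (β : Fin 3 → Eis) : ℂ :=
  osc (a.us 2).t (Real.log (nm (β 0))) * osc (a.us 3).t (Real.log (nm (β 1)))

lemma norm_wX : ‖wX a β‖ = 1 := by
  unfold wX
  rw [norm_mul, norm_osc, norm_osc, mul_one]

lemma oc_nat (hβ : ∀ i, IsPrim (β i)) :
    oc (vX a hβ) (vX a hβ 0).z (vX a hβ 1).z = wX a β * ph a := by
  have e1 : oc (vX a hβ) (vX a hβ 0).z (vX a hβ 1).z =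
      osc (a.us 2).t (-((a.us 2).z - Real.log (nm (β 0)))) *
        osc (a.us 3).t (-((a.us 3).z - Real.log (nm (β 1)))) := rfl
  have e2 : ph a = osc (a.us 2).t (-(a.us 2).z) * osc (a.us 3).t (-(a.us 3).z) := rfl
  rw [e1, e2, neg_sub, sub_eq_add_neg, osc_add_right, neg_sub, sub_eq_add_neg, osc_add_right]
  unfold wX
  ring

lemma oc_rep (ha : a.ok) (hβ : ∀ i, IsPrim (β i)) :
    oc (vX a hβ) ((vX a hβ 0).z - dz a) ((vX a hβ 1).z + dz a) = wX a β * ph' a := by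
  have h := ha.s23
  have e1 : oc (vX a hβ) ((vX a hβ 0).z - dz a) ((vX a hβ 1).z + dz a) =
      osc (a.us 2).t (-((a.us 2).z - Real.log (nm (β 0)) - ((a.us 2).z - a.zs 2))) *
        osc (a.us 3).t (-((a.us 3).z - Real.log (nm (β 1)) + ((a.us 2).z - a.zs 2))) := rfl
  have e2 : ph' a = osc (a.us 2).t (-a.zs 2) * osc (a.us 3).t (-a.zs 3) := rfl
  have e3 : -((a.us 2).z - Real.log (nm (β 0)) - ((a.us 2).z - a.zs 2)) =
      Real.log (nm (β 0)) + -a.zs 2 := by ring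
  have e4 : -((a.us 3).z - Real.log (nm (β 1)) + ((a.us 2).z - a.zs 2)) =
      Real.log (nm (β 1)) + -a.zs 3 := by linarith
  rw [e1, e2, e3, e4, osc_add_right, osc_add_right]
  unfold wX
  ring

/-- the difference of a child -/
theorem xD_child {h : ℝ → ℝ} (ha : a.ok) (hβ : ∀ i, IsPrim (β i)) :
    xD h P t₀ (vX a hβ) (dz a) [] = cmb (wX a β * ph a) (-(wX a β * ph' a))
      (sqc 1 (al h (ch1 (fun j => Pt P t₀ (u3 a j)) β (fun _ => 1) 1)))
      (sqc 1 (al h (ch1 (fun j => Pt P t₀ (u3' a j)) β (fun _ => 1) 1))) := by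
  unfold xD
  rw [oc_nat hβ, oc_rep ha hβ, List.append_nil, List.append_nil, List.map_ofFn, List.map_ofFn,
    ← HP842.al_eq, ← HP842.al_eq]
  have e1 : (Pt P t₀ ∘ vX a hβ) = ch1 (fun j => Pt P t₀ (u3 a j)) β (fun _ => 1) 1 :=
    Pt_vX hβ
  have e2 : (Pt P t₀ ∘ rzD (vX a hβ) (dz a)) =
      ch1 (fun j => Pt P t₀ (u3' a j)) β (fun _ => 1) 1 := Pt_rzD ha hβ
  rw [e1, e2]

/-- the scalars of the two families agree -/
lemma k1_rep : k1 (fun j => Pt P t₀ (u3' a j)) β (fun _ => 1) 1 =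
    k1 (fun j => Pt P t₀ (u3 a j)) β (fun _ => 1) 1 := by
  unfold k1
  split_ifs
  · refine prod_congr rfl fun j _ => ?_
    fin_cases j <;> exact sc'_sim rfl rfl rfl _
  · rfl

/-- **one powerful tuple by the child** -/
theorem dif_child {h : ℝ → ℝ} {R : ℝ} (hR : ∀ u, cx h u ≠ 0 → |u| ≤ R) (hP : P.OK) (ha : a.ok)
    (hβ : ∀ i, IsPrim (β i)) {u : Eis → ℝ} (h0 : ∀ k, 0 ≤ u k)
    (hu : (Function.support u).Finite) {J : Finset (Eis × Eis)}
    (hJ : ∀ x ∈ J, x.1 ≠ 0) (E0 : ℝ) (om : Eis × Eis → ℂ) :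
    M2 u (fun k => ph a * StE E0 J om (alb (fun j => pc h (Pt P t₀ (u3 a j))) β) k -
      ph' a * StE E0 J om (alb (fun j => pc h (Pt P t₀ (u3' a j))) β) k) ≤
      M2 u (StE E0 J om (xD h P t₀ (vX a hβ) (dz a) [])) := by
  classical
  have hs := fun j => Pt_OK hP t₀ (u3 a j)
  have hs' := fun j => Pt_OK hP t₀ (u3' a j)
  have hA : FS (sqc 1 (al h (ch1 (fun j => Pt P t₀ (u3 a j)) β (fun _ => 1) 1))) :=
    FS_sqc_al hR (ch1_OK hs hβ (x := fun _ => 1) (fun _ => isPrim_one) 1) 1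
  have hB : FS (sqc 1 (al h (ch1 (fun j => Pt P t₀ (u3' a j)) β (fun _ => 1) 1))) :=
    FS_sqc_al hR (ch1_OK hs' hβ (x := fun _ => 1) (fun _ => isPrim_one) 1) 1
  have hk := norm_k1_le hs hβ (x := fun _ => 1) (fun _ => isPrim_one) 1
  rw [xD_child ha hβ, alb_eq hs hβ, alb_eq hs' hβ, k1_rep]
  set A := sqc 1 (al h (ch1 (fun j => Pt P t₀ (u3 a j)) β (fun _ => 1) 1)) with hAd
  set B := sqc 1 (al h (ch1 (fun j => Pt P t₀ (u3' a j)) β (fun _ => 1) 1)) with hBd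
  set κ := k1 (fun j => Pt P t₀ (u3 a j)) β (fun _ => 1) 1 with hκ
  refine M2_mono h0 hu fun k => ?_
  have e1 : ∀ F : Eis → ℂ, FS F → StE E0 J om (κ • F) k = κ * StE E0 J om F k := by
    intro F hF
    have h1 := StE_cmb hF hF κ 0 E0 hJ om k
    rw [zero_mul, add_zero] at h1
    rw [← h1]
    congr 1
    unfold cmb
    rw [zero_smul, add_zero]
  rw [e1 A hA, e1 B hB, StE_cmb hA hB _ _ E0 hJ om k]
  have e2 : wX a β * ph a * StE E0 J om A k + -(wX a β * ph' a) * StE E0 J om B k =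
      wX a β * (ph a * StE E0 J om A k - ph' a * StE E0 J om B k) := by ring
  have e3 : ph a * (κ * StE E0 J om A k) - ph' a * (κ * StE E0 J om B k) =
      κ * (ph a * StE E0 J om A k - ph' a * StE E0 J om B k) := by ring
  rw [e2, e3, norm_mul, norm_mul, norm_wX, one_mul]
  exact mul_le_of_le_one_left (norm_nonneg _) hk

end

end Crest.Agent.R017.Hi454
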