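import Crest.Agent.R017.ET4ax_290
import Crest.Agent.R017.CutX_290
import Crest.Agent.R017.Hi4_54

/-!
# Row 17, exceptional class, REST of StrUX (helper72), part 1: one level at sequence level

* `J2`, `StE_J2` : the classes of one level
* **`seqX`** : the second moment over the cut of the `e`-range of one level
-/

set_option autoImplicit false

noncomputable section

open Finset
open scoped Classical ComplexConjugate ContDiff

namespace Crest.Agent.R017.HX72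

open Crest.Agent.R012 Crest.Agent.R012.Eis Crest.Agent.R012.Div277
open Crest.Agent.R012.MC (Wgt)
open Crest.Agent.R012.LS2 (S mem_S bl)
open Crest.Agent.R012.Weight600 (pw)
open Crest.Agent.R017.C70 (JC OKJ JW okJ_JW CbF)
open Crest.Agent.R017.CM106 (CS FS)
open Crest.Agent.R017.HB645 (hh)
open Crest.Agent.R017.E1551 (nmpos)
open Crest.Agent.R017.E3M829 (TC Tal Cut)
open Crest.Agent.R017.E3F548
open Crest.Agent.R017.E3Z548
open Crest.Agent.R017.E3Kc548 Crest.Agent.R017.E3Ke548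
open Crest.Agent.R017.Mode405 (Slp)
open Crest.Agent.R017.E3Hi290 (RN2XF RN2XF_nonneg)
open Crest.Agent.R017.PoHx72 (Cls)
open Crest.Agent.R017.ROX744 (PrU)
open Crest.Agent.R017.ET4a548
open Crest.Agent.R017.CutX290 (CutXQ0)
open Crest.Agent.R017.E2440 (TE StE StT)
open Crest.Agent.R017.PX764 (th Gh n6)
open Crest.Agent.R017.R3571 (RMm RMm_nonneg rm)
open Crest.Agent.R017.StD828 (ln)
open Crest.Agent.R017.E5L770 Crest.Agent.R017.Sf770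
open Crest.Agent.R017.P1e54 (M2)
open Crest.Agent.R017.P1k54 (uM wM)

/-- the classes of level `j` -/
def J2 (n j : ℕ) : Finset (Eis × Eis) := JW (Real.sqrt (2 ^ n)) (2 ^ j / 4) (2 ^ j * 2)

lemma mem_JW' {D Y₀ Y₁ : ℝ} {x : Eis × Eis} : x ∈ JW D Y₀ Y₁ ↔
    (x.1 ∈ primBall ⌊D⌋₊ ∧ x.2 ∈ ball ⌊Y₁⌋₊) ∧ Squarefree x.1 ∧ JC x.2 ∧
      Y₀ < nm (x.2 * x.1 ^ 2) ∧ (nm (x.2 * x.1 ^ 2) : ℝ) ≤ Y₁ := by
  unfold JW
  rw [mem_filter, mem_product]

lemma J2_eq {n j : ℕ} (hj : j < n) : J2 n j = (JS n).filter fun x =>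
    (2 : ℝ) ^ j / 4 < nm (x.2 * x.1 ^ 2) ∧ (nm (x.2 * x.1 ^ 2) : ℝ) ≤ 2 ^ j * 2 := by
  have h2n : (2 : ℝ) ^ j * 2 ≤ 2 ^ n := by
    rw [← pow_succ]
    exact pow_le_pow_right₀ (by norm_num) hj
  have h2j : (1 : ℝ) ≤ 2 ^ j := one_le_pow₀ (by norm_num)
  ext x
  unfold J2 JS
  rw [mem_filter, mem_JW', mem_JW']
  constructor
  · rintro ⟨⟨h1, h2⟩, h3, h4, h5, h6⟩
    refine ⟨⟨⟨h1, ?_⟩, h3, h4, by linarith, h6.trans h2n⟩, h5, h6⟩
    rw [mem_ball] at h2 ⊢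
    exact h2.trans (Nat.floor_le_floor h2n)
  · rintro ⟨⟨⟨h1, h2⟩, h3, h4, h5, h6⟩, h7, h8⟩
    refine ⟨⟨h1, ?_⟩, h3, h4, h7, h8⟩
    rw [mem_ball]
    have hx1 : x.1 ≠ 0 := (mem_primBall.1 h1).2.ne_zero
    have h9 : nm x.2 ≤ nm (x.2 * x.1 ^ 2) := by
      rw [nm_mul, nm_pow]
      exact Nat.le_mul_of_pos_right _ (pow_pos (nm_pos.2 hx1) 2)
    exact h9.trans (Nat.le_floor h8)

lemma omL_win {j : ℕ} {x : Eis × Eis} (hx : x.2 * x.1 ^ 2 ≠ 0) (h : omL j x ≠ 0) :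
    (2 : ℝ) ^ j / 4 < nm (x.2 * x.1 ^ 2) ∧ (nm (x.2 * x.1 ^ 2) : ℝ) ≤ 2 ^ j * 2 := by
  have h1 := omL_supp h
  rw [Sf770.lv_eq] at h1
  have hp : (0 : ℝ) < nm (x.2 * x.1 ^ 2) := by exact_mod_cast nm_pos.2 hx
  have h2 : (0 : ℝ) < 2 ^ j := by positivity
  have hl2 : 0 < Real.log 2 := Real.log_pos (by norm_num)
  have e1 : Real.log (nm (ln x)) = Real.log (nm (x.2 * x.1 ^ 2)) := rfl
  rw [e1] at h1
  obtain ⟨h3, h4⟩ := abs_le.1 h1
  constructor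
  · have h5 : Real.log (2 ^ j / 4) < Real.log (nm (x.2 * x.1 ^ 2)) := by
      rw [Real.log_div h2.ne' (by norm_num), Real.log_pow,
        show (4 : ℝ) = 2 * 2 by norm_num, Real.log_mul (by norm_num) (by norm_num)]
      linarith
    exact (Real.log_lt_log_iff (by positivity) hp).1 h5
  · have h5 : Real.log (nm (x.2 * x.1 ^ 2)) ≤ Real.log (2 ^ j * 2) := by
      rw [Real.log_mul h2.ne' (by norm_num), Real.log_pow]
      linarith
    exact (Real.log_le_log_iff hp (by positivity)).1 h5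

lemma ln_ne' {D Y₀ Y₁ : ℝ} {x : Eis × Eis} (hx : x ∈ JW D Y₀ Y₁) : x.2 * x.1 ^ 2 ≠ 0 := by
  rw [mem_JW', mem_primBall] at hx
  obtain ⟨⟨⟨-, h2⟩, -⟩, -, h5, -⟩ := hx
  exact mul_ne_zero (E5b54.JC_cf h5).1 (pow_ne_zero 2 h2.ne_zero)

/-- only the classes of the level -/
lemma StE_J2 {n j : ℕ} (hj : j < n) (E0 : ℝ) (α : Eis → ℂ) (k : Eis) :
    StE E0 (J2 n j) (omL j) α k = StE E0 (JS n) (omL j) α k := by
  rw [J2_eq hj]
  exact StE_restrict E0 (JS n) _ (fun x hx h => omL_win (ln_ne' hx) h) α k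

/-- the level is a smooth window -/
lemma omL_Om (j : ℕ) (x : Eis × Eis) :
    omL j x = (1 : ℂ) * ((wL j (Real.log (nm (x.2 * x.1 ^ 2))) : ℂ) * pw 0 (nm x.2)) := by
  rw [one_mul]
  have : pw 0 (nm x.2) = 1 := by simp [pw, Weight600.osc]
  rw [this, mul_one]
  rfl


/-- the `e`-range -/
def QE (E1 : ℝ) (f : Eis) : Prop := E1 < (nm f : ℝ)

/-- the LVn-part of one level -/
def LvS (c : ℝ) (Z : ℝ) (n j : ℕ) (α : Eis → ℂ) (E0 E1 Ec K X : ℝ) (H : ℕ → Eis → Eis → ℝ)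
    (W0 : ℕ → Bool → Eis → Eis → ℝ → ℝ) : ℝ :=
  ∑ f ∈ (S E0).filter (QE E1), ∑ i ∈ LI (2 ^ j / 4) (2 ^ j * 2), ∑ d ∈ (J2 n j).image Prod.fst,
    (nm f : ℝ)⁻¹ * LVn (fun d _ n => α (d * n)) {d} {f} c (Z ^ 5) K (H i d f) (Real.exp i)
      (Real.exp i) Ec 1 1 (RN2XF c K (Real.exp i) X (H i) (W0 i) d f)

/-- the diagonal of one level -/
def DgS (n j : ℕ) (α : Eis → ℂ) (E0 E1 Ec K : ℝ) : ℝ :=
  K ^ (2 / 3 : ℝ) * ∑ f ∈ (S E0).filter (QE E1), (((nm f : ℝ)⁻¹ +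
    (2 ^ j * 2 / K ^ 2) ^ (1 / 6 : ℝ) * (nm f : ℝ) ^ (1 / 2 : ℝ) + Ec ^ 2 * (2 ^ j * 2) / K) *
      XE (J2 n j) (omL j) (Tal α) f)

/-- **one level, the `e`-range `(E1, E0]`, over the cut** -/
theorem seqX {w : ℝ → ℝ} (hw : Wgt w) (hw0 : ∀ x, 0 ≤ w x) {R0 : ℝ} (hR0 : 0 ≤ R0) (a A₁ : ℕ)
    (hA₁ : 1 < A₁) {ε : ℝ} (hε : 0 < ε) (hε1 : ε ≤ 1) :
    ∃ (c C c2 : ℝ), 1 ≤ c ∧ 1 ≤ C ∧ 1 ≤ c2 ∧ ∀ (Z : ℝ), 1 ≤ Z → ∀ (n j : ℕ), j < n →
      ∀ (α : Eis → ℂ) (E0 E1 Ec K X : ℝ) (H : ℕ → Eis → Eis → ℝ) (u : Eis)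
      (W0 : ℕ → Bool → Eis → Eis → ℝ → ℝ), u ≠ 0 → (∀ n, α n ≠ 0 → IsCoprime u n) →
      FS α → (∀ n, α n ≠ 0 → Squarefree n) →
      (∀ n, α n ≠ 0 → |Real.log (nm n) - Real.log X| ≤ R0) →
      1 ≤ Ec → Ec ≤ Z → 0 < K → c2 * K ≤ Z → 0 ≤ E1 → E1 ≤ E0 → E0 ≤ Z → (2 : ℝ) ^ n ≤ Z →
      0 < X → X ≤ Z ^ 5 → (∀ i d f, 0 < H i d f) →
      (∀ i ∈ LI (2 ^ j / 4) (2 ^ j * 2), c * Real.exp i ≤ Z ^ 5) →
      (∀ i ∈ LI (2 ^ j / 4) (2 ^ j * 2), ∀ d ∈ S (Z ^ 5), ∀ f ∈ (S E0).filter (QE E1),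
        c * (H i d f * Real.exp i ^ 2) ≤ K * X) →
      (∀ i jj d f, Slp a (W0 i jj d f)) →
      (∀ i ∈ LI (2 ^ j / 4) (2 ^ j * 2), ∀ jj, ∀ d ∈ (J2 n j).image Prod.fst,
        ∀ f ∈ (S E0).filter (QE E1), ∀ γ π,
        IsPrim γ → IsPrim π → (nm π : ℝ) ≤ c * Z ^ 300 → ∀ P : ℝ, 0 < P →
        (nm γ : ℝ) * n6 γ ^ 2 * ∑ r ∈ (bl P).filter (Cls (PrU u) jj),
          RMm A₁ (fun n => α (d * n)) f γ π r ≤ W0 i jj d f P) →
      (∑' k : Eis, if IsPrim k ∧ Cut Ec k then w ((nm k : ℝ) / K) *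
        ‖StE E0 (JS n) (omL j) α k - StE E1 (JS n) (omL j) α k‖ ^ 2 else 0) ≤
      C * Z ^ ε * (DgS n j α E0 E1 Ec K + LvS c Z n j α E0 E1 Ec K X H W0) := by
  obtain ⟨A, c, C, c2, hc, hC, hc2, key⟩ := CutXQ0 hw hw0 hR0 a A₁ hA₁ hε hε1
  choose Cm hCm hCb using wLc_bd
  obtain ⟨Mb, hMb⟩ : ∃ Mb, Mb = ∑ m ∈ range (A + 3), Cm m := ⟨_, rfl⟩
  have hMb0 : 0 ≤ Mb := by rw [hMb]; exact sum_nonneg fun m _ => hCm m
  refine ⟨c, C * (1 + Mb ^ 2), c2, hc, ?_, hc2, ?_⟩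
  · exact one_le_mul_of_one_le_of_one_le hC (by nlinarith [sq_nonneg Mb])
  intro Z hZ n j hj α E0 E1 Ec K X H u W0 hu huc hα hsq hwin hEc hEcZ hK hKZ hE1 hE10 hE0Z hnZ hX
    hXZ hH hcV hKX hS hRH
  have hE0 : 0 ≤ E0 := hE1.trans hE10
  have h2n : (2 : ℝ) ^ j * 2 ≤ 2 ^ n := by
    rw [← pow_succ]
    exact pow_le_pow_right₀ (by norm_num) hj
  have h2j : (1 : ℝ) ≤ 2 ^ j := one_le_pow₀ (by norm_num)
  have hY1 : (2 : ℝ) ^ j * 2 ≤ Z := h2n.trans hnZ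
  have k := key (fun v => (wL j v : ℂ)) Mb hMb0 (contDiff_wLc j) (fun m hm x => by
      rw [hMb]
      exact (hCb m j x).trans (single_le_sum (f := Cm) (fun m _ => hCm m)
        (mem_range.2 (by omega)))) 0 1 (by simp) Z hZ (Real.sqrt (2 ^ n)) (2 ^ j / 4) (2 ^ j * 2)
    (omL j) α (QE E1) E0 (2 ^ j * 2) Ec K X H u W0 hu huc hα hsq hwin hEc hEcZ
    (Real.sqrt_nonneg _) (by positivity) (fun x _ => omL_Om j x) (fun i _ m hm _ hne => by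
      have hm0 : (0 : ℝ) < m := by exact_mod_cast hm
      have hl2 : 0 < Real.log 2 := Real.log_pos (by norm_num)
      have h1 : |Real.log m - Real.log 2 * j| ≤ Real.log 2 := by
        refine wL_supp fun h0 => hne ?_
        show ((wL j (Real.log m) : ℝ) : ℂ) = 0
        rw [h0, Complex.ofReal_zero]
      obtain ⟨h3, h4⟩ := abs_le.1 h1
      have h2 : (0 : ℝ) < 2 ^ j := by positivity
      constructor
      · have h5 : Real.log (2 ^ j / 4) < Real.log m := by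
          rw [Real.log_div h2.ne' (by norm_num), Real.log_pow,
            show (4 : ℝ) = 2 * 2 by norm_num, Real.log_mul (by norm_num) (by norm_num)]
          linarith
        exact (Real.log_lt_log_iff (by positivity) hm0).1 h5
      · have h5 : Real.log m ≤ Real.log (2 ^ j * 2) := by
          rw [Real.log_mul h2.ne' (by norm_num), Real.log_pow]
          linarith
        exact (Real.log_le_log_iff hm0 (by positivity)).1 h5)
    hK hKZ (by positivity) hY1 hE0 hE0Z hY1 (fun x hx => by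
      rw [mem_JW', mem_primBall] at hx
      obtain ⟨⟨⟨h1, -⟩, -⟩, -⟩ := hx
      have h3 : (nm x.1 : ℝ) ≤ Real.sqrt (2 ^ n) := (Nat.le_floor_iff (Real.sqrt_nonneg _)).1 h1
      refine h3.trans (le_trans ?_ hnZ)
      rw [Real.sqrt_le_left (by positivity)]
      have : (1 : ℝ) ≤ 2 ^ n := one_le_pow₀ (by norm_num)
      nlinarith) (fun x hx => by
      have h0 := ln_ne' hx
      rw [mem_JW', mem_primBall] at hx
      obtain ⟨⟨⟨-, h2⟩, -⟩, -, -, -, h6⟩ := hx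
      refine le_trans ?_ h6
      have h9 : nm x.2 ≤ nm (x.2 * x.1 ^ 2) := by
        rw [nm_mul, nm_pow]
        exact Nat.le_mul_of_pos_right _ (pow_pos (nm_pos.2 h2.ne_zero) 2)
      exact_mod_cast h9) hX hXZ hH hcV hKX hS hRH
  have e1 : ∀ k, StE E0 (JS n) (omL j) α k - StE E1 (JS n) (omL j) α k =
      StT E0 (J2 n j) (omL j) (fun x e => if QE E1 e then TE α x e else 0) k := by
    intro k
    rw [← StE_J2 hj, ← StE_J2 hj]
    exact StE_sub hE1 hE10 _ _ _ _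
  have e2 : (∑' k : Eis, if IsPrim k ∧ Cut Ec k then w ((nm k : ℝ) / K) *
        ‖StE E0 (JS n) (omL j) α k - StE E1 (JS n) (omL j) α k‖ ^ 2 else 0) =
      ∑' k : Eis, if IsPrim k ∧ Cut Ec k then w ((nm k : ℝ) / K) *
        ‖StT E0 (J2 n j) (omL j) (fun x e => if QE E1 e then TE α x e else 0) k‖ ^ 2 else 0 :=
    tsum_congr fun k => by rw [e1 k]
  rw [e2]
  refine k.trans ?_
  have hD0 : 0 ≤ DgS n j α E0 E1 Ec K := by
    unfold DgS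
    exact mul_nonneg (by positivity) (sum_nonneg fun f _ => mul_nonneg (by positivity)
      (XE_nonneg _ _ _ _))
  have hL0 : 0 ≤ LvS c Z n j α E0 E1 Ec K X H W0 := by
    unfold LvS
    refine sum_nonneg fun f _ => sum_nonneg fun i _ => sum_nonneg fun d _ =>
      mul_nonneg (by positivity) ?_
    have hI : 0 < c * (X * Real.exp i * H i d f / K) := by
      have := hH i d f
      have := Real.exp_pos (i : ℝ)
      positivity
    exact LVn_nonneg hK.le (hH i d f).le (Real.exp_pos _).le (Real.exp_pos _).le (by linarith)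
      zero_le_one (RN2XF_nonneg (E3Sz579.Ld_nonneg hK (hH i d f) d)
        (E3Sz579.Md_nonneg (by linarith) hK (Real.exp_pos _) (hH i d f) hX d)
        (E3Sx744.Mxd_nonneg (by linarith) hK (Real.exp_pos _) (hH i d f) hX d)
        (by have := hH i d f
            have := Real.exp_pos (i : ℝ)
            positivity) (fun jj => (hS i jj d f).nonneg _ hI))
  have hz0 : 0 ≤ C * Z ^ ε := by positivity
  have e3 : (1 + |(0 : ℝ)|) ^ A = 1 := by simp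
  rw [e3, mul_one]
  have e4 : C * (1 + Mb ^ 2) * Z ^ ε * (DgS n j α E0 E1 Ec K + LvS c Z n j α E0 E1 Ec K X H W0) =
      C * Z ^ ε * ((1 + Mb ^ 2) * (DgS n j α E0 E1 Ec K +
        LvS c Z n j α E0 E1 Ec K X H W0)) := by ring
  rw [e4]
  refine mul_le_mul_of_nonneg_left ?_ hz0
  have h5 : DgS n j α E0 E1 Ec K + Mb ^ 2 * LvS c Z n j α E0 E1 Ec K X H W0 ≤
      (1 + Mb ^ 2) * (DgS n j α E0 E1 Ec K + LvS c Z n j α E0 E1 Ec K X H W0) := by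
    have : 0 ≤ Mb ^ 2 * DgS n j α E0 E1 Ec K := by positivity
    nlinarith
  exact h5

end Crest.Agent.R017.HX72
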