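import Crest.Agent.R017.HX2_72

/-!
# Row 17, exceptional class, REST of StrUX (helper72), part 3: `HNDX` from the numbers

* **`hndx_of`** : `HNDX` from `TnHX`, `DgHX`, `RnHX`
-/

set_option autoImplicit false

noncomputable section

open Finset
open scoped Classical ComplexConjugate ContDiff

namespace Crest.Agent.R017.HX72

open Crest.Agent.R012 Crest.Agent.R012.Eis Crest.Agent.R012.Div277
open Crest.Agent.R012.MC (Wgt)
open Crest.Agent.R012.LS2 (S mem_S bl)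
open Crest.Agent.R017.CM106 (CS FS)
open Crest.Agent.R017.C70 (JC OKJ JW okJ_JW CbF)
open Crest.Agent.R017.HP842 (Pc sqc alL Th)
open Crest.Agent.R017.B770
open Crest.Agent.R017.FE47 (PU cx SM)
open Crest.Agent.R017.Prov71
open Crest.Agent.R017.E2440 (StE TE StT)
open Crest.Agent.R017.E3M829 (TC Tal Cut)
open Crest.Agent.R017.E3F548
open Crest.Agent.R017.E3Z548
open Crest.Agent.R017.E3Kc548 Crest.Agent.R017.E3Ke548
open Crest.Agent.R017.Mode405 (Slp)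
open Crest.Agent.R017.E3Hi290 (RN2XF RN2XF_nonneg)
open Crest.Agent.R017.PoHx72 (Cls)
open Crest.Agent.R017.ROX744 (PrU)
open Crest.Agent.R017.PX764 (th Gh n6)
open Crest.Agent.R017.R3571 (RMm)
open Crest.Agent.R017.XG702 (Pcs)
open Crest.Agent.R017.XT71 (Sys Win mx)
open Crest.Agent.R017.UM71
open Crest.Agent.R017.E5B71 Crest.Agent.R017.E5P571 Crest.Agent.R017.E5L770
open Crest.Agent.R017.ExBox960 Crest.Agent.R017.ExP960
open Crest.Agent.R017.Sf770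
open Crest.Agent.R017.P1e54 Crest.Agent.R017.P1f54 Crest.Agent.R017.P1k54
open Crest.Agent.R017.P1l54 (ParOK Pt_OK)
open Crest.Agent.R017.P1X960
open Crest.Agent.R017.Hi454 (DomHX EHX)
open Crest.Agent.R017.HiD50 (HndX HNDX)

lemma FS_xD {h : ℝ → ℝ} {R : ℝ} (hR : ∀ u, cx h u ≠ 0 → |u| ≤ R) {P : DPar} (hP : P.OK) (t : Eis)
    (vs : Fin 3 → Pq) (D : ℝ) (qs : List Pq) : FS (xD h P t vs D qs) := by
  have key : ∀ ws : Fin 3 → Pq, FS (sqc 1 (alL h ((List.ofFn ws ++ qs).map (Pt P t)))) := by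
    intro ws
    rw [HP842.alL_eq]
    refine FS_sqc_al hR (fun i => ?_) 1
    obtain ⟨p, -, hp⟩ := List.mem_map.1 (List.get_mem ((List.ofFn ws ++ qs).map (Pt P t)) i)
    rw [← hp]
    exact Pt_OK hP t p
  exact FS_cmb (key vs) (key _) _ _

lemma LVn_RN {af : Eis → Eis → Eis → ℂ} {Ds EE : Finset Eis} {c Y K H V V' E1 B G1 RN : ℝ} :
    LVn af Ds EE c Y K H V V' E1 B G1 RN =
      LVn af Ds EE c Y K H V V' E1 B G1 0 + FH K H V * RN := by
  unfold LVn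
  ring

lemma M2_uM {R K Ec : ℝ} (F : Eis → ℂ) : M2 (uM R K Ec) F =
    ∑' k : Eis, if IsPrim k ∧ Cut Ec k then wM R ((nm k : ℝ) / K) * ‖F k‖ ^ 2 else 0 := by
  unfold M2
  refine tsum_congr fun k => ?_
  unfold uM
  by_cases h1 : IsPrim k ∧ Cut Ec k
  · rw [if_pos h1, if_pos (show IsPrim k ∧ cutE Ec k from h1)]
  · rw [if_neg h1, if_neg (show ¬ (IsPrim k ∧ cutE Ec k) from h1), zero_mul]

/-- `seqX` with the condition on `H` only at the square parts of the level -/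
theorem seqX' {w : ℝ → ℝ} (hw : Wgt w) (hw0 : ∀ x, 0 ≤ w x) {R0 : ℝ} (hR0 : 0 ≤ R0) (a A₁ : ℕ)
    (hA₁ : 1 < A₁) {ε : ℝ} (hε : 0 < ε) (hε1 : ε ≤ 1) :
    ∃ (c C c2 : ℝ), 1 ≤ c ∧ 1 ≤ C ∧ 1 ≤ c2 ∧ ∀ (Z : ℝ), 1 ≤ Z → ∀ (n j : ℕ), j < n →
      ∀ (α : Eis → ℂ) (E0 E1 Ec K X : ℝ) (H : ℕ → Eis → Eis → ℝ) (u : Eis)
      (W0 : ℕ → Bool → Eis → Eis → ℝ → ℝ), u ≠ 0 → (∀ n, α n ≠ 0 → IsCoprime u n) →
      FS α → (∀ n, α n ≠ 0 → Squarefree n) →
      (∀ n, α n ≠ 0 → |Real.log (nm n) - Real.log X| ≤ R0) →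
      1 ≤ Ec → Ec ≤ Z → 0 < K → c2 * K ≤ Z → 0 ≤ E1 → E1 ≤ E0 → E0 ≤ Z → (2 : ℝ) ^ n ≤ Z →
      0 < X → X ≤ Z ^ 5 → (∀ i d f, 0 < H i d f) →
      (∀ i ∈ LI (2 ^ j / 4) (2 ^ j * 2), c * Real.exp i ≤ Z ^ 5) →
      (∀ i ∈ LI (2 ^ j / 4) (2 ^ j * 2), ∀ d ∈ (J2 n j).image Prod.fst,
        ∀ f ∈ (S E0).filter (QE E1), c * (H i d f * Real.exp i ^ 2) ≤ K * X) →
      (∀ i jj d f, Slp a (W0 i jj d f)) →
      (∀ i ∈ LI (2 ^ j / 4) (2 ^ j * 2), ∀ jj, ∀ d ∈ (J2 n j).image Prod.fst,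
        ∀ f ∈ (S E0).filter (QE E1), ∀ γ π,
        IsPrim γ → IsPrim π → (nm π : ℝ) ≤ c * Z ^ 300 → ∀ P : ℝ, 0 < P →
        (nm γ : ℝ) * n6 γ ^ 2 * ∑ r ∈ (bl P).filter (Cls (PrU u) jj),
          RMm A₁ (fun n => α (d * n)) f γ π r ≤ W0 i jj d f P) →
      (∑' k : Eis, if IsPrim k ∧ Cut Ec k then w ((nm k : ℝ) / K) *
        ‖StE E0 (JS n) (omL j) α k - StE E1 (JS n) (omL j) α k‖ ^ 2 else 0) ≤
      C * Z ^ ε * (DgS n j α E0 E1 Ec K + LvS c Z n j α E0 E1 Ec K X H W0) := by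
  obtain ⟨c, C, c2, hc, hC, hc2, key⟩ := seqX hw hw0 hR0 a A₁ hA₁ hε hε1
  refine ⟨c, C, c2, hc, hC, hc2, ?_⟩
  intro Z hZ n j hj α E0 E1 Ec K X H u W0 hu huc hα hsq hwin hEc hEcZ hK hKZ hE1 hE10 hE0Z hnZ hX
    hXZ hH hcV hKX hS hRH
  have hc0 : 0 < c := by linarith
  set H' : ℕ → Eis → Eis → ℝ := fun i d f =>
    if d ∈ (J2 n j).image Prod.fst then H i d f else K * X / (c * Real.exp i ^ 2) with hH'
  have h1 : ∀ i, ∀ d ∈ (J2 n j).image Prod.fst, ∀ f, H' i d f = H i d f :=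
    fun i d hd f => if_pos hd
  have hpos : ∀ i d f, 0 < H' i d f := by
    intro i d f
    show 0 < (if d ∈ (J2 n j).image Prod.fst then H i d f else K * X / (c * Real.exp i ^ 2))
    split_ifs
    · exact hH i d f
    · have := Real.exp_pos (i : ℝ)
      positivity
  have k := key Z hZ n j hj α E0 E1 Ec K X H' u W0 hu huc hα hsq hwin hEc hEcZ hK hKZ hE1 hE10
    hE0Z hnZ hX hXZ hpos hcV (fun i hi d _ f hf => by
      by_cases hd : d ∈ (J2 n j).image Prod.fst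
      · rw [h1 i d hd f]
        exact hKX i hi d hd f hf
      · have e1 : H' i d f = K * X / (c * Real.exp i ^ 2) := if_neg hd
        rw [e1]
        have := Real.exp_pos (i : ℝ)
        refine le_of_eq ?_
        field_simp) hS hRH
  have e2 : LvS c Z n j α E0 E1 Ec K X H' W0 = LvS c Z n j α E0 E1 Ec K X H W0 := by
    unfold LvS
    refine sum_congr rfl fun f _ => sum_congr rfl fun i _ => sum_congr rfl fun d hd => ?_
    have e3 : RN2XF c K (Real.exp i) X (H' i) (W0 i) d f =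
        RN2XF c K (Real.exp i) X (H i) (W0 i) d f := by
      unfold RN2XF
      rw [h1 i d hd f]
    rw [e3, h1 i d hd f]
  rwa [e2] at k

set_option maxHeartbeats 1600000 in
/-- **`HNDX` from the numbers** -/
theorem hndx_of {Λ : Type*} {π : Λ → DPar} {h : ℝ → ℝ} (hP : ∀ lam, (π lam).OK)
    {Rh : ℝ} (hRh0 : 0 ≤ Rh) (hRh : ∀ u, cx h u ≠ 0 → |u| ≤ Rh) {e1 e0 c β : ℝ}
    (he1 : 0 ≤ e1) (he10 : e1 ≤ e0) (he0 : e0 ≤ 1) {Par : Set (Fin 3 ⊕ Fin 5 → ℝ)}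
    {lo hi LH : (Fin 3 ⊕ Fin 5 → ℝ) → ℝ} (hPar : ∀ p ∈ Par, ParOK p)
    (hT : TnHX π h e1 e0 c β Par lo hi LH) (hD : DgHX π h e1 e0 c β Par lo hi LH)
    (hRn : RnHX π h e1 e0 c β Par lo hi LH) : HNDX π h e1 e0 c β Par lo hi LH := by
  intro R _ ε hε
  obtain ⟨δ₁, hδ₁, hT⟩ := hT (ε / 4) (by positivity)
  obtain ⟨δ₂, hδ₂, hD⟩ := hD (ε / 4) (by positivity)
  obtain ⟨δ₃, hδ₃, hRn⟩ := hRn (ε / 4) (by positivity)
  obtain ⟨δ, hδ, hδ1, hδ2, hδ3, hδ4⟩ : ∃ δ : ℝ, 0 < δ ∧ δ ≤ δ₁ ∧ δ ≤ δ₂ ∧ δ ≤ δ₃ ∧ δ ≤ 1 / 100 :=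
    ⟨min (min δ₁ δ₂) (min δ₃ (1 / 100)), lt_min (lt_min hδ₁ hδ₂) (lt_min hδ₃ (by norm_num)),
      (min_le_left _ _).trans (min_le_left _ _), (min_le_left _ _).trans (min_le_right _ _),
      (min_le_right _ _).trans (min_le_left _ _), (min_le_right _ _).trans (min_le_right _ _)⟩
  refine ⟨δ, hδ, ?_⟩
  rintro ⟨lam, s⟩ N B
  obtain ⟨a₁, A₀, hRn⟩ := hRn (lam, s) N B
  set ε' : ℝ := min (ε / 16) 1 with hε'
  have hε'0 : 0 < ε' := lt_min (by positivity) one_pos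
  have hε'1 : ε' ≤ 1 := min_le_right _ _
  have hε'2 : ε' ≤ ε / 16 := min_le_left _ _
  obtain ⟨cc, C, c2, hcc, hC, hc2, key⟩ := seqX' (wgt_wM (R lam)) (wM_nonneg (R lam))
    (R0 := 3 * Rh) (by positivity) a₁ (max A₀ 2) (by omega) hε'0 hε'1
  obtain ⟨ζ₁, hζ₁, X₁, hX₁, hT⟩ := hT (lam, s) N B cc hcc
  obtain ⟨ζ₂, hζ₂, X₂, hX₂, hD⟩ := hD (lam, s) N B
  obtain ⟨ζ₃, hζ₃, X₃, hX₃, hRn⟩ := hRn (max A₀ 2) (le_max_left _ _) cc hcc
  obtain ⟨δ', hδ', hd1, hd2, hd3⟩ : ∃ δ' : ℝ, 0 < δ' ∧ δ' ≤ ζ₁ ∧ δ' ≤ ζ₂ ∧ δ' ≤ ζ₃ :=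
    ⟨min ζ₁ (min ζ₂ ζ₃), lt_min hζ₁ (lt_min hζ₂ hζ₃), min_le_left _ _,
      (min_le_right _ _).trans (min_le_left _ _), (min_le_right _ _).trans (min_le_right _ _)⟩
  set Q : ℝ := 3 + Real.log c2 + Real.log cc + 4 * Real.log (3 * C) / ε with hQ
  have hlc2 : 0 ≤ Real.log c2 := Real.log_nonneg hc2
  have hlcc : 0 ≤ Real.log cc := Real.log_nonneg hcc
  have hlC : 0 ≤ Real.log (3 * C) := Real.log_nonneg (by linarith)
  have hlC' : 0 ≤ 4 * Real.log (3 * C) / ε := by positivity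
  refine ⟨δ', hδ', max (max X₁ (max X₂ X₃)) (Real.exp Q), ?_, ?_⟩
  · exact lt_of_lt_of_le hX₁ ((le_max_left _ _).trans (le_max_left _ _))
  intro X hX a qs hlen hgl q hq hw hm hg hl
  have hXa : max X₁ (max X₂ X₃) ≤ X := (le_max_left _ _).trans hX
  have hX1' : X₁ ≤ X := (le_max_left _ _).trans hXa
  have hX2' : X₂ ≤ X := (le_max_left _ _).trans ((le_max_right _ _).trans hXa)
  have hX3' : X₃ ≤ X := (le_max_right _ _).trans ((le_max_right _ _).trans hXa)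
  have hXQ : Real.exp Q ≤ X := (le_max_right _ _).trans hX
  have hX1 : 1 < X := by linarith
  have hX0 : 0 < X := by linarith
  set L := Real.log X with hL
  have hQL : Q ≤ L := by
    have := Real.log_le_log (Real.exp_pos Q) hXQ
    rwa [Real.log_exp] at this
  have hL3 : 3 ≤ L := by linarith
  have hL0 : 0 < L := by linarith
  by_cases hok : okH π (lam, s) a
  swap
  · have e0 : HndX π h e1 e0 R (lam, s) a qs = 0 := if_neg hok
    rw [e0]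
    positivity
  have hw' : ∀ {δ₀ δ₀' : ℝ}, δ ≤ δ₀ → δ' ≤ δ₀' →
      Win (lev (Real.log 2) S8X) q.1 δ₀ N B δ₀' X a :=
    fun h1 h2 => hw.mono hX1.le h1 le_rfl le_rfl h2
  have hgl' : ∀ {δ₀ : ℝ}, δ ≤ δ₀ → ∀ p' ∈ qs, Dq.lump p' ∨ Dq.nl X p' ≤ δ₀ :=
    fun h1 p' hp' => (hgl p' hp').imp id fun h2 => h2.trans h1
  have hm' : ∀ {δ₀ : ℝ}, δ ≤ δ₀ → ∀ t, |Dq.mass X qs t - q.2 t| ≤ δ₀ :=
    fun h1 t => (hm t).trans h1
  have hg' : ∀ {δ₀' : ℝ}, δ' ≤ δ₀' → Dq.Good X δ₀' B qs := fun h1 => by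
    intro p' hp'
    obtain ⟨h2, h3, h4⟩ := hg p' hp'
    exact ⟨h2.trans (Real.rpow_le_rpow_of_exponent_le hX1.le h1), h3, h4⟩
  have hTn := hT X hX1' a qs hlen (hgl' hδ1) q hq (hw' hδ1 hd1) (hm' hδ1) (hg' hd1) hl
  have hDn := hD X hX2' a qs hlen (hgl' hδ2) q hq (hw' hδ2 hd2) (hm' hδ2) (hg' hd2) hl
  obtain ⟨hHX, u, W0, hu0, huc, hS, hRM, hRnn⟩ :=
    hRn X hX3' a qs hlen (hgl' hδ3) q hq (hw' hδ3 hd3) (hm' hδ3) (hg' hd3) hl hok
  unfold TpH at hTn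
  rw [if_pos hok] at hTn
  unfold DpH at hDn
  rw [if_pos hok] at hDn
  -- the window
  obtain ⟨hq1, hq2, -, -, -, -, -, -⟩ := hq
  set p : IX5 → ℝ := bp fun i => q.1 (some i) with hp
  have hPp := hPar _ hq1.par
  have hev : ∀ i, |S8X.ev X a.1 i - q.1 (some i)| ≤ δ := fun i => hw.ev (some i)
  have hdiv : ∀ {z c : ℝ}, |z / L - c| ≤ δ → |z - c * L| ≤ δ * L := by
    intro z c h1
    have h2 : z - c * L = (z / L - c) * L := by field_simp
    rw [h2, abs_mul, abs_of_pos hL0]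
    exact mul_le_mul_of_nonneg_right h1 hL0.le
  have hk : |a.1.1.l - cκ (prX p) * L| ≤ δ * L := hdiv (hev (.inl (.inl (.inl 0))))
  have hz : |a.1.1.z - cx' (prX p) * L| ≤ δ * L := hdiv (hev (.inl (.inl (.inl 1))))
  have hu2 : |(a.1.1.us 2).z - cu (prX p) 2 * L| ≤ δ * L := hdiv (hev (.inl (.inl (.inr 2))))
  have hu3 : |(a.1.1.us 3).z - cu (prX p) 3 * L| ≤ δ * L := hdiv (hev (.inl (.inl (.inr 3))))
  have hu4 : |(a.1.1.us 4).z - cu (prX p) 4 * L| ≤ δ * L := hdiv (hev (.inl (.inl (.inr 4))))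
  have hv0 : |(a.1.2.1 0).z - q.1 (some (.inr 0)) * L| ≤ δ * L := hdiv (hev (.inr 0))
  have hv1 : |(a.1.2.1 1).z - q.1 (some (.inr 1)) * L| ≤ δ * L := hdiv (hev (.inr 1))
  have hv2 : |(a.1.2.1 2).z - q.1 (some (.inr 2)) * L| ≤ δ * L := hdiv (hev (.inr 2))
  obtain ⟨k1, k2⟩ := abs_le.1 hk
  obtain ⟨z1, z2⟩ := abs_le.1 hz
  obtain ⟨u21, u22⟩ := abs_le.1 hu2
  obtain ⟨u31, u32⟩ := abs_le.1 hu3
  obtain ⟨u41, u42⟩ := abs_le.1 hu4
  obtain ⟨v01, v02⟩ := abs_le.1 hv0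
  obtain ⟨v11, v12⟩ := abs_le.1 hv1
  obtain ⟨v21, v22⟩ := abs_le.1 hv2
  have hnat := hq2.1
  have hδL : δ * L ≤ 1 / 100 * L := mul_le_mul_of_nonneg_right hδ4 hL0.le
  have hκL : 8 / 9 * L ≤ cκ (prX p) * L := mul_le_mul_of_nonneg_right hPp.κ0 hL0.le
  have hκL1 : cκ (prX p) * L ≤ 1 * L := mul_le_mul_of_nonneg_right hPp.κ1 hL0.le
  have hcN : cN (prX p) = cu (prX p) 2 + cu (prX p) 3 + cu (prX p) 4 := rfl
  have hNL0 : 3 / 5 * (cκ (prX p) * L) ≤ (cu (prX p) 2 + cu (prX p) 3 + cu (prX p) 4) * L := by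
    have := mul_le_mul_of_nonneg_right hPp.N0 hL0.le
    rw [hcN] at this
    linarith
  have hNL1 : (cu (prX p) 2 + cu (prX p) 3 + cu (prX p) 4) * L ≤ 1 * L := by
    have := mul_le_mul_of_nonneg_right hPp.N1 hL0.le
    rwa [hcN] at this
  have hx0L : 0 ≤ cx' (prX p) * L := mul_nonneg hPp.x0 hL0.le
  have hx1L : cx' (prX p) * L ≤ 1 / 3 * L := mul_le_mul_of_nonneg_right hPp.x1 hL0.le
  have w0L := mul_le_mul_of_nonneg_right hnat.1 hL0.le
  have w1L := mul_le_mul_of_nonneg_right hnat.2.1 hL0.le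
  have w2L := mul_le_mul_of_nonneg_right hnat.2.2 hL0.le
  set l := a.1.1.l with hldef
  have hl1 : 87 / 100 * L ≤ l := by linarith
  have hl2 : l ≤ 101 / 100 * L := by linarith
  have hl0 : 0 < l := by linarith
  have hA : a3 a.1.1.toBd = (a.1.1.us 2).z + (a.1.1.us 3).z + (a.1.1.us 4).z := rfl
  have htO : tO a.1.1.toBd = min (2 * a3 a.1.1.toBd - l) (3 / 4 * a3 a.1.1.toBd) +
      11 / 5 * a.1.1.z := rfl
  have htO0 : 0 ≤ tO a.1.1.toBd := by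
    rw [htO, hA]
    have h1 : 4 / 100 * L ≤ min (2 * ((a.1.1.us 2).z + (a.1.1.us 3).z + (a.1.1.us 4).z) - l)
        (3 / 4 * ((a.1.1.us 2).z + (a.1.1.us 3).z + (a.1.1.us 4).z)) := by
      refine le_min ?_ ?_ <;> linarith
    linarith
  have htO1 : tO a.1.1.toBd ≤ 154 / 100 * L := by
    rw [htO, hA]
    have h1 := min_le_right (2 * ((a.1.1.us 2).z + (a.1.1.us 3).z + (a.1.1.us 4).z) - l)
        (3 / 4 * ((a.1.1.us 2).z + (a.1.1.us 3).z + (a.1.1.us 4).z))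
    linarith
  have hnO := nO_le htO0
  have hlog2 : Real.log 2 ≤ 1 := by
    have := Real.log_two_lt_d9
    linarith
  have h2n : (2 : ℝ) ^ nO a.1.1.toBd ≤ ZH a := by
    unfold ZH
    rw [← Real.exp_log (show (0 : ℝ) < 2 ^ nO a.1.1.toBd by positivity), Real.log_pow]
    refine Real.exp_le_exp.2 ?_
    linarith
  have hpf : pfH a ≤ 104 / 100 * L := by
    rw [pfH_eq]
    linarith
  have hZ1 : 1 ≤ ZH a := Real.one_le_exp (by positivity)
  have hZ5 : ZH a ^ 5 = Real.exp (15 * l) := by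
    unfold ZH
    rw [← Real.exp_nat_mul]
    congr 1
    push_cast
    ring
  have hpos4 : 0 < 4 * Real.log (3 * C) / ε + 1 := by positivity
  have hm2 := key (ZH a) hZ1 (nO a.1.1.toBd) a.2 hok.2.2 (alH π h (lam, s) a)
    (Real.exp (e0 * l)) (Real.exp (e1 * l)) (Real.exp (l / 20)) (Real.exp l) (Real.exp (pfH a))
    (fun i d _ => HhX cc a i d) u W0 hu0 huc (FS_xD hRh (hP lam) s _ _ _)
    (fun n hn => (xD_supp hRh (π lam) s _ _ hn).1) (fun n hn => by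
      rw [Real.log_exp, pfH_eq]
      exact (xD_supp hRh (π lam) s _ _ hn).2)
    (Real.one_le_exp (by positivity)) (Real.exp_le_exp.2 (by linarith)) (Real.exp_pos _) (by
      rw [← Real.exp_log (show 0 < c2 by linarith), ← Real.exp_add]
      refine Real.exp_le_exp.2 ?_
      linarith) (Real.exp_pos _).le
    (Real.exp_le_exp.2 (mul_le_mul_of_nonneg_right he10 hl0.le))
    (Real.exp_le_exp.2 (mul_le_mul_of_nonneg_right (by linarith) hl0.le)) h2n (Real.exp_pos _)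
    (by rw [hZ5]; exact Real.exp_le_exp.2 (by linarith)) (fun i d f => HhX_pos a i d)
    (fun i hi => by
      have h1 := (mem_LI hi).2.2
      have h2 : (2 : ℝ) ^ a.2 * 2 ≤ ZH a := by
        refine le_trans ?_ h2n
        rw [← pow_succ]
        exact pow_le_pow_right₀ (by norm_num) hok.2.2
      have h3 : cc * Real.exp i ≤ cc * (Real.exp 1 * ZH a) := by
        refine mul_le_mul_of_nonneg_left (h1.trans ?_) (by linarith)
        exact mul_le_mul_of_nonneg_left h2 (Real.exp_pos _).le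
      refine h3.trans ?_
      rw [hZ5]
      unfold ZH
      rw [← Real.exp_log (show 0 < cc by linarith), ← Real.exp_add, ← Real.exp_add]
      refine Real.exp_le_exp.2 ?_
      linarith)
    (fun i hi d hd _ _ => hHX i hi d hd) hS hRM
  have hLvS : LvS cc (ZH a) (nO a.1.1.toBd) a.2 (alH π h (lam, s) a) (Real.exp (e0 * l))
      (Real.exp (e1 * l)) (Real.exp (l / 20)) (Real.exp l) (Real.exp (pfH a))
      (fun i d _ => HhX cc a i d) W0 ≤ X ^ (EHX LH q + ε / 4) + X ^ (EHX LH q + ε / 4) := by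
    refine le_trans (le_of_eq ?_) (add_le_add hTn hRnn)
    unfold LvS
    rw [← sum_add_distrib]
    refine sum_congr rfl fun f _ => ?_
    rw [← sum_add_distrib]
    refine sum_congr rfl fun i _ => ?_
    rw [← sum_add_distrib]
    refine sum_congr rfl fun d _ => ?_
    rw [← mul_add, ← LVn_RN]
  have hlow : HndX π h e1 e0 R (lam, s) a qs ≤
      C * ZH a ^ ε' * (X ^ (EHX LH q + ε / 4) + (X ^ (EHX LH q + ε / 4) +
        X ^ (EHX LH q + ε / 4))) := by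
    have e0 : HndX π h e1 e0 R (lam, s) a qs = M2 (uM (R lam) (Real.exp l) (Real.exp (l / 20)))
        (fun k => StE (Real.exp (e0 * l)) (JS (nO a.1.1.toBd)) (omL a.2) (alH π h (lam, s) a) k -
          StE (Real.exp (e1 * l)) (JS (nO a.1.1.toBd)) (omL a.2) (alH π h (lam, s) a) k) :=
      if_pos hok
    rw [e0, M2_uM]
    refine hm2.trans ?_
    refine mul_le_mul_of_nonneg_left (add_le_add hDn hLvS) ?_
    positivity
  refine hlow.trans ?_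
  have hZe : ZH a ^ ε' ≤ X ^ (ε / 4) := by
    unfold ZH
    rw [← Real.exp_mul, Real.rpow_def_of_pos hX0, ← hL]
    refine Real.exp_le_exp.2 ?_
    have h1 : 3 * l * ε' ≤ 3 * l * (ε / 16) := mul_le_mul_of_nonneg_left hε'2 (by positivity)
    have h2 : l * ε ≤ 101 / 100 * L * ε := mul_le_mul_of_nonneg_right hl2 hε.le
    have h3 : 0 < L * ε := by positivity
    nlinarith
  have h3C : 3 * C ≤ X ^ (ε / 4) := by
    have h1 : 4 * Real.log (3 * C) / ε ≤ L := by linarith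
    rw [div_le_iff₀ hε] at h1
    rw [Real.rpow_def_of_pos hX0, ← hL, ← Real.exp_log (show 0 < 3 * C by linarith)]
    exact Real.exp_le_exp.2 (by linarith)
  have hXE : 0 < X ^ (EHX LH q + ε / 4) := by positivity
  calc C * ZH a ^ ε' * (X ^ (EHX LH q + ε / 4) + (X ^ (EHX LH q + ε / 4) +
        X ^ (EHX LH q + ε / 4))) = (3 * C) * ZH a ^ ε' * X ^ (EHX LH q + ε / 4) := by ring
    _ ≤ X ^ (ε / 4) * X ^ (ε / 4) * X ^ (EHX LH q + ε / 4) := by gcongr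
    _ = X ^ (EHX LH q + 3 / 4 * ε) := by
        rw [← Real.rpow_add hX0, ← Real.rpow_add hX0]
        congr 1
        ring
    _ ≤ X ^ (EHX LH q + ε) := Real.rpow_le_rpow_of_exponent_le hX1.le (by linarith)

end Crest.Agent.R017.HX72
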