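import Crest.Agent.R017.ETm_548
import Crest.Agent.R017.ETy3_71
import Crest.Agent.R017.P1X7_904
import Crest.Agent.R017.FrX_579
import Crest.Agent.R017.UbOr_381

/-!
# Row 17, exceptional class (helper548): `h` and the room of the high families

* `hfG` : `h = log H` of the high families
* `GEq`, `GXq`, `GSq` : the room of a point (nominal values)
-/

set_option autoImplicit false
set_option linter.unusedVariables false

noncomputable section

open scoped Classical

namespace Crest.Agent.R017.HfG548

open Crest.Agent.R012 Crest.Agent.R012.Eis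
open Crest.Agent.R017.B770
open Crest.Agent.R017.Prov71
open Crest.Agent.R017.I1146 (LN)
open Crest.Agent.R017.E5B71 Crest.Agent.R017.E5P571 Crest.Agent.R017.E5L770
open Crest.Agent.R017.ExBox960 Crest.Agent.R017.ExP960
open Crest.Agent.R017.P1X960
open Crest.Agent.R017.P10X764 (clN)
open Crest.Agent.R017.ETd548 (BkX S8Xk)
open Crest.Agent.R017.ETm548 (QK HfK kB)
open Crest.Agent.R017.ETy71 (mV bq vN vR pQ)

/-- the configuration without the family -/
def q8 (q : QK) : (I8X → ℝ) × (Kd → ℝ) := (fun i => q.1 (.inl i), q.2)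

/-- **`h = log H`** (`uNf`, `uRf` : the smallest lengths; `F` : the shift of the numbers of the
lists; `sf` : the shift of the difference) -/
def hfG {Λ : Type*} (d : ℝ) (uNf uRf F : QK → ℝ) (sf : BcX → ℝ) : HfK Λ :=
  fun lam X a qs q i g => Real.log X *
    P1L7904.hX (cN (prX (bq q))) (cκ (prX (bq q))) (kB a / Real.log X) ((i : ℝ) / Real.log X)
      (LN (clN a.1 qs) / Real.log X) (g / Real.log X) (cx' (prX (bq q)))
      (d * cκ (prX (bq q))) (uNf q) (uRf q) (sf a.1 / Real.log X) (F q)

/-- the room of a point -/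
def GEq (d : ℝ) (uNf uRf : QK → ℝ) (q : QK) : ℝ :=
  P1L7904.GX (cN (prX (bq q))) (cκ (prX (bq q))) (q.1 (.inr ())) (pQ q) (uNf q) (uRf q)
    (cx' (prX (bq q))) (d * cκ (prX (bq q)))

/-- the smallest natural, replaced length (differences) -/
def uNX (q : QK) : ℝ := mV (vN q)
def uRX (q : QK) : ℝ := mV (vR q)

/-- the same (single lists): natural `uR = 0`; replaced `uN = u - 17/100 κ` -/
def uNS (q : QK) : ℝ :=
  if NatL (bq q) (q.1 (.inl (.inr 0))) (q.1 (.inl (.inr 1))) (q.1 (.inl (.inr 2))) then mV (vN q)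
  else cu (prX (bq q)) 4 - 17 / 100 * cκ (prX (bq q))
def uRS (q : QK) : ℝ :=
  if NatL (bq q) (q.1 (.inl (.inr 0))) (q.1 (.inl (.inr 1))) (q.1 (.inl (.inr 2))) then 0
  else mV (vN q)

/-- **the room, differences** -/
def GXq (d : ℝ) : QK → ℝ := GEq d uNX uRX

/-- **the room, single lists** -/
def GSq (d : ℝ) : QK → ℝ := GEq d uNS uRS

end Crest.Agent.R017.HfG548
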