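import Crest.Agent.R017.P1s_54

/-!
# Row 17, StrU high levels (helper54): the plain second moment of the structured function, part 1

* `ste_sep` : separation of the lengths for `StE`
* `M2_StE_alb` : `alb f β` by the child family
* `ste_big` : trivial bound
* `sst_M2` : Cauchy over the powerful tuples
-/

set_option autoImplicit false

noncomputable section

open Finset
open scoped ComplexConjugate

namespace Crest.Agent.R017.Hi154

open Crest.Agent.R012 Crest.Agent.R012.Eis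
open Crest.Agent.R012.Mob705 hiding pb mem_pb
open Crest.Agent.R012.LS2 (S mem_S)
open Crest.Agent.R017.CM106 Crest.Agent.R017.C70
open Crest.Agent.R017.FE47 (PU cx SM)
open Crest.Agent.R017.StD828 (ln Tm)
open Crest.Agent.R017.E2440 (TE StE Bth Bth_nonneg)
open Crest.Agent.R017.E5k54 (PT alb)
open Crest.Agent.R017.SSb54 (SST SSb PTb mem_PTb PTb_sub)
open Crest.Agent.R017.P1e54 Crest.Agent.R017.P1f54 Crest.Agent.R017.P1h54
open Crest.Agent.R017.P1i54 Crest.Agent.R017.P1j54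
open Crest.Agent.R017.P1k54 Crest.Agent.R017.P1l54 Crest.Agent.R017.P1n54 Crest.Agent.R017.P1o54
open Crest.Agent.R017.P1p54 Crest.Agent.R017.P1q54 Crest.Agent.R017.P1r54 Crest.Agent.R017.P1s54
open Crest.Agent.R017.HP842 (Pc pc al alL cv Tu mem_Tu sqc Th)
open Crest.Agent.R017.B770 Crest.Agent.R017.Prov71
open Crest.Agent.R017.XG702 (Pcs)
open Crest.Agent.R017.XT71 (Sys Win mx mx_le le_mx)
open Crest.Agent.R017.UM71
open Crest.Agent.R017.E5P571 (PB mem_PB PC)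
open Crest.Agent.R017.E5B71 Crest.Agent.R017.E5L770

attribute [local irreducible] HP842.Tu

lemma StE_Er (E0 : ℝ) (J : Finset (Eis × Eis)) (om : Eis × Eis → ℂ) (α : Eis → ℂ) (k : Eis) :
    StE E0 J om α k = Er 0 E0 J om α k - Er 1 E0 J om α k := by
  unfold Er; ring

/-- `StE` as a multilinear form -/
theorem StE_PF {I : Type} [Fintype I] [DecidableEq I] {h : ℝ → ℝ} {s : I → Pc} {X : ℕ}
    (hX : ∀ i m, pc h (s i) m ≠ 0 → nm m ≤ X)
    (E0 : ℝ) {J : Finset (Eis × Eis)} (hJ : ∀ x ∈ J, x.1 ≠ 0) (om : Eis × Eis → ℂ)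
    (k : Eis) : StE E0 J om (sqc 1 (al h s)) k =
      PF h (TB I X) (fun b => Th 1 (∏ i, b i) * StE E0 J om (dlt (∏ i, b i)) k) s := by
  rw [StE_Er, Er_PF hX 0 E0 hJ om k, Er_PF hX 1 E0 hJ om k]
  unfold PF
  rw [← sum_sub_distrib]
  refine sum_congr rfl fun b _ => ?_
  show _ = Th 1 (∏ i, b i) * StE E0 J om (dlt (∏ i, b i)) k * _
  rw [StE_Er E0 J om (dlt (∏ i, b i)) k]
  ring

/-- separation for `StE` -/
def SepS (h : ℝ → ℝ) (c R M C : ℝ) : Prop :=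
  ∀ (J : Type) [Fintype J] [DecidableEq J] (s : J → Pc), (∀ i, (s i).OK) →
      ∀ (E0 : ℝ) (W : Finset (Eis × Eis)), (∀ x ∈ W, x.1 ≠ 0) →
      ∀ (om : Eis × Eis → ℂ) (u : Eis → ℝ), (∀ k, 0 ≤ u k) → (Function.support u).Finite →
      ∀ B : ℝ, 0 ≤ B →
      (∀ (n : J → ℕ) (τ : J → ℝ), (∀ i, |c * n i - Real.log (s i).Y| ≤ 2 * R) →
        M2 u (StE E0 W om (sqc 1 (al h (reY s (fun i => Real.exp (c * n i))
          (fun i => (s i).t + τ i))))) ≤ B * ∏ i, (1 + |τ i|) ^ M) →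
      M2 u (StE E0 W om (sqc 1 (al h s))) ≤ C ^ Fintype.card J * B

/-- **`StE`: lengths `≥ 1` suffice** -/
theorem ste_sep {h : ℝ → ℝ} {c : ℝ} (hpu : PU h c) {R : ℝ} (hR0 : 0 ≤ R)
    (hR : ∀ u, cx h u ≠ 0 → |u| ≤ R) (M : ℝ) : ∃ C : ℝ, 0 ≤ C ∧ SepS h c R M C := by
  obtain ⟨C, hC, key⟩ := sep_M2 hpu hR0 hR M
  refine ⟨C, hC, ?_⟩
  intro J _ _ s hs E0 W hW om u h0 hu B hB hyp
  obtain ⟨X, hX⟩ := exists_X s R
  refine key J s u h0 hu (fun s' => StE E0 W om (sqc 1 (al h s'))) X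
    (fun k b => Th 1 (∏ i, b i) * StE E0 W om (dlt (∏ i, b i)) k) hX (fun i => (hs i).Y0)
    (fun Y t hY hYX k => ?_) B hB hyp
  refine StE_PF (fun i m hm => ?_) E0 hW om k
  have h1 := supp_pc hR (P := reY s Y t i) (hY i) hm
  exact_mod_cast h1.trans (hYX i)

/-- `alb f β` by the child family -/
theorem M2_StE_alb {κ : Type*} [Fintype κ] [DecidableEq κ]
    {h : ℝ → ℝ} {R : ℝ} (hR : ∀ u, cx h u ≠ 0 → |u| ≤ R) {s : κ → Pc}
    (hs : ∀ i, (s i).OK) {β : κ → Eis} (hβ : ∀ i, IsPrim (β i)) {u : Eis → ℝ}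
    (h0 : ∀ k, 0 ≤ u k) (hu : (Function.support u).Finite) {J : Finset (Eis × Eis)}
    (hJ : ∀ x ∈ J, x.1 ≠ 0) (E0 : ℝ) (om : Eis × Eis → ℂ) :
    M2 u (StE E0 J om (alb (fun i => pc h (s i)) β)) ≤
      M2 u (StE E0 J om (sqc 1 (al h (ch1 s β (fun _ => 1) 1)))) := by
  classical
  have hOK := ch1_OK hs hβ (x := fun _ => 1) (fun _ => isPrim_one) 1
  have hfs : FS (sqc 1 (al h (ch1 s β (fun _ => 1) 1))) := FS_sqc_al hR hOK 1
  rw [alb_eq hs hβ]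
  refine M2_mono h0 hu fun k => ?_
  have e1 := fun c => Er_sum ({()} : Finset Unit) (fun _ => k1 s β (fun _ => 1) 1)
    (fun _ => sqc 1 (al h (ch1 s β (fun _ => 1) 1))) (fun _ _ => hfs) c E0 hJ om k
  simp only [sum_singleton] at e1
  have h1 := norm_k1_le hs hβ (x := fun _ => 1) (fun _ => isPrim_one) 1
  rw [StE_Er, e1 0, e1 1, ← mul_sub, ← StE_Er, norm_mul]
  exact mul_le_of_le_one_left (norm_nonneg _) h1

/-- **Cauchy over the tuples** -/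
theorem sst_M2 {κ : Type*} [Fintype κ] [DecidableEq κ] (T : Finset (κ → Eis))
    (hT : ∀ β ∈ T, ∀ i, IsPrim (β i)) {δ : ℝ} (f : κ → Eis → ℂ) (E0 : ℝ)
    (J : Finset (Eis × Eis)) (om : Eis × Eis → ℂ) {u : Eis → ℝ} (h0 : ∀ k, 0 ≤ u k)
    (hu : (Function.support u).Finite) :
    M2 u (SST T f E0 J om) ≤ (∑ β ∈ T, (nm (∏ j, β j) : ℝ) ^ (-(1 / 2 + δ))) *
      ∑ β ∈ T, ((nm (∏ j, β j) : ℝ) ^ (-(1 / 2 + δ)))⁻¹ * M2 u (StE E0 J om (alb f β)) := by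
  have h1 := M2_sum_le h0 hu T (fun β k => sy k (∏ i, β i) * StE E0 J om (alb f β) k)
    (fun β => (nm (∏ j, β j) : ℝ) ^ (-(1 / 2 + δ))) (fun β hβ => by
      have : (0 : ℝ) < nm (∏ j, β j) := by
        have := nmP (hT β hβ); linarith
      positivity)
  refine (le_of_eq ?_).trans (h1.trans (mul_le_mul_of_nonneg_left (sum_le_sum fun β hβ => ?_)
    (sum_nonneg fun β _ => Real.rpow_nonneg (Nat.cast_nonneg _) _)))
  · rfl
  · refine mul_le_mul_of_nonneg_left ?_ (inv_nonneg.2 (Real.rpow_nonneg (Nat.cast_nonneg _) _))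
    refine M2_mono h0 hu fun k => ?_
    rw [norm_mul]
    exact mul_le_of_le_one_left (norm_nonneg _)
      (norm_sy_le k (E554.isPrim_prod fun i _ => hT β hβ i))

/-- **trivial bound** -/
theorem ste_big {h : ℝ → ℝ} {R H : ℝ} (hR : ∀ u, cx h u ≠ 0 → |u| ≤ R)
    (hH : ∀ u, ‖cx h u‖ ≤ H) {Hw : ℝ} (hHw : 0 ≤ Hw) {X : ℝ} (hX : Big X H) (hXw : Hw ≤ X)
    {I : Type*} [Fintype I] [DecidableEq I] {s : I → Pc} (hs : ∀ i, (s i).OK)
    (hY : ∀ i, (s i).Y * Real.exp R ≤ X ^ 3) {N : ℕ} (hI : Fintype.card I ≤ N)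
    {om : Eis × Eis → ℂ} (hom' : ∀ x, ‖om x‖ ≤ Hw) {E0 YT : ℝ} (hE : 0 ≤ E0) (hE1 : E0 ≤ X ^ 3)
    (hT : 0 ≤ YT) (hT1 : YT ≤ X ^ 3) {u : Eis → ℝ} (hu1 : ∀ k, u k ≤ 1)
    (hus : ∀ k, u k ≠ 0 → IsPrim k ∧ (nm k : ℝ) ≤ X ^ 3) :
    M2 u (StE E0 (JW (Real.sqrt YT) (1 / 10) YT) om (sqc 1 (al h s))) ≤ X ^ (100 * (N + 1)) := by
  classical
  have hX2 : 2 ≤ X := by linarith [hX.c]
  have hX1 : 1 ≤ X := by linarith
  have hX0 : 0 ≤ X := by linarith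
  have c100 : (100 : ℝ) ≤ X ^ 1 := by linarith [hX.c, pow_one X]
  have hBs := Bs_X hR hH hX hs hY hI
  have hsq : Real.sqrt YT ≤ X ^ 3 := by
    rw [Real.sqrt_le_left (by positivity)]
    have : 1 ≤ X ^ 3 := one_le_pow₀ hX1
    nlinarith
  have hcard : ((JW (Real.sqrt YT) (1 / 10) YT).card : ℝ) ≤ X ^ 9 := by
    refine (card_JW_le (Real.sqrt_nonneg _) hT).trans ?_
    have e1 : 100 * Real.sqrt YT ≤ X ^ (1 + 3) := pl hX1 (Real.sqrt_nonneg _) c100 hsq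
    have e2 : YT + 1 ≤ X ^ (3 + 1) := pa hX2 hT1 (one_le_pow₀ hX1)
    have e3 : 101 * (YT + 1) ≤ X ^ (1 + 4) :=
      pl hX1 (by linarith) (by linarith [hX.c, pow_one X]) e2
    exact pl hX1 (by linarith) e1 e3
  have hom : ∀ x ∈ JW (Real.sqrt YT) (1 / 10) YT, ‖om x‖ ≤ X ^ 1 := fun x _ => by
    rw [pow_one]; exact (hom' x).trans hXw
  have hQ : 100 * X ^ (3 * N) * X ^ (5 * N) ≤ X ^ (8 * N + 1) := by
    have := pl hX1 (by positivity) (pl hX1 (by positivity) c100 (le_refl (X ^ (3 * N))))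
      (le_refl (X ^ (5 * N)))
    exact pm hX1 (by omega) this
  have hb : ∀ k, k ≠ 0 → ‖StE E0 (JW (Real.sqrt YT) (1 / 10) YT)
      om (sqc 1 (al h s)) k‖ ≤ X ^ (8 * N + 21) := by
    intro k hk
    have h1 : ‖StE E0 (JW (Real.sqrt YT) (1 / 10) YT) om (sqc 1 (al h s)) k‖ ≤
        ((JW (Real.sqrt YT) (1 / 10) YT).card : ℝ) *
          (X ^ 1 * (Bth * (100 * E0 * (100 * X ^ (3 * N) * X ^ (5 * N))))) :=
      norm_St_gen (okJ_JW (Real.sqrt YT) (1 / 10) YT) hom (by positivity) hE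
        (mc := fun e => ((mu e : ℤ) : ℂ)) (fun e => norm_muE_le e)
        (T := fun x e => TE (sqc 1 (al h s)) x e) (by positivity)
        (fun x hx e _ => norm_TE_le (by positivity) hBs
          ((okJ_JW (Real.sqrt YT) (1 / 10) YT).prim x hx) e) hk (fun e => e ∣ k)
    refine h1.trans ?_
    have q0 : 0 ≤ 100 * X ^ (3 * N) * X ^ (5 * N) := by positivity
    have e1 : 100 * E0 ≤ X ^ (1 + 3) := pl hX1 hE c100 hE1
    have e2 := pl hX1 q0 e1 hQ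
    have e3 := pl (a := Bth) (i := 1) hX1 (by positivity) (by rw [pow_one]; exact hX.b) e2
    have e4 := pl hX1 (by have := Bth_nonneg; positivity) (le_refl (X ^ 1)) e3
    have e5 := pl hX1 (by have := Bth_nonneg; positivity) hcard e4
    exact pm hX1 (by omega) e5
  have h2 := M2_le (u := u) (V := X ^ 3) (U := 1) (by positivity) zero_le_one hus hu1 hb
  refine h2.trans ?_
  rw [one_mul]
  have e1 := pl hX1 (by positivity) (pl hX1 (by positivity) c100 (le_refl (X ^ 3)))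
    (le_of_eq (pow_mul X (8 * N + 21) 2).symm)
  exact pm hX1 (by omega) e1

/-! ### the inputs -/

variable {Λ : Type*} (π : Λ → DPar) (h : ℝ → ℝ) (e0 : ℝ)

open Classical in
/-- **the second moment of one level, one natural triple** (level `a.2`) -/
def HnC (R : Λ → ℝ) (lam : Λ × Eis) (a : Bc × ℕ) (_ : List Pq) : ℝ :=
  if okC (π lam.1) lam.2 a.1 [] then
    M2 (uM (R lam.1) (Real.exp a.1.1.l) (Real.exp (a.1.1.l / 20)))
      (StE (Real.exp (e0 * a.1.1.l)) (Jo a.1.1.l (a3 a.1.1) a.1.1.z) (omL a.2)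
        (sqc 1 (alL h ((List.ofFn a.1.2).map (Pt (π lam.1) lam.2)))))
  else 0

/-- configurations: parents in `Par`, shortened lumps, the level between `lo` and `hi` -/
def DomH (Par : Set (Fin 3 ⊕ Fin 5 → ℝ)) (lo hi : (Fin 3 ⊕ Fin 5 → ℝ) → ℝ) :
    Set ((Option ((Fin 3 ⊕ Fin 5) ⊕ Fin 3) → ℝ) × (Kd → ℝ)) :=
  {q | (fun i => q.1 (some (.inl i))) ∈ Par ∧
    (∀ i : Fin 3, 0 ≤ q.1 (some (.inr i)) ∧
      q.1 (some (.inr i)) ≤ cu (fun i => q.1 (some (.inl i))) (Fin.natAdd 2 i)) ∧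
    q.2 = 0 ∧ cκ (fun i => q.1 (some (.inl i))) / 2 ≤
      ∑ i : Fin 3, q.1 (some (.inr i)) + 2 * cx' (fun i => q.1 (some (.inl i))) ∧
    lo (fun i => q.1 (some (.inl i))) ≤ q.1 none ∧ q.1 none ≤ hi (fun i => q.1 (some (.inl i)))}

/-- **HN** : the second moment of one level of one natural triple -/
def HN (Par : Set (Fin 3 ⊕ Fin 5 → ℝ)) (lo hi LH : (Fin 3 ⊕ Fin 5 → ℝ) → ℝ) : Prop :=
  ∀ R : Λ → ℝ, (∀ lam, 0 ≤ R lam) → UB (lev (Real.log 2) S8) Dq (HnC π h e0 R)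
    (DomH Par lo hi) ∅ (fun q => cκ (fun i => q.1 (some (.inl i))) +
      ∑ i : Fin 3, q.1 (some (.inr i)) + LH (fun i => q.1 (some (.inl i))))

open Classical in
/-- **the second moment of one level of a structured function** over the cut, no amplifier -/
def HiF (Sf : SF Λ) (R : Λ → ℝ) (lam : Λ × Eis) (a : Bd) : ℝ :=
  if a.ok ∧ lam.2 ∈ SM (π lam.1).n then
    ∑ k ∈ (PB (π lam.1).n ⌊Real.exp (a.l + R lam.1)⌋₊).filter
        (fun k => cutE (Real.exp (a.l / 20)) k ∧ Real.exp (a.l - R lam.1) ≤ nm k),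
      ‖Sf.at lam a k‖ ^ 2
  else 0

/-- **HiU** : all levels between `lo` and `hi` -/
def HiU (r : ℝ) (Par : Set (Fin 3 ⊕ Fin 5 → ℝ)) (lo hi LH : (Fin 3 ⊕ Fin 5 → ℝ) → ℝ)
    (al : Set ((Option (Fin 3 ⊕ Fin 5) → ℝ) × ℝ)) : Prop :=
  ∀ R : Λ → ℝ, (∀ lam, 0 ≤ R lam) → UB (lev (Real.log 2) S5) Dq
    (fun lam (a : Bd × ℕ) _ => HiF π (SfV π h e0 r bfO Jo a.2) R lam a.1)
    {q | (fun i => q.1 (some i)) ∈ Par ∧ lo (fun i => q.1 (some i)) ≤ q.1 none ∧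
      q.1 none ≤ hi (fun i => q.1 (some i))} al
    (fun q => cκ (fun i => q.1 (some i)) + cN (fun i => q.1 (some i)) +
      LH (fun i => q.1 (some i)))

end Crest.Agent.R017.Hi154
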