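import Crest.Agent.R017.Hi1_54

/-!
# Row 17, StrU high levels (helper54): the plain second moment of the structured function, part 2

* `hnV` : the child bound
-/

set_option autoImplicit false

noncomputable section

open Finset
open scoped ComplexConjugate

namespace Crest.Agent.R017.Hi254

open Crest.Agent.R012 Crest.Agent.R012.Eis
open Crest.Agent.R012.Mob705 hiding pb mem_pb
open Crest.Agent.R012.LS2 (S mem_S)
open Crest.Agent.R017.CM106 Crest.Agent.R017.C70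
open Crest.Agent.R017.FE47 (PU cx SM)
open Crest.Agent.R017.StD828 (ln Tm)
open Crest.Agent.R017.E2440 (TE StE Bth Bth_nonneg)
open Crest.Agent.R017.E5k54 (PT alb)
open Crest.Agent.R017.SSb54 (SST SSb PTb mem_PTb PTb_sub)
open Crest.Agent.R017.P1e54 Crest.Agent.R017.P1f54 Crest.Agent.R017.P1h54
open Crest.Agent.R017.P1i54 Crest.Agent.R017.P1j54
open Crest.Agent.R017.P1k54 Crest.Agent.R017.P1l54 Crest.Agent.R017.P1n54 Crest.Agent.R017.P1o54
open Crest.Agent.R017.P1p54 Crest.Agent.R017.P1q54 Crest.Agent.R017.P1r54 Crest.Agent.R017.P1s54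
open Crest.Agent.R017.HP842 (Pc pc al alL cv Tu mem_Tu sqc Th)
open Crest.Agent.R017.B770 Crest.Agent.R017.Prov71
open Crest.Agent.R017.XG702 (Pcs)
open Crest.Agent.R017.XT71 (Sys Win mx mx_le le_mx)
open Crest.Agent.R017.UM71
open Crest.Agent.R017.E5P571 (PB mem_PB PC)
open Crest.Agent.R017.E5B71 Crest.Agent.R017.E5L770
open Crest.Agent.R017.Hi154

attribute [local irreducible] HP842.Tu

/-- a configuration near the data, no amplifier -/
lemma near_v {κ x δ : ℝ} {u z : Fin 3 → ℝ} (hδ : 0 ≤ δ) (hδ1 : 60 * δ ≤ 1)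
    (hκ0 : 8 / 9 ≤ κ) (hu0 : ∀ i, 0 ≤ u i) (hN0 : 3 / 5 * κ ≤ ∑ i, u i) (hN1 : ∑ i, u i ≤ 1)
    (hx0 : 0 ≤ x) (hz0 : ∀ i, 0 ≤ z i) (hz : ∀ i, z i ≤ u i + δ)
    (hs : κ / 2 ≤ ∑ i, z i + 2 * x + δ) :
    ∃ v : Fin 3 → ℝ, (∀ i, 0 ≤ v i ∧ v i ≤ u i) ∧ κ / 2 ≤ ∑ i, v i + 2 * x ∧
      (∀ i, |z i - v i| ≤ 80 * δ) ∧ ∑ i, v i ≤ ∑ i, z i + 300 * δ := by
  rw [Fin.sum_univ_three] at hN0 hN1 hs
  have a0 := hu0 0
  have a1 := hu0 1
  have a2 := hu0 2
  have b0 := hz0 0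
  have b1 := hz0 1
  have b2 := hz0 2
  have c0 := hz 0
  have c1 := hz 1
  have c2 := hz 2
  set v0 : Fin 3 → ℝ := fun i => min (z i) (u i) with hv0
  have d1 : ∀ i, v0 i ≤ z i := fun i => min_le_left _ _
  have d2 : ∀ i, v0 i ≤ u i := fun i => min_le_right _ _
  have d3 : ∀ i, z i - δ ≤ v0 i := fun i => le_min (by linarith) (by linarith [hz i])
  have d4 : ∀ i, 0 ≤ v0 i := fun i => le_min (hz0 i) (hu0 i)
  set θ : ℝ := 60 * δ with hθ
  have t0 : 0 ≤ θ := by positivity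
  have g0 : ∀ i, 0 ≤ θ * (u i - v0 i) := fun i => mul_nonneg t0 (by linarith [d2 i])
  have g1 : ∀ i, θ * (u i - v0 i) ≤ u i - v0 i := fun i =>
    mul_le_of_le_one_left (by linarith [d2 i]) hδ1
  have hui : ∀ i, u i ≤ 1 := by
    intro i
    fin_cases i
    · show u 0 ≤ 1; linarith
    · show u 1 ≤ 1; linarith
    · show u 2 ≤ 1; linarith
  have g2 : ∀ i, θ * (u i - v0 i) ≤ 60 * δ := fun i => by
    calc θ * (u i - v0 i) ≤ θ * 1 := mul_le_mul_of_nonneg_left (by linarith [hui i, d4 i]) t0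
      _ = 60 * δ := by rw [hθ]; ring
  refine ⟨fun i => v0 i + θ * (u i - v0 i), fun i => ⟨by linarith [g0 i, d4 i],
    by linarith [g1 i]⟩, ?_, fun i => ?_, ?_⟩
  · rw [Fin.sum_univ_three]
    have p0 := g0 0
    have p1 := g0 1
    have p2 := g0 2
    have q0 := d3 0
    have q1 := d3 1
    have q2 := d3 2
    rcases le_total (κ / 2) (v0 0 + v0 1 + v0 2) with h1 | h1
    · linarith
    · have h2 : θ * (κ / 10) ≤ θ * ((u 0 - v0 0) + (u 1 - v0 1) + (u 2 - v0 2)) :=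
        mul_le_mul_of_nonneg_left (by linarith) t0
      have h3 : 5 * δ ≤ θ * (κ / 10) := by
        rw [hθ]
        nlinarith
      have h4 : θ * ((u 0 - v0 0) + (u 1 - v0 1) + (u 2 - v0 2)) =
        θ * (u 0 - v0 0) + θ * (u 1 - v0 1) + θ * (u 2 - v0 2) := by ring
      linarith
  · rw [abs_le]
    have := g0 i
    have := g2 i
    constructor <;> linarith [d1 i, d3 i]
  · rw [Fin.sum_univ_three, Fin.sum_univ_three]
    have p0 := g2 0
    have p1 := g2 1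
    have p2 := g2 2
    have q0 := d1 0
    have q1 := d1 1
    have q2 := d1 2
    linarith

/-- the frame of the lumps -/
structure Fv (P : DPar) (t₀ : Eis) (p : Fin 3 ⊕ Fin 5 → ℝ) (X δ ρ B R : ℝ) (N : ℕ) (a : Bd) :
    Prop where
  X1 : 1 < X
  hP : P.OK
  ok : a.ok
  t0 : t₀ ∈ SM P.n
  par : ParOK p
  w : Win S5 p δ N B ρ X a
  R0 : 0 ≤ R
  RL : 100 * R ≤ δ * Real.log X
  d0 : 0 ≤ δ
  d1 : 240 * δ ≤ 1

section

variable {P : DPar} {t₀ : Eis} {p : Fin 3 ⊕ Fin 5 → ℝ} {X δ δ₁ ρ ρ₁ B R : ℝ} {N : ℕ} {a : Bd}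

lemma Fv.L0 (F : Fv P t₀ p X δ ρ B R N a) : 0 < Real.log X := Real.log_pos F.X1

/-- the lengths of the lumps -/
lemma Fv.vz (F : Fv P t₀ p X δ ρ B R N a) (j : Fin 3) :
    |(vsO a j).z - cu p (Fin.natAdd 2 j) * Real.log X| ≤ δ * Real.log X := by
  have hL := F.L0
  have h1 := F.w.ev (.inr (Fin.natAdd 2 j))
  have e1 : S5.ev X a (.inr (Fin.natAdd 2 j)) = (vsO a j).z / Real.log X := rfl
  rw [e1] at h1
  have e2 : (vsO a j).z - cu p (Fin.natAdd 2 j) * Real.log X =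
      ((vsO a j).z / Real.log X - p (.inr (Fin.natAdd 2 j))) * Real.log X := by
    unfold cu
    field_simp
  rw [e2, abs_mul, abs_of_pos hL]
  exact mul_le_mul_of_nonneg_right h1 hL.le

lemma Fv.vsum (F : Fv P t₀ p X δ ρ B R N a) :
    |∑ j, (vsO a j).z - cN p * Real.log X| ≤ 3 * δ * Real.log X := by
  have h0 := abs_le.1 (F.vz 0)
  have h1 := abs_le.1 (F.vz 1)
  have h2 := abs_le.1 (F.vz 2)
  rw [Fin.sum_univ_three, abs_le]
  have e : cN p = cu p (Fin.natAdd 2 (0 : Fin 3)) + cu p (Fin.natAdd 2 (1 : Fin 3)) +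
    cu p (Fin.natAdd 2 (2 : Fin 3)) := rfl
  rw [e]
  constructor <;> nlinarith

lemma Fv.lz (F : Fv P t₀ p X δ ρ B R N a) :
    |a.l - cκ p * Real.log X| ≤ δ * Real.log X := by
  have hL := F.L0
  have h1 := F.w.ev (.inl 0)
  have e1 : S5.ev X a (.inl 0) = a.l / Real.log X := rfl
  rw [e1] at h1
  have e2 : a.l - cκ p * Real.log X = (a.l / Real.log X - p (.inl 0)) * Real.log X := by
    unfold cκ
    field_simp
  rw [e2, abs_mul, abs_of_pos hL]
  exact mul_le_mul_of_nonneg_right h1 hL.le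

lemma Fv.az (F : Fv P t₀ p X δ ρ B R N a) :
    |a.z - cx' p * Real.log X| ≤ δ * Real.log X := by
  have hL := F.L0
  have h1 := F.w.ev (.inl 1)
  have e1 : S5.ev X a (.inl 1) = a.z / Real.log X := rfl
  rw [e1] at h1
  have e2 : a.z - cx' p * Real.log X = (a.z / Real.log X - p (.inl 1)) * Real.log X := by
    unfold cx'
    field_simp
  rw [e2, abs_mul, abs_of_pos hL]
  exact mul_le_mul_of_nonneg_right h1 hL.le

lemma Fv.vlump (F : Fv P t₀ p X δ ρ B R N a) (j : Fin 3) : Dq.lump (vsO a j) :=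
  (F.ok.1 _).1

lemma Fv.vz0 (F : Fv P t₀ p X δ ρ B R N a) (j : Fin 3) : 0 ≤ (vsO a j).z := (F.ok.1 _).2

lemma Fv.vt (F : Fv P t₀ p X δ ρ B R N a) (j : Fin 3) : 1 + |(vsO a j).t| ≤ X ^ ρ := by
  have h1 : Dq.s1 (vsO a j) ≤ mx Dq.s1 (List.ofFn a.us) :=
    le_mx (List.mem_ofFn.2 ⟨Fin.natAdd 2 j, rfl⟩)
  exact h1.trans ((le_max_right (1 + |a.τ|) _).trans F.w.s₁)

lemma Fv.vd (F : Fv P t₀ p X δ ρ B R N a) (j : Fin 3) : (nm (vsO a j).d : ℝ) ≤ X ^ B := by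
  have h1 : Dq.s2 (vsO a j) ≤ mx Dq.s2 (List.ofFn a.us) :=
    le_mx (List.mem_ofFn.2 ⟨Fin.natAdd 2 j, rfl⟩)
  exact h1.trans ((le_max_right (nm a.d₃ : ℝ) _).trans F.w.s₂)

lemma Fv.cu_le (F : Fv P t₀ p X δ ρ B R N a) (j : Fin 3) :
    cu p (Fin.natAdd 2 j) ≤ 1 := by
  have h0 := F.par.u0 (Fin.natAdd 2 (0 : Fin 3))
  have h1 := F.par.u0 (Fin.natAdd 2 (1 : Fin 3))
  have h2 := F.par.u0 (Fin.natAdd 2 (2 : Fin 3))
  have h3 : cu p (Fin.natAdd 2 (0 : Fin 3)) + cu p (Fin.natAdd 2 (1 : Fin 3)) +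
    cu p (Fin.natAdd 2 (2 : Fin 3)) ≤ 1 := F.par.N1
  fin_cases j
  · show cu p (Fin.natAdd 2 (0 : Fin 3)) ≤ 1; linarith
  · show cu p (Fin.natAdd 2 (1 : Fin 3)) ≤ 1; linarith
  · show cu p (Fin.natAdd 2 (2 : Fin 3)) ≤ 1; linarith

lemma Fv.l0 (F : Fv P t₀ p X δ ρ B R N a) : 0 ≤ a.l := by
  have hL := F.L0
  have hlz := abs_le.1 F.lz
  have hd1 := F.d1
  have hdL : δ * Real.log X ≤ 1 / 240 * Real.log X :=
    mul_le_mul_of_nonneg_right (by linarith) hL.le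
  have hκ : 8 / 9 * Real.log X ≤ cκ p * Real.log X :=
    mul_le_mul_of_nonneg_right F.par.κ0 hL.le
  linarith

lemma Fv.el (F : Fv P t₀ p X δ ρ B R N a) {e : ℝ} (he1 : e ≤ 1) :
    Real.exp (e * a.l) ≤ X ^ 2 := by
  have hL := F.L0
  have hX0 : 0 < X := by linarith [F.X1]
  have e5 : X ^ 2 = Real.exp (2 * Real.log X) := by
    rw [mul_comm, Real.exp_mul, Real.exp_log hX0]
    norm_cast
  rw [e5]
  refine Real.exp_le_exp.2 ?_
  have hlz := abs_le.1 F.lz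
  have hd1 := F.d1
  have hdL : δ * Real.log X ≤ 1 / 240 * Real.log X :=
    mul_le_mul_of_nonneg_right (by linarith) hL.le
  have hκ : cκ p * Real.log X ≤ 1 * Real.log X := mul_le_mul_of_nonneg_right F.par.κ1 hL.le
  have h1 : e * a.l ≤ 1 * a.l := mul_le_mul_of_nonneg_right he1 F.l0
  linarith

lemma Fv.YT_le (F : Fv P t₀ p X δ ρ B R N a) (hX : 200 ≤ X) :
    YT a.l (a3 a) a.z ≤ X ^ 3 := by
  have hL := F.L0
  have hX0 : 0 < X := by linarith
  have h2 : 0 < Real.log 2 := Real.log_pos (by norm_num)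
  have hd1 := F.d1
  have hd0 := F.d0
  have hdL : δ * Real.log X ≤ 1 / 240 * Real.log X :=
    mul_le_mul_of_nonneg_right (by linarith) hL.le
  have hvs := abs_le.1 F.vsum
  have haz := abs_le.1 F.az
  have e3 : a3 a = ∑ j, (vsO a j).z := (a3_eq a).symm
  have hxL : cx' p * Real.log X ≤ 1 / 3 * Real.log X :=
    mul_le_mul_of_nonneg_right F.par.x1 hL.le
  have hNL : cN p * Real.log X ≤ 1 * Real.log X := mul_le_mul_of_nonneg_right F.par.N1 hL.le
  have htop : topL a.l (a3 a) a.z ≤ 2 * Real.log X := by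
    unfold topL
    have h3 := min_le_right (2 * a3 a - a.l) (3 / 4 * a3 a)
    rw [e3] at h3 ⊢
    linarith
  have hn : (nL a.l (a3 a) a.z : ℝ) * Real.log 2 ≤ 2 * Real.log X + Real.log 2 := by
    unfold nL
    push_cast
    have h4 : ((⌊topL a.l (a3 a) a.z / Real.log 2⌋₊ : ℕ) : ℝ) ≤ 2 * Real.log X / Real.log 2 := by
      refine (Nat.cast_le.2 (Nat.floor_le_floor (div_le_div_of_nonneg_right htop h2.le))).trans ?_
      exact Nat.floor_le (by positivity)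
    rw [le_div_iff₀ h2] at h4
    linarith
  unfold YT
  have e4 : (2 : ℝ) ^ nL a.l (a3 a) a.z = Real.exp (nL a.l (a3 a) a.z * Real.log 2) := by
    rw [mul_comm, Real.exp_mul, Real.exp_log (by norm_num), Real.rpow_natCast]
  have e5 : X ^ 3 = Real.exp (3 * Real.log X) := by
    rw [mul_comm, Real.exp_mul, Real.exp_log hX0]
    norm_cast
  rw [e4, e5]
  refine Real.exp_le_exp.2 ?_
  have h6 : Real.log 2 ≤ Real.log X := Real.log_le_log (by norm_num) (by linarith)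
  linarith

lemma Fv.us_le (F : Fv P t₀ p X δ ρ B R N a) {Rl : ℝ} (hr : 2 * Real.exp Rl ≤ X)
    {E : ℝ} (k : Eis) (hk : uM Rl (Real.exp a.l) E k ≠ 0) :
    IsPrim k ∧ (nm k : ℝ) ≤ X ^ 3 := by
  have hX0 : 0 < X := by linarith [F.X1]
  obtain ⟨h1, h2⟩ := uM_supp (Real.exp_pos _) hk
  refine ⟨h1, h2.trans ?_⟩
  have h3 := F.el le_rfl
  rw [one_mul] at h3
  calc 2 * Real.exp Rl * Real.exp a.l ≤ X * X ^ 2 :=
        mul_le_mul hr h3 (Real.exp_pos _).le hX0.le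
    _ = X ^ 3 := by ring

/-! ### the children -/

/-- the children -/
abbrev chV (P : DPar) (t₀ : Eis) (a : Bd) (β : Fin 3 → Eis) : Fin 3 → Pc :=
  ch1 (fun j => Pt P t₀ (vsO a j)) β (fun _ => 1) 1

variable {β : Fin 3 → Eis}

lemma logV (hβ : ∀ i, IsPrim (β i)) (j : Fin 3) :
    Real.log (chV P t₀ a β j).Y ≤ (vsO a j).z :=
  logY_r (P := P) (t₀ := t₀) (a := a) (ps := (Fin.elim0 : Fin 0 → Pq)) (γ := Fin.elim0)
    (x := Fin.elim0) (y := fun _ => 1) hβ one_mem_Tu j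

lemma sumV (hP : P.OK) (hβ : ∀ i, IsPrim (β i)) :
    ∑ j : Fin 3, Real.log (chV P t₀ a β j).Y =
      ∑ j, (vsO a j).z - Real.log (nm (∏ j, β j)) := by
  have h := sumY_r (P := P) (t₀ := t₀) (a := a) (ps := (Fin.elim0 : Fin 0 → Pq))
    (γ := Fin.elim0) (x := Fin.elim0) (y := fun _ => 1) hP hβ isPrim_one one_mem_Tu
  rw [nm_one, Nat.cast_one, Real.log_one, add_zero] at h
  exact h

/-- the lumps of the child -/
def vH (a : Bd) {β : Fin 3 → Eis} (hβ : ∀ i, IsPrim (β i)) (z τ : Fin 3 → ℝ) (j : Fin 3) : Pq :=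
  chP (vsO a j) (β j * 1) ((∏ j, β j) * 1) (mod_ne hβ isPrim_one) (z j) ((vsO a j).t + τ j)

lemma reY_chV (hβ : ∀ i, IsPrim (β i)) (z τ : Fin 3 → ℝ) :
    reY (chV P t₀ a β) (fun i => Real.exp (z i)) (fun i => (chV P t₀ a β i).t + τ i) =
      fun j => Pt P t₀ (vH a hβ z τ j) := by
  have h := reY_chO (P := P) (t₀ := t₀) (a := a) (ps := (Fin.elim0 : Fin 0 → Pq))
    (γ := Fin.elim0) (x := Fin.elim0) (y := fun _ => 1) (fun i => Fin.elim0 i) hβ isPrim_one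
    (Sum.elim Fin.elim0 z) (Sum.elim Fin.elim0 τ)
  funext j
  exact congrFun h (.inr j)

lemma chiV (F : Fv P t₀ p X δ ρ B R N a) (hβ : ∀ i, IsPrim (β i))
    (hβX : (nm (∏ i, β i) : ℝ) ≤ X ^ (2 : ℝ)) {z τ : Fin 3 → ℝ} (hz0 : ∀ i, 0 ≤ z i)
    (hz : ∀ i, |z i - Real.log (chV P t₀ a β i).Y| ≤ 2 * R)
    (hτ : ∀ i, |τ i| ≤ X ^ ρ) (hρ : 2 * X ^ ρ ≤ X ^ ρ₁) :
    Chi p X δ δ₁ ρ₁ (B + 2) N a (vH a hβ z τ) [] := by
  have hL := F.L0
  have hX0 : 0 < X := by linarith [F.X1]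
  have hR0 := F.R0
  have hRL := F.RL
  have hmod : (nm ((∏ i, β i) * 1) : ℝ) ≤ X ^ (2 : ℝ) := by rwa [mul_one]
  refine ⟨fun j => chP_lump (F.vlump j) _ _ _ _ _, fun j => hz0 _, fun j => ?_, fun j => ?_,
    fun j => ?_, fun q hq => ?_, fun q hq => ?_, fun q hq => ?_, fun q hq => ?_, fun q hq => ?_,
    Nat.zero_le _, ?_⟩
  · have h1 := (abs_le.1 (hz j)).2
    have h2 := logV (P := P) (t₀ := t₀) (a := a) hβ j
    show z j ≤ (vsO a j).z + δ * Real.log X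
    linarith
  · have h1 := F.vt j
    have h2 := hτ j
    have := abs_add_le (vsO a j).t (τ j)
    show 1 + |(vsO a j).t + τ j| ≤ X ^ ρ₁
    linarith
  · show (nm ((vsO a j).d * ((∏ j, β j) * 1)) : ℝ) ≤ X ^ (B + 2)
    rw [nm_mul, Real.rpow_add hX0]
    push_cast
    exact mul_le_mul (F.vd j) hmod (Nat.cast_nonneg _) (Real.rpow_nonneg hX0.le _)
  · exact absurd hq List.not_mem_nil
  · exact absurd hq List.not_mem_nil
  · exact absurd hq List.not_mem_nil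
  · exact absurd hq List.not_mem_nil
  · exact absurd hq List.not_mem_nil
  · show (0 : ℝ) ≤ _
    have : 0 ≤ cx' p := F.par.x0
    have : 0 ≤ δ := F.d0
    positivity

end

section

variable {Λ : Type*} {π : Λ → DPar} {h : ℝ → ℝ} {e0 : ℝ} {Rf : Λ → ℝ} {lam : Λ × Eis}
  {p : Fin 3 ⊕ Fin 5 → ℝ} {X δ δ₁ ρ ρ₁ B R c H Hw M Cs ε₁ v : ℝ} {N i : ℕ} {a : Bd}
  {Par : Set (Fin 3 ⊕ Fin 5 → ℝ)} {lo hi LH : (Fin 3 ⊕ Fin 5 → ℝ) → ℝ} {β : Fin 3 → Eis}

/-- the input `HN` for one `lam` and scale -/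
def InH (π : Λ → DPar) (h : ℝ → ℝ) (e0 : ℝ) (Rf : Λ → ℝ) (lam : Λ × Eis)
    (Par : Set (Fin 3 ⊕ Fin 5 → ℝ)) (lo hi LH : (Fin 3 ⊕ Fin 5 → ℝ) → ℝ) (X δ₁ ρ₁ B ε₁ : ℝ)
    (N : ℕ) : Prop :=
  ∀ (a : Bc × ℕ) (ps : List Pq), ps.length ≤ N →
      (∀ p ∈ ps, Dq.lump p ∨ Dq.nl X p ≤ δ₁) → ∀ q ∈ DomH Par lo hi,
      Win (lev (Real.log 2) S8) q.1 δ₁ N (B + 2) ρ₁ X a →
      (∀ t, |Dq.mass X ps t - q.2 t| ≤ δ₁) → Dq.Good X ρ₁ (B + 2) ps →
      (∀ p ∈ ps, Dq.lump p → ((lev (Real.log 2) S8).ev X a, Dq.nl X p) ∈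
        (∅ : Set ((Option ((Fin 3 ⊕ Fin 5) ⊕ Fin 3) → ℝ) × ℝ))) →
      HnC π h e0 Rf lam a ps ≤ X ^ (cκ (fun i => q.1 (some (.inl i))) +
        ∑ i : Fin 3, q.1 (some (.inr i)) + LH (fun i => q.1 (some (.inl i))) + ε₁)

/-- the input at a child -/
theorem useH (hX : 1 < X) (hδ0 : 0 ≤ δ) (hδ1 : 240 * δ ≤ 1)
    (hδ : 320 * δ ≤ δ₁) (hρ : ρ ≤ ρ₁) (hρ₁ : 0 ≤ ρ₁) (hB : B ≤ B + 2) (hB₁ : 0 ≤ B + 2)
    (HH : InH π h e0 Rf lam Par lo hi LH X δ₁ ρ₁ B ε₁ N)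
    (hPar : p ∈ Par) (hp : ParOK p) (hw : Win S5 p δ N B ρ X a)
    (hlo : lo p ≤ v) (hhi : v ≤ hi p) (hv : |Real.log 2 * (i : ℝ) / Real.log X - v| ≤ δ)
    {vs : Fin 3 → Pq} (hc : Chi p X δ δ₁ ρ₁ (B + 2) N a vs [])
    (hs : cκ p / 2 * Real.log X ≤ ∑ j, (vs j).z + (2 * cx' p + 4 * δ) * Real.log X) :
    HnC π h e0 Rf lam ((a, vs), i) [] ≤
      X ^ (cκ p + LH p + ε₁ + 1200 * δ) * Real.exp (∑ j, (vs j).z) := by
  have hL : 0 < Real.log X := Real.log_pos hX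
  have hX0 : 0 < X := by linarith
  obtain ⟨w, h1, h4, h5, h8⟩ := near_v (κ := cκ p) (x := cx' p)
    (δ := 4 * δ) (u := fun i => cu p (Fin.natAdd 2 i)) (z := fun i => (vs i).z / Real.log X)
    (by linarith) (by linarith) hp.κ0 (fun i => hp.u0 _)
    (by rw [Fin.sum_univ_three]; exact hp.N0) (by rw [Fin.sum_univ_three]; exact hp.N1) hp.x0
    (fun i => div_nonneg (hc.z0 i) hL.le) (fun i => by
      have e1 := hc.z1 i
      have e2 : Dq.nl X (a.us (Fin.natAdd 2 i)) ≤ cu p (Fin.natAdd 2 i) + δ := by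
        have := (abs_le.1 (hw.ev (.inr (Fin.natAdd 2 i)))).2
        have e3 : S5.ev X a (.inr (Fin.natAdd 2 i)) = Dq.nl X (a.us (Fin.natAdd 2 i)) := rfl
        rw [e3] at this
        unfold cu
        linarith
      have e4 : (vs i).z / Real.log X ≤ Dq.nl X (a.us (Fin.natAdd 2 i)) + δ := by
        rw [div_le_iff₀ hL]
        have e5 : Dq.nl X (a.us (Fin.natAdd 2 i)) * Real.log X = (a.us (Fin.natAdd 2 i)).z := by
          unfold Pcs.nl
          exact div_mul_cancel₀ _ hL.ne'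
        rw [add_mul, e5]
        exact e1
      linarith) (by
      rw [← Finset.sum_div]
      rw [← sub_nonneg]
      have e1 : (∑ i, (vs i).z) / Real.log X + 2 * cx' p + 4 * δ - cκ p / 2 =
          (∑ j, (vs j).z + (2 * cx' p + 4 * δ) * Real.log X - cκ p / 2 * Real.log X) /
            Real.log X := by
        field_simp
        ring
      rw [e1]
      exact div_nonneg (by linarith) hL.le)
  have hW8 := win_S8 hX hδ hδ0 hρ hρ₁ hB hB₁ hw hc (v := w) fun i => (h5 i).trans (by linarith)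
  have hk := HH ((a, vs), i) [] (Nat.zero_le _) (fun q hq => absurd hq List.not_mem_nil)
    (fun o => match o with | none => v | some j => Sum.elim p w j, 0)
    ⟨hPar, fun i => h1 i, rfl, h4, hlo, hhi⟩
    ⟨fun o => by
      cases o with
      | none => exact hv.trans (by linarith)
      | some j => exact hW8.ev j, hW8.g, hW8.n, hW8.s₁, hW8.s₂⟩ (fun t => by
      rw [Pcs.mass_nil]
      show |(0 : ℝ) - 0| ≤ δ₁
      rw [sub_zero, abs_zero]; linarith) (fun q hq => absurd hq List.not_mem_nil)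
    (fun q hq => absurd hq List.not_mem_nil)
  refine hk.trans ?_
  rw [← Real.exp_log hX0, ← Real.exp_mul, ← Real.exp_mul, ← Real.exp_add]
  refine Real.exp_le_exp.2 ?_
  have h10 : (∑ i, w i) * Real.log X ≤ ∑ j, (vs j).z + 1200 * δ * Real.log X := by
    have e2 : (∑ i, (vs i).z / Real.log X + 300 * (4 * δ)) * Real.log X =
        ∑ j, (vs j).z + 1200 * δ * Real.log X := by
      rw [← Finset.sum_div]
      field_simp
      ring
    rw [← e2]
    exact mul_le_mul_of_nonneg_right h8 hL.le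
  show Real.log X * (cκ p + ∑ i, w i + LH p + ε₁) ≤
    Real.log X * (cκ p + LH p + ε₁ + 1200 * δ) + _
  nlinarith

/-- the total of a child -/
def WV (LH : (Fin 3 ⊕ Fin 5 → ℝ) → ℝ) (p : Fin 3 ⊕ Fin 5 → ℝ) (X δ ε₁ R : ℝ) (a : Bd) : ℝ :=
  X ^ (cκ p + LH p + ε₁ + 1200 * δ) * Real.exp (∑ j, (vsO a j).z + 6 * R)

lemma WV_pos (hX : 0 < X) : 0 < WV LH p X δ ε₁ R a := by unfold WV; positivity

/-- sums of the grid lengths -/
lemma sumzV (F : Fv (π lam.1) lam.2 p X δ ρ B R N a) (hβ : ∀ i, IsPrim (β i)) {z : Fin 3 → ℝ}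
    (hz : ∀ i, |z i - Real.log (chV (π lam.1) lam.2 a β i).Y| ≤ 2 * R) :
    Real.exp (∑ j : Fin 3, z j) ≤
      Real.exp (∑ j, (vsO a j).z + 6 * R) * (nm (∏ j, β j) : ℝ)⁻¹ := by
  have hn : (0 : ℝ) < nm (∏ j, β j) := by linarith [nmP hβ]
  have hs := sumV (P := π lam.1) (t₀ := lam.2) (a := a) F.hP hβ
  have e1 : (nm (∏ j, β j) : ℝ)⁻¹ = Real.exp (-Real.log (nm (∏ j, β j))) := by
    rw [Real.exp_neg, Real.exp_log hn]
  rw [e1, ← Real.exp_add]
  refine Real.exp_le_exp.2 ?_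
  have h2 : ∑ i : Fin 3, z i ≤
      ∑ i : Fin 3, (Real.log (chV (π lam.1) lam.2 a β i).Y + 2 * R) :=
    sum_le_sum fun i _ => by
      have := (abs_le.1 (hz i)).2
      linarith
  rw [sum_add_distrib, sum_const, card_univ, Fintype.card_fin, nsmul_eq_mul] at h2
  push_cast at h2
  linarith

lemma Y3V (F : Fv (π lam.1) lam.2 p X δ ρ B R N a) (hβ : ∀ i, IsPrim (β i)) {z : Fin 3 → ℝ}
    (hz : ∀ i, |z i - Real.log (chV (π lam.1) lam.2 a β i).Y| ≤ 2 * R) (j : Fin 3) :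
    Real.exp (z j) * Real.exp R ≤ X ^ 3 := by
  have hL := F.L0
  have hX0 : 0 < X := by linarith [F.X1]
  have hd1 := F.d1
  have hR0 := F.R0
  have hRL := F.RL
  have hdL : δ * Real.log X ≤ 1 / 240 * Real.log X :=
    mul_le_mul_of_nonneg_right (by linarith) hL.le
  rw [cube_eq hX0, ← Real.exp_add]
  refine Real.exp_le_exp.2 ?_
  have h0 := (abs_le.1 (hz j)).2
  have h1 := logV (P := π lam.1) (t₀ := lam.2) (a := a) hβ j
  have h2 := (abs_le.1 (F.vz j)).2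
  have h3 : cu p (Fin.natAdd 2 j) * Real.log X ≤ 1 * Real.log X :=
    mul_le_mul_of_nonneg_right (F.cu_le j) hL.le
  linarith

lemma M2_StE_zero {u : Eis → ℝ} (E0 : ℝ) {J : Finset (Eis × Eis)}
    (hJ : ∀ x ∈ J, x.1 ≠ 0) (om : Eis × Eis → ℂ) : M2 u (StE E0 J om 0) = 0 := by
  unfold M2
  have h : ∀ k, StE E0 J om 0 k = 0 := fun k => by
    rw [StE_Er, Er_zero 0 E0 hJ om k, Er_zero 1 E0 hJ om k, sub_zero]
  simp_rw [h]
  simp

/-- **the child bound** -/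
theorem hnV (hc : 0 < c) (hR : ∀ u, cx h u ≠ 0 → |u| ≤ R) (hH : ∀ u, ‖cx h u‖ ≤ H)
    (hHw : ∀ u, ‖((FE47.hD u : ℝ) : ℂ)‖ ≤ Hw) (hM : 0 ≤ M) (hsep : SepS h c R M Cs)
    (hCs : 0 ≤ Cs) (F : Fv (π lam.1) lam.2 p X δ ρ B R N a) (hS : Siz X H Hw e0 (Rf lam.1) R)
    (hρ : 2 * X ^ ρ ≤ X ^ ρ₁) (hρ0 : 0 ≤ ρ) (hρ1 : ρ ≤ ρ₁) (hδ₁ : 320 * δ ≤ δ₁) (hB : 0 ≤ B)
    (hMρ : 400 ≤ ρ * M) (hLH : 0 ≤ cκ p + LH p) (hε₁ : 0 ≤ ε₁) (hPar : p ∈ Par)
    (HH : InH π h e0 Rf lam Par lo hi LH X δ₁ ρ₁ B ε₁ N)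
    (hlo : lo p ≤ v) (hhi : v ≤ hi p) (hv : |Real.log 2 * (i : ℝ) / Real.log X - v| ≤ δ)
    (hβ : ∀ i, IsPrim (β i))
    (hβ0 : Real.log (nm (∏ j, β j)) ≤ bfO a.l (∑ j, (vsO a j).z) a.z) :
    M2 (uM (Rf lam.1) (Real.exp a.l) (Real.exp (a.l / 20)))
      (StE (Real.exp (e0 * a.l)) (Jo a.l (a3 a) a.z) (omL i)
        (sqc 1 (al h (chV (π lam.1) lam.2 a β)))) ≤
      Cs ^ 3 * (WV LH p X δ ε₁ R a * (nm (∏ j, β j) : ℝ)⁻¹) := by
  have hL := F.L0
  have hX0 : 0 < X := by linarith [F.X1]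
  have hX1 := F.X1.le
  have hR0 := F.R0
  have hRL := F.RL
  have hn1 : (1 : ℝ) ≤ nm (∏ j, β j) := nmP hβ
  have hn : (0 : ℝ) < nm (∏ j, β j) := by linarith
  have hHw0 : 0 ≤ Hw := (norm_nonneg _).trans (hHw 0)
  have hWpos : 0 < WV LH p X δ ε₁ R a := WV_pos hX0
  have hOK : ∀ i, (chV (π lam.1) lam.2 a β i).OK :=
    ch1_OK (fun j => Pt_OK F.hP lam.2 (vsO a j)) hβ (fun _ => isPrim_one) 1
  have hJ : ∀ z ∈ Jo a.l (a3 a) a.z, z.1 ≠ 0 := fun z hz =>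
    ((okJ_JW _ _ _).prim z hz).ne_zero
  -- sizes
  have haz := abs_le.1 F.az
  have hlz := abs_le.1 F.lz
  have hvs := abs_le.1 F.vsum
  have hdL0 : 0 ≤ δ * Real.log X := mul_nonneg F.d0 hL.le
  have hd1 := F.d1
  have hdL : δ * Real.log X ≤ 1 / 240 * Real.log X :=
    mul_le_mul_of_nonneg_right (by linarith) hL.le
  have hxL : cx' p * Real.log X ≤ 1 / 3 * Real.log X :=
    mul_le_mul_of_nonneg_right F.par.x1 hL.le
  have hx0L : 0 ≤ cx' p * Real.log X := mul_nonneg F.par.x0 hL.le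
  have hκ : 8 / 9 * Real.log X ≤ cκ p * Real.log X :=
    mul_le_mul_of_nonneg_right F.par.κ0 hL.le
  have hNL : cN p * Real.log X ≤ 1 * Real.log X := mul_le_mul_of_nonneg_right F.par.N1 hL.le
  by_cases hlow : ∀ i, -R ≤ Real.log (chV (π lam.1) lam.2 a β i).Y
  swap
  · push Not at hlow
    obtain ⟨j, hj⟩ := hlow
    rw [sqc_zero hR hOK hj, M2_StE_zero _ hJ]
    positivity
  have hsum := sumV (P := π lam.1) (t₀ := lam.2) (a := a) F.hP hβ
  have hone : 1 ≤ WV LH p X δ ε₁ R a * (nm (∏ j, β j) : ℝ)⁻¹ := by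
    have h1 := sumzV F hβ (z := fun i => Real.log (chV (π lam.1) lam.2 a β i).Y + 2 * R)
      (fun i => by rw [add_sub_cancel_left, abs_of_nonneg (by linarith)])
    have h2 : (1 : ℝ) ≤ Real.exp (∑ j : Fin 3,
        (Real.log (chV (π lam.1) lam.2 a β j).Y + 2 * R)) :=
      Real.one_le_exp (sum_nonneg fun j _ => by linarith [hlow j])
    have h3 : 1 ≤ X ^ (cκ p + LH p + ε₁ + 1200 * δ) :=
      Real.one_le_rpow F.X1.le (by linarith [F.d0])
    unfold WV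
    rw [mul_assoc]
    exact one_le_mul_of_one_le_of_one_le h3 (h2.trans h1)
  have hβX : (nm (∏ i, β i) : ℝ) ≤ X ^ (2 : ℝ) := by
    rw [← Real.exp_log hn, Real.rpow_def_of_pos hX0]
    refine Real.exp_le_exp.2 (hβ0.trans ?_)
    unfold bfO
    linarith
  have key := hsep (Fin 3) (chV (π lam.1) lam.2 a β) hOK
    (Real.exp (e0 * a.l)) (Jo a.l (a3 a) a.z) hJ (omL i)
    (uM (Rf lam.1) (Real.exp a.l) (Real.exp (a.l / 20))) (uM_nonneg _ _ _)
    (uM_fin (Real.exp_pos _)) (WV LH p X δ ε₁ R a * (nm (∏ j, β j) : ℝ)⁻¹) (by positivity)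
    (fun n τ hn' => by
      have hz0 : ∀ i, 0 ≤ c * (n i : ℝ) := fun i => by positivity
      refine split_h (T₀ := X ^ ρ) (A := X ^ (100 * (3 + 1))) hM (by positivity)
        (by positivity) ?_ (F := fun τ => M2 (uM (Rf lam.1) (Real.exp a.l) (Real.exp (a.l / 20)))
          (StE (Real.exp (e0 * a.l)) (Jo a.l (a3 a) a.z) (omL i)
            (sqc 1 (al h (reY (chV (π lam.1) lam.2 a β)
              (fun i => Real.exp (c * n i))
              (fun i => (chV (π lam.1) lam.2 a β i).t + τ i)))))) ?_ ?_ τ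
      · -- the trivial bound is small
        have e1 : X ^ (100 * (3 + 1)) ≤ (1 + X ^ ρ) ^ M := by
          calc X ^ (100 * (3 + 1)) = X ^ (400 : ℝ) := by
                rw [← Real.rpow_natCast]; norm_num
            _ ≤ X ^ (ρ * M) := Real.rpow_le_rpow_of_exponent_le hX1 hMρ
            _ = (X ^ ρ) ^ M := Real.rpow_mul hX0.le _ _
            _ ≤ _ := Real.rpow_le_rpow (by positivity) (by linarith) hM
        exact e1.trans (le_mul_of_one_le_left (by positivity) hone)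
      · -- small heights
        intro τ hτ
        rw [reY_chV hβ (fun i => c * n i) τ]
        have hchi := chiV (δ₁ := δ₁) F hβ hβX hz0 hn' hτ hρ
        have h1 : ∑ j : Fin 3, (Real.log (chV (π lam.1) lam.2 a β j).Y - 2 * R) ≤
            ∑ j : Fin 3, (vH a hβ (fun i => c * n i) τ j).z :=
          sum_le_sum fun j _ => by
            have := (abs_le.1 (hn' j)).1
            show _ ≤ c * (n j : ℝ)
            linarith
        rw [sum_sub_distrib, sum_const, card_univ, Fintype.card_fin, nsmul_eq_mul] at h1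
        push_cast at h1
        have hH := useH (v := v) (i := i) F.X1 F.d0 F.d1 hδ₁ hρ1 (by linarith) (by linarith)
          (by linarith) HH hPar F.par F.w hlo hhi hv hchi (by
            unfold bfO at hβ0
            linarith)
        refine (le_of_eq ?_).trans (hH.trans ?_)
        · unfold HnC
          rw [if_pos ⟨F.ok, F.t0, fun i => ⟨hchi.lump i, hchi.z0 i⟩, hchi.am⟩,
            HP842.al_eq, List.map_ofFn]
          rfl
        · unfold WV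
          rw [mul_assoc]
          exact mul_le_mul_of_nonneg_left (sumzV F hβ hn') (by positivity)
      · -- large heights
        intro τ
        exact ste_big (N := 3) hR hH hHw0 hS.toBig hS.w
          (s := reY (chV (π lam.1) lam.2 a β) (fun i => Real.exp (c * n i))
            (fun i => (chV (π lam.1) lam.2 a β i).t + τ i))
          (fun i => ⟨(hOK i).ch, Real.exp_pos _⟩)
          (fun i => Y3V F hβ hn' i) (by rw [Fintype.card_fin])
          (om := omL i) (fun x => hHw _) (E0 := Real.exp (e0 * a.l)) (Real.exp_pos _).le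
          ((F.el hS.e1).trans (pow_le_pow_right₀ hX1 (by norm_num)))
          (YT_nonneg a.l (a3 a) a.z) (F.YT_le hS.c) (uM_le_one (Rf lam.1) (Real.exp a.l)
            (Real.exp (a.l / 20))) (fun k hk => F.us_le hS.r k hk))
  rwa [Fintype.card_fin] at key

end

end Crest.Agent.R017.Hi254
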