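import Crest.Agent.R017.Hi1_681

/-!
# Row 17, twisted cubic F1, the part `ψ_λ` of high conductor (helper681), 2: rows

`rowH N x θ (c, d) = θ(c) e(x d c̄ / N) conj (d/c)_3`, `c` primary and prime to `N`.

* `cof_rowH` : `Cof N (chiH N) (rowH N x θ)`
* `sum_rowH` : the constant term sums
* `law_rowH`
-/

set_option autoImplicit false

noncomputable section

open Complex
open scoped ComplexConjugate

namespace Crest.Agent.R017.Hi681

open Crest.Agent.R012 Crest.Agent.R012.Eis Crest.Agent.R012.Gauss880 Crest.Agent.R017.Loc266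
open Crest.Agent.R017.Kub664 Crest.Agent.R017.Orth681 Crest.Agent.R017.Glue681
open Crest.Agent.R017.Tw266 (sumMod_mul_of_coprime)
open Crest.Agent.R017.Rw266 (ivN ivN_spec iv_unique ivN_congr ivN_mul ea_congr_right cop_congr
  prim_congr' cop_supp mem_GamN_of_GN rowA_weight)

variable {N : Eis}

/-! ### the symbol -/

/-- the conjugate cubic symbol -/
def sc (z c : Eis) : ℂ := conj (sy z c)

lemma g3p {c : Eis} (h : IsPrim c) : G3 c := Sym645.prim_nm_mod h

lemma isPrim_one' : IsPrim (1 : Eis) := isPrim_one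

theorem apiN (hN : L3 N) : RowAPI sc N (fun _ => True) (Gp N) where
  q_ne := hN.ne
  gd_one := gp_one
  gd_mul _ _ hx hy := hx.mul hy
  gd_congr _ _ hx h := (gp_congr hN h).mp hx
  gd_coprime _ hx := hx.2
  gd_ne _ hx := hx.ne
  xc_congr _ _ _ _ := trivial
  xc_dvd _ _ := trivial
  unit_right x u hu hg := api3.conj.unit_right x u hu (g3p hg.1)
  mul_left x y c hc := api3.conj.mul_left x y c (g3p hc.1)
  mul_right x c d hc hd := api3.conj.mul_right x c d (g3p hc.1) (g3p hd.1)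
  congr x y c hc h := api3.conj.congr x y c (g3p hc.1) h
  ne_zero x c hc h := api3.conj.ne_zero x c (g3p hc.1) h
  recip d y hd hy := api3.conj.recip d y (hN.d9.trans hd) (g3p hy.1)
  neg_one d hd := api3.conj.neg_one d (hN.d9.trans hd)
  period x m n hx _ hm hn h :=
    api3.conj.period x m n hx trivial (g3p hm.1) (g3p hn.1) ((mul_dvd_mul_right hN.d9 x).trans h)

theorem recN : RecF sc N (Gp N) (fun _ _ => 1) where
  rel a b ha hb := by
    unfold sc
    rw [one_mul, Sym645.sy_reciprocity ha.1 hb.1]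
  congr_left _ _ _ _ _ _ _ := rfl
  congr_right _ _ _ _ _ _ _ := rfl

/-- `S`-parts -/
structure Sp (N z : Eis) : Prop where
  ne : z ≠ 0
  pr : ∀ p, Prime p → p ∣ z → p ∣ N

lemma Sp.neg {z : Eis} (h : Sp N z) : Sp N (-z) :=
  ⟨neg_ne_zero.mpr h.ne, fun p hp hd => h.pr p hp ((dvd_neg).mp hd)⟩

lemma Sp.mul {z z' : Eis} (h : Sp N z) (h' : Sp N z') : Sp N (z * z') :=
  ⟨mul_ne_zero h.ne h'.ne, fun p hp hd => (hp.dvd_or_dvd hd).elim (h.pr p hp) (h'.pr p hp)⟩

lemma Sp.cop {z c : Eis} (h : Sp N z) (hc : IsCoprime c N) : IsCoprime z c :=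
  cop_supp h.ne h.pr hc

lemma sp_unit {u : Eis} (hu : IsUnit u) : Sp N u :=
  ⟨hu.ne_zero, fun _ hp hd => absurd (isUnit_of_dvd_unit hd hu) hp.not_isUnit⟩

/-- `(z/·)` is periodic modulo `N` for `S`-parts `z`. -/
theorem per_sc (hN : L3 N) {z : Eis} (hz : Sp N z) {c c' : Eis} (hc : Gp N c) (hc' : Gp N c')
    (h : N ∣ c - c') : sc z c = sc z c' := by
  obtain ⟨hz0, hp⟩ := hz
  induction z using UniqueFactorizationMonoid.induction_on_prime with
  | h₁ => exact absurd rfl hz0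
  | h₂ u hu =>
    refine api3.conj.period u c c' hz0 trivial (g3p hc.1) (g3p hc'.1) ?_
    obtain ⟨v, hv⟩ := hu.exists_right_inv
    have h1 : (9 : Eis) * u ∣ 9 := ⟨v, by linear_combination -9 * hv⟩
    exact h1.trans (hN.d9.trans h)
  | h₃ a p ha hpp ih =>
    have hpN : p ∣ N := hp p hpp (dvd_mul_right p a)
    have h1 := ih ha (fun q hq hqa => hp q hq (hqa.mul_left p))
    rw [(apiN hN).mul_left p a c hc, (apiN hN).mul_left p a c' hc', h1]
    congr 1
    exact api3.conj.period p c c' hpp.ne_zero trivial (g3p hc.1) (g3p hc'.1)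
      ((hN.pr p hpp hpN).trans h)

lemma sc_one_left (hN : L3 N) {c : Eis} (hc : Gp N c) : sc 1 c = 1 := by
  unfold sc
  rw [Sym645.sy_one_left (g3p hc.1), map_one]

lemma sc_neg {c : Eis} (hc : IsPrim c) (z : Eis) : sc (-z) c = sc z c := by
  unfold sc
  rw [Sym645.sy_neg (g3p hc)]

lemma sc_mul_conj {z c : Eis} (hc : Gp N c) (h : Sp N z) : sc z c * conj (sc z c) = 1 := by
  unfold sc
  rw [Complex.conj_conj, mul_comm, Complex.mul_conj, Complex.normSq_eq_norm_sq,
    Char766.norm_sy hc.1 (h.cop hc.2)]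
  simp

lemma sc_cube {z c : Eis} (hc : Gp N c) (h : Sp N z) : sc z c ^ 3 = 1 := by
  unfold sc
  rw [← map_pow, Char766.sy_cube hc.1 (h.cop hc.2), map_one]

lemma conj_sc {z c : Eis} (hc : Gp N c) (h : Sp N z) : conj (sc z c) = sc z c * sc z c := by
  have h1 := sc_mul_conj hc h
  have h2 := sc_cube hc h
  have h3 : sc z c ≠ 0 := left_ne_zero_of_mul_eq_one h1
  apply mul_left_cancel₀ h3
  rw [h1, ← h2]; ring

/-- the symbol as a character of the good classes -/
lemma gch_sc (hN : L3 N) {z : Eis} (hz : Sp N z) : GCh N (fun c => sc z c) where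
  one := by
    unfold sc
    rw [Sym645.sy_unit_right z isUnit_one, map_one]
  mul a b ha hb := (apiN hN).mul_right z a b ha hb
  per a b ha hb h := per_sc hN hz ha hb h
  norm a ha := by
    have h1 := sc_mul_conj ha hz
    rw [Complex.mul_conj, Complex.normSq_eq_norm_sq] at h1
    have h2 : ‖sc z a‖ ^ 2 = 1 := by exact_mod_cast h1
    nlinarith [norm_nonneg (sc z a)]

/-- decomposition `h = hS h'` -/
structure Dc (N hS h' : Eis) : Prop where
  sp : Sp N hS
  gp : Gp N h'

lemma Dc.ne {hS h' : Eis} (D : Dc N hS h') : hS * h' ≠ 0 := mul_ne_zero D.sp.ne D.gp.ne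

lemma Dc.neg {hS h' : Eis} (D : Dc N hS h') : Dc N (-hS) h' := ⟨D.sp.neg, D.gp⟩

lemma lam_dvd_N (hN : L3 N) : lam ∣ N :=
  (Dvd.intro_left (-w ^ 2 * lam) (by rw [three_eq]; ring)).trans hN.d3

lemma exists_dc (hN : L3 N) {h : Eis} (hh : h ≠ 0) : ∃ hS h', h = hS * h' ∧ Dc N hS h' := by
  obtain ⟨h1, h2, he, hc, hd⟩ := exists_split N hh
  have h10 : h1 ≠ 0 := by rintro rfl; exact hh (by rw [he, zero_mul])
  have h20 : h2 ≠ 0 := by rintro rfl; exact hh (by rw [he, mul_zero])
  have hlam : ¬ lam ∣ h1 := by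
    intro h'
    have h4 : IsCoprime lam lam :=
      IsCoprime.of_isCoprime_of_dvd_left (IsCoprime.of_isCoprime_of_dvd_right hc (lam_dvd_N hN)) h'
    exact prime_lam.not_isUnit (isCoprime_self.mp h4)
  obtain ⟨u, hu⟩ := exists_unit_mul_isPrim hlam
  refine ⟨((u⁻¹ : Eisˣ) : Eis) * h2, u * h1, ?_, ⟨⟨mul_ne_zero (Units.ne_zero _) h20,
    fun p hp hpd => ?_⟩, ⟨hu, (isCoprime_of_isUnit u.isUnit N).mul_left hc⟩⟩⟩
  · rw [he]
    have : ((u⁻¹ : Eisˣ) : Eis) * (u : Eis) = 1 := Units.inv_mul u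
    linear_combination (-(h1 * h2)) * this
  · rcases hp.dvd_or_dvd hpd with h' | h'
    · exact absurd (isUnit_of_dvd_unit h' (u⁻¹).isUnit) hp.not_isUnit
    · exact hd p hp h'

/-- **the symbol on the row** -/
theorem sc_key (hN : L3 N) {hS h' : Eis} (D : Dc N hS h') {c d c0 d0 y : Eis} (hc : Gp N c)
    (hc0 : Gp N c0) (hcop : IsCoprime c0 d0) (hdet : c * d0 - d * c0 = hS * h')
    (hyc : h' ∣ c - y * c0) (hyd : h' ∣ d - y * d0) :
    sc d c = sc d0 c0 * sc y h' * sc hS c * conj (sc hS c0) := by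
  have key := (apiN hN).row_identity recN (c := d) (d := c) (c0 := d0) (d0 := c0)
    (hS := -hS) (h' := h') (x := y) hcop.symm hc hc0 D.gp (neg_ne_zero.mpr D.sp.ne)
    (fun p hp h => D.sp.pr p hp ((dvd_neg).mp h)) (by linear_combination -hdet) hyd hyc
  rw [sc_neg hc0.1, sc_neg hc.1, sc_neg hc0.1 1, sc_one_left hN hc0] at key
  have h1 := sc_mul_conj hc0 D.sp
  linear_combination (conj (sc hS c0)) * key - (sc d c) * h1

/-! ### the row function -/

open Classical in
/-- `θ(c) e(x d c̄ / N) conj (d/c)_3` -/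
def rowH (N x : Eis) (θ : Eis → ℂ) (r : Eis × Eis) : ℂ :=
  if Gp N r.1 then θ r.1 * ea N x (r.2 * ivN N r.1) * sc r.2 r.1 else 0

lemma rowH_ext {x : Eis} {θ θ' : Eis → ℂ} (h : ∀ c, Gp N c → θ' c = θ c) :
    rowH N x θ' = rowH N x θ := by
  classical
  funext r
  unfold rowH
  by_cases hc : Gp N r.1
  · rw [if_pos hc, if_pos hc, h _ hc]
  · rw [if_neg hc, if_neg hc]

lemma rowH_ne {x : Eis} {θ : Eis → ℂ} {r : Eis × Eis} (h : rowH N x θ r ≠ 0) : Gp N r.1 := by
  classical
  unfold rowH at h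
  by_contra hc
  rw [if_neg hc] at h
  exact h rfl

lemma sc_eq_zero {x c : Eis} (hc : IsPrim c) (h : ¬ IsCoprime x c) : sc x c = 0 := by
  unfold sc
  rw [(Sym645.sy_eq_zero_iff (g3p hc)).mpr h, map_zero]

/-- the multiplier -/
def chiH (N : Eis) (g : GN N) : ℂ := conj (kubN sc (g : SLE))

lemma norm_sc_le {x c : Eis} (hc : IsPrim c) : ‖sc x c‖ ≤ 1 := by
  unfold sc
  rw [RCLike.norm_conj]
  exact Char766.norm_sy_le hc

lemma norm_chiH (hN : L3 N) (g : GN N) : ‖chiH N g‖ = 1 := by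
  unfold chiH kubN sc
  rw [RCLike.norm_conj, RCLike.norm_conj]
  have h := mem_GN.mp g.2
  have hp : IsPrim ((g : SLE) 1 1) := hN.d3.trans h.2.2.2
  have hdet := det_eq' (g : SLE)
  exact Char766.norm_sy hp ⟨-(g : SLE) 0 1, (g : SLE) 0 0, by linear_combination hdet⟩

theorem rowH_rmulS (hN : L3 N) {x : Eis} {θ : Eis → ℂ} (H : GCh N θ) {γ : SLE}
    (hγ : γ ∈ GN N) (r : Eis × Eis) : rowH N x θ (rmulS r γ) = kubN sc γ * rowH N x θ r := by
  classical
  obtain ⟨c, d⟩ := r
  have hγ' := mem_GN.mp hγ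
  obtain ⟨⟨t1, ht1⟩, ⟨t2, ht2⟩, ⟨t3, ht3⟩, ⟨t4, ht4⟩⟩ := hγ'
  set c' : Eis := (rmulS (c, d) γ).1 with hc'
  set d' : Eis := (rmulS (c, d) γ).2 with hd'
  have ec : c' = c * γ 0 0 + d * γ 1 0 := rfl
  have ed : d' = c * γ 0 1 + d * γ 1 1 := rfl
  have h1 : N ∣ c' - c := ⟨c * t1 + d * t3, by rw [ec]; linear_combination c * ht1 + d * ht3⟩
  have h2 : N ∣ d' - d := ⟨c * t2 + d * t4, by rw [ed]; linear_combination c * ht2 + d * ht4⟩
  have hiff : Gp N c' ↔ Gp N c := gp_congr hN h1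
  unfold rowH
  change (if Gp N c' then θ c' * ea N x (d' * ivN N c') * sc d' c' else 0) =
    kubN sc γ * (if Gp N c then θ c * ea N x (d * ivN N c) * sc d c else 0)
  by_cases hc : Gp N c
  · have hcc := hiff.mpr hc
    rw [if_pos hc, if_pos hcc, H.per _ _ hcc hc h1]
    have e2 : ea N x (d' * ivN N c') = ea N x (d * ivN N c) := by
      apply ea_congr_right hN.ne
      have h3 := ivN_congr hcc.2 h1
      have : d' * ivN N c' - d * ivN N c = d' * (ivN N c' - ivN N c) + (d' - d) * ivN N c := by ring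
      rw [this]
      exact dvd_add (h3.mul_left _) (h2.mul_right _)
    rw [e2]
    by_cases hcop : IsCoprime c d
    · have := (apiN hN).row_mul_top (dvd_refl N) (mem_GamN_of_GN hγ) (x := c) (y := d) trivial hc hcop
      rw [← ec, ← ed] at this
      rw [this]; ring
    · have hcop' : ¬ IsCoprime d' c' := by
        intro h
        have h3 : IsCoprime (rmulS (c, d) γ).1 (rmulS (c, d) γ).2 := h.symm
        have h4 := cop_rmulS h3 γ⁻¹
        rw [← rmulS_mul, mul_inv_cancel, rmulS_one] at h4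
        exact hcop h4
      rw [sc_eq_zero hc.1 (fun h => hcop h.symm), sc_eq_zero hcc.1 hcop']
      ring
  · rw [if_neg hc, if_neg (fun h => hc (hiff.mp h)), mul_zero]

theorem cof_rowH (hN : L3 N) (x : Eis) {θ : Eis → ℂ} (H : GCh N θ) :
    Cof N (chiH N) (rowH N x θ) where
  bdd := by
    classical
    refine ⟨1, fun r => ?_⟩
    unfold rowH
    split_ifs with hc
    · rw [norm_mul, norm_mul, norm_ea, mul_one, H.norm _ hc, one_mul]
      exact norm_sc_le hc.1
    · rw [norm_zero]; exact zero_le_one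
  cop r hr := by
    classical
    have hc := rowH_ne hr
    unfold rowH at hr
    rw [if_pos hc] at hr
    by_contra hcop
    apply hr
    rw [sc_eq_zero hc.1 (fun h => hcop h.symm), mul_zero]
  equiv γ r := by
    rw [rowH_rmulS hN H γ.2]
    unfold chiH
    rw [Complex.conj_conj]

/-! ### the constant term -/

/-- the twisted character -/
def tS (θ : Eis → ℂ) (hS c : Eis) : ℂ := θ c * sc hS c

/-- the dual character -/
def dS (θ : Eis → ℂ) (hS c : Eis) : ℂ := conj (θ c) * sc hS c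

lemma gch_tS (hN : L3 N) {θ : Eis → ℂ} (H : GCh N θ) {z : Eis} (hz : Sp N z) :
    GCh N (tS θ z) := gch_mul H (gch_sc hN hz)

lemma gch_dS (hN : L3 N) {θ : Eis → ℂ} (H : GCh N θ) {z : Eis} (hz : Sp N z) :
    GCh N (dS θ z) := gch_mul (gch_conj H) (gch_sc hN hz)

/-- **Constant term sum.** -/
theorem sum_rowH (hN : L3 N) {x : Eis} {θ : Eis → ℂ} (H : GCh N θ) {hS h' : Eis}
    (D : Dc N hS h') {A B c0 d0 : Eis} (hdet : A * d0 - B * c0 = 1) (hc0 : Gp N c0) :
    sumMod (hS * h' * N) (fun y => rowH N x θ (hS * h' * A + y * c0, hS * h' * B + y * d0)) =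
      (nm hS * sumMod h' (fun y => sc y h') * GS N (tS θ hS) (-(x * (hS * h')))) *
        rowH N x (dS θ hS) (c0, d0) := by
  classical
  set h : Eis := hS * h' with hh
  have HT := gch_tS hN H D.sp
  set Ψ : Eis → ℂ := fun c => if Gp N c then
      tS θ hS c * ea N (-(x * h) * ivN N c0) (ivN N c) else 0 with hΨ
  have hPΨ : PMod N Ψ := pmod_GS hN HT _
  have hcop : IsCoprime c0 d0 := ⟨-B, A, by linear_combination hdet⟩
  -- pointwise
  have e1 : ∀ y, rowH N x θ (h * A + y * c0, h * B + y * d0) =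
      conj (sc hS c0) * (ea N x (d0 * ivN N c0) * sc d0 c0) * (sc y h' * Ψ (c0 * y + h * A)) := by
    intro y
    set c := h * A + y * c0 with hc
    set d := h * B + y * d0 with hd
    have ec : c0 * y + h * A = c := by rw [hc]; ring
    rw [ec]
    unfold rowH
    simp only [hΨ]
    by_cases hcc : Gp N c
    · rw [if_pos hcc, if_pos hcc]
      have hdet' : c * d0 - d * c0 = hS * h' := by
        rw [hc, hd, ← hh]; linear_combination h * hdet
      rw [sc_key hN D hcc hc0 hcop hdet' (y := y)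
        ⟨hS * A, by rw [hc, hh]; ring⟩ ⟨hS * B, by rw [hd, hh]; ring⟩]
      have e2 : ea N x (d * ivN N c) =
          ea N x (d0 * ivN N c0) * ea N (-(x * h) * ivN N c0) (ivN N c) := by
        have e3 : ea N (-(x * h) * ivN N c0) (ivN N c) =
            ea N x (-(h * ivN N c0 * ivN N c)) := by
          have : -(x * h) * ivN N c0 = x * (-(h * ivN N c0)) := by ring
          rw [this, ← ea_mul]
          congr 1; ring
        rw [e3, ← ea_add hN.ne]
        apply ea_congr_right hN.ne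
        obtain ⟨s, hs⟩ := (ivN_spec hcc.2).2
        obtain ⟨t, ht⟩ := (ivN_spec hc0.2).2
        refine ⟨d0 * ivN N c0 * s - d * ivN N c * t, ?_⟩
        linear_combination (d0 * ivN N c0) * hs - (d * ivN N c) * ht -
          (ivN N c0 * ivN N c) * hdet'
      rw [e2]
      unfold tS
      ring
    · rw [if_neg hcc, if_neg hcc]; ring
  rw [sumMod_congr e1, sumMod_mul_left (mul_ne_zero (by rw [hh]; exact D.ne) hN.ne)]
  have hPsy : PMod h' (fun y => sc y h') := by
    intro y t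
    exact (apiN hN).congr _ _ h' D.gp ⟨t, by ring⟩
  have hP2 : PMod N (fun y => Ψ (c0 * y + h * A)) := (hPΨ.comp_add _).comp_mul _
  have hcopN : IsCoprime h' (N * hS) := D.gp.2.mul_right ((D.sp.cop D.gp.2).symm)
  have hsum : sumMod (h * N) (fun y => sc y h' * Ψ (c0 * y + h * A)) =
      sumMod h' (fun y => sc y h') * (nm hS * sumMod N Ψ) := by
    rw [show h * N = h' * (N * hS) by rw [hh]; ring,
      sumMod_mul_of_coprime D.gp.ne (mul_ne_zero hN.ne D.sp.ne) hcopN hPsy
        (hP2.mono (dvd_mul_right N hS)), sumMod_of_pmod_dvd hN.ne D.sp.ne hP2]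
    congr 2
    have h3 := sumMod_mul_coprime hN.ne (hPΨ.comp_add (h * A)) hc0.2
    rw [h3, sumMod_shift hN.ne hPΨ]
  rw [hsum]
  have hG : sumMod N Ψ = conj (tS θ hS c0) * GS N (tS θ hS) (-(x * h)) := by
    have h1 : sumMod N Ψ = GS N (tS θ hS) (-(x * h) * ivN N c0) := rfl
    have h2 := GS_mul hN HT (-(x * h)) (gp_ivN hN hc0)
    have h3 : tS θ hS (ivN N c0) = conj (tS θ hS c0) := by
      have h4 : tS θ hS c0 * tS θ hS (ivN N c0) = 1 := by
        rw [← HT.mul _ _ hc0 (gp_ivN hN hc0), HT.per _ 1 (hc0.mul (gp_ivN hN hc0)) gp_one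
          (ivN_spec hc0.2).2, HT.one]
      have h5 := HT.mul_conj hc0
      exact mul_left_cancel₀ (HT.ne hc0) (h4.trans h5.symm)
    rw [h1, h2, h3]
  rw [hG]
  unfold rowH
  simp only
  rw [if_pos hc0]
  have h6 : conj (sc hS c0) * conj (tS θ hS c0) = dS θ hS c0 := by
    unfold tS dS
    have h7 := conj_sc hc0 D.sp
    have h8 := sc_cube hc0 D.sp
    rw [map_mul, h7]
    linear_combination (conj (θ c0) * sc hS c0) * h8
  rw [← h6]
  ring

end Crest.Agent.R017.Hi681
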