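import Crest.Agent.R017.Hi2_54
import Crest.Agent.R017.P1t_54

/-!
# Row 17, StrU high levels (helper54): the plain second moment of the structured function, part 3

* `hiU_of` : `HN` (one natural triple) implies `HiU`
-/

set_option autoImplicit false

noncomputable section

open Finset Filter
open scoped ComplexConjugate

namespace Crest.Agent.R017.Hi354

open Crest.Agent.R012 Crest.Agent.R012.Eis
open Crest.Agent.R012.Mob705 hiding pb mem_pb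
open Crest.Agent.R012.LS2 (S mem_S)
open Crest.Agent.R017.CM106 Crest.Agent.R017.C70
open Crest.Agent.R017.FE47 (PU cx SM)
open Crest.Agent.R017.StD828 (ln Tm)
open Crest.Agent.R017.E2440 (TE StE Bth Bth_nonneg)
open Crest.Agent.R017.E5k54 (PT alb)
open Crest.Agent.R017.SSb54 (SST SSb PTb mem_PTb PTb_sub)
open Crest.Agent.R017.P1e54 Crest.Agent.R017.P1f54 Crest.Agent.R017.P1h54
open Crest.Agent.R017.P1i54 Crest.Agent.R017.P1j54
open Crest.Agent.R017.P1k54 Crest.Agent.R017.P1l54 Crest.Agent.R017.P1n54 Crest.Agent.R017.P1o54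
open Crest.Agent.R017.P1p54 Crest.Agent.R017.P1q54 Crest.Agent.R017.P1r54 Crest.Agent.R017.P1s54
open Crest.Agent.R017.P1g54
open Crest.Agent.R017.HP842 (Pc pc al alL cv Tu mem_Tu sqc Th)
open Crest.Agent.R017.B770 Crest.Agent.R017.Prov71
open Crest.Agent.R017.XG702 (Pcs Good_mono)
open Crest.Agent.R017.XT71 (Sys Win mx mx_le le_mx)
open Crest.Agent.R017.UM71
open Crest.Agent.R017.E5P571 (PB mem_PB PC)
open Crest.Agent.R017.E5B71 Crest.Agent.R017.E5L770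
open Crest.Agent.R017.Hi154 Crest.Agent.R017.Hi254

attribute [local irreducible] HP842.Tu

lemma M2_const (u : Eis → ℝ) (c : ℂ) (F : Eis → ℂ) :
    M2 u (fun k => c * F k) = ‖c‖ ^ 2 * M2 u F := by
  unfold M2
  rw [← tsum_mul_left]
  refine tsum_congr fun k => ?_
  rw [norm_mul]
  ring

section

variable {Λ : Type*} {π : Λ → DPar} {h : ℝ → ℝ} {e0 r : ℝ} {Rf : Λ → ℝ} {lam : Λ × Eis}
  {p : Fin 3 ⊕ Fin 5 → ℝ} {X δ δ₁ ρ ρ₁ B R c H Hw M Cs ε₁ v : ℝ} {N i : ℕ} {a : Bd}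
  {Par : Set (Fin 3 ⊕ Fin 5 → ℝ)} {lo hi LH : (Fin 3 ⊕ Fin 5 → ℝ) → ℝ} {β : Fin 3 → Eis}

/-- the structured function of one level -/
lemma at_SfV (i : ℕ) (k : Eis) : SF.at (SfV π h e0 r bfO Jo i) lam a k =
    (pC : ℂ) * SST (PTb (Fin 3) (Yr r a) (Real.exp (bfO a.l (∑ j, (vsO a j).z) a.z)))
      (fun j => pc h (Pt (π lam.1) lam.2 (vsO a j))) (Real.exp (e0 * a.l))
      (Jo a.l (a3 a) a.z) (omL i) k := by
  unfold SF.at SfV SfJ SSb Yr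
  rw [vec3, a3_eq]

/-- **`HiF` by the second moment** -/
theorem hiF_le_M2 {R : Λ → ℝ} (i : ℕ) : HiF π (SfV π h e0 r bfO Jo i) R lam a ≤
    M2 (uM (R lam.1) (Real.exp a.l) (Real.exp (a.l / 20))) (fun k =>
      (pC : ℂ) * SST (PTb (Fin 3) (Yr r a) (Real.exp (bfO a.l (∑ j, (vsO a j).z) a.z)))
      (fun j => pc h (Pt (π lam.1) lam.2 (vsO a j))) (Real.exp (e0 * a.l))
      (Jo a.l (a3 a) a.z) (omL i) k) := by
  classical
  unfold HiF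
  split_ifs with hif
  swap
  · exact M2_nonneg (uM_nonneg _ _ _) _
  refine le_trans (le_of_eq ?_) (sum_le_M2 (Real.exp_pos a.l) (T := (PB (π lam.1).n
    ⌊Real.exp (a.l + R lam.1)⌋₊).filter (fun k => cutE (Real.exp (a.l / 20)) k ∧
      Real.exp (a.l - R lam.1) ≤ nm k)) (fun k hk => ?_) _)
  · refine sum_congr ?_ fun k _ => ?_
    · ext k; simp only [mem_filter]
    · rw [at_SfV]
  · rw [mem_filter, mem_PB] at hk
    obtain ⟨⟨h1, h2, -⟩, h3, h4⟩ := hk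
    refine ⟨h2, h3, ?_, ?_⟩
    · rw [← Real.exp_add, neg_add_eq_sub]; exact h4
    · have h5 := (Nat.le_floor_iff (Real.exp_pos _).le).1 h1
      rwa [Real.exp_add, mul_comm] at h5

/-- **the bound for one datum** -/
theorem hiF_m {ε' : ℝ} (hε' : 0 < ε') : ∃ C : ℝ, 0 ≤ C ∧
    ∀ {c R H Hw M Cs r X δ δ₁ ρ ρ₁ B ε₁ e0 v : ℝ} {N i : ℕ} {Λ : Type*} {π : Λ → DPar}
      {h : ℝ → ℝ} {Rf : Λ → ℝ} {lam : Λ × Eis} {a : Bd} {p : Fin 3 ⊕ Fin 5 → ℝ}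
      {Par : Set (Fin 3 ⊕ Fin 5 → ℝ)} {lo hi LH : (Fin 3 ⊕ Fin 5 → ℝ) → ℝ},
      0 < c → (∀ u, cx h u ≠ 0 → |u| ≤ R) → (∀ u, ‖cx h u‖ ≤ H) →
      (∀ u, ‖((FE47.hD u : ℝ) : ℂ)‖ ≤ Hw) → 0 ≤ M → SepS h c R M Cs → 0 ≤ Cs →
      Siz X H Hw e0 (Rf lam.1) R →
      2 * X ^ ρ ≤ X ^ ρ₁ → 0 ≤ ρ → ρ ≤ ρ₁ → 320 * δ ≤ δ₁ → 0 ≤ B →
      400 ≤ ρ * M → 0 ≤ cκ p + LH p → 0 ≤ ε₁ → p ∈ Par →
      InH π h e0 Rf lam Par lo hi LH X δ₁ ρ₁ B ε₁ N →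
      lo p ≤ v → v ≤ hi p → |Real.log 2 * (i : ℝ) / Real.log X - v| ≤ δ →
      Fv (π lam.1) lam.2 p X δ ρ B R N a →
      HiF π (SfV π h e0 r bfO Jo i) Rf lam a ≤
        C * (‖(pC : ℂ)‖ ^ 2 * (Cs ^ 3 * WV LH p X δ ε₁ R a * X ^ (4 * ε'))) := by
  obtain ⟨C1, hC1, key1⟩ := E5d54.sum_pf_tuples (Fin 3) hε'
  refine ⟨C1 * C1, by positivity, ?_⟩
  intro c R H Hw M Cs r X δ δ₁ ρ ρ₁ B ε₁ e0 v N i Λ π h Rf lam a p Par lo hi LH hc hR hH hHw hM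
    hsep hCs hS hρ hρ0 hρ1 hδ₁ hB hMρ hLH hε₁ hPar HH hlo hhi hv F
  classical
  have hL := F.L0
  have hX0 : 0 < X := by linarith [F.X1]
  have hX1 := F.X1.le
  have hWpos : 0 < WV LH p X δ ε₁ R a := WV_pos hX0
  refine (hiF_le_M2 (r := r) i).trans ?_
  rw [M2_const]
  set T := PTb (Fin 3) (Yr r a) (Real.exp (bfO a.l (∑ j, (vsO a j).z) a.z)) with hT
  have hTp : ∀ β ∈ T, ∀ j, IsPrim (β j) := fun β hβ => mem_PT (mem_PTb.1 hβ).1
  have h1 := sst_M2 T hTp (δ := ε') (fun j => pc h (Pt (π lam.1) lam.2 (vsO a j)))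
    (Real.exp (e0 * a.l)) (Jo a.l (a3 a) a.z) (omL i)
    (u := uM (Rf lam.1) (Real.exp a.l) (Real.exp (a.l / 20))) (uM_nonneg _ _ _)
    (uM_fin (Real.exp_pos _))
  have hJ : ∀ z ∈ Jo a.l (a3 a) a.z, z.1 ≠ 0 := fun z hz =>
    ((okJ_JW _ _ _).prim z hz).ne_zero
  have hsumT : ∑ β ∈ T, (nm (∏ j, β j) : ℝ) ^ (-(1 / 2 + ε')) ≤ C1 := by
    refine le_trans (sum_le_sum_of_subset_of_nonneg (PTb_sub _ _) fun β _ _ =>
      Real.rpow_nonneg (Nat.cast_nonneg _) _) (le_trans (le_of_eq ?_) (key1 (Yr r a)))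
    refine sum_congr ?_ fun _ _ => rfl
    unfold PT
    ext β
    simp only [mem_filter, Fintype.mem_piFinset]
  have hterm : ∀ β ∈ T, ((nm (∏ j, β j) : ℝ) ^ (-(1 / 2 + ε')))⁻¹ *
      M2 (uM (Rf lam.1) (Real.exp a.l) (Real.exp (a.l / 20))) (StE (Real.exp (e0 * a.l))
        (Jo a.l (a3 a) a.z) (omL i) (alb (fun j => pc h (Pt (π lam.1) lam.2 (vsO a j))) β)) ≤
      (nm (∏ j, β j) : ℝ) ^ (-(1 / 2 + ε')) * (Cs ^ 3 * WV LH p X δ ε₁ R a * X ^ (4 * ε')) := by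
    intro β hβ
    have pβ := hTp β hβ
    have hn1 : (1 : ℝ) ≤ nm (∏ j, β j) := nmP pβ
    have hn : (0 : ℝ) < nm (∏ j, β j) := by linarith
    have hβ2 := (Real.log_le_iff_le_exp hn).2 (mem_PTb.1 hβ).2
    have h2 := (M2_StE_alb hR (s := fun j => Pt (π lam.1) lam.2 (vsO a j))
      (fun j => Pt_OK F.hP lam.2 (vsO a j)) pβ
      (u := uM (Rf lam.1) (Real.exp a.l) (Real.exp (a.l / 20))) (uM_nonneg _ _ _)
      (uM_fin (Real.exp_pos _)) hJ (Real.exp (e0 * a.l)) (omL i)).trans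
      (hnV (v := v) (ε₁ := ε₁) hc hR hH hHw hM hsep hCs F hS hρ hρ0 hρ1 hδ₁ hB hMρ hLH hε₁ hPar
        HH hlo hhi hv pβ hβ2)
    refine (mul_le_mul_of_nonneg_left h2 (by positivity)).trans ?_
    -- sizes
    have haz := abs_le.1 F.az
    have hlz := abs_le.1 F.lz
    have hvs := abs_le.1 F.vsum
    have hdL0 : 0 ≤ δ * Real.log X := mul_nonneg F.d0 hL.le
    have hd1 := F.d1
    have hdL : δ * Real.log X ≤ 1 / 240 * Real.log X :=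
      mul_le_mul_of_nonneg_right (by linarith) hL.le
    have hxL : cx' p * Real.log X ≤ 1 / 3 * Real.log X :=
      mul_le_mul_of_nonneg_right F.par.x1 hL.le
    have hκ : 8 / 9 * Real.log X ≤ cκ p * Real.log X :=
      mul_le_mul_of_nonneg_right F.par.κ0 hL.le
    have hNL : cN p * Real.log X ≤ 1 * Real.log X := mul_le_mul_of_nonneg_right F.par.N1 hL.le
    have e1 : (nm (∏ j, β j) : ℝ) ^ (2 * ε') ≤ X ^ (4 * ε') := by
      rw [Real.rpow_def_of_pos hn, Real.rpow_def_of_pos hX0]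
      refine Real.exp_le_exp.2 ?_
      unfold bfO at hβ2
      have : Real.log (nm (∏ j, β j)) ≤ 2 * Real.log X := by linarith
      nlinarith
    have e2 : ((nm (∏ j, β j) : ℝ) ^ (-(1 / 2 + ε')))⁻¹ * (nm (∏ j, β j) : ℝ)⁻¹ =
        (nm (∏ j, β j) : ℝ) ^ (-(1 / 2 + ε')) * (nm (∏ j, β j) : ℝ) ^ (2 * ε') := by
      rw [← Real.rpow_neg hn.le, ← Real.rpow_neg_one, ← Real.rpow_add hn, ← Real.rpow_add hn]
      congr 1
      ring
    calc ((nm (∏ j, β j) : ℝ) ^ (-(1 / 2 + ε')))⁻¹ *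
        (Cs ^ 3 * (WV LH p X δ ε₁ R a * (nm (∏ j, β j) : ℝ)⁻¹)) =
        (((nm (∏ j, β j) : ℝ) ^ (-(1 / 2 + ε')))⁻¹ * (nm (∏ j, β j) : ℝ)⁻¹) *
          (Cs ^ 3 * WV LH p X δ ε₁ R a) := by ring
      _ = (nm (∏ j, β j) : ℝ) ^ (-(1 / 2 + ε')) * ((nm (∏ j, β j) : ℝ) ^ (2 * ε') *
          (Cs ^ 3 * WV LH p X δ ε₁ R a)) := by rw [e2]; ring
      _ ≤ (nm (∏ j, β j) : ℝ) ^ (-(1 / 2 + ε')) * (X ^ (4 * ε') *
          (Cs ^ 3 * WV LH p X δ ε₁ R a)) :=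
          mul_le_mul_of_nonneg_left (mul_le_mul_of_nonneg_right e1 (by positivity))
            (by positivity)
      _ = _ := by ring
  have h2 := sum_le_sum hterm
  rw [← sum_mul] at h2
  have hW0 : 0 ≤ Cs ^ 3 * WV LH p X δ ε₁ R a * X ^ (4 * ε') := by positivity
  have h3 : M2 (uM (Rf lam.1) (Real.exp a.l) (Real.exp (a.l / 20)))
      (SST T (fun j => pc h (Pt (π lam.1) lam.2 (vsO a j))) (Real.exp (e0 * a.l))
        (Jo a.l (a3 a) a.z) (omL i)) ≤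
      C1 * (C1 * (Cs ^ 3 * WV LH p X δ ε₁ R a * X ^ (4 * ε'))) := by
    refine h1.trans (mul_le_mul hsumT (h2.trans (mul_le_mul_of_nonneg_right hsumT hW0)) ?_ hC1)
    exact sum_nonneg fun β _ => mul_nonneg (inv_nonneg.2 (Real.rpow_nonneg (Nat.cast_nonneg _) _))
      (M2_nonneg (uM_nonneg _ _ _) _)
  calc ‖(pC : ℂ)‖ ^ 2 * _ ≤ ‖(pC : ℂ)‖ ^ 2 *
      (C1 * (C1 * (Cs ^ 3 * WV LH p X δ ε₁ R a * X ^ (4 * ε')))) :=
        mul_le_mul_of_nonneg_left h3 (by positivity)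
    _ = _ := by ring

lemma inH_of {δa ρa : ℝ} (hX : 1 ≤ X) (hδ : δ₁ ≤ δa) (hρ : ρ₁ ≤ ρa)
    (K : ∀ (a : Bc × ℕ) (ps : List Pq), ps.length ≤ N →
      (∀ p ∈ ps, Dq.lump p ∨ Dq.nl X p ≤ δa) → ∀ q ∈ DomH Par lo hi,
      Win (lev (Real.log 2) S8) q.1 δa N (B + 2) ρa X a →
      (∀ t, |Dq.mass X ps t - q.2 t| ≤ δa) → Dq.Good X ρa (B + 2) ps →
      (∀ p ∈ ps, Dq.lump p → ((lev (Real.log 2) S8).ev X a, Dq.nl X p) ∈
        (∅ : Set ((Option ((Fin 3 ⊕ Fin 5) ⊕ Fin 3) → ℝ) × ℝ))) →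
      HnC π h e0 Rf lam a ps ≤ X ^ (cκ (fun i => q.1 (some (.inl i))) +
        ∑ i : Fin 3, q.1 (some (.inr i)) + LH (fun i => q.1 (some (.inl i))) + ε₁)) :
    InH π h e0 Rf lam Par lo hi LH X δ₁ ρ₁ B ε₁ N := fun a ps h1 h2 q hq hw hm hg hl =>
  K a ps h1 (fun p hp => (h2 p hp).imp id fun h => h.trans hδ) q hq
    (hw.mono hX hδ le_rfl le_rfl hρ) (fun t => (hm t).trans hδ) (Good_mono hX hg hρ) hl

lemma WV_le (F : Fv (π lam.1) lam.2 p X δ ρ B R N a) {ε : ℝ}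
    (hε₁ : ε₁ ≤ ε / 4) (hδ : 1205 * δ ≤ ε / 4) :
    WV LH p X δ ε₁ R a ≤ X ^ (cκ p + cN p + LH p + ε / 2) := by
  have hL := F.L0
  have hX0 : 0 < X := by linarith [F.X1]
  have hvs := abs_le.1 F.vsum
  have hRL := F.RL
  have hR0 := F.R0
  unfold WV
  rw [Real.rpow_def_of_pos hX0, Real.rpow_def_of_pos hX0, ← Real.exp_add]
  refine Real.exp_le_exp.2 ?_
  have h1 : Real.log X * (ε₁ + 1205 * δ) ≤ Real.log X * (ε / 2) :=
    mul_le_mul_of_nonneg_left (by linarith) hL.le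
  nlinarith

end

set_option maxHeartbeats 1000000 in
/-- **HiU from one natural triple** -/
theorem hiU_of {Λ : Type*} {π : Λ → DPar} (hπ : ∀ l, (π l).OK) {h : ℝ → ℝ} {c : ℝ}
    (hpu : PU h c) {Rh : ℝ} (hRh0 : 0 ≤ Rh) (hRh : ∀ u, cx h u ≠ 0 → |u| ≤ Rh) {e0 : ℝ}
    (r : ℝ) (he0 : 0 ≤ e0) (he1 : e0 ≤ 1) {Par : Set (Fin 3 ⊕ Fin 5 → ℝ)}
    {lo hi LH : (Fin 3 ⊕ Fin 5 → ℝ) → ℝ} (hPar : ∀ p ∈ Par, ParOK p)
    (hLH : ∀ p ∈ Par, 0 ≤ cκ p + LH p) (hN : HN π h e0 Par lo hi LH)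
    (al : Set ((Option (Fin 3 ⊕ Fin 5) → ℝ) × ℝ)) : HiU π h e0 r Par lo hi LH al := by
  intro R hR ε hε
  obtain ⟨δa, hδa, K⟩ := hN R hR (ε / 4) (by positivity)
  set δ := min (δa / 320) (min (ε / 4820) (1 / 240)) with hδ
  have hδ0 : 0 < δ := lt_min (by positivity) (lt_min (by positivity) (by norm_num))
  have d1 : δ ≤ δa / 320 := min_le_left _ _
  have d2 : δ ≤ ε / 4820 := (min_le_right _ _).trans (min_le_left _ _)
  have d3 : δ ≤ 1 / 240 := (min_le_right _ _).trans (min_le_right _ _)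
  refine ⟨δ, hδ0, fun lam N B => ?_⟩
  obtain ⟨ρ₁, hρ₁0, Xa, hXa, K'⟩ := K lam N (max B 0 + 2)
  have hρ0 : 0 < ρ₁ / 2 := by positivity
  -- constants
  set M : ℝ := 400 / (ρ₁ / 2) with hM
  have hM0 : 0 ≤ M := by positivity
  obtain ⟨Cs, hCs, hsep⟩ := ste_sep hpu hRh0 hRh M
  obtain ⟨H, hH⟩ := exists_bd hpu.cd.continuous hpu.cs
  obtain ⟨Hw, hHw⟩ := exists_bd FE47.contDiff_hD.continuous FE47.hasCompactSupport_hD
  have hHw' : ∀ u, ‖((FE47.hD u : ℝ) : ℂ)‖ ≤ Hw := hHw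
  have hε' : 0 < ε / 16 := by positivity
  obtain ⟨C, hC, key⟩ := hiF_m.{_} hε'
  set K₀ : ℝ := C * (‖(pC : ℂ)‖ ^ 2 * Cs ^ 3) with hK₀
  -- large `X`
  have hlim : ∀ᶠ X : ℝ in atTop, (Xa ≤ X ∧ 200 ≤ X ∧ H ≤ X) ∧ (Bth ≤ X ∧
      ‖(pC : ℂ)‖ ≤ X ∧ Hw ≤ X ∧ 2 * Real.exp (R lam.1) ≤ X) ∧
      (100 * Rh / δ ≤ Real.log X ∧ 2 ≤ X ^ (ρ₁ / 2) ∧ K₀ ≤ X ^ (ε / 4)) := by
    refine ((eventually_ge_atTop _).and ((eventually_ge_atTop _).and
      (eventually_ge_atTop _))).and (((eventually_ge_atTop _).and ((eventually_ge_atTop _).and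
      ((eventually_ge_atTop _).and (eventually_ge_atTop _)))).and ?_)
    exact (Real.tendsto_log_atTop.eventually_ge_atTop _).and
      (((tendsto_rpow_atTop hρ0).eventually_ge_atTop _).and
      ((tendsto_rpow_atTop (by positivity)).eventually_ge_atTop _))
  obtain ⟨X₀, hX₀⟩ := eventually_atTop.1 hlim
  refine ⟨ρ₁ / 2, hρ0, max X₀ 2, lt_of_lt_of_le (by norm_num) (le_max_right _ _), ?_⟩
  intro X hX a ps _ _ q hq hw _ _ _
  obtain ⟨⟨x1, x3, x4⟩, ⟨x5, x6, x7, x8⟩, x10, x11, x12⟩ :=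
    hX₀ X ((le_max_left _ _).trans hX)
  have hX1 : 1 < X := by linarith
  have hX0 : 0 < X := by linarith
  have hL : 0 < Real.log X := Real.log_pos hX1
  obtain ⟨hq1, hq2, hq3⟩ := hq
  show HiF π (SfV π h e0 r bfO Jo a.2) R lam a.1 ≤ _
  by_cases hif : a.1.ok ∧ lam.2 ∈ SM (π lam.1).n
  swap
  · unfold HiF
    rw [if_neg hif]
    positivity
  obtain ⟨hok, ht⟩ := hif
  have hpar := hPar _ hq1
  have F : Fv (π lam.1) lam.2 (fun i => q.1 (some i)) X δ (ρ₁ / 2) (max B 0) Rh N a.1 :=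
    ⟨hX1, hπ _, hok, ht, hpar, ⟨fun i => hw.ev (some i), hw.g, hw.n, hw.s₁,
      hw.s₂.trans (Real.rpow_le_rpow_of_exponent_le hX1.le (le_max_left _ _))⟩, hRh0,
      by rwa [div_le_iff₀ hδ0, mul_comm (Real.log X)] at x10, hδ0.le, by linarith⟩
  have hS : Siz X H Hw e0 (R lam.1) Rh :=
    { c := x3, h := x4, b := x5, p := x6, w := x7, r := x8, e := he0, e1 := he1 }
  have hbound := key (c := c) (R := Rh) (H := H) (Hw := Hw) (M := M) (Cs := Cs) (r := r) (X := X)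
    (δ := δ) (δ₁ := δa) (ρ := ρ₁ / 2) (ρ₁ := ρ₁) (B := max B 0) (ε₁ := ε / 4) (e0 := e0)
    (v := q.1 none) (N := N) (i := a.2) (π := π) (h := h) (Rf := R) (lam := lam) (a := a.1)
    (p := fun i => q.1 (some i)) (Par := Par) (lo := lo) (hi := hi) (LH := LH)
    hpu.cpos hRh hH hHw' hM0 hsep hCs hS
    (by
      have e1 : X ^ ρ₁ = X ^ (ρ₁ / 2) * X ^ (ρ₁ / 2) := by
        rw [← Real.rpow_add hX0]; congr 1; ring
      rw [e1]
      exact mul_le_mul_of_nonneg_right x11 (by positivity)) hρ0.le (by linarith)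
    (by linarith) (le_max_right _ _) (by rw [hM]; field_simp; exact le_rfl) (hLH _ hq1)
    (by positivity) hq1
    (inH_of hX1.le le_rfl le_rfl (K' X x1)) hq2 hq3 (hw.ev none) F
  refine hbound.trans ?_
  have hW := WV_le (LH := LH) (ε₁ := ε / 4) (ε := ε) F le_rfl (by linarith)
  set E := cκ (fun i => q.1 (some i)) + cN (fun i => q.1 (some i)) + LH (fun i => q.1 (some i))
    with hE
  calc C * (‖(pC : ℂ)‖ ^ 2 * (Cs ^ 3 * WV LH (fun i => q.1 (some i)) X δ (ε / 4) Rh a.1 *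
      X ^ (4 * (ε / 16)))) = K₀ * (WV LH (fun i => q.1 (some i)) X δ (ε / 4) Rh a.1 *
      X ^ (4 * (ε / 16))) := by rw [hK₀]; ring
    _ ≤ X ^ (ε / 4) * (X ^ (E + ε / 2) * X ^ (4 * (ε / 16))) :=
        mul_le_mul x12 (mul_le_mul_of_nonneg_right hW (by positivity))
          (mul_nonneg (WV_pos hX0).le (by positivity)) (by positivity)
    _ = X ^ (E + ε) := by
        rw [← Real.rpow_add hX0, ← Real.rpow_add hX0]
        congr 1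
        ring

end Crest.Agent.R017.Hi354
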