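import Crest.Agent.R017.Hi2_681
import Crest.Agent.R017.LamQ_64

/-!
# Row 17, twisted cubic F1, the part `ψ_λ` of high conductor (helper681), 3: the law

* `base3_val`, `base3_par`, `base3_not` : the base weight for `n = 3`
* `sum_sc_cube`, `sum_sc_zero` : `Σ_{y mod k} conj (y/k)_3`
* `law_rowH` : the law of `rowH`, scalar
-/

set_option autoImplicit false

noncomputable section

open Complex
open scoped ComplexConjugate

namespace Crest.Agent.R017.Hi681

open Crest.Agent.R012 Crest.Agent.R012.Eis Crest.Agent.R012.Gauss880 Crest.Agent.R017.Loc266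
open Crest.Agent.R012.Parseval499
open Crest.Agent.R017.Kub664 Crest.Agent.R017.Orth681 Crest.Agent.R017.Glue681
open Crest.Agent.R017.F1 (PL)
open Crest.Agent.R017.Rw266 (ivN ivN_spec)

variable {N : Eis} {s : ℂ} {ξ : Eis → ℂ}

/-! ### The base weight -/

lemma unit3 {u : Eis} (hu : IsUnit u) : u ^ 3 = 1 ∨ u ^ 3 = -1 := unit_pow (n := 3) dvd_rfl hu

/-- conditions on `ξ` at units -/
structure XU (s : ℂ) (ξ : Eis → ℂ) : Prop where
  mul : ∀ a b, ξ (a * b) = ξ a * ξ b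
  neg : ξ (-1) = s
  ww : ξ w = 1
  le : ∀ a, ‖ξ a‖ ≤ 1

lemma XU.one (X : XU s ξ) : ξ 1 = 1 := by
  have h1 : ξ (w ^ 3) = 1 := by
    have : w ^ 3 = w * (w * w) := by ring
    rw [this, X.mul, X.mul, X.ww]; ring
  rwa [w_cube] at h1

lemma XU.neg' (X : XU s ξ) (j : Eis) : ξ (-j) = s * ξ j := by
  rw [← X.neg, ← X.mul, neg_one_mul]

lemma XU.pow_w (X : XU s ξ) (n : ℕ) : ξ (w ^ n) = 1 := by
  induction n with
  | zero => rw [pow_zero, X.one]
  | succ n ih => rw [pow_succ, X.mul, ih, X.ww, one_mul]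

/-- `ξ` on a unit `u` with `u³ = 1`. -/
lemma XU.cube_one (X : XU s ξ) {u : Eis} (hu : IsUnit u) (h3 : u ^ 3 = 1) : ξ u = 1 := by
  obtain ⟨k, -, rfl | rfl⟩ := isUnit_exists hu
  · exact X.pow_w k
  · exfalso
    have h1 : (-w ^ k : Eis) ^ 3 = -((w ^ 3) ^ k) := by ring
    rw [h1, w_cube, one_pow] at h3
    exact absurd h3 (by decide)

lemma pow3_inj {a b : Eis} (hb : b ≠ 0) (h : a ^ 3 = b ^ 3) :
    ∃ u, IsUnit u ∧ u ^ 3 = 1 ∧ a = u * b := by
  have he1 : b ∣ a := (IsIntegrallyClosed.pow_dvd_pow_iff (by norm_num : (3 : ℕ) ≠ 0)).mp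
    (dvd_of_eq h.symm)
  have he2 : a ∣ b := (IsIntegrallyClosed.pow_dvd_pow_iff (by norm_num : (3 : ℕ) ≠ 0)).mp
    (dvd_of_eq h)
  obtain ⟨u, rfl⟩ := he1
  have hu : IsUnit u := by
    obtain ⟨v, hv⟩ := he2
    refine IsUnit.of_mul_eq_one v ?_
    apply mul_left_cancel₀ hb
    linear_combination -hv
  refine ⟨u, hu, ?_, mul_comm _ _⟩
  rw [mul_pow] at h
  exact mul_left_cancel₀ (pow_ne_zero 3 hb) (by rw [h, mul_one])

lemma base3_val (X : XU s ξ) {e0 : Eis} (he0 : e0 ≠ 0) {w : ℂ} {j : Eis} (hj : j ≠ 0) :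
    baseW 3 e0 s w ξ (e0 * j ^ 3) = w * (ξ j * (PL j : ℂ)) := by
  classical
  have hex : ∃ j', j' ≠ 0 ∧ e0 * j ^ 3 = e0 * j' ^ 3 := ⟨j, hj, rfl⟩
  unfold baseW
  rw [dif_pos hex]
  have h1 := hex.choose_spec.2
  have h2 : j ^ 3 = hex.choose ^ 3 := mul_left_cancel₀ he0 h1
  obtain ⟨u, hu, hu3, h3⟩ := pow3_inj hex.choose_spec.1 h2
  have h4 : ξ j = ξ hex.choose := by
    conv_lhs => rw [h3]
    rw [X.mul, X.cube_one hu hu3, one_mul]
  have h5 : PL j = PL hex.choose := by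
    conv_lhs => rw [h3]
    rw [PL_unit_mul hu hex.choose_spec.1]
  rw [h4, h5]

lemma base3_not {e0 : Eis} {w : ℂ} {h : Eis} (h1 : ¬ ∃ j, j ≠ 0 ∧ h = e0 * j ^ 3) :
    baseW 3 e0 s w ξ h = 0 := by
  classical
  have h2 : ¬ ∃ j, j ≠ 0 ∧ -h = e0 * j ^ 3 := by
    rintro ⟨j, hj, e⟩
    exact h1 ⟨-j, neg_ne_zero.mpr hj, by linear_combination -e⟩
  unfold baseW
  rw [dif_neg h1, dif_neg h2]

lemma base3_par (X : XU s ξ) {e0 : Eis} (he0 : e0 ≠ 0) {w : ℂ} (h : Eis) :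
    baseW 3 e0 s w ξ (-h) = s * baseW 3 e0 s w ξ h := by
  by_cases h1 : ∃ j, j ≠ 0 ∧ h = e0 * j ^ 3
  · obtain ⟨j, hj, rfl⟩ := h1
    have e : -(e0 * j ^ 3) = e0 * (-j) ^ 3 := by ring
    rw [e, base3_val X he0 (neg_ne_zero.mpr hj), base3_val X he0 hj, X.neg']
    have : PL (-j) = PL j := by
      have h2 : -j = (-1) * j := by ring
      rw [h2, PL_unit_mul isUnit_one.neg hj]
    rw [this]; ring
  · rw [base3_not h1, base3_not, mul_zero]
    rintro ⟨j, hj, e⟩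
    exact h1 ⟨-j, neg_ne_zero.mpr hj, by linear_combination -e⟩

lemma base3_ok (X : XU s ξ) {e0 : Eis} (he0 : e0 ≠ 0) (w : ℂ) :
    BaseW 3 e0 s w ξ (baseW 3 e0 s w ξ) where
  pow j hj := base3_val X he0 hj
  par h := base3_par X he0 h
  supp h _ hne := by
    by_contra hcon
    push Not at hcon
    apply hne
    apply base3_not
    rintro ⟨j, _, e⟩
    exact (hcon j).1 e

lemma base3_bdd (X : XU s ξ) {e0 : Eis} (he0 : e0 ≠ 0) (w : ℂ) : Bdd (baseW 3 e0 s w ξ) := by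
  refine ⟨‖w‖, fun h => ?_⟩
  by_cases h1 : ∃ j, j ≠ 0 ∧ h = e0 * j ^ 3
  · obtain ⟨j, hj, rfl⟩ := h1
    rw [base3_val X he0 hj, norm_mul, norm_mul, Complex.norm_real,
      Real.norm_of_nonneg (XnDiv960.PL_nonneg j)]
    have h1 := X.le j
    have h2 := XnDiv960.PL_le_one j
    have h3 := XnDiv960.PL_nonneg j
    calc ‖w‖ * (‖ξ j‖ * PL j) ≤ ‖w‖ * (1 * 1) := by gcongr
      _ = ‖w‖ := by ring
  · rw [base3_not h1, norm_zero]
    exact norm_nonneg _

lemma XU.conj (hs : s = 1 ∨ s = -1) (X : XU s ξ) : XU s (fun j => conj (ξ j)) where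
  mul a b := by rw [X.mul, map_mul]
  neg := by
    rw [X.neg]
    rcases hs with rfl | rfl <;> simp
  ww := by rw [X.ww, map_one]
  le a := by rw [RCLike.norm_conj]; exact X.le a

/-- the dual base weight -/
lemma base3_conj (hs : s = 1 ∨ s = -1) (X : XU s ξ) {e0 : Eis} (he0 : e0 ≠ 0) (w : ℂ) (h : Eis) :
    baseW 3 (-e0) s (conj w) (fun j => conj (ξ j)) h = s * conj (baseW 3 e0 s w ξ h) := by
  have X' := X.conj hs
  by_cases h1 : ∃ j, j ≠ 0 ∧ h = e0 * j ^ 3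
  · obtain ⟨j, hj, rfl⟩ := h1
    have e : e0 * j ^ 3 = (-e0) * (-j) ^ 3 := by ring
    rw [base3_val X he0 hj, e, base3_val X' (neg_ne_zero.mpr he0) (neg_ne_zero.mpr hj)]
    beta_reduce
    have : PL (-j) = PL j := by
      have h2 : -j = (-1) * j := by ring
      rw [h2, PL_unit_mul isUnit_one.neg hj]
    have hsc : conj s = s := by rcases hs with h | h <;> rw [h] <;> simp
    rw [X.neg', this]
    simp only [map_mul, Complex.conj_ofReal, hsc]
    ring
  · rw [base3_not h1, base3_not, map_zero, mul_zero]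
    rintro ⟨j, hj, e⟩
    exact h1 ⟨-j, neg_ne_zero.mpr hj, by rw [e]; ring⟩

/-! ### complete sums of the symbol -/

theorem sum_sc_zero {k : Eis} (hk : Gp N k) (hn : ¬ ∃ j, Gp N j ∧ k = j ^ 3) :
    sumMod k (fun y => sc y k) = 0 := by
  have hch : IsCh k (fun y => conj (sy y k)) := (isCh_sy syG hk.1).conj
  have h1 : ∃ u, IsCoprime u k ∧ conj (sy u k) ≠ 1 := by
    have h3 : ¬ ∃ t, k = t ^ 3 := by
      rintro ⟨t, ht⟩
      obtain ⟨t', ht', htt⟩ := Cusp852.prim_cube (e := t) (ht ▸ hk.1)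
      rw [htt] at ht
      exact hn ⟨t', ⟨ht', (IsCoprime.pow_left_iff (by norm_num)).mp (ht ▸ hk.2)⟩, ht⟩
    obtain ⟨b, -, hb, hb1⟩ := Char766.exists_sy_left_ne_one hk.1 h3
    refine ⟨b, hb, fun h => hb1 ?_⟩
    have := congrArg conj h
    rwa [Complex.conj_conj, map_one] at this
  obtain ⟨u, hu, hu1⟩ := h1
  exact SumMod880.sumMod_eq_zero_of_mul hk.ne (fun x y h => hch.per.congr h) hu _ hu1
    (fun x => hch.mul u x)

theorem sum_sc_cube {j : Eis} (hj : Gp N j) :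
    sumMod (j ^ 3) (fun y => sc y (j ^ 3)) = ((nm (j ^ 3) * PL j : ℝ) : ℂ) := by
  have e2 := Cusp852.T_cube Sym645.syFacts hj.1
  unfold Cusp852.T at e2
  have e3 : PL j = Mob705.PE j := by
    unfold F1.PL
    rw [if_neg hj.1.not_lam_dvd, one_mul]
  have h1 : sumMod (j ^ 3) (fun y => sc y (j ^ 3)) = conj (sumMod (j ^ 3) (fun y => sy y (j ^ 3))) := by
    rw [SumMod880.conj_sumMod (pow_ne_zero 3 hj.ne)]
    rfl
  rw [h1, e2, Theta131.psi_cube hj.1, e3, Complex.conj_ofReal]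

/-! ### decompositions -/

lemma dc_unique {hS h' kS k' : Eis} (D : Dc N hS h') (E : Dc N kS k') (he : hS * h' = kS * k') :
    hS = kS ∧ h' = k' := by
  have h1 : h' ∣ k' := by
    have h2 : h' ∣ kS * k' := ⟨hS, by rw [← he]; ring⟩
    exact (E.sp.cop D.gp.2).symm.dvd_of_dvd_mul_left h2
  have h2 : k' ∣ h' := by
    have h2 : k' ∣ hS * h' := ⟨kS, by rw [he]; ring⟩
    exact (D.sp.cop E.gp.2).symm.dvd_of_dvd_mul_left h2
  have h3 : h' = k' := D.gp.1.eq_of_associated E.gp.1 (associated_of_dvd_dvd h1 h2)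
  refine ⟨?_, h3⟩
  rw [h3] at he
  exact mul_right_cancel₀ E.gp.ne he

lemma Dc.cube {hS j : Eis} (hS' : Sp N hS) (hj : Gp N j) : Dc N hS (j ^ 3) := ⟨hS', hj.pow 3⟩

lemma gp_cube_inj {i j : Eis} (hi : Gp N i) (hj : Gp N j) (h : i ^ 3 = j ^ 3) : i = j := by
  refine hi.1.eq_of_associated hj.1 (associated_of_dvd_dvd ?_ ?_)
  · exact (IsIntegrallyClosed.pow_dvd_pow_iff (by norm_num : (3 : ℕ) ≠ 0)).mp (h ▸ dvd_rfl)
  · exact (IsIntegrallyClosed.pow_dvd_pow_iff (by norm_num : (3 : ℕ) ≠ 0)).mp (h ▸ dvd_rfl)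

lemma sp_pow {z : Eis} (h : Sp N z) (n : ℕ) : Sp N (z ^ n) := by
  induction n with
  | zero => rw [pow_zero]; exact sp_unit isUnit_one
  | succ n ih => rw [pow_succ]; exact ih.mul h

/-- `h = e₀ j³` at `hS h'` -/
lemma cube_form (hN : L3 N) {e0 : Eis} (he0 : IsUnit e0) {hS h' j : Eis} (D : Dc N hS h')
    (hj : j ≠ 0) (h : hS * h' = e0 * j ^ 3) :
    ∃ jS j', j = jS * j' ∧ Dc N jS j' ∧ hS = e0 * jS ^ 3 ∧ h' = j' ^ 3 := by
  obtain ⟨jS, j', hjj, E⟩ := exists_dc hN hj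
  refine ⟨jS, j', hjj, E, ?_⟩
  apply dc_unique D ⟨(sp_unit he0).mul (sp_pow E.sp 3), E.gp.pow 3⟩
  rw [h, hjj]; ring

/-! ### units and the class -/

lemma sc_w_N3 (hN : L3 N) (t : Eis) : sc w (1 + N3 hN * t) = 1 := by
  have h1 : (9 : Eis) * lam ∣ N := hN.pr lam prime_lam (lam_dvd_N hN)
  obtain ⟨r, hr⟩ := h1
  have h2 : N3 hN = 3 * (lam * r) := by
    have h3 : (3 : Eis) * N3 hN = 3 * (3 * (lam * r)) := by rw [← N3_spec hN, hr]; ring
    exact mul_left_cancel₀ three_ne_zero' h3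
  have h4 : sq3 = w * lam := by decide
  have hw : w ^ 2 * w = 1 := by rw [← pow_succ]; exact w_cube
  have h5 : N3 hN * t = sq3 ^ 2 * (sq3 * (-(w ^ 2 * r * t))) := by
    rw [h2, sq3_sq, h4]
    linear_combination (-3 * lam * r * t) * hw
  have h6 : ea (sq3 ^ 2) sq3 (sq3 * (-(w ^ 2 * r * t))) = 1 := by
    rw [ea_mul]
    refine ea_dvd (pow_ne_zero 2 sq3_ne_zero) ⟨1, by ring⟩ _
  unfold sc
  rw [h5, LamP64.sy_w_one_add, h6, map_one]

lemma sc_unit_N3 (hN : L3 N) {u : Eis} (hu : IsUnit u) (t : Eis) :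
    sc u (1 + N3 hN * t) = 1 := by
  have hg := gp_N3 hN t
  have hp : ∀ k, sc (w ^ k) (1 + N3 hN * t) = 1 := by
    intro k
    induction k with
    | zero => rw [pow_zero]; exact sc_one_left hN hg
    | succ k ih => rw [pow_succ, (apiN hN).mul_left _ _ _ hg, ih, sc_w_N3, one_mul]
  obtain ⟨k, -, rfl | rfl⟩ := isUnit_exists hu
  · exact hp k
  · rw [sc_neg hg.1]; exact hp k

/-! ### the law -/

lemma exists_pr {z : Eis} (hz : z ≠ 0) (hu : ¬ IsUnit z) : ∃ p, Prime p ∧ p ∣ z := by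
  obtain ⟨p, hp, hd⟩ := WfDvdMonoid.exists_irreducible_factor hu hz
  exact ⟨p, hp.prime, hd⟩

/-- the conditions on `ξ` -/
structure XH (N : Eis) (s : ℂ) (θ ξ : Eis → ℂ) : Prop where
  u : XU s ξ
  good : ∀ j, Gp N j → ξ j = θ j ^ 3
  zero : ∀ p, Prime p → p ∣ N → ξ p = 0

/-- **the support condition**: the symmetrised Gauss sums live at `± R0`. -/
structure Supp (N x : Eis) (s : ℂ) (θ : Eis → ℂ) (R0 : Eis) (w0 : ℂ) : Prop where
  sp : Sp N R0
  van : ∀ hS, Sp N hS → hS ≠ R0 → hS ≠ -R0 →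
    GS N (tS θ hS) (-(x * hS)) + s * GS N (tS θ hS) (x * hS) = 0
  val : GS N (tS θ R0) (-(x * R0)) + s * GS N (tS θ R0) (x * R0) = 2 * w0

variable {x R0 : Eis} {θ : Eis → ℂ} {w0 : ℂ}

lemma tS_neg {z c : Eis} (hc : Gp N c) : tS θ (-z) c = tS θ z c := by
  unfold tS; rw [sc_neg hc.1]

lemma dS_neg {z c : Eis} (hc : Gp N c) : dS θ (-z) c = dS θ z c := by
  unfold dS; rw [sc_neg hc.1]

/-- the law at one row -/
theorem law_rowH (hN : L3 N) (hs : s = 1 ∨ s = -1) (H : GCh N θ) (S : Supp N x s θ R0 w0)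
    (X : XH N s θ ξ) {g : SLE} (hg : Gp N (br g).1) {h : Eis} (hh : h ≠ 0) :
    SA N (rowH N x θ) g h + s * SA N (rowH N x θ) g (-h) =
      2 * ((nm h : ℂ) * (baseW 3 R0 s w0 ξ h * rowH N x (dS θ R0) (br g))) := by
  classical
  have hss : s * s = 1 := by rcases hs with h | h <;> rw [h] <;> ring
  obtain ⟨hS, h', rfl, D⟩ := exists_dc hN hh
  have hdet : g 0 0 * g 1 1 - g 0 1 * g 1 0 = 1 := det_eq' g
  have e1 : SA N (rowH N x θ) g (hS * h') =
      (nm hS * sumMod h' (fun y => sc y h') * GS N (tS θ hS) (-(x * (hS * h')))) *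
        rowH N x (dS θ hS) (br g) :=
    sum_rowH hN H D (A := g 0 0) (B := g 0 1) (c0 := g 1 0) (d0 := g 1 1) hdet hg
  have e2 : SA N (rowH N x θ) g (-(hS * h')) =
      (nm hS * sumMod h' (fun y => sc y h') * GS N (tS θ hS) (x * (hS * h'))) *
        rowH N x (dS θ hS) (br g) := by
    have h1 := sum_rowH hN (x := x) H D.neg (A := g 0 0) (B := g 0 1) (c0 := g 1 0) (d0 := g 1 1)
      hdet hg
    rw [nm_neg, GS_ext (θ' := tS θ (-hS)) (θ := tS θ hS) (fun c hc => tS_neg hc),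
      rowH_ext (θ' := dS θ (-hS)) (θ := dS θ hS) (fun c hc => dS_neg hc)] at h1
    have h2 : -(x * (-hS * h')) = x * (hS * h') := by ring
    rw [h2] at h1
    have h3 : -(hS * h') = -hS * h' := by ring
    unfold SA
    rw [h3]
    exact h1
  rw [e1, e2]
  by_cases hj : ∃ j, Gp N j ∧ h' = j ^ 3
  · obtain ⟨j, hj, rfl⟩ := hj
    have HT := gch_tS hN H D.sp
    have f1 : GS N (tS θ hS) (-(x * (hS * j ^ 3))) = θ j ^ 3 * GS N (tS θ hS) (-(x * hS)) := by
      rw [show -(x * (hS * j ^ 3)) = -(x * hS) * j ^ 3 by ring, GS_mul hN HT _ (hj.pow 3),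
        HT.pow hj 3]
      congr 1
      unfold tS
      rw [mul_pow, sc_cube hj D.sp, mul_one]
    have f2 : GS N (tS θ hS) (x * (hS * j ^ 3)) = θ j ^ 3 * GS N (tS θ hS) (x * hS) := by
      rw [show x * (hS * j ^ 3) = (x * hS) * j ^ 3 by ring, GS_mul hN HT _ (hj.pow 3),
        HT.pow hj 3]
      congr 1
      unfold tS
      rw [mul_pow, sc_cube hj D.sp, mul_one]
    rw [f1, f2, sum_sc_cube hj]
    by_cases c1 : hS = R0
    · subst c1
      rw [base3_val X.u S.sp.ne hj.ne, X.good j hj, nm_mul]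
      push_cast
      linear_combination (nm hS * (nm (j ^ 3) : ℂ) * (PL j : ℂ) * θ j ^ 3 *
        rowH N x (dS θ hS) (br g)) * S.val
    · by_cases c2 : hS = -R0
      · have c2' : R0 = -hS := by rw [c2, neg_neg]
        have v := S.val
        rw [c2', GS_ext (θ' := tS θ (-hS)) (θ := tS θ hS) (fun c hc => tS_neg hc),
          show -(x * -hS) = x * hS by ring, GS_ext (θ' := tS θ (-hS)) (θ := tS θ hS)
            (fun c hc => tS_neg hc), show x * -hS = -(x * hS) by ring] at v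
        have hb : baseW 3 R0 s w0 ξ (hS * j ^ 3) = s * (w0 * (ξ j * (PL j : ℂ))) := by
          have : hS * j ^ 3 = -(R0 * j ^ 3) := by rw [c2]; ring
          rw [this, base3_par X.u S.sp.ne, base3_val X.u S.sp.ne hj.ne]
        rw [hb, X.good j hj, nm_mul, c2', rowH_ext (θ' := dS θ (-hS)) (θ := dS θ hS)
          (fun c hc => dS_neg hc)]
        push_cast
        linear_combination (s * nm hS * (nm (j ^ 3) : ℂ) * (PL j : ℂ) * θ j ^ 3 *
          rowH N x (dS θ hS) (br g)) * v - (nm hS * (nm (j ^ 3) : ℂ) * (PL j : ℂ) * θ j ^ 3 *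
          rowH N x (dS θ hS) (br g) * GS N (tS θ hS) (-(x * hS))) * hss
      · have hb : baseW 3 R0 s w0 ξ (hS * j ^ 3) = 0 := by
          by_contra hne
          have hex : ∃ i, i ≠ 0 ∧ hS * j ^ 3 = R0 * i ^ 3 := by
            by_contra hno
            exact hne (base3_not hno)
          obtain ⟨i, hi, he⟩ := hex
          obtain ⟨iS, i', hii, E⟩ := exists_dc hN hi
          obtain ⟨h1, h2⟩ := dc_unique D ⟨S.sp.mul (sp_pow E.sp 3), E.gp.pow 3⟩
            (show hS * j ^ 3 = R0 * iS ^ 3 * i' ^ 3 by rw [he, hii]; ring)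
          by_cases hu : IsUnit iS
          · rcases unit3 hu with h3 | h3
            · exact c1 (by rw [h1, h3, mul_one])
            · exact c2 (by rw [h1, h3]; ring)
          · obtain ⟨p, hp, hpi⟩ := exists_pr E.sp.ne hu
            apply hne
            rw [he, base3_val X.u S.sp.ne hi]
            have : ξ i = 0 := by
              obtain ⟨t, ht⟩ := hpi
              rw [hii, ht, X.u.mul, X.u.mul, X.zero p hp (E.sp.pr p hp ⟨t, ht⟩)]
              ring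
            rw [this]; ring
        have v := S.van hS D.sp c1 c2
        rw [hb]
        linear_combination (nm hS * ((nm (j ^ 3) * PL j : ℝ) : ℂ) * θ j ^ 3 *
          rowH N x (dS θ hS) (br g)) * v
  · rw [sum_sc_zero D.gp hj]
    have hb : baseW 3 R0 s w0 ξ (hS * h') = 0 := by
      apply base3_not
      rintro ⟨i, hi, he⟩
      obtain ⟨iS, i', hii, E⟩ := exists_dc hN hi
      obtain ⟨h1, h2⟩ := dc_unique D ⟨S.sp.mul (sp_pow E.sp 3), E.gp.pow 3⟩
        (show hS * h' = R0 * iS ^ 3 * i' ^ 3 by rw [he, hii]; ring)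
      exact hj ⟨i', E.gp, h2⟩
    rw [hb]
    ring

end Crest.Agent.R017.Hi681
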