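import Crest.Agent.R017.Hi3_681
import Crest.Agent.R017.XiI1_590

/-!
# Row 17, twisted cubic F1, the part `ψ_λ` of high conductor (helper681), 4

* `Ex N θ` : `N` is the exact conductor of `θ` (and `θ³` ramified at the `p ∥ N`)
* `exists_xi3` : the primitive character `ξ` inducing `θ(·)³`, parity `s`, `9 N(m) = N(N)`
* `Ex.pu` : all twists of `θ` by cubic symbols of `S`-parts are ramified everywhere
-/

set_option autoImplicit false

noncomputable section

open Complex
open scoped ComplexConjugate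

namespace Crest.Agent.R017.Hi681

open Crest.Agent.R012 Crest.Agent.R012.Eis Crest.Agent.R012.Gauss880 Crest.Agent.R017.Loc266
open Crest.Agent.R017.Kub664 Crest.Agent.R017.Orth681 Crest.Agent.R017.Glue681
open Crest.Agent.R017.Xn590
open Crest.Agent.R017.Rw266 (cop_congr)

variable {N m : Eis} {s : ℂ} {θ ξ : Eis → ℂ}

/-! ### the extension of `θ³` to all classes -/

/-- the sign at `lam` -/
def sg (s : ℂ) (x : Eis) : ℂ := if resL x = 1 then 1 else s

lemma zmod3_cases (t : ZMod 3) (h : t ≠ 0) : t = 1 ∨ t = -1 := by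
  revert h; revert t; decide

lemma sg_mul (hs : s = 1 ∨ s = -1) {x y : Eis} (hx : ¬ lam ∣ x) (hy : ¬ lam ∣ y) :
    sg s (x * y) = sg s x * sg s y := by
  have hss : s * s = 1 := by rcases hs with h | h <;> rw [h] <;> ring
  have h1 : resL x ≠ 0 := fun h => hx (resL_eq_zero_iff.mp h)
  have h2 : resL y ≠ 0 := fun h => hy (resL_eq_zero_iff.mp h)
  have h3 : (-1 : ZMod 3) ≠ 1 := by decide
  unfold sg
  rw [map_mul]
  rcases zmod3_cases _ h1 with h | h <;> rcases zmod3_cases _ h2 with h' | h' <;>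
    rw [h, h'] <;> simp [h3, hss]

lemma sg_prim {x : Eis} (hx : IsPrim x) : sg s x = 1 := by
  unfold sg
  have h1 : lam ∣ x - 1 := lam_dvd_three.trans hx
  have h2 : resL (x - 1) = 0 := resL_eq_zero_iff.mpr h1
  rw [map_sub, map_one, sub_eq_zero] at h2
  rw [if_pos h2]

lemma sg_congr {x y : Eis} (h : lam ∣ x - y) : sg s x = sg s y := by
  unfold sg
  have h2 : resL (x - y) = 0 := resL_eq_zero_iff.mpr h
  rw [map_sub, sub_eq_zero] at h2
  rw [h2]

lemma sg_neg_one : sg s (-1) = s := by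
  unfold sg
  rw [map_neg, map_one, if_neg (by decide)]

lemma sg_w : sg s w = 1 := by
  have h : lam ∣ w - 1 := ⟨-1, by unfold lam; ring⟩
  rw [sg_congr h, sg_prim isPrim_one]

lemma not_lam_of_cop (hN : L3 N) {a : Eis} (ha : IsCoprime a N) : ¬ lam ∣ a := by
  intro h
  have h4 : IsCoprime lam lam :=
    IsCoprime.of_isCoprime_of_dvd_left (IsCoprime.of_isCoprime_of_dvd_right ha (lam_dvd_N hN)) h
  exact prime_lam.not_isUnit (isCoprime_self.mp h4)

lemma gp_prim (hN : L3 N) {a : Eis} (ha : IsCoprime a N) : Gp N (prim a) := by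
  refine ⟨prim_isPrim (not_lam_of_cop hN ha), ?_⟩
  obtain ⟨u, hu⟩ := prim_associated a
  rw [← hu]
  exact ha.mul_left (isCoprime_of_isUnit u.isUnit N)

open Classical in
/-- `ε(a) θ(prim a)³` -/
def cx (N : Eis) (s : ℂ) (θ : Eis → ℂ) (a : Eis) : ℂ :=
  if IsCoprime a N then sg s a * θ (prim a) ^ 3 else 0

lemma prim_add (hN : L3 N) {a : Eis} (ha : IsCoprime a N) (t : Eis) :
    N ∣ prim (a + N * t) - prim a := by
  have hl := not_lam_of_cop hN ha
  obtain ⟨u, hu⟩ := prim_associated a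
  have h1 : IsPrim (prim a + N * t * u) := by
    obtain ⟨r, hr⟩ := hN.d3
    rw [hr, mul_assoc, mul_assoc]
    exact isPrim_add_mul (prim_isPrim hl) _
  have h2 : prim (a + N * t) = prim a + N * t * u := by
    rw [← h1.prim_eq]
    have h3 : ¬ lam ∣ a + N * t := by
      intro h
      have := dvd_sub h ((lam_dvd_N hN).mul_right t)
      rw [add_sub_cancel_right] at this
      exact hl this
    refine prim_eq_of_associated h3 ⟨u, ?_⟩
    rw [← hu]; ring
  rw [h2]
  exact ⟨t * u, by ring⟩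

theorem cx_isCh (hN : L3 N) (hs : s = 1 ∨ s = -1) (H : GCh N θ) : IsCh N (cx N s θ) where
  one := by
    unfold cx
    rw [if_pos isCoprime_one_left, sg_prim isPrim_one, isPrim_one.prim_eq, H.one]
    norm_num
  mul a b := by
    classical
    unfold cx
    by_cases ha : IsCoprime a N
    · by_cases hb : IsCoprime b N
      · rw [if_pos (ha.mul_left hb), if_pos ha, if_pos hb,
          sg_mul hs (not_lam_of_cop hN ha) (not_lam_of_cop hN hb),
          prim_mul (not_lam_of_cop hN ha) (not_lam_of_cop hN hb),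
          H.mul _ _ (gp_prim hN ha) (gp_prim hN hb)]
        ring
      · rw [if_neg (fun h => hb h.of_mul_left_right), if_neg hb, mul_zero]
    · rw [if_neg (fun h => ha h.of_mul_left_left), if_neg ha, zero_mul]
  per a t := by
    classical
    unfold cx
    have hd : N ∣ (a + N * t) - a := ⟨t, by ring⟩
    by_cases ha : IsCoprime a N
    · have ha' := (cop_congr hd).mpr ha
      rw [if_pos ha, if_pos ha', sg_congr ((lam_dvd_N hN).trans hd),
        H.per _ _ (gp_prim hN ha') (gp_prim hN ha) (prim_add hN ha t)]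
    · rw [if_neg ha, if_neg (fun h => ha ((cop_congr hd).mp h))]
  zero a ha := by
    unfold cx
    rw [if_neg ha]

lemma cx_gp {a : Eis} (ha : Gp N a) : cx N s θ a = θ a ^ 3 := by
  unfold cx
  rw [if_pos ha.2, sg_prim ha.1, ha.1.prim_eq, one_mul]

lemma cx_neg_one (H : GCh N θ) : cx N s θ (-1) = s := by
  unfold cx
  have h1 : prim (-1) = 1 := by
    have h2 : prim (-1) = prim 1 := by
      refine prim_eq_of_associated ?_ ⟨-1, by simp⟩
      intro h
      exact prime_lam.not_isUnit (isUnit_of_dvd_unit h isUnit_one.neg)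
    rw [h2, isPrim_one.prim_eq]
  rw [if_pos (isCoprime_of_isUnit isUnit_one.neg N), sg_neg_one, h1, H.one]
  ring

lemma cx_w (H : GCh N θ) : cx N s θ w = 1 := by
  unfold cx
  have h1 : prim w = 1 := by
    have h2 : prim w = prim 1 := by
      refine prim_eq_of_associated ?_ (associated_one_iff_isUnit.mpr isUnit_w)
      intro h
      exact prime_lam.not_isUnit (isUnit_of_dvd_unit h isUnit_w)
    rw [h2, isPrim_one.prim_eq]
  rw [if_pos (isCoprime_of_isUnit isUnit_w N), sg_w, h1, H.one]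
  ring

/-! ### the primitive character -/

/-- Poisson summation for primitive characters -/
theorem xiP_of_prm (hm : m ≠ 0) (h : IsCh m ξ) (hp : Prm m ξ) :
    XiP ξ (toC sq3 * toC m) (((2 / (Real.sqrt 3 * nm m) : ℝ) : ℂ) * gl ξ 1 m) where
  mul := h.mul
  le1 a := h.norm_le_one hm a
  κ0 := mul_ne_zero (toC_ne_zero sq3_ne_zero) (toC_ne_zero hm)
  c0 := by
    have hm' : nm m ≠ 0 := (nm_pos.mpr hm).ne'
    have hτ : gl ξ 1 m ≠ 0 := by
      intro h0
      have := norm_gl_sq hm h hp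
      rw [h0] at this
      simp at this
      exact hm' (by exact_mod_cast this.symm)
    refine mul_ne_zero ?_ hτ
    have h3 : Real.sqrt 3 ≠ 0 := by positivity
    have h4 : (nm m : ℝ) ≠ 0 := by exact_mod_cast hm'
    exact_mod_cast div_ne_zero two_ne_zero (mul_ne_zero h3 h4)
  pois F := by
    rw [Tau671.poisson_pf (Tau671.PF.of_schwartz F) hm h.per, mul_assoc]
    congr 1
    rw [← tsum_mul_left]
    refine tsum_congr fun k => ?_
    have e : sumMod m (fun a => ξ a * eC (toC k * toC a / (toC sq3 * toC m))) = gl ξ k m := rfl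
    rw [e, gl_prim hm h hp k]
    ring

lemma dvd_of_prp (hm : m ≠ 0) (hch : IsCh m ξ) (h : Prp m ξ) {n : Eis}
    (hn : ∀ a, n ∣ a - 1 → ξ a = 1) : m ∣ n := by
  set g := EuclideanDomain.gcd n m with hg
  have hgn : g ∣ n := EuclideanDomain.gcd_dvd_left n m
  have hgm : g ∣ m := EuclideanDomain.gcd_dvd_right n m
  have hb : g = n * EuclideanDomain.gcdA n m + m * EuclideanDomain.gcdB n m :=
    EuclideanDomain.gcd_eq_gcd_ab n m
  obtain ⟨k, hk⟩ := hgm
  have hk0 : k ≠ 0 := by rintro rfl; exact hm (by rw [hk, mul_zero])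
  by_cases hu : IsUnit k
  · obtain ⟨v, hv⟩ := hu.exists_right_inv
    refine Dvd.dvd.trans ⟨v, ?_⟩ hgn
    rw [hk, mul_assoc, hv, mul_one]
  · exfalso
    obtain ⟨p, hp, k', hk'⟩ := exists_pr hk0 hu
    have hpm : p ∣ m := ⟨g * k', by rw [hk, hk']; ring⟩
    obtain ⟨u, hu, h1, h2⟩ := h p hp hpm
    obtain ⟨z, hz⟩ := h1
    have h3 : u - 1 = g * (k' * z) := by
      apply mul_right_cancel₀ hp.ne_zero
      rw [hz, hk, hk']
      ring
    set r := k' * z with hr
    apply h2
    have e1 : ξ (1 + n * EuclideanDomain.gcdA n m * r) = 1 :=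
      hn _ ⟨EuclideanDomain.gcdA n m * r, by ring⟩
    rw [← e1]
    refine hch.per.congr ⟨EuclideanDomain.gcdB n m * r, ?_⟩
    linear_combination h3 + r * hb

/-- `N` is the exact conductor of `θ`, `θ³` is ramified at all `p ∥ N` -/
def Ex (N : Eis) (θ : Eis → ℂ) : Prop :=
  ∀ p, Prime p → p ∣ N → ∃ u, Gp N u ∧ N ∣ p * (u - 1) ∧ θ u ≠ 1 ∧ (p ^ 2 ∣ N ∨ θ u ^ 3 ≠ 1)

lemma p_dvd_N3 (hN : L3 N) {p : Eis} (hp : Prime p) (hpN : p ∣ N) : 3 * p ∣ N3 hN := by
  obtain ⟨t, ht⟩ := hN.pr p hp hpN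
  refine ⟨t, ?_⟩
  have h1 : (3 : Eis) * N3 hN = 3 * (3 * p * t) := by rw [← N3_spec hN, ht]; ring
  exact mul_left_cancel₀ three_ne_zero' h1

lemma cx_N3 (hN : L3 N) (H : GCh N θ) {a : Eis} (ha : N3 hN ∣ a - 1) :
    IsCoprime a N ∧ cx N s θ a = 1 := by
  obtain ⟨t, ht⟩ := ha
  have e : a = 1 + N3 hN * t := by linear_combination ht
  have hg : Gp N a := by rw [e]; exact gp_N3 hN t
  refine ⟨hg.2, ?_⟩
  rw [cx_gp hg, ← H.pow hg 3, H.per _ 1 (hg.pow 3) gp_one ?_, H.one]
  obtain ⟨r, hr⟩ := N_dvd_sq hN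
  have h3 := N3_spec hN
  refine ⟨t + 3 * r * t ^ 2 + r * N3 hN * t ^ 3, ?_⟩
  rw [e]
  have h4 : (1 + N3 hN * t) ^ 3 - 1 = 3 * N3 hN * t + 3 * (N3 hN * N3 hN) * t ^ 2 +
    (N3 hN * N3 hN) * N3 hN * t ^ 3 := by ring
  rw [h4, hr]
  linear_combination -t * h3

theorem exists_xi3 (hN : L3 N) (hs : s = 1 ∨ s = -1) (H : GCh N θ) (E : Ex N θ) :
    ∃ (m : Eis) (ξ : Eis → ℂ) (c : ℂ), m ≠ 0 ∧ XiP ξ (toC sq3 * toC m) c ∧ XH N s θ ξ ∧
      9 * nm m = nm N ∧ ξ 0 = 0 := by
  obtain ⟨m, ξ, hmN, hm, h1, h2, h3⟩ := XiI590.exists_prim hN.ne (cx_isCh hN hs H)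
  have hP := xiP_of_prm hm h1 h2
  -- `m ∣ N / 3`
  have hmN3 : m ∣ N3 hN := by
    refine dvd_of_prp hm h1 h2.prp fun a ha => ?_
    obtain ⟨k1, k2⟩ := cx_N3 (s := s) hN H ha
    rw [h3 a k1, k2]
  obtain ⟨k, hk⟩ := hmN3
  have hN30 : N3 hN ≠ 0 := by
    intro h0
    exact hN.ne (by rw [N3_spec hN, h0, mul_zero])
  have hk0 : k ≠ 0 := by rintro rfl; exact hN30 (by rw [hk, mul_zero])
  have hku : IsUnit k := by
    by_contra hku
    obtain ⟨p, hp, k', hk'⟩ := exists_pr hk0 hku
    have hpN : p ∣ N := ⟨3 * m * k', by rw [N3_spec hN, hk, hk']; ring⟩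
    obtain ⟨u, hu, ⟨v, hv⟩, hu1, hu2⟩ := E p hp hpN
    have hNe : N = 3 * p * (m * k') := by rw [N3_spec hN, hk, hk']; ring
    have e1 : u - 1 = 3 * (m * k') * v := by
      apply mul_left_cancel₀ hp.ne_zero
      rw [hv]
      linear_combination v * hNe
    by_cases hc3 : θ u ^ 3 = 1
    · have hp2 : p ^ 2 ∣ N := hu2.resolve_right (fun h => h hc3)
      set K := m * k' with hK
      have hK3 : (3 : Eis) ∣ K := by
        obtain ⟨t, ht⟩ := p_dvd_N3 hN hp hpN
        refine ⟨t, ?_⟩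
        apply mul_left_cancel₀ hp.ne_zero
        rw [hk, hk'] at ht
        rw [hK]
        linear_combination ht
      have hKp : p ∣ K := by
        by_cases hp3 : p ∣ 3
        · exact hp3.trans hK3
        · obtain ⟨t, ht⟩ := hp2
          have h5 : p ∣ 3 * K := ⟨t, by
            apply mul_left_cancel₀ hp.ne_zero
            linear_combination ht - hNe⟩
          exact (hp.dvd_or_dvd h5).resolve_left hp3
      obtain ⟨a, ha⟩ := hK3
      obtain ⟨b, hb⟩ := hKp
      -- `N ∣ 3 K²`, `N ∣ K³`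
      have hc1 : Gp N (1 + K * v) := by
        refine ⟨?_, ?_⟩
        · unfold IsPrim
          exact ⟨a * v, by rw [ha]; ring⟩
        · have hc2 : IsCoprime (1 + K * v) K := ⟨1, -v, by ring⟩
          refine IsCoprime.of_isCoprime_of_dvd_right (hc2.pow_right (n := 3)) ⟨a * b, ?_⟩
          rw [hNe]
          have : K ^ 3 = K * K * K := by ring
          rw [this]
          nth_rw 1 [ha]
          nth_rw 1 [hb]
          ring
      have e2 : θ (1 + K * v) ^ 3 = θ u := by
        rw [← H.pow hc1 3]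
        refine H.per _ _ (hc1.pow 3) hu ?_
        refine ⟨b * v ^ 2 + a * b * v ^ 3, ?_⟩
        have e3 : (1 + K * v) ^ 3 - u = 3 * K ^ 2 * v ^ 2 + K ^ 3 * v ^ 3 := by
          linear_combination -e1
        rw [e3]
        have f1 : 3 * K ^ 2 = N * b := by
          rw [hNe]
          have : 3 * K ^ 2 = 3 * K * K := by ring
          rw [this]
          nth_rw 2 [hb]
          ring
        have f2 : K ^ 3 = N * (a * b) := by
          rw [hNe]
          have : K ^ 3 = K * K * K := by ring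
          rw [this]
          nth_rw 1 [ha]
          nth_rw 1 [hb]
          ring
        rw [f1, f2]
        ring
      have e3 : ξ (1 + K * v) = 1 := by
        rw [← h1.one]
        exact h1.per.congr ⟨k' * v, by rw [hK]; ring⟩
      rw [h3 _ hc1.2, cx_gp hc1, e2] at e3
      exact hu1 e3
    · apply hc3
      rw [← cx_gp (s := s) hu, ← h3 u hu.2, ← h1.one]
      exact h1.per.congr ⟨3 * k' * v, by rw [e1]; ring⟩
  refine ⟨m, ξ, _, hm, hP, ⟨⟨h1.mul, ?_, ?_, fun a => h1.norm_le_one hm a⟩, fun j hj => ?_,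
    fun p hp hpN => ?_⟩, ?_, ?_⟩
  · rw [h3 _ (isCoprime_of_isUnit isUnit_one.neg N), cx_neg_one H]
  · rw [h3 _ (isCoprime_of_isUnit isUnit_w N), cx_w H]
  · rw [h3 j hj.2, cx_gp hj]
  · apply h1.zero
    intro hc
    have h5 : p ∣ m * k := by rw [← hk]; exact Dvd.dvd.trans ⟨3, by ring⟩ (p_dvd_N3 hN hp hpN)
    have h6 : p ∣ m := (hp.dvd_or_dvd h5).resolve_right
      fun h => hp.not_isUnit (isUnit_of_dvd_unit h hku)
    have h7 : IsCoprime p p := IsCoprime.of_isCoprime_of_dvd_right hc h6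
    exact hp.not_isUnit (isCoprime_self.mp h7)
  · have h5 : nm N = nm (3 : Eis) * (nm m * nm k) := by
      conv_lhs => rw [N3_spec hN, hk]
      rw [nm_mul, nm_mul]
    have h6 : nm (3 : Eis) = 9 := by decide
    rw [h5, isUnit_iff.mp hku, h6]
    ring
  · apply h1.zero
    rw [isCoprime_zero_left]
    intro hu
    have h5 : lam ∣ m * k := by
      rw [← hk]
      exact Dvd.dvd.trans ⟨3, by ring⟩ (p_dvd_N3 hN prime_lam (lam_dvd_N hN))
    have h6 : lam ∣ m := (prime_lam.dvd_or_dvd h5).resolve_right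
      fun h => prime_lam.not_isUnit (isUnit_of_dvd_unit h hku)
    exact prime_lam.not_isUnit (isUnit_of_dvd_unit h6 hu)

/-! ### all twists are ramified -/

/-- all twists by symbols are ramified -/
def Pu (N : Eis) (θ : Eis → ℂ) : Prop := ∀ z, Sp N z → Rm N (tS θ z)

lemma sc_eq_one (hN : L3 N) {z u : Eis} (hz : Sp N z) (hu : Gp N u) (h9 : (9 : Eis) ∣ u - 1)
    (hq : ∀ q, Prime q → q ∣ N → ¬ q ∣ 3 → q ∣ u - 1) : sc z u = 1 := by
  obtain ⟨hz0, hp⟩ := hz
  have key : ∀ x, x ≠ 0 → (9 : Eis) * x ∣ u - 1 → sc x u = 1 := by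
    intro x hx hd
    have h1 := api3.conj.period x u 1 hx trivial (g3p hu.1) (g3p isPrim_one) hd
    have h2 : conj (sy x 1) = 1 := by rw [Sym645.sy_unit_right x isUnit_one, map_one]
    exact h1.trans h2
  induction z using UniqueFactorizationMonoid.induction_on_prime with
  | h₁ => exact absurd rfl hz0
  | h₂ u' hu' =>
    refine key u' hz0 ?_
    obtain ⟨v, hv⟩ := hu'.exists_right_inv
    have h1 : (9 : Eis) * u' ∣ 9 := ⟨v, by linear_combination -9 * hv⟩
    exact h1.trans h9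
  | h₃ a p ha hpp ih =>
    have hpN : p ∣ N := hp p hpp (dvd_mul_right p a)
    have h1 := ih ha (fun q hq hqa => hp q hq (hqa.mul_left p))
    rw [(apiN hN).mul_left p a u hu, h1, mul_one]
    by_cases hp3 : p ∣ 3
    · -- `p ~ lam`
      have hpl : p ∣ lam := by
        rw [three_eq] at hp3
        rcases hpp.dvd_or_dvd hp3 with h | h
        · exact absurd (isUnit_of_dvd_unit h (isUnit_w.pow 2).neg) hpp.not_isUnit
        · exact hpp.dvd_of_dvd_pow h
      obtain ⟨v, hv⟩ := (hpp.associated_of_dvd prime_lam hpl).symm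
      have e1 : sc p u = sc lam u * sc v u := by
        rw [← hv]; exact (apiN hN).mul_left _ _ u hu
      have e2 : sc (v : Eis) u = 1 := by
        refine key v (Units.ne_zero v) ?_
        obtain ⟨v', hv'⟩ := v.isUnit.exists_right_inv
        have h1 : (9 : Eis) * v ∣ 9 := ⟨v', by linear_combination -9 * hv'⟩
        exact h1.trans h9
      have e3 : sc lam u = 1 := by
        unfold sc
        rw [Sym645.sy_lam_congr hu.1 isPrim_one h9, Sym645.sy_unit_right _ isUnit_one, map_one]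
      rw [e1, e2, e3, one_mul]
    · refine key p hpp.ne_zero ?_
      have h5 : IsCoprime p 9 := by
        have h6 : IsCoprime p 3 := (hpp.irreducible.coprime_iff_not_dvd).mpr hp3
        have h7 : (9 : Eis) = 3 * 3 := by norm_num
        rw [h7]
        exact h6.mul_right h6
      exact h5.symm.mul_dvd h9 (hq p hpp hpN hp3)

theorem Ex.pu (hN : L3 N) (H : GCh N θ) (E : Ex N θ) : Pu N θ := by
  intro z hz
  refine ⟨gch_tS hN H hz, fun p hp hpN => ?_⟩
  obtain ⟨u, hu, hd, hu1, hu2⟩ := E p hp hpN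
  refine ⟨u, hu, hd, ?_⟩
  unfold tS
  by_cases hc3 : θ u ^ 3 = 1
  · have hp2 : p ^ 2 ∣ N := hu2.resolve_right (fun h => h hc3)
    have h9 : (9 : Eis) ∣ u - 1 := by
      obtain ⟨t, ht⟩ := (hN.pr p hp hpN).trans hd
      refine ⟨t, ?_⟩
      apply mul_left_cancel₀ hp.ne_zero
      linear_combination ht
    have hq : ∀ q, Prime q → q ∣ N → ¬ q ∣ 3 → q ∣ u - 1 := by
      intro q hq hqN _
      by_cases hqp : q ∣ p
      · obtain ⟨v, hv⟩ := hq.associated_of_dvd hp hqp
        obtain ⟨t, ht⟩ := hp2.trans hd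
        refine ⟨v * t, ?_⟩
        apply mul_left_cancel₀ hp.ne_zero
        rw [← hv] at ht ⊢
        linear_combination ht
      · exact (hq.dvd_or_dvd (hqN.trans hd)).resolve_left hqp
    rw [sc_eq_one hN hz hu h9 hq, mul_one]
    exact hu1
  · intro h
    apply hc3
    have h5 := congrArg (· ^ 3) h
    simp only [one_pow] at h5
    rw [mul_pow, sc_cube hu hz, mul_one] at h5
    exact h5

end Crest.Agent.R017.Hi681
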