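import Crest.Agent.R017.Hi4_681
import Crest.Agent.R017.XnAll_960
import Crest.Agent.R017.Coef2_92

/-!
# Row 17, twisted cubic F1, the part `ψ_λ` of high conductor (helper681), 5

* `supp_of` : support at one unit
* `pair_base3` : the base pair, exponent 3
* `ec_C` : the identity of Eisenstein series
* `SC_rowH` : Fourier coefficients
* `fe_C` : the identity of the coefficient series
-/

set_option autoImplicit false

noncomputable section

open Complex
open scoped ComplexConjugate SchwartzMap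

namespace Crest.Agent.R017.Hi681

open Crest.Agent.R012 Crest.Agent.R012.Eis Crest.Agent.R012.Gauss880 Crest.Agent.R017.Loc266
open Crest.Agent.R012.AU681 Crest.Agent.R012.Parseval499 Crest.Agent.R012.K695
open Crest.Agent.R017.Kub664 Crest.Agent.R017.Orth681 Crest.Agent.R017.Glue681
open Crest.Agent.R017.Xn590 Crest.Agent.R017.Coef92
open Crest.Agent.R017.F1 (PL scl)
open Crest.Agent.R017.Rw266 (ivN ivN_spec iv_unique ivN_congr ivN_mul ea_congr_right cop_congr)

variable {N m x : Eis} {s : ℂ} {θ ξ : Eis → ℂ}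

/-! ### units modulo 3 -/

lemma unit_eq_of_dvd {a b : Eis} (ha : IsUnit a) (hb : IsUnit b) (h : (3 : Eis) ∣ a - b) :
    a = b := by
  obtain ⟨b', hb'⟩ := hb.exists_right_inv
  have hu : IsUnit (a * b') := ha.mul (isUnit_of_dvd_one ⟨b, by rw [mul_comm]; exact hb'.symm⟩)
  have h1 : IsPrim (a * b') := by
    unfold IsPrim
    have : a * b' - 1 = (a - b) * b' := by linear_combination hb'
    rw [this]
    exact h.mul_right _
  have h2 : a * b' = 1 := h1.eq_of_associated isPrim_one' (associated_one_iff_isUnit.mpr hu)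
  linear_combination b * h2 - a * hb'

lemma cop3 (hN : L3 N) (hx : IsCoprime x N) : IsCoprime (3 : Eis) x :=
  (IsCoprime.of_isCoprime_of_dvd_right hx hN.d3).symm

lemma not_three_two : ¬ (3 : Eis) ∣ 2 := by
  intro h
  rw [Eis.three_dvd_iff] at h
  have h1 : (2 : Eis).re = 2 := rfl
  rw [h1] at h
  omega

/-- **support at one unit** -/
theorem supp_of (hN : L3 N) (H : GCh N θ) (P : Pu N θ) (hx : IsCoprime x N) {u1 : Eis}
    (hu : IsUnit u1) (hk : Kc hN θ (-(x * u1))) :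
    Supp N x s θ u1 (GS N (tS θ u1) (-(x * u1)) / 2) := by
  have key : ∀ hS, IsUnit hS → ∀ e : Eis, (e = 1 ∨ e = -1) →
      GS N (tS θ hS) (-(e * x * hS)) ≠ 0 → hS = e * u1 := by
    intro hS hu' e he hne
    have h1 : Kc hN (tS θ hS) (-(e * x * hS)) := kc_of_ne hN (gch_tS hN H (sp_unit hu')) hne
    have h2 : Kc hN θ (-(e * x * hS)) := by
      refine kc_ext hN h1 fun t => ?_
      unfold tS
      rw [sc_unit_N3 hN hu', mul_one]
    have h3 := kc_unique hN hk h2
    have h4 : (3 : Eis) ∣ x * (e * hS - u1) := by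
      have : x * (e * hS - u1) = -(x * u1) - -(e * x * hS) := by ring
      rw [this]; exact h3
    have h5 : (3 : Eis) ∣ e * hS - u1 := (cop3 hN hx).dvd_of_dvd_mul_left h4
    have h6 : e * hS = u1 := by
      refine unit_eq_of_dvd ?_ hu h5
      rcases he with rfl | rfl
      · rwa [one_mul]
      · rw [neg_one_mul]; exact hu'.neg
    rw [← h6]
    rcases he with rfl | rfl <;> ring
  refine ⟨sp_unit hu, fun hS hSp h1 h2 => ?_, ?_⟩
  · by_cases hu' : IsUnit hS
    · have e1 : GS N (tS θ hS) (-(x * hS)) = 0 := by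
        by_contra hne
        apply h1
        have := key hS hu' 1 (Or.inl rfl) (by rwa [one_mul])
        rw [this, one_mul]
      have e2 : GS N (tS θ hS) (x * hS) = 0 := by
        by_contra hne
        apply h2
        have := key hS hu' (-1) (Or.inr rfl) (by
          rwa [show -(-1 * x * hS) = x * hS by ring])
        rw [this, neg_one_mul]
      rw [e1, e2, mul_zero, add_zero]
    · obtain ⟨p, hp, hd⟩ := exists_pr hSp.ne hu'
      have hpN := hSp.pr p hp hd
      have hnc : ∀ y, p ∣ y → ¬ IsCoprime y N := by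
        intro y hy hc
        exact hp.not_isUnit (hc.isUnit_of_dvd' hy hpN)
      rw [GS_zero hN (P hS hSp) (hnc _ (by rw [dvd_neg]; exact hd.mul_left x)),
        GS_zero hN (P hS hSp) (hnc _ (hd.mul_left x)), mul_zero, add_zero]
  · have e2 : GS N (tS θ u1) (x * u1) = 0 := by
      by_contra hne
      have h3 := key u1 hu (-1) (Or.inr rfl) (by
        rwa [show -(-1 * x * u1) = x * u1 by ring])
      have h4 : (2 : Eis) * u1 = 0 := by linear_combination h3
      rcases mul_eq_zero.mp h4 with h5 | h5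
      · exact two_ne_zero h5
      · exact hu.ne_zero h5
    rw [e2]
    ring

/-- existence of the unit -/
theorem exists_unit_class (hN : L3 N) (H : GCh N θ) (P : Pu N θ) (hx : IsCoprime x N) :
    ∃ u1, IsUnit u1 ∧ Kc hN θ (-(x * u1)) := by
  have R := P 1 (sp_unit isUnit_one)
  obtain ⟨y0, h0⟩ := GS_exists hN R.ch
  have hy0 : IsCoprime y0 N := by
    by_contra h
    exact h0 (GS_zero hN R h)
  have hk : Kc hN θ y0 := by
    refine kc_ext hN (kc_of_ne hN R.ch h0) fun t => ?_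
    unfold tS
    rw [sc_unit_N3 hN isUnit_one, mul_one]
  obtain ⟨hi1, t, ht⟩ := ivN_spec hy0
  have hz : IsCoprime (-x * ivN N y0) N := hx.neg_left.mul_left hi1
  obtain ⟨u, hu⟩ := exists_unit_mul_isPrim (not_lam_of_cop hN hz)
  refine ⟨u, u.isUnit, kc_congr hN hk ?_⟩
  obtain ⟨r, hr⟩ := hu
  obtain ⟨q, hq⟩ := hN.d3
  have e : -(x * (u : Eis)) - y0 = 3 * (r * y0 + x * u * q * t) := by
    linear_combination y0 * hr + (x * u) * ht + (x * u * t) * hq
  exact ⟨_, e⟩

lemma pu_dS (hN : L3 N) (H : GCh N θ) (P : Pu N θ) {z0 : Eis} (hz0 : Sp N z0) :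
    Pu N (dS θ z0) := by
  intro z hz
  refine ⟨gch_tS hN (gch_dS hN H hz0) hz, fun p hp hpN => ?_⟩
  have hz2 : Sp N ((z0 * z) * (z0 * z)) := (hz0.mul hz).mul (hz0.mul hz)
  obtain ⟨u, hu, hd, h1⟩ := (P _ hz2).ram p hp hpN
  refine ⟨u, hu, hd, fun h => h1 ?_⟩
  unfold tS dS at *
  have e1 : sc ((z0 * z) * (z0 * z)) u = conj (sc (z0 * z) u) := by
    rw [(apiN hN).mul_left _ _ u hu, conj_sc hu (hz0.mul hz)]
  have e2 : sc (z0 * z) u = sc z0 u * sc z u := (apiN hN).mul_left _ _ u hu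
  have h2 := congrArg conj h
  rw [map_one, map_mul, map_mul, Complex.conj_conj] at h2
  rw [e1, e2, map_mul]
  linear_combination h2

lemma kc_dS (hN : L3 N) {u1 y : Eis} (hu : IsUnit u1) (hk : Kc hN θ y) :
    Kc hN (dS θ u1) (-y) := by
  refine kc_ext hN (kc_neg hN hk) fun t => ?_
  unfold dS
  rw [sc_unit_N3 hN hu, mul_one]

lemma dS_dS (hN : L3 N) {u1 : Eis} (hu : IsUnit u1) {c : Eis} (hc : Gp N c) :
    dS (dS θ u1) (-u1) c = θ c := by
  unfold dS
  rw [sc_neg hc.1, map_mul, Complex.conj_conj]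
  have h1 := sc_mul_conj hc (sp_unit (N := N) hu)
  linear_combination (θ c) * h1

/-! ### the base pair -/

lemma base3_smul (n : ℕ) (e0 : Eis) (s w r : ℂ) (ξ : Eis → ℂ) (h : Eis) :
    baseW n e0 s (r * w) ξ h = r * baseW n e0 s w ξ h := by
  unfold baseW
  split_ifs <;> ring

lemma base3_conj_ok (hs : s = 1 ∨ s = -1) (X : XU s ξ) {e0 : Eis} (he0 : e0 ≠ 0) (w : ℂ) :
    BaseW 3 e0 s (s * conj w) (fun j => conj (ξ j)) (fun h => s * conj (baseW 3 e0 s w ξ h)) where
  pow j hj := by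
    rw [base3_val X he0 hj]
    simp only [map_mul, Complex.conj_ofReal]
    ring
  par h := by
    have hsc : conj s = s := by rcases hs with h | h <;> rw [h] <;> simp
    rw [base3_par X he0, map_mul, hsc]
  supp h h0 hne := (base3_ok X he0 w).supp h h0 (fun h1 => hne (by rw [h1]; simp))

/-- **the base pair**, exponent `3` -/
theorem pair_base3 {kp c0' : ℂ} {V : ℝ} {f : ℂ → ℂ} (X : XiP ξ kp c0') (XX : XU s ξ)
    (hs : s = 1 ∨ s = -1) {e0 : Eis} (he0 : e0 ≠ 0) {w : ℂ} (hw : ‖w‖ * (3 * ‖kp‖) = 1)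
    (hV : 0 < V) (hf : DatN 3 s ξ f) (k0 : 𝓢(ℂ, ℂ)) :
    XnC 3 s kp V (toC e0) (w * (2 * V)) (s * conj w * (2 * V)) ∧
    PairW s (baseW 3 e0 s w ξ) (fun h => s * conj (baseW 3 e0 s w ξ h)) (FPn 3 ξ f k0)
      (FOn 3 ξ V (toC e0) (w * (2 * V)) f k0) := by
  have hC : XnC 3 s kp V (toC e0) (w * (2 * V)) (s * conj w * (2 * V)) := by
    refine ⟨by norm_num, hs, hV, by rwa [Ne, toC_eq_zero], ?_⟩
    have h1 : w * conj w = ((‖w‖ ^ 2 : ℝ) : ℂ) := by
      rw [Complex.mul_conj, Complex.normSq_eq_norm_sq]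
    have h2 : (‖w‖ ^ 2 * ‖kp‖ ^ 2) * 9 = (1 : ℝ) := by
      have : (‖w‖ * (3 * ‖kp‖)) ^ 2 = 1 := by rw [hw]; norm_num
      linear_combination this
    have h3 : ((‖w‖ ^ 2 : ℝ) : ℂ) * ((‖kp‖ ^ 2 : ℝ) : ℂ) * 9 = 1 := by exact_mod_cast h2
    calc w * (2 * V) * (s * conj w * (2 * V)) * ((‖kp‖ ^ 2 : ℝ) : ℂ) * (((3 : ℕ) : ℂ) ^ 2 / 4)
        = s * (V : ℂ) ^ 2 * ((w * conj w) * ((‖kp‖ ^ 2 : ℝ) : ℂ) * 9) := by push_cast; ring
      _ = s * (V : ℂ) ^ 2 := by rw [h1, h3, mul_one]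
  refine ⟨hC, ?_⟩
  have hFE := Xn960.pairThmN 3 s ξ kp c0' V (toC e0) _ _ X hC f k0 hf
  have hb := base3_bdd XX he0 w
  refine pair_base (by norm_num) (by norm_num) he0 hs (base3_ok XX he0 w)
    (base3_conj_ok hs XX he0 w) hb ?_ hV.ne' rfl rfl hFE
  obtain ⟨K, hK⟩ := hb
  have hsn : ‖s‖ = 1 := by rcases hs with h | h <;> rw [h] <;> simp
  exact ⟨K, fun h => by rw [norm_mul, hsn, one_mul]; exact (RCLike.norm_conj _).trans_le (hK h)⟩

/-! ### the unit term -/

lemma unitOne_rowH (hN : L3 N) {θ' : Eis → ℂ} (H : GCh N θ) (H' : GCh N θ') :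
    UnitOne (rowH N x θ) (rowH N x θ') := by
  intro r y h1 h2
  have g1 : Gp N r.1 := h1.elim rowH_ne rowH_ne
  have g2 : Gp N (y * r.1) := h2.elim (fun h => rowH_ne h) (fun h => rowH_ne h)
  have g3 : IsCoprime (y * r.1) (y * r.2) :=
    h2.elim (fun h => (cof_rowH hN x H).cop _ h) (fun h => (cof_rowH hN x H').cop _ h)
  have hy : IsUnit y := g3.isUnit_of_dvd' (dvd_mul_right _ _) (dvd_mul_right _ _)
  have g4 : IsPrim y := by
    refine Sym645.prim_of_mul_left g1.1 ?_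
    rw [mul_comm]; exact g2.1
  exact g4.eq_of_associated isPrim_one' (associated_one_iff_isUnit.mpr hy)

/-! ### the identity of Eisenstein series -/

/-- the weight -/
def wC0 (N : Eis) (θ : Eis → ℂ) (u1 y : Eis) : ℂ :=
  (covol (toC N) : ℂ)⁻¹ * (GS N (tS θ u1) (y * u1) / 2)

lemma norm_wC0 (hN : L3 N) {u1 y : Eis} (hR : Rm N (tS θ u1)) (hy : IsCoprime (y * u1) N)
    (hk : Kc hN (tS θ u1) (y * u1)) (hm : m ≠ 0) (h9 : 9 * nm m = nm N) :
    ‖wC0 N θ u1 y‖ * (3 * ‖toC sq3 * toC m‖) = 1 := by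
  have h1 := GS_norm hN hR (GS_ne_of hN hR hy hk)
  rw [Complex.mul_conj, Complex.normSq_eq_norm_sq] at h1
  have h2 : ‖GS N (tS θ u1) (y * u1)‖ ^ 2 = nm N := by exact_mod_cast h1
  have h3 : (covol (toC N)) = (nm N : ℝ) * (Real.sqrt 3 / 2) := by
    unfold covol
    rw [norm_toC_sq]
  have hn : (0 : ℝ) < nm N := by exact_mod_cast nm_pos.mpr hN.ne
  have hm' : (0 : ℝ) < nm m := by exact_mod_cast nm_pos.mpr hm
  have h9' : (9 : ℝ) * nm m = nm N := by exact_mod_cast h9
  have h33 : (Real.sqrt 3) ^ 2 = 3 := Real.sq_sqrt (by norm_num)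
  have h30 : (0 : ℝ) < Real.sqrt 3 := by positivity
  have hpos : 0 ≤ ‖wC0 N θ u1 y‖ * (3 * ‖toC sq3 * toC m‖) := by positivity
  have hsq : (‖wC0 N θ u1 y‖ * (3 * ‖toC sq3 * toC m‖)) ^ 2 = 1 := by
    have hkap : ‖toC sq3 * toC m‖ ^ 2 = 3 * nm m := Xn590.norm_kap m
    rw [_root_.mul_pow, _root_.mul_pow 3, hkap]
    unfold wC0
    rw [_root_.norm_mul, _root_.norm_inv, _root_.norm_div, _root_.mul_pow, _root_.div_pow, h2, Complex.norm_real,
      Real.norm_of_nonneg (covol_pos (toC_ne_zero hN.ne)).le, h3, ← h9']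
    have : ‖(2 : ℂ)‖ = 2 := by simp
    rw [this, _root_.inv_pow, _root_.mul_pow, _root_.div_pow, h33]
    field_simp
    ring
  nlinarith

theorem ec_C (hN : L3 N) (hs : s = 1 ∨ s = -1) (H : GCh N θ) (P : Pu N θ) (hx : IsCoprime x N)
    {c0' : ℂ} (hX : XiP ξ (toC sq3 * toC m) c0') (X : XH N s θ ξ) (hm : m ≠ 0)
    (h9 : 9 * nm m = nm N) {u1 : Eis} (hu : IsUnit u1) (hk : Kc hN θ (-(x * u1)))
    {V : ℝ} (hV : 0 < V) {f : ℂ → ℂ} (hf : DatN 3 s ξ f) (k0 : 𝓢(ℂ, ℂ)) :
    XnC 3 s (toC sq3 * toC m) V (toC u1) (wC0 N θ u1 (-x) * (2 * V))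
      (s * conj (wC0 N θ u1 (-x)) * (2 * V)) ∧
    ∀ {M : K695.Frm}, det2 M ≠ 0 → EC (rowH N x θ) (FPn 3 ξ f k0) M =
      EC (rowH N x (dS θ u1)) (scl (det2 M)
        (FOn 3 ξ V (toC u1) (wC0 N θ u1 (-x) * (2 * V)) f k0)) M := by
  have hxu : -x * u1 = -(x * u1) := by ring
  set w0 : ℂ := GS N (tS θ u1) (-(x * u1)) / 2 with hw0
  have hwe : wC0 N θ u1 (-x) = (covol (toC N) : ℂ)⁻¹ * w0 := by
    unfold wC0
    rw [hxu, hw0]
  have hR := P u1 (sp_unit hu)
  have hkt : Kc hN (tS θ u1) (-(x * u1)) := by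
    refine kc_ext hN hk fun t => ?_
    unfold tS
    rw [sc_unit_N3 hN hu, mul_one]
  have hcop : IsCoprime (-(x * u1)) N := (hx.mul_left (isCoprime_of_isUnit hu N)).neg_left
  have hnw : ‖wC0 N θ u1 (-x)‖ * (3 * ‖toC sq3 * toC m‖) = 1 :=
    norm_wC0 hN hR (by rwa [hxu]) (by rwa [hxu]) hm h9
  obtain ⟨hC, hp⟩ := pair_base3 hX X.u hs hu.ne_zero hnw hV hf k0
  refine ⟨hC, fun {M} hM => ?_⟩
  -- the laws
  have hsc : conj s = s := by rcases hs with h | h <;> rw [h] <;> simp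
  have H' : GCh N (dS θ u1) := gch_dS hN H (sp_unit hu)
  have S1 : Supp N x s θ u1 w0 := supp_of hN H P hx hu hk
  have P' := pu_dS hN H P (sp_unit (N := N) hu)
  have hk' : Kc hN (dS θ u1) (-(x * -u1)) := by
    have := kc_dS hN hu hk
    rwa [show - -(x * u1) = -(x * -u1) by ring] at this
  have S2 := supp_of (s := s) hN H' P' hx hu.neg hk'
  have e2 : GS N (tS (dS θ u1) (-u1)) (-(x * -u1)) / 2 = conj w0 := by
    have h1 : GS N (tS (dS θ u1) (-u1)) (-(x * -u1)) = conj (GS N (tS θ u1) (-(x * u1))) := by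
      have h2 : GS N (tS (dS θ u1) (-u1)) (-(x * -u1)) =
          GS N (fun c => conj (tS θ u1 c)) (-(x * -u1)) := by
        apply GS_ext
        intro c hc
        unfold tS dS
        rw [sc_neg hc.1, map_mul, conj_sc hc (sp_unit hu)]
        ring
      rw [h2]
      unfold GS
      rw [SumMod880.conj_sumMod hN.ne]
      refine sumMod_congr fun c => ?_
      by_cases hc : Gp N c
      · rw [if_pos hc, if_pos hc, map_mul, star_ea]
        congr 2
        ring
      · rw [if_neg hc, if_neg hc, map_zero]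
    have h2 : (starRingEnd ℂ) (2 : ℂ) = 2 := map_ofNat _ 2
    rw [h1, hw0, map_div₀, h2]
  rw [e2] at S2
  have X' : XH N s (dS θ u1) (fun j => conj (ξ j)) := by
    refine ⟨X.u.conj hs, fun j hj => ?_, fun p hp hpN => ?_⟩
    · rw [X.good j hj]
      unfold dS
      rw [mul_pow, sc_cube hj (sp_unit hu), mul_one, map_pow]
    · rw [X.zero p hp hpN, map_zero]
  have L1 : LawW N (chiH N) s (baseW 3 u1 s w0 ξ) (rowH N x θ) (rowH N x (dS θ u1)) :=
    fun g _ hg h hh => law_rowH hN hs H S1 X (hg.elim rowH_ne rowH_ne) hh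
  have L2 : LawW N (chiH N) s (baseW 3 (-u1) s (conj w0) (fun j => conj (ξ j)))
      (rowH N x (dS θ u1)) (rowH N x θ) := by
    intro g _ hg h hh
    rw [law_rowH hN hs H' S2 X' (hg.elim rowH_ne rowH_ne) hh,
      rowH_ext (θ' := dS (dS θ u1) (-u1)) (θ := θ) (fun c hc => dS_dS hN hu hc)]
  refine glueW (ε := 1) hN.ne (norm_chiH hN) one_ne_zero (cof_rowH hN x H) (cof_rowH hN x H')
    L1 L2 (unitE_of_one (unitOne_rowH hN H H')) (unitE_of_one (unitOne_rowH hN H' H)) ?_ hM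
  have hcv : conj ((covol (toC N) : ℂ)⁻¹) = (covol (toC N) : ℂ)⁻¹ := by
    rw [map_inv₀, Complex.conj_ofReal]
  have f1 : (fun h => (1 * (covol (toC N) : ℂ))⁻¹ * baseW 3 u1 s w0 ξ h) =
      baseW 3 u1 s (wC0 N θ u1 (-x)) ξ := by
    funext h
    rw [hwe, base3_smul, one_mul]
  have f2 : (fun h => (1 * (covol (toC N) : ℂ))⁻¹ *
      baseW 3 (-u1) s (conj w0) (fun j => conj (ξ j)) h) =
      fun h => s * conj (baseW 3 u1 s (wC0 N θ u1 (-x)) ξ h) := by
    funext h
    rw [hwe, base3_smul, one_mul, base3_conj hs X.u hu.ne_zero, map_mul, hcv]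
    ring
  rw [f1, f2]
  exact hp

/-! ### Fourier coefficients -/

lemma cop_sq3 {c : Eis} (hc : IsPrim c) : IsCoprime sq3 c := by
  have h1 : IsCoprime (3 : Eis) c := hc.isCoprime_three.symm
  have h2 : sq3 ∣ 3 := ⟨-sq3, by apply ext' <;> simp [sq3]⟩
  exact IsCoprime.of_isCoprime_of_dvd_left h1 h2

lemma gl_sc {c : Eis} (hc : IsPrim c) (ν : Eis) :
    gl (fun y => sc y c) ν c = sc sq3 c * conj (gs ν c) := by
  have hc0 := hc.ne_zero
  have hch : IsCh c (fun y => sc y c) := (isCh_sy syG hc).conj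
  have hsq := cop_sq3 hc
  have h1 := gl_mul_of_coprime hc0 hch ν hsq
  have h2 : gl (fun y => sc y c) (ν * sq3) c = conj (gs ν c) := by
    have h3 : gl (fun y => sc y c) (ν * sq3) c =
        sumMod c (fun y => sc y c * eC (toC ν * toC y / toC c)) := by
      unfold gl
      refine sumMod_congr fun y => ?_
      congr 1
      unfold ea
      congr 1
      rw [map_mul]
      have h3 := sq3C_ne
      have h4 := toC_ne_zero hc0
      field_simp
    have h4 : conj (gs ν c) = sumMod c (fun y => sc y c * eC (-(toC ν * toC y / toC c))) := by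
      unfold gs
      rw [SumMod880.conj_sumMod hc0]
      refine sumMod_congr fun y => ?_
      rw [map_mul, star_eC]
      rfl
    have hP : PMod c (fun y => sc y c * eC (toC ν * toC y / toC c)) := by
      intro y t
      beta_reduce
      have e1 : sc (y + c * t) c = sc y c := hch.per y t
      have e2 : toC ν * toC (y + c * t) / toC c = toC ν * toC y / toC c + toC (ν * t) := by
        rw [map_add, map_mul, map_mul]
        have h5 := toC_ne_zero hc0
        field_simp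
      rw [e1, e2, R012.eC_add, eC_toC, mul_one]
    rw [h3, h4, ← R012.sumMod_neg hc0 hP]
    refine sumMod_congr fun y => ?_
    rw [sc_neg hc]
    congr 2
    rw [map_neg]; ring
  rw [← h2, h1, ← mul_assoc]
  have h5 : sc sq3 c * conj (sc sq3 c) = 1 := hch.mul_conj_self hc0 hsq
  rw [h5, one_mul]

theorem SC_rowH (hN : L3 N) {ν c : Eis} {g : Eis → ℂ} (hc : Gp N c) (hx : N ∣ x + ν) :
    Coef92.SC (rowH N x g) N ν c = nm N * (g c * (sc (N * sq3) c * conj (gs ν c))) := by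
  classical
  unfold Coef92.SC
  have e1 : ∀ d, rowH N x g (c, d) *
      eC (toC ν * toC d / (toC Parseval499.s3 * toC (N * c))) =
      g c * ea N x (d * ivN N c) * sc d c * ea (N * c) ν d := by
    intro d
    unfold rowH
    rw [if_pos hc]
    rfl
  rw [sumMod_congr e1]
  have hch : IsCh c (fun y => sc y c) := (isCh_sy syG hc.1).conj
  have hNc : N * c ≠ 0 := mul_ne_zero hN.ne hc.ne
  have hP : PMod (N * c) (fun d => g c * ea N x (d * ivN N c) * sc d c * ea (N * c) ν d) := by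
    have p1 : PMod N (fun d => g c * ea N x (d * ivN N c)) := by
      intro d t
      beta_reduce
      congr 1
      exact ea_congr_right hN.ne ⟨t * ivN N c, by ring⟩
    exact ((p1.mono (dvd_mul_right N c)).mul (hch.per.mono (dvd_mul_left c N))).mul
      (pmod_ea hNc ν)
  rw [sumMod_crt_mul (f := fun y => g c * ea N (x + ν) y)
    (g := fun y => sc N c * (sc y c * ea c ν y)) hN.ne hc.ne _ hc.2.symm hP]
  · rw [sumMod_mul_left hN.ne, sumMod_ea hN.ne, if_pos hx, sumMod_mul_left hc.ne]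
    have : sumMod c (fun y => sc y c * ea c ν y) = gl (fun y => sc y c) ν c := rfl
    rw [this, gl_sc hc.1, (apiN hN).mul_left N sq3 c hc]
    ring
  · intro y z
    have f1 : ea N x ((c * y + N * z) * ivN N c) = ea N x y := by
      apply ea_congr_right hN.ne
      obtain ⟨t, ht⟩ := (ivN_spec hc.2).2
      exact ⟨y * t + z * ivN N c, by linear_combination y * ht⟩
    have f2 : sc (c * y + N * z) c = sc N c * sc z c := by
      rw [← (apiN hN).mul_left N z c hc]
      exact (apiN hN).congr _ _ c hc ⟨y, by ring⟩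
    have f3 : ea (N * c) ν (c * y + N * z) = ea N ν y * ea c ν z := by
      unfold ea
      rw [← R012.eC_add]
      congr 1
      have h3 := sq3C_ne
      have h4 := toC_ne_zero hc.ne
      have h5 := toC_ne_zero hN.ne
      rw [map_add, map_mul, map_mul, map_mul]
      field_simp
    rw [f1, f2, f3, ea_add_left]
    ring

theorem SC_rowH_zero {ν c : Eis} {g : Eis → ℂ} (hc : ¬ Gp N c) (hNc : N * c ≠ 0) :
    Coef92.SC (rowH N x g) N ν c = 0 := by
  classical
  unfold Coef92.SC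
  rw [sumMod_congr (g := fun _ => 0) (fun d => ?_), sumMod_const hNc, mul_zero]
  unfold rowH
  rw [if_neg hc, zero_mul]

lemma per_rowH (hN : L3 N) {θ : Eis → ℂ} {c : Eis} (hc0 : c ≠ 0) :
    PMod (N * c) (fun d => rowH N x θ (c, d)) := by
  classical
  intro d t
  beta_reduce
  unfold rowH
  by_cases hc : Gp N c
  · simp only [hc, if_true]
    have e1 : ea N x ((d + N * c * t) * ivN N c) = ea N x (d * ivN N c) :=
      ea_congr_right hN.ne ⟨c * t * ivN N c, by ring⟩
    have e2 : sc (d + N * c * t) c = sc d c :=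
      (apiN hN).congr _ _ c hc ⟨N * t, by ring⟩
    rw [e1, e2]
  · simp only [hc, if_false]

lemma scl_one' (F : Vec → ℂ) : F1.scl 1 F = F := by
  funext u
  unfold F1.scl
  simp

/-- **the coefficient identity** -/
theorem ls_C (hN : L3 N) (hs : s = 1 ∨ s = -1) (H : GCh N θ) (P : Pu N θ) (hx : IsCoprime x N)
    {c0' : ℂ} (hX : XiP ξ (toC sq3 * toC m) c0') (X : XH N s θ ξ) (hm : m ≠ 0)
    (h9 : 9 * nm m = nm N) {u1 : Eis} (hu : IsUnit u1) (hk : Kc hN θ (-(x * u1)))
    {V : ℝ} (hV : 0 < V) {f : ℂ → ℂ} (hf : DatN 3 s ξ f) {ν : Eis} (hν : ν ≠ 0) :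
    LS 3 ξ f (rowH N x θ) N ν =
      RS 3 ξ V (toC u1) (wC0 N θ u1 (-x) * (2 * V)) f (rowH N x (dS θ u1)) N ν := by
  have H' : GCh N (dS θ u1) := gch_dS hN H (sp_unit hu)
  obtain ⟨K, hK⟩ := (cof_rowH hN x H).bdd
  obtain ⟨K', hK'⟩ := (cof_rowH hN x H').bdd
  refine coef_FE (s := s) Xn960.pairThmN Xn590.coefThmN hX
    (ec_C hN hs H P hx hX X hm h9 hu hk hV hf 0).1 hf hK hK' hN.ne
    (fun c hc => per_rowH hN hc) (fun c hc => per_rowH hN hc) ?_ hν
  intro k z
  have key := (ec_C hN hs H P hx hX X hm h9 hu hk hV hf k).2 (M := stF z)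
    (by rw [det2_stF]; exact one_ne_zero)
  rw [det2_stF] at key
  rw [scl_one'] at key
  exact key

end Crest.Agent.R017.Hi681
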