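import Crest.Agent.R017.Hi5_54
import Crest.Agent.R017.P1t_54

/-!
# Row 17, exceptional class, StrUX high levels (helper54), part 6: the official window

* `lowF` : the lower end of the high levels (164's `low5`)
* `parZ_Sq5` : the hypotheses of `hiUX_of` for the configurations of the exact square
* `parOK_low` : the ones of `hiU_of`
* `hiUX_Sq5`, `hiU_Sq5` : the instances
-/

set_option autoImplicit false

noncomputable section

open Finset Filter
open scoped ComplexConjugate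

namespace Crest.Agent.R017.Hi654

open Crest.Agent.R012 Crest.Agent.R012.Eis
open Crest.Agent.R017.FE47 (PU cx SM)
open Crest.Agent.R017.B770 Crest.Agent.R017.Prov71
open Crest.Agent.R017.E5B71 Crest.Agent.R017.E5L770
open Crest.Agent.R017.ExBox960 Crest.Agent.R017.ExP960
open Crest.Agent.R017.P1t54 Crest.Agent.R017.P1n54
open Crest.Agent.R017.Hi154 Crest.Agent.R017.Hi454 Crest.Agent.R017.Hi554

/-- the lower end of the high levels -/
def lowF (p : Fin 3 ⊕ Fin 5 → ℝ) : ℝ := min (2 * cN p - cκ p) (3 / 4 * cN p) + 9 / 4 * cx' p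

/-- the configurations of the exact square, class E -/
theorem parZ_Sq5 {A d c β : ℝ} (hA : 9 / 10 ≤ A) (hc0 : 0 ≤ c) (hc : c ≤ 1 / 40)
    (hβ0 : 1 / 8 ≤ β) (hβ : β ≤ 17 / 100) {p : Fin 3 ⊕ Fin 5 → ℝ} (hp : p ∈ ParS A d) :
    ParZ c β lowF top5 p := by
  obtain ⟨w, hw⟩ := hp
  have hκ0 := hw.κ0
  have hκ1 := hw.κ1
  have hκ31 := hw.κ31
  have hκp : 0 < cκ p := by linarith
  obtain ⟨a1, a2, a3, a4⟩ := hw.anti
  have hq := hw.q
  have hmo := hw.w0 .mo
  have hnear := hw.near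
  have hAκ : 9 / 10 * cκ p ≤ A * cκ p := mul_le_mul_of_nonneg_right hA hκp.le
  have eN : cN p = cu p 2 + cu p 3 + cu p 4 := rfl
  have eM : cM p = cu p 0 + cu p 1 := rfl
  have hN85 : cN p ≤ 17 / 20 * cκ p := by
    have := hw.tl.N85
    rwa [div_le_iff₀ hκp] at this
  have hadm := hw.tl.adm
  have hx0 : 0 ≤ cx' p := by
    have := hadm.1
    rw [div_nonneg_iff] at this
    rcases this with h | h
    · exact h.1
    · linarith [h.2]
  have hx1 : cx' p ≤ w .am := by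
    have := hadm.2.1
    rwa [div_le_div_iff_of_pos_right hκp] at this
  have hx2 : cx' p = 0 ∨ cN p + cx' p ≤ 4 / 5 * cκ p := by
    rcases hadm.2.2 with h | h
    · left
      rw [div_eq_zero_iff] at h
      rcases h with h | h
      · exact h
      · exact absurd h hκp.ne'
    · right
      rwa [← add_div, div_le_iff₀ hκp] at h
  have hxN : cx' p ≤ 1 / 8 * cκ p := by
    rcases hx2 with h | h <;> linarith
  have hcκ : c * cκ p ≤ 1 / 40 * cκ p := mul_le_mul_of_nonneg_right hc hκp.le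
  have hcκ0 : 0 ≤ c * cκ p := mul_nonneg hc0 hκp.le
  have hβκ : β * cκ p ≤ 17 / 100 * cκ p := mul_le_mul_of_nonneg_right hβ hκp.le
  have hβκ0 : 1 / 8 * cκ p ≤ β * cκ p := mul_le_mul_of_nonneg_right hβ0 hκp.le
  have hgap : (top5 p - lowF p) / 2 = -(1 / 40) * cx' p := by
    unfold top5 lowF
    ring
  have hmin : 0 ≤ min (2 * cN p - cκ p) (3 / 4 * cN p) := le_min (by linarith) (by linarith)
  refine ⟨hκ0, hκ1, by linarith, by linarith, hx0, hx1.trans hw.c, hc0, by linarith,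
    by linarith, by linarith, ?_, ?_, ?_, ?_⟩
  · unfold lowF
    linarith
  · linarith
  · rw [hgap]
    linarith
  · rw [hgap]
    rcases hx2 with h | h
    · rw [h]
      linarith
    · linarith

/-- **the high levels of class E** on the configurations of the exact square -/
theorem hiUX_Sq5 {Λ : Type*} {π : Λ → DPar} (hπ : ∀ l, (π l).OK) {h : ℝ → ℝ}
    {Rh : ℝ} (hRh : ∀ u, cx h u ≠ 0 → |u| ≤ Rh) {e0 : ℝ} (r : ℝ) {A d c β : ℝ}
    (hA : 9 / 10 ≤ A) (hc0 : 0 ≤ c) (hc : c ≤ 1 / 40) (hβ0 : 1 / 8 ≤ β) (hβ : β ≤ 17 / 100)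
    {LH : (Fin 3 ⊕ Fin 5 → ℝ) → ℝ} (hN : HNX π h e0 c β (ParS A d) lowF top5 LH)
    (al : Set ((Option IX5 → ℝ) × ℝ)) : HiUX π h e0 r c β (ParS A d) lowF top5 LH al :=
  hiUX_of hπ hRh r (fun _ hp => parZ_Sq5 hA hc0 hc hβ0 hβ hp) hN al

/-- **the high levels of class N** on the configurations of the exact square -/
theorem hiU_Sq5 {Λ : Type*} {π : Λ → DPar} (hπ : ∀ l, (π l).OK) {h : ℝ → ℝ} {c : ℝ}
    (hpu : PU h c) {Rh : ℝ} (hRh0 : 0 ≤ Rh) (hRh : ∀ u, cx h u ≠ 0 → |u| ≤ Rh) {e0 : ℝ}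
    (r : ℝ) (he0 : 0 ≤ e0) (he1 : e0 ≤ 1) {A d : ℝ} (hA : 9 / 10 ≤ A)
    {lo hi LH : (Fin 3 ⊕ Fin 5 → ℝ) → ℝ} (hLH : ∀ p ∈ ParS A d, 0 ≤ cκ p + LH p)
    (hN : HN π h e0 (ParS A d) lo hi LH)
    (al : Set ((Option (Fin 3 ⊕ Fin 5) → ℝ) × ℝ)) : HiU π h e0 r (ParS A d) lo hi LH al :=
  Hi354.hiU_of hπ hpu hRh0 hRh r he0 he1 (fun _ hp => parOK_Sq5 hA hp) hLH hN al

end Crest.Agent.R017.Hi654
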