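import Crest.Agent.R017.Hi7_54

/-!
# Row 17, StrU, the blocks outside the windows (helper48), part 1

* `sepD`, `M2_StD_alb`, `std_big`, `sstd_M2` : helper54's lemmas for the difference `StD`
* `HnG`, `DomG` : the common input
* `near_g` : a configuration near the data with a cap
-/

set_option autoImplicit false
set_option linter.unusedVariables false

noncomputable section

open Finset
open scoped ComplexConjugate

namespace Crest.Agent.R017.Hi948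

open Crest.Agent.R012 Crest.Agent.R012.Eis
open Crest.Agent.R012.Mob705 hiding pb mem_pb
open Crest.Agent.R012.LS2 (S mem_S)
open Crest.Agent.R017.CM106 Crest.Agent.R017.C70
open Crest.Agent.R017.FE47 (PU cx SM)
open Crest.Agent.R017.StD828 (ln Tm)
open Crest.Agent.R017.E2440 (TE StE Bth Bth_nonneg)
open Crest.Agent.R017.E5k54 (PT alb)
open Crest.Agent.R017.SSb54 (SST SSb PTb mem_PTb PTb_sub)
open Crest.Agent.R017.P1e54 Crest.Agent.R017.P1f54 Crest.Agent.R017.P1h54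
open Crest.Agent.R017.P1i54 Crest.Agent.R017.P1j54
open Crest.Agent.R017.P1k54 Crest.Agent.R017.P1l54 Crest.Agent.R017.P1n54 Crest.Agent.R017.P1o54
open Crest.Agent.R017.P1p54 Crest.Agent.R017.P1q54 Crest.Agent.R017.P1r54 Crest.Agent.R017.P1s54
open Crest.Agent.R017.HP842 (Pc pc al alL cv Tu mem_Tu sqc Th)
open Crest.Agent.R017.B770 Crest.Agent.R017.Prov71
open Crest.Agent.R017.XG702 (Pcs)
open Crest.Agent.R017.XT71 (Sys Win mx mx_le le_mx)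
open Crest.Agent.R017.UM71
open Crest.Agent.R017.E5P571 (PB mem_PB PC)
open Crest.Agent.R017.E5B71 Crest.Agent.R017.E5L770
open Crest.Agent.R017.Hi154 Crest.Agent.R017.Hi254 Crest.Agent.R017.Hi754

attribute [local irreducible] HP842.Tu

/-- `StE` at `0` -/
lemma StE_zero (J : Finset (Eis × Eis)) (om : Eis × Eis → ℂ) (α : Eis → ℂ) (k : Eis) :
    StE 0 J om α k = 0 := by
  classical
  have hS : S (0 : ℝ) = ∅ := by
    rw [Finset.eq_empty_iff_forall_notMem]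
    intro n hn
    rw [mem_S le_rfl] at hn
    have h1 : 0 < nm n := nm_pos.2 hn.2.1.ne_zero
    have h2 : (0 : ℝ) < nm n := by exact_mod_cast h1
    linarith [hn.1]
  unfold StE
  rw [hS]
  simp

lemma StD_zero (E0 : ℝ) (J : Finset (Eis × Eis)) (om : Eis × Eis → ℂ) (α : Eis → ℂ) (k : Eis) :
    StD 0 E0 J om α k = StE E0 J om α k := by
  unfold StD
  rw [StE_zero, sub_zero]

/-- `StD` as a multilinear form -/
theorem StD_PF {I : Type} [Fintype I] [DecidableEq I] {h : ℝ → ℝ} {s : I → Pc} {X : ℕ}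
    (hX : ∀ i m, pc h (s i) m ≠ 0 → nm m ≤ X)
    (E1 E0 : ℝ) {J : Finset (Eis × Eis)} (hJ : ∀ x ∈ J, x.1 ≠ 0) (om : Eis × Eis → ℂ)
    (k : Eis) : StD E1 E0 J om (sqc 1 (al h s)) k =
      PF h (TB I X) (fun b => Th 1 (∏ i, b i) * StD E1 E0 J om (dlt (∏ i, b i)) k) s := by
  unfold StD
  rw [StE_PF hX E0 hJ om k, StE_PF hX E1 hJ om k]
  unfold PF
  rw [← sum_sub_distrib]
  refine sum_congr rfl fun b _ => ?_
  ring

/-- separation for `StD` -/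
def SepD (h : ℝ → ℝ) (c R M C : ℝ) : Prop :=
  ∀ (J : Type) [Fintype J] [DecidableEq J] (s : J → Pc), (∀ i, (s i).OK) →
      ∀ (E1 E0 : ℝ) (W : Finset (Eis × Eis)), (∀ x ∈ W, x.1 ≠ 0) →
      ∀ (om : Eis × Eis → ℂ) (u : Eis → ℝ), (∀ k, 0 ≤ u k) → (Function.support u).Finite →
      ∀ B : ℝ, 0 ≤ B →
      (∀ (n : J → ℕ) (τ : J → ℝ), (∀ i, |c * n i - Real.log (s i).Y| ≤ 2 * R) →
        M2 u (StD E1 E0 W om (sqc 1 (al h (reY s (fun i => Real.exp (c * n i))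
          (fun i => (s i).t + τ i))))) ≤ B * ∏ i, (1 + |τ i|) ^ M) →
      M2 u (StD E1 E0 W om (sqc 1 (al h s))) ≤ C ^ Fintype.card J * B

/-- **`StD`: lengths `≥ 1` suffice** -/
theorem std_sep {h : ℝ → ℝ} {c : ℝ} (hpu : PU h c) {R : ℝ} (hR0 : 0 ≤ R)
    (hR : ∀ u, cx h u ≠ 0 → |u| ≤ R) (M : ℝ) : ∃ C : ℝ, 0 ≤ C ∧ SepD h c R M C := by
  obtain ⟨C, hC, key⟩ := sep_M2 hpu hR0 hR M
  refine ⟨C, hC, ?_⟩
  intro J _ _ s hs E1 E0 W hW om u h0 hu B hB hyp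
  obtain ⟨X, hX⟩ := exists_X s R
  refine key J s u h0 hu (fun s' => StD E1 E0 W om (sqc 1 (al h s'))) X
    (fun k b => Th 1 (∏ i, b i) * StD E1 E0 W om (dlt (∏ i, b i)) k) hX (fun i => (hs i).Y0)
    (fun Y t hY hYX k => ?_) B hB hyp
  refine StD_PF (fun i m hm => ?_) E1 E0 hW om k
  have h1 := supp_pc hR (P := reY s Y t i) (hY i) hm
  exact_mod_cast h1.trans (hYX i)

/-- `alb f β` by the child family -/
theorem M2_StD_alb {κ : Type*} [Fintype κ] [DecidableEq κ]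
    {h : ℝ → ℝ} {R : ℝ} (hR : ∀ u, cx h u ≠ 0 → |u| ≤ R) {s : κ → Pc}
    (hs : ∀ i, (s i).OK) {β : κ → Eis} (hβ : ∀ i, IsPrim (β i)) {u : Eis → ℝ}
    (h0 : ∀ k, 0 ≤ u k) (hu : (Function.support u).Finite) {J : Finset (Eis × Eis)}
    (hJ : ∀ x ∈ J, x.1 ≠ 0) (E1 E0 : ℝ) (om : Eis × Eis → ℂ) :
    M2 u (StD E1 E0 J om (alb (fun i => pc h (s i)) β)) ≤
      M2 u (StD E1 E0 J om (sqc 1 (al h (ch1 s β (fun _ => 1) 1)))) := by
  classical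
  have hOK := ch1_OK hs hβ (x := fun _ => 1) (fun _ => isPrim_one) 1
  have hfs : FS (sqc 1 (al h (ch1 s β (fun _ => 1) 1))) := FS_sqc_al hR hOK 1
  rw [alb_eq hs hβ]
  refine M2_mono h0 hu fun k => ?_
  have e1 := fun c E => Er_sum ({()} : Finset Unit) (fun _ => k1 s β (fun _ => 1) 1)
    (fun _ => sqc 1 (al h (ch1 s β (fun _ => 1) 1))) (fun _ _ => hfs) c E hJ om k
  simp only [sum_singleton] at e1
  have h1 := norm_k1_le hs hβ (x := fun _ => 1) (fun _ => isPrim_one) 1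
  unfold StD
  rw [StE_Er E0, StE_Er E1, e1 0 E0, e1 1 E0, e1 0 E1, e1 1 E1, ← mul_sub, ← mul_sub, ← mul_sub,
    ← StE_Er, ← StE_Er, norm_mul]
  exact mul_le_of_le_one_left (norm_nonneg _) h1

/-- the tuple sum of `StD` -/
def SSD {κ : Type*} [Fintype κ] (T : Finset (κ → Eis)) (f : κ → Eis → ℂ) (E1 E0 : ℝ)
    (J : Finset (Eis × Eis)) (om : Eis × Eis → ℂ) (k : Eis) : ℂ :=
  ∑ β ∈ T, sy k (∏ i, β i) * StD E1 E0 J om (alb f β) k

lemma SSD_eq {κ : Type*} [Fintype κ] (T : Finset (κ → Eis)) (f : κ → Eis → ℂ) (E1 E0 : ℝ)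
    (J : Finset (Eis × Eis)) (om : Eis × Eis → ℂ) (k : Eis) :
    SST T f E0 J om k - SST T f E1 J om k = SSD T f E1 E0 J om k := by
  unfold SST SSD StD
  rw [← sum_sub_distrib]
  exact sum_congr rfl fun β _ => by ring

/-- **Cauchy over the tuples** -/
theorem ssd_M2 {κ : Type*} [Fintype κ] [DecidableEq κ] (T : Finset (κ → Eis))
    (hT : ∀ β ∈ T, ∀ i, IsPrim (β i)) {δ : ℝ} (f : κ → Eis → ℂ) (E1 E0 : ℝ)
    (J : Finset (Eis × Eis)) (om : Eis × Eis → ℂ) {u : Eis → ℝ} (h0 : ∀ k, 0 ≤ u k)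
    (hu : (Function.support u).Finite) :
    M2 u (SSD T f E1 E0 J om) ≤ (∑ β ∈ T, (nm (∏ j, β j) : ℝ) ^ (-(1 / 2 + δ))) *
      ∑ β ∈ T, ((nm (∏ j, β j) : ℝ) ^ (-(1 / 2 + δ)))⁻¹ * M2 u (StD E1 E0 J om (alb f β)) := by
  have h1 := M2_sum_le h0 hu T (fun β k => sy k (∏ i, β i) * StD E1 E0 J om (alb f β) k)
    (fun β => (nm (∏ j, β j) : ℝ) ^ (-(1 / 2 + δ))) (fun β hβ => by
      have : (0 : ℝ) < nm (∏ j, β j) := by
        have := nmP (hT β hβ); linarith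
      positivity)
  refine (le_of_eq ?_).trans (h1.trans (mul_le_mul_of_nonneg_left (sum_le_sum fun β hβ => ?_)
    (sum_nonneg fun β _ => Real.rpow_nonneg (Nat.cast_nonneg _) _)))
  · rfl
  · refine mul_le_mul_of_nonneg_left ?_ (inv_nonneg.2 (Real.rpow_nonneg (Nat.cast_nonneg _) _))
    refine M2_mono h0 hu fun k => ?_
    rw [norm_mul]
    exact mul_le_of_le_one_left (norm_nonneg _)
      (norm_sy_le k (E554.isPrim_prod fun i _ => hT β hβ i))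

/-- `M2` of a difference -/
lemma M2_sub_le {u : Eis → ℝ} (h0 : ∀ k, 0 ≤ u k) (hu : (Function.support u).Finite)
    (F G : Eis → ℂ) : M2 u (fun k => F k - G k) ≤ 2 * M2 u F + 2 * M2 u G := by
  have h1 := M2_sum_le h0 hu ({0, 1} : Finset ℕ) (fun i k => if i = 0 then F k else -G k)
    (fun _ => (1 : ℝ)) (fun _ _ => one_pos)
  rw [sum_pair (by norm_num), sum_pair (by norm_num)] at h1
  have e1 : M2 u (fun k => F k - G k) =
      M2 u (fun k => ∑ i ∈ ({0, 1} : Finset ℕ), if i = 0 then F k else -G k) := by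
    congr 1
    funext k
    rw [sum_pair (by norm_num)]
    simp [sub_eq_add_neg]
  rw [e1]
  refine h1.trans (le_of_eq ?_)
  have e2 : M2 u (fun k => -G k) = M2 u G := by
    unfold M2
    simp
  simp only [if_true, one_ne_zero, if_false, e2]
  ring

/-- **trivial bound** -/
theorem std_big {h : ℝ → ℝ} {R H : ℝ} (hR : ∀ u, cx h u ≠ 0 → |u| ≤ R)
    (hH : ∀ u, ‖cx h u‖ ≤ H) {Hw : ℝ} (hHw : 0 ≤ Hw) {X : ℝ} (hX : Big X H) (hXw : Hw ≤ X)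
    {I : Type*} [Fintype I] [DecidableEq I] {s : I → Pc} (hs : ∀ i, (s i).OK)
    (hY : ∀ i, (s i).Y * Real.exp R ≤ X ^ 3) {N : ℕ} (hI : Fintype.card I ≤ N)
    {om : Eis × Eis → ℂ} (hom' : ∀ x, ‖om x‖ ≤ Hw) {E1 E0 YT : ℝ} (hE : 0 ≤ E0)
    (hE1 : E0 ≤ X ^ 3) (hE' : 0 ≤ E1) (hE1' : E1 ≤ X ^ 3)
    (hT : 0 ≤ YT) (hT1 : YT ≤ X ^ 3) {u : Eis → ℝ} (hu0 : ∀ k, 0 ≤ u k)
    (huf : (Function.support u).Finite) (hu1 : ∀ k, u k ≤ 1)
    (hus : ∀ k, u k ≠ 0 → IsPrim k ∧ (nm k : ℝ) ≤ X ^ 3) :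
    M2 u (StD E1 E0 (JW (Real.sqrt YT) (1 / 10) YT) om (sqc 1 (al h s))) ≤
      X ^ (100 * (N + 1) + 1) := by
  have h1 := ste_big hR hH hHw hX hXw hs hY hI hom' hE hE1 hT hT1 hu1 hus
  have h2 := ste_big hR hH hHw hX hXw hs hY hI hom' hE' hE1' hT hT1 hu1 hus
  have h3 : (4 : ℝ) ≤ X := by linarith [hX.c]
  have h4 : 0 ≤ X ^ (100 * (N + 1)) := by positivity
  refine (M2_sub_le hu0 huf _ _).trans ?_
  rw [pow_succ]
  nlinarith

/-! ### the inputs -/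

section inputs

variable {Λ : Type*} (π : Λ → DPar) (h : ℝ → ℝ) (E1f : ℝ → ℝ) (e0 : ℝ)

open Classical in
/-- the second moment of one level, one natural triple, the difference -/
def HnG (R : Λ → ℝ) (lam : Λ × Eis) (a : Bc × ℕ) (_ : List Pq) : ℝ :=
  if okC (π lam.1) lam.2 a.1 [] then
    M2 (uM (R lam.1) (Real.exp a.1.1.l) (Real.exp (a.1.1.l / 20)))
      (StD (E1f a.1.1.l) (Real.exp (e0 * a.1.1.l)) (Jo a.1.1.l (a3 a.1.1) a.1.1.z)
        (omL a.2) (sqc 1 (alL h ((List.ofFn a.1.2).map (Pt (π lam.1) lam.2)))))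
  else 0

lemma hnG_C (e0 : ℝ) (R : Λ → ℝ) : HnG π h (fun _ => 0) e0 R = HnC π h e0 R := by
  funext lam a ps
  unfold HnG HnC
  have e : ∀ (E0 : ℝ) (J : Finset (Eis × Eis)) (om : Eis × Eis → ℂ) (α : Eis → ℂ),
      StD 0 E0 J om α = StE E0 J om α := fun E0 J om α => funext (StD_zero E0 J om α)
  rw [e]

lemma hnG_D (e1 e0 : ℝ) (R : Λ → ℝ) :
    HnG π h (fun l => Real.exp (e1 * l)) e0 R = HndC π h e1 e0 R := rfl

/-- the levels below the number of levels -/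
def HnGg (R : Λ → ℝ) (lam : Λ × Eis) (a : Bc × ℕ) (ps : List Pq) : ℝ :=
  if a.2 < nO a.1.1 then HnG π h E1f e0 R lam a ps else 0

/-- **the `e`-blocks, levels below the number of levels** -/
def HndCg (e1 e0 : ℝ) (R : Λ → ℝ) (lam : Λ × Eis) (a : Bc × ℕ) (ps : List Pq) : ℝ :=
  if a.2 < nO a.1.1 then HndC π h e1 e0 R lam a ps else 0

/-- **one level, levels below the number of levels** -/
def HnCg (e0 : ℝ) (R : Λ → ℝ) (lam : Λ × Eis) (a : Bc × ℕ) (ps : List Pq) : ℝ :=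
  if a.2 < nO a.1.1 then HnC π h e0 R lam a ps else 0

lemma hnGg_C (e0 : ℝ) (R : Λ → ℝ) : HnGg π h (fun _ => 0) e0 R = HnCg π h e0 R := by
  funext lam a ps
  unfold HnGg HnCg
  rw [hnG_C]

lemma hnGg_D (e1 e0 : ℝ) (R : Λ → ℝ) :
    HnGg π h (fun l => Real.exp (e1 * l)) e0 R = HndCg π h e1 e0 R := rfl

/-- **HNDg** : the `e`-blocks of one level of one natural triple, gated -/
def HNDg (e1 e0 : ℝ) (Par : Set (Fin 3 ⊕ Fin 5 → ℝ)) (lo hi LH : (Fin 3 ⊕ Fin 5 → ℝ) → ℝ) :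
    Prop :=
  ∀ R : Λ → ℝ, (∀ lam, 0 ≤ R lam) → UB (lev (Real.log 2) S8) Dq (HndCg π h e1 e0 R)
    (DomH Par lo hi) ∅ (fun q => cκ (fun i => q.1 (some (.inl i))) +
      ∑ i : Fin 3, q.1 (some (.inr i)) + LH (fun i => q.1 (some (.inl i))))

/-- **HNBg** : one level of one natural triple which lost `b κ`, gated -/
def HNBg (e0 b : ℝ) (Par : Set (Fin 3 ⊕ Fin 5 → ℝ)) (lo hi LH : (Fin 3 ⊕ Fin 5 → ℝ) → ℝ) :
    Prop :=
  ∀ R : Λ → ℝ, (∀ lam, 0 ≤ R lam) → UB (lev (Real.log 2) S8) Dq (HnCg π h e0 R)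
    (DomHB b Par lo hi) ∅ (fun q => cκ (fun i => q.1 (some (.inl i))) +
      ∑ i : Fin 3, q.1 (some (.inr i)) + LH (fun i => q.1 (some (.inl i))))

/-- the ungated input implies the gated one -/
lemma HNDg_of {e1 e0 : ℝ} {Par : Set (Fin 3 ⊕ Fin 5 → ℝ)}
    {lo hi LH : (Fin 3 ⊕ Fin 5 → ℝ) → ℝ} (H : HND π h e1 e0 Par lo hi LH) :
    HNDg π h e1 e0 Par lo hi LH := fun R hR => by
  intro ε hε
  obtain ⟨δ, hδ, K⟩ := H R hR ε hε
  refine ⟨δ, hδ, fun lam N B => ?_⟩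
  obtain ⟨η, hη, X₀, hX₀, K'⟩ := K lam N B
  refine ⟨η, hη, X₀, hX₀, fun X hX a ps g1 g2 q hq g3 g4 g5 g6 => ?_⟩
  have hX0 : 0 < X := by linarith
  show (if a.2 < nO a.1.1 then HndC π h e1 e0 R lam a ps else 0) ≤ _
  split_ifs
  · exact K' X hX a ps g1 g2 q hq g3 g4 g5 g6
  · positivity

end inputs

/-- configurations with the total length of the lumps at most `Cf` -/
def DomG (Cf : (Fin 3 ⊕ Fin 5 → ℝ) → ℝ) (Par : Set (Fin 3 ⊕ Fin 5 → ℝ))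
    (lo hi : (Fin 3 ⊕ Fin 5 → ℝ) → ℝ) :
    Set ((Option ((Fin 3 ⊕ Fin 5) ⊕ Fin 3) → ℝ) × (Kd → ℝ)) :=
  {q | q ∈ DomH Par lo hi ∧ ∑ i : Fin 3, q.1 (some (.inr i)) ≤
    Cf (fun i => q.1 (some (.inl i)))}

/-- a configuration near the data, no amplifier, total length at most `C` -/
lemma near_g {κ x δ C : ℝ} {u z : Fin 3 → ℝ} (hδ : 0 ≤ δ) (hδ1 : 60 * δ ≤ 1)
    (hκ0 : 8 / 9 ≤ κ) (hu0 : ∀ i, 0 ≤ u i) (hN0 : 3 / 5 * κ ≤ ∑ i, u i) (hN1 : ∑ i, u i ≤ 1)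
    (hx0 : 0 ≤ x) (hz0 : ∀ i, 0 ≤ z i) (hz : ∀ i, z i ≤ u i + δ)
    (hs : κ / 2 ≤ ∑ i, z i + 2 * x + δ) (hC0 : 0 ≤ C) (hC1 : κ / 2 - 2 * x ≤ C)
    (hCz : ∑ i, z i ≤ C + 2 * δ) :
    ∃ v : Fin 3 → ℝ, (∀ i, 0 ≤ v i ∧ v i ≤ u i) ∧ κ / 2 ≤ ∑ i, v i + 2 * x ∧
      (∀ i, |z i - v i| ≤ 400 * δ) ∧ ∑ i, v i ≤ ∑ i, z i + 300 * δ ∧ ∑ i, v i ≤ C := by
  obtain ⟨v, h1, h2, h3, h4⟩ := near_v hδ hδ1 hκ0 hu0 hN0 hN1 hx0 hz0 hz hs
  by_cases hvC : ∑ i, v i ≤ C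
  · exact ⟨v, h1, h2, fun i => (h3 i).trans (by linarith), h4, hvC⟩
  push Not at hvC
  have hV0 : 0 < ∑ i, v i := lt_of_le_of_lt hC0 hvC
  set θ : ℝ := C / ∑ i, v i with hθ
  have hθ0 : 0 ≤ θ := div_nonneg hC0 hV0.le
  have hθ1 : θ ≤ 1 := (div_le_one hV0).2 hvC.le
  have hsum : ∑ i, θ * v i = C := by
    rw [← Finset.mul_sum, hθ, div_mul_cancel₀ _ hV0.ne']
  refine ⟨fun i => θ * v i, fun i => ⟨mul_nonneg hθ0 (h1 i).1, ?_⟩, ?_, fun i => ?_, ?_, ?_⟩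
  · exact (mul_le_of_le_one_left (h1 i).1 hθ1).trans (h1 i).2
  · rw [hsum]; linarith
  · have e1 : v i - θ * v i ≤ ∑ i, v i - C := by
      have e2 : v i - θ * v i = (1 - θ) * v i := by ring
      have e3 : ∑ i, v i - C = ∑ i, (1 - θ) * v i := by
        rw [← Finset.mul_sum, sub_mul, one_mul, Finset.mul_sum, hsum]
      rw [e2, e3]
      exact Finset.single_le_sum (f := fun i => (1 - θ) * v i)
        (fun j _ => mul_nonneg (by linarith) (h1 j).1) (Finset.mem_univ i)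
    have e4 : 0 ≤ v i - θ * v i := by
      have := mul_le_of_le_one_left (h1 i).1 hθ1
      linarith
    have e5 := abs_le.1 (h3 i)
    rw [abs_le]
    constructor <;> linarith
  · rw [hsum]; linarith
  · rw [hsum]

end Crest.Agent.R017.Hi948
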