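import Crest.Agent.R017.Hi9a_48

/-!
# Row 17, StrU, the blocks outside the windows (helper48), part 2

* `useG` : the input at a child; `hnG` : the child bound
-/

set_option autoImplicit false
set_option linter.unusedVariables false

noncomputable section

open Finset
open scoped ComplexConjugate

namespace Crest.Agent.R017.Hi948

open Crest.Agent.R012 Crest.Agent.R012.Eis
open Crest.Agent.R012.Mob705 hiding pb mem_pb
open Crest.Agent.R012.LS2 (S mem_S)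
open Crest.Agent.R017.CM106 Crest.Agent.R017.C70
open Crest.Agent.R017.FE47 (PU cx SM)
open Crest.Agent.R017.StD828 (ln Tm)
open Crest.Agent.R017.E2440 (TE StE Bth Bth_nonneg)
open Crest.Agent.R017.E5k54 (PT alb)
open Crest.Agent.R017.SSb54 (SST SSb PTb mem_PTb PTb_sub)
open Crest.Agent.R017.P1e54 Crest.Agent.R017.P1f54 Crest.Agent.R017.P1h54
open Crest.Agent.R017.P1i54 Crest.Agent.R017.P1j54
open Crest.Agent.R017.P1k54 Crest.Agent.R017.P1l54 Crest.Agent.R017.P1n54 Crest.Agent.R017.P1o54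
open Crest.Agent.R017.P1p54 Crest.Agent.R017.P1q54 Crest.Agent.R017.P1r54 Crest.Agent.R017.P1s54
open Crest.Agent.R017.HP842 (Pc pc al alL cv Tu mem_Tu sqc Th)
open Crest.Agent.R017.B770 Crest.Agent.R017.Prov71
open Crest.Agent.R017.XG702 (Pcs)
open Crest.Agent.R017.XT71 (Sys Win mx mx_le le_mx)
open Crest.Agent.R017.UM71
open Crest.Agent.R017.E5P571 (PB mem_PB PC)
open Crest.Agent.R017.E5B71 Crest.Agent.R017.E5L770
open Crest.Agent.R017.Hi154 Crest.Agent.R017.Hi254 Crest.Agent.R017.Hi754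

attribute [local irreducible] HP842.Tu

section

variable {Λ : Type*} {π : Λ → DPar} {h : ℝ → ℝ} {E1f : ℝ → ℝ} {e0 : ℝ} {Rf : Λ → ℝ}
  {lam : Λ × Eis}
  {p : Fin 3 ⊕ Fin 5 → ℝ} {X δ δ₁ ρ ρ₁ B B₁ R c H Hw M Cs ε₁ v : ℝ} {N i : ℕ} {a : Bd}
  {Cf : (Fin 3 ⊕ Fin 5 → ℝ) → ℝ} {vs : Fin 3 → Pq} {qs : List Pq}
  {Par : Set (Fin 3 ⊕ Fin 5 → ℝ)} {lo hi LH : (Fin 3 ⊕ Fin 5 → ℝ) → ℝ} {β : Fin 3 → Eis}

lemma win_S8g (hX : 1 < X) (hδ1 : δ ≤ δ₁) (hδ0 : 0 ≤ δ₁) (hρ : ρ ≤ ρ₁) (hρ₁ : 0 ≤ ρ₁)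
    (hB : B ≤ B₁) (hB₁ : 0 ≤ B₁) (hw : Win S5 p δ N B ρ X a)
    (hc : Chi p X δ δ₁ ρ₁ B₁ N a vs qs) {v : Fin 3 → ℝ}
    (hv : ∀ i, |(vs i).z / Real.log X - v i| ≤ δ₁) :
    Win S8 (Sum.elim p v) δ₁ N B₁ ρ₁ X (a, vs) := by
  refine ⟨fun i => ?_, ?_, ?_, ?_, ?_⟩
  · rcases i with i | i
    · exact (hw.ev i).trans hδ1
    · exact hv i
  · show (1 : ℝ) ≤ X ^ δ₁
    exact Real.one_le_rpow hX.le (by linarith)
  · exact Nat.zero_le _
  · refine max_le (hw.s₁.trans (Real.rpow_le_rpow_of_exponent_le hX.le hρ)) ?_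
    rw [mx_le (Real.one_le_rpow hX.le hρ₁)]
    intro q hq
    obtain ⟨j, rfl⟩ := (List.mem_ofFn' _ _).1 hq
    exact hc.s1 j
  · refine max_le (hw.s₂.trans (Real.rpow_le_rpow_of_exponent_le hX.le hB)) ?_
    rw [mx_le (Real.one_le_rpow hX.le hB₁)]
    intro q hq
    obtain ⟨j, rfl⟩ := (List.mem_ofFn' _ _).1 hq
    exact hc.s2 j

/-- the input for one `lam` and scale -/
def InG (π : Λ → DPar) (h : ℝ → ℝ) (E1f : ℝ → ℝ) (e0 : ℝ) (Rf : Λ → ℝ) (lam : Λ × Eis)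
    (Cf : (Fin 3 ⊕ Fin 5 → ℝ) → ℝ)
    (Par : Set (Fin 3 ⊕ Fin 5 → ℝ)) (lo hi LH : (Fin 3 ⊕ Fin 5 → ℝ) → ℝ) (X δ₁ ρ₁ B ε₁ : ℝ)
    (N : ℕ) : Prop :=
  ∀ (a : Bc × ℕ) (ps : List Pq), a.2 < nO a.1.1 → ps.length ≤ N →
      (∀ p ∈ ps, Dq.lump p ∨ Dq.nl X p ≤ δ₁) → ∀ q ∈ DomG Cf Par lo hi,
      Win (lev (Real.log 2) S8) q.1 δ₁ N (B + 2) ρ₁ X a →
      (∀ t, |Dq.mass X ps t - q.2 t| ≤ δ₁) → Dq.Good X ρ₁ (B + 2) ps →
      (∀ p ∈ ps, Dq.lump p → ((lev (Real.log 2) S8).ev X a, Dq.nl X p) ∈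
        (∅ : Set ((Option ((Fin 3 ⊕ Fin 5) ⊕ Fin 3) → ℝ) × ℝ))) →
      HnG π h E1f e0 Rf lam a ps ≤ X ^ (cκ (fun i => q.1 (some (.inl i))) +
        ∑ i : Fin 3, q.1 (some (.inr i)) + LH (fun i => q.1 (some (.inl i))) + ε₁)

/-- the input at a child -/
theorem useG (hX : 1 < X) (hδ0 : 0 ≤ δ) (hδ1 : 240 * δ ≤ 1)
    (hδ : 1600 * δ ≤ δ₁) (hρ : ρ ≤ ρ₁) (hρ₁ : 0 ≤ ρ₁) (hB : B ≤ B + 2) (hB₁ : 0 ≤ B + 2)
    (HH : InG π h E1f e0 Rf lam Cf Par lo hi LH X δ₁ ρ₁ B ε₁ N)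
    (hgt : i < nO a) (hPar : p ∈ Par) (hp : ParOK p) (hw : Win S5 p δ N B ρ X a)
    (hlo : lo p ≤ v) (hhi : v ≤ hi p) (hv : |Real.log 2 * (i : ℝ) / Real.log X - v| ≤ δ)
    {vs : Fin 3 → Pq} (hc : Chi p X δ δ₁ ρ₁ (B + 2) N a vs [])
    (hs : cκ p / 2 * Real.log X ≤ ∑ j, (vs j).z + (2 * cx' p + 4 * δ) * Real.log X)
    (hC0 : 0 ≤ Cf p) (hC1 : cκ p / 2 - 2 * cx' p ≤ Cf p)
    (hCz : ∑ j, (vs j).z ≤ (Cf p + 8 * δ) * Real.log X) :
    HnG π h E1f e0 Rf lam ((a, vs), i) [] ≤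
      X ^ (cκ p + LH p + ε₁ + 1200 * δ) * Real.exp (∑ j, (vs j).z) := by
  have hL : 0 < Real.log X := Real.log_pos hX
  have hX0 : 0 < X := by linarith
  obtain ⟨w, h1, h4, h5, h8, h9⟩ := near_g (κ := cκ p) (x := cx' p) (C := Cf p)
    (δ := 4 * δ) (u := fun i => cu p (Fin.natAdd 2 i)) (z := fun i => (vs i).z / Real.log X)
    (by linarith) (by linarith) hp.κ0 (fun i => hp.u0 _)
    (by rw [Fin.sum_univ_three]; exact hp.N0) (by rw [Fin.sum_univ_three]; exact hp.N1) hp.x0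
    (fun i => div_nonneg (hc.z0 i) hL.le) (fun i => by
      have e1 := hc.z1 i
      have e2 : Dq.nl X (a.us (Fin.natAdd 2 i)) ≤ cu p (Fin.natAdd 2 i) + δ := by
        have := (abs_le.1 (hw.ev (.inr (Fin.natAdd 2 i)))).2
        have e3 : S5.ev X a (.inr (Fin.natAdd 2 i)) = Dq.nl X (a.us (Fin.natAdd 2 i)) := rfl
        rw [e3] at this
        unfold cu
        linarith
      have e4 : (vs i).z / Real.log X ≤ Dq.nl X (a.us (Fin.natAdd 2 i)) + δ := by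
        rw [div_le_iff₀ hL]
        have e5 : Dq.nl X (a.us (Fin.natAdd 2 i)) * Real.log X = (a.us (Fin.natAdd 2 i)).z := by
          unfold Pcs.nl
          exact div_mul_cancel₀ _ hL.ne'
        rw [add_mul, e5]
        exact e1
      linarith) (by
      rw [← Finset.sum_div]
      rw [← sub_nonneg]
      have e1 : (∑ i, (vs i).z) / Real.log X + 2 * cx' p + 4 * δ - cκ p / 2 =
          (∑ j, (vs j).z + (2 * cx' p + 4 * δ) * Real.log X - cκ p / 2 * Real.log X) /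
            Real.log X := by
        field_simp
        ring
      rw [e1]
      exact div_nonneg (by linarith) hL.le) hC0 hC1 (by
      rw [← Finset.sum_div, div_le_iff₀ hL]
      refine hCz.trans (le_of_eq ?_)
      ring)
  have hW8 := win_S8g hX (by linarith : δ ≤ δ₁) (by linarith) hρ hρ₁ hB hB₁ hw hc (v := w)
    fun i => (h5 i).trans (by linarith)
  have hk := HH ((a, vs), i) [] hgt (Nat.zero_le _) (fun q hq => absurd hq List.not_mem_nil)
    (fun o => match o with | none => v | some j => Sum.elim p w j, 0)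
    ⟨⟨hPar, fun i => h1 i, rfl, h4, hlo, hhi⟩, h9⟩
    ⟨fun o => by
      cases o with
      | none => exact hv.trans (by linarith)
      | some j => exact hW8.ev j, hW8.g, hW8.n, hW8.s₁, hW8.s₂⟩ (fun t => by
      rw [Pcs.mass_nil]
      show |(0 : ℝ) - 0| ≤ δ₁
      rw [sub_zero, abs_zero]; linarith) (fun q hq => absurd hq List.not_mem_nil)
    (fun q hq => absurd hq List.not_mem_nil)
  refine hk.trans ?_
  rw [← Real.exp_log hX0, ← Real.exp_mul, ← Real.exp_mul, ← Real.exp_add]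
  refine Real.exp_le_exp.2 ?_
  have h10 : (∑ i, w i) * Real.log X ≤ ∑ j, (vs j).z + 1200 * δ * Real.log X := by
    have e2 : (∑ i, (vs i).z / Real.log X + 300 * (4 * δ)) * Real.log X =
        ∑ j, (vs j).z + 1200 * δ * Real.log X := by
      rw [← Finset.sum_div]
      field_simp
      ring
    rw [← e2]
    exact mul_le_mul_of_nonneg_right h8 hL.le
  show Real.log X * (cκ p + ∑ i, w i + LH p + ε₁) ≤
    Real.log X * (cκ p + LH p + ε₁ + 1200 * δ) + _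
  nlinarith

lemma M2_StD_zero {u : Eis → ℝ} (E1 E0 : ℝ) {J : Finset (Eis × Eis)}
    (hJ : ∀ x ∈ J, x.1 ≠ 0) (om : Eis × Eis → ℂ) : M2 u (StD E1 E0 J om 0) = 0 := by
  unfold M2
  have h : ∀ E k, StE E J om 0 k = 0 := fun E k => by
    rw [StE_Er, Er_zero 0 E hJ om k, Er_zero 1 E hJ om k, sub_zero]
  have h' : ∀ k, StD E1 E0 J om 0 k = 0 := fun k => by
    unfold StD
    rw [h, h, sub_zero]
  simp_rw [h']
  simp

/-- **the child bound** -/
theorem hnG (hc : 0 < c) (hR : ∀ u, cx h u ≠ 0 → |u| ≤ R) (hH : ∀ u, ‖cx h u‖ ≤ H)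
    (hHw : ∀ u, ‖((FE47.hD u : ℝ) : ℂ)‖ ≤ Hw) (hM : 0 ≤ M) (hsep : SepD h c R M Cs)
    (hCs : 0 ≤ Cs) (F : Fv (π lam.1) lam.2 p X δ ρ B R N a) (hS : Siz X H Hw e0 (Rf lam.1) R)
    (hE0 : 0 ≤ E1f a.l) (hE1 : E1f a.l ≤ X ^ 3)
    (hρ : 2 * X ^ ρ ≤ X ^ ρ₁) (hρ0 : 0 ≤ ρ) (hρ1 : ρ ≤ ρ₁) (hδ₁ : 1600 * δ ≤ δ₁) (hB : 0 ≤ B)
    (hMρ : 401 ≤ ρ * M) (hLH : 0 ≤ cκ p + LH p) (hε₁ : 0 ≤ ε₁) (hPar : p ∈ Par)
    (HH : InG π h E1f e0 Rf lam Cf Par lo hi LH X δ₁ ρ₁ B ε₁ N) (hgt : i < nO a)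
    (hlo : lo p ≤ v) (hhi : v ≤ hi p) (hv : |Real.log 2 * (i : ℝ) / Real.log X - v| ≤ δ)
    (hC0 : 0 ≤ Cf p) (hC1 : cκ p / 2 - 2 * cx' p ≤ Cf p)
    (hβ : ∀ i, IsPrim (β i))
    (hβ0 : Real.log (nm (∏ j, β j)) ≤ bfO a.l (∑ j, (vsO a j).z) a.z)
    (hβc : ∑ j, (vsO a j).z - Real.log (nm (∏ j, β j)) ≤ (Cf p + 4 * δ) * Real.log X) :
    M2 (uM (Rf lam.1) (Real.exp a.l) (Real.exp (a.l / 20)))
      (StD (E1f a.l) (Real.exp (e0 * a.l)) (Jo a.l (a3 a) a.z) (omL i)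
        (sqc 1 (al h (chV (π lam.1) lam.2 a β)))) ≤
      Cs ^ 3 * (WV LH p X δ ε₁ R a * (nm (∏ j, β j) : ℝ)⁻¹) := by
  have hL := F.L0
  have hX0 : 0 < X := by linarith [F.X1]
  have hX1 := F.X1.le
  have hR0 := F.R0
  have hRL := F.RL
  have hn1 : (1 : ℝ) ≤ nm (∏ j, β j) := nmP hβ
  have hn : (0 : ℝ) < nm (∏ j, β j) := by linarith
  have hHw0 : 0 ≤ Hw := (norm_nonneg _).trans (hHw 0)
  have hWpos : 0 < WV LH p X δ ε₁ R a := WV_pos hX0
  have hOK : ∀ i, (chV (π lam.1) lam.2 a β i).OK :=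
    ch1_OK (fun j => Pt_OK F.hP lam.2 (vsO a j)) hβ (fun _ => isPrim_one) 1
  have hJ : ∀ z ∈ Jo a.l (a3 a) a.z, z.1 ≠ 0 := fun z hz =>
    ((okJ_JW _ _ _).prim z hz).ne_zero
  -- sizes
  have haz := abs_le.1 F.az
  have hlz := abs_le.1 F.lz
  have hvs := abs_le.1 F.vsum
  have hdL0 : 0 ≤ δ * Real.log X := mul_nonneg F.d0 hL.le
  have hd1 := F.d1
  have hdL : δ * Real.log X ≤ 1 / 240 * Real.log X :=
    mul_le_mul_of_nonneg_right (by linarith) hL.le
  have hxL : cx' p * Real.log X ≤ 1 / 3 * Real.log X :=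
    mul_le_mul_of_nonneg_right F.par.x1 hL.le
  have hx0L : 0 ≤ cx' p * Real.log X := mul_nonneg F.par.x0 hL.le
  have hκ : 8 / 9 * Real.log X ≤ cκ p * Real.log X :=
    mul_le_mul_of_nonneg_right F.par.κ0 hL.le
  have hNL : cN p * Real.log X ≤ 1 * Real.log X := mul_le_mul_of_nonneg_right F.par.N1 hL.le
  by_cases hlow : ∀ i, -R ≤ Real.log (chV (π lam.1) lam.2 a β i).Y
  swap
  · push Not at hlow
    obtain ⟨j, hj⟩ := hlow
    rw [sqc_zero hR hOK hj, M2_StD_zero _ _ hJ]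
    positivity
  have hsum := sumV (P := π lam.1) (t₀ := lam.2) (a := a) F.hP hβ
  have hone : 1 ≤ WV LH p X δ ε₁ R a * (nm (∏ j, β j) : ℝ)⁻¹ := by
    have h1 := sumzV F hβ (z := fun i => Real.log (chV (π lam.1) lam.2 a β i).Y + 2 * R)
      (fun i => by rw [add_sub_cancel_left, abs_of_nonneg (by linarith)])
    have h2 : (1 : ℝ) ≤ Real.exp (∑ j : Fin 3,
        (Real.log (chV (π lam.1) lam.2 a β j).Y + 2 * R)) :=
      Real.one_le_exp (sum_nonneg fun j _ => by linarith [hlow j])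
    have h3 : 1 ≤ X ^ (cκ p + LH p + ε₁ + 1200 * δ) :=
      Real.one_le_rpow F.X1.le (by linarith [F.d0])
    unfold WV
    rw [mul_assoc]
    exact one_le_mul_of_one_le_of_one_le h3 (h2.trans h1)
  have hβX : (nm (∏ i, β i) : ℝ) ≤ X ^ (2 : ℝ) := by
    rw [← Real.exp_log hn, Real.rpow_def_of_pos hX0]
    refine Real.exp_le_exp.2 (hβ0.trans ?_)
    unfold bfO
    linarith
  have key := hsep (Fin 3) (chV (π lam.1) lam.2 a β) hOK (E1f a.l)
    (Real.exp (e0 * a.l)) (Jo a.l (a3 a) a.z) hJ (omL i)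
    (uM (Rf lam.1) (Real.exp a.l) (Real.exp (a.l / 20))) (uM_nonneg _ _ _)
    (uM_fin (Real.exp_pos _)) (WV LH p X δ ε₁ R a * (nm (∏ j, β j) : ℝ)⁻¹) (by positivity)
    (fun n τ hn' => by
      have hz0 : ∀ i, 0 ≤ c * (n i : ℝ) := fun i => by positivity
      refine split_h (T₀ := X ^ ρ) (A := X ^ (100 * (3 + 1) + 1)) hM (by positivity)
        (by positivity) ?_ (F := fun τ => M2 (uM (Rf lam.1) (Real.exp a.l) (Real.exp (a.l / 20)))
          (StD (E1f a.l) (Real.exp (e0 * a.l)) (Jo a.l (a3 a) a.z) (omL i)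
            (sqc 1 (al h (reY (chV (π lam.1) lam.2 a β)
              (fun i => Real.exp (c * n i))
              (fun i => (chV (π lam.1) lam.2 a β i).t + τ i)))))) ?_ ?_ τ
      · -- the trivial bound is small
        have e1 : X ^ (100 * (3 + 1) + 1) ≤ (1 + X ^ ρ) ^ M := by
          calc X ^ (100 * (3 + 1) + 1) = X ^ (401 : ℝ) := by
                rw [← Real.rpow_natCast]; norm_num
            _ ≤ X ^ (ρ * M) := Real.rpow_le_rpow_of_exponent_le hX1 hMρ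
            _ = (X ^ ρ) ^ M := Real.rpow_mul hX0.le _ _
            _ ≤ _ := Real.rpow_le_rpow (by positivity) (by linarith) hM
        exact e1.trans (le_mul_of_one_le_left (by positivity) hone)
      · -- small heights
        intro τ hτ
        rw [reY_chV hβ (fun i => c * n i) τ]
        have hchi := chiV (δ₁ := δ₁) F hβ hβX hz0 hn' hτ hρ
        have h1 : ∑ j : Fin 3, (Real.log (chV (π lam.1) lam.2 a β j).Y - 2 * R) ≤
            ∑ j : Fin 3, (vH a hβ (fun i => c * n i) τ j).z :=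
          sum_le_sum fun j _ => by
            have := (abs_le.1 (hn' j)).1
            show _ ≤ c * (n j : ℝ)
            linarith
        have h2 : ∑ j : Fin 3, (vH a hβ (fun i => c * n i) τ j).z ≤
            ∑ j : Fin 3, (Real.log (chV (π lam.1) lam.2 a β j).Y + 2 * R) :=
          sum_le_sum fun j _ => by
            have := (abs_le.1 (hn' j)).2
            show c * (n j : ℝ) ≤ _
            linarith
        rw [sum_sub_distrib, sum_const, card_univ, Fintype.card_fin, nsmul_eq_mul] at h1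
        rw [sum_add_distrib, sum_const, card_univ, Fintype.card_fin, nsmul_eq_mul] at h2
        push_cast at h1 h2
        have hH := useG (v := v) (i := i) F.X1 F.d0 F.d1 hδ₁ hρ1 (by linarith) (by linarith)
          (by linarith) HH hgt hPar F.par F.w hlo hhi hv hchi (by
            unfold bfO at hβ0
            linarith) hC0 hC1 (by
            rw [hsum] at h2
            have : (Cf p + 4 * δ) * Real.log X + 4 * (δ * Real.log X) =
              (Cf p + 8 * δ) * Real.log X := by ring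
            linarith)
        refine (le_of_eq ?_).trans (hH.trans ?_)
        · unfold HnG
          rw [if_pos ⟨F.ok, F.t0, fun i => ⟨hchi.lump i, hchi.z0 i⟩, hchi.am⟩,
            HP842.al_eq, List.map_ofFn]
          rfl
        · unfold WV
          rw [mul_assoc]
          exact mul_le_mul_of_nonneg_left (sumzV F hβ hn') (by positivity)
      · -- large heights
        intro τ
        exact std_big (N := 3) hR hH hHw0 hS.toBig hS.w
          (s := reY (chV (π lam.1) lam.2 a β) (fun i => Real.exp (c * n i))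
            (fun i => (chV (π lam.1) lam.2 a β i).t + τ i))
          (fun i => ⟨(hOK i).ch, Real.exp_pos _⟩)
          (fun i => Y3V F hβ hn' i) (by rw [Fintype.card_fin])
          (om := omL i) (fun x => hHw _) (E1 := E1f a.l) (E0 := Real.exp (e0 * a.l))
          (Real.exp_pos _).le
          ((F.el hS.e1).trans (pow_le_pow_right₀ hX1 (by norm_num))) hE0 hE1
          (YT_nonneg a.l (a3 a) a.z) (F.YT_le hS.c) (uM_nonneg _ _ _)
          (uM_fin (Real.exp_pos _)) (uM_le_one (Rf lam.1) (Real.exp a.l)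
            (Real.exp (a.l / 20))) (fun k hk => F.us_le hS.r k hk))
  rwa [Fintype.card_fin] at key

end

end Crest.Agent.R017.Hi948
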