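import Crest.Agent.R017.Hi9b_48

/-!
# Row 17, StrU, the blocks outside the windows (helper48), part 3

* `hiG_of` : the common theorem
* `HiDg`, `HiBg` : helper54's `HiD`, `HiB`, gated by `a.2 < nL ..`
* `hiDg_of` : `HNDg` implies `HiDg`; `hiBg_of` : `HNBg` implies `HiBg`
-/

set_option autoImplicit false
set_option linter.unusedVariables false

noncomputable section

open Finset Filter
open scoped ComplexConjugate

namespace Crest.Agent.R017.Hi948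

open Crest.Agent.R012 Crest.Agent.R012.Eis
open Crest.Agent.R012.Mob705 hiding pb mem_pb
open Crest.Agent.R012.LS2 (S mem_S)
open Crest.Agent.R017.CM106 Crest.Agent.R017.C70
open Crest.Agent.R017.FE47 (PU cx SM)
open Crest.Agent.R017.StD828 (ln Tm)
open Crest.Agent.R017.E2440 (TE StE Bth Bth_nonneg)
open Crest.Agent.R017.E5k54 (PT alb)
open Crest.Agent.R017.SSb54 (SST SSb PTb mem_PTb PTb_sub)
open Crest.Agent.R017.P1e54 Crest.Agent.R017.P1f54 Crest.Agent.R017.P1h54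
open Crest.Agent.R017.P1i54 Crest.Agent.R017.P1j54
open Crest.Agent.R017.P1k54 Crest.Agent.R017.P1l54 Crest.Agent.R017.P1n54 Crest.Agent.R017.P1o54
open Crest.Agent.R017.P1p54 Crest.Agent.R017.P1q54 Crest.Agent.R017.P1r54 Crest.Agent.R017.P1s54
open Crest.Agent.R017.P1g54
open Crest.Agent.R017.HP842 (Pc pc al alL cv Tu mem_Tu sqc Th)
open Crest.Agent.R017.B770 Crest.Agent.R017.Prov71
open Crest.Agent.R017.XG702 (Pcs Good_mono)
open Crest.Agent.R017.XT71 (Sys Win mx mx_le le_mx)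
open Crest.Agent.R017.UM71
open Crest.Agent.R017.E5P571 (PB mem_PB PC)
open Crest.Agent.R017.E5B71 Crest.Agent.R017.E5L770
open Crest.Agent.R017.Hi154 Crest.Agent.R017.Hi254 Crest.Agent.R017.Hi354 Crest.Agent.R017.Hi754

attribute [local irreducible] HP842.Tu

section

variable {Λ : Type*} {π : Λ → DPar} {h : ℝ → ℝ} {E1f : ℝ → ℝ} {e0 r : ℝ} {Rf : Λ → ℝ}
  {lam : Λ × Eis}
  {p : Fin 3 ⊕ Fin 5 → ℝ} {X δ δ₁ ρ ρ₁ B R c H Hw M Cs ε₁ v : ℝ} {N i : ℕ} {a : Bd}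
  {Cf : (Fin 3 ⊕ Fin 5 → ℝ) → ℝ}
  {Par : Set (Fin 3 ⊕ Fin 5 → ℝ)} {lo hi LH : (Fin 3 ⊕ Fin 5 → ℝ) → ℝ} {β : Fin 3 → Eis}

/-- **`HiF` by the second moment** -/
theorem hiG_le_M2 {R : Λ → ℝ} {Sf : SF Λ} {G : Eis → ℂ} (hG : ∀ k, SF.at Sf lam a k = G k) :
    HiF π Sf R lam a ≤
    M2 (uM (R lam.1) (Real.exp a.l) (Real.exp (a.l / 20))) G := by
  classical
  unfold HiF
  split_ifs with hif
  swap
  · exact M2_nonneg (uM_nonneg _ _ _) _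
  refine le_trans (le_of_eq ?_) (sum_le_M2 (Real.exp_pos a.l) (T := (PB (π lam.1).n
    ⌊Real.exp (a.l + R lam.1)⌋₊).filter (fun k => cutE (Real.exp (a.l / 20)) k ∧
      Real.exp (a.l - R lam.1) ≤ nm k)) (fun k hk => ?_) _)
  · refine sum_congr ?_ fun k _ => ?_
    · ext k; simp only [mem_filter]
    · rw [hG]
  · rw [mem_filter, mem_PB] at hk
    obtain ⟨⟨h1, h2, -⟩, h3, h4⟩ := hk
    refine ⟨h2, h3, ?_, ?_⟩
    · rw [← Real.exp_add, neg_add_eq_sub]; exact h4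
    · have h5 := (Nat.le_floor_iff (Real.exp_pos _).le).1 h1
      rwa [Real.exp_add, mul_comm] at h5

/-- **the bound for one datum** -/
theorem hiG_m {ε' : ℝ} (hε' : 0 < ε') : ∃ C : ℝ, 0 ≤ C ∧
    ∀ {c R H Hw M Cs r X δ δ₁ ρ ρ₁ B ε₁ e0 v : ℝ} {N i : ℕ} {Λ : Type*} {π : Λ → DPar}
      {h : ℝ → ℝ} {E1f : ℝ → ℝ} {Rf : Λ → ℝ} {lam : Λ × Eis} {a : Bd} {p : Fin 3 ⊕ Fin 5 → ℝ}
      {Cf : (Fin 3 ⊕ Fin 5 → ℝ) → ℝ}
      {Par : Set (Fin 3 ⊕ Fin 5 → ℝ)} {lo hi LH : (Fin 3 ⊕ Fin 5 → ℝ) → ℝ},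
      0 < c → (∀ u, cx h u ≠ 0 → |u| ≤ R) → (∀ u, ‖cx h u‖ ≤ H) →
      (∀ u, ‖((FE47.hD u : ℝ) : ℂ)‖ ≤ Hw) → 0 ≤ M → SepD h c R M Cs → 0 ≤ Cs →
      Siz X H Hw e0 (Rf lam.1) R → 0 ≤ E1f a.l → E1f a.l ≤ X ^ 3 →
      2 * X ^ ρ ≤ X ^ ρ₁ → 0 ≤ ρ → ρ ≤ ρ₁ → 1600 * δ ≤ δ₁ → 0 ≤ B →
      401 ≤ ρ * M → 0 ≤ cκ p + LH p → 0 ≤ ε₁ → p ∈ Par →
      InG π h E1f e0 Rf lam Cf Par lo hi LH X δ₁ ρ₁ B ε₁ N → i < nO a →
      lo p ≤ v → v ≤ hi p → |Real.log 2 * (i : ℝ) / Real.log X - v| ≤ δ →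
      0 ≤ Cf p → cκ p / 2 - 2 * cx' p ≤ Cf p →
      Fv (π lam.1) lam.2 p X δ ρ B R N a →
      ∀ T : Finset (Fin 3 → Eis),
      T ⊆ PTb (Fin 3) (Yr r a) (Real.exp (bfO a.l (∑ j, (vsO a j).z) a.z)) →
      (∀ β ∈ T, ∑ j, (vsO a j).z - Real.log (nm (∏ j, β j)) ≤
        (Cf p + 4 * δ) * Real.log X) →
      M2 (uM (Rf lam.1) (Real.exp a.l) (Real.exp (a.l / 20))) (fun k =>
        (pC : ℂ) * SSD T (fun j => pc h (Pt (π lam.1) lam.2 (vsO a j))) (E1f a.l)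
          (Real.exp (e0 * a.l)) (Jo a.l (a3 a) a.z) (omL i) k) ≤
        C * (‖(pC : ℂ)‖ ^ 2 * (Cs ^ 3 * WV LH p X δ ε₁ R a * X ^ (4 * ε'))) := by
  obtain ⟨C1, hC1, key1⟩ := E5d54.sum_pf_tuples (Fin 3) hε'
  refine ⟨C1 * C1, by positivity, ?_⟩
  intro c R H Hw M Cs r X δ δ₁ ρ ρ₁ B ε₁ e0 v N i Λ π h E1f Rf lam a p Cf Par lo hi LH hc hR hH
    hHw hM hsep hCs hS hE0 hE1 hρ hρ0 hρ1 hδ₁ hB hMρ hLH hε₁ hPar HH hgt hlo hhi hv hC0 hCc F T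
    hTs hTc
  classical
  have hL := F.L0
  have hX0 : 0 < X := by linarith [F.X1]
  have hX1 := F.X1.le
  have hWpos : 0 < WV LH p X δ ε₁ R a := WV_pos hX0
  rw [M2_const]
  have hTp : ∀ β ∈ T, ∀ j, IsPrim (β j) := fun β hβ => mem_PT (mem_PTb.1 (hTs hβ)).1
  have h1 := ssd_M2 T hTp (δ := ε') (fun j => pc h (Pt (π lam.1) lam.2 (vsO a j)))
    (E1f a.l) (Real.exp (e0 * a.l)) (Jo a.l (a3 a) a.z) (omL i)
    (u := uM (Rf lam.1) (Real.exp a.l) (Real.exp (a.l / 20))) (uM_nonneg _ _ _)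
    (uM_fin (Real.exp_pos _))
  have hJ : ∀ z ∈ Jo a.l (a3 a) a.z, z.1 ≠ 0 := fun z hz =>
    ((okJ_JW _ _ _).prim z hz).ne_zero
  have hsumT : ∑ β ∈ T, (nm (∏ j, β j) : ℝ) ^ (-(1 / 2 + ε')) ≤ C1 := by
    refine le_trans (sum_le_sum_of_subset_of_nonneg (hTs.trans (PTb_sub _ _)) fun β _ _ =>
      Real.rpow_nonneg (Nat.cast_nonneg _) _) (le_trans (le_of_eq ?_) (key1 (Yr r a)))
    refine sum_congr ?_ fun _ _ => rfl
    unfold PT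
    ext β
    simp only [mem_filter, Fintype.mem_piFinset]
  have hterm : ∀ β ∈ T, ((nm (∏ j, β j) : ℝ) ^ (-(1 / 2 + ε')))⁻¹ *
      M2 (uM (Rf lam.1) (Real.exp a.l) (Real.exp (a.l / 20))) (StD (E1f a.l)
        (Real.exp (e0 * a.l))
        (Jo a.l (a3 a) a.z) (omL i) (alb (fun j => pc h (Pt (π lam.1) lam.2 (vsO a j))) β)) ≤
      (nm (∏ j, β j) : ℝ) ^ (-(1 / 2 + ε')) * (Cs ^ 3 * WV LH p X δ ε₁ R a * X ^ (4 * ε')) := by
    intro β hβ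
    have pβ := hTp β hβ
    have hn1 : (1 : ℝ) ≤ nm (∏ j, β j) := nmP pβ
    have hn : (0 : ℝ) < nm (∏ j, β j) := by linarith
    have hβ2 := (Real.log_le_iff_le_exp hn).2 (mem_PTb.1 (hTs hβ)).2
    have h2 := (M2_StD_alb hR (s := fun j => Pt (π lam.1) lam.2 (vsO a j))
      (fun j => Pt_OK F.hP lam.2 (vsO a j)) pβ
      (u := uM (Rf lam.1) (Real.exp a.l) (Real.exp (a.l / 20))) (uM_nonneg _ _ _)
      (uM_fin (Real.exp_pos _)) hJ (E1f a.l) (Real.exp (e0 * a.l)) (omL i)).trans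
      (hnG (v := v) (ε₁ := ε₁) hc hR hH hHw hM hsep hCs F hS hE0 hE1 hρ hρ0 hρ1 hδ₁ hB hMρ hLH
        hε₁ hPar HH hgt hlo hhi hv hC0 hCc pβ hβ2 (hTc β hβ))
    refine (mul_le_mul_of_nonneg_left h2 (by positivity)).trans ?_
    -- sizes
    have haz := abs_le.1 F.az
    have hlz := abs_le.1 F.lz
    have hvs := abs_le.1 F.vsum
    have hdL0 : 0 ≤ δ * Real.log X := mul_nonneg F.d0 hL.le
    have hd1 := F.d1
    have hdL : δ * Real.log X ≤ 1 / 240 * Real.log X :=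
      mul_le_mul_of_nonneg_right (by linarith) hL.le
    have hxL : cx' p * Real.log X ≤ 1 / 3 * Real.log X :=
      mul_le_mul_of_nonneg_right F.par.x1 hL.le
    have hκ : 8 / 9 * Real.log X ≤ cκ p * Real.log X :=
      mul_le_mul_of_nonneg_right F.par.κ0 hL.le
    have hNL : cN p * Real.log X ≤ 1 * Real.log X := mul_le_mul_of_nonneg_right F.par.N1 hL.le
    have e1 : (nm (∏ j, β j) : ℝ) ^ (2 * ε') ≤ X ^ (4 * ε') := by
      rw [Real.rpow_def_of_pos hn, Real.rpow_def_of_pos hX0]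
      refine Real.exp_le_exp.2 ?_
      unfold bfO at hβ2
      have : Real.log (nm (∏ j, β j)) ≤ 2 * Real.log X := by linarith
      nlinarith
    have e2 : ((nm (∏ j, β j) : ℝ) ^ (-(1 / 2 + ε')))⁻¹ * (nm (∏ j, β j) : ℝ)⁻¹ =
        (nm (∏ j, β j) : ℝ) ^ (-(1 / 2 + ε')) * (nm (∏ j, β j) : ℝ) ^ (2 * ε') := by
      rw [← Real.rpow_neg hn.le, ← Real.rpow_neg_one, ← Real.rpow_add hn, ← Real.rpow_add hn]
      congr 1
      ring
    calc ((nm (∏ j, β j) : ℝ) ^ (-(1 / 2 + ε')))⁻¹ *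
        (Cs ^ 3 * (WV LH p X δ ε₁ R a * (nm (∏ j, β j) : ℝ)⁻¹)) =
        (((nm (∏ j, β j) : ℝ) ^ (-(1 / 2 + ε')))⁻¹ * (nm (∏ j, β j) : ℝ)⁻¹) *
          (Cs ^ 3 * WV LH p X δ ε₁ R a) := by ring
      _ = (nm (∏ j, β j) : ℝ) ^ (-(1 / 2 + ε')) * ((nm (∏ j, β j) : ℝ) ^ (2 * ε') *
          (Cs ^ 3 * WV LH p X δ ε₁ R a)) := by rw [e2]; ring
      _ ≤ (nm (∏ j, β j) : ℝ) ^ (-(1 / 2 + ε')) * (X ^ (4 * ε') *
          (Cs ^ 3 * WV LH p X δ ε₁ R a)) :=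
          mul_le_mul_of_nonneg_left (mul_le_mul_of_nonneg_right e1 (by positivity))
            (by positivity)
      _ = _ := by ring
  have h2 := sum_le_sum hterm
  rw [← sum_mul] at h2
  have hW0 : 0 ≤ Cs ^ 3 * WV LH p X δ ε₁ R a * X ^ (4 * ε') := by positivity
  have h3 : M2 (uM (Rf lam.1) (Real.exp a.l) (Real.exp (a.l / 20)))
      (SSD T (fun j => pc h (Pt (π lam.1) lam.2 (vsO a j))) (E1f a.l) (Real.exp (e0 * a.l))
        (Jo a.l (a3 a) a.z) (omL i)) ≤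
      C1 * (C1 * (Cs ^ 3 * WV LH p X δ ε₁ R a * X ^ (4 * ε'))) := by
    refine h1.trans (mul_le_mul hsumT (h2.trans (mul_le_mul_of_nonneg_right hsumT hW0)) ?_ hC1)
    exact sum_nonneg fun β _ => mul_nonneg (inv_nonneg.2 (Real.rpow_nonneg (Nat.cast_nonneg _) _))
      (M2_nonneg (uM_nonneg _ _ _) _)
  calc ‖(pC : ℂ)‖ ^ 2 * _ ≤ ‖(pC : ℂ)‖ ^ 2 *
      (C1 * (C1 * (Cs ^ 3 * WV LH p X δ ε₁ R a * X ^ (4 * ε')))) :=
        mul_le_mul_of_nonneg_left h3 (by positivity)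
    _ = _ := by ring

lemma inG_of {δa ρa : ℝ} (hX : 1 ≤ X) (hδ : δ₁ ≤ δa) (hρ : ρ₁ ≤ ρa)
    (K : ∀ (a : Bc × ℕ) (ps : List Pq), ps.length ≤ N →
      (∀ p ∈ ps, Dq.lump p ∨ Dq.nl X p ≤ δa) → ∀ q ∈ DomG Cf Par lo hi,
      Win (lev (Real.log 2) S8) q.1 δa N (B + 2) ρa X a →
      (∀ t, |Dq.mass X ps t - q.2 t| ≤ δa) → Dq.Good X ρa (B + 2) ps →
      (∀ p ∈ ps, Dq.lump p → ((lev (Real.log 2) S8).ev X a, Dq.nl X p) ∈
        (∅ : Set ((Option ((Fin 3 ⊕ Fin 5) ⊕ Fin 3) → ℝ) × ℝ))) →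
      HnGg π h E1f e0 Rf lam a ps ≤ X ^ (cκ (fun i => q.1 (some (.inl i))) +
        ∑ i : Fin 3, q.1 (some (.inr i)) + LH (fun i => q.1 (some (.inl i))) + ε₁)) :
    InG π h E1f e0 Rf lam Cf Par lo hi LH X δ₁ ρ₁ B ε₁ N := fun a ps hgt h1 h2 q hq hw hm hg hl =>
  by
  have h3 := K a ps h1 (fun p hp => (h2 p hp).imp id fun h => h.trans hδ) q hq
    (hw.mono hX hδ le_rfl le_rfl hρ) (fun t => (hm t).trans hδ) (Good_mono hX hg hρ) hl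
  unfold HnGg at h3
  rwa [if_pos hgt] at h3

end

set_option maxHeartbeats 1000000 in
/-- **the common theorem** -/
theorem hiG_of {Λ : Type*} {π : Λ → DPar} (hπ : ∀ l, (π l).OK) {h : ℝ → ℝ} {c : ℝ}
    (hpu : PU h c) {Rh : ℝ} (hRh0 : 0 ≤ Rh) (hRh : ∀ u, cx h u ≠ 0 → |u| ≤ Rh) {e0 : ℝ}
    (r : ℝ) (he0 : 0 ≤ e0) (he1 : e0 ≤ 1) {E1f : ℝ → ℝ} (hE0 : ∀ l, 0 ≤ E1f l)
    (hE1 : ∀ l, 0 ≤ l → E1f l ≤ Real.exp l) {Cf : (Fin 3 ⊕ Fin 5 → ℝ) → ℝ}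
    {Par : Set (Fin 3 ⊕ Fin 5 → ℝ)}
    {lo hi LH : (Fin 3 ⊕ Fin 5 → ℝ) → ℝ} (hPar : ∀ p ∈ Par, ParOK p)
    (hLH : ∀ p ∈ Par, 0 ≤ cκ p + LH p) (hC0 : ∀ p ∈ Par, 0 ≤ Cf p)
    (hC1 : ∀ p ∈ Par, cκ p / 2 - 2 * cx' p ≤ Cf p)
    (hN : ∀ R : Λ → ℝ, (∀ lam, 0 ≤ R lam) → UB (lev (Real.log 2) S8) Dq (HnGg π h E1f e0 R)
      (DomG Cf Par lo hi) ∅ (fun q => cκ (fun i => q.1 (some (.inl i))) +
        ∑ i : Fin 3, q.1 (some (.inr i)) + LH (fun i => q.1 (some (.inl i)))))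
    (Sf : ℕ → SF Λ) (T : Bd → Finset (Fin 3 → Eis))
    (hSf : ∀ i lam a k, SF.at (Sf i) lam a k = (pC : ℂ) * SSD (T a)
      (fun j => pc h (Pt (π lam.1) lam.2 (vsO a j))) (E1f a.l) (Real.exp (e0 * a.l))
      (Jo a.l (a3 a) a.z) (omL i) k)
    (hT : ∀ a, T a ⊆ PTb (Fin 3) (Yr r a) (Real.exp (bfO a.l (∑ j, (vsO a j).z) a.z)))
    (hTc : ∀ (P : DPar) (t₀ : Eis) (p : Fin 3 ⊕ Fin 5 → ℝ) (X δ ρ B : ℝ) (N : ℕ) (a : Bd),
      Fv P t₀ p X δ ρ B Rh N a → p ∈ Par → ∀ β ∈ T a,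
      ∑ j, (vsO a j).z - Real.log (nm (∏ j, β j)) ≤ (Cf p + 4 * δ) * Real.log X)
    (al : Set ((Option (Fin 3 ⊕ Fin 5) → ℝ) × ℝ)) :
    ∀ R : Λ → ℝ, (∀ lam, 0 ≤ R lam) → UB (lev (Real.log 2) S5) Dq
    (fun lam (a : Bd × ℕ) _ => if a.2 < nL a.1.l (a3 a.1) a.1.z then
      HiF π (Sf a.2) R lam a.1 else 0)
    {q | (fun i => q.1 (some i)) ∈ Par ∧ lo (fun i => q.1 (some i)) ≤ q.1 none ∧
      q.1 none ≤ hi (fun i => q.1 (some i))} al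
    (fun q => cκ (fun i => q.1 (some i)) + cN (fun i => q.1 (some i)) +
      LH (fun i => q.1 (some i))) := by
  intro R hR ε hε
  obtain ⟨δa, hδa, K⟩ := hN R hR (ε / 4) (by positivity)
  set δ := min (δa / 1600) (min (ε / 4820) (1 / 240)) with hδ
  have hδ0 : 0 < δ := lt_min (by positivity) (lt_min (by positivity) (by norm_num))
  have d1 : δ ≤ δa / 1600 := min_le_left _ _
  have d2 : δ ≤ ε / 4820 := (min_le_right _ _).trans (min_le_left _ _)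
  have d3 : δ ≤ 1 / 240 := (min_le_right _ _).trans (min_le_right _ _)
  refine ⟨δ, hδ0, fun lam N B => ?_⟩
  obtain ⟨ρ₁, hρ₁0, Xa, hXa, K'⟩ := K lam N (max B 0 + 2)
  have hρ0 : 0 < ρ₁ / 2 := by positivity
  -- constants
  set M : ℝ := 401 / (ρ₁ / 2) with hM
  have hM0 : 0 ≤ M := by positivity
  obtain ⟨Cs, hCs, hsep⟩ := std_sep hpu hRh0 hRh M
  obtain ⟨H, hH⟩ := exists_bd hpu.cd.continuous hpu.cs
  obtain ⟨Hw, hHw⟩ := exists_bd FE47.contDiff_hD.continuous FE47.hasCompactSupport_hD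
  have hHw' : ∀ u, ‖((FE47.hD u : ℝ) : ℂ)‖ ≤ Hw := hHw
  have hε' : 0 < ε / 16 := by positivity
  obtain ⟨C, hC, key⟩ := hiG_m.{_} hε'
  set K₀ : ℝ := C * (‖(pC : ℂ)‖ ^ 2 * Cs ^ 3) with hK₀
  -- large `X`
  have hlim : ∀ᶠ X : ℝ in atTop, (Xa ≤ X ∧ 200 ≤ X ∧ H ≤ X) ∧ (Bth ≤ X ∧
      ‖(pC : ℂ)‖ ≤ X ∧ Hw ≤ X ∧ 2 * Real.exp (R lam.1) ≤ X) ∧
      (100 * Rh / δ ≤ Real.log X ∧ 2 ≤ X ^ (ρ₁ / 2) ∧ K₀ ≤ X ^ (ε / 4)) := by
    refine ((eventually_ge_atTop _).and ((eventually_ge_atTop _).and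
      (eventually_ge_atTop _))).and (((eventually_ge_atTop _).and ((eventually_ge_atTop _).and
      ((eventually_ge_atTop _).and (eventually_ge_atTop _)))).and ?_)
    exact (Real.tendsto_log_atTop.eventually_ge_atTop _).and
      (((tendsto_rpow_atTop hρ0).eventually_ge_atTop _).and
      ((tendsto_rpow_atTop (by positivity)).eventually_ge_atTop _))
  obtain ⟨X₀, hX₀⟩ := eventually_atTop.1 hlim
  refine ⟨ρ₁ / 2, hρ0, max X₀ 2, lt_of_lt_of_le (by norm_num) (le_max_right _ _), ?_⟩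
  intro X hX a ps _ _ q hq hw _ _ _
  obtain ⟨⟨x1, x3, x4⟩, ⟨x5, x6, x7, x8⟩, x10, x11, x12⟩ :=
    hX₀ X ((le_max_left _ _).trans hX)
  have hX1 : 1 < X := by linarith
  have hX0 : 0 < X := by linarith
  have hL : 0 < Real.log X := Real.log_pos hX1
  obtain ⟨hq1, hq2, hq3⟩ := hq
  show (if a.2 < nL a.1.l (a3 a.1) a.1.z then HiF π (Sf a.2) R lam a.1 else 0) ≤ _
  by_cases hgt : a.2 < nL a.1.l (a3 a.1) a.1.z
  swap
  · rw [if_neg hgt]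
    positivity
  rw [if_pos hgt]
  by_cases hif : a.1.ok ∧ lam.2 ∈ SM (π lam.1).n
  swap
  · unfold HiF
    rw [if_neg hif]
    positivity
  obtain ⟨hok, ht⟩ := hif
  have hpar := hPar _ hq1
  have F : Fv (π lam.1) lam.2 (fun i => q.1 (some i)) X δ (ρ₁ / 2) (max B 0) Rh N a.1 :=
    ⟨hX1, hπ _, hok, ht, hpar, ⟨fun i => hw.ev (some i), hw.g, hw.n, hw.s₁,
      hw.s₂.trans (Real.rpow_le_rpow_of_exponent_le hX1.le (le_max_left _ _))⟩, hRh0,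
      by rwa [div_le_iff₀ hδ0, mul_comm (Real.log X)] at x10, hδ0.le, by linarith⟩
  have hS : Siz X H Hw e0 (R lam.1) Rh :=
    { c := x3, h := x4, b := x5, p := x6, w := x7, r := x8, e := he0, e1 := he1 }
  have hE1' : E1f a.1.l ≤ X ^ 3 := by
    refine (hE1 _ F.l0).trans ?_
    have h1 := F.el (e := 1) le_rfl
    rw [one_mul] at h1
    exact h1.trans (pow_le_pow_right₀ hX1.le (by norm_num))
  refine (hiG_le_M2 (hSf a.2 lam a.1)).trans ?_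
  have hbound := key (c := c) (R := Rh) (H := H) (Hw := Hw) (M := M) (Cs := Cs) (r := r) (X := X)
    (δ := δ) (δ₁ := δa) (ρ := ρ₁ / 2) (ρ₁ := ρ₁) (B := max B 0) (ε₁ := ε / 4) (e0 := e0)
    (v := q.1 none) (N := N) (i := a.2) (π := π) (h := h) (E1f := E1f) (Rf := R) (lam := lam)
    (a := a.1)
    (p := fun i => q.1 (some i)) (Cf := Cf) (Par := Par) (lo := lo) (hi := hi) (LH := LH)
    hpu.cpos hRh hH hHw' hM0 hsep hCs hS (hE0 _) hE1'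
    (by
      have e1 : X ^ ρ₁ = X ^ (ρ₁ / 2) * X ^ (ρ₁ / 2) := by
        rw [← Real.rpow_add hX0]; congr 1; ring
      rw [e1]
      exact mul_le_mul_of_nonneg_right x11 (by positivity)) hρ0.le (by linarith)
    (by linarith) (le_max_right _ _) (by rw [hM]; field_simp; exact le_rfl) (hLH _ hq1)
    (by positivity) hq1
    (inG_of hX1.le le_rfl le_rfl (K' X x1)) hgt hq2 hq3 (hw.ev none) (hC0 _ hq1) (hC1 _ hq1) F
    (T a.1) (hT a.1) (hTc _ _ _ _ _ _ _ _ _ F hq1)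
  refine hbound.trans ?_
  have hW := WV_le (LH := LH) (ε₁ := ε / 4) (ε := ε) F le_rfl (by linarith)
  set E := cκ (fun i => q.1 (some i)) + cN (fun i => q.1 (some i)) + LH (fun i => q.1 (some i))
    with hE
  calc C * (‖(pC : ℂ)‖ ^ 2 * (Cs ^ 3 * WV LH (fun i => q.1 (some i)) X δ (ε / 4) Rh a.1 *
      X ^ (4 * (ε / 16)))) = K₀ * (WV LH (fun i => q.1 (some i)) X δ (ε / 4) Rh a.1 *
      X ^ (4 * (ε / 16))) := by rw [hK₀]; ring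
    _ ≤ X ^ (ε / 4) * (X ^ (E + ε / 2) * X ^ (4 * (ε / 16))) :=
        mul_le_mul x12 (mul_le_mul_of_nonneg_right hW (by positivity))
          (mul_nonneg (WV_pos hX0).le (by positivity)) (by positivity)
    _ = X ^ (E + ε) := by
        rw [← Real.rpow_add hX0, ← Real.rpow_add hX0]
        congr 1
        ring

/-- **HiDg** : the second moment of the `e`-blocks, all levels between `lo` and `hi`, gated -/
def HiDg {Λ : Type*} (π : Λ → DPar) (h : ℝ → ℝ) (e1 e0 r : ℝ) (Bf : ℝ → ℝ → ℝ → ℝ)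
    (Par : Set (Fin 3 ⊕ Fin 5 → ℝ))
    (lo hi LH : (Fin 3 ⊕ Fin 5 → ℝ) → ℝ) (al : Set ((Option (Fin 3 ⊕ Fin 5) → ℝ) × ℝ)) : Prop :=
  ∀ R : Λ → ℝ, (∀ lam, 0 ≤ R lam) → UB (lev (Real.log 2) S5) Dq
    (fun lam (a : Bd × ℕ) _ => if a.2 < nL a.1.l (a3 a.1) a.1.z then
      HiF π (SfD π h e1 e0 r Bf Jo a.2) R lam a.1 else 0)
    {q | (fun i => q.1 (some i)) ∈ Par ∧ lo (fun i => q.1 (some i)) ≤ q.1 none ∧
      q.1 none ≤ hi (fun i => q.1 (some i))} al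
    (fun q => cκ (fun i => q.1 (some i)) + cN (fun i => q.1 (some i)) +
      LH (fun i => q.1 (some i)))

/-- **HiBg** : the second moment of the powerful tuples above the cut `b l`, gated -/
def HiBg {Λ : Type*} (π : Λ → DPar) (h : ℝ → ℝ) (e0 r b : ℝ) (Par : Set (Fin 3 ⊕ Fin 5 → ℝ))
    (lo hi LH : (Fin 3 ⊕ Fin 5 → ℝ) → ℝ) (al : Set ((Option (Fin 3 ⊕ Fin 5) → ℝ) × ℝ)) : Prop :=
  ∀ R : Λ → ℝ, (∀ lam, 0 ≤ R lam) → UB (lev (Real.log 2) S5) Dq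
    (fun lam (a : Bd × ℕ) _ => if a.2 < nL a.1.l (a3 a.1) a.1.z then
      HiF π (SfB π h e0 r (bC b) bfO Jo a.2) R lam a.1 else 0)
    {q | (fun i => q.1 (some i)) ∈ Par ∧ lo (fun i => q.1 (some i)) ≤ q.1 none ∧
      q.1 none ≤ hi (fun i => q.1 (some i))} al
    (fun q => cκ (fun i => q.1 (some i)) + cN (fun i => q.1 (some i)) +
      LH (fun i => q.1 (some i)))

/-- the `e`-blocks as a tuple sum -/
lemma at_SfD {Λ : Type*} (π : Λ → DPar) (h : ℝ → ℝ) (e1 e0 r : ℝ) (Bf : ℝ → ℝ → ℝ → ℝ) (i : ℕ)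
    (lam : Λ × Eis) (a : Bd) (k : Eis) : SF.at (SfD π h e1 e0 r Bf Jo i) lam a k =
    (pC : ℂ) * SSD (PTb (Fin 3) (Yr r a) (Real.exp (Bf a.l (∑ j, (vsO a j).z) a.z)))
      (fun j => pc h (Pt (π lam.1) lam.2 (vsO a j))) (Real.exp (e1 * a.l)) (Real.exp (e0 * a.l))
      (Jo a.l (a3 a) a.z) (omL i) k := by
  rw [← SSD_eq]
  unfold SF.at SfD SfV SfJ SSb Yr
  rw [vec3, a3_eq]
  ring

open Classical in
lemma sst_sub {κ : Type*} [Fintype κ] {T0 T1 : Finset (κ → Eis)} (hsub : T1 ⊆ T0)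
    (f : κ → Eis → ℂ) (E0 : ℝ) (J : Finset (Eis × Eis)) (om : Eis × Eis → ℂ) (k : Eis) :
    SST T0 f E0 J om k - SST T1 f E0 J om k =
      SSD (T0.filter fun β => β ∉ T1) f 0 E0 J om k := by
  unfold SST SSD
  have e1 : T0.filter (fun β => β ∉ T1) = T0 \ T1 := by
    ext β; simp [Finset.mem_sdiff]
  rw [e1, ← Finset.sum_sdiff hsub, add_sub_cancel_right]
  refine sum_congr rfl fun β _ => ?_
  rw [StD_zero]

open Classical in
/-- the tuples above a cut as a tuple sum -/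
lemma at_SfB {Λ : Type*} (π : Λ → DPar) (h : ℝ → ℝ) (e0 r : ℝ) (B1 B0 : ℝ → ℝ → ℝ → ℝ)
    (hB : ∀ l N z, B1 l N z ≤ B0 l N z) (i : ℕ)
    (lam : Λ × Eis) (a : Bd) (k : Eis) : SF.at (SfB π h e0 r B1 B0 Jo i) lam a k =
    (pC : ℂ) * SSD ((PTb (Fin 3) (Yr r a) (Real.exp (B0 a.l (∑ j, (vsO a j).z) a.z))).filter
        (fun β => β ∉ PTb (Fin 3) (Yr r a) (Real.exp (B1 a.l (∑ j, (vsO a j).z) a.z))))
      (fun j => pc h (Pt (π lam.1) lam.2 (vsO a j))) 0 (Real.exp (e0 * a.l))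
      (Jo a.l (a3 a) a.z) (omL i) k := by
  rw [← sst_sub (fun β hβ => by
    rw [mem_PTb] at hβ ⊢
    exact ⟨hβ.1, hβ.2.trans (Real.exp_le_exp.2 (hB _ _ _))⟩)]
  unfold SF.at SfB SfV SfJ SSb Yr
  rw [vec3, a3_eq]
  ring

set_option maxHeartbeats 1000000 in
/-- **HiD from one natural triple** -/
theorem hiDg_of {Λ : Type*} {π : Λ → DPar} (hπ : ∀ l, (π l).OK) {h : ℝ → ℝ} {c : ℝ}
    (hpu : PU h c) {Rh : ℝ} (hRh0 : 0 ≤ Rh) (hRh : ∀ u, cx h u ≠ 0 → |u| ≤ Rh) {e1 e0 : ℝ}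
    (r : ℝ) (he0 : 0 ≤ e0) (he1 : e0 ≤ 1) (he1' : e1 ≤ 1) {Bf : ℝ → ℝ → ℝ → ℝ}
    (hBf : ∀ l N z, Bf l N z ≤ bfO l N z) {Par : Set (Fin 3 ⊕ Fin 5 → ℝ)}
    {lo hi LH : (Fin 3 ⊕ Fin 5 → ℝ) → ℝ} (hPar : ∀ p ∈ Par, ParOK p)
    (hLH : ∀ p ∈ Par, 0 ≤ cκ p + LH p) (hN : HNDg π h e1 e0 Par lo hi LH)
    (al : Set ((Option (Fin 3 ⊕ Fin 5) → ℝ) × ℝ)) : HiDg π h e1 e0 r Bf Par lo hi LH al := by
  have key := hiG_of hπ hpu hRh0 hRh r he0 he1 (E1f := fun l => Real.exp (e1 * l))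
    (fun l => (Real.exp_pos _).le) (fun l hl => Real.exp_le_exp.2 (mul_le_of_le_one_left hl he1'))
    (Cf := fun p => max (cN p) (cκ p / 2 - 2 * cx' p)) (lo := lo) (hi := hi) (LH := LH)
    hPar hLH
    (fun p hp => le_max_of_le_left (by
      have h1 := (hPar p hp).N0
      have h2 := (hPar p hp).κ0
      linarith))
    (fun p hp => le_max_right _ _)
    (fun R hR => by
      rw [hnGg_D]
      intro ε hε
      obtain ⟨δ, hδ, K⟩ := hN R hR ε hε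
      refine ⟨δ, hδ, fun lam N B => ?_⟩
      obtain ⟨η, hη, X₀, hX₀, K'⟩ := K lam N B
      exact ⟨η, hη, X₀, hX₀, fun X hX a ps g1 g2 q hq => K' X hX a ps g1 g2 q hq.1⟩)
    (fun i => SfD π h e1 e0 r Bf Jo i)
    (fun a => PTb (Fin 3) (Yr r a) (Real.exp (Bf a.l (∑ j, (vsO a j).z) a.z)))
    (fun i lam a k => at_SfD π h e1 e0 r Bf i lam a k)
    (fun a β hβ => by
      rw [mem_PTb] at hβ ⊢
      exact ⟨hβ.1, hβ.2.trans (Real.exp_le_exp.2 (hBf _ _ _))⟩)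
    (fun P t₀ p X δ ρ B N a F hp β hβ => by
      have hL := F.L0
      have hvs := abs_le.1 F.vsum
      have hn1 : (1 : ℝ) ≤ nm (∏ j, β j) := nmP (mem_PT (mem_PTb.1 hβ).1)
      have h1 : 0 ≤ Real.log (nm (∏ j, β j)) := Real.log_nonneg hn1
      have h2 : cN p * Real.log X ≤ max (cN p) (cκ p / 2 - 2 * cx' p) * Real.log X :=
        mul_le_mul_of_nonneg_right (le_max_left _ _) hL.le
      have h3 : 0 ≤ δ * Real.log X := mul_nonneg F.d0 hL.le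
      show _ ≤ (max (cN p) (cκ p / 2 - 2 * cx' p) + 4 * δ) * Real.log X
      rw [add_mul]
      linarith)
    al
  exact key

set_option maxHeartbeats 1000000 in
/-- **HiB from one natural triple which lost `b κ`** -/
theorem hiBg_of {Λ : Type*} {π : Λ → DPar} (hπ : ∀ l, (π l).OK) {h : ℝ → ℝ} {c : ℝ}
    (hpu : PU h c) {Rh : ℝ} (hRh0 : 0 ≤ Rh) (hRh : ∀ u, cx h u ≠ 0 → |u| ≤ Rh) {e0 b : ℝ}
    (r : ℝ) (he0 : 0 ≤ e0) (he1 : e0 ≤ 1) (hb0 : 0 ≤ b) (hb1 : b ≤ 1)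
    {Par : Set (Fin 3 ⊕ Fin 5 → ℝ)}
    {lo hi LH : (Fin 3 ⊕ Fin 5 → ℝ) → ℝ} (hPar : ∀ p ∈ Par, ParOK p)
    (hκx : ∀ p ∈ Par, 0 ≤ cκ p / 2 - 2 * cx' p)
    (hLH : ∀ p ∈ Par, 0 ≤ cκ p + LH p) (hN : HNBg π h e0 b Par lo hi LH)
    (al : Set ((Option (Fin 3 ⊕ Fin 5) → ℝ) × ℝ)) : HiBg π h e0 r b Par lo hi LH al := by
  classical
  have key := hiG_of hπ hpu hRh0 hRh r he0 he1 (E1f := fun _ => 0)
    (fun l => le_rfl) (fun l hl => (Real.exp_pos _).le)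
    (Cf := fun p => max (cN p - b * cκ p) (cκ p / 2 - 2 * cx' p)) (lo := lo) (hi := hi)
    (LH := LH) hPar hLH
    (fun p hp => le_max_of_le_right (hκx p hp))
    (fun p hp => le_max_right _ _)
    (fun R hR => by
      rw [hnGg_C]
      exact hN R hR)
    (fun i => SfB π h e0 r (bC b) bfO Jo i)
    (fun a => (PTb (Fin 3) (Yr r a) (Real.exp (bfO a.l (∑ j, (vsO a j).z) a.z))).filter
        (fun β => β ∉ PTb (Fin 3) (Yr r a) (Real.exp (bC b a.l (∑ j, (vsO a j).z) a.z))))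
    (fun i lam a k => at_SfB π h e0 r (bC b) bfO (fun l N z => min_le_right _ _) i lam a k)
    (fun a => Finset.filter_subset _ _)
    (fun P t₀ p X δ ρ B N a F hp β hβ => by
      have hL := F.L0
      have hvs := abs_le.1 F.vsum
      have hlz := abs_le.1 F.lz
      rw [mem_filter, mem_PTb, mem_PTb] at hβ
      obtain ⟨⟨g1, g2⟩, g3⟩ := hβ
      have hn1 : (1 : ℝ) ≤ nm (∏ j, β j) := nmP (mem_PT g1)
      have hn : (0 : ℝ) < nm (∏ j, β j) := by linarith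
      have g4 : Real.exp (bC b a.l (∑ j, (vsO a j).z) a.z) < nm (∏ j, β j) := by
        by_contra h0
        exact g3 ⟨g1, not_lt.1 h0⟩
      have g5 : bC b a.l (∑ j, (vsO a j).z) a.z < Real.log (nm (∏ j, β j)) :=
        (Real.lt_log_iff_exp_lt hn).2 g4
      have g6 : Real.log (nm (∏ j, β j)) ≤ bfO a.l (∑ j, (vsO a j).z) a.z :=
        (Real.log_le_iff_le_exp hn).2 g2
      have g7 : b * a.l < Real.log (nm (∏ j, β j)) := by
        unfold bC at g5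
        rcases min_lt_iff.1 g5 with h1 | h1
        · exact h1
        · linarith
      have h3 : 0 ≤ δ * Real.log X := mul_nonneg F.d0 hL.le
      have h4 : b * (cκ p * Real.log X - δ * Real.log X) ≤ b * a.l :=
        mul_le_mul_of_nonneg_left (by linarith) hb0
      have h5 : b * (δ * Real.log X) ≤ δ * Real.log X := mul_le_of_le_one_left h3 hb1
      have h2 : (cN p - b * cκ p) * Real.log X ≤
          max (cN p - b * cκ p) (cκ p / 2 - 2 * cx' p) * Real.log X :=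
        mul_le_mul_of_nonneg_right (le_max_left _ _) hL.le
      show _ ≤ (max (cN p - b * cκ p) (cκ p / 2 - 2 * cx' p) + 4 * δ) * Real.log X
      rw [add_mul]
      have h6 : (cN p - b * cκ p) * Real.log X = cN p * Real.log X - b * (cκ p * Real.log X) := by
        ring
      have h7 : b * (cκ p * Real.log X - δ * Real.log X) =
        b * (cκ p * Real.log X) - b * (δ * Real.log X) := by ring
      linarith)
    al
  exact key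

end Crest.Agent.R017.Hi948
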