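import Crest.Agent.R017.HiDXa_50
import Crest.Agent.R017.Hi5_54

/-!
# Row 17, exceptional class, REST of StrUX (helper50), part 2

* **`hiDX_of`** : `HNDX` (one difference, one level, `e`-range) implies `HiDX`
-/

set_option autoImplicit false

noncomputable section

open Finset Filter
open scoped ComplexConjugate

namespace Crest.Agent.R017.HiD50

open Crest.Agent.R012 Crest.Agent.R012.Eis
open Crest.Agent.R012.Mob705 hiding pb mem_pb
open Crest.Agent.R012.LS2 (S mem_S)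
open Crest.Agent.R017.CM106 Crest.Agent.R017.C70
open Crest.Agent.R017.FE47 (PU cx SM)
open Crest.Agent.R017.StD828 (ln Tm)
open Crest.Agent.R017.E2440 (TE StE)
open Crest.Agent.R017.E5k54 (PT alb)
open Crest.Agent.R017.SSb54 (SST SSb PTb mem_PTb PTb_sub)
open Crest.Agent.R017.P1e54 Crest.Agent.R017.P1f54 Crest.Agent.R017.P1h54
open Crest.Agent.R017.P1i54 Crest.Agent.R017.P1k54
open Crest.Agent.R017.P1l54 hiding nO
open Crest.Agent.R017.HP842 (Pc pc al alL cv Tu mem_Tu sqc Th)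
open Crest.Agent.R017.B770 Crest.Agent.R017.Prov71
open Crest.Agent.R017.XG702 (Pcs Good_mono)
open Crest.Agent.R017.XT71 (Sys Win mx mx_le le_mx)
open Crest.Agent.R017.UM71
open Crest.Agent.R017.E5P571 (PB mem_PB PC)
open Crest.Agent.R017.E5B71 Crest.Agent.R017.E5L770
open Crest.Agent.R017.ExBox960 Crest.Agent.R017.ExP960
open Crest.Agent.R017.Sf770
open Crest.Agent.R017.E5LX770 (SfEV SfEOV bfE atEV)
open Crest.Agent.R017.P1X960
open Crest.Agent.R017.Hi354 (M2_const)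
open Crest.Agent.R017.Hi454
open Crest.Agent.R017.Hi554 (cut3 ParZ FZ nrm log_prod3 tZ WZ at_EV)

section

variable {Λ : Type*} {π : Λ → DPar} {h : ℝ → ℝ} {e1 e0 : ℝ} {Rf : Λ → ℝ} {lam : Λ × Eis}
  {c β : ℝ} {Par : Set (Fin 3 ⊕ Fin 5 → ℝ)} {lo hi LH : (Fin 3 ⊕ Fin 5 → ℝ) → ℝ} {p : IX5 → ℝ}
  {v X δ δ₁ ρ ρ₁ B ε₁ : ℝ} {N i : ℕ} {a : BdX} {b : Fin 3 → Eis}

/-- the input `HNDX` for one `lam` and scale -/
def InHD (π : Λ → DPar) (h : ℝ → ℝ) (e1 e0 : ℝ) (Rf : Λ → ℝ) (lam : Λ × Eis) (c β : ℝ)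
    (Par : Set (Fin 3 ⊕ Fin 5 → ℝ)) (lo hi LH : (Fin 3 ⊕ Fin 5 → ℝ) → ℝ) (X δ₁ ρ₁ B ε₁ : ℝ)
    (N : ℕ) : Prop :=
  ∀ (a : BcX × ℕ) (ps : List Pq), ps.length ≤ N →
      (∀ p ∈ ps, Dq.lump p ∨ Dq.nl X p ≤ δ₁) → ∀ q ∈ DomHX c β Par lo hi,
      Win (lev (Real.log 2) S8X) q.1 δ₁ N (B + 2) ρ₁ X a →
      (∀ t, |Dq.mass X ps t - q.2 t| ≤ δ₁) → Dq.Good X ρ₁ (B + 2) ps →
      (∀ p ∈ ps, Dq.lump p → ((lev (Real.log 2) S8X).ev X a, Dq.nl X p) ∈
        (∅ : Set ((Option I8X → ℝ) × ℝ))) →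
      HndX π h e1 e0 Rf lam a ps ≤ X ^ (EHX LH q + ε₁)

/-- **the child bound** -/
theorem useHD (F : FZ (π lam.1) lam.2 c β lo hi p v X δ ρ B N i a) (hPar : prX p ∈ Par)
    (HH : InHD π h e1 e0 Rf lam c β Par lo hi LH X δ₁ ρ₁ B ε₁ N) (hδ : 40 * δ ≤ δ₁) (hρ : ρ ≤ ρ₁)
    (hρ₁ : 0 ≤ ρ₁) (hB : 0 ≤ B) (hb : ∀ j, IsPrim (b j))
    (hE : Real.log (nm (∏ j, b j)) ≤ bfE c i a.l (a3 a.toBd) a.z) (hgt : i < nO a.toBd) :
    M2 (uM (Rf lam.1) (Real.exp a.l) (Real.exp (a.l / 20))) (fun k =>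
      StE (Real.exp (e0 * a.l)) (JS (nO a.toBd)) (omL i)
        (xD h (π lam.1) lam.2 (vX a hb) (dz a) []) k -
      StE (Real.exp (e1 * a.l)) (JS (nO a.toBd)) (omL i)
        (xD h (π lam.1) lam.2 (vX a hb) (dz a) []) k) ≤
      WZ LH p X δ ε₁ * (nm (∏ j, b j) : ℝ)⁻¹ := by
  have hL := F.L0
  have hX0 : 0 < X := by linarith [F.X1]
  have hX1 := F.X1.le
  have hd0 := F.d0
  have hd1 := F.d1
  have hn1 : (1 : ℝ) ≤ nm (∏ j, b j) := nmP hb
  have hn : (0 : ℝ) < nm (∏ j, b j) := by linarith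
  have he0 : ∀ j, 0 ≤ Real.log (nm (b j)) / Real.log X := fun j => by
    refine div_nonneg (Real.log_nonneg ?_) hL.le
    exact_mod_cast nm_pos.2 (hb j).ne_zero
  have hsz : ∑ j, Real.log (nm (b j)) / Real.log X ≤ tZ c v (prX p) + 10 * δ := by
    rw [← Finset.sum_div, ← log_prod3 hb]
    exact F.size hE
  obtain ⟨e', a1, a2, a3', a4⟩ := cut3 he0 F.t0' (by linarith : (0 : ℝ) ≤ 10 * δ) hsz
  have hle : ∀ j, Real.log (nm (b j)) / Real.log X ≤ tZ c v (prX p) + 10 * δ := fun j =>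
    (single_le_sum (f := fun j => Real.log (nm (b j)) / Real.log X) (fun j _ => he0 j)
      (mem_univ j)).trans hsz
  have hle' : ∀ j, e' j ≤ tZ c v (prX p) := fun j =>
    (single_le_sum (f := e') (fun j _ => a1 j) (mem_univ j)).trans a4
  have hzr : β * cκ (prX p) ≤ p (.inr 1) ∧ p (.inr 1) ≤ β := F.zr 1
  have ht1 := F.t1
  -- lengths
  have hz : ∀ j, (vX a hb j).z = (u3 a j).z - Real.log (nm (b j)) := fun j => rfl
  have hlog : ∀ j, Real.log (nm (b j)) ≤ (tZ c v (prX p) + 10 * δ) * Real.log X := fun j => by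
    have := hle j
    rwa [div_le_iff₀ hL] at this
  have hz0 : ∀ j, 0 ≤ (vX a hb j).z := fun j => by
    rw [hz]
    have h1 := (abs_le.1 (F.uz j)).1
    have h2 := hlog j
    have h3 := mul_le_mul_of_nonneg_right (F.t3 j) hL.le
    nlinarith
  have hz2 : 0 ≤ (vX a hb 0).z - dz a := by
    have e1 : (vX a hb 0).z - dz a = a.zs 2 - Real.log (nm (b 0)) := by
      show (a.us 2).z - Real.log (nm (b 0)) - ((a.us 2).z - a.zs 2) = _
      ring
    rw [e1]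
    have h1 := (abs_le.1 F.zs).1
    have h2 := hlog 0
    have h3 := mul_le_mul_of_nonneg_right hzr.1 hL.le
    have h4 := mul_le_mul_of_nonneg_right ht1 hL.le
    nlinarith
  have hz3 : 0 ≤ (vX a hb 1).z + dz a := by
    have e1 : (vX a hb 1).z + dz a =
        (u3 a 1).z - Real.log (nm (b 1)) + ((u3 a 0).z - a.zs 2) := rfl
    rw [e1]
    have h1 := (abs_le.1 (F.uz 1)).1
    have h2 := hlog 1
    have h3 := mul_le_mul_of_nonneg_right (F.t3 1) hL.le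
    have h4 := (abs_le.1 (F.uz 0)).1
    have h5 := (abs_le.1 F.zs).2
    have h6 : p (.inr 1) * Real.log X ≤ cu (prX p) (Fin.natAdd 2 (0 : Fin 3)) * Real.log X :=
      mul_le_mul_of_nonneg_right (hzr.2.trans F.par.u2) hL.le
    nlinarith
  -- the point
  set vv : Fin 3 → ℝ := fun j => cu (prX p) (Fin.natAdd 2 j) - e' j with hvv
  have hsv : vv 0 + vv 1 + vv 2 = cN (prX p) - ∑ j, e' j := by
    rw [Fin.sum_univ_three]
    show cu (prX p) (Fin.natAdd 2 (0 : Fin 3)) - e' 0 +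
      (cu (prX p) (Fin.natAdd 2 (1 : Fin 3)) - e' 1) +
      (cu (prX p) (Fin.natAdd 2 (2 : Fin 3)) - e' 2) =
      cu (prX p) (Fin.natAdd 2 (0 : Fin 3)) + cu (prX p) (Fin.natAdd 2 (1 : Fin 3)) +
        cu (prX p) (Fin.natAdd 2 (2 : Fin 3)) - (e' 0 + e' 1 + e' 2)
    ring
  have hev : ∀ j, |(vX a hb j).z / Real.log X - vv j| ≤ 11 * δ := fun j => by
    have h1 := F.uz j
    have h2 : |(u3 a j).z / Real.log X - cu (prX p) (Fin.natAdd 2 j)| ≤ δ := by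
      have e : (u3 a j).z / Real.log X - cu (prX p) (Fin.natAdd 2 j) =
        ((u3 a j).z - cu (prX p) (Fin.natAdd 2 j) * Real.log X) / Real.log X := by field_simp
      rw [e, abs_div, abs_of_pos hL, div_le_iff₀ hL]
      exact h1
    have h3 := abs_le.1 h2
    rw [hz, sub_div, hvv]
    have h4 := a2 j
    have h5 := a3' j
    rw [abs_le]
    constructor
    · show -(11 * δ) ≤ (u3 a j).z / Real.log X - Real.log (nm (b j)) / Real.log X -
        (cu (prX p) (Fin.natAdd 2 j) - e' j)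
      linarith
    · show (u3 a j).z / Real.log X - Real.log (nm (b j)) / Real.log X -
        (cu (prX p) (Fin.natAdd 2 j) - e' j) ≤ 11 * δ
      linarith
  have hbe : |Real.log (nm (∏ j, b j)) / Real.log X - ∑ j, e' j| ≤ 30 * δ := by
    rw [log_prod3 hb, Finset.sum_div, ← sum_sub_distrib]
    refine (abs_sum_le_sum_abs _ _).trans ?_
    have h3 : ∀ j ∈ (univ : Finset (Fin 3)),
        |Real.log (nm (b j)) / Real.log X - e' j| ≤ 10 * δ := fun j _ => by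
      rw [abs_le]
      constructor <;> linarith [a2 j, a3' j]
    refine (sum_le_sum h3).trans (le_of_eq ?_)
    rw [sum_const, card_univ, Fintype.card_fin, nsmul_eq_mul]
    push_cast
    ring
  have hσ0 : 0 ≤ ∑ j, e' j := sum_nonneg fun j _ => a1 j
  have ht2 : tZ c v (prX p) ≤ cN (prX p) + cx' (prX p) - cκ (prX p) / 2 := min_le_right _ _
  have ht3 : tZ c v (prX p) ≤ (top5 (prX p) - v) / 2 + c * cκ (prX p) := min_le_left _ _
  have hx0 := F.par.x0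
  have hlo0 := F.par.lo0
  have hlo' := F.lo'
  have hv0 : ∀ j, 0 ≤ vv j := fun j => by
    have h1 := F.t3 j
    have h2 := hle' j
    show 0 ≤ cu (prX p) (Fin.natAdd 2 j) - e' j
    linarith
  have hv1 : ∀ j, vv j ≤ cu (prX p) (Fin.natAdd 2 j) := fun j => by
    have h2 := a1 j
    show cu (prX p) (Fin.natAdd 2 j) - e' j ≤ _
    linarith
  have hk := HH ((a, vX a hb, Real.log (nm (∏ j, b j))), i) [] (Nat.zero_le _)
    (fun q hq => absurd hq List.not_mem_nil)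
    (fun o => match o with
      | none => v
      | some j => Sum.elim p ![vv 0, vv 1, vv 2, ∑ j, e' j] j, 0)
    ⟨⟨hPar, F.zr, hv0 0, hv0 1, hv0 2, le_rfl, hx0, hσ0, by
        show 2 * ∑ j, e' j ≤ top5 (prX p) + 2 * c * cκ (prX p)
        linarith, by
        show ∑ j, e' j ≤ cN (prX p) - (vv 0 + vv 1 + vv 2)
        rw [hsv]; linarith, by
        show cN (prX p) - (vv 0 + vv 1 + vv 2) ≤ ∑ j, e' j + (cx' (prX p) - 0)
        rw [hsv]; linarith⟩,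
      ⟨⟨hv1 0, hv1 1, hv1 2⟩, by
        show 0 ≤ vv 0 - (cu (prX p) 2 - p (.inr 1))
        have h1 := hle' 0
        have e1 : vv 0 = cu (prX p) 2 - e' 0 := rfl
        rw [e1]
        linarith [hzr.1], by
        show 0 ≤ vv 1 + (cu (prX p) 2 - p (.inr 1))
        have h1 := hv0 1
        have h2 := hzr.2.trans F.par.u2
        linarith⟩, by
        show ∑ j, e' j = cN (prX p) - (vv 0 + vv 1 + vv 2)
        rw [hsv]; ring, rfl, by
        show cκ (prX p) / 2 ≤ vv 0 + vv 1 + vv 2 + 2 * cx' (prX p)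
        rw [hsv]; linarith, F.lo', F.hi', by
        show v + 2 * ∑ j, e' j ≤ top5 (prX p) + 2 * c * cκ (prX p)
        linarith⟩
    ⟨fun o => by
      rcases o with _ | (j | j)
      · exact F.lv.trans (by linarith)
      · exact (F.w.ev j).trans (by linarith)
      · fin_cases j
        · exact (hev 0).trans (by linarith)
        · exact (hev 1).trans (by linarith)
        · exact (hev 2).trans (by linarith)
        · exact hbe.trans (by linarith), by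
      show (1 : ℝ) ≤ X ^ δ₁
      exact Real.one_le_rpow hX1 (by linarith), Nat.zero_le _, by
      refine max_le (F.w.s₁.trans (Real.rpow_le_rpow_of_exponent_le hX1 hρ)) ?_
      rw [mx_le (Real.one_le_rpow hX1 hρ₁)]
      intro q hq
      obtain ⟨j, rfl⟩ := (List.mem_ofFn' _ _).1 hq
      have h1 : ∀ k : Fin 5, 1 + |(a.us k).t| ≤ X ^ ρ := fun k =>
        ((le_mx (List.mem_ofFn.2 ⟨k, rfl⟩) : Dq.s1 (a.us k) ≤ mx Dq.s1 (List.ofFn a.us)).trans
          ((le_max_right (1 + |a.τ|) _))).trans F.w.s₁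
      have h2 : 1 + |(vX a hb j).t| ≤ X ^ ρ := by
        fin_cases j
        · exact h1 2
        · exact h1 3
        · exact h1 4
      exact h2.trans (Real.rpow_le_rpow_of_exponent_le hX1 hρ), by
      refine max_le (F.w.s₂.trans (Real.rpow_le_rpow_of_exponent_le hX1 (by linarith))) ?_
      rw [mx_le (Real.one_le_rpow hX1 (by linarith))]
      intro q hq
      obtain ⟨j, rfl⟩ := (List.mem_ofFn' _ _).1 hq
      have h1 : ∀ k : Fin 5, (nm (a.us k).d : ℝ) ≤ X ^ B := fun k =>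
        ((le_mx (List.mem_ofFn.2 ⟨k, rfl⟩) : Dq.s2 (a.us k) ≤ mx Dq.s2 (List.ofFn a.us)).trans
          ((le_max_right (nm a.d₃ : ℝ) _))).trans F.w.s₂
      have h2 : (nm (u3 a j).d : ℝ) ≤ X ^ B := by
        fin_cases j
        · exact h1 2
        · exact h1 3
        · exact h1 4
      have h3 : (nm (∏ j, b j) : ℝ) ≤ X ^ (2 : ℝ) := by
        rw [← Real.exp_log hn, Real.rpow_def_of_pos hX0]
        refine Real.exp_le_exp.2 ?_
        rw [log_prod3 hb]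
        have h4 := hlog 0
        have h5 := hlog 1
        have h6 := hlog 2
        rw [Fin.sum_univ_three]
        have h7 := hsz
        rw [← Finset.sum_div, div_le_iff₀ hL, Fin.sum_univ_three] at h7
        have h8 := F.par.N1
        have h9 := F.par.x1
        have h10 := F.par.κ0
        have h11 : (tZ c v (prX p) + 10 * δ) * Real.log X ≤ 2 * Real.log X :=
          mul_le_mul_of_nonneg_right (by linarith) hL.le
        linarith
      show (nm ((u3 a j).d * ((∏ j, b j) * 1)) : ℝ) ≤ X ^ (B + 2)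
      rw [nm_mul, Real.rpow_add hX0, mul_one]
      push_cast
      exact mul_le_mul h2 h3 (Nat.cast_nonneg _) (Real.rpow_nonneg hX0.le _)⟩
    (fun t => by
      rw [Pcs.mass_nil]
      show |(0 : ℝ) - 0| ≤ δ₁
      rw [sub_zero, abs_zero]; linarith) (fun q hq => absurd hq List.not_mem_nil)
    (fun q hq => absurd hq List.not_mem_nil)
  have hdef : HndX π h e1 e0 Rf lam ((a, vX a hb, Real.log (nm (∏ j, b j))), i) [] =
      M2 (uM (Rf lam.1) (Real.exp a.l) (Real.exp (a.l / 20))) (fun k =>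
        StE (Real.exp (e0 * a.l)) (JS (nO a.toBd)) (omL i)
          (xD h (π lam.1) lam.2 (vX a hb) (dz a) []) k -
        StE (Real.exp (e1 * a.l)) (JS (nO a.toBd)) (omL i)
          (xD h (π lam.1) lam.2 (vX a hb) (dz a) []) k) := by
    unfold HndX
    refine if_pos ⟨⟨F.ok, F.t0, fun j => ⟨?_, hz0 j⟩, fun q hq => absurd hq List.not_mem_nil,
      Real.log_nonneg hn1⟩, ⟨hz2, hz3⟩, hgt⟩
    refine chP_lump ?_ _ _ (mod_ne hb isPrim_one) _ _
    fin_cases j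
    · exact (F.ok.base.1 2).1
    · exact (F.ok.base.1 3).1
    · exact (F.ok.base.1 4).1
  rw [← hdef]
  refine hk.trans ?_
  have e1 : (nm (∏ j, b j) : ℝ)⁻¹ = X ^ (-(Real.log (nm (∏ j, b j)) / Real.log X)) := by
    rw [Real.rpow_neg hX0.le, Real.rpow_def_of_pos hX0, mul_div_cancel₀ _ hL.ne',
      Real.exp_log hn]
  unfold WZ
  rw [e1, ← Real.rpow_add hX0]
  refine Real.rpow_le_rpow_of_exponent_le hX1 ?_
  show cκ (prX p) + (vv 0 + vv 1 + vv 2) + LH (prX p) + ε₁ ≤ _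
  rw [hsv]
  have := (abs_le.1 hbe).2
  linarith

end

/-! ### the sum over the powerful tuples -/

section

variable {Λ : Type*} {π : Λ → DPar} {h : ℝ → ℝ} {e1 e0 r : ℝ} {Rf : Λ → ℝ} {lam : Λ × Eis}
  {c β : ℝ} {Par : Set (Fin 3 ⊕ Fin 5 → ℝ)} {lo hi LH : (Fin 3 ⊕ Fin 5 → ℝ) → ℝ} {p : IX5 → ℝ}
  {v X δ δ₁ ρ ρ₁ B ε₁ : ℝ} {N i : ℕ} {a : BdX}

/-- one powerful tuple, one `E0` -/
def GD (π : Λ → DPar) (h : ℝ → ℝ) (lam : Λ × Eis) (i : ℕ) (a : BdX) (e : ℝ) (β : Fin 3 → Eis)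
    (k : Eis) : ℂ :=
  ph a * StE (Real.exp (e * a.l)) (JS (nO a.toBd)) (omL i)
      (alb (fun j : Fin 3 => pc h (Pt (π lam.1) lam.2 (u3 a j))) β) k -
    ph' a * StE (Real.exp (e * a.l)) (JS (nO a.toBd)) (omL i)
      (alb (fun j : Fin 3 => pc h (Pt (π lam.1) lam.2 (u3' a j))) β) k

open Classical in
/-- one level of the structured function, `e`-range -/
lemma at_DX (ha : a.ok) (k : Eis) :
    SFX.at (SfDX π h e1 e0 r (bfE c i) (fun l N z => JS (nL l N z)) i) lam a k =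
    if ∃ w : Eis, k = w ^ 3 then 0 else
      (pC : ℂ) * ∑ β ∈ PTb (Fin 3) ⌊Real.exp (a3 a.toBd + r)⌋₊
          (Real.exp (bfE c i a.l (a3 a.toBd) a.z)), sy k (∏ j, β j) *
        (GD π h lam i a e0 β k - GD π h lam i a e1 β k) := by
  have e1' : SFX.at (SfDX π h e1 e0 r (bfE c i) (fun l N z => JS (nL l N z)) i) lam a k =
      SFX.at (SfEOV π h e0 r c i) lam a k - SFX.at (SfEOV π h e1 r c i) lam a k := rfl
  rw [e1', at_EV ha, at_EV ha]
  split_ifs with hc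
  · rw [sub_zero]
  · rw [← mul_sub, ← sum_sub_distrib]
    congr 1
    refine sum_congr rfl fun β _ => ?_
    rw [← mul_sub]
    rfl

/-- **`HiFX` by the second moment** -/
theorem hiFD_le_M2 {R : Λ → ℝ} (i : ℕ) :
    HiFX π (SfDX π h e1 e0 r (bfE c i) (fun l N z => JS (nL l N z)) i) R lam a ≤
    M2 (uM (R lam.1) (Real.exp a.l) (Real.exp (a.l / 20))) (fun k =>
      (pC : ℂ) * ∑ β ∈ PTb (Fin 3) ⌊Real.exp (a3 a.toBd + r)⌋₊
          (Real.exp (bfE c i a.l (a3 a.toBd) a.z)), sy k (∏ j, β j) *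
        (GD π h lam i a e0 β k - GD π h lam i a e1 β k)) := by
  classical
  unfold HiFX
  split_ifs with hif
  swap
  · exact M2_nonneg (uM_nonneg _ _ _) _
  refine le_trans ?_ (sum_le_M2 (Real.exp_pos a.l) (T := (PB (π lam.1).n
    ⌊Real.exp (a.l + R lam.1)⌋₊).filter (fun k => cutE (Real.exp (a.l / 20)) k ∧
      Real.exp (a.l - R lam.1) ≤ nm k)) (fun k hk => ?_) _)
  · refine le_trans (le_of_eq (sum_congr (by ext k; simp only [mem_filter]) fun k _ => rfl))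
      (sum_le_sum fun k _ => ?_)
    rw [at_DX hif.1]
    split_ifs
    · rw [norm_zero, zero_pow two_ne_zero]
      positivity
    · exact le_rfl
  · rw [mem_filter, mem_PB] at hk
    obtain ⟨⟨h1, h2, -⟩, h3, h4⟩ := hk
    refine ⟨h2, h3, ?_, ?_⟩
    · rw [← Real.exp_add, neg_add_eq_sub]; exact h4
    · have h5 := (Nat.le_floor_iff (Real.exp_pos _).le).1 h1
      rwa [Real.exp_add, mul_comm] at h5

/-- **the bound for one datum** -/
theorem hiFD_m {ε' : ℝ} (hε' : 0 < ε') : ∃ C : ℝ, 0 ≤ C ∧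
    ∀ {c β R r X δ δ₁ ρ ρ₁ B ε₁ e1 e0 v : ℝ} {N i : ℕ} {Λ : Type*} {π : Λ → DPar}
      {h : ℝ → ℝ} {Rf : Λ → ℝ} {lam : Λ × Eis} {a : BdX} {p : IX5 → ℝ}
      {Par : Set (Fin 3 ⊕ Fin 5 → ℝ)} {lo hi LH : (Fin 3 ⊕ Fin 5 → ℝ) → ℝ},
      (∀ u, cx h u ≠ 0 → |u| ≤ R) →
      FZ (π lam.1) lam.2 c β lo hi p v X δ ρ B N i a → prX p ∈ Par →
      InHD π h e1 e0 Rf lam c β Par lo hi LH X δ₁ ρ₁ B ε₁ N → 40 * δ ≤ δ₁ → ρ ≤ ρ₁ →
      0 ≤ ρ₁ → 0 ≤ B → i < nO a.toBd →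
      HiFX π (SfDX π h e1 e0 r (bfE c i) (fun l N z => JS (nL l N z)) i) Rf lam a ≤
        C * (‖(pC : ℂ)‖ ^ 2 * (WZ LH p X δ ε₁ * X ^ (4 * ε'))) := by
  obtain ⟨C1, hC1, key1⟩ := E5d54.sum_pf_tuples (Fin 3) hε'
  refine ⟨C1 * C1, by positivity, ?_⟩
  intro c β R r X δ δ₁ ρ ρ₁ B ε₁ e1 e0 v N i Λ π h Rf lam a p Par lo hi LH hR F hPar HH hδ₁ hρ hρ₁ hB
    hgt
  classical
  have hL := F.L0
  have hX0 : 0 < X := by linarith [F.X1]
  have hX1 := F.X1.le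
  have hWpos : 0 < WZ LH p X δ ε₁ := Real.rpow_pos_of_pos hX0 _
  refine (hiFD_le_M2 (r := r) i).trans ?_
  rw [M2_const]
  set T := PTb (Fin 3) ⌊Real.exp (a3 a.toBd + r)⌋₊ (Real.exp (bfE c i a.l (a3 a.toBd) a.z)) with hT
  have hTp : ∀ b ∈ T, ∀ j, IsPrim (b j) := fun b hb => mem_PT (mem_PTb.1 hb).1
  set G : (Fin 3 → Eis) → Eis → ℂ := fun b k =>
    GD π h lam i a e0 b k - GD π h lam i a e1 b k with hG
  set u := uM (Rf lam.1) (Real.exp a.l) (Real.exp (a.l / 20)) with hu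
  have hu0 : ∀ k, 0 ≤ u k := uM_nonneg _ _ _
  have huf : (Function.support u).Finite := uM_fin (Real.exp_pos _)
  have hpos : ∀ b ∈ T, (0 : ℝ) < nm (∏ j, b j) := fun b hb => by
    have := nmP (hTp b hb); linarith
  have h1 := M2_sum_le hu0 huf T (fun b k => sy k (∏ j, b j) * G b k)
    (fun b => (nm (∏ j, b j) : ℝ) ^ (-(1 / 2 + ε'))) (fun b hb => by
      have := hpos b hb; positivity)
  have hJ : ∀ z ∈ JS (nO a.toBd), z.1 ≠ 0 := fun z hz => ((okJ_JW _ _ _).prim z hz).ne_zero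
  have hsumT : ∑ b ∈ T, (nm (∏ j, b j) : ℝ) ^ (-(1 / 2 + ε')) ≤ C1 := by
    refine le_trans (sum_le_sum_of_subset_of_nonneg (PTb_sub _ _) fun b _ _ =>
      Real.rpow_nonneg (Nat.cast_nonneg _) _) (le_trans (le_of_eq ?_)
        (key1 ⌊Real.exp (a3 a.toBd + r)⌋₊))
    refine sum_congr ?_ fun _ _ => rfl
    unfold PT
    ext b
    simp only [mem_filter, Fintype.mem_piFinset]
  have hterm : ∀ b ∈ T, ((nm (∏ j, b j) : ℝ) ^ (-(1 / 2 + ε')))⁻¹ *
      M2 u (fun k => sy k (∏ j, b j) * G b k) ≤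
      (nm (∏ j, b j) : ℝ) ^ (-(1 / 2 + ε')) * (WZ LH p X δ ε₁ * X ^ (4 * ε')) := by
    intro b hb
    have pb := hTp b hb
    have hn := hpos b hb
    have hn1 : (1 : ℝ) ≤ nm (∏ j, b j) := nmP pb
    have hb2 := (Real.log_le_iff_le_exp hn).2 (mem_PTb.1 hb).2
    have h0 : M2 u (fun k => sy k (∏ j, b j) * G b k) ≤ M2 u (G b) :=
      M2_mono hu0 huf fun k => by
        rw [norm_mul]
        exact mul_le_of_le_one_left (norm_nonneg _)
          (norm_sy_le k (E554.isPrim_prod fun i _ => pb i))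
    have h2 := (h0.trans (dif_childD hR F.hP F.ok pb hu0 huf hJ (Real.exp (e0 * a.l))
      (Real.exp (e1 * a.l)) (omL i))).trans (useHD F hPar HH hδ₁ hρ hρ₁ hB pb hb2 hgt)
    refine (mul_le_mul_of_nonneg_left h2 (by positivity)).trans ?_
    have e1 : (nm (∏ j, b j) : ℝ) ^ (2 * ε') ≤ X ^ (4 * ε') := by
      have h7 := F.size hb2
      have h8 := F.par.N1
      have h9 := F.par.x1
      have h10 := F.par.κ0
      have h11 : min ((top5 (prX p) - v) / 2 + c * cκ (prX p))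
        (cN (prX p) + cx' (prX p) - cκ (prX p) / 2) ≤ _ := min_le_right _ _
      have hd1 := F.d1
      have hd0 := F.d0
      have h12 : Real.log (nm (∏ j, b j)) ≤ 2 * Real.log X := by
        rw [div_le_iff₀ hL] at h7
        refine h7.trans (mul_le_mul_of_nonneg_right (by linarith) hL.le)
      rw [Real.rpow_def_of_pos hn, Real.rpow_def_of_pos hX0]
      refine Real.exp_le_exp.2 ?_
      nlinarith
    have e2 : ((nm (∏ j, b j) : ℝ) ^ (-(1 / 2 + ε')))⁻¹ * (nm (∏ j, b j) : ℝ)⁻¹ =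
        (nm (∏ j, b j) : ℝ) ^ (-(1 / 2 + ε')) * (nm (∏ j, b j) : ℝ) ^ (2 * ε') := by
      rw [← Real.rpow_neg hn.le, ← Real.rpow_neg_one, ← Real.rpow_add hn, ← Real.rpow_add hn]
      congr 1
      ring
    calc ((nm (∏ j, b j) : ℝ) ^ (-(1 / 2 + ε')))⁻¹ *
        (WZ LH p X δ ε₁ * (nm (∏ j, b j) : ℝ)⁻¹) =
        (((nm (∏ j, b j) : ℝ) ^ (-(1 / 2 + ε')))⁻¹ * (nm (∏ j, b j) : ℝ)⁻¹) *
          WZ LH p X δ ε₁ := by ring
      _ = (nm (∏ j, b j) : ℝ) ^ (-(1 / 2 + ε')) * ((nm (∏ j, b j) : ℝ) ^ (2 * ε') *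
          WZ LH p X δ ε₁) := by rw [e2]; ring
      _ ≤ (nm (∏ j, b j) : ℝ) ^ (-(1 / 2 + ε')) * (X ^ (4 * ε') * WZ LH p X δ ε₁) :=
          mul_le_mul_of_nonneg_left (mul_le_mul_of_nonneg_right e1 (by positivity))
            (by positivity)
      _ = _ := by ring
  have h2 := sum_le_sum hterm
  rw [← sum_mul] at h2
  have hW0 : 0 ≤ WZ LH p X δ ε₁ * X ^ (4 * ε') := by positivity
  have h3 : M2 u (fun k => ∑ b ∈ T, sy k (∏ j, b j) * G b k) ≤
      C1 * (C1 * (WZ LH p X δ ε₁ * X ^ (4 * ε'))) := by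
    refine h1.trans (mul_le_mul hsumT (h2.trans (mul_le_mul_of_nonneg_right hsumT hW0)) ?_ hC1)
    exact sum_nonneg fun b _ => mul_nonneg (inv_nonneg.2 (Real.rpow_nonneg (Nat.cast_nonneg _) _))
      (M2_nonneg hu0 _)
  calc ‖(pC : ℂ)‖ ^ 2 * _ ≤ ‖(pC : ℂ)‖ ^ 2 *
      (C1 * (C1 * (WZ LH p X δ ε₁ * X ^ (4 * ε')))) :=
        mul_le_mul_of_nonneg_left h3 (by positivity)
    _ = _ := by ring

lemma inHD_of {δa ρa : ℝ} (hX : 1 ≤ X) (hδ : δ₁ ≤ δa) (hρ : ρ₁ ≤ ρa)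
    (K : ∀ (a : BcX × ℕ) (ps : List Pq), ps.length ≤ N →
      (∀ p ∈ ps, Dq.lump p ∨ Dq.nl X p ≤ δa) → ∀ q ∈ DomHX c β Par lo hi,
      Win (lev (Real.log 2) S8X) q.1 δa N (B + 2) ρa X a →
      (∀ t, |Dq.mass X ps t - q.2 t| ≤ δa) → Dq.Good X ρa (B + 2) ps →
      (∀ p ∈ ps, Dq.lump p → ((lev (Real.log 2) S8X).ev X a, Dq.nl X p) ∈
        (∅ : Set ((Option I8X → ℝ) × ℝ))) →
      HndX π h e1 e0 Rf lam a ps ≤ X ^ (EHX LH q + ε₁)) :
    InHD π h e1 e0 Rf lam c β Par lo hi LH X δ₁ ρ₁ B ε₁ N := fun a ps h1 h2 q hq hw hm hg hl =>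
  K a ps h1 (fun p hp => (h2 p hp).imp id fun h => h.trans hδ) q hq
    (hw.mono hX hδ le_rfl le_rfl hρ) (fun t => (hm t).trans hδ) (Good_mono hX hg hρ) hl

end

set_option maxHeartbeats 1000000 in
/-- **HiDX from one difference** -/
theorem hiDX_of {Λ : Type*} {π : Λ → DPar} (hπ : ∀ l, (π l).OK) {h : ℝ → ℝ}
    {Rh : ℝ} (hRh : ∀ u, cx h u ≠ 0 → |u| ≤ Rh) {e1 e0 : ℝ} (r : ℝ) {c β : ℝ}
    {Par : Set (Fin 3 ⊕ Fin 5 → ℝ)} {lo hi LH : (Fin 3 ⊕ Fin 5 → ℝ) → ℝ}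
    (hPar : ∀ p ∈ Par, ParZ c β lo hi p) (hN : HNDX π h e1 e0 c β Par lo hi LH)
    (al : Set ((Option IX5 → ℝ) × ℝ)) : HiDX π h e1 e0 r c β Par lo hi LH al := by
  intro R hR ε hε
  obtain ⟨δa, hδa, K⟩ := hN R hR (ε / 4) (by positivity)
  set δ := min (δa / 40) (min (ε / 160) (1 / 2000)) with hδ
  have hδ0 : 0 < δ := lt_min (by positivity) (lt_min (by positivity) (by norm_num))
  have d1 : δ ≤ δa / 40 := min_le_left _ _
  have d2 : δ ≤ ε / 160 := (min_le_right _ _).trans (min_le_left _ _)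
  have d3 : δ ≤ 1 / 2000 := (min_le_right _ _).trans (min_le_right _ _)
  refine ⟨δ, hδ0, fun lam N B => ?_⟩
  obtain ⟨ρ₁, hρ₁0, Xa, hXa, K'⟩ := K lam N (max B 0 + 2)
  have hε' : 0 < ε / 16 := by positivity
  obtain ⟨C, hC, key⟩ := hiFD_m.{_} hε'
  set K₀ : ℝ := C * ‖(pC : ℂ)‖ ^ 2 with hK₀
  have hlim : ∀ᶠ X : ℝ in atTop, Xa ≤ X ∧ K₀ ≤ X ^ (ε / 4) :=
    (eventually_ge_atTop _).and ((tendsto_rpow_atTop (by positivity)).eventually_ge_atTop _)
  obtain ⟨X₀, hX₀⟩ := eventually_atTop.1 hlim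
  refine ⟨ρ₁, hρ₁0, max X₀ 2, lt_of_lt_of_le (by norm_num) (le_max_right _ _), ?_⟩
  intro X hX a ps _ _ q hq hw _ _ _
  obtain ⟨x1, x12⟩ := hX₀ X ((le_max_left _ _).trans hX)
  have hX1 : 1 < X := by linarith [(le_max_right X₀ 2).trans hX]
  have hX0 : 0 < X := by linarith
  obtain ⟨hq1, hq4, hq2, hq3⟩ := hq
  show (if a.2 < nL a.1.l (a3 a.1.toBd) a.1.z then
    HiFX π (SfDX π h e1 e0 r (bfE c a.2) (fun l N z => JS (nL l N z)) a.2) R lam a.1 else 0) ≤ _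
  by_cases hgt : a.2 < nL a.1.l (a3 a.1.toBd) a.1.z
  swap
  · rw [if_neg hgt]
    positivity
  rw [if_pos hgt]
  by_cases hif : a.1.ok ∧ lam.2 ∈ SM (π lam.1).n
  swap
  · unfold HiFX
    rw [if_neg hif]
    positivity
  obtain ⟨hok, ht⟩ := hif
  have hpar := hPar _ hq1
  have F : FZ (π lam.1) lam.2 c β lo hi (fun i => q.1 (some i)) (q.1 none) X δ ρ₁ (max B 0) N a.2
      a.1 :=
    ⟨hX1, hπ _, hok, ht, hpar, hq4, ⟨fun i => hw.ev (some i), hw.g, hw.n, hw.s₁,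
      hw.s₂.trans (Real.rpow_le_rpow_of_exponent_le hX1.le (le_max_left _ _))⟩, hw.ev none,
      hq2, hq3, hδ0.le, by linarith⟩
  have hbound := key (c := c) (β := β) (R := Rh) (r := r) (X := X)
    (δ := δ) (δ₁ := δa) (ρ := ρ₁) (ρ₁ := ρ₁) (B := max B 0) (ε₁ := ε / 4) (e1 := e1) (e0 := e0)
    (v := q.1 none) (N := N) (i := a.2) (π := π) (h := h) (Rf := R) (lam := lam) (a := a.1)
    (p := fun i => q.1 (some i)) (Par := Par) (lo := lo) (hi := hi) (LH := LH)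
    hRh F hq1 (inHD_of hX1.le le_rfl le_rfl (K' X x1)) (by linarith) le_rfl hρ₁0.le
    (le_max_right _ _) hgt
  refine hbound.trans ?_
  set E := cκ (prX fun i => q.1 (some i)) + cN (prX fun i => q.1 (some i)) +
    LH (prX fun i => q.1 (some i)) with hE
  have hW : WZ LH (fun i => q.1 (some i)) X δ (ε / 4) ≤ X ^ (E + ε / 2) :=
    Real.rpow_le_rpow_of_exponent_le hX1.le (by linarith)
  have hW0 : 0 ≤ WZ LH (fun i => q.1 (some i)) X δ (ε / 4) := Real.rpow_nonneg hX0.le _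
  calc C * (‖(pC : ℂ)‖ ^ 2 * (WZ LH (fun i => q.1 (some i)) X δ (ε / 4) *
      X ^ (4 * (ε / 16)))) = K₀ * (WZ LH (fun i => q.1 (some i)) X δ (ε / 4) *
      X ^ (4 * (ε / 16))) := by rw [hK₀]; ring
    _ ≤ X ^ (ε / 4) * (X ^ (E + ε / 2) * X ^ (4 * (ε / 16))) :=
        mul_le_mul x12 (mul_le_mul_of_nonneg_right hW (by positivity))
          (mul_nonneg hW0 (by positivity)) (by positivity)
    _ = X ^ (E + ε) := by
        rw [← Real.rpow_add hX0, ← Real.rpow_add hX0]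
        congr 1
        ring

end Crest.Agent.R017.HiD50
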