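import Crest.Agent.R017.HiDXb_50
import Crest.Agent.R017.P1t_54

/-!
# Row 17, exceptional class, REST of StrUX (helper50), part 3: the configurations of the square

* `parZ_lo` : the hypotheses of `hiDX_of` for `ParS A d`, levels down to `top5 - κ/9`
* **`hiDX_Sq5`** : the instance
-/

set_option autoImplicit false

noncomputable section

open Finset Filter
open scoped ComplexConjugate

namespace Crest.Agent.R017.HiD50

open Crest.Agent.R012 Crest.Agent.R012.Eis
open Crest.Agent.R017.FE47 (PU cx SM)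
open Crest.Agent.R017.B770 Crest.Agent.R017.Prov71
open Crest.Agent.R017.E5B71 Crest.Agent.R017.E5L770
open Crest.Agent.R017.ExBox960 Crest.Agent.R017.ExP960
open Crest.Agent.R017.P1t54
open Crest.Agent.R017.Hi454
open Crest.Agent.R017.Hi554 (ParZ)

/-- the configurations of the exact square, class E, levels down to `top5 - κ/9` -/
theorem parZ_lo {A d c β : ℝ} (hA : 99 / 100 ≤ A) (hc0 : 0 ≤ c) (hc : c ≤ 1 / 40)
    (hβ0 : 1 / 8 ≤ β) (hβ : β ≤ 17 / 100) {lo hi : (Fin 3 ⊕ Fin 5 → ℝ) → ℝ}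
    {p : Fin 3 ⊕ Fin 5 → ℝ} (hp : p ∈ ParS A d)
    (hlo : top5 p - 1 / 9 * cκ p ≤ lo p)
    (hhi : hi p ≤ top5 p + 2 * c * cκ p) : ParZ c β lo hi p := by
  obtain ⟨w, hw⟩ := hp
  have hκ0 := hw.κ0
  have hκ1 := hw.κ1
  have hκ31 := hw.κ31
  have hκp : 0 < cκ p := by linarith
  obtain ⟨a1, a2, a3, a4⟩ := hw.anti
  have hq := hw.q
  have hmo := hw.w0 .mo
  have hnear := hw.near
  have hAκ : 99 / 100 * cκ p ≤ A * cκ p := mul_le_mul_of_nonneg_right hA hκp.le
  have eN : cN p = cu p 2 + cu p 3 + cu p 4 := rfl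
  have eM : cM p = cu p 0 + cu p 1 := rfl
  have hN85 : cN p ≤ 17 / 20 * cκ p := by
    have := hw.tl.N85
    rwa [div_le_iff₀ hκp] at this
  have hadm := hw.tl.adm
  have hx0 : 0 ≤ cx' p := by
    have := hadm.1
    rw [div_nonneg_iff] at this
    rcases this with h | h
    · exact h.1
    · linarith [h.2]
  have hx1 : cx' p ≤ w .am := by
    have := hadm.2.1
    rwa [div_le_div_iff_of_pos_right hκp] at this
  have hx2 : cx' p = 0 ∨ cN p + cx' p ≤ 4 / 5 * cκ p := by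
    rcases hadm.2.2 with h | h
    · left
      rw [div_eq_zero_iff] at h
      rcases h with h | h
      · exact h
      · exact absurd h hκp.ne'
    · right
      rwa [← add_div, div_le_iff₀ hκp] at h
  have hNlo : 297 / 400 * cκ p ≤ cN p := by linarith
  have hxN : cx' p ≤ 23 / 400 * cκ p := by
    rcases hx2 with h | h
    · rw [h]
      linarith
    · linarith
  have h4 : 7 / 50 * cκ p ≤ cu p 4 := by linarith
  have hcκ : c * cκ p ≤ 1 / 40 * cκ p := mul_le_mul_of_nonneg_right hc hκp.le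
  have hcκ0 : 0 ≤ c * cκ p := mul_nonneg hc0 hκp.le
  have hβκ : β * cκ p ≤ 17 / 100 * cκ p := mul_le_mul_of_nonneg_right hβ hκp.le
  have hβκ0 : 1 / 8 * cκ p ≤ β * cκ p := mul_le_mul_of_nonneg_right hβ0 hκp.le
  have htop : 1 / 9 * cκ p ≤ top5 p := by
    unfold top5
    refine le_trans ?_ (le_add_of_nonneg_right (mul_nonneg (by norm_num) hx0))
    exact le_min (by linarith) (by linarith)
  exact ⟨hκ0, hκ1, by linarith, by linarith, hx0, hx1.trans hw.c, hc0, by linarith,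
    by linarith, by linarith, by linarith, hhi, by linarith, by linarith⟩

/-- **the `e`-part of the rest of class E** on the configurations of the exact square -/
theorem hiDX_Sq5 {Λ : Type*} {π : Λ → DPar} (hπ : ∀ l, (π l).OK) {h : ℝ → ℝ}
    {Rh : ℝ} (hRh : ∀ u, cx h u ≠ 0 → |u| ≤ Rh) {e1 e0 : ℝ} (r : ℝ) {A d c β : ℝ}
    (hA : 99 / 100 ≤ A) (hc0 : 0 ≤ c) (hc : c ≤ 1 / 40) (hβ0 : 1 / 8 ≤ β) (hβ : β ≤ 17 / 100)
    {lo hi LH : (Fin 3 ⊕ Fin 5 → ℝ) → ℝ}
    (hlo : ∀ p ∈ ParS A d, top5 p - 1 / 9 * cκ p ≤ lo p)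
    (hhi : ∀ p ∈ ParS A d, hi p ≤ top5 p + 2 * c * cκ p)
    (hN : HNDX π h e1 e0 c β (ParS A d) lo hi LH)
    (al : Set ((Option IX5 → ℝ) × ℝ)) : HiDX π h e1 e0 r c β (ParS A d) lo hi LH al :=
  hiDX_of hπ hRh r (fun p hp => parZ_lo hA hc0 hc hβ0 hβ hp (hlo p hp) (hhi p hp)) hN al

end Crest.Agent.R017.HiD50
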