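import Crest.Agent.R017.HiDXa_50
import Crest.Agent.R017.RdX_986

/-!
# Row 17, exceptional class, REST: `HNDX` through the reduced data (helper48)

* **`hndx_red`** : `HNDX` at `fun lam => red (π lam)` implies `HNDX` at `π`
-/

set_option autoImplicit false

noncomputable section

open Finset

namespace Crest.Agent.R017.HiDr48

open Crest.Agent.R012 Crest.Agent.R012.Eis
open Crest.Agent.R017.HP842 (Pc pc alL sqc)
open Crest.Agent.R017.B770 Crest.Agent.R017.Prov71
open Crest.Agent.R017.XG702 (Pcs)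
open Crest.Agent.R017.XT71 (Sys Win mx)
open Crest.Agent.R017.UM71 Crest.Agent.R017.End699
open Crest.Agent.R017.E5B71 Crest.Agent.R017.E5L770
open Crest.Agent.R017.ExBox960 Crest.Agent.R017.ExP960
open Crest.Agent.R017.P1X960
open Crest.Agent.R017.Sf770 (nO)
open Crest.Agent.R017.Red848 (red Sh Exc exists_sh red_ok)
open Crest.Agent.R017.RdX986 (ub_re ok_red xD_eq)
open Crest.Agent.R017.HiD50 (HNDX HndX)

variable {Λ : Type*} {π : Λ → DPar} {h : ℝ → ℝ}

/-- **`HNDX` from the reduced data** -/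
theorem hndx_red (hP : ∀ lam, (π lam).OK) (hE : ∀ lam, Exc (π lam)) {e1 e0 c β : ℝ}
    {Par : Set (Fin 3 ⊕ Fin 5 → ℝ)} {lo hi LH : (Fin 3 ⊕ Fin 5 → ℝ) → ℝ}
    (H : HNDX (fun lam => red (π lam)) h e1 e0 c β Par lo hi LH) :
    HNDX π h e1 e0 c β Par lo hi LH := by
  choose k₀ hs using fun lam => exists_sh (hP lam).ψ (hE lam)
  intro R hR
  refine ub_re (fun lam => (lam.1, lam.2 * k₀ lam.1 ^ 2)) (fun lam a qs => ?_) (H R hR)
  unfold HiD50.HndX
  by_cases h1 : okCX (π lam.1) lam.2 a.1 [] ∧ okD a.1 ∧ a.2 < nO a.1.1.toBd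
  · rw [if_pos h1, if_pos ⟨ok_red (hP lam.1) (hs lam.1) h1.1, h1.2⟩,
      xD_eq (hP lam.1) (hs lam.1)]
    exact le_max_right _ _
  · rw [if_neg h1]
    exact le_max_left _ _

end Crest.Agent.R017.HiDr48
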