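import Crest.Agent.R017.HiDXr_48
import Crest.Agent.R017.HiDXd_50
import Crest.Agent.R017.HX3_72
import Crest.Agent.R017.LfP_986
import Crest.Agent.R017.DhS_744
import Crest.Agent.R017.E5Hg_48
import Crest.Agent.R017.SgE_986
import Crest.Agent.R017.ExRed2_848
import Crest.Agent.R017.E4Uc_164
import Crest.Agent.R017.RstQ_702

/-!
# Row 17, T.4: the field `hi` of helper372's `StrInE` (helper48)

* `hzu`, `hlo_b`, `hhi_b`, `hLH_b` : the side conditions of one band at `ParS A d`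
* **`hi_of_nums`** : the field `hi` from `TnHX`, `DgHX`, `RnHX` at the reduced data
* `factsE` : the standing facts at the reduced data
-/

set_option autoImplicit false

noncomputable section

open Finset

namespace Crest.Agent.R017.HiE48

open Crest.Agent.R012 Crest.Agent.R012.Eis
open Crest.Agent.R017.FE47 (PU cx)
open Crest.Agent.R017.Prov71
open Crest.Agent.R017.B770
open Crest.Agent.R017.ER911 Crest.Agent.R017.SC777
open Crest.Agent.R017.E5B71 Crest.Agent.R017.E5L770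
open Crest.Agent.R017.ExBox960 Crest.Agent.R017.ExP960
open Crest.Agent.R017.P1t54 (ParS)
open Crest.Agent.R017.P1l54 (ParOK)
open Crest.Agent.R017.P10X764 (bN)
open Crest.Agent.R017.TM708 (R5)
open Crest.Agent.R017.Fin4 Crest.Agent.R017.Fin5 Crest.Agent.R017.Fin6
open Crest.Agent.R017.Sg986 (AA AA_lt AA_eq AA_ge)
open Crest.Agent.R017.NrX986 (NearAllX)
open Crest.Agent.R017.XS0298 (S0x S0K)
open Crest.Agent.R017.Red848 (red Exc red_ok)
open Crest.Agent.R017.PX764 (Dk)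
open Crest.Agent.R017.TK708 (AllT)
open Crest.Agent.R017.OwA90 (Gt)
open Crest.Agent.R017.RnP571 (Dh)
open Crest.Agent.R017.E4U164 (low5)
open Crest.Agent.R017.E5H319 (LR)
open Crest.Agent.R017.HiD50 (HNDX loB hiB)
open Crest.Agent.R017.HX72 (TnHX DgHX RnHX hndx_of)

/-! ### the side conditions of one band -/

section sides
variable {A d : ℝ}

lemma hzu {p : IX5 → ℝ} (hp : prX p ∈ ParS A d) (hz : ZR βX p) :
    p (.inr 1) ≤ 1883 / 10000 * cκ (prX p) := by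
  obtain ⟨w, hw⟩ := hp
  have h1 := (hz 1).2
  have h2 := hw.κ31
  have h3 : βX = 17 / 100 := rfl
  rw [h3] at h1
  linarith

lemma hzl {p : IX5 → ℝ} (hz : ZR βX p) : p (.inr 1) ≤ 1 / 5 := by
  have h1 := (hz 1).2
  have h3 : βX = 17 / 100 := rfl
  rw [h3] at h1
  linarith

lemma hlo_b (hd : 0 ≤ d) (j : ℕ) {p : Fin 3 ⊕ Fin 5 → ℝ} (hp : p ∈ ParS A d) :
    low5 p - loB low5 ((j + 1) * (d / 8)) p ≤ 4 * ((j * (d / 8) + d / 2) / 4) * cκ p := by
  obtain ⟨w, hw⟩ := hp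
  have hκ := hw.κpos
  have h1 : 0 ≤ d * cκ p := by positivity
  unfold HiD50.loB
  linarith

lemma hhi_b (s : ℝ) (p : Fin 3 ⊕ Fin 5 → ℝ) : hiB low5 s p ≤ top5 p := min_le_left _ _

lemma hLH_b (p : Fin 3 ⊕ Fin 5 → ℝ) :
    RstQ702.LR (cN p) (cκ p) (d * cκ p) (cx' p) ≤ LR d p := by
  unfold RstQ702.LR E5H319.LR
  exact le_of_eq (by ring)

end sides

/-- **the field `hi`** from the numbers at the reduced data -/
theorem hi_of_nums {d : ℝ} (hd : 0 < d) (hd1 : d ≤ 1 / 42) {h : ℝ → ℝ} {c₀ : ℝ} (hpu : PU h c₀)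
    (hN : ∀ j : ℕ, (j * (d / 8) + d / 2) / 4 < 1 / 64 →
      TnHX (fun lam => red (πE lam)) h ((j * (d / 8) + d / 2) / 4) (1 / 64) (d / 4) βX
        (ParS (AA d) d) (loB low5 ((j + 1) * (d / 8))) (hiB low5 (j * (d / 8))) (LR d) ∧
      DgHX (fun lam => red (πE lam)) h ((j * (d / 8) + d / 2) / 4) (1 / 64) (d / 4) βX
        (ParS (AA d) d) (loB low5 ((j + 1) * (d / 8))) (hiB low5 (j * (d / 8))) (LR d) ∧
      RnHX (fun lam => red (πE lam)) h ((j * (d / 8) + d / 2) / 4) (1 / 64) (d / 4) βX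
        (ParS (AA d) d) (loB low5 ((j + 1) * (d / 8))) (hiB low5 (j * (d / 8))) (LR d)) :
    ∀ j : ℕ, (j * (d / 8) + d / 2) / 4 < 1 / 64 →
      HNDX πE h ((j * (d / 8) + d / 2) / 4) (1 / 64) (d / 4) βX (ParS (AA d) d)
        (loB low5 ((j + 1) * (d / 8))) (hiB low5 (j * (d / 8))) (LR d) := by
  intro j hj
  have hP : ∀ lam, (πE lam).OK := fun lam => lam.2.1
  have hE : ∀ lam, Exc (πE lam) := by
    intro lam
    have h := lam.2.2
    unfold ClN at h
    push Not at h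
    obtain ⟨k, hk, h1⟩ := h
    exact ⟨k, hk, h1⟩
  have hA : 99 / 100 ≤ AA d := by
    have := AA_ge hd1
    linarith
  obtain ⟨Rh, hR0, hRh⟩ := Sg986.exists_Rh hpu
  obtain ⟨hT, hD, hRn⟩ := hN j hj
  have h0 : (0 : ℝ) ≤ j * (d / 8) := by positivity
  exact HiDr48.hndx_red hP hE (hndx_of (π := fun lam => red (πE lam))
    (fun lam => red_ok (hP lam) (hE lam)) hR0 hRh (by linarith) hj.le (by norm_num)
    (fun p ⟨w, hw⟩ => (E5Hg48.parOK_sq hA hw).1) hT hD hRn)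

/-- the standing facts at the reduced data of class E -/
structure FactsE (d : ℝ) (h : ℝ → ℝ) : Prop where
  ok : ∀ lam, (red (πE lam)).OK
  hex : ∀ lam, ¬ Sup271.NPm (red (πE lam)).n (red (πE lam)).ψ (red (πE lam)).l₂ 1
  nc : ∀ lam, ∀ k : Eis, k ≠ 0 →
    (Sup271.NPm (red (πE lam)).n (red (πE lam)).ψ (red (πE lam)).l₂ k ↔ T411.NCube k)
  all : AllT d (ex Dq fun lam => S0K Dk (red (πE lam)) h)
  own : ∀ v z₁ z₂ z₃ : ℝ, 0 ≤ v → 0 ≤ z₁ → 0 ≤ z₂ → 0 ≤ z₃ →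
    ex Dq (fun lam => S0K Dk (red (πE lam)) h) v {z₁, z₂, z₃} 0 0 ≤
      Gt d v (z₁ + z₂ + z₃) (max z₁ (max z₂ z₃))
  par : ∀ p ∈ ParS (AA d) d, ParOK p
  dh : ∀ p ∈ ParS (AA d) d, Dh (cκ p) (cu p 2) (cu p 3) (cu p 4) (cx' p) (d * cκ p)
  r5 : ∀ p : IX5 → ℝ, prX p ∈ ParS (AA d) d → ZR βX p → R5 (bN p)
  zu : ∀ p : IX5 → ℝ, prX p ∈ ParS (AA d) d → ZR βX p → p (.inr 1) ≤ 1883 / 10000 * cκ (prX p)
  zl : ∀ p : IX5 → ℝ, prX p ∈ ParS (AA d) d → ZR βX p → p (.inr 1) ≤ 1 / 5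
  cD : ∀ p ∈ ParS (AA d) d, 4 * (d / 4 * cκ p) ≤ d * cκ p

theorem factsE {d : ℝ} (hd : 0 < d) (hd1 : d ≤ 1 / 42) {h : ℝ → ℝ} (P : BunE d h)
    (G : RecE d h) (near : NearAllX d (ex Dq (fun lam => S0x (red (πE lam)) h))) :
    FactsE d h := by
  have hP : ∀ lam, (πE lam).OK := fun lam => lam.2.1
  have hE : ∀ lam, Exc (πE lam) := by
    intro lam
    have h := lam.2.2
    unfold ClN at h
    push Not at h
    obtain ⟨k, hk, h1⟩ := h
    exact ⟨k, hk, h1⟩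
  have hA : 99 / 100 ≤ AA d := by
    have := AA_ge hd1
    linarith
  have hAlt := AA_lt hd
  have hA1 := AA_eq d
  exact
    { ok := fun lam => red_ok (hP lam) (hE lam)
      hex := fun lam => LfP986.npm_one (πE lam)
      nc := fun lam k hk => Red848.NPm_red_iff (hP lam).ψ.q0 hk
      all := TK708.allT_of P.rules G.toExpS0 hd.le (by linarith)
      own := NrX986.ownX_of_near P.rules G hd.le (by linarith) near
      par := fun p ⟨w, hw⟩ => (E5Hg48.parOK_sq hA hw).1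
      dh := fun p hp => E3Nx744.dh_sq5 hd.le (by linarith) hAlt.le hA1 hp
      r5 := fun p hp _ => LfP986.r5_bN hd.le hd1 hA1 hp
      zu := fun p hp hz => hzu hp hz
      zl := fun p hp hz => hzl hz
      cD := fun p hp => le_of_eq (by ring) }

end Crest.Agent.R017.HiE48
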