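import Crest.Agent.R017.RnXj_571
import Crest.Agent.R017.RnXb_571
import Crest.Agent.R017.HX2_72

/-!
# Row 17, class E, REST of StrUX (helper571): helper72's `RnHX`

* **`rnHX`** : the R-numbers of one level of one difference
-/

set_option autoImplicit false
set_option maxHeartbeats 400000

noncomputable section

open Finset
open scoped ComplexConjugate

namespace Crest.Agent.R017.RnX571

open Crest.Agent.R012 Crest.Agent.R012.Eis Crest.Agent.R012.MC
open Crest.Agent.R012.LS2 (S mem_S bl mem_bl)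
open Crest.Agent.R012.T411 (NCube)
open Crest.Agent.R017.FE47 (PU SM)
open Crest.Agent.R017.CM106
open Crest.Agent.R017.XG702 (Pcs)
open Crest.Agent.R017.XT71 (Sys Win mx)
open Crest.Agent.R017.Prov71
open Crest.Agent.R017.B770
open Crest.Agent.R017.ER911 Crest.Agent.R017.ExpC702
open Crest.Agent.R017.HP842 (Pc pc sqc al alL)
open Crest.Agent.R017.RM986 (Plain)
open Crest.Agent.R017.R3571 (RMm RMm_nonneg)
open Crest.Agent.R017.Mode405 (Slp)
open Crest.Agent.R017.PX764 (n6)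
open Crest.Agent.R017.E3Z548 (FH FH_nonneg)
open Crest.Agent.R017.E3Sz579 (Ld)
open Crest.Agent.R017.E3Hi290 (RN2XF RN2XF_nonneg)
open Crest.Agent.R017.E3Kc548 (LI mem_LI)
open Crest.Agent.R017.TM708 (PD)
open Crest.Agent.R017.I1146 (LN SM_cop alL_cop)
open Crest.Agent.R017.Sup271 (NPm)
open Crest.Agent.R017.End699 (PF)
open Crest.Agent.R017.XEx298 (Rt)
open Crest.Agent.R017.RnP571
open Crest.Agent.R017.PoHx72 (Cls)
open Crest.Agent.R017.ROX744 (PrU)
open Crest.Agent.R017.E5B71 Crest.Agent.R017.E5L770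
open Crest.Agent.R017.Sf770 (JS okJ_JS tO nO)
open Crest.Agent.R017.P1l54 (ParOK)
open Crest.Agent.R017.ExBox960 Crest.Agent.R017.ExP960
open Crest.Agent.R017.P1X960
open Crest.Agent.R017.P10X764
open Crest.Agent.R017.E3N146 (Bf Tf)
open Crest.Agent.R017.S8X50 (F8X s8x_frame)
open Crest.Agent.R017.Hi454 (DomHX EHX)
open Crest.Agent.R017.RstQ702 (LR XS)
open Crest.Agent.R017.RstX290 (hX)
open Crest.Agent.R017.HX72 (RnHX HhX HhX_pos hXx okH alH pfH LIH DsH EEH ZH J2 QE)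

lemma J2_fst {n j : ℕ} {d : Eis} (hd : d ∈ (J2 n j).image Prod.fst) :
    d ∈ S (Real.exp ((j + 1) * Real.log 2 / 2)) := by
  classical
  obtain ⟨x, hx, rfl⟩ := mem_image.1 hd
  unfold HX72.J2 at hx
  rw [HX72.mem_JW', mem_primBall] at hx
  obtain ⟨⟨⟨h1, h2⟩, h3⟩, h4, h5, h6, h7⟩ := hx
  rw [mem_S (Real.exp_pos _).le]
  refine ⟨?_, h2, h4⟩
  have hx2 : (1 : ℝ) ≤ nm x.2 := by exact_mod_cast nm_pos.2 (E5b54.JC_cf h5).1
  have hx1 : (0 : ℝ) ≤ nm x.1 := Nat.cast_nonneg _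
  have h8 : (nm x.1 : ℝ) ^ 2 ≤ 2 ^ j * 2 := by
    refine le_trans ?_ h7
    rw [nm_mul, nm_pow]
    push_cast
    nlinarith [sq_nonneg (nm x.1 : ℝ)]
  have h9 : (Real.exp ((j + 1) * Real.log 2 / 2)) ^ 2 = 2 ^ j * 2 := by
    rw [← Real.exp_nat_mul]
    have e1 : ((2 : ℕ) : ℝ) * ((j + 1) * Real.log 2 / 2) = ((j + 1 : ℕ) : ℝ) * Real.log 2 := by
      push_cast; ring
    rw [e1, Real.exp_nat_mul, Real.exp_log (by norm_num), pow_succ]
  rw [← h9] at h8
  exact (sq_le_sq₀ hx1 (Real.exp_pos _).le).1 h8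

lemma szX_small {k N x ex vt n t l z ex' δ lc i : ℝ} (H : Tf k N x ex vt n t) (kl : |l - k| ≤ t)
    (zl : |z - x| ≤ t) (hex : ex ≤ ex' + t) (hlc : lc ≤ t) (δ0 : 0 ≤ δ) (hi : i ≤ vt) :
    lc + (hX l n δ (9 / 4 * z - 3 * ex') + 2 * i) ≤ l + n := by
  obtain ⟨k0, x0, N1, adm, ex0, ex1, v1, v2, p0, p1, t0, t1⟩ := H
  obtain ⟨k1, k2⟩ := abs_le.1 kl
  obtain ⟨z1, z2⟩ := abs_le.1 zl
  unfold RstX290.hX
  rcases max_choice (l / 64) (4 / 3 * (n - δ) - l + (9 / 4 * z - 3 * ex')) with h0 | h0 <;>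
    rw [h0] <;> rcases adm with ⟨a1, rfl | a2⟩ | ⟨a1, a2, a3⟩ <;> linarith

lemma szX2_small {k N x ex vt n t l z ex' δ i : ℝ} (H : Tf k N x ex vt n t) (kl : |l - k| ≤ t)
    (zl : |z - x| ≤ t) (hex : 0 ≤ ex') (δ0 : 0 ≤ δ) (hi : i ≤ vt) :
    n + i + hX l n δ (9 / 4 * z - 3 * ex') - l ≤ 8 * k := by
  obtain ⟨k0, x0, N1, adm, ex0, ex1, v1, v2, p0, p1, t0, t1⟩ := H
  obtain ⟨k1, k2⟩ := abs_le.1 kl
  obtain ⟨z1, z2⟩ := abs_le.1 zl
  unfold RstX290.hX
  rcases max_choice (l / 64) (4 / 3 * (n - δ) - l + (9 / 4 * z - 3 * ex')) with h0 | h0 <;>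
    rw [h0] <;> rcases adm with ⟨a1, rfl | a2⟩ | ⟨a1, a2, a3⟩ <;> linarith

section HhX

variable {cc : ℝ} {a : BcX × ℕ} {i : ℕ} {d : Eis}

lemma HhX_small (h : Real.log (nm d) ≤ a.1.1.l / 6) : HhX cc a i d =
    Real.exp (hX a.1.1.l (pfH a) (Real.log (nm d))
      (9 / 4 * a.1.1.z - 3 * max 0 (5 / 4 * a3 a.1.1.toBd - a.1.1.l))) := by
  unfold HX72.HhX
  rw [if_pos h]
  rfl

lemma HhX_large (h : a.1.1.l / 6 < Real.log (nm d)) : HhX cc a i d =
    Real.exp (a.1.1.l + Real.log (nm d) - 2 * i - (Real.log cc + 1)) := by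
  unfold HX72.HhX
  rw [if_neg (not_le.2 h)]

lemma Ld_HhX (hcc : 1 ≤ cc) (h : a.1.1.l / 6 < Real.log (nm d)) (hd : d ≠ 0) :
    Ld (Real.exp a.1.1.l) (Real.exp i) (HhX cc a i d) d < 1 := by
  have hd0 : (0 : ℝ) < nm d := by exact_mod_cast nm_pos.2 hd
  have hc := Real.log_nonneg hcc
  rw [HhX_large h]
  unfold E3Sz579.Ld
  rw [div_lt_one (by positivity), ← Real.exp_nat_mul, ← Real.exp_add]
  calc _ < Real.exp (a.1.1.l + Real.log (nm d)) := Real.exp_lt_exp.2 (by push_cast; linarith)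
    _ = _ := by rw [Real.exp_add, Real.exp_log hd0]

end HhX

variable {Λ : Type*} {π : Λ → DPar} {h : ℝ → ℝ}

set_option maxHeartbeats 6400000 in
open Classical in
/-- **the R-numbers of one level of one difference** : helper72's `RnHX` -/
theorem rnHX {c₀ : ℝ} (hpu : PU h c₀) (hP : ∀ lam, (π lam).OK)
    (hNC : ∀ lam, ∀ k : Eis, k ≠ 0 → (NPm (π lam).n (π lam).ψ (π lam).l₂ k ↔ NCube k))
    {dd : ℝ} {s : ER911.EF} (R : ExpRules (7 / 8 + dd) (ex Dq (fun lam => Rt (π lam) h)) s)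
    (hPF : PF Set.univ (7 / 8 + dd)) (hd : 0 ≤ dd) (hd8 : dd ≤ 1 / 8)
    {e1 e0 : ℝ} (he0 : 0 ≤ e0) (he0' : e0 ≤ 1 / 64) {c β : ℝ} (hc0 : 0 ≤ c)
    {Par : Set (Fin 3 ⊕ Fin 5 → ℝ)} (hPar : ∀ p ∈ Par, ParOK p)
    (hDh : ∀ p ∈ Par, Dh (cκ p) (cu p 2) (cu p 3) (cu p 4) (cx' p) (dd * cκ p))
    (hcD : ∀ p ∈ Par, 4 * (c * cκ p) ≤ dd * cκ p) (hβ : 17 / 100 ≤ β) (hβ' : β ≤ 1 / 5)
    {lo hi LH : (Fin 3 ⊕ Fin 5 → ℝ) → ℝ} (hhi : ∀ p ∈ Par, hi p ≤ top5 p)
    (hLH : ∀ p ∈ Par, LR (cN p) (cκ p) (dd * cκ p) (cx' p) ≤ LH p) :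
    RnHX π h e1 e0 c β Par lo hi LH := by
  intro ε hε
  obtain ⟨ε₁, hε₁, hε₁1, hε₁ε⟩ : ∃ ε₁ : ℝ, 0 < ε₁ ∧ ε₁ ≤ 1 / 160000 ∧ ε₁ ≤ ε / 8 :=
    ⟨min (1 / 160000) (ε / 8), lt_min (by norm_num) (by positivity), min_le_left _ _,
      min_le_right _ _⟩
  have hnp : ∀ lam, ¬ NPm (π lam).n (π lam).ψ (π lam).l₂ 1 := fun lam h1 =>
    ((hNC lam 1 one_ne_zero).1 h1).2 1 (by ring)
  obtain ⟨τ, hτ0, hτε, HR⟩ := rnx_lev (E := EN dd) hpu hP hnp (Kc := 8) (by norm_num)
    (rmx_NC hpu hP hNC R hPF hd hd8 (8 + 2)) (RM986.cont_E3c dd) hε₁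
    (hε₁1.trans (by norm_num))
  set t₀ : ℝ := ε₁ / 40 with ht₀'
  have ht₀ : 0 < t₀ := by positivity
  have e40 : ε₁ = 40 * t₀ := by rw [ht₀']; ring
  obtain ⟨δ, hδ, hδτ, hδt⟩ : ∃ δ : ℝ, 0 < δ ∧ 100 * δ ≤ τ ∧ 100 * δ ≤ t₀ := by
    refine ⟨min (τ / 100) (t₀ / 100), lt_min (by positivity) (by positivity), ?_, ?_⟩
    · have := min_le_left (τ / 100) (t₀ / 100)
      linarith
    · have := min_le_right (τ / 100) (t₀ / 100)
      linarith
  refine ⟨δ, hδ, fun lam N B => ?_⟩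
  by_cases ht : lam.2 = 0
  · exact ⟨0, 0, fun A₁ _ cc _ => ⟨1, one_pos, 2, one_lt_two,
      fun X _ a qs _ _ q _ _ _ _ _ hok => absurd ht hok.1.2.1.1⟩⟩
  set B₂ : ℝ := max (max B 3) 1000 with hB₂
  obtain ⟨M, a₁, A₀, ha₁, HR⟩ := HR lam.1 lam.2 ht 0 B₂
  refine ⟨a₁, A₀, fun A₁ hA₁ cc hcc => ?_⟩
  obtain ⟨X₁, hX₁, HR⟩ := HR cc hcc
  have hlc : 0 ≤ Real.log cc := Real.log_nonneg hcc
  set Q : ℝ := (2 * Real.log cc + 4) / t₀ with hQ
  refine ⟨ε / (8 * (M + 1)), by positivity, max X₁ (Real.exp Q), hX₁.trans_le (le_max_left _ _), ?_⟩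
  intro X hXX a qs hlen hgl q hq hw hm hg hl hok
  have hX1' : X₁ ≤ X := (le_max_left _ _).trans hXX
  have hXQ : Real.exp Q ≤ X := (le_max_right _ _).trans hXX
  have hX1 : 1 < X := by linarith
  have hX0 : 0 < X := by linarith
  have hL0' : 0 < Real.log X := Real.log_pos hX1
  obtain ⟨a, j⟩ := a
  obtain ⟨hokC, hokD, hj⟩ := hok
  obtain ⟨hc1, hc2, hc3, hc4, hc5, hc6, hc7, hc8⟩ := hq
  have hdiv : ∀ {z c : ℝ}, |z / Real.log X - c| ≤ δ → |z - c * Real.log X| ≤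
      δ * Real.log X := by
    intro z c h1
    have h2 : z - c * Real.log X = (z / Real.log X - c) * Real.log X := by field_simp
    rw [h2, abs_mul, abs_of_pos hL0']
    exact mul_le_mul_of_nonneg_right h1 hL0'.le
  have hlv : |Real.log 2 * (j : ℝ) - q.1 none * Real.log X| ≤ δ * Real.log X := hdiv (hw.ev none)
  have hw1 : Win S8X (fun i => q.1 (some i)) δ 0 B (ε / (8 * ((M : ℝ) + 1))) X a :=
    ⟨fun i => hw.ev (some i), hw.g, Nat.le_refl 0, hw.s₁, hw.s₂⟩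
  have hqD : ((fun i => q.1 (some i), fun _ => 0) : (I8X → ℝ) × (Kd → ℝ)) ∈
      Dom8X c β Par DifL := ⟨hc1, hc2, rfl, by
        show cκ (prX (bp fun i => q.1 (some i))) / 2 ≤ q.1 (some (.inr 0)) +
          q.1 (some (.inr 1)) + q.1 (some (.inr 2)) + (0 : ℝ) +
          2 * cx' (prX (bp fun i => q.1 (some i)))
        rw [add_zero]
        exact hc5⟩
  obtain ⟨F, PN, PR⟩ := s8x_frame (P := π lam.1) (s := lam.2) (qs := []) hX1 hδ.le hδτ
    (by positivity) (Nat.le_refl 0) (by simp) hqD hw1 (fun t => by simp [Pcs.mass, hδ.le])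
    (by simp [Pcs.Good]) (by simp) hokC hokD
  have hQL : Q ≤ Real.log X := by
    have := Real.log_le_log (Real.exp_pos Q) hXQ
    rwa [Real.log_exp] at this
  have hLt : 2 * Real.log cc + 4 ≤ t₀ * Real.log X := by
    rw [hQ, div_le_iff₀ ht₀] at hQL
    linarith
  have ht₁ : t₀ ≤ 1 / 1000000 := by rw [ht₀']; linarith
  have hv0 : |(a.2.1 0).z - q.1 (some (.inr 0)) * Real.log X| ≤ δ * Real.log X :=
    hdiv (hw.ev (some (.inr 0)))
  have hv1 : |(a.2.1 1).z - q.1 (some (.inr 1)) * Real.log X| ≤ δ * Real.log X :=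
    hdiv (hw.ev (some (.inr 1)))
  have hpar : prX (bp fun i => q.1 (some i)) ∈ Par := hc1.par
  have hzr : ZR β (bp fun i => q.1 (some i)) := hc1.zr
  have hPp := hPar _ hpar
  have hDp := hDh _ hpar
  have hδL0 : 0 ≤ δ * Real.log X := by positivity
  have hδL : 100 * (δ * Real.log X) ≤ t₀ * Real.log X := by
    have := mul_le_mul_of_nonneg_right hδt hL0'.le
    linarith
  have hlog2 : Real.log 2 ≤ 1 := by
    have := Real.log_two_lt_d9
    linarith
  have hvt : (1 : ℝ) + (j + 1) * Real.log 2 ≤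
      min (top5 (prX (bp fun i => q.1 (some i)))) (top5 (prX (bp fun i => q.1 (some i))) +
        2 * (c * cκ (prX (bp fun i => q.1 (some i)))) - 2 * q.1 (some (.inr 3))) * Real.log X +
        2 * (t₀ * Real.log X) := by
    have h1 : q.1 none ≤ min (top5 (prX (bp fun i => q.1 (some i))))
        (top5 (prX (bp fun i => q.1 (some i))) +
        2 * (c * cκ (prX (bp fun i => q.1 (some i)))) - 2 * q.1 (some (.inr 3))) := by
      refine le_min (hc7.trans (hhi _ hpar)) ?_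
      have h2 : q.1 none + 2 * q.1 (some (.inr 3)) ≤ top5 (prX (bp fun i => q.1 (some i))) +
        2 * c * cκ (prX (bp fun i => q.1 (some i))) := hc8
      linarith
    have h2 := mul_le_mul_of_nonneg_right h1 hL0'.le
    obtain ⟨l1, l2⟩ := abs_le.1 hlv
    linarith
  obtain ⟨hTf, hBf⟩ := frG (vt := 1 + (j + 1) * Real.log 2) hX1 hδ.le ht₀ ht₁ hδt hc0 hPp hDp
    (hcD _ hpar) hβ hβ' hqD hv0 hv1 F hvt
  obtain ⟨hκ, hx, hN, hn, lo', hi', us0, us1, us2, zs, hdz, hbb, top⟩ := F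
  dsimp only at hκ hx hN hn lo' hi' us0 us1 us2 zs hdz hbb top hTf hBf
  set p : IX5 → ℝ := bp (fun i => q.1 (some i)) with hp
  set L := Real.log X with hL
  have enn : pfH (a, j) = LN (clN a []) := rfl
  set n : ℝ := LN (clN a []) with hnn
  have htL : 0 ≤ t₀ * L := by positivity
  have hκ' : |a.1.l - cκ (prX p) * L| ≤ t₀ * L := hκ.trans (by linarith)
  have hx' : |a.1.z - cx' (prX p) * L| ≤ t₀ * L := hx.trans (by linarith)
  have hN' : |a3 a.1.toBd - cN (prX p) * L| ≤ 3 * (t₀ * L) := hN.trans (by linarith)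
  have ht40 : t₀ * L ≤ 40 * (t₀ * L) := by linarith
  have hvk := vt_le hTf
  have hkL : cκ (prX p) * L ≤ 1 * L := mul_le_mul_of_nonneg_right hPp.κ1 hL0'.le
  have hkL0 : 8 / 9 * L ≤ cκ (prX p) * L := mul_le_mul_of_nonneg_right hPp.κ0 hL0'.le
  have ht1' := hTf.t1
  obtain ⟨κ1, κ2⟩ := abs_le.1 hκ'
  have hl0 : 0 ≤ a.1.l := by linarith
  set ex' : ℝ := max 0 (5 / 4 * a3 a.1.toBd - a.1.l) with hex'
  have hex0 : 0 ≤ ex' := le_max_left _ _
  have hexx : max 0 (5 / 4 * (cN (prX p) * L) - cκ (prX p) * L) ≤ ex' + 40 * (t₀ * L) := by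
    obtain ⟨A1, A2⟩ := abs_le.1 hN'
    refine max_le (by linarith) ?_
    have := le_max_right 0 (5 / 4 * a3 a.1.toBd - a.1.l)
    linarith
  -- one level, one divisor
  have hiv : ∀ i ∈ LIH (a, j), (i : ℝ) ≤ 1 + (j + 1) * Real.log 2 := by
    intro i hi
    have h1 : Real.exp i ≤ Real.exp 1 * (2 ^ j * 2) := (mem_LI hi).2.2
    have h2 := Real.log_le_log (Real.exp_pos _) h1
    rw [Real.log_exp, Real.log_mul (Real.exp_pos _).ne' (by positivity), Real.log_exp,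
      Real.log_mul (by positivity) (by norm_num), Real.log_pow] at h2
    linarith
  have hdv : ∀ d ∈ DsH (a, j), IsPrim d ∧
      Real.log (nm d) ≤ (1 + (j + 1) * Real.log 2) / 2 ∧ 0 ≤ Real.log (nm d) := by
    intro d hd
    obtain ⟨h1, h2, h3⟩ := (mem_S (Real.exp_pos _).le).1 (J2_fst hd)
    have h4 : (1 : ℝ) ≤ nm d := by exact_mod_cast nm_pos.2 h2.ne_zero
    refine ⟨h2, ?_, Real.log_nonneg h4⟩
    have h5 := Real.log_le_log (by linarith) h1
    rw [Real.log_exp] at h5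
    linarith
  have hev : ∀ e ∈ EEH e1 e0 (a, j), e ∈ S (Real.exp (e0 * a.1.l)) ∧ IsPrim e ∧
      Real.log (nm e) ≤ a.1.l / 64 ∧ 0 ≤ Real.log (nm e) ∧ (1 : ℝ) ≤ nm e := by
    intro e he
    have he' : e ∈ S (Real.exp (e0 * a.1.l)) := (mem_filter.1 he).1
    obtain ⟨h1, h2, h3⟩ := (mem_S (Real.exp_pos _).le).1 he'
    have h4 : (1 : ℝ) ≤ nm e := by exact_mod_cast nm_pos.2 h2.ne_zero
    refine ⟨he', h2, ?_, Real.log_nonneg h4, h4⟩
    have h5 := Real.log_le_log (by linarith) h1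
    rw [Real.log_exp] at h5
    have h6 := mul_le_mul_of_nonneg_right he0' hl0
    linarith
  have hlist : [a.2.1 0, a.2.1 1, a.2.1 2] ++ [] = clN a [] := by
    unfold clN
    rw [ofFn3]
  have hsz1 : ∀ i ∈ LIH (a, j), ∀ d ∈ DsH (a, j),
      cc * (HhX cc (a, j) i d * Real.exp i ^ 2) ≤ Real.exp a.1.l * Real.exp n := by
    intro i hi d hd
    obtain ⟨pd, hd1, hd2⟩ := hdv d hd
    have hi1 := hiv i hi
    have e1 : cc * (HhX cc (a, j) i d * Real.exp i ^ 2) =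
        Real.exp (Real.log cc + (Real.log (HhX cc (a, j) i d) + 2 * i)) := by
      rw [Real.exp_add, Real.exp_add, Real.exp_log (by linarith), Real.exp_log (HhX_pos _ _ _),
        show (2 : ℝ) * i = ((2 : ℕ) : ℝ) * i by norm_num, Real.exp_nat_mul]
    rw [e1, ← Real.exp_add]
    refine Real.exp_le_exp.2 ?_
    rcases le_or_gt (Real.log (nm d)) (a.1.l / 6) with h6 | h6
    · rw [HhX_small (a := (a, j)) h6, Real.log_exp]
      exact szX_small hTf (hκ'.trans ht40) (hx'.trans ht40) hexx (by linarith) hd2 hi1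
    · rw [HhX_large (a := (a, j)) h6, Real.log_exp]
      exact sz_large hTf hd1
  refine ⟨fun i hi d hd => hsz1 i hi d hd, lam.2 * lam.2, ?_⟩
  have hB3 : 3 ≤ B₂ := (le_max_right B 3).trans (le_max_left _ _)
  have hB1000 : 1000 ≤ B₂ := le_max_right _ _
  have hccX : Real.log cc ≤ L := by
    have : t₀ * L ≤ 1 * L := mul_le_mul_of_nonneg_right (by linarith) hL0'.le
    linarith
  have hXd : (1 : ℝ) ≤ X ^ (ε / (8 * ((M : ℝ) + 1))) := Real.one_le_rpow hX1.le (by positivity)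
  have hS1 : DsH (a, j) ⊆ S (X ^ B₂) := by
    intro d hd
    obtain ⟨h1, h2, h3⟩ := (mem_S (Real.exp_pos _).le).1 (J2_fst hd)
    refine (mem_S (by positivity)).2 ⟨h1.trans ?_, h2, h3⟩
    rw [Real.rpow_def_of_pos hX0, ← hL]
    refine Real.exp_le_exp.2 ?_
    have h4 : L * 3 ≤ L * B₂ := mul_le_mul_of_nonneg_left hB3 hL0'.le
    show ((j : ℝ) + 1) * Real.log 2 / 2 ≤ L * B₂
    linarith
  have hS2 : EEH e1 e0 (a, j) ⊆ S (X ^ B₂) := by
    intro e he
    obtain ⟨h1, h2, h3⟩ := (mem_S (Real.exp_pos _).le).1 (hev e he).1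
    refine (mem_S (by positivity)).2 ⟨h1.trans ?_, h2, h3⟩
    rw [Real.rpow_def_of_pos hX0, ← hL]
    refine Real.exp_le_exp.2 ?_
    have h4 : L * 3 ≤ L * B₂ := mul_le_mul_of_nonneg_left hB3 hL0'.le
    have h6 := mul_le_mul_of_nonneg_right he0' hl0
    linarith
  have hbN : ∀ i, bN p i + τ ≤ 8 := by
    have k1 := hPp.κ1
    have k0 := hPp.κ0
    have x1 := hPp.x1
    have y3 := hDp.y3
    have y43 := hDp.y43
    have u4 := hDp.u4
    have x0 := hDp.x0
    intro i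
    fin_cases i <;> simp [bN] <;> linarith
  have hbR : ∀ i, bR p i + τ ≤ 8 := by
    have k1 := hPp.κ1
    have k0 := hPp.κ0
    have x1 := hPp.x1
    have y3 := hDp.y3
    have y43 := hDp.y43
    have u4 := hDp.u4
    have x0 := hDp.x0
    have z1 := (hzr 1).1
    have z2 := (hzr 1).2
    have z3 : 0 ≤ β * cκ (prX p) := by positivity
    intro i
    fin_cases i <;> simp [bR] <;> linarith
  have hnN : n ≤ cN (prX p) * L + 4 * (t₀ * L) := by
    have h1 := (abs_le.1 hn).2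
    have h2 : q.1 (some (.inr 0)) + q.1 (some (.inr 1)) + q.1 (some (.inr 2)) + (0 : ℝ) ≤
        cN (prX p) := by
      have g1 := hc2.1.1
      have g2 := hc2.1.2.1
      have g3 := hc2.1.2.2
      have g4 : cN (prX p) = cu (prX p) 2 + cu (prX p) 3 + cu (prX p) 4 := rfl
      dsimp only at g1 g2 g3
      linarith
    have h3 := mul_le_mul_of_nonneg_right h2 hL0'.le
    linarith
  obtain ⟨W0, hW1, hW2, hW3⟩ := HR X hX1' (bN p) (bR p) a.2.1 [] (dz a.1) a.1.l (s0X a)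
    (X ^ (ε / (8 * ((M : ℝ) + 1)))) (PD_mono hX1.le (le_max_left _ _) PN)
    (PD_mono hX1.le (le_max_left _ _) PR) hbN hbR ((min_le_left _ _).trans (min_le_left _ _))
    ((min_le_left _ _).trans (min_le_right _ _)) ((min_le_right _ _).trans (min_le_left _ _))
    ((min_le_right _ _).trans (min_le_right _ _)) (Real.exp a.1.l)
    (cκ (prX p) + n / L + LR (cN (prX p)) (cκ (prX p)) (dd * cκ (prX p)) (cx' (prX p)))
    (fun i d _ => HhX cc (a, j) i d) (Real.exp_pos _) (fun _ _ _ => HhX_pos _ _ _)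
    (LIH (a, j)) (DsH (a, j)) (EEH e1 e0 (a, j))
    (fun i hi => by
      have h4 : 3 * L ≤ B₂ * L := mul_le_mul_of_nonneg_right hB3 hL0'.le
      have := hiv i hi
      linarith) hS1 hS2
    (fun i hi d hd e he => by
      obtain ⟨pd, hd1, hd2⟩ := hdv d hd
      have hi1 := hiv i hi
      have hi0 : (0 : ℝ) ≤ i := Nat.cast_nonneg _
      rw [hlist]
      have e1 : Real.exp n * Real.exp i * HhX cc (a, j) i d / Real.exp a.1.l =
          Real.exp (n + i + Real.log (HhX cc (a, j) i d) - a.1.l) := by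
        rw [Real.exp_sub, Real.exp_add, Real.exp_add, Real.exp_log (HhX_pos _ _ _)]
      show Real.exp n * Real.exp i * HhX cc (a, j) i d / Real.exp a.1.l ≤ X ^ (8 : ℝ)
      rw [e1, Real.rpow_def_of_pos hX0, ← hL]
      refine Real.exp_le_exp.2 ?_
      rcases le_or_gt (Real.log (nm d)) (a.1.l / 6) with h6 | h6
      · rw [HhX_small (a := (a, j)) h6, Real.log_exp]
        have := szX2_small hTf (hκ'.trans ht40) (hx'.trans ht40) hex0 hd2 hi1
        show n + i + hX a.1.l n (Real.log (nm d)) (9 / 4 * a.1.z - 3 * ex') - a.1.l ≤ L * 8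
        linarith
      · rw [HhX_large (a := (a, j)) h6, Real.log_exp]
        have := sz2_large (lc := Real.log cc) (l := a.1.l) hTf hd1 hi0 hlc
        show n + i + (a.1.l + Real.log (nm d) - 2 * i - (Real.log cc + 1)) - a.1.l ≤ L * 8
        linarith)
    (fun i hi d hd e he hLd1 => by
      obtain ⟨pd, hd1, hd2⟩ := hdv d hd
      obtain ⟨-, pe, he1, he2, -⟩ := hev e he
      have hi1 := hiv i hi
      have h6 : Real.log (nm d) ≤ a.1.l / 6 := by
        by_contra h7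
        have := Ld_HhX (a := (a, j)) (i := i) hcc (not_le.1 h7) pd.ne_zero
        exact absurd hLd1 (not_le.2 this)
      have eH : HhX cc (a, j) i d = Real.exp (hX a.1.l n (Real.log (nm d))
          (9 / 4 * a.1.z - 3 * ex')) := HhX_small (a := (a, j)) h6
      have hll : 0 ≤ hX a.1.l n (Real.log (nm d)) (9 / 4 * a.1.z - 3 * ex') + 2 * (i : ℝ) -
          a.1.l - Real.log (nm d) := by
        have h7 := Real.log_nonneg hLd1
        rw [log_Ld (Real.exp_pos _) (Real.exp_pos _) (HhX_pos _ _ _) pd.ne_zero] at h7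
        unfold RnP571.lL at h7
        rw [eH, Real.log_exp, Real.log_exp, Real.log_exp] at h7
        linarith
      rw [hlist, Real.log_exp]
      beta_reduce
      rw [eH, Real.log_exp]
      refine lines_RX (κ := cκ (prX p)) (y₃ := cu (prX p) 2) (y₄ := cu (prX p) 3)
        (u := cu (prX p) 4) (x := cx' (prX p)) (dd := dd) (N := cN (prX p))
        (A := a3 a.1.toBd) (t₀ := t₀) hL0' rfl hDp ht₀ e40 ?_ hBf ?_ hκ' hx' hN' ?_ hnN hi1 hd2 h6
        he2 he1 hll ?_ ?_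
      · have := hPp.κ0
        linarith
      · rw [sub_zero]
      · linarith
      · have h8 : (a.2.1 2).z ≤ (cu (prX p) 4 + τ) * L := PN.z3
        have h9 : (cu (prX p) 4 + τ) * L ≤ (cu (prX p) 4 + ε₁) * L :=
          mul_le_mul_of_nonneg_right (by linarith) hL0'.le
        exact h8.trans h9
      · exact le_of_eq rfl)
  have hP1 := hP lam.1
  have hsm : lam.2 ∈ SM (π lam.1).n := hokC.2.1
  have hW0n : ∀ i ∈ LIH (a, j), ∀ jj, ∀ d ∈ DsH (a, j), ∀ e ∈ EEH e1 e0 (a, j), ∀ P : ℝ, 0 < P →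
      0 ≤ W0 i jj d e P := by
    intro i hi jj d hd e he P hPp
    refine le_trans ?_ (hW2 A₁ hA₁ i hi jj d hd e he 1 1 isPrim_one isPrim_one ?_ P hPp)
    · exact mul_nonneg (mul_nonneg (Nat.cast_nonneg _) (sq_nonneg _))
        (sum_nonneg fun r _ => RMm_nonneg _ _ _ _ _ _)
    · rw [nm_one, Nat.cast_one]
      exact Real.one_le_rpow hX1.le (by linarith)
  refine ⟨W0, mul_ne_zero ht ht, fun m hm0 => (xD_cop hP1 hsm hm0).2, hW1, ?_, ?_⟩
  · -- the classes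
    intro i hi jj d hd f hf γ φ hγ hφ hφm P hPp
    have hφX : (nm φ : ℝ) ≤ X ^ B₂ := by
      refine hφm.trans ?_
      have e1 : cc * ZH (a, j) ^ 300 = Real.exp (Real.log cc + 300 * (3 * a.1.l)) := by
        unfold HX72.ZH
        rw [Real.exp_add, Real.exp_log (by linarith), ← Real.exp_nat_mul]
        push_cast
        rfl
      rw [e1, Real.rpow_def_of_pos hX0, ← hL]
      refine Real.exp_le_exp.2 ?_
      have h4 : L * 1000 ≤ L * B₂ := mul_le_mul_of_nonneg_left hB1000 hL0'.le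
      linarith
    exact hW2 A₁ hA₁ i hi jj d hd f hf γ φ hγ hφ hφX P hPp
  · -- the number
    rw [hlist] at hW3
    have hre : ∑ f ∈ EEH e1 e0 (a, j), ∑ i ∈ LIH (a, j), ∑ d ∈ DsH (a, j), (nm f : ℝ)⁻¹ *
        (FH (Real.exp a.1.l) (HhX cc (a, j) i d) (Real.exp i) *
          RN2XF cc (Real.exp a.1.l) (Real.exp i) (Real.exp n) (fun d _ => HhX cc (a, j) i d)
            (W0 i) d f) ≤ ∑ i ∈ LIH (a, j), ∑ d ∈ DsH (a, j), ∑ f ∈ EEH e1 e0 (a, j),
        FH (Real.exp a.1.l) (HhX cc (a, j) i d) (Real.exp i) *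
          RN2XF cc (Real.exp a.1.l) (Real.exp i) (Real.exp n) (fun d _ => HhX cc (a, j) i d)
            (W0 i) d f := by
      rw [sum_comm]
      refine sum_le_sum fun i hi => ?_
      rw [sum_comm]
      refine sum_le_sum fun d hd => sum_le_sum fun f hf => ?_
      obtain ⟨-, -, -, -, hf1⟩ := hev f hf
      have hc0 : 0 ≤ cc := by linarith
      have hnn : 0 ≤ FH (Real.exp a.1.l) (HhX cc (a, j) i d) (Real.exp i) *
          RN2XF cc (Real.exp a.1.l) (Real.exp i) (Real.exp n) (fun d _ => HhX cc (a, j) i d)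
            (W0 i) d f := by
        have hH := HhX_pos (cc := cc) (a, j) i d
        refine mul_nonneg (FH_nonneg (Real.exp_pos _).le hH.le (Real.exp_pos _).le)
          (RN2XF_nonneg (E3Sz579.Ld_nonneg (Real.exp_pos _) hH d)
            (E3Sz579.Md_nonneg hc0 (Real.exp_pos _) (Real.exp_pos _) hH (Real.exp_pos _) d)
            (E3Sx744.Mxd_nonneg hc0 (Real.exp_pos _) (Real.exp_pos _) hH (Real.exp_pos _) d)
            (by positivity) fun jj => hW0n i hi jj d hd f hf _ (by positivity))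
      exact mul_le_of_le_one_left hnn (inv_le_one_of_one_le₀ hf1)
    refine hre.trans (hW3.trans ?_)
    have h1 : (X ^ (ε / (8 * ((M : ℝ) + 1)))) ^ M ≤ X ^ (ε / 8) := by
      rw [← Real.rpow_natCast, ← Real.rpow_mul hX0.le]
      refine Real.rpow_le_rpow_of_exponent_le hX1.le ?_
      rw [div_mul_eq_mul_div, div_le_div_iff₀ (by positivity) (by norm_num)]
      nlinarith
    have hn2 := (abs_le.1 hn).2
    have hnL : n / L ≤ q.1 (some (.inr 0)) + q.1 (some (.inr 1)) + q.1 (some (.inr 2)) + t₀ := by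
      rw [div_le_iff₀ hL0', add_mul]
      linarith
    have hLL := hLH (prX p) hpar
    have hT : cκ (prX p) + n / L + LR (cN (prX p)) (cκ (prX p)) (dd * cκ (prX p))
        (cx' (prX p)) + 3 * ε₁ + ε / 8 ≤ EHX LH q + ε := by
      unfold Hi454.EHX
      dsimp only
      rw [← hp]
      linarith
    calc (X ^ (ε / (8 * ((M : ℝ) + 1)))) ^ M * X ^ (cκ (prX p) + n / L +
          LR (cN (prX p)) (cκ (prX p)) (dd * cκ (prX p)) (cx' (prX p)) + 3 * ε₁)
        ≤ X ^ (ε / 8) * X ^ (cκ (prX p) + n / L +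
          LR (cN (prX p)) (cκ (prX p)) (dd * cκ (prX p)) (cx' (prX p)) + 3 * ε₁) :=
          mul_le_mul_of_nonneg_right h1 (by positivity)
      _ = X ^ (cκ (prX p) + n / L +
          LR (cN (prX p)) (cκ (prX p)) (dd * cκ (prX p)) (cx' (prX p)) + 3 * ε₁ + ε / 8) := by
          rw [← Real.rpow_add hX0]
          congr 1
          ring
      _ ≤ X ^ (EHX LH q + ε) := Real.rpow_le_rpow_of_exponent_le hX1.le hT

end Crest.Agent.R017.RnX571
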