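import Crest.Agent.R017.HiE_48
import Crest.Agent.R017.DgHX_290
import Crest.Agent.R017.RnXk_571

/-!
# Row 17, T.4 (helper571): the field `hi` from helper72's `TnHX` only

* **`hi_of_T`** : `DgHX` by helper290's `dgHX`, `RnHX` by `rnHX`
-/

set_option autoImplicit false

noncomputable section

open Finset

namespace Crest.Agent.R017.HiF571

open Crest.Agent.R012 Crest.Agent.R012.Eis
open Crest.Agent.R017.FE47 (PU cx)
open Crest.Agent.R017.End699 (PF)
open Crest.Agent.R017.Prov71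
open Crest.Agent.R017.B770
open Crest.Agent.R017.ER911 Crest.Agent.R017.SC777
open Crest.Agent.R017.E5B71 Crest.Agent.R017.E5L770
open Crest.Agent.R017.ExBox960 Crest.Agent.R017.ExP960
open Crest.Agent.R017.P1t54 (ParS)
open Crest.Agent.R017.Fin4 Crest.Agent.R017.Fin5 Crest.Agent.R017.Fin6
open Crest.Agent.R017.Sg986 (AA AA_lt AA_eq AA_ge)
open Crest.Agent.R017.NrX986 (NearAllX)
open Crest.Agent.R017.XS0298 (S0x S0K)
open Crest.Agent.R017.Red848 (red Exc red_ok)
open Crest.Agent.R017.E4U164 (low5)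
open Crest.Agent.R017.E5H319 (LR)
open Crest.Agent.R017.HiD50 (HNDX loB hiB)
open Crest.Agent.R017.HX72 (TnHX DgHX RnHX)
open Crest.Agent.R017.HiE48

/-- **the field `hi` from the T-numbers** -/
theorem hi_of_T {d : ℝ} (hd : 0 < d) (hd1 : d ≤ 1 / 42) {h : ℝ → ℝ} {c₀ : ℝ} (hpu : PU h c₀)
    (hPF : PF Set.univ (7 / 8 + d)) (P : BunE d h) (G : RecE d h)
    (near : NearAllX d (ex Dq (fun lam => S0x (red (πE lam)) h)))
    (hT : ∀ j : ℕ, (j * (d / 8) + d / 2) / 4 < 1 / 64 →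
      TnHX (fun lam => red (πE lam)) h ((j * (d / 8) + d / 2) / 4) (1 / 64) (d / 4) βX
        (ParS (AA d) d) (loB low5 ((j + 1) * (d / 8))) (hiB low5 (j * (d / 8))) (LR d)) :
    ∀ j : ℕ, (j * (d / 8) + d / 2) / 4 < 1 / 64 →
      HNDX πE h ((j * (d / 8) + d / 2) / 4) (1 / 64) (d / 4) βX (ParS (AA d) d)
        (loB low5 ((j + 1) * (d / 8))) (hiB low5 (j * (d / 8))) (LR d) := by
  have F := factsE hd hd1 P G near
  obtain ⟨Rh, hR0, hRh⟩ := Sg986.exists_Rh hpu
  refine hi_of_nums hd hd1 hpu fun j hj => ?_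
  have h0 : (0 : ℝ) ≤ (j * (d / 8) + d / 2) / 4 := by positivity
  refine ⟨hT j hj, ?_, ?_⟩
  · exact DgHX290.dgHX hpu F.ok F.hex hR0 hRh F.par F.r5 hd.le (by linarith) F.own F.all h0 hj.le
      (le_refl _) F.dh F.cD (le_refl _) F.zu (fun p hp => by
        have h1 := hlo_b hd.le j hp
        have h2 : low5 p = min (2 * cN p - cκ p) (3 / 4 * cN p) + 9 / 4 * cx' p := rfl
        linarith) (fun p _ => hhi_b _ p) (fun p _ => hLH_b p)
  · exact RnX571.rnHX hpu F.ok F.nc P.rules hPF hd.le (by linarith) (by norm_num) (le_refl _)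
      (by positivity) F.par F.dh F.cD (le_refl _) (by show (17 / 100 : ℝ) ≤ 1 / 5; norm_num)
      (fun p _ => hhi_b _ p) (fun p _ => hLH_b p)

end Crest.Agent.R017.HiF571
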