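import Crest.Agent.R017.P1y_54

/-!
# Row 17, R8/P1: the mismatch moment, the assembly (helper828)

* `I5_up` : the top of the levels of a class
* `size_main` : the size condition of the Gram form
* **`p1CF_of`** : the classes of the mismatch from the mains `XMU` and the lines `LTU`, `LRU`
-/

set_option autoImplicit false
set_option linter.unusedVariables false

noncomputable section

open Finset Filter
open scoped ComplexConjugate

namespace Crest.Agent.R017.P1z828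

open Crest.Agent.R012 Crest.Agent.R012.Eis Crest.Agent.R012.Div277
open Crest.Agent.R012.LS2 (S mem_S)
open Crest.Agent.R017.CM106 Crest.Agent.R017.C70
open Crest.Agent.R017.FE47 (PU cx SM)
open Crest.Agent.R017.StB828 (one_le_nmR)
open Crest.Agent.R017.StF828 (T3)
open Crest.Agent.R017.StG828 (JB omp PSu I1z I2z)
open Crest.Agent.R017.StJ319 (afrb gt5 q5 I5 Ilo Ihi)
open Crest.Agent.R017.E3A164 (SteT)
open Crest.Agent.R017.P1e54 Crest.Agent.R017.P1f54 Crest.Agent.R017.P1k54 Crest.Agent.R017.P1l54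
open Crest.Agent.R017.P1u54 Crest.Agent.R017.P1v54 Crest.Agent.R017.P1w54 Crest.Agent.R017.P1y54
open Crest.Agent.R017.B770 Crest.Agent.R017.Prov71
open Crest.Agent.R017.UM71
open Crest.Agent.R017.E5B71 Crest.Agent.R017.E5L770
open Crest.Agent.R017.TM708 (PD)
open Crest.Agent.R017.I1146 (LN)
open Crest.Agent.R017.P10146 (bP cl)
open Crest.Agent.R017.Mm828
open Crest.Agent.R017.E3Kc548 (LI)
open Crest.Agent.R017.E3Z548 (LVn FH)
open Crest.Agent.R017.E3Hd290 (RNF)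
open Crest.Agent.R017.Mode405 (Slp)
open Crest.Agent.R017.E3Sz579 (RHd)

/-- the levels of a class -/
lemma I5_up {g : Eis} {M n : ℕ} {Y : ℝ} {c : Fin 5} {i : ℕ} (h : i ∈ I5 g M n Y c) :
    i < M ∧ Real.log 2 * i ≤
      Real.log 2 * n + 2 * Real.log Y - Real.log (nm g) + 3 * Real.log 2 := by
  classical
  have h1 : i ∈ I1z g M n Y ∨ i ∈ I2z g M n Y := by
    fin_cases c
    · left
      change i ∈ Ilo g M n Y at h
      unfold Ilo at h
      exact (mem_filter.1 h).1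
    · left
      change i ∈ Ilo g M n Y at h
      unfold Ilo at h
      exact (mem_filter.1 h).1
    · left
      change i ∈ Ihi g M n Y at h
      unfold Ihi at h
      exact (mem_filter.1 h).1
    · left
      change i ∈ Ihi g M n Y at h
      unfold Ihi at h
      exact (mem_filter.1 h).1
    · right
      exact h
  rcases h1 with h1 | h1
  · unfold I1z at h1
    obtain ⟨h2, h3, h4⟩ := mem_filter.1 h1
    exact ⟨mem_range.1 h2, h4⟩
  · unfold I2z at h1
    obtain ⟨h2, h3⟩ := mem_filter.1 h1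
    exact ⟨mem_range.1 h2, h3⟩

/-- the size condition of the Gram form -/
lemma size_main {L K N x t l z A ζ G Bb P T Li lc k2 : ℝ} (hL : 0 < L) (hK0 : 8 / 9 * L ≤ K)
    (ht0 : 0 ≤ t) (ht : t ≤ L / 1000) (hl1 : l ≤ K + t) (hl0 : K - t ≤ l) (hz1 : z ≤ x + t)
    (hA1 : A ≤ N + t) (hζ1 : ζ ≤ x + t) (hx0 : 0 ≤ x) (hN : N ≤ 84 / 103 * K)
    (hx : x = 0 ∨ (x ≤ K / 36 ∧ x + 7 / 10 * N ≤ 199 / 360 * K))
    (hT : T ≤ 0 ∨ T ≤ 3 / 4 * A + 11 / 5 * z) (hB0 : 0 ≤ Bb) (hBG : Bb ≤ G)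
    (hlo : K / 2 ≤ P - 2 * G + 2 * x + t) (hup : P ≤ N + x + t) (hk2 : 0 ≤ k2)
    (hLi : Li ≤ T + 2 * ζ - G + 5 * k2) (hc : lc + 2 + 10 * k2 ≤ L / 100) :
    lc + max 0 (4 / 3 * (P - 2 * G) + 2 / 3 * ζ - l - 3 * max 0 (5 / 4 * A - l)) +
      2 * (1 + (Li - (G - Bb))) ≤ l + (P - G - Bb) := by
  have h3 : 0 ≤ max 0 (5 / 4 * A - l) := le_max_left _ _
  have hx1 : x ≤ K / 36 := by
    rcases hx with h | h
    · rw [h]; linarith
    · exact h.1
  rcases le_total (4 / 3 * (P - 2 * G) + 2 / 3 * ζ - l - 3 * max 0 (5 / 4 * A - l)) 0 with h | h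
  · rw [max_eq_left h]
    rcases hT with hT | hT
    · linarith
    · rcases hx with hx | ⟨hx1, hx2⟩
      · linarith
      · linarith
  · rw [max_eq_right h]
    rcases hT with hT | hT
    · linarith
    · rcases hx with hx | ⟨hx1, hx2⟩
      · linarith
      · linarith

lemma LVn_add (af : Eis → Eis → Eis → ℂ) (Ds EE : Finset Eis) (c Y K H V V' E1 B G1 RN : ℝ) :
    LVn af Ds EE c Y K H V V' E1 B G1 RN = LVn af Ds EE c Y K H V V' E1 B G1 0 +
      FH K H V * RN := by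
  unfold LVn
  ring

variable {Λ : Type*} {π : Λ → DPar} {h : ℝ → ℝ} {e0 : ℝ}

set_option maxHeartbeats 2000000 in
/-- **the classes of the mismatch from the mains and the lines** -/
theorem p1CF_of (hP : ∀ lam, (π lam).OK) {Rh : ℝ} (hRh0 : 0 ≤ Rh)
    (hRh : ∀ u, cx h u ≠ 0 → |u| ≤ Rh) (he0 : 0 ≤ e0) (he1 : e0 ≤ 1)
    {Par : Set (Fin 3 ⊕ Fin 5 → ℝ)} {L0 : (Fin 3 ⊕ Fin 5 → ℝ) → ℝ}
    (hsq : ∀ p ∈ Par, cN p ≤ 84 / 103 * cκ p ∧ (cx' p = 0 ∨ (cx' p ≤ 1 / 36 * cκ p ∧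
      cx' p + 7 / 10 * cN p ≤ 199 / 360 * cκ p)))
    (HX : XMU π h e0 Par L0) (HT : LTU π h e0 Par L0) (HR : LRU π h e0 Par L0) :
    P1CF π h e0 Par L0 := by
  intro R hR ε hε
  obtain ⟨τ₁, hτ₁, HX⟩ := HX (ε / 4) (by positivity)
  obtain ⟨τ₂, hτ₂, HT⟩ := HT (ε / 4) (by positivity)
  obtain ⟨τ₃, hτ₃, HR⟩ := HR (ε / 4) (by positivity)
  set τ := min (min τ₁ τ₂) (min τ₃ (1 / 1000)) with hτ
  have hτ0 : 0 < τ := lt_min (lt_min hτ₁ hτ₂) (lt_min hτ₃ (by norm_num))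
  have hτ1 : τ ≤ τ₁ := (min_le_left _ _).trans (min_le_left _ _)
  have hτ2 : τ ≤ τ₂ := (min_le_left _ _).trans (min_le_right _ _)
  have hτ3 : τ ≤ τ₃ := (min_le_right _ _).trans (min_le_left _ _)
  have hτ4 : τ ≤ 1 / 1000 := (min_le_right _ _).trans (min_le_right _ _)
  refine ⟨τ, hτ0, ?_⟩
  intro lam N B hB
  obtain ⟨J₁, M₁, X₁, hX₁, HX⟩ := HX lam N B hB
  obtain ⟨J₂, M₂, HT⟩ := HT lam N B hB
  obtain ⟨J₃, M₃, a₀, A₀, HR⟩ := HR lam N B hB
  obtain ⟨A, c, C, hc, hC, key⟩ := mm1 (R lam.1) (R1 := N * Rh) (R2 := 3 * Rh) (by positivity)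
    (by positivity) a₀ (max A₀ 2) (lt_of_lt_of_le one_lt_two (le_max_right _ _))
    (ε := min (ε / 24) 1) (lt_min (by positivity) one_pos) (min_le_right _ _)
  obtain ⟨X₂, hX₂, HT⟩ := HT c hc
  obtain ⟨X₃, hX₃, HR⟩ := HR c hc
  have hc0 : 0 < c := by linarith
  have hC0 : 0 < C := by linarith
  refine ⟨J₁ + J₂ + J₃ + A, M₁ + M₂ + M₃, max (max (max X₁ X₂) (max X₃ 3))
    (max (Real.exp (100 * (Real.log c + 2 + 10 * Real.log 2))) ((3 * C) ^ (4 / ε))),
    lt_of_lt_of_le hX₁ ((le_max_left _ _).trans ((le_max_left _ _).trans (le_max_left _ _))), ?_⟩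
  intro X hX H hH p hp a qs F hok c5 i b s hi hb
  have hX1' : X₁ ≤ X := ((le_max_left _ _).trans ((le_max_left _ _).trans (le_max_left _ _))).trans hX
  have hX2' : X₂ ≤ X := ((le_max_right _ _).trans ((le_max_left _ _).trans (le_max_left _ _))).trans hX
  have hX3' : X₃ ≤ X := ((le_max_left _ _).trans ((le_max_right _ _).trans (le_max_left _ _))).trans hX
  have hX3 : 3 ≤ X := ((le_max_right _ _).trans ((le_max_right _ _).trans (le_max_left _ _))).trans hX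
  have hX4 : Real.exp (100 * (Real.log c + 2 + 10 * Real.log 2)) ≤ X :=
    ((le_max_left _ _).trans (le_max_right _ _)).trans hX
  have hX5 : (3 * C) ^ (4 / ε) ≤ X := ((le_max_right _ _).trans (le_max_right _ _)).trans hX
  have hX0 : 0 < X := by linarith
  have hX1 : 1 ≤ X := by linarith
  obtain ⟨hokC, hg, hgs, hζ, hsup, hgS⟩ := hok
  have hok' : okM π h lam a qs := ⟨hokC, hg, hgs, hζ, hsup, hgS⟩
  have hl2 : 0 < Real.log 2 := Real.log_pos (by norm_num)
  set L := Real.log X with hLdef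
  have hL : 0 < L := F.L
  have hXe : X = Real.exp L := (Real.exp_log hX0).symm
  have hPp := F.par
  have hbp : IsPrim b := isPrim_of_mem_dvs hb
  have hbg : b ∣ a.2.1 := dvd_of_mem_dvs hb
  have hbz : b ≠ 0 := hbp.ne_zero
  have hgb : b * (a.2.1 / b) = a.2.1 := EuclideanDomain.mul_div_cancel' hbz hbg
  have hcg : IsPrim (a.2.1 / b) := by
    have e2 : IsPrim (b * (a.2.1 / b)) := by rw [hgb]; exact hg
    exact e2.of_mul_left hbp
  have g1 : (1 : ℝ) ≤ nm a.2.1 := one_le_nmR hg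
  have b1 : (1 : ℝ) ≤ nm b := one_le_nmR hbp
  have c1 : (1 : ℝ) ≤ nm (a.2.1 / b) := one_le_nmR hcg
  set G := Real.log (nm a.2.1) with hG
  set Bb := Real.log (nm b) with hBb
  have hnm : (nm b : ℝ) * nm (a.2.1 / b) = nm a.2.1 := by
    have := congrArg nm hgb
    rw [nm_mul] at this
    exact_mod_cast this
  have hGB : Real.log (nm (a.2.1 / b)) = G - Bb := by
    rw [hG, hBb, ← hnm, Real.log_mul (by linarith) (by linarith)]
    ring
  have hB0 : 0 ≤ Bb := Real.log_nonneg b1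
  have hBG : Bb ≤ G := by
    have := Real.log_nonneg c1
    linarith
  obtain ⟨hN1, hx1⟩ := hsq p hp
  -- products with `L`
  have hκL : 8 / 9 * L ≤ cκ p * L := mul_le_mul_of_nonneg_right hPp.κ0 hL.le
  have hκL1 : cκ p * L ≤ L := by
    have := mul_le_mul_of_nonneg_right hPp.κ1 hL.le
    linarith
  have htL : τ * L ≤ L / 1000 := by
    have := mul_le_mul_of_nonneg_right hτ4 hL.le
    linarith
  have htL0 : 0 ≤ τ * L := mul_nonneg hτ0.le hL.le
  have hxL0 : 0 ≤ cx' p * L := mul_nonneg hPp.x0 hL.le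
  have hNL : cN p * L ≤ 84 / 103 * (cκ p * L) := by
    have := mul_le_mul_of_nonneg_right hN1 hL.le
    linarith
  have hxL : cx' p * L = 0 ∨ (cx' p * L ≤ cκ p * L / 36 ∧
      cx' p * L + 7 / 10 * (cN p * L) ≤ 199 / 360 * (cκ p * L)) := by
    rcases hx1 with h0 | ⟨h1, h2⟩
    · left
      rw [h0, zero_mul]
    · right
      have e1 := mul_le_mul_of_nonneg_right h1 hL.le
      have e2 := mul_le_mul_of_nonneg_right h2 hL.le
      constructor <;> linarith
  have hxL1 : cx' p * L ≤ cκ p * L / 36 := by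
    rcases hxL with h0 | h0
    · rw [h0]; linarith
    · exact h0.1
  obtain ⟨l0, l1⟩ := abs_le.1 F.l
  obtain ⟨z0, z1⟩ := abs_le.1 F.z
  obtain ⟨A0, A1⟩ := abs_le.1 F.A
  obtain ⟨ζ0, ζ1⟩ := abs_le.1 F.ζ
  have hlo := F.lo
  have hup := F.up
  have hn1 := F.n1
  obtain ⟨hiM, hi1⟩ := I5_up hi
  rw [Real.log_exp] at hi1
  set Tt := max 0 (Sf770.tO a.1.1) with hTt
  have htO : Sf770.tO a.1.1 ≤ 3 / 4 * a3 a.1.1 + 11 / 5 * a.1.1.z := by
    unfold Sf770.tO
    have := min_le_right (2 * a3 a.1.1 - a.1.1.l) (3 / 4 * a3 a.1.1)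
    linarith
  have hT : Tt ≤ 0 ∨ Tt ≤ 3 / 4 * a3 a.1.1 + 11 / 5 * a.1.1.z := by
    rcases le_total (Sf770.tO a.1.1) 0 with h0 | h0
    · left; rw [hTt, max_eq_left h0]
    · right; rw [hTt, max_eq_right h0]; exact htO
  have hLi : Real.log 2 * ((i : ℝ) + 1) ≤ Tt + 2 * a.2.2 - G + 5 * Real.log 2 := by linarith
  have hlc : Real.log c + 2 + 10 * Real.log 2 ≤ L / 100 := by
    have h1 : 100 * (Real.log c + 2 + 10 * Real.log 2) ≤ L := by
      rw [hLdef]
      have := Real.log_le_log (Real.exp_pos _) hX4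
      rwa [Real.log_exp] at this
    linarith
  have hlc0 : 0 ≤ Real.log c := Real.log_nonneg hc
  have hG0 : 0 ≤ G := Real.log_nonneg g1
  have hclN : LN (cl a.1 qs) = LN qs + LN (List.ofFn a.1.2) := by
    rw [LN_cl]
    have : LN (List.ofFn a.1.2) = (a.1.2 0).z + (a.1.2 1).z + (a.1.2 2).z := by
      unfold LN
      simp only [List.ofFn_succ, List.ofFn_zero, Fin.succ_zero_eq_one, Fin.succ_one_eq_two,
        List.map_cons, List.map_nil, List.sum_cons, List.sum_nil]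
      ring
    rw [this]
    ring
  -- the sizes in logarithms
  have hmain := size_main (L := L) (K := cκ p * L) (N := cN p * L) (x := cx' p * L) (t := τ * L)
    (l := a.1.1.l) (z := a.1.1.z) (A := a3 a.1.1) (ζ := a.2.2) (G := G) (Bb := Bb)
    (P := LN (cl a.1 qs)) (T := Tt) (Li := Real.log 2 * ((i : ℝ) + 1)) (lc := Real.log c)
    (k2 := Real.log 2) hL hκL htL0 htL (by linarith) (by linarith) (by linarith) (by linarith)
    (by linarith) hxL0 hNL hxL hT hB0 hBG (by linarith) (by linarith) hl2.le hLi hlc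
  have hTt2 : Tt ≤ 2 * L := by
    rcases hT with h0 | h0 <;> linarith
  have hLi6 : Real.log 2 * ((i : ℝ) + 1) ≤ 4 * L := by linarith
  have hVb : Vb (a.2.1 / b) i = Real.exp (Real.log 2 * ((i : ℝ) + 1) - (G - Bb)) := by
    unfold Vb
    rw [Real.exp_sub, ← hGB, Real.exp_log (by linarith)]
  have hVbe : Vb (a.2.1 / b) i ≤ Real.exp (Real.log 2 * ((i : ℝ) + 1)) := by
    rw [hVb]
    exact Real.exp_le_exp.2 (by linarith)
  have hZe : X ^ 6 = Real.exp (6 * L) := by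
    rw [hXe, ← Real.exp_nat_mul]
    norm_num
  have hZ5 : (X ^ 6) ^ 5 = X ^ 30 := by rw [← pow_mul]
  have hZ200 : (X ^ 6) ^ 200 = X ^ 1200 := by rw [← pow_mul]
  have hZ5e : (X ^ 6) ^ 5 = Real.exp (30 * L) := by
    rw [hZ5, hXe, ← Real.exp_nat_mul]
    norm_num
  have hXw : Real.exp (LN qs + LN (List.ofFn a.1.2)) / (nm a.2.1 * nm b) =
      Real.exp (LN (cl a.1 qs) - G - Bb) := by
    rw [← hclN, Real.exp_sub, Real.exp_sub, hG, hBb, Real.exp_log (by linarith),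
      Real.exp_log (by linarith), div_div]
  -- the windows
  have w1 : ∀ n, ηC π h lam qs n ≠ 0 → |Real.log (nm n) - LN qs| ≤ N * Rh := by
    intro n hn
    obtain ⟨-, -, h3⟩ := supp_list h hRh (hP lam.1) lam.2 qs hn
    refine h3.trans (mul_le_mul_of_nonneg_right ?_ hRh0)
    exact_mod_cast F.pd.len
  have w2 : ∀ n, αC π h lam a n ≠ 0 → |Real.log (nm n) - LN (List.ofFn a.1.2)| ≤ 3 * Rh := by
    intro n hn
    obtain ⟨-, -, h3⟩ := supp_list h hRh (hP lam.1) lam.2 (List.ofFn a.1.2) hn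
    rw [List.length_ofFn] at h3
    exact_mod_cast h3
  have hFS : FS (αC π h lam a) := FS_list h hRh (hP lam.1) lam.2 _
  have hPS : PSu (αC π h lam a) := fun n hn =>
    ⟨(supp_list h hRh (hP lam.1) lam.2 _ hn).1, (supp_list h hRh (hP lam.1) lam.2 _ hn).2.1⟩
  -- the `R`-half
  obtain ⟨W0, hslp, hrh, hRn⟩ := HR X hX3' H hH p hp a qs (Fr9.mono hτ3 F) hok' c5 i b s hi hb
  have hTn := HT X hX2' H hH p hp a qs (Fr9.mono hτ2 F) hok' c5 i b s hi hb
  have hXn := HX X hX1' H hH p hp a qs (Fr9.mono hτ1 F) hok' c5 i b s hi hb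
  have hrok : ROK (afM π h e0 lam a qs c5 b s) :=
    rok_afrb (Real.exp_pos _).le hFS hPS hbp s
  have hrh' : ∀ k ∈ LI (1 / 10) (Vb (a.2.1 / b) i), RHd ((X ^ 6) ^ 5) (c * (X ^ 6) ^ 200)
      (max A₀ 2) (S (E0M e0 a)) (fl (afM π h e0 lam a qs c5 b s)) (W0 k) := by
    intro k hk
    rw [hZ5, hZ200]
    exact RHd_fl hrok (by positivity) (hrh k hk)
  have hl00 : 0 ≤ a.1.1.l := by linarith
  have hE0 : E0M e0 a ≤ X ^ 6 := by
    unfold E0M
    rw [hZe, ← Real.exp_add]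
    refine Real.exp_le_exp.2 ?_
    have : e0 * a.1.1.l ≤ 1 * a.1.1.l := mul_le_mul_of_nonneg_right he1 hl00
    linarith
  have hDM2 : DM (nO a.1.1) a.2.2 ^ 2 =
      Real.exp (Real.log 2 * (nM (nO a.1.1) a.2.2 + 1) + 3 * a.2.2) := by
    unfold DM
    rw [← Real.exp_nat_mul]
    congr 1
    push_cast
    ring
  have hVD : Vb (a.2.1 / b) i ≤ DM (nO a.1.1) a.2.2 ^ 2 := by
    rw [hDM2]
    refine hVbe.trans (Real.exp_le_exp.2 ?_)
    have h1 : (i : ℝ) + 1 ≤ nM (nO a.1.1) a.2.2 + 1 := by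
      have : (i : ℝ) ≤ nM (nO a.1.1) a.2.2 := by exact_mod_cast hiM.le
      linarith
    have := mul_le_mul_of_nonneg_left h1 hl2.le
    linarith
  have key2 := key (Real.exp a.2.2) (Real.exp_pos _).le
    (gt5 (Real.exp (e0 * a.1.1.l)) (Real.exp a.2.2) a.2.1 c5) (q5 a.2.1 c5) (ηC π h lam qs)
    (αC π h lam a) hFS hPS a.2.1 b hg hb (LN qs) (LN (List.ofFn a.1.2)) w1 w2 i s (X ^ 6)
    (DM (nO a.1.1) a.2.2) (E0M e0 a) (Real.exp (a.1.1.l / 20)) (Real.exp a.1.1.l) (HpM a qs)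
    (D0M a) W0 (one_le_pow₀ hX1) (Real.exp_pos _).le hVD (Real.exp_pos _)
    (by rw [hZe]; exact Real.exp_le_exp.2 (by linarith))
    (hVbe.trans (by rw [hZe]; exact Real.exp_le_exp.2 (by linarith)))
    (mul_pos (Real.exp_pos _) (Real.exp_pos _)).le hE0 (Real.exp_pos _).le
    (by rw [hZe]; exact Real.exp_le_exp.2 (by linarith)) (Real.exp_pos _).le (Real.exp_pos _).le
    (by rw [hXw, hZ5e]; exact Real.exp_le_exp.2 (by linarith))
    (by
      rw [hZ5e]
      calc c * (Real.exp 1 * Vb (a.2.1 / b) i)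
          ≤ Real.exp (Real.log c) * (Real.exp 1 * Real.exp (Real.log 2 * ((i : ℝ) + 1))) := by
            rw [Real.exp_log hc0]
            exact mul_le_mul_of_nonneg_left (mul_le_mul_of_nonneg_left hVbe (Real.exp_pos _).le)
              hc0.le
        _ = Real.exp (Real.log c + (1 + Real.log 2 * ((i : ℝ) + 1))) := by
            rw [Real.exp_add, Real.exp_add]
        _ ≤ _ := Real.exp_le_exp.2 (by linarith))
    (by
      rw [hXw, hVb]
      have e1 : max 1 (HpM a qs) = Real.exp (max 0 (4 / 3 * (LN (cl a.1 qs) - 2 * G) +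
          2 / 3 * a.2.2 - a.1.1.l - 3 * max 0 (5 / 4 * a3 a.1.1 - a.1.1.l))) := by
        unfold HpM
        rw [← Real.exp_zero]
        exact (Real.exp_monotone.map_max).symm
      rw [e1]
      nth_rewrite 1 [← Real.exp_log hc0]
      rw [← Real.exp_add 1, ← Real.exp_nat_mul, ← Real.exp_add, ← Real.exp_add, ← Real.exp_add]
      refine Real.exp_le_exp.2 ?_
      push_cast
      linarith)
    hslp hrh'
  -- the numbers
  set E := Real.exp (tgM (L0 p) X a qs) with hE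
  have hE0' : 0 < E := Real.exp_pos _
  set J' := J₁ + J₂ + J₃ with hJ'
  set M' := M₁ + M₂ + M₃ with hM'
  have hs1 : 1 ≤ 1 + |s| := by linarith [abs_nonneg s]
  have hs0 : 0 ≤ 1 + |s| := by linarith
  have hH0 : 0 ≤ H := by linarith
  set B1 := H ^ M' * X ^ (ε / 4) * E * (1 + |s|) ^ J' with hB1
  have hB10 : 0 ≤ B1 := by positivity
  have hle : ∀ m j : ℕ, m ≤ M' → j ≤ J' →
      H ^ m * X ^ (ε / 4) * E * (1 + |s|) ^ j ≤ B1 := by
    intro m j hm hj
    have e1 : H ^ m ≤ H ^ M' := pow_le_pow_right₀ hH hm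
    have e2 : (1 + |s|) ^ j ≤ (1 + |s|) ^ J' := pow_le_pow_right₀ hs1 hj
    have e3 : 0 ≤ X ^ (ε / 4) := by positivity
    have e4 : H ^ m * X ^ (ε / 4) * E ≤ H ^ M' * X ^ (ε / 4) * E :=
      mul_le_mul_of_nonneg_right (mul_le_mul_of_nonneg_right e1 e3) hE0'.le
    exact mul_le_mul e4 e2 (by positivity) (by positivity)
  have hXn' : Real.exp a.1.1.l ^ (2 / 3 : ℝ) * XMn (a.2.1 / b) i s (Vb (a.2.1 / b) i) (E0M e0 a)
      (Real.exp (a.1.1.l / 20)) (Real.exp a.1.1.l) (afM π h e0 lam a qs c5 b s) ≤ B1 :=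
    hXn.trans (hle M₁ J₁ (by omega) (by omega))
  have hLM : LMn (Vb (a.2.1 / b) i) (E0M e0 a) (Real.exp (a.1.1.l / 20)) (Real.exp a.1.1.l)
      (XwM a qs b) c (X ^ 6) (HmM a qs b c) W0 (afM π h e0 lam a qs c5 b s) ≤ B1 + B1 := by
    rw [LMn_eq hrok, hZ5]
    refine le_trans (le_of_eq ?_) (add_le_add (hTn.trans (hle M₂ J₂ (by omega) (by omega)))
      (hRn.trans (hle M₃ J₃ (by omega) (by omega))))
    rw [← sum_add_distrib]
    refine sum_congr rfl fun e _ => ?_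
    rw [← sum_add_distrib]
    refine sum_congr rfl fun k _ => ?_
    rw [← sum_add_distrib]
    refine sum_congr rfl fun d _ => ?_
    rw [LVn_add]
    ring
  have hZε : (X ^ 6) ^ (min (ε / 24) 1) ≤ X ^ (ε / 4) := by
    have e1 : (X ^ 6 : ℝ) = X ^ ((6 : ℕ) : ℝ) := (Real.rpow_natCast X 6).symm
    rw [e1, ← Real.rpow_mul hX0.le]
    refine Real.rpow_le_rpow_of_exponent_le hX1 ?_
    have := min_le_left (ε / 24) 1
    push_cast
    linarith
  have hCX : 3 * C ≤ X ^ (ε / 4) := by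
    have e1 : ((3 * C) ^ (4 / ε)) ^ (ε / 4) ≤ X ^ (ε / 4) :=
      Real.rpow_le_rpow (by positivity) hX5 (by positivity)
    rw [← Real.rpow_mul (by positivity)] at e1
    have e2 : 4 / ε * (ε / 4) = 1 := by field_simp
    rwa [e2, Real.rpow_one] at e1
  have hsA : 1 ≤ (1 + |s|) ^ A := one_le_pow₀ hs1
  have hZε0 : 0 ≤ (X ^ 6) ^ (min (ε / 24) 1) := by positivity
  have hX40 : 0 ≤ X ^ (ε / 4) := by positivity
  refine key2.trans ?_
  have hin : Real.exp a.1.1.l ^ (2 / 3 : ℝ) * XMn (a.2.1 / b) i s (Vb (a.2.1 / b) i) (E0M e0 a)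
      (Real.exp (a.1.1.l / 20)) (Real.exp a.1.1.l) (afM π h e0 lam a qs c5 b s) +
      (1 + |s|) ^ A * LMn (Vb (a.2.1 / b) i) (E0M e0 a) (Real.exp (a.1.1.l / 20))
        (Real.exp a.1.1.l) (XwM a qs b) c (X ^ 6) (HmM a qs b c) W0
        (afM π h e0 lam a qs c5 b s) ≤ 3 * ((1 + |s|) ^ A * B1) := by
    have e1 := mul_le_mul_of_nonneg_left hLM (by positivity : (0 : ℝ) ≤ (1 + |s|) ^ A)
    have e2 : B1 ≤ (1 + |s|) ^ A * B1 := le_mul_of_one_le_left hB10 hsA
    have e3 : (1 + |s|) ^ A * (B1 + B1) = (1 + |s|) ^ A * B1 + (1 + |s|) ^ A * B1 := by ring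
    rw [e3] at e1
    linarith [hXn']
  have h3B : 0 ≤ 3 * ((1 + |s|) ^ A * B1) := by positivity
  calc _ ≤ C * (X ^ 6) ^ (min (ε / 24) 1) * (3 * ((1 + |s|) ^ A * B1)) :=
        mul_le_mul_of_nonneg_left hin (by positivity)
    _ ≤ C * X ^ (ε / 4) * (3 * ((1 + |s|) ^ A * B1)) :=
        mul_le_mul_of_nonneg_right (mul_le_mul_of_nonneg_left hZε hC0.le) h3B
    _ = 3 * C * (X ^ (ε / 4) * ((1 + |s|) ^ A * B1)) := by ring
    _ ≤ X ^ (ε / 4) * (X ^ (ε / 4) * ((1 + |s|) ^ A * B1)) :=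
        mul_le_mul_of_nonneg_right hCX (by positivity)
    _ = H ^ M' * (X ^ (ε / 4) * X ^ (ε / 4) * X ^ (ε / 4)) * E * (1 + |s|) ^ (J' + A) := by
        rw [hB1, pow_add]
        ring
    _ ≤ H ^ M' * X ^ ε * E * (1 + |s|) ^ (J' + A) := by
        have e1 : X ^ (ε / 4) * X ^ (ε / 4) * X ^ (ε / 4) ≤ X ^ ε := by
          rw [← Real.rpow_add hX0, ← Real.rpow_add hX0]
          exact Real.rpow_le_rpow_of_exponent_le hX1 (by linarith)
        have e2 : 0 ≤ H ^ M' := by positivity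
        exact mul_le_mul_of_nonneg_right (mul_le_mul_of_nonneg_right
          (mul_le_mul_of_nonneg_left e1 e2) hE0'.le) (by positivity)

end Crest.Agent.R017.P1z828
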