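import Crest.Agent.R017.HmX_813
import Crest.Agent.R017.P1z_828
import Crest.Agent.R017.RnPa_571

/-!
# Row 17, exceptional class, mismatch: the size condition of the rows (helper341)

* `size_mainX` : the real inequality
* **`hm_size`** : the size condition at the lengths `HmE` of helper813
-/

set_option autoImplicit false
set_option linter.unusedVariables false

noncomputable section

open Finset

namespace Crest.Agent.R017.HmS341

open Crest.Agent.R012 Crest.Agent.R012.Eis Crest.Agent.R012.Div277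
open Crest.Agent.R012.LS2 (S mem_S bl)
open Crest.Agent.R017.CM106 (CS FS TG)
open Crest.Agent.R017.C70
open Crest.Agent.R017.FE47 (PU cx SM)
open Crest.Agent.R017.StB828 (one_le_nmR)
open Crest.Agent.R017.StG828 (JB mem_JB)
open Crest.Agent.R017.StJ319 (I5)
open Crest.Agent.R017.P1z828 (I5_up)
open Crest.Agent.R017.E3Kc548 (LI mem_LI)
open Crest.Agent.R017.P1e54 Crest.Agent.R017.P1f54 Crest.Agent.R017.P1k54
open Crest.Agent.R017.P1l54 (ParOK oN)
open Crest.Agent.R017.Sf770 (nO)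
open Crest.Agent.R017.P1u54
open Crest.Agent.R017.P1v54 (ηC)
open Crest.Agent.R017.B770 Crest.Agent.R017.Prov71
open Crest.Agent.R017.E5B71 Crest.Agent.R017.E5L770
open Crest.Agent.R017.ExBox960 Crest.Agent.R017.ExP960
open Crest.Agent.R017.P1X960
open Crest.Agent.R017.I1146 (LN)
open Crest.Agent.R017.P1MU960
open Crest.Agent.R017.Mm828 (Vb Hm Hm_pos Hm_le)
open Crest.Agent.R017.P1yX72
open Crest.Agent.R017.HmX813
open Crest.Agent.R017.RnP571 (Dh)

/-- the size condition of the Gram form, exceptional class -/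
lemma size_mainX {L K N x t l z A ζ G Bb P T Li lc k2 sv : ℝ} (hL : 0 < L) (hK0 : 8 / 9 * L ≤ K)
    (ht0 : 0 ≤ t) (ht : t ≤ L / 10000) (hl1 : l ≤ K + t) (hl0 : K - t ≤ l) (hz1 : z ≤ x + t)
    (hA1 : A ≤ N + t) (hζ1 : ζ ≤ x + t) (hx0 : 0 ≤ x) (hN : N ≤ 102 / 125 * K)
    (hx : (x ≤ K / 320 ∧ (x = 0 ∨ N + x ≤ 4 / 5 * K)) ∨
      (x ≤ K / 36 ∧ x + 7 / 10 * N ≤ 199 / 360 * K))
    (hT : T ≤ 0 ∨ (T ≤ 3 / 4 * A + 11 / 5 * z ∧ T ≤ 2 * A - l + 11 / 5 * z))
    (hB0 : 0 ≤ Bb) (hBG : Bb ≤ G)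
    (hlo : K / 2 ≤ P - 2 * G + 2 * x + t) (hup : P ≤ N + x + t) (hk2 : 0 ≤ k2)
    (hLi : Li ≤ T + 2 * ζ - G + 5 * k2) (hc : lc + 2 + 15 * k2 ≤ L / 100) (hsv : 0 ≤ sv) :
    lc + max 0 (max (4 / 3 * (P - 2 * G) + 2 / 3 * ζ) (P - 2 * G + Li - sv) - l -
      3 * max 0 (5 / 4 * A - l)) + 2 * (1 + (Li - (G - Bb))) ≤ l + (P - G - Bb) := by
  have h3 : 0 ≤ max 0 (5 / 4 * A - l) := le_max_left _ _
  generalize max 0 (5 / 4 * A - l) = m at h3 ⊢
  have e0 : lc + 0 + 2 * (1 + (Li - (G - Bb))) ≤ l + (P - G - Bb) := by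
    rcases hT with hT | ⟨hT, hT'⟩ <;> rcases hx with ⟨hx, hx' | hx'⟩ | ⟨hx, hx'⟩ <;> linarith
  have e1 : lc + (4 / 3 * (P - 2 * G) + 2 / 3 * ζ - l - 3 * m) + 2 * (1 + (Li - (G - Bb))) ≤
      l + (P - G - Bb) := by
    rcases hT with hT | ⟨hT, hT'⟩ <;> rcases hx with ⟨hx, hx' | hx'⟩ | ⟨hx, hx'⟩ <;> linarith
  have e2 : lc + (P - 2 * G + Li - sv - l - 3 * m) + 2 * (1 + (Li - (G - Bb))) ≤
      l + (P - G - Bb) := by
    rcases hT with hT | ⟨hT, hT'⟩ <;> rcases hx with ⟨hx, hx' | hx'⟩ | ⟨hx, hx'⟩ <;> linarith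
  rcases max_choice (4 / 3 * (P - 2 * G) + 2 / 3 * ζ) (P - 2 * G + Li - sv) with h | h <;>
    rw [h]
  · rcases max_choice 0 (4 / 3 * (P - 2 * G) + 2 / 3 * ζ - l - 3 * m) with h' | h' <;> rw [h'] <;>
    assumption
  · rcases max_choice 0 (P - 2 * G + Li - sv - l - 3 * m) with h' | h' <;> rw [h'] <;>
    assumption

set_option maxHeartbeats 1000000 in
/-- **the size condition of the rows**, any saving `s`, no condition on `c` -/
theorem hm_size {Λ : Type*} {π : Λ → DPar} {h : ℝ → ℝ} {e0 c β : ℝ}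
    {ok : Λ × Eis → BmX → List Pq → Prop}
    {Fx : (IX5 → ℝ) → ℝ → ℝ → ℝ → ℝ → ℕ → BmX → List Pq → Prop}
    {lam : Λ × Eis} {p : IX5 → ℝ} {X τ B H : ℝ} {N : ℕ} {a : BmX} {qs : List Pq} {cc : Fin 5}
    {i : ℕ} {b : Eis} (Hy : Hyp9 π h c ok Fx β lam p X τ B H N a qs cc i b) {D' : ℝ}
    (hD : Dh (cκ (prX p)) (cu (prX p) 2) (cu (prX p) 3) (cu (prX p) 4) (cx' (prX p)) D')
    (hτ : 0 ≤ τ) (hτ' : τ ≤ 1 / 10000) {cL : ℝ} (hcL : 1 ≤ cL)
    (hX8 : Real.log cL + 20 ≤ 1 / 1000 * Real.log X) (s : ℝ) :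
    ∀ k ∈ LI (1 / 10) (VM a i b), ∀ d ∈ DsM a i b, ∀ e ∈ S (EM e0 a),
      cL * (HmE s cL a qs i b k d e * Real.exp k ^ 2) ≤ Real.exp a.1.1.l * XM a qs b := by
  intro k hk d hd e he
  have F := Hy.fr
  have hL : 0 < Real.log X := F.L
  have hl2 : 0 < Real.log 2 := Real.log_pos (by norm_num)
  have hl21 : Real.log 2 ≤ 1 := by
    have := Real.log_two_lt_d9
    linarith
  have hc0 : 0 < cL := by linarith
  have hlc0 : 0 ≤ Real.log cL := Real.log_nonneg hcL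
  set L := Real.log X with hLdef
  have hbp : IsPrim b := isPrim_of_mem_dvs Hy.hb
  have hbg : b ∣ a.2.1 := dvd_of_mem_dvs Hy.hb
  have hgb : b * (a.2.1 / b) = a.2.1 := EuclideanDomain.mul_div_cancel' hbp.ne_zero hbg
  have hcg : IsPrim (a.2.1 / b) := by
    have e2 : IsPrim (b * (a.2.1 / b)) := by rw [hgb]; exact Hy.gp
    exact e2.of_mul_left hbp
  have g1 : (1 : ℝ) ≤ nm a.2.1 := one_le_nmR Hy.gp
  have b1 : (1 : ℝ) ≤ nm b := one_le_nmR hbp
  have c1 : (1 : ℝ) ≤ nm (a.2.1 / b) := one_le_nmR hcg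
  set G := Real.log (nm a.2.1) with hG
  set Bb := Real.log (nm b) with hBb
  have hnm : (nm b : ℝ) * nm (a.2.1 / b) = nm a.2.1 := by
    have := congrArg nm hgb
    rw [nm_mul] at this
    exact_mod_cast this
  have hGB : Real.log (nm (a.2.1 / b)) = G - Bb := by
    rw [hG, hBb, ← hnm, Real.log_mul (by linarith) (by linarith)]
    ring
  have hB0 : 0 ≤ Bb := Real.log_nonneg b1
  have hBG : Bb ≤ G := by
    have := Real.log_nonneg c1
    linarith
  -- products with `L`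
  have hPp := F.par
  have hκL : 8 / 9 * L ≤ cκ (prX p) * L := mul_le_mul_of_nonneg_right hPp.κ0 hL.le
  have htL : τ * L ≤ L / 10000 := by
    have := mul_le_mul_of_nonneg_right hτ' hL.le
    linarith
  have htL0 : 0 ≤ τ * L := mul_nonneg hτ hL.le
  have hxL0 : 0 ≤ cx' (prX p) * L := mul_nonneg hPp.x0 hL.le
  have hNe : cN (prX p) = cu (prX p) 2 + cu (prX p) 3 + cu (prX p) 4 := rfl
  have hNL : cN (prX p) * L ≤ 102 / 125 * (cκ (prX p) * L) := by
    have := mul_le_mul_of_nonneg_right hD.N1 hL.le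
    rw [hNe]
    linarith
  have hxL : (cx' (prX p) * L ≤ cκ (prX p) * L / 320 ∧ (cx' (prX p) * L = 0 ∨
      cN (prX p) * L + cx' (prX p) * L ≤ 4 / 5 * (cκ (prX p) * L))) ∨
      (cx' (prX p) * L ≤ cκ (prX p) * L / 36 ∧
      cx' (prX p) * L + 7 / 10 * (cN (prX p) * L) ≤ 199 / 360 * (cκ (prX p) * L)) := by
    rcases hD.adm with ⟨a0, a1⟩ | ⟨a1, a2, a3⟩
    · left
      refine ⟨?_, ?_⟩
      · have h1 : cx' (prX p) ≤ cκ (prX p) / 320 := by linarith [hD.d1]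
        have := mul_le_mul_of_nonneg_right h1 hL.le
        linarith
      · rcases a1 with h0 | h0
        · left
          rw [h0, zero_mul]
        · right
          have := mul_le_mul_of_nonneg_right h0 hL.le
          rw [hNe]
          linarith
    · right
      have h1 : cx' (prX p) ≤ 1 / 36 * cκ (prX p) := by linarith [hD.d0]
      have e1 := mul_le_mul_of_nonneg_right h1 hL.le
      have e2 := mul_le_mul_of_nonneg_right a3 hL.le
      rw [hNe]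
      constructor <;> linarith
  obtain ⟨l0, l1⟩ := abs_le.1 F.l
  obtain ⟨z0, z1⟩ := abs_le.1 F.z
  obtain ⟨A0, A1⟩ := abs_le.1 F.A
  obtain ⟨ζ0, ζ1⟩ := abs_le.1 F.ζ
  have hlo := F.lo
  have hup := F.up
  have hw1 := F.w1
  obtain ⟨hiM, hi1⟩ := I5_up Hy.hi
  rw [Real.log_exp] at hi1
  set Tt := max 0 (min (Sf770.tO a.1.1.toBd) (Sf770.tO a.1.1.toBd + 2 * (c * a.1.1.l) -
    2 * a.1.2.2)) with hTt
  have htO : Sf770.tO a.1.1.toBd ≤ 3 / 4 * a3 a.1.1.toBd + 11 / 5 * a.1.1.z := by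
    have e1 : Sf770.tO a.1.1.toBd = min (2 * a3 a.1.1.toBd - a.1.1.l) (3 / 4 * a3 a.1.1.toBd) +
      11 / 5 * a.1.1.z := rfl
    rw [e1]
    have := min_le_right (2 * a3 a.1.1.toBd - a.1.1.l) (3 / 4 * a3 a.1.1.toBd)
    linarith
  have htO' : Sf770.tO a.1.1.toBd ≤ 2 * a3 a.1.1.toBd - a.1.1.l + 11 / 5 * a.1.1.z := by
    have e1 : Sf770.tO a.1.1.toBd = min (2 * a3 a.1.1.toBd - a.1.1.l) (3 / 4 * a3 a.1.1.toBd) +
      11 / 5 * a.1.1.z := rfl
    rw [e1]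
    have := min_le_left (2 * a3 a.1.1.toBd - a.1.1.l) (3 / 4 * a3 a.1.1.toBd)
    linarith
  have hT : Tt ≤ 0 ∨ (Tt ≤ 3 / 4 * a3 a.1.1.toBd + 11 / 5 * a.1.1.z ∧
      Tt ≤ 2 * a3 a.1.1.toBd - a.1.1.l + 11 / 5 * a.1.1.z) := by
    have hm := min_le_left (Sf770.tO a.1.1.toBd) (Sf770.tO a.1.1.toBd + 2 * (c * a.1.1.l) -
      2 * a.1.2.2)
    rcases le_total (min (Sf770.tO a.1.1.toBd) (Sf770.tO a.1.1.toBd + 2 * (c * a.1.1.l) -
      2 * a.1.2.2)) 0 with h0 | h0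
    · left; rw [hTt, max_eq_left h0]
    · right; rw [hTt, max_eq_right h0]
      exact ⟨hm.trans htO, hm.trans htO'⟩
  have hLi : Real.log 2 * ((i : ℝ) + 1) ≤ Tt + 2 * a.2.2 - G + 5 * Real.log 2 := by linarith
  have hlc : Real.log cL + 2 + 15 * Real.log 2 ≤ L / 100 := by linarith
  have hsv : 0 ≤ max 0 (max (5 / 3 * s) (3 * s - 52 / 300 * a.1.1.l)) := le_max_left _ _
  have hmain := size_mainX (L := L) (K := cκ (prX p) * L) (N := cN (prX p) * L)
    (x := cx' (prX p) * L) (t := τ * L) (l := a.1.1.l) (z := a.1.1.z) (A := a3 a.1.1.toBd)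
    (ζ := a.2.2) (G := G) (Bb := Bb) (P := LN (clM a qs)) (T := Tt)
    (Li := Real.log 2 * ((i : ℝ) + 1)) (lc := Real.log cL) (k2 := Real.log 2)
    (sv := max 0 (max (5 / 3 * s) (3 * s - 52 / 300 * a.1.1.l))) hL hκL htL0 htL (by linarith)
    (by linarith) (by linarith) (by linarith) (by linarith) hxL0 hNL hxL hT hB0 hBG (by linarith)
    (by linarith) hl2.le hLi hlc hsv
  have hVb : VM a i b = Real.exp (Real.log 2 * ((i : ℝ) + 1) - (G - Bb)) := by
    unfold VM Vb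
    rw [Real.exp_sub, ← hGB, Real.exp_log (by linarith)]
  have hXw : XM a qs b = Real.exp (LN (clM a qs) - G - Bb) := by
    have e1 : LN qs + lM a = LN (clM a qs) := by
      rw [F.cl]
      unfold lM
      ring
    unfold XM
    rw [e1, Real.exp_sub, Real.exp_sub, hG, hBb, Real.exp_log (by linarith),
      Real.exp_log (by linarith), div_div]
  have hXw0 : 0 < XM a qs b := by
    rw [hXw]
    exact Real.exp_pos _
  have hV0 : 0 ≤ VM a i b := by
    rw [hVb]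
    exact (Real.exp_pos _).le
  have hHp0 : 0 ≤ HpE s a qs i := (Real.exp_pos _).le
  have hm : cL * max 1 (HpE s a qs i) * (Real.exp 1 * VM a i b) ^ 2 ≤
      Real.exp a.1.1.l * XM a qs b := by
    rw [hXw, hVb]
    have e1 : max 1 (HpE s a qs i) = Real.exp (max 0 (max (4 / 3 * (LN (clM a qs) - 2 * G) +
        2 / 3 * a.2.2) (LN (clM a qs) - 2 * G + Real.log 2 * ((i : ℝ) + 1) -
          max 0 (max (5 / 3 * s) (3 * s - 52 / 300 * a.1.1.l))) - a.1.1.l -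
        3 * max 0 (5 / 4 * a3 a.1.1.toBd - a.1.1.l))) := by
      unfold HpE PX
      rw [← Real.exp_zero]
      exact (Real.exp_monotone.map_max).symm
    rw [e1]
    nth_rewrite 1 [← Real.exp_log hc0]
    rw [← Real.exp_add 1, ← Real.exp_nat_mul, ← Real.exp_add, ← Real.exp_add, ← Real.exp_add]
    refine Real.exp_le_exp.2 ?_
    push_cast
    linarith
  have hdp : IsPrim d := by
    unfold DsM at hd
    obtain ⟨x, hx, rfl⟩ := Finset.mem_image.1 hd
    exact ((mem_JB (Real.sqrt_nonneg _)).1 hx).1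
  have hE0 : 0 ≤ EM e0 a := by
    unfold EM
    positivity
  unfold HmE
  exact Hm_le hHp0 hcg (Real.exp_pos _) hXw0 hc0 hV0 hm (mem_LI hk).2.2 hdp
    ((mem_S hE0).1 he).2.1

end Crest.Agent.R017.HmS341
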