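import Crest.Agent.R017.HmX_813
import Crest.Agent.R017.FrL_524
import Crest.Agent.R017.RnPa_571

/-!
# Row 17, exceptional class, mismatch (helper524): the size condition of the Gram form, `u = t²`

* `size_real` : the real inequality
* **`hm_size`** : the size condition for `HmE s` (differences `s = sX a`, single lists `s = 0`)
* `hm_sizeD`, `hm_sizeS`
-/

set_option autoImplicit false
set_option maxHeartbeats 1000000
set_option linter.unusedVariables false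

noncomputable section

open Finset Filter

namespace Crest.Agent.R017.HmS524

open Crest.Agent.R012 Crest.Agent.R012.Eis Crest.Agent.R012.Div277
open Crest.Agent.R012.LS2 (S mem_S)
open Crest.Agent.R017.CM106 Crest.Agent.R017.C70
open Crest.Agent.R017.StB828 (one_le_nmR)
open Crest.Agent.R017.StG828 (JB mem_JB)
open Crest.Agent.R017.StJ319 (afrb gt5 q5 I5)
open Crest.Agent.R017.E3Kc548 (LI mem_LI)
open Crest.Agent.R017.P1e54 Crest.Agent.R017.P1f54 Crest.Agent.R017.P1k54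
open Crest.Agent.R017.P1l54 (ParOK oN)
open Crest.Agent.R017.Sf770 (nO tO)
open Crest.Agent.R017.P1u54
open Crest.Agent.R017.B770 Crest.Agent.R017.Prov71
open Crest.Agent.R017.E5B71 Crest.Agent.R017.E5L770
open Crest.Agent.R017.ExBox960 Crest.Agent.R017.ExP960
open Crest.Agent.R017.P1X960
open Crest.Agent.R017.I1146 (LN)
open Crest.Agent.R017.P1MU960
open Crest.Agent.R017.Mm828 (Vb Hm Hm_le Hm_pos)
open Crest.Agent.R017.P1yX72
open Crest.Agent.R017.RnP571 (Dh)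
open Crest.Agent.R017.HmX813
open Crest.Agent.R017.FrL524

/-- **the real inequality of the size condition** -/
theorem size_real {K N x t l A z ζ G Bb P T v ℓ s lc k2 c : ℝ} (hK : 0 < K) (t0 : 0 ≤ t)
    (t1 : t ≤ K / 2000) (l0 : K - t ≤ l) (l1 : l ≤ K + t) (hz : z ≤ x + t) (hζ : ζ ≤ x + t)
    (A1 : A ≤ N + t) (hx0 : 0 ≤ x) (hN : N ≤ 102 / 125 * K)
    (hx : x ≤ K / 320 ∨ (x ≤ K / 36 ∧ x + 7 / 10 * N ≤ 199 / 360 * K)) (hc : c ≤ 1 / 100)
    (hT : T ≤ 0 ∨ (T ≤ 3 / 4 * A + 11 / 5 * z ∧ T ≤ 3 / 4 * A + 11 / 5 * z + l / 50 - 2 * ℓ))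
    (hℓ : 0 ≤ ℓ) (hB0 : 0 ≤ Bb) (hBG : Bb ≤ G) (hlo : K / 2 ≤ P + 2 * x + t)
    (hup : P ≤ N - ℓ + x - 2 * G + 3 * t) (hk2 : 0 ≤ k2) (hv : v ≤ T + 2 * ζ - G + 5 * k2)
    (hs : 17 / 100 * l - ℓ - G - 10 * t ≤ s) (hlc : lc + 2 + 20 * k2 ≤ K / 500) :
    lc + max 0 (max (4 / 3 * P + 2 / 3 * ζ)
      (P + v - max 0 (max (5 / 3 * s) (3 * s - 52 / 300 * l))) - l -
        3 * max 0 (5 / 4 * A - l)) + 2 * (1 + (v - (G - Bb))) ≤ l + (P + G - Bb) := by
  have h3 : 0 ≤ max 0 (5 / 4 * A - l) := le_max_left _ _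
  have hw0 : 0 ≤ max 0 (max (5 / 3 * s) (3 * s - 52 / 300 * l)) := le_max_left _ _
  have hw1 : 3 * s - 52 / 300 * l ≤ max 0 (max (5 / 3 * s) (3 * s - 52 / 300 * l)) :=
    (le_max_right _ _).trans (le_max_right _ _)
  generalize max 0 (5 / 4 * A - l) = E at *
  generalize max 0 (max (5 / 3 * s) (3 * s - 52 / 300 * l)) = w at *
  have hx1 : x ≤ K / 36 := by
    rcases hx with h | h
    · linarith
    · exact h.1
  rcases le_total (max (4 / 3 * P + 2 / 3 * ζ) (P + v - w) - l - 3 * E) 0 with h | h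
  · rw [max_eq_left h]
    rcases hT with hT | ⟨hT, hT'⟩
    · linarith
    · rcases hx with hx | ⟨hx1, hx2⟩
      · linarith
      · linarith
  · rw [max_eq_right h]
    rcases max_choice (4 / 3 * P + 2 / 3 * ζ) (P + v - w) with h4 | h4 <;> rw [h4]
    · rcases hT with hT | ⟨hT, hT'⟩
      · linarith
      · rcases hx with hx | ⟨hx1, hx2⟩
        · linarith
        · linarith
    · rcases hT with hT | ⟨hT, hT'⟩
      · linarith
      · rcases hx with hx | ⟨hx1, hx2⟩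
        · linarith
        · linarith

section

variable {Λ : Type*} {π : Λ → DPar} {h : ℝ → ℝ} {e0 c β : ℝ}
  {ok : Λ × Eis → BmX → List Pq → Prop}
  {Fx : (IX5 → ℝ) → ℝ → ℝ → ℝ → ℝ → ℕ → BmX → List Pq → Prop}
  {lam : Λ × Eis} {p : IX5 → ℝ} {X τ B H : ℝ} {N : ℕ} {a : BmX} {qs : List Pq} {cc : Fin 5}
  {i : ℕ} {b : Eis}

set_option maxHeartbeats 1600000 in
/-- **the size condition** -/
theorem hm_size (hc : c ≤ 1 / 100) (Hy : Hyp9 π h c ok Fx β lam p X τ B H N a qs cc i b) {D' : ℝ}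
    (hD : Dh (cκ (prX p)) (cu (prX p) 2) (cu (prX p) 3) (cu (prX p) 4) (cx' (prX p)) D')
    (hτ : 0 ≤ τ) (hτ' : τ ≤ 1 / 10000) {cL : ℝ} (hcL : 1 ≤ cL)
    (hX8 : Real.log cL + 20 ≤ 1 / 1000 * Real.log X) {s : ℝ}
    (hs : 17 / 100 * a.1.1.l - a.1.2.2 - Real.log (nm a.2.1) - 10 * (τ * Real.log X) ≤ s) :
    ∀ k ∈ LI (1 / 10) (VM a i b), ∀ d ∈ DsM a i b, ∀ e ∈ S (EM e0 a),
      cL * (HmE s cL a qs i b k d e * Real.exp k ^ 2) ≤ Real.exp a.1.1.l * XM a qs b := by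
  intro k hk d hd e he
  have F := Hy.fr
  have hL : 0 < Real.log X := F.L
  have hgp := Hy.gp
  have hbp : IsPrim b := isPrim_of_mem_dvs Hy.hb
  have hbg : b ∣ a.2.1 := dvd_of_mem_dvs Hy.hb
  have hgb : b * (a.2.1 / b) = a.2.1 := EuclideanDomain.mul_div_cancel' hbp.ne_zero hbg
  have hcg : IsPrim (a.2.1 / b) := by
    have e2 : IsPrim (b * (a.2.1 / b)) := by rw [hgb]; exact hgp
    exact e2.of_mul_left hbp
  have g1 : (1 : ℝ) ≤ nm a.2.1 := one_le_nmR hgp
  have b1 : (1 : ℝ) ≤ nm b := one_le_nmR hbp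
  have c1 : (1 : ℝ) ≤ nm (a.2.1 / b) := one_le_nmR hcg
  have hnm : (nm b : ℝ) * nm (a.2.1 / b) = nm a.2.1 := by
    have := congrArg nm hgb
    rw [nm_mul] at this
    exact_mod_cast this
  have hGB : Real.log (nm (a.2.1 / b)) = Real.log (nm a.2.1) - Real.log (nm b) := by
    rw [← hnm, Real.log_mul (by linarith) (by linarith)]
    ring
  have hB0 : 0 ≤ Real.log (nm b) := Real.log_nonneg b1
  have hBG : Real.log (nm b) ≤ Real.log (nm a.2.1) := by
    have := Real.log_nonneg c1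
    linarith
  have hE0 : 0 ≤ EM e0 a := by unfold P1yX72.EM; positivity
  have hep : IsPrim e := ((mem_S hE0).1 he).2.1
  have hdp : IsPrim d := by
    unfold P1yX72.DsM at hd
    obtain ⟨x, hx, rfl⟩ := mem_image.1 hd
    exact ((mem_JB (Real.sqrt_nonneg _)).1 hx).1
  -- the frame
  obtain ⟨l0, l1⟩ := abs_le.1 F.l
  obtain ⟨z0, z1⟩ := abs_le.1 F.z
  obtain ⟨A0, A1⟩ := abs_le.1 F.A
  obtain ⟨ζ0, ζ1⟩ := abs_le.1 F.ζ
  obtain ⟨sw0, sw1⟩ := abs_le.1 (sum_win F)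
  have hPp := F.par
  have hκL : 8 / 9 * Real.log X ≤ cκ (prX p) * Real.log X :=
    mul_le_mul_of_nonneg_right hPp.κ0 hL.le
  have hτL0 : 0 ≤ τ * Real.log X := by positivity
  have hτL : τ * Real.log X ≤ 1 / 10000 * Real.log X := mul_le_mul_of_nonneg_right hτ' hL.le
  have hxL0 : 0 ≤ cx' (prX p) * Real.log X := mul_nonneg hPp.x0 hL.le
  have hN1 : cN (prX p) * Real.log X ≤ 102 / 125 * (cκ (prX p) * Real.log X) := by
    have h1 : cN (prX p) ≤ 102 / 125 * cκ (prX p) := hD.N1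
    have := mul_le_mul_of_nonneg_right h1 hL.le
    linarith
  have hxa : cx' (prX p) * Real.log X ≤ cκ (prX p) * Real.log X / 320 ∨
      (cx' (prX p) * Real.log X ≤ cκ (prX p) * Real.log X / 36 ∧
        cx' (prX p) * Real.log X + 7 / 10 * (cN (prX p) * Real.log X) ≤
          199 / 360 * (cκ (prX p) * Real.log X)) := by
    have hNe : cN (prX p) = cu (prX p) 2 + cu (prX p) 3 + cu (prX p) 4 := rfl
    rcases hD.adm with ⟨h1, -⟩ | ⟨-, h2, h3⟩
    · left
      have h4 : cx' (prX p) ≤ cκ (prX p) / 320 := by linarith [hD.d1]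
      have := mul_le_mul_of_nonneg_right h4 hL.le
      linarith
    · right
      rw [← hNe] at h3
      have h4 : cx' (prX p) ≤ cκ (prX p) / 36 := by linarith [hD.d0]
      have e1 := mul_le_mul_of_nonneg_right h4 hL.le
      have e2 := mul_le_mul_of_nonneg_right h3 hL.le
      constructor <;> linarith
  have hl2 : 0 < Real.log 2 := Real.log_pos (by norm_num)
  have hl21 : Real.log 2 ≤ 7 / 10 := by
    have := Real.log_two_lt_d9
    linarith
  have hlge : 0 ≤ a.1.1.l := by linarith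
  have hcl : c * a.1.1.l ≤ 1 / 100 * a.1.1.l := mul_le_mul_of_nonneg_right hc hlge
  have hv := v_win F Hy.hi
  set T := max 0 (min (tO a.1.1.toBd) (tO a.1.1.toBd + 2 * (c * a.1.1.l) - 2 * a.1.2.2)) with hTd
  have htO : tO a.1.1.toBd ≤ 3 / 4 * a3 a.1.1.toBd + 11 / 5 * a.1.1.z := by
    have e3 : tO a.1.1.toBd = min (2 * a3 a.1.1.toBd - a.1.1.l) (3 / 4 * a3 a.1.1.toBd) +
      11 / 5 * a.1.1.z := rfl
    rw [e3]
    have := min_le_right (2 * a3 a.1.1.toBd - a.1.1.l) (3 / 4 * a3 a.1.1.toBd)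
    linarith
  have hT : T ≤ 0 ∨ (T ≤ 3 / 4 * a3 a.1.1.toBd + 11 / 5 * a.1.1.z ∧
      T ≤ 3 / 4 * a3 a.1.1.toBd + 11 / 5 * a.1.1.z + a.1.1.l / 50 - 2 * a.1.2.2) := by
    rcases le_total (min (tO a.1.1.toBd) (tO a.1.1.toBd + 2 * (c * a.1.1.l) - 2 * a.1.2.2)) 0
      with h0 | h0
    · left
      rw [hTd, max_eq_left h0]
    · right
      rw [hTd, max_eq_right h0]
      refine ⟨(min_le_left _ _).trans htO, (min_le_right _ _).trans ?_⟩
      linarith
  have hlo := F.lo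
  have hq1 := F.qs1
  have hLN := F.cl
  have hlog := size_real (K := cκ (prX p) * Real.log X) (N := cN (prX p) * Real.log X)
    (x := cx' (prX p) * Real.log X) (t := τ * Real.log X) (l := a.1.1.l)
    (A := a3 a.1.1.toBd) (z := a.1.1.z) (ζ := a.2.2) (G := Real.log (nm a.2.1))
    (Bb := Real.log (nm b)) (P := PX a qs) (T := T) (v := Real.log 2 * ((i : ℝ) + 1))
    (ℓ := a.1.2.2) (s := s) (lc := Real.log cL) (k2 := Real.log 2) (c := c)
    (by linarith) hτL0 (by linarith) (by linarith) (by linarith) (by linarith) (by linarith)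
    (by linarith) hxL0 hN1 hxa hc hT F.b0 hB0 hBG
    (by unfold HmX813.PX; linarith) (by unfold HmX813.PX; linarith) hl2.le (by linarith) hs
    (by linarith)
  have hHp0 : 0 < HpE s a qs i := Real.exp_pos _
  have hVe : VM a i b = Real.exp (Real.log 2 * ((i : ℝ) + 1) -
      (Real.log (nm a.2.1) - Real.log (nm b))) := by
    unfold P1yX72.VM Mm828.Vb
    rw [Real.exp_sub, ← hGB, Real.exp_log (by linarith)]
  have hXe : XM a qs b = Real.exp (LN (clM a qs) - Real.log (nm a.2.1) - Real.log (nm b)) := by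
    unfold P1yX72.XM P1yX72.lM
    rw [Real.exp_sub, Real.exp_sub, Real.exp_log (by linarith), Real.exp_log (by linarith),
      div_div, hLN]
    congr 2
    ring
  have hX0 : 0 < XM a qs b := by rw [hXe]; exact Real.exp_pos _
  have hV0 : 0 < VM a i b := by rw [hVe]; exact Real.exp_pos _
  have hcLe : cL = Real.exp (Real.log cL) := (Real.exp_log (by linarith)).symm
  have hmax : max 1 (HpE s a qs i) = Real.exp (max 0 (max (4 / 3 * PX a qs + 2 / 3 * a.2.2)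
      (PX a qs + Real.log 2 * ((i : ℝ) + 1) -
        max 0 (max (5 / 3 * s) (3 * s - 52 / 300 * a.1.1.l))) - a.1.1.l -
        3 * max 0 (5 / 4 * a3 a.1.1.toBd - a.1.1.l))) := by
    unfold HmX813.HpE
    rw [Real.exp_monotone.map_max, Real.exp_zero]
  unfold HmX813.HmE
  refine Hm_le hHp0.le hcg (Real.exp_pos _) hX0 (by linarith) hV0.le ?_ (mem_LI hk).2.2 hdp hep
  rw [hmax, hVe, hXe, ← Real.exp_add, ← Real.exp_add, hcLe, ← Real.exp_add, ← Real.exp_nat_mul,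
    ← Real.exp_add]
  refine Real.exp_le_exp.2 ?_
  push_cast
  unfold HmX813.PX at hlog ⊢
  linarith

/-- the differences -/
theorem hm_sizeD (hc : c ≤ 1 / 100) (Hy : Hyp9 π h c ok Fx β lam p X τ B H N a qs cc i b)
    {D' : ℝ}
    (hD : Dh (cκ (prX p)) (cu (prX p) 2) (cu (prX p) 3) (cu (prX p) 4) (cx' (prX p)) D')
    (hτ : 0 ≤ τ) (hτ' : τ ≤ 1 / 10000) {cL : ℝ} (hcL : 1 ≤ cL)
    (hX8 : Real.log cL + 20 ≤ 1 / 1000 * Real.log X) :
    ∀ k ∈ LI (1 / 10) (VM a i b), ∀ d ∈ DsM a i b, ∀ e ∈ S (EM e0 a),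
      cL * (HmD cL a qs i b k d e * Real.exp k ^ 2) ≤ Real.exp a.1.1.l * XM a qs b := by
  have hL := Hy.fr.L
  have : 0 ≤ τ * Real.log X := by positivity
  exact hm_size hc Hy hD hτ hτ' hcL hX8 (by unfold HmX813.sX; linarith)

/-- the single lists -/
theorem hm_sizeS {Hy' : FrS β p X τ B H N a qs} (hβ : 17 / 100 ≤ β) (hc : c ≤ 1 / 100)
    (Hy : Hyp9 π h c ok Fx β lam p X τ B H N a qs cc i b) {D' : ℝ}
    (hD : Dh (cκ (prX p)) (cu (prX p) 2) (cu (prX p) 3) (cu (prX p) 4) (cx' (prX p)) D')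
    (hτ : 0 ≤ τ) (hτ' : τ ≤ 1 / 10000) {cL : ℝ} (hcL : 1 ≤ cL)
    (hX8 : Real.log cL + 20 ≤ 1 / 1000 * Real.log X) :
    ∀ k ∈ LI (1 / 10) (VM a i b), ∀ d ∈ DsM a i b, ∀ e ∈ S (EM e0 a),
      cL * (HmS cL a qs i b k d e * Real.exp k ^ 2) ≤ Real.exp a.1.1.l * XM a qs b := by
  have F := Hy.fr
  have hL := F.L
  have hτL : 0 ≤ τ * Real.log X := by positivity
  refine hm_size hc Hy hD hτ hτ' hcL hX8 ?_
  obtain ⟨l0, l1⟩ := abs_le.1 F.l
  obtain ⟨b0, b1⟩ := abs_le.1 F.b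
  have hlost := Hy'.lost
  have hκ0 : 0 ≤ cκ (prX p) * Real.log X := mul_nonneg (by linarith [F.par.κ0]) hL.le
  have h1 : 17 / 100 * (cκ (prX p) * Real.log X) ≤ β * cκ (prX p) * Real.log X := by
    rw [mul_assoc]
    exact mul_le_mul_of_nonneg_right hβ hκ0
  have h2 := F.g0
  linarith

end

/-! ### (P2): the argument of the classes -/

/-- a twisted natural list is supported on `n` prime to `t²` -/
lemma cop_u {P : DPar} {t m n : Eis} {h : ℝ → ℝ} {ps : List Pq}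
    (hn : HP842.sqc m (HP842.alL h (ps.map (E5B71.Pt P t))) n ≠ 0) : IsCoprime (t * t) n := by
  have hp : IsPrim n := by
    have hn' := hn
    rw [I1146.alL_tw] at hn'
    have h1 : I1146.tw3 t (HP842.alL h (ps.map (Pq.pc P))) n ≠ 0 := right_ne_zero_of_mul hn'
    unfold I1146.tw3 at h1
    refine I1146.alL_prim (P := P) (h := h) (ps := ps) fun h0 => h1 ?_
    rw [h0]
    simp
  rw [I1146.alL_tw] at hn
  have h1 : I1146.tw3 t (HP842.alL h (ps.map (Pq.pc P))) n ≠ 0 := right_ne_zero_of_mul hn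
  unfold I1146.tw3 at h1
  have h2 : IsCoprime t n := Char766.coprime_of_sy_ne_zero hp (left_ne_zero_of_mul h1)
  exact h2.mul_left h2

section

variable {Λ : Type*} {π : Λ → DPar} {h : ℝ → ℝ} {lam : Λ × Eis}

lemma cop_η {qs : List Pq} {n : Eis} (hn : P1v54.ηC π h lam qs n ≠ 0) :
    IsCoprime (lam.2 * lam.2) n := cop_u hn

lemma cop_αS {a : BmX} {n : Eis} (hn : αS π h lam a n ≠ 0) :
    IsCoprime (lam.2 * lam.2) n := cop_u hn

lemma cmb_ne0 {z w : ℂ} {a b : Eis → ℂ} {n : Eis} (hn : P1X960.cmb z w a b n ≠ 0) :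
    a n ≠ 0 ∨ b n ≠ 0 := by
  by_contra hc
  push Not at hc
  apply hn
  show z * a n + w * b n = 0
  rw [hc.1, hc.2, mul_zero, mul_zero, add_zero]

lemma cop_αX {a : BmX} {n : Eis} (hn : αX π h lam a n ≠ 0) :
    IsCoprime (lam.2 * lam.2) n := by
  unfold P1MU960.αX P1X960.xD at hn
  rcases cmb_ne0 hn with h1 | h1
  · exact cop_u h1
  · exact cop_u h1

lemma u_ne (hokt : lam.2 ∈ FE47.SM (π lam.1).n) : lam.2 * lam.2 ≠ 0 := mul_ne_zero hokt.1 hokt.1

end

end Crest.Agent.R017.HmS524
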