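import Crest.Agent.R017.P1yX_72

/-!
# Row 17, exceptional class, mismatch: the length of the rows (helper813, exponent of helper702)

* `PX`, `sX`, `HpE`, `D0X`, `HmE`, `HmD`, `HmS`
-/

set_option autoImplicit false

noncomputable section

namespace Crest.Agent.R017.HmX813

open Crest.Agent.R012 Crest.Agent.R012.Eis
open Crest.Agent.R017.B770 Crest.Agent.R017.Prov71
open Crest.Agent.R017.E5B71 Crest.Agent.R017.E5L770
open Crest.Agent.R017.P1X960
open Crest.Agent.R017.I1146 (LN)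
open Crest.Agent.R017.P1MU960
open Crest.Agent.R017.Mm828 (Hm Hm_pos)
open Crest.Agent.R017.P1yX72 (XM lM)

/-- the length of the child, without `g`, twice -/
def PX (a : BmX) (qs : List Pq) : ℝ := LN (clM a qs) - 2 * Real.log (nm a.2.1)

/-- the shortest length of the exchanged pair, lower bound -/
def sX (a : BmX) : ℝ := 17 / 100 * a.1.1.l - a.1.2.2 - Real.log (nm a.2.1)

/-- helper702's exponent of the length of the rows at `d = 1` (`s` = the saving) -/
def HpE (s : ℝ) (a : BmX) (qs : List Pq) (i : ℕ) : ℝ :=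
  Real.exp (max (4 / 3 * PX a qs + 2 / 3 * a.2.2) (PX a qs + Real.log 2 * (i + 1) -
    max 0 (max (5 / 3 * s) (3 * s - 52 / 300 * a.1.1.l))) - a.1.1.l -
      3 * max 0 (5 / 4 * a3 a.1.1.toBd - a.1.1.l))

/-- the cut of the `d` -/
def D0X (a : BmX) : ℝ := Real.exp (13 / 100 * a.1.1.l)

/-- the length of the rows -/
def HmE (s : ℝ) (cL : ℝ) (a : BmX) (qs : List Pq) (i : ℕ) (b : Eis) : ℕ → Eis → Eis → ℝ :=
  Hm (HpE s a qs i) (D0X a) (a.2.1 / b) (Real.exp a.1.1.l) (XM a qs b) cL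

/-- the differences -/
def HmD (cL : ℝ) (a : BmX) (qs : List Pq) (i : ℕ) (b : Eis) : ℕ → Eis → Eis → ℝ :=
  HmE (sX a) cL a qs i b

/-- the single lists -/
def HmS (cL : ℝ) (a : BmX) (qs : List Pq) (i : ℕ) (b : Eis) : ℕ → Eis → Eis → ℝ :=
  HmE 0 cL a qs i b

end Crest.Agent.R017.HmX813
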