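import Crest.Agent.R017.ExpRules_911

/-!
# Row 17, section D: the hull form of the outer level rule (helper741, after 59 #15917, #16010)

* `Hull Id` : convex hull of the monomials `(n | f, g)` (multiplicities of the smooth pieces,
  Möbius mass, amplifier mass) satisfying `Id`; `hull_eq`, `convex_hull`, `subset_hull`.
* `outer_hull` (H3) : `∑ p n ≤ 1/2`, `∑ p f ≤ m/2`, `∑ p g ≤ a/2` and `r (monomial t) ≤ e t` give
  `bx ≤ ∑ p e + θ (L - 2 ∑ p |Y|)`.
* `outer_mem` : the equality version for a point of the hull.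
* `good_cover` (H1) : good sizes cover every box.
-/

set_option autoImplicit false

noncomputable section

namespace Crest.Agent.R017.Hull741

open Crest.Agent.R017.ER911

/-- the space of (real) monomials -/
abbrev Mon (N : ℕ) := (Fin N → ℝ) × ℝ × ℝ

/-- the point of an integer monomial -/
def pt {N : ℕ} (n : Fin N → ℕ) (f g : ℝ) : Mon N := (fun j => (n j : ℝ), f, g)

/-- finite convex combinations of the monomials satisfying `Id` -/
def Hull {N : ℕ} (Id : (Fin N → ℕ) → ℝ → ℝ → Prop) : Set (Mon N) :=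
  {z | ∃ (M : ℕ) (p : Fin M → ℝ) (n : Fin M → Fin N → ℕ) (f g : Fin M → ℝ),
    (∀ q, 0 ≤ p q) ∧ ∑ q, p q = 1 ∧ (∀ q, Id (n q) (f q) (g q)) ∧
    z = (fun j => ∑ q, p q * (n q j : ℝ), ∑ q, p q * f q, ∑ q, p q * g q)}

theorem sum_smul_pt {N M : ℕ} (p : Fin M → ℝ) (n : Fin M → Fin N → ℕ) (f g : Fin M → ℝ) :
    ∑ q, p q • pt (n q) (f q) (g q) =
      (fun j => ∑ q, p q * (n q j : ℝ), ∑ q, p q * f q, ∑ q, p q * g q) := by
  refine Prod.ext ?_ (Prod.ext ?_ ?_)
  · funext j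
    simp [pt, Prod.fst_sum, Finset.sum_apply]
  · simp [pt, Prod.fst_sum, Prod.snd_sum]
  · simp [pt, Prod.snd_sum]

theorem hull_eq {N : ℕ} (Id : (Fin N → ℕ) → ℝ → ℝ → Prop) :
    Hull Id = convexHull ℝ {z | ∃ n f g, Id n f g ∧ z = pt n f g} := by
  ext z
  constructor
  · rintro ⟨M, p, n, f, g, hp, hp1, hId, rfl⟩
    rw [← sum_smul_pt, mem_convexHull_iff_exists_fintype]
    exact ⟨Fin M, inferInstance, p, fun q => pt (n q) (f q) (g q), hp, hp1,
      fun q => ⟨n q, f q, g q, hId q, rfl⟩, rfl⟩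
  · intro hz
    rw [mem_convexHull_iff_exists_fintype] at hz
    obtain ⟨ι, _, w, y, hw, hw1, hy, hsum⟩ := hz
    choose n f g hId hyeq using hy
    let e := Fintype.equivFin ι
    refine ⟨Fintype.card ι, fun q => w (e.symm q), fun q => n (e.symm q), fun q => f (e.symm q),
      fun q => g (e.symm q), fun q => hw _, ?_, fun q => hId _, ?_⟩
    · rw [← hw1]
      exact Equiv.sum_comp e.symm w
    · rw [← hsum, ← sum_smul_pt, ← Equiv.sum_comp e.symm]
      exact Finset.sum_congr rfl fun q _ => by rw [hyeq]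

theorem convex_hull {N : ℕ} (Id : (Fin N → ℕ) → ℝ → ℝ → Prop) : Convex ℝ (Hull Id) := by
  rw [hull_eq]
  exact convex_convexHull ℝ _

theorem subset_hull {N : ℕ} {Id : (Fin N → ℕ) → ℝ → ℝ → Prop} {n : Fin N → ℕ} {f g : ℝ}
    (h : Id n f g) : pt n f g ∈ Hull Id := by
  rw [hull_eq]
  exact subset_convexHull ℝ _ ⟨n, f, g, h, rfl⟩

theorem hull_mono {N : ℕ} {Id Id' : (Fin N → ℕ) → ℝ → ℝ → Prop}
    (h : ∀ n f g, Id n f g → Id' n f g) : Hull Id ⊆ Hull Id' := by
  rintro z ⟨M, p, n, f, g, hp, hp1, hId, rfl⟩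
  exact ⟨M, p, n, f, g, hp, hp1, fun q => h _ _ _ (hId q), rfl⟩

/-- finite convex combinations of points of the hull -/
theorem hull_sum_mem {N : ℕ} (Id : (Fin N → ℕ) → ℝ → ℝ → Prop) {ι : Type*} (s : Finset ι)
    (p : ι → ℝ) (z : ι → Mon N) (hp : ∀ q ∈ s, 0 ≤ p q) (hp1 : ∑ q ∈ s, p q = 1)
    (hz : ∀ q ∈ s, z q ∈ Hull Id) : ∑ q ∈ s, p q • z q ∈ Hull Id :=
  (convex_hull Id).sum_mem hp hp1 hz

/-- averaging: some member of positive weight is at most the average -/
theorem exists_le_avg {M : ℕ} (p v : Fin M → ℝ) (hp : ∀ q, 0 ≤ p q) (hp1 : ∑ q, p q = 1) {E : ℝ}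
    (h : ∑ q, p q * v q ≤ E) : ∃ q, 0 < p q ∧ v q ≤ E := by
  by_contra hcon
  push Not at hcon
  have h1 : ∑ q, p q * E ≤ ∑ q, p q * v q := by
    refine Finset.sum_le_sum fun q _ => ?_
    rcases (hp q).eq_or_lt with h0 | h0
    · rw [← h0]; simp
    · exact mul_le_mul_of_nonneg_left (hcon q h0).le h0.le
  have h2 : ∑ q, p q * E < ∑ q, p q * v q := by
    refine lt_of_le_of_ne h1 fun heq => ?_
    have h3 : ∀ q ∈ Finset.univ, p q * E = p q * v q := by
      refine (Finset.sum_eq_sum_iff_of_le fun q _ => ?_).1 heq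
      rcases (hp q).eq_or_lt with h0 | h0
      · rw [← h0]; simp
      · exact mul_le_mul_of_nonneg_left (hcon q h0).le h0.le
    have h4 : ∀ q, p q = 0 := by
      intro q
      rcases (hp q).eq_or_lt with h0 | h0
      · exact h0.symm
      · exact absurd (mul_left_cancel₀ h0.ne' (h3 q (Finset.mem_univ q))) (hcon q h0).ne
    rw [Finset.sum_congr rfl fun q _ => h4 q] at hp1
    simp at hp1
  rw [← Finset.sum_mul, hp1, one_mul] at h2
  exact absurd h (not_le.2 h2)

/-- the level of a granular piece -/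
theorem gran_le {θ m ω F : ℝ} (hm : 0 ≤ m) (hω : ω ≤ θ * m) (hF : 0 ≤ F) (h : F ≤ m / 2) :
    ω - 2 * (F * (ω / m)) ≤ θ * (m - 2 * F) := by
  rcases hm.eq_or_lt with h0 | h0
  · subst h0
    have hF0 : F = 0 := by linarith
    subst hF0
    simp only [mul_zero, zero_mul, sub_zero] at *
    exact hω
  · have h1 : ω - 2 * (F * (ω / m)) = ω * ((m - 2 * F) / m) := by field_simp
    have h2 : 0 ≤ (m - 2 * F) / m := div_nonneg (by linarith) h0.le
    rw [h1]
    calc ω * ((m - 2 * F) / m) ≤ θ * m * ((m - 2 * F) / m) := by gcongr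
      _ = θ * (m - 2 * F) := by field_simp

/-- **(H3)** the outer level rule in hull form -/
theorem outer_hull {θ : ℝ} {r bx : EF} (B : ExpBox θ r bx) {N : ℕ} (u : Fin N → ℝ)
    (κ m a : ℝ) (hκ : 0 ≤ κ) (hu : ∀ j, 0 ≤ u j) (hm : 0 ≤ m) (ha : 0 ≤ a) {M : ℕ}
    (p : Fin M → ℝ) (hp : ∀ q, 0 ≤ p q) (hp1 : ∑ q, p q = 1) (n : Fin M → Fin N → ℕ)
    (f g : Fin M → ℝ) (hf : ∀ q, 0 ≤ f q) (hg : ∀ q, 0 ≤ g q) (e : Fin M → ℝ)
    (he : ∀ q, r κ (∑ j, Multiset.replicate (n q j) (u j)) (f q) (g q) ≤ e q)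
    (h1 : ∀ j, ∑ q, p q * (n q j : ℝ) ≤ 1 / 2) (h2 : ∑ q, p q * f q ≤ m / 2)
    (h3 : ∑ q, p q * g q ≤ a / 2) :
    bx κ (Finset.univ.val.map u) m a ≤ ∑ q, p q * e q +
      θ * (((∑ j, u j) + m + a) - 2 * ∑ q, p q * ((∑ j, (n q j : ℝ) * u j) + f q + g q)) := by
  refine B.outer N u κ m a _ hκ hu hm ha fun x ω α hx hω hα => Or.inl ?_
  set E := ∑ q, p q * e q +
      θ * (((∑ j, u j) + m + a) - 2 * ∑ q, p q * ((∑ j, (n q j : ℝ) * u j) + f q + g q)) with hE
  set lin : Fin M → ℝ := fun q => (∑ j, (n q j : ℝ) * x j) + f q * (ω / m) + g q * (α / a) with hlin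
  set S := (∑ j, x j) + ω + α with hS
  have hF0 : 0 ≤ ∑ q, p q * f q := Finset.sum_nonneg fun q _ => mul_nonneg (hp q) (hf q)
  have hG0 : 0 ≤ ∑ q, p q * g q := Finset.sum_nonneg fun q _ => mul_nonneg (hp q) (hg q)
  have hlinsum : ∑ q, p q * lin q = (∑ j, (∑ q, p q * (n q j : ℝ)) * x j) +
      (∑ q, p q * f q) * (ω / m) + (∑ q, p q * g q) * (α / a) := by
    simp only [hlin, mul_add, Finset.sum_add_distrib, Finset.sum_mul]
    congr 1
    · congr 1
      · simp only [Finset.mul_sum]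
        rw [Finset.sum_comm]
        exact Finset.sum_congr rfl fun j _ => Finset.sum_congr rfl fun q _ => by ring
      · exact Finset.sum_congr rfl fun q _ => by ring
    · exact Finset.sum_congr rfl fun q _ => by ring
  have hlen : ∑ q, p q * ((∑ j, (n q j : ℝ) * u j) + f q + g q) =
      (∑ j, (∑ q, p q * (n q j : ℝ)) * u j) + (∑ q, p q * f q) + ∑ q, p q * g q := by
    simp only [mul_add, Finset.sum_add_distrib, Finset.sum_mul]
    congr 2
    simp only [Finset.mul_sum]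
    rw [Finset.sum_comm]
    exact Finset.sum_congr rfl fun j _ => Finset.sum_congr rfl fun q _ => by ring
  have havg : ∑ q, p q * (e q - 2 * lin q + S) ≤ E := by
    have e1 : ∑ q, p q * (e q - 2 * lin q + S) = ∑ q, p q * e q - 2 * (∑ q, p q * lin q) + S := by
      simp only [mul_add, mul_sub, Finset.sum_add_distrib, Finset.sum_sub_distrib,
        ← Finset.sum_mul, hp1, one_mul, Finset.mul_sum]
      congr 2
      exact Finset.sum_congr rfl fun q _ => by ring
    have e2 : ∑ j, x j - 2 * (∑ j, (∑ q, p q * (n q j : ℝ)) * x j) ≤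
        θ * ((∑ j, u j) - 2 * ∑ j, (∑ q, p q * (n q j : ℝ)) * u j) := by
      rw [Finset.mul_sum, Finset.mul_sum, ← Finset.sum_sub_distrib, ← Finset.sum_sub_distrib,
        Finset.mul_sum]
      refine Finset.sum_le_sum fun j _ => ?_
      have hj := h1 j
      have := mul_le_mul_of_nonneg_right (hx j)
        (by linarith : 0 ≤ 1 - 2 * ∑ q, p q * (n q j : ℝ))
      nlinarith
    have e3 := gran_le hm hω hF0 h2
    have e4 := gran_le ha hα hG0 h3
    rw [e1, hE, hlinsum, hlen, hS]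
    nlinarith
  obtain ⟨q, hq, hle⟩ := exists_le_avg p _ hp hp1 havg
  refine ⟨n q, f q, g q, hf q, fun h0 => ?_, hg q, fun h0 => ?_, ?_⟩
  · -- `m = 0`
    have hz : ∑ q, p q * f q = 0 := le_antisymm (by rw [h0] at h2; simpa using h2) hF0
    have := (Finset.sum_eq_zero_iff_of_nonneg fun q _ => mul_nonneg (hp q) (hf q)).1 hz q
      (Finset.mem_univ q)
    exact (mul_eq_zero.1 this).resolve_left hq.ne'
  · have hz : ∑ q, p q * g q = 0 := le_antisymm (by rw [h0] at h3; simpa using h3) hG0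
    have := (Finset.sum_eq_zero_iff_of_nonneg fun q _ => mul_nonneg (hp q) (hg q)).1 hz q
      (Finset.mem_univ q)
    exact (mul_eq_zero.1 this).resolve_left hq.ne'
  · have h4 := he q
    have h5 : e q - 2 * lin q + S ≤ E := hle
    simp only [hlin, hS] at h5
    linarith

/-- the total length of a point of `Mon` -/
def len {N : ℕ} (u : Fin N → ℝ) (z : Mon N) : ℝ := (∑ j, z.1 j * u j) + z.2.1 + z.2.2

/-- the ideal monomials of a box, with loss `e₀` -/
def Ideal {N : ℕ} (r : EF) (κ : ℝ) (u : Fin N → ℝ) (e₀ : ℝ) (n : Fin N → ℕ) (f g : ℝ) : Prop :=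
  0 ≤ f ∧ 0 ≤ g ∧ r κ (∑ j, Multiset.replicate (n j) (u j)) f g ≤
    κ + ((∑ j, (n j : ℝ) * u j) + f + g) + e₀

/-- **(H3), general point**: a point `(τ/2; m'/2, a'/2)` of the hull of the ideal monomials with
`τ ≤ 1`, `m' ≤ m`, `a' ≤ a` -/
theorem outer_le {θ : ℝ} {r bx : EF} (B : ExpBox θ r bx) {N : ℕ} (u : Fin N → ℝ)
    (κ m a e₀ : ℝ) (hκ : 0 ≤ κ) (hu : ∀ j, 0 ≤ u j) (hm : 0 ≤ m) (ha : 0 ≤ a)
    (τ : Fin N → ℝ) (m' a' : ℝ) (hτ : ∀ j, τ j ≤ 1) (hm' : m' ≤ m) (ha' : a' ≤ a)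
    (h : ((fun j => τ j / 2, m' / 2, a' / 2) : Mon N) ∈ Hull (Ideal r κ u e₀)) :
    bx κ (Finset.univ.val.map u) m a ≤ κ + ((∑ j, τ j * u j) + m' + a') / 2 + e₀ +
      θ * (((∑ j, u j) + m + a) - ((∑ j, τ j * u j) + m' + a')) := by
  obtain ⟨M, p, n, f, g, hp, hp1, hId, heq⟩ := h
  have e1 : ∀ j, ∑ q, p q * (n q j : ℝ) = τ j / 2 := fun j =>
    (congrFun (congrArg Prod.fst heq) j).symm
  have e2 : ∑ q, p q * f q = m' / 2 := (congrArg (fun z => z.2.1) heq).symm
  have e3 : ∑ q, p q * g q = a' / 2 := (congrArg (fun z => z.2.2) heq).symm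
  have hb := outer_hull B u κ m a hκ hu hm ha p hp hp1 n f g (fun q => (hId q).1)
    (fun q => (hId q).2.1) (fun q => κ + ((∑ j, (n q j : ℝ) * u j) + f q + g q) + e₀)
    (fun q => (hId q).2.2) (fun j => by rw [e1]; linarith [hτ j]) (by rw [e2]; linarith)
    (by rw [e3]; linarith)
  have hlen : ∑ q, p q * ((∑ j, (n q j : ℝ) * u j) + f q + g q) =
      ((∑ j, τ j * u j) + m' + a') / 2 := by
    have : ∑ q, p q * ((∑ j, (n q j : ℝ) * u j) + f q + g q) =
        (∑ j, (∑ q, p q * (n q j : ℝ)) * u j) + (∑ q, p q * f q) + ∑ q, p q * g q := by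
      simp only [mul_add, Finset.sum_add_distrib, Finset.sum_mul]
      congr 2
      simp only [Finset.mul_sum]
      rw [Finset.sum_comm]
      exact Finset.sum_congr rfl fun j _ => Finset.sum_congr rfl fun q _ => by ring
    rw [this, e2, e3]
    simp only [e1]
    have : ∑ j, τ j / 2 * u j = (∑ j, τ j * u j) / 2 := by
      rw [Finset.sum_div]
      exact Finset.sum_congr rfl fun j _ => by ring
    rw [this]
    ring
  have hE : ∑ q, p q * (κ + ((∑ j, (n q j : ℝ) * u j) + f q + g q) + e₀) =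
      κ + ((∑ j, τ j * u j) + m' + a') / 2 + e₀ := by
    have : ∑ q, p q * (κ + ((∑ j, (n q j : ℝ) * u j) + f q + g q) + e₀) =
        (∑ q, p q) * κ + ∑ q, p q * ((∑ j, (n q j : ℝ) * u j) + f q + g q) + (∑ q, p q) * e₀ := by
      rw [Finset.sum_mul, Finset.sum_mul, ← Finset.sum_add_distrib, ← Finset.sum_add_distrib]
      exact Finset.sum_congr rfl fun q _ => by ring
    rw [this, hlen, hp1]
    ring
  rw [hE, hlen] at hb
  refine hb.trans (le_of_eq ?_)
  ring

/-- **(H3), equality version** -/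
theorem outer_mem {θ : ℝ} {r bx : EF} (B : ExpBox θ r bx) {N : ℕ} (u : Fin N → ℝ)
    (κ m a e₀ : ℝ) (hκ : 0 ≤ κ) (hu : ∀ j, 0 ≤ u j) (hm : 0 ≤ m) (ha : 0 ≤ a)
    (h : ((fun _ => 1 / 2, m / 2, a / 2) : Mon N) ∈ Hull (Ideal r κ u e₀)) :
    bx κ (Finset.univ.val.map u) m a ≤ κ + ((∑ j, u j) + m + a) / 2 + e₀ := by
  have := outer_le B u κ m a e₀ hκ hu hm ha (fun _ => 1) m a (fun _ => le_rfl) le_rfl le_rfl h
  simpa using this

/-- **(H1)** good sizes cover: real weights `τ ≤ 1` allowed -/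
theorem good_cover' {n : ℕ} (u τ : Fin n → ℝ) (hu : ∀ j, 0 < u j) (hτ : ∀ j, 0 ≤ τ j)
    (hs : ∑ j, τ j * u j ≤ 4 / 3) (I : Set (Mon n)) (hI : Convex ℝ I)
    (h0 : ((0, 2 / 3, 1 / 6) : Mon n) ∈ I)
    (hE : ∀ j, τ j ≠ 0 → ((Pi.single j (2 / (3 * u j)), 0, 1 / 6) : Mon n) ∈ I) :
    ((fun j => τ j / 2, (4 / 3 - ∑ j, τ j * u j) / 2, 1 / 6) : Mon n) ∈ I := by
  classical
  let w : Option (Fin n) → ℝ := fun o => o.elim (1 - 3 / 4 * ∑ j, τ j * u j)
    fun j => 3 / 4 * (τ j * u j)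
  let z : Option (Fin n) → Mon n := fun o => o.elim (0, 2 / 3, 1 / 6)
    fun j => if τ j = 0 then (0, 2 / 3, 1 / 6) else (Pi.single j (2 / (3 * u j)), 0, 1 / 6)
  have hw : ∀ o ∈ (Finset.univ : Finset (Option (Fin n))), 0 ≤ w o := by
    intro o _
    cases o with
    | none => simp only [w, Option.elim]; linarith
    | some j => simp only [w, Option.elim]; have := mul_nonneg (hτ j) (hu j).le; linarith
  have hw1 : ∑ o, w o = 1 := by
    rw [Fintype.sum_option]
    simp only [w, Option.elim, ← Finset.mul_sum]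
    ring
  have hz : ∀ o ∈ (Finset.univ : Finset (Option (Fin n))), z o ∈ I := by
    intro o _
    cases o with
    | none => exact h0
    | some j =>
      simp only [z, Option.elim]
      split_ifs with h
      · exact h0
      · exact hE j h
  have hmem := hI.sum_mem hw hw1 hz
  have heq : ∑ o, w o • z o =
      ((fun j => τ j / 2, (4 / 3 - ∑ j, τ j * u j) / 2, 1 / 6) : Mon n) := by
    rw [Fintype.sum_option]
    have hterm : ∀ j, w (some j) • z (some j) =
        ((Pi.single j (τ j / 2), 0, 3 / 4 * (τ j * u j) * (1 / 6)) : Mon n) := by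
      intro j
      simp only [w, z, Option.elim]
      by_cases h : τ j = 0
      · rw [if_pos h, h]
        simp
        rfl
      · rw [if_neg h]
        refine Prod.ext ?_ (Prod.ext ?_ ?_)
        · simp only [Prod.smul_fst]
          rw [← Pi.single_smul]
          congr 1
          have := (hu j).ne'
          simp only [smul_eq_mul]
          field_simp
          norm_num
        · simp
        · simp
    rw [Finset.sum_congr rfl fun j _ => hterm j]
    refine Prod.ext ?_ (Prod.ext ?_ ?_)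
    · funext i
      simp [w, z, Prod.fst_sum, Finset.sum_apply, Pi.single_apply]
    · simp only [w, z, Option.elim, Prod.snd_add, Prod.fst_add, Prod.smul_snd, Prod.smul_fst,
        Prod.snd_sum, Prod.fst_sum, smul_eq_mul, Finset.sum_const_zero, add_zero]
      ring
    · simp only [w, z, Option.elim, Prod.snd_add, Prod.smul_snd, Prod.snd_sum, smul_eq_mul,
        ← Finset.sum_mul, ← Finset.mul_sum]
      ring
  rw [heq] at hmem
  exact hmem

/-- **(H1)** -/
theorem good_cover {n : ℕ} (u : Fin n → ℝ) (hu : ∀ j, 0 < u j) (hs : ∑ j, u j ≤ 4 / 3)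
    (I : Set (Mon n)) (hI : Convex ℝ I) (h0 : ((0, 2 / 3, 1 / 6) : Mon n) ∈ I)
    (hE : ∀ j, ((Pi.single j (2 / (3 * u j)), 0, 1 / 6) : Mon n) ∈ I) :
    ((fun _ => 1 / 2, (4 / 3 - ∑ j, u j) / 2, 1 / 6) : Mon n) ∈ I := by
  have h := good_cover' u (fun _ => 1) hu (fun _ => zero_le_one) (by simpa using hs) I hI h0
    (fun j _ => hE j)
  simpa using h

end Crest.Agent.R017.Hull741
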