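import Crest.Agent.R017.S8pdX_50
import Crest.Agent.R017.Hi4_54

/-!
# Row 17, exceptional class, REST (helper50): the frame of one level of one difference, no claims

* **`hx_frame`** : the premises of `UB (lev (log 2) S8X) Dq` over `DomHX` and `okCX`, `okD` give
  `s8x_frame` and the level
-/

set_option autoImplicit false

noncomputable section

open Finset
open scoped Classical

namespace Crest.Agent.R017.HxFr50

open Crest.Agent.R012 Crest.Agent.R012.Eis
open Crest.Agent.R017.B770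
open Crest.Agent.R017.Prov71
open Crest.Agent.R017.XG702 (Pcs)
open Crest.Agent.R017.XT71 (Sys Win mx)
open Crest.Agent.R017.I1146 (LN)
open Crest.Agent.R017.E5B71 Crest.Agent.R017.E5L770
open Crest.Agent.R017.P1l54 hiding nO
open Crest.Agent.R017.ExBox960 Crest.Agent.R017.ExP960
open Crest.Agent.R017.P1X960
open Crest.Agent.R017.Hi454 (DomHX)
open Crest.Agent.R017.P10X764 (clN bN bR)
open Crest.Agent.R017.TM708 (PD R5)
open Crest.Agent.R017.S8X50

/-- **the frame of one level of one difference** -/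
theorem hx_frame {c β : ℝ} {Par : Set (Fin 3 ⊕ Fin 5 → ℝ)} {lo hi : (Fin 3 ⊕ Fin 5 → ℝ) → ℝ}
    {P : DPar} {s : Eis} {X δ δ' B τ : ℝ} {N : ℕ} {a : BcX × ℕ} (hX1 : 1 < X) (hδ : 0 ≤ δ)
    (hτ : 100 * δ ≤ τ) (hδ' : 0 ≤ δ') {q : (Option I8X → ℝ) × (Kd → ℝ)}
    (hq : q ∈ DomHX c β Par lo hi) (hw : Win (lev (Real.log 2) S8X) q.1 δ N B δ' X a)
    (hok : okCX P s a.1 []) (hokD : okD a.1) :
    (prX (bp fun i => q.1 (some i)) ∈ Par ∧ ZR β (bp fun i => q.1 (some i))) ∧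
    ChC c β Par (bp fun i => q.1 (some i)) (q.1 (some (.inr 0))) (q.1 (some (.inr 1)))
      (q.1 (some (.inr 2))) (q.1 (some (.inr 3))) 0 ∧
    DifL (bp fun i => q.1 (some i)) (q.1 (some (.inr 0))) (q.1 (some (.inr 1)))
      (q.1 (some (.inr 2))) ∧
    F8X X δ (Real.log X) (bp fun i => q.1 (some i))
      (q.1 (some (.inr 0)) + q.1 (some (.inr 1)) + q.1 (some (.inr 2))) (q.1 (some (.inr 3)))
      a.1 [] ∧
    |Real.log 2 * a.2 - q.1 none * Real.log X| ≤ δ * Real.log X ∧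
    PD X τ (max B 3) (X ^ δ') 0 (bN (bp fun i => q.1 (some i))) 1 a.1.2.1 [] a.1.1.l ∧
    PD X τ (max B 3) (X ^ δ') 0 (bR (bp fun i => q.1 (some i))) 1 (rzD a.1.2.1 (dz a.1.1)) []
      a.1.1.l := by
  obtain ⟨a, j⟩ := a
  obtain ⟨hc1, hc2, hc3, hc4, hc5, hc6, hc7, hc8⟩ := hq
  have hL0' : 0 < Real.log X := Real.log_pos hX1
  have hlv : |Real.log 2 * (j : ℝ) - q.1 none * Real.log X| ≤ δ * Real.log X := by
    have h1 : |Real.log 2 * (j : ℝ) / Real.log X - q.1 none| ≤ δ := hw.ev none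
    have h2 : Real.log 2 * (j : ℝ) - q.1 none * Real.log X =
        (Real.log 2 * (j : ℝ) / Real.log X - q.1 none) * Real.log X := by field_simp
    rw [h2, abs_mul, abs_of_pos hL0']
    exact mul_le_mul_of_nonneg_right h1 hL0'.le
  have hw1 : Win S8X (fun i => q.1 (some i)) δ 0 B δ' X a :=
    ⟨fun i => hw.ev (some i), hw.g, Nat.le_refl 0, hw.s₁, hw.s₂⟩
  have h5 : cκ (prX (bp fun i => q.1 (some i))) / 2 ≤ q.1 (some (.inr 0)) +
      q.1 (some (.inr 1)) + q.1 (some (.inr 2)) + (0 : ℝ) +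
      2 * cx' (prX (bp fun i => q.1 (some i))) := by
    rw [add_zero]
    exact hc5
  have hqD : ((fun i => q.1 (some i), fun _ => 0) : (I8X → ℝ) × (Kd → ℝ)) ∈
      Dom8X c β Par DifL := ⟨hc1, hc2, rfl, h5⟩
  have h1 := s8x_frame (P := P) (s := s) (qs := []) hX1 hδ hτ hδ' (Nat.le_refl 0)
    (by simp) hqD hw1 (fun t => by simp [Pcs.mass, hδ]) (by simp [Pcs.Good]) (by simp) hok hokD
  have esv : q.1 (some (.inr 0)) + q.1 (some (.inr 1)) + q.1 (some (.inr 2)) + (0 : ℝ) =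
      q.1 (some (.inr 0)) + q.1 (some (.inr 1)) + q.1 (some (.inr 2)) := add_zero _
  refine ⟨⟨hc1.par, hc1.zr⟩, hc1, hc2, ?_, hlv, h1.2.1, h1.2.2⟩
  have h2 := h1.1
  dsimp only at h2
  rw [esv] at h2
  exact h2

end Crest.Agent.R017.HxFr50
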