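import Crest.Agent.R017.I1LE_764
import Crest.Agent.R017.I1n_146

/-!
# Row 17, T.4 (helper764): `(I1)` for differences of natural lists, E2 with level weights

* `numLx` : the joint block of a difference;  `TJRE` : the T-moment with level weights
* `I1LPE` : `(I1)` for a sequence dominated by a difference: R-functional `RP`, cross tail `et`,
  Gram error `e₃`;  **`I1LPEx`** : for `xN` (no bias hypothesis);  **`I1LPTE`** : for `xT`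
-/

set_option autoImplicit false
set_option linter.unusedSectionVars false

noncomputable section

open Finset MeasureTheory
open scoped ComplexConjugate Classical

namespace Crest.Agent.R017.I1K764

open Crest.Agent.R012 Crest.Agent.R012.Eis Crest.Agent.R012.MC Crest.Agent.R012.Gauss880
open Crest.Agent.R012.LS2 (S mem_S)
open Crest.Agent.R012.Weight600 (pw)
open Crest.Agent.R017.CM106 (CS FS TG)
open Crest.Agent.R017.C70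
open Crest.Agent.R017.HP842 (Pc pc sqc alL KS Ker)
open Crest.Agent.R017.B770
open Crest.Agent.R017.FE47 (PU cx)
open Crest.Agent.R017.Prov71
open Crest.Agent.R017.Leg381 (Pf alF SF LF natl alF_natl)
open Crest.Agent.R017.RG64 (FS_alF Ht one_le_Ht)
open Crest.Agent.R017.E1551
open Crest.Agent.R017.E2440 (StE)
open Crest.Agent.R017.LB48 (CrP GrP)
open Crest.Agent.R017.Rough381 (VF)
open Crest.Agent.R017.X6C180 (GF)
open Crest.Agent.R017.WDec180 (WD sc)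
open Crest.Agent.R017.PX764 (Dk)
open Crest.Agent.R017.LegK545 (VK SFK JBK)
open Crest.Agent.R017.RX241 (Nb Nb_nonneg)
open Crest.Agent.R017.ExT764 (PBh ext_num num_L')
open Crest.Agent.R017.End699 (HC)
open Crest.Agent.R017.Sup271 (NPm)
open Crest.Agent.R017.I1146

/-- **the joint block of a difference of natural lists** -/
theorem numLx {h : ℝ → ℝ} {c : ℝ} (hpu : PU h c) (N : ℕ) {ε M B₂ : ℝ} (hε : 0 < ε) (hM : 0 ≤ M)
    (hB₂ : 0 < B₂) : ∃ C r : ℝ, 0 ≤ C ∧ 0 ≤ r ∧ ∀ X : ℝ, 3 ≤ X → ∀ (P : DPar), P.OK →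
      ∀ (q : Eis) (ps ps' : List Pq), ps.length ≤ N → ps'.length ≤ N →
      (∀ p ∈ ps, 0 ≤ p.z ∧ p.z ≤ Real.log X) → (∀ p ∈ ps', 0 ≤ p.z ∧ p.z ≤ Real.log X) →
      LN ps' = LN ps → ∀ ζ : ℂ, ‖ζ‖ ≤ 1 → ∀ x : Eis → ℂ,
      (∀ n, x n = sqc q (alF 1 1 P h (natl ps)) n - ζ * sqc q (alF 1 1 P h (natl ps')) n) →
      ∀ (K Y Z T F F' E D2 : ℝ), 0 < K → 1 ≤ Y → Y ≤ X ^ B₂ → 0 < Z → Z ≤ X → Real.log Z ≤ T →
      0 ≤ F → 0 ≤ F' → 0 ≤ E → 0 ≤ D2 →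
      FlatLK Dk h P q ps (X ^ B₂) r M (Real.log K) T F →
      FlatLK Dk h P q ps' (X ^ B₂) r M (Real.log K) T F' →
      PBh x E D2 (max (N * M) 12) ((X ^ (B₂ + 1)) ^ 2) →
      ∀ g ∈ S Y, ∀ (Q : Eis → Prop) (B V : ℝ), 1 ≤ B → B ≤ Y → 1 ≤ V →
      V ≤ Z / (nm g : ℝ) ^ 2 → ∀ t : ℝ, JB Y x Q g B V t ≤
        C * X ^ ε * ((F + F') * Real.exp (2 * LN ps) + Nb E D2 K (Real.exp (LN ps)) Z) /
          (nm g : ℝ) ^ 2 * max B⁻¹ (yv K (Real.exp (LN ps)) g V) *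
          (1 + |t|) ^ (max (N * M) 12 : ℝ) := by
  set ε' : ℝ := ε / (B₂ + 1) with hε'
  have hε'0 : 0 < ε' := by positivity
  obtain ⟨Cb, rb, hCb, hrb, Hb⟩ := numLK Dk848.ker_Dk hpu N hB₂.le hε hM
  obtain ⟨Cx, hCx, Hx⟩ := num_L' (ε := ε') hε'0
  refine ⟨3 * Cb + Cx, rb, by positivity, hrb, ?_⟩
  intro X hX P hP q ps ps' hN hN' hz hz' hLN ζ hζ x hx K Y Z T F F' E D2 hK0 hY1 hYu hZ hZX hT hF
    hF' hE hD2 hcl hcl' hPB g hg Q B V hB1 hB2 hV1 hV2 t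
  have hX1 : (1 : ℝ) ≤ X := by linarith
  have hX0 : 0 < X := by linarith
  have hY0 : 0 < Y := by linarith
  set n := LN ps with hn
  set J : ℝ := max ((N : ℝ) * M) 12 with hJ
  set Pb : ℝ := X ^ (B₂ + 1) with hPb
  have hPb1 : 1 ≤ Pb := Real.one_le_rpow hX1 (by positivity)
  have hPe : Pb ^ ε' = X ^ ε := by
    rw [hPb, ← Real.rpow_mul hX0.le]
    congr 1
    rw [hε']
    field_simp
  have hYPb : Y ≤ Pb := hYu.trans (Real.rpow_le_rpow_of_exponent_le hX1 (by linarith))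
  have hPP : Pb ≤ Pb ^ 2 := by nlinarith
  obtain ⟨h2, h1, -⟩ := (mem_S hY0.le).1 hg
  have hgn : (0 : ℝ) < nm g := by exact_mod_cast nm_pos.2 h1.ne_zero
  have hg1 : (1 : ℝ) ≤ nm g := by exact_mod_cast nm_pos.2 h1.ne_zero
  have hV0 : 0 < V := by linarith
  have hB0 : 0 < B := by linarith
  have hVZ : V ≤ Z := hV2.trans (div_le_self hZ.le (one_le_pow₀ hg1))
  have hVX : V ≤ X := hVZ.trans hZX
  have hVB : V * B ≤ Pb := by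
    rw [hPb, Real.rpow_add hX0, Real.rpow_one, mul_comm]
    exact mul_le_mul (hB2.trans hYu) hVX hV0.le (by positivity)
  have hVT : Real.log V ≤ T - 2 * Real.log (nm g) := by
    have h3 := Real.log_le_log hV0 hV2
    rw [Real.log_div hZ.ne' (by positivity), Real.log_pow] at h3
    push_cast at h3
    linarith
  have hbump := bump_of_cs hpu.cs
  have hFα : FS (sqc q (alF 1 1 P h (natl ps))) := HP842.FS.sqc (FS_alF hbump hP 1 1 _) q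
  have hFβ : FS (sqc q (alF 1 1 P h (natl ps'))) := HP842.FS.sqc (FS_alF hbump hP 1 1 _) q
  have main := Hx _ _ x ζ hζ hFα hFβ hx E D2 K (Real.exp n) Z Y Pb J hE hD2 hK0
    (Real.exp_pos n) hZ hY0.le Q g h1 B V t hB1 hV1 hVB (hV2.trans (by gcongr; linarith))
    (fun U hU _ _ _ j hj hjV => by
      obtain ⟨hUY, hUp, -⟩ := (mem_S hY0.le).1 hU
      refine hPB (g * U) (h1.mul hUp) ?_ j hj (hjV.trans (hVB.trans hPP)) t
      rw [nm_mul, pow_two]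
      push_cast
      exact mul_le_mul (h2.trans hYPb) (hUY.trans hYPb) (Nat.cast_nonneg _) (by linarith))
  rw [hPe] at main
  have h5 := Hb X hX P hP q ps hN hz K T F hK0 hF hcl g h1 (h2.trans hYu) B V
    Y t Q hB1 (hB2.trans hYu) hV1 hVX hY0.le hVT
  have h6 := Hb X hX P hP q ps' hN' hz' K T F' hK0 hF' hcl' g h1 (h2.trans hYu) B V
    Y t Q hB1 (hB2.trans hYu) hV1 hVX hY0.le hVT
  rw [hLN] at h6
  rw [← hn] at h5
  have hpw : (1 + |t|) ^ ((N : ℝ) * M) ≤ (1 + |t|) ^ J :=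
    Real.rpow_le_rpow_of_exponent_le (by linarith [abs_nonneg t]) (le_max_left _ _)
  set mx := max B⁻¹ (yv K (Real.exp n) g V) with hmx
  have hmx0 : 0 ≤ mx := le_max_of_le_left (by positivity)
  have hyv : yv K (Real.exp n) g V ≤ mx := le_max_right _ _
  have hT0 : 0 ≤ (1 + |t|) ^ J := Real.rpow_nonneg (by positivity) _
  set NB := Nb E D2 K (Real.exp n) Z with hNB
  have hNB0 : 0 ≤ NB := Nb_nonneg hE hD2 hK0.le (Real.exp_pos n).le hZ.le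
  have h7 : Cx * X ^ ε * NB / (nm g : ℝ) ^ 2 * yv K (Real.exp n) g V * (1 + |t|) ^ J ≤
      Cx * X ^ ε * NB / (nm g : ℝ) ^ 2 * mx * (1 + |t|) ^ J := by gcongr
  have h8 : Cb * X ^ ε * (F * Real.exp (2 * n)) / (nm g : ℝ) ^ 2 * mx *
      (1 + |t|) ^ ((N : ℝ) * M) ≤ Cb * X ^ ε * (F * Real.exp (2 * n)) / (nm g : ℝ) ^ 2 * mx *
      (1 + |t|) ^ J := mul_le_mul_of_nonneg_left hpw (by positivity)
  have h9 : Cb * X ^ ε * (F' * Real.exp (2 * n)) / (nm g : ℝ) ^ 2 * mx *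
      (1 + |t|) ^ ((N : ℝ) * M) ≤ Cb * X ^ ε * (F' * Real.exp (2 * n)) / (nm g : ℝ) ^ 2 * mx *
      (1 + |t|) ^ J := mul_le_mul_of_nonneg_left hpw (by positivity)
  have e1 : (3 * Cb + Cx) * X ^ ε * ((F + F') * Real.exp (2 * n) + NB) / (nm g : ℝ) ^ 2 * mx *
      (1 + |t|) ^ J = 3 * (Cb * X ^ ε * (F * Real.exp (2 * n)) / (nm g : ℝ) ^ 2 * mx *
      (1 + |t|) ^ J) + 3 * (Cb * X ^ ε * (F' * Real.exp (2 * n)) / (nm g : ℝ) ^ 2 * mx *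
      (1 + |t|) ^ J) + Cx * X ^ ε * NB / (nm g : ℝ) ^ 2 * mx * (1 + |t|) ^ J +
      (Cx * X ^ ε * ((F + F') * Real.exp (2 * n)) + 3 * Cb * X ^ ε * NB) / (nm g : ℝ) ^ 2 * mx *
      (1 + |t|) ^ J := by ring
  rw [e1]
  have h10 : 0 ≤ (Cx * X ^ ε * ((F + F') * Real.exp (2 * n)) + 3 * Cb * X ^ ε * NB) /
      (nm g : ℝ) ^ 2 * mx * (1 + |t|) ^ J := by positivity
  linarith

lemma Nb_mono {E D2 K X Z Z' : ℝ} (hE : 0 ≤ E) (hD : 0 ≤ D2) (hK : 0 < K) (hX : 0 ≤ X)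
    (hZ : 0 ≤ Z) (h : Z ≤ Z') : Nb E D2 K X Z ≤ Nb E D2 K X Z' := by
  unfold RX241.Nb
  gcongr

set_option maxHeartbeats 1000000 in
/-- the T-moment with level weights of a sequence dominated by a difference -/
theorem TJRE {h : ℝ → ℝ} {c : ℝ} (hpu : PU h c) (N : ℕ) {ε M B₂ : ℝ} (hε : 0 < ε) (hM : 0 ≤ M)
    (hB₂ : 0 < B₂) {ν Dd : ℝ} (hν : 1 ≤ ν) (hDd : 0 ≤ Dd) {A : ℕ}
    (hA : max ((N : ℝ) * M) 12 + 1 < A) :
    ∃ C r : ℝ, 0 ≤ C ∧ 0 ≤ r ∧ ∀ X : ℝ, 3 ≤ X → ∀ (P : DPar), P.OK →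
      ∀ (q : Eis) (ps ps' : List Pq), ps.length ≤ N → ps'.length ≤ N →
      (∀ p ∈ ps, 0 ≤ p.z ∧ p.z ≤ Real.log X) → (∀ p ∈ ps', 0 ≤ p.z ∧ p.z ≤ Real.log X) →
      LN ps' = LN ps → ∀ ζ : ℂ, ‖ζ‖ ≤ 1 → ∀ x : Eis → ℂ,
      (∀ n, x n = sqc q (alF 1 1 P h (natl ps)) n - ζ * sqc q (alF 1 1 P h (natl ps')) n) →
      ∀ (K Y D Y₀ Z T E0 F F' E D2 Fb : ℝ), 0 < K → 1 ≤ Y → Y ≤ X ^ B₂ → 0 < Z → Z * ν ≤ X →
      Real.log (Z * ν) ≤ T → 0 ≤ F → 0 ≤ F' → 0 ≤ E → 0 ≤ D2 → 0 ≤ Fb →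
      FlatLK Dk h P q ps (X ^ B₂) r M (Real.log K) T F →
      FlatLK Dk h P q ps' (X ^ B₂) r M (Real.log K) T F' →
      PBh x E D2 (max (N * M) 12) ((X ^ (B₂ + 1)) ^ 2) →
      Nb E D2 K (Real.exp (LN ps)) (Z * ν) ≤ Fb * Real.exp (2 * LN ps) →
      ∀ al : Eis → ℂ, Dom ν Dd x al → (∀ n, al n ≠ 0 → n ∈ S Y) →
      TJ (cR K (Real.exp (LN ps)) E0) A K (Real.exp (LN ps)) Y (JW D Y₀ Z) al ≤
        C * X ^ ε * ((F + F' + Fb) * Real.exp (2 * LN ps)) := by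
  set a₁ : ℝ := B₂ + 1 with ha₁
  have ha₁0 : 0 < a₁ := by positivity
  set ε' : ℝ := ε / (2 * a₁) with hε'
  have hε'0 : 0 < ε' := by positivity
  have hε2 : 0 < ε / 2 := by positivity
  obtain ⟨Cb, rb, hCb, hrb, Hb⟩ := numLx hpu N hε2 hM hB₂
  set J : ℝ := max ((N : ℝ) * M) 12 with hJ
  have hJ0 : 0 ≤ J := (by norm_num : (0 : ℝ) ≤ 12).trans (le_max_right _ _)
  obtain ⟨C₁, hC₁, H₁⟩ := TJ_le (A := A) (J := J) (ε := ε') hA hJ0 hε'0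
  refine ⟨C₁ * (Dd * ν ^ (1 / 3 : ℝ) * Cb), rb, by positivity, hrb, ?_⟩
  intro X hX P hP q ps ps' hN hN' hz hz' hLN ζ hζ x hx K Y D Y₀ Z T E0 F F' E D2 Fb hK0 hY1 hYu hZ
    hZX hT hF hF' hE hD2 hFb hcl hcl' hPB hNb al hdom hsup
  have hX1 : (1 : ℝ) ≤ X := by linarith
  have hX0 : 0 < X := by linarith
  have hY0 : 0 < Y := by linarith
  have hν0 : 0 < ν := by linarith
  have hZν : 0 < Z * ν := by positivity
  set n := LN ps with hn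
  set ν₃ : ℝ := ν ^ (1 / 3 : ℝ) with hν₃
  have hν₃1 : 1 ≤ ν₃ := Real.one_le_rpow hν (by norm_num)
  set Pb : ℝ := X ^ a₁ with hPb
  have hPb1 : 1 ≤ Pb := Real.one_le_rpow hX1 ha₁0.le
  have hYPb : Y ≤ Pb := hYu.trans (Real.rpow_le_rpow_of_exponent_le hX1 (by rw [ha₁]; linarith))
  have hXPb : X ≤ Pb := by
    calc X = X ^ (1 : ℝ) := (Real.rpow_one X).symm
      _ ≤ _ := Real.rpow_le_rpow_of_exponent_le hX1 (by rw [ha₁]; linarith)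
  have hPe : Pb ^ ε' = X ^ (ε / 2) := by
    rw [hPb, ← Real.rpow_mul hX0.le]
    congr 1
    rw [hε']
    field_simp
  have hXe : X ^ (ε / 2) * X ^ (ε / 2) = X ^ ε := by
    rw [← Real.rpow_add hX0]; congr 1; ring
  have hZPb : Z ≤ Pb := (le_mul_of_one_le_right hZ.le hν).trans (hZX.trans hXPb)
  set FF := (F + F' + Fb) * Real.exp (2 * n) with hFF
  have hFF0 : 0 ≤ FF := by positivity
  have key := H₁ Pb K (Real.exp n) Y D Y₀ Z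
    (Dd * ν₃ * (Cb * X ^ (ε / 2) * FF)) al hPb1 hK0 (Real.exp_pos n) hY1 hYPb
    hZPb (by positivity) hsup (cR K (Real.exp n) E0)
    (cR_nonneg hK0.le (Real.exp_pos n).le E0)
    (fun δ B V => min 1 (|B| * (yv K (Real.exp n) δ |V|)))
    (fun δ B V => by
      have : 0 ≤ yv K (Real.exp n) δ |V| := by
        unfold E1551.yv
        positivity
      positivity)
    (fun δ hδ t ht j hj B V hB1 hB2 hV1 hV2 => by
      have hBn : 0 ≤ B := (Nat.cast_nonneg _).trans hB1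
      have hVn : 0 ≤ V := (Nat.cast_nonneg _).trans hV1
      have h0 : (0 : ℝ) ≤ min 1 (|B| * (yv K (Real.exp n) δ |V|)) := by
        have : 0 ≤ yv K (Real.exp n) δ |V| := by
          unfold E1551.yv
          positivity
        positivity
      unfold cR
      split_ifs
      · unfold rho
        rw [abs_of_nonneg hBn, abs_of_nonneg hVn]
        refine min_le_min_left _ (mul_le_mul hB1 ?_ ?_ hBn)
        · unfold E1551.yv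
          refine mul_le_mul_of_nonneg_right (Real.rpow_le_rpow (by positivity)
            (mul_le_mul_of_nonneg_left hV1 hK0.le) (by norm_num)) (by positivity)
        · unfold E1551.yv
          positivity
      · exact h0)
    (fun δ hδ B V hB1 hB2 hV1 hV2 t => by
      obtain ⟨h2, h1, -⟩ := (mem_S hY0.le).1 hδ
      have hδn : (0 : ℝ) < nm δ := by exact_mod_cast nm_pos.2 h1.ne_zero
      have hV0 : 0 < V := by linarith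
      have hB0 : 0 < B := by linarith
      have hVν : 1 ≤ V * ν := one_le_mul_of_one_le_of_one_le hV1 hν
      have hVν2 : V * ν ≤ Z * ν / (nm δ : ℝ) ^ 2 := by
        calc V * ν ≤ Z / (nm δ : ℝ) ^ 2 * ν := mul_le_mul_of_nonneg_right hV2 hν0.le
          _ = _ := by ring
      have h5 := Hb X hX P hP q ps ps' hN hN' hz hz' hLN ζ hζ x hx K Y (Z * ν) T F F' E D2 hK0
        hY1 hYu hZν hZX hT hF hF' hE hD2 hcl hcl' hPB δ hδ (fun _ => True) B (V * ν) hB1 hB2 hVν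
        hVν2 t
      rw [yv_nu hK0.le δ hV0.le hν0.le] at h5
      have h6 := hdom.jb Y (fun _ => True) δ B V t h1 hY0.le hV1
      have hy := yv_pos hK0 (Real.exp_pos n) hV0 h1.ne_zero
      set y := yv K (Real.exp n) δ V with hydef
      have hν₃0 : 0 < ν₃ := by linarith
      rw [abs_of_pos hB0, abs_of_pos hV0, ← hydef]
      have h7 : max B⁻¹ (ν₃ * y) ≤ ν₃ * max B⁻¹ y := by
        refine max_le ?_ (mul_le_mul_of_nonneg_left (le_max_right _ _) (by linarith))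
        calc B⁻¹ ≤ ν₃ * B⁻¹ := le_mul_of_one_le_left (by positivity) hν₃1
          _ ≤ _ := mul_le_mul_of_nonneg_left (le_max_left _ _) (by linarith)
      have h8 : min 1 (B * y) * y⁻¹ * max B⁻¹ y ≤ 1 := by
        rcases le_total B⁻¹ y with h | h
        · rw [max_eq_right h]
          calc min 1 (B * y) * y⁻¹ * y = min 1 (B * y) := by field_simp
            _ ≤ 1 := min_le_left _ _
        · rw [max_eq_left h]
          calc min 1 (B * y) * y⁻¹ * B⁻¹ ≤ (B * y) * y⁻¹ * B⁻¹ := by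
                have := min_le_right 1 (B * y)
                gcongr
            _ = 1 := by field_simp
      have hmn : 0 ≤ min 1 (B * y) := by positivity
      have hF1 : (F + F') * Real.exp (2 * n) + Nb E D2 K (Real.exp n) (Z * ν) ≤ FF := by
        rw [hFF]; linarith
      have hmx0 : 0 ≤ max B⁻¹ y := le_max_of_le_left (by positivity)
      have hNB0 : 0 ≤ Nb E D2 K (Real.exp n) (Z * ν) :=
        Nb_nonneg hE hD2 hK0.le (Real.exp_pos n).le hZν.le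
      calc min 1 (B * y) * (nm δ * y⁻¹) * JB Y al (fun _ => True) δ B V t ≤
            min 1 (B * y) * (nm δ * y⁻¹) * (Dd * (Cb * X ^ (ε / 2) * FF /
              (nm δ : ℝ) ^ 2 * (ν₃ * max B⁻¹ y) * (1 + |t|) ^ J)) := by
            refine mul_le_mul_of_nonneg_left (h6.trans (mul_le_mul_of_nonneg_left
              (h5.trans ?_) hDd)) (by positivity)
            gcongr
        _ = (min 1 (B * y) * y⁻¹ * max B⁻¹ y) * (Dd * ν₃ * (Cb * X ^ (ε / 2) * FF) / nm δ *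
              (1 + |t|) ^ J) := by
            field_simp
        _ ≤ 1 * (Dd * ν₃ * (Cb * X ^ (ε / 2) * FF) / nm δ * (1 + |t|) ^ J) :=
            mul_le_mul_of_nonneg_right h8 (by positivity)
        _ = _ := one_mul _)
  refine key.trans (le_of_eq ?_)
  rw [hPe]
  calc C₁ * X ^ (ε / 2) * (Dd * ν₃ * (Cb * X ^ (ε / 2) * FF)) =
        C₁ * (Dd * ν₃ * Cb) * (X ^ (ε / 2) * X ^ (ε / 2)) * FF := by ring
    _ = _ := by rw [hXe]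

set_option maxHeartbeats 1000000 in
/-- **(I1) for a sequence dominated by a difference of natural lists, E2 with level weights.** -/
theorem I1LPE {w : ℝ → ℝ} (hw : Wgt w) (hw0 : ∀ x, 0 ≤ w x) {Nw : ℕ} {Mw : ℝ} {Fw : ℕ → ℝ → ℂ}
    (hWD : WD w Nw Mw Fw) {h : ℝ → ℝ} {c : ℝ} (hpu : PU h c)
    (N : ℕ) {R₁ : ℝ} (hR₁ : 0 ≤ R₁) (hR : ∀ u, cx h u ≠ 0 → |u| ≤ R₁) {ε e₁ M B₂ : ℝ}
    (hε : 0 < ε) (he₁ : 0 < e₁) (hM : 0 ≤ M) (hB₂ : 0 < B₂) {ν Dd : ℝ} (hν : 1 ≤ ν)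
    (hDd : 0 ≤ Dd) :
    ∃ C r : ℝ, 0 ≤ C ∧ 0 ≤ r ∧ ∀ X : ℝ, 3 ≤ X → ∀ (P : DPar), P.OK →
      ∀ (q : Eis) (ps ps' : List Pq), ps.length ≤ N → ps'.length ≤ N →
      (∀ p ∈ ps, 0 ≤ p.z ∧ p.z ≤ Real.log X) → (∀ p ∈ ps', 0 ≤ p.z ∧ p.z ≤ Real.log X) →
      LN ps ≤ Real.log X → LN ps' = LN ps → ∀ ζ : ℂ, ‖ζ‖ ≤ 1 → ∀ x : Eis → ℂ,
      (∀ n, x n = sqc q (alF 1 1 P h (natl ps)) n - ζ * sqc q (alF 1 1 P h (natl ps')) n) →
      ∀ (K Y D Y₀ Y₁ D' Y₁' T₀ E0 F F₂ F' F₂' E D2 Fb : ℝ) (I : ℕ), 1 ≤ K →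
      Real.exp (LN ps + N * R₁ + 1) ≤ Y → Y ≤ X ^ B₂ → 0 ≤ D → 0 < Y₁ → D ≤ D' → Y₁ ≤ Y₁' →
      Y₁' ≤ D' ^ 2 → Y₁' * ν ≤ X → Real.exp (2 * LN ps) * X ^ e₁ ≤ K * Y₁' → Y₀ < 1 → 0 < E0 →
      Y₁ < 2 ^ I → 0 < T₀ → 0 ≤ F → 0 ≤ F₂ → 0 ≤ F' → 0 ≤ F₂' → 0 ≤ E → 0 ≤ D2 → 0 ≤ Fb →
      FlatLK Dk h P q ps (X ^ B₂) r M (Real.log K) (Real.log (Y₁' * ν)) F →
      TailK Dk h P q ps (X ^ B₂) r M (Real.log K) (Real.log (Y₁' * ν)) (Real.log T₀)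
        (Real.log E0) F₂ →
      FlatLK Dk h P q ps' (X ^ B₂) r M (Real.log K) (Real.log (Y₁' * ν)) F' →
      TailK Dk h P q ps' (X ^ B₂) r M (Real.log K) (Real.log (Y₁' * ν)) (Real.log T₀)
        (Real.log E0) F₂' →
      PBh x E D2 (max (N * M) 12) ((X ^ (B₂ + 1)) ^ 2) →
      Nb E D2 K (Real.exp (LN ps)) (Y₁' * ν) ≤ Fb * Real.exp (2 * LN ps) →
      ∀ al : Eis → ℂ, Dom ν Dd x al →
      ∀ om : Eis × Eis → ℂ, (∀ x, ‖1 - om x‖ ≤ 1) → (∀ x, ‖om x‖ ≤ 1) →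
      (∀ x : Eis × Eis, (nm (x.2 * x.1 ^ 2) : ℝ) ≤ T₀ → om x = 1) →
      (∀ x ∈ JW D' Y₀ Y₁', x ∉ JW D Y₀ Y₁ → om x = 0) → ∀ (Q : Eis → Prop) (et e₃ : ℝ),
      ‖CrP w K al (fun k => if Q k then 0 else StE E0 (JW D Y₀ Y₁) om al k)‖ ≤ et →
      GrP w K (fun k => if Q k then StE E0 (JW D Y₀ Y₁) om al k else 0) ≤
        c3 w K * (X3 Y E0 (JW D Y₀ Y₁) om al).re + e₃ →
      ∑' k : Eis, (if IsPrim k ∧ Q k then w (nm k / K) *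
        ‖CS al k - (pC : ℂ) * StE E0 (JW D Y₀ Y₁) om al k‖ ^ 2 else 0) ≤
      C * X ^ ε * (K * Real.exp (LN ps)) * (1 + F + F₂ + F' + F₂' + Fb) +
        2 * pC * (∑ i ∈ Finset.range Nw,
          RP al (sc K Mw i) (GF (Fw i)) K (Real.exp (LN ps)) (S D) I E0 Y₁ + et) +
        pC ^ 2 * e₃ := by
  have hN0 : (0 : ℝ) ≤ N := Nat.cast_nonneg _
  have hP0 := Cst401.pC_pos
  set J : ℝ := max ((N : ℝ) * M) 12 with hJ
  set A : ℕ := ⌈J⌉₊ + 2 with hA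
  have hA2 : 2 ≤ A := by omega
  have hJA : J + 1 < A := by
    have h1 := Nat.le_ceil J
    rw [hA]
    push_cast
    linarith
  obtain ⟨C₁, r₁, hC₁, hr₁, H₁⟩ := I1LE hw hw0 hpu N hR₁ hR hε he₁ hM hB₂ hν hDd
  obtain ⟨C₂, r₂, hC₂, hr₂, H₂⟩ := TJRE hpu N hε hM hB₂ hν hDd hJA
  obtain ⟨C₃, hC₃, H₃⟩ := E2P hWD (2 * (N * R₁)) (by positivity) A hA2
  refine ⟨C₁ + 2 * pC * (C₃ * C₂), max r₁ r₂, by positivity, le_max_of_le_left hr₁, ?_⟩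
  intro X hX P hP q ps ps' hN hN' hz hz' hLX hLN ζ hζ x hx K Y D Y₀ Y₁ D' Y₁' T₀ E0 F F₂ F' F₂'
    E D2 Fb I hK hYl hYu hD hY₁ hDD hYY hYD hYX hKX hY₀ hE0 hI hT₀ hF hF₂ hF' hF₂' hE hD2 hFb
    hcl htl hcl' htl' hPB hNb al hdom om hom1 homb hom homJ Q et e₃ ht he
  have hX1 : (1 : ℝ) ≤ X := by linarith
  have hX0 : 0 < X := by linarith
  have hK0 : 0 < K := by linarith
  set n := LN ps with hn
  have hn0 : 0 ≤ n := LN_nonneg fun p hp => (hz p hp).1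
  set α := sqc q (alF 1 1 P h (natl ps)) with hα
  set β := sqc q (alF 1 1 P h (natl ps')) with hβ
  have hY1 : 1 ≤ Y := le_trans (Real.one_le_exp (by positivity)) hYl
  have hY0 : 0 < Y := by linarith
  have hxle : ∀ m, ‖x m‖ ≤ ‖α m‖ + ‖β m‖ := fun m => by
    rw [hx m]
    refine (norm_sub_le _ _).trans (add_le_add_right ?_ _)
    rw [norm_mul]
    exact mul_le_of_le_one_left (norm_nonneg _) hζ
  have hale : ∀ m, ‖al m‖ ≤ ‖α m‖ + ‖β m‖ := fun m => (hdom.le m).trans (hxle m)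
  have hadm₀ : Adm Y (Real.exp n) (2 * (N * R₁)) α := Adm_list hR₁ hR P q hN
    (le_trans (Real.exp_le_exp.2 (by linarith)) hYl)
  have hadm₁ : Adm Y (Real.exp n) (2 * (N * R₁)) β := by
    have h1 := Adm_list (Y := Y) hR₁ hR P q hN' (le_trans (Real.exp_le_exp.2 (by linarith)) hYl)
    rw [hLN] at h1
    exact h1
  have hne : ∀ m, al m ≠ 0 → α m ≠ 0 ∨ β m ≠ 0 := fun m hm => by
    by_contra hc
    rw [not_or, not_not, not_not] at hc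
    refine hm (norm_le_zero_iff.1 ?_)
    have := hale m
    rw [hc.1, hc.2, norm_zero, add_zero] at this
    exact this
  have hadm : Adm Y (Real.exp n) (2 * (N * R₁)) al :=
    ⟨fun m hm => (hne m hm).elim (hadm₀.sup m) (hadm₁.sup m),
      fun m hm => (hne m hm).elim (hadm₀.win m) (hadm₁.win m)⟩
  have hY₁'0 : 0 < Y₁' := hY₁.trans_le hYY
  have hν0 : 0 < ν := by linarith
  have hY1ν : Y₁ * ν ≤ Y₁' * ν := mul_le_mul_of_nonneg_right hYY hν0.le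
  -- the T-moment
  have b1 := H₂ X hX P hP q ps ps' hN hN' hz hz' hLN ζ hζ x hx K Y D Y₀ Y₁
    (Real.log (Y₁' * ν)) E0 F F' E D2 Fb hK0 hY1 hYu hY₁
    (hY1ν.trans hYX) (Real.log_le_log (by positivity) hY1ν) hF hF' hE hD2 hFb
    (hcl.mono (le_max_right r₁ r₂)) (hcl'.mono (le_max_right r₁ r₂)) hPB
    ((Nb_mono hE hD2 hK0 (Real.exp_pos n).le (by positivity) hY1ν).trans hNb) al hdom hadm.sup
  have b2 := H₃ Y (Real.exp n) K D Y₀ Y₁ E0 I hY0.le (Real.exp_pos n) hK0 hD hY₁ hI hE0.le al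
    hadm om homb
  set RR := ∑ i ∈ Finset.range Nw, RP al (sc K Mw i) (GF (Fw i)) K (Real.exp n) (S D) I E0 Y₁
    with hRR
  set GG := 1 + F + F₂ + F' + F₂' + Fb with hGG
  have hKn : K / Real.exp n * ((F + F' + Fb) * Real.exp (2 * n)) =
      (K * Real.exp n) * (F + F' + Fb) := by
    have : Real.exp (2 * n) = Real.exp n * Real.exp n := by rw [two_mul, Real.exp_add]
    rw [this]
    field_simp
  have b3 : C₃ * (K / Real.exp n) * TJ (cR K (Real.exp n) E0) A K (Real.exp n) Y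
      (JW D Y₀ Y₁) al ≤ C₃ * C₂ * X ^ ε * (K * Real.exp n) * GG := by
    calc _ ≤ C₃ * (K / Real.exp n) * (C₂ * X ^ ε * ((F + F' + Fb) * Real.exp (2 * n))) :=
          mul_le_mul_of_nonneg_left b1 (by positivity)
      _ = C₃ * C₂ * X ^ ε * (K / Real.exp n * ((F + F' + Fb) * Real.exp (2 * n))) := by ring
      _ = C₃ * C₂ * X ^ ε * (K * Real.exp n) * (F + F' + Fb) := by rw [hKn]; ring
      _ ≤ _ := mul_le_mul_of_nonneg_left (by rw [hGG]; linarith) (by positivity)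
  have hcross : ‖CrP w K al (fun k => if Q k then StE E0 (JW D Y₀ Y₁) om al k else 0) -
      ((pC * c3 w K : ℝ) : ℂ) * X2 Y E0 (JW D Y₀ Y₁) om al‖ ≤
      C₃ * C₂ * X ^ ε * (K * Real.exp n) * GG + RR + et := by
    have e1 : CrP w K al (fun k => if Q k then StE E0 (JW D Y₀ Y₁) om al k else 0) =
        CrP w K al (StE E0 (JW D Y₀ Y₁) om al) -
          CrP w K al (fun k => if Q k then 0 else StE E0 (JW D Y₀ Y₁) om al k) :=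
      LB48.CrP_cut hw hK0 al (StE E0 (JW D Y₀ Y₁) om al) Q
    rw [e1]
    have e2 : CrP w K al (StE E0 (JW D Y₀ Y₁) om al) -
          CrP w K al (fun k => if Q k then 0 else StE E0 (JW D Y₀ Y₁) om al k) -
        ((pC * c3 w K : ℝ) : ℂ) * X2 Y E0 (JW D Y₀ Y₁) om al =
        (CrP w K al (StE E0 (JW D Y₀ Y₁) om al) -
          ((pC * c3 w K : ℝ) : ℂ) * X2 Y E0 (JW D Y₀ Y₁) om al) -
          CrP w K al (fun k => if Q k then 0 else StE E0 (JW D Y₀ Y₁) om al k) := by ring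
    rw [e2]
    refine (norm_sub_le _ _).trans (add_le_add (b2.trans (add_le_add b3 le_rfl)) ht)
  have key := H₁ X hX P hP q ps ps' hN hN' hz hz' hLX hLN ζ hζ x hx K Y D Y₀ Y₁ D' Y₁' T₀ E0
    F F₂ F' F₂' E D2 Fb hK hYl hYu hD hY₁ hDD hYY hYD hYX hKX hY₀ hE0 hT₀ hF hF₂ hF' hF₂' hE hD2
    hFb (hcl.mono (le_max_left r₁ r₂)) (htl.mono (le_max_left r₁ r₂))
    (hcl'.mono (le_max_left r₁ r₂)) (htl'.mono (le_max_left r₁ r₂)) hPB hNb al hdom om hom1 hom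
    homJ Q _ e₃ hcross he
  refine key.trans ?_
  have e9 : (C₁ + 2 * pC * (C₃ * C₂)) * X ^ ε * (K * Real.exp n) * GG =
      C₁ * X ^ ε * (K * Real.exp n) * GG + 2 * pC * (C₃ * C₂ * X ^ ε * (K * Real.exp n) * GG) := by
    ring
  rw [e9]
  have e10 : 2 * pC * (C₃ * C₂ * X ^ ε * (K * Real.exp n) * GG + RR + et) =
      2 * pC * (C₃ * C₂ * X ^ ε * (K * Real.exp n) * GG) + 2 * pC * (RR + et) := by ring
  rw [e10]
  linarith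

set_option maxHeartbeats 1000000 in
/-- **(I1) for a sequence dominated by the difference `xN`, E2 with level weights.** -/
theorem I1LPEx {w : ℝ → ℝ} (hw : Wgt w) (hw0 : ∀ x, 0 ≤ w x) {Nw : ℕ} {Mw : ℝ} {Fw : ℕ → ℝ → ℂ}
    (hWD : WD w Nw Mw Fw) {h : ℝ → ℝ} {c : ℝ} (hpu : PU h c)
    (N : ℕ) {R₁ : ℝ} (hR₁ : 0 ≤ R₁) (hR : ∀ u, cx h u ≠ 0 → |u| ≤ R₁) {ε e₁ M B₂ B₃ : ℝ}
    (hε : 0 < ε) (he₁ : 0 < e₁) (hM : 0 ≤ M) (hB₂ : 0 < B₂) {ν Dd : ℝ} (hν : 1 ≤ ν)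
    (hDd : 0 ≤ Dd) :
    ∃ C r : ℝ, 0 ≤ C ∧ 0 ≤ r ∧ ∀ X : ℝ, 3 ≤ X → ∀ (P : DPar), P.OK → HC P.n P.ψ →
      (nm P.n : ℝ) ≤ X ^ B₃ → ¬ NPm P.n P.ψ P.l₂ 1 → ∀ q : Eis, q ≠ 0 → (nm q : ℝ) ≤ X ^ B₃ →
      ∀ (p1 p2 : Pq) (l : List Pq), p1.u = .one → p2.u = .one → p1.kd = .mo → p2.kd = .mo →
      (nm p1.d : ℝ) ≤ X ^ B₃ → (nm p2.d : ℝ) ≤ X ^ B₃ → (p1 :: p2 :: l).length ≤ N →
      (∀ p ∈ p1 :: p2 :: l, 0 ≤ p.z) → LN (p1 :: p2 :: l) ≤ Real.log X →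
      ∀ d s0 : ℝ, 0 ≤ d → d ≤ p1.z + p2.z → s0 ≤ p1.z → s0 ≤ p2.z → s0 ≤ p1.z + p2.z - d →
      s0 ≤ d →
      ∀ (K Y D Y₀ Y₁ D' Y₁' T₀ E0 F F₂ F' F₂' : ℝ) (I : ℕ), 1 ≤ K →
      Real.exp (LN (p1 :: p2 :: l) + N * R₁ + 1) ≤ Y → Y ≤ X ^ B₂ → 0 ≤ D → 0 < Y₁ → D ≤ D' →
      Y₁ ≤ Y₁' → Y₁' ≤ D' ^ 2 → Y₁' * ν ≤ X →
      Real.exp (2 * LN (p1 :: p2 :: l)) * X ^ e₁ ≤ K * Y₁' → Y₀ < 1 → 0 < E0 → Y₁ < 2 ^ I →
      0 < T₀ → 0 ≤ F → 0 ≤ F₂ → 0 ≤ F' → 0 ≤ F₂' →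
      FlatLK Dk h P q (p1 :: p2 :: l) (X ^ B₂) r M (Real.log K) (Real.log (Y₁' * ν)) F →
      TailK Dk h P q (p1 :: p2 :: l) (X ^ B₂) r M (Real.log K) (Real.log (Y₁' * ν))
        (Real.log T₀) (Real.log E0) F₂ →
      FlatLK Dk h P q (rl p1 p2 l d) (X ^ B₂) r M (Real.log K) (Real.log (Y₁' * ν)) F' →
      TailK Dk h P q (rl p1 p2 l d) (X ^ B₂) r M (Real.log K) (Real.log (Y₁' * ν))
        (Real.log T₀) (Real.log E0) F₂' →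
      ∀ al : Eis → ℂ, Dom ν Dd (xN P h q p1 p2 l d) al →
      ∀ om : Eis × Eis → ℂ, (∀ x, ‖1 - om x‖ ≤ 1) → (∀ x, ‖om x‖ ≤ 1) →
      (∀ x : Eis × Eis, (nm (x.2 * x.1 ^ 2) : ℝ) ≤ T₀ → om x = 1) →
      (∀ x ∈ JW D' Y₀ Y₁', x ∉ JW D Y₀ Y₁ → om x = 0) → ∀ (Q : Eis → Prop) (et e₃ : ℝ),
      ‖CrP w K al (fun k => if Q k then 0 else StE E0 (JW D Y₀ Y₁) om al k)‖ ≤ et →
      GrP w K (fun k => if Q k then StE E0 (JW D Y₀ Y₁) om al k else 0) ≤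
        c3 w K * (X3 Y E0 (JW D Y₀ Y₁) om al).re + e₃ →
      ∑' k : Eis, (if IsPrim k ∧ Q k then w (nm k / K) *
        ‖CS al k - (pC : ℂ) * StE E0 (JW D Y₀ Y₁) om al k‖ ^ 2 else 0) ≤
      C * X ^ ε * (K * Real.exp (LN (p1 :: p2 :: l))) * (1 + F + F₂ + F' + F₂' +
          FbN K (LN (p1 :: p2 :: l)) s0 (Y₁' * ν) (Ht (natl (p1 :: p2 :: l)))) +
        2 * pC * (∑ i ∈ Finset.range Nw, RP al (sc K Mw i) (GF (Fw i)) K
          (Real.exp (LN (p1 :: p2 :: l))) (S D) I E0 Y₁ + et) +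
        pC ^ 2 * e₃ := by
  set B : ℝ := max (max 1 B₃) (2 * (B₂ + 1)) with hB
  have hB1 : 1 ≤ B := (le_max_left _ _).trans (le_max_left _ _)
  have hB3 : B₃ ≤ B := (le_max_right _ _).trans (le_max_left _ _)
  have hB2 : 2 * (B₂ + 1) ≤ B := le_max_right _ _
  obtain ⟨C₀, hC₀, H₀⟩ := pbh_xN hpu N hB1 (ε := ε / 2) (by positivity)
  obtain ⟨C₁, r, hC₁, hr, H₁⟩ := I1LPE hw hw0 hWD hpu N hR₁ hR (ε := ε / 2) (e₁ := e₁) (M := M)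
    (B₂ := B₂) (by positivity) he₁ hM hB₂ hν hDd
  refine ⟨C₁ * C₀, r, by positivity, hr, ?_⟩
  intro X hX P hP hψ hPn hnp q hq hqX p1 p2 l hu1 hu2 hk1 hk2 hd1 hd2 hlen hz hLX d s0 hd hd' h1 h2
    h3 h4 K Y D Y₀ Y₁ D' Y₁' T₀ E0 F F₂ F' F₂' I hK hYl hYu hD hY₁ hDD hYY hYD hYX hKX hY₀ hE0 hI
    hT₀ hF hF₂ hF' hF₂' hcl htl hcl' htl' al hdom om hom1 homb hom homJ Q et e₃ ht he
  have hX1 : (1 : ℝ) ≤ X := by linarith
  have hX0 : 0 < X := by linarith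
  have hK0 : 0 < K := by linarith
  have hX3 : X ^ B₃ ≤ X ^ B := Real.rpow_le_rpow_of_exponent_le hX1 hB3
  have hlen' : l.length ≤ N := by
    simp only [List.length_cons] at hlen
    omega
  have z1 := hz p1 List.mem_cons_self
  have z2 := hz p2 (List.mem_cons_of_mem _ List.mem_cons_self)
  have hzl : ∀ p ∈ l, 0 ≤ p.z := fun p hp => hz p (List.mem_cons_of_mem _
    (List.mem_cons_of_mem _ hp))
  have z3 : 0 ≤ LN l := LN_nonneg hzl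
  have e1 : LN (p1 :: p2 :: l) = p1.z + (p2.z + LN l) := by
    unfold LN
    simp only [List.map_cons, List.sum_cons]
  have hle : ∀ p ∈ l, p.z ≤ LN l := fun p hp => by
    unfold LN
    exact List.single_le_sum (fun x hx => by
      obtain ⟨p', hp', rfl⟩ := List.mem_map.1 hx
      exact hzl p' hp') _ (List.mem_map.2 ⟨p, hp, rfl⟩)
  have hz1 : ∀ p ∈ p1 :: p2 :: l, 0 ≤ p.z ∧ p.z ≤ Real.log X := by
    intro p hp
    refine ⟨hz p hp, ?_⟩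
    rcases List.mem_cons.1 hp with rfl | hp
    · linarith
    rcases List.mem_cons.1 hp with rfl | hp
    · linarith
    · linarith [hle p hp]
  have hz2 : ∀ p ∈ rl p1 p2 l d, 0 ≤ p.z ∧ p.z ≤ Real.log X := by
    intro p hp
    unfold rl at hp
    rcases List.mem_cons.1 hp with rfl | hp
    · exact ⟨by show 0 ≤ p1.z + p2.z - d; linarith, by
        show p1.z + p2.z - d ≤ _; linarith⟩
    rcases List.mem_cons.1 hp with rfl | hp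
    · exact ⟨hd, by show d ≤ _; linarith⟩
    · exact ⟨hzl p hp, by linarith [hle p hp]⟩
  have hV : (X ^ (B₂ + 1)) ^ 2 ≤ X ^ B := by
    rw [← Real.rpow_natCast, ← Real.rpow_mul hX0.le]
    refine Real.rpow_le_rpow_of_exponent_le hX1 (le_trans (le_of_eq ?_) hB2)
    push_cast; ring
  have hpb := H₀ X hX P hP hψ (hPn.trans hX3) hnp q hq (hqX.trans hX3) p1 p2 l hu1 hu2 hk1 hk2
    (hd1.trans hX3) (hd2.trans hX3) hlen' hz hLX d s0 h1 h2 h3 h4 (max (N * M) 12)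
    (le_max_right _ _) _ hV
  set n := LN (p1 :: p2 :: l) with hn
  have hH1 : 1 ≤ Ht (natl (p1 :: p2 :: l)) := one_le_Ht _
  set H := Ht (natl (p1 :: p2 :: l)) with _hH
  have hY₁'0 : 0 < Y₁' := hY₁.trans_le hYY
  have hν0 : 0 < ν := by linarith
  have hFb0 : 0 ≤ FbN K n s0 (Y₁' * ν) H := FbN_nonneg hK0.le (by positivity) (by linarith) _ _
  have hXe1 : 1 ≤ X ^ (ε / 2) := Real.one_le_rpow hX1 (by positivity)
  have key := H₁ X hX P hP q (p1 :: p2 :: l) (rl p1 p2 l d) hlen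
    (by unfold rl; simpa using hlen) hz1 hz2 hLX (LN_rl _ _ _ _) (zN p1 p2 d)
    (norm_zN _ _ _).le (xN P h q p1 p2 l d) (xN_eq P h q p1 p2 l d)
    K Y D Y₀ Y₁ D' Y₁' T₀ E0 F F₂ F' F₂' _ _ (C₀ * X ^ (ε / 2) * FbN K n s0 (Y₁' * ν) H) I
    hK hYl hYu hD hY₁ hDD hYY hYD hYX hKX hY₀ hE0 hI hT₀ hF hF₂ hF' hF₂' (by positivity)
    (Real.exp_pos _).le (by positivity) hcl htl hcl' htl' hpb
    (le_of_eq (Nb_FbN (C₀ := C₀ * X ^ (ε / 2)) n s0)) al hdom om hom1 homb hom homJ Q et e₃ ht he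
  refine key.trans ?_
  have hXe : X ^ (ε / 2) * X ^ (ε / 2) = X ^ ε := by
    rw [← Real.rpow_add hX0]; congr 1; ring
  set FF := FbN K n s0 (Y₁' * ν) H with hFF
  have hCX : 1 ≤ C₀ * X ^ (ε / 2) := one_le_mul_of_one_le_of_one_le hC₀ hXe1
  have h5 : 1 + F + F₂ + F' + F₂' + C₀ * X ^ (ε / 2) * FF ≤
      C₀ * X ^ (ε / 2) * (1 + F + F₂ + F' + F₂' + FF) := by
    have h6 : 0 ≤ (C₀ * X ^ (ε / 2) - 1) * (1 + F + F₂ + F' + F₂') :=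
      mul_nonneg (by linarith) (by positivity)
    nlinarith
  have h7 : C₁ * X ^ (ε / 2) * (K * Real.exp n) *
      (1 + F + F₂ + F' + F₂' + C₀ * X ^ (ε / 2) * FF) ≤
      C₁ * C₀ * X ^ ε * (K * Real.exp n) * (1 + F + F₂ + F' + F₂' + FF) := by
    calc _ ≤ C₁ * X ^ (ε / 2) * (K * Real.exp n) *
          (C₀ * X ^ (ε / 2) * (1 + F + F₂ + F' + F₂' + FF)) :=
          mul_le_mul_of_nonneg_left h5 (by positivity)
      _ = C₁ * C₀ * (X ^ (ε / 2) * X ^ (ε / 2)) * (K * Real.exp n) *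
          (1 + F + F₂ + F' + F₂' + FF) := by ring
      _ = _ := by rw [hXe]
  linarith

/-- **(I1) for the difference of the lists twisted by an `S`-unit, E2 with level weights.** -/
theorem I1LPTE {w : ℝ → ℝ} (hw : Wgt w) (hw0 : ∀ x, 0 ≤ w x) {Nw : ℕ} {Mw : ℝ} {Fw : ℕ → ℝ → ℂ}
    (hWD : WD w Nw Mw Fw) {h : ℝ → ℝ} {c : ℝ} (hpu : PU h c)
    (N : ℕ) {R₁ : ℝ} (hR₁ : 0 ≤ R₁) (hR : ∀ u, cx h u ≠ 0 → |u| ≤ R₁) {ε e₁ M B₂ B₃ : ℝ}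
    (hε : 0 < ε) (he₁ : 0 < e₁) (hM : 0 ≤ M) (hB₂ : 0 < B₂) {s : Eis} (hs0 : s ≠ 0) :
    ∃ C r : ℝ, 0 ≤ C ∧ 0 ≤ r ∧ ∀ X : ℝ, 3 ≤ X → ∀ (P : DPar), P.OK → s ∈ FE47.SM P.n →
      HC P.n P.ψ → (nm P.n : ℝ) ≤ X ^ B₃ → ¬ NPm P.n P.ψ P.l₂ 1 → ∀ q : Eis, q ≠ 0 →
      (nm q : ℝ) ≤ X ^ B₃ →
      ∀ (p1 p2 : Pq) (l : List Pq), p1.u = .one → p2.u = .one → p1.kd = .mo → p2.kd = .mo →
      (nm p1.d : ℝ) ≤ X ^ B₃ → (nm p2.d : ℝ) ≤ X ^ B₃ → (p1 :: p2 :: l).length ≤ N →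
      (∀ p ∈ p1 :: p2 :: l, 0 ≤ p.z) → LN (p1 :: p2 :: l) ≤ Real.log X →
      ∀ d s0 : ℝ, 0 ≤ d → d ≤ p1.z + p2.z → s0 ≤ p1.z → s0 ≤ p2.z → s0 ≤ p1.z + p2.z - d →
      s0 ≤ d →
      ∀ (K Y D Y₀ Y₁ D' Y₁' T₀ E0 F F₂ F' F₂' : ℝ) (I : ℕ), 1 ≤ K →
      Real.exp (LN (p1 :: p2 :: l) + N * R₁ + 1) ≤ Y → Y ≤ X ^ B₂ → 0 ≤ D → 0 < Y₁ → D ≤ D' →
      Y₁ ≤ Y₁' → Y₁' ≤ D' ^ 2 → Y₁' * (nm s : ℝ) ^ 2 ≤ X →
      Real.exp (2 * LN (p1 :: p2 :: l)) * X ^ e₁ ≤ K * Y₁' → Y₀ < 1 → 0 < E0 → Y₁ < 2 ^ I →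
      0 < T₀ → 0 ≤ F → 0 ≤ F₂ → 0 ≤ F' → 0 ≤ F₂' →
      FlatLK Dk h P q (p1 :: p2 :: l) (X ^ B₂) r M (Real.log K)
        (Real.log (Y₁' * (nm s : ℝ) ^ 2)) F →
      TailK Dk h P q (p1 :: p2 :: l) (X ^ B₂) r M (Real.log K)
        (Real.log (Y₁' * (nm s : ℝ) ^ 2)) (Real.log T₀) (Real.log E0) F₂ →
      FlatLK Dk h P q (rl p1 p2 l d) (X ^ B₂) r M (Real.log K)
        (Real.log (Y₁' * (nm s : ℝ) ^ 2)) F' →
      TailK Dk h P q (rl p1 p2 l d) (X ^ B₂) r M (Real.log K)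
        (Real.log (Y₁' * (nm s : ℝ) ^ 2)) (Real.log T₀) (Real.log E0) F₂' →
      ∀ om : Eis × Eis → ℂ, (∀ x, ‖1 - om x‖ ≤ 1) → (∀ x, ‖om x‖ ≤ 1) →
      (∀ x : Eis × Eis, (nm (x.2 * x.1 ^ 2) : ℝ) ≤ T₀ → om x = 1) →
      (∀ x ∈ JW D' Y₀ Y₁', x ∉ JW D Y₀ Y₁ → om x = 0) → ∀ (Q : Eis → Prop) (et e₃ : ℝ),
      ‖CrP w K (xT P h s q p1 p2 l d) (fun k => if Q k then 0 else
          StE E0 (JW D Y₀ Y₁) om (xT P h s q p1 p2 l d) k)‖ ≤ et →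
      GrP w K (fun k => if Q k then
          StE E0 (JW D Y₀ Y₁) om (xT P h s q p1 p2 l d) k else 0) ≤
        c3 w K * (X3 Y E0 (JW D Y₀ Y₁) om (xT P h s q p1 p2 l d)).re + e₃ →
      ∑' k : Eis, (if IsPrim k ∧ Q k then w (nm k / K) *
        ‖CS (xT P h s q p1 p2 l d) k -
          (pC : ℂ) * StE E0 (JW D Y₀ Y₁) om (xT P h s q p1 p2 l d) k‖ ^ 2 else 0) ≤
      C * X ^ ε * (K * Real.exp (LN (p1 :: p2 :: l))) * (1 + F + F₂ + F' + F₂' +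
          FbN K (LN (p1 :: p2 :: l)) s0 (Y₁' * (nm s : ℝ) ^ 2) (Ht (natl (p1 :: p2 :: l)))) +
        2 * pC * (∑ i ∈ Finset.range Nw, RP (xT P h s q p1 p2 l d) (sc K Mw i) (GF (Fw i)) K
          (Real.exp (LN (p1 :: p2 :: l))) (S D) I E0 Y₁ + et) +
        pC ^ 2 * e₃ := by
  obtain ⟨C, r, hC, hr, H⟩ := I1LPEx hw hw0 hWD hpu N hR₁ hR (B₃ := B₃) hε he₁ hM hB₂
    (one_le_pow₀ (nm_ne hs0) (n := 2)) (Nat.cast_nonneg (ds s).card)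
  refine ⟨C, r, hC, hr, ?_⟩
  intro X hX P hP hs hψ hPn hnp q hq hqX p1 p2 l hu1 hu2 hk1 hk2 hd1 hd2 hlen hz hLX d s0 hd hd'
    h1 h2 h3 h4 K Y D Y₀ Y₁ D' Y₁' T₀ E0 F F₂ F' F₂' I hK hYl hYu hD hY₁ hDD hYY hYD hYX hKX hY₀
    hE0 hI hT₀ hF hF₂ hF' hF₂' hcl htl hcl' htl' om hom1 homb hom homJ Q et e₃ ht he
  exact H X hX P hP hψ hPn hnp q hq hqX p1 p2 l hu1 hu2 hk1 hk2 hd1 hd2 hlen hz hLX d s0 hd hd'
    h1 h2 h3 h4 K Y D Y₀ Y₁ D' Y₁' T₀ E0 F F₂ F' F₂' I hK hYl hYu hD hY₁ hDD hYY hYD hYX hKX hY₀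
    hE0 hI hT₀ hF hF₂ hF' hF₂' hcl htl hcl' htl' _ (dom_xT hP h hs q p1 p2 l d) om hom1 homb hom
    homJ Q et e₃ ht he

end Crest.Agent.R017.I1K764
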