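import Crest.Agent.R017.E2q_440
import Crest.Agent.R017.E1x_551
import Crest.Agent.R017.LB_48
import Crest.Agent.R017.DgB_829
import Crest.Agent.R017.Cst_401

/-!
# Row 17, block C70, the assembly (I1) (helper146): the algebra of the three main forms

* `BB Y U V` : the density form `Σ μ(t) μ(t') / N(lcm(t,t')) U_t conj V_{t'}`
* `XJ_eq` : `XJ J α = Σ_x px x BB (TE x) (TE x)`, `px x = N(x₂)^(-1/3) PE(x₁)`
* `cross_main` : the main term of 440's `E2fin` through `BB (TE x) (trunc E0 (TE x))`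
* `BB_le` : `|BB U U| ≤ HS Y Σ_t τ(t)/N(t) |U_t|²`
* `comb` : `XJ - 2 Re X₂ + X₃ = Σ_x px x BB (U x) (U x)`, `U x = TE x - om x · trunc E0 (TE x)`
-/

set_option autoImplicit false

noncomputable section

open Finset
open scoped ComplexConjugate Classical

namespace Crest.Agent.R017.I1146

open Crest.Agent.R012 Crest.Agent.R012.Eis Crest.Agent.R012.MC Crest.Agent.R012.Gauss880
open Crest.Agent.R012.LS2 (S mem_S)
open Crest.Agent.R012.Mob705 (mu pdiv mem_pdiv abs_mu_le_one PE)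
open Crest.Agent.R012.Div277 (tau)
open Crest.Agent.R017.CM106 (CS FS)
open Crest.Agent.R017.PX764 (th Gh n6)
open Crest.Agent.R017.C70
open Crest.Agent.R017.E1551 (nmpos Adm SqP Dg cP one_mem_S)
open Crest.Agent.R017.DgA829 (lc lc_comm lc_prim inner_lcm)
open Crest.Agent.R017.DgB829 (TT HS HS_nonneg full_sum lcm_bilinear sum_dvd_pdiv)
open Crest.Agent.R017.E2440 (TE StE UE MX)
open Crest.Agent.R017.X6C180 (n13 cM)

/-- the summand of the inner sum -/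
def aa (α : Eis → ℂ) (x : Eis × Eis) (m : Eis) : ℂ :=
  if IsCoprime x.2 (x.1 * m) then α (x.1 * m) * ((n6 m : ℂ) * Gh x.2 m) else 0

/-- the density form -/
def BB (Y : ℝ) (U V : Eis → ℂ) : ℂ :=
  ∑ t ∈ S Y, ∑ t' ∈ S Y, ((mu t : ℂ) * (mu t' : ℂ) * (U t * conj (V t'))) *
    ((nm (lc t t') : ℝ) : ℂ)⁻¹

/-- the weight of a class -/
def px (x : Eis × Eis) : ℝ := n13 x.2 * PE x.1

/-- truncation -/
def trunc (E0 : ℝ) (U : Eis → ℂ) (t : Eis) : ℂ := if t ∈ S E0 then U t else 0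

variable {α : Eis → ℂ} {Y : ℝ}

lemma aa_supp (hY : 0 ≤ Y) (hα : ∀ n, α n ≠ 0 → n ∈ S Y) {x : Eis × Eis} (hx : IsPrim x.1)
    {m : Eis} (hm : aa α x m ≠ 0) : m ∈ S Y ∧ IsCoprime x.1 m ∧ IsCoprime x.2 (x.1 * m) := by
  unfold aa at hm
  split_ifs at hm with hc
  · have h1 : α (x.1 * m) ≠ 0 := left_ne_zero_of_mul hm
    obtain ⟨h2, h3, h4⟩ := (mem_S hY).1 (hα _ h1)
    have hmp : IsPrim m := h3.of_mul_left hx
    refine ⟨(mem_S hY).2 ⟨?_, hmp, h4.of_mul_right⟩, ?_, hc⟩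
    · have h5 : nm m ≤ nm (x.1 * m) := by
        rw [nm_mul]
        exact Nat.le_mul_of_pos_left _ (nm_pos.2 hx.ne_zero)
      have h6 : (nm m : ℝ) ≤ nm (x.1 * m) := by exact_mod_cast h5
      linarith
    · exact (squarefree_mul_iff.mp h4).1.isCoprime
  · exact absurd rfl hm

lemma TE_eq (hY : 0 ≤ Y) (hα : ∀ n, α n ≠ 0 → n ∈ S Y) {x : Eis × Eis} (hx : IsPrim x.1)
    (e : Eis) : TE α x e = TT Y (aa α x) e := by
  unfold TE TT
  rw [tsum_eq_sum (s := S Y)]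
  · refine Finset.sum_congr rfl fun m _ => ?_
    unfold aa
    by_cases h1 : e ∣ m
    · by_cases h2 : IsCoprime x.2 (x.1 * m)
      · rw [if_pos ⟨h1, h2⟩, if_pos h1, if_pos h2]
      · rw [if_neg (fun h => h2 h.2), if_pos h1, if_neg h2]
    · rw [if_neg (fun h => h1 h.1), if_neg h1]
  · intro m hm
    by_contra h
    split_ifs at h with hc
    · refine hm (aa_supp hY hα hx (m := m) ?_).1
      unfold aa
      rw [if_pos hc.2]
      exact h
    · exact h rfl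

lemma TE_zero (hY : 0 ≤ Y) (hα : ∀ n, α n ≠ 0 → n ∈ S Y) {x : Eis × Eis} (hx : IsPrim x.1)
    {e : Eis} (he : IsPrim e) (he' : e ∉ S Y) : TE α x e = 0 := by
  rw [TE_eq hY hα hx]
  unfold TT
  refine Finset.sum_eq_zero fun m hm => ?_
  rw [if_neg]
  intro h
  exact he' (Dual2813.S_of_dvd hY hm he h)

lemma TE_nc {x : Eis × Eis} (hx : ¬ IsCoprime x.2 x.1) (e : Eis) : TE α x e = 0 := by
  unfold TE
  rw [tsum_congr (fun m => if_neg (fun h => hx h.2.of_mul_right_left)), tsum_zero]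

/-! ### the full form -/

theorem XJ_eq (hY : 0 ≤ Y) (hα : ∀ n, α n ≠ 0 → n ∈ S Y) {J : Finset (Eis × Eis)} (hJ : OKJ J) :
    XJ J α = ∑ x ∈ J, (px x : ℂ) * BB Y (TE α x) (TE α x) := by
  unfold XJ
  refine Finset.sum_congr rfl fun x hx => ?_
  have hx1 := hJ.prim x hx
  have h1 : BB Y (TE α x) (TE α x) =
      ∑ m₁ ∈ S Y, ∑ m₂ ∈ S Y, ((PE (m₁ * m₂) : ℝ) : ℂ) * (aa α x m₁ * conj (aa α x m₂)) := by
    rw [← full_sum hY]
    unfold BB
    refine Finset.sum_congr rfl fun t _ => Finset.sum_congr rfl fun t' _ => ?_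
    rw [TE_eq hY hα hx1, TE_eq hY hα hx1]
  have h2 : (∑' m₁ : Eis, ∑' m₂ : Eis, if IsCoprime x.2 (x.1 * m₁ * m₂) then
      ((PE (x.1 * m₁ * m₂) : ℝ) : ℂ) * (α (x.1 * m₁) * ((n6 m₁ : ℂ) * Gh x.2 m₁)) *
        conj (α (x.1 * m₂) * ((n6 m₂ : ℂ) * Gh x.2 m₂)) else 0) =
      ∑ m₁ ∈ S Y, ∑ m₂ ∈ S Y, ((PE x.1 * PE (m₁ * m₂) : ℝ) : ℂ) *
        (aa α x m₁ * conj (aa α x m₂)) := by
    have key : ∀ m₁ m₂ : Eis, (if IsCoprime x.2 (x.1 * m₁ * m₂) then
      ((PE (x.1 * m₁ * m₂) : ℝ) : ℂ) * (α (x.1 * m₁) * ((n6 m₁ : ℂ) * Gh x.2 m₁)) *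
        conj (α (x.1 * m₂) * ((n6 m₂ : ℂ) * Gh x.2 m₂)) else 0) =
        ((PE (x.1 * m₁ * m₂) : ℝ) : ℂ) * (aa α x m₁ * conj (aa α x m₂)) := by
      intro m₁ m₂
      unfold aa
      by_cases h : IsCoprime x.2 (x.1 * m₁ * m₂)
      · have h3 : IsCoprime x.2 (x.1 * m₁) := h.of_mul_right_left
        have h4 : IsCoprime x.2 (x.1 * m₂) :=
          IsCoprime.mul_right h3.of_mul_right_left h.of_mul_right_right
        rw [if_pos h, if_pos h3, if_pos h4]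
        ring
      · rw [if_neg h]
        by_cases h3 : IsCoprime x.2 (x.1 * m₁)
        · have h4 : ¬ IsCoprime x.2 (x.1 * m₂) := fun h4 => h (h3.mul_right h4.of_mul_right_right)
          rw [if_neg h4]; simp
        · rw [if_neg h3]; simp
    simp_rw [key]
    have hz : ∀ m, m ∉ S Y → aa α x m = 0 := by
      intro m hm
      by_contra h
      exact hm (aa_supp hY hα hx1 h).1
    rw [tsum_eq_sum (s := S Y)]
    · refine Finset.sum_congr rfl fun m₁ _ => ?_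
      rw [tsum_eq_sum (s := S Y)]
      · refine Finset.sum_congr rfl fun m₂ _ => ?_
        by_cases h5 : aa α x m₁ = 0
        · rw [h5]; simp
        by_cases h6 : aa α x m₂ = 0
        · rw [h6]; simp
        obtain ⟨p1, p2, -⟩ := aa_supp hY hα hx1 h5
        obtain ⟨q1, q2, -⟩ := aa_supp hY hα hx1 h6
        congr 2
        rw [mul_assoc, FYm571.PE_mul hx1.ne_zero
          (mul_ne_zero ((mem_S hY).1 p1).2.1.ne_zero ((mem_S hY).1 q1).2.1.ne_zero)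
          (p2.mul_right q2)]
      · intro m₂ h7
        rw [hz _ h7]; simp
    · intro m₁ h7
      refine (tsum_congr fun m₂ => ?_).trans tsum_zero
      rw [hz _ h7]; simp
  rw [h2, h1]
  have h8 : (((nm x.2 : ℝ) ^ (-(1 : ℝ) / 3) : ℝ) : ℂ) = ((n13 x.2 : ℝ) : ℂ) := rfl
  rw [h8]
  unfold px
  push_cast
  simp_rw [Finset.mul_sum]
  refine Finset.sum_congr rfl fun m₁ _ => Finset.sum_congr rfl fun m₂ _ => ?_
  ring

/-! ### the cross form -/

lemma UE_eq (hY : 0 ≤ Y) (hα : ∀ n, α n ≠ 0 → n ∈ S Y) {x : Eis × Eis} (hx : IsPrim x.1)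
    (hxc : IsCoprime x.2 x.1) {e : Eis} (he : IsPrim e) (hes : Squarefree e) :
    UE α x e * (((nm e : ℝ) : ℂ))⁻¹ =
      ∑ t ∈ S Y, ((mu t : ℂ) * TE α x t) * ((nm (lc t e) : ℝ) : ℂ)⁻¹ := by
  have h1 : UE α x e = ∑ m ∈ S Y, if IsCoprime e m then ((PE m : ℝ) : ℂ) * aa α x m else 0 := by
    unfold UE
    have key : ∀ m : Eis, (if IsCoprime m e then
        ((PE m : ℝ) : ℂ) * (α (x.1 * m) * ((n6 m : ℂ) * Gh x.2 m)) else 0) =
        if IsCoprime e m then ((PE m : ℝ) : ℂ) * aa α x m else 0 := by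
      intro m
      by_cases h : IsCoprime e m
      · rw [if_pos h, if_pos h.symm]
        unfold aa
        by_cases h2 : IsCoprime x.2 (x.1 * m)
        · rw [if_pos h2]
        · rw [if_neg h2]
          have h3 : ¬ IsCoprime x.2 m := fun h3 => h2 (hxc.mul_right h3)
          by_cases hm : α (x.1 * m) = 0
          · rw [hm]; simp
          · have hmp : IsPrim m := ((mem_S hY).1 (hα _ hm)).2.1.of_mul_left hx
            have h4 : Gh x.2 m = 0 := by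
              unfold Gh
              rw [Tau671.sy_eq_zero hmp h3]
              simp
            rw [h4]; simp
      · rw [if_neg h, if_neg (fun h' => h h'.symm)]
    simp_rw [key]
    refine tsum_eq_sum fun m hm => ?_
    have : aa α x m = 0 := by
      by_contra h
      exact hm (aa_supp hY hα hx h).1
    rw [this]; simp
  rw [h1]
  have h2 : ∀ t ∈ S Y, ((mu t : ℂ) * TE α x t) * ((nm (lc t e) : ℝ) : ℂ)⁻¹ =
      ∑ m ∈ S Y, (if t ∣ m then (((mu t : ℝ) / nm (lc e t) : ℝ) : ℂ) * aa α x m else 0) := by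
    intro t ht
    rw [TE_eq hY hα hx]
    unfold TT
    rw [Finset.mul_sum, Finset.sum_mul]
    refine Finset.sum_congr rfl fun m _ => ?_
    rw [lc_comm ((mem_S hY).1 ht).2.1 he]
    split_ifs
    · push_cast; ring
    · simp
  rw [Finset.sum_congr rfl h2, Finset.sum_comm, Finset.sum_mul]
  refine Finset.sum_congr rfl fun m hm => ?_
  have hm' := (mem_S hY).1 hm
  rw [sum_dvd_pdiv hY hm, ← Finset.sum_mul]
  have h3 := inner_lcm he hm'.2.1 hes hm'.2.2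
  have h4 : ∑ t ∈ pdiv m, (((mu t : ℝ) / nm (lc e t) : ℝ) : ℂ) =
      (((if IsCoprime e m then PE m / nm e else 0) : ℝ) : ℂ) := by
    rw [← h3]; push_cast; rfl
  rw [h4]
  split_ifs
  · push_cast; ring
  · simp

/-- the cross main form -/
def X2 (Y E0 : ℝ) (J : Finset (Eis × Eis)) (om : Eis × Eis → ℂ) (α : Eis → ℂ) : ℂ :=
  ∑ x ∈ J, conj (om x) * (px x : ℂ) * BB Y (TE α x) (trunc E0 (TE α x))

/-- **the main term of `E2fin`** -/
theorem cross_main (hY : 0 ≤ Y) (hα : ∀ n, α n ≠ 0 → n ∈ S Y) {J : Finset (Eis × Eis)}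
    (hJ : OKJ J) {E0 : ℝ} (hE0 : 0 ≤ E0) (om : Eis × Eis → ℂ) (F : ℝ → ℂ) (K : ℝ) :
    ∑ x ∈ J, ∑ e ∈ S E0, conj (om x) * ((mu e : ℂ) * conj (TE α x e) * MX α x e F K) =
      (((cM * K ^ (2 / 3 : ℝ) : ℝ) : ℂ) * mellin F ((2 / 3 : ℝ) : ℂ)) * X2 Y E0 J om α := by
  unfold X2
  rw [Finset.mul_sum]
  refine Finset.sum_congr rfl fun x hx => ?_
  have hx1 := hJ.prim x hx
  by_cases hxc : IsCoprime x.2 x.1
  swap
  · have h0 : ∀ e, TE α x e = 0 := TE_nc hxc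
    have : BB Y (TE α x) (trunc E0 (TE α x)) = 0 := by
      unfold BB
      refine Finset.sum_eq_zero fun t _ => Finset.sum_eq_zero fun t' _ => ?_
      rw [h0]; simp
    rw [this, mul_zero, mul_zero]
    refine Finset.sum_eq_zero fun e _ => ?_
    rw [h0]; simp
  have h1 : BB Y (TE α x) (trunc E0 (TE α x)) =
      ∑ e ∈ S E0, (mu e : ℂ) * conj (TE α x e) * (UE α x e * (((nm e : ℝ) : ℂ))⁻¹) := by
    unfold BB
    rw [Finset.sum_comm]
    have h2 : ∀ e ∈ S Y, ∑ t ∈ S Y, ((mu t : ℂ) * (mu e : ℂ) *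
        (TE α x t * conj (trunc E0 (TE α x) e))) * ((nm (lc t e) : ℝ) : ℂ)⁻¹ =
        if e ∈ S E0 then (mu e : ℂ) * conj (TE α x e) * (UE α x e * (((nm e : ℝ) : ℂ))⁻¹)
          else 0 := by
      intro e he
      have he' := (mem_S hY).1 he
      unfold trunc
      by_cases h3 : e ∈ S E0
      · simp only [if_pos h3]
        rw [UE_eq hY hα hx1 hxc he'.2.1 he'.2.2, Finset.mul_sum]
        refine Finset.sum_congr rfl fun t _ => ?_
        ring
      · simp only [if_neg h3]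
        simp
    rw [Finset.sum_congr rfl h2, ← Finset.sum_filter]
    have h4 : ((S Y).filter fun e => e ∈ S E0) ⊆ S E0 := fun e he => (Finset.mem_filter.1 he).2
    refine Finset.sum_subset h4 fun e he he' => ?_
    have he0 := (mem_S hE0).1 he
    have h5 : e ∉ S Y := fun h => he' (Finset.mem_filter.2 ⟨h, he⟩)
    rw [TE_zero hY hα hx1 he0.2.1 h5]
    simp
  rw [h1]
  simp_rw [Finset.mul_sum]
  refine Finset.sum_congr rfl fun e _ => ?_
  unfold MX px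
  push_cast
  ring

/-! ### the combination -/

lemma BB_le (hY : 0 ≤ Y) (U : Eis → ℂ) :
    ‖BB Y U U‖ ≤ HS Y * ∑ t ∈ S Y, (tau t : ℝ) / nm t * ‖U t‖ ^ 2 := by
  have h1 := lcm_bilinear hY (fun t => ‖U t‖) (fun t => ‖U t‖) (fun _ => norm_nonneg _)
    (fun _ => norm_nonneg _) (lam := 1) one_pos
  have h2 : ‖BB Y U U‖ ≤ ∑ t ∈ S Y, ∑ t' ∈ S Y, ‖U t‖ * ‖U t'‖ / nm (lc t t') := by
    unfold BB
    refine (norm_sum_le _ _).trans (Finset.sum_le_sum fun t _ =>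
      (norm_sum_le _ _).trans (Finset.sum_le_sum fun t' _ => ?_))
    rw [norm_mul, norm_mul, norm_mul, norm_mul, norm_inv, RCLike.norm_conj, Complex.norm_real,
      Real.norm_of_nonneg (Nat.cast_nonneg _), div_eq_mul_inv]
    have m1 : ‖(mu t : ℂ)‖ ≤ 1 := by
      rw [Complex.norm_intCast]; exact_mod_cast abs_mu_le_one t
    have m2 : ‖(mu t' : ℂ)‖ ≤ 1 := by
      rw [Complex.norm_intCast]; exact_mod_cast abs_mu_le_one t'
    have m3 : ‖(mu t : ℂ)‖ * ‖(mu t' : ℂ)‖ ≤ 1 := by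
      nlinarith [norm_nonneg (mu t : ℂ), norm_nonneg (mu t' : ℂ)]
    have m4 : 0 ≤ ‖U t‖ * ‖U t'‖ := by positivity
    refine mul_le_mul_of_nonneg_right ?_ (by positivity)
    nlinarith
  refine h2.trans (h1.trans (le_of_eq ?_))
  ring

lemma BB_conj (hY : 0 ≤ Y) (U V : Eis → ℂ) : conj (BB Y U V) = BB Y V U := by
  unfold BB
  rw [Finset.sum_comm (s := S Y) (t := S Y) (f := fun t t' => ((mu t : ℂ) * (mu t' : ℂ) *
    (V t * conj (U t'))) * ((nm (lc t t') : ℝ) : ℂ)⁻¹), map_sum]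
  refine Finset.sum_congr rfl fun t ht => ?_
  rw [map_sum]
  refine Finset.sum_congr rfl fun t' ht' => ?_
  rw [lc_comm ((mem_S hY).1 ht').2.1 ((mem_S hY).1 ht).2.1]
  simp only [map_mul, map_inv₀, Complex.conj_ofReal, Complex.conj_conj, map_intCast]
  ring

lemma BB_comb (hY : 0 ≤ Y) (T T0 : Eis → ℂ) (a : ℂ) :
    BB Y (fun t => T t - a * T0 t) (fun t => T t - a * T0 t) =
      BB Y T T - conj a * BB Y T T0 - conj (conj a * BB Y T T0) +
        ((‖a‖ ^ 2 : ℝ) : ℂ) * BB Y T0 T0 := by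
  rw [map_mul, Complex.conj_conj, BB_conj hY]
  have ha : ((‖a‖ ^ 2 : ℝ) : ℂ) = a * conj a := by
    rw [Complex.mul_conj, Complex.normSq_eq_norm_sq]
  rw [ha]
  unfold BB
  simp_rw [Finset.mul_sum]
  rw [← Finset.sum_sub_distrib, ← Finset.sum_sub_distrib, ← Finset.sum_add_distrib]
  refine Finset.sum_congr rfl fun t _ => ?_
  rw [← Finset.sum_sub_distrib, ← Finset.sum_sub_distrib, ← Finset.sum_add_distrib]
  refine Finset.sum_congr rfl fun t' _ => ?_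
  simp only [map_sub, map_mul]
  ring

/-- the Gram main form -/
def X3 (Y E0 : ℝ) (J : Finset (Eis × Eis)) (om : Eis × Eis → ℂ) (α : Eis → ℂ) : ℂ :=
  ∑ x ∈ J, ((‖om x‖ ^ 2 : ℝ) : ℂ) * (px x : ℂ) *
    BB Y (trunc E0 (TE α x)) (trunc E0 (TE α x))

/-- the defect of a class -/
def UU (E0 : ℝ) (om : Eis × Eis → ℂ) (α : Eis → ℂ) (x : Eis × Eis) (t : Eis) : ℂ :=
  TE α x t - om x * trunc E0 (TE α x) t

/-- **the combination of the three main forms** -/
theorem comb (hY : 0 ≤ Y) (hα : ∀ n, α n ≠ 0 → n ∈ S Y) {J : Finset (Eis × Eis)} (hJ : OKJ J)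
    (E0 : ℝ) (om : Eis × Eis → ℂ) :
    XJ J α - X2 Y E0 J om α - conj (X2 Y E0 J om α) + X3 Y E0 J om α =
      ∑ x ∈ J, (px x : ℂ) * BB Y (UU E0 om α x) (UU E0 om α x) := by
  rw [XJ_eq hY hα hJ]
  unfold X2 X3
  rw [map_sum, ← Finset.sum_sub_distrib, ← Finset.sum_sub_distrib, ← Finset.sum_add_distrib]
  refine Finset.sum_congr rfl fun x _ => ?_
  have h := BB_comb hY (TE α x) (trunc E0 (TE α x)) (om x)
  have e : UU E0 om α x = fun t => TE α x t - om x * trunc E0 (TE α x) t := rfl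
  rw [e, h]
  simp only [map_mul, Complex.conj_ofReal, Complex.conj_conj]
  ring

lemma px_nonneg (x : Eis × Eis) : 0 ≤ px x := by
  unfold px
  exact mul_nonneg (X6C180.n13_nonneg _) (Mob705.PE_pos _).le

/-- the defect of the main forms -/
def Df (Y E0 : ℝ) (J : Finset (Eis × Eis)) (om : Eis × Eis → ℂ) (α : Eis → ℂ) : ℝ :=
  ∑ x ∈ J, n13 x.2 * (‖1 - om x‖ ^ 2 * ∑ t ∈ S E0, (tau t : ℝ) / nm t * ‖TE α x t‖ ^ 2 +
    ∑ t ∈ (S Y).filter (fun t => t ∉ S E0), (tau t : ℝ) / nm t * ‖TE α x t‖ ^ 2)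

lemma comb_le (hY : 0 ≤ Y) (hα : ∀ n, α n ≠ 0 → n ∈ S Y) {J : Finset (Eis × Eis)} (hJ : OKJ J)
    (E0 : ℝ) (om : Eis × Eis → ℂ) :
    (XJ J α).re - 2 * (X2 Y E0 J om α).re + (X3 Y E0 J om α).re ≤ HS Y * Df Y E0 J om α := by
  have h1 := congrArg Complex.re (comb hY hα hJ E0 om)
  rw [Complex.add_re, Complex.sub_re, Complex.sub_re, Complex.conj_re] at h1
  have h2 : (XJ J α).re - 2 * (X2 Y E0 J om α).re + (X3 Y E0 J om α).re =
      (∑ x ∈ J, (px x : ℂ) * BB Y (UU E0 om α x) (UU E0 om α x)).re := by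
    rw [← h1]; ring
  rw [h2]
  refine (Complex.re_le_norm _).trans ((norm_sum_le _ _).trans ?_)
  unfold Df
  rw [Finset.mul_sum]
  refine Finset.sum_le_sum fun x hx => ?_
  rw [norm_mul, Complex.norm_real, Real.norm_of_nonneg (px_nonneg x)]
  have h3 := BB_le hY (UU E0 om α x)
  have h4 : ∑ t ∈ S Y, (tau t : ℝ) / nm t * ‖UU E0 om α x t‖ ^ 2 ≤
      ‖1 - om x‖ ^ 2 * ∑ t ∈ S E0, (tau t : ℝ) / nm t * ‖TE α x t‖ ^ 2 +
      ∑ t ∈ (S Y).filter (fun t => t ∉ S E0), (tau t : ℝ) / nm t * ‖TE α x t‖ ^ 2 := by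
    rw [← Finset.sum_filter_add_sum_filter_not (S Y) (fun t => t ∈ S E0)]
    refine add_le_add ?_ (Finset.sum_le_sum fun t ht => ?_)
    · rw [Finset.mul_sum]
      have h5 : ∑ t ∈ (S Y).filter (fun t => t ∈ S E0),
          (tau t : ℝ) / nm t * ‖UU E0 om α x t‖ ^ 2 =
          ∑ t ∈ (S Y).filter (fun t => t ∈ S E0),
            ‖1 - om x‖ ^ 2 * ((tau t : ℝ) / nm t * ‖TE α x t‖ ^ 2) := by
        refine Finset.sum_congr rfl fun t ht => ?_
        have h6 := (Finset.mem_filter.1 ht).2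
        unfold UU trunc
        rw [if_pos h6, show TE α x t - om x * TE α x t = (1 - om x) * TE α x t by ring,
          norm_mul, mul_pow]
        ring
      rw [h5]
      exact Finset.sum_le_sum_of_subset_of_nonneg
        (fun t ht => (Finset.mem_filter.1 ht).2) (fun t _ _ => by positivity)
    · have h6 := (Finset.mem_filter.1 ht).2
      unfold UU trunc
      rw [if_neg h6, mul_zero, sub_zero]
  have h7 : 0 ≤ HS Y := HS_nonneg Y
  have h8 : px x ≤ n13 x.2 := by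
    unfold px
    have := Mob705.PE_le_one x.1
    have := X6C180.n13_nonneg x.2
    nlinarith
  have h9 : 0 ≤ ∑ t ∈ S Y, (tau t : ℝ) / nm t * ‖UU E0 om α x t‖ ^ 2 :=
    Finset.sum_nonneg fun t _ => by positivity
  calc px x * ‖BB Y (UU E0 om α x) (UU E0 om α x)‖ ≤
        n13 x.2 * (HS Y * ∑ t ∈ S Y, (tau t : ℝ) / nm t * ‖UU E0 om α x t‖ ^ 2) :=
        mul_le_mul h8 h3 (norm_nonneg _) (X6C180.n13_nonneg _)
    _ ≤ n13 x.2 * (HS Y * (‖1 - om x‖ ^ 2 * ∑ t ∈ S E0, (tau t : ℝ) / nm t * ‖TE α x t‖ ^ 2 +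
      ∑ t ∈ (S Y).filter (fun t => t ∉ S E0), (tau t : ℝ) / nm t * ‖TE α x t‖ ^ 2)) := by
        have := X6C180.n13_nonneg x.2
        gcongr
    _ = _ := by ring

/-! ### the assembly -/

open Crest.Agent.R017.LB48 (CrP GrP SqP_sub CrP_cut summable_wR)

variable {w : ℝ → ℝ} {K : ℝ}

/-- **the abstract assembly**: `P` = `pC`, `c₃` = the Gram constant. -/
theorem core (hw : Wgt w) (hw0 : ∀ x, 0 ≤ w x) (hK : 0 < K) (α u : Eis → ℂ) (Q : Eis → Prop)
    {P c₃ e₁ e₂ e₃ et dg : ℝ} {Z₁ Z₂ Z₃ : ℂ} (hP : 0 ≤ P)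
    (h1 : |SqP w K α - dg - P ^ 2 * c₃ * Z₁.re| ≤ e₁)
    (h2 : ‖CrP w K α u - ((P * c₃ : ℝ) : ℂ) * Z₂‖ ≤ e₂)
    (ht : ‖CrP w K α (fun k => if Q k then 0 else u k)‖ ≤ et)
    (h3 : GrP w K (fun k => if Q k then u k else 0) ≤ c₃ * Z₃.re + e₃) :
    ∑' k : Eis, (if IsPrim k then w (nm k / K) *
        ‖CS α k - (P : ℂ) * (if Q k then u k else 0)‖ ^ 2 else 0) ≤
      dg + e₁ + 2 * P * (e₂ + et) + P ^ 2 * e₃ +
        P ^ 2 * c₃ * (Z₁.re - 2 * Z₂.re + Z₃.re) := by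
  rw [SqP_sub hw hK, Complex.conj_ofReal, Complex.re_ofReal_mul, CrP_cut hw hK, Complex.norm_real,
    Real.norm_of_nonneg hP, Complex.sub_re]
  have h4 := (abs_le.1 h1).2
  have h5 : P * c₃ * Z₂.re - e₂ ≤ (CrP w K α u).re := by
    have h6 := (Complex.abs_re_le_norm _).trans h2
    rw [Complex.sub_re, Complex.re_ofReal_mul] at h6
    linarith [(abs_le.1 h6).1]
  have h7 : (CrP w K α (fun k => if Q k then 0 else u k)).re ≤ et :=
    (Complex.re_le_norm _).trans ht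
  have h8 : P * (P * c₃ * Z₂.re - e₂ - et) ≤ P * ((CrP w K α u).re -
      (CrP w K α (fun k => if Q k then 0 else u k)).re) :=
    mul_le_mul_of_nonneg_left (by linarith) hP
  have h9 : P ^ 2 * GrP w K (fun k => if Q k then u k else 0) ≤ P ^ 2 * (c₃ * Z₃.re + e₃) :=
    mul_le_mul_of_nonneg_left h3 (by positivity)
  nlinarith

/-- the same, for the `k` in `Q` only -/
theorem core_cut (hw : Wgt w) (hw0 : ∀ x, 0 ≤ w x) (hK : 0 < K) (α u : Eis → ℂ) (Q : Eis → Prop)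
    (P : ℝ) :
    ∑' k : Eis, (if IsPrim k ∧ Q k then w (nm k / K) * ‖CS α k - (P : ℂ) * u k‖ ^ 2 else 0) ≤
    ∑' k : Eis, (if IsPrim k then w (nm k / K) *
        ‖CS α k - (P : ℂ) * (if Q k then u k else 0)‖ ^ 2 else 0) := by
  have s1 := summable_wR hw hK (fun k => ‖CS α k - (P : ℂ) * (if Q k then u k else 0)‖ ^ 2)
  have s2 : Summable fun k : Eis =>
      if IsPrim k ∧ Q k then w (nm k / K) * ‖CS α k - (P : ℂ) * u k‖ ^ 2 else 0 := by
    refine summable_of_hasFiniteSupport ((hw.finite_support hK).subset fun k hk h0 => hk ?_)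
    have : w (nm k / K) = 0 := h0
    simp [this]
  refine s2.tsum_le_tsum (fun k => ?_) s1
  by_cases h1 : IsPrim k
  · by_cases h2 : Q k
    · rw [if_pos ⟨h1, h2⟩, if_pos h1, if_pos h2]
    · rw [if_neg (fun h => h2 h.2), if_pos h1]
      have := hw0 (nm k / K)
      positivity
  · rw [if_neg (fun h => h1 h.1), if_neg h1]

/-- **the lower bound for the smooth square** (Bessel), all defects included. -/
theorem core_lb (hw : Wgt w) (hw0 : ∀ x, 0 ≤ w x) (hK : 0 < K) (α u : Eis → ℂ) (Q : Eis → Prop)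
    {P c₃ e₂ e₃ et : ℝ} {Z₁ Z₂ Z₃ : ℂ} (hP : 0 ≤ P)
    (h2 : ‖CrP w K α u - ((P * c₃ : ℝ) : ℂ) * Z₂‖ ≤ e₂)
    (ht : ‖CrP w K α (fun k => if Q k then 0 else u k)‖ ≤ et)
    (h3 : GrP w K (fun k => if Q k then u k else 0) ≤ c₃ * Z₃.re + e₃) :
    P ^ 2 * c₃ * Z₁.re - SqP w K α ≤ 2 * P * (e₂ + et) + P ^ 2 * e₃ +
        P ^ 2 * c₃ * (Z₁.re - 2 * Z₂.re + Z₃.re) := by
  have h := core hw hw0 hK α u Q (P := P) (c₃ := c₃) (e₁ := 0)
    (dg := SqP w K α - P ^ 2 * c₃ * Z₁.re) (Z₁ := Z₁) hP (by simp) h2 ht h3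
  have h0 : 0 ≤ ∑' k : Eis, (if IsPrim k then w (nm k / K) *
        ‖CS α k - (P : ℂ) * (if Q k then u k else 0)‖ ^ 2 else 0) := by
    refine tsum_nonneg fun k => ?_
    split_ifs
    · exact mul_nonneg (hw0 _) (by positivity)
    · exact mul_nonneg (hw0 _) (by positivity)
    · exact le_rfl
  linarith

end Crest.Agent.R017.I1146
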