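import Crest.Agent.R017.I1b_146
import Crest.Agent.R017.E1y_551

/-!
# Row 17, block C70, the assembly (I1) (helper146): smooth top window

* `XT_eq` : `XT α x = px x BB (TE x) (TE x)`
* `comb_w` : with `ρ = 2 Om - Om²`:
  `XJw ρ - 2 Re X₂ + X₃ = Σ_x px x (2 om (1 - om) Re BB(T,U) + om² Re BB(U,U))`, `U = T - trunc T`
* `LBw` : the lower bound for the smooth square in 813's form (`XJw ρ`)
-/

set_option autoImplicit false

noncomputable section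

open Finset
open scoped ComplexConjugate Classical

namespace Crest.Agent.R017.I1146

open Crest.Agent.R012 Crest.Agent.R012.Eis Crest.Agent.R012.MC Crest.Agent.R012.Gauss880
open Crest.Agent.R012.LS2 (S mem_S)
open Crest.Agent.R012.Mob705 (mu pdiv mem_pdiv abs_mu_le_one PE kap0)
open Crest.Agent.R012.Div277 (tau)
open Crest.Agent.R017.CM106 (CS FS)
open Crest.Agent.R017.C70
open Crest.Agent.R017.E1551 (SqP Dg cP XT XJw XJ_eq_XT)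
open Crest.Agent.R017.DgA829 (lc)
open Crest.Agent.R017.DgB829 (HS HS_nonneg lcm_bilinear)
open Crest.Agent.R017.E2440 (TE StE)
open Crest.Agent.R017.LB48 (CrP GrP)
open Crest.Agent.R017.X6C180 (n13)

variable {α : Eis → ℂ} {Y : ℝ}

/-- the second moment of `TE` at a class -/
def M2t (Y : ℝ) (α : Eis → ℂ) (x : Eis × Eis) : ℝ :=
  ∑ t ∈ S Y, (tau t : ℝ) / nm t * ‖TE α x t‖ ^ 2

/-- its tail `e > E0` -/
def M2o (Y E0 : ℝ) (α : Eis → ℂ) (x : Eis × Eis) : ℝ :=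
  ∑ t ∈ (S Y).filter (fun t => t ∉ S E0), (tau t : ℝ) / nm t * ‖TE α x t‖ ^ 2

lemma M2t_nonneg (Y : ℝ) (α : Eis → ℂ) (x : Eis × Eis) : 0 ≤ M2t Y α x :=
  Finset.sum_nonneg fun _ _ => by positivity

lemma M2o_nonneg (Y E0 : ℝ) (α : Eis → ℂ) (x : Eis × Eis) : 0 ≤ M2o Y E0 α x :=
  Finset.sum_nonneg fun _ _ => by positivity

lemma BB_bil (hY : 0 ≤ Y) (U V : Eis → ℂ) {lam : ℝ} (hl : 0 < lam) :
    ‖BB Y U V‖ ≤ HS Y * (lam / 2 * ∑ t ∈ S Y, (tau t : ℝ) / nm t * ‖U t‖ ^ 2 +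
      lam⁻¹ / 2 * ∑ t ∈ S Y, (tau t : ℝ) / nm t * ‖V t‖ ^ 2) := by
  have h1 := lcm_bilinear hY (fun t => ‖U t‖) (fun t => ‖V t‖) (fun _ => norm_nonneg _)
    (fun _ => norm_nonneg _) hl
  have h2 : ‖BB Y U V‖ ≤ ∑ t ∈ S Y, ∑ t' ∈ S Y, ‖U t‖ * ‖V t'‖ / nm (lc t t') := by
    unfold BB
    refine (norm_sum_le _ _).trans (Finset.sum_le_sum fun t _ =>
      (norm_sum_le _ _).trans (Finset.sum_le_sum fun t' _ => ?_))
    rw [norm_mul, norm_mul, norm_mul, norm_mul, norm_inv, RCLike.norm_conj, Complex.norm_real,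
      Real.norm_of_nonneg (Nat.cast_nonneg _), div_eq_mul_inv]
    have m1 : ‖(mu t : ℂ)‖ ≤ 1 := by
      rw [Complex.norm_intCast]; exact_mod_cast abs_mu_le_one t
    have m2 : ‖(mu t' : ℂ)‖ ≤ 1 := by
      rw [Complex.norm_intCast]; exact_mod_cast abs_mu_le_one t'
    have m3 : ‖(mu t : ℂ)‖ * ‖(mu t' : ℂ)‖ ≤ 1 := by
      nlinarith [norm_nonneg (mu t : ℂ), norm_nonneg (mu t' : ℂ)]
    have m4 : 0 ≤ ‖U t‖ * ‖V t'‖ := by positivity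
    refine mul_le_mul_of_nonneg_right ?_ (by positivity)
    nlinarith
  exact h2.trans h1

lemma okJ_single {J : Finset (Eis × Eis)} (hJ : OKJ J) {x : Eis × Eis} (hx : x ∈ J) :
    OKJ ({x} : Finset (Eis × Eis)) where
  prim y hy := by rw [Finset.mem_singleton.1 hy]; exact hJ.prim x hx
  sqf y hy := by rw [Finset.mem_singleton.1 hy]; exact hJ.sqf x hx
  jc y hy := by rw [Finset.mem_singleton.1 hy]; exact hJ.jc x hx

lemma XT_eq (hY : 0 ≤ Y) (hα : ∀ n, α n ≠ 0 → n ∈ S Y) {J : Finset (Eis × Eis)} (hJ : OKJ J)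
    {x : Eis × Eis} (hx : x ∈ J) : XT α x = (px x : ℂ) * BB Y (TE α x) (TE α x) := by
  have h := XJ_eq hY hα (okJ_single hJ hx)
  rw [XJ_eq_XT, Finset.sum_singleton, Finset.sum_singleton] at h
  exact h

/-- the weight `om` of a class from `Om` -/
def omr (Om : ℕ → ℝ) (x : Eis × Eis) : ℂ := ((Om (nm (x.2 * x.1 ^ 2)) : ℝ) : ℂ)

/-- the tail of `TE` -/
def tl (E0 : ℝ) (U : Eis → ℂ) (t : Eis) : ℂ := U t - trunc E0 U t

lemma BB_sub_right (U V W : Eis → ℂ) :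
    BB Y U (fun t => V t - W t) = BB Y U V - BB Y U W := by
  unfold BB
  rw [← Finset.sum_sub_distrib]
  refine Finset.sum_congr rfl fun t _ => ?_
  rw [← Finset.sum_sub_distrib]
  refine Finset.sum_congr rfl fun t' _ => ?_
  rw [map_sub]
  ring

lemma BB_sub_left (U V W : Eis → ℂ) :
    BB Y (fun t => V t - W t) U = BB Y V U - BB Y W U := by
  unfold BB
  rw [← Finset.sum_sub_distrib]
  refine Finset.sum_congr rfl fun t _ => ?_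
  rw [← Finset.sum_sub_distrib]
  refine Finset.sum_congr rfl fun t' _ => ?_
  ring

/-- the identity of one class -/
lemma BB_one (hY : 0 ≤ Y) (T T0 : Eis → ℂ) (a : ℝ) :
    (2 * a - a ^ 2) * (BB Y T T).re - 2 * (a * (BB Y T T0).re) + a ^ 2 * (BB Y T0 T0).re =
      2 * a * (1 - a) * (BB Y T (fun t => T t - T0 t)).re +
        a ^ 2 * (BB Y (fun t => T t - T0 t) (fun t => T t - T0 t)).re := by
  rw [BB_sub_left, BB_sub_right, BB_sub_right]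
  have h : (BB Y T0 T).re = (BB Y T T0).re := by
    rw [← BB_conj hY T T0, Complex.conj_re]
  simp only [Complex.sub_re]
  rw [h]
  ring

/-- the defect of the main forms, smooth window -/
def Dfw (Y E0 : ℝ) (J : Finset (Eis × Eis)) (Om : ℕ → ℝ) (lam : ℝ) (α : Eis → ℂ) : ℝ :=
  ∑ x ∈ J, n13 x.2 * (Om (nm (x.2 * x.1 ^ 2)) * (1 - Om (nm (x.2 * x.1 ^ 2))) *
    (lam * M2t Y α x + lam⁻¹ * M2o Y E0 α x) +
      Om (nm (x.2 * x.1 ^ 2)) ^ 2 * M2o Y E0 α x)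

theorem comb_w (hY : 0 ≤ Y) (hα : ∀ n, α n ≠ 0 → n ∈ S Y) {J : Finset (Eis × Eis)} (hJ : OKJ J)
    (E0 : ℝ) {Om ρ : ℕ → ℝ} (hρ : ∀ n, ρ n = 2 * Om n - Om n ^ 2) :
    (XJw ρ J α).re - 2 * (X2 Y E0 J (omr Om) α).re + (X3 Y E0 J (omr Om) α).re =
      ∑ x ∈ J, px x * (2 * Om (nm (x.2 * x.1 ^ 2)) * (1 - Om (nm (x.2 * x.1 ^ 2))) *
        (BB Y (TE α x) (tl E0 (TE α x))).re +
        Om (nm (x.2 * x.1 ^ 2)) ^ 2 * (BB Y (tl E0 (TE α x)) (tl E0 (TE α x))).re) := by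
  unfold XJw X2 X3
  simp only [Complex.re_sum]
  rw [Finset.mul_sum, ← Finset.sum_sub_distrib, ← Finset.sum_add_distrib]
  refine Finset.sum_congr rfl fun x hx => ?_
  rw [XT_eq hY hα hJ hx]
  have h := BB_one hY (TE α x) (trunc E0 (TE α x)) (Om (nm (x.2 * x.1 ^ 2)))
  have e : tl E0 (TE α x) = fun t => TE α x t - trunc E0 (TE α x) t := rfl
  rw [e, ← h, hρ]
  unfold omr
  rw [Complex.conj_ofReal, Complex.norm_real, Real.norm_eq_abs, sq_abs]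
  simp only [← Complex.ofReal_mul, ← mul_assoc, Complex.re_ofReal_mul]
  ring

lemma real_step {p n hs a l li m mo b₁ b₂ : ℝ} (hp : 0 ≤ p) (hpn : p ≤ n) (hh : 0 ≤ hs)
    (a0 : 0 ≤ a) (a1 : a ≤ 1) (hl : 0 ≤ l) (hli : 0 ≤ li) (hm : 0 ≤ m) (hmo : 0 ≤ mo)
    (h1 : b₁ ≤ hs * (l / 2 * m + li / 2 * mo)) (h2 : b₂ ≤ hs * mo) :
    p * (2 * a * (1 - a) * b₁ + a ^ 2 * b₂) ≤
      hs * (n * (a * (1 - a) * (l * m + li * mo) + a ^ 2 * mo)) := by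
  have a2 : 0 ≤ a * (1 - a) := mul_nonneg a0 (by linarith)
  have h3 : 2 * a * (1 - a) * b₁ ≤ 2 * a * (1 - a) * (hs * (l / 2 * m + li / 2 * mo)) :=
    mul_le_mul_of_nonneg_left h1 (by nlinarith)
  have h4 : a ^ 2 * b₂ ≤ a ^ 2 * (hs * mo) := mul_le_mul_of_nonneg_left h2 (by positivity)
  have h5 : 2 * a * (1 - a) * b₁ + a ^ 2 * b₂ ≤
      hs * (a * (1 - a) * (l * m + li * mo) + a ^ 2 * mo) := by nlinarith
  have h6 : 0 ≤ hs * (a * (1 - a) * (l * m + li * mo) + a ^ 2 * mo) := by positivity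
  calc p * (2 * a * (1 - a) * b₁ + a ^ 2 * b₂) ≤
        p * (hs * (a * (1 - a) * (l * m + li * mo) + a ^ 2 * mo)) :=
        mul_le_mul_of_nonneg_left h5 hp
    _ ≤ n * (hs * (a * (1 - a) * (l * m + li * mo) + a ^ 2 * mo)) :=
        mul_le_mul_of_nonneg_right hpn h6
    _ = _ := by ring

lemma comb_w_le (hY : 0 ≤ Y) (hα : ∀ n, α n ≠ 0 → n ∈ S Y) {J : Finset (Eis × Eis)} (hJ : OKJ J)
    (E0 : ℝ) {Om ρ : ℕ → ℝ} (hρ : ∀ n, ρ n = 2 * Om n - Om n ^ 2) (h0 : ∀ n, 0 ≤ Om n)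
    (h1 : ∀ n, Om n ≤ 1) {lam : ℝ} (hl : 0 < lam) :
    (XJw ρ J α).re - 2 * (X2 Y E0 J (omr Om) α).re + (X3 Y E0 J (omr Om) α).re ≤
      HS Y * Dfw Y E0 J Om lam α := by
  rw [comb_w hY hα hJ E0 hρ]
  unfold Dfw
  rw [Finset.mul_sum]
  refine Finset.sum_le_sum fun x hx => ?_
  have hU : ∑ t ∈ S Y, (tau t : ℝ) / nm t * ‖tl E0 (TE α x) t‖ ^ 2 = M2o Y E0 α x := by
    unfold M2o
    rw [Finset.sum_filter]
    refine Finset.sum_congr rfl fun t _ => ?_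
    unfold tl trunc
    by_cases h : t ∈ S E0
    · rw [if_pos h, if_neg (fun h' => h' h), sub_self, norm_zero]; ring
    · rw [if_neg h, if_pos h, sub_zero]
  have b1 := BB_bil hY (TE α x) (tl E0 (TE α x)) hl
  have b2 := BB_le hY (tl E0 (TE α x))
  rw [hU] at b1 b2
  have h8 : px x ≤ n13 x.2 := by
    unfold px
    have := Mob705.PE_le_one x.1
    have := X6C180.n13_nonneg x.2
    nlinarith
  exact real_step (px_nonneg x) h8 (HS_nonneg Y) (h0 _) (h1 _) hl.le (inv_pos.2 hl).le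
    (M2t_nonneg Y α x) (M2o_nonneg Y E0 α x) ((Complex.re_le_norm _).trans b1)
    ((Complex.re_le_norm _).trans b2)

/-- **the lower bound for the smooth square, smooth top window** (813's (LB) form). -/
theorem LBw {w : ℝ → ℝ} (hw : Wgt w) (hw0 : ∀ x, 0 ≤ w x) {K Y D Y₀ Y₁ E0 : ℝ} {I : ℕ}
    (hK : 0 < K) (hY : 0 ≤ Y) (hD : 0 ≤ D) (hY₁ : 0 < Y₁) (hE0 : 0 ≤ E0) (hI : Y₁ < 2 ^ I)
    {α : Eis → ℂ} (hα : ∀ n, α n ≠ 0 → n ∈ S Y) {Om ρ : ℕ → ℝ}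
    (hρ : ∀ n, ρ n = 2 * Om n - Om n ^ 2) (h0 : ∀ n, 0 ≤ Om n) (h1 : ∀ n, Om n ≤ 1)
    (Q : Eis → Prop) {et e₃ lam : ℝ} (hl : 0 < lam)
    (ht : ‖CrP w K α (fun k => if Q k then 0 else StE E0 (JW D Y₀ Y₁) (omr Om) α k)‖ ≤ et)
    (h3 : GrP w K (fun k => if Q k then StE E0 (JW D Y₀ Y₁) (omr Om) α k else 0) ≤
        c3 w K * (X3 Y E0 (JW D Y₀ Y₁) (omr Om) α).re + e₃) :
    2 * cP w * K ^ (2 / 3 : ℝ) * (XJw ρ (JW D Y₀ Y₁) α).re - SqP w K α ≤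
      2 * pC * (E2s w K E0 D Y₀ Y₁ I (omr Om) α + et) + pC ^ 2 * e₃ +
        pC ^ 2 * c3 w K * (HS Y * Dfw Y E0 (JW D Y₀ Y₁) Om lam α) := by
  have hP := Cst401.pC_pos
  have hc := c3_nonneg hw0 hK
  have a2 := E2u (Y₀ := Y₀) hw hK hE0 hY hD hY₁ hI hα (omr Om)
  have a4 := core_lb hw hw0 hK α (StE E0 (JW D Y₀ Y₁) (omr Om) α) Q
    (Z₁ := XJw ρ (JW D Y₀ Y₁) α) (c₃ := c3 w K) hP.le a2 ht h3
  have a6 := comb_w_le hY hα (okJ_JW D Y₀ Y₁) E0 hρ h0 h1 hl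
  have a7 : pC ^ 2 * c3 w K * ((XJw ρ (JW D Y₀ Y₁) α).re -
      2 * (X2 Y E0 (JW D Y₀ Y₁) (omr Om) α).re + (X3 Y E0 (JW D Y₀ Y₁) (omr Om) α).re) ≤
      pC ^ 2 * c3 w K * (HS Y * Dfw Y E0 (JW D Y₀ Y₁) Om lam α) :=
    mul_le_mul_of_nonneg_left a6 (by positivity)
  have e1 : 2 * cP w * K ^ (2 / 3 : ℝ) * (XJw ρ (JW D Y₀ Y₁) α).re =
      pC ^ 2 * c3 w K * (XJw ρ (JW D Y₀ Y₁) α).re := by
    rw [Cst401.two_cP hw]
    unfold c3
    ring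
  rw [e1]
  linarith

end Crest.Agent.R017.I1146
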