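import Crest.Agent.R017.I1c_146
import Crest.Agent.R017.E3Mf_829

/-!
# Row 17, block C70, the assembly (I1) (helper146): the Gram main in 829's full form

829's `diag_total` has the main form `kap0 K^(2/3) Iw w * (XJw J om α).re` (weights `‖om x‖²`,
`e` not truncated).  Here: `(I1)`, `(LB)`, `(LBw)` from a Gram bound of this form.
-/

set_option autoImplicit false

noncomputable section

open Finset MeasureTheory
open scoped ComplexConjugate Classical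

namespace Crest.Agent.R017.I1146

open Crest.Agent.R012 Crest.Agent.R012.Eis Crest.Agent.R012.MC Crest.Agent.R012.Gauss880
open Crest.Agent.R012.LS2 (S mem_S)
open Crest.Agent.R012.Mob705 (mu pdiv mem_pdiv abs_mu_le_one PE kap0)
open Crest.Agent.R012.Div277 (tau)
open Crest.Agent.R017.CM106 (CS FS)
open Crest.Agent.R017.C70
open Crest.Agent.R017.E1551 (SqP Dg cP XT XJw XJ_eq_XT Adm)
open Crest.Agent.R017.DgA829 (lc)
open Crest.Agent.R017.DgB829 (HS HS_nonneg lcm_bilinear)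
open Crest.Agent.R017.E2440 (TE StE)
open Crest.Agent.R017.LB48 (CrP GrP)
open Crest.Agent.R017.X6C180 (n13)

variable {α : Eis → ℂ} {Y : ℝ}

lemma Iw_eq (w : ℝ → ℝ) : E3M829.Iw w = mel w (2 / 3) := by
  have h1 := Cst401.int_eq w
  rw [E3M829.Iw_cast] at h1
  exact_mod_cast h1

/-- 829's weighted form through `XT` -/
lemma XJw829_eq (J : Finset (Eis × Eis)) (om : Eis × Eis → ℂ) (α : Eis → ℂ) :
    DgB829.XJw J om α = ∑ x ∈ J, ((‖om x‖ ^ 2 : ℝ) : ℂ) * XT α x := rfl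

/-- the difference of the full and the truncated Gram main -/
def De (Y E0 : ℝ) (J : Finset (Eis × Eis)) (om : Eis × Eis → ℂ) (lam : ℝ) (α : Eis → ℂ) : ℝ :=
  ∑ x ∈ J, n13 x.2 * (‖om x‖ ^ 2 * (lam * M2t Y α x + (lam⁻¹ + 1) * M2o Y E0 α x))

lemma sum_tl (Y E0 : ℝ) (α : Eis → ℂ) (x : Eis × Eis) :
    ∑ t ∈ S Y, (tau t : ℝ) / nm t * ‖tl E0 (TE α x) t‖ ^ 2 = M2o Y E0 α x := by
  unfold M2o
  rw [Finset.sum_filter]
  refine Finset.sum_congr rfl fun t _ => ?_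
  unfold tl trunc
  by_cases h : t ∈ S E0
  · rw [if_pos h, if_neg (fun h' => h' h), sub_self, norm_zero]; ring
  · rw [if_neg h, if_pos h, sub_zero]

lemma BB_full (hY : 0 ≤ Y) (T T0 : Eis → ℂ) :
    (BB Y T T).re - (BB Y T0 T0).re = 2 * (BB Y T (fun t => T t - T0 t)).re -
      (BB Y (fun t => T t - T0 t) (fun t => T t - T0 t)).re := by
  rw [BB_sub_left, BB_sub_right, BB_sub_right]
  have h : (BB Y T0 T).re = (BB Y T T0).re := by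
    rw [← BB_conj hY T T0, Complex.conj_re]
  simp only [Complex.sub_re]
  rw [h]
  ring

theorem X3_full (hY : 0 ≤ Y) (hα : ∀ n, α n ≠ 0 → n ∈ S Y) {J : Finset (Eis × Eis)} (hJ : OKJ J)
    (E0 : ℝ) (om : Eis × Eis → ℂ) {lam : ℝ} (hl : 0 < lam) :
    (DgB829.XJw J om α).re ≤ (X3 Y E0 J om α).re + HS Y * De Y E0 J om lam α := by
  rw [XJw829_eq]
  unfold X3 De
  simp only [Complex.re_sum]
  rw [Finset.mul_sum, ← Finset.sum_add_distrib]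
  refine Finset.sum_le_sum fun x hx => ?_
  rw [XT_eq hY hα hJ hx]
  simp only [← Complex.ofReal_mul, ← mul_assoc, Complex.re_ofReal_mul]
  have h := BB_full hY (TE α x) (trunc E0 (TE α x))
  have e : tl E0 (TE α x) = fun t => TE α x t - trunc E0 (TE α x) t := rfl
  rw [← e] at h
  have b1 := BB_bil hY (TE α x) (tl E0 (TE α x)) hl
  have b2 := BB_le hY (tl E0 (TE α x))
  rw [sum_tl] at b1 b2
  have b1' := (Complex.re_le_norm _).trans b1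
  have b2' := ((neg_le_abs _).trans (Complex.abs_re_le_norm _)).trans b2
  have b3 : (∑ t ∈ S Y, (tau t : ℝ) / nm t * ‖TE α x t‖ ^ 2) = M2t Y α x := rfl
  rw [b3] at b1'
  have h5 : (BB Y (TE α x) (TE α x)).re - (BB Y (trunc E0 (TE α x)) (trunc E0 (TE α x))).re ≤
      HS Y * (lam * M2t Y α x + (lam⁻¹ + 1) * M2o Y E0 α x) := by
    rw [h]
    linarith
  have h8 : px x ≤ n13 x.2 := by
    unfold px
    have := Mob705.PE_le_one x.1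
    have := X6C180.n13_nonneg x.2
    nlinarith
  have h9 : 0 ≤ HS Y * (lam * M2t Y α x + (lam⁻¹ + 1) * M2o Y E0 α x) := by
    have := HS_nonneg Y
    have := M2t_nonneg Y α x
    have := M2o_nonneg Y E0 α x
    positivity
  have h10 : ‖om x‖ ^ 2 * px x * ((BB Y (TE α x) (TE α x)).re -
      (BB Y (trunc E0 (TE α x)) (trunc E0 (TE α x))).re) ≤
      ‖om x‖ ^ 2 * n13 x.2 * (HS Y * (lam * M2t Y α x + (lam⁻¹ + 1) * M2o Y E0 α x)) := by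
    have p0 := px_nonneg x
    calc _ ≤ ‖om x‖ ^ 2 * px x * (HS Y * (lam * M2t Y α x + (lam⁻¹ + 1) * M2o Y E0 α x)) :=
          mul_le_mul_of_nonneg_left h5 (by positivity)
      _ ≤ _ := mul_le_mul_of_nonneg_right
          (mul_le_mul_of_nonneg_left h8 (by positivity)) h9
  linarith

lemma gram_adapt {w : ℝ → ℝ} (hw0 : ∀ x, 0 ≤ w x) {K : ℝ} (hK : 0 < K) (hY : 0 ≤ Y)
    (hα : ∀ n, α n ≠ 0 → n ∈ S Y) {J : Finset (Eis × Eis)} (hJ : OKJ J)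
    (E0 : ℝ) (om : Eis × Eis → ℂ) {lam : ℝ} (hl : 0 < lam) {G e₃ : ℝ}
    (h : G ≤ kap0 * K ^ (2 / 3 : ℝ) * E3M829.Iw w * (DgB829.XJw J om α).re + e₃) :
    G ≤ c3 w K * (X3 Y E0 J om α).re + (e₃ + c3 w K * (HS Y * De Y E0 J om lam α)) := by
  have hc := c3_nonneg hw0 hK
  have h1 := mul_le_mul_of_nonneg_left (X3_full hY hα hJ E0 om hl) hc
  have e : kap0 * K ^ (2 / 3 : ℝ) * E3M829.Iw w = c3 w K := by
    rw [Iw_eq]; unfold c3; ring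
  rw [e] at h
  linarith

/-- **(I1)** with the Gram main of 829. -/
theorem I1f {w : ℝ → ℝ} (hw : Wgt w) (hw0 : ∀ x, 0 ≤ w x) {R : ℝ} (hR : 0 ≤ R) {A B : ℝ}
    (hA : 1 < A) (hB : 1 ≤ B) : ∃ C : ℝ, 0 ≤ C ∧ ∀ (K X Y D Y₀ Y₁ E0 : ℝ) (I : ℕ), 0 < K → 0 < X →
      1 ≤ Y → 0 ≤ D → 0 < Y₁ → 0 ≤ E0 → (Y₁ ≤ D ^ 2 ∨ Y ≤ D) → Y₁ < 2 ^ I →
      ∀ α : Eis → ℂ, Adm Y X R α → ∀ (om : Eis × Eis → ℂ) (Q : Eis → Prop) (et e₃ lam : ℝ),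
      0 < lam →
      ‖CrP w K α (fun k => if Q k then 0 else StE E0 (JW D Y₀ Y₁) om α k)‖ ≤ et →
      GrP w K (fun k => if Q k then StE E0 (JW D Y₀ Y₁) om α k else 0) ≤
        kap0 * K ^ (2 / 3 : ℝ) * E3M829.Iw w * (DgB829.XJw (JW D Y₀ Y₁) om α).re + e₃ →
      ∑' k : Eis, (if IsPrim k ∧ Q k then
        w (nm k / K) * ‖CS α k - (pC : ℂ) * StE E0 (JW D Y₀ Y₁) om α k‖ ^ 2 else 0) ≤
      Dg w K Y α + C * (1 + Real.log Y) * (K / X) * E1e A B K X Y D Y₀ Y₁ α +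
        2 * pC * (E2s w K E0 D Y₀ Y₁ I om α + et) + pC ^ 2 * e₃ +
        pC ^ 2 * c3 w K * (HS Y * (Df Y E0 (JW D Y₀ Y₁) om α +
          De Y E0 (JW D Y₀ Y₁) om lam α)) := by
  obtain ⟨C, hC, h1⟩ := I1 hw hw0 hR hA hB
  refine ⟨C, hC, fun K X Y D Y₀ Y₁ E0 I hK hX hY hD hY₁ hE0 hDY hI α hα om Q et e₃ lam hl ht h3
    => ?_⟩
  have h4 := gram_adapt hw0 hK (by linarith) hα.sup (okJ_JW D Y₀ Y₁) E0 om hl h3
  refine (h1 K X Y D Y₀ Y₁ E0 I hK hX hY hD hY₁ hE0 hDY hI α hα om Q et _ ht h4).trans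
    (le_of_eq ?_)
  ring

/-- **(LB)** with the Gram main of 829. -/
theorem LBf {w : ℝ → ℝ} (hw : Wgt w) (hw0 : ∀ x, 0 ≤ w x) {K Y D Y₀ Y₁ E0 : ℝ} {I : ℕ}
    (hK : 0 < K) (hY : 0 ≤ Y) (hD : 0 ≤ D) (hY₁ : 0 < Y₁) (hE0 : 0 ≤ E0) (hI : Y₁ < 2 ^ I)
    {α : Eis → ℂ} (hα : ∀ n, α n ≠ 0 → n ∈ S Y) (om : Eis × Eis → ℂ) (Q : Eis → Prop)
    {et e₃ lam : ℝ} (hl : 0 < lam)
    (ht : ‖CrP w K α (fun k => if Q k then 0 else StE E0 (JW D Y₀ Y₁) om α k)‖ ≤ et)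
    (h3 : GrP w K (fun k => if Q k then StE E0 (JW D Y₀ Y₁) om α k else 0) ≤
      kap0 * K ^ (2 / 3 : ℝ) * E3M829.Iw w * (DgB829.XJw (JW D Y₀ Y₁) om α).re + e₃) :
    2 * cP w * K ^ (2 / 3 : ℝ) * (XJ (JW D Y₀ Y₁) α).re - SqP w K α ≤
      2 * pC * (E2s w K E0 D Y₀ Y₁ I om α + et) + pC ^ 2 * e₃ +
        pC ^ 2 * c3 w K * (HS Y * (Df Y E0 (JW D Y₀ Y₁) om α +
          De Y E0 (JW D Y₀ Y₁) om lam α)) := by
  have h4 := gram_adapt hw0 hK hY hα (okJ_JW D Y₀ Y₁) E0 om hl h3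
  refine (LB hw hw0 hK hY hD hY₁ hE0 hI hα om Q ht h4).trans (le_of_eq ?_)
  ring

/-- **(LBw)** with the Gram main of 829. -/
theorem LBwf {w : ℝ → ℝ} (hw : Wgt w) (hw0 : ∀ x, 0 ≤ w x) {K Y D Y₀ Y₁ E0 : ℝ} {I : ℕ}
    (hK : 0 < K) (hY : 0 ≤ Y) (hD : 0 ≤ D) (hY₁ : 0 < Y₁) (hE0 : 0 ≤ E0) (hI : Y₁ < 2 ^ I)
    {α : Eis → ℂ} (hα : ∀ n, α n ≠ 0 → n ∈ S Y) {Om ρ : ℕ → ℝ}
    (hρ : ∀ n, ρ n = 2 * Om n - Om n ^ 2) (h0 : ∀ n, 0 ≤ Om n) (h1 : ∀ n, Om n ≤ 1)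
    (Q : Eis → Prop) {et e₃ lam : ℝ} (hl : 0 < lam)
    (ht : ‖CrP w K α (fun k => if Q k then 0 else StE E0 (JW D Y₀ Y₁) (omr Om) α k)‖ ≤ et)
    (h3 : GrP w K (fun k => if Q k then StE E0 (JW D Y₀ Y₁) (omr Om) α k else 0) ≤
      kap0 * K ^ (2 / 3 : ℝ) * E3M829.Iw w * (DgB829.XJw (JW D Y₀ Y₁) (omr Om) α).re + e₃) :
    2 * cP w * K ^ (2 / 3 : ℝ) * (XJw ρ (JW D Y₀ Y₁) α).re - SqP w K α ≤
      2 * pC * (E2s w K E0 D Y₀ Y₁ I (omr Om) α + et) + pC ^ 2 * e₃ +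
        pC ^ 2 * c3 w K * (HS Y * (Dfw Y E0 (JW D Y₀ Y₁) Om lam α +
          De Y E0 (JW D Y₀ Y₁) (omr Om) lam α)) := by
  have h4 := gram_adapt hw0 hK hY hα (okJ_JW D Y₀ Y₁) E0 (omr Om) hl h3
  refine (LBw hw hw0 hK hY hD hY₁ hE0 hI hα hρ h0 h1 Q hl ht h4).trans (le_of_eq ?_)
  ring

end Crest.Agent.R017.I1146
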