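import Crest.Agent.R017.I1h_146

/-!
# Row 17, block C70, the assembly (I1) (helper146): `(I1)` for natural lists

* **`I1L`** : `∑_{k ∈ Q} w |CS α - pC StE|² ≤ C X^ε K e^n (1 + F + F₂) + 2 pC (E2s + et) + pC² e₃`
  for `α = sqc q (alL h ps)`, `n` = total length, from the flat claims (`FlatO`, `FlatL`, number `F`) and the
  claims for the tails (`Tail`, number `F₂`)
-/

set_option autoImplicit false

noncomputable section

open Finset MeasureTheory
open scoped ComplexConjugate Classical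

namespace Crest.Agent.R017.I1146

open Crest.Agent.R012 Crest.Agent.R012.Eis Crest.Agent.R012.MC Crest.Agent.R012.Gauss880
open Crest.Agent.R012.LS2 (S mem_S)
open Crest.Agent.R012.Mob705 (PE)
open Crest.Agent.R012.Weight600 (pw)
open Crest.Agent.R017.CM106 (CS FS TG)
open Crest.Agent.R017.C70
open Crest.Agent.R017.HP842 (Pc pc sqc alL)
open Crest.Agent.R017.B770
open Crest.Agent.R017.FE47 (PU cx)
open Crest.Agent.R017.Prov71
open Crest.Agent.R017.Leg381 (Pf alF SF LF natl alF_natl cstF ChG sub_list)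
open Crest.Agent.R017.RG64 (shT LF_shT VF_tws_sg_le FS_alF JB_list shT_length)
open Crest.Agent.R017.E1551
open Crest.Agent.R017.E2440 (StE)
open Crest.Agent.R017.LB48 (CrP GrP)
open Crest.Agent.R017.Rough381 (VF)
open Crest.Agent.R017.AL813 (al_supp al_mem_S sum_alF_le cx_bdd norm_alF_le norm_sqc_le)

lemma ChN.mono {r r' : ℝ} (h : r ≤ r') {p' p : Pq} (hc : ChN r p' p) : ChN r' p' p :=
  ⟨hc.1, hc.2.1, hc.2.2.1, hc.2.2.2.1, hc.2.2.2.2.trans (by linarith)⟩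

lemma FlatO.mono {h : ℝ → ℝ} {P : DPar} {q : Eis} {ps : List Pq} {r r' M κ T F : ℝ}
    (hr : r ≤ r') (H : FlatO h P q ps r' M κ T F) : FlatO h P q ps r M κ T F :=
  fun l ps' hl hc h1 h2 => H l ps' hl
    (hc.imp fun _ _ => ChN.mono hr) (h1.trans hr) (by linarith)

lemma FlatL.mono {h : ℝ → ℝ} {P : DPar} {q : Eis} {ps : List Pq} {G r r' M κ T F : ℝ}
    (hr : r ≤ r') (H : FlatL h P q ps G r' M κ T F) : FlatL h P q ps G r M κ T F :=
  fun g hg hG b l ps' hb hl hc h1 h2 => H g hg hG b l ps' hb hl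
    (hc.imp fun _ _ => ChN.mono hr) (h1.trans hr) (by linarith)

lemma Tail.mono {h : ℝ → ℝ} {P : DPar} {q : Eis} {ps : List Pq} {G r r' M κ T T₀ E F : ℝ}
    (hr : r ≤ r') (H : Tail h P q ps G r' M κ T T₀ E F) : Tail h P q ps G r M κ T T₀ E F :=
  fun g hg hG b l ps' hb hl hc h1 h2 h3 => H g hg hG b l ps' hb hl
    (hc.imp fun _ _ => ChN.mono hr) (h1.trans hr) (by linarith) (h3.imp id fun h => by linarith)

/-- the diagonal -/
lemma Dg_list (w : ℝ → ℝ) {h : ℝ → ℝ} {c : ℝ} (hpu : PU h c) (N : ℕ)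
    {R₁ : ℝ} (hR₁ : 0 ≤ R₁) (hR : ∀ u, cx h u ≠ 0 → |u| ≤ R₁) {ε : ℝ} (hε : 0 < ε) :
    ∃ C : ℝ, 0 ≤ C ∧ ∀ X : ℝ, 1 ≤ X → ∀ (P : DPar), P.OK → ∀ (q : Eis) (ps : List Pq),
      ps.length ≤ N → 0 ≤ LN ps → LN ps ≤ Real.log X → ∀ K Y : ℝ, 0 ≤ K → 0 ≤ Y →
      Dg w K Y (sqc q (alF 1 1 P h (natl ps))) ≤ C * X ^ ε * (K * Real.exp (LN ps)) := by
  obtain ⟨A, hA1, hA⟩ := cx_bdd hpu
  have hN0 : (0 : ℝ) ≤ N := Nat.cast_nonneg _
  set η : ℝ := ε / (4 * N + 4) with hη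
  have hη0 : 0 < η := by positivity
  obtain ⟨C, hC, hτ⟩ := Div277.tau_le_rpow hη0
  set c₁ : ℝ := Real.exp (N * R₁) with hc₁
  have hc₁1 : 1 ≤ c₁ := Real.one_le_exp (by positivity)
  refine ⟨2 / (9 * Real.sqrt 3) * |Wt w 0| * (16 * c₁ * (A ^ N * (C * c₁ ^ η) ^ (2 * N)) ^ 2),
    by positivity, ?_⟩
  intro X hX P hP q ps hN hn0 hnX K Y hK hY
  set α := sqc q (alF 1 1 P h (natl ps)) with hα
  set n := LN ps with hn
  have hX0 : 0 < X := by linarith
  have hlen : (natl ps).length ≤ N := by rw [length_natl]; exact hN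
  have hYc : Real.exp (LF (natl ps) + (natl ps).length * R₁) ≤ c₁ * Real.exp n := by
    rw [LF_natl, Real.exp_add, mul_comm]
    refine mul_le_mul_of_nonneg_right (Real.exp_le_exp.2 ?_) (Real.exp_pos _).le
    exact mul_le_mul_of_nonneg_right (by exact_mod_cast hlen) hR₁
  have hsup : ∀ m, α m ≠ 0 → m ∈ S (c₁ * Real.exp n) := fun m hm =>
    al_mem_S hR 1 1 P q (natl ps) hYc hm
  have hZ1 : 1 ≤ c₁ * Real.exp n := by
    have : 1 ≤ Real.exp n := Real.one_le_exp hn0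
    nlinarith
  have hZ0 : 0 ≤ c₁ * Real.exp n := by linarith
  have hpt : ∀ m ∈ S (c₁ * Real.exp n), ‖α m‖ ≤ A ^ N * (C * c₁ ^ η) ^ (2 * N) *
      X ^ (ε / 2) := by
    intro m hm
    obtain ⟨h1, h2, -⟩ := (mem_S hZ0).1 hm
    have hm0 := h2.ne_zero
    have hmp : (0 : ℝ) < nm m := by exact_mod_cast nm_pos.2 hm0
    have ht : (1 : ℝ) ≤ Div277.tau m := Leg381.one_le_tau hm0
    refine ((norm_sqc_le q _ m).trans (norm_alF_le hA 1 1 hP (natl ps) m)).trans ?_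
    have h3 : A ^ (natl ps).length ≤ A ^ N := pow_le_pow_right₀ hA1 hlen
    have h4 : (Div277.tau m : ℝ) ^ (2 * (natl ps).length) ≤ (Div277.tau m : ℝ) ^ (2 * N) :=
      pow_le_pow_right₀ ht (by omega)
    have hEX : Real.exp n ≤ X := by
      rw [← Real.exp_log hX0]; exact Real.exp_le_exp.2 hnX
    have h5 : (Div277.tau m : ℝ) ≤ C * c₁ ^ η * X ^ η := by
      refine (hτ m hm0).trans ?_
      rw [mul_assoc, ← Real.mul_rpow (by positivity) hX0.le]
      refine mul_le_mul_of_nonneg_left (Real.rpow_le_rpow hmp.le (h1.trans ?_) hη0.le)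
        (by linarith)
      exact mul_le_mul_of_nonneg_left hEX (by positivity)
    have h6 : (Div277.tau m : ℝ) ^ (2 * N) ≤ (C * c₁ ^ η) ^ (2 * N) * X ^ (ε / 2) := by
      calc (Div277.tau m : ℝ) ^ (2 * N) ≤ (C * c₁ ^ η * X ^ η) ^ (2 * N) :=
            pow_le_pow_left₀ (by linarith) h5 _
        _ = (C * c₁ ^ η) ^ (2 * N) * (X ^ η) ^ (2 * N) := by rw [mul_pow]
        _ ≤ _ := by
            refine mul_le_mul_of_nonneg_left ?_ (by positivity)
            rw [← Real.rpow_natCast, ← Real.rpow_mul hX0.le]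
            refine Real.rpow_le_rpow_of_exponent_le hX ?_
            rw [hη]
            push_cast
            rw [div_mul_eq_mul_div, div_le_div_iff₀ (by positivity) (by norm_num)]
            nlinarith
    calc A ^ (natl ps).length * (Div277.tau m : ℝ) ^ (2 * (natl ps).length) ≤
          A ^ N * ((C * c₁ ^ η) ^ (2 * N) * X ^ (ε / 2)) := by
          gcongr
          exact h4.trans h6
      _ = _ := by ring
  have hsum : ∑ d ∈ S Y, PE d * ‖α d‖ ^ 2 ≤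
      (16 * c₁ * (A ^ N * (C * c₁ ^ η) ^ (2 * N)) ^ 2) * X ^ ε * Real.exp n := by
    have h1 : ∑ d ∈ S Y, PE d * ‖α d‖ ^ 2 ≤ ∑ d ∈ S (c₁ * Real.exp n), ‖α d‖ ^ 2 := by
      have h2 : ∑ d ∈ S Y, PE d * ‖α d‖ ^ 2 ≤ ∑ d ∈ (S Y).filter (fun d => α d ≠ 0),
          ‖α d‖ ^ 2 := by
        rw [Finset.sum_filter]
        refine Finset.sum_le_sum fun d _ => ?_
        split_ifs with h0
        · exact mul_le_of_le_one_left (by positivity) (Mob705.PE_le_one d)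
        · rw [not_not] at h0
          rw [h0, norm_zero]; simp
      refine h2.trans (Finset.sum_le_sum_of_subset_of_nonneg ?_ fun _ _ _ => by positivity)
      intro d hd
      exact hsup d (Finset.mem_filter.1 hd).2
    refine h1.trans ?_
    have h3 : ∑ d ∈ S (c₁ * Real.exp n), ‖α d‖ ^ 2 ≤ ∑ _d ∈ S (c₁ * Real.exp n),
        (A ^ N * (C * c₁ ^ η) ^ (2 * N) * X ^ (ε / 2)) ^ 2 :=
      Finset.sum_le_sum fun d hd => pow_le_pow_left₀ (norm_nonneg _) (hpt d hd) 2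
    refine h3.trans ?_
    rw [Finset.sum_const, nsmul_eq_mul]
    have h4 := GLS106.card_S_le hZ1
    have e1 : (X ^ (ε / 2)) ^ 2 = X ^ ε := by
      rw [← Real.rpow_natCast, ← Real.rpow_mul hX0.le]
      congr 1; push_cast; ring
    calc ((S (c₁ * Real.exp n)).card : ℝ) * (A ^ N * (C * c₁ ^ η) ^ (2 * N) *
          X ^ (ε / 2)) ^ 2 ≤ (16 * (c₁ * Real.exp n)) * (A ^ N * (C * c₁ ^ η) ^ (2 * N) *
          X ^ (ε / 2)) ^ 2 := mul_le_mul_of_nonneg_right h4 (by positivity)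
      _ = (16 * c₁ * (A ^ N * (C * c₁ ^ η) ^ (2 * N)) ^ 2) * (X ^ (ε / 2)) ^ 2 *
          Real.exp n := by ring
      _ = _ := by rw [e1]
  unfold Dg
  have hPE : 0 ≤ ∑ d ∈ S Y, PE d * ‖α d‖ ^ 2 :=
    Finset.sum_nonneg fun d _ => mul_nonneg (Mob705.PE_pos d).le (by positivity)
  calc 2 * K / (9 * Real.sqrt 3) * Wt w 0 * ∑ d ∈ S Y, PE d * ‖α d‖ ^ 2 ≤
        2 * K / (9 * Real.sqrt 3) * |Wt w 0| * ∑ d ∈ S Y, PE d * ‖α d‖ ^ 2 := by
        refine mul_le_mul_of_nonneg_right (mul_le_mul_of_nonneg_left (le_abs_self _)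
          (by positivity)) hPE
    _ ≤ 2 * K / (9 * Real.sqrt 3) * |Wt w 0| *
          ((16 * c₁ * (A ^ N * (C * c₁ ^ η) ^ (2 * N)) ^ 2) * X ^ ε * Real.exp n) :=
        mul_le_mul_of_nonneg_left hsum (by positivity)
    _ = _ := by ring

/-- the window of the sequence -/
lemma Adm_list {h : ℝ → ℝ} {R₁ : ℝ} (hR₁ : 0 ≤ R₁) (hR : ∀ u, cx h u ≠ 0 → |u| ≤ R₁) {N : ℕ}
    (P : DPar) (q : Eis) {ps : List Pq} (hN : ps.length ≤ N) {Y : ℝ}
    (hY : Real.exp (LN ps + N * R₁) ≤ Y) :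
    Adm Y (Real.exp (LN ps)) (2 * (N * R₁)) (sqc q (alF 1 1 P h (natl ps))) where
  sup m hm := by
    refine al_mem_S hR 1 1 P q (natl ps) (le_trans (Real.exp_le_exp.2 ?_) hY) hm
    rw [LF_natl, length_natl]
    have : (ps.length : ℝ) * R₁ ≤ N * R₁ := mul_le_mul_of_nonneg_right (by exact_mod_cast hN) hR₁
    linarith
  win m hm := by
    obtain ⟨-, -, -, h1⟩ := al_supp hR 1 1 P q (natl ps) hm
    rw [LF_natl, length_natl] at h1
    rw [Real.log_exp]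
    have : (ps.length : ℝ) * R₁ ≤ N * R₁ := mul_le_mul_of_nonneg_right (by exact_mod_cast hN) hR₁
    linarith

set_option maxHeartbeats 1000000 in
/-- **(I1) for natural lists.** -/
theorem I1L {w : ℝ → ℝ} (hw : Wgt w) (hw0 : ∀ x, 0 ≤ w x) {h : ℝ → ℝ} {c : ℝ} (hpu : PU h c)
    (N : ℕ) {R₁ : ℝ} (hR₁ : 0 ≤ R₁) (hR : ∀ u, cx h u ≠ 0 → |u| ≤ R₁) {ε e₁ M B₂ : ℝ}
    (hε : 0 < ε) (he₁ : 0 < e₁) (hM : 0 ≤ M) (hB₂ : 0 < B₂) :
    ∃ C r : ℝ, 0 ≤ C ∧ 0 ≤ r ∧ ∀ X : ℝ, 3 ≤ X → ∀ (P : DPar), P.OK → ∀ (q : Eis) (ps : List Pq),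
      ps.length ≤ N → (∀ p ∈ ps, 0 ≤ p.z ∧ p.z ≤ Real.log X) → LN ps ≤ Real.log X →
      ∀ (K Y D Y₀ Y₁ D' Y₁' T₀ E0 F F₂ : ℝ) (I : ℕ), 1 ≤ K →
      Real.exp (LN ps + N * R₁ + 1) ≤ Y → Y ≤ X ^ B₂ → 0 ≤ D → 0 < Y₁ → D ≤ D' → Y₁ ≤ Y₁' →
      Y₁' ≤ D' ^ 2 → Y₁' ≤ X → Real.exp (2 * LN ps) * X ^ e₁ ≤ K * Y₁' → Y₀ < 1 → 0 < E0 →
      Y₁ < 2 ^ I → 0 < T₀ → 0 ≤ F → 0 ≤ F₂ →
      FlatO h P q ps r M (Real.log K) (Real.log Y₁') F →
      FlatL h P q ps (X ^ B₂) r M (Real.log K) (Real.log Y₁') F →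
      Tail h P q ps (X ^ B₂) r M (Real.log K) (Real.log Y₁') (Real.log T₀) (Real.log E0) F₂ →
      ∀ om : Eis × Eis → ℂ, (∀ x, ‖1 - om x‖ ≤ 1) →
      (∀ x : Eis × Eis, (nm (x.2 * x.1 ^ 2) : ℝ) ≤ T₀ → om x = 1) →
      (∀ x ∈ JW D' Y₀ Y₁', x ∉ JW D Y₀ Y₁ → om x = 0) → ∀ (Q : Eis → Prop) (et e₃ : ℝ),
      ‖CrP w K (sqc q (alF 1 1 P h (natl ps)))
        (fun k => if Q k then 0 else
          StE E0 (JW D Y₀ Y₁) om (sqc q (alF 1 1 P h (natl ps))) k)‖ ≤ et →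
      GrP w K (fun k => if Q k then
          StE E0 (JW D Y₀ Y₁) om (sqc q (alF 1 1 P h (natl ps))) k else 0) ≤
        c3 w K * (X3 Y E0 (JW D Y₀ Y₁) om (sqc q (alF 1 1 P h (natl ps)))).re + e₃ →
      ∑' k : Eis, (if IsPrim k ∧ Q k then w (nm k / K) *
        ‖CS (sqc q (alF 1 1 P h (natl ps))) k -
          (pC : ℂ) * StE E0 (JW D Y₀ Y₁) om (sqc q (alF 1 1 P h (natl ps))) k‖ ^ 2 else 0) ≤
      C * X ^ ε * (K * Real.exp (LN ps)) * (1 + F + F₂) +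
        2 * pC * (E2s w K E0 D Y₀ Y₁ I om (sqc q (alF 1 1 P h (natl ps))) + et) +
        pC ^ 2 * e₃ := by
  have hN0 : (0 : ℝ) ≤ N := Nat.cast_nonneg _
  -- the scale
  set a₁ : ℝ := B₂ + 1 with ha₁
  have ha₁0 : 0 < a₁ := by positivity
  set ε' : ℝ := ε / (2 * a₁) with hε'
  have hε'0 : 0 < ε' := by positivity
  have hε2 : 0 < ε / 2 := by positivity
  -- the numbers
  obtain ⟨Ca, ra, hCa, hra, Ha⟩ := num0 hpu N hB₂.le hε2 hM
  obtain ⟨Cb, rb, hCb, hrb, Hb⟩ := numL hpu N hB₂.le hε2 hM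
  obtain ⟨Cc, rc, hCc, hrc, Hc⟩ := numT hpu N hB₂.le hε2 hM
  obtain ⟨Cd, hCd, Hd⟩ := Dg_list w hpu N hR₁ hR hε
  obtain ⟨Cs, hCs, Hs⟩ := sum_alF_le hpu N
  -- the tail of E1
  set A : ℕ := ⌈(N : ℝ) * M⌉₊ + 2 with hA
  have hA2 : 2 ≤ A := by omega
  have hJA : (N : ℝ) * M + 1 < A := by
    have h1 := Nat.le_ceil ((N : ℝ) * M)
    rw [hA]
    push_cast
    linarith
  set a : ℝ := 2 + Real.log Cs with ha
  have hlCs : 0 ≤ Real.log Cs := Real.log_nonneg hCs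
  have ha0 : 0 ≤ a := by positivity
  set e₃' : ℝ := e₁ / B₂ with he₃'
  have he₃'0 : 0 < e₃' := by positivity
  obtain ⟨B, Ce, hB1, hCe, He⟩ := RGw813.Et_small (A : ℝ) he₃'0 ha0 (le_refl (1 : ℝ))
  obtain ⟨C₁, hC₁, H₁⟩ := I1WN hw hw0 (R := 2 * (N * R₁)) (by positivity) (A := A) (B := B)
    (J := (N : ℝ) * M) (ε := ε') hA2 hB1 hJA (by positivity) hε'0
  refine ⟨Cd + C₁ * (Ca + Cb + Cc + Ce), max ra (max rb rc), by positivity,
    le_max_of_le_left hra, ?_⟩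
  intro X hX P hP q ps hN hz hLX K Y D Y₀ Y₁ D' Y₁' T₀ E0 F F₂ I hK hYl hYu hD hY₁ hDD hYY hYD
    hYX hKX hY₀ hE0 hI hT₀ hF hF₂ hco hcl htl om hom1 hom homJ Q et e₃ ht he
  have hX1 : (1 : ℝ) ≤ X := by linarith
  have hX0 : 0 < X := by linarith
  have hK0 : 0 < K := by linarith
  set n := LN ps with hn
  have hn0 : 0 ≤ n := by
    rw [hn]
    unfold LN
    refine List.sum_nonneg fun x hx => ?_
    obtain ⟨p, hp, rfl⟩ := List.mem_map.1 hx
    exact (hz p hp).1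
  set α := sqc q (alF 1 1 P h (natl ps)) with hα
  have hY1 : 1 ≤ Y := le_trans (Real.one_le_exp (by positivity)) hYl
  have hY0 : 0 < Y := by linarith
  have hYe : Real.exp 1 ≤ Y := le_trans (Real.exp_le_exp.2 (by
    have : 0 ≤ (N : ℝ) * R₁ := by positivity
    linarith)) hYl
  have hadm : Adm Y (Real.exp n) (2 * (N * R₁)) α := Adm_list hR₁ hR P q hN
    (le_trans (Real.exp_le_exp.2 (by linarith)) hYl)
  have hY₁'0 : 0 < Y₁' := hY₁.trans_le hYY
  set Pb : ℝ := X ^ a₁ with hPb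
  have hPb1 : 1 ≤ Pb := Real.one_le_rpow hX1 ha₁0.le
  have hYPb : Y ≤ Pb := hYu.trans (Real.rpow_le_rpow_of_exponent_le hX1 (by rw [ha₁]; linarith))
  have hXPb : X ≤ Pb := by
    calc X = X ^ (1 : ℝ) := (Real.rpow_one X).symm
      _ ≤ _ := Real.rpow_le_rpow_of_exponent_le hX1 (by rw [ha₁]; linarith)
  have hPe : Pb ^ ε' = X ^ (ε / 2) := by
    rw [hPb, ← Real.rpow_mul hX0.le]
    congr 1
    rw [hε']
    field_simp
  have hXe : X ^ (ε / 2) * X ^ (ε / 2) = X ^ ε := by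
    rw [← Real.rpow_add hX0]; congr 1; ring
  have hXe1 : 1 ≤ X ^ (ε / 2) := Real.one_le_rpow hX1 hε2.le
  have hEt : (1 + Ct Y) * Et A B K (Real.exp n) Y Y₁' α ≤ Ce := by
    have h1 := He K (Real.exp n) Y Y₁' α hY1 (Real.exp_pos n) ?_ ?_ hY₁'0 ?_ ?_
    · rw [one_mul] at h1
      refine le_trans (mul_le_mul_of_nonneg_right (by linarith)
        (Et_nonneg hK0.le (Real.exp_pos n).le hY₁'0.le _)) h1
    · calc Real.exp n ≤ Y := le_trans (Real.exp_le_exp.2 (by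
            have : 0 ≤ (N : ℝ) * R₁ := by positivity
            linarith)) hYl
        _ = Y ^ (1 : ℝ) := (Real.rpow_one Y).symm
        _ ≤ Y ^ a := Real.rpow_le_rpow_of_exponent_le hY1 (by rw [ha]; linarith)
    · exact (Real.rpow_le_one_of_one_le_of_nonpos hY1 (by linarith)).trans hK
    · refine le_trans ?_ hKX
      have e1 : Real.exp n ^ 2 = Real.exp (2 * n) := by rw [two_mul, Real.exp_add]; ring
      rw [e1]
      refine mul_le_mul_of_nonneg_left ?_ (Real.exp_pos _).le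
      calc Y ^ e₃' ≤ (X ^ B₂) ^ e₃' := Real.rpow_le_rpow hY0.le hYu he₃'0.le
        _ = X ^ e₁ := by
            rw [← Real.rpow_mul hX0.le]
            congr 1
            rw [he₃']
            field_simp
    · refine (Hs 1 1 P hP q (natl ps) (by rw [length_natl]; exact hN) Y hY1).trans ?_
      have h2 : Cs ≤ Y ^ Real.log Cs := by
        have h3 : Real.exp 1 ^ Real.log Cs ≤ Y ^ Real.log Cs :=
          Real.rpow_le_rpow (Real.exp_pos _).le hYe hlCs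
        rw [← Real.exp_mul, one_mul, Real.exp_log (by linarith)] at h3
        exact h3
      calc Cs * Y ^ 2 ≤ Y ^ Real.log Cs * Y ^ 2 :=
            mul_le_mul_of_nonneg_right h2 (by positivity)
        _ = Y ^ a := by
            rw [ha, Real.rpow_add hY0, Real.rpow_two]; ring
  -- the hypotheses of `I1WN`
  have hcla := hco.mono (le_max_left ra (max rb rc))
  have hclb := hcl.mono ((le_max_left rb rc).trans (le_max_right ra (max rb rc)))
  have htlc := htl.mono ((le_max_right rb rc).trans (le_max_right ra (max rb rc)))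
  have hgS : ∀ g ∈ S Y, IsPrim g ∧ (nm g : ℝ) ≤ X ^ B₂ := fun g hg => by
    obtain ⟨h1, h2, -⟩ := (mem_S hY0.le).1 hg
    exact ⟨h2, h1.trans hYu⟩
  have hVb : ∀ g ∈ S Y, ∀ V : ℝ, V ≤ Y₁' / (nm g : ℝ) ^ 2 → 1 ≤ V → V ≤ X ∧
      Real.log V ≤ Real.log Y₁' - 2 * Real.log (nm g) := by
    intro g hg V hV hV1
    have hgp := (hgS g hg).1.ne_zero
    have hg1 : (1 : ℝ) ≤ nm g := by exact_mod_cast nm_pos.2 hgp
    have h1 : Y₁' / (nm g : ℝ) ^ 2 ≤ Y₁' := div_le_self hY₁'0.le (one_le_pow₀ hg1)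
    refine ⟨hV.trans (h1.trans hYX), ?_⟩
    have h2 := Real.log_le_log (by linarith) hV
    rw [Real.log_div hY₁'0.ne' (by positivity), Real.log_pow] at h2
    push_cast at h2
    exact h2
  have key := H₁ Pb K (Real.exp n) Y D Y₀ Y₁ D' Y₁' T₀ E0 0
    (Ca * X ^ (ε / 2) * (F * Real.exp (2 * n))) 0 (Cb * X ^ (ε / 2) * (F * Real.exp (2 * n)))
    (Cc * X ^ (ε / 2) * (F₂ * Real.exp (2 * n))) I hPb1 hK0 (Real.exp_pos n) hY1 hYPb hD hY₁ hDD
    hYY (hYX.trans hXPb) hY₀ hE0.le (Or.inl hYD) hI (by positivity) le_rfl (by positivity)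
    (by positivity) α hadm om hom1 hom homJ Q et e₃
    (fun V hV1 hV2 t => by
      exact Ha X hX P hP q ps hN hz K (Real.log Y₁') F hK0 hF hcla V t hV1
        (hV2.trans hYX) (Real.log_le_log (by linarith) hV2))
    (fun g hg _ hg0 => by
      exfalso
      have : (1 : ℝ) ≤ nm g := by exact_mod_cast nm_pos.2 (hgS g hg).1.ne_zero
      linarith)
    (fun g hg B' V hB1' hB2' hV1 hV2 t => by
      obtain ⟨h1, h2⟩ := hgS g hg
      obtain ⟨h3, h4⟩ := hVb g hg V hV2 hV1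
      exact Hb X hX P hP q ps hN hz K (Real.log Y₁') F hK0 hF hclb g h1 h2 B' V Y t _ hB1'
        (hB2'.trans hYu) hV1 h3 hY0.le h4)
    (fun g hg B' V hB1' hB2' hV1 hV2 hET t => by
      obtain ⟨h1, h2⟩ := hgS g hg
      obtain ⟨h3, h4⟩ := hVb g hg V hV2 hV1
      have hgn : (0 : ℝ) < nm g := by exact_mod_cast nm_pos.2 h1.ne_zero
      refine Hc X hX P hP q ps hN hz K (Real.log Y₁') (Real.log T₀) (Real.log E0) F₂ hK0 hF₂
        htlc g h1 h2 B' V Y t _ hB1' (hB2'.trans hYu) hV1 h3 hY0.le h4 ?_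
      rcases hET with h5 | h5
      · exact Or.inl (Real.log_le_log hE0 h5.le)
      · right
        have h6 := Real.log_le_log hT₀ h5.le
        rw [Real.log_mul (by positivity) (by positivity), Real.log_pow] at h6
        push_cast at h6
        exact h6)
    ht he
  refine key.trans ?_
  have hD := Hd X hX1 P hP q ps hN hn0 hLX K Y hK0.le hY0.le
  rw [hPe]
  have hEn : Real.exp (2 * n) = Real.exp n * Real.exp n := by rw [two_mul, Real.exp_add]
  have hmain : C₁ * X ^ (ε / 2) * (K / Real.exp n) * (Ca * X ^ (ε / 2) * (F * Real.exp (2 * n)) +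
      0 + Cb * X ^ (ε / 2) * (F * Real.exp (2 * n)) + Cc * X ^ (ε / 2) *
      (F₂ * Real.exp (2 * n)) + (1 + Ct Y) * Et A B K (Real.exp n) Y Y₁' α) ≤
      C₁ * (Ca + Cb + Cc + Ce) * X ^ ε * (K * Real.exp n) * (1 + F + F₂) := by
    have hE1 : 1 ≤ Real.exp n := Real.one_le_exp hn0
    have h1 : (1 + Ct Y) * Et A B K (Real.exp n) Y Y₁' α ≤
        Ce * X ^ (ε / 2) * Real.exp (2 * n) := by
      refine hEt.trans ?_
      have h2 : 1 ≤ Real.exp (2 * n) := Real.one_le_exp (by positivity)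
      have h3 : 1 ≤ X ^ (ε / 2) * Real.exp (2 * n) := one_le_mul_of_one_le_of_one_le hXe1 h2
      rw [mul_assoc]
      exact le_mul_of_one_le_right hCe h3
    have h4 : Ca * X ^ (ε / 2) * (F * Real.exp (2 * n)) +
      0 + Cb * X ^ (ε / 2) * (F * Real.exp (2 * n)) + Cc * X ^ (ε / 2) *
      (F₂ * Real.exp (2 * n)) + (1 + Ct Y) * Et A B K (Real.exp n) Y Y₁' α ≤
      (Ca + Cb + Cc + Ce) * (1 + F + F₂) * (X ^ (ε / 2) * Real.exp (2 * n)) := by
      have h5 : 0 ≤ X ^ (ε / 2) * Real.exp (2 * n) := by positivity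
      have h6 : Ca * F + Cb * F + Cc * F₂ + Ce ≤ (Ca + Cb + Cc + Ce) * (1 + F + F₂) := by
        have p1 : 0 ≤ Ca * (1 + F₂) := by positivity
        have p2 : 0 ≤ Cb * (1 + F₂) := by positivity
        have p3 : 0 ≤ Cc * (1 + F) := by positivity
        have p4 : 0 ≤ Ce * (F + F₂) := by positivity
        have e5 : (Ca + Cb + Cc + Ce) * (1 + F + F₂) = Ca * F + Cb * F + Cc * F₂ + Ce +
          (Ca * (1 + F₂) + Cb * (1 + F₂) + Cc * (1 + F) + Ce * (F + F₂)) := by ring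
        rw [e5]
        linarith
      calc _ ≤ Ca * X ^ (ε / 2) * (F * Real.exp (2 * n)) +
            0 + Cb * X ^ (ε / 2) * (F * Real.exp (2 * n)) + Cc * X ^ (ε / 2) *
            (F₂ * Real.exp (2 * n)) + Ce * X ^ (ε / 2) * Real.exp (2 * n) := by linarith
        _ = (Ca * F + Cb * F + Cc * F₂ + Ce) * (X ^ (ε / 2) * Real.exp (2 * n)) := by ring
        _ ≤ _ := mul_le_mul_of_nonneg_right h6 h5
    calc _ ≤ C₁ * X ^ (ε / 2) * (K / Real.exp n) * ((Ca + Cb + Cc + Ce) * (1 + F + F₂) *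
          (X ^ (ε / 2) * Real.exp (2 * n))) := mul_le_mul_of_nonneg_left h4 (by positivity)
      _ = C₁ * (Ca + Cb + Cc + Ce) * (X ^ (ε / 2) * X ^ (ε / 2)) *
          (K / Real.exp n * (Real.exp n * Real.exp n)) * (1 + F + F₂) := by rw [hEn]; ring
      _ = _ := by
          rw [hXe]
          have : K / Real.exp n * (Real.exp n * Real.exp n) = K * Real.exp n := by
            field_simp
          rw [this]
  have hdiag : Cd * X ^ ε * (K * Real.exp n) ≤ Cd * X ^ ε * (K * Real.exp n) *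
      (1 + F + F₂) := le_mul_of_one_le_right (by positivity) (by linarith)
  have e9 : (Cd + C₁ * (Ca + Cb + Cc + Ce)) * X ^ ε * (K * Real.exp n) * (1 + F + F₂) =
      Cd * X ^ ε * (K * Real.exp n) * (1 + F + F₂) +
      C₁ * (Ca + Cb + Cc + Ce) * X ^ ε * (K * Real.exp n) * (1 + F + F₂) := by ring
  rw [e9]
  linarith

end Crest.Agent.R017.I1146
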