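import Crest.Agent.R017.I1g_146

/-!
# Row 17, exceptional class, the assembly (I1) with an abstract cross error (helper960)

146's `I1W`, `I1WN` with the `Q`-restricted cross form bounded by `e₂` (hypothesis): used for the
differences `x = a - ζ b`, where the cross error comes from the compensated weight.
-/

set_option autoImplicit false

noncomputable section

open Finset MeasureTheory
open scoped ComplexConjugate Classical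

namespace Crest.Agent.R017.I1146

open Crest.Agent.R012 Crest.Agent.R012.Eis Crest.Agent.R012.MC Crest.Agent.R012.Gauss880
open Crest.Agent.R012.LS2 (S mem_S)
open Crest.Agent.R012.Mob705 (mu pdiv mem_pdiv PE kap0)
open Crest.Agent.R012.Weight600 (pw)
open Crest.Agent.R017.CM106 (CS FS TG)
open Crest.Agent.R017.C70
open Crest.Agent.R017.E1551
open Crest.Agent.R017.SqLoc829 (JE mem_JE)
open Crest.Agent.R017.DgB829 (HS HS_nonneg)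
open Crest.Agent.R017.E2440 (TE StE)
open Crest.Agent.R017.LB48 (CrP GrP)
open Crest.Agent.R017.X6C180 (n13)
open Crest.Agent.R017.Rough381 (VF)

/-- the assembly with the restricted cross form -/
theorem core_x {w : ℝ → ℝ} {K : ℝ} (hw : Wgt w) (hw0 : ∀ x, 0 ≤ w x) (hK : 0 < K)
    (α u : Eis → ℂ) (Q : Eis → Prop)
    {P c₃ e₁ e₂ e₃ dg : ℝ} {Z₁ Z₂ Z₃ : ℂ} (hP : 0 ≤ P)
    (h1 : |SqP w K α - dg - P ^ 2 * c₃ * Z₁.re| ≤ e₁)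
    (h2 : ‖CrP w K α (fun k => if Q k then u k else 0) - ((P * c₃ : ℝ) : ℂ) * Z₂‖ ≤ e₂)
    (h3 : GrP w K (fun k => if Q k then u k else 0) ≤ c₃ * Z₃.re + e₃) :
    ∑' k : Eis, (if IsPrim k ∧ Q k then w (nm k / K) * ‖CS α k - (P : ℂ) * u k‖ ^ 2 else 0) ≤
      dg + e₁ + 2 * P * e₂ + P ^ 2 * e₃ +
        P ^ 2 * c₃ * (Z₁.re - 2 * Z₂.re + Z₃.re) := by
  have e1 : (fun k => if Q k then 0 else (if Q k then u k else (0 : ℂ))) = fun _ => 0 := by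
    funext k
    split_ifs <;> rfl
  have e2 : (fun k => if Q k then (if Q k then u k else (0 : ℂ)) else 0) =
      fun k => if Q k then u k else 0 := by
    funext k
    split_ifs <;> rfl
  have h0 : ‖CrP w K α (fun k => if Q k then 0 else (if Q k then u k else (0 : ℂ)))‖ ≤ 0 := by
    rw [e1]
    have : CrP w K α (fun _ => 0) = 0 := by
      unfold CrP
      refine (tsum_congr fun k => ?_).trans tsum_zero
      split_ifs <;> simp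
    rw [this, norm_zero]
  have h4 := core hw hw0 hK α (fun k => if Q k then u k else 0) Q (P := P) (et := 0) hP h1 h2 h0
    (by rw [e2]; exact h3)
  have h5 := core_cut hw hw0 hK α u Q P
  rw [add_zero] at h4
  refine h5.trans (le_trans (le_of_eq ?_) h4)
  refine tsum_congr fun k => ?_
  split_ifs <;> rfl

/-- **(I1), two windows, abstract cross error.** -/
theorem I1WX {w : ℝ → ℝ} (hw : Wgt w) (hw0 : ∀ x, 0 ≤ w x) {R : ℝ} (hR : 0 ≤ R) {A : ℕ} {B : ℝ}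
    (hA : 2 ≤ A) (hB : 1 ≤ B) : ∃ C : ℝ, 0 ≤ C ∧ ∀ (K X Y D Y₀ Y₁ D' Y₁' E0 : ℝ), 0 < K →
      0 < X → 1 ≤ Y → 0 ≤ D → 0 < Y₁ → 0 ≤ E0 → D ≤ D' → Y₁ ≤ Y₁' → (Y₁' ≤ D' ^ 2 ∨ Y ≤ D') →
      ∀ α : Eis → ℂ, Adm Y X R α → ∀ (om : Eis × Eis → ℂ),
      (∀ x ∈ JW D' Y₀ Y₁', x ∉ JW D Y₀ Y₁ → om x = 0) → ∀ (Q : Eis → Prop) (e₂ e₃ : ℝ),
      ‖CrP w K α (fun k => if Q k then StE E0 (JW D Y₀ Y₁) om α k else 0) -
        ((pC * c3 w K : ℝ) : ℂ) * X2 Y E0 (JW D Y₀ Y₁) om α‖ ≤ e₂ →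
      GrP w K (fun k => if Q k then StE E0 (JW D Y₀ Y₁) om α k else 0) ≤
        c3 w K * (X3 Y E0 (JW D Y₀ Y₁) om α).re + e₃ →
      ∑' k : Eis, (if IsPrim k ∧ Q k then
        w (nm k / K) * ‖CS α k - (pC : ℂ) * StE E0 (JW D Y₀ Y₁) om α k‖ ^ 2 else 0) ≤
      Dg w K Y α + C * (1 + Real.log Y) * (K / X) * (E1e A B K X Y D' Y₀ Y₁' α +
        TJ (cD E0 om) A K X Y (JW D' Y₀ Y₁') α) +
        2 * pC * e₂ + pC ^ 2 * e₃ := by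
  have hA1 : (1 : ℝ) < A := by exact_mod_cast hA
  obtain ⟨C, hC, h1⟩ := E1u hw hR hA1 hB
  obtain ⟨C₃, hC₃, h3⟩ := HSDf_le hw0 hR hA
  refine ⟨C + C₃, by positivity, fun K X Y D Y₀ Y₁ D' Y₁' E0 hK hX hY hD hY₁ hE0 hDD hYY hDY
    α hα om hom Q e₂ e₃ hc2 he => ?_⟩
  have hY0 : 0 ≤ Y := by linarith
  have hP := Cst401.pC_pos
  have hc := c3_nonneg hw0 hK
  have hY₁' : 0 < Y₁' := hY₁.trans_le hYY
  have hD' : 0 ≤ D' := hD.trans hDD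
  have hsub : JW D Y₀ Y₁ ⊆ JW D' Y₀ Y₁' := JW_mono hDD hYY
  have a1 := h1 K X Y D' Y₀ Y₁' hK hX hY hY₁' (hDY.imp (fun h => ⟨hD', h⟩) id) α hα
  have a3 : |SqP w K α - Dg w K Y α - pC ^ 2 * c3 w K * (XJ (JW D' Y₀ Y₁') α).re| ≤
      C * (1 + Real.log Y) * (K / X) * E1e A B K X Y D' Y₀ Y₁' α := by
    have e1 : SqP w K α - Dg w K Y α - pC ^ 2 * c3 w K * (XJ (JW D' Y₀ Y₁') α).re =
        (((SqP w K α : ℝ) : ℂ) - ((Dg w K Y α : ℝ) : ℂ) -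
        ((2 * cP w * K ^ (2 / 3 : ℝ) : ℝ) : ℂ) * XJ (JW D' Y₀ Y₁') α).re := by
      rw [Complex.sub_re, Complex.sub_re, Complex.ofReal_re, Complex.ofReal_re,
        Complex.re_ofReal_mul, Cst401.two_cP hw]
      unfold c3
      ring
    rw [e1]
    exact (Complex.abs_re_le_norm _).trans a1
  have a4 := core_x hw hw0 hK α (StE E0 (JW D Y₀ Y₁) om α) Q hP.le a3 hc2 he
  have a6 := comb_le hY0 hα.sup (okJ_JW D' Y₀ Y₁') E0 om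
  rw [X2_congr hsub hom, X3_congr hsub hom] at a6
  have a7 : pC ^ 2 * c3 w K * ((XJ (JW D' Y₀ Y₁') α).re - 2 * (X2 Y E0 (JW D Y₀ Y₁) om α).re +
      (X3 Y E0 (JW D Y₀ Y₁) om α).re) ≤
      pC ^ 2 * c3 w K * (HS Y * Df Y E0 (JW D' Y₀ Y₁') om α) :=
    mul_le_mul_of_nonneg_left a6 (by positivity)
  have a8 := h3 K X Y D' Y₀ Y₁' E0 hK hX hY α hα om
  have b1 := TJ_nonneg (cD_nonneg E0 om) (A := A) (Y := Y) hK hX (JW D' Y₀ Y₁') α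
  have b2 := E1e_nonneg (A := A) (B := B) (Y := Y) (D := D') (Y₀ := Y₀) hK hX hY₁' α
  have hlog := Real.log_nonneg hY
  have b3 : 0 ≤ C * (1 + Real.log Y) * (K / X) * TJ (cD E0 om) A K X Y (JW D' Y₀ Y₁') α := by
    positivity
  have b4 : 0 ≤ C₃ * (1 + Real.log Y) * (K / X) * E1e A B K X Y D' Y₀ Y₁' α := by positivity
  have e2 : (C + C₃) * (1 + Real.log Y) * (K / X) * (E1e A B K X Y D' Y₀ Y₁' α +
      TJ (cD E0 om) A K X Y (JW D' Y₀ Y₁') α) =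
      C * (1 + Real.log Y) * (K / X) * E1e A B K X Y D' Y₀ Y₁' α +
      C₃ * (1 + Real.log Y) * (K / X) * TJ (cD E0 om) A K X Y (JW D' Y₀ Y₁') α +
      C * (1 + Real.log Y) * (K / X) * TJ (cD E0 om) A K X Y (JW D' Y₀ Y₁') α +
      C₃ * (1 + Real.log Y) * (K / X) * E1e A B K X Y D' Y₀ Y₁' α := by ring
  rw [e2]
  linarith

/-- **(I1) by numbers, two windows, abstract cross error.** -/
theorem I1WNX {w : ℝ → ℝ} (hw : Wgt w) (hw0 : ∀ x, 0 ≤ w x) {R : ℝ} (hR : 0 ≤ R) {A : ℕ}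
    {B J ε : ℝ} (hA : 2 ≤ A) (hB : 1 ≤ B) (hJA : J + 1 < A) (hJ : 0 ≤ J) (hε : 0 < ε) :
    ∃ C : ℝ, 0 ≤ C ∧
    ∀ (P K X Y D Y₀ Y₁ D' Y₁' T₀ E0 G₀ M0 Ms Ml Mt : ℝ), 1 ≤ P → 0 < K → 0 < X → 1 ≤ Y →
      Y ≤ P → 0 ≤ D → 0 < Y₁ → D ≤ D' → Y₁ ≤ Y₁' → Y₁' ≤ P → Y₀ < 1 → 0 ≤ E0 →
      (Y₁' ≤ D' ^ 2 ∨ Y ≤ D') →
      0 ≤ M0 → 0 ≤ Ms → 0 ≤ Ml → 0 ≤ Mt → ∀ α : Eis → ℂ, Adm Y X R α →
      ∀ (om : Eis × Eis → ℂ), (∀ x, ‖1 - om x‖ ≤ 1) →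
      (∀ x : Eis × Eis, (nm (x.2 * x.1 ^ 2) : ℝ) ≤ T₀ → om x = 1) →
      (∀ x ∈ JW D' Y₀ Y₁', x ∉ JW D Y₀ Y₁ → om x = 0) →
      ∀ (Q : Eis → Prop) (e₂ e₃ : ℝ),
      (∀ V, 1 ≤ V → V ≤ Y₁' → ∀ t, VF V (tws α t) ≤
        M0 * max 1 ((V * K / X ^ 2) ^ (1 / 3 : ℝ)) * (1 + |t|) ^ J) →
      (∀ g ∈ S Y, g ≠ 1 → (nm g : ℝ) ≤ G₀ → ∀ V, 1 ≤ V → V ≤ Y₁' * nm g → ∀ t,
        VF V (tws (sg α g) t) ≤ Ms / (nm g : ℝ) ^ 2 *
          max 1 ((V * K / (X / nm g) ^ 2) ^ (1 / 3 : ℝ)) * (1 + |t|) ^ J) →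
      (∀ h ∈ S Y, ∀ B V, 1 ≤ B → B ≤ Y → 1 ≤ V → V ≤ Y₁' / (nm h : ℝ) ^ 2 → ∀ t,
        JB Y α (fun U => G₀ < nm (h * U)) h B V t ≤
          Ml / (nm h : ℝ) ^ 2 * max B⁻¹ (yv K X h V) * (1 + |t|) ^ J) →
      (∀ δ ∈ S Y, ∀ B V, 1 ≤ B → B ≤ Y → 1 ≤ V → V ≤ Y₁' / (nm δ : ℝ) ^ 2 →
        (E0 < B ∨ T₀ < V * (nm δ : ℝ) ^ 2) → ∀ t,
        B⁻¹ * (nm δ * (yv K X δ V)⁻¹) * JB Y α (fun _ => True) δ B V t ≤
          Mt / nm δ * (1 + |t|) ^ J) →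
      ‖CrP w K α (fun k => if Q k then StE E0 (JW D Y₀ Y₁) om α k else 0) -
        ((pC * c3 w K : ℝ) : ℂ) * X2 Y E0 (JW D Y₀ Y₁) om α‖ ≤ e₂ →
      GrP w K (fun k => if Q k then StE E0 (JW D Y₀ Y₁) om α k else 0) ≤
        c3 w K * (X3 Y E0 (JW D Y₀ Y₁) om α).re + e₃ →
      ∑' k : Eis, (if IsPrim k ∧ Q k then
        w (nm k / K) * ‖CS α k - (pC : ℂ) * StE E0 (JW D Y₀ Y₁) om α k‖ ^ 2 else 0) ≤
      Dg w K Y α + C * P ^ ε * (K / X) * (M0 + Ms + Ml + Mt +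
        (1 + Ct Y) * Et A B K X Y Y₁' α) +
        2 * pC * e₂ + pC ^ 2 * e₃ := by
  obtain ⟨C₁, hC₁, h1⟩ := I1WX hw hw0 hR hA hB
  obtain ⟨C₂, hC₂, h2⟩ := E1e_le hJA hJ (ε := ε / 2) (by positivity)
  obtain ⟨C₃, hC₃, h3⟩ := TJcD_le hJA hJ (ε := ε / 2) (by positivity)
  obtain ⟨C₄, hC₄, hlg⟩ := PInv255.one_add_log_pow_le 1 (ε / 2) (by positivity)
  refine ⟨C₁ * C₄ * (C₂ + C₃ + 1), by positivity, fun P K X Y D Y₀ Y₁ D' Y₁' T₀ E0 G₀ M0 Ms Ml Mt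
    hP hK hX hY hYP hD hY₁ hDD hYY h1P hY₀ hE0 hDY hM0 hMs hMl hMt α hα om hom1 hom homJ Q
    e₂ e₃ a0 aS aL aT hc2 he => ?_⟩
  have hY0 : 0 ≤ Y := by linarith
  have hP0 : 0 < P := by linarith
  have hY₁' : 0 < Y₁' := hY₁.trans_le hYY
  have b1 := h1 K X Y D Y₀ Y₁ D' Y₁' E0 hK hX hY hD hY₁ hE0 hDD hYY hDY α hα om homJ Q e₂
    e₃ hc2 he
  have b2 := h2 B P K X Y D' Y₀ Y₁' G₀ M0 Ms Ml α hP hK hX hY hYP hY₀ hY₁'.le h1P hM0 hMs hMl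
    hα.sup a0 aS aL
  have b3 := h3 P K X Y D' Y₀ Y₁' T₀ E0 Mt α hP hK hX hY hYP h1P hMt hE0 hα.sup om hom1 hom aT
  have b4 : 1 + Real.log Y ≤ C₄ * P ^ (ε / 2) := by
    have h4 := hlg P hP
    rw [pow_one] at h4
    exact le_trans (by linarith [Real.log_le_log (by linarith) hYP]) h4
  have hPe : P ^ (ε / 2) * P ^ (ε / 2) = P ^ ε := by
    rw [← Real.rpow_add hP0]; congr 1; ring
  have hP1 : 1 ≤ P ^ (ε / 2) := Real.one_le_rpow hP (by positivity)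
  have hEt : 0 ≤ (1 + Ct Y) * Et A B K X Y Y₁' α :=
    mul_nonneg (by linarith [Ct_nonneg Y]) (Et_nonneg hK.le hX.le hY₁'.le _)
  have hE : E1e A B K X Y D' Y₀ Y₁' α + TJ (cD E0 om) A K X Y (JW D' Y₀ Y₁') α ≤
      (C₂ + C₃ + 1) * P ^ (ε / 2) * (M0 + Ms + Ml + Mt + (1 + Ct Y) * Et A B K X Y Y₁' α) := by
    set q := P ^ (ε / 2) with hq
    set E := (1 + Ct Y) * Et A B K X Y Y₁' α with hEd
    have c1 : E ≤ q * E := le_mul_of_one_le_left hEt hP1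
    have c2 : 0 ≤ C₂ * q * Mt := by positivity
    have c3 : 0 ≤ C₃ * q * (M0 + Ms + Ml) := by positivity
    have c4 : 0 ≤ q * (M0 + Ms + Ml + Mt) := by positivity
    have c5 : 0 ≤ C₂ * q * E := by positivity
    have c6 : 0 ≤ C₃ * q * E := by positivity
    have e1 : (C₂ + C₃ + 1) * q * (M0 + Ms + Ml + Mt + E) = C₂ * q * (M0 + Ms + Ml) +
      C₂ * q * Mt + C₃ * q * Mt + C₃ * q * (M0 + Ms + Ml) + q * (M0 + Ms + Ml + Mt) +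
      C₂ * q * E + C₃ * q * E + q * E := by ring
    rw [e1]
    linarith
  have hlY : 0 ≤ 1 + Real.log Y := by linarith [Real.log_nonneg hY]
  have b5 : C₁ * (1 + Real.log Y) * (K / X) * (E1e A B K X Y D' Y₀ Y₁' α +
        TJ (cD E0 om) A K X Y (JW D' Y₀ Y₁') α) ≤
      C₁ * C₄ * (C₂ + C₃ + 1) * P ^ ε * (K / X) * (M0 + Ms + Ml + Mt +
        (1 + Ct Y) * Et A B K X Y Y₁' α) := by
    calc C₁ * (1 + Real.log Y) * (K / X) * (E1e A B K X Y D' Y₀ Y₁' α +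
          TJ (cD E0 om) A K X Y (JW D' Y₀ Y₁') α) ≤
          C₁ * (1 + Real.log Y) * (K / X) * ((C₂ + C₃ + 1) * P ^ (ε / 2) *
            (M0 + Ms + Ml + Mt + (1 + Ct Y) * Et A B K X Y Y₁' α)) :=
          mul_le_mul_of_nonneg_left hE (by positivity)
      _ ≤ C₁ * (C₄ * P ^ (ε / 2)) * (K / X) * ((C₂ + C₃ + 1) * P ^ (ε / 2) *
            (M0 + Ms + Ml + Mt + (1 + Ct Y) * Et A B K X Y Y₁' α)) := by gcongr
      _ = C₁ * C₄ * (C₂ + C₃ + 1) * (P ^ (ε / 2) * P ^ (ε / 2)) * (K / X) *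
            (M0 + Ms + Ml + Mt + (1 + Ct Y) * Et A B K X Y Y₁' α) := by ring
      _ = _ := by rw [hPe]
  linarith

end Crest.Agent.R017.I1146
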