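import Crest.Agent.R017.I1k_146
import Crest.Agent.R017.I1x_960

/-!
# Row 17, block C70, the assembly (I1) (helper146): `(I1)` for lists, abstract cross error

* `I1LX` : `I1LD` with an abstract cross error (960's `I1WNX`)
* **`I1LTX`** : the same for the twisted list `sqc q (alL h (ps.map (Pt P s)))`
-/

set_option autoImplicit false

noncomputable section

open Finset MeasureTheory
open scoped ComplexConjugate Classical

namespace Crest.Agent.R017.I1146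

open Crest.Agent.R012 Crest.Agent.R012.Eis Crest.Agent.R012.MC Crest.Agent.R012.Gauss880
open Crest.Agent.R012.LS2 (S mem_S)
open Crest.Agent.R012.Mob705 (PE)
open Crest.Agent.R012.Weight600 (pw)
open Crest.Agent.R017.CM106 (CS FS TG)
open Crest.Agent.R017.C70
open Crest.Agent.R017.HP842 (Pc pc sqc alL)
open Crest.Agent.R017.B770
open Crest.Agent.R017.FE47 (PU cx)
open Crest.Agent.R017.Prov71
open Crest.Agent.R017.Leg381 (Pf alF SF LF natl alF_natl cstF ChG sub_list)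
open Crest.Agent.R017.RG64 (shT LF_shT VF_tws_sg_le FS_alF JB_list shT_length)
open Crest.Agent.R017.E1551
open Crest.Agent.R017.E2440 (StE)
open Crest.Agent.R017.LB48 (CrP GrP)
open Crest.Agent.R017.Rough381 (VF)
open Crest.Agent.R017.AL813 (al_supp al_mem_S sum_alF_le cx_bdd norm_alF_le norm_sqc_le)

set_option maxHeartbeats 1000000 in
/-- **(I1) for a sequence dominated by a natural list, abstract cross error.** -/
theorem I1LX {w : ℝ → ℝ} (hw : Wgt w) (hw0 : ∀ x, 0 ≤ w x) {h : ℝ → ℝ} {c : ℝ} (hpu : PU h c)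
    (N : ℕ) {R₁ : ℝ} (hR₁ : 0 ≤ R₁) (hR : ∀ u, cx h u ≠ 0 → |u| ≤ R₁) {ε e₁ M B₂ : ℝ}
    (hε : 0 < ε) (he₁ : 0 < e₁) (hM : 0 ≤ M) (hB₂ : 0 < B₂) {ν Dd : ℝ} (hν : 1 ≤ ν)
    (hDd : 0 ≤ Dd) :
    ∃ C r : ℝ, 0 ≤ C ∧ 0 ≤ r ∧ ∀ X : ℝ, 3 ≤ X → ∀ (P : DPar), P.OK → ∀ (q : Eis) (ps : List Pq),
      ps.length ≤ N → (∀ p ∈ ps, 0 ≤ p.z ∧ p.z ≤ Real.log X) → LN ps ≤ Real.log X →
      ∀ (K Y D Y₀ Y₁ D' Y₁' T₀ E0 F F₂ : ℝ), 1 ≤ K →
      Real.exp (LN ps + N * R₁ + 1) ≤ Y → Y ≤ X ^ B₂ → 0 ≤ D → 0 < Y₁ → D ≤ D' → Y₁ ≤ Y₁' →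
      Y₁' ≤ D' ^ 2 → Y₁' * ν ≤ X → Real.exp (2 * LN ps) * X ^ e₁ ≤ K * Y₁' → Y₀ < 1 → 0 < E0 →
      0 < T₀ → 0 ≤ F → 0 ≤ F₂ →
      FlatO h P q ps r M (Real.log K) (Real.log (Y₁' * ν)) F →
      FlatL h P q ps (X ^ B₂) r M (Real.log K) (Real.log (Y₁' * ν)) F →
      Tail h P q ps (X ^ B₂) r M (Real.log K) (Real.log (Y₁' * ν)) (Real.log T₀) (Real.log E0)
        F₂ → ∀ al : Eis → ℂ, Dom ν Dd (sqc q (alF 1 1 P h (natl ps))) al →
      ∀ om : Eis × Eis → ℂ, (∀ x, ‖1 - om x‖ ≤ 1) →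
      (∀ x : Eis × Eis, (nm (x.2 * x.1 ^ 2) : ℝ) ≤ T₀ → om x = 1) →
      (∀ x ∈ JW D' Y₀ Y₁', x ∉ JW D Y₀ Y₁ → om x = 0) → ∀ (Q : Eis → Prop) (e₂ e₃ : ℝ),
      ‖CrP w K al (fun k => if Q k then StE E0 (JW D Y₀ Y₁) om al k else 0) -
        ((pC * c3 w K : ℝ) : ℂ) * X2 Y E0 (JW D Y₀ Y₁) om al‖ ≤ e₂ →
      GrP w K (fun k => if Q k then
          StE E0 (JW D Y₀ Y₁) om al k else 0) ≤
        c3 w K * (X3 Y E0 (JW D Y₀ Y₁) om al).re + e₃ →
      ∑' k : Eis, (if IsPrim k ∧ Q k then w (nm k / K) *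
        ‖CS al k -
          (pC : ℂ) * StE E0 (JW D Y₀ Y₁) om al k‖ ^ 2 else 0) ≤
      C * X ^ ε * (K * Real.exp (LN ps)) * (1 + F + F₂) +
        2 * pC * e₂ + pC ^ 2 * e₃ := by
  have hN0 : (0 : ℝ) ≤ N := Nat.cast_nonneg _
  -- the scale
  set a₁ : ℝ := B₂ + 1 with ha₁
  have ha₁0 : 0 < a₁ := by positivity
  set ε' : ℝ := ε / (2 * a₁) with hε'
  have hε'0 : 0 < ε' := by positivity
  have hε2 : 0 < ε / 2 := by positivity
  -- the numbers
  obtain ⟨Ca, ra, hCa, hra, Ha⟩ := num0 hpu N hB₂.le hε2 hM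
  obtain ⟨Cb, rb, hCb, hrb, Hb⟩ := numL hpu N hB₂.le hε2 hM
  obtain ⟨Cc, rc, hCc, hrc, Hc⟩ := numT hpu N hB₂.le hε2 hM
  obtain ⟨Cd, hCd, Hd⟩ := Dg_dom w hpu N hR₁ hR hε
  obtain ⟨Cs, hCs, Hs⟩ := sum_alF_le hpu N
  -- the tail of E1
  set A : ℕ := ⌈(N : ℝ) * M⌉₊ + 2 with hA
  have hA2 : 2 ≤ A := by omega
  have hJA : (N : ℝ) * M + 1 < A := by
    have h1 := Nat.le_ceil ((N : ℝ) * M)
    rw [hA]
    push_cast
    linarith
  set a : ℝ := 2 + Real.log Cs with ha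
  have hlCs : 0 ≤ Real.log Cs := Real.log_nonneg hCs
  have ha0 : 0 ≤ a := by positivity
  set e₃' : ℝ := e₁ / B₂ with he₃'
  have he₃'0 : 0 < e₃' := by positivity
  obtain ⟨B, Ce, hB1, hCe, He⟩ := RGw813.Et_small (A : ℝ) he₃'0 ha0 (le_refl (1 : ℝ))
  obtain ⟨C₁, hC₁, H₁⟩ := I1WNX hw hw0 (R := 2 * (N * R₁)) (by positivity) (A := A) (B := B)
    (J := (N : ℝ) * M) (ε := ε') hA2 hB1 hJA (by positivity) hε'0
  refine ⟨Cd + C₁ * (Dd * ν ^ (1 / 3 : ℝ) * (Ca + Cb + Cc) + Ce), max ra (max rb rc),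
    by positivity,
    le_max_of_le_left hra, ?_⟩
  intro X hX P hP q ps hN hz hLX K Y D Y₀ Y₁ D' Y₁' T₀ E0 F F₂ hK hYl hYu hD hY₁ hDD hYY hYD
    hYX hKX hY₀ hE0 hT₀ hF hF₂ hco hcl htl al hdom om hom1 hom homJ Q e₂ e₃ ht he
  have hX1 : (1 : ℝ) ≤ X := by linarith
  have hX0 : 0 < X := by linarith
  have hK0 : 0 < K := by linarith
  set n := LN ps with hn
  have hn0 : 0 ≤ n := by
    rw [hn]
    unfold LN
    refine List.sum_nonneg fun x hx => ?_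
    obtain ⟨p, hp, rfl⟩ := List.mem_map.1 hx
    exact (hz p hp).1
  set α := sqc q (alF 1 1 P h (natl ps)) with hα
  have hY1 : 1 ≤ Y := le_trans (Real.one_le_exp (by positivity)) hYl
  have hY0 : 0 < Y := by linarith
  have hYe : Real.exp 1 ≤ Y := le_trans (Real.exp_le_exp.2 (by
    have : 0 ≤ (N : ℝ) * R₁ := by positivity
    linarith)) hYl
  have hadm₀ : Adm Y (Real.exp n) (2 * (N * R₁)) α := Adm_list hR₁ hR P q hN
    (le_trans (Real.exp_le_exp.2 (by linarith)) hYl)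
  have hne : ∀ m, al m ≠ 0 → α m ≠ 0 := fun m hm h0 => hm (norm_le_zero_iff.1 (by
    have := hdom.le m
    rw [h0, norm_zero] at this
    exact this))
  have hadm : Adm Y (Real.exp n) (2 * (N * R₁)) al :=
    ⟨fun m hm => hadm₀.sup m (hne m hm), fun m hm => hadm₀.win m (hne m hm)⟩
  have hν0 : 0 < ν := by linarith
  set ν₃ : ℝ := ν ^ (1 / 3 : ℝ) with hν₃
  have hν₃1 : 1 ≤ ν₃ := Real.one_le_rpow hν (by norm_num)
  have hY₁'0 : 0 < Y₁' := hY₁.trans_le hYY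
  set Pb : ℝ := X ^ a₁ with hPb
  have hPb1 : 1 ≤ Pb := Real.one_le_rpow hX1 ha₁0.le
  have hYPb : Y ≤ Pb := hYu.trans (Real.rpow_le_rpow_of_exponent_le hX1 (by rw [ha₁]; linarith))
  have hXPb : X ≤ Pb := by
    calc X = X ^ (1 : ℝ) := (Real.rpow_one X).symm
      _ ≤ _ := Real.rpow_le_rpow_of_exponent_le hX1 (by rw [ha₁]; linarith)
  have hPe : Pb ^ ε' = X ^ (ε / 2) := by
    rw [hPb, ← Real.rpow_mul hX0.le]
    congr 1
    rw [hε']
    field_simp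
  have hXe : X ^ (ε / 2) * X ^ (ε / 2) = X ^ ε := by
    rw [← Real.rpow_add hX0]; congr 1; ring
  have hXe1 : 1 ≤ X ^ (ε / 2) := Real.one_le_rpow hX1 hε2.le
  have hEt : (1 + Ct Y) * Et A B K (Real.exp n) Y Y₁' al ≤ Ce := by
    have h1 := He K (Real.exp n) Y Y₁' al hY1 (Real.exp_pos n) ?_ ?_ hY₁'0 ?_ ?_
    · rw [one_mul] at h1
      refine le_trans (mul_le_mul_of_nonneg_right (by linarith)
        (Et_nonneg hK0.le (Real.exp_pos n).le hY₁'0.le _)) h1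
    · calc Real.exp n ≤ Y := le_trans (Real.exp_le_exp.2 (by
            have : 0 ≤ (N : ℝ) * R₁ := by positivity
            linarith)) hYl
        _ = Y ^ (1 : ℝ) := (Real.rpow_one Y).symm
        _ ≤ Y ^ a := Real.rpow_le_rpow_of_exponent_le hY1 (by rw [ha]; linarith)
    · exact (Real.rpow_le_one_of_one_le_of_nonpos hY1 (by linarith)).trans hK
    · refine le_trans ?_ hKX
      have e1 : Real.exp n ^ 2 = Real.exp (2 * n) := by rw [two_mul, Real.exp_add]; ring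
      rw [e1]
      refine mul_le_mul_of_nonneg_left ?_ (Real.exp_pos _).le
      calc Y ^ e₃' ≤ (X ^ B₂) ^ e₃' := Real.rpow_le_rpow hY0.le hYu he₃'0.le
        _ = X ^ e₁ := by
            rw [← Real.rpow_mul hX0.le]
            congr 1
            rw [he₃']
            field_simp
    · refine ((Finset.sum_le_sum fun m _ => hdom.le m).trans
        (Hs 1 1 P hP q (natl ps) (by rw [length_natl]; exact hN) Y hY1)).trans ?_
      have h2 : Cs ≤ Y ^ Real.log Cs := by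
        have h3 : Real.exp 1 ^ Real.log Cs ≤ Y ^ Real.log Cs :=
          Real.rpow_le_rpow (Real.exp_pos _).le hYe hlCs
        rw [← Real.exp_mul, one_mul, Real.exp_log (by linarith)] at h3
        exact h3
      calc Cs * Y ^ 2 ≤ Y ^ Real.log Cs * Y ^ 2 :=
            mul_le_mul_of_nonneg_right h2 (by positivity)
        _ = Y ^ a := by
            rw [ha, Real.rpow_add hY0, Real.rpow_two]; ring
  -- the hypotheses of `I1WN`
  have hcla := hco.mono (le_max_left ra (max rb rc))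
  have hclb := hcl.mono ((le_max_left rb rc).trans (le_max_right ra (max rb rc)))
  have htlc := htl.mono ((le_max_right rb rc).trans (le_max_right ra (max rb rc)))
  have hgS : ∀ g ∈ S Y, IsPrim g ∧ (nm g : ℝ) ≤ X ^ B₂ := fun g hg => by
    obtain ⟨h1, h2, -⟩ := (mem_S hY0.le).1 hg
    exact ⟨h2, h1.trans hYu⟩
  have hVb : ∀ g ∈ S Y, ∀ V : ℝ, V ≤ Y₁' / (nm g : ℝ) ^ 2 → 1 ≤ V → V * ν ≤ X ∧
      Real.log (V * ν) ≤ Real.log (Y₁' * ν) - 2 * Real.log (nm g) := by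
    intro g hg V hV hV1
    have hgp := (hgS g hg).1.ne_zero
    have hg1 : (1 : ℝ) ≤ nm g := by exact_mod_cast nm_pos.2 hgp
    have h1 : Y₁' / (nm g : ℝ) ^ 2 ≤ Y₁' := div_le_self hY₁'0.le (one_le_pow₀ hg1)
    have h0 : V * ν ≤ Y₁' * ν := mul_le_mul_of_nonneg_right (hV.trans h1) hν0.le
    refine ⟨h0.trans hYX, ?_⟩
    have h2 := Real.log_le_log (by linarith) hV
    rw [Real.log_div hY₁'0.ne' (by positivity), Real.log_pow] at h2
    push_cast at h2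
    rw [Real.log_mul (by linarith) hν0.ne', Real.log_mul hY₁'0.ne' hν0.ne']
    linarith
  have key := H₁ Pb K (Real.exp n) Y D Y₀ Y₁ D' Y₁' T₀ E0 0
    (Dd * ν₃ * (Ca * X ^ (ε / 2) * (F * Real.exp (2 * n)))) 0
    (Dd * ν₃ * (Cb * X ^ (ε / 2) * (F * Real.exp (2 * n))))
    (Dd * ν₃ * (Cc * X ^ (ε / 2) * (F₂ * Real.exp (2 * n)))) hPb1 hK0 (Real.exp_pos n) hY1 hYPb hD hY₁ hDD
    hYY ((le_mul_of_one_le_right hY₁'0.le hν).trans (hYX.trans hXPb)) hY₀ hE0.le (Or.inl hYD) (by positivity) le_rfl (by positivity)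
    (by positivity) al hadm om hom1 hom homJ Q e₂ e₃
    (fun V hV1 hV2 t => by
      have hV0 : 0 < V := by linarith
      have hVν : 1 ≤ V * ν := one_le_mul_of_one_le_of_one_le hV1 hν
      have h1 := Ha X hX P hP q ps hN hz K (Real.log (Y₁' * ν)) F hK0 hF hcla (V * ν) t hVν
        ((mul_le_mul_of_nonneg_right hV2 hν0.le).trans hYX)
          (Real.log_le_log (by linarith) (mul_le_mul_of_nonneg_right hV2 hν0.le))
      have h2 := (hdom.vf V t hV1).trans (mul_le_mul_of_nonneg_left h1 hDd)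
      refine h2.trans ?_
      have h3 : max 1 ((V * ν * K / Real.exp n ^ 2) ^ (1 / 3 : ℝ)) ≤
          ν₃ * max 1 ((V * K / Real.exp n ^ 2) ^ (1 / 3 : ℝ)) := by
        have e2 : V * ν * K / Real.exp n ^ 2 = V * K / Real.exp n ^ 2 * ν := by ring
        rw [e2]
        exact max_nu (by positivity) hν
      calc Dd * (Ca * X ^ (ε / 2) * (F * Real.exp (2 * n)) *
            max 1 ((V * ν * K / Real.exp n ^ 2) ^ (1 / 3 : ℝ)) * (1 + |t|) ^ ((N : ℝ) * M)) ≤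
            Dd * (Ca * X ^ (ε / 2) * (F * Real.exp (2 * n)) *
            (ν₃ * max 1 ((V * K / Real.exp n ^ 2) ^ (1 / 3 : ℝ))) *
              (1 + |t|) ^ ((N : ℝ) * M)) := by gcongr
        _ = _ := by ring)
    (fun g hg _ hg0 => by
      exfalso
      have : (1 : ℝ) ≤ nm g := by exact_mod_cast nm_pos.2 (hgS g hg).1.ne_zero
      linarith)
    (fun g hg B' V hB1' hB2' hV1 hV2 t => by
      obtain ⟨h1, h2⟩ := hgS g hg
      obtain ⟨h3, h4⟩ := hVb g hg V hV2 hV1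
      have hV0 : 0 < V := by linarith
      have hVν : 1 ≤ V * ν := one_le_mul_of_one_le_of_one_le hV1 hν
      have h5 := Hb X hX P hP q ps hN hz K (Real.log (Y₁' * ν)) F hK0 hF hclb g h1 h2 B' (V * ν)
        Y t (fun U => (0 : ℝ) < nm (g * U)) hB1' (hB2'.trans hYu) hVν h3 hY0.le h4
      refine ((hdom.jb Y _ g B' V t h1 hY0.le hV1).trans
        (mul_le_mul_of_nonneg_left h5 hDd)).trans ?_
      have hy := (yv_pos hK0 (Real.exp_pos n) hV0 h1.ne_zero).le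
      have hB'0 : 0 < B' := by linarith
      rw [yv_nu hK0.le g hV0.le hν0.le]
      have h6 : max B'⁻¹ (ν₃ * yv K (Real.exp n) g V) ≤
          ν₃ * max B'⁻¹ (yv K (Real.exp n) g V) := by
        refine max_le ?_ (mul_le_mul_of_nonneg_left (le_max_right _ _) (by linarith))
        calc B'⁻¹ ≤ ν₃ * B'⁻¹ := le_mul_of_one_le_left (by positivity) hν₃1
          _ ≤ _ := mul_le_mul_of_nonneg_left (le_max_left _ _) (by linarith)
      calc Dd * (Cb * X ^ (ε / 2) * (F * Real.exp (2 * n)) / (nm g : ℝ) ^ 2 *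
            max B'⁻¹ (ν ^ (1 / 3 : ℝ) * yv K (Real.exp n) g V) * (1 + |t|) ^ ((N : ℝ) * M)) ≤
            Dd * (Cb * X ^ (ε / 2) * (F * Real.exp (2 * n)) / (nm g : ℝ) ^ 2 *
            (ν₃ * max B'⁻¹ (yv K (Real.exp n) g V)) * (1 + |t|) ^ ((N : ℝ) * M)) := by gcongr
        _ = _ := by ring)
    (fun g hg B' V hB1' hB2' hV1 hV2 hET t => by
      obtain ⟨h1, h2⟩ := hgS g hg
      obtain ⟨h3, h4⟩ := hVb g hg V hV2 hV1
      have hgn : (0 : ℝ) < nm g := by exact_mod_cast nm_pos.2 h1.ne_zero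
      have hV0 : 0 < V := by linarith
      have hVν : 1 ≤ V * ν := one_le_mul_of_one_le_of_one_le hV1 hν
      have hB'0 : 0 < B' := by linarith
      have h5 := Hc X hX P hP q ps hN hz K (Real.log (Y₁' * ν)) (Real.log T₀) (Real.log E0) F₂
        hK0 hF₂ htlc g h1 h2 B' (V * ν) Y t (fun _ => True) hB1' (hB2'.trans hYu) hVν h3 hY0.le
        h4 (by
          rcases hET with h5 | h5
          · exact Or.inl (Real.log_le_log hE0 h5.le)
          · right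
            have h6 := Real.log_le_log hT₀ h5.le
            rw [Real.log_mul (by positivity) (by positivity), Real.log_pow] at h6
            push_cast at h6
            have h7 : Real.log V ≤ Real.log (V * ν) :=
              Real.log_le_log hV0 (le_mul_of_one_le_right hV0.le hν)
            linarith)
      have hy := yv_pos hK0 (Real.exp_pos n) hV0 h1.ne_zero
      rw [yv_nu hK0.le g hV0.le hν0.le] at h5
      have h6 := hdom.jb Y (fun _ => True) g B' V t h1 hY0.le hV1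
      have hν₃0 : 0 < ν₃ := by linarith
      calc B'⁻¹ * (nm g * (yv K (Real.exp n) g V)⁻¹) * JB Y al (fun _ => True) g B' V t ≤
            B'⁻¹ * (nm g * (yv K (Real.exp n) g V)⁻¹) *
              (Dd * JB Y α (fun _ => True) g B' (V * ν) t) :=
            mul_le_mul_of_nonneg_left h6 (by positivity)
        _ = Dd * ν₃ * (B'⁻¹ * (nm g * (ν ^ (1 / 3 : ℝ) * yv K (Real.exp n) g V)⁻¹) *
              JB Y α (fun _ => True) g B' (V * ν) t) := by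
            rw [← hν₃]
            field_simp
        _ ≤ Dd * ν₃ * (Cc * X ^ (ε / 2) * (F₂ * Real.exp (2 * n)) / nm g *
              (1 + |t|) ^ ((N : ℝ) * M)) := mul_le_mul_of_nonneg_left h5 (by positivity)
        _ = _ := by ring)
    ht he
  refine key.trans ?_
  have hD := Hd X hX1 P hP q ps hN hn0 hLX K Y hK0.le hY0.le al hdom.le
  rw [hPe]
  have hEn : Real.exp (2 * n) = Real.exp n * Real.exp n := by rw [two_mul, Real.exp_add]
  have hmain : C₁ * X ^ (ε / 2) * (K / Real.exp n) *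
      (Dd * ν₃ * (Ca * X ^ (ε / 2) * (F * Real.exp (2 * n))) + 0 +
        Dd * ν₃ * (Cb * X ^ (ε / 2) * (F * Real.exp (2 * n))) +
        Dd * ν₃ * (Cc * X ^ (ε / 2) * (F₂ * Real.exp (2 * n))) +
        (1 + Ct Y) * Et A B K (Real.exp n) Y Y₁' al) ≤
      C₁ * (Dd * ν₃ * (Ca + Cb + Cc) + Ce) * X ^ ε * (K * Real.exp n) * (1 + F + F₂) := by
    have h1 : (1 + Ct Y) * Et A B K (Real.exp n) Y Y₁' al ≤
        Ce * (X ^ (ε / 2) * Real.exp (2 * n)) := by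
      refine hEt.trans ?_
      have h2 : 1 ≤ Real.exp (2 * n) := Real.one_le_exp (by positivity)
      exact le_mul_of_one_le_right hCe (one_le_mul_of_one_le_of_one_le hXe1 h2)
    have h4 : Dd * ν₃ * (Ca * X ^ (ε / 2) * (F * Real.exp (2 * n))) + 0 +
        Dd * ν₃ * (Cb * X ^ (ε / 2) * (F * Real.exp (2 * n))) +
        Dd * ν₃ * (Cc * X ^ (ε / 2) * (F₂ * Real.exp (2 * n))) +
        (1 + Ct Y) * Et A B K (Real.exp n) Y Y₁' al ≤
      (Dd * ν₃ * (Ca + Cb + Cc) + Ce) * (1 + F + F₂) * (X ^ (ε / 2) * Real.exp (2 * n)) := by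
      have h5 : 0 ≤ X ^ (ε / 2) * Real.exp (2 * n) := by positivity
      have h6 : Dd * ν₃ * (Ca * F + Cb * F + Cc * F₂) + Ce ≤
          (Dd * ν₃ * (Ca + Cb + Cc) + Ce) * (1 + F + F₂) := by
        have p0 : 0 ≤ Dd * ν₃ * (Ca * (1 + F₂) + Cb * (1 + F₂) + Cc * (1 + F)) := by positivity
        have p4 : 0 ≤ Ce * (F + F₂) := by positivity
        have e5 : (Dd * ν₃ * (Ca + Cb + Cc) + Ce) * (1 + F + F₂) =
          Dd * ν₃ * (Ca * F + Cb * F + Cc * F₂) + Ce +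
          (Dd * ν₃ * (Ca * (1 + F₂) + Cb * (1 + F₂) + Cc * (1 + F)) + Ce * (F + F₂)) := by ring
        rw [e5]
        linarith
      calc _ ≤ Dd * ν₃ * (Ca * X ^ (ε / 2) * (F * Real.exp (2 * n))) + 0 +
            Dd * ν₃ * (Cb * X ^ (ε / 2) * (F * Real.exp (2 * n))) +
            Dd * ν₃ * (Cc * X ^ (ε / 2) * (F₂ * Real.exp (2 * n))) +
            Ce * (X ^ (ε / 2) * Real.exp (2 * n)) := by linarith
        _ = (Dd * ν₃ * (Ca * F + Cb * F + Cc * F₂) + Ce) *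
            (X ^ (ε / 2) * Real.exp (2 * n)) := by ring
        _ ≤ _ := mul_le_mul_of_nonneg_right h6 h5
    calc _ ≤ C₁ * X ^ (ε / 2) * (K / Real.exp n) * ((Dd * ν₃ * (Ca + Cb + Cc) + Ce) *
          (1 + F + F₂) * (X ^ (ε / 2) * Real.exp (2 * n))) :=
          mul_le_mul_of_nonneg_left h4 (by positivity)
      _ = C₁ * (Dd * ν₃ * (Ca + Cb + Cc) + Ce) * (X ^ (ε / 2) * X ^ (ε / 2)) *
          (K / Real.exp n * (Real.exp n * Real.exp n)) * (1 + F + F₂) := by rw [hEn]; ring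
      _ = _ := by
          rw [hXe]
          have : K / Real.exp n * (Real.exp n * Real.exp n) = K * Real.exp n := by
            field_simp
          rw [this]
  have hdiag : Cd * X ^ ε * (K * Real.exp n) ≤ Cd * X ^ ε * (K * Real.exp n) *
      (1 + F + F₂) := le_mul_of_one_le_right (by positivity) (by linarith)
  have e9 : (Cd + C₁ * (Dd * ν₃ * (Ca + Cb + Cc) + Ce)) * X ^ ε * (K * Real.exp n) *
      (1 + F + F₂) = Cd * X ^ ε * (K * Real.exp n) * (1 + F + F₂) +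
      C₁ * (Dd * ν₃ * (Ca + Cb + Cc) + Ce) * X ^ ε * (K * Real.exp n) * (1 + F + F₂) := by ring
  rw [e9]
  linarith

open Crest.Agent.R017.E5B71 (Pt) in
/-- **(I1) for natural lists twisted by an `S`-unit `s`, abstract cross error.** -/
theorem I1LTX {w : ℝ → ℝ} (hw : Wgt w) (hw0 : ∀ x, 0 ≤ w x) {h : ℝ → ℝ} {c : ℝ} (hpu : PU h c)
    (N : ℕ) {R₁ : ℝ} (hR₁ : 0 ≤ R₁) (hR : ∀ u, cx h u ≠ 0 → |u| ≤ R₁) {ε e₁ M B₂ : ℝ}
    (hε : 0 < ε) (he₁ : 0 < e₁) (hM : 0 ≤ M) (hB₂ : 0 < B₂) {s : Eis} (hs0 : s ≠ 0) :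
    ∃ C r : ℝ, 0 ≤ C ∧ 0 ≤ r ∧ ∀ X : ℝ, 3 ≤ X → ∀ (P : DPar), P.OK → s ∈ FE47.SM P.n →
      ∀ (q : Eis) (ps : List Pq),
      ps.length ≤ N → (∀ p ∈ ps, 0 ≤ p.z ∧ p.z ≤ Real.log X) → LN ps ≤ Real.log X →
      ∀ (K Y D Y₀ Y₁ D' Y₁' T₀ E0 F F₂ : ℝ), 1 ≤ K →
      Real.exp (LN ps + N * R₁ + 1) ≤ Y → Y ≤ X ^ B₂ → 0 ≤ D → 0 < Y₁ → D ≤ D' → Y₁ ≤ Y₁' →
      Y₁' ≤ D' ^ 2 → Y₁' * (nm s : ℝ) ^ 2 ≤ X → Real.exp (2 * LN ps) * X ^ e₁ ≤ K * Y₁' →
      Y₀ < 1 → 0 < E0 → 0 < T₀ → 0 ≤ F → 0 ≤ F₂ →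
      FlatO h P q ps r M (Real.log K) (Real.log (Y₁' * (nm s : ℝ) ^ 2)) F →
      FlatL h P q ps (X ^ B₂) r M (Real.log K) (Real.log (Y₁' * (nm s : ℝ) ^ 2)) F →
      Tail h P q ps (X ^ B₂) r M (Real.log K) (Real.log (Y₁' * (nm s : ℝ) ^ 2)) (Real.log T₀)
        (Real.log E0) F₂ →
      ∀ om : Eis × Eis → ℂ, (∀ x, ‖1 - om x‖ ≤ 1) →
      (∀ x : Eis × Eis, (nm (x.2 * x.1 ^ 2) : ℝ) ≤ T₀ → om x = 1) →
      (∀ x ∈ JW D' Y₀ Y₁', x ∉ JW D Y₀ Y₁ → om x = 0) → ∀ (Q : Eis → Prop) (e₂ e₃ : ℝ),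
      ‖CrP w K (sqc q (alL h (ps.map (Pt P s)))) (fun k => if Q k then
          StE E0 (JW D Y₀ Y₁) om (sqc q (alL h (ps.map (Pt P s)))) k else 0) -
        ((pC * c3 w K : ℝ) : ℂ) *
          X2 Y E0 (JW D Y₀ Y₁) om (sqc q (alL h (ps.map (Pt P s))))‖ ≤ e₂ →
      GrP w K (fun k => if Q k then
          StE E0 (JW D Y₀ Y₁) om (sqc q (alL h (ps.map (Pt P s)))) k else 0) ≤
        c3 w K * (X3 Y E0 (JW D Y₀ Y₁) om (sqc q (alL h (ps.map (Pt P s))))).re + e₃ →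
      ∑' k : Eis, (if IsPrim k ∧ Q k then w (nm k / K) *
        ‖CS (sqc q (alL h (ps.map (Pt P s)))) k -
          (pC : ℂ) * StE E0 (JW D Y₀ Y₁) om (sqc q (alL h (ps.map (Pt P s)))) k‖ ^ 2 else 0) ≤
      C * X ^ ε * (K * Real.exp (LN ps)) * (1 + F + F₂) +
        2 * pC * e₂ + pC ^ 2 * e₃ := by
  obtain ⟨C, r, hC, hr, H⟩ := I1LX hw hw0 hpu N hR₁ hR hε he₁ hM hB₂
    (one_le_pow₀ (nm_ne hs0) (n := 2)) (Nat.cast_nonneg (ds s).card)
  refine ⟨C, r, hC, hr, ?_⟩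
  intro X hX P hP hs q ps hN hz hLX K Y D Y₀ Y₁ D' Y₁' T₀ E0 F F₂ hK hYl hYu hD hY₁ hDD hYY hYD
    hYX hKX hY₀ hE0 hT₀ hF hF₂ hco hcl htl om hom1 hom homJ Q e₂ e₃ ht he
  exact H X hX P hP q ps hN hz hLX K Y D Y₀ Y₁ D' Y₁' T₀ E0 F F₂ hK hYl hYu hD hY₁ hDD hYY hYD
    hYX hKX hY₀ hE0 hT₀ hF hF₂ hco hcl htl _ (dom_list hP h hs q ps) om hom1 hom homJ Q e₂ e₃ ht he

end Crest.Agent.R017.I1146
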