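import Crest.Agent.R017.RX8_298

/-!
# Row 17, FlatNE class E (helper320): the joint blocks of a difference of flagged lists

* `jbk_cl` : the joint blocks of one flagged list from claims with any exponent (helper545's
  `large_num`)
* `jb_xs` : the joint blocks of the difference `xs`
-/

set_option autoImplicit false
set_option maxHeartbeats 1600000

noncomputable section

open Complex
open scoped ComplexConjugate

namespace Crest.Agent.R017.JBX320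

open Crest.Agent.R012 Crest.Agent.R012.Eis Crest.Agent.R012.LS2 Crest.Agent.R012.Gauss880
open Crest.Agent.R012.Weight600 (osc pw)
open Crest.Agent.R017.CM106 Crest.Agent.R017.HP842 Crest.Agent.R017.FE47
open Crest.Agent.R017.End699 hiding pw
open Crest.Agent.R017.B770
open Crest.Agent.R017.Prov71
open Crest.Agent.R017.Rough381 (VF VF_nonneg)
open Crest.Agent.R017.Leg381
open Crest.Agent.R017.E1551 (sg tws yv JB BU mem_BU)
open Crest.Agent.R017.RG64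
open Crest.Agent.R017.LegK545 (VK SFK JBK VK_nonneg KS_const_mul)
open Crest.Agent.R017.RGK545 (ClXK ClK ClNK MergeListK)
open Crest.Agent.R017.PX764 (Dk)
open Crest.Agent.R017.RX241 (Md Nb BJ BJ_le JB_x_le)
open Crest.Agent.R017.Sup271 (NPm)
open Crest.Agent.R017.RX298

variable {Kn : Eis → Eis → ℂ}

lemma pC_pos' : 0 < pC := by
  unfold pC
  have := Real.Gamma_pos_of_pos (show (0 : ℝ) < 2 / 3 by norm_num)
  positivity

open Classical in
/-- **the joint block of a difference, bias with the minimum** (helper764's `JB_min`, copied to keep the imports small) -/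
theorem jb_min {ε : ℝ} (hε : 0 < ε) : ∃ C : ℝ, 0 ≤ C ∧ ∀ (a b x : Eis → ℂ) (ζ : ℂ), ‖ζ‖ ≤ 1 →
    FS a → FS b → (∀ n, x n = a n - ζ * b n) → ∀ (E s0 Y P J : ℝ), 0 ≤ E → 0 ≤ Y →
    ∀ (Q : Eis → Prop) (g : Eis), IsPrim g → ∀ B V t : ℝ, 1 ≤ B → 1 ≤ V → V * B ≤ P →
    (∀ U ∈ S Y, (nm U : ℝ) ≤ B → ∀ j, CubeFree j → (nm j : ℝ) ≤ V * B →
      ‖Md (tws (sg x (g * U)) t) j‖ ^ 2 ≤ E * (nm (g * U) : ℝ) ^ (-(5 / 3) : ℝ) *
        min 1 (nm (g * U) * Real.exp (-s0)) * (1 + |t|) ^ J) →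
    JB Y x Q g B V t ≤ 3 * JBK Dk Y a Q g B V t + 3 * JBK Dk Y b Q g B V t +
      C * P ^ ε * (E * Real.exp (2 / 3 * (Real.log V + Real.log B) -
        5 / 3 * (Real.log (nm g) + Real.log B) -
        max 0 (s0 - (Real.log (nm g) + Real.log B))) * (1 + |t|) ^ J) := by
  obtain ⟨C, hC, H⟩ := BJ_le hε
  refine ⟨3 * pC ^ 2 * (C * 4), by positivity, ?_⟩
  intro a b x ζ hζ ha hb hx E s0 Y P J hE hY Q g hg B V t hB hV hVB hPB
  have hg0 : (0 : ℝ) < nm g := by exact_mod_cast nm_pos.2 hg.ne_zero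
  have hB0 : 0 < B := by linarith
  have hV0 : 0 < V := by linarith
  have h3 := JB_x_le hζ ha hb hx hY Q hg B V t
  have hT : 0 ≤ (1 + |t|) ^ J := by positivity
  set T := (1 + |t|) ^ J with hTd
  have hVB1 : 1 ≤ V * B := one_le_mul_of_one_le_of_one_le hV hB
  have hP0 : 0 < P := by linarith
  set lg := Real.log (nm g) with hlg
  set lB := Real.log B with hlB
  set lV := Real.log V with hlV
  have hgB : (nm g : ℝ) * B = Real.exp (lg + lB) := by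
    rw [Real.exp_add, Real.exp_log hg0, Real.exp_log hB0]
  have hm : min 1 ((nm g : ℝ) * B * Real.exp (-s0)) = Real.exp (-max 0 (s0 - (lg + lB))) := by
    rw [hgB, ← Real.exp_add]
    nth_rewrite 1 [← Real.exp_zero]
    rw [← Real.exp_monotone.map_min]
    congr 1
    rw [← min_neg_neg, neg_zero]
    congr 1
    ring
  have h4 : BJ Y x Q g B V t ≤ C * (V * B) ^ ε * (V * B) ^ ((2 : ℝ) / 3) *
      (E * (4 * ((nm g : ℝ) * B) ^ (-(5 / 3) : ℝ)) *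
        min 1 ((nm g : ℝ) * B * Real.exp (-s0)) * T) := by
    refine H Y B V _ t Q g x hY hB hV (by positivity) fun U hU hU1 hU2 hQ κ hκ => ?_
    obtain ⟨⟨hκ1, hκ2⟩, hκ3⟩ := mem_BU.1 hκ
    have hUp : IsPrim U := ((mem_S hY).1 hU).2.1
    have hjV : (nm (κ * U) : ℝ) ≤ V * B := by
      rw [nm_mul]; push_cast; gcongr
    refine (hPB U hU hU2 (κ * U) hκ3 hjV).trans ?_
    have hUn : (0 : ℝ) < nm U := by exact_mod_cast nm_pos.2 hUp.ne_zero
    have hgU : (nm (g * U) : ℝ) = nm g * nm U := by rw [nm_mul]; push_cast; ring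
    have g3 : (nm (g * U) : ℝ) ^ (-(5 / 3) : ℝ) ≤ 4 * ((nm g : ℝ) * B) ^ (-(5 / 3) : ℝ) := by
      have h5 : (nm g : ℝ) * B / 2 ≤ nm (g * U) := by
        rw [hgU]
        nlinarith
      calc (nm (g * U) : ℝ) ^ (-(5 / 3) : ℝ) ≤ ((nm g : ℝ) * B / 2) ^ (-(5 / 3) : ℝ) :=
            Real.rpow_le_rpow_of_nonpos (by positivity) h5 (by norm_num)
        _ = (2 : ℝ) ^ (5 / 3 : ℝ) * ((nm g : ℝ) * B) ^ (-(5 / 3) : ℝ) := by
            rw [Real.div_rpow (by positivity) (by norm_num), Real.rpow_neg (by norm_num : (0:ℝ) ≤ 2),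
              div_eq_mul_inv, inv_inv, mul_comm]
        _ ≤ 4 * ((nm g : ℝ) * B) ^ (-(5 / 3) : ℝ) := by
            have : (2 : ℝ) ^ (5 / 3 : ℝ) ≤ 4 := by
              calc (2 : ℝ) ^ (5 / 3 : ℝ) ≤ 2 ^ (2 : ℝ) :=
                    Real.rpow_le_rpow_of_exponent_le (by norm_num) (by norm_num)
                _ = 4 := by norm_num
            gcongr
    have g4 : min 1 ((nm (g * U) : ℝ) * Real.exp (-s0)) ≤
        min 1 ((nm g : ℝ) * B * Real.exp (-s0)) := by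
      rw [hgU]
      exact min_le_min_left _ (by gcongr)
    have g5 : 0 ≤ min 1 ((nm (g * U) : ℝ) * Real.exp (-s0)) := le_min zero_le_one (by positivity)
    gcongr
  have h5 : (V * B) ^ ((2 : ℝ) / 3) * (((nm g : ℝ) * B) ^ (-(5 / 3) : ℝ) *
      min 1 ((nm g : ℝ) * B * Real.exp (-s0))) =
      Real.exp (2 / 3 * (lV + lB) - 5 / 3 * (lg + lB) - max 0 (s0 - (lg + lB))) := by
    have e1 : V * B = Real.exp (lV + lB) := by
      rw [Real.exp_add, Real.exp_log hV0, Real.exp_log hB0]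
    rw [hm, hgB, e1, ← Real.exp_mul, ← Real.exp_mul, ← Real.exp_add, ← Real.exp_add]
    congr 1
    ring
  have hpw : (V * B) ^ ε ≤ P ^ ε := Real.rpow_le_rpow (by positivity) hVB hε.le
  have h6 : BJ Y x Q g B V t ≤ C * 4 * P ^ ε * (E * Real.exp (2 / 3 * (lV + lB) -
      5 / 3 * (lg + lB) - max 0 (s0 - (lg + lB))) * T) := by
    rw [← h5]
    have hmn : 0 ≤ min 1 ((nm g : ℝ) * B * Real.exp (-s0)) := le_min zero_le_one (by positivity)
    calc BJ Y x Q g B V t ≤ C * (V * B) ^ ε * (V * B) ^ ((2 : ℝ) / 3) *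
          (E * (4 * ((nm g : ℝ) * B) ^ (-(5 / 3) : ℝ)) *
            min 1 ((nm g : ℝ) * B * Real.exp (-s0)) * T) := h4
      _ = C * 4 * (V * B) ^ ε * (E * ((V * B) ^ ((2 : ℝ) / 3) *
          (((nm g : ℝ) * B) ^ (-(5 / 3) : ℝ) *
            min 1 ((nm g : ℝ) * B * Real.exp (-s0)))) * T) := by ring
      _ ≤ _ := by gcongr
  have hpc := pC_pos'
  calc JB Y x Q g B V t
      ≤ 3 * (JBK Dk Y a Q g B V t + JBK Dk Y b Q g B V t + pC ^ 2 * BJ Y x Q g B V t) := h3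
    _ ≤ 3 * (JBK Dk Y a Q g B V t + JBK Dk Y b Q g B V t + pC ^ 2 *
          (C * 4 * P ^ ε * (E * Real.exp (2 / 3 * (lV + lB) -
      5 / 3 * (lg + lB) - max 0 (s0 - (lg + lB))) * T))) := by
        gcongr
    _ = _ := by ring

open Classical in
/-- **the joint blocks of one flagged list**, any exponent -/
theorem jbk_cl {h : ℝ → ℝ} {c : ℝ} (hpu : PU h c) (N : ℕ) {B₀ : ℝ} {ε : ℝ} {J : ℝ}
    (hJ : 0 ≤ J) (hML : MergeListK Kn h N B₀ ε J) : ∃ C r : ℝ, 1 ≤ C ∧ 0 ≤ r ∧ ∀ X : ℝ, 3 ≤ X →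
    ∀ D : Dat, D.P.OK → D.h = h → 1 ≤ D.D0 → D.J = J → D.ps₀.length ≤ N →
    ∀ (E : ℝ → ℝ → ℝ) (B s a Q q₀ lo σ : ℝ), 0 ≤ B → Real.exp r ≤ q₀ → lo ≤ 0 →
    ClNK Kn D E B (s + r) (a + r) (Q * q₀) lo σ →
    ∀ (q g : Eis) (ps : List Pf) (Y Bb V t : ℝ) (Pr : Eis → Prop), IsPrim q →
    (nm q : ℝ) * Real.exp (LF ps) ≤ Q → IsPrim g →
    (nm g : ℝ) ≤ X ^ B₀ → SbL s ps D.ps₀ → LF ps ≤ Real.log X → LF ps + r ≤ σ →
    0 ≤ Y → 1 ≤ Bb → Bb ≤ X ^ B₀ →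
    1 ≤ V → V ≤ X → Real.log V + 2 * Real.log (nm g) ≤ D.v + (D.n - LF ps) + a →
    ∀ Tn : ℝ, (∀ l m' : ℝ, 0 ≤ l → 0 ≤ m' →
      m' ≤ LF ps - Real.log (nm g) - Real.log Bb + r →
      LF ps - Real.log (nm g) - Real.log Bb - N * Real.log D.D0 - r ≤ m' →
      |l - (Real.log V + LF ps - Real.log (nm g) - m')| ≤ r →
      E l m' ≤ Tn + (m' + Real.log (nm g) + Real.log Bb - LF ps)) →
    JBK Kn Y (sqc q (alF D.z D.D0 D.P D.h ps)) Pr g Bb V t ≤
      C * X ^ ε * B * Ht ps ^ J * Real.exp Tn * (1 + |t|) ^ ((N : ℝ) * J) := by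
  obtain ⟨C, r, hC, hr, H⟩ := hML
  refine ⟨C, r, hC, hr, ?_⟩
  intro X hX D hP hh hD0 hDJ hN E B s a Q q₀ lo σ hB hq₀ hlo hCl q g ps Y Bb V t Pr hq
    hqQ hg hgX hps hLX hσ hY hBb hBbX hV hVX hk Tn hE
  have hX1 : (1 : ℝ) ≤ X := by linarith
  have hX0 : 0 < X := by linarith
  have hBump := bump_of_cs hpu.cs
  have hprim : ∀ n, alF D.z D.D0 D.P D.h ps n ≠ 0 → IsPrim n := by
    rw [hh]; exact (FS_alF hBump hP D.z D.D0 ps).prim
  have hlen : ps.length ≤ N := hps.length ▸ hN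
  have hV0 : 0 < V := by linarith
  set k := Real.log V with hkd
  have hk0 : 0 ≤ k := Real.log_nonneg hV
  have hkX : k ≤ Real.log X := Real.log_le_log hV0 hVX
  have hng : (0 : ℝ) < nm g := by exact_mod_cast nm_pos.2 hg.ne_zero
  set η := Real.log (nm g) with hη
  have heη : Real.exp η = nm g := Real.exp_log hng
  have hη0 : 0 ≤ η := by
    rw [hη]
    refine Real.log_nonneg ?_
    exact_mod_cast nm_pos.2 hg.ne_zero
  set b := Real.log Bb with hb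
  have hBb0 : 0 < Bb := by linarith
  have hb0 : 0 ≤ b := Real.log_nonneg hBb
  have hbX : b ≤ B₀ * Real.log X := by
    rw [hb, ← Real.log_rpow hX0]
    exact Real.log_le_log hBb0 hBbX
  set m := LF ps with hm
  set ps₁ := shT t ps with hps₁
  have hps₁' : SbL s ps₁ D.ps₀ := SbL_shT hps
  have hz := hps₁'.z_nonneg
  have hlen₁ : ps₁.length ≤ N := by rw [hps₁, shT_length]; exact hlen
  have hLF₁ : LF ps₁ = m := LF_shT t ps
  have hHt1 := one_le_Ht ps₁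
  have hHt0 := one_le_Ht ps
  have hlD : 0 ≤ Real.log D.D0 := Real.log_nonneg hD0
  have hN0 : (0 : ℝ) ≤ N := Nat.cast_nonneg _
  set α := sqc q (alF D.z D.D0 D.P D.h ps) with hα
  -- the set of divisors
  set Us : Finset Eis := ((S Y).filter fun U => Bb / 2 < nm U ∧ (nm U : ℝ) ≤ Bb ∧
    Pr U).filter (fun U => IsCoprime g U) with hUs
  have hUs' : ∀ U ∈ Us, IsPrim U ∧ IsCoprime g U ∧ |Real.log (nm U) - b| ≤ 1 := by
    intro U hU
    obtain ⟨h1, h2⟩ := Finset.mem_filter.1 hU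
    obtain ⟨h3, h4, h5, h6⟩ := Finset.mem_filter.1 h1
    have hUp := ((mem_S hY).1 h3).2.1
    have hU0 : (0 : ℝ) < nm U := by exact_mod_cast nm_pos.2 hUp.ne_zero
    refine ⟨hUp, h2, ?_⟩
    rw [abs_le]
    constructor
    · have h7 : Real.log (Bb / 2) ≤ Real.log (nm U) := Real.log_le_log (by positivity) h4.le
      rw [Real.log_div hBb0.ne' (by norm_num)] at h7
      have := Real.log_two_lt_d9
      linarith
    · have h7 : Real.log (nm U) ≤ b := Real.log_le_log hU0 h5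
      linarith
  -- reduction
  have hred : JBK Kn Y α Pr g Bb V t ≤
      ∑ U ∈ Us, ∑ κ ∈ (bl (Real.exp k)).filter (fun κ => CubeFree (κ * U)),
        ‖KS Kn (sqc (q * (g * U)) (CM106.sub (alF D.z D.D0 D.P D.h ps₁) (g * U))) (κ * U)‖ ^ 2 := by
    unfold JBK
    have e1 : ∑ U ∈ (S Y).filter (fun U => Bb / 2 < nm U ∧ (nm U : ℝ) ≤ Bb ∧ Pr U),
        ∑ κ ∈ BU V U, ‖KS Kn (tws (sg α (g * U)) t) (κ * U)‖ ^ 2 =
        ∑ U ∈ Us, ∑ κ ∈ BU V U, ‖KS Kn (tws (sg α (g * U)) t) (κ * U)‖ ^ 2 := by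
      rw [hUs, Finset.sum_filter (fun U => IsCoprime g U)]
      refine Finset.sum_congr rfl fun U hU => ?_
      split_ifs with hc
      · rfl
      · refine Finset.sum_eq_zero fun κ _ => ?_
        have hU' := Finset.mem_filter.1 hU
        have hUp := ((mem_S hY).1 hU'.1).2.1
        have h1 : Th q (g * U) = 0 := by
          unfold Th
          rw [if_neg]
          rintro ⟨h2, _⟩
          rw [squarefree_mul_iff] at h2
          exact hc (isRelPrime_iff_isCoprime.1 h2.1)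
        rw [hα, tws_sg D.z D.D0 D.P D.h ps q (mul_ne_zero hg.ne_zero hUp.ne_zero) t hprim, h1,
          KS_const_mul]
        simp
    rw [e1]
    refine Finset.sum_le_sum fun U hU => ?_
    have hUp := (hUs' U hU).1
    have hsub : BU V U ⊆ (bl (Real.exp k)).filter (fun κ => CubeFree (κ * U)) := by
      intro κ hκ
      obtain ⟨⟨h1, h2⟩, h3⟩ := mem_BU.1 hκ
      rw [Finset.mem_filter, mem_bl (Real.exp_pos _).le, hkd, Real.exp_log hV0]
      exact ⟨⟨h1.1, h2⟩, h3⟩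
    refine (Finset.sum_le_sum_of_subset_of_nonneg hsub fun _ _ _ => by positivity).trans
      (Finset.sum_le_sum fun κ _ => ?_)
    rw [hα, tws_sg D.z D.D0 D.P D.h ps q (mul_ne_zero hg.ne_zero hUp.ne_zero) t hprim,
      KS_const_mul, norm_mul, mul_pow]
    refine mul_le_of_le_one_left (by positivity) (pow_le_one₀ (norm_nonneg _) ?_)
    rw [norm_mul, norm_pw, mul_one]
    exact norm_Th_le _ _
  refine hred.trans ?_
  have key := H X hX D.P hP D.z D.D0 q g hD0 hg hgX b hb0 hbX Us hUs' k ps₁ hk0 hkX hlen₁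
    (fun p hp => ⟨hz p hp, (z_le_LF hz p hp).trans (by rw [hLF₁]; exact hLX)⟩)
    (B * Ht ps₁ ^ J * Real.exp Tn) (by positivity) ?_
  · rw [← hh] at key
    refine key.trans ?_
    have h1 : Ht ps₁ ^ J ≤ Ht ps ^ J * (1 + |t|) ^ ((N : ℝ) * J) := Ht_shT_rpow hJ t hlen
    calc C * X ^ ε * (B * Ht ps₁ ^ J * Real.exp Tn) ≤
        C * X ^ ε * (B * (Ht ps ^ J * (1 + |t|) ^ ((N : ℝ) * J)) * Real.exp Tn) := by gcongr
      _ = _ := by ring
  · intro l ps' hl hch hnat h1 h2 h3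
    rw [hLF₁] at h1 h2 h3 ⊢
    have hps' := hps₁'.childG hch
    have hcst := cstF_nonneg ps' ps₁
    have hq' : IsPrim (q * g) := hq.mul hg
    have hL' := LF_nonneg hps'.z_nonneg
    have hqQ' : (nm (q * g) : ℝ) ≤ Q * q₀ := by
      rw [nm_mul]; push_cast
      have h5 : (nm g : ℝ) ≤ Real.exp m * Real.exp r := by
        rw [← heη, ← Real.exp_add]
        refine Real.exp_le_exp.2 ?_
        linarith
      calc (nm q : ℝ) * nm g ≤
            nm q * (Real.exp m * Real.exp r) := mul_le_mul_of_nonneg_left h5 (Nat.cast_nonneg _)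
        _ = (nm q * Real.exp m) * Real.exp r := by ring
        _ ≤ Q * q₀ := mul_le_mul hqQ hq₀ (Real.exp_pos _).le ((by positivity : (0 : ℝ) ≤
            nm q * Real.exp m).trans hqQ)
    have h3' := (abs_le.1 h3).2
    have hc1 := hCl (q * g) ps' l hq' hqQ' hnat hps'
      (hlo.trans hL') (by linarith) hl (by linarith)
    have hHt' : Ht ps' ^ J ≤ Ht ps₁ ^ J * cstF ps' ps₁ ^ J := by
      rw [← Real.mul_rpow (by linarith) hcst]
      exact Real.rpow_le_rpow (by linarith [one_le_Ht ps']) (Ht_le_cst hch) hJ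
    have hex := hE l (LF ps') hl hL' h1 h2 h3
    rw [hDJ] at hc1
    rw [hh] at hc1
    refine hc1.trans ?_
    have hE' : Real.exp (E l (LF ps')) ≤ Real.exp Tn * Real.exp (LF ps' + η + b - m) := by
      rw [← Real.exp_add]
      exact Real.exp_le_exp.2 hex
    calc B * Ht ps' ^ J * Real.exp (E l (LF ps')) ≤
          B * (Ht ps₁ ^ J * cstF ps' ps₁ ^ J) * (Real.exp Tn *
            Real.exp (LF ps' + η + b - m)) := by gcongr
      _ = _ := by ring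

open Classical in
/-- **the joint blocks of the difference** -/
theorem jb_xs {h : ℝ → ℝ} {c : ℝ} (hpu : PU h c) (N : ℕ) {B₀ : ℝ} (hB₀ : 1 ≤ B₀) {ε : ℝ}
    (hε : 0 < ε) {J J₁ : ℝ} (hJ : 6 ≤ J) (hJ₁ : 12 ≤ J₁) (hNJ : N * J ≤ J₁) :
    ∃ C r : ℝ, 1 ≤ C ∧ 0 ≤ r ∧ ∀ X : ℝ, 3 ≤ X → ∀ D : Dat, DX h N J B₀ X D →
    ∀ (E E' : ℝ → ℝ → ℝ) (B B' s a Q q₀ lo σ s₀ d₀ : ℝ), 0 ≤ B → 0 ≤ B' → Real.exp r ≤ q₀ →
    lo ≤ 0 → ClNK Dk D E B (s + r) (a + r) (Q * q₀) lo σ →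
    ClNK Dk (Dr d₀ D) E' B' (2 * s + r) (a + r) (Q * q₀) lo σ →
    ∀ (q : Eis) (ps : List Pf), QXm B₀ X s Q s₀ d₀ D q ps → LF ps + r ≤ σ →
    ∀ (g : Eis) (Y Bu t V : ℝ) (Pr : Eis → Prop), IsPrim g → (nm g : ℝ) ≤ X ^ B₀ → 0 ≤ Y →
    1 ≤ Bu → Bu ≤ X ^ B₀ → 1 ≤ V → V ≤ X →
    Real.log V + 2 * Real.log (nm g) ≤ D.v + (D.n - LF ps) + a →
    ∀ Tn : ℝ, (∀ l m' : ℝ, 0 ≤ l → 0 ≤ m' →
      m' ≤ LF ps - Real.log (nm g) - Real.log Bu + r →
      LF ps - Real.log (nm g) - Real.log Bu - N * Real.log D.D0 - r ≤ m' →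
      |l - (Real.log V + LF ps - Real.log (nm g) - m')| ≤ r →
      E l m' ≤ Tn + (m' + Real.log (nm g) + Real.log Bu - LF ps) ∧
      E' l m' ≤ Tn + (m' + Real.log (nm g) + Real.log Bu - LF ps)) →
    5 / 3 * LF ps + (2 / 3 * (Real.log V + Real.log Bu) -
      5 / 3 * (Real.log (nm g) + Real.log Bu) -
      max 0 (s₀ - (Real.log (nm g) + Real.log Bu))) ≤ Tn →
    JB Y (xs q D.z D.D0 D.P D.h d₀ ps) Pr g Bu V t ≤
      C * X ^ ε * (B + B' + D.D0 ^ 4) * Ht ps ^ J * Real.exp Tn * (1 + |t|) ^ J₁ := by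
  have hB₀0 : (0 : ℝ) ≤ B₀ := by linarith
  have hJ0 : (0 : ℝ) ≤ J := by linarith
  obtain ⟨C₂, r, hC₂, hr₂, H2⟩ := jbk_cl (Kn := Dk) hpu N (B₀ := B₀) (ε := ε) hJ0
    (RGK545.mergeListK Dk848.ker_Dk hpu N hB₀0 hε hJ0)
  obtain ⟨C₃, hC₃, H3⟩ := pb_xsm hpu N (B := 2 * B₀) (by linarith) (ε := ε / 2) (by positivity)
    hJ hJ₁
  obtain ⟨C₄, hC₄, H4⟩ := jb_min (ε := ε / 2 / (2 * B₀)) (by positivity)
  refine ⟨3 * C₂ + 3 * C₂ + C₄ * C₃, r, ?_, hr₂, ?_⟩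
  · have : 0 ≤ C₄ * C₃ := by positivity
    linarith
  intro X hX D hD E E' B B' s a Q q₀ lo σ s₀ d₀ hB hB' hq₀ hlo hCl hCl' q ps hps hσ g Y
    Bu t V Pr hg hgX hY hBu hBuX hV hVX hk Tn hE hbi
  have hX1 : (1 : ℝ) ≤ X := by linarith
  have hX0 : 0 < X := by linarith
  obtain ⟨hq, hqX, hqQ, hsb, hlg, hLX, hd₀, hs, hg0, hgd⟩ := hps
  have hps' : QXm B₀ X s Q s₀ d₀ D q ps := ⟨hq, hqX, hqQ, hsb, hlg, hLX, hd₀, hs, hg0, hgd⟩
  have hV0 : 0 < V := by linarith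
  have hHt := one_le_Ht ps
  have hz0 := hsb.z_nonneg
  have hlen : ps.length ≤ N := hsb.length ▸ hD.len
  have ht : (1 : ℝ) ≤ 1 + |t| := by linarith [abs_nonneg t]
  have htJ : (1 + |t|) ^ ((N : ℝ) * J) ≤ (1 + |t|) ^ J₁ :=
    Real.rpow_le_rpow_of_exponent_le ht hNJ
  have hXe : 0 ≤ X ^ ε := by positivity
  have hHJ : 0 ≤ Ht ps ^ J := Real.rpow_nonneg (by linarith) _
  set m := LF ps with hm
  have hXB : X ≤ X ^ B₀ := by
    conv_lhs => rw [← Real.rpow_one X]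
    exact Real.rpow_le_rpow_of_exponent_le hX1 hB₀
  have hXB2 : X ^ B₀ * X ^ B₀ = X ^ (2 * B₀) := by
    rw [← Real.rpow_add hX0]; congr 1; ring
  have hXB1 : X ^ B₀ ≤ X ^ (2 * B₀) :=
    Real.rpow_le_rpow_of_exponent_le hX1 (by linarith)
  -- the own part
  have k1 : JBK Dk Y (sqc q (alF D.z D.D0 D.P D.h ps)) Pr g Bu V t ≤
      C₂ * X ^ ε * B * Ht ps ^ J * Real.exp Tn * (1 + |t|) ^ J₁ := by
    have h1 := H2 X hX D hD.ok hD.hh hD.D0 hD.J hD.len E B s a Q q₀ lo σ hB hq₀ hlo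
      hCl q g ps Y Bu V t Pr hq hqQ hg hgX hsb hLX hσ hY hBu hBuX hV hVX hk Tn
      (fun l m' a1 a2 a3 a4 a5 => (hE l m' a1 a2 a3 a4 a5).1)
    refine h1.trans ?_
    gcongr
  -- the replaced part
  have k2 : JBK Dk Y (sqc q (alF D.z D.D0 D.P D.h (rp d₀ ps))) Pr g Bu V t ≤
      C₂ * X ^ ε * B' * Ht ps ^ J * Real.exp Tn * (1 + |t|) ^ J₁ := by
    have h1 := H2 X hX (Dr d₀ D) hD.ok hD.hh hD.D0 hD.J
      (by show (rpB d₀ D.ps₀).length ≤ N; rw [rpB_length]; exact hD.len)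
      E' B' (2 * s) a Q q₀ lo σ hB' hq₀ hlo
      hCl' q g (rp d₀ ps) Y Bu V t Pr hq hps'.qQr hg hgX hps'.sbr (by rw [LF_rp]; exact hLX)
      (by rw [LF_rp]; exact hσ) hY hBu hBuX hV hVX (by rw [LF_rp]; exact hk) Tn
      (fun l m' a1 a2 a3 a4 a5 => by
        rw [LF_rp] at a3 a4 a5 ⊢
        exact (hE l m' a1 a2 a3 a4 a5).2)
    rw [Ht_rp] at h1
    refine h1.trans ?_
    gcongr
  -- the bias
  have hBump := bump_of_cs hpu.cs
  have hFa : FS (sqc q (alF D.z D.D0 D.P D.h ps)) := by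
    rw [hD.hh]; exact HP842.FS.sqc (FS_alF hBump hD.ok D.z D.D0 ps) q
  have hFb : FS (sqc q (alF D.z D.D0 D.P D.h (rp d₀ ps))) := by
    rw [hD.hh]; exact HP842.FS.sqc (FS_alF hBump hD.ok D.z D.D0 _) q
  have hD0' := hD.D0
  have k3 := H4 (sqc q (alF D.z D.D0 D.P D.h ps)) (sqc q (alF D.z D.D0 D.P D.h (rp d₀ ps)))
    (xs q D.z D.D0 D.P D.h d₀ ps) (zt d₀ ps) (norm_zt d₀ ps).le hFa hFb (fun n => rfl)
    (C₃ * X ^ (ε / 2) * D.D0 ^ 4 * Ht ps ^ J * Real.exp (5 / 3 * m)) s₀ Y (X ^ (2 * B₀)) J₁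
    (by positivity) hY Pr g hg Bu V t hBu hV
    (by
      rw [← hXB2]
      rw [mul_comm]
      exact mul_le_mul hBuX (hVX.trans hXB) (by linarith) (by positivity))
    (fun U hU hU2 j hj hjV => by
      have hUp : IsPrim U := ((mem_S hY).1 hU).2.1
      have hgU : (nm (g * U) : ℝ) ≤ X ^ (2 * B₀) := by
        rw [nm_mul, ← hXB2]
        push_cast
        exact mul_le_mul hgX (hU2.trans hBuX) (Nat.cast_nonneg _) (by positivity)
      have hMk : Mk (X ^ (2 * B₀)) ps := (hD.mkb.mk hsb).mono hXB1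
      have := H3 X hX D.P hD.ok (hD.nP.trans hXB1) hD.np D.z D.D0 hD.D0 ps hMk hlen hz0 hLX s₀ d₀
        hg0 hgd hlg q (g * U) j hq.ne_zero (hqX.trans hXB1) (hg.mul hUp) hgU hj.1
        (hjV.trans (by
          rw [← hXB2]
          exact mul_le_mul (hVX.trans hXB) hBuX (by linarith) (by positivity))) t
      rw [hD.hh]
      exact this)
  have hP : (X ^ (2 * B₀)) ^ (ε / 2 / (2 * B₀)) = X ^ (ε / 2) := by
    rw [← Real.rpow_mul hX0.le]
    congr 1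
    field_simp
  have hee : X ^ (ε / 2) * X ^ (ε / 2) = X ^ ε := by
    rw [← Real.rpow_add hX0]; congr 1; ring
  rw [hP] at k3
  have k4 : C₄ * X ^ (ε / 2) * (C₃ * X ^ (ε / 2) * D.D0 ^ 4 * Ht ps ^ J * Real.exp (5 / 3 * m) *
      Real.exp (2 / 3 * (Real.log V + Real.log Bu) - 5 / 3 * (Real.log (nm g) + Real.log Bu) -
        max 0 (s₀ - (Real.log (nm g) + Real.log Bu))) * (1 + |t|) ^ J₁) ≤
      C₄ * C₃ * X ^ ε * D.D0 ^ 4 * Ht ps ^ J * Real.exp Tn * (1 + |t|) ^ J₁ := by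
    have h1 : Real.exp (5 / 3 * m) * Real.exp (2 / 3 * (Real.log V + Real.log Bu) -
        5 / 3 * (Real.log (nm g) + Real.log Bu) -
        max 0 (s₀ - (Real.log (nm g) + Real.log Bu))) ≤ Real.exp Tn := by
      rw [← Real.exp_add]
      exact Real.exp_le_exp.2 hbi
    have h2 : 0 ≤ (1 + |t|) ^ J₁ := by positivity
    calc _ = C₄ * C₃ * (X ^ (ε / 2) * X ^ (ε / 2)) * D.D0 ^ 4 * Ht ps ^ J *
          (Real.exp (5 / 3 * m) * Real.exp (2 / 3 * (Real.log V + Real.log Bu) -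
        5 / 3 * (Real.log (nm g) + Real.log Bu) -
        max 0 (s₀ - (Real.log (nm g) + Real.log Bu)))) * (1 + |t|) ^ J₁ := by ring
      _ ≤ _ := by
          rw [hee]
          gcongr
  refine k3.trans ?_
  obtain ⟨W, hW⟩ : ∃ W : ℝ, W = X ^ ε * Ht ps ^ J * Real.exp Tn * (1 + |t|) ^ J₁ := ⟨_, rfl⟩
  have hW0 : 0 ≤ W := by rw [hW]; positivity
  have hD4 : 0 ≤ D.D0 ^ 4 := by positivity
  have h43 : 0 ≤ C₄ * C₃ := by positivity
  have h3 : 3 * C₂ * B + 3 * C₂ * B' + C₄ * C₃ * D.D0 ^ 4 ≤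
      (3 * C₂ + 3 * C₂ + C₄ * C₃) * (B + B' + D.D0 ^ 4) := by
    nlinarith [mul_nonneg (by linarith : 0 ≤ C₂) hB, mul_nonneg (by linarith : 0 ≤ C₂) hB',
      mul_nonneg (by linarith : 0 ≤ C₂) hD4, mul_nonneg h43 hB, mul_nonneg h43 hB']
  have h5 := mul_le_mul_of_nonneg_right h3 hW0
  calc _ ≤ 3 * (C₂ * X ^ ε * B * Ht ps ^ J * Real.exp Tn * (1 + |t|) ^ J₁) +
        3 * (C₂ * X ^ ε * B' * Ht ps ^ J * Real.exp Tn * (1 + |t|) ^ J₁) +
        C₄ * C₃ * X ^ ε * D.D0 ^ 4 * Ht ps ^ J * Real.exp Tn * (1 + |t|) ^ J₁ := by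
        refine add_le_add (add_le_add ?_ ?_) ?_
        · linarith
        · linarith
        · exact k4
    _ = (3 * C₂ * B + 3 * C₂ * B' + C₄ * C₃ * D.D0 ^ 4) * W := by rw [hW]; ring
    _ ≤ _ := h5
    _ = _ := by rw [hW]; ring

end Crest.Agent.R017.JBX320
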