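import Crest.Agent.R017.NEk_551

/-!
# Row 17, FlatNE (helper320): the closed form of the joint exponent, both classes

* `shJ`     : the closed form of the joint exponent
* `eN`, `eR`: the exponents of the claims of the parent / of the replaced list
* `en_le`, `er_le` : the real inequality of the claims
* `bias_sh` : the bias of the difference
-/

set_option autoImplicit false
set_option linter.unusedVariables false

noncomputable section

open Complex
open scoped ComplexConjugate

namespace Crest.Agent.R017.JBX320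

open Crest.Agent.R012 Crest.Agent.R012.Eis
open Crest.Agent.R017.RG64
open Crest.Agent.R017.NEg551 (F3 F3_mono F3_nonneg F3_add)

/-- **the closed form of the joint exponent** at the near leaf: `κ = K log X`, `g = gN log X`,
`n` the parent length, `m` the own length, `η = log nm δ`, `b = log B`, `k = log V` -/
def shJ (κ g n m cL η b k : ℝ) : ℝ :=
  ex0 κ (k + b) (m - η - b) +
    min (max 0 ((2 * (m - η - b) - (k + b + κ)) / 3)) (F3 κ (m - η - b)) +
    max 0 (n - m + b - g) + cL

/-- the exponent of the claims of the parent -/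
def eN (κ g v n c3 G l m' : ℝ) : ℝ :=
  if n - m' ≤ G then min (fl κ l m' + c3) (F3 κ m' + ex0 κ l m') else exJ κ v n g l m'

/-- the exponent of the claims of the replaced list -/
def eR (κ g v n G l m' : ℝ) : ℝ :=
  if n - m' ≤ G then ex0 κ l m' else exJ κ v n g l m'

lemma fl_eq (κ k m : ℝ) : fl κ k m = ex0 κ k m + max 0 ((2 * m - (k + κ)) / 3) := by
  unfold RG64.fl ex0
  rcases le_total 0 ((k - 2 * m + κ) / 3) with h | h
  · rw [max_eq_right h, max_eq_left (by linarith)]
    ring
  · rw [max_eq_left h, max_eq_right (by linarith)]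
    ring

lemma ex0_step {κ k b m η l m' r : ℝ} (hl : |l - (k + m - η - m')| ≤ r) :
    ex0 κ l m' ≤ ex0 κ (k + b) (m - η - b) + (m' + η + b - m) + r / 3 := by
  have h1 := (abs_le.1 hl).2
  unfold ex0
  linarith

lemma exJ_step {κ v n g k b m η l m' r y a₀ : ℝ} (hl : |l - (k + m - η - m')| ≤ r)
    (hm2 : m - η - b - y - r ≤ m') (hk : k + 2 * η ≤ v + (n - m) + a₀) (hr : 0 ≤ r) (hy : 0 ≤ y)
    (ha₀ : 0 ≤ a₀) :
    exJ κ v n g l m' ≤ ex0 κ (k + b) (m - η - b) + max 0 (n - m + b - g) +
      (m' + η + b - m) + (2 * r + y + a₀ / 3) := by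
  have h1 := (abs_le.1 hl).2
  have h2 := ex0_step (κ := κ) (b := b) hl
  have e : exJ κ v n g l m' = ex0 κ l m' + max 0 ((n - m') - ((n - m') - (l - v)) / 3 - g) := rfl
  have h3 := le_max_left 0 (n - m + b - g)
  have h4 := le_max_right 0 (n - m + b - g)
  have h5 : max 0 ((n - m') - ((n - m') - (l - v)) / 3 - g) ≤
      max 0 (n - m + b - g) + (y + r + (a₀ + r) / 3) := by
    refine max_le (by linarith) ?_
    linarith
  rw [e]
  linarith

/-- **the real inequality of the claims** (parent) -/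
lemma en_le {κ v n g G c3 k b m η l m' r y a₀ : ℝ} (hl : |l - (k + m - η - m')| ≤ r)
    (hm1 : m' ≤ m - η - b + r) (hm2 : m - η - b - y - r ≤ m')
    (hk : k + 2 * η ≤ v + (n - m) + a₀) (hr : 0 ≤ r) (hy : 0 ≤ y) (ha₀ : 0 ≤ a₀) (hc3 : 0 ≤ c3) :
    eN κ g v n c3 G l m' ≤ shJ κ g n m (c3 + 2 * r + y + a₀ / 3) η b k + (m' + η + b - m) := by
  have h3 := le_max_left 0 (n - m + b - g)
  unfold eN shJ
  split_ifs with hG
  · have h1 : fl κ l m' ≤ fl κ (k + b) (m - η - b) - (m - η - b - m') + 2 * r :=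
      fl_step (by
        have e : l - (k + b + (m - η - b) - m') = l - (k + m - η - m') := by ring
        rw [e]; exact hl) hm1 hr
    rw [fl_eq κ (k + b)] at h1
    have h2 := ex0_step (κ := κ) (b := b) hl
    have h4 : F3 κ m' ≤ F3 κ (m - η - b) + r :=
      (F3_mono κ hm1).trans (F3_add κ _ r hr)
    rcases min_cases (max 0 ((2 * (m - η - b) - (k + b + κ)) / 3)) (F3 κ (m - η - b)) with h | h
    · rw [h.1]
      refine (min_le_left _ _).trans ?_
      linarith
    · rw [h.1]
      refine (min_le_right _ _).trans ?_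
      linarith
  · have h1 := exJ_step (κ := κ) (g := g) hl hm2 hk hr hy ha₀
    have h2 : 0 ≤ min (max 0 ((2 * (m - η - b) - (k + b + κ)) / 3)) (F3 κ (m - η - b)) :=
      le_min (le_max_left _ _) (F3_nonneg _ _)
    linarith

/-- **the real inequality of the claims** (replaced list) -/
lemma er_le {κ v n g G c3 k b m η l m' r y a₀ : ℝ} (hl : |l - (k + m - η - m')| ≤ r)
    (hm2 : m - η - b - y - r ≤ m')
    (hk : k + 2 * η ≤ v + (n - m) + a₀) (hr : 0 ≤ r) (hy : 0 ≤ y) (ha₀ : 0 ≤ a₀) (hc3 : 0 ≤ c3) :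
    eR κ g v n G l m' ≤ shJ κ g n m (c3 + 2 * r + y + a₀ / 3) η b k + (m' + η + b - m) := by
  have h3 := le_max_left 0 (n - m + b - g)
  have h2' : 0 ≤ min (max 0 ((2 * (m - η - b) - (k + b + κ)) / 3)) (F3 κ (m - η - b)) :=
    le_min (le_max_left _ _) (F3_nonneg _ _)
  unfold eR shJ
  split_ifs with hG
  · have h2 := ex0_step (κ := κ) (b := b) hl
    linarith
  · have h1 := exJ_step (κ := κ) (g := g) hl hm2 hk hr hy ha₀
    linarith

/-- **the bias** -/
lemma bias_sh {κ v n g d₀ yy c3 k b m η z z' a₀ : ℝ} (hk : k + 2 * η ≤ v + (n - m) + a₀)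
    (hη : 0 ≤ η) (hd : v + n - κ + 3 * g ≤ 3 * d₀ + 3 * z) (hyy : yy ≤ (n - m) + z')
    (hc3 : z + z' + a₀ / 3 ≤ c3) :
    5 / 3 * m + (2 / 3 * (k + b) - 5 / 3 * (η + b) - max 0 ((d₀ - yy) - (η + b))) ≤
      shJ κ g n m c3 η b k := by
  have h3 := le_max_right 0 (n - m + b - g)
  have h2 : 0 ≤ min (max 0 ((2 * (m - η - b) - (k + b + κ)) / 3)) (F3 κ (m - η - b)) :=
    le_min (le_max_left _ _) (F3_nonneg _ _)
  have h4 := le_max_right 0 ((d₀ - yy) - (η + b))
  unfold shJ ex0
  linarith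

lemma shJ_mono {κ g n m cL cL' η b k : ℝ} (h : cL ≤ cL') :
    shJ κ g n m cL η b k ≤ shJ κ g n m cL' η b k := by
  unfold shJ; linarith


end Crest.Agent.R017.JBX320
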