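import Crest.Agent.R017.RXm_848

/-!
# Row 17, T.7 (RG rule, exceptional class): the recursion, finite text (helper848)

* `lnP_of` : the lines of the leaf from the premises of the rule
* `rgx_const`, `par_facts` : the final constants, the facts about the parent
-/

set_option autoImplicit false
set_option maxHeartbeats 800000

noncomputable section

open Complex
open scoped ComplexConjugate

namespace Crest.Agent.R017.RXk848

open Crest.Agent.R012 Crest.Agent.R012.Eis Crest.Agent.R012.LS2 Crest.Agent.R012.Gauss880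
open Crest.Agent.R017.CM106 Crest.Agent.R017.HP842 Crest.Agent.R017.FE47
open Crest.Agent.R017.End699 hiding pw
open Crest.Agent.R017.B770
open Crest.Agent.R017.Prov71
open Crest.Agent.R017.Leg381
open Crest.Agent.R017.RG64
open Crest.Agent.R017.LegK545 (VK SFK)
open Crest.Agent.R017.RGK545 (ClXK ClK ClNK)
open Crest.Agent.R017.XS0298 (S0K)
open Crest.Agent.R017.RuleM545 (xv)
open Crest.Agent.R017.RGB545
open Crest.Agent.R017.XP699 (LL Chd hcost cst)
open Crest.Agent.R017.RX298 (xs rpB Dr rpB_length LF_natl_rpB)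

lemma chd_mono {r bm r' bm' : ℝ} (hr : r' ≤ r) (hb : bm' ≤ bm) {ps' ps : List Pq}
    (h : List.Forall₂ (Chd Dq hcost r' bm') ps' ps) : List.Forall₂ (Chd Dq hcost r bm) ps' ps := by
  refine h.imp fun p' p hh => ⟨hh.kind, hh.lump, hh.len0, hh.len.trans (by linarith), hh.s1, ?_⟩
  refine hh.s2.trans (mul_le_mul_of_nonneg_left hb ?_)
  exact Nat.cast_nonneg _

/-- the lines of the leaf -/
lemma lnP_of {Lam ι : Type*} {p : ℕ} {S₀ : Lam → ℝ → List Pq → ℝ} {L : ι → Line Lam p} {lam : Lam}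
    {K v c d₀ ε M r bm X k Bd : ℝ} {ps₀ : List Pq}
    (hpr : PremX S₀ L lam K v c d₀ ε M r bm X k Bd ps₀)
    (hX : 1 < X) {τ : ℝ} (hτε : τ ≤ ε) {n₁ v₁ : ℝ}
    {t : Bool} {r' bm' : ℝ} (hr : r' ≤ r) (hbm : bm' ≤ bm)
    (h1 : 0 ≤ n₁) (h2 : n₁ ≤ TK K) (h3 : 0 ≤ v₁) (h4 : v₁ ≤ TK K)
    (h5 : n₁ - LL Dq ps₀ / Real.log X ≤ τ) (h6 : LL Dq ps₀ / Real.log X - n₁ - 2 * c ≤ τ)
    (h7 : v₁ - v - (LL Dq ps₀ / Real.log X - n₁) ≤ τ) :
    LnP L lam K τ M r' bm' X n₁ v₁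
      (Bd * X ^ (-(Ar K ![k / Real.log X, LL Dq ps₀ / Real.log X]))) (rbx d₀ t X ps₀) := by
  have hl : 0 < Real.log X := Real.log_pos hX
  have hX0 : 0 < X := by linarith
  intro j θ l ps' hl0 hlT hch hLL hG hz
  have e1 : LL Dq (rbx d₀ t X ps₀) = LL Dq ps₀ := LL_rbx _ _ _ _
  have key := hpr (t, RI.q j) (⟨⟨![n₁, v₁], by
      constructor
      · intro i
        fin_cases i
        · exact h1
        · exact h3
      · intro i
        fin_cases i
        · exact h2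
        · exact h4⟩, θ⟩) l ps' hl0 hlT (chd_mono hr hbm hch) (by
    show max (max (n₁ - LL Dq (rbx d₀ t X ps₀) / Real.log X) (LL Dq ps' / Real.log X - n₁))
      (max (max (LL Dq (rbx d₀ t X ps₀) / Real.log X - n₁ - 2 * c)
        (v₁ - v - (LL Dq (rbx d₀ t X ps₀) / Real.log X - n₁)))
        ((L j).G ![K, v₁, n₁, l / Real.log X, LL Dq ps' / Real.log X] θ.1)) ≤ ε
    rw [e1]
    refine max_le (max_le (h5.trans hτε) ?_) (max_le (max_le (h6.trans hτε) (h7.trans hτε))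
      (hG.trans hτε))
    have : LL Dq ps' / Real.log X ≤ n₁ + τ := by
      rw [div_le_iff₀ hl]; exact hLL
    linarith)
    (fun hzj q hq hlq => (hz hzj q hq hlq).trans (by
      have : τ * Real.log X ≤ ε * Real.log X := mul_le_mul_of_nonneg_right hτε hl.le
      linarith))
  have key' : (L j).Φ lam l ((L j).b θ.1 * Real.log X) ps' ≤
      Bd * cst hcost ps' (rbx d₀ t X ps₀) ^ M *
      X ^ (4 / 3 * n₁ + (v₁ + K) / 3 +
        (L j).F ![K, v₁, n₁, l / Real.log X, LL Dq ps' / Real.log X] θ.1 -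
        Ar K ![k / Real.log X, LL Dq (rbx d₀ t X ps₀) / Real.log X]) := key
  rw [e1] at key'
  refine key'.trans (le_of_eq ?_)
  rw [Real.rpow_sub hX0, Real.rpow_neg hX0.le]
  ring

/-- the final constants -/
lemma rgx_const {Cg Cl Co Cf T H H₀ Z B g x3 El F : ℝ} (hCg : 0 ≤ Cg) (hCl : 0 ≤ Cl) (hCo : 0 ≤ Co)
    (hCf : 0 ≤ Cf) (hT : 1 ≤ T) (hH : 1 ≤ H) (hHH : H₀ ≤ H) (hZ : 1 ≤ Z) (hB : 0 ≤ B)
    (hg : 0 ≤ g) (hg1 : g ≤ 1) (hx3 : 0 ≤ x3) (hgx : g * x3 ≤ 1) (hF : 0 ≤ F)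
    (hEl : El = Cl * T * (1 + (g + Cf * T * g) * (Co * T * (B * x3 * H) + Co * T * (B * 1 * H) + Z +
      ((B * H + B * H) * T + Z)) + Cf * T * H₀ * (Z + B))) :
    Cg * T ^ 5 * (El + B * H + Z + 1) * H * F ≤
      Cg * (Cl * (1 + (1 + Cf) * (2 * Co + 2) + Cf) + 2) * T ^ 8 * (H * H) * ((Z + B) * F) := by
  have hT0 : 0 ≤ T := by linarith
  have hH0 : 0 ≤ H := by linarith
  have hZB : 1 ≤ Z + B := by linarith
  have hZB0 : 0 ≤ Z + B := by linarith
  have k1 : g * (Co * T * (B * x3 * H) + Co * T * (B * 1 * H) + Z + ((B * H + B * H) * T + Z)) ≤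
      (2 * Co + 2) * (T * H * (Z + B)) := by
    have a1 : g * (Co * T * (B * x3 * H)) ≤ Co * T * (B * 1 * H) := by
      calc g * (Co * T * (B * x3 * H)) = Co * T * (B * (g * x3) * H) := by ring
        _ ≤ _ := by gcongr
    have a2 : g * (Co * T * (B * 1 * H)) ≤ Co * T * (B * 1 * H) :=
      mul_le_of_le_one_left (by positivity) hg1
    have a3 : g * (Z + ((B * H + B * H) * T + Z)) ≤ 2 * (T * H * (Z + B)) := by
      have b1 : g * (Z + ((B * H + B * H) * T + Z)) ≤ Z + ((B * H + B * H) * T + Z) :=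
        mul_le_of_le_one_left (by positivity) hg1
      have b2 : Z ≤ T * H * Z := le_mul_of_one_le_left (by linarith)
        (one_le_mul_of_one_le_of_one_le hT hH)
      nlinarith
    have a4 : Co * T * (B * 1 * H) ≤ Co * (T * H * (Z + B)) := by
      have : 0 ≤ Co * (T * H * Z) := by positivity
      nlinarith
    calc g * (Co * T * (B * x3 * H) + Co * T * (B * 1 * H) + Z + ((B * H + B * H) * T + Z)) =
        g * (Co * T * (B * x3 * H)) + g * (Co * T * (B * 1 * H)) +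
          g * (Z + ((B * H + B * H) * T + Z)) := by ring
      _ ≤ Co * (T * H * (Z + B)) + Co * (T * H * (Z + B)) + 2 * (T * H * (Z + B)) := by linarith
      _ = _ := by ring
  have hM : 0 ≤ T * H * (Z + B) := by positivity
  have k2 : (g + Cf * T * g) * (Co * T * (B * x3 * H) + Co * T * (B * 1 * H) + Z +
      ((B * H + B * H) * T + Z)) ≤ (1 + Cf) * (2 * Co + 2) * (T * (T * H * (Z + B))) := by
    have e1 : (g + Cf * T * g) * (Co * T * (B * x3 * H) + Co * T * (B * 1 * H) + Z +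
        ((B * H + B * H) * T + Z)) = (1 + Cf * T) *
        (g * (Co * T * (B * x3 * H) + Co * T * (B * 1 * H) + Z + ((B * H + B * H) * T + Z))) := by
      ring
    rw [e1]
    have e2 : 1 + Cf * T ≤ (1 + Cf) * T := by nlinarith
    calc (1 + Cf * T) *
        (g * (Co * T * (B * x3 * H) + Co * T * (B * 1 * H) + Z + ((B * H + B * H) * T + Z))) ≤
        ((1 + Cf) * T) * ((2 * Co + 2) * (T * H * (Z + B))) := by gcongr
      _ = _ := by ring
  have k3 : 1 ≤ T * (T * H * (Z + B)) :=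
    one_le_mul_of_one_le_of_one_le hT (one_le_mul_of_one_le_of_one_le
      (one_le_mul_of_one_le_of_one_le hT hH) hZB)
  have k4 : Cf * T * H₀ * (Z + B) ≤ Cf * (T * (T * H * (Z + B))) := by
    have : Cf * T * H₀ * (Z + B) ≤ Cf * T * H * (Z + B) := by gcongr
    refine this.trans ?_
    have e : Cf * (T * (T * H * (Z + B))) = T * (Cf * T * H * (Z + B)) := by ring
    rw [e]
    exact le_mul_of_one_le_left (by positivity) hT
  have k5 : El ≤ Cl * (1 + (1 + Cf) * (2 * Co + 2) + Cf) * (T ^ 3 * H * (Z + B)) := by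
    rw [hEl]
    calc Cl * T * (1 + (g + Cf * T * g) * (Co * T * (B * x3 * H) + Co * T * (B * 1 * H) + Z +
      ((B * H + B * H) * T + Z)) + Cf * T * H₀ * (Z + B)) ≤
      Cl * T * (T * (T * H * (Z + B)) + (1 + Cf) * (2 * Co + 2) * (T * (T * H * (Z + B))) +
        Cf * (T * (T * H * (Z + B)))) := by gcongr
      _ = _ := by ring
  have hT3 : 1 ≤ T ^ 3 := one_le_pow₀ hT
  have k6 : B * H + Z + 1 ≤ 2 * (T ^ 3 * H * (Z + B)) := by
    have a1 : B * H + Z + 1 ≤ 2 * (H * (Z + B)) := by nlinarith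
    have a2 : H * (Z + B) ≤ T ^ 3 * (H * (Z + B)) := le_mul_of_one_le_left (by positivity) hT3
    nlinarith
  have hC₅ : 0 ≤ Cl * (1 + (1 + Cf) * (2 * Co + 2) + Cf) := by positivity
  calc Cg * T ^ 5 * (El + B * H + Z + 1) * H * F ≤
      Cg * T ^ 5 * ((Cl * (1 + (1 + Cf) * (2 * Co + 2) + Cf) + 2) * (T ^ 3 * H * (Z + B))) *
        H * F := by
        have : El + B * H + Z + 1 ≤
          (Cl * (1 + (1 + Cf) * (2 * Co + 2) + Cf) + 2) * (T ^ 3 * H * (Z + B)) := by linarith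
        gcongr
    _ = _ := by ring

lemma MkB_of {M x : ℝ} {ps₀ : List Pq} (h : Lmp x ps₀) (hs : ∀ q ∈ ps₀, Dq.s2 q ≤ M) :
    RX298.MkB M ps₀ := by
  match ps₀, h with
  | p₁ :: p₂ :: p₃ :: gs, h =>
    obtain ⟨⟨a1, a2⟩, ⟨b1, b2⟩, _, _, _⟩ := h
    exact ⟨a2, b2, a1, b1, hs p₁ (by simp), hs p₂ (by simp)⟩

lemma Lg2B_of {x y : ℝ} (hxy : y ≤ x) {ps₀ : List Pq} (h : Lmp x ps₀) :
    RXi848.Lg2B y ps₀ := by
  match ps₀, h with
  | p₁ :: p₂ :: p₃ :: gs, h =>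
    obtain ⟨_, _, _, a, b⟩ := h
    exact ⟨hxy.trans a, hxy.trans b⟩

/-- the facts about the parent -/
lemma par_facts {K v c d₀ ε X k : ℝ} {ps₀ : List Pq} (hl : 0 < Real.log X) (hc : 0 < c)
    (h : HpX (fun x => max (max (max (x 0 + 50 * c - v) (2 * x 1 + 100 * c - K - v))
      (max (6 * x 1 - 5 * K) (3 * K - 4 * x 1))) ((v + x 1 - K) / 3 - d₀)) (min c 1 / 100)
      (d₀ + 2 * c) ε X k ps₀) :
    ∃ μ : ℝ, μ ≤ c / 100 ∧ μ ≤ 1 / 100 ∧ μ ≤ ε / 100 ∧ k ≤ (v - 50 * c + μ) * Real.log X ∧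
      2 * LL Dq ps₀ + 100 * (c * Real.log X) ≤ (K + v + μ) * Real.log X ∧
      6 * LL Dq ps₀ ≤ (5 * K + μ) * Real.log X ∧ 3 * (K * Real.log X) ≤ 4 * LL Dq ps₀ +
        μ * Real.log X ∧ Lmp ((d₀ + 3 / 2 * c) * Real.log X) ps₀ := by
  obtain ⟨h1, p₁, p₂, p₃, gs, rfl, l1, l2, l3, h2, h3⟩ := h
  obtain ⟨μ, hμ⟩ : ∃ μ : ℝ, μ = min (ε / 100) (min c 1 / 100) := ⟨_, rfl⟩
  have hμc : μ ≤ c / 100 := by
    rw [hμ]
    exact (min_le_right _ _).trans (div_le_div_of_nonneg_right (min_le_left _ _) (by norm_num))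
  have hμ1 : μ ≤ 1 / 100 := by
    rw [hμ]
    exact (min_le_right _ _).trans (div_le_div_of_nonneg_right (min_le_right _ _) (by norm_num))
  have hμε : μ ≤ ε / 100 := by rw [hμ]; exact min_le_left _ _
  have h1' : max (max (max (k / Real.log X + 50 * c - v)
      (2 * (LL Dq (p₁ :: p₂ :: p₃ :: gs) / Real.log X) + 100 * c - K - v))
      (max (6 * (LL Dq (p₁ :: p₂ :: p₃ :: gs) / Real.log X) - 5 * K)
        (3 * K - 4 * (LL Dq (p₁ :: p₂ :: p₃ :: gs) / Real.log X))))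
      ((v + LL Dq (p₁ :: p₂ :: p₃ :: gs) / Real.log X - K) / 3 - d₀) ≤ μ := by
    rw [hμ]; exact h1
  rw [← hμ] at h2 h3
  obtain ⟨x, hx⟩ : ∃ x, x = LL Dq (p₁ :: p₂ :: p₃ :: gs) / Real.log X := ⟨_, rfl⟩
  have hx' : LL Dq (p₁ :: p₂ :: p₃ :: gs) = x * Real.log X := by
    rw [hx, div_mul_cancel₀ _ hl.ne']
  rw [← hx] at h1'
  rw [hx']
  obtain ⟨h4, -⟩ := max_le_iff.1 h1'
  obtain ⟨h5, h6⟩ := max_le_iff.1 h4
  obtain ⟨h7, h8⟩ := max_le_iff.1 h5
  obtain ⟨h9, h10⟩ := max_le_iff.1 h6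
  refine ⟨μ, hμc, hμ1, hμε, ?_, ?_, ?_, ?_, l1, l2, l3, ?_, ?_⟩
  · have : k / Real.log X ≤ v - 50 * c + μ := by linarith
    rwa [div_le_iff₀ hl] at this
  · have : (2 * x + 100 * c) * Real.log X ≤ (K + v + μ) * Real.log X :=
      mul_le_mul_of_nonneg_right (by linarith) hl.le
    linarith
  · have : (6 * x) * Real.log X ≤ (5 * K + μ) * Real.log X :=
      mul_le_mul_of_nonneg_right (by linarith) hl.le
    linarith
  · have : (3 * K) * Real.log X ≤ (4 * x + μ) * Real.log X :=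
      mul_le_mul_of_nonneg_right (by linarith) hl.le
    linarith
  · have h11 : d₀ + 3 / 2 * c ≤ p₁.z / Real.log X := by
      have : d₀ + 2 * c ≤ p₁.z / Real.log X + μ := h2
      linarith
    rwa [le_div_iff₀ hl] at h11
  · have h11 : d₀ + 3 / 2 * c ≤ p₂.z / Real.log X := by
      have : d₀ + 2 * c ≤ p₂.z / Real.log X + μ := h3
      linarith
    rwa [le_div_iff₀ hl] at h11

end Crest.Agent.R017.RXk848
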