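import Crest.Agent.R017.NEk_551
import Crest.Agent.R017.RXn_848

/-!
# Row 17, T.7 (FlatNE, exceptional class): the near leaf (helper298)

* `NTcX` : the claims for the sub-lists of the parent (class N's `NTc` at `S0K Dk`)
* `NTcR` : the claims for the sub-lists of the replaced list (slope form without loss, (J))
* `NNumX` : the numerical facts about the replaced length `d`
* `NLeafX` : the near leaf
-/

set_option autoImplicit false

noncomputable section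

open Complex
open scoped ComplexConjugate

namespace Crest.Agent.R017.RX298

open Crest.Agent.R012 Crest.Agent.R012.Eis Crest.Agent.R012.LS2 Crest.Agent.R012.Gauss880
open Crest.Agent.R017.CM106 Crest.Agent.R017.HP842 Crest.Agent.R017.FE47
open Crest.Agent.R017.End699 hiding pw
open Crest.Agent.R017.B770
open Crest.Agent.R017.Prov71
open Crest.Agent.R017.Leg381
open Crest.Agent.R017.RGB545
open Crest.Agent.R017.RuleM545
open Crest.Agent.R017.XP699 (LL Chd hcost cst)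
open Crest.Agent.R017.RG64
open Crest.Agent.R017.NEg551
open Crest.Agent.R017.NE73 (gN)
open Crest.Agent.R017.PX764 (Dk)
open Crest.Agent.R017.XS0298 (S0K)
open Crest.Agent.R017.RXk848 (LnP Lmp)

/-- **the claims** for the sub-lists of the parent `ps₀`, exceptional class: class N's `NTc` word
for word with `S0K Dk P h` -/
structure NTcX (P : DPar) (h : ℝ → ℝ) (K v c ε X r b M Bd : ℝ) (ps₀ : List Pq) : Prop where
  fl : ∀ (l : ℝ) (ps' : List Pq), 0 ≤ l →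
    l ≤ (v + ε) * Real.log X + (LL Dq ps₀ - LL Dq ps') → List.Forall₂ (Chd Dq hcost r b) ps' ps₀ →
    LL Dq ps₀ - LL Dq ps' ≤ (gN K c (LL Dq ps₀ / Real.log X) + c + ε) * Real.log X →
    S0K Dk P h l ps' ≤ Bd * cst hcost ps' ps₀ ^ M *
      Real.exp (RG64.fl (K * Real.log X) l (LL Dq ps') + c / 3 * Real.log X)
  sl : ∀ (l : ℝ) (ps' : List Pq), 0 ≤ l →
    l ≤ (v + ε) * Real.log X + (LL Dq ps₀ - LL Dq ps') → List.Forall₂ (Chd Dq hcost r b) ps' ps₀ →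
    LL Dq ps₀ - LL Dq ps' ≤ (gN K c (LL Dq ps₀ / Real.log X) + c + ε) * Real.log X →
    S0K Dk P h l ps' ≤ Bd * cst hcost ps' ps₀ ^ M *
      Real.exp (F3 (K * Real.log X) (LL Dq ps') + ex0 (K * Real.log X) l (LL Dq ps'))
  tp : ∀ (l : ℝ) (ps' : List Pq), 0 ≤ l →
    l ≤ (v + ε) * Real.log X + (LL Dq ps₀ - LL Dq ps') → List.Forall₂ (Chd Dq hcost r b) ps' ps₀ →
    (gN K c (LL Dq ps₀ / Real.log X) - ε) * Real.log X ≤ LL Dq ps₀ - LL Dq ps' →
    LL Dq ps₀ - LL Dq ps' ≤ (gN K c (LL Dq ps₀ / Real.log X) + c + ε) * Real.log X →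
    S0K Dk P h l ps' ≤ Bd * cst hcost ps' ps₀ ^ M * Real.exp (ex0 (K * Real.log X) l (LL Dq ps'))
  jj : ∀ (l : ℝ) (ps' : List Pq), 0 ≤ l →
    l ≤ (v + ε) * Real.log X + (LL Dq ps₀ - LL Dq ps') → List.Forall₂ (Chd Dq hcost r b) ps' ps₀ →
    (gN K c (LL Dq ps₀ / Real.log X) - ε) * Real.log X ≤ LL Dq ps₀ - LL Dq ps' →
    S0K Dk P h l ps' ≤ Bd * cst hcost ps' ps₀ ^ M * Real.exp (exJ (K * Real.log X)
      (v * Real.log X) (LL Dq ps₀) (gN K c (LL Dq ps₀ / Real.log X) * Real.log X) l (LL Dq ps'))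

/-- **the claims** for the sub-lists of the replaced list `base` (all of them far): slope form
without loss, (J) beyond the removed length `g` -/
structure NTcR (P : DPar) (h : ℝ → ℝ) (K v c ε X r b M Bd : ℝ) (base : List Pq) : Prop where
  sl : ∀ (l : ℝ) (ps' : List Pq), 0 ≤ l →
    l ≤ (v + ε) * Real.log X + (LL Dq base - LL Dq ps') → List.Forall₂ (Chd Dq hcost r b) ps' base →
    LL Dq base - LL Dq ps' ≤ (gN K c (LL Dq base / Real.log X) + c + ε) * Real.log X →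
    S0K Dk P h l ps' ≤ Bd * cst hcost ps' base ^ M * Real.exp (ex0 (K * Real.log X) l (LL Dq ps'))
  jj : ∀ (l : ℝ) (ps' : List Pq), 0 ≤ l →
    l ≤ (v + ε) * Real.log X + (LL Dq base - LL Dq ps') → List.Forall₂ (Chd Dq hcost r b) ps' base →
    (gN K c (LL Dq base / Real.log X) - ε) * Real.log X ≤ LL Dq base - LL Dq ps' →
    S0K Dk P h l ps' ≤ Bd * cst hcost ps' base ^ M * Real.exp (exJ (K * Real.log X)
      (v * Real.log X) (LL Dq base) (gN K c (LL Dq base / Real.log X) * Real.log X) l (LL Dq ps'))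

lemma NTcX.mono {P : DPar} {h : ℝ → ℝ} {K v c ε ε' X r r' b b' M Bd : ℝ} {ps₀ : List Pq}
    (H : NTcX P h K v c ε X r b M Bd ps₀) (hε : ε' ≤ ε) (hr : r' ≤ r) (hb : b' ≤ b)
    (hX : 0 ≤ Real.log X) : NTcX P h K v c ε' X r' b' M Bd ps₀ := by
  have e1 : ∀ x : ℝ, (x + ε') * Real.log X ≤ (x + ε) * Real.log X := fun x =>
    mul_le_mul_of_nonneg_right (by linarith) hX
  have e2 : ∀ x : ℝ, (x - ε) * Real.log X ≤ (x - ε') * Real.log X := fun x =>
    mul_le_mul_of_nonneg_right (by linarith) hX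
  constructor
  · intro l ps' h1 h2 h3 h4
    exact H.fl l ps' h1 (h2.trans (by linarith [e1 v])) (Chd.mono' hr hb h3) (h4.trans (e1 _))
  · intro l ps' h1 h2 h3 h4
    exact H.sl l ps' h1 (h2.trans (by linarith [e1 v])) (Chd.mono' hr hb h3) (h4.trans (e1 _))
  · intro l ps' h1 h2 h3 h4 h5
    exact H.tp l ps' h1 (h2.trans (by linarith [e1 v])) (Chd.mono' hr hb h3) ((e2 _).trans h4)
      (h5.trans (e1 _))
  · intro l ps' h1 h2 h3 h4
    exact H.jj l ps' h1 (h2.trans (by linarith [e1 v])) (Chd.mono' hr hb h3) ((e2 _).trans h4)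

lemma NTcR.mono {P : DPar} {h : ℝ → ℝ} {K v c ε ε' X r r' b b' M Bd : ℝ} {base : List Pq}
    (H : NTcR P h K v c ε X r b M Bd base) (hε : ε' ≤ ε) (hr : r' ≤ r) (hb : b' ≤ b)
    (hX : 0 ≤ Real.log X) : NTcR P h K v c ε' X r' b' M Bd base := by
  have e1 : ∀ x : ℝ, (x + ε') * Real.log X ≤ (x + ε) * Real.log X := fun x =>
    mul_le_mul_of_nonneg_right (by linarith) hX
  have e2 : ∀ x : ℝ, (x - ε) * Real.log X ≤ (x - ε') * Real.log X := fun x =>
    mul_le_mul_of_nonneg_right (by linarith) hX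
  constructor
  · intro l ps' h1 h2 h3 h4
    exact H.sl l ps' h1 (h2.trans (by linarith [e1 v])) (Chd.mono' hr hb h3) (h4.trans (e1 _))
  · intro l ps' h1 h2 h3 h4
    exact H.jj l ps' h1 (h2.trans (by linarith [e1 v])) (Chd.mono' hr hb h3) ((e2 _).trans h4)

/-- **the claims at a cell**: flat form up to the removed length `g + 2 c + x`, `x = log nm δ` -/
lemma NTcX.fx {P : DPar} {h : ℝ → ℝ} {K v c ε X r b M Bd : ℝ} {ps₀ : List Pq}
    (H : NTcX P h K v c ε X r b M Bd ps₀) (hc : 0 ≤ c) (hε : 0 ≤ ε) (hεc : ε ≤ c)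
    (hX : 0 ≤ Real.log X) (hBd : 0 ≤ Bd) {l x : ℝ} {ps' : List Pq} (hx : 0 ≤ x) (hl : 0 ≤ l)
    (hlv : l ≤ (v + ε) * Real.log X + (LL Dq ps₀ - LL Dq ps') - 3 * x)
    (hch : List.Forall₂ (Chd Dq hcost r b) ps' ps₀)
    (hγ : LL Dq ps₀ - LL Dq ps' ≤
      (gN K c (LL Dq ps₀ / Real.log X) + 2 * c) * Real.log X + x) :
    S0K Dk P h l ps' ≤ Bd * cst hcost ps' ps₀ ^ M *
      Real.exp (RG64.fl (K * Real.log X) l (LL Dq ps') + 3 * c * Real.log X) := by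
  obtain ⟨L, hL⟩ : ∃ L, L = Real.log X := ⟨_, rfl⟩
  obtain ⟨n, hn⟩ : ∃ n, n = LL Dq ps₀ := ⟨_, rfl⟩
  obtain ⟨g, hg⟩ : ∃ g, g = gN K c (LL Dq ps₀ / Real.log X) := ⟨_, rfl⟩
  have hcs : 0 ≤ cst hcost ps' ps₀ ^ M :=
    Real.rpow_nonneg (zero_le_one.trans (XP699.one_le_cst XP699.one_le_hcost _ _)) _
  have hB : 0 ≤ Bd * cst hcost ps' ps₀ ^ M := mul_nonneg hBd hcs
  have hcL : 0 ≤ c * L := mul_nonneg hc (hL ▸ hX)
  have hεL : 0 ≤ ε * L := mul_nonneg hε (hL ▸ hX)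
  have hεcL : ε * L ≤ c * L := mul_le_mul_of_nonneg_right hεc (hL ▸ hX)
  rw [← hg] at hγ
  rw [← hL, ← hn] at hγ hlv
  have e1 : (g + 2 * c) * L = g * L + 2 * (c * L) := by ring
  have e2 : (v + ε) * L = v * L + ε * L := by ring
  have e3 : (g + c + ε) * L = g * L + c * L + ε * L := by ring
  have e4 : (g - ε) * L = g * L - ε * L := by ring
  have e5 : 3 * c * L = 3 * (c * L) := by ring
  have e6 : c / 3 * L = (c * L) / 3 := by ring
  rcases le_total (n - LL Dq ps') ((g + c + ε) * L) with h1 | h1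
  · refine (H.fl l ps' hl (by rw [← hL, ← hn]; linarith) hch (by rw [← hg, ← hL, ← hn]; exact h1)).trans
      (mul_le_mul_of_nonneg_left (Real.exp_le_exp.2 ?_) hB)
    rw [← hL, e5, e6]
    linarith
  · refine (H.jj l ps' hl (by rw [← hL, ← hn]; linarith) hch
      (by rw [← hg, ← hL, ← hn]; linarith)).trans
      (mul_le_mul_of_nonneg_left (Real.exp_le_exp.2 ?_) hB)
    rw [← hg, ← hL, ← hn, e5]
    unfold RG64.exJ
    have h2 := RG64.ex0_le_fl (K * L) l (LL Dq ps')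
    unfold RG64.ex0 at h2
    have h3 : max 0 ((n - LL Dq ps') - ((n - LL Dq ps') - (l - v * L)) / 3 - g * L) ≤
        3 * (c * L) := by
      refine max_le (by linarith) ?_
      linarith
    linarith

/-- **the claims of the replaced list at a cell**: slope form with the loss `3 c` up to the removed
length `g + 2 c + x`, `x = log nm δ` -/
lemma NTcR.fx {P : DPar} {h : ℝ → ℝ} {K v c ε X r b M Bd : ℝ} {base : List Pq}
    (H : NTcR P h K v c ε X r b M Bd base) (hc : 0 ≤ c) (hε : 0 ≤ ε) (hεc : ε ≤ c)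
    (hX : 0 ≤ Real.log X) (hBd : 0 ≤ Bd) {l x : ℝ} {ps' : List Pq} (hx : 0 ≤ x) (hl : 0 ≤ l)
    (hlv : l ≤ (v + ε) * Real.log X + (LL Dq base - LL Dq ps') - 3 * x)
    (hch : List.Forall₂ (Chd Dq hcost r b) ps' base)
    (hγ : LL Dq base - LL Dq ps' ≤
      (gN K c (LL Dq base / Real.log X) + 2 * c) * Real.log X + x) :
    S0K Dk P h l ps' ≤ Bd * cst hcost ps' base ^ M *
      Real.exp (ex0 (K * Real.log X) l (LL Dq ps') + 3 * c * Real.log X) := by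
  obtain ⟨L, hL⟩ : ∃ L, L = Real.log X := ⟨_, rfl⟩
  obtain ⟨n, hn⟩ : ∃ n, n = LL Dq base := ⟨_, rfl⟩
  obtain ⟨g, hg⟩ : ∃ g, g = gN K c (LL Dq base / Real.log X) := ⟨_, rfl⟩
  have hcs : 0 ≤ cst hcost ps' base ^ M :=
    Real.rpow_nonneg (zero_le_one.trans (XP699.one_le_cst XP699.one_le_hcost _ _)) _
  have hB : 0 ≤ Bd * cst hcost ps' base ^ M := mul_nonneg hBd hcs
  have hcL : 0 ≤ c * L := mul_nonneg hc (hL ▸ hX)
  have hεL : 0 ≤ ε * L := mul_nonneg hε (hL ▸ hX)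
  have hεcL : ε * L ≤ c * L := mul_le_mul_of_nonneg_right hεc (hL ▸ hX)
  rw [← hg] at hγ
  rw [← hL, ← hn] at hγ hlv
  have e1 : (g + 2 * c) * L = g * L + 2 * (c * L) := by ring
  have e2 : (v + ε) * L = v * L + ε * L := by ring
  have e3 : (g + c + ε) * L = g * L + c * L + ε * L := by ring
  have e4 : (g - ε) * L = g * L - ε * L := by ring
  have e5 : 3 * c * L = 3 * (c * L) := by ring
  rcases le_total (n - LL Dq ps') ((g + c + ε) * L) with h1 | h1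
  · refine (H.sl l ps' hl (by rw [← hL, ← hn]; linarith) hch (by rw [← hg, ← hL, ← hn]; exact h1)).trans
      (mul_le_mul_of_nonneg_left (Real.exp_le_exp.2 ?_) hB)
    rw [← hL, e5]
    linarith
  · refine (H.jj l ps' hl (by rw [← hL, ← hn]; linarith) hch
      (by rw [← hg, ← hL, ← hn]; linarith)).trans
      (mul_le_mul_of_nonneg_left (Real.exp_le_exp.2 ?_) hB)
    rw [← hg, ← hL, ← hn, e5]
    unfold RG64.exJ RG64.ex0
    have h3 : max 0 ((n - LL Dq ps') - ((n - LL Dq ps') - (l - v * L)) / 3 - g * L) ≤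
        3 * (c * L) := by
      refine max_le (by linarith) ?_
      linarith
    linarith

/-- the numerical facts about the replaced length `d` (over `log X`): the bias conditions with the
rooms `g + 30 c` and `e₁ K`, and `n + d ≤ K` -/
structure NNumX (K v c e₁ d ε X : ℝ) (ps₀ : List Pq) : Prop where
  bg : LL Dq ps₀ + (v + 3 * gN K c (LL Dq ps₀ / Real.log X) + 90 * c) * Real.log X ≤
    (K + 3 * d + ε) * Real.log X
  be : LL Dq ps₀ + (v + 3 * (e₁ * K)) * Real.log X ≤ (K + 3 * d + ε) * Real.log X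
  nd : LL Dq ps₀ + d * Real.log X ≤ (K + ε) * Real.log X

variable {Lam ι : Type*} {p : ℕ}

/-- **the near leaf** (class E; `π` = the reduced data): class N's `NLeaf` for the differences
`xs q .. (d log X) ps`, with the claims and the lines for both base lists -/
def NLeafX (π : Lam → DPar) (h : ℝ → ℝ) (RR : LBq → (Eis → ℂ) → ℝ → Prop)
    (L : ι → Line Lam p) (φ₀ φ₁ φβ : ℝ → ℝ → ℝ → ℝ) (K v c e₁ d : ℝ) : Prop :=
  ∀ (lam : Lam) (N : ℕ) (c₀ : ℝ), 1 ≤ c₀ → ∃ B₀ : ℝ, 0 ≤ B₀ ∧ ∀ ε M : ℝ, 0 < ε → 0 ≤ M →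
    ∃ J₀ δ₀ : ℝ, 0 ≤ J₀ ∧ 0 < δ₀ ∧ ∀ (δ : ℝ) (Jn Aw : ℕ) (Cw R η S : ℝ), 0 ≤ δ → δ ≤ δ₀ →
    J₀ ≤ Jn → Jn + 2 ≤ Aw → 0 ≤ Cw → 0 ≤ R → 0 < η → η ≤ 1 / 2 → 0 ≤ S →
    ∃ C r X₁ : ℝ, 0 ≤ C ∧ 0 ≤ r ∧ ∀ X : ℝ, 3 ≤ X → X₁ ≤ X → ∀ ps₀ : List Pq, ps₀.length ≤ N →
    (∀ q ∈ ps₀, 0 ≤ Dq.len q ∧ Dq.len q ≤ c₀ * Real.log X) → (∀ q ∈ ps₀, Dq.s2 q ≤ X ^ c₀) →
    NNum K v c ε X ps₀ → NNumX K v c e₁ d ε X ps₀ → Lmp ((d + 3 / 2 * c) * Real.log X) ps₀ →
    ∀ (q : Eis) (ps : List Pf) (Lv : ℝ) (N₁ : ℕ),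
    NFacts K v (gN K c (LL Dq ps₀ / Real.log X)) ε X ps₀ ps Lv N₁ →
    IsPrim q → (nm q : ℝ) ≤ X ^ c₀ → SbL S ps ps₀ → ∀ Bd : ℝ, 1 ≤ Bd →
    NTcX (π lam) h K v c (2 * ε) X r (C * X ^ B₀) M Bd ps₀ →
    NTcR (π lam) h K v c (2 * ε) X r (C * X ^ B₀) M Bd (rpB (d * Real.log X) ps₀) →
    (∀ t : Bool, LnP L lam K ε M r (C * X ^ B₀) X (LF ps / Real.log X) (Lv / Real.log X) Bd
      (rbx d t X ps₀)) →
    RR ⟨Cw, η, Aw, X ^ K, Real.exp (LF ps), X ^ (8 * (K + 1)), R, Jn, N₁,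
        X ^ φ₀ (LL Dq ps₀ / Real.log X) (Lv / Real.log X) (LF ps / Real.log X),
        X ^ φ₁ (LL Dq ps₀ / Real.log X) (Lv / Real.log X) (LF ps / Real.log X),
        X ^ φβ (LL Dq ps₀ / Real.log X) (Lv / Real.log X) (LF ps / Real.log X),
        X ^ (-φβ (LL Dq ps₀ / Real.log X) (Lv / Real.log X) (LF ps / Real.log X)),
        Real.exp (min (gN K c (LL Dq ps₀ / Real.log X) * Real.log X)
          (LF ps - (LL Dq ps₀ - gN K c (LL Dq ps₀ / Real.log X) * Real.log X))),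
        Real.exp (min (gN K c (LL Dq ps₀ / Real.log X) * Real.log X)
          (LF ps - (LL Dq ps₀ - gN K c (LL Dq ps₀ / Real.log X) * Real.log X)))⟩
      (xs q (X ^ δ) (X ^ δ) (π lam) h (d * Real.log X) ps)
      (C * X ^ ε * (Ht ps * Ht (natl ps₀)) ^ J₀ * Bd * Real.exp (2 * LF ps))

end Crest.Agent.R017.RX298
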