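import Crest.Agent.R017.JBXa_320
import Crest.Agent.R017.JBXs_320
import Crest.Agent.R017.NXe_298

/-!
# Row 17, FlatNE class E (helper320): the joint numbers of the near leaf

* `clE`, `clR` : the claims with one exponent
* **`jbx_core`** : the joint blocks of `xs` at the near leaf
-/

set_option autoImplicit false
set_option maxHeartbeats 1600000

noncomputable section

open Complex
open scoped ComplexConjugate

namespace Crest.Agent.R017.JBX320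

open Crest.Agent.R012 Crest.Agent.R012.Eis Crest.Agent.R012.Gauss880
open Crest.Agent.R017.CM106 Crest.Agent.R017.HP842 Crest.Agent.R017.FE47
open Crest.Agent.R017.B770
open Crest.Agent.R017.Prov71
open Crest.Agent.R017.Leg381
open Crest.Agent.R017.XP699 (LL Chd hcost cst)
open Crest.Agent.R017.RG64
open Crest.Agent.R017.RGK545 (ClXK ClK ClNK MergeListK)
open Crest.Agent.R017.PX764 (Dk)
open Crest.Agent.R017.XS0298 (S0K)
open Crest.Agent.R017.Sup271 (NPm)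
open Crest.Agent.R017.RX298
open Crest.Agent.R017.NEg551 (F3 F3_mono F3_nonneg F3_add NNum NFacts)
open Crest.Agent.R017.NE73 (gN)
open Crest.Agent.R017.RXg848 (clN_of)
open Crest.Agent.R017.RXi848 (Lg2B LF_le_len)
open Crest.Agent.R017.RXk848 (Lmp)

/-- claims on natural lists from the premises of a rule -/
lemma clN_premX {D : Dat} {E : ℝ → ℝ → ℝ} {B₁ s a Q lo σ r b M : ℝ} (hs : s ≤ r) (hQ : Q ≤ b)
    (hM : 0 ≤ M) (hJ : M ≤ D.J) (hB₁ : 0 ≤ B₁)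
    (H : ∀ (l : ℝ) (ps' : List Pq), 0 ≤ l → l ≤ D.v + (D.n - LL Dq ps') + a →
      lo ≤ LL Dq ps' → LL Dq ps' ≤ σ → List.Forall₂ (Chd Dq hcost r b) ps' D.ps₀ →
      S0K Dk D.P D.h l ps' ≤ B₁ * cst hcost ps' D.ps₀ ^ M * Real.exp (E l (LL Dq ps'))) :
    ClNK Dk D E (B₁ * Ht (natl D.ps₀) ^ M) s a Q lo σ := by
  have h1 := clN_of Dk (D := {D with J := M}) (E := E) (s := s) (a := a) (Q := Q)
    (lo := lo) (σ := σ) hs hQ hM rfl hB₁ H
  intro q ps k b1 b2 b3 b4 b5 b6 b7 b8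
  have h2 : LegK545.SFK Dk D.z D.D0 q D.P D.h k ps ≤ B₁ * Ht (natl D.ps₀) ^ M * Ht ps ^ M *
      Real.exp (E k (LF ps)) := h1 q ps k b1 b2 b3 b4 b5 b6 b7 b8
  refine h2.trans ?_
  have h3 := one_le_Ht ps
  have h4 := one_le_Ht (natl D.ps₀)
  have h5 : Ht ps ^ M ≤ Ht ps ^ D.J := Real.rpow_le_rpow_of_exponent_le h3 hJ
  have h6 : 0 ≤ Ht (natl D.ps₀) ^ M := Real.rpow_nonneg (by linarith) _
  gcongr

lemma LL_rpBx (d : ℝ) (ps : List Pq) : LL Dq (rpB d ps) = LL Dq ps := by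
  rw [← RXg848.LF_natl, ← RXg848.LF_natl, LF_natl_rpB]

lemma Ht_natl_rpBx (d : ℝ) (ps : List Pq) : Ht (natl (rpB d ps)) = Ht (natl ps) := by
  rw [RXg848.Ht_natl, RXg848.Ht_natl]
  rcases ps with _ | ⟨p₁, _ | ⟨p₂, ps⟩⟩ <;> rfl

/-- **the claims of the parent with one exponent** -/
theorem clE {P : DPar} {h : ℝ → ℝ} {K v c ε X r b M Bd : ℝ} {ps₀ : List Pq}
    (hT : NTcX P h K v c ε X r b M Bd ps₀) (hM : 0 ≤ M) (hBd : 0 ≤ Bd) (hX : 1 ≤ X) (hε : 0 ≤ ε)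
    (hc : 0 ≤ c) {D : Dat} (hP : D.P = P) (hh : D.h = h) (hps : D.ps₀ = ps₀) (hJ : M ≤ D.J)
    (hn : D.n = LL Dq ps₀) (hv : D.v = v * Real.log X) {s a Q σ : ℝ} (hs : s ≤ r) (hQ : Q ≤ b)
    (ha : a ≤ ε * Real.log X) :
    ClNK Dk D (eN (K * Real.log X) (gN K c (LL Dq ps₀ / Real.log X) * Real.log X)
      (v * Real.log X) (LL Dq ps₀) (c / 3 * Real.log X)
      ((gN K c (LL Dq ps₀ / Real.log X) + c) * Real.log X)) (Bd * Ht (natl ps₀) ^ M) s a Q 0 σ := by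
  subst hP hh hps
  have hlX : 0 ≤ Real.log X := Real.log_nonneg hX
  have hεl : 0 ≤ ε * Real.log X := mul_nonneg hε hlX
  refine clN_premX hs hQ hM hJ hBd ?_
  intro l ps' hl hla hlo hσ hch
  have hla' : l ≤ (v + ε) * Real.log X + (LL Dq D.ps₀ - LL Dq ps') := by
    rw [hv, hn] at hla; linarith
  have hcst : 0 ≤ Bd * cst hcost ps' D.ps₀ ^ M := mul_nonneg hBd (Real.rpow_nonneg
    (zero_le_one.trans (XP699.one_le_cst XP699.one_le_hcost _ _)) _)
  unfold eN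
  split_ifs with hG
  · have hG' : LL Dq D.ps₀ - LL Dq ps' ≤
        (gN K c (LL Dq D.ps₀ / Real.log X) + c + ε) * Real.log X := by linarith
    have h1 := hT.fl l ps' hl hla' hch hG'
    have h2 := hT.sl l ps' hl hla' hch hG'
    rcases min_cases (fl (K * Real.log X) l (LL Dq ps') + c / 3 * Real.log X)
      (F3 (K * Real.log X) (LL Dq ps') + ex0 (K * Real.log X) l (LL Dq ps')) with h | h
    · rw [h.1]; exact h1
    · rw [h.1]; exact h2
  · exact hT.jj l ps' hl hla' hch (by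
      have h3 := not_le.1 hG
      have h4 : (gN K c (LL Dq D.ps₀ / Real.log X) + c) * Real.log X =
        gN K c (LL Dq D.ps₀ / Real.log X) * Real.log X + c * Real.log X := by ring
      have := mul_nonneg hc hlX
      linarith)

/-- **the claims of the replaced list with one exponent** -/
theorem clR {P : DPar} {h : ℝ → ℝ} {K v c ε X r b M Bd d : ℝ} {ps₀ : List Pq}
    (hT : NTcR P h K v c ε X r b M Bd (rpB d ps₀)) (hM : 0 ≤ M) (hBd : 0 ≤ Bd) (hX : 1 ≤ X)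
    (hε : 0 ≤ ε) (hc : 0 ≤ c) {D : Dat} (hP : D.P = P) (hh : D.h = h) (hps : D.ps₀ = ps₀)
    (hJ : M ≤ D.J) (hn : D.n = LL Dq ps₀) (hv : D.v = v * Real.log X) {s a Q σ : ℝ} (hs : s ≤ r)
    (hQ : Q ≤ b) (ha : a ≤ ε * Real.log X) :
    ClNK Dk (Dr d D) (eR (K * Real.log X) (gN K c (LL Dq ps₀ / Real.log X) * Real.log X)
      (v * Real.log X) (LL Dq ps₀) ((gN K c (LL Dq ps₀ / Real.log X) + c) * Real.log X))
      (Bd * Ht (natl ps₀) ^ M) s a Q 0 σ := by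
  subst hP hh hps
  have hlX : 0 ≤ Real.log X := Real.log_nonneg hX
  have hεl : 0 ≤ ε * Real.log X := mul_nonneg hε hlX
  have key := clN_premX (D := Dr d D) (E := eR (K * Real.log X)
      (gN K c (LL Dq D.ps₀ / Real.log X) * Real.log X)
      (v * Real.log X) (LL Dq D.ps₀) ((gN K c (LL Dq D.ps₀ / Real.log X) + c) * Real.log X))
    (B₁ := Bd) (s := s) (a := a) (Q := Q) (lo := 0) (σ := σ) (r := r) (b := b) (M := M) hs hQ hM
    hJ hBd (fun l ps' hl hla hlo hσ hch => by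
      have hla2 : l ≤ D.v + (D.n - LL Dq ps') + a := hla
      have hla' : l ≤ (v + ε) * Real.log X + (LL Dq (rpB d D.ps₀) - LL Dq ps') := by
        rw [LL_rpBx]; rw [hv, hn] at hla2; linarith
      unfold eR
      split_ifs with hG
      · have hG' : LL Dq (rpB d D.ps₀) - LL Dq ps' ≤
            (gN K c (LL Dq (rpB d D.ps₀) / Real.log X) + c + ε) * Real.log X := by
          rw [LL_rpBx]; linarith
        exact hT.sl l ps' hl hla' hch hG'
      · have h3 := not_le.1 hG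
        have h5 := hT.jj l ps' hl hla' hch (by
          rw [LL_rpBx]
          have := mul_nonneg hc hlX
          linarith)
        rw [LL_rpBx] at h5
        exact h5)
  have e1 : Ht (natl (Dr d D).ps₀) = Ht (natl D.ps₀) := Ht_natl_rpBx d D.ps₀
  rw [e1] at key
  exact key

lemma lg3_of' {s x y d₀ Nr : ℝ} (hs : 0 ≤ s) (hd₀ : 0 ≤ d₀) {ps : List Pf} {ps₀ : List Pq}
    (h : SbL s ps ps₀) (hx : Lg2B x ps₀) (hn : LF (natl ps₀) - LF ps ≤ y) (hy : 0 ≤ y)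
    (hN : (ps₀.length : ℝ) ≤ Nr) (hd : d₀ + Nr * s ≤ x) : Lg3 (d₀ - y) d₀ ps := by
  match ps, ps₀, h, hx with
  | [], [], _, hx => exact hx.elim
  | [_], [_], _, hx => exact hx.elim
  | p :: p' :: ps, q :: q' :: ps₀, h, hx =>
    unfold SbL at h
    cases h with
    | cons h1 h =>
      cases h with
      | cons h2 h =>
        obtain ⟨x1, x2⟩ := hx
        have e1 : natl (q :: q' :: ps₀) = (q, false) :: (q', false) :: natl ps₀ := rfl
        rw [e1, LF_cons, LF_cons, LF_cons, LF_cons] at hn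
        have h3 := LF_le_len hs h
        have h4 : p.1.z ≤ q.z + s := h1.2.2.2.2
        have h5 : p'.1.z ≤ q'.z + s := h2.2.2.2.2
        have h6 : (((q :: q' :: ps₀).length : ℕ) : ℝ) = ps₀.length + 2 := by
          rw [List.length_cons, List.length_cons]; push_cast; ring
        have h7 : ((ps₀.length : ℝ) + 2) * s ≤ Nr * s := by
          refine mul_le_mul_of_nonneg_right ?_ hs
          rw [← h6]; exact hN
        have h8 : 0 ≤ Nr * s := le_trans (by positivity) h7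
        show d₀ - y ≤ p.1.z ∧ d₀ - y ≤ p'.1.z ∧ d₀ - y ≤ p.1.z + p'.1.z - d₀
        have e2 : ((q, false) : Pf).1.z = q.z := rfl
        have e3 : ((q', false) : Pf).1.z = q'.z := rfl
        rw [e2, e3] at hn
        refine ⟨by linarith, by linarith, by linarith⟩

lemma mkBx {M x : ℝ} {ps₀ : List Pq} (h : Lmp x ps₀) (hs : ∀ q ∈ ps₀, Dq.s2 q ≤ M) :
    MkB M ps₀ := by
  match ps₀, h with
  | p₁ :: p₂ :: p₃ :: gs, h =>
    obtain ⟨⟨a1, a2⟩, ⟨b1, b2⟩, _, _, _⟩ := h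
    exact ⟨a2, b2, a1, b1, hs p₁ (by simp), hs p₂ (by simp)⟩

lemma lg2Bx {x : ℝ} {ps₀ : List Pq} (h : Lmp x ps₀) : Lg2B x ps₀ := by
  match ps₀, h with
  | p₁ :: p₂ :: p₃ :: gs, h =>
    obtain ⟨_, _, _, a, b⟩ := h
    exact ⟨a, b⟩

/-- near parents: `g ≤ d` -/
lemma g_le_dx {K v c e₁ d ε X : ℝ} {ps₀ : List Pq} (hX : 3 ≤ X) (hK : 0 ≤ K) (hc : 0 ≤ c)
    (hn : NNum K v c ε X ps₀) (hx : NNumX K v c e₁ d ε X ps₀) :
    gN K c (LL Dq ps₀ / Real.log X) * Real.log X ≤ d * Real.log X := by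
  have hlX : 0 < Real.log X := Real.log_pos (by linarith)
  have h1 := hn.top
  have h2 := hn.Kn
  have h3 := hx.bg
  have h4 := mul_le_mul_of_nonneg_right hn.ec hlX.le
  have h5 := mul_nonneg hK hlX.le
  have h6 := mul_nonneg hc hlX.le
  obtain ⟨g, hg⟩ : ∃ x : ℝ, x = gN K c (LL Dq ps₀ / Real.log X) := ⟨_, rfl⟩
  rw [← hg] at h3 ⊢
  nlinarith

/-- numbers -/
lemma fin_jb {C Xa Bd H0M D4 HJ T E Xe C' HH : ℝ} (hC : 0 ≤ C) (hXa : 0 ≤ Xa) (hBd : 1 ≤ Bd)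
    (hH : 1 ≤ H0M) (hD4 : D4 ≤ Xa) (hXa1 : 1 ≤ Xa) (hHJ : 0 ≤ HJ) (hHH : H0M * HJ ≤ HH)
    (hXe : Xa * Xa ≤ Xe) (hE : 0 ≤ E) (hT : 0 ≤ T) (hC' : 3 * C ≤ C') :
    C * Xa * (Bd * H0M + Bd * H0M + D4) * HJ * E * T ≤ C' * Xe * HH * Bd * E * T := by
  have hH0 : 0 ≤ H0M := by linarith
  have hC'0 : 0 ≤ C' := by linarith
  have hBd0 : 0 ≤ Bd := by linarith
  have hBH : 1 ≤ Bd * H0M := one_le_mul_of_one_le_of_one_le hBd hH
  have h1 : Bd * H0M + Bd * H0M + D4 ≤ 3 * (Bd * H0M) * Xa := by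
    have a1 : Bd * H0M ≤ Bd * H0M * Xa := le_mul_of_one_le_right (by linarith) hXa1
    have a2 : D4 ≤ Bd * H0M * Xa := hD4.trans (le_mul_of_one_le_left hXa hBH)
    linarith
  have hHH0 : 0 ≤ HH := (mul_nonneg hH0 hHJ).trans hHH
  have hXe0 : 0 ≤ Xe := (mul_nonneg hXa hXa).trans hXe
  have h2 : C * Xa * (Bd * H0M + Bd * H0M + D4) * HJ ≤ C' * Xe * HH * Bd := by
    calc C * Xa * (Bd * H0M + Bd * H0M + D4) * HJ ≤ C * Xa * (3 * (Bd * H0M) * Xa) * HJ := by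
          gcongr
      _ = (3 * C) * (Xa * Xa) * (H0M * HJ) * Bd := by ring
      _ ≤ C' * Xe * HH * Bd := by gcongr
  have h3 := mul_le_mul_of_nonneg_right (mul_le_mul_of_nonneg_right h2 hE) hT
  linarith

/-- numbers -/
lemma near_num {K c v ε L n g m Lv w₄ r : ℝ} (hL : 0 < L) (hK : 0 ≤ K) (hc : 0 < c)
    (hε : 0 < ε) (n1 : 2 * n + 100 * c * L ≤ (K + v + ε) * L)
    (n3 : 3 * K * L ≤ 4 * n + ε * L) (n4 : 3 * (v + g) + 100 * c ≤ 2 * K + ε) (n6 : ε ≤ c)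
    (hgL : g * L = n - 3 / 4 * (K * L) + c * L) (f1 : n ≤ (K + ε) * L) (f2 : n - g * L ≤ m)
    (f3 : m ≤ n + ε * L) (f5 : Lv ≤ (v + ε) * L + (n - m))
    (hA1 : 12 * (10 * r + w₄) ≤ L * c) (hr : 0 ≤ r) :
    300 * (c * L) ≤ K * L ∧ 0 ≤ g * L ∧ Lv + w₄ ≤ 8 * (K + 1) * L ∧ m ≤ 8 * (K + 1) * L ∧
      m ≤ (2 * K + 2) * L := by
  have a1 := mul_le_mul_of_nonneg_right n4 hL.le
  have a2 := mul_le_mul_of_nonneg_right n6 hL.le
  have a3 : 0 < ε * L := by positivity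
  have a4 : 0 ≤ K * L := by positivity
  have a5 : 0 < c * L := by positivity
  have b1 : 300 * (c * L) ≤ K * L := by linarith
  have b2 : 0 ≤ g * L := by linarith
  exact ⟨b1, b2, by linarith, by linarith, by linarith⟩

lemma dl_num {N c δ L : ℝ} (hN : 0 ≤ N) (h : δ ≤ c / (18 * (N + 1))) (hδ : 0 ≤ δ)
    (hL : 0 ≤ L) : N * (δ * L) ≤ c * L / 18 := by
  rw [le_div_iff₀ (by positivity)] at h
  have h2 : N * δ ≤ c / 18 := by nlinarith
  calc N * (δ * L) = N * δ * L := by ring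
    _ ≤ c / 18 * L := mul_le_mul_of_nonneg_right h2 hL
    _ = _ := by ring

lemma gL_eq {n L K c g : ℝ} (hL : 0 < L) (h : g = n / L - 3 / 4 * K + c) :
    g * L = n - 3 / 4 * (K * L) + c * L := by
  rw [h]
  field_simp

set_option maxHeartbeats 6400000 in
/-- **the joint blocks of the difference at the near leaf** -/
theorem jbx_core {Lam : Type*} {π : Lam → DPar} (hP : ∀ lam, (π lam).OK)
    (hnp : ∀ lam, ¬ NPm (π lam).n (π lam).ψ (π lam).l₂ 1) {h : ℝ → ℝ} {c₁ : ℝ} (hpu : PU h c₁)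
    {K v c e₁ d : ℝ} (hK : 0 ≤ K) (hc : 0 < c) (hd : 0 ≤ d) :
    ∀ (lam : Lam) (N : ℕ) (c₀ : ℝ), 1 ≤ c₀ → ∀ ε ε' M : ℝ, 0 < ε → 0 < ε' → 0 ≤ M →
    ∃ J₀ δ₀ : ℝ, 0 ≤ J₀ ∧ 0 < δ₀ ∧ ∀ (δ : ℝ) (Jn : ℕ) (Ss : ℝ), 0 ≤ δ → δ ≤ δ₀ → J₀ ≤ Jn →
    0 ≤ Ss → ∀ cw : ℝ, 1 ≤ cw → ∃ C X₁ : ℝ, 1 ≤ C ∧ ∀ X : ℝ, 3 ≤ X → X₁ ≤ X → ∀ ps₀ : List Pq, ps₀.length ≤ N →
    (∀ q ∈ ps₀, Dq.s2 q ≤ X ^ c₀) → NNum K v c ε X ps₀ → NNumX K v c e₁ d ε X ps₀ →
    Lmp ((d + 3 / 2 * c) * Real.log X) ps₀ →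
    ∀ (q : Eis) (ps : List Pf) (Lv : ℝ) (N₁ : ℕ),
    NFacts K v (gN K c (LL Dq ps₀ / Real.log X)) ε X ps₀ ps Lv N₁ →
    IsPrim q → (nm q : ℝ) ≤ X ^ c₀ → SbL Ss ps ps₀ → ∀ Bd r b : ℝ, 1 ≤ Bd → C ≤ r →
    C * X ^ (c₀ + 2 * K + 2) ≤ b →
    NTcX (π lam) h K v c (2 * ε) X r b M Bd ps₀ →
    NTcR (π lam) h K v c (2 * ε) X r b M Bd (rpB (d * Real.log X) ps₀) →
    ∀ dd ∈ LS2.S (X ^ (8 * (K + 1))), ∀ B V : ℝ, 1 ≤ B → B ≤ X ^ (8 * (K + 1)) → 1 ≤ V →
    V ≤ cw * N₁ / (nm dd : ℝ) ^ 2 → ∀ t : ℝ,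
    E1551.JB (X ^ (8 * (K + 1))) (xs q (X ^ δ) (X ^ δ) (π lam) h (d * Real.log X) ps)
      (fun _ => True) dd B V t ≤
      C * X ^ ε' * (Ht ps * Ht (natl ps₀)) ^ J₀ * Bd *
        Real.exp (shJ (K * Real.log X) (gN K c (LL Dq ps₀ / Real.log X) * Real.log X)
          (LL Dq ps₀) (LF ps) (c * Real.log X) (Real.log (nm dd)) (Real.log B) (Real.log V)) *
        (1 + |t|) ^ (Jn : ℝ) := by
  intro lam N c₀ hc₀ ε ε' M hε hε' hM
  obtain ⟨b₀, hb₀⟩ : ∃ z : ℝ, z = 8 * (K + 1) := ⟨_, rfl⟩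
  have hb8 : 8 ≤ b₀ := by rw [hb₀]; linarith
  have hNr : (0 : ℝ) ≤ N := Nat.cast_nonneg _
  obtain ⟨J, hJ⟩ : ∃ z : ℝ, z = 6 + M := ⟨_, rfl⟩
  have hJ0 : 0 ≤ J := by rw [hJ]; linarith
  obtain ⟨ε₁, hε₁⟩ : ∃ z : ℝ, z = ε' / (4 * b₀) := ⟨_, rfl⟩
  have hε₁0 : 0 < ε₁ := by rw [hε₁]; positivity
  have hNJ0 : 0 ≤ N * J := mul_nonneg hNr hJ0
  have hNJ1 : (N + 1) * J = N * J + J := by ring
  refine ⟨12 + (N + 1) * J, min (ε' / 16) (c / (18 * (N + 1))), by positivity,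
    lt_min (by positivity) (by positivity), ?_⟩
  intro δ Jn Ss hδ hδ' hJn hSs cw hcw
  obtain ⟨C, r, hC, hr, H⟩ := jb_xs hpu N (B₀ := c₀) hc₀ (ε := ε₁) hε₁0 (J := J) (J₁ := (Jn : ℝ))
    (by rw [hJ]; linarith) (by linarith) (by linarith)
  refine ⟨3 * C + r + 2 * Ss + Real.exp r, max (max (nm (π lam).n : ℝ)
    (Real.exp (12 * (10 * r + (4 + Real.log cw)) / c))) (max (Real.exp ((4 + Real.log cw + r) / ε)) (Real.exp (N * Ss / c))),
    by have := Real.exp_pos r; linarith, ?_⟩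
  intro X hX3 hXX ps₀ hlen hs2 hnum hnx hlmp q ps Lv N₁ hF hq hqX hps Bd r' b' hBd hr' hb' hT hTR
    dd hdd B V hB1 hBY hV1 hV2 t
  have hX0 : 0 < X := by linarith
  have hX1 : 1 ≤ X := by linarith
  obtain ⟨w₄, hw₄⟩ : ∃ z : ℝ, z = 4 + Real.log cw := ⟨_, rfl⟩
  have hw40 : 4 ≤ w₄ := by rw [hw₄]; linarith [Real.log_nonneg hcw]
  rw [← hw₄] at hXX
  have hnPX : (nm (π lam).n : ℝ) ≤ X := (le_max_left _ _).trans ((le_max_left _ _).trans hXX)
  have hA1 := (le_max_right _ _).trans ((le_max_left _ _).trans hXX)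
  have hA2 := (le_max_left _ _).trans ((le_max_right _ _).trans hXX)
  have hA3 := (le_max_right _ _).trans ((le_max_right _ _).trans hXX)
  rw [← Real.le_log_iff_exp_le hX0] at hA1 hA2 hA3
  have hL0 : 0 < Real.log X := Real.log_pos (by linarith)
  have hgd := g_le_dx hX3 hK hc.le hnum hnx
  have hgN : gN K c (LL Dq ps₀ / Real.log X) = LL Dq ps₀ / Real.log X - 3 / 4 * K + c := rfl
  obtain ⟨L, hL⟩ : ∃ z : ℝ, z = Real.log X := ⟨_, rfl⟩
  obtain ⟨n, hn⟩ : ∃ z : ℝ, z = LL Dq ps₀ := ⟨_, rfl⟩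
  obtain ⟨g, hg⟩ : ∃ z : ℝ, z = gN K c (LL Dq ps₀ / Real.log X) := ⟨_, rfl⟩
  obtain ⟨m, hm⟩ : ∃ z : ℝ, z = LF ps := ⟨_, rfl⟩
  have n1 := hnum.top
  have n2 := hnum.nK
  have n3 := hnum.Kn
  have n4 := hnum.vg
  have n6 := hnum.ec
  have x1 := hnx.bg
  have f1 := hF.nK
  have f2 := hF.lo
  have f3 := hF.hi
  have f4 := hF.v0
  have f5 := hF.lv
  have f6 := hF.N1
  have f7 := hF.N0
  rw [← hL] at hL0 n1 n2 n3 x1 f1 f2 f3 f5 hA1 hA2 hA3
  rw [← hn] at n1 n2 n3 x1 f1 f2 f3 f5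
  rw [← hm] at f2 f3 f5
  rw [← hg, ← hL] at hgd
  rw [hn, hL, ← hg] at f2 x1
  rw [← hL] at f2 x1
  rw [← hn] at f2 x1
  rw [← hg] at n4 hgN
  rw [← hL, ← hn] at hgN
  rw [div_le_iff₀ hc] at hA1 hA3
  rw [div_le_iff₀ hε] at hA2
  have hgL : g * L = n - 3 / 4 * (K * L) + c * L := gL_eq hL0 hgN
  have hεL : ε * L ≤ c * L := mul_le_mul_of_nonneg_right n6 hL0.le
  have hεL0 : 0 ≤ ε * L := by positivity
  have hcL0 : 0 < c * L := by positivity
  have hKL0 : 0 ≤ K * L := by positivity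
  obtain ⟨hcK, hg0, q1, q2, q3⟩ := near_num hL0 hK hc hε n1 n3 n4 n6 hgL f1 f2 f3 f5 hA1 hr
  rw [← hb₀] at q1 q2
  -- the base
  obtain ⟨X', hX'⟩ : ∃ z : ℝ, z = X ^ b₀ := ⟨_, rfl⟩
  have hlX' : Real.log X' = b₀ * L := by rw [hX', Real.log_rpow hX0, hL]
  have hXX' : X ≤ X' := by
    rw [hX']
    calc X = X ^ (1 : ℝ) := (Real.rpow_one X).symm
      _ ≤ X ^ b₀ := Real.rpow_le_rpow_of_exponent_le hX1 (by linarith)
  have hX'1 : 1 ≤ X' := by linarith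
  have hX'0 : 0 < X' := by linarith
  have hXc : X ^ c₀ ≤ X' ^ c₀ := Real.rpow_le_rpow hX0.le hXX' (by linarith)
  have hX'c : X' ≤ X' ^ c₀ := by
    calc X' = X' ^ (1 : ℝ) := (Real.rpow_one X').symm
      _ ≤ X' ^ c₀ := Real.rpow_le_rpow_of_exponent_le hX'1 hc₀
  have hN1 : (1 : ℝ) ≤ N₁ := by
    have := Real.one_le_exp f4
    linarith
  have hdd2 := (LS2.mem_S (by rw [← hb₀, ← hX']; exact hX'0.le)).1 hdd
  obtain ⟨hddY, hddp, -⟩ := hdd2
  rw [← hb₀, ← hX'] at hddY hBY ⊢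
  have hdn : (0 : ℝ) < nm dd := by exact_mod_cast nm_pos.2 hddp.ne_zero
  have hd1 : (1 : ℝ) ≤ nm dd := by exact_mod_cast nm_pos.2 hddp.ne_zero
  have hV0 : 0 < V := by linarith
  have hVd : V * (nm dd : ℝ) ^ 2 ≤ cw * N₁ := (le_div_iff₀ (by positivity)).mp hV2
  have hcw0 : 0 < cw := by linarith
  have hlV : Real.log V + 2 * Real.log (nm dd) ≤ Lv + w₄ := by
    have h4 : cw * N₁ ≤ cw * Real.exp (Lv + 4) :=
      mul_le_mul_of_nonneg_left (by linarith) hcw0.le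
    have h3 := Real.log_le_log (by positivity) (hVd.trans h4)
    rw [Real.log_mul hV0.ne' (by positivity), Real.log_pow,
      Real.log_mul hcw0.ne' (Real.exp_pos _).ne', Real.log_exp] at h3
    push_cast at h3
    rw [hw₄]
    linarith
  have hη0 : 0 ≤ Real.log (nm dd) := Real.log_nonneg hd1
  have hb0 : 0 ≤ Real.log B := Real.log_nonneg hB1
  have hk0 : 0 ≤ Real.log V := Real.log_nonneg hV1
  have hVX : V ≤ X' := by
    rw [← Real.log_le_log_iff hV0 hX'0, hlX']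
    linarith
  -- the data
  obtain ⟨D, hD⟩ : ∃ D : Dat, D = ⟨π lam, h, X ^ δ, X ^ δ, ps₀, J, K * L, v * L, n⟩ := ⟨_, rfl⟩
  have hDP : D.P = π lam := by rw [hD]
  have hDh : D.h = h := by rw [hD]
  have hDz : D.z = X ^ δ := by rw [hD]
  have hDD : D.D0 = X ^ δ := by rw [hD]
  have hDps : D.ps₀ = ps₀ := by rw [hD]
  have hDJ : D.J = J := by rw [hD]
  have hDκ : D.κ = K * L := by rw [hD]
  have hDv : D.v = v * L := by rw [hD]
  have hDn : D.n = n := by rw [hD]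
  have hDX : DX h N J c₀ X' D :=
    { ok := by rw [hDP]; exact hP lam
      hh := hDh
      D0 := by rw [hDD]; exact Real.one_le_rpow hX1 hδ
      J := hDJ
      len := by rw [hDps]; exact hlen
      np := by rw [hDP]; exact hnp lam
      nP := by rw [hDP]; exact (hnPX.trans hXX').trans hX'c
      mkb := by rw [hDps]; exact mkBx hlmp fun q hq => (hs2 q hq).trans hXc }
  have hlD0 : Real.log D.D0 = δ * L := by rw [hDD, Real.log_rpow hX0, hL]
  have hδ1 : δ ≤ ε' / 16 := hδ'.trans (min_le_left _ _)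
  have hδ2 : N * (δ * L) ≤ c * L / 18 := dl_num hNr (hδ'.trans (min_le_right _ _)) hδ hL0.le
  obtain ⟨Q, hQ⟩ : ∃ z : ℝ, z = X ^ (c₀ + 2 * K + 2) := ⟨_, rfl⟩
  have hQ0 : 0 ≤ Q := by rw [hQ]; positivity
  rw [← hQ] at hb'
  have hexpr := Real.exp_pos r
  have hQb : Q * Real.exp r ≤ b' := by
    refine le_trans ?_ hb'
    rw [mul_comm]
    refine mul_le_mul_of_nonneg_right ?_ hQ0
    linarith
  have hqQ : (nm q : ℝ) * Real.exp (LF ps) ≤ Q := by
    rw [← hm, hQ]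
    have h1 : Real.exp m ≤ X ^ (2 * K + 2) := by
      rw [Real.rpow_def_of_pos hX0, ← hL]
      refine Real.exp_le_exp.2 ?_
      linarith
    calc (nm q : ℝ) * Real.exp m ≤ X ^ c₀ * X ^ (2 * K + 2) := by gcongr
      _ = _ := by rw [← Real.rpow_add hX0]; congr 1; ring
  have hBd0 : 0 ≤ Bd := by linarith
  have hMJ : M ≤ D.J := by rw [hDJ, hJ]; linarith
  have cE := clE hT hM hBd0 hX1 (by positivity) hc.le hDP hDh hDps hMJ (hDn.trans hn)
    (by rw [hDv, hL]) (s := Ss + r) (a := ε * L + w₄ + r) (Q := Q * Real.exp r) (σ := m + r)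
    (by linarith) hQb (by rw [← hL]; linarith)
  have cR := clR hTR hM hBd0 hX1 (by positivity) hc.le hDP hDh hDps hMJ (hDn.trans hn)
    (by rw [hDv, hL]) (s := 2 * Ss + r) (a := ε * L + w₄ + r) (Q := Q * Real.exp r) (σ := m + r)
    (by linarith) hQb (by rw [← hL]; linarith)
  rw [← hg, ← hn, ← hL] at cE cR
  obtain ⟨yy, hyy⟩ : ∃ z : ℝ, z = max 0 (n - m) := ⟨_, rfl⟩
  have hyy0 : 0 ≤ yy := by rw [hyy]; exact le_max_left _ _
  have hyy1 : n - m ≤ yy := by rw [hyy]; exact le_max_right _ _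
  have hyy2 : yy ≤ (n - m) + ε * L := by rw [hyy]; exact max_le (by linarith) (by linarith)
  have hyy3 : yy ≤ g * L := by rw [hyy]; exact max_le hg0 (by linarith)
  have hdL0 : 0 ≤ d * L := by positivity
  have hQX : QXm c₀ X' Ss Q (d * L - yy) (d * L) D q ps :=
    { prim := hq
      qX := hqX.trans hXc
      qQ := hqQ
      sb := by rw [hDps]; exact hps
      lg := by
        refine lg3_of' (Nr := N) hSs hdL0 hps (lg2Bx hlmp)
          (by rw [RXg848.LF_natl, ← hn, ← hm]; exact hyy1) hyy0 (by exact_mod_cast hlen) ?_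
        rw [← hL]
        linarith
      LX := by rw [← hm, hlX']; exact q2
      d0 := hdL0
      s0 := hSs
      g0 := by linarith
      gd := by linarith }
  have key := H X' (by linarith) D hDX _ _ _ _ Ss (ε * L + w₄) Q (Real.exp r) 0 (m + r)
    (d * L - yy) (d * L) (mul_nonneg hBd0 (Real.rpow_nonneg (by linarith [one_le_Ht (natl ps₀)]) _))
    (mul_nonneg hBd0 (Real.rpow_nonneg (by linarith [one_le_Ht (natl ps₀)]) _))
    le_rfl le_rfl cE cR q ps hQX (by rw [hm]) dd X' B t V (fun _ => True) hddp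
    (hddY.trans hX'c) hX'0.le hB1 (hBY.trans hX'c) hV1 hVX
    (by rw [hDv, hDn, ← hm]; linarith)
    (shJ (K * L) (g * L) n m (c * L) (Real.log (nm dd)) (Real.log B) (Real.log V))
    (fun l m' hl hm'0 a1 a2 a3 => by
      rw [← hm] at a1 a2 a3 ⊢
      rw [hlD0] at a2
      have hkk : Real.log V + 2 * Real.log (nm dd) ≤ v * L + (n - m) + (ε * L + w₄) := by linarith
      have hy0 : 0 ≤ N * (δ * L) := by positivity
      constructor
      · refine (en_le (y := N * (δ * L)) (a₀ := ε * L + w₄) a3 a1 a2 hkk hr hy0 (by linarith)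
          (by positivity)).trans ?_
        have := shJ_mono (κ := K * L) (g := g * L) (n := n) (m := m) (η := Real.log (nm dd))
          (b := Real.log B) (k := Real.log V)
          (show c / 3 * L + 2 * r + N * (δ * L) + (ε * L + w₄) / 3 ≤ c * L by linarith)
        linarith
      · refine (er_le (c3 := c / 3 * L) (y := N * (δ * L)) (a₀ := ε * L + w₄) a3 a2 hkk hr hy0
          (by linarith) (by positivity)).trans ?_
        have := shJ_mono (κ := K * L) (g := g * L) (n := n) (m := m) (η := Real.log (nm dd))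
          (b := Real.log B) (k := Real.log V)
          (show c / 3 * L + 2 * r + N * (δ * L) + (ε * L + w₄) / 3 ≤ c * L by linarith)
        linarith)
    (by
      rw [← hm]
      exact bias_sh (v := v * L) (z := -(20 * (c * L))) (z' := ε * L) (a₀ := ε * L + w₄)
        (by linarith) hη0 (by linarith) hyy2 (by linarith))
  rw [hDz, hDD, hDP, hDh] at key
  have eX : X' ^ ε₁ = X ^ (ε' / 4) := by
    rw [hX', ← Real.rpow_mul hX0.le]
    congr 1
    rw [hε₁]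
    field_simp
  have eD : (X ^ δ) ^ 4 ≤ X ^ (ε' / 4) := by
    rw [← Real.rpow_natCast, ← Real.rpow_mul hX0.le]
    refine Real.rpow_le_rpow_of_exponent_le hX1 ?_
    push_cast
    linarith
  rw [eX] at key
  rw [← hg, ← hn, ← hL, ← hm]
  refine key.trans ?_
  have hH0 := one_le_Ht (natl ps₀)
  have hH1 := one_le_Ht ps
  refine fin_jb (by linarith) (by positivity) hBd (Real.one_le_rpow hH0 hM) eD
    (Real.one_le_rpow hX1 (by positivity)) (Real.rpow_nonneg (by linarith) _) ?_ ?_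
    (Real.exp_pos _).le (by positivity) (by linarith)
  · rw [Real.mul_rpow (by linarith) (by linarith), mul_comm]
    refine mul_le_mul (Real.rpow_le_rpow_of_exponent_le hH1 (by linarith))
      (Real.rpow_le_rpow_of_exponent_le hH0 (by linarith))
      (Real.rpow_nonneg (by linarith) _) (Real.rpow_nonneg (by linarith) _)
  · rw [← Real.rpow_add hX0]
    exact Real.rpow_le_rpow_of_exponent_le hX1 (by linarith)

end Crest.Agent.R017.JBX320
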