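import Crest.Agent.R017.Leg9_381
import Crest.Agent.R017.RGd_64

/-!
# Row 17, C.REMg (RG), glue (helper381): the merged rule as `RG64.MergeList`
-/

set_option autoImplicit false

noncomputable section

namespace Crest.Agent.R017.RG64

open Crest.Agent.R012 Crest.Agent.R012.Eis Crest.Agent.R012.LS2 Crest.Agent.R012.Gauss880
open Crest.Agent.R017.CM106 Crest.Agent.R017.HP842 Crest.Agent.R017.FE47
open Crest.Agent.R017.End699 hiding pw
open Crest.Agent.R017.B770
open Crest.Agent.R017.Prov71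

/-- **the merged rule** -/
theorem mergeList_of {h : ℝ → ℝ} {c : ℝ} (hpu : PU h c) (N : ℕ) {B₀ : ℝ} (hB₀ : 0 ≤ B₀) {ε : ℝ}
    (hε : 0 < ε) {M : ℝ} (hM : 0 ≤ M) : MergeList h N B₀ ε M := by
  classical
  obtain ⟨C, r, hC, hr, H⟩ := Leg381.merge_list hpu N hB₀ hε hM
  refine ⟨C, r, hC, hr, ?_⟩
  intro X hX P hP z D0 q g0 hD0 hg0 hg0X b hb hbX Us hUs k ps hk hkX hlen hps Bd hBd hyp
  have h1 := H X hX P hP z D0 q hD0 g0 hg0 hg0X b Us hb hbX hUs k ps hk hkX hlen hps Bd hBd hyp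
  convert h1

end Crest.Agent.R017.RG64
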