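import Crest.Agent.R017.RGd_64
import Crest.Agent.R017.RGm_381

/-!
# Row 17 (helper180): joint blocks of a flagged list, no condition on the divisor

* `jb_flag` : `JB` of a flagged list from the natural lists, any exponent function
* `jb_list` : the same with `merge_list`
-/

set_option autoImplicit false

noncomputable section

open Complex
open scoped ComplexConjugate

namespace Crest.Agent.R017.JBf180

open Crest.Agent.R012 Crest.Agent.R012.Eis Crest.Agent.R012.LS2 Crest.Agent.R012.Gauss880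
open Crest.Agent.R012.Div277 (dvs mem_dvs isPrim_of_mem_dvs dvs_zero)
open Crest.Agent.R012.Weight600 (osc pw)
open Crest.Agent.R017.CM106 Crest.Agent.R017.HP842 Crest.Agent.R017.FE47
open Crest.Agent.R017.End699 hiding pw
open Crest.Agent.R017.B770
open Crest.Agent.R017.TP320 (conv)
open Crest.Agent.R017.Prov71
open Crest.Agent.R017.Rough381 (VF VF_nonneg)
open Crest.Agent.R017.Leg381
open Crest.Agent.R017.RG64
open Crest.Agent.R017.E1551 (sg tws JB yv BU mem_BU CF)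

/-- **the joint blocks of a flagged list** from the natural lists: `g` any divisor, removed
length `log (nm g) + log Bb` -/
theorem jb_flag {h : ℝ → ℝ} {c : ℝ} (hpu : PU h c) (N : ℕ) {B₀ : ℝ} {ε : ℝ} {J : ℝ}
    (hJ : 0 ≤ J) (hML : MergeList h N B₀ ε J) : ∃ C r : ℝ, 1 ≤ C ∧ 0 ≤ r ∧ ∀ X : ℝ, 3 ≤ X →
    ∀ D : Dat, D.P.OK → D.h = h → 1 ≤ D.D0 → D.J = J → D.ps₀.length ≤ N →
    ∀ (E : ℝ → ℝ → ℝ) (B s a Q q₀ lo σ : ℝ), 0 ≤ B → Real.exp r ≤ q₀ → 0 ≤ a →
    ClN D E B (s + r) (a + r) (Q * q₀) lo σ →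
    ∀ (q g : Eis) (ps : List Pf) (Y Bb V t Ex : ℝ), IsPrim q →
    (nm q : ℝ) * Real.exp (LF ps) ≤ Q → IsPrim g →
    (nm g : ℝ) ≤ X ^ B₀ → SbL s ps D.ps₀ → LF ps ≤ Real.log X →
    0 ≤ Y → 1 ≤ Bb → Bb ≤ X ^ B₀ →
    LF ps - Real.log (nm g) - Real.log Bb + r ≤ σ →
    lo + Real.log (nm g) + Real.log Bb + N * Real.log D.D0 + r ≤ LF ps →
    1 ≤ V → V ≤ X → Real.log V + 2 * Real.log (nm g) ≤ D.v + (D.n - LF ps) + a →
    (∀ l m' : ℝ, 0 ≤ l → |l - (Real.log V + LF ps - Real.log (nm g) - m')| ≤ r →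
      m' ≤ LF ps - Real.log (nm g) - Real.log Bb + r →
      LF ps - Real.log (nm g) - Real.log Bb - N * Real.log D.D0 - r ≤ m' →
      E l m' ≤ Ex + (m' + Real.log (nm g) + Real.log Bb - LF ps)) →
    JB Y (sqc q (alF D.z D.D0 D.P D.h ps)) (fun _ => True) g Bb V t ≤
      C * X ^ ε * B * Ht ps ^ J * Real.exp Ex * (1 + |t|) ^ ((N : ℝ) * J) := by
  classical
  obtain ⟨C, r, hC, hr, H⟩ := hML
  refine ⟨C, r, hC, hr, ?_⟩
  intro X hX D hP hh hD0 hDJ hN E B s a Q q₀ lo σ hB hq₀ ha hCl q g ps Y Bb V t Ex hq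
    hqQ hg hgX hps hLX hY hBb hBbX hσ hlo hV hVX hk hEx
  have hX1 : (1 : ℝ) ≤ X := by linarith
  have hX0 : 0 < X := by linarith
  have hBump := bump_of_cs hpu.cs
  have hprim : ∀ n, alF D.z D.D0 D.P D.h ps n ≠ 0 → IsPrim n := by
    rw [hh]; exact (FS_alF hBump hP D.z D.D0 ps).prim
  have hlen : ps.length ≤ N := hps.length ▸ hN
  have hV0 : 0 < V := by linarith
  set k := Real.log V with hkd
  have hk0 : 0 ≤ k := Real.log_nonneg hV
  have hkX : k ≤ Real.log X := Real.log_le_log hV0 hVX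
  have hng : (0 : ℝ) < nm g := by exact_mod_cast nm_pos.2 hg.ne_zero
  set η := Real.log (nm g) with hη
  have heη : Real.exp η = nm g := Real.exp_log hng
  have hη0 : 0 ≤ η := by
    rw [hη]
    refine Real.log_nonneg ?_
    exact_mod_cast nm_pos.2 hg.ne_zero
  set b := Real.log Bb with hb
  have hBb0 : 0 < Bb := by linarith
  have hb0 : 0 ≤ b := Real.log_nonneg hBb
  have hbX : b ≤ B₀ * Real.log X := by
    rw [hb, ← Real.log_rpow hX0]
    exact Real.log_le_log hBb0 hBbX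
  set m := LF ps with hm
  set ps₁ := shT t ps with hps₁
  have hps₁' : SbL s ps₁ D.ps₀ := SbL_shT hps
  have hz := hps₁'.z_nonneg
  have hlen₁ : ps₁.length ≤ N := by rw [hps₁, shT_length]; exact hlen
  have hLF₁ : LF ps₁ = m := LF_shT t ps
  have hHt1 := one_le_Ht ps₁
  have hHt0 := one_le_Ht ps
  have hlD : 0 ≤ Real.log D.D0 := Real.log_nonneg hD0
  have hN0 : (0 : ℝ) ≤ N := Nat.cast_nonneg _
  set α := sqc q (alF D.z D.D0 D.P D.h ps) with hα
  -- the set of divisors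
  obtain ⟨Qt, hQt⟩ : ∃ Qt : Eis → Prop, Qt = fun _ => True := ⟨_, rfl⟩
  rw [← hQt]
  set Us : Finset Eis := ((S Y).filter fun U => Bb / 2 < nm U ∧ (nm U : ℝ) ≤ Bb ∧
    Qt U).filter (fun U => IsCoprime g U) with hUs
  have hUs' : ∀ U ∈ Us, IsPrim U ∧ IsCoprime g U ∧ |Real.log (nm U) - b| ≤ 1 := by
    intro U hU
    obtain ⟨h1, h2⟩ := Finset.mem_filter.1 hU
    obtain ⟨h3, h4, h5, h6⟩ := Finset.mem_filter.1 h1
    have hUp := ((mem_S hY).1 h3).2.1
    have hU0 : (0 : ℝ) < nm U := by exact_mod_cast nm_pos.2 hUp.ne_zero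
    refine ⟨hUp, h2, ?_⟩
    rw [abs_le]
    constructor
    · have h7 : Real.log (Bb / 2) ≤ Real.log (nm U) := Real.log_le_log (by positivity) h4.le
      rw [Real.log_div hBb0.ne' (by norm_num)] at h7
      have := Real.log_two_lt_d9
      linarith
    · have h7 : Real.log (nm U) ≤ b := Real.log_le_log hU0 h5
      linarith
  -- reduction
  have hred : JB Y α Qt g Bb V t ≤
      ∑ U ∈ Us, ∑ κ ∈ (bl (Real.exp k)).filter (fun κ => CubeFree (κ * U)),
        ‖TG (sqc (q * (g * U)) (CM106.sub (alF D.z D.D0 D.P D.h ps₁) (g * U))) (κ * U)‖ ^ 2 := by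
    unfold JB
    have e1 : ∑ U ∈ (S Y).filter (fun U => Bb / 2 < nm U ∧ (nm U : ℝ) ≤ Bb ∧ Qt U),
        ∑ κ ∈ BU V U, ‖TG (tws (sg α (g * U)) t) (κ * U)‖ ^ 2 =
        ∑ U ∈ Us, ∑ κ ∈ BU V U, ‖TG (tws (sg α (g * U)) t) (κ * U)‖ ^ 2 := by
      rw [hUs, Finset.sum_filter (fun U => IsCoprime g U)]
      refine Finset.sum_congr rfl fun U hU => ?_
      split_ifs with hc
      · rfl
      · refine Finset.sum_eq_zero fun κ _ => ?_
        have hU' := Finset.mem_filter.1 hU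
        have hUp := ((mem_S hY).1 hU'.1).2.1
        have h1 : Th q (g * U) = 0 := by
          unfold Th
          rw [if_neg]
          rintro ⟨h2, _⟩
          rw [squarefree_mul_iff] at h2
          exact hc (isRelPrime_iff_isCoprime.1 h2.1)
        rw [hα, tws_sg D.z D.D0 D.P D.h ps q (mul_ne_zero hg.ne_zero hUp.ne_zero) t hprim, h1,
          TG_const_mul]
        simp
    rw [e1]
    refine Finset.sum_le_sum fun U hU => ?_
    have hUp := (hUs' U hU).1
    have hsub : BU V U ⊆ (bl (Real.exp k)).filter (fun κ => CubeFree (κ * U)) := by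
      intro κ hκ
      obtain ⟨⟨h1, h2⟩, h3⟩ := mem_BU.1 hκ
      rw [Finset.mem_filter, mem_bl (Real.exp_pos _).le, hkd, Real.exp_log hV0]
      exact ⟨⟨h1.1, h2⟩, h3⟩
    refine (Finset.sum_le_sum_of_subset_of_nonneg hsub fun _ _ _ => by positivity).trans
      (Finset.sum_le_sum fun κ _ => ?_)
    rw [hα, tws_sg D.z D.D0 D.P D.h ps q (mul_ne_zero hg.ne_zero hUp.ne_zero) t hprim,
      TG_const_mul, norm_mul, mul_pow]
    refine mul_le_of_le_one_left (by positivity) (pow_le_one₀ (norm_nonneg _) ?_)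
    rw [norm_mul, norm_pw, mul_one]
    exact norm_Th_le _ _
  refine hred.trans ?_
  have key := H X hX D.P hP D.z D.D0 q g hD0 hg hgX b hb0 hbX Us hUs' k ps₁ hk0 hkX hlen₁
    (fun p hp => ⟨hz p hp, (z_le_LF hz p hp).trans (by rw [hLF₁]; exact hLX)⟩)
    (B * Ht ps₁ ^ J * Real.exp Ex) (by positivity) ?_
  · rw [← hh] at key
    refine key.trans ?_
    have h1 : Ht ps₁ ^ J ≤ Ht ps ^ J * (1 + |t|) ^ ((N : ℝ) * J) := Ht_shT_rpow hJ t hlen
    calc C * X ^ ε * (B * Ht ps₁ ^ J * Real.exp Ex) ≤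
        C * X ^ ε * (B * (Ht ps ^ J * (1 + |t|) ^ ((N : ℝ) * J)) * Real.exp Ex) := by gcongr
      _ = _ := by ring
  · intro l ps' hl hch hnat h1 h2 h3
    rw [hLF₁] at h1 h2 h3 ⊢
    have hps' := hps₁'.childG hch
    have hcst := cstF_nonneg ps' ps₁
    have hq' : IsPrim (q * g) := hq.mul hg
    have hqQ' : (nm (q * g) : ℝ) ≤ Q * q₀ := by
      rw [nm_mul]; push_cast
      have h5 : (nm g : ℝ) ≤ Real.exp m * Real.exp r := by
        rw [← heη, ← Real.exp_add]
        refine Real.exp_le_exp.2 ?_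
        have := LF_nonneg hps'.z_nonneg
        linarith
      calc (nm q : ℝ) * nm g ≤
            nm q * (Real.exp m * Real.exp r) := mul_le_mul_of_nonneg_left h5 (Nat.cast_nonneg _)
        _ = (nm q * Real.exp m) * Real.exp r := by ring
        _ ≤ Q * q₀ := mul_le_mul hqQ hq₀ (Real.exp_pos _).le ((by positivity : (0 : ℝ) ≤
            nm q * Real.exp m).trans hqQ)
    have h3' := (abs_le.1 h3).2
    have hc1 := hCl (q * g) ps' l hq' hqQ' hnat hps'
      (by linarith) (by linarith) hl (by linarith)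
    have hHt' : Ht ps' ^ J ≤ Ht ps₁ ^ J * cstF ps' ps₁ ^ J := by
      rw [← Real.mul_rpow (by linarith) hcst]
      exact Real.rpow_le_rpow (by linarith [one_le_Ht ps']) (Ht_le_cst hch) hJ
    have hex := hEx l (LF ps') hl h3 h1 h2
    rw [hDJ] at hc1
    rw [hh] at hc1
    refine hc1.trans ?_
    have hE : Real.exp (E l (LF ps')) ≤ Real.exp Ex * Real.exp (LF ps' + η + b - m) := by
      rw [← Real.exp_add]
      exact Real.exp_le_exp.2 hex
    calc B * Ht ps' ^ J * Real.exp (E l (LF ps')) ≤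
          B * (Ht ps₁ ^ J * cstF ps' ps₁ ^ J) * (Real.exp Ex *
            Real.exp (LF ps' + η + b - m)) := by gcongr
      _ = _ := by ring

end Crest.Agent.R017.JBf180
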