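import Crest.Agent.R017.NEh_551

/-!
# Row 17, near field (FlatNE), list level (helper551): the recursion from the premises

* `NPar`, `NPrem`, `NFacts` : the parent, the premises (helper73's field), the facts of the leaf
* `ne_core` : the recursion with the sharp cut: flat form at the parent from
  (T') near the removed length `g`, (J) beyond `g`, the slope form with the loss `F` (only in the
  Gram error) and the numbers of the leaf
-/

set_option autoImplicit false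

noncomputable section

open Complex
open scoped ComplexConjugate

namespace Crest.Agent.R017.NEg551

open Crest.Agent.R012 Crest.Agent.R012.Eis Crest.Agent.R012.LS2 Crest.Agent.R012.Gauss880
open Crest.Agent.R012.MC (Wgt)
open Crest.Agent.R017.CM106 Crest.Agent.R017.HP842 Crest.Agent.R017.FE47
open Crest.Agent.R017.End699 hiding pw
open Crest.Agent.R017.B770
open Crest.Agent.R017.Prov71
open Crest.Agent.R017.Leg381
open Crest.Agent.R017.NEsm551 (rhs rhs_one rhs_zero rhs_anti)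
open Crest.Agent.R017.XP699 (LL Chd hcost cst)
open Crest.Agent.R017.RG64

lemma two_le_N1f (L : ℝ) : 2 ≤ N1f L := by
  have := one_le_N0f L
  unfold N1f; omega

lemma N1f_half (L : ℝ) : N1f L / 2 = N0f L := by unfold N1f; omega

/-- **the cutoffs** -/
lemma cut_sharp : Cut N0f N1f (fun L => rhs (N1f L)) 4 where
  lo L _ := exp_le_N0f L
  hi L hL := N1f_le hL
  le L _ := N0f_le_N1f L
  anti L _ := rhs_anti (two_le_N1f L)
  one L _ n hn := rhs_one (two_le_N1f L) (hn.trans (le_of_eq (N1f_half L).symm))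
  zero L _ n hn := rhs_zero (two_le_N1f L) hn

/-- the parent -/
structure NPar (K v e X k : ℝ) (ps₀ : List Pq) : Prop where
  k0 : 0 ≤ k
  kv : k ≤ (v + e) * Real.log X
  n2 : 2 * LL Dq ps₀ ≤ (K + v + e) * Real.log X
  nK : LL Dq ps₀ ≤ (K + e) * Real.log X

/-- the premises: slope form with the loss `F` (a function of the length), (T') at the removed
length `g`, (J) beyond -/
structure NPrem (P : DPar) (h : ℝ → ℝ) (K v g : ℝ) (F : ℝ → ℝ) (ε X r b M Bd : ℝ)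
    (ps₀ : List Pq) : Prop where
  sl : ∀ (l : ℝ) (ps' : List Pq), 0 ≤ l →
    l ≤ (v + ε) * Real.log X + (LL Dq ps₀ - LL Dq ps') → List.Forall₂ (Chd Dq hcost r b) ps' ps₀ →
    LL Dq ps₀ - LL Dq ps' ≤ (g + ε) * Real.log X →
    S0p P h l ps' ≤ Bd * cst hcost ps' ps₀ ^ M *
      Real.exp (F (LL Dq ps') + ex0 (K * Real.log X) l (LL Dq ps'))
  tp : ∀ (l : ℝ) (ps' : List Pq), 0 ≤ l →
    l ≤ (v + ε) * Real.log X + (LL Dq ps₀ - LL Dq ps') → List.Forall₂ (Chd Dq hcost r b) ps' ps₀ →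
    (g - ε) * Real.log X ≤ LL Dq ps₀ - LL Dq ps' →
    LL Dq ps₀ - LL Dq ps' ≤ (g + ε) * Real.log X →
    S0p P h l ps' ≤ Bd * cst hcost ps' ps₀ ^ M * Real.exp (ex0 (K * Real.log X) l (LL Dq ps'))
  jj : ∀ (l : ℝ) (ps' : List Pq), 0 ≤ l →
    l ≤ (v + ε) * Real.log X + (LL Dq ps₀ - LL Dq ps') → List.Forall₂ (Chd Dq hcost r b) ps' ps₀ →
    (g - ε) * Real.log X ≤ LL Dq ps₀ - LL Dq ps' →
    S0p P h l ps' ≤ Bd * cst hcost ps' ps₀ ^ M * Real.exp (exJ (K * Real.log X)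
      (v * Real.log X) (LL Dq ps₀) (g * Real.log X) l (LL Dq ps'))

/-- the facts about the list `ps` at the level `Lv` -/
structure NFacts (K v g ε X : ℝ) (ps₀ : List Pq) (ps : List Pf) (Lv : ℝ) (N₁ : ℕ) : Prop where
  nK : LL Dq ps₀ ≤ (K + ε) * Real.log X
  lo : LL Dq ps₀ - g * Real.log X ≤ LF ps
  hi : LF ps ≤ LL Dq ps₀ + ε * Real.log X
  v0 : 0 ≤ Lv
  top : 2 * LF ps ≤ K * Real.log X + Lv
  lv : Lv ≤ (v + ε) * Real.log X + (LL Dq ps₀ - LF ps)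
  lv0 : v * Real.log X + (LL Dq ps₀ - LF ps) ≤ Lv
  N0 : Real.exp Lv ≤ N₁
  N1 : 9 * (N₁ : ℝ) ≤ Real.exp (Lv + 4)
  nt : NT ps
  Nh : Real.exp Lv ≤ ((N₁ / 2 : ℕ) : ℝ)

/-- the claims of the recursion -/
lemma claims_ne {P : DPar} {h : ℝ → ℝ} {K v g ε X r b M Bd : ℝ} {F : ℝ → ℝ} {ps₀ : List Pq}
    (hT : NPrem P h K v g F ε X r b M Bd ps₀) (hF : Monotone F) (hM : 0 ≤ M) (hBd : 0 ≤ Bd) {D : Dat}
    (hP : D.P = P) (hh : D.h = h) (hps : D.ps₀ = ps₀) (hJ : M ≤ D.J)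
    (hκ : D.κ = K * Real.log X) (hn : D.n = LL Dq ps₀) {s a Q x y : ℝ} (hs : s ≤ r) (hQ : Q ≤ b)
    (ha : D.v + a ≤ (v + ε) * Real.log X) (hx : x ≤ ε * Real.log X)
    (hy : 0 ≤ y) (hvy : D.v ≤ v * Real.log X + y) :
    ClN D (exJ D.κ D.v D.n (g * Real.log X)) (Bd * Real.exp y * Ht (natl ps₀) ^ M) s a Q 0
      (D.n - g * Real.log X + x) ∧
    ClN D (ex0 D.κ) (Bd * Ht (natl ps₀) ^ M) s a Q (D.n - g * Real.log X - x)
      (D.n - g * Real.log X + x) ∧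
    ∀ σ : ℝ, ClN D (ex0 D.κ) (Bd * Real.exp (F σ) * Ht (natl ps₀) ^ M) s a Q
      (D.n - g * Real.log X - x) σ := by
  subst hP hh hps
  have e1 : ∀ {B E F G : ℝ}, 0 ≤ B → E ≤ F + G → B * Real.exp E ≤ B * Real.exp F * Real.exp G := by
    intro B E F G hB hE
    rw [mul_assoc, ← Real.exp_add]
    exact mul_le_mul_of_nonneg_left (Real.exp_le_exp.2 hE) hB
  refine ⟨clN_prem hs hQ hM hJ (by positivity) ?_, clN_prem hs hQ hM hJ hBd ?_,
    fun σ => clN_prem hs hQ hM hJ (by positivity) ?_⟩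
  · intro l ps' hl hla hlo hσ hch
    have hcst : 0 ≤ cst hcost ps' D.ps₀ ^ M := Real.rpow_nonneg
      (zero_le_one.trans (XP699.one_le_cst XP699.one_le_hcost _ _)) _
    have hla' : l ≤ (v + ε) * Real.log X + (LL Dq D.ps₀ - LL Dq ps') := by
      rw [← hn]; linarith
    refine (hT.jj l ps' hl hla' hch (by rw [← hn]; linarith)).trans
      ((e1 (F := y) (G := exJ D.κ D.v D.n (g * Real.log X) l (LL Dq ps')) (mul_nonneg hBd hcst)
        ?_).trans (le_of_eq ?_))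
    · rw [hκ, hn]
      have := exJ_level (κ := K * Real.log X) (n := LL Dq D.ps₀) (c := g * Real.log X) (k := l)
        (m := LL Dq ps') hy (v := v * Real.log X) (v' := D.v) hvy
      linarith
    · ring
  · intro l ps' hl hla hlo hσ hch
    have hla' : l ≤ (v + ε) * Real.log X + (LL Dq D.ps₀ - LL Dq ps') := by
      rw [← hn]; linarith
    rw [hκ]
    exact hT.tp l ps' hl hla' hch (by rw [← hn]; linarith) (by rw [← hn]; linarith)
  · intro l ps' hl hla hlo hσ hch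
    have hla' : l ≤ (v + ε) * Real.log X + (LL Dq D.ps₀ - LL Dq ps') := by
      rw [← hn]; linarith
    have hcst : 0 ≤ cst hcost ps' D.ps₀ ^ M := Real.rpow_nonneg
      (zero_le_one.trans (XP699.one_le_cst XP699.one_le_hcost _ _)) _
    rw [hκ]
    refine (hT.sl l ps' hl hla' hch (by rw [← hn]; linarith)).trans ?_
    calc Bd * cst hcost ps' D.ps₀ ^ M *
          Real.exp (F (LL Dq ps') + ex0 (K * Real.log X) l (LL Dq ps')) ≤
          Bd * cst hcost ps' D.ps₀ ^ M *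
          Real.exp (F σ + ex0 (K * Real.log X) l (LL Dq ps')) := by
          refine mul_le_mul_of_nonneg_left (Real.exp_le_exp.2 ?_) (mul_nonneg hBd hcst)
          have := hF hσ
          linarith
      _ = _ := by
          rw [Real.exp_add]
          ring

/-- the constants -/
lemma ne_const {C₁ C₂ C₃ CR A H Bd F t1 t2 : ℝ} (hC₁ : 0 ≤ C₁) (hC₂ : 0 ≤ C₂) (hC₃ : 0 ≤ C₃)
    (hCR : 0 ≤ CR) (hA : 1 ≤ A) (hH : 1 ≤ H) (hBd : 0 ≤ Bd) (hF : 0 ≤ F)
    (h1 : t1 ≤ 1) (h2 : t2 ≤ 1) :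
    C₁ * A * (C₂ * A * (1 + (t1 * (C₃ * A * (Bd * H)) + t2 * (Bd * H)) + CR * A * H * Bd) +
      A * (Bd * H) + 1) * H * F ≤
    C₁ * (C₂ * (2 + C₃ + CR) + 2) * A ^ 3 * H ^ 2 * (1 + Bd) * F := by
  have hA0 : 0 ≤ A := by linarith
  have hH0 : 0 ≤ H := by linarith
  have hBH : 0 ≤ Bd * H := by positivity
  have hAA : A ≤ A ^ 2 := by nlinarith
  have hAH : 1 ≤ A * H := one_le_mul_of_one_le_of_one_le hA hH
  have k1 : t1 * (C₃ * A * (Bd * H)) ≤ C₃ * A * (Bd * H) :=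
    mul_le_of_le_one_left (by positivity) h1
  have k2 : t2 * (Bd * H) ≤ A * (Bd * H) := by
    calc t2 * (Bd * H) ≤ 1 * (Bd * H) := mul_le_mul_of_nonneg_right h2 hBH
      _ ≤ A * (Bd * H) := mul_le_mul_of_nonneg_right hA hBH
  have k3 : 1 + (t1 * (C₃ * A * (Bd * H)) + t2 * (Bd * H)) + CR * A * H * Bd ≤
      (2 + C₃ + CR) * (A * H * (1 + Bd)) := by
    have e1 : 1 ≤ A * H * (1 + Bd) := one_le_mul_of_one_le_of_one_le hAH (by linarith)
    have e2 : A * (Bd * H) ≤ A * H * (1 + Bd) := by nlinarith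
    have e3 : C₃ * A * (Bd * H) ≤ C₃ * (A * H * (1 + Bd)) := by
      calc C₃ * A * (Bd * H) = C₃ * (A * (Bd * H)) := by ring
        _ ≤ _ := mul_le_mul_of_nonneg_left e2 hC₃
    have e4 : CR * A * H * Bd ≤ CR * (A * H * (1 + Bd)) := by
      calc CR * A * H * Bd = CR * (A * (Bd * H)) := by ring
        _ ≤ _ := mul_le_mul_of_nonneg_left e2 hCR
    linarith
  have k4 : C₂ * A * (1 + (t1 * (C₃ * A * (Bd * H)) + t2 * (Bd * H)) + CR * A * H * Bd) +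
      A * (Bd * H) + 1 ≤ (C₂ * (2 + C₃ + CR) + 2) * (A ^ 2 * H * (1 + Bd)) := by
    have e1 : C₂ * A * (1 + (t1 * (C₃ * A * (Bd * H)) + t2 * (Bd * H)) + CR * A * H * Bd) ≤
        C₂ * A * ((2 + C₃ + CR) * (A * H * (1 + Bd))) :=
      mul_le_mul_of_nonneg_left k3 (by positivity)
    have e2 : A * (Bd * H) ≤ A ^ 2 * H * (1 + Bd) := by
      calc A * (Bd * H) ≤ A ^ 2 * (Bd * H) := mul_le_mul_of_nonneg_right hAA hBH
        _ ≤ A ^ 2 * H * (1 + Bd) := by nlinarith [mul_nonneg (sq_nonneg A) hH0]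
    have e3 : 1 ≤ A ^ 2 * H * (1 + Bd) := by
      have : 1 ≤ A ^ 2 := by nlinarith
      exact one_le_mul_of_one_le_of_one_le (one_le_mul_of_one_le_of_one_le this hH) (by linarith)
    calc _ ≤ C₂ * A * ((2 + C₃ + CR) * (A * H * (1 + Bd))) + A ^ 2 * H * (1 + Bd) +
          A ^ 2 * H * (1 + Bd) := by linarith
      _ = _ := by ring
  calc _ ≤ C₁ * A * ((C₂ * (2 + C₃ + CR) + 2) * (A ^ 2 * H * (1 + Bd))) * H * F := by gcongr
    _ = _ := by ring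

set_option maxHeartbeats 6400000 in
/-- **the recursion of the near field from the premises** -/
theorem ne_core {h : ℝ → ℝ} {c₂ : ℝ} (hpu : PU h c₂) {w : ℝ → ℝ} (hab : Abs4 w)
    {τ : ℝ} (hτ : 0 ≤ τ) (hτ1 : τ ≤ 1) {Rh : LBq → (Eis → ℂ) → ℝ → Prop} (hLB : LBS w τ Rh)
    (hRm : ∀ (p : LBq) (α : Eis → ℂ) (Rn Rn' : ℝ), Rh p α Rn → Rn ≤ Rn' → Rh p α Rn')
    {K c : ℝ} (hc : 0 < c) (hcK : 100 * c ≤ K) (N : ℕ)
    {ε M J₀ δ₀ : ℝ} (hε : 0 < ε) (hεc : ε ≤ c) (hε1 : ε ≤ 1) (hM : 0 ≤ M) (hJ₀ : 0 ≤ J₀)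
    (hδ₀ : 0 < δ₀) :
    ∃ (δ : ℝ) (Jn Aw : ℕ) (Cw R η S : ℝ), 0 ≤ δ ∧ δ ≤ δ₀ ∧ J₀ ≤ Jn ∧ Jn + 2 ≤ Aw ∧ 0 ≤ Cw ∧
    0 ≤ R ∧ 0 < η ∧ η ≤ 1 / 2 ∧ 0 ≤ S ∧ ∀ CR : ℝ, 0 ≤ CR → ∃ C r J X₁ : ℝ, 0 ≤ C ∧ 0 ≤ r ∧ 0 ≤ J ∧
    ∀ X : ℝ, 3 ≤ X → X₁ ≤ X → ∀ P : DPar, P.OK → ∀ (k : ℝ) (ps₀ : List Pq), ps₀.length ≤ N →
    (∀ q ∈ ps₀, 0 ≤ q.z) → ∀ e : ℝ, 0 ≤ e → e ≤ ε / 100 →
    ∀ v g : ℝ, 0 ≤ v → 0 ≤ g → 3 * (v + g) + 100 * c ≤ 2 * K →
    ∀ F : ℝ → ℝ, Monotone F → (∀ m, 0 ≤ F m) → (∀ m x, 0 ≤ x → F (m + x) ≤ F m + x) →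
    ∀ e₀ e₁ β : ℝ → ℝ → ℝ, (∀ u m, 0 ≤ e₀ u m) →
    (∀ u m, e₀ u m + F m + c * Real.log X ≤ β u m) →
    (τ = 0 ∨ ∀ u m, F m + c * Real.log X ≤ e₀ u m) →
    (∀ u m, m ≤ LL Dq ps₀ + ε * Real.log X → 5 * β u m ≤ K * Real.log X) →
    NPar K v e X k ps₀ →
    ∀ Bd : ℝ, 0 ≤ Bd → NPrem P h K v g F ε X r (C * X ^ (K + 1)) M Bd ps₀ →
    (∀ (q : Eis) (ps : List Pf) (Lv : ℝ) (N₁ : ℕ), NFacts K v g (ε / 4) X ps₀ ps Lv N₁ →
      IsPrim q → (nm q : ℝ) ≤ X ^ (K + 1) → SbL S ps ps₀ →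
      Rh ⟨Cw, η, Aw, X ^ K, Real.exp (LF ps), X ^ (8 * (K + 1)), R, Jn, N₁, Real.exp (e₀ Lv (LF ps)),
        Real.exp (e₁ Lv (LF ps)), Real.exp (β Lv (LF ps)), Real.exp (-β Lv (LF ps)),
        Real.exp (min (g * Real.log X) (LF ps - (LL Dq ps₀ - g * Real.log X))),
        Real.exp (min (g * Real.log X) (LF ps - (LL Dq ps₀ - g * Real.log X)))⟩
        (sqc q (alF (X ^ δ) (X ^ δ) P h ps))
        (CR * X ^ (ε / 4) * (Ht ps * Ht (natl ps₀)) ^ J₀ * Bd * Real.exp (2 * LF ps))) →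
    S0p P h k ps₀ ≤ C * X ^ ε * (ps₀.map Dq.s1).prod ^ J * (1 + Bd) *
      Real.exp (fl (K * Real.log X) k (LL Dq ps₀)) := by
  have hK : 0 < K := by linarith
  obtain ⟨R, Ca, hR, hCa, hAL⟩ := exists_ALp hpu N
  have hN0 : (0 : ℝ) ≤ N := Nat.cast_nonneg N
  -- the parameters
  obtain ⟨b, hb⟩ : ∃ b : ℝ, b = 8 * (K + 1) := ⟨_, rfl⟩
  have hb8 : 8 ≤ b := by rw [hb]; linarith
  have hb0 : 0 < b := by linarith
  obtain ⟨ε₁, hε₁d⟩ : ∃ x : ℝ, x = min (1 / 16) (ε / (100 * b)) := ⟨_, rfl⟩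
  have hε₁ : 0 < ε₁ := by rw [hε₁d]; exact lt_min (by norm_num) (by positivity)
  have hε₁16 : ε₁ ≤ 1 / 16 := by rw [hε₁d]; exact min_le_left _ _
  have hε₁b : ε₁ * (100 * b) ≤ ε := by
    have : ε₁ ≤ ε / (100 * b) := by rw [hε₁d]; exact min_le_right _ _
    rwa [le_div_iff₀ (by positivity)] at this
  obtain ⟨δ', hδ'd⟩ : ∃ x : ℝ, x = min (δ₀ / b) (ε₁ / (4 * (N + 1))) := ⟨_, rfl⟩
  have hδ' : 0 < δ' := by
    rw [hδ'd]
    exact lt_min (by positivity) (by positivity)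
  have hδ'1 : δ' * b ≤ δ₀ := by
    have : δ' ≤ δ₀ / b := by rw [hδ'd]; exact min_le_left _ _
    rwa [le_div_iff₀ hb0] at this
  have hδ'2 : δ' * (4 * (N + 1)) ≤ ε₁ := by
    have : δ' ≤ ε₁ / (4 * (N + 1)) := by
      rw [hδ'd]; exact min_le_right _ _
    rwa [le_div_iff₀ (by positivity)] at this
  obtain ⟨m, hm⟩ : ∃ m : ℕ, 4 / δ' ≤ m := exists_nat_ge _
  have hm4 : 4 ≤ m * δ' := by rwa [div_le_iff₀ hδ'] at hm
  have hm0 : (0 : ℝ) ≤ m := Nat.cast_nonneg m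
  obtain ⟨e₃, he₃d⟩ : ∃ x : ℝ, x = ε₁ / (8 * (m + 1)) := ⟨_, rfl⟩
  have he₃ : 0 < e₃ := by rw [he₃d]; positivity
  have he₃m : e₃ * (8 * (m + 1)) = ε₁ := by rw [he₃d]; field_simp
  have he₃1 : 8 * e₃ ≤ ε₁ := by nlinarith [mul_nonneg he₃.le hm0]
  have he₃2 : 8 * (m * e₃) ≤ ε₁ := by nlinarith
  obtain ⟨ε₂, hε₂d⟩ : ∃ x : ℝ, x = ε₁ / (m + 1) := ⟨_, rfl⟩
  have hε₂ : 0 < ε₂ := by rw [hε₂d]; positivity
  have hε₂m : ε₂ * (m + 1) = ε₁ := by rw [hε₂d]; field_simp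
  have hε₂1 : ε₂ ≤ ε₁ := by nlinarith [mul_nonneg hε₂.le hm0]
  have hε₂2 : m * ε₂ ≤ ε₁ := by nlinarith
  obtain ⟨J, hJd⟩ : ∃ x : ℝ, x = max M J₀ := ⟨_, rfl⟩
  have hMJ : M ≤ J := by rw [hJd]; exact le_max_left _ _
  have hJ₀J : J₀ ≤ J := by rw [hJd]; exact le_max_right _ _
  have hJ : 0 ≤ J := hM.trans hMJ
  obtain ⟨Jn, hJnd⟩ : ∃ j : ℕ, (N : ℝ) * J + J ≤ j := exists_nat_ge _
  have hNJ : 0 ≤ (N : ℝ) * J := by positivity
  have hJn : (N : ℝ) * J ≤ Jn := by linarith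
  have hJn2 : J₀ ≤ Jn := by linarith
  have hNδ : 4 * (N * δ') ≤ ε₁ := by nlinarith
  obtain ⟨Cw, η₀, C₁, S, X₁, hCw, hη₀, hη₀1, hC₁, hS, hrg⟩ :=
    rg_N_g hpu N hab (Aw := Jn + 2) hR hAL (c₁ := 4) (by norm_num) hδ' hε₁ hε₁16 he₃ hε₂ hJ hJn
      le_rfl hm4 he₃2 hNδ
  obtain ⟨C₂, r₂, X₂, hC₂, hr₂, hlb⟩ :=
    lb_list_s hpu N hτ hLB (Aw := Jn + 2) hR hAL hCw hη₀ (by linarith) hε₂ hJ hJn le_rfl
  obtain ⟨C₃, r₃, hC₃, hr₃, hop⟩ := open_num hpu N hε₂ hJ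
  refine ⟨b * δ', Jn, Jn + 2, Cw, R, η₀, S, by positivity, by linarith, hJn2, le_rfl, hCw, hR,
    hη₀, hη₀1, hS, ?_⟩
  intro CR hCR
  obtain ⟨T₀, hT₀⟩ : ∃ T : ℝ, T = 4 + (N + 1) * (S + r₂ + r₃) + R + Real.log C₁ := ⟨_, rfl⟩
  have hlC₁ : 0 ≤ Real.log C₁ := Real.log_nonneg hC₁
  have hT₀0 : 0 ≤ (N + 1) * (S + r₂ + r₃) := by positivity
  refine ⟨max (C₁ * Real.exp (r₂ + N * r₃)) (C₁ * (C₂ * (2 + C₃ + CR) + 2)), S + r₂ + r₃, 2 * J,
    max (max X₁ X₂) (Real.exp (T₀ / ε₁)), le_max_of_le_left (by positivity), by positivity,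
    by positivity, ?_⟩
  intro X hX hXX P hP k ps₀ hlen hz e he0 he1 v g hv hg hv3 F hFm hF hFx e₀ e₁ β he₀ heβ hτe hβ5
    hpar Bd hBd hT hRf
  have hX1 : (1 : ℝ) ≤ X := by linarith
  have hX0 : 0 < X := by linarith
  obtain ⟨L, hL⟩ : ∃ L : ℝ, L = Real.log X := ⟨_, rfl⟩
  have hL1 : 1 ≤ L := by
    rw [hL, ← Real.log_exp 1]
    refine Real.log_le_log (Real.exp_pos 1) ?_
    linarith [Real.exp_one_lt_d9]
  have hL0 : 0 < L := by linarith
  have hTL : T₀ ≤ ε₁ * L := by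
    have h1 : Real.exp (T₀ / ε₁) ≤ X := (le_max_right _ _).trans hXX
    rw [← Real.le_log_iff_exp_le hX0, ← hL, div_le_iff₀ hε₁] at h1
    linarith
  obtain ⟨X', hX'⟩ : ∃ x : ℝ, x = X ^ b := ⟨_, rfl⟩
  have hXX' : X ≤ X' := by
    rw [hX']
    calc X = X ^ (1 : ℝ) := (Real.rpow_one X).symm
      _ ≤ X ^ b := Real.rpow_le_rpow_of_exponent_le hX1 (by linarith)
  have hX'3 : 3 ≤ X' := hX.trans hXX'
  have hX'0 : 0 < X' := by linarith
  have hX'1 : 1 ≤ X' := by linarith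
  have hlX' : Real.log X' = b * L := by rw [hX', Real.log_rpow hX0, hL]
  have hpowX : ∀ x : ℝ, X ^ x = Real.exp (x * L) := fun x => by
    rw [Real.rpow_def_of_pos hX0, hL, mul_comm]
  have hpowX' : ∀ x : ℝ, X' ^ x = Real.exp (x * (b * L)) := fun x => by
    rw [Real.rpow_def_of_pos hX'0, hlX', mul_comm]
  -- atoms
  obtain ⟨n, hn⟩ : ∃ n : ℝ, n = LL Dq ps₀ := ⟨_, rfl⟩
  obtain ⟨cl, hcl⟩ : ∃ x : ℝ, x = c * L := ⟨_, rfl⟩
  obtain ⟨cc, hcc⟩ : ∃ x : ℝ, x = g * L := ⟨_, rfl⟩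
  obtain ⟨κ, hκ⟩ : ∃ x : ℝ, x = K * L := ⟨_, rfl⟩
  obtain ⟨vl, hvl⟩ : ∃ x : ℝ, x = v * L := ⟨_, rfl⟩
  obtain ⟨el, hel⟩ : ∃ x : ℝ, x = e * L := ⟨_, rfl⟩
  obtain ⟨εl, hεl⟩ : ∃ x : ℝ, x = ε * L := ⟨_, rfl⟩
  obtain ⟨w', hw'⟩ : ∃ x : ℝ, x = ε₁ * (b * L) := ⟨_, rfl⟩
  obtain ⟨dl, hdl⟩ : ∃ x : ℝ, x = δ' * (b * L) := ⟨_, rfl⟩
  have hcl0 : 0 < cl := by rw [hcl]; positivity
  have hcc0 : 0 ≤ cc := by rw [hcc]; positivity
  have hvl00 : 0 ≤ vl := by rw [hvl]; positivity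
  have hbl : b * L = 8 * κ + 8 * L := by rw [hb, hκ]; ring
  have hκc : 100 * cl ≤ κ := by
    rw [hcl, hκ, ← mul_assoc]; exact mul_le_mul_of_nonneg_right hcK hL0.le
  have hv3l : 3 * (vl + cc) + 100 * cl ≤ 2 * κ := by
    have := mul_le_mul_of_nonneg_right hv3 hL0.le
    rw [hcc, hcl, hκ, hvl]; linarith
  have hel0 : 0 ≤ el := by rw [hel]; positivity
  have hel1 : 100 * el ≤ εl := by
    have := mul_le_mul_of_nonneg_right he1 hL0.le
    rw [hel, hεl]; linarith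
  have hεlc : εl ≤ cl := by rw [hεl, hcl]; exact mul_le_mul_of_nonneg_right hεc hL0.le
  have hεlL : εl ≤ L := by
    have := mul_le_mul_of_nonneg_right hε1 hL0.le
    rw [hεl]; linarith
  have hw1 : 100 * w' ≤ εl := by
    have := mul_le_mul_of_nonneg_right hε₁b hL0.le
    rw [hw', hεl]; linarith
  have hw8 : 8 * T₀ ≤ w' := by
    have h1 : ε₁ * L * 8 ≤ ε₁ * L * b := mul_le_mul_of_nonneg_left hb8 (by positivity)
    rw [hw']; linarith
  have hw0 : 0 ≤ w' := by linarith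
  have hdl0 : 0 ≤ dl := by rw [hdl]; positivity
  have hdl1 : 4 * (N * dl) ≤ w' := by
    have := mul_le_mul_of_nonneg_right hNδ (show 0 ≤ b * L by positivity)
    rw [hdl, hw']; linarith
  have he₃l : 8 * (e₃ * (b * L)) ≤ w' := by
    have := mul_le_mul_of_nonneg_right he₃1 (show 0 ≤ b * L by positivity)
    rw [hw']; linarith
  have he₃0 : 0 ≤ e₃ * (b * L) := by positivity
  -- the parent
  obtain ⟨hk0, hkv, hn2, hnK⟩ := hpar
  rw [← hn, ← hL] at hn2 hnK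
  rw [← hL] at hkv
  have hkv' : k ≤ vl + el := by rw [hvl, hel]; linarith
  have hn2' : 2 * n ≤ κ + vl + el := by rw [hκ, hvl, hel]; linarith
  have hnK' : n ≤ κ + el := by rw [hκ, hel]; linarith
  have hn0 : 0 ≤ n := by
    rw [hn]
    unfold LL
    refine List.sum_nonneg fun x hx => ?_
    obtain ⟨q, hq, rfl⟩ := List.mem_map.1 hx
    exact hz q hq
  have hN1S : (N + 1) * (S + r₂ + r₃) = N * S + N * r₂ + N * r₃ + S + r₂ + r₃ := by ring
  have hNS : 0 ≤ N * S := by positivity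
  have hNr₂ : 0 ≤ N * r₂ := by positivity
  have hNr₃ : 0 ≤ N * r₃ := by positivity
  have hNdl0 : 0 ≤ N * dl := by positivity
  rw [hN1S] at hT₀
  obtain ⟨H, hH⟩ : ∃ x : ℝ, x = Ht (natl ps₀) := ⟨_, rfl⟩
  have hH1 : 1 ≤ H := by rw [hH]; exact one_le_Ht _
  have hHM0 : 0 ≤ H ^ M := Real.rpow_nonneg (by linarith) _
  have hHJ1 : 1 ≤ H ^ J := Real.one_le_rpow hH1 hJ
  have hHMJ : H ^ M ≤ H ^ J := Real.rpow_le_rpow_of_exponent_le hH1 hMJ
  have hHJ0 : 0 ≤ H ^ J := by linarith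
  -- the data
  obtain ⟨D, hD⟩ : ∃ D : Dat, D = ⟨P, h, X ^ (b * δ'), X ^ (b * δ'), ps₀, J, κ,
    vl + el, n⟩ := ⟨_, rfl⟩
  have hXδ : X ^ (b * δ') = X' ^ δ' := by rw [hX', ← Real.rpow_mul hX0.le]
  have hlD0 : Real.log (X ^ (b * δ')) = dl := by
    rw [Real.log_rpow hX0, ← hL, hdl]; ring
  have hD01 : 1 ≤ X ^ (b * δ') := Real.one_le_rpow hX1 (by positivity)
  have hexpn : Real.exp n ≤ X ^ (K + 1) := by
    rw [hpowX]
    refine Real.exp_le_exp.2 ?_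
    have : (K + 1) * L = κ + L := by rw [hκ]; ring
    linarith
  have hexpnC : C₁ * Real.exp n ≤ X ^ (K + 1) := by
    rw [hpowX, ← Real.exp_log (show 0 < C₁ by linarith), ← Real.exp_add]
    refine Real.exp_le_exp.2 ?_
    have : (K + 1) * L = κ + L := by rw [hκ]; ring
    linarith
  have hbQ : C₁ * Real.exp n * Real.exp (r₂ + N * r₃) ≤
      max (C₁ * Real.exp (r₂ + N * r₃)) (C₁ * (C₂ * (2 + C₃ + CR) + 2)) * X ^ (K + 1) := by
    calc C₁ * Real.exp n * Real.exp (r₂ + N * r₃) = C₁ * Real.exp (r₂ + N * r₃) * Real.exp n := by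
          ring
      _ ≤ _ := by
          gcongr
          exact le_max_left _ _
  -- the claims
  have cl2 := claims_ne hT hFm hM hBd (D := D) (by rw [hD]) (by rw [hD]) (by rw [hD])
    (by rw [hD]; exact hMJ) (by rw [hD, ← hL]; exact hκ) (by rw [hD]; exact hn)
    (s := S + r₂ + r₃) (a := 3 * w' + r₂ + r₃) (Q := C₁ * Real.exp n * Real.exp (r₂ + N * r₃))
    (x := w') (y := el) le_rfl hbQ
    (by
      rw [hD, ← hL]
      show vl + el + (3 * w' + r₂ + r₃) ≤ (v + ε) * L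
      have : (v + ε) * L = vl + εl := by rw [hvl, hεl]; ring
      linarith)
    (by rw [← hL, ← hεl]; linarith) hel0
    (by
      rw [hD, ← hL, ← hvl])
  rw [← hL, ← hcc, ← hH] at cl2
  obtain ⟨cJ2, cT2, cS2⟩ := cl2
  have hDn : D.n = n := by rw [hD]
  have hDv : D.v = vl + el := by rw [hD]
  have hDκ : D.κ = κ := by rw [hD]
  have hexr : 1 ≤ Real.exp (r₂ + N * r₃) := Real.one_le_exp (by positivity)
  have cJ : ClN D (exJ D.κ D.v D.n cc) (Bd * Real.exp el * H ^ M) S (3 * w')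
      (C₁ * Real.exp n) 0 (n - cc + w') := by
    rw [hDn] at cJ2
    rw [hDn]
    exact cJ2.mono (by linarith) (by linarith) (le_mul_of_one_le_right (by positivity) hexr)
  have cT : ClN D (ex0 D.κ) (Bd * Real.exp el * H ^ M) S (3 * w')
      (C₁ * Real.exp n) (n - cc - w') (n - cc + w') := by
    rw [hDn] at cT2
    have h1 := cT2.mono (s' := S) (a' := 3 * w') (Q' := C₁ * Real.exp n) (by linarith)
      (by linarith) (le_mul_of_one_le_right (by positivity) hexr)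
    intro q ps k' b1 b2 b3 b4 b5 b6 b7 b8
    refine (h1 q ps k' b1 b2 b3 b4 b5 b6 b7 b8).trans ?_
    have h2 : 1 ≤ Real.exp el := Real.one_le_exp hel0
    have h3 := one_le_Ht ps
    have h4 : 0 ≤ Ht ps ^ D.J := Real.rpow_nonneg (by linarith) _
    have h5 : Bd * H ^ M ≤ Bd * Real.exp el * H ^ M := by
      refine mul_le_mul_of_nonneg_right ?_ hHM0
      exact le_mul_of_one_le_right hBd h2
    exact mul_le_mul_of_nonneg_right (mul_le_mul_of_nonneg_right h5 h4) (Real.exp_pos _).le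
  -- the numbers
  obtain ⟨Bl, hBl⟩ : ∃ x : ℝ, x = Bd * Real.exp el * H ^ M := ⟨_, rfl⟩
  obtain ⟨Rn, hRn⟩ : ∃ x : ℝ, x = CR * X ^ (ε / 4) * H ^ J * Bd := ⟨_, rfl⟩
  have hBl0 : 0 ≤ Bl := by rw [hBl]; positivity
  have hRn0 : 0 ≤ Rn := by rw [hRn]; positivity
  have cF : ∀ σ : ℝ, σ ≤ n + N * S + r₂ → ClX (ex0 D.κ) D (Ge (n - cc - N * dl - r₂))
      (C₃ * X' ^ ε₂ * (Bd * Real.exp (F (σ + N * r₃)) * H ^ M)) (S + r₂) (3 * w' + r₂)
      (C₁ * Real.exp n * Real.exp r₂) σ := by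
    intro σ hσ
    refine hop X' hX'3 D (by rw [hD]; exact hP) (by rw [hD]) (by rw [hD]; exact hD01)
      (by rw [hD]) (by rw [hD]; exact hlen) (Bd * Real.exp (F (σ + N * r₃)) * H ^ M) (S + r₂)
      (3 * w' + r₂) (C₁ * Real.exp n * Real.exp r₂) (Real.exp (N * r₃))
      (n - cc - N * dl - r₂) (n - cc - w') σ (σ + N * r₃)
      (by positivity) le_rfl ?_ le_rfl ?_ ?_
    · intro ps h1 h2 h3
      rw [hlX', hbl]
      refine ⟨by linarith, ?_⟩
      rw [hD]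
      show vl + el + (n - LF ps) + (3 * w' + r₂) ≤ 8 * κ + 8 * L
      linarith
    · have h1 : Real.log D.D0 = dl := by rw [hD]; exact hlD0
      rw [h1]
      linarith
    · have cS3 := cS2 (σ + N * r₃)
      rw [hDn] at cS3
      refine cS3.mono le_rfl (by linarith) ?_
      rw [mul_assoc (C₁ * Real.exp n), ← Real.exp_add]
  obtain ⟨El, hEl⟩ : ∃ x : ℝ, x = C₂ * X' ^ (5 * ε₂) * (1 + (C₃ * X' ^ ε₂ * (Bd * H ^ M) +
    Bd * H ^ M) + Rn) := ⟨_, rfl⟩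
  have hEl0 : 0 ≤ El := by rw [hEl]; positivity
  have key := hrg X' hX'3 (((le_max_left _ _).trans (le_max_left _ _)).trans (hXX.trans hXX')) D
    (by rw [hD]; exact hP) (by rw [hD]) (by rw [hD]; exact hXδ) (by rw [hD]) (by rw [hD])
    (by rw [hD]; exact hlen) (by rw [hD]; exact hz)
    (by rw [hD]; exact hn.trans (RXg848.LF_natl ps₀).symm)
    (by rw [hDκ]; linarith) (by rw [hDv]; linarith)
    (by rw [hDn, hlX', hbl]; linarith)
    (by rw [hDv, hlX', hbl]; linarith)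
    (by rw [hDn, hDκ, hDv]; linarith)
    N0f N1f (fun L => rhs (N1f L)) cut_sharp cc (Bd * Real.exp el * H ^ M) El (fun m => Real.exp (min cc (m - (n - cc))))
    hcc0 (by rw [hlX', hbl]; linarith) (by positivity) hEl0 (fun m => by rw [hDn])
    (by rw [hlX', ← hw', hDn]; rw [hDn] at cJ; exact cJ)
    (by rw [hlX', ← hw', hDn]; exact cT)
    ?_ k hk0 (by rw [hDv]; exact hkv')
  · -- the conclusion
    have e1 : SF D.z D.D0 1 D.P D.h k (natl D.ps₀) = S0p P h k ps₀ := by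
      rw [hD]
      exact RXg848.SFK_natl_one Kg P h (X ^ (b * δ')) (X ^ (b * δ')) k ps₀
    have e2 : Ht (natl D.ps₀) = H := by rw [hD, hH]
    have e3 : D.κ = K * Real.log X := by rw [hD, ← hL]; exact hκ
    rw [e1, e2, e3, hDn, hn] at key
    refine key.trans ?_
    rw [← RXg848.Ht_natl, ← hH]
    obtain ⟨G, hG⟩ : ∃ x : ℝ, x = Real.exp (fl (K * Real.log X) k (LL Dq ps₀)) := ⟨_, rfl⟩
    rw [← hG]
    have hG0 : 0 ≤ G := by rw [hG]; exact (Real.exp_pos _).le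
    obtain ⟨A, hA⟩ : ∃ x : ℝ, x = X ^ (ε / 4) := ⟨_, rfl⟩
    have hA1 : 1 ≤ A := by rw [hA]; exact Real.one_le_rpow hX1 (by positivity)
    have hεl4 : ε / 4 * L = εl / 4 := by rw [hεl]; ring
    have a1 : X' ^ (3 * (m * ε₂) + 4 * ε₂ + 4 * ε₁) ≤ A := by
      rw [hA, hpowX', hpowX, hεl4]
      refine Real.exp_le_exp.2 ?_
      have h1 : (3 * (m * ε₂) + 4 * ε₂ + 4 * ε₁) * (b * L) ≤ (11 * ε₁) * (b * L) :=
        mul_le_mul_of_nonneg_right (by linarith) (by positivity)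
      have h2 : (11 * ε₁) * (b * L) = 11 * w' := by rw [hw']; ring
      linarith
    have a2 : X' ^ (5 * ε₂) ≤ A := by
      rw [hA, hpowX', hpowX, hεl4]
      refine Real.exp_le_exp.2 ?_
      have h1 : (5 * ε₂) * (b * L) ≤ (5 * ε₁) * (b * L) :=
        mul_le_mul_of_nonneg_right (by linarith) (by positivity)
      have h2 : (5 * ε₁) * (b * L) = 5 * w' := by rw [hw']; ring
      linarith
    have a3 : X' ^ ε₂ ≤ A := by
      refine le_trans (Real.rpow_le_rpow_of_exponent_le hX'1 ?_) a2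
      linarith
    have a4 : Real.exp el ≤ A := by
      rw [hA, hpowX, hεl4]
      exact Real.exp_le_exp.2 (by linarith)
    have k1 : El ≤ C₂ * A * (1 + (1 *
        (C₃ * A * (Bd * H ^ J)) + 1 * (Bd * H ^ J)) + CR * A * H ^ J * Bd) := by
      rw [hEl, hRn, ← hA, one_mul, one_mul]
      have hA0 : 0 ≤ A := by linarith
      gcongr
    have k2 := ne_const (C₁ := C₁) (C₂ := C₂) (C₃ := C₃) (CR := CR) (A := A) (H := H ^ J)
      (Bd := Bd) (F := G) (t1 := 1) (t2 := 1)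
      (by linarith) hC₂ (by linarith) hCR hA1 hHJ1 hBd hG0 le_rfl le_rfl
    have k5 : Bd * Real.exp el * H ^ M ≤ A * (Bd * H ^ J) := by
      calc Bd * Real.exp el * H ^ M ≤ Bd * A * H ^ J := by gcongr
        _ = _ := by ring
    have k3 : C₁ * X' ^ (3 * (m * ε₂) + 4 * ε₂ + 4 * ε₁) * (El + Bd * Real.exp el * H ^ M + 1) *
        H ^ J * G ≤
        C₁ * A * (C₂ * A * (1 + (1 *
        (C₃ * A * (Bd * H ^ J)) + 1 * (Bd * H ^ J)) + CR * A * H ^ J * Bd) + A * (Bd * H ^ J) + 1) *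
        H ^ J * G := by
      gcongr
    refine (k3.trans k2).trans ?_
    have e4 : (H ^ J) ^ 2 = H ^ (2 * J) := by
      rw [← Real.rpow_natCast (H ^ J) 2, ← Real.rpow_mul (by linarith)]
      congr 1
      push_cast; ring
    have e5 : A ^ 3 ≤ X ^ ε := by
      rw [hA, ← Real.rpow_natCast, ← Real.rpow_mul hX0.le]
      refine Real.rpow_le_rpow_of_exponent_le hX1 ?_
      push_cast; linarith
    rw [e4]
    have hH2 : 0 ≤ H ^ (2 * J) := Real.rpow_nonneg (by linarith) _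
    have hmx : C₁ * (C₂ * (2 + C₃ + CR) + 2) ≤
      max (C₁ * Real.exp (r₂ + N * r₃)) (C₁ * (C₂ * (2 + C₃ + CR) + 2)) := le_max_right _ _
    have hmx0 : 0 ≤ C₁ * (C₂ * (2 + C₃ + CR) + 2) := by
      have : 0 ≤ C₃ := by linarith
      have : 0 ≤ C₁ := by linarith
      positivity
    gcongr
  · -- (LB)
    intro a ha1 ha2 q ps hq hqQ hNT hps hcm
    rw [hlX', ← hw'] at ha1 ha2
    obtain ⟨Lv, hLv⟩ : ∃ x : ℝ, x = D.v + (D.n - LF ps) + a + e₃ * Real.log X' := ⟨_, rfl⟩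
    rw [← hLv]
    have hLv' : Lv = vl + el + (n - LF ps) + a + e₃ * (b * L) := by
      rw [hLv, hlX', hDv, hDn]
    rw [hDn] at hcm hqQ
    have hps' : SbL S ps ps₀ := by rw [hD] at hps; exact hps
    have hLF : LF ps ≤ n + N * S := by
      have := hps'.LF_le hS hlen
      rwa [RXg848.LF_natl, ← hn] at this
    have hLF0 : 0 ≤ LF ps := LF_nonneg hps'.z_nonneg
    have hLv0 : 0 ≤ Lv := by rw [hLv']; linarith
    have hqX : (nm q : ℝ) ≤ X ^ (K + 1) := by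
      refine le_trans ?_ (hqQ.trans hexpnC)
      exact le_mul_of_one_le_right (Nat.cast_nonneg _) (Real.one_le_exp hLF0)
    have hfacts : NFacts K v g (ε / 4) X ps₀ ps Lv (N1f Lv) := by
      constructor
      · rw [← hn, ← hL]
        have : (K + ε / 4) * L = κ + εl / 4 := by rw [hκ, hεl]; ring
        linarith
      · rw [← hn, ← hL, ← hcc]; exact hcm
      · rw [← hn, ← hL]
        have : ε / 4 * L = εl / 4 := by rw [hεl]; ring
        linarith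
      · exact hLv0
      · rw [← hL, ← hκ, hLv']; linarith
      · rw [← hL, ← hn, hLv']
        have : (v + ε / 4) * L = vl + εl / 4 := by rw [hvl, hεl]; ring
        linarith
      · rw [← hL, ← hn, hLv', ← hvl]; linarith
      · exact (exp_le_N0f Lv).trans (by exact_mod_cast N0f_le_N1f Lv)
      · exact cut_sharp.hi Lv hLv0
      · exact hNT
      · rw [N1f_half]; exact exp_le_N0f Lv
    have hRRq := hRf q ps Lv (N1f Lv) hfacts hq hqX hps'
    have eK : X ^ K = Real.exp κ := by rw [hpowX, hκ]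
    have eb : X ^ (8 * (K + 1)) = X' := by rw [hX', hb]
    rw [eK, eb, ← hL, ← hcc, ← hn] at hRRq
    have hHt := one_le_Ht ps
    obtain ⟨cg, hcg⟩ : ∃ x : ℝ, x = min cc (LF ps - (n - cc)) := ⟨_, rfl⟩
    rw [← hcg] at hRRq
    have hcg1 : cg ≤ cc := by rw [hcg]; exact min_le_left _ _
    have hcg2 : cg ≤ LF ps - (n - cc) := by rw [hcg]; exact min_le_right _ _
    have hcg3 : LF ps - w' + r₂ - (n - cc) ≤ cg := by
      rw [hcg]
      exact le_min (by linarith) (by linarith)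
    have heβ' := heβ Lv (LF ps)
    have he₀' := he₀ Lv (LF ps)
    have hF' := hF (LF ps)
    have hβ5' := hβ5 Lv (LF ps) (by rw [← hn, ← hL, ← hεl]; linarith)
    rw [← hL] at heβ' hβ5'
    rw [← hκ] at hβ5'
    rw [← hcl] at heβ'
    obtain ⟨Bf, hBf⟩ : ∃ x : ℝ, x = C₃ * X' ^ ε₂ *
      (Bd * Real.exp (F (LF ps + r₂ + N * r₃)) * H ^ M) := ⟨_, rfl⟩
    have hBf0 : 0 ≤ Bf := by rw [hBf]; positivity
    have hFs : F (LF ps + r₂ + N * r₃) ≤ F (LF ps) + (r₂ + N * r₃) := by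
      rw [add_assoc]
      exact hFx _ _ (by positivity)
    have hRR2 : Rh ⟨Cw, η₀, Jn + 2, Real.exp D.κ, Real.exp (LF ps), X', R, Jn, N1f Lv,
        Real.exp (e₀ Lv (LF ps)), Real.exp (e₁ Lv (LF ps)), Real.exp (β Lv (LF ps)),
        Real.exp (-β Lv (LF ps)), Real.exp cg, Real.exp cg⟩
        (sqc q (alF D.z D.D0 D.P D.h ps)) (Rn * Ht ps ^ J * Real.exp (2 * LF ps)) := by
      have h1 : sqc q (alF D.z D.D0 D.P D.h ps) =
          sqc q (alF (X ^ (b * δ')) (X ^ (b * δ')) P h ps) := by rw [hD]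
      rw [hDκ, h1]
      refine hRm _ _ _ _ hRRq ?_
      rw [hRn, ← hH]
      have h2 : (Ht ps * H) ^ J₀ ≤ Ht ps ^ J * H ^ J := by
        rw [← Real.mul_rpow (by linarith) (by linarith)]
        exact Real.rpow_le_rpow_of_exponent_le
          (one_le_mul_of_one_le_of_one_le hHt hH1) hJ₀J
      calc CR * X ^ (ε / 4) * (Ht ps * H) ^ J₀ * Bd * Real.exp (2 * LF ps) ≤
            CR * X ^ (ε / 4) * (Ht ps ^ J * H ^ J) * Bd * Real.exp (2 * LF ps) := by gcongr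
        _ = _ := by ring
    have hlb1 := hlb X' hX'3 (((le_max_right _ _).trans (le_max_left _ _)).trans
      (hXX.trans hXX')) D (by rw [hD]; exact hP) (by rw [hD]) (by rw [hD]; exact hD01)
      (by rw [hD]) (by rw [hD]; exact hlen)
      (by rw [hDκ, hlX', hbl]; linarith) Bf Bl S (3 * w')
      (C₁ * Real.exp n) (Real.exp r₂) cg cg cc w' (n - cc - N * dl - r₂) 0
      (LF ps + r₂) hBf0 hBl0 le_rfl (by positivity) le_rfl hw0
      (by rw [hlX', hbl]; linarith) (by rw [hBf]; exact cF _ (by linarith))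
      (by
        rw [hBl]
        refine cJ2.mono (by linarith) (by linarith) ?_
        rw [Real.exp_add, ← mul_assoc]
        refine le_mul_of_one_le_right (by positivity) (Real.one_le_exp hNr₃))
      q ps hq hqQ (by rw [hD]; exact hps') (by rw [hlX', hbl]; linarith)
      (by rw [hDn]; exact hcm) (by linarith)
      (by
        have h1 : Real.log D.D0 = dl := by rw [hD]; exact hlD0
        rw [h1]; linarith)
      (by rw [hDn]; linarith)
      (N1f Lv) Lv (by have := two_le_N1f Lv; omega) (cut_sharp.hi Lv hLv0)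
      (by rw [hlX', hbl, hLv']; linarith)
      (by rw [hlX', hbl, hLv']; linarith)
      (by rw [hDv, hDn, hLv']; linarith)
      (e₀ Lv (LF ps)) (e₁ Lv (LF ps)) (β Lv (LF ps)) he₀' (by rw [hlX', hbl]; linarith)
      (by linarith)
      (by rw [hDκ]; linarith)
      Rn hRn0 hRR2
    have h1 : Real.log D.D0 = dl := by rw [hD]; exact hlD0
    rw [h1] at hlb1
    beta_reduce
    rw [← hcg]
    refine hlb1.mono (Real.exp_pos _).le (Real.exp_pos _).le ?_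
    rw [hEl]
    have h3 : 0 ≤ Ht ps ^ J := Real.rpow_nonneg (by linarith) _
    obtain ⟨f, hf⟩ : ∃ x : ℝ, x = Real.exp (e₀ Lv (LF ps) - β Lv (LF ps)) +
      τ * Real.exp (-e₀ Lv (LF ps)) := ⟨_, rfl⟩
    rw [← hf]
    have hhalf : ∀ x : ℝ, x ≤ -1 → Real.exp x ≤ 1 / 2 := fun x hx => by
      have h4 : Real.exp x ≤ Real.exp (-1) := Real.exp_le_exp.2 hx
      have h5 : Real.exp (-1 : ℝ) ≤ 1 / 2 := by
        rw [Real.exp_neg, inv_eq_one_div]
        refine one_div_le_one_div_of_le (by norm_num) ?_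
        have := Real.add_one_le_exp (1 : ℝ)
        linarith
      linarith
    have t0 : ∀ y : ℝ, y ≤ F (LF ps) + (cl - 1) → f * Real.exp y ≤ 1 := by
      intro y hy
      have g1 : Real.exp (e₀ Lv (LF ps) - β Lv (LF ps)) * Real.exp y ≤ 1 / 2 := by
        rw [← Real.exp_add]
        exact hhalf _ (by linarith)
      have g2 : τ * Real.exp (-e₀ Lv (LF ps)) * Real.exp y ≤ 1 / 2 := by
        rcases hτe with h6 | h6
        · rw [h6, zero_mul, zero_mul]; norm_num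
        · have h7 := h6 Lv (LF ps)
          rw [← hL, ← hcl] at h7
          rw [mul_assoc, ← Real.exp_add]
          have h8 := hhalf (-e₀ Lv (LF ps) + y) (by linarith)
          calc τ * Real.exp (-e₀ Lv (LF ps) + y) ≤ 1 * Real.exp (-e₀ Lv (LF ps) + y) :=
                mul_le_mul_of_nonneg_right hτ1 (Real.exp_pos _).le
            _ ≤ 1 / 2 := by rw [one_mul]; exact h8
      rw [hf, add_mul]
      linarith
    have t1 : f * Real.exp (F (LF ps + r₂ + N * r₃)) ≤ 1 := t0 _ (by linarith)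
    have t2 : f * (Real.exp el * Real.exp (N * dl + 3 * w')) ≤ 1 := by
      rw [← Real.exp_add]
      exact t0 _ (by linarith)
    have t3 : f * (Bf + Bl * Real.exp (N * dl + 3 * w')) ≤
        C₃ * X' ^ ε₂ * (Bd * H ^ M) + Bd * H ^ M := by
      rw [hBf, hBl]
      have u1 : 0 ≤ C₃ * X' ^ ε₂ * (Bd * H ^ M) := by positivity
      have u2 : 0 ≤ Bd * H ^ M := by positivity
      calc f * (C₃ * X' ^ ε₂ * (Bd * Real.exp (F (LF ps + r₂ + N * r₃)) * H ^ M) +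
            Bd * Real.exp el * H ^ M * Real.exp (N * dl + 3 * w')) =
            (C₃ * X' ^ ε₂ * (Bd * H ^ M)) * (f * Real.exp (F (LF ps + r₂ + N * r₃))) +
            (Bd * H ^ M) * (f * (Real.exp el * Real.exp (N * dl + 3 * w'))) := by ring
        _ ≤ (C₃ * X' ^ ε₂ * (Bd * H ^ M)) * 1 + (Bd * H ^ M) * 1 :=
            add_le_add (mul_le_mul_of_nonneg_left t1 u1) (mul_le_mul_of_nonneg_left t2 u2)
        _ = _ := by ring
    gcongr

end Crest.Agent.R017.NEg551
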