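import Crest.Agent.R017.JBf_180
import Crest.Agent.R017.NumR_180
import Crest.Agent.R017.NEi_551
import Crest.Agent.R017.NEj_73

/-!
# Row 17, near field (helper180): joint numbers of the flagged lists of the near leaf

* `jb_flag2` : `jb_flag`, the levels of the children shortened by `3 log (nm g)`
* `FxC`      : the flat claims for the sub-lists (551's `NTc.fx` as a property)
* **`jbr_near`** : `JBr` of `sqc q (alF (X ^ δ) (X ^ δ) P h ps)` from `FxC`, `NFacts`, `SbL`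
-/

set_option autoImplicit false

noncomputable section

open Complex
open scoped ComplexConjugate

namespace Crest.Agent.R017.JBf180

open Crest.Agent.R012 Crest.Agent.R012.Eis Crest.Agent.R012.LS2 Crest.Agent.R012.Gauss880
open Crest.Agent.R012.Div277 (dvs mem_dvs isPrim_of_mem_dvs dvs_zero)
open Crest.Agent.R012.Weight600 (osc pw)
open Crest.Agent.R017.CM106 Crest.Agent.R017.FE47
open Crest.Agent.R017.HP842 hiding fl
open Crest.Agent.R017.End699 hiding pw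
open Crest.Agent.R017.B770
open Crest.Agent.R017.TP320 (conv)
open Crest.Agent.R017.Prov71
open Crest.Agent.R017.Rough381 (VF VF_nonneg)
open Crest.Agent.R017.Leg381
open Crest.Agent.R017.RG64
open Crest.Agent.R017.E1551 (sg tws JB yv BU mem_BU CF)
open Crest.Agent.R017.XP699 (LL Chd hcost cst)
open Crest.Agent.R017.NE73 (gN)
open Crest.Agent.R017.NEg551 (NFacts)
open Crest.Agent.R017.NEc180 (JBr)

/-- **the joint blocks of a flagged list** from the natural lists; the levels of the natural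
lists are shortened by `3 log (nm g)` -/
theorem jb_flag2 {h : ℝ → ℝ} {c : ℝ} (hpu : PU h c) (N : ℕ) {B₀ : ℝ} {ε : ℝ} {J : ℝ}
    (hJ : 0 ≤ J) (hML : MergeList h N B₀ ε J) : ∃ C r : ℝ, 1 ≤ C ∧ 0 ≤ r ∧ ∀ X : ℝ, 3 ≤ X →
    ∀ D : Dat, D.P.OK → D.h = h → 1 ≤ D.D0 → D.J = J → D.ps₀.length ≤ N →
    ∀ (E : ℝ → ℝ → ℝ) (B s a Q q₀ lo σ : ℝ) (g : Eis), 0 ≤ B → Real.exp r ≤ q₀ →
    ClN D E B (s + r) (a + r - 3 * Real.log (nm g)) (Q * q₀) lo σ →
    ∀ (q : Eis) (ps : List Pf) (Y Bb V t Ex : ℝ), IsPrim q →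
    (nm q : ℝ) * Real.exp (LF ps) ≤ Q → IsPrim g →
    (nm g : ℝ) ≤ X ^ B₀ → SbL s ps D.ps₀ → LF ps ≤ Real.log X →
    0 ≤ Y → 1 ≤ Bb → Bb ≤ X ^ B₀ →
    LF ps - Real.log (nm g) - Real.log Bb + r ≤ σ →
    lo + Real.log (nm g) + Real.log Bb + N * Real.log D.D0 + r ≤ LF ps →
    1 ≤ V → V ≤ X → Real.log V + 2 * Real.log (nm g) ≤ D.v + (D.n - LF ps) + a →
    (∀ l m' : ℝ, 0 ≤ l → |l - (Real.log V + LF ps - Real.log (nm g) - m')| ≤ r →
      m' ≤ LF ps - Real.log (nm g) - Real.log Bb + r →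
      LF ps - Real.log (nm g) - Real.log Bb - N * Real.log D.D0 - r ≤ m' →
      E l m' ≤ Ex + (m' + Real.log (nm g) + Real.log Bb - LF ps)) →
    JB Y (sqc q (alF D.z D.D0 D.P D.h ps)) (fun _ => True) g Bb V t ≤
      C * X ^ ε * B * Ht ps ^ J * Real.exp Ex * (1 + |t|) ^ ((N : ℝ) * J) := by
  classical
  obtain ⟨C, r, hC, hr, H⟩ := hML
  refine ⟨C, r, hC, hr, ?_⟩
  intro X hX D hP hh hD0 hDJ hN E B s a Q q₀ lo σ g hB hq₀ hCl q ps Y Bb V t Ex hq
    hqQ hg hgX hps hLX hY hBb hBbX hσ hlo hV hVX hk hEx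
  have hX1 : (1 : ℝ) ≤ X := by linarith
  have hX0 : 0 < X := by linarith
  have hBump := bump_of_cs hpu.cs
  have hprim : ∀ n, alF D.z D.D0 D.P D.h ps n ≠ 0 → IsPrim n := by
    rw [hh]; exact (FS_alF hBump hP D.z D.D0 ps).prim
  have hlen : ps.length ≤ N := hps.length ▸ hN
  have hV0 : 0 < V := by linarith
  set k := Real.log V with hkd
  have hk0 : 0 ≤ k := Real.log_nonneg hV
  have hkX : k ≤ Real.log X := Real.log_le_log hV0 hVX
  have hng : (0 : ℝ) < nm g := by exact_mod_cast nm_pos.2 hg.ne_zero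
  set η := Real.log (nm g) with hη
  have heη : Real.exp η = nm g := Real.exp_log hng
  have hη0 : 0 ≤ η := by
    rw [hη]
    refine Real.log_nonneg ?_
    exact_mod_cast nm_pos.2 hg.ne_zero
  set b := Real.log Bb with hb
  have hBb0 : 0 < Bb := by linarith
  have hb0 : 0 ≤ b := Real.log_nonneg hBb
  have hbX : b ≤ B₀ * Real.log X := by
    rw [hb, ← Real.log_rpow hX0]
    exact Real.log_le_log hBb0 hBbX
  set m := LF ps with hm
  set ps₁ := shT t ps with hps₁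
  have hps₁' : SbL s ps₁ D.ps₀ := SbL_shT hps
  have hz := hps₁'.z_nonneg
  have hlen₁ : ps₁.length ≤ N := by rw [hps₁, shT_length]; exact hlen
  have hLF₁ : LF ps₁ = m := LF_shT t ps
  have hHt1 := one_le_Ht ps₁
  have hHt0 := one_le_Ht ps
  have hlD : 0 ≤ Real.log D.D0 := Real.log_nonneg hD0
  have hN0 : (0 : ℝ) ≤ N := Nat.cast_nonneg _
  set α := sqc q (alF D.z D.D0 D.P D.h ps) with hα
  -- the set of divisors
  obtain ⟨Qt, hQt⟩ : ∃ Qt : Eis → Prop, Qt = fun _ => True := ⟨_, rfl⟩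
  rw [← hQt]
  set Us : Finset Eis := ((S Y).filter fun U => Bb / 2 < nm U ∧ (nm U : ℝ) ≤ Bb ∧
    Qt U).filter (fun U => IsCoprime g U) with hUs
  have hUs' : ∀ U ∈ Us, IsPrim U ∧ IsCoprime g U ∧ |Real.log (nm U) - b| ≤ 1 := by
    intro U hU
    obtain ⟨h1, h2⟩ := Finset.mem_filter.1 hU
    obtain ⟨h3, h4, h5, h6⟩ := Finset.mem_filter.1 h1
    have hUp := ((mem_S hY).1 h3).2.1
    have hU0 : (0 : ℝ) < nm U := by exact_mod_cast nm_pos.2 hUp.ne_zero
    refine ⟨hUp, h2, ?_⟩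
    rw [abs_le]
    constructor
    · have h7 : Real.log (Bb / 2) ≤ Real.log (nm U) := Real.log_le_log (by positivity) h4.le
      rw [Real.log_div hBb0.ne' (by norm_num)] at h7
      have := Real.log_two_lt_d9
      linarith
    · have h7 : Real.log (nm U) ≤ b := Real.log_le_log hU0 h5
      linarith
  -- reduction
  have hred : JB Y α Qt g Bb V t ≤
      ∑ U ∈ Us, ∑ κ ∈ (bl (Real.exp k)).filter (fun κ => CubeFree (κ * U)),
        ‖TG (sqc (q * (g * U)) (CM106.sub (alF D.z D.D0 D.P D.h ps₁) (g * U))) (κ * U)‖ ^ 2 := by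
    unfold JB
    have e1 : ∑ U ∈ (S Y).filter (fun U => Bb / 2 < nm U ∧ (nm U : ℝ) ≤ Bb ∧ Qt U),
        ∑ κ ∈ BU V U, ‖TG (tws (sg α (g * U)) t) (κ * U)‖ ^ 2 =
        ∑ U ∈ Us, ∑ κ ∈ BU V U, ‖TG (tws (sg α (g * U)) t) (κ * U)‖ ^ 2 := by
      rw [hUs, Finset.sum_filter (fun U => IsCoprime g U)]
      refine Finset.sum_congr rfl fun U hU => ?_
      split_ifs with hc
      · rfl
      · refine Finset.sum_eq_zero fun κ _ => ?_
        have hU' := Finset.mem_filter.1 hU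
        have hUp := ((mem_S hY).1 hU'.1).2.1
        have h1 : Th q (g * U) = 0 := by
          unfold Th
          rw [if_neg]
          rintro ⟨h2, _⟩
          rw [squarefree_mul_iff] at h2
          exact hc (isRelPrime_iff_isCoprime.1 h2.1)
        rw [hα, tws_sg D.z D.D0 D.P D.h ps q (mul_ne_zero hg.ne_zero hUp.ne_zero) t hprim, h1,
          TG_const_mul]
        simp
    rw [e1]
    refine Finset.sum_le_sum fun U hU => ?_
    have hUp := (hUs' U hU).1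
    have hsub : BU V U ⊆ (bl (Real.exp k)).filter (fun κ => CubeFree (κ * U)) := by
      intro κ hκ
      obtain ⟨⟨h1, h2⟩, h3⟩ := mem_BU.1 hκ
      rw [Finset.mem_filter, mem_bl (Real.exp_pos _).le, hkd, Real.exp_log hV0]
      exact ⟨⟨h1.1, h2⟩, h3⟩
    refine (Finset.sum_le_sum_of_subset_of_nonneg hsub fun _ _ _ => by positivity).trans
      (Finset.sum_le_sum fun κ _ => ?_)
    rw [hα, tws_sg D.z D.D0 D.P D.h ps q (mul_ne_zero hg.ne_zero hUp.ne_zero) t hprim,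
      TG_const_mul, norm_mul, mul_pow]
    refine mul_le_of_le_one_left (by positivity) (pow_le_one₀ (norm_nonneg _) ?_)
    rw [norm_mul, norm_pw, mul_one]
    exact norm_Th_le _ _
  refine hred.trans ?_
  have key := H X hX D.P hP D.z D.D0 q g hD0 hg hgX b hb0 hbX Us hUs' k ps₁ hk0 hkX hlen₁
    (fun p hp => ⟨hz p hp, (z_le_LF hz p hp).trans (by rw [hLF₁]; exact hLX)⟩)
    (B * Ht ps₁ ^ J * Real.exp Ex) (by positivity) ?_
  · rw [← hh] at key
    refine key.trans ?_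
    have h1 : Ht ps₁ ^ J ≤ Ht ps ^ J * (1 + |t|) ^ ((N : ℝ) * J) := Ht_shT_rpow hJ t hlen
    calc C * X ^ ε * (B * Ht ps₁ ^ J * Real.exp Ex) ≤
        C * X ^ ε * (B * (Ht ps ^ J * (1 + |t|) ^ ((N : ℝ) * J)) * Real.exp Ex) := by gcongr
      _ = _ := by ring
  · intro l ps' hl hch hnat h1 h2 h3
    rw [hLF₁] at h1 h2 h3 ⊢
    have hps' := hps₁'.childG hch
    have hcst := cstF_nonneg ps' ps₁
    have hq' : IsPrim (q * g) := hq.mul hg
    have hqQ' : (nm (q * g) : ℝ) ≤ Q * q₀ := by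
      rw [nm_mul]; push_cast
      have h5 : (nm g : ℝ) ≤ Real.exp m * Real.exp r := by
        rw [← heη, ← Real.exp_add]
        refine Real.exp_le_exp.2 ?_
        have := LF_nonneg hps'.z_nonneg
        linarith
      calc (nm q : ℝ) * nm g ≤
            nm q * (Real.exp m * Real.exp r) := mul_le_mul_of_nonneg_left h5 (Nat.cast_nonneg _)
        _ = (nm q * Real.exp m) * Real.exp r := by ring
        _ ≤ Q * q₀ := mul_le_mul hqQ hq₀ (Real.exp_pos _).le ((by positivity : (0 : ℝ) ≤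
            nm q * Real.exp m).trans hqQ)
    have h3' := (abs_le.1 h3).2
    have hc1 := hCl (q * g) ps' l hq' hqQ' hnat hps'
      (by linarith) (by linarith) hl (by linarith)
    have hHt' : Ht ps' ^ J ≤ Ht ps₁ ^ J * cstF ps' ps₁ ^ J := by
      rw [← Real.mul_rpow (by linarith) hcst]
      exact Real.rpow_le_rpow (by linarith [one_le_Ht ps']) (Ht_le_cst hch) hJ
    have hex := hEx l (LF ps') hl h3 h1 h2
    rw [hDJ] at hc1
    rw [hh] at hc1
    refine hc1.trans ?_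
    have hE : Real.exp (E l (LF ps')) ≤ Real.exp Ex * Real.exp (LF ps' + η + b - m) := by
      rw [← Real.exp_add]
      exact Real.exp_le_exp.2 hex
    calc B * Ht ps' ^ J * Real.exp (E l (LF ps')) ≤
          B * (Ht ps₁ ^ J * cstF ps' ps₁ ^ J) * (Real.exp Ex *
            Real.exp (LF ps' + η + b - m)) := by gcongr
      _ = _ := by ring

/-- **the flat claims** for the sub-lists of the parent (551's `NTc.fx`), removed length up to
`gN + y c + x`, loss `(y + 1) c` -/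
def FxC (P : DPar) (h : ℝ → ℝ) (K v c y ε X r b M Bd : ℝ) (ps₀ : List Pq) : Prop :=
  ∀ (x l : ℝ) (ps' : List Pq), 0 ≤ x → 0 ≤ l →
    l ≤ (v + ε) * Real.log X + (LL Dq ps₀ - LL Dq ps') - 3 * x →
    LL Dq ps₀ - LL Dq ps' ≤ (gN K c (LL Dq ps₀ / Real.log X) + y * c) * Real.log X + x →
    List.Forall₂ (Chd Dq hcost r b) ps' ps₀ →
    S0p P h l ps' ≤ Bd * cst hcost ps' ps₀ ^ M *
      Real.exp (fl (K * Real.log X) l (LL Dq ps') + (y + 1) * c * Real.log X)

/-- the flat shape of a cell `(δ, e, v)` of the list of length `m` -/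
def ShN (κ m c' : ℝ) (δ e v : ℝ) : ℝ := fl κ (v + e) (m - δ - e) + c'

/-- exponents -/
lemma fl_cell {κ v m η b l m' r : ℝ} (hr : 0 ≤ r) (h1 : |l - (v + m - η - m')| ≤ r)
    (h2 : m' ≤ m - η - b + r) :
    fl κ l m' ≤ fl κ (v + b) (m - η - b) + 2 * r + (m' + η + b - m) := by
  unfold fl
  have h3 := (abs_le.1 h1).2
  have h4 : max 0 ((l - 2 * m' + κ) / 3) ≤
      max 0 ((v + b - 2 * (m - η - b) + κ) / 3) + (2 * r - (m' + η + b - m)) := by
    refine max_le ?_ ?_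
    · have := le_max_left 0 ((v + b - 2 * (m - η - b) + κ) / 3)
      linarith
    · have := le_max_right 0 ((v + b - 2 * (m - η - b) + κ) / 3)
      linarith
  linarith

/-- **the joint numbers of the flagged lists of the near leaf** -/
theorem jbr_near {h : ℝ → ℝ} {c₂ : ℝ} (hpu : PU h c₂) (N : ℕ) {K : ℝ} (hK : 0 < K) {ε M : ℝ}
    (hε : 0 < ε) (hM : 0 ≤ M) : ∃ C r : ℝ, 1 ≤ C ∧ 0 ≤ r ∧ ∀ X : ℝ, 3 ≤ X → ∀ P : DPar, P.OK →
    ∀ ps₀ : List Pq, ps₀.length ≤ N → ∀ (v c y g e₁ e₂ S₀ r' b' Bd δ₀ : ℝ) (Jn : ℕ), 0 ≤ δ₀ →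
    (N : ℝ) * M ≤ Jn → 0 ≤ Bd → S₀ + r ≤ r' → FxC P h K v c y e₂ X r' b' M Bd ps₀ →
    ∀ (q : Eis) (ps : List Pf) (Lv : ℝ) (N₁ : ℕ), NFacts K v g e₁ X ps₀ ps Lv N₁ →
    IsPrim q → (nm q : ℝ) * Real.exp (LF ps) * Real.exp r ≤ b' → SbL S₀ ps ps₀ →
    e₁ * Real.log X + 4 + r ≤ e₂ * Real.log X → Lv + 4 ≤ 8 * (K + 1) * Real.log X →
    LF ps ≤ 8 * (K + 1) * Real.log X → ∀ D E0 : ℝ, 0 ≤ D → D ≤ X ^ (8 * (K + 1)) → 0 < E0 →
    Real.log (3 * E0) + N * (δ₀ * Real.log X) + r ≤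
      LF ps - 3 / 4 * K * Real.log X + (y + 1) * c * Real.log X →
    JBr (X ^ (8 * (K + 1))) D (3 * E0) (9 * N₁) (C * X ^ ε * (Bd * Ht (natl ps₀) ^ M) * Ht ps ^ M)
      ((Jn : ℕ) : ℝ) (ShN (K * Real.log X) (LF ps) ((y + 1) * c * Real.log X))
      (sqc q (alF (X ^ δ₀) (X ^ δ₀) P h ps)) := by
  obtain ⟨b, hb⟩ : ∃ b : ℝ, b = 8 * (K + 1) := ⟨_, rfl⟩
  have hb8 : 8 ≤ b := by rw [hb]; linarith
  have hb0 : 0 < b := by linarith
  obtain ⟨C, r, hC, hr, H⟩ := jb_flag2 hpu N (B₀ := 1) (ε := ε / b) hM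
    (mergeList_of hpu N zero_le_one (by positivity) hM)
  refine ⟨C * Real.exp (2 * r), r, ?_, hr, ?_⟩
  · exact one_le_mul_of_one_le_of_one_le hC (Real.one_le_exp (by linarith))
  intro X hX P hP ps₀ hlen v c y g e₁ e₂ S₀ r' b' Bd δ₀ Jn hδ₀ hJn hBd hSr hFx q ps Lv N₁ hF hq hqb
    hps he hLv hLF D E0 hD0 hDX hE0 hrem
  rw [← hb] at hLv hLF hDX ⊢
  have hX1 : (1 : ℝ) ≤ X := by linarith
  have hX0 : 0 < X := by linarith
  obtain ⟨L, hL⟩ : ∃ L : ℝ, L = Real.log X := ⟨_, rfl⟩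
  have hL0 : 0 < L := by rw [hL]; exact Real.log_pos (by linarith)
  obtain ⟨X', hX'⟩ : ∃ x : ℝ, x = X ^ b := ⟨_, rfl⟩
  have hXX' : X ≤ X' := by
    rw [hX']
    calc X = X ^ (1 : ℝ) := (Real.rpow_one X).symm
      _ ≤ X ^ b := Real.rpow_le_rpow_of_exponent_le hX1 (by linarith)
  have hX'3 : 3 ≤ X' := hX.trans hXX'
  have hX'0 : 0 < X' := by linarith
  have hlX' : Real.log X' = b * L := by rw [hX', Real.log_rpow hX0, hL]
  have hX'e : X' ^ (ε / b) = X ^ ε := by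
    rw [hX', ← Real.rpow_mul hX0.le]
    congr 1
    field_simp
  rw [← hX'] at hDX ⊢
  rw [← hL] at he hLv hLF hrem ⊢
  intro d hd B V hB1 hB3 hBY hV1 hVW t
  obtain ⟨hdD, hdp, hdsq⟩ := (mem_S hD0).1 hd
  have hdn : (0 : ℝ) < nm d := by exact_mod_cast nm_pos.2 hdp.ne_zero
  have hd1 : (1 : ℝ) ≤ nm d := by exact_mod_cast nm_pos.2 hdp.ne_zero
  have hld : 0 ≤ Real.log (nm d) := Real.log_nonneg hd1
  have hV0 : 0 < V := by linarith
  have hB0 : 0 < B := by linarith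
  have hVd : V * (nm d : ℝ) ^ 2 ≤ 9 * N₁ := (le_div_iff₀ (by positivity)).mp hVW
  have hVd2 : V * (nm d : ℝ) ^ 2 ≤ Real.exp (Lv + 4) := hVd.trans hF.N1
  have hlV : Real.log V + 2 * Real.log (nm d) ≤ Lv + 4 := by
    have h3 := Real.log_le_log (by positivity) hVd2
    rw [Real.log_mul hV0.ne' (by positivity), Real.log_pow, Real.log_exp] at h3
    push_cast at h3
    exact h3
  have hVX : V ≤ X' := by
    rw [← Real.log_le_log_iff hV0 hX'0, hlX']
    linarith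
  have hlB : Real.log B ≤ Real.log (3 * E0) := Real.log_le_log hB0 hB3
  have hlB0 : 0 ≤ Real.log B := Real.log_nonneg hB1
  have hlvF := hF.lv
  rw [← hL] at hlvF
  have hD0' : 1 ≤ X ^ δ₀ := Real.one_le_rpow hX1 hδ₀
  have hlD0 : Real.log (X ^ δ₀) = δ₀ * L := by rw [Real.log_rpow hX0, hL]
  -- the data
  have hcl : ClN ⟨P, h, X ^ δ₀, X ^ δ₀, ps₀, M, K * L, v * L, LL Dq ps₀⟩
      (fun l m' => fl (K * L) l m' + (y + 1) * c * L) (Bd * Ht (natl ps₀) ^ M) (S₀ + r)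
      (e₁ * L + 4 + r - 3 * Real.log (nm d)) ((nm q : ℝ) * Real.exp (LF ps) * Real.exp r)
      (LF ps - Real.log (nm d) - Real.log B - N * (δ₀ * L) - r)
      (LF ps - Real.log (nm d) - Real.log B + r) := by
    refine clN_prem (D := ⟨P, h, X ^ δ₀, X ^ δ₀, ps₀, M, K * L, v * L, LL Dq ps₀⟩) (r := r')
      (b := b') (M := M) hSr hqb hM le_rfl hBd ?_
    intro l ps' hl hla hlo hσ hch
    have hla' : l ≤ v * L + (LL Dq ps₀ - LL Dq ps') + (e₁ * L + 4 + r - 3 * Real.log (nm d)) := hla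
    have h1 := hFx (Real.log (nm d)) l ps' hld hl (by
      rw [← hL]
      have : (v + e₂) * L = v * L + e₂ * L := by ring
      linarith) (by
      rw [← hL]
      have e1 : (gN K c (LL Dq ps₀ / L) + y * c) * L =
          LL Dq ps₀ - 3 / 4 * K * L + (y + 1) * c * L := by
        unfold NE73.gN
        field_simp
        ring
      rw [e1]
      linarith) hch
    rw [← hL] at h1
    exact h1
  have key := H X' hX'3 ⟨P, h, X ^ δ₀, X ^ δ₀, ps₀, M, K * L, v * L, LL Dq ps₀⟩ hP rfl hD0' rfl hlen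
    (fun l m' => fl (K * L) l m' + (y + 1) * c * L) (Bd * Ht (natl ps₀) ^ M) S₀ (e₁ * L + 4)
    ((nm q : ℝ) * Real.exp (LF ps)) (Real.exp r)
    (LF ps - Real.log (nm d) - Real.log B - N * (δ₀ * L) - r)
    (LF ps - Real.log (nm d) - Real.log B + r) d
    (mul_nonneg hBd (Real.rpow_nonneg (zero_le_one.trans (one_le_Ht _)) _)) le_rfl hcl q ps X' B V t
    (fl (K * L) (Real.log V + Real.log B) (LF ps - Real.log (nm d) - Real.log B) + (y + 1) * c * L +
      2 * r) hq le_rfl hdp (by rw [Real.rpow_one]; exact hdD.trans hDX) hps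
    (by rw [hlX']; exact hLF) hX'0.le hB1 (by rw [Real.rpow_one]; exact hBY) le_rfl
    (by
      show LF ps - Real.log (nm d) - Real.log B - N * (δ₀ * L) - r + Real.log (nm d) +
        Real.log B + N * Real.log (X ^ δ₀) + r ≤ LF ps
      rw [hlD0]
      linarith) hV1 hVX
    (by
      show Real.log V + 2 * Real.log (nm d) ≤ v * L + (LL Dq ps₀ - LF ps) + (e₁ * L + 4)
      have : (v + e₁) * L = v * L + e₁ * L := by ring
      linarith)
    (fun l m' hl h1 h2 h3 => by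
      have := fl_cell (κ := K * L) hr h1 h2
      show fl (K * L) l m' + (y + 1) * c * L ≤ _
      linarith)
  rw [hX'e] at key
  have hpow : (1 + |t|) ^ ((N : ℝ) * M) ≤ (1 + |t|) ^ ((Jn : ℕ) : ℝ) :=
    Real.rpow_le_rpow_of_exponent_le (by linarith [abs_nonneg t]) hJn
  have hH1 : 0 ≤ Ht (natl ps₀) ^ M := Real.rpow_nonneg (zero_le_one.trans (one_le_Ht _)) _
  have hH2 : 0 ≤ Ht ps ^ M := Real.rpow_nonneg (zero_le_one.trans (one_le_Ht _)) _
  have e2 : Real.exp (fl (K * L) (Real.log V + Real.log B) (LF ps - Real.log (nm d) -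
      Real.log B) + (y + 1) * c * L + 2 * r) = Real.exp (2 * r) *
      Real.exp (ShN (K * L) (LF ps) ((y + 1) * c * L) (Real.log (nm d)) (Real.log B) (Real.log V)) := by
    unfold ShN
    rw [← Real.exp_add]
    congr 1
    ring
  rw [e2] at key
  refine key.trans ?_
  calc C * X ^ ε * (Bd * Ht (natl ps₀) ^ M) * Ht ps ^ M * (Real.exp (2 * r) *
        Real.exp (ShN (K * L) (LF ps) ((y + 1) * c * L) (Real.log (nm d)) (Real.log B)
          (Real.log V))) * (1 + |t|) ^ ((N : ℝ) * M) ≤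
      C * X ^ ε * (Bd * Ht (natl ps₀) ^ M) * Ht ps ^ M * (Real.exp (2 * r) *
        Real.exp (ShN (K * L) (LF ps) ((y + 1) * c * L) (Real.log (nm d)) (Real.log B)
          (Real.log V))) * (1 + |t|) ^ ((Jn : ℕ) : ℝ) :=
        mul_le_mul_of_nonneg_left hpow (by positivity)
    _ = _ := by ring

end Crest.Agent.R017.JBf180
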