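import Crest.Agent.R017.E4v7_352
import Crest.Agent.R017.E4y_92
import Crest.Agent.R017.E4C_401
import Crest.Agent.R017.E4BWa_858

/-!
# Row 17, C70/E4 (version 7), the `x`-side: finite part (helper679)

From the terms `t : Tm O` of `JB` to the arrays of the `x`-side.

* `Fc`, `facts` : what an admissible term with `val ≠ 0` knows (cube-free `R R'`, sizes)
* `pow_dvd_of_gs`, `b_size` : `v_p(b) ≤ v_p(F R' Z') + 1`, `N b ≤ X ^ 6`
* `Px`, `px`, `Px.v'` : prefix `(o, D0 D1, B, b, R R')`, `xs_eq`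
* `fib_x` : fibres of `t ↦ (px t, k)` have at most `C Y^ε` elements
* `jx_XM` : the sum over `t` against the moments `XM` (helper92) of the prefixes
* `jx_pre` : `t ↦ ((o, D0, D1, B, b, Z, Z'), (R, R', k))`
* `jb_cauchy` : Cauchy's inequality for `Σ val`
-/

set_option autoImplicit false

noncomputable section

open Complex Finset
open scoped ComplexConjugate Classical

namespace Crest.Agent.R017.JxG679

open Crest.Agent.R012 Crest.Agent.R012.Eis Crest.Agent.R012.Mob705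
open Crest.Agent.R012.Div277
open Crest.Agent.R012.GaussLoc283 (syAx gs_mul gs_table_ge)
open Crest.Agent.R017.Sx545 (Sm)
open Crest.Agent.R017.C70 (CbF)
open Crest.Agent.R017.CM106 (CS)
open Crest.Agent.R017.E4352
open Crest.Agent.R017.E4o502 (vD wD GoodD GB)
open Crest.Agent.R017.E4J352
open Crest.Agent.R017.E4y92 (XM Dk)

/-! ### general facts -/

/-- a sum through a map with small fibres -/
theorem sum_fib {ι κ : Type*} [DecidableEq κ] (O : Finset ι) (φ : ι → κ) (f : κ → ℝ) (hf : ∀ j, 0 ≤ f j)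
    (A : Finset κ) (hA : ∀ o ∈ O, φ o ∈ A) {M : ℝ}
    (hM : ∀ j ∈ A, ((O.filter (fun o => φ o = j)).card : ℝ) ≤ M) :
    ∑ o ∈ O, f (φ o) ≤ M * ∑ j ∈ A, f j := by
  rw [mul_sum, ← sum_fiberwise_of_maps_to (s := O) (t := A) (g := φ) hA]
  refine sum_le_sum fun j hj => ?_
  have e2 : ∑ o ∈ O.filter (fun o => φ o = j), f (φ o) =
      ((O.filter (fun o => φ o = j)).card : ℝ) * f j := by
    rw [sum_congr rfl (fun o ho => by rw [(mem_filter.mp ho).2]), sum_const, nsmul_eq_mul]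
  rw [e2]
  exact mul_le_mul_of_nonneg_right (hM j hj) (hf j)

/-- the divisor bound in a range -/
lemma tau_Z {ε : ℝ} (hε : 0 < ε) : ∃ C : ℝ, 1 ≤ C ∧ ∀ (Z : ℝ), 1 ≤ Z → ∀ n : Eis,
    (nm n : ℝ) ≤ Z → (tau n : ℝ) ≤ C * Z ^ ε := by
  obtain ⟨C, hC, h⟩ := Div277.tau_le_rpow hε
  refine ⟨C, hC, fun Z hZ n hn => ?_⟩
  by_cases h0 : n = 0
  · rw [h0, Div277.tau_zero]
    have : 0 ≤ Z ^ ε := by positivity
    simp only [Nat.cast_zero]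
    positivity
  · exact (h n h0).trans (mul_le_mul_of_nonneg_left
      (Real.rpow_le_rpow (Nat.cast_nonneg _) hn hε.le) (by linarith))

lemma exists_of_tsum_ne {F : Eis → ℂ} (h : ∑' x, F x ≠ 0) : ∃ x, F x ≠ 0 := by
  by_contra hc
  push Not at hc
  exact h (by simp [hc])

lemma tws_ne {R q : Eis} {g c : Eis → ℂ} {y : Eis} (h : tws R q g c y ≠ 0) :
    IsCoprime y q ∧ c (R * y) ≠ 0 := by
  unfold tws at h
  split_ifs at h with h1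
  · exact ⟨h1, right_ne_zero_of_mul h⟩
  · exact absurd rfl h

lemma vD_ne {D : Eis} {v : Eis → ℂ} {x : Eis} (h : vD D v x ≠ 0) : IsCoprime x D ∧ v x ≠ 0 := by
  obtain ⟨h1, h2⟩ := tws_ne h
  rw [one_mul] at h2
  exact ⟨h1, h2⟩

lemma wD_ne {D D1 : Eis} {w : Eis → ℂ} {y : Eis} (h : wD D D1 w y ≠ 0) :
    IsCoprime y D ∧ w (D1 * y) ≠ 0 := tws_ne h

/-- `v_p(b) ≤ v_p(u) + 1` -/
lemma pow_dvd_of_gs {u b p : Eis} (hu : u ≠ 0) (hb : IsPrim b) (h : gs u b ≠ 0) (hp : IsPP p)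
    {k : ℕ} (hk : p ^ (k + 1) ∣ b) : p ^ k ∣ u := by
  obtain ⟨a, r, rfl, hr⟩ := E4BW858.exists_val hu hp.prime
  obtain ⟨m, b', rfl, hb'⟩ := E4BW858.exists_val hb.ne_zero hp.prime
  rw [mul_comm b' (p ^ m)] at hb h hk
  have hb'p : IsPrim b' := hb.of_mul_left (hp.isPrim.pow m)
  have hc : IsCoprime (p ^ m) b' := (hp.isCoprime_iff.mpr hb').pow_left
  have hm : k + 1 ≤ m := by
    have h1 : p ^ (k + 1) ∣ p ^ m := (E4BW858.pow_dvd_mul_iff_l hp hb' _ _).mp hk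
    exact (E4BW858.pow_dvd_pow_iff' hp.prime).mp h1
  have h2 : gs (r * p ^ a) (p ^ m) ≠ 0 := by
    intro h0
    apply h
    rw [gs_mul syAx _ (hp.isPrim.pow m) hb'p hc, h0]
    ring
  have h3 : m ≤ a + 1 := by
    by_contra h4
    exact h2 (gs_table_ge syAx hp.isPrim hp.prime hr (by omega))
  exact (pow_dvd_pow p (by omega)).mul_left r

/-- divisibility from the prime powers -/
lemma dvd_of_pows : ∀ (N : ℕ) (b c : Eis), nm b ≤ N → IsPrim b → c ≠ 0 →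
    (∀ p, IsPP p → ∀ k : ℕ, p ^ k ∣ b → p ^ k ∣ c) → b ∣ c := by
  intro N
  induction N with
  | zero =>
    intro b c hb hbp _ _
    exact absurd (nm_eq_zero.mp (Nat.le_zero.mp hb)) hbp.ne_zero
  | succ N ih =>
    intro b c hb hbp hc h
    by_cases h1 : b = 1
    · rw [h1]; exact one_dvd _
    obtain ⟨p, hp, hpb⟩ := exists_pp_dvd_of_isPrim hbp h1
    obtain ⟨k, b', rfl, hb'⟩ := E4BW858.exists_val hbp.ne_zero hp.prime
    rw [mul_comm] at hb hbp hpb h ⊢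
    have hb'p : IsPrim b' := hbp.of_mul_left (hp.isPrim.pow k)
    have hk : 1 ≤ k := by
      by_contra h
      have : k = 0 := by omega
      subst this
      rw [pow_zero, one_mul] at hpb
      exact hb' hpb
    have hlt : nm b' ≤ N := by
      rw [nm_mul, nm_pow] at hb
      have h2 : 1 ≤ nm b' := nm_pos.mpr hb'p.ne_zero
      have h3 : 2 ≤ nm p ^ k := by
        calc 2 ≤ nm p := hp.one_lt_nm
          _ = nm p ^ 1 := (pow_one _).symm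
          _ ≤ nm p ^ k := Nat.pow_le_pow_right (by have := hp.one_lt_nm; omega) hk
      nlinarith
    obtain ⟨c', rfl⟩ := h p hp k (dvd_mul_right _ _)
    have hc' : c' ≠ 0 := right_ne_zero_of_mul hc
    refine mul_dvd_mul_left _ (ih b' c' hlt hb'p hc' fun q hq j hj => ?_)
    by_cases hqp : q = p
    · subst hqp
      by_cases hj0 : j = 0
      · subst hj0; rw [pow_zero]; exact one_dvd _
      · exact absurd ((dvd_pow_self q hj0).trans hj) hb'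
    · exact (E4BW858.pow_dvd_mul_iff_r hp hq hqp j k).mp (h q hq j (hj.mul_left _))

/-- if all primes of `b` divide `u` and `gs u b ≠ 0` then `b ∣ u²` -/
lemma dvd_sq_of_gs {u b : Eis} (hu : u ≠ 0) (hb : IsPrim b) (h : gs u b ≠ 0)
    (hd : ∀ p : Eis, Prime p → p ∣ b → p ∣ u) : b ∣ u ^ 2 := by
  refine dvd_of_pows (nm b) b (u ^ 2) le_rfl hb (pow_ne_zero 2 hu) fun p hp k hk => ?_
  rcases Nat.lt_or_ge k 2 with h1 | h1
  · interval_cases k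
    · rw [pow_zero]; exact one_dvd _
    · rw [pow_one] at hk ⊢
      exact (hd p hp.prime hk).trans (dvd_pow_self u two_ne_zero)
  · obtain ⟨j, rfl⟩ : ∃ j, k = j + 1 := ⟨k - 1, by omega⟩
    have h2 := pow_dvd_of_gs hu hb h hp hk
    calc p ^ (j + 1) ∣ (p ^ j) ^ 2 := by
          rw [← pow_mul]; exact pow_dvd_pow p (by omega)
      _ ∣ u ^ 2 := pow_dvd_pow_of_dvd h2 2

/-! ### facts about one term -/

variable {O : Type}

lemma val_ne {f : Eis} {lam : O → ℝ} {v w : O → Eis → ℂ} {G : Eis → ℂ} {t : Tm O}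
    (h : t.val f lam v w G ≠ 0) :
    gs (t.F f * t.R' * t.Z') t.b ≠ 0 ∧ t.xs v G ≠ 0 ∧ t.ys w G ≠ 0 := by
  unfold Tm.val at h
  have h1 := left_ne_zero_of_mul h
  have h2 := right_ne_zero_of_mul h
  refine ⟨?_, norm_ne_zero_iff.mp (left_ne_zero_of_mul h2),
    norm_ne_zero_iff.mp (right_ne_zero_of_mul h2)⟩
  intro h0
  apply h1
  unfold Tm.wt
  rw [h0, norm_zero, zero_div, mul_zero, zero_mul]

lemma xs_ne {v : O → Eis → ℂ} {G : Eis → ℂ} {t : Tm O} (h : t.xs v G ≠ 0) :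
    ∃ x, IsCoprime x (t.B * t.b) ∧ IsCoprime (t.R * t.R' * x) (t.D0 * t.D1) ∧
      v t.o (t.R * t.R' * x) ≠ 0 := by
  obtain ⟨x, hx⟩ := exists_of_tsum_ne h
  obtain ⟨h1, h2⟩ := tws_ne (left_ne_zero_of_mul hx)
  obtain ⟨h3, h4⟩ := vD_ne h2
  exact ⟨x, h1, h3, h4⟩

lemma ys_ne {w : O → Eis → ℂ} {G : Eis → ℂ} {t : Tm O} (h : t.ys w G ≠ 0) :
    ∃ y, IsCoprime y (t.B * t.b) ∧ IsCoprime (t.Z * t.Z' * y) (t.D0 * t.D1) ∧
      w t.o (t.D1 * (t.Z * t.Z' * y)) ≠ 0 := by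
  obtain ⟨x, hx⟩ := exists_of_tsum_ne h
  obtain ⟨h1, h2⟩ := tws_ne (left_ne_zero_of_mul hx)
  obtain ⟨h3, h4⟩ := wD_ne h2
  exact ⟨x, h1, h3, h4⟩

/-- what a nonzero admissible term knows -/
structure Fc (M f : Eis) (X : ℝ) (t : Tm O) : Prop where
  cbR : CbF (t.R * t.R')
  nR : (nm (t.R * t.R') : ℝ) ≤ X
  cRD : IsCoprime (t.R * t.R') (t.D0 * t.D1)
  smR : Sm M (t.R * t.R')
  nZ : (nm (t.D1 * (t.Z * t.Z')) : ℝ) ≤ X
  cZD : IsCoprime (t.Z * t.Z') (t.D0 * t.D1)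
  smZ : Sm M (t.D1 * (t.Z * t.Z'))
  n0 : (nm t.D0 : ℝ) ≤ X
  nB : (nm t.B : ℝ) ≤ X
  F0 : t.F f ≠ 0
  FB : t.F f * t.B ^ 3 = f / t.D0 * t.R * t.Z
  gs0 : gs (t.F f * t.R' * t.Z') t.b ≠ 0
  nb : (nm t.b : ℝ) ≤ X ^ 6

lemma nm_left_le {a b : Eis} (hb : b ≠ 0) : nm a ≤ nm (a * b) := by
  rw [nm_mul]
  exact Nat.le_mul_of_pos_right _ (nm_pos.mpr hb)

lemma nm_right_le {a b : Eis} (ha : a ≠ 0) : nm b ≤ nm (a * b) := by
  rw [nm_mul]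
  exact Nat.le_mul_of_pos_left _ (nm_pos.mpr ha)

theorem facts [Fintype O] {M f : Eis} {lam : O → ℝ} {v w : O → Eis → ℂ} {X : ℝ}
    (h : Dat4 M f lam v w X) {G : Eis → ℂ} {t : Tm O} (hok : t.OK M f)
    (hne : t.val f lam v w G ≠ 0) : Fc M f X t := by
  obtain ⟨hg, hx, hy⟩ := val_ne hne
  obtain ⟨x, hx1, hx2, hx3⟩ := xs_ne hx
  obtain ⟨y, hy1, hy2, hy3⟩ := ys_ne hy
  have hX0 : 0 ≤ X := zero_le_one.trans h.X1
  have pRR : IsPrim (t.R * t.R') := hok.pR.1.mul hok.pR'.1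
  have pZZ : IsPrim (t.Z * t.Z') := hok.pZ.1.mul hok.pZ'.1
  have sx := (h.hv t.o).sm _ hx3
  have sy' := (h.hw t.o).sm _ hy3
  have x0 : x ≠ 0 := right_ne_zero_of_mul sx.ne_zero
  have y0 : y ≠ 0 := right_ne_zero_of_mul (right_ne_zero_of_mul sy'.ne_zero)
  obtain ⟨hc1, hc2⟩ := h.vx _ _ hx3
  have nR : (nm (t.R * t.R') : ℝ) ≤ X := by
    have : (nm (t.R * t.R') : ℝ) ≤ nm (t.R * t.R' * x) := by exact_mod_cast nm_left_le x0
    exact this.trans hc2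
  have nZ : (nm (t.D1 * (t.Z * t.Z')) : ℝ) ≤ X := by
    have h1 : (nm (t.D1 * (t.Z * t.Z')) : ℝ) ≤ nm (t.D1 * (t.Z * t.Z') * y) := by
      exact_mod_cast nm_left_le y0
    have h2 : t.D1 * (t.Z * t.Z') * y = t.D1 * (t.Z * t.Z' * y) := by ring
    rw [h2] at h1
    exact h1.trans (h.wy _ _ hy3)
  have hf0 : f ≠ 0 := h.hf.1.ne_zero
  obtain ⟨c, hc⟩ : t.D0 ∣ f := hok.good.1
  have hc0 : c ≠ 0 := by rintro rfl; exact hf0 (by rw [hc, mul_zero])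
  have hfc : f / t.D0 = c := NT47.div_eq' hok.pD0.ne_zero hc
  have n0 : (nm t.D0 : ℝ) ≤ X := by
    have : (nm t.D0 : ℝ) ≤ nm f := by rw [hc]; exact_mod_cast nm_left_le hc0
    exact this.trans h.hf.2
  have nc : (nm c : ℝ) ≤ X := by
    have : (nm c : ℝ) ≤ nm f := by rw [hc]; exact_mod_cast nm_right_le hok.pD0.ne_zero
    exact this.trans h.hf.2
  obtain ⟨F, hF⟩ : t.B ^ 3 ∣ f / t.D0 * t.R * t.Z := hok.gb.2.2.2.1
  have hB0 : t.B ≠ 0 := hok.gb.2.1.ne_zero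
  have hu0 : f / t.D0 * t.R * t.Z ≠ 0 := by
    rw [hfc]
    exact mul_ne_zero (mul_ne_zero hc0 hok.pR.1.ne_zero) hok.pZ.1.ne_zero
  have hFF : t.F f = F := by
    unfold Tm.F E4fe502.FF
    exact NT47.div_eq' (pow_ne_zero 3 hB0) hF
  have hF0 : F ≠ 0 := by rintro rfl; exact hu0 (by rw [hF, mul_zero])
  have r1 : (nm t.R : ℝ) * nm t.R' ≤ X := by rw [← Nat.cast_mul, ← nm_mul]; exact nR
  have z1 : (nm t.Z : ℝ) * nm t.Z' ≤ X := by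
    rw [← Nat.cast_mul, ← nm_mul]
    have : (nm (t.Z * t.Z') : ℝ) ≤ nm (t.D1 * (t.Z * t.Z')) := by
      exact_mod_cast nm_right_le hok.pD1.ne_zero
    exact this.trans nZ
  have oR : (1 : ℝ) ≤ nm t.R := by exact_mod_cast nm_pos.mpr hok.pR.1.ne_zero
  have oR' : (1 : ℝ) ≤ nm t.R' := by exact_mod_cast nm_pos.mpr hok.pR'.1.ne_zero
  have oZ : (1 : ℝ) ≤ nm t.Z := by exact_mod_cast nm_pos.mpr hok.pZ.1.ne_zero
  have oZ' : (1 : ℝ) ≤ nm t.Z' := by exact_mod_cast nm_pos.mpr hok.pZ'.1.ne_zero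
  have oB : (1 : ℝ) ≤ nm t.B := by exact_mod_cast nm_pos.mpr hB0
  have oF : (1 : ℝ) ≤ nm F := by exact_mod_cast nm_pos.mpr hF0
  have eF : (nm t.B : ℝ) ^ 3 * nm F = nm c * nm t.R * nm t.Z := by
    have h1 := congrArg nm hF
    rw [hfc, nm_mul, nm_mul, nm_mul, nm_pow] at h1
    exact_mod_cast h1.symm
  have nB : (nm t.B : ℝ) ≤ X := by
    have h1 : (nm t.B : ℝ) ^ 3 ≤ X ^ 3 := by
      have hR : (nm t.R : ℝ) ≤ X := (le_mul_of_one_le_right (by positivity) oR').trans r1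
      have hZ : (nm t.Z : ℝ) ≤ X := (le_mul_of_one_le_right (by positivity) oZ').trans z1
      calc (nm t.B : ℝ) ^ 3 ≤ (nm t.B : ℝ) ^ 3 * nm F :=
            le_mul_of_one_le_right (by positivity) oF
        _ = nm c * nm t.R * nm t.Z := eF
        _ ≤ X * X * X := by gcongr
        _ = X ^ 3 := by ring
    exact (pow_le_pow_iff_left₀ (Nat.cast_nonneg _) hX0 (by norm_num)).mp h1
  refine ⟨fun p hp hd => hc1 p hp (hd.mul_right x), nR, hx2.of_mul_left_left,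
    ⟨pRR, sx.2.of_mul_left_left⟩, nZ, hy2.of_mul_left_left, ⟨hok.pD1.mul pZZ, ?_⟩, n0, nB,
    by rw [hFF]; exact hF0, by rw [hFF, hF]; ring, hg, ?_⟩
  · have h2 : t.D1 * (t.Z * t.Z') * y = t.D1 * (t.Z * t.Z' * y) := by ring
    have h3 := sy'.2
    rw [← h2] at h3
    exact h3.of_mul_left_left
  · -- the size of `b`
    have hu : t.F f * t.R' * t.Z' ≠ 0 := by
      rw [hFF]
      exact mul_ne_zero (mul_ne_zero hF0 hok.pR'.1.ne_zero) hok.pZ'.1.ne_zero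
    have hd : t.b ∣ (t.F f * t.R' * t.Z') ^ 2 := by
      refine dvd_sq_of_gs hu hok.sb.1 hg fun p hp hpb => ?_
      rcases hok.pb p hp hpb with h1 | h1 | h1
      · exact h1.mul_left _
      · exact (h1.mul_right _).mul_right _
      · exact (((dvd_pow_self p two_ne_zero).trans h1.1).mul_left _).mul_right _
    have h2 : (nm t.b : ℝ) ≤ (nm (t.F f * t.R' * t.Z') : ℝ) ^ 2 := by
      have := nm_le_of_dvd (pow_ne_zero 2 hu) hd
      rw [nm_pow] at this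
      exact_mod_cast this
    have h3 : (nm (t.F f * t.R' * t.Z') : ℝ) ≤ X ^ 3 := by
      rw [hFF, nm_mul, nm_mul]
      push_cast
      have e3 : (nm F : ℝ) ≤ nm c * nm t.R * nm t.Z := by
        rw [← eF]
        exact le_mul_of_one_le_left (by positivity) (one_le_pow₀ oB)
      calc (nm F : ℝ) * nm t.R' * nm t.Z' ≤ (nm c * nm t.R * nm t.Z) * nm t.R' * nm t.Z' := by
            gcongr
        _ = nm c * (nm t.R * nm t.R') * (nm t.Z * nm t.Z') := by ring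
        _ ≤ X * X * X := by gcongr
        _ = X ^ 3 := by ring
    calc (nm t.b : ℝ) ≤ (nm (t.F f * t.R' * t.Z') : ℝ) ^ 2 := h2
      _ ≤ (X ^ 3) ^ 2 := by gcongr
      _ = X ^ 6 := by ring

/-! ### counting -/

/-- shapes and sizes needed for counting -/
structure Sz (Y : ℝ) (t : Tm O) : Prop where
  p0 : IsPrim t.D0
  p1 : IsPrim t.D1
  pR : PrI t.B t.R
  pZ : PrI t.B t.Z
  pR' : PrI t.b t.R'
  pZ' : PrI t.b t.Z'
  B0 : t.B ≠ 0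
  b0 : t.b ≠ 0
  nD : (nm (t.D0 * t.D1) : ℝ) ≤ Y
  nB : (nm t.B : ℝ) ≤ Y
  nb : (nm t.b : ℝ) ≤ Y
  nP : (nm (t.R * t.R') : ℝ) ≤ Y
  nQ : (nm (t.Z * t.Z') : ℝ) ≤ Y

lemma Fc.sz [Fintype O] {M f : Eis} {lam : O → ℝ} {v w : O → Eis → ℂ} {X : ℝ}
    (h : Dat4 M f lam v w X) {t : Tm O} (hok : t.OK M f) (hf : Fc M f X t) : Sz (X ^ 6) t := by
  have hX := h.X1
  have hX0 : 0 ≤ X := zero_le_one.trans hX
  have m1 : X ≤ X ^ 6 := le_self_pow₀ hX (by norm_num)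
  have m2 : X * X ≤ X ^ 6 := by
    calc X * X = X ^ 2 := by ring
      _ ≤ X ^ 6 := pow_le_pow_right₀ hX (by norm_num)
  have q0 : (nm t.D1 : ℝ) ≤ X := by
    have : (nm t.D1 : ℝ) ≤ nm (t.D1 * (t.Z * t.Z')) := by
      exact_mod_cast nm_left_le (mul_ne_zero hok.pZ.1.ne_zero hok.pZ'.1.ne_zero)
    exact this.trans hf.nZ
  have q1 : (nm (t.Z * t.Z') : ℝ) ≤ X := by
    have : (nm (t.Z * t.Z') : ℝ) ≤ nm (t.D1 * (t.Z * t.Z')) := by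
      exact_mod_cast nm_right_le hok.pD1.ne_zero
    exact this.trans hf.nZ
  refine ⟨hok.pD0, hok.pD1, hok.pR, hok.pZ, hok.pR', hok.pZ', hok.gb.2.1.ne_zero, hok.sb.ne_zero,
    ?_, hf.nB.trans m1, hf.nb, hf.nR.trans m1, q1.trans m1⟩
  rw [nm_mul]
  push_cast
  calc (nm t.D0 : ℝ) * nm t.D1 ≤ X * X := mul_le_mul hf.n0 q0 (Nat.cast_nonneg _) hX0
    _ ≤ X ^ 6 := m2

/-- prefix of the `x`-side -/
structure Px (O : Type) where
  /-- outer index -/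
  o : O
  /-- `D0 D1` -/
  D : Eis
  /-- cubes -/
  B : Eis
  /-- non-coprime part -/
  b : Eis
  /-- `R R'` -/
  P : Eis

/-- the prefix of a term -/
def px (t : Tm O) : Px O := ⟨t.o, t.D0 * t.D1, t.B, t.b, t.R * t.R'⟩

/-- the `x`-side sequence of a prefix -/
def Px.v' (v : O → Eis → ℂ) (G : Eis → ℂ) (i : Px O) : Eis → ℂ :=
  tws i.P (i.B * i.b) (fun y => sy y i.b * G y) (vD i.D (v i.o))

lemma xs_eq (v : O → Eis → ℂ) (G : Eis → ℂ) (t : Tm O) :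
    t.xs v G = Sd ((px t).v' v G) t.k := rfl

lemma Tm.eq_of {t t' : Tm O} (h0 : t.o = t'.o) (h1 : t.D0 = t'.D0) (h2 : t.D1 = t'.D1)
    (h3 : t.B = t'.B) (h4 : t.R = t'.R) (h5 : t.Z = t'.Z) (h6 : t.b = t'.b) (h7 : t.R' = t'.R')
    (h8 : t.Z' = t'.Z') (h9 : t.k = t'.k) : t = t' := by
  obtain ⟨a0, a1, a2, a3, a4, a5, a6, a7, a8, a9⟩ := t
  obtain ⟨b0, b1, b2, b3, b4, b5, b6, b7, b8, b9⟩ := t'
  simp only at *
  subst h0 h1 h2 h3 h4 h5 h6 h7 h8 h9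
  rfl

/-- the set of the elements composed of primes of `q` -/
def NI (q : Eis) (Y : ℝ) : Finset Eis := (primBall ⌊Y⌋₊).filter fun R => PrI q R

lemma mem_NI {q R : Eis} {Y : ℝ} (h : PrI q R) (hn : (nm R : ℝ) ≤ Y) : R ∈ NI q Y :=
  mem_filter.mpr ⟨mem_primBall.mpr ⟨Nat.le_floor hn, h.1⟩, h⟩

/-- **fibres of `t ↦ (px t, k)`** -/
theorem fib_x {ε : ℝ} (hε : 0 < ε) : ∃ C : ℝ, 1 ≤ C ∧ ∀ {O : Type} (Y : ℝ), 1 ≤ Y →
    ∀ (𝒥 : Finset (Tm O)), (∀ t ∈ 𝒥, Sz Y t) → ∀ (i : Px O) (k : Eis),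
      ((𝒥.filter (fun t => px t = i ∧ t.k = k)).card : ℝ) ≤ C * Y ^ ε := by
  have hε6 : 0 < ε / 6 := by positivity
  obtain ⟨C1, hC1, h1⟩ := tau_Z hε6
  obtain ⟨C2, hC2, h2⟩ := E4401.lCnt (ε / 6) hε6
  set C : ℝ := max C1 (max C2 1) with hC
  have c1 : C1 ≤ C := le_max_left _ _
  have c2 : C2 ≤ C := (le_max_left _ _).trans (le_max_right _ _)
  have c3 : 1 ≤ C := (le_max_right _ _).trans (le_max_right _ _)
  refine ⟨C ^ 6, one_le_pow₀ c3, fun {O} Y hY 𝒥 hJ i k => ?_⟩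
  have hY0 : 0 < Y := by linarith
  have hYe : 0 ≤ Y ^ (ε / 6) := by positivity
  set Q := 𝒥.filter (fun t => px t = i ∧ t.k = k) with hQ
  have eY : C ^ 6 * Y ^ ε = (C * Y ^ (ε / 6)) ^ 6 := by
    rw [mul_pow, ← Real.rpow_natCast (Y ^ (ε / 6)), ← Real.rpow_mul hY0.le]
    congr 2
    push_cast
    ring
  by_cases hne : Q.Nonempty
  swap
  · rw [not_nonempty_iff_eq_empty] at hne
    rw [hne, card_empty]
    push_cast
    positivity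
  obtain ⟨t0, ht0⟩ := hne
  obtain ⟨ht0J, hpx, hk0⟩ := mem_filter.mp ht0
  have s0 := hJ t0 ht0J
  have eD : i.D = t0.D0 * t0.D1 := by rw [← hpx]; rfl
  have eB : i.B = t0.B := by rw [← hpx]; rfl
  have eb : i.b = t0.b := by rw [← hpx]; rfl
  have eP : i.P = t0.R * t0.R' := by rw [← hpx]; rfl
  have D0 : i.D ≠ 0 := by rw [eD]; exact (s0.p0.mul s0.p1).ne_zero
  have P0 : i.P ≠ 0 := by rw [eP]; exact (s0.pR.1.mul s0.pR'.1).ne_zero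
  have tD : (tau i.D : ℝ) ≤ C * Y ^ (ε / 6) :=
    (h1 Y hY i.D (by rw [eD]; exact s0.nD)).trans (mul_le_mul_of_nonneg_right c1 hYe)
  have tP : (tau i.P : ℝ) ≤ C * Y ^ (ε / 6) :=
    (h1 Y hY i.P (by rw [eP]; exact s0.nP)).trans (mul_le_mul_of_nonneg_right c1 hYe)
  have tB : ((NI i.B Y).card : ℝ) ≤ C * Y ^ (ε / 6) :=
    (h2 i.B Y hY (by rw [eB]; exact s0.B0) (by rw [eB]; exact s0.nB)).trans
      (mul_le_mul_of_nonneg_right c2 hYe)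
  have tb : ((NI i.b Y).card : ℝ) ≤ C * Y ^ (ε / 6) :=
    (h2 i.b Y hY (by rw [eb]; exact s0.b0) (by rw [eb]; exact s0.nb)).trans
      (mul_le_mul_of_nonneg_right c2 hYe)
  have key : Q.card ≤ (dvs i.D ×ˢ dvs i.D ×ˢ dvs i.P ×ˢ dvs i.P ×ˢ NI i.B Y ×ˢ
      NI i.b Y).card := by
    refine card_le_card_of_injOn (fun t => (t.D0, t.D1, t.R, t.R', t.Z, t.Z')) ?_ ?_
    · intro t ht
      rw [mem_coe] at ht
      obtain ⟨htJ, hp, hk⟩ := mem_filter.mp ht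
      have s := hJ t htJ
      have fD : i.D = t.D0 * t.D1 := by rw [← hp]; rfl
      have fB : i.B = t.B := by rw [← hp]; rfl
      have fb : i.b = t.b := by rw [← hp]; rfl
      have fP : i.P = t.R * t.R' := by rw [← hp]; rfl
      have nZ : (nm t.Z : ℝ) ≤ Y := by
        have : (nm t.Z : ℝ) ≤ nm (t.Z * t.Z') := by exact_mod_cast nm_left_le s.pZ'.1.ne_zero
        exact this.trans s.nQ
      have nZ' : (nm t.Z' : ℝ) ≤ Y := by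
        have : (nm t.Z' : ℝ) ≤ nm (t.Z * t.Z') := by exact_mod_cast nm_right_le s.pZ.1.ne_zero
        exact this.trans s.nQ
      rw [mem_coe]
      simp only [mem_product, mem_dvs D0, mem_dvs P0]
      refine ⟨⟨s.p0, ?_⟩, ⟨s.p1, ?_⟩, ⟨s.pR.1, ?_⟩, ⟨s.pR'.1, ?_⟩, mem_NI ?_ nZ, mem_NI ?_ nZ'⟩
      · rw [fD]; exact dvd_mul_right _ _
      · rw [fD]; exact dvd_mul_left _ _
      · rw [fP]; exact dvd_mul_right _ _
      · rw [fP]; exact dvd_mul_left _ _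
      · rw [fB]; exact s.pZ
      · rw [fb]; exact s.pZ'
    · intro t ht t' ht' he
      rw [mem_coe] at ht ht'
      obtain ⟨-, hp, hk⟩ := mem_filter.mp ht
      obtain ⟨-, hp', hk'⟩ := mem_filter.mp ht'
      have e := hp.trans hp'.symm
      simp only [Prod.mk.injEq] at he
      obtain ⟨e1, e2, e3, e4, e5, e6⟩ := he
      have g0 : t.o = t'.o := congrArg Px.o e
      have g3 : t.B = t'.B := congrArg Px.B e
      have g6 : t.b = t'.b := congrArg Px.b e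
      exact Tm.eq_of g0 e1 e2 g3 e3 e5 g6 e4 e6 (hk.trans hk'.symm)
  rw [eY]
  calc (Q.card : ℝ) ≤ (((dvs i.D ×ˢ dvs i.D ×ˢ dvs i.P ×ˢ dvs i.P ×ˢ NI i.B Y ×ˢ
        NI i.b Y).card : ℕ) : ℝ) := by exact_mod_cast key
    _ = (tau i.D : ℝ) * (tau i.D * (tau i.P * (tau i.P * ((NI i.B Y).card *
          (NI i.b Y).card)))) := by
        simp only [card_product]
        push_cast
        rfl
    _ ≤ (C * Y ^ (ε / 6)) * ((C * Y ^ (ε / 6)) * ((C * Y ^ (ε / 6)) * ((C * Y ^ (ε / 6)) *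
          ((C * Y ^ (ε / 6)) * (C * Y ^ (ε / 6)))))) := by gcongr
    _ = (C * Y ^ (ε / 6)) ^ 6 := by ring

/-- a term of the right frequencies -/
def Kw (M : Eis) (κ : ℝ) (k : Eis) : Prop := Sm M k ∧ CbF k ∧ κ < nm k ∧ (nm k : ℝ) ≤ 2 * κ

lemma Kw.mem {M k : Eis} {κ : ℝ} (h : Kw M κ k) : k ∈ Dk M κ := by
  unfold Dk
  exact mem_filter.mpr ⟨mem_primBall.mpr ⟨Nat.le_floor h.2.2.2, h.1.1⟩, h.1, h.2.1, h.2.2.1⟩

/-- the window of the class -/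
lemma kw_of_in {M f : Eis} {n : ℕ} {t : Tm O} (hok : t.OK M f) (h : inW n (nm t.k)) :
    Kw M (2 ^ n - 1 / 2) t.k := by
  obtain ⟨h1, h2⟩ := h
  refine ⟨hok.sk, hok.ck, by linarith, ?_⟩
  have h3 : nm t.k < 2 ^ (n + 1) := by exact_mod_cast h2
  have h4 : nm t.k + 1 ≤ 2 ^ (n + 1) := h3
  have h5 : (nm t.k : ℝ) + 1 ≤ 2 ^ (n + 1) := by exact_mod_cast h4
  rw [pow_succ] at h5
  linarith

/-- **the sum over the terms against the moments of the prefixes**, with an extra factor -/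
theorem jx_gen {ε : ℝ} (hε : 0 < ε) : ∃ C : ℝ, 1 ≤ C ∧ ∀ {O : Type} (Y : ℝ), 1 ≤ Y →
    ∀ (M : Eis) (κ : ℝ) (𝒥 : Finset (Tm O)), (∀ t ∈ 𝒥, Sz Y t ∧ Kw M κ t.k) →
    ∀ (H : Px O → Eis → ℝ), (∀ i k, 0 ≤ H i k) →
      ∑ t ∈ 𝒥, H (px t) t.k ≤ C * Y ^ ε * ∑ i ∈ 𝒥.image px, ∑ k ∈ Dk M κ, H i k := by
  obtain ⟨C, hC, h⟩ := fib_x hε
  refine ⟨C, hC, fun {O} Y hY M κ 𝒥 hJ H hH => ?_⟩
  have h1 := sum_fib 𝒥 (fun t => (px t, t.k)) (fun z => H z.1 z.2) (fun z => hH _ _)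
    ((𝒥.image px) ×ˢ Dk M κ)
    (fun t ht => mem_product.mpr ⟨mem_image_of_mem _ ht, (hJ t ht).2.mem⟩)
    (M := C * Y ^ ε) (fun z _ => by
      have h2 := h Y hY 𝒥 (fun t ht => (hJ t ht).1) z.1 z.2
      refine le_trans ?_ h2
      refine Nat.cast_le.mpr (card_le_card fun t ht => ?_)
      obtain ⟨h3, h4⟩ := mem_filter.mp ht
      exact mem_filter.mpr ⟨h3, congrArg Prod.fst h4, congrArg Prod.snd h4⟩)
  rw [sum_product] at h1
  exact h1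

theorem jx_XM {ε : ℝ} (hε : 0 < ε) : ∃ C : ℝ, 1 ≤ C ∧ ∀ {O : Type} (Y : ℝ), 1 ≤ Y →
    ∀ (M : Eis) (v : O → Eis → ℂ) (G : Eis → ℂ) (κ : ℝ) (𝒥 : Finset (Tm O)),
    (∀ t ∈ 𝒥, Sz Y t ∧ Kw M κ t.k) → ∀ (Ω : Px O → ℝ), (∀ i, 0 ≤ Ω i) →
      ∑ t ∈ 𝒥, Ω (px t) * ((nm t.k : ℝ)⁻¹ * ‖t.xs v G‖ ^ 2) ≤
        C * Y ^ ε * ∑ i ∈ 𝒥.image px, Ω i * XM M (i.v' v G) κ := by
  obtain ⟨C, hC, h⟩ := jx_gen hε
  refine ⟨C, hC, fun {O} Y hY M v G κ 𝒥 hJ Ω hΩ => ?_⟩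
  have h1 := h Y hY M κ 𝒥 hJ (fun i k => Ω i * ((nm k : ℝ)⁻¹ * ‖Sd (i.v' v G) k‖ ^ 2))
    (fun i k => mul_nonneg (hΩ i) (by positivity))
  refine h1.trans (le_of_eq ?_)
  congr 1
  refine sum_congr rfl fun i _ => ?_
  unfold XM
  rw [mul_sum]

/-- weights depending on the whole term -/
theorem jx_XMw {ε : ℝ} (hε : 0 < ε) : ∃ C : ℝ, 1 ≤ C ∧ ∀ {O : Type} (Y : ℝ), 1 ≤ Y →
    ∀ (M : Eis) (v : O → Eis → ℂ) (G : Eis → ℂ) (κ : ℝ) (𝒥 : Finset (Tm O)),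
    (∀ t ∈ 𝒥, Sz Y t ∧ Kw M κ t.k) → ∀ (ω : Tm O → ℝ) (Ω : Px O → ℝ), (∀ i, 0 ≤ Ω i) →
      (∀ t ∈ 𝒥, ω t ≤ Ω (px t)) →
      ∑ t ∈ 𝒥, ω t * ((nm t.k : ℝ)⁻¹ * ‖t.xs v G‖ ^ 2) ≤
        C * Y ^ ε * ∑ i ∈ 𝒥.image px, Ω i * XM M (i.v' v G) κ := by
  obtain ⟨C, hC, h⟩ := jx_XM hε
  refine ⟨C, hC, fun {O} Y hY M v G κ 𝒥 hJ ω Ω hΩ hω => ?_⟩
  refine le_trans (sum_le_sum fun t ht => ?_) (h Y hY M v G κ 𝒥 hJ Ω hΩ)
  exact mul_le_mul_of_nonneg_right (hω t ht) (by positivity)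

/-! ### the finer prefix -/

/-- prefix with `Z`, `Z'` and without `R`, `R'` -/
structure Pa (O : Type) where
  /-- outer index -/
  o : O
  /-- part of `D` dividing `f` -/
  D0 : Eis
  /-- part of `D` prime to `f` -/
  D1 : Eis
  /-- cubes -/
  B : Eis
  /-- non-coprime part -/
  b : Eis
  /-- `B`-part of `y` -/
  Z : Eis
  /-- `b`-part of `y` -/
  Z' : Eis

/-- the finer prefix of a term -/
def pa (t : Tm O) : Pa O := ⟨t.o, t.D0, t.D1, t.B, t.b, t.Z, t.Z'⟩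

/-- the term from the finer prefix and `(R, R', k)` -/
def Pa.tm (a : Pa O) (R R' k : Eis) : Tm O := ⟨a.o, a.D0, a.D1, a.B, R, a.Z, a.b, R', a.Z', k⟩

lemma pa_tm (t : Tm O) : (pa t).tm t.R t.R' t.k = t := rfl

lemma xs_tm (v : O → Eis → ℂ) (G : Eis → ℂ) (a : Pa O) (R R' k : Eis) :
    (a.tm R R' k).xs v G = Sd (tws (R * R') (a.B * a.b) (fun y => sy y a.b * G y)
      (vD (a.D0 * a.D1) (v a.o))) k := rfl

/-- `t ↦ (pa t; R, R', k)` is injective -/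
theorem jx_pre (𝒥 : Finset (Tm O)) (S₁ S₂ S₃ : Finset Eis)
    (h : ∀ t ∈ 𝒥, t.R ∈ S₁ ∧ t.R' ∈ S₂ ∧ t.k ∈ S₃) (H : Tm O → ℝ)
    (hH : ∀ a R R' k, 0 ≤ H (Pa.tm a R R' k)) :
    ∑ t ∈ 𝒥, H t ≤ ∑ a ∈ 𝒥.image pa, ∑ R ∈ S₁, ∑ R' ∈ S₂, ∑ k ∈ S₃, H (a.tm R R' k) := by
  have e1 : ∑ t ∈ 𝒥, H t = ∑ z ∈ 𝒥.image (fun t => (pa t, t.R, t.R', t.k)),
      H (z.1.tm z.2.1 z.2.2.1 z.2.2.2) := by
    rw [sum_image]
    · rfl
    · intro t _ t' _ he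
      have h1 := congrArg (fun z : Pa O × Eis × Eis × Eis => z.1.tm z.2.1 z.2.2.1 z.2.2.2) he
      exact h1
  have e2 : ∑ a ∈ 𝒥.image pa, ∑ R ∈ S₁, ∑ R' ∈ S₂, ∑ k ∈ S₃, H (a.tm R R' k) =
      ∑ z ∈ (𝒥.image pa) ×ˢ S₁ ×ˢ S₂ ×ˢ S₃, H (z.1.tm z.2.1 z.2.2.1 z.2.2.2) := by
    simp only [sum_product]
  rw [e1, e2]
  refine sum_le_sum_of_subset_of_nonneg ?_ fun z _ _ => hH _ _ _ _
  intro z hz
  obtain ⟨t, ht, rfl⟩ := mem_image.mp hz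
  obtain ⟨h1, h2, h3⟩ := h t ht
  exact mem_product.mpr ⟨mem_image_of_mem _ ht, mem_product.mpr ⟨h1, mem_product.mpr ⟨h2, h3⟩⟩⟩

/-! ### Cauchy -/

/-- the Gauss ratio of a term -/
def gr (f : Eis) (t : Tm O) : ℝ := ‖gs (t.F f * t.R' * t.Z') t.b‖ / nm t.b

lemma gr_nonneg (f : Eis) (t : Tm O) : 0 ≤ gr f t := by unfold gr; positivity

lemma wt_sq {f : Eis} {lam : O → ℝ} {t : Tm O} :
    t.wt f lam ^ 2 = (nm (t.D0 * t.D1) : ℝ)⁻¹ * gr f t ^ 2 * ((lam t.o * nm t.k)⁻¹) ^ 2 := by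
  unfold Tm.wt gr
  rw [mul_pow, mul_pow]
  congr 2
  rw [← Real.rpow_natCast, ← Real.rpow_mul (Nat.cast_nonneg _)]
  norm_num
  exact Real.rpow_neg_one _

/-- **Cauchy** : any positive `Wy` -/
theorem jb_cauchy (f : Eis) (lam : O → ℝ) (v w : O → Eis → ℂ) (G : Eis → ℂ)
    (𝒥 : Finset (Tm O)) (Wy : Tm O → ℝ) (hW : ∀ t ∈ 𝒥, 0 < Wy t) :
    ∑ t ∈ 𝒥, t.val f lam v w G ≤
      Real.sqrt (∑ t ∈ 𝒥, (t.wt f lam / Wy t) ^ 2 * ‖t.xs v G‖ ^ 2) *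
        Real.sqrt (∑ t ∈ 𝒥, Wy t ^ 2 * ‖t.ys w G‖ ^ 2) := by
  have e : ∑ t ∈ 𝒥, t.val f lam v w G =
      ∑ t ∈ 𝒥, ((t.wt f lam / Wy t) * ‖t.xs v G‖) * (Wy t * ‖t.ys w G‖) := by
    refine sum_congr rfl fun t ht => ?_
    have := (hW t ht).ne'
    unfold Tm.val
    field_simp
  rw [e]
  have h1 := Real.sum_mul_le_sqrt_mul_sqrt 𝒥 (fun t => (t.wt f lam / Wy t) * ‖t.xs v G‖)
    (fun t => Wy t * ‖t.ys w G‖)
  simp only [mul_pow] at h1 ⊢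
  exact h1

end Crest.Agent.R017.JxG679
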