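import Crest.Agent.R017.JxG_679

/-!
# Row 17, C70/E4 (version 7), the `x`-side: from one moment per `(D1, b1, ξ)` (helper679)

* `sum_le_of_inj`
* `sum_D1b` : the sum over `(D1, b1, ξ)`, `ξ` a vector of divisors of `E D1 b1`
* `hx_of` : the sum over the terms with a moved factor, from one moment per `(D1, b1, ξ)`
-/

set_option autoImplicit false

noncomputable section

open Complex Finset
open scoped ComplexConjugate Classical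

namespace Crest.Agent.R017.JxH679

open Crest.Agent.R012 Crest.Agent.R012.Eis Crest.Agent.R012.Mob705
open Crest.Agent.R012.Div277
open Crest.Agent.R017.Sx545 (Sm)
open Crest.Agent.R017.C70 (CbF)
open Crest.Agent.R017.CM106 (CS)
open Crest.Agent.R017.E4352
open Crest.Agent.R017.E4J352
open Crest.Agent.R017.E4y92 (XM Dk)
open Crest.Agent.R017.JxG679

lemma sum_le_of_inj {ι κ : Type*} (s : Finset ι) (g : ι → κ) (T : Finset κ)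
    (hg : ∀ i ∈ s, g i ∈ T) (inj : ∀ i ∈ s, ∀ j ∈ s, g i = g j → i = j) (f : κ → ℝ)
    (hf : ∀ z, 0 ≤ f z) : ∑ i ∈ s, f (g i) ≤ ∑ z ∈ T, f z := by
  rw [← sum_image (f := f) (g := g) (fun i hi j hj h => inj i hi j hj h)]
  exact sum_le_sum_of_subset_of_nonneg (image_subset_iff.mpr hg) (fun z _ _ => hf z)

/-- vectors of divisors -/
def DV (n : ℕ) (m : Eis) : Finset (Fin n → Eis) := Fintype.piFinset (fun _ => dvs m)

lemma card_DV (n : ℕ) (m : Eis) : (DV n m).card = tau m ^ n := by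
  unfold DV
  rw [Fintype.card_piFinset]
  simp [tau]

lemma mem_DV {n : ℕ} {m : Eis} {v : Fin n → Eis} : v ∈ DV n m ↔ ∀ l, v l ∈ dvs m := by
  unfold DV
  rw [Fintype.mem_piFinset]

/-- the sum over the keys `(D1, b1, ξ)` -/
lemma sum_D1b {ε : ℝ} (hε : 0 < ε) (n : ℕ) : ∃ C : ℝ, 1 ≤ C ∧ ∀ (Y : ℝ), 1 ≤ Y →
    ∀ (E : Eis → Eis → Eis) (A : Finset (Eis × Eis × (Fin n → Eis))),
    (∀ a ∈ A, (IsPrim a.1 ∧ (nm a.1 : ℝ) ≤ Y) ∧ (IsPrim a.2.1 ∧ (nm a.2.1 : ℝ) ≤ Y) ∧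
      (∀ i, IsPrim (a.2.2 i)) ∧ (∀ i, a.2.2 i ∣ E a.1 a.2.1) ∧ E a.1 a.2.1 ≠ 0 ∧
      (nm (E a.1 a.2.1) : ℝ) ≤ Y) →
    ∑ a ∈ A, ((nm a.1 : ℝ) * nm a.2.1)⁻¹ ≤ C * Y ^ ε := by
  have hn : (0 : ℝ) < n + 1 := by positivity
  have hε1 : 0 < ε / 2 / (n + 1) := by positivity
  obtain ⟨C1, hC1, h1⟩ := tau_Z hε1
  have hε2 : 0 < ε / 2 := by positivity
  set C2 : ℝ := (100 * (1 + ((2 : ℕ) : ℝ) / (ε / 2))) ^ 2 with hC2
  have hC2' : 1 ≤ C2 := by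
    apply one_le_pow₀
    have : (0 : ℝ) ≤ ((2 : ℕ) : ℝ) / (ε / 2) := by positivity
    linarith
  have hCC : 1 ≤ C1 ^ n * C2 := one_le_mul_of_one_le_of_one_le (one_le_pow₀ hC1) hC2'
  refine ⟨C1 ^ n * C2, hCC, fun Y hY E A hA => ?_⟩
  have hY0 : 0 < Y := by linarith
  set N : ℕ := ⌊Y⌋₊ with hN
  have hfib : ∀ z ∈ primBall N ×ˢ primBall N,
      ((A.filter (fun a => (a.1, a.2.1) = z)).card : ℝ) ≤ (C1 * Y ^ (ε / 2 / (n + 1))) ^ n := by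
    intro z hz
    by_cases hne : (A.filter (fun a => (a.1, a.2.1) = z)).Nonempty
    swap
    · rw [not_nonempty_iff_eq_empty] at hne
      rw [hne, card_empty]
      push_cast
      positivity
    obtain ⟨a0, ha0⟩ := hne
    obtain ⟨ha0A, he0⟩ := mem_filter.mp ha0
    obtain ⟨-, -, -, -, e5, e6⟩ := hA a0 ha0A
    have z1 : a0.1 = z.1 := congrArg Prod.fst he0
    have z2 : a0.2.1 = z.2 := congrArg Prod.snd he0
    rw [z1, z2] at e5 e6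
    have key : (A.filter (fun a => (a.1, a.2.1) = z)).card ≤ (DV n (E z.1 z.2)).card := by
      refine card_le_card_of_injOn (fun a => a.2.2) ?_ ?_
      · intro a ha
        rw [mem_coe] at ha
        obtain ⟨haA, he⟩ := mem_filter.mp ha
        have y1 : a.1 = z.1 := congrArg Prod.fst he
        have y2 : a.2.1 = z.2 := congrArg Prod.snd he
        obtain ⟨-, -, f3, f4, -, -⟩ := hA a haA
        rw [mem_coe, mem_DV]
        intro l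
        rw [mem_dvs e5]
        have := f4 l
        rw [y1, y2] at this
        exact ⟨f3 l, this⟩
      · intro a ha a' ha' he
        rw [mem_coe] at ha ha'
        obtain ⟨-, g1⟩ := mem_filter.mp ha
        obtain ⟨-, g2⟩ := mem_filter.mp ha'
        obtain ⟨p1, p2⟩ := Prod.mk.inj (g1.trans g2.symm)
        exact Prod.ext p1 (Prod.ext p2 he)
    calc ((A.filter (fun a => (a.1, a.2.1) = z)).card : ℝ) ≤ ((DV n (E z.1 z.2)).card : ℝ) := by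
          exact_mod_cast key
      _ = (tau (E z.1 z.2) : ℝ) ^ n := by rw [card_DV]; push_cast; rfl
      _ ≤ _ := pow_le_pow_left₀ (Nat.cast_nonneg _) (h1 Y hY _ e6) n
  have s1 := sum_fib A (fun a => (a.1, a.2.1)) (fun z => ((nm z.1 : ℝ) * nm z.2)⁻¹)
    (fun z => by positivity) (primBall N ×ˢ primBall N)
    (fun a ha => by
      obtain ⟨⟨e1, e2⟩, ⟨e3, e4⟩, -⟩ := hA a ha
      exact mem_product.mpr ⟨mem_primBall.mpr ⟨Nat.le_floor e2, e1⟩,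
        mem_primBall.mpr ⟨Nat.le_floor e4, e3⟩⟩) hfib
  have s2 : ∑ z ∈ primBall N ×ˢ primBall N, ((nm z.1 : ℝ) * nm z.2)⁻¹ =
      (∑ x ∈ primBall N, (1 / (nm x : ℝ))) ^ 2 := by
    rw [sum_product, pow_two, sum_mul_sum]
    refine sum_congr rfl fun a _ => sum_congr rfl fun b _ => ?_
    rw [mul_inv, one_div, one_div]
  have s3 : (∑ x ∈ primBall N, (1 / (nm x : ℝ))) ^ 2 ≤ C2 * Y ^ (ε / 2) := by
    have h2 := sum_inv_primBall_le N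
    have h3 : Real.log (N : ℝ) ≤ Real.log Y := by
      by_cases h0 : N = 0
      · rw [h0]; simp only [Nat.cast_zero, Real.log_zero]; exact Real.log_nonneg hY
      · exact Real.log_le_log (by exact_mod_cast Nat.pos_of_ne_zero h0) (Nat.floor_le hY0.le)
    calc (∑ x ∈ primBall N, (1 / (nm x : ℝ))) ^ 2 ≤ (100 * (1 + Real.log Y)) ^ 2 := by
          refine pow_le_pow_left₀ (sum_nonneg fun _ _ => by positivity) ?_ 2
          linarith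
      _ ≤ C2 * Y ^ (ε / 2) := poly_log_le 2 hY hε2
  rw [s2] at s1
  have s4 : (Y ^ (ε / 2 / (n + 1))) ^ n ≤ Y ^ (ε / 2) := by
    rw [← Real.rpow_natCast, ← Real.rpow_mul hY0.le]
    refine Real.rpow_le_rpow_of_exponent_le hY ?_
    rw [div_mul_eq_mul_div, div_le_iff₀ hn]
    nlinarith
  calc ∑ a ∈ A, ((nm a.1 : ℝ) * nm a.2.1)⁻¹
      ≤ (C1 * Y ^ (ε / 2 / (n + 1))) ^ n * (∑ x ∈ primBall N, (1 / (nm x : ℝ))) ^ 2 := s1
    _ ≤ (C1 * Y ^ (ε / 2 / (n + 1))) ^ n * (C2 * Y ^ (ε / 2)) :=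
        mul_le_mul_of_nonneg_left s3 (by positivity)
    _ = C1 ^ n * C2 * ((Y ^ (ε / 2 / (n + 1))) ^ n * Y ^ (ε / 2)) := by rw [mul_pow]; ring
    _ ≤ C1 ^ n * C2 * (Y ^ (ε / 2) * Y ^ (ε / 2)) :=
        mul_le_mul_of_nonneg_left (mul_le_mul_of_nonneg_right s4 (by positivity))
          (by linarith)
    _ = C1 ^ n * C2 * Y ^ ε := by
        rw [← Real.rpow_add hY0]
        congr 2
        ring

/-- **the sum over the terms of one prefix class, with a moved factor, from one moment per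
`(D1, b1, ξ)`** -/
theorem hx_of {ε : ℝ} (hε : 0 < ε) (n : ℕ) : ∃ C : ℝ, 1 ≤ C ∧ ∀ {O : Type} [Fintype O]
    (M : Eis) (Y : ℝ), 1 ≤ Y → ∀ (lam : O → ℝ) (v : O → Eis → ℂ) (G : Eis → ℂ) (κ L Sx : ℝ),
    0 < κ → 0 < L → 0 ≤ Sx → ∀ (𝒥 : Finset (Tm O)) (b1 : Tm O → Eis)
    (pk : O → Eis → Eis → Px O) (x : Tm O → Fin n → Eis) (E : Eis → Eis → Eis)
    (Hh : O → Eis → Eis → (Fin n → Eis) → Eis → ℝ), (∀ o D b ξ k, 0 ≤ Hh o D b ξ k) →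
    (∀ t ∈ 𝒥, px t = pk t.o t.D1 (b1 t) ∧ Kw M κ t.k ∧ L ≤ lam t.o * nm t.k ∧
      (IsPrim t.D1 ∧ (nm t.D1 : ℝ) ≤ Y) ∧ (IsPrim (b1 t) ∧ (nm (b1 t) : ℝ) ≤ Y) ∧
      (∀ i, IsPrim (x t i)) ∧ (∀ i, x t i ∣ E t.D1 (b1 t)) ∧ E t.D1 (b1 t) ≠ 0 ∧
      (nm (E t.D1 (b1 t)) : ℝ) ≤ Y) →
    (∀ t ∈ 𝒥, ∀ t' ∈ 𝒥, t.o = t'.o → t.D1 = t'.D1 → b1 t = b1 t' → t.k = t'.k → t = t') →
    (∀ t ∈ 𝒥, ∑ o, ∑ k ∈ Dk M κ, (nm k : ℝ)⁻¹ *
      (‖Sd ((pk o t.D1 (b1 t)).v' v G) k‖ ^ 2 * Hh o t.D1 (b1 t) (x t) k) ≤ Sx) →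
    ∑ t ∈ 𝒥, (nm (t.D1 * b1 t) : ℝ)⁻¹ * ((lam t.o * nm t.k)⁻¹ ^ 2 *
      (‖t.xs v G‖ ^ 2 * Hh t.o t.D1 (b1 t) (x t) t.k)) ≤ C * Y ^ ε * (κ / L ^ 2 * Sx) := by
  obtain ⟨C, hC, hS⟩ := sum_D1b hε n
  refine ⟨2 * C, by linarith, fun {O} _ M Y hY lam v G κ L Sx hκ hL hSx 𝒥 b1 pk x E Hh hH h1 h2
    h3 => ?_⟩
  have hY0 : 0 < Y := by linarith
  set A : Finset (Eis × Eis × (Fin n → Eis)) := 𝒥.image (fun t => (t.D1, b1 t, x t)) with hA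
  obtain ⟨f, hf⟩ : ∃ f : Eis × Eis × (Fin n → Eis) → O → Eis → ℝ, f = fun a o k =>
    (nm k : ℝ)⁻¹ * (‖Sd ((pk o a.1 a.2.1).v' v G) k‖ ^ 2 * Hh o a.1 a.2.1 a.2.2 k) := ⟨_, rfl⟩
  have hf0 : ∀ a o k, 0 ≤ f a o k := fun a o k => by
    have := hH o a.1 a.2.1 a.2.2 k
    simp only [hf]
    positivity
  have hc : 0 ≤ 2 * κ / L ^ 2 := by positivity
  -- each term
  have t1 : ∀ t ∈ 𝒥, (nm (t.D1 * b1 t) : ℝ)⁻¹ * ((lam t.o * nm t.k)⁻¹ ^ 2 *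
      (‖t.xs v G‖ ^ 2 * Hh t.o t.D1 (b1 t) (x t) t.k)) ≤
      ((nm t.D1 : ℝ) * nm (b1 t))⁻¹ * ((2 * κ / L ^ 2) * f (t.D1, b1 t, x t) t.o t.k) := by
    intro t ht
    obtain ⟨p1, p2, p3, -⟩ := h1 t ht
    have hk0 : (0 : ℝ) < nm t.k := lt_trans hκ p2.2.2.1
    have e1 : (nm (t.D1 * b1 t) : ℝ) = (nm t.D1 : ℝ) * nm (b1 t) := by
      rw [nm_mul]; push_cast; rfl
    have e2 : t.xs v G = Sd ((pk t.o t.D1 (b1 t)).v' v G) t.k := by rw [xs_eq, p1]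
    have hl0 : 0 < lam t.o * nm t.k := hL.trans_le p3
    have e3 : (lam t.o * nm t.k)⁻¹ ^ 2 ≤ (2 * κ / L ^ 2) * (nm t.k : ℝ)⁻¹ := by
      have q1 : (lam t.o * nm t.k)⁻¹ ≤ L⁻¹ := inv_anti₀ hL p3
      have q2 : (lam t.o * nm t.k)⁻¹ ^ 2 ≤ L⁻¹ ^ 2 :=
        pow_le_pow_left₀ (inv_nonneg.mpr hl0.le) q1 2
      have q3 : 1 ≤ 2 * κ * (nm t.k : ℝ)⁻¹ := by
        rw [← div_eq_mul_inv, le_div_iff₀ hk0, one_mul]
        exact p2.2.2.2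
      calc (lam t.o * nm t.k)⁻¹ ^ 2 ≤ L⁻¹ ^ 2 := q2
        _ ≤ L⁻¹ ^ 2 * (2 * κ * (nm t.k : ℝ)⁻¹) := le_mul_of_one_le_right (by positivity) q3
        _ = (2 * κ / L ^ 2) * (nm t.k : ℝ)⁻¹ := by rw [inv_pow]; ring
    rw [e1]
    refine mul_le_mul_of_nonneg_left ?_ (by positivity)
    have hHt := hH t.o t.D1 (b1 t) (x t) t.k
    calc (lam t.o * nm t.k)⁻¹ ^ 2 * (‖t.xs v G‖ ^ 2 * Hh t.o t.D1 (b1 t) (x t) t.k)
        ≤ ((2 * κ / L ^ 2) * (nm t.k : ℝ)⁻¹) *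
          (‖t.xs v G‖ ^ 2 * Hh t.o t.D1 (b1 t) (x t) t.k) :=
          mul_le_mul_of_nonneg_right e3 (by positivity)
      _ = (2 * κ / L ^ 2) * f (t.D1, b1 t, x t) t.o t.k := by
          simp only [hf]
          rw [e2]
          ring
  refine (sum_le_sum t1).trans ?_
  -- group by the key
  have t2 : ∑ t ∈ 𝒥, ((nm t.D1 : ℝ) * nm (b1 t))⁻¹ *
      ((2 * κ / L ^ 2) * f (t.D1, b1 t, x t) t.o t.k) ≤
      ∑ a ∈ A, ((nm a.1 : ℝ) * nm a.2.1)⁻¹ * ((2 * κ / L ^ 2) * Sx) := by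
    rw [← sum_fiberwise_of_maps_to (s := 𝒥) (t := A) (g := fun t => (t.D1, b1 t, x t))
      (fun t ht => mem_image_of_mem _ ht)]
    refine sum_le_sum fun a ha => ?_
    obtain ⟨t0, ht0, he0⟩ := mem_image.mp ha
    have u1 : ∑ t ∈ 𝒥.filter (fun t => (t.D1, b1 t, x t) = a), ((nm t.D1 : ℝ) * nm (b1 t))⁻¹ *
        ((2 * κ / L ^ 2) * f (t.D1, b1 t, x t) t.o t.k) =
        ((nm a.1 : ℝ) * nm a.2.1)⁻¹ * ((2 * κ / L ^ 2) *
          ∑ t ∈ 𝒥.filter (fun t => (t.D1, b1 t, x t) = a), f a t.o t.k) := by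
      rw [mul_sum, mul_sum]
      refine sum_congr rfl fun t ht => ?_
      obtain ⟨-, he⟩ := mem_filter.mp ht
      rw [← he]
    rw [u1]
    refine mul_le_mul_of_nonneg_left (mul_le_mul_of_nonneg_left ?_ hc) (by positivity)
    have u2 : ∑ t ∈ 𝒥.filter (fun t => (t.D1, b1 t, x t) = a), f a t.o t.k ≤
        ∑ z ∈ (univ : Finset O) ×ˢ Dk M κ, f a z.1 z.2 := by
      refine sum_le_of_inj _ (fun t : Tm O => (t.o, t.k)) _ ?_ ?_ (fun z => f a z.1 z.2)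
        (fun z => hf0 _ _ _)
      · intro t ht
        obtain ⟨htJ, -⟩ := mem_filter.mp ht
        exact mem_product.mpr ⟨mem_univ _, (h1 t htJ).2.1.mem⟩
      · intro t ht t' ht' he
        obtain ⟨htJ, g1⟩ := mem_filter.mp ht
        obtain ⟨htJ', g2⟩ := mem_filter.mp ht'
        obtain ⟨p1, p23⟩ := Prod.mk.inj (g1.trans g2.symm)
        obtain ⟨p2, -⟩ := Prod.mk.inj p23
        obtain ⟨p3, p4⟩ := Prod.mk.inj he
        exact h2 t htJ t' htJ' p3 p1 p2 p4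
    refine u2.trans ?_
    rw [sum_product]
    have u3 := h3 t0 ht0
    simp only [hf]
    rw [← he0]
    exact u3
  refine t2.trans ?_
  rw [← sum_mul]
  have t3 := hS Y hY E A (fun a ha => by
    obtain ⟨t, ht, rfl⟩ := mem_image.mp ha
    obtain ⟨-, -, -, q1, q2, q3, q4, q5, q6⟩ := h1 t ht
    exact ⟨q1, q2, q3, q4, q5, q6⟩)
  calc (∑ a ∈ A, ((nm a.1 : ℝ) * nm a.2.1)⁻¹) * ((2 * κ / L ^ 2) * Sx)
      ≤ (C * Y ^ ε) * ((2 * κ / L ^ 2) * Sx) :=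
        mul_le_mul_of_nonneg_right t3 (mul_nonneg hc hSx)
    _ = 2 * C * Y ^ ε * (κ / L ^ 2 * Sx) := by ring

end Crest.Agent.R017.JxH679
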