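import Crest.Agent.R017.JxB_679
import Crest.Agent.R017.HP3_842

/-!
# Row 17, C70/E4 (version 7), the moved factor as one natural sequence (helper679)

* `bmv mv f u` : the convolution of `n ↦ f i n * sy u n`, `i ∈ mv`
* `CS_bmv` : `CS (bmv mv f u) k = ∏_{i ∈ mv} CS (f i) (k u)`
* `bmv_supp`, `bmv_norm`, `mb_bmv` : support, size, second moments
-/

set_option autoImplicit false

noncomputable section

open Complex Finset
open scoped ComplexConjugate Classical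

namespace Crest.Agent.R017.JxM679

open Crest.Agent.R012 Crest.Agent.R012.Eis Crest.Agent.R012.Mob705
open Crest.Agent.R012.Div277
open Crest.Agent.R012.GaussLoc283 (syAx)
open Crest.Agent.R017.CM106 (CS FS)
open Crest.Agent.R017.HP842 (cv Tu mem_Tu card_Tu_le CS_cv cv_ne_zero cv_not_prim)

variable {m : ℕ}

/-- the members of the moved factor -/
def bmi (mv : Finset (Fin m)) (f : Fin m → Eis → ℂ) (u : Eis) (i : {i // i ∈ mv}) (n : Eis) : ℂ :=
  f i n * sy u n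

/-- the moved factor -/
def bmv (mv : Finset (Fin m)) (f : Fin m → Eis → ℂ) (u : Eis) : Eis → ℂ := cv (bmi mv f u)

lemma FS_bmi {mv : Finset (Fin m)} {f : Fin m → Eis → ℂ} (hf : ∀ i ∈ mv, FS (f i)) (u : Eis)
    (i : {i // i ∈ mv}) : FS (bmi mv f u i) where
  fin := (hf i i.2).fin.subset fun n hn => left_ne_zero_of_mul hn
  prim := fun n hn => (hf i i.2).prim n (left_ne_zero_of_mul hn)

lemma CS_bmi {mv : Finset (Fin m)} {f : Fin m → Eis → ℂ} (hf : ∀ i ∈ mv, FS (f i)) (u k : Eis)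
    (i : {i // i ∈ mv}) : CS (bmi mv f u i) k = CS (f i) (k * u) := by
  unfold CS bmi
  refine tsum_congr fun n => ?_
  by_cases h : f i n = 0
  · rw [h]; ring
  · have hn := (hf i i.2).prim n h
    rw [syAx.mul_left k u _ hn]
    ring

/-- **the moved factor** -/
theorem CS_bmv {mv : Finset (Fin m)} {f : Fin m → Eis → ℂ} (hf : ∀ i ∈ mv, FS (f i))
    (u k : Eis) : CS (bmv mv f u) k = ∏ i ∈ mv, CS (f i) (k * u) := by
  unfold bmv
  rw [CS_cv (FS_bmi hf u) k, ← prod_coe_sort mv (fun i => CS (f i) (k * u))]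
  exact prod_congr rfl fun i _ => CS_bmi hf u k i

lemma norm_CS_bmv_sq {mv : Finset (Fin m)} {f : Fin m → Eis → ℂ} (hf : ∀ i ∈ mv, FS (f i))
    (u k : Eis) : ‖CS (bmv mv f u) k‖ ^ 2 = ∏ i ∈ mv, ‖CS (f i) (k * u)‖ ^ 2 := by
  rw [CS_bmv hf u k, norm_prod, prod_pow]

lemma bmv_prim {mv : Finset (Fin m)} {f : Fin m → Eis → ℂ} {u n : Eis}
    (h : bmv mv f u n ≠ 0) : IsPrim n := by
  by_contra hn
  exact h (cv_not_prim hn)

lemma bmv_ne {mv : Finset (Fin m)} {f : Fin m → Eis → ℂ} {u n : Eis}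
    (h : bmv mv f u n ≠ 0) : ∃ x : {i // i ∈ mv} → Eis, (∀ i, IsPrim (x i)) ∧ ∏ i, x i = n ∧
      ∀ i : {i // i ∈ mv}, f i.1 (x i) ≠ 0 := by
  unfold bmv cv at h
  obtain ⟨x, hx, hx0⟩ := exists_ne_zero_of_sum_ne_zero h
  rw [mem_Tu] at hx
  refine ⟨x, hx.1, hx.2, fun i => ?_⟩
  have := (prod_ne_zero_iff.mp hx0) i (mem_univ i)
  exact left_ne_zero_of_mul this

lemma nm_prod' {ι : Type*} (s : Finset ι) (F : ι → Eis) : nm (∏ i ∈ s, F i) = ∏ i ∈ s, nm (F i) := by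
  induction s using Finset.induction_on with
  | empty => simp
  | insert a s ha ih => rw [prod_insert ha, prod_insert ha, nm_mul, ih]

lemma bmv_supp {mv : Finset (Fin m)} {f : Fin m → Eis → ℂ} {Yi : Fin m → ℝ} {B : ℝ}
    (hY : ∀ i ∈ mv, ∀ n, f i n ≠ 0 → (nm n : ℝ) ≤ Yi i) (hB : ∏ i ∈ mv, Yi i ≤ B) {u n : Eis}
    (h : bmv mv f u n ≠ 0) : n ∈ primBall ⌊B⌋₊ := by
  obtain ⟨x, h1, h2, h3⟩ := bmv_ne h
  refine mem_primBall.mpr ⟨Nat.le_floor ?_, bmv_prim h⟩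
  rw [← h2, nm_prod']
  push_cast
  calc ∏ i, (nm (x i) : ℝ) ≤ ∏ i : {i // i ∈ mv}, Yi i :=
        prod_le_prod (fun i _ => Nat.cast_nonneg _) fun i _ => hY i i.2 _ (h3 i)
    _ = ∏ i ∈ mv, Yi i := prod_coe_sort mv (fun i => Yi i)
    _ ≤ B := hB

lemma norm_sy_le1 {u n : Eis} (hn : IsPrim n) : ‖sy u n‖ ≤ 1 := syAx.norm_le_one u hn

lemma bmv_norm {mv : Finset (Fin m)} {f : Fin m → Eis → ℂ} {A : ℝ} (hA : 1 ≤ A)
    (hf : ∀ i ∈ mv, ∀ n, ‖f i n‖ ≤ A) (u n : Eis) :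
    ‖bmv mv f u n‖ ≤ (tau n : ℝ) ^ mv.card * A ^ m := by
  have hA0 : 0 ≤ A := by linarith
  have hc : mv.card ≤ m := by
    have := card_le_univ mv
    simpa using this
  by_cases hn : IsPrim n
  swap
  · unfold bmv
    rw [cv_not_prim hn, norm_zero]
    positivity
  unfold bmv cv
  refine (norm_sum_le _ _).trans ?_
  have h1 : ∀ x ∈ Tu {i // i ∈ mv} n, ‖∏ i, bmi mv f u i (x i)‖ ≤ A ^ m := by
    intro x hx
    rw [mem_Tu] at hx
    rw [norm_prod]
    calc ∏ i, ‖bmi mv f u i (x i)‖ ≤ ∏ i : {i // i ∈ mv}, A := by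
          refine prod_le_prod (fun i _ => norm_nonneg _) fun i _ => ?_
          unfold bmi
          rw [norm_mul]
          calc ‖f i (x i)‖ * ‖sy u (x i)‖ ≤ A * 1 :=
                mul_le_mul (hf i i.2 _) (norm_sy_le1 (hx.1 i)) (norm_nonneg _) hA0
            _ = A := mul_one _
      _ = A ^ mv.card := by rw [prod_const]; simp
      _ ≤ A ^ m := pow_le_pow_right₀ hA hc
  refine (sum_le_sum h1).trans ?_
  rw [sum_const, nsmul_eq_mul]
  refine mul_le_mul_of_nonneg_right ?_ (by positivity)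
  have := card_Tu_le (ι := {i // i ∈ mv}) n
  rw [Fintype.card_coe] at this
  exact_mod_cast this

/-- **second moments of the moved factor** -/
theorem mb_bmv {ε : ℝ} (hε : 0 < ε) (m : ℕ) : ∃ C : ℝ, 1 ≤ C ∧ ∀ (Y A B : ℝ), 1 ≤ Y → 1 ≤ A →
    0 ≤ B → B ≤ Y → ∀ (mv : Finset (Fin m)) (f : Fin m → Eis → ℂ) (Yi : Fin m → ℝ),
    (∀ i ∈ mv, ∀ n, f i n ≠ 0 → (nm n : ℝ) ≤ Yi i) → ∏ i ∈ mv, Yi i ≤ B →
    (∀ i ∈ mv, ∀ n, ‖f i n‖ ≤ A) → ∀ (u s : Eis), IsPrim s →
      ∑ d ∈ primBall ⌊B⌋₊, ‖bmv mv f u (s * d)‖ ^ 2 ≤ (C * Y ^ ε * A ^ (2 * m) * B) / nm s := by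
  have hm : (0 : ℝ) < 2 * m + 1 := by positivity
  have hε1 : 0 < ε / (2 * m + 1) := by positivity
  obtain ⟨C1, hC1, h1⟩ := JxG679.tau_Z hε1
  refine ⟨C1 ^ (2 * m) * 100, ?_, ?_⟩
  · have : 1 ≤ C1 ^ (2 * m) := one_le_pow₀ hC1
    linarith
  intro Y A B hY hA hB hBY mv f Yi hYi hYB hf u s hs
  have hY0 : 0 < Y := by linarith
  have hs1 : (1 : ℝ) ≤ nm s := by exact_mod_cast nm_pos.mpr hs.ne_zero
  have hs0 : (0 : ℝ) < nm s := by linarith
  have hc : mv.card ≤ m := by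
    have := card_le_univ mv
    simpa using this
  set T : ℝ := C1 ^ (2 * m) * Y ^ ε * A ^ (2 * m) with hT
  have hT0 : 0 ≤ T := by positivity
  have t1 : ∀ d : Eis, ‖bmv mv f u (s * d)‖ ^ 2 ≤
      if d ∈ primBall ⌊B / nm s⌋₊ then T else 0 := by
    intro d
    by_cases h0 : bmv mv f u (s * d) = 0
    · rw [h0, norm_zero]
      split_ifs
      · norm_num; exact hT0
      · norm_num
    · have h2 := bmv_supp (B := B) hYi hYB h0
      obtain ⟨h3, h4⟩ := mem_primBall.mp h2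
      have hdp : IsPrim d := h4.of_mul_left hs
      have h5 : (nm (s * d) : ℝ) ≤ B := (Nat.le_floor_iff hB).mp h3
      have h6 : d ∈ primBall ⌊B / nm s⌋₊ := by
        refine mem_primBall.mpr ⟨Nat.le_floor ?_, hdp⟩
        rw [le_div_iff₀ hs0]
        rw [nm_mul] at h5
        push_cast at h5
        linarith
      rw [if_pos h6]
      have h7 := bmv_norm hA hf u (s * d)
      have h8 : (tau (s * d) : ℝ) ≤ C1 * Y ^ (ε / (2 * m + 1)) := h1 Y hY _ (h5.trans hBY)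
      have h9 : (1 : ℝ) ≤ C1 * Y ^ (ε / (2 * m + 1)) :=
        one_le_mul_of_one_le_of_one_le hC1 (Real.one_le_rpow hY hε1.le)
      calc ‖bmv mv f u (s * d)‖ ^ 2 ≤ ((tau (s * d) : ℝ) ^ mv.card * A ^ m) ^ 2 :=
            pow_le_pow_left₀ (norm_nonneg _) h7 2
        _ ≤ ((C1 * Y ^ (ε / (2 * m + 1))) ^ m * A ^ m) ^ 2 := by
            refine pow_le_pow_left₀ (by positivity) (mul_le_mul_of_nonneg_right ?_
              (by positivity)) 2
            exact (pow_le_pow_left₀ (Nat.cast_nonneg _) h8 _).trans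
              (pow_le_pow_right₀ h9 hc)
        _ = C1 ^ (2 * m) * (Y ^ (ε / (2 * m + 1))) ^ (2 * m) * A ^ (2 * m) := by
            rw [← mul_pow, ← pow_mul, mul_comm m 2]
            rw [mul_pow, mul_pow]
        _ ≤ T := by
            rw [hT]
            refine mul_le_mul_of_nonneg_right (mul_le_mul_of_nonneg_left ?_ (by positivity))
              (by positivity)
            rw [← Real.rpow_natCast, ← Real.rpow_mul hY0.le]
            refine Real.rpow_le_rpow_of_exponent_le hY ?_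
            push_cast
            rw [div_mul_eq_mul_div, div_le_iff₀ hm]
            nlinarith
  calc ∑ d ∈ primBall ⌊B⌋₊, ‖bmv mv f u (s * d)‖ ^ 2
      ≤ ∑ d ∈ primBall ⌊B⌋₊, if d ∈ primBall ⌊B / nm s⌋₊ then T else 0 :=
        sum_le_sum fun d _ => t1 d
    _ ≤ ∑ d ∈ primBall ⌊B / nm s⌋₊, T := by
        rw [← sum_filter]
        refine sum_le_sum_of_subset_of_nonneg (fun d hd => (mem_filter.mp hd).2)
          fun _ _ _ => hT0
    _ = ((primBall ⌊B / nm s⌋₊).card : ℝ) * T := by rw [sum_const, nsmul_eq_mul]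
    _ ≤ (100 * (⌊B / nm s⌋₊ : ℝ)) * T :=
        mul_le_mul_of_nonneg_right (Lat277.card_primBall_le _) hT0
    _ ≤ (100 * (B / nm s)) * T := by
        refine mul_le_mul_of_nonneg_right (mul_le_mul_of_nonneg_left
          (Nat.floor_le (by positivity)) (by norm_num)) hT0
    _ = (C1 ^ (2 * m) * 100 * Y ^ ε * A ^ (2 * m) * B) / nm s := by
        rw [hT]; ring

end Crest.Agent.R017.JxM679
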