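import Crest.Agent.R017.JxL_679

/-!
# Row 17, C70/E4 (version 7), the `x`-side with moved pieces of two lists (helper679)

* `NatS.mono`
* `hxG2` : `hxG` for moved pieces `q₁ i (x₁ t i)`, `i ∈ mv₁`, and `q₂ i (x₂ t i)`, `i ∈ mv₂`, with
  one constant for all lengths `≤ N`
-/

set_option autoImplicit false

noncomputable section

open Complex Finset
open scoped ComplexConjugate Classical

namespace Crest.Agent.R017.JxN679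

open Crest.Agent.R012 Crest.Agent.R012.Eis Crest.Agent.R012.Mob705
open Crest.Agent.R012.Div277
open Crest.Agent.R017.CM106 (CS FS)
open Crest.Agent.R017.FE47 (PU cx)
open Crest.Agent.R017.HP842 (Pc pc FS_pc norm_uv_le)
open Crest.Agent.R017.E4352
open Crest.Agent.R017.E4J352
open Crest.Agent.R017.E4y92 (Dk)
open Crest.Agent.R017.JxG679 Crest.Agent.R017.JxH679 Crest.Agent.R017.JxM679
open Crest.Agent.R017.JxL679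

lemma NatS.mono {B Mb Mb' : ℝ} {bm : Eis → ℂ} (h : NatS B Mb bm) (hM : Mb ≤ Mb') :
    NatS B Mb' bm :=
  ⟨h.supp, fun s hs => (h.mom s hs).trans (div_le_div_of_nonneg_right hM (Nat.cast_nonneg _)),
    fun n => (h.bd n).trans hM⟩

/-- the union of two families -/
def jn {m₁ m₂ : ℕ} {A : Type} (a : Fin m₁ → A) (b : Fin m₂ → A) : Fin (m₁ + m₂) → A :=
  fun i => Sum.elim a b (finSumFinEquiv.symm i)

/-- the union of two index sets -/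
def jm {m₁ m₂ : ℕ} (mv₁ : Finset (Fin m₁)) (mv₂ : Finset (Fin m₂)) : Finset (Fin (m₁ + m₂)) :=
  (mv₁.disjSum mv₂).map finSumFinEquiv.toEmbedding

lemma prod_jm {m₁ m₂ : ℕ} (mv₁ : Finset (Fin m₁)) (mv₂ : Finset (Fin m₂))
    (f : Fin (m₁ + m₂) → ℝ) : ∏ i ∈ jm mv₁ mv₂, f i =
      (∏ i ∈ mv₁, f (finSumFinEquiv (Sum.inl i))) *
        ∏ i ∈ mv₂, f (finSumFinEquiv (Sum.inr i)) := by
  unfold jm
  rw [prod_map, prod_disjSum]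
  rfl

lemma jn_inl {m₁ m₂ : ℕ} {A : Type} (a : Fin m₁ → A) (b : Fin m₂ → A) (i : Fin m₁) :
    jn a b (finSumFinEquiv (Sum.inl i)) = a i := by
  unfold jn
  rw [Equiv.symm_apply_apply]
  rfl

lemma jn_inr {m₁ m₂ : ℕ} {A : Type} (a : Fin m₁ → A) (b : Fin m₂ → A) (i : Fin m₂) :
    jn a b (finSumFinEquiv (Sum.inr i)) = b i := by
  unfold jn
  rw [Equiv.symm_apply_apply]
  rfl

lemma jn_all {m₁ m₂ : ℕ} {A : Type} {a : Fin m₁ → A} {b : Fin m₂ → A} {p : A → Prop}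
    (h1 : ∀ i, p (a i)) (h2 : ∀ i, p (b i)) (i : Fin (m₁ + m₂)) : p (jn a b i) := by
  unfold jn
  rcases finSumFinEquiv.symm i with j | j
  · exact h1 j
  · exact h2 j

lemma mem_jm {m₁ m₂ : ℕ} {mv₁ : Finset (Fin m₁)} {mv₂ : Finset (Fin m₂)}
    {p : Fin (m₁ + m₂) → Prop} (h1 : ∀ i ∈ mv₁, p (finSumFinEquiv (Sum.inl i)))
    (h2 : ∀ i ∈ mv₂, p (finSumFinEquiv (Sum.inr i))) : ∀ i ∈ jm mv₁ mv₂, p i := by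
  intro i hi
  unfold jm at hi
  rw [mem_map] at hi
  obtain ⟨s, hs, rfl⟩ := hi
  rw [mem_disjSum] at hs
  rcases hs with ⟨a, ha, rfl⟩ | ⟨b, hb, rfl⟩
  · exact h1 a ha
  · exact h2 b hb

/-- **two lists of moved pieces, one constant for all lengths `≤ N`** -/
theorem hxG2 {h : ℝ → ℝ} {c : ℝ} (hpu : PU h c) {ε : ℝ} (hε : 0 < ε) (N : ℕ) :
    ∃ C A₁ : ℝ, 1 ≤ C ∧ 1 ≤ A₁ ∧ ∀ {O : Type} [Fintype O] (M : Eis) (Y : ℝ), 1 ≤ Y →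
    ∀ (lam : O → ℝ) (v : O → Eis → ℂ) (G : Eis → ℂ) (κ L Sx B : ℝ), 0 < κ → 0 < L → 0 ≤ Sx →
    0 ≤ B → B ≤ Y → ∀ (Oc : Finset O) (𝒥 : Finset (Tm O)) (b1 : Tm O → Eis)
    (pk : O → Eis → Eis → Px O) (m₁ m₂ : ℕ), m₁ ≤ N → m₂ ≤ N →
    ∀ (x₁ : Tm O → Fin m₁ → Eis) (x₂ : Tm O → Fin m₂ → Eis) (E : Eis → Eis → Eis)
    (u : O → Eis → Eis → Eis) (q₁ : Fin m₁ → Eis → Pc) (q₂ : Fin m₂ → Eis → Pc)
    (mv₁ : Finset (Fin m₁)) (mv₂ : Finset (Fin m₂)) (W₁ : Fin m₁ → ℝ) (W₂ : Fin m₂ → ℝ),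
    (∀ i y, IsPrim y → (q₁ i y).OK) → (∀ i y, IsPrim y → (q₂ i y).OK) →
    A₁ * ((∏ i ∈ mv₁, W₁ i) * ∏ i ∈ mv₂, W₂ i) ≤ B →
    (∀ t ∈ 𝒥, t.o ∈ Oc ∧ (∀ i ∈ mv₁, (q₁ i (x₁ t i)).Y ≤ W₁ i) ∧
      (∀ i ∈ mv₂, (q₂ i (x₂ t i)).Y ≤ W₂ i)) →
    (∀ t ∈ 𝒥, px t = pk t.o t.D1 (b1 t) ∧ Kw M κ t.k ∧ L ≤ lam t.o * nm t.k ∧
      (IsPrim t.D1 ∧ (nm t.D1 : ℝ) ≤ Y) ∧ (IsPrim (b1 t) ∧ (nm (b1 t) : ℝ) ≤ Y) ∧
      ((∀ i, IsPrim (x₁ t i)) ∧ ∀ i, IsPrim (x₂ t i)) ∧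
      ((∀ i, x₁ t i ∣ E t.D1 (b1 t)) ∧ ∀ i, x₂ t i ∣ E t.D1 (b1 t)) ∧ E t.D1 (b1 t) ≠ 0 ∧
      (nm (E t.D1 (b1 t)) : ℝ) ≤ Y) →
    (∀ t ∈ 𝒥, ∀ t' ∈ 𝒥, t.o = t'.o → t.D1 = t'.D1 → b1 t = b1 t' → t.k = t'.k → t = t') →
    (∀ t ∈ 𝒥, ∀ bm : O → Eis → ℂ, (∀ o ∈ Oc, NatS B (C * Y ^ ε * B) (bm o)) →
      ∑ o ∈ Oc, ∑ k ∈ Dk M κ, (nm k : ℝ)⁻¹ *
        (‖Sd ((pk o t.D1 (b1 t)).v' v G) k‖ ^ 2 * ‖CS (bm o) k‖ ^ 2) ≤ Sx) →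
    ∑ t ∈ 𝒥, (nm (t.D1 * b1 t) : ℝ)⁻¹ * ((lam t.o * nm t.k)⁻¹ ^ 2 * (‖t.xs v G‖ ^ 2 *
      ((∏ i ∈ mv₁, ‖CS (pc h (q₁ i (x₁ t i))) (t.k * u t.o t.D1 (b1 t))‖ ^ 2) *
        ∏ i ∈ mv₂, ‖CS (pc h (q₂ i (x₂ t i))) (t.k * u t.o t.D1 (b1 t))‖ ^ 2))) ≤
      C * Y ^ ε * (κ / L ^ 2 * Sx) := by
  have H := fun m : ℕ => hxG hpu hε m
  choose Cf Af hC hA H using H
  have e1 : ∀ m, m ≤ 2 * N → Cf m ≤ ∑ i ∈ range (2 * N + 1), Cf i := fun m hm =>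
    single_le_sum (f := Cf) (fun i _ => zero_le_one.trans (hC i)) (mem_range.mpr (by omega))
  have e2 : ∀ m, m ≤ 2 * N → Af m ≤ ∑ i ∈ range (2 * N + 1), Af i := fun m hm =>
    single_le_sum (f := Af) (fun i _ => zero_le_one.trans (hA i)) (mem_range.mpr (by omega))
  refine ⟨∑ i ∈ range (2 * N + 1), Cf i, ∑ i ∈ range (2 * N + 1), Af i,
    (hC 0).trans (e1 0 (by omega)), (hA 0).trans (e2 0 (by omega)), ?_⟩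
  intro O _ M Y hY lam v G κ L Sx B hκ hL hSx hB hBY Oc 𝒥 b1 pk m₁ m₂ hm₁ hm₂ x₁ x₂ E u q₁ q₂
    mv₁ mv₂ W₁ W₂ hq₁ hq₂ hWB hJ1 hJ hinj hX
  have hm : m₁ + m₂ ≤ 2 * N := by omega
  have hY0 : 0 < Y := by linarith
  by_cases hne : 𝒥.Nonempty
  swap
  · rw [not_nonempty_iff_eq_empty] at hne
    rw [hne, sum_empty]
    have : 0 ≤ ∑ i ∈ range (2 * N + 1), Cf i := sum_nonneg fun i _ => zero_le_one.trans (hC i)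
    positivity
  obtain ⟨t₀, ht₀⟩ := hne
  have hW0 : 0 ≤ (∏ i ∈ mv₁, W₁ i) * ∏ i ∈ mv₂, W₂ i := by
    obtain ⟨-, -, -, -, -, ⟨p1, p2⟩, -⟩ := hJ t₀ ht₀
    refine mul_nonneg (prod_nonneg fun i hi => ?_) (prod_nonneg fun i hi => ?_)
    · exact (hq₁ i _ (p1 i)).Y0.le.trans ((hJ1 t₀ ht₀).2.1 i hi)
    · exact (hq₂ i _ (p2 i)).Y0.le.trans ((hJ1 t₀ ht₀).2.2 i hi)
  have eq1 : ∀ (i : Fin m₁) (ξ : Fin (m₁ + m₂) → Eis),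
      jn q₁ q₂ (finSumFinEquiv (Sum.inl i)) = q₁ i := fun i ξ => jn_inl _ _ i
  have key := H (m₁ + m₂) M Y hY lam v G κ L Sx B hκ hL hSx hB hBY Oc 𝒥 b1 pk
    (fun t => jn (x₁ t) (x₂ t)) E u (jn q₁ q₂) (jm mv₁ mv₂) (jn W₁ W₂)
    (jn_all (p := fun g : Eis → Pc => ∀ y, IsPrim y → (g y).OK) hq₁ hq₂)
    (by
      rw [prod_jm]
      simp only [jn_inl, jn_inr]
      exact (mul_le_mul_of_nonneg_right (e2 _ hm) hW0).trans hWB)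
    (fun t ht => ⟨(hJ1 t ht).1, mem_jm
      (p := fun i => (jn q₁ q₂ i (jn (x₁ t) (x₂ t) i)).Y ≤ jn W₁ W₂ i)
      (fun i hi => by
        rw [jn_inl, jn_inl, jn_inl]
        exact (hJ1 t ht).2.1 i hi)
      (fun i hi => by
        rw [jn_inr, jn_inr, jn_inr]
        exact (hJ1 t ht).2.2 i hi)⟩)
    (fun t ht => by
      obtain ⟨p0, p1, p2, p3, p4, ⟨p5, p6⟩, ⟨p7, p8⟩, p9, p10⟩ := hJ t ht
      exact ⟨p0, p1, p2, p3, p4, jn_all (p := fun g => IsPrim g) p5 p6,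
        jn_all (p := fun g => g ∣ E t.D1 (b1 t)) p7 p8, p9, p10⟩)
    hinj
    (fun t ht bm hbm => hX t ht bm fun o ho => NatS.mono (hbm o ho)
      (mul_le_mul_of_nonneg_right (mul_le_mul_of_nonneg_right (e1 _ hm) (by positivity)) hB))
  have e3 : ∀ t ∈ 𝒥, (nm (t.D1 * b1 t) : ℝ)⁻¹ * ((lam t.o * nm t.k)⁻¹ ^ 2 * (‖t.xs v G‖ ^ 2 *
      ((∏ i ∈ mv₁, ‖CS (pc h (q₁ i (x₁ t i))) (t.k * u t.o t.D1 (b1 t))‖ ^ 2) *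
        ∏ i ∈ mv₂, ‖CS (pc h (q₂ i (x₂ t i))) (t.k * u t.o t.D1 (b1 t))‖ ^ 2))) =
      (nm (t.D1 * b1 t) : ℝ)⁻¹ * ((lam t.o * nm t.k)⁻¹ ^ 2 * (‖t.xs v G‖ ^ 2 *
      ∏ i ∈ jm mv₁ mv₂, ‖CS (pc h (jn q₁ q₂ i (jn (x₁ t) (x₂ t) i)))
        (t.k * u t.o t.D1 (b1 t))‖ ^ 2)) := by
    intro t _
    rw [prod_jm]
    simp only [jn_inl, jn_inr]
  rw [sum_congr rfl e3]
  refine key.trans ?_
  exact mul_le_mul_of_nonneg_right (mul_le_mul_of_nonneg_right (e1 _ hm) (by positivity))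
    (by positivity)

end Crest.Agent.R017.JxN679
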