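import Crest.Agent.R017.YsM_61

/-!
# Row 17, C70/E4 v7: the moved mass over the terms of one prefix with the cube `b0` (helper61)

`f = 1`; `ν = ν' b0³` with `b0` in the prefix.

* `ww_cube` : `ww .. (ν' b0³) y = [(y, b0) = 1] ww .. ν' y`
* `cs_cube` : the reduced `y`-side at `(ν, D = f1 D1')` by the one at `(ν', D1')`, modulus `· b0 f1²`
* `yU nu' be bk t = k ν' D² β² b~` : the frequency seen by the `y`-side
* `ys_moveB` : the moved mass, modulus `Bp (b~ c³) b0`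
-/

set_option autoImplicit false

noncomputable section

open Complex
open scoped ComplexConjugate

namespace Crest.Agent.R017.YsM61

open Crest.Agent.R012 Crest.Agent.R012.Eis
open Crest.Agent.R012.GaussLoc283
open Crest.Agent.R012.PSer47 (IsChar)
open Crest.Agent.R017.Sx545 (Sm)
open Crest.Agent.R017.CM106 Crest.Agent.R017.HP842
open Crest.Agent.R017.FE47 (PU)
open Crest.Agent.R017.End699 (HC prin0)
open Crest.Agent.R017.B770
open Crest.Agent.R017.Prov71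
open Crest.Agent.R017.Rough381
open Crest.Agent.R017.E4352
open Crest.Agent.R017.E4o502 (vD wD GoodD GB)
open Crest.Agent.R017.E4D164 (ww mulw pu cb)
open Crest.Agent.R017.E4J352
open Crest.Agent.R017.E4Yb792
open Crest.Agent.R017.JyF744

open Classical in
/-- **the cube of the outer parameter** -/
lemma ww_cube {M b0 z ν' : Eis} (hb0 : Sm M b0) (hz : PrI M z) {b₁ b₂ : Eis → ℂ}
    {L : Finset (Eis × Eis)} (h₁ : ∀ n, b₁ n ≠ 0 → IsPrim n) (h₂ : ∀ n, b₂ n ≠ 0 → IsPrim n)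
    (y : Eis) :
    ww M b₁ b₂ L z (ν' * b0 ^ 3) y = if IsCoprime y b0 then ww M b₁ b₂ L z ν' y else 0 := by
  unfold ww pu
  by_cases hy : Sm M y
  swap
  · rw [if_neg hy, if_neg hy, ite_self]
  rw [if_pos hy, if_pos hy]
  have hzb : IsCoprime z b0 := E4D164.cop_PrI hz hb0.2
  have key : ∀ p ∈ L.filter (fun p => p.1 * p.2 ^ 2 = z * y),
      cb b₁ b₂ (ν' * b0 ^ 3) p = (if IsCoprime y b0 then 1 else 0) * cb b₁ b₂ ν' p := by
    intro p hp
    have hpe := (Finset.mem_filter.mp hp).2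
    unfold cb
    by_cases g1 : b₁ p.1 = 0
    · rw [g1]; ring
    by_cases g2 : b₂ p.2 = 0
    · rw [g2, map_zero]; ring
    have p1 := h₁ _ g1
    have p2 := h₂ _ g2
    rw [Char766.sy_mul_left p1, Char766.sy_mul_left p2]
    split_ifs with hc
    · have hc1 : IsCoprime (p.1 * p.2 ^ 2) b0 := by rw [hpe]; exact hzb.mul_left hc
      have c1 : IsCoprime b0 p.1 := hc1.of_mul_left_left.symm
      have c2 : IsCoprime b0 p.2 :=
        (hc1.of_mul_left_right.of_isCoprime_of_dvd_left (dvd_pow_self _ two_ne_zero)).symm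
      rw [Char766.sy_cube_left p1 c1, Char766.sy_cube_left p2 c2, mul_one, mul_one, one_mul]
    · have h0 : sy (b0 ^ 3) p.1 = 0 ∨ sy (b0 ^ 3) p.2 = 0 := by
        by_contra h0
        rw [not_or] at h0
        apply hc
        have c1 : IsCoprime b0 p.1 := by
          by_contra h3
          apply h0.1
          rw [Char766.sy_pow_left p1, Char766.sy_eq_zero p1 h3]; simp
        have c2 : IsCoprime b0 p.2 := by
          by_contra h3
          apply h0.2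
          rw [Char766.sy_pow_left p2, Char766.sy_eq_zero p2 h3]; simp
        have c3 : IsCoprime b0 (z * y) := by rw [← hpe]; exact c1.mul_right c2.pow_right
        exact c3.of_mul_right_right.symm
      rcases h0 with h0 | h0
      · rw [h0]; ring
      · rw [h0, mul_zero, map_zero]; ring
  rw [Finset.sum_congr rfl key]
  split_ifs
  · simp
  · simp

/-- **removal of the cube** from the reduced `y`-side -/
lemma cs_cube {q q' f1 D1' Z b0 k : Eis} {G g g' : Eis → ℂ} {W W' : Eis → ℂ}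
    (hf1 : IsPrim f1) (hD1' : IsPrim D1') (hZ : IsPrim Z)
    (hW' : ∀ y, W' y ≠ 0 → IsPrim y)
    (hW : ∀ y, W y = (open Classical in if IsCoprime y b0 then W' y else 0))
    (hq : ∀ y, IsPrim y → (IsCoprime y q' ↔ IsCoprime y q ∧ IsCoprime y b0 ∧ IsCoprime y f1))
    (hg : ∀ y, IsPrim y → IsCoprime y q → g y = G y)
    (hg' : ∀ y, IsPrim y → IsCoprime y q' → g' y = G y * sy y (f1 ^ 2)) :
    CS (tws Z q g (wD (f1 * D1') D1' W)) k = 0 ∨
      (IsCoprime (D1' * Z) b0 ∧ IsCoprime Z f1 ∧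
      ‖CS (tws Z q g (wD (f1 * D1') D1' W)) k‖ ≤ ‖CS (tws Z q' g' (wD D1' D1' W')) k‖) := by
  classical
  by_cases h1 : IsCoprime (D1' * Z) b0
  swap
  · left
    have : tws Z q g (wD (f1 * D1') D1' W) = fun _ => 0 := by
      funext y
      unfold E4o502.wD tws
      beta_reduce
      rw [hW (D1' * (Z * y)), if_neg (c := IsCoprime (D1' * (Z * y)) b0)]
      · simp
      · intro h2
        apply h1
        have e : D1' * (Z * y) = (D1' * Z) * y := by ring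
        rw [e] at h2
        exact h2.of_mul_left_left
    rw [this]
    exact CS_zero' k
  by_cases h2 : IsCoprime Z f1
  swap
  · left
    have : tws Z q g (wD (f1 * D1') D1' W) = fun _ => 0 := by
      funext y
      unfold E4o502.wD tws
      beta_reduce
      rw [if_neg (c := IsCoprime (Z * y) (f1 * D1'))
        (fun h3 => h2 h3.of_mul_left_left.of_mul_right_left)]
      simp
    rw [this]
    exact CS_zero' k
  refine Or.inr ⟨h1, h2, ?_⟩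
  have e1 : tws Z q g (wD (f1 * D1') D1' W) =
      fun y => conj (sy Z f1) * tws Z q' g' (wD D1' D1' W') y := by
    funext y
    unfold E4o502.wD tws
    beta_reduce
    rw [hW (D1' * (Z * y))]
    by_cases h3 : W' (D1' * (Z * y)) = 0
    · rw [h3]; simp
    have h4 := hW' _ h3
    have hy : IsPrim y := (h4.of_mul_left hD1').of_mul_left hZ
    have e2 : D1' * (Z * y) = (D1' * Z) * y := by ring
    have h5 : IsCoprime (D1' * (Z * y)) b0 ↔ IsCoprime y b0 := by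
      rw [e2]
      exact ⟨fun h => h.of_mul_left_right, fun h => h1.mul_left h⟩
    have h6 : IsCoprime (Z * y) (f1 * D1') ↔ IsCoprime y f1 ∧ IsCoprime (Z * y) D1' :=
      ⟨fun h => ⟨h.of_mul_right_left.of_mul_left_right, h.of_mul_right_right⟩,
        fun h => (h2.mul_left h.1).mul_right h.2⟩
    have h7 := hq y hy
    by_cases a1 : IsCoprime y q'
    · obtain ⟨b1, b2, b3⟩ := h7.mp a1
      rw [if_pos b1, if_pos a1, if_pos (h5.mpr b2)]
      by_cases a2 : IsCoprime (Z * y) D1'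
      · rw [if_pos a2, if_pos (h6.mpr ⟨b3, a2⟩), hg y hy b1, hg' y hy a1,
          Char766.sy_mul_right hf1 hD1', Char766.sy_mul_left hf1, map_mul, map_mul,
          show f1 ^ 2 = f1 * f1 by ring, Char766.sy_mul_right hf1 hf1,
          show conj (sy y f1) = sy y f1 ^ 2 from Char766.conj_sy hf1]
        ring
      · rw [if_neg a2, if_neg (fun h => a2 (h6.mp h).2)]
        ring
    · rw [if_neg a1]
      by_cases b1 : IsCoprime y q
      · rw [if_pos b1]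
        by_cases b2 : IsCoprime y b0
        · have b3 : ¬ IsCoprime y f1 := fun h => a1 (h7.mpr ⟨b1, b2, h⟩)
          rw [if_neg (c := IsCoprime (Z * y) (f1 * D1')) (fun h => b3 (h6.mp h).1)]
          ring
        · rw [if_neg (c := IsCoprime (D1' * (Z * y)) b0) (fun h => b2 (h5.mp h))]
          simp
      · rw [if_neg b1]
        ring
  have e3 : CS (tws Z q g (wD (f1 * D1') D1' W)) k =
      conj (sy Z f1) * CS (tws Z q' g' (wD D1' D1' W')) k := by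
    rw [e1]
    unfold CS
    rw [← tsum_mul_left]
    exact tsum_congr fun y => by ring
  rw [e3, norm_mul, RCLike.norm_conj]
  exact mul_le_of_le_one_left (norm_nonneg _) (Char766.norm_sy_le hf1)

/-- the frequency of the `y`-side -/
def yU {OO : Finset (Eis × Eis)} (nu' : {x // x ∈ OO} → Eis) (be : Tm {x // x ∈ OO} → Eis)
    (bk : Eis) (t : Tm {x // x ∈ OO}) : Eis := KG (be t ^ 2 * bk) (nu' t.o) t.D1 t.k

/-- `D0 = 1` for `f = 1` -/
lemma D0_one {O : Type} {M : Eis} {t : Tm O} (h : t.OK M 1) : t.D0 = 1 :=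
  K695.prim_eq_one_of_isUnit h.pD0 (isUnit_of_dvd_one h.good.1)

lemma yK_preB {OO : Finset (Eis × Eis)} {M Bp bk c b0 : Eis} {be : Tm {x // x ∈ OO} → Eis}
    {nu' : {x // x ∈ OO} → Eis} {t : Tm {x // x ∈ OO}} (ht : t.OK M 1)
    (h : Pre Bp bk c be t) (hn : nu2 t.o = nu' t.o * b0 ^ 3) :
    yK nu2 t = yU nu' be bk t * (b0 ^ 3 * c ^ 3) := by
  unfold yK yU KG
  rw [h.b, hn, D0_one ht]
  ring

open Classical in
set_option maxHeartbeats 2000000 in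
/-- **the moved mass over the terms of one prefix**, `f = 1`, the cube `b0` of `ν` in the prefix -/
theorem ys_moveB {h : ℝ → ℝ} {c₀ : ℝ} (hpu : PU h c₀) (N : ℕ) {ε : ℝ} (hε : 0 < ε) {B₀ : ℝ}
    (hB₀ : 0 ≤ B₀) (M₁ : ℝ) : ∃ C r : ℝ, 1 ≤ C ∧ 0 ≤ r ∧ ∀ X : ℝ, 3 ≤ X →
    ∀ (P P₁ P₂ : DPar), (∀ k : Kd, IsChar (chK P k)) →
    ∀ ps₁ ps₂ : List Pq, ps₁.length ≤ N → ps₂.length ≤ N →
    (∀ p ∈ ps₁, p.z ≤ B₀ * Real.log X) → (∀ p ∈ ps₂, p.z ≤ B₀ * Real.log X) →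
    ∀ (M M' Bp bk c b0 z e₀ : Eis) (η : Eis → ℂ) (j : ℤ) (ξ : ℝ)
      (hMB : M * (Bp * (bk * c ^ 3) * b0) ≠ 0), IsPrim bk → IsPrim c → Sm M b0 → Sm M e₀ →
    PrI M z → HC M' η → (∀ p : Eis, Prime p → p ∣ M' → p ∣ M) →
    (∀ p ∈ ps₁, ∀ b, IsPrim b → chK P₁ p.kd b = chK P p.kd b * End699.tw η j b) →
    (∀ p ∈ ps₂, ∀ b, IsPrim b → chK P₂ p.kd b = chK P p.kd b *
      (conj (End699.tw η j b) * conj (End699.tw η j b))) →
    ∀ (h₁ : FS (alL h (ps₁.map (Pq.pc P)))) (h₂ : FS (alL h (ps₂.map (Pq.pc P))))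
      (OO : Finset (Eis × Eis)), (∀ o ∈ OO, IsPrim o.1 ∧ IsPrim o.2) →
    ∀ (lam : {x // x ∈ OO} → ℝ) (v w : {x // x ∈ OO} → Eis → ℂ),
      Dat4 M 1 lam v w (X ^ B₀) →
      (∀ o, w o = mulw e₀ (ww M (alL h (ps₁.map (Pq.pc P))) (alL h (ps₂.map (Pq.pc P)))
          (h₁.fin.toFinset ×ˢ h₂.fin.toFinset) z (nu2 o))) →
    ∀ G : Eis → ℂ, (∀ y, Sm M y → G y = gx η j ξ y) →
    ∀ (be : Tm {x // x ∈ OO} → Eis) (nu' : {x // x ∈ OO} → Eis)
      (𝒥 : Finset (Tm {x // x ∈ OO})),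
      (∀ t ∈ 𝒥, t.OK M 1 ∧ t.val 1 lam v w G ≠ 0 ∧ Pre Bp bk c be t ∧
        nu2 t.o = nu' t.o * b0 ^ 3 ∧ IsPrim (nu' t.o) ∧ (nm (yK nu2 t) : ℝ) ≤ X ^ B₀) →
    ∀ Λ : ℝ, Λ ≤ X ^ B₀ → (∀ t ∈ 𝒥, (nm (yU nu' be bk t) : ℝ) ≤ Λ) →
    ∀ Q : Eis → Prop, (∀ t ∈ 𝒥, Q (yU nu' be bk t)) →
    ∀ Wx : Tm {x // x ∈ OO} → ℝ, (∀ t ∈ 𝒥, 0 ≤ Wx t) → ∀ S₀ : ℝ, 0 ≤ S₀ →
    (∀ t ∈ 𝒥, ∀ f1 f2 f3 D1' Z'' : Eis, e₀ = f1 * f2 * f3 → Sm M f1 → Sm M f2 → Sm M f3 →
      t.D1 = f1 * D1' → t.Z * t.Z' = f2 * Z'' → IsCoprime f3 t.D1 → IsCoprime f3 (t.B * t.b) →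
      PrI (t.B * t.b) f2 → IsCoprime (D1' * Z'') b0 →
      ∀ l m : Eis, IsPrim l → IsPrim m → l * m ^ 2 = z * Z'' →
      ∀ (n₁ : Fin ps₁.length → ℕ) (n₂ : Fin ps₂.length → ℕ),
      |∑ i, (n₁ i : ℝ) - (Real.log (nm l) + Real.log (nm D1'))| ≤ r →
      |∑ i, (n₂ i : ℝ) - Real.log (nm m)| ≤ r →
      ∃ (mv₁ : Finset (Fin ps₁.length)) (mv₂ : Finset (Fin ps₂.length)) (Sx Bd : ℝ),
        0 ≤ Sx ∧ 0 ≤ Bd ∧ Sx * Bd ≤ S₀ ^ 2 ∧
        (∀ E' ⊆ 𝒥, ∀ (x₁ : Tm {x // x ∈ OO} → Fin ps₁.length → Eis)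
            (x₂ : Tm {x // x ∈ OO} → Fin ps₂.length → Eis),
          (∀ e ∈ E', (∀ i, IsPrim (x₁ e i) ∧ (n₁ i : ℝ) ≤ Real.log (nm (x₁ e i)) ∧
              Real.log (nm (x₁ e i)) < n₁ i + 1) ∧
            (∀ i, IsPrim (x₂ e i) ∧ (n₂ i : ℝ) ≤ Real.log (nm (x₂ e i)) ∧
              Real.log (nm (x₂ e i)) < n₂ i + 1) ∧
            (∏ i, x₁ e i) * (∏ i, x₂ e i) ^ 2 ∣ e.D1 * (z * (e.Z * e.Z'))) →
          ∑ e ∈ E', Wx e ^ 2 *
            ((∏ i ∈ mv₁, ‖CS (pc h (tP (th1 M (Bp * (bk * c ^ 3) * b0) η j) ξ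
                ((ps₁.get i).pc P) (x₁ e i))) (yU nu' be bk e)‖ ^ 2) *
              ∏ i ∈ mv₂, ‖CS (pc h (tP (th2 M (Bp * (bk * c ^ 3) * b0) η j) (-2 * ξ)
                ((ps₂.get i).pc P) (x₂ e i))) (yU nu' be bk e)‖ ^ 2) ≤ Sx) ∧
        (∀ ps₁' ps₂' : List Pq,
          List.Forall₂ (Ch r) ps₁'
            ((rst ps₁ mv₁).map (shf (M * (Bp * (bk * c ^ 3) * b0)) hMB ξ)) →
          List.Forall₂ (Ch r) ps₂'
            ((rst ps₂ mv₂).map (shf (M * (Bp * (bk * c ^ 3) * b0)) hMB (-2 * ξ))) →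
          |Ls (rst ps₁ mv₁) - Ls ps₁' - ∑ i ∈ mv₁ᶜ, (n₁ i : ℝ)| ≤ r →
          |Ls (rst ps₂ mv₂) - Ls ps₂' - ∑ i ∈ mv₂ᶜ, (n₂ i : ℝ)| ≤ r →
          RQ Q h (Real.log Λ) (ps₁'.map (Pq.pc P₁) ++ ps₂'.map (Pq.pc P₂)) ≤
            Bd * (cst ps₁' ((rst ps₁ mv₁).map (shf (M * (Bp * (bk * c ^ 3) * b0)) hMB ξ)) *
              cst ps₂' ((rst ps₂ mv₂).map
                (shf (M * (Bp * (bk * c ^ 3) * b0)) hMB (-2 * ξ)))) ^ M₁)) →
    ∑ t ∈ 𝒥, Wx t * ‖t.ys w G‖ ≤ C * X ^ ε * S₀ := by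
  obtain ⟨C₁, r, hC₁, hr, H⟩ := YG_move0 hpu N (ε := ε / 2) (by positivity) hB₀ M₁
  set ε' : ℝ := ε / (2 * (B₀ + 1)) with hε'
  have hε'0 : 0 < ε' := by positivity
  obtain ⟨C₂, hC₂, hfib⟩ := fib_pair (ε := ε') (B₀ := 1) hε'0 zero_le_one
  refine ⟨C₁ * C₂, r, one_le_mul_of_one_le_of_one_le hC₁ hC₂, hr, ?_⟩
  intro X hX P P₁ P₂ hP ps₁ ps₂ hlen₁ hlen₂ hz₁ hz₂ M M' Bp bk c b0 z e₀ η j ξ hMB hbk hc hb0
    he₀ hz hη hM' hc₁ hc₂ h₁ h₂ OO hOO lam v w hD hw G hG be nu' 𝒥 hJ Λ hΛX hKle Q hQ Wx hWx S₀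
    hS₀ hyp
  have hX1 : (1 : ℝ) ≤ X := by linarith
  have hX0 : (0 : ℝ) < X := by linarith
  have hf := hD.hf.1
  set b₁ := alL h (ps₁.map (Pq.pc P)) with hb₁
  set b₂ := alL h (ps₂.map (Pq.pc P)) with hb₂
  set W' : Tm {x // x ∈ OO} → Eis → ℂ :=
    fun t => ww M b₁ b₂ (h₁.fin.toFinset ×ˢ h₂.fin.toFinset) z (nu' t.o) with hW'
  set T₀ : ℝ := C₂ * (X ^ B₀) ^ ε' with hT₀
  have hXB1 : 1 ≤ X ^ B₀ := Real.one_le_rpow hX1 hB₀
  have hT₀1 : 1 ≤ T₀ := one_le_mul_of_one_le_of_one_le hC₂ (Real.one_le_rpow hXB1 hε'0.le)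
  have hmult : ∀ K, ((𝒥.filter (fun t => yU nu' be bk t = K)).card : ℝ) ≤ T₀ := by
    intro K
    have h1 := hfib M 1 OO hOO lam v w G (X ^ B₀) hD Bp 𝒥 (by
      intro t ht
      obtain ⟨a1, a2, a3, a4, a5, a6⟩ := hJ t ht
      refine ⟨a1, a2, a3.B, ?_⟩
      rw [Real.rpow_one]
      exact a6) (K * (b0 ^ 3 * c ^ 3))
    refine le_trans ?_ h1
    have h2 : (𝒥.filter (fun t => yU nu' be bk t = K)).card ≤
        (𝒥.filter (fun t => yK (fun o : {x // x ∈ OO} => o.1.1 * o.1.2) t =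
          K * (b0 ^ 3 * c ^ 3))).card := by
      refine Finset.card_le_card fun t ht => ?_
      rw [Finset.mem_filter] at ht ⊢
      refine ⟨ht.1, ?_⟩
      obtain ⟨a1, a2, a3, a4, a5, a6⟩ := hJ t ht.1
      rw [← ht.2]
      exact yK_preB a1 a3 a4
    exact_mod_cast h2
  -- the reduction
  have hred : ∀ t : Tm {x // x ∈ OO}, ∃ f1 D1' Z'' : Eis, t ∈ 𝒥 → t.ys w G ≠ 0 →
      (∃ f2 f3 : Eis, e₀ = f1 * f2 * f3 ∧ Sm M f1 ∧ Sm M f2 ∧ Sm M f3 ∧ t.D1 = f1 * D1' ∧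
        t.Z * t.Z' = f2 * Z'' ∧ IsCoprime f3 t.D1 ∧ IsCoprime f3 (t.B * t.b) ∧
        PrI (t.B * t.b) f2 ∧ IsCoprime (D1' * Z'') b0 ∧ IsCoprime Z'' f1) ∧
      ‖t.ys w G‖ ≤ ‖CS (tws Z'' (Bp * (bk * c ^ 3) * b0 * (be t ^ 2 * bk * f1 ^ 2))
        (fun y => sy y (be t ^ 2 * bk * f1 ^ 2) * gx η j ξ y) (wD D1' D1' (W' t))) t.k‖ := by
    intro t
    by_cases ht : t ∈ 𝒥 ∧ t.ys w G ≠ 0
    swap
    · exact ⟨1, 1, 1, fun h1 h2 => absurd ⟨h1, h2⟩ ht⟩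
    obtain ⟨ht, hys⟩ := ht
    obtain ⟨a1, a2, a3, a4, a5, a6⟩ := hJ t ht
    have e0 : t.ys w G = CS (tws (t.Z * t.Z') (Bp * (bk * c ^ 3) * (be t ^ 2 * bk))
        (fun y => sy y (be t ^ 2 * bk) * gx η j ξ y) (wD t.D1 t.D1 (mulw e₀
          (ww M b₁ b₂ (h₁.fin.toFinset ×ˢ h₂.fin.toFinset) z (nu2 t.o))))) t.k := by
      rw [ys_congr (hD.hw t.o) a1 hG, ys_pre hbk hc a3, hw, D0_one a1, one_mul]
    have hcop : IsCoprime t.D1 (Bp * (bk * c ^ 3) * (be t ^ 2 * bk)) := by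
      have := (cop_pre a3 _).mp (OK.cDBb hf a1)
      rwa [D0_one a1, one_mul] at this
    have hZp := PrI_pre a3 (OK.prZ a1)
    have hβ : IsPrim (be t ^ 2 * bk) := (a3.prim.pow 2).mul hbk
    rw [e0] at hys ⊢
    rcases norm_mulw_le (k := t.k) (D := t.D1) (D1 := t.D1) (f := e₀)
      (g := fun y => sy y (be t ^ 2 * bk) * gx η j ξ y)
      (W := ww M b₁ b₂ (h₁.fin.toFinset ×ˢ h₂.fin.toFinset) z (nu2 t.o)) he₀ a1.pD1 a1.pD1
      (dvd_refl _) hcop hZp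
      (fun a b ha hb hca hcb => by
        beta_reduce
        rw [syAx.mul_left a b _ hβ]
        have h3 := E4Y679.MuP_tw hη j ξ a b ha hb
        beta_reduce at h3
        show _ * (End699.tw η j (a * b) * (nm (a * b) : ℂ) ^ (I * ξ)) =
          _ * (End699.tw η j a * (nm a : ℂ) ^ (I * ξ)) *
            (_ * (End699.tw η j b * (nm b : ℂ) ^ (I * ξ)))
        rw [h3]
        ring)
      (fun a ha hca => by
        beta_reduce
        show ‖_ * (End699.tw η j a * (nm a : ℂ) ^ (I * ξ))‖ ≤ 1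
        rw [norm_mul, norm_mul]
        have h3 : ‖((nm a : ℕ) : ℂ) ^ (I * (ξ : ℂ))‖ = 1 := by
          rw [Crest.Agent.R017.E4Yb792.cpow_osc ha.ne_zero]
          exact Weight600.norm_osc _ _
        rw [h3, mul_one]
        exact mul_le_one₀ (Char766.norm_sy_le hβ) (norm_nonneg _) (norm_tw1 hη j ha))
      (fun y hy => (E4D164.pu_ne hy).1.1) with h0 |
        ⟨f1, f2, f3, D1', Z'', r1, r2, r3, r4, r5, r6, r7, r8, r9, r10, r11⟩
    · exact absurd h0 hys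
    have hDp : IsPrim D1' := by
      have := a1.pD1
      rw [r5] at this
      exact this.of_mul_left r2.1
    have hZp' : IsPrim Z'' := by
      have := hZp.1
      rw [r6] at this
      exact this.of_mul_left r3.1
    have hW : ∀ y, ww M b₁ b₂ (h₁.fin.toFinset ×ˢ h₂.fin.toFinset) z (nu2 t.o) y =
        if IsCoprime y b0 then W' t y else 0 := by
      intro y
      rw [a4]
      exact ww_cube hb0 hz h₁.prim h₂.prim y
    have hf2 : PrI (t.B * t.b) f2 := by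
      refine ⟨r3.1, fun p hp hd => ?_⟩
      exact (OK.prZ a1).2 p hp (hd.trans ⟨Z'', r6⟩)
    have hf3 : IsCoprime f3 (t.B * t.b) := (cop_pre a3 _).mpr r8
    rw [show wD t.D1 D1' = wD (f1 * D1') D1' by rw [← r5]] at r11
    rcases cs_cube (q := Bp * (bk * c ^ 3) * (be t ^ 2 * bk))
      (q' := Bp * (bk * c ^ 3) * b0 * (be t ^ 2 * bk * f1 ^ 2)) (b0 := b0)
      (G := fun y => sy y (be t ^ 2 * bk) * gx η j ξ y)
      (g := fun y => sy y (be t ^ 2 * bk) * gx η j ξ y)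
      (g' := fun y => sy y (be t ^ 2 * bk * f1 ^ 2) * gx η j ξ y) (k := t.k)
      (W := ww M b₁ b₂ (h₁.fin.toFinset ×ˢ h₂.fin.toFinset) z (nu2 t.o)) (W' := W' t)
      r2.1 hDp hZp' (fun y hy => (E4D164.pu_ne hy).1.1) hW
      (fun y hy => by
        constructor
        · intro h3
          refine ⟨h3.of_isCoprime_of_dvd_right ⟨b0 * f1 ^ 2, by ring⟩,
            h3.of_isCoprime_of_dvd_right
              ⟨Bp * (bk * c ^ 3) * (be t ^ 2 * bk * f1 ^ 2), by ring⟩,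
            h3.of_isCoprime_of_dvd_right
              ⟨Bp * (bk * c ^ 3) * b0 * (be t ^ 2 * bk * f1), by ring⟩⟩
        · rintro ⟨h3, h4, h5⟩
          have e : Bp * (bk * c ^ 3) * b0 * (be t ^ 2 * bk * f1 ^ 2) =
              Bp * (bk * c ^ 3) * (be t ^ 2 * bk) * b0 * f1 ^ 2 := by ring
          rw [e]
          exact (h3.mul_right h4).mul_right h5.pow_right)
      (fun y _ _ => rfl)
      (fun y hy _ => by
        beta_reduce
        rw [Char766.sy_mul_right hβ (r2.1.pow 2)]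
        ring) with h0 | ⟨s1, s2, s3⟩
    · rw [h0, norm_zero, norm_le_zero_iff] at r11
      exact absurd r11 hys
    · exact ⟨f1, D1', Z'', fun _ _ => ⟨⟨f2, f3, r1, r2, r3, r4, r5, r6, r7, hf3, hf2, s1, s2⟩,
        r11.trans s3⟩⟩
  choose F1 DD ZZ hDZ using hred
  set E₁ : Finset (Tm {x // x ∈ OO}) := 𝒥.filter (fun t => t.ys w G ≠ 0) with hE₁
  have hsub : ∀ e ∈ E₁, e ∈ 𝒥 := fun e he => (Finset.mem_filter.1 he).1
  have hsub' : E₁ ⊆ 𝒥 := Finset.filter_subset _ _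
  have hKE : ∀ t ∈ E₁, KG (be t ^ 2 * bk * F1 t ^ 2) (nu' t.o) (DD t) t.k =
      yU nu' be bk t := by
    intro t ht
    obtain ⟨⟨f2, f3, r1, r2, r3, r4, r5, r6, r7, r8, r9, r10, r11⟩, -⟩ :=
      hDZ t (hsub t ht) (Finset.mem_filter.1 ht).2
    unfold yU KG
    rw [r5]
    ring
  have h3 : ∑ t ∈ 𝒥, Wx t * ‖t.ys w G‖ ≤ ∑ t ∈ E₁, Wx t *
      ‖CS (tws (ZZ t) (Bp * (bk * c ^ 3) * b0 * (be t ^ 2 * bk * F1 t ^ 2))
        (fun y => sy y (be t ^ 2 * bk * F1 t ^ 2) * gx η j ξ y) (wD (DD t) (DD t) (W' t)))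
          t.k‖ := by
    rw [hE₁, Finset.sum_filter]
    refine Finset.sum_le_sum fun t ht => ?_
    split_ifs with h0
    · exact mul_le_mul_of_nonneg_left (hDZ t ht h0).2 (hWx t ht)
    · rw [not_not.1 h0, norm_zero, mul_zero]
  refine h3.trans ?_
  have key := H X hX P P₁ P₂ hP ps₁ ps₂ hlen₁ hlen₂ hz₁ hz₂ M M' (Bp * (bk * c ^ 3) * b0) z η j
    ξ hMB hz hη hM' hc₁ hc₂ h₁ h₂ (Tm {x // x ∈ OO}) E₁ (fun t => nu' t.o) DD DD
    (fun t => be t ^ 2 * bk * F1 t ^ 2) ZZ (fun t => t.k)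
    (fun t y => sy y (be t ^ 2 * bk * F1 t ^ 2) * gx η j ξ y)
    (by
      intro t ht
      obtain ⟨a1, a2, a3, a4, a5, a6⟩ := hJ t (hsub t ht)
      obtain ⟨⟨f2, f3, r1, r2, r3, r4, r5, r6, r7, r8, r9, r10, r11⟩, -⟩ :=
        hDZ t (hsub t ht) (Finset.mem_filter.1 ht).2
      have d1 : DD t ∣ t.D1 := ⟨F1 t, by rw [r5]; ring⟩
      have hβ : IsPrim (be t ^ 2 * bk) := (a3.prim.pow 2).mul hbk
      have hDp : IsPrim (DD t) := by
        have := a1.pD1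
        rw [r5] at this
        exact this.of_mul_left r2.1
      have hZp := PrI_pre a3 (OK.prZ a1)
      have hcop : IsCoprime t.D1 (Bp * (bk * c ^ 3) * (be t ^ 2 * bk)) := by
        have := (cop_pre a3 _).mp (OK.cDBb hf a1)
        rwa [D0_one a1, one_mul] at this
      have hsq : Squarefree t.D1 := OK.sqD1 a1
      have hDf : IsCoprime (DD t) (F1 t) := by
        rw [r5] at hsq
        refine isCoprime_of_prime_dvd (fun h => r2.1.ne_zero h.2) (fun p hp hpa hpb => ?_)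
        exact hp.not_isUnit (hsq p (mul_dvd_mul hpb hpa))
      have hSD : Sm M (DD t) := by
        have := OK.D a1
        rw [D0_one a1, one_mul, r5] at this
        exact this.of_mul_left r2.1
      refine ⟨a5, hSD, hDp, dvd_refl _, hsq.squarefree_of_dvd d1, ?_, ?_,
        hβ.mul (r2.1.pow 2), ⟨?_, ?_⟩, (OK.pk a1).ne_zero⟩
      · have e : Bp * (bk * c ^ 3) * b0 * (be t ^ 2 * bk * F1 t ^ 2) =
            Bp * (bk * c ^ 3) * (be t ^ 2 * bk) * b0 * F1 t ^ 2 := by ring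
        rw [e]
        exact (((hcop.of_isCoprime_of_dvd_left d1).mul_right r10.of_mul_left_left)).mul_right
          hDf.pow_right
      · have e : Bp * (bk * c ^ 3) * b0 * (be t ^ 2 * bk * F1 t ^ 2) =
            t.B * t.b * bk * b0 * F1 t ^ 2 := by
          rw [a3.B, a3.b]; ring
        rw [e]
        refine (((OK.smBb a1).mul ⟨hbk, ?_⟩).mul hb0).mul (r2.pow 2)
        refine (OK.smBb a1).2.of_isCoprime_of_dvd_left ?_
        rw [a3.b]
        exact ⟨t.B * (be t ^ 2 * c ^ 3), by ring⟩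
      · have := hZp.1
        rw [r6] at this
        exact this.of_mul_left r3.1
      · intro p hp hd
        have h5 := hZp.2 p hp (hd.trans ⟨f2, by rw [r6]; ring⟩)
        exact h5.trans ⟨b0 * F1 t ^ 2, by ring⟩)
    (by
      intro t _ y _ _
      rfl)
    Λ hΛX (fun t ht => by rw [hKE t ht]; exact hKle t (hsub t ht)) Q
    (fun t ht => by rw [hKE t ht]; exact hQ t (hsub t ht)) T₀ hT₀1 (by
      intro K
      refine le_trans ?_ (hmult K)
      have : (E₁.filter (fun t => KG (be t ^ 2 * bk * F1 t ^ 2) (nu' t.o) (DD t) t.k = K)) ⊆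
          (𝒥.filter (fun t => yU nu' be bk t = K)) := by
        intro t ht
        rw [Finset.mem_filter] at ht ⊢
        refine ⟨hsub t ht.1, ?_⟩
        rw [← hKE t ht.1]
        exact ht.2
      have h5 := Finset.card_le_card this
      refine le_trans (le_of_eq ?_) (Nat.cast_le (α := ℝ).2 h5)
      congr) Wx (fun t ht => hWx t (hsub t ht)) S₀ hS₀ (by
      intro t ht l m hl hm hlm n₁ n₂ hn₁ hn₂
      obtain ⟨⟨f2, f3, r1, r2, r3, r4, r5, r6, r7, r8, r9, r10, r11⟩, -⟩ :=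
        hDZ t (hsub t ht) (Finset.mem_filter.1 ht).2
      obtain ⟨mv₁, mv₂, Sx, Bd, hSx, hBd, hSB, hx, hy⟩ := hyp t (hsub t ht) (F1 t) f2 f3 (DD t)
        (ZZ t) r1 r2 r3 r4 r5 r6 r7 r8 r9 r10 l m hl hm hlm n₁ n₂ hn₁ hn₂
      refine ⟨mv₁, mv₂, Sx, Bd, hSx, hBd, hSB, ?_, hy⟩
      intro E' hE' x₁ x₂ hxx
      refine le_trans (le_of_eq ?_) (hx E' (hE'.trans hsub') x₁ x₂ fun e' he' => ?_)
      · refine Finset.sum_congr rfl fun e he => ?_
        rw [hKE e (hE' he)]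
      · obtain ⟨t1, t2, t3⟩ := hxx e' he'
        refine ⟨t1, t2, ?_⟩
        rw [t3]
        obtain ⟨⟨f2, f3, r1, r2, r3, r4, r5, r6, r7, r8, r9⟩, -⟩ :=
          hDZ e' (hsub e' (hE' he')) (Finset.mem_filter.1 (hE' he')).2
        rw [r5, r6]
        exact ⟨F1 e' * f2, by ring⟩)
  refine key.trans ?_
  have e1 : T₀ = C₂ * X ^ (B₀ * ε') := by
    rw [hT₀, ← Real.rpow_mul hX0.le]
  rw [e1]
  have h5 : X ^ (B₀ * ε') ≤ X ^ (ε / 2) := by
    refine Real.rpow_le_rpow_of_exponent_le hX1 ?_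
    rw [hε']
    have e2 : B₀ * (ε / (2 * (B₀ + 1))) = ε / 2 * (B₀ / (B₀ + 1)) := by
      field_simp
    rw [e2]
    have h3 : B₀ / (B₀ + 1) ≤ 1 := by
      rw [div_le_one (by linarith)]; linarith
    nlinarith
  calc C₁ * X ^ (ε / 2) * (C₂ * X ^ (B₀ * ε')) * S₀
      ≤ C₁ * X ^ (ε / 2) * (C₂ * X ^ (ε / 2)) * S₀ := by gcongr
    _ = C₁ * C₂ * (X ^ (ε / 2) * X ^ (ε / 2)) * S₀ := by ring
    _ = C₁ * C₂ * X ^ ε * S₀ := by
        rw [← Real.rpow_add hX0]; congr 3; ring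

end Crest.Agent.R017.YsM61
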