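import Crest.Agent.R017.JxN_679
import Crest.Agent.R017.E4RH_858
import Crest.Agent.R017.YsN_61

/-!
# Row 17, C70/E4 (version 7), the `x`-side: the bracket of `ys_moveB` (helper679)

* `pkP`, `px_pf` : the `x`-prefix of `(o, D1, b₁)` at the prefix `P` (helper858's `pf`)
* `size_E` : `N(D1 z Z Z')` from the support of the `y`-side
* `hx_br` : the `x`-bracket of helper61's `ys_moveB` from one moment per `(D1, b₁)`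
* `hx_br0` : the same without moved pieces
-/

set_option autoImplicit false

noncomputable section

open Complex Finset
open scoped ComplexConjugate Classical

namespace Crest.Agent.R017.JxP679

open Crest.Agent.R012 Crest.Agent.R012.Eis Crest.Agent.R012.Mob705
open Crest.Agent.R012.Div277
open Crest.Agent.R012.PSer47 (IsChar)
open Crest.Agent.R017.Sx545 (Sm)
open Crest.Agent.R017.C70 (CbF)
open Crest.Agent.R017.CM106 (CS FS)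
open Crest.Agent.R017.FE47 (PU)
open Crest.Agent.R017.HP842 (Pc pc)
open Crest.Agent.R017.End699 (HC)
open Crest.Agent.R017.B770 (DPar)
open Crest.Agent.R017.Prov71
open Crest.Agent.R017.E4352
open Crest.Agent.R017.E4J352
open Crest.Agent.R017.E4D164 (ww mulw pu cb)
open Crest.Agent.R017.E4Yb792 (tP tP_OK)
open Crest.Agent.R017.E4y92 (Dk)
open Crest.Agent.R017.E4RH858 (Pf pf Facts ext_pf)
open Crest.Agent.R017.YsM61 (yU)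
open Crest.Agent.R017.JyF744 (nu2)
open Crest.Agent.R017.JxG679 Crest.Agent.R017.JxH679 Crest.Agent.R017.JxM679
open Crest.Agent.R017.JxL679 Crest.Agent.R017.JxN679

/-- the `x`-prefix of `(o, D1, b₁)` -/
def pkP {O : Type} (P : Pf) (o : O) (D b : Eis) : Px O := ⟨o, D, P.B, b ^ 2 * P.b, P.R * P.R'⟩

lemma px_pf {O : Type} {M : Eis} {t : Tm O} (h : Facts M t) {P : Pf} (hp : pf t = P) :
    px t = pkP P t.o t.D1 (E4RH858.b1 t) := by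
  subst hp
  unfold px pkP
  rw [h.D0, one_mul, ← h.b]
  rfl

/-- `N(D1 z Z Z')` -/
lemma size_E {O : Type} {M e₀ z ν : Eis} (he₀ : IsPrim e₀) {b₁ b₂ : Eis → ℂ}
    {L : Finset (Eis × Eis)} {t : Tm O} {w : O → Eis → ℂ} {G : Eis → ℂ}
    (hw : w t.o = mulw e₀ (ww M b₁ b₂ L z ν)) (hy : t.ys w G ≠ 0) {Yw : ℝ}
    (hL : ∀ p ∈ L, b₁ p.1 ≠ 0 → b₂ p.2 ≠ 0 → (nm (p.1 * p.2 ^ 2) : ℝ) ≤ Yw) :
    (nm (t.D1 * (z * (t.Z * t.Z'))) : ℝ) ≤ nm e₀ * Yw := by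
  obtain ⟨y, -, -, h3⟩ := JxG679.ys_ne hy
  rw [hw] at h3
  obtain ⟨x, h4, h5⟩ := E4D164.mulw_ne he₀.ne_zero h3
  obtain ⟨h6, p, hp, h7, h8⟩ := E4D164.pu_ne h5
  have hb1 : b₁ p.1 ≠ 0 := by
    intro h0
    apply h8
    unfold cb
    rw [h0]
    simp
  have hb2 : b₂ p.2 ≠ 0 := by
    intro h0
    apply h8
    unfold cb
    rw [h0]
    simp
  have h9 := hL p hp hb1 hb2
  have hx0 : x ≠ 0 := h6.ne_zero
  have hY : t.D1 * (t.Z * t.Z' * y) ≠ 0 := by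
    rw [h4]
    exact mul_ne_zero he₀.ne_zero hx0
  have hy0 : y ≠ 0 := right_ne_zero_of_mul (right_ne_zero_of_mul hY)
  have e1 : t.D1 * (z * (t.Z * t.Z')) * y = e₀ * (p.1 * p.2 ^ 2) := by
    have e2 : t.D1 * (z * (t.Z * t.Z')) * y = z * (t.D1 * (t.Z * t.Z' * y)) := by ring
    rw [e2, h4, h7]
    ring
  have e3 : (nm (t.D1 * (z * (t.Z * t.Z'))) : ℝ) ≤ nm (t.D1 * (z * (t.Z * t.Z')) * y) := by
    exact_mod_cast nm_left_le hy0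
  rw [e1] at e3
  refine e3.trans ?_
  rw [nm_mul]
  push_cast
  exact mul_le_mul_of_nonneg_left h9 (Nat.cast_nonneg _)

lemma pcOK {P : DPar} (hP : ∀ k : Kd, IsChar (chK P k)) (p : Pq) : (p.pc P).OK where
  ch := by
    have h1 := hP p.kd
    exact h1.mul' (HP842.prin0_isChar p.d)
  Y0 := Real.exp_pos _

lemma tP_Y_le {θ : Eis → ℂ} {ξ : ℝ} {P : DPar} {p : Pq} {x : Eis} {n : ℕ} (hx : IsPrim x)
    (h : (n : ℝ) ≤ Real.log (nm x)) : (tP θ ξ (p.pc P) x).Y ≤ Real.exp (p.z - n) := by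
  have h0 : (0 : ℝ) < nm x := by exact_mod_cast nm_pos.mpr hx.ne_zero
  have h1 : Real.exp n ≤ nm x := by
    rw [← Real.exp_log h0]
    exact Real.exp_le_exp.mpr h
  show Real.exp p.z / nm x ≤ Real.exp (p.z - n)
  rw [Real.exp_sub]
  exact div_le_div_of_nonneg_left (Real.exp_pos _).le (Real.exp_pos _) h1

lemma exp_sum_prod {ι : Type*} (s : Finset ι) (f : ι → ℝ) :
    Real.exp (∑ i ∈ s, f i) = ∏ i ∈ s, Real.exp (f i) := Real.exp_sum s f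

section br

variable {OO : Finset (Eis × Eis)}

/-- the hypotheses on the terms -/
structure TH (M : Eis) (lam : {x // x ∈ OO} → ℝ) (Y : ℝ) (cl : Win) (Pp : Pf) (z : Eis)
    (Oc : Finset {x // x ∈ OO}) (t : Tm {x // x ∈ OO}) : Prop where
  F : Facts M t
  ok : t.OK M 1
  cl : t.In lam cl
  pf : pf t = Pp
  o : t.o ∈ Oc
  D1 : (nm t.D1 : ℝ) ≤ Y
  b1 : (nm (E4RH858.b1 t) : ℝ) ≤ Y
  E : (nm (t.D1 * (z * (t.Z * t.Z'))) : ℝ) ≤ Y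

set_option maxHeartbeats 1000000 in
/-- **the `x`-bracket of `ys_moveB`** -/
theorem hx_br {h : ℝ → ℝ} {c₀ : ℝ} (hpu : PU h c₀) {ε : ℝ} (hε : 0 < ε) (N : ℕ) :
    ∃ C A₁ : ℝ, 1 ≤ C ∧ 1 ≤ A₁ ∧ ∀ {OO : Finset (Eis × Eis)} (M M' : Eis) (Y : ℝ), 1 ≤ Y →
    ∀ (P : DPar), (∀ k : Kd, IsChar (chK P k)) → ∀ (ps₁ ps₂ : List Pq), ps₁.length ≤ N →
    ps₂.length ≤ N → ∀ (η : Eis → ℂ) (j : ℤ) (ξ : ℝ), HC M' η → ∀ (Bq : Eis)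
    (lam : {x // x ∈ OO} → ℝ) (v : {x // x ∈ OO} → Eis → ℂ) (G : Eis → ℂ) (cl : Win)
    (Pp : Pf) (bk : Eis) (nu' : {x // x ∈ OO} → Eis) (z : Eis), z ≠ 0 →
    ∀ (Oc : Finset {x // x ∈ OO}) (𝒥 : Finset (Tm {x // x ∈ OO})) (Sx B : ℝ), 0 ≤ Sx →
    0 ≤ B → B ≤ Y → (∀ t ∈ 𝒥, TH M lam Y cl Pp z Oc t) →
    ∀ (n₁ : Fin ps₁.length → ℕ) (n₂ : Fin ps₂.length → ℕ) (mv₁ : Finset (Fin ps₁.length))
    (mv₂ : Finset (Fin ps₂.length)),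
    A₁ * Real.exp (∑ i ∈ mv₁, ((ps₁.get i).z - n₁ i) + ∑ i ∈ mv₂, ((ps₂.get i).z - n₂ i)) ≤ B →
    (∀ t ∈ 𝒥, ∀ bm : {x // x ∈ OO} → Eis → ℂ, (∀ o ∈ Oc, NatS B (C * Y ^ ε * B) (bm o)) →
      ∑ o ∈ Oc, ∑ k ∈ Dk M (2 ^ cl.nkk - 1 / 2), (nm k : ℝ)⁻¹ *
        (‖Sd ((pkP Pp o t.D1 (E4RH858.b1 t)).v' v G) k‖ ^ 2 * ‖CS (bm o) k‖ ^ 2) ≤ Sx) →
    ∀ E' ⊆ 𝒥, ∀ (x₁ : Tm {x // x ∈ OO} → Fin ps₁.length → Eis)
      (x₂ : Tm {x // x ∈ OO} → Fin ps₂.length → Eis),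
      (∀ e ∈ E', (∀ i, IsPrim (x₁ e i) ∧ (n₁ i : ℝ) ≤ Real.log (nm (x₁ e i)) ∧
          Real.log (nm (x₁ e i)) < n₁ i + 1) ∧
        (∀ i, IsPrim (x₂ e i) ∧ (n₂ i : ℝ) ≤ Real.log (nm (x₂ e i)) ∧
          Real.log (nm (x₂ e i)) < n₂ i + 1) ∧
        (∏ i, x₁ e i) * (∏ i, x₂ e i) ^ 2 ∣ e.D1 * (z * (e.Z * e.Z'))) →
      ∑ e ∈ E', ((nm (e.D1 * E4RH858.b1 e) : ℝ) ^ (-(1 / 2) : ℝ) *
          ((lam e.o * nm e.k)⁻¹ * ‖e.xs v G‖)) ^ 2 *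
        ((∏ i ∈ mv₁, ‖CS (pc h (tP (E4Yb792.th1 M Bq η j) ξ ((ps₁.get i).pc P) (x₁ e i)))
            (yU nu' E4RH858.b1 bk e)‖ ^ 2) *
          ∏ i ∈ mv₂, ‖CS (pc h (tP (E4Yb792.th2 M Bq η j) (-2 * ξ) ((ps₂.get i).pc P)
            (x₂ e i))) (yU nu' E4RH858.b1 bk e)‖ ^ 2) ≤
        C * Y ^ ε * (2 ^ cl.nkk / (2 ^ cl.nk) ^ 2 * Sx) := by
  obtain ⟨C, A₁, hC, hA₁, H⟩ := hxG2 hpu hε N
  refine ⟨C, A₁, hC, hA₁, ?_⟩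
  intro OO M M' Y hY P hP ps₁ ps₂ hl₁ hl₂ η j ξ hη Bq lam v G cl Pp bk nu' z hz Oc 𝒥 Sx B hSx hB
    hBY hJ n₁ n₂ mv₁ mv₂ hWB hX E' hE' x₁ x₂ hx
  have hY0 : 0 < Y := by linarith
  have hκ : (0 : ℝ) < 2 ^ cl.nkk - 1 / 2 := by
    have : (1 : ℝ) ≤ 2 ^ cl.nkk := one_le_pow₀ (by norm_num)
    linarith
  have hL : (0 : ℝ) < 2 ^ cl.nk := by positivity
  have hth1 := E4Yb792.isChar_th1 (M := M) (q := Bq) hη j
  have hth2 := E4Yb792.isChar_th2 (M := M) (q := Bq) hη j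
  have key := H M Y hY lam v G (2 ^ cl.nkk - 1 / 2) (2 ^ cl.nk) Sx B hκ hL hSx hB hBY Oc E'
    E4RH858.b1 (pkP Pp) ps₁.length ps₂.length hl₁ hl₂ x₁ x₂
    (fun D b => D * (z * (Pp.Z * (b * Pp.Z'))))
    (fun o D b => nu' o * D ^ 2 * (b ^ 2 * bk))
    (fun i y => tP (E4Yb792.th1 M Bq η j) ξ ((ps₁.get i).pc P) y)
    (fun i y => tP (E4Yb792.th2 M Bq η j) (-2 * ξ) ((ps₂.get i).pc P) y) mv₁ mv₂
    (fun i => Real.exp ((ps₁.get i).z - n₁ i)) (fun i => Real.exp ((ps₂.get i).z - n₂ i))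
    (fun i y hy => tP_OK hth1 ξ (pcOK hP _) hy) (fun i y hy => tP_OK hth2 _ (pcOK hP _) hy)
    (by
      rw [← Real.exp_sum, ← Real.exp_sum, ← Real.exp_add]
      exact hWB)
    (fun t ht => ⟨(hJ t (hE' ht)).o, fun i _ => tP_Y_le ((hx t ht).1 i).1 ((hx t ht).1 i).2.1,
      fun i _ => tP_Y_le ((hx t ht).2.1 i).1 ((hx t ht).2.1 i).2.1⟩)
    (fun t ht => by
      have ht' := hE' ht
      have g := hJ t ht'
      have eE : t.D1 * (z * (Pp.Z * (E4RH858.b1 t * Pp.Z'))) =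
          t.D1 * (z * (t.Z * t.Z')) := by
        have h1 := g.F.Z'
        rw [h1, ← g.pf]
        rfl
      have hne : t.D1 * (z * (t.Z * t.Z')) ≠ 0 :=
        mul_ne_zero g.ok.pD1.ne_zero (mul_ne_zero hz
          (mul_ne_zero g.ok.pZ.1.ne_zero g.ok.pZ'.1.ne_zero))
      refine ⟨px_pf g.F g.pf, kw_of_in g.ok g.cl.hkk, g.cl.hk.1, ⟨g.ok.pD1, g.D1⟩,
        ⟨E4RH858.prim_b1 t, g.b1⟩, ⟨fun i => ((hx t ht).1 i).1, fun i => ((hx t ht).2.1 i).1⟩,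
        ⟨fun i => ?_, fun i => ?_⟩, ?_, ?_⟩
      · rw [eE]
        exact ((dvd_prod_of_mem _ (mem_univ i)).mul_right _).trans (hx t ht).2.2
      · rw [eE]
        refine (((dvd_prod_of_mem _ (mem_univ i)).trans
          (dvd_pow_self _ two_ne_zero)).mul_left _).trans (hx t ht).2.2
      · rw [eE]
        exact hne
      · rw [eE]
        exact g.E)
    (fun t ht t' ht' h1 h2 h3 h4 => ext_pf (hJ t (hE' ht)).F (hJ t' (hE' ht')).F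
      ((hJ t (hE' ht)).pf.trans (hJ t' (hE' ht')).pf.symm) h1 h2 h3 h4)
    (fun t ht => hX t (hE' ht))
  have e1 : ∀ e ∈ E', ((nm (e.D1 * E4RH858.b1 e) : ℝ) ^ (-(1 / 2) : ℝ) *
          ((lam e.o * nm e.k)⁻¹ * ‖e.xs v G‖)) ^ 2 *
        ((∏ i ∈ mv₁, ‖CS (pc h (tP (E4Yb792.th1 M Bq η j) ξ ((ps₁.get i).pc P) (x₁ e i)))
            (yU nu' E4RH858.b1 bk e)‖ ^ 2) *
          ∏ i ∈ mv₂, ‖CS (pc h (tP (E4Yb792.th2 M Bq η j) (-2 * ξ) ((ps₂.get i).pc P)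
            (x₂ e i))) (yU nu' E4RH858.b1 bk e)‖ ^ 2) =
      (nm (e.D1 * E4RH858.b1 e) : ℝ)⁻¹ * ((lam e.o * nm e.k)⁻¹ ^ 2 * (‖e.xs v G‖ ^ 2 *
        ((∏ i ∈ mv₁, ‖CS (pc h (tP (E4Yb792.th1 M Bq η j) ξ ((ps₁.get i).pc P) (x₁ e i)))
            (e.k * (nu' e.o * e.D1 ^ 2 * (E4RH858.b1 e ^ 2 * bk)))‖ ^ 2) *
          ∏ i ∈ mv₂, ‖CS (pc h (tP (E4Yb792.th2 M Bq η j) (-2 * ξ) ((ps₂.get i).pc P)
            (x₂ e i))) (e.k * (nu' e.o * e.D1 ^ 2 * (E4RH858.b1 e ^ 2 * bk)))‖ ^ 2))) := by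
    intro e _
    have e2 : yU nu' E4RH858.b1 bk e =
        e.k * (nu' e.o * e.D1 ^ 2 * (E4RH858.b1 e ^ 2 * bk)) := by
      unfold yU E4Yb792.KG
      ring
    have e3 : ((nm (e.D1 * E4RH858.b1 e) : ℝ) ^ (-(1 / 2) : ℝ)) ^ 2 =
        (nm (e.D1 * E4RH858.b1 e) : ℝ)⁻¹ := by
      rw [← Real.rpow_natCast, ← Real.rpow_mul (Nat.cast_nonneg _)]
      norm_num
      exact Real.rpow_neg_one _
    rw [e2, mul_pow, e3, mul_pow]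
    ring
  rw [sum_congr rfl e1]
  refine key.trans ?_
  refine mul_le_mul_of_nonneg_left (mul_le_mul_of_nonneg_right ?_ hSx) (by positivity)
  exact div_le_div_of_nonneg_right (by linarith) (by positivity)

/-- **the `x`-bracket without moved pieces** -/
theorem hx_br0 {ε : ℝ} (hε : 0 < ε) : ∃ C : ℝ, 1 ≤ C ∧ ∀ {O : Type} [Fintype O] (M : Eis)
    (Y : ℝ), 1 ≤ Y → ∀ (lam : O → ℝ) (v : O → Eis → ℂ) (G : Eis → ℂ) (cl : Win) (Pp : Pf)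
    (Oc : Finset O) (𝒥 : Finset (Tm O)) (Sx : ℝ), 0 ≤ Sx →
    (∀ t ∈ 𝒥, Facts M t ∧ t.OK M 1 ∧ t.In lam cl ∧ pf t = Pp ∧ t.o ∈ Oc ∧
      (nm t.D1 : ℝ) ≤ Y ∧ (nm (E4RH858.b1 t) : ℝ) ≤ Y) →
    (∀ t ∈ 𝒥, ∑ o ∈ Oc, ∑ k ∈ Dk M (2 ^ cl.nkk - 1 / 2), (nm k : ℝ)⁻¹ *
        ‖Sd ((pkP Pp o t.D1 (E4RH858.b1 t)).v' v G) k‖ ^ 2 ≤ Sx) →
    ∀ E' ⊆ 𝒥, ∑ e ∈ E', ((nm (e.D1 * E4RH858.b1 e) : ℝ) ^ (-(1 / 2) : ℝ) *
          ((lam e.o * nm e.k)⁻¹ * ‖e.xs v G‖)) ^ 2 ≤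
        C * Y ^ ε * (2 ^ cl.nkk / (2 ^ cl.nk) ^ 2 * Sx) := by
  obtain ⟨C, hC, H⟩ := hxG0 hε
  refine ⟨C, hC, ?_⟩
  intro O _ M Y hY lam v G cl Pp Oc 𝒥 Sx hSx hJ hX E' hE'
  have hκ : (0 : ℝ) < 2 ^ cl.nkk - 1 / 2 := by
    have : (1 : ℝ) ≤ 2 ^ cl.nkk := one_le_pow₀ (by norm_num)
    linarith
  have hL : (0 : ℝ) < 2 ^ cl.nk := by positivity
  have key := H M Y hY lam v G (2 ^ cl.nkk - 1 / 2) (2 ^ cl.nk) Sx hκ hL hSx Oc E'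
    E4RH858.b1 (pkP Pp)
    (fun t ht => by
      obtain ⟨g1, g2, g3, g4, g5, g6, g7⟩ := hJ t (hE' ht)
      exact ⟨g5, px_pf g1 g4, kw_of_in g2 g3.hkk, g3.hk.1, ⟨g2.pD1, g6⟩,
        ⟨E4RH858.prim_b1 t, g7⟩⟩)
    (fun t ht t' ht' h1 h2 h3 h4 => ext_pf (hJ t (hE' ht)).1 (hJ t' (hE' ht')).1
      ((hJ t (hE' ht)).2.2.2.1.trans (hJ t' (hE' ht')).2.2.2.1.symm) h1 h2 h3 h4)
    (fun t ht => hX t (hE' ht))
  have e1 : ∀ e ∈ E', ((nm (e.D1 * E4RH858.b1 e) : ℝ) ^ (-(1 / 2) : ℝ) *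
          ((lam e.o * nm e.k)⁻¹ * ‖e.xs v G‖)) ^ 2 =
      (nm (e.D1 * E4RH858.b1 e) : ℝ)⁻¹ * ((lam e.o * nm e.k)⁻¹ ^ 2 * ‖e.xs v G‖ ^ 2) := by
    intro e _
    have e3 : ((nm (e.D1 * E4RH858.b1 e) : ℝ) ^ (-(1 / 2) : ℝ)) ^ 2 =
        (nm (e.D1 * E4RH858.b1 e) : ℝ)⁻¹ := by
      rw [← Real.rpow_natCast, ← Real.rpow_mul (Nat.cast_nonneg _)]
      norm_num
      exact Real.rpow_neg_one _
    rw [mul_pow, e3, mul_pow]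
  rw [sum_congr rfl e1]
  refine key.trans ?_
  have hY0 : 0 < Y := by linarith
  refine mul_le_mul_of_nonneg_left (mul_le_mul_of_nonneg_right ?_ hSx) (by positivity)
  exact div_le_div_of_nonneg_right (by linarith) (by positivity)

end br

end Crest.Agent.R017.JxP679
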