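import Crest.Agent.R017.JxP_679
import Crest.Agent.R017.E4Hs_679

/-!
# Row 17, C70/E4 (version 7), the `x`-side: the bracket at a frequency function (helper679)

* `hxGk`, `hxG2k` : `hxG`, `hxG2` over the moduli with a property `Pk`
* `CS_pc_cube` : a piece prime to `b0` does not see `b0³`
* `hx_brK` : the `x`-bracket with frequency `Kf t`, `Kf t b0³ = k ν D1² b₁² b~`, moduli with `Pk`
-/

set_option autoImplicit false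

noncomputable section

open Complex Finset
open scoped ComplexConjugate Classical

namespace Crest.Agent.R017.JxQ679

open Crest.Agent.R012 Crest.Agent.R012.Eis Crest.Agent.R012.Mob705
open Crest.Agent.R012.Div277
open Crest.Agent.R012.PSer47 (IsChar)
open Crest.Agent.R012.GaussLoc283 (syAx)
open Crest.Agent.R017.Sx545 (Sm)
open Crest.Agent.R017.C70 (CbF)
open Crest.Agent.R017.CM106 (CS FS)
open Crest.Agent.R017.FE47 (PU cx)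
open Crest.Agent.R017.HP842 (Pc pc FS_pc norm_uv_le)
open Crest.Agent.R017.End699 (HC prin0)
open Crest.Agent.R017.B770 (DPar)
open Crest.Agent.R017.Prov71
open Crest.Agent.R017.E4352
open Crest.Agent.R017.E4J352
open Crest.Agent.R017.E4Yb792 (tP tP_OK)
open Crest.Agent.R017.E4y92 (Dk)
open Crest.Agent.R017.E4RH858 (Pf pf Facts ext_pf)
open Crest.Agent.R017.JyF744 (nu2)
open Crest.Agent.R017.JxG679 Crest.Agent.R017.JxH679 Crest.Agent.R017.JxM679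
open Crest.Agent.R017.JxL679 Crest.Agent.R017.JxN679 Crest.Agent.R017.JxP679

/-- a piece prime to `b0` does not see `b0³` -/
lemma CS_pc_cube {h : ℝ → ℝ} {p : Pc} {b0 K : Eis}
    (hp : ∀ n, p.ψ n ≠ 0 → IsPrim n → IsCoprime n b0) :
    CS (pc h p) K = CS (pc h p) (K * b0 ^ 3) := by
  unfold CS
  refine tsum_congr fun n => ?_
  by_cases h0 : pc h p n = 0
  · rw [h0, zero_mul, zero_mul]
  · congr 1
    have hn : IsPrim n := by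
      by_contra h1
      apply h0
      unfold pc
      rw [if_neg h1]
    have hψ : p.ψ n ≠ 0 := by
      intro h1
      apply h0
      unfold pc
      rw [if_pos hn, h1]
      ring
    have hc := hp n hψ hn
    rw [Char766.sy_mul_left hn, Char766.sy_cube_left hn hc.symm, mul_one]

lemma th_cop {M Bq b0 n : Eis} (hb : b0 ∣ Bq) (h : prin0 (M * Bq) n ≠ 0) : IsCoprime n b0 := by
  unfold prin0 at h
  split_ifs at h with h1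
  · exact h1.of_mul_right_right.of_isCoprime_of_dvd_right hb
  · exact absurd rfl h

/-- **the `x`-side of a class with moved pieces**, moduli with `Pk` -/
theorem hxGk {h : ℝ → ℝ} {c : ℝ} (hpu : PU h c) {ε : ℝ} (hε : 0 < ε) (m : ℕ) :
    ∃ C A₁ : ℝ, 1 ≤ C ∧ 1 ≤ A₁ ∧ ∀ {O : Type} [Fintype O] (M : Eis) (Y : ℝ), 1 ≤ Y →
    ∀ (lam : O → ℝ) (v : O → Eis → ℂ) (G : Eis → ℂ) (κ L Sx B : ℝ), 0 < κ → 0 < L → 0 ≤ Sx →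
    0 ≤ B → B ≤ Y → ∀ (Pk : Eis → Prop) (Oc : Finset O) (𝒥 : Finset (Tm O)) (b1 : Tm O → Eis)
    (pk : O → Eis → Eis → Px O) (x : Tm O → Fin m → Eis) (E : Eis → Eis → Eis)
    (u : O → Eis → Eis → Eis) (q : Fin m → Eis → Pc) (mv : Finset (Fin m)) (W : Fin m → ℝ),
    (∀ i y, IsPrim y → (q i y).OK) → A₁ * ∏ i ∈ mv, W i ≤ B →
    (∀ t ∈ 𝒥, (t.o ∈ Oc ∧ Pk t.k) ∧ (∀ i ∈ mv, (q i (x t i)).Y ≤ W i)) →
    (∀ t ∈ 𝒥, px t = pk t.o t.D1 (b1 t) ∧ Kw M κ t.k ∧ L ≤ lam t.o * nm t.k ∧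
      (IsPrim t.D1 ∧ (nm t.D1 : ℝ) ≤ Y) ∧ (IsPrim (b1 t) ∧ (nm (b1 t) : ℝ) ≤ Y) ∧
      (∀ i, IsPrim (x t i)) ∧ (∀ i, x t i ∣ E t.D1 (b1 t)) ∧ E t.D1 (b1 t) ≠ 0 ∧
      (nm (E t.D1 (b1 t)) : ℝ) ≤ Y) →
    (∀ t ∈ 𝒥, ∀ t' ∈ 𝒥, t.o = t'.o → t.D1 = t'.D1 → b1 t = b1 t' → t.k = t'.k → t = t') →
    (∀ t ∈ 𝒥, ∀ bm : O → Eis → ℂ, (∀ o ∈ Oc, NatS B (C * Y ^ ε * B) (bm o)) →
      ∑ o ∈ Oc, ∑ k ∈ (Dk M κ).filter Pk, (nm k : ℝ)⁻¹ *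
        (‖Sd ((pk o t.D1 (b1 t)).v' v G) k‖ ^ 2 * ‖CS (bm o) k‖ ^ 2) ≤ Sx) →
    ∑ t ∈ 𝒥, (nm (t.D1 * b1 t) : ℝ)⁻¹ * ((lam t.o * nm t.k)⁻¹ ^ 2 * (‖t.xs v G‖ ^ 2 *
      ∏ i ∈ mv, ‖CS (pc h (q i (x t i))) (t.k * u t.o t.D1 (b1 t))‖ ^ 2)) ≤
      C * Y ^ ε * (κ / L ^ 2 * Sx) := by
  obtain ⟨A, R, hA, hR, hR', hpc⟩ := pc_facts hpu
  obtain ⟨C1, A₁, hC1, hA₁, h1⟩ := natS_bmv hpu hε m
  obtain ⟨C2, hC2, h2⟩ := hx_of hε m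
  refine ⟨max C1 C2, A₁, hC1.trans (le_max_left _ _), hA₁, ?_⟩
  intro O _ M Y hY lam v G κ L Sx B hκ hL hSx hB hBY Pk Oc 𝒥 b1 pk x E u q mv W hq hWB hJ1 hJ hinj hX
  have hY0 : 0 < Y := by linarith
  obtain ⟨bmf, hbmf⟩ : ∃ bmf : O → Eis → Eis → (Fin m → Eis) → Eis → ℂ, bmf =
      fun o D b ξ => bmv mv (fun i => pc h (q i (ξ i))) (u o D b) := ⟨_, rfl⟩
  obtain ⟨Hh, hHh⟩ : ∃ Hh : O → Eis → Eis → (Fin m → Eis) → Eis → ℝ, Hh =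
      fun o D b ξ k => if o ∈ Oc ∧ Pk k then ‖CS (bmf o D b ξ) k‖ ^ 2 else 0 := ⟨_, rfl⟩
  have hHh0 : ∀ o D b ξ k, 0 ≤ Hh o D b ξ k := fun o D b ξ k => by
    rw [hHh]
    simp only
    split_ifs
    · positivity
    · exact le_rfl
  have key : ∀ t ∈ 𝒥, ∑ o, ∑ k ∈ Dk M κ, (nm k : ℝ)⁻¹ *
      (‖Sd ((pk o t.D1 (b1 t)).v' v G) k‖ ^ 2 * Hh o t.D1 (b1 t) (x t) k) ≤ Sx := by
    intro t ht
    obtain ⟨-, -, -, -, -, p5, -⟩ := hJ t ht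
    have e1 : ∑ o, ∑ k ∈ Dk M κ, (nm k : ℝ)⁻¹ *
        (‖Sd ((pk o t.D1 (b1 t)).v' v G) k‖ ^ 2 * Hh o t.D1 (b1 t) (x t) k) =
        ∑ o ∈ Oc, ∑ k ∈ (Dk M κ).filter Pk, (nm k : ℝ)⁻¹ *
        (‖Sd ((pk o t.D1 (b1 t)).v' v G) k‖ ^ 2 *
          ‖CS (bmf o t.D1 (b1 t) (x t)) k‖ ^ 2) := by
      symm
      rw [← sum_subset (subset_univ Oc)]
      · refine sum_congr rfl fun o ho => ?_
        rw [sum_filter]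
        refine sum_congr rfl fun k _ => ?_
        rw [hHh]
        simp only
        by_cases hk : Pk k
        · rw [if_pos hk, if_pos ⟨ho, hk⟩]
        · rw [if_neg hk, if_neg (fun h' => hk h'.2)]
          ring
      · intro o _ ho
        refine sum_eq_zero fun k _ => ?_
        rw [hHh]
        simp only
        rw [if_neg (fun h' => ho h'.1)]
        ring
    rw [e1]
    refine hX t ht (fun o => bmf o t.D1 (b1 t) (x t)) fun o ho => ?_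
    have h3 := h1 Y B hY hB hBY mv (fun i => q i (x t i)) W (fun i _ => hq i _ (p5 i))
      (hJ1 t ht).2 hWB (u o t.D1 (b1 t))
    rw [hbmf]
    simp only
    refine ⟨h3.supp, fun s hs => (h3.mom s hs).trans ?_, fun n => (h3.bd n).trans ?_⟩
    · refine div_le_div_of_nonneg_right ?_ (Nat.cast_nonneg _)
      refine mul_le_mul_of_nonneg_right (mul_le_mul_of_nonneg_right (le_max_left _ _)
        (by positivity)) hB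
    · refine mul_le_mul_of_nonneg_right (mul_le_mul_of_nonneg_right (le_max_left _ _)
        (by positivity)) hB
  have fin := h2 M Y hY lam v G κ L Sx hκ hL hSx 𝒥 b1 pk x E Hh hHh0 hJ hinj key
  have e3 : ∑ t ∈ 𝒥, (nm (t.D1 * b1 t) : ℝ)⁻¹ * ((lam t.o * nm t.k)⁻¹ ^ 2 *
      (‖t.xs v G‖ ^ 2 *
        ∏ i ∈ mv, ‖CS (pc h (q i (x t i))) (t.k * u t.o t.D1 (b1 t))‖ ^ 2)) =
      ∑ t ∈ 𝒥, (nm (t.D1 * b1 t) : ℝ)⁻¹ * ((lam t.o * nm t.k)⁻¹ ^ 2 *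
      (‖t.xs v G‖ ^ 2 * Hh t.o t.D1 (b1 t) (x t) t.k)) := by
    refine sum_congr rfl fun t ht => ?_
    obtain ⟨-, -, -, -, -, p5, -⟩ := hJ t ht
    rw [hHh]
    simp only
    rw [if_pos (hJ1 t ht).1]
    rw [hbmf]
    simp only
    rw [norm_CS_bmv_sq (fun i _ => FS_pc hR' (hq i _ (p5 i)))]
  rw [e3]
  refine fin.trans ?_
  exact mul_le_mul_of_nonneg_right (mul_le_mul_of_nonneg_right (le_max_right _ _)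
    (by positivity)) (by positivity)

/-- **two lists of moved pieces, one constant for all lengths `≤ N`**, moduli with `Pk` -/
theorem hxG2k {h : ℝ → ℝ} {c : ℝ} (hpu : PU h c) {ε : ℝ} (hε : 0 < ε) (N : ℕ) :
    ∃ C A₁ : ℝ, 1 ≤ C ∧ 1 ≤ A₁ ∧ ∀ {O : Type} [Fintype O] (M : Eis) (Y : ℝ), 1 ≤ Y →
    ∀ (lam : O → ℝ) (v : O → Eis → ℂ) (G : Eis → ℂ) (κ L Sx B : ℝ), 0 < κ → 0 < L → 0 ≤ Sx →
    0 ≤ B → B ≤ Y → ∀ (Pk : Eis → Prop) (Oc : Finset O) (𝒥 : Finset (Tm O)) (b1 : Tm O → Eis)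
    (pk : O → Eis → Eis → Px O) (m₁ m₂ : ℕ), m₁ ≤ N → m₂ ≤ N →
    ∀ (x₁ : Tm O → Fin m₁ → Eis) (x₂ : Tm O → Fin m₂ → Eis) (E : Eis → Eis → Eis)
    (u : O → Eis → Eis → Eis) (q₁ : Fin m₁ → Eis → Pc) (q₂ : Fin m₂ → Eis → Pc)
    (mv₁ : Finset (Fin m₁)) (mv₂ : Finset (Fin m₂)) (W₁ : Fin m₁ → ℝ) (W₂ : Fin m₂ → ℝ),
    (∀ i y, IsPrim y → (q₁ i y).OK) → (∀ i y, IsPrim y → (q₂ i y).OK) →
    A₁ * ((∏ i ∈ mv₁, W₁ i) * ∏ i ∈ mv₂, W₂ i) ≤ B →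
    (∀ t ∈ 𝒥, (t.o ∈ Oc ∧ Pk t.k) ∧ (∀ i ∈ mv₁, (q₁ i (x₁ t i)).Y ≤ W₁ i) ∧
      (∀ i ∈ mv₂, (q₂ i (x₂ t i)).Y ≤ W₂ i)) →
    (∀ t ∈ 𝒥, px t = pk t.o t.D1 (b1 t) ∧ Kw M κ t.k ∧ L ≤ lam t.o * nm t.k ∧
      (IsPrim t.D1 ∧ (nm t.D1 : ℝ) ≤ Y) ∧ (IsPrim (b1 t) ∧ (nm (b1 t) : ℝ) ≤ Y) ∧
      ((∀ i, IsPrim (x₁ t i)) ∧ ∀ i, IsPrim (x₂ t i)) ∧
      ((∀ i, x₁ t i ∣ E t.D1 (b1 t)) ∧ ∀ i, x₂ t i ∣ E t.D1 (b1 t)) ∧ E t.D1 (b1 t) ≠ 0 ∧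
      (nm (E t.D1 (b1 t)) : ℝ) ≤ Y) →
    (∀ t ∈ 𝒥, ∀ t' ∈ 𝒥, t.o = t'.o → t.D1 = t'.D1 → b1 t = b1 t' → t.k = t'.k → t = t') →
    (∀ t ∈ 𝒥, ∀ bm : O → Eis → ℂ, (∀ o ∈ Oc, NatS B (C * Y ^ ε * B) (bm o)) →
      ∑ o ∈ Oc, ∑ k ∈ (Dk M κ).filter Pk, (nm k : ℝ)⁻¹ *
        (‖Sd ((pk o t.D1 (b1 t)).v' v G) k‖ ^ 2 * ‖CS (bm o) k‖ ^ 2) ≤ Sx) →
    ∑ t ∈ 𝒥, (nm (t.D1 * b1 t) : ℝ)⁻¹ * ((lam t.o * nm t.k)⁻¹ ^ 2 * (‖t.xs v G‖ ^ 2 *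
      ((∏ i ∈ mv₁, ‖CS (pc h (q₁ i (x₁ t i))) (t.k * u t.o t.D1 (b1 t))‖ ^ 2) *
        ∏ i ∈ mv₂, ‖CS (pc h (q₂ i (x₂ t i))) (t.k * u t.o t.D1 (b1 t))‖ ^ 2))) ≤
      C * Y ^ ε * (κ / L ^ 2 * Sx) := by
  have H := fun m : ℕ => hxGk hpu hε m
  choose Cf Af hC hA H using H
  have e1 : ∀ m, m ≤ 2 * N → Cf m ≤ ∑ i ∈ range (2 * N + 1), Cf i := fun m hm =>
    single_le_sum (f := Cf) (fun i _ => zero_le_one.trans (hC i)) (mem_range.mpr (by omega))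
  have e2 : ∀ m, m ≤ 2 * N → Af m ≤ ∑ i ∈ range (2 * N + 1), Af i := fun m hm =>
    single_le_sum (f := Af) (fun i _ => zero_le_one.trans (hA i)) (mem_range.mpr (by omega))
  refine ⟨∑ i ∈ range (2 * N + 1), Cf i, ∑ i ∈ range (2 * N + 1), Af i,
    (hC 0).trans (e1 0 (by omega)), (hA 0).trans (e2 0 (by omega)), ?_⟩
  intro O _ M Y hY lam v G κ L Sx B hκ hL hSx hB hBY Pk Oc 𝒥 b1 pk m₁ m₂ hm₁ hm₂ x₁ x₂ E u q₁ q₂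
    mv₁ mv₂ W₁ W₂ hq₁ hq₂ hWB hJ1 hJ hinj hX
  have hm : m₁ + m₂ ≤ 2 * N := by omega
  have hY0 : 0 < Y := by linarith
  by_cases hne : 𝒥.Nonempty
  swap
  · rw [not_nonempty_iff_eq_empty] at hne
    rw [hne, sum_empty]
    have : 0 ≤ ∑ i ∈ range (2 * N + 1), Cf i := sum_nonneg fun i _ => zero_le_one.trans (hC i)
    positivity
  obtain ⟨t₀, ht₀⟩ := hne
  have hW0 : 0 ≤ (∏ i ∈ mv₁, W₁ i) * ∏ i ∈ mv₂, W₂ i := by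
    obtain ⟨-, -, -, -, -, ⟨p1, p2⟩, -⟩ := hJ t₀ ht₀
    refine mul_nonneg (prod_nonneg fun i hi => ?_) (prod_nonneg fun i hi => ?_)
    · exact (hq₁ i _ (p1 i)).Y0.le.trans ((hJ1 t₀ ht₀).2.1 i hi)
    · exact (hq₂ i _ (p2 i)).Y0.le.trans ((hJ1 t₀ ht₀).2.2 i hi)
  have eq1 : ∀ (i : Fin m₁) (ξ : Fin (m₁ + m₂) → Eis),
      jn q₁ q₂ (finSumFinEquiv (Sum.inl i)) = q₁ i := fun i ξ => jn_inl _ _ i
  have key := H (m₁ + m₂) M Y hY lam v G κ L Sx B hκ hL hSx hB hBY Pk Oc 𝒥 b1 pk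
    (fun t => jn (x₁ t) (x₂ t)) E u (jn q₁ q₂) (jm mv₁ mv₂) (jn W₁ W₂)
    (jn_all (p := fun g : Eis → Pc => ∀ y, IsPrim y → (g y).OK) hq₁ hq₂)
    (by
      rw [prod_jm]
      simp only [jn_inl, jn_inr]
      exact (mul_le_mul_of_nonneg_right (e2 _ hm) hW0).trans hWB)
    (fun t ht => ⟨(hJ1 t ht).1, mem_jm
      (p := fun i => (jn q₁ q₂ i (jn (x₁ t) (x₂ t) i)).Y ≤ jn W₁ W₂ i)
      (fun i hi => by
        rw [jn_inl, jn_inl, jn_inl]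
        exact (hJ1 t ht).2.1 i hi)
      (fun i hi => by
        rw [jn_inr, jn_inr, jn_inr]
        exact (hJ1 t ht).2.2 i hi)⟩)
    (fun t ht => by
      obtain ⟨p0, p1, p2, p3, p4, ⟨p5, p6⟩, ⟨p7, p8⟩, p9, p10⟩ := hJ t ht
      exact ⟨p0, p1, p2, p3, p4, jn_all (p := fun g => IsPrim g) p5 p6,
        jn_all (p := fun g => g ∣ E t.D1 (b1 t)) p7 p8, p9, p10⟩)
    hinj
    (fun t ht bm hbm => hX t ht bm fun o ho => NatS.mono (hbm o ho)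
      (mul_le_mul_of_nonneg_right (mul_le_mul_of_nonneg_right (e1 _ hm) (by positivity)) hB))
  have e3 : ∀ t ∈ 𝒥, (nm (t.D1 * b1 t) : ℝ)⁻¹ * ((lam t.o * nm t.k)⁻¹ ^ 2 * (‖t.xs v G‖ ^ 2 *
      ((∏ i ∈ mv₁, ‖CS (pc h (q₁ i (x₁ t i))) (t.k * u t.o t.D1 (b1 t))‖ ^ 2) *
        ∏ i ∈ mv₂, ‖CS (pc h (q₂ i (x₂ t i))) (t.k * u t.o t.D1 (b1 t))‖ ^ 2))) =
      (nm (t.D1 * b1 t) : ℝ)⁻¹ * ((lam t.o * nm t.k)⁻¹ ^ 2 * (‖t.xs v G‖ ^ 2 *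
      ∏ i ∈ jm mv₁ mv₂, ‖CS (pc h (jn q₁ q₂ i (jn (x₁ t) (x₂ t) i)))
        (t.k * u t.o t.D1 (b1 t))‖ ^ 2)) := by
    intro t _
    rw [prod_jm]
    simp only [jn_inl, jn_inr]
  rw [sum_congr rfl e3]
  refine key.trans ?_
  exact mul_le_mul_of_nonneg_right (mul_le_mul_of_nonneg_right (e1 _ hm) (by positivity))
    (by positivity)

section br


set_option maxHeartbeats 1000000 in
/-- **the `x`-bracket**, frequency `Kf t`, moduli with `Pk` -/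
theorem hx_brK {h : ℝ → ℝ} {c₀ : ℝ} (hpu : PU h c₀) {ε : ℝ} (hε : 0 < ε) (N : ℕ) :
    ∃ C A₁ : ℝ, 1 ≤ C ∧ 1 ≤ A₁ ∧ ∀ {OO : Finset (Eis × Eis)} (M M' : Eis) (Y : ℝ), 1 ≤ Y →
    ∀ (P : DPar), (∀ k : Kd, IsChar (chK P k)) → ∀ (ps₁ ps₂ : List Pq), ps₁.length ≤ N →
    ps₂.length ≤ N → ∀ (η : Eis → ℂ) (j : ℤ) (ξ : ℝ), HC M' η → ∀ (Bq b0 : Eis),
    b0 ∣ Bq → ∀ (lam : {x // x ∈ OO} → ℝ) (v : {x // x ∈ OO} → Eis → ℂ)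
    (G : Eis → ℂ) (cl : Win) (Pp : Pf) (bk : Eis) (Kf : Tm {x // x ∈ OO} → Eis) (z : Eis),
    z ≠ 0 → ∀ (Pk : Eis → Prop) (Oc : Finset {x // x ∈ OO}) (𝒥 : Finset (Tm {x // x ∈ OO}))
    (Sx B : ℝ), 0 ≤ Sx → 0 ≤ B → B ≤ Y →
    (∀ t ∈ 𝒥, TH M lam Y cl Pp z Oc t ∧ Pk t.k ∧
      Kf t * b0 ^ 3 = t.k * (nu2 t.o * t.D1 ^ 2 * (E4RH858.b1 t ^ 2 * bk))) →
    ∀ (n₁ : Fin ps₁.length → ℕ) (n₂ : Fin ps₂.length → ℕ) (mv₁ : Finset (Fin ps₁.length))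
    (mv₂ : Finset (Fin ps₂.length)),
    A₁ * Real.exp (∑ i ∈ mv₁, ((ps₁.get i).z - n₁ i) + ∑ i ∈ mv₂, ((ps₂.get i).z - n₂ i)) ≤ B →
    (∀ t ∈ 𝒥, ∀ bm : {x // x ∈ OO} → Eis → ℂ, (∀ o ∈ Oc, NatS B (C * Y ^ ε * B) (bm o)) →
      ∑ o ∈ Oc, ∑ k ∈ (Dk M (2 ^ cl.nkk - 1 / 2)).filter Pk, (nm k : ℝ)⁻¹ *
        (‖Sd ((pkP Pp o t.D1 (E4RH858.b1 t)).v' v G) k‖ ^ 2 * ‖CS (bm o) k‖ ^ 2) ≤ Sx) →
    ∀ E' ⊆ 𝒥, ∀ (x₁ : Tm {x // x ∈ OO} → Fin ps₁.length → Eis)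
      (x₂ : Tm {x // x ∈ OO} → Fin ps₂.length → Eis),
      (∀ e ∈ E', (∀ i, IsPrim (x₁ e i) ∧ (n₁ i : ℝ) ≤ Real.log (nm (x₁ e i)) ∧
          Real.log (nm (x₁ e i)) < n₁ i + 1) ∧
        (∀ i, IsPrim (x₂ e i) ∧ (n₂ i : ℝ) ≤ Real.log (nm (x₂ e i)) ∧
          Real.log (nm (x₂ e i)) < n₂ i + 1) ∧
        (∏ i, x₁ e i) * (∏ i, x₂ e i) ^ 2 ∣ e.D1 * (z * (e.Z * e.Z'))) →
      ∑ e ∈ E', ((nm (e.D1 * E4RH858.b1 e) : ℝ) ^ (-(1 / 2) : ℝ) *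
          ((lam e.o * nm e.k)⁻¹ * ‖e.xs v G‖)) ^ 2 *
        ((∏ i ∈ mv₁, ‖CS (pc h (tP (E4Yb792.th1 M Bq η j) ξ ((ps₁.get i).pc P) (x₁ e i)))
            (Kf e)‖ ^ 2) *
          ∏ i ∈ mv₂, ‖CS (pc h (tP (E4Yb792.th2 M Bq η j) (-2 * ξ) ((ps₂.get i).pc P)
            (x₂ e i))) (Kf e)‖ ^ 2) ≤
        C * Y ^ ε * (2 ^ cl.nkk / (2 ^ cl.nk) ^ 2 * Sx) := by
  obtain ⟨C, A₁, hC, hA₁, H⟩ := hxG2k hpu hε N
  refine ⟨C, A₁, hC, hA₁, ?_⟩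
  intro OO M M' Y hY P hP ps₁ ps₂ hl₁ hl₂ η j ξ hη Bq b0 hb0q lam v G cl Pp bk Kf z hz Pk Oc 𝒥
    Sx B hSx hB hBY hJ n₁ n₂ mv₁ mv₂ hWB hX E' hE' x₁ x₂ hx
  have hY0 : 0 < Y := by linarith
  have hκ : (0 : ℝ) < 2 ^ cl.nkk - 1 / 2 := by
    have : (1 : ℝ) ≤ 2 ^ cl.nkk := one_le_pow₀ (by norm_num)
    linarith
  have hL : (0 : ℝ) < 2 ^ cl.nk := by positivity
  have hth1 := E4Yb792.isChar_th1 (M := M) (q := Bq) hη j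
  have hth2 := E4Yb792.isChar_th2 (M := M) (q := Bq) hη j
  have key := H M Y hY lam v G (2 ^ cl.nkk - 1 / 2) (2 ^ cl.nk) Sx B hκ hL hSx hB hBY Pk Oc E'
    E4RH858.b1 (pkP Pp) ps₁.length ps₂.length hl₁ hl₂ x₁ x₂
    (fun D b => D * (z * (Pp.Z * (b * Pp.Z'))))
    (fun o D b => nu2 o * D ^ 2 * (b ^ 2 * bk))
    (fun i y => tP (E4Yb792.th1 M Bq η j) ξ ((ps₁.get i).pc P) y)
    (fun i y => tP (E4Yb792.th2 M Bq η j) (-2 * ξ) ((ps₂.get i).pc P) y) mv₁ mv₂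
    (fun i => Real.exp ((ps₁.get i).z - n₁ i)) (fun i => Real.exp ((ps₂.get i).z - n₂ i))
    (fun i y hy => tP_OK hth1 ξ (pcOK hP _) hy) (fun i y hy => tP_OK hth2 _ (pcOK hP _) hy)
    (by
      rw [← Real.exp_sum, ← Real.exp_sum, ← Real.exp_add]
      exact hWB)
    (fun t ht => ⟨⟨(hJ t (hE' ht)).1.o, (hJ t (hE' ht)).2.1⟩, fun i _ => tP_Y_le ((hx t ht).1 i).1 ((hx t ht).1 i).2.1,
      fun i _ => tP_Y_le ((hx t ht).2.1 i).1 ((hx t ht).2.1 i).2.1⟩)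
    (fun t ht => by
      have ht' := hE' ht
      have g := (hJ t ht').1
      have eE : t.D1 * (z * (Pp.Z * (E4RH858.b1 t * Pp.Z'))) =
          t.D1 * (z * (t.Z * t.Z')) := by
        have h1 := g.F.Z'
        rw [h1, ← g.pf]
        rfl
      have hne : t.D1 * (z * (t.Z * t.Z')) ≠ 0 :=
        mul_ne_zero g.ok.pD1.ne_zero (mul_ne_zero hz
          (mul_ne_zero g.ok.pZ.1.ne_zero g.ok.pZ'.1.ne_zero))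
      refine ⟨px_pf g.F g.pf, kw_of_in g.ok g.cl.hkk, g.cl.hk.1, ⟨g.ok.pD1, g.D1⟩,
        ⟨E4RH858.prim_b1 t, g.b1⟩, ⟨fun i => ((hx t ht).1 i).1, fun i => ((hx t ht).2.1 i).1⟩,
        ⟨fun i => ?_, fun i => ?_⟩, ?_, ?_⟩
      · rw [eE]
        exact ((dvd_prod_of_mem _ (mem_univ i)).mul_right _).trans (hx t ht).2.2
      · rw [eE]
        refine (((dvd_prod_of_mem _ (mem_univ i)).trans
          (dvd_pow_self _ two_ne_zero)).mul_left _).trans (hx t ht).2.2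
      · rw [eE]
        exact hne
      · rw [eE]
        exact g.E)
    (fun t ht t' ht' h1 h2 h3 h4 => ext_pf (hJ t (hE' ht)).1.F (hJ t' (hE' ht')).1.F
      ((hJ t (hE' ht)).1.pf.trans (hJ t' (hE' ht')).1.pf.symm) h1 h2 h3 h4)
    (fun t ht => hX t (hE' ht))
  have e1 : ∀ e ∈ E', ((nm (e.D1 * E4RH858.b1 e) : ℝ) ^ (-(1 / 2) : ℝ) *
          ((lam e.o * nm e.k)⁻¹ * ‖e.xs v G‖)) ^ 2 *
        ((∏ i ∈ mv₁, ‖CS (pc h (tP (E4Yb792.th1 M Bq η j) ξ ((ps₁.get i).pc P) (x₁ e i)))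
            (Kf e)‖ ^ 2) *
          ∏ i ∈ mv₂, ‖CS (pc h (tP (E4Yb792.th2 M Bq η j) (-2 * ξ) ((ps₂.get i).pc P)
            (x₂ e i))) (Kf e)‖ ^ 2) =
      (nm (e.D1 * E4RH858.b1 e) : ℝ)⁻¹ * ((lam e.o * nm e.k)⁻¹ ^ 2 * (‖e.xs v G‖ ^ 2 *
        ((∏ i ∈ mv₁, ‖CS (pc h (tP (E4Yb792.th1 M Bq η j) ξ ((ps₁.get i).pc P) (x₁ e i)))
            (e.k * (nu2 e.o * e.D1 ^ 2 * (E4RH858.b1 e ^ 2 * bk)))‖ ^ 2) *
          ∏ i ∈ mv₂, ‖CS (pc h (tP (E4Yb792.th2 M Bq η j) (-2 * ξ) ((ps₂.get i).pc P)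
            (x₂ e i))) (e.k * (nu2 e.o * e.D1 ^ 2 * (E4RH858.b1 e ^ 2 * bk)))‖ ^ 2))) := by
    intro e he
    have e2 : ∀ p : Pc, (∀ n, p.ψ n ≠ 0 → IsPrim n → IsCoprime n b0) → CS (pc h p) (Kf e) =
        CS (pc h p) (e.k * (nu2 e.o * e.D1 ^ 2 * (E4RH858.b1 e ^ 2 * bk))) := by
      intro p hp
      rw [← (hJ e (hE' he)).2.2]
      exact CS_pc_cube hp
    have f1 : ∀ i, CS (pc h (tP (E4Yb792.th1 M Bq η j) ξ ((ps₁.get i).pc P) (x₁ e i))) (Kf e) =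
        CS (pc h (tP (E4Yb792.th1 M Bq η j) ξ ((ps₁.get i).pc P) (x₁ e i)))
          (e.k * (nu2 e.o * e.D1 ^ 2 * (E4RH858.b1 e ^ 2 * bk))) := fun i => e2 _ (by
      intro n hn hnp
      have h1 : E4Yb792.th1 M Bq η j n ≠ 0 := right_ne_zero_of_mul hn
      exact th_cop hb0q (left_ne_zero_of_mul h1))
    have f2 : ∀ i, CS (pc h (tP (E4Yb792.th2 M Bq η j) (-2 * ξ) ((ps₂.get i).pc P)
          (x₂ e i))) (Kf e) =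
        CS (pc h (tP (E4Yb792.th2 M Bq η j) (-2 * ξ) ((ps₂.get i).pc P) (x₂ e i)))
          (e.k * (nu2 e.o * e.D1 ^ 2 * (E4RH858.b1 e ^ 2 * bk))) := fun i => e2 _ (by
      intro n hn hnp
      have h1 : E4Yb792.th2 M Bq η j n ≠ 0 := right_ne_zero_of_mul hn
      exact th_cop hb0q (left_ne_zero_of_mul h1))
    have e3 : ((nm (e.D1 * E4RH858.b1 e) : ℝ) ^ (-(1 / 2) : ℝ)) ^ 2 =
        (nm (e.D1 * E4RH858.b1 e) : ℝ)⁻¹ := by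
      rw [← Real.rpow_natCast, ← Real.rpow_mul (Nat.cast_nonneg _)]
      norm_num
      exact Real.rpow_neg_one _
    simp only [f1, f2]
    rw [mul_pow, e3, mul_pow]
    ring
  rw [sum_congr rfl e1]
  refine key.trans ?_
  refine mul_le_mul_of_nonneg_left (mul_le_mul_of_nonneg_right ?_ hSx) (by positivity)
  exact div_le_div_of_nonneg_right (by linarith) (by positivity)

end br

end Crest.Agent.R017.JxQ679
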