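import Crest.Agent.R017.JxS_679

/-!
# Row 17, C70/E4 (version 7), the `x`-side: one moment in the large sieve range (helper679)

* `xv_HBS` : one `(D, b)` of a class, fixed square part, with a natural factor
* `xv_HBS0` : without the factor
* `sk_dvd`, `sk_sq_le`, `sk_cube` : the square part of a nonzero term
-/

set_option autoImplicit false

noncomputable section

open Complex Finset
open scoped ComplexConjugate Classical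

namespace Crest.Agent.R017.JxR679

open Crest.Agent.R012 Crest.Agent.R012.Eis
open Crest.Agent.R012.Mob705 (pp mem_pp IsPP prod_pp)
open Crest.Agent.R012.LS2 (S mem_S)
open Crest.Agent.R017.C70 (CbF)
open Crest.Agent.R017.CM106 (CS FS)
open Crest.Agent.R017.E1551 (nmpos nm_ge_one)
open Crest.Agent.R017.E4352
open Crest.Agent.R017.E4o502 (vD)
open Crest.Agent.R017.E4J352
open Crest.Agent.R017.E4y92 (Dk)
open Crest.Agent.R017.E4RH858 (Pf pf Facts)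
open Crest.Agent.R017.E4579 (SupB bpt bco bpt_prim bpt_sup bpt_dvd bpt_mul bpt_mul_bco bco_cop
  bco_prim bpt_eq)
open Crest.Agent.R017.GHB842 (sig_of)
open Crest.Agent.R017.JxB679 (Ex Ex_nonneg Dk_sub)
open Crest.Agent.R017.JxG679 Crest.Agent.R017.JxL679 Crest.Agent.R017.JxP679
open Crest.Agent.R017.JxS679

/-- the `δ` of the class -/
def Dd (V P σ : ℝ) : Finset Eis := (S V).filter (fun δ => σ * P * (nm δ : ℝ) ^ 2 ≤ V)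

lemma cop_of_primes {P g₀ S₀ : Eis} (hg : g₀ ≠ 0) (h : ∀ p : Eis, Prime p → p ∣ g₀ → p ∣ S₀)
    (hc : IsCoprime P S₀) : IsCoprime P g₀ := by
  refine isCoprime_of_prime_dvd (fun h' => hg h'.2) fun p hp h3 h4 => ?_
  exact hp.not_isUnit (hc.isUnit_of_dvd' h3 (h p hp h4))

/-- the hypotheses on the outer indices : `σ` the `S`-part, `σ'` the `g₀`-part -/
structure SF {O : Type} (Y V σ σ' : ℝ) (P g₀ : Eis) (v : O → Eis → ℂ) (Oc : Finset O)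
    (Sf : O → Eis) : Prop where
  Sp : ∀ o ∈ Oc, IsPrim (Sf o)
  SY : ∀ o ∈ Oc, (nm (Sf o) : ℝ) ≤ Y
  gS : ∀ o ∈ Oc, ∀ p : Eis, Prime p → p ∣ g₀ → p ∣ Sf o
  cop : ∀ o ∈ Oc, IsCoprime P (Sf o)
  supp : ∀ o ∈ Oc, ∀ x, v o x ≠ 0 → IsPrim x ∧ CbF x ∧ (nm x : ℝ) ≤ V
  sig : ∀ o ∈ Oc, ∀ x, v o x ≠ 0 → Squarefree (bpt (Sf o) x) ∧ σ ≤ nm (bpt (Sf o) x)
  sig' : ∀ o ∈ Oc, ∀ x, v o x ≠ 0 → Squarefree (bpt g₀ x) ∧ σ' ≤ nm (bpt g₀ x)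

/-- **one `(D, b)` of a class, in the large sieve range, fixed square part** -/
theorem xv_HBS {ε : ℝ} (hε : 0 < ε) : ∃ C : ℝ, 1 ≤ C ∧ ∀ {O : Type} (M : Eis) (Y : ℝ), 1 ≤ Y →
    ∀ (v : O → Eis → ℂ) (G : Eis → ℂ) (κ V B Mb σ σ' : ℝ), 1 / 2 ≤ κ → 2 * κ ≤ Y → 0 ≤ V →
    V ≤ Y → 1 ≤ B → B ≤ Y → 0 ≤ Mb → 0 < σ → 0 < σ' → (∀ y, IsPrim y → ‖G y‖ ≤ 1) →
    ∀ (Pp : Pf) (g₀ s₁ : Eis), IsPrim (Pp.R * Pp.R') → IsPrim g₀ →
    ∀ (Oc : Finset O) (Sf : O → Eis), SF Y V σ σ' (Pp.R * Pp.R') g₀ v Oc Sf →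
    ∀ (Pk : Eis → Prop), (∀ k ∈ Dk M κ, Pk k → sk g₀ k = s₁) →
    ∀ (D b : Eis), IsPrim D → IsPrim (b ^ 2 * Pp.b) →
    ∀ bm : O → Eis → ℂ, (∀ o ∈ Oc, NatS B Mb (bm o)) →
    ∑ o ∈ Oc, ∑ k ∈ (Dk M κ).filter Pk, (nm k : ℝ)⁻¹ *
        (‖Sd ((pkP Pp o D b).v' v G) k‖ ^ 2 * ‖CS (bm o) k‖ ^ 2) ≤
      C * Y ^ ε * (Mb * ∑ δ ∈ Dd V (nm (Pp.R * Pp.R')) σ, (nm δ : ℝ) *
        Qdm (2 * κ) (V / nm (Pp.R * Pp.R')) B σ σ' (min (nm s₁ : ℝ) σ') (nm δ) *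
          ∑ o ∈ Oc, Ex V (v o) δ) := by
  obtain ⟨C, hC, H⟩ := jx_oneM hε
  refine ⟨C, hC, ?_⟩
  intro O M Y hY v G κ V B Mb σ σ' hκ hκY hV hVY hB hBY hMb hσ hσ' hG Pp g₀ s₁ hP hg₀ Oc Sf hF
    Pk hPk D b hD hb bm hbm
  have h1 : ∀ o ∈ Oc, ∑ k ∈ (Dk M κ).filter Pk, (nm k : ℝ)⁻¹ *
      (‖Sd ((pkP Pp o D b).v' v G) k‖ ^ 2 * ‖CS (bm o) k‖ ^ 2) ≤
      C * Y ^ ε * (Mb * QER (2 * κ) V (nm (Pp.R * Pp.R')) B σ σ' (min (nm s₁ : ℝ) σ') (v o)) := by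
    intro o ho
    have hc := hF.cop o ho
    have hcg : IsCoprime (Pp.R * Pp.R') g₀ := cop_of_primes hg₀.ne_zero (hF.gS o ho) hc
    have k1 := H Y (2 * κ) V B Mb σ σ' (by linarith) hV hB hκY hVY hBY hMb hσ hσ' (v o) (bm o) G
      (Pp.R * Pp.R') (Pp.B * (b ^ 2 * Pp.b)) D (b ^ 2 * Pp.b) (Sf o) g₀ s₁ hP hD hb (hF.Sp o ho)
      (hF.SY o ho) hg₀ (hF.gS o ho) hG (hF.supp o ho)
      (fun r δ h3 h4 h5 h6 h7 =>
        ⟨sig_of (hF.Sp o ho) hP hc (hF.sig o ho) r δ h3 h4 h5 h6 h7,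
          sig_of hg₀ hP hcg (hF.sig' o ho) r δ h3 h4 h5 h6 h7⟩)
      (hbm o ho).supp (hbm o ho).mom
    refine le_trans ?_ k1
    refine sum_le_sum_of_subset_of_nonneg ?_ fun k _ _ => by positivity
    intro k hk
    obtain ⟨k2, k3⟩ := mem_filter.mp hk
    exact mem_filter.mpr ⟨Dk_sub M κ k2, hPk k k2 k3⟩
  refine (sum_le_sum h1).trans (le_of_eq ?_)
  rw [← mul_sum, ← mul_sum]
  congr 2
  unfold QER Dd
  rw [sum_comm]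
  refine sum_congr rfl fun δ _ => ?_
  rw [mul_sum]

/-- the unit sequence -/
def b1s (n : Eis) : ℂ := if n = 1 then 1 else 0

lemma natS_b1s : NatS 1 1 b1s where
  supp n hn := by
    have h1 : n = 1 := by
      by_contra h
      exact hn (by unfold b1s; rw [if_neg h])
    subst h1
    rw [mem_primBall]
    exact ⟨by simp, isPrim_one⟩
  mom s hs := by
    have e1 : primBall ⌊(1 : ℝ)⌋₊ = {1} := by
      ext n
      rw [mem_primBall, mem_singleton]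
      constructor
      · rintro ⟨h1, h2⟩
        simp only [Nat.floor_one] at h1
        exact K695.prim_eq_one_of_isUnit h2 (isUnit_iff.mpr (le_antisymm h1 (nm_pos.mpr h2.ne_zero)))
      · rintro rfl
        exact ⟨by simp, isPrim_one⟩
    rw [e1, sum_singleton, mul_one]
    unfold b1s
    by_cases h : s = 1
    · subst h
      simp
    · rw [if_neg h]
      simp
  bd n := by
    unfold b1s
    split_ifs <;> simp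

lemma CS_b1s (k : Eis) : CS b1s k = 1 := by
  unfold CS
  rw [tsum_eq_single 1]
  · unfold b1s
    rw [if_pos rfl, one_mul]
    exact Char766.sy_one_right k
  · intro n hn
    unfold b1s
    rw [if_neg hn, zero_mul]

/-- **the same without the natural factor** -/
theorem xv_HBS0 {ε : ℝ} (hε : 0 < ε) : ∃ C : ℝ, 1 ≤ C ∧ ∀ {O : Type} (M : Eis) (Y : ℝ), 1 ≤ Y →
    ∀ (v : O → Eis → ℂ) (G : Eis → ℂ) (κ V σ σ' : ℝ), 1 / 2 ≤ κ → 2 * κ ≤ Y → 0 ≤ V →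
    V ≤ Y → 0 < σ → 0 < σ' → (∀ y, IsPrim y → ‖G y‖ ≤ 1) →
    ∀ (Pp : Pf) (g₀ s₁ : Eis), IsPrim (Pp.R * Pp.R') → IsPrim g₀ →
    ∀ (Oc : Finset O) (Sf : O → Eis), SF Y V σ σ' (Pp.R * Pp.R') g₀ v Oc Sf →
    ∀ (Pk : Eis → Prop), (∀ k ∈ Dk M κ, Pk k → sk g₀ k = s₁) →
    ∀ (D b : Eis), IsPrim D → IsPrim (b ^ 2 * Pp.b) →
    ∑ o ∈ Oc, ∑ k ∈ (Dk M κ).filter Pk, (nm k : ℝ)⁻¹ *
        ‖Sd ((pkP Pp o D b).v' v G) k‖ ^ 2 ≤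
      C * Y ^ ε * ∑ δ ∈ Dd V (nm (Pp.R * Pp.R')) σ, (nm δ : ℝ) *
        Qdm (2 * κ) (V / nm (Pp.R * Pp.R')) 1 σ σ' (min (nm s₁ : ℝ) σ') (nm δ) *
          ∑ o ∈ Oc, Ex V (v o) δ := by
  obtain ⟨C, hC, H⟩ := xv_HBS hε
  refine ⟨C, hC, ?_⟩
  intro O M Y hY v G κ V σ σ' hκ hκY hV hVY hσ hσ' hG Pp g₀ s₁ hP hg₀ Oc Sf hF Pk hPk D b hD hb
  have h1 := H M Y hY v G κ V 1 1 σ σ' hκ hκY hV hVY le_rfl hY zero_le_one hσ hσ' hG Pp g₀ s₁ hP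
    hg₀ Oc Sf hF Pk hPk D b hD hb (fun _ => b1s) (fun _ _ => natS_b1s)
  simp only [CS_b1s, norm_one, one_pow, mul_one, one_mul] at h1
  exact h1

end Crest.Agent.R017.JxR679
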