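import Crest.Agent.R017.JxQ_679

/-!
# Row 17, C70/E4 (version 7), the `x`-side: the bracket when `g1 ∣ D1`, `g2 ∣ b₁` (helper679)

* `sum_D1bg` : the sum over the keys, `g1 ∣ D1`, `g2 ∣ b1`
* `hx_ofg`, `hxGkg`, `hxG2kg`, `hx_brKg` : with the factor `(N(g1) N(g2))⁻¹`
* `hxG0kg`, `hx_br0Kg` : no moved pieces
-/

set_option autoImplicit false

noncomputable section

open Complex Finset
open scoped ComplexConjugate Classical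

namespace Crest.Agent.R017.JxS679

open Crest.Agent.R012 Crest.Agent.R012.Eis Crest.Agent.R012.Mob705
open Crest.Agent.R012.Div277
open Crest.Agent.R012.PSer47 (IsChar)
open Crest.Agent.R012.GaussLoc283 (syAx)
open Crest.Agent.R017.Sx545 (Sm)
open Crest.Agent.R017.C70 (CbF)
open Crest.Agent.R017.CM106 (CS FS)
open Crest.Agent.R017.FE47 (PU cx)
open Crest.Agent.R017.HP842 (Pc pc FS_pc norm_uv_le)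
open Crest.Agent.R017.End699 (HC prin0)
open Crest.Agent.R017.B770 (DPar)
open Crest.Agent.R017.Prov71
open Crest.Agent.R017.E4352
open Crest.Agent.R017.E4J352
open Crest.Agent.R017.E4Yb792 (tP tP_OK)
open Crest.Agent.R017.E4y92 (Dk)
open Crest.Agent.R017.E4RH858 (Pf pf Facts ext_pf)
open Crest.Agent.R017.JyF744 (nu2)
open Crest.Agent.R017.JxG679 Crest.Agent.R017.JxH679 Crest.Agent.R017.JxM679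
open Crest.Agent.R017.JxL679 Crest.Agent.R017.JxN679 Crest.Agent.R017.JxP679
open Crest.Agent.R017.JxQ679

/-- the quotient -/
def dv (g D : Eis) : Eis := if h : g ∣ D then Classical.choose h else 0

lemma dv_spec {g D : Eis} (h : g ∣ D) : g * dv g D = D := by
  unfold dv
  rw [dif_pos h]
  exact (Classical.choose_spec h).symm

/-- the sum over the keys `(D1, b1, ξ)`, `g1 ∣ D1`, `g2 ∣ b1` -/
lemma sum_D1bg {ε : ℝ} (hε : 0 < ε) (n : ℕ) : ∃ C : ℝ, 1 ≤ C ∧ ∀ (g1 g2 : Eis),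
    IsPrim g1 → IsPrim g2 → ∀ (Y : ℝ), 1 ≤ Y →
    ∀ (E : Eis → Eis → Eis) (A : Finset (Eis × Eis × (Fin n → Eis))),
    (∀ a ∈ A, ((IsPrim a.1 ∧ (nm a.1 : ℝ) ≤ Y) ∧ (IsPrim a.2.1 ∧ (nm a.2.1 : ℝ) ≤ Y) ∧
      (∀ i, IsPrim (a.2.2 i)) ∧ (∀ i, a.2.2 i ∣ E a.1 a.2.1) ∧ E a.1 a.2.1 ≠ 0 ∧
      (nm (E a.1 a.2.1) : ℝ) ≤ Y) ∧ g1 ∣ a.1 ∧ g2 ∣ a.2.1) →
    ∑ a ∈ A, ((nm a.1 : ℝ) * nm a.2.1)⁻¹ ≤ ((nm g1 : ℝ) * nm g2)⁻¹ * (C * Y ^ ε) := by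
  obtain ⟨C, hC, H⟩ := sum_D1b hε n
  refine ⟨C, hC, fun g1 g2 hg1 hg2 Y hY E A hA => ?_⟩
  obtain ⟨φ, hφ⟩ : ∃ φ : Eis × Eis × (Fin n → Eis) → Eis × Eis × (Fin n → Eis), φ =
      fun a => (dv g1 a.1, dv g2 a.2.1, a.2.2) := ⟨_, rfl⟩
  have hinj : ∀ a ∈ A, ∀ a' ∈ A, φ a = φ a' → a = a' := by
    intro a ha a' ha' he
    rw [hφ] at he
    simp only at he
    obtain ⟨e1, e23⟩ := Prod.mk.inj he
    obtain ⟨e2, e3⟩ := Prod.mk.inj e23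
    obtain ⟨-, d1, d2⟩ := hA a ha
    obtain ⟨-, d1', d2'⟩ := hA a' ha'
    refine Prod.ext ?_ (Prod.ext ?_ e3)
    · rw [← dv_spec d1, ← dv_spec d1', e1]
    · rw [← dv_spec d2, ← dv_spec d2', e2]
  have e1 : ∀ a ∈ A, ((nm a.1 : ℝ) * nm a.2.1)⁻¹ =
      ((nm g1 : ℝ) * nm g2)⁻¹ * ((nm (φ a).1 : ℝ) * nm (φ a).2.1)⁻¹ := by
    intro a ha
    obtain ⟨-, d1, d2⟩ := hA a ha
    rw [hφ]
    simp only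
    have n1 : (nm a.1 : ℝ) = nm g1 * nm (dv g1 a.1) := by
      conv_lhs => rw [← dv_spec d1]
      rw [nm_mul]
      push_cast
      rfl
    have n2 : (nm a.2.1 : ℝ) = nm g2 * nm (dv g2 a.2.1) := by
      conv_lhs => rw [← dv_spec d2]
      rw [nm_mul]
      push_cast
      rfl
    rw [n1, n2, ← mul_inv]
    congr 1
    ring
  rw [sum_congr rfl e1, ← mul_sum]
  refine mul_le_mul_of_nonneg_left ?_ (by positivity)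
  rw [← sum_image (f := fun a : Eis × Eis × (Fin n → Eis) => ((nm a.1 : ℝ) * nm a.2.1)⁻¹)
    (g := φ) (fun a ha a' ha' h => hinj a ha a' ha' h)]
  refine H Y hY (fun D b => E (g1 * D) (g2 * b)) (A.image φ) fun b hb => ?_
  obtain ⟨a, ha, rfl⟩ := mem_image.mp hb
  obtain ⟨⟨⟨p1, p2⟩, ⟨p3, p4⟩, p5, p6, p7, p8⟩, d1, d2⟩ := hA a ha
  have f1 : g1 * (φ a).1 = a.1 := by rw [hφ]; exact dv_spec d1
  have f2 : g2 * (φ a).2.1 = a.2.1 := by rw [hφ]; exact dv_spec d2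
  have f3 : (φ a).2.2 = a.2.2 := by rw [hφ]
  rw [f3]
  beta_reduce
  rw [f1, f2]
  refine ⟨⟨?_, ?_⟩, ⟨?_, ?_⟩, p5, p6, p7, p8⟩
  · rw [← f1] at p1
    exact p1.of_mul_left hg1
  · refine le_trans ?_ p2
    rw [← f1]
    exact_mod_cast nm_right_le hg1.ne_zero
  · rw [← f2] at p3
    exact p3.of_mul_left hg2
  · refine le_trans ?_ p4
    rw [← f2]
    exact_mod_cast nm_right_le hg2.ne_zero

/-- **the sum over the terms of one prefix class, with a moved factor, from one moment per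
`(D1, b1, ξ)`** -/
theorem hx_ofg {ε : ℝ} (hε : 0 < ε) (n : ℕ) : ∃ C : ℝ, 1 ≤ C ∧ ∀ {O : Type} [Fintype O]
    (M g1 g2 : Eis), IsPrim g1 → IsPrim g2 → ∀ (Y : ℝ), 1 ≤ Y → ∀ (lam : O → ℝ) (v : O → Eis → ℂ) (G : Eis → ℂ) (κ L Sx : ℝ),
    0 < κ → 0 < L → 0 ≤ Sx → ∀ (𝒥 : Finset (Tm O)) (b1 : Tm O → Eis)
    (pk : O → Eis → Eis → Px O) (x : Tm O → Fin n → Eis) (E : Eis → Eis → Eis)
    (Hh : O → Eis → Eis → (Fin n → Eis) → Eis → ℝ), (∀ o D b ξ k, 0 ≤ Hh o D b ξ k) →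
    (∀ t ∈ 𝒥, px t = pk t.o t.D1 (b1 t) ∧ Kw M κ t.k ∧ L ≤ lam t.o * nm t.k ∧
      (IsPrim t.D1 ∧ (nm t.D1 : ℝ) ≤ Y) ∧ (IsPrim (b1 t) ∧ (nm (b1 t) : ℝ) ≤ Y) ∧
      (∀ i, IsPrim (x t i)) ∧ (∀ i, x t i ∣ E t.D1 (b1 t)) ∧ E t.D1 (b1 t) ≠ 0 ∧
      (nm (E t.D1 (b1 t)) : ℝ) ≤ Y) →
    (∀ t ∈ 𝒥, g1 ∣ t.D1 ∧ g2 ∣ b1 t) →
    (∀ t ∈ 𝒥, ∀ t' ∈ 𝒥, t.o = t'.o → t.D1 = t'.D1 → b1 t = b1 t' → t.k = t'.k → t = t') →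
    (∀ t ∈ 𝒥, ∑ o, ∑ k ∈ Dk M κ, (nm k : ℝ)⁻¹ *
      (‖Sd ((pk o t.D1 (b1 t)).v' v G) k‖ ^ 2 * Hh o t.D1 (b1 t) (x t) k) ≤ Sx) →
    ∑ t ∈ 𝒥, (nm (t.D1 * b1 t) : ℝ)⁻¹ * ((lam t.o * nm t.k)⁻¹ ^ 2 *
      (‖t.xs v G‖ ^ 2 * Hh t.o t.D1 (b1 t) (x t) t.k)) ≤
      ((nm g1 : ℝ) * nm g2)⁻¹ * (C * Y ^ ε * (κ / L ^ 2 * Sx)) := by
  obtain ⟨C, hC, hS⟩ := sum_D1bg hε n
  refine ⟨2 * C, by linarith, fun {O} _ M g1 g2 hg1 hg2 Y hY lam v G κ L Sx hκ hL hSx 𝒥 b1 pk x E Hh hH h1 hgg h2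
    h3 => ?_⟩
  have hY0 : 0 < Y := by linarith
  set A : Finset (Eis × Eis × (Fin n → Eis)) := 𝒥.image (fun t => (t.D1, b1 t, x t)) with hA
  obtain ⟨f, hf⟩ : ∃ f : Eis × Eis × (Fin n → Eis) → O → Eis → ℝ, f = fun a o k =>
    (nm k : ℝ)⁻¹ * (‖Sd ((pk o a.1 a.2.1).v' v G) k‖ ^ 2 * Hh o a.1 a.2.1 a.2.2 k) := ⟨_, rfl⟩
  have hf0 : ∀ a o k, 0 ≤ f a o k := fun a o k => by
    have := hH o a.1 a.2.1 a.2.2 k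
    simp only [hf]
    positivity
  have hc : 0 ≤ 2 * κ / L ^ 2 := by positivity
  -- each term
  have t1 : ∀ t ∈ 𝒥, (nm (t.D1 * b1 t) : ℝ)⁻¹ * ((lam t.o * nm t.k)⁻¹ ^ 2 *
      (‖t.xs v G‖ ^ 2 * Hh t.o t.D1 (b1 t) (x t) t.k)) ≤
      ((nm t.D1 : ℝ) * nm (b1 t))⁻¹ * ((2 * κ / L ^ 2) * f (t.D1, b1 t, x t) t.o t.k) := by
    intro t ht
    obtain ⟨p1, p2, p3, -⟩ := h1 t ht
    have hk0 : (0 : ℝ) < nm t.k := lt_trans hκ p2.2.2.1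
    have e1 : (nm (t.D1 * b1 t) : ℝ) = (nm t.D1 : ℝ) * nm (b1 t) := by
      rw [nm_mul]; push_cast; rfl
    have e2 : t.xs v G = Sd ((pk t.o t.D1 (b1 t)).v' v G) t.k := by rw [xs_eq, p1]
    have hl0 : 0 < lam t.o * nm t.k := hL.trans_le p3
    have e3 : (lam t.o * nm t.k)⁻¹ ^ 2 ≤ (2 * κ / L ^ 2) * (nm t.k : ℝ)⁻¹ := by
      have q1 : (lam t.o * nm t.k)⁻¹ ≤ L⁻¹ := inv_anti₀ hL p3
      have q2 : (lam t.o * nm t.k)⁻¹ ^ 2 ≤ L⁻¹ ^ 2 :=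
        pow_le_pow_left₀ (inv_nonneg.mpr hl0.le) q1 2
      have q3 : 1 ≤ 2 * κ * (nm t.k : ℝ)⁻¹ := by
        rw [← div_eq_mul_inv, le_div_iff₀ hk0, one_mul]
        exact p2.2.2.2
      calc (lam t.o * nm t.k)⁻¹ ^ 2 ≤ L⁻¹ ^ 2 := q2
        _ ≤ L⁻¹ ^ 2 * (2 * κ * (nm t.k : ℝ)⁻¹) := le_mul_of_one_le_right (by positivity) q3
        _ = (2 * κ / L ^ 2) * (nm t.k : ℝ)⁻¹ := by rw [inv_pow]; ring
    rw [e1]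
    refine mul_le_mul_of_nonneg_left ?_ (by positivity)
    have hHt := hH t.o t.D1 (b1 t) (x t) t.k
    calc (lam t.o * nm t.k)⁻¹ ^ 2 * (‖t.xs v G‖ ^ 2 * Hh t.o t.D1 (b1 t) (x t) t.k)
        ≤ ((2 * κ / L ^ 2) * (nm t.k : ℝ)⁻¹) *
          (‖t.xs v G‖ ^ 2 * Hh t.o t.D1 (b1 t) (x t) t.k) :=
          mul_le_mul_of_nonneg_right e3 (by positivity)
      _ = (2 * κ / L ^ 2) * f (t.D1, b1 t, x t) t.o t.k := by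
          simp only [hf]
          rw [e2]
          ring
  refine (sum_le_sum t1).trans ?_
  -- group by the key
  have t2 : ∑ t ∈ 𝒥, ((nm t.D1 : ℝ) * nm (b1 t))⁻¹ *
      ((2 * κ / L ^ 2) * f (t.D1, b1 t, x t) t.o t.k) ≤
      ∑ a ∈ A, ((nm a.1 : ℝ) * nm a.2.1)⁻¹ * ((2 * κ / L ^ 2) * Sx) := by
    rw [← sum_fiberwise_of_maps_to (s := 𝒥) (t := A) (g := fun t => (t.D1, b1 t, x t))
      (fun t ht => mem_image_of_mem _ ht)]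
    refine sum_le_sum fun a ha => ?_
    obtain ⟨t0, ht0, he0⟩ := mem_image.mp ha
    have u1 : ∑ t ∈ 𝒥.filter (fun t => (t.D1, b1 t, x t) = a), ((nm t.D1 : ℝ) * nm (b1 t))⁻¹ *
        ((2 * κ / L ^ 2) * f (t.D1, b1 t, x t) t.o t.k) =
        ((nm a.1 : ℝ) * nm a.2.1)⁻¹ * ((2 * κ / L ^ 2) *
          ∑ t ∈ 𝒥.filter (fun t => (t.D1, b1 t, x t) = a), f a t.o t.k) := by
      rw [mul_sum, mul_sum]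
      refine sum_congr rfl fun t ht => ?_
      obtain ⟨-, he⟩ := mem_filter.mp ht
      rw [← he]
    rw [u1]
    refine mul_le_mul_of_nonneg_left (mul_le_mul_of_nonneg_left ?_ hc) (by positivity)
    have u2 : ∑ t ∈ 𝒥.filter (fun t => (t.D1, b1 t, x t) = a), f a t.o t.k ≤
        ∑ z ∈ (univ : Finset O) ×ˢ Dk M κ, f a z.1 z.2 := by
      refine sum_le_of_inj _ (fun t : Tm O => (t.o, t.k)) _ ?_ ?_ (fun z => f a z.1 z.2)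
        (fun z => hf0 _ _ _)
      · intro t ht
        obtain ⟨htJ, -⟩ := mem_filter.mp ht
        exact mem_product.mpr ⟨mem_univ _, (h1 t htJ).2.1.mem⟩
      · intro t ht t' ht' he
        obtain ⟨htJ, g1⟩ := mem_filter.mp ht
        obtain ⟨htJ', g2⟩ := mem_filter.mp ht'
        obtain ⟨p1, p23⟩ := Prod.mk.inj (g1.trans g2.symm)
        obtain ⟨p2, -⟩ := Prod.mk.inj p23
        obtain ⟨p3, p4⟩ := Prod.mk.inj he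
        exact h2 t htJ t' htJ' p3 p1 p2 p4
    refine u2.trans ?_
    rw [sum_product]
    have u3 := h3 t0 ht0
    simp only [hf]
    rw [← he0]
    exact u3
  refine t2.trans ?_
  rw [← sum_mul]
  have t3 := hS g1 g2 hg1 hg2 Y hY E A (fun a ha => by
    obtain ⟨t, ht, rfl⟩ := mem_image.mp ha
    obtain ⟨-, -, -, q1, q2, q3, q4, q5, q6⟩ := h1 t ht
    exact ⟨⟨q1, q2, q3, q4, q5, q6⟩, (hgg t ht).1, (hgg t ht).2⟩)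
  calc (∑ a ∈ A, ((nm a.1 : ℝ) * nm a.2.1)⁻¹) * ((2 * κ / L ^ 2) * Sx)
      ≤ (((nm g1 : ℝ) * nm g2)⁻¹ * (C * Y ^ ε)) * ((2 * κ / L ^ 2) * Sx) :=
        mul_le_mul_of_nonneg_right t3 (mul_nonneg hc hSx)
    _ = ((nm g1 : ℝ) * nm g2)⁻¹ * (2 * C * Y ^ ε * (κ / L ^ 2 * Sx)) := by ring

/-- **the `x`-side of a class with moved pieces**, moduli with `Pk` -/
theorem hxGkg {h : ℝ → ℝ} {c : ℝ} (hpu : PU h c) {ε : ℝ} (hε : 0 < ε) (m : ℕ) :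
    ∃ C A₁ : ℝ, 1 ≤ C ∧ 1 ≤ A₁ ∧ ∀ {O : Type} [Fintype O] (M g1 g2 : Eis),
    IsPrim g1 → IsPrim g2 → ∀ (Y : ℝ), 1 ≤ Y →
    ∀ (lam : O → ℝ) (v : O → Eis → ℂ) (G : Eis → ℂ) (κ L Sx B : ℝ), 0 < κ → 0 < L → 0 ≤ Sx →
    0 ≤ B → B ≤ Y → ∀ (Pk : Eis → Prop) (Oc : Finset O) (𝒥 : Finset (Tm O)) (b1 : Tm O → Eis)
    (pk : O → Eis → Eis → Px O) (x : Tm O → Fin m → Eis) (E : Eis → Eis → Eis)
    (u : O → Eis → Eis → Eis) (q : Fin m → Eis → Pc) (mv : Finset (Fin m)) (W : Fin m → ℝ),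
    (∀ i y, IsPrim y → (q i y).OK) → A₁ * ∏ i ∈ mv, W i ≤ B →
    (∀ t ∈ 𝒥, (t.o ∈ Oc ∧ Pk t.k) ∧ (∀ i ∈ mv, (q i (x t i)).Y ≤ W i)) →
    (∀ t ∈ 𝒥, px t = pk t.o t.D1 (b1 t) ∧ Kw M κ t.k ∧ L ≤ lam t.o * nm t.k ∧
      (IsPrim t.D1 ∧ (nm t.D1 : ℝ) ≤ Y) ∧ (IsPrim (b1 t) ∧ (nm (b1 t) : ℝ) ≤ Y) ∧
      (∀ i, IsPrim (x t i)) ∧ (∀ i, x t i ∣ E t.D1 (b1 t)) ∧ E t.D1 (b1 t) ≠ 0 ∧
      (nm (E t.D1 (b1 t)) : ℝ) ≤ Y) →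
    (∀ t ∈ 𝒥, g1 ∣ t.D1 ∧ g2 ∣ b1 t) →
    (∀ t ∈ 𝒥, ∀ t' ∈ 𝒥, t.o = t'.o → t.D1 = t'.D1 → b1 t = b1 t' → t.k = t'.k → t = t') →
    (∀ t ∈ 𝒥, ∀ bm : O → Eis → ℂ, (∀ o ∈ Oc, NatS B (C * Y ^ ε * B) (bm o)) →
      ∑ o ∈ Oc, ∑ k ∈ (Dk M κ).filter Pk, (nm k : ℝ)⁻¹ *
        (‖Sd ((pk o t.D1 (b1 t)).v' v G) k‖ ^ 2 * ‖CS (bm o) k‖ ^ 2) ≤ Sx) →
    ∑ t ∈ 𝒥, (nm (t.D1 * b1 t) : ℝ)⁻¹ * ((lam t.o * nm t.k)⁻¹ ^ 2 * (‖t.xs v G‖ ^ 2 *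
      ∏ i ∈ mv, ‖CS (pc h (q i (x t i))) (t.k * u t.o t.D1 (b1 t))‖ ^ 2)) ≤
      ((nm g1 : ℝ) * nm g2)⁻¹ * (C * Y ^ ε * (κ / L ^ 2 * Sx)) := by
  obtain ⟨A, R, hA, hR, hR', hpc⟩ := pc_facts hpu
  obtain ⟨C1, A₁, hC1, hA₁, h1⟩ := natS_bmv hpu hε m
  obtain ⟨C2, hC2, h2⟩ := hx_ofg hε m
  refine ⟨max C1 C2, A₁, hC1.trans (le_max_left _ _), hA₁, ?_⟩
  intro O _ M g1 g2 hg1 hg2 Y hY lam v G κ L Sx B hκ hL hSx hB hBY Pk Oc 𝒥 b1 pk x E u q mv W hq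
    hWB hJ1 hJ hgg hinj hX
  have hY0 : 0 < Y := by linarith
  obtain ⟨bmf, hbmf⟩ : ∃ bmf : O → Eis → Eis → (Fin m → Eis) → Eis → ℂ, bmf =
      fun o D b ξ => bmv mv (fun i => pc h (q i (ξ i))) (u o D b) := ⟨_, rfl⟩
  obtain ⟨Hh, hHh⟩ : ∃ Hh : O → Eis → Eis → (Fin m → Eis) → Eis → ℝ, Hh =
      fun o D b ξ k => if o ∈ Oc ∧ Pk k then ‖CS (bmf o D b ξ) k‖ ^ 2 else 0 := ⟨_, rfl⟩
  have hHh0 : ∀ o D b ξ k, 0 ≤ Hh o D b ξ k := fun o D b ξ k => by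
    rw [hHh]
    simp only
    split_ifs
    · positivity
    · exact le_rfl
  have key : ∀ t ∈ 𝒥, ∑ o, ∑ k ∈ Dk M κ, (nm k : ℝ)⁻¹ *
      (‖Sd ((pk o t.D1 (b1 t)).v' v G) k‖ ^ 2 * Hh o t.D1 (b1 t) (x t) k) ≤ Sx := by
    intro t ht
    obtain ⟨-, -, -, -, -, p5, -⟩ := hJ t ht
    have e1 : ∑ o, ∑ k ∈ Dk M κ, (nm k : ℝ)⁻¹ *
        (‖Sd ((pk o t.D1 (b1 t)).v' v G) k‖ ^ 2 * Hh o t.D1 (b1 t) (x t) k) =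
        ∑ o ∈ Oc, ∑ k ∈ (Dk M κ).filter Pk, (nm k : ℝ)⁻¹ *
        (‖Sd ((pk o t.D1 (b1 t)).v' v G) k‖ ^ 2 *
          ‖CS (bmf o t.D1 (b1 t) (x t)) k‖ ^ 2) := by
      symm
      rw [← sum_subset (subset_univ Oc)]
      · refine sum_congr rfl fun o ho => ?_
        rw [sum_filter]
        refine sum_congr rfl fun k _ => ?_
        rw [hHh]
        simp only
        by_cases hk : Pk k
        · rw [if_pos hk, if_pos ⟨ho, hk⟩]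
        · rw [if_neg hk, if_neg (fun h' => hk h'.2)]
          ring
      · intro o _ ho
        refine sum_eq_zero fun k _ => ?_
        rw [hHh]
        simp only
        rw [if_neg (fun h' => ho h'.1)]
        ring
    rw [e1]
    refine hX t ht (fun o => bmf o t.D1 (b1 t) (x t)) fun o ho => ?_
    have h3 := h1 Y B hY hB hBY mv (fun i => q i (x t i)) W (fun i _ => hq i _ (p5 i))
      (hJ1 t ht).2 hWB (u o t.D1 (b1 t))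
    rw [hbmf]
    simp only
    refine ⟨h3.supp, fun s hs => (h3.mom s hs).trans ?_, fun n => (h3.bd n).trans ?_⟩
    · refine div_le_div_of_nonneg_right ?_ (Nat.cast_nonneg _)
      refine mul_le_mul_of_nonneg_right (mul_le_mul_of_nonneg_right (le_max_left _ _)
        (by positivity)) hB
    · refine mul_le_mul_of_nonneg_right (mul_le_mul_of_nonneg_right (le_max_left _ _)
        (by positivity)) hB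
  have fin := h2 M g1 g2 hg1 hg2 Y hY lam v G κ L Sx hκ hL hSx 𝒥 b1 pk x E Hh hHh0 hJ hgg hinj key
  have e3 : ∑ t ∈ 𝒥, (nm (t.D1 * b1 t) : ℝ)⁻¹ * ((lam t.o * nm t.k)⁻¹ ^ 2 *
      (‖t.xs v G‖ ^ 2 *
        ∏ i ∈ mv, ‖CS (pc h (q i (x t i))) (t.k * u t.o t.D1 (b1 t))‖ ^ 2)) =
      ∑ t ∈ 𝒥, (nm (t.D1 * b1 t) : ℝ)⁻¹ * ((lam t.o * nm t.k)⁻¹ ^ 2 *
      (‖t.xs v G‖ ^ 2 * Hh t.o t.D1 (b1 t) (x t) t.k)) := by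
    refine sum_congr rfl fun t ht => ?_
    obtain ⟨-, -, -, -, -, p5, -⟩ := hJ t ht
    rw [hHh]
    simp only
    rw [if_pos (hJ1 t ht).1]
    rw [hbmf]
    simp only
    rw [norm_CS_bmv_sq (fun i _ => FS_pc hR' (hq i _ (p5 i)))]
  rw [e3]
  refine fin.trans (mul_le_mul_of_nonneg_left ?_ (by positivity))
  exact mul_le_mul_of_nonneg_right (mul_le_mul_of_nonneg_right (le_max_right _ _)
    (by positivity)) (by positivity)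

/-- **two lists of moved pieces, one constant for all lengths `≤ N`**, moduli with `Pk` -/
theorem hxG2kg {h : ℝ → ℝ} {c : ℝ} (hpu : PU h c) {ε : ℝ} (hε : 0 < ε) (N : ℕ) :
    ∃ C A₁ : ℝ, 1 ≤ C ∧ 1 ≤ A₁ ∧ ∀ {O : Type} [Fintype O] (M g1 g2 : Eis),
    IsPrim g1 → IsPrim g2 → ∀ (Y : ℝ), 1 ≤ Y →
    ∀ (lam : O → ℝ) (v : O → Eis → ℂ) (G : Eis → ℂ) (κ L Sx B : ℝ), 0 < κ → 0 < L → 0 ≤ Sx →
    0 ≤ B → B ≤ Y → ∀ (Pk : Eis → Prop) (Oc : Finset O) (𝒥 : Finset (Tm O)) (b1 : Tm O → Eis)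
    (pk : O → Eis → Eis → Px O) (m₁ m₂ : ℕ), m₁ ≤ N → m₂ ≤ N →
    ∀ (x₁ : Tm O → Fin m₁ → Eis) (x₂ : Tm O → Fin m₂ → Eis) (E : Eis → Eis → Eis)
    (u : O → Eis → Eis → Eis) (q₁ : Fin m₁ → Eis → Pc) (q₂ : Fin m₂ → Eis → Pc)
    (mv₁ : Finset (Fin m₁)) (mv₂ : Finset (Fin m₂)) (W₁ : Fin m₁ → ℝ) (W₂ : Fin m₂ → ℝ),
    (∀ i y, IsPrim y → (q₁ i y).OK) → (∀ i y, IsPrim y → (q₂ i y).OK) →
    A₁ * ((∏ i ∈ mv₁, W₁ i) * ∏ i ∈ mv₂, W₂ i) ≤ B →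
    (∀ t ∈ 𝒥, (t.o ∈ Oc ∧ Pk t.k) ∧ (∀ i ∈ mv₁, (q₁ i (x₁ t i)).Y ≤ W₁ i) ∧
      (∀ i ∈ mv₂, (q₂ i (x₂ t i)).Y ≤ W₂ i)) →
    (∀ t ∈ 𝒥, px t = pk t.o t.D1 (b1 t) ∧ Kw M κ t.k ∧ L ≤ lam t.o * nm t.k ∧
      (IsPrim t.D1 ∧ (nm t.D1 : ℝ) ≤ Y) ∧ (IsPrim (b1 t) ∧ (nm (b1 t) : ℝ) ≤ Y) ∧
      ((∀ i, IsPrim (x₁ t i)) ∧ ∀ i, IsPrim (x₂ t i)) ∧
      ((∀ i, x₁ t i ∣ E t.D1 (b1 t)) ∧ ∀ i, x₂ t i ∣ E t.D1 (b1 t)) ∧ E t.D1 (b1 t) ≠ 0 ∧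
      (nm (E t.D1 (b1 t)) : ℝ) ≤ Y) →
    (∀ t ∈ 𝒥, g1 ∣ t.D1 ∧ g2 ∣ b1 t) →
    (∀ t ∈ 𝒥, ∀ t' ∈ 𝒥, t.o = t'.o → t.D1 = t'.D1 → b1 t = b1 t' → t.k = t'.k → t = t') →
    (∀ t ∈ 𝒥, ∀ bm : O → Eis → ℂ, (∀ o ∈ Oc, NatS B (C * Y ^ ε * B) (bm o)) →
      ∑ o ∈ Oc, ∑ k ∈ (Dk M κ).filter Pk, (nm k : ℝ)⁻¹ *
        (‖Sd ((pk o t.D1 (b1 t)).v' v G) k‖ ^ 2 * ‖CS (bm o) k‖ ^ 2) ≤ Sx) →
    ∑ t ∈ 𝒥, (nm (t.D1 * b1 t) : ℝ)⁻¹ * ((lam t.o * nm t.k)⁻¹ ^ 2 * (‖t.xs v G‖ ^ 2 *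
      ((∏ i ∈ mv₁, ‖CS (pc h (q₁ i (x₁ t i))) (t.k * u t.o t.D1 (b1 t))‖ ^ 2) *
        ∏ i ∈ mv₂, ‖CS (pc h (q₂ i (x₂ t i))) (t.k * u t.o t.D1 (b1 t))‖ ^ 2))) ≤
      ((nm g1 : ℝ) * nm g2)⁻¹ * (C * Y ^ ε * (κ / L ^ 2 * Sx)) := by
  have H := fun m : ℕ => hxGkg hpu hε m
  choose Cf Af hC hA H using H
  have e1 : ∀ m, m ≤ 2 * N → Cf m ≤ ∑ i ∈ range (2 * N + 1), Cf i := fun m hm =>
    single_le_sum (f := Cf) (fun i _ => zero_le_one.trans (hC i)) (mem_range.mpr (by omega))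
  have e2 : ∀ m, m ≤ 2 * N → Af m ≤ ∑ i ∈ range (2 * N + 1), Af i := fun m hm =>
    single_le_sum (f := Af) (fun i _ => zero_le_one.trans (hA i)) (mem_range.mpr (by omega))
  refine ⟨∑ i ∈ range (2 * N + 1), Cf i, ∑ i ∈ range (2 * N + 1), Af i,
    (hC 0).trans (e1 0 (by omega)), (hA 0).trans (e2 0 (by omega)), ?_⟩
  intro O _ M g1 g2 hg1 hg2 Y hY lam v G κ L Sx B hκ hL hSx hB hBY Pk Oc 𝒥 b1 pk m₁ m₂ hm₁ hm₂ x₁ x₂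
    E u q₁ q₂ mv₁ mv₂ W₁ W₂ hq₁ hq₂ hWB hJ1 hJ hgg hinj hX
  have hm : m₁ + m₂ ≤ 2 * N := by omega
  have hY0 : 0 < Y := by linarith
  by_cases hne : 𝒥.Nonempty
  swap
  · rw [not_nonempty_iff_eq_empty] at hne
    rw [hne, sum_empty]
    have : 0 ≤ ∑ i ∈ range (2 * N + 1), Cf i := sum_nonneg fun i _ => zero_le_one.trans (hC i)
    positivity
  obtain ⟨t₀, ht₀⟩ := hne
  have hW0 : 0 ≤ (∏ i ∈ mv₁, W₁ i) * ∏ i ∈ mv₂, W₂ i := by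
    obtain ⟨-, -, -, -, -, ⟨p1, p2⟩, -⟩ := hJ t₀ ht₀
    refine mul_nonneg (prod_nonneg fun i hi => ?_) (prod_nonneg fun i hi => ?_)
    · exact (hq₁ i _ (p1 i)).Y0.le.trans ((hJ1 t₀ ht₀).2.1 i hi)
    · exact (hq₂ i _ (p2 i)).Y0.le.trans ((hJ1 t₀ ht₀).2.2 i hi)
  have eq1 : ∀ (i : Fin m₁) (ξ : Fin (m₁ + m₂) → Eis),
      jn q₁ q₂ (finSumFinEquiv (Sum.inl i)) = q₁ i := fun i ξ => jn_inl _ _ i
  have key := H (m₁ + m₂) M g1 g2 hg1 hg2 Y hY lam v G κ L Sx B hκ hL hSx hB hBY Pk Oc 𝒥 b1 pk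
    (fun t => jn (x₁ t) (x₂ t)) E u (jn q₁ q₂) (jm mv₁ mv₂) (jn W₁ W₂)
    (jn_all (p := fun g : Eis → Pc => ∀ y, IsPrim y → (g y).OK) hq₁ hq₂)
    (by
      rw [prod_jm]
      simp only [jn_inl, jn_inr]
      exact (mul_le_mul_of_nonneg_right (e2 _ hm) hW0).trans hWB)
    (fun t ht => ⟨(hJ1 t ht).1, mem_jm
      (p := fun i => (jn q₁ q₂ i (jn (x₁ t) (x₂ t) i)).Y ≤ jn W₁ W₂ i)
      (fun i hi => by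
        rw [jn_inl, jn_inl, jn_inl]
        exact (hJ1 t ht).2.1 i hi)
      (fun i hi => by
        rw [jn_inr, jn_inr, jn_inr]
        exact (hJ1 t ht).2.2 i hi)⟩)
    (fun t ht => by
      obtain ⟨p0, p1, p2, p3, p4, ⟨p5, p6⟩, ⟨p7, p8⟩, p9, p10⟩ := hJ t ht
      exact ⟨p0, p1, p2, p3, p4, jn_all (p := fun g => IsPrim g) p5 p6,
        jn_all (p := fun g => g ∣ E t.D1 (b1 t)) p7 p8, p9, p10⟩)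
    hgg hinj
    (fun t ht bm hbm => hX t ht bm fun o ho => NatS.mono (hbm o ho)
      (mul_le_mul_of_nonneg_right (mul_le_mul_of_nonneg_right (e1 _ hm) (by positivity)) hB))
  have e3 : ∀ t ∈ 𝒥, (nm (t.D1 * b1 t) : ℝ)⁻¹ * ((lam t.o * nm t.k)⁻¹ ^ 2 * (‖t.xs v G‖ ^ 2 *
      ((∏ i ∈ mv₁, ‖CS (pc h (q₁ i (x₁ t i))) (t.k * u t.o t.D1 (b1 t))‖ ^ 2) *
        ∏ i ∈ mv₂, ‖CS (pc h (q₂ i (x₂ t i))) (t.k * u t.o t.D1 (b1 t))‖ ^ 2))) =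
      (nm (t.D1 * b1 t) : ℝ)⁻¹ * ((lam t.o * nm t.k)⁻¹ ^ 2 * (‖t.xs v G‖ ^ 2 *
      ∏ i ∈ jm mv₁ mv₂, ‖CS (pc h (jn q₁ q₂ i (jn (x₁ t) (x₂ t) i)))
        (t.k * u t.o t.D1 (b1 t))‖ ^ 2)) := by
    intro t _
    rw [prod_jm]
    simp only [jn_inl, jn_inr]
  rw [sum_congr rfl e3]
  refine key.trans (mul_le_mul_of_nonneg_left ?_ (by positivity))
  exact mul_le_mul_of_nonneg_right (mul_le_mul_of_nonneg_right (e1 _ hm) (by positivity))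
    (by positivity)

set_option maxHeartbeats 1000000 in
/-- **the `x`-bracket**, frequency `Kf t`, moduli with `Pk` -/
theorem hx_brKg {h : ℝ → ℝ} {c₀ : ℝ} (hpu : PU h c₀) {ε : ℝ} (hε : 0 < ε) (N : ℕ) :
    ∃ C A₁ : ℝ, 1 ≤ C ∧ 1 ≤ A₁ ∧ ∀ {OO : Finset (Eis × Eis)} (M M' g1 g2 : Eis),
    IsPrim g1 → IsPrim g2 → ∀ (Y : ℝ), 1 ≤ Y →
    ∀ (P : DPar), (∀ k : Kd, IsChar (chK P k)) → ∀ (ps₁ ps₂ : List Pq), ps₁.length ≤ N →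
    ps₂.length ≤ N → ∀ (η : Eis → ℂ) (j : ℤ) (ξ : ℝ), HC M' η → ∀ (Bq b0 : Eis),
    b0 ∣ Bq → ∀ (lam : {x // x ∈ OO} → ℝ) (v : {x // x ∈ OO} → Eis → ℂ)
    (G : Eis → ℂ) (cl : Win) (Pp : Pf) (bk : Eis) (Kf : Tm {x // x ∈ OO} → Eis) (z : Eis),
    z ≠ 0 → ∀ (Pk : Eis → Prop) (Oc : Finset {x // x ∈ OO}) (𝒥 : Finset (Tm {x // x ∈ OO}))
    (Sx B : ℝ), 0 ≤ Sx → 0 ≤ B → B ≤ Y →
    (∀ t ∈ 𝒥, TH M lam Y cl Pp z Oc t ∧ Pk t.k ∧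
      Kf t * b0 ^ 3 = t.k * (nu2 t.o * t.D1 ^ 2 * (E4RH858.b1 t ^ 2 * bk))) →
    (∀ t ∈ 𝒥, g1 ∣ t.D1 ∧ g2 ∣ E4RH858.b1 t) →
    ∀ (n₁ : Fin ps₁.length → ℕ) (n₂ : Fin ps₂.length → ℕ) (mv₁ : Finset (Fin ps₁.length))
    (mv₂ : Finset (Fin ps₂.length)),
    A₁ * Real.exp (∑ i ∈ mv₁, ((ps₁.get i).z - n₁ i) + ∑ i ∈ mv₂, ((ps₂.get i).z - n₂ i)) ≤ B →
    (∀ t ∈ 𝒥, ∀ bm : {x // x ∈ OO} → Eis → ℂ, (∀ o ∈ Oc, NatS B (C * Y ^ ε * B) (bm o)) →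
      ∑ o ∈ Oc, ∑ k ∈ (Dk M (2 ^ cl.nkk - 1 / 2)).filter Pk, (nm k : ℝ)⁻¹ *
        (‖Sd ((pkP Pp o t.D1 (E4RH858.b1 t)).v' v G) k‖ ^ 2 * ‖CS (bm o) k‖ ^ 2) ≤ Sx) →
    ∀ E' ⊆ 𝒥, ∀ (x₁ : Tm {x // x ∈ OO} → Fin ps₁.length → Eis)
      (x₂ : Tm {x // x ∈ OO} → Fin ps₂.length → Eis),
      (∀ e ∈ E', (∀ i, IsPrim (x₁ e i) ∧ (n₁ i : ℝ) ≤ Real.log (nm (x₁ e i)) ∧
          Real.log (nm (x₁ e i)) < n₁ i + 1) ∧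
        (∀ i, IsPrim (x₂ e i) ∧ (n₂ i : ℝ) ≤ Real.log (nm (x₂ e i)) ∧
          Real.log (nm (x₂ e i)) < n₂ i + 1) ∧
        (∏ i, x₁ e i) * (∏ i, x₂ e i) ^ 2 ∣ e.D1 * (z * (e.Z * e.Z'))) →
      ∑ e ∈ E', ((nm (e.D1 * E4RH858.b1 e) : ℝ) ^ (-(1 / 2) : ℝ) *
          ((lam e.o * nm e.k)⁻¹ * ‖e.xs v G‖)) ^ 2 *
        ((∏ i ∈ mv₁, ‖CS (pc h (tP (E4Yb792.th1 M Bq η j) ξ ((ps₁.get i).pc P) (x₁ e i)))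
            (Kf e)‖ ^ 2) *
          ∏ i ∈ mv₂, ‖CS (pc h (tP (E4Yb792.th2 M Bq η j) (-2 * ξ) ((ps₂.get i).pc P)
            (x₂ e i))) (Kf e)‖ ^ 2) ≤
        ((nm g1 : ℝ) * nm g2)⁻¹ * (C * Y ^ ε * (2 ^ cl.nkk / (2 ^ cl.nk) ^ 2 * Sx)) := by
  obtain ⟨C, A₁, hC, hA₁, H⟩ := hxG2kg hpu hε N
  refine ⟨C, A₁, hC, hA₁, ?_⟩
  intro OO M M' g1 g2 hg1 hg2 Y hY P hP ps₁ ps₂ hl₁ hl₂ η j ξ hη Bq b0 hb0q lam v G cl Pp bk Kf z hz Pk Oc 𝒥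
    Sx B hSx hB hBY hJ hgg n₁ n₂ mv₁ mv₂ hWB hX E' hE' x₁ x₂ hx
  have hY0 : 0 < Y := by linarith
  have hκ : (0 : ℝ) < 2 ^ cl.nkk - 1 / 2 := by
    have : (1 : ℝ) ≤ 2 ^ cl.nkk := one_le_pow₀ (by norm_num)
    linarith
  have hL : (0 : ℝ) < 2 ^ cl.nk := by positivity
  have hth1 := E4Yb792.isChar_th1 (M := M) (q := Bq) hη j
  have hth2 := E4Yb792.isChar_th2 (M := M) (q := Bq) hη j
  have key := H M g1 g2 hg1 hg2 Y hY lam v G (2 ^ cl.nkk - 1 / 2) (2 ^ cl.nk) Sx B hκ hL hSx hB hBY Pk Oc E'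
    E4RH858.b1 (pkP Pp) ps₁.length ps₂.length hl₁ hl₂ x₁ x₂
    (fun D b => D * (z * (Pp.Z * (b * Pp.Z'))))
    (fun o D b => nu2 o * D ^ 2 * (b ^ 2 * bk))
    (fun i y => tP (E4Yb792.th1 M Bq η j) ξ ((ps₁.get i).pc P) y)
    (fun i y => tP (E4Yb792.th2 M Bq η j) (-2 * ξ) ((ps₂.get i).pc P) y) mv₁ mv₂
    (fun i => Real.exp ((ps₁.get i).z - n₁ i)) (fun i => Real.exp ((ps₂.get i).z - n₂ i))
    (fun i y hy => tP_OK hth1 ξ (pcOK hP _) hy) (fun i y hy => tP_OK hth2 _ (pcOK hP _) hy)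
    (by
      rw [← Real.exp_sum, ← Real.exp_sum, ← Real.exp_add]
      exact hWB)
    (fun t ht => ⟨⟨(hJ t (hE' ht)).1.o, (hJ t (hE' ht)).2.1⟩, fun i _ => tP_Y_le ((hx t ht).1 i).1 ((hx t ht).1 i).2.1,
      fun i _ => tP_Y_le ((hx t ht).2.1 i).1 ((hx t ht).2.1 i).2.1⟩)
    (fun t ht => by
      have ht' := hE' ht
      have g := (hJ t ht').1
      have eE : t.D1 * (z * (Pp.Z * (E4RH858.b1 t * Pp.Z'))) =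
          t.D1 * (z * (t.Z * t.Z')) := by
        have h1 := g.F.Z'
        rw [h1, ← g.pf]
        rfl
      have hne : t.D1 * (z * (t.Z * t.Z')) ≠ 0 :=
        mul_ne_zero g.ok.pD1.ne_zero (mul_ne_zero hz
          (mul_ne_zero g.ok.pZ.1.ne_zero g.ok.pZ'.1.ne_zero))
      refine ⟨px_pf g.F g.pf, kw_of_in g.ok g.cl.hkk, g.cl.hk.1, ⟨g.ok.pD1, g.D1⟩,
        ⟨E4RH858.prim_b1 t, g.b1⟩, ⟨fun i => ((hx t ht).1 i).1, fun i => ((hx t ht).2.1 i).1⟩,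
        ⟨fun i => ?_, fun i => ?_⟩, ?_, ?_⟩
      · rw [eE]
        exact ((dvd_prod_of_mem _ (mem_univ i)).mul_right _).trans (hx t ht).2.2
      · rw [eE]
        refine (((dvd_prod_of_mem _ (mem_univ i)).trans
          (dvd_pow_self _ two_ne_zero)).mul_left _).trans (hx t ht).2.2
      · rw [eE]
        exact hne
      · rw [eE]
        exact g.E)
    (fun t ht => hgg t (hE' ht))
    (fun t ht t' ht' h1 h2 h3 h4 => ext_pf (hJ t (hE' ht)).1.F (hJ t' (hE' ht')).1.F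
      ((hJ t (hE' ht)).1.pf.trans (hJ t' (hE' ht')).1.pf.symm) h1 h2 h3 h4)
    (fun t ht => hX t (hE' ht))
  have e1 : ∀ e ∈ E', ((nm (e.D1 * E4RH858.b1 e) : ℝ) ^ (-(1 / 2) : ℝ) *
          ((lam e.o * nm e.k)⁻¹ * ‖e.xs v G‖)) ^ 2 *
        ((∏ i ∈ mv₁, ‖CS (pc h (tP (E4Yb792.th1 M Bq η j) ξ ((ps₁.get i).pc P) (x₁ e i)))
            (Kf e)‖ ^ 2) *
          ∏ i ∈ mv₂, ‖CS (pc h (tP (E4Yb792.th2 M Bq η j) (-2 * ξ) ((ps₂.get i).pc P)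
            (x₂ e i))) (Kf e)‖ ^ 2) =
      (nm (e.D1 * E4RH858.b1 e) : ℝ)⁻¹ * ((lam e.o * nm e.k)⁻¹ ^ 2 * (‖e.xs v G‖ ^ 2 *
        ((∏ i ∈ mv₁, ‖CS (pc h (tP (E4Yb792.th1 M Bq η j) ξ ((ps₁.get i).pc P) (x₁ e i)))
            (e.k * (nu2 e.o * e.D1 ^ 2 * (E4RH858.b1 e ^ 2 * bk)))‖ ^ 2) *
          ∏ i ∈ mv₂, ‖CS (pc h (tP (E4Yb792.th2 M Bq η j) (-2 * ξ) ((ps₂.get i).pc P)
            (x₂ e i))) (e.k * (nu2 e.o * e.D1 ^ 2 * (E4RH858.b1 e ^ 2 * bk)))‖ ^ 2))) := by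
    intro e he
    have e2 : ∀ p : Pc, (∀ n, p.ψ n ≠ 0 → IsPrim n → IsCoprime n b0) → CS (pc h p) (Kf e) =
        CS (pc h p) (e.k * (nu2 e.o * e.D1 ^ 2 * (E4RH858.b1 e ^ 2 * bk))) := by
      intro p hp
      rw [← (hJ e (hE' he)).2.2]
      exact CS_pc_cube hp
    have f1 : ∀ i, CS (pc h (tP (E4Yb792.th1 M Bq η j) ξ ((ps₁.get i).pc P) (x₁ e i))) (Kf e) =
        CS (pc h (tP (E4Yb792.th1 M Bq η j) ξ ((ps₁.get i).pc P) (x₁ e i)))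
          (e.k * (nu2 e.o * e.D1 ^ 2 * (E4RH858.b1 e ^ 2 * bk))) := fun i => e2 _ (by
      intro n hn hnp
      have h1 : E4Yb792.th1 M Bq η j n ≠ 0 := right_ne_zero_of_mul hn
      exact th_cop hb0q (left_ne_zero_of_mul h1))
    have f2 : ∀ i, CS (pc h (tP (E4Yb792.th2 M Bq η j) (-2 * ξ) ((ps₂.get i).pc P)
          (x₂ e i))) (Kf e) =
        CS (pc h (tP (E4Yb792.th2 M Bq η j) (-2 * ξ) ((ps₂.get i).pc P) (x₂ e i)))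
          (e.k * (nu2 e.o * e.D1 ^ 2 * (E4RH858.b1 e ^ 2 * bk))) := fun i => e2 _ (by
      intro n hn hnp
      have h1 : E4Yb792.th2 M Bq η j n ≠ 0 := right_ne_zero_of_mul hn
      exact th_cop hb0q (left_ne_zero_of_mul h1))
    have e3 : ((nm (e.D1 * E4RH858.b1 e) : ℝ) ^ (-(1 / 2) : ℝ)) ^ 2 =
        (nm (e.D1 * E4RH858.b1 e) : ℝ)⁻¹ := by
      rw [← Real.rpow_natCast, ← Real.rpow_mul (Nat.cast_nonneg _)]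
      norm_num
      exact Real.rpow_neg_one _
    simp only [f1, f2]
    rw [mul_pow, e3, mul_pow]
    ring
  rw [sum_congr rfl e1]
  refine key.trans (mul_le_mul_of_nonneg_left ?_ (by positivity))
  refine mul_le_mul_of_nonneg_left (mul_le_mul_of_nonneg_right ?_ hSx) (by positivity)
  exact div_le_div_of_nonneg_right (by linarith) (by positivity)

/-- **no moved pieces**, moduli with `Pk` -/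
theorem hxG0kg {ε : ℝ} (hε : 0 < ε) : ∃ C : ℝ, 1 ≤ C ∧ ∀ {O : Type} [Fintype O] (M g1 g2 : Eis),
    IsPrim g1 → IsPrim g2 → ∀ (Y : ℝ), 1 ≤ Y → ∀ (lam : O → ℝ) (v : O → Eis → ℂ) (G : Eis → ℂ) (κ L Sx : ℝ), 0 < κ →
    0 < L → 0 ≤ Sx → ∀ (Pk : Eis → Prop) (Oc : Finset O) (𝒥 : Finset (Tm O)) (b1 : Tm O → Eis)
    (pk : O → Eis → Eis → Px O),
    (∀ t ∈ 𝒥, (t.o ∈ Oc ∧ Pk t.k) ∧ px t = pk t.o t.D1 (b1 t) ∧ Kw M κ t.k ∧ L ≤ lam t.o * nm t.k ∧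
      (IsPrim t.D1 ∧ (nm t.D1 : ℝ) ≤ Y) ∧ (IsPrim (b1 t) ∧ (nm (b1 t) : ℝ) ≤ Y)) →
    (∀ t ∈ 𝒥, g1 ∣ t.D1 ∧ g2 ∣ b1 t) →
    (∀ t ∈ 𝒥, ∀ t' ∈ 𝒥, t.o = t'.o → t.D1 = t'.D1 → b1 t = b1 t' → t.k = t'.k → t = t') →
    (∀ t ∈ 𝒥, ∑ o ∈ Oc, ∑ k ∈ (Dk M κ).filter Pk, (nm k : ℝ)⁻¹ *
        ‖Sd ((pk o t.D1 (b1 t)).v' v G) k‖ ^ 2 ≤ Sx) →
    ∑ t ∈ 𝒥, (nm (t.D1 * b1 t) : ℝ)⁻¹ * ((lam t.o * nm t.k)⁻¹ ^ 2 * ‖t.xs v G‖ ^ 2) ≤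
      ((nm g1 : ℝ) * nm g2)⁻¹ * (C * Y ^ ε * (κ / L ^ 2 * Sx)) := by
  obtain ⟨C2, hC2, h2⟩ := hx_ofg hε 0
  refine ⟨C2, hC2, ?_⟩
  intro O _ M g1 g2 hg1 hg2 Y hY lam v G κ L Sx hκ hL hSx Pk Oc 𝒥 b1 pk hJ hgg hinj hX
  obtain ⟨Hh, hHh⟩ : ∃ Hh : O → Eis → Eis → (Fin 0 → Eis) → Eis → ℝ, Hh =
      fun o _ _ _ k => if o ∈ Oc ∧ Pk k then 1 else 0 := ⟨_, rfl⟩
  have hHh0 : ∀ o D b ξ k, 0 ≤ Hh o D b ξ k := fun o D b ξ k => by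
    rw [hHh]
    simp only
    split_ifs
    · exact zero_le_one
    · exact le_rfl
  have key : ∀ t ∈ 𝒥, ∑ o, ∑ k ∈ Dk M κ, (nm k : ℝ)⁻¹ *
      (‖Sd ((pk o t.D1 (b1 t)).v' v G) k‖ ^ 2 * Hh o t.D1 (b1 t) Fin.elim0 k) ≤ Sx := by
    intro t ht
    refine le_trans (le_of_eq ?_) (hX t ht)
    symm
    rw [← sum_subset (subset_univ Oc)]
    · refine sum_congr rfl fun o ho => ?_
      rw [sum_filter]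
      refine sum_congr rfl fun k _ => ?_
      rw [hHh]
      simp only
      by_cases hk : Pk k
      · rw [if_pos hk, if_pos ⟨ho, hk⟩, mul_one]
      · rw [if_neg hk, if_neg (fun h' => hk h'.2)]
        ring
    · intro o _ ho
      refine sum_eq_zero fun k _ => ?_
      rw [hHh]
      simp only
      rw [if_neg (fun h' => ho h'.1)]
      ring
  have fin := h2 M g1 g2 hg1 hg2 Y hY lam v G κ L Sx hκ hL hSx 𝒥 b1 pk (fun _ => Fin.elim0) (fun _ _ => 1) Hh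
    hHh0 (fun t ht => by
      obtain ⟨-, q1, q2, q3, q4, q5⟩ := hJ t ht
      exact ⟨q1, q2, q3, q4, q5, fun i => i.elim0, fun i => i.elim0, one_ne_zero, by
        simpa using hY⟩) hgg hinj key
  have e3 : ∑ t ∈ 𝒥, (nm (t.D1 * b1 t) : ℝ)⁻¹ * ((lam t.o * nm t.k)⁻¹ ^ 2 * ‖t.xs v G‖ ^ 2) =
      ∑ t ∈ 𝒥, (nm (t.D1 * b1 t) : ℝ)⁻¹ * ((lam t.o * nm t.k)⁻¹ ^ 2 *
      (‖t.xs v G‖ ^ 2 * Hh t.o t.D1 (b1 t) Fin.elim0 t.k)) := by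
    refine sum_congr rfl fun t ht => ?_
    rw [hHh]
    simp only [if_pos (hJ t ht).1, mul_one]
  rw [e3]
  exact fin

/-- **the `x`-bracket without moved pieces**, moduli with `Pk` -/
theorem hx_br0Kg {ε : ℝ} (hε : 0 < ε) : ∃ C : ℝ, 1 ≤ C ∧ ∀ {O : Type} [Fintype O] (M g1 g2 : Eis),
    IsPrim g1 → IsPrim g2 → ∀ (Y : ℝ), 1 ≤ Y → ∀ (lam : O → ℝ) (v : O → Eis → ℂ) (G : Eis → ℂ) (cl : Win) (Pp : Pf)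
    (Pk : Eis → Prop) (Oc : Finset O) (𝒥 : Finset (Tm O)) (Sx : ℝ), 0 ≤ Sx →
    (∀ t ∈ 𝒥, Facts M t ∧ t.OK M 1 ∧ t.In lam cl ∧ pf t = Pp ∧ t.o ∈ Oc ∧
      (nm t.D1 : ℝ) ≤ Y ∧ (nm (E4RH858.b1 t) : ℝ) ≤ Y ∧ Pk t.k) →
    (∀ t ∈ 𝒥, g1 ∣ t.D1 ∧ g2 ∣ E4RH858.b1 t) →
    (∀ t ∈ 𝒥, ∑ o ∈ Oc, ∑ k ∈ (Dk M (2 ^ cl.nkk - 1 / 2)).filter Pk, (nm k : ℝ)⁻¹ *
        ‖Sd ((pkP Pp o t.D1 (E4RH858.b1 t)).v' v G) k‖ ^ 2 ≤ Sx) →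
    ∀ E' ⊆ 𝒥, ∑ e ∈ E', ((nm (e.D1 * E4RH858.b1 e) : ℝ) ^ (-(1 / 2) : ℝ) *
          ((lam e.o * nm e.k)⁻¹ * ‖e.xs v G‖)) ^ 2 ≤
        ((nm g1 : ℝ) * nm g2)⁻¹ * (C * Y ^ ε * (2 ^ cl.nkk / (2 ^ cl.nk) ^ 2 * Sx)) := by
  obtain ⟨C, hC, H⟩ := hxG0kg hε
  refine ⟨C, hC, ?_⟩
  intro O _ M g1 g2 hg1 hg2 Y hY lam v G cl Pp Pk Oc 𝒥 Sx hSx hJ hgg hX E' hE'
  have hκ : (0 : ℝ) < 2 ^ cl.nkk - 1 / 2 := by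
    have : (1 : ℝ) ≤ 2 ^ cl.nkk := one_le_pow₀ (by norm_num)
    linarith
  have hL : (0 : ℝ) < 2 ^ cl.nk := by positivity
  have key := H M g1 g2 hg1 hg2 Y hY lam v G (2 ^ cl.nkk - 1 / 2) (2 ^ cl.nk) Sx hκ hL hSx Pk Oc E'
    E4RH858.b1 (pkP Pp)
    (fun t ht => by
      obtain ⟨a1, a2, a3, a4, a5, a6, a7, a8⟩ := hJ t (hE' ht)
      exact ⟨⟨a5, a8⟩, px_pf a1 a4, kw_of_in a2 a3.hkk, a3.hk.1, ⟨a2.pD1, a6⟩,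
        ⟨E4RH858.prim_b1 t, a7⟩⟩)
    (fun t ht => hgg t (hE' ht))
    (fun t ht t' ht' h1 h2 h3 h4 => ext_pf (hJ t (hE' ht)).1 (hJ t' (hE' ht')).1
      ((hJ t (hE' ht)).2.2.2.1.trans (hJ t' (hE' ht')).2.2.2.1.symm) h1 h2 h3 h4)
    (fun t ht => hX t (hE' ht))
  have e1 : ∀ e ∈ E', ((nm (e.D1 * E4RH858.b1 e) : ℝ) ^ (-(1 / 2) : ℝ) *
          ((lam e.o * nm e.k)⁻¹ * ‖e.xs v G‖)) ^ 2 =
      (nm (e.D1 * E4RH858.b1 e) : ℝ)⁻¹ * ((lam e.o * nm e.k)⁻¹ ^ 2 * ‖e.xs v G‖ ^ 2) := by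
    intro e _
    have e3 : ((nm (e.D1 * E4RH858.b1 e) : ℝ) ^ (-(1 / 2) : ℝ)) ^ 2 =
        (nm (e.D1 * E4RH858.b1 e) : ℝ)⁻¹ := by
      rw [← Real.rpow_natCast, ← Real.rpow_mul (Nat.cast_nonneg _)]
      norm_num
      exact Real.rpow_neg_one _
    rw [mul_pow, e3, mul_pow]
  rw [sum_congr rfl e1]
  refine key.trans (mul_le_mul_of_nonneg_left ?_ (by positivity))
  have hY0 : 0 < Y := by linarith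
  refine mul_le_mul_of_nonneg_left (mul_le_mul_of_nonneg_right ?_ hSx) (by positivity)
  exact div_le_div_of_nonneg_right (by linarith) (by positivity)

end Crest.Agent.R017.JxS679
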