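import Crest.Agent.R017.JxT_679
import Crest.Agent.R017.E4ScE_266

/-!
# Row 17, class E, the `x`-side: the square part of a nonzero term (helper679)

* `v_nuX`, `sk_specX`, `cop_sk_b3X`, `b3_sk_cubeX` : any sequence `α`
* `sk_specE`, `cop_sk_b3E`, `b3_sk_cubeE` : at `vE`
-/

set_option autoImplicit false
set_option linter.unusedSectionVars false

noncomputable section

open Complex Finset
open scoped ComplexConjugate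

namespace Crest.Agent.R017.JxTE679

open Crest.Agent.R012 Crest.Agent.R012.Eis
open Crest.Agent.R012.Mob705 hiding pb mem_pb kap
open Crest.Agent.R012.GaussLoc283 (syAx)
open Crest.Agent.R017.Sx545 (Sm)
open Crest.Agent.R017.CM106 (FS)
open Crest.Agent.R017.C70
open Crest.Agent.R017.E5B71 Crest.Agent.R017.E4D164
open Crest.Agent.R017.B770 (DPar)
open Crest.Agent.R017.E5L770
open Crest.Agent.R017.E4U164
open Crest.Agent.R017.E4Df372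
open Crest.Agent.R017.ExP960 hiding alX
open Crest.Agent.R017.E4K164 (dc dc_spec)
open Crest.Agent.R017.E4352
open Crest.Agent.R017.E4J352 (Tm)
open Crest.Agent.R017.E4RG858 (pow_dvd_iff dvd_iff_mult mult_mul mult_eq_zero)
open Crest.Agent.R017.Str699 (b3 n3 mult_sqf)
open Crest.Agent.R017.JyF744 (nu2)
open Crest.Agent.R017.JxG679
open Crest.Agent.R017.JxS679 (sk sk_prim)
open Crest.Agent.R017.JxT679

section cls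

variable {Λ : Type*} {π : Λ → DPar} {lam : Λ × Eis}
  {Jf : ℝ → ℝ → ℝ → Finset (Eis × Eis)}
  {a : Bd × ℕ} {x : Dt} {Bf : ℝ → ℝ → ℝ → ℝ} {e0 r ε X : ℝ}

/-- **the support of the `x`-side**, `(r, ν) = 1` -/
theorem v_nuX (hJ : ∀ l N z, OKJ (Jf l N z)) (ha : a.1.ok) (hP : a.1.okP (π lam.1))
    (hx : x.OK (π lam.1) Bf e0 r ε X a.1) {ψ : Eis → ℂ} {l : ℤ} {α : Eis → ℂ}
    (o : x.O π lam Jf a) {y : Eis}
    (hy : vX (π lam.1).n₃ ψ l (x.I Jf a) (omL a.2) x.ph (x.E a.1) α x.g x.e₀ x.t x.c₀ x.g' o y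
      ≠ 0) :
    ∃ rr δ : Eis, IsPrim rr ∧ IsPrim δ ∧ IsCoprime o.1.1 δ ∧
      x.g' * y = rr * δ ^ 2 ∧ IsCoprime rr o.1.2 ∧ IsPrim o.1.1 ∧ IsPrim o.1.2 ∧
      (∀ p : Eis, IsPP p → multiplicity p o.1.1 ≤ 2) ∧
      ∀ p : Eis, Prime p → p ∣ x.g * x.e₀ * x.t → p ∣ o.1.1 := by
  classical
  unfold vX vI at hy
  obtain ⟨-, i, hi, h1, h2⟩ := pu_ne hy
  unfold II at hi
  rw [mem_filter] at hi
  obtain ⟨hi1, hi2, hi3, hi4⟩ := hi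
  obtain ⟨⟨hq, hxJ⟩, hcl⟩ := Dt.mem_I.mp hi1
  obtain ⟨hs, hc3⟩ := E4Us512.c3_sS hx ha hP hq
  have hJ3 : OKJ (J3 Jf a.1 a.2) := okJ3 hJ a.1 a.2
  have hjc : JC i.2.2 := hJ3.jc _ hxJ
  have hsi : jS (sS x.g x.e₀ x.t) i = sS x.g x.e₀ x.t i.1 := rfl
  have hji : jJ (sS x.g x.e₀ x.t) i = E5b54.stj (sS x.g x.e₀ x.t i.1) i.2.2 := rfl
  obtain ⟨hst, e, he, hst2⟩ := E5b54.stj_spec hs hjc
  obtain ⟨d1, d2, d3, d4, d5, d6, d7⟩ := dc_spec hst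
  have hδ : IsPrim (jD i) := hJ3.prim _ hxJ
  unfold cI at h2
  have c1 := left_ne_zero_of_mul h2
  have c2 := left_ne_zero_of_mul c1
  have c3 : jC (sS x.g x.e₀ x.t) (cE x.ph (omL a.2) α x.e₀) i ≠ 0 := by
    intro h0
    apply c2
    rw [h0, map_zero]
  have c6 : sy (sS x.g x.e₀ x.t i.1) (jD i) ≠ 0 := by
    unfold jC at c3
    exact right_ne_zero_of_mul c3
  have hcop1 : IsCoprime (sS x.g x.e₀ x.t i.1) (jD i) := by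
    by_contra hc
    exact c6 ((syAx.eq_zero _ _ hδ).mpr hc)
  obtain ⟨q1, q2, q3, -⟩ := hx.Q i.1 hq
  obtain ⟨g1, g2, g3⟩ := (E5P571.mem_Gd ha.2.2).mp hx.g
  have hEp : IsPrim (x.E a.1) := hP.1.prim.mul (T3_prim x.β hx.β)
  obtain ⟨t1, t2, -⟩ := (E5P571.mem_Gd (tS_prim hEp).ne_zero).mp hx.t
  obtain ⟨-, e1, e2⟩ := (LS2.mem_S (Real.exp_nonneg _)).mp hx.e₀
  have hqg : IsCoprime i.1 x.g := q3.of_isCoprime_of_dvd_right g3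
  have m2 : ∀ p : Eis, IsPP p → multiplicity p (sS x.g x.e₀ x.t i.1) ≤ 2 := fun p hp =>
    Str699.mult_sS_le g1.prim g2 e1 e2 t1.prim t2 q1.prim q2 hqg hp
  refine ⟨(dc (jJ (sS x.g x.e₀ x.t) i)).2.1, jD i, d2, hδ, ?_, ?_, ?_, ?_, ?_, ?_, ?_⟩
  · rw [← hi3]
    exact hcop1
  · rw [← h1]
    rfl
  · rw [← hi4]
    exact d6
  · rw [← hi3]
    exact hs
  · rw [← hi4]
    exact d4
  · rw [← hi3]
    exact m2
  · intro p hp hd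
    rw [← hi3]
    show p ∣ sS x.g x.e₀ x.t i.1
    have L1 := (DgA829.lc_dvd (((q1.prim.pow 2).mul g1.prim)) e1
      (DgA829.lc (i.1 ^ 2 * x.g) x.e₀)).mp dvd_rfl
    have L2 := (DgA829.lc_dvd (DgA829.lc_prim ((q1.prim.pow 2).mul g1.prim) e1) t1.prim
        (DgA829.lc (DgA829.lc (i.1 ^ 2 * x.g) x.e₀) x.t)).mp dvd_rfl
    rcases hp.dvd_or_dvd hd with h | h
    · rcases hp.dvd_or_dvd h with h | h
      · exact h.trans ((dvd_mul_left _ _).trans (L1.1.trans L2.1))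
      · exact h.trans (L1.2.trans L2.1)
    · exact h.trans L2.2

variable {t : Tm (x.O π lam Jf a)}

/-- the primes of the square part : `p ∣ S`, `p ∤ ν`, `p² ∣ k` -/
theorem sk_specX (hJ : ∀ l N z, OKJ (Jf l N z)) (ha : a.1.ok) (hP : a.1.okP (π lam.1))
    (hx : x.OK (π lam.1) Bf e0 r ε X a.1) {ψ : Eis → ℂ} {l : ℤ} {α G : Eis → ℂ}
    (hok : t.OK (π lam.1).n₃ 1) (hxs : t.xs
      (vX (π lam.1).n₃ ψ l (x.I Jf a) (omL a.2) x.ph (x.E a.1) α x.g x.e₀ x.t x.c₀ x.g') G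
      ≠ 0) :
    (∀ p : Eis, Prime p → p ∣ x.g * x.e₀ * x.t → p ∣ t.o.1.1) ∧
    IsPrim t.o.1.1 ∧ IsPrim t.o.1.2 ∧ (∀ p : Eis, IsPP p → multiplicity p t.o.1.1 ≤ 2) ∧
    ∀ p : Eis, IsPP p → p ∣ x.g * x.e₀ * x.t → p ^ 2 ∣ t.k → ¬ p ∣ t.o.1.2 := by
  have hv0 : ∀ y, vX (π lam.1).n₃ ψ l (x.I Jf a) (omL a.2) x.ph (x.E a.1) α x.g x.e₀ x.t x.c₀
      x.g' t.o y ≠ 0 → y ≠ 0 := by
    intro y hy
    obtain ⟨rr, δ, h1, h2, -, h4, -⟩ := v_nuX hJ ha hP hx t.o hy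
    have h5 : x.g' * y ≠ 0 := by
      rw [h4]
      exact mul_ne_zero h1.ne_zero (pow_ne_zero 2 h2.ne_zero)
    exact right_ne_zero_of_mul h5
  obtain ⟨y, hy, hp⟩ := x_of_xs hok hxs hv0
  obtain ⟨rr, δ, h1, h2, h3, h4, h5, h6, h7, h8, h9⟩ := v_nuX hJ ha hP hx t.o hy
  refine ⟨h9, h6, h7, h8, fun p hpp hg hk hnu => ?_⟩
  have hS := h9 p hpp.prime hg
  have hy2 : p ∣ rr * δ ^ 2 := by
    rw [← h4]
    exact (hp p hpp hk).mul_left _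
  rcases hpp.prime.dvd_or_dvd hy2 with h10 | h10
  · exact hpp.prime.not_isUnit (h5.isUnit_of_dvd' h10 hnu)
  · exact hpp.prime.not_isUnit (h3.isUnit_of_dvd' hS (hpp.prime.dvd_of_dvd_pow h10))

/-- **`(s₁, β₀) = 1`** -/
theorem cop_sk_b3X (hJ : ∀ l N z, OKJ (Jf l N z)) (ha : a.1.ok) (hP : a.1.okP (π lam.1))
    (hx : x.OK (π lam.1) Bf e0 r ε X a.1) {ψ : Eis → ℂ} {l : ℤ} {α G : Eis → ℂ}
    (hok : t.OK (π lam.1).n₃ 1) (hxs : t.xs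
      (vX (π lam.1).n₃ ψ l (x.I Jf a) (omL a.2) x.ph (x.E a.1) α x.g x.e₀ x.t x.c₀ x.g') G
      ≠ 0) :
    IsCoprime (sk (x.g * x.e₀ * x.t) t.k) (b3 (t.o.1.1 * t.o.1.2)) := by
  classical
  obtain ⟨h1, h2, h3, h4, h5⟩ := sk_specX hJ ha hP hx hok hxs
  obtain ⟨g1, g2, g3⟩ := (E5P571.mem_Gd ha.2.2).mp hx.g
  have hEp : IsPrim (x.E a.1) := hP.1.prim.mul (T3_prim x.β hx.β)
  obtain ⟨t1, t2, -⟩ := (E5P571.mem_Gd (tS_prim hEp).ne_zero).mp hx.t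
  obtain ⟨-, e1, e2⟩ := (LS2.mem_S (Real.exp_nonneg _)).mp hx.e₀
  have hg0 : x.g * x.e₀ * x.t ≠ 0 := ((g1.prim.mul e1).mul t1.prim).ne_zero
  by_contra hc
  obtain ⟨p, hp, hp1, hp2⟩ := E4St352.exists_pp_of_not (sk_prim _ _) hc
  obtain ⟨q1, q2⟩ := (mem_sk hg0 hp).mp hp1
  have q3 := h5 p hp q1 q2
  unfold b3 at hp2
  obtain ⟨q, hq, hd⟩ := (hp.prime.dvd_finsetProd_iff _).mp hp2
  obtain ⟨w1, w2⟩ := mem_filter.mp hq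
  have hqp : p = q := hp.eq_of_dvd (isPP_of_mem_pp w1) hd
  subst hqp
  rw [mult_mul hp.prime h2.ne_zero h3.ne_zero, mult_eq_zero hp.prime h3.ne_zero q3] at w2
  have := h4 p hp
  omega

/-- **`(β₀ s₁)³ ∣ k S ν`** -/
theorem b3_sk_cubeX (hJ : ∀ l N z, OKJ (Jf l N z)) (ha : a.1.ok) (hP : a.1.okP (π lam.1))
    (hx : x.OK (π lam.1) Bf e0 r ε X a.1) {ψ : Eis → ℂ} {l : ℤ} {α G : Eis → ℂ}
    (hok : t.OK (π lam.1).n₃ 1) (hxs : t.xs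
      (vX (π lam.1).n₃ ψ l (x.I Jf a) (omL a.2) x.ph (x.E a.1) α x.g x.e₀ x.t x.c₀ x.g') G
      ≠ 0) :
    (b3 (t.o.1.1 * t.o.1.2) * sk (x.g * x.e₀ * x.t) t.k) ^ 3 ∣ t.k * nu2 t.o := by
  obtain ⟨h1, h2, h3, -, -⟩ := sk_specX hJ ha hP hx hok hxs
  have hc := cop_sk_b3X hJ ha hP hx hok hxs
  have e1 : b3 (t.o.1.1 * t.o.1.2) ^ 3 ∣ t.k * nu2 t.o := by
    have h4 := Str699.n3_mul (h2.mul h3)
    have h5 : b3 (t.o.1.1 * t.o.1.2) ^ 3 ∣ t.o.1.1 * t.o.1.2 := ⟨n3 (t.o.1.1 * t.o.1.2),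
      h4.trans (mul_comm _ _)⟩
    exact h5.mul_left _
  have e2 : sk (x.g * x.e₀ * x.t) t.k ^ 3 ∣ t.k * nu2 t.o := by
    refine sk_pow_dvd fun p hp h4 h5 => ?_
    have h6 : p ^ 2 * p ∣ t.k * nu2 t.o := mul_dvd_mul h5 ((h1 p hp.prime h4).mul_right _)
    rwa [← pow_succ] at h6
  rw [mul_pow]
  exact (hc.symm.pow (m := 3) (n := 3)).mul_dvd e1 e2

end cls

/-! ### the data of class E -/

section dat

variable {Λ : Type*} {π : Λ → DPar} {h : ℝ → ℝ} {lam : Λ × Eis}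
  {Jf : ℝ → ℝ → ℝ → Finset (Eis × Eis)}
  {a : BdX × ℕ} {x : Dt} {Bf : ℝ → ℝ → ℝ → ℝ} {e0 r ε X : ℝ} {t : Tm (x.O π lam Jf (bl a))}

/-- the primes of the square part : `p ∣ S`, `p ∤ ν`, `p² ∣ k` -/
theorem sk_specE (hJ : ∀ l N z, OKJ (Jf l N z)) (ha : a.1.ok) (hP : a.1.okP (π lam.1))
    (hx : x.OK (π lam.1) Bf e0 r ε X a.1.toBd) {G : Eis → ℂ} (hok : t.OK (π lam.1).n₃ 1)
    (hxs : t.xs (vE π h lam Jf a x) G ≠ 0) :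
    (∀ p : Eis, Prime p → p ∣ x.g * x.e₀ * x.t → p ∣ t.o.1.1) ∧
    IsPrim t.o.1.1 ∧ IsPrim t.o.1.2 ∧ (∀ p : Eis, IsPP p → multiplicity p t.o.1.1 ≤ 2) ∧
    ∀ p : Eis, IsPP p → p ∣ x.g * x.e₀ * x.t → p ^ 2 ∣ t.k → ¬ p ∣ t.o.1.2 :=
  sk_specX (a := bl a) hJ ha.base hP hx hok hxs

/-- **`(s₁, β₀) = 1`** -/
theorem cop_sk_b3E (hJ : ∀ l N z, OKJ (Jf l N z)) (ha : a.1.ok) (hP : a.1.okP (π lam.1))
    (hx : x.OK (π lam.1) Bf e0 r ε X a.1.toBd) {G : Eis → ℂ} (hok : t.OK (π lam.1).n₃ 1)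
    (hxs : t.xs (vE π h lam Jf a x) G ≠ 0) :
    IsCoprime (sk (x.g * x.e₀ * x.t) t.k) (b3 (t.o.1.1 * t.o.1.2)) :=
  cop_sk_b3X (a := bl a) hJ ha.base hP hx hok hxs

/-- **`(β₀ s₁)³ ∣ k S ν`** -/
theorem b3_sk_cubeE (hJ : ∀ l N z, OKJ (Jf l N z)) (ha : a.1.ok) (hP : a.1.okP (π lam.1))
    (hx : x.OK (π lam.1) Bf e0 r ε X a.1.toBd) {G : Eis → ℂ} (hok : t.OK (π lam.1).n₃ 1)
    (hxs : t.xs (vE π h lam Jf a x) G ≠ 0) :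
    (b3 (t.o.1.1 * t.o.1.2) * sk (x.g * x.e₀ * x.t) t.k) ^ 3 ∣ t.k * nu2 t.o :=
  b3_sk_cubeX (a := bl a) hJ ha.base hP hx hok hxs

end dat

end Crest.Agent.R017.JxTE679
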