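import Crest.Agent.R017.Jy_61
import Crest.Agent.R017.YX_61

/-!
# Row 17, C70/E4 v7: the `y`-side, children premises with tolerances (helper61)

* `yv_tol` : `YV61.yv_list` with tolerances `σ` for the family (one-sided), the lengths and the
  shortenings; `GoodYM` instead of `GoodY`
* `yv_stol` : the same for 792's shifted pieces
-/

set_option autoImplicit false

noncomputable section

open Set

namespace Crest.Agent.R017.Jy61

open Crest.Agent.R012 Crest.Agent.R012.Eis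
open Crest.Agent.R012.LS2 (bl mem_bl)
open Crest.Agent.R017.FE47
open Crest.Agent.R017.XG702 (Pcs BG)
open Crest.Agent.R017.Prov71
open Crest.Agent.R017.B770
open Crest.Agent.R017.End699 Crest.Agent.R017.Sup271
open Crest.Agent.R017.ER911 Crest.Agent.R017.SC777 Crest.Agent.R017.ExpC702
open Crest.Agent.R017.HP842 (Pc pc)
open Crest.Agent.R017.Rough381 (Ls cst Ch)
open Crest.Agent.R017.UBR61 Crest.Agent.R017.YM61 Crest.Agent.R017.YP61 Crest.Agent.R017.YC61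
open Crest.Agent.R017.YU61 Crest.Agent.R017.YV61
open Crest.Agent.R017.E4Yb792 (shf)

lemma RQ_mono_l (Q : Eis → Prop) (h : ℝ → ℝ) {l l' : ℝ} (hl : l ≤ l') (ps : List Pc) :
    RQ Q h l ps ≤ RQ Q h l' ps := by
  classical
  have hb : bl (Real.exp l) ⊆ bl (Real.exp l') := by
    intro k hk
    rw [mem_bl (Real.exp_pos _).le] at hk ⊢
    exact ⟨hk.1, hk.2.trans (Real.exp_le_exp.2 hl)⟩
  unfold RQ
  refine Finset.sum_le_sum_of_subset_of_nonneg (Finset.filter_subset_filter _ hb) fun k _ _ => ?_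
  refine List.prod_nonneg ?_
  intro a ha
  obtain ⟨p, _, rfl⟩ := List.mem_map.1 ha
  positivity

section
variable {Λ : Type*} {π : Λ → DPar} {h : ℝ → ℝ} {d : ℝ} {r s : EF}
variable {c₀ : ℝ} (hpu : PU h c₀) (hP : ∀ lam, (π lam).OK)
  (hN : ∀ lam k, k ≠ 0 → NPm (π lam).n (π lam).ψ (π lam).l₂ k)
  (R : ExpRules (7 / 8 + d) r s) (C : ExpC r (ex Dq (fun lam => Rc (π lam) h)))

include hpu hP hN R C

/-- **children of a list, with tolerances** -/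
theorem yv_tol (hd : 0 ≤ d) (hd8 : d ≤ 1 / 8) {K : ℝ} (hK : 0 ≤ K) {ε : ℝ} (hε : 0 < ε) :
    ∃ σ : ℝ, 0 < σ ∧ ∀ (lam : Λ) (N : ℕ) (B : ℝ), ∃ M₀ : ℕ, ∀ ρ : ℝ, 0 ≤ ρ →
    ∃ X₀ : ℝ, 1 < X₀ ∧ ∀ X : ℝ, X₀ ≤ X →
    ∀ (u₁ u₂ : Pq) (qs₁ qs₂ : List Pq), Dq.lump u₁ → Dq.lump u₂ → qs₁.length ≤ N →
      qs₂.length ≤ N → (∀ p ∈ qs₁, p.kd = .am) → (∀ p ∈ qs₂, p.kd = .mo) →
      (∀ p ∈ qs₁, Dq.nl X p ≤ σ) → (∀ p ∈ qs₂, Dq.lump p ∨ Dq.nl X p ≤ σ) →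
      (nm u₁.d : ℝ) ≤ X ^ B → (nm u₂.d : ℝ) ≤ X ^ B → (∀ p ∈ qs₁, (nm p.d : ℝ) ≤ X ^ B) →
      (∀ p ∈ qs₂, (nm p.d : ℝ) ≤ X ^ B) →
    ∀ H : ℝ, 1 + |u₁.t| ≤ H → 1 + |u₂.t| ≤ H → (∀ p ∈ qs₁, 1 + |p.t| ≤ H) →
      (∀ p ∈ qs₂, 1 + |p.t| ≤ H) →
    ∀ l α β κ Mv q w y e : ℝ, 0 ≤ l → 0 ≤ κ → κ ≤ K → Mv ≤ K → 0 ≤ q → q ≤ K → 0 ≤ w → w ≤ K →
      0 ≤ y → l / Real.log X ≤ κ + σ → |(u₁.z + u₂.z - β) / Real.log X - Mv| ≤ σ →
      |Ls qs₂ / Real.log X - q| ≤ σ → |max 0 ((Ls qs₁ - α) / Real.log X) - w| ≤ σ →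
      |β / Real.log X - y| ≤ σ → GoodYM d κ Mv q w y e →
    ∀ ps₁ us : List Pq, List.Forall₂ (Ch ρ) ps₁ qs₁ → List.Forall₂ (Ch ρ) us (u₁ :: u₂ :: qs₂) →
      |Ls qs₁ - Ls ps₁ - α| ≤ σ * Real.log X →
      |Ls (u₁ :: u₂ :: qs₂) - Ls us - β| ≤ σ * Real.log X →
      RQ (fun _ => True) h l (ps₁.map (Pq.pc (π lam)) ++ us.map (Pq.pc (π lam))) ≤
        (H * (cst ps₁ qs₁ * cst us (u₁ :: u₂ :: qs₂))) ^ M₀ * X ^ (e + ε) := by
  obtain ⟨σ, hσ, V⟩ := yu_core hpu hP hN (fun _ => 0) R C hd hd8 (K := 2 * K) (by linarith) hε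
  refine ⟨σ / 8, by linarith, fun lam N B => ?_⟩
  obtain ⟨M₀, X₀, hX₀, W⟩ := V lam (N + N) B
  refine ⟨M₀, fun ρ hρ => ?_⟩
  -- `log X` large
  set T : ℝ := (N + 3) * (ρ + 1) * (8 / σ) + (ρ + 1) with hT
  have hT0 : 0 < T := by positivity
  refine ⟨max (max X₀ 2) (Real.exp T),
    lt_of_lt_of_le hX₀ ((le_max_left _ _).trans (le_max_left _ _)), ?_⟩
  intro X hX u₁ u₂ qs₁ qs₂ hu₁ hu₂ hl₁ hl₂ hk₁ hk₂ hg₁ hg₂ hm1 hm2 hmq₁ hmq₂ H ht1 ht2 htq₁ htq₂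
    l α β κ Mv q w y e hl0 hκ0 hκK hMK hq0 hqK hw0 hwK hy0 tκ tM tq tw ty hG ps₁ us hc₁ hcu
    hα hβ
  have hX0' : X₀ ≤ X := ((le_max_left _ _).trans (le_max_left _ _)).trans hX
  have hX1 : 1 < X := by linarith
  have hX0 : 0 < X := by linarith
  have hL : T ≤ Real.log X := by
    rw [← Real.log_exp T]
    exact Real.log_le_log (Real.exp_pos _) ((le_max_right _ _).trans hX)
  have hlog : 0 < Real.log X := lt_of_lt_of_le hT0 hL
  -- small quotients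
  have hsm : ∀ y : ℝ, y ≤ (N + 3) * ρ → y / Real.log X ≤ σ / 8 := by
    intro y hy
    rw [div_le_iff₀ hlog]
    have h1 : (N + 3) * (ρ + 1) * (8 / σ) ≤ Real.log X := by linarith
    have h2 : (N + 3) * (ρ + 1) ≤ σ / 8 * Real.log X := by
      have := mul_le_mul_of_nonneg_left h1 (show 0 ≤ σ / 8 by linarith)
      calc (N + 3) * (ρ + 1) = σ / 8 * ((N + 3) * (ρ + 1) * (8 / σ)) := by field_simp
        _ ≤ _ := this
    have h3 : ((N : ℝ) + 3) * ρ ≤ (N + 3) * (ρ + 1) := by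
      have : (0 : ℝ) ≤ N := Nat.cast_nonneg _
      nlinarith
    linarith
  have hN0 : (0 : ℝ) ≤ N := Nat.cast_nonneg _
  have hρN : ρ ≤ (N + 3) * ρ := by nlinarith
  obtain ⟨v₁, us₁, hv₁, hus₁, rfl⟩ := List.forall₂_cons_right_iff.1 hcu
  obtain ⟨v₂, ps₂, hv₂, hps₂, rfl⟩ := List.forall₂_cons_right_iff.1 hus₁
  rw [Ls_cons, Ls_cons, Ls_cons, Ls_cons] at hβ
  obtain ⟨b1, b2⟩ := abs_le.1 hβ
  obtain ⟨a1, a2⟩ := abs_le.1 hα
  have hz₁ := ch_z hc₁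
  have hz₂ := ch_z hps₂
  have hLs₁ := Ls_nonneg hz₁
  have hLs₂ := Ls_nonneg hz₂
  have hkd₁ := ch_kd hc₁ hk₁
  have hkd₂ := ch_kd hps₂ hk₂
  have hLle := ch_Ls hps₂
  have hlen₂ : (qs₂.length : ℝ) ≤ N := by exact_mod_cast hl₂
  have hLle' : Ls ps₂ ≤ Ls qs₂ + N * ρ := by nlinarith
  have hlv : ∀ {p' p : Pq}, Ch ρ p' p → Dq.lump p → Dq.lump p' := by
    intro p' p hch hp
    rw [Dq_lump] at hp ⊢
    exact ⟨hch.1.trans hp.1, hch.2.2.1 hp.2⟩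
  have hmass : ∀ t, Dq.mass X (ps₁ ++ ps₂) t =
      (if Kd.am = t then Ls ps₁ / Real.log X else 0) +
        if Kd.mo = t then Ls ps₂ / Real.log X else 0 := by
    intro t
    rw [Pcs.mass_append, mass_kd hkd₁, mass_kd hkd₂]
  have hmo : Dq.mass X (ps₁ ++ ps₂) .mo = Ls ps₂ / Real.log X := by
    rw [hmass]; simp
  have ham : Dq.mass X (ps₁ ++ ps₂) .am = Ls ps₁ / Real.log X := by
    rw [hmass]; simp
  have hH1 : 1 ≤ H := le_trans (by linarith [abs_nonneg u₁.t]) ht1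
  set c₁ := cst ps₁ qs₁ with hc₁'
  set c₂ := cst (v₁ :: v₂ :: ps₂) (u₁ :: u₂ :: qs₂) with hc₂'
  have g1 : 1 ≤ c₁ := one_le_cst _ _
  have g2 : 1 ≤ c₂ := one_le_cst _ _
  have hHH : 1 ≤ H * (c₁ * c₂) :=
    one_le_mul_of_one_le_of_one_le hH1 (one_le_mul_of_one_le_of_one_le g1 g2)
  have hh₁ : ∀ p ∈ ps₁, 1 + |p.t| ≤ H * (c₁ * c₂) := fun p hp =>
    (height_le hc₁ htq₁ p hp).trans (mul_le_mul_of_nonneg_left
      (le_mul_of_one_le_right (by linarith) g2) (by linarith))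
  have hh₂ : ∀ p ∈ v₁ :: v₂ :: ps₂, 1 + |p.t| ≤ H * (c₁ * c₂) := by
    intro p hp
    have h0 : ∀ q ∈ u₁ :: u₂ :: qs₂, 1 + |q.t| ≤ H := by
      intro q hq
      rcases List.mem_cons.1 hq with rfl | hq
      · exact ht1
      rcases List.mem_cons.1 hq with rfl | hq
      · exact ht2
      · exact htq₂ q hq
    exact (height_le hcu h0 p hp).trans (mul_le_mul_of_nonneg_left
      (le_mul_of_one_le_left (by linarith) g1) (by linarith))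
  have hmo0 : 0 ≤ Dq.mass X (ps₁ ++ ps₂) .mo := by
    rw [hmo]; exact div_nonneg hLs₂ hlog.le
  set l' : ℝ := max l ((κ - σ / 8) * Real.log X) with hl'd
  have hll' : l ≤ l' := le_max_left _ _
  have hl'0 : 0 ≤ l' := hl0.trans hll'
  have tκ' : |l' / Real.log X - κ| ≤ σ := by
    have e1 : l' / Real.log X = max (l / Real.log X) (κ - σ / 8) := by
      rw [hl'd, ← max_div_div_right hlog.le, mul_div_cancel_right₀ _ hlog.ne']
    rw [e1, abs_le]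
    constructor
    · have := le_max_right (l / Real.log X) (κ - σ / 8)
      linarith
    · have : max (l / Real.log X) (κ - σ / 8) ≤ κ + σ / 8 := max_le tκ (by linarith)
      linarith
  have key : ∀ M' q' Y' : ℝ, M' ≤ 2 * K → 0 ≤ q' → q' ≤ 2 * K → 0 ≤ Y' →
      Dq.mass X (ps₁ ++ ps₂) .mo ≤ q' + σ → q' - Y' - σ ≤ Dq.mass X (ps₁ ++ ps₂) .mo →
      |(v₁.z + v₂.z) / Real.log X + Dq.mass X (ps₁ ++ ps₂) .mo - (M' + q')| ≤ σ →
      GoodY d κ M' q' w Y' e →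
      RT (π lam) h (l' + 0) (v₁ :: v₂ :: (ps₁ ++ ps₂)) ≤
        (H * (c₁ * c₂)) ^ M₀ * X ^ (e + ε) := by
    intro M' q' Y' hM'K hq'0 hq'K hY'0 k1 k2 k3 hG'
    exact W X hX0' ⟨l', v₁, v₂⟩ (ps₁ ++ ps₂)
      ⟨⟨hlv hv₁ hu₁, hv₁.2.2.2.1⟩, ⟨hlv hv₂ hu₂, hv₂.2.2.2.1⟩⟩ hl'0
      (by
        rw [List.length_append, hc₁.length_eq, hps₂.length_eq]
        omega)
      (by
        intro p hp
        have hgen : ∀ {p' q : Pq}, Ch ρ p' q → Dq.nl X q ≤ σ / 8 → Dq.nl X p' ≤ σ := by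
          intro p' q hch hq
          have e1 : Dq.nl X p' ≤ Dq.nl X q + ρ / Real.log X := by
            unfold Pcs.nl
            rw [← add_div]
            exact div_le_div_of_nonneg_right hch.2.2.2.2 hlog.le
          linarith [hsm ρ hρN]
        rcases List.mem_append.1 hp with hp | hp
        · right
          exact ch_all hc₁ (Q := fun q => Dq.nl X q ≤ σ / 8) (Q' := fun q => Dq.nl X q ≤ σ)
            (fun p' q hch hq => hgen hch hq) hg₁ p hp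
        · exact ch_all hps₂ (Q := fun q => Dq.lump q ∨ Dq.nl X q ≤ σ / 8)
            (Q' := fun q => Dq.lump q ∨ Dq.nl X q ≤ σ)
            (fun p' q hch hq => hq.imp (fun h' => hlv hch h') fun h' => hgen hch h') hg₂ p hp)
      (by
        refine max_le ?_ ?_
        · show (nm v₁.d : ℝ) ≤ X ^ B
          rw [hv₁.2.1]; exact hm1
        · show (nm v₂.d : ℝ) ≤ X ^ B
          rw [hv₂.2.1]; exact hm2)
      (by
        intro p hp
        rcases List.mem_append.1 hp with hp | hp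
        · refine ⟨?_, hz₁ p hp⟩
          exact ch_all hc₁ (Q := fun q => (nm q.d : ℝ) ≤ X ^ B)
            (Q' := fun q => (nm q.d : ℝ) ≤ X ^ B) (fun p' q hch hq => by rw [hch.2.1]; exact hq)
            hmq₁ p hp
        · refine ⟨?_, hz₂ p hp⟩
          exact ch_all hps₂ (Q := fun q => (nm q.d : ℝ) ≤ X ^ B)
            (Q' := fun q => (nm q.d : ℝ) ≤ X ^ B) (fun p' q hch hq => by rw [hch.2.1]; exact hq)
            hmq₂ p hp)
      (H * (c₁ * c₂)) hHH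
      (max_le (hh₂ v₁ List.mem_cons_self) (hh₂ v₂ (List.mem_cons_of_mem _ List.mem_cons_self)))
      (by
        intro p hp
        rcases List.mem_append.1 hp with hp | hp
        · exact hh₁ p hp
        · exact hh₂ p (List.mem_cons_of_mem _ (List.mem_cons_of_mem _ hp)))
      κ M' q' w Y' e hκ0 (hκK.trans (by linarith)) hM'K hq'0 hq'K hw0 (hwK.trans (by linarith)) hY'0
      tκ'
      (by
        rw [ham]
        have e0 : 0 ≤ Ls ps₁ / Real.log X := div_nonneg hLs₁ hlog.le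
        have e1 : |Ls ps₁ / Real.log X - (Ls qs₁ - α) / Real.log X| ≤ σ / 8 := by
          rw [← sub_div, abs_div, abs_of_pos hlog, div_le_iff₀ hlog, abs_le]
          constructor <;> linarith
        obtain ⟨e2, e3⟩ := abs_le.1 e1
        obtain ⟨e4, e5⟩ := abs_le.1 tw
        rw [abs_le]
        rcases le_total 0 ((Ls qs₁ - α) / Real.log X) with h' | h'
        · rw [max_eq_right h'] at e4 e5; constructor <;> linarith
        · rw [max_eq_left h'] at e4 e5; constructor <;> linarith)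
      k1 k2 k3 hG'
  obtain ⟨t4, t5⟩ := abs_le.1 tq
  obtain ⟨t6, t7⟩ := abs_le.1 ty
  have hup : Dq.mass X (ps₁ ++ ps₂) .mo ≤ q + σ := by
    rw [hmo]
    have e1 : Ls ps₂ / Real.log X ≤ Ls qs₂ / Real.log X + (N * ρ) / Real.log X := by
      rw [← add_div]
      exact div_le_div_of_nonneg_right hLle' hlog.le
    have e2 := hsm (N * ρ) (by nlinarith)
    linarith
  have hlo : q - y - σ ≤ Dq.mass X (ps₁ ++ ps₂) .mo := by
    rw [hmo]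
    have e0 : Ls qs₂ - β - 2 * ρ - σ / 8 * Real.log X ≤ Ls ps₂ := by
      have := hv₁.2.2.2.2
      have := hv₂.2.2.2.2
      linarith
    have e1 : Ls qs₂ / Real.log X - β / Real.log X - (2 * ρ) / Real.log X - σ / 8 ≤
        Ls ps₂ / Real.log X := by
      have e3 : σ / 8 = σ / 8 * Real.log X / Real.log X := by field_simp
      rw [e3, ← sub_div, ← sub_div, ← sub_div]
      exact div_le_div_of_nonneg_right e0 hlog.le
    have e2 := hsm (2 * ρ) (by nlinarith)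
    linarith
  have htot : |(v₁.z + v₂.z) / Real.log X + Dq.mass X (ps₁ ++ ps₂) .mo - (Mv + q)| ≤ σ / 2 := by
    rw [hmo]
    have e1 : |(v₁.z + v₂.z) / Real.log X + Ls ps₂ / Real.log X -
        ((u₁.z + u₂.z - β) / Real.log X + Ls qs₂ / Real.log X)| ≤ σ / 8 := by
      rw [← add_div, ← add_div, ← sub_div, abs_div, abs_of_pos hlog, div_le_iff₀ hlog, abs_le]
      constructor <;> linarith
    obtain ⟨e2, e3⟩ := abs_le.1 e1
    obtain ⟨e6, e7⟩ := abs_le.1 tM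
    rw [abs_le]
    constructor <;> linarith
  have hv0 : 0 ≤ (v₁.z + v₂.z) / Real.log X :=
    div_nonneg (add_nonneg hv₁.2.2.2.1 hv₂.2.2.2.1) hlog.le
  obtain ⟨o1, o2⟩ := abs_le.1 htot
  have key : RT (π lam) h (l' + 0) (v₁ :: v₂ :: (ps₁ ++ ps₂)) ≤
      (H * (c₁ * c₂)) ^ M₀ * X ^ (e + ε) := by
    rcases hG with hG | ⟨Y, hY0, hY, hG⟩
    · exact key Mv q y (hMK.trans (by linarith)) hq0 (hqK.trans (by linarith)) hy0 hup hlo
        (htot.trans (by linarith)) hG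
    · refine key 0 (max 0 (Mv + q)) Y (by linarith) (le_max_left _ _)
        (max_le (by linarith) (by linarith)) hY0 ?_ ?_ ?_ hG
      · have := le_max_right 0 (Mv + q)
        linarith
      · rcases le_total 0 (Mv + q) with h' | h'
        · rw [max_eq_right h']
          rcases hY with hY | hY <;> linarith
        · rw [max_eq_left h']
          linarith
      · rw [abs_le]
        rcases le_total 0 (Mv + q) with h' | h'
        · rw [max_eq_right h']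
          constructor <;> linarith
        · rw [max_eq_left h']
          constructor <;> linarith
  refine (RQ_mono_l _ h hll' _).trans ?_
  refine le_trans (le_of_eq ?_) key
  show RQ (fun _ => True) h l' (ps₁.map (Pq.pc (π lam)) ++ (v₁ :: v₂ :: ps₂).map (Pq.pc (π lam))) =
    RQ (fun _ => True) h (l' + 0) ((v₁ :: v₂ :: (ps₁ ++ ps₂)).map (Pq.pc (π lam)))
  rw [add_zero, ← List.map_append]
  refine RQ_perm _ h l' (List.Perm.map _ ?_)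
  have p1 : (ps₁ ++ v₁ :: v₂ :: ps₂).Perm (v₁ :: (ps₁ ++ v₂ :: ps₂)) := List.perm_middle
  have p2 : (ps₁ ++ v₂ :: ps₂).Perm (v₂ :: (ps₁ ++ ps₂)) := List.perm_middle
  exact p1.trans (p2.cons v₁)

/-- **children of a list, shifted pieces, with tolerances** -/
theorem yv_stol (hd : 0 ≤ d) (hd8 : d ≤ 1 / 8) {K : ℝ} (hK : 0 ≤ K) {ε : ℝ} (hε : 0 < ε) :
    ∃ σ : ℝ, 0 < σ ∧ ∀ (lam : Λ) (N : ℕ) (B : ℝ), ∃ M₀ : ℕ, ∀ ρ : ℝ, 0 ≤ ρ →
    ∃ X₀ : ℝ, 1 < X₀ ∧ ∀ X : ℝ, X₀ ≤ X →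
    ∀ (u₁ u₂ : Pq) (qs₁ qs₂ : List Pq), Dq.lump u₁ → Dq.lump u₂ → qs₁.length ≤ N →
      qs₂.length ≤ N → (∀ p ∈ qs₁, p.kd = .am) → (∀ p ∈ qs₂, p.kd = .mo) →
      (∀ p ∈ qs₁, Dq.nl X p ≤ σ) → (∀ p ∈ qs₂, Dq.lump p ∨ Dq.nl X p ≤ σ) →
      (nm u₁.d : ℝ) ≤ X ^ B → (nm u₂.d : ℝ) ≤ X ^ B → (∀ p ∈ qs₁, (nm p.d : ℝ) ≤ X ^ B) →
      (∀ p ∈ qs₂, (nm p.d : ℝ) ≤ X ^ B) →
    ∀ (m₀ : Eis) (hm : m₀ ≠ 0) (ξ : ℝ), (nm m₀ : ℝ) ≤ X ^ B →
    ∀ H : ℝ, 1 + |u₁.t| ≤ H → 1 + |u₂.t| ≤ H → (∀ p ∈ qs₁, 1 + |p.t| ≤ H) →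
      (∀ p ∈ qs₂, 1 + |p.t| ≤ H) →
    ∀ l α β κ Mv q w y e : ℝ, 0 ≤ l → 0 ≤ κ → κ ≤ K → Mv ≤ K → 0 ≤ q → q ≤ K → 0 ≤ w → w ≤ K →
      0 ≤ y → l / Real.log X ≤ κ + σ → |(u₁.z + u₂.z - β) / Real.log X - Mv| ≤ σ →
      |Ls qs₂ / Real.log X - q| ≤ σ → |max 0 ((Ls qs₁ - α) / Real.log X) - w| ≤ σ →
      |β / Real.log X - y| ≤ σ → GoodYM d κ Mv q w y e →
    ∀ ps₁ us : List Pq, List.Forall₂ (Ch ρ) ps₁ (qs₁.map (shf m₀ hm ξ)) →
      List.Forall₂ (Ch ρ) us ((u₁ :: u₂ :: qs₂).map (shf m₀ hm (-2 * ξ))) →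
      |Ls qs₁ - Ls ps₁ - α| ≤ σ * Real.log X →
      |Ls (u₁ :: u₂ :: qs₂) - Ls us - β| ≤ σ * Real.log X →
      RQ (fun _ => True) h l (ps₁.map (Pq.pc (π lam)) ++ us.map (Pq.pc (π lam))) ≤
        ((H * (1 + |ξ|)) ^ M₀ * X ^ (e + ε)) * (cst ps₁ (qs₁.map (shf m₀ hm ξ)) *
          cst us ((u₁ :: u₂ :: qs₂).map (shf m₀ hm (-2 * ξ)))) ^ (M₀ : ℝ) := by
  obtain ⟨σ, hσ, V⟩ := yv_tol hpu hP hN R C hd hd8 hK (ε := ε / 2) (by linarith)
  refine ⟨σ, hσ, fun lam N B => ?_⟩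
  obtain ⟨M₀, W⟩ := V lam N (B + B)
  refine ⟨M₀, fun ρ hρ => ?_⟩
  obtain ⟨X₀, hX₀, U⟩ := W ρ hρ
  refine ⟨max X₀ (((2 : ℝ) ^ M₀) ^ (2 / ε)), lt_of_lt_of_le hX₀ (le_max_left _ _), ?_⟩
  intro X hX u₁ u₂ qs₁ qs₂ hu₁ hu₂ hl₁ hl₂ hk₁ hk₂ hg₁ hg₂ hm1 hm2 hmq₁ hmq₂ m₀ hm ξ hm₀ H ht1
    ht2 htq₁ htq₂ l α β κ Mv q w y e hl0 hκ0 hκK hMK hq0 hqK hw0 hwK hy0 tκ tM tq tw ty hG ps₁ us
    hc₁ hcu hα hβ
  have hX0' : X₀ ≤ X := (le_max_left _ _).trans hX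
  have hX1 : 1 < X := by linarith
  have hX0 : 0 < X := by linarith
  have h2 : (2 : ℝ) ^ M₀ ≤ X ^ (ε / 2) := by
    have h3 := Real.rpow_le_rpow (by positivity) ((le_max_right X₀ _).trans hX)
      (show 0 ≤ ε / 2 by linarith)
    rw [← Real.rpow_mul (by positivity)] at h3
    have e1 : 2 / ε * (ε / 2) = 1 := by field_simp
    rwa [e1, Real.rpow_one] at h3
  have hξ1 : |ξ| ≤ 2 * |ξ| := by linarith [abs_nonneg ξ]
  have hξ2 : |-2 * ξ| ≤ 2 * |ξ| := by rw [abs_mul]; norm_num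
  have hmap : (u₁ :: u₂ :: qs₂).map (shf m₀ hm (-2 * ξ)) =
      shf m₀ hm (-2 * ξ) u₁ :: shf m₀ hm (-2 * ξ) u₂ :: qs₂.map (shf m₀ hm (-2 * ξ)) := rfl
  have key := U X hX0' (shf m₀ hm (-2 * ξ) u₁) (shf m₀ hm (-2 * ξ) u₂)
    (qs₁.map (shf m₀ hm ξ)) (qs₂.map (shf m₀ hm (-2 * ξ))) hu₁ hu₂
    (by rw [List.length_map]; exact hl₁) (by rw [List.length_map]; exact hl₂)
    (by
      intro p hp
      obtain ⟨p', hp', rfl⟩ := List.mem_map.1 hp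
      exact hk₁ p' hp')
    (by
      intro p hp
      obtain ⟨p', hp', rfl⟩ := List.mem_map.1 hp
      exact hk₂ p' hp')
    (by
      intro p hp
      obtain ⟨p', hp', rfl⟩ := List.mem_map.1 hp
      exact hg₁ p' hp')
    (by
      intro p hp
      obtain ⟨p', hp', rfl⟩ := List.mem_map.1 hp
      exact hg₂ p' hp')
    (d_shf hX0 hm₀ hm1) (d_shf hX0 hm₀ hm2)
    (by
      intro p hp
      obtain ⟨p', hp', rfl⟩ := List.mem_map.1 hp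
      exact d_shf hX0 hm₀ (hmq₁ p' hp'))
    (by
      intro p hp
      obtain ⟨p', hp', rfl⟩ := List.mem_map.1 hp
      exact d_shf hX0 hm₀ (hmq₂ p' hp'))
    (2 * (H * (1 + |ξ|))) (ht_shf hξ2 ht1) (ht_shf hξ2 ht2)
    (by
      intro p hp
      obtain ⟨p', hp', rfl⟩ := List.mem_map.1 hp
      exact ht_shf hξ1 (htq₁ p' hp'))
    (by
      intro p hp
      obtain ⟨p', hp', rfl⟩ := List.mem_map.1 hp
      exact ht_shf hξ2 (htq₂ p' hp'))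
    l α β κ Mv q w y e hl0 hκ0 hκK hMK hq0 hqK hw0 hwK hy0 tκ tM (by rw [Ls_shf]; exact tq)
    (by rw [Ls_shf]; exact tw) ty hG ps₁ us hc₁ (hmap ▸ hcu)
    (by rw [Ls_shf]; exact hα) (by rw [← hmap, Ls_shf]; exact hβ)
  rw [← hmap] at key
  refine key.trans ?_
  set c₁ := cst ps₁ (qs₁.map (shf m₀ hm ξ))
  set c₂ := cst us ((u₁ :: u₂ :: qs₂).map (shf m₀ hm (-2 * ξ)))
  have g1 : 1 ≤ c₁ := one_le_cst _ _
  have g2 : 1 ≤ c₂ := one_le_cst _ _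
  have hH : 0 ≤ H := le_trans (by positivity) ht1
  have hE : 0 ≤ H * (1 + |ξ|) := mul_nonneg hH (by positivity)
  rw [Real.rpow_natCast]
  calc (2 * (H * (1 + |ξ|)) * (c₁ * c₂)) ^ M₀ * X ^ (e + ε / 2)
      = (2 : ℝ) ^ M₀ * ((H * (1 + |ξ|)) ^ M₀ * (c₁ * c₂) ^ M₀ * X ^ (e + ε / 2)) := by
        rw [mul_pow, mul_pow]; ring
    _ ≤ X ^ (ε / 2) * ((H * (1 + |ξ|)) ^ M₀ * (c₁ * c₂) ^ M₀ * X ^ (e + ε / 2)) :=
        mul_le_mul_of_nonneg_right h2 (by positivity)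
    _ = (H * (1 + |ξ|)) ^ M₀ * (X ^ (e + ε / 2) * X ^ (ε / 2)) * (c₁ * c₂) ^ M₀ := by ring
    _ = _ := by
        rw [← Real.rpow_add hX0]
        congr 3
        ring

end

end Crest.Agent.R017.Jy61
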