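import Crest.Agent.R017.Jy2_61
import Crest.Agent.R017.E4Yo_792

/-!
# Row 17, C70/E4 v7: the `y`-side of `YG_move` (helper61)

* `exists_mv` : a subset of the granular amplifier pieces with prescribed remaining length
* `hy_move` : the hypothesis (HY) of 792's `YG_move` with `mv₂ = ∅`, from `GoodYM`
-/

set_option autoImplicit false

noncomputable section

open Set

namespace Crest.Agent.R017.Jy61

open Crest.Agent.R012 Crest.Agent.R012.Eis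
open Crest.Agent.R017.FE47
open Crest.Agent.R017.XG702 (Pcs BG)
open Crest.Agent.R017.Prov71
open Crest.Agent.R017.B770
open Crest.Agent.R017.End699 Crest.Agent.R017.Sup271
open Crest.Agent.R017.ER911 Crest.Agent.R017.SC777 Crest.Agent.R017.ExpC702
open Crest.Agent.R017.HP842 (Pc pc)
open Crest.Agent.R017.Rough381 (Ls cst Ch)
open Crest.Agent.R017.UBR61 Crest.Agent.R017.YM61 Crest.Agent.R017.YP61 Crest.Agent.R017.YC61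
open Crest.Agent.R017.YU61 Crest.Agent.R017.YV61
open Crest.Agent.R017.E4Yb792 (shf rst rst_empty)

/-! ### choice of the moved pieces -/

/-- a subset with sum in `[x, x + σ]` -/
lemma exists_mv {ι : Type*} [DecidableEq ι] {f : ι → ℝ} {σ x : ℝ} (hσ : 0 ≤ σ) (hx : 0 ≤ x)
    (s : Finset ι) (hf : ∀ i ∈ s, f i ≤ σ) (h : x ≤ ∑ i ∈ s, f i) :
    ∃ mv : Finset ι, mv ⊆ s ∧ x ≤ ∑ i ∈ mv, f i ∧ ∑ i ∈ mv, f i ≤ x + σ := by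
  induction s using Finset.induction_on with
  | empty => exact ⟨∅, Finset.Subset.refl _, h, by simpa using add_nonneg hx hσ⟩
  | @insert a s ha ih =>
    by_cases h0 : x ≤ ∑ i ∈ s, f i
    · obtain ⟨mv, h1, h2, h3⟩ := ih (fun i hi => hf i (Finset.mem_insert_of_mem hi)) h0
      exact ⟨mv, h1.trans (Finset.subset_insert _ _), h2, h3⟩
    · refine ⟨insert a s, Finset.Subset.refl _, h, ?_⟩
      rw [Finset.sum_insert ha]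
      have := hf a (Finset.mem_insert_self _ _)
      linarith [not_le.1 h0]

lemma mem_rst {ps : List Pq} {mv : Finset (Fin ps.length)} {p : Pq} (h : p ∈ rst ps mv) :
    p ∈ ps := by
  unfold rst at h
  obtain ⟨i, -, rfl⟩ := List.mem_map.1 h
  exact List.get_mem _ _

lemma length_rst (ps : List Pq) (mv : Finset (Fin ps.length)) :
    (rst ps mv).length ≤ ps.length := by
  unfold rst
  rw [List.length_map]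
  refine (List.length_filter_le _ _).trans ?_
  rw [List.length_finRange]

section
variable {Λ : Type*} {π : Λ → DPar} {h : ℝ → ℝ} {d : ℝ} {r s : EF}
variable {c₀ : ℝ} (hpu : PU h c₀) (hP : ∀ lam, (π lam).OK)
  (hN : ∀ lam k, k ≠ 0 → NPm (π lam).n (π lam).ψ (π lam).l₂ k)
  (R : ExpRules (7 / 8 + d) r s) (C : ExpC r (ex Dq (fun lam => Rc (π lam) h)))

include hpu hP hN R C

/-- **(HY) of `YG_move`**, `mv₂ = ∅` -/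
theorem hy_move (hd : 0 ≤ d) (hd8 : d ≤ 1 / 8) {K : ℝ} (hK : 0 ≤ K) {ε : ℝ} (hε : 0 < ε) :
    ∃ σ : ℝ, 0 < σ ∧ ∀ (lam : Λ) (N : ℕ) (B : ℝ), ∃ M₀ : ℕ, ∀ ρ : ℝ, 0 ≤ ρ →
    ∃ X₀ : ℝ, 1 < X₀ ∧ ∀ X : ℝ, X₀ ≤ X →
    ∀ (u₁ u₂ : Pq) (ps₁ qs₂ : List Pq), Dq.lump u₁ → Dq.lump u₂ → ps₁.length ≤ N →
      qs₂.length ≤ N → (∀ p ∈ ps₁, p.kd = .am) → (∀ p ∈ qs₂, p.kd = .mo) →
      (∀ p ∈ ps₁, Dq.nl X p ≤ σ) → (∀ p ∈ qs₂, Dq.lump p ∨ Dq.nl X p ≤ σ) →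
      (nm u₁.d : ℝ) ≤ X ^ B → (nm u₂.d : ℝ) ≤ X ^ B → (∀ p ∈ ps₁, (nm p.d : ℝ) ≤ X ^ B) →
      (∀ p ∈ qs₂, (nm p.d : ℝ) ≤ X ^ B) →
    ∀ (m₀ : Eis) (hm : m₀ ≠ 0) (ξ : ℝ), (nm m₀ : ℝ) ≤ X ^ B →
    ∀ H : ℝ, 1 + |u₁.t| ≤ H → 1 + |u₂.t| ≤ H → (∀ p ∈ ps₁, 1 + |p.t| ≤ H) →
      (∀ p ∈ qs₂, 1 + |p.t| ≤ H) →
    ∀ (mv₁ : Finset (Fin ps₁.length)) (n₁ : Fin ps₁.length → ℕ)
      (n₂ : Fin (u₁ :: u₂ :: qs₂).length → ℕ) (l β κ Mv q w y e : ℝ),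
      |∑ i, (n₂ i : ℝ) - β| ≤ ρ →
      0 ≤ l → 0 ≤ κ → κ ≤ K → Mv ≤ K → 0 ≤ q → q ≤ K → 0 ≤ w → w ≤ K →
      0 ≤ y → l / Real.log X ≤ κ + σ → |(u₁.z + u₂.z - β) / Real.log X - Mv| ≤ σ →
      |Ls qs₂ / Real.log X - q| ≤ σ →
      |max 0 ((Ls (rst ps₁ mv₁) - ∑ i ∈ mv₁ᶜ, (n₁ i : ℝ)) / Real.log X) - w| ≤ σ →
      |β / Real.log X - y| ≤ σ → GoodYM d κ Mv q w y e →
    ∀ ps₁' ps₂' : List Pq,
      List.Forall₂ (Ch ρ) ps₁' ((rst ps₁ mv₁).map (shf m₀ hm ξ)) →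
      List.Forall₂ (Ch ρ) ps₂' ((rst (u₁ :: u₂ :: qs₂) ∅).map (shf m₀ hm (-2 * ξ))) →
      |Ls (rst ps₁ mv₁) - Ls ps₁' - ∑ i ∈ mv₁ᶜ, (n₁ i : ℝ)| ≤ ρ →
      |Ls (rst (u₁ :: u₂ :: qs₂) ∅) - Ls ps₂' -
        ∑ i ∈ (∅ : Finset (Fin (u₁ :: u₂ :: qs₂).length))ᶜ, (n₂ i : ℝ)| ≤ ρ →
      RQ (fun _ => True) h l (ps₁'.map (Pq.pc (π lam)) ++ ps₂'.map (Pq.pc (π lam))) ≤
        ((H * (1 + |ξ|)) ^ M₀ * X ^ (e + ε)) * (cst ps₁' ((rst ps₁ mv₁).map (shf m₀ hm ξ)) *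
          cst ps₂' ((rst (u₁ :: u₂ :: qs₂) ∅).map (shf m₀ hm (-2 * ξ)))) ^ (M₀ : ℝ) := by
  classical
  obtain ⟨σ, hσ, V⟩ := yv_stol hpu hP hN R C hd hd8 hK hε
  refine ⟨σ, hσ, fun lam N B => ?_⟩
  obtain ⟨M₀, W⟩ := V lam N B
  refine ⟨M₀, fun ρ hρ => ?_⟩
  obtain ⟨X₀, hX₀, U⟩ := W ρ hρ
  refine ⟨max X₀ (Real.exp (2 * ρ / σ)), lt_of_lt_of_le hX₀ (le_max_left _ _), ?_⟩
  intro X hX u₁ u₂ ps₁ qs₂ hu₁ hu₂ hl₁ hl₂ hk₁ hk₂ hg₁ hg₂ hm1 hm2 hmq₁ hmq₂ m₀ hm ξ hm₀ H ht1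
    ht2 htq₁ htq₂ mv₁ n₁ n₂ l β κ Mv q w y e hn₂ hl0 hκ0 hκK hMK hq0 hqK hw0 hwK hy0 tκ tM tq tw
    ty hG ps₁' ps₂' hc₁ hcu hα hβ
  have hX0' : X₀ ≤ X := (le_max_left _ _).trans hX
  have h2ρ : 2 * ρ ≤ σ * Real.log X := by
    have h1 : 2 * ρ / σ ≤ Real.log X := by
      rw [← Real.log_exp (2 * ρ / σ)]
      exact Real.log_le_log (Real.exp_pos _) ((le_max_right _ _).trans hX)
    rw [div_le_iff₀ hσ] at h1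
    linarith
  rw [rst_empty] at hcu hβ ⊢
  rw [Finset.compl_empty] at hβ
  refine U X hX0' u₁ u₂ (rst ps₁ mv₁) qs₂ hu₁ hu₂ ((length_rst _ _).trans hl₁) hl₂
    (fun p hp => hk₁ p (mem_rst hp)) hk₂ (fun p hp => hg₁ p (mem_rst hp)) hg₂ hm1 hm2
    (fun p hp => hmq₁ p (mem_rst hp)) hmq₂ m₀ hm ξ hm₀ H ht1 ht2
    (fun p hp => htq₁ p (mem_rst hp)) htq₂ l (∑ i ∈ mv₁ᶜ, (n₁ i : ℝ)) β κ Mv q w y e hl0 hκ0 hκK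
    hMK hq0 hqK hw0 hwK hy0 tκ tM tq tw ty hG ps₁' ps₂' hc₁ hcu (hα.trans (by linarith)) ?_
  obtain ⟨a1, a2⟩ := abs_le.1 hβ
  obtain ⟨a3, a4⟩ := abs_le.1 hn₂
  rw [abs_le]
  constructor <;> linarith

end

end Crest.Agent.R017.Jy61
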