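import Crest.Agent.R017.E4v7_352
import Crest.Agent.R017.E4C_401
import Crest.Agent.R017.E4c_352

/-!
# Row 17, C70/E4 v7: the finite part of the `y`-side (helper744)

* `OK.*` : the side conditions of an admissible term `t : Tm O` in the form the `y`-side uses them
* `ys_ne`, `xs_ne` : sizes from `t.ys ≠ 0`, `t.xs ≠ 0`
* `yK nu t = k ν D² b` : the frequency seen by the `y`-side
* `fib` : at fixed `B`, the map `t ↦ yK nu t` has fibres `≤ C X ^ ε T`, `T` the multiplicity of `nu`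
* `fib_pair` : the same for `O` a finite set of pairs `(s, ν)`, `nu = s ν`
* `fibJ` : without fixing `B`: multiplicity of `t ↦ (B, yK nu t)`
-/

set_option autoImplicit false

noncomputable section

open Complex
open scoped ComplexConjugate

namespace Crest.Agent.R017.JyF744

open Crest.Agent.R012 Crest.Agent.R012.Eis Crest.Agent.R012.Mob705 Crest.Agent.R012.Gauss880
open Crest.Agent.R012.GaussLoc283
open Crest.Agent.R012.Div277
open Crest.Agent.R017.Sx545 Crest.Agent.R017.CM106 Crest.Agent.R017.C70 Crest.Agent.R017.C590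
open Crest.Agent.R017.End699 Crest.Agent.R017.B770 Crest.Agent.R017.Sx440
open Crest.Agent.R017.E2440 Crest.Agent.R017.E4352
open Crest.Agent.R017.E4o502 (vD wD GoodD GB)
open Crest.Agent.R017.E4fe502 (FF Dta)
open Crest.Agent.R017.E4v5 (GB')
open Crest.Agent.R017.E4J352

variable {O : Type} {M f : Eis} {t : Tm O}

/-! ### the side conditions -/

lemma OK.D (h : t.OK M f) : Sm M (t.D0 * t.D1) := h.good.2.2.1

lemma OK.sqD (h : t.OK M f) : Squarefree (t.D0 * t.D1) := h.good.2.1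

lemma OK.sqD0 (h : t.OK M f) : Squarefree t.D0 := h.good.2.1.squarefree_of_dvd (dvd_mul_right _ _)

lemma OK.sqD1 (h : t.OK M f) : Squarefree t.D1 := h.good.2.1.squarefree_of_dvd (dvd_mul_left _ _)

lemma OK.sB (h : t.OK M f) : Sm M t.B := h.gb.2.1

lemma OK.cBD (h : t.OK M f) : IsCoprime t.B (t.D0 * t.D1) := h.gb.2.2.1

lemma OK.dta (hf : Sm M f) (h : t.OK M f) : Dta M f t.D0 t.B t.R t.Z where
  sf := hf
  pD := h.pD0
  dvd := h.good.1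
  sq := OK.sqD0 h
  gb := ⟨h.gb.1, h.gb.2.1, (OK.cBD h).of_mul_right_left, h.pR, h.pZ, h.gb.2.2.2.1, h.gb.2.2.2.2⟩

/-- `F` is prime to `D` -/
lemma OK.cFD (hf : Sm M f) (h : t.OK M f) : IsCoprime (t.F f) (t.D0 * t.D1) :=
  ((OK.dta hf h).copFF h.good (OK.cBD h)).2.2.2

lemma OK.pB (h : t.OK M f) : IsPrim t.B := (OK.sB h).prim

lemma OK.pbb (h : t.OK M f) : IsPrim t.b := h.sb.prim

lemma OK.pk (h : t.OK M f) : IsPrim t.k := h.sk.prim

lemma OK.smBb (h : t.OK M f) : Sm M (t.B * t.b) := (OK.sB h).mul h.sb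

/-- the primes of `b` divide `R' Z' F` -/
lemma OK.pb' (h : t.OK M f) (p : Eis) (hp : Prime p) (hd : p ∣ t.b) :
    p ∣ t.R' * t.Z' ∨ p ∣ t.F f := by
  rcases h.pb p hp hd with h1 | h1 | h1
  · exact Or.inl (h1.mul_left _)
  · exact Or.inr h1
  · exact Or.inl (((dvd_pow_self p two_ne_zero).trans h1.1).mul_right _)

/-- `D` is prime to `b` -/
lemma OK.cDb (hf : Sm M f) (h : t.OK M f) : IsCoprime (t.D0 * t.D1) t.b := by
  refine (cop_of_primes (OK.pbb h) fun p hp h1 h2 => ?_).symm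
  rcases OK.pb' h p hp h1 with h3 | h3
  · exact hp.not_isUnit (h.cRZ.isUnit_of_dvd' h3 (h2.mul_right _))
  · exact hp.not_isUnit ((OK.cFD hf h).isUnit_of_dvd' h3 h2)

/-- `D` is prime to `B b` -/
lemma OK.cDBb (hf : Sm M f) (h : t.OK M f) : IsCoprime (t.D0 * t.D1) (t.B * t.b) :=
  (OK.cBD h).symm.mul_right (OK.cDb hf h)

lemma PrI.mul' {q q' R R' : Eis} (h : PrI q R) (h' : PrI q' R') : PrI (q * q') (R * R') := by
  refine ⟨h.1.mul h'.1, fun p hp hd => ?_⟩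
  rcases hp.dvd_or_dvd hd with h1 | h1
  · exact (h.2 p hp h1).mul_right _
  · exact (h'.2 p hp h1).mul_left _

lemma OK.prZ (h : t.OK M f) : PrI (t.B * t.b) (t.Z * t.Z') := PrI.mul' h.pZ h.pZ'

lemma OK.prR (h : t.OK M f) : PrI (t.B * t.b) (t.R * t.R') := PrI.mul' h.pR h.pR'

/-! ### nonzero terms -/

lemma CS_ne {c : Eis → ℂ} {k : Eis} (h : CS c k ≠ 0) : ∃ x, c x ≠ 0 := by
  by_contra h0
  push Not at h0
  apply h
  have : c = fun _ => 0 := funext h0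
  rw [this, CS_zero']

lemma Sd_ne {c : Eis → ℂ} {k : Eis} (h : Sd c k ≠ 0) : ∃ x, c x ≠ 0 := by
  by_contra h0
  push Not at h0
  apply h
  have : c = fun _ => 0 := funext h0
  rw [this, Sd_zero]

lemma ys_ne {w : O → Eis → ℂ} {G : Eis → ℂ} (h : t.ys w G ≠ 0) :
    ∃ y, w t.o (t.D1 * (t.Z * t.Z' * y)) ≠ 0 ∧ IsCoprime y (t.B * t.b) ∧
      IsCoprime (t.Z * t.Z' * y) (t.D0 * t.D1) := by
  obtain ⟨y, hy⟩ := CS_ne h
  obtain ⟨h1, h2⟩ := tws_ne hy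
  obtain ⟨h3, h4⟩ := tws_ne h2
  exact ⟨y, h4, h1, h3⟩

lemma xs_ne {v : O → Eis → ℂ} {G : Eis → ℂ} (h : t.xs v G ≠ 0) :
    ∃ x, v t.o (t.R * t.R' * x) ≠ 0 ∧ IsCoprime x (t.B * t.b) ∧
      IsCoprime (t.R * t.R' * x) (t.D0 * t.D1) := by
  obtain ⟨x, hx⟩ := Sd_ne h
  obtain ⟨h1, h2⟩ := tws_ne hx
  obtain ⟨h3, h4⟩ := tws_ne h2
  rw [one_mul] at h4
  exact ⟨x, h4, h1, h3⟩

lemma val_ne {lam : O → ℝ} {v w : O → Eis → ℂ} {G : Eis → ℂ} (h : t.val f lam v w G ≠ 0) :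
    t.xs v G ≠ 0 ∧ t.ys w G ≠ 0 ∧ gs (t.F f * t.R' * t.Z') t.b ≠ 0 := by
  unfold Tm.val Tm.wt at h
  have h1 := left_ne_zero_of_mul h
  have h2 := right_ne_zero_of_mul h
  have h3 := right_ne_zero_of_mul (left_ne_zero_of_mul h1)
  refine ⟨?_, ?_, ?_⟩
  · exact norm_ne_zero_iff.mp (left_ne_zero_of_mul h2)
  · exact norm_ne_zero_iff.mp (right_ne_zero_of_mul h2)
  · intro h0
    apply h3
    rw [h0, norm_zero, zero_div]

/-- sizes on the `x`-side -/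
lemma size_x {lam : O → ℝ} {v w : O → Eis → ℂ} {G : Eis → ℂ} [Fintype O] {X : ℝ}
    (hD : Dat4 M f lam v w X) (h : t.xs v G ≠ 0) :
    CbF (t.R * t.R') ∧ (nm (t.R * t.R') : ℝ) ≤ X := by
  obtain ⟨x, hx, -, -⟩ := xs_ne h
  obtain ⟨h1, h2⟩ := hD.vx _ _ hx
  have h0 := ((hD.hv t.o).sm _ hx).prim.ne_zero
  refine ⟨fun p hp h3 => h1 p hp (h3.trans (dvd_mul_right _ _)), le_trans ?_ h2⟩
  exact_mod_cast nm_le_of_dvd h0 (dvd_mul_right _ x)

/-- sizes on the `y`-side -/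
lemma size_y {lam : O → ℝ} {v w : O → Eis → ℂ} {G : Eis → ℂ} [Fintype O] {X : ℝ}
    (hD : Dat4 M f lam v w X) (h : t.ys w G ≠ 0) :
    (nm (t.D1 * (t.Z * t.Z')) : ℝ) ≤ X := by
  obtain ⟨y, hy, -, -⟩ := ys_ne h
  have h0 := ((hD.hw t.o).sm _ hy).prim.ne_zero
  refine le_trans ?_ (hD.wy _ _ hy)
  exact_mod_cast nm_le_of_dvd h0 ⟨y, by ring⟩

/-! ### the frequency and its fibres -/

/-- the frequency of the `y`-side -/
def yK (nu : O → Eis) (t : Tm O) : Eis := t.k * nu t.o * (t.D0 * t.D1) ^ 2 * t.b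

open Classical in
/-- `S`-units -/
def SU (Y : ℝ) (q : Eis) : Finset Eis := (primBall ⌊Y⌋₊).filter fun R => PrI q R

lemma mem_SU {Y : ℝ} (hY : 0 ≤ Y) {q R : Eis} : R ∈ SU Y q ↔ PrI q R ∧ (nm R : ℝ) ≤ Y := by
  classical
  unfold SU
  rw [Finset.mem_filter, mem_primBall, Nat.le_floor_iff hY]
  constructor
  · rintro ⟨⟨h1, h2⟩, h3⟩
    exact ⟨h3, h1⟩
  · rintro ⟨h1, h2⟩
    exact ⟨⟨h2, h1.1⟩, h1⟩

lemma prod8 {x c1 c2 TO τ s r : ℝ} (hx0 : 0 ≤ x) (hx : x ≤ c2 * TO) (hτ0 : 0 ≤ τ) (hτ : τ ≤ c2)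
    (hs0 : 0 ≤ s) (hs : s ≤ c1) (hr0 : 0 ≤ r) (hr : r ≤ c1) :
    x * (τ * (τ * (τ * (s * (s * (r * r)))))) ≤ c2 ^ 4 * TO * c1 ^ 4 := by
  have hc2 : 0 ≤ c2 := hτ0.trans hτ
  have hc1 : 0 ≤ c1 := hs0.trans hs
  have h1 : τ * (τ * τ) ≤ c2 * (c2 * c2) := by gcongr
  have h2 : s * s * (r * r) ≤ c1 * c1 * (c1 * c1) := by gcongr
  have h3 : 0 ≤ τ * (τ * τ) := by positivity
  have h4 : 0 ≤ s * s * (r * r) := by positivity
  calc x * (τ * (τ * (τ * (s * (s * (r * r))))))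
      = x * (τ * (τ * τ)) * (s * s * (r * r)) := by ring
    _ ≤ (c2 * TO) * (c2 * (c2 * c2)) * (c1 * c1 * (c1 * c1)) := by
        refine mul_le_mul (mul_le_mul hx h1 h3 (hx0.trans hx)) h2 h4 ?_
        exact mul_nonneg (hx0.trans hx) (h3.trans h1)
    _ = c2 ^ 4 * TO * c1 ^ 4 := by ring

open Classical in
/-- **the fibres of `t ↦ yK nu t` at fixed `B`** -/
theorem fib_aux {nu : O → Eis} [Fintype O] {Y : ℝ} (hY : 0 ≤ Y) {K : Eis} (hK : K ≠ 0)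
    {TO c1 c2 : ℝ} (hTO : 0 ≤ TO)
    (hτ : (tau K : ℝ) ≤ c2)
    (hnu : ∀ n ∈ dvs K, ((Finset.univ.filter (fun o => nu o = n)).card : ℝ) ≤ TO)
    (hnp : ∀ o, IsPrim (nu o))
    (hS : ∀ q : Eis, q ≠ 0 → (nm q : ℝ) ≤ Y → ((SU Y q).card : ℝ) ≤ c1)
    {B : Eis} (hB : (nm B : ℝ) ≤ Y) (hB0 : B ≠ 0) (𝒥 : Finset (Tm O))
    (h : ∀ t ∈ 𝒥, t.OK M f ∧ t.B = B ∧ yK nu t = K ∧ (nm t.R : ℝ) ≤ Y ∧ (nm t.Z : ℝ) ≤ Y ∧
      (nm t.R' : ℝ) ≤ Y ∧ (nm t.Z' : ℝ) ≤ Y ∧ (nm t.b : ℝ) ≤ Y) :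
    (𝒥.card : ℝ) ≤ c2 ^ 5 * TO * c1 ^ 4 := by
  have hc2 : 0 ≤ c2 := (Nat.cast_nonneg _).trans hτ
  have hd : ∀ t ∈ 𝒥, t.b ∈ dvs K ∧ nu t.o ∈ dvs K ∧ t.D0 ∈ dvs K ∧ t.D1 ∈ dvs K ∧
      t.k ∈ dvs K := by
    intro t ht
    obtain ⟨h1, -, h3, -⟩ := h t ht
    have e : K = t.k * nu t.o * (t.D0 * t.D1) ^ 2 * t.b := h3.symm
    refine ⟨(mem_dvs hK).mpr ⟨OK.pbb h1, ?_⟩, (mem_dvs hK).mpr ⟨hnp _, ?_⟩,
      (mem_dvs hK).mpr ⟨h1.pD0, ?_⟩, (mem_dvs hK).mpr ⟨h1.pD1, ?_⟩,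
      (mem_dvs hK).mpr ⟨OK.pk h1, ?_⟩⟩
    · exact ⟨t.k * nu t.o * (t.D0 * t.D1) ^ 2, by rw [e]; ring⟩
    · exact ⟨t.k * (t.D0 * t.D1) ^ 2 * t.b, by rw [e]; ring⟩
    · exact ⟨t.k * nu t.o * t.D0 * t.D1 ^ 2 * t.b, by rw [e]; ring⟩
    · exact ⟨t.k * nu t.o * t.D0 ^ 2 * t.D1 * t.b, by rw [e]; ring⟩
    · exact ⟨nu t.o * (t.D0 * t.D1) ^ 2 * t.b, by rw [e]; ring⟩
  set OO : Finset O := Finset.univ.filter (fun o => nu o ∈ dvs K) with hOO
  have hOc : (OO.card : ℝ) ≤ c2 * TO := by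
    have h1 : OO.card = ∑ n ∈ dvs K, (OO.filter (fun o => nu o = n)).card :=
      Finset.card_eq_sum_card_fiberwise fun o ho => (Finset.mem_filter.mp ho).2
    rw [h1]
    push_cast
    calc ∑ n ∈ dvs K, ((OO.filter (fun o => nu o = n)).card : ℝ) ≤ ∑ _n ∈ dvs K, TO := by
          refine Finset.sum_le_sum fun n hn => le_trans ?_ (hnu n hn)
          exact_mod_cast Finset.card_le_card (Finset.filter_subset_filter _ (Finset.subset_univ _))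
      _ = tau K * TO := by rw [Finset.sum_const, nsmul_eq_mul]; rfl
      _ ≤ c2 * TO := mul_le_mul_of_nonneg_right hτ hTO
  have h1 : 𝒥.card = ∑ b ∈ dvs K, (𝒥.filter (fun t => t.b = b)).card :=
    Finset.card_eq_sum_card_fiberwise fun t ht => (hd t ht).1
  have h2 : ∀ b ∈ dvs K, ((𝒥.filter (fun t => t.b = b)).card : ℝ) ≤
      c2 ^ 4 * TO * c1 ^ 4 := by
    intro b hb
    by_cases hbY : (nm b : ℝ) ≤ Y
    swap
    · have : 𝒥.filter (fun t => t.b = b) = ∅ := by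
        refine Finset.filter_eq_empty_iff.mpr fun t ht h0 => hbY ?_
        rw [← h0]
        exact (h t ht).2.2.2.2.2.2.2
      rw [this]
      simp only [Finset.card_empty, Nat.cast_zero]
      positivity
    have hb0 : b ≠ 0 := (isPrim_of_mem_dvs hb).ne_zero
    have h3 : (𝒥.filter (fun t => t.b = b)).card ≤
        (OO ×ˢ (dvs K ×ˢ (dvs K ×ˢ (dvs K ×ˢ
          (SU Y B ×ˢ (SU Y B ×ˢ (SU Y b ×ˢ SU Y b))))))).card := by
      refine Finset.card_le_card_of_injOn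
        (fun t => (t.o, t.D0, t.D1, t.k, t.R, t.Z, t.R', t.Z')) ?_ ?_
      · intro t ht
        rw [Finset.mem_coe, Finset.mem_filter] at ht
        obtain ⟨ht, hb'⟩ := ht
        obtain ⟨g1, g2, g3, g4, g5, g6, g7, g8⟩ := h t ht
        obtain ⟨d1, d2, d3, d4, d5⟩ := hd t ht
        simp only [Finset.coe_product, Set.mem_prod, Finset.mem_coe]
        refine ⟨Finset.mem_filter.mpr ⟨Finset.mem_univ _, d2⟩, d3, d4, d5,
          (mem_SU hY).mpr ⟨?_, g4⟩, (mem_SU hY).mpr ⟨?_, g5⟩, (mem_SU hY).mpr ⟨?_, g6⟩,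
          (mem_SU hY).mpr ⟨?_, g7⟩⟩
        · rw [← g2]; exact g1.pR
        · rw [← g2]; exact g1.pZ
        · rw [← hb']; exact g1.pR'
        · rw [← hb']; exact g1.pZ'
      · intro t ht t' ht' he
        rw [Finset.mem_coe, Finset.mem_filter] at ht ht'
        simp only [Prod.mk.injEq] at he
        obtain ⟨e1, e2, e3, e4, e5, e6, e7, e8⟩ := he
        have e9 : t.B = t'.B := by rw [(h t ht.1).2.1, (h t' ht'.1).2.1]
        have e10 : t.b = t'.b := by rw [ht.2, ht'.2]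
        cases t
        cases t'
        simp only at e1 e2 e3 e4 e5 e6 e7 e8 e9 e10
        subst e1 e2 e3 e4 e5 e6 e7 e8 e9 e10
        rfl
    have h4 : ((𝒥.filter (fun t => t.b = b)).card : ℝ) ≤
        OO.card * (tau K * (tau K * (tau K * ((SU Y B).card * ((SU Y B).card *
          ((SU Y b).card * (SU Y b).card)))))) := by
      have := h3
      simp only [Finset.card_product] at this
      have h5 : ((𝒥.filter (fun t => t.b = b)).card : ℝ) ≤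
          ((OO.card * ((dvs K).card * ((dvs K).card * ((dvs K).card * ((SU Y B).card *
            ((SU Y B).card * ((SU Y b).card * (SU Y b).card)))))) : ℕ) : ℝ) := by
        exact_mod_cast this
      push_cast at h5
      exact h5
    refine h4.trans ?_
    exact prod8 (Nat.cast_nonneg _) hOc (Nat.cast_nonneg _) hτ (Nat.cast_nonneg _) (hS B hB0 hB)
      (Nat.cast_nonneg _) (hS b hb0 hbY)
  rw [h1]
  push_cast
  calc ∑ b ∈ dvs K, ((𝒥.filter (fun t => t.b = b)).card : ℝ)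
      ≤ ∑ _b ∈ dvs K, c2 ^ 4 * TO * c1 ^ 4 := Finset.sum_le_sum h2
    _ = tau K * (c2 ^ 4 * TO * c1 ^ 4) := by rw [Finset.sum_const, nsmul_eq_mul]; rfl
    _ ≤ c2 * (c2 ^ 4 * TO * c1 ^ 4) := by gcongr
    _ = c2 ^ 5 * TO * c1 ^ 4 := by ring

lemma yK_ne {nu : O → Eis} (hn : IsPrim (nu t.o)) (h : t.OK M f) : yK nu t ≠ 0 := by
  unfold yK
  exact mul_ne_zero (mul_ne_zero (mul_ne_zero (OK.pk h).ne_zero hn.ne_zero)
    (pow_ne_zero 2 (OK.D h).prim.ne_zero)) (OK.pbb h).ne_zero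

/-- `nm B³ ≤ nm f nm R nm Z` -/
lemma nm_B_le (hf : Sm M f) (h : t.OK M f) : nm t.B ≤ nm f * nm t.R * nm t.Z := by
  have hB0 := (OK.pB h).ne_zero
  have h1 := h.gb.2.2.2.1
  have h2 := OK.dta hf h
  have h3 : f / t.D0 * t.R * t.Z ≠ 0 :=
    mul_ne_zero (mul_ne_zero h2.hf'.prim.ne_zero h.pR.1.ne_zero) h.pZ.1.ne_zero
  calc nm t.B ≤ nm (t.B ^ 3) := nm_le_of_dvd (pow_ne_zero 3 hB0) (dvd_pow_self _ (by norm_num))
    _ ≤ nm (f / t.D0 * t.R * t.Z) := nm_le_of_dvd h3 h1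
    _ = nm (f / t.D0) * nm t.R * nm t.Z := by rw [nm_mul, nm_mul]
    _ ≤ nm f * nm t.R * nm t.Z := by
        gcongr
        exact nm_le_of_dvd hf.prim.ne_zero ⟨t.D0, by rw [mul_comm]; exact h2.f'.symm⟩

open Classical in
/-- **fibres of `t ↦ k ν D² b` at fixed `B`** -/
theorem fib {ε B₀ : ℝ} (hε : 0 < ε) : ∃ C : ℝ, 1 ≤ C ∧
    ∀ (M f : Eis) (O : Type) (_ : Fintype O) (lam : O → ℝ) (v w : O → Eis → ℂ) (G : Eis → ℂ)
      (X : ℝ), Dat4 M f lam v w X → ∀ (nu : O → Eis) (TO : ℝ), 0 ≤ TO → (∀ o, IsPrim (nu o)) →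
      (∀ n, IsPrim n → (nm n : ℝ) ≤ X ^ B₀ →
        ((Finset.univ.filter (fun o => nu o = n)).card : ℝ) ≤ TO) →
      ∀ (B : Eis) (𝒥 : Finset (Tm O)),
        (∀ t ∈ 𝒥, t.OK M f ∧ t.val f lam v w G ≠ 0 ∧ t.B = B ∧ (nm (yK nu t) : ℝ) ≤ X ^ B₀) →
        ∀ K, ((𝒥.filter (fun t => yK nu t = K)).card : ℝ) ≤ C * X ^ ε * TO := by
  set B1 : ℝ := max B₀ 3 with hB1
  have hB13 : 3 ≤ B1 := le_max_right _ _
  have hB10 : 0 < B1 := by linarith
  set ε' : ℝ := ε / (9 * B1) with hε'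
  have hε'0 : 0 < ε' := by positivity
  obtain ⟨Ct, hCt1, hCt⟩ := tau_le_rpow hε'0
  obtain ⟨Cl, hCl0, hCl⟩ := E4401.lCnt ε' hε'0
  refine ⟨max 1 (Ct ^ 5 * Cl ^ 4), le_max_left _ _, ?_⟩
  intro M f O _ lam v w G X hD nu TO hTO hnp hnu B 𝒥 hJ K
  have hX1 := hD.X1
  have hX0 : 0 < X := by linarith
  have hXB : X ^ B₀ ≤ X ^ B1 := Real.rpow_le_rpow_of_exponent_le hX1 (le_max_left _ _)
  have hX3 : X ^ (3 : ℝ) ≤ X ^ B1 := Real.rpow_le_rpow_of_exponent_le hX1 hB13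
  have hXX : X ≤ X ^ B1 := by
    calc X = X ^ (1 : ℝ) := (Real.rpow_one X).symm
      _ ≤ X ^ B1 := Real.rpow_le_rpow_of_exponent_le hX1 (by linarith)
  rcases (𝒥.filter (fun t => yK nu t = K)).eq_empty_or_nonempty with h0 | ⟨t₀, ht₀⟩
  · rw [h0]
    simp only [Finset.card_empty, Nat.cast_zero]
    have : 0 ≤ max 1 (Ct ^ 5 * Cl ^ 4) := le_trans zero_le_one (le_max_left _ _)
    positivity
  rw [Finset.mem_filter] at ht₀
  obtain ⟨ht₀, htK⟩ := ht₀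
  obtain ⟨k1, k2, k3, k4⟩ := hJ t₀ ht₀
  have hK : K ≠ 0 := by rw [← htK]; exact yK_ne (hnp _) k1
  have hKX : (nm K : ℝ) ≤ X ^ B₀ := by rw [← htK]; exact k4
  have hsz : ∀ t ∈ 𝒥, (nm t.R : ℝ) ≤ X ∧ (nm t.Z : ℝ) ≤ X ∧ (nm t.R' : ℝ) ≤ X ∧
      (nm t.Z' : ℝ) ≤ X := by
    intro t ht
    obtain ⟨g1, g2, g3, g4⟩ := hJ t ht
    obtain ⟨n1, n2, -⟩ := val_ne g2
    have e1 := (size_x hD n1).2
    have e2 := size_y hD n2
    have hR0 := g1.pR.1.ne_zero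
    have hR'0 := g1.pR'.1.ne_zero
    have hZ0 := g1.pZ.1.ne_zero
    have hZ'0 := g1.pZ'.1.ne_zero
    have hD10 := g1.pD1.ne_zero
    have hRR : t.R * t.R' ≠ 0 := mul_ne_zero hR0 hR'0
    have hZZ : t.D1 * (t.Z * t.Z') ≠ 0 := mul_ne_zero hD10 (mul_ne_zero hZ0 hZ'0)
    refine ⟨?_, ?_, ?_, ?_⟩
    · exact le_trans (by exact_mod_cast nm_le_of_dvd hRR (dvd_mul_right _ _)) e1
    · exact le_trans (by exact_mod_cast nm_le_of_dvd hZZ ⟨t.D1 * t.Z', by ring⟩) e2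
    · exact le_trans (by exact_mod_cast nm_le_of_dvd hRR (dvd_mul_left _ _)) e1
    · exact le_trans (by exact_mod_cast nm_le_of_dvd hZZ ⟨t.D1 * t.Z, by ring⟩) e2
  have hBX : (nm B : ℝ) ≤ X ^ B1 := by
    rw [← k3]
    obtain ⟨s1, s2, -⟩ := hsz t₀ ht₀
    have h1 : (nm t₀.B : ℝ) ≤ nm f * nm t₀.R * nm t₀.Z := by
      exact_mod_cast nm_B_le hD.hf.1 k1
    refine le_trans (h1.trans ?_) hX3
    calc (nm f : ℝ) * nm t₀.R * nm t₀.Z ≤ X * X * X := by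
          have := hD.hf.2
          gcongr
      _ = X ^ (3 : ℝ) := by
          rw [show (3 : ℝ) = ((3 : ℕ) : ℝ) by norm_num, Real.rpow_natCast]; ring
  have hE0 : 0 ≤ X ^ (B1 * ε') := Real.rpow_nonneg hX0.le _
  have hτK : (tau K : ℝ) ≤ Ct * X ^ (B1 * ε') := by
    refine (hCt K hK).trans ?_
    gcongr
    calc (nm K : ℝ) ^ ε' ≤ (X ^ B1) ^ ε' :=
          Real.rpow_le_rpow (Nat.cast_nonneg _) (hKX.trans hXB) hε'0.le
      _ = X ^ (B1 * ε') := (Real.rpow_mul hX0.le _ _).symm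
  have hS : ∀ q : Eis, q ≠ 0 → (nm q : ℝ) ≤ X ^ B1 → ((SU (X ^ B1) q).card : ℝ) ≤
      Cl * X ^ (B1 * ε') := by
    intro q hq hqX
    have h1 := hCl q (X ^ B1) (Real.one_le_rpow hX1 hB10.le) hq hqX
    rw [← Real.rpow_mul hX0.le] at h1
    refine le_trans (le_of_eq ?_) h1
    unfold SU
    congr
  have hmain := fib_aux (nu := nu) (M := M) (f := f) (Y := X ^ B1)
    (Real.rpow_nonneg hX0.le _) hK hTO
    (c1 := Cl * X ^ (B1 * ε')) (c2 := Ct * X ^ (B1 * ε')) hτK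
    (fun n hn => hnu n (isPrim_of_mem_dvs hn) (le_trans
      (by exact_mod_cast nm_le_of_dvd hK (dvd_of_mem_dvs hn)) hKX)) hnp hS (B := B) hBX
    (by rw [← k3]; exact (OK.pB k1).ne_zero) (𝒥.filter (fun t => yK nu t = K)) ?_
  · refine hmain.trans ?_
    have e1 : (Ct * X ^ (B1 * ε')) ^ 5 * TO * (Cl * X ^ (B1 * ε')) ^ 4 =
        (Ct ^ 5 * Cl ^ 4) * (X ^ (B1 * ε')) ^ 9 * TO := by ring
    have e2 : (X ^ (B1 * ε')) ^ 9 = X ^ ε := by
      rw [← Real.rpow_natCast, ← Real.rpow_mul hX0.le]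
      congr 1
      rw [hε']
      field_simp
      norm_num
    rw [e1, e2]
    gcongr
    exact le_max_right _ _
  · intro t ht
    rw [Finset.mem_filter] at ht
    obtain ⟨ht, htK⟩ := ht
    obtain ⟨g1, g2, g3, g4⟩ := hJ t ht
    obtain ⟨s1, s2, s3, s4⟩ := hsz t ht
    refine ⟨g1, g3, htK, s1.trans hXX, s2.trans hXX, s3.trans hXX, s4.trans hXX, ?_⟩
    refine le_trans ?_ (hKX.trans hXB)
    rw [← htK]
    exact_mod_cast nm_le_of_dvd (yK_ne (hnp _) g1) (dvd_mul_left _ _)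

open Classical in
/-- the multiplicity of `ν = s ν'` on a finite set of pairs -/
lemma pair_mult (OO : Finset (Eis × Eis)) (hO : ∀ o ∈ OO, IsPrim o.1 ∧ IsPrim o.2) {n : Eis}
    (hn : n ≠ 0) :
    ((Finset.univ.filter (fun o : {x // x ∈ OO} => o.1.1 * o.1.2 = n)).card : ℝ) ≤ tau n := by
  have h1 : (Finset.univ.filter (fun o : {x // x ∈ OO} => o.1.1 * o.1.2 = n)).card ≤
      (dvs n).card := by
    refine Finset.card_le_card_of_injOn (fun o => o.1.1) ?_ ?_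
    · intro o ho
      rw [Finset.mem_coe, Finset.mem_filter] at ho
      exact (mem_dvs hn).mpr ⟨(hO _ o.2).1, ⟨o.1.2, ho.2.symm⟩⟩
    · intro o ho o' ho' he
      rw [Finset.mem_coe, Finset.mem_filter] at ho ho'
      have h0 := (hO _ o.2).1.ne_zero
      have h3 : o.1.1 * o.1.2 = o.1.1 * o'.1.2 := by
        rw [ho.2]
        have : o.1.1 = o'.1.1 := he
        rw [this, ho'.2]
      have h4 := mul_left_cancel₀ h0 h3
      exact Subtype.ext (Prod.ext he h4)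
  exact_mod_cast h1

open Classical in
/-- **fibres at fixed `B`, outer index a set of pairs `(s, ν)`** -/
theorem fib_pair {ε B₀ : ℝ} (hε : 0 < ε) (hB₀ : 0 ≤ B₀) : ∃ C : ℝ, 1 ≤ C ∧
    ∀ (M f : Eis) (OO : Finset (Eis × Eis)), (∀ o ∈ OO, IsPrim o.1 ∧ IsPrim o.2) →
      ∀ (lam : {x // x ∈ OO} → ℝ) (v w : {x // x ∈ OO} → Eis → ℂ) (G : Eis → ℂ)
      (X : ℝ), Dat4 M f lam v w X → ∀ (B : Eis) (𝒥 : Finset (Tm {x // x ∈ OO})),
        (∀ t ∈ 𝒥, t.OK M f ∧ t.val f lam v w G ≠ 0 ∧ t.B = B ∧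
          (nm (yK (fun o => o.1.1 * o.1.2) t) : ℝ) ≤ X ^ B₀) →
        ∀ K, ((𝒥.filter (fun t => yK (fun o => o.1.1 * o.1.2) t = K)).card : ℝ) ≤
          C * X ^ ε := by
  obtain ⟨C1, hC1, h1⟩ := fib (ε := ε / 2) (B₀ := B₀) (by positivity)
  set ε' : ℝ := ε / (2 * (B₀ + 1)) with hε'
  have hε'0 : 0 < ε' := by positivity
  obtain ⟨Ct, hCt1, hCt⟩ := tau_le_rpow hε'0
  refine ⟨C1 * Ct, one_le_mul_of_one_le_of_one_le hC1 hCt1, ?_⟩
  intro M f OO hO lam v w G X hD B 𝒥 hJ K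
  have hX1 := hD.X1
  have hX0 : 0 < X := by linarith
  have h2 := h1 M f {x // x ∈ OO} _ lam v w G X hD (fun o => o.1.1 * o.1.2) (Ct * X ^ (ε / 2))
    (by positivity) (fun o => (hO _ o.2).1.mul (hO _ o.2).2) ?_ B 𝒥 hJ K
  · refine h2.trans (le_of_eq ?_)
    have : X ^ ε = X ^ (ε / 2) * X ^ (ε / 2) := by
      rw [← Real.rpow_add hX0]; congr 1; ring
    rw [this]; ring
  · intro n hn hnX
    refine (pair_mult OO hO hn.ne_zero).trans ((hCt n hn.ne_zero).trans ?_)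
    gcongr
    calc (nm n : ℝ) ^ ε' ≤ (X ^ B₀) ^ ε' :=
          Real.rpow_le_rpow (Nat.cast_nonneg _) hnX hε'0.le
      _ = X ^ (B₀ * ε') := (Real.rpow_mul hX0.le _ _).symm
      _ ≤ X ^ (ε / 2) := by
          refine Real.rpow_le_rpow_of_exponent_le hX1 ?_
          rw [hε']
          have : B₀ * (ε / (2 * (B₀ + 1))) = ε / 2 * (B₀ / (B₀ + 1)) := by
            field_simp
          rw [this]
          have h3 : B₀ / (B₀ + 1) ≤ 1 := by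
            rw [div_le_one (by linarith)]; linarith
          nlinarith

/-! ### sums over `𝒥` from sums at fixed `B` -/

open Classical in
/-- the number of `B` in a window -/
lemma sum_B (𝒥 : Finset (Tm O)) (F : Tm O → ℝ) {N : ℕ} {A : ℝ} (hA : 0 ≤ A)
    (hN : ∀ t ∈ 𝒥, IsPrim t.B ∧ nm t.B ≤ N)
    (h : ∀ B : Eis, ∑ t ∈ 𝒥.filter (fun t => t.B = B), F t ≤ A) :
    ∑ t ∈ 𝒥, F t ≤ 100 * N * A := by
  have h1 : ∀ t ∈ 𝒥, t.B ∈ primBall N := fun t ht => mem_primBall.mpr ⟨(hN t ht).2, (hN t ht).1⟩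
  rw [← Finset.sum_fiberwise_of_maps_to h1]
  calc ∑ B ∈ primBall N, ∑ t ∈ 𝒥.filter (fun t => t.B = B), F t ≤ ∑ _B ∈ primBall N, A :=
        Finset.sum_le_sum fun B _ => h B
    _ = (primBall N).card * A := by rw [Finset.sum_const, nsmul_eq_mul]
    _ ≤ 100 * N * A := by
        gcongr
        refine le_trans ?_ (card_nz_le N)
        exact_mod_cast Finset.card_le_card (primBall_subset_nz N)

end Crest.Agent.R017.JyF744
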