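import Crest.Agent.R017.JyF_744
import Crest.Agent.R017.E4Yk2_792

/-!
# Row 17, C70/E4 v7: the `y`-side over terms of the opened sum (helper744)

* `ys_congr`, `gx_prin0` : the twist matters only on elements prime to `M`
* `ys_mulw` : `∑_{t ∈ 𝒥} ‖t.ys w G‖²` at fixed `B` from children lists, `w o = mulw e₀ (ww .. (s ν))`
* `ys_ww` : the same without the fixed symbol
-/

set_option autoImplicit false

noncomputable section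

open Complex
open scoped ComplexConjugate

namespace Crest.Agent.R017.JyF744

open Crest.Agent.R012 Crest.Agent.R012.Eis
open Crest.Agent.R012.GaussLoc283
open Crest.Agent.R012.PSer47 (IsChar)
open Crest.Agent.R017.Sx545 (Sm)
open Crest.Agent.R017.CM106 Crest.Agent.R017.HP842
open Crest.Agent.R017.FE47 (PU)
open Crest.Agent.R017.End699 (HC prin0)
open Crest.Agent.R017.B770
open Crest.Agent.R017.Prov71
open Crest.Agent.R017.Rough381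
open Crest.Agent.R017.E4352
open Crest.Agent.R017.E4o502 (vD wD GoodD GB)
open Crest.Agent.R017.E4D164 (ww mulw)
open Crest.Agent.R017.E4J352
open Crest.Agent.R017.E4Yb792

variable {O : Type} {M f : Eis} {t : Tm O}

/-- `Dat4` is monotone in the size -/
lemma Dat4.mono' [Fintype O] {lam : O → ℝ} {v w : O → Eis → ℂ} {X X' : ℝ}
    (h : Dat4 M f lam v w X) (hX : X ≤ X') : Dat4 M f lam v w X' where
  X1 := h.X1.trans hX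
  card := h.card.trans hX
  lam1 := fun o => ⟨(h.lam1 o).1, (h.lam1 o).2.trans hX⟩
  hf := ⟨h.hf.1, h.hf.2.trans hX⟩
  hv := h.hv
  hw := h.hw
  vx := fun o x hx => ⟨(h.vx o x hx).1, (h.vx o x hx).2.trans hX⟩
  wy := fun o y hy => (h.wy o y hy).trans hX
  vb := fun o x => (h.vb o x).trans hX
  wb := fun o y => (h.wb o y).trans hX

/-- the twist matters only on the elements prime to `M` -/
lemma ys_congr {w : O → Eis → ℂ} (hw : SSm M (w t.o)) (h : t.OK M f) {G G' : Eis → ℂ}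
    (hG : ∀ y, Sm M y → G y = G' y) : t.ys w G = t.ys w G' := by
  unfold Tm.ys
  congr 1
  funext y
  by_cases h0 : wD (t.D0 * t.D1) t.D1 (w t.o) (t.Z * t.Z' * y) = 0
  · unfold tws
    rw [h0]
    split_ifs <;> simp
  · obtain ⟨h3, h4⟩ := tws_ne h0
    have h5 := hw.sm _ h4
    have hy : Sm M y := by
      refine ⟨(h5.1.of_mul_left h.pD1).of_mul_left (h.pZ.1.mul h.pZ'.1), ?_⟩
      exact h5.2.of_mul_left_right.of_mul_left_right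
    unfold tws
    beta_reduce
    rw [hG y hy]

/-- the same for the `x`-side -/
lemma xs_congr {v : O → Eis → ℂ} (hv : SSm M (v t.o)) (h : t.OK M f) {G G' : Eis → ℂ}
    (hG : ∀ y, Sm M y → G y = G' y) : t.xs v G = t.xs v G' := by
  unfold Tm.xs
  congr 1
  funext y
  by_cases h0 : vD (t.D0 * t.D1) (v t.o) (t.R * t.R' * y) = 0
  · unfold tws
    rw [h0]
    split_ifs <;> simp
  · obtain ⟨h3, h4⟩ := tws_ne h0
    have h5 := hv.sm _ h4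
    rw [one_mul] at h5
    have hy : Sm M y :=
      ⟨h5.1.of_mul_left (h.pR.1.mul h.pR'.1), h5.2.of_mul_left_right⟩
    unfold tws
    beta_reduce
    rw [hG y hy]

/-- the direct half is the twist by the principal character -/
lemma gx_prin0 {y : Eis} (hy : Sm M y) : (1 : ℂ) = gx (prin0 M) 0 0 y := by
  unfold gx End699.tw prin0
  rw [if_pos hy.2, End699.ang_zero']
  simp

/-- the twist of the `y`-side, list data -/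
def nu2 {OO : Finset (Eis × Eis)} (o : {x // x ∈ OO}) : Eis := o.1.1 * o.1.2

open Classical in
set_option maxHeartbeats 1000000 in
/-- **the `y`-side at fixed `B`** -/
theorem ys_mulw {h : ℝ → ℝ} {c : ℝ} (hpu : PU h c) (N : ℕ) {ε : ℝ} (hε : 0 < ε) {B₀ : ℝ}
    (hB₀ : 0 ≤ B₀) (M₁ : ℝ) : ∃ C r : ℝ, 1 ≤ C ∧ 0 ≤ r ∧ ∀ X : ℝ, 3 ≤ X →
    ∀ (P P₁ P₂ : DPar), (∀ k : Kd, IsChar (chK P k)) →
    ∀ ps₁ ps₂ : List Pq, ps₁.length ≤ N → ps₂.length ≤ N →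
    (∀ p ∈ ps₁, p.z ≤ B₀ * Real.log X) → (∀ p ∈ ps₂, p.z ≤ B₀ * Real.log X) →
    ∀ (M M' B z e₀ : Eis) (η : Eis → ℂ) (j : ℤ) (ξ : ℝ) (hMB : M * B ≠ 0), Sm M e₀ →
    PrI M z → HC M' η → (∀ p : Eis, Prime p → p ∣ M' → p ∣ M) →
    (∀ p ∈ ps₁, ∀ b, IsPrim b → chK P₁ p.kd b = chK P p.kd b * End699.tw η j b) →
    (∀ p ∈ ps₂, ∀ b, IsPrim b → chK P₂ p.kd b = chK P p.kd b *
      (conj (End699.tw η j b) * conj (End699.tw η j b))) →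
    ∀ (h₁ : FS (alL h (ps₁.map (Pq.pc P)))) (h₂ : FS (alL h (ps₂.map (Pq.pc P))))
      (f : Eis) (OO : Finset (Eis × Eis)), (∀ o ∈ OO, IsPrim o.1 ∧ IsPrim o.2) →
    ∀ (lam : {x // x ∈ OO} → ℝ) (v w : {x // x ∈ OO} → Eis → ℂ),
      Dat4 M f lam v w (X ^ B₀) →
      (∀ o, w o = mulw e₀ (ww M (alL h (ps₁.map (Pq.pc P))) (alL h (ps₂.map (Pq.pc P)))
          (h₁.fin.toFinset ×ˢ h₂.fin.toFinset) z (nu2 o))) →
    ∀ G : Eis → ℂ, (∀ y, Sm M y → G y = gx η j ξ y) →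
    ∀ 𝒥 : Finset (Tm {x // x ∈ OO}),
      (∀ t ∈ 𝒥, t.OK M f ∧ t.val f lam v w G ≠ 0 ∧ t.B = B) →
    ∀ Λ : ℝ, Λ ≤ X ^ B₀ → (∀ t ∈ 𝒥, (nm (yK nu2 t) : ℝ) ≤ Λ) →
    ∀ Q : Eis → Prop, (∀ t ∈ 𝒥, Q (yK nu2 t)) →
    ∀ Bd : ℝ, 0 ≤ Bd →
    (∀ t ∈ 𝒥, ∀ f1 f2 f3 D1' Z'' : Eis, e₀ = f1 * f2 * f3 → Sm M f1 → Sm M f2 → Sm M f3 →
      t.D1 = f1 * D1' → t.Z * t.Z' = f2 * Z'' → IsCoprime f3 t.D1 → IsCoprime f3 (B * t.b) →
      PrI (B * t.b) f2 →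
      ∀ l m : Eis, IsPrim l → IsPrim m → l * m ^ 2 = z * Z'' →
      ∀ ps₁' ps₂' : List Pq,
      List.Forall₂ (Ch r) ps₁' (ps₁.map (shf (M * B) hMB ξ)) →
      List.Forall₂ (Ch r) ps₂' (ps₂.map (shf (M * B) hMB (-2 * ξ))) →
      |Ls ps₁ - Ls ps₁' - (Real.log (nm l) + Real.log (nm D1'))| ≤ r →
      |Ls ps₂ - Ls ps₂' - Real.log (nm m)| ≤ r →
      RQ Q h (Real.log Λ) (ps₁'.map (Pq.pc P₁) ++ ps₂'.map (Pq.pc P₂)) ≤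
        Bd * (cst ps₁' (ps₁.map (shf (M * B) hMB ξ)) *
          cst ps₂' (ps₂.map (shf (M * B) hMB (-2 * ξ)))) ^ M₁) →
    ∑ t ∈ 𝒥, ‖t.ys w G‖ ^ 2 ≤ C * X ^ ε * Bd := by
  obtain ⟨C₁, r, hC₁, hr, H⟩ := YG_mulw hpu N (ε := ε / 2) (by positivity) hB₀ M₁
  set ε' : ℝ := ε / (10 * (B₀ + 1)) with hε'
  have hε'0 : 0 < ε' := by positivity
  obtain ⟨C₂, hC₂, hfib⟩ := fib_pair (ε := ε') (B₀ := 1) hε'0 zero_le_one
  refine ⟨C₁ * C₂ ^ 5, r, one_le_mul_of_one_le_of_one_le hC₁ (one_le_pow₀ hC₂), hr, ?_⟩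
  intro X hX P P₁ P₂ hP ps₁ ps₂ hlen₁ hlen₂ hz₁ hz₂ M M' B z e₀ η j ξ hMB he₀ hz hη hM' hc₁ hc₂
    h₁ h₂ f OO hOO lam v w hD hw G hG 𝒥 hJ Λ hΛX hKle Q hQ Bd hBd hyp
  have hX1 : (1 : ℝ) ≤ X := by linarith
  have hX0 : (0 : ℝ) < X := by linarith
  have hf := hD.hf.1
  set T₀ : ℝ := C₂ * (X ^ B₀) ^ ε' with hT₀
  have hXB1 : 1 ≤ X ^ B₀ := Real.one_le_rpow hX1 hB₀
  have hT₀1 : 1 ≤ T₀ := one_le_mul_of_one_le_of_one_le hC₂ (Real.one_le_rpow hXB1 hε'0.le)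
  have hmult : ∀ K, ((𝒥.filter (fun t => yK nu2 t = K)).card : ℝ) ≤ T₀ := by
    intro K
    have h1 := hfib M f OO hOO lam v w G (X ^ B₀) hD B 𝒥 (by
      intro t ht
      obtain ⟨a1, a2, a3⟩ := hJ t ht
      refine ⟨a1, a2, a3, ?_⟩
      rw [Real.rpow_one]
      exact (hKle t ht).trans hΛX) K
    exact h1
  have key := H X hX P P₁ P₂ hP ps₁ ps₂ hlen₁ hlen₂ hz₁ hz₂ M M' B z e₀ η j ξ hMB he₀ hz hη hM'
    hc₁ hc₂ h₁ h₂ (Tm {x // x ∈ OO}) 𝒥 (fun t => nu2 t.o) (fun t => t.D0 * t.D1) (fun t => t.D1)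
    (fun t => t.b) (fun t => t.Z * t.Z') (fun t => t.k) (fun t y => sy y t.b * gx η j ξ y)
    (by
      intro t ht
      obtain ⟨a1, a2, a3⟩ := hJ t ht
      refine ⟨(hOO _ t.o.2).1.mul (hOO _ t.o.2).2, OK.D a1, a1.pD1, dvd_mul_left _ _, OK.sqD1 a1,
        ?_, ?_, OK.pbb a1, ?_, (OK.pk a1).ne_zero⟩
      · rw [← a3]; exact OK.cDBb hf a1
      · rw [← a3]; exact OK.smBb a1
      · rw [← a3]; exact OK.prZ a1)
    (by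
      intro t _ y _ _
      rfl)
    Λ hΛX hKle Q hQ T₀ hT₀1 (by
      intro K
      refine le_trans (le_of_eq ?_) (hmult K)
      congr) Bd hBd hyp
  have hsum : ∑ t ∈ 𝒥, ‖t.ys w G‖ ^ 2 = ∑ t ∈ 𝒥, ‖CS (tws (t.Z * t.Z') (B * t.b)
      (fun y => sy y t.b * gx η j ξ y) (wD (t.D0 * t.D1) t.D1 (mulw e₀
        (ww M (alL h (ps₁.map (Pq.pc P))) (alL h (ps₂.map (Pq.pc P)))
          (h₁.fin.toFinset ×ˢ h₂.fin.toFinset) z (nu2 t.o))))) t.k‖ ^ 2 := by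
    refine Finset.sum_congr rfl fun t ht => ?_
    obtain ⟨a1, a2, a3⟩ := hJ t ht
    rw [ys_congr (hD.hw t.o) a1 hG]
    unfold Tm.ys
    rw [a3, hw]
  rw [hsum]
  refine key.trans ?_
  have e1 : T₀ ^ 5 = C₂ ^ 5 * X ^ (5 * (B₀ * ε')) := by
    rw [hT₀, mul_pow, ← Real.rpow_mul hX0.le, ← Real.rpow_natCast (X ^ (B₀ * ε')) 5,
      ← Real.rpow_mul hX0.le]
    congr 2
    push_cast; ring
  rw [e1]
  have h5 : X ^ (5 * (B₀ * ε')) ≤ X ^ (ε / 2) := by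
    refine Real.rpow_le_rpow_of_exponent_le hX1 ?_
    rw [hε']
    have e2 : 5 * (B₀ * (ε / (10 * (B₀ + 1)))) = ε / 2 * (B₀ / (B₀ + 1)) := by
      field_simp
      ring
    rw [e2]
    have h3 : B₀ / (B₀ + 1) ≤ 1 := by
      rw [div_le_one (by linarith)]; linarith
    nlinarith
  calc C₁ * X ^ (ε / 2) * (C₂ ^ 5 * X ^ (5 * (B₀ * ε'))) * Bd
      ≤ C₁ * X ^ (ε / 2) * (C₂ ^ 5 * X ^ (ε / 2)) * Bd := by gcongr
    _ = C₁ * C₂ ^ 5 * (X ^ (ε / 2) * X ^ (ε / 2)) * Bd := by ring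
    _ = C₁ * C₂ ^ 5 * X ^ ε * Bd := by
        rw [← Real.rpow_add hX0]; congr 3; ring

lemma mulw_one' (w : Eis → ℂ) : mulw 1 w = w := by
  funext y
  have := E4D164.mulw_mul (f := 1) one_ne_zero w y
  rwa [one_mul] at this

open Classical in
set_option maxHeartbeats 1000000 in
/-- **the `y`-side at fixed `B`**, without fixed symbol -/
theorem ys_ww {h : ℝ → ℝ} {c : ℝ} (hpu : PU h c) (N : ℕ) {ε : ℝ} (hε : 0 < ε) {B₀ : ℝ}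
    (hB₀ : 0 ≤ B₀) (M₁ : ℝ) : ∃ C r : ℝ, 1 ≤ C ∧ 0 ≤ r ∧ ∀ X : ℝ, 3 ≤ X →
    ∀ (P P₁ P₂ : DPar), (∀ k : Kd, IsChar (chK P k)) →
    ∀ ps₁ ps₂ : List Pq, ps₁.length ≤ N → ps₂.length ≤ N →
    (∀ p ∈ ps₁, p.z ≤ B₀ * Real.log X) → (∀ p ∈ ps₂, p.z ≤ B₀ * Real.log X) →
    ∀ (M M' B z : Eis) (η : Eis → ℂ) (j : ℤ) (ξ : ℝ) (hMB : M * B ≠ 0),
    PrI M z → HC M' η → (∀ p : Eis, Prime p → p ∣ M' → p ∣ M) →
    (∀ p ∈ ps₁, ∀ b, IsPrim b → chK P₁ p.kd b = chK P p.kd b * End699.tw η j b) →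
    (∀ p ∈ ps₂, ∀ b, IsPrim b → chK P₂ p.kd b = chK P p.kd b *
      (conj (End699.tw η j b) * conj (End699.tw η j b))) →
    ∀ (h₁ : FS (alL h (ps₁.map (Pq.pc P)))) (h₂ : FS (alL h (ps₂.map (Pq.pc P))))
      (f : Eis) (OO : Finset (Eis × Eis)), (∀ o ∈ OO, IsPrim o.1 ∧ IsPrim o.2) →
    ∀ (lam : {x // x ∈ OO} → ℝ) (v w : {x // x ∈ OO} → Eis → ℂ),
      Dat4 M f lam v w (X ^ B₀) →
      (∀ o, w o = ww M (alL h (ps₁.map (Pq.pc P))) (alL h (ps₂.map (Pq.pc P)))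
          (h₁.fin.toFinset ×ˢ h₂.fin.toFinset) z (nu2 o)) →
    ∀ G : Eis → ℂ, (∀ y, Sm M y → G y = gx η j ξ y) →
    ∀ 𝒥 : Finset (Tm {x // x ∈ OO}),
      (∀ t ∈ 𝒥, t.OK M f ∧ t.val f lam v w G ≠ 0 ∧ t.B = B) →
    ∀ Λ : ℝ, Λ ≤ X ^ B₀ → (∀ t ∈ 𝒥, (nm (yK nu2 t) : ℝ) ≤ Λ) →
    ∀ Q : Eis → Prop, (∀ t ∈ 𝒥, Q (yK nu2 t)) →
    ∀ Bd : ℝ, 0 ≤ Bd →
    (∀ t ∈ 𝒥, ∀ l m : Eis, IsPrim l → IsPrim m → l * m ^ 2 = z * (t.Z * t.Z') →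
      ∀ ps₁' ps₂' : List Pq,
      List.Forall₂ (Ch r) ps₁' (ps₁.map (shf (M * B) hMB ξ)) →
      List.Forall₂ (Ch r) ps₂' (ps₂.map (shf (M * B) hMB (-2 * ξ))) →
      |Ls ps₁ - Ls ps₁' - (Real.log (nm l) + Real.log (nm t.D1))| ≤ r →
      |Ls ps₂ - Ls ps₂' - Real.log (nm m)| ≤ r →
      RQ Q h (Real.log Λ) (ps₁'.map (Pq.pc P₁) ++ ps₂'.map (Pq.pc P₂)) ≤
        Bd * (cst ps₁' (ps₁.map (shf (M * B) hMB ξ)) *
          cst ps₂' (ps₂.map (shf (M * B) hMB (-2 * ξ)))) ^ M₁) →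
    ∑ t ∈ 𝒥, ‖t.ys w G‖ ^ 2 ≤ C * X ^ ε * Bd := by
  obtain ⟨C, r, hC, hr, H⟩ := ys_mulw hpu N hε hB₀ M₁
  refine ⟨C, r, hC, hr, ?_⟩
  intro X hX P P₁ P₂ hP ps₁ ps₂ hlen₁ hlen₂ hz₁ hz₂ M M' B z η j ξ hMB hz hη hM' hc₁ hc₂
    h₁ h₂ f OO hOO lam v w hD hw G hG 𝒥 hJ Λ hΛX hKle Q hQ Bd hBd hyp
  refine H X hX P P₁ P₂ hP ps₁ ps₂ hlen₁ hlen₂ hz₁ hz₂ M M' B z 1 η j ξ hMB
    ⟨isPrim_one, isCoprime_one_left⟩ hz hη hM' hc₁ hc₂ h₁ h₂ f OO hOO lam v w hD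
    (fun o => by rw [mulw_one', hw]) G hG 𝒥 hJ Λ hΛX hKle Q hQ Bd hBd ?_
  intro t ht f1 f2 f3 D1' Z'' hf hf1 hf2 hf3 hD1 hZ _ _ _ l m hl hm hlm
  have hu : f1 = 1 ∧ f2 = 1 := by
    have h1 : IsUnit (f1 * f2 * f3) := by rw [← hf]; exact isUnit_one
    have h2 := isUnit_of_mul_isUnit_left h1
    exact ⟨K695.prim_eq_one_of_isUnit hf1.1 (isUnit_of_mul_isUnit_left h2),
      K695.prim_eq_one_of_isUnit hf2.1 (isUnit_of_mul_isUnit_right h2)⟩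
  obtain ⟨rfl, rfl⟩ := hu
  rw [one_mul] at hD1 hZ
  subst hD1
  rw [← hZ] at hlm
  exact hyp t ht l m hl hm hlm

end Crest.Agent.R017.JyF744
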