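import Crest.Agent.R017.JyL_744
import Crest.Agent.R017.E4Yo_792

/-!
# Row 17, C70/E4 v7: the moved mass over terms of the opened sum (helper744)

* `ys_move0` : `∑_{t ∈ 𝒥} Wx t ‖t.ys w G‖` from helper792's `YG_move`; the prefix `B₁` and the
  moving part `bb t` of `b` are free: only the primes of `B₁ bb t` and the symbol `(y / bb t)` on the
  elements prime to `B b` matter
-/

set_option autoImplicit false

noncomputable section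

open Complex
open scoped ComplexConjugate

namespace Crest.Agent.R017.JyF744

open Crest.Agent.R012 Crest.Agent.R012.Eis
open Crest.Agent.R012.GaussLoc283
open Crest.Agent.R012.PSer47 (IsChar)
open Crest.Agent.R017.Sx545 (Sm)
open Crest.Agent.R017.CM106 Crest.Agent.R017.HP842
open Crest.Agent.R017.FE47 (PU)
open Crest.Agent.R017.End699 (HC prin0)
open Crest.Agent.R017.B770
open Crest.Agent.R017.Prov71
open Crest.Agent.R017.Rough381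
open Crest.Agent.R017.E4352
open Crest.Agent.R017.E4o502 (vD wD GoodD GB)
open Crest.Agent.R017.E4D164 (ww mulw)
open Crest.Agent.R017.E4J352
open Crest.Agent.R017.E4Yb792

variable {O : Type} {M f : Eis} {t : Tm O}

/-- coprimality depends only on the primes -/
lemma cop_of_same {y q q' : Eis} (hq' : q' ≠ 0) (h : ∀ p, Prime p → p ∣ q' → p ∣ q)
    (hc : IsCoprime y q) : IsCoprime y q' := by
  refine isCoprime_of_prime_dvd (fun h0 => hq' h0.2) fun p hp h1 h2 => ?_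
  exact hp.not_isUnit (hc.isUnit_of_dvd' h1 (h p hp h2))

/-- `tws` depends only on the primes of the modulus and the values of the twist -/
lemma tws_congr' {R q q' : Eis} (hq : q ≠ 0) (hq' : q' ≠ 0)
    (h : ∀ p, Prime p → (p ∣ q ↔ p ∣ q')) {g g' W : Eis → ℂ}
    (hg : ∀ y, IsCoprime y q → W (R * y) ≠ 0 → g y = g' y) :
    tws R q g W = tws R q' g' W := by
  funext y
  unfold tws
  by_cases h1 : IsCoprime y q
  · have h2 : IsCoprime y q' := cop_of_same hq' (fun p hp hd => (h p hp).2 hd) h1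
    rw [if_pos h1, if_pos h2]
    by_cases h3 : W (R * y) = 0
    · rw [h3, mul_zero, mul_zero]
    · rw [hg y h1 h3]
  · have h2 : ¬ IsCoprime y q' := fun h3 =>
      h1 (cop_of_same hq (fun p hp hd => (h p hp).1 hd) h3)
    rw [if_neg h1, if_neg h2]

open Classical in
set_option maxHeartbeats 1000000 in
/-- **the moved mass over terms**, free prefix and free moving part -/
theorem ys_move0 {h : ℝ → ℝ} {c : ℝ} (hpu : PU h c) (N : ℕ) {ε : ℝ} (hε : 0 < ε) {B₀ : ℝ}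
    (hB₀ : 0 ≤ B₀) (M₁ : ℝ) : ∃ C r : ℝ, 1 ≤ C ∧ 0 ≤ r ∧ ∀ X : ℝ, 3 ≤ X →
    ∀ (P P₁ P₂ : DPar), (∀ k : Kd, IsChar (chK P k)) →
    ∀ ps₁ ps₂ : List Pq, ps₁.length ≤ N → ps₂.length ≤ N →
    (∀ p ∈ ps₁, p.z ≤ B₀ * Real.log X) → (∀ p ∈ ps₂, p.z ≤ B₀ * Real.log X) →
    ∀ (M M' B z e₀ : Eis) (η : Eis → ℂ) (j : ℤ) (ξ : ℝ) (hMB : M * B ≠ 0), Sm M e₀ →
    PrI M z → HC M' η → (∀ p : Eis, Prime p → p ∣ M' → p ∣ M) →
    (∀ p ∈ ps₁, ∀ b, IsPrim b → chK P₁ p.kd b = chK P p.kd b * End699.tw η j b) →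
    (∀ p ∈ ps₂, ∀ b, IsPrim b → chK P₂ p.kd b = chK P p.kd b *
      (conj (End699.tw η j b) * conj (End699.tw η j b))) →
    ∀ (h₁ : FS (alL h (ps₁.map (Pq.pc P)))) (h₂ : FS (alL h (ps₂.map (Pq.pc P))))
      (f : Eis), Sm M f → ∀ (OO : Finset (Eis × Eis)), (∀ o ∈ OO, IsPrim o.1 ∧ IsPrim o.2) →
    ∀ (w : {x // x ∈ OO} → Eis → ℂ), (∀ o, SSm M (w o)) →
      (∀ o, w o = mulw e₀ (ww M (alL h (ps₁.map (Pq.pc P))) (alL h (ps₂.map (Pq.pc P)))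
          (h₁.fin.toFinset ×ˢ h₂.fin.toFinset) z (nu2 o))) →
    ∀ G : Eis → ℂ, (∀ y, Sm M y → G y = gx η j ξ y) →
    ∀ (bb : Tm {x // x ∈ OO} → Eis) (𝒥 : Finset (Tm {x // x ∈ OO})),
      (∀ t ∈ 𝒥, t.OK M f ∧ IsPrim (bb t) ∧ Sm M (B * bb t) ∧
        (∀ p, Prime p → (p ∣ t.B * t.b ↔ p ∣ B * bb t)) ∧
        (∀ y, IsPrim y → IsCoprime y (t.B * t.b) → sy y t.b = sy y (bb t))) →
    ∀ Λ : ℝ, Λ ≤ X ^ B₀ →
      (∀ t ∈ 𝒥, (nm (KG (bb t) (nu2 t.o) (t.D0 * t.D1) t.k) : ℝ) ≤ Λ) →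
    ∀ Q : Eis → Prop, (∀ t ∈ 𝒥, Q (KG (bb t) (nu2 t.o) (t.D0 * t.D1) t.k)) →
    ∀ T₀ : ℝ, 1 ≤ T₀ → (∀ K, ((𝒥.filter
      (fun t => KG (bb t) (nu2 t.o) (t.D0 * t.D1) t.k = K)).card : ℝ) ≤ T₀) →
    ∀ Wx : Tm {x // x ∈ OO} → ℝ, (∀ t ∈ 𝒥, 0 ≤ Wx t) → ∀ S₀ : ℝ, 0 ≤ S₀ →
    (∀ t ∈ 𝒥, ∀ f1 f2 f3 D1' Z'' : Eis, e₀ = f1 * f2 * f3 → Sm M f1 → Sm M f2 → Sm M f3 →
      t.D1 = f1 * D1' → t.Z * t.Z' = f2 * Z'' → IsCoprime f3 t.D1 → IsCoprime f3 (B * bb t) →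
      PrI (B * bb t) f2 →
      ∀ l m : Eis, IsPrim l → IsPrim m → l * m ^ 2 = z * Z'' →
      ∀ (n₁ : Fin ps₁.length → ℕ) (n₂ : Fin ps₂.length → ℕ),
      |∑ i, (n₁ i : ℝ) - (Real.log (nm l) + Real.log (nm D1'))| ≤ r →
      |∑ i, (n₂ i : ℝ) - Real.log (nm m)| ≤ r →
      ∃ (mv₁ : Finset (Fin ps₁.length)) (mv₂ : Finset (Fin ps₂.length)) (Sx Bd : ℝ),
        0 ≤ Sx ∧ 0 ≤ Bd ∧ Sx * Bd ≤ S₀ ^ 2 ∧
        (∀ E' ⊆ 𝒥, ∀ (x₁ : Tm {x // x ∈ OO} → Fin ps₁.length → Eis)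
            (x₂ : Tm {x // x ∈ OO} → Fin ps₂.length → Eis),
          (∀ e ∈ E', (∀ i, IsPrim (x₁ e i) ∧ (n₁ i : ℝ) ≤ Real.log (nm (x₁ e i)) ∧
              Real.log (nm (x₁ e i)) < n₁ i + 1) ∧
            (∀ i, IsPrim (x₂ e i) ∧ (n₂ i : ℝ) ≤ Real.log (nm (x₂ e i)) ∧
              Real.log (nm (x₂ e i)) < n₂ i + 1) ∧
            (∏ i, x₁ e i) * (∏ i, x₂ e i) ^ 2 ∣ e.D1 * (z * (e.Z * e.Z'))) →
          ∑ e ∈ E', Wx e ^ 2 *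
            ((∏ i ∈ mv₁, ‖CS (pc h (tP (th1 M B η j) ξ ((ps₁.get i).pc P) (x₁ e i)))
                (KG (bb e) (nu2 e.o) (e.D0 * e.D1) e.k)‖ ^ 2) *
              ∏ i ∈ mv₂, ‖CS (pc h (tP (th2 M B η j) (-2 * ξ) ((ps₂.get i).pc P) (x₂ e i)))
                (KG (bb e) (nu2 e.o) (e.D0 * e.D1) e.k)‖ ^ 2) ≤ Sx) ∧
        (∀ ps₁' ps₂' : List Pq,
          List.Forall₂ (Ch r) ps₁' ((rst ps₁ mv₁).map (shf (M * B) hMB ξ)) →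
          List.Forall₂ (Ch r) ps₂' ((rst ps₂ mv₂).map (shf (M * B) hMB (-2 * ξ))) →
          |Ls (rst ps₁ mv₁) - Ls ps₁' - ∑ i ∈ mv₁ᶜ, (n₁ i : ℝ)| ≤ r →
          |Ls (rst ps₂ mv₂) - Ls ps₂' - ∑ i ∈ mv₂ᶜ, (n₂ i : ℝ)| ≤ r →
          RQ Q h (Real.log Λ) (ps₁'.map (Pq.pc P₁) ++ ps₂'.map (Pq.pc P₂)) ≤
            Bd * (cst ps₁' ((rst ps₁ mv₁).map (shf (M * B) hMB ξ)) *
              cst ps₂' ((rst ps₂ mv₂).map (shf (M * B) hMB (-2 * ξ)))) ^ M₁)) →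
    ∑ t ∈ 𝒥, Wx t * ‖t.ys w G‖ ≤ C * X ^ ε * T₀ * S₀ := by
  obtain ⟨C, r, hC, hr, H⟩ := YG_move hpu N hε hB₀ M₁
  refine ⟨C, r, hC, hr, ?_⟩
  intro X hX P P₁ P₂ hP ps₁ ps₂ hlen₁ hlen₂ hz₁ hz₂ M M' B z e₀ η j ξ hMB he₀ hz hη hM' hc₁ hc₂
    h₁ h₂ f hf OO hOO w hSw hw G hG bb 𝒥 hJ Λ hΛX hKle Q hQ T₀ hT₀ hmult Wx hWx S₀ hS₀ hyp
  have key := H X hX P P₁ P₂ hP ps₁ ps₂ hlen₁ hlen₂ hz₁ hz₂ M M' B z e₀ η j ξ hMB he₀ hz hη hM'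
    hc₁ hc₂ h₁ h₂ (Tm {x // x ∈ OO}) 𝒥 (fun t => nu2 t.o) (fun t => t.D0 * t.D1) (fun t => t.D1)
    bb (fun t => t.Z * t.Z') (fun t => t.k) (fun t y => sy y (bb t) * gx η j ξ y)
    (by
      intro t ht
      obtain ⟨a1, a2, a3, a4, a5⟩ := hJ t ht
      refine ⟨(hOO _ t.o.2).1.mul (hOO _ t.o.2).2, OK.D a1, a1.pD1, dvd_mul_left _ _, OK.sqD1 a1,
        ?_, a3, a2, ?_, (OK.pk a1).ne_zero⟩
      · exact cop_of_same a3.prim.ne_zero (fun p hp hd => (a4 p hp).2 hd) (OK.cDBb hf a1)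
      · exact ⟨(OK.prZ a1).1, fun p hp hd => (a4 p hp).1 ((OK.prZ a1).2 p hp hd)⟩)
    (by
      intro t _ y _ _
      rfl)
    Λ hΛX hKle Q hQ T₀ hT₀ (by
      intro K
      refine le_trans (le_of_eq ?_) (hmult K)
      congr) Wx hWx S₀ hS₀ hyp
  have hsum : ∑ t ∈ 𝒥, Wx t * ‖t.ys w G‖ = ∑ t ∈ 𝒥, Wx t * ‖CS (tws (t.Z * t.Z') (B * bb t)
      (fun y => sy y (bb t) * gx η j ξ y) (wD (t.D0 * t.D1) t.D1 (mulw e₀
        (ww M (alL h (ps₁.map (Pq.pc P))) (alL h (ps₂.map (Pq.pc P)))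
          (h₁.fin.toFinset ×ˢ h₂.fin.toFinset) z (nu2 t.o))))) t.k‖ := by
    refine Finset.sum_congr rfl fun t ht => ?_
    obtain ⟨a1, a2, a3, a4, a5⟩ := hJ t ht
    rw [ys_congr (hSw t.o) a1 hG]
    unfold Tm.ys
    have e1 : tws (t.Z * t.Z') (t.B * t.b) (fun y => sy y t.b * gx η j ξ y)
        (wD (t.D0 * t.D1) t.D1 (w t.o)) =
        tws (t.Z * t.Z') (B * bb t) (fun y => sy y (bb t) * gx η j ξ y)
        (wD (t.D0 * t.D1) t.D1 (w t.o)) := by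
      refine tws_congr' (OK.smBb a1).prim.ne_zero a3.prim.ne_zero a4 ?_
      intro y hy h0
      obtain ⟨h3, h4⟩ := tws_ne h0
      have h5 := (hSw t.o).sm _ h4
      have hyp : IsPrim y := (h5.1.of_mul_left a1.pD1).of_mul_left (a1.pZ.1.mul a1.pZ'.1)
      beta_reduce
      rw [a5 y hyp hy]
    rw [e1, hw]
  rw [hsum]
  exact key

end Crest.Agent.R017.JyF744
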