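import Crest.Agent.R017.YV_61
import Crest.Agent.R017.E4Yb4_792

/-!
# Row 17, C70/E4 v7: the `y`-side, children premise for shifted pieces (helper61)

* `yv_shf` : `YV61.yv_list` with the moduli and heights of 792's `shf`: literally the CHILDREN
  premise of `YG_list`, `YG_mulw`, `YG_move`, `ys_mulw`, with
  `Bd = (H (1 + |ξ|)) ^ M₀ X ^ (e + ε)`
-/

set_option autoImplicit false

noncomputable section

open Set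

namespace Crest.Agent.R017.Jy61

open Crest.Agent.R012 Crest.Agent.R012.Eis
open Crest.Agent.R017.FE47
open Crest.Agent.R017.XG702 (Pcs BG)
open Crest.Agent.R017.Prov71
open Crest.Agent.R017.B770
open Crest.Agent.R017.End699 Crest.Agent.R017.Sup271
open Crest.Agent.R017.ER911 Crest.Agent.R017.SC777 Crest.Agent.R017.ExpC702
open Crest.Agent.R017.HP842 (Pc pc)
open Crest.Agent.R017.Rough381 (Ls cst Ch)
open Crest.Agent.R017.UBR61 Crest.Agent.R017.YM61 Crest.Agent.R017.YP61 Crest.Agent.R017.YC61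
open Crest.Agent.R017.YU61 Crest.Agent.R017.YV61
open Crest.Agent.R017.E4Yb792 (shf)

lemma Ls_shf (m₀ : Eis) (hm : m₀ ≠ 0) (ξ : ℝ) (ps : List Pq) :
    Ls (ps.map (shf m₀ hm ξ)) = Ls ps := by
  unfold Rough381.Ls
  rw [List.map_map]
  rfl

lemma nl_shf (X : ℝ) (m₀ : Eis) (hm : m₀ ≠ 0) (ξ : ℝ) (p : Pq) :
    Dq.nl X (shf m₀ hm ξ p) = Dq.nl X p := rfl

lemma lump_shf (m₀ : Eis) (hm : m₀ ≠ 0) (ξ : ℝ) (p : Pq) :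
    Dq.lump (shf m₀ hm ξ p) ↔ Dq.lump p := Iff.rfl

lemma ht_shf {m₀ : Eis} {hm : m₀ ≠ 0} {ξ ξ' H : ℝ} (hξ : |ξ'| ≤ 2 * |ξ|) {p : Pq}
    (hp : 1 + |p.t| ≤ H) : 1 + |(shf m₀ hm ξ' p).t| ≤ 2 * (H * (1 + |ξ|)) := by
  show 1 + |p.t + ξ'| ≤ _
  have h1 := abs_add_le p.t ξ'
  have h2 := abs_nonneg ξ
  have h3 := abs_nonneg p.t
  nlinarith

lemma d_shf {m₀ : Eis} {hm : m₀ ≠ 0} {ξ X B : ℝ} (hX : 0 < X) (h : (nm m₀ : ℝ) ≤ X ^ B) {p : Pq}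
    (hp : (nm p.d : ℝ) ≤ X ^ B) : (nm (shf m₀ hm ξ p).d : ℝ) ≤ X ^ (B + B) := by
  show (nm (p.d * m₀) : ℝ) ≤ _
  rw [nm_mul, Nat.cast_mul, Real.rpow_add hX]
  exact mul_le_mul hp h (Nat.cast_nonneg _) (Real.rpow_nonneg hX.le _)

section
variable {Λ : Type*} {π : Λ → DPar} {h : ℝ → ℝ} {d : ℝ} {r s : EF}
variable {c₀ : ℝ} (hpu : PU h c₀) (hP : ∀ lam, (π lam).OK)
  (hN : ∀ lam k, k ≠ 0 → NPm (π lam).n (π lam).ψ (π lam).l₂ k)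
  (R : ExpRules (7 / 8 + d) r s) (C : ExpC r (ex Dq (fun lam => Rc (π lam) h)))

include hpu hP hN R C

/-- **children of a list, shifted pieces** -/
theorem yv_shf (hd : 0 ≤ d) (hd8 : d ≤ 1 / 8) {K : ℝ} (hK : 0 ≤ K) {ε : ℝ} (hε : 0 < ε) :
    ∃ σ : ℝ, 0 < σ ∧ ∀ (lam : Λ) (N : ℕ) (B : ℝ), ∃ M₀ : ℕ, ∀ ρ : ℝ, 0 ≤ ρ →
    ∃ X₀ : ℝ, 1 < X₀ ∧ ∀ X : ℝ, X₀ ≤ X →
    ∀ (u₁ u₂ : Pq) (qs₁ qs₂ : List Pq), Dq.lump u₁ → Dq.lump u₂ → qs₁.length ≤ N →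
      qs₂.length ≤ N → (∀ p ∈ qs₁, p.kd = .am) → (∀ p ∈ qs₂, p.kd = .mo) →
      (∀ p ∈ qs₁, Dq.nl X p ≤ σ) → (∀ p ∈ qs₂, Dq.lump p ∨ Dq.nl X p ≤ σ) →
      (nm u₁.d : ℝ) ≤ X ^ B → (nm u₂.d : ℝ) ≤ X ^ B → (∀ p ∈ qs₁, (nm p.d : ℝ) ≤ X ^ B) →
      (∀ p ∈ qs₂, (nm p.d : ℝ) ≤ X ^ B) →
    ∀ (m₀ : Eis) (hm : m₀ ≠ 0) (ξ : ℝ), (nm m₀ : ℝ) ≤ X ^ B →
    ∀ H : ℝ, 1 + |u₁.t| ≤ H → 1 + |u₂.t| ≤ H → (∀ p ∈ qs₁, 1 + |p.t| ≤ H) →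
      (∀ p ∈ qs₂, 1 + |p.t| ≤ H) →
    ∀ l α β e : ℝ, 0 ≤ l → l ≤ K * Real.log X → 0 ≤ β →
      u₁.z + u₂.z - β ≤ K * Real.log X → 0 ≤ Ls qs₂ → Ls qs₂ ≤ K * Real.log X →
      Ls qs₁ - α ≤ K * Real.log X →
      GoodY d (l / Real.log X) ((u₁.z + u₂.z - β) / Real.log X) (Ls qs₂ / Real.log X)
        (max 0 ((Ls qs₁ - α) / Real.log X)) (β / Real.log X) e →
    ∀ ps₁ us : List Pq, List.Forall₂ (Ch ρ) ps₁ (qs₁.map (shf m₀ hm ξ)) →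
      List.Forall₂ (Ch ρ) us ((u₁ :: u₂ :: qs₂).map (shf m₀ hm (-2 * ξ))) →
      |Ls qs₁ - Ls ps₁ - α| ≤ ρ → |Ls (u₁ :: u₂ :: qs₂) - Ls us - β| ≤ ρ →
      RQ (fun _ => True) h l (ps₁.map (Pq.pc (π lam)) ++ us.map (Pq.pc (π lam))) ≤
        ((H * (1 + |ξ|)) ^ M₀ * X ^ (e + ε)) * (cst ps₁ (qs₁.map (shf m₀ hm ξ)) *
          cst us ((u₁ :: u₂ :: qs₂).map (shf m₀ hm (-2 * ξ)))) ^ (M₀ : ℝ) := by
  obtain ⟨σ, hσ, V⟩ := yv_list hpu hP hN R C hd hd8 hK (ε := ε / 2) (by linarith)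
  refine ⟨σ, hσ, fun lam N B => ?_⟩
  obtain ⟨M₀, W⟩ := V lam N (B + B)
  refine ⟨M₀, fun ρ hρ => ?_⟩
  obtain ⟨X₀, hX₀, U⟩ := W ρ hρ
  refine ⟨max X₀ (((2 : ℝ) ^ M₀) ^ (2 / ε)), lt_of_lt_of_le hX₀ (le_max_left _ _), ?_⟩
  intro X hX u₁ u₂ qs₁ qs₂ hu₁ hu₂ hl₁ hl₂ hk₁ hk₂ hg₁ hg₂ hm1 hm2 hmq₁ hmq₂ m₀ hm ξ hm₀ H ht1
    ht2 htq₁ htq₂ l α β e hl0 hlK hβ0 hMK hq0 hqK hwK hG ps₁ us hc₁ hcu hα hβ
  have hX0' : X₀ ≤ X := (le_max_left _ _).trans hX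
  have hX1 : 1 < X := by linarith
  have hX0 : 0 < X := by linarith
  have h2 : (2 : ℝ) ^ M₀ ≤ X ^ (ε / 2) := by
    have h3 := Real.rpow_le_rpow (by positivity) ((le_max_right X₀ _).trans hX)
      (show 0 ≤ ε / 2 by linarith)
    rw [← Real.rpow_mul (by positivity)] at h3
    have e1 : 2 / ε * (ε / 2) = 1 := by field_simp
    rwa [e1, Real.rpow_one] at h3
  have hξ1 : |ξ| ≤ 2 * |ξ| := by linarith [abs_nonneg ξ]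
  have hξ2 : |-2 * ξ| ≤ 2 * |ξ| := by rw [abs_mul]; norm_num
  have hmap : (u₁ :: u₂ :: qs₂).map (shf m₀ hm (-2 * ξ)) =
      shf m₀ hm (-2 * ξ) u₁ :: shf m₀ hm (-2 * ξ) u₂ :: qs₂.map (shf m₀ hm (-2 * ξ)) := rfl
  have key := U X hX0' (shf m₀ hm (-2 * ξ) u₁) (shf m₀ hm (-2 * ξ) u₂)
    (qs₁.map (shf m₀ hm ξ)) (qs₂.map (shf m₀ hm (-2 * ξ))) hu₁ hu₂
    (by rw [List.length_map]; exact hl₁) (by rw [List.length_map]; exact hl₂)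
    (by
      intro p hp
      obtain ⟨p', hp', rfl⟩ := List.mem_map.1 hp
      exact hk₁ p' hp')
    (by
      intro p hp
      obtain ⟨p', hp', rfl⟩ := List.mem_map.1 hp
      exact hk₂ p' hp')
    (by
      intro p hp
      obtain ⟨p', hp', rfl⟩ := List.mem_map.1 hp
      exact hg₁ p' hp')
    (by
      intro p hp
      obtain ⟨p', hp', rfl⟩ := List.mem_map.1 hp
      exact hg₂ p' hp')
    (d_shf hX0 hm₀ hm1) (d_shf hX0 hm₀ hm2)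
    (by
      intro p hp
      obtain ⟨p', hp', rfl⟩ := List.mem_map.1 hp
      exact d_shf hX0 hm₀ (hmq₁ p' hp'))
    (by
      intro p hp
      obtain ⟨p', hp', rfl⟩ := List.mem_map.1 hp
      exact d_shf hX0 hm₀ (hmq₂ p' hp'))
    (2 * (H * (1 + |ξ|))) (ht_shf hξ2 ht1) (ht_shf hξ2 ht2)
    (by
      intro p hp
      obtain ⟨p', hp', rfl⟩ := List.mem_map.1 hp
      exact ht_shf hξ1 (htq₁ p' hp'))
    (by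
      intro p hp
      obtain ⟨p', hp', rfl⟩ := List.mem_map.1 hp
      exact ht_shf hξ2 (htq₂ p' hp'))
    l α β e hl0 hlK hβ0 hMK (by rw [Ls_shf]; exact hq0) (by rw [Ls_shf]; exact hqK)
    (by rw [Ls_shf]; exact hwK) (by rw [Ls_shf, Ls_shf]; exact hG) ps₁ us hc₁ (hmap ▸ hcu)
    (by rw [Ls_shf]; exact hα) (by rw [← hmap, Ls_shf]; exact hβ)
  rw [← hmap] at key
  refine key.trans ?_
  set c₁ := cst ps₁ (qs₁.map (shf m₀ hm ξ))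
  set c₂ := cst us ((u₁ :: u₂ :: qs₂).map (shf m₀ hm (-2 * ξ)))
  have g1 : 1 ≤ c₁ := one_le_cst _ _
  have g2 : 1 ≤ c₂ := one_le_cst _ _
  have hH : 0 ≤ H := le_trans (by positivity) ht1
  have hE : 0 ≤ H * (1 + |ξ|) := mul_nonneg hH (by positivity)
  rw [Real.rpow_natCast]
  calc (2 * (H * (1 + |ξ|)) * (c₁ * c₂)) ^ M₀ * X ^ (e + ε / 2)
      = (2 : ℝ) ^ M₀ * ((H * (1 + |ξ|)) ^ M₀ * (c₁ * c₂) ^ M₀ * X ^ (e + ε / 2)) := by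
        rw [mul_pow, mul_pow]; ring
    _ ≤ X ^ (ε / 2) * ((H * (1 + |ξ|)) ^ M₀ * (c₁ * c₂) ^ M₀ * X ^ (e + ε / 2)) :=
        mul_le_mul_of_nonneg_right h2 (by positivity)
    _ = (H * (1 + |ξ|)) ^ M₀ * (X ^ (e + ε / 2) * X ^ (ε / 2)) * (c₁ * c₂) ^ M₀ := by ring
    _ = _ := by
        rw [← Real.rpow_add hX0]
        congr 3
        ring

end

end Crest.Agent.R017.Jy61
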