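import Crest.Agent.R017.Rows_92

/-!
# Row 17, section A92: the group `Γ(3M)`, conjugation, classes of rows, unfolding of one class
-/

set_option autoImplicit false

noncomputable section

open MeasureTheory Complex

namespace Crest.Agent.R017.Ker92

open Crest.Agent.R012 Crest.Agent.R012.K695 Eis

/-! ### Principal congruence subgroups -/

/-- `g ≡ 1 (N)`. -/
def CongOne (N : Eis) (g : Matrix.SpecialLinearGroup (Fin 2) Eis) : Prop :=
  N ∣ g 0 0 - 1 ∧ N ∣ g 0 1 ∧ N ∣ g 1 0 ∧ N ∣ g 1 1 - 1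

lemma congOne_one (N : Eis) : CongOne N 1 := by simp [CongOne]

lemma congOne_mul {N : Eis} {g h : Matrix.SpecialLinearGroup (Fin 2) Eis} (hg : CongOne N g)
    (hh : CongOne N h) : CongOne N (g * h) := by
  obtain ⟨g1, g2, g3, g4⟩ := hg
  obtain ⟨h1, h2, h3, h4⟩ := hh
  simp only [CongOne, Matrix.SpecialLinearGroup.coe_mul, Matrix.mul_apply,
    Fin.sum_univ_two] at *
  refine ⟨?_, ?_, ?_, ?_⟩
  · have : (g 0 0 * h 0 0 + g 0 1 * h 1 0 - 1 : Eis) =
        (g 0 0 - 1) * h 0 0 + (h 0 0 - 1) + g 0 1 * h 1 0 := by ring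
    rw [this]
    exact dvd_add (dvd_add (g1.mul_right _) h1) (g2.mul_right _)
  · exact dvd_add (h2.mul_left _) (g2.mul_right _)
  · exact dvd_add (g3.mul_right _) (h3.mul_left _)
  · have : (g 1 0 * h 0 1 + g 1 1 * h 1 1 - 1 : Eis) =
        (g 1 1 - 1) * h 1 1 + (h 1 1 - 1) + g 1 0 * h 0 1 := by ring
    rw [this]
    exact dvd_add (dvd_add (g4.mul_right _) h4) (g3.mul_right _)

lemma congOne_inv {N : Eis} {g : Matrix.SpecialLinearGroup (Fin 2) Eis} (hg : CongOne N g) :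
    CongOne N g⁻¹ := by
  obtain ⟨g1, g2, g3, g4⟩ := hg
  simp only [CongOne, Matrix.SpecialLinearGroup.coe_inv, Matrix.adjugate_fin_two] at *
  refine ⟨by simpa using g4, by simpa using g2, by simpa using g3, by simpa using g1⟩

lemma congOne_conj {N : Eis} {g : Matrix.SpecialLinearGroup (Fin 2) Eis} (hg : CongOne N g)
    (S : Matrix.SpecialLinearGroup (Fin 2) Eis) : CongOne N (S * g * S⁻¹) := by
  obtain ⟨g1, g2, g3, g4⟩ := hg
  have hdet : S 0 0 * S 1 1 - S 0 1 * S 1 0 = 1 := by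
    have := S.2
    rwa [Matrix.det_fin_two] at this
  obtain ⟨a1, ha1⟩ := g1
  obtain ⟨a2, ha2⟩ := g2
  obtain ⟨a3, ha3⟩ := g3
  obtain ⟨a4, ha4⟩ := g4
  simp only [CongOne, Matrix.SpecialLinearGroup.coe_mul, Matrix.mul_apply,
    Matrix.SpecialLinearGroup.coe_inv, Matrix.adjugate_fin_two, Fin.sum_univ_two,
    Matrix.of_apply, Matrix.cons_val_zero, Matrix.cons_val_one, Matrix.cons_val']
  refine ⟨⟨S 0 0 * a1 * S 1 1 + S 0 1 * a3 * S 1 1 - S 0 0 * a2 * S 1 0 - S 0 1 * a4 * S 1 0, ?_⟩,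
    ⟨-(S 0 0 * a1 * S 0 1) - S 0 1 * a3 * S 0 1 + S 0 0 * a2 * S 0 0 + S 0 1 * a4 * S 0 0, ?_⟩,
    ⟨S 1 0 * a1 * S 1 1 + S 1 1 * a3 * S 1 1 - S 1 0 * a2 * S 1 0 - S 1 1 * a4 * S 1 0, ?_⟩,
    ⟨-(S 1 0 * a1 * S 0 1) - S 1 1 * a3 * S 0 1 + S 1 0 * a2 * S 0 0 + S 1 1 * a4 * S 0 0, ?_⟩⟩
  · linear_combination S 0 0 * S 1 1 * ha1 + S 0 1 * S 1 1 * ha3 - S 0 0 * S 1 0 * ha2
      - S 0 1 * S 1 0 * ha4 + hdet
  · linear_combination -(S 0 0 * S 0 1) * ha1 - S 0 1 * S 0 1 * ha3 + S 0 0 * S 0 0 * ha2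
      + S 0 1 * S 0 0 * ha4
  · linear_combination S 1 0 * S 1 1 * ha1 + S 1 1 * S 1 1 * ha3 - S 1 0 * S 1 0 * ha2
      - S 1 1 * S 1 0 * ha4
  · linear_combination -(S 1 0 * S 0 1) * ha1 - S 1 1 * S 0 1 * ha3 + S 1 0 * S 0 0 * ha2
      + S 1 1 * S 0 0 * ha4 + hdet

lemma mem_Gam_iff {g : Matrix.SpecialLinearGroup (Fin 2) Eis} : g ∈ Gam ↔ CongOne 3 g := Iff.rfl

/-- `Γ(N)` inside `Γ(3)`. -/
def Del (N : Eis) : Subgroup Gam where
  carrier := {g | CongOne N g.1}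
  one_mem' := congOne_one N
  mul_mem' := fun hg hh => congOne_mul hg hh
  inv_mem' := fun hg => congOne_inv hg

lemma mem_Del {N : Eis} {g : Gam} : g ∈ Del N ↔
    N ∣ ga g - 1 ∧ N ∣ gb g ∧ N ∣ gc g ∧ N ∣ gd g - 1 := Iff.rfl

/-- conjugation by `S` as a permutation of `Γ(N)`: `g ↦ S g S⁻¹`. -/
def conjE (N : Eis) (S : Matrix.SpecialLinearGroup (Fin 2) Eis) : Del N ≃ Del N where
  toFun g := ⟨⟨S * g.1.1 * S⁻¹, congOne_conj g.1.2 S⟩, congOne_conj g.2 S⟩
  invFun g := ⟨⟨S⁻¹ * g.1.1 * S, by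
      have := congOne_conj g.1.2 S⁻¹
      rwa [inv_inv] at this⟩, by
      have := congOne_conj g.2 S⁻¹
      rwa [inv_inv] at this⟩
  left_inv g := by
    apply Subtype.ext; apply Subtype.ext
    simp only
    group
  right_inv g := by
    apply Subtype.ext; apply Subtype.ext
    simp only
    group

lemma isLev_Del {M : Eis} (hM : M ≠ 0) : IsLev (Del (3 * M)) M where
  q_ne := hM
  nU_mem b := by
    rw [mem_Del]
    simp only [nU, ga_mk, gb_mk, gc_mk, gd_mk, sub_self, dvd_zero, true_and, and_true]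
    exact mul_dvd_mul_iff_left Eis.three_ne_zero'

/-! ### Equivariance of the kernel functions under `Γ(3M)` -/

section equiv

variable {M : Eis}

/-- `(M/D) = 1` for `D ≡ 1 (3M)`, `3 ∣ M`. -/
lemma sy_M_one (hM : M ≠ 0) (h3M : (3 : Eis) ∣ M) {d : Eis} (hd : 3 * M ∣ d - 1) : sy M d = 1 := by
  have H := Sym645.syAPI
  have hp : IsPrim d := (Dvd.intro _ rfl : (3 : Eis) ∣ 3 * M).trans hd
  rw [sy_period H hM h3M hp K695.isPrim_one hd, H.one_right]

lemma Y2_act (hM : M ≠ 0) (h3M : (3 : Eis) ∣ M) {f : Frm → ℂ} (hf : Aut f) {g : Gam}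
    (hg : g ∈ Del (3 * M)) (X : Frm) : f (Y2 M (act g X)) = kub g * f (Y2 M X) := by
  have H := Sym645.syAPI
  obtain ⟨h1, h2, h3, h4⟩ := mem_Del.mp hg
  obtain ⟨t, ht⟩ := h3
  have hdet : ga g * gd g - M * gb g * (3 * t) = 1 := by
    linear_combination det_eq g + gb g * ht
  set g' : Gam := mkGam (ga g) (M * gb g) (3 * t) (gd g) hdet (ga_prim g)
    (h3M.mul_right _) (Dvd.intro _ rfl) (gd_prim g) with hg'
  have e : Y2 M (act g X) = act g' (Y2 M X) := by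
    rw [act_def, act_def]
    simp only [Y2, hg', ga_mk, gb_mk, gc_mk, gd_mk, ht, map_mul, smul_add, smul_smul]
    refine Prod.ext ?_ ?_
    · simp only; congr 2; ring
    · simp only; congr 2; ring
  have k : kub g' = kub g := by
    rw [kub_eq_top, kub_eq_top]
    simp only [hg', ga_mk, gb_mk]
    rw [H.mul_left _ _ _ (ga_prim g), sy_M_one hM h3M h1, one_mul]
  rw [e, hf g', k]

lemma Y1_act (hM : M ≠ 0) (h3M : (3 : Eis) ∣ M) {f : Frm → ℂ} (hf : Aut f) {g : Gam}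
    (hg : g ∈ Del (3 * M)) (X : Frm) : f (Y1 M (act g X)) = kub g * f (Y1 M X) := by
  have H := Sym645.syAPI
  obtain ⟨h1, h2, h3, h4⟩ := mem_Del.mp hg
  obtain ⟨t, ht⟩ := h2
  have hdet : gd g * ga g - (-(M * gc g)) * (-(3 * t)) = 1 := by
    linear_combination det_eq g + gc g * ht
  set g' : Gam := mkGam (gd g) (-(M * gc g)) (-(3 * t)) (ga g) hdet (gd_prim g)
    ((h3M.mul_right _).neg_right) ((Dvd.intro _ rfl : (3 : Eis) ∣ 3 * t).neg_right)
    (ga_prim g) with hg'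
  have e : Y1 M (act g X) = act g' (Y1 M X) := by
    rw [act_def, act_def]
    simp only [Y1, hg', ga_mk, gb_mk, gc_mk, gd_mk, ht, map_mul, map_neg, smul_add, smul_smul,
      smul_neg, neg_smul, neg_neg, neg_add]
    refine Prod.ext ?_ ?_
    · simp only
      rw [add_comm]
      congr 2; ring
    · simp only
      rw [add_comm]
      congr 1
      rw [← neg_smul]
      congr 1
      ring
  have k : kub g' = kub g := by
    rw [kub_eq_top]
    simp only [hg', ga_mk, gb_mk]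
    rw [sy_neg_left H _ (gd_prim g), H.mul_left _ _ _ (gd_prim g), sy_M_one hM h3M h4, one_mul]
    rfl
  rw [e, hf g', k]

end equiv

/-! ### Classes of rows -/

section classes

variable {M : Eis}

/-- the matrix of a completion. -/
def Cpl.mat (σ : Cpl M) : Matrix.SpecialLinearGroup (Fin 2) Eis :=
  ⟨!![σ.A, σ.B; σ.C, σ.D], by rw [Matrix.det_fin_two_of]; exact σ.det⟩

/-- primitive rows congruent to `(C, D)` modulo `3M`. -/
def Cls (M : Eis) (v : Eis × Eis) : Set (Eis × Eis) :=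
  {r | IsCoprime r.1 r.2 ∧ 3 * M ∣ r.1 - v.1 ∧ 3 * M ∣ r.2 - v.2}

lemma Cls.prim1 {v r : Eis × Eis} (hv : IsPrim v.1) (h : r ∈ Cls M v) : IsPrim r.1 := by
  have h1 : (3 : Eis) ∣ r.1 - v.1 := (Dvd.intro _ rfl : (3 : Eis) ∣ 3 * M).trans h.2.1
  unfold IsPrim at *
  have : r.1 - 1 = (r.1 - v.1) + (v.1 - 1) := by ring
  rw [this]; exact dvd_add h1 hv

lemma Cls.prim2 {v r : Eis × Eis} (hv : IsPrim v.2) (h : r ∈ Cls M v) : IsPrim r.2 := by
  have h1 : (3 : Eis) ∣ r.2 - v.2 := (Dvd.intro _ rfl : (3 : Eis) ∣ 3 * M).trans h.2.2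
  unfold IsPrim at *
  have : r.2 - 1 = (r.2 - v.2) + (v.2 - 1) := by ring
  rw [this]; exact dvd_add h1 hv

lemma mem_rowsOf_Del {M : Eis} {r : Eis × Eis} : r ∈ rowsOf (Del (3 * M)) ↔
    IsCoprime r.1 r.2 ∧ 3 * M ∣ r.1 ∧ 3 * M ∣ r.2 - 1 := by
  constructor
  · rintro ⟨g, hg, rfl⟩
    obtain ⟨h1, h2, h3, h4⟩ := mem_Del.mp hg
    exact ⟨(isRow_gam g).1, h3, h4⟩
  · rintro ⟨⟨p, q, hpq⟩, h1, h2⟩
    have h3 : (3 : Eis) ∣ 3 * M := Dvd.intro _ rfl
    -- `a = q + p c`, `b = - p + p d`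
    have e1 : q + p * r.1 - 1 = -(q * (r.2 - 1)) := by linear_combination hpq
    have e2 : -p + p * r.2 = p * (r.2 - 1) := by ring
    have ha : 3 * M ∣ q + p * r.1 - 1 := by
      rw [e1]; exact (h2.mul_left _).neg_right
    have hb : 3 * M ∣ -p + p * r.2 := by rw [e2]; exact h2.mul_left _
    refine ⟨mkGam (q + p * r.1) (-p + p * r.2) r.1 r.2 (by linear_combination hpq)
      (h3.trans ha) (h3.trans hb) (h3.trans h1) (h3.trans h2), ?_, rfl⟩
    rw [mem_Del]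
    exact ⟨ha, hb, h1, h2⟩

/-- right multiplication of a row by `σ`. -/
def Cpl.rm (σ : Cpl M) (r : Eis × Eis) : Eis × Eis :=
  (r.1 * σ.A + r.2 * σ.C, r.1 * σ.B + r.2 * σ.D)

lemma Cpl.rowv_rm (σ : Cpl M) (r : Eis × Eis) (X : Frm) :
    rowv (σ.rm r) X = rowv r (σ.app X) := by
  simp only [rowv, Cpl.rm, Cpl.app_def, map_add, map_mul, smul_add, add_smul, mul_smul]
  abel

/-- rows of `Γ(3M)` and the class of `(C, D)`. -/
def Cpl.rmE (σ : Cpl M) : rowsOf (Del (3 * M)) ≃ Cls M (σ.C, σ.D) where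
  toFun r := ⟨σ.rm r.1, by
    obtain ⟨⟨p, q, hpq⟩, h1, h2⟩ := mem_rowsOf_Del.mp r.2
    refine ⟨⟨p * σ.D - q * σ.B, q * σ.A - p * σ.C, ?_⟩, ?_, ?_⟩
    · simp only [Cpl.rm]
      linear_combination (p * r.1.1 + q * r.1.2) * σ.det + hpq
    · have : (σ.rm r.1).1 - (σ.C, σ.D).1 = r.1.1 * σ.A + (r.1.2 - 1) * σ.C := by
        simp only [Cpl.rm]; ring
      rw [this]; exact dvd_add (h1.mul_right _) (h2.mul_right _)
    · have : (σ.rm r.1).2 - (σ.C, σ.D).2 = r.1.1 * σ.B + (r.1.2 - 1) * σ.D := by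
        simp only [Cpl.rm]; ring
      rw [this]; exact dvd_add (h1.mul_right _) (h2.mul_right _)⟩
  invFun v := ⟨(v.1.1 * σ.D - v.1.2 * σ.C, v.1.2 * σ.A - v.1.1 * σ.B), by
    obtain ⟨⟨p, q, hpq⟩, h1, h2⟩ := v.2
    simp only at h1 h2
    rw [mem_rowsOf_Del]
    refine ⟨⟨p * σ.A + q * σ.B, p * σ.C + q * σ.D, ?_⟩, ?_, ?_⟩
    · simp only
      linear_combination (p * v.1.1 + q * v.1.2) * σ.det + hpq
    · have : v.1.1 * σ.D - v.1.2 * σ.C = (v.1.1 - σ.C) * σ.D - (v.1.2 - σ.D) * σ.C := by ring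
      simp only
      rw [this]; exact dvd_sub (h1.mul_right _) (h2.mul_right _)
    · have : v.1.2 * σ.A - v.1.1 * σ.B - 1 = (v.1.2 - σ.D) * σ.A - (v.1.1 - σ.C) * σ.B := by
        linear_combination σ.det
      simp only
      rw [this]; exact dvd_sub (h2.mul_right _) (h1.mul_right _)⟩
  left_inv r := by
    apply Subtype.ext
    simp only [Cpl.rm]
    ext1
    · simp only; linear_combination r.1.1 * σ.det
    · simp only; linear_combination r.1.2 * σ.det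
  right_inv v := by
    apply Subtype.ext
    simp only [Cpl.rm]
    ext1
    · simp only; linear_combination v.1.1 * σ.det
    · simp only; linear_combination v.1.2 * σ.det

lemma Cpl.app_conj (σ : Cpl M) (g : Del (3 * M)) (X : Frm) :
    σ.app (act g.1 X) = act (conjE (3 * M) σ.mat g).1 (σ.app X) := by
  have e : (conjE (3 * M) σ.mat g).1.1 * σ.mat = σ.mat * g.1.1 := by
    simp only [conjE, Equiv.coe_fn_mk]; group
  have e00 := congrArg (fun m => m 0 0) (congrArg Subtype.val e)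
  have e01 := congrArg (fun m => m 0 1) (congrArg Subtype.val e)
  have e10 := congrArg (fun m => m 1 0) (congrArg Subtype.val e)
  have e11 := congrArg (fun m => m 1 1) (congrArg Subtype.val e)
  simp only [Cpl.mat, Matrix.SpecialLinearGroup.coe_mul, Matrix.mul_apply, Fin.sum_univ_two,
    Matrix.of_apply, Matrix.cons_val_zero, Matrix.cons_val_one, Matrix.cons_val',
    Matrix.cons_val_fin_one] at e00 e01 e10 e11
  unfold Cpl.app
  unfold act
  rw [mact_mact, mact_mact]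
  simp only [← map_mul, ← map_add]
  congr 2
  all_goals first | exact e00.symm | exact e01.symm | exact e10.symm | exact e11.symm

end classes

end Crest.Agent.R017.Ker92
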