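import Crest.Agent.R017.Ker1_92

/-!
# Row 17, section A92: unfolding of one class of rows
-/

set_option autoImplicit false

noncomputable section

open MeasureTheory Complex
open scoped ENNReal

namespace Crest.Agent.R017.Ker92

open Crest.Agent.R012 Crest.Agent.R012.K695 Eis

section

variable {M : Eis}

lemma Cpl.det2_app (σ : Cpl M) (X : Frm) : det2 (σ.app X) = det2 X := by
  unfold Cpl.app
  rw [det2_mact, ← map_mul, ← map_mul, ← map_sub, σ.det, map_one, one_mul]

lemma Cpl.measurable_app (σ : Cpl M) : Measurable σ.app := measurable_mact _ _ _ _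

lemma Cpl.mp_app (σ : Cpl M) : MeasurePreserving σ.app (volume : Measure Frm) volume := by
  have hdet : toC σ.A * toC σ.D - toC σ.B * toC σ.C = 1 := by
    rw [← map_mul, ← map_mul, ← map_sub, σ.det, map_one]
  exact mp_mact (volume : Measure Vec) hdet

open Classical in
/-- Sum over `Γ(3M)` restricted to the slab of `σ X` = sum over the class of `(C, D)`. -/
theorem tsum_slab_cpl {T : Type*} [AddCommMonoid T] [TopologicalSpace T] (hM : M ≠ 0)
    (σ : Cpl M) {X : Frm} (hX : det2 X ≠ 0) (u : Eis × Eis → T) :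
    ∑' g : Del (3 * M), (if σ.app (act g.1 X) ∈ Slab M then u (rmul (σ.C, σ.D) g.1) else 0) =
      ∑' r : Cls M (σ.C, σ.D), u r.1 := by
  have h1 := tsum_slab (isLev_Del hM) (M := σ.app X) (by rwa [σ.det2_app])
    (fun r => u (σ.rm r))
  rw [← σ.rmE.tsum_eq (fun r : Cls M (σ.C, σ.D) => u r.1)]
  rw [← (conjE (3 * M) σ.mat).tsum_eq] at h1
  refine Eq.trans ?_ h1
  apply tsum_congr
  intro g
  rw [σ.app_conj g X]
  have e : σ.rm (row (conjE (3 * M) σ.mat g).1) = rmul (σ.C, σ.D) g.1 := by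
    have e : (conjE (3 * M) σ.mat g).1.1 * σ.mat = σ.mat * g.1.1 := by
      simp only [conjE, Equiv.coe_fn_mk]; group
    have e10 := congrArg (fun m => m 1 0) (congrArg Subtype.val e)
    have e11 := congrArg (fun m => m 1 1) (congrArg Subtype.val e)
    simp only [Cpl.mat, Matrix.SpecialLinearGroup.coe_mul, Matrix.mul_apply, Fin.sum_univ_two,
      Matrix.of_apply, Matrix.cons_val_zero, Matrix.cons_val_one, Matrix.cons_val',
      Matrix.cons_val_fin_one] at e10 e11
    exact Prod.ext e10 e11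
  rw [e]

open Classical in
lemma summable_slab_cpl {T : Type*} [AddCommMonoid T] [TopologicalSpace T] (hM : M ≠ 0)
    (σ : Cpl M) {X : Frm} (hX : det2 X ≠ 0) (u : Eis × Eis → T) :
    Summable (fun g : Del (3 * M) =>
      (if σ.app (act g.1 X) ∈ Slab M then u (rmul (σ.C, σ.D) g.1) else 0)) ↔
      Summable (fun r : Cls M (σ.C, σ.D) => u r.1) := by
  have h1 := summable_slab (isLev_Del hM) (M := σ.app X) (by rwa [σ.det2_app])
    (fun r => u (σ.rm r))
  rw [← σ.rmE.summable_iff (f := fun r : Cls M (σ.C, σ.D) => u r.1)]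
  rw [← (conjE (3 * M) σ.mat).summable_iff] at h1
  refine Iff.trans (Iff.of_eq ?_) h1
  congr 1
  funext g
  simp only [Function.comp_apply]
  rw [σ.app_conj g X]
  have e : σ.rm (row (conjE (3 * M) σ.mat g).1) = rmul (σ.C, σ.D) g.1 := by
    have e : (conjE (3 * M) σ.mat g).1.1 * σ.mat = σ.mat * g.1.1 := by
      simp only [conjE, Equiv.coe_fn_mk]; group
    have e10 := congrArg (fun m => m 1 0) (congrArg Subtype.val e)
    have e11 := congrArg (fun m => m 1 1) (congrArg Subtype.val e)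
    simp only [Cpl.mat, Matrix.SpecialLinearGroup.coe_mul, Matrix.mul_apply, Fin.sum_univ_two,
      Matrix.of_apply, Matrix.cons_val_zero, Matrix.cons_val_one, Matrix.cons_val',
      Matrix.cons_val_fin_one] at e10 e11
    exact Prod.ext e10 e11
  rw [e]

/-- the Eisenstein sum over one class of rows. -/
def EPc (M : Eis) (v : Eis × Eis) (F : Vec → ℂ) (X : Frm) : ℂ :=
  ∑' r : Cls M v, (starRingEnd ℂ) (sy r.1.1 r.1.2) * F (rowv r.1 X)

/-- the integrand of `J`. -/
def Jf (M : Eis) (f1 f2 : Frm → ℂ) (F : Vec → ℂ) (s : ℂ) (X : Frm) : ℂ :=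
  f1 (Z2 M 0 X) * f2 (Z2 M s X) * F X.2

/-- `J(s) = ∫_{Slab M} f1(M u, -η') f2(M u, -η' + s u) F(u)`. -/
def JJ (M : Eis) (f1 f2 : Frm → ℂ) (F : Vec → ℂ) (s : ℂ) : ℂ :=
  ∫ X in Slab M, Jf M f1 f2 F s X

lemma continuous_Y1 (M : Eis) : Continuous (Y1 M) := by unfold Y1; fun_prop
lemma continuous_Y2 (M : Eis) : Continuous (Y2 M) := by unfold Y2; fun_prop
lemma continuous_Z2 (M : Eis) (s : ℂ) : Continuous (Z2 M s) := by unfold Z2; fun_prop

open Classical in
/-- the function which is unfolded. -/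
def fU (M : Eis) (σ : Cpl M) (f1 f2 : Frm → ℂ) (F : Vec → ℂ) (X : Frm) : ℂ :=
  if σ.app X ∈ Slab M then
    f1 (Y1 M X) * f2 (Y2 M X) * ((starRingEnd ℂ) (sy σ.C σ.D) * F (rowv (σ.C, σ.D) X)) else 0

lemma measurable_fU (σ : Cpl M) {f1 f2 : Frm → ℂ} {F : Vec → ℂ} (hf1 : Measurable f1)
    (hf2 : Measurable f2) (hF : Measurable F) : Measurable (fU M σ f1 f2 F) := by
  unfold fU
  refine Measurable.ite (σ.measurable_app (measurableSet_Slab M)) ?_ measurable_const
  exact ((hf1.comp (continuous_Y1 M).measurable).mul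
    (hf2.comp (continuous_Y2 M).measurable)).mul
    ((hF.comp (measurable_rowv _)).const_mul _)

/-- the value on one frame: sum over `Γ(3M)`. -/
theorem tsum_fU (hM : M ≠ 0) (h3M : (3 : Eis) ∣ M) (σ : Cpl M) {f1 f2 : Frm → ℂ} (hf1 : Aut f1)
    (hf2 : Aut f2) (F : Vec → ℂ) {X : Frm} (hX : det2 X ≠ 0) :
    ∑' g : Del (3 * M), fU M σ f1 f2 F (act g.1 X) =
      f1 (Y1 M X) * f2 (Y2 M X) * EPc M (σ.C, σ.D) F X := by
  classical
  unfold EPc
  rw [← tsum_slab_cpl hM σ hX (fun r => (starRingEnd ℂ) (sy r.1 r.2) * F (rowv r X)),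
    ← tsum_mul_left]
  apply tsum_congr
  intro g
  unfold fU
  by_cases hs : σ.app (act g.1 X) ∈ Slab M
  · rw [if_pos hs, if_pos hs, Y1_act hM h3M hf1 g.2, Y2_act hM h3M hf2 g.2, rowv_act]
    rw [sy_rmulU (r := (σ.C, σ.D)) σ.copCD σ.hC σ.hD g.1, map_mul, ← kub_sq g.1]
    ring
  · rw [if_neg hs, if_neg hs, mul_zero]

/-- on the slab side. -/
lemma fU_eq (hM : M ≠ 0) (h3M : (3 : Eis) ∣ M) (σ : Cpl M) {s : Eis}
    (hs : 3 * M ∣ s * σ.C - σ.A) {f1 f2 : Frm → ℂ} (hf1 : Aut f1) (hf2 : Aut f2) (F : Vec → ℂ)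
    (X : Frm) : fU M σ f1 f2 F X = (Slab M).indicator (fun X' =>
      (starRingEnd ℂ) (sy M (σ.C * σ.D)) * Jf M f1 f2 F (toC s) X') (σ.app X) := by
  classical
  unfold fU
  by_cases h : σ.app X ∈ Slab M
  · rw [if_pos h, Set.indicator_of_mem h]
    have := kernel_phase hM h3M σ hs hf1 hf2 X
    unfold Jf
    rw [σ.app_snd]
    linear_combination F (rowv (σ.C, σ.D) X) * this
  · rw [if_neg h, Set.indicator_of_notMem h]

/-- **Unfolding of one class of rows.** -/
theorem unfold_class (hM : M ≠ 0) (h3M : (3 : Eis) ∣ M) (σ : Cpl M) {s : Eis}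
    (hs : 3 * M ∣ s * σ.C - σ.A) {f1 f2 : Frm → ℂ} (hf1 : Aut f1) (hf2 : Aut f2)
    (hm1 : Measurable f1) (hm2 : Measurable f2) {F : Vec → ℂ} (hF : Measurable F)
    (hint : IntegrableOn (Jf M f1 f2 F (toC s)) (Slab M)) :
    Integrable (fun X => f1 (Y1 M X) * f2 (Y2 M X) * EPc M (σ.C, σ.D) F X)
      (nu (Del (3 * M)) M) ∧
    ∫ X, f1 (Y1 M X) * f2 (Y2 M X) * EPc M (σ.C, σ.D) F X ∂(nu (Del (3 * M)) M) =
      (starRingEnd ℂ) (sy M (σ.C * σ.D)) * JJ M f1 f2 F (toC s) := by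
  have hmeas := measurable_fU σ hm1 hm2 hF
  have hJ : Integrable ((Slab M).indicator (fun X' =>
      (starRingEnd ℂ) (sy M (σ.C * σ.D)) * Jf M f1 f2 F (toC s) X')) := by
    rw [integrable_indicator_iff (measurableSet_Slab M)]
    exact hint.const_mul _
  have hfun : fU M σ f1 f2 F = fun X => (Slab M).indicator (fun X' =>
      (starRingEnd ℂ) (sy M (σ.C * σ.D)) * Jf M f1 f2 F (toC s) X') (σ.app X) := by
    funext X; exact fU_eq hM h3M σ hs hf1 hf2 F X
  have hi : Integrable (fU M σ f1 f2 F) := by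
    rw [hfun]
    exact (σ.mp_app.integrable_comp hJ.aestronglyMeasurable).mpr hJ
  have hmain := integral_nu_tsum (isLev_Del hM) hmeas hi
  have hae : (fun X => ∑' g : Del (3 * M), fU M σ f1 f2 F (act g.1 X)) =ᵐ[nu (Del (3 * M)) M]
      (fun X => f1 (Y1 M X) * f2 (Y2 M X) * EPc M (σ.C, σ.D) F X) := by
    have hac : nu (Del (3 * M)) M ≪ (volume : Measure Frm) :=
      withDensity_absolutelyContinuous _ _
    filter_upwards [hac.ae_le ae_det_ne] with X hX
    exact tsum_fU hM h3M σ hf1 hf2 F hX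
  refine ⟨hmain.1.congr hae, ?_⟩
  rw [← integral_congr_ae hae, hmain.2, hfun]
  have hg : Measurable (fun X' => (Slab M).indicator (fun X' =>
      (starRingEnd ℂ) (sy M (σ.C * σ.D)) * Jf M f1 f2 F (toC s) X') X') := by
    refine Measurable.indicator ?_ (measurableSet_Slab M)
    unfold Jf
    exact (((hm1.comp (continuous_Z2 M 0).measurable).mul
      (hm2.comp (continuous_Z2 M (toC s)).measurable)).mul
      (hF.comp measurable_snd)).const_mul _
  rw [← integral_map σ.measurable_app.aemeasurable (by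
    rw [σ.mp_app.map_eq]; exact hg.aestronglyMeasurable), σ.mp_app.map_eq,
    integral_indicator (measurableSet_Slab M), integral_const_mul]
  rfl

end

end Crest.Agent.R017.Ker92
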