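import Crest.Agent.R017.PoH16_347

/-!
# Row 17, E3 second form with principal frequencies: the sum over the kernels (helper72)

* `ksum_x` : `Σ_{κ ≤ lam} (lam / nm kv)^s nm(κ₂)^(2/3) ≤ C Z^ε lam`, `0 ≤ s ≤ 1`
-/

set_option autoImplicit false
set_option linter.unusedVariables false

noncomputable section

open scoped Classical

namespace Crest.Agent.R017.PoDx72

open Crest.Agent.R012 Crest.Agent.R012.Eis Crest.Agent.R012.MC
open Crest.Agent.R012.LS2 (S mem_S bl mem_bl)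
open Crest.Agent.R012.NonCube52 (Ker kv Good nm_kv)
open Crest.Agent.R017.E1551 (nmpos nm_ge_one)
open Crest.Agent.R017.PoH347
open Crest.Agent.R017.Mode405 (KS mem_KS)

/-- **the sum over the kernels** -/
theorem ksum_x {ε : ℝ} (hε : 0 < ε) : ∃ C : ℝ, 0 < C ∧ ∀ lam Z : ℝ, 1 ≤ lam → lam ≤ Z →
    ∀ s : ℝ, s ≤ 1 → ∑ κ ∈ KS lam, (lam / nm (kv κ)) ^ s * (nm κ.2.2 : ℝ) ^ (2 / 3 : ℝ) ≤
      C * Z ^ ε * lam := by
  obtain ⟨Ch, hCh, hharm⟩ := harm (ε := ε / 2) (by positivity)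
  refine ⟨9 * (Ch * Ch), by positivity, ?_⟩
  intro lam Z hlam hlamZ s hs
  have hlam0 : 0 ≤ lam := by linarith
  have hZ0 : 0 < Z := by linarith
  have hH := hharm lam Z hlam hlamZ
  have hH0 : 0 ≤ ∑ n ∈ S lam, (1 / (nm n : ℝ)) := Finset.sum_nonneg fun _ _ => by positivity
  -- the map to the three components
  have h1 : ∀ κ ∈ KS lam, (lam / nm (kv κ)) ^ s * (nm κ.2.2 : ℝ) ^ (2 / 3 : ℝ) ≤
      lam * ((1 / (nm κ.2.1 : ℝ)) * (1 / (nm κ.2.2 : ℝ))) := by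
    intro κ hκ
    obtain ⟨hg, hk⟩ := mem_KS.mp hκ
    have n1 := nm_ge_one hg.prim1.ne_zero
    have n2 := nm_ge_one hg.prim2.ne_zero
    have nk : (1 : ℝ) ≤ nm (kv κ) := NonCube52.one_le_nmkv hg
    have hge : (nm κ.2.1 : ℝ) * (nm κ.2.2 : ℝ) ^ 2 ≤ nm (kv κ) := NonCube52.nm_kv_ge κ
    have h2 : 1 ≤ lam / nm (kv κ) := (one_le_div (by linarith)).mpr hk
    have h3 : (lam / nm (kv κ)) ^ s ≤ lam / (nm κ.2.1 * (nm κ.2.2 : ℝ) ^ 2) := by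
      calc (lam / nm (kv κ)) ^ s ≤ (lam / nm (kv κ)) ^ (1 : ℝ) :=
            Real.rpow_le_rpow_of_exponent_le h2 hs
        _ = lam / nm (kv κ) := Real.rpow_one _
        _ ≤ _ := div_le_div_of_nonneg_left hlam0 (by positivity) hge
    have h4 : (nm κ.2.2 : ℝ) ^ (2 / 3 : ℝ) ≤ nm κ.2.2 := by
      calc (nm κ.2.2 : ℝ) ^ (2 / 3 : ℝ) ≤ (nm κ.2.2 : ℝ) ^ (1 : ℝ) :=
            Real.rpow_le_rpow_of_exponent_le n2 (by norm_num)
        _ = _ := Real.rpow_one _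
    calc (lam / nm (kv κ)) ^ s * (nm κ.2.2 : ℝ) ^ (2 / 3 : ℝ)
        ≤ lam / (nm κ.2.1 * (nm κ.2.2 : ℝ) ^ 2) * nm κ.2.2 := by gcongr
      _ = lam * ((1 / (nm κ.2.1 : ℝ)) * (1 / (nm κ.2.2 : ℝ))) := by
          field_simp
  refine (Finset.sum_le_sum h1).trans ?_
  rw [← Finset.mul_sum]
  set F : Ker → ℝ := fun κ => (1 / (nm κ.2.1 : ℝ)) * (1 / (nm κ.2.2 : ℝ)) with hF
  have hsub : KS lam ⊆ (Finset.range 3 ×ˢ Finset.range 3) ×ˢ (S lam ×ˢ S lam) := by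
    intro κ hκ
    obtain ⟨hg, hk⟩ := mem_KS.mp hκ
    have n1 := nm_ge_one hg.prim1.ne_zero
    have n2 := nm_ge_one hg.prim2.ne_zero
    have hge : (nm κ.2.1 : ℝ) * (nm κ.2.2 : ℝ) ^ 2 ≤ nm (kv κ) := NonCube52.nm_kv_ge κ
    have h5 : (1 : ℝ) ≤ (nm κ.2.2 : ℝ) ^ 2 := one_le_pow₀ n2
    have h6 : (nm κ.2.2 : ℝ) ≤ (nm κ.2.2 : ℝ) ^ 2 := le_self_pow₀ n2 (by norm_num)
    simp only [Finset.mem_product, Finset.mem_range]
    refine ⟨⟨hg.hi, hg.hj⟩, (mem_S hlam0).2 ⟨?_, hg.prim1, hg.sqf1⟩,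
      (mem_S hlam0).2 ⟨?_, hg.prim2, hg.sqf2⟩⟩
    · nlinarith
    · nlinarith
  have h2 : ∑ κ ∈ KS lam, F κ ≤ 9 * ((∑ n ∈ S lam, (1 / (nm n : ℝ))) *
      ∑ n ∈ S lam, (1 / (nm n : ℝ))) := by
    refine (Finset.sum_le_sum_of_subset_of_nonneg hsub fun κ _ _ => by
      rw [hF]; positivity).trans (le_of_eq ?_)
    rw [Finset.sum_product, hF]
    simp only [Finset.sum_const, Finset.card_product, Finset.card_range, nsmul_eq_mul]
    rw [Finset.sum_product, Finset.sum_mul_sum]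
    push_cast
    ring
  have h3 : (∑ n ∈ S lam, (1 / (nm n : ℝ))) * ∑ n ∈ S lam, (1 / (nm n : ℝ)) ≤
      (Ch * Z ^ (ε / 2)) * (Ch * Z ^ (ε / 2)) := mul_le_mul hH hH hH0 (by positivity)
  have h4 : Z ^ (ε / 2) * Z ^ (ε / 2) = Z ^ ε := by
    rw [← Real.rpow_add hZ0]
    congr 1
    ring
  calc lam * ∑ κ ∈ KS lam, F κ ≤ lam * (9 * ((Ch * Z ^ (ε / 2)) * (Ch * Z ^ (ε / 2)))) := by
        refine mul_le_mul_of_nonneg_left (h2.trans ?_) hlam0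
        exact mul_le_mul_of_nonneg_left h3 (by norm_num)
    _ = 9 * (Ch * Ch) * (Z ^ (ε / 2) * Z ^ (ε / 2)) * lam := by ring
    _ = _ := by rw [h4]

end Crest.Agent.R017.PoDx72
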