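import Crest.Agent.R017.Sx4_146
import Crest.Agent.R012.Kubota_695
import Crest.Agent.R012.CharInst_766

/-!
# Row 17: Kubota's row law, abstract version, and the sextic symbol

`RowAPI s q Xc Gd` : a list of facts on a symbol `s x y` (defined for "good" `y`), with modulus `q`
and a condition `Xc` on the first entry.  Then for `a d - b c = 1`, `q ∣ b`, `q ∣ d - 1`, `Gd y`,
`Xc x`, `IsCoprime x y`:

  `s (x a + y c) (x b + y d) = s x y * s c d`.

Instances: cubic symbol (`q = 9`, all rows; `q = 3`, rows `3 ∣ x`), quadratic symbol (`q = 8`, all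
rows; `q = 4`, rows `4 ∣ x`), sextic symbol (`q = 72`, all rows; `q = 12`, rows `12 ∣ x`).
-/

set_option autoImplicit false

noncomputable section

namespace Crest.Agent.R017.Kub664

open Crest.Agent.R012 Eis Crest.Agent.R017.Sx440 Crest.Agent.R017.Sx146

/-- The facts on a residue symbol used in the row law. -/
structure RowAPI (s : Eis → Eis → ℂ) (q : Eis) (Xc Gd : Eis → Prop) : Prop where
  q_ne : q ≠ 0
  gd_one : Gd 1
  gd_mul : ∀ x y : Eis, Gd x → Gd y → Gd (x * y)
  gd_congr : ∀ x y : Eis, Gd x → q ∣ x - y → Gd y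
  gd_coprime : ∀ x : Eis, Gd x → IsCoprime x q
  gd_ne : ∀ x : Eis, Gd x → x ≠ 0
  xc_congr : ∀ x y : Eis, Xc x → q ∣ x - y → Xc y
  xc_dvd : ∀ x : Eis, q ∣ x → Xc x
  unit_right : ∀ x u : Eis, IsUnit u → Gd u → s x u = 1
  mul_left : ∀ x y c : Eis, Gd c → s (x * y) c = s x c * s y c
  mul_right : ∀ x c d : Eis, Gd c → Gd d → s x (c * d) = s x c * s x d
  congr : ∀ x y c : Eis, Gd c → c ∣ x - y → s x c = s y c
  ne_zero : ∀ x c : Eis, Gd c → IsCoprime x c → s x c ≠ 0
  recip : ∀ d y : Eis, q ∣ d - 1 → Gd y → s d y = s y d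
  neg_one : ∀ d : Eis, q ∣ d - 1 → s (-1) d = 1
  period : ∀ x m n : Eis, x ≠ 0 → Xc x → Gd m → Gd n → q * x ∣ m - n → s x m = s x n

namespace RowAPI

variable {s : Eis → Eis → ℂ} {q : Eis} {Xc Gd : Eis → Prop}

open Classical in
/-- Existence of a shift making two elements coprime. -/
lemma exists_shift {d b Y : Eis} (hdb : IsCoprime d b) (hY0 : Y ≠ 0) (hYq : IsCoprime Y q) :
    ∃ t : Eis, q ∣ t ∧ IsCoprime (d - t * b) Y := by
  set r : Eis := ((UniqueFactorizationMonoid.factors Y).filter (fun p => ¬ p ∣ d)).prod with hr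
  refine ⟨q * r, Dvd.intro _ rfl, ?_⟩
  apply isCoprime_of_prime_dvd
  · rintro ⟨-, h⟩; exact hY0 h
  intro p hp h1 h2
  have hpq : ¬ p ∣ q := fun h3 => hp.not_isUnit (hYq.isUnit_of_dvd' h2 h3)
  by_cases hpd : p ∣ d
  · have h5 : p ∣ q * r * b := by
      have := dvd_sub hpd h1
      simpa using this
    rcases hp.dvd_or_dvd h5 with h6 | h6
    · rcases hp.dvd_or_dvd h6 with h7 | h7
      · exact hpq h7
      · rw [hr] at h7
        obtain ⟨p', hp', hpp⟩ := hp.exists_mem_multiset_dvd h7
        rw [Multiset.mem_filter] at hp'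
        have hqp : Prime p' := UniqueFactorizationMonoid.prime_of_factor p' hp'.1
        have h10 : Associated p p' := (hp.dvd_prime_iff_associated hqp).mp hpp
        exact hp'.2 (h10.symm.dvd.trans hpd)
    · exact hp.not_isUnit (hdb.isUnit_of_dvd' hpd h6)
  · obtain ⟨p', hp', hpp⟩ :=
      UniqueFactorizationMonoid.exists_mem_factors_of_dvd hY0 hp.irreducible h2
    have hqd : ¬ p' ∣ d := fun h => hpd (hpp.dvd.trans h)
    have h8 : p' ∣ r := Multiset.dvd_prod (Multiset.mem_filter.mpr ⟨hp', hqd⟩)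
    have h9 : p ∣ q * r * b := (hpp.dvd.trans h8).mul_left q |>.mul_right b
    exact hpd (by simpa using dvd_add h1 h9)

variable (H : RowAPI s q Xc Gd)
include H

lemma gd_of_one {d : Eis} (h : q ∣ d - 1) : Gd d :=
  H.gd_congr 1 d H.gd_one (by rw [← neg_sub, dvd_neg]; exact h)

lemma b_mul_c {a b c d : Eis} (hdet : a * d - b * c = 1) (hd : q ∣ d - 1) :
    s b d * s c d = 1 := by
  have hg := H.gd_of_one hd
  rw [← H.mul_left _ _ _ hg, H.congr (b * c) (-1) d hg ⟨a, by linear_combination -hdet⟩]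
  exact H.neg_one d hd

/-- The row law under a coprimality hypothesis. -/
lemma row_law_aux {a b c d x y : Eis} (hdet : a * d - b * c = 1) (hb : q ∣ b)
    (hd : q ∣ d - 1) (hx0 : x ≠ 0) (hx : Xc x) (hy : Gd y)
    (hcop : IsCoprime d (x * b + y * d)) :
    s (x * a + y * c) (x * b + y * d) = s x y * s c d := by
  have hgd := H.gd_of_one hd
  set Y := x * b + y * d with hY
  set X := x * a + y * c with hX
  have hYg : Gd Y := by
    refine H.gd_congr y Y hy ?_
    have : y - Y = -(b * x) - y * (d - 1) := by rw [hY]; ring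
    rw [this]
    exact dvd_sub ((hb.mul_right _).neg_right) (hd.mul_left _)
  have hcopxd : IsCoprime x d := by
    obtain ⟨r, t, hrs⟩ := hcop
    exact ⟨t * b, r + t * y, by rw [hY] at hrs; linear_combination hrs⟩
  have h1 : s X Y * s d Y = s x Y := by
    rw [← H.mul_left _ _ _ hYg]
    apply H.congr _ _ _ hYg
    refine ⟨c, ?_⟩
    rw [hX, hY]
    linear_combination x * hdet
  have h2 : s d Y = s x d * s b d := by
    rw [H.recip d Y hd hYg, ← H.mul_left _ _ _ hgd]
    apply H.congr _ _ _ hgd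
    exact ⟨y, by rw [hY]; ring⟩
  have h3 : s b d * s c d = 1 := H.b_mul_c hdet hd
  have h4 : s x Y = s x y * s x d := by
    rw [← H.mul_right x y d hy hgd]
    apply H.period x _ _ hx0 hx hYg (H.gd_mul _ _ hy hgd)
    obtain ⟨t, ht⟩ := hb
    exact ⟨t, by rw [hY, ht]; ring⟩
  have h5 : s x d ≠ 0 := H.ne_zero x d hgd hcopxd
  rw [h2, h4] at h1
  have h6 : s x d * (s X Y * (s b d * s c d)) = s x d * (s x y * s c d) := by
    linear_combination s c d * h1
  rw [h3, mul_one] at h6
  exact mul_left_cancel₀ h5 h6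

/-- The row law. -/
theorem row_law {a b c d x y : Eis} (hdet : a * d - b * c = 1) (hb : q ∣ b)
    (hd : q ∣ d - 1) (hx : Xc x) (hy : Gd y) (hxy : IsCoprime x y) :
    s (x * a + y * c) (x * b + y * d) = s x y * s c d := by
  have hgd := H.gd_of_one hd
  have unit_case : ∀ c' d' y' : Eis, q ∣ d' - 1 → Gd y' → IsUnit y' →
      s (y' * c') (y' * d') = s c' d' := by
    intro c' d' y' h1 h2 h3
    have h4 := H.gd_of_one h1
    rw [H.mul_right _ _ _ h2 h4, H.unit_right _ _ h3 h2, one_mul, H.mul_left _ _ _ h4,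
      ← H.recip d' y' h1 h2, H.unit_right _ _ h3 h2, one_mul]
  by_cases hx0 : x = 0
  · subst hx0
    have hyu : IsUnit y := isCoprime_zero_left.mp hxy
    rw [H.unit_right 0 y hyu hy]
    simp only [zero_mul, zero_add, one_mul]
    exact unit_case c d y hd hy hyu
  have hcopdb : IsCoprime d b := ⟨a, -c, by linear_combination hdet⟩
  have hYg : Gd (x * b + y * d) := by
    refine H.gd_congr y _ hy ?_
    have : y - (x * b + y * d) = -(b * x) - y * (d - 1) := by ring
    rw [this]
    exact dvd_sub ((hb.mul_right _).neg_right) (hd.mul_left _)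
  obtain ⟨t, htq, htc⟩ := exists_shift (q := q) hcopdb (H.gd_ne _ hYg) (H.gd_coprime _ hYg)
  have hdet' : a * (d - t * b) - b * (c - t * a) = 1 := by linear_combination hdet
  have hd' : q ∣ (d - t * b) - 1 := by
    have : d - t * b - 1 = (d - 1) - t * b := by ring
    rw [this]
    exact dvd_sub hd (htq.mul_right _)
  have hgd' := H.gd_of_one hd'
  have hcd : s (c - t * a) (d - t * b) = s c d := by
    by_cases hb0 : b = 0
    · subst hb0
      have hdu : IsUnit d := IsUnit.of_mul_eq_one a (by linear_combination hdet)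
      have e : d - t * 0 = d := by ring
      rw [e, H.unit_right _ _ hdu hgd, H.unit_right _ _ hdu hgd]
    · have e1 := H.b_mul_c hdet hd
      have e2 := H.b_mul_c hdet' hd'
      have e3 : s b (d - t * b) = s b d := by
        apply H.period b _ _ hb0 (H.xc_dvd b hb) hgd' hgd
        obtain ⟨r, hr⟩ := htq
        exact ⟨-r, by rw [hr]; ring⟩
      rw [e3] at e2
      have e4 : s b d ≠ 0 := left_ne_zero_of_mul_eq_one e1
      exact mul_left_cancel₀ e4 (e2.trans e1.symm)
  have hxy' : s (x + t * y) y = s x y := H.congr _ _ _ hy ⟨t, by ring⟩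
  have eX : x * a + y * c = (x + t * y) * a + y * (c - t * a) := by ring
  have eY : x * b + y * d = (x + t * y) * b + y * (d - t * b) := by ring
  have hxt : Xc (x + t * y) := by
    refine H.xc_congr x _ hx ?_
    have : x - (x + t * y) = -(t * y) := by ring
    rw [this]
    exact (htq.mul_right _).neg_right
  by_cases hx0' : x + t * y = 0
  · have hcop' : IsCoprime (x + t * y) y := by
      obtain ⟨r, u, hrs⟩ := hxy
      exact ⟨r, u - r * t, by linear_combination hrs⟩
    have hyu : IsUnit y := by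
      rw [hx0'] at hcop'
      exact isCoprime_zero_left.mp hcop'
    rw [eX, eY, ← hxy', ← hcd, hx0', H.unit_right 0 y hyu hy]
    simp only [zero_mul, zero_add, one_mul]
    exact unit_case _ _ y hd' hy hyu
  · rw [eX, eY, ← hxy', ← hcd]
    apply H.row_law_aux hdet' hb hd' hx0' hxt hy
    rw [← eY]; exact htc

end RowAPI

end Crest.Agent.R017.Kub664
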