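import Crest.Agent.R017.Kub6A_64
import Crest.Agent.R012.SymK_645

/-!
# Row 17: instances of the row law: cubic, quadratic and sextic symbols

* `api3`  : cubic symbol, `q = 9`, every row `(x, y)` with `y` prime to `3`;
* `api3'` : cubic symbol, `q = 3`, rows with `3 ∣ x`, `y` primary;
* `api2`  : quadratic symbol, `q = 8`, every row with `y` odd;
* `api2'` : quadratic symbol, `q = 4`, rows with `4 ∣ x`, `y` odd;
* `api6`  : sextic symbol, `q = 72`, every row with `y` prime to `6`;
* `api6'` : sextic symbol, `q = 12`, rows with `12 ∣ x`, `y` odd primary.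
-/

set_option autoImplicit false

noncomputable section

namespace Crest.Agent.R017.Kub664

open Crest.Agent.R012 Eis Crest.Agent.R017.Sx440 Crest.Agent.R017.Sx146

/-! ### closure operations -/

namespace RowAPI

variable {s s1 s2 : Eis → Eis → ℂ} {q q1 q2 : Eis} {Xc X1 X2 Gd G1 G2 : Eis → Prop}

/-- The complex conjugate symbol. -/
theorem conj (H : RowAPI s q Xc Gd) :
    RowAPI (fun x y => (starRingEnd ℂ) (s x y)) q Xc Gd where
  q_ne := H.q_ne
  gd_one := H.gd_one
  gd_mul := H.gd_mul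
  gd_congr := H.gd_congr
  gd_coprime := H.gd_coprime
  gd_ne := H.gd_ne
  xc_congr := H.xc_congr
  xc_dvd := H.xc_dvd
  unit_right x u hu hg := by simp [H.unit_right x u hu hg]
  mul_left x y c hc := by simp [H.mul_left x y c hc]
  mul_right x c d hc hd := by simp [H.mul_right x c d hc hd]
  congr x y c hc h := by simp [H.congr x y c hc h]
  ne_zero x c hc h := by simpa using H.ne_zero x c hc h
  recip d y hd hy := by simp [H.recip d y hd hy]
  neg_one d hd := by simp [H.neg_one d hd]
  period x m n hx hxc hm hn h := by simp [H.period x m n hx hxc hm hn h]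

/-- The product of two symbols. -/
theorem prod (H1 : RowAPI s1 q1 X1 G1) (H2 : RowAPI s2 q2 X2 G2) (hc : IsCoprime q1 q2) :
    RowAPI (fun x y => s1 x y * s2 x y) (q1 * q2) (fun x => X1 x ∧ X2 x)
      (fun x => G1 x ∧ G2 x) where
  q_ne := mul_ne_zero H1.q_ne H2.q_ne
  gd_one := ⟨H1.gd_one, H2.gd_one⟩
  gd_mul x y hx hy := ⟨H1.gd_mul x y hx.1 hy.1, H2.gd_mul x y hx.2 hy.2⟩
  gd_congr x y hx h := ⟨H1.gd_congr x y hx.1 ((Dvd.intro _ rfl).trans h),
    H2.gd_congr x y hx.2 ((Dvd.intro_left _ rfl).trans h)⟩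
  gd_coprime x hx := (H1.gd_coprime x hx.1).mul_right (H2.gd_coprime x hx.2)
  gd_ne x hx := H1.gd_ne x hx.1
  xc_congr x y hx h := ⟨H1.xc_congr x y hx.1 ((Dvd.intro _ rfl).trans h),
    H2.xc_congr x y hx.2 ((Dvd.intro_left _ rfl).trans h)⟩
  xc_dvd x h := ⟨H1.xc_dvd x ((Dvd.intro _ rfl).trans h),
    H2.xc_dvd x ((Dvd.intro_left _ rfl).trans h)⟩
  unit_right x u hu hg := by simp only [H1.unit_right x u hu hg.1, H2.unit_right x u hu hg.2, mul_one]
  mul_left x y c hc := by simp only [H1.mul_left x y c hc.1, H2.mul_left x y c hc.2]; ring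
  mul_right x c d hc hd := by
    simp only [H1.mul_right x c d hc.1 hd.1, H2.mul_right x c d hc.2 hd.2]; ring
  congr x y c hc h := by simp only [H1.congr x y c hc.1 h, H2.congr x y c hc.2 h]
  ne_zero x c hc h := mul_ne_zero (H1.ne_zero x c hc.1 h) (H2.ne_zero x c hc.2 h)
  recip d y hd hy := by
    simp only [H1.recip d y ((Dvd.intro _ rfl).trans hd) hy.1,
      H2.recip d y ((Dvd.intro_left _ rfl).trans hd) hy.2]
  neg_one d hd := by
    simp only [H1.neg_one d ((Dvd.intro _ rfl).trans hd),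
      H2.neg_one d ((Dvd.intro_left _ rfl).trans hd), mul_one]
  period x m n hx hxc hm hn h := by
    simp only [H1.period x m n hx hxc.1 hm.1 hn.1 (Dvd.dvd.trans ⟨q2, by ring⟩ h),
      H2.period x m n hx hxc.2 hm.2 hn.2 (Dvd.dvd.trans ⟨q1, by ring⟩ h)]

end RowAPI

/-! ### the cubic symbol -/

lemma nm_nine_ne : (9 : Eis) ≠ 0 := by
  have := nm_natCast 9
  intro h
  rw [show ((9 : ℕ) : Eis) = 9 by norm_num, h] at this
  simp at this

/-- `y` prime to `3`. -/
def G3 (y : Eis) : Prop := nm y % 3 = 1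

lemma g3_congr {x y : Eis} (hx : G3 x) (h : (3 : Eis) ∣ x - y) : G3 y := by
  unfold G3 at *
  obtain ⟨u, hu, hp⟩ := Sym645.exists_unit_prim hx
  have hp' : IsPrim (u * y) := by
    have : u * y - 1 = (u * x - 1) - u * (x - y) := by ring
    unfold IsPrim at *
    rw [this]
    exact dvd_sub hp (h.mul_left _)
  have := Sym645.prim_nm_mod hp'
  exact (Sym645.nm_mod_of_mul this).2

lemma g3_coprime {x : Eis} (hx : G3 x) : IsCoprime x 3 := by
  obtain ⟨u, hu, hp⟩ := Sym645.exists_unit_prim hx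
  obtain ⟨t, ht⟩ := hp
  exact ⟨u, -t, by linear_combination ht⟩

lemma g3_of_prim {x : Eis} (h : IsPrim x) : G3 x := Sym645.prim_nm_mod h

lemma g3_of_isUnit {u : Eis} (hu : IsUnit u) : G3 u := by
  obtain ⟨v, hv⟩ := hu.exists_right_inv
  have : nm (u * v) % 3 = 1 := by rw [hv]; simp
  exact (Sym645.nm_mod_of_mul this).1

/-- The cubic symbol on every row with second entry prime to `3`. -/
theorem api3 : RowAPI sy 9 (fun _ => True) G3 where
  q_ne := nm_nine_ne
  gd_one := by simp [G3]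
  gd_mul _ _ hx hy := Sym645.nm_mod_mul hx hy
  gd_congr x y hx h := g3_congr hx (Dvd.dvd.trans ⟨3, by norm_num⟩ h)
  gd_coprime x hx := by
    have : (9 : Eis) = 3 * 3 := by norm_num
    rw [this]
    exact (g3_coprime hx).mul_right (g3_coprime hx)
  gd_ne x hx := Sym645.ne_zero_of_nm_mod hx
  xc_congr _ _ _ _ := trivial
  xc_dvd _ _ := trivial
  unit_right x u hu _ := Sym645.sy_unit_right x hu
  mul_left x y c hc := Sym645.sy_mul_left hc x y
  mul_right x c d hc hd :=
    Sym645.sy_mul_right x (Sym645.ne_zero_of_nm_mod hc) (Sym645.ne_zero_of_nm_mod hd)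
  congr x y c hc h := Sym645.sy_congr hc h
  ne_zero x c hc h := fun h0 => (Sym645.sy_eq_zero_iff hc).1 h0 h
  recip d y hd hy := (Sym645.sy_reciprocity_nine hd hy).symm
  neg_one d hd := by
    have hp : IsPrim d := Dvd.dvd.trans ⟨3, by norm_num⟩ hd
    rw [Sym645.sy_neg (Sym645.prim_nm_mod hp), Sym645.sy_one_left (Sym645.prim_nm_mod hp)]
  period x m n hx _ hm hn h := by
    obtain ⟨u, hu, hp⟩ := Sym645.exists_unit_prim hm
    have h3 : (3 : Eis) ∣ m - n := Dvd.dvd.trans ⟨3 * x, by ring⟩ h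
    have hp' : IsPrim (u * n) := by
      have : u * n - 1 = (u * m - 1) - u * (m - n) := by ring
      unfold IsPrim at *
      rw [this]
      exact dvd_sub hp (h3.mul_left _)
    rw [← Sym645.sy_assoc_right x (associated_unit_mul_left m u hu),
      ← Sym645.sy_assoc_right x (associated_unit_mul_left n u hu)]
    apply Sym645.sy_periodic hx hp hp'
    have : u * m - u * n = u * (m - n) := by ring
    rw [this]
    exact h.mul_left _

/-- The cubic symbol on rows with `3 ∣ x`, `y` primary. -/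
theorem api3' : RowAPI sy 3 (fun x => (3 : Eis) ∣ x) IsPrim where
  q_ne := three_ne_zero'
  gd_one := Sym645.prim_one
  gd_mul _ _ hx hy := Sym645.prim_mul hx hy
  gd_congr x y hx h := by
    unfold IsPrim at *
    have : y - 1 = (x - 1) - (x - y) := by ring
    rw [this]
    exact dvd_sub hx h
  gd_coprime x hx := g3_coprime (g3_of_prim hx)
  gd_ne x hx := Sym645.prim_ne_zero hx
  xc_congr x y hx h := by
    have : y = x - (x - y) := by ring
    rw [this]
    exact dvd_sub hx h
  xc_dvd _ h := h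
  unit_right x u hu _ := Sym645.sy_unit_right x hu
  mul_left x y c hc := Sym645.sy_mul_left (Sym645.prim_nm_mod hc) x y
  mul_right x c d hc hd :=
    Sym645.sy_mul_right x (Sym645.prim_ne_zero hc) (Sym645.prim_ne_zero hd)
  congr x y c hc h := Sym645.sy_congr (Sym645.prim_nm_mod hc) h
  ne_zero x c hc h := fun h0 => (Sym645.sy_eq_zero_iff (Sym645.prim_nm_mod hc)).1 h0 h
  recip d y hd hy := Sym645.sy_reciprocity hd hy
  neg_one d hd := by
    rw [Sym645.sy_neg (Sym645.prim_nm_mod hd), Sym645.sy_one_left (Sym645.prim_nm_mod hd)]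
  period x m n hx hx3 hm hn h := K695.sy_period Sym645.syAPI hx hx3 hm hn h

/-! ### the quadratic symbol -/

lemma eight_ne : (8 : Eis) ≠ 0 := by
  have := nm_natCast 8
  intro h
  rw [show ((8 : ℕ) : Eis) = 8 by norm_num, h] at this
  simp at this

lemma four_ne : (4 : Eis) ≠ 0 := by
  have := nm_natCast 4
  intro h
  rw [show ((4 : ℕ) : Eis) = 4 by norm_num, h] at this
  simp at this

lemma od_congr {x y : Eis} (hx : Od x) (h : (2 : Eis) ∣ x - y) : Od y := by
  intro h2
  apply hx
  have : x = (x - y) + y := by ring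
  rw [this]
  exact dvd_add h h2

lemma sy2_recip_four' {d y : Eis} (hd : (4 : Eis) ∣ d - 1) (hy : Od y) : sy2 d y = sy2 y d := by
  have hy' := od_iff_nm.1 hy
  obtain ⟨i, hi⟩ := exists_unit_un hy'
  have hdo : nm d % 2 = 1 := by
    apply odd_of_congr (c := 1) (c' := d)
    · have : (1 : Eis) - d = -(d - 1) := by ring
      rw [this]
      exact (Dvd.dvd.trans ⟨2, by norm_num⟩ hd).neg_right
    · simp
  have h1 := q2_recip_four hd hi
  rw [q2_right_w_mul, q2_w_mul hdo] at h1
  rw [sy2_eq_q2, sy2_eq_q2, h1]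

lemma od_of_four {d : Eis} (h : (4 : Eis) ∣ d - 1) : Od d := by
  apply od_congr od_one
  have : (1 : Eis) - d = -(d - 1) := by ring
  rw [this]
  exact (Dvd.dvd.trans ⟨2, by norm_num⟩ h).neg_right

lemma sy2_neg_one_four {d : Eis} (h : (4 : Eis) ∣ d - 1) : sy2 (-1) d = 1 := by
  have h1 : nm (1 : Eis) % 2 = 1 := by simp
  have h2 : q2 (-1) 1 = q2 (-1) d := by
    apply q2_neg_one_congr h1
    have : (1 : Eis) - d = -(d - 1) := by ring
    rw [this]
    exact h.neg_right
  rw [sy2_eq_q2, ← h2]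
  simp

/-- The quadratic symbol on every row with odd second entry. -/
theorem api2 : RowAPI sy2 8 (fun _ => True) Od where
  q_ne := eight_ne
  gd_one := od_one
  gd_mul _ _ hx hy := hx.mul hy
  gd_congr x y hx h := od_congr hx (Dvd.dvd.trans ⟨4, by norm_num⟩ h)
  gd_coprime x hx := by
    have : (8 : Eis) = 2 ^ 3 := by norm_num
    rw [this]
    exact (hx.isCoprime.symm).pow_right
  gd_ne x hx := hx.ne_zero
  xc_congr _ _ _ _ := trivial
  xc_dvd _ _ := trivial
  unit_right x u hu _ := sy2_unit_right x hu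
  mul_left x y c hc := sy2_mul_left hc x y
  mul_right x c d hc hd := sy2_mul_right x hc.ne_zero hd.ne_zero
  congr x y c hc h := sy2_congr hc h
  ne_zero x c hc h := sy2_ne_zero hc h
  recip d y hd hy := sy2_recip_four' (Dvd.dvd.trans ⟨2, by norm_num⟩ hd) hy
  neg_one d hd := sy2_neg_one_four (Dvd.dvd.trans ⟨2, by norm_num⟩ hd)
  period x m n hx _ hm hn h := sy2_congr_right hx hm h

lemma sy2_period_four {x c c' : Eis} (hx : x ≠ 0) (hx4 : (4 : Eis) ∣ x) (hc : Od c)
    (h : 4 * x ∣ c - c') : sy2 x c = sy2 x c' := by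
  obtain ⟨x', rfl⟩ := hx4
  have hx' : x' ≠ 0 := right_ne_zero_of_mul hx
  have h8 : 8 * x' ∣ c - c' := Dvd.dvd.trans ⟨2, by ring⟩ h
  have h2 : (2 : Eis) ∣ c - c' := Dvd.dvd.trans ⟨4 * x', by ring⟩ h8
  have hc' := od_congr hc h2
  have e4 : (4 : Eis) = 2 ^ 2 := by norm_num
  have hc2 : IsCoprime 2 c := hc.isCoprime
  have hc2' : IsCoprime 2 c' := hc'.isCoprime
  rw [sy2_mul_left hc, sy2_mul_left hc', e4, sy2_sq_left hc hc2, sy2_sq_left hc' hc2',
    sy2_congr_right hx' hc h8]

/-- The quadratic symbol on rows with `4 ∣ x`, `y` odd. -/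
theorem api2' : RowAPI sy2 4 (fun x => (4 : Eis) ∣ x) Od where
  q_ne := four_ne
  gd_one := od_one
  gd_mul _ _ hx hy := hx.mul hy
  gd_congr x y hx h := od_congr hx (Dvd.dvd.trans ⟨2, by norm_num⟩ h)
  gd_coprime x hx := by
    have : (4 : Eis) = 2 ^ 2 := by norm_num
    rw [this]
    exact (hx.isCoprime.symm).pow_right
  gd_ne x hx := hx.ne_zero
  xc_congr x y hx h := by
    have : y = x - (x - y) := by ring
    rw [this]
    exact dvd_sub hx h
  xc_dvd _ h := h
  unit_right x u hu _ := sy2_unit_right x hu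
  mul_left x y c hc := sy2_mul_left hc x y
  mul_right x c d hc hd := sy2_mul_right x hc.ne_zero hd.ne_zero
  congr x y c hc h := sy2_congr hc h
  ne_zero x c hc h := sy2_ne_zero hc h
  recip d y hd hy := sy2_recip_four' hd hy
  neg_one d hd := sy2_neg_one_four hd
  period x m n hx hx4 hm hn h := sy2_period_four hx hx4 hm h

/-! ### the sextic symbol -/

lemma cop_eight_nine : IsCoprime (8 : Eis) 9 := ⟨-1, 1, by norm_num⟩
lemma cop_four_three : IsCoprime (4 : Eis) 3 := ⟨1, -1, by norm_num⟩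

/-- `y` prime to `6`. -/
def G6' (y : Eis) : Prop := Od y ∧ G3 y

/-- The sextic symbol on every row with second entry prime to `6`. -/
theorem api6 : RowAPI sy6 72 (fun _ => True) G6' := by
  have h := api2.prod api3.conj cop_eight_nine
  have e : (8 : Eis) * 9 = 72 := by norm_num
  have e2 : (fun x : Eis => True ∧ True) = fun _ => True := by simp
  rw [e] at h
  simp only [and_self] at h
  exact h

/-- The sextic symbol on rows with `12 ∣ x`, `y` odd and primary. -/
theorem api6' : RowAPI sy6 12 (fun x => (12 : Eis) ∣ x) (fun y => Od y ∧ IsPrim y) := by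
  have h := api2'.prod api3'.conj cop_four_three
  have e : (4 : Eis) * 3 = 12 := by norm_num
  rw [e] at h
  have e2 : (fun x : Eis => (4 : Eis) ∣ x ∧ (3 : Eis) ∣ x) = fun x => (12 : Eis) ∣ x := by
    funext x
    apply propext
    constructor
    · rintro ⟨h1, h2⟩
      rw [← e]
      exact cop_four_three.mul_dvd h1 h2
    · intro h1
      exact ⟨Dvd.dvd.trans ⟨3, by norm_num⟩ h1, Dvd.dvd.trans ⟨4, by norm_num⟩ h1⟩
  rw [e2] at h
  exact h

/-- Kubota's row law for the sextic symbol, level `72`, every row with `y` prime to `6`. -/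
theorem sy6_row_law {a b c d x y : Eis} (hdet : a * d - b * c = 1) (hb : (72 : Eis) ∣ b)
    (hd : (72 : Eis) ∣ d - 1) (hy : Od y) (hy3 : G3 y) (hxy : IsCoprime x y) :
    sy6 (x * a + y * c) (x * b + y * d) = sy6 x y * sy6 c d :=
  api6.row_law hdet hb hd trivial ⟨hy, hy3⟩ hxy

/-- Kubota's row law for the sextic symbol, level `12`, rows `12 ∣ x`, `y` odd primary. -/
theorem sy6_row_law' {a b c d x y : Eis} (hdet : a * d - b * c = 1) (hb : (12 : Eis) ∣ b)
    (hd : (12 : Eis) ∣ d - 1) (hx : (12 : Eis) ∣ x) (hy : Od y) (hy3 : IsPrim y)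
    (hxy : IsCoprime x y) :
    sy6 (x * a + y * c) (x * b + y * d) = sy6 x y * sy6 c d :=
  api6'.row_law hdet hb hd hx ⟨hy, hy3⟩ hxy

/-- Kubota's row law for the quadratic symbol, level `8`, every row with `y` odd. -/
theorem sy2_row_law {a b c d x y : Eis} (hdet : a * d - b * c = 1) (hb : (8 : Eis) ∣ b)
    (hd : (8 : Eis) ∣ d - 1) (hy : Od y) (hxy : IsCoprime x y) :
    sy2 (x * a + y * c) (x * b + y * d) = sy2 x y * sy2 c d :=
  api2.row_law hdet hb hd trivial hy hxy

/-- Kubota's row law for the quadratic symbol, level `4`, rows `4 ∣ x`, `y` odd. -/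
theorem sy2_row_law' {a b c d x y : Eis} (hdet : a * d - b * c = 1) (hb : (4 : Eis) ∣ b)
    (hd : (4 : Eis) ∣ d - 1) (hx : (4 : Eis) ∣ x) (hy : Od y) (hxy : IsCoprime x y) :
    sy2 (x * a + y * c) (x * b + y * d) = sy2 x y * sy2 c d :=
  api2'.row_law hdet hb hd hx hy hxy

/-- Kubota's row law for the cubic symbol, level `9`, every row with `y` prime to `3`. -/
theorem sy_row_law {a b c d x y : Eis} (hdet : a * d - b * c = 1) (hb : (9 : Eis) ∣ b)
    (hd : (9 : Eis) ∣ d - 1) (hy : G3 y) (hxy : IsCoprime x y) :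
    sy (x * a + y * c) (x * b + y * d) = sy x y * sy c d :=
  api3.row_law hdet hb hd trivial hy hxy

end Crest.Agent.R017.Kub664
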