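import Crest.Agent.R017.L6c_106

/-!
# Row 17, section B, leaf L6 (4): the identity for an arbitrary finite family of squarefree `c`
-/

set_option autoImplicit false

noncomputable section

open MeasureTheory Complex Set
open scoped ComplexConjugate ContDiff SchwartzMap

namespace Crest.Agent.R017.L6106

open Crest.Agent.R012 Crest.Agent.R012.Eis Crest.Agent.R012.Mob705 Crest.Agent.R012.Gauss880
open Crest.Agent.R012.Po581
open Crest.Agent.R017.End699 Crest.Agent.R017.Sx440 Crest.Agent.R017.Sx545 Crest.Agent.R017.B770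

variable {M m₀ : Eis}

open Classical in
/-- **L6 for an arbitrary finite family** `(A i, c i)`, `c i ∈ Sm M` squarefree whenever
`A i ≠ 0`. -/
theorem fam {ι : Type*} (h36 : (36 : Eis) ∣ M) (hR : Rad0 M m₀) (ξ f : Eis → ℂ)
    {V om : ℝ → ℂ} (hV : SW V) (hom : SW om) {K Q : ℝ} (hK : 0 < K) (hQ : 0 < Q)
    (s : Finset ι) (A : ι → ℂ) (c : ι → Eis)
    (hc : ∀ i ∈ s, A i ≠ 0 → Sm M (c i) ∧ Squarefree (c i)) :
    ∑ i ∈ s, A i * (sy m₀ (c i) * ((Real.sqrt (nm (c i)))⁻¹ : ℝ) * conj (G (c i))) *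
      ∑' a : Eis, ext (fun a => sy a m₀) a * sy a (c i) *
        Psi M ξ f a (W0 V om (K / (27 * nm m₀ * Q)) a (c i)) Q =
    ((2 * Real.sqrt 3 * (Real.sqrt Q / K) : ℝ) : ℂ) *
      ∑' e : Eis, if Sm M e then ξ e * (nm e : ℂ) ^ 5 *
        ∑' k : Eis, FE47.DM (3 * m₀) (fun a => sy a m₀) k * Ur om (nm k * (nm e : ℝ) ^ 6 / K) *
          ∑ i ∈ s, A i * ∑' b : Eis, (if Sm M b then
            f b * tk k b (c i) * V (nm b / (Q / (nm e : ℝ) ^ 6)) else 0) else 0 := by
  obtain ⟨B, R, hB0, hR1, hB, hRV⟩ := NatZ571.SW.bounds hV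
  set N := ⌊R * Q⌋₊ with hN
  set Cst : ℂ := ((2 * Real.sqrt 3 * (Real.sqrt Q / K) : ℝ) : ℂ) with hCst
  -- the left side
  have hL : ∑ i ∈ s, A i * (sy m₀ (c i) * ((Real.sqrt (nm (c i)))⁻¹ : ℝ) * conj (G (c i))) *
      ∑' a : Eis, ext (fun a => sy a m₀) a * sy a (c i) *
        Psi M ξ f a (W0 V om (K / (27 * nm m₀ * Q)) a (c i)) Q =
      ∑ i ∈ s, ∑ e ∈ SF M N, ∑ b ∈ SF M N,
        Cst * (A i * (ξ e * (nm e : ℂ) ^ 5 * (f b * V (nm b * (nm e : ℝ) ^ 6 / Q)) *
          KS m₀ om K e b (c i))) := by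
    refine Finset.sum_congr rfl fun i hi => ?_
    by_cases hne : A i = 0
    · rw [hne, zero_mul, zero_mul]
      symm
      refine Finset.sum_eq_zero fun e _ => Finset.sum_eq_zero fun b _ => ?_
      rw [zero_mul, mul_zero]
    · obtain ⟨hcS, hcsq⟩ := hc i hi hne
      generalize c i = c at hcS hcsq ⊢
      have h1 : ∑' a : Eis, ext (fun a => sy a m₀) a * sy a c *
          Psi M ξ f a (W0 V om (K / (27 * nm m₀ * Q)) a c) Q =
          ∑ e ∈ SF M N, ∑ b ∈ SF M N, (ξ e * (f b * V (nm b * (nm e : ℝ) ^ 6 / Q))) *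
            ∑' a : Eis, AT m₀ om K Q e b c a := by
        have h2 : ∀ a : Eis, ext (fun a => sy a m₀) a * sy a c *
            Psi M ξ f a (W0 V om (K / (27 * nm m₀ * Q)) a c) Q =
            ∑ e ∈ SF M N, ∑ b ∈ SF M N, (ξ e * (f b * V (nm b * (nm e : ℝ) ^ 6 / Q))) *
              AT m₀ om K Q e b c a := by
          intro a
          rw [Psi_eq hRV hQ, Finset.mul_sum]
          refine Finset.sum_congr rfl fun e _ => ?_
          rw [Finset.mul_sum]
          refine Finset.sum_congr rfl fun b _ => ?_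
          unfold AT
          ring
        have hsum : ∀ e ∈ SF M N, ∀ b ∈ SF M N, Summable (fun a =>
            (ξ e * (f b * V (nm b * (nm e : ℝ) ^ 6 / Q))) * AT m₀ om K Q e b c a) := by
          intro e he b hb
          exact (AT_summable hom hR.prim (mem_SF.mp he).2.ne_zero (mem_SF.mp hb).2.ne_zero
            hcS.prim hK hQ).mul_left _
        rw [tsum_congr h2, Summable.tsum_finsetSum (fun e he => summable_sum (hsum e he))]
        refine Finset.sum_congr rfl fun e he => ?_
        rw [Summable.tsum_finsetSum (hsum e he)]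
        refine Finset.sum_congr rfl fun b hb => ?_
        rw [tsum_mul_left]
      rw [h1, mul_assoc, Finset.mul_sum, Finset.mul_sum]
      refine Finset.sum_congr rfl fun e he => ?_
      rw [Finset.mul_sum, Finset.mul_sum]
      refine Finset.sum_congr rfl fun b hb => ?_
      have hT := term_eq hR h36 hom (mem_SF.mp he).2.ne_zero (mem_SF.mp hb).2 hcS hcsq hK hQ
      have hT' : sy m₀ c * (((Real.sqrt (nm c))⁻¹ : ℝ) : ℂ) * conj (G c) *
        ∑' a : Eis, AT m₀ om K Q e b c a = Cst * ((nm e : ℂ) ^ 5 * KS m₀ om K e b c) := hT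
      calc A i * (sy m₀ c * (((Real.sqrt (nm c))⁻¹ : ℝ) : ℂ) * conj (G c) *
            (ξ e * (f b * V (nm b * (nm e : ℝ) ^ 6 / Q)) * ∑' a : Eis, AT m₀ om K Q e b c a))
          = A i * (ξ e * (f b * V (nm b * (nm e : ℝ) ^ 6 / Q))) *
            (sy m₀ c * (((Real.sqrt (nm c))⁻¹ : ℝ) : ℂ) * conj (G c) *
              ∑' a : Eis, AT m₀ om K Q e b c a) := by ring
        _ = _ := by rw [hT']; ring
  -- the right side
  have hNS : ∀ e : Eis, Sm M e → ∀ k : Eis,
      ∑ i ∈ s, A i * ∑' b : Eis, (if Sm M b then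
            f b * tk k b (c i) * V (nm b / (Q / (nm e : ℝ) ^ 6)) else 0) =
      ∑ i ∈ s, ∑ b ∈ SF M N,
        A i * (f b * V (nm b * (nm e : ℝ) ^ 6 / Q) * tk k b (c i)) := by
    intro e he k
    refine Finset.sum_congr rfl fun i _ => ?_
    rw [inner_eq hRV hQ f he, Finset.mul_sum]
  have hRs : (∑' e : Eis, if Sm M e then ξ e * (nm e : ℂ) ^ 5 *
        ∑' k : Eis, FE47.DM (3 * m₀) (fun a => sy a m₀) k * Ur om (nm k * (nm e : ℝ) ^ 6 / K) *
          ∑ i ∈ s, A i * ∑' b : Eis, (if Sm M b then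
            f b * tk k b (c i) * V (nm b / (Q / (nm e : ℝ) ^ 6)) else 0) else 0) =
      ∑ e ∈ SF M N, ∑ i ∈ s, ∑ b ∈ SF M N,
        A i * (ξ e * (nm e : ℂ) ^ 5 * (f b * V (nm b * (nm e : ℝ) ^ 6 / Q)) *
          KS m₀ om K e b (c i)) := by
    rw [tsum_eq_sum (s := SF M N)]
    · refine Finset.sum_congr rfl fun e he => ?_
      rw [mem_SF] at he
      rw [if_pos he.2]
      have h2 : ∀ k : Eis, FE47.DM (3 * m₀) (fun a => sy a m₀) k *
          Ur om (nm k * (nm e : ℝ) ^ 6 / K) *
          (∑ i ∈ s, A i * ∑' b : Eis, (if Sm M b then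
            f b * tk k b (c i) * V (nm b / (Q / (nm e : ℝ) ^ 6)) else 0)) =
          ∑ i ∈ s, ∑ b ∈ SF M N,
            (A i * (f b * V (nm b * (nm e : ℝ) ^ 6 / Q))) *
            (FE47.DM (3 * m₀) (fun a => sy a m₀) k * Ur om (nm k * (nm e : ℝ) ^ 6 / K) *
              tk k b (c i)) := by
        intro k
        rw [hNS e he.2 k, Finset.mul_sum]
        refine Finset.sum_congr rfl fun i _ => ?_
        rw [Finset.mul_sum]
        refine Finset.sum_congr rfl fun b _ => ?_
        ring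
      have hsum : ∀ i ∈ s, ∀ b ∈ SF M N, Summable (fun k : Eis =>
          (A i * (f b * V (nm b * (nm e : ℝ) ^ 6 / Q))) *
            (FE47.DM (3 * m₀) (fun a => sy a m₀) k * Ur om (nm k * (nm e : ℝ) ^ 6 / K) *
              tk k b (c i))) := by
        intro i hi b hb
        by_cases hne : A i = 0
        · simp only [hne, zero_mul]
          exact summable_zero
        · exact (KS_summable hom hR.prim he.2.ne_zero (mem_SF.mp hb).2.ne_zero
            (hc i hi hne).1.prim hK).mul_left _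
      rw [tsum_congr h2, Summable.tsum_finsetSum (fun i hi => summable_sum (hsum i hi)),
        Finset.mul_sum]
      refine Finset.sum_congr rfl fun i hi => ?_
      rw [Summable.tsum_finsetSum (hsum i hi), Finset.mul_sum]
      refine Finset.sum_congr rfl fun b hb => ?_
      rw [tsum_mul_left]
      unfold KS
      ring
    · intro e he
      split_ifs with hes
      · have h0 : ∀ k : Eis, (∑ i ∈ s, A i * ∑' b : Eis, (if Sm M b then
            f b * tk k b (c i) * V (nm b / (Q / (nm e : ℝ) ^ 6)) else 0)) = 0 := by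
          intro k
          rw [hNS e hes k]
          refine Finset.sum_eq_zero fun i _ => Finset.sum_eq_zero fun b hb => ?_
          rw [V_zero_e hRV hQ hes.ne_zero (mem_SF.mp hb).2.ne_zero (by
            by_contra hle
            exact he (mem_SF.mpr ⟨not_lt.mp hle, hes⟩))]
          ring
        simp only [h0, mul_zero, tsum_zero]
      · rfl
  rw [hL, hRs, Finset.sum_comm, Finset.mul_sum]
  refine Finset.sum_congr rfl fun e _ => ?_
  rw [Finset.mul_sum]
  refine Finset.sum_congr rfl fun i _ => ?_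
  rw [Finset.mul_sum]

end Crest.Agent.R017.L6106
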