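import Crest.Agent.R017.PoissonTk_858
import Crest.Agent.R017.LSd_848

/-!
# Row 17, section B, leaf L1 (part): `tk` at squarefree moduli, twisted homogeneity

* `hN_squarefree` : `hN a b = μ(b) G(b) conj (a/b)_3` for `b` squarefree
* `tk_b1` : `tk k b 1 = μ(b) (k/b)_3`, `b` squarefree
* `tk_pp` : `tk k p p = 1_{p∣k} - q 1_{p²∣k}`
* `tk_mul_left` : `tk (u k) b c = (u/b)_3 conj (u/c)_3 tk k b c` for `(u, b c) = 1`
-/

set_option autoImplicit false

noncomputable section

open Complex
open scoped ComplexConjugate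

namespace Crest.Agent.R017.Tk545

open Crest.Agent.R012 Crest.Agent.R012.Eis Crest.Agent.R012.Mob705 Crest.Agent.R012.Gauss880
open Crest.Agent.R017.FE47 Crest.Agent.R017.Sx440 Crest.Agent.R017.Sx545 Crest.Agent.R017.B770
open Crest.Agent.R017.PT858 Crest.Agent.R017.LS848

variable {b c : Eis}

lemma norm_ang {z : Eis} (l : ℤ) (hz : z ≠ 0) : ‖ang l z‖ = 1 := by
  unfold ang
  have h0 : ‖toC z‖ ≠ 0 := norm_ne_zero_iff.mpr (Po581.toC_ne_zero hz)
  rw [norm_zpow, norm_div, Complex.norm_real, norm_norm, div_self h0, one_zpow]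

lemma norm_sy_two {b : Eis} (hb : IsPrim b) (h2 : Od b) : ‖sy 2 b‖ = 1 :=
  norm_sy syG hb (od_iff.mp h2)

lemma conj_mul_self_of_norm {z : ℂ} (h : ‖z‖ = 1) : conj z * z = 1 := by
  rw [Complex.conj_mul', h]; norm_num

lemma mul_conj_self_of_norm {z : ℂ} (h : ‖z‖ = 1) : z * conj z = 1 := by
  rw [mul_comm]; exact conj_mul_self_of_norm h

/-- `hN 1 b = μ(b) G(b)` for `b` squarefree. -/
lemma hN_one (hb : IsPrim b) (h2 : Od b) (hsf : Squarefree b) :
    hN 1 b = (muE b : ℂ) * G b := by
  have hb0 := hb.ne_zero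
  have hs := sqrt_nm_ne hb0
  unfold hN
  rw [one_pow, gs6_one_eq hb0, G6_eq_muG hb h2]
  have h3 : ¬ lam ∣ b := hb.not_lam_dvd
  have hG2 := G2_eq_eps2 h2 h3 hsf
  have n1 : ‖ang 1 b‖ = 1 := norm_ang 1 hb0
  have n2 := norm_sy_two hb h2
  have n3 := norm_eps2 hb h2
  have e1 := mul_conj_self_of_norm n1
  have e2 := conj_mul_self_of_norm n2
  have e3 := mul_conj_self_of_norm n3
  rw [hG2]
  simp only [map_mul, Complex.conj_conj, Complex.conj_ofReal, map_intCast]
  field_simp
  linear_combination ((muE b : ℂ) * G b * (conj (sy 2 b) * sy 2 b) * (eps2 b * conj (eps2 b))) * e1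
    + ((muE b : ℂ) * G b * (eps2 b * conj (eps2 b))) * e2 + ((muE b : ℂ) * G b) * e3

/-- `hN a b = μ(b) G(b) conj (a/b)_3` for `b` squarefree. -/
theorem hN_squarefree (hb : IsPrim b) (h2 : Od b) (hsf : Squarefree b) (a : Eis) :
    hN a b = (muE b : ℂ) * G b * conj (sy a b) := by
  rw [← hN_one hb h2 hsf]
  unfold hN
  rw [gs6_squarefree hb h2 hsf, sy6_pow_four_left hb h2, one_pow, Complex.conj_conj, map_mul]
  ring

/-- **(b1)**. -/
theorem tk_b1 (k : Eis) (hb : Sm 2 b) (hsf : Squarefree b) :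
    tk k b 1 = (muE b : ℂ) * sy k b := by
  have hbp := hb.prim
  have h2 : Od b := hb.od dvd_rfl
  have hb0 := hb.ne_zero
  have hs := sqrt_nm_ne hb0
  unfold tk
  have e1 : ∀ a : Eis, hN a b * sy a 1 * eC (-(toC a * toC k / (toC b * toC 1))) =
      ((muE b : ℂ) * G b) * conj (sy a b * eC (toC k * toC a / toC b)) := by
    intro a
    rw [hN_squarefree hbp h2 hsf, map_one, mul_one, map_mul, star_eC]
    have e2 : sy a 1 = 1 := res_sy.one_right a
    rw [e2, mul_comm (toC a) (toC k)]
    ring
  rw [mul_one, sumMod_congr e1, sumMod_mul_left hb0, ← sumMod_star hb0]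
  have e3 : sumMod b (fun a => sy a b * eC (toC k * toC a / toC b)) = gs k b := rfl
  rw [e3, gs_squarefree syG hbp hsf, gs_one_eq hbp]
  have hG := G_mul_conj syG hbp hsf
  rw [G_one, nm_one']
  simp only [map_mul, Complex.conj_conj, Complex.conj_ofReal, map_one, Nat.cast_one, mul_one]
  field_simp
  linear_combination ((muE b : ℂ) * sy k b) * hG

lemma sumMod_single {c : Eis} (hc : c ≠ 0) {f : Eis → ℂ} (hf : PMod c f) (a : Eis)
    (h : ∀ x, ¬ c ∣ x - a → f x = 0) : sumMod c f = f a := by
  rw [sumMod_eq_sum (isCRS_crs hc) hf]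
  obtain ⟨s, ⟨hs, hd⟩, huniq⟩ := isCRS_crs hc a
  rw [Finset.sum_eq_single s]
  · exact (hf.congr hd).symm
  · intro t ht hts
    apply h
    intro hdt
    apply hts
    apply huniq
    refine ⟨ht, ?_⟩
    rw [← neg_sub]
    exact (dvd_neg).mpr hdt
  · intro h'
    exact absurd hs h'

open Classical in
/-- summing over the multiples of `m`. -/
lemma sumMod_multiples {m d : Eis} (hm : m ≠ 0) (hd : d ≠ 0) {F : Eis → ℂ}
    (hF : PMod (m * d) F) :
    sumMod (m * d) (fun a => if m ∣ a then F a else 0) = sumMod d (fun u => F (m * u)) := by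
  have hiff : ∀ x t : Eis, m ∣ x + m * t ↔ m ∣ x := fun x t =>
    dvd_add_left (dvd_mul_right m t)
  have hper : PMod (m * d) (fun a => if m ∣ a then F a else 0) := by
    intro x t
    simp only
    have h5 : m ∣ x + m * d * t ↔ m ∣ x := by rw [mul_assoc]; exact hiff x (d * t)
    rw [hF x t]
    simp only [h5]
  rw [sumMod_tower hm hd hper]
  have h1 : ∀ x : Eis, sumMod d (fun y => if m ∣ x + m * y then F (x + m * y) else 0) =
      if m ∣ x then sumMod d (fun y => F (x + m * y)) else 0 := by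
    intro x
    split_ifs with h
    · exact sumMod_congr fun y => by rw [if_pos ((hiff x y).mpr h)]
    · have h2 : ∀ y : Eis, (if m ∣ x + m * y then F (x + m * y) else 0) = 0 * (1 : ℂ) := fun y => by
        rw [if_neg (fun h' => h ((hiff x y).mp h')), zero_mul]
      rw [sumMod_congr h2, sumMod_mul_left hd, zero_mul]
  rw [sumMod_congr h1]
  have hPx : ∀ x : Eis, PMod d (fun y => F (x + m * y)) := fun x y t => by
    have e : x + m * (y + d * t) = (x + m * y) + m * d * t := by ring
    simp only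
    rw [e, hF]
  have hP2 : PMod m (fun x => if m ∣ x then sumMod d (fun y => F (x + m * y)) else 0) := by
    intro x t
    simp only [hiff x t]
    split_ifs with h
    · have := sumMod_shift hd (hPx x) t
      rw [← this]
      refine sumMod_congr fun y => ?_
      congr 1; ring
    · rfl
  rw [sumMod_single hm hP2 0 (fun x hx => by
    rw [sub_zero] at hx; rw [if_neg hx]), if_pos (dvd_zero m)]
  simp only [zero_add]

/-- twisted homogeneity in `k`. -/
theorem tk_mul_left (hb : Sm 2 b) (hc : IsPrim c) {u : Eis} (hu : IsCoprime u (b * c)) (k : Eis) :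
    tk (u * k) b c = sy u b * conj (sy u c) * tk k b c := by
  have hbp := hb.prim
  have h2 : Od b := hb.od dvd_rfl
  have hub : IsCoprime u b := hu.of_mul_right_left
  have huc : IsCoprime u c := hu.of_mul_right_right
  have hq : b * c ≠ 0 := mul_ne_zero hbp.ne_zero hc.ne_zero
  have hb' := Po581.toC_ne_zero hbp.ne_zero
  have hc' := Po581.toC_ne_zero hc.ne_zero
  have h1 : sy u b * conj (sy u b) = 1 := mul_conj_self_of_norm (norm_sy syG hbp hub)
  have h3 : sy u c * conj (sy u c) = 1 := mul_conj_self_of_norm (norm_sy syG hc huc)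
  have hP : PMod (b * c) (fun a => FF b c a * eC (-(toC k * toC a / toC (b * c)))) := by
    refine (pmod_FF hc).mul ?_
    have := pmod_eC (-k) (b * c)
    intro x t
    have := this x t
    simpa [neg_mul, neg_div] using this
  unfold tk
  have e1 : ∀ a : Eis, hN a b * sy a c * eC (-(toC a * toC (u * k) / (toC b * toC c))) =
      (sy u b * conj (sy u c)) *
        (fun a => FF b c a * eC (-(toC k * toC a / toC (b * c)))) (u * a) := by
    intro a
    simp only
    rw [FF_mul hbp h2 hc hub]
    have e2 : toC a * toC (u * k) / (toC b * toC c) = toC k * toC (u * a) / toC (b * c) := by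
      simp only [map_mul]; ring
    rw [e2]
    unfold FF
    linear_combination (-(hN a b * sy a c * eC (-(toC k * toC (u * a) / toC (b * c)))) *
      (sy u c * conj (sy u c))) * h1 - (hN a b * sy a c *
        eC (-(toC k * toC (u * a) / toC (b * c)))) * h3
  rw [sumMod_congr e1, sumMod_mul_left hq, sumMod_mul_coprime hq hP hu]
  have e3 : sumMod (b * c) (fun a => FF b c a * eC (-(toC k * toC a / toC (b * c)))) =
      sumMod (b * c) (fun a => hN a b * sy a c * eC (-(toC a * toC k / (toC b * toC c)))) := by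
    refine sumMod_congr fun a => ?_
    unfold FF
    rw [map_mul, mul_comm (toC k)]
  rw [e3]; ring

/-- the case `c = 1` (for 868). -/
theorem tk_mul_left_one (hb : Sm 2 b) {u : Eis} (hu : IsCoprime u b) (k : Eis) :
    tk (u * k) b 1 = sy u b * tk k b 1 := by
  have h := tk_mul_left hb isPrim_one (u := u) (by rwa [mul_one]) k
  have e : sy u 1 = 1 := res_sy.one_right u
  rw [h, e, map_one, mul_one]

/-- units do not matter. -/
lemma tk_neg (hb : Sm 2 b) (hc : IsPrim c) (k : Eis) : tk (-k) b c = tk k b c := by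
  have h := tk_mul_left hb hc (u := -1) (isCoprime_one_left.neg_left) k
  rw [neg_one_mul, sy_neg_one syG hb.prim, sy_neg_one syG hc] at h
  rw [h, map_one, mul_one, one_mul]

open Classical in
/-- **(pp)**. -/
theorem tk_pp (k : Eis) {p : Eis} (hp : Sm 2 p) (hpp : Prime p) :
    tk k p p = (if p ∣ k then 1 else 0) - (nm p : ℂ) * (if p ^ 2 ∣ k then 1 else 0) := by
  have hpr := hp.prim
  have h2 : Od p := hp.od dvd_rfl
  have hp0 := hp.ne_zero
  have hs := sqrt_nm_ne hp0
  have hq : p * p ≠ 0 := mul_ne_zero hp0 hp0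
  have hp' := Po581.toC_ne_zero hp0
  have hsf : Squarefree p := hpp.squarefree
  have hmu : (muE p : ℂ) = -1 := by rw [muE_prime hpp]; push_cast; ring
  have hnl : ¬ lam ∣ p * p := (hp.mul hp).not_lam_dvd
  -- the summand
  have e1 : ∀ a : Eis, hN a p * sy a p * eC (-(toC a * toC k / (toC p * toC p))) =
      (-G p) * (eC (toC (-k) * toC a / toC (p * p)) -
        (if p ∣ a then eC (toC (-k) * toC a / toC (p * p)) else 0)) := by
    intro a
    have e2 : -(toC a * toC k / (toC p * toC p)) = toC (-k) * toC a / toC (p * p) := by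
      rw [map_neg, map_mul]; ring
    rw [hN_squarefree hpr h2 hsf, hmu, e2]
    by_cases h : p ∣ a
    · have h3 : sy a p = 0 := Char766.sy_eq_zero hpr (fun h' =>
        (Res.isCoprime_iff_not_dvd hpp a).mp h' h)
      rw [if_pos h, h3]; ring
    · have h3 : sy a p * conj (sy a p) = 1 := mul_conj_self_of_norm
        (norm_sy syG hpr ((Res.isCoprime_iff_not_dvd hpp a).mpr h))
      rw [if_neg h]
      linear_combination (-G p * eC (toC (-k) * toC a / toC (p * p))) * h3
  have h7 : sumMod (p * p) (fun a => if p ∣ a then eC (toC (-k) * toC a / toC (p * p)) else 0) =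
      if p ∣ k then (nm p : ℂ) else 0 := by
    rw [sumMod_multiples hp0 hp0 (pmod_eC (-k) (p * p))]
    have h8 : ∀ u : Eis, eC (toC (-k) * toC (p * u) / toC (p * p)) =
        eC (toC (-k) * toC u / toC p) := by
      intro u
      congr 1
      rw [map_mul, map_mul]
      field_simp
    rw [sumMod_congr h8, sumMod_eC_of_not_lam_dvd hp.not_lam_dvd]
    simp only [dvd_neg]
  unfold tk
  rw [sumMod_congr e1, sumMod_mul_left hq, sumMod_sub hq, h7, sumMod_eC_of_not_lam_dvd hnl, nm_mul]
  have hG := G_mul_conj syG hpr hsf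
  have h9 : ((Real.sqrt ((nm p : ℝ) * nm p) : ℝ) : ℂ) = (nm p : ℂ) := by
    rw [Real.sqrt_mul_self (by positivity)]; norm_cast
  have hn0 : (nm p : ℂ) ≠ 0 := by exact_mod_cast (nm_pos.mpr hp0).ne'
  have h10 : p * p ∣ -k ↔ p ^ 2 ∣ k := by rw [dvd_neg, sq]
  rw [h9]
  simp only [h10]
  push_cast
  split_ifs
  · field_simp
    linear_combination (1 - (nm p : ℂ)) * hG
  · field_simp
    linear_combination (- (nm p : ℂ) ^ 2) * hG
  · field_simp
    linear_combination (nm p : ℂ) * hG
  · simp

end Crest.Agent.R017.Tk545
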