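import Crest.Agent.R017.L7A_47
import Crest.Agent.R017.TkB_545

/-!
# Row 17, section B, L7 (part B): finite sums, separation of `om`, insertion of the functional
equation
-/

set_option autoImplicit false

noncomputable section

open MeasureTheory Complex Set Filter
open scoped ComplexConjugate ContDiff Classical

namespace Crest.Agent.R017.L747

open Crest.Agent.R012 Crest.Agent.R012.Eis
open Crest.Agent.R012.Weight600 (osc norm_osc ker ker_deriv norm_ker_le inversion_smooth)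
open Crest.Agent.R017.End699 Crest.Agent.R017.B770 Crest.Agent.R017.FE47 Crest.Agent.R017.Sx545
open Crest.Agent.R017.Sx440

lemma Sm.one_le {M b : Eis} (hb : Sm M b) : (1 : ℝ) ≤ nm b := one_le_nm hb.prim

lemma norm_hN_le {a b : Eis} (hb : Sm 2 b) : ‖hN a b‖ ≤ Real.sqrt (nm b) := by
  have h2 : Od b := hb.od dvd_rfl
  have h1 : ‖ang 1 b‖ = 1 := Tk545.norm_ang 1 hb.ne_zero
  have h3 : ‖sy 2 b‖ = 1 := Tk545.norm_sy_two hb.prim h2
  have h4 : ‖LS848.eps2 b‖ = 1 := LS848.norm_eps2 hb.prim h2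
  have h5 : ‖gs6 (a ^ 4) b‖ ≤ nm b := Gauss880.norm_gsum_le hb.ne_zero (isCh_sy6 hb.prim h2) _
  unfold hN
  rw [norm_div, Complex.norm_real, Real.norm_of_nonneg (Real.sqrt_nonneg _), norm_mul, norm_mul,
    norm_mul, RCLike.norm_conj, RCLike.norm_conj, h1, h3, h4, one_mul, one_mul, one_mul]
  have hp : 0 < Real.sqrt (nm b) := Real.sqrt_pos.mpr (by have := Sm.one_le hb; linarith)
  rw [div_le_iff₀ hp, Real.mul_self_sqrt (Nat.cast_nonneg _)]
  exact h5

/-! ### finite sums -/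

/-- one term of `Psi` -/
def pterm (M : Eis) (ξ f : Eis → ℂ) (a e b : Eis) : ℂ :=
  if Sm M e ∧ Sm M b then ξ e * (nm e : ℂ) ^ 2 * (f b * hN a b) else 0

theorem Psi_eq_sum {V : ℝ → ℂ} {R : ℝ} (hR : ∀ y, V y ≠ 0 → y ≤ R) (M : Eis) (ξ f : Eis → ℂ)
    (a : Eis) {Q : ℝ} (hQ : 0 < Q) {N : ℕ} (hN' : R * Q < N + 1) :
    Psi M ξ f a V Q = ∑ e ∈ ball N, ∑ b ∈ ball N,
      pterm M ξ f a e b * V (nm b * (nm e : ℝ) ^ 6 / Q) := by
  have key : ∀ e b : Eis, Sm M e → Sm M b → (e ∉ ball N ∨ b ∉ ball N) →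
      V (nm b * (nm e : ℝ) ^ 6 / Q) = 0 := by
    intro e b he hb h
    by_contra hne
    have h1 := hR _ hne
    rw [div_le_iff₀ hQ] at h1
    have h2 := Sm.one_le he
    have h3 := Sm.one_le hb
    have h4 : (1 : ℝ) ≤ (nm e : ℝ) ^ 6 := one_le_pow₀ h2
    have h5 : (nm e : ℝ) ≤ (nm e : ℝ) ^ 6 := le_self_pow₀ h2 (by norm_num)
    rcases h with h | h
    · have h6 : (N : ℝ) + 1 ≤ nm e := by
        rw [mem_ball, not_le] at h; exact_mod_cast h
      nlinarith
    · have h6 : (N : ℝ) + 1 ≤ nm b := by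
        rw [mem_ball, not_le] at h; exact_mod_cast h
      nlinarith
  unfold Psi
  rw [tsum_eq_sum (s := ball N)]
  · refine Finset.sum_congr rfl fun e he => ?_
    split_ifs with hse
    · rw [tsum_eq_sum (s := ball N)]
      · rw [Finset.mul_sum]
        refine Finset.sum_congr rfl fun b hb => ?_
        unfold pterm
        by_cases hsb : Sm M b
        · rw [if_pos hsb, if_pos ⟨hse, hsb⟩]; ring
        · rw [if_neg hsb, if_neg (fun h => hsb h.2)]; ring
      · intro b hb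
        split_ifs with hsb
        · rw [key e b hse hsb (Or.inr hb), mul_zero]
        · rfl
    · symm
      refine Finset.sum_eq_zero fun b hb => ?_
      unfold pterm
      rw [if_neg (fun h => hse h.1), zero_mul]
  · intro e he
    split_ifs with hse
    · have : (fun b : Eis => if Sm M b then f b * hN a b * V (nm b * (nm e : ℝ) ^ 6 / Q) else 0) =
          fun _ => 0 := by
        funext b
        split_ifs with hsb
        · rw [key e b hse hsb (Or.inl he), mul_zero]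
        · rfl
      rw [this, tsum_zero, mul_zero]
    · rfl

lemma pterm_pos {M : Eis} {ξ f : Eis → ℂ} {a e b : Eis} (h : pterm M ξ f a e b ≠ 0) :
    Sm M e ∧ Sm M b := by
  by_contra hh
  exact h (if_neg hh)

/-- `V_τ(y) = y^{iτ} V₁(y)` -/
def Vx (V : ℝ → ℂ) (τ : ℝ) (y : ℝ) : ℂ := (y : ℂ) ^ (I * τ) * hf V y

/-- separation of the weight `W0` -/
lemma W0_rep {V om : ℝ → ℂ} (hom : SW om) {X : ℝ} (hX : 0 < X) {a c : Eis} (ha : a ≠ 0)
    (hc : c ≠ 0) {y : ℝ} (hy : 0 < y) :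
    W0 V om X a c y =
      ∫ t, ker (lg om) t * osc t (Real.log (X * nm a / nm c)) * Vx V (-t) y := by
  have h1 : (0 : ℝ) < nm a := by exact_mod_cast nm_pos.mpr ha
  have h2 : (0 : ℝ) < nm c := by exact_mod_cast nm_pos.mpr hc
  have h3 : 0 < X * nm a / (nm c * y) := by positivity
  unfold W0
  rw [← SW.rep hom h3, ← integral_const_mul]
  congr 1
  funext t
  have h4 : osc t (Real.log (X * nm a / (nm c * y))) =
      osc t (Real.log (X * nm a / nm c)) * (y : ℂ) ^ (I * ((-t : ℝ) : ℂ)) := by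
    have h5 : X * nm a / (nm c * y) = (X * nm a / nm c) / y := by field_simp
    rw [h5, Real.log_div (by positivity) hy.ne', sub_eq_add_neg, Weight600.osc_add_right]
    congr 1
    rw [← Weight600.pw_eq_cpow' hy, Weight600.pw, Weight600.osc_neg_right,
      Weight600.osc_neg_left]
  rw [h4]
  unfold Vx hf
  ring

lemma SW.le {V : ℝ → ℂ} (h : SW V) : ∃ R : ℝ, 0 < R ∧ ∀ y, V y ≠ 0 → y ≤ R := by
  obtain ⟨R, hR0, hR⟩ := SW.bound h
  refine ⟨Real.exp R, Real.exp_pos R, fun y hy => ?_⟩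
  obtain ⟨h1, h2⟩ := hR y hy
  exact (Real.log_le_iff_le_exp h1).mp (le_of_abs_le h2)

lemma W0_ne {V om : ℝ → ℂ} {X : ℝ} {a c : Eis} {y : ℝ} (h : W0 V om X a c y ≠ 0) : V y ≠ 0 := by
  intro h0; exact h (by unfold W0; rw [h0]; ring)

lemma Vx_ne {V : ℝ → ℂ} {τ y : ℝ} (h : Vx V τ y ≠ 0) : V y ≠ 0 := by
  intro h0; exact h (by unfold Vx hf; rw [h0]; ring)

lemma continuous_Vx {V : ℝ → ℂ} {y : ℝ} (hy : 0 < y) : Continuous fun τ : ℝ => Vx V τ y := by
  unfold Vx
  have : (fun τ : ℝ => (y : ℂ) ^ (I * τ) * hf V y) = fun τ : ℝ => Weight600.pw τ y * hf V y := by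
    funext τ; rw [Weight600.pw_eq_cpow' hy]
  rw [this]
  exact (Weight600.continuous_pw_left y).mul continuous_const

lemma norm_Vx {V : ℝ → ℂ} {τ y : ℝ} (hy : 0 < y) : ‖Vx V τ y‖ = ‖hf V y‖ := by
  unfold Vx
  rw [← Weight600.pw_eq_cpow' hy, norm_mul, Weight600.norm_pw, one_mul]

lemma integrable_ker {om : ℝ → ℂ} (hom : SW om) : Integrable (ker (lg om)) :=
  Weight600.ker_integrable (SW.cd_lg hom) (SW.cs_lg hom)

lemma continuous_ker {om : ℝ → ℂ} (hom : SW om) : Continuous (ker (lg om)) :=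
  Weight600.continuous_ker ((SW.cd_lg hom).continuous.integrable_of_hasCompactSupport (SW.cs_lg hom))

lemma integrable_term {V om : ℝ → ℂ} (hom : SW om) (s : ℝ) {y : ℝ} (hy : 0 < y) :
    Integrable fun t : ℝ => ker (lg om) t * osc t s * Vx V (-t) y := by
  have h1 : Integrable fun t : ℝ => ker (lg om) t * (osc t s * Vx V (-t) y) := by
    refine (integrable_ker hom).mul_bdd (c := ‖hf V y‖) ?_ ?_
    · exact ((Weight600.continuous_osc_left s).mul
        ((continuous_Vx hy).comp continuous_neg)).aestronglyMeasurable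
    · refine Eventually.of_forall fun t => ?_
      rw [norm_mul, norm_osc, one_mul, norm_Vx hy]
  refine h1.congr (Eventually.of_forall fun t => ?_)
  simp only
  ring

lemma Sm.arg_pos {M e b : Eis} (he : Sm M e) (hb : Sm M b) {Q : ℝ} (hQ : 0 < Q) :
    0 < (nm b : ℝ) * (nm e : ℝ) ^ 6 / Q := by
  have h1 := Sm.one_le he
  have h2 := Sm.one_le hb
  positivity

/-- (7.1) for a single `Psi` -/
theorem Psi_W0 {V om : ℝ → ℂ} (hV : SW V) (hom : SW om) {X : ℝ} (hX : 0 < X) (M : Eis)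
    (ξ f : Eis → ℂ) {a c : Eis} (ha : a ≠ 0) (hc : c ≠ 0) {Q : ℝ} (hQ : 0 < Q) :
    Integrable (fun t : ℝ => ker (lg om) t * osc t (Real.log (X * nm a / nm c)) *
      Psi M ξ f a (Vx V (-t)) Q) ∧
    Psi M ξ f a (W0 V om X a c) Q =
      ∫ t : ℝ, ker (lg om) t * osc t (Real.log (X * nm a / nm c)) * Psi M ξ f a (Vx V (-t)) Q := by
  obtain ⟨R, hR0, hR⟩ := SW.le hV
  obtain ⟨N, hN'⟩ : ∃ N : ℕ, R * Q < N + 1 := ⟨⌊R * Q⌋₊, Nat.lt_floor_add_one _⟩
  have e1 : ∀ t : ℝ, ker (lg om) t * osc t (Real.log (X * nm a / nm c)) *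
      Psi M ξ f a (Vx V (-t)) Q = ∑ e ∈ ball N, ∑ b ∈ ball N, pterm M ξ f a e b *
        (ker (lg om) t * osc t (Real.log (X * nm a / nm c)) *
          Vx V (-t) (nm b * (nm e : ℝ) ^ 6 / Q)) := by
    intro t
    rw [Psi_eq_sum (fun y hy => hR y (Vx_ne hy)) M ξ f a hQ hN', Finset.mul_sum]
    refine Finset.sum_congr rfl fun e _ => ?_
    rw [Finset.mul_sum]
    exact Finset.sum_congr rfl fun b _ => by ring
  have hint : ∀ e b : Eis, Integrable fun t : ℝ => pterm M ξ f a e b *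
        (ker (lg om) t * osc t (Real.log (X * nm a / nm c)) *
          Vx V (-t) (nm b * (nm e : ℝ) ^ 6 / Q)) := by
    intro e b
    by_cases h : pterm M ξ f a e b = 0
    · simp [h]
    · obtain ⟨he, hb⟩ := pterm_pos h
      exact (integrable_term hom _ (Sm.arg_pos he hb hQ)).const_mul _
  refine ⟨?_, ?_⟩
  · refine Integrable.congr (f := fun t : ℝ => ∑ e ∈ ball N, ∑ b ∈ ball N, pterm M ξ f a e b *
        (ker (lg om) t * osc t (Real.log (X * nm a / nm c)) *
          Vx V (-t) (nm b * (nm e : ℝ) ^ 6 / Q))) ?_ (Eventually.of_forall fun t => (e1 t).symm)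
    exact integrable_finsetSum _ fun e _ => integrable_finsetSum _ fun b _ => hint e b
  · rw [integral_congr_ae (Eventually.of_forall e1),
      integral_finsetSum _ (fun e _ => integrable_finsetSum _ fun b _ => hint e b),
      Psi_eq_sum (fun y hy => hR y (W0_ne hy)) M ξ f a hQ hN']
    refine Finset.sum_congr rfl fun e _ => ?_
    rw [integral_finsetSum _ (fun b _ => hint e b)]
    refine Finset.sum_congr rfl fun b _ => ?_
    by_cases h : pterm M ξ f a e b = 0
    · simp [h]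
    · obtain ⟨he, hb⟩ := pterm_pos h
      rw [integral_const_mul, W0_rep hom hX ha hc (Sm.arg_pos he hb hQ)]

end Crest.Agent.R017.L747
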