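import Crest.Agent.R017.L7B_47

/-!
# Row 17, section B, L7 (part C): smooth partition in `b` and separation of the dual weights
-/

set_option autoImplicit false

noncomputable section

open MeasureTheory Complex Set Filter
open scoped ComplexConjugate ContDiff Classical

namespace Crest.Agent.R017.L747

open Crest.Agent.R012 Crest.Agent.R012.Eis
open Crest.Agent.R012.Weight600 (osc norm_osc ker ker_deriv norm_ker_le inversion_smooth)
open Crest.Agent.R017.End699 Crest.Agent.R017.B770 Crest.Agent.R017.FE47 Crest.Agent.R017.Sx545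
open Crest.Agent.R017.Sx440

/-- a logarithmic weight as a weight on `(0, ∞)` -/
def ev (w : ℝ → ℂ) (y : ℝ) : ℂ := if 0 < y then w (Real.log y) else 0

lemma ev_pos (w : ℝ → ℂ) {y : ℝ} (hy : 0 < y) : ev w y = w (Real.log y) := if_pos hy

lemma sw_ev {w : ℝ → ℂ} (h1 : ContDiff ℝ ∞ w) (h2 : HasCompactSupport w) : SW (ev w) := by
  obtain ⟨R, hR0, hR⟩ := exists_R h2
  have hsup : Function.support (ev w) ⊆ Set.Icc (Real.exp (-R)) (Real.exp R) := by
    intro y hy
    rw [Function.mem_support] at hy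
    unfold ev at hy
    split_ifs at hy with h0
    · have h3 := abs_le.mp (hR _ hy)
      exact ⟨by rw [← Real.le_log_iff_exp_le h0]; exact h3.1,
        by rw [← Real.log_le_iff_le_exp h0]; exact h3.2⟩
    · exact absurd rfl hy
  have hts : tsupport (ev w) ⊆ Set.Icc (Real.exp (-R)) (Real.exp R) :=
    closure_minimal hsup isClosed_Icc
  refine ⟨?_, HasCompactSupport.of_support_subset_isCompact isCompact_Icc hsup, fun y hy =>
    lt_of_lt_of_le (Real.exp_pos _) (hts hy).1⟩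
  rw [contDiff_iff_contDiffAt]
  intro y
  rcases lt_or_ge 0 y with hy | hy
  · have h3 : ev w =ᶠ[nhds y] fun y => w (Real.log y) := by
      filter_upwards [lt_mem_nhds hy] with z hz
      exact ev_pos w hz
    refine ContDiffAt.congr_of_eventuallyEq ?_ h3
    exact h1.contDiffAt.comp y (Real.contDiffAt_log.mpr hy.ne')
  · have h4 : y ∉ tsupport (ev w) := fun hh =>
      absurd (lt_of_lt_of_le (Real.exp_pos _) (hts hh).1) (not_lt.mpr hy)
    have h5 : ev w =ᶠ[nhds y] 0 := notMem_tsupport_iff_eventuallyEq.mp h4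
    exact (contDiffAt_const (c := (0 : ℂ))).congr_of_eventuallyEq h5

/-- the standard weight -/
def V00 : ℝ → ℂ := ev (cx h00)

lemma sw_V00 : SW V00 := sw_ev (cd_cx pu0.cd) (cs_cx pu0.cs)

lemma h00_nonneg (v : ℝ) : 0 ≤ h00 v := Weight600.cutL_nonneg (by norm_num) (by norm_num) v

lemma h00_ne {v : ℝ} (h : h00 v ≠ 0) : |v| ≤ 3 / 2 := by
  have := Weight600.cutL_ne_zero (a := -1) (b := 0) (η := 1 / 2) (by norm_num) (by norm_num) h
  rw [abs_le]
  constructor <;> linarith [this.1, this.2]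

/-- coefficient of `Psi'` -/
def gc (M : Eis) (f : Eis → ℂ) (a b : Eis) : ℂ := if Sm M b then f b * hN a b else 0

lemma gc_ne {M : Eis} {f : Eis → ℂ} {a b : Eis} (h : gc M f a b ≠ 0) : Sm M b := by
  by_contra hh; exact h (if_neg hh)

lemma norm_gc_le {M : Eis} (h2 : (2 : Eis) ∣ M) {f : Eis → ℂ} (hf : ∀ b, Sm M b → ‖f b‖ ≤ 1)
    (a b : Eis) : ‖gc M f a b‖ ≤ Real.sqrt (nm b) := by
  unfold gc
  split_ifs with h
  · rw [norm_mul]
    calc ‖f b‖ * ‖hN a b‖ ≤ 1 * Real.sqrt (nm b) := by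
          gcongr
          · exact hf b h
          · exact norm_hN_le (h.mono h2)
      _ = _ := one_mul _
  · rw [norm_zero]; positivity

lemma Psi'_eq (M : Eis) (f : Eis → ℂ) (a : Eis) (V : ℝ → ℂ) (Q : ℝ) :
    Psi' M f a V Q = ∑' b : Eis, gc M f a b * V (nm b / Q) := by
  unfold Psi'
  refine tsum_congr fun b => ?_
  unfold gc
  split_ifs <;> ring

/-- one term of the partitioned dual sum -/
def qt (M : Eis) (f : Eis → ℂ) (a : Eis) (W : ℝ → ℂ) (Y : ℝ) (b : Eis) (n : ℕ) : ℂ :=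
  gc M f a b * (cx h00 (Real.log (nm b) - n) * W (nm b / Y))

lemma norm_cx (h : ℝ → ℝ) (u : ℝ) : ‖cx h u‖ = |h u| := by
  unfold cx; rw [Complex.norm_real, Real.norm_eq_abs]

lemma h00_finite (v : ℝ) : (Function.support fun n : ℕ => h00 (v - n)).Finite := by
  refine (Set.finite_Iic (⌈v⌉₊ + 2)).subset fun n hn => ?_
  have h1 := abs_le.mp (h00_ne hn)
  have h2 : v ≤ ⌈v⌉₊ := Nat.le_ceil v
  rw [Set.mem_Iic]
  by_contra hc
  push Not at hc
  have h3 : ((⌈v⌉₊ + 2 : ℕ) : ℝ) + 1 ≤ n := by exact_mod_cast hc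
  push_cast at h3
  linarith [h1.1]

lemma summable_h00 (v : ℝ) : Summable fun n : ℕ => h00 (v - n) :=
  summable_of_hasFiniteSupport (h00_finite v)

lemma tsum_h00 {v : ℝ} (hv : 0 ≤ v) : ∑' n : ℕ, h00 (v - n) = 1 := by
  have := pu0.one v hv
  simpa using this

/-- Psi' as an iterated sum -/
theorem Psi'_part {M : Eis} (h2 : (2 : Eis) ∣ M) {f : Eis → ℂ} (hf : ∀ b, Sm M b → ‖f b‖ ≤ 1)
    (a : Eis) {W : ℝ → ℂ} {C : ℝ} (hW : ∀ y, 0 < y → ‖W y‖ ≤ C * (y ^ 3)⁻¹) {Y : ℝ} (hY : 0 < Y) :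
    (Summable fun n : ℕ => ∑' b : Eis, qt M f a W Y b n) ∧
    Psi' M f a W Y = ∑' n : ℕ, ∑' b : Eis, qt M f a W Y b n := by
  have hb1 : ∀ b : Eis, ‖gc M f a b‖ * ‖W (nm b / Y)‖ ≤ (|C| * Y ^ 3) * (nm b : ℝ) ^ (-(2 : ℝ)) := by
    intro b
    by_cases h : gc M f a b = 0
    · rw [h, norm_zero, zero_mul]; positivity
    · have hsb := gc_ne h
      have hp : (0 : ℝ) < nm b := by have := Sm.one_le hsb; linarith
      have h1 := hW _ (div_pos hp hY)
      have h3 : Real.sqrt (nm b) ≤ nm b := by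
        rw [Real.sqrt_le_left (by positivity)]
        have := Sm.one_le hsb
        nlinarith
      calc ‖gc M f a b‖ * ‖W (nm b / Y)‖ ≤ (nm b : ℝ) * (|C| * ((nm b / Y) ^ 3)⁻¹) := by
            gcongr
            · exact (norm_gc_le h2 hf a b).trans h3
            · exact h1.trans (by gcongr; exact le_abs_self C)
        _ = _ := by
            rw [Real.rpow_neg hp.le, show (2 : ℝ) = ((2 : ℕ) : ℝ) by norm_num, Real.rpow_natCast]
            field_simp
  have hs1 : Summable fun b : Eis => ‖gc M f a b‖ * ‖W (nm b / Y)‖ :=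
    Summable.of_nonneg_of_le (fun b => by positivity) hb1
      ((LatSum413.summable_nm_rpow (by norm_num)).mul_left _)
  have hn : ∀ (b : Eis) (n : ℕ), ‖qt M f a W Y b n‖ =
      ‖gc M f a b‖ * ‖W (nm b / Y)‖ * h00 (Real.log (nm b) - n) := by
    intro b n
    unfold qt
    rw [norm_mul, norm_mul, norm_cx, abs_of_nonneg (h00_nonneg _)]
    ring
  have hle : ∀ b : Eis, ∑' n : ℕ, ‖qt M f a W Y b n‖ ≤ ‖gc M f a b‖ * ‖W (nm b / Y)‖ := by
    intro b
    rw [tsum_congr (hn b), tsum_mul_left]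
    by_cases h : gc M f a b = 0
    · rw [h, norm_zero, zero_mul, zero_mul]
    · rw [tsum_h00 (log_nm_nonneg (gc_ne h).prim), mul_one]
  have hs2 : ∀ b : Eis, Summable fun n : ℕ => ‖qt M f a W Y b n‖ := fun b =>
    ((summable_h00 _).mul_left _).congr fun n => (hn b n).symm
  have hs : Summable fun p : Eis × ℕ => qt M f a W Y p.1 p.2 := by
    apply Summable.of_norm
    rw [summable_prod_of_nonneg (fun _ => norm_nonneg _)]
    exact ⟨hs2, Summable.of_nonneg_of_le (fun b => tsum_nonneg fun _ => norm_nonneg _) hle hs1⟩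
  have hs' : Summable fun p : ℕ × Eis => qt M f a W Y p.2 p.1 := hs.prod_symm
  refine ⟨hs'.prod, ?_⟩
  rw [Psi'_eq, Summable.tsum_comm (f := fun (b : Eis) (n : ℕ) => qt M f a W Y b n) hs]
  refine tsum_congr fun b => ?_
  by_cases h : gc M f a b = 0
  · rw [h, zero_mul]
    symm
    have : (fun n : ℕ => qt M f a W Y b n) = fun _ => 0 := by
      funext n; unfold qt; rw [h, zero_mul]
    rw [this, tsum_zero]
  · have e1 : (fun n : ℕ => qt M f a W Y b n) =
        fun n : ℕ => (gc M f a b * W (nm b / Y)) * ((h00 (Real.log (nm b) - n) : ℝ) : ℂ) := by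
      funext n; unfold qt cx; ring
    rw [e1, tsum_mul_left, ← Complex.ofReal_tsum, tsum_h00 (log_nm_nonneg (gc_ne h).prim)]
    simp

end Crest.Agent.R017.L747
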