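import Crest.Agent.R017.L7C_47

/-!
# Row 17, section B, L7 (part D): separation of the dual weights
-/

set_option autoImplicit false

noncomputable section

open MeasureTheory Complex Set Filter
open scoped ComplexConjugate ContDiff Classical

namespace Crest.Agent.R017.L747

open Crest.Agent.R012 Crest.Agent.R012.Eis
open Crest.Agent.R012.Weight600 (osc norm_osc ker ker_deriv norm_ker_le inversion_smooth)
open Crest.Agent.R017.End699 Crest.Agent.R017.B770 Crest.Agent.R017.FE47 Crest.Agent.R017.Sx545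
open Crest.Agent.R017.Sx440

/-- the twist by `N^{it}` -/
def nt (f : Eis → ℂ) (t : ℝ) (b : Eis) : ℂ := f b * (nm b : ℂ) ^ (I * t)

lemma osc_log {b : Eis} (hb : b ≠ 0) (t : ℝ) : (nm b : ℂ) ^ (I * t) = osc t (Real.log (nm b)) := by
  have h : (0 : ℝ) < nm b := by exact_mod_cast nm_pos.mpr hb
  have := Weight600.pw_eq_cpow' h t
  rw [Weight600.pw] at this
  rw [this]
  simp

lemma twt_eq_nt (φ : Eis → ℂ) (l : ℤ) (t : ℝ) : twt φ l t = nt (tw φ l) t := rfl

lemma gc_nt (M : Eis) (f : Eis → ℂ) (t : ℝ) (a b : Eis) :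
    gc M (nt f t) a b = gc M f a b * osc t (Real.log (nm b)) := by
  unfold gc nt
  split_ifs with h
  · rw [osc_log h.ne_zero]; ring
  · ring

theorem Psi'_fin {V : ℝ → ℂ} {R : ℝ} (hR : ∀ y, V y ≠ 0 → y ≤ R) (M : Eis) (f : Eis → ℂ)
    (a : Eis) {Q : ℝ} (hQ : 0 < Q) {N : ℕ} (hN' : R * Q < N + 1) :
    Psi' M f a V Q = ∑ b ∈ ball N, gc M f a b * V (nm b / Q) := by
  rw [Psi'_eq]
  refine tsum_eq_sum fun b hb => ?_
  by_contra hne
  have h1 := hR _ (right_ne_zero_of_mul hne)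
  rw [div_le_iff₀ hQ] at h1
  rw [mem_ball, not_le] at hb
  have h6 : (N : ℝ) + 1 ≤ nm b := by exact_mod_cast hb
  linarith

lemma V00_le {y : ℝ} (h : V00 y ≠ 0) : y ≤ Real.exp (3 / 2) := by
  unfold V00 ev at h
  split_ifs at h with h0
  · have h1 : h00 (Real.log y) ≠ 0 := by
      intro h2; apply h; unfold cx; rw [h2]; simp
    have h3 := (abs_le.mp (h00_ne h1)).2
    exact (Real.log_le_iff_le_exp h0).mp h3
  · exact absurd rfl h

/-- smooth cutoff equal to `1` on `[-R, R]` -/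
def ct (R u : ℝ) : ℂ := Weight600.cutC (-(R + 1)) (R + 1) 1 u

lemma ct_one {R u : ℝ} (h : |u| ≤ R) : ct R u = 1 := by
  unfold ct Weight600.cutC
  have h1 := abs_le.mp h
  rw [Weight600.cutL_eq_one (by norm_num) (by linarith) (by linarith)]
  simp

lemma cd_ct (R : ℝ) : ContDiff ℝ ∞ (ct R) := Weight600.contDiff_cutC

lemma cs_ct {R : ℝ} (hR : 0 ≤ R) : HasCompactSupport (ct R) :=
  Weight600.hasCompactSupport_cutC (by norm_num) (by linarith)

lemma ct_ne {R u : ℝ} (hR : 0 ≤ R) (h : ct R u ≠ 0) : |u| ≤ R + 2 := by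
  have h1 : Weight600.cutL (-(R + 1)) (R + 1) 1 u ≠ 0 := by
    intro h2; apply h; unfold ct Weight600.cutC; rw [h2]; simp
  have := Weight600.cutL_ne_zero (by norm_num : (0 : ℝ) < 1) (by linarith) h1
  rw [abs_le]
  constructor <;> linarith [this.1, this.2]

lemma norm_ct_le {R u : ℝ} (hR : 0 ≤ R) : ‖ct R u‖ ≤ 1 := by
  unfold ct Weight600.cutC
  rw [Complex.norm_real, Real.norm_eq_abs, abs_of_nonneg
    (Weight600.cutL_nonneg (by norm_num) (by linarith) u)]
  exact Weight600.cutL_le_one u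

/-- **(7.3)** for one `Psi'` and one block -/
theorem block_sep {M : Eis} (f : Eis → ℂ) (a : Eis) {F : ℝ → ℂ} {κ : ℝ → ℂ}
    (hκ : Integrable κ) {R s ka Y : ℝ} (hY : 0 < Y)
    (hsep : ∀ v, ∫ t, κ t * osc t v = ct (3 / 2 + 4 * R) v * F (v + s)) (n : ℕ)
    (ha : |Real.log (nm a) - ka| ≤ R)
    (hs : s = n + 4 * (Real.log (nm a) - ka) - Real.log Y) :
    (Integrable fun t : ℝ => κ t * osc t (4 * ka - n) * (osc (-(4 * t)) (Real.log (nm a)) *
        Psi' M (nt f t) a V00 (Real.exp n))) ∧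
    ∑' b : Eis, qt M f a (fun y => F (Real.log y)) Y b n =
      ∫ t : ℝ, κ t * osc t (4 * ka - n) * (osc (-(4 * t)) (Real.log (nm a)) *
        Psi' M (nt f t) a V00 (Real.exp n)) := by
  obtain ⟨N, hN'⟩ : ∃ N : ℕ, Real.exp (3 / 2) * Real.exp n < N + 1 :=
    ⟨⌊Real.exp (3 / 2) * Real.exp n⌋₊, Nat.lt_floor_add_one _⟩
  have hb : ∀ b : Eis, gc M f a b * V00 (nm b / Real.exp n) =
      gc M f a b * cx h00 (Real.log (nm b) - n) := by
    intro b
    by_cases h : gc M f a b = 0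
    · rw [h, zero_mul, zero_mul]
    · have hp : (0 : ℝ) < nm b := by have := Sm.one_le (gc_ne h); linarith
      unfold V00
      rw [ev_pos _ (div_pos hp (Real.exp_pos _)), Real.log_div hp.ne' (Real.exp_pos _).ne',
        Real.log_exp]
  have hR' : ∀ y, V00 y ≠ 0 → y ≤ Real.exp (3 / 2) := fun y hy => V00_le hy
  have e1 : ∀ t : ℝ, κ t * osc t (4 * ka - n) * (osc (-(4 * t)) (Real.log (nm a)) *
        Psi' M (nt f t) a V00 (Real.exp n)) =
      ∑ b ∈ ball N, (gc M f a b * cx h00 (Real.log (nm b) - n)) * (κ t *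
        osc t (Real.log (nm b) - n - 4 * (Real.log (nm a) - ka))) := by
    intro t
    rw [Psi'_fin hR' M _ a (Real.exp_pos _) hN', Finset.mul_sum, Finset.mul_sum]
    refine Finset.sum_congr rfl fun b _ => ?_
    have h1 : Real.log (nm b) - n - 4 * (Real.log (nm a) - ka) =
      Real.log (nm b) + (4 * ka - n) + -(4 * Real.log (nm a)) := by ring
    have h2 : osc t (-(4 * Real.log (nm a))) = osc (-(4 * t)) (Real.log (nm a)) := by
      unfold Weight600.osc; congr 2; push_cast; ring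
    rw [h1, Weight600.osc_add_right, Weight600.osc_add_right, h2, gc_nt, mul_right_comm (gc M f a b),
      hb b]
    ring
  have hint : ∀ b : Eis, Integrable fun t : ℝ => (gc M f a b * cx h00 (Real.log (nm b) - n)) * (κ t *
        osc t (Real.log (nm b) - n - 4 * (Real.log (nm a) - ka))) := fun b =>
    (FE47.integrable_mul_osc hκ _).const_mul _
  refine ⟨?_, ?_⟩
  · exact (integrable_finsetSum _ fun b _ => hint b).congr (Eventually.of_forall fun t => (e1 t).symm)
  · rw [integral_congr_ae (Eventually.of_forall e1), integral_finsetSum _ (fun b _ => hint b),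
      tsum_eq_sum (s := ball N)]
    · refine Finset.sum_congr rfl fun b _ => ?_
      rw [integral_const_mul, hsep]
      unfold qt
      by_cases h : gc M f a b = 0
      · rw [h]; ring
      · by_cases hh : h00 (Real.log (nm b) - n) = 0
        · simp only [cx, hh]; simp
        · have hp : (0 : ℝ) < nm b := by have := Sm.one_le (gc_ne h); linarith
          rw [ct_one, one_mul, mul_assoc]
          · congr 2
            change F (Real.log (nm b / Y)) = _
            rw [Real.log_div hp.ne' hY.ne', hs]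
            congr 1
            ring
          · have h1 := abs_le.mp (h00_ne hh)
            have h2 := abs_le.mp ha
            rw [abs_le]
            constructor <;> linarith [h1.1, h1.2, h2.1, h2.2]
    · intro b hbN
      unfold qt
      have h1 : V00 (nm b / Real.exp n) = 0 := by
        by_contra hne
        have h1 := hR' _ hne
        rw [div_le_iff₀ (Real.exp_pos _)] at h1
        rw [mem_ball, not_le] at hbN
        have h6 : (N : ℝ) + 1 ≤ nm b := by exact_mod_cast hbN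
        linarith
      have h2 := hb b
      rw [h1, mul_zero] at h2
      rw [← mul_assoc, ← h2, zero_mul]

/-- **(7.3)** for a finite family of `a`'s. -/
theorem family_sep {M : Eis} (h2 : (2 : Eis) ∣ M) {W : ℝ → ℝ → ℂ} (hW : RD W) {R ρ : ℝ}
    (hR : 0 ≤ R) (hρ : 0 < ρ) (N J : ℕ) :
    ∃ C A : ℝ, 0 ≤ C ∧ 0 ≤ A ∧ ∀ (f : Eis → ℂ), (∀ b, Sm M b → ‖f b‖ ≤ 1) →
      ∀ {ι : Type} (T : Finset ι) (co : ι → ℂ) (a : ι → Eis) (ka Q : ℝ), 0 < Q →
      (∀ x ∈ T, co x ≠ 0 → a x ≠ 0 ∧ |Real.log (nm (a x)) - ka| ≤ R) → ∀ (τ : ℝ) (B : ℕ → ℝ),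
      (Summable fun n : ℕ => Real.exp (-(N * |n - 4 * ka + Real.log (Q / ρ)|)) * B n) →
      (∀ (n : ℕ) (t : ℝ), ‖∑ x ∈ T, co x * (osc (-(4 * t)) (Real.log (nm (a x))) *
        Psi' M (nt f t) (a x) V00 (Real.exp n))‖ ≤ (1 + |t|) ^ J * B n) →
      ‖∑ x ∈ T, co x * Psi' M f (a x) (W τ) (ρ * (nm (a x) : ℝ) ^ 4 / Q)‖ ≤
        C * (1 + |τ|) ^ A *
          ∑' n : ℕ, Real.exp (-(N * |n - 4 * ka + Real.log (Q / ρ)|)) * B n := by
  obtain ⟨C3, A3, hC3, hA3, hb3⟩ := hW.rf.bd 3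
  obtain ⟨C, A, hC, hA, hsep⟩ := hW.rf.sep (cd_ct (3 / 2 + 4 * R))
    (cs_ct (R := 3 / 2 + 4 * R) (by positivity)) N (J + 2)
  have hwt : Integrable (fun t : ℝ => ((1 + |t|) ^ 2)⁻¹) := integrable_wt le_rfl
  have hwt0 : 0 ≤ ∫ t : ℝ, ((1 + |t|) ^ 2)⁻¹ := integral_nonneg fun t => by positivity
  refine ⟨C * ∫ t : ℝ, ((1 + |t|) ^ 2)⁻¹, A, mul_nonneg hC hwt0, hA, ?_⟩
  intro f hf ι T co a ka Q hQ hco τ B hB hbd
  have hWd : ∀ y, 0 < y → ‖W τ y‖ ≤ (C3 * (1 + |τ|) ^ A3) * (y ^ 3)⁻¹ := by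
    intro y hy
    have h1 := hb3 τ (Real.log y)
    simp only [Real.exp_log hy] at h1
    refine h1.trans ?_
    have h3 : Real.exp (-(((3 : ℕ) : ℝ) * |Real.log y|)) ≤ (y ^ 3)⁻¹ := by
      rw [← Real.exp_log (show 0 < y ^ 3 by positivity), ← Real.exp_neg]
      apply Real.exp_le_exp.mpr
      rw [Real.log_pow]
      have := le_abs_self (Real.log y)
      push_cast
      linarith
    gcongr
  -- choose the kernels
  choose κ hκc hκi hκb hκs using fun n : ℕ => hsep τ (n - 4 * ka + Real.log (Q / ρ))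
  have hY : ∀ x ∈ T, co x ≠ 0 → 0 < ρ * (nm (a x) : ℝ) ^ 4 / Q := by
    intro x hx h
    have h1 : (0 : ℝ) < nm (a x) := by exact_mod_cast nm_pos.mpr (hco x hx h).1
    positivity
  have hs : ∀ x ∈ T, co x ≠ 0 → ∀ n : ℕ, (n : ℝ) - 4 * ka + Real.log (Q / ρ) =
      n + 4 * (Real.log (nm (a x)) - ka) - Real.log (ρ * (nm (a x) : ℝ) ^ 4 / Q) := by
    intro x hx h n
    have h1 : (0 : ℝ) < nm (a x) := by exact_mod_cast nm_pos.mpr (hco x hx h).1
    rw [Real.log_div hQ.ne' hρ.ne', Real.log_div (by positivity) hQ.ne',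
      Real.log_mul hρ.ne' (by positivity), Real.log_pow]
    push_cast
    ring
  have hFW : (fun y => W τ (Real.exp (Real.log y))) = fun y => W τ (Real.exp (Real.log y)) := rfl
  have hqt : ∀ x ∈ T, co x ≠ 0 → ∀ (n : ℕ) (b : Eis),
      qt M f (a x) (W τ) (ρ * (nm (a x) : ℝ) ^ 4 / Q) b n =
      qt M f (a x) (fun y => W τ (Real.exp (Real.log y))) (ρ * (nm (a x) : ℝ) ^ 4 / Q) b n := by
    intro x hx h n b
    unfold qt
    by_cases h0 : gc M f (a x) b = 0
    · rw [h0, zero_mul, zero_mul]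
    · have hp : (0 : ℝ) < nm b := by have := Sm.one_le (gc_ne h0); linarith
      simp only [Real.exp_log (div_pos hp (hY x hx h))]
  -- the n-th block
  have hblk : ∀ x ∈ T, ∀ n : ℕ,
      (Integrable fun t : ℝ => co x * (κ n t * osc t (4 * ka - n) *
        (osc (-(4 * t)) (Real.log (nm (a x))) * Psi' M (nt f t) (a x) V00 (Real.exp n)))) ∧
      co x * ∑' b : Eis, qt M f (a x) (W τ) (ρ * (nm (a x) : ℝ) ^ 4 / Q) b n =
      ∫ t : ℝ, co x * (κ n t * osc t (4 * ka - n) *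
        (osc (-(4 * t)) (Real.log (nm (a x))) * Psi' M (nt f t) (a x) V00 (Real.exp n))) := by
    intro x hx n
    by_cases h : co x = 0
    · simp [h]
    · have h5 := block_sep (F := fun u => W τ (Real.exp u)) (M := M) f (a x) (hκi n)
        (hY x hx h) (hκs n) n (hco x hx h).2 (hs x hx h n)
      refine ⟨h5.1.const_mul _, ?_⟩
      rw [integral_const_mul, ← h5.2, tsum_congr (hqt x hx h n)]
  have hpart : ∀ x ∈ T, (Summable fun n : ℕ =>
      co x * ∑' b : Eis, qt M f (a x) (W τ) (ρ * (nm (a x) : ℝ) ^ 4 / Q) b n) ∧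
      co x * Psi' M f (a x) (W τ) (ρ * (nm (a x) : ℝ) ^ 4 / Q) =
      ∑' n : ℕ, co x * ∑' b : Eis, qt M f (a x) (W τ) (ρ * (nm (a x) : ℝ) ^ 4 / Q) b n := by
    intro x hx
    by_cases h : co x = 0
    · simp [h]
    · have h5 := Psi'_part h2 hf (a x) hWd (hY x hx h)
      refine ⟨h5.1.mul_left _, ?_⟩
      rw [tsum_mul_left, ← h5.2]
  rw [Finset.sum_congr rfl fun x hx => (hpart x hx).2,
    ← Summable.tsum_finsetSum fun x hx => (hpart x hx).1]
  have hn : ∀ n : ℕ, ∑ x ∈ T, co x *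
      ∑' b : Eis, qt M f (a x) (W τ) (ρ * (nm (a x) : ℝ) ^ 4 / Q) b n =
      ∫ t : ℝ, κ n t * osc t (4 * ka - n) * ∑ x ∈ T, co x *
        (osc (-(4 * t)) (Real.log (nm (a x))) * Psi' M (nt f t) (a x) V00 (Real.exp n)) := by
    intro n
    rw [Finset.sum_congr rfl fun x hx => (hblk x hx n).2,
      ← integral_finsetSum _ fun x hx => (hblk x hx n).1]
    congr 1
    funext t
    rw [Finset.mul_sum]
    exact Finset.sum_congr rfl fun x _ => by ring
  rw [tsum_congr hn]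
  have hsum : HasSum (fun n : ℕ => (C * ∫ t : ℝ, ((1 + |t|) ^ 2)⁻¹) * (1 + |τ|) ^ A *
      (Real.exp (-(N * |n - 4 * ka + Real.log (Q / ρ)|)) * B n))
      ((C * ∫ t : ℝ, ((1 + |t|) ^ 2)⁻¹) * (1 + |τ|) ^ A *
        ∑' n : ℕ, Real.exp (-(N * |n - 4 * ka + Real.log (Q / ρ)|)) * B n) :=
    hB.hasSum.mul_left _
  refine tsum_of_norm_bounded hsum fun n => ?_
  have hBn : 0 ≤ B n := by
    have := (norm_nonneg _).trans (hbd n 0)
    simpa using this
  have hle : ∀ t : ℝ, ‖κ n t * osc t (4 * ka - n) * ∑ x ∈ T, co x *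
        (osc (-(4 * t)) (Real.log (nm (a x))) * Psi' M (nt f t) (a x) V00 (Real.exp n))‖ ≤
      (C * (1 + |τ|) ^ A * Real.exp (-(N * |n - 4 * ka + Real.log (Q / ρ)|)) * B n) *
        ((1 + |t|) ^ 2)⁻¹ := by
    intro t
    rw [norm_mul, norm_mul, norm_osc, mul_one]
    have ht : 0 < 1 + |t| := by positivity
    calc ‖κ n t‖ * ‖∑ x ∈ T, co x *
        (osc (-(4 * t)) (Real.log (nm (a x))) * Psi' M (nt f t) (a x) V00 (Real.exp n))‖
        ≤ (C * (1 + |τ|) ^ A * Real.exp (-(N * |n - 4 * ka + Real.log (Q / ρ)|)) *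
            ((1 + |t|) ^ (J + 2))⁻¹) * ((1 + |t|) ^ J * B n) := by
          gcongr
          · exact hκb n t
          · exact hbd n t
      _ = _ := by
          rw [pow_add]
          field_simp
  refine (norm_integral_le_of_norm_le (hwt.const_mul _) (Eventually.of_forall hle)).trans
    (le_of_eq ?_)
  rw [integral_const_mul]
  ring

end Crest.Agent.R017.L747
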