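import Crest.Agent.R017.L7D_47

/-!
# Row 17, section B, L7 (part E): steps 7.1, 7.2, 7.3 for an arbitrary finite family of `c`'s
-/

set_option autoImplicit false

noncomputable section

open MeasureTheory Complex Set Filter
open scoped ComplexConjugate ContDiff Classical

namespace Crest.Agent.R017.L747

open Crest.Agent.R012 Crest.Agent.R012.Eis
open Crest.Agent.R012.Weight600 (osc norm_osc ker ker_deriv norm_ker_le inversion_smooth)
open Crest.Agent.R017.End699 Crest.Agent.R017.B770 Crest.Agent.R017.FE47 Crest.Agent.R017.Sx545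
open Crest.Agent.R017.Sx440

/-- `e^{-2u}` times the cutoff -/
def w2 (R u : ℝ) : ℂ := ((Real.exp (-(2 * u)) : ℝ) : ℂ) * ct R u

lemma cd_w2 (R : ℝ) : ContDiff ℝ ∞ (w2 R) := by
  unfold w2
  refine ContDiff.mul ?_ (cd_ct R)
  exact Complex.ofRealCLM.contDiff.comp (Real.contDiff_exp.comp (by fun_prop))

lemma cs_w2 {R : ℝ} (hR : 0 ≤ R) : HasCompactSupport (w2 R) := (cs_ct hR).mul_left

/-- the double sum after separation -/
def EE {ι : Type} (S : Finset ι) (al : ι → ℂ) (c : ι → Eis) (M : Eis) (χ : Eis → ℂ) (j : ℤ)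
    (w : ℝ → ℂ) (ka ta tc : ℝ) (f : Eis → ℂ) (V : ℝ → ℂ) (B : ℝ) : ℂ :=
  ∑ p ∈ S, al p * osc tc (Real.log (nm (c p))) *
    ∑' a : Eis, End699.ext (fun a => twt χ j ta a * w (Real.log (nm a) - ka)) a * sy a (c p) *
      Psi' M f a V B

lemma ext_ne {χ : Eis → ℂ} {a : Eis} (h : End699.ext χ a ≠ 0) : IsPrim a ∧ χ a ≠ 0 := by
  unfold End699.ext at h
  split_ifs at h with h1
  · exact ⟨h1, h⟩
  · exact absurd rfl h

lemma log_le_of {a : Eis} (ha : IsPrim a) {x : ℝ} {N : ℕ} (hN : Real.exp x < N + 1)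
    (h : Real.log (nm a) ≤ x) : a ∈ ball N := by
  rw [mem_ball]
  have h1 : (0 : ℝ) < nm a := by have := one_le_nm ha; linarith
  have h2 : (nm a : ℝ) ≤ Real.exp x := (Real.log_le_iff_le_exp h1).mp h
  have h3 : (nm a : ℝ) < N + 1 := by linarith
  have h4 : nm a < N + 1 := by exact_mod_cast h3
  omega

lemma EE_eq {ι : Type} (S : Finset ι) (al : ι → ℂ) (c : ι → Eis) (M : Eis) (χ : Eis → ℂ) (j : ℤ)
    {R : ℝ} (hR : 0 ≤ R) (ka ta tc : ℝ) (f : Eis → ℂ) (V : ℝ → ℂ) (B : ℝ) {N : ℕ}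
    (hN : Real.exp (ka + (R + 2)) < N + 1) :
    EE S al c M χ j (w2 R) ka ta tc f V B = ∑ x ∈ ball N ×ˢ S,
      al x.2 * osc tc (Real.log (nm (c x.2))) *
        (End699.ext (fun a => twt χ j ta a * w2 R (Real.log (nm a) - ka)) x.1 * sy x.1 (c x.2) *
      Psi' M f x.1 V B) := by
  unfold EE
  rw [Finset.sum_product_right]
  refine Finset.sum_congr rfl fun p _ => ?_
  rw [tsum_eq_sum (s := ball N), Finset.mul_sum]
  intro a ha
  by_contra hne
  have h1 := ext_ne (left_ne_zero_of_mul (left_ne_zero_of_mul hne))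
  have h2 : ct R (Real.log (nm a) - ka) ≠ 0 := by
    intro h3; apply h1.2; unfold w2; rw [h3]; ring
  have h3 := (abs_le.mp (ct_ne hR h2)).2
  exact ha (log_le_of h1.1 hN (by linarith))

/-- the condition of the support of `W0` -/
lemma W0_supp {V om : ℝ → ℂ} {RV Ro R₀ : ℝ} (hRV : ∀ y, V y ≠ 0 → 0 < y ∧ |Real.log y| ≤ RV)
    (hRo : ∀ y, om y ≠ 0 → 0 < y ∧ |Real.log y| ≤ Ro) {X : ℝ} (hX : 0 < X) {a c : Eis}
    (ha : a ≠ 0) (hc : c ≠ 0) {gam : ℝ} (hg : |Real.log (nm c) - gam| ≤ R₀) {y : ℝ}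
    (h : W0 V om X a c y ≠ 0) : |Real.log (nm a) - (gam - Real.log X)| ≤ RV + Ro + R₀ := by
  have h1 : (0 : ℝ) < nm a := by exact_mod_cast nm_pos.mpr ha
  have h2 : (0 : ℝ) < nm c := by exact_mod_cast nm_pos.mpr hc
  obtain ⟨hy, hly⟩ := hRV y (W0_ne h)
  have h3 : om (X * nm a / (nm c * y)) ≠ 0 := by
    intro h0; apply h; unfold W0; rw [h0]; ring
  have h4 := (hRo _ h3).2
  rw [Real.log_div (by positivity) (by positivity), Real.log_mul hX.ne' h1.ne',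
    Real.log_mul h2.ne' hy.ne'] at h4
  have e1 := abs_le.mp h4
  have e2 := abs_le.mp hly
  have e3 := abs_le.mp hg
  rw [abs_le]
  constructor <;> linarith [e1.1, e1.2, e2.1, e2.2, e3.1, e3.2]

lemma Psi_zero {M : Eis} {ξ f : Eis → ℂ} {a : Eis} {V : ℝ → ℂ} (h : ∀ y, V y = 0) (Q : ℝ) :
    Psi M ξ f a V Q = 0 := by
  unfold Psi
  simp [h]

/-- the coefficient of `a` -/
def ca (m₀ : Eis) (R ka : ℝ) (c a : Eis) : ℂ :=
  End699.ext (fun a => sy a m₀) a * sy a c * ct R (Real.log (nm a) - ka)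

lemma ca_ne {m₀ : Eis} {R ka : ℝ} (hR : 0 ≤ R) {c a : Eis} (h : ca m₀ R ka c a ≠ 0) :
    IsPrim a ∧ sy a m₀ ≠ 0 ∧ |Real.log (nm a) - ka| ≤ R + 2 := by
  unfold ca at h
  have h1 := ext_ne (left_ne_zero_of_mul (left_ne_zero_of_mul h))
  exact ⟨h1.1, h1.2, ct_ne hR (right_ne_zero_of_mul h)⟩

lemma Rad0.sm {M m₀ : Eis} (h : Rad0 M m₀) {a : Eis} (ha : IsPrim a) (h0 : sy a m₀ ≠ 0) :
    Sm M a := by
  refine ⟨ha, ?_⟩
  have h1 : IsCoprime a m₀ := by
    by_contra hc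
    apply h0
    exact (Gauss880.isCh_sy Gauss880.syG h.prim).zero a hc
  refine isCoprime_of_prime_dvd (fun hh => ha.ne_zero hh.1) fun p hp hpa hpM => ?_
  have h2 := (h.iff p hp).mpr hpM
  rcases hp.dvd_or_dvd h2 with h3 | h3
  · have h4 : IsCoprime a (3 : Eis) := ha.isCoprime_three
    exact hp.not_isUnit (h4.isUnit_of_dvd' hpa h3)
  · exact hp.not_isUnit (h1.isUnit_of_dvd' hpa h3)

/-- insertion of the cutoff in the `a`-sum -/
lemma DA_eq {V om : ℝ → ℂ} {RV Ro R₀ : ℝ}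
    (hRV : ∀ y, V y ≠ 0 → 0 < y ∧ |Real.log y| ≤ RV)
    (hRo : ∀ y, om y ≠ 0 → 0 < y ∧ |Real.log y| ≤ Ro) {X : ℝ} (hX : 0 < X) {c : Eis}
    (hc : c ≠ 0) {gam : ℝ} (hg : |Real.log (nm c) - gam| ≤ R₀) (M m₀ : Eis) (ξ f : Eis → ℂ)
    (Q : ℝ) {N : ℕ} (hN : Real.exp (gam - Real.log X + (RV + Ro + R₀ + 2)) < N + 1) :
    ∑' a : Eis, End699.ext (fun a => sy a m₀) a * sy a c * Psi M ξ f a (W0 V om X a c) Q =
      ∑ a ∈ ball N, ca m₀ (RV + Ro + R₀) (gam - Real.log X) c a *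
        Psi M ξ f a (W0 V om X a c) Q := by
  have key : ∀ a : Eis, IsPrim a → RV + Ro + R₀ < |Real.log (nm a) - (gam - Real.log X)| →
      Psi M ξ f a (W0 V om X a c) Q = 0 := by
    intro a ha h
    refine Psi_zero (fun y => ?_) Q
    by_contra hne
    exact absurd (W0_supp hRV hRo hX ha.ne_zero hc hg hne) (not_le.mpr h)
  rw [tsum_eq_sum (s := ball N)]
  · refine Finset.sum_congr rfl fun a _ => ?_
    by_cases hp : IsPrim a
    · by_cases hle : |Real.log (nm a) - (gam - Real.log X)| ≤ RV + Ro + R₀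
      · unfold ca; rw [ct_one hle, mul_one]
      · rw [key a hp (not_le.mp hle), mul_zero, mul_zero]
    · unfold ca End699.ext; simp [hp]
  · intro a ha
    by_contra hne
    have h1 := ext_ne (left_ne_zero_of_mul (left_ne_zero_of_mul hne))
    have h2 : |Real.log (nm a) - (gam - Real.log X)| ≤ RV + Ro + R₀ := by
      by_contra hh
      exact right_ne_zero_of_mul hne (key a h1.1 (not_le.mp hh))
    exact ha (log_le_of h1.1 hN (by linarith [(abs_le.mp h2).2]))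

lemma osc_split {X : ℝ} (hX : 0 < X) {a c : Eis} (ha : a ≠ 0) (hc : c ≠ 0) (t : ℝ) :
    osc t (Real.log (X * nm a / nm c)) =
      osc t (Real.log X) * (osc (-t) (Real.log (nm c)) * osc t (Real.log (nm a))) := by
  have h1 : (0 : ℝ) < nm a := by exact_mod_cast nm_pos.mpr ha
  have h2 : (0 : ℝ) < nm c := by exact_mod_cast nm_pos.mpr hc
  rw [Real.log_div (by positivity) h2.ne', Real.log_mul hX.ne' h1.ne', Weight600.osc_sub_right,
    Weight600.osc_add_right, Weight600.osc_neg_left]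
  ring

/-- **(7.1) + (7.2)**, identity. -/
theorem dual_identity {M m₀ : Eis} {ψ : Eis → ℂ} {l : ℤ} {F : FData} {V om : ℝ → ℂ}
    (hV : SW V) (hom : SW om) (hq : ∀ j, 0 < F.qL j) {RV Ro R₀ : ℝ} (h0 : 0 ≤ RV + Ro + R₀)
    (hRV : ∀ y, V y ≠ 0 → 0 < y ∧ |Real.log y| ≤ RV)
    (hRo : ∀ y, om y ≠ 0 → 0 < y ∧ |Real.log y| ≤ Ro)
    {ι : Type} (S : Finset ι) (al : ι → ℂ) (c : ι → Eis) {gam X Q : ℝ} (hX : 0 < X) (hQ : 0 < Q)
    (hS : ∀ p ∈ S, al p ≠ 0 → c p ≠ 0 ∧ |Real.log (nm (c p)) - gam| ≤ R₀)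
    {N : ℕ} (hN : Real.exp (gam - Real.log X + (RV + Ro + R₀ + 2)) < N + 1) :
    ∑ j, F.cL j * ∑ p ∈ S, al p * ∑' a : Eis, End699.ext (fun a => sy a m₀) a * sy a (c p) *
      Psi M F.ξ (tw ψ l) a (W0 V om X a (c p)) (Q / F.qL j) =
    ∫ t : ℝ, ker (lg om) t * osc t (Real.log X) * ∑ x ∈ ball N ×ˢ S,
      al x.2 * osc (-t) (Real.log (nm (c x.2))) *
        (ca m₀ (RV + Ro + R₀) (gam - Real.log X) (c x.2) x.1 * osc t (Real.log (nm x.1)) *
          ∑ j, F.cL j * Psi M F.ξ (tw ψ l) x.1 (Vx V (-t)) (Q / F.qL j)) := by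
  set R := RV + Ro + R₀
  set ka := gam - Real.log X
  -- integrals for one pair
  have hpair : ∀ x ∈ ball N ×ˢ S, ∀ j,
      (Integrable fun t : ℝ => ker (lg om) t * osc t (Real.log X) *
        (al x.2 * osc (-t) (Real.log (nm (c x.2))) * (ca m₀ R ka (c x.2) x.1 *
          osc t (Real.log (nm x.1)) *
          (F.cL j * Psi M F.ξ (tw ψ l) x.1 (Vx V (-t)) (Q / F.qL j))))) ∧
      F.cL j * (al x.2 * (ca m₀ R ka (c x.2) x.1 *
        Psi M F.ξ (tw ψ l) x.1 (W0 V om X x.1 (c x.2)) (Q / F.qL j))) =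
      ∫ t : ℝ, ker (lg om) t * osc t (Real.log X) *
        (al x.2 * osc (-t) (Real.log (nm (c x.2))) * (ca m₀ R ka (c x.2) x.1 *
          osc t (Real.log (nm x.1)) *
          (F.cL j * Psi M F.ξ (tw ψ l) x.1 (Vx V (-t)) (Q / F.qL j)))) := by
    intro x hx j
    by_cases hal : al x.2 = 0
    · simp [hal]
    by_cases hca : ca m₀ R ka (c x.2) x.1 = 0
    · simp [hca]
    have hc := (hS x.2 (Finset.mem_product.mp hx).2 hal).1
    have ha := (ca_ne h0 hca).1.ne_zero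
    have h5 := Psi_W0 hV hom hX M F.ξ (tw ψ l) ha hc (Q := Q / F.qL j) (div_pos hQ (hq j))
    have e : ∀ t : ℝ, ker (lg om) t * osc t (Real.log X) *
        (al x.2 * osc (-t) (Real.log (nm (c x.2))) * (ca m₀ R ka (c x.2) x.1 *
          osc t (Real.log (nm x.1)) *
          (F.cL j * Psi M F.ξ (tw ψ l) x.1 (Vx V (-t)) (Q / F.qL j)))) =
        (F.cL j * (al x.2 * ca m₀ R ka (c x.2) x.1)) *
          (ker (lg om) t * osc t (Real.log (X * nm x.1 / nm (c x.2))) *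
            Psi M F.ξ (tw ψ l) x.1 (Vx V (-t)) (Q / F.qL j)) := by
      intro t
      rw [osc_split hX ha hc]; ring
    refine ⟨(h5.1.const_mul _).congr (Eventually.of_forall fun t => (e t).symm), ?_⟩
    rw [integral_congr_ae (Eventually.of_forall e), integral_const_mul, ← h5.2]
    ring
  have e1 : ∀ t : ℝ, ker (lg om) t * osc t (Real.log X) * ∑ x ∈ ball N ×ˢ S,
      al x.2 * osc (-t) (Real.log (nm (c x.2))) *
        (ca m₀ R ka (c x.2) x.1 * osc t (Real.log (nm x.1)) *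
          ∑ j, F.cL j * Psi M F.ξ (tw ψ l) x.1 (Vx V (-t)) (Q / F.qL j)) =
      ∑ x ∈ ball N ×ˢ S, ∑ j, ker (lg om) t * osc t (Real.log X) *
        (al x.2 * osc (-t) (Real.log (nm (c x.2))) * (ca m₀ R ka (c x.2) x.1 *
          osc t (Real.log (nm x.1)) *
          (F.cL j * Psi M F.ξ (tw ψ l) x.1 (Vx V (-t)) (Q / F.qL j)))) := by
    intro t
    rw [Finset.mul_sum]
    refine Finset.sum_congr rfl fun x _ => ?_
    rw [Finset.mul_sum, Finset.mul_sum, Finset.mul_sum]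
  rw [integral_congr_ae (Eventually.of_forall e1),
    integral_finsetSum _ fun x hx => integrable_finsetSum _ fun j _ => (hpair x hx j).1,
    Finset.sum_congr rfl fun x hx => integral_finsetSum _ fun j _ => (hpair x hx j).1,
    Finset.sum_congr rfl fun x hx => Finset.sum_congr rfl fun j _ => ((hpair x hx j).2).symm,
    Finset.sum_comm]
  refine Finset.sum_congr rfl fun j _ => ?_
  rw [Finset.sum_product_right, Finset.mul_sum]
  refine Finset.sum_congr rfl fun p hp => ?_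
  by_cases hal : al p = 0
  · simp [hal]
  · obtain ⟨hc, hg⟩ := hS p hp hal
    rw [DA_eq hRV hRo hX hc hg M m₀ F.ξ (tw ψ l) (Q / F.qL j) hN, Finset.mul_sum,
      Finset.mul_sum]

lemma co_eq {m₀ : Eis} {η : Eis → ℂ} {j : ℤ} {R ka t t' : ℝ} (a c : Eis) (u v P : ℂ) :
    u * v * (ca m₀ R ka c a * osc t (Real.log (nm a))) * ((((nm a : ℝ) ^ 2)⁻¹ : ℝ) : ℂ) *
        tw η j a * (osc (-(4 * t')) (Real.log (nm a)) * P) =
      ((Real.exp (-(2 * ka)) : ℝ) : ℂ) * (u * v *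
        (End699.ext (fun a => twt (fun a => sy a m₀ * η a) j (t - 4 * t') a *
          w2 R (Real.log (nm a) - ka)) a * sy a c * P)) := by
  by_cases hp : IsPrim a
  · have h1 : (0 : ℝ) < nm a := by have := one_le_nm hp; linarith
    unfold ca End699.ext
    rw [if_pos hp, if_pos hp]
    unfold twt End699.tw w2
    beta_reduce
    rw [osc_log hp.ne_zero]
    have h2 : osc (t - 4 * t') (Real.log (nm a)) =
        osc t (Real.log (nm a)) * osc (-(4 * t')) (Real.log (nm a)) := by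
      rw [← Weight600.osc_add_left]; congr 1
    have h3 : Real.exp (-(2 * (Real.log (nm a) - ka))) =
        ((nm a : ℝ) ^ 2)⁻¹ * Real.exp (2 * ka) := by
      rw [show -(2 * (Real.log (nm a) - ka)) = -(Real.log (nm a) * 2) + 2 * ka by ring,
        Real.exp_add, Real.exp_neg]
      congr 2
      rw [mul_comm, ← Nat.cast_ofNat (R := ℝ) (n := 2), Real.exp_nat_mul, Real.exp_log h1]
    have h4 : Real.exp (-(2 * ka)) * Real.exp (2 * ka) = 1 := by
      rw [← Real.exp_add]; simp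
    have h5 : ((Real.exp (-(2 * ka)) : ℝ) : ℂ) * ((Real.exp (2 * ka) : ℝ) : ℂ) = 1 := by
      rw [← Complex.ofReal_mul, h4, Complex.ofReal_one]
    rw [h2, h3]
    push_cast
    push_cast at h5
    linear_combination (-(u * v * (sy a m₀ * sy a c * ct R (Real.log (nm a) - ka)) *
      osc t (Real.log (nm a)) * ((nm a : ℂ) ^ 2)⁻¹ * (η a * ang j a) *
      osc (-(4 * t')) (Real.log (nm a)) * P)) * h5
  · unfold ca End699.ext
    simp [hp]

lemma rpow_le_T {t A B : ℝ} (h : A ≤ B) : (1 + |t|) ^ A ≤ (1 + |t|) ^ B :=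
  Real.rpow_le_rpow_of_exponent_le (one_le_T t) h

/-- **(7.1) + (7.2) + (7.3)**: the dual form is bounded by the separated double sums. -/
theorem dual_bound {M m₀ : Eis} {ψ : Eis → ℂ} {l : ℤ} {F : FData} (hOK : F.OK M)
    (hFE : FE M ψ l F) (h2 : (2 : Eis) ∣ M) (hm : Rad0 M m₀) {V om : ℝ → ℂ} (hV : SW V)
    (hom : SW om) {R₀ : ℝ} (hR₀ : 0 ≤ R₀) :
    ∃ R : ℝ, 0 ≤ R ∧ ∀ N J : ℕ, ∃ C : ℝ, 0 ≤ C ∧ ∀ {ι : Type} (S : Finset ι) (al : ι → ℂ)
      (c : ι → Eis) (gam X Q : ℝ), 0 < X → 0 < Q →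
      (∀ p ∈ S, al p ≠ 0 → c p ≠ 0 ∧ |Real.log (nm (c p)) - gam| ≤ R₀) →
      ∀ B : Fin F.n → ℕ → ℝ,
      (∀ i, Summable fun n : ℕ =>
        Real.exp (-(N * |n - 4 * (gam - Real.log X) + Real.log (Q / F.ρ i)|)) * B i n) →
      (∀ i (n : ℕ) (t t' : ℝ), ‖EE S al c M (fun a => sy a m₀ * F.η i a) F.j (w2 R)
        (gam - Real.log X) (t - 4 * t') (-t) (twt (F.ψ' i) F.l' t') V00 (Real.exp n)‖ ≤
          (1 + |t|) ^ J * (1 + |t'|) ^ J * B i n) →
      ‖∑ j, F.cL j * ∑ p ∈ S, al p * ∑' a : Eis, End699.ext (fun a => sy a m₀) a * sy a (c p) *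
        Psi M F.ξ (tw ψ l) a (W0 V om X a (c p)) (Q / F.qL j)‖ ≤
        C * (Q * Real.exp (-(2 * (gam - Real.log X)))) * ∑ i, ∑' n : ℕ,
          Real.exp (-(N * |n - 4 * (gam - Real.log X) + Real.log (Q / F.ρ i)|)) * B i n := by
  obtain ⟨RV, hRV0, hRV⟩ := SW.bound hV
  obtain ⟨Ro, hRo0, hRo⟩ := SW.bound hom
  have h0 : 0 ≤ RV + Ro + R₀ := by linarith
  refine ⟨RV + Ro + R₀, h0, fun N J => ?_⟩
  obtain ⟨W, hW, hWe⟩ := hFE (hf V) (SW.hf hV)
  choose C1 A1 hC1 hA1 hfam using fun i : Fin F.n =>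
    family_sep h2 (hW i) (R := RV + Ro + R₀ + 2) (by linarith) (hOK.ρ i) N J
  set A := ∑ i, A1 i with hA
  have hA0 : 0 ≤ A := Finset.sum_nonneg fun i _ => hA1 i
  have hAi : ∀ i, A1 i ≤ A := fun i => Finset.single_le_sum (fun i _ => hA1 i) (Finset.mem_univ i)
  set k := ⌈A⌉₊ + J + 2
  obtain ⟨Cg, hCg, hg⟩ := Weight600.ker_decay (SW.cd_lg hom) (SW.cs_lg hom) k
  set C2 := ∑ i, ‖F.κ i‖ * C1 i with hC2
  have hC20 : 0 ≤ C2 := Finset.sum_nonneg fun i _ => mul_nonneg (norm_nonneg _) (hC1 i)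
  have hC2i : ∀ i, ‖F.κ i‖ * C1 i ≤ C2 := fun i =>
    Finset.single_le_sum (f := fun i => ‖F.κ i‖ * C1 i)
      (fun i _ => mul_nonneg (norm_nonneg _) (hC1 i)) (Finset.mem_univ i)
  have hwt : Integrable (fun t : ℝ => ((1 + |t|) ^ 2)⁻¹) := integrable_wt le_rfl
  have hwt0 : 0 ≤ ∫ t : ℝ, ((1 + |t|) ^ 2)⁻¹ := integral_nonneg fun t => by positivity
  refine ⟨Cg * C2 * ∫ t : ℝ, ((1 + |t|) ^ 2)⁻¹, by positivity, ?_⟩
  intro ι S al c gam X Q hX hQ hS B hB hbd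
  obtain ⟨NN, hNN⟩ : ∃ N : ℕ, Real.exp (gam - Real.log X + (RV + Ro + R₀ + 2)) < N + 1 :=
    ⟨_, Nat.lt_floor_add_one _⟩
  rw [dual_identity hV hom (fun j => lt_of_lt_of_le one_pos (hOK.qL j)) h0 hRV hRo S al c hX hQ
    hS hNN]
  set R := RV + Ro + R₀
  set ka := gam - Real.log X
  set D : Fin F.n → ℝ := fun i => ∑' n : ℕ,
    Real.exp (-(N * |n - 4 * ka + Real.log (Q / F.ρ i)|)) * B i n with hD
  have hBn : ∀ i n, 0 ≤ B i n := by
    intro i n
    have := (norm_nonneg _).trans (hbd i n 0 0)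
    simpa using this
  have hD0 : ∀ i, 0 ≤ D i := fun i => tsum_nonneg fun n => mul_nonneg (Real.exp_pos _).le (hBn i n)
  have hpt : ∀ t : ℝ, ‖∑ x ∈ ball NN ×ˢ S,
      al x.2 * osc (-t) (Real.log (nm (c x.2))) *
        (ca m₀ R ka (c x.2) x.1 * osc t (Real.log (nm x.1)) *
          ∑ j, F.cL j * Psi M F.ξ (tw ψ l) x.1 (Vx V (-t)) (Q / F.qL j))‖ ≤
      (C2 * (Q * Real.exp (-(2 * ka))) * ∑ i, D i) * ((1 + |t|) ^ A * (1 + |t|) ^ J) := by
    intro t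
    have e1 : ∀ x ∈ ball NN ×ˢ S, al x.2 * osc (-t) (Real.log (nm (c x.2))) *
        (ca m₀ R ka (c x.2) x.1 * osc t (Real.log (nm x.1)) *
          ∑ j, F.cL j * Psi M F.ξ (tw ψ l) x.1 (Vx V (-t)) (Q / F.qL j)) =
        ∑ i, ((Q : ℂ) * F.κ i) * ((al x.2 * osc (-t) (Real.log (nm (c x.2))) *
          (ca m₀ R ka (c x.2) x.1 * osc t (Real.log (nm x.1))) *
            ((((nm x.1 : ℝ) ^ 2)⁻¹ : ℝ) : ℂ) * tw (F.η i) F.j x.1) *
          Psi' M (tw (F.ψ' i) F.l') x.1 (W i (-t)) (F.ρ i * (nm x.1 : ℝ) ^ 4 / Q)) := by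
      intro x _
      by_cases hca : ca m₀ R ka (c x.2) x.1 = 0
      · simp [hca]
      · obtain ⟨hp, h3, -⟩ := ca_ne h0 hca
        have h5 := hWe x.1 (Rad0.sm hm hp h3) Q hQ (-t)
        have h6 : (∑ j, F.cL j * Psi M F.ξ (tw ψ l) x.1 (Vx V (-t)) (Q / F.qL j)) =
          ((Q / (nm x.1 : ℝ) ^ 2 : ℝ) : ℂ) * ∑ i, F.κ i * tw (F.η i) F.j x.1 *
          Psi' M (tw (F.ψ' i) F.l') x.1 (W i (-t)) (F.ρ i * (nm x.1 : ℝ) ^ 4 / Q) := h5
        rw [h6, Finset.mul_sum, Finset.mul_sum, Finset.mul_sum]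
        refine Finset.sum_congr rfl fun i _ => ?_
        push_cast
        ring
    rw [Finset.sum_congr rfl e1, Finset.sum_comm]
    have e2 : ∀ i, ‖∑ x ∈ ball NN ×ˢ S, ((Q : ℂ) * F.κ i) *
        ((al x.2 * osc (-t) (Real.log (nm (c x.2))) *
          (ca m₀ R ka (c x.2) x.1 * osc t (Real.log (nm x.1))) *
            ((((nm x.1 : ℝ) ^ 2)⁻¹ : ℝ) : ℂ) * tw (F.η i) F.j x.1) *
          Psi' M (tw (F.ψ' i) F.l') x.1 (W i (-t)) (F.ρ i * (nm x.1 : ℝ) ^ 4 / Q))‖ ≤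
        C2 * (Q * Real.exp (-(2 * ka))) * D i * ((1 + |t|) ^ A * (1 + |t|) ^ J) := by
      intro i
      rw [← Finset.mul_sum, norm_mul, norm_mul, Complex.norm_real, Real.norm_of_nonneg hQ.le]
      have h7 := hfam i (tw (F.ψ' i) F.l') (fun b hb => ((hOK.ψ' i).isChar_tw F.l').norm_le hb.prim)
        (ball NN ×ˢ S) (fun x => al x.2 * osc (-t) (Real.log (nm (c x.2))) *
          (ca m₀ R ka (c x.2) x.1 * osc t (Real.log (nm x.1))) *
            ((((nm x.1 : ℝ) ^ 2)⁻¹ : ℝ) : ℂ) * tw (F.η i) F.j x.1) Prod.fst ka Q hQ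
        (fun x _ hx => by
          have h8 : ca m₀ R ka (c x.2) x.1 ≠ 0 := by
            intro h9; apply hx; simp [h9]
          obtain ⟨h9, -, h10⟩ := ca_ne h0 h8
          exact ⟨h9.ne_zero, h10⟩) (-t)
        (fun n => Real.exp (-(2 * ka)) * (1 + |t|) ^ J * B i n)
        (((hB i).mul_left (Real.exp (-(2 * ka)) * (1 + |t|) ^ J)).congr fun n => by ring)
        (fun n t' => by
          rw [Finset.sum_congr rfl fun x _ => co_eq (t := t) (t' := t') x.1 (c x.2) (al x.2) _ _,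
            ← Finset.mul_sum, norm_mul, Complex.norm_real, Real.norm_of_nonneg (Real.exp_pos _).le,
            ← EE_eq S al c M (fun a => sy a m₀ * F.η i a) F.j h0 ka (t - 4 * t') (-t)
              (nt (tw (F.ψ' i) F.l') t') V00 (Real.exp n) hNN]
          calc Real.exp (-(2 * ka)) * ‖EE S al c M (fun a => sy a m₀ * F.η i a) F.j (w2 R) ka
                (t - 4 * t') (-t) (nt (tw (F.ψ' i) F.l') t') V00 (Real.exp n)‖
              ≤ Real.exp (-(2 * ka)) * ((1 + |t|) ^ J * (1 + |t'|) ^ J * B i n) := by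
                gcongr
                exact hbd i n t t'
            _ = _ := by ring)
      have h8 : ∑' n : ℕ, Real.exp (-(N * |n - 4 * ka + Real.log (Q / F.ρ i)|)) *
          (Real.exp (-(2 * ka)) * (1 + |t|) ^ J * B i n) =
          Real.exp (-(2 * ka)) * (1 + |t|) ^ J * D i := by
        rw [hD, ← tsum_mul_left]
        exact tsum_congr fun n => by ring
      rw [h8, abs_neg] at h7
      calc Q * ‖F.κ i‖ * _ ≤ Q * ‖F.κ i‖ * (C1 i * (1 + |t|) ^ A1 i *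
            (Real.exp (-(2 * ka)) * (1 + |t|) ^ J * D i)) := by gcongr
        _ = (‖F.κ i‖ * C1 i) * (Q * Real.exp (-(2 * ka))) * D i *
            ((1 + |t|) ^ A1 i * (1 + |t|) ^ J) := by ring
        _ ≤ C2 * (Q * Real.exp (-(2 * ka))) * D i * ((1 + |t|) ^ A * (1 + |t|) ^ J) := by
            have := hD0 i
            gcongr ?_ * _ * _ * (?_ * _)
            · exact hC2i i
            · exact rpow_le_T (hAi i)
    calc _ ≤ ∑ i, C2 * (Q * Real.exp (-(2 * ka))) * D i * ((1 + |t|) ^ A * (1 + |t|) ^ J) :=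
          (norm_sum_le _ _).trans (Finset.sum_le_sum fun i _ => e2 i)
      _ = _ := by rw [← Finset.sum_mul, ← Finset.mul_sum]
  have hfin : ∀ t : ℝ, ‖ker (lg om) t * osc t (Real.log X) * ∑ x ∈ ball NN ×ˢ S,
      al x.2 * osc (-t) (Real.log (nm (c x.2))) *
        (ca m₀ R ka (c x.2) x.1 * osc t (Real.log (nm x.1)) *
          ∑ j, F.cL j * Psi M F.ξ (tw ψ l) x.1 (Vx V (-t)) (Q / F.qL j))‖ ≤
      (Cg * (C2 * (Q * Real.exp (-(2 * ka))) * ∑ i, D i)) * ((1 + |t|) ^ 2)⁻¹ := by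
    intro t
    rw [norm_mul, norm_mul, norm_osc, mul_one]
    have hT : 0 < 1 + |t| := by positivity
    have hgt := hg t
    have h9 : (1 + |t|) ^ A * (1 + |t|) ^ J ≤ (1 + |t|) ^ k * ((1 + |t|) ^ 2)⁻¹ := by
      have h10 : (1 + |t|) ^ A ≤ (1 + |t|) ^ ⌈A⌉₊ := by
        rw [← Real.rpow_natCast (1 + |t|) ⌈A⌉₊]
        exact rpow_le_T (Nat.le_ceil A)
      have h11 : (1 + |t|) ^ k * ((1 + |t|) ^ 2)⁻¹ = (1 + |t|) ^ ⌈A⌉₊ * (1 + |t|) ^ J := by
        simp only [k, pow_add]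
        field_simp
      rw [h11]
      gcongr
    have hDs : 0 ≤ ∑ i, D i := Finset.sum_nonneg fun i _ => hD0 i
    calc ‖ker (lg om) t‖ * _ ≤ ‖ker (lg om) t‖ * ((C2 * (Q * Real.exp (-(2 * ka))) * ∑ i, D i) *
          ((1 + |t|) ^ k * ((1 + |t|) ^ 2)⁻¹)) := by
          gcongr
          exact (hpt t).trans (by gcongr)
      _ = (‖ker (lg om) t‖ * (1 + |t|) ^ k) * ((C2 * (Q * Real.exp (-(2 * ka))) * ∑ i, D i) *
          ((1 + |t|) ^ 2)⁻¹) := by ring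
      _ ≤ Cg * ((C2 * (Q * Real.exp (-(2 * ka))) * ∑ i, D i) * ((1 + |t|) ^ 2)⁻¹) := by
          gcongr
      _ = _ := by ring
  refine (norm_integral_le_of_norm_le (hwt.const_mul _) (Eventually.of_forall hfin)).trans
    (le_of_eq ?_)
  rw [integral_const_mul]
  ring

end Crest.Agent.R017.L747
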