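import Crest.Agent.R017.L7F_47

/-!
# Row 17, section B, L7 (part G): numerical bounds
-/

set_option autoImplicit false

noncomputable section

open MeasureTheory Complex Set Filter
open scoped ComplexConjugate ContDiff Classical

namespace Crest.Agent.R017.L747

open Crest.Agent.R012 Crest.Agent.R012.Eis
open Crest.Agent.R017.B770

/-- the kernel weight -/
def kw (A : ℕ) (s : ℝ) (m : ℕ) : ℝ := ((1 + Real.exp (m + s)) ^ A)⁻¹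

lemma kw_nonneg (A : ℕ) (s : ℝ) (m : ℕ) : 0 ≤ kw A s m := by unfold kw; positivity

/-- a power of `H = e^m` against the kernel weight -/
lemma pow_sum {A : ℕ} {α : ℝ} (h0 : 0 < α) (h1 : α + 1 ≤ A) : ∃ B : ℝ, 0 ≤ B ∧
    ∀ s K : ℝ, 0 < K → Summable (fun m : ℕ => kw A s m * (Real.exp m / K) ^ α) ∧
    ∑' m : ℕ, kw A s m * (Real.exp m / K) ^ α ≤ B * (Real.exp (-s) / K) ^ α := by
  obtain ⟨B, hB, hsum⟩ := msum h0 h1
  refine ⟨B, hB, fun s K hK => ?_⟩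
  have e1 : ∀ m : ℕ, kw A s m * (Real.exp m / K) ^ α =
      (K ^ α)⁻¹ * (((1 + Real.exp (m + s)) ^ A)⁻¹ * Real.exp (α * m)) := by
    intro m
    unfold kw
    rw [Real.div_rpow (Real.exp_pos _).le hK.le, ← Real.exp_mul, mul_comm (m : ℝ) α]
    field_simp
  have hs := (hsum s).1.mul_left (K ^ α)⁻¹
  refine ⟨hs.congr fun m => (e1 m).symm, ?_⟩
  rw [tsum_congr e1, tsum_mul_left]
  calc (K ^ α)⁻¹ * ∑' m : ℕ, ((1 + Real.exp (m + s)) ^ A)⁻¹ * Real.exp (α * m)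
      ≤ (K ^ α)⁻¹ * (B * Real.exp (-(α * s))) := by
        gcongr
        exact (hsum s).2
    _ = B * (Real.exp (-s) / K) ^ α := by
        rw [Real.div_rpow (Real.exp_pos _).le hK.le, ← Real.exp_mul,
          show -s * α = -(α * s) by ring]
        field_simp

/-- the sum of the target over the scales of `k` -/
theorem tgb_sum {A : ℕ} (hA : 3 ≤ A) {θ σ d η' C₃ : ℝ} (hθ : 5 / 6 ≤ θ) (hd : 0 ≤ d)
    (hC₃ : 0 < C₃) : ∃ C : ℝ, 0 ≤ C ∧ ∀ Q b s : ℝ, 1 ≤ Q → 0 < b → b ≤ 1 →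
      Real.exp (-s) = C₃ * b * Q ^ (1 / 2 + σ + d) →
      Summable (fun m : ℕ => kw A s m * TgB θ η' η' σ Q (b * Q) (Real.exp m) (Q ^ σ)) ∧
      ∑' m : ℕ, kw A s m * TgB θ η' η' σ Q (b * Q) (Real.exp m) (Q ^ σ) ≤
        C * (Q ^ ((1 / 2 + σ) / 3 + σ + θ - η' + d) * b) := by
  have hA' : (3 : ℝ) ≤ A := by exact_mod_cast hA
  obtain ⟨B1, hB1, hs1⟩ := pow_sum (A := A) (α := 1) (by norm_num) (by linarith)
  obtain ⟨B2, hB2, hs2⟩ := pow_sum (A := A) (α := 1 / 2) (by norm_num) (by linarith)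
  obtain ⟨B3, hB3, hs3⟩ := pow_sum (A := A) (α := 1 / 6) (by norm_num) (by linarith)
  refine ⟨B1 * C₃ + B2 * C₃ ^ (1 / 2 : ℝ) + B3 * C₃ ^ (1 / 6 : ℝ), by positivity, ?_⟩
  intro Q b s hQ hb hb1 hs
  have hQ0 : 0 < Q := by linarith
  set K := Q ^ (1 / 2 + σ) with hK
  have hK0 : 0 < K := Real.rpow_pos_of_pos hQ0 _
  set P := Q ^ ((1 / 2 + σ) / 3 + σ + θ) * Q ^ (-η') with hP
  have hP0 : 0 ≤ P := by positivity
  obtain ⟨t1, u1⟩ := hs1 s K hK0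
  obtain ⟨t2, u2⟩ := hs2 s K hK0
  obtain ⟨t3, u3⟩ := hs3 s K hK0
  have e1 : ∀ m : ℕ, kw A s m * TgB θ η' η' σ Q (b * Q) (Real.exp m) (Q ^ σ) =
      P * (b ^ (1 / 2 : ℝ) * (kw A s m * (Real.exp m / K) ^ (1 : ℝ)) +
        b ^ (3 / 4 : ℝ) * (kw A s m * (Real.exp m / K) ^ (1 / 2 : ℝ)) +
        b ^ θ * (kw A s m * (Real.exp m / K) ^ (1 / 6 : ℝ))) := by
    intro m
    unfold TgB
    have h1 : b * Q / Q = b := by field_simp
    have h2 : Q ^ σ / Q ^ σ = 1 := div_self (Real.rpow_pos_of_pos hQ0 _).ne'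
    rw [h1, h2, Real.one_rpow, Real.one_rpow, Real.one_rpow, Real.rpow_one]
    ring
  have hsum := (((t1.mul_left (b ^ (1 / 2 : ℝ))).add (t2.mul_left (b ^ (3 / 4 : ℝ)))).add
    (t3.mul_left (b ^ θ))).mul_left P
  refine ⟨hsum.congr fun m => (e1 m).symm, ?_⟩
  rw [tsum_congr e1, tsum_mul_left, ((t1.mul_left (b ^ (1 / 2 : ℝ))).add
    (t2.mul_left (b ^ (3 / 4 : ℝ)))).tsum_add (t3.mul_left (b ^ θ)),
    (t1.mul_left (b ^ (1 / 2 : ℝ))).tsum_add (t2.mul_left (b ^ (3 / 4 : ℝ))),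
    tsum_mul_left, tsum_mul_left, tsum_mul_left]
  have hz : Real.exp (-s) / K = C₃ * b * Q ^ d := by
    rw [hs, hK, show (1 : ℝ) / 2 + σ + d = (1 / 2 + σ) + d by ring, Real.rpow_add hQ0]
    field_simp
  rw [hz] at u1 u2 u3
  have hQd : 1 ≤ Q ^ d := Real.one_le_rpow hQ hd
  have pw : ∀ α x : ℝ, 0 < α → α ≤ 1 → 1 ≤ α + x →
      b ^ x * (C₃ * b * Q ^ d) ^ α ≤ C₃ ^ α * (Q ^ d * b) := by
    intro α x hα hα1 hx
    have h1 : (Q ^ d) ^ α ≤ Q ^ d := by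
      calc (Q ^ d) ^ α ≤ (Q ^ d) ^ (1 : ℝ) := Real.rpow_le_rpow_of_exponent_le hQd hα1
        _ = Q ^ d := Real.rpow_one _
    have h2 : b ^ x * b ^ α ≤ b := by
      rw [← Real.rpow_add hb]
      calc b ^ (x + α) ≤ b ^ (1 : ℝ) :=
            Real.rpow_le_rpow_of_exponent_ge hb hb1 (by linarith)
        _ = b := Real.rpow_one _
    rw [Real.mul_rpow (by positivity) (by positivity), Real.mul_rpow hC₃.le hb.le]
    calc b ^ x * (C₃ ^ α * b ^ α * (Q ^ d) ^ α) = C₃ ^ α * ((Q ^ d) ^ α * (b ^ x * b ^ α)) := by ring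
      _ ≤ C₃ ^ α * (Q ^ d * b) := by gcongr
  have p1 := pw 1 (1 / 2) (by norm_num) (by norm_num) (by norm_num)
  have p2 := pw (1 / 2) (3 / 4) (by norm_num) (by norm_num) (by norm_num)
  have p3 := pw (1 / 6) θ (by norm_num) (by norm_num) (by linarith)
  rw [Real.rpow_one C₃] at p1
  calc _ ≤ P * (b ^ (1 / 2 : ℝ) * (B1 * (C₃ * b * Q ^ d) ^ (1 : ℝ)) +
        b ^ (3 / 4 : ℝ) * (B2 * (C₃ * b * Q ^ d) ^ (1 / 2 : ℝ)) +
        b ^ θ * (B3 * (C₃ * b * Q ^ d) ^ (1 / 6 : ℝ))) := by gcongr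
    _ = P * (B1 * (b ^ (1 / 2 : ℝ) * (C₃ * b * Q ^ d) ^ (1 : ℝ)) +
        B2 * (b ^ (3 / 4 : ℝ) * (C₃ * b * Q ^ d) ^ (1 / 2 : ℝ)) +
        B3 * (b ^ θ * (C₃ * b * Q ^ d) ^ (1 / 6 : ℝ))) := by ring
    _ ≤ P * (B1 * (C₃ * (Q ^ d * b)) + B2 * (C₃ ^ (1 / 2 : ℝ) * (Q ^ d * b)) +
        B3 * (C₃ ^ (1 / 6 : ℝ) * (Q ^ d * b))) := by gcongr
    _ = (B1 * C₃ + B2 * C₃ ^ (1 / 2 : ℝ) + B3 * C₃ ^ (1 / 6 : ℝ)) * (P * Q ^ d * b) := by ring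
    _ = _ := by
        rw [hP, ← Real.rpow_add hQ0, ← Real.rpow_add hQ0]
        ring_nf

/-- the crude sum over the scales of `k` -/
theorem crude_sum {A : ℕ} (hA : 3 ≤ A) : ∃ C : ℝ, 0 ≤ C ∧ ∀ s H₁ : ℝ, 0 < H₁ →
      Summable (fun m : ℕ => kw A s m * (Real.exp m * (Real.exp m / H₁) ^ ((A : ℝ) - 2))) ∧
      ∑' m : ℕ, kw A s m * (Real.exp m * (Real.exp m / H₁) ^ ((A : ℝ) - 2)) ≤
        C * (H₁ * (Real.exp (-s) / H₁) ^ ((A : ℝ) - 1)) := by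
  have hA' : (3 : ℝ) ≤ A := by exact_mod_cast hA
  obtain ⟨B1, hB1, hs1⟩ := pow_sum (A := A) (α := (A : ℝ) - 1) (by linarith) (by linarith)
  refine ⟨B1, hB1, fun s H₁ hH => ?_⟩
  obtain ⟨t1, u1⟩ := hs1 s H₁ hH
  have e1 : ∀ m : ℕ, kw A s m * (Real.exp m * (Real.exp m / H₁) ^ ((A : ℝ) - 2)) =
      H₁ * (kw A s m * (Real.exp m / H₁) ^ ((A : ℝ) - 1)) := by
    intro m
    have h1 : 0 < Real.exp m / H₁ := by positivity
    have h2 : (Real.exp m / H₁) ^ ((A : ℝ) - 1) =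
        (Real.exp m / H₁) ^ ((A : ℝ) - 2) * (Real.exp m / H₁) := by
      rw [← Real.rpow_add_one h1.ne']; congr 1; ring
    rw [h2]
    field_simp
  refine ⟨(t1.mul_left H₁).congr fun m => (e1 m).symm, ?_⟩
  rw [tsum_congr e1, tsum_mul_left]
  calc H₁ * _ ≤ H₁ * (B1 * (Real.exp (-s) / H₁) ^ ((A : ℝ) - 1)) := by gcongr
    _ = _ := by ring

end Crest.Agent.R017.L747
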