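import Crest.Agent.R017.L7c_858
import Crest.Agent.R017.BDefs3_770

/-!
# Row 17, section B, leaf L7 (version 3 of the interface): the amplifier `c₀ p₁ ⋯ p_r`
-/

set_option autoImplicit false

noncomputable section

open Complex MeasureTheory
open scoped ComplexConjugate SchwartzMap ContDiff

namespace Crest.Agent.R017.L7858

open Crest.Agent.R012 Crest.Agent.R012.Eis Crest.Agent.R012.Mob705 Crest.Agent.R012.Gauss880
open Crest.Agent.R012.Po581 Crest.Agent.R012.Div277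
open Crest.Agent.R012.Weight600 (osc norm_osc)
open Crest.Agent.R017.End699
open Crest.Agent.R017.FE47 Crest.Agent.R017.Sx440 Crest.Agent.R017.Sx545 Crest.Agent.R017.B770
open Crest.Agent.R017.PT858 NatZ571 Crest.Agent.R017.Asm986

/-! ### (d) the value at `k = 0` -/

/-- `k = 0` does not contribute if `j ≠ 0` -/
theorem fC_gt_zero (w : ℝ → ℂ) {j : ℤ} (hj : j ≠ 0) (t : ℝ) : fC (gt w j t) 0 = 0 := by
  -- choose `ζ` of modulus one with `ζ ^ (-j) ≠ 1`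
  obtain ⟨ζ, hζ1, hζ2⟩ : ∃ ζ : ℂ, ‖ζ‖ = 1 ∧ ζ ^ (-j) ≠ 1 := by
    refine ⟨cexp (((1 : ℝ) : ℂ) * I), Complex.norm_exp_ofReal_mul_I 1, ?_⟩
    rw [← Complex.exp_int_mul]
    intro h
    rw [Complex.exp_eq_one_iff] at h
    obtain ⟨n, hn⟩ := h
    have h1 : ((-j : ℤ) : ℂ) * I = ((n : ℂ) * (2 * Real.pi)) * I := by
      have : ((-j : ℤ) : ℂ) * (((1 : ℝ) : ℂ) * I) = ((-j : ℤ) : ℂ) * I := by push_cast; ring
      rw [← this, hn]; ring
    have h2 : ((-j : ℤ) : ℂ) = (n : ℂ) * (2 * Real.pi) := mul_right_cancel₀ Complex.I_ne_zero h1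
    have h3 : ((-j : ℤ) : ℝ) = (n : ℝ) * (2 * Real.pi) := by exact_mod_cast h2
    have hn0 : n ≠ 0 := by
      rintro rfl
      simp at h3
      exact hj h3
    have hirr : Irrational Real.pi := irrational_pi
    apply hirr
    refine ⟨((-j : ℤ) : ℚ) / (2 * n), ?_⟩
    push_cast
    push_cast at h3
    have : (n : ℝ) ≠ 0 := by exact_mod_cast hn0
    field_simp
    linarith
  have h := fC_rot (l := j) (fun ζ hζ z => gt_rot w j t hζ z) hζ1 0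
  rw [mul_zero] at h
  by_contra hne
  apply hζ2
  exact (mul_right_cancel₀ hne (by rw [one_mul]; exact h)).symm

/-! ### the index set -/

/-- the index set -/
def SS (r : ℕ) (y Q₀ κ₀ : ℝ) (M : Eis) :
    Finset (Eis × (∀ _ : (Finset.univ : Finset (Fin r)), Eis)) :=
  sqS M κ₀ ×ˢ tup r y Q₀ Finset.univ

/-- the amplifier variable -/
def cS (r : ℕ) (x : Eis × (∀ _ : (Finset.univ : Finset (Fin r)), Eis)) : Eis := x.1 * ∏ i, x.2 i

/-- the product of the weights -/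
def hS (h₀ h : ℝ → ℂ) (r : ℕ) (y Q₀ κ₀ : ℝ)
    (x : Eis × (∀ _ : (Finset.univ : Finset (Fin r)), Eis)) : ℂ :=
  h₀ (Real.log (nm x.1) - κ₀) *
    ∏ i : (Finset.univ : Finset (Fin r)), h (Real.log (nm (x.2 i)) - kap r y Q₀ i)

/-- the amplifier weights -/
def alS (h₀ h : ℝ → ℂ) (r : ℕ) (y Q₀ κ₀ : ℝ) (φ : Eis → ℂ) (lc : ℤ) (tc : ℝ)
    (x : Eis × (∀ _ : (Finset.univ : Finset (Fin r)), Eis)) : ℂ :=
  hS h₀ h r y Q₀ κ₀ x * (twt φ lc tc (cS r x) * ((Real.sqrt (nm (cS r x)))⁻¹ : ℝ))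

lemma mem_sqS {M c : Eis} {κ : ℝ} :
    c ∈ sqS M κ ↔ nm c ≤ ⌊Real.exp (κ + 1)⌋₊ ∧ IsPrim c ∧ Squarefree c ∧ IsCoprime c M := by
  classical
  unfold sqS sqB
  rw [Finset.mem_filter, Finset.mem_filter, mem_primBall]
  tauto

lemma mem_SS {r : ℕ} {y Q₀ κ₀ : ℝ} {M : Eis}
    {x : Eis × (∀ _ : (Finset.univ : Finset (Fin r)), Eis)} (hx : x ∈ SS r y Q₀ κ₀ M) :
    x.1 ∈ sqS M κ₀ ∧ x.2 ∈ tup r y Q₀ Finset.univ := Finset.mem_product.mp hx

lemma isPrim_cS {r : ℕ} {y Q₀ κ₀ : ℝ} {M : Eis}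
    {x : Eis × (∀ _ : (Finset.univ : Finset (Fin r)), Eis)} (hx : x ∈ SS r y Q₀ κ₀ M) :
    IsPrim (cS r x) := by
  obtain ⟨h1, h2⟩ := mem_SS hx
  exact (mem_sqS.mp h1).2.1.mul (isPrim_prod h2)

/-! ### (b) -/

/-- lower bound for the amplifier primes -/
lemma nm_lt_prime {h : ℝ → ℂ} (hh : HW h) {r : ℕ} {y Q₀ X : ℝ} (hQ₀ : 1 ≤ Q₀) (hX : 0 < X)
    (hXQ : X * 9 < Q₀ ^ (y / r)) {J : Finset (Fin r)} {p : ∀ _ : J, Eis} (hp : p ∈ tup r y Q₀ J)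
    (hne : ∏ i : J, h (Real.log (nm (p i)) - kap r y Q₀ i) ≠ 0) (i : J) :
    X * 3 < nm (p i) := by
  have hmem : p i ∈ prS (kap r y Q₀ i) := by
    unfold tup at hp
    exact Fintype.mem_piFinset.mp hp i
  have hpr : Prime (p i) := (NatZ571.mem_prS.mp hmem).2
  have hh0 : |Real.log (nm (p i)) - kap r y Q₀ i| ≤ 1 :=
    hh.supp _ (Finset.prod_ne_zero_iff.mp hne i (Finset.mem_univ i))
  have hQ0 : 0 < Q₀ := by linarith
  have h4 := (abs_le.mp hh0).1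
  have h5 : kap r y Q₀ i = y / r * Real.log Q₀ + 3 * (((i : Fin r) : ℕ) : ℝ) := rfl
  have h6 : Real.log (X * 9) < y / r * Real.log Q₀ := by
    rw [← Real.log_rpow hQ0]
    exact Real.log_lt_log (by positivity) hXQ
  have h7 : Real.log 3 + 1 < Real.log 9 := by
    have e1 : Real.log 9 = Real.log 3 + Real.log 3 := by
      rw [← Real.log_mul (by norm_num) (by norm_num)]; norm_num
    have e2 : 1 < Real.log 3 := by
      rw [Real.lt_log_iff_exp_lt (by norm_num)]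
      linarith [Real.exp_one_lt_d9]
    linarith
  have h8 : (0 : ℝ) ≤ (((i : Fin r) : ℕ) : ℝ) := Nat.cast_nonneg _
  rw [Real.log_mul hX.ne' (by norm_num)] at h6
  have h9 : Real.log (X * 3) < Real.log (nm (p i)) := by
    rw [Real.log_mul hX.ne' (by norm_num)]
    linarith
  exact (Real.log_lt_log_iff (by positivity) (nm_pos' hpr.ne_zero)).mp h9

theorem goodS {M M' : Eis} (h2M : (2 : Eis) ∣ M) (hM0 : M ≠ 0)
    (hrad : ∀ p : Eis, Prime p → p ∣ M' → p ∣ M) {h₀ h : ℝ → ℂ} (hh : HW h)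
    {r : ℕ} {y Q₀ κ₀ : ℝ} (hQ₀ : 1 ≤ Q₀) (hκ₀ : 0 ≤ κ₀)
    (hMQ : (nm M : ℝ) * Real.exp κ₀ * 9 < Q₀ ^ (y / r)) (φ : Eis → ℂ) (lc : ℤ) (tc : ℝ) :
    Good (SS r y Q₀ κ₀ M) (alS h₀ h r y Q₀ κ₀ φ lc tc) (cS r) M' := by
  classical
  intro x hx hne
  obtain ⟨h1, h2⟩ := mem_SS hx
  obtain ⟨c1, c2, c3, c4⟩ := mem_sqS.mp h1
  have hH : ∏ i : (Finset.univ : Finset (Fin r)), h (Real.log (nm (x.2 i)) - kap r y Q₀ i) ≠ 0 := by
    unfold alS hS at hne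
    exact right_ne_zero_of_mul (left_ne_zero_of_mul hne)
  have hM1 : (1 : ℝ) ≤ nm M := by exact_mod_cast nm_pos.mpr hM0
  have he1 : 1 ≤ Real.exp κ₀ := Real.one_le_exp hκ₀
  have hX0 : 0 < (nm M : ℝ) * Real.exp κ₀ := by positivity
  have hbig := fun i => nm_lt_prime hh hQ₀ hX0 hMQ h2 hH i
  have hMQ' : (nm M : ℝ) < Q₀ ^ (y / r) / 9 := by
    have : (nm M : ℝ) * 1 ≤ nm M * Real.exp κ₀ := mul_le_mul_of_nonneg_left he1 (by linarith)
    linarith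
  obtain ⟨g1, g2⟩ := prod_good_M h2M hM0 hrad hh hQ₀ hMQ' h2 hH
  -- `c₀` is prime to the amplifier primes
  have hcop : IsCoprime x.1 (∏ i, x.2 i) := by
    refine IsCoprime.prod_right fun i _ => ?_
    have hmem : x.2 i ∈ prS (kap r y Q₀ i) := by
      unfold tup at h2
      exact Fintype.mem_piFinset.mp h2 i
    have hpr : Prime (x.2 i) := (NatZ571.mem_prS.mp hmem).2
    rw [isCoprime_comm, hpr.irreducible.coprime_iff_not_dvd]
    intro hd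
    have h3 : (nm (x.2 i) : ℝ) ≤ nm x.1 := by exact_mod_cast nm_le_of_dvd c2.ne_zero hd
    have h4 : (nm x.1 : ℝ) ≤ Real.exp (κ₀ + 1) :=
      (Nat.cast_le.mpr c1).trans (Nat.floor_le (Real.exp_pos _).le)
    have h5 := hbig i
    have h6 : Real.exp (κ₀ + 1) < Real.exp κ₀ * 3 := by
      rw [Real.exp_add]
      exact mul_lt_mul_of_pos_left (by linarith [Real.exp_one_lt_d9]) (Real.exp_pos _)
    have h7 : Real.exp κ₀ * 3 ≤ nm M * Real.exp κ₀ * 3 := by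
      nlinarith [Real.exp_pos κ₀]
    linarith
  have hc0 : Sm M' x.1 := sm_of_rad hrad ⟨c2, c4⟩
  unfold cS
  refine ⟨hc0.mul g1, ?_⟩
  exact (squarefree_mul_iff.mpr ⟨hcop.isRelPrime, c3, g2⟩)

/-! ### (c) -/

theorem logS {M : Eis} {h₀ h : ℝ → ℂ} (hh₀ : HW h₀) (hh : HW h) {r : ℕ} {y Q₀ κ₀ : ℝ}
    {x : Eis × (∀ _ : (Finset.univ : Finset (Fin r)), Eis)} (hx : x ∈ SS r y Q₀ κ₀ M)
    (hne : hS h₀ h r y Q₀ κ₀ x ≠ 0) :
    |Real.log (nm (cS r x)) - (gam r y Q₀ + κ₀)| ≤ (r : ℝ) + 1 := by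
  obtain ⟨h1, h2⟩ := mem_SS hx
  obtain ⟨c1, c2, c3, c4⟩ := mem_sqS.mp h1
  unfold hS at hne
  have e1 := hh₀.supp _ (left_ne_zero_of_mul hne)
  have e2 := log_range hh h2 (right_ne_zero_of_mul hne)
  have hp := isPrim_prod h2
  unfold cS
  rw [nm_mul, Nat.cast_mul, Real.log_mul (nm_pos' c2.ne_zero).ne' (nm_pos' hp.ne_zero).ne']
  calc |Real.log (nm x.1) + Real.log (nm (∏ i, x.2 i)) - (gam r y Q₀ + κ₀)|
      = |(Real.log (nm (∏ i, x.2 i)) - gam r y Q₀) + (Real.log (nm x.1) - κ₀)| := by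
        congr 1; ring
    _ ≤ |Real.log (nm (∏ i, x.2 i)) - gam r y Q₀| + |Real.log (nm x.1) - κ₀| := abs_add_le _ _
    _ ≤ r + 1 := by linarith

/-! ### (a) -/

/-- one term of the transformed sum -/
theorem term_id {M' : Eis} {χ ψ φ : Eis → ℂ} (hχ : HC M' χ) {V : ℝ → ℂ} {B : ℝ} (hB : 0 < B)
    (j l lc : ℤ) (tb tc s γ : ℝ) (k : Eis) (H : ℂ) {b c : Eis} (hbp : IsPrim b) (hcp : IsPrim c) :
    H * (twt φ lc tc c * ((Real.sqrt (nm c))⁻¹ : ℝ)) * cg M' χ (twt ψ l tb) V B b c * tk k b c *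
      (ang j b * ang j c * (osc (-s) (Real.log (nm b)) * osc (-s) (Real.log (nm c)))) =
      (((Real.sqrt B)⁻¹ * Real.exp (-γ) : ℝ) : ℂ) *
        ((((Real.exp γ / nm c : ℝ) : ℂ) * H) * twt (phiD M' χ φ) (lc + j) (tc - s) c *
          (twt (psiD M' χ ψ) (l + j) (tb - s) b * tk k b c * vH V (nm b / B))) := by
  have nb := nm_pos' hbp.ne_zero
  have nc := nm_pos' hcp.ne_zero
  have sb := Real.sqrt_pos.mpr nb
  have sc := Real.sqrt_pos.mpr nc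
  have sB := Real.sqrt_pos.mpr hB
  have k1 : twt (psiD M' χ ψ) (l + j) (tb - s) b =
      twt ψ l tb b * (χ b * conj (sy (M' * Po581.sq3) b)) * ang j b * osc (-s) (Real.log (nm b)) := by
    rw [twt_split hbp.ne_zero]
    unfold twt End699.tw psiD
    ring
  have k2 : twt (phiD M' χ φ) (lc + j) (tc - s) c =
      twt φ lc tc c * (χ c * sy (M' * Po581.sq3) c) * ang j c * osc (-s) (Real.log (nm c)) := by
    rw [twt_split hcp.ne_zero]
    unfold twt End699.tw phiD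
    ring
  have k3 : vH V (nm b / B) = ((Real.sqrt B / Real.sqrt (nm b) : ℝ) : ℂ) * V (nm b / B) := by
    unfold vH
    congr 2
    rw [Real.rpow_neg (by positivity), ← Real.sqrt_eq_rpow, Real.sqrt_div nb.le, inv_div]
  rw [k1, k2, k3]
  unfold cg
  rw [hχ.char.mul b c hbp hcp, Real.sqrt_mul nb.le]
  have m3 : ((Real.sqrt B : ℝ) : ℂ) ≠ 0 := by exact_mod_cast sB.ne'
  have m4 : ((nm c : ℝ) : ℂ) = ((Real.sqrt (nm c) : ℝ) : ℂ) * ((Real.sqrt (nm c) : ℝ) : ℂ) := by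
    rw [← Complex.ofReal_mul, Real.mul_self_sqrt nc.le]
  have m5 : (Real.exp (-γ) : ℂ) * (Real.exp γ : ℂ) = 1 := by
    rw [← Complex.ofReal_mul, ← Real.exp_add]; simp
  have key := alg_id (Hp := H) (F := twt φ lc tc c) (Ψ := twt ψ l tb b)
    (Vv := V (nm b / B)) (χb := χ b) (χc := χ c) (s1 := sy (M' * Po581.sq3) c)
    (s2 := conj (sy (M' * Po581.sq3) b)) (T := tk k b c) (a1 := ang j b) (a2 := ang j c)
    (o1 := osc (-s) (Real.log (nm b))) (o2 := osc (-s) (Real.log (nm c)))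
    (Sb := ((Real.sqrt (nm b) : ℝ) : ℂ)) m3 m4 m5
  simp only [Complex.ofReal_mul, Complex.ofReal_inv, Complex.ofReal_div] at key ⊢
  exact key

/-- coprimality to `M` and to `9 M'` -/
lemma sm_nine_iff {M M' : Eis} (h3 : (3 : Eis) ∣ M) (hMM : M ∣ M')
    (hrad : ∀ p : Eis, Prime p → p ∣ M' → p ∣ M) {b : Eis} (hb : IsPrim b) :
    IsCoprime b M ↔ IsCoprime b (9 * M') := by
  constructor
  · intro h
    have h1 : IsCoprime b M' := (sm_of_rad hrad ⟨hb, h⟩).2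
    have h2 : IsCoprime b (3 : Eis) := h.of_isCoprime_of_dvd_right h3
    have h9 : (9 : Eis) = 3 * 3 := by norm_num
    rw [h9]
    exact (h2.mul_right h2).mul_right h1
  · intro h
    exact h.of_isCoprime_of_dvd_right (hMM.trans (dvd_mul_left _ _))

lemma sqS_nine {M M' : Eis} (h3 : (3 : Eis) ∣ M) (hMM : M ∣ M')
    (hrad : ∀ p : Eis, Prime p → p ∣ M' → p ∣ M) (κ : ℝ) : sqS (9 * M') κ = sqS M κ := by
  ext c
  rw [mem_sqS, mem_sqS]
  constructor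
  · rintro ⟨a1, a2, a3, a4⟩
    exact ⟨a1, a2, a3, (sm_nine_iff h3 hMM hrad a2).mpr a4⟩
  · rintro ⟨a1, a2, a3, a4⟩
    exact ⟨a1, a2, a3, (sm_nine_iff h3 hMM hrad a2).mp a4⟩

lemma FB_nine {M M' : Eis} (h3 : (3 : Eis) ∣ M) (hMM : M ∣ M')
    (hrad : ∀ p : Eis, Prime p → p ∣ M' → p ∣ M) (N : ℕ) : FB (9 * M') N = FB M N := by
  ext c
  rw [mem_FB, mem_FB]
  constructor
  · rintro ⟨a1, a2, a3⟩
    exact ⟨a1, a2, (sm_nine_iff h3 hMM hrad a2).mpr a3⟩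
  · rintro ⟨a1, a2, a3⟩
    exact ⟨a1, a2, (sm_nine_iff h3 hMM hrad a2).mp a3⟩

lemma hS_hE (h₀ h : ℝ → ℂ) {r : ℕ} {y Q₀ κ₀ : ℝ} {M : Eis}
    {x : Eis × (∀ _ : (Finset.univ : Finset (Fin r)), Eis)} (hx : x ∈ SS r y Q₀ κ₀ M) :
    hS (hE h₀) (hE h) r y Q₀ κ₀ x =
      ((Real.exp (gam r y Q₀ + κ₀) / nm (cS r x) : ℝ) : ℂ) * hS h₀ h r y Q₀ κ₀ x := by
  obtain ⟨h1, h2⟩ := mem_SS hx
  obtain ⟨c1, c2, c3, c4⟩ := mem_sqS.mp h1
  have hp := isPrim_prod h2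
  have hp0 : ∀ i, x.2 i ≠ 0 := fun i h0 => hp.ne_zero (Finset.prod_eq_zero (Finset.mem_univ i) h0)
  have hn := nm_pos' c2.ne_zero
  unfold hS
  rw [prod_hE h hp0]
  have e1 : hE h₀ (Real.log (nm x.1) - κ₀) =
      ((Real.exp κ₀ / nm x.1 : ℝ) : ℂ) * h₀ (Real.log (nm x.1) - κ₀) := by
    unfold hE
    congr 2
    rw [neg_sub, Real.exp_sub, Real.exp_log hn]
  rw [e1]
  unfold cS
  rw [nm_mul, Real.exp_add]
  push_cast
  have n1 : (nm x.1 : ℂ) ≠ 0 := by exact_mod_cast hn.ne'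
  have n2 : (nm (∏ i, x.2 i) : ℂ) ≠ 0 := by exact_mod_cast (nm_pos' hp.ne_zero).ne'
  field_simp

/-- **identification of the transformed sum with the natural sum** (version 3) -/
theorem Dk_eqS (h₀ h : ℝ → ℂ) {V : ℝ → ℂ} {R : ℝ} (hR : ∀ x, V x ≠ 0 → x ≤ R) (r : ℕ)
    (j l lc : ℤ) {M M' : Eis} (h3 : (3 : Eis) ∣ M) (hMM : M ∣ M')
    (hrad : ∀ p : Eis, Prime p → p ∣ M' → p ∣ M) {χ ψ φ : Eis → ℂ} (hχ : HC M' χ)
    (y Q₀ κ₀ : ℝ) {B : ℝ} (hB : 0 < B) (tb tc s : ℝ) (k : Eis) :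
    Dk (SS r y Q₀ κ₀ M) (alS h₀ h r y Q₀ κ₀ φ lc tc) (cS r) M M' χ (twt ψ l tb) V ⌊R * B⌋₊ B
      j s k =
      (((Real.sqrt B)⁻¹ * Real.exp (-(gam r y Q₀ + κ₀)) : ℝ) : ℂ) *
        NSumS (hE h₀) (hE h) r y Q₀ κ₀ Finset.univ (9 * M') (twt (psiD M' χ ψ) (l + j) (tb - s))
          (twt (phiD M' χ φ) (lc + j) (tc - s)) (vH V) B k := by
  classical
  have e0 : NSumS (hE h₀) (hE h) r y Q₀ κ₀ Finset.univ (9 * M')
      (twt (psiD M' χ ψ) (l + j) (tb - s)) (twt (phiD M' χ φ) (lc + j) (tc - s)) (vH V) B k =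
      ∑ x ∈ SS r y Q₀ κ₀ M, hS (hE h₀) (hE h) r y Q₀ κ₀ x *
        twt (phiD M' χ φ) (lc + j) (tc - s) (cS r x) *
        ∑ b ∈ FB M ⌊R * B⌋₊, twt (psiD M' χ ψ) (l + j) (tb - s) b * tk k b (cS r x) *
          vH V (nm b / B) := by
    unfold NSumS SS
    rw [sqS_nine h3 hMM hrad, Finset.sum_product]
    refine Finset.sum_congr rfl fun c₀ _ => ?_
    rw [Finset.mul_sum]
    refine Finset.sum_congr rfl fun p _ => ?_
    have e1 := tsum_Sm (V := V) hR (9 * M')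
      (fun b => twt (psiD M' χ ψ) (l + j) (tb - s) b * tk k b (c₀ * ∏ i, p i)) hB
      (vH V) (fun x hx => by unfold vH; rw [hx, mul_zero])
    have e2 : (∑' b : Eis, if Sm (9 * M') b then twt (psiD M' χ ψ) (l + j) (tb - s) b *
        tk k b (c₀ * ∏ i, p i) * vH V (nm b / B) else 0) = ∑ b ∈ FB (9 * M') ⌊R * B⌋₊,
        twt (psiD M' χ ψ) (l + j) (tb - s) b * tk k b (c₀ * ∏ i, p i) * vH V (nm b / B) := e1
    rw [e2, FB_nine h3 hMM hrad]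
    unfold hS cS
    ring
  rw [e0]
  unfold Dk alS
  rw [Finset.mul_sum]
  refine Finset.sum_congr rfl fun x hx => ?_
  have hcp := isPrim_cS hx
  rw [hS_hE h₀ h hx, Finset.mul_sum, Finset.mul_sum]
  refine Finset.sum_congr rfl fun b hb => ?_
  have hbp := (mem_FB.mp hb).2.1
  exact term_id hχ hB j l lc tb tc s (gam r y Q₀ + κ₀) k (hS h₀ h r y Q₀ κ₀ x) hbp hcp

end Crest.Agent.R017.L7858
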