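import Crest.Agent.R017.L7G_47
import Crest.Agent.R017.L7d_858

/-!
# Row 17, section B, L7 (part H): the separated double sums through the natural sums
-/

set_option autoImplicit false

noncomputable section

open MeasureTheory Complex Set Filter
open scoped ComplexConjugate ContDiff Classical

namespace Crest.Agent.R017.L747

open Crest.Agent.R012 Crest.Agent.R012.Eis
open Crest.Agent.R012.Weight600 (osc norm_osc)
open Crest.Agent.R017.End699 Crest.Agent.R017.B770 Crest.Agent.R017.FE47 Crest.Agent.R017.Sx545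
open Crest.Agent.R017.Sx440 Crest.Agent.R017.Asm986 Crest.Agent.R017.L7858

/-- the support radius of `V00` -/
lemma V00_log {x : ℝ} (h : V00 x ≠ 0) : |Real.log x| ≤ 3 / 2 := by
  unfold V00 ev at h
  split_ifs at h with h0
  · refine h00_ne ?_
    intro h2; apply h; unfold cx; rw [h2]; simp
  · exact absurd rfl h

lemma h00_ne' (u : ℝ) (h : h00 u ≠ 0) : |u| ≤ 3 / 2 := h00_ne h

/-- **norm bound for the separated sums** -/
theorem gs_le {w : ℝ → ℂ} (w1 : ContDiff ℝ ∞ w) (w2 : HasCompactSupport w) (Rc : ℝ) {j : ℤ}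
    (hj : j ≠ 0) (A J₁ : ℕ) :
    ∃ (C : ℝ) (J : ℕ), 0 ≤ C ∧ ∀ {ι : Type} (I : Finset ι) (α : ι → ℂ) (c : ι → Eis)
      (M M' : Eis), (2 : Eis) ∣ M → M ∣ M' → (∀ p : Eis, Prime p → p ∣ M' → p ∣ M) →
      ∀ χ f : Eis → ℂ, HC M' χ → Good I α c M' → ∀ γ : ℝ,
      (∀ i ∈ I, α i ≠ 0 → |Real.log (nm (c i)) - γ| ≤ Rc) → ∀ κ t B : ℝ, 0 < B →
      ∀ (β : ℕ → ℝ) (T : ℝ),
      (∀ (m : ℕ) (s : ℝ), ‖blk h00 1 (3 / 2) I α c M M' χ f V00 ⌊Real.exp (3 / 2) * B⌋₊ B γ j m s‖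
        ≤ β m * T * (1 + |s|) ^ J₁) →
      (Summable fun m : ℕ => kw A (-Real.log B - γ + κ - Real.log (3 * nm M')) m * β m) →
      ‖GS I α c M χ f j w V00 κ t B‖ ≤ C * (1 + |t|) ^ J * T * (Real.exp κ *
        ∑' m : ℕ, kw A (-Real.log B - γ + κ - Real.log (3 * nm M')) m * β m) := by
  obtain ⟨C, J, hC, H⟩ := GS_signed pu0 h00_ne' w1 w2 (V := V00) (R := Real.exp (3 / 2))
    (Rb := 3 / 2) (fun x hx => V00_le hx) (fun x hx => V00_log hx) Rc j A (J₁ + 2)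
  have hwt : Integrable (fun t : ℝ => ((1 + |t|) ^ 2)⁻¹) := integrable_wt le_rfl
  set I2 := ∫ t : ℝ, ((1 + |t|) ^ 2)⁻¹ with hI2
  have hI0 : 0 ≤ I2 := integral_nonneg fun t => by positivity
  refine ⟨2 * C * I2, J, by positivity, ?_⟩
  intro ι I α c M M' h2 hMM hrad χ f hχ hgood γ hγ κ t B hB β T hblk hsum
  obtain ⟨ker, k1, k2, k3, k4, k5⟩ := H I α c M M' h2 hMM hrad χ f hχ hgood γ hγ κ t B hB
  have hM' : (1 : ℝ) ≤ nm M' := by exact_mod_cast nm_pos.mpr hχ.q0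
  set s0 := -Real.log B - γ + κ - Real.log (3 * nm M') with hs0
  have hm : ∀ m : ℕ, ‖∫ s, ker m s * blk h00 1 (3 / 2) I α c M M' χ f V00
      ⌊Real.exp (3 / 2) * B⌋₊ B γ j m s‖ ≤ (C * (1 + |t|) ^ J * T * I2) * (kw A s0 m * β m) := by
    intro m
    have hle : ∀ s : ℝ, ‖ker m s * blk h00 1 (3 / 2) I α c M M' χ f V00
        ⌊Real.exp (3 / 2) * B⌋₊ B γ j m s‖ ≤
        (C * (1 + |t|) ^ J * T * (kw A s0 m * β m)) * ((1 + |s|) ^ 2)⁻¹ := by
      intro s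
      rw [norm_mul]
      have h3 := k3 m s
      have e3 : (1 : ℝ) * (m : ℝ) - Real.log B - γ + κ - Real.log (3 * nm M') = m + s0 := by
        rw [hs0]; ring
      rw [e3] at h3
      have h4 := hblk m s
      have hT : 0 < 1 + |s| := by positivity
      calc ‖ker m s‖ * _ ≤ (C * (1 + |t|) ^ J * ((1 + Real.exp (m + s0)) ^ A)⁻¹ *
            ((1 + |s|) ^ (J₁ + 2))⁻¹) * (β m * T * (1 + |s|) ^ J₁) := by gcongr
        _ = _ := by
            unfold kw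
            rw [pow_add]
            field_simp
    refine (norm_integral_le_of_norm_le (hwt.const_mul _) (Eventually.of_forall hle)).trans
      (le_of_eq ?_)
    rw [integral_const_mul]
    ring
  have hts : ‖∑' m : ℕ, ∫ s, ker m s * blk h00 1 (3 / 2) I α c M M' χ f V00
      ⌊Real.exp (3 / 2) * B⌋₊ B γ j m s‖ ≤ (C * (1 + |t|) ^ J * T * I2) *
        ∑' m : ℕ, kw A s0 m * β m :=
    tsum_of_norm_bounded (hsum.hasSum.mul_left _) hm
  have hu : ‖(Po581.iS3 / (‖Po581.iS3‖ : ℂ)) ^ j * ang j M'‖ ≤ 1 := by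
    rw [norm_mul]
    have h1 : ‖(Po581.iS3 / (‖Po581.iS3‖ : ℂ)) ^ j‖ ≤ 1 := by
      rw [norm_zpow, norm_div, Complex.norm_real, norm_norm]
      by_cases h0 : ‖Po581.iS3‖ = 0
      · rw [h0, div_zero]
        rcases eq_or_ne j 0 with h | h
        · rw [h]; simp
        · rw [zero_zpow j h]; exact zero_le_one
      · rw [div_self h0, one_zpow]
    have h2 : ‖ang j M'‖ = 1 := Tk545.norm_ang j hχ.q0
    rw [h2, mul_one]
    exact h1
  rw [k5, fC_gt_zero w hj t, mul_zero, zero_mul, zero_add, norm_mul, norm_mul, norm_mul, norm_osc,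
    one_mul, Complex.norm_real, Complex.norm_real, Real.norm_of_nonneg (Real.exp_pos κ).le,
    Real.norm_of_nonneg (by positivity), norm_mul]
  have h2 : 2 / (Real.sqrt 3 * nm M') ≤ 2 := by
    have h3 : (1 : ℝ) ≤ Real.sqrt 3 := by
      rw [Real.one_le_sqrt]; norm_num
    rw [div_le_iff₀ (by positivity)]
    nlinarith
  calc 2 / (Real.sqrt 3 * nm M') * Real.exp κ * (‖(Po581.iS3 / (‖Po581.iS3‖ : ℂ)) ^ j * ang j M'‖ * _)
      ≤ 2 * Real.exp κ * (1 * ((C * (1 + |t|) ^ J * T * I2) * ∑' m : ℕ, kw A s0 m * β m)) := by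
        gcongr
    _ = _ := by ring

lemma V00_eq {k : Eis} (hk : k ≠ 0) (m : ℕ) :
    V00 (nm k / Real.exp m) = ((h00 (Real.log (nm k) - 1 * m) : ℝ) : ℂ) := by
  have hp : (0 : ℝ) < nm k := by exact_mod_cast nm_pos.mpr hk
  unfold V00
  rw [ev_pos _ (div_pos hp (Real.exp_pos _)), Real.log_div hp.ne' (Real.exp_pos _).ne',
    Real.log_exp, one_mul]
  rfl

/-- a block of the dual side in terms of the sum of `NatNP3` -/
theorem blk_eq (h₀ h : ℝ → ℂ) (r : ℕ) {M M' m₀ : Eis} (h3 : (3 : Eis) ∣ M) (hMM : M ∣ M')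
    (hrad : ∀ p : Eis, Prime p → p ∣ M' → p ∣ M) {η ψ' : Eis → ℂ} (hχ : HC M' (ch m₀ η))
    {j l' : ℤ} (hj : j ≠ 0) (y Q₀ κ₀ γ : ℝ) {B : ℝ} (hB : 0 < B) (tb tc : ℝ) (m : ℕ) (s : ℝ) :
    blk h00 1 (3 / 2) (SS r y Q₀ κ₀ M) (alS h₀ h r y Q₀ κ₀ (fun c => sy m₀ c) 0 tc) (cS r) M M'
      (ch m₀ η) (twt ψ' l' tb) V00 ⌊Real.exp (3 / 2) * B⌋₊ B γ j m s =
    osc s (Real.log B + γ - 1 * m) *
      ((((Real.sqrt B)⁻¹ * Real.exp (-(gam r y Q₀ + κ₀)) : ℝ) : ℂ) *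
      ∑' k : Eis, (if k ≠ 0 ∧ NPk (PP h₀ h M' m₀ η ψ' j l').n (PP h₀ h M' m₀ η ψ' j l').φ
          (PP h₀ h M' m₀ η ψ' j l').l₁ k then
        (PP h₀ h M' m₀ η ψ' j l').wk s (Real.exp m) k *
          NSumS (PP h₀ h M' m₀ η ψ' j l').h₀ (PP h₀ h M' m₀ η ψ' j l').h r y Q₀ κ₀ Finset.univ
          (PP h₀ h M' m₀ η ψ' j l').n
          (twt (PP h₀ h M' m₀ η ψ' j l').ψ (PP h₀ h M' m₀ η ψ' j l').l₂ (tb - s))
          (twt (PP h₀ h M' m₀ η ψ' j l').φ (PP h₀ h M' m₀ η ψ' j l').l₁ (tc - s))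
          (PP h₀ h M' m₀ η ψ' j l').V B k else 0)) := by
  unfold blk
  congr 1
  rw [tsum_eq_sum (s := (ball ⌊Real.exp (1 * m + 3 / 2)⌋₊).filter (fun k => k ≠ 0)),
    Finset.mul_sum]
  · refine Finset.sum_congr rfl fun k hk => ?_
    have hk0 : k ≠ 0 := (Finset.mem_filter.mp hk).2
    have hnp : k ≠ 0 ∧ NPk (PP h₀ h M' m₀ η ψ' j l').n (PP h₀ h M' m₀ η ψ' j l').φ
        (PP h₀ h M' m₀ η ψ' j l').l₁ k := ⟨hk0, Or.inl hj⟩
    rw [if_pos hnp, Dk_eqS h₀ h (V := V00) (fun x hx => V00_le hx) r j l' 0 h3 hMM hrad hχ y Q₀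
      κ₀ hB tb tc s k]
    unfold DPar.wk
    simp only [PP, zero_add]
    rw [V00_eq hk0 m, L7858.cpow_eq_osc hk0]
    ring
  · intro k hk
    by_cases h : k ≠ 0 ∧ NPk (PP h₀ h M' m₀ η ψ' j l').n (PP h₀ h M' m₀ η ψ' j l').φ
        (PP h₀ h M' m₀ η ψ' j l').l₁ k
    · rw [if_pos h]
      have hp : (0 : ℝ) < nm k := by exact_mod_cast nm_pos.mpr h.1
      have h1 : V00 (nm k / Real.exp m) = 0 := by
        by_contra hne
        have h2 := V00_log hne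
        rw [Real.log_div hp.ne' (Real.exp_pos _).ne', Real.log_exp] at h2
        have h3 := (abs_le.mp h2).2
        have h4 : (nm k : ℝ) ≤ Real.exp (1 * m + 3 / 2) :=
          (Real.log_le_iff_le_exp hp).mp (by linarith)
        have h5 : nm k ≤ ⌊Real.exp (1 * (m : ℝ) + 3 / 2)⌋₊ := Nat.le_floor h4
        exact hk (Finset.mem_filter.mpr ⟨mem_ball.mpr h5, h.1⟩)
      unfold DPar.wk
      simp only [PP]
      rw [h1]
      ring
    · rw [if_neg h]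

end Crest.Agent.R017.L747
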