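import Crest.Agent.R017.L7d_858
import Crest.Agent.R017.L7E_47

/-!
# Row 17, section B, leaf L7: crude bounds for a general finite family
-/

set_option autoImplicit false

noncomputable section

open Complex MeasureTheory
open scoped ComplexConjugate SchwartzMap ContDiff

namespace Crest.Agent.R017.L7858

open Crest.Agent.R012 Crest.Agent.R012.Eis Crest.Agent.R012.Mob705 Crest.Agent.R012.Gauss880
open Crest.Agent.R012.Po581 Crest.Agent.R012.Div277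
open Crest.Agent.R012.Weight600 (osc norm_osc)
open Crest.Agent.R017.End699
open Crest.Agent.R017.FE47 Crest.Agent.R017.Sx440 Crest.Agent.R017.Sx545 Crest.Agent.R017.B770
open Crest.Agent.R017.PT858 NatZ571 Crest.Agent.R017.Asm986

/-! ### amplifier sums, uniformly in `y` -/

lemma amp_sum_unif (r : ℕ) {h : ℝ → ℂ} {B : ℝ} (hB : ∀ u, ‖h u‖ ≤ B) :
    ∃ D : ℝ, 0 ≤ D ∧ ∀ y Q₀ : ℝ, 0 ≤ y → 1 ≤ Q₀ →
      ∑ p ∈ tup r y Q₀ Finset.univ,
        ∏ i : (Finset.univ : Finset (Fin r)), ‖h (Real.log (nm (p i)) - kap r y Q₀ i)‖ ≤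
        D * CJ r y Q₀ Finset.univ := by
  classical
  obtain ⟨D, hD0, hD⟩ := NatZ571.amp_sum_le r r hB (a := 0) (le_refl _)
  refine ⟨max D 1, by positivity, ?_⟩
  intro y Q₀ hy hQ₀
  have hQ0 : 0 < Q₀ := by linarith
  rcases Nat.eq_zero_or_pos r with h0 | hr
  · subst h0
    have e1 : ∀ p ∈ tup 0 y Q₀ Finset.univ,
        ∏ i : (Finset.univ : Finset (Fin 0)), ‖h (Real.log (nm (p i)) - kap 0 y Q₀ i)‖ = 1 := by
      intro p _
      refine Finset.prod_eq_one fun i _ => ?_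
      exact absurd i.1.2 (by omega)
    rw [Finset.sum_congr rfl e1]
    have e2 : (tup 0 y Q₀ Finset.univ).card ≤ 1 := by
      refine Finset.card_le_one.mpr fun a _ b _ => ?_
      funext i
      exact absurd i.1.2 (by omega)
    have e3 : CJ 0 y Q₀ Finset.univ = 1 := by
      unfold CJ; simp
    rw [e3, mul_one, Finset.sum_const, nsmul_eq_mul, mul_one]
    calc ((tup 0 y Q₀ Finset.univ).card : ℝ) ≤ 1 := by exact_mod_cast e2
      _ ≤ _ := le_max_right _ _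
  · have hr' : (r : ℝ) ≠ 0 := by exact_mod_cast hr.ne'
    have hk : ∀ i : Fin r, kap r r (Q₀ ^ (y / r)) i = kap r y Q₀ i := by
      intro i
      unfold kap
      rw [Real.log_rpow hQ0, div_self hr', one_mul]
    have ht : tup r r (Q₀ ^ (y / r)) Finset.univ = tup r y Q₀ Finset.univ := by
      unfold tup
      simp only [hk]
    have h1 := hD (Q₀ ^ (y / r)) (Real.one_le_rpow hQ₀ (by positivity)) Finset.univ
    rw [ht] at h1
    simp only [hk, Real.rpow_zero, mul_one, add_zero, Real.rpow_one] at h1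
    refine h1.trans ?_
    have e4 : CJ r r (Q₀ ^ (y / r)) Finset.univ = CJ r y Q₀ Finset.univ := by
      unfold CJ
      rw [← Real.rpow_mul hQ0.le, div_self hr', one_mul]
    rw [e4]
    refine mul_le_mul_of_nonneg_right (le_max_left _ _) ?_
    unfold CJ
    positivity

lemma CJ_le_gam (r : ℕ) {y Q₀ : ℝ} (hQ₀ : 1 ≤ Q₀) :
    CJ r y Q₀ Finset.univ ≤ Real.exp (gam r y Q₀) := by
  have hQ0 : 0 < Q₀ := by linarith
  unfold CJ gam
  rw [← Real.log_le_iff_le_exp (by positivity), Real.log_rpow hQ0]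
  have h1 : ∑ i : (Finset.univ : Finset (Fin r)), y / r * Real.log Q₀ ≤
      ∑ i : (Finset.univ : Finset (Fin r)), kap r y Q₀ i := by
    refine Finset.sum_le_sum fun i _ => ?_
    unfold kap
    have : (0 : ℝ) ≤ (((i : Fin r) : ℕ) : ℝ) := Nat.cast_nonneg _
    linarith
  refine le_trans (le_of_eq ?_) h1
  rw [Finset.sum_const, nsmul_eq_mul]
  simp
  ring

/-- the total mass of the amplifier -/
theorem alS_sum (r : ℕ) {h₀ h : ℝ → ℂ} (hh₀ : HW h₀) (hh : HW h) :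
    ∃ C : ℝ, 0 ≤ C ∧ ∀ (M : Eis) (y Q₀ κ₀ : ℝ), 0 ≤ y → 1 ≤ Q₀ → ∀ φ : Eis → ℂ,
      (∀ b, IsPrim b → ‖φ b‖ ≤ 1) → ∀ (lc : ℤ) (tc : ℝ),
      ∑ x ∈ SS r y Q₀ κ₀ M, ‖alS h₀ h r y Q₀ κ₀ φ lc tc x‖ ≤
        C * Real.exp (gam r y Q₀ + κ₀) := by
  classical
  have hbd : ∀ {g : ℝ → ℂ}, HW g → ∃ Bh : ℝ, ∀ u, ‖g u‖ ≤ Bh := fun {g} hg =>
    hg.cd.continuous.bounded_above_of_compact_support (by
      refine HasCompactSupport.intro (isCompact_Icc (a := (-1 : ℝ)) (b := 1)) fun u hu => ?_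
      by_contra hne
      exact hu (abs_le.mp (hg.supp u hne)))
  obtain ⟨B0, hB0⟩ := hbd hh₀
  obtain ⟨B1, hB1⟩ := hbd hh
  have hB00 : 0 ≤ B0 := (norm_nonneg _).trans (hB0 0)
  obtain ⟨D, hD0, hD⟩ := amp_sum_unif r hB1
  refine ⟨B0 * (100 * Real.exp 1) * D, by positivity, ?_⟩
  intro M y Q₀ κ₀ hy hQ₀ φ hφ lc tc
  have h1 : ∀ x ∈ SS r y Q₀ κ₀ M, ‖alS h₀ h r y Q₀ κ₀ φ lc tc x‖ ≤
      B0 * ∏ i : (Finset.univ : Finset (Fin r)), ‖h (Real.log (nm (x.2 i)) - kap r y Q₀ i)‖ := by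
    intro x hx
    have hcp := isPrim_cS hx
    have hc1 : (1 : ℝ) ≤ nm (cS r x) := by exact_mod_cast nm_pos.mpr hcp.ne_zero
    have hc2 : (Real.sqrt (nm (cS r x)))⁻¹ ≤ 1 := inv_le_one_of_one_le₀ (Real.one_le_sqrt.mpr hc1)
    unfold alS hS
    rw [norm_mul, norm_mul, norm_mul, norm_prod, Complex.norm_real,
      Real.norm_of_nonneg (by positivity)]
    have a1 := norm_twt_le hcp.ne_zero (hφ _ hcp) lc tc
    have hp0 : 0 ≤ ∏ i : (Finset.univ : Finset (Fin r)),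
        ‖h (Real.log (nm (x.2 i)) - kap r y Q₀ i)‖ :=
      Finset.prod_nonneg fun _ _ => norm_nonneg _
    calc ‖h₀ (Real.log (nm x.1) - κ₀)‖ *
          (∏ i : (Finset.univ : Finset (Fin r)), ‖h (Real.log (nm (x.2 i)) - kap r y Q₀ i)‖) *
          (‖twt φ lc tc (cS r x)‖ * (Real.sqrt (nm (cS r x)))⁻¹)
        ≤ B0 * (∏ i : (Finset.univ : Finset (Fin r)),
            ‖h (Real.log (nm (x.2 i)) - kap r y Q₀ i)‖) * (1 * 1) := by
          refine mul_le_mul (mul_le_mul_of_nonneg_right (hB0 _) hp0)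
            (mul_le_mul a1 hc2 (by positivity) zero_le_one) (by positivity)
            (mul_nonneg hB00 hp0)
      _ = _ := by ring
  refine (Finset.sum_le_sum h1).trans ?_
  unfold SS
  rw [Finset.sum_product]
  have hcard : ((sqS M κ₀).card : ℝ) ≤ 100 * Real.exp (κ₀ + 1) := by
    have e1 : (sqS M κ₀).card ≤ (primBall ⌊Real.exp (κ₀ + 1)⌋₊).card := by
      refine Finset.card_le_card fun c hc => ?_
      rw [mem_sqS] at hc
      rw [mem_primBall]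
      exact ⟨hc.1, hc.2.1⟩
    calc ((sqS M κ₀).card : ℝ) ≤ ((primBall ⌊Real.exp (κ₀ + 1)⌋₊).card : ℝ) := by
          exact_mod_cast e1
      _ ≤ 100 * (⌊Real.exp (κ₀ + 1)⌋₊ : ℝ) := Lat277.card_primBall_le _
      _ ≤ _ := mul_le_mul_of_nonneg_left (Nat.floor_le (Real.exp_pos _).le) (by norm_num)
  have e5 : ∀ x ∈ sqS M κ₀, ∑ p ∈ tup r y Q₀ Finset.univ,
      B0 * ∏ i : (Finset.univ : Finset (Fin r)), ‖h (Real.log (nm (p i)) - kap r y Q₀ i)‖ =
      B0 * ∑ p ∈ tup r y Q₀ Finset.univ,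
        ∏ i : (Finset.univ : Finset (Fin r)), ‖h (Real.log (nm (p i)) - kap r y Q₀ i)‖ :=
    fun x _ => (Finset.mul_sum _ _ _).symm
  refine (le_of_eq (Finset.sum_congr rfl e5)).trans ?_
  rw [Finset.sum_const, nsmul_eq_mul]
  have h2 := hD y Q₀ hy hQ₀
  have h3 := CJ_le_gam r (y := y) hQ₀
  calc ((sqS M κ₀).card : ℝ) * (B0 * _)
      ≤ (100 * Real.exp (κ₀ + 1)) * (B0 * (D * Real.exp (gam r y Q₀))) := by
        refine mul_le_mul hcard (mul_le_mul_of_nonneg_left ?_ hB00) ?_ (by positivity)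
        · exact h2.trans (mul_le_mul_of_nonneg_left h3 hD0)
        · exact mul_nonneg hB00 (Finset.sum_nonneg fun _ _ =>
            Finset.prod_nonneg fun _ _ => norm_nonneg _)
    _ = _ := by rw [Real.exp_add, Real.exp_add]; ring

/-! ### general families -/

variable {ι : Type}

/-- trivial bound for the transformed sum at `k` -/
theorem Dk_trivial {V : ℝ → ℂ} {BV R : ℝ} (hR0 : 0 ≤ R) (hBV : ∀ x, ‖V x‖ ≤ BV)
    (I : Finset ι) (α : ι → ℂ) (c : ι → Eis) {M M' : Eis} (h2 : (2 : Eis) ∣ M)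
    (hc : ∀ i ∈ I, IsPrim (c i)) {χ f : Eis → ℂ} (hχ : ∀ b, IsPrim b → ‖χ b‖ ≤ 1)
    (hf : ∀ b, Sm M b → ‖f b‖ ≤ 1) {B : ℝ} (hB : 0 < B) (j : ℤ) (s : ℝ) (k : Eis) :
    ‖Dk I α c M M' χ f V ⌊R * B⌋₊ B j s k‖ ≤
      (∑ i ∈ I, ‖α i‖) * (100 * (R * B) * (BV * Real.sqrt (R * B))) := by
  classical
  have hBV0 : 0 ≤ BV := (norm_nonneg _).trans (hBV 0)
  have hRB : 0 ≤ R * B := by positivity
  unfold Dk
  refine (norm_sum_le _ _).trans ?_
  rw [Finset.sum_mul]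
  refine Finset.sum_le_sum fun i hi => ?_
  have hcp := hc i hi
  have nc := nm_pos' hcp.ne_zero
  refine (norm_sum_le _ _).trans ?_
  have e : ∀ b ∈ FB M ⌊R * B⌋₊, ‖α i * cg M' χ f V B b (c i) * tk k b (c i) *
      (ang j b * ang j (c i) * (osc (-s) (Real.log (nm b)) * osc (-s) (Real.log (nm (c i)))))‖ ≤
      ‖α i‖ * (BV * Real.sqrt (R * B)) := by
    intro b hb
    obtain ⟨hb1, hb2⟩ := mem_FB.mp hb
    have nb := nm_pos' hb2.1.ne_zero
    have hb3 : (nm b : ℝ) ≤ R * B := (Nat.cast_le.mpr hb1).trans (Nat.floor_le hRB)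
    have sb := Real.sqrt_pos.mpr nb
    have sc := Real.sqrt_pos.mpr nc
    have h3 := norm_tk_le (k := k) (hb2.mono h2) hcp
    rw [norm_mul, norm_mul, norm_mul, norm_mul, norm_mul, norm_mul, norm_osc, norm_osc,
      norm_ang_le j hb2.1.ne_zero, norm_ang_le j hcp.ne_zero, mul_one, mul_one, mul_one]
    have h4 : ‖cg M' χ f V B b (c i)‖ ≤ BV * (Real.sqrt (nm b) * Real.sqrt (nm (c i)))⁻¹ := by
      unfold cg
      rw [norm_mul, norm_mul, norm_mul, norm_mul, norm_mul, RCLike.norm_conj, Complex.norm_real,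
        Real.norm_of_nonneg (by positivity), Real.sqrt_mul nb.le]
      calc ‖f b‖ * ‖V (nm b / B)‖ * ((Real.sqrt (nm b) * Real.sqrt (nm (c i)))⁻¹ *
            (‖χ (b * c i)‖ * (‖sy (M' * Po581.sq3) (c i)‖ * ‖sy (M' * Po581.sq3) b‖)))
          ≤ 1 * BV * ((Real.sqrt (nm b) * Real.sqrt (nm (c i)))⁻¹ * (1 * (1 * 1))) := by
            gcongr
            · exact hf b hb2
            · exact hBV _
            · exact hχ _ (hb2.1.mul hcp)
            · exact norm_sy_le syG hcp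
            · exact norm_sy_le syG hb2.1
        _ = _ := by ring
    calc ‖α i‖ * ‖cg M' χ f V B b (c i)‖ * ‖tk k b (c i)‖
        ≤ ‖α i‖ * (BV * (Real.sqrt (nm b) * Real.sqrt (nm (c i)))⁻¹) *
            (nm b * Real.sqrt (nm (c i))) := by gcongr
      _ = ‖α i‖ * (BV * Real.sqrt (nm b)) := by
          have h5 : (nm b : ℝ) = Real.sqrt (nm b) * Real.sqrt (nm b) :=
            (Real.mul_self_sqrt nb.le).symm
          rw [mul_assoc ‖α i‖]
          congr 1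
          rw [mul_assoc BV]
          congr 1
          field_simp
          rw [sq]
          exact h5
      _ ≤ _ := by gcongr
  refine (Finset.sum_le_sum e).trans ?_
  rw [Finset.sum_const, nsmul_eq_mul]
  have hcd := card_FB_le M hRB
  calc ((FB M ⌊R * B⌋₊).card : ℝ) * (‖α i‖ * (BV * Real.sqrt (R * B)))
      ≤ (100 * (R * B)) * (‖α i‖ * (BV * Real.sqrt (R * B))) := by gcongr
    _ = _ := by ring

lemma card_ball_ne (X : ℕ) : (((ball X).filter (fun k => k ≠ 0)).card : ℝ) ≤ 18 * X := by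
  rcases Nat.eq_zero_or_pos X with h0 | h0
  · subst h0
    have : (ball 0).filter (fun k => k ≠ 0) = ∅ := by
      refine Finset.filter_eq_empty_iff.mpr fun k hk => ?_
      rw [mem_ball] at hk
      intro hne
      have := nm_pos.mpr hne
      omega
    rw [this]
    simp
  · have h1 := PSer47.card_ball_le h0
    have h2 : ((ball X).filter (fun k => k ≠ 0)).card ≤ (ball X).card := Finset.card_filter_le _ _
    exact_mod_cast h2.trans h1

/-- trivial bound for a block -/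
theorem blk_trivial {hp : ℝ → ℝ} {Hb cc Rp : ℝ} (hhp : ∀ u, |hp u| ≤ Hb)
    {V : ℝ → ℂ} {BV R : ℝ} (hR0 : 0 ≤ R) (hBV : ∀ x, ‖V x‖ ≤ BV)
    (I : Finset ι) (α : ι → ℂ) (c : ι → Eis) {M M' : Eis} (h2 : (2 : Eis) ∣ M)
    (hc : ∀ i ∈ I, IsPrim (c i)) {χ f : Eis → ℂ} (hχ : HC M' χ)
    (hf : ∀ b, Sm M b → ‖f b‖ ≤ 1) {B : ℝ} (hB : 0 < B) (γ : ℝ) (j : ℤ) (n : ℕ) (s : ℝ) :
    ‖blk hp cc Rp I α c M M' χ f V ⌊R * B⌋₊ B γ j n s‖ ≤
      (18 * Real.exp (cc * n + Rp)) * (Hb * (nm M' *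
        ((∑ i ∈ I, ‖α i‖) * (100 * (R * B) * (BV * Real.sqrt (R * B)))))) := by
  classical
  have hHb0 : 0 ≤ Hb := (abs_nonneg _).trans (hhp 0)
  have hBV0 : 0 ≤ BV := (norm_nonneg _).trans (hBV 0)
  unfold blk
  rw [norm_mul, norm_osc, one_mul]
  refine (norm_sum_le _ _).trans ?_
  have e : ∀ k ∈ (ball ⌊Real.exp (cc * n + Rp)⌋₊).filter (fun k => k ≠ 0),
      ‖((hp (Real.log (nm k) - cc * n) : ℝ) : ℂ) * (DM M' χ k * ang (-j) k *
        (osc s (Real.log (nm k)) * Dk I α c M M' χ f V ⌊R * B⌋₊ B j s k))‖ ≤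
      Hb * (nm M' * ((∑ i ∈ I, ‖α i‖) * (100 * (R * B) * (BV * Real.sqrt (R * B))))) := by
    intro k hk
    have hk0 := (Finset.mem_filter.mp hk).2
    rw [norm_mul, norm_mul, norm_mul, norm_mul, norm_osc, norm_ang_le _ hk0, one_mul, mul_one,
      Complex.norm_real, Real.norm_eq_abs]
    have h1 := hhp (Real.log (nm k) - cc * n)
    have h3 := norm_DM_le hχ k
    have h4 := Dk_trivial hR0 hBV I α c h2 hc (M' := M') (χ := χ)
      (fun b hb => by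
        rcases hχ.char.norm b hb with h | h
        · rw [h, norm_zero]; exact zero_le_one
        · exact h.le) hf hB j s k
    gcongr
  refine (Finset.sum_le_sum e).trans ?_
  rw [Finset.sum_const, nsmul_eq_mul]
  have hcard := card_ball_ne ⌊Real.exp (cc * n + Rp)⌋₊
  have h5 : ((⌊Real.exp (cc * n + Rp)⌋₊ : ℕ) : ℝ) ≤ Real.exp (cc * n + Rp) :=
    Nat.floor_le (Real.exp_pos _).le
  have h6 : 0 ≤ Hb * (nm M' * ((∑ i ∈ I, ‖α i‖) * (100 * (R * B) * (BV * Real.sqrt (R * B))))) := by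
    have : 0 ≤ ∑ i ∈ I, ‖α i‖ := Finset.sum_nonneg fun _ _ => norm_nonneg _
    positivity
  refine mul_le_mul_of_nonneg_right (hcard.trans ?_) h6
  linarith

/-- trivial bound for `Psi'`, general coefficients -/
theorem Psi'_trivial' {V : ℝ → ℂ} (hV : SW V) : ∃ C : ℝ, 0 ≤ C ∧ ∀ M : Eis, (2 : Eis) ∣ M →
    ∀ f : Eis → ℂ, (∀ b, Sm M b → ‖f b‖ ≤ 1) → ∀ (a : Eis) (B : ℝ), 0 < B →
      ‖Psi' M f a V B‖ ≤ C * (B * Real.sqrt B) := by
  classical
  obtain ⟨C, hC0, hC⟩ := Psi'_trivial hV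
  refine ⟨C, hC0, ?_⟩
  intro M h2 f hf a B hB
  have e : Psi' M f a V B = Psi' M (fun b => if Sm M b then f b else 0) a V B := by
    unfold Psi'
    refine tsum_congr fun b => ?_
    by_cases hb : Sm M b
    · simp only [if_pos hb]
    · simp only [if_neg hb]
  rw [e]
  refine hC M h2 _ (fun b _ => ?_) a B hB
  split_ifs with h
  · exact hf b h
  · rw [norm_zero]; exact zero_le_one

/-- **trivial bound for the sum before Poisson summation**, general family -/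
theorem GS_trivial {w : ℝ → ℂ} (w1 : ContDiff ℝ ∞ w) (w2 : HasCompactSupport w) {V : ℝ → ℂ}
    (hV : SW V) : ∃ C : ℝ, 0 ≤ C ∧ ∀ {ι : Type} (I : Finset ι) (α : ι → ℂ) (c : ι → Eis) (M : Eis),
      (2 : Eis) ∣ M → (∀ i ∈ I, IsPrim (c i)) → ∀ χ f : Eis → ℂ, (∀ b, IsPrim b → ‖χ b‖ ≤ 1) →
      (∀ b, Sm M b → ‖f b‖ ≤ 1) → ∀ (j : ℤ) (κ t B : ℝ), 0 < B →
      ‖GS I α c M χ f j w V κ t B‖ ≤
        C * (Real.exp κ * (B * Real.sqrt B)) * ∑ i ∈ I, ‖α i‖ := by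
  classical
  obtain ⟨Bw, hBw⟩ := w1.continuous.bounded_above_of_compact_support w2
  have hBw0 : 0 ≤ Bw := (norm_nonneg _).trans (hBw 0)
  obtain ⟨Rw, hRw0, hRw⟩ : ∃ R : ℝ, 0 ≤ R ∧ ∀ u, w u ≠ 0 → |u| ≤ R := by
    obtain ⟨R, hR⟩ := w2.isCompact.isBounded.exists_norm_le
    exact ⟨max R 0, le_max_right _ _, fun u hu =>
      (hR u (subset_tsupport _ hu)).trans (le_max_left _ _)⟩
  obtain ⟨CP, hCP0, hCP⟩ := Psi'_trivial' hV
  refine ⟨100 * Real.exp Rw * Bw * CP, by positivity, ?_⟩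
  intro ι I α c M h2 hc χ f hχ hf j κ t B hB
  set SA : Finset Eis := primBall ⌊Real.exp (κ + Rw)⌋₊ with hSA
  have hcard : (SA.card : ℝ) ≤ 100 * Real.exp (κ + Rw) :=
    (Lat277.card_primBall_le _).trans
      (mul_le_mul_of_nonneg_left (Nat.floor_le (Real.exp_pos _).le) (by norm_num))
  unfold GS
  refine (norm_sum_le _ _).trans ?_
  rw [Finset.mul_sum]
  refine Finset.sum_le_sum fun i hi => ?_
  have hcp := hc i hi
  rw [tsum_eq_sum (s := SA)]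
  · rw [norm_mul, norm_mul, RCLike.norm_conj]
    have a2 := norm_G_le syG hcp
    have e2 : ‖∑ a ∈ SA, End699.ext (fun a => twt χ j t a * w (Real.log (nm a) - κ)) a *
        sy a (c i) * Psi' M f a V B‖ ≤
        (100 * Real.exp (κ + Rw)) * (Bw * (CP * (B * Real.sqrt B))) := by
      refine (norm_sum_le _ _).trans ?_
      have e3 : ∀ a ∈ SA, ‖End699.ext (fun a => twt χ j t a * w (Real.log (nm a) - κ)) a *
        sy a (c i) * Psi' M f a V B‖ ≤ Bw * (CP * (B * Real.sqrt B)) := by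
        intro a ha
        rw [hSA, mem_primBall] at ha
        simp only [End699.ext, if_pos ha.2]
        rw [norm_mul, norm_mul, norm_mul]
        have a1 := norm_twt_le ha.2.ne_zero (hχ a ha.2) j t
        have a2 := hBw (Real.log (nm a) - κ)
        have a3 : ‖sy a (c i)‖ ≤ 1 := norm_sy_le syG hcp
        have a4 := hCP M h2 f hf a B hB
        calc ‖twt χ j t a‖ * ‖w (Real.log (nm a) - κ)‖ * ‖sy a (c i)‖ *
              ‖Psi' M f a V B‖ ≤ 1 * Bw * 1 * (CP * (B * Real.sqrt B)) := by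
              gcongr
          _ = _ := by ring
      refine (Finset.sum_le_sum e3).trans ?_
      rw [Finset.sum_const, nsmul_eq_mul]
      exact mul_le_mul_of_nonneg_right hcard (by positivity)
    calc ‖α i‖ * ‖G (c i)‖ * _ ≤ ‖α i‖ * 1 *
          ((100 * Real.exp (κ + Rw)) * (Bw * (CP * (B * Real.sqrt B)))) := by
          gcongr
      _ = _ := by rw [Real.exp_add]; ring
  · intro a ha
    have : End699.ext (fun a => twt χ j t a * w (Real.log (nm a) - κ)) a = 0 := by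
      simp only [End699.ext]
      split_ifs with hpa
      · by_contra hne
        have h1 := hRw _ (right_ne_zero_of_mul hne)
        have h3 := (abs_le.mp h1).2
        apply ha
        rw [hSA, mem_primBall]
        refine ⟨Nat.le_floor ?_, hpa⟩
        rw [← Real.log_le_iff_le_exp (nm_pos' hpa.ne_zero)]
        linarith
      · rfl
    rw [this, zero_mul, zero_mul]

/-! ### the two bounds used in L7 -/

lemma sqrt_le_self' {B : ℝ} (hB : 1 ≤ B) : Real.sqrt B ≤ B := by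
  rw [Real.sqrt_le_left (by linarith)]
  nlinarith

/-- crude bound for the blocks -/
theorem crude_blk (r : ℕ) {h₀ h : ℝ → ℂ} (hh₀ : HW h₀) (hh : HW h) (M' : Eis) :
    ∃ C : ℝ, 0 ≤ C ∧ ∀ M : Eis, (2 : Eis) ∣ M → ∀ χ f φ : Eis → ℂ, HC M' χ →
      (∀ b, Sm M b → ‖f b‖ ≤ 1) → (∀ b, IsPrim b → ‖φ b‖ ≤ 1) →
      ∀ (y Q₀ κ₀ : ℝ), 0 ≤ y → 1 ≤ Q₀ → ∀ (lc : ℤ) (tc B γ : ℝ), 1 ≤ B →
      ∀ (j : ℤ) (n : ℕ) (s : ℝ),
      ‖blk h00 1 (3 / 2) (SS r y Q₀ κ₀ M) (alS h₀ h r y Q₀ κ₀ φ lc tc) (cS r) M M' χ f L747.V00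
        ⌊Real.exp (3 / 2) * B⌋₊ B γ j n s‖ ≤
        C * Real.exp n * Real.exp (gam r y Q₀ + κ₀) * B ^ 2 := by
  obtain ⟨C1, hC10, hC1⟩ := alS_sum r hh₀ hh
  obtain ⟨BV, hBV⟩ := L747.sw_V00.smooth.continuous.bounded_above_of_compact_support
    L747.sw_V00.cpt
  have hBV0 : 0 ≤ BV := (norm_nonneg _).trans (hBV 0)
  set R : ℝ := Real.exp (3 / 2) with hR
  refine ⟨18 * Real.exp (3 / 2) * (nm M' * (C1 * (100 * R * (BV * Real.sqrt R)))),
    by positivity, ?_⟩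
  intro M h2 χ f φ hχ hf hφ y Q₀ κ₀ hy hQ₀ lc tc B γ hB j n s
  have hB0 : 0 < B := by linarith
  have hp1 : ∀ u, |h00 u| ≤ 1 := fun u => by
    rw [abs_of_nonneg (L747.h00_nonneg u)]
    exact Weight600.cutL_le_one u
  have h1 := blk_trivial (cc := 1) (Rp := 3 / 2) hp1 (R := R) (Real.exp_pos _).le hBV
    (SS r y Q₀ κ₀ M) (alS h₀ h r y Q₀ κ₀ φ lc tc) (cS r) h2 (fun x hx => isPrim_cS hx) hχ hf hB0
    γ j n s
  refine h1.trans ?_
  have h3 := hC1 M y Q₀ κ₀ hy hQ₀ φ hφ lc tc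
  have h4 : 0 ≤ ∑ x ∈ SS r y Q₀ κ₀ M, ‖alS h₀ h r y Q₀ κ₀ φ lc tc x‖ :=
    Finset.sum_nonneg fun _ _ => norm_nonneg _
  rw [one_mul, one_mul, Real.sqrt_mul (Real.exp_pos _).le]
  have h5 := sqrt_le_self' hB
  calc 18 * Real.exp (n + 3 / 2) * (nm M' * ((∑ x ∈ SS r y Q₀ κ₀ M,
        ‖alS h₀ h r y Q₀ κ₀ φ lc tc x‖) * (100 * (R * B) * (BV * (Real.sqrt R * Real.sqrt B)))))
      ≤ 18 * Real.exp (n + 3 / 2) * (nm M' * ((C1 * Real.exp (gam r y Q₀ + κ₀)) *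
          (100 * (R * B) * (BV * (Real.sqrt R * B))))) := by
        gcongr
    _ = _ := by rw [Real.exp_add (n : ℝ)]; ring

/-- crude bound for the sum before Poisson summation -/
theorem crude_GS (r : ℕ) {h₀ h : ℝ → ℂ} (hh₀ : HW h₀) (hh : HW h) {R : ℝ} (hR : 0 ≤ R) :
    ∃ C : ℝ, 0 ≤ C ∧ ∀ M : Eis, (2 : Eis) ∣ M → ∀ χ f φ : Eis → ℂ, (∀ b, IsPrim b → ‖χ b‖ ≤ 1) →
      (∀ b, Sm M b → ‖f b‖ ≤ 1) → (∀ b, IsPrim b → ‖φ b‖ ≤ 1) →
      ∀ (y Q₀ κ₀ : ℝ), 0 ≤ y → 1 ≤ Q₀ → ∀ (lc : ℤ) (tc B : ℝ), 1 ≤ B → ∀ (j : ℤ) (ka t : ℝ),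
      ‖GS (SS r y Q₀ κ₀ M) (alS h₀ h r y Q₀ κ₀ φ lc tc) (cS r) M χ f j (L747.w2 R) L747.V00
        ka t B‖ ≤ C * Real.exp ka * Real.exp (gam r y Q₀ + κ₀) * B ^ 2 := by
  obtain ⟨C1, hC10, hC1⟩ := alS_sum r hh₀ hh
  obtain ⟨C2, hC20, hC2⟩ := GS_trivial (L747.cd_w2 R) (L747.cs_w2 hR) L747.sw_V00
  refine ⟨C2 * C1, by positivity, ?_⟩
  intro M h2 χ f φ hχ hf hφ y Q₀ κ₀ hy hQ₀ lc tc B hB j ka t
  have hB0 : 0 < B := by linarith
  have h1 := hC2 (SS r y Q₀ κ₀ M) (alS h₀ h r y Q₀ κ₀ φ lc tc) (cS r) M h2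
    (fun x hx => isPrim_cS hx) χ f hχ hf j ka t B hB0
  refine h1.trans ?_
  have h3 := hC1 M y Q₀ κ₀ hy hQ₀ φ hφ lc tc
  have h5 := sqrt_le_self' hB
  calc C2 * (Real.exp ka * (B * Real.sqrt B)) * _
      ≤ C2 * (Real.exp ka * (B * B)) * (C1 * Real.exp (gam r y Q₀ + κ₀)) := by
        gcongr
    _ = _ := by ring

end Crest.Agent.R017.L7858
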