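import Crest.Agent.R017.L7I_47

/-!
# Row 17, section B, L7 (part J): `PropL7'` from `NatNP3`
-/

set_option autoImplicit false

noncomputable section

open MeasureTheory Complex Set Filter
open scoped ComplexConjugate ContDiff Classical

namespace Crest.Agent.R017.L747

open Crest.Agent.R012 Crest.Agent.R012.Eis
open Crest.Agent.R017.End699 Crest.Agent.R017.B770 Crest.Agent.R017.FE47 Crest.Agent.R017.Sx545
open Crest.Agent.R017.Sx440 Crest.Agent.R017.Asm986 Crest.Agent.R017.L7858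

lemma exists_large {a b c : ℝ} (hab : a < b) : ∃ Q₁ : ℝ, 1 ≤ Q₁ ∧ ∀ Q : ℝ, Q₁ ≤ Q →
    c * Q ^ a * 9 < Q ^ b := by
  have h1 : Tendsto (fun Q : ℝ => Q ^ (b - a)) atTop atTop := tendsto_rpow_atTop (by linarith)
  obtain ⟨Q₀, hQ₀⟩ := (tendsto_atTop.mp h1 (c * 9 + 1)).exists_forall_of_atTop
  refine ⟨max Q₀ 1, le_max_right _ _, fun Q hQ => ?_⟩
  have h2 := hQ₀ Q ((le_max_left _ _).trans hQ)
  have hQ0 : 0 < Q := lt_of_lt_of_le one_pos ((le_max_right _ _).trans hQ)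
  have h3 : Q ^ b = Q ^ (b - a) * Q ^ a := by rw [← Real.rpow_add hQ0]; congr 1; ring
  have h4 : 0 < Q ^ a := Real.rpow_pos_of_pos hQ0 _
  rw [h3]
  nlinarith

/-- the sum over the scales of `b` -/
lemma scale_b {N : ℕ} {α : ℝ} (h0 : 0 ≤ α) (h1 : α + 1 ≤ N) : ∃ S : ℝ, 0 ≤ S ∧
    ∀ ka L Y : ℝ, 0 < Y → Real.exp (4 * ka - L) = Y →
    Summable (fun n : ℕ => Real.exp (-(N * |n - 4 * ka + L|)) * Real.exp (α * n)) ∧
    ∑' n : ℕ, Real.exp (-(N * |n - 4 * ka + L|)) * Real.exp (α * n) ≤ S * Y ^ α := by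
  obtain ⟨S, hS, hs⟩ := nsum h0 h1
  refine ⟨S, hS, fun ka L Y hY hYe => ?_⟩
  obtain ⟨t1, t2⟩ := hs (-(4 * ka - L))
  have e : ∀ n : ℕ, (n : ℝ) + -(4 * ka - L) = n - 4 * ka + L := fun n => by ring
  simp only [e] at t1 t2
  refine ⟨t1, t2.trans (le_of_eq ?_)⟩
  rw [← hYe, ← Real.exp_mul]
  congr 2
  ring

set_option maxHeartbeats 1000000 in
/-- **L7**. -/
theorem propL7 {θ y δ η₁ η' : ℝ} {r : ℕ} (hN : NatNP3 θ r y δ η₁ η') (hθ : 5 / 6 ≤ θ)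
    (hr : 0 < r) (hy : 0 < y) (hδ : 0 < δ) (hδy : δ < y / r) : PropL7' θ r y δ η₁ η' := by
  intro M m₀ h36 hm ψ l F hψ hOK hFE hrel h₀ h hh₀ hh V om hV hom ε d hε hd hd1 hd2 hd3
  have h2 : (2 : Eis) ∣ M := dvd_trans ⟨18, by norm_num⟩ h36
  obtain ⟨R, hR, hdual⟩ := dual_bound hOK hFE h2 hm hV hom (R₀ := (r : ℝ) + 1) (by positivity)
  choose J C hC hEE using fun i : Fin F.n =>
    EE_bound hN hθ hr hy hδ h36 hm hOK.dvd hOK.rad (hOK.η i) (hOK.ψ' i) hOK.j0 hrel hh₀ hh hR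
      hε hd hd1
  set σ := y + δ with hσ
  set mn := (1 / 2 + σ) / 3 + σ + θ with hmn
  have hσ0 : 0 < σ := by positivity
  have hmn0 : 0 < mn := by positivity
  obtain ⟨q, hq⟩ : ∃ q : ℕ, 3 + 2 * σ + η' ≤ 4 * d * q := by
    obtain ⟨q, hq⟩ := exists_nat_ge ((3 + 2 * σ + η') / (4 * d))
    refine ⟨q, ?_⟩
    rw [div_le_iff₀ (by positivity)] at hq
    linarith
  obtain ⟨C₀, hC₀, hfin⟩ := hdual (q + 3) (∑ i, J i)
  obtain ⟨S₁, hS₁, hs₁⟩ := scale_b (N := q + 3) (α := 1 / 2) (by norm_num)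
    (by push_cast; have : (0 : ℝ) ≤ q := Nat.cast_nonneg q; linarith)
  obtain ⟨S₂, hS₂, hs₂⟩ := scale_b (N := q + 3) (α := 2 + q) (by positivity)
    (by push_cast; linarith)
  obtain ⟨Q₁, hQ₁, hlarge⟩ := exists_large (c := (nm (9 * F.M') : ℝ)) hδy
  have hm₀ : (0 : ℝ) < nm m₀ := by exact_mod_cast nm_pos.mpr hm.prim.ne_zero
  set c₁ := Real.exp (gam r 0 1) * (27 * nm m₀) with hc₁
  have hc₁0 : 0 < c₁ := by positivity
  set Cf := ∑ i, C₀ * C i * c₁⁻¹ * (S₁ * (c₁ ^ 4 * F.ρ i) ^ (1 / 2 : ℝ) +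
    S₂ * (c₁ ^ 4 * F.ρ i) ^ (2 + q : ℝ)) with hCf
  have hρ : ∀ i, 0 < F.ρ i := hOK.ρ
  have hCf0 : 0 ≤ Cf := by
    refine Finset.sum_nonneg fun i _ => ?_
    have := hρ i
    have := hC i
    positivity
  refine ⟨Cf, Q₁, hCf0, fun Q hQQ => ?_⟩
  have hQ : 1 ≤ Q := hQ₁.trans hQQ
  have hQ0 : 0 < Q := by linarith
  have hQM := hlarge Q hQQ
  set K := Q ^ (1 / 2 + σ + d) with hK
  have hK0 : 0 < K := Real.rpow_pos_of_pos hQ0 _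
  set X := K / (27 * nm m₀ * Q) with hX
  have hX0 : 0 < X := by positivity
  set γ := gam r y Q + δ * Real.log Q with hγ
  have hexpγ : Real.exp γ = Real.exp (gam r 0 1) * Q ^ σ := exp_gam hr y δ hQ0
  have hka : Real.exp (γ - Real.log X) = c₁ * Q ^ (1 / 2 - d) := by
    have e1 : Q ^ σ * Q / K = Q ^ (1 / 2 - d) := by
      rw [div_eq_iff hK0.ne', hK, ← Real.rpow_add hQ0]
      nth_rewrite 2 [← Real.rpow_one Q]
      rw [← Real.rpow_add hQ0]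
      congr 1; ring
    rw [Real.exp_sub, Real.exp_log hX0, hexpγ, hX, hc₁, ← e1]
    field_simp
  have hlog : ∀ x ∈ L7858.SS r y Q (δ * Real.log Q) M, aS h₀ h r y Q (δ * Real.log Q) m₀ x ≠ 0 →
      cS r x ≠ 0 ∧ |Real.log (nm (cS r x)) - γ| ≤ (r : ℝ) + 1 := by
    intro x hx hne
    unfold aS at hne
    exact ⟨(isPrim_cS hx).ne_zero, logS hh₀ hh hx (left_ne_zero_of_mul hne)⟩
  set ka := γ - Real.log X with hkad
  set E₁ := -σ + ε + mn - η' + d - 1 with hE₁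
  set N := q + 3 with hNq
  set Bf : Fin F.n → ℕ → ℝ := fun i n => C i * (Real.exp ka *
    (Q ^ E₁ * Real.exp (1 / 2 * n) + Q ^ (σ - q) * Real.exp ((2 + q) * n))) with hBf
  -- the scales of `b`
  have hY : ∀ i, Real.exp (4 * ka - Real.log (Q / F.ρ i)) =
      c₁ ^ 4 * F.ρ i * Q ^ (1 - 4 * d) := by
    intro i
    have e1 : Real.exp (4 * ka) = c₁ ^ 4 * Q ^ (2 - 4 * d) := by
      rw [show (4 : ℝ) = ((4 : ℕ) : ℝ) by norm_num, Real.exp_nat_mul, hka, mul_pow,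
        ← Real.rpow_natCast (Q ^ (1 / 2 - d)), ← Real.rpow_mul hQ0.le]
      congr 2
      push_cast; ring
    rw [Real.exp_sub, Real.exp_log (div_pos hQ0 (hρ i)), e1]
    have e2 : Q ^ (2 - 4 * d) = Q ^ (1 - 4 * d) * Q := by
      rw [← Real.rpow_add_one hQ0.ne']; congr 1; ring
    rw [e2]
    have := (hρ i).ne'
    field_simp
  have hYp : ∀ i, 0 < c₁ ^ 4 * F.ρ i * Q ^ (1 - 4 * d) := fun i => by
    have := hρ i
    positivity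
  have hsplit : ∀ i (n : ℕ), Real.exp (-(((N : ℕ) : ℝ) * |n - 4 * ka + Real.log (Q / F.ρ i)|)) *
      Bf i n = (C i * Real.exp ka) * (Q ^ E₁ *
        (Real.exp (-(((N : ℕ) : ℝ) * |n - 4 * ka + Real.log (Q / F.ρ i)|)) * Real.exp (1 / 2 * n)) +
        Q ^ (σ - q) * (Real.exp (-(((N : ℕ) : ℝ) * |n - 4 * ka + Real.log (Q / F.ρ i)|)) *
          Real.exp ((2 + q) * n))) := by
    intro i n
    rw [hBf]; ring
  have hsumm : ∀ i, Summable fun n : ℕ =>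
      Real.exp (-(((N : ℕ) : ℝ) * |n - 4 * ka + Real.log (Q / F.ρ i)|)) * Bf i n := by
    intro i
    obtain ⟨u1, -⟩ := hs₁ ka _ _ (hYp i) (hY i)
    obtain ⟨u2, -⟩ := hs₂ ka _ _ (hYp i) (hY i)
    exact (((u1.mul_left (Q ^ E₁)).add (u2.mul_left (Q ^ (σ - q)))).mul_left
      (C i * Real.exp ka)).congr fun n => (hsplit i n).symm
  have hbd : ∀ i (n : ℕ) (t t' : ℝ), ‖EE (L7858.SS r y Q (δ * Real.log Q) M)
      (aS h₀ h r y Q (δ * Real.log Q) m₀) (cS r) M (fun a => sy a m₀ * F.η i a) F.j (w2 R) ka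
      (t - 4 * t') (-t) (twt (F.ψ' i) F.l' t') V00 (Real.exp n)‖ ≤
      (1 + |t|) ^ (∑ i, J i) * (1 + |t'|) ^ (∑ i, J i) * Bf i n := by
    intro i n t t'
    have h5 := hEE i q Q hQ hQM n t t'
    have hJ : J i ≤ ∑ i, J i := Finset.single_le_sum (fun _ _ => Nat.zero_le _) (Finset.mem_univ i)
    have hBf0 : 0 ≤ Bf i n := by
      have := hC i
      rw [hBf]; positivity
    have t1 := one_le_T t
    have t2 := one_le_T t'
    have t3 : (1 + |t|) ^ J i * (1 + |t'|) ^ J i * Bf i n ≤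
        (1 + |t|) ^ (∑ i, J i) * (1 + |t'|) ^ (∑ i, J i) * Bf i n := by gcongr
    exact h5.trans t3
  have hmain := hfin (L7858.SS r y Q (δ * Real.log Q) M) (aS h₀ h r y Q (δ * Real.log Q) m₀)
    (cS r) γ X Q hX0 hQ0 hlog Bf hsumm hbd
  have hlhs : ∑ j, F.cL j * DL3 h₀ h r y δ Q M m₀ F.ξ (End699.tw ψ l) V om (K / F.qL j)
      (Q / F.qL j) = ∑ j, F.cL j * ∑ p ∈ L7858.SS r y Q (δ * Real.log Q) M,
        aS h₀ h r y Q (δ * Real.log Q) m₀ p * ∑' a : Eis, End699.ext (fun a => sy a m₀) a *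
          sy a (cS r p) * Psi M F.ξ (End699.tw ψ l) a (W0 V om X a (cS r p)) (Q / F.qL j) := by
    refine Finset.sum_congr rfl fun j _ => ?_
    rw [DL3_eq]
    have hqj : F.qL j ≠ 0 := by have := hOK.qL j; linarith
    have e : K / F.qL j / (27 * nm m₀ * (Q / F.qL j)) = X := by
      rw [hX]; field_simp
    rw [e]
  rw [hlhs]
  have hi : ∀ i, ∑' n : ℕ, Real.exp (-(((N : ℕ) : ℝ) * |n - 4 * ka + Real.log (Q / F.ρ i)|)) *
      Bf i n ≤ (C i * Real.exp ka) * (Q ^ E₁ * (S₁ * (c₁ ^ 4 * F.ρ i * Q ^ (1 - 4 * d)) ^ (1 / 2 : ℝ)) +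
        Q ^ (σ - q) * (S₂ * (c₁ ^ 4 * F.ρ i * Q ^ (1 - 4 * d)) ^ (2 + q : ℝ))) := by
    intro i
    obtain ⟨u1, v1⟩ := hs₁ ka _ _ (hYp i) (hY i)
    obtain ⟨u2, v2⟩ := hs₂ ka _ _ (hYp i) (hY i)
    rw [tsum_congr (hsplit i), tsum_mul_left, (u1.mul_left (Q ^ E₁)).tsum_add
      (u2.mul_left (Q ^ (σ - q))), tsum_mul_left, tsum_mul_left]
    have := hC i
    gcongr
  -- the powers of `Q`
  have hpow : ∀ i, Q * Real.exp (-(2 * ka)) * ((C i * Real.exp ka) *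
      (Q ^ E₁ * (S₁ * (c₁ ^ 4 * F.ρ i * Q ^ (1 - 4 * d)) ^ (1 / 2 : ℝ)) +
        Q ^ (σ - q) * (S₂ * (c₁ ^ 4 * F.ρ i * Q ^ (1 - 4 * d)) ^ (2 + q : ℝ)))) *
      (K / Real.sqrt Q) ≤ (C i * c₁⁻¹ * (S₁ * (c₁ ^ 4 * F.ρ i) ^ (1 / 2 : ℝ) +
        S₂ * (c₁ ^ 4 * F.ρ i) ^ (2 + q : ℝ))) * (Q ^ ε * (Q ^ mn * Q ^ (5 * d - η'))) := by
    intro i
    have hρi := hρ i
    have hCi := hC i
    have e1 : Real.exp (-(2 * ka)) * Real.exp ka = c₁⁻¹ * Q ^ (-(1 / 2 - d)) := by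
      rw [← Real.exp_add, show -(2 * ka) + ka = -ka by ring, Real.exp_neg, hka, mul_inv,
        Real.rpow_neg hQ0.le]
    have e2 : K / Real.sqrt Q = Q ^ (σ + d) := by
      rw [Real.sqrt_eq_rpow, hK, ← Real.rpow_sub hQ0]; congr 1; ring
    have e3 : ∀ α : ℝ, (c₁ ^ 4 * F.ρ i * Q ^ (1 - 4 * d)) ^ α =
        (c₁ ^ 4 * F.ρ i) ^ α * Q ^ ((1 - 4 * d) * α) := fun α => by
      rw [Real.mul_rpow (by positivity) (by positivity), ← Real.rpow_mul hQ0.le]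
    have p1 : Q * Q ^ (-(1 / 2 - d)) * Q ^ (σ + d) * Q ^ E₁ * Q ^ ((1 - 4 * d) * (1 / 2)) ≤
        Q ^ ε * (Q ^ mn * Q ^ (5 * d - η')) := by
      nth_rewrite 1 [← Real.rpow_one Q]
      rw [← Real.rpow_add hQ0, ← Real.rpow_add hQ0, ← Real.rpow_add hQ0, ← Real.rpow_add hQ0,
        ← Real.rpow_add hQ0, ← Real.rpow_add hQ0]
      apply Real.rpow_le_rpow_of_exponent_le hQ
      rw [hE₁]
      linarith
    have p2 : Q * Q ^ (-(1 / 2 - d)) * Q ^ (σ + d) * Q ^ (σ - q) * Q ^ ((1 - 4 * d) * (2 + q)) ≤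
        Q ^ ε * (Q ^ mn * Q ^ (5 * d - η')) := by
      nth_rewrite 1 [← Real.rpow_one Q]
      rw [← Real.rpow_add hQ0, ← Real.rpow_add hQ0, ← Real.rpow_add hQ0, ← Real.rpow_add hQ0,
        ← Real.rpow_add hQ0, ← Real.rpow_add hQ0]
      apply Real.rpow_le_rpow_of_exponent_le hQ
      nlinarith
    rw [e2, e3, e3]
    calc _ = (C i * (Real.exp (-(2 * ka)) * Real.exp ka)) * (Q * Q ^ (σ + d) *
          (Q ^ E₁ * (S₁ * ((c₁ ^ 4 * F.ρ i) ^ (1 / 2 : ℝ) * Q ^ ((1 - 4 * d) * (1 / 2)))) +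
          Q ^ (σ - q) * (S₂ * ((c₁ ^ 4 * F.ρ i) ^ (2 + q : ℝ) *
            Q ^ ((1 - 4 * d) * (2 + q)))))) := by ring
      _ = C i * c₁⁻¹ * (S₁ * (c₁ ^ 4 * F.ρ i) ^ (1 / 2 : ℝ) *
            (Q * Q ^ (-(1 / 2 - d)) * Q ^ (σ + d) * Q ^ E₁ * Q ^ ((1 - 4 * d) * (1 / 2))) +
          S₂ * (c₁ ^ 4 * F.ρ i) ^ (2 + q : ℝ) *
            (Q * Q ^ (-(1 / 2 - d)) * Q ^ (σ + d) * Q ^ (σ - q) *
              Q ^ ((1 - 4 * d) * (2 + q)))) := by rw [e1]; ring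
      _ ≤ C i * c₁⁻¹ * (S₁ * (c₁ ^ 4 * F.ρ i) ^ (1 / 2 : ℝ) *
            (Q ^ ε * (Q ^ mn * Q ^ (5 * d - η'))) +
          S₂ * (c₁ ^ 4 * F.ρ i) ^ (2 + q : ℝ) *
            (Q ^ ε * (Q ^ mn * Q ^ (5 * d - η')))) := by gcongr
      _ = _ := by ring
  calc _ ≤ (C₀ * (Q * Real.exp (-(2 * ka))) * ∑ i, ((C i * Real.exp ka) *
      (Q ^ E₁ * (S₁ * (c₁ ^ 4 * F.ρ i * Q ^ (1 - 4 * d)) ^ (1 / 2 : ℝ)) +
        Q ^ (σ - q) * (S₂ * (c₁ ^ 4 * F.ρ i * Q ^ (1 - 4 * d)) ^ (2 + q : ℝ))))) *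
        (K / Real.sqrt Q) := by
        gcongr
        refine hmain.trans ?_
        gcongr with i _
        exact hi i
    _ = C₀ * ∑ i, Q * Real.exp (-(2 * ka)) * ((C i * Real.exp ka) *
      (Q ^ E₁ * (S₁ * (c₁ ^ 4 * F.ρ i * Q ^ (1 - 4 * d)) ^ (1 / 2 : ℝ)) +
        Q ^ (σ - q) * (S₂ * (c₁ ^ 4 * F.ρ i * Q ^ (1 - 4 * d)) ^ (2 + q : ℝ)))) *
      (K / Real.sqrt Q) := by
        rw [Finset.mul_sum, Finset.sum_mul, Finset.mul_sum]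
        exact Finset.sum_congr rfl fun i _ => by ring
    _ ≤ C₀ * ∑ i, (C i * c₁⁻¹ * (S₁ * (c₁ ^ 4 * F.ρ i) ^ (1 / 2 : ℝ) +
        S₂ * (c₁ ^ 4 * F.ρ i) ^ (2 + q : ℝ))) * (Q ^ ε * (Q ^ mn * Q ^ (5 * d - η'))) :=
        mul_le_mul_of_nonneg_left (Finset.sum_le_sum fun i _ => hpow i) hC₀
    _ = _ := by
        rw [hCf, Finset.mul_sum, Finset.sum_mul, Finset.sum_mul]
        exact Finset.sum_congr rfl fun i _ => by ring

end Crest.Agent.R017.L747
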