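import Crest.Agent.R017.L7a_858

/-!
# Row 17, section B, leaf L7, steps 7.4 and 7.5: absolute values
-/

set_option autoImplicit false

noncomputable section

open Complex MeasureTheory
open scoped ComplexConjugate SchwartzMap ContDiff

namespace Crest.Agent.R017.L7858

open Crest.Agent.R012 Crest.Agent.R012.Eis Crest.Agent.R012.Mob705 Crest.Agent.R012.Gauss880
open Crest.Agent.R012.Po581
open Crest.Agent.R012.Weight600 (osc norm_osc)
open Crest.Agent.R017.End699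
open Crest.Agent.R017.FE47 Crest.Agent.R017.Sx440 Crest.Agent.R017.Sx545 Crest.Agent.R017.B770
open Crest.Agent.R017.PT858

lemma norm_ang_le (j : ℤ) {k : Eis} (hk : k ≠ 0) : ‖ang j k‖ = 1 := by
  unfold ang
  rw [norm_zpow, norm_toC_div k hk, one_zpow]

/-- the constant of the `s`-integral -/
def Iw : ℝ := ∫ s : ℝ, ((1 + |s|) ^ 2)⁻¹

lemma Iw_nonneg : 0 ≤ Iw := integral_nonneg fun s => by positivity

lemma norm_int_le {ker g : ℝ → ℂ} {c1 c2 : ℝ} {K : ℕ} {A' : ℝ} (hc1 : 0 ≤ c1) (hc2 : 0 ≤ c2)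
    (hK : A' + 2 ≤ K) (h1 : ∀ s, ‖ker s‖ ≤ c1 * ((1 + |s|) ^ K)⁻¹)
    (h2 : ∀ s, ‖g s‖ ≤ c2 * (1 + |s|) ^ A') :
    ‖∫ s, ker s * g s‖ ≤ c1 * c2 * Iw := by
  unfold Iw
  rw [← integral_const_mul]
  refine norm_integral_le_of_norm_le ((integrable_wt (le_refl 2)).const_mul _)
    (Filter.Eventually.of_forall fun s => ?_)
  have hs : (1 : ℝ) ≤ 1 + |s| := by linarith [abs_nonneg s]
  have hs0 : (0 : ℝ) < 1 + |s| := by linarith
  rw [norm_mul]
  calc ‖ker s‖ * ‖g s‖ ≤ (c1 * ((1 + |s|) ^ K)⁻¹) * (c2 * (1 + |s|) ^ A') :=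
        mul_le_mul (h1 s) (h2 s) (norm_nonneg _) (by positivity)
    _ = c1 * c2 * (((1 + |s|) ^ K)⁻¹ * (1 + |s|) ^ A') := by ring
    _ ≤ c1 * c2 * ((1 + |s|) ^ 2)⁻¹ := by
        refine mul_le_mul_of_nonneg_left ?_ (by positivity)
        rw [← Real.rpow_natCast, ← Real.rpow_natCast, ← Real.rpow_neg hs0.le,
          ← Real.rpow_neg hs0.le, ← Real.rpow_add hs0]
        refine Real.rpow_le_rpow_of_exponent_le hs ?_
        push_cast
        linarith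

/-- **the absolute version of steps 7.4 and 7.5** -/
theorem TS_bound {hp : ℝ → ℝ} {cc Rp : ℝ} (hpu : PU hp cc) (hRp : ∀ u, hp u ≠ 0 → |u| ≤ Rp)
    {h : ℝ → ℂ} (hh : HW h) (r : ℕ)
    {w : ℝ → ℂ} (w1 : ContDiff ℝ ∞ w) (w2 : HasCompactSupport w) {V : ℝ → ℂ} {R Rb : ℝ}
    (hR : ∀ x, V x ≠ 0 → x ≤ R) (hRb : ∀ x, V x ≠ 0 → |Real.log x| ≤ Rb)
    (j l lc : ℤ) (A : ℕ) (A' : ℝ) :
    ∃ (C : ℝ) (J : ℕ), 0 ≤ C ∧ ∀ (M M' : Eis), (2 : Eis) ∣ M → M ∣ M' →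
      (∀ p : Eis, Prime p → p ∣ M' → p ∣ M) → ∀ χ ψ φ : Eis → ℂ, HC M' χ →
      ∀ y Q₀ : ℝ, 1 ≤ Q₀ → (nm M : ℝ) < Q₀ ^ (y / r) / 9 → ∀ κ t tb tc B : ℝ, 0 < B →
      ∀ BB : ℕ → ℝ,
      (∀ (n : ℕ) (s : ℝ), ∑ k ∈ (ball ⌊Real.exp (cc * n + Rp)⌋₊).filter (fun k => k ≠ 0),
        ‖ND h r y Q₀ M M' χ ψ φ j l lc V tb tc B s k‖ ≤ BB n * (1 + |s|) ^ A') →
      Summable (fun n : ℕ => ((1 + Real.exp (cc * n - Real.log B - gam r y Q₀ + κ -
        Real.log (3 * nm M'))) ^ A)⁻¹ * BB n) →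
      ‖TSum h r y Q₀ M χ ψ φ j l lc w V κ t tb tc B‖ ≤
        C * (1 + |t|) ^ J * (Real.exp κ * ((Real.sqrt B)⁻¹ * Real.exp (-gam r y Q₀))) *
          (‖NSum (hE h) r y Q₀ Finset.univ M (twt (psiD M' χ ψ) l tb) (twt (phiD M' χ φ) lc tc)
              (vH V) B 0‖ +
            ∑' n : ℕ, ((1 + Real.exp (cc * n - Real.log B - gam r y Q₀ + κ -
              Real.log (3 * nm M'))) ^ A)⁻¹ * BB n) := by
  classical
  set K : ℕ := ⌈A'⌉₊ + 2 with hK
  have hK' : A' + 2 ≤ K := by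
    rw [hK]; push_cast
    linarith [Nat.le_ceil A']
  obtain ⟨C, J, hC, H⟩ := TS_signed hpu hRp hh r w1 w2 hR hRb j l lc A K
  obtain ⟨Hb, hH⟩ := hpu.cd.continuous.bounded_above_of_compact_support hpu.cs
  have hH0 : 0 ≤ Hb := (norm_nonneg _).trans (hH 0)
  set c0 : ℝ := ∫ z, ‖gf w j z‖ with hc0
  have hc00 : 0 ≤ c0 := integral_nonneg fun _ => norm_nonneg _
  refine ⟨2 * (c0 + C * Hb * Iw), J, by have := Iw_nonneg; positivity, ?_⟩
  intro M M' h2M hMM hrad χ ψ φ hχ y Q₀ hQ₀ hMQ κ t tb tc B hB BB hBB hsum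
  obtain ⟨ker, k1, k2, k3, k4, k5⟩ := H M M' h2M hMM hrad χ ψ φ hχ y Q₀ hQ₀ hMQ κ t tb tc B hB
  have hM0 := nm_pos' hχ.q0
  have hBB0 : ∀ n, 0 ≤ BB n := by
    intro n
    have h1 := hBB n 0
    simp only [abs_zero, add_zero, Real.one_rpow, mul_one] at h1
    exact (Finset.sum_nonneg fun _ _ => norm_nonneg _).trans h1
  set E : ℕ → ℝ := fun n => ((1 + Real.exp (cc * n - Real.log B - gam r y Q₀ + κ -
              Real.log (3 * nm M'))) ^ A)⁻¹ with hE'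
  have hE0 : ∀ n, 0 ≤ E n := fun n => by rw [hE']; positivity
  have ht : (1 : ℝ) ≤ (1 + |t|) ^ J := one_le_pow₀ (by linarith [abs_nonneg t])
  -- the blocks
  have hb : ∀ n, ‖∫ s, ker n s * blkN hp cc Rp h r y Q₀ M M' χ ψ φ j l lc V tb tc B n s‖ ≤
      (C * (1 + |t|) ^ J * Hb * nm M' * Iw) * (E n * BB n) := by
    intro n
    have h1 := norm_int_le (ker := ker n) (g := blkN hp cc Rp h r y Q₀ M M' χ ψ φ j l lc V tb tc B n)
      (c1 := C * (1 + |t|) ^ J * E n) (c2 := Hb * nm M' * BB n) (K := K) (A' := A')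
      (by have := hE0 n; positivity) (by have := hBB0 n; positivity) hK' (k3 n) ?_
    · refine h1.trans (le_of_eq (by ring))
    intro s
    unfold blkN
    rw [norm_mul, norm_osc, one_mul]
    refine (norm_sum_le _ _).trans ?_
    have h2 : ∀ k ∈ (ball ⌊Real.exp (cc * n + Rp)⌋₊).filter (fun k => k ≠ 0),
        ‖((hp (Real.log (nm k) - cc * n) : ℝ) : ℂ) * (DM M' χ k * ang (-j) k *
          (osc s (Real.log (nm k)) * ND h r y Q₀ M M' χ ψ φ j l lc V tb tc B s k))‖ ≤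
        Hb * nm M' * ‖ND h r y Q₀ M M' χ ψ φ j l lc V tb tc B s k‖ := by
      intro k hk
      have hk0 : k ≠ 0 := (Finset.mem_filter.mp hk).2
      rw [norm_mul, norm_mul, norm_mul, norm_mul, norm_ang_le _ hk0, norm_osc, one_mul, mul_one,
        Complex.norm_real, ← mul_assoc]
      refine mul_le_mul_of_nonneg_right ?_ (norm_nonneg _)
      exact mul_le_mul (hH _) (norm_DM_le hχ k) (norm_nonneg _) hH0
    refine (Finset.sum_le_sum h2).trans ?_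
    rw [← Finset.mul_sum, mul_assoc (Hb * (nm M' : ℝ)) (BB n)]
    exact mul_le_mul_of_nonneg_left (hBB n s) (by positivity)
  have hs2 : Summable (fun n : ℕ => (C * (1 + |t|) ^ J * Hb * nm M' * Iw) * (E n * BB n)) :=
    hsum.mul_left _
  have hs1 : Summable (fun n : ℕ => ‖∫ s, ker n s *
      blkN hp cc Rp h r y Q₀ M M' χ ψ φ j l lc V tb tc B n s‖) :=
    Summable.of_nonneg_of_le (fun _ => norm_nonneg _) hb hs2
  have hT : ‖∑' n : ℕ, ∫ s, ker n s *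
      blkN hp cc Rp h r y Q₀ M M' χ ψ φ j l lc V tb tc B n s‖ ≤
      (C * (1 + |t|) ^ J * Hb * nm M' * Iw) * ∑' n : ℕ, E n * BB n := by
    rw [← tsum_mul_left]
    exact (norm_tsum_le_tsum_norm hs1).trans (hs1.tsum_le_tsum hb hs2)
  have hF : ‖fC (gt w j t) 0‖ ≤ c0 := by
    refine (norm_fC_le (f := gt w j t) (ξ := 0)).trans (le_of_eq ?_)
    rw [hc0]
    congr 1
    funext z
    exact norm_tws _ _ _
  have hu : ‖(iS3 / (‖iS3‖ : ℂ)) ^ j * ang j M'‖ = 1 := by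
    rw [norm_mul, norm_ang_le _ hχ.q0, norm_zpow, norm_div, Complex.norm_real, norm_norm,
      div_self (norm_pos_iff.mpr iS3_ne_zero).ne', one_zpow, one_mul]
  have h3 : (1 : ℝ) ≤ Real.sqrt 3 := by
    rw [Real.one_le_sqrt]; norm_num
  set X : ℝ := (Real.sqrt B)⁻¹ * Real.exp (-gam r y Q₀) with hX
  have hX0 : 0 ≤ X := by rw [hX]; positivity
  set N0 : ℝ := ‖NSum (hE h) r y Q₀ Finset.univ M (twt (psiD M' χ ψ) l tb)
    (twt (phiD M' χ φ) lc tc) (vH V) B 0‖ with hN0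
  set TT : ℝ := ∑' n : ℕ, E n * BB n with hTT
  have hTT0 : 0 ≤ TT := tsum_nonneg fun n => mul_nonneg (hE0 n) (hBB0 n)
  have hpar : ‖DM M' χ 0 * fC (gt w j t) 0 *
              NSum (hE h) r y Q₀ Finset.univ M (twt (psiD M' χ ψ) l tb) (twt (phiD M' χ φ) lc tc)
                (vH V) B 0 +
              ((iS3 / (‖iS3‖ : ℂ)) ^ j * ang j M') *
              ∑' n : ℕ, ∫ s, ker n s *
                blkN hp cc Rp h r y Q₀ M M' χ ψ φ j l lc V tb tc B n s‖ ≤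
      nm M' * ((c0 + C * Hb * Iw) * (1 + |t|) ^ J * (N0 + TT)) := by
    refine (norm_add_le _ _).trans ?_
    rw [norm_mul, norm_mul, norm_mul ((iS3 / (‖iS3‖ : ℂ)) ^ j * ang j M'), hu, one_mul]
    have e1 : ‖DM M' χ 0‖ * ‖fC (gt w j t) 0‖ * N0 ≤ nm M' * (c0 * (1 + |t|) ^ J * N0) := by
      calc ‖DM M' χ 0‖ * ‖fC (gt w j t) 0‖ * N0 ≤ nm M' * c0 * N0 := by
            refine mul_le_mul_of_nonneg_right ?_ (norm_nonneg _)
            exact mul_le_mul (norm_DM_le hχ 0) hF (norm_nonneg _) hM0.le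
        _ = nm M' * (c0 * 1 * N0) := by ring
        _ ≤ nm M' * (c0 * (1 + |t|) ^ J * N0) := by
            gcongr
    have hI := Iw_nonneg
    calc ‖DM M' χ 0‖ * ‖fC (gt w j t) 0‖ * N0 + _
        ≤ nm M' * (c0 * (1 + |t|) ^ J * N0) +
          (C * (1 + |t|) ^ J * Hb * nm M' * Iw) * TT := add_le_add e1 hT
      _ = nm M' * ((1 + |t|) ^ J * (c0 * N0 + C * Hb * Iw * TT)) := by ring
      _ ≤ nm M' * ((1 + |t|) ^ J * ((c0 + C * Hb * Iw) * (N0 + TT))) := by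
          refine mul_le_mul_of_nonneg_left (mul_le_mul_of_nonneg_left ?_ (by positivity)) hM0.le
          have a1 : 0 ≤ c0 * TT := mul_nonneg hc00 hTT0
          have a2 : 0 ≤ C * Hb * Iw * N0 := by positivity
          nlinarith
      _ = _ := by ring
  rw [k5, norm_mul, norm_mul, norm_mul, norm_mul, norm_osc, one_mul, Complex.norm_real,
    Complex.norm_real, Complex.norm_real]
  have e2 : ‖(2 / (Real.sqrt 3 * nm M') : ℝ)‖ ≤ 2 / nm M' := by
    rw [Real.norm_of_nonneg (by positivity)]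
    refine div_le_div_of_nonneg_left (by norm_num) hM0 ?_
    nlinarith
  rw [Real.norm_of_nonneg (Real.exp_pos κ).le, Real.norm_of_nonneg hX0]
  calc ‖(2 / (Real.sqrt 3 * nm M') : ℝ)‖ * Real.exp κ * X * _
      ≤ 2 / nm M' * Real.exp κ * X * (nm M' * ((c0 + C * Hb * Iw) * (1 + |t|) ^ J * (N0 + TT))) := by
        gcongr
    _ = _ := by
        field_simp

end Crest.Agent.R017.L7858
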