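import Crest.Agent.R017.L7b_858

/-!
# Row 17, section B, leaf L7: trivial bounds
-/

set_option autoImplicit false

noncomputable section

open Complex MeasureTheory
open scoped ComplexConjugate SchwartzMap ContDiff

namespace Crest.Agent.R017.L7858

open Crest.Agent.R012 Crest.Agent.R012.Eis Crest.Agent.R012.Mob705 Crest.Agent.R012.Gauss880
open Crest.Agent.R012.Po581
open Crest.Agent.R012.Weight600 (osc norm_osc)
open Crest.Agent.R017.End699
open Crest.Agent.R017.FE47 Crest.Agent.R017.Sx440 Crest.Agent.R017.Sx545 Crest.Agent.R017.B770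
open Crest.Agent.R017.PT858 NatZ571

lemma norm_twt_le {φ : Eis → ℂ} {b : Eis} (hb : b ≠ 0) (hφ : ‖φ b‖ ≤ 1) (l : ℤ) (t : ℝ) :
    ‖twt φ l t b‖ ≤ 1 := by
  unfold twt End699.tw
  rw [norm_mul, norm_mul, norm_ang_le l hb, cpow_eq_osc hb, norm_osc, mul_one, mul_one]
  exact hφ

/-- `NSum` only depends on the values of `f, g` at the primary elements -/
lemma NSum_congr (h : ℝ → ℂ) (r : ℕ) (y Q₀ : ℝ) (J : Finset (Fin r)) (M : Eis) {f f' g g' : Eis → ℂ}
    (hf : ∀ b, IsPrim b → f b = f' b) (hg : ∀ b, IsPrim b → g b = g' b) (V : ℝ → ℂ) (Q : ℝ) (k : Eis) :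
    NSum h r y Q₀ J M f g V Q k = NSum h r y Q₀ J M f' g' V Q k := by
  classical
  unfold NSum
  refine Finset.sum_congr rfl fun p hp => ?_
  rw [hg _ (isPrim_prod hp)]
  congr 1
  refine tsum_congr fun b => ?_
  split_ifs with hb
  · rw [hf b hb.1]
  · rfl

lemma card_FB_le (M : Eis) {x : ℝ} (hx : 0 ≤ x) : ((FB M ⌊x⌋₊).card : ℝ) ≤ 100 * x := by
  classical
  have h1 : ((FB M ⌊x⌋₊).card : ℝ) ≤ ((primBall ⌊x⌋₊).card : ℝ) := by
    unfold FB
    exact_mod_cast Finset.card_filter_le _ _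
  refine h1.trans ((Lat277.card_primBall_le _).trans ?_)
  exact mul_le_mul_of_nonneg_left (Nat.floor_le hx) (by norm_num)

/-- **trivial bound for the natural sum** -/
theorem NSum_trivial {h : ℝ → ℂ} (hh : HW h) {V : ℝ → ℂ} (hV : SW V) (r : ℕ) (y : ℝ) :
    ∃ C : ℝ, 0 ≤ C ∧ ∀ M : Eis, (2 : Eis) ∣ M → ∀ f g : Eis → ℂ, (∀ b, IsPrim b → ‖f b‖ ≤ 1) →
      (∀ b, IsPrim b → ‖g b‖ ≤ 1) → ∀ Q₀ B : ℝ, 1 ≤ Q₀ → 0 < B → ∀ (J : Finset (Fin r)) (k : Eis),
      ‖NSum h r y Q₀ J M f g V B k‖ ≤ C * (CJ r y Q₀ J ^ (3 / 2 : ℝ) * B ^ 2) := by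
  classical
  obtain ⟨Bh, hBh⟩ : ∃ Bh : ℝ, ∀ u, ‖h u‖ ≤ Bh :=
    hh.cd.continuous.bounded_above_of_compact_support (by
      refine HasCompactSupport.intro (isCompact_Icc (a := (-1 : ℝ)) (b := 1)) fun u hu => ?_
      by_contra hne
      exact hu (abs_le.mp (hh.supp u hne)))
  obtain ⟨BV, R, hBV0, hR1, hBV, hR⟩ := SW.bounds hV
  obtain ⟨D, hD0, hD⟩ := amp_sum_le r y hBh (a := 1 / 2) (by norm_num)
  refine ⟨D * (100 * R ^ 2 * BV), by positivity, ?_⟩
  intro M h2 f g hf hg Q₀ B hQ₀ hB J k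
  have hRB : 0 ≤ R * B := by positivity
  unfold NSum
  refine (norm_sum_le _ _).trans ?_
  have hterm : ∀ p ∈ tup r y Q₀ J, ‖(∏ i : J, h (Real.log (nm (p i)) - kap r y Q₀ i)) *
      g (∏ i : J, p i) *
        ∑' b : Eis, if Sm M b then f b * tk k b (∏ i : J, p i) * V (nm b / B) else 0‖ ≤
      ((∏ i : J, ‖h (Real.log (nm (p i)) - kap r y Q₀ i)‖) * (nm (∏ i : J, p i) : ℝ) ^ (1 / 2 : ℝ)) *
        (100 * R ^ 2 * BV * B ^ 2) := by
    intro p hp
    set c := ∏ i : J, p i with hc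
    have hcp : IsPrim c := isPrim_prod hp
    have e1 : (∑' b : Eis, if Sm M b then f b * tk k b c * V (nm b / B) else 0) =
        ∑ b ∈ FB M ⌊R * B⌋₊, f b * tk k b c * V (nm b / B) :=
      tsum_Sm hR M (fun b => f b * tk k b c) hB V (fun x hx => hx)
    rw [e1, norm_mul, norm_mul, norm_prod]
    have e2 : ‖∑ b ∈ FB M ⌊R * B⌋₊, f b * tk k b c * V (nm b / B)‖ ≤
        (100 * (R * B)) * ((R * B) * Real.sqrt (nm c) * BV) := by
      refine (norm_sum_le _ _).trans ?_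
      have e3 : ∀ b ∈ FB M ⌊R * B⌋₊, ‖f b * tk k b c * V (nm b / B)‖ ≤
          (R * B) * Real.sqrt (nm c) * BV := by
        intro b hb
        obtain ⟨hb1, hb2⟩ := mem_FB.mp hb
        have hb3 : (nm b : ℝ) ≤ R * B := (Nat.cast_le.mpr hb1).trans (Nat.floor_le hRB)
        rw [norm_mul, norm_mul]
        have h3 := norm_tk_le (k := k) (hb2.mono h2) hcp
        calc ‖f b‖ * ‖tk k b c‖ * ‖V (nm b / B)‖ ≤ 1 * (nm b * Real.sqrt (nm c)) * BV := by
              refine mul_le_mul (mul_le_mul (hf b hb2.1) h3 (norm_nonneg _) zero_le_one) (hBV _)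
                (norm_nonneg _) (by positivity)
          _ ≤ (R * B) * Real.sqrt (nm c) * BV := by
              rw [one_mul]
              gcongr
      refine (Finset.sum_le_sum e3).trans ?_
      rw [Finset.sum_const, nsmul_eq_mul]
      exact mul_le_mul_of_nonneg_right (card_FB_le M hRB) (by positivity)
    have e4 : (nm c : ℝ) ^ (1 / 2 : ℝ) = Real.sqrt (nm c) := (Real.sqrt_eq_rpow _).symm
    rw [e4]
    calc (∏ i : J, ‖h (Real.log (nm (p i)) - kap r y Q₀ i)‖) * ‖g c‖ * _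
        ≤ (∏ i : J, ‖h (Real.log (nm (p i)) - kap r y Q₀ i)‖) * 1 *
          ((100 * (R * B)) * ((R * B) * Real.sqrt (nm c) * BV)) := by
          refine mul_le_mul (mul_le_mul_of_nonneg_left (hg c hcp)
            (Finset.prod_nonneg fun _ _ => norm_nonneg _)) e2 (norm_nonneg _) ?_
          exact mul_nonneg (Finset.prod_nonneg fun _ _ => norm_nonneg _) zero_le_one
      _ = _ := by ring
  refine (Finset.sum_le_sum hterm).trans ?_
  rw [← Finset.sum_mul]
  have h5 := hD Q₀ hQ₀ J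
  rw [show (1 : ℝ) + 1 / 2 = 3 / 2 by norm_num] at h5
  calc _ ≤ (D * CJ r y Q₀ J ^ (3 / 2 : ℝ)) * (100 * R ^ 2 * BV * B ^ 2) :=
        mul_le_mul_of_nonneg_right h5 (by positivity)
    _ = _ := by ring

/-- trivial bound for `Psi'` -/
theorem Psi'_trivial {V : ℝ → ℂ} (hV : SW V) : ∃ C : ℝ, 0 ≤ C ∧ ∀ M : Eis, (2 : Eis) ∣ M →
    ∀ f : Eis → ℂ, (∀ b, IsPrim b → ‖f b‖ ≤ 1) → ∀ (a : Eis) (B : ℝ), 0 < B →
      ‖Psi' M f a V B‖ ≤ C * (B * Real.sqrt B) := by
  classical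
  obtain ⟨BV, R, hBV0, hR1, hBV, hR⟩ := SW.bounds hV
  refine ⟨100 * R * Real.sqrt R * BV, by positivity, ?_⟩
  intro M h2 f hf a B hB
  have hRB : 0 ≤ R * B := by positivity
  have e1 : Psi' M f a V B = ∑ b ∈ FB M ⌊R * B⌋₊, f b * hN a b * V (nm b / B) := by
    unfold Psi'
    exact tsum_Sm hR M (fun b => f b * hN a b) hB V (fun x hx => hx)
  rw [e1]
  refine (norm_sum_le _ _).trans ?_
  have e3 : ∀ b ∈ FB M ⌊R * B⌋₊, ‖f b * hN a b * V (nm b / B)‖ ≤ Real.sqrt (R * B) * BV := by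
    intro b hb
    obtain ⟨hb1, hb2⟩ := mem_FB.mp hb
    have hb3 : (nm b : ℝ) ≤ R * B := (Nat.cast_le.mpr hb1).trans (Nat.floor_le hRB)
    rw [norm_mul, norm_mul]
    have h3 := norm_hN (a := a) (hb2.mono h2)
    calc ‖f b‖ * ‖hN a b‖ * ‖V (nm b / B)‖ ≤ 1 * Real.sqrt (nm b) * BV := by
          refine mul_le_mul (mul_le_mul (hf b hb2.1) h3 (norm_nonneg _) zero_le_one) (hBV _)
            (norm_nonneg _) (by positivity)
      _ ≤ Real.sqrt (R * B) * BV := by
          rw [one_mul]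
          exact mul_le_mul_of_nonneg_right (Real.sqrt_le_sqrt hb3) hBV0
  refine (Finset.sum_le_sum e3).trans ?_
  rw [Finset.sum_const, nsmul_eq_mul]
  calc _ ≤ (100 * (R * B)) * (Real.sqrt (R * B) * BV) :=
        mul_le_mul_of_nonneg_right (card_FB_le M hRB) (by positivity)
    _ = _ := by rw [Real.sqrt_mul (by linarith)]; ring

/-- **trivial bound for the sum before Poisson summation** -/
theorem TSum_trivial {h : ℝ → ℂ} (hh : HW h) {w : ℝ → ℂ} (w1 : ContDiff ℝ ∞ w)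
    (w2 : HasCompactSupport w) {V : ℝ → ℂ} (hV : SW V) (r : ℕ) (y : ℝ) :
    ∃ C : ℝ, 0 ≤ C ∧ ∀ M : Eis, (2 : Eis) ∣ M → ∀ χ ψ φ : Eis → ℂ, (∀ b, IsPrim b → ‖χ b‖ ≤ 1) →
      (∀ b, IsPrim b → ‖ψ b‖ ≤ 1) → (∀ b, IsPrim b → ‖φ b‖ ≤ 1) → ∀ Q₀ B : ℝ, 1 ≤ Q₀ → 0 < B →
      ∀ (j l lc : ℤ) (κ t tb tc : ℝ),
      ‖TSum h r y Q₀ M χ ψ φ j l lc w V κ t tb tc B‖ ≤
        C * (Real.exp κ * (B * Real.sqrt B) * CJ r y Q₀ Finset.univ) := by
  classical
  obtain ⟨Bh, hBh⟩ : ∃ Bh : ℝ, ∀ u, ‖h u‖ ≤ Bh :=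
    hh.cd.continuous.bounded_above_of_compact_support (by
      refine HasCompactSupport.intro (isCompact_Icc (a := (-1 : ℝ)) (b := 1)) fun u hu => ?_
      by_contra hne
      exact hu (abs_le.mp (hh.supp u hne)))
  obtain ⟨Bw, hBw⟩ := w1.continuous.bounded_above_of_compact_support w2
  have hBw0 : 0 ≤ Bw := (norm_nonneg _).trans (hBw 0)
  obtain ⟨Rw, hRw0, hRw⟩ : ∃ R : ℝ, 0 ≤ R ∧ ∀ u, w u ≠ 0 → |u| ≤ R := by
    obtain ⟨R, hR⟩ := w2.isCompact.isBounded.exists_norm_le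
    exact ⟨max R 0, le_max_right _ _, fun u hu =>
      (hR u (subset_tsupport _ hu)).trans (le_max_left _ _)⟩
  obtain ⟨CP, hCP0, hCP⟩ := Psi'_trivial hV
  obtain ⟨D, hD0, hD⟩ := amp_sum_le r y hBh (a := 0) (le_refl _)
  refine ⟨D * (100 * Real.exp Rw * Bw * CP), by positivity, ?_⟩
  intro M h2 χ ψ φ hχ hψ hφ Q₀ B hQ₀ hB j l lc κ t tb tc
  set SA : Finset Eis := primBall ⌊Real.exp (κ + Rw)⌋₊ with hSA
  have hcard : (SA.card : ℝ) ≤ 100 * Real.exp (κ + Rw) :=
    (Lat277.card_primBall_le _).trans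
      (mul_le_mul_of_nonneg_left (Nat.floor_le (Real.exp_pos _).le) (by norm_num))
  unfold TSum
  refine (norm_sum_le _ _).trans ?_
  have hterm : ∀ p ∈ tup r y Q₀ Finset.univ,
      ‖(∏ i : (Finset.univ : Finset (Fin r)), h (Real.log (nm (p i)) - kap r y Q₀ i)) *
      (twt φ lc tc (∏ i, p i) * ((Real.sqrt (nm (∏ i, p i)))⁻¹ : ℝ) * conj (G (∏ i, p i))) *
      ∑' a : Eis, End699.ext (fun a => twt χ j t a * w (Real.log (nm a) - κ)) a *
        sy a (∏ i, p i) * Psi' M (twt ψ l tb) a V B‖ ≤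
      ((∏ i : (Finset.univ : Finset (Fin r)), ‖h (Real.log (nm (p i)) - kap r y Q₀ i)‖) *
        (nm (∏ i, p i) : ℝ) ^ (0 : ℝ)) *
        (100 * Real.exp Rw * Bw * CP * (Real.exp κ * (B * Real.sqrt B))) := by
    intro p hp
    set c := ∏ i, p i with hc
    have hcp : IsPrim c := isPrim_prod hp
    have hc1 : (1 : ℝ) ≤ nm c := by exact_mod_cast nm_pos.mpr hcp.ne_zero
    have hc2 : (Real.sqrt (nm c))⁻¹ ≤ 1 := inv_le_one_of_one_le₀ (Real.one_le_sqrt.mpr hc1)
    rw [tsum_eq_sum (s := SA)]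
    · rw [norm_mul, norm_mul, norm_prod, Real.rpow_zero, mul_one]
      have e1 : ‖twt φ lc tc c * ((Real.sqrt (nm c))⁻¹ : ℝ) * conj (G c)‖ ≤ 1 := by
        rw [norm_mul, norm_mul, RCLike.norm_conj, Complex.norm_real,
          Real.norm_of_nonneg (by positivity)]
        have a1 := norm_twt_le hcp.ne_zero (hφ c hcp) lc tc
        have a2 := norm_G_le syG hcp
        calc ‖twt φ lc tc c‖ * (Real.sqrt (nm c))⁻¹ * ‖G c‖ ≤ 1 * 1 * 1 := by
              gcongr
          _ = 1 := by norm_num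
      have e2 : ‖∑ a ∈ SA, End699.ext (fun a => twt χ j t a * w (Real.log (nm a) - κ)) a *
          sy a c * Psi' M (twt ψ l tb) a V B‖ ≤
          (100 * Real.exp (κ + Rw)) * (Bw * (CP * (B * Real.sqrt B))) := by
        refine (norm_sum_le _ _).trans ?_
        have e3 : ∀ a ∈ SA, ‖End699.ext (fun a => twt χ j t a * w (Real.log (nm a) - κ)) a *
          sy a c * Psi' M (twt ψ l tb) a V B‖ ≤ Bw * (CP * (B * Real.sqrt B)) := by
          intro a ha
          rw [hSA, mem_primBall] at ha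
          simp only [End699.ext, if_pos ha.2]
          rw [norm_mul, norm_mul, norm_mul]
          have a1 := norm_twt_le ha.2.ne_zero (hχ a ha.2) j t
          have a2 := hBw (Real.log (nm a) - κ)
          have a3 : ‖sy a c‖ ≤ 1 := norm_sy_le syG hcp
          have a4 := hCP M h2 (twt ψ l tb)
            (fun b hb => norm_twt_le hb.ne_zero (hψ b hb) l tb) a B hB
          calc ‖twt χ j t a‖ * ‖w (Real.log (nm a) - κ)‖ * ‖sy a c‖ *
                ‖Psi' M (twt ψ l tb) a V B‖ ≤ 1 * Bw * 1 * (CP * (B * Real.sqrt B)) := by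
                gcongr
            _ = _ := by ring
        refine (Finset.sum_le_sum e3).trans ?_
        rw [Finset.sum_const, nsmul_eq_mul]
        exact mul_le_mul_of_nonneg_right hcard (by positivity)
      calc _ ≤ (∏ i : (Finset.univ : Finset (Fin r)), ‖h (Real.log (nm (p i)) - kap r y Q₀ i)‖) *
            1 * ((100 * Real.exp (κ + Rw)) * (Bw * (CP * (B * Real.sqrt B)))) := by
            refine mul_le_mul (mul_le_mul_of_nonneg_left e1
              (Finset.prod_nonneg fun _ _ => norm_nonneg _)) e2 (norm_nonneg _) ?_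
            exact mul_nonneg (Finset.prod_nonneg fun _ _ => norm_nonneg _) zero_le_one
        _ = _ := by rw [Real.exp_add]; ring
    · intro a ha
      have : End699.ext (fun a => twt χ j t a * w (Real.log (nm a) - κ)) a = 0 := by
        simp only [End699.ext]
        split_ifs with hpa
        · by_contra hne
          have h1 := hRw _ (right_ne_zero_of_mul hne)
          have h3 := (abs_le.mp h1).2
          apply ha
          rw [hSA, mem_primBall]
          refine ⟨Nat.le_floor ?_, hpa⟩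
          rw [← Real.log_le_iff_le_exp (nm_pos' hpa.ne_zero)]
          linarith
        · rfl
      rw [this, zero_mul, zero_mul]
  refine (Finset.sum_le_sum hterm).trans ?_
  rw [← Finset.sum_mul]
  have h5 := hD Q₀ hQ₀ Finset.univ
  rw [add_zero, Real.rpow_one] at h5
  calc _ ≤ (D * CJ r y Q₀ Finset.univ) *
        (100 * Real.exp Rw * Bw * CP * (Real.exp κ * (B * Real.sqrt B))) :=
        mul_le_mul_of_nonneg_right h5 (by positivity)
    _ = _ := by ring

end Crest.Agent.R017.L7858
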