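import Crest.Agent.R017.RGwJ_813

/-!
# Row 17, C.REMg (RG by positivity), part M (helper813): the additional errors `ED` (pairs with
`nm δ > D`, weight `lm` for all classes) under twisted windows
-/

set_option autoImplicit false

noncomputable section

open Complex MeasureTheory Filter Topology
open scoped ComplexConjugate Classical

namespace Crest.Agent.R017.RGw813

open Crest.Agent.R012 Crest.Agent.R012.Eis Crest.Agent.R012.MC
open Crest.Agent.R012.LS2 (S mem_S)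
open Crest.Agent.R012.Weight600 (osc pw)
open Crest.Agent.R017.CM106 (CS TG FS)
open Crest.Agent.R017.C70 (JW)
open Crest.Agent.R017.E1551
open Crest.Agent.R017.Win813

/-- index set over a set of pairs -/
def XP (P : Finset (Eis × Eis)) (Z : ℝ) : Finset (Σ _ : Eis × Eis, Eis) :=
  P.sigma fun p => BF (Z / (nm p.1 : ℝ) ^ 2)

/-- weights with arbitrary coefficients -/
def WP (c : Eis × Eis → ℝ) (K X : ℝ) (x : Σ _ : Eis × Eis, Eis) : ℝ :=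
  c x.1 * lm K X x.1.1 x.2

lemma WP_nonneg {c : Eis × Eis → ℝ} (hc : ∀ p, 0 ≤ c p) {K X : ℝ} (hK : 0 ≤ K) (hX : 0 ≤ X)
    (x : Σ _ : Eis × Eis, Eis) : 0 ≤ WP c K X x := mul_nonneg (hc _) (lm_nonneg hK hX _ _)

lemma PG_WP (P : Finset (Eis × Eis)) (c : Eis × Eis → ℝ) (K X Z : ℝ) (α : Eis → ℂ) (t : ℝ) :
    PG (XP P Z) (WP c K X) gE lE α t =
    ∑ p ∈ P, c p * ∑ j ∈ BF (Z / (nm p.1) ^ 2), lm K X p.1 j *
      tgf α (p.1 * p.2) (j * p.2) t := by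
  unfold PG XP
  rw [Finset.sum_sigma]
  refine Finset.sum_congr rfl fun p _ => ?_
  rw [Finset.mul_sum]
  refine Finset.sum_congr rfl fun j _ => ?_
  unfold WP gE lE
  ring

lemma gE_neP {P : Finset (Eis × Eis)} (hP : ∀ p ∈ P, IsPrim p.1 ∧ IsPrim p.2) {Z : ℝ}
    {x : Σ _ : Eis × Eis, Eis} (hx : x ∈ XP P Z) : gE x ≠ 0 := by
  have h := hP _ (Finset.mem_sigma.1 hx).1
  exact mul_ne_zero h.1.ne_zero h.2.ne_zero

lemma PG_tw_P {P : Finset (Eis × Eis)} (hP : ∀ p ∈ P, IsPrim p.1 ∧ IsPrim p.2)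
    {c : Eis × Eis → ℝ} (hc : ∀ p, 0 ≤ c p) {K X X' Z r : ℝ} (hK : 0 < K) (hX : 0 < X)
    (hX' : 0 < X') (hr : 1 ≤ r) (hXX : X' ≤ r * X) {α : Eis → ℂ} (h : FS α) {a b : ℕ}
    (hb : b < 3) (t : ℝ) :
    PG (XP P Z) (WP c K X') gE lE (tw2 a b α) t ≤
      3 * r * PG (XP P (9 * Z)) (WP c K X) gE lE α t := by
  rw [PG_WP, PG_WP, Finset.mul_sum]
  refine Finset.sum_le_sum fun p hp => ?_
  have hpp := hP p hp
  have h1 := tw_tgf h (a := a) hb (Z := Z / (nm p.1) ^ 2) (M := 3)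
    (W := fun j => lm K X' p.1 j) (by norm_num)
    (fun j => lm_nonneg hK.le hX'.le _ _)
    (fun j j' hj hj' hjj => lm_nine hK hX' hpp.1.ne_zero hj hj' hjj) (hpp.1.mul hpp.2) p.2 t
  rw [← mul_div_assoc] at h1
  have h2 : ∑ j ∈ BF (9 * Z / (nm p.1) ^ 2), lm K X' p.1 j *
      tgf α (p.1 * p.2) (j * p.2) t ≤ r * ∑ j ∈ BF (9 * Z / (nm p.1) ^ 2),
      lm K X p.1 j * tgf α (p.1 * p.2) (j * p.2) t := by
    rw [Finset.mul_sum]
    refine Finset.sum_le_sum fun j _ => ?_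
    rw [← mul_assoc]
    exact mul_le_mul_of_nonneg_right (lm_scale hK hX hX' hr hXX) (tgf_nonneg _ _ _ _)
  calc c p * ∑ j ∈ BF (Z / (nm p.1) ^ 2), lm K X' p.1 j *
        tgf (tw2 a b α) (p.1 * p.2) (j * p.2) t ≤
      c p * (3 * (r * ∑ j ∈ BF (9 * Z / (nm p.1) ^ 2),
        lm K X p.1 j * tgf α (p.1 * p.2) (j * p.2) t)) :=
        mul_le_mul_of_nonneg_left (h1.trans (mul_le_mul_of_nonneg_left h2 (by norm_num)))
          (hc p)
    _ = _ := by ring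

/-- general functionals over pairs, weight `lm` -/
def EP (A K X Z : ℝ) (P : Finset (Eis × Eis)) (c : Eis × Eis → ℝ) (β : Eis → ℂ) : ℝ :=
  ∑ p ∈ P, c p * ∑ j ∈ BF (Z / (nm p.1 : ℝ) ^ 2), lm K X p.1 j * Wf A β p.1 j p.2

lemma EP_eq (A : ℕ) (K X Z : ℝ) (P : Finset (Eis × Eis)) (c : Eis × Eis → ℝ) (α : Eis → ℂ)
    (t : ℝ) :
    EP A K X Z P c (fun n => α n * pw t (nm n)) = MG A (XP P Z) (WP c K X) gE lE α t := by
  unfold EP MG XP
  rw [Finset.sum_sigma]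
  refine Finset.sum_congr rfl fun p _ => ?_
  rw [Finset.mul_sum]
  refine Finset.sum_congr rfl fun j _ => ?_
  rw [Wf_eq]
  unfold WP gE lE
  ring

/-- **transfer of general functionals over pairs** -/
theorem EP_bt {C η K X X' Y Z r M : ℝ} {A B J : ℕ} {P : Finset (Eis × Eis)}
    (hP : ∀ p ∈ P, IsPrim p.1 ∧ IsPrim p.2) {c : Eis × Eis → ℝ} (hc : ∀ p, 0 ≤ c p)
    (hC : 0 ≤ C) (hη : 0 < η) (hη1 : η ≤ 1) (hBJ : J + 2 ≤ B) (hA : 2 ≤ A) {φ : ℝ → ℝ}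
    (hφ : WK C η B φ) (hK : 0 < K) (hX : 0 < X) (hX' : 0 < X') (hY : 0 ≤ Y) (hr : 1 ≤ r)
    (hXX : X' ≤ r * X) (hM0 : 0 ≤ M) {α : Eis → ℂ} (hα : ∀ n, α n ≠ 0 → n ∈ S Y)
    (hM : ∀ t : ℝ, EP A K X (9 * Z) P c (fun n => α n * pw t (nm n)) ≤ M * (1 + |t|) ^ J)
    {p : ℕ × ℕ} (hp : p ∈ T9) (t : ℝ) :
    EP A K X' Z P c (fun n => bt φ α p n * pw t (nm n)) ≤
      3 * r * (C ^ 2 * iA B * iA 2) * (η⁻¹) ^ J * M * (1 + |t|) ^ J := by
  have hF := FS_of_S hY hα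
  rw [EP_eq]
  refine (MG_bt (X := XP P Z) (W := WP c K X') (g := gE) (l := lE) hC hη hη1 hBJ hA hφ hF
    (fun x hx => gE_neP hP hx) (fun x _ => WP_nonneg hc hK.le hX'.le x)
    (M := 3 * r * M) (by positivity) p (fun t => ?_) t).trans (le_of_eq (by ring))
  refine (MG_le hA (FS_tw2 hF p.1 p.2) hF (fun x hx => gE_neP hP hx)
    (fun x hx => gE_neP hP hx) (fun x _ => WP_nonneg hc hK.le hX'.le x)
    (fun x _ => WP_nonneg hc hK.le hX.le x)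
    (PG_tw_P hP hc hK hX hX' hr hXX hF (mem_T9.1 hp).2) t).trans ?_
  rw [mul_assoc (3 * r), ← EP_eq]
  exact mul_le_mul_of_nonneg_left (hM t) (by positivity)

/-- the pairs with `nm δ > D` -/
def PD (Y D : ℝ) : Finset (Eis × Eis) := (S Y ×ˢ S Y).filter fun p => D < (nm p.1 : ℝ)

lemma mem_PD {Y D : ℝ} (hY : 0 ≤ Y) {p : Eis × Eis} (hp : p ∈ PD Y D) :
    IsPrim p.1 ∧ IsPrim p.2 := by
  have h := Finset.mem_product.1 (Finset.mem_filter.1 hp).1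
  exact ⟨((mem_S hY).1 h.1).2.1, ((mem_S hY).1 h.2).2.1⟩

/-- the errors of the pairs with `nm δ > D` -/
def EDd (A K X Y D Z : ℝ) (β : Eis → ℂ) : ℝ := EP A K X Z (PD Y D) cp β

end Crest.Agent.R017.RGw813
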