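import Crest.Agent.R017.LBd_48
import Crest.Agent.R017.RGwM_813
import Crest.Agent.R017.EHw_83

/-!
# Row 17, C.REMg, (LB), the T-side under windows (helper381)

* `EHc_eq_EP`, `EHc_bt` : 320's functional `EHc` under twisted windows and a change of `X`
* `lbt_num` : the three functionals of (LB) at `bt φ α p · pw t` from (SA0), (L+)
* `lbt_all` : their combination with the factor `K / X`
-/

set_option autoImplicit false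

noncomputable section

open Complex MeasureTheory Filter Topology
open scoped ComplexConjugate Classical

namespace Crest.Agent.R017.LBT381

open Crest.Agent.R012 Crest.Agent.R012.Eis Crest.Agent.R012.MC
open Crest.Agent.R012.LS2 (S mem_S)
open Crest.Agent.R012.Weight600 (osc pw)
open Crest.Agent.R017.CM106 (CS TG FS)
open Crest.Agent.R017.E1551 hiding tau Dg
open Crest.Agent.R017.Rough381 (VF)
open Crest.Agent.R017.Win813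
open Crest.Agent.R017.RGw813 (EP EP_bt T9 bt)
open Crest.Agent.R017.EHu320 (EHc)
open Crest.Agent.R017.LBx48 (EHs EHf EHt EHc_nonneg)

/-- `EHc` as 813's functional over pairs -/
lemma EHc_eq_EP (c : ℕ → ℝ) (Q : Eis → Prop) (A K X Y Z : ℝ) (β : Eis → ℂ) :
    EHc c Q A K X Y Z β = EP A K X Z (S Y ×ˢ (S Y).filter Q)
      (fun p => ((nm p.1 : ℝ) * Div277.tau p.1 * (Div277.tau p.2 : ℝ) ^ 4) * c (nm p.2)) β := by
  unfold EHu320.EHc RGw813.EP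
  rw [Finset.sum_product]
  refine Finset.sum_congr rfl fun δ _ => Finset.sum_congr rfl fun e _ => ?_
  unfold LJ
  ring

/-- **`EHc` under twisted windows** -/
theorem EHc_bt {C η K X X' Y Z r M : ℝ} {A B J : ℕ}
    (hC : 0 ≤ C) (hη : 0 < η) (hη1 : η ≤ 1) (hBJ : J + 2 ≤ B) (hA : 2 ≤ A) {φ : ℝ → ℝ}
    (hφ : WK C η B φ) (hK : 0 < K) (hX : 0 < X) (hX' : 0 < X') (hY : 0 ≤ Y) (hr : 1 ≤ r)
    (hXX : X' ≤ r * X) (hM0 : 0 ≤ M) {α : Eis → ℂ} (hα : ∀ n, α n ≠ 0 → n ∈ S Y)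
    {c : ℕ → ℝ} (hc : ∀ n, 0 ≤ c n) {Q : Eis → Prop}
    (hM : ∀ t : ℝ, EHc c Q A K X Y (9 * Z) (fun n => α n * pw t (nm n)) ≤ M * (1 + |t|) ^ J)
    {p : ℕ × ℕ} (hp : p ∈ T9) (t : ℝ) :
    EHc c Q A K X' Y Z (fun n => bt φ α p n * pw t (nm n)) ≤
      3 * r * (C ^ 2 * iA B * iA 2) * (η⁻¹) ^ J * M * (1 + |t|) ^ J := by
  rw [EHc_eq_EP]
  refine EP_bt (X := X) (fun q hq => ?_) (fun q => ?_) hC hη hη1 hBJ hA hφ hK hX hX' hY hr hXX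
    hM0 hα (fun t => ?_) hp t
  · have h := Finset.mem_product.1 hq
    exact ⟨((mem_S hY).1 h.1).2.1, ((mem_S hY).1 (Finset.mem_filter.1 h.2).1).2.1⟩
  · exact mul_nonneg (by positivity) (hc _)
  · rw [← EHc_eq_EP]
    exact hM t

/-- **the three functionals of (LB) under windows** -/
theorem lbt_num {J Aw A : ℕ} (hA : J + 2 ≤ A) (hJA : J + 2 ≤ Aw) {R Cw ε : ℝ} (hR : 0 ≤ R)
    (hCw : 0 ≤ Cw) (hε : 0 < ε) : ∃ C : ℝ, 0 ≤ C ∧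
    ∀ (P K X X' Y η Z G₀ Ma Ml E₀ : ℝ) (α : Eis → ℂ), 1 ≤ P → 0 < K → 0 < X → 0 < X' →
      |Real.log X' - Real.log X| ≤ R + 1 → 1 ≤ Y → Y ≤ P → 0 ≤ Z → 9 * Z ≤ P → 0 < η → η ≤ 1 →
      0 ≤ Ma → 0 ≤ Ml → 0 < E₀ → (∀ n, α n ≠ 0 → n ∈ S Y) →
      (∀ g ∈ S Y, (nm g : ℝ) ≤ G₀ → ∀ V : ℝ, 1 ≤ V → V ≤ 9 * Z * nm g → ∀ t : ℝ,
        VF V (tws (sg α g) t) ≤ Ma / (nm g : ℝ) ^ 2 *
          (V * K / (X / nm g) ^ 2) ^ (1 / 3 : ℝ) * (1 + |t|) ^ J) →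
      (∀ h ∈ S Y, ∀ B V : ℝ, 1 ≤ B → B ≤ Y → 1 ≤ V → V ≤ 9 * Z / (nm h : ℝ) ^ 2 → ∀ t : ℝ,
        E1551.JB Y α (fun U => G₀ < nm (h * U)) h B V t ≤
          Ml / (nm h : ℝ) ^ 2 * yv K X h V * (1 + |t|) ^ J) →
      ∀ p ∈ T9, ∀ φ : ℝ → ℝ, WK Cw η Aw φ → ∀ t : ℝ,
        EHs A K X' Y Z E₀ (fun n => bt φ α p n * pw t (nm n)) ≤
          C * (η⁻¹) ^ J * P ^ ε * (E₀ * (Ma + Ml)) * (1 + |t|) ^ J ∧
        EHf A K X' Y Z (fun n => bt φ α p n * pw t (nm n)) ≤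
          C * (η⁻¹) ^ J * P ^ ε * (Ma + Ml) * (1 + |t|) ^ J ∧
        EHt A K X' Y Z E₀ (fun n => bt φ α p n * pw t (nm n)) ≤
          C * (η⁻¹) ^ J * P ^ ε * (E₀⁻¹ * (Ma + Ml)) * (1 + |t|) ^ J := by
  have hA' : ((J : ℕ) : ℝ) + 1 < A := by
    have : ((J + 2 : ℕ) : ℝ) ≤ A := by exact_mod_cast hA
    push_cast at this
    linarith
  obtain ⟨C₁, hC₁, H₁⟩ := EHv83.ehs0 (A := (A : ℝ)) (J := ((J : ℕ) : ℝ)) hA' (Nat.cast_nonneg J) hε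
  obtain ⟨C₂, hC₂, H₂⟩ := EHv83.ehf0 (A := (A : ℝ)) (J := ((J : ℕ) : ℝ)) hA' (Nat.cast_nonneg J) hε
  obtain ⟨C₃, hC₃, H₃⟩ := EHv83.eht0 (A := (A : ℝ)) (J := ((J : ℕ) : ℝ)) hA' (Nat.cast_nonneg J) hε
  have hi1 := iA_nonneg Aw
  have hi2 := iA_nonneg 2
  set r := Real.exp (R + 1) with hr
  have hr1 : 1 ≤ r := Real.one_le_exp (by linarith)
  set c₀ := 3 * r * (Cw ^ 2 * iA Aw * iA 2) with hc₀
  have hc₀0 : 0 ≤ c₀ := by positivity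
  refine ⟨c₀ * (C₁ + C₂ + C₃), by positivity, ?_⟩
  intro P K X X' Y η Z G₀ Ma Ml E₀ α hP hK hX hX' hXX hY hYP hZ hZP hη hη1 hMa hMl hE hα hSA hL
    p hp φ hφ t
  have hY0 : 0 ≤ Y := by linarith
  have hP0 : 0 < P := by linarith
  have hXr : X' ≤ r * X := by
    have h1 : Real.log X' ≤ Real.log X + (R + 1) := by linarith [(abs_le.mp hXX).2]
    calc X' = Real.exp (Real.log X') := (Real.exp_log hX').symm
      _ ≤ Real.exp (Real.log X + (R + 1)) := Real.exp_le_exp.mpr h1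
      _ = r * X := by rw [Real.exp_add, Real.exp_log hX, mul_comm]
  have hJr : ∀ x : ℝ, x ^ ((J : ℕ) : ℝ) = x ^ J := fun x => Real.rpow_natCast x J
  have hSA' : ∀ g ∈ S Y, (nm g : ℝ) ≤ G₀ → ∀ V : ℝ, 1 ≤ V → V ≤ 9 * Z * nm g → ∀ t : ℝ,
      VF V (tws (sg α g) t) ≤ Ma / (nm g : ℝ) ^ 2 *
        (V * K / (X / nm g) ^ 2) ^ (1 / 3 : ℝ) * (1 + |t|) ^ ((J : ℕ) : ℝ) :=
    fun g hg hgG V h1 h2 t => by rw [hJr]; exact hSA g hg hgG V h1 h2 t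
  have hL' : ∀ h ∈ S Y, ∀ B V : ℝ, 1 ≤ B → B ≤ Y → 1 ≤ V → V ≤ 9 * Z / (nm h : ℝ) ^ 2 →
      ∀ t : ℝ, E1551.JB Y α (fun U => G₀ < nm (h * U)) h B V t ≤
        Ml / (nm h : ℝ) ^ 2 * yv K X h V * (1 + |t|) ^ ((J : ℕ) : ℝ) :=
    fun h hh B V h1 h2 h3 h4 t => by rw [hJr]; exact hL h hh B V h1 h2 h3 h4 t
  have h9Z : 0 ≤ 9 * Z := by linarith
  have k₁ := H₁ P K X Y (9 * Z) G₀ Ma Ml E₀ α hP hK hX hY hYP h9Z hZP hMa hMl hE.le hα hSA' hL'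
  have k₂ := H₂ P K X Y (9 * Z) G₀ Ma Ml α hP hK hX hY hYP h9Z hZP hMa hMl hα hSA' hL'
    (fun _ => True)
  have k₃ := H₃ P K X Y (9 * Z) G₀ Ma Ml E₀ α hP hK hX hY hYP h9Z hZP hMa hMl hE hα hSA' hL'
  have hA2 : 2 ≤ A := by omega
  have hPe : 0 ≤ P ^ ε := by positivity
  have hη' : 0 ≤ (η⁻¹) ^ J := by positivity
  have ht : 0 ≤ (1 + |t|) ^ J := by positivity
  have hM0 : 0 ≤ Ma + Ml := by linarith
  have key : ∀ (c : ℕ → ℝ) (Q : Eis → Prop) (C' m : ℝ), (∀ n, 0 ≤ c n) → 0 ≤ C' → 0 ≤ m →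
      C' ≤ C₁ + C₂ + C₃ →
      (∀ t : ℝ, EHc c Q A K X Y (9 * Z) (fun n => α n * pw t (nm n)) ≤
        C' * P ^ ε * (m * (1 + |t|) ^ ((J : ℕ) : ℝ))) →
      EHc c Q A K X' Y Z (fun n => bt φ α p n * pw t (nm n)) ≤
        c₀ * (C₁ + C₂ + C₃) * (η⁻¹) ^ J * P ^ ε * m * (1 + |t|) ^ J := by
    intro c Q C' m hc hC' hm hCC hb
    have h1 := EHc_bt (A := A) (B := Aw) (J := J) (M := C' * P ^ ε * m) hCw hη hη1 hJA hA2 hφ hK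
      hX hX' hY0 hr1 hXr (by positivity) hα hc (Q := Q) (fun t => by
        have := hb t
        rw [hJr] at this
        linarith) hp t
    refine h1.trans ?_
    rw [← hc₀]
    calc c₀ * (η⁻¹) ^ J * (C' * P ^ ε * m) * (1 + |t|) ^ J =
          C' * (c₀ * ((η⁻¹) ^ J * (P ^ ε * m * (1 + |t|) ^ J))) := by ring
      _ ≤ (C₁ + C₂ + C₃) * (c₀ * ((η⁻¹) ^ J * (P ^ ε * m * (1 + |t|) ^ J))) :=
          mul_le_mul_of_nonneg_right hCC (by positivity)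
      _ = _ := by ring
  refine ⟨?_, ?_, ?_⟩
  · exact key (fun n => (n : ℝ)) (fun e => e ∈ S E₀) C₁ (E₀ * (Ma + Ml))
      (fun n => Nat.cast_nonneg n) hC₁ (by positivity) (by linarith) k₁
  · exact key (fun n => ((n : ℝ))⁻¹) (fun _ => True) C₂ (Ma + Ml)
      (fun n => by positivity) hC₂ hM0 (by linarith) k₂
  · exact key (fun n => ((n : ℝ))⁻¹) (fun e => e ∉ S E₀) C₃ (E₀⁻¹ * (Ma + Ml))
      (fun n => by positivity) hC₃ (by positivity) (by linarith) k₃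

/-- **the T-side of (LB) under windows, all three with the factor `K / X`** -/
theorem lbt_all {J Aw A : ℕ} (hA : J + 2 ≤ A) (hJA : J + 2 ≤ Aw) {R Cw ε : ℝ} (hR : 0 ≤ R)
    (hCw : 0 ≤ Cw) (hε : 0 < ε) : ∃ C : ℝ, 0 ≤ C ∧
    ∀ (P K X X' Y η Z G₀ Ma Ml E₀ a₁ a₂ a₃ : ℝ) (α : Eis → ℂ), 1 ≤ P → 0 < K → 0 < X → 0 < X' →
      |Real.log X' - Real.log X| ≤ R + 1 → 1 ≤ Y → Y ≤ P → 0 ≤ Z → 9 * Z ≤ P → 0 < η → η ≤ 1 →
      0 ≤ Ma → 0 ≤ Ml → 0 < E₀ → 0 ≤ a₁ → 0 ≤ a₂ → 0 ≤ a₃ → (∀ n, α n ≠ 0 → n ∈ S Y) →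
      (∀ g ∈ S Y, (nm g : ℝ) ≤ G₀ → ∀ V : ℝ, 1 ≤ V → V ≤ 9 * Z * nm g → ∀ t : ℝ,
        VF V (tws (sg α g) t) ≤ Ma / (nm g : ℝ) ^ 2 *
          (V * K / (X / nm g) ^ 2) ^ (1 / 3 : ℝ) * (1 + |t|) ^ J) →
      (∀ h ∈ S Y, ∀ B V : ℝ, 1 ≤ B → B ≤ Y → 1 ≤ V → V ≤ 9 * Z / (nm h : ℝ) ^ 2 → ∀ t : ℝ,
        E1551.JB Y α (fun U => G₀ < nm (h * U)) h B V t ≤
          Ml / (nm h : ℝ) ^ 2 * yv K X h V * (1 + |t|) ^ J) →
      ∀ p ∈ T9, ∀ φ : ℝ → ℝ, WK Cw η Aw φ → ∀ t : ℝ,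
        (K / X') * (a₁ * EHs A K X' Y Z E₀ (fun n => bt φ α p n * pw t (nm n)) +
          a₂ * EHf A K X' Y Z (fun n => bt φ α p n * pw t (nm n)) +
          a₃ * EHt A K X' Y Z E₀ (fun n => bt φ α p n * pw t (nm n))) ≤
        (K / X) * (C * (η⁻¹) ^ J * P ^ ε * ((a₁ * E₀ + a₂ + a₃ * E₀⁻¹) * (Ma + Ml)) *
          (1 + |t|) ^ J) := by
  obtain ⟨C, hC, H⟩ := lbt_num hA hJA hR hCw hε
  set r := Real.exp (R + 1) with hr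
  refine ⟨r * C, by positivity, ?_⟩
  intro P K X X' Y η Z G₀ Ma Ml E₀ a₁ a₂ a₃ α hP hK hX hX' hXX hY hYP hZ hZP hη hη1 hMa hMl hE
    ha₁ ha₂ ha₃ hα hSA hL p hp φ hφ t
  obtain ⟨b₁, b₂, b₃⟩ := H P K X X' Y η Z G₀ Ma Ml E₀ α hP hK hX hX' hXX hY hYP hZ hZP hη hη1 hMa
    hMl hE hα hSA hL p hp φ hφ t
  have hP0 : 0 < P := by linarith
  have hXr : X ≤ r * X' := by
    have h1 : Real.log X ≤ Real.log X' + (R + 1) := by linarith [(abs_le.mp hXX).1]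
    calc X = Real.exp (Real.log X) := (Real.exp_log hX).symm
      _ ≤ Real.exp (Real.log X' + (R + 1)) := Real.exp_le_exp.mpr h1
      _ = r * X' := by rw [Real.exp_add, Real.exp_log hX', mul_comm]
  have hKX : K / X' ≤ r * (K / X) := by
    rw [← mul_div_assoc, div_le_div_iff₀ hX' hX]
    nlinarith [mul_le_mul_of_nonneg_left hXr hK.le]
  set U := (C * (η⁻¹) ^ J * P ^ ε * ((a₁ * E₀ + a₂ + a₃ * E₀⁻¹) * (Ma + Ml)) *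
          (1 + |t|) ^ J) with hU
  have hM0 : 0 ≤ Ma + Ml := by linarith
  have hU0 : 0 ≤ U := by rw [hU]; positivity
  have h1 : a₁ * EHs A K X' Y Z E₀ (fun n => bt φ α p n * pw t (nm n)) +
      a₂ * EHf A K X' Y Z (fun n => bt φ α p n * pw t (nm n)) +
      a₃ * EHt A K X' Y Z E₀ (fun n => bt φ α p n * pw t (nm n)) ≤ U := by
    have c₁ := mul_le_mul_of_nonneg_left b₁ ha₁
    have c₂ := mul_le_mul_of_nonneg_left b₂ ha₂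
    have c₃ := mul_le_mul_of_nonneg_left b₃ ha₃
    rw [hU]
    linarith
  have hKX0 : 0 ≤ K / X' := by positivity
  calc (K / X') * _ ≤ (K / X') * U := mul_le_mul_of_nonneg_left h1 hKX0
    _ ≤ (r * (K / X)) * U := mul_le_mul_of_nonneg_right hKX hU0
    _ = _ := by rw [hU]; ring

end Crest.Agent.R017.LBT381
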