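import Crest.Agent.R017.LBE_180

/-!
# Row 17, C.REMg (LB) (helper180): the second scale through one functional

* `EH1` : the full T-functional with weight `1`
* `E1v` : `E1` unsigned with the error `EH1 + (1 + Ct) Et` (window from below `1`)
* `SqP_v`, `sc2v`, `e2v` : the smooth square, the second scale, the cross error
* `LBV` : **(LB) with the compensated cross weight**, all own errors through `EHs, EHt, EH1, Et`
-/

set_option autoImplicit false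
set_option linter.unusedVariables false

noncomputable section

open Complex MeasureTheory
open scoped ComplexConjugate Classical

namespace Crest.Agent.R017.LBV180

open Crest.Agent.R012 Crest.Agent.R012.Eis Crest.Agent.R012.MC
open Crest.Agent.R012.LS2 (S mem_S)
open Crest.Agent.R012.Mob705 (kap0 pdiv)
open Crest.Agent.R012.Div277 (tau)
open Crest.Agent.R017.CM106 (CS FS TG)
open Crest.Agent.R017.E1551 (Adm SqP cP Wb Wf Et Ct LJ WJ EG lm Et_nonneg Ct_nonneg BF BF_mono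
  lm_nonneg Wf_nonneg LJ_nonneg nmpos tws sg JB yv one_mem_S E1_final EP EP_le2 WS Wf_one Mn_JE
  XJw)
open Crest.Agent.R017.C70 (JW JC OKJ okJ_JW XJ)
open Crest.Agent.R017.E2440 (TE StE Jb Qs prs C4 Fh)
open Crest.Agent.R017.X6C180 (n13 n13_nonneg GF)
open Crest.Agent.R017.LB48 (CrP GrP GrP_nonneg)
open Crest.Agent.R017.LBx48 (EHs EHt REb R2 cross_split_c T_le_EHc EHc_nonneg EHc_split EHc_le_s)
open Crest.Agent.R017.EHu320 (EHc)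
open Crest.Agent.R017.I1146 (BB BB_le BB_bil X2 X3 c3 c3_nonneg px px_nonneg XJ_eq trunc omr
  BF_empty Lo_low)
open Crest.Agent.R017.DgB829 (HS HS_nonneg HS_le)
open Crest.Agent.R017.Sc2180 (px_le SqP_nonneg CrP_am)
open Crest.Agent.R017.WDec180 (WD sc sc_pos E2e cross_ex)
open Crest.Agent.R017.Ex385 (CrQ)
open Crest.Agent.R017.SqLoc829 (JE mem_JE JE_cf)
open Crest.Agent.R017.E3M829 (Cut Tal TC_Tal Sg gram_fin TF)
open Crest.Agent.R017.E3A164 (SteT Ys Fy)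
open Crest.Agent.R017.LBX180
open Crest.Agent.R017.LBu180

/-- the full T-functional, weight `1` -/
def EH1 (A K X Y Z : ℝ) (α : Eis → ℂ) : ℝ := EHc (fun _ => 1) (fun _ => True) A K X Y Z α

lemma EH1_nonneg {A K X Y Z : ℝ} (hK : 0 ≤ K) (hX : 0 ≤ X) (α : Eis → ℂ) :
    0 ≤ EH1 A K X Y Z α := EHc_nonneg (fun n => zero_le_one) _ hK hX α

lemma EHf_le_EH1 {A K X Y Z : ℝ} (hY : 0 ≤ Y) (hK : 0 ≤ K) (hX : 0 ≤ X) (α : Eis → ℂ) :
    EHf A K X Y Z α ≤ EH1 A K X Y Z α := by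
  refine LBx48.EHc_mono (fun n hn => ?_) _ hY hK hX α
  exact inv_le_one_of_one_le₀ (by exact_mod_cast hn)

/-- exact scaling -/
lemma EH1_sc {A K X Y Z : ℝ} (hK : 0 ≤ K) (h : ℝ) (α : Eis → ℂ) :
    EH1 A (K * Real.exp (-h)) X Y Z α = Real.exp (h / 3) * EH1 A K X Y Z α := by
  unfold EH1
  rw [EHc_sc (Real.exp_pos _).le _ _ hK, ← Real.exp_mul]
  congr 2
  ring

/-- the classes at `1` -/
lemma JE_one_sub {D Y₀ Y₁ : ℝ} : JE D Y₀ Y₁ 1 ⊆ BF Y₁ := by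
  intro κ hκ
  obtain ⟨hcf, -, -, h2⟩ := (mem_JE isPrim_one κ).1 hκ
  refine E1551.mem_BF.mpr ⟨hcf, ?_⟩
  have h3 : SqLoc829.gd κ 1 = 1 := by
    have a1 := SqLoc829.gd_prim κ 1
    have a2 := SqLoc829.gd_dvd_right κ 1
    exact Cheb420.isPrim_unit (isUnit_of_dvd_one a2) a1
  rw [h3] at h2
  have e1 : κ / 1 = κ := E1551.div_of_eq one_ne_zero (one_mul κ).symm
  have e2 : (1 : Eis) / 1 = 1 := E1551.div_of_eq one_ne_zero (one_mul 1).symm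
  rw [e1, e2] at h2
  simpa using h2

/-- all errors of `E1` are in `EH1` -/
lemma EG_le_EH1 {A K X Y D Y₀ Y₁ : ℝ} (hK : 0 < K) (hX : 0 < X) (hY : 1 ≤ Y) (hY₀ : Y₀ < 1)
    (α : Eis → ℂ) :
    ∑ κ ∈ JE D Y₀ Y₁ 1, min 1 (lm K X 1 κ) * Wb A α κ + EG A K X Y Y₀ Y₁ α ≤
      EH1 A K X Y Y₁ α := by
  have hY0 : 0 ≤ Y := by linarith
  have h1S := one_mem_S hY
  have e1 : EH1 A K X Y Y₁ α = ∑ p ∈ S Y ×ˢ S Y, (nm p.1 * tau p.1 * (tau p.2 : ℝ) ^ 4) *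
      LJ A K X Y₁ α p.1 p.2 := by
    unfold EH1 EHu320.EHc
    rw [Finset.filter_true, Finset.sum_product]
    refine Finset.sum_congr rfl fun δ _ => Finset.sum_congr rfl fun e _ => ?_
    rw [one_mul]
  have h11 : ((1 : Eis), (1 : Eis)) ∈ S Y ×ˢ S Y := Finset.mem_product.mpr ⟨h1S, h1S⟩
  rw [e1, ← Finset.add_sum_erase _ _ h11]
  refine add_le_add ?_ ?_
  · have e2 : ((nm (1 : Eis) : ℝ) * tau (1 : Eis) * (tau (1 : Eis) : ℝ) ^ 4) = 1 := by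
      simp only [nm_one, E1551.tau_one551, Nat.cast_one, one_mul, one_pow]
    show _ ≤ ((nm (1 : Eis) : ℝ) * tau (1 : Eis) * (tau (1 : Eis) : ℝ) ^ 4) * _
    rw [e2, one_mul]
    unfold E1551.LJ
    have e3 : Y₁ / (nm (1 : Eis) : ℝ) ^ 2 = Y₁ := by rw [nm_one]; simp
    rw [e3]
    refine (Finset.sum_le_sum_of_subset_of_nonneg (JE_one_sub (D := D) (Y₀ := Y₀)) fun κ _ _ =>
      mul_nonneg (le_min zero_le_one (lm_nonneg hK.le hX.le _ _)) (E1551.Wb_nonneg _ _ _)).trans ?_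
    refine Finset.sum_le_sum fun κ _ => ?_
    rw [Wf_one]
    exact mul_le_mul_of_nonneg_right (min_le_right _ _) (E1551.Wb_nonneg _ _ _)
  · unfold E1551.EG
    refine Finset.sum_le_sum fun p hp => mul_le_mul_of_nonneg_left ?_ (by positivity)
    have hp1 := (Finset.mem_product.mp (Finset.mem_erase.mp hp).2).1
    have hn : (1 : ℝ) ≤ nm p.1 := E1551.nm_ge_one ((mem_S hY0).1 hp1).2.1.ne_zero
    have h0 : LJ A K X Y₀ α p.1 p.2 = 0 := by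
      unfold E1551.LJ
      have h2 : ¬ 1 ≤ Y₀ / (nm p.1 : ℝ) ^ 2 := by
        rw [not_le]
        rcases le_or_gt Y₀ 0 with h0 | h0
        · exact lt_of_le_of_lt (div_nonpos_of_nonpos_of_nonneg h0 (by positivity)) one_pos
        · rw [div_lt_one (by positivity)]
          nlinarith
      rw [BF_empty h2]
      simp
    rw [h0, add_zero]
    unfold E1551.WJ E1551.LJ
    exact Finset.sum_le_sum fun κ _ => mul_le_mul_of_nonneg_right (min_le_right _ _)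
      (Wf_nonneg _ _ _ _ _)

/-- **`E1`, unsigned, one functional** -/
theorem E1v {w : ℝ → ℝ} (hw : Wgt w) {R : ℝ} (hR : 0 ≤ R) {A B : ℝ} (hA : 1 < A)
    (hB : 1 ≤ B) : ∃ C : ℝ, 0 ≤ C ∧ ∀ K X Y D Y₀ Y₁ : ℝ, 0 < K → 0 < X → 1 ≤ Y → 0 < Y₁ →
      Y₀ < 1 → ((0 ≤ D ∧ Y₁ ≤ D ^ 2) ∨ Y ≤ D) → ∀ α : Eis → ℂ, Adm Y X R α →
      ‖((SqP w K α : ℝ) : ℂ) - ((E1551.Dg w K Y α : ℝ) : ℂ) -
        ((2 * cP w * K ^ (2 / 3 : ℝ) : ℝ) : ℂ) * XJ (JW D Y₀ Y₁) α‖ ≤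
        C * (1 + Real.log Y) * (K / X) * (EH1 A K X Y Y₁ α +
          (1 + Ct Y) * Et A B K X Y Y₁ α) := by
  obtain ⟨C, hC, h1⟩ := E1_final hw hR hA hB
  refine ⟨C, hC, fun K X Y D Y₀ Y₁ hK hX hY hY₁ hY₀ hD α hα => ?_⟩
  have hY0 : 0 ≤ Y := by linarith
  have hlog := Real.log_nonneg hY
  have h2 := h1 K X Y hK hX hY α hα (JE D Y₀ Y₁) (fun d κ hκ => JE_cf κ hκ)
  rw [Mn_JE hY0 hα.sup] at h2
  refine h2.trans (mul_le_mul_of_nonneg_left ?_ (by positivity))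
  have h3 := EP_le2 (Y₀ := Y₀) hA hB hK hX hY hY₁ hD one_pos hα.sup
  have h5 : ∑ d ∈ S Y, (nm d * (Div277.tau d : ℝ) *
      ∑ L ∈ S Y, (Div277.tau L : ℝ) ^ 2 * WS A B K X α (JE D Y₀ Y₁ d) d L) =
      EP A B K X Y 1 α (JE D Y₀ Y₁) := by
    have h1S := one_mem_S hY
    unfold E1551.EP
    rw [← Finset.add_sum_erase (S Y) _ h1S, inv_one, one_mul, one_mul, ← add_assoc]
    congr 1
    rw [← Finset.add_sum_erase (S Y) _ h1S]
    simp only [nm_one, E1551.tau_one551, Nat.cast_one, one_mul, one_pow]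
  rw [h5]
  rw [inv_one, one_mul, one_mul, Lo_low hY₀] at h3
  have h6 := EG_le_EH1 (A := A) (D := D) (Y₁ := Y₁) hK hX hY hY₀ α
  linarith

/-- the tail number -/
def EtN (A B K X Y Z : ℝ) (α : Eis → ℂ) : ℝ := (1 + Ct Y) * Et A B K X Y Z α

lemma EtN_nonneg {A B K X Y Z : ℝ} (hK : 0 ≤ K) (hX : 0 ≤ X) (hZ : 0 ≤ Z) (α : Eis → ℂ) :
    0 ≤ EtN A B K X Y Z α :=
  mul_nonneg (by linarith [Ct_nonneg Y]) (Et_nonneg hK hX hZ _)

/-- **upper bound for the smooth square** -/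
theorem SqP_v {w : ℝ → ℝ} (hw : Wgt w) (hw0 : ∀ x, 0 ≤ w x) {R : ℝ} (hR : 0 ≤ R) {A : ℕ}
    (hA : 2 ≤ A) {B : ℝ} (hB : 1 ≤ B) : ∃ C : ℝ, 0 ≤ C ∧ ∀ K X Y Z : ℝ, 0 < K → 0 < X →
      1 ≤ Y → 0 < Z → ∀ α : Eis → ℂ, Adm Y X R α →
      SqP w K α ≤ E1551.Dg w K Y α + C * (1 + Real.log Y) * (K / X) *
        (EH1 A K X Y Z α + EtN A B K X Y Z α) := by
  have hA1 : (1 : ℝ) < A := by
    have : (2 : ℝ) ≤ A := by exact_mod_cast hA
    linarith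
  obtain ⟨C, hC, h1⟩ := E1v hw hR hA1 hB
  obtain ⟨C₂, hC₂, h2⟩ := M2s_le R hR A hA
  have hcP : 0 ≤ 2 * cP w := by
    rw [Cst401.two_cP hw]
    have := Cst401.kap0_pos
    have := Cst401.mel_nonneg hw0
    positivity
  refine ⟨C + 2 * cP w * (200 * C₂), by positivity, fun K X Y Z hK hX hY hZ α hα => ?_⟩
  have hY0 : 0 ≤ Y := by linarith
  have hlog := Real.log_nonneg hY
  have hE : 0 ≤ EHf A K X Y Z α := EHf_nonneg hK.le hX.le α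
  have hE1 : 0 ≤ EH1 A K X Y Z α := EH1_nonneg hK.le hX.le α
  have hEt : 0 ≤ EtN A B K X Y Z α := EtN_nonneg hK.le hX.le hZ.le α
  have hfE := EHf_le_EH1 (A := A) (K := K) (X := X) (Z := Z) hY0 hK.le hX.le α
  have a1 := h1 K X Y Y 0 Z hK hX hY hZ one_pos (Or.inr le_rfl) α hα
  have c1 : ‖((2 * cP w * K ^ (2 / 3 : ℝ) : ℝ) : ℂ) * XJ (JW Y 0 Z) α‖ ≤
      2 * cP w * (200 * C₂) * (1 + Real.log Y) * (K / X) * EHf A K X Y Z α := by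
    rw [norm_mul, Complex.norm_real, Real.norm_of_nonneg (by positivity)]
    have d1 := XJ_le_s hY0 hα.sup (okJ_JW Y 0 Z)
    have d2 := h2 Y X K Y 0 Z hY hX hK α hα
    have d3 := HS_le hY
    have d4 := M2s_nonneg Y (JW Y 0 Z) α
    have d5 := HS_nonneg Y
    calc 2 * cP w * K ^ (2 / 3 : ℝ) * ‖XJ (JW Y 0 Z) α‖ ≤
          2 * cP w * K ^ (2 / 3 : ℝ) * (HS Y * M2s Y (JW Y 0 Z) α) := by gcongr
      _ = 2 * cP w * (HS Y * (K ^ (2 / 3 : ℝ) * M2s Y (JW Y 0 Z) α)) := by ring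
      _ ≤ 2 * cP w * (200 * (1 + Real.log Y) * (C₂ * (K / X) * EHf A K X Y Z α)) := by gcongr
      _ = _ := by ring
  have c1' : ‖((2 * cP w * K ^ (2 / 3 : ℝ) : ℝ) : ℂ) * XJ (JW Y 0 Z) α‖ ≤
      2 * cP w * (200 * C₂) * (1 + Real.log Y) * (K / X) *
        (EH1 A K X Y Z α + EtN A B K X Y Z α) :=
    c1.trans (mul_le_mul_of_nonneg_left (by linarith) (by positivity))
  have c2 : SqP w K α - E1551.Dg w K Y α ≤
      ‖((SqP w K α : ℝ) : ℂ) - ((E1551.Dg w K Y α : ℝ) : ℂ)‖ := by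
    rw [← Complex.ofReal_sub, Complex.norm_real]
    exact le_abs_self _
  have c3 : ‖((SqP w K α : ℝ) : ℂ) - ((E1551.Dg w K Y α : ℝ) : ℂ)‖ ≤
      ‖((SqP w K α : ℝ) : ℂ) - ((E1551.Dg w K Y α : ℝ) : ℂ) -
        ((2 * cP w * K ^ (2 / 3 : ℝ) : ℝ) : ℂ) * XJ (JW Y 0 Z) α‖ +
      ‖((2 * cP w * K ^ (2 / 3 : ℝ) : ℝ) : ℂ) * XJ (JW Y 0 Z) α‖ := by
    have := norm_add_le (((SqP w K α : ℝ) : ℂ) - ((E1551.Dg w K Y α : ℝ) : ℂ) -
        ((2 * cP w * K ^ (2 / 3 : ℝ) : ℝ) : ℂ) * XJ (JW Y 0 Z) α)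
      (((2 * cP w * K ^ (2 / 3 : ℝ) : ℝ) : ℂ) * XJ (JW Y 0 Z) α)
    rwa [sub_add_cancel] at this
  unfold EtN at c1' ⊢
  have e9 : (C + 2 * cP w * (200 * C₂)) * (1 + Real.log Y) * (K / X) *
      (EH1 A K X Y Z α + (1 + Ct Y) * Et A B K X Y Z α) =
      C * (1 + Real.log Y) * (K / X) * (EH1 A K X Y Z α + (1 + Ct Y) * Et A B K X Y Z α) +
      2 * cP w * (200 * C₂) * (1 + Real.log Y) * (K / X) *
        (EH1 A K X Y Z α + (1 + Ct Y) * Et A B K X Y Z α) := by ring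
  rw [e9]
  linarith

/-- **the second scale** -/
theorem sc2v {w : ℝ → ℝ} (hw : Wgt w) (hw0 : ∀ x, 0 ≤ w x) {R : ℝ} (hR : 0 ≤ R) {A : ℕ}
    (hA : 2 ≤ A) {B : ℝ} (hB : 1 ≤ B) : ∃ C : ℝ, 0 ≤ C ∧
      ∀ K X Y D Y₀ Z E0 h : ℝ, 0 < K → 0 < X → 1 ≤ Y → 0 < Z →
      ∀ α : Eis → ℂ, Adm Y X R α → ∀ om : Eis × Eis → ℂ, (∀ x, ‖om x‖ ≤ 1) →
      ∀ (Q : Eis → Prop) (e₃ : ℝ),
      GrP w (K * Real.exp (-h)) (fun k => if Q k then StE E0 (JW D Y₀ Z) om α k else 0) ≤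
        c3 w (K * Real.exp (-h)) * (X3 Y E0 (JW D Y₀ Z) om α).re + e₃ →
      Real.exp (h / 3) * ‖CrP w (K * Real.exp (-h)) α
        (fun k => if Q k then StE E0 (JW D Y₀ Z) om α k else 0)‖ ≤
        Real.exp (-(2 * h / 3)) * E1551.Dg w K Y α +
        C * (1 + Real.log Y) * (K / X) * (Real.exp (-(h / 3)) * EH1 A K X Y Z α +
          Real.exp (-(2 * h / 3)) * EtN A B (K * Real.exp (-h)) X Y Z α) +
          Real.exp (h / 3) * |e₃| := by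
  obtain ⟨C₁, hC₁, h1⟩ := SqP_v hw hw0 hR hA hB
  obtain ⟨C₂, hC₂, h2⟩ := main_le hw0 hR hA
  refine ⟨C₁ + C₂, by positivity, fun K X Y D Y₀ Z E0 h hK hX hY hZ α hα om hom
    Q e₃ hG => ?_⟩
  have hK'0 : 0 < K * Real.exp (-h) := by positivity
  have hY0 : 0 ≤ Y := by linarith
  have hlog := Real.log_nonneg hY
  set u : Eis → ℂ := fun k => if Q k then StE E0 (JW D Y₀ Z) om α k else 0 with hu
  have a1 := CrP_am hw hw0 hK'0 α u one_pos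
  rw [one_mul, div_one] at a1
  have a2 := h1 (K * Real.exp (-h)) X Y Z hK'0 hX hY hZ α hα
  have a3 := h2 (K * Real.exp (-h)) X Y D Y₀ Z hK'0 hX hY α hα (X3 Y E0 (JW D Y₀ Z) om α).re
    ((Complex.re_le_norm _).trans (X3_le_s hY0 E0 (JW D Y₀ Z) hom α))
  have hfE := EHf_le_EH1 (A := A) (K := K * Real.exp (-h)) (X := X) (Z := Z) hY0 hK'0.le hX.le α
  obtain ⟨E, hE⟩ : ∃ E, E = EH1 A (K * Real.exp (-h)) X Y Z α := ⟨_, rfl⟩
  obtain ⟨T, hT⟩ : ∃ T, T = EtN A B (K * Real.exp (-h)) X Y Z α := ⟨_, rfl⟩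
  have hE0 : 0 ≤ E := by rw [hE]; exact EH1_nonneg hK'0.le hX.le α
  have hT0 : 0 ≤ T := by rw [hT]; exact EtN_nonneg hK'0.le hX.le hZ.le α
  have hsq := SqP_nonneg hw0 (K * Real.exp (-h)) α
  have hgr := GrP_nonneg (K := K * Real.exp (-h)) hw0 u
  rw [← hE, ← hT] at a2
  rw [← hE] at hfE
  have e1 : E = Real.exp (h / 3) * EH1 A K X Y Z α := by rw [hE, EH1_sc hK.le]
  have e2 : E1551.Dg w (K * Real.exp (-h)) Y α = Real.exp (-h) * E1551.Dg w K Y α :=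
    Sc2180.Dg_sc w K (Real.exp (-h)) Y α
  have b1 : ‖CrP w (K * Real.exp (-h)) α u‖ ≤ E1551.Dg w (K * Real.exp (-h)) Y α +
      (C₁ + C₂) * (1 + Real.log Y) * (K * Real.exp (-h) / X) * (E + T) + |e₃| := by
    have c2 : GrP w (K * Real.exp (-h)) u ≤
        C₂ * (1 + Real.log Y) * (K * Real.exp (-h) / X) * (E + T) + |e₃| := by
      refine hG.trans (add_le_add (a3.trans ?_) (le_abs_self _))
      refine mul_le_mul_of_nonneg_left ?_ (by positivity)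
      linarith
    have e1 : (C₁ + C₂) * (1 + Real.log Y) * (K * Real.exp (-h) / X) * (E + T) =
        C₁ * (1 + Real.log Y) * (K * Real.exp (-h) / X) * (E + T) +
        C₂ * (1 + Real.log Y) * (K * Real.exp (-h) / X) * (E + T) := by ring
    rw [e1]
    linarith
  have b2 := mul_le_mul_of_nonneg_left b1 (Real.exp_pos (h / 3)).le
  refine b2.trans (le_of_eq ?_)
  have e3 : Real.exp (h / 3) * Real.exp (-h) = Real.exp (-(2 * h / 3)) := by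
    rw [← Real.exp_add]; congr 1; ring
  have e4 : Real.exp (-(2 * h / 3)) * Real.exp (h / 3) = Real.exp (-(h / 3)) := by
    rw [← Real.exp_add]; congr 1; ring
  have e5 : Real.exp (h / 3) * (E1551.Dg w (K * Real.exp (-h)) Y α +
      (C₁ + C₂) * (1 + Real.log Y) * (K * Real.exp (-h) / X) * (E + T) + |e₃|) =
      Real.exp (h / 3) * Real.exp (-h) * E1551.Dg w K Y α +
      (C₁ + C₂) * (1 + Real.log Y) * (K / X) * (Real.exp (h / 3) * Real.exp (-h) * E +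
        Real.exp (h / 3) * Real.exp (-h) * T) + Real.exp (h / 3) * |e₃| := by
    rw [e2]
    ring
  rw [e5, e3, e1, ← mul_assoc (Real.exp (-(2 * h / 3))) (Real.exp (h / 3)), e4, hT]

/-- **the cross error** (`Q` = the kept `k`, `K' = K e^(-h)`) -/
theorem e2v {w : ℝ → ℝ} (hw : Wgt w) (hw0 : ∀ x, 0 ≤ w x) {N : ℕ} {M : ℝ} {F : ℕ → ℝ → ℂ}
    (hD : WD w N M F) {R : ℝ} (hR : 0 ≤ R) {A : ℕ} (hA : 2 ≤ A) {B : ℝ} (hB : 1 ≤ B) :
    ∃ C : ℝ, 0 ≤ C ∧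
      ∀ (K X Y D Y₀ Z E0 h θ : ℝ) (I : ℕ), 0 < K → 0 < X → 1 ≤ Y → 0 < Z →
      0 ≤ h → 0 ≤ D → 0 ≤ E0 → 0 < θ → Z < 2 ^ I →
      ∀ α : Eis → ℂ, Adm Y X R α → ∀ om : Eis × Eis → ℂ, (∀ x, ‖om x‖ ≤ 1) →
      ∀ (Q : Eis → Prop) (e₃ et : ℝ),
      GrP w (K * Real.exp (-h)) (fun k => if Q k then StE E0 (JW D Y₀ Z) om α k else 0) ≤
        c3 w (K * Real.exp (-h)) * (X3 Y E0 (JW D Y₀ Z) om α).re + e₃ →
      ∑ i ∈ Finset.range N, ‖CrQ (GF (Fh (F i) h)) (fun k => ¬ Q k) (sc K M i) α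
        (StE E0 (JW D Y₀ Z) om α)‖ ≤ et →
      ‖CrP w K α (fun k => if Q k then StE E0 (JW D Y₀ Z) om α k else 0) -
        ((pC * (kap0 * mel w (2 / 3) * K ^ (2 / 3 : ℝ)) : ℝ) : ℂ) *
          X2 Y E0 (JW D Y₀ Z) om α‖ ≤
      C * (1 + Real.log Y) * ((K / X) * (θ * EHs A K X Y Z E0 α +
          Real.exp (-(h / 3)) * EH1 A K X Y Z α +
          Real.exp (-(2 * h / 3)) * EtN A B (K * Real.exp (-h)) X Y Z α) +
        θ⁻¹ * ∑ i ∈ Finset.range N, REb α (sc K M i) (GF (Fh (F i) h)) (S D) I E0 Z Z) +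
        Real.exp (-(2 * h / 3)) * E1551.Dg w K Y α + Real.exp (h / 3) * |e₃| + et := by
  obtain ⟨C₁, hC₁, H₁⟩ := sc2v hw hw0 hR hA hB
  obtain ⟨C₂, hC₂, H₂⟩ := pieces_le (N := N) hD.M0 hR hA
  obtain ⟨C₃, hC₃, H₃⟩ := main_le hw0 hR hA
  have hpC := Cst401.pC_pos
  refine ⟨C₁ + C₂ + pC * C₃, by positivity, ?_⟩
  intro K X Y D Y₀ Z E0 h θ I hK hX hY hZ hh hD0 hE0 hθ hI α hα om hom Q e₃ et hG ht
  have hY0 : 0 ≤ Y := by linarith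
  have hlog := Real.log_nonneg hY
  have a0 := cross_ex hD hh Q hK hE0 hY0 hD0 hZ hI hα.sup om (D := D) (Y₀ := Y₀)
  have a1 := H₁ K X Y D Y₀ Z E0 h hK hX hY hZ α hα om hom Q e₃ hG
  have a2 := H₂ (fun i => GF (Fh (F i) h)) K X Y D Y₀ Z E0 θ I hK hX hY hD0 hZ hθ α hα om hom
  have hfE := EHf_le_EH1 (A := A) (K := K) (X := X) (Z := Z) hY0 hK.le hX.le α
  have hKX : 0 ≤ K / X := by positivity
  have a3 := (H₃ K X Y D Y₀ Z hK hX hY α hα ‖X2 Y E0 (JW D Y₀ Z) om α‖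
    (X2_le_s hY0 E0 (JW D Y₀ Z) hom α)).trans
    (mul_le_mul_of_nonneg_left hfE (by positivity))
  have hc3 : 0 ≤ kap0 * mel w (2 / 3) * K ^ (2 / 3 : ℝ) := c3_nonneg hw0 hK
  have a4 : ‖((pC * (kap0 * mel w (2 / 3) * K ^ (2 / 3 : ℝ)) : ℝ) : ℂ) *
      X2 Y E0 (JW D Y₀ Z) om α‖ ≤ pC * (C₃ * (1 + Real.log Y) * (K / X) *
        EH1 A K X Y Z α) := by
    rw [norm_mul, Complex.norm_real, Real.norm_of_nonneg (mul_nonneg hpC.le hc3), mul_assoc]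
    exact mul_le_mul_of_nonneg_left a3 hpC.le
  have hs0 : 0 ≤ EHs A K X Y Z E0 α := EHc_nonneg (fun n => Nat.cast_nonneg n) _ hK.le hX.le α
  have hf0 : 0 ≤ EH1 A K X Y Z α := EH1_nonneg hK.le hX.le α
  have hK' : 0 < K * Real.exp (-h) := by positivity
  have hE1 : 0 ≤ EtN A B (K * Real.exp (-h)) X Y Z α := EtN_nonneg hK'.le hX.le hZ.le α
  have hr0 : 0 ≤ ∑ i ∈ Finset.range N, REb α (sc K M i) (GF (Fh (F i) h)) (S D) I E0 Z Z := by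
    refine Finset.sum_nonneg fun i _ => ?_
    unfold LBx48.REb
    refine Finset.sum_nonneg fun δ _ => Finset.sum_nonneg fun j _ => Finset.sum_nonneg fun e _ => ?_
    have h9 : 0 ≤ (sc K M i) ^ (-(2 / 3) : ℝ) := Real.rpow_nonneg (sc_pos hK M i).le _
    positivity
  have hp := (Real.exp_pos (-(h / 3))).le
  have hp2 := (Real.exp_pos (-(2 * h / 3))).le
  refine comb_num hC₁ hC₂ (mul_nonneg hpC.le hC₃) (L := 1 + Real.log Y) (by linarith)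
    (mul_nonneg hKX (mul_nonneg hθ.le hs0)) (mul_nonneg hKX (mul_nonneg hp hf0))
    (mul_nonneg hKX (mul_nonneg hp2 hE1)) (mul_nonneg (inv_pos.mpr hθ).le hr0) a0 a1 a2 ht ?_ ?_ ?_
  · have a5 := mul_le_mul_of_nonneg_left a4 hp
    refine a5.trans (le_of_eq ?_)
    ring
  · ring
  · ring

set_option maxHeartbeats 1000000 in
/-- **(LB), both classes: compensated cross weight, any cut, tail for the compensated pieces** -/
theorem LBV {w : ℝ → ℝ} (hw : Wgt w) (hw0 : ∀ x, 0 ≤ w x) {N : ℕ} {M : ℝ} {F : ℕ → ℝ → ℂ}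
    (hD : WD w N M F) {R : ℝ} (hR : 0 ≤ R) {A : ℕ} (hA : 2 ≤ A) {B₂ : ℝ} (hB₂ : 1 ≤ B₂)
    {ε : ℝ} (hε : 0 < ε) : ∃ C : ℝ, 0 ≤ C ∧
    ∀ (P K X Y D Y₀ Z E0 E1 B θ h : ℝ) (I : ℕ), 1 ≤ P → 0 < K → K ≤ P → 0 < X → 1 ≤ Y →
    Y ≤ P → 0 ≤ D → D ≤ P → 0 < Z → Z ≤ P → 0 ≤ E0 → E0 ≤ Y → 1 ≤ B → 0 < θ → θ ≤ 1 →
    B⁻¹ ≤ θ → (Z / K ^ 2) ^ (1 / 6 : ℝ) ≤ θ → 0 ≤ h → Real.exp (-(h / 3)) ≤ θ →
    (Z / (K * Real.exp (-h)) ^ 2) ^ (1 / 6 : ℝ) ≤ 1 → Z < 2 ^ I →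
    ∀ α : Eis → ℂ, Adm Y X R α → ∀ Om ρ : ℕ → ℝ, (∀ n, ρ n = 2 * Om n - Om n ^ 2) →
    (∀ n, 0 ≤ Om n) → (∀ n, Om n ≤ 1) →
    ∀ Q : Eis → Prop, (∀ k, IsPrim k → w (nm k / K) ≠ 0 → Q k → Cut E1 k) →
    (∀ k, IsPrim k → w (nm k / (K * Real.exp (-h))) ≠ 0 → Q k → Cut E1 k) →
    ∀ et OFF OFF' dg : ℝ, 0 ≤ OFF → 0 ≤ OFF' → 0 ≤ dg → E1551.Dg w K Y α ≤ dg →
    ∑ i ∈ Finset.range N, ‖CrQ (GF (Fh (F i) h)) (fun k => ¬ Q k) (sc K M i) α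
      (StE E0 (JW D Y₀ Z) (omr Om) α)‖ ≤ et →
    Sg w K B Z E1 (fun q t k₁ => ‖∑ y ∈ Ys (JW D Y₀ Z) E0 Z,
        Fy (JW D Y₀ Z) (omr Om) (Tal α) q t k₁ y‖ ^ 2) ≤
      Sg w K B Z E1 (fun q t k₁ => E3M829.Dg (JW D Y₀ Z) (omr Om) (Tal α) E0 Z q t k₁) + OFF →
    Sg w (K * Real.exp (-h)) B Z E1 (fun q t k₁ => ‖∑ y ∈ Ys (JW D Y₀ Z) E0 Z,
        Fy (JW D Y₀ Z) (omr Om) (Tal α) q t k₁ y‖ ^ 2) ≤
      Sg w (K * Real.exp (-h)) B Z E1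
        (fun q t k₁ => E3M829.Dg (JW D Y₀ Z) (omr Om) (Tal α) E0 Z q t k₁) + OFF' →
    2 * cP w * K ^ (2 / 3 : ℝ) * (XJw ρ (JW D Y₀ Z) α).re - SqQ w K Q α ≤
      C * P ^ ε * (((K / X) * (θ * EHs A K X Y Z E0 α + θ⁻¹ * EHt A K X Y Z E0 α +
          (Real.exp (-(h / 3)) * EH1 A K X Y Z α +
          Real.exp (-(2 * h / 3)) * EtN A B₂ (K * Real.exp (-h)) X Y Z α))) +
        θ⁻¹ * ∑ i ∈ Finset.range N, REb α (sc K M i) (GF (Fh (F i) h)) (S D) I E0 Z Z +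
        Real.exp (-(2 * h / 3)) * dg + et + OFF + Real.exp (h / 3) * OFF') := by
  have hε2 : 0 < ε / 2 := by positivity
  obtain ⟨C₁, hC₁, H₁⟩ := LBz1 hw hw0 hR hA hε2
  obtain ⟨C₂, hC₂, H₂⟩ := e2v hw hw0 hD hR hA hB₂
  obtain ⟨CG, hCG, HG⟩ := gram_num hw hw0 hR hA hε2
  obtain ⟨C₅, hC₅, H₅⟩ := PInv255.one_add_log_pow_le 1 (ε / 2) hε2
  refine ⟨C₁ * (3 + 2 * C₂ * C₅ + 2 * CG), by positivity, ?_⟩
  intro P K X Y D Y₀ Z E0 E1 B θ h I hP1 hK hKP hX hY hYP hD0 hDP hZ hZP hE0 hE0Y hB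
    hθ hθ1 hBθ hKθ hh hhθ hK'1 hI α hα Om ρ hρ h0 h1 Q hQ hQ' et OFF OFF' dg hOFF hOFF' hdg hDg
    hetb hoff hoff'
  have hK' : 0 < K * Real.exp (-h) := by positivity
  have hK'K : K * Real.exp (-h) ≤ K := mul_le_of_le_one_right hK.le (Real.exp_le_one_iff.mpr
    (by linarith))
  have hom1 : ∀ x, ‖omr Om x‖ ≤ 1 := by
    intro x
    unfold I1146.omr
    rw [Complex.norm_real, Real.norm_of_nonneg (h0 _)]
    exact h1 _
  have hs0 : 0 ≤ EHs A K X Y Z E0 α := EHc_nonneg (fun n => Nat.cast_nonneg n) _ hK.le hX.le α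
  have ht0 : 0 ≤ EHt A K X Y Z E0 α := EHc_nonneg (fun n => by positivity) _ hK.le hX.le α
  have hKX : 0 ≤ K / X := by positivity
  -- the Gram sum at the second scale
  have g1 := HG P (K * Real.exp (-h)) X Y D Y₀ Z E0 E1 B hP1 hK' (hK'K.trans hKP) hX hY hYP hD0
    hDP hZ hZP hE0 hE0Y hB α hα (omr Om) hom1 Q hQ' OFF' hoff'
  set e₃ := CG * P ^ (ε / 2) * ((Z / (K * Real.exp (-h)) ^ 2) ^ (1 / 6 : ℝ) + B⁻¹) *
    ((K * Real.exp (-h) / X) * EHs A (K * Real.exp (-h)) X Y Z E0 α) + OFF' with he₃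
  have hs1 : EHs A (K * Real.exp (-h)) X Y Z E0 α = Real.exp (h / 3) * EHs A K X Y Z E0 α := by
    unfold LBx48.EHs
    rw [EHc_sc (Real.exp_pos _).le _ _ hK.le, ← Real.exp_mul]
    congr 2
    ring
  have hPe : 1 ≤ P ^ (ε / 2) := Real.one_le_rpow hP1 hε2.le
  have he₃0 : 0 ≤ e₃ := by
    rw [he₃, hs1]
    positivity
  have he₃b : Real.exp (h / 3) * |e₃| ≤
      CG * P ^ (ε / 2) * 2 * (Real.exp (-(h / 3)) * ((K / X) * EHs A K X Y Z E0 α)) +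
        Real.exp (h / 3) * OFF' := by
    rw [abs_of_nonneg he₃0, he₃, hs1, mul_add]
    have hB1 : B⁻¹ ≤ 1 := inv_le_one_of_one_le₀ hB
    have c1 : CG * P ^ (ε / 2) * ((Z / (K * Real.exp (-h)) ^ 2) ^ (1 / 6 : ℝ) + B⁻¹) ≤
        CG * P ^ (ε / 2) * 2 := mul_le_mul_of_nonneg_left (by linarith) (by positivity)
    have c2 : Real.exp (h / 3) * ((K * Real.exp (-h) / X) *
        (Real.exp (h / 3) * EHs A K X Y Z E0 α)) =
        Real.exp (-(h / 3)) * ((K / X) * EHs A K X Y Z E0 α) := by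
      have e9 : Real.exp (h / 3) * Real.exp (-h) * Real.exp (h / 3) = Real.exp (-(h / 3)) := by
        rw [← Real.exp_add, ← Real.exp_add]; congr 1; ring
      rw [← e9]; ring
    have c3 : 0 ≤ Real.exp (-(h / 3)) * ((K / X) * EHs A K X Y Z E0 α) := by positivity
    have c4 := mul_le_mul_of_nonneg_right c1 c3
    rw [← c2] at c4
    have c5 : Real.exp (h / 3) * (CG * P ^ (ε / 2) *
        ((Z / (K * Real.exp (-h)) ^ 2) ^ (1 / 6 : ℝ) + B⁻¹) *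
        ((K * Real.exp (-h) / X) * (Real.exp (h / 3) * EHs A K X Y Z E0 α))) =
        CG * P ^ (ε / 2) * ((Z / (K * Real.exp (-h)) ^ 2) ^ (1 / 6 : ℝ) + B⁻¹) *
        (Real.exp (h / 3) * ((K * Real.exp (-h) / X) *
        (Real.exp (h / 3) * EHs A K X Y Z E0 α))) := by ring
    rw [c5, ← c2]
    linarith
  -- the cross error
  have x1 := H₂ K X Y D Y₀ Z E0 h θ I hK hX hY hZ hh hD0 hE0 hθ hI α hα (omr Om)
    hom1 Q e₃ et g1 hetb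
  obtain ⟨e₂, he₂⟩ : ∃ e : ℝ, e = C₂ * (1 + Real.log Y) * ((K / X) * (θ * EHs A K X Y Z E0 α +
          Real.exp (-(h / 3)) * EH1 A K X Y Z α +
          Real.exp (-(2 * h / 3)) * EtN A B₂ (K * Real.exp (-h)) X Y Z α) +
        θ⁻¹ * ∑ i ∈ Finset.range N, REb α (sc K M i) (GF (Fh (F i) h)) (S D) I E0 Z Z) +
        Real.exp (-(2 * h / 3)) * E1551.Dg w K Y α + Real.exp (h / 3) * |e₃| + et := ⟨_, rfl⟩
  rw [← he₂] at x1
  have z1 := H₁ P K X Y D Y₀ Z E0 E1 B θ hP1 hK hKP hX hY hYP hD0 hDP hZ hZP hE0 hE0Y hB hθ hθ1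
    hBθ hKθ α hα Om ρ hρ h0 h1 Q hQ e₂ OFF hOFF x1 hoff
  -- numbers
  have hL : 1 + Real.log Y ≤ C₅ * P ^ (ε / 2) := by
    have h6 := H₅ P hP1
    rw [pow_one] at h6
    have h7 : Real.log Y ≤ Real.log P := Real.log_le_log (by linarith) hYP
    linarith
  have hE1 : 0 ≤ Real.exp (-(h / 3)) * EH1 A K X Y Z α +
      Real.exp (-(2 * h / 3)) * EtN A B₂ (K * Real.exp (-h)) X Y Z α :=
    add_nonneg (mul_nonneg (Real.exp_pos _).le (EH1_nonneg hK.le hX.le α))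
      (mul_nonneg (Real.exp_pos _).le (EtN_nonneg hK'.le hX.le hZ.le α))
  have hr0 : 0 ≤ ∑ i ∈ Finset.range N, REb α (sc K M i) (GF (Fh (F i) h)) (S D) I E0 Z Z := by
    refine Finset.sum_nonneg fun i _ => ?_
    unfold LBx48.REb
    refine Finset.sum_nonneg fun δ _ => Finset.sum_nonneg fun j _ => Finset.sum_nonneg fun e _ => ?_
    have h9 : 0 ≤ (sc K M i) ^ (-(2 / 3) : ℝ) := Real.rpow_nonneg (sc_pos hK M i).le _
    positivity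
  have het0 : 0 ≤ et := (Finset.sum_nonneg fun i _ => norm_nonneg _).trans hetb
  have hPP : P ^ (ε / 2) * P ^ (ε / 2) = P ^ ε := by
    rw [← Real.rpow_add (by linarith)]; congr 1; ring
  have hlog := Real.log_nonneg hY
  have fin := asm_e (G := 2 * cP w * K ^ (2 / 3 : ℝ) * (XJw ρ (JW D Y₀ Z) α).re - SqQ w K Q α)
    (s := (K / X) * EHs A K X Y Z E0 α) (t := (K / X) * EHt A K X Y Z E0 α)
    (f := 0)
    (e1 := (K / X) * (Real.exp (-(h / 3)) * EH1 A K X Y Z α +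
      Real.exp (-(2 * h / 3)) * EtN A B₂ (K * Real.exp (-h)) X Y Z α))
    (RR := θ⁻¹ * ∑ i ∈ Finset.range N, REb α (sc K M i) (GF (Fh (F i) h)) (S D) I E0 Z Z)
    (dg := Real.exp (-(2 * h / 3)) * dg) (L := 1 + Real.log Y)
    (OFF' := Real.exp (h / 3) * OFF') (e₃ := Real.exp (h / 3) * |e₃|)
    hC₁ hC₂ (by linarith) hCG hPe (mul_nonneg hKX hs0) (mul_nonneg hKX ht0)
    (add_nonneg (mul_nonneg hKX hs0) (mul_nonneg hKX ht0))
    (mul_nonneg hKX hE1)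
    (mul_nonneg (inv_pos.mpr hθ).le hr0) (mul_nonneg (Real.exp_pos _).le hdg) het0 hOFF
    (mul_nonneg (Real.exp_pos _).le hOFF') hθ hθ1 (Real.exp_pos (-(h / 3))).le hhθ
    (by linarith) hL (e₂ := e₂) ?_ he₃b (z1.trans (le_of_eq ?_))
  · rw [hPP] at fin
    refine fin.trans (le_of_eq ?_)
    ring
  · have d9 : Real.exp (-(2 * h / 3)) * E1551.Dg w K Y α ≤ Real.exp (-(2 * h / 3)) * dg :=
      mul_le_mul_of_nonneg_left hDg (Real.exp_pos _).le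
    rw [he₂]
    have e9 : C₂ * (1 + Real.log Y) * ((K / X) * (θ * EHs A K X Y Z E0 α +
          Real.exp (-(h / 3)) * EH1 A K X Y Z α +
          Real.exp (-(2 * h / 3)) * EtN A B₂ (K * Real.exp (-h)) X Y Z α) +
        θ⁻¹ * ∑ i ∈ Finset.range N, REb α (sc K M i) (GF (Fh (F i) h)) (S D) I E0 Z Z) =
        C₂ * (1 + Real.log Y) * ((θ * ((K / X) * EHs A K X Y Z E0 α) +
          Real.exp (-(h / 3)) * 0 +
          (K / X) * (Real.exp (-(h / 3)) * EH1 A K X Y Z α + Real.exp (-(2 * h / 3)) *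
            EtN A B₂ (K * Real.exp (-h)) X Y Z α)) +
        θ⁻¹ * ∑ i ∈ Finset.range N, REb α (sc K M i) (GF (Fh (F i) h)) (S D) I E0 Z Z) := by
      ring
    rw [e9]
    linarith
  · ring

end Crest.Agent.R017.LBV180
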