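import Crest.Agent.R017.NEs_499
import Crest.Agent.R017.NEo_73

/-!
# Row 17, FlatNE (helper911): the lower bound with the compensated cross number, second scale empty

* `numCQ_z` : helper180's `numCQ_of` when no frequency of `Q` is left at the scale `K e^(-h)`
* **`lbs_Z`** : `LBS w 0 (NumZ ..)`, cut `B / E0` (helper73's `lb_bsQ2`)
-/

set_option autoImplicit false
set_option linter.unusedVariables false

noncomputable section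

open Complex MeasureTheory
open scoped ComplexConjugate Classical

namespace Crest.Agent.R017.LBZ911

open Crest.Agent.R012 Crest.Agent.R012.Eis Crest.Agent.R012.MC
open Crest.Agent.R012.LS2 (S mem_S)
open Crest.Agent.R012.Mob705 (pdiv kap0)
open Crest.Agent.R012.Weight600 (osc pw)
open Crest.Agent.R017.X6C180 (n13 GF)
open Crest.Agent.R017.CM106 (CS TG FS)
open Crest.Agent.R017.E1551 hiding tau Dg
open Crest.Agent.R017.C70 (JW JC OKJ okJ_JW)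
open Crest.Agent.R017.E2440 (TE Jb Qs prs C4 StE Fh)
open Crest.Agent.R017.EHu320 (EHc)
open Crest.Agent.R017.LB48 (CrP GrP)
open Crest.Agent.R017.I1146 (omr X2)
open Crest.Agent.R017.E3M829 (Cut Tal TC_Tal Sg)
open Crest.Agent.R017.E3A164 (SteT Ys Fy)
open Crest.Agent.R017.WDec180 (WD)
open Crest.Agent.R017.Win813 (WK)
open Crest.Agent.R017.RGw813 (T9 bt)
open Crest.Agent.R017.LBo813 (Om rho Om_nonneg Om_le_one)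
open Crest.Agent.R017.NEsm551 (rhs Om_01)
open Crest.Agent.R017.Rough381 (VF)
open Crest.Agent.R017.LBx48
open Crest.Agent.R017.LBu180 (SqQ)
open Crest.Agent.R017.NE499
open Crest.Agent.R017.NEg551 (LBq LBS)
open Crest.Agent.R017.NEx911 (NumCQ LBsqQ)
open Crest.Agent.R017.NEc180 (Num2 NumEq NumCQl crossQ_of)

/-! ### the cross number -/

lemma SqQ_z {w : ℝ → ℝ} {K : ℝ} {Q : Eis → Prop}
    (hz : ∀ k : Eis, IsPrim k → w (nm k / K) ≠ 0 → ¬ Q k) (α : Eis → ℂ) :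
    SqQ w K Q α ≤ 0 := by
  unfold LBu180.SqQ
  have e : (fun k : Eis => if IsPrim k ∧ Q k then w (nm k / K) * ‖CS α k‖ ^ 2 else 0) =
      fun _ => (0 : ℝ) := by
    funext k
    split_ifs with h
    · by_cases hw : w (nm k / K) = 0
      · rw [hw, zero_mul]
      · exact absurd h.2 (hz k h.1 hw)
    · rfl
  rw [e, tsum_zero]

lemma GrP_z {w : ℝ → ℝ} {K : ℝ} {Q : Eis → Prop}
    (hz : ∀ k : Eis, IsPrim k → w (nm k / K) ≠ 0 → ¬ Q k) (f : Eis → ℂ) :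
    GrP w K (fun k => if Q k then f k else 0) ≤ 0 := by
  unfold LB48.GrP
  have e : (fun k : Eis => if IsPrim k then
      w (nm k / K) * ‖(fun k => if Q k then f k else 0) k‖ ^ 2 else 0) = fun _ => (0 : ℝ) := by
    funext k
    by_cases h : IsPrim k
    · rw [if_pos h]
      by_cases hw : w (nm k / K) = 0
      · rw [hw, zero_mul]
      · simp only [if_neg (hz k h hw)]
        simp
    · rw [if_neg h]
  rw [e, tsum_zero]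

set_option maxHeartbeats 1600000 in
/-- **the cross number over `Q`, second scale empty** -/
theorem numCQ_z {w : ℝ → ℝ} (hw : Wgt w) (hw0 : ∀ x, 0 ≤ w x) {N : ℕ} {M : ℝ}
    {F : ℕ → ℝ → ℂ} (hD : WD w N M F) {Cw R ε : ℝ} {Aw J : ℕ} (hCw : 0 ≤ Cw) (hR : 0 ≤ R)
    (hε : 0 < ε) (hJA : J + 2 ≤ Aw) : ∃ C : ℝ, 0 ≤ C ∧
    ∀ (K X Y D G₀ E0 h η : ℝ) (N₁ I : ℕ), 0 < K → K ≤ Y → 0 < X → 1 ≤ Y → 0 ≤ D →
    D ≤ Y → 1 ≤ E0 → E0 ≤ Y → 1 ≤ N₁ → (N₁ : ℝ) ≤ Y →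
    0 ≤ h → (N₁ : ℝ) < 2 ^ I →
    0 < η → η ≤ 1 → ∀ α : Eis → ℂ, (∀ n, α n ≠ 0 → n ∈ S Y) →
    ∀ Ma Ml A₂ At : ℝ, 0 ≤ Ma → 0 ≤ Ml → 0 ≤ A₂ → 0 ≤ At →
    (∀ g ∈ S Y, (nm g : ℝ) ≤ G₀ → ∀ V : ℝ, 1 ≤ V → V ≤ 9 * N₁ * nm g → ∀ t : ℝ,
      VF V (tws (sg α g) t) ≤
        Ma / (nm g : ℝ) ^ 2 * ((V * K / (X / nm g) ^ 2) ^ (1 / 3 : ℝ)) * (1 + |t|) ^ J) →
    (∀ g ∈ S Y, ∀ B V : ℝ, 1 ≤ B → B ≤ Y → 1 ≤ V → V ≤ 9 * N₁ / (nm g : ℝ) ^ 2 → ∀ t : ℝ,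
      E1551.JB Y α (fun U => G₀ < nm (g * U)) g B V t ≤
        Ml / (nm g : ℝ) ^ 2 * yv K X g V * (1 + |t|) ^ J) →
    ∀ Q : Eis → Prop,
    (∀ k : Eis, IsPrim k → w (nm k / (K * Real.exp (-h))) ≠ 0 → ¬ Q k) →
    Num2 N M F Cw η Aw K X R J D E0 h N₁ I α A₂ →
    NumEq N M F Q Cw η Aw K X R J D E0 h N₁ α At →
    NumCQl w Q Cw η Aw K X Y R J D E0 N₁ α
      (A₂ + At + C * (η⁻¹) ^ J * (Y ^ ε * Y ^ ε) * Real.exp (-(h / 3)) * (Ma + Ml)) := by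
  obtain ⟨C₁, hC₁, H₁⟩ := crossQ_of hw hw0 hD (R := 1) zero_le_one (A := J + 2) (by omega)
  obtain ⟨C₂, hC₂, H₂⟩ := LBT381.lbt_all4 (J := J) (Aw := Aw) (A := J + 2) le_rfl hJA hR hCw hε
  obtain ⟨C₅, hC₅, H₅⟩ := PInv255.one_add_log_pow_le 1 ε hε
  have h9 : (0 : ℝ) ≤ 9 ^ ε := by positivity
  refine ⟨C₁ * C₅ * (C₂ * 9 ^ ε), by positivity, ?_⟩
  intro K X Y D G₀ E0 h η N₁ I hK hKY hX hY hD0 hDY hE0 hE0Y hN₁ hNY hh hI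
    hη hη1 α hα Ma Ml A₂ At hMa hMl hA₂ hAt hSA hL Q hQ hN2 hNE
    p hp t X' φ hX' hXX hφ hφs
  have hY0 : 0 < Y := by linarith
  have hq : 1 ≤ Y ^ ε := Real.one_le_rpow hY hε.le
  have hN1 : (1 : ℝ) ≤ N₁ := by exact_mod_cast hN₁
  have hZ0 : (0 : ℝ) < N₁ := by linarith
  have hE00 : 0 < E0 := by linarith
  have hadm : Adm Y X' 1 (fun n => bt φ α p n * pw t (nm n)) :=
    adm_mz hη1 (RGw813.adm_bt hφs hα p t)
  have r2 := hN2 p hp t X' φ hX' hXX hφ hφs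
  have r3 := hNE p hp t X' φ hX' hXX hφ hφs
  have s1 := H₂ (9 * Y) K X X' Y η N₁ G₀ Ma Ml 1 0 1 0 0 α (by linarith) hK hX hX' hXX hY
    (by linarith) hZ0.le (by linarith) hη hη1 hMa hMl one_pos le_rfl zero_le_one le_rfl
    le_rfl hα hSA hL p hp φ hφ t
  clear hSA hL hN2 hNE
  have hom : ∀ x, ‖omr (Om (N₁ / 2) N₁) x‖ ≤ 1 := by
    intro x
    unfold I1146.omr
    rw [Complex.norm_real, Real.norm_eq_abs, abs_of_nonneg (Om_nonneg _ _ _)]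
    exact Om_le_one _ _ _
  generalize (fun n => bt φ α p n * pw t (nm n)) = β at hadm r2 r3 s1 ⊢
  obtain ⟨V, hV⟩ : ∃ V : ℝ, V = (1 + |t|) ^ J := ⟨_, rfl⟩
  rw [← hV] at r2 r3 s1 ⊢
  have hV1 : 1 ≤ V := by rw [hV]; exact one_le_pow₀ (by linarith [abs_nonneg t])
  have hKX : 0 ≤ K / X := by positivity
  have hKX' : 0 ≤ K / X' := by positivity
  have t2 : 0 ≤ EHf ((J + 2 : ℕ) : ℝ) K X' Y N₁ β :=
    EHc_nonneg (fun n => by positivity) _ hK.le hX'.le β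
  have u1 : (K / X') * EHf ((J + 2 : ℕ) : ℝ) K X' Y N₁ β ≤
      (K / X) * (C₂ * ((η⁻¹) ^ J * (9 ^ ε * Y ^ ε)) * (Ma + Ml) * V) := by
    rw [← Real.mul_rpow (by norm_num) hY0.le]
    refine le_trans (le_of_eq ?_) (s1.trans (le_of_eq ?_))
    · ring
    · ring
  have hL5 : 1 + Real.log Y ≤ C₅ * Y ^ ε := by
    have := H₅ Y hY
    rwa [pow_one] at this
  have a0 := H₁ K X' Y D (1 / 10) N₁ E0 h I hK hX' hY hZ0 hh hD0 hE00.le hI β hadm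
    (omr (Om (N₁ / 2) N₁)) hom Q ((K / X) * (A₂ * V)) ((K / X) * (At * V)) 0
    0 r2 r3 (SqQ_z hQ β) (GrP_z hQ _)
  rw [Real.sqrt_zero, mul_zero, mul_zero, add_zero] at a0
  refine a0.trans ?_
  have e1 : 0 ≤ Real.exp (-(h / 3)) := (Real.exp_pos _).le
  have a1 : C₁ * (1 + Real.log Y) * ((K / X') * (Real.exp (-(h / 3)) *
      EHf ((J + 2 : ℕ) : ℝ) K X' Y N₁ β)) ≤ (C₁ * (C₅ * Y ^ ε)) * (Real.exp (-(h / 3)) *
        ((K / X) * (C₂ * ((η⁻¹) ^ J * (9 ^ ε * Y ^ ε)) * (Ma + Ml) * V))) := by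
    have e2 : (K / X') * (Real.exp (-(h / 3)) * EHf ((J + 2 : ℕ) : ℝ) K X' Y N₁ β) =
        Real.exp (-(h / 3)) * ((K / X') * EHf ((J + 2 : ℕ) : ℝ) K X' Y N₁ β) := by ring
    rw [e2]
    have e3 : 0 ≤ Real.exp (-(h / 3)) * ((K / X') * EHf ((J + 2 : ℕ) : ℝ) K X' Y N₁ β) := by
      positivity
    exact mul_le_mul (mul_le_mul_of_nonneg_left hL5 hC₁)
      (mul_le_mul_of_nonneg_left u1 e1) e3 (by positivity)
  refine (add_le_add le_rfl a1).trans (le_of_eq ?_)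
  ring

/-! ### the lower bound -/

/-- **the numbers of the near leaf**, compensated weight at the dilation `h = 3 log (B / E0)`, cut
`B / E0`, no frequency of `Qf` at the scale `K e^(-h)` -/
def NumZ (w : ℝ → ℝ) (N : ℕ) (M : ℝ) (F : ℕ → ℝ → ℂ) (Qf : LBq → Eis → Prop) (p : LBq)
    (α : Eis → ℂ) (Rn : ℝ) : Prop :=
  ∃ (Tt A₂ At Ro : ℝ) (I : ℕ), 0 ≤ Tt ∧ 0 ≤ A₂ ∧ 0 ≤ At ∧ 0 ≤ Ro ∧
    p.E0 ≤ p.B ∧ (p.N₁ : ℝ) < 2 ^ I ∧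
    (∀ k : Eis, IsPrim k → w (nm k / (p.K * Real.exp (-hS p))) ≠ 0 → ¬ Qf p k) ∧
    Tt + A₂ + At + Ro ≤ Rn ∧
    NumT p.Cw p.η p.Aw p.K p.X p.Y p.R p.J p.D p.E0 p.N₁ α Tt ∧
    Num2 N M F p.Cw p.η p.Aw p.K p.X p.R p.J p.D p.E0 (hS p) p.N₁ I α A₂ ∧
    NumEq N M F (Qf p) p.Cw p.η p.Aw p.K p.X p.R p.J p.D p.E0 (hS p) p.N₁ α At ∧
    NumOs w p.Cw p.η p.Aw p.K p.X p.K p.R p.J p.D p.E0 p.E1 (p.B / p.E0) (p.N₁ / 2) p.N₁ α Ro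

lemma NumZ.mono {w : ℝ → ℝ} {N : ℕ} {M : ℝ} {F : ℕ → ℝ → ℂ} {Qf : LBq → Eis → Prop} {p : LBq}
    {α : Eis → ℂ} {Rn Rn' : ℝ} (h : NumZ w N M F Qf p α Rn) (hR : Rn ≤ Rn') :
    NumZ w N M F Qf p α Rn' := by
  obtain ⟨Tt, A₂, At, Ro, I, h1, h2, h3, h4, h5, h6, h7, h8, h9⟩ := h
  exact ⟨Tt, A₂, At, Ro, I, h1, h2, h3, h4, h5, h6, h7, h8.trans hR, h9⟩

set_option maxHeartbeats 800000 in
/-- **the lower bound with the compensated cross number, second scale empty** -/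
theorem lbs_Z {w : ℝ → ℝ} (hw : Wgt w) (hw0 : ∀ x, 0 ≤ w x) {N : ℕ} {M : ℝ}
    {F : ℕ → ℝ → ℂ} (hD : WD w N M F) {Qf : LBq → Eis → Prop}
    (hQf : ∀ q k, IsPrim k → Qf q k → Cut q.E1 k) : LBS w 0 (NumZ w N M F Qf) := by
  intro Cw R ε Aw J hCw hR hε hJA
  obtain ⟨C₁, hC₁, H₁⟩ := NE73.lb_bsQ2 hw hw0 hCw hR hε hJA
  obtain ⟨C₂, hC₂, H₂⟩ := numCQ_z hw hw0 hD hCw hR (half_pos hε) hJA
  refine ⟨C₁ * (2 + C₂), by positivity, ?_⟩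
  intro K X Y D G₀ E0 E1 B θ η N₁ hK hKY hX hY hD0 hDY hE0 hE0Y hB hθ hBθ hN₁ hN₁Y hKθ hη hη1
    α hα hαR hαn Ma Ml Rn hMa hMl hRn hSA hL hRh
  obtain ⟨Tt, A₂, At, Ro, I, g1, g2, g3, g4, hEB, hI, hQz, hsum, n1, n2, n3, n4⟩ := hRh
  simp only at hEB hI hsum n1 n2 n3 n4
  have hE00 : 0 < E0 := by linarith
  have hB0 : 0 < B := by linarith
  obtain ⟨h, hh⟩ : ∃ h : ℝ, h = hS ⟨Cw, η, Aw, K, X, Y, R, J, N₁, E0, E1, B, θ, D, G₀⟩ := ⟨_, rfl⟩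
  rw [← hh] at n2 n3 hQz
  have hhd : h = 3 * Real.log (B / E0) := hh
  have hBE1 : 1 ≤ B / E0 := by rwa [le_div_iff₀ hE00, one_mul]
  have hh0 : 0 ≤ h := by
    rw [hhd]
    have : 0 ≤ Real.log (B / E0) := Real.log_nonneg hBE1
    linarith
  have hexn : Real.exp (-(h / 3)) = E0 / B := by
    rw [Real.exp_neg, hhd, mul_div_cancel_left₀ _ (by norm_num : (3 : ℝ) ≠ 0),
      Real.exp_log (by positivity), inv_div]
  have c1 := H₂ K X Y D G₀ E0 h η N₁ I hK hKY hX hY hD0 hDY hE0 hE0Y hN₁ hN₁Y hh0 hI hη hη1 α hα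
    Ma Ml A₂ At hMa hMl g2 g3 hSA hL
    (Qf ⟨Cw, η, Aw, K, X, Y, R, J, N₁, E0, E1, B, θ, D, G₀⟩) hQz n2 n3
  have hη' : 1 ≤ η⁻¹ := (one_le_inv₀ hη).mpr hη1
  have hY0 : 0 < Y := by linarith
  obtain ⟨q, hqd⟩ : ∃ q : ℝ, q = C₂ * (η⁻¹) ^ J * (Y ^ (ε / 2) * Y ^ (ε / 2)) := ⟨_, rfl⟩
  have hq0 : 0 ≤ q := by rw [hqd]; positivity
  have hm : 0 ≤ Ma + Ml := by linarith
  have hs0 : 0 ≤ θ * E0 := by positivity
  have hes : E0 / B ≤ θ * E0 := by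
    rw [div_eq_mul_inv, mul_comm E0]
    exact mul_le_mul_of_nonneg_right hBθ hE00.le
  rw [← hqd, hexn] at c1
  obtain ⟨Ec, hEc⟩ : ∃ Ec : ℝ, Ec = A₂ + At + q * (E0 / B) * (Ma + Ml) := ⟨_, rfl⟩
  have hEc0 : 0 ≤ Ec := by rw [hEc]; positivity
  rw [← hEc] at c1
  have hEcle : Ec ≤ q * (θ * E0 * (Ma + Ml)) + (A₂ + At) := by
    have b1 : q * (E0 / B) * (Ma + Ml) ≤ q * (θ * E0) * (Ma + Ml) := by gcongr
    rw [hEc]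
    linarith
  have key := H₁ K X Y D G₀ E0 E1 (B / E0) θ η N₁ hK hKY hX hY hD0 hDY hE0 hE0Y hBE1 hθ hN₁ hN₁Y
    hKθ hη hη1 α hα hαR hαn _ (hQf ⟨Cw, η, Aw, K, X, Y, R, J, N₁, E0, E1, B, θ, D, G₀⟩) Ma Ml Tt Ec Ro
    hMa hMl g1 hEc0 g4 hSA hL n1 c1 n4
  intro p hp t X' φ hX' hXX hφ hφs
  refine (key p hp t X' φ hX' hXX hφ hφs).trans ?_
  have hYe : Y ^ (ε / 2) * Y ^ (ε / 2) = Y ^ ε := by
    rw [← Real.rpow_add hY0]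
    congr 1
    ring
  have hYε : 1 ≤ Y ^ ε := Real.one_le_rpow hY hε.le
  have e2 : Y ^ ε * Y ^ ε * Y ^ ε * Y ^ ε = Y ^ (4 * ε) := by
    rw [← Real.rpow_add hY0, ← Real.rpow_add hY0, ← Real.rpow_add hY0]
    congr 1
    ring
  have hJ1 : 1 ≤ (η⁻¹) ^ J := one_le_pow₀ hη'
  have e1 : (η⁻¹) ^ J * (η⁻¹) ^ J ≤ (η⁻¹) ^ (2 * J + 2) := by
    rw [← pow_add]
    exact pow_le_pow_right₀ hη' (by omega)
  have e3 : X ^ 2 + (θ * E0 + (B / E0)⁻¹) * (Ma + Ml) + Tt + Ec + Ro ≤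
      (2 + C₂) * ((η⁻¹) ^ J * Y ^ ε) * (X ^ 2 + θ * E0 * (Ma + Ml) + Rn) := by
    have a1 : X ^ 2 + (θ * E0 + (B / E0)⁻¹) * (Ma + Ml) + Tt + Ec + Ro ≤
        (2 + q) * (X ^ 2 + θ * E0 * (Ma + Ml) + Rn) := by
      have b0 : (B / E0)⁻¹ * (Ma + Ml) ≤ θ * E0 * (Ma + Ml) := by
        rw [inv_div]
        exact mul_le_mul_of_nonneg_right hes hm
      have b1 : 0 ≤ q * (X ^ 2 + Rn) := by positivity
      have b2 : 0 ≤ θ * E0 * (Ma + Ml) := by positivity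
      have b3 : 0 ≤ X ^ 2 := by positivity
      linarith
    have a2 : 2 + q ≤ (2 + C₂) * ((η⁻¹) ^ J * Y ^ ε) := by
      have b1 : 1 ≤ (η⁻¹) ^ J * Y ^ ε := one_le_mul_of_one_le_of_one_le hJ1 hYε
      rw [hqd, hYe]
      linarith
    have a3 : 0 ≤ X ^ 2 + θ * E0 * (Ma + Ml) + Rn := by positivity
    exact a1.trans (mul_le_mul_of_nonneg_right a2 a3)
  have e5 : C₁ * (η⁻¹) ^ J * (Y ^ ε * Y ^ ε * Y ^ ε) *
      (X ^ 2 + (θ * E0 + (B / E0)⁻¹) * (Ma + Ml) + Tt + Ec + Ro) ≤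
      C₁ * (2 + C₂) * (η⁻¹) ^ (2 * J + 2) * Y ^ (4 * ε) *
        (X ^ 2 + (θ * E0 + 0 * E0⁻¹) * (Ma + Ml) + Rn) := by
    rw [zero_mul, add_zero]
    have a3 : 0 ≤ X ^ 2 + θ * E0 * (Ma + Ml) + Rn := by positivity
    calc C₁ * (η⁻¹) ^ J * (Y ^ ε * Y ^ ε * Y ^ ε) *
          (X ^ 2 + (θ * E0 + (B / E0)⁻¹) * (Ma + Ml) + Tt + Ec + Ro) ≤
        C₁ * (η⁻¹) ^ J * (Y ^ ε * Y ^ ε * Y ^ ε) *
          ((2 + C₂) * ((η⁻¹) ^ J * Y ^ ε) * (X ^ 2 + θ * E0 * (Ma + Ml) + Rn)) :=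
          mul_le_mul_of_nonneg_left e3 (by positivity)
      _ = C₁ * (2 + C₂) * ((η⁻¹) ^ J * (η⁻¹) ^ J) * (Y ^ ε * Y ^ ε * Y ^ ε * Y ^ ε) *
          (X ^ 2 + θ * E0 * (Ma + Ml) + Rn) := by ring
      _ ≤ C₁ * (2 + C₂) * (η⁻¹) ^ (2 * J + 2) * Y ^ (4 * ε) *
          (X ^ 2 + θ * E0 * (Ma + Ml) + Rn) := by
          rw [e2]
          gcongr
  have hKX : 0 ≤ K / X := by positivity
  refine mul_le_mul_of_nonneg_left (mul_le_mul_of_nonneg_right (e5.trans (le_of_eq (by ring)))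
    (by positivity)) hKX

end Crest.Agent.R017.LBZ911
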