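import Mathlib

/-!
# Row 17, section C: the B-line (LB), abstract core (helper702)

`g` = modulus of the lumps (length `Y`), `P j` = moduli of the granular pieces (lengths `X j`), `K` = size
of the family `S`. Hypotheses: Halasz-Montgomery for `P j ^ n` and `g * P j ^ n` at length `K^{4/3}`,
pointwise bound `P j ≤ X j ^ β`, second moment of the lumps if `Y > K^{4/3}`.
-/

set_option autoImplicit false

noncomputable section

open Finset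

namespace Crest.Agent.R017.LB702

variable {κ ι : Type*}

/-! ### elementary lemmas -/

theorem rpow_end_le {r μ μ₁ μ₂ : ℝ} (hr : 0 < r) (h1 : μ₁ ≤ μ) (h2 : μ ≤ μ₂) :
    r ^ μ ≤ r ^ μ₁ + r ^ μ₂ := by
  rcases le_total 1 r with h | h
  · have := Real.rpow_le_rpow_of_exponent_le h h2
    have h0 : 0 ≤ r ^ μ₁ := (Real.rpow_pos_of_pos hr _).le
    linarith
  · have := Real.rpow_le_rpow_of_exponent_ge hr h h1
    have h0 : 0 ≤ r ^ μ₂ := (Real.rpow_pos_of_pos hr _).le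
    linarith

/-- the mass `K^{8/3(1-μ)} L^{2μ}` of a level `μ` -/
def ms (K L μ : ℝ) : ℝ := K ^ (8 / 3 * (1 - μ)) * L ^ (2 * μ)

theorem ms_pos {K L : ℝ} (hK : 0 < K) (hL : 0 < L) (μ : ℝ) : 0 < ms K L μ :=
  mul_pos (Real.rpow_pos_of_pos hK _) (Real.rpow_pos_of_pos hL _)

theorem ms_eq {K L : ℝ} (hK : 0 < K) (hL : 0 < L) (μ : ℝ) :
    ms K L μ = K ^ (8 / 3 : ℝ) * (L ^ 2 / K ^ (8 / 3 : ℝ)) ^ μ := by
  unfold ms
  have hK' : 0 < K ^ (8 / 3 : ℝ) := Real.rpow_pos_of_pos hK _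
  rw [Real.div_rpow (by positivity) hK'.le, ← Real.rpow_mul hK.le, ← Real.rpow_natCast L 2,
    ← Real.rpow_mul hL.le]
  have h1 : K ^ (8 / 3 * (1 - μ)) = K ^ (8 / 3 : ℝ) / K ^ (8 / 3 * μ) := by
    rw [← Real.rpow_sub hK]; congr 1; ring
  rw [h1]
  push_cast
  ring

theorem ms_end {K L μ μ₁ μ₂ : ℝ} (hK : 0 < K) (hL : 0 < L) (h1 : μ₁ ≤ μ) (h2 : μ ≤ μ₂) :
    ms K L μ ≤ ms K L μ₁ + ms K L μ₂ := by
  rw [ms_eq hK hL, ms_eq hK hL, ms_eq hK hL, ← mul_add]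
  refine mul_le_mul_of_nonneg_left (rpow_end_le ?_ h1 h2) (Real.rpow_nonneg hK.le _)
  exact div_pos (by positivity) (Real.rpow_pos_of_pos hK _)

/-- weak type to strong type with a logarithm -/
theorem weak_sum (S : Finset κ) (f : κ → ℝ) {A V₀ : ℝ} (N : ℕ) (hV : 0 < V₀)
    (hlo : ∀ k ∈ S, V₀ ≤ f k) (hhi : ∀ k ∈ S, f k ≤ V₀ * 2 ^ N)
    (h : ∀ V : ℝ, V₀ ≤ V → (#{k ∈ S | V ≤ f k} : ℝ) * V ≤ A) :
    ∑ k ∈ S, f k ≤ 2 * (N + 1) * A := by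
  classical
  have key : ∀ k ∈ S, f k ≤ ∑ i ∈ range (N + 1), (if V₀ * 2 ^ i ≤ f k then 2 * (V₀ * 2 ^ i) else 0) := by
    intro k hk
    have h1 : 1 ≤ f k / V₀ := by rw [le_div_iff₀ hV]; simpa using hlo k hk
    obtain ⟨n, hn1, hn2⟩ := exists_nat_pow_near h1 (by norm_num : (1 : ℝ) < 2)
    rw [le_div_iff₀ hV] at hn1
    rw [div_lt_iff₀ hV] at hn2
    have hnN : n < N + 1 := by
      by_contra hcon
      have hle : N + 1 ≤ n := not_lt.mp hcon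
      have h2 : (2 : ℝ) ^ (N + 1) ≤ 2 ^ n := pow_le_pow_right₀ (by norm_num) hle
      have h3 := hhi k hk
      have h4 : V₀ * 2 ^ N < V₀ * 2 ^ (N + 1) := by
        rw [pow_succ]; nlinarith [mul_pos hV (pow_pos (by norm_num : (0 : ℝ) < 2) N)]
      have h5 : V₀ * 2 ^ (N + 1) ≤ V₀ * 2 ^ n := mul_le_mul_of_nonneg_left h2 hV.le
      linarith [mul_comm V₀ ((2 : ℝ) ^ n)]
    calc f k ≤ 2 * (V₀ * 2 ^ n) := by
            rw [pow_succ] at hn2; linarith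
      _ = (if V₀ * 2 ^ n ≤ f k then 2 * (V₀ * 2 ^ n) else 0) := by
            rw [if_pos (by linarith [mul_comm V₀ ((2 : ℝ) ^ n)])]
      _ ≤ _ := by
            refine single_le_sum (f := fun i => (if V₀ * 2 ^ i ≤ f k then 2 * (V₀ * 2 ^ i) else 0))
              ?_ (mem_range.mpr hnN)
            intro i _
            split_ifs
            · positivity
            · exact le_rfl
  calc ∑ k ∈ S, f k ≤ ∑ k ∈ S, ∑ i ∈ range (N + 1),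
          (if V₀ * 2 ^ i ≤ f k then 2 * (V₀ * 2 ^ i) else 0) := sum_le_sum key
    _ = ∑ i ∈ range (N + 1), ∑ k ∈ S, (if V₀ * 2 ^ i ≤ f k then 2 * (V₀ * 2 ^ i) else 0) :=
        sum_comm
    _ ≤ ∑ _i ∈ range (N + 1), 2 * A := by
        refine sum_le_sum fun i _ => ?_
        rw [← sum_filter, sum_const, nsmul_eq_mul]
        have hp : V₀ ≤ V₀ * 2 ^ i := by
          have : (1 : ℝ) ≤ 2 ^ i := one_le_pow₀ (by norm_num)
          nlinarith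
        have := h _ hp
        linarith
    _ = 2 * (N + 1) * A := by
        rw [sum_const, card_range, nsmul_eq_mul]; push_cast; ring

/-! ### the data -/

/-- hypotheses of the B-line -/
structure Dat (S : Finset κ) (J : Finset ι) (g : κ → ℝ) (P : ι → κ → ℝ) (K Y : ℝ) (X : ι → ℝ)
    (B η β : ℝ) (N : ℕ) : Prop where
  K1 : 1 ≤ K
  Y1 : 1 ≤ Y
  X1 : ∀ j ∈ J, 1 ≤ X j
  B1 : 1 ≤ B
  η0 : 0 ≤ η
  η1 : η ≤ 4 / 3
  β1 : β ≤ 3 / 2
  g0 : ∀ k ∈ S, 0 ≤ g k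
  P0 : ∀ j ∈ J, ∀ k ∈ S, 0 ≤ P j k
  /-- the pointwise bound -/
  sup : ∀ j ∈ J, ∀ k ∈ S, P j k ≤ X j ^ β
  /-- (LV) for powers of a granular piece -/
  pow : ∀ j ∈ J, ∃ n : ℕ, K ^ (4 / 3 - η) ≤ X j ^ n ∧
    ∀ V : ℝ, B * K ^ (8 / 9 : ℝ) * X j ^ n ≤ V →
      (#{k ∈ S | V ≤ (P j k ^ n) ^ 2} : ℝ) * V ≤ B * K ^ (4 / 3 : ℝ) * X j ^ n
  /-- (LV) for lumps times powers of a granular piece -/
  lum : Y ≤ K ^ (4 / 3 : ℝ) → ∀ j ∈ J, ∃ n : ℕ, K ^ (4 / 3 - η) ≤ Y * X j ^ n ∧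
    (∀ k ∈ S, (g k * P j k ^ n) ^ 2 ≤ 2 ^ N) ∧
    ∀ V : ℝ, B * K ^ (8 / 9 : ℝ) * (Y * X j ^ n) ≤ V →
      (#{k ∈ S | V ≤ (g k * P j k ^ n) ^ 2} : ℝ) * V ≤ B * K ^ (4 / 3 : ℝ) * (Y * X j ^ n)
  /-- long lumps -/
  tf : K ^ (4 / 3 : ℝ) < Y → ∑ k ∈ S, g k ^ 2 ≤ B * K * Y

section core

variable {S : Finset κ} {J : Finset ι} {g : κ → ℝ} {P : ι → κ → ℝ} {K Y : ℝ} {X : ι → ℝ}
  {B η β : ℝ} {N : ℕ}

/-- total length -/
def tl (J : Finset ι) (Y : ℝ) (X : ι → ℝ) : ℝ := Y * ∏ j ∈ J, X j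

/-- class of level `[μ, μ']` with witness `j` -/
def cl (S : Finset κ) (J : Finset ι) (P : ι → κ → ℝ) (X : ι → ℝ) (j : ι) (μ μ' : ℝ) :
    Finset κ := by
  classical
  exact S.filter fun k => X j ^ μ < P j k ∧ ∀ i ∈ J, P i k ≤ X i ^ μ'

theorem mem_cl {j : ι} {μ μ' : ℝ} {k : κ} : k ∈ cl S J P X j μ μ' ↔
    k ∈ S ∧ X j ^ μ < P j k ∧ ∀ i ∈ J, P i k ≤ X i ^ μ' := by
  unfold cl; rw [mem_filter]

theorem cl_sub {j : ι} {μ μ' : ℝ} : cl S J P X j μ μ' ⊆ S := fun _ hk => (mem_cl.mp hk).1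

theorem prod_sup (D : Dat S J g P K Y X B η β N) {j : ι} {μ μ' : ℝ} {k : κ}
    (hk : k ∈ cl S J P X j μ μ') : ∏ i ∈ J, P i k ^ 2 ≤ (∏ i ∈ J, X i) ^ (2 * μ') := by
  obtain ⟨hS, _, h2⟩ := mem_cl.mp hk
  have hX : ∀ i ∈ J, (0 : ℝ) ≤ X i := fun i hi => by linarith [D.X1 i hi]
  rw [← Real.finsetProd_rpow _ _ hX]
  refine prod_le_prod (fun i _ => by positivity) fun i hi => ?_
  have h3 := pow_le_pow_left₀ (D.P0 i hi k hS) (h2 i hi) 2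
  rwa [← Real.rpow_natCast (X i ^ μ') 2, ← Real.rpow_mul (hX i hi), mul_comm μ'] at h3

theorem prodX_one (D : Dat S J g P K Y X B η β N) : 1 ≤ ∏ i ∈ J, X i := by
  have := prod_le_prod (s := J) (f := fun _ => (1 : ℝ)) (g := X) (fun _ _ => zero_le_one)
    (fun i hi => D.X1 i hi)
  simpa using this

theorem tl_one (D : Dat S J g P K Y X B η β N) : 1 ≤ tl J Y X := by
  unfold tl
  nlinarith [D.Y1, prodX_one D]

/-- the exponent calculation of a level -/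
theorem lvl_calc {K Z μ η : ℝ} (hK : 1 ≤ K) (hZ : K ^ (4 / 3 - η) ≤ Z) (hμ : 1 / 2 ≤ μ)
    (hμ1 : μ ≤ 3 / 2) (hη : 0 ≤ η) :
    K ^ (4 / 3 : ℝ) * Z ≤ K ^ (2 * η) * K ^ (8 / 3 * (1 - μ)) * Z ^ (2 * μ) := by
  have hKp : 0 < K := by linarith
  have hZp : 0 < Z := lt_of_lt_of_le (Real.rpow_pos_of_pos hKp _) hZ
  have h1 : K ^ ((4 / 3 - η) * (2 * μ - 1)) ≤ Z ^ (2 * μ - 1) := by
    rw [Real.rpow_mul hKp.le]
    exact Real.rpow_le_rpow (Real.rpow_nonneg hKp.le _) hZ (by linarith)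
  have h2 : Z ^ (2 * μ) = Z ^ (2 * μ - 1) * Z := by
    rw [← Real.rpow_add_one hZp.ne']; congr 1; ring
  rw [h2]
  have h3 : K ^ (4 / 3 : ℝ) ≤ K ^ (2 * η) * K ^ (8 / 3 * (1 - μ)) *
      K ^ ((4 / 3 - η) * (2 * μ - 1)) := by
    rw [← Real.rpow_add hKp, ← Real.rpow_add hKp]
    refine Real.rpow_le_rpow_of_exponent_le hK ?_
    nlinarith [mul_nonneg hη (by linarith : (0 : ℝ) ≤ 3 / 2 - μ)]
  calc K ^ (4 / 3 : ℝ) * Z ≤ (K ^ (2 * η) * K ^ (8 / 3 * (1 - μ)) *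
        K ^ ((4 / 3 - η) * (2 * μ - 1))) * Z := mul_le_mul_of_nonneg_right h3 hZp.le
    _ ≤ (K ^ (2 * η) * K ^ (8 / 3 * (1 - μ)) * Z ^ (2 * μ - 1)) * Z := by
        refine mul_le_mul_of_nonneg_right ?_ hZp.le
        exact mul_le_mul_of_nonneg_left h1 (by positivity)
    _ = _ := by ring

/-- `V₀` is admissible -/
theorem thr_calc {K Z μ η B μ₀ : ℝ} (hK : 1 ≤ K) (hZ : K ^ (4 / 3 - η) ≤ Z) (hη1 : η ≤ 4 / 3)
    (hμ₀ : 1 / 2 ≤ μ₀) (hμ : μ₀ ≤ μ)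
    (hB : B * K ^ (8 / 9 : ℝ) ≤ (K ^ (4 / 3 - η)) ^ (2 * μ₀ - 1)) :
    B * K ^ (8 / 9 : ℝ) * Z ≤ Z ^ (2 * μ) := by
  have hKp : 0 < K := by linarith
  have hZp : 0 < Z := lt_of_lt_of_le (Real.rpow_pos_of_pos hKp _) hZ
  have hZ1 : 1 ≤ Z := le_trans (Real.one_le_rpow hK (by linarith)) hZ
  have h1 : (K ^ (4 / 3 - η)) ^ (2 * μ₀ - 1) ≤ Z ^ (2 * μ₀ - 1) :=
    Real.rpow_le_rpow (Real.rpow_nonneg hKp.le _) hZ (by linarith)
  have h2 : Z ^ (2 * μ) = Z ^ (2 * μ - 1) * Z := by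
    rw [← Real.rpow_add_one hZp.ne']; congr 1; ring
  have h3 : Z ^ (2 * μ₀ - 1) ≤ Z ^ (2 * μ - 1) :=
    Real.rpow_le_rpow_of_exponent_le hZ1 (by linarith)
  rw [h2]
  exact mul_le_mul_of_nonneg_right (hB.trans (h1.trans h3)) hZp.le

theorem rpow_two_mul_nat {X μ : ℝ} (hX : 0 ≤ X) (n : ℕ) :
    (X ^ n) ^ (2 * μ) = ((X ^ μ) ^ n) ^ 2 := by
  rw [← Real.rpow_natCast X n, ← Real.rpow_mul hX, ← Real.rpow_natCast (X ^ μ) n,
    ← Real.rpow_mul hX, ← Real.rpow_natCast _ 2, ← Real.rpow_mul hX]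
  congr 1
  push_cast
  ring

/-- number of elements of a class -/
theorem card_cl (D : Dat S J g P K Y X B η β N) {j : ι} (hj : j ∈ J) {μ μ' μ₀ : ℝ}
    (hμ₀ : 1 / 2 ≤ μ₀) (hμ : μ₀ ≤ μ) (hμ1 : μ ≤ 3 / 2)
    (hB : B * K ^ (8 / 9 : ℝ) ≤ (K ^ (4 / 3 - η)) ^ (2 * μ₀ - 1)) :
    (#(cl S J P X j μ μ') : ℝ) ≤ B * K ^ (2 * η) * K ^ (8 / 3 * (1 - μ)) := by
  classical
  have hKp : 0 < K := by linarith [D.K1]
  have hX : (0 : ℝ) ≤ X j := by linarith [D.X1 j hj]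
  obtain ⟨n, hn, h⟩ := D.pow j hj
  have hZp : 0 < X j ^ n := pow_pos (by linarith [D.X1 j hj]) n
  have hV := thr_calc D.K1 hn D.η1 hμ₀ hμ hB
  have h1 := h _ hV
  have h2 := lvl_calc D.K1 hn (hμ₀.trans hμ) hμ1 D.η0
  have hsub : cl S J P X j μ μ' ⊆ {k ∈ S | (X j ^ n) ^ (2 * μ) ≤ (P j k ^ n) ^ 2} := by
    intro k hk
    obtain ⟨hS, hlt, _⟩ := mem_cl.mp hk
    rw [mem_filter]
    refine ⟨hS, ?_⟩
    rw [rpow_two_mul_nat hX]
    have h3 : (0 : ℝ) ≤ X j ^ μ := Real.rpow_nonneg hX _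
    exact pow_le_pow_left₀ (pow_nonneg h3 _) (pow_le_pow_left₀ h3 hlt.le n) 2
  have hcard : (#(cl S J P X j μ μ') : ℝ) ≤
      (#{k ∈ S | (X j ^ n) ^ (2 * μ) ≤ (P j k ^ n) ^ 2} : ℝ) := by
    exact_mod_cast card_le_card hsub
  have hVp : 0 < (X j ^ n) ^ (2 * μ) := Real.rpow_pos_of_pos hZp _
  have h4 : (#(cl S J P X j μ μ') : ℝ) * (X j ^ n) ^ (2 * μ) ≤
      B * K ^ (2 * η) * K ^ (8 / 3 * (1 - μ)) * (X j ^ n) ^ (2 * μ) := by
    calc (#(cl S J P X j μ μ') : ℝ) * (X j ^ n) ^ (2 * μ)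
        ≤ B * K ^ (4 / 3 : ℝ) * X j ^ n :=
          (mul_le_mul_of_nonneg_right hcard hVp.le).trans h1
      _ = B * (K ^ (4 / 3 : ℝ) * X j ^ n) := by ring
      _ ≤ B * (K ^ (2 * η) * K ^ (8 / 3 * (1 - μ)) * (X j ^ n) ^ (2 * μ)) :=
          mul_le_mul_of_nonneg_left h2 (by linarith [D.B1])
      _ = _ := by ring
  exact le_of_mul_le_mul_right h4 hVp

/-- second moment of large lumps over a class -/
theorem sum_cl (D : Dat S J g P K Y X B η β N) {j : ι} (hj : j ∈ J) {μ μ' μ₀ : ℝ}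
    (hμ₀ : 1 / 2 ≤ μ₀) (hμ : μ₀ ≤ μ) (hμ1 : μ ≤ 3 / 2) (hμ' : μ ≤ μ')
    (hB : B * K ^ (8 / 9 : ℝ) ≤ (K ^ (4 / 3 - η)) ^ (2 * μ₀ - 1)) :
    ∑ k ∈ cl S J P X j μ μ' with Y ^ μ' < g k, g k ^ 2 ≤
      2 * (N + 1) * (B * K ^ (2 * η) * K ^ (8 / 3 * (1 - μ))) * Y ^ (2 * μ) + 
        B * K ^ (8 / 3 * (1 - μ)) * Y ^ (2 * μ) := by
  classical
  have hKp : 0 < K := by linarith [D.K1]
  have hYp : 0 < Y := by linarith [D.Y1]
  have hBp : 0 < B := by linarith [D.B1]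
  have hX : (0 : ℝ) < X j := by linarith [D.X1 j hj]
  rcases le_or_gt Y (K ^ (4 / 3 : ℝ)) with hY | hY
  · obtain ⟨n, hn, htop, h⟩ := D.lum hY j hj
    set Z := Y * X j ^ n with hZdef
    have hZp : 0 < Z := mul_pos hYp (pow_pos hX n)
    have hV := thr_calc D.K1 hn D.η1 hμ₀ hμ hB
    have h2 := lvl_calc D.K1 hn (hμ₀.trans hμ) hμ1 D.η0
    have hZ1 : 1 ≤ Z := le_trans (Real.one_le_rpow D.K1 (by linarith [D.η1])) hn
    set V₀ := Z ^ (2 * μ) with hV₀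
    have hV₀1 : 1 ≤ V₀ := Real.one_le_rpow hZ1 (by linarith)
    have hV₀p : 0 < V₀ := by linarith
    set C := {k ∈ cl S J P X j μ μ' | Y ^ μ' < g k} with hC
    have hCS : C ⊆ S := (filter_subset _ _).trans cl_sub
    -- lower bound of the product
    have hXμ : (0 : ℝ) ≤ X j ^ μ := Real.rpow_nonneg hX.le _
    have hlow : ∀ k ∈ C, Y ^ μ ≤ g k ∧ X j ^ μ ≤ P j k := by
      intro k hk
      rw [hC, mem_filter] at hk
      obtain ⟨_, hlt, _⟩ := mem_cl.mp hk.1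
      exact ⟨(Real.rpow_le_rpow_of_exponent_le D.Y1 hμ').trans hk.2.le, hlt.le⟩
    have hZexp : V₀ = (Y ^ μ * (X j ^ μ) ^ n) ^ 2 := by
      rw [hV₀, hZdef, Real.mul_rpow hYp.le (by positivity), rpow_two_mul_nat hX.le, mul_pow,
        ← Real.rpow_natCast (Y ^ μ) 2, ← Real.rpow_mul hYp.le]
      congr 2
      push_cast; ring
    have hlo : ∀ k ∈ C, V₀ ≤ (g k * P j k ^ n) ^ 2 := by
      intro k hk
      obtain ⟨h3, h4⟩ := hlow k hk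
      rw [hZexp]
      have h5 : (0 : ℝ) ≤ Y ^ μ := Real.rpow_nonneg hYp.le _
      have h6 : (X j ^ μ) ^ n ≤ P j k ^ n := pow_le_pow_left₀ hXμ h4 n
      refine pow_le_pow_left₀ (mul_nonneg h5 (pow_nonneg hXμ n)) ?_ 2
      exact mul_le_mul h3 h6 (pow_nonneg hXμ n) (h5.trans h3)
    have hhi : ∀ k ∈ C, (g k * P j k ^ n) ^ 2 ≤ V₀ * 2 ^ N := by
      intro k hk
      refine (htop k (hCS hk)).trans ?_
      have : (0 : ℝ) < 2 ^ N := by positivity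
      nlinarith
    have hw := weak_sum C (fun k => (g k * P j k ^ n) ^ 2) (A := B * K ^ (4 / 3 : ℝ) * Z) N hV₀p
      hlo hhi (by
        intro V hVV
        refine le_trans ?_ (h V (hV.trans hVV))
        have hVp : 0 ≤ V := by linarith
        refine mul_le_mul_of_nonneg_right ?_ hVp
        exact_mod_cast card_le_card (filter_subset_filter _ hCS))
    -- compare
    have hXn : (0 : ℝ) < ((X j ^ μ) ^ n) ^ 2 := by
      have : 0 < X j ^ μ := Real.rpow_pos_of_pos hX _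
      positivity
    have hcmp : (∑ k ∈ C, g k ^ 2) * ((X j ^ μ) ^ n) ^ 2 ≤ ∑ k ∈ C, (g k * P j k ^ n) ^ 2 := by
      rw [sum_mul]
      refine sum_le_sum fun k hk => ?_
      obtain ⟨_, h4⟩ := hlow k hk
      have h6 : (X j ^ μ) ^ n ≤ P j k ^ n := pow_le_pow_left₀ hXμ h4 n
      have h7 : ((X j ^ μ) ^ n) ^ 2 ≤ (P j k ^ n) ^ 2 :=
        pow_le_pow_left₀ (pow_nonneg hXμ n) h6 2
      rw [mul_pow]
      exact mul_le_mul_of_nonneg_left h7 (sq_nonneg _)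
    have hfin : (∑ k ∈ C, g k ^ 2) * ((X j ^ μ) ^ n) ^ 2 ≤
        (2 * (N + 1) * (B * K ^ (2 * η) * K ^ (8 / 3 * (1 - μ))) * Y ^ (2 * μ)) *
          ((X j ^ μ) ^ n) ^ 2 := by
      calc (∑ k ∈ C, g k ^ 2) * ((X j ^ μ) ^ n) ^ 2
          ≤ 2 * (N + 1) * (B * K ^ (4 / 3 : ℝ) * Z) := hcmp.trans hw
        _ = 2 * (N + 1) * B * (K ^ (4 / 3 : ℝ) * Z) := by ring
        _ ≤ 2 * (N + 1) * B * (K ^ (2 * η) * K ^ (8 / 3 * (1 - μ)) * Z ^ (2 * μ)) :=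
            mul_le_mul_of_nonneg_left h2 (by positivity)
        _ = (2 * (N + 1) * (B * K ^ (2 * η) * K ^ (8 / 3 * (1 - μ))) * Y ^ (2 * μ)) *
              ((X j ^ μ) ^ n) ^ 2 := by
            have : Z ^ (2 * μ) = Y ^ (2 * μ) * ((X j ^ μ) ^ n) ^ 2 := by
              rw [hZdef, Real.mul_rpow hYp.le (by positivity), rpow_two_mul_nat hX.le]
            rw [this]; ring
    have h8 := le_of_mul_le_mul_right hfin hXn
    have h9 : 0 ≤ B * K ^ (8 / 3 * (1 - μ)) * Y ^ (2 * μ) := by positivity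
    linarith
  · have h1 := D.tf hY
    have hsub : ∑ k ∈ cl S J P X j μ μ' with Y ^ μ' < g k, g k ^ 2 ≤ ∑ k ∈ S, g k ^ 2 :=
      sum_le_sum_of_subset_of_nonneg ((filter_subset _ _).trans cl_sub)
        (fun _ _ _ => sq_nonneg _)
    have h2 : B * K * Y ≤ B * K ^ (8 / 3 * (1 - μ)) * Y ^ (2 * μ) := by
      have h3 : Y ^ (2 * μ) = Y ^ (2 * μ - 1) * Y := by
        rw [← Real.rpow_add_one hYp.ne']; congr 1; ring
      have h4 : K ^ (4 / 3 * (2 * μ - 1)) ≤ Y ^ (2 * μ - 1) := by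
        rw [Real.rpow_mul hKp.le]
        exact Real.rpow_le_rpow (Real.rpow_nonneg hKp.le _) hY.le (by linarith)
      have h5 : K ≤ K ^ (8 / 3 * (1 - μ)) * K ^ (4 / 3 * (2 * μ - 1)) := by
        rw [← Real.rpow_add hKp]
        conv_lhs => rw [← Real.rpow_one K]
        refine Real.rpow_le_rpow_of_exponent_le D.K1 ?_
        linarith
      have h6 : K ≤ K ^ (8 / 3 * (1 - μ)) * Y ^ (2 * μ - 1) :=
        h5.trans (mul_le_mul_of_nonneg_left h4 (by positivity))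
      rw [h3]
      calc B * K * Y = B * Y * K := by ring
        _ ≤ B * Y * (K ^ (8 / 3 * (1 - μ)) * Y ^ (2 * μ - 1)) :=
            mul_le_mul_of_nonneg_left h6 (by positivity)
        _ = _ := by ring
    have h3 : 0 ≤ 2 * (N + 1) * (B * K ^ (2 * η) * K ^ (8 / 3 * (1 - μ))) * Y ^ (2 * μ) := by
      positivity
    linarith

/-- the whole class -/
theorem class_le (D : Dat S J g P K Y X B η β N) {j : ι} (hj : j ∈ J) {μ μ' μ₀ : ℝ}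
    (hμ₀ : 1 / 2 ≤ μ₀) (hμ : μ₀ ≤ μ) (hμ1 : μ ≤ 3 / 2) (hμ' : μ ≤ μ')
    (hB : B * K ^ (8 / 9 : ℝ) ≤ (K ^ (4 / 3 - η)) ^ (2 * μ₀ - 1)) :
    ∑ k ∈ cl S J P X j μ μ', g k ^ 2 * ∏ i ∈ J, P i k ^ 2 ≤
      (2 * N + 4) * B * K ^ (2 * η) * tl J Y X ^ (2 * (μ' - μ)) * ms K (tl J Y X) μ := by
  classical
  have hKp : 0 < K := by linarith [D.K1]
  have hYp : 0 < Y := by linarith [D.Y1]
  have hBp : 0 < B := by linarith [D.B1]
  have hc1 := prodX_one D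
  set c := ∏ i ∈ J, X i with hc
  have hcp : 0 < c := by linarith
  have hKη : 1 ≤ K ^ (2 * η) := Real.one_le_rpow D.K1 (by linarith [D.η0])
  set KK := K ^ (8 / 3 * (1 - μ)) with hKK
  have hKKp : 0 < KK := Real.rpow_pos_of_pos hKp _
  have hY2 : Y ^ (2 * μ) ≤ Y ^ (2 * μ') := Real.rpow_le_rpow_of_exponent_le D.Y1 (by linarith)
  -- step 1: insert the sup of the granular part
  have h1 : ∑ k ∈ cl S J P X j μ μ', g k ^ 2 * ∏ i ∈ J, P i k ^ 2 ≤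
      (∑ k ∈ cl S J P X j μ μ', g k ^ 2) * c ^ (2 * μ') := by
    rw [sum_mul]
    exact sum_le_sum fun k hk => mul_le_mul_of_nonneg_left (prod_sup D hk) (sq_nonneg _)
  -- step 2: split according to the size of the lumps
  have h2 : ∑ k ∈ cl S J P X j μ μ', g k ^ 2 ≤
      (2 * N + 4) * B * K ^ (2 * η) * KK * Y ^ (2 * μ') := by
    rw [← sum_filter_add_sum_filter_not _ (fun k => Y ^ μ' < g k)]
    have h3 := sum_cl D hj (μ' := μ') hμ₀ hμ hμ1 hμ' hB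
    have h4 : ∑ k ∈ cl S J P X j μ μ' with ¬ Y ^ μ' < g k, g k ^ 2 ≤
        (B * K ^ (2 * η) * KK) * Y ^ (2 * μ') := by
      calc ∑ k ∈ cl S J P X j μ μ' with ¬ Y ^ μ' < g k, g k ^ 2
          ≤ ∑ _k ∈ cl S J P X j μ μ' with ¬ Y ^ μ' < g _k, Y ^ (2 * μ') := by
            refine sum_le_sum fun k hk => ?_
            rw [mem_filter, not_lt] at hk
            have h5 := pow_le_pow_left₀ (D.g0 k (cl_sub hk.1)) hk.2 2
            rwa [← Real.rpow_natCast (Y ^ μ') 2, ← Real.rpow_mul hYp.le, mul_comm μ'] at h5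
        _ ≤ ∑ _k ∈ cl S J P X j μ μ', Y ^ (2 * μ') :=
            sum_le_sum_of_subset_of_nonneg (filter_subset _ _) (fun _ _ _ => by positivity)
        _ = (#(cl S J P X j μ μ') : ℝ) * Y ^ (2 * μ') := by rw [sum_const, nsmul_eq_mul]
        _ ≤ _ := mul_le_mul_of_nonneg_right (card_cl D hj hμ₀ hμ hμ1 hB) (by positivity)
    have hYμ : 0 < Y ^ (2 * μ) := Real.rpow_pos_of_pos hYp _
    have hYμ' : 0 < Y ^ (2 * μ') := Real.rpow_pos_of_pos hYp _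
    have h6 : 2 * (N + 1) * (B * K ^ (2 * η) * KK) * Y ^ (2 * μ) ≤
        2 * (N + 1) * (B * K ^ (2 * η) * KK) * Y ^ (2 * μ') :=
      mul_le_mul_of_nonneg_left hY2 (by positivity)
    have h7 : B * KK * Y ^ (2 * μ) ≤ B * K ^ (2 * η) * KK * Y ^ (2 * μ') := by
      calc B * KK * Y ^ (2 * μ) ≤ B * KK * Y ^ (2 * μ') :=
            mul_le_mul_of_nonneg_left hY2 (by positivity)
        _ = 1 * (B * KK * Y ^ (2 * μ')) := by ring
        _ ≤ K ^ (2 * η) * (B * KK * Y ^ (2 * μ')) :=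
            mul_le_mul_of_nonneg_right hKη (by positivity)
        _ = _ := by ring
    nlinarith [h3, h4, h6, h7]
  -- assemble
  have hL : tl J Y X = Y * c := rfl
  have h8 : tl J Y X ^ (2 * (μ' - μ)) * ms K (tl J Y X) μ = KK * (Y ^ (2 * μ') * c ^ (2 * μ')) := by
    have hLp : 0 < Y * c := mul_pos hYp hcp
    unfold ms
    rw [hL, ← Real.mul_rpow hYp.le hcp.le]
    have : (Y * c) ^ (2 * μ') = (Y * c) ^ (2 * (μ' - μ)) * (Y * c) ^ (2 * μ) := by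
      rw [← Real.rpow_add hLp]; congr 1; ring
    rw [this]; ring
  calc ∑ k ∈ cl S J P X j μ μ', g k ^ 2 * ∏ i ∈ J, P i k ^ 2
      ≤ ((2 * N + 4) * B * K ^ (2 * η) * KK * Y ^ (2 * μ')) * c ^ (2 * μ') :=
        h1.trans (mul_le_mul_of_nonneg_right h2 (by positivity))
    _ = (2 * N + 4) * B * K ^ (2 * η) * (KK * (Y ^ (2 * μ') * c ^ (2 * μ'))) := by ring
    _ = (2 * N + 4) * B * K ^ (2 * η) *
          (tl J Y X ^ (2 * (μ' - μ)) * ms K (tl J Y X) μ) := by rw [h8]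
    _ = _ := by ring

/-- the exceptional set -/
def ex (S : Finset κ) (J : Finset ι) (P : ι → κ → ℝ) (X : ι → ℝ) (μ₀ : ℝ) : Finset κ := by
  classical
  exact S.filter fun k => ∃ j ∈ J, X j ^ μ₀ < P j k

theorem mem_ex {μ₀ : ℝ} {k : κ} : k ∈ ex S J P X μ₀ ↔ k ∈ S ∧ ∃ j ∈ J, X j ^ μ₀ < P j k := by
  unfold ex; rw [mem_filter]

/-- the grid -/
def gr (μ₀ β : ℝ) (T : ℕ) (t : ℕ) : ℝ := μ₀ + t * ((β - μ₀) / T)

theorem sum_bU {α : Type*} [DecidableEq κ] (s : Finset α) (t : α → Finset κ) {f : κ → ℝ}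
    (hf : ∀ k, 0 ≤ f k) : ∑ k ∈ s.biUnion t, f k ≤ ∑ a ∈ s, ∑ k ∈ t a, f k := by
  classical
  induction s using Finset.induction_on with
  | empty => simp
  | insert a s ha ih =>
    rw [biUnion_insert, sum_insert ha]
    have h1 : ∑ k ∈ t a ∪ s.biUnion t, f k ≤ ∑ k ∈ t a, f k + ∑ k ∈ s.biUnion t, f k := by
      rw [← sum_union_inter]
      have := sum_nonneg (s := t a ∩ s.biUnion t) (f := f) fun k _ => hf k
      linarith
    linarith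

theorem ex_cover (D : Dat S J g P K Y X B η β N) {μ₀ : ℝ} {T : ℕ} (hT : 0 < T) {k : κ}
    (hk : k ∈ ex S J P X μ₀) :
    ∃ t ∈ range T, ∃ j ∈ J, k ∈ cl S J P X j (gr μ₀ β T t) (gr μ₀ β T (t + 1)) := by
  classical
  obtain ⟨hS, j₀, hj₀, hlt⟩ := mem_ex.mp hk
  -- the first `t` with all pieces below level `t`
  have hT' : (T : ℝ) ≠ 0 := by positivity
  have hend : gr μ₀ β T T = β := by unfold gr; field_simp; ring
  have hex : ∃ t : ℕ, ∀ i ∈ J, P i k ≤ X i ^ gr μ₀ β T t :=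
    ⟨T, fun i hi => by rw [hend]; exact D.sup i hi k hS⟩
  let t := Nat.find hex
  have ht : ∀ i ∈ J, P i k ≤ X i ^ gr μ₀ β T t := Nat.find_spec hex
  have ht0 : t ≠ 0 := by
    intro h0
    have := ht j₀ hj₀
    rw [h0] at this
    unfold gr at this
    simp at this
    linarith
  have htT : t ≤ T := Nat.find_min' hex (fun i hi => by rw [hend]; exact D.sup i hi k hS)
  obtain ⟨s, hs⟩ := Nat.exists_eq_succ_of_ne_zero ht0
  have hs' : t = s + 1 := hs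
  have hmin : ¬ ∀ i ∈ J, P i k ≤ X i ^ gr μ₀ β T s := Nat.find_min hex (by omega)
  push Not at hmin
  obtain ⟨j, hj, hjlt⟩ := hmin
  refine ⟨s, mem_range.mpr (by omega), j, hj, ?_⟩
  rw [mem_cl]
  exact ⟨hS, hjlt, fun i hi => by rw [← hs']; exact ht i hi⟩

/-- **(LB), the exceptional part.** -/
theorem lb_ex (D : Dat S J g P K Y X B η β N) {μ₀ : ℝ} {T : ℕ} (hT : 0 < T)
    (hμ₀ : 5 / 6 ≤ μ₀) (hμβ : μ₀ ≤ β)
    (hB : B * K ^ (8 / 9 : ℝ) ≤ (K ^ (4 / 3 - η)) ^ (2 * μ₀ - 1)) :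
    ∑ k ∈ ex S J P X μ₀, g k ^ 2 * ∏ i ∈ J, P i k ^ 2 ≤
      T * #J * ((2 * N + 4) * B * K ^ (2 * η) * tl J Y X ^ (2 * ((β - μ₀) / T)) *
        (ms K (tl J Y X) (5 / 6) + ms K (tl J Y X) β)) := by
  classical
  have hKp : 0 < K := by linarith [D.K1]
  have hLp : 0 < tl J Y X := by linarith [tl_one D]
  have hBp : 0 < B := by linarith [D.B1]
  have hTp : (0 : ℝ) < T := by exact_mod_cast hT
  have hst : 0 ≤ (β - μ₀) / T := div_nonneg (by linarith) hTp.le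
  have hf : ∀ k ∈ S, 0 ≤ g k ^ 2 * ∏ i ∈ J, P i k ^ 2 := fun k _ =>
    mul_nonneg (sq_nonneg _) (prod_nonneg fun _ _ => sq_nonneg _)
  have h1 : ∑ k ∈ ex S J P X μ₀, g k ^ 2 * ∏ i ∈ J, P i k ^ 2 ≤
      ∑ t ∈ range T, ∑ j ∈ J, ∑ k ∈ cl S J P X j (gr μ₀ β T t) (gr μ₀ β T (t + 1)),
        g k ^ 2 * ∏ i ∈ J, P i k ^ 2 := by
    have hsub : ex S J P X μ₀ ⊆ (range T).biUnion fun t => J.biUnion fun j =>
        cl S J P X j (gr μ₀ β T t) (gr μ₀ β T (t + 1)) := by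
      intro k hk
      obtain ⟨t, ht, j, hj, hk'⟩ := ex_cover D hT hk
      rw [mem_biUnion]
      exact ⟨t, ht, by rw [mem_biUnion]; exact ⟨j, hj, hk'⟩⟩
    have hpos : ∀ k, 0 ≤ g k ^ 2 * ∏ i ∈ J, P i k ^ 2 := fun k =>
      mul_nonneg (sq_nonneg _) (prod_nonneg fun _ _ => sq_nonneg _)
    refine (sum_le_sum_of_subset_of_nonneg hsub fun k _ _ => hpos k).trans ?_
    refine (sum_bU _ _ hpos).trans ?_
    exact sum_le_sum fun t _ => sum_bU _ _ hpos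
  refine h1.trans ?_
  have h2 : ∀ t ∈ range T, ∀ j ∈ J,
      ∑ k ∈ cl S J P X j (gr μ₀ β T t) (gr μ₀ β T (t + 1)), g k ^ 2 * ∏ i ∈ J, P i k ^ 2 ≤
      (2 * N + 4) * B * K ^ (2 * η) * tl J Y X ^ (2 * ((β - μ₀) / T)) *
        (ms K (tl J Y X) (5 / 6) + ms K (tl J Y X) β) := by
    intro t ht j hj
    have ht' : (t : ℝ) ≤ T := by exact_mod_cast (mem_range.mp ht).le
    have hg0 : μ₀ ≤ gr μ₀ β T t := by
      unfold gr
      have := mul_nonneg (Nat.cast_nonneg (α := ℝ) t) hst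
      linarith
    have hg1 : gr μ₀ β T t ≤ β := by
      unfold gr
      have h3 : (t : ℝ) * ((β - μ₀) / T) ≤ T * ((β - μ₀) / T) :=
        mul_le_mul_of_nonneg_right ht' hst
      have h4 : (T : ℝ) * ((β - μ₀) / T) = β - μ₀ := by field_simp
      linarith
    have hg2 : gr μ₀ β T (t + 1) - gr μ₀ β T t = (β - μ₀) / T := by
      unfold gr; push_cast; ring
    have h3 := class_le D hj (μ' := gr μ₀ β T (t + 1)) (by linarith) hg0
      (by linarith [D.β1]) (by linarith) hB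
    rw [hg2] at h3
    refine h3.trans (mul_le_mul_of_nonneg_left (ms_end hKp hLp (by linarith) hg1) ?_)
    positivity
  calc ∑ t ∈ range T, ∑ j ∈ J, ∑ k ∈ cl S J P X j (gr μ₀ β T t) (gr μ₀ β T (t + 1)),
        g k ^ 2 * ∏ i ∈ J, P i k ^ 2
      ≤ ∑ _t ∈ range T, ∑ _j ∈ J, ((2 * N + 4) * B * K ^ (2 * η) *
          tl J Y X ^ (2 * ((β - μ₀) / T)) * (ms K (tl J Y X) (5 / 6) + ms K (tl J Y X) β)) :=
        sum_le_sum fun t ht => sum_le_sum fun j hj => h2 t ht j hj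
    _ = _ := by
        rw [sum_const, sum_const, card_range, nsmul_eq_mul, nsmul_eq_mul]; ring

open Classical in
/-- **(LB), the regular part**: off the exceptional set any set `J \ J₀` of granular pieces is
removed at the price `2 μ₀`. -/
theorem lb_reg (hX : ∀ j ∈ J, (1 : ℝ) ≤ X j) (hP : ∀ j ∈ J, ∀ k ∈ S, 0 ≤ P j k)
    {J₀ : Finset ι} (hJ : J₀ ⊆ J) {μ₀ : ℝ} :
    ∑ k ∈ S with k ∉ ex S J P X μ₀, g k ^ 2 * ∏ i ∈ J, P i k ^ 2 ≤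
      (∏ i ∈ J \ J₀, X i) ^ (2 * μ₀) * ∑ k ∈ S, g k ^ 2 * ∏ i ∈ J₀, P i k ^ 2 := by
  classical
  rw [mul_sum]
  have hpos : ∀ k, 0 ≤ g k ^ 2 * ∏ i ∈ J₀, P i k ^ 2 := fun k =>
    mul_nonneg (sq_nonneg _) (prod_nonneg fun _ _ => sq_nonneg _)
  have hX0 : ∀ i ∈ J \ J₀, (0 : ℝ) ≤ X i := fun i hi => by
    linarith [hX i (mem_sdiff.mp hi).1]
  refine le_trans (sum_le_sum fun k hk => ?_) (sum_le_sum_of_subset_of_nonneg
    (filter_subset _ S) fun k _ _ => mul_nonneg (Real.rpow_nonneg (prod_nonneg hX0) _) (hpos k))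
  rw [mem_filter] at hk
  obtain ⟨hS, hne⟩ := hk
  have hle : ∀ j ∈ J, P j k ≤ X j ^ μ₀ := by
    intro j hj
    by_contra hcon
    exact hne (mem_ex.mpr ⟨hS, j, hj, not_le.mp hcon⟩)
  rw [← prod_sdiff hJ]
  have h1 : ∏ i ∈ J \ J₀, P i k ^ 2 ≤ (∏ i ∈ J \ J₀, X i) ^ (2 * μ₀) := by
    rw [← Real.finsetProd_rpow _ _ hX0]
    refine prod_le_prod (fun i _ => by positivity) fun i hi => ?_
    have hi' := (mem_sdiff.mp hi).1
    have h3 := pow_le_pow_left₀ (hP i hi' k hS) (hle i hi') 2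
    rwa [← Real.rpow_natCast (X i ^ μ₀) 2, ← Real.rpow_mul (hX0 i hi), mul_comm μ₀] at h3
  calc g k ^ 2 * ((∏ i ∈ J \ J₀, P i k ^ 2) * ∏ i ∈ J₀, P i k ^ 2)
      = (∏ i ∈ J \ J₀, P i k ^ 2) * (g k ^ 2 * ∏ i ∈ J₀, P i k ^ 2) := by ring
    _ ≤ _ := mul_le_mul_of_nonneg_right h1 (hpos k)

open Classical in
/-- **(LB)**, abstract core. -/
theorem lb (D : Dat S J g P K Y X B η β N) {J₀ : Finset ι} (hJ : J₀ ⊆ J)
    {μ₀ : ℝ} {T : ℕ} (hT : 0 < T) (hμ₀ : 5 / 6 ≤ μ₀) (hμβ : μ₀ ≤ β)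
    (hB : B * K ^ (8 / 9 : ℝ) ≤ (K ^ (4 / 3 - η)) ^ (2 * μ₀ - 1)) :
    ∑ k ∈ S, g k ^ 2 * ∏ i ∈ J, P i k ^ 2 ≤
      (∏ i ∈ J \ J₀, X i) ^ (2 * μ₀) * ∑ k ∈ S, g k ^ 2 * ∏ i ∈ J₀, P i k ^ 2 +
      T * #J * ((2 * N + 4) * B * K ^ (2 * η) * tl J Y X ^ (2 * ((β - μ₀) / T)) *
        (ms K (tl J Y X) (5 / 6) + ms K (tl J Y X) β)) := by
  classical
  rw [← sum_filter_add_sum_filter_not S (fun k => k ∈ ex S J P X μ₀), add_comm]
  refine add_le_add (lb_reg D.X1 D.P0 hJ) ?_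
  have h1 := lb_ex D hT hμ₀ hμβ hB
  have h2 : S.filter (fun k => k ∈ ex S J P X μ₀) = ex S J P X μ₀ := by
    ext k
    rw [mem_filter, mem_ex]
    tauto
  rw [h2]
  exact h1

end core

end Crest.Agent.R017.LB702
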