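import Mathlib

/-!
# Row 17, sections C/D: the B-line from large values (helper744, after helper404 #12920)

Abstract finite-sum form.  `S` = finite set of frequencies, `y k` = modulus of the product of the
lumps (total length `Y`), `p j k` = modulus of the `j`-th granular piece (length `X j ≤ E`).

* `weak_sum` : a weak-type bound gives the sum with a logarithm.
* `LB_abs` : `∑ y² ∏ p_j² ≪ A K^{4/9} N^{5/3} + K^{8(1-β)/3} N^{2β}`.
-/

set_option autoImplicit false

noncomputable section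

open Finset

namespace Crest.Agent.R017.LB744

/-- weak type to sum -/
theorem weak_sum {ι : Type*} (T : Finset ι) (q : ι → ℝ) (B : ℝ) (hB : 0 ≤ B)
    (h : ∀ T' ⊆ T, ∀ V : ℝ, (∀ k ∈ T', V ≤ q k) → (∃ k ∈ T', V = q k) → (#T' : ℝ) * V ≤ B) :
    ∑ k ∈ T, q k ≤ B * (1 + Real.log (#T)) := by
  classical
  have key : ∀ n : ℕ, ∀ T' ⊆ T, #T' = n → ∑ k ∈ T', q k ≤ B * (harmonic n : ℝ) := by
    intro n
    induction n with
    | zero =>
      intro T' _ hc
      rw [Finset.card_eq_zero] at hc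
      simp [hc]
    | succ n ih =>
      intro T' hT' hc
      have hne : T'.Nonempty := by
        rw [← Finset.card_pos]; omega
      obtain ⟨k0, hk0, hmin⟩ := Finset.exists_min_image T' q hne
      have h1 : ((n : ℝ) + 1) * q k0 ≤ B := by
        have := h T' hT' (q k0) (fun k hk => hmin k hk) ⟨k0, hk0, rfl⟩
        rw [hc] at this
        push_cast at this
        exact this
      have h2 : q k0 ≤ B * ((n : ℝ) + 1)⁻¹ := by
        rw [← div_eq_mul_inv, le_div_iff₀ (by positivity)]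
        linarith
      have h3 := ih (T'.erase k0) ((Finset.erase_subset _ _).trans hT')
        (by rw [Finset.card_erase_of_mem hk0, hc]; rfl)
      rw [← Finset.add_sum_erase T' q hk0, harmonic_succ]
      push_cast
      rw [mul_add]
      have h4 : B * ((n : ℝ) + 1)⁻¹ = B * ((((n : ℝ) + 1))⁻¹) := rfl
      linarith
  refine (key (#T) T (Finset.Subset.refl _) rfl).trans ?_
  exact mul_le_mul_of_nonneg_left (harmonic_le_one_add_log _) hB

/-- level of a piece -/
def lev (X v : ℝ) : ℝ := Real.log v / Real.log X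

lemma le_rpow_lev {X v : ℝ} (hX : 1 < X) (hv : 0 ≤ v) : v ≤ X ^ lev X v := by
  have hl : 0 < Real.log X := Real.log_pos hX
  rcases hv.eq_or_lt with h | h
  · rw [← h]; positivity
  · rw [Real.rpow_def_of_pos (by linarith)]
    unfold lev
    rw [mul_div_cancel₀ _ hl.ne', Real.exp_log h]

lemma rpow_lev {X v : ℝ} (hX : 1 < X) (hv : 0 < v) : X ^ lev X v = v := by
  have hl : 0 < Real.log X := Real.log_pos hX
  rw [Real.rpow_def_of_pos (by linarith)]
  unfold lev
  rw [mul_div_cancel₀ _ hl.ne', Real.exp_log hv]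

lemma pos_of_lev {X v c : ℝ} (hv : 0 ≤ v) (hc : 0 ≤ c) (h : c < lev X v) : 0 < v := by
  rcases hv.eq_or_lt with h0 | h0
  · exfalso
    rw [← h0] at h
    unfold lev at h
    rw [Real.log_zero, zero_div] at h
    linarith
  · exact h0

lemma lev_le {X v c : ℝ} (hX : 1 < X) (hc : 0 ≤ c) (hv : 0 ≤ v) (h : v ≤ X ^ c) :
    lev X v ≤ c := by
  have hl : 0 < Real.log X := Real.log_pos hX
  rcases hv.eq_or_lt with h0 | h0
  · rw [← h0]; unfold lev; rw [Real.log_zero, zero_div]; exact hc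
  · unfold lev
    rw [div_le_iff₀ hl]
    have := Real.log_le_log h0 h
    rwa [Real.log_rpow (by linarith)] at this

lemma rpow_mid {t a b c : ℝ} (ht : 0 < t) (h1 : a ≤ c) (h2 : c ≤ b) : t ^ c ≤ t ^ a + t ^ b := by
  rcases le_total t 1 with h | h
  · have := Real.rpow_le_rpow_of_exponent_ge ht h h1
    have := Real.rpow_nonneg ht.le b
    linarith
  · have := Real.rpow_le_rpow_of_exponent_le h h2
    have := Real.rpow_nonneg ht.le a
    linarith

/-- the power `M` of a tiny piece that fills the length `Z` -/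
lemma exists_pow {X Z : ℝ} (hX : 1 < X) (hZ : 1 ≤ Z) : ∃ M : ℕ, X ^ M ≤ Z ∧ Z < X ^ M * X := by
  obtain ⟨M, h1, h2⟩ := exists_nat_pow_near hZ hX
  exact ⟨M, h1, by rwa [pow_succ] at h2⟩

/-- final comparison of exponents, with `L = K^{4/3}` up to the factor `E` -/
lemma fin_cmp {K E N L β ε : ℝ} (hK : 1 ≤ K) (hE : 1 ≤ E) (hN : 1 ≤ N) (hε : 0 < ε)
    (hε2 : ε ≤ 1 / 2) (hβ : 5 / 6 ≤ β) (hβ1 : β ≤ 1) (hL0 : 0 < L)
    (hL : K ^ (4 / 3 : ℝ) ≤ L * E) :
    ((N / L) ^ (5 / 3 : ℝ) + (N / L) ^ (2 * β + 2 * ε)) * (E * K ^ (4 / 3 : ℝ) * L) ≤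
      E ^ (3 : ℕ) * (N ^ (2 * ε) * (K ^ (4 / 9 : ℝ) * N ^ (5 / 3 : ℝ) +
        K ^ (8 / 3 * (1 - β)) * N ^ (2 * β))) * E := by
  have hK0 : 0 < K := by linarith
  have hE0 : 0 < E := by linarith
  have hN0 : 0 < N := by linarith
  have lk : 0 ≤ Real.log K := Real.log_nonneg hK
  have le : 0 ≤ Real.log E := Real.log_nonneg hE
  have ln : 0 ≤ Real.log N := Real.log_nonneg hN
  have hLl : 4 / 3 * Real.log K ≤ Real.log L + Real.log E := by
    have := Real.log_le_log (by positivity) hL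
    rwa [Real.log_rpow hK0, Real.log_mul hL0.ne' hE0.ne'] at this
  have h1 : (N / L) ^ (5 / 3 : ℝ) * (E * K ^ (4 / 3 : ℝ) * L) ≤
      E ^ (3 : ℕ) * (N ^ (2 * ε) * (K ^ (4 / 9 : ℝ) * N ^ (5 / 3 : ℝ))) * E := by
    rw [← Real.log_le_log_iff (by positivity) (by positivity)]
    rw [Real.log_mul (by positivity) (by positivity), Real.log_mul (by positivity) (by positivity),
      Real.log_mul (by positivity) (by positivity), Real.log_mul (by positivity) (by positivity),
      Real.log_mul (by positivity) (by positivity), Real.log_mul (by positivity) (by positivity),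
      Real.log_mul (by positivity) (by positivity), Real.log_rpow (by positivity),
      Real.log_rpow (by positivity), Real.log_rpow (by positivity), Real.log_rpow (by positivity),
      Real.log_rpow (by positivity), Real.log_pow, Real.log_div (by positivity) (by positivity)]
    push_cast
    nlinarith [mul_nonneg hε.le ln]
  have h2 : (N / L) ^ (2 * β + 2 * ε) * (E * K ^ (4 / 3 : ℝ) * L) ≤
      E ^ (3 : ℕ) * (N ^ (2 * ε) * (K ^ (8 / 3 * (1 - β)) * N ^ (2 * β))) * E := by
    rw [← Real.log_le_log_iff (by positivity) (by positivity)]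
    rw [Real.log_mul (by positivity) (by positivity), Real.log_mul (by positivity) (by positivity),
      Real.log_mul (by positivity) (by positivity), Real.log_mul (by positivity) (by positivity),
      Real.log_mul (by positivity) (by positivity), Real.log_mul (by positivity) (by positivity),
      Real.log_mul (by positivity) (by positivity), Real.log_rpow (by positivity),
      Real.log_rpow (by positivity), Real.log_rpow (by positivity), Real.log_rpow (by positivity),
      Real.log_rpow (by positivity), Real.log_pow, Real.log_div (by positivity) (by positivity)]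
    push_cast
    have e1 : (2 * β + 2 * ε - 1) * (4 / 3 * Real.log K) ≤
        (2 * β + 2 * ε - 1) * (Real.log L + Real.log E) :=
      mul_le_mul_of_nonneg_left hLl (by linarith)
    nlinarith [mul_nonneg hε.le ln, mul_nonneg hε.le lk, mul_nonneg hε.le le,
      mul_nonneg (sub_nonneg.2 hβ1) le, mul_nonneg (sub_nonneg.2 hε2) le]
  calc _ = (N / L) ^ (5 / 3 : ℝ) * (E * K ^ (4 / 3 : ℝ) * L) +
        (N / L) ^ (2 * β + 2 * ε) * (E * K ^ (4 / 3 : ℝ) * L) := by ring
    _ ≤ _ := add_le_add h1 h2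
    _ = _ := by ring

/-- threshold -/
lemma thr_le {K E L ε c : ℝ} (hK : 1 ≤ K) (hE : 1 ≤ E) (hε2 : ε ≤ 1 / 2)
    (hEK : E ≤ K ^ ε) (hL0 : 1 ≤ L) (hL : K ^ (4 / 3 : ℝ) ≤ L * E) (hε : 0 < ε)
    (hc : 5 / 6 + ε ≤ c) :
    E * K ^ (8 / 9 : ℝ) * L ≤ L ^ (2 * c) := by
  have hK0 : 0 < K := by linarith
  have hE0 : 0 < E := by linarith
  have hL1 : 0 < L := by linarith
  have lk : 0 ≤ Real.log K := Real.log_nonneg hK
  have le : 0 ≤ Real.log E := Real.log_nonneg hE
  have ll : 0 ≤ Real.log L := Real.log_nonneg hL0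
  have hLl : 4 / 3 * Real.log K ≤ Real.log L + Real.log E := by
    have := Real.log_le_log (by positivity) hL
    rwa [Real.log_rpow hK0, Real.log_mul hL1.ne' hE0.ne'] at this
  have hEl : Real.log E ≤ ε * Real.log K := by
    have := Real.log_le_log hE0 hEK
    rwa [Real.log_rpow hK0] at this
  rw [← Real.log_le_log_iff (by positivity) (by positivity)]
  rw [Real.log_mul (by positivity) (by positivity), Real.log_mul (by positivity) (by positivity),
    Real.log_rpow (by positivity), Real.log_rpow (by positivity)]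
  have e1 : (2 / 3 + 2 * ε) * (4 / 3 * Real.log K) ≤
      (2 / 3 + 2 * ε) * (Real.log L + Real.log E) :=
    mul_le_mul_of_nonneg_left hLl (by linarith)
  have e2 : (5 / 3 + 2 * ε) * Real.log L ≤ 2 * c * Real.log L :=
    mul_le_mul_of_nonneg_right (by linarith) ll
  nlinarith [mul_nonneg hε.le le, mul_nonneg (sub_nonneg.2 hε2) le]

/-- the core estimate on a class where one polynomial of length `L` is large -/
lemma core {ι : Type*} (T S : Finset ι) (hTS : T ⊆ S) (F q μ : ι → ℝ) {K E N L β ε : ℝ}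
    (hK : 1 ≤ K) (hE : 1 ≤ E) (hN : 1 ≤ N) (hε : 0 < ε)
    (hε2 : ε ≤ 1 / 2) (hβ : 5 / 6 ≤ β) (hβ1 : β ≤ 1) (hEK : E ≤ K ^ ε) (hL0 : 1 ≤ L)
    (hL : K ^ (4 / 3 : ℝ) ≤ L * E)
    (hμ1 : ∀ k ∈ T, 5 / 6 + ε ≤ μ k) (hμ2 : ∀ k ∈ T, μ k ≤ β + ε)
    (hF : ∀ k ∈ T, F k ≤ q k * (N / L) ^ (2 * μ k))
    (hq : ∀ k ∈ T, L ^ (2 * μ k) ≤ q k)
    (lv : ∀ T' ⊆ T, ∀ V : ℝ, E * K ^ (8 / 9 : ℝ) * L ≤ V → (∀ k ∈ T', V ≤ q k) →
      (#T' : ℝ) * V ≤ E * K ^ (4 / 3 : ℝ) * L) :
    ∑ k ∈ T, F k ≤ E ^ (4 : ℕ) * N ^ (2 * ε) * (1 + Real.log (#S)) *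
      (K ^ (4 / 9 : ℝ) * N ^ (5 / 3 : ℝ) + K ^ (8 / 3 * (1 - β)) * N ^ (2 * β)) := by
  have hK0 : 0 < K := by linarith
  have hE0 : 0 < E := by linarith
  have hN0 : 0 < N := by linarith
  have hL1 : 0 < L := by linarith
  have ht : 0 < N / L := div_pos hN0 hL1
  have hq0 : ∀ k ∈ T, 0 ≤ q k := fun k hk => (Real.rpow_nonneg hL1.le _).trans (hq k hk)
  have hw : ∑ k ∈ T, q k ≤ E * K ^ (4 / 3 : ℝ) * L * (1 + Real.log (#T)) := by
    refine weak_sum T q _ (by positivity) ?_
    intro T' hT' V hV hex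
    obtain ⟨k0, hk0, hVk⟩ := hex
    refine lv T' hT' V ?_ hV
    rw [hVk]
    exact (thr_le hK hE hε2 hEK hL0 hL hε (hμ1 k0 (hT' hk0))).trans (hq k0 (hT' hk0))
  have hlog : Real.log (#T) ≤ Real.log (#S) := by
    rcases Finset.eq_empty_or_nonempty T with h | h
    · rw [h]
      simp only [Finset.card_empty, Nat.cast_zero, Real.log_zero]
      exact Real.log_natCast_nonneg _
    · exact Real.log_le_log (by exact_mod_cast Finset.card_pos.2 h)
        (by exact_mod_cast Finset.card_le_card hTS)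
  have hlogS : 0 ≤ Real.log (#S) := Real.log_natCast_nonneg _
  have hlogT : 0 ≤ Real.log (#T) := Real.log_natCast_nonneg _
  have h1 : ∑ k ∈ T, F k ≤
      ((N / L) ^ (5 / 3 : ℝ) + (N / L) ^ (2 * β + 2 * ε)) * ∑ k ∈ T, q k := by
    rw [Finset.mul_sum]
    refine Finset.sum_le_sum fun k hk => (hF k hk).trans ?_
    rw [mul_comm]
    refine mul_le_mul_of_nonneg_right ?_ (hq0 k hk)
    have := hμ1 k hk
    have := hμ2 k hk
    exact rpow_mid ht (by linarith) (by linarith)
  calc ∑ k ∈ T, F k ≤ ((N / L) ^ (5 / 3 : ℝ) + (N / L) ^ (2 * β + 2 * ε)) * ∑ k ∈ T, q k := h1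
    _ ≤ ((N / L) ^ (5 / 3 : ℝ) + (N / L) ^ (2 * β + 2 * ε)) *
        (E * K ^ (4 / 3 : ℝ) * L * (1 + Real.log (#S))) := by
      refine mul_le_mul_of_nonneg_left (hw.trans ?_) (by positivity)
      exact mul_le_mul_of_nonneg_left (by linarith) (by positivity)
    _ = ((N / L) ^ (5 / 3 : ℝ) + (N / L) ^ (2 * β + 2 * ε)) *
        (E * K ^ (4 / 3 : ℝ) * L) * (1 + Real.log (#S)) := by ring
    _ ≤ (E ^ (3 : ℕ) * (N ^ (2 * ε) * (K ^ (4 / 9 : ℝ) * N ^ (5 / 3 : ℝ) +
        K ^ (8 / 3 * (1 - β)) * N ^ (2 * β))) * E) * (1 + Real.log (#S)) :=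
      mul_le_mul_of_nonneg_right
        (fin_cmp hK hE hN hε hε2 hβ hβ1 hL1 hL) (by linarith)
    _ = _ := by ring

/-- the class where the piece `j` has the largest level -/
def Cls {ι : Type*} {m : ℕ} (S : Finset ι) (p : Fin m → ι → ℝ) (X : Fin m → ℝ) (c : ℝ)
    (j : Fin m) : Finset ι := by
  classical
  exact S.filter fun k => c < lev (X j) (p j k) ∧ ∀ i, lev (X i) (p i k) ≤ lev (X j) (p j k)

lemma prod_le_lev {ι : Type*} {m : ℕ} {p : Fin m → ι → ℝ} {X : Fin m → ℝ} {k : ι} {μ : ℝ}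
    (hX : ∀ i, 1 < X i) (hp : ∀ i, 0 ≤ p i k) (h : ∀ i, lev (X i) (p i k) ≤ μ) :
    ∏ i, p i k ^ 2 ≤ (∏ i, X i) ^ (2 * μ) := by
  calc ∏ i, p i k ^ 2 ≤ ∏ i, (X i) ^ (2 * μ) := by
        refine Finset.prod_le_prod (fun i _ => by positivity) fun i _ => ?_
        have h1 : p i k ≤ X i ^ μ :=
          (le_rpow_lev (hX i) (hp i)).trans
            (Real.rpow_le_rpow_of_exponent_le (hX i).le (h i))
        calc p i k ^ 2 ≤ (X i ^ μ) ^ 2 := pow_le_pow_left₀ (hp i) h1 2
          _ = X i ^ (2 * μ) := by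
            rw [← Real.rpow_natCast, ← Real.rpow_mul (by have := hX i; linarith)]
            congr 1; push_cast; ring
    _ = _ := Real.finsetProd_rpow _ _ (fun i _ => by have := hX i; linarith) _

set_option maxHeartbeats 4000000 in
/-- **the B-line** (abstract form) -/
theorem LB_abs {ι : Type*} (S : Finset ι) {m : ℕ} (y : ι → ℝ) (p : Fin m → ι → ℝ)
    (X : Fin m → ℝ) (K E Y β ε A : ℝ) (hK : 1 ≤ K) (hE : 1 ≤ E) (hε : 0 < ε) (hε2 : ε ≤ 1 / 2)
    (hEK : E ≤ K ^ ε) (hβ : 5 / 6 ≤ β) (hβ1 : β ≤ 1) (hY : 1 ≤ Y) (hX1 : ∀ j, 1 < X j)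
    (hXE : ∀ j, X j ≤ E) (hA : 0 ≤ A) (hy : ∀ k ∈ S, 0 ≤ y k) (hp : ∀ j, ∀ k ∈ S, 0 ≤ p j k)
    (sup : ∀ j, ∀ k ∈ S, p j k ≤ X j ^ (β + ε))
    (J : Finset (Fin m)) (hJ : K ^ (5 / 6 : ℝ) ≤ Y * ∏ j ∈ J, X j)
    (ideal : ∑ k ∈ S, y k ^ 2 * ∏ j ∈ J, p j k ^ 2 ≤ A * (K * (Y * ∏ j ∈ J, X j)))
    (tf : K ^ (4 / 3 : ℝ) < Y → ∑ k ∈ S, y k ^ 2 ≤ A * (K * Y))
    (lv : ∀ a : ℕ, a ≤ 1 → ∀ (j : Fin m) (M : ℕ), Y ^ a * X j ^ M ≤ K ^ (4 / 3 : ℝ) →
      ∀ T ⊆ S, ∀ V : ℝ, E * K ^ (8 / 9 : ℝ) * (Y ^ a * X j ^ M) ≤ V →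
        (∀ k ∈ T, V ≤ (y k ^ a * p j k ^ M) ^ 2) →
        (#T : ℝ) * V ≤ E * K ^ (4 / 3 : ℝ) * (Y ^ a * X j ^ M)) :
    ∑ k ∈ S, y k ^ 2 * ∏ j, p j k ^ 2 ≤
      (2 * m + 1) * (A + 1) * (E ^ 4 * (Y * ∏ j, X j) ^ (2 * ε) * (1 + Real.log (#S)) *
        (K ^ (4 / 9 : ℝ) * (Y * ∏ j, X j) ^ (5 / 3 : ℝ) +
          K ^ (8 / 3 * (1 - β)) * (Y * ∏ j, X j) ^ (2 * β))) := by
  classical
  set Ng : ℝ := ∏ j, X j with hNg
  set N : ℝ := Y * Ng with hN
  set R : ℝ := E ^ 4 * N ^ (2 * ε) * (1 + Real.log (#S)) *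
        (K ^ (4 / 9 : ℝ) * N ^ (5 / 3 : ℝ) + K ^ (8 / 3 * (1 - β)) * N ^ (2 * β)) with hR
  have hK0 : 0 < K := by linarith
  have hE0 : 0 < E := by linarith
  have hY0 : 0 < Y := by linarith
  have hX0 : ∀ j, 0 < X j := fun j => by have := hX1 j; linarith
  have hNg1 : 1 ≤ Ng := by
    rw [hNg]
    calc (1 : ℝ) = ∏ _j : Fin m, (1 : ℝ) := by simp
      _ ≤ ∏ j, X j := Finset.prod_le_prod (fun _ _ => by norm_num) (fun j _ => (hX1 j).le)
  have hN1 : 1 ≤ N := by
    rw [hN]; nlinarith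
  have hN0 : 0 < N := by linarith
  have hNg0 : 0 < Ng := by linarith
  have hlog : 0 ≤ Real.log (#S) := Real.log_natCast_nonneg _
  have hE4 : 1 ≤ E ^ 4 := one_le_pow₀ hE
  have hN2 : 1 ≤ N ^ (2 * ε) := Real.one_le_rpow hN1 (by linarith)
  have hR0 : 0 ≤ R := by rw [hR]; positivity
  have hRge : N ^ (2 * ε) * (K ^ (4 / 9 : ℝ) * N ^ (5 / 3 : ℝ) +
      K ^ (8 / 3 * (1 - β)) * N ^ (2 * β)) ≤ R := by
    rw [hR]
    have h1 : 0 ≤ N ^ (2 * ε) * (K ^ (4 / 9 : ℝ) * N ^ (5 / 3 : ℝ) +
      K ^ (8 / 3 * (1 - β)) * N ^ (2 * β)) := by positivity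
    calc N ^ (2 * ε) * (K ^ (4 / 9 : ℝ) * N ^ (5 / 3 : ℝ) + K ^ (8 / 3 * (1 - β)) * N ^ (2 * β))
        = 1 * 1 * (N ^ (2 * ε) * (K ^ (4 / 9 : ℝ) * N ^ (5 / 3 : ℝ) +
          K ^ (8 / 3 * (1 - β)) * N ^ (2 * β))) := by ring
      _ ≤ E ^ 4 * (1 + Real.log (#S)) * (N ^ (2 * ε) * (K ^ (4 / 9 : ℝ) * N ^ (5 / 3 : ℝ) +
          K ^ (8 / 3 * (1 - β)) * N ^ (2 * β))) := by
        refine mul_le_mul_of_nonneg_right ?_ h1
        exact mul_le_mul hE4 (by linarith) (by norm_num) (by positivity)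
      _ = _ := by ring
  -- term
  set F : ι → ℝ := fun k => y k ^ 2 * ∏ j, p j k ^ 2 with hF
  have hF0 : ∀ k, 0 ≤ F k := fun k => by rw [hF]; positivity
  set c0 : ℝ := 5 / 6 + ε with hc0
  -- the low part
  set S0 : Finset ι := S.filter fun k => ∀ j, lev (X j) (p j k) ≤ c0 with hS0
  have hlow : ∑ k ∈ S0, F k ≤ A * R := by
    set NJ : ℝ := ∏ j ∈ J, X j with hNJ
    set NC : ℝ := ∏ j ∈ Jᶜ, X j with hNC
    have hprod : NJ * NC = Ng := by rw [hNJ, hNC, hNg]; exact Finset.prod_mul_prod_compl J X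
    have hNJ0 : 0 < NJ := Finset.prod_pos fun j _ => hX0 j
    have hNC0 : 0 < NC := Finset.prod_pos fun j _ => hX0 j
    have hNC1 : 1 ≤ NC := by
      rw [hNC]
      calc (1 : ℝ) = ∏ _j ∈ Jᶜ, (1 : ℝ) := by simp
        _ ≤ ∏ j ∈ Jᶜ, X j := Finset.prod_le_prod (fun _ _ => by norm_num) (fun j _ => (hX1 j).le)
    have hN1' : N = Y * NJ * NC := by rw [hN, ← hprod]; ring
    have h1 : ∑ k ∈ S0, F k ≤ NC ^ (2 * c0) * ∑ k ∈ S, y k ^ 2 * ∏ j ∈ J, p j k ^ 2 := by
      calc ∑ k ∈ S0, F k ≤ ∑ k ∈ S0, NC ^ (2 * c0) * (y k ^ 2 * ∏ j ∈ J, p j k ^ 2) := by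
            refine Finset.sum_le_sum fun k hk => ?_
            have hk' := Finset.mem_filter.mp hk
            have e1 : ∏ j, p j k ^ 2 = (∏ j ∈ J, p j k ^ 2) * ∏ j ∈ Jᶜ, p j k ^ 2 :=
              (Finset.prod_mul_prod_compl J _).symm
            have e2 : ∏ j ∈ Jᶜ, p j k ^ 2 ≤ NC ^ (2 * c0) := by
              calc ∏ j ∈ Jᶜ, p j k ^ 2 ≤ ∏ j ∈ Jᶜ, (X j) ^ (2 * c0) := by
                    refine Finset.prod_le_prod (fun i _ => by positivity) fun i _ => ?_
                    have h1 : p i k ≤ X i ^ c0 :=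
                      (le_rpow_lev (hX1 i) (hp i k hk'.1)).trans
                        (Real.rpow_le_rpow_of_exponent_le (hX1 i).le (hk'.2 i))
                    calc p i k ^ 2 ≤ (X i ^ c0) ^ 2 := pow_le_pow_left₀ (hp i k hk'.1) h1 2
                      _ = X i ^ (2 * c0) := by
                        rw [← Real.rpow_natCast, ← Real.rpow_mul (hX0 i).le]
                        congr 1; push_cast; ring
                _ = _ := Real.finsetProd_rpow _ _ (fun i _ => (hX0 i).le) _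
            have e3 : 0 ≤ y k ^ 2 * ∏ j ∈ J, p j k ^ 2 :=
              mul_nonneg (sq_nonneg _) (Finset.prod_nonneg fun _ _ => sq_nonneg _)
            show y k ^ 2 * ∏ j, p j k ^ 2 ≤ _
            rw [e1]
            calc y k ^ 2 * ((∏ j ∈ J, p j k ^ 2) * ∏ j ∈ Jᶜ, p j k ^ 2)
                = (∏ j ∈ Jᶜ, p j k ^ 2) * (y k ^ 2 * ∏ j ∈ J, p j k ^ 2) := by ring
              _ ≤ _ := mul_le_mul_of_nonneg_right e2 e3
        _ = NC ^ (2 * c0) * ∑ k ∈ S0, (y k ^ 2 * ∏ j ∈ J, p j k ^ 2) := by rw [Finset.mul_sum]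
        _ ≤ _ := by
            refine mul_le_mul_of_nonneg_left ?_ (by positivity)
            refine Finset.sum_le_sum_of_subset_of_nonneg (Finset.filter_subset _ _) ?_
            intro k _ _
            exact mul_nonneg (sq_nonneg _) (Finset.prod_nonneg fun _ _ => sq_nonneg _)
    have h2 : NC ^ (2 * c0) * (K * (Y * NJ)) ≤ N ^ (2 * ε) * (K ^ (4 / 9 : ℝ) * N ^ (5 / 3 : ℝ)) := by
      have hYJ : 0 < Y * NJ := by positivity
      have hl : 5 / 6 * Real.log K ≤ Real.log (Y * NJ) := by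
        have := Real.log_le_log (by positivity) hJ
        rwa [Real.log_rpow hK0] at this
      have lc : 0 ≤ Real.log NC := Real.log_nonneg hNC1
      have lk : 0 ≤ Real.log K := Real.log_nonneg hK
      have ly : 0 ≤ Real.log (Y * NJ) := by nlinarith
      have lN : Real.log N = Real.log (Y * NJ) + Real.log NC := by
        rw [hN1', Real.log_mul (by positivity) (by positivity)]
      generalize Y * NJ = W at *
      rw [← Real.log_le_log_iff (by positivity) (by positivity)]
      rw [Real.log_mul (by positivity) (by positivity), Real.log_mul (by positivity) (by positivity),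
        Real.log_mul (by positivity) (by positivity), Real.log_mul (by positivity) (by positivity),
        Real.log_rpow (by positivity), Real.log_rpow (by positivity), Real.log_rpow (by positivity),
        Real.log_rpow (by positivity), lN, hc0]
      nlinarith [mul_nonneg hε.le ly, mul_nonneg hε.le lc]
    calc ∑ k ∈ S0, F k ≤ NC ^ (2 * c0) * (A * (K * (Y * NJ))) :=
          h1.trans (mul_le_mul_of_nonneg_left ideal (by positivity))
      _ = A * (NC ^ (2 * c0) * (K * (Y * NJ))) := by ring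
      _ ≤ A * (N ^ (2 * ε) * (K ^ (4 / 9 : ℝ) * N ^ (5 / 3 : ℝ))) :=
          mul_le_mul_of_nonneg_left h2 hA
      _ ≤ A * R := by
          refine mul_le_mul_of_nonneg_left (le_trans ?_ hRge) hA
          refine mul_le_mul_of_nonneg_left ?_ (by positivity)
          have : 0 ≤ K ^ (8 / 3 * (1 - β)) * N ^ (2 * β) := by positivity
          linarith
  -- the high classes
  have hhigh : ∀ j, ∑ k ∈ Cls S p X c0 j, F k ≤ 2 * (A + 1) * R := by
    intro j
    set T : Finset ι := Cls S p X c0 j with hT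
    set μ : ι → ℝ := fun k => lev (X j) (p j k) with hμ
    have hTS : T ⊆ S := by rw [hT]; unfold Cls; exact Finset.filter_subset _ _
    have hT1 : ∀ k ∈ T, c0 < μ k := fun k hk => by
      rw [hT] at hk; unfold Cls at hk; exact (Finset.mem_filter.mp hk).2.1
    have hT2 : ∀ k ∈ T, ∀ i, lev (X i) (p i k) ≤ μ k := fun k hk => by
      rw [hT] at hk; unfold Cls at hk; exact (Finset.mem_filter.mp hk).2.2
    have hμ2 : ∀ k ∈ T, μ k ≤ β + ε := fun k hk =>
      lev_le (hX1 j) (by linarith) (hp j k (hTS hk)) (sup j k (hTS hk))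
    have hpj : ∀ k ∈ T, 0 < p j k := fun k hk =>
      pos_of_lev (hp j k (hTS hk)) (by rw [hc0]; linarith) (hT1 k hk)
    have hpe : ∀ k ∈ T, ∀ M : ℕ, (p j k ^ M) ^ 2 = (X j ^ M) ^ (2 * μ k) := by
      intro k hk M
      have h1 : p j k = X j ^ μ k := (rpow_lev (hX1 j) (hpj k hk)).symm
      have hx := (hX0 j).le
      rw [← Real.rpow_natCast (X j) M, ← Real.rpow_mul hx]
      conv_lhs => rw [h1]
      rw [← Real.rpow_natCast (X j ^ μ k) M, ← Real.rpow_mul hx, ← Real.rpow_natCast _ 2,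
        ← Real.rpow_mul hx]
      congr 1; push_cast; ring
    have hP : ∀ k ∈ T, ∏ i, p i k ^ 2 ≤ Ng ^ (2 * μ k) := fun k hk =>
      prod_le_lev hX1 (fun i => hp i k (hTS hk)) (hT2 k hk)
    set T1 : Finset ι := T.filter fun k => y k ≤ Y ^ μ k with hT1'
    set T2 : Finset ι := T.filter fun k => ¬ y k ≤ Y ^ μ k with hT2'
    have hsplit : ∑ k ∈ T, F k = ∑ k ∈ T1, F k + ∑ k ∈ T2, F k :=
      (Finset.sum_filter_add_sum_filter_not _ _ _).symm
    have hKr : 1 ≤ K ^ (4 / 3 : ℝ) := Real.one_le_rpow hK (by norm_num)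
    -- lumps below the level
    have b1 : ∑ k ∈ T1, F k ≤ R := by
      obtain ⟨M, hM1, hM2⟩ := exists_pow (hX1 j) hKr
      have hL1 : 1 ≤ X j ^ M := one_le_pow₀ (hX1 j).le
      have hLE : K ^ (4 / 3 : ℝ) ≤ X j ^ M * E :=
        hM2.le.trans (mul_le_mul_of_nonneg_left (hXE j) (by positivity))
      refine core T1 S ((Finset.filter_subset _ _).trans hTS) F (fun k => (p j k ^ M) ^ 2) μ
        (L := X j ^ M) hK hE hN1 hε hε2 hβ hβ1 hEK hL1 hLE ?_ ?_ ?_ ?_ ?_
      · intro k hk; exact (hT1 k (Finset.mem_filter.mp hk).1).le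
      · intro k hk; exact hμ2 k (Finset.mem_filter.mp hk).1
      · intro k hk
        obtain ⟨hkT, hky⟩ := Finset.mem_filter.mp hk
        have hL0 : 0 < X j ^ M := by linarith
        show y k ^ 2 * ∏ i, p i k ^ 2 ≤ (p j k ^ M) ^ 2 * (N / X j ^ M) ^ (2 * μ k)
        rw [hpe k hkT M, ← Real.mul_rpow hL0.le (by positivity), mul_div_cancel₀ _ hL0.ne', hN,
          Real.mul_rpow hY0.le hNg0.le]
        refine mul_le_mul ?_ (hP k hkT) (Finset.prod_nonneg fun _ _ => sq_nonneg _) (by positivity)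
        calc y k ^ 2 ≤ (Y ^ μ k) ^ 2 := pow_le_pow_left₀ (hy k (hTS hkT)) hky 2
          _ = Y ^ (2 * μ k) := by
            rw [← Real.rpow_natCast, ← Real.rpow_mul hY0.le]; congr 1; push_cast; ring
      · intro k hk
        exact (hpe k (Finset.mem_filter.mp hk).1 M).ge
      · intro T' hT' V hV hq
        have := lv 0 (by norm_num) j M (by rw [pow_zero, one_mul]; exact hM1) T'
          (hT'.trans ((Finset.filter_subset _ _).trans hTS)) V (by rw [pow_zero, one_mul]; exact hV)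
          (fun k hk => by rw [pow_zero, one_mul]; exact hq k hk)
        rwa [pow_zero, one_mul] at this
    -- lumps above the level
    have b2 : ∑ k ∈ T2, F k ≤ (A + 1) * R := by
      rcases le_or_gt Y (K ^ (4 / 3 : ℝ)) with hYK | hYK
      · obtain ⟨M, hM1, hM2⟩ := exists_pow (hX1 j) (Z := K ^ (4 / 3 : ℝ) / Y)
          ((one_le_div hY0).2 hYK)
        have hXM : 1 ≤ X j ^ M := one_le_pow₀ (hX1 j).le
        have hL1 : 1 ≤ Y * X j ^ M := by nlinarith
        have hL0 : 0 < Y * X j ^ M := by linarith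
        have hM1' : Y * X j ^ M ≤ K ^ (4 / 3 : ℝ) := by
          rw [le_div_iff₀ hY0] at hM1; linarith
        have hLE : K ^ (4 / 3 : ℝ) ≤ Y * X j ^ M * E := by
          rw [div_lt_iff₀ hY0] at hM2
          calc K ^ (4 / 3 : ℝ) ≤ X j ^ M * X j * Y := hM2.le
            _ ≤ X j ^ M * E * Y := by
              refine mul_le_mul_of_nonneg_right ?_ hY0.le
              exact mul_le_mul_of_nonneg_left (hXE j) (by positivity)
            _ = _ := by ring
        have hc : ∑ k ∈ T2, F k ≤ R := by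
          refine core T2 S ((Finset.filter_subset _ _).trans hTS) F
            (fun k => (y k * p j k ^ M) ^ 2) μ
            (L := Y * X j ^ M) hK hE hN1 hε hε2 hβ hβ1 hEK hL1 hLE ?_ ?_ ?_ ?_ ?_
          · intro k hk; exact (hT1 k (Finset.mem_filter.mp hk).1).le
          · intro k hk; exact hμ2 k (Finset.mem_filter.mp hk).1
          · intro k hk
            obtain ⟨hkT, hky⟩ := Finset.mem_filter.mp hk
            have hXM0 : 0 < X j ^ M := by linarith
            show y k ^ 2 * ∏ i, p i k ^ 2 ≤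
              (y k * p j k ^ M) ^ 2 * (N / (Y * X j ^ M)) ^ (2 * μ k)
            have e1 : N / (Y * X j ^ M) = Ng / X j ^ M := by
              rw [hN]; field_simp
            rw [e1, mul_pow, hpe k hkT M, mul_assoc, ← Real.mul_rpow hXM0.le (by positivity),
              mul_div_cancel₀ _ hXM0.ne']
            exact mul_le_mul_of_nonneg_left (hP k hkT) (sq_nonneg _)
          · intro k hk
            obtain ⟨hkT, hky⟩ := Finset.mem_filter.mp hk
            rw [not_le] at hky
            show (Y * X j ^ M) ^ (2 * μ k) ≤ (y k * p j k ^ M) ^ 2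
            rw [mul_pow, hpe k hkT M, Real.mul_rpow hY0.le (by positivity)]
            refine mul_le_mul_of_nonneg_right ?_ (by positivity)
            calc Y ^ (2 * μ k) = (Y ^ μ k) ^ 2 := by
                  rw [← Real.rpow_natCast, ← Real.rpow_mul hY0.le]; congr 1; push_cast; ring
              _ ≤ y k ^ 2 := pow_le_pow_left₀ (by positivity) hky.le 2
          · intro T' hT' V hV hq
            have := lv 1 le_rfl j M (by rw [pow_one]; exact hM1') T'
              (hT'.trans ((Finset.filter_subset _ _).trans hTS)) V (by rw [pow_one]; exact hV)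
              (fun k hk => by rw [pow_one]; exact hq k hk)
            rwa [pow_one] at this
        nlinarith
      · -- two-factor
        have h1 : ∑ k ∈ T2, F k ≤ Ng ^ (2 * (β + ε)) * ∑ k ∈ S, y k ^ 2 := by
          calc ∑ k ∈ T2, F k ≤ ∑ k ∈ T2, Ng ^ (2 * (β + ε)) * y k ^ 2 := by
                refine Finset.sum_le_sum fun k hk => ?_
                obtain ⟨hkT, _⟩ := Finset.mem_filter.mp hk
                show y k ^ 2 * ∏ i, p i k ^ 2 ≤ _
                rw [mul_comm]
                refine mul_le_mul_of_nonneg_right ((hP k hkT).trans ?_) (sq_nonneg _)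
                exact Real.rpow_le_rpow_of_exponent_le hNg1 (by have := hμ2 k hkT; linarith)
            _ = Ng ^ (2 * (β + ε)) * ∑ k ∈ T2, y k ^ 2 := by rw [Finset.mul_sum]
            _ ≤ _ := by
                refine mul_le_mul_of_nonneg_left ?_ (by positivity)
                exact Finset.sum_le_sum_of_subset_of_nonneg
                  ((Finset.filter_subset _ _).trans hTS) (fun _ _ _ => sq_nonneg _)
        have h2 : Ng ^ (2 * (β + ε)) * (K * Y) ≤
            N ^ (2 * ε) * (K ^ (8 / 3 * (1 - β)) * N ^ (2 * β)) := by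
          have hl : 4 / 3 * Real.log K ≤ Real.log Y := by
            have := Real.log_le_log (by positivity) hYK.le
            rwa [Real.log_rpow hK0] at this
          have lk : 0 ≤ Real.log K := Real.log_nonneg hK
          have ly : 0 ≤ Real.log Y := Real.log_nonneg hY
          have lg : 0 ≤ Real.log Ng := Real.log_nonneg hNg1
          have lN : Real.log N = Real.log Y + Real.log Ng := by
            rw [hN, Real.log_mul (by positivity) (by positivity)]
          rw [← Real.log_le_log_iff (by positivity) (by positivity)]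
          rw [Real.log_mul (by positivity) (by positivity),
            Real.log_mul (by positivity) (by positivity),
            Real.log_mul (by positivity) (by positivity),
            Real.log_mul (by positivity) (by positivity),
            Real.log_rpow (by positivity), Real.log_rpow (by positivity),
            Real.log_rpow (by positivity), Real.log_rpow (by positivity), lN]
          have e1 : (2 * β - 1) * (4 / 3 * Real.log K) ≤ (2 * β - 1) * Real.log Y :=
            mul_le_mul_of_nonneg_left hl (by linarith)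
          nlinarith [mul_nonneg hε.le ly, mul_nonneg hε.le lg]
        calc ∑ k ∈ T2, F k ≤ Ng ^ (2 * (β + ε)) * (A * (K * Y)) :=
              h1.trans (mul_le_mul_of_nonneg_left (tf hYK) (by positivity))
          _ = A * (Ng ^ (2 * (β + ε)) * (K * Y)) := by ring
          _ ≤ A * (N ^ (2 * ε) * (K ^ (8 / 3 * (1 - β)) * N ^ (2 * β))) :=
              mul_le_mul_of_nonneg_left h2 hA
          _ ≤ A * R := by
              refine mul_le_mul_of_nonneg_left (le_trans ?_ hRge) hA
              refine mul_le_mul_of_nonneg_left ?_ (by positivity)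
              have : 0 ≤ K ^ (4 / 9 : ℝ) * N ^ (5 / 3 : ℝ) := by positivity
              linarith
          _ ≤ _ := by nlinarith
    rw [hsplit]
    nlinarith
  -- assembly
  have hcov : ∑ k ∈ S, F k ≤ ∑ k ∈ S0, F k + ∑ j, ∑ k ∈ Cls S p X c0 j, F k := by
    have h1 : ∀ k ∈ S, F k ≤ (if k ∈ S0 then F k else 0) +
        ∑ j, (if k ∈ Cls S p X c0 j then F k else 0) := by
      intro k hk
      by_cases h : ∀ j, lev (X j) (p j k) ≤ c0
      · have : k ∈ S0 := Finset.mem_filter.2 ⟨hk, h⟩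
        rw [if_pos this]
        have : 0 ≤ ∑ j, (if k ∈ Cls S p X c0 j then F k else 0) :=
          Finset.sum_nonneg fun j _ => by split_ifs <;> simp [hF0]
        linarith
      · push Not at h
        obtain ⟨j1, hj1⟩ := h
        obtain ⟨j, _, hj⟩ := Finset.exists_max_image Finset.univ
          (fun i => lev (X i) (p i k)) ⟨j1, Finset.mem_univ _⟩
        have hmem : k ∈ Cls S p X c0 j := by
          unfold Cls
          exact Finset.mem_filter.2 ⟨hk, hj1.trans_le (hj j1 (Finset.mem_univ _)),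
            fun i => hj i (Finset.mem_univ _)⟩
        have h2 : F k ≤ ∑ j, (if k ∈ Cls S p X c0 j then F k else 0) := by
          calc F k = (if k ∈ Cls S p X c0 j then F k else 0) := by rw [if_pos hmem]
            _ ≤ _ := Finset.single_le_sum
              (f := fun j => if k ∈ Cls S p X c0 j then F k else 0)
              (fun j _ => by split_ifs <;> simp [hF0]) (Finset.mem_univ j)
        have : 0 ≤ (if k ∈ S0 then F k else 0) := by split_ifs <;> simp [hF0]
        linarith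
    calc ∑ k ∈ S, F k ≤ ∑ k ∈ S, ((if k ∈ S0 then F k else 0) +
          ∑ j, (if k ∈ Cls S p X c0 j then F k else 0)) := Finset.sum_le_sum h1
      _ = ∑ k ∈ S, (if k ∈ S0 then F k else 0) +
          ∑ j, ∑ k ∈ S, (if k ∈ Cls S p X c0 j then F k else 0) := by
        rw [Finset.sum_add_distrib, Finset.sum_comm]
      _ ≤ _ := by
        refine add_le_add (le_of_eq ?_) (Finset.sum_le_sum fun j _ => le_of_eq ?_)
        · rw [← Finset.sum_filter]
          congr 1
          ext k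
          simp only [Finset.mem_filter, hS0]
          tauto
        · rw [← Finset.sum_filter]
          congr 1
          ext k
          unfold Cls
          simp only [Finset.mem_filter]
          tauto
  calc ∑ k ∈ S, y k ^ 2 * ∏ j, p j k ^ 2 = ∑ k ∈ S, F k := rfl
    _ ≤ A * R + ∑ _j : Fin m, 2 * (A + 1) * R :=
        hcov.trans (add_le_add hlow (Finset.sum_le_sum fun j _ => hhigh j))
    _ = A * R + m * (2 * (A + 1) * R) := by
        rw [Finset.sum_const, Finset.card_univ, Fintype.card_fin, nsmul_eq_mul]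
    _ ≤ (2 * m + 1) * (A + 1) * R := by nlinarith

end Crest.Agent.R017.LB744
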