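import Crest.Agent.R017.TEb_48
import Crest.Agent.R017.E2q_440
import Crest.Agent.R017.E1za_551
import Crest.Agent.R017.E5b_54

/-!
# Row 17, C.REMg, (LB), part b (helper48): the cross error, split into T-part and R-part

* `EH` : the T-functional (all pairs `(δ, e)`, the pair `(1, 1)` included)
* `RE` : the R-functional of E2
* `cross_split` : the right side of `E2fin` is `≤ θ (K/X) EH + (C/θ) RE`
-/

set_option autoImplicit false

noncomputable section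

open Complex MeasureTheory
open scoped ComplexConjugate Classical

namespace Crest.Agent.R017.LBx48

open Crest.Agent.R012 Crest.Agent.R012.Eis Crest.Agent.R012.MC
open Crest.Agent.R012.LS2 (S mem_S)
open Crest.Agent.R012.Mob705 (pdiv)
open Crest.Agent.R012.Div277 (tau)
open Crest.Agent.R017.PX764 (Gh n6)
open Crest.Agent.R017.CM106 (CS TG FS)
open Crest.Agent.R017.E1551 hiding tau
open Crest.Agent.R017.C70 (JW JC OKJ)
open Crest.Agent.R017.E2440 (TE Jb Qs prs C4)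

/-- **the T-functional** -/
def EH (A K X Y Z : ℝ) (α : Eis → ℂ) : ℝ :=
  ∑ p ∈ S Y ×ˢ S Y, (nm p.1 * tau p.1 * (tau p.2 : ℝ) ^ 4) * (nm p.2 * LJ A K X Z α p.1 p.2)

lemma EH_nonneg {A K X Y Z : ℝ} (hK : 0 ≤ K) (hX : 0 ≤ X) (α : Eis → ℂ) :
    0 ≤ EH A K X Y Z α :=
  Finset.sum_nonneg fun _ _ => mul_nonneg (by positivity)
    (mul_nonneg (Nat.cast_nonneg _) (LJ_nonneg hK hX _ _ _))

/-- `EG` is dominated by `EH` -/
lemma EG_le_EH {A K X Y Y₀ Y₁ : ℝ} (hK : 0 ≤ K) (hX : 0 ≤ X) (h01 : Y₀ ≤ Y₁) (α : Eis → ℂ) :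
    EG A K X Y Y₀ Y₁ α ≤ 2 * EH A K X Y Y₁ α := by
  unfold EG EH
  rw [Finset.mul_sum]
  refine (Finset.sum_le_sum_of_subset_of_nonneg (Finset.erase_subset _ _) fun p _ _ =>
    mul_nonneg (by positivity) (add_nonneg (WJ_nonneg hK hX _ _ _) (LJ_nonneg hK hX _ _ _))).trans
    (Finset.sum_le_sum fun p hp => ?_)
  have h1 : WJ A K X Y₁ α p.1 p.2 ≤ nm p.2 * LJ A K X Y₁ α p.1 p.2 := by
    unfold WJ LJ
    rw [Finset.mul_sum]
    refine Finset.sum_le_sum fun j _ => ?_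
    rw [← mul_assoc]
    refine mul_le_mul_of_nonneg_right ?_ (Wf_nonneg _ _ _ _ _)
    have h2 := lm_nonneg hK hX p.1 j
    by_cases h3 : p.2 = 0
    · have : nm (0 : Eis) = 0 := by simp
      rw [h3, this]
      simp [h2]
    · have h4 : (1 : ℝ) ≤ nm p.2 := by exact_mod_cast nm_pos.mpr h3
      refine (min_le_right _ _).trans ?_
      nlinarith
  have h2 : LJ A K X Y₀ α p.1 p.2 ≤ nm p.2 * LJ A K X Y₁ α p.1 p.2 := by
    have hp' := Finset.mem_product.mp hp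
    have h5 : LJ A K X Y₀ α p.1 p.2 ≤ LJ A K X Y₁ α p.1 p.2 := by
      unfold LJ
      exact Finset.sum_le_sum_of_subset_of_nonneg (BF_mono (by gcongr)) fun _ _ _ =>
        mul_nonneg (lm_nonneg hK hX _ _) (Wf_nonneg _ _ _ _ _)
    have h6 := LJ_nonneg (A := A) (Z := Y₁) hK hX α p.1 p.2
    by_cases h3 : p.2 = 0
    · exfalso
      have h7 := hp'.2
      rw [h3] at h7
      unfold LS2.S at h7
      rw [Finset.mem_filter, mem_primBall] at h7
      exact h7.1.2.ne_zero rfl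
    · have h4 : (1 : ℝ) ≤ nm p.2 := by exact_mod_cast nm_pos.mpr h3
      nlinarith
  calc (nm p.1 * tau p.1 * (tau p.2 : ℝ) ^ 4) * (WJ A K X Y₁ α p.1 p.2 + LJ A K X Y₀ α p.1 p.2)
      ≤ (nm p.1 * tau p.1 * (tau p.2 : ℝ) ^ 4) * (nm p.2 * LJ A K X Y₁ α p.1 p.2 +
        nm p.2 * LJ A K X Y₁ α p.1 p.2) :=
        mul_le_mul_of_nonneg_left (add_le_add h1 h2) (by positivity)
    _ = _ := by ring

/-- the R-functional of E2, one block -/
def R2 (α : Eis → ℂ) (K : ℝ) (F : ℝ → ℂ) (δ e : Eis) (V : ℝ) : ℝ :=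
  ∑ y ∈ prs δ, ∑ A ∈ pdiv y.1, Real.sqrt (∑ c ∈ C4, ∑ j₂ ∈ S (Real.sqrt V),
    Qs α δ e V K F y A c j₂)

/-- **the R-functional of E2** -/
def RE (α : Eis → ℂ) (K : ℝ) (F : ℝ → ℂ) (D : Finset Eis) (I : ℕ) (E0 V : ℝ) : ℝ :=
  ∑ δ ∈ D, ∑ i ∈ Finset.range I, ∑ e ∈ S E0,
    (K ^ (-(2 / 3) : ℝ) * (V / 2 ^ i) ^ (1 / 3 : ℝ) / nm e) * R2 α K F δ e (V / 2 ^ i) ^ 2

/-- AM-GM -/
lemma sqrt_mul_le {t r ω : ℝ} (ht : 0 ≤ t) (hω : 0 < ω) :
    Real.sqrt t * r ≤ (ω * t + r ^ 2 / ω) / 2 := by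
  have h1 := Real.sq_sqrt ht
  have h2 : 0 ≤ (ω * Real.sqrt t - r) ^ 2 / ω := by positivity
  have e : (ω * Real.sqrt t - r) ^ 2 / ω = ω * Real.sqrt t ^ 2 - 2 * (Real.sqrt t * r) +
      r ^ 2 / ω := by field_simp; ring
  rw [e, h1] at h2
  linarith

/-- one block of `J` : the classes -/
lemma block_LJ {A K X Y₀ Z : ℝ} (hK : 0 ≤ K) (hX : 0 ≤ X) {D : ℝ} (α : Eis → ℂ) {δ : Eis}
    (hδ : IsPrim δ) (e : Eis) {V : ℝ} (hV : 0 ≤ V) (I : ℕ) {om : Eis × Eis → ℂ}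
    (hom : ∀ x, ‖om x‖ ≤ 1) :
    ∑ i ∈ Finset.range I, ∑ x ∈ Jb (JW D Y₀ Z) δ (V / 2 ^ i),
      ‖om x‖ ^ 2 * (lm K X δ x.2 * Wf A α δ x.2 e) ≤ LJ A K X Z α δ e := by
  set f : Eis × Eis → ℝ := fun x => lm K X δ x.2 * Wf A α δ x.2 e with hf
  have hf0 : ∀ x, 0 ≤ f x := fun x => mul_nonneg (lm_nonneg hK hX _ _) (Wf_nonneg _ _ _ _ _)
  set JJ := (JW D Y₀ Z).filter (fun x => x.1 = δ) with hJJ
  have h1 : ∑ i ∈ Finset.range I, ∑ x ∈ Jb (JW D Y₀ Z) δ (V / 2 ^ i), ‖om x‖ ^ 2 * f x ≤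
      ∑ i ∈ Finset.range I, ∑ x ∈ JJ, (if V / 2 ^ i / 2 < nm x.2 ∧ (nm x.2 : ℝ) ≤ V / 2 ^ i then
        f x else 0) := by
    refine Finset.sum_le_sum fun i _ => ?_
    unfold E2440.Jb
    rw [hJJ, Finset.sum_filter, Finset.sum_filter]
    refine Finset.sum_le_sum fun x _ => ?_
    by_cases h : x.1 = δ
    · simp only [h, true_and, if_true]
      split_ifs
      · have : ‖om x‖ ^ 2 ≤ 1 := pow_le_one₀ (norm_nonneg _) (hom x)
        exact mul_le_of_le_one_left (hf0 x) this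
      · exact le_rfl
    · rw [if_neg (fun h' => h h'.1), if_neg h]
  refine h1.trans ?_
  rw [Finset.sum_comm]
  have h2 : ∀ x ∈ JJ, ∑ i ∈ Finset.range I, (if V / 2 ^ i / 2 < nm x.2 ∧
      (nm x.2 : ℝ) ≤ V / 2 ^ i then f x else 0) ≤ f x := by
    intro x _
    by_cases hex : ∃ i ∈ Finset.range I, V / 2 ^ i / 2 < nm x.2 ∧ (nm x.2 : ℝ) ≤ V / 2 ^ i
    · obtain ⟨i, hi, h3, h4⟩ := hex
      rw [Finset.sum_eq_single_of_mem i hi, if_pos ⟨h3, h4⟩]
      intro i' _ hne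
      rw [if_neg]
      rintro ⟨h5, h6⟩
      have key : ∀ a b : ℕ, a < b → V / 2 ^ b ≤ V / 2 ^ a / 2 := by
        intro a b hab
        rw [div_div, ← pow_succ]
        exact div_le_div_of_nonneg_left hV (by positivity)
          (pow_le_pow_right₀ (by norm_num) hab)
      rcases lt_or_gt_of_ne hne with h7 | h7
      · have := key _ _ h7; linarith
      · have := key _ _ h7; linarith
    · push Not at hex
      rw [Finset.sum_eq_zero fun i hi => if_neg (fun h => absurd h.2 (not_le.mpr (hex i hi h.1)))]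
      exact hf0 x
  refine (Finset.sum_le_sum h2).trans ?_
  have hinj : Set.InjOn (fun x : Eis × Eis => x.2) (JJ : Set (Eis × Eis)) := by
    intro x hx y hy hxy
    have hx' := (Finset.mem_filter.mp hx).2
    have hy' := (Finset.mem_filter.mp hy).2
    exact Prod.ext (hx'.trans hy'.symm) hxy
  have e1 : ∑ x ∈ JJ, f x = ∑ j ∈ JJ.image (fun x => x.2), lm K X δ j * Wf A α δ j e := by
    rw [Finset.sum_image hinj]
  rw [e1]
  unfold LJ
  refine Finset.sum_le_sum_of_subset_of_nonneg ?_ fun j _ _ =>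
    mul_nonneg (lm_nonneg hK hX _ _) (Wf_nonneg _ _ _ _ _)
  intro j hj
  obtain ⟨x, hx, rfl⟩ := Finset.mem_image.mp hj
  have hx1 := Finset.mem_filter.mp hx
  have hx2 := hx1.1
  unfold JW at hx2
  rw [Finset.mem_filter] at hx2
  obtain ⟨-, -, h3, -, h4⟩ := hx2
  rw [mem_BF]
  refine ⟨E5b54.JC_cf h3, ?_⟩
  have hδn := nmpos hδ.ne_zero
  rw [le_div_iff₀ (by positivity)]
  rw [hx1.2, nm_mul, nm_pow] at h4
  exact_mod_cast h4

set_option maxHeartbeats 2000000 in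
/-- **the cross error, split** -/
theorem cross_split (R : ℝ) (hR : 0 ≤ R) (A : ℕ) (hA : 2 ≤ A) : ∃ C : ℝ, 0 ≤ C ∧
    ∀ (Y X K D Y₀ Z V E0 θ : ℝ), 1 ≤ Y → 0 < X → 0 < K → 0 < V → 0 < θ →
    ∀ α : Eis → ℂ, Adm Y X R α → ∀ (Ds : Finset Eis), (∀ δ ∈ Ds, IsPrim δ ∧ Squarefree δ) →
    ∀ (I : ℕ) (om : Eis × Eis → ℂ), (∀ x, ‖om x‖ ≤ 1) → ∀ F : ℝ → ℂ,
      ∑ δ ∈ Ds, ∑ i ∈ Finset.range I, ∑ e ∈ S E0,
        Real.sqrt (∑ x ∈ Jb (JW D Y₀ Z) δ (V / 2 ^ i), ‖om x‖ ^ 2 * ‖TE α x e‖ ^ 2) *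
        R2 α K F δ e (V / 2 ^ i) ≤
      θ * (K / X) * EH A K X Y Z α + C / θ * RE α K F Ds I E0 V := by
  obtain ⟨C₀, hC₀, hTE⟩ := norm_TE_sq_le R hR A hA
  set C₁ := C₀ + 1 with hC₁
  have hC₁0 : 0 < C₁ := by rw [hC₁]; linarith
  refine ⟨C₁, hC₁0.le, fun Y X K D Y₀ Z V E0 θ hY hX hK hV hθ α hα Ds hDs I om hom F => ?_⟩
  have hY0 : 0 ≤ Y := by linarith
  -- the pairs outside `S Y` contribute zero
  have hz : ∀ δ : Eis, IsPrim δ → δ ∉ S Y → ∀ κ e : Eis, TE α (δ, κ) e = 0 := by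
    intro δ hδ hn κ e
    unfold E2440.TE
    refine (tsum_congr fun k => ?_).trans tsum_zero
    have : α (δ * k) = 0 := by
      by_contra h
      exact hn (Dual2813.S_of_dvd hY0 (hα.sup _ h) hδ (dvd_mul_right δ k))
    show (if e ∣ k ∧ IsCoprime κ (δ * k) then α (δ * k) * ((n6 k : ℂ) * Gh κ k) else 0) = 0
    rw [this]; simp
  have hze : ∀ e : Eis, IsPrim e → e ∉ S Y → ∀ δ κ : Eis, IsPrim δ → TE α (δ, κ) e = 0 := by
    intro e he hn δ κ hδ
    unfold E2440.TE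
    refine (tsum_congr fun k => ?_).trans tsum_zero
    show (if e ∣ k ∧ IsCoprime κ (δ * k) then α (δ * k) * ((n6 k : ℂ) * Gh κ k) else 0) = 0
    split_ifs with h
    · have : α (δ * k) = 0 := by
        by_contra h0
        exact hn (Dual2813.S_of_dvd hY0 (hα.sup _ h0) he (h.1.trans (dvd_mul_left k δ)))
      rw [this]; simp
    · rfl
  set T2 : Eis → ℕ → Eis → ℝ := fun δ i e =>
    ∑ x ∈ Jb (JW D Y₀ Z) δ (V / 2 ^ i), ‖om x‖ ^ 2 * ‖TE α x e‖ ^ 2 with hT2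
  set SS : Eis → ℕ → Eis → ℝ := fun δ i e =>
    ∑ x ∈ Jb (JW D Y₀ Z) δ (V / 2 ^ i), ‖om x‖ ^ 2 * (lm K X δ x.2 * Wf A α δ x.2 e) with hSS
  have hSS0 : ∀ δ i e, 0 ≤ SS δ i e := fun δ i e => Finset.sum_nonneg fun x _ =>
    mul_nonneg (by positivity) (mul_nonneg (lm_nonneg hK.le hX.le _ _) (Wf_nonneg _ _ _ _ _))
  have hT20 : ∀ δ i e, 0 ≤ T2 δ i e := fun δ i e => Finset.sum_nonneg fun x _ => by positivity
  -- the bound of one block
  have hblk : ∀ δ ∈ Ds, ∀ i ∈ Finset.range I, ∀ e ∈ S E0, T2 δ i e ≤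
      C₁ * (nm δ / X * (K * (V / 2 ^ i)) ^ (1 / 3 : ℝ)) * SS δ i e := by
    intro δ hδ i _ e he
    have hδp := (hDs δ hδ).1
    have hδn := nmpos hδp.ne_zero
    have heS : IsPrim e := by
      unfold LS2.S at he
      rw [Finset.mem_filter, mem_primBall] at he
      exact he.1.2
    have hVi : 0 < V / 2 ^ i := by positivity
    simp only [hT2, hSS]
    rw [Finset.mul_sum]
    refine Finset.sum_le_sum fun x hx => ?_
    unfold E2440.Jb at hx
    rw [Finset.mem_filter] at hx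
    obtain ⟨hx1, hx2, hx3, hx4⟩ := hx
    have hx0 : x.2 ≠ 0 := by
      intro h0
      rw [h0] at hx3
      have h00 : nm (0 : Eis) = 0 := by simp
      rw [h00, Nat.cast_zero] at hx3
      linarith [div_pos hVi (by norm_num : (0:ℝ) < 2)]
    have hxn := nmpos hx0
    have hW := Wf_nonneg (A : ℝ) α δ x.2 e
    have h1 : ‖TE α x e‖ ^ 2 ≤ C₁ * (X / nm δ) ^ (-(1 / 3) : ℝ) * Wf (A : ℝ) α δ x.2 e := by
      have e0 : x = (δ, x.2) := Prod.ext hx2 rfl
      rw [e0]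
      refine (hTE Y X hY0 hX α hα δ x.2 e hδp heS).trans ?_
      have : C₀ ≤ C₁ := by rw [hC₁]; linarith
      gcongr
    have hXδ : 0 < X / nm δ := by positivity
    have h2 : (X / nm δ) ^ (-(1 / 3) : ℝ) ≤ (nm δ / X * (K * (V / 2 ^ i)) ^ (1 / 3 : ℝ)) *
        lm K X δ x.2 := by
      unfold lm
      have h3 : (K * (V / 2 ^ i)) ^ (-(1 / 3) : ℝ) ≤ (K * nm x.2) ^ (-(1 / 3) : ℝ) :=
        Real.rpow_le_rpow_of_nonpos (by positivity) (by gcongr) (by norm_num)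
      have h4 : (X / nm δ) ^ (-(1 / 3) : ℝ) = nm δ / X * (X / nm δ) ^ (2 / 3 : ℝ) := by
        have : nm δ / X = (X / nm δ) ^ (-1 : ℝ) := by
          rw [Real.rpow_neg_one, inv_div]
        rw [this, ← Real.rpow_add hXδ]
        norm_num
      have h5 : (K * (V / 2 ^ i)) ^ (1 / 3 : ℝ) * (K * (V / 2 ^ i)) ^ (-(1 / 3) : ℝ) = 1 := by
        rw [← Real.rpow_add (by positivity)]
        norm_num
      calc (X / nm δ) ^ (-(1 / 3) : ℝ) = nm δ / X * ((K * (V / 2 ^ i)) ^ (1 / 3 : ℝ) *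
            (K * (V / 2 ^ i)) ^ (-(1 / 3) : ℝ)) * (X / nm δ) ^ (2 / 3 : ℝ) := by
            rw [h5, h4]; ring
        _ ≤ nm δ / X * ((K * (V / 2 ^ i)) ^ (1 / 3 : ℝ) *
            (K * nm x.2) ^ (-(1 / 3) : ℝ)) * (X / nm δ) ^ (2 / 3 : ℝ) := by gcongr
        _ ≤ nm δ / X * ((K * (V / 2 ^ i)) ^ (1 / 3 : ℝ) *
            (K * nm x.2) ^ (-(1 / 3) : ℝ)) * (X / nm δ) ^ (2 / 3 : ℝ) * 3 := by
            refine le_mul_of_one_le_right (by positivity) (by norm_num)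
        _ = _ := by ring
    calc ‖om x‖ ^ 2 * ‖TE α x e‖ ^ 2 ≤ ‖om x‖ ^ 2 * (C₁ * ((nm δ / X *
          (K * (V / 2 ^ i)) ^ (1 / 3 : ℝ)) * lm K X δ x.2) * Wf (A : ℝ) α δ x.2 e) := by
          refine mul_le_mul_of_nonneg_left (h1.trans ?_) (by positivity)
          gcongr
      _ = _ := by ring
  -- AM-GM
  have hone : ∀ δ ∈ Ds, ∀ i ∈ Finset.range I, ∀ e ∈ S E0,
      Real.sqrt (T2 δ i e) * R2 α K F δ e (V / 2 ^ i) ≤
      θ * (K / X) * (nm δ * (nm e * SS δ i e)) +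
      C₁ / θ * ((K ^ (-(2 / 3) : ℝ) * (V / 2 ^ i) ^ (1 / 3 : ℝ) / nm e) *
        R2 α K F δ e (V / 2 ^ i) ^ 2) := by
    intro δ hδ i hi e he
    have hb := hblk δ hδ i hi e he
    have hδn := nmpos (hDs δ hδ).1.ne_zero
    have heS : IsPrim e := by
      unfold LS2.S at he
      rw [Finset.mem_filter, mem_primBall] at he
      exact he.1.2
    have hen := nmpos heS.ne_zero
    have hVi : 0 < V / 2 ^ i := by positivity
    set W := V / 2 ^ i with hW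
    set r := R2 α K F δ e W with hr
    set P := (K * W) ^ (1 / 3 : ℝ) with hP
    have hP0 : 0 < P := by positivity
    set ω := 2 * θ * K * nm e / (C₁ * P) with hω
    have hω0 : 0 < ω := by positivity
    refine (sqrt_mul_le (hT20 δ i e) hω0).trans ?_
    have a1 : ω * T2 δ i e / 2 ≤ θ * (K / X) * (nm δ * (nm e * SS δ i e)) := by
      calc ω * T2 δ i e / 2 ≤ ω * (C₁ * (nm δ / X * P) * SS δ i e) / 2 := by gcongr
        _ = _ := by rw [hω]; field_simp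
    have a2 : r ^ 2 / ω / 2 ≤ C₁ / θ * ((K ^ (-(2 / 3) : ℝ) * W ^ (1 / 3 : ℝ) / nm e) * r ^ 2) := by
      have e1 : P = K ^ (1 / 3 : ℝ) * W ^ (1 / 3 : ℝ) := by
        rw [hP, Real.mul_rpow hK.le hVi.le]
      have e2 : K ^ (-(2 / 3) : ℝ) = K ^ (1 / 3 : ℝ) / K := by
        rw [show (-(2 / 3) : ℝ) = 1 / 3 - 1 by norm_num, Real.rpow_sub hK, Real.rpow_one]
      have e3 : r ^ 2 / ω / 2 = 1 / 4 * (C₁ / θ * ((K ^ (-(2 / 3) : ℝ) * W ^ (1 / 3 : ℝ) / nm e) *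
          r ^ 2)) := by
        rw [hω, e1, e2]
        field_simp
        ring
      rw [e3]
      have : 0 ≤ C₁ / θ * ((K ^ (-(2 / 3) : ℝ) * W ^ (1 / 3 : ℝ) / nm e) * r ^ 2) := by
        positivity
      linarith
    rw [add_div]
    exact add_le_add a1 a2
  have hsum : ∑ δ ∈ Ds, ∑ i ∈ Finset.range I, ∑ e ∈ S E0, Real.sqrt (T2 δ i e) *
      R2 α K F δ e (V / 2 ^ i) ≤
      ∑ δ ∈ Ds.filter (fun δ => δ ∈ S Y), ∑ e ∈ (S E0).filter (fun e => e ∈ S Y),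
        ∑ i ∈ Finset.range I, θ * (K / X) * (nm δ * (nm e * SS δ i e)) +
      C₁ / θ * RE α K F Ds I E0 V := by
    have h1 : ∀ δ ∈ Ds, ∀ i ∈ Finset.range I, ∀ e ∈ S E0,
        Real.sqrt (T2 δ i e) * R2 α K F δ e (V / 2 ^ i) ≤
        (if δ ∈ S Y ∧ e ∈ S Y then θ * (K / X) * (nm δ * (nm e * SS δ i e)) else 0) +
        C₁ / θ * ((K ^ (-(2 / 3) : ℝ) * (V / 2 ^ i) ^ (1 / 3 : ℝ) / nm e) *
          R2 α K F δ e (V / 2 ^ i) ^ 2) := by
      intro δ hδ i hi e he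
      have heS : IsPrim e := by
        unfold LS2.S at he
        rw [Finset.mem_filter, mem_primBall] at he
        exact he.1.2
      by_cases h : δ ∈ S Y ∧ e ∈ S Y
      · rw [if_pos h]; exact hone δ hδ i hi e he
      · rw [if_neg h, zero_add]
        have hT : T2 δ i e = 0 := by
          simp only [hT2]
          refine Finset.sum_eq_zero fun x hx => ?_
          unfold E2440.Jb at hx
          rw [Finset.mem_filter] at hx
          have e0 : x = (δ, x.2) := Prod.ext hx.2.1 rfl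
          have : TE α x e = 0 := by
            rw [e0]
            by_cases h1 : δ ∈ S Y
            · exact hze e heS (fun h2 => h ⟨h1, h2⟩) δ x.2 (hDs δ hδ).1
            · exact hz δ (hDs δ hδ).1 h1 x.2 e
          rw [this]; simp
        rw [hT, Real.sqrt_zero, zero_mul]
        positivity
    have h2 := Finset.sum_le_sum fun δ hδ => Finset.sum_le_sum fun i hi =>
      Finset.sum_le_sum fun e he => h1 δ hδ i hi e he
    refine h2.trans (le_of_eq ?_)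
    simp_rw [Finset.sum_add_distrib]
    congr 1
    · rw [Finset.sum_filter]
      refine Finset.sum_congr rfl fun δ _ => ?_
      by_cases h : δ ∈ S Y
      · rw [if_pos h, Finset.sum_comm, Finset.sum_filter]
        refine Finset.sum_congr rfl fun e _ => ?_
        by_cases h' : e ∈ S Y
        · rw [if_pos h']
          exact Finset.sum_congr rfl fun i _ => if_pos ⟨h, h'⟩
        · rw [if_neg h']
          exact Finset.sum_eq_zero fun i _ => if_neg (fun hh => h' hh.2)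
      · rw [if_neg h]
        exact Finset.sum_eq_zero fun i _ => Finset.sum_eq_zero fun e _ =>
          if_neg (fun hh => h hh.1)
    · unfold RE
      simp_rw [Finset.mul_sum]
  refine hsum.trans (add_le_add ?_ le_rfl)
  -- sum over the blocks
  have hfin : ∀ δ ∈ Ds.filter (fun δ => δ ∈ S Y), ∀ e ∈ (S E0).filter (fun e => e ∈ S Y),
      ∑ i ∈ Finset.range I, θ * (K / X) * (nm δ * (nm e * SS δ i e)) ≤
      θ * (K / X) * ((nm δ * tau δ * (tau e : ℝ) ^ 4) * (nm e * LJ A K X Z α δ e)) := by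
    intro δ hδ e he
    have hδp := ((mem_S hY0).1 (Finset.mem_filter.mp hδ).2).2.1
    have hep := ((mem_S hY0).1 (Finset.mem_filter.mp he).2).2.1
    rw [← Finset.mul_sum, ← Finset.mul_sum, ← Finset.mul_sum]
    refine mul_le_mul_of_nonneg_left ?_ (by positivity)
    have h1 := block_LJ (A := (A : ℝ)) (Y₀ := Y₀) (Z := Z) (D := D) hK.le hX.le α hδp e hV.le I hom
    have t1 : (1 : ℝ) ≤ tau δ := by
      have : (1 : ℝ) ≤ tau δ := by exact_mod_cast Div277.one_le_tau hδp.ne_zero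
      exact this
    have t2 : (1 : ℝ) ≤ (tau e : ℝ) ^ 4 := one_le_pow₀ (by exact_mod_cast Div277.one_le_tau hep.ne_zero)
    have hL := LJ_nonneg (A := (A : ℝ)) (Z := Z) hK.le hX.le α δ e
    calc nm δ * (nm e * ∑ i ∈ Finset.range I, SS δ i e) ≤
          nm δ * (nm e * LJ A K X Z α δ e) := by
          simp only [hSS]
          gcongr
      _ ≤ (nm δ * tau δ * (tau e : ℝ) ^ 4) * (nm e * LJ A K X Z α δ e) := by
          refine mul_le_mul_of_nonneg_right ?_ (by positivity)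
          have h3 : (0 : ℝ) ≤ nm δ := Nat.cast_nonneg _
          calc (nm δ : ℝ) = nm δ * 1 * 1 := by ring
            _ ≤ nm δ * tau δ * (tau e : ℝ) ^ 4 := by gcongr
  refine (Finset.sum_le_sum fun δ hδ => Finset.sum_le_sum fun e he => hfin δ hδ e he).trans ?_
  unfold EH
  rw [Finset.mul_sum, Finset.sum_product]
  have hnn : ∀ δ e : Eis, 0 ≤ θ * (K / X) * ((nm δ * tau δ * (tau e : ℝ) ^ 4) *
      (nm e * LJ A K X Z α δ e)) := fun δ e => by
    have hL := LJ_nonneg (A := (A : ℝ)) (Z := Z) hK.le hX.le α δ e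
    positivity
  refine (Finset.sum_le_sum_of_subset_of_nonneg (fun δ hδ => (Finset.mem_filter.mp hδ).2)
    fun δ _ _ => Finset.sum_nonneg fun e _ => hnn δ e).trans ?_
  exact Finset.sum_le_sum fun δ _ => Finset.sum_le_sum_of_subset_of_nonneg
    (fun e he => (Finset.mem_filter.mp he).2) fun e _ _ => hnn δ e

end Crest.Agent.R017.LBx48
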