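import Crest.Agent.R017.LBb_48
import Crest.Agent.R017.EHu_320
import Crest.Agent.R017.E3Mj_829
import Crest.Agent.R017.I1d_146

/-!
# Row 17, C.REMg, (LB), part c (helper48): everything on the T-side through `EHc` (320)

* `cross_split_c` : the cross error with `e ≤ E0` in the T-part and only non-empty blocks in `REb`
* `T_le_EHc` : `K^(2/3) Σ_x n13 x.2 Σ_{e, Q e} c(nm e) tau(e)^4 ‖TE‖² ≤ C (K/X) EHc c Q`
* `TF_le`, `Dfw_le`, `De_le` : 829's and 146's T-functionals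
-/

set_option autoImplicit false

noncomputable section

open Complex MeasureTheory
open scoped ComplexConjugate Classical

namespace Crest.Agent.R017.LBx48

open Crest.Agent.R012 Crest.Agent.R012.Eis Crest.Agent.R012.MC
open Crest.Agent.R012.LS2 (S mem_S)
open Crest.Agent.R012.Mob705 (pdiv)
open Crest.Agent.R012.Div277 (tau)
open Crest.Agent.R017.PX764 (Gh n6)
open Crest.Agent.R017.X6C180 (n13)
open Crest.Agent.R017.CM106 (CS TG FS)
open Crest.Agent.R017.E1551 hiding tau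
open Crest.Agent.R017.C70 (JW JC OKJ)
open Crest.Agent.R017.E2440 (TE Jb Qs prs C4)
open Crest.Agent.R017.EHu320 (EHc)

/-- the non-empty blocks -/
def neb (δ : Eis) (Z V : ℝ) (I : ℕ) : Finset ℕ :=
  (Finset.range I).filter (fun i => (nm δ : ℝ) ^ 2 * (V / 2 ^ i) < 2 * Z)

/-- **the R-functional of E2**, non-empty blocks -/
def REb (α : Eis → ℂ) (K : ℝ) (F : ℝ → ℂ) (D : Finset Eis) (I : ℕ) (E0 Z V : ℝ) : ℝ :=
  ∑ δ ∈ D, ∑ i ∈ neb δ Z V I, ∑ e ∈ S E0,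
    (K ^ (-(2 / 3) : ℝ) * (V / 2 ^ i) ^ (1 / 3 : ℝ) / nm e) * R2 α K F δ e (V / 2 ^ i) ^ 2

lemma REb_le {α : Eis → ℂ} {K : ℝ} (hK : 0 ≤ K) {F : ℝ → ℂ} {D : Finset Eis} {I : ℕ}
    {E0 Z V : ℝ} (hV : 0 ≤ V) : REb α K F D I E0 Z V ≤ RE α K F D I E0 V := by
  unfold REb RE neb
  refine Finset.sum_le_sum fun δ _ => Finset.sum_le_sum_of_subset_of_nonneg
    (Finset.filter_subset _ _) fun i _ _ => Finset.sum_nonneg fun e _ => by positivity

lemma Jb_empty {D Y₀ Z V : ℝ} {δ : Eis} (hδ : IsPrim δ) (hV : 2 * Z ≤ (nm δ : ℝ) ^ 2 * V) :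
    Jb (JW D Y₀ Z) δ V = ∅ := by
  rw [Finset.eq_empty_iff_forall_notMem]
  intro x hx
  unfold E2440.Jb at hx
  rw [Finset.mem_filter] at hx
  obtain ⟨hx1, hx2, hx3, -⟩ := hx
  unfold JW at hx1
  rw [Finset.mem_filter] at hx1
  obtain ⟨-, -, h3, -, h4⟩ := hx1
  rw [hx2, nm_mul, nm_pow] at h4
  push_cast at h4
  have hδn := nmpos hδ.ne_zero
  have : (nm δ : ℝ) ^ 2 * (V / 2) < (nm δ : ℝ) ^ 2 * nm x.2 := by gcongr
  nlinarith

set_option maxHeartbeats 2000000 in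
/-- **the cross error, split** -/
theorem cross_split_c (R : ℝ) (hR : 0 ≤ R) (A : ℕ) (hA : 2 ≤ A) : ∃ C : ℝ, 0 ≤ C ∧
    ∀ (Y X K D Y₀ Z V E0 θ : ℝ), 1 ≤ Y → 0 < X → 0 < K → 0 < V → 0 < θ →
    ∀ α : Eis → ℂ, Adm Y X R α → ∀ (Ds : Finset Eis), (∀ δ ∈ Ds, IsPrim δ ∧ Squarefree δ) →
    ∀ (I : ℕ) (om : Eis × Eis → ℂ), (∀ x, ‖om x‖ ≤ 1) → ∀ F : ℝ → ℂ,
      ∑ δ ∈ Ds, ∑ i ∈ Finset.range I, ∑ e ∈ S E0,
        Real.sqrt (∑ x ∈ Jb (JW D Y₀ Z) δ (V / 2 ^ i), ‖om x‖ ^ 2 * ‖TE α x e‖ ^ 2) *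
        R2 α K F δ e (V / 2 ^ i) ≤
      θ * (K / X) * EHc (fun n => (n : ℝ)) (fun e => e ∈ S E0) A K X Y Z α +
        C / θ * REb α K F Ds I E0 Z V := by
  obtain ⟨C₀, hC₀, hTE⟩ := norm_TE_sq_le R hR A hA
  set C₁ := C₀ + 1 with hC₁
  have hC₁0 : 0 < C₁ := by rw [hC₁]; linarith
  refine ⟨C₁, hC₁0.le, fun Y X K D Y₀ Z V E0 θ hY hX hK hV hθ α hα Ds hDs I om hom F => ?_⟩
  have hY0 : 0 ≤ Y := by linarith
  -- the pairs outside `S Y` contribute zero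
  have hz : ∀ δ : Eis, IsPrim δ → δ ∉ S Y → ∀ κ e : Eis, TE α (δ, κ) e = 0 := by
    intro δ hδ hn κ e
    unfold E2440.TE
    refine (tsum_congr fun k => ?_).trans tsum_zero
    have : α (δ * k) = 0 := by
      by_contra h
      exact hn (Dual2813.S_of_dvd hY0 (hα.sup _ h) hδ (dvd_mul_right δ k))
    show (if e ∣ k ∧ IsCoprime κ (δ * k) then α (δ * k) * ((n6 k : ℂ) * Gh κ k) else 0) = 0
    rw [this]; simp
  have hze : ∀ e : Eis, IsPrim e → e ∉ S Y → ∀ δ κ : Eis, IsPrim δ → TE α (δ, κ) e = 0 := by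
    intro e he hn δ κ hδ
    unfold E2440.TE
    refine (tsum_congr fun k => ?_).trans tsum_zero
    show (if e ∣ k ∧ IsCoprime κ (δ * k) then α (δ * k) * ((n6 k : ℂ) * Gh κ k) else 0) = 0
    split_ifs with h
    · have : α (δ * k) = 0 := by
        by_contra h0
        exact hn (Dual2813.S_of_dvd hY0 (hα.sup _ h0) he (h.1.trans (dvd_mul_left k δ)))
      rw [this]; simp
    · rfl
  set T2 : Eis → ℕ → Eis → ℝ := fun δ i e =>
    ∑ x ∈ Jb (JW D Y₀ Z) δ (V / 2 ^ i), ‖om x‖ ^ 2 * ‖TE α x e‖ ^ 2 with hT2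
  set SS : Eis → ℕ → Eis → ℝ := fun δ i e =>
    ∑ x ∈ Jb (JW D Y₀ Z) δ (V / 2 ^ i), ‖om x‖ ^ 2 * (lm K X δ x.2 * Wf A α δ x.2 e) with hSS
  have hSS0 : ∀ δ i e, 0 ≤ SS δ i e := fun δ i e => Finset.sum_nonneg fun x _ =>
    mul_nonneg (by positivity) (mul_nonneg (lm_nonneg hK.le hX.le _ _) (Wf_nonneg _ _ _ _ _))
  have hT20 : ∀ δ i e, 0 ≤ T2 δ i e := fun δ i e => Finset.sum_nonneg fun x _ => by positivity
  -- the bound of one block
  have hblk : ∀ δ ∈ Ds, ∀ i ∈ Finset.range I, ∀ e ∈ S E0, T2 δ i e ≤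
      C₁ * (nm δ / X * (K * (V / 2 ^ i)) ^ (1 / 3 : ℝ)) * SS δ i e := by
    intro δ hδ i _ e he
    have hδp := (hDs δ hδ).1
    have hδn := nmpos hδp.ne_zero
    have heS : IsPrim e := by
      unfold LS2.S at he
      rw [Finset.mem_filter, mem_primBall] at he
      exact he.1.2
    have hVi : 0 < V / 2 ^ i := by positivity
    simp only [hT2, hSS]
    rw [Finset.mul_sum]
    refine Finset.sum_le_sum fun x hx => ?_
    unfold E2440.Jb at hx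
    rw [Finset.mem_filter] at hx
    obtain ⟨hx1, hx2, hx3, hx4⟩ := hx
    have hx0 : x.2 ≠ 0 := by
      intro h0
      rw [h0] at hx3
      have h00 : nm (0 : Eis) = 0 := by simp
      rw [h00, Nat.cast_zero] at hx3
      linarith [div_pos hVi (by norm_num : (0:ℝ) < 2)]
    have hxn := nmpos hx0
    have hW := Wf_nonneg (A : ℝ) α δ x.2 e
    have h1 : ‖TE α x e‖ ^ 2 ≤ C₁ * (X / nm δ) ^ (-(1 / 3) : ℝ) * Wf (A : ℝ) α δ x.2 e := by
      have e0 : x = (δ, x.2) := Prod.ext hx2 rfl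
      rw [e0]
      refine (hTE Y X hY0 hX α hα δ x.2 e hδp heS).trans ?_
      have : C₀ ≤ C₁ := by rw [hC₁]; linarith
      gcongr
    have hXδ : 0 < X / nm δ := by positivity
    have h2 : (X / nm δ) ^ (-(1 / 3) : ℝ) ≤ (nm δ / X * (K * (V / 2 ^ i)) ^ (1 / 3 : ℝ)) *
        lm K X δ x.2 := by
      unfold lm
      have h3 : (K * (V / 2 ^ i)) ^ (-(1 / 3) : ℝ) ≤ (K * nm x.2) ^ (-(1 / 3) : ℝ) :=
        Real.rpow_le_rpow_of_nonpos (by positivity) (by gcongr) (by norm_num)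
      have h4 : (X / nm δ) ^ (-(1 / 3) : ℝ) = nm δ / X * (X / nm δ) ^ (2 / 3 : ℝ) := by
        have : nm δ / X = (X / nm δ) ^ (-1 : ℝ) := by
          rw [Real.rpow_neg_one, inv_div]
        rw [this, ← Real.rpow_add hXδ]
        norm_num
      have h5 : (K * (V / 2 ^ i)) ^ (1 / 3 : ℝ) * (K * (V / 2 ^ i)) ^ (-(1 / 3) : ℝ) = 1 := by
        rw [← Real.rpow_add (by positivity)]
        norm_num
      calc (X / nm δ) ^ (-(1 / 3) : ℝ) = nm δ / X * ((K * (V / 2 ^ i)) ^ (1 / 3 : ℝ) *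
            (K * (V / 2 ^ i)) ^ (-(1 / 3) : ℝ)) * (X / nm δ) ^ (2 / 3 : ℝ) := by
            rw [h5, h4]; ring
        _ ≤ nm δ / X * ((K * (V / 2 ^ i)) ^ (1 / 3 : ℝ) *
            (K * nm x.2) ^ (-(1 / 3) : ℝ)) * (X / nm δ) ^ (2 / 3 : ℝ) := by gcongr
        _ ≤ nm δ / X * ((K * (V / 2 ^ i)) ^ (1 / 3 : ℝ) *
            (K * nm x.2) ^ (-(1 / 3) : ℝ)) * (X / nm δ) ^ (2 / 3 : ℝ) * 3 := by
            refine le_mul_of_one_le_right (by positivity) (by norm_num)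
        _ = _ := by ring
    calc ‖om x‖ ^ 2 * ‖TE α x e‖ ^ 2 ≤ ‖om x‖ ^ 2 * (C₁ * ((nm δ / X *
          (K * (V / 2 ^ i)) ^ (1 / 3 : ℝ)) * lm K X δ x.2) * Wf (A : ℝ) α δ x.2 e) := by
          refine mul_le_mul_of_nonneg_left (h1.trans ?_) (by positivity)
          gcongr
      _ = _ := by ring
  -- AM-GM
  have hone : ∀ δ ∈ Ds, ∀ i ∈ Finset.range I, ∀ e ∈ S E0,
      Real.sqrt (T2 δ i e) * R2 α K F δ e (V / 2 ^ i) ≤
      θ * (K / X) * (nm δ * (nm e * SS δ i e)) +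
      C₁ / θ * ((K ^ (-(2 / 3) : ℝ) * (V / 2 ^ i) ^ (1 / 3 : ℝ) / nm e) *
        R2 α K F δ e (V / 2 ^ i) ^ 2) := by
    intro δ hδ i hi e he
    have hb := hblk δ hδ i hi e he
    have hδn := nmpos (hDs δ hδ).1.ne_zero
    have heS : IsPrim e := by
      unfold LS2.S at he
      rw [Finset.mem_filter, mem_primBall] at he
      exact he.1.2
    have hen := nmpos heS.ne_zero
    have hVi : 0 < V / 2 ^ i := by positivity
    set W := V / 2 ^ i with hW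
    set r := R2 α K F δ e W with hr
    set P := (K * W) ^ (1 / 3 : ℝ) with hP
    have hP0 : 0 < P := by positivity
    set ω := 2 * θ * K * nm e / (C₁ * P) with hω
    have hω0 : 0 < ω := by positivity
    refine (sqrt_mul_le (hT20 δ i e) hω0).trans ?_
    have a1 : ω * T2 δ i e / 2 ≤ θ * (K / X) * (nm δ * (nm e * SS δ i e)) := by
      calc ω * T2 δ i e / 2 ≤ ω * (C₁ * (nm δ / X * P) * SS δ i e) / 2 := by gcongr
        _ = _ := by rw [hω]; field_simp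
    have a2 : r ^ 2 / ω / 2 ≤ C₁ / θ * ((K ^ (-(2 / 3) : ℝ) * W ^ (1 / 3 : ℝ) / nm e) * r ^ 2) := by
      have e1 : P = K ^ (1 / 3 : ℝ) * W ^ (1 / 3 : ℝ) := by
        rw [hP, Real.mul_rpow hK.le hVi.le]
      have e2 : K ^ (-(2 / 3) : ℝ) = K ^ (1 / 3 : ℝ) / K := by
        rw [show (-(2 / 3) : ℝ) = 1 / 3 - 1 by norm_num, Real.rpow_sub hK, Real.rpow_one]
      have e3 : r ^ 2 / ω / 2 = 1 / 4 * (C₁ / θ * ((K ^ (-(2 / 3) : ℝ) * W ^ (1 / 3 : ℝ) / nm e) *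
          r ^ 2)) := by
        rw [hω, e1, e2]
        field_simp
        ring
      rw [e3]
      have : 0 ≤ C₁ / θ * ((K ^ (-(2 / 3) : ℝ) * W ^ (1 / 3 : ℝ) / nm e) * r ^ 2) := by
        positivity
      linarith
    rw [add_div]
    exact add_le_add a1 a2
  have hsum : ∑ δ ∈ Ds, ∑ i ∈ Finset.range I, ∑ e ∈ S E0, Real.sqrt (T2 δ i e) *
      R2 α K F δ e (V / 2 ^ i) ≤
      ∑ δ ∈ Ds.filter (fun δ => δ ∈ S Y), ∑ e ∈ (S E0).filter (fun e => e ∈ S Y),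
        ∑ i ∈ Finset.range I, θ * (K / X) * (nm δ * (nm e * SS δ i e)) +
      C₁ / θ * REb α K F Ds I E0 Z V := by
    have h1 : ∀ δ ∈ Ds, ∀ i ∈ Finset.range I, ∀ e ∈ S E0,
        Real.sqrt (T2 δ i e) * R2 α K F δ e (V / 2 ^ i) ≤
        (if δ ∈ S Y ∧ e ∈ S Y then θ * (K / X) * (nm δ * (nm e * SS δ i e)) else 0) +
        (if (nm δ : ℝ) ^ 2 * (V / 2 ^ i) < 2 * Z then
          C₁ / θ * ((K ^ (-(2 / 3) : ℝ) * (V / 2 ^ i) ^ (1 / 3 : ℝ) / nm e) *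
          R2 α K F δ e (V / 2 ^ i) ^ 2) else 0) := by
      intro δ hδ i hi e he
      by_cases hn : (nm δ : ℝ) ^ 2 * (V / 2 ^ i) < 2 * Z
      swap
      · have hT : T2 δ i e = 0 := by
          simp only [hT2]
          rw [Jb_empty (hDs δ hδ).1 (not_lt.mp hn), Finset.sum_empty]
        rw [hT, Real.sqrt_zero, zero_mul, if_neg hn, add_zero]
        split_ifs
        · have := hSS0 δ i e
          positivity
        · exact le_rfl
      rw [if_pos hn]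
      have heS : IsPrim e := by
        unfold LS2.S at he
        rw [Finset.mem_filter, mem_primBall] at he
        exact he.1.2
      by_cases h : δ ∈ S Y ∧ e ∈ S Y
      · rw [if_pos h]; exact hone δ hδ i hi e he
      · rw [if_neg h, zero_add]
        have hT : T2 δ i e = 0 := by
          simp only [hT2]
          refine Finset.sum_eq_zero fun x hx => ?_
          unfold E2440.Jb at hx
          rw [Finset.mem_filter] at hx
          have e0 : x = (δ, x.2) := Prod.ext hx.2.1 rfl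
          have : TE α x e = 0 := by
            rw [e0]
            by_cases h1 : δ ∈ S Y
            · exact hze e heS (fun h2 => h ⟨h1, h2⟩) δ x.2 (hDs δ hδ).1
            · exact hz δ (hDs δ hδ).1 h1 x.2 e
          rw [this]; simp
        rw [hT, Real.sqrt_zero, zero_mul]
        positivity
    have h2 := Finset.sum_le_sum fun δ hδ => Finset.sum_le_sum fun i hi =>
      Finset.sum_le_sum fun e he => h1 δ hδ i hi e he
    refine h2.trans (le_of_eq ?_)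
    simp_rw [Finset.sum_add_distrib]
    congr 1
    · rw [Finset.sum_filter]
      refine Finset.sum_congr rfl fun δ _ => ?_
      by_cases h : δ ∈ S Y
      · rw [if_pos h, Finset.sum_comm, Finset.sum_filter]
        refine Finset.sum_congr rfl fun e _ => ?_
        by_cases h' : e ∈ S Y
        · rw [if_pos h']
          exact Finset.sum_congr rfl fun i _ => if_pos ⟨h, h'⟩
        · rw [if_neg h']
          exact Finset.sum_eq_zero fun i _ => if_neg (fun hh => h' hh.2)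
      · rw [if_neg h]
        exact Finset.sum_eq_zero fun i _ => Finset.sum_eq_zero fun e _ =>
          if_neg (fun hh => h hh.1)
    · unfold REb neb
      simp_rw [Finset.mul_sum, Finset.sum_filter]
      refine Finset.sum_congr rfl fun δ _ => Finset.sum_congr rfl fun i _ => ?_
      split_ifs
      · rfl
      · exact Finset.sum_const_zero
  refine hsum.trans (add_le_add ?_ le_rfl)
  -- sum over the blocks
  have hfin : ∀ δ ∈ Ds.filter (fun δ => δ ∈ S Y), ∀ e ∈ (S E0).filter (fun e => e ∈ S Y),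
      ∑ i ∈ Finset.range I, θ * (K / X) * (nm δ * (nm e * SS δ i e)) ≤
      θ * (K / X) * ((nm δ * tau δ * (tau e : ℝ) ^ 4) * (nm e * LJ A K X Z α δ e)) := by
    intro δ hδ e he
    have hδp := ((mem_S hY0).1 (Finset.mem_filter.mp hδ).2).2.1
    have hep := ((mem_S hY0).1 (Finset.mem_filter.mp he).2).2.1
    rw [← Finset.mul_sum, ← Finset.mul_sum, ← Finset.mul_sum]
    refine mul_le_mul_of_nonneg_left ?_ (by positivity)
    have h1 := block_LJ (A := (A : ℝ)) (Y₀ := Y₀) (Z := Z) (D := D) hK.le hX.le α hδp e hV.le I hom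
    have t1 : (1 : ℝ) ≤ tau δ := by
      have : (1 : ℝ) ≤ tau δ := by exact_mod_cast Div277.one_le_tau hδp.ne_zero
      exact this
    have t2 : (1 : ℝ) ≤ (tau e : ℝ) ^ 4 := one_le_pow₀ (by exact_mod_cast Div277.one_le_tau hep.ne_zero)
    have hL := LJ_nonneg (A := (A : ℝ)) (Z := Z) hK.le hX.le α δ e
    calc nm δ * (nm e * ∑ i ∈ Finset.range I, SS δ i e) ≤
          nm δ * (nm e * LJ A K X Z α δ e) := by
          simp only [hSS]
          gcongr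
      _ ≤ (nm δ * tau δ * (tau e : ℝ) ^ 4) * (nm e * LJ A K X Z α δ e) := by
          refine mul_le_mul_of_nonneg_right ?_ (by positivity)
          have h3 : (0 : ℝ) ≤ nm δ := Nat.cast_nonneg _
          calc (nm δ : ℝ) = nm δ * 1 * 1 := by ring
            _ ≤ nm δ * tau δ * (tau e : ℝ) ^ 4 := by gcongr
  refine (Finset.sum_le_sum fun δ hδ => Finset.sum_le_sum fun e he => hfin δ hδ e he).trans ?_
  unfold EHu320.EHc
  rw [Finset.mul_sum]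
  simp_rw [Finset.mul_sum]
  have hnn : ∀ δ e : Eis, 0 ≤ θ * (K / X) * ((nm δ * tau δ * (tau e : ℝ) ^ 4) *
      (nm e * LJ A K X Z α δ e)) := fun δ e => by
    have hL := LJ_nonneg (A := (A : ℝ)) (Z := Z) hK.le hX.le α δ e
    positivity
  refine (Finset.sum_le_sum_of_subset_of_nonneg (fun δ hδ => (Finset.mem_filter.mp hδ).2)
    fun δ _ _ => Finset.sum_nonneg fun e _ => hnn δ e).trans ?_
  refine Finset.sum_le_sum fun δ _ => Finset.sum_le_sum_of_subset_of_nonneg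
    (fun e he => ?_) fun e _ _ => hnn δ e
  simp only [Finset.mem_filter] at he ⊢
  exact ⟨he.2, he.1⟩


/-- **the T-sums through `EHc`** -/
theorem T_le_EHc (R : ℝ) (hR : 0 ≤ R) (A : ℕ) (hA : 2 ≤ A) : ∃ C : ℝ, 0 ≤ C ∧
    ∀ (Y X K D Y₀ Z : ℝ), 1 ≤ Y → 0 < X → 0 < K → ∀ (c : ℕ → ℝ) (Q : Eis → Prop), (∀ n, 0 ≤ c n) →
    ∀ α : Eis → ℂ, Adm Y X R α →
      K ^ (2 / 3 : ℝ) * ∑ x ∈ JW D Y₀ Z, n13 x.2 * ∑ e ∈ (S Y).filter Q,
        (c (nm e) * (tau e : ℝ) ^ 4) * ‖TE α x e‖ ^ 2 ≤ C * (K / X) * EHc c Q A K X Y Z α := by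
  obtain ⟨C₀, hC₀, hTE⟩ := norm_TE_sq_le R hR A hA
  refine ⟨C₀, hC₀, fun Y X K D Y₀ Z hY hX hK c Q hc α hα => ?_⟩
  have hY0 : 0 ≤ Y := by linarith
  set J := JW D Y₀ Z with hJ
  set f : Eis → Eis → Eis → ℝ := fun δ j e =>
    (nm δ * tau δ * (tau e : ℝ) ^ 4) * (c (nm e) * (lm K X δ j * Wf A α δ j e)) with hf
  have hf0 : ∀ δ j e, 0 ≤ f δ j e := fun δ j e => mul_nonneg (by positivity)
    (mul_nonneg (hc _) (mul_nonneg (lm_nonneg hK.le hX.le _ _)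
      (Wf_nonneg _ _ _ _ _)))
  have hpt : ∀ x ∈ J, K ^ (2 / 3 : ℝ) * (n13 x.2 * ∑ e ∈ (S Y).filter Q,
      (c (nm e) * (tau e : ℝ) ^ 4) * ‖TE α x e‖ ^ 2) ≤
      if x.1 ∈ S Y then C₀ * (K / X) * ∑ e ∈ (S Y).filter Q, f x.1 x.2 e else 0 := by
    intro x hx
    have hx' := hx
    rw [hJ] at hx'
    unfold JW at hx'
    rw [Finset.mem_filter, Finset.mem_product, mem_primBall] at hx'
    obtain ⟨⟨⟨-, hδ⟩, -⟩, -, hjc, -, -⟩ := hx'
    have hδn := nmpos hδ.ne_zero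
    have hj0 := (E5b54.JC_cf hjc).1
    have hjn := nmpos hj0
    by_cases hS : x.1 ∈ S Y
    · rw [if_pos hS, Finset.mul_sum, Finset.mul_sum, Finset.mul_sum]
      refine Finset.sum_le_sum fun e he => ?_
      have hep := ((mem_S hY0).1 (Finset.mem_filter.mp he).1).2.1
      have h1 := hTE Y X hY0 hX α hα x.1 x.2 e hδ hep
      have hW := Wf_nonneg (A : ℝ) α x.1 x.2 e
      have hce := hc (nm e)
      have hXδ : 0 < X / nm x.1 := by positivity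
      have e0 : K ^ (2 / 3 : ℝ) * n13 x.2 * (X / nm x.1) ^ (-(1 / 3) : ℝ) =
          (K / X) * (nm x.1 * lm K X x.1 x.2) / 3 := by
        unfold lm X6C180.n13
        have a1 : (K * nm x.2) ^ (-(1 / 3) : ℝ) = K ^ (2 / 3 : ℝ) / K *
            (nm x.2 : ℝ) ^ (-(1 : ℝ) / 3) := by
          rw [Real.mul_rpow hK.le hjn.le]
          have b1 : K ^ (-(1 / 3) : ℝ) = K ^ (2 / 3 : ℝ) / K := by
            rw [show (-(1 / 3) : ℝ) = 2 / 3 - 1 by norm_num, Real.rpow_sub hK, Real.rpow_one]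
          rw [b1]
          congr 2
          norm_num
        have a2 : (X / nm x.1) ^ (-(1 / 3) : ℝ) = (X / nm x.1) ^ (2 / 3 : ℝ) / (X / nm x.1) := by
          rw [show (-(1 / 3) : ℝ) = 2 / 3 - 1 by norm_num, Real.rpow_sub hXδ, Real.rpow_one]
        rw [a1, a2]
        field_simp
      have t1 : (1 : ℝ) ≤ tau x.1 := by exact_mod_cast Div277.one_le_tau hδ.ne_zero
      have hl := lm_nonneg hK.le hX.le x.1 x.2
      have hn3 := X6C180.n13_nonneg x.2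
      calc K ^ (2 / 3 : ℝ) * (n13 x.2 * ((c (nm e) * (tau e : ℝ) ^ 4) * ‖TE α x e‖ ^ 2)) ≤
            K ^ (2 / 3 : ℝ) * (n13 x.2 * ((c (nm e) * (tau e : ℝ) ^ 4) *
              (C₀ * (X / nm x.1) ^ (-(1 / 3) : ℝ) * Wf A α x.1 x.2 e))) := by
            have e1 : x = (x.1, x.2) := rfl
            rw [e1]
            gcongr
        _ = C₀ * (K ^ (2 / 3 : ℝ) * n13 x.2 * (X / nm x.1) ^ (-(1 / 3) : ℝ)) *
            ((c (nm e) * (tau e : ℝ) ^ 4) * Wf A α x.1 x.2 e) := by ring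
        _ = C₀ * (K / X) * ((nm x.1 * 1 * (tau e : ℝ) ^ 4) *
            (c (nm e) * (lm K X x.1 x.2 * Wf A α x.1 x.2 e))) / 3 := by rw [e0]; ring
        _ ≤ C₀ * (K / X) * ((nm x.1 * tau x.1 * (tau e : ℝ) ^ 4) *
            (c (nm e) * (lm K X x.1 x.2 * Wf A α x.1 x.2 e))) / 3 := by gcongr
        _ ≤ C₀ * (K / X) * f x.1 x.2 e := by
            have := hf0 x.1 x.2 e
            simp only [hf] at this ⊢
            have h5 : 0 ≤ C₀ * (K / X) * ((nm x.1 * tau x.1 * (tau e : ℝ) ^ 4) *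
              (c (nm e) * (lm K X x.1 x.2 * Wf A α x.1 x.2 e))) := by positivity
            linarith
    · rw [if_neg hS]
      refine le_of_eq ?_
      have : ∀ e ∈ (S Y).filter Q, (c (nm e) * (tau e : ℝ) ^ 4) * ‖TE α x e‖ ^ 2 = 0 := by
        intro e _
        have : TE α x e = 0 := TE_zero_of_not hY0 hα.sup hδ hS x.2 e
        rw [this]; simp
      rw [Finset.sum_congr rfl this]; simp
  rw [Finset.mul_sum]
  refine (Finset.sum_le_sum hpt).trans ?_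
  rw [← Finset.sum_filter, ← Finset.mul_sum]
  refine mul_le_mul_of_nonneg_left ?_ (by positivity)
  -- regroup by `δ`
  unfold EHu320.EHc
  have h1 : ∀ δ ∈ S Y, ∑ x ∈ (J.filter (fun x => x.1 ∈ S Y)).filter (fun x => x.1 = δ),
      ∑ e ∈ (S Y).filter Q, f x.1 x.2 e ≤ ∑ e ∈ (S Y).filter Q,
        (nm δ * tau δ * (tau e : ℝ) ^ 4) * (c (nm e) * LJ A K X Z α δ e) := by
    intro δ hδ
    have hδp := ((mem_S hY0).1 hδ).2.1
    have hδn := nmpos hδp.ne_zero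
    rw [Finset.sum_comm]
    refine Finset.sum_le_sum fun e _ => ?_
    set T := (J.filter (fun x => x.1 ∈ S Y)).filter (fun x => x.1 = δ) with hT
    have hinj : Set.InjOn (fun x : Eis × Eis => x.2) (T : Set (Eis × Eis)) := by
      intro x hx y hy hxy
      have hx' := (Finset.mem_filter.mp hx).2
      have hy' := (Finset.mem_filter.mp hy).2
      exact Prod.ext (hx'.trans hy'.symm) hxy
    have e1 : ∑ x ∈ T, f x.1 x.2 e = ∑ j ∈ T.image (fun x => x.2), f δ j e := by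
      rw [Finset.sum_image hinj]
      refine Finset.sum_congr rfl fun x hx => ?_
      rw [(Finset.mem_filter.mp hx).2]
    rw [e1]
    have e2 : (nm δ * tau δ * (tau e : ℝ) ^ 4) * (c (nm e) * LJ A K X Z α δ e) =
        ∑ j ∈ BF (Z / (nm δ : ℝ) ^ 2), f δ j e := by
      unfold LJ
      rw [Finset.mul_sum, Finset.mul_sum]
    rw [e2]
    refine Finset.sum_le_sum_of_subset_of_nonneg ?_ fun j _ _ => hf0 _ _ _
    intro j hj
    obtain ⟨x, hx, rfl⟩ := Finset.mem_image.mp hj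
    have hx1 := Finset.mem_filter.mp hx
    have hx2 := (Finset.mem_filter.mp hx1.1).1
    rw [hJ] at hx2
    unfold JW at hx2
    rw [Finset.mem_filter] at hx2
    obtain ⟨-, -, h3, -, h4⟩ := hx2
    rw [mem_BF]
    refine ⟨E5b54.JC_cf h3, ?_⟩
    rw [le_div_iff₀ (by positivity)]
    rw [hx1.2, nm_mul, nm_pow] at h4
    exact_mod_cast h4
  rw [← Finset.sum_fiberwise_of_maps_to (s := J.filter (fun x => x.1 ∈ S Y)) (t := S Y)
    (g := fun x => x.1) (fun x hx => (Finset.mem_filter.mp hx).2)]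
  exact Finset.sum_le_sum h1

lemma TE_zero_e {Y : ℝ} (hY : 0 ≤ Y) {α : Eis → ℂ} (hα : ∀ n, α n ≠ 0 → n ∈ S Y) {e : Eis}
    (he : IsPrim e) (hn : e ∉ S Y) (x : Eis × Eis) : TE α x e = 0 := by
  unfold E2440.TE
  refine (tsum_congr fun k => ?_).trans tsum_zero
  show (if e ∣ k ∧ IsCoprime x.2 (x.1 * k) then α (x.1 * k) * ((n6 k : ℂ) * Gh x.2 k) else 0) = 0
  split_ifs with h
  · have : α (x.1 * k) = 0 := by
      by_contra h0
      exact hn (Dual2813.S_of_dvd hY (hα _ h0) he (h.1.trans (dvd_mul_left k x.1)))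
    rw [this]; simp
  · rfl

lemma prim_of_S {E0 : ℝ} {e : Eis} (he : e ∈ S E0) : IsPrim e := by
  unfold LS2.S at he
  rw [Finset.mem_filter, mem_primBall] at he
  exact he.1.2

lemma TF_aux {Y E0 s : ℝ} (hY0 : 0 ≤ Y) {α : Eis → ℂ} (hα : ∀ n, α n ≠ 0 → n ∈ S Y)
    (Q : Eis → Prop) (hQ : ∀ e, Q e ↔ e ∈ S E0) (x : Eis × Eis) :
    ∑ e ∈ S E0, (nm e : ℝ) ^ s * ‖E3M829.Tal α x.1 e x.2‖ ^ 2 ≤
      ∑ e ∈ (S Y).filter Q, ((nm e : ℝ) ^ s * (tau e : ℝ) ^ 4) * ‖TE α x e‖ ^ 2 := by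
  have e1 : ∑ e ∈ S E0, (nm e : ℝ) ^ s * ‖E3M829.Tal α x.1 e x.2‖ ^ 2 =
      ∑ e ∈ (S E0).filter (fun e => e ∈ S Y), (nm e : ℝ) ^ s * ‖TE α x e‖ ^ 2 := by
    rw [Finset.sum_filter]
    refine Finset.sum_congr rfl fun e he => ?_
    split_ifs with h
    · rfl
    · have : E3M829.Tal α x.1 e x.2 = TE α x e := rfl
      rw [this, TE_zero_e hY0 hα (prim_of_S he) h x]; simp
  rw [e1]
  have e2 : (S E0).filter (fun e => e ∈ S Y) = (S Y).filter Q := by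
    ext e
    simp only [Finset.mem_filter, hQ]
    tauto
  rw [e2]
  refine Finset.sum_le_sum fun e he => ?_
  have t2 : (1 : ℝ) ≤ (tau e : ℝ) ^ 4 := one_le_pow₀ (by
    exact_mod_cast Div277.one_le_tau (prim_of_S (Finset.mem_filter.mp he).1).ne_zero)
  refine mul_le_mul_of_nonneg_right ?_ (by positivity)
  exact le_mul_of_one_le_right (by positivity) t2

/-- 829's `TF`, with the condition as a variable -/
theorem TF_leQ (R : ℝ) (hR : 0 ≤ R) (A : ℕ) (hA : 2 ≤ A) : ∃ C : ℝ, 0 ≤ C ∧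
    ∀ (Y X K D Y₀ Z E0 : ℝ), 1 ≤ Y → 0 < X → 0 < K → ∀ (s : ℝ) (om : Eis × Eis → ℂ),
    (∀ x, ‖om x‖ ≤ 1) → ∀ (Q : Eis → Prop), (∀ e, Q e ↔ e ∈ S E0) →
    ∀ (c : ℕ → ℝ), (∀ n, c n = (n : ℝ) ^ s) → ∀ α : Eis → ℂ, Adm Y X R α →
      K ^ (2 / 3 : ℝ) * E3M829.TF s (JW D Y₀ Z) om E0 (E3M829.Tal α) ≤
        C * (K / X) * EHc c Q A K X Y Z α := by
  obtain ⟨C, hC, H⟩ := T_le_EHc R hR A hA
  refine ⟨C, hC, fun Y X K D Y₀ Z E0 hY hX hK s om hom Q hQ c hc α hα => ?_⟩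
  have hY0 : 0 ≤ Y := by linarith
  have h0 := H Y X K D Y₀ Z hY hX hK c Q (fun n => by rw [hc]; positivity) α hα
  refine le_trans (mul_le_mul_of_nonneg_left ?_ (by positivity)) h0
  unfold E3M829.TF
  refine Finset.sum_le_sum fun x _ => ?_
  have h1 := TF_aux (s := s) hY0 hα.sup Q hQ x
  have h2 : ‖om x‖ ^ 2 ≤ 1 := pow_le_one₀ (norm_nonneg _) (hom x)
  have h3 : (nm x.2 : ℝ) ^ (-(1 : ℝ) / 3) = n13 x.2 := rfl
  rw [h3]
  have hn := X6C180.n13_nonneg x.2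
  have h4 : ∑ e ∈ (S Y).filter Q, (c (nm e) * (tau e : ℝ) ^ 4) * ‖TE α x e‖ ^ 2 =
      ∑ e ∈ (S Y).filter Q, ((nm e : ℝ) ^ s * (tau e : ℝ) ^ 4) * ‖TE α x e‖ ^ 2 :=
    Finset.sum_congr rfl fun e _ => by rw [hc]
  rw [h4]
  set U := ∑ e ∈ S E0, (nm e : ℝ) ^ s * ‖E3M829.Tal α x.1 e x.2‖ ^ 2 with hU
  set V := ∑ e ∈ (S Y).filter Q, ((nm e : ℝ) ^ s * (tau e : ℝ) ^ 4) * ‖TE α x e‖ ^ 2 with hV
  have hU0 : 0 ≤ U := Finset.sum_nonneg fun _ _ => by positivity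
  calc ‖om x‖ ^ 2 * (n13 x.2 * U) ≤ 1 * (n13 x.2 * U) :=
        mul_le_mul_of_nonneg_right h2 (mul_nonneg hn hU0)
    _ = n13 x.2 * U := one_mul _
    _ ≤ n13 x.2 * V := mul_le_mul_of_nonneg_left h1 hn

/-- 829's `TF` -/
theorem TF_le (R : ℝ) (hR : 0 ≤ R) (A : ℕ) (hA : 2 ≤ A) : ∃ C : ℝ, 0 ≤ C ∧
    ∀ (Y X K D Y₀ Z E0 : ℝ), 1 ≤ Y → 0 < X → 0 < K → ∀ (s : ℝ) (om : Eis × Eis → ℂ),
    (∀ x, ‖om x‖ ≤ 1) → ∀ α : Eis → ℂ, Adm Y X R α →
      K ^ (2 / 3 : ℝ) * E3M829.TF s (JW D Y₀ Z) om E0 (E3M829.Tal α) ≤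
        C * (K / X) * EHc (fun n => (n : ℝ) ^ s) (fun e => e ∈ S E0) A K X Y Z α := by
  obtain ⟨C, hC, H⟩ := TF_leQ R hR A hA
  exact ⟨C, hC, fun Y X K D Y₀ Z E0 hY hX hK s om hom α hα =>
    H Y X K D Y₀ Z E0 hY hX hK s om hom _ (fun _ => Iff.rfl) _ (fun _ => rfl) α hα⟩

/-- the full moment with the weight `1/nm e` and its tail -/
theorem M2_le (R : ℝ) (hR : 0 ≤ R) (A : ℕ) (hA : 2 ≤ A) : ∃ C : ℝ, 0 ≤ C ∧
    ∀ (Y X K D Y₀ Z : ℝ), 1 ≤ Y → 0 < X → 0 < K → ∀ (Q : Eis → Prop),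
    ∀ α : Eis → ℂ, Adm Y X R α →
      K ^ (2 / 3 : ℝ) * ∑ x ∈ JW D Y₀ Z, n13 x.2 * ∑ e ∈ (S Y).filter Q,
        (tau e : ℝ) / nm e * ‖TE α x e‖ ^ 2 ≤
        C * (K / X) * EHc (fun n => ((n : ℝ))⁻¹) Q A K X Y Z α := by
  obtain ⟨C, hC, H⟩ := T_le_EHc R hR A hA
  refine ⟨C, hC, fun Y X K D Y₀ Z hY hX hK Q α hα => ?_⟩
  have hY0 : 0 ≤ Y := by linarith
  refine le_trans ?_ (H Y X K D Y₀ Z hY hX hK (fun n => ((n : ℝ))⁻¹) Q
    (fun n => by positivity) α hα)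
  refine mul_le_mul_of_nonneg_left ?_ (by positivity)
  refine Finset.sum_le_sum fun x _ => ?_
  refine mul_le_mul_of_nonneg_left ?_ (X6C180.n13_nonneg x.2)
  refine Finset.sum_le_sum fun e he => ?_
  have hep := ((mem_S hY0).1 (Finset.mem_filter.mp he).1).2.1
  have hen := nmpos hep.ne_zero
  have t1 : (1 : ℝ) ≤ tau e := by exact_mod_cast Div277.one_le_tau hep.ne_zero
  refine mul_le_mul_of_nonneg_right ?_ (by positivity)
  rw [div_eq_inv_mul]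
  refine mul_le_mul_of_nonneg_left ?_ (by positivity)
  calc (tau e : ℝ) = (tau e : ℝ) ^ 1 := (pow_one _).symm
    _ ≤ (tau e : ℝ) ^ 4 := pow_le_pow_right₀ t1 (by norm_num)

open Crest.Agent.R017.I1146 (M2t M2o Dfw Df De M2t_nonneg M2o_nonneg)

/-- the defect of 146's smooth comb -/
theorem Dfw_leQ (R : ℝ) (hR : 0 ≤ R) (A : ℕ) (hA : 2 ≤ A) : ∃ C : ℝ, 0 ≤ C ∧
    ∀ (Y X K D Y₀ Z E0 lam : ℝ), 1 ≤ Y → 0 < X → 0 < K → 0 < lam → ∀ (Om : ℕ → ℝ),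
    (∀ n, 0 ≤ Om n) → (∀ n, Om n ≤ 1) → ∀ (Q : Eis → Prop), (∀ e, Q e ↔ e ∉ S E0) →
    ∀ (c : ℕ → ℝ), (∀ n, c n = ((n : ℝ))⁻¹) → ∀ α : Eis → ℂ, Adm Y X R α →
      K ^ (2 / 3 : ℝ) * Dfw Y E0 (JW D Y₀ Z) Om lam α ≤
        C * (K / X) * (lam * EHc c (fun _ => True) A K X Y Z α +
          (lam⁻¹ + 1) * EHc c Q A K X Y Z α) := by
  obtain ⟨C, hC, H⟩ := M2_le R hR A hA
  refine ⟨C, hC, fun Y X K D Y₀ Z E0 lam hY hX hK hl Om h0 h1 Q hQ c hc α hα => ?_⟩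
  have hc' : c = fun n : ℕ => ((n : ℝ))⁻¹ := funext hc
  have a1 : K ^ (2 / 3 : ℝ) * ∑ x ∈ JW D Y₀ Z, n13 x.2 * M2t Y α x ≤
      C * (K / X) * EHc c (fun _ => True) A K X Y Z α := by
    rw [hc']
    refine le_trans (le_of_eq ?_) (H Y X K D Y₀ Z hY hX hK (fun _ => True) α hα)
    congr 1
    refine Finset.sum_congr rfl fun x _ => ?_
    unfold I1146.M2t
    rw [Finset.filter_true]
  have a2 : K ^ (2 / 3 : ℝ) * ∑ x ∈ JW D Y₀ Z, n13 x.2 * M2o Y E0 α x ≤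
      C * (K / X) * EHc c Q A K X Y Z α := by
    rw [hc']
    refine le_trans (le_of_eq ?_) (H Y X K D Y₀ Z hY hX hK Q α hα)
    congr 1
    refine Finset.sum_congr rfl fun x _ => ?_
    unfold I1146.M2o
    congr 1
    refine Finset.sum_congr ?_ fun _ _ => rfl
    ext e
    simp only [Finset.mem_filter, hQ]
  have hli : 0 < lam⁻¹ := inv_pos.mpr hl
  have h3 : Dfw Y E0 (JW D Y₀ Z) Om lam α ≤
      lam * ∑ x ∈ JW D Y₀ Z, n13 x.2 * M2t Y α x +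
      (lam⁻¹ + 1) * ∑ x ∈ JW D Y₀ Z, n13 x.2 * M2o Y E0 α x := by
    unfold I1146.Dfw
    rw [Finset.mul_sum, Finset.mul_sum, ← Finset.sum_add_distrib]
    refine Finset.sum_le_sum fun x _ => ?_
    have b1 := M2t_nonneg Y α x
    have b2 := M2o_nonneg Y E0 α x
    have b3 := X6C180.n13_nonneg x.2
    set a := Om (nm (x.2 * x.1 ^ 2)) with ha
    have b4 : 0 ≤ a := h0 _
    have b5 : a ≤ 1 := h1 _
    have b6 : a * (1 - a) ≤ 1 := by nlinarith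
    have b7 : a ^ 2 ≤ 1 := by nlinarith
    have b8 : 0 ≤ lam * M2t Y α x + lam⁻¹ * M2o Y E0 α x := by positivity
    have b9 : a * (1 - a) * (lam * M2t Y α x + lam⁻¹ * M2o Y E0 α x) ≤
        lam * M2t Y α x + lam⁻¹ * M2o Y E0 α x := mul_le_of_le_one_left b8 b6
    have b10 : a ^ 2 * M2o Y E0 α x ≤ M2o Y E0 α x := mul_le_of_le_one_left b2 b7
    calc n13 x.2 * (a * (1 - a) * (lam * M2t Y α x + lam⁻¹ * M2o Y E0 α x) +
          a ^ 2 * M2o Y E0 α x) ≤ n13 x.2 * (lam * M2t Y α x + (lam⁻¹ + 1) * M2o Y E0 α x) := by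
          refine mul_le_mul_of_nonneg_left ?_ b3
          linarith
      _ = _ := by ring
  calc K ^ (2 / 3 : ℝ) * Dfw Y E0 (JW D Y₀ Z) Om lam α ≤ K ^ (2 / 3 : ℝ) *
        (lam * ∑ x ∈ JW D Y₀ Z, n13 x.2 * M2t Y α x +
        (lam⁻¹ + 1) * ∑ x ∈ JW D Y₀ Z, n13 x.2 * M2o Y E0 α x) := by gcongr
    _ = lam * (K ^ (2 / 3 : ℝ) * ∑ x ∈ JW D Y₀ Z, n13 x.2 * M2t Y α x) +
        (lam⁻¹ + 1) * (K ^ (2 / 3 : ℝ) * ∑ x ∈ JW D Y₀ Z, n13 x.2 * M2o Y E0 α x) := by ring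
    _ ≤ lam * (C * (K / X) * EHc c (fun _ => True) A K X Y Z α) +
        (lam⁻¹ + 1) * (C * (K / X) *
          EHc c Q A K X Y Z α) := by gcongr
    _ = _ := by ring

/-- the defect of 146's smooth comb -/
theorem Dfw_le (R : ℝ) (hR : 0 ≤ R) (A : ℕ) (hA : 2 ≤ A) : ∃ C : ℝ, 0 ≤ C ∧
    ∀ (Y X K D Y₀ Z E0 lam : ℝ), 1 ≤ Y → 0 < X → 0 < K → 0 < lam → ∀ (Om : ℕ → ℝ),
    (∀ n, 0 ≤ Om n) → (∀ n, Om n ≤ 1) → ∀ α : Eis → ℂ, Adm Y X R α →
      K ^ (2 / 3 : ℝ) * Dfw Y E0 (JW D Y₀ Z) Om lam α ≤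
        C * (K / X) * (lam * EHc (fun n => ((n : ℝ))⁻¹) (fun _ => True) A K X Y Z α +
          (lam⁻¹ + 1) * EHc (fun n => ((n : ℝ))⁻¹) (fun e => e ∉ S E0) A K X Y Z α) := by
  obtain ⟨C, hC, H⟩ := Dfw_leQ R hR A hA
  exact ⟨C, hC, fun Y X K D Y₀ Z E0 lam hY hX hK hl Om h0 h1 α hα =>
    H Y X K D Y₀ Z E0 lam hY hX hK hl Om h0 h1 _ (fun _ => Iff.rfl) _ (fun _ => rfl) α hα⟩

end Crest.Agent.R017.LBx48
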