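import Crest.Agent.R017.LBd_48
import Crest.Agent.R017.E2x_440

/-!
# Row 17, C.REMg, (LB), part e (helper48): the cross form against an arbitrary `T`-vector

* `crossT` : the error of `E2finG` is `≤ θ K^(2/3) TF 1 T' + θ⁻¹ REb α'` (all independent)
* `mainT` : the main term of `E2finG` through second moments
* `CrT` : both together
-/

set_option autoImplicit false

noncomputable section

open Complex MeasureTheory
open scoped ComplexConjugate Classical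

namespace Crest.Agent.R017.LBx48

open Crest.Agent.R012 Crest.Agent.R012.Eis Crest.Agent.R012.MC
open Crest.Agent.R012.LS2 (S mem_S)
open Crest.Agent.R012.Mob705 (pdiv kap0 mu PE)
open Crest.Agent.R012.Div277 (tau)
open Crest.Agent.R017.PX764 (Gh n6 th)
open Crest.Agent.R017.X6C180 (n13 cM)
open Crest.Agent.R017.CM106 (CS TG FS)
open Crest.Agent.R017.E1551 hiding tau Dg
open Crest.Agent.R017.C70 (JW JC OKJ okJ_JW)
open Crest.Agent.R017.E2440 (TE UE MX Jb Qs QsG ApM AX prs C4 StE StT TOK E2finG cM_nn)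
open Crest.Agent.R017.I1146 (M2t)
open Crest.Agent.R017.E3M829 (TF)
open Crest.Agent.R017.DgA829 (lc)
open Crest.Agent.R017.DgB829 (HS HS_nonneg lcm_bilinear)

lemma lt_two_pow_block {V m : ℝ} (hV : 0 ≤ V) (I : ℕ) {f : ℝ} (hf : 0 ≤ f) :
    ∑ i ∈ Finset.range I, (if V / 2 ^ i / 2 < m ∧ m ≤ V / 2 ^ i then f else 0) ≤ f := by
  by_cases hex : ∃ i ∈ Finset.range I, V / 2 ^ i / 2 < m ∧ m ≤ V / 2 ^ i
  · obtain ⟨i, hi, h3, h4⟩ := hex
    rw [Finset.sum_eq_single_of_mem i hi, if_pos ⟨h3, h4⟩]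
    intro i' _ hne
    rw [if_neg]
    rintro ⟨h5, h6⟩
    have key : ∀ a b : ℕ, a < b → V / 2 ^ b ≤ V / 2 ^ a / 2 := by
      intro a b hab
      rw [div_div, ← pow_succ]
      exact div_le_div_of_nonneg_left hV (by positivity)
        (pow_le_pow_right₀ (by norm_num) hab)
    rcases lt_or_gt_of_ne hne with h7 | h7
    · have := key _ _ h7; linarith
    · have := key _ _ h7; linarith
  · push Not at hex
    rw [Finset.sum_eq_zero fun i hi => if_neg (fun h => absurd h.2 (not_le.mpr (hex i hi h.1)))]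
    exact hf

/-- the blocks of `J` are disjoint -/
lemma sum_blk {J : Finset (Eis × Eis)} (Ds : Finset Eis) {V : ℝ} (hV : 0 ≤ V) (I : ℕ)
    {f : Eis × Eis → ℝ} (hf : ∀ x, 0 ≤ f x) :
    ∑ δ ∈ Ds, ∑ i ∈ Finset.range I, ∑ x ∈ Jb J δ (V / 2 ^ i), f x ≤ ∑ x ∈ J, f x := by
  have h1 : ∀ δ ∈ Ds, ∀ i ∈ Finset.range I, ∑ x ∈ Jb J δ (V / 2 ^ i), f x =
      ∑ x ∈ J, (if x.1 = δ then (if V / 2 ^ i / 2 < nm x.2 ∧ (nm x.2 : ℝ) ≤ V / 2 ^ i then
        f x else 0) else 0) := by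
    intro δ _ i _
    unfold E2440.Jb
    rw [Finset.sum_filter]
    refine Finset.sum_congr rfl fun x _ => ?_
    by_cases h : x.1 = δ
    · simp only [h, true_and, if_true]
    · rw [if_neg (fun h' => h h'.1), if_neg h]
  rw [Finset.sum_congr rfl fun δ hδ => Finset.sum_congr rfl fun i hi => h1 δ hδ i hi]
  rw [Finset.sum_congr rfl fun δ _ => Finset.sum_comm, Finset.sum_comm]
  refine Finset.sum_le_sum fun x _ => ?_
  have h2 : ∀ δ ∈ Ds, ∑ i ∈ Finset.range I, (if x.1 = δ then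
      (if V / 2 ^ i / 2 < nm x.2 ∧ (nm x.2 : ℝ) ≤ V / 2 ^ i then f x else 0) else 0) ≤
      if x.1 = δ then f x else 0 := by
    intro δ _
    by_cases h : x.1 = δ
    · simp only [h, if_true]
      exact lt_two_pow_block hV I (hf x)
    · simp [h]
  refine (Finset.sum_le_sum h2).trans ?_
  rw [Finset.sum_ite_eq]
  split_ifs
  · exact le_rfl
  · exact hf x

/-- **the cross error for an arbitrary `T'`, an arbitrary sequence `α'` and an arbitrary `K`** -/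
theorem crossT {K θ V Z D Y₀ E0 : ℝ} (hK : 0 < K) (hθ : 0 < θ) (hV : 0 < V) (α' : Eis → ℂ)
    (T' : Eis → Eis → Eis → ℂ) {Ds : Finset Eis} (hDs : ∀ δ ∈ Ds, IsPrim δ ∧ Squarefree δ) (I : ℕ)
    (om : Eis × Eis → ℂ) (F : ℝ → ℂ) :
    ∑ δ ∈ Ds, ∑ i ∈ Finset.range I, ∑ e ∈ S E0,
      Real.sqrt (∑ x ∈ Jb (JW D Y₀ Z) δ (V / 2 ^ i), ‖om x‖ ^ 2 * ‖T' x.1 e x.2‖ ^ 2) *
        R2 α' K F δ e (V / 2 ^ i) ≤
      θ * (K ^ (2 / 3 : ℝ) * TF 1 (JW D Y₀ Z) om E0 T') + θ⁻¹ * REb α' K F Ds I E0 Z V := by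
  set J := JW D Y₀ Z with hJ
  set g : Eis → Eis × Eis → ℝ := fun e x =>
    ‖om x‖ ^ 2 * ((nm x.2 : ℝ) ^ (-(1 : ℝ) / 3) * ((nm e : ℝ) ^ (1 : ℝ) * ‖T' x.1 e x.2‖ ^ 2))
    with hg
  have hg0 : ∀ e x, 0 ≤ g e x := fun e x => by simp only [hg]; positivity
  have hK3 : 0 < K ^ (2 / 3 : ℝ) := by positivity
  have hone : ∀ δ ∈ Ds, ∀ i ∈ Finset.range I, ∀ e ∈ S E0,
      Real.sqrt (∑ x ∈ Jb J δ (V / 2 ^ i), ‖om x‖ ^ 2 * ‖T' x.1 e x.2‖ ^ 2) *
        R2 α' K F δ e (V / 2 ^ i) ≤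
      θ * K ^ (2 / 3 : ℝ) * ∑ x ∈ Jb J δ (V / 2 ^ i), g e x +
      (if (nm δ : ℝ) ^ 2 * (V / 2 ^ i) < 2 * Z then
        θ⁻¹ * ((K ^ (-(2 / 3) : ℝ) * (V / 2 ^ i) ^ (1 / 3 : ℝ) / nm e) *
          R2 α' K F δ e (V / 2 ^ i) ^ 2) else 0) := by
    intro δ hδ i hi e he
    have hen := nmpos (prim_of_S he).ne_zero
    by_cases hn : (nm δ : ℝ) ^ 2 * (V / 2 ^ i) < 2 * Z
    swap
    · rw [hJ, Jb_empty (hDs δ hδ).1 (not_lt.mp hn), Finset.sum_empty, Finset.sum_empty,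
        Real.sqrt_zero, zero_mul, mul_zero, if_neg hn, add_zero]
    rw [if_pos hn]
    have hVi : 0 < V / 2 ^ i := by positivity
    set W := V / 2 ^ i with hW
    set r := R2 α' K F δ e W with hr
    set t := ∑ x ∈ Jb J δ W, ‖om x‖ ^ 2 * ‖T' x.1 e x.2‖ ^ 2 with ht
    have ht0 : 0 ≤ t := Finset.sum_nonneg fun _ _ => by positivity
    have hW3 : 0 < W ^ (-(1 / 3) : ℝ) := by positivity
    set ω := 2 * θ * nm e * K ^ (2 / 3 : ℝ) * W ^ (-(1 / 3) : ℝ) with hω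
    have hω0 : 0 < ω := by positivity
    refine (sqrt_mul_le (r := r) ht0 hω0).trans ?_
    have a1 : ω * t / 2 ≤ θ * K ^ (2 / 3 : ℝ) * ∑ x ∈ Jb J δ W, g e x := by
      have e1 : ω * t / 2 = θ * K ^ (2 / 3 : ℝ) * (W ^ (-(1 / 3) : ℝ) * nm e * t) := by
        rw [hω]; ring
      rw [e1]
      refine mul_le_mul_of_nonneg_left ?_ (by positivity)
      rw [ht, Finset.mul_sum]
      refine Finset.sum_le_sum fun x hx => ?_
      unfold E2440.Jb at hx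
      rw [Finset.mem_filter] at hx
      obtain ⟨hx1, hx2, hx3, hx4⟩ := hx
      have hxn : (0 : ℝ) < nm x.2 := lt_of_le_of_lt (by positivity) hx3
      have h3 : W ^ (-(1 / 3) : ℝ) ≤ (nm x.2 : ℝ) ^ (-(1 : ℝ) / 3) := by
        rw [show (-(1 : ℝ) / 3) = (-(1 / 3) : ℝ) by norm_num]
        exact Real.rpow_le_rpow_of_nonpos hxn hx4 (by norm_num)
      simp only [hg]
      rw [Real.rpow_one]
      calc W ^ (-(1 / 3) : ℝ) * nm e * (‖om x‖ ^ 2 * ‖T' x.1 e x.2‖ ^ 2) ≤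
            (nm x.2 : ℝ) ^ (-(1 : ℝ) / 3) * nm e * (‖om x‖ ^ 2 * ‖T' x.1 e x.2‖ ^ 2) := by
            gcongr
        _ = _ := by ring
    have a2 : r ^ 2 / ω / 2 ≤ θ⁻¹ * ((K ^ (-(2 / 3) : ℝ) * W ^ (1 / 3 : ℝ) / nm e) * r ^ 2) := by
      have e1 : K ^ (-(2 / 3) : ℝ) = (K ^ (2 / 3 : ℝ))⁻¹ := by
        rw [Real.rpow_neg hK.le]
      have e2 : W ^ (-(1 / 3) : ℝ) = (W ^ (1 / 3 : ℝ))⁻¹ := by
        rw [Real.rpow_neg hVi.le]
      have hW4 : 0 < W ^ (1 / 3 : ℝ) := by positivity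
      have e3 : r ^ 2 / ω / 2 = 1 / 4 * (θ⁻¹ * ((K ^ (-(2 / 3) : ℝ) * W ^ (1 / 3 : ℝ) / nm e) *
          r ^ 2)) := by
        rw [hω, e1, e2]
        field_simp
        ring
      rw [e3]
      have : 0 ≤ θ⁻¹ * ((K ^ (-(2 / 3) : ℝ) * W ^ (1 / 3 : ℝ) / nm e) * r ^ 2) := by
        have : 0 < θ⁻¹ := inv_pos.mpr hθ
        positivity
      linarith
    rw [add_div]
    exact add_le_add a1 a2
  refine (Finset.sum_le_sum fun δ hδ => Finset.sum_le_sum fun i hi =>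
    Finset.sum_le_sum fun e he => hone δ hδ i hi e he).trans ?_
  simp_rw [Finset.sum_add_distrib]
  refine add_le_add ?_ (le_of_eq ?_)
  · have e1 : ∀ δ ∈ Ds, ∀ i ∈ Finset.range I, ∑ e ∈ S E0, θ * K ^ (2 / 3 : ℝ) *
        ∑ x ∈ Jb J δ (V / 2 ^ i), g e x = θ * K ^ (2 / 3 : ℝ) *
          ∑ x ∈ Jb J δ (V / 2 ^ i), ∑ e ∈ S E0, g e x := by
      intro δ _ i _
      rw [← Finset.mul_sum, Finset.sum_comm]
    rw [Finset.sum_congr rfl fun δ hδ => Finset.sum_congr rfl fun i hi => e1 δ hδ i hi]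
    simp_rw [← Finset.mul_sum]
    rw [← mul_assoc]
    refine mul_le_mul_of_nonneg_left ?_ (by positivity)
    refine (sum_blk Ds hV.le I (f := fun x => ∑ e ∈ S E0, g e x)
      fun x => Finset.sum_nonneg fun e _ => hg0 e x).trans (le_of_eq ?_)
    unfold E3M829.TF
    refine Finset.sum_congr rfl fun x _ => ?_
    simp only [hg]
    rw [Finset.mul_sum, Finset.mul_sum]
  · unfold REb neb
    simp_rw [Finset.mul_sum, Finset.sum_filter]
    refine Finset.sum_congr rfl fun δ _ => Finset.sum_congr rfl fun i _ => ?_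
    split_ifs
    · rfl
    · exact Finset.sum_const_zero

/-- one class of the main term -/
lemma mainT_one {α' : Eis → ℂ} {Y E0 : ℝ} (hE0 : 0 ≤ E0) (hEY : E0 ≤ Y)
    (hα : ∀ n, α' n ≠ 0 → n ∈ S Y) {x : Eis × Eis} (hδ : IsPrim x.1) (hx : IsCoprime x.2 x.1)
    (t : Eis → ℂ) {lam : ℝ} (hl : 0 < lam) :
    ‖∑ e ∈ S E0, (mu e : ℂ) * conj (t e) * (UE α' x e / (nm e : ℂ))‖ ≤
      HS Y * (lam / 2 * ∑ e ∈ S E0, (tau e : ℝ) / nm e * ‖t e‖ ^ 2 +
        lam⁻¹ / 2 * M2t Y α' x) := by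
  have hY : 0 ≤ Y := hE0.trans hEY
  have hsub : S E0 ⊆ S Y := DgB829.S_mono hE0 hEY
  set u : Eis → ℝ := fun e => if e ∈ S E0 then ‖t e‖ else 0 with hu
  have hu0 : ∀ e, 0 ≤ u e := fun e => by simp only [hu]; split_ifs <;> positivity
  have h1 := lcm_bilinear hY u (fun e => ‖TE α' x e‖) hu0 (fun _ => norm_nonneg _) hl
  have h2 : ∑ e ∈ S Y, (tau e : ℝ) / nm e * u e ^ 2 = ∑ e ∈ S E0, (tau e : ℝ) / nm e *
      ‖t e‖ ^ 2 := by
    rw [← Finset.sum_subset hsub]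
    · refine Finset.sum_congr rfl fun e he => ?_
      simp only [hu]
      rw [if_pos he]
    · intro e _ he
      simp only [hu]
      rw [if_neg he]
      ring
  have h3 : ∑ e ∈ S Y, (tau e : ℝ) / nm e * ‖TE α' x e‖ ^ 2 = M2t Y α' x := rfl
  rw [h2, h3] at h1
  refine le_trans ?_ h1
  have h4 : ∑ e ∈ S Y, ∑ e' ∈ S Y, u e * ‖TE α' x e'‖ / nm (lc e e') =
      ∑ e ∈ S E0, ∑ e' ∈ S Y, ‖t e‖ * ‖TE α' x e'‖ / nm (lc e e') := by
    rw [← Finset.sum_subset hsub]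
    · refine Finset.sum_congr rfl fun e he => ?_
      simp only [hu]
      rw [if_pos he]
    · intro e _ he
      refine Finset.sum_eq_zero fun e' _ => ?_
      simp only [hu]
      rw [if_neg he]
      ring
  rw [h4]
  refine (norm_sum_le _ _).trans (Finset.sum_le_sum fun e he => ?_)
  have he' := (mem_S hE0).1 he
  rw [E2440.UE_eq hY hα hδ hx he'.2.1 he'.2.2, norm_mul, norm_mul, RCLike.norm_conj]
  have m1 : ‖(mu e : ℂ)‖ ≤ 1 := by
    rw [Complex.norm_intCast]; exact_mod_cast Mob705.abs_mu_le_one e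
  calc ‖(mu e : ℂ)‖ * ‖t e‖ * ‖∑ s ∈ S Y, (mu s : ℂ) * ((nm (lc e s) : ℝ) : ℂ)⁻¹ *
        DgB829.TT Y (DgB829.aj α' x.1 x.2) s‖ ≤
      1 * ‖t e‖ * ∑ s ∈ S Y, ‖TE α' x s‖ / nm (lc e s) := by
        refine mul_le_mul (mul_le_mul_of_nonneg_right m1 (norm_nonneg _)) ?_ (norm_nonneg _)
          (by positivity)
        refine (norm_sum_le _ _).trans (Finset.sum_le_sum fun s _ => ?_)
        have m2 : ‖(mu s : ℂ)‖ ≤ 1 := by
          rw [Complex.norm_intCast]; exact_mod_cast Mob705.abs_mu_le_one s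
        rw [norm_mul, norm_mul, norm_inv, Complex.norm_real,
          Real.norm_of_nonneg (Nat.cast_nonneg _), ← E2440.TE_eq_TT hY hα hδ s]
        rw [div_eq_inv_mul]
        refine mul_le_mul_of_nonneg_right ?_ (norm_nonneg _)
        exact mul_le_of_le_one_left (by positivity) m2
    _ = ∑ e' ∈ S Y, ‖t e‖ * ‖TE α' x e'‖ / nm (lc e e') := by
        rw [one_mul, Finset.mul_sum]
        refine Finset.sum_congr rfl fun s _ => ?_
        ring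

lemma real_mainT {o c k n P m G H lam Q M : ℝ} (ho : o ≤ 1) (ho0 : 0 ≤ o) (hc : 0 ≤ c)
    (hk : 0 ≤ k) (hn : 0 ≤ n) (hP0 : 0 ≤ P) (hP : P ≤ 1) (hm : 0 ≤ m) (hG : 0 ≤ G) (hH : 0 ≤ H)
    (hl : 0 < lam) (hQ : 0 ≤ Q) (hM : 0 ≤ M) (h : G ≤ H * (lam / 2 * Q + lam⁻¹ / 2 * M)) :
    o * (c * k * n * P * m) * G ≤ c * k * m * (H * (lam * (n * Q) + lam⁻¹ * (n * M))) := by
  have hli : 0 < lam⁻¹ := inv_pos.mpr hl
  have h1 : o * (c * k * n * P * m) ≤ c * k * n * m := by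
    calc o * (c * k * n * P * m) ≤ 1 * (c * k * n * 1 * m) := by gcongr
      _ = _ := by ring
  have h2 : 0 ≤ H * (lam / 2 * Q + lam⁻¹ / 2 * M) := by positivity
  calc o * (c * k * n * P * m) * G ≤ (c * k * n * m) * (H * (lam / 2 * Q + lam⁻¹ / 2 * M)) :=
        mul_le_mul h1 h hG (by positivity)
    _ = (c * k * m * (H * (lam * (n * Q) + lam⁻¹ * (n * M)))) / 2 := by ring
    _ ≤ _ := by
        have h5 : 0 ≤ c * k * m * (H * (lam * (n * Q) + lam⁻¹ * (n * M))) := by positivity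
        linarith

/-- **the main term** -/
theorem mainT {α' : Eis → ℂ} {Y E0 K : ℝ} (hE0 : 0 ≤ E0) (hEY : E0 ≤ Y) (hK : 0 < K)
    (hα : ∀ n, α' n ≠ 0 → n ∈ S Y) {J : Finset (Eis × Eis)} (hJ : OKJ J) {om : Eis × Eis → ℂ}
    (hom : ∀ x, ‖om x‖ ≤ 1) {T' : Eis × Eis → Eis → ℂ} (hT : TOK T') (F : ℝ → ℂ) {lam : ℝ}
    (hl : 0 < lam) :
    ‖∑ x ∈ J, ∑ e ∈ S E0, conj (om x) * ((mu e : ℂ) * conj (T' x e) * MX α' x e F K)‖ ≤
      (cM * K ^ (2 / 3 : ℝ)) * ‖mellin F ((2 / 3 : ℝ) : ℂ)‖ *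
        (HS Y * (lam * ∑ x ∈ J, n13 x.2 * ∑ e ∈ S E0, (tau e : ℝ) / nm e * ‖T' x e‖ ^ 2 +
          lam⁻¹ * ∑ x ∈ J, n13 x.2 * M2t Y α' x)) := by
  have hcM := cM_nn
  have hHS := HS_nonneg Y
  have h1 : ∀ x ∈ J, ‖∑ e ∈ S E0, conj (om x) * ((mu e : ℂ) * conj (T' x e) * MX α' x e F K)‖ ≤
      (cM * K ^ (2 / 3 : ℝ)) * ‖mellin F ((2 / 3 : ℝ) : ℂ)‖ * (HS Y *
        (lam * (n13 x.2 * ∑ e ∈ S E0, (tau e : ℝ) / nm e * ‖T' x e‖ ^ 2) +
          lam⁻¹ * (n13 x.2 * M2t Y α' x))) := by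
    intro x hx
    have hn := X6C180.n13_nonneg x.2
    have hM := I1146.M2t_nonneg Y α' x
    have hQ : 0 ≤ ∑ e ∈ S E0, (tau e : ℝ) / nm e * ‖T' x e‖ ^ 2 :=
      Finset.sum_nonneg fun _ _ => by positivity
    by_cases hc : IsCoprime x.2 x.1
    swap
    · rw [Finset.sum_eq_zero, norm_zero]
      · positivity
      · intro e _
        have : T' x e = 0 := by
          by_contra h
          exact hc (hT x e h).1
        rw [this, map_zero]
        ring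
    have h2 := mainT_one hE0 hEY hα (hJ.prim x hx) hc (T' x) hl
    have e1 : ∑ e ∈ S E0, conj (om x) * ((mu e : ℂ) * conj (T' x e) * MX α' x e F K) =
        conj (om x) * (((cM * K ^ (2 / 3 : ℝ) * n13 x.2 * PE x.1 : ℝ) : ℂ) *
          mellin F ((2 / 3 : ℝ) : ℂ)) *
          ∑ e ∈ S E0, (mu e : ℂ) * conj (T' x e) * (UE α' x e / (nm e : ℂ)) := by
      rw [Finset.mul_sum]
      refine Finset.sum_congr rfl fun e _ => ?_
      unfold E2440.MX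
      push_cast
      ring
    have hP := Mob705.PE_le_one x.1
    have hP0 : 0 ≤ PE x.1 := (Mob705.PE_pos x.1).le
    have hK3 : 0 ≤ K ^ (2 / 3 : ℝ) := by positivity
    have hm0 : 0 ≤ ‖mellin F ((2 / 3 : ℝ) : ℂ)‖ := norm_nonneg _
    rw [e1, norm_mul, norm_mul, norm_mul, RCLike.norm_conj, Complex.norm_real,
      Real.norm_of_nonneg (mul_nonneg (mul_nonneg (mul_nonneg hcM hK3) hn) hP0)]
    set Q := ∑ e ∈ S E0, (tau e : ℝ) / nm e * ‖T' x e‖ ^ 2 with hQdef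
    set M := M2t Y α' x with hMdef
    set G := ‖∑ e ∈ S E0, (mu e : ℂ) * conj (T' x e) * (UE α' x e / (nm e : ℂ))‖ with hG
    set m := ‖mellin F ((2 / 3 : ℝ) : ℂ)‖ with hm
    exact real_mainT (hom x) (norm_nonneg _) hcM hK3 hn hP0 hP hm0 (norm_nonneg _) hHS hl hQ hM h2
  refine (norm_sum_le _ _).trans ((Finset.sum_le_sum h1).trans (le_of_eq ?_))
  rw [← Finset.mul_sum, ← Finset.mul_sum, Finset.sum_add_distrib, ← Finset.mul_sum,
    ← Finset.mul_sum]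

end Crest.Agent.R017.LBx48
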