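import Crest.Agent.R017.LBp_298
import Crest.Agent.R017.LB_702

/-!
# Row 17, (LB): the family theorem (helper298)

`lb_exc` : exceptional part of the B-line for a whole family, any number of lumps.
-/

set_option autoImplicit false

noncomputable section

open Complex Finset
open scoped ComplexConjugate

namespace Crest.Agent.R017.Lbc298

open Crest.Agent.R012 Crest.Agent.R012.Eis Crest.Agent.R012.LS2 Crest.Agent.R012.Char766
open Crest.Agent.R012.Div277 (tau dvs mem_dvs one_le_tau tau_le_of_dvd)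
open Crest.Agent.R017.CM106 Crest.Agent.R017.LV404 Crest.Agent.R017.HP842
open Crest.Agent.R017.End699 (prin0)
open Crest.Agent.R017.LB702 (Dat ms tl ex mem_ex lb_ex)

/-- elementary: the exponent of the power -/
lemma exists_pow {x X K' η : ℝ} (hx : 1 ≤ x) (hX : 1 < X) (hK' : 1 ≤ K') (hXK : X ≤ K' ^ η) :
    ∃ n : ℕ, X ^ n ≤ x ∧ x * K' ^ (-η) ≤ X ^ n := by
  obtain ⟨n, h1, h2⟩ := exists_nat_pow_near hx hX
  refine ⟨n, h1, ?_⟩
  have hX0 : 0 < X := by linarith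
  have hK0 : 0 < K' := by linarith
  have h3 : x ≤ X ^ n * K' ^ η := by
    calc x ≤ X ^ (n + 1) := h2.le
      _ = X ^ n * X := pow_succ X n
      _ ≤ X ^ n * K' ^ η := by gcongr
  have h4 : K' ^ η * K' ^ (-η) = 1 := by
    rw [← Real.rpow_add hK0]; simp
  have h5 : 0 < K' ^ (-η) := Real.rpow_pos_of_pos hK0 _
  calc x * K' ^ (-η) ≤ (X ^ n * K' ^ η) * K' ^ (-η) := by gcongr
    _ = X ^ n * (K' ^ η * K' ^ (-η)) := by ring
    _ = X ^ n := by rw [h4, mul_one]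

lemma n_le {K d1 X : ℝ} {n : ℕ} (hK : 1 < K) (hd : 0 < d1) (hX : K ^ d1 ≤ X)
    (h : X ^ n ≤ K ^ ((4 : ℝ) / 3)) : n ≤ ⌈4 / (3 * d1)⌉₊ := by
  have h1 : K ^ (d1 * n) ≤ K ^ ((4 : ℝ) / 3) := by
    calc K ^ (d1 * n) = (K ^ d1) ^ n := by
          rw [Real.rpow_mul (by linarith), Real.rpow_natCast]
      _ ≤ X ^ n := by gcongr
      _ ≤ _ := h
  have h2 : d1 * n ≤ 4 / 3 := (Real.rpow_le_rpow_left_iff hK).mp h1
  have h3 : (n : ℝ) ≤ 4 / (3 * d1) := by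
    rw [le_div_iff₀ (by positivity)]
    nlinarith
  exact_mod_cast h3.trans (Nat.le_ceil _)

/-- the data of 702's core on one block -/
theorem mk_dat (H : LVProp) {η d1 : ℝ} (hη : 0 < η) (hη1 : η ≤ 1 / 72) (hd : 0 < d1) (r : ℕ) :
    ∃ C1 C2 : ℝ, 1 ≤ C1 ∧ 1 ≤ C2 ∧ ∀ (N : ℕ) (K β S B Y : ℝ) (i j : ℕ) (m : Eis) (y : Eis → ℂ)
      (X : Fin N → ℝ) (p : Fin N → Eis → ℂ) (D : Finset Eis), 1 < K → β ≤ 1 →
      1 ≤ S → 1 ≤ B → 1 ≤ Y → m ≠ 0 → K ^ η ≤ K / (nm m : ℝ) ^ 3 → Cf r Y y →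
      (∀ a, Cf r (X a) (p a)) → (∀ a, K ^ d1 ≤ X a) → (∀ a, X a ≤ K ^ (η ^ 2)) →
      D ⊆ Bk K i j m → (∀ a, ∀ k ∈ D, ‖CS (p a) k‖ ≤ S * X a ^ β) →
      ((K / (nm m : ℝ) ^ 3) ^ ((4 : ℝ) / 3) < Y →
        ∑ k ∈ D, ‖CS y k‖ ^ 2 ≤ B * (K / (nm m : ℝ) ^ 3) * Y) → ∀ Nn : ℕ,
      C2 ^ 2 * K ^ (8 : ℝ) ≤ 2 ^ Nn →
      Dat D Finset.univ (fun k => ‖CS y k‖ / Real.sqrt B) (fun a k => ‖CS (p a) k‖ / S)
        (K / (nm m : ℝ) ^ 3) Y X (C1 * (K / (nm m : ℝ) ^ 3) ^ (4 * η)) η β Nn := by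
  classical
  set n0 := ⌈4 / (3 * d1)⌉₊ with hn0
  obtain ⟨C1, hC1, h1⟩ := count_block H hη (by linarith) ((r + 1) * (n0 + 1))
  obtain ⟨C2, hC2, h2⟩ := Cf_l1 r (ε := 1) one_pos
  refine ⟨C1, C2, hC1, hC2, ?_⟩
  intro N K β S B Y i j m y X p D hK hβ hS hB hY hm hK' hy hp hX1 hX2 hD hsup htf Nn hNn
  set L := K / (nm m : ℝ) ^ 3 with hL
  have hK0 : 0 < K := by linarith
  have hKη : 1 < K ^ η := Real.one_lt_rpow hK hη
  have hL1 : 1 ≤ L := hKη.le.trans hK'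
  have hL0 : 0 < L := by linarith
  have hm3 : (1 : ℝ) ≤ (nm m : ℝ) ^ 3 := one_le_pow₀ (one_le_nm'' hm)
  have hLK : L ≤ K := by rw [hL]; exact div_le_self hK0.le hm3
  have hXone : ∀ a, 1 < X a := fun a => lt_of_lt_of_le (Real.one_lt_rpow hK hd) (hX1 a)
  have hXL : ∀ a, X a ≤ L ^ η := by
    intro a
    calc X a ≤ K ^ (η ^ 2) := hX2 a
      _ = (K ^ η) ^ η := by rw [← Real.rpow_mul hK0.le, sq]
      _ ≤ L ^ η := Real.rpow_le_rpow (by positivity) hK' hη.le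
  have hB0 : 0 < B := by linarith
  have hsB : 1 ≤ Real.sqrt B := Real.one_le_sqrt.mpr hB
  have hS0 : 0 < S := by linarith
  have hL43 : 1 ≤ L ^ ((4 : ℝ) / 3) := Real.one_le_rpow hL1 (by norm_num)
  have hL43K : L ^ ((4 : ℝ) / 3) ≤ K ^ ((4 : ℝ) / 3) :=
    Real.rpow_le_rpow hL0.le hLK (by norm_num)
  have hmul : L ^ ((4 : ℝ) / 3) * L ^ (-η) = L ^ (4 / 3 - η) := by
    rw [← Real.rpow_add hL0]; congr 1
  refine
    { K1 := hL1, Y1 := hY, X1 := fun a _ => (hXone a).le, B1 := ?_, η0 := hη.le,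
      η1 := by linarith, β1 := by linarith, g0 := fun k _ => by positivity,
      P0 := fun a _ k _ => by positivity, sup := ?_, pow := ?_, lum := ?_, tf := ?_ }
  · exact one_le_mul_of_one_le_of_one_le hC1 (Real.one_le_rpow hL1 (by linarith))
  · intro a _ k hk
    rw [div_le_iff₀ hS0]
    linarith [hsup a k hk]
  · -- powers of a granular piece
    intro a _
    obtain ⟨n, hn1, hn2⟩ := exists_pow hL43 (hXone a) hL1 (hXL a)
    rw [hmul] at hn2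
    refine ⟨n, hn2, ?_⟩
    intro V hV
    obtain ⟨α, hα, hCS⟩ := Cf_pow (hp a) n
    have hnn : n ≤ n0 := n_le hK hd (hX1 a) (hn1.trans hL43K)
    have hα' : Cf ((r + 1) * (n0 + 1)) (X a ^ n) α :=
      hα.mono (Nat.mul_le_mul_left _ (by omega)) le_rfl
    refine h1 K i j m (X a ^ n) α hK0.le hm hL1 (one_le_pow₀ (hXone a).le) hn1 hα' _
      ((Finset.filter_subset _ _).trans hD) V hV ?_
    intro k hk
    rw [Finset.mem_filter] at hk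
    refine hk.2.trans ?_
    rw [hCS, norm_pow]
    have h3 : ‖CS (p a) k‖ / S ≤ ‖CS (p a) k‖ := div_le_self (norm_nonneg _) hS
    gcongr
  · -- lumps
    intro hYL a _
    have hY0 : 0 < Y := by linarith
    have hx : 1 ≤ L ^ ((4 : ℝ) / 3) / Y := by rw [le_div_iff₀ hY0]; linarith
    obtain ⟨n, hn1, hn2⟩ := exists_pow hx (hXone a) hL1 (hXL a)
    have hn1' : Y * X a ^ n ≤ L ^ ((4 : ℝ) / 3) := by
      rw [le_div_iff₀ hY0] at hn1; linarith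
    have hn2' : L ^ (4 / 3 - η) ≤ Y * X a ^ n := by
      rw [← hmul]
      calc L ^ ((4 : ℝ) / 3) * L ^ (-η) = Y * (L ^ ((4 : ℝ) / 3) / Y * L ^ (-η)) := by
            field_simp
        _ ≤ Y * X a ^ n := by gcongr
    have hXn : X a ^ n ≤ L ^ ((4 : ℝ) / 3) := by
      calc X a ^ n = 1 * X a ^ n := (one_mul _).symm
        _ ≤ Y * X a ^ n :=
            mul_le_mul_of_nonneg_right hY (pow_nonneg (by linarith [hXone a]) n)
        _ ≤ _ := hn1'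
    have hnn : n ≤ n0 := n_le hK hd (hX1 a) (hXn.trans hL43K)
    refine ⟨n, hn2', ?_, ?_⟩
    · intro k hk
      have e1 : ‖CS y k‖ / Real.sqrt B ≤ C2 * K ^ ((8 : ℝ) / 3) := by
        calc ‖CS y k‖ / Real.sqrt B ≤ ‖CS y k‖ := div_le_self (norm_nonneg _) hsB
          _ ≤ C2 * Y ^ (1 + (1 : ℝ)) := h2 Y y hY hy k
          _ ≤ C2 * (K ^ ((4 : ℝ) / 3)) ^ (1 + (1 : ℝ)) := by
              gcongr
              exact hYL.trans hL43K
          _ = C2 * K ^ ((8 : ℝ) / 3) := by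
              rw [← Real.rpow_mul hK0.le]; norm_num
      have e2 : (‖CS (p a) k‖ / S) ^ n ≤ K ^ ((4 : ℝ) / 3) := by
        have e3 : ‖CS (p a) k‖ / S ≤ X a := by
          rw [div_le_iff₀ hS0]
          have e4 : X a ^ β ≤ X a := by
            calc X a ^ β ≤ X a ^ (1 : ℝ) :=
                  Real.rpow_le_rpow_of_exponent_le (hXone a).le hβ
              _ = X a := Real.rpow_one _
          have e5 := hsup a k hk
          nlinarith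
        calc (‖CS (p a) k‖ / S) ^ n ≤ X a ^ n := by gcongr
          _ ≤ _ := hXn.trans hL43K
      calc (‖CS y k‖ / Real.sqrt B * (‖CS (p a) k‖ / S) ^ n) ^ 2
          ≤ (C2 * K ^ ((8 : ℝ) / 3) * K ^ ((4 : ℝ) / 3)) ^ 2 := by gcongr
        _ = C2 ^ 2 * (K ^ ((8 : ℝ) / 3) * K ^ ((4 : ℝ) / 3)) ^ 2 := by ring
        _ = C2 ^ 2 * K ^ (8 : ℝ) := by
            have e7 : (K ^ ((8 : ℝ) / 3) * K ^ ((4 : ℝ) / 3)) ^ 2 = K ^ (8 : ℝ) := by
              rw [← Real.rpow_add hK0, ← Real.rpow_natCast, ← Real.rpow_mul hK0.le]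
              norm_num
            rw [e7]
        _ ≤ 2 ^ Nn := hNn
    · intro V hV
      obtain ⟨α, hα, hCS⟩ := Cf_lump (hp a) hy n
      have hα' : Cf ((r + 1) * (n0 + 1)) (Y * X a ^ n) α :=
        hα.mono (Nat.mul_le_mul_left _ (by omega)) le_rfl
      have hW1 : 1 ≤ Y * X a ^ n :=
        one_le_mul_of_one_le_of_one_le hY (one_le_pow₀ (hXone a).le)
      refine h1 K i j m (Y * X a ^ n) α hK0.le hm hL1 hW1 hn1' hα' _
        ((Finset.filter_subset _ _).trans hD) V hV ?_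
      intro k hk
      rw [Finset.mem_filter] at hk
      refine hk.2.trans ?_
      rw [hCS, norm_mul, norm_pow]
      have h3 : ‖CS (p a) k‖ / S ≤ ‖CS (p a) k‖ := div_le_self (norm_nonneg _) hS
      have h4 : ‖CS y k‖ / Real.sqrt B ≤ ‖CS y k‖ := div_le_self (norm_nonneg _) hsB
      gcongr
  · -- long lumps
    intro hYL
    have h3 := htf hYL
    have e1 : ∑ k ∈ D, (‖CS y k‖ / Real.sqrt B) ^ 2 = (∑ k ∈ D, ‖CS y k‖ ^ 2) / B := by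
      rw [Finset.sum_div]
      refine Finset.sum_congr rfl fun k _ => ?_
      rw [div_pow, Real.sq_sqrt hB0.le]
    rw [e1, div_le_iff₀ hB0]
    refine h3.trans ?_
    have h5 : 1 ≤ C1 * L ^ (4 * η) :=
      one_le_mul_of_one_le_of_one_le hC1 (Real.one_le_rpow hL1 (by linarith))
    have h6 : 0 ≤ B * L * Y := by positivity
    nlinarith

open Classical in
/-- the exceptional set of a family -/
def exF {N : ℕ} (D : Finset Eis) (p : Fin N → Eis → ℂ) (X : Fin N → ℝ) (S μ : ℝ) : Finset Eis :=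
  D.filter (fun k => ∃ a, S * X a ^ μ < ‖CS (p a) k‖)

lemma ex_eq {N : ℕ} (D : Finset Eis) (p : Fin N → Eis → ℂ) (X : Fin N → ℝ) {S : ℝ} (hS : 0 < S)
    (μ : ℝ) : ex D Finset.univ (fun a k => ‖CS (p a) k‖ / S) X μ = exF D p X S μ := by
  classical
  ext k
  rw [mem_ex]
  unfold exF
  rw [Finset.mem_filter]
  refine and_congr_right fun _ => ⟨?_, ?_⟩
  · rintro ⟨a, -, h⟩
    refine ⟨a, ?_⟩
    rw [lt_div_iff₀ hS] at h
    linarith
  · rintro ⟨a, h⟩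
    refine ⟨a, Finset.mem_univ _, ?_⟩
    rw [lt_div_iff₀ hS]
    linarith

lemma log_le_pow {K η : ℝ} (hK : 1 < K) (hη : 0 < η) : Real.log K ≤ K ^ η / η :=
  Real.log_le_rpow_div (by linarith) hη

/-- the number of dyadic levels -/
lemma Nn_bound {C2 K η : ℝ} (hC2 : 1 ≤ C2) (hK : 1 < K) (hη : 0 < η) :
    ∃ Nn : ℕ, C2 ^ 2 * K ^ (8 : ℝ) ≤ 2 ^ Nn ∧
      (2 * Nn + 4 : ℝ) ≤ (8 * Real.log C2 + 32 / η + 6) * K ^ η := by
  have hK0 : 0 < K := by linarith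
  set x := C2 ^ 2 * K ^ (8 : ℝ) with hx
  have hx1 : 1 ≤ x := one_le_mul_of_one_le_of_one_le (one_le_pow₀ hC2)
    (Real.one_le_rpow hK.le (by norm_num))
  have hx0 : 0 < x := by linarith
  refine ⟨⌈Real.logb 2 x⌉₊, ?_, ?_⟩
  · calc x = (2 : ℝ) ^ Real.logb 2 x := (Real.rpow_logb (by norm_num) (by norm_num) hx0).symm
      _ ≤ (2 : ℝ) ^ ((⌈Real.logb 2 x⌉₊ : ℕ) : ℝ) :=
          Real.rpow_le_rpow_of_exponent_le (by norm_num) (Nat.le_ceil _)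
      _ = 2 ^ ⌈Real.logb 2 x⌉₊ := Real.rpow_natCast _ _
  · have h0 : 0 ≤ Real.logb 2 x := Real.logb_nonneg (by norm_num) hx1
    have h1 := (Nat.ceil_lt_add_one h0).le
    have h2 : Real.logb 2 x ≤ 2 * Real.log x := by
      unfold Real.logb
      have hl2 : (1 : ℝ) / 2 ≤ Real.log 2 := by
        have := Real.log_two_gt_d9
        linarith
      have hlx : 0 ≤ Real.log x := Real.log_nonneg hx1
      rw [div_le_iff₀ (by linarith)]
      nlinarith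
    have h3 : Real.log x = 2 * Real.log C2 + 8 * Real.log K := by
      rw [hx, Real.log_mul (by positivity) (by positivity), Real.log_pow, Real.log_rpow hK0]
      push_cast; ring
    have h4 := log_le_pow hK hη
    have h5 : 1 ≤ K ^ η := Real.one_le_rpow hK.le hη.le
    have h6 : 0 ≤ Real.log C2 := Real.log_nonneg hC2
    have h7 : K ^ η / η = (1 / η) * K ^ η := by ring
    have h8 : 0 < 1 / η := by positivity
    rw [h3] at h2
    rw [h7] at h4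
    have h9 : (32 : ℝ) / η = 32 * (1 / η) := by ring
    rw [h9]
    nlinarith

lemma prod_div_sq {N : ℕ} (f : Fin N → ℝ) (S : ℝ) (hS : 0 < S) :
    ∏ a, (f a / S) ^ 2 = (∏ a, f a ^ 2) / S ^ (2 * N) := by
  simp_rw [div_pow]
  rw [Finset.prod_div_distrib, Finset.prod_const, Finset.card_univ, Fintype.card_fin, ← pow_mul]

/-- exceptional part on one block (lengths up to `K ^ A`) -/
theorem block_AA (H : LVProp) {η d1 : ℝ} (hη : 0 < η) (hη1 : η ≤ 1 / 72) (hd : 0 < d1) (r N : ℕ)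
    {A : ℝ} (hA : 0 ≤ A) :
    ∃ C K0 : ℝ, 1 ≤ C ∧ 1 ≤ K0 ∧ ∀ (K β S B Y : ℝ) (i j : ℕ) (m : Eis) (y : Eis → ℂ)
      (X : Fin N → ℝ) (p : Fin N → Eis → ℂ) (D : Finset Eis), 1 < K → 7 / 8 ≤ β → β ≤ 1 →
      1 ≤ S → 1 ≤ B → 1 ≤ Y → m ≠ 0 → K ^ η ≤ K / (nm m : ℝ) ^ 3 →
      K0 ≤ K / (nm m : ℝ) ^ 3 → Cf r Y y →
      (∀ a, Cf r (X a) (p a)) → (∀ a, K ^ d1 ≤ X a) → (∀ a, X a ≤ K ^ (η ^ 2)) →
      Y * ∏ a, X a ≤ K ^ A →
      D ⊆ Bk K i j m → (∀ a, ∀ k ∈ D, ‖CS (p a) k‖ ≤ S * X a ^ β) →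
      ((K / (nm m : ℝ) ^ 3) ^ ((4 : ℝ) / 3) < Y →
        ∑ k ∈ D, ‖CS y k‖ ^ 2 ≤ B * (K / (nm m : ℝ) ^ 3) * Y) →
      ∑ k ∈ exF D p X S (5 / 6 + 3 * η), ‖CS y k‖ ^ 2 * ∏ a, ‖CS (p a) k‖ ^ 2 ≤
        C * S ^ (2 * N) * B * K ^ (8 * η) * (ms (K / (nm m : ℝ) ^ 3) (Y * ∏ a, X a) (5 / 6) +
          ms (K / (nm m : ℝ) ^ 3) (Y * ∏ a, X a) β) := by
  classical
  obtain ⟨C1, C2, hC1, hC2, hdat⟩ := mk_dat H hη hη1 hd r
  set C3 := 8 * Real.log C2 + 32 / η + 6 with hC3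
  have hC3' : 0 ≤ C3 := by
    have := Real.log_nonneg hC2
    positivity
  set T : ℕ := ⌈(A + 1) / η⌉₊ with hT
  have hT4 : (A + 1) / η ≤ T := Nat.le_ceil _
  have hT0 : 0 < T := by
    have h1 : (0 : ℝ) < T := lt_of_lt_of_le (by positivity) hT4
    exact_mod_cast h1
  have hT0' : (0 : ℝ) < T := by exact_mod_cast hT0
  refine ⟨max 1 (T * N * (C3 * C1)), C1 ^ (1 / η), le_max_left _ _,
    Real.one_le_rpow hC1 (by positivity), ?_⟩
  intro K β S B Y i j m y X p D hK hβ7 hβ hS hB hY hm hK' hK0' hy hp hX1 hX2 hlen hD hsup htf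
  obtain ⟨Nn, hNn1, hNn2⟩ := Nn_bound hC2 hK hη
  have Dt := hdat N K β S B Y i j m y X p D hK hβ hS hB hY hm hK' hy hp hX1 hX2 hD hsup htf Nn hNn1
  set L := K / (nm m : ℝ) ^ 3 with hL
  set Λ := Y * ∏ a, X a with hΛ
  have hK0 : 0 < K := by linarith
  have hL1 : 1 ≤ L := (Real.one_le_rpow hK.le hη.le).trans hK'
  have hL0 : 0 < L := by linarith
  have hm3 : (1 : ℝ) ≤ (nm m : ℝ) ^ 3 := one_le_pow₀ (one_le_nm'' hm)
  have hLK : L ≤ K := by rw [hL]; exact div_le_self hK0.le hm3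
  have hS0 : 0 < S := by linarith
  have hB0 : 0 < B := by linarith
  have hC1η : C1 ≤ L ^ η := by
    calc C1 = (C1 ^ (1 / η)) ^ η := by
          rw [← Real.rpow_mul (by linarith)]
          rw [one_div_mul_cancel hη.ne', Real.rpow_one]
      _ ≤ L ^ η := Real.rpow_le_rpow (by positivity) hK0' hη.le
  have hthr : C1 * L ^ (4 * η) * L ^ (8 / 9 : ℝ) ≤ (L ^ (4 / 3 - η)) ^ (2 * (5 / 6 + 3 * η) - 1) := by
    rw [← Real.rpow_mul hL0.le]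
    calc C1 * L ^ (4 * η) * L ^ (8 / 9 : ℝ) ≤ L ^ η * L ^ (4 * η) * L ^ (8 / 9 : ℝ) := by gcongr
      _ = L ^ (η + 4 * η + 8 / 9) := by rw [← Real.rpow_add hL0, ← Real.rpow_add hL0]
      _ ≤ _ := Real.rpow_le_rpow_of_exponent_le hL1 (by nlinarith)
  have hμβ : 5 / 6 + 3 * η ≤ β := by linarith
  have h1 := lb_ex Dt (μ₀ := 5 / 6 + 3 * η) hT0 (by linarith) hμβ hthr
  rw [ex_eq D p X hS0] at h1
  have htl : tl Finset.univ Y X = Λ := rfl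
  rw [htl, Finset.card_univ, Fintype.card_fin] at h1
  have hΛ1 : 1 ≤ Λ := by
    refine one_le_mul_of_one_le_of_one_le hY ?_
    have : ∀ a, 1 ≤ X a := fun a => (Real.one_le_rpow hK.le hd.le).trans (hX1 a)
    calc (1 : ℝ) = ∏ _a : Fin N, (1 : ℝ) := by simp
      _ ≤ ∏ a, X a := Finset.prod_le_prod (fun _ _ => by norm_num) fun a _ => this a
  have hΛT : Λ ^ (2 * ((β - (5 / 6 + 3 * η)) / T)) ≤ K ^ η := by
    have hnn : 0 ≤ 2 * ((β - (5 / 6 + 3 * η)) / T) := by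
      have := div_nonneg (sub_nonneg.mpr hμβ) hT0'.le
      linarith
    calc Λ ^ (2 * ((β - (5 / 6 + 3 * η)) / T))
        ≤ (K ^ A) ^ (2 * ((β - (5 / 6 + 3 * η)) / T)) :=
          Real.rpow_le_rpow (by linarith) hlen hnn
      _ = K ^ (A * (2 * ((β - (5 / 6 + 3 * η)) / T))) := by rw [← Real.rpow_mul hK0.le]
      _ ≤ K ^ η := by
          refine Real.rpow_le_rpow_of_exponent_le hK.le ?_
          have h2 : (β - (5 / 6 + 3 * η)) / T ≤ (1 / 6) / T := by gcongr; linarith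
          have h3 : A * ((1 / 6 : ℝ) / T) ≤ η / 2 := by
            have h4 : A + 1 ≤ T * η := by
              rw [div_le_iff₀ hη] at hT4; exact hT4
            rw [mul_div_assoc', div_le_iff₀ hT0']
            nlinarith
          have h5 : A * ((β - (5 / 6 + 3 * η)) / T) ≤ A * ((1 / 6 : ℝ) / T) :=
            mul_le_mul_of_nonneg_left h2 hA
          linarith
  have hms : 0 ≤ ms L Λ (5 / 6) + ms L Λ β := by
    have := LB702.ms_pos hL0 (by linarith : 0 < Λ) (5 / 6)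
    have := LB702.ms_pos hL0 (by linarith : 0 < Λ) β
    linarith
  have h2 : ∑ k ∈ exF D p X S (5 / 6 + 3 * η), (‖CS y k‖ / Real.sqrt B) ^ 2 *
      ∏ a, (‖CS (p a) k‖ / S) ^ 2 ≤
      max 1 (T * N * (C3 * C1)) * K ^ (8 * η) * (ms L Λ (5 / 6) + ms L Λ β) := by
    refine h1.trans ?_
    have e1 : L ^ (4 * η) ≤ K ^ (4 * η) := Real.rpow_le_rpow hL0.le hLK (by linarith)
    have e2 : L ^ (2 * η) ≤ K ^ (2 * η) := Real.rpow_le_rpow hL0.le hLK (by linarith)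
    calc (T : ℝ) * N * ((2 * Nn + 4) * (C1 * L ^ (4 * η)) * L ^ (2 * η) *
          Λ ^ (2 * ((β - (5 / 6 + 3 * η)) / T)) * (ms L Λ (5 / 6) + ms L Λ β))
        ≤ (T : ℝ) * N * ((C3 * K ^ η) * (C1 * K ^ (4 * η)) * K ^ (2 * η) * K ^ η *
          (ms L Λ (5 / 6) + ms L Λ β)) := by gcongr
      _ = (T * N * (C3 * C1)) * (K ^ η * K ^ (4 * η) * K ^ (2 * η) * K ^ η) *
          (ms L Λ (5 / 6) + ms L Λ β) := by ring
      _ = (T * N * (C3 * C1)) * K ^ (8 * η) * (ms L Λ (5 / 6) + ms L Λ β) := by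
          rw [← Real.rpow_add hK0, ← Real.rpow_add hK0, ← Real.rpow_add hK0]
          congr 3; ring
      _ ≤ _ := by
          gcongr
          exact le_max_right _ _
  have h3 : ∑ k ∈ exF D p X S (5 / 6 + 3 * η), (‖CS y k‖ / Real.sqrt B) ^ 2 *
      ∏ a, (‖CS (p a) k‖ / S) ^ 2 =
      (∑ k ∈ exF D p X S (5 / 6 + 3 * η), ‖CS y k‖ ^ 2 * ∏ a, ‖CS (p a) k‖ ^ 2) /
        (B * S ^ (2 * N)) := by
    rw [Finset.sum_div]
    refine Finset.sum_congr rfl fun k _ => ?_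
    rw [prod_div_sq _ S hS0, div_pow, Real.sq_sqrt hB0.le, div_mul_div_comm]
  rw [h3, div_le_iff₀ (by positivity)] at h2
  refine h2.trans (le_of_eq ?_)
  ring

/-- exceptional part on one block -/
theorem block_A (H : LVProp) {η d1 : ℝ} (hη : 0 < η) (hη1 : η ≤ 1 / 72) (hd : 0 < d1) (r N : ℕ) :
    ∃ C K0 : ℝ, 1 ≤ C ∧ 1 ≤ K0 ∧ ∀ (K β S B Y : ℝ) (i j : ℕ) (m : Eis) (y : Eis → ℂ)
      (X : Fin N → ℝ) (p : Fin N → Eis → ℂ) (D : Finset Eis), 1 < K → 7 / 8 ≤ β → β ≤ 1 →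
      1 ≤ S → 1 ≤ B → 1 ≤ Y → m ≠ 0 → K ^ η ≤ K / (nm m : ℝ) ^ 3 →
      K0 ≤ K / (nm m : ℝ) ^ 3 → Cf r Y y →
      (∀ a, Cf r (X a) (p a)) → (∀ a, K ^ d1 ≤ X a) → (∀ a, X a ≤ K ^ (η ^ 2)) →
      Y * ∏ a, X a ≤ K ^ (10 : ℝ) →
      D ⊆ Bk K i j m → (∀ a, ∀ k ∈ D, ‖CS (p a) k‖ ≤ S * X a ^ β) →
      ((K / (nm m : ℝ) ^ 3) ^ ((4 : ℝ) / 3) < Y →
        ∑ k ∈ D, ‖CS y k‖ ^ 2 ≤ B * (K / (nm m : ℝ) ^ 3) * Y) →
      ∑ k ∈ exF D p X S (5 / 6 + 3 * η), ‖CS y k‖ ^ 2 * ∏ a, ‖CS (p a) k‖ ^ 2 ≤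
        C * S ^ (2 * N) * B * K ^ (8 * η) * (ms (K / (nm m : ℝ) ^ 3) (Y * ∏ a, X a) (5 / 6) +
          ms (K / (nm m : ℝ) ^ 3) (Y * ∏ a, X a) β) :=
  block_AA H hη hη1 hd r N (A := 10) (by norm_num)

/-- number of elements of a block -/
lemma card_Bk_le {K : ℝ} (hK : 0 ≤ K) (i j : ℕ) (m : Eis) (hL : 1 ≤ K / (nm m : ℝ) ^ 3) :
    ((Bk K i j m).card : ℝ) ≤ 100 * (K / (nm m : ℝ) ^ 3) := by
  classical
  have h1 := blk_le hK i j m (F := fun _ => (1 : ℝ)) (fun _ => by norm_num)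
  rw [Finset.sum_const, Finset.sum_const, nsmul_eq_mul, nsmul_eq_mul, mul_one, mul_one] at h1
  refine h1.trans ?_
  have h3 := Div277.card_nz_le ⌊K / (nm m : ℝ) ^ 3⌋₊
  calc ((bl (K / (nm m : ℝ) ^ 3)).card : ℝ) ≤ 100 * (⌊K / (nm m : ℝ) ^ 3⌋₊ : ℝ) := h3
    _ ≤ 100 * (K / (nm m : ℝ) ^ 3) := by
        have := Nat.floor_le (show 0 ≤ K / (nm m : ℝ) ^ 3 by linarith)
        linarith

/-- short blocks -/
theorem block_B (r N : ℕ) : ∃ C : ℝ, 1 ≤ C ∧ ∀ (K K1 β S B Y : ℝ) (i j : ℕ) (m : Eis)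
      (y : Eis → ℂ) (X : Fin N → ℝ) (p : Fin N → Eis → ℂ) (D : Finset Eis), 1 < K →
      7 / 8 ≤ β → 1 ≤ S → 1 ≤ B → 1 ≤ Y → m ≠ 0 → 1 ≤ K / (nm m : ℝ) ^ 3 →
      K / (nm m : ℝ) ^ 3 ≤ K1 → Cf r Y y → (∀ a, 1 ≤ X a) →
      D ⊆ Bk K i j m → (∀ a, ∀ k ∈ D, ‖CS (p a) k‖ ≤ S * X a ^ β) →
      ((K / (nm m : ℝ) ^ 3) ^ ((4 : ℝ) / 3) < Y →
        ∑ k ∈ D, ‖CS y k‖ ^ 2 ≤ B * (K / (nm m : ℝ) ^ 3) * Y) →
      ∑ k ∈ D, ‖CS y k‖ ^ 2 * ∏ a, ‖CS (p a) k‖ ^ 2 ≤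
        C * S ^ (2 * N) * B * K1 ^ (7 : ℝ) * (Y * ∏ a, X a) ^ (2 * β) := by
  classical
  obtain ⟨C2, hC2, h2⟩ := Cf_l1 r (ε := 1) one_pos
  refine ⟨100 * C2 ^ 2, by nlinarith, ?_⟩
  intro K K1 β S B Y i j m y X p D hK hβ hS hB hY hm hL1 hLK1 hy hX1 hD hsup htf
  set L := K / (nm m : ℝ) ^ 3 with hL
  have hK0 : 0 < K := by linarith
  have hL0 : 0 < L := by linarith
  have hY0 : 0 < Y := by linarith
  have hK10 : 1 ≤ K1 := hL1.trans hLK1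
  have hP1 : 1 ≤ ∏ a, X a := by
    calc (1 : ℝ) = ∏ _a : Fin N, (1 : ℝ) := by simp
      _ ≤ ∏ a, X a := Finset.prod_le_prod (fun _ _ => by norm_num) fun a _ => hX1 a
  have hP0 : 0 < ∏ a, X a := by linarith
  have hprod : ∀ k ∈ D, ∏ a, ‖CS (p a) k‖ ^ 2 ≤ S ^ (2 * N) * (∏ a, X a) ^ (2 * β) := by
    intro k hk
    calc ∏ a, ‖CS (p a) k‖ ^ 2 ≤ ∏ a, (S ^ 2 * X a ^ (2 * β)) := by
          refine Finset.prod_le_prod (fun a _ => by positivity) fun a _ => ?_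
          calc ‖CS (p a) k‖ ^ 2 ≤ (S * X a ^ β) ^ 2 :=
                pow_le_pow_left₀ (norm_nonneg _) (hsup a k hk) 2
            _ = S ^ 2 * X a ^ (2 * β) := by
                have h0 : 0 ≤ X a := by linarith [hX1 a]
                rw [mul_pow, ← Real.rpow_natCast (X a ^ β) 2, ← Real.rpow_mul h0]
                congr 2
                push_cast; ring
      _ = S ^ (2 * N) * (∏ a, X a) ^ (2 * β) := by
          rw [Finset.prod_mul_distrib, Finset.prod_const, Finset.card_univ, Fintype.card_fin,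
            ← pow_mul, Real.finsetProd_rpow _ _ (fun a _ => by linarith [hX1 a])]
  have hy2 : ∑ k ∈ D, ‖CS y k‖ ^ 2 ≤ 100 * C2 ^ 2 * B * K1 ^ (7 : ℝ) * Y ^ (2 * β) := by
    have hY2 : Y ≤ Y ^ (2 * β) := by
      calc Y = Y ^ (1 : ℝ) := (Real.rpow_one _).symm
        _ ≤ _ := Real.rpow_le_rpow_of_exponent_le hY (by linarith)
    have hY2' : 1 ≤ Y ^ (2 * β) := hY.trans hY2
    rcases lt_or_ge (L ^ ((4 : ℝ) / 3)) Y with h | h
    · refine (htf h).trans ?_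
      have e1 : L ≤ K1 ^ (7 : ℝ) := by
        calc L ≤ K1 := hLK1
          _ = K1 ^ (1 : ℝ) := (Real.rpow_one _).symm
          _ ≤ _ := Real.rpow_le_rpow_of_exponent_le hK10 (by norm_num)
      have e3 : 1 ≤ 100 * C2 ^ 2 := by nlinarith
      have e2 : B ≤ 100 * C2 ^ 2 * B := le_mul_of_one_le_left (by linarith) e3
      calc B * L * Y ≤ (100 * C2 ^ 2 * B) * K1 ^ (7 : ℝ) * Y ^ (2 * β) := by gcongr
        _ = _ := by ring
    · have e1 : ∀ k ∈ D, ‖CS y k‖ ^ 2 ≤ C2 ^ 2 * L ^ ((16 : ℝ) / 3) := by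
        intro k _
        have e2 : ‖CS y k‖ ≤ C2 * L ^ ((8 : ℝ) / 3) := by
          calc ‖CS y k‖ ≤ C2 * Y ^ (1 + (1 : ℝ)) := h2 Y y hY hy k
            _ ≤ C2 * (L ^ ((4 : ℝ) / 3)) ^ (1 + (1 : ℝ)) := by gcongr
            _ = C2 * L ^ ((8 : ℝ) / 3) := by rw [← Real.rpow_mul hL0.le]; norm_num
        calc ‖CS y k‖ ^ 2 ≤ (C2 * L ^ ((8 : ℝ) / 3)) ^ 2 :=
              pow_le_pow_left₀ (norm_nonneg _) e2 2
          _ = C2 ^ 2 * L ^ ((16 : ℝ) / 3) := by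
              have e7 : (L ^ ((8 : ℝ) / 3)) ^ 2 = L ^ ((16 : ℝ) / 3) := by
                rw [← Real.rpow_natCast, ← Real.rpow_mul hL0.le]; norm_num
              rw [mul_pow, e7]
      calc ∑ k ∈ D, ‖CS y k‖ ^ 2 ≤ ∑ k ∈ D, C2 ^ 2 * L ^ ((16 : ℝ) / 3) :=
            Finset.sum_le_sum e1
        _ = (D.card : ℝ) * (C2 ^ 2 * L ^ ((16 : ℝ) / 3)) := by
            rw [Finset.sum_const, nsmul_eq_mul]
        _ ≤ (100 * L) * (C2 ^ 2 * L ^ ((16 : ℝ) / 3)) := by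
            have h4 : (D.card : ℝ) ≤ 100 * L := by
              refine le_trans ?_ (card_Bk_le hK0.le i j m hL1)
              exact_mod_cast Finset.card_le_card hD
            gcongr
        _ = 100 * C2 ^ 2 * (L ^ (1 : ℝ) * L ^ ((16 : ℝ) / 3)) := by rw [Real.rpow_one]; ring
        _ = 100 * C2 ^ 2 * L ^ ((19 : ℝ) / 3) := by
            rw [← Real.rpow_add hL0]; norm_num
        _ ≤ 100 * C2 ^ 2 * K1 ^ (7 : ℝ) := by
            have h5 : L ^ ((19 : ℝ) / 3) ≤ K1 ^ (7 : ℝ) := by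
              calc L ^ ((19 : ℝ) / 3) ≤ K1 ^ ((19 : ℝ) / 3) :=
                    Real.rpow_le_rpow hL0.le hLK1 (by norm_num)
                _ ≤ _ := Real.rpow_le_rpow_of_exponent_le hK10 (by norm_num)
            gcongr
        _ = 100 * C2 ^ 2 * 1 * K1 ^ (7 : ℝ) * 1 := by ring
        _ ≤ 100 * C2 ^ 2 * B * K1 ^ (7 : ℝ) * Y ^ (2 * β) := by gcongr
  calc ∑ k ∈ D, ‖CS y k‖ ^ 2 * ∏ a, ‖CS (p a) k‖ ^ 2
      ≤ ∑ k ∈ D, ‖CS y k‖ ^ 2 * (S ^ (2 * N) * (∏ a, X a) ^ (2 * β)) :=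
        Finset.sum_le_sum fun k hk => mul_le_mul_of_nonneg_left (hprod k hk) (by positivity)
    _ = (∑ k ∈ D, ‖CS y k‖ ^ 2) * (S ^ (2 * N) * (∏ a, X a) ^ (2 * β)) := by
        rw [Finset.sum_mul]
    _ ≤ (100 * C2 ^ 2 * B * K1 ^ (7 : ℝ) * Y ^ (2 * β)) *
        (S ^ (2 * N) * (∏ a, X a) ^ (2 * β)) := by
        gcongr
    _ = _ := by
        rw [Real.mul_rpow hY0.le hP0.le]; ring

end Crest.Agent.R017.Lbc298
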