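import Crest.Agent.R017.LBe_48
import Crest.Agent.R017.CubL_813
import Crest.Agent.R017.WDec2_180

/-!
# Row 17, C.REMg, (LB), part f (helper48): second moments at `T³ k`

* `TT_sq` : second moments of 813's `TT`
* `TE_prin`, `M2t_prin` : `TE` of `α prin0 T`
-/

set_option autoImplicit false

noncomputable section

open Complex MeasureTheory
open scoped ComplexConjugate Classical

namespace Crest.Agent.R017.LBx48

open Crest.Agent.R012 Crest.Agent.R012.Eis Crest.Agent.R012.MC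
open Crest.Agent.R012.LS2 (S mem_S)
open Crest.Agent.R012.Mob705 (pdiv mem_pdiv kap0 mu PE)
open Crest.Agent.R012.Div277 (tau dvs mem_dvs)
open Crest.Agent.R017.PX764 (Gh n6 th)
open Crest.Agent.R017.X6C180 (n13 cM)
open Crest.Agent.R017.CM106 (CS TG FS)
open Crest.Agent.R017.E1551 hiding tau Dg
open Crest.Agent.R017.C70 (JW JC OKJ okJ_JW)
open Crest.Agent.R017.E2440 (TE StE StT TOK)
open Crest.Agent.R017.I1146 (M2t)
open Crest.Agent.R017.E3M829 (TF)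
open Crest.Agent.R017.DgA829 (lc lc_prim lc_dvd nm_lc)
open Crest.Agent.R017.End699 (prin0)
open Crest.Agent.R017.CubL813 (TT tok_TT)

lemma one_le_tauR {n : Eis} (hn : IsPrim n) : (1 : ℝ) ≤ tau n := by
  have : 1 ∈ dvs n := (mem_dvs hn.ne_zero).2 ⟨isPrim_one, one_dvd _⟩
  have h : 0 < (dvs n).card := Finset.card_pos.mpr ⟨1, this⟩
  unfold Div277.tau
  exact_mod_cast h

lemma tau_mono {a b : Eis} (hb : b ≠ 0) (h : a ∣ b) : (tau a : ℝ) ≤ tau b := by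
  have ha : a ≠ 0 := fun h0 => hb (by rw [h0] at h; exact zero_dvd_iff.mp h)
  unfold Div277.tau
  have : dvs a ⊆ dvs b := fun d hd => by
    rw [mem_dvs ha] at hd
    rw [mem_dvs hb]
    exact ⟨hd.1, hd.2.trans h⟩
  exact_mod_cast Finset.card_le_card this

lemma TT_sq1 {T : Eis} (hT : IsPrim T) {E0 : ℝ} (hE0 : 0 ≤ E0) (A : Eis × Eis → Eis → ℂ)
    (x : Eis × Eis) {e : Eis} (he : e ∈ S E0) :
    ‖TT T E0 A x e‖ ^ 2 ≤
      (tau T : ℝ) * ∑ d ∈ dvs T, (if d * e ∈ S E0 then ‖A x (d * e)‖ ^ 2 else 0) := by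
  have hR : 0 ≤ (tau T : ℝ) * ∑ d ∈ dvs T, (if d * e ∈ S E0 then ‖A x (d * e)‖ ^ 2 else 0) :=
    mul_nonneg (Nat.cast_nonneg _) (Finset.sum_nonneg fun d _ => by split_ifs <;> positivity)
  unfold CubL813.TT End699.prin0
  by_cases hc : IsCoprime e T
  swap
  · rw [if_neg hc, zero_mul, norm_zero]
    simpa using hR
  rw [if_pos hc, one_mul]
  have h1 := norm_sum_le ((dvs T).filter (fun e₀ => (nm (e₀ * e) : ℝ) ≤ E0))
    (fun e₀ => (mu e₀ : ℂ) * A x (e₀ * e))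
  have h2 : (∑ d ∈ (dvs T).filter (fun e₀ => (nm (e₀ * e) : ℝ) ≤ E0),
      ‖(mu d : ℂ) * A x (d * e)‖) ^ 2 ≤
      (((dvs T).filter (fun e₀ => (nm (e₀ * e) : ℝ) ≤ E0)).card : ℝ) *
        ∑ d ∈ (dvs T).filter (fun e₀ => (nm (e₀ * e) : ℝ) ≤ E0),
          ‖(mu d : ℂ) * A x (d * e)‖ ^ 2 := sq_sum_le_card_mul_sum_sq
  refine (pow_le_pow_left₀ (norm_nonneg _) h1 2).trans (h2.trans ?_)
  refine mul_le_mul ?_ ?_ (Finset.sum_nonneg fun _ _ => by positivity) (Nat.cast_nonneg _)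
  · unfold Div277.tau
    exact_mod_cast Finset.card_filter_le _ _
  · rw [Finset.sum_filter]
    refine Finset.sum_le_sum fun d hd => ?_
    have hd' := (mem_dvs hT.ne_zero).1 hd
    have he' := (mem_S hE0).1 he
    by_cases hn : (nm (d * e) : ℝ) ≤ E0
    · rw [if_pos hn]
      by_cases hs : Squarefree d
      · have h3 : d * e ∈ S E0 := by
          rw [mem_S hE0]
          refine ⟨hn, hd'.1.mul he'.2.1, ?_⟩
          rw [squarefree_mul_iff]
          exact ⟨((hc.symm).of_isCoprime_of_dvd_left hd'.2).isRelPrime, hs, he'.2.2⟩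
        rw [if_pos h3, norm_mul]
        have m1 : ‖(mu d : ℂ)‖ ≤ 1 := by
          rw [Complex.norm_intCast]; exact_mod_cast Mob705.abs_mu_le_one d
        exact pow_le_pow_left₀ (by positivity)
          (mul_le_of_le_one_left (norm_nonneg _) m1) 2
      · rw [show mu d = 0 from Mob705.mu_of_not_squarefree hs]
        simp only [Int.cast_zero, zero_mul, norm_zero]
        split_ifs
        · rw [zero_pow two_ne_zero]; positivity
        · rw [zero_pow two_ne_zero]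
    · rw [if_neg hn]
      split_ifs <;> positivity

/-- second moments of the coefficients at `T³ k` -/
lemma TT_sq {T : Eis} (hT : IsPrim T) {E0 : ℝ} (hE0 : 0 ≤ E0) (U : Eis × Eis → Eis → ℂ)
    (x : Eis × Eis) {c c' : Eis → ℝ} (hc' : ∀ e, 0 ≤ c' e)
    (hcc : ∀ d e, IsPrim d → IsPrim e → c e ≤ c' (d * e)) (hc : ∀ e, 0 ≤ c e) :
    ∑ e ∈ S E0, c e * ‖TT T E0 U x e‖ ^ 2 ≤
      (tau T : ℝ) ^ 2 * ∑ u ∈ S E0, c' u * ‖U x u‖ ^ 2 := by
  have hcard : ((dvs T).card : ℝ) = tau T := rfl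
  have h1 : ∀ e ∈ S E0, c e * ‖TT T E0 U x e‖ ^ 2 ≤
      tau T * ∑ d ∈ dvs T, (if d * e ∈ S E0 then c' (d * e) * ‖U x (d * e)‖ ^ 2 else 0) := by
    intro e he
    have hep := ((mem_S hE0).1 he).2.1
    calc c e * ‖TT T E0 U x e‖ ^ 2 ≤ c e * (tau T * ∑ d ∈ dvs T,
          (if d * e ∈ S E0 then ‖U x (d * e)‖ ^ 2 else 0)) :=
          mul_le_mul_of_nonneg_left (TT_sq1 hT hE0 U x he) (hc e)
      _ = tau T * ∑ d ∈ dvs T, (if d * e ∈ S E0 then c e * ‖U x (d * e)‖ ^ 2 else 0) := by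
          rw [← mul_assoc, mul_comm (c e), mul_assoc, Finset.mul_sum]
          congr 1
          refine Finset.sum_congr rfl fun d _ => ?_
          split_ifs
          · rfl
          · exact mul_zero _
      _ ≤ _ := by
          refine mul_le_mul_of_nonneg_left (Finset.sum_le_sum fun d hd => ?_) (Nat.cast_nonneg _)
          split_ifs
          · exact mul_le_mul_of_nonneg_right
              (hcc d e ((mem_dvs hT.ne_zero).mp hd).1 hep) (by positivity)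
          · exact le_rfl
  refine (Finset.sum_le_sum h1).trans ?_
  rw [← Finset.mul_sum, Finset.sum_comm]
  have h6 : ∀ d ∈ dvs T, ∑ e ∈ S E0, (if d * e ∈ S E0 then c' (d * e) * ‖U x (d * e)‖ ^ 2
      else 0) ≤ ∑ u ∈ S E0, c' u * ‖U x u‖ ^ 2 := by
    intro d hd
    have hd0 := ((mem_dvs hT.ne_zero).mp hd).1.ne_zero
    rw [← Finset.sum_filter]
    have hinj : Set.InjOn (fun e => d * e) ((S E0).filter (fun e => d * e ∈ S E0) : Set Eis) :=
      fun a _ b _ hab => mul_left_cancel₀ hd0 hab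
    have e2 : ∑ e ∈ (S E0).filter (fun e => d * e ∈ S E0), c' (d * e) * ‖U x (d * e)‖ ^ 2 =
        ∑ u ∈ ((S E0).filter (fun e => d * e ∈ S E0)).image (fun e => d * e),
          c' u * ‖U x u‖ ^ 2 := by
      rw [Finset.sum_image hinj]
    rw [e2]
    refine Finset.sum_le_sum_of_subset_of_nonneg ?_ fun u _ _ => mul_nonneg (hc' u) (by positivity)
    intro u hu
    obtain ⟨e, he, rfl⟩ := Finset.mem_image.mp hu
    exact (Finset.mem_filter.mp he).2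
  calc (tau T : ℝ) * ∑ d ∈ dvs T, ∑ e ∈ S E0, (if d * e ∈ S E0 then
        c' (d * e) * ‖U x (d * e)‖ ^ 2 else 0) ≤ tau T * ∑ d ∈ dvs T,
        ∑ u ∈ S E0, c' u * ‖U x u‖ ^ 2 :=
        mul_le_mul_of_nonneg_left (Finset.sum_le_sum h6) (Nat.cast_nonneg _)
    _ = _ := by
        rw [Finset.sum_const, nsmul_eq_mul, hcard]
        ring

/-! ### the sequence `α prin0 T` -/

/-- `TE` of `α prin0 T` -/
theorem TE_prin {T : Eis} (hT : IsPrim T) {Y : ℝ} (hY : 0 ≤ Y) {α : Eis → ℂ}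
    (hα : ∀ n, α n ≠ 0 → n ∈ S Y) {x : Eis × Eis} (hx : IsPrim x.1) {e : Eis} (he : IsPrim e) :
    TE (fun n => α n * prin0 T n) x e = prin0 T x.1 *
      ∑ t ∈ dvs T, (mu t : ℂ) * TE α x (lc e t) := by
  have hfin : ∀ k, k ∉ S Y → α (x.1 * k) = 0 := by
    intro k hk
    by_contra h
    exact hk (Dual2813.S_of_dvd hY (hα _ h)
      (((mem_S hY).1 (hα _ h)).2.1.of_mul_left hx) (dvd_mul_left _ _))
  have hTE : ∀ (β : Eis → ℂ), (∀ k, k ∉ S Y → β (x.1 * k) = 0) → ∀ e', TE β x e' =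
      ∑ k ∈ S Y, if e' ∣ k ∧ IsCoprime x.2 (x.1 * k) then
        β (x.1 * k) * ((n6 k : ℂ) * Gh x.2 k) else 0 := by
    intro β hβ e'
    unfold E2440.TE
    rw [tsum_eq_sum (s := S Y)]
    intro k hk
    rw [hβ k hk, zero_mul]
    split_ifs <;> rfl
  rw [hTE _ (fun k hk => by rw [hfin k hk, zero_mul]) e]
  have h1 : ∀ t ∈ dvs T, (mu t : ℂ) * TE α x (lc e t) =
      ∑ k ∈ S Y, (mu t : ℂ) * (if lc e t ∣ k ∧ IsCoprime x.2 (x.1 * k) then
        α (x.1 * k) * ((n6 k : ℂ) * Gh x.2 k) else 0) := by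
    intro t _
    rw [hTE α hfin, Finset.mul_sum]
  rw [Finset.sum_congr rfl h1, Finset.sum_comm, Finset.mul_sum]
  refine Finset.sum_congr rfl fun k hk => ?_
  have hkp := ((mem_S hY).1 hk).2.1
  have h2 : (∑ t ∈ dvs T, (mu t : ℂ) * (if lc e t ∣ k ∧ IsCoprime x.2 (x.1 * k) then
        α (x.1 * k) * ((n6 k : ℂ) * Gh x.2 k) else 0)) =
      (∑ t ∈ dvs T, (if t ∣ k then (mu t : ℂ) else 0)) *
        (if e ∣ k ∧ IsCoprime x.2 (x.1 * k) then
        α (x.1 * k) * ((n6 k : ℂ) * Gh x.2 k) else 0) := by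
    rw [Finset.sum_mul]
    refine Finset.sum_congr rfl fun t ht => ?_
    have ht' := (mem_dvs hT.ne_zero).mp ht
    have h3 : lc e t ∣ k ↔ e ∣ k ∧ t ∣ k := lc_dvd he ht'.1 k
    by_cases h4 : t ∣ k
    · rw [if_pos h4]
      congr 1
      by_cases h5 : e ∣ k ∧ IsCoprime x.2 (x.1 * k)
      · rw [if_pos h5, if_pos ⟨h3.mpr ⟨h5.1, h4⟩, h5.2⟩]
      · rw [if_neg h5, if_neg (fun h => h5 ⟨(h3.mp h.1).1, h.2⟩)]
    · rw [if_neg h4, zero_mul, if_neg (fun h => h4 (h3.mp h.1).2), mul_zero]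
  have h6 : (∑ t ∈ dvs T, (if t ∣ k then (mu t : ℂ) else 0)) = prin0 T k := by
    have h7 := Mob705.sum_mu_coprime hkp hT.ne_zero
    unfold End699.prin0
    have h8 : (∑ t ∈ dvs T, (if t ∣ k then (mu t : ℂ) else 0)) =
        ((∑ t ∈ pdiv T, (if t ∣ k then mu t else 0) : ℤ) : ℂ) := by
      push_cast
      refine Finset.sum_congr ?_ fun t _ => ?_
      · rfl
      · split_ifs <;> simp
    rw [h8, h7]
    split_ifs <;> simp
  rw [h2, h6]
  have h9 : prin0 T (x.1 * k) = prin0 T x.1 * prin0 T k := by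
    unfold End699.prin0
    by_cases ha : IsCoprime x.1 T <;> by_cases hb : IsCoprime k T
    · rw [if_pos ha, if_pos hb, if_pos (ha.mul_left hb), one_mul]
    · rw [if_neg hb, if_neg (fun h => hb h.of_mul_left_right), mul_zero]
    · rw [if_neg ha, if_neg (fun h => ha h.of_mul_left_left), zero_mul]
    · rw [if_neg ha, if_neg (fun h => ha h.of_mul_left_left), zero_mul]
  split_ifs
  · rw [h9]; ring
  · ring

lemma norm_prin0_le (T n : Eis) : ‖prin0 T n‖ ≤ 1 := by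
  unfold End699.prin0
  split_ifs <;> simp

lemma regroup_lc {T : Eis} (hT : IsPrim T) {Y : ℝ} (hY : 0 ≤ Y) {α : Eis → ℂ}
    (hα : ∀ n, α n ≠ 0 → n ∈ S Y) (x : Eis × Eis) {t : Eis} (ht : t ∈ dvs T) (hs : Squarefree t)
    {e : Eis} (he : e ∈ S Y) :
    (tau e : ℝ) / nm e * ‖TE α x (lc e t)‖ ^ 2 ≤
      ∑ u ∈ S Y, (if e ∈ dvs u then nm T * ((nm u : ℝ)⁻¹ * (tau u : ℝ)) *
        ‖TE α x u‖ ^ 2 else 0) := by
  have hTn := nmpos hT.ne_zero
  have ht' := (mem_dvs hT.ne_zero).1 ht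
  have hnt : (nm t : ℝ) ≤ nm T := by
    exact_mod_cast Div277.nm_le_of_dvd hT.ne_zero ht'.2
  have he' := (mem_S hY).1 he
  have hlp := lc_prim he'.2.1 ht'.1
  have hnn : ∀ u ∈ S Y, (0 : ℝ) ≤ (if e ∈ dvs u then nm T * ((nm u : ℝ)⁻¹ * (tau u : ℝ)) *
      ‖TE α x u‖ ^ 2 else 0) := fun u _ => by split_ifs <;> positivity
  by_cases hl : lc e t ∈ S Y
  swap
  · rw [TE_zero_e hY hα hlp hl x]
    simp only [norm_zero, ne_eq, OfNat.ofNat_ne_zero, not_false_eq_true, zero_pow, mul_zero]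
    exact Finset.sum_nonneg hnn
  refine le_trans ?_ (Finset.single_le_sum hnn hl)
  have hd : e ∣ lc e t := ((lc_dvd he'.2.1 ht'.1 _).1 dvd_rfl).1
  rw [if_pos ((mem_dvs hlp.ne_zero).2 ⟨he'.2.1, hd⟩)]
  refine mul_le_mul_of_nonneg_right ?_ (by positivity)
  obtain ⟨g, hg, -, -, -, hgn, -⟩ := nm_lc he'.2.1 ht'.1 he'.2.2 hs
  have hg1 : (1 : ℝ) ≤ nm g := by exact_mod_cast nm_pos.mpr hg.ne_zero
  have hen := nmpos he'.2.1.ne_zero
  have hln := nmpos hlp.ne_zero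
  have h8 : (nm (lc e t) : ℝ) ≤ nm e * nm T := by
    have : (nm (lc e t) : ℝ) ≤ nm (lc e t) * nm g := le_mul_of_one_le_right hln.le hg1
    calc (nm (lc e t) : ℝ) ≤ nm (lc e t) * nm g := this
      _ = nm e * nm t := hgn
      _ ≤ nm e * nm T := mul_le_mul_of_nonneg_left hnt hen.le
  have h9 : (tau e : ℝ) ≤ tau (lc e t) := tau_mono hlp.ne_zero hd
  have h10 : (nm e : ℝ)⁻¹ ≤ nm T * (nm (lc e t) : ℝ)⁻¹ := by
    rw [← div_eq_mul_inv, le_div_iff₀ hln, inv_mul_le_iff₀ hen]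
    exact h8
  calc (tau e : ℝ) / nm e = tau e * (nm e : ℝ)⁻¹ := div_eq_mul_inv _ _
    _ ≤ tau (lc e t) * (nm T * (nm (lc e t) : ℝ)⁻¹) :=
        mul_le_mul h9 h10 (by positivity) (Nat.cast_nonneg _)
    _ = _ := by ring

lemma one_div_lc {T : Eis} (hT : IsPrim T) {Y : ℝ} (hY : 0 ≤ Y) {α : Eis → ℂ}
    (hα : ∀ n, α n ≠ 0 → n ∈ S Y) (x : Eis × Eis) {t : Eis} (ht : t ∈ dvs T) :
    ∑ e ∈ S Y, (if Squarefree t then
      (tau e : ℝ) / nm e * ‖TE α x (lc e t)‖ ^ 2 else 0) ≤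
      nm T * ∑ u ∈ S Y, ((nm u : ℝ)⁻¹ * (tau u : ℝ) ^ 4) * ‖TE α x u‖ ^ 2 := by
  have hTn := nmpos hT.ne_zero
  have hRn : 0 ≤ (nm T : ℝ) * ∑ u ∈ S Y, ((nm u : ℝ)⁻¹ * (tau u : ℝ) ^ 4) *
      ‖TE α x u‖ ^ 2 := mul_nonneg hTn.le (Finset.sum_nonneg fun u _ => by positivity)
  by_cases hs : Squarefree t
  swap
  · refine le_trans (le_of_eq ?_) hRn
    exact Finset.sum_eq_zero fun e _ => if_neg hs
  have h7 : ∀ e ∈ S Y, (if Squarefree t then
      (tau e : ℝ) / nm e * ‖TE α x (lc e t)‖ ^ 2 else 0) ≤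
      ∑ u ∈ S Y, (if e ∈ dvs u then nm T * ((nm u : ℝ)⁻¹ * (tau u : ℝ)) *
        ‖TE α x u‖ ^ 2 else 0) := by
    intro e he
    rw [if_pos hs]
    exact regroup_lc hT hY hα x ht hs he
  refine (Finset.sum_le_sum h7).trans ?_
  rw [Finset.sum_comm, Finset.mul_sum]
  refine Finset.sum_le_sum fun u hu => ?_
  have hup := ((mem_S hY).1 hu).2.1
  have hτ := one_le_tauR hup
  have hg0 : 0 ≤ (nm T : ℝ) * ((nm u : ℝ)⁻¹ * (tau u : ℝ)) * ‖TE α x u‖ ^ 2 := by positivity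
  have e1 : ∑ e ∈ S Y, (if e ∈ dvs u then nm T * ((nm u : ℝ)⁻¹ * (tau u : ℝ)) *
        ‖TE α x u‖ ^ 2 else 0) ≤
      ∑ e ∈ dvs u, nm T * ((nm u : ℝ)⁻¹ * (tau u : ℝ)) * ‖TE α x u‖ ^ 2 := by
    rw [← Finset.sum_filter]
    refine Finset.sum_le_sum_of_subset_of_nonneg ?_ fun _ _ _ => hg0
    intro e he
    exact (Finset.mem_filter.mp he).2
  refine e1.trans ?_
  have e2 : ∑ e ∈ dvs u, nm T * ((nm u : ℝ)⁻¹ * (tau u : ℝ)) * ‖TE α x u‖ ^ 2 =
      (tau u : ℝ) * (nm T * ((nm u : ℝ)⁻¹ * (tau u : ℝ)) * ‖TE α x u‖ ^ 2) := by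
    rw [Finset.sum_const, nsmul_eq_mul]
    rfl
  rw [e2]
  have h11 : (tau u : ℝ) ^ 2 ≤ (tau u : ℝ) ^ 4 := pow_le_pow_right₀ hτ (by norm_num)
  calc (tau u : ℝ) * (nm T * ((nm u : ℝ)⁻¹ * (tau u : ℝ)) * ‖TE α x u‖ ^ 2) =
        nm T * (((nm u : ℝ)⁻¹ * (tau u : ℝ) ^ 2) * ‖TE α x u‖ ^ 2) := by ring
    _ ≤ nm T * (((nm u : ℝ)⁻¹ * (tau u : ℝ) ^ 4) * ‖TE α x u‖ ^ 2) :=
        mul_le_mul_of_nonneg_left (mul_le_mul_of_nonneg_right
          (mul_le_mul_of_nonneg_left h11 (by positivity)) (by positivity)) hTn.le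

/-- the full moment of `α prin0 T` -/
theorem M2t_prin {T : Eis} (hT : IsPrim T) {Y : ℝ} (hY : 0 ≤ Y) {α : Eis → ℂ}
    (hα : ∀ n, α n ≠ 0 → n ∈ S Y) {x : Eis × Eis} (hx : IsPrim x.1) :
    M2t Y (fun n => α n * prin0 T n) x ≤ (tau T : ℝ) ^ 2 * nm T *
      ∑ u ∈ S Y, ((nm u : ℝ)⁻¹ * (tau u : ℝ) ^ 4) * ‖TE α x u‖ ^ 2 := by
  have hTn := nmpos hT.ne_zero
  have hcard : ((dvs T).card : ℝ) = tau T := rfl
  -- pointwise
  have h1 : ∀ e ∈ S Y, (tau e : ℝ) / nm e * ‖TE (fun n => α n * prin0 T n) x e‖ ^ 2 ≤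
      tau T * ∑ t ∈ dvs T, (if Squarefree t then
        (tau e : ℝ) / nm e * ‖TE α x (lc e t)‖ ^ 2 else 0) := by
    intro e he
    have hep := ((mem_S hY).1 he).2.1
    have h2 : ‖TE (fun n => α n * prin0 T n) x e‖ ^ 2 ≤ tau T * ∑ t ∈ dvs T,
        (if Squarefree t then ‖TE α x (lc e t)‖ ^ 2 else 0) := by
      rw [TE_prin hT hY hα hx hep, norm_mul]
      have h3 := norm_sum_le (dvs T) (fun t => (mu t : ℂ) * TE α x (lc e t))
      have h4 : (∑ t ∈ dvs T, ‖(mu t : ℂ) * TE α x (lc e t)‖) ^ 2 ≤ ((dvs T).card : ℝ) *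
          ∑ t ∈ dvs T, ‖(mu t : ℂ) * TE α x (lc e t)‖ ^ 2 := sq_sum_le_card_mul_sum_sq
      have h5 : ‖prin0 T x.1‖ * ‖∑ t ∈ dvs T, (mu t : ℂ) * TE α x (lc e t)‖ ≤
          ∑ t ∈ dvs T, ‖(mu t : ℂ) * TE α x (lc e t)‖ :=
        (mul_le_of_le_one_left (norm_nonneg _) (norm_prin0_le _ _)).trans h3
      refine (pow_le_pow_left₀ (by positivity) h5 2).trans (h4.trans ?_)
      rw [hcard]
      refine mul_le_mul_of_nonneg_left (Finset.sum_le_sum fun t _ => ?_) (Nat.cast_nonneg _)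
      by_cases hs : Squarefree t
      · rw [if_pos hs, norm_mul]
        have m1 : ‖(mu t : ℂ)‖ ≤ 1 := by
          rw [Complex.norm_intCast]; exact_mod_cast Mob705.abs_mu_le_one t
        exact pow_le_pow_left₀ (by positivity) (mul_le_of_le_one_left (norm_nonneg _) m1) 2
      · rw [if_neg hs, show mu t = 0 from Mob705.mu_of_not_squarefree hs]
        simp
    calc (tau e : ℝ) / nm e * ‖TE (fun n => α n * prin0 T n) x e‖ ^ 2 ≤
          (tau e : ℝ) / nm e * (tau T * ∑ t ∈ dvs T,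
            (if Squarefree t then ‖TE α x (lc e t)‖ ^ 2 else 0)) :=
          mul_le_mul_of_nonneg_left h2 (by positivity)
      _ = _ := by
          rw [← mul_assoc, mul_comm ((tau e : ℝ) / nm e), mul_assoc, Finset.mul_sum]
          congr 1
          refine Finset.sum_congr rfl fun t _ => ?_
          split_ifs
          · rfl
          · exact mul_zero _
  calc M2t Y (fun n => α n * prin0 T n) x =
        ∑ e ∈ S Y, (tau e : ℝ) / nm e * ‖TE (fun n => α n * prin0 T n) x e‖ ^ 2 := rfl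
    _ ≤ ∑ e ∈ S Y, tau T * ∑ t ∈ dvs T, (if Squarefree t then
        (tau e : ℝ) / nm e * ‖TE α x (lc e t)‖ ^ 2 else 0) := Finset.sum_le_sum h1
    _ = tau T * ∑ t ∈ dvs T, ∑ e ∈ S Y, (if Squarefree t then
        (tau e : ℝ) / nm e * ‖TE α x (lc e t)‖ ^ 2 else 0) := by
        rw [← Finset.mul_sum, Finset.sum_comm]
    _ ≤ tau T * ∑ _t ∈ dvs T, nm T * ∑ u ∈ S Y, ((nm u : ℝ)⁻¹ * (tau u : ℝ) ^ 4) *
        ‖TE α x u‖ ^ 2 := mul_le_mul_of_nonneg_left (Finset.sum_le_sum fun t ht =>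
          one_div_lc hT hY hα x ht) (Nat.cast_nonneg _)
    _ = _ := by
        rw [Finset.sum_const, nsmul_eq_mul, hcard]
        ring

end Crest.Agent.R017.LBx48
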