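import Crest.Agent.R017.LBz_48

/-!
# Row 17, C.REMg (LB), final form (helper48), part 6: the literal inputs of helper381

* `FRc`, `FRl`, `FRo`, `FSp` : 381's `BeAll (NRc ..)` etc., written out
* `lbn_core` : the lower bound from them
-/

set_option autoImplicit false
set_option linter.unusedVariables false

noncomputable section

open Complex MeasureTheory
open scoped ComplexConjugate Classical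

namespace Crest.Agent.R017.LBx48

open Crest.Agent.R012 Crest.Agent.R012.Eis Crest.Agent.R012.MC
open Crest.Agent.R012.LS2 (S mem_S)
open Crest.Agent.R012.Mob705 (pdiv kap0)
open Crest.Agent.R012.Div277 (tau)
open Crest.Agent.R012.Weight600 (osc pw)
open Crest.Agent.R017.X6C180 (n13 n13_nonneg GF)
open Crest.Agent.R017.CM106 (CS TG FS)
open Crest.Agent.R017.E1551 hiding tau Dg
open Crest.Agent.R017.C70 (JW JC OKJ okJ_JW)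
open Crest.Agent.R017.E2440 (TE Jb Qs prs C4 StE Fh)
open Crest.Agent.R017.EHu320 (EHc)
open Crest.Agent.R017.LB48 (CrP GrP)
open Crest.Agent.R017.I1146 (omr)
open Crest.Agent.R017.E3M829 (Cut Tal Sg)
open Crest.Agent.R017.E3A164 (SteT Ys Fy)
open Crest.Agent.R017.WDec180 (WD sc sc_pos)
open Crest.Agent.R017.Ex385 (CrQ)
open Crest.Agent.R017.LBu180 (SqQ SqQ_le)
open Crest.Agent.R017.Win813 (WK iA iA_nonneg)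
open Crest.Agent.R017.RGw813 (T9 bt)
open Crest.Agent.R017.LBo813 (Om rho Om_nonneg Om_le_one norm_bt_le)
open Crest.Agent.R017.Rough381 (VF)
open Crest.Agent.R017.CubP813 (Qc Qc_cut)
open Crest.Agent.R017.Et404 (RLn)
open Crest.Agent.R017.Et813 (NTn et_le)

/-- all windowed sequences -/
def BeA (Cw η : ℝ) (Aw : ℕ) (K X R : ℝ) (J : ℕ) (α : Eis → ℂ)
    (Φ : ℝ → (Eis → ℂ) → ℝ → Prop) (Rn : ℝ) : Prop :=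
  ∀ a ∈ T9, ∀ (t X' : ℝ) (φ : ℝ → ℝ), 0 < X' → |Real.log X' - Real.log X| ≤ R + 1 →
    WK Cw η Aw φ → (∀ u, φ u ≠ 0 → |u - Real.log X'| ≤ η / 2) →
    Φ X' (fun n => bt φ α a n * pw t (nm n)) ((K / X) * (Rn * (1 + |t|) ^ J))

/-- **(Rc)** -/
def FRc (N : ℕ) (M : ℝ) (F : ℕ → ℝ → ℂ) (K D E0 : ℝ) (N₁ : ℕ) (_ : ℝ) (be : Eis → ℂ)
    (B : ℝ) : Prop :=
  ∀ I : ℕ, (N₁ : ℝ) < 2 ^ I → (2 : ℝ) ^ I ≤ 2 * N₁ →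
    E0 ^ 2 * ∑ i ∈ Finset.range N, REb be (sc K M i) (GF (Fh (F i) (7 * Real.log E0)))
      (S D) I E0 N₁ N₁ ≤ B

/-- **(Rl)** -/
def FRl (N : ℕ) (M : ℝ) (F : ℕ → ℝ → ℂ) (K D E0 : ℝ) (N₁ : ℕ) (_ : ℝ) (be : Eis → ℂ)
    (B : ℝ) : Prop :=
  ∀ I X₀ : ℕ, (N₁ : ℝ) < 2 ^ I → (2 : ℝ) ^ I ≤ 2 * N₁ →
    E0 ^ 2 * RLn N F (7 * Real.log E0) M K (E0 ^ 8) X₀ be D I E0 N₁ ≤ B

/-- **(Ro)**, `b = e = 1` -/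
def FRo (w : ℝ → ℝ) (Λ : ℝ) (A : ℕ) (K Y D E0 : ℝ) (N₀ N₁ : ℕ) (X' : ℝ) (be : Eis → ℂ)
    (B : ℝ) : Prop :=
  ∀ K' : ℝ, K' = K ∨ K' = K * Real.exp (-(7 * Real.log E0)) →
    Sg w K' (E0 ^ 2) N₁ (E0 ^ 14) (fun q t k₁ =>
      ‖∑ y ∈ Ys (JW D (1 / 10) N₁) E0 N₁,
        Fy (JW D (1 / 10) N₁) (omr (Om N₀ N₁)) (Tal be) q t k₁ y‖ ^ 2) ≤
    Sg w K' (E0 ^ 2) N₁ (E0 ^ 14) (fun q t k₁ =>
      E3M829.Dg (JW D (1 / 10) N₁) (omr (Om N₀ N₁)) (Tal be) E0 N₁ q t k₁) +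
      (E0 ^ 3)⁻¹ * ((K / X') * EHf A K X' Y (Λ * N₁) be + B)

/-- **(S')** -/
def FSp (w : ℝ → ℝ) (K E0 : ℝ) (_ : ℝ) (be : Eis → ℂ) (B : ℝ) : Prop :=
  SqP w (K * Real.exp (-(7 * Real.log E0))) be ≤ Real.exp (-(7 * Real.log E0 / 3)) * B

/-- **(S')** with the cut -/
def FSq (w : ℝ → ℝ) (K E0 : ℝ) (_ : ℝ) (be : Eis → ℂ) (B : ℝ) : Prop :=
  SqQ w (K * Real.exp (-(7 * Real.log E0))) (Qc (K1N K E0)) be ≤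
    Real.exp (-(7 * Real.log E0 / 3)) * B

lemma le_q {q : ℝ} (hq : 1 ≤ q) {x kx V z : ℝ} (hkx : 0 ≤ kx) (hV : 0 ≤ V) (hz : 0 ≤ z)
    (h : x ≤ kx * (z * V)) : x ≤ kx * (q * z * V) := by
  refine h.trans (mul_le_mul_of_nonneg_left (mul_le_mul_of_nonneg_right ?_ hV) hkx)
  exact le_mul_of_one_le_left hz hq

/-- the level block -/
lemma exI {N₁ : ℕ} (h : 1 ≤ N₁) : ∃ I : ℕ, (N₁ : ℝ) < 2 ^ I ∧ (2 : ℝ) ^ I ≤ 2 * N₁ := by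
  refine ⟨Nat.log 2 N₁ + 1, ?_, ?_⟩
  · exact_mod_cast Nat.lt_pow_succ_log_self (by norm_num) N₁
  · have h1 := Nat.pow_log_le_self 2 (x := N₁) (by omega)
    have h2 : (2 : ℝ) ^ (Nat.log 2 N₁) ≤ N₁ := by exact_mod_cast h1
    rw [pow_succ]
    linarith

lemma numR_of {N : ℕ} {M : ℝ} {F : ℕ → ℝ → ℂ} {Cw η : ℝ} {Aw : ℕ} {K X R : ℝ} {J : ℕ}
    {D E0 : ℝ} {N₁ I : ℕ} {α : Eis → ℂ} {Rn q : ℝ} (hI : (N₁ : ℝ) < 2 ^ I)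
    (hI2 : (2 : ℝ) ^ I ≤ 2 * N₁) (hq : 1 ≤ q) (hK : 0 ≤ K) (hX : 0 ≤ X) (hRn : 0 ≤ Rn)
    (H : BeA Cw η Aw K X R J α (FRc N M F K D E0 N₁) Rn) :
    NumR N M F Cw η Aw K X R J D E0 (tN E0) (hN E0) N₁ I α (q * Rn) := by
  intro p hp t X' φ hX' hXX hφ hφs
  have h1 := H p hp t X' φ hX' hXX hφ hφs I hI hI2
  refine le_q hq (div_nonneg hK hX) (by positivity) hRn ?_
  unfold tN hN
  rw [inv_inv]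
  exact h1

lemma numL_of {N : ℕ} {M : ℝ} {F : ℕ → ℝ → ℂ} {Cw η : ℝ} {Aw : ℕ} {K X R : ℝ} {J : ℕ}
    {D E0 : ℝ} {N₁ I X₀ : ℕ} {α : Eis → ℂ} {Rn q : ℝ} (hI : (N₁ : ℝ) < 2 ^ I)
    (hI2 : (2 : ℝ) ^ I ≤ 2 * N₁) (hq : 1 ≤ q) (hK : 0 ≤ K) (hX : 0 ≤ X) (hRn : 0 ≤ Rn)
    (H : BeA Cw η Aw K X R J α (FRl N M F K D E0 N₁) Rn) :
    NumL N M F Cw η Aw K X R J D E0 (tN E0) (hN E0) (E0 ^ 8) N₁ I X₀ α (q * Rn) := by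
  intro p hp t X' φ hX' hXX hφ hφs
  have h1 := H p hp t X' φ hX' hXX hφ hφs I X₀ hI hI2
  refine le_q hq (div_nonneg hK hX) (by positivity) hRn ?_
  unfold tN hN
  rw [inv_inv]
  exact h1

lemma numS_of {w : ℝ → ℝ} (hw : Wgt w) (hw0 : ∀ x, 0 ≤ w x) {Cw η : ℝ} {Aw : ℕ} {K X R : ℝ}
    {J : ℕ} {E0 : ℝ} {α : Eis → ℂ} {Rn q : ℝ} (hq : 1 ≤ q) (hK : 0 < K) (hX : 0 ≤ X)
    (hRn : 0 ≤ Rn) (Q : ℕ × ℕ → Eis → Prop) (H : BeA Cw η Aw K X R J α (FSp w K E0) Rn) :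
    NumS w Q Cw η Aw K X R J (hN E0) α (q * Rn) := by
  intro p hp t X' φ hX' hXX hφ hφs
  have h1 := H p hp t X' φ hX' hXX hφ hφs
  refine le_q hq (div_nonneg hK.le hX) (by positivity) hRn ?_
  have h2 := SqQ_le hw hw0 (K := K * Real.exp (-hN E0)) (by positivity) (Q p)
    (fun n => bt φ α p n * pw t (nm n))
  have h3 : SqP w (K * Real.exp (-hN E0)) (fun n => bt φ α p n * pw t (nm n)) ≤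
      Real.exp (-(hN E0 / 3)) * ((K / X) * (Rn * (1 + |t|) ^ J)) := h1
  have h4 : Real.exp (hN E0 / 3) * Real.exp (-(hN E0 / 3)) = 1 := by
    rw [← Real.exp_add]; simp
  calc Real.exp (hN E0 / 3) * SqQ w (K * Real.exp (-hN E0)) (Q p)
        (fun n => bt φ α p n * pw t (nm n)) ≤
        Real.exp (hN E0 / 3) * (Real.exp (-(hN E0 / 3)) * ((K / X) * (Rn * (1 + |t|) ^ J))) :=
        mul_le_mul_of_nonneg_left (h2.trans h3) (Real.exp_pos _).le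
    _ = (Real.exp (hN E0 / 3) * Real.exp (-(hN E0 / 3))) * ((K / X) * (Rn * (1 + |t|) ^ J)) := by
        ring
    _ = _ := by rw [h4, one_mul]

lemma numSQ_of {w : ℝ → ℝ} {Cw η : ℝ} {Aw : ℕ} {K X R : ℝ}
    {J : ℕ} {E0 : ℝ} {α : Eis → ℂ} {Rn q : ℝ} (hq : 1 ≤ q) (hK : 0 < K) (hX : 0 ≤ X)
    (hRn : 0 ≤ Rn) (H : BeA Cw η Aw K X R J α (FSq w K E0) Rn) :
    NumS w (fun _ => Qc (K1N K E0)) Cw η Aw K X R J (hN E0) α (q * Rn) := by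
  intro p hp t X' φ hX' hXX hφ hφs
  have h1 := H p hp t X' φ hX' hXX hφ hφs
  refine le_q hq (div_nonneg hK.le hX) (by positivity) hRn ?_
  have h3 : SqQ w (K * Real.exp (-hN E0)) (Qc (K1N K E0)) (fun n => bt φ α p n * pw t (nm n)) ≤
      Real.exp (-(hN E0 / 3)) * ((K / X) * (Rn * (1 + |t|) ^ J)) := h1
  have h4 : Real.exp (hN E0 / 3) * Real.exp (-(hN E0 / 3)) = 1 := by
    rw [← Real.exp_add]; simp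
  calc Real.exp (hN E0 / 3) * SqQ w (K * Real.exp (-hN E0)) (Qc (K1N K E0))
        (fun n => bt φ α p n * pw t (nm n)) ≤
        Real.exp (hN E0 / 3) * (Real.exp (-(hN E0 / 3)) * ((K / X) * (Rn * (1 + |t|) ^ J))) :=
        mul_le_mul_of_nonneg_left h3 (Real.exp_pos _).le
    _ = (Real.exp (hN E0 / 3) * Real.exp (-(hN E0 / 3))) * ((K / X) * (Rn * (1 + |t|) ^ J)) := by
        ring
    _ = _ := by rw [h4, one_mul]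

/-- `(E0^3)⁻¹ ≤ s lam`, `s = 1` or `s = exp (-(h/3))` -/
lemma e3_le {E0 : ℝ} (h : 1 ≤ E0) : (E0 ^ 3)⁻¹ ≤ Real.exp (-(hN E0 / 3)) * lN E0 := by
  have h0 : 0 < E0 := by linarith
  have e1 : Real.exp (-(hN E0 / 3)) = E0 ^ (7 * (-(1 / 3)) : ℝ) := by
    rw [← exp_hN h]
    congr 1
    ring
  rw [e1]
  unfold lN
  rw [← Real.rpow_add h0]
  have e2 : (E0 ^ 3)⁻¹ = E0 ^ (-3 : ℝ) := by
    rw [Real.rpow_neg h0.le]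
    norm_num
  rw [e2]
  exact Real.rpow_le_rpow_of_exponent_le h (by norm_num)

lemma NumNz_mono {N : ℕ} {M : ℝ} {F : ℕ → ℝ → ℂ} {Cw η : ℝ} {Aw : ℕ} {K X Y R : ℝ} {J : ℕ}
    {D E0 θ lam h L L2 K₁ K₂ : ℝ} {N₀ N₁ A : ℕ} {CP CP' Z : ℝ} {α : Eis → ℂ} {Nt : ℝ}
    (hθ : 0 ≤ θ) (hl : 0 ≤ lam) (hK : 0 ≤ K) (hCP : CP ≤ CP')
    (H : NumNz N M F Cw η Aw K X Y R J D E0 θ lam h L L2 K₁ K₂ N₀ N₁ A CP Z α Nt) :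
    NumNz N M F Cw η Aw K X Y R J D E0 θ lam h L L2 K₁ K₂ N₀ N₁ A CP' Z α Nt := by
  intro p hp t X' φ hX' hXX hφ hφs
  refine (H p hp t X' φ hX' hXX hφ hφs).trans (add_le_add ?_ le_rfl)
  exact mul_le_mul_of_nonneg_right hCP (mul_nonneg (by positivity) (T4_nonneg hθ hl hK hX'.le _))

lemma numO_of {w : ℝ → ℝ} {Λ Ce ε : ℝ} {Cw η : ℝ} {Aw : ℕ} {K X Y R : ℝ} {J : ℕ} {D E0 : ℝ}
    {N₀ N₁ : ℕ} {α : Eis → ℂ} {Rn q K' s : ℝ} (hE : 1 ≤ E0) (hK : 0 ≤ K) (hX : 0 ≤ X)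
    (hRn : 0 ≤ Rn) (hs : (E0 ^ 3)⁻¹ ≤ s * lN E0) (hs0 : 0 ≤ s) (hCe : 1 ≤ Ce * Y ^ ε) (hq : 1 ≤ q)
    (hK' : K' = K ∨ K' = K * Real.exp (-(7 * Real.log E0)))
    (H : BeA Cw η Aw K X R J α (FRo w Λ (J + 2) K Y D E0 N₀ N₁) Rn) :
    NumOz w Cw η Aw K X Y K' R J D E0 (E1N E0) (BN E0) (tN E0) (lN E0) N₀ N₁ (J + 2)
      (Ce * Y ^ ε * s) (Λ * N₁) α (q * ((E0 ^ 3)⁻¹ * Rn)) := by
  intro p hp t X' φ hX' hXX hφ hφs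
  have h1 := H p hp t X' φ hX' hXX hφ hφs K' hK'
  refine h1.trans (add_le_add le_rfl ?_)
  rw [mul_add]
  have hf0 : 0 ≤ EHf ((J + 2 : ℕ) : ℝ) K X' Y (Λ * N₁) (fun n => bt φ α p n * pw t (nm n)) :=
    EHc_nonneg (fun n => by positivity) _ hK hX'.le _
  have hT0 := T4_nonneg (A := ((J + 2 : ℕ) : ℝ)) (K := K) (X := X') (Y := Y) (Z := Λ * N₁)
    (E0 := E0) (tN_pos hE).le (lN_pos hE).le hK hX'.le (fun n => bt φ α p n * pw t (nm n))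
  have hs0' : 0 ≤ EHs ((J + 2 : ℕ) : ℝ) K X' Y (Λ * N₁) E0 (fun n => bt φ α p n * pw t (nm n)) :=
    EHc_nonneg (fun n => Nat.cast_nonneg n) _ hK hX'.le _
  have hTf : lN E0 * EHf ((J + 2 : ℕ) : ℝ) K X' Y (Λ * N₁) (fun n => bt φ α p n * pw t (nm n)) ≤
      T4 ((J + 2 : ℕ) : ℝ) K X' Y (Λ * N₁) E0 (tN E0) (lN E0)
        (fun n => bt φ α p n * pw t (nm n)) := by
    have := T4_ge_sf (A := ((J + 2 : ℕ) : ℝ)) (K := K) (X := X') (Y := Y) (Z := Λ * N₁)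
      (E0 := E0) (tN_pos hE).le (lN_pos hE).le hK hX'.le (le_refl (lN E0))
      (fun n => bt φ α p n * pw t (nm n))
    have h2 := mul_nonneg (tN_pos hE).le hs0'
    linarith
  have hkx' : 0 ≤ K / X' := by positivity
  have hkx : 0 ≤ K / X := div_nonneg hK hX
  have hE0 : 0 < E0 := by linarith
  refine add_le_add ?_ ?_
  · calc (E0 ^ 3)⁻¹ * ((K / X') * EHf ((J + 2 : ℕ) : ℝ) K X' Y (Λ * N₁)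
          (fun n => bt φ α p n * pw t (nm n))) ≤ (s * lN E0) * ((K / X') *
          EHf ((J + 2 : ℕ) : ℝ) K X' Y (Λ * N₁) (fun n => bt φ α p n * pw t (nm n))) :=
          mul_le_mul_of_nonneg_right hs (mul_nonneg hkx' hf0)
      _ = s * ((K / X') * (lN E0 * EHf ((J + 2 : ℕ) : ℝ) K X' Y (Λ * N₁)
          (fun n => bt φ α p n * pw t (nm n)))) := by ring
      _ ≤ s * ((K / X') * T4 ((J + 2 : ℕ) : ℝ) K X' Y (Λ * N₁) E0 (tN E0) (lN E0)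
          (fun n => bt φ α p n * pw t (nm n))) :=
          mul_le_mul_of_nonneg_left (mul_le_mul_of_nonneg_left hTf hkx') hs0
      _ = 1 * (s * ((K / X') * T4 ((J + 2 : ℕ) : ℝ) K X' Y (Λ * N₁) E0 (tN E0) (lN E0)
          (fun n => bt φ α p n * pw t (nm n)))) := (one_mul _).symm
      _ ≤ (Ce * Y ^ ε) * (s * ((K / X') * T4 ((J + 2 : ℕ) : ℝ) K X' Y (Λ * N₁) E0 (tN E0) (lN E0)
          (fun n => bt φ α p n * pw t (nm n)))) :=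
          mul_le_mul_of_nonneg_right hCe (mul_nonneg hs0 (mul_nonneg hkx' hT0))
      _ = _ := by ring
  · refine le_q hq hkx (by positivity) (by positivity) (le_of_eq ?_)
    ring

set_option maxHeartbeats 1000000 in
/-- **(LB) from the literal inputs**, second scale abstract -/
theorem lbn_coreQ {w : ℝ → ℝ} (hw : Wgt w) (hw0 : ∀ x, 0 ≤ w x) {N : ℕ} {M : ℝ}
    {F : ℕ → ℝ → ℂ} (hD : WD w N M F) {Cw R ε e₀ Ce : ℝ} {Aw J : ℕ} (hCw : 0 ≤ Cw) (hR : 0 ≤ R)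
    (hε : 0 < ε) (he₀ : 0 < e₀) (hCe : 0 ≤ Ce) (hJA : J + 2 ≤ Aw) {Λ : ℝ} (hΛ : 1 ≤ Λ)
    (c₁₀ : ℝ) : ∃ C : ℝ, 0 ≤ C ∧
    ∀ (K X Y E0 D G₀ η : ℝ) (N₀ N₁ : ℕ), 1 ≤ X → X ≤ Y → K ≤ Y → E0 ≤ Y → 0 ≤ D →
    D ≤ Y → (N₁ : ℝ) ≤ Y → Y ^ e₀ ≤ E0 → E0 ^ 60 ≤ K → 1 ≤ N₀ → N₀ ≤ N₁ →
    (N₁ : ℝ) * E0 ^ 30 ≤ K ^ 2 → 0 < η → η ≤ 1 → ∀ α : Eis → ℂ, (∀ n, α n ≠ 0 → n ∈ S Y) →
    (∀ n, α n ≠ 0 → |Real.log (nm n) - Real.log X| ≤ R) → (∀ n, ‖α n‖ ≤ Y ^ ε) →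
    ∀ Ma Ml Rn : ℝ, 0 ≤ Ma → 0 ≤ Ml → 0 ≤ Rn →
    (∀ g ∈ S Y, (nm g : ℝ) ≤ G₀ → ∀ V : ℝ, 1 ≤ V → V ≤ 9 * (Λ * N₁) * nm g → ∀ t : ℝ,
      VF V (tws (sg α g) t) ≤
        Ma / (nm g : ℝ) ^ 2 * ((V * K / (X / nm g) ^ 2) ^ (1 / 3 : ℝ)) * (1 + |t|) ^ J) →
    (∀ g ∈ S Y, ∀ B V : ℝ, 1 ≤ B → B ≤ Y → 1 ≤ V → V ≤ 9 * (Λ * N₁) / (nm g : ℝ) ^ 2 →
      ∀ t : ℝ, E1551.JB Y α (fun U => G₀ < nm (g * U)) g B V t ≤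
        Ml / (nm g : ℝ) ^ 2 * yv K X g V * (1 + |t|) ^ J) →
    BeA Cw η Aw K X R J α (FRc N M F K D E0 N₁) Rn →
    BeA Cw η Aw K X R J α (FRl N M F K D E0 N₁) Rn →
    BeA Cw η Aw K X R J α (FRo w Λ (J + 2) K Y D E0 N₀ N₁) Rn →
    (c₁₀ ≤ E0 → NumNz N M F Cw η Aw K X Y R J D E0 (tN E0) (lN E0) (hN E0) (E0 ^ 8) (E0 ^ 4)
      (K1N K E0) (K2N K E0) N₀ N₁ (J + 2) (Ce * Y ^ ε) (Λ * N₁) α (Y ^ ε * Y ^ ε * (Ce * Rn))) →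
    (X ^ 2 * E0 ^ 20 ≤ K * N₀ ∨
      NumS w (fun _ => Qc (K1N K E0)) Cw η Aw K X R J (hN E0) α (Y ^ ε * Y ^ ε * Rn)) →
    LBnq w (fun _ => Qc (K1N K E0)) Cw η Aw K X Y D N₁ (rho N₀ N₁) R J α
      (C * (η⁻¹) ^ (2 * J + 2) * Y ^ (4 * ε) *
        (X ^ 2 + E0 ^ (-(1 / 2) : ℝ) * (Ma + Ml) + Rn)) := by
  obtain ⟨C, hC, H⟩ := lb_nz hw hw0 hD (Cw := Cw) (R := R) (ε := ε) (e₀ := e₀) (Ce := Ce + 1)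
    (Aw := Aw) (J := J) hCw hR hε he₀ (by linarith) hJA (Λ := Λ) hΛ c₁₀
  refine ⟨C * (5 + Ce), by positivity, ?_⟩
  intro K X Y E0 D G₀ η N₀ N₁ hX hXY hKY hE0Y hD0 hDY hN₁Y hYE hEK hN₀ hN₀₁ h30 hη hη1 α
    hα hαR hαn Ma Ml Rn hMa hMl hRn hSA hL hRc hRl hRo hNT hroom
  have hY : 1 ≤ Y := by linarith
  have hY0 : 0 < Y := by linarith
  have hX0 : 0 < X := by linarith
  have hE1 : 1 ≤ E0 := LBp180.one_le_E0 he₀.le hY hYE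
  have hE0 : 0 < E0 := by linarith
  have hK1 : 1 ≤ K := (one_le_pow₀ hE1).trans hEK
  have hK : 0 < K := by linarith
  have hq : 1 ≤ Y ^ ε := Real.one_le_rpow hY hε.le
  have hqq : 1 ≤ Y ^ ε * Y ^ ε := one_le_mul_of_one_le_of_one_le hq hq
  have hCe1 : 1 ≤ (Ce + 1) * Y ^ ε := one_le_mul_of_one_le_of_one_le (by linarith) hq
  obtain ⟨I, hI, hI2⟩ := exI (hN₀.trans hN₀₁)
  have he3 : 0 ≤ (E0 ^ 3)⁻¹ * Rn := by positivity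
  have hexp0 : Real.exp (-(hN E0 / 3)) ≤ 1 := Real.exp_le_one_iff.mpr (by
    have := hN_nonneg hE1
    linarith)
  have he3' : (E0 ^ 3)⁻¹ ≤ 1 * lN E0 :=
    (e3_le hE1).trans (mul_le_mul_of_nonneg_right hexp0 (lN_pos hE1).le)
  have main := H K X Y E0 D G₀ η N₀ N₁ I hX hXY hKY hE0Y hD0 hDY hN₁Y hYE hEK hN₀ hN₀₁ h30 hI hη
    hη1 α hα hαR hαn Ma Ml Rn Rn (Ce * Rn) ((E0 ^ 3)⁻¹ * Rn) ((E0 ^ 3)⁻¹ * Rn) Rn hMa hMl hRn hRn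
    (by positivity) he3 he3 hRn hSA hL (fun hc => ⟨numR_of hI hI2 hqq hK.le hX0.le hRn hRc,
      numL_of hI hI2 hq hK.le hX0.le hRn hRl, ?_, ?_, ?_, ?_⟩)
  rotate_left
  · refine NumNz_mono ?_ ?_ ?_ ?_ (hNT hc)
    · exact (tN_pos hE1).le
    · exact (lN_pos hE1).le
    · exact hK.le
    · exact mul_le_mul_of_nonneg_right (by linarith) (by linarith)
  · have := numO_of (s := 1) (q := Y ^ ε * Y ^ ε) hE1 hK.le hX0.le hRn he3' zero_le_one hCe1 hqq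
      (Or.inl rfl) hRo
    rwa [mul_one] at this
  · exact numO_of (s := Real.exp (-(hN E0 / 3))) (q := Y ^ ε * Y ^ ε) hE1 hK.le hX0.le hRn
      (e3_le hE1) (Real.exp_pos _).le hCe1 hqq (Or.inr rfl) hRo
  · exact hroom
  refine LBt180.lbnq_mono hK.le hX0.le main ?_
  have g1 : (E0 ^ 3)⁻¹ * Rn ≤ Rn := mul_le_of_le_one_left hRn (inv_le_one_of_one_le₀ (one_le_pow₀ hE1))
  have g2 : E0 ^ (7 / 3 : ℝ) * ((E0 ^ 3)⁻¹ * Rn) ≤ Rn := by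
    rw [← mul_assoc]
    refine mul_le_of_le_one_left hRn ?_
    have e2 : (E0 ^ 3)⁻¹ = E0 ^ (-3 : ℝ) := by
      rw [Real.rpow_neg hE0.le]
      norm_num
    rw [e2, ← Real.rpow_add hE0]
    exact Real.rpow_le_one_of_one_le_of_nonpos hE1 (by norm_num)
  have g3 : 0 ≤ X ^ 2 + E0 ^ (-(1 / 2) : ℝ) * (Ma + Ml) := by positivity
  have g4 : X ^ 2 + E0 ^ (-(1 / 2) : ℝ) * (Ma + Ml) +
      (Rn + Rn + Ce * Rn + (E0 ^ 3)⁻¹ * Rn + E0 ^ (7 / 3 : ℝ) * ((E0 ^ 3)⁻¹ * Rn) + Rn) ≤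
      (5 + Ce) * (X ^ 2 + E0 ^ (-(1 / 2) : ℝ) * (Ma + Ml) + Rn) := by
    nlinarith [mul_nonneg hCe g3]
  calc C * (η⁻¹) ^ (2 * J + 2) * Y ^ (4 * ε) * (X ^ 2 + E0 ^ (-(1 / 2) : ℝ) * (Ma + Ml) +
      (Rn + Rn + Ce * Rn + (E0 ^ 3)⁻¹ * Rn + E0 ^ (7 / 3 : ℝ) * ((E0 ^ 3)⁻¹ * Rn) + Rn)) ≤
      C * (η⁻¹) ^ (2 * J + 2) * Y ^ (4 * ε) *
        ((5 + Ce) * (X ^ 2 + E0 ^ (-(1 / 2) : ℝ) * (Ma + Ml) + Rn)) :=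
        mul_le_mul_of_nonneg_left g4 (by positivity)
    _ = _ := by ring

/-- **(LB) from the literal inputs** -/
theorem lbn_core {w : ℝ → ℝ} (hw : Wgt w) (hw0 : ∀ x, 0 ≤ w x) {N : ℕ} {M : ℝ}
    {F : ℕ → ℝ → ℂ} (hD : WD w N M F) {Cw R ε e₀ Ce : ℝ} {Aw J : ℕ} (hCw : 0 ≤ Cw) (hR : 0 ≤ R)
    (hε : 0 < ε) (he₀ : 0 < e₀) (hCe : 0 ≤ Ce) (hJA : J + 2 ≤ Aw) {Λ : ℝ} (hΛ : 1 ≤ Λ)
    (c₁₀ : ℝ) : ∃ C : ℝ, 0 ≤ C ∧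
    ∀ (K X Y E0 D G₀ η : ℝ) (N₀ N₁ : ℕ), 1 ≤ X → X ≤ Y → K ≤ Y → E0 ≤ Y → 0 ≤ D →
    D ≤ Y → (N₁ : ℝ) ≤ Y → Y ^ e₀ ≤ E0 → E0 ^ 60 ≤ K → 1 ≤ N₀ → N₀ ≤ N₁ →
    (N₁ : ℝ) * E0 ^ 30 ≤ K ^ 2 → 0 < η → η ≤ 1 → ∀ α : Eis → ℂ, (∀ n, α n ≠ 0 → n ∈ S Y) →
    (∀ n, α n ≠ 0 → |Real.log (nm n) - Real.log X| ≤ R) → (∀ n, ‖α n‖ ≤ Y ^ ε) →
    ∀ Ma Ml Rn : ℝ, 0 ≤ Ma → 0 ≤ Ml → 0 ≤ Rn →
    (∀ g ∈ S Y, (nm g : ℝ) ≤ G₀ → ∀ V : ℝ, 1 ≤ V → V ≤ 9 * (Λ * N₁) * nm g → ∀ t : ℝ,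
      VF V (tws (sg α g) t) ≤
        Ma / (nm g : ℝ) ^ 2 * ((V * K / (X / nm g) ^ 2) ^ (1 / 3 : ℝ)) * (1 + |t|) ^ J) →
    (∀ g ∈ S Y, ∀ B V : ℝ, 1 ≤ B → B ≤ Y → 1 ≤ V → V ≤ 9 * (Λ * N₁) / (nm g : ℝ) ^ 2 →
      ∀ t : ℝ, E1551.JB Y α (fun U => G₀ < nm (g * U)) g B V t ≤
        Ml / (nm g : ℝ) ^ 2 * yv K X g V * (1 + |t|) ^ J) →
    BeA Cw η Aw K X R J α (FRc N M F K D E0 N₁) Rn →
    BeA Cw η Aw K X R J α (FRl N M F K D E0 N₁) Rn →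
    BeA Cw η Aw K X R J α (FRo w Λ (J + 2) K Y D E0 N₀ N₁) Rn →
    (c₁₀ ≤ E0 → NumNz N M F Cw η Aw K X Y R J D E0 (tN E0) (lN E0) (hN E0) (E0 ^ 8) (E0 ^ 4)
      (K1N K E0) (K2N K E0) N₀ N₁ (J + 2) (Ce * Y ^ ε) (Λ * N₁) α (Y ^ ε * Y ^ ε * (Ce * Rn))) →
    (X ^ 2 * E0 ^ 20 ≤ K * N₀ ∨ BeA Cw η Aw K X R J α (FSp w K E0) Rn) →
    LBnq w (fun _ => Qc (K1N K E0)) Cw η Aw K X Y D N₁ (rho N₀ N₁) R J α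
      (C * (η⁻¹) ^ (2 * J + 2) * Y ^ (4 * ε) *
        (X ^ 2 + E0 ^ (-(1 / 2) : ℝ) * (Ma + Ml) + Rn)) := by
  obtain ⟨C, hC, H⟩ := lbn_coreQ hw hw0 hD (Cw := Cw) (R := R) (ε := ε) (e₀ := e₀) (Ce := Ce)
    (Aw := Aw) (J := J) hCw hR hε he₀ hCe hJA (Λ := Λ) hΛ c₁₀
  refine ⟨C, hC, ?_⟩
  intro K X Y E0 D G₀ η N₀ N₁ hX hXY hKY hE0Y hD0 hDY hN₁Y hYE hEK hN₀ hN₀₁ h30 hη hη1 α
    hα hαR hαn Ma Ml Rn hMa hMl hRn hSA hL hRc hRl hRo hNT hroom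
  have hY : 1 ≤ Y := by linarith
  have hE1 : 1 ≤ E0 := LBp180.one_le_E0 he₀.le hY hYE
  have hK1 : 1 ≤ K := (one_le_pow₀ hE1).trans hEK
  have hq : 1 ≤ Y ^ ε := Real.one_le_rpow hY hε.le
  refine H K X Y E0 D G₀ η N₀ N₁ hX hXY hKY hE0Y hD0 hDY hN₁Y hYE hEK hN₀ hN₀₁ h30 hη hη1 α
    hα hαR hαn Ma Ml Rn hMa hMl hRn hSA hL hRc hRl hRo hNT (hroom.imp_right fun h => ?_)
  exact numS_of hw hw0 (one_le_mul_of_one_le_of_one_le hq hq) (by linarith) (by linarith) hRn _ h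

/-- **(LB) from the literal inputs**, second scale with the cut -/
theorem lbn_coreX {w : ℝ → ℝ} (hw : Wgt w) (hw0 : ∀ x, 0 ≤ w x) {N : ℕ} {M : ℝ}
    {F : ℕ → ℝ → ℂ} (hD : WD w N M F) {Cw R ε e₀ Ce : ℝ} {Aw J : ℕ} (hCw : 0 ≤ Cw) (hR : 0 ≤ R)
    (hε : 0 < ε) (he₀ : 0 < e₀) (hCe : 0 ≤ Ce) (hJA : J + 2 ≤ Aw) {Λ : ℝ} (hΛ : 1 ≤ Λ)
    (c₁₀ : ℝ) : ∃ C : ℝ, 0 ≤ C ∧
    ∀ (K X Y E0 D G₀ η : ℝ) (N₀ N₁ : ℕ), 1 ≤ X → X ≤ Y → K ≤ Y → E0 ≤ Y → 0 ≤ D →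
    D ≤ Y → (N₁ : ℝ) ≤ Y → Y ^ e₀ ≤ E0 → E0 ^ 60 ≤ K → 1 ≤ N₀ → N₀ ≤ N₁ →
    (N₁ : ℝ) * E0 ^ 30 ≤ K ^ 2 → 0 < η → η ≤ 1 → ∀ α : Eis → ℂ, (∀ n, α n ≠ 0 → n ∈ S Y) →
    (∀ n, α n ≠ 0 → |Real.log (nm n) - Real.log X| ≤ R) → (∀ n, ‖α n‖ ≤ Y ^ ε) →
    ∀ Ma Ml Rn : ℝ, 0 ≤ Ma → 0 ≤ Ml → 0 ≤ Rn →
    (∀ g ∈ S Y, (nm g : ℝ) ≤ G₀ → ∀ V : ℝ, 1 ≤ V → V ≤ 9 * (Λ * N₁) * nm g → ∀ t : ℝ,
      VF V (tws (sg α g) t) ≤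
        Ma / (nm g : ℝ) ^ 2 * ((V * K / (X / nm g) ^ 2) ^ (1 / 3 : ℝ)) * (1 + |t|) ^ J) →
    (∀ g ∈ S Y, ∀ B V : ℝ, 1 ≤ B → B ≤ Y → 1 ≤ V → V ≤ 9 * (Λ * N₁) / (nm g : ℝ) ^ 2 →
      ∀ t : ℝ, E1551.JB Y α (fun U => G₀ < nm (g * U)) g B V t ≤
        Ml / (nm g : ℝ) ^ 2 * yv K X g V * (1 + |t|) ^ J) →
    BeA Cw η Aw K X R J α (FRc N M F K D E0 N₁) Rn →
    BeA Cw η Aw K X R J α (FRl N M F K D E0 N₁) Rn →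
    BeA Cw η Aw K X R J α (FRo w Λ (J + 2) K Y D E0 N₀ N₁) Rn →
    (c₁₀ ≤ E0 → NumNz N M F Cw η Aw K X Y R J D E0 (tN E0) (lN E0) (hN E0) (E0 ^ 8) (E0 ^ 4)
      (K1N K E0) (K2N K E0) N₀ N₁ (J + 2) (Ce * Y ^ ε) (Λ * N₁) α (Y ^ ε * Y ^ ε * (Ce * Rn))) →
    (X ^ 2 * E0 ^ 20 ≤ K * N₀ ∨ BeA Cw η Aw K X R J α (FSq w K E0) Rn) →
    LBnq w (fun _ => Qc (K1N K E0)) Cw η Aw K X Y D N₁ (rho N₀ N₁) R J α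
      (C * (η⁻¹) ^ (2 * J + 2) * Y ^ (4 * ε) *
        (X ^ 2 + E0 ^ (-(1 / 2) : ℝ) * (Ma + Ml) + Rn)) := by
  obtain ⟨C, hC, H⟩ := lbn_coreQ hw hw0 hD (Cw := Cw) (R := R) (ε := ε) (e₀ := e₀) (Ce := Ce)
    (Aw := Aw) (J := J) hCw hR hε he₀ hCe hJA (Λ := Λ) hΛ c₁₀
  refine ⟨C, hC, ?_⟩
  intro K X Y E0 D G₀ η N₀ N₁ hX hXY hKY hE0Y hD0 hDY hN₁Y hYE hEK hN₀ hN₀₁ h30 hη hη1 α
    hα hαR hαn Ma Ml Rn hMa hMl hRn hSA hL hRc hRl hRo hNT hroom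
  have hY : 1 ≤ Y := by linarith
  have hE1 : 1 ≤ E0 := LBp180.one_le_E0 he₀.le hY hYE
  have hK1 : 1 ≤ K := (one_le_pow₀ hE1).trans hEK
  have hq : 1 ≤ Y ^ ε := Real.one_le_rpow hY hε.le
  refine H K X Y E0 D G₀ η N₀ N₁ hX hXY hKY hE0Y hD0 hDY hN₁Y hYE hEK hN₀ hN₀₁ h30 hη hη1 α
    hα hαR hαn Ma Ml Rn hMa hMl hRn hSA hL hRc hRl hRo hNT (hroom.imp_right fun h => ?_)
  exact numSQ_of (one_le_mul_of_one_le_of_one_le hq hq) (by linarith) (by linarith) hRn h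

end Crest.Agent.R017.LBx48
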