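import Crest.Agent.R017.LBf_298

/-!
# Row 17, (LB): the family theorem (helper298)

* `lb_exc`  : exceptional part of the B-line for a whole family, any number of lumps
* `lb_fam`  : the whole B-line: regular part (`5/6`-sup off the exceptional set) + exceptional part
* `tf_block` : the hypothesis on the blocks from families with `prin0 m` inserted
-/

set_option autoImplicit false

noncomputable section

open Complex Finset
open scoped ComplexConjugate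

namespace Crest.Agent.R017.Lbc298

open Crest.Agent.R012 Crest.Agent.R012.Eis Crest.Agent.R012.LS2 Crest.Agent.R012.Char766
open Crest.Agent.R017.CM106 Crest.Agent.R017.LV404 Crest.Agent.R017.HP842
open Crest.Agent.R017.End699 (prin0)
open Crest.Agent.R017.LB702 (ms ex mem_ex lb_reg)

lemma ms_five {L Λ : ℝ} : ms L Λ (5 / 6) = L ^ (4 / 9 : ℝ) * Λ ^ (5 / 3 : ℝ) := by
  unfold LB702.ms
  norm_num

/-- **(LB), exceptional part, a whole family.** -/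
theorem lb_exc (H : LVProp) {η d1 : ℝ} (hη : 0 < η) (hη1 : η ≤ 1 / 72) (hd : 0 < d1) (r N : ℕ) :
    ∃ C : ℝ, 1 ≤ C ∧ ∀ (K β S B Y : ℝ) (y : Eis → ℂ)
      (X : Fin N → ℝ) (p : Fin N → Eis → ℂ) (D : Finset Eis), 1 < K → 7 / 8 ≤ β → β ≤ 1 →
      1 ≤ S → 1 ≤ B → 1 ≤ Y → Cf r Y y →
      (∀ a, Cf r (X a) (p a)) → (∀ a, K ^ d1 ≤ X a) → (∀ a, X a ≤ K ^ (η ^ 2)) →
      Y * ∏ a, X a ≤ K ^ (10 : ℝ) →
      D ⊆ bl K → (∀ a, ∀ k ∈ D, ‖CS (p a) k‖ ≤ S * X a ^ β) →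
      (∀ (i j : ℕ) (m : Eis), m ≠ 0 → 1 ≤ K / (nm m : ℝ) ^ 3 →
        (K / (nm m : ℝ) ^ 3) ^ ((4 : ℝ) / 3) < Y →
        ∑ k ∈ D ∩ Bk K i j m, ‖CS y k‖ ^ 2 ≤ B * (K / (nm m : ℝ) ^ 3) * Y) →
      ∑ k ∈ exF D p X S (5 / 6 + 3 * η), ‖CS y k‖ ^ 2 * ∏ a, ‖CS (p a) k‖ ^ 2 ≤
        C * S ^ (2 * N) * B * K ^ (9 * η) *
          (K ^ (4 / 9 : ℝ) * (Y * ∏ a, X a) ^ (5 / 3 : ℝ) +
            K ^ max (8 / 3 * (1 - β)) (1 / 3) * (Y * ∏ a, X a) ^ (2 * β)) := by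
  classical
  obtain ⟨CA, K0, hCA, hK01, hA⟩ := block_A H hη hη1 hd r N
  obtain ⟨CB, hCB, hBB⟩ := block_B r N
  set CC := max CA (CB * K0 ^ (7 : ℝ)) with hCC
  have hCC1 : 1 ≤ CC := hCA.trans (le_max_left _ _)
  refine ⟨900 * (1 + 1 / η) * CC, ?_, ?_⟩
  · have : (1 : ℝ) ≤ 900 * (1 + 1 / η) := by
      have : 0 < 1 / η := by positivity
      linarith
    exact one_le_mul_of_one_le_of_one_le this hCC1
  intro K β S B Y y X p D hK hβ7 hβ hS hB hY hy hp hX1 hX2 hlen hD hsup htf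
  have hK0 : 0 < K := by linarith
  have hS0 : 0 < S := by linarith
  have hB0 : 0 < B := by linarith
  set Λ := Y * ∏ a, X a with hΛ
  set bm := max (8 / 3 * (1 - β)) (1 / 3) with hbm
  have hXone : ∀ a, 1 ≤ X a := fun a => (Real.one_le_rpow hK.le hd.le).trans (hX1 a)
  have hΛ1 : 1 ≤ Λ := by
    refine one_le_mul_of_one_le_of_one_le hY ?_
    calc (1 : ℝ) = ∏ _a : Fin N, (1 : ℝ) := by simp
      _ ≤ ∏ a, X a := Finset.prod_le_prod (fun _ _ => by norm_num) fun a _ => hXone a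
  have hΛ0 : 0 < Λ := by linarith
  set M := K ^ (4 / 9 : ℝ) * Λ ^ (5 / 3 : ℝ) + K ^ bm * Λ ^ (2 * β) with hM
  have hM0 : 0 ≤ M := by positivity
  set Bt := CC * S ^ (2 * N) * B * K ^ (8 * η) * M with hBt
  have hBt0 : 0 ≤ Bt := by positivity
  set G : Eis → ℝ := fun k => ‖CS y k‖ ^ 2 * ∏ a, ‖CS (p a) k‖ ^ 2 with hG
  have hG0 : ∀ k, 0 ≤ G k := fun k =>
    mul_nonneg (sq_nonneg _) (Finset.prod_nonneg fun _ _ => sq_nonneg _)
  set E := exF D p X S (5 / 6 + 3 * η) with hE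
  have hED : E ⊆ D := Finset.filter_subset _ _
  -- each block
  have hblock : ∀ i < 3, ∀ j < 3, ∀ m : Eis, m ≠ 0 → 1 ≤ K / (nm m : ℝ) ^ 3 →
      ∑ k ∈ Bk K i j m, (if k ∈ E then G k else 0) ≤ Bt / nm m := by
    intro i _ j _ m hm hL1
    set L := K / (nm m : ℝ) ^ 3 with hL
    set D' := D ∩ Bk K i j m with hD'
    have hnm := nm_pos' hm
    have hD'B : D' ⊆ Bk K i j m := Finset.inter_subset_right
    have hD'D : ∀ k ∈ D', k ∈ D := fun k hk => (Finset.mem_inter.mp hk).1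
    have e1 : ∑ k ∈ Bk K i j m, (if k ∈ E then G k else 0) =
        ∑ k ∈ exF D' p X S (5 / 6 + 3 * η), G k := by
      rw [← Finset.sum_filter]
      refine Finset.sum_congr ?_ fun _ _ => rfl
      ext k
      simp only [hE, exF, hD', Finset.mem_filter, Finset.mem_inter]
      tauto
    rw [e1]
    have hsup' : ∀ a, ∀ k ∈ D', ‖CS (p a) k‖ ≤ S * X a ^ β := fun a k hk =>
      hsup a k (hD'D k hk)
    have htf' := htf i j m hm hL1
    by_cases hcase : K ^ η ≤ L ∧ K0 ≤ L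
    · refine (hA K β S B Y i j m y X p D' hK hβ7 hβ hS hB hY hm hcase.1 hcase.2 hy hp hX1 hX2
        hlen hD'B hsup' htf').trans ?_
      have p1 : L ^ (4 / 9 : ℝ) ≤ K ^ (4 / 9 : ℝ) / nm m := by
        have := pow_red_le (a := 4 / 9) hK.le hm hL1
        have e : max (4 / 9 : ℝ) (1 / 3) = 4 / 9 := max_eq_left (by norm_num)
        rw [e] at this
        exact this
      have p2 : L ^ (8 / 3 * (1 - β)) ≤ K ^ bm / nm m := pow_red_le hK.le hm hL1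
      have p3 : ms L Λ (5 / 6) + ms L Λ β ≤ M / nm m := by
        rw [ms_five]
        unfold LB702.ms
        calc L ^ (4 / 9 : ℝ) * Λ ^ (5 / 3 : ℝ) + L ^ (8 / 3 * (1 - β)) * Λ ^ (2 * β)
            ≤ K ^ (4 / 9 : ℝ) / nm m * Λ ^ (5 / 3 : ℝ) + K ^ bm / nm m * Λ ^ (2 * β) := by
              gcongr
          _ = M / nm m := by rw [hM]; ring
      calc CA * S ^ (2 * N) * B * K ^ (8 * η) * (ms L Λ (5 / 6) + ms L Λ β)
          ≤ CC * S ^ (2 * N) * B * K ^ (8 * η) * (M / nm m) := by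
            have : CA ≤ CC := le_max_left _ _
            have hL0 : 0 < L := by linarith
            have := LB702.ms_pos hL0 hΛ0 (5 / 6)
            have := LB702.ms_pos hL0 hΛ0 β
            gcongr
        _ = Bt / nm m := by rw [hBt]; ring
    · have hLK1 : L ≤ K0 * K ^ η := by
        have hKη : 1 ≤ K ^ η := Real.one_le_rpow hK.le hη.le
        rcases not_and_or.mp hcase with h | h
        · calc L ≤ K ^ η := (not_le.mp h).le
            _ = 1 * K ^ η := (one_mul _).symm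
            _ ≤ K0 * K ^ η := by gcongr
        · calc L ≤ K0 := (not_le.mp h).le
            _ = K0 * 1 := (mul_one _).symm
            _ ≤ K0 * K ^ η := by gcongr
      have h1 := hBB K (K0 * K ^ η) β S B Y i j m y X p D' hK hβ7 hS hB hY hm hL1 hLK1 hy hXone
        hD'B hsup' htf'
      have h2 : ∑ k ∈ exF D' p X S (5 / 6 + 3 * η), G k ≤ ∑ k ∈ D', G k :=
        Finset.sum_le_sum_of_subset_of_nonneg (Finset.filter_subset _ _) fun k _ _ => hG0 k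
      refine (h2.trans h1).trans ?_
      have hmK : (nm m : ℝ) ≤ K ^ ((1 : ℝ) / 3) := by
        have h3 : (nm m : ℝ) ^ 3 ≤ K := by
          rw [hL, le_div_iff₀ (by positivity)] at hL1; linarith
        calc (nm m : ℝ) = ((nm m : ℝ) ^ 3) ^ ((1 : ℝ) / 3) := by
              rw [← Real.rpow_natCast, ← Real.rpow_mul hnm.le]
              norm_num
          _ ≤ K ^ ((1 : ℝ) / 3) := Real.rpow_le_rpow (by positivity) h3 (by norm_num)
      have hmK' : (nm m : ℝ) ≤ K ^ bm :=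
        hmK.trans (Real.rpow_le_rpow_of_exponent_le hK.le (le_max_right _ _))
      have h4 : 1 ≤ K ^ bm / nm m := by rw [le_div_iff₀ hnm]; linarith
      have h5 : Λ ^ (2 * β) ≤ M / nm m := by
        have h6 : K ^ bm * Λ ^ (2 * β) ≤ M := by
          rw [hM]
          have : 0 ≤ K ^ (4 / 9 : ℝ) * Λ ^ (5 / 3 : ℝ) := by positivity
          linarith
        have h7 : 0 < Λ ^ (2 * β) := Real.rpow_pos_of_pos hΛ0 _
        calc Λ ^ (2 * β) = 1 * Λ ^ (2 * β) := (one_mul _).symm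
          _ ≤ K ^ bm / nm m * Λ ^ (2 * β) := by gcongr
          _ = K ^ bm * Λ ^ (2 * β) / nm m := by ring
          _ ≤ M / nm m := by gcongr
      have h8 : (K0 * K ^ η) ^ (7 : ℝ) = K0 ^ (7 : ℝ) * K ^ (7 * η) := by
        rw [Real.mul_rpow (by linarith) (by positivity), ← Real.rpow_mul hK0.le]
        congr 2; ring
      have h9 : K ^ (7 * η) ≤ K ^ (8 * η) :=
        Real.rpow_le_rpow_of_exponent_le hK.le (by linarith)
      calc CB * S ^ (2 * N) * B * (K0 * K ^ η) ^ (7 : ℝ) * Λ ^ (2 * β)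
          = (CB * K0 ^ (7 : ℝ)) * S ^ (2 * N) * B * K ^ (7 * η) * Λ ^ (2 * β) := by
            rw [h8]; ring
        _ ≤ CC * S ^ (2 * N) * B * K ^ (8 * η) * (M / nm m) := by
            have : CB * K0 ^ (7 : ℝ) ≤ CC := le_max_right _ _
            gcongr
        _ = Bt / nm m := by rw [hBt]; ring
  have hsum := sum_blocks_le hK.le hBt0 (fun k => if k ∈ E then G k else 0) hblock
  have e2 : ∑ k ∈ E, G k = ∑ k ∈ bl K, (if k ∈ E then G k else 0) := by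
    rw [← Finset.sum_filter]
    refine Finset.sum_congr ?_ fun _ _ => rfl
    ext k
    rw [Finset.mem_filter]
    exact ⟨fun h => ⟨hD (hED h), h⟩, fun h => h.2⟩
  rw [e2]
  refine hsum.trans ?_
  have hlog := log_le_pow hK hη
  have hKη : 1 ≤ K ^ η := Real.one_le_rpow hK.le hη.le
  have h1 : 1 + Real.log K ≤ (1 + 1 / η) * K ^ η := by
    have e : K ^ η / η = 1 / η * K ^ η := by ring
    rw [e] at hlog
    nlinarith
  calc 900 * (1 + Real.log K) * Bt ≤ 900 * ((1 + 1 / η) * K ^ η) * Bt := by gcongr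
    _ = 900 * (1 + 1 / η) * CC * S ^ (2 * N) * B * (K ^ η * K ^ (8 * η)) * M := by
        rw [hBt]; ring
    _ = 900 * (1 + 1 / η) * CC * S ^ (2 * N) * B * K ^ (9 * η) * M := by
        rw [← Real.rpow_add hK0]; congr 3; ring

/-- the regular part -/
theorem lb_regular {N : ℕ} {K S Y η : ℝ} {y : Eis → ℂ} {X : Fin N → ℝ}
    {p : Fin N → Eis → ℂ} {D : Finset Eis} (hK : 1 < K) (hS : 1 ≤ S) (hη : 0 < η) (hY : 1 ≤ Y)
    (hX : ∀ a, 1 ≤ X a) (hlen : Y * ∏ a, X a ≤ K ^ (10 : ℝ)) (J0 : Finset (Fin N)) :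
    ∑ k ∈ D \ exF D p X S (5 / 6 + 3 * η), ‖CS y k‖ ^ 2 * ∏ a, ‖CS (p a) k‖ ^ 2 ≤
      S ^ (2 * N) * K ^ (60 * η) * (∏ a ∈ Finset.univ \ J0, X a) ^ (5 / 3 : ℝ) *
        ∑ k ∈ D, ‖CS y k‖ ^ 2 * ∏ a ∈ J0, ‖CS (p a) k‖ ^ 2 := by
  classical
  have hK0 : 0 < K := by linarith
  have hS0 : 0 < S := by linarith
  have h1 := lb_reg (S := D) (J := Finset.univ) (g := fun k => ‖CS y k‖)
    (P := fun a k => ‖CS (p a) k‖ / S) (X := X) (fun a _ => hX a) (fun a _ k _ => by positivity)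
    (J₀ := J0) (Finset.subset_univ _) (μ₀ := 5 / 6 + 3 * η)
  rw [ex_eq D p X hS0] at h1
  replace h1 : ∑ k ∈ D \ exF D p X S (5 / 6 + 3 * η), ‖CS y k‖ ^ 2 *
      ∏ a, (‖CS (p a) k‖ / S) ^ 2 ≤ _ := le_trans (le_of_eq (Finset.sum_congr (by
        ext k; simp [Finset.mem_filter, Finset.mem_sdiff]) fun _ _ => rfl)) h1
  have e2 : ∑ k ∈ D \ exF D p X S (5 / 6 + 3 * η), ‖CS y k‖ ^ 2 * ∏ a, ‖CS (p a) k‖ ^ 2 =
      S ^ (2 * N) * ∑ k ∈ D \ exF D p X S (5 / 6 + 3 * η), ‖CS y k‖ ^ 2 *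
        ∏ a, (‖CS (p a) k‖ / S) ^ 2 := by
    rw [Finset.mul_sum]
    refine Finset.sum_congr rfl fun k _ => ?_
    rw [prod_div_sq _ S hS0]
    field_simp
  rw [e2]
  set Q := ∏ a ∈ Finset.univ \ J0, X a with hQ
  have h1' : ∑ k ∈ D \ exF D p X S (5 / 6 + 3 * η), ‖CS y k‖ ^ 2 *
      ∏ a, (‖CS (p a) k‖ / S) ^ 2 ≤ Q ^ (2 * (5 / 6 + 3 * η)) *
        ∑ k ∈ D, ‖CS y k‖ ^ 2 * ∏ i ∈ J0, (‖CS (p i) k‖ / S) ^ 2 := by
    rw [hQ]
    convert h1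
  have hQ1 : 1 ≤ Q := by
    calc (1 : ℝ) = ∏ _a ∈ Finset.univ \ J0, (1 : ℝ) := by simp
      _ ≤ Q := Finset.prod_le_prod (fun _ _ => by norm_num) fun a _ => hX a
  have hQ10 : Q ≤ K ^ (10 : ℝ) := by
    have h2 : Q ≤ ∏ a, X a := by
      rw [← Finset.prod_sdiff (Finset.subset_univ J0)]
      have h3 : 1 ≤ ∏ a ∈ J0, X a := by
        calc (1 : ℝ) = ∏ _a ∈ J0, (1 : ℝ) := by simp
          _ ≤ _ := Finset.prod_le_prod (fun _ _ => by norm_num) fun a _ => hX a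
      exact le_mul_of_one_le_right (by linarith) h3
    have h4 : 0 ≤ ∏ a, X a := Finset.prod_nonneg fun a _ => by linarith [hX a]
    calc Q ≤ ∏ a, X a := h2
      _ = 1 * ∏ a, X a := (one_mul _).symm
      _ ≤ Y * ∏ a, X a := by gcongr
      _ ≤ _ := hlen
  have hQpow : Q ^ (2 * (5 / 6 + 3 * η)) ≤ K ^ (60 * η) * Q ^ (5 / 3 : ℝ) := by
    calc Q ^ (2 * (5 / 6 + 3 * η)) = Q ^ (6 * η) * Q ^ (5 / 3 : ℝ) := by
          rw [← Real.rpow_add (by linarith)]; congr 1; ring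
      _ ≤ (K ^ (10 : ℝ)) ^ (6 * η) * Q ^ (5 / 3 : ℝ) := by gcongr
      _ = K ^ (60 * η) * Q ^ (5 / 3 : ℝ) := by
          rw [← Real.rpow_mul hK0.le]; congr 2; ring
  have h5 : ∑ k ∈ D, ‖CS y k‖ ^ 2 * ∏ a ∈ J0, (‖CS (p a) k‖ / S) ^ 2 ≤
      ∑ k ∈ D, ‖CS y k‖ ^ 2 * ∏ a ∈ J0, ‖CS (p a) k‖ ^ 2 := by
    refine Finset.sum_le_sum fun k _ => ?_
    refine mul_le_mul_of_nonneg_left ?_ (sq_nonneg _)
    refine Finset.prod_le_prod (fun a _ => sq_nonneg _) fun a _ => ?_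
    exact pow_le_pow_left₀ (by positivity) (div_le_self (norm_nonneg _) hS) 2
  have h6 : 0 ≤ ∑ k ∈ D, ‖CS y k‖ ^ 2 * ∏ a ∈ J0, ‖CS (p a) k‖ ^ 2 :=
    Finset.sum_nonneg fun k _ => mul_nonneg (sq_nonneg _) (Finset.prod_nonneg fun _ _ => sq_nonneg _)
  calc S ^ (2 * N) * ∑ k ∈ D \ exF D p X S (5 / 6 + 3 * η), ‖CS y k‖ ^ 2 *
        ∏ a, (‖CS (p a) k‖ / S) ^ 2
      ≤ S ^ (2 * N) * (Q ^ (2 * (5 / 6 + 3 * η)) *
          ∑ k ∈ D, ‖CS y k‖ ^ 2 * ∏ a ∈ J0, (‖CS (p a) k‖ / S) ^ 2) :=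
        mul_le_mul_of_nonneg_left h1' (by positivity)
    _ ≤ S ^ (2 * N) * ((K ^ (60 * η) * Q ^ (5 / 3 : ℝ)) *
          ∑ k ∈ D, ‖CS y k‖ ^ 2 * ∏ a ∈ J0, ‖CS (p a) k‖ ^ 2) := by
        refine mul_le_mul_of_nonneg_left ?_ (by positivity)
        refine mul_le_mul hQpow h5 (Finset.sum_nonneg fun k _ => mul_nonneg (sq_nonneg _)
          (Finset.prod_nonneg fun _ _ => sq_nonneg _)) (by positivity)
    _ = _ := by ring

/-- **(LB) for a whole family.** `D` any set of frequencies on which the granular pieces obey the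
sup bound; `J0` the granular pieces kept in the regular part. -/
theorem lb_fam (H : LVProp) {η d1 : ℝ} (hη : 0 < η) (hη1 : η ≤ 1 / 72) (hd : 0 < d1) (r N : ℕ) :
    ∃ C : ℝ, 1 ≤ C ∧ ∀ (K β S B Y : ℝ) (y : Eis → ℂ)
      (X : Fin N → ℝ) (p : Fin N → Eis → ℂ) (D : Finset Eis) (J0 : Finset (Fin N)),
      1 < K → 7 / 8 ≤ β → β ≤ 1 → 1 ≤ S → 1 ≤ B → 1 ≤ Y → Cf r Y y →
      (∀ a, Cf r (X a) (p a)) → (∀ a, K ^ d1 ≤ X a) → (∀ a, X a ≤ K ^ (η ^ 2)) →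
      Y * ∏ a, X a ≤ K ^ (10 : ℝ) →
      D ⊆ bl K → (∀ a, ∀ k ∈ D, ‖CS (p a) k‖ ≤ S * X a ^ β) →
      (∀ (i j : ℕ) (m : Eis), m ≠ 0 → 1 ≤ K / (nm m : ℝ) ^ 3 →
        (K / (nm m : ℝ) ^ 3) ^ ((4 : ℝ) / 3) < Y →
        ∑ k ∈ D ∩ Bk K i j m, ‖CS y k‖ ^ 2 ≤ B * (K / (nm m : ℝ) ^ 3) * Y) →
      ∑ k ∈ D, ‖CS y k‖ ^ 2 * ∏ a, ‖CS (p a) k‖ ^ 2 ≤
        C * S ^ (2 * N) * K ^ (60 * η) *
          ((∏ a ∈ Finset.univ \ J0, X a) ^ (5 / 3 : ℝ) *
              ∑ k ∈ D, ‖CS y k‖ ^ 2 * ∏ a ∈ J0, ‖CS (p a) k‖ ^ 2 +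
            B * (K ^ (4 / 9 : ℝ) * (Y * ∏ a, X a) ^ (5 / 3 : ℝ) +
              K ^ max (8 / 3 * (1 - β)) (1 / 3) * (Y * ∏ a, X a) ^ (2 * β))) := by
  classical
  obtain ⟨C, hC, hexc⟩ := lb_exc H hη hη1 hd r N
  refine ⟨C, hC, ?_⟩
  intro K β S B Y y X p D J0 hK hβ7 hβ hS hB hY hy hp hX1 hX2 hlen hD hsup htf
  have hK0 : 0 < K := by linarith
  have hXone : ∀ a, 1 ≤ X a := fun a => (Real.one_le_rpow hK.le hd.le).trans (hX1 a)
  have h1 := hexc K β S B Y y X p D hK hβ7 hβ hS hB hY hy hp hX1 hX2 hlen hD hsup htf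
  have h2 := lb_regular (y := y) (p := p) (D := D) hK hS hη hY hXone hlen J0
  have hsub : exF D p X S (5 / 6 + 3 * η) ⊆ D := Finset.filter_subset _ _
  rw [← Finset.sum_sdiff hsub]
  set R := (∏ a ∈ Finset.univ \ J0, X a) ^ (5 / 3 : ℝ) *
              ∑ k ∈ D, ‖CS y k‖ ^ 2 * ∏ a ∈ J0, ‖CS (p a) k‖ ^ 2 with hR
  set M := K ^ (4 / 9 : ℝ) * (Y * ∏ a, X a) ^ (5 / 3 : ℝ) +
              K ^ max (8 / 3 * (1 - β)) (1 / 3) * (Y * ∏ a, X a) ^ (2 * β) with hM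
  have hΛ : 0 < Y * ∏ a, X a := by
    have : 0 < ∏ a, X a := Finset.prod_pos fun a _ => by linarith [hXone a]
    positivity
  have hM0 : 0 ≤ M := by positivity
  have hR0 : 0 ≤ R := mul_nonneg
    (Real.rpow_nonneg (Finset.prod_nonneg fun a _ => by linarith [hXone a]) _)
    (Finset.sum_nonneg fun k _ => mul_nonneg (sq_nonneg _) (Finset.prod_nonneg fun _ _ => sq_nonneg _))
  have h9 : K ^ (9 * η) ≤ K ^ (60 * η) := Real.rpow_le_rpow_of_exponent_le hK.le (by linarith)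
  calc _ ≤ S ^ (2 * N) * K ^ (60 * η) * (∏ a ∈ Finset.univ \ J0, X a) ^ (5 / 3 : ℝ) *
        (∑ k ∈ D, ‖CS y k‖ ^ 2 * ∏ a ∈ J0, ‖CS (p a) k‖ ^ 2) +
        C * S ^ (2 * N) * B * K ^ (9 * η) * M := add_le_add h2 h1
    _ = 1 * S ^ (2 * N) * K ^ (60 * η) * R + C * S ^ (2 * N) * B * K ^ (9 * η) * M := by
        rw [hR]; ring
    _ ≤ C * S ^ (2 * N) * K ^ (60 * η) * R + C * S ^ (2 * N) * B * K ^ (60 * η) * M := by
        gcongr
    _ = _ := by ring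

/-- the block hypothesis from the families with the coprimality inserted -/
theorem tf_block {K : ℝ} (hK : 0 ≤ K) {y : Eis → ℂ} (hy : FS y) {D : Finset Eis}
    (Q : Eis → Prop) [DecidablePred Q] (hQ : ∀ k ∈ D, Q (red k)) (i j : ℕ) (m : Eis) :
    ∑ k ∈ D ∩ Bk K i j m, ‖CS y k‖ ^ 2 ≤
      ∑ k ∈ (bl (K / (nm m : ℝ) ^ 3)).filter Q, ‖CS (fun n => y n * prin0 m n) k‖ ^ 2 := by
  classical
  have h1 := blk_le hK i j m (F := fun k => if Q k then ‖CS (fun n => y n * prin0 m n) k‖ ^ 2 else 0)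
    (fun k => by split_ifs <;> positivity)
  rw [← Finset.sum_filter (s := bl (K / (nm m : ℝ) ^ 3))] at h1
  refine le_trans ?_ h1
  have h2 : ∀ k ∈ D ∩ Bk K i j m, ‖CS y k‖ ^ 2 =
      (if Q (red k) then ‖CS (fun n => y n * prin0 m n) (red k)‖ ^ 2 else 0) := by
    intro k hk
    rw [Finset.mem_inter] at hk
    have hk2 := (mem_Bk hK).mp hk.2
    rw [if_pos (hQ k hk.1), CS_red hy hk2.1.1, hk2.2.2.2]
  rw [Finset.sum_congr rfl h2]
  exact Finset.sum_le_sum_of_subset_of_nonneg Finset.inter_subset_right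
    fun k _ _ => by split_ifs <;> positivity

end Crest.Agent.R017.Lbc298
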