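import Crest.Agent.R017.LBf_48

/-!
# Row 17, C.REMg, (LB), part g (helper48): the large cubes

* `tail_one` : one `T`
* `CrQ_tail` : the identity of 813 for complex weights
* `tail_F` : the cross sum over the `k` which are not cut
-/

set_option autoImplicit false

noncomputable section

open Complex MeasureTheory
open scoped ComplexConjugate Classical

namespace Crest.Agent.R017.LBx48

open Crest.Agent.R012 Crest.Agent.R012.Eis Crest.Agent.R012.MC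
open Crest.Agent.R012.LS2 (S mem_S)
open Crest.Agent.R012.Mob705 (pdiv mem_pdiv kap0 mu PE)
open Crest.Agent.R012.Div277 (tau dvs mem_dvs nz sum_tau_pow_div_le primBall_subset_nz)
open Crest.Agent.R017.PX764 (Gh n6 th)
open Crest.Agent.R017.X6C180 (n13 cM)
open Crest.Agent.R017.CM106 (CS TG FS)
open Crest.Agent.R017.E1551 hiding tau Dg
open Crest.Agent.R017.C70 (JW JC OKJ okJ_JW)
open Crest.Agent.R017.E2440 (TE StE StT TOK tok_TE E2finG Jb MX AX ApM AX_ApM QsG_ApM cM_nn Qs)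
open Crest.Agent.R017.I1146 (M2t)
open Crest.Agent.R017.E3M829 (TF)
open Crest.Agent.R017.DgB829 (HS HS_nonneg HS_le)
open Crest.Agent.R017.End699 (prin0)
open Crest.Agent.R017.CubL813 (TT tok_TT lamT norm_lamT_le sum_notCut StE_cubeT)
open Crest.Agent.R017.E5Q571 (Cut CS_cube)
open Crest.Agent.R017.Ex385 (CrQ)
open Crest.Agent.R017.EHu320 (EHc)

/-- the `T`-part of the small `e` -/
def AS (E0 : ℝ) (J : Finset (Eis × Eis)) (α : Eis → ℂ) : ℝ :=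
  ∑ x ∈ J, n13 x.2 * ∑ u ∈ S E0, ((nm u : ℝ) * (tau u : ℝ) ^ 4) * ‖TE α x u‖ ^ 2

/-- the `T`-part of all `e` -/
def BS (Y : ℝ) (J : Finset (Eis × Eis)) (α : Eis → ℂ) : ℝ :=
  ∑ x ∈ J, n13 x.2 * ∑ u ∈ S Y, ((nm u : ℝ)⁻¹ * (tau u : ℝ) ^ 4) * ‖TE α x u‖ ^ 2

lemma AS_nonneg (E0 : ℝ) (J : Finset (Eis × Eis)) (α : Eis → ℂ) : 0 ≤ AS E0 J α :=
  Finset.sum_nonneg fun x _ => mul_nonneg (X6C180.n13_nonneg _)
    (Finset.sum_nonneg fun _ _ => by positivity)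

lemma BS_nonneg (Y : ℝ) (J : Finset (Eis × Eis)) (α : Eis → ℂ) : 0 ≤ BS Y J α :=
  Finset.sum_nonneg fun x _ => mul_nonneg (X6C180.n13_nonneg _)
    (Finset.sum_nonneg fun _ _ => by positivity)

theorem AS_le (R : ℝ) (hR : 0 ≤ R) (A : ℕ) (hA : 2 ≤ A) : ∃ C : ℝ, 0 ≤ C ∧
    ∀ (Y X K D Y₀ Z E0 : ℝ), 1 ≤ Y → 0 < X → 0 < K → 0 ≤ E0 → E0 ≤ Y →
    ∀ α : Eis → ℂ, Adm Y X R α →
      K ^ (2 / 3 : ℝ) * AS E0 (JW D Y₀ Z) α ≤ C * (K / X) * EHs A K X Y Z E0 α ∧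
      K ^ (2 / 3 : ℝ) * BS Y (JW D Y₀ Z) α ≤ C * (K / X) * EHf A K X Y Z α := by
  obtain ⟨C, hC, H⟩ := T_le_EHc R hR A hA
  refine ⟨C, hC, fun Y X K D Y₀ Z E0 hY hX hK hE0 hEY α hα => ⟨?_, ?_⟩⟩
  · have h := H Y X K D Y₀ Z hY hX hK (fun n => (n : ℝ)) (fun e => e ∈ S E0)
      (fun n => Nat.cast_nonneg n) α hα
    have e1 : ∀ inst : DecidablePred (fun e : Eis => e ∈ S E0),
        @Finset.filter Eis (fun e => e ∈ S E0) inst (S Y) = S E0 := by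
      intro inst
      ext e
      rw [Finset.mem_filter]
      exact ⟨fun h => h.2, fun h => ⟨DgB829.S_mono hE0 hEY h, h⟩⟩
    simp only [e1] at h
    exact h
  · have h := H Y X K D Y₀ Z hY hX hK (fun n => ((n : ℝ))⁻¹) (fun _ => True)
      (fun n => by positivity) α hα
    rw [Finset.filter_true] at h
    exact h

/-- the first moments of `TT` are bounded by `AS` -/
lemma TF_TT {T : Eis} (hT : IsPrim T) {E0 : ℝ} (hE0 : 0 ≤ E0) (J : Finset (Eis × Eis))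
    {om : Eis × Eis → ℂ} (hom : ∀ x, ‖om x‖ ≤ 1) (α : Eis → ℂ) :
    TF 1 J om E0 (fun δ e j => TT T E0 (TE α) (δ, j) e) ≤ (tau T : ℝ) ^ 2 * AS E0 J α := by
  unfold E3M829.TF AS
  rw [Finset.mul_sum]
  refine Finset.sum_le_sum fun x _ => ?_
  have h1 := TT_sq hT hE0 (TE α) x (c := fun e => (nm e : ℝ) ^ (1 : ℝ))
    (c' := fun e => (nm e : ℝ) * (tau e : ℝ) ^ 4) (fun e => by positivity)
    (fun d e hd he => by
      have hτ := one_le_tauR (hd.mul he)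
      have h2 : (1 : ℝ) ≤ (tau (d * e) : ℝ) ^ 4 := one_le_pow₀ hτ
      have hdn : (1 : ℝ) ≤ nm d := by exact_mod_cast nm_pos.mpr hd.ne_zero
      rw [Real.rpow_one, nm_mul]
      push_cast
      have h3 : (nm e : ℝ) ≤ nm d * nm e := le_mul_of_one_le_left (Nat.cast_nonneg _) hdn
      exact h3.trans (le_mul_of_one_le_right (by positivity) h2))
    (fun e => by positivity)
  have h2 : ‖om x‖ ^ 2 ≤ 1 := pow_le_one₀ (norm_nonneg _) (hom x)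
  have h3 : 0 ≤ (nm x.2 : ℝ) ^ (-(1 : ℝ) / 3) := by positivity
  have h4 : 0 ≤ ∑ e ∈ S E0, (nm e : ℝ) ^ (1 : ℝ) * ‖TT T E0 (TE α) x e‖ ^ 2 :=
    Finset.sum_nonneg fun _ _ => by positivity
  have e1 : (fun δ e j => TT T E0 (TE α) (δ, j) e) x.1 = fun e j => TT T E0 (TE α) (x.1, j) e := rfl
  calc ‖om x‖ ^ 2 * ((nm x.2 : ℝ) ^ (-(1 : ℝ) / 3) *
        ∑ e ∈ S E0, (nm e : ℝ) ^ (1 : ℝ) * ‖TT T E0 (TE α) (x.1, x.2) e‖ ^ 2) ≤
      1 * ((nm x.2 : ℝ) ^ (-(1 : ℝ) / 3) *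
        ∑ e ∈ S E0, (nm e : ℝ) ^ (1 : ℝ) * ‖TT T E0 (TE α) x e‖ ^ 2) :=
        mul_le_mul_of_nonneg_right h2 (mul_nonneg h3 h4)
    _ ≤ 1 * ((nm x.2 : ℝ) ^ (-(1 : ℝ) / 3) * ((tau T : ℝ) ^ 2 *
        ∑ u ∈ S E0, ((nm u : ℝ) * (tau u : ℝ) ^ 4) * ‖TE α x u‖ ^ 2)) := by
        rw [one_mul, one_mul]
        exact mul_le_mul_of_nonneg_left h1 h3
    _ = _ := by
        unfold X6C180.n13
        ring

/-- the first moments of `TT` with `τ/nm` are bounded by `AS` -/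
lemma A1_TT {T : Eis} (hT : IsPrim T) {E0 : ℝ} (hE0 : 0 ≤ E0) (J : Finset (Eis × Eis))
    (α : Eis → ℂ) :
    ∑ x ∈ J, n13 x.2 * ∑ e ∈ S E0, (tau e : ℝ) / nm e * ‖TT T E0 (TE α) x e‖ ^ 2 ≤
      (tau T : ℝ) ^ 2 * AS E0 J α := by
  unfold AS
  rw [Finset.mul_sum]
  refine Finset.sum_le_sum fun x _ => ?_
  have h1 := TT_sq hT hE0 (TE α) x (c := fun e => if IsPrim e then (tau e : ℝ) / nm e else 0)
    (c' := fun e => (nm e : ℝ) * (tau e : ℝ) ^ 4) (fun e => by positivity)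
    (fun d e hd he => by
      rw [if_pos he]
      have hτ := one_le_tauR (hd.mul he)
      have hτe : (tau e : ℝ) ≤ tau (d * e) :=
        tau_mono (hd.mul he).ne_zero (dvd_mul_left _ _)
      have h2 : (tau (d * e) : ℝ) ≤ (tau (d * e) : ℝ) ^ 4 := le_self_pow₀ hτ (by norm_num)
      have hen : (1 : ℝ) ≤ nm e := by exact_mod_cast nm_pos.mpr he.ne_zero
      have hden : (1 : ℝ) ≤ nm (d * e) := by exact_mod_cast nm_pos.mpr (hd.mul he).ne_zero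
      calc (tau e : ℝ) / nm e ≤ tau e := div_le_self (Nat.cast_nonneg _) hen
        _ ≤ (tau (d * e) : ℝ) ^ 4 := hτe.trans h2
        _ ≤ nm (d * e) * (tau (d * e) : ℝ) ^ 4 := le_mul_of_one_le_left (by positivity) hden)
    (fun e => by split_ifs <;> positivity)
  have e1 : ∑ e ∈ S E0, (if IsPrim e then (tau e : ℝ) / nm e else 0) *
      ‖TT T E0 (TE α) x e‖ ^ 2 = ∑ e ∈ S E0, (tau e : ℝ) / nm e * ‖TT T E0 (TE α) x e‖ ^ 2 :=
    Finset.sum_congr rfl fun e he => by rw [if_pos (prim_of_S he)]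
  rw [e1] at h1
  calc n13 x.2 * ∑ e ∈ S E0, (tau e : ℝ) / nm e * ‖TT T E0 (TE α) x e‖ ^ 2 ≤
        n13 x.2 * ((tau T : ℝ) ^ 2 *
        ∑ u ∈ S E0, ((nm u : ℝ) * (tau u : ℝ) ^ 4) * ‖TE α x u‖ ^ 2) :=
        mul_le_mul_of_nonneg_left h1 (X6C180.n13_nonneg _)
    _ = _ := by ring

lemma A2_TT {T : Eis} (hT : IsPrim T) {Y : ℝ} (hY : 0 ≤ Y) {J : Finset (Eis × Eis)} (hJ : OKJ J)
    {α : Eis → ℂ} (hα : ∀ n, α n ≠ 0 → n ∈ S Y) :
    ∑ x ∈ J, n13 x.2 * M2t Y (fun n => α n * prin0 T n) x ≤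
      (tau T : ℝ) ^ 2 * nm T * BS Y J α := by
  unfold BS
  rw [Finset.mul_sum]
  refine Finset.sum_le_sum fun x hx => ?_
  refine (mul_le_mul_of_nonneg_left (M2t_prin hT hY hα (hJ.prim x hx))
    (X6C180.n13_nonneg _)).trans (le_of_eq ?_)
  ring

lemma sup_prin {Y : ℝ} {α : Eis → ℂ} (hα : ∀ n, α n ≠ 0 → n ∈ S Y) (T : Eis) :
    ∀ n, α n * prin0 T n ≠ 0 → n ∈ S Y := fun n h => hα n (left_ne_zero_of_mul h)

set_option maxHeartbeats 1000000 in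
/-- **one `T`** -/
theorem tail_one {F : ℝ → ℂ} (hF : ∃ B : ℝ, ∀ x, F x ≠ 0 → x ≤ B) {κ Y D Y₀ Z E0 θ : ℝ}
    (hκ : 0 < κ) (hY : 0 ≤ Y) (hD : 0 ≤ D) (hZ : 0 < Z) {I : ℕ} (hI : Z < 2 ^ I) (hE0 : 0 ≤ E0)
    (hEY : E0 ≤ Y) (hθ : 0 < θ) {α : Eis → ℂ} (hα : ∀ n, α n ≠ 0 → n ∈ S Y)
    {om : Eis × Eis → ℂ} (hom : ∀ x, ‖om x‖ ≤ 1) {T : Eis} (hT : IsPrim T) :
    ‖CrQ F (fun _ => True) κ (fun n => α n * prin0 T n)
      (StT E0 (JW D Y₀ Z) (fun x => om x * prin0 T x.1) (TT T E0 (TE α)))‖ ≤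
      (1 + cM * ‖mellin F ((2 / 3 : ℝ) : ℂ)‖ * HS Y) * κ ^ (2 / 3 : ℝ) *
        (θ * ((tau T : ℝ) ^ 2 * AS E0 (JW D Y₀ Z) α) +
          θ⁻¹ * ((tau T : ℝ) ^ 2 * nm T * BS Y (JW D Y₀ Z) α)) +
      θ⁻¹ * REb (fun n => α n * prin0 T n) κ F (S D) I E0 Z Z := by
  set J := JW D Y₀ Z with hJ
  set α' : Eis → ℂ := fun n => α n * prin0 T n with hα'
  set om' : Eis × Eis → ℂ := fun x => om x * prin0 T x.1 with hom'
  set U := TT T E0 (TE α) with hU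
  have hsup := sup_prin hα T
  have hom1 : ∀ x, ‖om' x‖ ≤ 1 := fun x => by
    simp only [hom', norm_mul]
    exact mul_le_one₀ (hom x) (norm_nonneg _) (norm_prin0_le _ _)
  have hfs : FS α' := I1146.FS_of hY hsup
  have hsq : ∀ n, α' n ≠ 0 → Squarefree n := fun n hn => ((mem_S hY).1 (hsup n hn)).2.2
  have hJok : OKJ J := okJ_JW D Y₀ Z
  have hUok : TOK U := tok_TT (tok_TE (fun n hn => ((mem_S hY).1 (hα n hn)).2.2))
  have h := E2finG hfs hsq hE0 hZ.le hκ hF (D := S D)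
    (fun δ hδ => ⟨((mem_S hD).1 hδ).2.1, ((mem_S hD).1 hδ).2.2⟩) (I := I)
    hJok (fun x hx => I1146.JW_mem hD hZ hI x hx) om' hUok (ApM α' F κ)
  have e0 : CrQ F (fun _ => True) κ α' (StT E0 J om' U) =
      ∑' k : Eis, if IsPrim k then F ((nm k : ℝ) / κ) *
        (CS α' k * conj (StT E0 J om' U k)) else 0 := by
    unfold Ex385.CrQ
    refine tsum_congr fun k => ?_
    by_cases h1 : IsPrim k
    · rw [if_pos ⟨h1, trivial⟩, if_pos h1]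
    · rw [if_neg (fun h => h1 h.1), if_neg h1]
  have e1 : ∑ x ∈ J, ∑ e ∈ S E0, conj (om' x) * ((mu e : ℂ) * conj (U x e) *
      AX (ApM α' F κ) x e) =
      ∑ x ∈ J, ∑ e ∈ S E0, conj (om' x) * ((mu e : ℂ) * conj (U x e) * MX α' x e F κ) := by
    refine Finset.sum_congr rfl fun x hx => Finset.sum_congr rfl fun e he => ?_
    rw [AX_ApM hfs hsq (hJok.prim x hx) (hJok.sqf x hx) (hJok.jc x hx) (prim_of_S he) F hκ]
  have h2 := mainT (J := J) hE0 hEY hκ hsup hJok hom1 hUok F hθ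
  have h3 := crossT (Y₀ := Y₀) hκ hθ hZ α' (fun δ e j => U (δ, j) e) (Ds := S D) (Z := Z)
    (D := D) (E0 := E0) (fun δ hδ => ⟨((mem_S hD).1 hδ).2.1, ((mem_S hD).1 hδ).2.2⟩) I om' F
  have h4 : ∑ δ ∈ S D, ∑ i ∈ Finset.range I, ∑ e ∈ S E0,
        Real.sqrt (∑ x ∈ Jb J δ (Z / 2 ^ i), ‖om' x‖ ^ 2 * ‖U x e‖ ^ 2) *
        ∑ y ∈ E2440.prs δ, ∑ A ∈ pdiv y.1,
          Real.sqrt (∑ c ∈ E2440.C4, ∑ j₂ ∈ S (Real.sqrt (Z / 2 ^ i)),
            E2440.QsG α' δ e (Z / 2 ^ i) κ F (ApM α' F κ) y A c j₂) ≤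
      θ * (κ ^ (2 / 3 : ℝ) * TF 1 J om' E0 (fun δ e j => U (δ, j) e)) +
        θ⁻¹ * REb α' κ F (S D) I E0 Z Z := h3
  have h5 := TF_TT hT hE0 J hom1 α
  have h6 := A1_TT hT hE0 J α
  have h7 := A2_TT hT hY hJok hα
  have hK3 : 0 ≤ κ ^ (2 / 3 : ℝ) := by positivity
  have hθi : 0 ≤ θ⁻¹ := (inv_pos.mpr hθ).le
  have hcM := cM_nn
  have hm : 0 ≤ ‖mellin F ((2 / 3 : ℝ) : ℂ)‖ := norm_nonneg _
  have hHS := HS_nonneg Y
  have hAS := AS_nonneg E0 J α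
  have hBS := BS_nonneg Y J α
  set m := ‖mellin F ((2 / 3 : ℝ) : ℂ)‖ with hmdef
  set a := (tau T : ℝ) ^ 2 * AS E0 J α with ha
  set b := (tau T : ℝ) ^ 2 * nm T * BS Y J α with hb
  have ha0 : 0 ≤ a := by positivity
  have hb0 : 0 ≤ b := by positivity
  set Re := θ⁻¹ * REb α' κ F (S D) I E0 Z Z with hRe
  rw [e1] at h
  set Mn := ∑ x ∈ J, ∑ e ∈ S E0, conj (om' x) * ((mu e : ℂ) * conj (U x e) * MX α' x e F κ)
    with hMn
  have g1 : ‖Mn‖ ≤ cM * κ ^ (2 / 3 : ℝ) * m * (HS Y * (θ * a + θ⁻¹ * b)) := by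
    refine h2.trans (mul_le_mul_of_nonneg_left ?_ (by positivity))
    refine mul_le_mul_of_nonneg_left ?_ hHS
    exact add_le_add (mul_le_mul_of_nonneg_left h6 hθ.le) (mul_le_mul_of_nonneg_left h7 hθi)
  have g2 : θ * (κ ^ (2 / 3 : ℝ) * TF 1 J om' E0 (fun δ e j => U (δ, j) e)) ≤
      κ ^ (2 / 3 : ℝ) * (θ * a) := by
    calc θ * (κ ^ (2 / 3 : ℝ) * TF 1 J om' E0 (fun δ e j => U (δ, j) e)) ≤
          θ * (κ ^ (2 / 3 : ℝ) * a) :=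
          mul_le_mul_of_nonneg_left (mul_le_mul_of_nonneg_left h5 hK3) hθ.le
      _ = _ := by ring
  rw [← e0] at h
  set Cr := CrQ F (fun _ => True) κ α' (StT E0 J om' U) with hCr
  have g3 : ‖Cr‖ ≤ ‖Mn‖ + ‖Cr - Mn‖ := by
    have : Cr = Mn + (Cr - Mn) := by ring
    calc ‖Cr‖ = ‖Mn + (Cr - Mn)‖ := by rw [← this]
      _ ≤ _ := norm_add_le _ _
  have g4 : ‖Cr - Mn‖ ≤ κ ^ (2 / 3 : ℝ) * (θ * a) + Re := by
    refine (h.trans h4).trans ?_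
    linarith
  have g5 : 0 ≤ κ ^ (2 / 3 : ℝ) * (θ⁻¹ * b) := by positivity
  calc ‖Cr‖ ≤ cM * κ ^ (2 / 3 : ℝ) * m * (HS Y * (θ * a + θ⁻¹ * b)) +
        (κ ^ (2 / 3 : ℝ) * (θ * a) + Re) := by linarith
    _ ≤ cM * κ ^ (2 / 3 : ℝ) * m * (HS Y * (θ * a + θ⁻¹ * b)) +
        (κ ^ (2 / 3 : ℝ) * (θ * a) + κ ^ (2 / 3 : ℝ) * (θ⁻¹ * b) + Re) := by linarith
    _ = _ := by ring

/-- **813's identity for complex weights** -/
theorem CrQ_tail {F : ℝ → ℂ} {K : ℝ} (hK : 0 < K) (E1 : ℝ) {α : Eis → ℂ}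
    (hα : ∀ m, α m ≠ 0 → IsPrim m) (u : Eis → ℂ) {N : ℕ}
    (hN : ∀ T : Eis, F ((nm T : ℝ) / K) ≠ 0 → nm T ≤ N) :
    CrQ F (fun k => ¬ Cut E1 k) K α u =
      ∑ T ∈ (primBall N).filter (fun T => E1 < (nm T : ℝ)),
        (lamT E1 T : ℂ) * CrQ F (fun _ => True) (K / (nm T : ℝ) ^ 3)
          (fun m => α m * prin0 T m) (fun k => u (T ^ 3 * k)) := by
  set G : Eis → ℂ := fun k => F (nm k / K) * (CS α k * conj (u k)) with hG
  have h1 : CrQ F (fun k => ¬ Cut E1 k) K α u =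
      ∑' k : Eis, if IsPrim k ∧ ¬ Cut E1 k then G k else 0 := by
    unfold Ex385.CrQ
    refine tsum_congr fun k => ?_
    by_cases hk : IsPrim k ∧ ¬ Cut E1 k
    · rw [if_pos hk, if_pos hk]
    · rw [if_neg hk, if_neg hk]
  have hG' : ∀ k, G k ≠ 0 → nm k ≤ N := fun k hk => hN k fun h0 => by
    apply hk
    simp only [hG]
    rw [h0]; simp
  rw [h1, sum_notCut E1 (F := G) (X := N) hG' (N := N) fun T hT => ?_]
  · refine Finset.sum_congr rfl fun T hT => ?_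
    have hTp := (mem_primBall.1 (Finset.mem_filter.1 hT).1).2
    have hT0 : (0 : ℝ) < nm T := by exact_mod_cast nm_pos.2 hTp.ne_zero
    congr 1
    unfold Ex385.CrQ
    refine tsum_congr fun k => ?_
    by_cases hk : IsPrim k
    · rw [if_pos hk, if_pos ⟨hk, trivial⟩]
      simp only [hG]
      rw [CS_cube hα]
      have e3 : (nm (T ^ 3 * k) : ℝ) / K = (nm k : ℝ) / (K / (nm T : ℝ) ^ 3) := by
        rw [nm_mul, nm_pow]
        push_cast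
        field_simp
      rw [e3]
    · rw [if_neg hk, if_neg fun h => hk h.1]
  · by_cases h0 : nm T = 0
    · omega
    · have : nm T ≤ nm T ^ 3 := Nat.le_self_pow (by norm_num) _
      omega

/-- beyond the support -/
lemma CrQ_zero {F : ℝ → ℂ} {b₀ κ : ℝ} (hF : ∀ x, F x ≠ 0 → x ≤ b₀) (hκ : 0 < κ)
    (h : b₀ < 1 / κ) (Q : Eis → Prop) (α u : Eis → ℂ) : CrQ F Q κ α u = 0 := by
  unfold Ex385.CrQ
  refine (tsum_congr fun k => ?_).trans tsum_zero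
  split_ifs with hk
  · have h1 : (1 : ℝ) ≤ nm k := by exact_mod_cast nm_pos.mpr hk.1.ne_zero
    have h2 : F ((nm k : ℝ) / κ) = 0 := by
      by_contra hne
      have h3 := hF _ hne
      have h4 : 1 / κ ≤ (nm k : ℝ) / κ := by gcongr
      linarith
    rw [h2, zero_mul]
  · rfl

set_option maxHeartbeats 1000000 in
/-- **the cross sum over the `k` which are not cut** -/
theorem tail_F {ε : ℝ} (hε : 0 < ε) : ∃ C : ℝ, 0 ≤ C ∧
    ∀ (F : ℝ → ℂ) (b₀ P K Y D Y₀ Z E0 E1 θ Rt : ℝ) (I : ℕ), (∀ x, F x ≠ 0 → x ≤ b₀) →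
    1 ≤ P → b₀ * K ≤ P → 0 < K → 0 ≤ Y → 0 ≤ D → 0 < Z → Z < 2 ^ I → 0 ≤ E0 → E0 ≤ Y →
    1 ≤ E1 → 0 < θ → 0 ≤ Rt → ∀ (α : Eis → ℂ), (∀ n, α n ≠ 0 → n ∈ S Y) →
    ∀ (om : Eis × Eis → ℂ), (∀ x, ‖om x‖ ≤ 1) →
    (∀ T : Eis, IsPrim T → E1 < (nm T : ℝ) → (nm T : ℝ) ^ 3 ≤ b₀ * K →
      θ⁻¹ * REb (fun n => α n * prin0 T n) (K / (nm T : ℝ) ^ 3) F (S D) I E0 Z Z ≤ Rt ∨
      (nm T : ℝ) * ‖CrQ F (fun _ => True) (K / (nm T : ℝ) ^ 3) (fun n => α n * prin0 T n)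
        (fun k => StE E0 (JW D Y₀ Z) om α (T ^ 3 * k))‖ ≤ Rt) →
    ‖CrQ F (fun k => ¬ Cut E1 k) K α (StE E0 (JW D Y₀ Z) om α)‖ ≤
      C * P ^ ε * ((1 + cM * ‖mellin F ((2 / 3 : ℝ) : ℂ)‖ * HS Y) *
        (θ * (K ^ (2 / 3 : ℝ) * AS E0 (JW D Y₀ Z) α) +
          (θ * E1)⁻¹ * (K ^ (2 / 3 : ℝ) * BS Y (JW D Y₀ Z) α)) + Rt) := by
  obtain ⟨C₁, hC₁, H₁⟩ := PInv255.one_add_log_pow_le 8 ε hε
  refine ⟨100 ^ 8 * C₁, by positivity, ?_⟩
  intro F b₀ P K Y D Y₀ Z E0 E1 θ Rt I hF hP hbK hK hY hD hZ hI hE0 hEY hE1 hθ hRt α hα om hom hR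
  set J := JW D Y₀ Z with hJ
  have hcM := cM_nn
  have hHS := HS_nonneg Y
  have hAS := AS_nonneg E0 J α
  have hBS := BS_nonneg Y J α
  set m := ‖mellin F ((2 / 3 : ℝ) : ℂ)‖ with hm
  have hm0 : 0 ≤ m := norm_nonneg _
  set G := 1 + cM * m * HS Y with hG
  have hG0 : 0 ≤ G := by positivity
  set U := G * (θ * (K ^ (2 / 3 : ℝ) * AS E0 J α) +
    (θ * E1)⁻¹ * (K ^ (2 / 3 : ℝ) * BS Y J α)) with hU
  have hE10 : 0 < E1 := by linarith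
  have hU0 : 0 ≤ U := by positivity
  set N := ⌊P⌋₊ with hNdef
  have hN : ∀ T : Eis, F ((nm T : ℝ) / K) ≠ 0 → nm T ≤ N := by
    intro T h
    have h1 := hF _ h
    rw [div_le_iff₀ hK] at h1
    exact Nat.le_floor (h1.trans hbK)
  have hprim : ∀ n, α n ≠ 0 → IsPrim n := fun n hn => ((mem_S hY).1 (hα n hn)).2.1
  rw [CrQ_tail hK E1 hprim _ hN]
  -- one `T`
  have hone : ∀ T ∈ (primBall N).filter (fun T => E1 < (nm T : ℝ)),
      ‖(lamT E1 T : ℂ) * CrQ F (fun _ => True) (K / (nm T : ℝ) ^ 3)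
          (fun m => α m * prin0 T m) (fun k => StE E0 J om α (T ^ 3 * k))‖ ≤
      (tau T : ℝ) ^ 3 / nm T * (U + Rt) := by
    intro T hT
    rw [Finset.mem_filter, mem_primBall] at hT
    obtain ⟨⟨-, hTp⟩, hTE⟩ := hT
    have hTn := nmpos hTp.ne_zero
    have hτ := one_le_tauR hTp
    have hτ2 : (1 : ℝ) ≤ (tau T : ℝ) ^ 2 := one_le_pow₀ hτ
    have hκ : 0 < K / (nm T : ℝ) ^ 3 := by positivity
    set Cr := CrQ F (fun _ => True) (K / (nm T : ℝ) ^ 3)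
      (fun m => α m * prin0 T m) (fun k => StE E0 J om α (T ^ 3 * k)) with hCr
    have key : (nm T : ℝ) * ‖Cr‖ ≤ (tau T : ℝ) ^ 2 * U + Rt := by
      have hτU : 0 ≤ (tau T : ℝ) ^ 2 * U := by positivity
      by_cases h3 : (nm T : ℝ) ^ 3 ≤ b₀ * K
      swap
      · have : Cr = 0 := by
          rw [hCr]
          refine CrQ_zero hF hκ ?_ _ _ _
          rw [one_div, inv_div, lt_div_iff₀ hK]
          exact not_le.mp h3
        rw [this, norm_zero, mul_zero]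
        positivity
      rcases hR T hTp hTE h3 with h4 | h4
      swap
      · exact h4.trans (by linarith)
      have e1 : (fun k => StE E0 J om α (T ^ 3 * k)) =
          StT E0 J (fun x => om x * prin0 T x.1) (TT T E0 (TE α)) := by
        funext k
        exact StE_cubeT hTp k hE0 (okJ_JW D Y₀ Z) om (TE α)
      have hθT : 0 < θ * nm T := by positivity
      have h5 := tail_one (Y₀ := Y₀) ⟨b₀, hF⟩ hκ hY hD hZ hI hE0 hEY hθT hα hom hTp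
      rw [← e1] at h5
      have e2 : (K / (nm T : ℝ) ^ 3) ^ (2 / 3 : ℝ) = K ^ (2 / 3 : ℝ) * ((nm T : ℝ) ^ 2)⁻¹ := by
        rw [Real.div_rpow hK.le (by positivity), div_eq_mul_inv]
        congr 2
        rw [← Real.rpow_natCast, ← Real.rpow_mul hTn.le, ← Real.rpow_natCast]
        norm_num
      rw [e2] at h5
      have h6 : (nm T : ℝ) * ‖Cr‖ ≤ (nm T : ℝ) * (G * (K ^ (2 / 3 : ℝ) * ((nm T : ℝ) ^ 2)⁻¹) *
          (θ * nm T * ((tau T : ℝ) ^ 2 * AS E0 J α) +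
          (θ * nm T)⁻¹ * ((tau T : ℝ) ^ 2 * nm T * BS Y J α)) +
          (θ * nm T)⁻¹ * REb (fun n => α n * prin0 T n) (K / (nm T : ℝ) ^ 3) F (S D) I E0 Z Z) :=
        mul_le_mul_of_nonneg_left h5 hTn.le
      refine h6.trans ?_
      have e3 : (nm T : ℝ) * (G * (K ^ (2 / 3 : ℝ) * ((nm T : ℝ) ^ 2)⁻¹) *
          (θ * nm T * ((tau T : ℝ) ^ 2 * AS E0 J α) +
          (θ * nm T)⁻¹ * ((tau T : ℝ) ^ 2 * nm T * BS Y J α)) +
          (θ * nm T)⁻¹ * REb (fun n => α n * prin0 T n) (K / (nm T : ℝ) ^ 3) F (S D) I E0 Z Z) =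
          (tau T : ℝ) ^ 2 * (G * (θ * (K ^ (2 / 3 : ℝ) * AS E0 J α) +
            (θ * nm T)⁻¹ * (K ^ (2 / 3 : ℝ) * BS Y J α))) +
          θ⁻¹ * REb (fun n => α n * prin0 T n) (K / (nm T : ℝ) ^ 3) F (S D) I E0 Z Z := by
        field_simp
      rw [e3]
      refine add_le_add ?_ h4
      have h7 : (θ * nm T)⁻¹ ≤ (θ * E1)⁻¹ := by gcongr
      rw [hU]
      gcongr
    have hl := norm_lamT_le E1 T
    have h8 : ‖Cr‖ ≤ ((tau T : ℝ) ^ 2 * U + Rt) / nm T := by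
      rw [le_div_iff₀ hTn]; linarith
    rw [norm_mul]
    calc ‖(lamT E1 T : ℂ)‖ * ‖Cr‖ ≤ tau T * (((tau T : ℝ) ^ 2 * U + Rt) / nm T) :=
          mul_le_mul hl h8 (norm_nonneg _) (Nat.cast_nonneg _)
      _ ≤ tau T * (((tau T : ℝ) ^ 2 * U + (tau T : ℝ) ^ 2 * Rt) / nm T) := by
          have : Rt ≤ (tau T : ℝ) ^ 2 * Rt := le_mul_of_one_le_left hRt hτ2
          gcongr
      _ = _ := by ring
  refine (norm_sum_le _ _).trans ((Finset.sum_le_sum hone).trans ?_)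
  rw [← Finset.sum_mul]
  have h9 : ∑ T ∈ (primBall N).filter (fun T => E1 < (nm T : ℝ)), (tau T : ℝ) ^ 3 / nm T ≤
      100 ^ 8 * C₁ * P ^ ε := by
    have h10 : ∑ T ∈ (primBall N).filter (fun T => E1 < (nm T : ℝ)), (tau T : ℝ) ^ 3 / nm T ≤
        ∑ n ∈ nz N, ((tau n : ℝ) ^ 3 / nm n) :=
      Finset.sum_le_sum_of_subset_of_nonneg
        ((Finset.filter_subset _ _).trans (primBall_subset_nz N)) fun _ _ _ => by positivity
    have h11 := sum_tau_pow_div_le 3 N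
    have hN1 : (1 : ℝ) ≤ N := by exact_mod_cast Nat.le_floor (by exact_mod_cast hP)
    have hNP : (N : ℝ) ≤ P := Nat.floor_le (by linarith)
    have h12 : (1 + Real.log N) ^ 8 ≤ C₁ * P ^ ε := by
      refine le_trans ?_ (H₁ P hP)
      have hl : Real.log N ≤ Real.log P := Real.log_le_log (by linarith) hNP
      have hl0 : 0 ≤ Real.log (N : ℝ) := Real.log_nonneg hN1
      gcongr
    calc _ ≤ _ := h10
      _ ≤ (100 * (1 + Real.log N)) ^ (2 ^ 3) := h11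
      _ = 100 ^ 8 * (1 + Real.log N) ^ 8 := by rw [mul_pow]; norm_num
      _ ≤ 100 ^ 8 * (C₁ * P ^ ε) := mul_le_mul_of_nonneg_left h12 (by positivity)
      _ = _ := by ring
  exact mul_le_mul_of_nonneg_right h9 (by positivity)

end Crest.Agent.R017.LBx48
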