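import Crest.Agent.R017.LBg_48

/-!
# Row 17, C.REMg, (LB), part h (helper48): the `l`-terms of the complete cube sum

* `alr α a b = α [a ∣ n] [(n,b) = 1]`, `omb om b = om [b ∣ x.1]`
* `M2t_ab` : the full moment of `alr α a b`
* `tail_ab` : one `l`-term
* `tail_l` : the sum of the `l`-terms
-/

set_option autoImplicit false

noncomputable section

open Complex MeasureTheory
open scoped ComplexConjugate Classical

namespace Crest.Agent.R017.LBx48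

open Crest.Agent.R012 Crest.Agent.R012.Eis Crest.Agent.R012.MC
open Crest.Agent.R012.LS2 (S mem_S)
open Crest.Agent.R012.Mob705 (pdiv mem_pdiv kap0 mu PE)
open Crest.Agent.R012.Div277 (tau dvs mem_dvs nz sum_tau_pow_div_le primBall_subset_nz)
open Crest.Agent.R017.PX764 (Gh n6 th)
open Crest.Agent.R017.X6C180 (n13 cM)
open Crest.Agent.R017.CM106 (CS TG FS)
open Crest.Agent.R017.E1551 hiding tau Dg
open Crest.Agent.R017.C70 (JW JC OKJ okJ_JW)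
open Crest.Agent.R017.E2440 (TE StE StT TOK tok_TE E2finG Jb MX AX ApM AX_ApM QsG_ApM cM_nn Qs)
open Crest.Agent.R017.I1146 (M2t)
open Crest.Agent.R017.E3M829 (TF)
open Crest.Agent.R017.DgA829 (lc lc_prim lc_dvd nm_lc)
open Crest.Agent.R017.DgB829 (HS HS_nonneg HS_le)
open Crest.Agent.R017.End699 (prin0)
open Crest.Agent.R017.Ex385 (CrQ)

/-- the sequence on the multiples of `a` prime to `b` -/
def alr (α : Eis → ℂ) (a b : Eis) : Eis → ℂ := fun n => if a ∣ n ∧ IsCoprime n b then α n else 0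

/-- the model on the multiples of `b` -/
def omb (om : Eis × Eis → ℂ) (b : Eis) : Eis × Eis → ℂ := fun x => if b ∣ x.1 then om x else 0

lemma alr_ne {α : Eis → ℂ} {a b n : Eis} (h : alr α a b n ≠ 0) :
    α n ≠ 0 ∧ a ∣ n ∧ IsCoprime n b := by
  unfold alr at h
  split_ifs at h with h1
  · exact ⟨h, h1⟩
  · exact absurd rfl h

lemma norm_omb_le {om : Eis × Eis → ℂ} (hom : ∀ x, ‖om x‖ ≤ 1) (b : Eis) (x : Eis × Eis) :
    ‖omb om b x‖ ≤ 1 := by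
  unfold omb
  split_ifs
  · exact hom x
  · simp

/-- `TE` of the multiples of `a` -/
lemma TE_dvd {a : Eis} (ha : IsPrim a) (α : Eis → ℂ) {x : Eis × Eis} (hx : IsPrim x.1) :
    ∃ a' : Eis, IsPrim a' ∧ a' ∣ a ∧ ∀ e : Eis, IsPrim e →
      TE (fun n => if a ∣ n then α n else 0) x e = TE α x (lc e a') := by
  obtain ⟨g, y, a', hg, ha', hxy, haa, hc⟩ := X6D502.exists_gcd x.1 ha
  refine ⟨a', ha', ⟨g, by rw [mul_comm]; exact haa⟩, fun e he => ?_⟩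
  have hd : ∀ k : Eis, a ∣ x.1 * k ↔ a' ∣ k := by
    intro k
    rw [haa, hxy, mul_assoc]
    constructor
    · intro h
      have h1 : a' ∣ y * k := (mul_dvd_mul_iff_left hg.ne_zero).mp h
      exact hc.symm.dvd_of_dvd_mul_left h1
    · intro h
      exact mul_dvd_mul_left g (h.mul_left y)
  unfold E2440.TE
  refine tsum_congr fun k => ?_
  have h3 := lc_dvd he ha' k
  beta_reduce
  by_cases h4 : a' ∣ k
  · rw [if_pos ((hd k).mpr h4)]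
    by_cases h5 : e ∣ k ∧ IsCoprime x.2 (x.1 * k)
    · rw [if_pos h5, if_pos ⟨h3.mpr ⟨h5.1, h4⟩, h5.2⟩]
    · rw [if_neg h5, if_neg (fun h => h5 ⟨(h3.mp h.1).1, h.2⟩)]
  · rw [if_neg (fun h => h4 ((hd k).mp h)), zero_mul,
      if_neg (show ¬ (lc e a' ∣ k ∧ IsCoprime x.2 (x.1 * k)) from fun h => h4 (h3.mp h.1).2)]
    split_ifs <;> rfl

lemma regroup_gen {L : ℝ} (hL : 0 ≤ L) {Y : ℝ} (hY : 0 ≤ Y) {α : Eis → ℂ}
    (hα : ∀ n, α n ≠ 0 → n ∈ S Y) (x : Eis × Eis) {e u : Eis} (he : e ∈ S Y) (hu : IsPrim u)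
    (heu : e ∣ u) (hn : (nm u : ℝ) ≤ nm e * L) :
    (tau e : ℝ) / nm e * ‖TE α x u‖ ^ 2 ≤
      ∑ v ∈ S Y, (if e ∈ dvs v then L * ((nm v : ℝ)⁻¹ * (tau v : ℝ)) *
        ‖TE α x v‖ ^ 2 else 0) := by
  have he' := (mem_S hY).1 he
  have hnn : ∀ v ∈ S Y, (0 : ℝ) ≤ (if e ∈ dvs v then L * ((nm v : ℝ)⁻¹ * (tau v : ℝ)) *
      ‖TE α x v‖ ^ 2 else 0) := fun v _ => by split_ifs <;> positivity
  by_cases hl : u ∈ S Y
  swap
  · rw [TE_zero_e hY hα hu hl x]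
    simp only [norm_zero, ne_eq, OfNat.ofNat_ne_zero, not_false_eq_true, zero_pow, mul_zero]
    exact Finset.sum_nonneg hnn
  refine le_trans ?_ (Finset.single_le_sum hnn hl)
  rw [if_pos ((mem_dvs hu.ne_zero).2 ⟨he'.2.1, heu⟩)]
  refine mul_le_mul_of_nonneg_right ?_ (by positivity)
  have hen := nmpos he'.2.1.ne_zero
  have hln := nmpos hu.ne_zero
  have h9 : (tau e : ℝ) ≤ tau u := tau_mono hu.ne_zero heu
  have h10 : (nm e : ℝ)⁻¹ ≤ L * (nm u : ℝ)⁻¹ := by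
    rw [← div_eq_mul_inv, le_div_iff₀ hln, inv_mul_le_iff₀ hen]
    exact hn
  calc (tau e : ℝ) / nm e = tau e * (nm e : ℝ)⁻¹ := div_eq_mul_inv _ _
    _ ≤ tau u * (L * (nm u : ℝ)⁻¹) :=
        mul_le_mul h9 h10 (by positivity) (Nat.cast_nonneg _)
    _ = _ := by ring

/-- the full moment of `alr α a b` -/
theorem M2t_ab {l a b : Eis} (hl : IsPrim l) (ha : IsPrim a) (hb : IsPrim b) (has : Squarefree a)
    (hab : a * b ∣ l) {Y : ℝ} (hY : 0 ≤ Y) {α : Eis → ℂ}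
    (hα : ∀ n, α n ≠ 0 → n ∈ S Y) {x : Eis × Eis} (hx : IsPrim x.1) :
    M2t Y (alr α a b) x ≤ (tau l : ℝ) ^ 2 * nm l *
      ∑ u ∈ S Y, ((nm u : ℝ)⁻¹ * (tau u : ℝ) ^ 4) * ‖TE α x u‖ ^ 2 := by
  have hln := nmpos hl.ne_zero
  have hτb : (tau b : ℝ) ≤ tau l := tau_mono hl.ne_zero ((dvd_mul_left b a).trans hab)
  have hτb0 : (0 : ℝ) ≤ tau b := Nat.cast_nonneg _
  have hcard : ((dvs b).card : ℝ) = tau b := rfl
  have hnab : (nm a : ℝ) * nm b ≤ nm l := by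
    have := Div277.nm_le_of_dvd hl.ne_zero hab
    rw [nm_mul] at this
    exact_mod_cast this
  set αa : Eis → ℂ := fun n => if a ∣ n then α n else 0 with hαa
  have hαa' : ∀ n, αa n ≠ 0 → n ∈ S Y := by
    intro n hn
    simp only [hαa] at hn
    split_ifs at hn with h
    · exact hα n hn
    · exact absurd rfl hn
  have e0 : alr α a b = fun n => αa n * prin0 b n := by
    funext n
    unfold alr End699.prin0
    simp only [hαa]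
    by_cases h1 : a ∣ n <;> by_cases h2 : IsCoprime n b
    · rw [if_pos ⟨h1, h2⟩, if_pos h1, if_pos h2, mul_one]
    · rw [if_neg (fun h => h2 h.2), if_neg h2, mul_zero]
    · rw [if_neg (fun h => h1 h.1), if_neg h1, zero_mul]
    · rw [if_neg (fun h => h1 h.1), if_neg h1, zero_mul]
  obtain ⟨a', ha', haa, hTE⟩ := TE_dvd ha α hx
  have ha's : Squarefree a' := has.squarefree_of_dvd haa
  have hna : (nm a' : ℝ) ≤ nm a := by exact_mod_cast Div277.nm_le_of_dvd ha.ne_zero haa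
  -- pointwise
  have h1 : ∀ e ∈ S Y, (tau e : ℝ) / nm e * ‖TE (alr α a b) x e‖ ^ 2 ≤
      tau b * ∑ t ∈ dvs b, (if Squarefree t then
        (tau e : ℝ) / nm e * ‖TE α x (lc (lc e t) a')‖ ^ 2 else 0) := by
    intro e he
    have hep := ((mem_S hY).1 he).2.1
    have h2 : ‖TE (alr α a b) x e‖ ^ 2 ≤ tau b * ∑ t ∈ dvs b,
        (if Squarefree t then ‖TE α x (lc (lc e t) a')‖ ^ 2 else 0) := by
      rw [e0, TE_prin hb hY hαa' hx hep, norm_mul]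
      have h3 := norm_sum_le (dvs b) (fun t => (mu t : ℂ) * TE αa x (lc e t))
      have h4 : (∑ t ∈ dvs b, ‖(mu t : ℂ) * TE αa x (lc e t)‖) ^ 2 ≤ ((dvs b).card : ℝ) *
          ∑ t ∈ dvs b, ‖(mu t : ℂ) * TE αa x (lc e t)‖ ^ 2 := sq_sum_le_card_mul_sum_sq
      have h5 : ‖prin0 b x.1‖ * ‖∑ t ∈ dvs b, (mu t : ℂ) * TE αa x (lc e t)‖ ≤
          ∑ t ∈ dvs b, ‖(mu t : ℂ) * TE αa x (lc e t)‖ :=
        (mul_le_of_le_one_left (norm_nonneg _) (norm_prin0_le _ _)).trans h3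
      refine (pow_le_pow_left₀ (by positivity) h5 2).trans (h4.trans ?_)
      rw [hcard]
      refine mul_le_mul_of_nonneg_left (Finset.sum_le_sum fun t ht => ?_) hτb0
      have htp := ((mem_dvs hb.ne_zero).1 ht).1
      by_cases hs : Squarefree t
      · rw [if_pos hs, norm_mul, hTE _ (lc_prim hep htp)]
        have m1 : ‖(mu t : ℂ)‖ ≤ 1 := by
          rw [Complex.norm_intCast]; exact_mod_cast Mob705.abs_mu_le_one t
        exact pow_le_pow_left₀ (by positivity) (mul_le_of_le_one_left (norm_nonneg _) m1) 2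
      · rw [if_neg hs, show mu t = 0 from Mob705.mu_of_not_squarefree hs]
        simp
    calc (tau e : ℝ) / nm e * ‖TE (alr α a b) x e‖ ^ 2 ≤
          (tau e : ℝ) / nm e * (tau b * ∑ t ∈ dvs b,
            (if Squarefree t then ‖TE α x (lc (lc e t) a')‖ ^ 2 else 0)) :=
          mul_le_mul_of_nonneg_left h2 (by positivity)
      _ = _ := by
          rw [← mul_assoc, mul_comm ((tau e : ℝ) / nm e), mul_assoc, Finset.mul_sum]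
          congr 1
          refine Finset.sum_congr rfl fun t _ => ?_
          split_ifs
          · rfl
          · exact mul_zero _
  -- one divisor
  have h6 : ∀ t ∈ dvs b, ∑ e ∈ S Y, (if Squarefree t then
      (tau e : ℝ) / nm e * ‖TE α x (lc (lc e t) a')‖ ^ 2 else 0) ≤
      nm l * ∑ u ∈ S Y, ((nm u : ℝ)⁻¹ * (tau u : ℝ) ^ 4) * ‖TE α x u‖ ^ 2 := by
    intro t ht
    have ht' := (mem_dvs hb.ne_zero).1 ht
    have hnt : (nm t : ℝ) ≤ nm b := by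
      exact_mod_cast Div277.nm_le_of_dvd hb.ne_zero ht'.2
    have hRn : 0 ≤ (nm l : ℝ) * ∑ u ∈ S Y, ((nm u : ℝ)⁻¹ * (tau u : ℝ) ^ 4) *
        ‖TE α x u‖ ^ 2 := mul_nonneg hln.le (Finset.sum_nonneg fun u _ => by positivity)
    by_cases hs : Squarefree t
    swap
    · refine le_trans (le_of_eq ?_) hRn
      exact Finset.sum_eq_zero fun e _ => if_neg hs
    have h7 : ∀ e ∈ S Y, (if Squarefree t then
        (tau e : ℝ) / nm e * ‖TE α x (lc (lc e t) a')‖ ^ 2 else 0) ≤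
        ∑ u ∈ S Y, (if e ∈ dvs u then nm l * ((nm u : ℝ)⁻¹ * (tau u : ℝ)) *
          ‖TE α x u‖ ^ 2 else 0) := by
      intro e he
      have he' := (mem_S hY).1 he
      rw [if_pos hs]
      have hp1 := lc_prim he'.2.1 ht'.1
      have hp2 := lc_prim hp1 ha'
      have hd1 : e ∣ lc e t := ((lc_dvd he'.2.1 ht'.1 _).1 dvd_rfl).1
      have hd2 : lc e t ∣ lc (lc e t) a' := ((lc_dvd hp1 ha' _).1 dvd_rfl).1
      obtain ⟨g, hg, -, -, -, hgn, hsq⟩ := nm_lc he'.2.1 ht'.1 he'.2.2 hs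
      obtain ⟨g', hg', -, -, -, hgn', -⟩ := nm_lc hp1 ha' hsq ha's
      have hg1 : (1 : ℝ) ≤ nm g := by exact_mod_cast nm_pos.mpr hg.ne_zero
      have hg1' : (1 : ℝ) ≤ nm g' := by exact_mod_cast nm_pos.mpr hg'.ne_zero
      have hen := nmpos he'.2.1.ne_zero
      refine regroup_gen hln.le hY hα x he hp2 (hd1.trans hd2) ?_
      have c1 : (nm (lc (lc e t) a') : ℝ) ≤ nm (lc (lc e t) a') * nm g' :=
        le_mul_of_one_le_right (nmpos hp2.ne_zero).le hg1'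
      have c2 : (nm (lc e t) : ℝ) ≤ nm (lc e t) * nm g :=
        le_mul_of_one_le_right (nmpos hp1.ne_zero).le hg1
      calc (nm (lc (lc e t) a') : ℝ) ≤ nm (lc e t) * nm a' := c1.trans (le_of_eq hgn')
        _ ≤ (nm e * nm t) * nm a' :=
            mul_le_mul_of_nonneg_right (c2.trans (le_of_eq hgn)) (Nat.cast_nonneg _)
        _ ≤ (nm e * nm b) * nm a := by gcongr
        _ = nm e * (nm a * nm b) := by ring
        _ ≤ nm e * nm l := mul_le_mul_of_nonneg_left hnab hen.le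
    refine (Finset.sum_le_sum h7).trans ?_
    rw [Finset.sum_comm, Finset.mul_sum]
    refine Finset.sum_le_sum fun u hu => ?_
    have hup := ((mem_S hY).1 hu).2.1
    have hτ := one_le_tauR hup
    have hg0 : 0 ≤ (nm l : ℝ) * ((nm u : ℝ)⁻¹ * (tau u : ℝ)) * ‖TE α x u‖ ^ 2 := by positivity
    have e1 : ∑ e ∈ S Y, (if e ∈ dvs u then nm l * ((nm u : ℝ)⁻¹ * (tau u : ℝ)) *
          ‖TE α x u‖ ^ 2 else 0) ≤
        ∑ e ∈ dvs u, nm l * ((nm u : ℝ)⁻¹ * (tau u : ℝ)) * ‖TE α x u‖ ^ 2 := by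
      rw [← Finset.sum_filter]
      refine Finset.sum_le_sum_of_subset_of_nonneg ?_ fun _ _ _ => hg0
      intro e he
      exact (Finset.mem_filter.mp he).2
    refine e1.trans ?_
    have e2 : ∑ e ∈ dvs u, nm l * ((nm u : ℝ)⁻¹ * (tau u : ℝ)) * ‖TE α x u‖ ^ 2 =
        (tau u : ℝ) * (nm l * ((nm u : ℝ)⁻¹ * (tau u : ℝ)) * ‖TE α x u‖ ^ 2) := by
      rw [Finset.sum_const, nsmul_eq_mul]
      rfl
    rw [e2]
    have h11 : (tau u : ℝ) ^ 2 ≤ (tau u : ℝ) ^ 4 := pow_le_pow_right₀ hτ (by norm_num)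
    calc (tau u : ℝ) * (nm l * ((nm u : ℝ)⁻¹ * (tau u : ℝ)) * ‖TE α x u‖ ^ 2) =
          nm l * (((nm u : ℝ)⁻¹ * (tau u : ℝ) ^ 2) * ‖TE α x u‖ ^ 2) := by ring
      _ ≤ nm l * (((nm u : ℝ)⁻¹ * (tau u : ℝ) ^ 4) * ‖TE α x u‖ ^ 2) :=
          mul_le_mul_of_nonneg_left (mul_le_mul_of_nonneg_right
            (mul_le_mul_of_nonneg_left h11 (by positivity)) (by positivity)) hln.le
  set W := ∑ u ∈ S Y, ((nm u : ℝ)⁻¹ * (tau u : ℝ) ^ 4) * ‖TE α x u‖ ^ 2 with hW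
  have hW0 : 0 ≤ W := Finset.sum_nonneg fun u _ => by positivity
  calc M2t Y (alr α a b) x =
        ∑ e ∈ S Y, (tau e : ℝ) / nm e * ‖TE (alr α a b) x e‖ ^ 2 := rfl
    _ ≤ ∑ e ∈ S Y, tau b * ∑ t ∈ dvs b, (if Squarefree t then
        (tau e : ℝ) / nm e * ‖TE α x (lc (lc e t) a')‖ ^ 2 else 0) := Finset.sum_le_sum h1
    _ = tau b * ∑ t ∈ dvs b, ∑ e ∈ S Y, (if Squarefree t then
        (tau e : ℝ) / nm e * ‖TE α x (lc (lc e t) a')‖ ^ 2 else 0) := by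
        rw [← Finset.mul_sum, Finset.sum_comm]
    _ ≤ tau b * ∑ _t ∈ dvs b, nm l * W :=
        mul_le_mul_of_nonneg_left (Finset.sum_le_sum h6) hτb0
    _ = (tau b : ℝ) ^ 2 * (nm l * W) := by
        rw [Finset.sum_const, nsmul_eq_mul, hcard]
        ring
    _ ≤ (tau l : ℝ) ^ 2 * (nm l * W) := by
        have : (tau b : ℝ) ^ 2 ≤ (tau l : ℝ) ^ 2 := pow_le_pow_left₀ hτb0 hτb 2
        exact mul_le_mul_of_nonneg_right this (mul_nonneg hln.le hW0)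
    _ = _ := by ring

/-- the first moments are bounded by `AS` -/
lemma TF_le_AS {E0 : ℝ} (J : Finset (Eis × Eis))
    {om : Eis × Eis → ℂ} (hom : ∀ x, ‖om x‖ ≤ 1) (α : Eis → ℂ) :
    TF 1 J om E0 (fun δ e j => TE α (δ, j) e) ≤ AS E0 J α := by
  unfold E3M829.TF AS
  refine Finset.sum_le_sum fun x _ => ?_
  have h2 : ‖om x‖ ^ 2 ≤ 1 := pow_le_one₀ (norm_nonneg _) (hom x)
  have h3 : 0 ≤ (nm x.2 : ℝ) ^ (-(1 : ℝ) / 3) := by positivity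
  have h4 : 0 ≤ ∑ e ∈ S E0, (nm e : ℝ) ^ (1 : ℝ) * ‖TE α x e‖ ^ 2 :=
    Finset.sum_nonneg fun _ _ => by positivity
  calc ‖om x‖ ^ 2 * ((nm x.2 : ℝ) ^ (-(1 : ℝ) / 3) *
        ∑ e ∈ S E0, (nm e : ℝ) ^ (1 : ℝ) * ‖TE α (x.1, x.2) e‖ ^ 2) ≤
      1 * ((nm x.2 : ℝ) ^ (-(1 : ℝ) / 3) *
        ∑ e ∈ S E0, (nm e : ℝ) ^ (1 : ℝ) * ‖TE α x e‖ ^ 2) :=
        mul_le_mul_of_nonneg_right h2 (mul_nonneg h3 h4)
    _ ≤ 1 * ((nm x.2 : ℝ) ^ (-(1 : ℝ) / 3) *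
        ∑ u ∈ S E0, ((nm u : ℝ) * (tau u : ℝ) ^ 4) * ‖TE α x u‖ ^ 2) := by
        rw [one_mul, one_mul]
        refine mul_le_mul_of_nonneg_left (Finset.sum_le_sum fun u hu => ?_) h3
        refine mul_le_mul_of_nonneg_right ?_ (by positivity)
        rw [Real.rpow_one]
        exact le_mul_of_one_le_right (Nat.cast_nonneg _) (one_le_pow₀ (one_le_tauR (prim_of_S hu)))
    _ = _ := by
        unfold X6C180.n13
        ring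

lemma A1_le_AS {E0 : ℝ} (J : Finset (Eis × Eis)) (α : Eis → ℂ) :
    ∑ x ∈ J, n13 x.2 * ∑ e ∈ S E0, (tau e : ℝ) / nm e * ‖TE α x e‖ ^ 2 ≤ AS E0 J α := by
  unfold AS
  refine Finset.sum_le_sum fun x _ => mul_le_mul_of_nonneg_left ?_ (X6C180.n13_nonneg _)
  refine Finset.sum_le_sum fun e he => mul_le_mul_of_nonneg_right ?_ (by positivity)
  have hp := prim_of_S he
  have hτ := one_le_tauR hp
  have hen : (1 : ℝ) ≤ nm e := by exact_mod_cast nm_pos.mpr hp.ne_zero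
  have h2 : (tau e : ℝ) ≤ (tau e : ℝ) ^ 4 := le_self_pow₀ hτ (by norm_num)
  calc (tau e : ℝ) / nm e ≤ tau e := div_le_self (Nat.cast_nonneg _) hen
    _ ≤ (tau e : ℝ) ^ 4 := h2
    _ ≤ nm e * (tau e : ℝ) ^ 4 := le_mul_of_one_le_left (by positivity) hen

lemma sup_alr {Y : ℝ} {α : Eis → ℂ} (hα : ∀ n, α n ≠ 0 → n ∈ S Y) (a b : Eis) :
    ∀ n, alr α a b n ≠ 0 → n ∈ S Y := fun n h => hα n (alr_ne h).1

set_option maxHeartbeats 1000000 in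
/-- **one `l`-term** -/
theorem tail_ab {F : ℝ → ℂ} (hF : ∃ B : ℝ, ∀ x, F x ≠ 0 → x ≤ B) {κ Y D Y₀ Z E0 θ : ℝ}
    (hκ : 0 < κ) (hY : 0 ≤ Y) (hD : 0 ≤ D) (hZ : 0 < Z) {I : ℕ} (hI : Z < 2 ^ I) (hE0 : 0 ≤ E0)
    (hEY : E0 ≤ Y) (hθ : 0 < θ) {α : Eis → ℂ} (hα : ∀ n, α n ≠ 0 → n ∈ S Y)
    {om : Eis × Eis → ℂ} (hom : ∀ x, ‖om x‖ ≤ 1) {l a b : Eis} (hl : IsPrim l) (ha : IsPrim a)
    (hb : IsPrim b) (has : Squarefree a) (hab : a * b ∣ l) :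
    ‖CrQ F (fun _ => True) κ (alr α a b) (StT E0 (JW D Y₀ Z) (omb om b) (TE α))‖ ≤
      (1 + cM * ‖mellin F ((2 / 3 : ℝ) : ℂ)‖ * HS Y) * κ ^ (2 / 3 : ℝ) *
        (θ * AS E0 (JW D Y₀ Z) α +
          θ⁻¹ * ((tau l : ℝ) ^ 2 * nm l * BS Y (JW D Y₀ Z) α)) +
      θ⁻¹ * REb (alr α a b) κ F ((S D).filter (fun δ => b ∣ δ)) I E0 Z Z := by
  set J := JW D Y₀ Z with hJ
  set α' := alr α a b with hα'
  set om' := omb om b with hom'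
  have hsup := sup_alr hα a b
  have hom1 : ∀ x, ‖om' x‖ ≤ 1 := norm_omb_le hom b
  have hfs : FS α' := I1146.FS_of hY hsup
  have hsq : ∀ n, α' n ≠ 0 → Squarefree n := fun n hn => ((mem_S hY).1 (hsup n hn)).2.2
  have hJok : OKJ J := okJ_JW D Y₀ Z
  have hUok : TOK (TE α) := tok_TE (fun n hn => ((mem_S hY).1 (hα n hn)).2.2)
  have h := E2finG hfs hsq hE0 hZ.le hκ hF (D := S D)
    (fun δ hδ => ⟨((mem_S hD).1 hδ).2.1, ((mem_S hD).1 hδ).2.2⟩) (I := I)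
    hJok (fun x hx => I1146.JW_mem hD hZ hI x hx) om' hUok (ApM α' F κ)
  have e0 : CrQ F (fun _ => True) κ α' (StT E0 J om' (TE α)) =
      ∑' k : Eis, if IsPrim k then F ((nm k : ℝ) / κ) *
        (CS α' k * conj (StT E0 J om' (TE α) k)) else 0 := by
    unfold Ex385.CrQ
    refine tsum_congr fun k => ?_
    by_cases h1 : IsPrim k
    · rw [if_pos ⟨h1, trivial⟩, if_pos h1]
    · rw [if_neg (fun h => h1 h.1), if_neg h1]
  have e1 : ∑ x ∈ J, ∑ e ∈ S E0, conj (om' x) * ((mu e : ℂ) * conj (TE α x e) *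
      AX (ApM α' F κ) x e) =
      ∑ x ∈ J, ∑ e ∈ S E0, conj (om' x) * ((mu e : ℂ) * conj (TE α x e) * MX α' x e F κ) := by
    refine Finset.sum_congr rfl fun x hx => Finset.sum_congr rfl fun e he => ?_
    rw [AX_ApM hfs hsq (hJok.prim x hx) (hJok.sqf x hx) (hJok.jc x hx) (prim_of_S he) F hκ]
  have h2 := mainT (J := J) hE0 hEY hκ hsup hJok hom1 hUok F hθ
  have h3 := crossT (Y₀ := Y₀) hκ hθ hZ α' (fun δ e j => TE α (δ, j) e)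
    (Ds := (S D).filter (fun δ => b ∣ δ)) (Z := Z)
    (D := D) (E0 := E0) (fun δ hδ => ⟨((mem_S hD).1 (Finset.mem_filter.mp hδ).1).2.1,
      ((mem_S hD).1 (Finset.mem_filter.mp hδ).1).2.2⟩) I om' F
  have h4 : ∑ δ ∈ S D, ∑ i ∈ Finset.range I, ∑ e ∈ S E0,
        Real.sqrt (∑ x ∈ Jb J δ (Z / 2 ^ i), ‖om' x‖ ^ 2 * ‖TE α x e‖ ^ 2) *
        ∑ y ∈ E2440.prs δ, ∑ A ∈ pdiv y.1,
          Real.sqrt (∑ c ∈ E2440.C4, ∑ j₂ ∈ S (Real.sqrt (Z / 2 ^ i)),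
            E2440.QsG α' δ e (Z / 2 ^ i) κ F (ApM α' F κ) y A c j₂) ≤
      θ * (κ ^ (2 / 3 : ℝ) * TF 1 J om' E0 (fun δ e j => TE α (δ, j) e)) +
        θ⁻¹ * REb α' κ F ((S D).filter (fun δ => b ∣ δ)) I E0 Z Z := by
    refine le_trans (le_of_eq ?_) h3
    rw [Finset.sum_filter]
    refine Finset.sum_congr rfl fun δ _ => ?_
    by_cases hbd : b ∣ δ
    · rw [if_pos hbd]
      rfl
    · rw [if_neg hbd]
      refine Finset.sum_eq_zero fun i _ => Finset.sum_eq_zero fun e _ => ?_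
      have : ∑ x ∈ Jb J δ (Z / 2 ^ i), ‖om' x‖ ^ 2 * ‖TE α x e‖ ^ 2 = 0 := by
        refine Finset.sum_eq_zero fun x hx => ?_
        unfold E2440.Jb at hx
        rw [Finset.mem_filter] at hx
        have : om' x = 0 := by
          simp only [hom', omb]
          rw [if_neg]
          rw [hx.2.1]; exact hbd
        rw [this]; simp
      rw [this, Real.sqrt_zero, zero_mul]
  have h5 := TF_le_AS (E0 := E0) J hom1 α
  have h6 := A1_le_AS (E0 := E0) J α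
  have h7 : ∑ x ∈ J, n13 x.2 * M2t Y α' x ≤ (tau l : ℝ) ^ 2 * nm l * BS Y J α := by
    unfold BS
    rw [Finset.mul_sum]
    refine Finset.sum_le_sum fun x hx => ?_
    refine (mul_le_mul_of_nonneg_left (M2t_ab hl ha hb has hab hY hα (hJok.prim x hx))
      (X6C180.n13_nonneg _)).trans (le_of_eq ?_)
    ring
  have hK3 : 0 ≤ κ ^ (2 / 3 : ℝ) := by positivity
  have hθi : 0 ≤ θ⁻¹ := (inv_pos.mpr hθ).le
  have hcM := cM_nn
  have hm : 0 ≤ ‖mellin F ((2 / 3 : ℝ) : ℂ)‖ := norm_nonneg _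
  have hHS := HS_nonneg Y
  have hAS := AS_nonneg E0 J α
  have hBS := BS_nonneg Y J α
  set m := ‖mellin F ((2 / 3 : ℝ) : ℂ)‖ with hmdef
  set p := AS E0 J α with hp
  set q := (tau l : ℝ) ^ 2 * nm l * BS Y J α with hq
  have hq0 : 0 ≤ q := by positivity
  set Re := θ⁻¹ * REb α' κ F ((S D).filter (fun δ => b ∣ δ)) I E0 Z Z with hRe
  rw [e1] at h
  set Mn := ∑ x ∈ J, ∑ e ∈ S E0, conj (om' x) * ((mu e : ℂ) * conj (TE α x e) * MX α' x e F κ)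
    with hMn
  have g1 : ‖Mn‖ ≤ cM * κ ^ (2 / 3 : ℝ) * m * (HS Y * (θ * p + θ⁻¹ * q)) := by
    refine h2.trans (mul_le_mul_of_nonneg_left ?_ (by positivity))
    refine mul_le_mul_of_nonneg_left ?_ hHS
    exact add_le_add (mul_le_mul_of_nonneg_left h6 hθ.le) (mul_le_mul_of_nonneg_left h7 hθi)
  have g2 : θ * (κ ^ (2 / 3 : ℝ) * TF 1 J om' E0 (fun δ e j => TE α (δ, j) e)) ≤
      κ ^ (2 / 3 : ℝ) * (θ * p) := by
    calc θ * (κ ^ (2 / 3 : ℝ) * TF 1 J om' E0 (fun δ e j => TE α (δ, j) e)) ≤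
          θ * (κ ^ (2 / 3 : ℝ) * p) :=
          mul_le_mul_of_nonneg_left (mul_le_mul_of_nonneg_left h5 hK3) hθ.le
      _ = _ := by ring
  rw [← e0] at h
  set Cr := CrQ F (fun _ => True) κ α' (StT E0 J om' (TE α)) with hCr
  have g3 : ‖Cr‖ ≤ ‖Mn‖ + ‖Cr - Mn‖ := by
    have : Cr = Mn + (Cr - Mn) := by ring
    calc ‖Cr‖ = ‖Mn + (Cr - Mn)‖ := by rw [← this]
      _ ≤ _ := norm_add_le _ _
  have g4 : ‖Cr - Mn‖ ≤ κ ^ (2 / 3 : ℝ) * (θ * p) + Re := by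
    refine (h.trans h4).trans ?_
    linarith
  have g5 : 0 ≤ κ ^ (2 / 3 : ℝ) * (θ⁻¹ * q) := by positivity
  calc ‖Cr‖ ≤ cM * κ ^ (2 / 3 : ℝ) * m * (HS Y * (θ * p + θ⁻¹ * q)) +
        (κ ^ (2 / 3 : ℝ) * (θ * p) + Re) := by linarith
    _ ≤ cM * κ ^ (2 / 3 : ℝ) * m * (HS Y * (θ * p + θ⁻¹ * q)) +
        (κ ^ (2 / 3 : ℝ) * (θ * p) + κ ^ (2 / 3 : ℝ) * (θ⁻¹ * q) + Re) := by linarith
    _ = _ := by ring

lemma REb_nonneg {α : Eis → ℂ} {K : ℝ} (hK : 0 ≤ K) {F : ℝ → ℂ} {D : Finset Eis} {I : ℕ}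
    {E0 Z V : ℝ} (hV : 0 ≤ V) : 0 ≤ REb α K F D I E0 Z V := by
  unfold REb
  refine Finset.sum_nonneg fun δ _ => Finset.sum_nonneg fun i _ => Finset.sum_nonneg fun e _ => ?_
  positivity

/-- the arithmetic of one `l`-term -/
lemma real_l {G θ n L1 a b τ : ℝ} (hG : 0 ≤ G) (hθ : 0 < θ) (hn : 0 < n) (hL : 0 < L1)
    (hLn : L1 ≤ n) (ha : 0 ≤ a) (hb : 0 ≤ b) (hτ : 1 ≤ τ) {k : ℝ} (hk : 0 ≤ k) :
    G * (k * (n ^ 2)⁻¹) * (θ * n * a + (θ * n)⁻¹ * (τ ^ 2 * n * b)) ≤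
      τ ^ 2 / n * (G * (θ * (k * a) + (θ * L1)⁻¹ * (k * b))) := by
  have e3 : G * (k * (n ^ 2)⁻¹) * (θ * n * a + (θ * n)⁻¹ * (τ ^ 2 * n * b)) =
      n⁻¹ * (G * (θ * (k * a) + τ ^ 2 * ((θ * n)⁻¹ * (k * b)))) := by
    field_simp
  have e4 : τ ^ 2 / n * (G * (θ * (k * a) + (θ * L1)⁻¹ * (k * b))) =
      n⁻¹ * (τ ^ 2 * (G * (θ * (k * a) + (θ * L1)⁻¹ * (k * b)))) := by
    rw [div_eq_mul_inv]; ring
  rw [e3, e4]
  refine mul_le_mul_of_nonneg_left ?_ (inv_nonneg.mpr hn.le)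
  have hτ2 : (1 : ℝ) ≤ τ ^ 2 := one_le_pow₀ hτ
  have h7 : (θ * n)⁻¹ ≤ (θ * L1)⁻¹ :=
    inv_anti₀ (mul_pos hθ hL) (mul_le_mul_of_nonneg_left hLn hθ.le)
  have hx8 : (0 : ℝ) ≤ θ * (k * a) := mul_nonneg hθ.le (mul_nonneg hk ha)
  have h8 : θ * (k * a) ≤ τ ^ 2 * (θ * (k * a)) := le_mul_of_one_le_left hx8 hτ2
  have h9 : τ ^ 2 * ((θ * n)⁻¹ * (k * b)) ≤ τ ^ 2 * ((θ * L1)⁻¹ * (k * b)) :=
    mul_le_mul_of_nonneg_left (mul_le_mul_of_nonneg_right h7 (mul_nonneg hk hb)) (sq_nonneg _)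
  calc G * (θ * (k * a) + τ ^ 2 * ((θ * n)⁻¹ * (k * b))) ≤
        G * (τ ^ 2 * (θ * (k * a)) + τ ^ 2 * ((θ * L1)⁻¹ * (k * b))) :=
        mul_le_mul_of_nonneg_left (add_le_add h8 h9) hG
    _ = _ := by ring

lemma real_l2 {τ n U W : ℝ} {t : ℝ} (ht : 0 ≤ t) (htτ : t ≤ τ) (hn : 0 < n) (hU : 0 ≤ U) :
    t * (τ ^ 2 / n * U) + W ≤ τ ^ 3 / n * U + W := by
  have : (0 : ℝ) ≤ τ ^ 2 / n * U := by positivity
  have h1 : t * (τ ^ 2 / n * U) ≤ τ * (τ ^ 2 / n * U) := mul_le_mul_of_nonneg_right htτ this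
  have e : τ * (τ ^ 2 / n * U) = τ ^ 3 / n * U := by ring
  linarith

/-- all pairs `a b = ρ` at one `l` -/
lemma sum_ab {F : ℝ → ℂ} {b₀ : ℝ} (hF : ∀ x, F x ≠ 0 → x ≤ b₀) {K Y D Y₀ Z E0 L1 θ : ℝ}
    {I : ℕ} (hK : 0 < K) (hY : 0 ≤ Y) (hD : 0 ≤ D) (hZ : 0 < Z) (hI : Z < 2 ^ I) (hE0 : 0 ≤ E0)
    (hEY : E0 ≤ Y) (hL1 : 0 < L1) (hθ : 0 < θ) {α : Eis → ℂ} (hα : ∀ n, α n ≠ 0 → n ∈ S Y)
    {om : Eis × Eis → ℂ} (hom : ∀ x, ‖om x‖ ≤ 1) {l ρ : Eis} (hlp : IsPrim l)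
    (hl1 : L1 ≤ (nm l : ℝ)) (hρp : IsPrim ρ) (hρs : Squarefree ρ) (hρl : ρ ∣ l) {U : ℝ}
    (hU : U = (1 + cM * ‖mellin F ((2 / 3 : ℝ) : ℂ)‖ * HS Y) *
      (θ * (K ^ (2 / 3 : ℝ) * AS E0 (JW D Y₀ Z) α) +
      (θ * L1)⁻¹ * (K ^ (2 / 3 : ℝ) * BS Y (JW D Y₀ Z) α))) :
    ‖∑ a ∈ dvs ρ, CrQ F (fun _ => True) (K / (nm l : ℝ) ^ 3)
        (alr α a (ρ / a)) (StT E0 (JW D Y₀ Z) (omb om (ρ / a)) (TE α))‖ ≤
      (tau l : ℝ) ^ 3 / nm l * U + θ⁻¹ * ((nm l : ℝ)⁻¹ * ∑ a ∈ dvs ρ,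
        REb (alr α a (ρ / a)) (K / (nm l : ℝ) ^ 3) F
          ((S D).filter (fun δ => ρ / a ∣ δ)) I E0 Z Z) := by
  have hcM := cM_nn
  have hHS := HS_nonneg Y
  have hAS := AS_nonneg E0 (JW D Y₀ Z) α
  have hBS := BS_nonneg Y (JW D Y₀ Z) α
  have hG0 : 0 ≤ 1 + cM * ‖mellin F ((2 / 3 : ℝ) : ℂ)‖ * HS Y := by positivity
  have hU0 : 0 ≤ U := by rw [hU]; positivity
  have hln := nmpos hlp.ne_zero
  have hτ := one_le_tauR hlp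
  have hκ : 0 < K / (nm l : ℝ) ^ 3 := by positivity
  have hθl : 0 < θ * nm l := by positivity
  have e2 : (K / (nm l : ℝ) ^ 3) ^ (2 / 3 : ℝ) = K ^ (2 / 3 : ℝ) * ((nm l : ℝ) ^ 2)⁻¹ := by
    rw [Real.div_rpow hK.le (by positivity), div_eq_mul_inv]
    congr 2
    rw [← Real.rpow_natCast, ← Real.rpow_mul hln.le, ← Real.rpow_natCast]
    norm_num
  set RR : Eis → ℝ := fun a => REb (alr α a (ρ / a)) (K / (nm l : ℝ) ^ 3) F
    ((S D).filter (fun δ => ρ / a ∣ δ)) I E0 Z Z with hRR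
  have key : ∀ a ∈ dvs ρ, ‖CrQ F (fun _ => True) (K / (nm l : ℝ) ^ 3)
      (alr α a (ρ / a)) (StT E0 (JW D Y₀ Z) (omb om (ρ / a)) (TE α))‖ ≤
      (tau l : ℝ) ^ 2 / nm l * U + θ⁻¹ * ((nm l : ℝ)⁻¹ * RR a) := by
    intro a ha
    have ha' := (mem_dvs hρp.ne_zero).1 ha
    have hb := CubL813.prim_div hρp ha
    have hmul := CubL813.mul_div_mem ha
    have h5 := tail_ab (Y₀ := Y₀) ⟨b₀, hF⟩ hκ hY hD hZ hI hE0 hEY hθl hα hom hlp ha'.1 hb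
      (hρs.squarefree_of_dvd ha'.2) (by rw [hmul]; exact hρl)
    rw [e2] at h5
    refine h5.trans (add_le_add ?_ (le_of_eq ?_))
    · rw [hU]
      exact real_l hG0 hθ hln hL1 hl1 hAS hBS hτ (by positivity)
    · simp only [hRR]
      rw [mul_inv]
      ring
  have hτρ : (tau ρ : ℝ) ≤ tau l := tau_mono hlp.ne_zero hρl
  have hcard : ((dvs ρ).card : ℝ) = tau ρ := rfl
  refine (norm_sum_le _ _).trans ((Finset.sum_le_sum key).trans ?_)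
  have e4 : ∑ a ∈ dvs ρ, ((tau l : ℝ) ^ 2 / nm l * U + θ⁻¹ * ((nm l : ℝ)⁻¹ * RR a)) =
      (tau ρ : ℝ) * ((tau l : ℝ) ^ 2 / nm l * U) +
        θ⁻¹ * ((nm l : ℝ)⁻¹ * ∑ a ∈ dvs ρ, RR a) := by
    rw [Finset.sum_add_distrib, Finset.sum_const, nsmul_eq_mul, hcard, Finset.mul_sum,
      Finset.mul_sum]
  rw [e4]
  exact real_l2 (Nat.cast_nonneg _) hτρ hln hU0

lemma real_l3 {A B P U W s : ℝ} (hA : 0 ≤ A) (hB : 0 ≤ B) (hP : 0 ≤ P) (hU : 0 ≤ U)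
    (hW : 0 ≤ W) (hs : s ≤ A * P) : s * U + B * P * W ≤ (A + B) * P * (U + W) := by
  have h1 : s * U ≤ A * P * U := mul_le_mul_of_nonneg_right hs hU
  have c1 : 0 ≤ B * P * U := by positivity
  have c2 : 0 ≤ A * P * W := by positivity
  have e : (A + B) * P * (U + W) = A * P * U + B * P * W + (B * P * U + A * P * W) := by ring
  rw [e]
  linarith

/-- **the sum of the `l`-terms** (`Λ` = the set of the `l`, the pairs `a b = ρ l`) -/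
theorem tail_l {ε : ℝ} (hε : 0 < ε) : ∃ C : ℝ, 0 ≤ C ∧
    ∀ (F : ℝ → ℂ) (b₀ P K Y D Y₀ Z E0 L1 θ : ℝ) (I : ℕ), (∀ x, F x ≠ 0 → x ≤ b₀) →
    1 ≤ P → 0 < K → 0 ≤ Y → 0 ≤ D → 0 < Z → Z < 2 ^ I → 0 ≤ E0 → E0 ≤ Y →
    0 < L1 → 0 < θ → ∀ (α : Eis → ℂ), (∀ n, α n ≠ 0 → n ∈ S Y) →
    ∀ (om : Eis × Eis → ℂ), (∀ x, ‖om x‖ ≤ 1) →
    ∀ (Λ : Finset Eis) (ρ : Eis → Eis) (lam : Eis → ℂ),
    (∀ l ∈ Λ, IsPrim l ∧ L1 ≤ (nm l : ℝ) ∧ (nm l : ℝ) ≤ P ∧ IsPrim (ρ l) ∧ Squarefree (ρ l) ∧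
      ρ l ∣ l ∧ ‖lam l‖ ≤ tau l) →
    ‖∑ l ∈ Λ, lam l * ∑ a ∈ dvs (ρ l), CrQ F (fun _ => True) (K / (nm l : ℝ) ^ 3)
        (alr α a (ρ l / a)) (StT E0 (JW D Y₀ Z) (omb om (ρ l / a)) (TE α))‖ ≤
      C * P ^ ε * ((1 + cM * ‖mellin F ((2 / 3 : ℝ) : ℂ)‖ * HS Y) *
        (θ * (K ^ (2 / 3 : ℝ) * AS E0 (JW D Y₀ Z) α) +
          (θ * L1)⁻¹ * (K ^ (2 / 3 : ℝ) * BS Y (JW D Y₀ Z) α)) +
        θ⁻¹ * ∑ l ∈ Λ, (nm l : ℝ)⁻¹ * ∑ a ∈ dvs (ρ l),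
          REb (alr α a (ρ l / a)) (K / (nm l : ℝ) ^ 3) F
            ((S D).filter (fun δ => ρ l / a ∣ δ)) I E0 Z Z) := by
  obtain ⟨C₁, hC₁, H₁⟩ := PInv255.one_add_log_pow_le 16 ε hε
  obtain ⟨C₂, hC₂, H₂⟩ := Div277.tau_le_rpow hε
  have hA0 : (0 : ℝ) ≤ 100 ^ 16 * C₁ := by positivity
  refine ⟨100 ^ 16 * C₁ + C₂, by linarith, ?_⟩
  intro F b₀ P K Y D Y₀ Z E0 L1 θ I hF hP hK hY hD hZ hI hE0 hEY hL1 hθ α hα om hom Λ ρ lam hΛ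
  obtain ⟨U, hU⟩ : ∃ U, U = (1 + cM * ‖mellin F ((2 / 3 : ℝ) : ℂ)‖ * HS Y) *
      (θ * (K ^ (2 / 3 : ℝ) * AS E0 (JW D Y₀ Z) α) +
      (θ * L1)⁻¹ * (K ^ (2 / 3 : ℝ) * BS Y (JW D Y₀ Z) α)) := ⟨_, rfl⟩
  have hU0 : 0 ≤ U := by
    have hcM := cM_nn
    have hHS := HS_nonneg Y
    have hAS := AS_nonneg E0 (JW D Y₀ Z) α
    have hBS := BS_nonneg Y (JW D Y₀ Z) α
    rw [hU]; positivity
  obtain ⟨RR, hRR⟩ : ∃ RR : Eis → ℝ, RR = fun l => ∑ a ∈ dvs (ρ l),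
    REb (alr α a (ρ l / a)) (K / (nm l : ℝ) ^ 3) F
    ((S D).filter (fun δ => ρ l / a ∣ δ)) I E0 Z Z := ⟨_, rfl⟩
  have hRR0 : ∀ l, 0 ≤ RR l := fun l => by
    rw [hRR]
    exact Finset.sum_nonneg fun a _ => REb_nonneg (by positivity) hZ.le
  have hPe : 0 ≤ P ^ ε := by positivity
  -- one `l`
  have hone : ∀ l ∈ Λ, ‖lam l * ∑ a ∈ dvs (ρ l), CrQ F (fun _ => True) (K / (nm l : ℝ) ^ 3)
        (alr α a (ρ l / a)) (StT E0 (JW D Y₀ Z) (omb om (ρ l / a)) (TE α))‖ ≤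
      (tau l : ℝ) ^ 4 / nm l * U + C₂ * P ^ ε * (θ⁻¹ * ((nm l : ℝ)⁻¹ * RR l)) := by
    intro l hl
    obtain ⟨hlp, hl1, hlP, hρp, hρs, hρl, hlam⟩ := hΛ l hl
    have hln := nmpos hlp.ne_zero
    have hsum := sum_ab (Y₀ := Y₀) hF hK hY hD hZ hI hE0 hEY hL1 hθ hα hom hlp hl1 hρp hρs hρl hU
    have hτP : (tau l : ℝ) ≤ C₂ * P ^ ε := by
      refine (H₂ l hlp.ne_zero).trans ?_
      have : (nm l : ℝ) ^ ε ≤ P ^ ε := Real.rpow_le_rpow hln.le hlP hε.le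
      exact mul_le_mul_of_nonneg_left this (by linarith)
    have hS0 : 0 ≤ θ⁻¹ * ((nm l : ℝ)⁻¹ * RR l) := by
      have := hRR0 l
      positivity
    rw [norm_mul]
    refine (mul_le_mul hlam hsum (norm_nonneg _) (Nat.cast_nonneg _)).trans ?_
    have e5 : ∑ a ∈ dvs (ρ l), REb (alr α a (ρ l / a)) (K / (nm l : ℝ) ^ 3) F
          ((S D).filter (fun δ => ρ l / a ∣ δ)) I E0 Z Z = RR l := by rw [hRR]
    rw [e5, mul_add]
    refine add_le_add (le_of_eq (by ring)) (mul_le_mul_of_nonneg_right hτP hS0)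
  refine (norm_sum_le _ _).trans ((Finset.sum_le_sum hone).trans ?_)
  have e6 : ∑ l ∈ Λ, ((tau l : ℝ) ^ 4 / nm l * U + C₂ * P ^ ε * (θ⁻¹ * ((nm l : ℝ)⁻¹ * RR l))) =
      (∑ l ∈ Λ, (tau l : ℝ) ^ 4 / nm l) * U + C₂ * P ^ ε *
        (θ⁻¹ * ∑ l ∈ Λ, (nm l : ℝ)⁻¹ * RR l) := by
    rw [Finset.sum_add_distrib, Finset.sum_mul, Finset.mul_sum, Finset.mul_sum]
  have hsub : Λ ⊆ primBall ⌊P⌋₊ := by
    intro l hl
    obtain ⟨hlp, -, hlP, -⟩ := hΛ l hl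
    rw [mem_primBall]
    exact ⟨Nat.le_floor hlP, hlp⟩
  have h9 : ∑ l ∈ Λ, (tau l : ℝ) ^ 4 / nm l ≤ 100 ^ 16 * C₁ * P ^ ε := by
    have h10 : ∑ l ∈ Λ, (tau l : ℝ) ^ 4 / nm l ≤
        ∑ n ∈ nz ⌊P⌋₊, ((tau n : ℝ) ^ 4 / nm n) :=
      Finset.sum_le_sum_of_subset_of_nonneg
        (hsub.trans (primBall_subset_nz _)) fun _ _ _ => by positivity
    have h11 := sum_tau_pow_div_le 4 ⌊P⌋₊
    have hN1 : (1 : ℝ) ≤ ⌊P⌋₊ := by exact_mod_cast Nat.le_floor (by exact_mod_cast hP)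
    have hNP : (⌊P⌋₊ : ℝ) ≤ P := Nat.floor_le (by linarith)
    have h12 : (1 + Real.log ⌊P⌋₊) ^ 16 ≤ C₁ * P ^ ε := by
      refine le_trans ?_ (H₁ P hP)
      have hl : Real.log ⌊P⌋₊ ≤ Real.log P := Real.log_le_log (by linarith) hNP
      have hl0 : 0 ≤ Real.log (⌊P⌋₊ : ℝ) := Real.log_nonneg hN1
      gcongr
    calc _ ≤ _ := h10
      _ ≤ (100 * (1 + Real.log ⌊P⌋₊)) ^ (2 ^ 4) := h11
      _ = 100 ^ 16 * (1 + Real.log ⌊P⌋₊) ^ 16 := by rw [mul_pow]; norm_num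
      _ ≤ 100 ^ 16 * (C₁ * P ^ ε) := mul_le_mul_of_nonneg_left h12 (by positivity)
      _ = _ := by ring
  have hW0 : 0 ≤ θ⁻¹ * ∑ l ∈ Λ, (nm l : ℝ)⁻¹ * RR l :=
    mul_nonneg (inv_pos.mpr hθ).le (Finset.sum_nonneg fun l _ =>
      mul_nonneg (by positivity) (hRR0 l))
  have e7 : ∑ l ∈ Λ, (nm l : ℝ)⁻¹ * ∑ a ∈ dvs (ρ l),
      REb (alr α a (ρ l / a)) (K / (nm l : ℝ) ^ 3) F
        ((S D).filter (fun δ => ρ l / a ∣ δ)) I E0 Z Z = ∑ l ∈ Λ, (nm l : ℝ)⁻¹ * RR l := by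
    rw [hRR]
  rw [e6, e7, ← hU]
  exact real_l3 hA0 (by linarith) hPe hU0 hW0 h9

end Crest.Agent.R017.LBx48
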