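import Crest.Agent.R017.LBV_180

/-!
# Row 17, C.REMg (LB) (helper180): the lower bound with the three parameters `θ, lam, h`

* `def_num` : the defect of the main forms by numbers
* `LBl` : cross weight `u`, any cut `Q`, three functionals `θ EHs + lam EHf + lam⁻¹ EHt`
* `LBW` : **(LB) with the compensated cross weight**
-/

set_option autoImplicit false
set_option linter.unusedVariables false

noncomputable section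

open Complex MeasureTheory
open scoped ComplexConjugate Classical

namespace Crest.Agent.R017.LBW180

open Crest.Agent.R012 Crest.Agent.R012.Eis Crest.Agent.R012.MC
open Crest.Agent.R012.LS2 (S mem_S)
open Crest.Agent.R012.Mob705 (kap0 pdiv)
open Crest.Agent.R012.Div277 (tau)
open Crest.Agent.R017.E1551 (Adm SqP cP Et Ct XJw)
open Crest.Agent.R017.C70 (JW JC OKJ okJ_JW XJ)
open Crest.Agent.R017.E2440 (TE StE Fh)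
open Crest.Agent.R017.X6C180 (n13 n13_nonneg GF)
open Crest.Agent.R017.LB48 (CrP GrP)
open Crest.Agent.R017.LBx48 (EHs EHt EHf REb EHc_nonneg Dfw_le)
open Crest.Agent.R017.EHu320 (EHc)
open Crest.Agent.R017.I1146 (X2 X3 c3 c3_nonneg omr Dfw)
open Crest.Agent.R017.DgB829 (HS HS_nonneg HS_le)
open Crest.Agent.R017.WDec180 (WD sc sc_pos)
open Crest.Agent.R017.Ex385 (CrQ)
open Crest.Agent.R017.E3M829 (Cut Tal Sg)
open Crest.Agent.R017.LBX180 (EHc_sc)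
open Crest.Agent.R017.E3A164 (SteT Ys Fy)
open Crest.Agent.R017.LBu180 (SqQ core_lbu gram_num)
open Crest.Agent.R017.LBV180 (EH1 EtN EH1_nonneg EtN_nonneg EH1_sc e2v)

lemma Dfw_nn {Y E0 lam : ℝ} {J : Finset (Eis × Eis)} {Om : ℕ → ℝ} (hl : 0 ≤ lam)
    (h0 : ∀ n, 0 ≤ Om n) (h1 : ∀ n, Om n ≤ 1) (α : Eis → ℂ) : 0 ≤ Dfw Y E0 J Om lam α := by
  unfold I1146.Dfw
  refine Finset.sum_nonneg fun x _ => mul_nonneg (X6C180.n13_nonneg _) ?_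
  have m1 := I1146.M2t_nonneg Y α x
  have m2 := I1146.M2o_nonneg Y E0 α x
  have m3 : 0 ≤ Om (nm (x.2 * x.1 ^ 2)) := h0 _
  have m4 : 0 ≤ 1 - Om (nm (x.2 * x.1 ^ 2)) := by linarith [h1 (nm (x.2 * x.1 ^ 2))]
  positivity

lemma dn_num {c H k D a b : ℝ} (hH : H ≤ a) (hH0 : 0 ≤ H) (h2 : k * D ≤ b) (hkD : 0 ≤ k * D) :
    c * k * (H * D) ≤ |c| * (a * b) := by
  have h1 : 0 ≤ H * (k * D) := mul_nonneg hH0 hkD
  calc c * k * (H * D) = c * (H * (k * D)) := by ring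
    _ ≤ |c| * (H * (k * D)) := mul_le_mul_of_nonneg_right (le_abs_self _) h1
    _ ≤ |c| * (a * b) := mul_le_mul_of_nonneg_left (mul_le_mul hH h2 hkD (hH0.trans hH))
        (abs_nonneg _)

/-- **the defect of the main forms** -/
theorem def_num {w : ℝ → ℝ} {R : ℝ} (hR : 0 ≤ R) {A : ℕ} (hA : 2 ≤ A)
    {ε : ℝ} (hε : 0 < ε) : ∃ C : ℝ, 0 ≤ C ∧
    ∀ (P K X Y D Y₀ Z E0 lam : ℝ), 1 ≤ P → 0 < K → 0 < X → 1 ≤ Y → Y ≤ P → 0 < lam → lam ≤ 1 →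
    ∀ Om : ℕ → ℝ, (∀ n, 0 ≤ Om n) → (∀ n, Om n ≤ 1) → ∀ α : Eis → ℂ, Adm Y X R α →
    0 ≤ HS Y * Dfw Y E0 (JW D Y₀ Z) Om lam α ∧
    c3 w K * (HS Y * Dfw Y E0 (JW D Y₀ Z) Om lam α) ≤
      C * P ^ ε * ((K / X) * (lam * EHf A K X Y Z α + lam⁻¹ * EHt A K X Y Z E0 α)) := by
  obtain ⟨C₂, hC₂, H₂⟩ := Dfw_le R hR A hA
  obtain ⟨C₅, hC₅, H₅⟩ := PInv255.one_add_log_pow_le 1 ε hε
  refine ⟨|c3 w 1| * (200 * C₅ * (2 * C₂)), by positivity, ?_⟩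
  intro P K X Y D Y₀ Z E0 lam hP1 hK hX hY hYP hl hl1 Om h0 h1 α hα
  have hY0 : 0 ≤ Y := by linarith
  have b3 : c3 w K = c3 w 1 * K ^ (2 / 3 : ℝ) := by
    unfold I1146.c3
    rw [Real.one_rpow]; ring
  have c1 := H₂ Y X K D Y₀ Z E0 lam hY hX hK hl Om h0 h1 α hα
  have f0 : 0 ≤ EHf A K X Y Z α := EHc_nonneg (fun n => by positivity) _ hK.le hX.le α
  have t0 : 0 ≤ EHt A K X Y Z E0 α := EHc_nonneg (fun n => by positivity) _ hK.le hX.le α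
  have d1 : EHc (fun n => ((n : ℝ))⁻¹) (fun _ => True) A K X Y Z α = EHf A K X Y Z α := rfl
  have d2 : EHc (fun n => ((n : ℝ))⁻¹) (fun e => e ∉ S E0) A K X Y Z α =
      EHt A K X Y Z E0 α := rfl
  rw [d1, d2] at c1
  have hli : 1 ≤ lam⁻¹ := (one_le_inv₀ hl).mpr hl1
  have d4 : lam * EHf A K X Y Z α + (lam⁻¹ + 1) * EHt A K X Y Z E0 α ≤
      2 * (lam * EHf A K X Y Z α + lam⁻¹ * EHt A K X Y Z E0 α) := by
    have u3 : 1 * EHt A K X Y Z E0 α ≤ lam⁻¹ * EHt A K X Y Z E0 α :=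
      mul_le_mul_of_nonneg_right hli t0
    have u5 : 0 ≤ lam * EHf A K X Y Z α := mul_nonneg hl.le f0
    linarith
  have c2 : K ^ (2 / 3 : ℝ) * Dfw Y E0 (JW D Y₀ Z) Om lam α ≤ 2 * C₂ * ((K / X) *
      (lam * EHf A K X Y Z α + lam⁻¹ * EHt A K X Y Z E0 α)) := by
    have : 0 ≤ C₂ * (K / X) := by positivity
    calc _ ≤ _ := c1
      _ ≤ C₂ * (K / X) * (2 * (lam * EHf A K X Y Z α + lam⁻¹ * EHt A K X Y Z E0 α)) :=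
          mul_le_mul_of_nonneg_left d4 this
      _ = _ := by ring
  have hH : HS Y ≤ 200 * (C₅ * P ^ ε) := by
    refine (HS_le hY).trans ?_
    have h6 := H₅ P hP1
    rw [pow_one] at h6
    have h7 : Real.log Y ≤ Real.log P := Real.log_le_log (by linarith) hYP
    linarith
  have hDf := Dfw_nn (Y := Y) (E0 := E0) (J := JW D Y₀ Z) hl.le h0 h1 α
  have hH0 := HS_nonneg Y
  refine ⟨mul_nonneg hH0 hDf, ?_⟩
  have hKp : 0 ≤ K ^ (2 / 3 : ℝ) := by positivity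
  rw [b3]
  refine (dn_num hH hH0 c2 (mul_nonneg hKp hDf)).trans (le_of_eq ?_)
  ring

/-- numbers -/
lemma asm_l {p κ e₂ e₃ d CG CD Q s f t T OFF : ℝ} (hp : 0 ≤ p) (hk : |κ| ≤ 1) (he₂ : 0 ≤ e₂)
    (hd : 0 ≤ d) (hCG : 0 ≤ CG) (hCD : 0 ≤ CD) (hQ : 1 ≤ Q) (hs : 0 ≤ s) (hf : 0 ≤ f) (ht : 0 ≤ t)
    (hO : 0 ≤ OFF) (he₃ : e₃ ≤ 2 * CG * (Q * s) + OFF) (hdd : d ≤ CD * (Q * (f + t)))
    (hT : T ≤ 2 * |κ| * p * e₂ + κ ^ 2 * (p ^ 2 * e₃) + κ ^ 2 * (p ^ 2 * d)) :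
    T ≤ (2 * p + p ^ 2 * (2 * CG + 1 + CD)) * Q * (s + f + t + e₂ + OFF) := by
  have hκ2 : κ ^ 2 ≤ 1 := by
    rw [← sq_abs]; nlinarith [abs_nonneg κ]
  obtain ⟨U, hU⟩ : ∃ U, U = s + f + t + e₂ + OFF := ⟨_, rfl⟩
  have hU0 : 0 ≤ U := by rw [hU]; positivity
  have hQ0 : 0 ≤ Q := by linarith
  have hUQ : U ≤ Q * U := le_mul_of_one_le_left hU0 hQ
  have q1 : 2 * |κ| * p * e₂ ≤ 2 * p * (Q * U) := by
    have a1 : |κ| * (2 * p * e₂) ≤ 1 * (2 * p * e₂) :=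
      mul_le_mul_of_nonneg_right hk (by positivity)
    have a2 : 2 * p * e₂ ≤ 2 * p * (Q * U) :=
      mul_le_mul_of_nonneg_left (by rw [hU] at hUQ ⊢; linarith) (by positivity)
    linarith
  have hs1 : Q * s ≤ Q * U := mul_le_mul_of_nonneg_left (by rw [hU]; linarith) hQ0
  have hft1 : Q * (f + t) ≤ Q * U := mul_le_mul_of_nonneg_left (by rw [hU]; linarith) hQ0
  have q2 : κ ^ 2 * (p ^ 2 * e₃) ≤ p ^ 2 * ((2 * CG + 1) * (Q * U)) := by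
    have a1 : e₃ ≤ (2 * CG + 1) * (Q * U) := by
      have b1 := mul_le_mul_of_nonneg_left hs1 (by positivity : 0 ≤ 2 * CG)
      have b2 : OFF ≤ Q * U := by rw [hU] at hUQ ⊢; linarith
      linarith
    have a2 : p ^ 2 * e₃ ≤ p ^ 2 * ((2 * CG + 1) * (Q * U)) :=
      mul_le_mul_of_nonneg_left a1 (by positivity)
    have a3 : 0 ≤ p ^ 2 * ((2 * CG + 1) * (Q * U)) := by positivity
    calc κ ^ 2 * (p ^ 2 * e₃) ≤ κ ^ 2 * (p ^ 2 * ((2 * CG + 1) * (Q * U))) :=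
          mul_le_mul_of_nonneg_left a2 (sq_nonneg _)
      _ ≤ _ := mul_le_of_le_one_left a3 hκ2
  have q3 : κ ^ 2 * (p ^ 2 * d) ≤ p ^ 2 * (CD * (Q * U)) := by
    have a1 : d ≤ CD * (Q * U) := hdd.trans (mul_le_mul_of_nonneg_left hft1 hCD)
    have a2 : p ^ 2 * d ≤ p ^ 2 * (CD * (Q * U)) := mul_le_mul_of_nonneg_left a1 (by positivity)
    exact (mul_le_of_le_one_left (by positivity) hκ2).trans a2
  rw [← hU]
  have e1 : (2 * p + p ^ 2 * (2 * CG + 1 + CD)) * Q * U = 2 * p * (Q * U) +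
      p ^ 2 * ((2 * CG + 1) * (Q * U)) + p ^ 2 * (CD * (Q * U)) := by ring
  rw [e1]
  linarith

/-- **(LB), cross weight `u`, any cut `Q`, one hypothesis on the kept `k`** -/
theorem LBl {w : ℝ → ℝ} (hw : Wgt w) (hw0 : ∀ x, 0 ≤ w x) {u : ℝ → ℝ} (hu : ∀ x, |u x| ≤ w x)
    {κ : ℝ} (hκ : mel u (2 / 3) = κ * mel w (2 / 3)) (hκ1 : |κ| ≤ 1) {R : ℝ} (hR : 0 ≤ R) {A : ℕ}
    (hA : 2 ≤ A) {ε : ℝ} (hε : 0 < ε) : ∃ C : ℝ, 0 ≤ C ∧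
    ∀ (P K X Y D Y₀ Z E0 E1 B θ lam : ℝ), 1 ≤ P → 0 < K → K ≤ P → 0 < X → 1 ≤ Y → Y ≤ P →
    0 ≤ D → D ≤ P → 0 < Z → Z ≤ P → 0 ≤ E0 → E0 ≤ Y → 1 ≤ B → 0 < θ → 0 < lam → lam ≤ 1 →
    B⁻¹ ≤ θ → (Z / K ^ 2) ^ (1 / 6 : ℝ) ≤ θ →
    ∀ α : Eis → ℂ, Adm Y X R α → ∀ Om ρ : ℕ → ℝ, (∀ n, ρ n = 2 * Om n - Om n ^ 2) →
    (∀ n, 0 ≤ Om n) → (∀ n, Om n ≤ 1) →
    ∀ Q : Eis → Prop, (∀ k, IsPrim k → w (nm k / K) ≠ 0 → Q k → Cut E1 k) →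
    ∀ e₂ OFF : ℝ, 0 ≤ OFF →
    ‖CrP u K α (fun k => if Q k then StE E0 (JW D Y₀ Z) (omr Om) α k else 0) -
      ((pC * (kap0 * mel u (2 / 3) * K ^ (2 / 3 : ℝ)) : ℝ) : ℂ) *
        I1146.X2 Y E0 (JW D Y₀ Z) (omr Om) α‖ ≤ e₂ →
    Sg w K B Z E1 (fun q t k₁ => ‖∑ y ∈ Ys (JW D Y₀ Z) E0 Z,
        Fy (JW D Y₀ Z) (omr Om) (Tal α) q t k₁ y‖ ^ 2) ≤
      Sg w K B Z E1 (fun q t k₁ => E3M829.Dg (JW D Y₀ Z) (omr Om) (Tal α) E0 Z q t k₁) + OFF →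
    κ ^ 2 * (2 * cP w * K ^ (2 / 3 : ℝ) * (XJw ρ (JW D Y₀ Z) α).re) - SqQ w K Q α ≤
      C * P ^ ε * ((K / X) * (θ * EHs A K X Y Z E0 α + lam * EHf A K X Y Z α +
        lam⁻¹ * EHt A K X Y Z E0 α) + e₂ + OFF) := by
  obtain ⟨CG, hCG, HG⟩ := gram_num hw hw0 hR hA hε
  obtain ⟨CD, hCD, HD⟩ := def_num (w := w) hR hA hε
  have hP := Cst401.pC_pos
  refine ⟨2 * pC + pC ^ 2 * (2 * CG + 1 + CD), by positivity, ?_⟩
  intro P K X Y D Y₀ Z E0 E1 B θ lam hP1 hK hKP hX hY hYP hD hDP hZ hZP hE0 hE0Y hB hθ hl hl1 hBθ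
    hKθ α hα Om ρ hρ h0 h1 Q hQ e₂ OFF hOFF he₂ hoff
  have hY0 : 0 ≤ Y := by linarith
  have hPe : 1 ≤ P ^ ε := Real.one_le_rpow hP1 hε.le
  have hom1 : ∀ x, ‖omr Om x‖ ≤ 1 := by
    intro x
    unfold I1146.omr
    rw [Complex.norm_real, Real.norm_of_nonneg (h0 _)]
    exact h1 _
  have hJok : OKJ (JW D Y₀ Z) := okJ_JW D Y₀ Z
  have g1 := HG P K X Y D Y₀ Z E0 E1 B hP1 hK hKP hX hY hYP hD hDP hZ hZP hE0 hE0Y hB α hα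
    (omr Om) hom1 Q hQ OFF hoff
  obtain ⟨d0, d1⟩ := HD P K X Y D Y₀ Z E0 lam hP1 hK hX hY hYP hl hl1 Om h0 h1 α hα
  have he₂' : ‖CrP u K α (fun k => if Q k then StE E0 (JW D Y₀ Z) (omr Om) α k else 0) -
      ((pC * (κ * c3 w K) : ℝ) : ℂ) * I1146.X2 Y E0 (JW D Y₀ Z) (omr Om) α‖ ≤ e₂ := by
    rw [show κ * c3 w K = kap0 * mel u (2 / 3) * K ^ (2 / 3 : ℝ) by
      rw [hκ]; unfold I1146.c3; ring]
    exact he₂
  have a4 := core_lbu hw hu hK α (StE E0 (JW D Y₀ Z) (omr Om) α) Q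
    (Z₁ := XJw ρ (JW D Y₀ Z) α) (c₃ := c3 w K) hP.le he₂' g1
  have a6 := I1146.comb_w_le hY0 hα.sup hJok E0 hρ h0 h1 hl
  have hc := c3_nonneg hw0 hK
  have a7 : κ ^ 2 * (pC ^ 2 * c3 w K * ((XJw ρ (JW D Y₀ Z) α).re -
      2 * (I1146.X2 Y E0 (JW D Y₀ Z) (omr Om) α).re +
      (I1146.X3 Y E0 (JW D Y₀ Z) (omr Om) α).re)) ≤
      κ ^ 2 * (pC ^ 2 * (c3 w K * (HS Y * Dfw Y E0 (JW D Y₀ Z) Om lam α))) := by
    rw [← mul_assoc (pC ^ 2)]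
    exact mul_le_mul_of_nonneg_left (mul_le_mul_of_nonneg_left a6
      (mul_nonneg (by positivity) hc)) (sq_nonneg _)
  have e1 : 2 * cP w * K ^ (2 / 3 : ℝ) * (XJw ρ (JW D Y₀ Z) α).re =
      pC ^ 2 * c3 w K * (XJw ρ (JW D Y₀ Z) α).re := by
    rw [Cst401.two_cP hw]
    unfold I1146.c3
    ring
  have s0 : 0 ≤ EHs A K X Y Z E0 α := EHc_nonneg (fun n => Nat.cast_nonneg n) _ hK.le hX.le α
  have t0 : 0 ≤ EHt A K X Y Z E0 α := EHc_nonneg (fun n => by positivity) _ hK.le hX.le α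
  have f0 : 0 ≤ EHf A K X Y Z α := EHc_nonneg (fun n => by positivity) _ hK.le hX.le α
  have hKX : 0 ≤ K / X := by positivity
  have hg3 : CG * P ^ ε * ((Z / K ^ 2) ^ (1 / 6 : ℝ) + B⁻¹) * ((K / X) * EHs A K X Y Z E0 α) +
      OFF ≤ 2 * CG * (P ^ ε * ((K / X) * (θ * EHs A K X Y Z E0 α))) + OFF := by
    have b1 : (Z / K ^ 2) ^ (1 / 6 : ℝ) + B⁻¹ ≤ 2 * θ := by linarith
    have b2 : CG * P ^ ε * ((Z / K ^ 2) ^ (1 / 6 : ℝ) + B⁻¹) ≤ CG * P ^ ε * (2 * θ) :=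
      mul_le_mul_of_nonneg_left b1 (by positivity)
    have b3 := mul_le_mul_of_nonneg_right b2 (mul_nonneg hKX s0)
    have e9 : CG * P ^ ε * (2 * θ) * ((K / X) * EHs A K X Y Z E0 α) =
        2 * CG * (P ^ ε * ((K / X) * (θ * EHs A K X Y Z E0 α))) := by ring
    rw [e9] at b3
    linarith
  have fin := asm_l (T := κ ^ 2 * (2 * cP w * K ^ (2 / 3 : ℝ) * (XJw ρ (JW D Y₀ Z) α).re) -
      SqQ w K Q α) hP.le hκ1 ((norm_nonneg _).trans he₂) (mul_nonneg hc d0) hCG hCD hPe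
    (s := (K / X) * (θ * EHs A K X Y Z E0 α)) (f := (K / X) * (lam * EHf A K X Y Z α))
    (t := (K / X) * (lam⁻¹ * EHt A K X Y Z E0 α))
    (mul_nonneg hKX (mul_nonneg hθ.le s0)) (mul_nonneg hKX (mul_nonneg hl.le f0))
    (mul_nonneg hKX (mul_nonneg (inv_pos.mpr hl).le t0)) hOFF hg3
    (d1.trans (le_of_eq (by ring))) (by rw [e1]; linarith)
  refine fin.trans (le_of_eq ?_)
  ring

/-- **(LB), one hypothesis on the kept `k`** -/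
theorem LBl1 {w : ℝ → ℝ} (hw : Wgt w) (hw0 : ∀ x, 0 ≤ w x) {R : ℝ} (hR : 0 ≤ R) {A : ℕ}
    (hA : 2 ≤ A) {ε : ℝ} (hε : 0 < ε) : ∃ C : ℝ, 0 ≤ C ∧
    ∀ (P K X Y D Y₀ Z E0 E1 B θ lam : ℝ), 1 ≤ P → 0 < K → K ≤ P → 0 < X → 1 ≤ Y → Y ≤ P →
    0 ≤ D → D ≤ P → 0 < Z → Z ≤ P → 0 ≤ E0 → E0 ≤ Y → 1 ≤ B → 0 < θ → 0 < lam → lam ≤ 1 →
    B⁻¹ ≤ θ → (Z / K ^ 2) ^ (1 / 6 : ℝ) ≤ θ →
    ∀ α : Eis → ℂ, Adm Y X R α → ∀ Om ρ : ℕ → ℝ, (∀ n, ρ n = 2 * Om n - Om n ^ 2) →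
    (∀ n, 0 ≤ Om n) → (∀ n, Om n ≤ 1) →
    ∀ Q : Eis → Prop, (∀ k, IsPrim k → w (nm k / K) ≠ 0 → Q k → Cut E1 k) →
    ∀ e₂ OFF : ℝ, 0 ≤ OFF →
    ‖CrP w K α (fun k => if Q k then StE E0 (JW D Y₀ Z) (omr Om) α k else 0) -
      ((pC * (kap0 * mel w (2 / 3) * K ^ (2 / 3 : ℝ)) : ℝ) : ℂ) *
        I1146.X2 Y E0 (JW D Y₀ Z) (omr Om) α‖ ≤ e₂ →
    Sg w K B Z E1 (fun q t k₁ => ‖∑ y ∈ Ys (JW D Y₀ Z) E0 Z,
        Fy (JW D Y₀ Z) (omr Om) (Tal α) q t k₁ y‖ ^ 2) ≤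
      Sg w K B Z E1 (fun q t k₁ => E3M829.Dg (JW D Y₀ Z) (omr Om) (Tal α) E0 Z q t k₁) + OFF →
    2 * cP w * K ^ (2 / 3 : ℝ) * (XJw ρ (JW D Y₀ Z) α).re - SqQ w K Q α ≤
      C * P ^ ε * ((K / X) * (θ * EHs A K X Y Z E0 α + lam * EHf A K X Y Z α +
        lam⁻¹ * EHt A K X Y Z E0 α) + e₂ + OFF) := by
  obtain ⟨C, hC, H⟩ := LBl hw hw0 (u := w) (fun x => (abs_of_nonneg (hw0 x)).le) (κ := 1)
    (by rw [one_mul]) (by norm_num) hR hA hε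
  refine ⟨C, hC, ?_⟩
  intro P K X Y D Y₀ Z E0 E1 B θ lam hP1 hK hKP hX hY hYP hD hDP hZ hZP hE0 hE0Y hB hθ hl hl1 hBθ
    hKθ α hα Om ρ hρ h0 h1 Q hQ e₂ OFF hOFF he₂ hoff
  have h := H P K X Y D Y₀ Z E0 E1 B θ lam hP1 hK hKP hX hY hYP hD hDP hZ hZP hE0 hE0Y hB hθ hl
    hl1 hBθ hKθ α hα Om ρ hρ h0 h1 Q hQ e₂ OFF hOFF he₂ hoff
  rwa [one_pow, one_mul] at h

set_option maxHeartbeats 1000000 in
/-- **(LB), both classes: compensated cross weight, any cut, tail for the compensated pieces** -/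
theorem LBW {w : ℝ → ℝ} (hw : Wgt w) (hw0 : ∀ x, 0 ≤ w x) {N : ℕ} {M : ℝ} {F : ℕ → ℝ → ℂ}
    (hD : WD w N M F) {R : ℝ} (hR : 0 ≤ R) {A : ℕ} (hA : 2 ≤ A) {B₂ : ℝ} (hB₂ : 1 ≤ B₂)
    {ε : ℝ} (hε : 0 < ε) : ∃ C : ℝ, 0 ≤ C ∧
    ∀ (P K X Y D Y₀ Z E0 E1 B θ lam h : ℝ) (I : ℕ), 1 ≤ P → 0 < K → K ≤ P → 0 < X → 1 ≤ Y →
    Y ≤ P → 0 ≤ D → D ≤ P → 0 < Z → Z ≤ P → 0 ≤ E0 → E0 ≤ Y → 1 ≤ B → 0 < θ → θ ≤ 1 →
    0 < lam → lam ≤ 1 →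
    B⁻¹ ≤ θ → (Z / K ^ 2) ^ (1 / 6 : ℝ) ≤ θ → 0 ≤ h → Real.exp (-(h / 3)) ≤ θ →
    (Z / (K * Real.exp (-h)) ^ 2) ^ (1 / 6 : ℝ) ≤ 1 → Z < 2 ^ I →
    ∀ α : Eis → ℂ, Adm Y X R α → ∀ Om ρ : ℕ → ℝ, (∀ n, ρ n = 2 * Om n - Om n ^ 2) →
    (∀ n, 0 ≤ Om n) → (∀ n, Om n ≤ 1) →
    ∀ Q : Eis → Prop, (∀ k, IsPrim k → w (nm k / K) ≠ 0 → Q k → Cut E1 k) →
    (∀ k, IsPrim k → w (nm k / (K * Real.exp (-h))) ≠ 0 → Q k → Cut E1 k) →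
    ∀ et OFF OFF' dg : ℝ, 0 ≤ OFF → 0 ≤ OFF' → 0 ≤ dg → E1551.Dg w K Y α ≤ dg →
    ∑ i ∈ Finset.range N, ‖CrQ (GF (Fh (F i) h)) (fun k => ¬ Q k) (sc K M i) α
      (StE E0 (JW D Y₀ Z) (omr Om) α)‖ ≤ et →
    Sg w K B Z E1 (fun q t k₁ => ‖∑ y ∈ Ys (JW D Y₀ Z) E0 Z,
        Fy (JW D Y₀ Z) (omr Om) (Tal α) q t k₁ y‖ ^ 2) ≤
      Sg w K B Z E1 (fun q t k₁ => E3M829.Dg (JW D Y₀ Z) (omr Om) (Tal α) E0 Z q t k₁) + OFF →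
    Sg w (K * Real.exp (-h)) B Z E1 (fun q t k₁ => ‖∑ y ∈ Ys (JW D Y₀ Z) E0 Z,
        Fy (JW D Y₀ Z) (omr Om) (Tal α) q t k₁ y‖ ^ 2) ≤
      Sg w (K * Real.exp (-h)) B Z E1
        (fun q t k₁ => E3M829.Dg (JW D Y₀ Z) (omr Om) (Tal α) E0 Z q t k₁) + OFF' →
    2 * cP w * K ^ (2 / 3 : ℝ) * (XJw ρ (JW D Y₀ Z) α).re - SqQ w K Q α ≤
      C * P ^ ε * (((K / X) * (θ * EHs A K X Y Z E0 α + lam * EHf A K X Y Z α +
          lam⁻¹ * EHt A K X Y Z E0 α +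
          (Real.exp (-(h / 3)) * EH1 A K X Y Z α +
          Real.exp (-(2 * h / 3)) * EtN A B₂ (K * Real.exp (-h)) X Y Z α))) +
        θ⁻¹ * ∑ i ∈ Finset.range N, REb α (sc K M i) (GF (Fh (F i) h)) (S D) I E0 Z Z +
        Real.exp (-(2 * h / 3)) * dg + et + OFF + Real.exp (h / 3) * OFF') := by
  have hε2 : 0 < ε / 2 := by positivity
  obtain ⟨C₁, hC₁, H₁⟩ := LBl1 hw hw0 hR hA hε2
  obtain ⟨C₂, hC₂, H₂⟩ := e2v hw hw0 hD hR hA hB₂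
  obtain ⟨CG, hCG, HG⟩ := gram_num hw hw0 hR hA hε2
  obtain ⟨C₅, hC₅, H₅⟩ := PInv255.one_add_log_pow_le 1 (ε / 2) hε2
  refine ⟨C₁ * (3 + 2 * C₂ * C₅ + 2 * CG), by positivity, ?_⟩
  intro P K X Y D Y₀ Z E0 E1 B θ lam h I hP1 hK hKP hX hY hYP hD0 hDP hZ hZP hE0 hE0Y hB
    hθ hθ1 hl hl1 hBθ hKθ hh hhθ hK'1 hI α hα Om ρ hρ h0 h1 Q hQ hQ' et OFF OFF' dg hOFF hOFF' hdg hDg
    hetb hoff hoff'
  have hK' : 0 < K * Real.exp (-h) := by positivity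
  have hK'K : K * Real.exp (-h) ≤ K := mul_le_of_le_one_right hK.le (Real.exp_le_one_iff.mpr
    (by linarith))
  have hom1 : ∀ x, ‖omr Om x‖ ≤ 1 := by
    intro x
    unfold I1146.omr
    rw [Complex.norm_real, Real.norm_of_nonneg (h0 _)]
    exact h1 _
  have hs0 : 0 ≤ EHs A K X Y Z E0 α := EHc_nonneg (fun n => Nat.cast_nonneg n) _ hK.le hX.le α
  have ht0 : 0 ≤ EHt A K X Y Z E0 α := EHc_nonneg (fun n => by positivity) _ hK.le hX.le α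
  have hf0 : 0 ≤ EHf A K X Y Z α := EHc_nonneg (fun n => by positivity) _ hK.le hX.le α
  have hKX : 0 ≤ K / X := by positivity
  -- the Gram sum at the second scale
  have g1 := HG P (K * Real.exp (-h)) X Y D Y₀ Z E0 E1 B hP1 hK' (hK'K.trans hKP) hX hY hYP hD0
    hDP hZ hZP hE0 hE0Y hB α hα (omr Om) hom1 Q hQ' OFF' hoff'
  set e₃ := CG * P ^ (ε / 2) * ((Z / (K * Real.exp (-h)) ^ 2) ^ (1 / 6 : ℝ) + B⁻¹) *
    ((K * Real.exp (-h) / X) * EHs A (K * Real.exp (-h)) X Y Z E0 α) + OFF' with he₃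
  have hs1 : EHs A (K * Real.exp (-h)) X Y Z E0 α = Real.exp (h / 3) * EHs A K X Y Z E0 α := by
    unfold LBx48.EHs
    rw [EHc_sc (Real.exp_pos _).le _ _ hK.le, ← Real.exp_mul]
    congr 2
    ring
  have hPe : 1 ≤ P ^ (ε / 2) := Real.one_le_rpow hP1 hε2.le
  have he₃0 : 0 ≤ e₃ := by
    rw [he₃, hs1]
    positivity
  have he₃b : Real.exp (h / 3) * |e₃| ≤
      CG * P ^ (ε / 2) * 2 * (Real.exp (-(h / 3)) * ((K / X) * EHs A K X Y Z E0 α)) +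
        Real.exp (h / 3) * OFF' := by
    rw [abs_of_nonneg he₃0, he₃, hs1, mul_add]
    have hB1 : B⁻¹ ≤ 1 := inv_le_one_of_one_le₀ hB
    have c1 : CG * P ^ (ε / 2) * ((Z / (K * Real.exp (-h)) ^ 2) ^ (1 / 6 : ℝ) + B⁻¹) ≤
        CG * P ^ (ε / 2) * 2 := mul_le_mul_of_nonneg_left (by linarith) (by positivity)
    have c2 : Real.exp (h / 3) * ((K * Real.exp (-h) / X) *
        (Real.exp (h / 3) * EHs A K X Y Z E0 α)) =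
        Real.exp (-(h / 3)) * ((K / X) * EHs A K X Y Z E0 α) := by
      have e9 : Real.exp (h / 3) * Real.exp (-h) * Real.exp (h / 3) = Real.exp (-(h / 3)) := by
        rw [← Real.exp_add, ← Real.exp_add]; congr 1; ring
      rw [← e9]; ring
    have c3 : 0 ≤ Real.exp (-(h / 3)) * ((K / X) * EHs A K X Y Z E0 α) := by positivity
    have c4 := mul_le_mul_of_nonneg_right c1 c3
    rw [← c2] at c4
    have c5 : Real.exp (h / 3) * (CG * P ^ (ε / 2) *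
        ((Z / (K * Real.exp (-h)) ^ 2) ^ (1 / 6 : ℝ) + B⁻¹) *
        ((K * Real.exp (-h) / X) * (Real.exp (h / 3) * EHs A K X Y Z E0 α))) =
        CG * P ^ (ε / 2) * ((Z / (K * Real.exp (-h)) ^ 2) ^ (1 / 6 : ℝ) + B⁻¹) *
        (Real.exp (h / 3) * ((K * Real.exp (-h) / X) *
        (Real.exp (h / 3) * EHs A K X Y Z E0 α))) := by ring
    rw [c5, ← c2]
    linarith
  -- the cross error
  have x1 := H₂ K X Y D Y₀ Z E0 h θ I hK hX hY hZ hh hD0 hE0 hθ hI α hα (omr Om)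
    hom1 Q e₃ et g1 hetb
  obtain ⟨e₂, he₂⟩ : ∃ e : ℝ, e = C₂ * (1 + Real.log Y) * ((K / X) * (θ * EHs A K X Y Z E0 α +
          Real.exp (-(h / 3)) * EH1 A K X Y Z α +
          Real.exp (-(2 * h / 3)) * EtN A B₂ (K * Real.exp (-h)) X Y Z α) +
        θ⁻¹ * ∑ i ∈ Finset.range N, REb α (sc K M i) (GF (Fh (F i) h)) (S D) I E0 Z Z) +
        Real.exp (-(2 * h / 3)) * E1551.Dg w K Y α + Real.exp (h / 3) * |e₃| + et := ⟨_, rfl⟩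
  rw [← he₂] at x1
  have z1 := H₁ P K X Y D Y₀ Z E0 E1 B θ lam hP1 hK hKP hX hY hYP hD0 hDP hZ hZP hE0 hE0Y hB hθ hl
    hl1 hBθ hKθ α hα Om ρ hρ h0 h1 Q hQ e₂ OFF hOFF x1 hoff
  -- numbers
  have hL : 1 + Real.log Y ≤ C₅ * P ^ (ε / 2) := by
    have h6 := H₅ P hP1
    rw [pow_one] at h6
    have h7 : Real.log Y ≤ Real.log P := Real.log_le_log (by linarith) hYP
    linarith
  have hE1 : 0 ≤ Real.exp (-(h / 3)) * EH1 A K X Y Z α +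
      Real.exp (-(2 * h / 3)) * EtN A B₂ (K * Real.exp (-h)) X Y Z α :=
    add_nonneg (mul_nonneg (Real.exp_pos _).le (EH1_nonneg hK.le hX.le α))
      (mul_nonneg (Real.exp_pos _).le (EtN_nonneg hK'.le hX.le hZ.le α))
  have hr0 : 0 ≤ ∑ i ∈ Finset.range N, REb α (sc K M i) (GF (Fh (F i) h)) (S D) I E0 Z Z := by
    refine Finset.sum_nonneg fun i _ => ?_
    unfold LBx48.REb
    refine Finset.sum_nonneg fun δ _ => Finset.sum_nonneg fun j _ => Finset.sum_nonneg fun e _ => ?_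
    have h9 : 0 ≤ (sc K M i) ^ (-(2 / 3) : ℝ) := Real.rpow_nonneg (sc_pos hK M i).le _
    positivity
  have het0 : 0 ≤ et := (Finset.sum_nonneg fun i _ => norm_nonneg _).trans hetb
  have hPP : P ^ (ε / 2) * P ^ (ε / 2) = P ^ ε := by
    rw [← Real.rpow_add (by linarith)]; congr 1; ring
  have hlog := Real.log_nonneg hY
  have ht1 : 0 ≤ θ * ((K / X) * (lam * EHf A K X Y Z α + lam⁻¹ * EHt A K X Y Z E0 α)) :=
    mul_nonneg hθ.le (mul_nonneg hKX (add_nonneg (mul_nonneg hl.le hf0)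
      (mul_nonneg (inv_pos.mpr hl).le ht0)))
  have htt : θ⁻¹ * (θ * ((K / X) * (lam * EHf A K X Y Z α + lam⁻¹ * EHt A K X Y Z E0 α))) =
      (K / X) * (lam * EHf A K X Y Z α + lam⁻¹ * EHt A K X Y Z E0 α) :=
    inv_mul_cancel_left₀ hθ.ne' _
  have fin := LBu180.asm_e (G := 2 * cP w * K ^ (2 / 3 : ℝ) * (XJw ρ (JW D Y₀ Z) α).re - SqQ w K Q α)
    (s := (K / X) * EHs A K X Y Z E0 α) (t := θ * ((K / X) * (lam * EHf A K X Y Z α +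
      lam⁻¹ * EHt A K X Y Z E0 α)))
    (f := 0)
    (e1 := (K / X) * (Real.exp (-(h / 3)) * EH1 A K X Y Z α +
      Real.exp (-(2 * h / 3)) * EtN A B₂ (K * Real.exp (-h)) X Y Z α))
    (RR := θ⁻¹ * ∑ i ∈ Finset.range N, REb α (sc K M i) (GF (Fh (F i) h)) (S D) I E0 Z Z)
    (dg := Real.exp (-(2 * h / 3)) * dg) (L := 1 + Real.log Y)
    (OFF' := Real.exp (h / 3) * OFF') (e₃ := Real.exp (h / 3) * |e₃|)
    hC₁ hC₂ (by linarith) hCG hPe (mul_nonneg hKX hs0) ht1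
    (add_nonneg (mul_nonneg hKX hs0) ht1)
    (mul_nonneg hKX hE1)
    (mul_nonneg (inv_pos.mpr hθ).le hr0) (mul_nonneg (Real.exp_pos _).le hdg) het0 hOFF
    (mul_nonneg (Real.exp_pos _).le hOFF') hθ hθ1 (Real.exp_pos (-(h / 3))).le hhθ
    (by linarith) hL (e₂ := e₂) ?_ he₃b (z1.trans (le_of_eq ?_))
  · rw [hPP, htt] at fin
    refine fin.trans (le_of_eq ?_)
    ring
  · have d9 : Real.exp (-(2 * h / 3)) * E1551.Dg w K Y α ≤ Real.exp (-(2 * h / 3)) * dg :=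
      mul_le_mul_of_nonneg_left hDg (Real.exp_pos _).le
    rw [he₂]
    have e9 : C₂ * (1 + Real.log Y) * ((K / X) * (θ * EHs A K X Y Z E0 α +
          Real.exp (-(h / 3)) * EH1 A K X Y Z α +
          Real.exp (-(2 * h / 3)) * EtN A B₂ (K * Real.exp (-h)) X Y Z α) +
        θ⁻¹ * ∑ i ∈ Finset.range N, REb α (sc K M i) (GF (Fh (F i) h)) (S D) I E0 Z Z) =
        C₂ * (1 + Real.log Y) * ((θ * ((K / X) * EHs A K X Y Z E0 α) +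
          Real.exp (-(h / 3)) * 0 +
          (K / X) * (Real.exp (-(h / 3)) * EH1 A K X Y Z α + Real.exp (-(2 * h / 3)) *
            EtN A B₂ (K * Real.exp (-h)) X Y Z α)) +
        θ⁻¹ * ∑ i ∈ Finset.range N, REb α (sc K M i) (GF (Fh (F i) h)) (S D) I E0 Z Z) := by
      ring
    rw [e9]
    linarith
  · rw [htt]; ring

end Crest.Agent.R017.LBW180
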