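import Crest.Agent.R017.NTe_813
import Crest.Agent.R017.GN_48

/-!
# Row 17, the near-top part of the tail of (LB) (helper813), part b: the near-top number `NumNz`

* `NumG` : the off-diagonal Gram sums of the restricted models (381's `NRo`, at the level `Z`)
* `NumQ` : the squares of the shortened sequences (381's `NSq` / 829's `NSqC`)
* `nt_be` : **`NumG`, `NumQ` ⟹ `NumNz`**
-/

set_option autoImplicit false
set_option linter.unusedVariables false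

noncomputable section

open Complex MeasureTheory
open scoped ComplexConjugate Classical

namespace Crest.Agent.R017.Et813

open Crest.Agent.R012 Crest.Agent.R012.Eis Crest.Agent.R012.MC
open Crest.Agent.R012.LS2 (S mem_S)
open Crest.Agent.R012.Weight600 (osc pw)
open Crest.Agent.R017.CM106 (CS FS)
open Crest.Agent.R017.E1551 (Adm nmpos)
open Crest.Agent.R017.C70 (JW OKJ okJ_JW CbF)
open Crest.Agent.R017.E2440 (TE StE StT TOK tok_TE Fh)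
open Crest.Agent.R017.EHu320 (EHc)
open Crest.Agent.R017.LB48 (CrP GrP)
open Crest.Agent.R017.I1146 (omr)
open Crest.Agent.R017.E3M829 (Cut Tal Sg)
open Crest.Agent.R017.E3A164 (SteT Ys Fy)
open Crest.Agent.R017.WDec180 (WD sc sc_pos)
open Crest.Agent.R017.LBu180 (SqQ)
open Crest.Agent.R017.Win813 (WK iA iA_nonneg)
open Crest.Agent.R017.RGw813 (T9 bt)
open Crest.Agent.R017.LBo813 (Om rho Om_nonneg Om_le_one)
open Crest.Agent.R017.CubP813 (alr omb omc)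
open Crest.Agent.R017.LBx48 (EHs EHf EHt T4 EHc_nonneg tN lN hN K1N K2N XN NumNz gn_both tN_pos
  lN_pos tN_rpow exp_hN1 exp_hN3 hN_nonneg adm_mono)

/-- the off-diagonal Gram sums of the models restricted to `b ∣ x.1`, `(x.1, e) = 1`, at `K` and at
`K exp (- hN E0)` -/
def NumG (W : ℝ → ℝ) (Cw η : ℝ) (Aw : ℕ) (K X Y : ℝ) (R : ℝ) (J : ℕ) (D E0 : ℝ) (N₀ N₁ : ℕ)
    (Z : ℝ) (α : Eis → ℂ) (Rn : ℝ) : Prop :=
  ∀ p ∈ T9, ∀ (t X' : ℝ) (φ : ℝ → ℝ), 0 < X' → |Real.log X' - Real.log X| ≤ R + 1 →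
    WK Cw η Aw φ → (∀ u, φ u ≠ 0 → |u - Real.log X'| ≤ η / 2) →
    ∀ (K' : ℝ) (b e : Eis), K' = K ∨ K' = K * Real.exp (-hN E0) → IsPrim b → IsPrim e →
    Sg W K' (E0 ^ 2) N₁ (E0 ^ 14) (fun q t' k₁ => ‖∑ y ∈ Ys (JW D (1 / 10) N₁) E0 N₁,
        Fy (JW D (1 / 10) N₁) (omc (omb (omr (Om N₀ N₁)) b) e)
          (Tal (fun n => bt φ α p n * pw t (nm n))) q t' k₁ y‖ ^ 2) ≤
      Sg W K' (E0 ^ 2) N₁ (E0 ^ 14) (fun q t' k₁ => E3M829.Dg (JW D (1 / 10) N₁)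
        (omc (omb (omr (Om N₀ N₁)) b) e) (Tal (fun n => bt φ α p n * pw t (nm n))) E0 N₁ q t' k₁) +
      (E0 ^ 3)⁻¹ * ((K / X') * EHf ((J + 2 : ℕ) : ℝ) K X' Y Z (fun n => bt φ α p n * pw t (nm n)) +
        (K / X) * (Rn * (1 + |t|) ^ J))

/-- the squares of the shortened sequences, cube-free `k ≥ K (E0 ^ 35)⁻¹` -/
def NumQ (W : ℝ → ℝ) (Cw η : ℝ) (Aw : ℕ) (K X Y : ℝ) (R : ℝ) (J : ℕ) (E0 : ℝ) (α : Eis → ℂ)
    (Rn : ℝ) : Prop :=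
  ∀ p ∈ T9, ∀ (t X' : ℝ) (φ : ℝ → ℝ), 0 < X' → |Real.log X' - Real.log X| ≤ R + 1 →
    WK Cw η Aw φ → (∀ u, φ u ≠ 0 → |u - Real.log X'| ≤ η / 2) →
    ∀ (K' : ℝ) (a b : Eis), K * (E0 ^ 50)⁻¹ ≤ K' → K' ≤ K → IsPrim a → Squarefree a →
    E0 ^ 3 ≤ nm a → (nm a : ℝ) ≤ Y → IsPrim b → (nm b : ℝ) ≤ Y →
    SqQ W K' (fun k => CbF k ∧ K * (E0 ^ 35)⁻¹ ≤ (nm k : ℝ))
      (alr (fun n => bt φ α p n * pw t (nm n)) a b) ≤
      (K' / K) ^ (1 / 3 : ℝ) * ((nm a : ℝ)⁻¹ * ((K / X) * (Rn * (1 + |t|) ^ J)))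

lemma am {x y μ u : ℝ} (hx : 0 ≤ x) (hy : 0 ≤ y) (hμ : 0 < μ) (hu : 0 ≤ u) :
    u * √(x * y) ≤ u ^ 2 * μ⁻¹ * x + μ * y := by
  have ha : 0 ≤ u ^ 2 * μ⁻¹ * x := by positivity
  have hb : 0 ≤ μ * y := by positivity
  refine le_of_pow_le_pow_left₀ two_ne_zero (by positivity) ?_
  rw [mul_pow, Real.sq_sqrt (by positivity)]
  have h1 : u ^ 2 * (x * y) = (u ^ 2 * μ⁻¹ * x) * (μ * y) := by
    field_simp
  rw [h1]
  nlinarith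

/-- the arithmetic of the two scales -/
lemma real_nt {f s r θ lam G E0 Bg Bg' u : ℝ} (hE : 1 ≤ E0) (hf : 0 ≤ f) (hs : 0 ≤ s)
    (hr : 0 ≤ r) (hG : 0 ≤ G) (hθ : θ = (E0 ^ 2)⁻¹) (hl : θ ≤ lam) (hl1 : lam ≤ 1)
    (hl2 : E0⁻¹ ≤ lam) (hl3 : lam⁻¹ ≤ E0) (hu0 : 0 ≤ u) (hu : u ^ 2 ≤ E0 ^ 4)
    (hB0 : 0 ≤ Bg) (hB0' : 0 ≤ Bg')
    (hB : Bg ≤ G * (f + θ * s) + (E0 ^ 3)⁻¹ * (f + r))
    (hB' : Bg' ≤ G * (E0 ^ 4)⁻¹ * (f + s) + (E0 ^ 3)⁻¹ * (f + r)) :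
    √(E0 / E0 ^ 4 * r * (E0 * Bg)) + u * √(E0 / E0 ^ 4 * r * (E0 * Bg')) ≤
      2 * (G + 1) * (θ * s + lam * f) + 4 * r := by
  have h0 : 0 < E0 := by linarith
  have hθ0 : 0 < θ := by rw [hθ]; positivity
  have hlam0 : 0 < lam := hθ0.trans_le hl
  have e1 : ∀ B : ℝ, E0 / E0 ^ 4 * r * (E0 * B) = ((E0 ^ 2)⁻¹ * r) * B := by
    intro B; field_simp
  rw [e1, e1]
  have hx : 0 ≤ (E0 ^ 2)⁻¹ * r := by positivity
  have a1 := am (u := 1) hx hB0 hlam0 zero_le_one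
  have a2 := am (u := u) hx hB0' (μ := E0 ^ 2) (by positivity) hu0
  rw [one_mul, one_pow, one_mul] at a1
  have hE2 : (1 : ℝ) ≤ E0 ^ 2 := one_le_pow₀ hE
  have hE3 : (E0 ^ 3)⁻¹ ≤ 1 := inv_le_one_of_one_le₀ (one_le_pow₀ hE)
  -- first scale
  have b1 : lam⁻¹ * ((E0 ^ 2)⁻¹ * r) ≤ r := by
    have : lam⁻¹ * (E0 ^ 2)⁻¹ ≤ 1 := by
      calc lam⁻¹ * (E0 ^ 2)⁻¹ ≤ E0 * (E0 ^ 2)⁻¹ := by gcongr
        _ = E0⁻¹ := by field_simp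
        _ ≤ 1 := inv_le_one_of_one_le₀ hE
    calc lam⁻¹ * ((E0 ^ 2)⁻¹ * r) = (lam⁻¹ * (E0 ^ 2)⁻¹) * r := by ring
      _ ≤ 1 * r := by gcongr
      _ = r := one_mul r
  have b2 : lam * Bg ≤ (G + 1) * (θ * s + lam * f) + r := by
    have c1 : lam * Bg ≤ lam * (G * (f + θ * s) + (E0 ^ 3)⁻¹ * (f + r)) := by gcongr
    have c2 : lam * (G * (θ * s)) ≤ G * (θ * s) :=
      mul_le_of_le_one_left (by positivity) hl1
    have c3 : lam * ((E0 ^ 3)⁻¹ * (f + r)) ≤ lam * f + r := by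
      have c4 : (E0 ^ 3)⁻¹ * (f + r) ≤ f + r := mul_le_of_le_one_left (by positivity) hE3
      have c5 : lam * r ≤ r := mul_le_of_le_one_left hr hl1
      calc lam * ((E0 ^ 3)⁻¹ * (f + r)) ≤ lam * (f + r) := by gcongr
        _ = lam * f + lam * r := by ring
        _ ≤ _ := by linarith
    have c6 : 0 ≤ θ * s := by positivity
    have c7 : (G + 1) * (θ * s + lam * f) + r =
        G * (θ * s) + G * (lam * f) + θ * s + lam * f + r := by ring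
    have c8 : lam * (G * (f + θ * s) + (E0 ^ 3)⁻¹ * (f + r)) =
        G * (lam * f) + lam * (G * (θ * s)) + lam * ((E0 ^ 3)⁻¹ * (f + r)) := by ring
    linarith
  -- second scale
  have d1 : u ^ 2 * (E0 ^ 2)⁻¹ * ((E0 ^ 2)⁻¹ * r) ≤ r := by
    calc u ^ 2 * (E0 ^ 2)⁻¹ * ((E0 ^ 2)⁻¹ * r) ≤ E0 ^ 4 * (E0 ^ 2)⁻¹ * ((E0 ^ 2)⁻¹ * r) := by
          gcongr
      _ = r := by field_simp
  have d2 : E0 ^ 2 * Bg' ≤ (G + 1) * (θ * s + lam * f) + r := by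
    have c1 : E0 ^ 2 * Bg' ≤ E0 ^ 2 * (G * (E0 ^ 4)⁻¹ * (f + s) + (E0 ^ 3)⁻¹ * (f + r)) := by
      gcongr
    have c2 : E0 ^ 2 * (G * (E0 ^ 4)⁻¹ * (f + s) + (E0 ^ 3)⁻¹ * (f + r)) =
        G * (θ * f + θ * s) + E0⁻¹ * f + E0⁻¹ * r := by
      rw [hθ]; field_simp; ring
    have c3 : G * (θ * f + θ * s) ≤ G * (lam * f + θ * s) := by gcongr
    have c4 : E0⁻¹ * f ≤ lam * f := by gcongr
    have c5 : E0⁻¹ * r ≤ r := mul_le_of_le_one_left hr (inv_le_one_of_one_le₀ hE)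
    have c6 : 0 ≤ θ * s := by positivity
    have c7 : (G + 1) * (θ * s + lam * f) + r =
        G * (lam * f + θ * s) + θ * s + lam * f + r := by ring
    linarith
  linarith

/-- the model of 381's `omx` -/
lemma omcb_eq (om : Eis × Eis → ℂ) (b e : Eis) :
    (fun x : Eis × Eis => if b ∣ x.1 ∧ IsCoprime x.1 e then om x else 0) =
      omc (omb om b) e := by
  funext x
  unfold CubP813.omc CubP813.omb
  by_cases h1 : IsCoprime x.1 e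
  · by_cases h2 : b ∣ x.1
    · rw [if_pos ⟨h2, h1⟩, if_pos h1, if_pos h2]
    · rw [if_neg (fun h => h2 h.1), if_pos h1, if_neg h2]
  · rw [if_neg (fun h => h1 h.2), if_neg h1]

lemma jw_le {D E0 : ℝ} (hD : D ≤ E0) (hE : 0 ≤ E0) {Y₀ Z : ℝ} :
    ∀ x ∈ JW D Y₀ Z, (nm x.1 : ℝ) ≤ E0 := by
  intro x hx
  unfold C70.JW at hx
  rw [Finset.mem_filter, Finset.mem_product, mem_primBall] at hx
  have h1 := hx.1.1.1
  rcases le_or_gt 0 D with h | h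
  · exact ((Nat.le_floor_iff h).1 h1).trans hD
  · rw [Nat.floor_of_nonpos h.le] at h1
    have : (nm x.1 : ℝ) ≤ 0 := by exact_mod_cast h1
    linarith

set_option maxHeartbeats 1000000 in
/-- **the near-top number of (LB)** -/
theorem nt_be {w : ℝ → ℝ} {N : ℕ} {M : ℝ} {F : ℕ → ℝ → ℂ} (hD : WD w N M F) {W : ℝ → ℝ}
    (hW : Wgt W) (hW0 : ∀ x, 0 ≤ W x)
    (hW1 : ∀ x, Real.exp (-(2 + M)) ≤ x → x ≤ Real.exp (4 + N) → 1 ≤ W x)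
    {Cw R ε : ℝ} {Aw J : ℕ} (hε : 0 < ε) : ∃ C c₀ : ℝ, 0 ≤ C ∧ 1 ≤ c₀ ∧
    ∀ (K X Y D E0 η Z : ℝ) (N₀ N₁ : ℕ), 0 < X → K ≤ Y → c₀ ≤ E0 → 0 ≤ D → D ≤ E0 →
    E0 ^ 60 ≤ K → 1 ≤ N₁ → (N₁ : ℝ) ≤ Y → (N₁ : ℝ) ≤ Z → (N₁ : ℝ) * E0 ^ 30 ≤ K ^ 2 →
    0 < η → η ≤ 1 → ∀ α : Eis → ℂ, (∀ n, α n ≠ 0 → n ∈ S Y) → ∀ Rn : ℝ, 0 ≤ Rn →
    NumG W Cw η Aw K X Y R J D E0 N₀ N₁ Z α Rn →
    NumQ W Cw η Aw K X Y R J E0 α Rn →
    NumNz N M F Cw η Aw K X Y R J D E0 (tN E0) (lN E0) (hN E0) (E0 ^ 8) (E0 ^ 4) (K1N K E0)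
      (K2N K E0) N₀ N₁ (J + 2) (C * Y ^ ε) Z α (Y ^ ε * Y ^ ε * (C * Rn)) := by
  have hε2 : 0 < ε / 2 := by positivity
  obtain ⟨C₁, κ₀, hC₁, hκ₀, H₁⟩ := nt_alpha hD hε2
  obtain ⟨C₂, hC₂, H₂⟩ := gn_both hW hW0 hε2 (J := J)
  set c₁ : ℝ := Real.exp (2 + N) + 1 with hc₁
  have hc₁1 : 1 ≤ c₁ := by
    have := Real.exp_pos (2 + (N : ℝ))
    rw [hc₁]; linarith
  refine ⟨C₁ * c₁ ^ (ε / 2) * (2 * (C₂ + 1)) + C₁ * c₁ ^ (ε / 2) * 4,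
    max (Real.exp (4 + N)) (Real.exp κ₀), by positivity,
    le_max_of_le_left (Real.one_le_exp (by positivity)), ?_⟩
  intro K X Y D E0 η Z N₀ N₁ hX hKY hcE hD0 hDE hEK hN₁ hN₁Y hNZ h30 hη hη1 α hα Rn hRn hNG hNQ
    p hp t X' φ hX' hXX hφ hφs
  have k1 : Real.exp (4 + N) ≤ E0 := (le_max_left _ _).trans hcE
  have k2 : Real.exp κ₀ ≤ E0 := (le_max_right _ _).trans hcE
  have k3 : 5 ≤ E0 := by
    have h1 := Real.add_one_le_exp (4 + (N : ℝ))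
    have h2 : (0 : ℝ) ≤ N := Nat.cast_nonneg N
    linarith
  have hE1 : 1 ≤ E0 := by linarith
  have hE0 : 0 < E0 := by linarith
  have hK1 : 1 ≤ K := (one_le_pow₀ hE1).trans hEK
  have hK : 0 < K := by linarith
  have hY : 1 ≤ Y := hK1.trans hKY
  have hY0 : 0 < Y := by linarith
  have hpow : ∀ m : ℕ, m ≤ 60 → E0 ^ m ≤ Y := fun m hm =>
    ((pow_le_pow_right₀ hE1 hm).trans hEK).trans hKY
  have hE0Y : E0 ≤ Y := by simpa using hpow 1 (by norm_num)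
  have hYP : Y ≤ c₁ * Y := le_mul_of_one_le_left hY0.le hc₁1
  have hP : 1 ≤ c₁ * Y := hY.trans hYP
  have hNn : (0 : ℝ) ≤ N := Nat.cast_nonneg N
  have k4 : Real.exp (2 + N) ≤ E0 :=
    (Real.exp_le_exp.2 (by linarith : (2 : ℝ) + N ≤ 4 + N)).trans k1
  -- the numbers at `be`
  have g1 := hNG p hp t X' φ hX' hXX hφ hφs
  have g2 := hNQ p hp t X' φ hX' hXX hφ hφs
  have hadm : Adm Y X' 1 (fun n => bt φ α p n * pw t (nm n)) :=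
    adm_mono hη1 (RGw813.adm_bt hφs hα p t)
  obtain ⟨r, hr⟩ : ∃ r : ℝ, r = (K / X) * (Rn * (1 + |t|) ^ J) := ⟨_, rfl⟩
  rw [← hr] at g1 g2
  have hr0 : 0 ≤ r := by rw [hr]; positivity
  clear hNG hNQ
  generalize (fun n => bt φ α p n * pw t (nm n)) = β at hadm g1 g2 ⊢
  obtain ⟨f, hf⟩ : ∃ f : ℝ, f = (K / X') * EHf ((J + 2 : ℕ) : ℝ) K X' Y Z β := ⟨_, rfl⟩
  obtain ⟨s, hs⟩ : ∃ s : ℝ, s = (K / X') * EHs ((J + 2 : ℕ) : ℝ) K X' Y Z E0 β := ⟨_, rfl⟩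
  have hkx : 0 ≤ K / X' := by positivity
  have hf0 : 0 ≤ f := by
    rw [hf]
    exact mul_nonneg hkx (EHc_nonneg (fun n => by positivity) _ hK.le hX'.le β)
  have hs0 : 0 ≤ s := by
    rw [hs]
    exact mul_nonneg hkx (EHc_nonneg (fun n => Nat.cast_nonneg n) _ hK.le hX'.le β)
  obtain ⟨Bg, hBg⟩ : ∃ Bg : ℝ, Bg = C₂ * Y ^ (ε / 2) * (f + tN E0 * s) + (E0 ^ 3)⁻¹ * (f + r) :=
    ⟨_, rfl⟩
  obtain ⟨Bg', hBg'⟩ : ∃ Bg' : ℝ, Bg' = C₂ * Y ^ (ε / 2) * (E0 ^ 4)⁻¹ * (f + s) +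
    (E0 ^ 3)⁻¹ * (f + r) := ⟨_, rfl⟩
  have hθ0 := (tN_pos hE1).le
  have hBg0 : 0 ≤ Bg := by rw [hBg]; positivity
  have hBg0' : 0 ≤ Bg' := by rw [hBg']; positivity
  have hgr : ∀ b e : Eis, IsPrim b → IsPrim e →
      GrP W K (fun r => if Cut (E0 ^ 14) r then StE E0 (JW D (1 / 10) N₁)
        (omc (omb (omr (Om N₀ N₁)) b) e) β r else 0) ≤ Bg ∧
      GrP W (K * Real.exp (-hN E0)) (fun r => if Cut (E0 ^ 14) r then
        StE E0 (JW D (1 / 10) N₁) (omc (omb (omr (Om N₀ N₁)) b) e) β r else 0) ≤ Bg' := by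
    intro b e hb he
    obtain ⟨h1, h2⟩ := H₂ K X' Y D E0 Z r N₀ N₁ hK hKY hX' hY hD0 (hDE.trans hE0Y) hE1 hE0Y hN₁
      hN₁Y hNZ h30 β hadm b e (fun K' hK' => g1 K' b e hK' hb he)
    refine ⟨h1.trans (le_of_eq ?_), h2.trans (le_of_eq ?_)⟩
    · rw [hBg, hf, hs]; ring
    · rw [hBg', hf, hs]; ring
  have hXN : ((XN N K : ℕ) : ℝ) ≤ c₁ * Y := by
    unfold LBx48.XN
    have b1 : ((⌈Real.exp (2 + N) * K⌉₊ : ℕ) : ℝ) < Real.exp (2 + N) * K + 1 :=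
      Nat.ceil_lt_add_one (by positivity)
    have b2 : Real.exp (2 + N) * K ≤ Real.exp (2 + N) * Y :=
      mul_le_mul_of_nonneg_left hKY (Real.exp_pos _).le
    calc ((⌈Real.exp (2 + N) * K⌉₊ : ℕ) : ℝ) ≤ Real.exp (2 + N) * Y + Y := by linarith
      _ = c₁ * Y := by rw [hc₁]; ring
  have hKX : Real.exp (2 + N) * K ≤ ((XN N K : ℕ) : ℝ) := Nat.le_ceil _
  have hE4 : E0 < E0 ^ 4 := by
    calc E0 = E0 ^ 1 := (pow_one E0).symm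
      _ < E0 ^ 4 := pow_lt_pow_right₀ (by linarith) (by norm_num)
  have hE2Y : E0 * E0 ≤ Y := by
    have := hpow 2 (by norm_num)
    rwa [pow_two] at this
  have hH := H₁ hW hW0 hW1 (c₁ * Y) E0 E0 (E0 ^ 14) K Y (E0 ^ 8) (E0 ^ 4) (K1N K E0) (K2N K E0)
    (K * (E0 ^ 50)⁻¹) (hN E0) Bg Bg' r (XN N K) (JW D (1 / 10) N₁) (omr (Om N₀ N₁)) β hP hK hKX
    hXN (hN_nonneg hE1) hE0.le (hE0Y.trans hYP) (okJ_JW D (1 / 10) N₁) hE0 (jw_le hDE hE0.le)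
    hY0.le hadm.sup (by positivity) ((hpow 8 (by norm_num)).trans hYP) (k2.trans hE4.le) hE4 hE4
    (by unfold LBx48.K2N; positivity)
    (by
      unfold LBx48.K2N
      have e1 : K * (E0 ^ 35)⁻¹ * (E0 ^ 14) ^ 3 = E0 ^ 7 * K := by field_simp
      rw [e1]
      have : E0 ≤ E0 ^ 7 := le_self_pow₀ hE1 (by norm_num)
      gcongr
      exact k1.trans this)
    (by positivity)
    (by
      unfold LBx48.K2N
      have e1 : Real.exp (2 + N) * E0 ^ 35 ≤ (c₁ * Y) ^ 3 := by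
        calc Real.exp (2 + N) * E0 ^ 35 ≤ E0 * E0 ^ 35 := by gcongr
          _ = E0 ^ 36 := by ring
          _ ≤ Y := hpow 36 (by norm_num)
          _ ≤ c₁ * Y := hYP
          _ ≤ (c₁ * Y) ^ 3 := le_self_pow₀ hP (by norm_num)
      calc Real.exp (2 + N) * K = K * (E0 ^ 35)⁻¹ * (Real.exp (2 + N) * E0 ^ 35) := by
            field_simp
        _ ≤ K * (E0 ^ 35)⁻¹ * (c₁ * Y) ^ 3 := by gcongr)
    (by
      unfold LBx48.K2N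
      rw [Real.exp_add, exp_hN1 hE1]
      calc K * (E0 ^ 50)⁻¹ * (E0 ^ 7 * Real.exp (2 + N)) ≤ K * (E0 ^ 50)⁻¹ * (E0 ^ 7 * E0 ^ 8) := by
            have : E0 ≤ E0 ^ 8 := le_self_pow₀ hE1 (by norm_num)
            gcongr
            exact k4.trans this
        _ = K * (E0 ^ 35)⁻¹ := by field_simp)
    hr0
    (by
      intro K' a b h1 h2 h3 h4 h5 h6 h7 h8
      refine g2 K' a b h1 h2 h3 h4 ?_ h6 h7 (h8.trans hE2Y)
      refine le_trans (le_of_eq ?_) h5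
      field_simp)
    (fun b e hb he => (hgr b e hb he).1) (fun b e hb he => (hgr b e hb he).2)
  -- the end
  have hYe : 0 ≤ Y ^ (ε / 2) := by positivity
  have hYe1 : 1 ≤ Y ^ (ε / 2) := Real.one_le_rpow hY hε2.le
  have hl1 : lN E0 ≤ 1 := LBx48.lN_le_one hE1
  have hE0l : E0⁻¹ ≤ lN E0 := by
    rw [← Real.rpow_neg_one]
    exact Real.rpow_le_rpow_of_exponent_le hE1 (by norm_num)
  have hll : (lN E0)⁻¹ ≤ E0 := by
    rw [inv_le_comm₀ (lN_pos hE1) hE0]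
    exact hE0l
  have hu : Real.exp (hN E0 / 6) ^ 2 ≤ E0 ^ 4 := by
    rw [← Real.exp_nat_mul, show ((2 : ℕ) : ℝ) * (hN E0 / 6) = hN E0 / 3 by push_cast; ring,
      exp_hN3 hE1]
    calc E0 ^ (7 / 3 : ℝ) ≤ E0 ^ (4 : ℝ) :=
          Real.rpow_le_rpow_of_exponent_le hE1 (by norm_num)
      _ = E0 ^ 4 := by norm_cast
  have hreal := real_nt (f := f) (s := s) (r := r) (θ := tN E0) (lam := lN E0)
    (G := C₂ * Y ^ (ε / 2)) (E0 := E0) (Bg := Bg) (Bg' := Bg') (u := Real.exp (hN E0 / 6)) hE1 hf0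
    hs0 hr0 (by positivity) rfl (LBx48.tN_le_lN hE1) hl1 hE0l hll (Real.exp_pos _).le hu hBg0 hBg0'
    hBg.le hBg'.le
  have hT4 : tN E0 * s + lN E0 * f ≤
      (K / X') * T4 ((J + 2 : ℕ) : ℝ) K X' Y Z E0 (tN E0) (lN E0) β := by
    have t3 : 0 ≤ EHt ((J + 2 : ℕ) : ℝ) K X' Y Z E0 β :=
      EHc_nonneg (fun n => by positivity) _ hK.le hX'.le β
    have t4 : 0 ≤ EHc (fun _ => (1 : ℝ)) (fun _ => True) ((J + 2 : ℕ) : ℝ) K X' Y Z β :=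
      EHc_nonneg (fun n => zero_le_one) _ hK.le hX'.le β
    have hli : 0 ≤ (lN E0)⁻¹ := (inv_pos.mpr (lN_pos hE1)).le
    have hl0 := (lN_pos hE1).le
    have t5 : 0 ≤ (K / X') * ((lN E0)⁻¹ * EHt ((J + 2 : ℕ) : ℝ) K X' Y Z E0 β) := by positivity
    have t6 : 0 ≤ (K / X') * (lN E0 * EHc (fun _ => (1 : ℝ)) (fun _ => True) ((J + 2 : ℕ) : ℝ)
      K X' Y Z β) := by positivity
    unfold LBx48.T4
    rw [hf, hs]
    nlinarith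
  obtain ⟨T, hT⟩ : ∃ T : ℝ, T = (K / X') * T4 ((J + 2 : ℕ) : ℝ) K X' Y Z E0 (tN E0) (lN E0) β :=
    ⟨_, rfl⟩
  rw [← hT] at hT4 ⊢
  have hT0 : 0 ≤ T := by
    refine le_trans ?_ hT4
    have := (lN_pos hE1).le
    positivity
  have hPe : (c₁ * Y) ^ (ε / 2) = c₁ ^ (ε / 2) * Y ^ (ε / 2) :=
    Real.mul_rpow (by linarith) hY0.le
  have hYY : Y ^ (ε / 2) * Y ^ (ε / 2) = Y ^ ε := by
    rw [← Real.rpow_add hY0]
    congr 1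
    ring
  have hq : 0 ≤ C₁ * c₁ ^ (ε / 2) := by positivity
  have hYε : 1 ≤ Y ^ ε := Real.one_le_rpow hY hε.le
  have hYh : Y ^ (ε / 2) ≤ Y ^ ε := Real.rpow_le_rpow_of_exponent_le hY (by linarith)
  have m1 : 2 * (C₂ * Y ^ (ε / 2) + 1) * (tN E0 * s + lN E0 * f) ≤
      2 * (C₂ + 1) * Y ^ (ε / 2) * T := by
    have m2 : C₂ * Y ^ (ε / 2) + 1 ≤ (C₂ + 1) * Y ^ (ε / 2) := by linarith
    calc 2 * (C₂ * Y ^ (ε / 2) + 1) * (tN E0 * s + lN E0 * f) ≤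
        2 * (C₂ * Y ^ (ε / 2) + 1) * T := by gcongr
      _ ≤ 2 * ((C₂ + 1) * Y ^ (ε / 2)) * T := by gcongr
      _ = _ := by ring
  calc NTn N F (hN E0) M K E0 (E0 ^ 8) (E0 ^ 4) (K1N K E0) (K2N K E0) β (JW D (1 / 10) N₁)
        (omr (Om N₀ N₁)) ≤ C₁ * (c₁ * Y) ^ (ε / 2) * (√(E0 / E0 ^ 4 * r * (E0 * Bg)) +
          Real.exp (hN E0 / 6) * √(E0 / E0 ^ 4 * r * (E0 * Bg'))) := hH
    _ ≤ C₁ * (c₁ * Y) ^ (ε / 2) * (2 * (C₂ + 1) * Y ^ (ε / 2) * T + 4 * r) := by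
        have : 0 ≤ C₁ * (c₁ * Y) ^ (ε / 2) := by positivity
        refine mul_le_mul_of_nonneg_left ?_ this
        linarith
    _ = (C₁ * c₁ ^ (ε / 2) * (2 * (C₂ + 1))) * (Y ^ (ε / 2) * Y ^ (ε / 2)) * T +
        (C₁ * c₁ ^ (ε / 2) * 4) * (Y ^ (ε / 2) * r) := by
        rw [hPe]; ring
    _ ≤ (C₁ * c₁ ^ (ε / 2) * (2 * (C₂ + 1)) + C₁ * c₁ ^ (ε / 2) * 4) * Y ^ ε * T +
        (C₁ * c₁ ^ (ε / 2) * (2 * (C₂ + 1)) + C₁ * c₁ ^ (ε / 2) * 4) * (Y ^ ε * Y ^ ε * r) := by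
        rw [hYY]
        have n1 : 0 ≤ C₁ * c₁ ^ (ε / 2) * 4 := by positivity
        have n2 : 0 ≤ C₁ * c₁ ^ (ε / 2) * (2 * (C₂ + 1)) := by positivity
        have n3 : Y ^ (ε / 2) * r ≤ Y ^ ε * Y ^ ε * r := by
          refine mul_le_mul_of_nonneg_right ?_ hr0
          exact hYh.trans (le_mul_of_one_le_left (by linarith) hYε)
        refine add_le_add ?_ ?_
        · gcongr
          linarith
        · refine mul_le_mul (by linarith) n3 (by positivity) (by positivity)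
    _ = _ := by rw [hr]; ring

end Crest.Agent.R017.Et813
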