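import Crest.Agent.R017.LBfin_48
import Crest.Agent.R017.NTb_813

/-!
# Row 17, C.REMg (LB), final form (helper48), part 7: with helper813's `nt_be`

* `lbn_nt` : (LB) from (Rc), (Rl), (Ro) for `w` and `W`, (Sq), and (room or (S')), cut kept
-/

set_option autoImplicit false
set_option linter.unusedVariables false

noncomputable section

open Complex MeasureTheory
open scoped ComplexConjugate Classical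

namespace Crest.Agent.R017.LBx48

open Crest.Agent.R012 Crest.Agent.R012.Eis Crest.Agent.R012.MC
open Crest.Agent.R012.LS2 (S mem_S)
open Crest.Agent.R012.Mob705 (pdiv kap0)
open Crest.Agent.R012.Div277 (tau)
open Crest.Agent.R012.Weight600 (osc pw)
open Crest.Agent.R017.X6C180 (n13 n13_nonneg GF)
open Crest.Agent.R017.CM106 (CS TG FS)
open Crest.Agent.R017.E1551 hiding tau Dg
open Crest.Agent.R017.C70 (JW JC OKJ okJ_JW)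
open Crest.Agent.R017.E2440 (TE Jb Qs prs C4 StE Fh)
open Crest.Agent.R017.EHu320 (EHc)
open Crest.Agent.R017.LB48 (CrP GrP)
open Crest.Agent.R017.I1146 (omr)
open Crest.Agent.R017.E3M829 (Cut Tal Sg)
open Crest.Agent.R017.E3A164 (SteT Ys Fy)
open Crest.Agent.R017.WDec180 (WD sc sc_pos)
open Crest.Agent.R017.Ex385 (CrQ)
open Crest.Agent.R017.LBu180 (SqQ SqQ_le)
open Crest.Agent.R017.Win813 (WK iA iA_nonneg)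
open Crest.Agent.R017.RGw813 (T9 bt)
open Crest.Agent.R017.LBo813 (Om rho Om_nonneg Om_le_one norm_bt_le)
open Crest.Agent.R017.Rough381 (VF)
open Crest.Agent.R017.CubP813 (Qc Qc_cut)
open Crest.Agent.R017.Et404 (RLn)
open Crest.Agent.R017.Et813 (NTn et_le NumG NumQ)

/-- no restriction -/
lemma omcb_one (om : Eis × Eis → ℂ) : CubP813.omc (CubP813.omb om 1) 1 = om := by
  funext x
  unfold CubP813.omc CubP813.omb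
  rw [if_pos isCoprime_one_right, if_pos (one_dvd _)]

/-- **(LB) from the literal inputs and `nt_be`**, second scale abstract -/
theorem lbn_nt {w W : ℝ → ℝ} (hw : Wgt w) (hw0 : ∀ x, 0 ≤ w x) (hW : Wgt W) (hW0 : ∀ x, 0 ≤ W x)
    {N : ℕ} {M : ℝ} {F : ℕ → ℝ → ℂ} (hD : WD w N M F)
    (hW1 : ∀ x, Real.exp (-(2 + M)) ≤ x → x ≤ Real.exp (4 + N) → 1 ≤ W x)
    {Cw R ε e₀ : ℝ} {Aw J : ℕ} (hCw : 0 ≤ Cw) (hR : 0 ≤ R)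
    (hε : 0 < ε) (he₀ : 0 < e₀) (hJA : J + 2 ≤ Aw) {Λ : ℝ} (hΛ : 1 ≤ Λ) : ∃ C : ℝ, 0 ≤ C ∧
    ∀ (K X Y E0 D G₀ η : ℝ) (N₀ N₁ : ℕ), 1 ≤ X → X ≤ Y → K ≤ Y → E0 ≤ Y → 0 ≤ D →
    D ≤ Y → D ≤ E0 → (N₁ : ℝ) ≤ Y → Y ^ e₀ ≤ E0 → E0 ^ 60 ≤ K → 1 ≤ N₀ → N₀ ≤ N₁ →
    (N₁ : ℝ) * E0 ^ 30 ≤ K ^ 2 → 0 < η → η ≤ 1 → ∀ α : Eis → ℂ, (∀ n, α n ≠ 0 → n ∈ S Y) →
    (∀ n, α n ≠ 0 → |Real.log (nm n) - Real.log X| ≤ R) → (∀ n, ‖α n‖ ≤ Y ^ ε) →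
    ∀ Ma Ml Rn : ℝ, 0 ≤ Ma → 0 ≤ Ml → 0 ≤ Rn →
    (∀ g ∈ S Y, (nm g : ℝ) ≤ G₀ → ∀ V : ℝ, 1 ≤ V → V ≤ 9 * (Λ * N₁) * nm g → ∀ t : ℝ,
      VF V (tws (sg α g) t) ≤
        Ma / (nm g : ℝ) ^ 2 * ((V * K / (X / nm g) ^ 2) ^ (1 / 3 : ℝ)) * (1 + |t|) ^ J) →
    (∀ g ∈ S Y, ∀ B V : ℝ, 1 ≤ B → B ≤ Y → 1 ≤ V → V ≤ 9 * (Λ * N₁) / (nm g : ℝ) ^ 2 →
      ∀ t : ℝ, E1551.JB Y α (fun U => G₀ < nm (g * U)) g B V t ≤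
        Ml / (nm g : ℝ) ^ 2 * yv K X g V * (1 + |t|) ^ J) →
    BeA Cw η Aw K X R J α (FRc N M F K D E0 N₁) Rn →
    BeA Cw η Aw K X R J α (FRl N M F K D E0 N₁) Rn →
    NumG w Cw η Aw K X Y R J D E0 N₀ N₁ (Λ * N₁) α Rn →
    NumG W Cw η Aw K X Y R J D E0 N₀ N₁ (Λ * N₁) α Rn →
    NumQ W Cw η Aw K X Y R J E0 α Rn →
    (X ^ 2 * E0 ^ 20 ≤ K * N₀ ∨
      NumS w (fun _ => Qc (K1N K E0)) Cw η Aw K X R J (hN E0) α (Y ^ ε * Y ^ ε * Rn)) →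
    LBnq w (fun _ => Qc (K1N K E0)) Cw η Aw K X Y D N₁ (rho N₀ N₁) R J α
      (C * (η⁻¹) ^ (2 * J + 2) * Y ^ (4 * ε) *
        (X ^ 2 + E0 ^ (-(1 / 2) : ℝ) * (Ma + Ml) + Rn)) := by
  obtain ⟨Ce, c₁₀, hCe, hc₁₀, HN⟩ := Et813.nt_be hD hW hW0 hW1 (Cw := Cw) (R := R) (ε := ε)
    (Aw := Aw) (J := J) hε
  obtain ⟨C, hC, H⟩ := lbn_coreQ hw hw0 hD (Cw := Cw) (R := R) (ε := ε) (e₀ := e₀) (Ce := Ce)
    (Aw := Aw) (J := J) hCw hR hε he₀ hCe hJA (Λ := Λ) hΛ c₁₀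
  refine ⟨C, hC, ?_⟩
  intro K X Y E0 D G₀ η N₀ N₁ hX hXY hKY hE0Y hD0 hDY hDE hN₁Y hYE hEK hN₀ hN₀₁ h30 hη hη1 α
    hα hαR hαn Ma Ml Rn hMa hMl hRn hSA hL hRc hRl hRo hRoW hSq hroom
  have hN1 : 1 ≤ N₁ := hN₀.trans hN₀₁
  have hN10 : (0 : ℝ) ≤ N₁ := Nat.cast_nonneg _
  refine H K X Y E0 D G₀ η N₀ N₁ hX hXY hKY hE0Y hD0 hDY hN₁Y hYE hEK hN₀ hN₀₁ h30 hη hη1 α
    hα hαR hαn Ma Ml Rn hMa hMl hRn hSA hL hRc hRl ?_ ?_ hroom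
  · intro a ha t X' φ h1 h2 h3 h4 K' hK'
    have := hRo a ha t X' φ h1 h2 h3 h4 K' 1 1 hK' isPrim_one isPrim_one
    rw [omcb_one] at this
    exact this
  · intro hc
    exact HN K X Y D E0 η (Λ * N₁) N₀ N₁ (by linarith) hKY hc hD0 hDE hEK hN1 hN₁Y
      (le_mul_of_one_le_left hN10 hΛ) h30 hη hη1 α hα Rn hRn hRoW hSq

end Crest.Agent.R017.LBx48
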