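import Crest.Agent.R017.LBn_48
import Crest.Agent.R017.Et_813

/-!
# Row 17, C.REMg (LB), final form (helper48), part 2: all parameters as powers of `E0`

* `tN`, `lN`, `hN`, `K1N`, `K2N`, `XN` : the parameters
* `NumL`, `NumN`, `NumS` : the R-numbers of the tail and of the second scale
* `XJw_triv` : trivial bound of the main form
-/

set_option autoImplicit false
set_option linter.unusedVariables false

noncomputable section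

open Complex MeasureTheory
open scoped ComplexConjugate Classical

namespace Crest.Agent.R017.LBx48

open Crest.Agent.R012 Crest.Agent.R012.Eis Crest.Agent.R012.MC
open Crest.Agent.R012.LS2 (S mem_S)
open Crest.Agent.R012.Mob705 (pdiv kap0)
open Crest.Agent.R012.Div277 (tau)
open Crest.Agent.R012.Weight600 (osc pw)
open Crest.Agent.R017.X6C180 (n13 n13_nonneg GF)
open Crest.Agent.R017.CM106 (CS TG FS)
open Crest.Agent.R017.E1551 hiding tau Dg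
open Crest.Agent.R017.C70 (JW JC OKJ okJ_JW)
open Crest.Agent.R017.E2440 (TE Jb Qs prs C4 StE Fh)
open Crest.Agent.R017.EHu320 (EHc)
open Crest.Agent.R017.LB48 (CrP GrP)
open Crest.Agent.R017.I1146 (omr BB BB_le px px_nonneg XT_eq)
open Crest.Agent.R017.Sc2180 (px_le)
open Crest.Agent.R017.DgB829 (HS HS_nonneg HS_le)
open Crest.Agent.R017.E3M829 (Cut Tal Sg)
open Crest.Agent.R017.E3A164 (SteT Ys Fy)
open Crest.Agent.R017.WDec180 (WD sc sc_pos)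
open Crest.Agent.R017.Ex385 (CrQ)
open Crest.Agent.R017.LBu180 (SqQ SqQ_le)
open Crest.Agent.R017.LBX180 (M2s M2s_nonneg M2s_le)
open Crest.Agent.R017.Win813 (WK iA iA_nonneg)
open Crest.Agent.R017.RGw813 (T9 bt)
open Crest.Agent.R017.LBo813 (Om rho Om_nonneg Om_le_one)
open Crest.Agent.R017.Rough381 (VF)
open Crest.Agent.R017.CubP813 (Qc Qc_cut)
open Crest.Agent.R017.Et404 (RLn)
open Crest.Agent.R017.Et813 (NTn et_le)

/-! ### the parameters -/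

/-- `θ` -/
def tN (E0 : ℝ) : ℝ := (E0 ^ 2)⁻¹
/-- `lam` -/
def lN (E0 : ℝ) : ℝ := E0 ^ (-(1 / 2) : ℝ)
/-- `h` -/
def hN (E0 : ℝ) : ℝ := 7 * Real.log E0
/-- the kept `k` -/
def K1N (K E0 : ℝ) : ℝ := K * (E0 ^ 23)⁻¹
/-- the lower end of the near-top range -/
def K2N (K E0 : ℝ) : ℝ := K * (E0 ^ 35)⁻¹
/-- the cut of the cubes in the Gram sums -/
def E1N (E0 : ℝ) : ℝ := E0 ^ 14
/-- `B` -/
def BN (E0 : ℝ) : ℝ := E0 ^ 2
/-- the bound of the lists of the tail -/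
def XN (N : ℕ) (K : ℝ) : ℕ := ⌈Real.exp (2 + N) * K⌉₊

section powers

variable {E0 : ℝ}

lemma tN_pos (h : 1 ≤ E0) : 0 < tN E0 := by unfold tN; positivity

lemma lN_pos (h : 1 ≤ E0) : 0 < lN E0 := Real.rpow_pos_of_pos (by linarith) _

lemma tN_le_one (h : 1 ≤ E0) : tN E0 ≤ 1 := inv_le_one_of_one_le₀ (one_le_pow₀ h)

lemma lN_le_one (h : 1 ≤ E0) : lN E0 ≤ 1 :=
  Real.rpow_le_one_of_one_le_of_nonpos h (by norm_num)

lemma tN_rpow (h : 1 ≤ E0) : tN E0 = E0 ^ (-2 : ℝ) := by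
  unfold tN
  rw [Real.rpow_neg (by linarith), Real.rpow_two]

lemma tN_le_lN (h : 1 ≤ E0) : tN E0 ≤ lN E0 := by
  rw [tN_rpow h]
  exact Real.rpow_le_rpow_of_exponent_le h (by norm_num)

lemma exp_hN (h : 1 ≤ E0) (r : ℝ) : Real.exp (r * hN E0) = E0 ^ (7 * r) := by
  have h0 : 0 < E0 := by linarith
  unfold hN
  rw [Real.rpow_def_of_pos h0]
  congr 1
  ring

lemma exp_hN1 (h : 1 ≤ E0) : Real.exp (hN E0) = E0 ^ 7 := by
  have := exp_hN h 1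
  rw [one_mul] at this
  rw [this]
  norm_num

lemma exp_hNn (h : 1 ≤ E0) : Real.exp (-hN E0) = (E0 ^ 7)⁻¹ := by
  rw [Real.exp_neg, exp_hN1 h]

lemma exp_hN3 (h : 1 ≤ E0) : Real.exp (hN E0 / 3) = E0 ^ (7 / 3 : ℝ) := by
  have := exp_hN h (1 / 3)
  rw [show hN E0 / 3 = 1 / 3 * hN E0 by ring, this]
  norm_num

lemma exp_hNm (h : 1 ≤ E0) : Real.exp (-(hN E0 / 3)) ≤ tN E0 := by
  have := exp_hN h (-(1 / 3))
  rw [show -(hN E0 / 3) = -(1 / 3) * hN E0 by ring, this, tN_rpow h]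
  exact Real.rpow_le_rpow_of_exponent_le h (by norm_num)

lemma hN_nonneg (h : 1 ≤ E0) : 0 ≤ hN E0 := by
  unfold hN
  have := Real.log_nonneg h
  positivity

/-- `θ E0 + lam + (lam E0)⁻¹ ≤ 3 E0^(-1/2)` -/
lemma m_le (h : 1 ≤ E0) :
    tN E0 * E0 + lN E0 + (lN E0 * E0)⁻¹ ≤ 3 * E0 ^ (-(1 / 2) : ℝ) := by
  have h0 : 0 < E0 := by linarith
  have e1 : tN E0 * E0 = E0 ^ (-1 : ℝ) := by
    rw [tN_rpow h]
    nth_rewrite 2 [← Real.rpow_one E0]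
    rw [← Real.rpow_add h0]
    norm_num
  have e2 : (lN E0 * E0)⁻¹ = E0 ^ (-(1 / 2) : ℝ) := by
    unfold lN
    nth_rewrite 2 [← Real.rpow_one E0]
    rw [← Real.rpow_add h0, ← Real.rpow_neg h0.le]
    norm_num
  have e3 : E0 ^ (-1 : ℝ) ≤ E0 ^ (-(1 / 2) : ℝ) :=
    Real.rpow_le_rpow_of_exponent_le h (by norm_num)
  rw [e1, e2]
  unfold lN
  linarith

end powers

/-! ### the numbers -/

/-- the R-number of the `l`-terms -/
def NumL (N : ℕ) (M : ℝ) (F : ℕ → ℝ → ℂ) (Cw η : ℝ) (Aw : ℕ) (K X : ℝ) (R : ℝ) (J : ℕ)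
    (D E0 θ h L : ℝ) (N₁ I X₀ : ℕ) (α : Eis → ℂ) (Rl : ℝ) : Prop :=
  ∀ p ∈ T9, ∀ (t X' : ℝ) (φ : ℝ → ℝ), 0 < X' → |Real.log X' - Real.log X| ≤ R + 1 →
    WK Cw η Aw φ → (∀ u, φ u ≠ 0 → |u - Real.log X'| ≤ η / 2) →
    θ⁻¹ * RLn N F h M K L X₀ (fun n => bt φ α p n * pw t (nm n)) D I E0 N₁ ≤
      (K / X) * (Rl * (1 + |t|) ^ J)

/-- the near-top number of the tail -/
def NumN (N : ℕ) (M : ℝ) (F : ℕ → ℝ → ℂ) (Cw η : ℝ) (Aw : ℕ) (K X Y : ℝ) (R : ℝ) (J : ℕ)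
    (D E0 θ lam h L L2 K₁ K₂ : ℝ) (N₀ N₁ : ℕ) (A : ℕ) (CP : ℝ) (α : Eis → ℂ) (Nt : ℝ) : Prop :=
  ∀ p ∈ T9, ∀ (t X' : ℝ) (φ : ℝ → ℝ), 0 < X' → |Real.log X' - Real.log X| ≤ R + 1 →
    WK Cw η Aw φ → (∀ u, φ u ≠ 0 → |u - Real.log X'| ≤ η / 2) →
    NTn N F h M K E0 L L2 K₁ K₂ (fun n => bt φ α p n * pw t (nm n)) (JW D (1 / 10) N₁)
      (omr (Om N₀ N₁)) ≤
      CP * ((K / X') * T4 A K X' Y N₁ E0 θ lam (fun n => bt φ α p n * pw t (nm n))) +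
      (K / X) * (Nt * (1 + |t|) ^ J)

/-- the squares at the second scale -/
def NumS (w : ℝ → ℝ) (Q : ℕ × ℕ → Eis → Prop) (Cw η : ℝ) (Aw : ℕ) (K X : ℝ) (R : ℝ) (J : ℕ)
    (h : ℝ) (α : Eis → ℂ) (Es : ℝ) : Prop :=
  ∀ p ∈ T9, ∀ (t X' : ℝ) (φ : ℝ → ℝ), 0 < X' → |Real.log X' - Real.log X| ≤ R + 1 →
    WK Cw η Aw φ → (∀ u, φ u ≠ 0 → |u - Real.log X'| ≤ η / 2) →
    Real.exp (h / 3) * SqQ w (K * Real.exp (-h)) (Q p) (fun n => bt φ α p n * pw t (nm n)) ≤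
      (K / X) * (Es * (1 + |t|) ^ J)

/-! ### the trivial bound -/

/-- **trivial bound of the main form** -/
theorem XJw_triv {w : ℝ → ℝ} (hw : Wgt w) (hw0 : ∀ x, 0 ≤ w x) {R : ℝ} (hR : 0 ≤ R) {A : ℕ}
    (hA : 2 ≤ A) : ∃ C : ℝ, 0 ≤ C ∧ ∀ (K X Y D Y₀ Z : ℝ) (ρ : ℕ → ℝ), 0 < K → 0 < X → 1 ≤ Y →
      (∀ n, |ρ n| ≤ 1) → ∀ α : Eis → ℂ, Adm Y X R α →
      2 * cP w * K ^ (2 / 3 : ℝ) * (XJw ρ (JW D Y₀ Z) α).re ≤
        C * (1 + Real.log Y) * ((K / X) * EHf A K X Y Z α) := by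
  obtain ⟨C₂, hC₂, h2⟩ := M2s_le R hR A hA
  have hcP : 0 ≤ 2 * cP w := by
    rw [Cst401.two_cP hw]
    have := Cst401.kap0_pos
    have := Cst401.mel_nonneg hw0
    positivity
  refine ⟨2 * cP w * (200 * C₂), by positivity, ?_⟩
  intro K X Y D Y₀ Z ρ hK hX hY hρ α hα
  have hY0 : 0 ≤ Y := by linarith
  have hlog := Real.log_nonneg hY
  have hJ := okJ_JW D Y₀ Z
  have c1 : ‖XJw ρ (JW D Y₀ Z) α‖ ≤ HS Y * M2s Y (JW D Y₀ Z) α := by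
    unfold E1551.XJw
    refine (norm_sum_le _ _).trans ?_
    unfold LBX180.M2s
    rw [Finset.mul_sum]
    refine Finset.sum_le_sum fun x hx => ?_
    rw [norm_mul, Complex.norm_real, Real.norm_eq_abs, XT_eq hY0 hα.sup hJ hx, norm_mul,
      Complex.norm_real, Real.norm_of_nonneg (px_nonneg x)]
    have h1 := BB_le hY0 (TE α x)
    have h3 : px x * ‖BB Y (TE α x) (TE α x)‖ ≤
        n13 x.2 * (HS Y * ∑ t ∈ S Y, (tau t : ℝ) / nm t * ‖TE α x t‖ ^ 2) :=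
      mul_le_mul (px_le x) h1 (norm_nonneg _) (n13_nonneg _)
    calc |ρ (nm (x.2 * x.1 ^ 2))| * (px x * ‖BB Y (TE α x) (TE α x)‖) ≤
          1 * (n13 x.2 * (HS Y * ∑ t ∈ S Y, (tau t : ℝ) / nm t * ‖TE α x t‖ ^ 2)) :=
          mul_le_mul (hρ _) h3 (mul_nonneg (px_nonneg x) (norm_nonneg _)) zero_le_one
      _ = _ := by ring
  have d2 := h2 Y X K D Y₀ Z hY hX hK α hα
  have d3 := HS_le hY
  have d4 := M2s_nonneg Y (JW D Y₀ Z) α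
  have d5 := HS_nonneg Y
  have d6 : LBX180.EHf A K X Y Z α = EHf A K X Y Z α := rfl
  rw [d6] at d2
  have d7 : 0 ≤ EHf A K X Y Z α := EHc_nonneg (fun n => by positivity) _ hK.le hX.le α
  calc 2 * cP w * K ^ (2 / 3 : ℝ) * (XJw ρ (JW D Y₀ Z) α).re ≤
        2 * cP w * K ^ (2 / 3 : ℝ) * (HS Y * M2s Y (JW D Y₀ Z) α) :=
        mul_le_mul_of_nonneg_left ((Complex.re_le_norm _).trans c1) (by positivity)
    _ = 2 * cP w * (HS Y * (K ^ (2 / 3 : ℝ) * M2s Y (JW D Y₀ Z) α)) := by ring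
    _ ≤ 2 * cP w * (200 * (1 + Real.log Y) * (C₂ * (K / X) * EHf A K X Y Z α)) := by gcongr
    _ = _ := by ring

end Crest.Agent.R017.LBx48
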