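import Crest.Agent.R017.E4L_47

/-!
# Row 17, E4, leaf LBp, part A (helper47): sizes of the Gauss sums at the `b`-part

* `gs_le` : `‖gs u b‖ ≤ N(b) ∏_{p ∣ b} lw p`
* `gs_le2` : `‖gs u b‖ ≤ N(b) √N(B1) N(B3) / N(RF)`, `B1 B3 = rad Z`
* `B_le` : `N(B1)² N(B3)³ ≤ N(b)`
-/

set_option autoImplicit false
set_option linter.unusedVariables false

noncomputable section

open Complex
open scoped ComplexConjugate

namespace Crest.Agent.R017.LBp47

open Crest.Agent.R012 Crest.Agent.R012.Eis Crest.Agent.R012.GaussLoc283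
open Crest.Agent.R012.Mob705 Crest.Agent.R012.Div277
open Crest.Agent.R017.Sx545 (Sm)
open Crest.Agent.R017.E4352

open Classical in
/-- the local weight at `p` -/
def lw (f Z b p : Eis) : ℝ :=
  (if p ∣ f then 1 else (nm p : ℝ)⁻¹) *
    (if p ∣ Z then (if p ^ 3 ∣ b then (nm p : ℝ) else Real.sqrt (nm p)) else 1)

/-- the local condition -/
def Cnd (f Z u b p : Eis) : Prop :=
  p ∣ f ∨ (p ∣ Z ∧ p ∣ u) ∨ (¬ p ∣ Z ∧ p ^ 3 ∣ b ∧ ¬ p ^ 3 ∣ u)

lemma lw_nonneg (f Z b p : Eis) : 0 ≤ lw f Z b p := by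
  classical
  unfold lw
  split_ifs <;> positivity

lemma norm_gs_pp {s p : Eis} (hp : IsPP p) (h : ¬ p ∣ s) : ‖gs s p‖ = Real.sqrt (nm p) := by
  rw [← norm_gs_prime_sq syAx hp.isPrim hp.prime h, Real.sqrt_sq (norm_nonneg _)]

theorem loc_le {f Z p u : Eis} (hp : IsPP p) {k : ℕ} (hk : 1 ≤ k) (h0 : gs u (p ^ k) ≠ 0)
    (hC : Cnd f Z u (p ^ k) p) : ‖gs u (p ^ k)‖ ≤ (nm p : ℝ) ^ k * lw f Z (p ^ k) p := by
  classical
  have hp0 := hp.ne_zero
  have hq1 : (1 : ℝ) ≤ nm p := by exact_mod_cast nm_pos.mpr hp0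
  have hq0 : (0 : ℝ) < nm p := by linarith
  have hs1 : 1 ≤ Real.sqrt (nm p) := Real.one_le_sqrt.mpr hq1
  have htriv : ‖gs u (p ^ k)‖ ≤ (nm p : ℝ) ^ k := by
    have := norm_gs_le syAx u (hp.isPrim.pow k)
    rwa [nm_pow, Nat.cast_pow] at this
  have h3 : p ^ 3 ∣ p ^ k ↔ 3 ≤ k := by
    constructor
    · intro h
      exact (pow_dvd_pow_iff hp0 hp.prime.not_isUnit).mp h
    · intro h; exact pow_dvd_pow p h
  unfold lw
  by_cases hpf : p ∣ f
  · rw [if_pos hpf, one_mul]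
    refine htriv.trans ?_
    refine le_mul_of_one_le_right (by positivity) ?_
    split_ifs <;> linarith
  rw [if_neg hpf]
  rcases hC with h | ⟨hZ, hu⟩ | ⟨hZ, hb, hu⟩
  · exact absurd h hpf
  · rw [if_pos hZ]
    by_cases hk3 : 3 ≤ k
    · rw [if_pos (h3.mpr hk3), inv_mul_cancel₀ hq0.ne', mul_one]
      exact htriv
    · rw [if_neg (fun h => hk3 (h3.mp h))]
      have hk12 : k = 1 ∨ k = 2 := by omega
      rcases hk12 with rfl | rfl
      · exfalso
        apply h0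
        rw [pow_one]
        exact gs_prime_of_dvd syAx hp.isPrim hp.prime hu
      · obtain ⟨s, rfl⟩ := hu
        have e : p * s = s * p := mul_comm _ _
        have hps : ¬ p ∣ s := by
          rintro ⟨t, rfl⟩
          apply h0
          have e2 : p * (p * t) = t * p ^ 2 := by ring
          rw [e2]
          exact gs_sq_sq syAx hp.isPrim hp.prime
        rw [e, gs_p_sq syAx hp.isPrim, norm_mul, RCLike.norm_conj, Complex.norm_natCast,
          norm_gs_pp hp hps]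
        apply le_of_eq
        field_simp
  · rw [if_neg hZ, mul_one]
    have hk3 : 3 ≤ k := h3.mp hb
    obtain ⟨j, rfl⟩ : ∃ j, k = j + 1 := ⟨k - 1, by omega⟩
    have h1 : p ^ j ∣ u := by
      by_contra hc
      exact h0 (gs_pow_of_not_dvd syAx hp.isPrim hc)
    have hj : j = 2 := by
      by_contra hj
      exact hu ((pow_dvd_pow p (by omega)).trans h1)
    subst hj
    obtain ⟨s, rfl⟩ := h1
    have hps : ¬ p ∣ s := by
      rintro ⟨t, rfl⟩
      exact hu ⟨t, by ring⟩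
    rw [mul_comm (p ^ 2) s, gs_sq_cube syAx hp.isPrim hp.prime hps, norm_neg, norm_pow,
      Complex.norm_natCast]
    apply le_of_eq
    field_simp

theorem gs_le {f Z : Eis} : ∀ b, Sm 1 b → ∀ u, gs u b ≠ 0 →
    (∀ p, IsPP p → p ∣ b → Cnd f Z u b p) → ‖gs u b‖ ≤ nm b * ∏ p ∈ pp b, lw f Z b p := by
  classical
  refine Sx545.Sm.induction_coprime (m := 1) ?_ ?_
  · intro u _ _
    rw [gs_one_right syAx, pp_one]
    simp [nm_one]
  · intro p k b hpS hpp hk hbS hpb ih u h0 hC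
    have hp := hpS.prim
    have hb := hbS.prim
    have hP : IsPP p := ⟨hp, hpp⟩
    have hcop : IsCoprime p b := ((isCoprime_iff_not_dvd hpp b).mpr hpb).symm
    have hmul : gs u (p ^ k * b) = gs u (p ^ k) * gs (u * p ^ k) b :=
      gs_mul' syAx _ (hp.pow k) hb hcop.pow_left
    have e2 : gs (u * p ^ k) b = conj (sy (p ^ k) b) * gs u b :=
      gs_mul_left syAx u hb hcop.pow_left
    have hn : ‖gs (u * p ^ k) b‖ = ‖gs u b‖ := by
      rw [e2, norm_mul, RCLike.norm_conj]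
      have : ‖sy (p ^ k) b‖ = 1 := Sx545.Res.norm_eq_one Sx545.res_sy hbS hcop.pow_left
      rw [this, one_mul]
    rw [hmul] at h0
    have h01 := left_ne_zero_of_mul h0
    have h02 : gs u b ≠ 0 := by
      intro h
      exact right_ne_zero_of_mul h0 (by rw [e2, h, mul_zero])
    have hp3 : p ^ 3 ∣ p ^ k * b ↔ p ^ 3 ∣ p ^ k :=
      ⟨fun h => (hcop.pow_left (m := 3)).dvd_of_dvd_mul_right h, fun h => h.mul_right _⟩
    have hq3 : ∀ q, IsPP q → q ≠ p → (q ^ 3 ∣ p ^ k * b ↔ q ^ 3 ∣ b) := by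
      intro q hq hqp
      have hc : IsCoprime (q ^ 3) (p ^ k) := ((hq.isCoprime hP hqp).pow_left).pow_right
      exact ⟨fun h => hc.dvd_of_dvd_mul_left h, fun h => h.mul_left _⟩
    have hl1 : lw f Z (p ^ k * b) p = lw f Z (p ^ k) p := by
      unfold lw
      simp only [hp3]
    have hl2 : ∀ q ∈ pp b, lw f Z (p ^ k * b) q = lw f Z b q := by
      intro q hq
      have hqP := isPP_of_mem_pp hq
      have hqp : q ≠ p := by
        rintro rfl
        exact hpb (dvd_of_mem_pp hq)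
      unfold lw
      simp only [hq3 q hqP hqp]
    have hpp2 : pp (p ^ k * b) = insert p (pp b) := by
      rw [pp_mul (pow_ne_zero k hpp.ne_zero) hb.ne_zero, pp_pow hpp.ne_zero (by omega),
        pp_prime hP]
      rfl
    have hnot : p ∉ pp b := fun h => hpb (dvd_of_mem_pp h)
    rw [hpp2, Finset.prod_insert hnot, hl1, Finset.prod_congr rfl hl2, hmul, norm_mul, hn, nm_mul,
      nm_pow]
    push_cast
    have c1 := loc_le hP hk h01 (f := f) (Z := Z) (by
      have := hC p hP (dvd_mul_of_dvd_left (dvd_pow_self p (by omega)) b)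
      unfold Cnd at this ⊢
      rwa [hp3] at this)
    have c2 := ih u h02 (by
      intro q hq hqb
      have hqp : q ≠ p := by
        rintro rfl
        exact hpb hqb
      have := hC q hq (hqb.mul_left _)
      unfold Cnd at this ⊢
      rwa [hq3 q hq hqp] at this)
    calc ‖gs u (p ^ k)‖ * ‖gs u b‖ ≤ ((nm p : ℝ) ^ k * lw f Z (p ^ k) p) *
          ((nm b : ℝ) * ∏ q ∈ pp b, lw f Z b q) := by
          refine mul_le_mul c1 c2 (norm_nonneg _) (mul_nonneg (by positivity) (lw_nonneg _ _ _ _))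
      _ = _ := by ring

/-! ### the three radicals -/

open Classical in
/-- the primes of `Z` with `p² ∥ b` -/
def B1 (Z b : Eis) : Eis := ∏ p ∈ (pp Z).filter (fun p => ¬ p ^ 3 ∣ b), p

open Classical in
/-- the primes of `Z` with `p³ ∣ b` -/
def B3 (Z b : Eis) : Eis := ∏ p ∈ (pp Z).filter (fun p => p ^ 3 ∣ b), p

open Classical in
/-- the primes of `b` prime to `f` -/
def RF (f b : Eis) : Eis := ∏ p ∈ (pp b).filter (fun p => ¬ p ∣ f), p

lemma B1_prim (Z b : Eis) : IsPrim (B1 Z b) := by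
  classical
  exact ((ppSet_pp Z).subset (Finset.filter_subset _ _)).isPrim_prod

lemma B3_prim (Z b : Eis) : IsPrim (B3 Z b) := by
  classical
  exact ((ppSet_pp Z).subset (Finset.filter_subset _ _)).isPrim_prod

lemma RF_prim (f b : Eis) : IsPrim (RF f b) := by
  classical
  exact ((ppSet_pp b).subset (Finset.filter_subset _ _)).isPrim_prod

lemma B1_mul_B3 (Z b : Eis) : B1 Z b * B3 Z b = E4352.rd Z := by
  classical
  unfold B1 B3 E4352.rd
  rw [mul_comm, Finset.prod_filter_mul_prod_filter_not]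

lemma RF_dvd (f b : Eis) : RF f b ∣ b := by
  classical
  unfold RF
  refine (((ppSet_pp b).subset (Finset.filter_subset _ _)).prod_dvd).mpr fun p hp => ?_
  exact dvd_of_mem_pp (Finset.mem_filter.mp hp).1

lemma dvd_RF {f b p : Eis} (hb : b ≠ 0) (hp : IsPP p) (h : p ∣ b) : p ∣ RF f b * f := by
  classical
  by_cases hf : p ∣ f
  · exact hf.mul_left _
  · refine Dvd.dvd.mul_right ?_ _
    unfold RF
    refine Finset.dvd_prod_of_mem _ ?_
    rw [Finset.mem_filter, mem_pp hb]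
    exact ⟨⟨hp, h⟩, hf⟩

lemma nm_prod' (S : Finset Eis) : (nm (∏ p ∈ S, p) : ℝ) = ∏ p ∈ S, (nm p : ℝ) := by
  rw [nm_prod]; push_cast; rfl

lemma sqrt_prod (S : Finset Eis) : Real.sqrt (nm (∏ p ∈ S, p)) = ∏ p ∈ S, Real.sqrt (nm p) := by
  classical
  induction S using Finset.induction_on with
  | empty => simp [nm_one]
  | insert a s ha ih =>
    rw [Finset.prod_insert ha, Finset.prod_insert ha, nm_mul, Nat.cast_mul,
      Real.sqrt_mul (Nat.cast_nonneg _), ih]

theorem prod_lw {f Z b : Eis} (hb : b ≠ 0) (hZ : PrI b Z) :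
    ∏ p ∈ pp b, lw f Z b p = (nm (RF f b) : ℝ)⁻¹ * (Real.sqrt (nm (B1 Z b)) * nm (B3 Z b)) := by
  classical
  have hZ0 := hZ.1.ne_zero
  have hfil : (pp b).filter (fun p => p ∣ Z) = pp Z := by
    ext p
    rw [Finset.mem_filter, mem_pp hb, mem_pp hZ0]
    constructor
    · rintro ⟨⟨h1, h2⟩, h3⟩; exact ⟨h1, h3⟩
    · rintro ⟨h1, h3⟩; exact ⟨⟨h1, hZ.2 p h1.prime h3⟩, h3⟩
  unfold lw
  rw [Finset.prod_mul_distrib]
  congr 1
  · rw [Finset.prod_ite, Finset.prod_const_one, one_mul, Finset.prod_inv_distrib]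
    unfold RF
    rw [nm_prod']
  · rw [Finset.prod_ite, Finset.prod_const_one, mul_one, hfil, Finset.prod_ite]
    unfold B1 B3
    rw [sqrt_prod, nm_prod', mul_comm]

/-- **size of the Gauss sum at the `b`-part** -/
theorem gs_le2 {f Z b u : Eis} (hb : IsPrim b) (hZ : PrI b Z) (h0 : gs u b ≠ 0)
    (hC : ∀ p, IsPP p → p ∣ b → Cnd f Z u b p) :
    ‖gs u b‖ ≤ nm b * ((nm (RF f b) : ℝ)⁻¹ * (Real.sqrt (nm (B1 Z b)) * nm (B3 Z b))) := by
  rw [← prod_lw hb.ne_zero hZ]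
  exact gs_le b ⟨hb, isCoprime_one_right⟩ u h0 hC

/-- every common prime of `u` and `b` divides `b` twice -/
lemma sq_dvd {u b p : Eis} (hb : IsPrim b) (h0 : gs u b ≠ 0) (hp : IsPP p) (hpu : p ∣ u)
    (hpb : p ∣ b) : p ^ 2 ∣ b := by
  obtain ⟨c, rfl⟩ := hpb
  have hc : IsPrim c := hb.of_mul_left hp.isPrim
  by_contra h
  have hpc : ¬ p ∣ c := by
    intro h2
    apply h
    rw [pow_two]
    exact mul_dvd_mul_left p h2
  have hcop : IsCoprime p c := ((hp.prime.irreducible).coprime_iff_not_dvd).mpr hpc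
  apply h0
  rw [gs_mul' syAx u hp.isPrim hc hcop, gs_prime_of_dvd syAx hp.isPrim hp.prime hpu, zero_mul]

theorem B_le {Z b u : Eis} (hb : IsPrim b) (hZ : PrI b Z) (h0 : gs u b ≠ 0)
    (hu : ∀ p, IsPP p → p ∣ Z → p ∣ u) :
    (nm (B1 Z b) : ℝ) ^ 2 * (nm (B3 Z b) : ℝ) ^ 3 ≤ nm b := by
  classical
  have hZ0 := hZ.1.ne_zero
  have hP1 := (ppSet_pp Z).subset (Finset.filter_subset (fun p => ¬ p ^ 3 ∣ b) (pp Z))
  have hP3 := (ppSet_pp Z).subset (Finset.filter_subset (fun p => p ^ 3 ∣ b) (pp Z))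
  have h1 : B1 Z b ^ 2 ∣ b := by
    unfold B1
    refine (hP1.prod_pow_dvd 2).mpr fun p hp => ?_
    rw [Finset.mem_filter, mem_pp hZ0] at hp
    exact sq_dvd hb h0 hp.1.1 (hu p hp.1.1 hp.1.2) (hZ.2 p hp.1.1.prime hp.1.2)
  have h3 : B3 Z b ^ 3 ∣ b := by
    unfold B3
    refine (hP3.prod_pow_dvd 3).mpr fun p hp => ?_
    rw [Finset.mem_filter, mem_pp hZ0] at hp
    exact hp.2
  have hc : IsCoprime (B1 Z b) (B3 Z b) := by
    rw [isCoprime_iff_pp (B1_prim Z b)]
    intro p hp hp1 hp3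
    unfold B1 at hp1
    unfold B3 at hp3
    rw [hP1.dvd_prod hp, Finset.mem_filter] at hp1
    rw [hP3.dvd_prod hp, Finset.mem_filter] at hp3
    exact hp1.2 hp3.2
  have h4 : B1 Z b ^ 2 * B3 Z b ^ 3 ∣ b := (hc.pow_left.pow_right).mul_dvd h1 h3
  have h5 := nm_le_of_dvd hb.ne_zero h4
  rw [nm_mul, nm_pow, nm_pow] at h5
  exact_mod_cast h5

end Crest.Agent.R017.LBp47
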