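import Crest.Agent.R017.LBpA_47

/-!
# Row 17, E4, leaf LBp, part B (helper47): the common bound `BW`
-/

set_option autoImplicit false
set_option linter.unusedVariables false

noncomputable section

open Complex
open scoped ComplexConjugate

namespace Crest.Agent.R017.LBp47

open Crest.Agent.R012 Crest.Agent.R012.Eis Crest.Agent.R012.GaussLoc283
open Crest.Agent.R012.Mob705 Crest.Agent.R012.Div277
open Crest.Agent.R017.Sx545 (Sm)
open Crest.Agent.R017.E4352 Crest.Agent.R017.C70 Crest.Agent.R017.CM106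

/-! ### dyadic decomposition -/

lemma exists_shell {L t : ℝ} (hL : 0 < L) (ht1 : 1 ≤ t) (htL : t ≤ L) {J : ℕ} (hJ : L < 2 ^ J) :
    ∃ j ∈ Finset.range J, L / 2 ^ (j + 1) < t ∧ t ≤ L / 2 ^ j := by
  classical
  have hex : ∃ n : ℕ, L / 2 ^ (n + 1) < t := by
    refine ⟨J, ?_⟩
    rw [div_lt_iff₀ (by positivity)]
    have h1 : (2 : ℝ) ^ J ≤ 2 ^ (J + 1) := pow_le_pow_right₀ (by norm_num) (by omega)
    have h2 : (0 : ℝ) < 2 ^ (J + 1) := by positivity
    nlinarith
  set j := Nat.find hex with hj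
  have hj1 : L / 2 ^ (j + 1) < t := Nat.find_spec hex
  have hj2 : t ≤ L / 2 ^ j := by
    rcases Nat.eq_zero_or_pos j with h | h
    · rw [h, pow_zero, div_one]; exact htL
    · have h3 := Nat.find_min hex (m := j - 1) (by omega)
      rw [not_lt] at h3
      have e : j - 1 + 1 = j := by omega
      rwa [e] at h3
  refine ⟨j, ?_, hj1, hj2⟩
  rw [Finset.mem_range]
  by_contra hcon
  push Not at hcon
  have h4 : (2 : ℝ) ^ J ≤ 2 ^ j := pow_le_pow_right₀ (by norm_num) hcon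
  rw [le_div_iff₀ (by positivity)] at hj2
  have h5 : (0 : ℝ) < 2 ^ j := by positivity
  nlinarith

section dyadic

variable {O : Type} [Fintype O]

open Classical in
/-- the shell sum -/
def Wk (lam : O → ℝ) (P : Eis → Prop) (a : O → Eis → ℝ) (κ : ℝ) : ℝ :=
  ∑ o, (lam o) ^ (-(1 / 2) : ℝ) * ∑ d ∈ (primBall ⌊2 * (κ / lam o)⌋₊).filter
    (fun d => P d ∧ κ / lam o < nm d), (nm d : ℝ) ^ (-(1 / 2) : ℝ) * a o d

open Classical in
theorem dyad (lam : O → ℝ) (hlam : ∀ o, 1 ≤ lam o) (P : Eis → Prop) (a : O → Eis → ℝ)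
    (ha : ∀ o k, 0 ≤ a o k) {L c : ℝ} (hL : 0 < L) (hc : 0 ≤ c) (N : ℕ)
    (H : ∀ κ, 1 / 4 ≤ κ → κ ≤ L → κ ^ (-(1 / 2) : ℝ) * Wk lam P a κ ≤ c) {J : ℕ}
    (hJ : L < 2 ^ J) :
    ∑ o, ∑ k ∈ (primBall N).filter (fun k => P k ∧ (nm k : ℝ) * lam o ≤ L),
      ((nm k : ℝ) * lam o)⁻¹ * a o k ≤ J * c := by
  have hlam0 : ∀ o, 0 < lam o := fun o => lt_of_lt_of_le one_pos (hlam o)
  -- the shells
  have h1 : ∀ o, ∀ k ∈ (primBall N).filter (fun k => P k ∧ (nm k : ℝ) * lam o ≤ L),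
      ((nm k : ℝ) * lam o)⁻¹ * a o k ≤ ∑ j ∈ Finset.range J,
        if L / 2 ^ (j + 1) < (nm k : ℝ) * lam o ∧ (nm k : ℝ) * lam o ≤ L / 2 ^ j then
          ((nm k : ℝ) * lam o)⁻¹ * a o k else 0 := by
    intro o k hk
    rw [Finset.mem_filter, mem_primBall] at hk
    have hk1 : (1 : ℝ) ≤ nm k := by exact_mod_cast nm_pos.mpr hk.1.2.ne_zero
    have ht1 : 1 ≤ (nm k : ℝ) * lam o := one_le_mul_of_one_le_of_one_le hk1 (hlam o)
    obtain ⟨j, hj, h2, h3⟩ := exists_shell hL ht1 hk.2.2 hJ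
    have h4 : ∀ j ∈ Finset.range J, (0 : ℝ) ≤
        if L / 2 ^ (j + 1) < (nm k : ℝ) * lam o ∧ (nm k : ℝ) * lam o ≤ L / 2 ^ j then
          ((nm k : ℝ) * lam o)⁻¹ * a o k else 0 := by
      intro j _
      split_ifs
      · exact mul_nonneg (by positivity) (ha o k)
      · exact le_rfl
    have h5 := Finset.single_le_sum h4 hj
    rw [if_pos ⟨h2, h3⟩] at h5
    exact h5
  calc ∑ o, ∑ k ∈ (primBall N).filter (fun k => P k ∧ (nm k : ℝ) * lam o ≤ L),
        ((nm k : ℝ) * lam o)⁻¹ * a o k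
      ≤ ∑ o, ∑ k ∈ (primBall N).filter (fun k => P k ∧ (nm k : ℝ) * lam o ≤ L),
        ∑ j ∈ Finset.range J,
        if L / 2 ^ (j + 1) < (nm k : ℝ) * lam o ∧ (nm k : ℝ) * lam o ≤ L / 2 ^ j then
          ((nm k : ℝ) * lam o)⁻¹ * a o k else 0 :=
        Finset.sum_le_sum fun o _ => Finset.sum_le_sum (h1 o)
    _ = ∑ j ∈ Finset.range J, ∑ o, ∑ k ∈ (primBall N).filter
        (fun k => P k ∧ (nm k : ℝ) * lam o ≤ L),
        if L / 2 ^ (j + 1) < (nm k : ℝ) * lam o ∧ (nm k : ℝ) * lam o ≤ L / 2 ^ j then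
          ((nm k : ℝ) * lam o)⁻¹ * a o k else 0 := by
        rw [Finset.sum_comm]
        refine Finset.sum_congr rfl fun o _ => ?_
        rw [Finset.sum_comm]
    _ ≤ ∑ j ∈ Finset.range J, c := by
        refine Finset.sum_le_sum fun j _ => ?_
        set κ : ℝ := L / 2 ^ (j + 1) with hκ
        have hκ0 : 0 < κ := by positivity
        have hκ2 : L / 2 ^ j = 2 * κ := by rw [hκ, pow_succ]; field_simp
        rw [hκ2]
        by_cases hκ4 : κ < 1 / 4
        · -- empty shell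
          refine le_trans (le_of_eq ?_) hc
          refine Finset.sum_eq_zero fun o _ => Finset.sum_eq_zero fun k hk => ?_
          rw [Finset.mem_filter, mem_primBall] at hk
          have hk1 : (1 : ℝ) ≤ nm k := by exact_mod_cast nm_pos.mpr hk.1.2.ne_zero
          have ht1 : 1 ≤ (nm k : ℝ) * lam o := one_le_mul_of_one_le_of_one_le hk1 (hlam o)
          rw [if_neg]
          rintro ⟨_, h⟩
          linarith
        · push Not at hκ4
          have hκL : κ ≤ L := by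
            rw [hκ]
            apply div_le_self hL.le
            exact one_le_pow₀ (by norm_num)
          refine le_trans ?_ (H κ hκ4 hκL)
          unfold Wk
          rw [Finset.mul_sum]
          refine Finset.sum_le_sum fun o _ => ?_
          rw [Finset.mul_sum, Finset.mul_sum]
          have hl := hlam0 o
          rw [← Finset.sum_filter]
          refine (Finset.sum_le_sum fun k hk => ?_).trans
            (Finset.sum_le_sum_of_subset_of_nonneg (f := fun k => κ ^ (-(1 / 2) : ℝ) *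
              ((lam o) ^ (-(1 / 2) : ℝ) * ((nm k : ℝ) ^ (-(1 / 2) : ℝ) * a o k))) ?_ ?_)
          · rw [Finset.mem_filter, Finset.mem_filter, mem_primBall] at hk
            have hk1 : (1 : ℝ) ≤ nm k := by exact_mod_cast nm_pos.mpr hk.1.1.2.ne_zero
            have hk0 : (0 : ℝ) < nm k := by linarith
            have e1 : ((nm k : ℝ) * lam o)⁻¹ = ((nm k : ℝ) * lam o) ^ (-(1 / 2) : ℝ) *
                ((nm k : ℝ) * lam o) ^ (-(1 / 2) : ℝ) := by
              rw [← Real.rpow_add (by positivity), ← Real.rpow_neg_one]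
              norm_num
            have e2 : ((nm k : ℝ) * lam o) ^ (-(1 / 2) : ℝ) =
                (nm k : ℝ) ^ (-(1 / 2) : ℝ) * (lam o) ^ (-(1 / 2) : ℝ) :=
              Real.mul_rpow hk0.le hl.le
            have e3 : ((nm k : ℝ) * lam o) ^ (-(1 / 2) : ℝ) ≤ κ ^ (-(1 / 2) : ℝ) :=
              Real.rpow_le_rpow_of_nonpos hκ0 hk.2.1.le (by norm_num)
            have hak := ha o k
            calc ((nm k : ℝ) * lam o)⁻¹ * a o k
                = ((nm k : ℝ) * lam o) ^ (-(1 / 2) : ℝ) *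
                  (((nm k : ℝ) ^ (-(1 / 2) : ℝ) * (lam o) ^ (-(1 / 2) : ℝ)) * a o k) := by
                  rw [e1, ← e2]; ring
              _ ≤ κ ^ (-(1 / 2) : ℝ) *
                  (((nm k : ℝ) ^ (-(1 / 2) : ℝ) * (lam o) ^ (-(1 / 2) : ℝ)) * a o k) := by
                  apply mul_le_mul_of_nonneg_right e3
                  positivity
              _ = _ := by ring
          · intro k hk
            rw [Finset.mem_filter, Finset.mem_filter, mem_primBall] at hk
            rw [Finset.mem_filter, mem_primBall]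
            refine ⟨⟨?_, hk.1.1.2⟩, hk.1.2.1, ?_⟩
            · apply Nat.le_floor
              rw [← mul_div_assoc, le_div_iff₀ hl]
              exact hk.2.2
            · rw [div_lt_iff₀ hl]
              exact hk.2.1
          · intro k _ _
            have := ha o k
            positivity
    _ = J * c := by rw [Finset.sum_const, Finset.card_range, nsmul_eq_mul]

end dyadic

/-! ### the arithmetic of the index set -/

/-- the conditions on `(b, R, Z)` -/
def Qc (M f b R Z : Eis) : Prop :=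
  Sm M b ∧ PrI b R ∧ PrI b Z ∧ ∀ p : Eis, Prime p → p ∣ b → p ∣ Z ∨ p ∣ f ∨
    (p ^ 2 ∣ R ∧ ¬ p ^ 3 ∣ R ∧ p ^ 3 ∣ b ∧ ¬ p ^ 4 ∣ b)

lemma cnd_of_Qc {M f b R Z : Eis} (h : Qc M f b R Z) {p : Eis} (hp : IsPP p) (hpb : p ∣ b) :
    Cnd f Z (f * R * Z) b p := by
  unfold Cnd
  by_cases hf : p ∣ f
  · exact Or.inl hf
  right
  by_cases hZ : p ∣ Z
  · exact Or.inl ⟨hZ, hZ.mul_left _⟩
  right
  rcases h.2.2.2 p hp.prime hpb with h1 | h1 | h1
  · exact absurd h1 hZ
  · exact absurd h1 hf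
  · refine ⟨hZ, h1.2.2.1, fun h3 => h1.2.1 ?_⟩
    have c1 : IsCoprime (p ^ 3) Z :=
      (((hp.prime.irreducible).coprime_iff_not_dvd).mpr hZ).pow_left
    have c2 : IsCoprime (p ^ 3) f :=
      (((hp.prime.irreducible).coprime_iff_not_dvd).mpr hf).pow_left
    exact c2.dvd_of_dvd_mul_left (c1.dvd_of_dvd_mul_right h3)

lemma gs_Qc {M f b R Z : Eis} (h : Qc M f b R Z) (h0 : gs (f * R * Z) b ≠ 0) :
    ‖gs (f * R * Z) b‖ ≤
      nm b * ((nm (RF f b) : ℝ)⁻¹ * (Real.sqrt (nm (B1 Z b)) * nm (B3 Z b))) :=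
  gs_le2 h.1.prim h.2.2.1 h0 fun p hp hpb => cnd_of_Qc h hp hpb

lemma B_Qc {M f b R Z : Eis} (h : Qc M f b R Z) (h0 : gs (f * R * Z) b ≠ 0) :
    (nm (B1 Z b) : ℝ) ^ 2 * (nm (B3 Z b) : ℝ) ^ 3 ≤ nm b :=
  B_le h.1.prim h.2.2.1 h0 fun p hp hpZ => hpZ.mul_left _

/-- primes of primary elements are associated to primary primes -/
lemma exists_isPP {p b : Eis} (hb : IsPrim b) (hp : Prime p) (h : p ∣ b) :
    ∃ p', IsPP p' ∧ Associated p p' := by
  have hql : ¬ lam ∣ p := fun h' => hb.not_lam_dvd (h'.trans h)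
  have hass := prim_associated p
  exact ⟨prim p, ⟨prim_isPrim hql, hass.prime_iff.mp hp⟩, hass⟩

lemma prI_RF {f b : Eis} (hb : IsPrim b) : PrI (RF f b * f) b := by
  refine ⟨hb, fun p hp hpb => ?_⟩
  obtain ⟨p', hp', hass⟩ := exists_isPP hb hp hpb
  exact hass.dvd.trans (dvd_RF hb.ne_zero hp' (hass.symm.dvd.trans hpb))

/-! ### the sum over `b` -/

open Classical in
theorem sum_RF (hC : LCnt) : ∀ ε : ℝ, 0 < ε → ∃ C : ℝ, 0 ≤ C ∧ ∀ (f : Eis) (X : ℝ) (N : ℕ),
    1 ≤ X → f ≠ 0 → (nm f : ℝ) ≤ X → (N : ℝ) ≤ X ^ 2 →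
    ∑ b ∈ primBall N, (nm (RF f b) : ℝ)⁻¹ ≤ C * X ^ ε := by
  intro ε hε
  obtain ⟨C, hC0, hC⟩ := hC (ε / 6) (by positivity)
  obtain ⟨C2, hC20, hC2⟩ : ∃ C2 : ℝ, 0 ≤ C2 ∧ ∀ X : ℝ, 1 ≤ X →
      100 * (1 + Real.log X) ≤ C2 * X ^ (ε / 4) := by
    refine ⟨(100 * (1 + (1 : ℕ) / (ε / 4))) ^ 1, by positivity, fun X hX => ?_⟩
    have := poly_log_le 1 hX (δ := ε / 4) (by positivity)
    rwa [pow_one] at this
  refine ⟨C * C2, by positivity, fun f X N hX hf hfX hN => ?_⟩
  have hX0 : 0 < X := by linarith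
  have hX23 : X ^ 2 ≤ X ^ 3 := pow_le_pow_right₀ hX (by norm_num)
  have hX13 : X ≤ X ^ 3 := by
    calc X = X ^ 1 := (pow_one X).symm
      _ ≤ X ^ 3 := pow_le_pow_right₀ hX (by norm_num)
  have hX1 : 1 ≤ X ^ 3 := one_le_pow₀ hX
  have hmap : ∀ b ∈ primBall N, RF f b ∈ primBall N := by
    intro b hb
    rw [mem_primBall] at hb ⊢
    exact ⟨(nm_le_of_dvd hb.2.ne_zero (RF_dvd f b)).trans hb.1, RF_prim f b⟩
  rw [← Finset.sum_fiberwise_of_maps_to hmap]
  calc ∑ r ∈ primBall N, ∑ b ∈ primBall N with RF f b = r, (nm (RF f b) : ℝ)⁻¹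
      ≤ ∑ r ∈ primBall N, (C * (X ^ 3) ^ (ε / 6)) * (1 / (nm r : ℝ)) := by
        refine Finset.sum_le_sum fun r hr => ?_
        rw [mem_primBall] at hr
        have hr0 := hr.2.ne_zero
        have h1 : ∀ b ∈ (primBall N).filter (fun b => RF f b = r),
            (nm (RF f b) : ℝ)⁻¹ = (nm r : ℝ)⁻¹ := by
          intro b hb
          rw [(Finset.mem_filter.mp hb).2]
        rw [Finset.sum_congr rfl h1, Finset.sum_const, nsmul_eq_mul, one_div]
        refine mul_le_mul_of_nonneg_right ?_ (by positivity)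
        have hrf : (nm (r * f) : ℝ) ≤ X ^ 3 := by
          rw [nm_mul, Nat.cast_mul]
          have h2 : (nm r : ℝ) ≤ X ^ 2 := le_trans (by exact_mod_cast hr.1) hN
          calc (nm r : ℝ) * nm f ≤ X ^ 2 * X := by gcongr
            _ = X ^ 3 := by ring
        refine le_trans ?_ (hC (r * f) (X ^ 3) hX1 (mul_ne_zero hr0 hf) hrf)
        norm_cast
        refine Finset.card_le_card fun b hb => ?_
        rw [Finset.mem_filter, mem_primBall] at hb ⊢
        refine ⟨⟨?_, hb.1.2⟩, ?_⟩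
        · apply Nat.le_floor
          exact (le_trans (by exact_mod_cast hb.1.1) hN).trans hX23
        · have := prI_RF (f := f) hb.1.2
          rwa [hb.2] at this
    _ = (C * (X ^ 3) ^ (ε / 6)) * ∑ r ∈ primBall N, (1 / (nm r : ℝ)) := by
        rw [Finset.mul_sum]
    _ ≤ (C * (X ^ 3) ^ (ε / 6)) * (C2 * (X ^ 2) ^ (ε / 4)) := by
        refine mul_le_mul_of_nonneg_left ?_ (by positivity)
        refine (sum_inv_primBall_le N).trans ?_
        refine le_trans ?_ (hC2 (X ^ 2) (one_le_pow₀ hX))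
        have : Real.log N ≤ Real.log (X ^ 2) := by
          rcases Nat.eq_zero_or_pos N with h | h
          · subst h
            simp only [Nat.cast_zero, Real.log_zero]
            exact Real.log_nonneg (one_le_pow₀ hX)
          · exact Real.log_le_log (by exact_mod_cast h) hN
        linarith
    _ = C * C2 * X ^ ε := by
        have e1 : (X ^ 3 : ℝ) ^ (ε / 6) = X ^ (ε / 2) := by
          rw [← Real.rpow_natCast X 3, ← Real.rpow_mul hX0.le]
          congr 1; push_cast; ring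
        have e2 : (X ^ 2 : ℝ) ^ (ε / 4) = X ^ (ε / 2) := by
          rw [← Real.rpow_natCast X 2, ← Real.rpow_mul hX0.le]
          congr 1; push_cast; ring
        have e3 : X ^ ε = X ^ (ε / 2) * X ^ (ε / 2) := by
          rw [← Real.rpow_add hX0]; congr 1; ring
        rw [e1, e2, e3]; ring

end Crest.Agent.R017.LBp47
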