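import Crest.Agent.R017.LBpB_47

/-!
# Row 17, E4, leaf LBp, part C (helper47): `BW`, the common bound for `LBp` and `LBd`
-/

set_option autoImplicit false
set_option linter.unusedVariables false
set_option linter.unusedSectionVars false
set_option maxHeartbeats 1000000

noncomputable section

open Complex
open scoped ComplexConjugate

namespace Crest.Agent.R017.LBp47

open Crest.Agent.R012 Crest.Agent.R012.Eis Crest.Agent.R012.GaussLoc283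
open Crest.Agent.R012.Mob705 Crest.Agent.R012.Div277
open Crest.Agent.R017.Sx545 (Sm)
open Crest.Agent.R017.E4352 Crest.Agent.R017.C70 Crest.Agent.R017.CM106

/-- the right side of `LStr` with general twists -/
def aT (f : Eis) (X : ℝ) (g : Eis → Eis → ℂ) (v w : Eis → ℂ) (d : Eis) : ℝ :=
  ∑ i ∈ IxS f d X, ‖gs (f * i.2.1 * i.2.2) i.1.1‖ *
    (‖Sd (tws i.2.1 i.1.1 (g i.1.1) v) i.1.2‖ * ‖CS (tws i.2.2 i.1.1 (g i.1.1) w) i.1.2‖)

/-- the product at `(b, k, R, Z)` -/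
def aP (g : Eis → Eis → ℂ) (v w : Eis → ℂ) (b k R Z : Eis) : ℝ :=
  ‖Sd (tws R b (g b) v) k‖ * ‖CS (tws Z b (g b) w) k‖

lemma aP_nonneg (g : Eis → Eis → ℂ) (v w : Eis → ℂ) (b k R Z : Eis) : 0 ≤ aP g v w b k R Z :=
  mul_nonneg (norm_nonneg _) (norm_nonneg _)

lemma PBo_eq {M : Eis} {O : Type} [Fintype O] {lam : O → ℝ} {b R Z : Eis} {g : Eis → Eis → ℂ}
    {v w : O → Eis → ℂ} {κ : ℝ} :
    Wk lam (fun d => Sm M d ∧ CbF d) (fun o k => aP g (v o) (w o) b k R Z) κ =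
      PBo M lam b R Z (g b) v w κ := by
  classical
  unfold Wk PBo PB aP
  refine Finset.sum_congr rfl fun o _ => ?_
  congr 1
  refine Finset.sum_congr ?_ fun d _ => ?_
  · ext d
    simp only [Finset.mem_filter, and_assoc]
  · ring

section

variable {M f : Eis} {O : Type} [Fintype O] {lam : O → ℝ} {v w : O → Eis → ℂ} {X K' : ℝ}
  {Bd : ℝ → ℝ → ℝ} {S : ℝ} {g : Eis → Eis → ℂ}

lemma fin_alg {b r s t S J G : ℝ} (hb : 0 < b) (hr : 0 < r) (hs : 0 < s) (ht : 0 < t)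
    (hG : G ≤ b * (r⁻¹ * (s * t))) (hJ : 0 ≤ J * (S / (s * t))) :
    (G * b⁻¹) * (J * (S / (s * t))) ≤ J * S * r⁻¹ := by
  have h1 : (G * b⁻¹) * (J * (S / (s * t))) ≤
      ((b * (r⁻¹ * (s * t))) * b⁻¹) * (J * (S / (s * t))) :=
    mul_le_mul_of_nonneg_right (mul_le_mul_of_nonneg_right hG (inv_nonneg.mpr hb.le)) hJ
  refine h1.trans (le_of_eq ?_)
  field_simp

lemma dvd_of_Qc {b R Z : Eis} (h : Qc M f b R Z) (p : Eis) (hp : Prime p) (hpb : p ∣ b) :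
    p ∣ f * R * Z := by
  rcases h.2.2.2 p hp hpb with h1 | h1 | h1
  · exact h1.mul_left _
  · exact (h1.mul_right _).mul_right _
  · exact (((dvd_pow_self p (by norm_num)).trans h1.1).mul_left _).mul_right _

open Classical in
/-- one `(b, R, Z)` -/
lemma one_bRZ (hlam : ∀ o, 1 ≤ lam o) (hK' : 0 < K') (hS : 0 ≤ S) (N J : ℕ)
    (hJ : K' < 2 ^ J)
    (hB : ∀ b R Z κ, Sm M b → PrI b R → PrI b Z → (∀ p : Eis, Prime p → p ∣ b → p ∣ f * R * Z) →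
      0 < κ → PBo M lam b R Z (g b) v w κ ≤ Bd κ (nm (E4352.rd Z)))
    (hnum : ∀ b₁ b₃ κ : ℝ, 1 ≤ b₁ → 1 ≤ b₃ → 1 / 4 ≤ κ → κ * b₁ ^ 2 * b₃ ^ 3 ≤ K' →
      b₁ ^ (1 / 2 : ℝ) * b₃ * κ ^ (-(1 / 2) : ℝ) * Bd κ (b₁ * b₃) ≤ S)
    {b R Z : Eis} (hQ : Qc M f b R Z) :
    ∑ o, ∑ k ∈ primBall N, (if (Sm M k ∧ CbF k) ∧ (nm (b * k) : ℝ) * lam o ≤ K' then
      ((nm (b * k) : ℝ) * lam o)⁻¹ * (‖gs (f * R * Z) b‖ * aP g (v o) (w o) b k R Z) else 0) ≤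
      J * S * (nm (RF f b) : ℝ)⁻¹ := by
  have hb0 := hQ.1.ne_zero
  have hb1 : (1 : ℝ) ≤ nm b := by exact_mod_cast nm_pos.mpr hb0
  have hbp : (0 : ℝ) < nm b := by linarith
  have hRF0 : (0 : ℝ) < nm (RF f b) := by exact_mod_cast nm_pos.mpr (RF_prim f b).ne_zero
  by_cases h0 : gs (f * R * Z) b = 0
  · rw [Finset.sum_eq_zero]
    · positivity
    · intro o _
      refine Finset.sum_eq_zero fun k _ => ?_
      rw [h0]
      simp
  have hG := gs_Qc hQ h0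
  have hBB := B_Qc hQ h0
  set β₁ : ℝ := (nm (B1 Z b) : ℝ) with hβ₁
  set β₃ : ℝ := (nm (B3 Z b) : ℝ) with hβ₃
  have h11 : 1 ≤ β₁ := by
    rw [hβ₁]; exact_mod_cast nm_pos.mpr (B1_prim Z b).ne_zero
  have h13 : 1 ≤ β₃ := by
    rw [hβ₃]; exact_mod_cast nm_pos.mpr (B3_prim Z b).ne_zero
  have hs1 : 0 < Real.sqrt β₁ := Real.sqrt_pos.mpr (by linarith)
  have hrd : (nm (E4352.rd Z) : ℝ) = β₁ * β₃ := by
    rw [← B1_mul_B3 Z b, nm_mul, Nat.cast_mul]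
  set L : ℝ := K' / nm b with hL
  have hL0 : 0 < L := by positivity
  have hLK : L ≤ K' := div_le_self hK'.le hb1
  have hLJ : L < 2 ^ J := lt_of_le_of_lt hLK hJ
  set c : ℝ := S / (Real.sqrt β₁ * β₃) with hc
  have hc0 : 0 ≤ c := by positivity
  have hd := dyad lam hlam (fun d => Sm M d ∧ CbF d) (fun o k => aP g (v o) (w o) b k R Z)
    (fun o k => aP_nonneg _ _ _ _ _ _ _) hL0 hc0 N (J := J) (fun κ hκ4 hκL => ?_) hLJ
  · -- conclusion
    have e1 : ∀ o, ∑ k ∈ primBall N, (if (Sm M k ∧ CbF k) ∧ (nm (b * k) : ℝ) * lam o ≤ K' then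
        ((nm (b * k) : ℝ) * lam o)⁻¹ * (‖gs (f * R * Z) b‖ * aP g (v o) (w o) b k R Z) else 0) =
        (‖gs (f * R * Z) b‖ * (nm b : ℝ)⁻¹) *
          ∑ k ∈ (primBall N).filter (fun k => (Sm M k ∧ CbF k) ∧ (nm k : ℝ) * lam o ≤ L),
            ((nm k : ℝ) * lam o)⁻¹ * aP g (v o) (w o) b k R Z := by
      intro o
      rw [Finset.sum_filter, Finset.mul_sum]
      refine Finset.sum_congr rfl fun k _ => ?_
      have hiff : (nm (b * k) : ℝ) * lam o ≤ K' ↔ (nm k : ℝ) * lam o ≤ L := by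
        rw [hL, le_div_iff₀ hbp, nm_mul, Nat.cast_mul]
        constructor <;> intro h <;> nlinarith
      by_cases hk : (Sm M k ∧ CbF k) ∧ (nm k : ℝ) * lam o ≤ L
      · rw [if_pos hk, if_pos ⟨hk.1, hiff.mpr hk.2⟩, nm_mul, Nat.cast_mul, mul_assoc, mul_inv]
        ring
      · rw [if_neg hk, if_neg (fun h => hk ⟨h.1, hiff.mp h.2⟩), mul_zero]
    rw [Finset.sum_congr rfl fun o _ => e1 o, ← Finset.mul_sum]
    have hGn : 0 ≤ ‖gs (f * R * Z) b‖ * (nm b : ℝ)⁻¹ :=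
      mul_nonneg (norm_nonneg _) (inv_nonneg.mpr hbp.le)
    have hd' : ∑ o, ∑ k ∈ (primBall N).filter (fun k => (Sm M k ∧ CbF k) ∧
        (nm k : ℝ) * lam o ≤ L), ((nm k : ℝ) * lam o)⁻¹ * aP g (v o) (w o) b k R Z ≤ J * c := by
      convert hd
    have hJc : 0 ≤ (J : ℝ) * c := mul_nonneg (Nat.cast_nonneg _) hc0
    have hβ3p : 0 < β₃ := by linarith
    have hfin := fin_alg hbp hRF0 hs1 hβ3p (S := S) (J := (J : ℝ)) (G := ‖gs (f * R * Z) b‖) hG hJc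
    exact (mul_le_mul_of_nonneg_left hd' hGn).trans hfin
  · -- the block hypothesis
    have hκ0 : 0 < κ := by linarith
    have hW : Wk lam (fun d => Sm M d ∧ CbF d) (fun o k => aP g (v o) (w o) b k R Z) κ ≤
        Bd κ (β₁ * β₃) := by
      rw [PBo_eq, ← hrd]
      exact hB b R Z κ hQ.1 hQ.2.1 hQ.2.2.1 (dvd_of_Qc hQ) hκ0
    have hcond : κ * β₁ ^ 2 * β₃ ^ 3 ≤ K' := by
      rw [hL, le_div_iff₀ hbp] at hκL
      calc κ * β₁ ^ 2 * β₃ ^ 3 = κ * (β₁ ^ 2 * β₃ ^ 3) := by ring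
        _ ≤ κ * nm b := mul_le_mul_of_nonneg_left hBB hκ0.le
        _ ≤ K' := hκL
    have hn := hnum β₁ β₃ κ h11 h13 hκ4 hcond
    rw [← Real.sqrt_eq_rpow] at hn
    rw [hc, le_div_iff₀ (by positivity)]
    calc κ ^ (-(1 / 2) : ℝ) * Wk lam (fun d => Sm M d ∧ CbF d)
          (fun o k => aP g (v o) (w o) b k R Z) κ * (Real.sqrt β₁ * β₃)
        ≤ κ ^ (-(1 / 2) : ℝ) * Bd κ (β₁ * β₃) * (Real.sqrt β₁ * β₃) := by gcongr
      _ = Real.sqrt β₁ * β₃ * κ ^ (-(1 / 2) : ℝ) * Bd κ (β₁ * β₃) := by ring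
      _ ≤ S := hn

open Classical in
/-- one `o`: from the divisor sums to the box -/
lemma one_o (N : ℕ) (hN : N = ⌊K'⌋₊) (hX1 : 1 ≤ X) (o : O) (hlam : 1 ≤ lam o) :
    ∑ d ∈ (primBall N).filter (fun d => Sm M d ∧ (nm d : ℝ) * lam o ≤ K'),
      ((nm d : ℝ) * lam o)⁻¹ * aT f X g (v o) (w o) d ≤
    ∑ b ∈ primBall N, ∑ R ∈ primBall ⌊X⌋₊, ∑ Z ∈ primBall ⌊X⌋₊, if Qc M f b R Z then
      ∑ k ∈ primBall N, (if (Sm M k ∧ CbF k) ∧ (nm (b * k) : ℝ) * lam o ≤ K' then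
      ((nm (b * k) : ℝ) * lam o)⁻¹ * (‖gs (f * R * Z) b‖ * aP g (v o) (w o) b k R Z) else 0)
      else 0 := by
  set Hf : (Eis × Eis) × (Eis × Eis) → ℝ := fun i => ((nm (i.1.1 * i.1.2) : ℝ) * lam o)⁻¹ *
    (‖gs (f * i.2.1 * i.2.2) i.1.1‖ * aP g (v o) (w o) i.1.1 i.1.2 i.2.1 i.2.2) with hHf
  set PP : (Eis × Eis) × (Eis × Eis) → Prop := fun i => Qc M f i.1.1 i.2.1 i.2.2 ∧
    ((Sm M i.1.2 ∧ CbF i.1.2) ∧ (nm (i.1.1 * i.1.2) : ℝ) * lam o ≤ K') with hPP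
  set BI : Finset ((Eis × Eis) × (Eis × Eis)) :=
    ((primBall N ×ˢ primBall N) ×ˢ (primBall ⌊X⌋₊ ×ˢ primBall ⌊X⌋₊)).filter PP with hBI
  have hl0 : 0 < lam o := lt_of_lt_of_le one_pos hlam
  have hHf0 : ∀ i, 0 ≤ Hf i := by
    intro i
    simp only [hHf]
    have := aP_nonneg g (v o) (w o) i.1.1 i.1.2 i.2.1 i.2.2
    positivity
  set D : Finset Eis := (primBall N).filter (fun d => Sm M d ∧ (nm d : ℝ) * lam o ≤ K') with hD
  have hle : ∀ x : Eis, (nm x : ℝ) * lam o ≤ K' → nm x ≤ N := by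
    intro x hx
    rw [hN]
    apply Nat.le_floor
    have : (0 : ℝ) ≤ nm x := Nat.cast_nonneg _
    nlinarith
  have hmap : ∀ i ∈ BI, i.1.1 * i.1.2 ∈ D := by
    intro i hi
    rw [hBI, Finset.mem_filter] at hi
    obtain ⟨-, hq, ⟨hk1, hk2⟩, hk3⟩ := hi
    rw [hD, Finset.mem_filter, mem_primBall]
    have hS : Sm M (i.1.1 * i.1.2) := hq.1.mul hk1
    exact ⟨⟨hle _ hk3, hS.prim⟩, hS, hk3⟩
  have step1 : ∑ d ∈ D, ((nm d : ℝ) * lam o)⁻¹ * aT f X g (v o) (w o) d ≤ ∑ i ∈ BI, Hf i := by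
    rw [← Finset.sum_fiberwise_of_maps_to hmap]
    refine Finset.sum_le_sum fun d hd => ?_
    unfold aT
    rw [Finset.mul_sum]
    rw [hD, Finset.mem_filter, mem_primBall] at hd
    have e1 : ∀ i ∈ IxS f d X, ((nm d : ℝ) * lam o)⁻¹ * (‖gs (f * i.2.1 * i.2.2) i.1.1‖ *
        (‖Sd (tws i.2.1 i.1.1 (g i.1.1) (v o)) i.1.2‖ *
          ‖CS (tws i.2.2 i.1.1 (g i.1.1) (w o)) i.1.2‖)) = Hf i := by
      intro i hi
      unfold IxS at hi
      rw [Finset.mem_filter] at hi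
      simp only [hHf]
      rw [hi.2.1]
      rfl
    rw [Finset.sum_congr rfl e1]
    refine Finset.sum_le_sum_of_subset_of_nonneg ?_ (fun i _ _ => hHf0 i)
    intro i hi
    unfold IxS at hi
    rw [Finset.mem_filter, Finset.mem_product, Finset.mem_product, Finset.mem_product] at hi
    obtain ⟨⟨⟨hb, hk⟩, hRZ⟩, hbk, hcop, hcb, hkf, hR, hZ, hpr⟩ := hi
    rw [mem_dvs hd.1.2.ne_zero] at hb hk
    have hSb : Sm M i.1.1 := hd.2.1.of_dvd hb.1 hb.2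
    have hSk : Sm M i.1.2 := hd.2.1.of_dvd hk.1 hk.2
    rw [Finset.mem_filter, hBI, Finset.mem_filter, Finset.mem_product, Finset.mem_product,
      Finset.mem_product, mem_primBall, mem_primBall]
    refine ⟨⟨⟨⟨⟨?_, hb.1⟩, ⟨?_, hk.1⟩⟩, hRZ⟩, ⟨hSb, hR, hZ, hpr⟩, ⟨hSk, hcb⟩, ?_⟩, hbk⟩
    · exact (nm_le_of_dvd hd.1.2.ne_zero hb.2).trans hd.1.1
    · exact (nm_le_of_dvd hd.1.2.ne_zero hk.2).trans hd.1.1
    · rw [hbk]; exact hd.2.2
  refine step1.trans (le_of_eq ?_)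
  rw [hBI, Finset.sum_filter, Finset.sum_product, Finset.sum_product]
  refine Finset.sum_congr rfl fun b _ => ?_
  rw [Finset.sum_congr rfl fun k _ => Finset.sum_product _ _ _, Finset.sum_comm]
  refine Finset.sum_congr rfl fun R _ => ?_
  rw [Finset.sum_comm]
  refine Finset.sum_congr rfl fun Z _ => ?_
  by_cases hq : Qc M f b R Z
  · rw [if_pos hq]
    refine Finset.sum_congr rfl fun k _ => ?_
    simp only [hHf]
    by_cases hk : (Sm M k ∧ CbF k) ∧ (nm (b * k) : ℝ) * lam o ≤ K'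
    · rw [if_pos hk, if_pos ⟨hq, hk⟩]
    · rw [if_neg hk, if_neg (fun h => hk h.2)]
  · rw [if_neg hq]
    refine Finset.sum_eq_zero fun k _ => ?_
    rw [if_neg (fun h => hq h.1)]

end

lemma exists_J {X : ℝ} (hX : 1 ≤ X) : ∃ J : ℕ, X ^ 2 < 2 ^ J ∧ (J : ℝ) ≤ 100 * (1 + Real.log X) := by
  have hX0 : 0 < X := by linarith
  have hl : 0 ≤ Real.log X := Real.log_nonneg hX
  refine ⟨⌊3 * Real.log X⌋₊ + 1, ?_, ?_⟩
  · have h1 : 3 * Real.log X < (⌊3 * Real.log X⌋₊ + 1 : ℕ) := by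
      push_cast
      exact Nat.lt_floor_add_one _
    have h2 : (0.6931 : ℝ) < Real.log 2 := by
      have := Real.log_two_gt_d9
      linarith
    have e1 : (2 : ℝ) ^ (⌊3 * Real.log X⌋₊ + 1) =
        Real.exp ((⌊3 * Real.log X⌋₊ + 1 : ℕ) * Real.log 2) := by
      rw [Real.exp_nat_mul, Real.exp_log (by norm_num)]
    have e2 : X ^ 2 = Real.exp (2 * Real.log X) := by
      rw [show (2 : ℝ) * Real.log X = ((2 : ℕ) : ℝ) * Real.log X by norm_num, Real.exp_nat_mul,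
        Real.exp_log hX0]
    rw [e1, e2]
    apply Real.exp_lt_exp.mpr
    have h3 : 0 ≤ ((⌊3 * Real.log X⌋₊ + 1 : ℕ) : ℝ) := Nat.cast_nonneg _
    nlinarith
  · push_cast
    have h1 := Nat.floor_le (show 0 ≤ 3 * Real.log X by positivity)
    linarith

open Classical in
/-- **BW** -/
theorem BW (hC : LCnt) : ∀ ε : ℝ, 0 < ε → ∃ C : ℝ, 0 ≤ C ∧
    ∀ (M f : Eis) (O : Type) (_ : Fintype O) (lam : O → ℝ) (v w : O → Eis → ℂ) (X K' : ℝ)
      (Bd : ℝ → ℝ → ℝ) (S : ℝ) (g : Eis → Eis → ℂ), Dat4 M f lam v w X → 0 < K' → K' ≤ X ^ 2 →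
      0 ≤ S → BdC Bd →
      (∀ b R Z κ, Sm M b → PrI b R → PrI b Z → (∀ p : Eis, Prime p → p ∣ b → p ∣ f * R * Z) →
        0 < κ → PBo M lam b R Z (g b) v w κ ≤ Bd κ (nm (E4352.rd Z))) →
      (∀ b₁ b₃ κ : ℝ, 1 ≤ b₁ → 1 ≤ b₃ → 1 / 4 ≤ κ → κ * b₁ ^ 2 * b₃ ^ 3 ≤ K' →
        b₁ ^ (1 / 2 : ℝ) * b₃ * κ ^ (-(1 / 2) : ℝ) * Bd κ (b₁ * b₃) ≤ S) →
      ∑ o, ∑ d ∈ (primBall ⌊K'⌋₊).filter (fun d => Sm M d ∧ (nm d : ℝ) * lam o ≤ K'),
        ((nm d : ℝ) * lam o)⁻¹ * aT f X g (v o) (w o) d ≤ C * X ^ ε * S := by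
  intro ε hε
  obtain ⟨C1, hC10, hC1⟩ := hC (ε / 8) (by positivity)
  obtain ⟨C2, hC20, hC2⟩ := sum_RF hC (ε / 4) (by positivity)
  obtain ⟨C3, hC30, hC3⟩ : ∃ C3 : ℝ, 0 ≤ C3 ∧ ∀ X : ℝ, 1 ≤ X →
      100 * (1 + Real.log X) ≤ C3 * X ^ (ε / 4) := by
    refine ⟨(100 * (1 + (1 : ℕ) / (ε / 4))) ^ 1, by positivity, fun X hX => ?_⟩
    have := poly_log_le 1 hX (δ := ε / 4) (by positivity)
    rwa [pow_one] at this
  refine ⟨C3 * C1 ^ 2 * C2, by positivity, ?_⟩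
  intro M f O _ lam v w X K' Bd S g hdat hK' hKX hS hBd hB hnum
  have hX1 := hdat.X1
  have hX0 : 0 < X := by linarith
  have hlam : ∀ o, 1 ≤ lam o := fun o => (hdat.lam1 o).1
  obtain ⟨J, hJ, hJ2⟩ := exists_J hX1
  have hKJ : K' < 2 ^ J := lt_of_le_of_lt hKX hJ
  set N : ℕ := ⌊K'⌋₊ with hN
  have hNX : (N : ℝ) ≤ X ^ 2 := (Nat.floor_le hK'.le).trans hKX
  have hX2 : 1 ≤ X ^ 2 := one_le_pow₀ hX1
  have hXX : X ≤ X ^ 2 := by nlinarith
  have hf0 : f ≠ 0 := hdat.hf.1.ne_zero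
  -- the count of `R`
  have hcount : ∀ b ∈ primBall N,
      (((primBall ⌊X⌋₊).filter fun R => PrI b R).card : ℝ) ≤ C1 * X ^ (ε / 4) := by
    intro b hb
    rw [mem_primBall] at hb
    have h1 := hC1 b (X ^ 2) hX2 hb.2.ne_zero (le_trans (by exact_mod_cast hb.1) hNX)
    have e : (X ^ 2 : ℝ) ^ (ε / 8) = X ^ (ε / 4) := by
      rw [← Real.rpow_natCast X 2, ← Real.rpow_mul hX0.le]
      congr 1; push_cast; ring
    rw [e] at h1
    refine le_trans ?_ h1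
    norm_cast
    refine Finset.card_le_card ?_
    intro R hR
    rw [Finset.mem_filter, mem_primBall] at hR ⊢
    exact ⟨⟨hR.1.1.trans (Nat.floor_le_floor hXX), hR.1.2⟩, hR.2⟩
  calc ∑ o, ∑ d ∈ (primBall N).filter (fun d => Sm M d ∧ (nm d : ℝ) * lam o ≤ K'),
        ((nm d : ℝ) * lam o)⁻¹ * aT f X g (v o) (w o) d
      ≤ ∑ o, ∑ b ∈ primBall N, ∑ R ∈ primBall ⌊X⌋₊, ∑ Z ∈ primBall ⌊X⌋₊, (if Qc M f b R Z then
        ∑ k ∈ primBall N, (if (Sm M k ∧ CbF k) ∧ (nm (b * k) : ℝ) * lam o ≤ K' then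
        ((nm (b * k) : ℝ) * lam o)⁻¹ * (‖gs (f * R * Z) b‖ * aP g (v o) (w o) b k R Z) else 0)
        else 0) :=
        Finset.sum_le_sum fun o _ => one_o N hN hX1 o (hlam o)
    _ = ∑ b ∈ primBall N, ∑ R ∈ primBall ⌊X⌋₊, ∑ Z ∈ primBall ⌊X⌋₊, (if Qc M f b R Z then
        ∑ o, ∑ k ∈ primBall N, (if (Sm M k ∧ CbF k) ∧ (nm (b * k) : ℝ) * lam o ≤ K' then
        ((nm (b * k) : ℝ) * lam o)⁻¹ * (‖gs (f * R * Z) b‖ * aP g (v o) (w o) b k R Z) else 0)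
        else 0) := by
        rw [Finset.sum_comm]
        refine Finset.sum_congr rfl fun b _ => ?_
        rw [Finset.sum_comm]
        refine Finset.sum_congr rfl fun R _ => ?_
        rw [Finset.sum_comm]
        refine Finset.sum_congr rfl fun Z _ => ?_
        by_cases hq : Qc M f b R Z
        · simp only [if_pos hq]
        · simp only [if_neg hq, Finset.sum_const_zero]
    _ ≤ ∑ b ∈ primBall N, ∑ R ∈ primBall ⌊X⌋₊, ∑ Z ∈ primBall ⌊X⌋₊,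
        (if PrI b R then (if PrI b Z then J * S * (nm (RF f b) : ℝ)⁻¹ else 0) else 0) := by
        refine Finset.sum_le_sum fun b _ => Finset.sum_le_sum fun R _ =>
          Finset.sum_le_sum fun Z _ => ?_
        by_cases hq : Qc M f b R Z
        · rw [if_pos hq, if_pos hq.2.1, if_pos hq.2.2.1]
          exact one_bRZ hlam hK' hS N J hKJ hB hnum hq
        · rw [if_neg hq]
          split_ifs <;> positivity
    _ = ∑ b ∈ primBall N, (((primBall ⌊X⌋₊).filter fun R => PrI b R).card : ℝ) *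
        ((((primBall ⌊X⌋₊).filter fun R => PrI b R).card : ℝ) *
          (J * S * (nm (RF f b) : ℝ)⁻¹)) := by
        refine Finset.sum_congr rfl fun b _ => ?_
        have e1 : ∀ R ∈ primBall ⌊X⌋₊, ∑ Z ∈ primBall ⌊X⌋₊,
            (if PrI b R then (if PrI b Z then J * S * (nm (RF f b) : ℝ)⁻¹ else 0) else 0) =
            if PrI b R then (((primBall ⌊X⌋₊).filter fun R => PrI b R).card : ℝ) *
              (J * S * (nm (RF f b) : ℝ)⁻¹) else 0 := by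
          intro R _
          by_cases hR : PrI b R
          · simp only [if_pos hR]
            rw [← Finset.sum_filter, Finset.sum_const, nsmul_eq_mul]
          · simp only [if_neg hR, Finset.sum_const_zero]
        rw [Finset.sum_congr rfl e1, ← Finset.sum_filter, Finset.sum_const, nsmul_eq_mul]
    _ ≤ ∑ b ∈ primBall N, (C1 * X ^ (ε / 4)) * ((C1 * X ^ (ε / 4)) *
          (J * S * (nm (RF f b) : ℝ)⁻¹)) := by
        refine Finset.sum_le_sum fun b hb => ?_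
        have h1 := hcount b hb
        have h2 : 0 ≤ J * S * (nm (RF f b) : ℝ)⁻¹ := by positivity
        have h3 : 0 ≤ C1 * X ^ (ε / 4) := by positivity
        gcongr
    _ = (C1 * X ^ (ε / 4)) * ((C1 * X ^ (ε / 4)) * (J * S)) *
        ∑ b ∈ primBall N, (nm (RF f b) : ℝ)⁻¹ := by
        rw [Finset.mul_sum]
        refine Finset.sum_congr rfl fun b _ => ?_
        ring
    _ ≤ (C1 * X ^ (ε / 4)) * ((C1 * X ^ (ε / 4)) * ((C3 * X ^ (ε / 4)) * S)) *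
        (C2 * X ^ (ε / 4)) := by
        have h1 := hC2 f X N hX1 hf0 hdat.hf.2 hNX
        have h2 : (J : ℝ) ≤ C3 * X ^ (ε / 4) := hJ2.trans (hC3 X hX1)
        have h3 : 0 ≤ ∑ b ∈ primBall N, (nm (RF f b) : ℝ)⁻¹ :=
          Finset.sum_nonneg fun b _ => by positivity
        gcongr
    _ = C3 * C1 ^ 2 * C2 * X ^ ε * S := by
        have e3 : X ^ ε = X ^ (ε / 4) * X ^ (ε / 4) * X ^ (ε / 4) * X ^ (ε / 4) := by
          rw [← Real.rpow_add hX0, ← Real.rpow_add hX0, ← Real.rpow_add hX0]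
          congr 1; ring
        rw [e3]; ring

end Crest.Agent.R017.LBp47
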