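import Crest.Agent.R017.LBn_48

/-!
# Row 17, C.REMg (LB) (helper180): the size conditions at the parameters

`θ = (E0 ^ 2)⁻¹`, `lam = E0 ^ (-(1/2))`, `B = E0 ^ 2`, `h = 7 log E0`.
-/

set_option autoImplicit false
set_option linter.unusedVariables false

noncomputable section

open Complex
open scoped ComplexConjugate Classical

namespace Crest.Agent.R017.LBp180

open Crest.Agent.R012 Crest.Agent.R012.Eis
open Crest.Agent.R012.LS2 (S mem_S)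

variable {E0 K X Y : ℝ}

lemma th_pos (h : 1 ≤ E0) : 0 < (E0 ^ 2)⁻¹ := by positivity

lemma th_le_one (h : 1 ≤ E0) : (E0 ^ 2)⁻¹ ≤ 1 := inv_le_one_of_one_le₀ (one_le_pow₀ h)

lemma lam_pos (h : 1 ≤ E0) : 0 < E0 ^ (-(1 / 2) : ℝ) := Real.rpow_pos_of_pos (by linarith) _

lemma lam_le_one (h : 1 ≤ E0) : E0 ^ (-(1 / 2) : ℝ) ≤ 1 :=
  Real.rpow_le_one_of_one_le_of_nonpos h (by norm_num)

lemma th_le_lam (h : 1 ≤ E0) : (E0 ^ 2)⁻¹ ≤ E0 ^ (-(1 / 2) : ℝ) := by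
  have h0 : 0 ≤ E0 := by linarith
  have e1 : (E0 ^ 2)⁻¹ = E0 ^ (-2 : ℝ) := by
    rw [Real.rpow_neg h0]; norm_num
  rw [e1]
  exact Real.rpow_le_rpow_of_exponent_le h (by norm_num)

lemma h_nonneg (h : 1 ≤ E0) : 0 ≤ 7 * Real.log E0 := by
  have := Real.log_nonneg h
  linarith

lemma exp_h (h : 1 ≤ E0) : Real.exp (7 * Real.log E0) = E0 ^ 7 := by
  have h0 : 0 < E0 := by linarith
  have : Real.exp ((7 : ℕ) * Real.log E0) = Real.exp (Real.log E0) ^ 7 := Real.exp_nat_mul _ 7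
  rw [Real.exp_log h0] at this
  simpa using this

lemma exp_neg_h (h : 1 ≤ E0) : Real.exp (-(7 * Real.log E0)) = (E0 ^ 7)⁻¹ := by
  rw [Real.exp_neg, exp_h h]

lemma exp_h3 (h : 1 ≤ E0) : Real.exp (7 * Real.log E0 / 3) = E0 ^ (7 / 3 : ℝ) := by
  have h0 : 0 < E0 := by linarith
  rw [Real.rpow_def_of_pos h0]
  congr 1
  ring

lemma exp_neg_h3 (h : 1 ≤ E0) : Real.exp (-(7 * Real.log E0 / 3)) ≤ (E0 ^ 2)⁻¹ := by
  have h0 : 0 < E0 := by linarith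
  rw [Real.exp_neg, exp_h3 h]
  refine inv_anti₀ (by positivity) ?_
  have e1 : E0 ^ 2 = E0 ^ (2 : ℝ) := by norm_num
  rw [e1]
  exact Real.rpow_le_rpow_of_exponent_le h (by norm_num)

lemma K_pos (h : 1 ≤ E0) (hK : E0 ^ 60 ≤ K) : 1 ≤ K := (one_le_pow₀ h).trans hK

/-- the sixth root -/
lemma six_le {a b : ℝ} (ha : 0 ≤ a) (hb : 0 ≤ b) (h : a ≤ b ^ 6) : a ^ (1 / 6 : ℝ) ≤ b := by
  have h1 := Real.rpow_le_rpow ha h (by norm_num : (0 : ℝ) ≤ 1 / 6)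
  refine h1.trans (le_of_eq ?_)
  rw [← Real.rpow_natCast, ← Real.rpow_mul hb]
  norm_num

lemma z_le_th {N₁ : ℝ} (h : 1 ≤ E0) (hN : 0 ≤ N₁) (hK : 0 < K) (h30 : N₁ * E0 ^ 30 ≤ K ^ 2) :
    (N₁ / K ^ 2) ^ (1 / 6 : ℝ) ≤ (E0 ^ 2)⁻¹ := by
  have h0 : 0 < E0 := by linarith
  refine six_le (by positivity) (by positivity) ?_
  rw [div_le_iff₀ (by positivity)]
  have h12 : N₁ * E0 ^ 12 ≤ K ^ 2 :=
    (mul_le_mul_of_nonneg_left (pow_le_pow_right₀ h (by norm_num)) hN).trans h30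
  have e1 : ((E0 ^ 2)⁻¹) ^ 6 * (N₁ * E0 ^ 12) = N₁ := by
    field_simp
  calc N₁ = ((E0 ^ 2)⁻¹) ^ 6 * (N₁ * E0 ^ 12) := e1.symm
    _ ≤ _ := mul_le_mul_of_nonneg_left h12 (by positivity)

lemma z_le_one {N₁ : ℝ} (h : 1 ≤ E0) (hN : 0 ≤ N₁) (hK : 0 < K)
    (h30 : N₁ * E0 ^ 30 ≤ K ^ 2) :
    (N₁ / (K * Real.exp (-(7 * Real.log E0))) ^ 2) ^ (1 / 6 : ℝ) ≤ 1 := by
  have h0 : 0 < E0 := by linarith
  rw [exp_neg_h h]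
  refine six_le (by positivity) zero_le_one ?_
  rw [one_pow, div_le_one (by positivity)]
  have h14 : N₁ * E0 ^ 14 ≤ K ^ 2 :=
    (mul_le_mul_of_nonneg_left (pow_le_pow_right₀ h (by norm_num)) hN).trans h30
  have e1 : (K * (E0 ^ 7)⁻¹) ^ 2 = K ^ 2 * (E0 ^ 14)⁻¹ := by
    rw [mul_pow]; congr 1; rw [← inv_pow, ← inv_pow]; ring
  rw [e1, ← div_eq_mul_inv, le_div_iff₀ (by positivity)]
  exact h14

/-- the second scale is `≥ 1` -/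
lemma one_le_K' (h : 1 ≤ E0) (hK : E0 ^ 60 ≤ K) :
    1 ≤ K * Real.exp (-(7 * Real.log E0)) := by
  have h0 : 0 < E0 := by linarith
  rw [exp_neg_h h, ← div_eq_mul_inv, le_div_iff₀ (by positivity), one_mul]
  exact (pow_le_pow_right₀ h (by norm_num)).trans hK

lemma pw_le_K' {a : ℝ} (h : 1 ≤ E0) (hK : E0 ^ 60 ≤ K) (hY : 1 ≤ Y) (ha : 0 ≤ a) :
    Y ^ (-a) ≤ K * Real.exp (-(7 * Real.log E0)) :=
  (Real.rpow_le_one_of_one_le_of_nonpos hY (by linarith)).trans (one_le_K' h hK)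

/-- the room at the second scale -/
lemma room {e₀ N₀ N₁ : ℝ} (h : 1 ≤ E0) (hY : 0 ≤ Y) (hK : 0 ≤ K) (hYE : Y ^ e₀ ≤ E0)
    (hN : N₀ ≤ N₁) (hr : X ^ 2 * E0 ^ 20 ≤ K * N₀) :
    X ^ 2 * Y ^ (13 * e₀) ≤ K * Real.exp (-(7 * Real.log E0)) * N₁ := by
  have h0 : 0 < E0 := by linarith
  rw [exp_neg_h h]
  have e1 : Y ^ (13 * e₀) ≤ E0 ^ 13 := by
    rw [mul_comm, Real.rpow_mul hY]
    have := pow_le_pow_left₀ (Real.rpow_nonneg hY e₀) hYE 13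
    calc (Y ^ e₀) ^ (13 : ℝ) = (Y ^ e₀) ^ 13 := by norm_cast
      _ ≤ _ := this
  have e2 : X ^ 2 * E0 ^ 20 ≤ K * N₁ := hr.trans (mul_le_mul_of_nonneg_left hN hK)
  have e3 : K * (E0 ^ 7)⁻¹ * N₁ = (K * N₁) / E0 ^ 7 := by field_simp
  rw [e3, le_div_iff₀ (by positivity)]
  calc X ^ 2 * Y ^ (13 * e₀) * E0 ^ 7 ≤ X ^ 2 * E0 ^ 13 * E0 ^ 7 := by gcongr
    _ = X ^ 2 * E0 ^ 20 := by ring
    _ ≤ _ := e2

lemma one_le_E0 {e₀ : ℝ} (he : 0 ≤ e₀) (hY : 1 ≤ Y) (hYE : Y ^ e₀ ≤ E0) : 1 ≤ E0 :=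
  (Real.one_le_rpow hY he).trans hYE

/-- the final weights -/
lemma fin_le (h : 1 ≤ E0) :
    (E0 ^ 2)⁻¹ * E0 + E0 ^ (-(1 / 2) : ℝ) + (E0 ^ (-(1 / 2) : ℝ) * E0)⁻¹ ≤
      3 * E0 ^ (-(1 / 2) : ℝ) := by
  have h0 : 0 < E0 := by linarith
  have e1 : (E0 ^ 2)⁻¹ * E0 = E0 ^ (-1 : ℝ) := by
    rw [Real.rpow_neg_one]; field_simp
  have e2 : (E0 ^ (-(1 / 2) : ℝ) * E0)⁻¹ = E0 ^ (-(1 / 2) : ℝ) := by
    have : E0 ^ (-(1 / 2) : ℝ) * E0 = E0 ^ (1 / 2 : ℝ) := by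
      nth_rw 2 [← Real.rpow_one E0]
      rw [← Real.rpow_add h0]; norm_num
    rw [this, ← Real.rpow_neg h0.le]
  have e3 : E0 ^ (-1 : ℝ) ≤ E0 ^ (-(1 / 2) : ℝ) :=
    Real.rpow_le_rpow_of_exponent_le h (by norm_num)
  rw [e1, e2]
  linarith

/-! ### the `L¹` norm, no lower bound on `Y` -/

lemma S_small {Y : ℝ} (hY : 0 ≤ Y) (h4 : Y < 4) : S Y ⊆ {1} := by
  intro n hn
  obtain ⟨h1, h2, h3⟩ := (mem_S hY).1 hn
  rw [Finset.mem_singleton]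
  have hlt : nm n < 4 := by
    have : (nm n : ℝ) < 4 := by linarith
    exact_mod_cast this
  have h5 := h2.nm_mod
  have h6 : nm n = 1 := by
    have := Eis.nm_pos.2 h2.ne_zero
    omega
  exact Mob705.isPrim_eq_one_of_isUnit h2 (isUnit_iff.mpr h6)

lemma card_S_le {Y : ℝ} (hY : 1 ≤ Y) : ((S Y).card : ℝ) ≤ Y ^ 3 := by
  rcases lt_or_ge Y 4 with h4 | h4
  · have h1 := Finset.card_le_card (S_small (by linarith) h4)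
    rw [Finset.card_singleton] at h1
    have h2 : ((S Y).card : ℝ) ≤ 1 := by exact_mod_cast h1
    exact h2.trans (one_le_pow₀ hY)
  · have h1 := GLS106.card_S_le hY
    refine h1.trans ?_
    nlinarith [mul_nonneg (by linarith : (0:ℝ) ≤ Y) (by nlinarith : (0:ℝ) ≤ Y ^ 2 - 16)]

lemma sum_le {ε : ℝ} (hε : 0 ≤ ε) (hY : 1 ≤ Y) {α : Eis → ℂ} (hα : ∀ n, ‖α n‖ ≤ Y ^ ε) :
    ∑ n ∈ S Y, ‖α n‖ ≤ Y ^ (3 + ε) := by
  have hY0 : 0 < Y := by linarith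
  calc ∑ n ∈ S Y, ‖α n‖ ≤ ∑ n ∈ S Y, Y ^ ε := Finset.sum_le_sum fun n _ => hα n
    _ = ((S Y).card : ℝ) * Y ^ ε := by rw [Finset.sum_const, nsmul_eq_mul]
    _ ≤ Y ^ 3 * Y ^ ε := mul_le_mul_of_nonneg_right (card_S_le hY) (by positivity)
    _ = Y ^ (3 + ε) := by
        rw [Real.rpow_add hY0]; norm_cast

/-! ### the case of bounded `E0` -/

/-- for `E0 ≤ c` the weights are `≥ c^(-1/2)` -/
lemma small_num {c x m : ℝ} (h : 1 ≤ E0) (hc : E0 ≤ c) (hx : 0 ≤ x) (hm : 0 ≤ m) :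
    x + m ≤ c ^ (1 / 2 : ℝ) * (x + E0 ^ (-(1 / 2) : ℝ) * m) := by
  have h0 : 0 < E0 := by linarith
  have hc1 : 1 ≤ c := h.trans hc
  have hc0 : 0 < c := by linarith
  have e1 : 1 ≤ c ^ (1 / 2 : ℝ) := Real.one_le_rpow hc1 (by norm_num)
  have e2 : 1 ≤ c ^ (1 / 2 : ℝ) * E0 ^ (-(1 / 2) : ℝ) := by
    have : E0 ^ (1 / 2 : ℝ) ≤ c ^ (1 / 2 : ℝ) := Real.rpow_le_rpow h0.le hc (by norm_num)
    have e3 : E0 ^ (1 / 2 : ℝ) * E0 ^ (-(1 / 2) : ℝ) = 1 := by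
      rw [← Real.rpow_add h0]; norm_num
    calc (1 : ℝ) = E0 ^ (1 / 2 : ℝ) * E0 ^ (-(1 / 2) : ℝ) := e3.symm
      _ ≤ _ := mul_le_mul_of_nonneg_right this (Real.rpow_nonneg h0.le _)
  have a1 : x ≤ c ^ (1 / 2 : ℝ) * x := le_mul_of_one_le_left hx e1
  have a2 : m ≤ (c ^ (1 / 2 : ℝ) * E0 ^ (-(1 / 2) : ℝ)) * m := le_mul_of_one_le_left hm e2
  calc x + m ≤ c ^ (1 / 2 : ℝ) * x + (c ^ (1 / 2 : ℝ) * E0 ^ (-(1 / 2) : ℝ)) * m :=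
        add_le_add a1 a2
    _ = _ := by ring

/-- the weights of `η` and `Y` -/
lemma eta_le {η ε : ℝ} {J : ℕ} (hη : 0 < η) (hη1 : η ≤ 1) :
    (η⁻¹) ^ J ≤ (η⁻¹) ^ (2 * J + 2) :=
  pow_le_pow_right₀ ((one_le_inv₀ hη).mpr hη1) (by omega)

lemma Ypow_le {ε : ℝ} (hε : 0 < ε) (hY : 1 ≤ Y) {k : ℕ} (hk : k ≤ 4) :
    (Y ^ ε) ^ k ≤ Y ^ (4 * ε) := by
  rw [← Real.rpow_natCast, ← Real.rpow_mul (by linarith)]
  refine Real.rpow_le_rpow_of_exponent_le hY ?_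
  have : (k : ℝ) ≤ 4 := by exact_mod_cast hk
  nlinarith

end Crest.Agent.R017.LBp180
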