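import Crest.Agent.R017.LBt_180
import Crest.Agent.R017.LBp_180

/-!
# Row 17, C.REMg (LB) (helper180): the case of bounded `E0`

* `LBnq.mono'` : monotonicity in the error
* `lb_small` : **the conclusion of `LBN` for `E0 ≤ c₁₀`**
-/

set_option autoImplicit false
set_option linter.unusedVariables false

noncomputable section

open Complex MeasureTheory
open scoped ComplexConjugate Classical

namespace Crest.Agent.R017.LBt180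

open Crest.Agent.R012 Crest.Agent.R012.Eis Crest.Agent.R012.MC
open Crest.Agent.R012.LS2 (S mem_S)
open Crest.Agent.R017.E1551 (tws sg yv)
open Crest.Agent.R017.LBx48 (LBnq)
open Crest.Agent.R017.Rough381 (VF)

/-- monotonicity in the error -/
theorem lbnq_mono {w : ℝ → ℝ} {Q : ℕ × ℕ → Eis → Prop} {Cw η : ℝ} {Aw : ℕ} {K X Y D : ℝ}
    {N₁ : ℕ} {ρ : ℕ → ℝ} {R : ℝ} {J : ℕ} {α : Eis → ℂ} {E E' : ℝ} (hK : 0 ≤ K) (hX : 0 ≤ X)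
    (h : LBnq w Q Cw η Aw K X Y D N₁ ρ R J α E) (hE : E ≤ E') :
    LBnq w Q Cw η Aw K X Y D N₁ ρ R J α E' := by
  intro p hp t X' φ hX' hXX hφ hφs
  refine (h p hp t X' φ hX' hXX hφ hφs).trans ?_
  have h1 : 0 ≤ K / X := by positivity
  have h2 : 0 ≤ (1 + |t|) ^ J := by positivity
  exact mul_le_mul_of_nonneg_left (mul_le_mul_of_nonneg_right hE h2) h1

/-- **the case of bounded `E0`** -/
theorem lb_small {w : ℝ → ℝ} (hw : Wgt w) (hw0 : ∀ x, 0 ≤ w x) {Cw R ε : ℝ} {Aw J : ℕ}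
    (hCw : 0 ≤ Cw) (hR : 0 ≤ R) (hε : 0 < ε) (hJA : J + 2 ≤ Aw) {c : ℝ} (hc : 1 ≤ c) :
    ∃ C : ℝ, 0 ≤ C ∧
    ∀ (K X Y D G₀ E0 η : ℝ) (N₁ : ℕ) (ρ : ℕ → ℝ), 0 < K → 0 < X → 1 ≤ Y → (N₁ : ℝ) ≤ Y →
    1 ≤ E0 → E0 ≤ c → 0 < η → η ≤ 1 → (∀ n, |ρ n| ≤ 1) →
    ∀ α : Eis → ℂ, (∀ n, α n ≠ 0 → n ∈ S Y) →
    (∀ n, α n ≠ 0 → |Real.log (nm n) - Real.log X| ≤ R) → (∀ n, ‖α n‖ ≤ Y ^ ε) →
    ∀ Ma Ml Rn : ℝ, 0 ≤ Ma → 0 ≤ Ml → 0 ≤ Rn →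
    (∀ g ∈ S Y, (nm g : ℝ) ≤ G₀ → ∀ V : ℝ, 1 ≤ V → V ≤ 9 * N₁ * nm g → ∀ t : ℝ,
      VF V (tws (sg α g) t) ≤
        Ma / (nm g : ℝ) ^ 2 * ((V * K / (X / nm g) ^ 2) ^ (1 / 3 : ℝ)) * (1 + |t|) ^ J) →
    (∀ g ∈ S Y, ∀ B V : ℝ, 1 ≤ B → B ≤ Y → 1 ≤ V → V ≤ 9 * N₁ / (nm g : ℝ) ^ 2 → ∀ t : ℝ,
      E1551.JB Y α (fun U => G₀ < nm (g * U)) g B V t ≤
        Ml / (nm g : ℝ) ^ 2 * yv K X g V * (1 + |t|) ^ J) →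
    ∀ Q : ℕ × ℕ → Eis → Prop,
    LBnq w Q Cw η Aw K X Y D N₁ ρ R J α
      (C * (η⁻¹) ^ (2 * J + 2) * Y ^ (4 * ε) * (X ^ 2 + E0 ^ (-(1 / 2) : ℝ) * (Ma + Ml) + Rn)) := by
  obtain ⟨C, hC, H⟩ := lb_triv hw hw0 (Cw := Cw) (R := R) (ε := ε) (Aw := Aw) (J := J)
    hCw hR hε hJA
  refine ⟨C * c ^ (1 / 2 : ℝ), by positivity, ?_⟩
  intro K X Y D G₀ E0 η N₁ ρ hK hX hY hNY hE0 hE0c hη hη1 hρ α hα hαR hαn Ma Ml Rn hMa hMl hRn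
    hSA hL Q
  have h1 := H K X Y D G₀ η N₁ ρ hK hX hY hNY hη hη1 hρ α hα hαR hαn Ma Ml hMa hMl hSA hL Q
  refine lbnq_mono hK.le hX.le h1 ?_
  have hY0 : 0 < Y := by linarith
  have hE00 : 0 < E0 := by linarith
  have hη0 : 0 < η⁻¹ := inv_pos.mpr hη
  have a1 : (η⁻¹) ^ J ≤ (η⁻¹) ^ (2 * J + 2) :=
    pow_le_pow_right₀ ((one_le_inv₀ hη).mpr hη1) (by omega)
  have a2 : Y ^ ε * Y ^ ε ≤ Y ^ (4 * ε) := by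
    rw [← Real.rpow_add hY0]
    exact Real.rpow_le_rpow_of_exponent_le hY (by linarith)
  have a3 : X ^ 2 + (Ma + Ml) ≤
      c ^ (1 / 2 : ℝ) * (X ^ 2 + E0 ^ (-(1 / 2) : ℝ) * (Ma + Ml)) :=
    LBp180.small_num hE0 hE0c (by positivity) (by linarith)
  have a4 : X ^ 2 + (Ma + Ml) ≤
      c ^ (1 / 2 : ℝ) * (X ^ 2 + E0 ^ (-(1 / 2) : ℝ) * (Ma + Ml) + Rn) := by
    refine a3.trans (mul_le_mul_of_nonneg_left (by linarith) (by positivity))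
  have a5 : 0 ≤ X ^ 2 + (Ma + Ml) := by positivity
  calc C * (η⁻¹) ^ J * (Y ^ ε * Y ^ ε) * (X ^ 2 + (Ma + Ml)) ≤
        C * (η⁻¹) ^ (2 * J + 2) * Y ^ (4 * ε) *
          (c ^ (1 / 2 : ℝ) * (X ^ 2 + E0 ^ (-(1 / 2) : ℝ) * (Ma + Ml) + Rn)) := by
        refine mul_le_mul (mul_le_mul (mul_le_mul_of_nonneg_left a1 hC) a2 (by positivity)
          (by positivity)) a4 a5 (by positivity)
    _ = _ := by ring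

end Crest.Agent.R017.LBt180
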