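import Crest.Agent.R017.LBo_48

/-!
# Row 17, C.REMg (LB), final form (helper48), part 3: the tail

* `numE_of` : `NumE` from `NumL`, `NumN` and (room or `NumS`)
-/

set_option autoImplicit false
set_option linter.unusedVariables false

noncomputable section

open Complex MeasureTheory
open scoped ComplexConjugate Classical

namespace Crest.Agent.R017.LBx48

open Crest.Agent.R012 Crest.Agent.R012.Eis Crest.Agent.R012.MC
open Crest.Agent.R012.LS2 (S mem_S)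
open Crest.Agent.R012.Mob705 (pdiv kap0)
open Crest.Agent.R012.Div277 (tau)
open Crest.Agent.R012.Weight600 (osc pw)
open Crest.Agent.R017.X6C180 (n13 n13_nonneg GF)
open Crest.Agent.R017.CM106 (CS TG FS)
open Crest.Agent.R017.E1551 hiding tau Dg
open Crest.Agent.R017.C70 (JW JC OKJ okJ_JW)
open Crest.Agent.R017.E2440 (TE Jb Qs prs C4 StE Fh)
open Crest.Agent.R017.EHu320 (EHc)
open Crest.Agent.R017.LB48 (CrP GrP)
open Crest.Agent.R017.I1146 (omr)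
open Crest.Agent.R017.E3M829 (Cut Tal Sg)
open Crest.Agent.R017.E3A164 (SteT Ys Fy)
open Crest.Agent.R017.WDec180 (WD sc sc_pos)
open Crest.Agent.R017.Ex385 (CrQ)
open Crest.Agent.R017.LBu180 (SqQ SqQ_le)
open Crest.Agent.R017.Win813 (WK iA iA_nonneg)
open Crest.Agent.R017.RGw813 (T9 bt)
open Crest.Agent.R017.LBo813 (Om rho Om_nonneg Om_le_one norm_bt_le)
open Crest.Agent.R017.Rough381 (VF)
open Crest.Agent.R017.CubP813 (Qc Qc_cut)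
open Crest.Agent.R017.Et404 (RLn)
open Crest.Agent.R017.Et813 (NTn et_le)

/-! ### sizes -/

lemma gapP {e₀ M c₁ Y E0 : ℝ} (hc₁ : 0 ≤ c₁) (hY : 0 ≤ Y)
    (hE : Y ^ e₀ ≤ E0) (hbig : (c₁ ^ (e₀ / 2) * Real.exp M) ^ 2 ≤ E0) :
    (c₁ * Y) ^ (e₀ / 2) * Real.exp M ≤ E0 := by
  rw [Real.mul_rpow hc₁ hY]
  have h1 : (Y ^ (e₀ / 2)) ^ 2 ≤ E0 := by
    rw [← Real.rpow_natCast, ← Real.rpow_mul hY]
    refine le_trans (le_of_eq ?_) hE
    congr 1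
    push_cast
    ring
  have h0 : 0 ≤ E0 := (sq_nonneg _).trans h1
  have h2 : 0 ≤ c₁ ^ (e₀ / 2) * Real.exp M := by positivity
  have h3 : 0 ≤ Y ^ (e₀ / 2) := by positivity
  have h4 : ((c₁ ^ (e₀ / 2) * Real.exp M) * Y ^ (e₀ / 2)) ^ 2 ≤ E0 ^ 2 := by
    rw [mul_pow, sq E0]
    exact mul_le_mul hbig h1 (by positivity) h0
  have h5 := abs_le_of_sq_le_sq h4 h0
  have h6 := (le_abs_self _).trans h5
  calc c₁ ^ (e₀ / 2) * Y ^ (e₀ / 2) * Real.exp M =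
        (c₁ ^ (e₀ / 2) * Real.exp M) * Y ^ (e₀ / 2) := by ring
    _ ≤ E0 := h6

lemma gap1 {p E0 K M : ℝ} (hE : 0 < E0) (hK : 0 ≤ K) (h : p * Real.exp M ≤ E0) :
    p * E0 ^ 7 * (K * (E0 ^ 23)⁻¹) * (E0 ^ 4 * E0) ^ 3 ≤ K * Real.exp (-M) := by
  have e1 : p * E0 ^ 7 * (K * (E0 ^ 23)⁻¹) * (E0 ^ 4 * E0) ^ 3 = K * (p / E0) := by
    field_simp
  rw [e1]
  refine mul_le_mul_of_nonneg_left ?_ hK
  rw [div_le_iff₀ hE, Real.exp_neg, ← div_eq_inv_mul, le_div_iff₀ (Real.exp_pos _)]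
  exact h

lemma gap2 {p E0 K M : ℝ} (hE : 0 < E0) (hK : 0 ≤ K) (h : p * Real.exp M ≤ E0) :
    p * E0 ^ 7 * (K * (E0 ^ 35)⁻¹) * (E0 ^ 8 * E0) ^ 3 ≤ K * Real.exp (-M) := by
  have e1 : p * E0 ^ 7 * (K * (E0 ^ 35)⁻¹) * (E0 ^ 8 * E0) ^ 3 = K * (p / E0) := by
    field_simp
  rw [e1]
  refine mul_le_mul_of_nonneg_left ?_ hK
  rw [div_le_iff₀ hE, Real.exp_neg, ← div_eq_inv_mul, le_div_iff₀ (Real.exp_pos _)]
  exact h

lemma gap0 {E0 K b : ℝ} (hE : 0 < E0) (hK : 0 ≤ K) (h : b ≤ E0) :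
    b * K ≤ (K * (E0 ^ 23)⁻¹) * (E0 ^ 8) ^ 3 := by
  have e1 : (K * (E0 ^ 23)⁻¹) * (E0 ^ 8) ^ 3 = E0 * K := by
    field_simp
  rw [e1]
  exact mul_le_mul_of_nonneg_right h hK

lemma mul_inv_le_self {K E : ℝ} {n : ℕ} (hK : 0 ≤ K) (hE : 1 ≤ E) : K * (E ^ n)⁻¹ ≤ K :=
  mul_le_of_le_one_right hK (inv_le_one_of_one_le₀ (one_le_pow₀ hE))

/-- `(θ L)⁻¹ ≤ lam` -/
lemma tL_le {E0 : ℝ} (h : 1 ≤ E0) : (tN E0 * E0 ^ 8)⁻¹ ≤ lN E0 := by
  have h0 : 0 < E0 := by linarith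
  have e1 : (tN E0 * E0 ^ 8)⁻¹ = E0 ^ (-6 : ℝ) := by
    unfold tN
    rw [Real.rpow_neg h0.le]
    congr 1
    rw [show (6 : ℝ) = ((6 : ℕ) : ℝ) by norm_num, Real.rpow_natCast]
    field_simp
  rw [e1]
  exact Real.rpow_le_rpow_of_exponent_le h (by norm_num)

lemma T4_nonneg {A K X Y Z E0 θ lam : ℝ} (hθ : 0 ≤ θ) (hl : 0 ≤ lam) (hK : 0 ≤ K) (hX : 0 ≤ X)
    (α : Eis → ℂ) : 0 ≤ T4 A K X Y Z E0 θ lam α := by
  have t1 : 0 ≤ EHs A K X Y Z E0 α := EHc_nonneg (fun n => Nat.cast_nonneg n) _ hK hX α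
  have t2 : 0 ≤ EHf A K X Y Z α := EHc_nonneg (fun n => by positivity) _ hK hX α
  have t3 : 0 ≤ EHt A K X Y Z E0 α := EHc_nonneg (fun n => by positivity) _ hK hX α
  have t4 : 0 ≤ EHc (fun _ => (1 : ℝ)) (fun _ => True) A K X Y Z α :=
    EHc_nonneg (fun n => zero_le_one) _ hK hX α
  have h1 := inv_nonneg.mpr hl
  unfold T4
  exact add_nonneg (add_nonneg (add_nonneg (mul_nonneg hθ t1) (mul_nonneg hl t2))
    (mul_nonneg h1 t3)) (mul_nonneg hl t4)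

lemma T4_ge_sf {A K X Y Z E0 θ lam c : ℝ} (hθ : 0 ≤ θ) (hl : 0 ≤ lam) (hK : 0 ≤ K) (hX : 0 ≤ X)
    (hc : c ≤ lam) (α : Eis → ℂ) :
    θ * EHs A K X Y Z E0 α + c * EHf A K X Y Z α ≤ T4 A K X Y Z E0 θ lam α := by
  have t2 : 0 ≤ EHf A K X Y Z α := EHc_nonneg (fun n => by positivity) _ hK hX α
  have t3 : 0 ≤ EHt A K X Y Z E0 α := EHc_nonneg (fun n => by positivity) _ hK hX α
  have t4 : 0 ≤ EHc (fun _ => (1 : ℝ)) (fun _ => True) A K X Y Z α :=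
    EHc_nonneg (fun n => zero_le_one) _ hK hX α
  have h1 := mul_le_mul_of_nonneg_right hc t2
  have h2 : 0 ≤ lam⁻¹ * EHt A K X Y Z E0 α := mul_nonneg (inv_nonneg.mpr hl) t3
  have h3 := mul_nonneg hl t4
  unfold T4
  linarith

lemma T4_ge_1 {A K X Y Z E0 θ lam c : ℝ} (hθ : 0 ≤ θ) (hl : 0 ≤ lam) (hK : 0 ≤ K) (hX : 0 ≤ X)
    (hc : c ≤ lam) (α : Eis → ℂ) :
    c * EHc (fun _ => (1 : ℝ)) (fun _ => True) A K X Y Z α ≤ T4 A K X Y Z E0 θ lam α := by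
  have t1 : 0 ≤ EHs A K X Y Z E0 α := EHc_nonneg (fun n => Nat.cast_nonneg n) _ hK hX α
  have t2 : 0 ≤ EHf A K X Y Z α := EHc_nonneg (fun n => by positivity) _ hK hX α
  have t3 : 0 ≤ EHt A K X Y Z E0 α := EHc_nonneg (fun n => by positivity) _ hK hX α
  have t4 : 0 ≤ EHc (fun _ => (1 : ℝ)) (fun _ => True) A K X Y Z α :=
    EHc_nonneg (fun n => zero_le_one) _ hK hX α
  have h1 := mul_le_mul_of_nonneg_right hc t4
  have h2 : 0 ≤ lam⁻¹ * EHt A K X Y Z E0 α := mul_nonneg (inv_nonneg.mpr hl) t3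
  have h3 := mul_nonneg hl t2
  have h4 := mul_nonneg hθ t1
  unfold T4
  linarith

lemma omr_le_one (N₀ N₁ : ℕ) (x : Eis × Eis) : ‖omr (Om N₀ N₁) x‖ ≤ 1 := by
  unfold I1146.omr
  rw [Complex.norm_real, Real.norm_of_nonneg (Om_nonneg _ _ _)]
  exact Om_le_one _ _ _

/-- numbers of the tail -/
lemma numE_num {C₁ q1 q kx T4s tp rl Rl V Nt Es X2 tiny nt sq S1 C₂ Ce : ℝ}
    (h1 : 0 ≤ C₁) (h2 : 0 ≤ C₂) (hCe : 0 ≤ Ce) (hq1 : 1 ≤ q1) (hq : 1 ≤ q) (hkx : 0 ≤ kx)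
    (hT : tp ≤ T4s) (hT0 : 0 ≤ T4s) (hrl : rl ≤ kx * (Rl * V)) (hRl : 0 ≤ Rl) (hV : 1 ≤ V)
    (hEs : 0 ≤ Es) (hNt : 0 ≤ Nt) (hX2 : 0 ≤ X2)
    (htiny0 : 0 ≤ tiny) (htiny : tiny ≤ kx * X2)
    (hnt : nt ≤ (Ce * q) * T4s + kx * (Nt * V))
    (hsq : sq ≤ (C₂ * q) * T4s + kx * (C₂ * (X2 * (q * q)) * V + Es * V))
    (hS1 : S1 ≤ C₁ * (q1 * q) * (tp + rl) + C₁ * tiny + nt) :
    sq + S1 ≤ ((C₁ * q1 + C₁ + Ce + C₂) * q) * T4s +
      kx * (((C₁ * q1 + C₁ + Ce + C₂) * (q * Rl + X2 * (q * q)) + Nt + Es) * V) := by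
  have hq0 : 0 ≤ q := by linarith
  have hV0 : 0 ≤ V := by linarith
  have hq10 : 0 ≤ q1 := by linarith
  have a1 : C₁ * (q1 * q) * (tp + rl) ≤ C₁ * (q1 * q) * (T4s + kx * (Rl * V)) :=
    mul_le_mul_of_nonneg_left (add_le_add hT hrl) (by positivity)
  have a2 : C₁ * tiny ≤ kx * (C₁ * (X2 * (q * q)) * V) := by
    have b1 : X2 ≤ X2 * (q * q) * V := by
      calc X2 = X2 * (1 * 1) * 1 := by ring
        _ ≤ X2 * (q * q) * V := by gcongr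
    calc C₁ * tiny ≤ C₁ * (kx * X2) := mul_le_mul_of_nonneg_left htiny h1
      _ ≤ C₁ * (kx * (X2 * (q * q) * V)) := by gcongr
      _ = _ := by ring
  have e1 : 0 ≤ C₁ * q * T4s + Ce * 0 := by positivity
  have e2 : 0 ≤ kx * ((C₁ + Ce + C₂) * (q * Rl) * V) := by positivity
  have e3 : 0 ≤ kx * ((C₁ * q1 + Ce) * (X2 * (q * q)) * V) := by positivity
  have tot : sq + S1 ≤ (C₂ * q) * T4s + kx * (C₂ * (X2 * (q * q)) * V + Es * V) +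
      (C₁ * (q1 * q) * (T4s + kx * (Rl * V)) + kx * (C₁ * (X2 * (q * q)) * V) +
        ((Ce * q) * T4s + kx * (Nt * V))) := by linarith
  refine tot.trans ?_
  have e4 : ((C₁ * q1 + C₁ + Ce + C₂) * q) * T4s +
      kx * (((C₁ * q1 + C₁ + Ce + C₂) * (q * Rl + X2 * (q * q)) + Nt + Es) * V) -
      ((C₂ * q) * T4s + kx * (C₂ * (X2 * (q * q)) * V + Es * V) +
      (C₁ * (q1 * q) * (T4s + kx * (Rl * V)) + kx * (C₁ * (X2 * (q * q)) * V) +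
        ((Ce * q) * T4s + kx * (Nt * V)))) =
      (C₁ * q * T4s + Ce * 0) + kx * ((C₁ + Ce + C₂) * (q * Rl) * V) +
        kx * ((C₁ * q1 + Ce) * (X2 * (q * q)) * V) := by ring
  linarith

set_option maxHeartbeats 1000000 in
/-- **the tail from the `l`-terms, the near-top terms and the second scale** -/
theorem numE_of {w : ℝ → ℝ} (hw : Wgt w) (hw0 : ∀ x, 0 ≤ w x) {N : ℕ} {M : ℝ} {F : ℕ → ℝ → ℂ}
    (hD : WD w N M F) {Cw R ε e₀ Ce : ℝ} {Aw J : ℕ} (hCw : 0 ≤ Cw) (hR : 0 ≤ R) (hε : 0 < ε)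
    (he₀ : 0 < e₀) (hCe : 0 ≤ Ce) (hJA : J + 2 ≤ Aw) : ∃ C c₀ : ℝ, 0 ≤ C ∧ 1 ≤ c₀ ∧
    ∀ (K X Y D E0 η : ℝ) (N₀ N₁ I : ℕ), 1 ≤ X → X ≤ Y → K ≤ Y → c₀ ≤ E0 → E0 ≤ Y → 0 ≤ D →
    D ≤ Y → (N₁ : ℝ) ≤ Y → Y ^ e₀ ≤ E0 → E0 ^ 60 ≤ K → 1 ≤ N₀ → N₀ ≤ N₁ → (N₁ : ℝ) < 2 ^ I →
    0 < η → η ≤ 1 → ∀ α : Eis → ℂ, (∀ n, α n ≠ 0 → n ∈ S Y) →
    (∀ n, α n ≠ 0 → |Real.log (nm n) - Real.log X| ≤ R) → (∀ n, ‖α n‖ ≤ Y ^ ε) →
    ∀ Rl Nt Es : ℝ, 0 ≤ Rl → 0 ≤ Nt → 0 ≤ Es →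
    NumL N M F Cw η Aw K X R J D E0 (tN E0) (hN E0) (E0 ^ 8) N₁ I (XN N K) α Rl →
    NumN N M F Cw η Aw K X Y R J D E0 (tN E0) (lN E0) (hN E0) (E0 ^ 8) (E0 ^ 4) (K1N K E0)
      (K2N K E0) N₀ N₁ (J + 2) (Ce * Y ^ ε) α Nt →
    (X ^ 2 * E0 ^ 20 ≤ K * N₀ ∨
      NumS w (fun _ => Qc (K1N K E0)) Cw η Aw K X R J (hN E0) α Es) →
    NumE w N M F (fun _ => Qc (K1N K E0)) Cw η Aw K X Y R J D E0 (tN E0) (lN E0) (hN E0) N₀ N₁
      (J + 2) (C * Y ^ ε) α (C * (Y ^ ε * Rl + X ^ 2 * (Y ^ ε * Y ^ ε)) + Nt + Es) := by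
  obtain ⟨C₁, hC₁, H₁⟩ := et_le hD (R := 1) zero_le_one (A := J + 2) (by omega) (ε := ε)
    (e₁ := e₀ / 2) (B := 1 + ε) hε (by linarith) (by linarith)
  obtain ⟨C₂, hC₂, H₂⟩ := secS hw hw0 (Cw := Cw) (R := R) (ε := ε) (e₃ := 13 * e₀) (a := 2 + ε)
    (Aw := Aw) (J := J) hCw hR hε (by linarith) (by linarith) hJA
  have hiA := iA_nonneg Aw
  obtain ⟨c₁, hc₁⟩ : ∃ c₁ : ℝ, c₁ = Real.exp (2 + N) + Cw * iA Aw + 1 := ⟨_, rfl⟩
  have hex : 0 < Real.exp (2 + (N : ℝ)) := Real.exp_pos _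
  have hCi : 0 ≤ Cw * iA Aw := mul_nonneg hCw hiA
  have hc₁1 : 1 ≤ c₁ := by rw [hc₁]; linarith
  refine ⟨C₁ * c₁ ^ ε + C₁ + Ce + C₂, max (max (Real.exp (2 + N)) 16)
    ((c₁ ^ (e₀ / 2) * Real.exp M) ^ 2), by positivity,
    le_max_of_le_left (le_max_of_le_right (by norm_num)), ?_⟩
  intro K X Y D E0 η N₀ N₁ I hX hXY hKY hcE hE0Y hD0 hDY hN₁Y hYE hEK hN₀ hN₀₁ hI hη hη1 α hα hαR
    hαn Rl Nt Es hRl hNt hEs hNL hNN hroom p hp t X' φ hX' hXX hφ hφs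
  have k1 : Real.exp (2 + N) ≤ E0 := ((le_max_left _ _).trans (le_max_left _ _)).trans hcE
  have k2 : 16 ≤ E0 := ((le_max_right _ _).trans (le_max_left _ _)).trans hcE
  have k3 : (c₁ ^ (e₀ / 2) * Real.exp M) ^ 2 ≤ E0 := (le_max_right _ _).trans hcE
  have hE1 : 1 ≤ E0 := by linarith
  have hE0 : 0 < E0 := by linarith
  have hY : 1 ≤ Y := by linarith
  have hY0 : 0 < Y := by linarith
  have hX0 : 0 < X := by linarith
  have hK1 : 1 ≤ K := (one_le_pow₀ hE1).trans hEK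
  have hK : 0 < K := by linarith
  have hN1 : (1 : ℝ) ≤ N₁ := by exact_mod_cast hN₀.trans hN₀₁
  have hN10 : (0 : ℝ) < N₁ := by linarith
  have hp8 : ∀ m : ℕ, m ≤ 60 → E0 ^ m ≤ Y := fun m hm =>
    ((pow_le_pow_right₀ hE1 hm).trans hEK).trans hKY
  have hYP : Y ≤ c₁ * Y := le_mul_of_one_le_left hY0.le hc₁1
  have hP : 1 ≤ c₁ * Y := hY.trans hYP
  have hP0 : 0 < c₁ * Y := by linarith
  have hq : 1 ≤ Y ^ ε := Real.one_le_rpow hY hε.le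
  have hadm : Adm Y X' 1 (fun n => bt φ α p n * pw t (nm n)) :=
    adm_mono hη1 (RGw813.adm_bt hφs hα p t)
  have hFS := RGw813.FS_of_S hY0.le hα
  have hβB : ∀ n, ‖(fun n => bt φ α p n * pw t (nm n)) n‖ ≤ (c₁ * Y) ^ (1 + ε) := by
    intro n
    have b1 := norm_bt_le hφ hη (by omega) hFS p t n
    have b2 : (Cw * iA Aw) * ‖α n‖ ≤ c₁ * Y ^ ε :=
      mul_le_mul (by rw [hc₁]; linarith) (hαn n) (norm_nonneg _) (by linarith)
    have b3 : c₁ * Y ^ ε ≤ (c₁ * Y) ^ (1 + ε) := by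
      rw [Real.rpow_add hP0, Real.rpow_one]
      have b4 : Y ^ ε ≤ (c₁ * Y) ^ ε := Real.rpow_le_rpow hY0.le hYP hε.le
      have b5 : c₁ ≤ c₁ * Y := le_mul_of_one_le_right (by linarith) hY
      exact mul_le_mul b5 b4 (by positivity) hP0.le
    exact b1.trans (b2.trans b3)
  have hXP : ((XN N K : ℕ) : ℝ) ≤ c₁ * Y := by
    unfold XN
    have b1 : ((⌈Real.exp (2 + N) * K⌉₊ : ℕ) : ℝ) < Real.exp (2 + N) * K + 1 :=
      Nat.ceil_lt_add_one (by positivity)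
    have b2 : Real.exp (2 + N) * K ≤ Real.exp (2 + N) * Y := mul_le_mul_of_nonneg_left hKY hex.le
    have b3 : 0 ≤ Cw * iA Aw * Y := by positivity
    calc ((⌈Real.exp (2 + N) * K⌉₊ : ℕ) : ℝ) ≤ Real.exp (2 + N) * Y + Cw * iA Aw * Y + Y := by
          linarith
      _ = c₁ * Y := by rw [hc₁]; ring
  have hKX : Real.exp (2 + N) * K ≤ ((XN N K : ℕ) : ℝ) := Nat.le_ceil _
  have hgap := gapP (e₀ := e₀) (M := M) (c₁ := c₁) (Y := Y) (E0 := E0) (by linarith) hY0.le hYE k3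
  have r1 := hNL p hp t X' φ hX' hXX hφ hφs
  have r2 := hNN p hp t X' φ hX' hXX hφ hφs
  have hXX2 : X ≤ Y ^ (2 + ε) := by
    refine hXY.trans ?_
    calc Y = Y ^ (1 : ℝ) := (Real.rpow_one Y).symm
      _ ≤ Y ^ (2 + ε) := Real.rpow_le_rpow_of_exponent_le hY (by linarith)
  -- the second scale
  have hsec : Real.exp (hN E0 / 3) * SqQ w (K * Real.exp (-hN E0)) (Qc (K1N K E0))
      (fun n => bt φ α p n * pw t (nm n)) ≤
      (C₂ * Y ^ ε) * ((K / X') * T4 ((J + 2 : ℕ) : ℝ) K X' Y N₁ E0 (tN E0) (lN E0)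
        (fun n => bt φ α p n * pw t (nm n))) +
      (K / X) * (C₂ * (X ^ 2 * (Y ^ ε * Y ^ ε)) * (1 + |t|) ^ J + Es * (1 + |t|) ^ J) := by
    have hKX0 : 0 ≤ K / X := by positivity
    have hT0 : 0 ≤ T4 ((J + 2 : ℕ) : ℝ) K X' Y N₁ E0 (tN E0) (lN E0)
        (fun n => bt φ α p n * pw t (nm n)) :=
      T4_nonneg (tN_pos hE1).le (lN_pos hE1).le hK.le hX'.le _
    rcases hroom with hroom | hroom
    · have q1 := SqQ_le hw hw0 (K := K * Real.exp (-hN E0)) (by positivity) (Qc (K1N K E0))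
        (fun n => bt φ α p n * pw t (nm n))
      have hKe : K * Real.exp (-hN E0) = K * (E0 ^ 7)⁻¹ := by rw [exp_hNn hE1]
      have hKe1 : 1 ≤ K * (E0 ^ 7)⁻¹ := by
        rw [← div_eq_mul_inv, le_div_iff₀ (by positivity), one_mul]
        exact (pow_le_pow_right₀ hE1 (by norm_num : 7 ≤ 60)).trans hEK
      have hYa : Y ^ (-(2 + ε)) ≤ K * Real.exp (-hN E0) := by
        rw [hKe]
        exact (Real.rpow_le_one_of_one_le_of_nonpos hY (by linarith)).trans hKe1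
      have h13 : Y ^ (13 * e₀) ≤ E0 ^ 13 := by
        calc Y ^ (13 * e₀) = (Y ^ e₀) ^ 13 := by
              rw [← Real.rpow_natCast, ← Real.rpow_mul hY0.le]
              congr 1
              push_cast
              ring
          _ ≤ E0 ^ 13 := pow_le_pow_left₀ (by positivity) hYE _
      have hr : X ^ 2 * Y ^ (13 * e₀) ≤ K * Real.exp (-hN E0) * N₁ := by
        rw [hKe]
        have b1 : X ^ 2 * E0 ^ 20 ≤ K * N₁ :=
          hroom.trans (mul_le_mul_of_nonneg_left (by exact_mod_cast hN₀₁) hK.le)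
        have b2 : X ^ 2 * E0 ^ 13 = X ^ 2 * E0 ^ 20 * (E0 ^ 7)⁻¹ := by
          field_simp
        calc X ^ 2 * Y ^ (13 * e₀) ≤ X ^ 2 * E0 ^ 13 :=
              mul_le_mul_of_nonneg_left h13 (by positivity)
          _ = X ^ 2 * E0 ^ 20 * (E0 ^ 7)⁻¹ := b2
          _ ≤ K * N₁ * (E0 ^ 7)⁻¹ := mul_le_mul_of_nonneg_right b1 (by positivity)
          _ = _ := by ring
      have hαs : ∑ n ∈ S Y, ‖α n‖ ≤ Y ^ (2 + ε) := by
        have b1 : ∑ n ∈ S Y, ‖α n‖ ≤ ((S Y).card : ℝ) * Y ^ ε := by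
          rw [← nsmul_eq_mul]
          exact Finset.sum_le_card_nsmul _ _ _ fun n _ => hαn n
        have b2 := GLS106.card_S_le hY
        have b3 : (16 : ℝ) ≤ Y := k2.trans hE0Y
        calc ∑ n ∈ S Y, ‖α n‖ ≤ ((S Y).card : ℝ) * Y ^ ε := b1
          _ ≤ (Y * Y) * Y ^ ε := by
              refine mul_le_mul_of_nonneg_right (b2.trans ?_) (by positivity)
              exact mul_le_mul_of_nonneg_right b3 hY0.le
          _ = Y ^ (2 + ε) := by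
              rw [Real.rpow_add hY0, Real.rpow_two]
              ring
      have q2 := H₂ K X Y (hN E0) η N₁ hK hX hY hXX2 hYa hN10 hr (hN_nonneg hE1) hη hη1 α hα hαR
        hαn hαs p t X' φ hX' hXX hφ hφs
      have q3 := T4_ge_1 (A := ((J + 2 : ℕ) : ℝ)) (K := K) (X := X') (Y := Y) (Z := N₁) (E0 := E0)
        (tN_pos hE1).le (lN_pos hE1).le hK.le hX'.le ((exp_hNm hE1).trans (tN_le_lN hE1))
        (fun n => bt φ α p n * pw t (nm n))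
      have q4 : C₂ * Y ^ ε * ((K / X') * (Real.exp (-(hN E0 / 3)) *
          EHc (fun _ => (1 : ℝ)) (fun _ => True) ((J + 2 : ℕ) : ℝ) K X' Y N₁
            (fun n => bt φ α p n * pw t (nm n)))) ≤
          (C₂ * Y ^ ε) * ((K / X') * T4 ((J + 2 : ℕ) : ℝ) K X' Y N₁ E0 (tN E0) (lN E0)
            (fun n => bt φ α p n * pw t (nm n))) :=
        mul_le_mul_of_nonneg_left (mul_le_mul_of_nonneg_left q3 (by positivity)) (by positivity)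
      have q5 := mul_le_mul_of_nonneg_left q1 (Real.exp_pos (hN E0 / 3)).le
      have q6 : 0 ≤ (K / X) * (Es * (1 + |t|) ^ J) := by positivity
      calc _ ≤ _ := q5
        _ ≤ _ := q2
        _ ≤ _ := by
          rw [mul_add (K / X)]
          linarith
    · have q1 := hroom p hp t X' φ hX' hXX hφ hφs
      refine q1.trans ?_
      have q2 : 0 ≤ (C₂ * Y ^ ε) * ((K / X') * T4 ((J + 2 : ℕ) : ℝ) K X' Y N₁ E0 (tN E0) (lN E0)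
        (fun n => bt φ α p n * pw t (nm n))) :=
        mul_nonneg (by positivity) (mul_nonneg (by positivity) hT0)
      have q3 : 0 ≤ (K / X) * (C₂ * (X ^ 2 * (Y ^ ε * Y ^ ε)) * (1 + |t|) ^ J) := by positivity
      rw [mul_add (K / X)]
      linarith
  clear hNL hNN hroom
  generalize (fun n => bt φ α p n * pw t (nm n)) = β at hadm hβB r1 r2 hsec ⊢
  have e1 := H₁ (c₁ * Y) K X' Y D (1 / 10) N₁ E0 (E0 ^ 8) (E0 ^ 4) (K1N K E0) (K2N K E0) (tN E0)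
    (hN E0) I (XN N K) hP hXP hKX hK hX' hY hYP hD0 (hDY.trans hYP) hN10 (hN₁Y.trans hYP) hI
    hE0.le hE0Y (by positivity) ((hp8 8 (by norm_num)).trans hYP) (by positivity)
    ((hp8 4 (by norm_num)).trans hYP) (by unfold K1N; positivity)
    ((mul_inv_le_self hK.le hE1).trans (hKY.trans hYP)) (by unfold K2N; positivity)
    ((mul_inv_le_self hK.le hE1).trans (hKY.trans hYP)) (tN_pos hE1) (hN_nonneg hE1)
    (by rw [exp_hN1 hE1]; exact (hp8 7 (by norm_num)).trans hYP)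
    (gap0 hE0 hK.le k1)
    (by rw [exp_hN1 hE1]; exact gap1 hE0 hK.le hgap)
    (by rw [exp_hN1 hE1]; exact gap2 hE0 hK.le hgap)
    β hadm hβB (omr (Om N₀ N₁)) (omr_le_one N₀ N₁)
  obtain ⟨V, hV⟩ : ∃ V : ℝ, V = (1 + |t|) ^ J := ⟨_, rfl⟩
  rw [← hV] at r1 r2 hsec ⊢
  have hV1 : 1 ≤ V := by rw [hV]; exact one_le_pow₀ (by linarith [abs_nonneg t])
  have hKX0 : 0 ≤ K / X := by positivity
  have hKX' : 0 ≤ K / X' := by positivity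
  have hT0 : 0 ≤ T4 ((J + 2 : ℕ) : ℝ) K X' Y N₁ E0 (tN E0) (lN E0) β :=
    T4_nonneg (tN_pos hE1).le (lN_pos hE1).le hK.le hX'.le β
  have hTT : (K / X') * (tN E0 * EHs ((J + 2 : ℕ) : ℝ) K X' Y N₁ E0 β +
      (tN E0 * E0 ^ 8)⁻¹ * EHf ((J + 2 : ℕ) : ℝ) K X' Y N₁ β) ≤
      (K / X') * T4 ((J + 2 : ℕ) : ℝ) K X' Y N₁ E0 (tN E0) (lN E0) β :=
    mul_le_mul_of_nonneg_left (T4_ge_sf (tN_pos hE1).le (lN_pos hE1).le hK.le hX'.le (tL_le hE1) β)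
      hKX'
  have htiny : (c₁ * Y) ^ (-(1 + ε)) ≤ (K / X) * X ^ 2 := by
    have b1 : (c₁ * Y) ^ (-(1 + ε)) ≤ 1 :=
      Real.rpow_le_one_of_one_le_of_nonpos hP (by linarith)
    have b2 : (K / X) * X ^ 2 = K * X := by field_simp
    rw [b2]
    exact b1.trans (one_le_mul_of_one_le_of_one_le hK1 hX)
  rw [Real.mul_rpow (by linarith) hY0.le] at e1
  have fin := numE_num (C₁ := C₁) (q1 := c₁ ^ ε) (q := Y ^ ε) (kx := K / X)
    (T4s := (K / X') * T4 ((J + 2 : ℕ) : ℝ) K X' Y N₁ E0 (tN E0) (lN E0) β)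
    (tp := (K / X') * (tN E0 * EHs ((J + 2 : ℕ) : ℝ) K X' Y N₁ E0 β +
      (tN E0 * E0 ^ 8)⁻¹ * EHf ((J + 2 : ℕ) : ℝ) K X' Y N₁ β))
    (Rl := Rl) (V := V) (Nt := Nt) (Es := Es) (X2 := X ^ 2) (C₂ := C₂) (Ce := Ce)
    hC₁ hC₂ hCe (Real.one_le_rpow hc₁1 hε.le) hq hKX0 hTT (mul_nonneg hKX' hT0) r1 hRl hV1 hEs hNt
    (by positivity) (by positivity) htiny r2 hsec e1
  exact fin

end Crest.Agent.R017.LBx48
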