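import Crest.Agent.R017.LBn_48

/-!
# Row 17, C.REMg (LB) (helper180): the trivial bound (small `E0`) and the size conditions

* `XJw_le_s` : the weighted main form is `≤ HS · M2s`
* `lb_triv` : **(LB) with error `X² + Ma + Ml`**, no hypothesis on the sizes (covers bounded `E0`)
-/

set_option autoImplicit false
set_option linter.unusedVariables false

noncomputable section

open Complex MeasureTheory
open scoped ComplexConjugate Classical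

namespace Crest.Agent.R017.LBt180

open Crest.Agent.R012 Crest.Agent.R012.Eis Crest.Agent.R012.MC
open Crest.Agent.R012.LS2 (S mem_S)
open Crest.Agent.R012.Mob705 (kap0 pdiv)
open Crest.Agent.R012.Div277 (tau)
open Crest.Agent.R012.Weight600 (osc pw)
open Crest.Agent.R017.CM106 (CS FS TG)
open Crest.Agent.R017.E1551 (Adm SqP cP tws sg JB yv XJw XT XJ_eq_XT)
open Crest.Agent.R017.C70 (JW JC OKJ okJ_JW XJ)
open Crest.Agent.R017.E2440 (TE)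
open Crest.Agent.R017.X6C180 (n13 n13_nonneg)
open Crest.Agent.R017.LBx48 (EHs EHt EHf EHc_nonneg LBnq adm_mono)
open Crest.Agent.R017.EHu320 (EHc)
open Crest.Agent.R017.I1146 (c3 px)
open Crest.Agent.R017.DgB829 (HS HS_nonneg HS_le)
open Crest.Agent.R017.LBX180 (M2s M2s_nonneg M2s_le XJ_le_s)
open Crest.Agent.R017.LBu180 (SqQ)
open Crest.Agent.R017.LBW180 (SqQ_nonneg)
open Crest.Agent.R017.Win813 (WK)
open Crest.Agent.R017.RGw813 (T9 bt)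
open Crest.Agent.R017.Rough381 (VF)

lemma okJ_single {J : Finset (Eis × Eis)} (hJ : OKJ J) {x : Eis × Eis} (hx : x ∈ J) :
    OKJ {x} where
  prim := fun y hy => by rw [Finset.mem_singleton.1 hy]; exact hJ.prim x hx
  sqf := fun y hy => by rw [Finset.mem_singleton.1 hy]; exact hJ.sqf x hx
  jc := fun y hy => by rw [Finset.mem_singleton.1 hy]; exact hJ.jc x hx

/-- **the weighted main form** -/
theorem XJw_le_s {Y : ℝ} (hY : 0 ≤ Y) {α : Eis → ℂ} (hα : ∀ n, α n ≠ 0 → n ∈ S Y)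
    {J : Finset (Eis × Eis)} (hJ : OKJ J) {ρ : ℕ → ℝ} (hρ : ∀ n, |ρ n| ≤ 1) :
    ‖XJw ρ J α‖ ≤ HS Y * M2s Y J α := by
  unfold E1551.XJw
  refine (norm_sum_le _ _).trans ?_
  unfold LBX180.M2s
  rw [Finset.mul_sum]
  refine Finset.sum_le_sum fun x hx => ?_
  have h1 := XJ_le_s hY hα (okJ_single hJ hx)
  rw [XJ_eq_XT, Finset.sum_singleton] at h1
  unfold LBX180.M2s at h1
  rw [Finset.sum_singleton] at h1
  rw [norm_mul, Complex.norm_real, Real.norm_eq_abs]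
  calc |ρ (nm (x.2 * x.1 ^ 2))| * ‖XT α x‖ ≤ 1 * ‖XT α x‖ :=
        mul_le_mul_of_nonneg_right (hρ _) (norm_nonneg _)
    _ = ‖XT α x‖ := one_mul _
    _ ≤ _ := h1

lemma rho_abs (N₀ N₁ n : ℕ) : |LBo813.rho N₀ N₁ n| ≤ 1 := by
  have h1 := LBo813.Om_nonneg N₀ N₁ n
  have h2 := LBo813.Om_le_one N₀ N₁ n
  unfold LBo813.rho
  rw [abs_le]
  constructor <;> nlinarith

/-- numbers -/
lemma triv_num {a b H q x m V kx : ℝ} (ha : 0 ≤ a) (hb : 0 ≤ b) (hH : 1 ≤ H) (hq : 0 ≤ q)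
    (hx : 0 ≤ x) (hm : 0 ≤ m) (hV : 1 ≤ V) (hkx : 0 ≤ kx) :
    a * (kx * (x * q ^ 2)) + kx * ((b * H * (q * q) * m) * V) ≤
      kx * (((a + b) * H * (q * q) * (x + m)) * V) := by
  have h1 : a * (kx * (x * q ^ 2)) ≤ kx * ((a * H * (q * q) * x) * V) := by
    calc a * (kx * (x * q ^ 2)) = 1 * (kx * (a * (q * q) * x)) * 1 := by ring
      _ ≤ H * (kx * (a * (q * q) * x)) * V :=
          mul_le_mul (mul_le_mul_of_nonneg_right hH (by positivity)) hV zero_le_one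
            (by positivity)
      _ = _ := by ring
  have b1 : 0 ≤ kx * ((a * H * (q * q) * m) * V) := by positivity
  have b2 : 0 ≤ kx * ((b * H * (q * q) * x) * V) := by positivity
  have e1 : kx * (((a + b) * H * (q * q) * (x + m)) * V) =
      kx * ((a * H * (q * q) * x) * V) + kx * ((b * H * (q * q) * m) * V) +
        kx * ((a * H * (q * q) * m) * V) + kx * ((b * H * (q * q) * x) * V) := by ring
  linarith

/-- **the trivial bound** -/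
theorem lb_triv {w : ℝ → ℝ} (hw : Wgt w) (hw0 : ∀ x, 0 ≤ w x) {Cw R ε : ℝ} {Aw J : ℕ}
    (hCw : 0 ≤ Cw) (hR : 0 ≤ R) (hε : 0 < ε) (hJA : J + 2 ≤ Aw) : ∃ C : ℝ, 0 ≤ C ∧
    ∀ (K X Y D G₀ η : ℝ) (N₁ : ℕ) (ρ : ℕ → ℝ), 0 < K → 0 < X → 1 ≤ Y → (N₁ : ℝ) ≤ Y → 0 < η →
    η ≤ 1 → (∀ n, |ρ n| ≤ 1) → ∀ α : Eis → ℂ, (∀ n, α n ≠ 0 → n ∈ S Y) →
    (∀ n, α n ≠ 0 → |Real.log (nm n) - Real.log X| ≤ R) → (∀ n, ‖α n‖ ≤ Y ^ ε) →
    ∀ Ma Ml : ℝ, 0 ≤ Ma → 0 ≤ Ml →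
    (∀ g ∈ S Y, (nm g : ℝ) ≤ G₀ → ∀ V : ℝ, 1 ≤ V → V ≤ 9 * N₁ * nm g → ∀ t : ℝ,
      VF V (tws (sg α g) t) ≤
        Ma / (nm g : ℝ) ^ 2 * ((V * K / (X / nm g) ^ 2) ^ (1 / 3 : ℝ)) * (1 + |t|) ^ J) →
    (∀ g ∈ S Y, ∀ B V : ℝ, 1 ≤ B → B ≤ Y → 1 ≤ V → V ≤ 9 * N₁ / (nm g : ℝ) ^ 2 → ∀ t : ℝ,
      E1551.JB Y α (fun U => G₀ < nm (g * U)) g B V t ≤
        Ml / (nm g : ℝ) ^ 2 * yv K X g V * (1 + |t|) ^ J) →
    ∀ Q : ℕ × ℕ → Eis → Prop,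
    LBnq w Q Cw η Aw K X Y D N₁ ρ R J α
      (C * (η⁻¹) ^ J * (Y ^ ε * Y ^ ε) * (X ^ 2 + (Ma + Ml))) := by
  obtain ⟨C₂, hC₂, H₂⟩ := LBT381.lbt_all4 (J := J) (Aw := Aw) (A := J + 2) le_rfl hJA hR hCw hε
  obtain ⟨CD, hCD, HD⟩ := LBo813.Dg_bt_le w Aw (by omega) Cw
  obtain ⟨C₃, hC₃, H₃⟩ := M2s_le 1 zero_le_one (J + 2) (by omega)
  obtain ⟨C₅, hC₅, H₅⟩ := PInv255.one_add_log_pow_le 1 ε hε
  have hcP : 0 ≤ 2 * cP w := by
    rw [Cst401.two_cP hw]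
    have := Cst401.kap0_pos
    have := Cst401.mel_nonneg hw0
    positivity
  set C₆ : ℝ := 2 * cP w * (200 * C₅ * C₃) with hC₆
  have hC60 : 0 ≤ C₆ := by rw [hC₆]; positivity
  refine ⟨CD * Real.exp R + C₆ * (C₂ * 9 ^ ε), by positivity, ?_⟩
  intro K X Y D G₀ η N₁ ρ hK hX hY hNY hη hη1 hρ α hα hαR hαn Ma Ml hMa hMl hSA hL Q
    p hp t X' φ hX' hXX hφ hφs
  have hY0 : 0 < Y := by linarith
  have hq : 1 ≤ Y ^ ε := Real.one_le_rpow hY hε.le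
  have hN0 : (0 : ℝ) ≤ N₁ := Nat.cast_nonneg _
  have hadm : Adm Y X' 1 (fun n => bt φ α p n * pw t (nm n)) :=
    adm_mono hη1 (RGw813.adm_bt hφs hα p t)
  have s2 := H₂ (9 * Y) K X X' Y η N₁ G₀ Ma Ml 1 0 1 0 0 α (by linarith) hK hX hX' hXX hY
    (by linarith) hN0 (by linarith) hη hη1 hMa hMl one_pos le_rfl zero_le_one le_rfl
    le_rfl hα hSA hL p hp φ hφ t
  have s3 := HD K X X' Y R (Y ^ ε) η hK.le hX hY0.le (by linarith) hη hη1 hX' hXX α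
    (RGw813.FS_of_S hY0.le hα) hα hαR (fun n _ => hαn n) φ hφ p t
  clear hSA hL
  generalize (fun n => bt φ α p n * pw t (nm n)) = β at hadm s2 s3 ⊢
  obtain ⟨V, hV⟩ : ∃ V : ℝ, V = (1 + |t|) ^ J := ⟨_, rfl⟩
  rw [← hV] at s2 ⊢
  have hV1 : 1 ≤ V := by rw [hV]; exact one_le_pow₀ (by linarith [abs_nonneg t])
  have hKX : 0 ≤ K / X := by positivity
  have hKX' : 0 ≤ K / X' := by positivity
  have hHj : 1 ≤ (η⁻¹) ^ J := one_le_pow₀ ((one_le_inv₀ hη).mpr hη1)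
  have hE : 0 ≤ EHf ((J + 2 : ℕ) : ℝ) K X' Y N₁ β :=
    EHc_nonneg (fun n => by positivity) _ hK.le hX'.le β
  have s2' : (K / X') * EHf ((J + 2 : ℕ) : ℝ) K X' Y N₁ β ≤
      (K / X) * (C₂ * (η⁻¹) ^ J * (9 ^ ε * Y ^ ε) * (Ma + Ml) * V) := by
    rw [← Real.mul_rpow (by norm_num) hY0.le]
    refine le_trans (le_of_eq ?_) (s2.trans (le_of_eq ?_))
    · ring
    · ring
  have hlog := Real.log_nonneg hY
  have hL5 : 1 + Real.log Y ≤ C₅ * Y ^ ε := by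
    have := H₅ Y hY
    rwa [pow_one] at this
  have d1 := XJw_le_s hY0.le hadm.sup (okJ_JW D (1 / 10) (N₁ : ℝ)) hρ
  have d2 := H₃ Y X' K D (1 / 10) N₁ hY hX' hK β hadm
  have d3 := HS_le hY
  have d4 := M2s_nonneg Y (JW D (1 / 10) (N₁ : ℝ)) β
  have d5 := HS_nonneg Y
  have d6 : HS Y ≤ 200 * (C₅ * Y ^ ε) := by linarith
  have hre : (XJw ρ (JW D (1 / 10) (N₁ : ℝ)) β).re ≤
      HS Y * M2s Y (JW D (1 / 10) (N₁ : ℝ)) β := (Complex.re_le_norm _).trans d1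
  have m1 : 2 * cP w * K ^ (2 / 3 : ℝ) * (XJw ρ (JW D (1 / 10) (N₁ : ℝ)) β).re ≤
      C₆ * Y ^ ε * ((K / X') * EHf ((J + 2 : ℕ) : ℝ) K X' Y N₁ β) := by
    calc 2 * cP w * K ^ (2 / 3 : ℝ) * (XJw ρ (JW D (1 / 10) (N₁ : ℝ)) β).re ≤
          2 * cP w * K ^ (2 / 3 : ℝ) * (HS Y * M2s Y (JW D (1 / 10) (N₁ : ℝ)) β) :=
          mul_le_mul_of_nonneg_left hre (by positivity)
      _ = 2 * cP w * (HS Y * (K ^ (2 / 3 : ℝ) * M2s Y (JW D (1 / 10) (N₁ : ℝ)) β)) := by ring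
      _ ≤ 2 * cP w * ((200 * (C₅ * Y ^ ε)) *
            (C₃ * (K / X') * EHf ((J + 2 : ℕ) : ℝ) K X' Y N₁ β)) := by
          refine mul_le_mul_of_nonneg_left ?_ hcP
          exact mul_le_mul d6 d2 (by positivity) (by positivity)
      _ = _ := by rw [hC₆]; ring
  have m2 : C₆ * Y ^ ε * ((K / X') * EHf ((J + 2 : ℕ) : ℝ) K X' Y N₁ β) ≤
      (K / X) * (((C₆ * (C₂ * 9 ^ ε)) * (η⁻¹) ^ J * (Y ^ ε * Y ^ ε) * (Ma + Ml)) * V) := by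
    refine (mul_le_mul_of_nonneg_left s2' (by positivity)).trans (le_of_eq ?_)
    ring
  have hsq : 0 ≤ SqQ w K (Q p) β := SqQ_nonneg hw0 K (Q p) β
  have m3 := triv_num (a := CD * Real.exp R) (b := C₆ * (C₂ * 9 ^ ε)) (H := (η⁻¹) ^ J)
    (q := Y ^ ε) (x := X ^ 2) (m := Ma + Ml) (V := V) (kx := K / X) (by positivity) (by positivity)
    hHj (by linarith) (by positivity) (by linarith) hV1 hKX
  linarith

end Crest.Agent.R017.LBt180
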