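import Crest.Agent.R017.LBu_180

/-!
# Row 17, C.REMg (LB), part u (helper180): the lower bound with a cross weight `u`, `|u| ≤ w`,
# and a cut `Q`; the exceptional class

* `LBzu` : `κ² (2 cP K^(2/3) XJw ρ) - SqQ ≤ C P^ε ((K/X) (θ EHs + θ⁻¹ EHt) + e₂ + OFF)`, one
  hypothesis on the kept `k`
* `LBz1` : `u = w`
-/

set_option autoImplicit false
set_option linter.unusedVariables false

noncomputable section

open Complex MeasureTheory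
open scoped ComplexConjugate Classical

namespace Crest.Agent.R017.LBu180

open Crest.Agent.R012 Crest.Agent.R012.Eis Crest.Agent.R012.MC
open Crest.Agent.R012.LS2 (S mem_S)
open Crest.Agent.R012.Mob705 (pdiv kap0)
open Crest.Agent.R012.Div277 (tau)
open Crest.Agent.R017.PX764 (Gh n6)
open Crest.Agent.R017.X6C180 (n13 GF)
open Crest.Agent.R017.CM106 (CS TG FS)
open Crest.Agent.R017.E1551 hiding tau Dg
open Crest.Agent.R017.C70 (JW JC OKJ okJ_JW)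
open Crest.Agent.R017.E2440 (TE Jb Qs prs C4 StE Fh)
open Crest.Agent.R017.EHu320 (EHc)
open Crest.Agent.R017.LB48 (CrP GrP summable_wR summable_wC)
open Crest.Agent.R017.I1146 (omr E2s c3 c3_nonneg LBw Dfw)
open Crest.Agent.R017.E3M829 (Cut Tal TC_Tal Sg gram_fin TF)
open Crest.Agent.R017.E3A164 (SteT Ys Fy)
open Crest.Agent.R017.DgB829 (HS HS_nonneg HS_le)
open Crest.Agent.R017.LBx48 hiding EHf

set_option maxHeartbeats 4000000 in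
/-- **(LB), cross weight `u`, any cut `Q`, one hypothesis on the kept `k`** -/
theorem LBzu {w : ℝ → ℝ} (hw : Wgt w) (hw0 : ∀ x, 0 ≤ w x) {u : ℝ → ℝ} (hu : ∀ x, |u x| ≤ w x)
    {κ : ℝ} (hκ : mel u (2 / 3) = κ * mel w (2 / 3)) (hκ1 : |κ| ≤ 1) {R : ℝ} (hR : 0 ≤ R) {A : ℕ}
    (hA : 2 ≤ A) {ε : ℝ} (hε : 0 < ε) : ∃ C : ℝ, 0 ≤ C ∧
    ∀ (P K X Y D Y₀ Z E0 E1 B θ : ℝ), 1 ≤ P → 0 < K → K ≤ P → 0 < X → 1 ≤ Y → Y ≤ P →
    0 ≤ D → D ≤ P → 0 < Z → Z ≤ P → 0 ≤ E0 → E0 ≤ Y → 1 ≤ B → 0 < θ → θ ≤ 1 → B⁻¹ ≤ θ →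
    (Z / K ^ 2) ^ (1 / 6 : ℝ) ≤ θ →
    ∀ α : Eis → ℂ, Adm Y X R α → ∀ Om ρ : ℕ → ℝ, (∀ n, ρ n = 2 * Om n - Om n ^ 2) →
    (∀ n, 0 ≤ Om n) → (∀ n, Om n ≤ 1) →
    ∀ Q : Eis → Prop, (∀ k, IsPrim k → w (nm k / K) ≠ 0 → Q k → Cut E1 k) →
    ∀ e₂ OFF : ℝ, 0 ≤ OFF →
    ‖CrP u K α (fun k => if Q k then StE E0 (JW D Y₀ Z) (omr Om) α k else 0) -
      ((pC * (kap0 * mel u (2 / 3) * K ^ (2 / 3 : ℝ)) : ℝ) : ℂ) *
        I1146.X2 Y E0 (JW D Y₀ Z) (omr Om) α‖ ≤ e₂ →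
    Sg w K B Z E1 (fun q t k₁ => ‖∑ y ∈ Ys (JW D Y₀ Z) E0 Z,
        Fy (JW D Y₀ Z) (omr Om) (Tal α) q t k₁ y‖ ^ 2) ≤
      Sg w K B Z E1 (fun q t k₁ => E3M829.Dg (JW D Y₀ Z) (omr Om) (Tal α) E0 Z q t k₁) + OFF →
    κ ^ 2 * (2 * cP w * K ^ (2 / 3 : ℝ) * (XJw ρ (JW D Y₀ Z) α).re) - SqQ w K Q α ≤
      C * P ^ ε * ((K / X) * (θ * EHs A K X Y Z E0 α + θ⁻¹ * EHt A K X Y Z E0 α) +
        e₂ + OFF) := by
  obtain ⟨C₂, hC₂, H₂⟩ := Dfw_le R hR A hA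
  obtain ⟨C₃, hC₃, H₃⟩ := TF_le R hR A hA
  obtain ⟨C₄, hC₄, H₄⟩ := gram_fin hw hw0 hε
  obtain ⟨C₅, hC₅, H₅⟩ := PInv255.one_add_log_pow_le 1 ε hε
  have hP := Cst401.pC_pos
  set M := |c3 w 1| with hM
  have hM0 : 0 ≤ M := abs_nonneg _
  set C := 2 * pC + pC ^ 2 * (2 * C₄ * C₃ + 1) + pC ^ 2 * M * (200 * C₅ * (3 * C₂))
    with hCdef
  refine ⟨C, by positivity, ?_⟩
  intro P K X Y D Y₀ Z E0 E1 B θ hP1 hK hKP hX hY hYP hD hDP hZ hZP hE0 hE0Y hB hθ hθ1 hBθ hKθ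
    α hα Om ρ hρ h0 h1 Q hQ e₂ OFF hOFF he₂ hoff
  obtain ⟨I, hI⟩ := pow_unbounded_of_one_lt Z (by norm_num : (1 : ℝ) < 2)
  have hY0 : 0 ≤ Y := by linarith
  have hPe : 1 ≤ P ^ ε := Real.one_le_rpow hP1 hε.le
  set J := JW D Y₀ Z with hJ
  set om := omr Om with hom
  have hom1 : ∀ x, ‖om x‖ ≤ 1 := by
    intro x
    rw [hom]
    unfold I1146.omr
    rw [Complex.norm_real, Real.norm_of_nonneg (h0 _)]
    exact h1 _
  have hJok : OKJ J := okJ_JW D Y₀ Z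
  have hJm := fun x (hx : x ∈ J) => I1146.JW_mem (Y₀ := Y₀) hD hZ hI x hx
  -- the Gram sum
  have a1 := H₄ K P Z E0 E1 B hK hP1 hKP hE0 (hE0Y.trans hYP) hZP hB J hJok
    (fun x hx => ((mem_S hD).1 (hJm x hx).1).1.trans hDP) (fun x hx => (hJm x hx).2.1) om (Tal α)
    (TC_Tal fun n hn => ((mem_S hY0).1 (hα.sup n hn)).2.2) OFF hoff
  rw [E3M829.XT_eq hE0 hE0Y] at a1
  have e1 : GrP w K (fun k => if Cut E1 k then StE E0 J om α k else 0) =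
      ∑' k : Eis, if IsPrim k ∧ Cut E1 k then
        w ((nm k : ℝ) / K) * ‖SteT J om E0 (Tal α) k‖ ^ 2 else 0 := by
    unfold LB48.GrP
    refine tsum_congr fun k => ?_
    rw [E3M829.SteT_Tal]
    beta_reduce
    by_cases h2 : IsPrim k
    · by_cases h3 : Cut E1 k
      · rw [if_pos h2, if_pos h3, if_pos ⟨h2, h3⟩]
      · rw [if_pos h2, if_neg h3, if_neg (fun h => h3 h.2)]
        simp
    · rw [if_neg h2, if_neg (fun h => h2 h.1)]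
  rw [← e1] at a1
  set TFa := TF (1 / 2) J om E0 (Tal α) with hTFa
  set TFb := TF (-1) J om E0 (Tal α) with hTFb
  have e2 : kap0 * K ^ (2 / 3 : ℝ) * E3M829.Iw w = c3 w K := by
    rw [I1146.Iw_eq]; unfold I1146.c3; ring
  rw [e2] at a1
  set e₃ := C₄ * P ^ ε * K ^ (2 / 3 : ℝ) * ((Z / K ^ 2) ^ (1 / 6 : ℝ) * TFa + B⁻¹ * TFb) + OFF
    with he₃
  have h3 : GrP w K (fun k => if Cut E1 k then StE E0 J om α k else 0) ≤
      c3 w K * (I1146.X3 Y E0 J om α).re + e₃ := by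
    rw [he₃]; linarith
  have e20 : 0 ≤ e₂ := (norm_nonneg _).trans he₂
  -- the functionals
  have s0 : 0 ≤ EHs A K X Y Z E0 α := EHc_nonneg (fun n => Nat.cast_nonneg n) _ hK.le hX.le α
  have t0 : 0 ≤ EHt A K X Y Z E0 α := EHc_nonneg (fun n => by positivity) _ hK.le hX.le α
  have hKX : 0 ≤ K / X := by positivity
  have hθi : 1 ≤ θ⁻¹ := (one_le_inv₀ hθ).mpr hθ1
  have hDf : 0 ≤ Dfw Y E0 J Om θ α := by
    unfold I1146.Dfw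
    refine Finset.sum_nonneg fun x _ => mul_nonneg (X6C180.n13_nonneg _) ?_
    have m1 := I1146.M2t_nonneg Y α x
    have m2 := I1146.M2o_nonneg Y E0 α x
    have m3 : 0 ≤ Om (nm (x.2 * x.1 ^ 2)) := h0 _
    have m4 : 0 ≤ 1 - Om (nm (x.2 * x.1 ^ 2)) := by linarith [h1 (nm (x.2 * x.1 ^ 2))]
    positivity
  have n1' : 0 ≤ TFa := E3M829.TF_nonneg _ _ _ _ _
  have n2' : 0 ≤ TFb := E3M829.TF_nonneg _ _ _ _ _
  have he30 : 0 ≤ e₃ := by rw [he₃]; positivity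
  have a2 : κ ^ 2 * (2 * cP w * K ^ (2 / 3 : ℝ) * (XJw ρ J α).re) - SqQ w K Q α ≤
      2 * pC * e₂ + pC ^ 2 * e₃ + pC ^ 2 * c3 w K * (HS Y * Dfw Y E0 J Om θ α) := by
    have hc := c3_nonneg hw0 hK
    have h3' : GrP w K (fun k => if Q k then StE E0 J om α k else 0) ≤
        c3 w K * (I1146.X3 Y E0 J om α).re + e₃ := (GrP_le hw hw0 hK hQ).trans h3
    have he₂' : ‖CrP u K α (fun k => if Q k then StE E0 J om α k else 0) -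
        ((pC * (κ * c3 w K) : ℝ) : ℂ) * I1146.X2 Y E0 J om α‖ ≤ e₂ := by
      rw [show κ * c3 w K = kap0 * mel u (2 / 3) * K ^ (2 / 3 : ℝ) by
        rw [hκ]; unfold I1146.c3; ring]
      exact he₂
    have a4 := core_lbu hw hu hK α (StE E0 J om α) Q
      (Z₁ := XJw ρ J α) (c₃ := c3 w K) hP.le he₂' h3'
    have a6 := I1146.comb_w_le hY0 hα.sup hJok E0 hρ h0 h1 hθ
    have hκ2 : κ ^ 2 ≤ 1 := by
      rw [← sq_abs]; nlinarith [abs_nonneg κ]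
    have a7 : κ ^ 2 * (pC ^ 2 * c3 w K * ((XJw ρ J α).re -
        2 * (I1146.X2 Y E0 J om α).re + (I1146.X3 Y E0 J om α).re)) ≤
        pC ^ 2 * c3 w K * (HS Y * Dfw Y E0 J Om θ α) := by
      have b1 : κ ^ 2 * (pC ^ 2 * c3 w K * ((XJw ρ J α).re -
          2 * (I1146.X2 Y E0 J om α).re + (I1146.X3 Y E0 J om α).re)) ≤
          κ ^ 2 * (pC ^ 2 * c3 w K * (HS Y * Dfw Y E0 J Om θ α)) :=
        mul_le_mul_of_nonneg_left (mul_le_mul_of_nonneg_left a6 (by positivity)) (sq_nonneg _)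
      have hH := HS_nonneg Y
      exact b1.trans (mul_le_of_le_one_left (by positivity) hκ2)
    have e1 : 2 * cP w * K ^ (2 / 3 : ℝ) * (XJw ρ J α).re =
        pC ^ 2 * c3 w K * (XJw ρ J α).re := by
      rw [Cst401.two_cP hw]
      unfold I1146.c3
      ring
    have f1 : 2 * |κ| * pC * e₂ ≤ 2 * pC * e₂ := by
      have : |κ| * (2 * pC * e₂) ≤ 1 * (2 * pC * e₂) :=
        mul_le_mul_of_nonneg_right hκ1 (by positivity)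
      linarith
    have f2 : κ ^ 2 * (pC ^ 2 * e₃) ≤ pC ^ 2 * e₃ :=
      mul_le_of_le_one_left (by positivity) hκ2
    rw [e1]
    linarith
  -- Gram errors
  have b2 : K ^ (2 / 3 : ℝ) * ((Z / K ^ 2) ^ (1 / 6 : ℝ) * TFa + B⁻¹ * TFb) ≤
      2 * C₃ * (θ * ((K / X) * EHs A K X Y Z E0 α)) := by
    have c1 := H₃ Y X K D Y₀ Z E0 hY hX hK (1 / 2) om hom1 α hα
    have c2 := H₃ Y X K D Y₀ Z E0 hY hX hK (-1) om hom1 α hα
    have d1 : EHc (fun n => (n : ℝ) ^ (1 / 2 : ℝ)) (fun e => e ∈ S E0) A K X Y Z α ≤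
        EHs A K X Y Z E0 α := EHc_le_s (fun n hn => by
      have : (1 : ℝ) ≤ n := by exact_mod_cast hn
      calc (n : ℝ) ^ (1 / 2 : ℝ) ≤ (n : ℝ) ^ (1 : ℝ) :=
            Real.rpow_le_rpow_of_exponent_le this (by norm_num)
        _ = n := Real.rpow_one _) hY0 hK.le hX.le α
    have d2 : EHc (fun n => (n : ℝ) ^ (-1 : ℝ)) (fun e => e ∈ S E0) A K X Y Z α ≤
        EHs A K X Y Z E0 α := EHc_le_s (fun n hn => by
      have : (1 : ℝ) ≤ n := by exact_mod_cast hn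
      calc (n : ℝ) ^ (-1 : ℝ) ≤ (n : ℝ) ^ (1 : ℝ) :=
            Real.rpow_le_rpow_of_exponent_le this (by norm_num)
        _ = n := Real.rpow_one _) hY0 hK.le hX.le α
    have c1' : K ^ (2 / 3 : ℝ) * TFa ≤ C₃ * (K / X) * EHs A K X Y Z E0 α :=
      c1.trans (mul_le_mul_of_nonneg_left d1 (by positivity))
    have c2' : K ^ (2 / 3 : ℝ) * TFb ≤ C₃ * (K / X) * EHs A K X Y Z E0 α :=
      c2.trans (mul_le_mul_of_nonneg_left d2 (by positivity))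
    have n1 : 0 ≤ TFa := E3M829.TF_nonneg _ _ _ _ _
    have n2 : 0 ≤ TFb := E3M829.TF_nonneg _ _ _ _ _
    have hKp : 0 ≤ K ^ (2 / 3 : ℝ) := by positivity
    calc K ^ (2 / 3 : ℝ) * ((Z / K ^ 2) ^ (1 / 6 : ℝ) * TFa + B⁻¹ * TFb) ≤
          K ^ (2 / 3 : ℝ) * (θ * TFa + θ * TFb) := by gcongr
      _ = θ * (K ^ (2 / 3 : ℝ) * TFa) + θ * (K ^ (2 / 3 : ℝ) * TFb) := by ring
      _ ≤ θ * (C₃ * (K / X) * EHs A K X Y Z E0 α) + θ * (C₃ * (K / X) * EHs A K X Y Z E0 α) := by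
          gcongr
      _ = _ := by ring
  -- the defect
  have b3 : c3 w K = c3 w 1 * K ^ (2 / 3 : ℝ) := by
    unfold I1146.c3
    rw [Real.one_rpow]; ring
  have b4 : c3 w K * (HS Y * Dfw Y E0 J Om θ α) ≤ M * (200 * C₅ * P ^ ε * (3 * C₂ * ((K / X) *
      (θ * EHs A K X Y Z E0 α + θ⁻¹ * EHt A K X Y Z E0 α)))) := by
    have c1 := H₂ Y X K D Y₀ Z E0 θ hY hX hK hθ Om h0 h1 α hα
    have d0 := EHc_split (c := fun n => ((n : ℝ))⁻¹) (fun e => e ∈ S E0) (A := (A : ℝ)) (K := K)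
      (X := X) (Y := Y) (Z := Z) α
    have d1 : EHc (fun n => ((n : ℝ))⁻¹) (fun e => e ∈ S E0) A K X Y Z α ≤
        EHs A K X Y Z E0 α := EHc_le_s (fun n hn => by
      have : (1 : ℝ) ≤ n := by exact_mod_cast hn
      exact (inv_le_one_of_one_le₀ this).trans this) hY0 hK.le hX.le α
    have d2 : EHc (fun n => ((n : ℝ))⁻¹) (fun e => ¬ (e ∈ S E0)) A K X Y Z α =
        EHt A K X Y Z E0 α := rfl
    have d3 : EHc (fun n => ((n : ℝ))⁻¹) (fun _ => True) A K X Y Z α ≤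
        EHs A K X Y Z E0 α + EHt A K X Y Z E0 α := by rw [d0, d2]; linarith
    rw [d2] at c1
    have d4 : θ * EHc (fun n => ((n : ℝ))⁻¹) (fun _ => True) A K X Y Z α +
        (θ⁻¹ + 1) * EHt A K X Y Z E0 α ≤
        3 * (θ * EHs A K X Y Z E0 α + θ⁻¹ * EHt A K X Y Z E0 α) := by
      have u1 := mul_le_mul_of_nonneg_left d3 hθ.le
      have u2 : θ * EHt A K X Y Z E0 α ≤ θ⁻¹ * EHt A K X Y Z E0 α :=
        mul_le_mul_of_nonneg_right (hθ1.trans hθi) t0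
      have u3 : 1 * EHt A K X Y Z E0 α ≤ θ⁻¹ * EHt A K X Y Z E0 α :=
        mul_le_mul_of_nonneg_right hθi t0
      have u4 : 0 ≤ θ * EHs A K X Y Z E0 α := by positivity
      nlinarith
    have c2 : K ^ (2 / 3 : ℝ) * Dfw Y E0 J Om θ α ≤ 3 * C₂ * ((K / X) *
        (θ * EHs A K X Y Z E0 α + θ⁻¹ * EHt A K X Y Z E0 α)) := by
      refine c1.trans ?_
      calc C₂ * (K / X) * (θ * EHc (fun n => ((n : ℝ))⁻¹) (fun _ => True) A K X Y Z α +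
            (θ⁻¹ + 1) * EHt A K X Y Z E0 α) ≤ C₂ * (K / X) *
            (3 * (θ * EHs A K X Y Z E0 α + θ⁻¹ * EHt A K X Y Z E0 α)) := by gcongr
        _ = _ := by ring
    have hH : HS Y ≤ 200 * C₅ * P ^ ε := by
      refine (HS_le hY).trans ?_
      have h6 := H₅ P hP1
      rw [pow_one] at h6
      have h7 : Real.log Y ≤ Real.log P := Real.log_le_log (by linarith) hYP
      nlinarith
    have hKp : 0 ≤ K ^ (2 / 3 : ℝ) := by positivity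
    rw [b3]
    calc c3 w 1 * K ^ (2 / 3 : ℝ) * (HS Y * Dfw Y E0 J Om θ α) ≤
          M * K ^ (2 / 3 : ℝ) * (HS Y * Dfw Y E0 J Om θ α) := by
          have := le_abs_self (c3 w 1)
          have hn : 0 ≤ HS Y * Dfw Y E0 J Om θ α := mul_nonneg (HS_nonneg Y) hDf
          rw [hM]
          gcongr
      _ = M * (HS Y * (K ^ (2 / 3 : ℝ) * Dfw Y E0 J Om θ α)) := by ring
      _ ≤ M * (200 * C₅ * P ^ ε * (3 * C₂ * ((K / X) *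
          (θ * EHs A K X Y Z E0 α + θ⁻¹ * EHt A K X Y Z E0 α)))) := by
          have := HS_nonneg Y
          gcongr
  -- assembly
  refine a2.trans ?_
  have hU0 : 0 ≤ (K / X) * (θ * EHs A K X Y Z E0 α + θ⁻¹ * EHt A K X Y Z E0 α) :=
    mul_nonneg hKX (add_nonneg (mul_nonneg hθ.le s0) (mul_nonneg (inv_pos.mpr hθ).le t0))
  have hG : K ^ (2 / 3 : ℝ) * ((Z / K ^ 2) ^ (1 / 6 : ℝ) * TFa + B⁻¹ * TFb) ≤
      2 * C₃ * ((K / X) * (θ * EHs A K X Y Z E0 α + θ⁻¹ * EHt A K X Y Z E0 α)) := by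
    refine b2.trans (mul_le_mul_of_nonneg_left ?_ (by positivity))
    have : 0 ≤ (K / X) * (θ⁻¹ * EHt A K X Y Z E0 α) :=
      mul_nonneg hKX (mul_nonneg (inv_pos.mpr hθ).le t0)
    rw [mul_add]
    linarith
  have h := asm_z hP.le hC₂ hC₃ hC₄ (zero_le_one.trans hC₅) hM0 hPe hU0 e20 le_rfl hOFF hG
    (show e₃ = C₄ * P ^ ε * (K ^ (2 / 3 : ℝ) * ((Z / K ^ 2) ^ (1 / 6 : ℝ) * TFa + B⁻¹ * TFb)) +
      OFF by rw [he₃]; ring) b4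
  rw [hCdef]
  simp only [add_zero] at h
  linarith

/-- **(LB), abstract form, one hypothesis on the kept `k`** -/
theorem LBz1 {w : ℝ → ℝ} (hw : Wgt w) (hw0 : ∀ x, 0 ≤ w x) {R : ℝ} (hR : 0 ≤ R) {A : ℕ}
    (hA : 2 ≤ A) {ε : ℝ} (hε : 0 < ε) : ∃ C : ℝ, 0 ≤ C ∧
    ∀ (P K X Y D Y₀ Z E0 E1 B θ : ℝ), 1 ≤ P → 0 < K → K ≤ P → 0 < X → 1 ≤ Y → Y ≤ P →
    0 ≤ D → D ≤ P → 0 < Z → Z ≤ P → 0 ≤ E0 → E0 ≤ Y → 1 ≤ B → 0 < θ → θ ≤ 1 → B⁻¹ ≤ θ →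
    (Z / K ^ 2) ^ (1 / 6 : ℝ) ≤ θ →
    ∀ α : Eis → ℂ, Adm Y X R α → ∀ Om ρ : ℕ → ℝ, (∀ n, ρ n = 2 * Om n - Om n ^ 2) →
    (∀ n, 0 ≤ Om n) → (∀ n, Om n ≤ 1) →
    ∀ Q : Eis → Prop, (∀ k, IsPrim k → w (nm k / K) ≠ 0 → Q k → Cut E1 k) →
    ∀ e₂ OFF : ℝ, 0 ≤ OFF →
    ‖CrP w K α (fun k => if Q k then StE E0 (JW D Y₀ Z) (omr Om) α k else 0) -
      ((pC * (kap0 * mel w (2 / 3) * K ^ (2 / 3 : ℝ)) : ℝ) : ℂ) *
        I1146.X2 Y E0 (JW D Y₀ Z) (omr Om) α‖ ≤ e₂ →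
    Sg w K B Z E1 (fun q t k₁ => ‖∑ y ∈ Ys (JW D Y₀ Z) E0 Z,
        Fy (JW D Y₀ Z) (omr Om) (Tal α) q t k₁ y‖ ^ 2) ≤
      Sg w K B Z E1 (fun q t k₁ => E3M829.Dg (JW D Y₀ Z) (omr Om) (Tal α) E0 Z q t k₁) + OFF →
    2 * cP w * K ^ (2 / 3 : ℝ) * (XJw ρ (JW D Y₀ Z) α).re - SqQ w K Q α ≤
      C * P ^ ε * ((K / X) * (θ * EHs A K X Y Z E0 α + θ⁻¹ * EHt A K X Y Z E0 α) +
        e₂ + OFF) := by
  obtain ⟨C, hC, H⟩ := LBzu hw hw0 (u := w) (fun x => (abs_of_nonneg (hw0 x)).le) (κ := 1)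
    (by rw [one_mul]) (by norm_num) hR hA hε
  refine ⟨C, hC, ?_⟩
  intro P K X Y D Y₀ Z E0 E1 B θ hP1 hK hKP hX hY hYP hD hDP hZ hZP hE0 hE0Y hB hθ hθ1 hBθ hKθ
    α hα Om ρ hρ h0 h1 Q hQ e₂ OFF hOFF he₂ hoff
  have h := H P K X Y D Y₀ Z E0 E1 B θ hP1 hK hKP hX hY hYP hD hDP hZ hZP hE0 hE0Y hB hθ hθ1 hBθ
    hKθ α hα Om ρ hρ h0 h1 Q hQ e₂ OFF hOFF he₂ hoff
  rwa [one_pow, one_mul] at h

end Crest.Agent.R017.LBu180
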