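import Crest.Agent.R017.LBr_48
import Crest.Agent.R017.LBq_180

/-!
# Row 17, C.REMg (LB), final form (helper48), part 4: the lower bound

* `lb_main` : the lower bound for `E0 ≥ c₀`, from the numbers
* `lb_n` : the lower bound, all `E0`
-/

set_option autoImplicit false
set_option linter.unusedVariables false

noncomputable section

open Complex MeasureTheory
open scoped ComplexConjugate Classical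

namespace Crest.Agent.R017.LBx48

open Crest.Agent.R012 Crest.Agent.R012.Eis Crest.Agent.R012.MC
open Crest.Agent.R012.LS2 (S mem_S)
open Crest.Agent.R012.Mob705 (pdiv kap0)
open Crest.Agent.R012.Div277 (tau)
open Crest.Agent.R012.Weight600 (osc pw)
open Crest.Agent.R017.X6C180 (n13 n13_nonneg GF)
open Crest.Agent.R017.CM106 (CS TG FS)
open Crest.Agent.R017.E1551 hiding tau Dg
open Crest.Agent.R017.C70 (JW JC OKJ okJ_JW)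
open Crest.Agent.R017.E2440 (TE Jb Qs prs C4 StE Fh)
open Crest.Agent.R017.EHu320 (EHc)
open Crest.Agent.R017.LB48 (CrP GrP)
open Crest.Agent.R017.I1146 (omr)
open Crest.Agent.R017.E3M829 (Cut Tal Sg)
open Crest.Agent.R017.E3A164 (SteT Ys Fy)
open Crest.Agent.R017.WDec180 (WD sc sc_pos)
open Crest.Agent.R017.Ex385 (CrQ)
open Crest.Agent.R017.LBu180 (SqQ SqQ_le)
open Crest.Agent.R017.Win813 (WK iA iA_nonneg)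
open Crest.Agent.R017.RGw813 (T9 bt)
open Crest.Agent.R017.LBo813 (Om rho Om_nonneg Om_le_one norm_bt_le)
open Crest.Agent.R017.Rough381 (VF)
open Crest.Agent.R017.CubP813 (Qc Qc_cut)
open Crest.Agent.R017.Et404 (RLn)
open Crest.Agent.R017.Et813 (NTn et_le)

/-- the support of the weight is bounded -/
lemma wgt_bdd {w : ℝ → ℝ} (hw : Wgt w) : ∃ b : ℝ, 1 ≤ b ∧ ∀ x, w x ≠ 0 → x ≤ b := by
  obtain ⟨b, hb⟩ := hw.cpt.isCompact.bddAbove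
  exact ⟨max 1 b, le_max_left _ _, fun x hx => (hb (subset_tsupport w hx)).trans (le_max_right _ _)⟩

lemma cut_at {b K K' E0 x : ℝ} (hE : 1 ≤ E0) (hbE : b ≤ E0) (hb : 0 ≤ b) (hK : 0 ≤ K)
    (hK' : 0 < K') (hKK : K' ≤ K) (hx : x / K' ≤ b) : x ≤ K1N K E0 * (E0 ^ 14) ^ 3 := by
  have hE0 : 0 < E0 := by linarith
  have h1 : x ≤ b * K' := by rwa [div_le_iff₀ hK'] at hx
  have h2 : K1N K E0 * (E0 ^ 14) ^ 3 = E0 ^ 19 * K := by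
    unfold K1N
    field_simp
  rw [h2]
  have h3 : b ≤ E0 ^ 19 := hbE.trans (le_self_pow₀ hE (by norm_num))
  calc x ≤ b * K' := h1
    _ ≤ b * K := mul_le_mul_of_nonneg_left hKK hb
    _ ≤ E0 ^ 19 * K := mul_le_mul_of_nonneg_right h3 hK

lemma NumE.mono {w : ℝ → ℝ} {N : ℕ} {M : ℝ} {F : ℕ → ℝ → ℂ} {Q : ℕ × ℕ → Eis → Prop}
    {Cw η : ℝ} {Aw : ℕ} {K X Y : ℝ} {R : ℝ} {J : ℕ} {D E0 θ lam h : ℝ} {N₀ N₁ : ℕ} {A : ℕ}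
    {CP CP' : ℝ} {α : Eis → ℂ} {Et : ℝ} (hθ : 0 ≤ θ) (hl : 0 ≤ lam) (hK : 0 ≤ K)
    (hCP : CP ≤ CP')
    (H : NumE w N M F Q Cw η Aw K X Y R J D E0 θ lam h N₀ N₁ A CP α Et) :
    NumE w N M F Q Cw η Aw K X Y R J D E0 θ lam h N₀ N₁ A CP' α Et := by
  intro p hp t X' φ hX' hXX hφ hφs
  refine (H p hp t X' φ hX' hXX hφ hφs).trans (add_le_add ?_ le_rfl)
  exact mul_le_mul_of_nonneg_right hCP (mul_nonneg (by positivity) (T4_nonneg hθ hl hK hX'.le _))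

lemma NumO.mono {w : ℝ → ℝ} {Cw η : ℝ} {Aw : ℕ} {K X Y K' : ℝ} {R : ℝ} {J : ℕ}
    {D E0 E1 B θ lam : ℝ} {N₀ N₁ : ℕ} {A : ℕ} {CP CP' : ℝ} {α : Eis → ℂ} {Ro : ℝ}
    (hθ : 0 ≤ θ) (hl : 0 ≤ lam) (hK : 0 ≤ K) (hCP : CP ≤ CP')
    (H : NumO w Cw η Aw K X Y K' R J D E0 E1 B θ lam N₀ N₁ A CP α Ro) :
    NumO w Cw η Aw K X Y K' R J D E0 E1 B θ lam N₀ N₁ A CP' α Ro := by
  intro p hp t X' φ hX' hXX hφ hφs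
  refine (H p hp t X' φ hX' hXX hφ hφs).trans (add_le_add le_rfl (add_le_add ?_ le_rfl))
  exact mul_le_mul_of_nonneg_right hCP (mul_nonneg (by positivity) (T4_nonneg hθ hl hK hX'.le _))

/-- numbers -/
lemma main_num {C₁ C₂ a b q q4 X2 m m3 MM Rc Rl Nt Es Ro Ro' : ℝ} (h1 : 0 ≤ C₁) (h2 : 0 ≤ C₂)
    (ha : 0 ≤ a) (hab : a ≤ b) (hq : 1 ≤ q) (hq4 : q * q * q * q ≤ q4) (hX2 : 0 ≤ X2)
    (hm0 : 0 ≤ m) (hm : m3 ≤ 3 * m) (hMM : 0 ≤ MM) (hRc : 0 ≤ Rc) (hRl : 0 ≤ Rl) (hNt : 0 ≤ Nt)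
    (hEs : 0 ≤ Es) (hRo : 0 ≤ Ro) (hRo' : 0 ≤ Ro') {qq : ℝ} (hqq0 : 0 ≤ qq) (hqq : qq ≤ q * q) :
    C₁ * a * qq * (X2 * (q * q) + m3 * MM + q * q * Rc +
      (C₂ * (q * (q * Rl) + X2 * (q * q)) + q * q * Nt + q * q * Es) + q * q * Ro +
      q * q * Ro') ≤
      (C₁ * (3 + C₂)) * b * q4 * (X2 + m * MM + (Rc + Rl + Nt + Ro + Ro' + Es)) := by
  have hq0 : 0 ≤ q := by linarith
  have hqq1 : 1 ≤ q * q := one_le_mul_of_one_le_of_one_le hq hq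
  have e1 : X2 * (q * q) + m3 * MM + q * q * Rc +
      (C₂ * (q * (q * Rl) + X2 * (q * q)) + q * q * Nt + q * q * Es) + q * q * Ro +
      q * q * Ro' ≤
      (q * q) * ((3 + C₂) * (X2 + m * MM + (Rc + Rl + Nt + Ro + Ro' + Es))) := by
    have f1 : m3 * MM ≤ (q * q) * (3 * (m * MM)) := by
      calc m3 * MM ≤ (3 * m) * MM := mul_le_mul_of_nonneg_right hm hMM
        _ = 1 * (3 * (m * MM)) := by ring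
        _ ≤ (q * q) * (3 * (m * MM)) := mul_le_mul_of_nonneg_right hqq1 (by positivity)
    have g7 : 0 ≤ (q * q) * (2 * X2 + C₂ * (m * MM) + 3 * Rl +
        (2 + C₂) * (Rc + Nt + Ro + Ro' + Es)) := by positivity
    have g8 : (q * q) * ((3 + C₂) * (X2 + m * MM + (Rc + Rl + Nt + Ro + Ro' + Es))) =
        X2 * (q * q) + (q * q) * (3 * (m * MM)) + q * q * Rc +
      (C₂ * (q * (q * Rl) + X2 * (q * q)) + q * q * Nt + q * q * Es) + q * q * Ro +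
      q * q * Ro' + (q * q) * (2 * X2 + C₂ * (m * MM) + 3 * Rl +
        (2 + C₂) * (Rc + Nt + Ro + Ro' + Es)) := by
      ring
    rw [g8]
    linarith
  obtain ⟨G, hG⟩ : ∃ G : ℝ, G = X2 + m * MM + (Rc + Rl + Nt + Ro + Ro' + Es) := ⟨_, rfl⟩
  have hG0 : 0 ≤ G := by rw [hG]; positivity
  rw [← hG] at e1 ⊢
  have hb0 : 0 ≤ b := ha.trans hab
  calc C₁ * a * qq * (X2 * (q * q) + m3 * MM + q * q * Rc +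
      (C₂ * (q * (q * Rl) + X2 * (q * q)) + q * q * Nt + q * q * Es) + q * q * Ro +
      q * q * Ro') ≤ C₁ * a * qq * ((q * q) * ((3 + C₂) * G)) :=
        mul_le_mul_of_nonneg_left e1 (by positivity)
    _ ≤ C₁ * b * (q * q) * ((q * q) * ((3 + C₂) * G)) := by gcongr
    _ = (C₁ * (3 + C₂)) * b * (q * q * q * q) * G := by ring
    _ ≤ (C₁ * (3 + C₂)) * b * q4 * G := by gcongr

set_option maxHeartbeats 1000000 in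
/-- **the lower bound for `E0 ≥ c₀`** -/
theorem lb_main {w : ℝ → ℝ} (hw : Wgt w) (hw0 : ∀ x, 0 ≤ w x) {N : ℕ} {M : ℝ} {F : ℕ → ℝ → ℂ}
    (hD : WD w N M F) {Cw R ε e₀ Ce : ℝ} {Aw J : ℕ} (hCw : 0 ≤ Cw) (hR : 0 ≤ R) (hε : 0 < ε)
    (he₀ : 0 < e₀) (hCe : 0 ≤ Ce) (hJA : J + 2 ≤ Aw) : ∃ C c₀ : ℝ, 0 ≤ C ∧ 1 ≤ c₀ ∧
    ∀ (K X Y E0 D G₀ η : ℝ) (N₀ N₁ I : ℕ), 1 ≤ X → X ≤ Y → K ≤ Y → c₀ ≤ E0 → E0 ≤ Y → 0 ≤ D →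
    D ≤ Y → (N₁ : ℝ) ≤ Y → Y ^ e₀ ≤ E0 → E0 ^ 60 ≤ K → 1 ≤ N₀ → N₀ ≤ N₁ →
    (N₁ : ℝ) * E0 ^ 30 ≤ K ^ 2 → (N₁ : ℝ) < 2 ^ I →
    0 < η → η ≤ 1 → ∀ α : Eis → ℂ, (∀ n, α n ≠ 0 → n ∈ S Y) →
    (∀ n, α n ≠ 0 → |Real.log (nm n) - Real.log X| ≤ R) → (∀ n, ‖α n‖ ≤ Y ^ ε) →
    ∀ Ma Ml Rc Rl Nt Ro Ro' Es : ℝ, 0 ≤ Ma → 0 ≤ Ml → 0 ≤ Rc → 0 ≤ Rl → 0 ≤ Nt → 0 ≤ Ro →
    0 ≤ Ro' → 0 ≤ Es →
    (∀ g ∈ S Y, (nm g : ℝ) ≤ G₀ → ∀ V : ℝ, 1 ≤ V → V ≤ 9 * N₁ * nm g → ∀ t : ℝ,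
      VF V (tws (sg α g) t) ≤
        Ma / (nm g : ℝ) ^ 2 * ((V * K / (X / nm g) ^ 2) ^ (1 / 3 : ℝ)) * (1 + |t|) ^ J) →
    (∀ g ∈ S Y, ∀ B V : ℝ, 1 ≤ B → B ≤ Y → 1 ≤ V → V ≤ 9 * N₁ / (nm g : ℝ) ^ 2 → ∀ t : ℝ,
      E1551.JB Y α (fun U => G₀ < nm (g * U)) g B V t ≤
        Ml / (nm g : ℝ) ^ 2 * yv K X g V * (1 + |t|) ^ J) →
    NumR N M F Cw η Aw K X R J D E0 (tN E0) (hN E0) N₁ I α (Y ^ ε * Y ^ ε * Rc) →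
    NumL N M F Cw η Aw K X R J D E0 (tN E0) (hN E0) (E0 ^ 8) N₁ I (XN N K) α (Y ^ ε * Rl) →
    NumN N M F Cw η Aw K X Y R J D E0 (tN E0) (lN E0) (hN E0) (E0 ^ 8) (E0 ^ 4) (K1N K E0)
      (K2N K E0) N₀ N₁ (J + 2) (Ce * Y ^ ε) α (Y ^ ε * Y ^ ε * Nt) →
    NumO w Cw η Aw K X Y K R J D E0 (E1N E0) (BN E0) (tN E0) (lN E0) N₀ N₁ (J + 2)
      (Ce * Y ^ ε) α (Y ^ ε * Y ^ ε * Ro) →
    NumO w Cw η Aw K X Y (K * Real.exp (-hN E0)) R J D E0 (E1N E0) (BN E0) (tN E0) (lN E0) N₀ N₁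
      (J + 2) (Ce * Y ^ ε * Real.exp (-(hN E0 / 3))) α (Y ^ ε * Y ^ ε * Ro') →
    (X ^ 2 * E0 ^ 20 ≤ K * N₀ ∨
      NumS w (fun _ => Qc (K1N K E0)) Cw η Aw K X R J (hN E0) α (Y ^ ε * Y ^ ε * Es)) →
    LBnq w (fun _ => Qc (K1N K E0)) Cw η Aw K X Y D N₁ (rho N₀ N₁) R J α
      (C * (η⁻¹) ^ (2 * J + 2) * Y ^ (4 * ε) *
        (X ^ 2 + E0 ^ (-(1 / 2) : ℝ) * (Ma + Ml) +
          (Rc + Rl + Nt + Ro + E0 ^ (7 / 3 : ℝ) * Ro' + Es))) := by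
  obtain ⟨C₂, c₂, hC₂, hc₂, H₂⟩ := numE_of hw hw0 hD (Cw := Cw) (R := R) (ε := ε) (e₀ := e₀)
    (Ce := Ce) (Aw := Aw) (J := J) hCw hR hε he₀ hCe hJA
  obtain ⟨C₁, hC₁, H₁⟩ := lb_be hw hw0 hD (Cw := Cw) (R := R) (ε := ε) (ε₁ := ε / 2)
    (Ce := Ce + C₂) (Aw := Aw) (J := J) hCw hR hε.le (by linarith) (by linarith) hJA
  obtain ⟨b, hb1, hb⟩ := wgt_bdd hw
  refine ⟨C₁ * (3 + C₂), max c₂ b, by positivity, le_max_of_le_left hc₂, ?_⟩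
  intro K X Y E0 D G₀ η N₀ N₁ I hX hXY hKY hcE hE0Y hD0 hDY hN₁Y hYE hEK hN₀ hN₀₁ h30 hI hη hη1 α
    hα hαR hαn Ma Ml Rc Rl Nt Ro Ro' Es hMa hMl hRc hRl hNt hRo hRo' hEs hSA hL hNR hNL hNN hNO
    hNO' hroom
  have hcE₂ : c₂ ≤ E0 := (le_max_left _ _).trans hcE
  have hbE : b ≤ E0 := (le_max_right _ _).trans hcE
  have hE1 : 1 ≤ E0 := hc₂.trans hcE₂
  have hE0 : 0 < E0 := by linarith
  have hY : 1 ≤ Y := by linarith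
  have hY0 : 0 < Y := by linarith
  have hX0 : 0 < X := by linarith
  have hK1 : 1 ≤ K := (one_le_pow₀ hE1).trans hEK
  have hK : 0 < K := by linarith
  have hN1 : 1 ≤ N₁ := hN₀.trans hN₀₁
  have hN10 : (0 : ℝ) ≤ N₁ := Nat.cast_nonneg _
  have hK' : 0 < K * Real.exp (-hN E0) := by positivity
  have hK'K : K * Real.exp (-hN E0) ≤ K :=
    mul_le_of_le_one_right hK.le (Real.exp_le_one_iff.mpr (by linarith [hN_nonneg hE1]))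
  have hYe : 0 ≤ Y ^ ε := by positivity
  have hCPm : Ce * Y ^ ε ≤ (Ce + C₂) * Y ^ ε := mul_le_mul_of_nonneg_right (by linarith) hYe
  have hCPm₂ : C₂ * Y ^ ε ≤ (Ce + C₂) * Y ^ ε := mul_le_mul_of_nonneg_right (by linarith) hYe
  have hE := H₂ K X Y D E0 η N₀ N₁ I hX hXY hKY hcE₂ hE0Y hD0 hDY hN₁Y hYE hEK hN₀ hN₀₁ hI hη hη1
    α hα hαR hαn (Y ^ ε * Rl) (Y ^ ε * Y ^ ε * Nt) (Y ^ ε * Y ^ ε * Es) (by positivity)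
    (by positivity) (by positivity) hNL hNN hroom
  have hQ : ∀ K' : ℝ, 0 < K' → K' ≤ K → ∀ (p : ℕ × ℕ) k, IsPrim k → w (nm k / K') ≠ 0 →
      (fun _ : ℕ × ℕ => Qc (K1N K E0)) p k → Cut (E1N E0) k := by
    intro K' hK'0 hKK p k _ hwk hq
    exact Qc_cut (by unfold K1N; positivity) hq (by unfold E1N; positivity)
      (cut_at hE1 hbE (by linarith) hK.le hK'0 hKK (hb _ hwk))
  have main := H₁ K X Y D G₀ E0 (E1N E0) (BN E0) (tN E0) (lN E0) (hN E0) η N₀ N₁ I hK hKY hX0 hY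
    hD0 hDY hE1 hE0Y (one_le_pow₀ hE1) (tN_pos hE1) (tN_le_one hE1) (lN_pos hE1) (lN_le_one hE1)
    le_rfl hN1 hN₁Y (LBp180.z_le_th hE1 hN10 hK h30) (hN_nonneg hE1) (exp_hNm hE1)
    (tN_le_lN hE1) (LBp180.z_le_one hE1 hN10 hK h30) hI hη hη1 α hα hαR hαn Ma Ml
    (Y ^ ε * Y ^ ε * Rc)
    (C₂ * (Y ^ ε * (Y ^ ε * Rl) + X ^ 2 * (Y ^ ε * Y ^ ε)) + Y ^ ε * Y ^ ε * Nt +
      Y ^ ε * Y ^ ε * Es) (Y ^ ε * Y ^ ε * Ro) (Y ^ ε * Y ^ ε * Ro') hMa hMl (by positivity)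
    (by positivity) (by positivity) (by positivity) hSA hL (fun _ => Qc (K1N K E0)) (hQ K hK le_rfl) (hQ _ hK' hK'K) hNR
    (hE.mono (tN_pos hE1).le (lN_pos hE1).le hK.le hCPm₂)
    (hNO.mono (tN_pos hE1).le (lN_pos hE1).le hK.le hCPm)
    (hNO'.mono (tN_pos hE1).le (lN_pos hE1).le hK.le
      (mul_le_mul_of_nonneg_right hCPm (Real.exp_pos _).le))
  refine LBt180.lbnq_mono hK.le hX0.le main ?_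
  have hq : 1 ≤ Y ^ ε := Real.one_le_rpow hY hε.le
  have e1 : Y ^ (ε / 2) * Y ^ ε * Y ^ (ε / 2) = Y ^ ε * Y ^ ε := by
    rw [← Real.rpow_add hY0, ← Real.rpow_add hY0, ← Real.rpow_add hY0]
    congr 1
    ring
  have e2 : Y ^ ε * Y ^ ε * Y ^ ε * Y ^ ε ≤ Y ^ (4 * ε) := by
    rw [← Real.rpow_add hY0, ← Real.rpow_add hY0, ← Real.rpow_add hY0]
    exact Real.rpow_le_rpow_of_exponent_le hY (by linarith)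
  have fin := main_num (C₁ := C₁) (C₂ := C₂) (a := (η⁻¹) ^ J) (b := (η⁻¹) ^ (2 * J + 2))
    (q := Y ^ ε) (q4 := Y ^ (4 * ε)) (X2 := X ^ 2) (m := E0 ^ (-(1 / 2) : ℝ))
    (m3 := tN E0 * E0 + lN E0 + (lN E0 * E0)⁻¹) (MM := Ma + Ml) (Rc := Rc) (Rl := Rl) (Nt := Nt)
    (Es := Es) (Ro := Ro) (Ro' := E0 ^ (7 / 3 : ℝ) * Ro') hC₁ hC₂ (by positivity)
    (pow_le_pow_right₀ ((one_le_inv₀ hη).mpr hη1) (by omega)) hq e2 (by positivity)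
    (by positivity) (m_le hE1) (by positivity) hRc hRl hNt hEs hRo (by positivity)
    (qq := Y ^ (ε / 2) * Y ^ ε * Y ^ (ε / 2)) (by positivity) e1.le
  rw [exp_hN3 hE1]
  refine le_trans (le_of_eq ?_) fin
  ring

/-- **the lower bound (LB) from the numbers** -/
theorem lb_n {w : ℝ → ℝ} (hw : Wgt w) (hw0 : ∀ x, 0 ≤ w x) {N : ℕ} {M : ℝ} {F : ℕ → ℝ → ℂ}
    (hD : WD w N M F) {Cw R ε e₀ Ce : ℝ} {Aw J : ℕ} (hCw : 0 ≤ Cw) (hR : 0 ≤ R) (hε : 0 < ε)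
    (he₀ : 0 < e₀) (hCe : 0 ≤ Ce) (hJA : J + 2 ≤ Aw) (c₁₀ : ℝ) : ∃ C : ℝ, 0 ≤ C ∧
    ∀ (K X Y E0 D G₀ η : ℝ) (N₀ N₁ I : ℕ), 1 ≤ X → X ≤ Y → K ≤ Y → E0 ≤ Y → 0 ≤ D →
    D ≤ Y → (N₁ : ℝ) ≤ Y → Y ^ e₀ ≤ E0 → E0 ^ 60 ≤ K → 1 ≤ N₀ → N₀ ≤ N₁ →
    (N₁ : ℝ) * E0 ^ 30 ≤ K ^ 2 → (N₁ : ℝ) < 2 ^ I →
    0 < η → η ≤ 1 → ∀ α : Eis → ℂ, (∀ n, α n ≠ 0 → n ∈ S Y) →
    (∀ n, α n ≠ 0 → |Real.log (nm n) - Real.log X| ≤ R) → (∀ n, ‖α n‖ ≤ Y ^ ε) →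
    ∀ Ma Ml Rc Rl Nt Ro Ro' Es : ℝ, 0 ≤ Ma → 0 ≤ Ml → 0 ≤ Rc → 0 ≤ Rl → 0 ≤ Nt → 0 ≤ Ro →
    0 ≤ Ro' → 0 ≤ Es →
    (∀ g ∈ S Y, (nm g : ℝ) ≤ G₀ → ∀ V : ℝ, 1 ≤ V → V ≤ 9 * N₁ * nm g → ∀ t : ℝ,
      VF V (tws (sg α g) t) ≤
        Ma / (nm g : ℝ) ^ 2 * ((V * K / (X / nm g) ^ 2) ^ (1 / 3 : ℝ)) * (1 + |t|) ^ J) →
    (∀ g ∈ S Y, ∀ B V : ℝ, 1 ≤ B → B ≤ Y → 1 ≤ V → V ≤ 9 * N₁ / (nm g : ℝ) ^ 2 → ∀ t : ℝ,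
      E1551.JB Y α (fun U => G₀ < nm (g * U)) g B V t ≤
        Ml / (nm g : ℝ) ^ 2 * yv K X g V * (1 + |t|) ^ J) →
    (c₁₀ ≤ E0 →
    NumR N M F Cw η Aw K X R J D E0 (tN E0) (hN E0) N₁ I α (Y ^ ε * Y ^ ε * Rc) ∧
    NumL N M F Cw η Aw K X R J D E0 (tN E0) (hN E0) (E0 ^ 8) N₁ I (XN N K) α (Y ^ ε * Rl) ∧
    NumN N M F Cw η Aw K X Y R J D E0 (tN E0) (lN E0) (hN E0) (E0 ^ 8) (E0 ^ 4) (K1N K E0)
      (K2N K E0) N₀ N₁ (J + 2) (Ce * Y ^ ε) α (Y ^ ε * Y ^ ε * Nt) ∧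
    NumO w Cw η Aw K X Y K R J D E0 (E1N E0) (BN E0) (tN E0) (lN E0) N₀ N₁ (J + 2)
      (Ce * Y ^ ε) α (Y ^ ε * Y ^ ε * Ro) ∧
    NumO w Cw η Aw K X Y (K * Real.exp (-hN E0)) R J D E0 (E1N E0) (BN E0) (tN E0) (lN E0) N₀ N₁
      (J + 2) (Ce * Y ^ ε * Real.exp (-(hN E0 / 3))) α (Y ^ ε * Y ^ ε * Ro') ∧
    (X ^ 2 * E0 ^ 20 ≤ K * N₀ ∨
      NumS w (fun _ => Qc (K1N K E0)) Cw η Aw K X R J (hN E0) α (Y ^ ε * Y ^ ε * Es))) →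
    LBnq w (fun _ => Qc (K1N K E0)) Cw η Aw K X Y D N₁ (rho N₀ N₁) R J α
      (C * (η⁻¹) ^ (2 * J + 2) * Y ^ (4 * ε) *
        (X ^ 2 + E0 ^ (-(1 / 2) : ℝ) * (Ma + Ml) +
          (Rc + Rl + Nt + Ro + E0 ^ (7 / 3 : ℝ) * Ro' + Es))) := by
  obtain ⟨C₁, c₁, hC₁, hc₁, H₁⟩ := lb_main hw hw0 hD (Cw := Cw) (R := R) (ε := ε) (e₀ := e₀)
    (Ce := Ce) (Aw := Aw) (J := J) hCw hR hε he₀ hCe hJA
  obtain ⟨C₂, hC₂, H₂⟩ := LBt180.lb_small hw hw0 (Cw := Cw) (R := R) (ε := ε) (Aw := Aw) (J := J)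
    hCw hR hε hJA (c := max c₁ c₁₀) (le_max_of_le_left hc₁)
  refine ⟨C₁ + C₂, by positivity, ?_⟩
  intro K X Y E0 D G₀ η N₀ N₁ I hX hXY hKY hE0Y hD0 hDY hN₁Y hYE hEK hN₀ hN₀₁ h30 hI hη hη1 α
    hα hαR hαn Ma Ml Rc Rl Nt Ro Ro' Es hMa hMl hRc hRl hNt hRo hRo' hEs hSA hL hnum
  have hY : 1 ≤ Y := by linarith
  have hY0 : 0 < Y := by linarith
  have hX0 : 0 < X := by linarith
  have hE1 : 1 ≤ E0 := LBp180.one_le_E0 he₀.le hY hYE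
  have hK1 : 1 ≤ K := (one_le_pow₀ hE1).trans hEK
  have hK : 0 < K := by linarith
  have hR0 : 0 ≤ Rc + Rl + Nt + Ro + E0 ^ (7 / 3 : ℝ) * Ro' + Es := by positivity
  have hG : 0 ≤ (η⁻¹) ^ (2 * J + 2) * Y ^ (4 * ε) * (X ^ 2 + E0 ^ (-(1 / 2) : ℝ) * (Ma + Ml) +
          (Rc + Rl + Nt + Ro + E0 ^ (7 / 3 : ℝ) * Ro' + Es)) := by positivity
  rcases le_or_gt (max c₁ c₁₀) E0 with hc | hc
  · obtain ⟨n1, n2, n3, n4, n5, n6⟩ := hnum ((le_max_right _ _).trans hc)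
    refine LBt180.lbnq_mono hK.le hX0.le (H₁ K X Y E0 D G₀ η N₀ N₁ I hX hXY hKY
      ((le_max_left _ _).trans hc) hE0Y hD0 hDY hN₁Y hYE hEK hN₀ hN₀₁ h30 hI hη hη1 α
      hα hαR hαn Ma Ml Rc Rl Nt Ro Ro' Es hMa hMl hRc hRl hNt hRo hRo' hEs hSA hL n1 n2 n3 n4 n5
      n6) ?_
    nlinarith
  · refine LBt180.lbnq_mono hK.le hX0.le (H₂ K X Y D G₀ E0 η N₁ (rho N₀ N₁) hK hX0 hY hN₁Y hE1
      hc.le hη hη1 (LBt180.rho_abs N₀ N₁) α hα hαR hαn Ma Ml _ hMa hMl hR0 hSA hL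
      (fun _ => Qc (K1N K E0))) ?_
    nlinarith

end Crest.Agent.R017.LBx48
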