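import Crest.Agent.R017.LBy_48

/-!
# Row 17, C.REMg (LB), final form (helper48), part 5: the `T`-functionals at a larger level

* `NumEz`, `NumOz`, `NumNz` : the numbers with the `T`-part at the level `Z`
* `lb_bez`, `numE_ofz`, `lb_mainz`, `lb_nz` : the lower bound with `Z = Λ N₁`
-/

set_option autoImplicit false
set_option linter.unusedVariables false

noncomputable section

open Complex MeasureTheory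
open scoped ComplexConjugate Classical

namespace Crest.Agent.R017.LBx48

open Crest.Agent.R012 Crest.Agent.R012.Eis Crest.Agent.R012.MC
open Crest.Agent.R012.LS2 (S mem_S)
open Crest.Agent.R012.Mob705 (pdiv kap0)
open Crest.Agent.R012.Div277 (tau)
open Crest.Agent.R012.Weight600 (osc pw)
open Crest.Agent.R017.X6C180 (n13 n13_nonneg GF)
open Crest.Agent.R017.CM106 (CS TG FS)
open Crest.Agent.R017.E1551 hiding tau Dg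
open Crest.Agent.R017.C70 (JW JC OKJ okJ_JW)
open Crest.Agent.R017.E2440 (TE Jb Qs prs C4 StE Fh)
open Crest.Agent.R017.EHu320 (EHc)
open Crest.Agent.R017.LB48 (CrP GrP)
open Crest.Agent.R017.I1146 (omr)
open Crest.Agent.R017.E3M829 (Cut Tal Sg)
open Crest.Agent.R017.E3A164 (SteT Ys Fy)
open Crest.Agent.R017.WDec180 (WD sc sc_pos)
open Crest.Agent.R017.Ex385 (CrQ)
open Crest.Agent.R017.LBu180 (SqQ SqQ_le)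
open Crest.Agent.R017.Win813 (WK iA iA_nonneg)
open Crest.Agent.R017.RGw813 (T9 bt)
open Crest.Agent.R017.LBo813 (Om rho Om_nonneg Om_le_one norm_bt_le)
open Crest.Agent.R017.Rough381 (VF)
open Crest.Agent.R017.CubP813 (Qc Qc_cut)
open Crest.Agent.R017.Et404 (RLn)
open Crest.Agent.R017.Et813 (NTn et_le)

lemma T4_monoZ {A K X Y Z Z' E0 θ lam : ℝ} (hθ : 0 ≤ θ) (hl : 0 ≤ lam) (hK : 0 ≤ K)
    (hX : 0 ≤ X) (hZ : Z ≤ Z') (α : Eis → ℂ) :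
    T4 A K X Y Z E0 θ lam α ≤ T4 A K X Y Z' E0 θ lam α := by
  have t1 : EHs A K X Y Z E0 α ≤ EHs A K X Y Z' E0 α :=
    LBX180.EHc_monoZ _ (fun n => Nat.cast_nonneg n) _ hK hX hZ α
  have t2 : EHf A K X Y Z α ≤ EHf A K X Y Z' α :=
    LBX180.EHc_monoZ _ (fun n => by positivity) _ hK hX hZ α
  have t3 : EHt A K X Y Z E0 α ≤ EHt A K X Y Z' E0 α :=
    LBX180.EHc_monoZ _ (fun n => by positivity) _ hK hX hZ α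
  have t4 : EHc (fun _ => (1 : ℝ)) (fun _ => True) A K X Y Z α ≤
      EHc (fun _ => (1 : ℝ)) (fun _ => True) A K X Y Z' α :=
    LBX180.EHc_monoZ _ (fun n => zero_le_one) _ hK hX hZ α
  have hli := inv_nonneg.mpr hl
  unfold T4
  exact add_le_add (add_le_add (add_le_add (mul_le_mul_of_nonneg_left t1 hθ)
    (mul_le_mul_of_nonneg_left t2 hl)) (mul_le_mul_of_nonneg_left t3 hli))
    (mul_le_mul_of_nonneg_left t4 hl)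

/-- the tail and the second scale: `e^(h/3) SqQ w (K e^(-h)) Q + Σ ‖CrQ (¬Q)‖ ≤ T-part + (K/X) Et` -/
def NumEz (w : ℝ → ℝ) (N : ℕ) (M : ℝ) (F : ℕ → ℝ → ℂ) (Q : ℕ × ℕ → Eis → Prop)
    (Cw η : ℝ) (Aw : ℕ) (K X Y : ℝ) (R : ℝ) (J : ℕ) (D E0 θ lam h : ℝ) (N₀ N₁ : ℕ) (A : ℕ) (CP Z : ℝ) (α : Eis → ℂ)
    (Et : ℝ) : Prop :=
  ∀ p ∈ T9, ∀ (t X' : ℝ) (φ : ℝ → ℝ), 0 < X' → |Real.log X' - Real.log X| ≤ R + 1 →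
    WK Cw η Aw φ → (∀ u, φ u ≠ 0 → |u - Real.log X'| ≤ η / 2) →
    Real.exp (h / 3) * SqQ w (K * Real.exp (-h)) (Q p) (fun n => bt φ α p n * pw t (nm n)) +
      ∑ i ∈ Finset.range N, ‖CrQ (GF (Fh (F i) h)) (fun k => ¬ Q p k) (sc K M i)
        (fun n => bt φ α p n * pw t (nm n))
        (StE E0 (JW D (1 / 10) N₁) (omr (Om N₀ N₁)) (fun n => bt φ α p n * pw t (nm n)))‖ ≤
      CP * ((K / X') * T4 A K X' Y Z E0 θ lam (fun n => bt φ α p n * pw t (nm n))) +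
      (K / X) * (Et * (1 + |t|) ^ J)

/-- the off-diagonal part of the Gram sum at `K'`, with a T-part -/
def NumOz (w : ℝ → ℝ) (Cw η : ℝ) (Aw : ℕ) (K X Y K' : ℝ) (R : ℝ) (J : ℕ) (D E0 E1 B θ lam : ℝ)
    (N₀ N₁ : ℕ) (A : ℕ) (CP Z : ℝ) (α : Eis → ℂ) (Ro : ℝ) : Prop :=
  ∀ p ∈ T9, ∀ (t X' : ℝ) (φ : ℝ → ℝ), 0 < X' → |Real.log X' - Real.log X| ≤ R + 1 →
    WK Cw η Aw φ → (∀ u, φ u ≠ 0 → |u - Real.log X'| ≤ η / 2) →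
    Sg w K' B N₁ E1 (fun q t' k₁ => ‖∑ y ∈ Ys (JW D (1 / 10) N₁) E0 N₁,
        Fy (JW D (1 / 10) N₁) (omr (Om N₀ N₁)) (Tal (fun n => bt φ α p n * pw t (nm n)))
          q t' k₁ y‖ ^ 2) ≤
      Sg w K' B N₁ E1 (fun q t' k₁ => E3M829.Dg (JW D (1 / 10) N₁) (omr (Om N₀ N₁))
        (Tal (fun n => bt φ α p n * pw t (nm n))) E0 N₁ q t' k₁) +
      (CP * ((K / X') * T4 A K X' Y Z E0 θ lam (fun n => bt φ α p n * pw t (nm n))) +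
        (K / X) * (Ro * (1 + |t|) ^ J))

/-- the near-top number of the tail -/
def NumNz (N : ℕ) (M : ℝ) (F : ℕ → ℝ → ℂ) (Cw η : ℝ) (Aw : ℕ) (K X Y : ℝ) (R : ℝ) (J : ℕ)
    (D E0 θ lam h L L2 K₁ K₂ : ℝ) (N₀ N₁ : ℕ) (A : ℕ) (CP Z : ℝ) (α : Eis → ℂ) (Nt : ℝ) : Prop :=
  ∀ p ∈ T9, ∀ (t X' : ℝ) (φ : ℝ → ℝ), 0 < X' → |Real.log X' - Real.log X| ≤ R + 1 →
    WK Cw η Aw φ → (∀ u, φ u ≠ 0 → |u - Real.log X'| ≤ η / 2) →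
    NTn N F h M K E0 L L2 K₁ K₂ (fun n => bt φ α p n * pw t (nm n)) (JW D (1 / 10) N₁)
      (omr (Om N₀ N₁)) ≤
      CP * ((K / X') * T4 A K X' Y Z E0 θ lam (fun n => bt φ α p n * pw t (nm n))) +
      (K / X) * (Nt * (1 + |t|) ^ J)

lemma NumEz.mono {w : ℝ → ℝ} {N : ℕ} {M : ℝ} {F : ℕ → ℝ → ℂ} {Q : ℕ × ℕ → Eis → Prop}
    {Cw η : ℝ} {Aw : ℕ} {K X Y : ℝ} {R : ℝ} {J : ℕ} {D E0 θ lam h : ℝ} {N₀ N₁ : ℕ} {A : ℕ}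
    {CP CP' Z : ℝ} {α : Eis → ℂ} {Et : ℝ} (hθ : 0 ≤ θ) (hl : 0 ≤ lam) (hK : 0 ≤ K)
    (hCP : CP ≤ CP')
    (H : NumEz w N M F Q Cw η Aw K X Y R J D E0 θ lam h N₀ N₁ A CP Z α Et) :
    NumEz w N M F Q Cw η Aw K X Y R J D E0 θ lam h N₀ N₁ A CP' Z α Et := by
  intro p hp t X' φ hX' hXX hφ hφs
  refine (H p hp t X' φ hX' hXX hφ hφs).trans (add_le_add ?_ le_rfl)
  exact mul_le_mul_of_nonneg_right hCP (mul_nonneg (by positivity) (T4_nonneg hθ hl hK hX'.le _))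

lemma NumOz.mono {w : ℝ → ℝ} {Cw η : ℝ} {Aw : ℕ} {K X Y K' : ℝ} {R : ℝ} {J : ℕ}
    {D E0 E1 B θ lam : ℝ} {N₀ N₁ : ℕ} {A : ℕ} {CP CP' Z : ℝ} {α : Eis → ℂ} {Ro : ℝ}
    (hθ : 0 ≤ θ) (hl : 0 ≤ lam) (hK : 0 ≤ K) (hCP : CP ≤ CP')
    (H : NumOz w Cw η Aw K X Y K' R J D E0 E1 B θ lam N₀ N₁ A CP Z α Ro) :
    NumOz w Cw η Aw K X Y K' R J D E0 E1 B θ lam N₀ N₁ A CP' Z α Ro := by
  intro p hp t X' φ hX' hXX hφ hφs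
  refine (H p hp t X' φ hX' hXX hφ hφs).trans (add_le_add le_rfl (add_le_add ?_ le_rfl))
  exact mul_le_mul_of_nonneg_right hCP (mul_nonneg (by positivity) (T4_nonneg hθ hl hK hX'.le _))

set_option maxHeartbeats 1000000 in
/-- **(LB) at `β = bt φ α p · pw t`**, all R-side numbers abstract -/
theorem lb_bez {w : ℝ → ℝ} (hw : Wgt w) (hw0 : ∀ x, 0 ≤ w x) {N : ℕ} {M : ℝ} {F : ℕ → ℝ → ℂ}
    (hD : WD w N M F)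
    {Cw R ε ε₁ Ce : ℝ} {Aw J : ℕ} (hCw : 0 ≤ Cw) (hR : 0 ≤ R) (hε : 0 ≤ ε) (hε₁ : 0 < ε₁)
    (hCe : 0 ≤ Ce) (hJA : J + 2 ≤ Aw)
    {Λ : ℝ} (hΛ : 1 ≤ Λ) : ∃ C : ℝ, 0 ≤ C ∧
    ∀ (K X Y D G₀ E0 E1 B θ lam h η : ℝ) (N₀ N₁ I : ℕ), 0 < K → K ≤ Y → 0 < X → 1 ≤ Y →
    0 ≤ D → D ≤ Y → 1 ≤ E0 → E0 ≤ Y → 1 ≤ B → 0 < θ → θ ≤ 1 → 0 < lam → lam ≤ 1 → B⁻¹ ≤ θ →
    1 ≤ N₁ → (N₁ : ℝ) ≤ Y → ((N₁ : ℝ) / K ^ 2) ^ (1 / 6 : ℝ) ≤ θ → 0 ≤ h →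
    Real.exp (-(h / 3)) ≤ θ → θ ≤ lam →
    ((N₁ : ℝ) / (K * Real.exp (-h)) ^ 2) ^ (1 / 6 : ℝ) ≤ 1 → (N₁ : ℝ) < 2 ^ I → 0 < η → η ≤ 1 →
    ∀ α : Eis → ℂ, (∀ n, α n ≠ 0 → n ∈ S Y) →
    (∀ n, α n ≠ 0 → |Real.log (nm n) - Real.log X| ≤ R) → (∀ n, ‖α n‖ ≤ Y ^ ε) →
    ∀ Ma Ml Rc Et Ro Ro' : ℝ, 0 ≤ Ma → 0 ≤ Ml → 0 ≤ Rc → 0 ≤ Et → 0 ≤ Ro → 0 ≤ Ro' →
    (∀ g ∈ S Y, (nm g : ℝ) ≤ G₀ → ∀ V : ℝ, 1 ≤ V → V ≤ 9 * (Λ * N₁) * nm g → ∀ t : ℝ,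
      VF V (tws (sg α g) t) ≤
        Ma / (nm g : ℝ) ^ 2 * ((V * K / (X / nm g) ^ 2) ^ (1 / 3 : ℝ)) * (1 + |t|) ^ J) →
    (∀ g ∈ S Y, ∀ B V : ℝ, 1 ≤ B → B ≤ Y → 1 ≤ V → V ≤ 9 * (Λ * N₁) / (nm g : ℝ) ^ 2 → ∀ t : ℝ,
      E1551.JB Y α (fun U => G₀ < nm (g * U)) g B V t ≤
        Ml / (nm g : ℝ) ^ 2 * yv K X g V * (1 + |t|) ^ J) →
    ∀ Q : ℕ × ℕ → Eis → Prop, (∀ p k, IsPrim k → w (nm k / K) ≠ 0 → Q p k → Cut E1 k) →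
    (∀ p k, IsPrim k → w (nm k / (K * Real.exp (-h))) ≠ 0 → Q p k → Cut E1 k) →
    NumR N M F Cw η Aw K X R J D E0 θ h N₁ I α Rc →
    NumEz w N M F Q Cw η Aw K X Y R J D E0 θ lam h N₀ N₁ (J + 2) (Ce * Y ^ ε) (Λ * N₁) α Et →
    NumOz w Cw η Aw K X Y K R J D E0 E1 B θ lam N₀ N₁ (J + 2) (Ce * Y ^ ε) (Λ * N₁) α Ro →
    NumOz w Cw η Aw K X Y (K * Real.exp (-h)) R J D E0 E1 B θ lam N₀ N₁ (J + 2)
      (Ce * Y ^ ε * Real.exp (-(h / 3))) (Λ * N₁) α Ro' →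
    LBnq w Q Cw η Aw K X Y D N₁ (rho N₀ N₁) R J α
      (C * (η⁻¹) ^ J * (Y ^ ε₁ * Y ^ ε * Y ^ ε₁) *
        (X ^ 2 * (Y ^ ε) ^ 2 + (θ * E0 + lam + (lam * E0)⁻¹) * (Ma + Ml) + Rc + Et + Ro +
          Real.exp (h / 3) * Ro')) := by
  obtain ⟨C₁, hC₁, H₁⟩ := LBW180.LBWs hw hw0 hD (R := 1) zero_le_one (A := J + 2) (by omega) hε₁
  obtain ⟨C₂, hC₂, H₂⟩ := LBT381.lbt_all4 (J := J) (Aw := Aw) (A := J + 2) le_rfl hJA hR hCw hε₁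
  obtain ⟨CD, hCD, HD⟩ := LBo813.Dg_bt_le w Aw (by omega) Cw
  refine ⟨CD * Real.exp R + C₁ * (1 + 3 * Ce) * (1 + (2 * C₂) * (9 * Λ) ^ ε₁), by positivity, ?_⟩
  intro K X Y D G₀ E0 E1 B θ lam h η N₀ N₁ I hK hKY hX hY hD hDY hE0 hE0Y hB hθ hθ1 hlam hlam1 hBθ hN₁ hN₁Y
    hKθ hh hhθ hθl hK'1 hI hη hη1 α hα hαR hαn Ma Ml Rc Et Ro Ro' hMa hMl hRc hEt hRo hRo' hSA hL Q
    hQ hQ' hNR hNE hNO hNO' p hp t X' φ hX' hXX hφ hφs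
  have hY0 : 0 < Y := by linarith
  have hE00 : 0 < E0 := by linarith
  have hq : 1 ≤ Y ^ ε₁ := Real.one_le_rpow hY hε₁.le
  have hqc : 1 ≤ Y ^ ε := Real.one_le_rpow hY hε
  have hN1 : (1 : ℝ) ≤ N₁ := by exact_mod_cast hN₁
  have hZ0 : (0 : ℝ) < N₁ := by linarith
  have hadm : Adm Y X' 1 (fun n => bt φ α p n * pw t (nm n)) :=
    adm_mono hη1 (RGw813.adm_bt hφs hα p t)
  have r1 := hNR p hp t X' φ hX' hXX hφ hφs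
  have r2 := hNE p hp t X' φ hX' hXX hφ hφs
  have r3 := hNO p hp t X' φ hX' hXX hφ hφs
  have r4 := hNO' p hp t X' φ hX' hXX hφ hφs
  have hΛY : Y ≤ Λ * Y := le_mul_of_one_le_left hY0.le hΛ
  have hZΛ : Λ * N₁ ≤ Λ * Y := mul_le_mul_of_nonneg_left hN₁Y (by linarith)
  have s2 := H₂ (9 * Λ * Y) K X X' Y η (Λ * N₁) G₀ Ma Ml E0 θ lam lam⁻¹ lam α (by nlinarith) hK hX hX' hXX hY
    (by nlinarith) (by positivity) (by nlinarith) hη hη1 hMa hMl hE00 hθ.le hlam.le (inv_pos.mpr hlam).le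
    hlam.le hα hSA hL p hp φ hφ t
  have s3 := HD K X X' Y R (Y ^ ε) η hK.le hX hY0.le (by linarith) hη hη1 hX' hXX α
    (RGw813.FS_of_S hY0.le hα) hα hαR (fun n _ => hαn n) φ hφ p t
  clear hNR hNE hNO hNO' hSA hL
  generalize (fun n => bt φ α p n * pw t (nm n)) = β at hadm r1 r2 r3 r4 s2 s3 ⊢
  obtain ⟨V, hV⟩ : ∃ V : ℝ, V = (1 + |t|) ^ J := ⟨_, rfl⟩
  rw [← hV] at r1 r2 r3 r4 s2 ⊢
  have hV1 : 1 ≤ V := by rw [hV]; exact one_le_pow₀ (by linarith [abs_nonneg t])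
  have hKX : 0 ≤ K / X := by positivity
  obtain ⟨et, het⟩ : ∃ et : ℝ, et = ∑ i ∈ Finset.range N, ‖CrQ (GF (Fh (F i) h))
        (fun k => ¬ Q p k) (sc K M i) β (StE E0 (JW D (1 / 10) N₁) (omr (Om N₀ N₁)) β)‖ := ⟨_, rfl⟩
  rw [← het] at r2
  -- the four functionals
  have t1 : 0 ≤ EHs ((J + 2 : ℕ) : ℝ) K X' Y N₁ E0 β :=
    EHc_nonneg (fun n => Nat.cast_nonneg n) _ hK.le hX'.le β
  have t2 : 0 ≤ EHf ((J + 2 : ℕ) : ℝ) K X' Y N₁ β := EHc_nonneg (fun n => by positivity) _ hK.le hX'.le β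
  have t3 : 0 ≤ EHt ((J + 2 : ℕ) : ℝ) K X' Y N₁ E0 β :=
    EHc_nonneg (fun n => by positivity) _ hK.le hX'.le β
  have t4 : 0 ≤ EHc (fun _ => (1 : ℝ)) (fun _ => True) ((J + 2 : ℕ) : ℝ) K X' Y N₁ β :=
    EHc_nonneg (fun n => zero_le_one) _ hK.le hX'.le β
  have hKX' : 0 ≤ K / X' := by positivity
  have hli : 0 ≤ lam⁻¹ := (inv_pos.mpr hlam).le
  obtain ⟨Tk, hTk⟩ : ∃ Tk : ℝ, Tk = (K / X') * T4 ((J + 2 : ℕ) : ℝ) K X' Y (Λ * N₁) E0 θ lam β :=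
    ⟨_, rfl⟩
  have hTk0 : 0 ≤ Tk := by
    rw [hTk]
    exact mul_nonneg hKX' (T4_nonneg hθ.le hlam.le hK.le hX'.le β)
  rw [← hTk] at r2 r3 r4
  have hV0 : 0 ≤ V := by linarith
  have hOF : 0 ≤ Ce * Y ^ ε * Tk + (K / X) * (Ro * V) := by positivity
  have hOF' : 0 ≤ Ce * Y ^ ε * Real.exp (-(h / 3)) * Tk + (K / X) * (Ro' * V) := by positivity
  have s1 := H₁ Y K X' Y D (1 / 10) N₁ E0 E1 B θ lam h I hY hK hKY hX' hY le_rfl hD hDY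
    hZ0 hN₁Y hE00.le hE0Y hB hθ hθ1 hlam hlam1 hBθ hKθ hh hhθ hK'1 hI β hadm (Om N₀ N₁)
    (rho N₀ N₁) (fun n => rfl) (Om_nonneg N₀ N₁) (Om_le_one N₀ N₁) (Q p) (hQ p) (hQ' p)
    et (Ce * Y ^ ε * Tk + (K / X) * (Ro * V))
    (Ce * Y ^ ε * Real.exp (-(h / 3)) * Tk + (K / X) * (Ro' * V))
    (SqQ w (K * Real.exp (-h)) (Q p) β) hOF hOF' le_rfl het.ge r3 r4
  have t5 : EHf ((J + 2 : ℕ) : ℝ) K X' Y N₁ β ≤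
      EHc (fun _ => (1 : ℝ)) (fun _ => True) ((J + 2 : ℕ) : ℝ) K X' Y N₁ β :=
    LBV180.EHf_le_EH1 hY0.le hK.le hX'.le β
  have hTT : (K / X') * (θ * EHs ((J + 2 : ℕ) : ℝ) K X' Y N₁ E0 β +
      lam * EHf ((J + 2 : ℕ) : ℝ) K X' Y N₁ β +
      lam⁻¹ * EHt ((J + 2 : ℕ) : ℝ) K X' Y N₁ E0 β +
      Real.exp (-(h / 3)) * EHf ((J + 2 : ℕ) : ℝ) K X' Y N₁ β) ≤ Tk := by
    rw [hTk]
    refine mul_le_mul_of_nonneg_left ?_ hKX'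
    refine le_trans ?_ (T4_monoZ hθ.le hlam.le hK.le hX'.le
      (le_mul_of_one_le_left hZ0.le hΛ : (N₁ : ℝ) ≤ Λ * N₁) β)
    unfold T4
    have a1 : Real.exp (-(h / 3)) * EHf ((J + 2 : ℕ) : ℝ) K X' Y N₁ β ≤
        lam * EHc (fun _ => (1 : ℝ)) (fun _ => True) ((J + 2 : ℕ) : ℝ) K X' Y N₁ β :=
      mul_le_mul (hhθ.trans hθl) t5 t2 hlam.le
    linarith
  obtain ⟨m, hm⟩ : ∃ m : ℝ, m = (θ * E0 + lam + (lam * E0)⁻¹) * (Ma + Ml) := ⟨_, rfl⟩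
  have hm0 : 0 ≤ m := by rw [hm]; positivity
  have hTk2 : Tk ≤ (K / X) * ((2 * C₂) * (η⁻¹) ^ J * ((9 * Λ) ^ ε₁ * Y ^ ε₁) * m * V) := by
    rw [hTk]
    unfold T4
    refine s2.trans (mul_le_mul_of_nonneg_left ?_ hKX)
    rw [Real.mul_rpow (by positivity) hY0.le]
    have e1 : θ * E0 + lam + lam⁻¹ * E0⁻¹ + lam ≤ 2 * (θ * E0 + lam + (lam * E0)⁻¹) := by
      rw [mul_inv]
      have a1 : 0 ≤ θ * E0 := by positivity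
      have a2 : 0 ≤ lam⁻¹ * E0⁻¹ := by positivity
      linarith
    have e2 : 0 ≤ Ma + Ml := by linarith
    have e3 : (θ * E0 + lam + lam⁻¹ * E0⁻¹ + lam) * (Ma + Ml) ≤ 2 * m := by
      rw [hm, ← mul_assoc]
      exact mul_le_mul_of_nonneg_right e1 e2
    have e4 : 0 ≤ C₂ * (η⁻¹) ^ J * ((9 * Λ) ^ ε₁ * Y ^ ε₁) := by positivity
    calc C₂ * (η⁻¹) ^ J * ((9 * Λ) ^ ε₁ * Y ^ ε₁) * ((θ * E0 + lam + lam⁻¹ * E0⁻¹ + lam) * (Ma + Ml)) * V ≤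
          C₂ * (η⁻¹) ^ J * ((9 * Λ) ^ ε₁ * Y ^ ε₁) * (2 * m) * V :=
          mul_le_mul_of_nonneg_right (mul_le_mul_of_nonneg_left e3 e4) (by linarith)
      _ = _ := by ring
  have hHj : 1 ≤ (η⁻¹) ^ J := one_le_pow₀ ((one_le_inv₀ hη).mpr hη1)
  have fin := fin_num (C₁ := C₁) (C₂ := 2 * C₂) (CD := CD * Real.exp R) (Ce := 3 * Ce)
    (Q9 := (9 * Λ) ^ ε₁) (q := Y ^ ε₁) (c := Y ^ ε) (kx := K / X)
    (T := (K / X') * (θ * EHs ((J + 2 : ℕ) : ℝ) K X' Y N₁ E0 β +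
      lam * EHf ((J + 2 : ℕ) : ℝ) K X' Y N₁ β +
      lam⁻¹ * EHt ((J + 2 : ℕ) : ℝ) K X' Y N₁ E0 β +
      Real.exp (-(h / 3)) * EHf ((J + 2 : ℕ) : ℝ) K X' Y N₁ β)) (Tk := Tk) (m := m) (V := V)
    (Xd := X ^ 2 * (Y ^ ε) ^ 2)
    (L := 2 * cP w * K ^ (2 / 3 : ℝ) * (XJw (rho N₀ N₁) (JW D (1 / 10) N₁) β).re - SqQ w K (Q p) β)
    (dg := E1551.Dg w K Y β) (Hj := (η⁻¹) ^ J) (RR := Rc) (EE := Et) (OO := Ro)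
    (OO' := Real.exp (h / 3) * Ro') hC₁ (by positivity) (by positivity) (by positivity) hq hqc
    (by positivity) hHj hKX hm0 hV1 hTT hTk0 hTk2 hRc hEt hRo (by positivity) (by positivity)
    ?_ ?_
  · rw [← hm]
    refine le_trans (le_of_eq ?_) (fin.trans (le_of_eq ?_))
    · ring
    · ring
  · refine s1.trans (mul_le_mul_of_nonneg_left ?_ (by positivity))
    have e6 : Real.exp (h / 3) * Real.exp (-(h / 3)) = 1 := by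
      rw [← Real.exp_add]; simp
    have e5 : Real.exp (h / 3) * (Ce * Y ^ ε * Real.exp (-(h / 3)) * Tk + (K / X) * (Ro' * V)) =
        Ce * Y ^ ε * Tk + (K / X) * ((Real.exp (h / 3) * Ro') * V) := by
      linear_combination (Ce * Y ^ ε * Tk) * e6
    rw [e5]
    linarith
  · refine s3.trans (le_of_eq ?_)
    ring

set_option maxHeartbeats 1000000 in
/-- **the tail from the `l`-terms, the near-top terms and the second scale** -/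
theorem numE_ofz {w : ℝ → ℝ} (hw : Wgt w) (hw0 : ∀ x, 0 ≤ w x) {N : ℕ} {M : ℝ} {F : ℕ → ℝ → ℂ}
    (hD : WD w N M F) {Cw R ε e₀ Ce : ℝ} {Aw J : ℕ} (hCw : 0 ≤ Cw) (hR : 0 ≤ R) (hε : 0 < ε)
    (he₀ : 0 < e₀) (hCe : 0 ≤ Ce) (hJA : J + 2 ≤ Aw) {Λ : ℝ} (hΛ : 1 ≤ Λ) : ∃ C c₀ : ℝ, 0 ≤ C ∧ 1 ≤ c₀ ∧
    ∀ (K X Y D E0 η : ℝ) (N₀ N₁ I : ℕ), 1 ≤ X → X ≤ Y → K ≤ Y → c₀ ≤ E0 → E0 ≤ Y → 0 ≤ D →
    D ≤ Y → (N₁ : ℝ) ≤ Y → Y ^ e₀ ≤ E0 → E0 ^ 60 ≤ K → 1 ≤ N₀ → N₀ ≤ N₁ → (N₁ : ℝ) < 2 ^ I →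
    0 < η → η ≤ 1 → ∀ α : Eis → ℂ, (∀ n, α n ≠ 0 → n ∈ S Y) →
    (∀ n, α n ≠ 0 → |Real.log (nm n) - Real.log X| ≤ R) → (∀ n, ‖α n‖ ≤ Y ^ ε) →
    ∀ Rl Nt Es : ℝ, 0 ≤ Rl → 0 ≤ Nt → 0 ≤ Es →
    NumL N M F Cw η Aw K X R J D E0 (tN E0) (hN E0) (E0 ^ 8) N₁ I (XN N K) α Rl →
    NumNz N M F Cw η Aw K X Y R J D E0 (tN E0) (lN E0) (hN E0) (E0 ^ 8) (E0 ^ 4) (K1N K E0)
      (K2N K E0) N₀ N₁ (J + 2) (Ce * Y ^ ε) (Λ * N₁) α Nt →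
    (X ^ 2 * E0 ^ 20 ≤ K * N₀ ∨
      NumS w (fun _ => Qc (K1N K E0)) Cw η Aw K X R J (hN E0) α Es) →
    NumEz w N M F (fun _ => Qc (K1N K E0)) Cw η Aw K X Y R J D E0 (tN E0) (lN E0) (hN E0) N₀ N₁
      (J + 2) (C * Y ^ ε) (Λ * N₁) α (C * (Y ^ ε * Rl + X ^ 2 * (Y ^ ε * Y ^ ε)) + Nt + Es) := by
  obtain ⟨C₁, hC₁, H₁⟩ := et_le hD (R := 1) zero_le_one (A := J + 2) (by omega) (ε := ε)
    (e₁ := e₀ / 2) (B := 1 + ε) hε (by linarith) (by linarith)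
  obtain ⟨C₂, hC₂, H₂⟩ := secS hw hw0 (Cw := Cw) (R := R) (ε := ε) (e₃ := 13 * e₀) (a := 2 + ε)
    (Aw := Aw) (J := J) hCw hR hε (by linarith) (by linarith) hJA
  have hiA := iA_nonneg Aw
  obtain ⟨c₁, hc₁⟩ : ∃ c₁ : ℝ, c₁ = Real.exp (2 + N) + Cw * iA Aw + 1 := ⟨_, rfl⟩
  have hex : 0 < Real.exp (2 + (N : ℝ)) := Real.exp_pos _
  have hCi : 0 ≤ Cw * iA Aw := mul_nonneg hCw hiA
  have hc₁1 : 1 ≤ c₁ := by rw [hc₁]; linarith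
  refine ⟨C₁ * c₁ ^ ε + C₁ + Ce + C₂, max (max (Real.exp (2 + N)) 16)
    ((c₁ ^ (e₀ / 2) * Real.exp M) ^ 2), by positivity,
    le_max_of_le_left (le_max_of_le_right (by norm_num)), ?_⟩
  intro K X Y D E0 η N₀ N₁ I hX hXY hKY hcE hE0Y hD0 hDY hN₁Y hYE hEK hN₀ hN₀₁ hI hη hη1 α hα hαR
    hαn Rl Nt Es hRl hNt hEs hNL hNN hroom p hp t X' φ hX' hXX hφ hφs
  have k1 : Real.exp (2 + N) ≤ E0 := ((le_max_left _ _).trans (le_max_left _ _)).trans hcE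
  have k2 : 16 ≤ E0 := ((le_max_right _ _).trans (le_max_left _ _)).trans hcE
  have k3 : (c₁ ^ (e₀ / 2) * Real.exp M) ^ 2 ≤ E0 := (le_max_right _ _).trans hcE
  have hE1 : 1 ≤ E0 := by linarith
  have hE0 : 0 < E0 := by linarith
  have hY : 1 ≤ Y := by linarith
  have hY0 : 0 < Y := by linarith
  have hX0 : 0 < X := by linarith
  have hK1 : 1 ≤ K := (one_le_pow₀ hE1).trans hEK
  have hK : 0 < K := by linarith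
  have hN1 : (1 : ℝ) ≤ N₁ := by exact_mod_cast hN₀.trans hN₀₁
  have hN10 : (0 : ℝ) < N₁ := by linarith
  have hZm : (N₁ : ℝ) ≤ Λ * N₁ := le_mul_of_one_le_left hN10.le hΛ
  have hp8 : ∀ m : ℕ, m ≤ 60 → E0 ^ m ≤ Y := fun m hm =>
    ((pow_le_pow_right₀ hE1 hm).trans hEK).trans hKY
  have hYP : Y ≤ c₁ * Y := le_mul_of_one_le_left hY0.le hc₁1
  have hP : 1 ≤ c₁ * Y := hY.trans hYP
  have hP0 : 0 < c₁ * Y := by linarith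
  have hq : 1 ≤ Y ^ ε := Real.one_le_rpow hY hε.le
  have hadm : Adm Y X' 1 (fun n => bt φ α p n * pw t (nm n)) :=
    adm_mono hη1 (RGw813.adm_bt hφs hα p t)
  have hFS := RGw813.FS_of_S hY0.le hα
  have hβB : ∀ n, ‖(fun n => bt φ α p n * pw t (nm n)) n‖ ≤ (c₁ * Y) ^ (1 + ε) := by
    intro n
    have b1 := norm_bt_le hφ hη (by omega) hFS p t n
    have b2 : (Cw * iA Aw) * ‖α n‖ ≤ c₁ * Y ^ ε :=
      mul_le_mul (by rw [hc₁]; linarith) (hαn n) (norm_nonneg _) (by linarith)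
    have b3 : c₁ * Y ^ ε ≤ (c₁ * Y) ^ (1 + ε) := by
      rw [Real.rpow_add hP0, Real.rpow_one]
      have b4 : Y ^ ε ≤ (c₁ * Y) ^ ε := Real.rpow_le_rpow hY0.le hYP hε.le
      have b5 : c₁ ≤ c₁ * Y := le_mul_of_one_le_right (by linarith) hY
      exact mul_le_mul b5 b4 (by positivity) hP0.le
    exact b1.trans (b2.trans b3)
  have hXP : ((XN N K : ℕ) : ℝ) ≤ c₁ * Y := by
    unfold XN
    have b1 : ((⌈Real.exp (2 + N) * K⌉₊ : ℕ) : ℝ) < Real.exp (2 + N) * K + 1 :=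
      Nat.ceil_lt_add_one (by positivity)
    have b2 : Real.exp (2 + N) * K ≤ Real.exp (2 + N) * Y := mul_le_mul_of_nonneg_left hKY hex.le
    have b3 : 0 ≤ Cw * iA Aw * Y := by positivity
    calc ((⌈Real.exp (2 + N) * K⌉₊ : ℕ) : ℝ) ≤ Real.exp (2 + N) * Y + Cw * iA Aw * Y + Y := by
          linarith
      _ = c₁ * Y := by rw [hc₁]; ring
  have hKX : Real.exp (2 + N) * K ≤ ((XN N K : ℕ) : ℝ) := Nat.le_ceil _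
  have hgap := gapP (e₀ := e₀) (M := M) (c₁ := c₁) (Y := Y) (E0 := E0) (by linarith) hY0.le hYE k3
  have r1 := hNL p hp t X' φ hX' hXX hφ hφs
  have r2 := hNN p hp t X' φ hX' hXX hφ hφs
  have hXX2 : X ≤ Y ^ (2 + ε) := by
    refine hXY.trans ?_
    calc Y = Y ^ (1 : ℝ) := (Real.rpow_one Y).symm
      _ ≤ Y ^ (2 + ε) := Real.rpow_le_rpow_of_exponent_le hY (by linarith)
  -- the second scale
  have hsec : Real.exp (hN E0 / 3) * SqQ w (K * Real.exp (-hN E0)) (Qc (K1N K E0))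
      (fun n => bt φ α p n * pw t (nm n)) ≤
      (C₂ * Y ^ ε) * ((K / X') * T4 ((J + 2 : ℕ) : ℝ) K X' Y (Λ * N₁) E0 (tN E0) (lN E0)
        (fun n => bt φ α p n * pw t (nm n))) +
      (K / X) * (C₂ * (X ^ 2 * (Y ^ ε * Y ^ ε)) * (1 + |t|) ^ J + Es * (1 + |t|) ^ J) := by
    have hKX0 : 0 ≤ K / X := by positivity
    have hT0 : 0 ≤ T4 ((J + 2 : ℕ) : ℝ) K X' Y (Λ * N₁) E0 (tN E0) (lN E0)
        (fun n => bt φ α p n * pw t (nm n)) :=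
      T4_nonneg (tN_pos hE1).le (lN_pos hE1).le hK.le hX'.le _
    rcases hroom with hroom | hroom
    · have q1 := SqQ_le hw hw0 (K := K * Real.exp (-hN E0)) (by positivity) (Qc (K1N K E0))
        (fun n => bt φ α p n * pw t (nm n))
      have hKe : K * Real.exp (-hN E0) = K * (E0 ^ 7)⁻¹ := by rw [exp_hNn hE1]
      have hKe1 : 1 ≤ K * (E0 ^ 7)⁻¹ := by
        rw [← div_eq_mul_inv, le_div_iff₀ (by positivity), one_mul]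
        exact (pow_le_pow_right₀ hE1 (by norm_num : 7 ≤ 60)).trans hEK
      have hYa : Y ^ (-(2 + ε)) ≤ K * Real.exp (-hN E0) := by
        rw [hKe]
        exact (Real.rpow_le_one_of_one_le_of_nonpos hY (by linarith)).trans hKe1
      have h13 : Y ^ (13 * e₀) ≤ E0 ^ 13 := by
        calc Y ^ (13 * e₀) = (Y ^ e₀) ^ 13 := by
              rw [← Real.rpow_natCast, ← Real.rpow_mul hY0.le]
              congr 1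
              push_cast
              ring
          _ ≤ E0 ^ 13 := pow_le_pow_left₀ (by positivity) hYE _
      have hr : X ^ 2 * Y ^ (13 * e₀) ≤ K * Real.exp (-hN E0) * N₁ := by
        rw [hKe]
        have b1 : X ^ 2 * E0 ^ 20 ≤ K * N₁ :=
          hroom.trans (mul_le_mul_of_nonneg_left (by exact_mod_cast hN₀₁) hK.le)
        have b2 : X ^ 2 * E0 ^ 13 = X ^ 2 * E0 ^ 20 * (E0 ^ 7)⁻¹ := by
          field_simp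
        calc X ^ 2 * Y ^ (13 * e₀) ≤ X ^ 2 * E0 ^ 13 :=
              mul_le_mul_of_nonneg_left h13 (by positivity)
          _ = X ^ 2 * E0 ^ 20 * (E0 ^ 7)⁻¹ := b2
          _ ≤ K * N₁ * (E0 ^ 7)⁻¹ := mul_le_mul_of_nonneg_right b1 (by positivity)
          _ = _ := by ring
      have hαs : ∑ n ∈ S Y, ‖α n‖ ≤ Y ^ (2 + ε) := by
        have b1 : ∑ n ∈ S Y, ‖α n‖ ≤ ((S Y).card : ℝ) * Y ^ ε := by
          rw [← nsmul_eq_mul]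
          exact Finset.sum_le_card_nsmul _ _ _ fun n _ => hαn n
        have b2 := GLS106.card_S_le hY
        have b3 : (16 : ℝ) ≤ Y := k2.trans hE0Y
        calc ∑ n ∈ S Y, ‖α n‖ ≤ ((S Y).card : ℝ) * Y ^ ε := b1
          _ ≤ (Y * Y) * Y ^ ε := by
              refine mul_le_mul_of_nonneg_right (b2.trans ?_) (by positivity)
              exact mul_le_mul_of_nonneg_right b3 hY0.le
          _ = Y ^ (2 + ε) := by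
              rw [Real.rpow_add hY0, Real.rpow_two]
              ring
      have q2 := H₂ K X Y (hN E0) η N₁ hK hX hY hXX2 hYa hN10 hr (hN_nonneg hE1) hη hη1 α hα hαR
        hαn hαs p t X' φ hX' hXX hφ hφs
      have q3 := (T4_ge_1 (A := ((J + 2 : ℕ) : ℝ)) (K := K) (X := X') (Y := Y) (Z := N₁) (E0 := E0)
        (tN_pos hE1).le (lN_pos hE1).le hK.le hX'.le ((exp_hNm hE1).trans (tN_le_lN hE1))
        (fun n => bt φ α p n * pw t (nm n))).trans (T4_monoZ (tN_pos hE1).le (lN_pos hE1).le hK.le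
          hX'.le hZm _)
      have q4 : C₂ * Y ^ ε * ((K / X') * (Real.exp (-(hN E0 / 3)) *
          EHc (fun _ => (1 : ℝ)) (fun _ => True) ((J + 2 : ℕ) : ℝ) K X' Y N₁
            (fun n => bt φ α p n * pw t (nm n)))) ≤
          (C₂ * Y ^ ε) * ((K / X') * T4 ((J + 2 : ℕ) : ℝ) K X' Y (Λ * N₁) E0 (tN E0) (lN E0)
            (fun n => bt φ α p n * pw t (nm n))) :=
        mul_le_mul_of_nonneg_left (mul_le_mul_of_nonneg_left q3 (by positivity)) (by positivity)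
      have q5 := mul_le_mul_of_nonneg_left q1 (Real.exp_pos (hN E0 / 3)).le
      have q6 : 0 ≤ (K / X) * (Es * (1 + |t|) ^ J) := by positivity
      calc _ ≤ _ := q5
        _ ≤ _ := q2
        _ ≤ _ := by
          rw [mul_add (K / X)]
          linarith
    · have q1 := hroom p hp t X' φ hX' hXX hφ hφs
      refine q1.trans ?_
      have q2 : 0 ≤ (C₂ * Y ^ ε) * ((K / X') * T4 ((J + 2 : ℕ) : ℝ) K X' Y (Λ * N₁) E0 (tN E0) (lN E0)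
        (fun n => bt φ α p n * pw t (nm n))) :=
        mul_nonneg (by positivity) (mul_nonneg (by positivity) hT0)
      have q3 : 0 ≤ (K / X) * (C₂ * (X ^ 2 * (Y ^ ε * Y ^ ε)) * (1 + |t|) ^ J) := by positivity
      rw [mul_add (K / X)]
      linarith
  clear hNL hNN hroom
  generalize (fun n => bt φ α p n * pw t (nm n)) = β at hadm hβB r1 r2 hsec ⊢
  have e1 := H₁ (c₁ * Y) K X' Y D (1 / 10) N₁ E0 (E0 ^ 8) (E0 ^ 4) (K1N K E0) (K2N K E0) (tN E0)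
    (hN E0) I (XN N K) hP hXP hKX hK hX' hY hYP hD0 (hDY.trans hYP) hN10 (hN₁Y.trans hYP) hI
    hE0.le hE0Y (by positivity) ((hp8 8 (by norm_num)).trans hYP) (by positivity)
    ((hp8 4 (by norm_num)).trans hYP) (by unfold K1N; positivity)
    ((mul_inv_le_self hK.le hE1).trans (hKY.trans hYP)) (by unfold K2N; positivity)
    ((mul_inv_le_self hK.le hE1).trans (hKY.trans hYP)) (tN_pos hE1) (hN_nonneg hE1)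
    (by rw [exp_hN1 hE1]; exact (hp8 7 (by norm_num)).trans hYP)
    (gap0 hE0 hK.le k1)
    (by rw [exp_hN1 hE1]; exact gap1 hE0 hK.le hgap)
    (by rw [exp_hN1 hE1]; exact gap2 hE0 hK.le hgap)
    β hadm hβB (omr (Om N₀ N₁)) (omr_le_one N₀ N₁)
  obtain ⟨V, hV⟩ : ∃ V : ℝ, V = (1 + |t|) ^ J := ⟨_, rfl⟩
  rw [← hV] at r1 r2 hsec ⊢
  have hV1 : 1 ≤ V := by rw [hV]; exact one_le_pow₀ (by linarith [abs_nonneg t])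
  have hKX0 : 0 ≤ K / X := by positivity
  have hKX' : 0 ≤ K / X' := by positivity
  have hT0 : 0 ≤ T4 ((J + 2 : ℕ) : ℝ) K X' Y (Λ * N₁) E0 (tN E0) (lN E0) β :=
    T4_nonneg (tN_pos hE1).le (lN_pos hE1).le hK.le hX'.le β
  have hTT : (K / X') * (tN E0 * EHs ((J + 2 : ℕ) : ℝ) K X' Y N₁ E0 β +
      (tN E0 * E0 ^ 8)⁻¹ * EHf ((J + 2 : ℕ) : ℝ) K X' Y N₁ β) ≤
      (K / X') * T4 ((J + 2 : ℕ) : ℝ) K X' Y (Λ * N₁) E0 (tN E0) (lN E0) β :=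
    mul_le_mul_of_nonneg_left ((T4_ge_sf (tN_pos hE1).le (lN_pos hE1).le hK.le hX'.le (tL_le hE1)
      β).trans (T4_monoZ (tN_pos hE1).le (lN_pos hE1).le hK.le hX'.le hZm β)) hKX'
  have htiny : (c₁ * Y) ^ (-(1 + ε)) ≤ (K / X) * X ^ 2 := by
    have b1 : (c₁ * Y) ^ (-(1 + ε)) ≤ 1 :=
      Real.rpow_le_one_of_one_le_of_nonpos hP (by linarith)
    have b2 : (K / X) * X ^ 2 = K * X := by field_simp
    rw [b2]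
    exact b1.trans (one_le_mul_of_one_le_of_one_le hK1 hX)
  rw [Real.mul_rpow (by linarith) hY0.le] at e1
  have fin := numE_num (C₁ := C₁) (q1 := c₁ ^ ε) (q := Y ^ ε) (kx := K / X)
    (T4s := (K / X') * T4 ((J + 2 : ℕ) : ℝ) K X' Y (Λ * N₁) E0 (tN E0) (lN E0) β)
    (tp := (K / X') * (tN E0 * EHs ((J + 2 : ℕ) : ℝ) K X' Y N₁ E0 β +
      (tN E0 * E0 ^ 8)⁻¹ * EHf ((J + 2 : ℕ) : ℝ) K X' Y N₁ β))
    (Rl := Rl) (V := V) (Nt := Nt) (Es := Es) (X2 := X ^ 2) (C₂ := C₂) (Ce := Ce)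
    hC₁ hC₂ hCe (Real.one_le_rpow hc₁1 hε.le) hq hKX0 hTT (mul_nonneg hKX' hT0) r1 hRl hV1 hEs hNt
    (by positivity) (by positivity) htiny r2 hsec e1
  exact fin

set_option maxHeartbeats 1000000 in
/-- **the lower bound for `E0 ≥ c₀`** -/
theorem lb_mainz {w : ℝ → ℝ} (hw : Wgt w) (hw0 : ∀ x, 0 ≤ w x) {N : ℕ} {M : ℝ} {F : ℕ → ℝ → ℂ}
    (hD : WD w N M F) {Cw R ε e₀ Ce : ℝ} {Aw J : ℕ} (hCw : 0 ≤ Cw) (hR : 0 ≤ R) (hε : 0 < ε)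
    (he₀ : 0 < e₀) (hCe : 0 ≤ Ce) (hJA : J + 2 ≤ Aw) {Λ : ℝ} (hΛ : 1 ≤ Λ) : ∃ C c₀ : ℝ, 0 ≤ C ∧ 1 ≤ c₀ ∧
    ∀ (K X Y E0 D G₀ η : ℝ) (N₀ N₁ I : ℕ), 1 ≤ X → X ≤ Y → K ≤ Y → c₀ ≤ E0 → E0 ≤ Y → 0 ≤ D →
    D ≤ Y → (N₁ : ℝ) ≤ Y → Y ^ e₀ ≤ E0 → E0 ^ 60 ≤ K → 1 ≤ N₀ → N₀ ≤ N₁ →
    (N₁ : ℝ) * E0 ^ 30 ≤ K ^ 2 → (N₁ : ℝ) < 2 ^ I →
    0 < η → η ≤ 1 → ∀ α : Eis → ℂ, (∀ n, α n ≠ 0 → n ∈ S Y) →
    (∀ n, α n ≠ 0 → |Real.log (nm n) - Real.log X| ≤ R) → (∀ n, ‖α n‖ ≤ Y ^ ε) →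
    ∀ Ma Ml Rc Rl Nt Ro Ro' Es : ℝ, 0 ≤ Ma → 0 ≤ Ml → 0 ≤ Rc → 0 ≤ Rl → 0 ≤ Nt → 0 ≤ Ro →
    0 ≤ Ro' → 0 ≤ Es →
    (∀ g ∈ S Y, (nm g : ℝ) ≤ G₀ → ∀ V : ℝ, 1 ≤ V → V ≤ 9 * (Λ * N₁) * nm g → ∀ t : ℝ,
      VF V (tws (sg α g) t) ≤
        Ma / (nm g : ℝ) ^ 2 * ((V * K / (X / nm g) ^ 2) ^ (1 / 3 : ℝ)) * (1 + |t|) ^ J) →
    (∀ g ∈ S Y, ∀ B V : ℝ, 1 ≤ B → B ≤ Y → 1 ≤ V → V ≤ 9 * (Λ * N₁) / (nm g : ℝ) ^ 2 → ∀ t : ℝ,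
      E1551.JB Y α (fun U => G₀ < nm (g * U)) g B V t ≤
        Ml / (nm g : ℝ) ^ 2 * yv K X g V * (1 + |t|) ^ J) →
    NumR N M F Cw η Aw K X R J D E0 (tN E0) (hN E0) N₁ I α (Y ^ ε * Y ^ ε * Rc) →
    NumL N M F Cw η Aw K X R J D E0 (tN E0) (hN E0) (E0 ^ 8) N₁ I (XN N K) α (Y ^ ε * Rl) →
    NumNz N M F Cw η Aw K X Y R J D E0 (tN E0) (lN E0) (hN E0) (E0 ^ 8) (E0 ^ 4) (K1N K E0)
      (K2N K E0) N₀ N₁ (J + 2) (Ce * Y ^ ε) (Λ * N₁) α (Y ^ ε * Y ^ ε * Nt) →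
    NumOz w Cw η Aw K X Y K R J D E0 (E1N E0) (BN E0) (tN E0) (lN E0) N₀ N₁ (J + 2)
      (Ce * Y ^ ε) (Λ * N₁) α (Y ^ ε * Y ^ ε * Ro) →
    NumOz w Cw η Aw K X Y (K * Real.exp (-hN E0)) R J D E0 (E1N E0) (BN E0) (tN E0) (lN E0) N₀ N₁
      (J + 2) (Ce * Y ^ ε * Real.exp (-(hN E0 / 3))) (Λ * N₁) α (Y ^ ε * Y ^ ε * Ro') →
    (X ^ 2 * E0 ^ 20 ≤ K * N₀ ∨
      NumS w (fun _ => Qc (K1N K E0)) Cw η Aw K X R J (hN E0) α (Y ^ ε * Y ^ ε * Es)) →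
    LBnq w (fun _ => Qc (K1N K E0)) Cw η Aw K X Y D N₁ (rho N₀ N₁) R J α
      (C * (η⁻¹) ^ (2 * J + 2) * Y ^ (4 * ε) *
        (X ^ 2 + E0 ^ (-(1 / 2) : ℝ) * (Ma + Ml) +
          (Rc + Rl + Nt + Ro + E0 ^ (7 / 3 : ℝ) * Ro' + Es))) := by
  obtain ⟨C₂, c₂, hC₂, hc₂, H₂⟩ := numE_ofz hw hw0 hD (Cw := Cw) (R := R) (ε := ε) (e₀ := e₀)
    (Ce := Ce) (Aw := Aw) (J := J) hCw hR hε he₀ hCe hJA (Λ := Λ) hΛ
  obtain ⟨C₁, hC₁, H₁⟩ := lb_bez hw hw0 hD (Cw := Cw) (R := R) (ε := ε) (ε₁ := ε / 2)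
    (Ce := Ce + C₂) (Aw := Aw) (J := J) hCw hR hε.le (by linarith) (by linarith) hJA (Λ := Λ) hΛ
  obtain ⟨b, hb1, hb⟩ := wgt_bdd hw
  refine ⟨C₁ * (3 + C₂), max c₂ b, by positivity, le_max_of_le_left hc₂, ?_⟩
  intro K X Y E0 D G₀ η N₀ N₁ I hX hXY hKY hcE hE0Y hD0 hDY hN₁Y hYE hEK hN₀ hN₀₁ h30 hI hη hη1 α
    hα hαR hαn Ma Ml Rc Rl Nt Ro Ro' Es hMa hMl hRc hRl hNt hRo hRo' hEs hSA hL hNR hNL hNN hNO
    hNO' hroom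
  have hcE₂ : c₂ ≤ E0 := (le_max_left _ _).trans hcE
  have hbE : b ≤ E0 := (le_max_right _ _).trans hcE
  have hE1 : 1 ≤ E0 := hc₂.trans hcE₂
  have hE0 : 0 < E0 := by linarith
  have hY : 1 ≤ Y := by linarith
  have hY0 : 0 < Y := by linarith
  have hX0 : 0 < X := by linarith
  have hK1 : 1 ≤ K := (one_le_pow₀ hE1).trans hEK
  have hK : 0 < K := by linarith
  have hN1 : 1 ≤ N₁ := hN₀.trans hN₀₁
  have hN10 : (0 : ℝ) ≤ N₁ := Nat.cast_nonneg _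
  have hK' : 0 < K * Real.exp (-hN E0) := by positivity
  have hK'K : K * Real.exp (-hN E0) ≤ K :=
    mul_le_of_le_one_right hK.le (Real.exp_le_one_iff.mpr (by linarith [hN_nonneg hE1]))
  have hYe : 0 ≤ Y ^ ε := by positivity
  have hCPm : Ce * Y ^ ε ≤ (Ce + C₂) * Y ^ ε := mul_le_mul_of_nonneg_right (by linarith) hYe
  have hCPm₂ : C₂ * Y ^ ε ≤ (Ce + C₂) * Y ^ ε := mul_le_mul_of_nonneg_right (by linarith) hYe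
  have hE := H₂ K X Y D E0 η N₀ N₁ I hX hXY hKY hcE₂ hE0Y hD0 hDY hN₁Y hYE hEK hN₀ hN₀₁ hI hη hη1
    α hα hαR hαn (Y ^ ε * Rl) (Y ^ ε * Y ^ ε * Nt) (Y ^ ε * Y ^ ε * Es) (by positivity)
    (by positivity) (by positivity) hNL hNN hroom
  have hQ : ∀ K' : ℝ, 0 < K' → K' ≤ K → ∀ (p : ℕ × ℕ) k, IsPrim k → w (nm k / K') ≠ 0 →
      (fun _ : ℕ × ℕ => Qc (K1N K E0)) p k → Cut (E1N E0) k := by
    intro K' hK'0 hKK p k _ hwk hq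
    exact Qc_cut (by unfold K1N; positivity) hq (by unfold E1N; positivity)
      (cut_at hE1 hbE (by linarith) hK.le hK'0 hKK (hb _ hwk))
  have main := H₁ K X Y D G₀ E0 (E1N E0) (BN E0) (tN E0) (lN E0) (hN E0) η N₀ N₁ I hK hKY hX0 hY
    hD0 hDY hE1 hE0Y (one_le_pow₀ hE1) (tN_pos hE1) (tN_le_one hE1) (lN_pos hE1) (lN_le_one hE1)
    le_rfl hN1 hN₁Y (LBp180.z_le_th hE1 hN10 hK h30) (hN_nonneg hE1) (exp_hNm hE1)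
    (tN_le_lN hE1) (LBp180.z_le_one hE1 hN10 hK h30) hI hη hη1 α hα hαR hαn Ma Ml
    (Y ^ ε * Y ^ ε * Rc)
    (C₂ * (Y ^ ε * (Y ^ ε * Rl) + X ^ 2 * (Y ^ ε * Y ^ ε)) + Y ^ ε * Y ^ ε * Nt +
      Y ^ ε * Y ^ ε * Es) (Y ^ ε * Y ^ ε * Ro) (Y ^ ε * Y ^ ε * Ro') hMa hMl (by positivity)
    (by positivity) (by positivity) (by positivity) hSA hL (fun _ => Qc (K1N K E0)) (hQ K hK le_rfl) (hQ _ hK' hK'K) hNR
    (hE.mono (tN_pos hE1).le (lN_pos hE1).le hK.le hCPm₂)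
    (hNO.mono (tN_pos hE1).le (lN_pos hE1).le hK.le hCPm)
    (hNO'.mono (tN_pos hE1).le (lN_pos hE1).le hK.le
      (mul_le_mul_of_nonneg_right hCPm (Real.exp_pos _).le))
  refine LBt180.lbnq_mono hK.le hX0.le main ?_
  have hq : 1 ≤ Y ^ ε := Real.one_le_rpow hY hε.le
  have e1 : Y ^ (ε / 2) * Y ^ ε * Y ^ (ε / 2) = Y ^ ε * Y ^ ε := by
    rw [← Real.rpow_add hY0, ← Real.rpow_add hY0, ← Real.rpow_add hY0]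
    congr 1
    ring
  have e2 : Y ^ ε * Y ^ ε * Y ^ ε * Y ^ ε ≤ Y ^ (4 * ε) := by
    rw [← Real.rpow_add hY0, ← Real.rpow_add hY0, ← Real.rpow_add hY0]
    exact Real.rpow_le_rpow_of_exponent_le hY (by linarith)
  have fin := main_num (C₁ := C₁) (C₂ := C₂) (a := (η⁻¹) ^ J) (b := (η⁻¹) ^ (2 * J + 2))
    (q := Y ^ ε) (q4 := Y ^ (4 * ε)) (X2 := X ^ 2) (m := E0 ^ (-(1 / 2) : ℝ))
    (m3 := tN E0 * E0 + lN E0 + (lN E0 * E0)⁻¹) (MM := Ma + Ml) (Rc := Rc) (Rl := Rl) (Nt := Nt)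
    (Es := Es) (Ro := Ro) (Ro' := E0 ^ (7 / 3 : ℝ) * Ro') hC₁ hC₂ (by positivity)
    (pow_le_pow_right₀ ((one_le_inv₀ hη).mpr hη1) (by omega)) hq e2 (by positivity)
    (by positivity) (m_le hE1) (by positivity) hRc hRl hNt hEs hRo (by positivity)
    (qq := Y ^ (ε / 2) * Y ^ ε * Y ^ (ε / 2)) (by positivity) e1.le
  rw [exp_hN3 hE1]
  refine le_trans (le_of_eq ?_) fin
  ring

/-- **the lower bound (LB) from the numbers** -/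
theorem lb_nz {w : ℝ → ℝ} (hw : Wgt w) (hw0 : ∀ x, 0 ≤ w x) {N : ℕ} {M : ℝ} {F : ℕ → ℝ → ℂ}
    (hD : WD w N M F) {Cw R ε e₀ Ce : ℝ} {Aw J : ℕ} (hCw : 0 ≤ Cw) (hR : 0 ≤ R) (hε : 0 < ε)
    (he₀ : 0 < e₀) (hCe : 0 ≤ Ce) (hJA : J + 2 ≤ Aw) {Λ : ℝ} (hΛ : 1 ≤ Λ)
    (c₁₀ : ℝ) : ∃ C : ℝ, 0 ≤ C ∧
    ∀ (K X Y E0 D G₀ η : ℝ) (N₀ N₁ I : ℕ), 1 ≤ X → X ≤ Y → K ≤ Y → E0 ≤ Y → 0 ≤ D →
    D ≤ Y → (N₁ : ℝ) ≤ Y → Y ^ e₀ ≤ E0 → E0 ^ 60 ≤ K → 1 ≤ N₀ → N₀ ≤ N₁ →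
    (N₁ : ℝ) * E0 ^ 30 ≤ K ^ 2 → (N₁ : ℝ) < 2 ^ I →
    0 < η → η ≤ 1 → ∀ α : Eis → ℂ, (∀ n, α n ≠ 0 → n ∈ S Y) →
    (∀ n, α n ≠ 0 → |Real.log (nm n) - Real.log X| ≤ R) → (∀ n, ‖α n‖ ≤ Y ^ ε) →
    ∀ Ma Ml Rc Rl Nt Ro Ro' Es : ℝ, 0 ≤ Ma → 0 ≤ Ml → 0 ≤ Rc → 0 ≤ Rl → 0 ≤ Nt → 0 ≤ Ro →
    0 ≤ Ro' → 0 ≤ Es →
    (∀ g ∈ S Y, (nm g : ℝ) ≤ G₀ → ∀ V : ℝ, 1 ≤ V → V ≤ 9 * (Λ * N₁) * nm g → ∀ t : ℝ,
      VF V (tws (sg α g) t) ≤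
        Ma / (nm g : ℝ) ^ 2 * ((V * K / (X / nm g) ^ 2) ^ (1 / 3 : ℝ)) * (1 + |t|) ^ J) →
    (∀ g ∈ S Y, ∀ B V : ℝ, 1 ≤ B → B ≤ Y → 1 ≤ V → V ≤ 9 * (Λ * N₁) / (nm g : ℝ) ^ 2 → ∀ t : ℝ,
      E1551.JB Y α (fun U => G₀ < nm (g * U)) g B V t ≤
        Ml / (nm g : ℝ) ^ 2 * yv K X g V * (1 + |t|) ^ J) →
    (c₁₀ ≤ E0 →
    NumR N M F Cw η Aw K X R J D E0 (tN E0) (hN E0) N₁ I α (Y ^ ε * Y ^ ε * Rc) ∧
    NumL N M F Cw η Aw K X R J D E0 (tN E0) (hN E0) (E0 ^ 8) N₁ I (XN N K) α (Y ^ ε * Rl) ∧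
    NumNz N M F Cw η Aw K X Y R J D E0 (tN E0) (lN E0) (hN E0) (E0 ^ 8) (E0 ^ 4) (K1N K E0)
      (K2N K E0) N₀ N₁ (J + 2) (Ce * Y ^ ε) (Λ * N₁) α (Y ^ ε * Y ^ ε * Nt) ∧
    NumOz w Cw η Aw K X Y K R J D E0 (E1N E0) (BN E0) (tN E0) (lN E0) N₀ N₁ (J + 2)
      (Ce * Y ^ ε) (Λ * N₁) α (Y ^ ε * Y ^ ε * Ro) ∧
    NumOz w Cw η Aw K X Y (K * Real.exp (-hN E0)) R J D E0 (E1N E0) (BN E0) (tN E0) (lN E0) N₀ N₁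
      (J + 2) (Ce * Y ^ ε * Real.exp (-(hN E0 / 3))) (Λ * N₁) α (Y ^ ε * Y ^ ε * Ro') ∧
    (X ^ 2 * E0 ^ 20 ≤ K * N₀ ∨
      NumS w (fun _ => Qc (K1N K E0)) Cw η Aw K X R J (hN E0) α (Y ^ ε * Y ^ ε * Es))) →
    LBnq w (fun _ => Qc (K1N K E0)) Cw η Aw K X Y D N₁ (rho N₀ N₁) R J α
      (C * (η⁻¹) ^ (2 * J + 2) * Y ^ (4 * ε) *
        (X ^ 2 + E0 ^ (-(1 / 2) : ℝ) * (Ma + Ml) +
          (Rc + Rl + Nt + Ro + E0 ^ (7 / 3 : ℝ) * Ro' + Es))) := by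
  obtain ⟨C₁, c₁, hC₁, hc₁, H₁⟩ := lb_mainz hw hw0 hD (Cw := Cw) (R := R) (ε := ε) (e₀ := e₀)
    (Ce := Ce) (Aw := Aw) (J := J) hCw hR hε he₀ hCe hJA (Λ := Λ) hΛ
  obtain ⟨C₂, hC₂, H₂⟩ := LBt180.lb_small hw hw0 (Cw := Cw) (R := R) (ε := ε) (Aw := Aw) (J := J)
    hCw hR hε hJA (c := max c₁ c₁₀) (le_max_of_le_left hc₁)
  refine ⟨C₁ + C₂, by positivity, ?_⟩
  intro K X Y E0 D G₀ η N₀ N₁ I hX hXY hKY hE0Y hD0 hDY hN₁Y hYE hEK hN₀ hN₀₁ h30 hI hη hη1 α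
    hα hαR hαn Ma Ml Rc Rl Nt Ro Ro' Es hMa hMl hRc hRl hNt hRo hRo' hEs hSA hL hnum
  have hY : 1 ≤ Y := by linarith
  have hY0 : 0 < Y := by linarith
  have hX0 : 0 < X := by linarith
  have hE1 : 1 ≤ E0 := LBp180.one_le_E0 he₀.le hY hYE
  have hK1 : 1 ≤ K := (one_le_pow₀ hE1).trans hEK
  have hK : 0 < K := by linarith
  have hR0 : 0 ≤ Rc + Rl + Nt + Ro + E0 ^ (7 / 3 : ℝ) * Ro' + Es := by positivity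
  have hG : 0 ≤ (η⁻¹) ^ (2 * J + 2) * Y ^ (4 * ε) * (X ^ 2 + E0 ^ (-(1 / 2) : ℝ) * (Ma + Ml) +
          (Rc + Rl + Nt + Ro + E0 ^ (7 / 3 : ℝ) * Ro' + Es)) := by positivity
  rcases le_or_gt (max c₁ c₁₀) E0 with hc | hc
  · obtain ⟨n1, n2, n3, n4, n5, n6⟩ := hnum ((le_max_right _ _).trans hc)
    refine LBt180.lbnq_mono hK.le hX0.le (H₁ K X Y E0 D G₀ η N₀ N₁ I hX hXY hKY
      ((le_max_left _ _).trans hc) hE0Y hD0 hDY hN₁Y hYE hEK hN₀ hN₀₁ h30 hI hη hη1 α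
      hα hαR hαn Ma Ml Rc Rl Nt Ro Ro' Es hMa hMl hRc hRl hNt hRo hRo' hEs hSA hL n1 n2 n3 n4 n5
      n6) ?_
    nlinarith
  · have hN10 : (0 : ℝ) ≤ N₁ := Nat.cast_nonneg _
    have hNΛ : (N₁ : ℝ) ≤ Λ * N₁ := le_mul_of_one_le_left hN10 hΛ
    refine LBt180.lbnq_mono hK.le hX0.le (H₂ K X Y D G₀ E0 η N₁ (rho N₀ N₁) hK hX0 hY hN₁Y hE1
      hc.le hη hη1 (LBt180.rho_abs N₀ N₁) α hα hαR hαn Ma Ml _ hMa hMl hR0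
      (fun g hg hgG V hV hVN t => hSA g hg hgG V hV (hVN.trans (by gcongr)) t)
      (fun g hg B V hB hBY hV hVN t => hL g hg B V hB hBY hV (hVN.trans (by gcongr)) t)
      (fun _ => Qc (K1N K E0))) ?_
    nlinarith

end Crest.Agent.R017.LBx48
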