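import Crest.Agent.R017.P1Q_904

/-!
# Row 17, R8 / P1M: the structured part of the mismatch (helper904), first form

Homogeneous (`k` = family, `D = d k`), tolerance `t`. `p` = length of the list without the common
divisor (twice), `v` = level, `ρ = log (g / h)`, `a` = level of the class (`≤ v - ρ`), `n` = window
(`≤ p + ρ`), `b = log U_e`, `h` = exponent of `H` (`≤ hM - 2 b`), `δ ≤ 13/100 k`.
* `coreM` : the structured part (counted with `+ b`), `coreM2` : the principal part, first form;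
  `coreMs`, `coreMs2` : second form
-/

set_option autoImplicit false
set_option linter.unusedVariables false

noncomputable section

namespace Crest.Agent.R017.R1M904

open Crest.Agent.R017.RnP571 (Dh)
open Crest.Agent.R017.P1Q904 (LQ LQ_ge)
open Crest.Agent.R017

/-- helper828's exponent of `H` (without `- 2 b`), `N` = length of the parent -/
def hM (N k p δ x : ℝ) : ℝ := max 0 (4 / 3 * (p - δ) + 2 / 3 * x - k - 3 * max 0 (5 / 4 * N - k))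

/-- first form -/
def g1 (L I : ℝ) : ℝ := max (L / 2) (L - I / 2)

lemma hM_cases (N k p δ x : ℝ) : (hM N k p δ x ≤ 0 ∨
    (hM N k p δ x ≤ 4 / 3 * (p - δ) + 2 / 3 * x - k ∧
      hM N k p δ x ≤ 4 / 3 * (p - δ) + 2 / 3 * x - k - 3 * (5 / 4 * N - k))) := by
  unfold hM
  have h1 := le_max_left 0 (5 / 4 * N - k)
  have h2 := le_max_right 0 (5 / 4 * N - k)
  rcases max_choice 0 (4 / 3 * (p - δ) + 2 / 3 * x - k - 3 * max 0 (5 / 4 * N - k)) with h | h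
  · left; rw [h]
  · right; rw [h]; constructor <;> linarith

set_option maxHeartbeats 8000000 in
/-- **the structured part** (`S` bounds `l + x'`) -/
lemma coreM {k y₃ y₄ u x D t p v ρ a n h δ b i m x' S : ℝ} (hD : Dh k y₃ y₄ u x D) (t0 : 0 ≤ t)
    (t1 : t ≤ k / 20000) (p1 : p ≤ y₃ + y₄ + u + x + t)
    (v1 : v ≤ 2 * (y₃ + y₄ + u) - k + 21 / 5 * x + t)
    (v2 : v ≤ 3 / 4 * (y₃ + y₄ + u) + 21 / 5 * x + t)
    (ha : a ≤ v - ρ + t) (hn : n ≤ p + ρ + t)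
    (hh : h ≤ hM (y₃ + y₄ + u) k p δ x - 2 * b + t) (hL : 0 ≤ h + 2 * a - k - δ + t)
    (ρ0 : 0 ≤ ρ) (b0 : 0 ≤ b) (δ0 : 0 ≤ δ) (δ1 : δ ≤ 13 / 100 * k + t)
    (x0' : 0 ≤ x') (x1' : x' ≤ x + t) (hm : m ≤ p - δ - b + t) (i0 : 0 ≤ i)
    (hi : i ≤ n + a + h - k + t) (s1 : S - x' ≤ u + t) (s2 : 3 * (S - x') ≤ m - x')
    (s3 : 2 * (S - x') ≤ i) :
    2 / 3 * k - (h + a) / 3 + 5 / 3 * δ + b + g1 (h + 2 * a - k - δ) (n + a + h - k) +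
      2 / 3 * (n - δ) + (i + 3 / 4 * S + 61 / 100 * D) + (n + a + h - k - i) / 3 + k / 200 ≤
      k + p + LQ (y₃ + y₄ + u) k D := by
  obtain ⟨L1, L2⟩ := LQ_ge (y₃ + y₄ + u) k D
  have hh' := hM_cases (y₃ + y₄ + u) k p δ x
  have hg : g1 (h + 2 * a - k - δ) (n + a + h - k) = (h + 2 * a - k - δ) / 2 ∨
      g1 (h + 2 * a - k - δ) (n + a + h - k) = (h + 2 * a - k - δ) - (n + a + h - k) / 2 :=
    max_choice _ _
  generalize LQ (y₃ + y₄ + u) k D = L at *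
  generalize hM (y₃ + y₄ + u) k p δ x = w at *
  generalize g1 (h + 2 * a - k - δ) (n + a + h - k) = g at *
  obtain ⟨k0, u4, y43, u0, y3, N1, near, x0, adm, d0, d1⟩ := hD
  rcases hg with rfl | rfl <;> rcases hh' with hh' | ⟨hh', hh2⟩ <;>
    rcases adm with ⟨a0, rfl | a1⟩ | ⟨a1, a2, a3⟩ <;> linarith

set_option maxHeartbeats 8000000 in
/-- the principal part -/
lemma coreM2 {k y₃ y₄ u x D t p v ρ a n h δ b x' : ℝ} (hD : Dh k y₃ y₄ u x D) (t0 : 0 ≤ t)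
    (t1 : t ≤ k / 20000) (p0 : k / 2 - 2 * x - t ≤ p) (p1 : p ≤ y₃ + y₄ + u + x + t)
    (v1 : v ≤ 2 * (y₃ + y₄ + u) - k + 21 / 5 * x + t)
    (v2 : v ≤ 3 / 4 * (y₃ + y₄ + u) + 21 / 5 * x + t)
    (ha : a ≤ v - ρ + t) (hn : n ≤ p + ρ + t)
    (hh : h ≤ hM (y₃ + y₄ + u) k p δ x - 2 * b + t) (hL : 0 ≤ h + 2 * a - k - δ + t)
    (ρ0 : 0 ≤ ρ) (b0 : 0 ≤ b) (δ0 : 0 ≤ δ) (δ1 : δ ≤ 13 / 100 * k + t)
    (x0' : 0 ≤ x') (x1' : x' ≤ x + t) :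
    2 / 3 * k - (h + a) / 3 + 5 / 3 * δ + b + g1 (h + 2 * a - k - δ) (n + a + h - k) +
      2 / 3 * (n - δ) + max 0 ((n + a + h - k) / 3 + x') + k / 200 ≤
      k + p + LQ (y₃ + y₄ + u) k D := by
  obtain ⟨L1, L2⟩ := LQ_ge (y₃ + y₄ + u) k D
  have hh' := hM_cases (y₃ + y₄ + u) k p δ x
  have hg : g1 (h + 2 * a - k - δ) (n + a + h - k) = (h + 2 * a - k - δ) / 2 ∨
      g1 (h + 2 * a - k - δ) (n + a + h - k) = (h + 2 * a - k - δ) - (n + a + h - k) / 2 :=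
    max_choice _ _
  have h0 : max 0 ((n + a + h - k) / 3 + x') = 0 ∨
      max 0 ((n + a + h - k) / 3 + x') = (n + a + h - k) / 3 + x' := max_choice _ _
  generalize LQ (y₃ + y₄ + u) k D = L at *
  generalize hM (y₃ + y₄ + u) k p δ x = w at *
  generalize g1 (h + 2 * a - k - δ) (n + a + h - k) = g at *
  obtain ⟨k0, u4, y43, u0, y3, N1, near, x0, adm, d0, d1⟩ := hD
  rcases h0 with h0 | h0 <;> rw [h0] <;>
  rcases hg with rfl | rfl <;> rcases hh' with hh' | ⟨hh', hh2⟩ <;>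
    rcases adm with ⟨a0, rfl | a1⟩ | ⟨a1, a2, a3⟩ <;> linarith

set_option maxHeartbeats 8000000 in
/-- **the structured part, second form** (`ρ ≤ x + t`) -/
lemma coreMs {k y₃ y₄ u x D t p v ρ a n h δ b i m x' S : ℝ} (hD : Dh k y₃ y₄ u x D) (t0 : 0 ≤ t)
    (t1 : t ≤ k / 20000) (p1 : p ≤ y₃ + y₄ + u + x + t)
    (v1 : v ≤ 2 * (y₃ + y₄ + u) - k + 21 / 5 * x + t)
    (v2 : v ≤ 3 / 4 * (y₃ + y₄ + u) + 21 / 5 * x + t)
    (ha : a ≤ v - ρ + t) (hn : n ≤ p + ρ + t)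
    (hh : h ≤ hM (y₃ + y₄ + u) k p δ x - 2 * b + t) (hL : 0 ≤ h + 2 * a - k - δ + t)
    (ρ0 : 0 ≤ ρ) (ρ1 : ρ ≤ x + t) (b0 : 0 ≤ b) (δ0 : 0 ≤ δ) (δ1 : δ ≤ 13 / 100 * k + t)
    (x0' : 0 ≤ x') (x1' : x' ≤ x + t) (hm : m ≤ p - δ - b + t) (i0 : 0 ≤ i)
    (hi : i ≤ n + a + h - k + t) (s1 : S - x' ≤ u + t) (s2 : 3 * (S - x') ≤ m - x')
    (s3 : 2 * (S - x') ≤ i) :
    2 / 3 * k - (h + a) / 3 + 5 / 3 * δ + b + P1Q904.gQ (h + 2 * a - k - δ) (n + a + h - k) +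
      2 / 3 * (n - δ) + (i + 3 / 4 * S + 61 / 100 * D) + (n + a + h - k - i) / 3 + k / 200 ≤
      k + p + LQ (y₃ + y₄ + u) k D := by
  obtain ⟨L1, L2⟩ := LQ_ge (y₃ + y₄ + u) k D
  have hh' := hM_cases (y₃ + y₄ + u) k p δ x
  have hg := P1Q904.gQ_cases (h + 2 * a - k - δ) (n + a + h - k)
  generalize LQ (y₃ + y₄ + u) k D = L at *
  generalize hM (y₃ + y₄ + u) k p δ x = w at *
  generalize P1Q904.gQ (h + 2 * a - k - δ) (n + a + h - k) = g at *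
  obtain ⟨k0, u4, y43, u0, y3, N1, near, x0, adm, d0, d1⟩ := hD
  rcases hg with rfl | rfl | rfl | rfl <;> rcases hh' with hh' | ⟨hh', hh2⟩ <;>
    rcases adm with ⟨a0, rfl | a1⟩ | ⟨a1, a2, a3⟩ <;> linarith

set_option maxHeartbeats 8000000 in
/-- the principal part, second form -/
lemma coreMs2 {k y₃ y₄ u x D t p v ρ a n h δ b x' : ℝ} (hD : Dh k y₃ y₄ u x D) (t0 : 0 ≤ t)
    (t1 : t ≤ k / 20000) (p0 : k / 2 - 2 * x - t ≤ p) (p1 : p ≤ y₃ + y₄ + u + x + t)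
    (v1 : v ≤ 2 * (y₃ + y₄ + u) - k + 21 / 5 * x + t)
    (v2 : v ≤ 3 / 4 * (y₃ + y₄ + u) + 21 / 5 * x + t)
    (ha : a ≤ v - ρ + t) (hn : n ≤ p + ρ + t)
    (hh : h ≤ hM (y₃ + y₄ + u) k p δ x - 2 * b + t) (hL : 0 ≤ h + 2 * a - k - δ + t)
    (ρ0 : 0 ≤ ρ) (ρ1 : ρ ≤ x + t) (b0 : 0 ≤ b) (δ0 : 0 ≤ δ) (δ1 : δ ≤ 13 / 100 * k + t)
    (x0' : 0 ≤ x') (x1' : x' ≤ x + t) :
    2 / 3 * k - (h + a) / 3 + 5 / 3 * δ + b + P1Q904.gQ (h + 2 * a - k - δ) (n + a + h - k) +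
      2 / 3 * (n - δ) + max 0 ((n + a + h - k) / 3 + x') + k / 200 ≤
      k + p + LQ (y₃ + y₄ + u) k D := by
  obtain ⟨L1, L2⟩ := LQ_ge (y₃ + y₄ + u) k D
  have hh' := hM_cases (y₃ + y₄ + u) k p δ x
  have hg := P1Q904.gQ_cases (h + 2 * a - k - δ) (n + a + h - k)
  have h0 : max 0 ((n + a + h - k) / 3 + x') = 0 ∨
      max 0 ((n + a + h - k) / 3 + x') = (n + a + h - k) / 3 + x' := max_choice _ _
  generalize LQ (y₃ + y₄ + u) k D = L at *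
  generalize hM (y₃ + y₄ + u) k p δ x = w at *
  generalize P1Q904.gQ (h + 2 * a - k - δ) (n + a + h - k) = g at *
  obtain ⟨k0, u4, y43, u0, y3, N1, near, x0, adm, d0, d1⟩ := hD
  rcases h0 with h0 | h0 <;> rw [h0] <;>
  rcases hg with rfl | rfl | rfl | rfl <;> rcases hh' with hh' | ⟨hh', hh2⟩ <;>
    rcases adm with ⟨a0, rfl | a1⟩ | ⟨a1, a2, a3⟩ <;> linarith

end Crest.Agent.R017.R1M904
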