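import Crest.Agent.R017.P1v_54
import Crest.Agent.R017.P10d_146
import Crest.Agent.R017.FNEb_708

/-!
# Row 17, R8/P1: the mismatch moment (helper54), part 3: the frame

* `Fr9` : the frame of the mismatch (logarithms, one parent `p`)
* `fr9_of` : the frame from the data of `Dom9`
* `P1CF` : the classes in the frame; **`p1C_of_frame`** : `P1CF` implies `P1C`
-/

set_option autoImplicit false

noncomputable section

open Finset Filter
open scoped ComplexConjugate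

namespace Crest.Agent.R017.P1w54

open Crest.Agent.R012 Crest.Agent.R012.Eis Crest.Agent.R012.Div277
open Crest.Agent.R012.LS2 (S mem_S)
open Crest.Agent.R017.CM106 Crest.Agent.R017.C70
open Crest.Agent.R017.StF828 (T3)
open Crest.Agent.R017.StG828 (JB omp)
open Crest.Agent.R017.StJ319 (afrb gt5 q5 I5)
open Crest.Agent.R017.E3A164 (SteT)
open Crest.Agent.R017.P1e54 Crest.Agent.R017.P1f54 Crest.Agent.R017.P1k54 Crest.Agent.R017.P1l54
open Crest.Agent.R017.P1u54 Crest.Agent.R017.P1v54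
open Crest.Agent.R017.B770 Crest.Agent.R017.Prov71
open Crest.Agent.R017.XG702 (Pcs)
open Crest.Agent.R017.XT71 (Sys Win mx)
open Crest.Agent.R017.UM71
open Crest.Agent.R017.E5B71 Crest.Agent.R017.E5L770
open Crest.Agent.R017.TM708 (PD)
open Crest.Agent.R017.I1146 (LN)
open Crest.Agent.R017.P10146 (bP cl)

lemma mass_am {X : ℝ} {ps : List Pq} (h : ∀ p ∈ ps, p.kd = .am) :
    Dq.mass X ps .am = LN ps / Real.log X := by
  induction ps with
  | nil => simp [Pcs.mass, LN]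
  | cons p ps ih =>
    rw [Pcs.mass_cons, ih fun q hq => h q (List.mem_cons_of_mem _ hq), if_pos]
    · unfold LN Pcs.nl
      rw [List.map_cons, List.sum_cons, add_div]
      rfl
    · rw [Dq_kind, h p List.mem_cons_self]

lemma LN_cl (a : Bc) (qs : List Pq) :
    LN (cl a qs) = (a.2 0).z + (a.2 1).z + (a.2 2).z + LN qs := by
  unfold cl LN
  simp only [List.ofFn_succ, List.ofFn_zero, Fin.succ_zero_eq_one, Fin.succ_one_eq_two,
    List.cons_append, List.nil_append, List.map_cons, List.sum_cons]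
  ring

/-- **the frame of the mismatch** -/
structure Fr9 (p : Fin 3 ⊕ Fin 5 → ℝ) (X τ B H : ℝ) (N : ℕ) (a : Bm) (qs : List Pq) : Prop where
  X3 : 3 ≤ X
  L : 0 < Real.log X
  par : ParOK p
  /-- 708's frame of the child -/
  pd : PD X τ B H N (bP p) 1 a.1.2 qs a.1.1.l
  l : |a.1.1.l - cκ p * Real.log X| ≤ τ * Real.log X
  z0 : 0 ≤ a.1.1.z
  z : |a.1.1.z - cx' p * Real.log X| ≤ τ * Real.log X
  A : |a3 a.1.1 - cN p * Real.log X| ≤ τ * Real.log X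
  ζ0 : 0 ≤ a.2.2
  ζ : |a.2.2 - cx' p * Real.log X| ≤ τ * Real.log X
  g0 : 0 ≤ Real.log (nm a.2.1)
  g1 : Real.log (nm a.2.1) ≤ LN qs + τ * Real.log X
  qs0 : 0 ≤ LN qs
  qs1 : LN qs ≤ cx' p * Real.log X + τ * Real.log X
  am : ∀ p' ∈ qs, p'.kd = .am
  cl : LN (cl a.1 qs) = (a.1.2 0).z + (a.1.2 1).z + (a.1.2 2).z + LN qs
  lo : cκ p / 2 * Real.log X ≤
    LN (P10146.cl a.1 qs) - 2 * Real.log (nm a.2.1) + 2 * cx' p * Real.log X + τ * Real.log X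
  up : LN (P10146.cl a.1 qs) ≤ (cN p + cx' p) * Real.log X + τ * Real.log X
  n0 : Sf770.tO a.1.1 ≤ Real.log 2 * nO a.1.1
  n1 : Real.log 2 * nO a.1.1 ≤ max 0 (Sf770.tO a.1.1) + Real.log 2

/-- logarithm of the target of the mismatch -/
def tgM (L0p : ℝ) (X : ℝ) (a : Bm) (qs : List Pq) : ℝ :=
  a.1.1.l + LN (cl a.1 qs) - 2 * Real.log (nm a.2.1) + L0p * Real.log X

set_option maxHeartbeats 1000000 in
/-- the frame from the data -/
theorem fr9_of {π : DPar} {t₀ : Eis} {X δ τ δ' B : ℝ} {N : ℕ} {a : Bm} {qs : List Pq}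
    {Par : Set (Fin 3 ⊕ Fin 5 → ℝ)} (hPar : ∀ p ∈ Par, ParOK p) (hX : 3 ≤ X) (hδ0 : 0 ≤ δ)
    (hδ : 100 * δ ≤ τ) (hδ' : 0 ≤ δ') (hlen : qs.length ≤ N)
    (hgl : ∀ p ∈ qs, Dq.lump p ∨ Dq.nl X p ≤ δ)
    {q : (((Fin 3 ⊕ Fin 5) ⊕ Fin 3) ⊕ Fin 2 → ℝ) × (Kd → ℝ)} (hq : q ∈ Dom9 Par)
    (hw : Win S9 q.1 δ N B δ' X a) (hm : ∀ t, |Dq.mass X qs t - q.2 t| ≤ δ)
    (hg : Dq.Good X δ' B qs)
    (hl : ∀ p ∈ qs, Dq.lump p → (S9.ev X a, Dq.nl X p) ∈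
        (∅ : Set ((((Fin 3 ⊕ Fin 5) ⊕ Fin 3) ⊕ Fin 2 → ℝ) × ℝ)))
    (hok : okC π t₀ a.1 qs) (hgp : IsPrim a.2.1) (hζ : 0 ≤ a.2.2) :
    Fr9 (fun i => q.1 (.inl (.inl i))) X τ (max B 0) (X ^ δ') N a qs ∧
      ∀ L0p : ℝ, tgM L0p X a qs ≤ (cκ (fun i => q.1 (.inl (.inl i))) +
        ∑ i : Fin 3, q.1 (.inl (.inr i)) + q.2 .am - 2 * q.1 (.inr 0) + L0p) * Real.log X +
        τ * Real.log X := by
  have hX0 : 0 < X := by linarith
  have hX1 : 1 ≤ X := by linarith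
  have hL1 : 1 < Real.log X := by
    rw [Real.lt_log_iff_exp_lt hX0]
    exact lt_of_lt_of_le Real.exp_one_lt_three hX
  have hL : 0 < Real.log X := by linarith
  obtain ⟨hbok, hsm, hlmp, hamq⟩ := hok
  obtain ⟨hq1, hq2, hq3, hq4, hq5, hq6, hq7, hq8, hq9⟩ := hq
  set p : Fin 3 ⊕ Fin 5 → ℝ := fun i => q.1 (.inl (.inl i)) with hp
  have hPp := hPar p hq1
  have hev : ∀ i, |S9.ev X a i - q.1 i| ≤ δ := hw.ev
  have hdiv : ∀ {z c : ℝ}, |z / Real.log X - c| ≤ δ →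
      |z - c * Real.log X| ≤ δ * Real.log X := by
    intro z c h1
    have h2 : z - c * Real.log X = (z / Real.log X - c) * Real.log X := by field_simp
    rw [h2, abs_mul, abs_of_pos hL]
    exact mul_le_mul_of_nonneg_right h1 hL.le
  have hk : |a.1.1.l - cκ p * Real.log X| ≤ δ * Real.log X := hdiv (hev (.inl (.inl (.inl 0))))
  have hz : |a.1.1.z - cx' p * Real.log X| ≤ δ * Real.log X := hdiv (hev (.inl (.inl (.inl 1))))
  have hu2 : |(a.1.1.us 2).z - cu p 2 * Real.log X| ≤ δ * Real.log X :=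
    hdiv (hev (.inl (.inl (.inr 2))))
  have hu3 : |(a.1.1.us 3).z - cu p 3 * Real.log X| ≤ δ * Real.log X :=
    hdiv (hev (.inl (.inl (.inr 3))))
  have hu4 : |(a.1.1.us 4).z - cu p 4 * Real.log X| ≤ δ * Real.log X :=
    hdiv (hev (.inl (.inl (.inr 4))))
  have hv0 : |(a.1.2 0).z - q.1 (.inl (.inr 0)) * Real.log X| ≤ δ * Real.log X :=
    hdiv (hev (.inl (.inr 0)))
  have hv1 : |(a.1.2 1).z - q.1 (.inl (.inr 1)) * Real.log X| ≤ δ * Real.log X :=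
    hdiv (hev (.inl (.inr 1)))
  have hv2 : |(a.1.2 2).z - q.1 (.inl (.inr 2)) * Real.log X| ≤ δ * Real.log X :=
    hdiv (hev (.inl (.inr 2)))
  have hg0 : |Real.log (nm a.2.1) - q.1 (.inr 0) * Real.log X| ≤ δ * Real.log X :=
    hdiv (hev (.inr 0))
  have hg1 : |a.2.2 - q.1 (.inr 1) * Real.log X| ≤ δ * Real.log X := hdiv (hev (.inr 1))
  have hma : |LN qs - q.2 .am * Real.log X| ≤ δ * Real.log X := by
    have h1 := hm .am
    rw [mass_am hamq] at h1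
    exact hdiv h1
  have hA : |a3 a.1.1 - cN p * Real.log X| ≤ 3 * (δ * Real.log X) := by
    have e1 : a3 a.1.1 - cN p * Real.log X = ((a.1.1.us 2).z - cu p 2 * Real.log X) +
        ((a.1.1.us 3).z - cu p 3 * Real.log X) + ((a.1.1.us 4).z - cu p 4 * Real.log X) := by
      unfold E5L770.a3 cN; ring
    rw [e1]
    refine (abs_add_le _ _).trans ?_
    have := abs_add_le ((a.1.1.us 2).z - cu p 2 * Real.log X)
      ((a.1.1.us 3).z - cu p 3 * Real.log X)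
    linarith
  obtain ⟨k1, k2⟩ := abs_le.1 hk
  obtain ⟨z1, z2⟩ := abs_le.1 hz
  obtain ⟨v01, v02⟩ := abs_le.1 hv0
  obtain ⟨v11, v12⟩ := abs_le.1 hv1
  obtain ⟨v21, v22⟩ := abs_le.1 hv2
  obtain ⟨m1, m2⟩ := abs_le.1 hma
  obtain ⟨A1, A2⟩ := abs_le.1 hA
  obtain ⟨G1, G2⟩ := abs_le.1 hg0
  rw [hq8] at hg1
  have w0 : 0 ≤ q.1 (.inl (.inr 0)) ∧ q.1 (.inl (.inr 0)) ≤ cu p 2 := hq2 0
  have w1 : 0 ≤ q.1 (.inl (.inr 1)) ∧ q.1 (.inl (.inr 1)) ≤ cu p 3 := hq2 1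
  have w2 : 0 ≤ q.1 (.inl (.inr 2)) ∧ q.1 (.inl (.inr 2)) ≤ cu p 4 := hq2 2
  have hcN : cN p = cu p 2 + cu p 3 + cu p 4 := rfl
  have hS3 : ∑ i : Fin 3, q.1 (.inl (.inr i)) =
      q.1 (.inl (.inr 0)) + q.1 (.inl (.inr 1)) + q.1 (.inl (.inr 2)) := Fin.sum_univ_three _
  rw [hS3] at hq9
  have hnz : LN (P10146.cl a.1 qs) =
      (a.1.2 0).z + (a.1.2 1).z + (a.1.2 2).z + LN qs := LN_cl a.1 qs
  have hLqs : 0 ≤ LN qs := by
    unfold LN
    refine List.sum_nonneg fun x hx => ?_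
    obtain ⟨p', hp', rfl⟩ := List.mem_map.1 hx
    exact (hg p' hp').2.2
  have hδL : 0 ≤ δ * Real.log X := by positivity
  have hδτL : 100 * (δ * Real.log X) ≤ τ * Real.log X := by
    have := mul_le_mul_of_nonneg_right hδ hL.le
    linarith
  have w0L := mul_le_mul_of_nonneg_right w0.2 hL.le
  have w1L := mul_le_mul_of_nonneg_right w1.2 hL.le
  have w2L := mul_le_mul_of_nonneg_right w2.2 hL.le
  have hq5L := mul_le_mul_of_nonneg_right hq5 hL.le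
  have hq7L := mul_le_mul_of_nonneg_right hq7 hL.le
  have hq9L := mul_le_mul_of_nonneg_right hq9 hL.le
  have hBm : X ^ B ≤ X ^ (max B 0) := Real.rpow_le_rpow_of_exponent_le hX1 (le_max_left _ _)
  have hs1 : ∀ i, Dq.s1 (a.1.2 i) ≤ X ^ δ' := by
    intro i
    have h1 : mx Dq.s1 (List.ofFn a.1.2) ≤ X ^ δ' := (le_max_right _ _).trans hw.s₁
    exact (XT71.le_mx (List.mem_ofFn.2 ⟨i, rfl⟩)).trans h1
  have hs2 : ∀ i, Dq.s2 (a.1.2 i) ≤ X ^ (max B 0) := by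
    intro i
    have h1 : mx Dq.s2 (List.ofFn a.1.2) ≤ X ^ B := (le_max_right _ _).trans hw.s₂
    exact ((XT71.le_mx (List.mem_ofFn.2 ⟨i, rfl⟩)).trans h1).trans hBm
  have hgran : ∀ p' ∈ qs, p'.z ≤ δ * Real.log X := by
    intro p' hp'
    rcases hgl p' hp' with h1 | h1
    · exact absurd (hl p' hp' h1) (Set.notMem_empty _)
    · unfold Pcs.nl at h1
      rw [div_le_iff₀ hL] at h1
      exact h1
  have hlog2 : 0 < Real.log 2 := Real.log_pos (by norm_num)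
  have hgn : (1 : ℝ) ≤ nm a.2.1 := by exact_mod_cast nm_pos.2 hgp.ne_zero
  refine ⟨⟨hX, hL, hPp, ?_, hk.trans (by linarith), hbok.2.1, hz.trans (by linarith),
    hA.trans (by linarith), hζ, hg1.trans (by linarith), Real.log_nonneg hgn, ?_, hLqs, ?_, hamq,
    hnz, ?_, ?_, Sf770.lt_nO _, ?_⟩, ?_⟩
  · refine ⟨one_ne_zero, ?_, Real.one_le_rpow hX1 hδ', fun i => (hlmp i).1,
      fun i => (hlmp i).2, fun i => hs2 i, fun i => hs1 i, ?_, ?_, ?_, ?_, hlen, ?_, ?_⟩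
    · rw [nm_one, Nat.cast_one]
      exact Real.one_le_rpow hX1 (le_max_right _ _)
    · show (a.1.2 0).z ≤ (cu p 2 + τ) * Real.log X
      linarith
    · show (a.1.2 1).z ≤ (cu p 3 + τ) * Real.log X
      linarith
    · show (a.1.2 2).z ≤ (cu p 4 + τ) * Real.log X
      linarith
    · intro p' hp'
      obtain ⟨s1', s2', z0'⟩ := hg p' hp'
      exact ⟨hamq p' hp', z0', (hgran p' hp').trans (by linarith), s2'.trans hBm, s1'⟩
    · show LN qs ≤ (cx' p + τ) * Real.log X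
      linarith
    · show |a.1.1.l - cκ p * Real.log X| ≤ τ * Real.log X
      exact hk.trans (by linarith)
  · linarith
  · linarith
  · rw [hnz]
    linarith
  · rw [hnz, hcN]
    linarith
  · have hnO : nO a.1.1 = ⌊Sf770.tO a.1.1 / Real.log 2⌋₊ + 1 := rfl
    rw [hnO]
    push_cast
    rcases le_total 0 (Sf770.tO a.1.1) with h0 | h0
    · have h1 := Nat.floor_le (div_nonneg h0 hlog2.le)
      rw [le_div_iff₀ hlog2] at h1
      have h2 := le_max_right 0 (Sf770.tO a.1.1)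
      linarith
    · rw [Nat.floor_of_nonpos (div_nonpos_of_nonpos_of_nonneg h0 hlog2.le)]
      have h2 := le_max_left 0 (Sf770.tO a.1.1)
      push_cast
      linarith
  · intro L0p
    unfold tgM
    rw [hnz, hS3]
    linarith

variable {Λ : Type*} (π : Λ → DPar) (h : ℝ → ℝ) (e0 : ℝ)

/-- **the classes in the frame** -/
def P1CF (Par : Set (Fin 3 ⊕ Fin 5 → ℝ)) (L0 : (Fin 3 ⊕ Fin 5 → ℝ) → ℝ) : Prop :=
  ∀ R : Λ → ℝ, (∀ lam, 0 ≤ R lam) → ∀ ε : ℝ, 0 < ε → ∃ τ : ℝ, 0 < τ ∧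
    ∀ (lam : Λ × Eis) (N : ℕ) (B : ℝ), 0 ≤ B → ∃ J M₀ : ℕ, ∃ X₀ : ℝ, 1 < X₀ ∧
      ∀ X : ℝ, X₀ ≤ X → ∀ H : ℝ, 1 ≤ H → ∀ p ∈ Par, ∀ (a : Bm) (qs : List Pq),
      Fr9 p X τ B H N a qs → okM π h lam a qs → ∀ (c : Fin 5) (i : ℕ) (b : Eis) (s : ℝ),
      i ∈ I5 a.2.1 (nM (nO a.1.1) a.2.2) (nO a.1.1) (Real.exp a.2.2) c → b ∈ dvs a.2.1 →
      M2 (uM (R lam.1) (Real.exp a.1.1.l) (Real.exp (a.1.1.l / 20)))
        (SteT (JB (DM (nO a.1.1) a.2.2)) (omp (a.2.1 / b) i s)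
          (Real.exp (e0 * a.1.1.l) * Real.exp a.2.2)
          (T3 (afrb (gt5 (Real.exp (e0 * a.1.1.l)) (Real.exp a.2.2) a.2.1 c) (q5 a.2.1 c)
            (Real.exp a.2.2) (ηC π h lam qs) (αC π h lam a) a.2.1 b s))) ≤
        H ^ M₀ * X ^ ε * Real.exp (tgM (L0 p) X a qs) * (1 + |s|) ^ J

/-- **`P1C` from the classes in the frame** -/
theorem p1C_of_frame {π : Λ → DPar} {h : ℝ → ℝ} {e0 : ℝ} {Par : Set (Fin 3 ⊕ Fin 5 → ℝ)}
    {L0 : (Fin 3 ⊕ Fin 5 → ℝ) → ℝ} (hPar : ∀ p ∈ Par, ParOK p)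
    (Hf : P1CF π h e0 Par L0) : P1C π h e0 Par L0 := by
  intro R hR ε hε
  obtain ⟨τ, hτ, Hf⟩ := Hf R hR (ε / 4) (by positivity)
  obtain ⟨δ, hδ, hδ1, hδ2⟩ : ∃ δ : ℝ, 0 < δ ∧ 100 * δ ≤ τ ∧ 100 * δ ≤ ε / 4 :=
    ⟨min (τ / 100) (ε / 400), lt_min (by positivity) (by positivity),
      by linarith [min_le_left (τ / 100) (ε / 400)],
      by linarith [min_le_right (τ / 100) (ε / 400)]⟩
  refine ⟨δ, hδ, ?_⟩
  intro lam N B
  obtain ⟨J, M₀, X₁, hX₁, Hf⟩ := Hf lam N (max B 0) (le_max_right _ _)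
  have hM1 : (0 : ℝ) < M₀ + 1 := by positivity
  refine ⟨J, ε / (4 * (M₀ + 1)), by positivity, max X₁ 3,
    lt_of_lt_of_le hX₁ (le_max_left _ _), ?_⟩
  intro X hX a qs hlen hgl q hq hw hm hg hl c i b s
  have hX1' : X₁ ≤ X := (le_max_left _ _).trans hX
  have hX3 : 3 ≤ X := (le_max_right _ _).trans hX
  have hX0 : 0 < X := by linarith
  have hX1 : 1 ≤ X := by linarith
  have hs0 : (0 : ℝ) ≤ 1 + |s| := by positivity
  unfold CkC
  split_ifs with hif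
  swap
  · positivity
  obtain ⟨hok, hi, hb⟩ := hif
  have hd0 : 0 ≤ ε / (4 * ((M₀ : ℝ) + 1)) := by positivity
  obtain ⟨F, -⟩ := fr9_of (τ := τ) hPar hX3 hδ.le hδ1 hd0 hlen hgl hq hw hm hg hl hok.1 hok.2.1
    hok.2.2.2.1
  obtain ⟨-, T⟩ := fr9_of (τ := ε / 4) hPar hX3 hδ.le hδ2 hd0 hlen hgl hq hw hm hg hl hok.1
    hok.2.1 hok.2.2.2.1
  have h1 := Hf X hX1' _ (Real.one_le_rpow hX1 hd0) _ hq.1 a qs F hok c i b s hi hb
  refine h1.trans (mul_le_mul_of_nonneg_right ?_ (by positivity))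
  have h2 := T (L0 fun i => q.1 (.inl (.inl i)))
  have e1 : (X ^ (ε / (4 * ((M₀ : ℝ) + 1)))) ^ M₀ ≤ X ^ (ε / 4) := by
    rw [← Real.rpow_natCast, ← Real.rpow_mul hX0.le]
    refine Real.rpow_le_rpow_of_exponent_le hX1 ?_
    rw [div_mul_eq_mul_div, div_le_div_iff₀ (by positivity) (by norm_num)]
    nlinarith
  have e2 : Real.exp (tgM (L0 fun i => q.1 (.inl (.inl i))) X a qs) ≤
      X ^ (E9 L0 q + ε / 4) := by
    rw [Real.rpow_def_of_pos hX0]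
    refine Real.exp_le_exp.2 (h2.trans (le_of_eq ?_))
    unfold E9
    ring
  calc _ ≤ X ^ (ε / 4) * X ^ (ε / 4) * X ^ (E9 L0 q + ε / 4) := by
        refine mul_le_mul (mul_le_mul_of_nonneg_right e1 (by positivity)) e2
          (Real.exp_pos _).le (by positivity)
    _ = X ^ (E9 L0 q + 3 * ε / 4) := by
        rw [← Real.rpow_add hX0, ← Real.rpow_add hX0]
        congr 1
        ring
    _ ≤ X ^ (E9 L0 q + ε) := Real.rpow_le_rpow_of_exponent_le hX1 (by linarith)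

/-- **`P1M` from the classes in the frame** -/
theorem p1M_of_frame {π : Λ → DPar} {h : ℝ → ℝ} {e0 : ℝ} (hP : ∀ lam, (π lam).OK) {Rh : ℝ}
    (hRh : ∀ u, FE47.cx h u ≠ 0 → |u| ≤ Rh) {Par : Set (Fin 3 ⊕ Fin 5 → ℝ)}
    {L0 : (Fin 3 ⊕ Fin 5 → ℝ) → ℝ} (hPar : ∀ p ∈ Par, ParOK p)
    (H : P1CF π h e0 Par L0) : P1M π h e0 Par L0 :=
  p1M_of_P1C hP hRh hPar (p1C_of_frame hPar H)

end Crest.Agent.R017.P1w54
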