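import Crest.Agent.R017.RnPb_571
import Crest.Agent.R017.E3Hd_290
import Crest.Agent.R017.E3Ul_829

/-!
# Row 17, E3 of `P1`: the `R`-number from one real line (helper571)

* `g1`, `g2` : the exponents of the weights (first and second form)
* **`rn_raw`** : (RH) for the sequences of the pairs `(d, e)` with its number, any weight
* **`rn1_raw`**, **`rn2_raw`** : first form (`RNF`), second form (`G2`)
-/

set_option autoImplicit false
set_option linter.unusedVariables false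

noncomputable section

open Finset

namespace Crest.Agent.R017.RnP571

open Crest.Agent.R012 Crest.Agent.R012.Eis
open Crest.Agent.R012.LS2 (S mem_S bl mem_bl)
open Crest.Agent.R012.Weight600 (pw)
open Crest.Agent.R017.FE47 (PU SM)
open Crest.Agent.R017.CM106
open Crest.Agent.R017.XG702 (Pcs BG)
open Crest.Agent.R017.Prov71
open Crest.Agent.R017.B770
open Crest.Agent.R017.HP842 (Pc pc sqc al alL)
open Crest.Agent.R017.E5B71 (Pt)
open Crest.Agent.R017.RM986 (Plain)
open Crest.Agent.R017.R3571 (RMm RMm_nonneg RMm_eq rm W2 W2_mono W2_at slp_two)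
open Crest.Agent.R017.Mode405 (Slp)
open Crest.Agent.R017.PX764 (n6)
open Crest.Agent.R017.E3Z548 (FH)
open Crest.Agent.R017.E3Sz579 (RHd Ld Md)
open Crest.Agent.R017.E3T829 (G2)
open Crest.Agent.R017.E3Hd290 (RNF)

/-! ### the weights -/

/-- exponent of the weight, first form -/
def g1 (l I : ℝ) : ℝ := max (l / 2) (l - I / 2)

/-- exponent of the weight, second form -/
def g2 (l I : ℝ) : ℝ :=
  max (max (l / 3) (l - I / 2)) (max (7 / 9 * l - 2 / 3 * I) (11 / 18 * l - 1 / 3 * I))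

lemma g1_hom {c : ℝ} (hc : 0 ≤ c) (l I : ℝ) : g1 (c * l) (c * I) = c * g1 l I := by
  unfold g1
  rw [mul_max_of_nonneg _ _ hc]
  congr 1 <;> ring

lemma g2_hom {c : ℝ} (hc : 0 ≤ c) (l I : ℝ) : g2 (c * l) (c * I) = c * g2 l I := by
  unfold g2
  rw [mul_max_of_nonneg _ _ hc, mul_max_of_nonneg _ _ hc, mul_max_of_nonneg _ _ hc]
  congr 1
  · congr 1 <;> ring
  · congr 1 <;> ring

/-- a positive number is an exponential -/
lemma rp {a x : ℝ} (ha : 0 < a) : a ^ x = Real.exp (x * Real.log a) := by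
  rw [Real.rpow_def_of_pos ha, mul_comm]

section weights

variable {K V H n : ℝ} {d : Eis}

/-- the logarithm of `Ld` -/
def lL (K V H : ℝ) (d : Eis) : ℝ :=
  Real.log H + 2 * Real.log V - Real.log K - Real.log (nm d)

/-- the logarithm of `I` -/
def lI (K V H n : ℝ) : ℝ := n + Real.log V + Real.log H - Real.log K

lemma log_Ld (hK : 0 < K) (hV : 0 < V) (hH : 0 < H) (hd : d ≠ 0) :
    Real.log (Ld K V H d) = lL K V H d := by
  have nd : (0 : ℝ) < nm d := by exact_mod_cast nm_pos.2 hd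
  unfold E3Sz579.Ld lL
  rw [Real.log_div (by positivity) (by positivity), Real.log_mul (by positivity) (by positivity),
    Real.log_mul (by positivity) (by positivity), Real.log_pow]
  push_cast
  ring

lemma Ld_pos (hK : 0 < K) (hV : 0 < V) (hH : 0 < H) (hd : d ≠ 0) : 0 < Ld K V H d := by
  have nd : (0 : ℝ) < nm d := by exact_mod_cast nm_pos.2 hd
  unfold E3Sz579.Ld
  positivity

lemma log_I (hK : 0 < K) (hV : 0 < V) (hH : 0 < H) :
    Real.log (Real.exp n * V * H / K) = lI K V H n := by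
  unfold lI
  rw [Real.log_div (by positivity) (by positivity), Real.log_mul (by positivity) (by positivity),
    Real.log_mul (by positivity) (by positivity), Real.log_exp]

lemma Md_eq {c : ℝ} (hK : 0 < K) (hV : 0 < V) (hH : 0 < H) (hd : d ≠ 0) :
    Md c K V H (Real.exp n) d = c * Real.exp (lL K V H d - lI K V H n / 2) := by
  have hI : 0 < Real.exp n * V * H / K := by positivity
  have hL := Ld_pos hK hV hH hd
  have e1 : Md c K V H (Real.exp n) d =
      c * Ld K V H d * (Real.exp n * V * H / K) ^ (-(1 / 2) : ℝ) := rfl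
  rw [e1, rp hI, log_I hK hV hH, mul_assoc]
  congr 1
  nth_rw 1 [← Real.exp_log hL]
  rw [log_Ld hK hV hH hd, ← Real.exp_add]
  congr 1
  ring

/-- the weight of the first form -/
lemma w1_le {c : ℝ} (hc : 1 ≤ c) (hK : 0 < K) (hV : 0 < V) (hH : 0 < H) (hd : d ≠ 0) :
    Real.sqrt (Ld K V H d) + Md c K V H (Real.exp n) d ≤
      (3 + c) * Real.exp (g1 (lL K V H d) (lI K V H n)) := by
  have hL := Ld_pos hK hV hH hd
  rw [Md_eq hK hV hH hd, Real.sqrt_eq_rpow, rp hL, log_Ld hK hV hH hd]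
  have h1 : Real.exp (1 / 2 * lL K V H d) ≤ Real.exp (g1 (lL K V H d) (lI K V H n)) := by
    refine Real.exp_le_exp.2 (le_trans (le_of_eq ?_) (le_max_left _ _))
    ring
  have h2 : Real.exp (lL K V H d - lI K V H n / 2) ≤
      Real.exp (g1 (lL K V H d) (lI K V H n)) := Real.exp_le_exp.2 (le_max_right _ _)
  have h3 := mul_le_mul_of_nonneg_left h2 (show 0 ≤ c by linarith)
  have h4 := Real.exp_pos (g1 (lL K V H d) (lI K V H n))
  linarith

/-- the weight of the second form -/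
lemma w2_le {c : ℝ} (hc : 1 ≤ c) (hK : 0 < K) (hV : 0 < V) (hH : 0 < H) (hd : d ≠ 0) :
    G2 (Ld K V H d) (Md c K V H (Real.exp n) d) (Real.exp n * V * H / K) ≤
      (3 + c) * Real.exp (g2 (lL K V H d) (lI K V H n)) := by
  have hL := Ld_pos hK hV hH hd
  have hI : 0 < Real.exp n * V * H / K := by positivity
  unfold E3T829.G2
  rw [Md_eq hK hV hH hd, rp hL, rp hL, rp hL, rp hI, rp hI, log_Ld hK hV hH hd,
    log_I hK hV hH, ← Real.exp_add, ← Real.exp_add]
  set l := lL K V H d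
  set i := lI K V H n
  have h1 : Real.exp (1 / 3 * l) ≤ Real.exp (g2 l i) := by
    refine Real.exp_le_exp.2 (le_trans (le_of_eq ?_) ((le_max_left _ _).trans (le_max_left _ _)))
    ring
  have h2 : Real.exp (l - i / 2) ≤ Real.exp (g2 l i) :=
    Real.exp_le_exp.2 ((le_max_right _ _).trans (le_max_left _ _))
  have h3 : Real.exp (7 / 9 * l + -(2 / 3) * i) ≤ Real.exp (g2 l i) := by
    refine Real.exp_le_exp.2 (le_trans (le_of_eq ?_) ((le_max_left _ _).trans (le_max_right _ _)))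
    ring
  have h4 : Real.exp (11 / 18 * l + -(1 / 3) * i) ≤ Real.exp (g2 l i) := by
    refine Real.exp_le_exp.2 (le_trans (le_of_eq ?_) ((le_max_right _ _).trans (le_max_right _ _)))
    ring
  have h5 := mul_le_mul_of_nonneg_left h2 (show 0 ≤ c by linarith)
  linarith

/-- the factors -/
lemma fac_eq {x y : ℝ} (hK : 0 < K) (hV : 0 < V) (hH : 0 < H) (hx : 0 < x) (hy : 0 < y) :
    K ^ (2 / 3 : ℝ) * (H * V) ^ (-(1 / 3) : ℝ) * (x ^ (2 / 3 : ℝ) * y *
      (Real.exp n / x) ^ (2 / 3 : ℝ)) * (x * y) =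
    Real.exp (2 / 3 * Real.log K - (Real.log H + Real.log V) / 3 + 5 / 3 * Real.log x +
      2 * Real.log y + 2 / 3 * (n - Real.log x)) := by
  rw [rp hK, rp (show 0 < H * V by positivity), rp hx, rp (show 0 < Real.exp n / x by positivity),
    Real.log_mul hH.ne' hV.ne', Real.log_div (Real.exp_pos n).ne' hx.ne', Real.log_exp]
  have e1 : y = Real.exp (Real.log y) := (Real.exp_log hy).symm
  have e2 : x = Real.exp (Real.log x) := (Real.exp_log hx).symm
  have e3 : ∀ a b c' f : ℝ, Real.exp a * Real.exp b * (Real.exp c' * y * Real.exp f) * (x * y) =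
      Real.exp (a + b + (c' + Real.log y + f) + (Real.log x + Real.log y)) := by
    intro a b c' f
    simp only [Real.exp_add]
    rw [← e1, ← e2]
  rw [e3]
  congr 1
  ring

end weights

/-! ### the sequences of the pairs -/

/-- only the multiples of `e` matter -/
lemma RMm_congr {A : ℝ} {a a' : Eis → ℂ} {e : Eis} (h : ∀ n, e ∣ n → a n = a' n) (γ φ r : Eis) :
    RMm A a e γ φ r = RMm A a' e γ φ r := by
  classical
  have h1 : rm a e γ φ = rm a' e γ φ := by
    funext t m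
    unfold R3571.rm
    congr 1
    by_cases h0 : e ∣ γ * m ∧ IsCoprime m φ
    · rw [if_pos h0, if_pos h0, h _ h0.1]
    · rw [if_neg h0, if_neg h0]
  rw [RMm_eq, RMm_eq, h1]

section

variable {Λ : Type*} {π : Λ → DPar} {h : ℝ → ℝ}

/-- the exponent of the number of `(d, e)` without the moment (`gg` = weight) -/
def Nn (gg : ℝ → ℝ → ℝ) (k v h p δ e : ℝ) : ℝ :=
  2 / 3 * k - (h + v) / 3 + 5 / 3 * δ + 2 * e + gg (h + 2 * v - k - δ) (p + v + h - k) +
    2 / 3 * (p - δ)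

set_option maxHeartbeats 3200000 in
/-- **the `R`-number from one real line**, any weight `Q ≤ (3 + c) exp gg` -/
theorem rn_raw {c₀ : ℝ} (hpu : PU h c₀) (hP : ∀ lam, (π lam).OK) {Kc : ℝ} (hKc : 0 ≤ Kc)
    {E : ℝ → ℝ → ℝ → ℝ → ℝ → ℝ → ℝ} (PL : Plain (fun _ k => k ≠ 0) π h (Kc + 2) E)
    {gg : ℝ → ℝ → ℝ} (hgg : ∀ c : ℝ, 0 ≤ c → ∀ l I : ℝ, gg (c * l) (c * I) = c * gg l I)
    {Gb : ℝ} (hGb : 0 ≤ Gb) (hEb : ∀ i y₁ y₂ y₃ x : ℝ, 0 ≤ i → i ≤ Kc + 2 → 0 ≤ y₁ → y₁ ≤ Kc + 2 →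
      0 ≤ y₂ → y₂ ≤ Kc + 2 → 0 ≤ y₃ → y₃ ≤ Kc + 2 → 0 ≤ x → x ≤ Kc + 2 →
      E i y₁ y₂ y₃ 0 x ≤ Gb) {ε : ℝ} (hε : 0 < ε) (hε1 : ε ≤ 1) :
    ∃ σ : ℝ, 0 < σ ∧ σ ≤ ε ∧ ∀ (lam : Λ) (t : Eis), t ≠ 0 → ∀ (N : ℕ) (B : ℝ),
      ∃ (M a A₀ : ℕ), 1 ≤ a ∧ ∀ c : ℝ, 1 ≤ c → ∃ X₀ : ℝ, 1 < X₀ ∧ ∀ X : ℝ, X₀ ≤ X →
      ∀ (u₁ u₂ u₃ : Pq) (ps : List Pq) (m : Eis) (H : ℝ),
      (∀ p ∈ [u₁, u₂, u₃], Dq.lump p ∧ 0 ≤ p.z ∧ p.z ≤ Kc * Real.log X ∧ (nm p.d : ℝ) ≤ X ^ B) →
      ps.length ≤ N →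
      (∀ p ∈ ps, p.kd = .am ∧ 0 ≤ p.z ∧ p.z ≤ σ * Real.log X ∧ (nm p.d : ℝ) ≤ X ^ B) →
      (ps.map Pq.z).sum ≤ Kc * Real.log X → m ≠ 0 → (nm m : ℝ) ≤ X ^ B →
      1 ≤ H → (∀ p ∈ u₁ :: u₂ :: u₃ :: ps, 1 + |p.t| ≤ H) →
      ∀ n : ℝ, n = u₁.z + u₂.z + u₃.z + (ps.map Pq.z).sum →
      ∀ (K V : ℝ) (Hf : Eis → Eis → ℝ) (Qf : Eis → Eis → ℝ) (T : Eis → Eis → ℝ), 0 < K → 0 < V →
      (∀ d e, 0 < Hf d e) → ∀ Pr : Eis → Eis → Prop,
      (∀ d e, Pr d e → IsPrim d ∧ IsPrim e ∧ (nm d : ℝ) ≤ X ^ B ∧ (nm e : ℝ) ≤ X ^ B) →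
      (∀ d e, Pr d e →
        Real.exp n * V * Hf d e / K ≤ X ^ Kc ∧ 0 ≤ Qf d e ∧
        Qf d e ≤ (3 + c) * Real.exp (gg (lL K V (Hf d e) d) (lI K V (Hf d e) n))) →
      (∀ d e, Pr d e → 1 ≤ Ld K V (Hf d e) d →
        Nn gg (Real.log K / Real.log X) (Real.log V / Real.log X) (Real.log (Hf d e) / Real.log X)
          (n / Real.log X) (Real.log (nm d) / Real.log X) (Real.log (nm e) / Real.log X) ≤ T d e ∧
        ∀ i y₁ y₂ y₃ x : ℝ, 0 ≤ i →
        i ≤ (n + Real.log V + Real.log (Hf d e) - Real.log K) / Real.log X + ε → 0 ≤ y₁ →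
        y₁ ≤ u₁.z / Real.log X + ε → 0 ≤ y₂ → y₂ ≤ u₂.z / Real.log X + ε → 0 ≤ y₃ →
        y₃ ≤ u₃.z / Real.log X + ε → 0 ≤ x → x ≤ (ps.map Pq.z).sum / Real.log X + ε →
        y₁ + y₂ + y₃ + x ≤ (n - Real.log (nm d) - Real.log (nm e)) / Real.log X + ε →
        E i y₁ y₂ y₃ 0 x + ((n + Real.log V + Real.log (Hf d e) - Real.log K) / Real.log X - i) / 3 +
          Nn gg (Real.log K / Real.log X) (Real.log V / Real.log X)
            (Real.log (Hf d e) / Real.log X) (n / Real.log X) (Real.log (nm d) / Real.log X)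
            (Real.log (nm e) / Real.log X) ≤ T d e + (y₁ + y₂ + y₃ + x)) →
      ∃ W0 : Eis → Eis → ℝ → ℝ, (∀ d e, Slp a (W0 d e)) ∧
      (∀ A : ℕ, A₀ ≤ A → ∀ d e, Pr d e →
        ∀ γ φ, IsPrim γ → IsPrim φ → (nm φ : ℝ) ≤ X ^ B → ∀ P : ℝ, 0 < P →
          (nm γ : ℝ) * n6 γ ^ 2 * ∑ k ∈ bl P, RMm A (fun j =>
            sqc m (alL h ((u₁ :: u₂ :: u₃ :: ps).map (Pt (π lam) t))) (d * j)) e γ φ k ≤
          W0 d e P) ∧
      ∀ d e, Pr d e →
        FH K (Hf d e) V * ((nm d : ℝ) ^ (2 / 3 : ℝ) * nm e *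
          ((if 1 ≤ Ld K V (Hf d e) d then Qf d e else 0) *
            W0 d e (c * (Real.exp n * V * Hf d e / K)))) ≤
        H ^ M * X ^ (T d e + ε) / (nm d * nm e) := by
  classical
  obtain ⟨σ, hσ0, hσε, HR⟩ := rh_raw hpu hP (Kc := Kc + 1) (by linarith)
    (E := E) (by
      have e : Kc + 1 + 1 = Kc + 2 := by ring
      rw [e]; exact PL) (show 0 < ε / 4 by positivity)
  refine ⟨σ, hσ0, by linarith, fun lam t ht N B => ?_⟩
  obtain ⟨M, a, A₀, X₁, ha, hX₁, HR⟩ := HR lam t ht N B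
  refine ⟨M, a, A₀, ha, fun c hc => ?_⟩
  obtain ⟨X₂, hX₂, HX₂⟩ := XSup271.exists_X (show 1 ≤ 3 + c by linarith) (ε := ε / 4)
    (by positivity)
  refine ⟨max X₁ X₂, lt_of_lt_of_le hX₁ (le_max_left _ _), ?_⟩
  intro X hX u₁ u₂ u₃ ps m H hu hN hps hsum hm0 hmX hH hht n hn K V Hf Qf T hK hV hHf Pr hPr hQ
    hline
  have hXX₁ : X₁ ≤ X := (le_max_left _ _).trans hX
  have hXX₂ : X₂ ≤ X := (le_max_right _ _).trans hX
  have hX1 : 1 < X := by linarith
  have hX0 : 0 < X := by linarith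
  set L := Real.log X with hLd
  have hL : 0 < L := Real.log_pos hX1
  have hc0 : 0 < c := by linarith
  have h3c : 3 + c ≤ X ^ (ε / 4) := HX₂ X hXX₂
  have hcX : c ≤ X ^ (ε / 4) := by linarith
  have hlc0 : 0 ≤ Real.log c := Real.log_nonneg hc
  have hlc : Real.log c ≤ ε / 4 * L := by
    have := Real.log_le_log hc0 hcX
    rwa [Real.log_rpow hX0] at this
  -- the data
  set P1 : Eis → Eis → ℝ := fun d e => c * (Real.exp n * V * Hf d e / K) with hP1
  have hP10 : ∀ d e, 0 < P1 d e := fun d e => by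
    have := hHf d e
    rw [hP1]
    positivity
  set NN : Eis → Eis → ℝ := fun d e => Nn gg (Real.log K / L) (Real.log V / L)
    (Real.log (Hf d e) / L) (n / L) (Real.log (nm d) / L) (Real.log (nm e) / L) with hNN
  set G : Eis → Eis → ℝ := fun d e => if 1 ≤ Ld K V (Hf d e) d ∧ NN d e ≤ T d e then
    T d e - NN d e + ε / 4 else Gb + Kc + 2 with hG
  have hG0 : ∀ d e, 0 ≤ G d e := by
    intro d e
    rw [hG]
    dsimp only
    split_ifs with h1
    · linarith [h1.2]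
    · linarith
  set W1 : Eis → Eis → ℝ := fun d e => H ^ M * X ^ (G d e + ε / 4) *
    (Real.exp n / nm d) ^ (2 / 3 : ℝ) with hW1
  have hW10 : ∀ d e, 0 ≤ W1 d e := fun d e => by rw [hW1]; positivity
  have hlP1 : ∀ d e, Real.log (P1 d e) =
      Real.log c + (n + Real.log V + Real.log (Hf d e) - Real.log K) := by
    intro d e
    have h1 := log_I (n := n) hK hV (hHf d e)
    have h2 := hHf d e
    rw [hP1]
    dsimp only
    rw [Real.log_mul hc0.ne' (by positivity), h1]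
    rfl
  refine ⟨fun d e => W2 a (P1 d e) (W1 d e), fun d e => slp_two ha (hP10 d e) (hW10 d e), ?_, ?_⟩
  · -- (RH)
    intro A hA d e hde γ φ hγ hφ hφm P hPp
    obtain ⟨pd, pe, hdB, ne⟩ := hPr d e hde
    have nd0 : (0 : ℝ) < nm d := by exact_mod_cast nm_pos.2 pd.ne_zero
    have ne0 : (0 : ℝ) < nm e := by exact_mod_cast nm_pos.2 pe.ne_zero
    obtain ⟨hI, hQ0, hQ1⟩ := hQ d e hde
    have hP1X : P1 d e ≤ X ^ (Kc + 1) := by
      have h1 : c ≤ X ^ (1 : ℝ) := hcX.trans (Real.rpow_le_rpow_of_exponent_le hX1.le (by linarith))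
      have h2 := hHf d e
      calc P1 d e ≤ X ^ (1 : ℝ) * X ^ Kc := mul_le_mul h1 hI (by positivity) (by positivity)
        _ = _ := by rw [← Real.rpow_add hX0]; congr 1; ring
    have hlog : Real.log (nm d * nm e) = Real.log (nm d) + Real.log (nm e) :=
      Real.log_mul nd0.ne' ne0.ne'
    have key := HR X hXX₁ u₁ u₂ u₃ ps m H (fun p hp => by
        obtain ⟨b1, b2, b3, b4⟩ := hu p hp
        exact ⟨b1, b2, by linarith, b4⟩) hN hps (by linarith) hm0 hmX hH hht d e pd pe hdB ne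
      (P1 d e) (G d e) (hP10 d e) hP1X (hG0 d e) ?_ A hA γ φ hγ hφ hφm P hPp
    · rw [← hn] at key
      exact key
    · -- the real line
      intro i y₁ y₂ y₃ x hi0 hi hy10 hy1 hy20 hy2 hy30 hy3 hx0 hx hsum'
      rw [hlP1, add_div] at hi ⊢
      rw [hlog] at hsum'
      have hcL : Real.log c / L ≤ ε / 4 := by rw [div_le_iff₀ hL]; exact hlc
      have hcL0 : 0 ≤ Real.log c / L := by positivity
      rw [hG]
      dsimp only
      split_ifs with h1
      · obtain ⟨-, h2⟩ := hline d e hde h1.1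
        have h3 := h2 i y₁ y₂ y₃ x hi0 (by linarith) hy10 (by linarith) hy20 (by linarith) hy30
          (by linarith) hx0 (by linarith) (by
            rw [sub_sub, hn]
            linarith)
        change _ + NN d e ≤ _ at h3
        linarith
      · have hIL : (n + Real.log V + Real.log (Hf d e) - Real.log K) / L ≤ Kc := by
          rw [div_le_iff₀ hL]
          have h2 := Real.log_le_log (by have := hHf d e; positivity) hI
          rw [log_I hK hV (hHf d e), Real.log_rpow hX0] at h2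
          exact h2
        have hz : ∀ p ∈ [u₁, u₂, u₃], p.z / L ≤ Kc := by
          intro p hp
          rw [div_le_iff₀ hL]
          exact (hu p hp).2.2.1
        have hz1 := hz u₁ (by simp)
        have hz2 := hz u₂ (by simp)
        have hz3 := hz u₃ (by simp)
        have hz4 : (ps.map Pq.z).sum / L ≤ Kc := by rw [div_le_iff₀ hL]; exact hsum
        have h3 := hEb i y₁ y₂ y₃ x hi0 (by linarith) hy10 (by linarith) hy20 (by linarith) hy30
          (by linarith) hx0 (by linarith)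
        linarith
  · -- the number
    intro d e hde
    obtain ⟨pd, pe, hdB, ne⟩ := hPr d e hde
    have nd0 : (0 : ℝ) < nm d := by exact_mod_cast nm_pos.2 pd.ne_zero
    have ne0 : (0 : ℝ) < nm e := by exact_mod_cast nm_pos.2 pe.ne_zero
    have hHf0 := hHf d e
    obtain ⟨hI, hQ0, hQ1⟩ := hQ d e hde
    have hRHS : 0 ≤ H ^ M * X ^ (T d e + ε) / (nm d * nm e) := by positivity
    by_cases h1 : 1 ≤ Ld K V (Hf d e) d
    swap
    · rw [if_neg h1, zero_mul, mul_zero, mul_zero]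
      exact hRHS
    rw [if_pos h1]
    have hNT : NN d e ≤ T d e := (hline d e hde h1).1
    have hGe : G d e = T d e - NN d e + ε / 4 := by
      rw [hG]
      dsimp only
      rw [if_pos ⟨h1, hNT⟩]
    have hW : W2 a (P1 d e) (W1 d e) (c * (Real.exp n * V * Hf d e / K)) = W1 d e :=
      W2_at a (hP10 d e) _
    beta_reduce
    rw [hW, le_div_iff₀ (by positivity)]
    have hfac := fac_eq (n := n) hK hV hHf0 nd0 ne0
    set gE : ℝ := gg (lL K V (Hf d e) d) (lI K V (Hf d e) n) with hgE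
    have e1 : FH K (Hf d e) V * ((nm d : ℝ) ^ (2 / 3 : ℝ) * nm e * (Qf d e * W1 d e)) *
        (nm d * nm e) = (K ^ (2 / 3 : ℝ) * (Hf d e * V) ^ (-(1 / 3) : ℝ) *
          ((nm d : ℝ) ^ (2 / 3 : ℝ) * nm e * (Real.exp n / nm d) ^ (2 / 3 : ℝ)) *
          (nm d * nm e)) * (Qf d e * (H ^ M * X ^ (G d e + ε / 4))) := by
      rw [hW1]
      unfold E3Z548.FH
      ring
    rw [e1, hfac]
    have e2 : NN d e * L = (2 / 3 * Real.log K - (Real.log (Hf d e) + Real.log V) / 3 +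
        5 / 3 * Real.log (nm d) + 2 * Real.log (nm e) + 2 / 3 * (n - Real.log (nm d))) + gE := by
      have f1 : gE = L * gg (Real.log (Hf d e) / L + 2 * (Real.log V / L) - Real.log K / L -
          Real.log (nm d) / L) (n / L + Real.log V / L + Real.log (Hf d e) / L -
            Real.log K / L) := by
        rw [← hgg L hL.le, hgE]
        unfold lL lI
        congr 1
        · field_simp
        · field_simp
      rw [f1]
      show Nn gg _ _ _ _ _ _ * L = _
      unfold Nn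
      field_simp
      ring
    have e3 : X ^ (G d e + ε / 4) = Real.exp ((T d e - NN d e + ε / 2) * L) := by
      rw [hGe, Real.rpow_def_of_pos hX0, ← hLd]
      congr 1
      ring
    rw [e3]
    set aa : ℝ := 2 / 3 * Real.log K - (Real.log (Hf d e) + Real.log V) / 3 +
        5 / 3 * Real.log (nm d) + 2 * Real.log (nm e) + 2 / 3 * (n - Real.log (nm d)) with haa
    have hHM : 0 ≤ H ^ M := by positivity
    calc Real.exp aa * (Qf d e * (H ^ M * Real.exp ((T d e - NN d e + ε / 2) * L)))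
        ≤ Real.exp aa * ((3 + c) * Real.exp gE *
          (H ^ M * Real.exp ((T d e - NN d e + ε / 2) * L))) := by
          refine mul_le_mul_of_nonneg_left ?_ (Real.exp_pos _).le
          exact mul_le_mul_of_nonneg_right hQ1 (by positivity)
      _ ≤ Real.exp aa * (X ^ (ε / 4) * Real.exp gE *
          (H ^ M * Real.exp ((T d e - NN d e + ε / 2) * L))) := by
          refine mul_le_mul_of_nonneg_left ?_ (Real.exp_pos _).le
          refine mul_le_mul_of_nonneg_right ?_ (by positivity)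
          exact mul_le_mul_of_nonneg_right h3c (Real.exp_pos _).le
      _ = H ^ M * (Real.exp aa * Real.exp gE * Real.exp (L * (ε / 4)) *
          Real.exp ((T d e - NN d e + ε / 2) * L)) := by
          rw [Real.rpow_def_of_pos hX0 (ε / 4), ← hLd]
          ring
      _ = H ^ M * Real.exp (L * (T d e + 3 / 4 * ε)) := by
          rw [← Real.exp_add, ← Real.exp_add, ← Real.exp_add, ← e2]
          congr 2
          ring
      _ ≤ H ^ M * X ^ (T d e + ε) := by
          refine mul_le_mul_of_nonneg_left ?_ hHM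
          rw [Real.rpow_def_of_pos hX0, ← hLd]
          refine Real.exp_le_exp.2 (mul_le_mul_of_nonneg_left ?_ hL.le)
          linarith

end

end Crest.Agent.R017.RnP571
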