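import Crest.Agent.R017.RPo_813
import Crest.Agent.R017.RnPc_571

/-!
# Row 17, P1, mismatch: the `R`-number (helper813), part 4

* `rnm_raw` : helper571's `rn_raw` for the pairs of the mismatch
-/

set_option autoImplicit false
set_option linter.unusedVariables false

noncomputable section

open Finset

namespace Crest.Agent.R017.RPm813

open Crest.Agent.R012 Crest.Agent.R012.Eis
open Crest.Agent.R012.LS2 (S mem_S bl mem_bl)
open Crest.Agent.R012.Weight600 (pw)
open Crest.Agent.R017.FE47 (PU SM)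
open Crest.Agent.R017.CM106
open Crest.Agent.R017.XG702 (Pcs BG)
open Crest.Agent.R017.Prov71
open Crest.Agent.R017.B770
open Crest.Agent.R017.HP842 (Pc pc sqc al alL)
open Crest.Agent.R017.E5B71 (Pt)
open Crest.Agent.R017.RM986 (Plain)
open Crest.Agent.R017.R3571 (RMm RMm_nonneg RMm_eq rm W2 W2_mono W2_at slp_two)
open Crest.Agent.R017.Mode405 (Slp)
open Crest.Agent.R017.PX764 (n6)
open Crest.Agent.R017.E3Z548 (FH)
open Crest.Agent.R017.E3Sz579 (RHd Ld Md)
open Crest.Agent.R017.E3T829 (G2)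
open Crest.Agent.R017.E3Hd290 (RNF)
open Crest.Agent.R017.GrC828 Crest.Agent.R017.GrT828
open Crest.Agent.R017.DgA829 (lc lc_prim lc_dvd)
open Crest.Agent.R017.RnP571 (Nn lL lI log_Ld Ld_pos log_I fac_eq)
open Crest.Agent.R017.E1551 (jb jb_pos)

/-- a unit factor -/
lemma RMm_unit {A : ℝ} {u : ℂ} (hu : ‖u‖ ≤ 1) (a : Eis → ℂ) (e γ φ r : Eis) :
    RMm A (fun m => u * a m) e γ φ r ≤ RMm A a e γ φ r := by
  classical
  have h1 : ∀ t : ℝ, CS (rm (fun m => u * a m) e γ φ t) r = u * CS (rm a e γ φ t) r := by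
    intro t
    unfold CM106.CS
    rw [← tsum_mul_left]
    refine tsum_congr fun m => ?_
    unfold R3571.rm
    split_ifs
    · ring
    · ring
  rw [RMm_eq]
  have h3 : ∀ t : ℝ, jb A t * ‖CS (rm (fun m => u * a m) e γ φ t) r‖ ^ 2 =
      ‖u‖ ^ 2 * (jb A t * ‖CS (rm a e γ φ t) r‖ ^ 2) := by
    intro t
    rw [h1, norm_mul]
    ring
  simp only [h3]
  rw [MeasureTheory.integral_const_mul, ← RMm_eq]
  exact mul_le_of_le_one_left (RMm_nonneg _ _ _ _ _ _) (pow_le_one₀ (norm_nonneg _) hu)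

section

variable {Λ : Type*} {π : Λ → DPar} {h : ℝ → ℝ}

set_option maxHeartbeats 3200000 in
/-- **the `R`-number of the mismatch from one real line**, any weight `Q ≤ (3 + c) exp gg` -/
theorem rnm_raw {c₀ : ℝ} (hpu : PU h c₀) (hP : ∀ lam, (π lam).OK) {Kc : ℝ} (hKc : 0 ≤ Kc)
    {E : ℝ → ℝ → ℝ → ℝ → ℝ → ℝ → ℝ} (PL : Plain (fun _ k => k ≠ 0) π h (Kc + 2) E)
    {gg : ℝ → ℝ → ℝ} (hgg : ∀ c : ℝ, 0 ≤ c → ∀ l I : ℝ, gg (c * l) (c * I) = c * gg l I)
    {Gb : ℝ} (hGb : 0 ≤ Gb) (hEb : ∀ i y₁ y₂ y₃ x : ℝ, 0 ≤ i → i ≤ Kc + 2 → 0 ≤ y₁ → y₁ ≤ Kc + 2 →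
      0 ≤ y₂ → y₂ ≤ Kc + 2 → 0 ≤ y₃ → y₃ ≤ Kc + 2 → 0 ≤ x → x ≤ Kc + 2 →
      E i y₁ y₂ y₃ 0 x ≤ Gb) {ε : ℝ} (hε : 0 < ε) (hε1 : ε ≤ 1) :
    ∃ σ : ℝ, 0 < σ ∧ σ ≤ ε ∧ ∀ (lam : Λ) (t : Eis), t ≠ 0 → ∀ (N : ℕ) (B : ℝ),
      ∃ (M a A₀ : ℕ), 1 ≤ a ∧ ∀ c : ℝ, 1 ≤ c → ∃ X₀ : ℝ, 1 < X₀ ∧ ∀ X : ℝ, X₀ ≤ X →
      ∀ (us : Fin 3 → Pq) (qs : List Pq) (H : ℝ),
      (∀ i, Dq.lump (us i) ∧ 0 ≤ (us i).z ∧ (us i).z ≤ Kc * Real.log X ∧
        (nm (us i).d : ℝ) ≤ X ^ B) → qs.length ≤ N →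
      (∀ p ∈ qs, p.kd = .am ∧ 0 ≤ p.z ∧ p.z ≤ σ * Real.log X ∧ (nm p.d : ℝ) ≤ X ^ B) →
      (qs.map Pq.z).sum ≤ Kc * Real.log X → 1 ≤ H → (∀ i, 1 + |(us i).t| ≤ H) →
      (∀ p ∈ qs, 1 + |p.t| ≤ H) →
      ∀ (θ : ℝ) (W : Eis → Eis → Eis → ℂ), WOK θ W → ∀ Z : ℝ, 0 ≤ Z →
      (∀ n, sqc 1 (alL h (qs.map (Pt (π lam) t))) n ≠ 0 → (nm n : ℝ) ≤ Z) →
      ∀ g hh : Eis, IsPrim g → IsPrim hh →
      ∀ n : ℝ, n = (us 0).z + (us 1).z + (us 2).z + (qs.map Pq.z).sum - Real.log (nm g) -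
        Real.log (nm hh) →
      ∀ (K V : ℝ) (Hf : Eis → Eis → ℝ) (Qf : Eis → Eis → ℝ) (T : Eis → Eis → ℝ), 0 < K → 0 < V →
      (∀ d e, 0 < Hf d e) → ∀ Pr : Eis → Eis → Prop,
      (∀ d e, Pr d e → IsPrim d ∧ IsPrim e) →
      (∀ d e, Pr d e →
        Real.exp n * V * Hf d e / K ≤ X ^ Kc ∧ 0 ≤ Qf d e ∧
        Qf d e ≤ (3 + c) * Real.exp (gg (lL K V (Hf d e) d) (lI K V (Hf d e) n))) →
      (∀ d e, Pr d e → 1 ≤ Ld K V (Hf d e) d →
        Nn gg (Real.log K / Real.log X) (Real.log V / Real.log X) (Real.log (Hf d e) / Real.log X)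
          (n / Real.log X) (Real.log (nm d) / Real.log X) (Real.log (nm e) / Real.log X) ≤ T d e ∧
        ∀ i y₁ y₂ y₃ x : ℝ, 0 ≤ i →
        i ≤ (n + Real.log V + Real.log (Hf d e) - Real.log K) / Real.log X + ε → 0 ≤ y₁ →
        y₁ ≤ (us 0).z / Real.log X + ε → 0 ≤ y₂ → y₂ ≤ (us 1).z / Real.log X + ε → 0 ≤ y₃ →
        y₃ ≤ (us 2).z / Real.log X + ε → 0 ≤ x →
        x ≤ ((qs.map Pq.z).sum - Real.log (nm g)) / Real.log X + ε →
        y₁ + y₂ + y₃ ≤ ((us 0).z + (us 1).z + (us 2).z - Real.log (nm g)) / Real.log X + ε →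
        y₁ + y₂ + y₃ + x ≤ (n - Real.log (nm d) -
          Real.log (nm (lc (cc g (hh * d)) e))) / Real.log X + ε →
        E i y₁ y₂ y₃ 0 x + ((n + Real.log V + Real.log (Hf d e) - Real.log K) / Real.log X - i) / 3 +
          Nn gg (Real.log K / Real.log X) (Real.log V / Real.log X)
            (Real.log (Hf d e) / Real.log X) (n / Real.log X) (Real.log (nm d) / Real.log X)
            (Real.log (nm e) / Real.log X) ≤ T d e + (y₁ + y₂ + y₃ + x)) →
      ∃ W0 : Eis → Eis → ℝ → ℝ, (∀ d e, Slp a (W0 d e)) ∧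
      (∀ A : ℕ, A₀ ≤ A → ∀ d e, Pr d e → ∀ (b : Eis → ℂ) (u : ℂ), ‖u‖ ≤ 1 →
        (∀ m, b m = u * afW W Z (sqc 1 (alL h (qs.map (Pt (π lam) t))))
          (sqc 1 (alL h ((List.ofFn us).map (Pt (π lam) t)))) g e (hh * d) m) →
        ∀ γ φ, IsPrim γ → IsPrim φ → (nm φ : ℝ) ≤ X ^ B → ∀ P : ℝ, 0 < P →
          (nm γ : ℝ) * n6 γ ^ 2 * ∑ k ∈ bl P, RMm A b e γ φ k ≤ W0 d e P) ∧
      ∀ d e, Pr d e →
        FH K (Hf d e) V * ((nm d : ℝ) ^ (2 / 3 : ℝ) * nm e *
          ((if 1 ≤ Ld K V (Hf d e) d then Qf d e else 0) *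
            W0 d e (c * (Real.exp n * V * Hf d e / K)))) ≤
        (H * (1 + |θ|)) ^ M * X ^ (T d e + ε) / (nm d * nm e) := by
  classical
  obtain ⟨σ, hσ0, hσε, HR⟩ := rp_raw hpu hP (Kc := Kc + 1) (by linarith)
    (E := E) (by
      have e : Kc + 1 + 1 = Kc + 2 := by ring
      rw [e]; exact PL) (show 0 < ε / 4 by positivity)
  refine ⟨σ, hσ0, by linarith, fun lam t ht N B => ?_⟩
  obtain ⟨M, a, A₀, X₁, ha, hX₁, HR⟩ := HR lam t ht N B
  refine ⟨M, a, A₀, ha, fun c hc => ?_⟩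
  obtain ⟨X₂, hX₂, HX₂⟩ := XSup271.exists_X (show 1 ≤ 3 + c by linarith) (ε := ε / 4)
    (by positivity)
  refine ⟨max X₁ X₂, lt_of_lt_of_le hX₁ (le_max_left _ _), ?_⟩
  intro X hX us qs H hus hN hqs hsum hH hH1 hH2 θ W hW Z hZ hsup g hh hg hhh n hn K V Hf Qf T hK
    hV hHf Pr hPr hQ hline
  have ng : (0 : ℝ) < nm g := by exact_mod_cast nm_pos.2 hg.ne_zero
  have nh : (0 : ℝ) < nm hh := by exact_mod_cast nm_pos.2 hhh.ne_zero
  set H' : ℝ := H * (1 + |θ|) with hH'
  have hθ1 : 1 ≤ 1 + |θ| := by linarith [abs_nonneg θ]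
  have hH'1 : 1 ≤ H' := one_le_mul_of_one_le_of_one_le hH hθ1
  have hXX₁ : X₁ ≤ X := (le_max_left _ _).trans hX
  have hXX₂ : X₂ ≤ X := (le_max_right _ _).trans hX
  have hX1 : 1 < X := by linarith
  have hX0 : 0 < X := by linarith
  set L := Real.log X with hLd
  have hL : 0 < L := Real.log_pos hX1
  have hc0 : 0 < c := by linarith
  have h3c : 3 + c ≤ X ^ (ε / 4) := HX₂ X hXX₂
  have hcX : c ≤ X ^ (ε / 4) := by linarith
  have hlc0 : 0 ≤ Real.log c := Real.log_nonneg hc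
  have hlc : Real.log c ≤ ε / 4 * L := by
    have := Real.log_le_log hc0 hcX
    rwa [Real.log_rpow hX0] at this
  -- the data
  set P1 : Eis → Eis → ℝ := fun d e => c * (Real.exp n * V * Hf d e / K) with hP1
  have hP10 : ∀ d e, 0 < P1 d e := fun d e => by
    have := hHf d e
    rw [hP1]
    positivity
  set NN : Eis → Eis → ℝ := fun d e => Nn gg (Real.log K / L) (Real.log V / L)
    (Real.log (Hf d e) / L) (n / L) (Real.log (nm d) / L) (Real.log (nm e) / L) with hNN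
  set G : Eis → Eis → ℝ := fun d e => if 1 ≤ Ld K V (Hf d e) d ∧ NN d e ≤ T d e then
    T d e - NN d e + ε / 4 else Gb + Kc + 2 with hG
  have hG0 : ∀ d e, 0 ≤ G d e := by
    intro d e
    rw [hG]
    dsimp only
    split_ifs with h1
    · linarith [h1.2]
    · linarith
  set W1 : Eis → Eis → ℝ := fun d e => H' ^ M * X ^ (G d e + ε / 4) *
    (Real.exp n / nm d) ^ (2 / 3 : ℝ) with hW1
  have hW10 : ∀ d e, 0 ≤ W1 d e := fun d e => by rw [hW1]; positivity
  have hlP1 : ∀ d e, Real.log (P1 d e) =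
      Real.log c + (n + Real.log V + Real.log (Hf d e) - Real.log K) := by
    intro d e
    have h1 := log_I (n := n) hK hV (hHf d e)
    have h2 := hHf d e
    rw [hP1]
    dsimp only
    rw [Real.log_mul hc0.ne' (by positivity), h1]
    rfl
  refine ⟨fun d e => W2 a (P1 d e) (W1 d e), fun d e => slp_two ha (hP10 d e) (hW10 d e), ?_, ?_⟩
  · -- (RH)
    intro A hA d e hde b u hu hb γ φ hγ hφ hφm P hPp
    obtain ⟨pd, pe⟩ := hPr d e hde
    have nd0 : (0 : ℝ) < nm d := by exact_mod_cast nm_pos.2 pd.ne_zero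
    have ne0 : (0 : ℝ) < nm e := by exact_mod_cast nm_pos.2 pe.ne_zero
    obtain ⟨hI, hQ0, hQ1⟩ := hQ d e hde
    have hP1X : P1 d e ≤ X ^ (Kc + 1) := by
      have h1 : c ≤ X ^ (1 : ℝ) := hcX.trans (Real.rpow_le_rpow_of_exponent_le hX1.le (by linarith))
      have h2 := hHf d e
      calc P1 d e ≤ X ^ (1 : ℝ) * X ^ Kc := mul_le_mul h1 hI (by positivity) (by positivity)
        _ = _ := by rw [← Real.rpow_add hX0]; congr 1; ring
    have hlhd : Real.log (nm (hh * d)) = Real.log (nm hh) + Real.log (nm d) :=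
      log_nm_mul hhh.ne_zero pd.ne_zero
    have key := HR X hXX₁ us qs H (fun p => by
        obtain ⟨b1, b2, b3, b4⟩ := hus p
        exact ⟨b1, b2, by linarith, b4⟩) hN hqs (by linarith) hH hH1 hH2 θ W hW Z hZ hsup g
      (hh * d) e hg (hhh.mul pd) pe (P1 d e) (G d e) (hP10 d e) hP1X (hG0 d e) ?_ A hA γ φ hγ hφ
      hφm P hPp
    · have e9 : Real.exp ((us 0).z + (us 1).z + (us 2).z + (qs.map Pq.z).sum) /
          (nm g * nm (hh * d)) = Real.exp n / nm d := by
        rw [hn, Real.exp_sub, Real.exp_sub, Real.exp_log ng, Real.exp_log nh, nm_mul]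
        push_cast
        field_simp
      rw [e9] at key
      refine le_trans (mul_le_mul_of_nonneg_left (sum_le_sum fun k _ => ?_)
        (by positivity)) key
      have e10 : b = fun m => u * afW W Z (sqc 1 (alL h (qs.map (Pt (π lam) t))))
          (sqc 1 (alL h ((List.ofFn us).map (Pt (π lam) t)))) g e (hh * d) m := funext hb
      rw [e10]
      exact RMm_unit hu _ _ _ _ _
    · -- the real line
      intro i y₁ y₂ y₃ x hi0 hi hy10 hy1 hy20 hy2 hy30 hy3 hx0 hx hysum hsum'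
      rw [hlP1, add_div] at hi ⊢
      rw [hlhd] at hsum'
      have hg0 := log_nm_nn hg.ne_zero
      have hcL : Real.log c / L ≤ ε / 4 := by rw [div_le_iff₀ hL]; exact hlc
      have hcL0 : 0 ≤ Real.log c / L := by positivity
      rw [hG]
      dsimp only
      split_ifs with h1
      · obtain ⟨-, h2⟩ := hline d e hde h1.1
        have h3 := h2 i y₁ y₂ y₃ x hi0 (by linarith) hy10 (by linarith) hy20 (by linarith) hy30
          (by linarith) hx0 (by linarith) (by linarith) (by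
            have e11 : (us 0).z + (us 1).z + (us 2).z + (qs.map Pq.z).sum - Real.log (nm g) -
                (Real.log (nm hh) + Real.log (nm d)) - Real.log (nm (lc (cc g (hh * d)) e)) =
                n - Real.log (nm d) - Real.log (nm (lc (cc g (hh * d)) e)) := by
              rw [hn]; ring
            rw [e11] at hsum'
            linarith)
        change _ + NN d e ≤ _ at h3
        linarith
      · have hIL : (n + Real.log V + Real.log (Hf d e) - Real.log K) / L ≤ Kc := by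
          rw [div_le_iff₀ hL]
          have h2 := Real.log_le_log (by have := hHf d e; positivity) hI
          rw [log_I hK hV (hHf d e), Real.log_rpow hX0] at h2
          exact h2
        have hz : ∀ p, (us p).z / L ≤ Kc := by
          intro p
          rw [div_le_iff₀ hL]
          exact (hus p).2.2.1
        have hz1 := hz 0
        have hz2 := hz 1
        have hz3 := hz 2
        have hz4 : ((qs.map Pq.z).sum - Real.log (nm g)) / L ≤ Kc := by
          rw [div_le_iff₀ hL]; linarith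
        have h3 := hEb i y₁ y₂ y₃ x hi0 (by linarith) hy10 (by linarith) hy20 (by linarith) hy30
          (by linarith) hx0 (by linarith)
        linarith
  · -- the number
    intro d e hde
    obtain ⟨pd, pe⟩ := hPr d e hde
    have nd0 : (0 : ℝ) < nm d := by exact_mod_cast nm_pos.2 pd.ne_zero
    have ne0 : (0 : ℝ) < nm e := by exact_mod_cast nm_pos.2 pe.ne_zero
    have hHf0 := hHf d e
    obtain ⟨hI, hQ0, hQ1⟩ := hQ d e hde
    have hRHS : 0 ≤ H' ^ M * X ^ (T d e + ε) / (nm d * nm e) := by positivity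
    by_cases h1 : 1 ≤ Ld K V (Hf d e) d
    swap
    · rw [if_neg h1, zero_mul, mul_zero, mul_zero]
      exact hRHS
    rw [if_pos h1]
    have hNT : NN d e ≤ T d e := (hline d e hde h1).1
    have hGe : G d e = T d e - NN d e + ε / 4 := by
      rw [hG]
      dsimp only
      rw [if_pos ⟨h1, hNT⟩]
    have hW : W2 a (P1 d e) (W1 d e) (c * (Real.exp n * V * Hf d e / K)) = W1 d e :=
      W2_at a (hP10 d e) _
    beta_reduce
    rw [hW, le_div_iff₀ (by positivity)]
    have hfac := fac_eq (n := n) hK hV hHf0 nd0 ne0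
    set gE : ℝ := gg (lL K V (Hf d e) d) (lI K V (Hf d e) n) with hgE
    have e1 : FH K (Hf d e) V * ((nm d : ℝ) ^ (2 / 3 : ℝ) * nm e * (Qf d e * W1 d e)) *
        (nm d * nm e) = (K ^ (2 / 3 : ℝ) * (Hf d e * V) ^ (-(1 / 3) : ℝ) *
          ((nm d : ℝ) ^ (2 / 3 : ℝ) * nm e * (Real.exp n / nm d) ^ (2 / 3 : ℝ)) *
          (nm d * nm e)) * (Qf d e * (H' ^ M * X ^ (G d e + ε / 4))) := by
      rw [hW1]
      unfold E3Z548.FH
      ring
    rw [e1, hfac]
    have e2 : NN d e * L = (2 / 3 * Real.log K - (Real.log (Hf d e) + Real.log V) / 3 +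
        5 / 3 * Real.log (nm d) + 2 * Real.log (nm e) + 2 / 3 * (n - Real.log (nm d))) + gE := by
      have f1 : gE = L * gg (Real.log (Hf d e) / L + 2 * (Real.log V / L) - Real.log K / L -
          Real.log (nm d) / L) (n / L + Real.log V / L + Real.log (Hf d e) / L -
            Real.log K / L) := by
        rw [← hgg L hL.le, hgE]
        unfold lL lI
        congr 1
        · field_simp
        · field_simp
      rw [f1]
      show Nn gg _ _ _ _ _ _ * L = _
      unfold Nn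
      field_simp
      ring
    have e3 : X ^ (G d e + ε / 4) = Real.exp ((T d e - NN d e + ε / 2) * L) := by
      rw [hGe, Real.rpow_def_of_pos hX0, ← hLd]
      congr 1
      ring
    rw [e3]
    set aa : ℝ := 2 / 3 * Real.log K - (Real.log (Hf d e) + Real.log V) / 3 +
        5 / 3 * Real.log (nm d) + 2 * Real.log (nm e) + 2 / 3 * (n - Real.log (nm d)) with haa
    have hHM : 0 ≤ H' ^ M := by positivity
    calc Real.exp aa * (Qf d e * (H' ^ M * Real.exp ((T d e - NN d e + ε / 2) * L)))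
        ≤ Real.exp aa * ((3 + c) * Real.exp gE *
          (H' ^ M * Real.exp ((T d e - NN d e + ε / 2) * L))) := by
          refine mul_le_mul_of_nonneg_left ?_ (Real.exp_pos _).le
          exact mul_le_mul_of_nonneg_right hQ1 (by positivity)
      _ ≤ Real.exp aa * (X ^ (ε / 4) * Real.exp gE *
          (H' ^ M * Real.exp ((T d e - NN d e + ε / 2) * L))) := by
          refine mul_le_mul_of_nonneg_left ?_ (Real.exp_pos _).le
          refine mul_le_mul_of_nonneg_right ?_ (by positivity)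
          exact mul_le_mul_of_nonneg_right h3c (Real.exp_pos _).le
      _ = H' ^ M * (Real.exp aa * Real.exp gE * Real.exp (L * (ε / 4)) *
          Real.exp ((T d e - NN d e + ε / 2) * L)) := by
          rw [Real.rpow_def_of_pos hX0 (ε / 4), ← hLd]
          ring
      _ = H' ^ M * Real.exp (L * (T d e + 3 / 4 * ε)) := by
          rw [← Real.exp_add, ← Real.exp_add, ← Real.exp_add, ← e2]
          congr 2
          ring
      _ ≤ H' ^ M * X ^ (T d e + ε) := by
          refine mul_le_mul_of_nonneg_left ?_ hHM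
          rw [Real.rpow_def_of_pos hX0, ← hLd]
          refine Real.exp_le_exp.2 (mul_le_mul_of_nonneg_left ?_ hL.le)
          linarith

end

end Crest.Agent.R017.RPm813
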