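import Crest.Agent.R017.MmE_828
import Crest.Agent.R017.RPp_813
import Crest.Agent.R017.P1w_54
import Crest.Agent.R017.GrV_404

/-!
# Row 17, P1, mismatch: the `R`-half (helper813), part 2: the sums and the length of the rows

* **`sum_U`** : the sum over `e`, counted through `U_e`
* `cc_dv`, `log_Hm`, `Ld_lt`, `log_Hm_le` : the common divisor, the length of the rows
* `afrb_form` : helper319's reduced coefficients
-/

set_option autoImplicit false
set_option linter.unusedVariables false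

noncomputable section

open Finset

namespace Crest.Agent.R017.LMR813

open Crest.Agent.R012 Crest.Agent.R012.Eis
open Crest.Agent.R012.Div277 (tau dvs mem_dvs tau_le_rpow isPrim_of_mem_dvs dvd_of_mem_dvs)
open Crest.Agent.R012.LS2 (S mem_S bl mem_bl)
open Crest.Agent.R012.Weight600 (pw norm_pw)
open Crest.Agent.R017.CM106
open Crest.Agent.R017.DgA829 (lc lc_prim lc_dvd nm_lc)
open Crest.Agent.R017.StA828 (gp gp_eq)
open Crest.Agent.R017.StB828 (one_le_nmR)
open Crest.Agent.R017.GrT828 (cc)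
open Crest.Agent.R017.Mm828 (Hm lc_ratio lc_pos)
open Crest.Agent.R017.E3Sz579 (Ld Md)
open Crest.Agent.R017.StJ319 (afb afrb gt5 q5)
open Crest.Agent.R017.StG828 (afd)
open Crest.Agent.R017.GrG404 (Wb afb_eq wok5)
open Crest.Agent.R017.GrC828 Crest.Agent.R017.GrT828
open Crest.Agent.R017.R3571 (RMm RMm_nonneg RMm_eq rm)
open Crest.Agent.R017.E1551 (jb jb_pos)

/-- **the sum over `e`** is counted through `U_e` -/
lemma sum_U {cg : Eis} (hcg : IsPrim cg) (hs : Squarefree cg) {E : ℝ} (hE : 1 ≤ E) :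
    ∑ e ∈ S E, ((nm (lc cg e) : ℝ) / nm cg)⁻¹ ≤ tau cg * (100 * (1 + Real.log E)) := by
  classical
  have hE0 : 0 ≤ E := by linarith
  have np : ∀ {a : Eis}, IsPrim a → (0 : ℝ) < nm a := fun ha => by
    exact_mod_cast nm_pos.2 ha.ne_zero
  have h1 : ∀ e ∈ S E, ((nm (lc cg e) : ℝ) / nm cg)⁻¹ ≤
      ∑ r ∈ dvs cg, if r ∣ e then (nm r : ℝ) / nm e else 0 := by
    intro e he
    obtain ⟨e1, e2, e3⟩ := (mem_S hE0).1 he
    obtain ⟨r, hr, r1, r2, -, r3, -⟩ := nm_lc hcg e2 hs e3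
    have h2 : ((nm (lc cg e) : ℝ) / nm cg)⁻¹ = (nm r : ℝ) / nm e := by
      rw [inv_div, div_eq_div_iff (np (lc_prim hcg e2)).ne' (np e2).ne']
      linarith
    have h3 : (nm r : ℝ) / nm e = if r ∣ e then (nm r : ℝ) / nm e else 0 := by rw [if_pos r2]
    rw [h2, h3]
    refine single_le_sum (f := fun r => if r ∣ e then (nm r : ℝ) / nm e else 0)
      (fun r _ => ?_) ((mem_dvs hcg.ne_zero).2 ⟨hr, r1⟩)
    split_ifs
    · positivity
    · exact le_rfl
  have h4 : ∀ r ∈ dvs cg, ∑ e ∈ S E, (if r ∣ e then (nm r : ℝ) / nm e else 0) ≤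
      ∑ f ∈ S E, 1 / (nm f : ℝ) := by
    intro r hr
    have hrp := isPrim_of_mem_dvs hr
    rw [← sum_filter]
    have hmap : ∀ e ∈ (S E).filter (fun e => r ∣ e), e / r ∈ S E ∧ r * (e / r) = e := by
      intro e he
      obtain ⟨he1, hre⟩ := mem_filter.1 he
      obtain ⟨e1, e2, e3⟩ := (mem_S hE0).1 he1
      have h5 : r * (e / r) = e := EuclideanDomain.mul_div_cancel' hrp.ne_zero hre
      have e2' : IsPrim (r * (e / r)) := by rw [h5]; exact e2
      have e3' : Squarefree (r * (e / r)) := by rw [h5]; exact e3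
      refine ⟨(mem_S hE0).2 ⟨le_trans ?_ e1, e2'.of_mul_left hrp, e3'.of_mul_right⟩, h5⟩
      exact_mod_cast Div277.nm_le_of_dvd e2.ne_zero ⟨r, by rw [mul_comm]; exact h5.symm⟩
    have hinj : Set.InjOn (fun e => e / r) ((S E).filter (fun e => r ∣ e) : Finset Eis) := by
      intro x hx y hy hxy
      rw [← (hmap x (mem_coe.1 hx)).2, ← (hmap y (mem_coe.1 hy)).2]
      exact congrArg (r * ·) hxy
    calc ∑ e ∈ (S E).filter (fun e => r ∣ e), (nm r : ℝ) / nm e =
          ∑ e ∈ (S E).filter (fun e => r ∣ e), 1 / (nm (e / r) : ℝ) := by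
          refine sum_congr rfl fun e he => ?_
          obtain ⟨h6, h7⟩ := hmap e he
          have h8 := np ((mem_S hE0).1 h6).2.1
          have h9 := np hrp
          have h10 : ((nm (r * (e / r)) : ℕ) : ℝ) = nm e := by rw [h7]
          rw [nm_mul] at h10
          push_cast at h10
          rw [← h10, div_mul_eq_div_div, div_self h9.ne']
      _ = ∑ f ∈ ((S E).filter (fun e => r ∣ e)).image (fun e => e / r), 1 / (nm f : ℝ) :=
          (sum_image (f := fun f : Eis => 1 / (nm f : ℝ)) hinj).symm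
      _ ≤ _ := by
          refine sum_le_sum_of_subset_of_nonneg (fun f hf => ?_) fun _ _ _ => by positivity
          obtain ⟨e, he, rfl⟩ := mem_image.1 hf
          exact (hmap e he).1
  calc ∑ e ∈ S E, ((nm (lc cg e) : ℝ) / nm cg)⁻¹ ≤
        ∑ e ∈ S E, ∑ r ∈ dvs cg, (if r ∣ e then (nm r : ℝ) / nm e else 0) := sum_le_sum h1
    _ = ∑ r ∈ dvs cg, ∑ e ∈ S E, (if r ∣ e then (nm r : ℝ) / nm e else 0) := sum_comm
    _ ≤ ∑ r ∈ dvs cg, ∑ f ∈ S E, 1 / (nm f : ℝ) := sum_le_sum h4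
    _ = tau cg * ∑ f ∈ S E, 1 / (nm f : ℝ) := by
        rw [sum_const, nsmul_eq_mul]
        rfl
    _ ≤ _ := mul_le_mul_of_nonneg_left (E1551.sum_inv_S551 hE) (Nat.cast_nonneg _)

/-- the common divisor -/
lemma cc_dv {g hh d : Eis} (hg : IsPrim g) (hp : IsPrim hh) (hhg : hh ∣ g) (hd : IsCoprime d g) :
    cc g (hh * d) = g / hh := by
  have e1 : g = hh * (g / hh) := (EuclideanDomain.mul_div_cancel' hp.ne_zero hhg).symm
  have e2 : gp (hh * d) g = hh := by
    refine gp_eq (l₁ := d) (u₁ := g / hh) hg hp rfl e1 ?_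
    exact hd.of_isCoprime_of_dvd_right ⟨hh, by rw [mul_comm]; exact e1⟩
  unfold GrT828.cc
  rw [e2]

/-- the length of the rows, small `d` -/
lemma log_Hm {Hp D₀ K X c : ℝ} (hHp : 0 < Hp) {cg d e : Eis} (hcg : IsPrim cg) (hd : IsPrim d)
    (he : IsPrim e) (k : ℕ) (h : (nm d : ℝ) ≤ D₀) :
    Real.log (Hm Hp D₀ cg K X c k d e) = max 0 (Real.log Hp - 4 / 3 * Real.log (nm d)) -
      2 * Real.log ((nm (lc cg e) : ℝ) / nm cg) := by
  have nd : (0 : ℝ) < nm d := by linarith [one_le_nmR hd]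
  have hU : 0 < (nm (lc cg e) : ℝ) / nm cg := by linarith [lc_ratio hcg he]
  have h1 : 0 < Hp * (nm d : ℝ) ^ (-(4 / 3) : ℝ) := by positivity
  have h2 : (0 : ℝ) < max 1 (Hp * (nm d : ℝ) ^ (-(4 / 3) : ℝ)) := lt_max_of_lt_left one_pos
  unfold Mm828.Hm
  rw [if_pos h, Real.log_mul h2.ne' (Real.rpow_pos_of_pos hU _).ne', Real.log_rpow hU]
  have h3 : Real.log (max 1 (Hp * (nm d : ℝ) ^ (-(4 / 3) : ℝ))) =
      max 0 (Real.log Hp - 4 / 3 * Real.log (nm d)) := by
    have h4 : Real.log (Hp * (nm d : ℝ) ^ (-(4 / 3) : ℝ)) =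
        Real.log Hp - 4 / 3 * Real.log (nm d) := by
      rw [Real.log_mul hHp.ne' (by positivity), Real.log_rpow nd]
      ring
    rw [← h4]
    rcases le_total 1 (Hp * (nm d : ℝ) ^ (-(4 / 3) : ℝ)) with h5 | h5
    · rw [max_eq_right h5, max_eq_right (Real.log_nonneg h5)]
    · rw [max_eq_left h5, max_eq_left (Real.log_nonpos h1.le h5), Real.log_one]
  rw [h3]
  ring

/-- beyond `D₀` the structured part is empty -/
lemma Ld_lt {Hp D₀ K X c : ℝ} (hK : 0 < K) (hX : 0 < X) (hc : 1 ≤ c) {cg d e : Eis}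
    (hd : IsPrim d) (k : ℕ) (h : ¬ (nm d : ℝ) ≤ D₀) :
    Ld K (Real.exp k) (Hm Hp D₀ cg K X c k d e) d < 1 := by
  have nd : (0 : ℝ) < nm d := by linarith [one_le_nmR hd]
  have hV := Real.exp_pos (k : ℝ)
  unfold E3Sz579.Ld Mm828.Hm
  rw [if_neg h, div_lt_one (by positivity)]
  have h1 : K * min (nm d : ℝ) X / (2 * c * Real.exp k ^ 2) * Real.exp k ^ 2 =
      K * min (nm d : ℝ) X / (2 * c) := by
    field_simp
  rw [h1, div_lt_iff₀ (by linarith)]
  have h2 : min (nm d : ℝ) X ≤ nm d := min_le_left _ _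
  have h3 : K * min (nm d : ℝ) X ≤ K * nm d := mul_le_mul_of_nonneg_left h2 hK.le
  have h4 : 0 < K * (nm d : ℝ) := mul_pos hK nd
  nlinarith

/-- crude bound, large `d` -/
lemma log_Hm_le {Hp D₀ K X c : ℝ} (hK : 0 < K) (hX : 0 < X) (hc : 1 ≤ c) {cg d e : Eis}
    (hd : IsPrim d) (k : ℕ) (h : ¬ (nm d : ℝ) ≤ D₀) :
    Real.log (Hm Hp D₀ cg K X c k d e) ≤ Real.log K + Real.log X - 2 * k := by
  have nd : (0 : ℝ) < nm d := by linarith [one_le_nmR hd]
  have hm : 0 < min (nm d : ℝ) X := lt_min nd hX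
  unfold Mm828.Hm
  rw [if_neg h, Real.log_div (by positivity) (by positivity), Real.log_mul hK.ne' hm.ne',
    Real.log_mul (by positivity) (by positivity), Real.log_pow, Real.log_exp]
  have h1 : Real.log (min (nm d : ℝ) X) ≤ Real.log X := Real.log_le_log hm (min_le_right _ _)
  have h2 : 0 ≤ Real.log (2 * c) := Real.log_nonneg (by linarith)
  push_cast
  linarith

/-- the moment of the zero sequence -/
lemma RMm_zero {A : ℝ} {a : Eis → ℂ} (ha : ∀ m, a m = 0) (e γ φ r : Eis) :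
    RMm A a e γ φ r = 0 := by
  classical
  have h1 : ∀ t : ℝ, CS (rm a e γ φ t) r = 0 := by
    intro t
    unfold CM106.CS R3571.rm
    simp [ha]
  rw [RMm_eq]
  simp [h1]

/-- helper319's reduced coefficient -/
lemma afrb_form (E0 Z : ℝ) (η α : Eis → ℂ) (g hh : Eis) (c : Fin 5) (s : ℝ) {e d : Eis}
    (hd : IsCoprime d g) (m : Eis) :
    afrb (gt5 E0 Z g c) (q5 g c) Z η α g hh s e d m =
      pw (2 * s) (nm d) * afW (Wb (gt5 E0 Z g c) (q5 g c) s) Z η α g e (hh * d) m := by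
  classical
  unfold StJ319.afrb StG828.afd
  rw [if_pos hd, afb_eq]

lemma afrb_zero (E0 Z : ℝ) (η α : Eis → ℂ) (g hh : Eis) (c : Fin 5) (s : ℝ) {e d : Eis}
    (hd : ¬ IsCoprime d g) (m : Eis) :
    afrb (gt5 E0 Z g c) (q5 g c) Z η α g hh s e d m = 0 := by
  classical
  unfold StJ319.afrb StG828.afd
  rw [if_neg hd, mul_zero]

end Crest.Agent.R017.LMR813
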