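import Crest.Agent.R017.LMR_813
import Crest.Agent.R017.LMRb_813

/-!
# Row 17, P1, mismatch: the `R`-half (helper813), part 3: one level

* `fr_real`, `Hp_real` : the frame in units of `log X`
* **`lmr_level`** : (RH) and the number at one level
-/

set_option autoImplicit false
set_option linter.unusedVariables false

noncomputable section

open Finset

namespace Crest.Agent.R017.LMR813

open Crest.Agent.R012 Crest.Agent.R012.Eis
open Crest.Agent.R012.Div277 (tau dvs mem_dvs isPrim_of_mem_dvs dvd_of_mem_dvs)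
open Crest.Agent.R012.LS2 (S mem_S bl mem_bl)
open Crest.Agent.R012.Weight600 (pw norm_pw)
open Crest.Agent.R017.CM106
open Crest.Agent.R017.FE47 (PU SM)
open Crest.Agent.R017.XG702 (Pcs BG)
open Crest.Agent.R017.Prov71
open Crest.Agent.R017.B770
open Crest.Agent.R017.ER911 Crest.Agent.R017.ExpC702
open Crest.Agent.R017.XPD571 (RP0)
open Crest.Agent.R017.HP842 (Pc pc sqc al alL)
open Crest.Agent.R017.E5B71 Crest.Agent.R017.E5L770
open Crest.Agent.R017.RM986 (Plain)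
open Crest.Agent.R017.R3571 (RMm RMm_nonneg RMm_eq rm)
open Crest.Agent.R017.Mode405 (Slp)
open Crest.Agent.R017.PX764 (n6)
open Crest.Agent.R017.E3Z548 (FH)
open Crest.Agent.R017.E3Sz579 (RHd Ld Md)
open Crest.Agent.R017.E3Hd290 (RNF)
open Crest.Agent.R017.GrC828 Crest.Agent.R017.GrT828
open Crest.Agent.R017.DgA829 (lc lc_prim lc_dvd)
open Crest.Agent.R017.RnP571 (Dh Nn lL lI log_Ld Ld_pos EN)
open Crest.Agent.R017.TM708 (PD)
open Crest.Agent.R017.I1146 (LN)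
open Crest.Agent.R017.P10146 (bP cl)
open Crest.Agent.R017.P1l54 Crest.Agent.R017.P1u54 Crest.Agent.R017.P1v54 Crest.Agent.R017.P1w54
open Crest.Agent.R017.StJ319 (afrb gt5 q5 I5)
open Crest.Agent.R017.StB828 (one_le_nmR)
open Crest.Agent.R017.GrG404 (Wb wok5)
open Crest.Agent.R017.Mm828 (Hm Hm_pos lc_ratio lc_pos Vb)
open Crest.Agent.R017.E3Kc548 (LI mem_LI)
open Crest.Agent.R017.P1Q904 (LQ)
open Crest.Agent.R017.R1M904 (hM)
open Crest.Agent.R017.RPm813

/-- the frame in units of `log X` -/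
lemma fr_real {p : Fin 3 ⊕ Fin 5 → ℝ} {X τ B H : ℝ} {N : ℕ} {a : Bm} {qs : List Pq}
    (F : Fr9 p X τ B H N a qs) (hτ0 : 0 ≤ τ) {t : ℝ} (ht : 20 * τ ≤ t)
    (hL8 : 8 ≤ t * Real.log X) {cl5 : Fin 5} {i : ℕ}
    (hi : i ∈ I5 a.2.1 (nM (nO a.1.1) a.2.2) (nO a.1.1) (Real.exp a.2.2) cl5) :
    |a.1.1.l / Real.log X - cκ p| ≤ t ∧
    cκ p / 2 - 2 * cx' p - t ≤
      (LN (cl a.1 qs) - 2 * Real.log (nm a.2.1)) / Real.log X ∧
    (LN (cl a.1 qs) - 2 * Real.log (nm a.2.1)) / Real.log X ≤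
      cu p 2 + cu p 3 + cu p 4 + cx' p + t ∧
    Real.log 2 * (i + 1) / Real.log X ≤
      2 * (cu p 2 + cu p 3 + cu p 4) - cκ p + 21 / 5 * cx' p + t ∧
    Real.log 2 * (i + 1) / Real.log X ≤ 3 / 4 * (cu p 2 + cu p 3 + cu p 4) + 21 / 5 * cx' p + t := by
  have hL := F.L
  have hg0 := F.g0
  have hN : cN p = cu p 2 + cu p 3 + cu p 4 := rfl
  have hτL : 20 * (τ * Real.log X) ≤ t * Real.log X := by
    have := mul_le_mul_of_nonneg_right ht hL.le
    linarith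
  have hτL0 : 0 ≤ τ * Real.log X := by positivity
  obtain ⟨k1, k2⟩ := abs_le.1 F.l
  obtain ⟨z1, z2⟩ := abs_le.1 F.z
  obtain ⟨A1, A2⟩ := abs_le.1 F.A
  obtain ⟨ζ1, ζ2⟩ := abs_le.1 F.ζ
  have hpar := F.par
  have hM : i < nM (nO a.1.1) a.2.2 := mem_range.1 (StJ319.I5_sub _ _ _ _ _ hi)
  have hl2 : 0 < Real.log 2 := Real.log_pos (by norm_num)
  have hl21 : Real.log 2 ≤ 1 := by
    have := Real.log_two_lt_d9
    linarith
  have hlev : Real.log 2 * (i + 1) ≤ max 0 (Sf770.tO a.1.1) + 2 * a.2.2 + 3 := by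
    have h1 : (i : ℝ) + 1 ≤ nM (nO a.1.1) a.2.2 := by exact_mod_cast hM
    have h2 : (nM (nO a.1.1) a.2.2 : ℝ) ≤ nO a.1.1 + (2 * a.2.2 / Real.log 2 + 1) + 1 := by
      unfold P1u54.nM
      push_cast
      have := Nat.ceil_lt_add_one (div_nonneg (mul_nonneg zero_le_two F.ζ0) hl2.le)
      linarith
    have h3 := mul_le_mul_of_nonneg_left (h1.trans h2) hl2.le
    have h4 : Real.log 2 * (nO a.1.1 + (2 * a.2.2 / Real.log 2 + 1) + 1) =
        Real.log 2 * nO a.1.1 + 2 * a.2.2 + 2 * Real.log 2 := by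
      field_simp
      ring
    have h5 := F.n1
    linarith
  have hz' := hN ▸ A1
  set S3 := cu p 2 + cu p 3 + cu p 4 with hS3
  have hN0 := hpar.N0
  rw [hN] at hN0 A1 A2
  have hκL : 0 ≤ cκ p * Real.log X := mul_nonneg (by linarith [hpar.κ0]) hL.le
  have hxL : 0 ≤ cx' p * Real.log X := mul_nonneg hpar.x0 hL.le
  have hNL := mul_le_mul_of_nonneg_right hN0 hL.le
  have htO1 : max 0 (Sf770.tO a.1.1) ≤ (2 * S3 - cκ p + 11 / 5 * cx' p) * Real.log X +
      6 * (τ * Real.log X) := by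
    refine max_le ?_ ?_
    · linarith
    · unfold Sf770.tO
      have := min_le_left (2 * a3 a.1.1 - a.1.1.l) (3 / 4 * a3 a.1.1)
      linarith
  have htO2 : max 0 (Sf770.tO a.1.1) ≤ (3 / 4 * S3 + 11 / 5 * cx' p) * Real.log X +
      6 * (τ * Real.log X) := by
    refine max_le ?_ ?_
    · linarith
    · unfold Sf770.tO
      have := min_le_right (2 * a3 a.1.1 - a.1.1.l) (3 / 4 * a3 a.1.1)
      linarith
  have hlo := F.lo
  have hup := F.up
  rw [hN] at hup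
  refine ⟨?_, ?_, ?_, ?_, ?_⟩
  · have e1 : a.1.1.l / Real.log X - cκ p = (a.1.1.l - cκ p * Real.log X) / Real.log X := by
      field_simp
    rw [e1, abs_div, abs_of_pos hL, div_le_iff₀ hL]
    have := F.l
    linarith
  · rw [le_div_iff₀ hL]
    linarith
  · rw [div_le_iff₀ hL]
    linarith
  · rw [div_le_iff₀ hL]
    linarith
  · rw [div_le_iff₀ hL]
    linarith

/-- the exponent of the length of the rows -/
lemma Hp_real {p : Fin 3 ⊕ Fin 5 → ℝ} {X τ B H : ℝ} {N : ℕ} {a : Bm} {qs : List Pq}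
    (F : Fr9 p X τ B H N a qs) (hτ0 : 0 ≤ τ) {t : ℝ} (ht : 20 * τ ≤ t) {Hp : ℝ}
    (hHp : Real.log Hp ≤ 4 / 3 * (LN (cl a.1 qs) - 2 * Real.log (nm a.2.1)) + 2 / 3 * a.2.2 -
      a.1.1.l - 3 * max 0 (5 / 4 * a3 a.1.1 - a.1.1.l)) (D : ℝ) :
    max 0 (Real.log Hp - 4 / 3 * D) / Real.log X ≤ hM (cu p 2 + cu p 3 + cu p 4) (cκ p)
      ((LN (cl a.1 qs) - 2 * Real.log (nm a.2.1)) / Real.log X) (D / Real.log X) (cx' p) + t := by
  have hL := F.L
  have hN : cN p = cu p 2 + cu p 3 + cu p 4 := rfl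
  have hτL : 20 * (τ * Real.log X) ≤ t * Real.log X := by
    have := mul_le_mul_of_nonneg_right ht hL.le
    linarith
  have hτL0 : 0 ≤ τ * Real.log X := by positivity
  obtain ⟨k1, k2⟩ := abs_le.1 F.l
  obtain ⟨A1, A2⟩ := abs_le.1 F.A
  obtain ⟨ζ1, ζ2⟩ := abs_le.1 F.ζ
  rw [hN] at A1 A2
  set S3 := cu p 2 + cu p 3 + cu p 4 with hS3
  set P := LN (cl a.1 qs) - 2 * Real.log (nm a.2.1) with hP
  have h1 : max 0 (5 / 4 * S3 - cκ p) * Real.log X ≤
      max 0 (5 / 4 * a3 a.1.1 - a.1.1.l) + 3 * (τ * Real.log X) := by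
    rw [max_mul_of_nonneg _ _ hL.le]
    refine max_le ?_ ?_
    · rw [zero_mul]
      have := le_max_left 0 (5 / 4 * a3 a.1.1 - a.1.1.l)
      linarith
    · have := le_max_right 0 (5 / 4 * a3 a.1.1 - a.1.1.l)
      linarith
  unfold R1M904.hM
  rw [div_le_iff₀ hL, add_mul, max_mul_of_nonneg _ _ hL.le, zero_mul]
  have e1 : (4 / 3 * (P / Real.log X - D / Real.log X) + 2 / 3 * cx' p - cκ p -
      3 * max 0 (5 / 4 * S3 - cκ p)) * Real.log X =
      4 / 3 * (P - D) + 2 / 3 * (cx' p * Real.log X) - cκ p * Real.log X -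
        3 * (max 0 (5 / 4 * S3 - cκ p) * Real.log X) := by
    field_simp
  rw [e1]
  have h3 := le_max_left 0 (4 / 3 * (P - D) + 2 / 3 * (cx' p * Real.log X) - cκ p * Real.log X -
        3 * (max 0 (5 / 4 * S3 - cκ p) * Real.log X))
  have h4 := le_max_right 0 (4 / 3 * (P - D) + 2 / 3 * (cx' p * Real.log X) - cκ p * Real.log X -
        3 * (max 0 (5 / 4 * S3 - cκ p) * Real.log X))
  refine max_le (by linarith) (by linarith)

section

variable {Λ : Type*} {π : Λ → DPar} {h : ℝ → ℝ}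

set_option maxHeartbeats 6400000 in
/-- **(RH) and the number at one level** -/
theorem lmr_level {c₀ : ℝ} (hpu : PU h c₀) (hP : ∀ lam, (π lam).OK) {sf : EF} {dd : ℝ}
    (R : ExpRules (7 / 8 + dd) (ex Dq (fun lam => Rp (π lam) h)) sf)
    (hcolP : ∀ (i : ℝ) (u : List ℝ) (m a : ℝ), 0 ≤ i → Okl u m a →
      BG Dq (RP0 π h) i u (wt m a) (2 * a + 2 * (7 / 8 + dd) * m)) (hd : 0 ≤ dd)
    (hd8 : dd ≤ 1 / 8) {Par : Set (Fin 3 ⊕ Fin 5 → ℝ)}
    (hDh : ∀ p ∈ Par, Dh (cκ p) (cu p 2) (cu p 3) (cu p 4) (cx' p) (dd * cκ p))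
    (e0 : ℝ) {ε : ℝ} (hε : 0 < ε) :
    ∃ τ : ℝ, 0 < τ ∧ τ ≤ ε ∧ ∀ (lam : Λ × Eis) (N : ℕ) (B Bm : ℝ),
      ∃ (M a₀ A₀ : ℕ), 1 ≤ a₀ ∧ ∀ c : ℝ, 1 ≤ c → ∃ X₀ : ℝ, 1 < X₀ ∧ ∀ X : ℝ, X₀ ≤ X →
      ∀ H : ℝ, 1 ≤ H → ∀ p ∈ Par, ∀ (a : P1l54.Bm) (qs : List Pq), Fr9 p X τ B H N a qs →
      okM π h lam a qs → ∀ (cl5 : Fin 5) (i : ℕ) (b : Eis) (s : ℝ),
      i ∈ I5 a.2.1 (nM (nO a.1.1) a.2.2) (nO a.1.1) (Real.exp a.2.2) cl5 → b ∈ dvs a.2.1 →
      ∀ (K Hp D₀ Xw : ℝ), K = Real.exp a.1.1.l → 0 < Hp →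
      Real.log Hp ≤ 4 / 3 * (LN (cl a.1 qs) - 2 * Real.log (nm a.2.1)) + 2 / 3 * a.2.2 -
        a.1.1.l - 3 * max 0 (5 / 4 * a3 a.1.1 - a.1.1.l) → 0 ≤ D₀ →
      D₀ ≤ K ^ (13 / 100 : ℝ) → Xw = Real.exp (LN (cl a.1 qs)) / (nm a.2.1 * nm b) →
      ∀ k ∈ LI (1 / 10) (Vb (a.2.1 / b) i),
      ∃ W : Eis → Eis → ℝ → ℝ, (∀ d e, Slp a₀ (W d e)) ∧
      (∀ A : ℕ, A₀ ≤ A → ∀ d e, IsPrim d → IsPrim e → ∀ γ φ, IsPrim γ → IsPrim φ →
        (nm φ : ℝ) ≤ X ^ Bm → ∀ P : ℝ, 0 < P → (nm γ : ℝ) * n6 γ ^ 2 * ∑ r ∈ bl P,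
          RMm A (afrb (gt5 (Real.exp (e0 * a.1.1.l)) (Real.exp a.2.2) a.2.1 cl5) (q5 a.2.1 cl5)
            (Real.exp a.2.2) (ηC π h lam qs) (αC π h lam a) a.2.1 b s e d) e γ φ r ≤ W d e P) ∧
      ∀ d e, IsPrim d → IsPrim e →
        (nm e : ℝ)⁻¹ * (FH K (Hm Hp D₀ (a.2.1 / b) K Xw c k d e) (Real.exp k) *
          RNF c K (Real.exp k) Xw (Hm Hp D₀ (a.2.1 / b) K Xw c k) W d e) ≤
        (H * (1 + |s|)) ^ M * X ^ ε * Real.exp (a.1.1.l + LN (cl a.1 qs) -
          2 * Real.log (nm a.2.1) + LQ (cN p) (cκ p) (dd * cκ p) * Real.log X) *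
          ((nm d : ℝ)⁻¹ * ((nm (lc (a.2.1 / b) e) : ℝ) / nm (a.2.1 / b))⁻¹) := by
  classical
  have PL : Plain (fun _ k => k ≠ 0) π h ((8 : ℝ) + 2) (EN dd) :=
    RM986.rm_RF hpu hP R hcolP hd hd8 _
  have hcE : Continuous (fun q : (Fin 4 → ℝ) × (Kd → ℝ) =>
      EN dd (q.1 0) (q.1 1) (q.1 2) (q.1 3) (q.2 .mo) (q.2 .am)) := RM986.cont_E3c dd
  obtain ⟨Gb, hGb, hEb⟩ := RnP571.bdd_of_cont hcE (8 + 2)
  set ε₁ : ℝ := min (ε / 4) (1 / 1000000) with hε₁
  have hε₁0 : 0 < ε₁ := lt_min (by positivity) (by norm_num)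
  have hε₁a : ε₁ ≤ ε / 4 := min_le_left _ _
  have hε₁b : ε₁ ≤ 1 / 1000000 := min_le_right _ _
  obtain ⟨σ, hσ0, hσε, HR⟩ := rnm_raw hpu hP (Kc := 8) (by norm_num) PL
    (gg := RnP571.g1) (fun c hc l I => RnP571.g1_hom hc l I) hGb
    (fun i y₁ y₂ y₃ x => hEb i y₁ y₂ y₃ x) hε₁0 (by linarith)
  set τ : ℝ := min σ (ε₁ / 20) with hτ
  have hτ0 : 0 < τ := lt_min hσ0 (by positivity)
  have hτσ : τ ≤ σ := min_le_left _ _
  have hτε : τ ≤ ε₁ / 20 := min_le_right _ _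
  refine ⟨τ, hτ0, by linarith, fun lam N B Bm => ?_⟩
  by_cases ht : lam.2 = 0
  · refine ⟨0, 1, 0, le_rfl, fun c hc => ⟨2, by norm_num, ?_⟩⟩
    intro X hX H hH p hp a qs F hok
    exact absurd ht hok.1.2.1.1
  obtain ⟨M, a₀, A₀, ha₀, HR⟩ := HR lam.1 lam.2 ht N (max B Bm)
  refine ⟨M, a₀, A₀, ha₀, fun c hc => ?_⟩
  obtain ⟨X₁, hX₁, HR⟩ := HR c hc
  refine ⟨max X₁ (Real.exp (8 / ε₁)), lt_of_lt_of_le hX₁ (le_max_left _ _), ?_⟩
  intro X hX H hH p hp a qs F hok cl5 i b s hi hb K Hp D₀ Xw hKd hHp hHpl hD₀ hD₀' hXw k hk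
  have hXX₁ : X₁ ≤ X := (le_max_left _ _).trans hX
  have hX1 : 1 < X := by linarith
  have hX0 : 0 < X := by linarith
  have hL : 0 < Real.log X := F.L
  set L := Real.log X with hLd
  have hL8 : 8 ≤ ε₁ * L := by
    have h1 : Real.exp (8 / ε₁) ≤ X := (le_max_right _ _).trans hX
    have h2 : 8 / ε₁ ≤ L := by
      rw [hLd, ← Real.log_exp (8 / ε₁)]
      exact Real.log_le_log (Real.exp_pos _) h1
    rw [div_le_iff₀ hε₁0] at h2
    linarith
  have hX1B : ∀ {x : ℝ}, x ≤ X ^ B → x ≤ X ^ (max B Bm) := fun hx =>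
    hx.trans (Real.rpow_le_rpow_of_exponent_le hX1.le (le_max_left _ _))
  obtain ⟨hokC, hgp, hgs, hζ0, hsup, hgS⟩ := hok
  obtain ⟨-, hSM, hlump, -⟩ := hokC
  have hbp : IsPrim b := isPrim_of_mem_dvs hb
  have hbg : b ∣ a.2.1 := dvd_of_mem_dvs hb
  have hbgm : b * (a.2.1 / b) = a.2.1 := EuclideanDomain.mul_div_cancel' hbp.ne_zero hbg
  have hcg : IsPrim (a.2.1 / b) := by
    have e2 : IsPrim (b * (a.2.1 / b)) := by rw [hbgm]; exact hgp
    exact e2.of_mul_left hbp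
  have ng : (0 : ℝ) < nm a.2.1 := by linarith [one_le_nmR hgp]
  have nb : (0 : ℝ) < nm b := by linarith [one_le_nmR hbp]
  have nc : (0 : ℝ) < nm (a.2.1 / b) := by linarith [one_le_nmR hcg]
  have hlcg : Real.log (nm a.2.1) = Real.log (nm b) + Real.log (nm (a.2.1 / b)) := by
    have e3 : ((nm (b * (a.2.1 / b)) : ℕ) : ℝ) = nm a.2.1 := by rw [hbgm]
    rw [nm_mul] at e3
    push_cast at e3
    rw [← e3, Real.log_mul nb.ne' nc.ne']
  have hD := hDh p hp
  have hpar := F.par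
  obtain ⟨k1, k2⟩ := abs_le.1 F.l
  have hτL : 20 * (τ * L) ≤ ε₁ * L := by
    have := mul_le_mul_of_nonneg_right hτε hL.le
    linarith
  have hτL0 : 0 ≤ τ * L := by positivity
  have hK : 0 < K := by rw [hKd]; exact Real.exp_pos _
  have hlK : Real.log K = a.1.1.l := by rw [hKd, Real.log_exp]
  have hXw0 : 0 < Xw := by rw [hXw]; positivity
  have hlXw : Real.log Xw = LN (cl a.1 qs) - Real.log (nm a.2.1) - Real.log (nm b) := by
    rw [hXw, Real.log_div (Real.exp_pos _).ne' (by positivity), Real.log_exp,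
      Real.log_mul ng.ne' nb.ne']
    ring
  set n : ℝ := (a.1.2 0).z + (a.1.2 1).z + (a.1.2 2).z + (qs.map Pq.z).sum -
    Real.log (nm a.2.1) - Real.log (nm b) with hn
  have hLNq : (qs.map Pq.z).sum = LN qs := rfl
  have hnX : n = Real.log Xw := by rw [hlXw, hn, F.cl, hLNq]
  have hen : Real.exp n = Xw := by rw [hnX, Real.exp_log hXw0]
  set V : ℝ := Real.exp k with hV
  have hV0 : 0 < V := Real.exp_pos _
  have hlV : Real.log V = k := by rw [hV, Real.log_exp]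
  set Hf : Eis → Eis → ℝ := Hm Hp D₀ (a.2.1 / b) K Xw c k with hHf
  have hHf0 : ∀ d e, 0 < Hf d e := fun d e =>
    Hm_pos hD₀ hcg hK hXw0 (by linarith) k d e
  obtain ⟨θ, hθ, hWok⟩ := wok5 (Real.exp (e0 * a.1.1.l)) (Real.exp a.2.2) a.2.1 cl5 s
  obtain ⟨r1, r2, r3, r4, r5⟩ := fr_real F hτ0.le (t := ε₁) (by linarith) hL8 hi
  have rH := Hp_real F hτ0.le (t := ε₁) (by linarith) hHpl
  rw [← hLd] at r1 r2 r3 r4 r5 rH
  set P : ℝ := (LN (cl a.1 qs) - 2 * Real.log (nm a.2.1)) / L with hPd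
  have hPL : P * L = LN (cl a.1 qs) - 2 * Real.log (nm a.2.1) := div_mul_cancel₀ _ hL.ne'
  set ρ : ℝ := Real.log (nm (a.2.1 / b)) / L with hρ
  have hρL : ρ * L = Real.log (nm (a.2.1 / b)) := div_mul_cancel₀ _ hL.ne'
  have hρ0 : 0 ≤ ρ := div_nonneg (Real.log_nonneg (one_le_nmR hcg)) hL.le
  set v : ℝ := Real.log 2 * (i + 1) / L with hv
  have hvL : v * L = Real.log 2 * (i + 1) := div_mul_cancel₀ _ hL.ne'
  have hnL : n / L = P + ρ := by
    rw [div_eq_iff hL.ne', add_mul, hPL, hρL, hnX, hlXw, hlcg]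
    ring
  have hkv : (k : ℝ) / L ≤ v - ρ + ε₁ := by
    rw [div_le_iff₀ hL]
    have h1 := (mem_LI hk).2.2
    have h2 := Real.log_le_log (Real.exp_pos _) h1
    have h3 : 0 < Vb (a.2.1 / b) i := div_pos (Real.exp_pos _) nc
    rw [Real.log_exp, Real.log_mul (Real.exp_pos _).ne' h3.ne', Real.log_exp] at h2
    unfold Mm828.Vb at h2
    rw [Real.log_div (Real.exp_pos _).ne' nc.ne', Real.log_exp] at h2
    have e4 : (v - ρ + ε₁) * L = Real.log 2 * (i + 1) - Real.log (nm (a.2.1 / b)) + ε₁ * L := by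
      rw [add_mul, sub_mul, hvL, hρL]
    rw [e4]
    linarith
  -- crude sizes
  obtain ⟨k0', u4', y43', u0', y3', N1', near', x0', adm', d0', d1'⟩ := hD
  have hD : Dh (cκ p) (cu p 2) (cu p 3) (cu p 4) (cx' p) (dd * cκ p) := hDh p hp
  have hκ1 := hpar.κ1
  have hκ0 := hpar.κ0
  have hx1 : cx' p ≤ 1 / 36 := by
    rcases adm' with ⟨a1, -⟩ | ⟨-, a2, -⟩ <;> linarith
  have hk0 : (0 : ℝ) ≤ k := Nat.cast_nonneg k
  have hvb : v ≤ 3 / 4 * (102 / 125) + 21 / 5 * (1 / 36) + ε₁ := by linarith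
  have hkL : (k : ℝ) ≤ (v + ε₁) * L := by
    have h1 : (k : ℝ) / L ≤ v + ε₁ := by linarith
    rwa [div_le_iff₀ hL] at h1
  have hg0 := F.g0
  have hcleup := F.up
  rw [← hLd] at hcleup
  have hN3 : cN p = cu p 2 + cu p 3 + cu p 4 := rfl
  have hnle : n ≤ L := by
    rw [hnX, hlXw]
    have h1 : 0 ≤ Real.log (nm b) := Real.log_nonneg (one_le_nmR hbp)
    have h2 : (cN p + cx' p) * L ≤ (102 / 125 + 1 / 36) * L :=
      mul_le_mul_of_nonneg_right (by rw [hN3]; linarith) hL.le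
    nlinarith
  have hP1 : P ≤ 1 := by
    have : P ≤ 102 / 125 + 1 / 36 + ε₁ := by linarith
    linarith
  -- the class of pairs
  set Pr : Eis → Eis → Prop := fun d e => IsPrim d ∧ IsPrim e ∧ IsCoprime d a.2.1 with hPr
  have hlogH : ∀ d e, IsPrim d → IsPrim e → (nm d : ℝ) ≤ D₀ → Real.log (Hf d e) / L ≤
      hM (cu p 2 + cu p 3 + cu p 4) (cκ p) P (Real.log (nm d) / L) (cx' p) -
        2 * (Real.log ((nm (lc (a.2.1 / b) e) : ℝ) / nm (a.2.1 / b)) / L) + ε₁ := by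
    intro d e hdp hep hdD
    have h1 := rH (Real.log (nm d))
    rw [hHf, LMR813.log_Hm hHp hcg hdp hep k hdD, sub_div, mul_div_assoc]
    linarith
  have hU1 : ∀ e, IsPrim e → 0 ≤ Real.log ((nm (lc (a.2.1 / b) e) : ℝ) / nm (a.2.1 / b)) / L :=
    fun e he => div_nonneg (Real.log_nonneg (lc_ratio hcg he)) hL.le
  set T : Eis → Eis → ℝ := fun d e => cκ p + P + LQ (cu p 2 + cu p 3 + cu p 4) (cκ p) (dd * cκ p) +
    2 * (Real.log (nm e) / L) -
      Real.log ((nm (lc (a.2.1 / b) e) : ℝ) / nm (a.2.1 / b)) / L with hT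
  have hlump' : ∀ j, Dq.lump (a.1.2 j) ∧ 0 ≤ (a.1.2 j).z ∧ (a.1.2 j).z ≤ 8 * Real.log X ∧
      (nm (a.1.2 j).d : ℝ) ≤ X ^ (max B Bm) := by
    intro j
    refine ⟨(hlump j).1, (hlump j).2, ?_, hX1B (F.pd.usB j)⟩
    have h0 : ∀ y : ℝ, y ≤ 1 → (y + τ) * Real.log X ≤ 8 * Real.log X := fun y hy =>
      mul_le_mul_of_nonneg_right (by linarith) hL.le
    fin_cases j
    · exact F.pd.z1.trans (h0 _ (show cu p 2 ≤ 1 by linarith))
    · exact F.pd.z2.trans (h0 _ (show cu p 3 ≤ 1 by linarith))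
    · exact F.pd.z3.trans (h0 _ (show cu p 4 ≤ 1 by linarith))
  have hxq : LN qs ≤ (cx' p + τ) * L := F.pd.x
  have key := HR X hXX₁ a.1.2 qs H hlump' F.pd.len (fun q hq => by
      obtain ⟨a1, a2, a3', a4, a5⟩ := F.pd.am q hq
      exact ⟨a1, a2, a3'.trans (mul_le_mul_of_nonneg_right hτσ hL.le), hX1B a4⟩) (by
      rw [hLNq]
      refine hxq.trans (mul_le_mul_of_nonneg_right ?_ hL.le)
      linarith) hH F.pd.usH (fun q hq => (F.pd.am q hq).2.2.2.2) θ
    (Wb (gt5 (Real.exp (e0 * a.1.1.l)) (Real.exp a.2.2) a.2.1 cl5) (q5 a.2.1 cl5) s) hWok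
    (Real.exp a.2.2) (Real.exp_pos _).le hsup a.2.1 b hgp hbp n hn K V Hf
    (fun d e => Real.sqrt (Ld K V (Hf d e) d) + Md c K V (Hf d e) (Real.exp n) d) T hK hV0 hHf0 Pr
    (fun d e hde => ⟨hde.1, hde.2.1⟩) ?_ ?_
  · obtain ⟨W0, hS, hRH, hN⟩ := key
    refine ⟨fun d e P' => if IsCoprime d a.2.1 then W0 d e P' else 0, ?_, ?_, ?_⟩
    · intro d e
      by_cases hco : IsCoprime d a.2.1
      · simp only [if_pos hco]
        exact hS d e
      · simp only [if_neg hco]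
        exact ⟨fun _ _ => le_rfl, fun _ _ _ _ => by simp, fun _ _ => by simp⟩
    · intro A hA d e hdp hep γ φ hγ hφ hφX P' hP'
      by_cases hco : IsCoprime d a.2.1
      · simp only [if_pos hco]
        refine hRH A hA d e ⟨hdp, hep, hco⟩ _ (pw (2 * s) (nm d)) (by rw [norm_pw]) (fun m =>
          LMR813.afrb_form _ _ _ _ _ _ _ _ hco m) γ φ hγ hφ (hφX.trans ?_) P' hP'
        exact Real.rpow_le_rpow_of_exponent_le hX1.le (le_max_right _ _)
      · simp only [if_neg hco]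
        rw [Finset.sum_eq_zero fun r _ => LMR813.RMm_zero (fun m =>
          LMR813.afrb_zero _ _ _ _ _ _ _ _ hco m) e γ φ r, mul_zero]
    · intro d e hdp hep
      have nd : (0 : ℝ) < nm d := by linarith [one_le_nmR hdp]
      have ne : (0 : ℝ) < nm e := by linarith [one_le_nmR hep]
      have hU : 0 < (nm (lc (a.2.1 / b) e) : ℝ) / nm (a.2.1 / b) := by
        linarith [lc_ratio hcg hep]
      have hHs : 0 ≤ H * (1 + |s|) := by positivity
      by_cases hco : IsCoprime d a.2.1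
      · have h1 := hN d e ⟨hdp, hep, hco⟩
        have e1 : RNF c K V Xw Hf (fun d e P' => if IsCoprime d a.2.1 then W0 d e P' else 0) d e =
            (nm d : ℝ) ^ (2 / 3 : ℝ) * nm e * ((if 1 ≤ Ld K V (Hf d e) d then
              Real.sqrt (Ld K V (Hf d e) d) + Md c K V (Hf d e) (Real.exp n) d else 0) *
              W0 d e (c * (Real.exp n * V * Hf d e / K))) := by
          unfold E3Hd290.RNF
          rw [hen]
          simp only [if_pos hco]
        rw [e1]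
        have e2 : X ^ (T d e + ε₁) / (nm d * nm e) = X ^ (ε₁ + cκ p + P + LQ (cu p 2 + cu p 3 +
            cu p 4) (cκ p) (dd * cκ p)) * ((nm e : ℝ) * ((nm d : ℝ)⁻¹ *
              ((nm (lc (a.2.1 / b) e) : ℝ) / nm (a.2.1 / b))⁻¹)) := by
          have e3 : T d e + ε₁ = (ε₁ + cκ p + P + LQ (cu p 2 + cu p 3 +
            cu p 4) (cκ p) (dd * cκ p)) + (2 * (Real.log (nm e) / L) +
            -(Real.log ((nm (lc (a.2.1 / b) e) : ℝ) / nm (a.2.1 / b)) / L)) := by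
            rw [hT]; ring
          have e4 : X ^ (2 * (Real.log (nm e) / L) +
              -(Real.log ((nm (lc (a.2.1 / b) e) : ℝ) / nm (a.2.1 / b)) / L)) =
              (nm e : ℝ) ^ 2 * ((nm (lc (a.2.1 / b) e) : ℝ) / nm (a.2.1 / b))⁻¹ := by
            rw [Real.rpow_def_of_pos hX0, ← hLd, mul_add, Real.exp_add]
            have e5 : L * (2 * (Real.log (nm e) / L)) = Real.log (nm e) + Real.log (nm e) := by
              field_simp
              ring
            have e6 : L * -(Real.log ((nm (lc (a.2.1 / b) e) : ℝ) / nm (a.2.1 / b)) / L) =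
                -Real.log ((nm (lc (a.2.1 / b) e) : ℝ) / nm (a.2.1 / b)) := by
              field_simp
            rw [e5, e6, Real.exp_add, Real.exp_log ne, Real.exp_neg, Real.exp_log hU, sq]
          rw [e3, Real.rpow_add hX0, e4]
          field_simp
        rw [mul_div_assoc ((H * (1 + |θ|)) ^ M), e2] at h1
        have h2 : (H * (1 + |θ|)) ^ M ≤ (H * (1 + |s|)) ^ M := by
          refine pow_le_pow_left₀ (by positivity) ?_ M
          exact mul_le_mul_of_nonneg_left (by linarith) (by linarith)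
        have h3 : X ^ (ε₁ + cκ p + P + LQ (cu p 2 + cu p 3 + cu p 4) (cκ p) (dd * cκ p)) ≤
            X ^ ε * Real.exp (a.1.1.l + LN (cl a.1 qs) - 2 * Real.log (nm a.2.1) +
              LQ (cN p) (cκ p) (dd * cκ p) * L) := by
          rw [Real.rpow_def_of_pos hX0, Real.rpow_def_of_pos hX0, ← Real.exp_add, ← hLd]
          refine Real.exp_le_exp.2 ?_
          rw [hN3]
          have e7 : L * (ε₁ + cκ p + P + LQ (cu p 2 + cu p 3 + cu p 4) (cκ p) (dd * cκ p)) =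
              ε₁ * L + cκ p * L + P * L + LQ (cu p 2 + cu p 3 + cu p 4) (cκ p) (dd * cκ p) * L := by
            ring
          rw [e7, hPL]
          have h4 : ε₁ * L ≤ ε / 4 * L := mul_le_mul_of_nonneg_right hε₁a hL.le
          have h5 : 0 ≤ ε * L := by positivity
          have h6 : τ * L ≤ ε₁ * L := by linarith
          linarith
        have h7 : 0 ≤ (nm d : ℝ)⁻¹ * ((nm (lc (a.2.1 / b) e) : ℝ) / nm (a.2.1 / b))⁻¹ := by
          positivity
        calc (nm e : ℝ)⁻¹ * (FH K (Hf d e) V * _) ≤ (nm e : ℝ)⁻¹ *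
              ((H * (1 + |θ|)) ^ M * (X ^ (ε₁ + cκ p + P + LQ (cu p 2 + cu p 3 +
            cu p 4) (cκ p) (dd * cκ p)) * ((nm e : ℝ) * ((nm d : ℝ)⁻¹ *
              ((nm (lc (a.2.1 / b) e) : ℝ) / nm (a.2.1 / b))⁻¹)))) := by
              refine mul_le_mul_of_nonneg_left ?_ (by positivity)
              exact h1
          _ = (H * (1 + |θ|)) ^ M * X ^ (ε₁ + cκ p + P + LQ (cu p 2 + cu p 3 +
            cu p 4) (cκ p) (dd * cκ p)) * ((nm d : ℝ)⁻¹ *
              ((nm (lc (a.2.1 / b) e) : ℝ) / nm (a.2.1 / b))⁻¹) := by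
              field_simp
          _ ≤ _ := by
              refine mul_le_mul_of_nonneg_right ?_ h7
              rw [mul_assoc ((H * (1 + |s|)) ^ M)]
              exact mul_le_mul h2 h3 (by positivity) (by positivity)
      · have e1 : RNF c K V Xw Hf (fun d e P' => if IsCoprime d a.2.1 then W0 d e P' else 0) d e =
            0 := by
          unfold E3Hd290.RNF
          simp only [if_neg hco, mul_zero]
        rw [e1, mul_zero, mul_zero]
        positivity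
  · intro d e hde
    refine ⟨?_, ?_, RnP571.w1_le hc hK hV0 (hHf0 d e) hde.1.ne_zero⟩
    · have h0 : 0 < Real.exp n * V * Hf d e / K := by
        have := hHf0 d e
        positivity
      rw [← Real.exp_log h0, Real.rpow_def_of_pos hX0]
      refine Real.exp_le_exp.2 ?_
      rw [Real.log_div (by have := hHf0 d e; positivity) hK.ne',
        Real.log_mul (by positivity) (hHf0 d e).ne', Real.log_mul (Real.exp_pos _).ne' hV0.ne',
        Real.log_exp, hlV, hlK, ← hLd]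
      have hl0 : 0 ≤ a.1.1.l := by
        have h1 : 8 / 9 * L ≤ cκ p * L := mul_le_mul_of_nonneg_right hκ0 hL.le
        have h2 : τ * L ≤ 1 / 9 * L := mul_le_mul_of_nonneg_right (by linarith) hL.le
        linarith
      by_cases hdD : (nm d : ℝ) ≤ D₀
      · have h1 := hlogH d e hde.1 hde.2.1 hdD
        have h2 := hU1 e hde.2.1
        have hδ0 : 0 ≤ Real.log (nm d) / L :=
          div_nonneg (Real.log_nonneg (one_le_nmR hde.1)) hL.le
        have h3 : hM (cu p 2 + cu p 3 + cu p 4) (cκ p) P (Real.log (nm d) / L) (cx' p) ≤ 2 := by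
          rcases R1M904.hM_cases (cu p 2 + cu p 3 + cu p 4) (cκ p) P (Real.log (nm d) / L)
            (cx' p) with h4 | ⟨h4, -⟩
          · linarith
          · linarith
        have h5 : Real.log (Hf d e) / L ≤ 3 := by linarith
        rw [div_le_iff₀ hL] at h5
        have h6 : (v + ε₁) * L ≤ 1 * L := mul_le_mul_of_nonneg_right (by linarith) hL.le
        linarith
      · have h1 := LMR813.log_Hm_le (Hp := Hp) (cg := a.2.1 / b) (e := e) hK hXw0 hc hde.1 k hdD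
        rw [hlK, ← hnX] at h1
        have h2 : Real.log (Hf d e) ≤ a.1.1.l + n - 2 * k := h1
        linarith
    · exact add_nonneg (Real.sqrt_nonneg _)
        (E3Sz579.Md_nonneg (by linarith) hK hV0 (hHf0 d e) (Real.exp_pos _) d)
  · intro d e hde h1
    have hdD : (nm d : ℝ) ≤ D₀ := by
      by_contra hc'
      exact absurd (LMR813.Ld_lt hK hXw0 hc hde.1 k hc') (not_lt.2 h1)
    have nd1 := one_le_nmR hde.1
    have hδ1 : Real.log (nm d) ≤ 13 / 100 * a.1.1.l := by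
      have h2 := Real.log_le_log (by linarith) (hdD.trans hD₀')
      rwa [Real.log_rpow hK, hlK] at h2
    have h2 := Real.log_nonneg h1
    rw [log_Ld hK hV0 (hHf0 d e) hde.1.ne_zero] at h2
    unfold RnP571.lL at h2
    have hz3 : (a.1.2 2).z ≤ (cu p 4 + τ) * L := F.pd.z3
    have hll := lnr_M (d := dd) (k := cκ p) (k' := Real.log K / L) (t := ε₁) (p := P) (v := v)
      (ρ := ρ) (a := Real.log V / L) (n := n / L) (h := Real.log (Hf d e) / L)
      (δ := Real.log (nm d) / L) (e := Real.log (nm e) / L)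
      (b := Real.log ((nm (lc (a.2.1 / b) e) : ℝ) / nm (a.2.1 / b)) / L)
      (z₁ := (a.1.2 0).z / L) (z₂ := (a.1.2 1).z / L) (z₃ := (a.1.2 2).z / L)
      (w := ((qs.map Pq.z).sum - Real.log (nm a.2.1)) / L)
      (sy := ((a.1.2 0).z + (a.1.2 1).z + (a.1.2 2).z - Real.log (nm a.2.1)) / L + ε₁) hD
      hε₁0.le (by linarith) (by rw [hlK]; exact r1) r2 r3 r4 r5 (by rw [hlV]; exact hkv)
      (by linarith) (hlogH d e hde.1 hde.2.1 hdD) (by
        have e1 : Real.log (Hf d e) / L + 2 * (Real.log V / L) - Real.log K / L -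
            Real.log (nm d) / L =
            (Real.log (Hf d e) + 2 * Real.log V - Real.log K - Real.log (nm d)) / L := by ring
        rw [e1]
        exact div_nonneg h2 hL.le) hρ0 (hU1 e hde.2.1)
      (div_nonneg (Real.log_nonneg nd1) hL.le) (by
        rw [div_le_iff₀ hL]
        have h3 : a.1.1.l / L ≤ cκ p + ε₁ := by linarith [(abs_le.1 r1).2]
        rw [div_le_iff₀ hL] at h3
        have h4 : 0 ≤ ε₁ * L := by positivity
        linarith) (by
        rw [div_le_iff₀ hL]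
        linarith) (by
        rw [div_le_iff₀ hL, hLNq]
        linarith)
    refine ⟨hll.1, ?_⟩
    intro i' y₁ y₂ y₃ x' i0 hi' y10 hy1 y20 hy2 y30 hy3 x0 hx' hsy htot
    have e1 : (n + Real.log V + Real.log (Hf d e) - Real.log K) / L =
        n / L + Real.log V / L + Real.log (Hf d e) / L - Real.log K / L := by ring
    rw [← hLd] at hi' hy1 hy2 hy3 hx' hsy htot ⊢
    rw [e1] at hi' ⊢
    refine hll.2 i' y₁ y₂ y₃ x' i0 hi' y10 hy1 y20 hy2 y30 hy3 x0 hx' hsy ?_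
    rw [LMR813.cc_dv hgp hbp hbg hde.2.2] at htot
    refine htot.trans (le_of_eq ?_)
    have e2 : Real.log ((nm (lc (a.2.1 / b) e) : ℝ) / nm (a.2.1 / b)) =
        Real.log (nm (lc (a.2.1 / b) e)) - Real.log (nm (a.2.1 / b)) :=
      Real.log_div (lc_pos _ _).ne' nc.ne'
    rw [e2]
    have e3 : (n - Real.log (nm d) - Real.log (nm (lc (a.2.1 / b) e))) / L =
        n / L - Real.log (nm d) / L - Real.log (nm (lc (a.2.1 / b) e)) / L := by ring
    rw [e3, hnL, hρ]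
    ring

end

end Crest.Agent.R017.LMR813
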