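import Crest.Agent.R017.MmD_828

/-!
# Row 17, R8/P1: the mismatch, one class (helper828)

* **`rok_afrb`** : the reduced coefficients of the mismatch are admissible
* `Hm` : the length of the rows, `Hm_pos`, `Hm_le`
* **`mm1`** : the moment of a class in the two numbers `XMn`, `LMn`
-/

set_option autoImplicit false

noncomputable section

open Finset MeasureTheory
open scoped ComplexConjugate ContDiff Classical

namespace Crest.Agent.R017.Mm828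

open Crest.Agent.R012 Crest.Agent.R012.Eis Crest.Agent.R012.Div277
open Crest.Agent.R012.MC (Wgt)
open Crest.Agent.R012.LS2 (S mem_S)
open Crest.Agent.R012.Weight600 (osc pw)
open Crest.Agent.R017.CM106 (CS TG FS)
open Crest.Agent.R017.C70 (JC OKJ JW okJ_JW)
open Crest.Agent.R017.DgA829 (lc lc_prim lc_dvd)
open Crest.Agent.R017.StA828 (gp xa)
open Crest.Agent.R017.StB828 (one_le_nmR)
open Crest.Agent.R017.StC828 (rs rs_ne xa_ne)
open Crest.Agent.R017.StD828 (ln Tm)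
open Crest.Agent.R017.StE828 (wD oD wD_ne)
open Crest.Agent.R017.StF828 (ln_ne)
open Crest.Agent.R017.StG828
open Crest.Agent.R017.StJ319
open Crest.Agent.R017.P1e54 (M2)
open Crest.Agent.R017.P1k54 (uM wM wM_nonneg wgt_wM)
open Crest.Agent.R017.E3A164 (SteT)
open Crest.Agent.R017.E3M829 (TC Cut)
open Crest.Agent.R017.E3Kc548
open Crest.Agent.R017.E3Z548
open Crest.Agent.R017.E3Hd290 (RNF)
open Crest.Agent.R017.Mode405 (Slp)
open Crest.Agent.R017.E3Sz579 (RHd)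

lemma afrb_ne {gt : Eis → Eis → Eis → ℂ} {q : Eis → Eis} {Y : ℝ} {η α : Eis → ℂ} {g h : Eis}
    {s : ℝ} {e d m : Eis} (h0 : afrb gt q Y η α g h s e d m ≠ 0) :
    IsCoprime d g ∧ afb gt q Y η α g s e (h * d) m ≠ 0 := by
  unfold afrb afd at h0
  have h1 := right_ne_zero_of_mul h0
  split_ifs at h1 with hc
  · exact ⟨hc, h1⟩
  · exact absurd rfl h1

lemma afb_mem {gt : Eis → Eis → Eis → ℂ} {q : Eis → Eis} {Y : ℝ} (hY : 0 ≤ Y) {η α : Eis → ℂ}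
    {g : Eis} {s : ℝ} {e d m : Eis} (h0 : afb gt q Y η α g s e d m ≠ 0) :
    ∃ a ∈ S Y, ∃ n, d * m = a * n ∧ IsCoprime a n ∧ g ∣ n ∧ α n ≠ 0 ∧ η (g * a) ≠ 0 ∧
      gt d a e ≠ 0 := by
  unfold afb at h0
  obtain ⟨a, ha, h1⟩ := Finset.exists_ne_zero_of_sum_ne_zero h0
  have h2 := left_ne_zero_of_mul h1
  obtain ⟨n, h3, h4, h5⟩ := xa_ne (((mem_S hY).1 ha).2.1).ne_zero (right_ne_zero_of_mul h1)
  obtain ⟨h6, h7⟩ := rs_ne h5
  exact ⟨a, ha, n, h3, h4, h6, h7, left_ne_zero_of_mul h2,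
    left_ne_zero_of_mul (right_ne_zero_of_mul h2)⟩

/-- **the reduced coefficients are admissible** -/
lemma rok_afrb {gt : Eis → Eis → Eis → ℂ} {q : Eis → Eis} {Y : ℝ} (hY : 0 ≤ Y) {η α : Eis → ℂ}
    (hα : FS α) (hα2 : PSu α) {g h : Eis} (hh : IsPrim h) (s : ℝ) :
    ROK (afrb gt q Y η α g h s) where
  prim e d m hd h0 := by
    obtain ⟨h1, h2, h3⟩ := afb_dat hY hα2 (afrb_ne h0).2
    exact h2.of_mul_left (hh.mul hd)
  sqf e d m hd h0 := by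
    obtain ⟨h1, h2, h3⟩ := afb_dat hY hα2 (afrb_ne h0).2
    rw [mul_assoc] at h3
    exact h3.of_mul_right
  fin e d hd := by
    have hz : h * d ≠ 0 := mul_ne_zero hh.ne_zero hd.ne_zero
    refine (Finset.finite_toSet ((S Y ×ˢ hα.fin.toFinset).image
      fun p : Eis × Eis => p.1 * p.2 / (h * d))).subset fun m hm => ?_
    obtain ⟨a, ha, n, h1, -, -, h2, -, -⟩ := afb_mem hY (afrb_ne hm).2
    simp only [Finset.coe_image, Set.mem_image, Finset.mem_coe, Finset.mem_product,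
      Set.Finite.mem_toFinset, Function.mem_support]
    refine ⟨(a, n), ⟨ha, h2⟩, ?_⟩
    rw [← h1]
    exact mul_div_cancel_left₀ m hz

/-- the size window of the reduced coefficients -/
lemma win_afrb {gt : Eis → Eis → Eis → ℂ} {q : Eis → Eis} {Y : ℝ} (hY : 0 ≤ Y) {η α : Eis → ℂ}
    (hα2 : PSu α) {g h : Eis} (hg : IsPrim g) (hh : IsPrim h) {s p1 p2 R1 R2 : ℝ}
    (h1 : ∀ n, η n ≠ 0 → |Real.log (nm n) - p1| ≤ R1)
    (h2 : ∀ n, α n ≠ 0 → |Real.log (nm n) - p2| ≤ R2) {e d m : Eis} (hd : IsPrim d)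
    (h0 : afrb gt q Y η α g h s e d m ≠ 0) :
    |Real.log (nm d * nm m) - Real.log (Real.exp (p1 + p2) / (nm g * nm h))| ≤ R1 + R2 := by
  obtain ⟨-, h3⟩ := afrb_ne h0
  obtain ⟨b1, b2, b3⟩ := afb_dat hY hα2 h3
  obtain ⟨a, ha, n, e1, -, -, h5, h6, -⟩ := afb_mem hY h3
  have ha' : IsPrim a := ((mem_S hY).1 ha).2.1
  have hn : IsPrim n := (hα2 n h5).1
  have hm : IsPrim m := b2.of_mul_left (hh.mul hd)
  have A := h1 _ h6
  have B := h2 _ h5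
  have g0 : (nm g : ℝ) ≠ 0 := by linarith [one_le_nmR hg]
  have hh0 : (nm h : ℝ) ≠ 0 := by linarith [one_le_nmR hh]
  have d0 : (nm d : ℝ) ≠ 0 := by linarith [one_le_nmR hd]
  have m0 : (nm m : ℝ) ≠ 0 := by linarith [one_le_nmR hm]
  have a0 : (nm a : ℝ) ≠ 0 := by linarith [one_le_nmR ha']
  have n0 : (nm n : ℝ) ≠ 0 := by linarith [one_le_nmR hn]
  have e2 : Real.log (nm h) + Real.log (nm d) + Real.log (nm m) =
      Real.log (nm a) + Real.log (nm n) := by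
    have e3 : ((nm (h * d * m) : ℕ) : ℝ) = ((nm (a * n) : ℕ) : ℝ) := by rw [e1]
    rw [nm_mul, nm_mul, nm_mul] at e3
    push_cast at e3
    rw [← Real.log_mul hh0 d0, ← Real.log_mul (mul_ne_zero hh0 d0) m0, e3, Real.log_mul a0 n0]
  rw [nm_mul] at A
  push_cast at A
  rw [Real.log_mul g0 a0] at A
  rw [Real.log_mul d0 m0, Real.log_div (Real.exp_pos _).ne' (mul_ne_zero g0 hh0), Real.log_exp,
    Real.log_mul g0 hh0]
  have e4 : Real.log (nm d) + Real.log (nm m) - (p1 + p2 - (Real.log (nm g) + Real.log (nm h))) =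
      (Real.log (nm g) + Real.log (nm a) - p1) + (Real.log (nm n) - p2) := by linarith
  rw [e4]
  exact (abs_add_le _ _).trans (add_le_add A B)

/-- the length of the rows -/
def Hm (Hp D₀ : ℝ) (cg : Eis) (K X c : ℝ) (k : ℕ) (d e : Eis) : ℝ :=
  if (nm d : ℝ) ≤ D₀ then max 1 (Hp * (nm d : ℝ) ^ (-(4 / 3) : ℝ)) *
    ((nm (lc cg e) : ℝ) / nm cg) ^ (-2 : ℝ)
  else K * min (nm d : ℝ) X / (2 * c * Real.exp k ^ 2)

lemma lc_ratio {cg e : Eis} (hcg : IsPrim cg) (he : IsPrim e) :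
    1 ≤ (nm (lc cg e) : ℝ) / nm cg := by
  have h0 : (0 : ℝ) < nm cg := by linarith [one_le_nmR hcg]
  rw [le_div_iff₀ h0, one_mul]
  obtain ⟨t, ht⟩ : cg ∣ lc cg e := ((lc_dvd hcg he _).1 dvd_rfl).1
  have h1 : IsPrim (lc cg e) := lc_prim hcg he
  have h2 : IsPrim t := by
    rw [ht] at h1
    exact h1.of_mul_left hcg
  rw [ht, nm_mul]
  push_cast
  exact le_mul_of_one_le_right h0.le (one_le_nmR h2)

lemma lc_pos (cg e : Eis) : (0 : ℝ) < nm (lc cg e) := by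
  by_cases h : IsPrim cg ∧ IsPrim e
  · linarith [one_le_nmR (lc_prim h.1 h.2)]
  · unfold lc
    rw [dif_neg h]
    simp

lemma Hm_pos {Hp D₀ : ℝ} (hD : 0 ≤ D₀) {cg : Eis} (hcg : IsPrim cg) {K X c : ℝ} (hK : 0 < K)
    (hX : 0 < X) (hc : 0 < c) (k : ℕ) (d e : Eis) : 0 < Hm Hp D₀ cg K X c k d e := by
  have h0 : (0 : ℝ) < nm cg := by linarith [one_le_nmR hcg]
  unfold Hm
  split_ifs with h
  · have h1 : (0 : ℝ) < max 1 (Hp * (nm d : ℝ) ^ (-(4 / 3) : ℝ)) := lt_max_of_lt_left one_pos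
    exact mul_pos h1 (Real.rpow_pos_of_pos (div_pos (lc_pos _ _) h0) _)
  · have h1 : (0 : ℝ) < nm d := lt_of_le_of_lt hD (not_le.1 h)
    have h2 : 0 < min (nm d : ℝ) X := lt_min h1 hX
    positivity

lemma Hm_le {Hp D₀ : ℝ} (hHp : 0 ≤ Hp) {cg : Eis} (hcg : IsPrim cg) {K X c V : ℝ} (hK : 0 < K)
    (hX : 0 < X) (hc : 0 < c) (hV : 0 ≤ V) (hm : c * max 1 Hp * (Real.exp 1 * V) ^ 2 ≤ K * X)
    {k : ℕ} (hk : Real.exp k ≤ Real.exp 1 * V) {d e : Eis} (hd : IsPrim d) (he : IsPrim e) :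
    c * (Hm Hp D₀ cg K X c k d e * Real.exp k ^ 2) ≤ K * X := by
  unfold Hm
  split_ifs with h
  · refine le_trans ?_ hm
    have h1 : (nm d : ℝ) ^ (-(4 / 3) : ℝ) ≤ 1 :=
      Real.rpow_le_one_of_one_le_of_nonpos (one_le_nmR hd) (by norm_num)
    have h2 : ((nm (lc cg e) : ℝ) / nm cg) ^ (-2 : ℝ) ≤ 1 :=
      Real.rpow_le_one_of_one_le_of_nonpos (lc_ratio hcg he) (by norm_num)
    have h3 : max 1 (Hp * (nm d : ℝ) ^ (-(4 / 3) : ℝ)) ≤ max 1 Hp :=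
      max_le_max le_rfl (mul_le_of_le_one_right hHp h1)
    have h4 : (0 : ℝ) ≤ max 1 (Hp * (nm d : ℝ) ^ (-(4 / 3) : ℝ)) := zero_le_one.trans (le_max_left _ _)
    have h5 : max 1 (Hp * (nm d : ℝ) ^ (-(4 / 3) : ℝ)) * ((nm (lc cg e) : ℝ) / nm cg) ^ (-2 : ℝ) ≤
        max 1 Hp := (mul_le_of_le_one_right h4 h2).trans h3
    have h6 : Real.exp k ^ 2 ≤ (Real.exp 1 * V) ^ 2 :=
      pow_le_pow_left₀ (Real.exp_pos _).le hk 2
    have h7 : (0 : ℝ) ≤ max 1 Hp := zero_le_one.trans (le_max_left _ _)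
    rw [mul_assoc c (max 1 Hp)]
    exact mul_le_mul_of_nonneg_left (mul_le_mul h5 h6 (sq_nonneg _) h7) hc.le
  · have h1 : 0 < Real.exp k ^ 2 := by positivity
    have h2 : c * (K * min (nm d : ℝ) X / (2 * c * Real.exp k ^ 2) * Real.exp k ^ 2) =
        K * min (nm d : ℝ) X / 2 := by
      field_simp
    rw [h2]
    have h3 : min (nm d : ℝ) X ≤ X := min_le_right _ _
    have h4 : (0 : ℝ) ≤ min (nm d : ℝ) X := le_min (Nat.cast_nonneg _) hX.le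
    nlinarith [mul_le_mul_of_nonneg_left h3 hK.le, mul_nonneg hK.le h4]

/-! ### without `fl` -/

lemma fl_eq {af : Eis → Eis → Eis → ℂ} (hR : ROK af) {d : Eis} (hd : IsPrim d) (e : Eis) :
    fl af d e = af e d := by
  funext m
  unfold fl
  split_ifs with h
  · rfl
  · by_contra h1
    exact h ⟨hd, hR.prim e d m hd (Ne.symm h1)⟩

lemma LVn_fl {af : Eis → Eis → Eis → ℂ} (hR : ROK af) {d : Eis} (hd : IsPrim d) (e : Eis)
    (c Y K H V V' E1 B G1 RN : ℝ) :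
    LVn (fl af) {d} {e} c Y K H V V' E1 B G1 RN =
      LVn (fun d e => af e d) {d} {e} c Y K H V V' E1 B G1 RN := by
  unfold LVn TN
  simp only [sum_singleton, fl_eq hR hd e]

/-- the lines of a block, without `fl` -/
lemma LMn_eq {af : Eis → Eis → Eis → ℂ} (hR : ROK af) {V : ℝ} (E0 E1 K X c Z : ℝ)
    (H : ℕ → Eis → Eis → ℝ) (W0 : ℕ → Eis → Eis → ℝ → ℝ) :
    LMn V E0 E1 K X c Z H W0 af =
      ∑ e ∈ S E0, ∑ k ∈ LI (1 / 10) V, ∑ d ∈ (JB (Real.sqrt V)).image Prod.fst,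
        (nm e : ℝ)⁻¹ * LVn (fun d e => af e d) {d} {e} c (Z ^ 5) K (H k d e) (Real.exp k)
          (Real.exp k) E1 1 1 (RNF c K (Real.exp k) X (H k) (W0 k) d e) := by
  unfold LMn
  refine sum_congr rfl fun e _ => sum_congr rfl fun k _ => sum_congr rfl fun d hd => ?_
  obtain ⟨x, hx, rfl⟩ := mem_image.1 hd
  rw [LVn_fl hR ((mem_JB (Real.sqrt_nonneg _)).1 hx).1]

lemma RHd_fl {af : Eis → Eis → Eis → ℂ} (hR : ROK af) {z m : ℝ} (hz : 0 ≤ z) {A : ℕ}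
    {EE : Finset Eis} {W0 : Eis → Eis → ℝ → ℝ} (h : RHd z m A EE (fun d e => af e d) W0) :
    RHd z m A EE (fl af) W0 := by
  intro d hd e he γ π hγ hπ hm P hP
  rw [fl_eq hR ((mem_S hz).1 hd).2.1 e]
  exact h d hd e he γ π hγ hπ hm P hP

/-- the height of a block -/
def Vb (cg : Eis) (i : ℕ) : ℝ := Real.exp (Real.log 2 * (i + 1)) / nm cg

set_option maxHeartbeats 1000000 in
/-- **the moment of one class of the mismatch** -/
theorem mm1 (R : ℝ) {R1 R2 : ℝ} (hR1 : 0 ≤ R1) (hR2 : 0 ≤ R2) (a A₁ : ℕ) (hA₁ : 1 < A₁) {ε : ℝ}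
    (hε : 0 < ε) (hε1 : ε ≤ 1) :
    ∃ (A : ℕ) (c C : ℝ), 1 ≤ c ∧ 1 ≤ C ∧ ∀ (Y : ℝ), 0 ≤ Y → ∀ (gt : Eis → Eis → Eis → ℂ)
      (q : Eis → Eis) (η α : Eis → ℂ), FS α → PSu α → ∀ (g h : Eis), IsPrim g → h ∈ dvs g →
      ∀ (p1 p2 : ℝ), (∀ n, η n ≠ 0 → |Real.log (nm n) - p1| ≤ R1) →
      (∀ n, α n ≠ 0 → |Real.log (nm n) - p2| ≤ R2) →
      ∀ (i : ℕ) (s Z D E0 E1 K Hp D₀ : ℝ) (W0 : ℕ → Eis → Eis → ℝ → ℝ), 1 ≤ Z → 0 ≤ D →
      Vb (g / h) i ≤ D ^ 2 → 0 < K → K ≤ Z → Vb (g / h) i ≤ Z → 0 ≤ E0 → E0 ≤ Z → 0 ≤ E1 →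
      E1 ≤ Z → 0 ≤ Hp → 0 ≤ D₀ → Real.exp (p1 + p2) / (nm g * nm h) ≤ Z ^ 5 →
      c * (Real.exp 1 * Vb (g / h) i) ≤ Z ^ 5 →
      c * max 1 Hp * (Real.exp 1 * Vb (g / h) i) ^ 2 ≤
        K * (Real.exp (p1 + p2) / (nm g * nm h)) →
      (∀ k d e, Slp a (W0 k d e)) →
      (∀ k ∈ LI (1 / 10) (Vb (g / h) i), RHd (Z ^ 5) (c * Z ^ 200) A₁ (S E0)
        (fl (afrb gt q Y η α g h s)) (W0 k)) →
      M2 (uM R K E1) (SteT (JB D) (omp (g / h) i s) E0 (StF828.T3 (afrb gt q Y η α g h s))) ≤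
        C * Z ^ ε * (K ^ (2 / 3 : ℝ) *
            XMn (g / h) i s (Vb (g / h) i) E0 E1 K (afrb gt q Y η α g h s) +
          (1 + |s|) ^ A * LMn (Vb (g / h) i) E0 E1 K (Real.exp (p1 + p2) / (nm g * nm h)) c Z
            (Hm Hp D₀ (g / h) K (Real.exp (p1 + p2) / (nm g * nm h)) c) W0
            (afrb gt q Y η α g h s)) := by
  obtain ⟨A, c, C, hc, hC, H⟩ := blk (wgt_wM R) (wM_nonneg R) (add_nonneg hR1 hR2) a A₁ hA₁ hε hε1
  refine ⟨A, c, C, hc, hC, ?_⟩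
  intro Y hY gt q η α hα hα2 g h hg hh p1 p2 w1 w2 i s Z D E0 E1 K Hp D₀ W0 hZ hD hVD hK hKZ hVZ
    hE0 hE0Z hE1 hE1Z hHp hD₀ hXZ hcV hcX hslp hrh
  have hhp : IsPrim h := isPrim_of_mem_dvs hh
  have hhg : h ∣ g := dvd_of_mem_dvs hh
  have hcg : IsPrim (g / h) := by
    have e1 : h * (g / h) = g := EuclideanDomain.mul_div_cancel' hhp.ne_zero hhg
    have e2 : IsPrim (h * (g / h)) := by rw [e1]; exact hg
    exact e2.of_mul_left hhp
  have g0 : (0 : ℝ) < nm g := by linarith [one_le_nmR hg]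
  have h0 : (0 : ℝ) < nm h := by linarith [one_le_nmR hhp]
  have c0 : (0 : ℝ) < nm (g / h) := by linarith [one_le_nmR hcg]
  have hV : 0 < Vb (g / h) i := div_pos (Real.exp_pos _) c0
  have hX : 0 < Real.exp (p1 + p2) / (nm g * nm h) := div_pos (Real.exp_pos _) (mul_pos g0 h0)
  have hVi : Real.exp (Real.log 2 * (i + 1)) ≤ nm (g / h) * Vb (g / h) i := by
    unfold Vb
    rw [mul_div_cancel₀ _ c0.ne']
  have e1 : ∀ k, SteT (JB D) (omp (g / h) i s) E0 (StF828.T3 (afrb gt q Y η α g h s)) k =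
      SteT (JB (Real.sqrt (Vb (g / h) i))) (omp (g / h) i s) E0
        (StF828.T3 (afrb gt q Y η α g h s)) k := fun k =>
    SteT_level hcg.ne_zero (Real.sqrt_nonneg _) (Real.sqrt_le_iff.2 ⟨hD, hVD⟩)
      (by rw [Real.sq_sqrt hV.le]; exact hVi) s E0 k
  have key := H (g / h) hcg i s Z (Vb (g / h) i) hZ hV hVi (afrb gt q Y η α g h s) E0 E1 K
    (Real.exp (p1 + p2) / (nm g * nm h)) (Hm Hp D₀ (g / h) K (Real.exp (p1 + p2) / (nm g * nm h)) c)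
    W0 (rok_afrb hY hα hα2 hhp s) hK hKZ hVZ hE0 hE0Z hE1 hE1Z hX hXZ hcV
    (fun k d e => Hm_pos hD₀ hcg hK hX (by linarith) k d e)
    (fun k hk d hd e he => Hm_le hHp hcg hK hX (by linarith) hV.le hcX (mem_LI hk).2.2
      ((mem_S (by positivity)).1 hd).2.1 ((mem_S hE0).1 he).2.1)
    (fun d hd e _ n hn => win_afrb hY hα2 hg hhp w1 w2 ((mem_S (by positivity)).1 hd).2.1 hn)
    hslp hrh
  refine le_trans (le_of_eq ?_) key
  unfold M2
  refine tsum_congr fun k => ?_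
  rw [e1]
  unfold uM
  by_cases hk : IsPrim k ∧ Cut E1 k
  · rw [if_pos hk, if_pos (show IsPrim k ∧ E5B71.cutE E1 k from hk)]
  · rw [if_neg hk, if_neg (show ¬ (IsPrim k ∧ E5B71.cutE E1 k) from hk), zero_mul]

end Crest.Agent.R017.Mm828
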