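import Crest.Agent.R017.P1w_54
import Crest.Agent.R017.MmE_828

/-!
# Row 17, R8/P1: the mismatch moment (helper54): the Props of the two numbers

* `afM`, `E0M`, `XwM`, `HpM`, `D0M`, `HmM` : the data of a class
* **`XMU`** : the mains; **`LTU`** : the lines, `T`-half; **`LRU`** : the lines, `R`-half
* `Fr9.mono`
-/

set_option autoImplicit false

noncomputable section

open Finset Filter
open scoped ComplexConjugate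

namespace Crest.Agent.R017.P1y54

open Crest.Agent.R012 Crest.Agent.R012.Eis Crest.Agent.R012.Div277
open Crest.Agent.R012.LS2 (S mem_S)
open Crest.Agent.R017.CM106 Crest.Agent.R017.C70
open Crest.Agent.R017.StF828 (T3)
open Crest.Agent.R017.StG828 (JB omp)
open Crest.Agent.R017.StJ319 (afrb gt5 q5 I5)
open Crest.Agent.R017.E3A164 (SteT)
open Crest.Agent.R017.P1e54 Crest.Agent.R017.P1f54 Crest.Agent.R017.P1k54 Crest.Agent.R017.P1l54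
open Crest.Agent.R017.P1u54 Crest.Agent.R017.P1v54 Crest.Agent.R017.P1w54
open Crest.Agent.R017.B770 Crest.Agent.R017.Prov71
open Crest.Agent.R017.UM71
open Crest.Agent.R017.E5B71 Crest.Agent.R017.E5L770
open Crest.Agent.R017.TM708 (PD)
open Crest.Agent.R017.I1146 (LN)
open Crest.Agent.R017.P10146 (bP cl)
open Crest.Agent.R017.Mm828 (XMn LMn Vb Hm)
open Crest.Agent.R017.E3Kc548 (LI)
open Crest.Agent.R017.E3Z548 (LVn FH)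
open Crest.Agent.R017.E3Hd290 (RNF)
open Crest.Agent.R017.Mode405 (Slp)
open Crest.Agent.R017.E3Sz579 (RHd)

variable {Λ : Type*} (π : Λ → DPar) (h : ℝ → ℝ) (e0 : ℝ)

/-- the reduced coefficients of the class `c`, divisor `b`, frequency `s` -/
def afM (lam : Λ × Eis) (a : Bm) (qs : List Pq) (c : Fin 5) (b : Eis) (s : ℝ) :
    Eis → Eis → Eis → ℂ :=
  afrb (gt5 (Real.exp (e0 * a.1.1.l)) (Real.exp a.2.2) a.2.1 c) (q5 a.2.1 c)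
    (Real.exp a.2.2) (ηC π h lam qs) (αC π h lam a) a.2.1 b s

/-- the `e`-cut -/
def E0M (a : Bm) : ℝ := Real.exp (e0 * a.1.1.l) * Real.exp a.2.2

/-- the window of the reduced coefficients -/
def XwM (a : Bm) (qs : List Pq) (b : Eis) : ℝ :=
  Real.exp (LN qs + LN (List.ofFn a.1.2)) / (nm a.2.1 * nm b)

/-- the length of the rows at `d = 1` -/
def HpM (a : Bm) (qs : List Pq) : ℝ :=
  Real.exp (4 / 3 * (LN (cl a.1 qs) - 2 * Real.log (nm a.2.1)) + 2 / 3 * a.2.2 - a.1.1.l -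
    3 * max 0 (5 / 4 * a3 a.1.1 - a.1.1.l))

/-- the cut of the `d` -/
def D0M (a : Bm) : ℝ := Real.exp (13 / 100 * a.1.1.l)

/-- the length of the rows -/
def HmM (a : Bm) (qs : List Pq) (b : Eis) (cc : ℝ) : ℕ → Eis → Eis → ℝ :=
  Hm (HpM a qs) (D0M a) (a.2.1 / b) (Real.exp a.1.1.l) (XwM a qs b) cc

/-- **the mains of the classes** -/
def XMU (Par : Set (Fin 3 ⊕ Fin 5 → ℝ)) (L0 : (Fin 3 ⊕ Fin 5 → ℝ) → ℝ) : Prop :=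
  ∀ ε : ℝ, 0 < ε → ∃ τ : ℝ, 0 < τ ∧
    ∀ (lam : Λ × Eis) (N : ℕ) (B : ℝ), 0 ≤ B → ∃ J M₀ : ℕ, ∃ X₀ : ℝ, 1 < X₀ ∧
      ∀ X : ℝ, X₀ ≤ X → ∀ H : ℝ, 1 ≤ H → ∀ p ∈ Par, ∀ (a : Bm) (qs : List Pq),
      Fr9 p X τ B H N a qs → okM π h lam a qs → ∀ (c : Fin 5) (i : ℕ) (b : Eis) (s : ℝ),
      i ∈ I5 a.2.1 (nM (nO a.1.1) a.2.2) (nO a.1.1) (Real.exp a.2.2) c → b ∈ dvs a.2.1 →
      Real.exp a.1.1.l ^ (2 / 3 : ℝ) * XMn (a.2.1 / b) i s (Vb (a.2.1 / b) i) (E0M e0 a)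
          (Real.exp (a.1.1.l / 20)) (Real.exp a.1.1.l) (afM π h e0 lam a qs c b s) ≤
        H ^ M₀ * X ^ ε * Real.exp (tgM (L0 p) X a qs) * (1 + |s|) ^ J

/-- **the lines of the classes, `T`-half** -/
def LTU (Par : Set (Fin 3 ⊕ Fin 5 → ℝ)) (L0 : (Fin 3 ⊕ Fin 5 → ℝ) → ℝ) : Prop :=
  ∀ ε : ℝ, 0 < ε → ∃ τ : ℝ, 0 < τ ∧
    ∀ (lam : Λ × Eis) (N : ℕ) (B : ℝ), 0 ≤ B → ∃ J M₀ : ℕ, ∀ cc : ℝ, 1 ≤ cc →
      ∃ X₀ : ℝ, 1 < X₀ ∧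
      ∀ X : ℝ, X₀ ≤ X → ∀ H : ℝ, 1 ≤ H → ∀ p ∈ Par, ∀ (a : Bm) (qs : List Pq),
      Fr9 p X τ B H N a qs → okM π h lam a qs → ∀ (c : Fin 5) (i : ℕ) (b : Eis) (s : ℝ),
      i ∈ I5 a.2.1 (nM (nO a.1.1) a.2.2) (nO a.1.1) (Real.exp a.2.2) c → b ∈ dvs a.2.1 →
      ∑ e ∈ S (E0M e0 a), ∑ k ∈ LI (1 / 10) (Vb (a.2.1 / b) i),
        ∑ d ∈ (JB (Real.sqrt (Vb (a.2.1 / b) i))).image Prod.fst,
        (nm e : ℝ)⁻¹ * LVn (fun d e => afM π h e0 lam a qs c b s e d) {d} {e} cc (X ^ 30)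
          (Real.exp a.1.1.l) (HmM a qs b cc k d e) (Real.exp k) (Real.exp k)
          (Real.exp (a.1.1.l / 20)) 1 1 0 ≤
        H ^ M₀ * X ^ ε * Real.exp (tgM (L0 p) X a qs) * (1 + |s|) ^ J

/-- **the lines of the classes, `R`-half** -/
def LRU (Par : Set (Fin 3 ⊕ Fin 5 → ℝ)) (L0 : (Fin 3 ⊕ Fin 5 → ℝ) → ℝ) : Prop :=
  ∀ ε : ℝ, 0 < ε → ∃ τ : ℝ, 0 < τ ∧
    ∀ (lam : Λ × Eis) (N : ℕ) (B : ℝ), 0 ≤ B → ∃ J M₀ a₀ A₀ : ℕ, ∀ cc : ℝ, 1 ≤ cc →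
      ∃ X₀ : ℝ, 1 < X₀ ∧
      ∀ X : ℝ, X₀ ≤ X → ∀ H : ℝ, 1 ≤ H → ∀ p ∈ Par, ∀ (a : Bm) (qs : List Pq),
      Fr9 p X τ B H N a qs → okM π h lam a qs → ∀ (c : Fin 5) (i : ℕ) (b : Eis) (s : ℝ),
      i ∈ I5 a.2.1 (nM (nO a.1.1) a.2.2) (nO a.1.1) (Real.exp a.2.2) c → b ∈ dvs a.2.1 →
      ∃ W0 : ℕ → Eis → Eis → ℝ → ℝ, (∀ k d e, Slp a₀ (W0 k d e)) ∧
      (∀ k ∈ LI (1 / 10) (Vb (a.2.1 / b) i), RHd (X ^ 30) (cc * X ^ 1200) (max A₀ 2)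
        (S (E0M e0 a)) (fun d e => afM π h e0 lam a qs c b s e d) (W0 k)) ∧
      ∑ e ∈ S (E0M e0 a), ∑ k ∈ LI (1 / 10) (Vb (a.2.1 / b) i),
        ∑ d ∈ (JB (Real.sqrt (Vb (a.2.1 / b) i))).image Prod.fst,
        (nm e : ℝ)⁻¹ * (FH (Real.exp a.1.1.l) (HmM a qs b cc k d e) (Real.exp k) *
          RNF cc (Real.exp a.1.1.l) (Real.exp k) (XwM a qs b) (HmM a qs b cc k) (W0 k) d e) ≤
        H ^ M₀ * X ^ ε * Real.exp (tgM (L0 p) X a qs) * (1 + |s|) ^ J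

lemma PD_mono' {X τ τ' B H κ : ℝ} {N : ℕ} {b : Fin 5 → ℝ} {q : Eis} {us : Fin 3 → Pq}
    {gs : List Pq} (hL : 0 ≤ Real.log X) (hτ : τ ≤ τ') (h : PD X τ B H N b q us gs κ) :
    PD X τ' B H N b q us gs κ := by
  have hm : ∀ {c : ℝ}, (c + τ) * Real.log X ≤ (c + τ') * Real.log X := fun {c} =>
    mul_le_mul_of_nonneg_right (by linarith) hL
  have hm0 : τ * Real.log X ≤ τ' * Real.log X := mul_le_mul_of_nonneg_right hτ hL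
  exact ⟨h.q0, h.qB, h.H1, h.lump, h.us0, h.usB, h.usH,
    h.z1.trans hm, h.z2.trans hm, h.z3.trans hm, fun p hp => ⟨(h.am p hp).1, (h.am p hp).2.1,
      (h.am p hp).2.2.1.trans hm0, (h.am p hp).2.2.2.1, (h.am p hp).2.2.2.2⟩, h.len,
    h.x.trans hm, h.k.trans hm0⟩

/-- the frame is monotone in the tolerance -/
lemma Fr9.mono {p : Fin 3 ⊕ Fin 5 → ℝ} {X τ τ' B H : ℝ} {N : ℕ} {a : Bm} {qs : List Pq}
    (hτ : τ ≤ τ') (F : Fr9 p X τ B H N a qs) : Fr9 p X τ' B H N a qs := by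
  have hL := F.L.le
  have hm0 : τ * Real.log X ≤ τ' * Real.log X := mul_le_mul_of_nonneg_right hτ hL
  exact ⟨F.X3, F.L, F.par, PD_mono' hL hτ F.pd, F.l.trans hm0, F.z0, F.z.trans hm0,
    F.A.trans hm0, F.ζ0, F.ζ.trans hm0, F.g0, by linarith [F.g1], F.qs0, by linarith [F.qs1],
    F.am, F.cl, by linarith [F.lo], by linarith [F.up], F.n0, F.n1⟩

end Crest.Agent.R017.P1y54
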