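import Crest.Agent.R017.LMRd_813
import Crest.Agent.R017.P1y_54

/-!
# Row 17, P1, mismatch: the `R`-half (helper813), part 5

* **`lru_of`** : helper54's `LRU`
-/

set_option autoImplicit false
set_option linter.unusedVariables false

noncomputable section

open Finset

namespace Crest.Agent.R017.LMR813

open Crest.Agent.R012 Crest.Agent.R012.Eis
open Crest.Agent.R017.FE47 (PU)
open Crest.Agent.R017.XG702 (BG)
open Crest.Agent.R017.Prov71
open Crest.Agent.R017.B770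
open Crest.Agent.R017.ER911 Crest.Agent.R017.ExpC702
open Crest.Agent.R017.XPD571 (RP0)
open Crest.Agent.R017.E5B71 Crest.Agent.R017.E5L770
open Crest.Agent.R017.RnP571 (Dh)
open Crest.Agent.R017.I1146 (LN)
open Crest.Agent.R017.P10146 (cl)
open Crest.Agent.R017.P1w54 Crest.Agent.R017.P1y54
open Crest.Agent.R017.P1Q904 (LQ)

lemma LN_clc (a : P1l54.Bc) (qs : List Pq) : LN (cl a qs) = LN qs + LN (List.ofFn a.2) := by
  unfold I1146.LN P10146.cl
  rw [List.map_append, List.sum_append, add_comm]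

section

variable {Λ : Type*} {π : Λ → DPar} {h : ℝ → ℝ}

/-- **helper54's `LRU`** -/
theorem lru_of {c₀ : ℝ} (hpu : PU h c₀) (hP : ∀ lam, (π lam).OK) {sf : EF} {dd : ℝ}
    (R : ExpRules (7 / 8 + dd) (ex Dq (fun lam => Rp (π lam) h)) sf)
    (hcolP : ∀ (i : ℝ) (u : List ℝ) (m a : ℝ), 0 ≤ i → Okl u m a →
      BG Dq (RP0 π h) i u (wt m a) (2 * a + 2 * (7 / 8 + dd) * m)) (hd : 0 ≤ dd)
    (hd8 : dd ≤ 1 / 8) {Par : Set (Fin 3 ⊕ Fin 5 → ℝ)}
    (hDh : ∀ p ∈ Par, Dh (cκ p) (cu p 2) (cu p 3) (cu p 4) (cx' p) (dd * cκ p))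
    {e0 : ℝ} (he0 : 0 ≤ e0) (he1 : e0 ≤ 1) {L0 : (Fin 3 ⊕ Fin 5 → ℝ) → ℝ}
    (hL0 : ∀ p ∈ Par, LQ (cN p) (cκ p) (dd * cκ p) ≤ L0 p) : LRU π h e0 Par L0 := by
  intro ε hε
  obtain ⟨τ, hτ0, -, HL⟩ := lmr_of hpu hP R hcolP hd hd8 hDh he0 he1 hε
  refine ⟨τ, hτ0, fun lam N B hB => ?_⟩
  obtain ⟨M, a₀, A₀, -, HL⟩ := HL lam N B 1201
  refine ⟨M, M, a₀, A₀, fun cc hcc => ?_⟩
  obtain ⟨X₁, hX₁, HL⟩ := HL cc hcc
  refine ⟨max X₁ cc, lt_of_lt_of_le hX₁ (le_max_left _ _), ?_⟩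
  intro X hX H hH p hp a qs F hok c i b s hi hb
  have hXX₁ : X₁ ≤ X := (le_max_left _ _).trans hX
  have hXc : cc ≤ X := (le_max_right _ _).trans hX
  have hX1 : 1 < X := by linarith
  have hX0 : 0 < X := by linarith
  obtain ⟨W0, hS, hRH, hN⟩ := HL X hXX₁ H hH p hp a qs F hok c i b s hi hb (Real.exp a.1.1.l)
    (E0M e0 a) (HpM a qs) (D0M a) (XwM a qs b) rfl rfl (Real.exp_pos _)
    (by unfold P1y54.HpM; rw [Real.log_exp]) (Real.exp_pos _).le
    (by unfold P1y54.D0M; rw [← Real.exp_mul, mul_comm])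
    (by unfold P1y54.XwM; rw [LN_clc])
  refine ⟨W0, hS, ?_, ?_⟩
  · intro k hk
    refine hRH (max A₀ 2) (le_max_left _ _) (X ^ 30) (cc * X ^ 1200) (by positivity) ?_ k hk
    have e1 : X ^ (1201 : ℝ) = X * X ^ 1200 := by
      rw [show (1201 : ℝ) = ((1201 : ℕ) : ℝ) by norm_num, Real.rpow_natCast]
      ring
    rw [e1]
    exact mul_le_mul_of_nonneg_right hXc (by positivity)
  · refine hN.trans ?_
    have h1 : Real.exp (a.1.1.l + LN (cl a.1 qs) - 2 * Real.log (nm a.2.1) +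
        LQ (cN p) (cκ p) (dd * cκ p) * Real.log X) ≤ Real.exp (tgM (L0 p) X a qs) := by
      refine Real.exp_le_exp.2 ?_
      unfold P1w54.tgM
      have := mul_le_mul_of_nonneg_right (hL0 p hp) F.L.le
      linarith
    rw [mul_pow]
    calc H ^ M * (1 + |s|) ^ M * X ^ ε * _ ≤ H ^ M * (1 + |s|) ^ M * X ^ ε *
          Real.exp (tgM (L0 p) X a qs) := mul_le_mul_of_nonneg_left h1 (by positivity)
      _ = _ := by ring

end

end Crest.Agent.R017.LMR813
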