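import Mathlib.Tactic.Linarith
import Mathlib.Data.Real.Basic
import Mathlib.Tactic.Positivity

/-!
# Row 17, R8 (P1M): the real T-lines of the mismatch (helper957)

`k` family, `N` length, `x` share, `ex = max 0 (5/4 N - k)`, `v` level, `p` length of the child
list without the common divisor (twice), `δ` divisor, `b = log U_e`, `c` = cube of `j`, `l` level
of the claim, `n = p - δ - b`, `hh` exponent of `H` (without `- 2 b`).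
-/

set_option autoImplicit false
set_option linter.unusedVariables false

noncomputable section

namespace Crest.Agent.R017.TL957

/-- the frame of the T-lines -/
structure Tf (k N x ex v p t : ℝ) : Prop where
  k0 : 0 < k
  x0 : 0 ≤ x
  N1 : N ≤ 102 / 125 * k
  adm : (x ≤ k / 320 ∧ (x = 0 ∨ N + x ≤ 4 / 5 * k)) ∨
    (3 / 4 * k ≤ N ∧ x ≤ k / 36 ∧ x + 7 / 10 * N ≤ 199 / 360 * k)
  ex0 : 0 ≤ ex
  ex1 : 5 / 4 * N - k ≤ ex
  v1 : v ≤ 2 * N - k + 21 / 5 * x + t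
  v2 : v ≤ 3 / 4 * N + 21 / 5 * x + t
  p0 : k / 2 - 2 * x - t ≤ p
  p1 : p ≤ N + x + t
  t0 : 0 ≤ t
  t1 : t ≤ k / 20000

/-- the cases of the T-numbers -/
def TC (K5 b l n x T : ℝ) : Prop :=
  T ≤ l + n ∨ ((T ≤ 2 * n ∨ T ≤ 4 / 3 * n + (K5 + b / 2 + l) / 3 ∨
    (T ≤ 4 / 3 * n + 5 / 6 * l ∧ K5 + b / 2 ≤ 3 / 2 * l)) ∧
    (T ≤ l + 4 / 3 * n + 2 / 3 * x ∨ T ≤ 5 / 3 * n + l / 3))

lemma tc_of {K5 b l n x T : ℝ} (h : T ≤ max (min (max (2 * n) (4 / 3 * n +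
      (max (K5 + b / 2) (3 / 2 * l) + l) / 3)) (max (l + n + (n / 3 + 2 / 3 * x))
        (5 / 3 * n + l / 3))) (l + n)) : TC K5 b l n x T := by
  unfold TC
  rcases le_max_iff.1 h with h | h
  · right
    obtain ⟨h1, h2⟩ := le_min_iff.1 h
    constructor
    · rcases le_max_iff.1 h1 with h1 | h1
      · exact Or.inl h1
      · right
        rcases le_total (K5 + b / 2) (3 / 2 * l) with h3 | h3
        · rw [max_eq_right h3] at h1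
          exact Or.inr ⟨by linarith, h3⟩
        · rw [max_eq_left h3] at h1
          exact Or.inl h1
    · rcases le_max_iff.1 h2 with h2 | h2
      · exact Or.inl (by linarith)
      · exact Or.inr h2
  · exact Or.inl h

/-- exponent of `H`, without `- 2 b` -/
def hH (k x ex p δ : ℝ) : ℝ := max 0 (4 / 3 * (p - δ) + 2 / 3 * x - k - 3 * ex)

lemma hH0 (k x ex p δ : ℝ) : 0 ≤ hH k x ex p δ := le_max_left _ _

lemma hH1 (k x ex p δ : ℝ) : 4 / 3 * (p - δ) + 2 / 3 * x - k - 3 * ex ≤ hH k x ex p δ :=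
  le_max_right _ _

/-- `H² V³ ≤ K²` -/
theorem line_th {k N x ex v p t δ : ℝ} (H : Tf k N x ex v p t) (δ0 : 0 ≤ δ) :
    2 * hH k x ex p δ + 3 * v ≤ 2 * k := by
  obtain ⟨k0, x0, N1, adm, ex0, ex1, v1, v2, p0, p1, t0, t1⟩ := H
  unfold hH
  rcases max_choice 0 (4 / 3 * (p - δ) + 2 / 3 * x - k - 3 * ex) with h | h <;> rw [h] <;>
    rcases adm with ⟨a1, rfl | a2⟩ | ⟨a1, a2, a3⟩ <;> linarith

/-- (T0), small `δ` -/
theorem line_T0 {k N x ex v p t δ b c l T : ℝ} (H : Tf k N x ex v p t) (δ0 : 0 ≤ δ)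
    (b0 : 0 ≤ b) (b1 : b ≤ k / 64 + x + t) (c0 : 0 ≤ c) (hl : l ≤ v - 2 * δ + b - 3 * c + t)
    (hT : TC (k + ex) b l (p - δ - b) x T) :
    2 / 3 * k - hH k x ex p δ / 3 + 2 / 3 * b + 2 * δ + c - v / 3 - p / 3 + T ≤
      k + p + ex + 10 * t := by
  obtain ⟨k0, x0, N1, adm, ex0, ex1, v1, v2, p0, p1, t0, t1⟩ := H
  have h1 := hH0 k x ex p δ
  have h2 := hH1 k x ex p δ
  generalize hH k x ex p δ = h at *
  rcases hT with hT | ⟨hF, hC⟩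
  · rcases adm with ⟨a1, rfl | a2⟩ | ⟨a1, a2, a3⟩ <;> linarith
  · rcases hF with hF | hF | ⟨hF, hF2⟩
    · rcases hC with hC | hC
      · rcases adm with ⟨a1, rfl | a2⟩ | ⟨a1, a2, a3⟩ <;> linarith
      · rcases adm with ⟨a1, rfl | a2⟩ | ⟨a1, a2, a3⟩ <;> linarith
    · linarith
    · rcases adm with ⟨a1, rfl | a2⟩ | ⟨a1, a2, a3⟩ <;> linarith

/-- (T1), small `δ` -/
theorem line_T1 {k N x ex v p t δ b c l T : ℝ} (H : Tf k N x ex v p t) (δ0 : 0 ≤ δ)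
    (b0 : 0 ≤ b) (b1 : b ≤ k / 64 + x + t) (c0 : 0 ≤ c) (hl : l ≤ v - 2 * δ + b - 3 * c + t)
    (hT : TC (k + ex) b l (p - δ - b) x T) :
    2 / 3 * k - hH k x ex p δ / 3 + 2 / 3 * b + 2 * δ + c - v / 3 - p / 3 + T +
      (2 * hH k x ex p δ + 3 * v - 4 * b - 2 * k) / 3 ≤ k + p + ex + 10 * t := by
  have h1 := line_T0 H δ0 b0 b1 c0 hl hT
  have h2 := line_th H δ0
  linarith

/-- (T2), small `δ` -/
theorem line_T2 {k N x ex v p t δ b c l T : ℝ} (H : Tf k N x ex v p t) (δ0 : 0 ≤ δ)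
    (b0 : 0 ≤ b) (b1 : b ≤ k / 64 + x + t) (c0 : 0 ≤ c) (hl : l ≤ v - 2 * δ + b - 3 * c + t)
    (hT : TC (k + ex) b l (p - δ - b) x T) :
    2 / 3 * k - hH k x ex p δ / 3 + 2 / 3 * b + 2 * δ + c - v / 3 - p / 3 + T +
      (2 * hH k x ex p δ + 3 * v - 4 * b - 2 * k) / 2 ≤ k + p + ex + 10 * t := by
  have h1 := line_T0 H δ0 b0 b1 c0 hl hT
  have h2 := line_th H δ0
  linarith

/-- (LSM), small `δ` -/
theorem line_LS {k N x ex v p t δ b l T : ℝ} (H : Tf k N x ex v p t) (δ0 : 0 ≤ δ)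
    (b0 : 0 ≤ b) (b1 : b ≤ k / 64 + x + t) (hl : l ≤ v - 2 * δ + b + t)
    (hT : TC (k + ex) b l (p - δ - b) x T) :
    2 * δ - v / 3 - p / 3 + T + v + k / 20 ≤ k + p + ex + 10 * t := by
  obtain ⟨k0, x0, N1, adm, ex0, ex1, v1, v2, p0, p1, t0, t1⟩ := H
  rcases hT with hT | ⟨hF, hC⟩
  · rcases adm with ⟨a1, rfl | a2⟩ | ⟨a1, a2, a3⟩ <;> linarith
  · rcases hF with hF | hF | ⟨hF, hF2⟩
    · rcases adm with ⟨a1, rfl | a2⟩ | ⟨a1, a2, a3⟩ <;> linarith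
    · rcases adm with ⟨a1, rfl | a2⟩ | ⟨a1, a2, a3⟩ <;> linarith
    · rcases adm with ⟨a1, rfl | a2⟩ | ⟨a1, a2, a3⟩ <;> linarith

/-- (LM), small `δ` -/
theorem line_L {k N x ex v p t δ b l T : ℝ} (H : Tf k N x ex v p t) (δ0 : 0 ≤ δ)
    (b0 : 0 ≤ b) (b1 : b ≤ k / 64 + x + t) (hl : l ≤ v - 2 * δ + b + t)
    (hT : TC (k + ex) b l (p - δ - b) x T) :
    2 / 3 * k + 2 * δ - v / 3 - p / 3 + T + v - k + k / 10 ≤ k + p + ex + 10 * t := by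
  obtain ⟨k0, x0, N1, adm, ex0, ex1, v1, v2, p0, p1, t0, t1⟩ := H
  rcases hT with hT | ⟨hF, hC⟩
  · rcases adm with ⟨a1, rfl | a2⟩ | ⟨a1, a2, a3⟩ <;> linarith
  · rcases hF with hF | hF | ⟨hF, hF2⟩
    · rcases adm with ⟨a1, rfl | a2⟩ | ⟨a1, a2, a3⟩ <;> linarith
    · rcases adm with ⟨a1, rfl | a2⟩ | ⟨a1, a2, a3⟩ <;> linarith
    · rcases adm with ⟨a1, rfl | a2⟩ | ⟨a1, a2, a3⟩ <;> linarith

/-- (T0'), large `δ` -/
theorem line_T0' {k N x ex v p t δ b c l T : ℝ} (H : Tf k N x ex v p t)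
    (δ0 : 13 / 100 * k - t ≤ δ) (δ1 : 2 * δ ≤ v + t)
    (b0 : 0 ≤ b) (b1 : b ≤ k / 64 + x + t) (c0 : 0 ≤ c) (hl : l ≤ v - 2 * δ + b - 3 * c + t)
    (hT : TC (k + ex) b l (p - δ - b) x T) :
    1 / 3 * k + 2 * δ - δ / 3 + v / 3 - p / 3 + c + T ≤ k + p + ex + 10 * t := by
  obtain ⟨k0, x0, N1, adm, ex0, ex1, v1, v2, p0, p1, t0, t1⟩ := H
  rcases hT with hT | ⟨-, hC⟩
  · rcases adm with ⟨a1, rfl | a2⟩ | ⟨a1, a2, a3⟩ <;> linarith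
  · rcases hC with hC | hC
    · rcases adm with ⟨a1, rfl | a2⟩ | ⟨a1, a2, a3⟩ <;> linarith
    · rcases adm with ⟨a1, rfl | a2⟩ | ⟨a1, a2, a3⟩ <;> linarith

/-- (LSM'), large `δ` -/
theorem line_LS' {k N x ex v p t δ b l T : ℝ} (H : Tf k N x ex v p t)
    (δ0 : 13 / 100 * k - t ≤ δ) (δ1 : 2 * δ ≤ v + t)
    (b0 : 0 ≤ b) (b1 : b ≤ k / 64 + x + t) (hl : l ≤ v - 2 * δ + b + t)
    (hT : TC (k + ex) b l (p - δ - b) x T) :
    1 / 3 * k + 5 / 3 * δ + v / 3 - p / 3 + T + (δ + v - k + 3 / 20 * k) / 3 ≤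
      k + p + ex + 10 * t := by
  obtain ⟨k0, x0, N1, adm, ex0, ex1, v1, v2, p0, p1, t0, t1⟩ := H
  rcases hT with hT | ⟨hF, hC⟩
  · rcases adm with ⟨a1, rfl | a2⟩ | ⟨a1, a2, a3⟩ <;> linarith
  · rcases hF with hF | hF | ⟨hF, hF2⟩
    · rcases hC with hC | hC
      · rcases adm with ⟨a1, rfl | a2⟩ | ⟨a1, a2, a3⟩ <;> linarith
      · rcases adm with ⟨a1, rfl | a2⟩ | ⟨a1, a2, a3⟩ <;> linarith
    · rcases adm with ⟨a1, rfl | a2⟩ | ⟨a1, a2, a3⟩ <;> linarith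
    · rcases adm with ⟨a1, rfl | a2⟩ | ⟨a1, a2, a3⟩ <;> linarith

/-- (LM'), large `δ` -/
theorem line_L' {k N x ex v p t δ b l T : ℝ} (H : Tf k N x ex v p t)
    (δ0 : 13 / 100 * k - t ≤ δ) (δ1 : 2 * δ ≤ v + t)
    (b0 : 0 ≤ b) (b1 : b ≤ k / 64 + x + t) (hl : l ≤ v - 2 * δ + b + t)
    (hT : TC (k + ex) b l (p - δ - b) x T) :
    2 / 3 * k + 2 * δ - v / 3 - p / 3 + T + v - 9 / 10 * k ≤ k + p + ex + 10 * t := by
  obtain ⟨k0, x0, N1, adm, ex0, ex1, v1, v2, p0, p1, t0, t1⟩ := H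
  rcases hT with hT | ⟨hF, hC⟩
  · rcases adm with ⟨a1, rfl | a2⟩ | ⟨a1, a2, a3⟩ <;> linarith
  · rcases hF with hF | hF | ⟨hF, hF2⟩
    · rcases adm with ⟨a1, rfl | a2⟩ | ⟨a1, a2, a3⟩ <;> linarith
    · rcases adm with ⟨a1, rfl | a2⟩ | ⟨a1, a2, a3⟩ <;> linarith
    · rcases adm with ⟨a1, rfl | a2⟩ | ⟨a1, a2, a3⟩ <;> linarith

end Crest.Agent.R017.TL957
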