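import Crest.Agent.R017.FNEr_708
import Crest.Agent.R017.P1TL_957

/-!
# Row 17, R8 (P1M): the claims of the children against the T-lines (helper957)

* `fT K5 b l n x` : the closed bound of the claims; `TC` holds for it (`tc_fT`)
* **`nv_le`** : `min (min (eH K' l' n' + lo) A) (tAll d l' z₁ z₂ z₃ w) ≤ fT K5 b l n x + lo + 3 t`
* `kV_le` : the capped own family `max K (5/7 (l' + n'))` is `≤ K + 3 t` in the frame
-/

set_option autoImplicit false
set_option linter.unusedVariables false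

noncomputable section

namespace Crest.Agent.R017.TL957

open Crest.Agent.R017.TM708 (eF eH tAll tAll_le_C)

/-- the closed bound of the claims -/
def fT (K5 b l n x : ℝ) : ℝ :=
  max (min (max (2 * n) (4 / 3 * n + (max (K5 + b / 2) (3 / 2 * l) + l) / 3))
    (max (l + n + (n / 3 + 2 / 3 * x)) (5 / 3 * n + l / 3))) (l + n)

lemma tc_fT (K5 b l n x : ℝ) : TC K5 b l n x (fT K5 b l n x) := tc_of le_rfl

lemma fT_cont : Continuous fun q : ℝ × ℝ × ℝ × ℝ × ℝ => fT q.1 q.2.1 q.2.2.1 q.2.2.2.1 q.2.2.2.2 := by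
  unfold fT; fun_prop

/-- monotone in the level -/
lemma fT_mono {K5 b l l' n x : ℝ} (h : l ≤ l') : fT K5 b l n x ≤ fT K5 b l' n x := by
  unfold fT
  refine max_le_max (min_le_min (max_le_max le_rfl ?_) (max_le_max (by linarith)
    (by linarith))) (by linarith)
  have : max (K5 + b / 2) (3 / 2 * l) ≤ max (K5 + b / 2) (3 / 2 * l') :=
    max_le_max le_rfl (by linarith)
  linarith

/-- **the claims against `fT`** -/
theorem nv_le {K' K5 b l l' n n' x w d z₁ z₂ z₃ lo A t : ℝ} (t0 : 0 ≤ t) (lo0 : 0 ≤ lo)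
    (hK : K' ≤ K5 + b / 2 + 3 * t) (hl : l' ≤ l + t) (hs : z₁ + z₂ + z₃ + w = n')
    (hn : n' ≤ n + t) (h1 : 0 ≤ z₁) (h2 : 0 ≤ z₂) (h3 : 0 ≤ z₃) (hw : 0 ≤ w) (hwx : w ≤ x + t) :
    min (min (eH K' l' n' + lo) A) (tAll d l' z₁ z₂ z₃ w) ≤ fT K5 b l n x + lo + 3 * t := by
  have hA : eH K' l' n' ≤ max (max (2 * n) (4 / 3 * n + (max (K5 + b / 2) (3 / 2 * l) + l) / 3))
      (l + n) + 3 * t := by
    have m1 := le_max_left (max (2 * n) (4 / 3 * n + (max (K5 + b / 2) (3 / 2 * l) + l) / 3))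
      (l + n)
    have m2 := le_max_right (max (2 * n) (4 / 3 * n + (max (K5 + b / 2) (3 / 2 * l) + l) / 3))
      (l + n)
    have m3 := le_max_left (2 * n) (4 / 3 * n + (max (K5 + b / 2) (3 / 2 * l) + l) / 3)
    have m4 := le_max_right (2 * n) (4 / 3 * n + (max (K5 + b / 2) (3 / 2 * l) + l) / 3)
    have m5 : max K' (3 / 2 * l') ≤ max (K5 + b / 2) (3 / 2 * l) + 3 * t := by
      rw [← max_add_add_right]
      exact max_le_max hK (by linarith)
    unfold eH eF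
    refine max_le (max_le (by linarith) (by linarith)) (by linarith)
  have hB : tAll d l' z₁ z₂ z₃ w ≤ max (l + n + (n / 3 + 2 / 3 * x)) (5 / 3 * n + l / 3) +
      3 * t := by
    have m1 := le_max_left (l + n + (n / 3 + 2 / 3 * x)) (5 / 3 * n + l / 3)
    have m2 := le_max_right (l + n + (n / 3 + 2 / 3 * x)) (5 / 3 * n + l / 3)
    refine tAll_le_C (fun C hC0 hC3 => ⟨?_, ?_⟩) h1 h2 h3 <;> linarith
  have hC : min (min (eH K' l' n' + lo) A) (tAll d l' z₁ z₂ z₃ w) ≤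
      min (eH K' l' n' + lo) (tAll d l' z₁ z₂ z₃ w) := min_le_min (min_le_left _ _) le_rfl
  refine hC.trans ?_
  unfold fT
  generalize max (2 * n) (4 / 3 * n + (max (K5 + b / 2) (3 / 2 * l) + l) / 3) = a at *
  generalize max (l + n + (n / 3 + 2 / 3 * x)) (5 / 3 * n + l / 3) = c at *
  generalize eH K' l' n' = E at *
  generalize tAll d l' z₁ z₂ z₃ w = T at *
  rcases le_total a (l + n) with g1 | g1
  · rw [max_eq_right g1] at hA
    have := min_le_left (E + lo) T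
    have := le_max_right (min a c) (l + n)
    linarith
  · rw [max_eq_left g1] at hA
    have h5 := le_max_left (min a c) (l + n)
    rcases min_choice a c with g2 | g2 <;> rw [g2] at h5 ⊢
    · have := min_le_left (E + lo) T
      linarith
    · have := min_le_right (E + lo) T
      linarith

/-- the capped own family is the constant family in the frame -/
theorem kV_le {k N x ex v p t l n : ℝ} (H : Tf k N x ex v p t)
    (hx : x = 0 ∨ (3 / 4 * k ≤ N ∧ x ≤ k / 36 ∧ x + 7 / 10 * N ≤ 199 / 360 * k))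
    (h : l + n ≤ v + p + 2 * t) : max (k + ex) (5 / 7 * (l + n)) ≤ k + ex + 3 * t := by
  obtain ⟨k0, x0, N1, adm, ex0, ex1, v1, v2, p0, p1, t0, t1⟩ := H
  refine max_le (by linarith) ?_
  rcases hx with rfl | ⟨a1, a2, a3⟩ <;> linarith

variable {k N x ex v p t δ b c l : ℝ}

theorem T0f (H : Tf k N x ex v p t) (δ0 : 0 ≤ δ)
    (b0 : 0 ≤ b) (b1 : b ≤ k / 64 + x + t) (c0 : 0 ≤ c) (hl : l ≤ v - 2 * δ + b - 3 * c + t) :
    2 / 3 * k - hH k x ex p δ / 3 + 2 / 3 * b + 2 * δ + c - v / 3 - p / 3 +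
      fT (k + ex) b l (p - δ - b) x ≤ k + p + ex + 10 * t :=
  line_T0 H δ0 b0 b1 c0 hl (tc_fT _ _ _ _ _)

theorem LSf (H : Tf k N x ex v p t) (δ0 : 0 ≤ δ)
    (b0 : 0 ≤ b) (b1 : b ≤ k / 64 + x + t) (hl : l ≤ v - 2 * δ + b + t) :
    2 * δ - v / 3 - p / 3 + fT (k + ex) b l (p - δ - b) x + v + k / 20 ≤
      k + p + ex + 10 * t := line_LS H δ0 b0 b1 hl (tc_fT _ _ _ _ _)

theorem Lf (H : Tf k N x ex v p t) (δ0 : 0 ≤ δ)
    (b0 : 0 ≤ b) (b1 : b ≤ k / 64 + x + t) (hl : l ≤ v - 2 * δ + b + t) :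
    2 / 3 * k + 2 * δ - v / 3 - p / 3 + fT (k + ex) b l (p - δ - b) x + v - k + k / 10 ≤
      k + p + ex + 10 * t := line_L H δ0 b0 b1 hl (tc_fT _ _ _ _ _)

theorem T0f' (H : Tf k N x ex v p t) (δ0 : 13 / 100 * k - t ≤ δ) (δ1 : 2 * δ ≤ v + t)
    (b0 : 0 ≤ b) (b1 : b ≤ k / 64 + x + t) (c0 : 0 ≤ c) (hl : l ≤ v - 2 * δ + b - 3 * c + t) :
    1 / 3 * k + 2 * δ - δ / 3 + v / 3 - p / 3 + c + fT (k + ex) b l (p - δ - b) x ≤
      k + p + ex + 10 * t := line_T0' H δ0 δ1 b0 b1 c0 hl (tc_fT _ _ _ _ _)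

theorem LSf' (H : Tf k N x ex v p t) (δ0 : 13 / 100 * k - t ≤ δ) (δ1 : 2 * δ ≤ v + t)
    (b0 : 0 ≤ b) (b1 : b ≤ k / 64 + x + t) (hl : l ≤ v - 2 * δ + b + t) :
    1 / 3 * k + 5 / 3 * δ + v / 3 - p / 3 + fT (k + ex) b l (p - δ - b) x +
      (δ + v - k + 3 / 20 * k) / 3 ≤ k + p + ex + 10 * t :=
  line_LS' H δ0 δ1 b0 b1 hl (tc_fT _ _ _ _ _)

theorem Lf' (H : Tf k N x ex v p t) (δ0 : 13 / 100 * k - t ≤ δ) (δ1 : 2 * δ ≤ v + t)
    (b0 : 0 ≤ b) (b1 : b ≤ k / 64 + x + t) (hl : l ≤ v - 2 * δ + b + t) :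
    2 / 3 * k + 2 * δ - v / 3 - p / 3 + fT (k + ex) b l (p - δ - b) x + v - 9 / 10 * k ≤
      k + p + ex + 10 * t := line_L' H δ0 δ1 b0 b1 hl (tc_fT _ _ _ _ _)

end Crest.Agent.R017.TL957
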