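import Crest.Agent.R017.E3Zc_548
import Crest.Agent.R017.GrT1_828
import Crest.Agent.R017.E3Nc_146
import Crest.Agent.R017.MmE_828
import Crest.Agent.R017.P1TL_957
import Crest.Agent.R017.P1TN_957

/-!
# Row 17, R8/P1: the `T`-half of the lines of the mismatch, tools (helper537)

* `fT_anti`, `FcLS_exp`, `cTT_exp`; `LVn_zero1`, `LVn_zero2`; `U_all`, `cc_eq`; `Hm_fF`
* `ln_s`, `ln_b`, `ln_L`, `ln_S`, `ln_c`, `ln_w` : the lines; **`tf_core`** : the frame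
-/

set_option autoImplicit false
set_option linter.unusedVariables false

noncomputable section

open Finset

namespace Crest.Agent.R017.Lmt537

open Crest.Agent.R017.TL957 (fT)
open Crest.Agent.R017.E3Z548 (FH)
open Crest.Agent.R017.E3N146 (cLS cTT)

/-- `fT` decreases in `b` at fixed sums -/
lemma fT_anti {K5 b b' l₀ n₀ x : ℝ} (hb : b ≤ b') :
    fT K5 b' (l₀ + b') (n₀ - b') x ≤ fT K5 b (l₀ + b) (n₀ - b) x := by
  unfold fT
  have hs : l₀ + b' + (n₀ - b') = l₀ + b + (n₀ - b) := by ring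
  have h1 : max (K5 + b' / 2) (3 / 2 * (l₀ + b')) ≤ max (K5 + b / 2) (3 / 2 * (l₀ + b)) +
      3 / 2 * (b' - b) := by
    rw [← max_add_add_right]
    exact max_le_max (by linarith) (by linarith)
  rw [hs]
  exact max_le_max (min_le_min (max_le_max (by linarith) (by linarith))
    (max_le_max (by linarith) (by linarith))) le_rfl

lemma FH_exp (l η v : ℝ) : FH (Real.exp l) (Real.exp η) (Real.exp v) =
    Real.exp (2 / 3 * l - (η + v) / 3) := by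
  unfold FH
  rw [← Real.exp_add, ← Real.exp_mul, ← Real.exp_mul, ← Real.exp_add]
  congr 1; ring

lemma FcLS_exp (l η v : ℝ) : FH (Real.exp l) (Real.exp η) (Real.exp v) *
    cLS (Real.exp l) (Real.exp η) (Real.exp v) (Real.exp v) (Real.exp (l / 20)) 1 1 =
    Real.exp (2 / 3 * l - (η + v) / 3) + (Real.exp (-l / 3 + 2 / 3 * v + l / 10) +
      Real.exp (2 / 3 * v + l / 20)) := by
  rw [FH_exp]
  unfold cLS
  rw [div_self (Real.exp_pos v).ne', mul_one, ← Real.exp_sub, ← Real.exp_mul,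
    ← Real.exp_nat_mul, ← Real.exp_nat_mul, ← Real.exp_nat_mul, ← Real.exp_nat_mul]
  simp only [one_pow, mul_one]
  rw [← Real.exp_add, ← Real.exp_add, ← Real.exp_add, ← Real.exp_add, ← Real.exp_add,
    ← Real.exp_sub, ← Real.exp_mul, mul_add, mul_add, mul_one, ← Real.exp_add, ← Real.exp_add,
    add_assoc]
  congr 1
  push_cast
  congr 1 <;> congr 1 <;> ring

lemma cTT_exp {l η v t : ℝ} (ht : 0 ≤ t) (h : 2 * η + 3 * v - 2 * l ≤ t) :
    cTT (Real.exp l) (Real.exp η) (Real.exp v) ≤ 3 * Real.exp t := by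
  unfold cTT
  have e : Real.exp η ^ 2 * Real.exp v ^ 3 / Real.exp l ^ 2 =
      Real.exp (2 * η + 3 * v - 2 * l) := by
    rw [← Real.exp_nat_mul, ← Real.exp_nat_mul, ← Real.exp_nat_mul, ← Real.exp_add,
      ← Real.exp_sub]
    push_cast; rfl
  rw [e, ← Real.exp_mul, ← Real.exp_mul]
  have h1 : (1 : ℝ) ≤ Real.exp t := Real.one_le_exp ht
  have h2 : Real.exp ((2 * η + 3 * v - 2 * l) * (1 / 3)) ≤ Real.exp t :=
    Real.exp_le_exp.2 (by nlinarith)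
  have h3 : Real.exp ((2 * η + 3 * v - 2 * l) * (1 / 2)) ≤ Real.exp t :=
    Real.exp_le_exp.2 (by nlinarith)
  linarith

end Crest.Agent.R017.Lmt537
namespace Crest.Agent.R017.Lmt537

open Crest.Agent.R012 Crest.Agent.R012.Eis
open Crest.Agent.R012.Div277 (dvs mem_dvs)
open Crest.Agent.R017.DgA829 (lc lc_prim lc_dvd)
open Crest.Agent.R017.StA828 (gp gp_spec gp_eq)
open Crest.Agent.R017.StB828 (one_le_nmR)
open Crest.Agent.R017.GrT828 (cc)
open Crest.Agent.R017.Mm828 (Hm)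
open Crest.Agent.R017.E3D579 (TE0)
open Crest.Agent.R017.E3T829 (cg)
open Crest.Agent.R017.E3Z548 (TN JV JVc mem_JV FH LVn)
open Crest.Agent.R017.E3N146 (CF_of_JC)

lemma TE0_0 (d j e : Eis) : TE0 (fun _ => (0 : ℂ)) d j e = 0 := by
  unfold E3D579.TE0
  simp

lemma cg_0 {γ : Eis} {b : Eis → ℂ} (h : ∀ m, b m = 0) : cg γ b = fun _ => 0 := by
  funext m
  unfold E3T829.cg
  split_ifs
  · exact h m
  · rfl

lemma LVn_zero1 {af : Eis → Eis → Eis → ℂ} {d e : Eis} (h : ∀ m, af d e m = 0)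
    (c Y K H V V' E1 B G1 : ℝ) : LVn af {d} {e} c Y K H V V' E1 B G1 0 = 0 := by
  unfold LVn TN
  simp only [sum_singleton, cg_0 h, TE0_0]
  simp

lemma LVn_zero2 {af : Eis → Eis → Eis → ℂ} {d e : Eis} (hd : IsPrim d) {c V : ℝ}
    (h : c * V < (nm d : ℝ) ^ 2) (Y K H V' E1 B G1 : ℝ) :
    LVn af {d} {e} c Y K H V V' E1 B G1 0 = 0 := by
  have hJ : ∀ γ : Eis, IsPrim γ → JV c V d γ = ∅ := by
    intro γ hγ
    rw [Finset.eq_empty_iff_forall_notMem]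
    intro j hj
    obtain ⟨h3, h4⟩ := (mem_JV hd.ne_zero hγ.ne_zero).1 hj
    have h5 : (1 : ℝ) ≤ nm j := by exact_mod_cast nm_pos.mpr h3
    have h6 : (1 : ℝ) ≤ (nm γ : ℝ) ^ 3 := one_le_pow₀ (one_le_nmR hγ)
    have h7 : (0 : ℝ) ≤ (nm d : ℝ) ^ 2 := sq_nonneg _
    have h8 : (nm d : ℝ) ^ 2 ≤ nm j * (nm d : ℝ) ^ 2 := le_mul_of_one_le_left h7 h5
    have h9 : nm j * (nm d : ℝ) ^ 2 ≤ nm j * (nm d : ℝ) ^ 2 * (nm γ : ℝ) ^ 3 :=
      le_mul_of_one_le_right (by positivity) h6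
    linarith
  have hJc : JVc c V d 1 = ∅ := by
    unfold E3Z548.JVc
    rw [hJ 1 isPrim_one]
    rfl
  have hs : ∀ om : Eis → ℝ, ∀ dl : Eis → Eis,
      TN af (fun e => (nm e : ℝ)) {d} {e} om (primBall ⌊Y⌋₊) (JV c V) dl = 0 := by
    intro om dl
    unfold TN
    simp only [sum_singleton]
    rw [mul_eq_zero]
    right
    refine sum_eq_zero fun γ hγ => ?_
    rw [hJ γ (mem_primBall.1 hγ).2, sum_empty, mul_zero]
  have hs1 : TN af (fun e => (nm e : ℝ)) {d} {e} (fun _ => 1) {1} (JVc c V) id = 0 := by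
    unfold TN
    simp only [sum_singleton, hJc, sum_empty, mul_zero]
  unfold LVn
  rw [hs1, hs, hs]
  simp

/-! ### the ratio -/

lemma lc_mul {a e : Eis} (ha : IsPrim a) (he : IsPrim e) :
    ∃ t : Eis, lc a e = a * t ∧ t ∣ e ∧ IsPrim t := by
  obtain ⟨t, ht⟩ : a ∣ lc a e := ((lc_dvd ha he _).1 dvd_rfl).1
  have h1 : IsPrim (lc a e) := lc_prim ha he
  have h2 : lc a e ∣ a * e := (lc_dvd ha he _).2 ⟨dvd_mul_right _ _, dvd_mul_left _ _⟩
  refine ⟨t, ht, ?_, ?_⟩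
  · rw [ht] at h2
    exact (mul_dvd_mul_iff_left ha.ne_zero).1 h2
  · rw [ht] at h1
    exact h1.of_mul_left ha

lemma U_all {a e : Eis} (ha : IsPrim a) (he : IsPrim e) :
    (nm (lc a e / a) : ℝ) = (nm (lc a e) : ℝ) / nm a ∧ 1 ≤ (nm (lc a e) : ℝ) / nm a ∧
      (nm (lc a e) : ℝ) / nm a ≤ nm e := by
  obtain ⟨t, h1, h2, h3⟩ := lc_mul ha he
  have a0 : (0 : ℝ) < nm a := by linarith [one_le_nmR ha]
  have e1 : (nm (lc a e) : ℝ) / nm a = nm t := by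
    rw [h1, nm_mul]; push_cast
    field_simp
  rw [e1]
  refine ⟨?_, one_le_nmR h3, ?_⟩
  · rw [h1, mul_div_cancel_left₀ _ ha.ne_zero]
  · exact_mod_cast Crest.Agent.R012.Div277.nm_le_of_dvd he.ne_zero h2

/-- the divisor of a coprime `d` -/
lemma cc_eq {g b d : Eis} (hg : IsPrim g) (hb : IsPrim b) (hbg : b ∣ g) (hd : IsCoprime d g) :
    cc g (b * d) = g / b := by
  obtain ⟨c, hc⟩ := hbg
  have h1 : gp (b * d) g = b := by
    refine gp_eq (l₁ := d) (u₁ := c) hg hb rfl hc ?_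
    exact hd.of_isCoprime_of_dvd_right ⟨b, by rw [hc]; ring⟩
  unfold GrT828.cc
  rw [h1]

/-! ### the length of the rows -/

lemma Hm_small {lHp δ u D₀ K X c : ℝ} {a d e : Eis} {k : ℕ} (hδ : (nm d : ℝ) = Real.exp δ)
    (hu : (nm (lc a e) : ℝ) / nm a = Real.exp u) (h : (nm d : ℝ) ≤ D₀) :
    Hm (Real.exp lHp) D₀ a K X c k d e = Real.exp (max 0 (lHp - 4 / 3 * δ) - 2 * u) := by
  unfold Mm828.Hm
  rw [if_pos h, hδ, hu, ← Real.exp_mul, ← Real.exp_mul, ← Real.exp_add]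
  have e1 : max 1 (Real.exp (lHp + δ * (-(4 / 3)))) = Real.exp (max 0 (lHp - 4 / 3 * δ)) := by
    rw [← Real.exp_zero]
    have e2 : lHp + δ * (-(4 / 3)) = lHp - 4 / 3 * δ := by ring
    rw [e2]
    exact (Real.exp_monotone.map_max).symm
  rw [e1, ← Real.exp_add]
  congr 1; ring

lemma Hm_large {Hp δ D₀ l X c lc2 : ℝ} {a d e : Eis} {k : ℕ} (hδ : (nm d : ℝ) = Real.exp δ)
    (h : ¬ (nm d : ℝ) ≤ D₀) (hX : (nm d : ℝ) ≤ X) (hc : 2 * c = Real.exp lc2) :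
    Hm Hp D₀ a (Real.exp l) X c k d e = Real.exp (l + δ - lc2 - 2 * k) := by
  unfold Mm828.Hm
  rw [if_neg h, min_eq_left hX, hδ, hc, ← Real.exp_nat_mul, ← Real.exp_add, ← Real.exp_add,
    ← Real.exp_sub]
  congr 1; push_cast; ring

end Crest.Agent.R017.Lmt537
namespace Crest.Agent.R017.Lmt537

open Crest.Agent.R017.TL957

variable {k N x ex v p t δ b l kk lg lcc lHp τ n : ℝ}

/-- the line of the common factor, small `d` -/
lemma ln_s (H : Tf k N x ex v p t) (hv : v = kk + lg) (δ0 : 0 ≤ δ)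
    (b0 : 0 ≤ b) (b1 : b ≤ k / 64 + x) (τ0 : 0 ≤ τ) (τ1 : 20 * τ ≤ t) (hl : l ≤ k + τ)
    (hHp : 4 / 3 * p + 2 / 3 * x - k - 3 * ex - t ≤ lHp) (c1 : lcc ≤ t) (n0 : 0 ≤ n)
    (t1 : 100 ≤ t) :
    2 / 3 * l - max 0 (lHp - 4 / 3 * δ) / 3 - kk / 3 + 2 / 3 * (b + 1 + 2 * τ) +
      fT (k + ex) b (lcc + kk - 2 * δ + lg - 3 * n + b) (p - δ - b) x + 6 * t + 2 * δ + n ≤
      k + p + ex + 20 * t + (p + lg) / 3 := by
  have h := T0f (l := lcc + kk - 2 * δ + lg - 3 * n + b) (c := n) H δ0 b0 (by linarith [H.t0]) n0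
    (by subst hv; linarith)
  have h2 : hH k x ex p δ - t ≤ max 0 (lHp - 4 / 3 * δ) := by
    unfold TL957.hH
    rcases max_choice 0 (4 / 3 * (p - δ) + 2 / 3 * x - k - 3 * ex) with h | h <;> rw [h]
    · have := le_max_left 0 (lHp - 4 / 3 * δ)
      linarith
    · have := le_max_right 0 (lHp - 4 / 3 * δ)
      linarith
  generalize fT (k + ex) b (lcc + kk - 2 * δ + lg - 3 * n + b) (p - δ - b) x = E at *
  generalize TL957.hH k x ex p δ = q at *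
  generalize max 0 (lHp - 4 / 3 * δ) = r at *
  subst hv
  linarith

/-- the line of the common factor, large `d` -/
lemma ln_b (H : Tf k N x ex v p t) (hv : v = kk + lg) (lg0 : 0 ≤ lg)
    (δ0 : 13 / 100 * k - t ≤ δ) (δ1 : 2 * δ ≤ v + t)
    (b0 : 0 ≤ b) (b1 : b ≤ k / 64 + x) (τ0 : 0 ≤ τ) (τ1 : 20 * τ ≤ t) (hl : l ≤ k + τ)
    (c1 : lcc ≤ t) {lc2 : ℝ} (c2 : lc2 ≤ t) (n0 : 0 ≤ n) (t1 : 100 ≤ t) :
    (l + kk) / 3 + lc2 / 3 - δ / 3 +
      fT (k + ex) b (lcc + kk - 2 * δ + lg - 3 * n + b) (p - δ - b) x + 6 * t + 2 * δ + n ≤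
      k + p + ex + 20 * t + (p + lg) / 3 := by
  have h := T0f' (l := lcc + kk - 2 * δ + lg - 3 * n + b) (c := n) H δ0 δ1 b0
    (by linarith [H.t0]) n0 (by subst hv; linarith)
  generalize fT (k + ex) b (lcc + kk - 2 * δ + lg - 3 * n + b) (p - δ - b) x = E at *
  subst hv
  linarith

/-- the line of the long rows -/
lemma ln_L (H : Tf k N x ex v p t) (hv : v = kk + lg) (lg0 : 0 ≤ lg) (δ0 : 0 ≤ δ)
    (b0 : 0 ≤ b) (b1 : b ≤ k / 64 + x) (τ0 : 0 ≤ τ) (τ1 : 20 * τ ≤ t) (hl : k - τ ≤ l)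
    (hl2 : l ≤ k + τ) (c1 : lcc ≤ t) (t1 : 100 ≤ t) :
    (-l / 3 + 2 / 3 * kk + l / 10) +
      fT (k + ex) b (lcc + kk - 2 * δ + lg + b) (p - δ - b) x + 6 * t + 2 * δ ≤
      k + p + ex + 20 * t + (p + lg) / 3 := by
  have h := Lf (l := lcc + kk - 2 * δ + lg + b) H δ0 b0
    (by linarith [H.t0]) (by subst hv; linarith)
  generalize fT (k + ex) b (lcc + kk - 2 * δ + lg + b) (p - δ - b) x = E at *
  subst hv
  linarith

/-- the line of the short rows -/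
lemma ln_S (H : Tf k N x ex v p t) (hv : v = kk + lg) (lg0 : 0 ≤ lg) (δ0 : 0 ≤ δ)
    (b0 : 0 ≤ b) (b1 : b ≤ k / 64 + x) (τ0 : 0 ≤ τ) (τ1 : 20 * τ ≤ t)
    (hl2 : l ≤ k + τ) (c1 : lcc ≤ t) (t1 : 100 ≤ t) :
    (2 / 3 * kk + l / 20) +
      fT (k + ex) b (lcc + kk - 2 * δ + lg + b) (p - δ - b) x + 6 * t + 2 * δ ≤
      k + p + ex + 20 * t + (p + lg) / 3 := by
  have h := LSf (l := lcc + kk - 2 * δ + lg + b) H δ0 b0
    (by linarith [H.t0]) (by subst hv; linarith)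
  generalize fT (k + ex) b (lcc + kk - 2 * δ + lg + b) (p - δ - b) x = E at *
  subst hv
  linarith

/-- `H² V³ ≤ K² e^{3t}`, small `d` -/
lemma ln_c (H : Tf k N x ex v p t) (hv : v = kk + lg) (lg0 : 0 ≤ lg) (δ0 : 0 ≤ δ)
    (τ1 : 20 * τ ≤ t) (hl : k - τ ≤ l) {u : ℝ} (hu : 0 ≤ u)
    (hHp : lHp ≤ 4 / 3 * p + 2 / 3 * x - k - 3 * ex + t) :
    2 * (max 0 (lHp - 4 / 3 * δ) - 2 * u) + 3 * kk - 2 * l ≤ 3 * t := by
  have h := line_th H δ0
  have ht := H.t0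
  have h2 : max 0 (lHp - 4 / 3 * δ) ≤ hH k x ex p δ + t := by
    unfold TL957.hH
    refine max_le ?_ ?_
    · have := le_max_left 0 (4 / 3 * (p - δ) + 2 / 3 * x - k - 3 * ex)
      linarith
    · have := le_max_right 0 (4 / 3 * (p - δ) + 2 / 3 * x - k - 3 * ex)
      linarith
  generalize TL957.hH k x ex p δ = q at *
  generalize max 0 (lHp - 4 / 3 * δ) = r at *
  subst hv
  linarith

/-- large `d` do not exceed the window -/
lemma ln_w (H : Tf k N x ex v p t) (hx : x = 0 ∨ x ≤ k / 36) (δ1 : 2 * δ ≤ v + t) : δ ≤ p := by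
  obtain ⟨k0, x0, N1, adm, ex0, ex1, v1, v2, p0, p1, t0, t1⟩ := H
  rcases hx with rfl | hx <;> linarith

end Crest.Agent.R017.Lmt537
namespace Crest.Agent.R017.Lmt537

open Crest.Agent.R017.TL957

/-- the facts of the square in logarithms -/
lemma sqL {c n x L : ℝ} (hL : 0 < L) (h1 : 8 / 9 ≤ c) (h3 : 3 / 4 * c ≤ n)
    (h4 : n ≤ 84 / 103 * c) (h5 : 0 ≤ x)
    (h6 : x = 0 ∨ (x ≤ 1 / 36 * c ∧ x + 7 / 10 * n ≤ 199 / 360 * c ∧ n + x ≤ 15 / 19 * c)) :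
    8 / 9 * L ≤ c * L ∧ 3 / 4 * (c * L) ≤ n * L ∧ n * L ≤ 84 / 103 * (c * L) ∧ 0 ≤ x * L ∧
    (x * L = 0 ∨ (x * L ≤ 1 / 36 * (c * L) ∧ x * L + 7 / 10 * (n * L) ≤ 199 / 360 * (c * L) ∧
      n * L + x * L ≤ 15 / 19 * (c * L))) := by
  refine ⟨mul_le_mul_of_nonneg_right h1 hL.le, ?_, ?_, mul_nonneg h5 hL.le, ?_⟩
  · have := mul_le_mul_of_nonneg_right h3 hL.le
    linarith
  · have := mul_le_mul_of_nonneg_right h4 hL.le
    linarith
  · rcases h6 with h | ⟨a1, a2, a3⟩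
    · left; rw [h, zero_mul]
    · right
      have b1 := mul_le_mul_of_nonneg_right a1 hL.le
      have b2 := mul_le_mul_of_nonneg_right a2 hL.le
      have b3 := mul_le_mul_of_nonneg_right a3 hL.le
      refine ⟨by linarith, by linarith, by linarith⟩

/-- **the frame of the T-lines** -/
lemma tf_core {c n x L τ t l a z ζ γ S q i v : ℝ} (hL : 0 < L) (h1 : 8 / 9 ≤ c)
    (h3 : 3 / 4 * c ≤ n) (h4 : n ≤ 84 / 103 * c) (h5 : 0 ≤ x)
    (h6 : x = 0 ∨ (x ≤ 1 / 36 * c ∧ x + 7 / 10 * n ≤ 199 / 360 * c ∧ n + x ≤ 15 / 19 * c))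
    (hl : |l - c * L| ≤ τ * L) (ha : |a - n * L| ≤ τ * L) (hz : |z - x * L| ≤ τ * L)
    (hζ : |ζ - x * L| ≤ τ * L) (hγ : 0 ≤ γ)
    (lo : c / 2 * L ≤ S - 2 * γ + 2 * x * L + τ * L) (up : S ≤ (n + x) * L + τ * L)
    (hq : q ≤ max 0 (min (2 * a - l) (3 / 4 * a) + 11 / 5 * z) + 1) (hi : i ≤ q + 2 * ζ + 1)
    (hv : v ≤ 2 + i) (t1 : 20 * (τ * L) ≤ t) (t2 : t ≤ L / 50000) (t3 : 100 ≤ t) :
    Tf (c * L) (n * L) (x * L) (max 0 (5 / 4 * n - c) * L) v (S - 2 * γ) t := by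
  obtain ⟨k1, k3, k4, k5, k6⟩ := sqL hL h1 h3 h4 h5 h6
  obtain ⟨l1, l2⟩ := abs_le.1 hl
  obtain ⟨a1, a2⟩ := abs_le.1 ha
  obtain ⟨z1, z2⟩ := abs_le.1 hz
  obtain ⟨ζ1, ζ2⟩ := abs_le.1 hζ
  have m1 := min_le_left (2 * a - l) (3 / 4 * a)
  have m2 := min_le_right (2 * a - l) (3 / 4 * a)
  have up' : S ≤ n * L + x * L + τ * L := by linarith
  have lo' : c * L / 2 ≤ S - 2 * γ + 2 * (x * L) + τ * L := by linarith
  have hq2 : q ≤ 2 * (n * L) - c * L + 11 / 5 * (x * L) + 6 * (τ * L) + 1 := by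
    refine hq.trans ?_
    have : max 0 (min (2 * a - l) (3 / 4 * a) + 11 / 5 * z) ≤
        2 * (n * L) - c * L + 11 / 5 * (x * L) + 6 * (τ * L) := max_le (by linarith) (by linarith)
    linarith
  have hq3 : q ≤ 3 / 4 * (n * L) + 11 / 5 * (x * L) + 6 * (τ * L) + 1 := by
    refine hq.trans ?_
    have : max 0 (min (2 * a - l) (3 / 4 * a) + 11 / 5 * z) ≤
        3 / 4 * (n * L) + 11 / 5 * (x * L) + 6 * (τ * L) := max_le (by linarith) (by linarith)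
    linarith
  have e0 : 0 ≤ max 0 (5 / 4 * n - c) * L := mul_nonneg (le_max_left _ _) hL.le
  have e1 : 5 / 4 * (n * L) - c * L ≤ max 0 (5 / 4 * n - c) * L := by
    have := mul_le_mul_of_nonneg_right (le_max_right 0 (5 / 4 * n - c)) hL.le
    linarith
  generalize c * L = K at *
  generalize n * L = M at *
  generalize x * L = y at *
  generalize τ * L = T at *
  refine ⟨by linarith, k5, by linarith, ?_, e0, by linarith, by linarith, by linarith,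
    by linarith, by linarith, by linarith, by linarith⟩
  rcases k6 with h | ⟨g1, g2, g3⟩
  · left
    refine ⟨by linarith, Or.inl h⟩
  · right
    refine ⟨by linarith, by linarith, by linarith⟩

end Crest.Agent.R017.Lmt537
namespace Crest.Agent.R017.Lmt537

open Crest.Agent.R012 Crest.Agent.R012.Eis
open Crest.Agent.R017.DgA829 (lc lc_prim lc_dvd)
open Crest.Agent.R017.StB828 (one_le_nmR)
open Crest.Agent.R017.Mm828 (Hm)

/-- the exponent of the common factor -/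
def fF (l lHp kk lc2 τ D₀ w δ b : ℝ) : ℝ :=
  if Real.exp δ ≤ D₀ then
    2 / 3 * l - max 0 (lHp - 4 / 3 * δ) / 3 - kk / 3 + 2 / 3 * (min b w + 1 + 2 * τ)
  else (l + kk) / 3 + lc2 / 3 - δ / 3

/-- the length of the rows against `fF` -/
lemma Hm_fF {l lHp D₀ Xw c lc2 τ w t b : ℝ} {a d e : Eis} {k : ℕ} (ha : IsPrim a)
    (hd : IsPrim d) (he : IsPrim e) (hτ : 0 ≤ τ) (ht : 0 ≤ t)
    (hub : Real.log (nm (lc a e / a)) ≤ b + 1) (hue : (nm e : ℝ) ≤ Real.exp (w + 2 * τ))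
    (h2c : 2 * c = Real.exp lc2) (hc : 1 ≤ c) (hX : ¬ (nm d : ℝ) ≤ D₀ → (nm d : ℝ) ≤ Xw)
    (hd2 : (nm d : ℝ) ^ 2 ≤ c * Real.exp k)
    (hs : ∀ u : ℝ, 0 ≤ u → 2 * (max 0 (lHp - 4 / 3 * Real.log (nm d)) - 2 * u) + 3 * k - 2 * l ≤
      3 * t) :
    ∃ η : ℝ, Hm (Real.exp lHp) D₀ a (Real.exp l) Xw c k d e = Real.exp η ∧
      2 / 3 * l - (η + k) / 3 ≤ fF l lHp k lc2 τ D₀ w (Real.log (nm d)) b ∧
      2 * η + 3 * k - 2 * l ≤ 3 * t := by
  have d1 := one_le_nmR hd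
  have d0 : (0 : ℝ) < nm d := by linarith
  have hδ : (nm d : ℝ) = Real.exp (Real.log (nm d)) := (Real.exp_log d0).symm
  obtain ⟨u1, u2, u3⟩ := U_all ha he
  have e0 : (0 : ℝ) < nm e := by linarith [one_le_nmR he]
  rw [u1] at hub
  set U := (nm (lc a e) : ℝ) / nm a with hU
  have hU0 : 0 < U := by linarith
  have hu : U = Real.exp (Real.log U) := (Real.exp_log hU0).symm
  have hu0 : 0 ≤ Real.log U := Real.log_nonneg u2
  have hu2 : Real.log U ≤ w + 2 * τ := by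
    have h1 := Real.log_le_log hU0 (u3.trans hue)
    rwa [Real.log_exp] at h1
  by_cases h : (nm d : ℝ) ≤ D₀
  · refine ⟨_, Hm_small hδ hu h, ?_, ?_⟩
    · unfold fF
      rw [if_pos (by rw [← hδ]; exact h)]
      have : Real.log U ≤ min b w + 1 + 2 * τ := by
        rcases min_choice b w with h1 | h1 <;> rw [h1] <;> linarith
      linarith
    · exact hs _ hu0
  · refine ⟨_, Hm_large hδ h (hX h) h2c, ?_, ?_⟩
    · unfold fF
      rw [if_neg (by rw [← hδ]; exact h)]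
      linarith
    · have h1 := Real.log_le_log (by positivity) hd2
      rw [Real.log_pow, Real.log_mul (by linarith) (Real.exp_pos _).ne', Real.log_exp] at h1
      have h2 : lc2 = Real.log (2 * c) := by rw [h2c, Real.log_exp]
      rw [Real.log_mul (by norm_num) (by linarith)] at h2
      have h3 : 0 ≤ Real.log 2 := Real.log_nonneg (by norm_num)
      have h4 : 0 ≤ Real.log c := Real.log_nonneg hc
      push_cast at h1
      linarith

end Crest.Agent.R017.Lmt537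
namespace Crest.Agent.R017.Lmt537

open Crest.Agent.R017.TL957

/-- the line of the common factor -/
lemma fF_line {k N x ex v p t δ b l kk lg lcc lc2 lHp τ n D₀ : ℝ} (H : Tf k N x ex v p t)
    (hv : v = kk + lg) (lg0 : 0 ≤ lg) (δ0 : 0 ≤ δ) (δ1 : 2 * δ ≤ v + t) (b0 : 0 ≤ b)
    (τ0 : 0 ≤ τ) (τ1 : 20 * τ ≤ t) (hl1 : k - τ ≤ l) (hl : l ≤ k + τ)
    (hHp : 4 / 3 * p + 2 / 3 * x - k - 3 * ex - t ≤ lHp) (c1 : lcc ≤ t) (c2 : lc2 ≤ t)
    (n0 : 0 ≤ n) (t1 : 100 ≤ t) (hD : D₀ = Real.exp (13 / 100 * l)) :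
    fF l lHp kk lc2 τ D₀ (k / 64 + x) δ b +
      fT (k + ex) (min b (k / 64 + x)) (lcc + kk - 2 * δ + lg - 3 * n + min b (k / 64 + x))
        (p - δ - min b (k / 64 + x)) x + 6 * t + 2 * δ + n ≤
      k + p + ex + 20 * t + (p + lg) / 3 := by
  have m0 : 0 ≤ min b (k / 64 + x) := le_min b0 (by linarith [H.k0, H.x0])
  have m1 : min b (k / 64 + x) ≤ k / 64 + x := min_le_right _ _
  unfold fF
  split_ifs with h
  · exact ln_s H hv δ0 m0 m1 τ0 τ1 hl hHp c1 n0 t1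
  · refine ln_b H hv lg0 ?_ δ1 m0 m1 τ0 τ1 hl c1 c2 n0 t1
    rw [hD, Real.exp_le_exp, not_le] at h
    linarith

end Crest.Agent.R017.Lmt537
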