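import Crest.Agent.R017.P1y_54
import Crest.Agent.R017.GrW2_404
import Crest.Agent.R017.CLV_436
import Crest.Agent.R017.P1TN_957
import Crest.Agent.R017.P10e_146
import Crest.Agent.R017.LMTa_537

/-!
# Row 17, R8/P1: the lines of the classes of the mismatch, `T`-half (helper537)

* **`ltu_of`** : `P1y54.LTU` from the flat claims with the constant family
-/

set_option autoImplicit false
set_option linter.unusedVariables false

noncomputable section

open Finset Filter

namespace Crest.Agent.R017.Lmt537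

open Crest.Agent.R012 Crest.Agent.R012.Eis Crest.Agent.R012.Div277
open Crest.Agent.R012.LS2 (S mem_S)
open Crest.Agent.R017.CM106 Crest.Agent.R017.C70
open Crest.Agent.R017.FE47 (PU cx SM)
open Crest.Agent.R017.ER911
open Crest.Agent.R017.B770 Crest.Agent.R017.Prov71
open Crest.Agent.R017.TM708 hiding T5
open Crest.Agent.R017.FEx436 (ClG)
open Crest.Agent.R017.TK708 (AllT)
open Crest.Agent.R017.P1l54 (nO)
open Crest.Agent.R017.TL957
open Crest.Agent.R017.Rough381 (VF)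
open Crest.Agent.R017.HP842 (Pc pc sqc al alL)
open Crest.Agent.R017.UM71
open Crest.Agent.R017.E5B71 Crest.Agent.R017.E5L770
open Crest.Agent.R017.I1146 (LN)
open Crest.Agent.R017.P10146 (bP cl exN sq_facts bP_mem D5_compact)
open Crest.Agent.R017.P1t54 (ParS)
open Crest.Agent.R017.StB828 (one_le_nmR)
open Crest.Agent.R017.StG828 (JB omp)
open Crest.Agent.R017.StJ319 (afrb gt5 q5 I5 I5_sub)
open Crest.Agent.R017.GrC828 (LY ChF cF)
open Crest.Agent.R017.GrT828 (cc cc_prim cc_dvd)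
open Crest.Agent.R017.DgA829 (lc)
open Crest.Agent.R017.Mm828 (Vb Hm Hm_pos)
open Crest.Agent.R017.E3Kc548 (LI mem_LI card_LI)
open Crest.Agent.R017.E3Z548 (LVn FH FH_nonneg)
open Crest.Agent.R017.E3N146 (cLS cTT)
open Crest.Agent.R017.P1u54 Crest.Agent.R017.P1v54 Crest.Agent.R017.P1w54 Crest.Agent.R017.P1y54

lemma PD_monoB {X τ B B' H κ : ℝ} {N : ℕ} {b : Fin 5 → ℝ} {q : Eis} {us : Fin 3 → Pq}
    {gs : List Pq} (hX : 1 ≤ X) (hB : B ≤ B') (h : PD X τ B H N b q us gs κ) :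
    PD X τ B' H N b q us gs κ := by
  have hm : X ^ B ≤ X ^ B' := Real.rpow_le_rpow_of_exponent_le hX hB
  exact ⟨h.q0, h.qB.trans hm, h.H1, h.lump, h.us0, fun i => (h.usB i).trans hm, h.usH, h.z1,
    h.z2, h.z3, fun p hp => ⟨(h.am p hp).1, (h.am p hp).2.1, (h.am p hp).2.2.1,
      (h.am p hp).2.2.2.1.trans hm, (h.am p hp).2.2.2.2⟩, h.len, h.x, h.k⟩

/-- the level of a class -/
lemma lev_i {g : Eis} {n i : ℕ} {ζ Y : ℝ} {c : Fin 5} (hζ : 0 ≤ ζ)
    (hi : i ∈ I5 g (nM n ζ) n Y c) : Real.log 2 * i ≤ Real.log 2 * n + 2 * ζ + 1 := by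
  have h1 := mem_range.1 (I5_sub _ _ _ _ _ hi)
  have hl : 0 < Real.log 2 := Real.log_pos (by norm_num)
  have hl1 : Real.log 2 ≤ 1 := by linarith [Real.log_two_lt_d9]
  unfold nM at h1
  have h2 : i ≤ n + ⌈2 * ζ / Real.log 2⌉₊ := Nat.lt_succ_iff.1 h1
  have h3 : (i : ℝ) ≤ n + ⌈2 * ζ / Real.log 2⌉₊ := by exact_mod_cast h2
  have h4 := (Nat.ceil_lt_add_one (a := 2 * ζ / Real.log 2) (by positivity)).le
  have h5 : (i : ℝ) ≤ n + (2 * ζ / Real.log 2 + 1) := by linarith
  have h6 := mul_le_mul_of_nonneg_left h5 hl.le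
  have e : Real.log 2 * (n + (2 * ζ / Real.log 2 + 1)) =
      Real.log 2 * n + 2 * ζ + Real.log 2 := by field_simp; ring
  linarith

lemma lev_k {q : Eis} (hq : IsPrim q) {i kk : ℕ} (h : kk ∈ LI (1 / 10) (Vb q i)) :
    (kk : ℝ) + Real.log (nm q) ≤ 2 + Real.log 2 * i := by
  obtain ⟨-, -, h3⟩ := mem_LI h
  have q0 : (0 : ℝ) < nm q := by linarith [one_le_nmR hq]
  unfold Vb at h3
  rw [← mul_div_assoc, le_div_iff₀ q0, ← Real.exp_add] at h3
  have h4 := Real.log_le_log (by positivity) h3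
  rw [Real.log_mul (Real.exp_pos _).ne' q0.ne', Real.log_exp, Real.log_exp] at h4
  have hl1 : Real.log 2 ≤ 1 := by linarith [Real.log_two_lt_d9]
  linarith

lemma map_get {P : DPar} {t₀ : Eis} (qs : List Pq) :
    qs.map (Pt P t₀) = List.ofFn fun i => Pt P t₀ (qs.get i) := by
  conv_lhs => rw [← List.ofFn_get qs]
  rw [List.map_ofFn]
  rfl

lemma LY_get {P : DPar} {t₀ : Eis} (qs : List Pq) :
    LY (fun i : Fin qs.length => Pt P t₀ (qs.get i)) = LN qs := by
  unfold LN GrC828.LY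
  conv_rhs => rw [← List.ofFn_get qs]
  rw [List.map_ofFn, List.sum_ofFn]
  exact sum_congr rfl fun i _ => Real.log_exp _

lemma LY_3 {P : DPar} {t₀ : Eis} (us : Fin 3 → Pq) :
    LY (fun i : Fin 3 => Pt P t₀ (us i)) = (us 0).z + (us 1).z + (us 2).z := by
  unfold GrC828.LY
  rw [Fin.sum_univ_three]
  congr 1
  · congr 1 <;> exact Real.log_exp _
  · exact Real.log_exp _

lemma sum3 {A f s1 s2 E D m' : ℝ} (hA : 0 ≤ A) (h1 : f + E + D ≤ m') (h2 : s1 + E + D ≤ m')
    (h3 : s2 + E + D ≤ m') : (Real.exp f + (Real.exp s1 + Real.exp s2)) * (A * Real.exp E) *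
      Real.exp D ≤ 3 * A * Real.exp m' := by
  have e1 := Real.exp_le_exp.2 h1
  have e2 := Real.exp_le_exp.2 h2
  have e3 := Real.exp_le_exp.2 h3
  have e : (Real.exp f + (Real.exp s1 + Real.exp s2)) * (A * Real.exp E) * Real.exp D =
      A * (Real.exp (f + E + D) + Real.exp (s1 + E + D) + Real.exp (s2 + E + D)) := by
    simp only [Real.exp_add]; ring
  rw [e]
  calc _ ≤ A * (3 * Real.exp m') := mul_le_mul_of_nonneg_left (by linarith) hA
    _ = _ := by ring

lemma prod1 {A a f E D n m' : ℝ} (hA : 0 ≤ A) (h1 : a + f + E + D + n ≤ m') :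
    3 * Real.exp a * Real.exp f * (A * Real.exp E) * Real.exp D * Real.exp n ≤
      3 * A * Real.exp m' := by
  have e : 3 * Real.exp a * Real.exp f * (A * Real.exp E) * Real.exp D * Real.exp n =
      3 * A * Real.exp (a + f + E + D + n) := by
    simp only [Real.exp_add]; ring
  rw [e]
  exact mul_le_mul_of_nonneg_left (Real.exp_le_exp.2 h1) (by positivity)

set_option maxHeartbeats 2000000 in
/-- **the lines of the classes of the mismatch, `T`-half** -/
theorem ltu_of {Λ : Type*} {π : Λ → DPar} {h : ℝ → ℝ} {c₀ : ℝ} (hpu : PU h c₀)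
    (hP : ∀ lam, (π lam).OK) {s : EF} {d A : ℝ}
    (h0 : ExpS0 s (ex Dq fun lam => S0p (π lam) h)) (hA : AllT d (ex Dq fun lam => S0p (π lam) h))
    (hd : 0 ≤ d) (hd1 : d ≤ 1 / 8) (hA1 : 16 * (1 - A) ≤ d) {ℓ : (Fin 5 → ℝ) → ℝ}
    (hℓ : Continuous ℓ) (hℓ0 : ∀ b ∈ P10146.D5, 0 ≤ ℓ b)
    (H : ClG (ex Dq fun lam => S0p (π lam) h) P10146.D5 TM708.T5 fun b v z₁ z₂ z₃ w =>
      eH (FEx436.kV (K5 b) v (z₁ + z₂ + z₃ + w)) v (z₁ + z₂ + z₃ + w) + ℓ b)
    {Rh : ℝ} (hRh0 : 0 ≤ Rh) (hRh : ∀ u, cx h u ≠ 0 → |u| ≤ Rh) {e0 : ℝ} (he0 : 0 ≤ e0)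
    (he1 : e0 ≤ 1 / 64) {L0 : (Fin 3 ⊕ Fin 5 → ℝ) → ℝ}
    (hL0 : ∀ p ∈ ParS A d, max 0 (5 / 4 * cN p - cκ p) + ℓ (bP p) ≤ L0 p) :
    LTU π h e0 (ParS A d) L0 := by
  intro ε hε
  have hT5 : Continuous TM708.T5 := TM708.T5_cont
  have hD4 : ∀ b ∈ P10146.D5, 0 ≤ b 4 := fun b hb => hb.1.x0
  obtain ⟨σ, hσ, G⟩ := FEx436.clm_V (π := π) (h := h) (d := d) hpu hP h0 hA K5_cont hT5
    D5_compact hD4 hℓ H (ε := ε / 8) (by positivity)
  set t₀ : ℝ := min (1 / 50000) (min (ε / 400) (σ / 20)) with ht₀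
  have ht0 : 0 < t₀ := by rw [ht₀]; positivity
  have ht1 : t₀ ≤ 1 / 50000 := min_le_left _ _
  have ht2 : t₀ ≤ ε / 400 := (min_le_right _ _).trans (min_le_left _ _)
  have ht3 : t₀ ≤ σ / 20 := (min_le_right _ _).trans (min_le_right _ _)
  refine ⟨t₀ / 20, by positivity, ?_⟩
  intro lam N B hB
  by_cases hSM : lam.2 ∈ SM (π lam.1).n
  swap
  · refine ⟨0, 0, fun cc hcc => ⟨2, by norm_num, fun X hX H hH p hp a qs F hok => ?_⟩⟩
    exact absurd hok.1.2.1 hSM
  obtain ⟨M, G⟩ := G lam.1 lam.2 hSM N (max B 10)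
  obtain ⟨C, r, hC, hr, T⟩ := GrG404.TPsm hpu hRh0 hRh (N + 3) (B₀ := 10) (by norm_num)
    (ε := ε / 8) (by positivity) (M := (M : ℝ)) (Nat.cast_nonneg _)
  obtain ⟨X₁, hX₁, G⟩ := G r hr
  refine ⟨(N + 3) * M, M, fun c hc => ?_⟩
  have hlc : 0 ≤ Real.log c := Real.log_nonneg hc
  have hc0 : 0 < c := by linarith
  set lc2 : ℝ := Real.log (2 * c) with hlc2
  have h2c : 2 * c = Real.exp lc2 := (Real.exp_log (by positivity)).symm
  have hlc2' : Real.log c ≤ lc2 := Real.log_le_log hc0 (by linarith)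
  set K₁ : ℝ := (N + 5) * r + lc2 + 10 with hK₁
  have hK₁0 : 0 < K₁ := by
    have : 0 ≤ (N + 5 : ℝ) * r := by positivity
    linarith
  set Ct : ℝ := (2 + 24 / ε) * (3 * C) with hCt
  have hCt0 : 0 < Ct := by positivity
  set L₀ : ℝ := max (100 * K₁ / t₀) (8 / ε * Real.log Ct) with hL₀
  refine ⟨max (max X₁ 3) (Real.exp L₀), lt_of_lt_of_le (by norm_num)
    ((le_max_right X₁ (3 : ℝ)).trans (le_max_left _ _)), ?_⟩
  intro X hX Ht hHt p hp a qs F hok c5 i b s5 hi hb
  have hXX : X₁ ≤ X := ((le_max_left _ _).trans (le_max_left _ _)).trans hX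
  have hX3 : 3 ≤ X := ((le_max_right _ _).trans (le_max_left _ _)).trans hX
  have hX1 : 1 ≤ X := by linarith
  have hX0 : 0 < X := by linarith
  set L := Real.log X with hL
  have hLL : L₀ ≤ L := (Real.le_log_iff_exp_le hX0).2 ((le_max_right _ _).trans hX)
  have hL0' : 0 < L := F.L
  set t : ℝ := t₀ * L with ht
  have htp : 0 < t := by positivity
  have htK : 100 * K₁ ≤ t := by
    have h1 := (le_max_left _ _).trans hLL
    rw [div_le_iff₀ ht0] at h1
    linarith
  have htt : (t₀ / 20) * L = t / 20 := by rw [ht]; ring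
  have htL : t ≤ L / 50000 := by
    have := mul_le_mul_of_nonneg_right ht1 hL0'.le
    rw [ht]; linarith
  have htσ : 20 * t ≤ σ * L := by
    have := mul_le_mul_of_nonneg_right ht3 hL0'.le
    rw [ht]; linarith
  have htε : 400 * t ≤ ε * L := by
    have := mul_le_mul_of_nonneg_right ht2 hL0'.le
    rw [ht]; linarith
  have hNr : 0 ≤ (N + 5 : ℝ) * r := by positivity
  have ht100 : 100 ≤ t := by linarith
  have hlc2t : 100 * lc2 ≤ t := by linarith
  have hrt : 100 * r ≤ t := by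
    have : r ≤ (N + 5 : ℝ) * r := by
      have : (0 : ℝ) ≤ N := Nat.cast_nonneg _
      nlinarith
    linarith
  have hNrt : 100 * (N * r) ≤ t := by
    have : (N : ℝ) * r ≤ (N + 5 : ℝ) * r := by nlinarith
    linarith
  -- the data
  obtain ⟨hokC, hgp, hgsq, hζ0, hsup, hgS⟩ := hok
  set l := a.1.1.l with hl
  set g := a.2.1 with hg
  set ζ := a.2.2 with hζd
  have hbp : IsPrim b := isPrim_of_mem_dvs hb
  have hbg : b ∣ g := dvd_of_mem_dvs hb
  obtain ⟨q, hq⟩ := hbg
  have hqp : IsPrim q := by rw [hq] at hgp; exact hgp.of_mul_left hbp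
  have hgq : g / b = q := by rw [hq, mul_div_cancel_left₀ _ hbp.ne_zero]
  have g1 := one_le_nmR hgp
  have b1 := one_le_nmR hbp
  have q1 := one_le_nmR hqp
  have hγ : Real.log (nm g) = Real.log (nm b) + Real.log (nm q) := by
    rw [← Real.log_mul (by linarith) (by linarith), hq, nm_mul]
    push_cast; rfl
  have hβ0 : 0 ≤ Real.log (nm b) := Real.log_nonneg b1
  have hq0 : 0 ≤ Real.log (nm q) := Real.log_nonneg q1
  obtain ⟨f1, f1', f2, f3, f4, f5, f6, f7, f8, f9⟩ := sq_facts hd hd1 hA1 hp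
  set Sl := LN (cl a.1 qs) with hSl
  have Fl := F.l
  have FA := F.A
  have Fz := F.z
  have Fζ := F.ζ
  rw [htt] at Fl FA Fz Fζ
  obtain ⟨l1, l2⟩ := abs_le.1 Fl
  obtain ⟨a1, a2⟩ := abs_le.1 FA
  obtain ⟨z1, z2⟩ := abs_le.1 Fz
  obtain ⟨ζ1, ζ2⟩ := abs_le.1 Fζ
  have Fn := F.n1
  have hlog2 : Real.log 2 ≤ 1 := by linarith [Real.log_two_lt_d9]
  obtain ⟨k1, k3, k4, k5, k6⟩ := sqL hL0' f1 f6 f7 f8 f9
  have kL : cκ p * L ≤ L := by nlinarith
  have hTf : ∀ kk ∈ LI (1 / 10) (Vb (g / b) i), Tf (cκ p * L) (cN p * L) (cx' p * L)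
      (max 0 (5 / 4 * cN p - cκ p) * L) ((kk : ℝ) + Real.log (nm q))
      (Sl - 2 * Real.log (nm g)) t := by
    intro kk hkk
    rw [hgq] at hkk
    have h1 := lev_i hζ0 hi
    have h2 := lev_k hqp hkk
    refine tf_core (a := a3 a.1.1) (z := a.1.1.z) (ζ := ζ) (τ := t₀ / 20)
      (q := Real.log 2 * nO a.1.1) (i := Real.log 2 * i) hL0' f1 f6 f7 f8 f9 F.l F.A F.z F.ζ
      F.g0 F.lo F.up ?_ h1 h2 (by rw [htt]; linarith) htL ht100
    exact Fn.trans (by show _ ≤ max 0 (Sf770.tO a.1.1) + 1; linarith)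
  set k := cκ p * L with hk
  set Nn := cN p * L with hNn
  set x := cx' p * L with hx
  set ex' := max 0 (5 / 4 * cN p - cκ p) * L with hex
  set p' := Sl - 2 * Real.log (nm g) with hp'
  set lo := L * ℓ (bP p) with hlo
  have lo0 : 0 ≤ lo := mul_nonneg hL0'.le (hℓ0 _ (bP_mem hd hd1 hA1 hp))
  have ex0 : 0 ≤ ex' := mul_nonneg (le_max_left _ _) hL0'.le
  -- bounds
  have hL1 : 100 ≤ L := by linarith
  have hxk : x ≤ k / 36 := by rcases k6 with h | ⟨h, -, -⟩ <;> linarith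
  have hl0 : 0 ≤ l := by linarith
  have hXp : ∀ y : ℝ, y ≤ 10 * L → Real.exp y ≤ X ^ (10 : ℝ) := by
    intro y hy
    rw [Real.rpow_def_of_pos hX0, Real.exp_le_exp]
    linarith
  have hqs1 := F.qs1
  rw [htt] at hqs1
  have hg1 := F.g1
  rw [htt] at hg1
  have hγL : Real.log (nm g) ≤ L := by linarith
  have hζL : ζ ≤ x + t / 20 := by linarith
  have hel : e0 * l + ζ ≤ k / 64 + x + 2 * (t / 20) := by
    have : e0 * l ≤ 1 / 64 * l := mul_le_mul_of_nonneg_right he1 hl0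
    linarith
  have hex2 : ex' = max 0 (5 / 4 * Nn - k) := by
    rw [hex, max_mul_of_nonneg _ _ hL0'.le, zero_mul]
    congr 1
    rw [hNn, hk]; ring
  set lHp : ℝ := 4 / 3 * (Sl - 2 * Real.log (nm g)) + 2 / 3 * ζ - l -
    3 * max 0 (5 / 4 * a3 a.1.1 - l) with hlHp
  have hHp0 : HpM a qs = Real.exp lHp := rfl
  have hHlo : 4 / 3 * p' + 2 / 3 * x - k - 3 * ex' - t ≤ lHp := by
    have h1 : max 0 (5 / 4 * a3 a.1.1 - l) ≤ ex' + t / 8 := by
      rw [hex2]
      refine max_le ?_ ?_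
      · have := le_max_left 0 (5 / 4 * Nn - k)
        linarith
      · have := le_max_right 0 (5 / 4 * Nn - k)
        linarith
    rw [hlHp]
    linarith
  have hHup : lHp ≤ 4 / 3 * p' + 2 / 3 * x - k - 3 * ex' + t := by
    have h1 : ex' ≤ max 0 (5 / 4 * a3 a.1.1 - l) + t / 8 := by
      rw [hex2]
      refine max_le ?_ ?_
      · have := le_max_left 0 (5 / 4 * a3 a.1.1 - l)
        linarith
      · have := le_max_right 0 (5 / 4 * a3 a.1.1 - l)
        linarith
    rw [hlHp]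
    linarith
  have hXw : XwM a qs b = Real.exp (p' + Real.log (nm q)) := by
    have e1 : LN qs + LN (List.ofFn a.1.2) = Sl := by
      rw [hSl]
      unfold P10146.cl LN
      rw [List.map_append, List.sum_append, add_comm]
    unfold XwM
    rw [e1]
    have e2 : (nm a.2.1 * nm b : ℝ) = Real.exp (Real.log (nm g) + Real.log (nm b)) := by
      rw [Real.exp_add, Real.exp_log (by linarith), Real.exp_log (by linarith)]
    rw [e2, ← Real.exp_sub]
    congr 1
    rw [hp']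
    linarith
  have hE0 : E0M e0 a = Real.exp (e0 * l + ζ) := by
    unfold E0M
    rw [Real.exp_add]
  have hEs : ∀ e ∈ S (E0M e0 a), IsPrim e ∧ (nm e : ℝ) ≤ Real.exp (k / 64 + x + 2 * (t / 20)) := by
    intro e he
    rw [hE0] at he
    obtain ⟨h1, h2, -⟩ := (mem_S (Real.exp_pos _).le).1 he
    exact ⟨h2, h1.trans (Real.exp_le_exp.2 hel)⟩
  -- the numbers
  set A₀ : ℝ := Ht ^ M * X ^ (ε / 8) with hA₀
  have hA₀0 : 0 < A₀ := by positivity
  set w₀ : ℝ := k / 64 + x with hw₀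
  set m' : ℝ := k + p' + ex' + lo + 20 * t + (p' + Real.log (nm q)) / 3 with hm'
  set m : ℝ := Real.log (3 * A₀) + m' with hm
  have hexpm : Real.exp m = 3 * A₀ * Real.exp m' := by
    rw [hm, Real.exp_add, Real.exp_log (by positivity)]
  have hPD : PD X (σ / 2) (max B 10) Ht N (bP p) 1 a.1.2 (List.ofFn qs.get) l := by
    rw [List.ofFn_get]
    refine PD_monoB hX1 (le_max_left _ _) (PD_mono' hL0'.le ?_ F.pd)
    have : t₀ / 20 * 20 ≤ σ / 20 := by linarith
    linarith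
  -- one level
  have key : ∀ kk ∈ LI (1 / 10) (Vb (g / b) i),
      ∑ d' ∈ (JB (Real.sqrt (Vb (g / b) i))).image Prod.fst, ∑ e ∈ S (E0M e0 a),
        (nm e : ℝ)⁻¹ * LVn (fun d e => afM π h e0 lam a qs c5 b s5 e d) {d'} {e} c (X ^ 30)
          (Real.exp l) (HmM a qs b c kk d' e) (Real.exp kk) (Real.exp kk)
          (Real.exp (l / 20)) 1 1 0 ≤
        C * X ^ (ε / 8) * (1 + |s5|) ^ ((N + 3) * M) *
          (3 * A₀ * Real.exp (k + p' + ex' + lo + 20 * t)) := by
    intro kk hkk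
    have TF := hTf kk hkk
    obtain ⟨k0, x0, N1, adm, ex0', ex1, v1, v2, p0, p1, tt0, tt1⟩ := id TF
    set v : ℝ := (kk : ℝ) + Real.log (nm q) with hv
    classical
    set Ds := ((JB (Real.sqrt (Vb (g / b) i))).image Prod.fst).filter
      fun d' => IsCoprime d' g ∧ (nm d' : ℝ) ^ 2 ≤ c * Real.exp kk with hDs
    have himp : ∀ d' ∈ (JB (Real.sqrt (Vb (g / b) i))).image Prod.fst, IsPrim d' := by
      intro d' hd'
      obtain ⟨y, hy, rfl⟩ := mem_image.1 hd'
      exact ((StG828.mem_JB (Real.sqrt_nonneg _)).1 hy).1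
    have hfil : ∑ d' ∈ (JB (Real.sqrt (Vb (g / b) i))).image Prod.fst, ∑ e ∈ S (E0M e0 a),
        (nm e : ℝ)⁻¹ * LVn (fun d e => afM π h e0 lam a qs c5 b s5 e d) {d'} {e} c (X ^ 30)
          (Real.exp l) (HmM a qs b c kk d' e) (Real.exp kk) (Real.exp kk)
          (Real.exp (l / 20)) 1 1 0 = ∑ d' ∈ Ds, ∑ e ∈ S (E0M e0 a),
        (nm e : ℝ)⁻¹ * LVn (fun d e => afM π h e0 lam a qs c5 b s5 e d) {d'} {e} c (X ^ 30)
          (Real.exp l) (HmM a qs b c kk d' e) (Real.exp kk) (Real.exp kk)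
          (Real.exp (l / 20)) 1 1 0 := by
      symm
      refine sum_subset (filter_subset _ _) fun d' hd' hn => ?_
      refine sum_eq_zero fun e he => ?_
      rw [mul_eq_zero]
      right
      by_cases hco : IsCoprime d' g
      · refine LVn_zero2 (himp d' hd') ?_ _ _ _ _ _ _ _
        by_contra h3
        exact hn (mem_filter.2 ⟨hd', hco, not_lt.1 h3⟩)
      · refine LVn_zero1 (fun m => ?_) _ _ _ _ _ _ _ _ _
        by_contra h3
        exact hco (Mm828.afrb_ne h3).1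
    rw [hfil]
    have hDd : ∀ d' ∈ Ds, IsPrim d' ∧ IsCoprime d' g ∧ (nm d' : ℝ) ^ 2 ≤ c * Real.exp kk ∧
        0 ≤ Real.log (nm d') ∧ 2 * Real.log (nm d') ≤ v + t ∧
        (nm d' : ℝ) = Real.exp (Real.log (nm d')) := by
      intro d' hd'
      obtain ⟨h1, h2, h3⟩ := mem_filter.1 hd'
      have d1 := one_le_nmR (himp d' h1)
      have h4 := Real.log_le_log (by positivity) h3
      rw [Real.log_pow, Real.log_mul hc0.ne' (Real.exp_pos _).ne', Real.log_exp] at h4
      push_cast at h4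
      exact ⟨himp d' h1, h2, h3, Real.log_nonneg d1, by linarith,
        (Real.exp_log (by linarith)).symm⟩
    have hvL : v ≤ L := by linarith
    have hcc : ∀ d' ∈ Ds, cc g (b * d') = q := fun d' hd' => by
      rw [cc_eq hgp hbp ⟨q, hq⟩ (hDd d' hd').2.1, hgq]
    set Bf : Eis → ℕ → ℝ → ℝ := fun d' b' k' => A₀ *
      Real.exp (fT (k + ex') (min (b' : ℝ) w₀) (k' + min (b' : ℝ) w₀)
        (p' - Real.log (nm d') - min (b' : ℝ) w₀) x + lo + 3 * t) with hBf
    set Φc : ℝ := Real.exp (-l / 3 + 2 / 3 * kk + l / 10) + Real.exp (2 / 3 * kk + l / 20) with hΦc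
    set ff : Eis → ℕ → ℝ := fun d' b' =>
      fF l lHp kk lc2 (t / 20) (D0M a) w₀ (Real.log (nm d')) b' with hff
    have hlev : ∀ d' ∈ Ds, Real.log (c * Real.exp kk / (nm d' : ℝ) ^ 2) +
        Real.log (nm (cc g (b * d'))) =
        Real.log c + kk - 2 * Real.log (nm d') + Real.log (nm q) := by
      intro d' hd'
      have d0 : (0 : ℝ) < nm d' := by linarith [one_le_nmR (hDd d' hd').1]
      rw [hcc d' hd', Real.log_div (by positivity) (by positivity),
        Real.log_mul hc0.ne' (Real.exp_pos _).ne', Real.log_exp, Real.log_pow]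
      push_cast; ring
    have hfl : ∀ d' ∈ Ds, ∀ (b' : ℕ) (n : ℝ), 0 ≤ n →
        ff d' b' + fT (k + ex') (min (b' : ℝ) w₀) (Real.log c + kk - 2 * Real.log (nm d') +
          Real.log (nm q) - 3 * n + min (b' : ℝ) w₀) (p' - Real.log (nm d') - min (b' : ℝ) w₀) x +
          6 * t + 2 * Real.log (nm d') + n ≤
        k + p' + ex' + 20 * t + (p' + Real.log (nm q)) / 3 := by
      intro d' hd' b' n hn
      obtain ⟨e1, e2, e3, e4, e5, e6⟩ := hDd d' hd'
      exact fF_line TF rfl hq0 e4 e5 (Nat.cast_nonneg _) (by positivity) (by linarith)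
        (by linarith) (by linarith) hHlo (by linarith) (by linarith) hn ht100 rfl
    have hHm : ∀ d' e, HmM a qs b c kk d' e =
        Hm (Real.exp lHp) (D0M a) q (Real.exp l) (XwM a qs b) c kk d' e := by
      intro d' e
      show Hm (HpM a qs) (D0M a) (g / b) (Real.exp l) (XwM a qs b) c kk d' e = _
      rw [hgq, hHp0]
    have hHpos : ∀ d' ∈ Ds, ∀ e ∈ S (E0M e0 a), 0 < HmM a qs b c kk d' e := by
      intro d' hd' e he
      rw [hHm]
      exact Hm_pos (Real.exp_pos _).le hqp (Real.exp_pos _) (by rw [hXw]; exact Real.exp_pos _)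
        hc0 kk d' e
    have hη : ∀ d' ∈ Ds, ∀ e ∈ S (E0M e0 a), ∀ b' : ℕ,
        Real.log (nm (lc (cc g (b * d')) e / cc g (b * d'))) ≤ b' + 1 →
        ∃ η : ℝ, HmM a qs b c kk d' e = Real.exp η ∧ 2 / 3 * l - (η + kk) / 3 ≤ ff d' b' ∧
          2 * η + 3 * kk - 2 * l ≤ 3 * t := by
      intro d' hd' e he b' hub
      rw [hcc d' hd'] at hub
      obtain ⟨e1, e2, e3, e4, e5, e6⟩ := hDd d' hd'
      rw [hHm]
      refine Hm_fF hqp e1 (hEs e he).1 (by positivity) htp.le hub (hEs e he).2 h2c hc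
        (fun _ => ?_) e3 fun u hu => ?_
      · rw [hXw, e6]
        refine Real.exp_le_exp.2 ?_
        have := ln_w TF (by rcases k6 with h | ⟨h, -, -⟩
                            · exact Or.inl h
                            · exact Or.inr (by linarith)) e5
        linarith
      · exact ln_c (τ := t / 20) TF rfl hq0 e4 (by linarith) (by linarith) hu hHup
    have hdom₀ : ∀ d' ∈ Ds, ∀ e ∈ S (E0M e0 a), ∀ b' : ℕ,
        Real.log (nm (lc (cc g (b * d')) e / cc g (b * d'))) ≤ b' + 1 →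
        (nm e : ℝ)⁻¹ * (FH (Real.exp l) (HmM a qs b c kk d' e) (Real.exp kk) *
          cLS (Real.exp l) (HmM a qs b c kk d' e) (Real.exp kk) (Real.exp kk)
            (Real.exp (l / 20)) 1 1) * nm e ≤ Real.exp (ff d' b') + Φc := by
      intro d' hd' e he b' hub
      obtain ⟨η, h1, h2, h3⟩ := hη d' hd' e he b' hub
      have e0' : (nm e : ℝ) ≠ 0 := by linarith [one_le_nmR (hEs e he).1]
      rw [h1, FcLS_exp, mul_comm (nm e : ℝ)⁻¹, inv_mul_cancel_right₀ e0']
      have := Real.exp_le_exp.2 h2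
      linarith
    have hdom₁ : ∀ d' ∈ Ds, ∀ e ∈ S (E0M e0 a), ∀ b' : ℕ,
        Real.log (nm (lc (cc g (b * d')) e / cc g (b * d'))) ≤ b' + 1 →
        (nm e : ℝ)⁻¹ * (FH (Real.exp l) (HmM a qs b c kk d' e) (Real.exp kk) *
          cTT (Real.exp l) (HmM a qs b c kk d' e) (Real.exp kk)) * nm e ≤
          3 * Real.exp (3 * t) * Real.exp (ff d' b') := by
      intro d' hd' e he b' hub
      obtain ⟨η, h1, h2, h3⟩ := hη d' hd' e he b' hub
      have e0' : (nm e : ℝ) ≠ 0 := by linarith [one_le_nmR (hEs e he).1]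
      rw [h1, FH_exp, mul_comm (nm e : ℝ)⁻¹, inv_mul_cancel_right₀ e0', mul_comm]
      exact mul_le_mul (cTT_exp (by positivity) h3) (Real.exp_le_exp.2 h2) (Real.exp_pos _).le
        (by positivity)
    have hcLS : ∀ d' ∈ Ds, ∀ e ∈ S (E0M e0 a), 0 ≤ cLS (Real.exp l) (HmM a qs b c kk d' e)
        (Real.exp kk) (Real.exp kk) (Real.exp (l / 20)) 1 1 := by
      intro d' hd' e he
      have := hHpos d' hd' e he
      unfold E3N146.cLS
      positivity
    have hw0 : 0 ≤ w₀ := by linarith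
    have hsq : ∀ d' ∈ Ds, (nm d' : ℝ) ^ 2 = Real.exp (2 * Real.log (nm d')) := by
      intro d' hd'
      obtain ⟨e1, e2, e3, e4, e5, e6⟩ := hDd d' hd'
      have : Real.exp (2 * Real.log (nm d')) = Real.exp (Real.log (nm d')) ^ 2 := by
        rw [← Real.exp_nat_mul]; push_cast; rfl
      rw [this, ← e6]
    have hla : ∀ d' ∈ Ds, (nm d' : ℝ) ^ 2 ≤ c * Real.exp kk → ∀ b' : ℕ,
        (b' : ℝ) ≤ 4 * 10 * Real.log X →
        (Real.exp (ff d' b') + Φc) * Bf d' b' (Real.log (c * Real.exp kk / (nm d' : ℝ) ^ 2) +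
          Real.log (nm (cc g (b * d')))) * (nm d' : ℝ) ^ 2 ≤ Real.exp m := by
      intro d' hd' hW b' hb'
      obtain ⟨e1, e2, e3, e4, e5, e6⟩ := hDd d' hd'
      rw [hlev d' hd', hexpm, hsq d' hd']
      have m0 : 0 ≤ min (b' : ℝ) w₀ := le_min (Nat.cast_nonneg _) hw0
      have m1 : min (b' : ℝ) w₀ ≤ k / 64 + x := min_le_right _ _
      have E0 := hfl d' hd' b' 0 le_rfl
      have E1 := ln_L (τ := t / 20) (l := l) (lcc := Real.log c) (kk := kk)
        (lg := Real.log (nm q)) TF rfl hq0 e4 m0 m1 (by positivity) (by linarith) (by linarith)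
        (by linarith) (by linarith) ht100
      have E2 := ln_S (τ := t / 20) (l := l) (lcc := Real.log c) (kk := kk)
        (lg := Real.log (nm q)) TF rfl hq0 e4 m0 m1 (by positivity) (by linarith)
        (by linarith) (by linarith) ht100
      rw [mul_zero, sub_zero] at E0
      rw [hΦc]
      exact sum3 hA₀0.le (by rw [hm']; linarith) (by rw [hm']; linarith) (by rw [hm']; linarith)
    have hlb : ∀ d' ∈ Ds, ∀ (b' : ℕ) (n : ℝ), (b' : ℝ) ≤ 4 * 10 * Real.log X → 0 ≤ n →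
        (nm d' : ℝ) ^ 2 ≤ c * Real.exp kk →
        3 * n ≤ Real.log (c * Real.exp kk / (nm d' : ℝ) ^ 2) →
        3 * Real.exp (3 * t) * Real.exp (ff d' b') * Bf d' b'
          (Real.log (c * Real.exp kk / (nm d' : ℝ) ^ 2) + Real.log (nm (cc g (b * d'))) - 3 * n) *
          (nm d' : ℝ) ^ 2 * Real.exp n ≤ Real.exp m := by
      intro d' hd' b' n hb' hn hW hn3
      obtain ⟨e1, e2, e3, e4, e5, e6⟩ := hDd d' hd'
      rw [hlev d' hd', hexpm, hsq d' hd']
      have E0 := hfl d' hd' b' n hn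
      exact prod1 hA₀0.le (by rw [hm']; linarith)
    have hXm : X ^ (10 : ℝ) ≤ X ^ (max B 10) :=
      Real.rpow_le_rpow_of_exponent_le hX1 (le_max_right _ _)
    have hs1 : LY (fun j : Fin qs.length => Pt (π lam.1) lam.2 (qs.get j)) = LN qs := LY_get qs
    have hs2 : LY (fun j : Fin 3 => Pt (π lam.1) lam.2 (a.1.2 j)) =
        (a.1.2 0).z + (a.1.2 1).z + (a.1.2 2).z := LY_3 a.1.2
    have hScl : Sl = (a.1.2 0).z + (a.1.2 1).z + (a.1.2 2).z + LN qs := F.cl
    have hK5 : L * K5 (bP p) = k + ex' := by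
      show L * max (cκ p) (5 / 4 * (cu p 2 + cu p 3 + cu p 4)) = k + ex'
      rw [hex2, mul_max_of_nonneg _ _ hL0'.le, ← max_add_add_left, add_zero]
      have e1 : L * cκ p = k := by rw [hk]; ring
      have e2 : L * (5 / 4 * (cu p 2 + cu p 3 + cu p 4)) = k + (5 / 4 * Nn - k) := by
        rw [hNn]
        show _ = k + (5 / 4 * ((cu p 2 + cu p 3 + cu p 4) * L) - k)
        ring
      rw [e1, e2]
    have hT5v : v ≤ TM708.T5 (bP p) * L + t := by
      show v ≤ (min (2 * (cu p 2 + cu p 3 + cu p 4) - cκ p) (3 / 4 * (cu p 2 + cu p 3 + cu p 4)) +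
        5 * cx' p) * L + t
      rw [add_mul, min_mul_of_nonneg _ _ hL0'.le]
      have e1 : (2 * (cu p 2 + cu p 3 + cu p 4) - cκ p) * L = 2 * Nn - k := by
        rw [hNn, hk]
        show _ = 2 * ((cu p 2 + cu p 3 + cu p 4) * L) - cκ p * L
        ring
      have e2 : 3 / 4 * (cu p 2 + cu p 3 + cu p 4) * L = 3 / 4 * Nn := by
        rw [hNn]
        show _ = 3 / 4 * ((cu p 2 + cu p 3 + cu p 4) * L)
        ring
      have e3 : 5 * cx' p * L = 5 * x := by rw [hx]; ring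
      rw [e1, e2, e3]
      have : v - t - 5 * x ≤ min (2 * Nn - k) (3 / 4 * Nn) := le_min (by linarith) (by linarith)
      linarith
    have hsumb : (bP p 1 + bP p 2 + bP p 3 + bP p 4) * L = Nn + x := by
      show (cu p 2 + cu p 3 + cu p 4 + cx' p) * L = Nn + x
      rw [hNn, hx]
      show _ = (cu p 2 + cu p 3 + cu p 4) * L + _
      ring
    have hcl : ∀ d' ∈ Ds, ∀ (b' : ℕ) (k' l' : ℝ) (s' : Fin qs.length ⊕ Fin 3 → Pc),
        (b' : ℝ) ≤ 4 * 10 * Real.log X → 0 ≤ k' →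
        k' ≤ Real.log (c * Real.exp kk / (nm d' : ℝ) ^ 2) + Real.log (nm (cc g (b * d'))) →
        0 ≤ l' → ChF r s' (Sum.elim (fun j => Pt (π lam.1) lam.2 (qs.get j))
          (fun j => Pt (π lam.1) lam.2 (a.1.2 j))) →
        |LY s' - (LY (fun j : Fin qs.length => Pt (π lam.1) lam.2 (qs.get j)) +
          LY (fun j : Fin 3 => Pt (π lam.1) lam.2 (a.1.2 j)) - Real.log (nm g) -
          Real.log (nm (b * d') * nm (cc g (b * d'))) - b')| ≤ r →
        |l' - (k' + b')| ≤ r →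
        LY (fun j : Fin qs.length => Pt (π lam.1) lam.2 (qs.get j)) - Real.log (nm g) -
          min (GrG404.y5 (Real.exp ζ) g c5) (Real.log (nm (b * d'))) - b' - r ≤
            LY (fun i => s' (.inl i)) →
        VF (Real.exp l') (sqc (b * d' * cc g (b * d')) (al h s')) ≤
          Bf d' b' k' * cF s' (Sum.elim (fun j => Pt (π lam.1) lam.2 (qs.get j))
            (fun j => Pt (π lam.1) lam.2 (a.1.2 j))) ^ (M : ℝ) := by
      intro d' hd' b' k' l' s' hb' hk0 hk' hl0' hF hLY hlk _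
      obtain ⟨e1, e2, e3, e4, e5, e6⟩ := hDd d' hd'
      rw [hlev d' hd'] at hk'
      have d0 : (0 : ℝ) < nm d' := by linarith [one_le_nmR e1]
      have hlg : Real.log (nm (b * d') * nm (cc g (b * d'))) =
          Real.log (nm g) + Real.log (nm d') := by
        rw [hcc d' hd', nm_mul]
        push_cast
        rw [Real.log_mul (by positivity) (by linarith), Real.log_mul (by linarith) d0.ne', hγ]
        ring
      rw [hs1, hs2, hlg] at hLY
      obtain ⟨y1, y2⟩ := abs_le.1 hLY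
      obtain ⟨y3, y4⟩ := abs_le.1 hlk
      have hn : LY s' ≤ p' - Real.log (nm d') - b' + r := by
        rw [hp', hScl]; linarith
      have hgm : IsPrim (b * d' * cc g (b * d')) := by
        rw [hcc d' hd']; exact (hbp.mul e1).mul hqp
      have hgX : (nm (b * d' * cc g (b * d')) : ℝ) ≤ X ^ (max B 10) := by
        refine le_trans ?_ hXm
        rw [hcc d' hd', nm_mul, nm_mul]
        push_cast
        rw [e6, ← Real.exp_log (show (0 : ℝ) < nm b by linarith),
          ← Real.exp_log (show (0 : ℝ) < nm q by linarith), ← Real.exp_add, ← Real.exp_add]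
        refine hXp _ ?_
        linarith
      have hlevp : l' + LY s' ≤ (TM708.T5 (bP p) + (bP p 1 + bP p 2 + bP p 3 + bP p 4) + σ / 2) *
          Real.log X := by
        rw [← hL, add_mul, add_mul, hsumb]
        linarith
      have hGG := G X hXX (bP p) (bP_mem hd hd1 hA1 hp) qs.length a.1.2 qs.get l Ht hPD
        (b * d' * cc g (b * d')) hgm hgX l' s' hl0' hF hlevp
        (fT (k + ex') (min (b' : ℝ) w₀) (k' + min (b' : ℝ) w₀)
          (p' - Real.log (nm d') - min (b' : ℝ) w₀) x + lo + 3 * t) ?_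
      · refine hGG.trans (le_of_eq ?_)
        show _ = A₀ * Real.exp _ * cF s' (P1l54.fam (π lam.1) lam.2 qs.get a.1.2) ^ (M : ℝ)
        rw [hA₀]
        ring
      · intro y₁ y₂ y₃ w j1 j2 j3 j4 j5 j6 j7 j8 j9 j10
        rw [← hL, hK5]
        unfold FEx436.NV
        have hkv := kV_le (l := l') (n := LY s') TF (by
          rcases k6 with h | ⟨h1, h2, h3⟩
          · exact Or.inl h
          · exact Or.inr ⟨by linarith, by linarith, by linarith⟩) (by linarith)
        have hN0 : (0 : ℝ) ≤ b' := Nat.cast_nonneg _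
        have hwx : w ≤ x + t := by
          rw [List.ofFn_get] at j8
          linarith
        refine (nv_le (K5 := k + ex') (b := b') (l := k' + b')
          (n := p' - Real.log (nm d') - b') (x := x) (t := t) htp.le lo0
          (by show max (k + ex') (5 / 7 * (l' + LY s')) ≤ _; linarith) (by linarith) j9
          (by linarith) j1 j2 j3 j4 hwx).trans ?_
        have := fT_anti (K5 := k + ex') (l₀ := k') (n₀ := p' - Real.log (nm d')) (x := x)
          (min_le_left (b' : ℝ) w₀)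
        linarith
    have hΦ₀ : ∀ (d' : Eis) (b' : ℕ), 0 ≤ Real.exp (ff d' b') + Φc := fun _ _ => by
      have : 0 ≤ Φc := by rw [hΦc]; positivity
      positivity
    have hcard : Fintype.card (Fin qs.length) + Fintype.card (Fin 3) ≤ N + 3 := by
      rw [Fintype.card_fin, Fintype.card_fin]
      exact Nat.add_le_add_right F.pd.len 3
    have h1X : ∀ j : Fin qs.length, Real.log (Pt (π lam.1) lam.2 (qs.get j)).Y ≤ Real.log X := by
      intro j
      have h1 : Real.log (Pt (π lam.1) lam.2 (qs.get j)).Y = (qs.get j).z := Real.log_exp _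
      have h2 := (F.pd.am _ (List.get_mem qs j)).2.2.1
      rw [htt] at h2
      rw [h1, ← hL]
      linarith
    have hup2 : Sl ≤ Nn + x + t / 20 := by
      have hup := F.up
      rw [htt] at hup
      rw [hNn, hx]
      linarith
    have h2X : ∀ j : Fin 3, Real.log (Pt (π lam.1) lam.2 (a.1.2 j)).Y ≤ Real.log X := by
      intro j
      have h1 : Real.log (Pt (π lam.1) lam.2 (a.1.2 j)).Y = (a.1.2 j).z := Real.log_exp _
      rw [h1, ← hL]
      have u0 := F.pd.us0 0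
      have u1 := F.pd.us0 1
      have u2 := F.pd.us0 2
      have u3 := F.qs0
      have h3 : (a.1.2 j).z ≤ (a.1.2 0).z + (a.1.2 1).z + (a.1.2 2).z := by
        fin_cases j
        · show (a.1.2 0).z ≤ _; linarith
        · show (a.1.2 1).z ≤ _; linarith
        · show (a.1.2 2).z ≤ _; linarith
      linarith
    have hηC : ηC π h lam qs = sqc 1 (al h fun j => Pt (π lam.1) lam.2 (qs.get j)) := by
      unfold ηC
      rw [map_get, ← HP842.al_eq]
    have hαC : αC π h lam a = sqc 1 (al h fun j => Pt (π lam.1) lam.2 (a.1.2 j)) := by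
      unfold αC
      rw [List.map_ofFn, ← HP842.al_eq]
      rfl
    have hsup' : ∀ n, sqc 1 (al h fun j => Pt (π lam.1) lam.2 (qs.get j)) n ≠ 0 →
        (nm n : ℝ) ≤ Real.exp ζ := by
      intro n hn
      rw [← hηC] at hn
      exact hsup n hn
    have hgX10 : (nm g : ℝ) ≤ X ^ (10 : ℝ) := by
      have := hXp (Real.log (nm g)) (by linarith)
      rwa [Real.exp_log (by linarith)] at this
    have hDsX : ∀ d' ∈ Ds, IsPrim d' ∧ (nm (b * d') : ℝ) ≤ X ^ (10 : ℝ) := by
      intro d' hd'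
      obtain ⟨e1, e2, e3, e4, e5, e6⟩ := hDd d' hd'
      refine ⟨e1, ?_⟩
      rw [nm_mul]
      push_cast
      rw [e6, ← Real.exp_log (show (0 : ℝ) < nm b by linarith), ← Real.exp_add]
      refine hXp _ ?_
      linarith
    have hEsX : ∀ e ∈ S (E0M e0 a), IsPrim e ∧ (nm e : ℝ) ≤ X ^ (10 : ℝ) := fun e he =>
      ⟨(hEs e he).1, (hEs e he).2.trans (hXp _ (by linarith))⟩
    have hcVX : c * Real.exp kk ≤ X ^ (10 : ℝ) := by
      have e1 : c * Real.exp kk = Real.exp (Real.log c + kk) := by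
        rw [Real.exp_add, Real.exp_log hc0]
      rw [e1]
      exact hXp _ (by linarith)
    have hafM : ∀ e d, afM π h e0 lam a qs c5 b s5 e d =
        afrb (gt5 (Real.exp (e0 * l)) (Real.exp ζ) g c5) (q5 g c5) (Real.exp ζ)
          (sqc 1 (al h fun j => Pt (π lam.1) lam.2 (qs.get j)))
          (sqc 1 (al h fun j => Pt (π lam.1) lam.2 (a.1.2 j))) g b s5 e d := by
      intro e d
      unfold afM
      rw [hηC, hαC]
    have hTT : ∑ d ∈ Ds, ∑ e ∈ S (E0M e0 a), (nm e : ℝ)⁻¹ *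
        LVn (fun d e => afM π h e0 lam a qs c5 b s5 e d) {d} {e} c (X ^ 30)
          (Real.exp l) (HmM a qs b c kk d e) (Real.exp kk) (Real.exp kk)
          (Real.exp (l / 20)) 1 1 0 ≤
        C * X ^ (ε / 8) * (1 + |s5|) ^ (((N + 3 : ℕ) : ℝ) * (M : ℝ)) *
          Real.exp (-((LY (fun j : Fin qs.length => Pt (π lam.1) lam.2 (qs.get j)) +
            LY (fun j : Fin 3 => Pt (π lam.1) lam.2 (a.1.2 j))) / 3)) *
          (nm g * nm b : ℝ) ^ (1 / 3 : ℝ) * Real.exp m +
        ∑ d ∈ Ds, ∑ e ∈ S (E0M e0 a), (nm e : ℝ)⁻¹ *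
          (FH (Real.exp l) (HmM a qs b c kk d e) (Real.exp kk) * 0) := by
      simp only [hafM]
      exact T X hX3 (Fin qs.length) (Fin 3) hcard (fun j => Pt (π lam.1) lam.2 (qs.get j))
        (fun j => Pt (π lam.1) lam.2 (a.1.2 j)) (fun j => P1l54.Pt_OK (hP lam.1) _ _)
        (fun j => P1l54.Pt_OK (hP lam.1) _ _) h1X h2X (Real.exp ζ) (Real.exp_pos _).le hsup'
        (Real.exp (e0 * l)) c5 s5 g b hgp hbp hgX10 Ds (S (E0M e0 a)) hDsX hEsX c (X ^ 30)
        (Real.exp l) (Real.exp kk) (Real.exp kk) (Real.exp (l / 20)) 1 1 (HmM a qs b c kk)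
        (fun _ _ => 0) (fun _ e => (nm e : ℝ)⁻¹) (Real.exp_pos _) (Real.exp_pos _) hcVX hHpos
        (fun _ _ _ _ => by positivity) hcLS (fun d' b' => Real.exp (ff d' b') + Φc)
        (fun d' b' => 3 * Real.exp (3 * t) * Real.exp (ff d' b')) Bf m hΦ₀
        (fun _ _ => by positivity) (fun _ _ _ => by positivity) hdom₀ hdom₁ hcl hla hlb
    have hpow : (1 + |s5|) ^ (((N + 3 : ℕ) : ℝ) * (M : ℝ)) = (1 + |s5|) ^ ((N + 3) * M) := by
      rw [← Nat.cast_mul, Real.rpow_natCast]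
    have hfin : Real.exp (-((LN qs + ((a.1.2 0).z + (a.1.2 1).z + (a.1.2 2).z)) / 3)) *
        (nm g * nm b : ℝ) ^ (1 / 3 : ℝ) * Real.exp m =
        3 * A₀ * Real.exp (k + p' + ex' + lo + 20 * t) := by
      have e1 : (nm g * nm b : ℝ) = Real.exp (Real.log (nm g) + Real.log (nm b)) := by
        rw [Real.exp_add, Real.exp_log (by linarith), Real.exp_log (by linarith)]
      rw [e1, ← Real.exp_mul, ← Real.exp_add, hexpm]
      have e2 : ∀ y z : ℝ, Real.exp y * (3 * A₀ * Real.exp z) = 3 * A₀ * Real.exp (y + z) := by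
        intro y z
        rw [Real.exp_add]; ring
      rw [e2]
      congr 2
      rw [hm']
      linarith
    rw [hs1, hs2, hpow] at hTT
    have hz0 : ∑ d ∈ Ds, ∑ e ∈ S (E0M e0 a), (nm e : ℝ)⁻¹ *
        (FH (Real.exp l) (HmM a qs b c kk d e) (Real.exp kk) * 0) = 0 :=
      sum_eq_zero fun _ _ => sum_eq_zero fun _ _ => by rw [mul_zero, mul_zero]
    rw [hz0, add_zero] at hTT
    refine hTT.trans (le_of_eq ?_)
    rw [← hfin]
    ring
  -- the sum over the levels
  have hi3 : Real.log 2 * (i + 1) ≤ 3 * L := by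
    have h1 := lev_i hζ0 hi
    have h2 : max 0 (Sf770.tO a.1.1) ≤ L := by
      refine max_le hL0'.le ?_
      show min (2 * a3 a.1.1 - l) (3 / 4 * a3 a.1.1) + 11 / 5 * a.1.1.z ≤ L
      have := min_le_right (2 * a3 a.1.1 - l) (3 / 4 * a3 a.1.1)
      linarith
    linarith
  have hVb : Vb (g / b) i ≤ Real.exp (3 * L) := by
    rw [hgq]
    unfold Vb
    exact (div_le_self (Real.exp_pos _).le q1).trans (Real.exp_le_exp.2 hi3)
  have hVb0 : 0 ≤ Vb (g / b) i := by unfold Vb; positivity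
  have hcd : ((LI (1 / 10) (Vb (g / b) i)).card : ℝ) ≤ (2 + 24 / ε) * X ^ (ε / 8) := by
    have h1 := card_LI (1 / 10) (Z := Real.exp (3 * L)) (ε := ε / 24)
      (Real.one_le_exp (by positivity)) hVb0 hVb (by positivity)
    refine h1.trans (le_of_eq ?_)
    rw [← Real.exp_mul, Real.rpow_def_of_pos hX0]
    congr 1
    · rw [one_div_div]
    · congr 1
      rw [← hL]; ring
  have hs0 : 0 ≤ 1 + |s5| := by positivity
  have hR0 : 0 ≤ C * X ^ (ε / 8) * (1 + |s5|) ^ ((N + 3) * M) *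
      (3 * A₀ * Real.exp (k + p' + ex' + lo + 20 * t)) := by positivity
  have hsw : ∑ e ∈ S (E0M e0 a), ∑ kk ∈ LI (1 / 10) (Vb (g / b) i),
      ∑ d' ∈ (JB (Real.sqrt (Vb (g / b) i))).image Prod.fst,
        (nm e : ℝ)⁻¹ * LVn (fun d e => afM π h e0 lam a qs c5 b s5 e d) {d'} {e} c (X ^ 30)
          (Real.exp l) (HmM a qs b c kk d' e) (Real.exp kk) (Real.exp kk)
          (Real.exp (l / 20)) 1 1 0 =
      ∑ kk ∈ LI (1 / 10) (Vb (g / b) i), ∑ d' ∈ (JB (Real.sqrt (Vb (g / b) i))).image Prod.fst,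
        ∑ e ∈ S (E0M e0 a),
        (nm e : ℝ)⁻¹ * LVn (fun d e => afM π h e0 lam a qs c5 b s5 e d) {d'} {e} c (X ^ 30)
          (Real.exp l) (HmM a qs b c kk d' e) (Real.exp kk) (Real.exp kk)
          (Real.exp (l / 20)) 1 1 0 := by
    rw [sum_comm]
    exact sum_congr rfl fun kk _ => sum_comm
  have hX8 : X ^ (ε / 8) = Real.exp (L * (ε / 8)) := Real.rpow_def_of_pos hX0 _
  have hXe : X ^ ε = Real.exp (L * ε) := Real.rpow_def_of_pos hX0 _
  have htg : tgM (L0 p) X a qs = l + p' + L0 p * L := by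
    show a.1.1.l + LN (cl a.1 qs) - 2 * Real.log (nm a.2.1) + L0 p * Real.log X = _
    rw [hp']
    ring
  have hloL : ex' + lo ≤ L0 p * L := by
    have h1 := mul_le_mul_of_nonneg_right (hL0 p hp) hL0'.le
    rw [hex, hlo]
    linarith
  have hCtL : Real.log Ct ≤ ε / 8 * L := by
    have h1 := (le_max_right _ _).trans hLL
    have h2 := mul_le_mul_of_nonneg_left h1 (show 0 ≤ ε / 8 by positivity)
    have h3 : ε / 8 * (8 / ε * Real.log Ct) = Real.log Ct := by field_simp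
    rwa [h3] at h2
  have hfinal : Ct * (X ^ (ε / 8) * X ^ (ε / 8) * X ^ (ε / 8)) *
      Real.exp (k + p' + ex' + lo + 20 * t) ≤ X ^ ε * Real.exp (tgM (L0 p) X a qs) := by
    rw [hX8, hXe, htg]
    have g1' : k + p' + ex' + lo + 20 * t + (Real.log Ct + 3 * (L * (ε / 8))) ≤
        L * ε + (l + p' + L0 p * L) := by linarith
    have g2 := Real.exp_le_exp.2 g1'
    rw [Real.exp_add (L * ε), Real.exp_add (k + p' + ex' + lo + 20 * t),
      Real.exp_add (Real.log Ct), Real.exp_log hCt0] at g2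
    have g3 : Real.exp (3 * (L * (ε / 8))) = Real.exp (L * (ε / 8)) * Real.exp (L * (ε / 8)) *
        Real.exp (L * (ε / 8)) := by
      rw [← Real.exp_add, ← Real.exp_add]; congr 1; ring
    rw [g3] at g2
    linarith
  refine hsw.le.trans ((sum_le_sum key).trans ?_)
  rw [sum_const, nsmul_eq_mul]
  refine (mul_le_mul_of_nonneg_right hcd hR0).trans ?_
  calc (2 + 24 / ε) * X ^ (ε / 8) * (C * X ^ (ε / 8) * (1 + |s5|) ^ ((N + 3) * M) *
        (3 * A₀ * Real.exp (k + p' + ex' + lo + 20 * t))) =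
        Ht ^ M * (Ct * (X ^ (ε / 8) * X ^ (ε / 8) * X ^ (ε / 8)) *
          Real.exp (k + p' + ex' + lo + 20 * t)) * (1 + |s5|) ^ ((N + 3) * M) := by
        rw [hCt, hA₀]; ring
    _ ≤ Ht ^ M * (X ^ ε * Real.exp (tgM (L0 p) X a qs)) * (1 + |s5|) ^ ((N + 3) * M) :=
        mul_le_mul_of_nonneg_right (mul_le_mul_of_nonneg_left hfinal (by positivity))
          (by positivity)
    _ = _ := by ring

end Crest.Agent.R017.Lmt537
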