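import Crest.Agent.R017.RPp_813
import Crest.Agent.R017.R1M_904
import Crest.Agent.R017.RnPe_571

/-!
# Row 17, P1, class E, mismatch: the `R`-half (helper813), part 1: the real line

* **`lnr_MX`** : helper904's lines `coreMs`, `coreMs2` give the real line, second form
-/

set_option autoImplicit false
set_option linter.unusedVariables false

noncomputable section

open Finset

namespace Crest.Agent.R017.LMR813

open Crest.Agent.R017
open Crest.Agent.R017.RnP571 (Dh Nn EN g2 g2_eq)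
open Crest.Agent.R017.P1Q904 (LQ LQ_ge gQ)
open Crest.Agent.R017.R1M904 (hM coreMs coreMs2)

set_option maxHeartbeats 1600000 in
/-- **the real line of the mismatch, second form** -/
theorem lnr_MX {d k k' y₃ y₄ u x t p v ρ a n h δ e b z₁ z₂ z₃ w sy : ℝ}
    (hD : Dh k y₃ y₄ u x (d * k))
    (t0 : 0 ≤ t) (t1 : t ≤ k / 200000) (hk : |k' - k| ≤ t) (p0 : k / 2 - 2 * x - t ≤ p)
    (p1 : p ≤ y₃ + y₄ + u + x + t) (v1 : v ≤ 2 * (y₃ + y₄ + u) - k + 21 / 5 * x + t)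
    (v2 : v ≤ 3 / 4 * (y₃ + y₄ + u) + 21 / 5 * x + t)
    (ha : a ≤ v - ρ + t) (hn : n ≤ p + ρ + t)
    (hh : h ≤ hM (y₃ + y₄ + u) k p δ x - 2 * b + t) (hL : 0 ≤ h + 2 * a - k' - δ)
    (ρ0 : 0 ≤ ρ) (ρ1 : ρ ≤ x + t) (b0 : 0 ≤ b) (δ0 : 0 ≤ δ) (δ1 : δ ≤ 13 / 100 * k + t)
    (z3 : z₃ ≤ u + t) (w1 : w ≤ x + t) :
    Nn g2 k' a h n δ e ≤ k + p + LQ (y₃ + y₄ + u) k (d * k) + 2 * e - b ∧
      ∀ i y₁ y₂ y₃' x' : ℝ, 0 ≤ i → i ≤ n + a + h - k' + t → 0 ≤ y₁ → y₁ ≤ z₁ + t → 0 ≤ y₂ →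
        y₂ ≤ z₂ + t → 0 ≤ y₃' → y₃' ≤ z₃ + t → 0 ≤ x' → x' ≤ w + t → y₁ + y₂ + y₃' ≤ sy →
        y₁ + y₂ + y₃' + x' ≤ p - δ - b + t →
        EN d i y₁ y₂ y₃' 0 x' + (n + a + h - k' - i) / 3 + Nn g2 k' a h n δ e ≤
          k + p + LQ (y₃ + y₄ + u) k (d * k) + 2 * e - b + (y₁ + y₂ + y₃' + x') := by
  obtain ⟨hkk, hkk'⟩ := abs_le.1 hk
  have hk0 := hD.k0
  have hdk := hD.d0
  have hd0 : 0 ≤ d := by
    by_contra h0
    push Not at h0
    nlinarith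
  set s : ℝ := k' - k with hs
  set h' : ℝ := h - s with hh'
  have a1 : h + 2 * a - k' - δ = h' + 2 * a - k - δ := by rw [hh', hs]; ring
  have a2 : n + a + h - k' = n + a + h' - k := by rw [hh', hs]; ring
  have hNn : Nn g2 k' a h n δ e = 2 / 3 * k - (h' + a) / 3 + 5 / 3 * δ + 2 * e +
      gQ (h' + 2 * a - k - δ) (n + a + h' - k) + 2 / 3 * (n - δ) + s / 3 := by
    unfold Nn
    rw [g2_eq, a1, show n + a + h - k' = n + a + h' - k from a2, hh', hs]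
    ring
  have t4 : 4 * t ≤ k / 20000 := by linarith
  have t40 : 0 ≤ 4 * t := by linarith
  have b1 : k / 2 - 2 * x - 4 * t ≤ p := by linarith
  have b2 : p ≤ y₃ + y₄ + u + x + 4 * t := by linarith
  have b3 : v ≤ 2 * (y₃ + y₄ + u) - k + 21 / 5 * x + 4 * t := by linarith
  have b4 : v ≤ 3 / 4 * (y₃ + y₄ + u) + 21 / 5 * x + 4 * t := by linarith
  have b5 : a ≤ v - ρ + 4 * t := by linarith
  have b6 : n ≤ p + ρ + 4 * t := by linarith
  have b7 : h' ≤ hM (y₃ + y₄ + u) k p δ x - 2 * b + 4 * t := by rw [hh']; linarith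
  have b8 : 0 ≤ h' + 2 * a - k - δ + 4 * t := by rw [← a1]; linarith
  have b9 : δ ≤ 13 / 100 * k + 4 * t := by linarith
  have b10 : ρ ≤ x + 4 * t := by linarith
  refine ⟨?_, ?_⟩
  · have h1 := coreMs2 (x' := 0) hD t40 t4 b1 b2 b3 b4 b5 b6 b7 b8 ρ0 b10 b0 δ0 b9 le_rfl
      (by have := hD.x0; linarith)
    have h2 : 0 ≤ max 0 ((n + a + h' - k) / 3 + 0) := le_max_left _ _
    rw [hNn]
    linarith
  · intro i q₁ q₂ q₃ x' i0 hi q10 q1 q20 q2 q30 q3 x0' x1 _ hm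
    rw [hNn, a2]
    rw [a2] at hi
    unfold RnP571.EN
    have hx1 : x' ≤ x + 4 * t := by linarith
    have hn' : q₁ + q₂ + q₃ + x' ≤ p - δ - b + 4 * t := by linarith
    have hi' : i ≤ n + a + h' - k + 4 * t := by linarith
    have key1 : RM986.r3 d i q₁ q₂ q₃ 0 x' + (n + a + h' - k - i) / 3 +
        (2 / 3 * k - (h' + a) / 3 + 5 / 3 * δ + 2 * e +
          gQ (h' + 2 * a - k - δ) (n + a + h' - k) + 2 / 3 * (n - δ) + s / 3) ≤
        k + p + LQ (y₃ + y₄ + u) k (d * k) + 2 * e - b + (q₁ + q₂ + q₃ + x') := by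
      have h1 := RM986.r3_le_P1 (d := d) (m := 0) (a := x') i0 q10 q20 q30
      set ζ₁ := min q₁ i
      set ζ₂ := min q₂ i
      set ζ₃ := min q₃ i
      have c1 : ζ₁ ≤ q₁ := min_le_left _ _
      have c2 : ζ₂ ≤ q₂ := min_le_left _ _
      have c3 : ζ₃ ≤ q₃ := min_le_left _ _
      obtain ⟨l1, l2, l3, l4, l5, l6⟩ := P1F904.l3_le i ζ₁ ζ₂ ζ₃
      unfold P1R904.r3 at h1
      rw [zero_add] at h1
      generalize P1R904.l3 i ζ₁ ζ₂ ζ₃ = l at h1 l1 l2 l3 l4 l5 l6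
      have hS : l + x' ≤ 305 / 1000 * k := by
        obtain ⟨k0, u4, y43, u0, y3, N1, near, x0, adm, d0, d1⟩ := hD
        rcases adm with ⟨a0, -⟩ | ⟨-, a2', -⟩ <;> linarith
      have hdS : (3 / 4 + 2 * d) * (l + x') ≤ 3 / 4 * (l + x') + 61 / 100 * (d * k) := by
        have := mul_le_mul_of_nonneg_left hS hd0
        nlinarith
      have key := coreMs (S := l + x') (i := i) (m := q₁ + q₂ + q₃ + x') (x' := x') hD t40 t4 b2
        b3 b4 b5 b6 b7 b8 ρ0 b10 b0 δ0 b9 x0' hx1 hn' i0 hi' (by linarith) (by linarith) (by linarith)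
      linarith
    have key2 : i / 3 + 2 * x' + 2 * (7 / 8 + d) * 0 + (n + a + h' - k - i) / 3 +
        (2 / 3 * k - (h' + a) / 3 + 5 / 3 * δ + 2 * e +
          gQ (h' + 2 * a - k - δ) (n + a + h' - k) + 2 / 3 * (n - δ) + s / 3) ≤
        k + p + LQ (y₃ + y₄ + u) k (d * k) + 2 * e - b + (q₁ + q₂ + q₃ + x') := by
      have key := coreMs2 (x' := x') hD t40 t4 b1 b2 b3 b4 b5 b6 b7 b8 ρ0 b10 b0 δ0 b9 x0' hx1
      have h2 : (n + a + h' - k) / 3 + x' ≤ max 0 ((n + a + h' - k) / 3 + x') := le_max_right _ _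
      linarith
    rcases max_choice (RM986.r3 d i q₁ q₂ q₃ 0 x') (i / 3 + 2 * x' + 2 * (7 / 8 + d) * 0) with
      h0 | h0 <;> rw [h0]
    · exact key1
    · exact key2

end Crest.Agent.R017.LMR813
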