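import Crest.Agent.R017.R1ME_904
import Crest.Agent.R017.RnPe_571
import Crest.Agent.R017.P1Q_904

/-!
# Row 17, P1, class E, mismatch: the `R`-half (helper813), part 1: the real lines

* `RX` : the frame in units of `log X`
* **`lnr_ME`** : helper904's lines `lineTE`, `coreMsE`, `coreMs2E` give the real lines
-/

set_option autoImplicit false
set_option linter.unusedVariables false

noncomputable section

open Finset

namespace Crest.Agent.R017.LMX813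

open Crest.Agent.R017
open Crest.Agent.R017.RnP571 (Dh Nn EN g2 g2_eq)
open Crest.Agent.R017.P1Q904 (LQ LQ_ge gQ)
open Crest.Agent.R017.R1M904 (hE coreMsE coreMs2E lineTE)

/-- the frame in units of `log X`: `k' = l`, `p = P - 2 γ`, `v` = level, `γ = log g`, `ℓ` = lost,
`q` = amplifier -/
structure RX (k y₃ y₄ u x t k' p v γ ℓ q : ℝ) : Prop where
  k1 : |k' - k| ≤ t
  p0 : k / 2 - 2 * x - t ≤ p
  p1 : p ≤ y₃ + y₄ + u - ℓ + q - 2 * γ + t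
  q0 : 0 ≤ q
  q1 : q ≤ x + t
  γ0 : 0 ≤ γ
  γ1 : γ ≤ q + t
  ℓ0 : 0 ≤ ℓ
  v1 : v ≤ 2 * (y₃ + y₄ + u) - k + 21 / 5 * x - 2 * ℓ - γ + k / 84 + t
  v2 : v ≤ 3 / 4 * (y₃ + y₄ + u) + 21 / 5 * x - 2 * ℓ - γ + k / 84 + t
  v3 : v ≤ 2 * (y₃ + y₄ + u) - k + 21 / 5 * x - γ + t
  v4 : v ≤ 3 / 4 * (y₃ + y₄ + u) + 21 / 5 * x - γ + t

set_option maxHeartbeats 3200000 in
/-- **the real lines of the mismatch, class E** -/
theorem lnr_ME {d k k' y₃ y₄ u x t p v ρ a n h δ e b z₁ z₂ z₃ w sy γ q ℓ s s₀ : ℝ}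
    (hD : Dh k y₃ y₄ u x (d * k)) (t0 : 0 ≤ t) (t1 : t ≤ k / 200000)
    (hR : RX k y₃ y₄ u x t k' p v γ ℓ q) (ha : a ≤ v - ρ + t) (hn : n = p + ρ)
    (hh : h ≤ hE (y₃ + y₄ + u) k p δ x v s - 2 * b + t) (hL : 0 ≤ h + 2 * a - k' - δ)
    (ρ0 : 0 ≤ ρ) (ρ1 : ρ ≤ x + 2 * t) (b0 : 0 ≤ b) (b1 : b ≤ k / 64 + x + 2 * t) (δ0 : 0 ≤ δ)
    (δ1 : δ ≤ 13 / 100 * k + t) (hs : 17 / 100 * k - ℓ - γ - t ≤ s)
    (hs0 : 17 / 100 * k - ℓ - t ≤ s₀) (z3 : z₃ ≤ u + t) (w1 : w ≤ x + t) :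
    h / 3 + 4 / 3 * a + 4 / 3 * n - δ + 2 * e - (ρ + b) +
        min 0 (δ + (ρ + b) - (s₀ - (γ - ρ))) ≤ k + p + LQ (y₃ + y₄ + u) k (d * k) + 2 * e - b ∧
    Nn g2 k' a h n δ e ≤ k + p + LQ (y₃ + y₄ + u) k (d * k) + 2 * e - b ∧
      ∀ i y₁ y₂ y₃' x' : ℝ, 0 ≤ i → i ≤ n + a + h - k' + t → 0 ≤ y₁ → y₁ ≤ z₁ + t → 0 ≤ y₂ →
        y₂ ≤ z₂ + t → 0 ≤ y₃' → y₃' ≤ z₃ + t → 0 ≤ x' → x' ≤ w + t → y₁ + y₂ + y₃' ≤ sy →
        y₁ + y₂ + y₃' + x' ≤ p - δ - b + t →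
        EN d i y₁ y₂ y₃' 0 x' + (n + a + h - k' - i) / 3 + Nn g2 k' a h n δ e ≤
          k + p + LQ (y₃ + y₄ + u) k (d * k) + 2 * e - b + (y₁ + y₂ + y₃' + x') := by
  obtain ⟨hkk, hkk'⟩ := abs_le.1 hR.k1
  have hk0 := hD.k0
  have hdk := hD.d0
  have hd0 : 0 ≤ d := by
    by_contra h0
    push Not at h0
    nlinarith
  have p0 := hR.p0
  have p1 := hR.p1
  have q0 := hR.q0
  have q1 := hR.q1
  have γ0 := hR.γ0
  have γ1 := hR.γ1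
  have ℓ0 := hR.ℓ0
  have v1 := hR.v1
  have v2 := hR.v2
  have v3 := hR.v3
  have v4 := hR.v4
  set σ : ℝ := k' - k with hσ
  set h' : ℝ := h - σ with hh'
  have a1 : h + 2 * a - k' - δ = h' + 2 * a - k - δ := by rw [hh', hσ]; ring
  have a2 : n + a + h - k' = n + a + h' - k := by rw [hh', hσ]; ring
  have hNn : Nn g2 k' a h n δ e = 2 / 3 * k - (h' + a) / 3 + 5 / 3 * δ + 2 * e +
      gQ (h' + 2 * a - k - δ) (n + a + h' - k) + 2 / 3 * (n - δ) + σ / 3 := by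
    unfold Nn
    rw [g2_eq, a1, show n + a + h - k' = n + a + h' - k from a2, hh', hσ]
    ring
  have t4 : 4 * t ≤ k / 20000 := by linarith
  have t40 : 0 ≤ 4 * t := by linarith
  have c0 : k / 2 - 2 * x - 4 * t ≤ p := by linarith
  have cp : p ≤ y₃ + y₄ + u - ℓ + q - 2 * γ + 4 * t := by linarith
  have c1 : v ≤ 2 * (y₃ + y₄ + u) - k + 21 / 5 * x - 2 * ℓ + k / 50 := by linarith
  have c2 : v ≤ 3 / 4 * (y₃ + y₄ + u) + 21 / 5 * x - 2 * ℓ + k / 50 := by linarith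
  have c3 : v ≤ 2 * (y₃ + y₄ + u) - k + 21 / 5 * x + 4 * t := by linarith
  have c4 : v ≤ 3 / 4 * (y₃ + y₄ + u) + 21 / 5 * x + 4 * t := by linarith
  have c5 : a ≤ v - ρ + 4 * t := by linarith
  have c6 : n ≤ p + ρ + 4 * t := by linarith
  have c7 : h' ≤ hE (y₃ + y₄ + u) k p δ x v s - 2 * b + 4 * t := by rw [hh']; linarith
  have c8 : 0 ≤ h' + 2 * a - k - δ + 4 * t := by rw [← a1]; linarith
  have c9 : δ ≤ 13 / 100 * k + 4 * t := by linarith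
  have c10 : ρ ≤ x + 4 * t := by linarith
  have c11 : q ≤ x + 4 * t := by linarith
  have c12 : 0 ≤ ℓ + 4 * t := by linarith
  have c13 : 17 / 100 * k - ℓ - γ - 4 * t ≤ s := by linarith
  have c14 : γ ≤ q + 4 * t := by linarith
  have c15 : b ≤ k / 64 + x + 4 * t := by linarith
  have c16 : 17 / 100 * k - ℓ - 4 * t ≤ s₀ := by linarith
  refine ⟨?_, ?_, ?_⟩
  · have h1 := lineTE (e := e) hD t40 t4 cp c1 c2 c3 c4 c5 c7 c8 ρ0 b0 δ0 c9 γ0 c11 c14 c12 c13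
      c15 c16
    have e1 : δ + (ρ + b) - (s₀ - (γ - ρ)) = (γ - ρ) + δ + (ρ + b) - s₀ := by ring
    rw [e1, hn]
    have e2 : h / 3 = h' / 3 + σ / 3 := by rw [hh']; ring
    rw [e2]
    linarith
  · have h1 := coreMs2E (x' := 0) hD t40 t4 c0 cp c1 c2 c3 c4 c5 c6 c7 c8 ρ0 c10 b0 δ0 c9 γ0 c11
      c12 c13 le_rfl (by have := hD.x0; linarith)
    have h2 : 0 ≤ max 0 ((n + a + h' - k) / 3 + 0) := le_max_left _ _
    rw [hNn]
    linarith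
  · intro i r₁ r₂ r₃ x' i0 hi r10 r1 r20 r2 r30 r3 x0' x1 _ hm
    rw [hNn, a2]
    rw [a2] at hi
    unfold RnP571.EN
    have hx1 : x' ≤ x + 4 * t := by linarith
    have hn' : r₁ + r₂ + r₃ + x' ≤ p - δ - b + 4 * t := by linarith
    have hi' : i ≤ n + a + h' - k + 4 * t := by linarith
    have key1 : RM986.r3 d i r₁ r₂ r₃ 0 x' + (n + a + h' - k - i) / 3 +
        (2 / 3 * k - (h' + a) / 3 + 5 / 3 * δ + 2 * e +
          gQ (h' + 2 * a - k - δ) (n + a + h' - k) + 2 / 3 * (n - δ) + σ / 3) ≤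
        k + p + LQ (y₃ + y₄ + u) k (d * k) + 2 * e - b + (r₁ + r₂ + r₃ + x') := by
      have h1 := RM986.r3_le_P1 (d := d) (m := 0) (a := x') i0 r10 r20 r30
      set ζ₁ := min r₁ i
      set ζ₂ := min r₂ i
      set ζ₃ := min r₃ i
      have c1' : ζ₁ ≤ r₁ := min_le_left _ _
      have c2' : ζ₂ ≤ r₂ := min_le_left _ _
      have c3' : ζ₃ ≤ r₃ := min_le_left _ _
      obtain ⟨l1, l2, l3, l4, l5, l6⟩ := P1F904.l3_le i ζ₁ ζ₂ ζ₃
      unfold P1R904.r3 at h1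
      rw [zero_add] at h1
      generalize P1R904.l3 i ζ₁ ζ₂ ζ₃ = l at h1 l1 l2 l3 l4 l5 l6
      have hS : l + x' ≤ 305 / 1000 * k := by
        obtain ⟨k0, u4, y43, u0, y3, N1, near, x0, adm, d0, d1⟩ := hD
        rcases adm with ⟨a0, -⟩ | ⟨-, a2', -⟩ <;> linarith
      have hdS : (3 / 4 + 2 * d) * (l + x') ≤ 3 / 4 * (l + x') + 61 / 100 * (d * k) := by
        have := mul_le_mul_of_nonneg_left hS hd0
        nlinarith
      have key := coreMsE (S := l + x') (i := i) (m := r₁ + r₂ + r₃ + x') (x' := x') hD t40 t4 cp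
        c1 c2 c3 c4 c5 c6 c7 c8 ρ0 c10 b0 δ0 c9 γ0 c11 c12 c13 x0' hx1 hn' i0 hi' (by linarith)
        (by linarith) (by linarith)
      linarith
    have key2 : i / 3 + 2 * x' + 2 * (7 / 8 + d) * 0 + (n + a + h' - k - i) / 3 +
        (2 / 3 * k - (h' + a) / 3 + 5 / 3 * δ + 2 * e +
          gQ (h' + 2 * a - k - δ) (n + a + h' - k) + 2 / 3 * (n - δ) + σ / 3) ≤
        k + p + LQ (y₃ + y₄ + u) k (d * k) + 2 * e - b + (r₁ + r₂ + r₃ + x') := by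
      have key := coreMs2E (x' := x') hD t40 t4 c0 cp c1 c2 c3 c4 c5 c6 c7 c8 ρ0 c10 b0 δ0 c9 γ0
        c11 c12 c13 x0' hx1
      have h2 : (n + a + h' - k) / 3 + x' ≤ max 0 ((n + a + h' - k) / 3 + x') := le_max_right _ _
      linarith
    rcases max_choice (RM986.r3 d i r₁ r₂ r₃ 0 x') (i / 3 + 2 * x' + 2 * (7 / 8 + d) * 0) with
      h0 | h0 <;> rw [h0]
    · exact key1
    · exact key2

end Crest.Agent.R017.LMX813
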