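import Crest.Agent.R017.HmX_813
import Crest.Agent.R017.P1z_828
import Crest.Agent.R017.LMXb_813

/-!
# Row 17, P1, class E, mismatch: the `R`-half (helper813), part 2: the frame in units of `log X`

* **`frx_real`** : the frame in units of `log X`
* **`HpE_real`** : the exponent of the length of the rows
-/

set_option autoImplicit false
set_option linter.unusedVariables false

noncomputable section

open Finset

namespace Crest.Agent.R017.LMX813

open Crest.Agent.R012 Crest.Agent.R012.Eis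
open Crest.Agent.R017
open Crest.Agent.R017.B770 Crest.Agent.R017.Prov71
open Crest.Agent.R017.E5B71 Crest.Agent.R017.E5P571 Crest.Agent.R017.E5L770
open Crest.Agent.R017.ExBox960 Crest.Agent.R017.ExP960
open Crest.Agent.R017.P1l54 (ParOK)
open Crest.Agent.R017.Sf770 (nO)
open Crest.Agent.R017.P1u54
open Crest.Agent.R017.P1X960
open Crest.Agent.R017.I1146 (LN)
open Crest.Agent.R017.P1MU960
open Crest.Agent.R017.StJ319 (I5)
open Crest.Agent.R017.HmX813
open Crest.Agent.R017.R1M904 (hE)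

set_option maxHeartbeats 1600000 in
/-- **the frame in units of `log X`** -/
theorem frx_real {c β : ℝ} (hc0 : 0 ≤ c) (hc : c ≤ 1 / 168) {p : IX5 → ℝ} {X τ B H : ℝ} {N : ℕ}
    {a : BmX} {qs : List Pq} (F : Fr9X c β p X τ B H N a qs) (hτ0 : 0 ≤ τ) {t : ℝ}
    (ht : 40 * τ ≤ t) (ht1 : t ≤ 1) (hL8 : 8 ≤ t * Real.log X) {cl5 : Fin 5} {i : ℕ}
    (hi : i ∈ I5 a.2.1 (nM (nO a.1.1.toBd) a.2.2) (nW c a.1.1.toBd a.1.2.2) (Real.exp a.2.2) cl5) :
    RX (cκ (prX p)) (cu (prX p) 2) (cu (prX p) 3) (cu (prX p) 4) (cx' (prX p)) t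
      (a.1.1.l / Real.log X) (PX a qs / Real.log X) (Real.log 2 * (i + 1) / Real.log X)
      (Real.log (nm a.2.1) / Real.log X) (a.1.2.2 / Real.log X) (LN qs / Real.log X) := by
  have hL := F.L
  set L := Real.log X with hLd
  have hN : cN (prX p) = cu (prX p) 2 + cu (prX p) 3 + cu (prX p) 4 := rfl
  set q := prX p with hq
  have hτL : 40 * (τ * L) ≤ t * L := by
    have := mul_le_mul_of_nonneg_right ht hL.le
    linarith
  have hτL0 : 0 ≤ τ * L := by positivity
  obtain ⟨k1, k2⟩ := abs_le.1 F.l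
  obtain ⟨z1, z2⟩ := abs_le.1 F.z
  obtain ⟨A1, A2⟩ := abs_le.1 F.A
  obtain ⟨ζ1, ζ2⟩ := abs_le.1 F.ζ
  obtain ⟨b1', b2'⟩ := abs_le.1 F.b
  have hg0 := F.g0
  have hg1 := F.g1
  have hqs0 := F.qs0
  have hqs1 := F.qs1
  have hb0 := F.b0
  have hb1 := F.b1
  have hcl := F.cl
  have hlo := F.lo
  have hw1 := F.w1
  have hn1 := F.n1
  have hpar := F.par
  rw [← hLd, ← hq] at k1 k2 z1 z2 A1 A2 ζ1 ζ2 hqs1 hb1 hlo
  rw [← hLd] at b1' b2' hg1
  rw [hN] at A1 A2
  have hl2 : 0 < Real.log 2 := Real.log_pos (by norm_num)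
  have hl21 : Real.log 2 ≤ 1 := by
    have := Real.log_two_lt_d9
    linarith
  obtain ⟨hM, hI⟩ := P1z828.I5_up hi
  rw [Real.log_exp] at hI
  have hκ0 : 0 ≤ cκ q := by linarith [hpar.κ0]
  have hl0 : 0 ≤ a.1.1.l := by
    have h1 : 8 / 9 * L ≤ cκ q * L := mul_le_mul_of_nonneg_right hpar.κ0 hL.le
    have h2 : τ * L ≤ 1 / 20 * L := mul_le_mul_of_nonneg_right (by linarith) hL.le
    linarith
  have hlev : Real.log 2 * (i + 1) ≤ Real.log 2 * nW c a.1.1.toBd a.1.2.2 + 2 * a.2.2 -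
      Real.log (nm a.2.1) + 4 := by
    rw [mul_add, mul_one]
    linarith
  have hcl' : c * a.1.1.l ≤ 1 / 168 * a.1.1.l := mul_le_mul_of_nonneg_right hc hl0
  set S3 := cu q 2 + cu q 3 + cu q 4 with hS3
  have hN0 := hpar.N0
  rw [hN] at hN0
  set b := a.1.2.2 with hb
  set l := a.1.1.l with hl
  have hκL : 0 ≤ cκ q * L := mul_nonneg hκ0 hL.le
  have hxL : 0 ≤ cx' q * L := mul_nonneg hpar.x0 hL.le
  have hNL := mul_le_mul_of_nonneg_right hN0 hL.le
  -- the top
  have hT1 : Sf770.tO a.1.1.toBd ≤ (2 * S3 - cκ q + 11 / 5 * cx' q) * L + 6 * (τ * L) := by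
    unfold Sf770.tO
    have := min_le_left (2 * a3 a.1.1.toBd - a.1.1.toBd.l) (3 / 4 * a3 a.1.1.toBd)
    linarith
  have hT2 : Sf770.tO a.1.1.toBd ≤ (3 / 4 * S3 + 11 / 5 * cx' q) * L + 6 * (τ * L) := by
    unfold Sf770.tO
    have := min_le_right (2 * a3 a.1.1.toBd - a.1.1.toBd.l) (3 / 4 * a3 a.1.1.toBd)
    linarith
  have htop1 : top5 q ≤ 2 * S3 - cκ q + 11 / 5 * cx' q := by
    unfold E5L770.top5
    have := min_le_left (2 * cN q - cκ q) (3 / 4 * cN q)
    linarith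
  have htop2 : top5 q ≤ 3 / 4 * S3 + 11 / 5 * cx' q := by
    unfold E5L770.top5
    have := min_le_right (2 * cN q - cκ q) (3 / 4 * cN q)
    linarith
  have hckL : c * cκ q * L ≤ 1 / 168 * cκ q * L := by
    have := mul_le_mul_of_nonneg_right hc hκL
    linarith
  have htL1 := mul_le_mul_of_nonneg_right htop1 hL.le
  have htL2 := mul_le_mul_of_nonneg_right htop2 hL.le
  have hm1 := min_le_left (Sf770.tO a.1.1.toBd) (Sf770.tO a.1.1.toBd + 2 * (c * l) - 2 * b)
  have hm2 := min_le_right (Sf770.tO a.1.1.toBd) (Sf770.tO a.1.1.toBd + 2 * (c * l) - 2 * b)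
  set mm := min (Sf770.tO a.1.1.toBd) (Sf770.tO a.1.1.toBd + 2 * (c * l) - 2 * b) with hmm
  have hS3L : 0 ≤ S3 * L := by linarith
  have hW1 : Real.log 2 * nW c a.1.1.toBd b ≤
      (2 * S3 - cκ q + 11 / 5 * cx' q + cκ q / 84) * L - 2 * b + 8 * (τ * L) + 1 := by
    refine hw1.trans ?_
    rcases max_choice 0 mm with h0 | h0 <;> rw [h0]
    · linarith
    · linarith
  have hW2 : Real.log 2 * nW c a.1.1.toBd b ≤
      (3 / 4 * S3 + 11 / 5 * cx' q + cκ q / 84) * L - 2 * b + 8 * (τ * L) + 1 := by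
    refine hw1.trans ?_
    rcases max_choice 0 mm with h0 | h0 <;> rw [h0]
    · linarith
    · linarith
  have hW3 : Real.log 2 * nW c a.1.1.toBd b ≤
      (2 * S3 - cκ q + 11 / 5 * cx' q) * L + 8 * (τ * L) + 1 := by
    refine hw1.trans ?_
    rcases max_choice 0 mm with h0 | h0 <;> rw [h0]
    · linarith
    · linarith
  have hW4 : Real.log 2 * nW c a.1.1.toBd b ≤
      (3 / 4 * S3 + 11 / 5 * cx' q) * L + 8 * (τ * L) + 1 := by
    refine hw1.trans ?_
    rcases max_choice 0 mm with h0 | h0 <;> rw [h0]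
    · linarith
    · linarith
  have hPX : PX a qs = LN (clM a qs) - 2 * Real.log (nm a.2.1) := rfl
  refine ⟨?_, ?_, ?_, ?_, ?_, ?_, ?_, ?_, ?_, ?_, ?_, ?_⟩
  · have e1 : l / L - cκ q = (l - cκ q * L) / L := by field_simp
    rw [e1, abs_div, abs_of_pos hL, div_le_iff₀ hL]
    rw [abs_le]
    constructor <;> linarith
  · rw [hPX, le_div_iff₀ hL]
    linarith
  · rw [hPX, div_le_iff₀ hL]
    have e1 : (S3 - b / L + LN qs / L - 2 * (Real.log (nm a.2.1) / L) + t) * L =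
        S3 * L - b + LN qs - 2 * Real.log (nm a.2.1) + t * L := by field_simp
    rw [e1]
    linarith
  · exact div_nonneg hqs0 hL.le
  · rw [div_le_iff₀ hL]
    linarith
  · exact div_nonneg hg0 hL.le
  · rw [div_le_iff₀ hL, add_mul, div_mul_cancel₀ _ hL.ne']
    linarith
  · exact div_nonneg hb0 hL.le
  · rw [div_le_iff₀ hL]
    have e1 : (2 * S3 - cκ q + 21 / 5 * cx' q - 2 * (b / L) - Real.log (nm a.2.1) / L +
        cκ q / 84 + t) * L = (2 * S3 - cκ q + 11 / 5 * cx' q + cκ q / 84) * L + 2 * (cx' q * L) -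
        2 * b - Real.log (nm a.2.1) + t * L := by
      field_simp
      ring
    rw [e1]
    linarith
  · rw [div_le_iff₀ hL]
    have e1 : (3 / 4 * S3 + 21 / 5 * cx' q - 2 * (b / L) - Real.log (nm a.2.1) / L +
        cκ q / 84 + t) * L = (3 / 4 * S3 + 11 / 5 * cx' q + cκ q / 84) * L + 2 * (cx' q * L) -
        2 * b - Real.log (nm a.2.1) + t * L := by
      field_simp
      ring
    rw [e1]
    linarith
  · rw [div_le_iff₀ hL]
    have e1 : (2 * S3 - cκ q + 21 / 5 * cx' q - Real.log (nm a.2.1) / L + t) * L =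
        (2 * S3 - cκ q + 11 / 5 * cx' q) * L + 2 * (cx' q * L) - Real.log (nm a.2.1) + t * L := by
      field_simp
      ring
    rw [e1]
    linarith
  · rw [div_le_iff₀ hL]
    have e1 : (3 / 4 * S3 + 21 / 5 * cx' q - Real.log (nm a.2.1) / L + t) * L =
        (3 / 4 * S3 + 11 / 5 * cx' q) * L + 2 * (cx' q * L) - Real.log (nm a.2.1) + t * L := by
      field_simp
      ring
    rw [e1]
    linarith

/-- the exponent of the length of the rows -/
theorem HpE_real {c β : ℝ} {p : IX5 → ℝ} {X τ B H : ℝ} {N : ℕ}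
    {a : BmX} {qs : List Pq} (F : Fr9X c β p X τ B H N a qs) (hτ0 : 0 ≤ τ) {t : ℝ}
    (ht : 20 * τ ≤ t) (i : ℕ) (s D : ℝ) :
    max 0 (Real.log (HpE s a qs i) - 4 / 3 * D) / Real.log X ≤
      hE (cu (prX p) 2 + cu (prX p) 3 + cu (prX p) 4) (cκ (prX p)) (PX a qs / Real.log X)
        (D / Real.log X) (cx' (prX p)) (Real.log 2 * (i + 1) / Real.log X) (s / Real.log X) +
        t := by
  have hL := F.L
  set L := Real.log X with hLd
  have hN : cN (prX p) = cu (prX p) 2 + cu (prX p) 3 + cu (prX p) 4 := rfl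
  set q := prX p with hq
  have hτL : 20 * (τ * L) ≤ t * L := by
    have := mul_le_mul_of_nonneg_right ht hL.le
    linarith
  have hτL0 : 0 ≤ τ * L := by positivity
  obtain ⟨k1, k2⟩ := abs_le.1 F.l
  obtain ⟨A1, A2⟩ := abs_le.1 F.A
  obtain ⟨ζ1, ζ2⟩ := abs_le.1 F.ζ
  rw [← hLd, ← hq] at k1 k2 A1 A2 ζ1 ζ2
  rw [hN] at A1 A2
  set S3 := cu q 2 + cu q 3 + cu q 4 with hS3
  unfold HmX813.HpE
  rw [Real.log_exp]
  set P := PX a qs with hP
  set V := Real.log 2 * ((i : ℝ) + 1) with hV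
  have h1 : max 0 (5 / 4 * S3 - cκ q) * L ≤
      max 0 (5 / 4 * a3 a.1.1.toBd - a.1.1.l) + 3 * (τ * L) := by
    rw [max_mul_of_nonneg _ _ hL.le]
    refine max_le ?_ ?_
    · rw [zero_mul]
      have := le_max_left 0 (5 / 4 * a3 a.1.1.toBd - a.1.1.l)
      linarith
    · have := le_max_right 0 (5 / 4 * a3 a.1.1.toBd - a.1.1.l)
      linarith
  have h2 : max 0 (max (5 / 3 * (s / L)) (3 * (s / L) - 52 / 300 * cκ q)) * L ≤
      max 0 (max (5 / 3 * s) (3 * s - 52 / 300 * a.1.1.l)) + τ * L := by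
    rw [max_mul_of_nonneg _ _ hL.le, max_mul_of_nonneg _ _ hL.le, zero_mul]
    have e1 : 5 / 3 * (s / L) * L = 5 / 3 * s := by field_simp
    have e2 : (3 * (s / L) - 52 / 300 * cκ q) * L = 3 * s - 52 / 300 * (cκ q * L) := by
      field_simp
    rw [e1, e2]
    have m1 := le_max_left 0 (max (5 / 3 * s) (3 * s - 52 / 300 * a.1.1.l))
    have m2 := le_max_right 0 (max (5 / 3 * s) (3 * s - 52 / 300 * a.1.1.l))
    have m3 := le_max_left (5 / 3 * s) (3 * s - 52 / 300 * a.1.1.l)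
    have m4 := le_max_right (5 / 3 * s) (3 * s - 52 / 300 * a.1.1.l)
    exact max_le (by linarith) (max_le (by linarith) (by linarith))
  rw [div_le_iff₀ hL]
  unfold R1M904.hE
  rw [add_mul]
  set m5 := max 0 (5 / 4 * a3 a.1.1.toBd - a.1.1.l) with hm5
  set m6 := max 0 (5 / 4 * S3 - cκ q) with hm6
  set m7 := max 0 (max (5 / 3 * s) (3 * s - 52 / 300 * a.1.1.l)) with hm7
  set m8 := max 0 (max (5 / 3 * (s / L)) (3 * (s / L) - 52 / 300 * cκ q)) with hm8
  have h3 : max (4 / 3 * P + 2 / 3 * a.2.2) (P + V - m7) ≤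
      max (4 / 3 * (P / L) + 2 / 3 * cx' q) (P / L + V / L - m8) * L + τ * L := by
    rw [max_mul_of_nonneg _ _ hL.le]
    have e1 : (4 / 3 * (P / L) + 2 / 3 * cx' q) * L = 4 / 3 * P + 2 / 3 * (cx' q * L) := by
      field_simp
    have e2 : (P / L + V / L - m8) * L = P + V - m8 * L := by
      field_simp
    rw [e1, e2]
    have m1 := le_max_left (4 / 3 * P + 2 / 3 * (cx' q * L)) (P + V - m8 * L)
    have m2 := le_max_right (4 / 3 * P + 2 / 3 * (cx' q * L)) (P + V - m8 * L)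
    exact max_le (by linarith) (by linarith)
  set m9 := max (4 / 3 * P + 2 / 3 * a.2.2) (P + V - m7) with hm9
  set m10 := max (4 / 3 * (P / L) + 2 / 3 * cx' q) (P / L + V / L - m8) with hm10
  rw [max_mul_of_nonneg _ _ hL.le, zero_mul]
  have e3 : (m10 - 4 / 3 * (D / L) - cκ q - 3 * m6) * L =
      m10 * L - 4 / 3 * D - cκ q * L - 3 * (m6 * L) := by
    field_simp
  rw [e3]
  have n1 := le_max_left 0 (m10 * L - 4 / 3 * D - cκ q * L - 3 * (m6 * L))
  have n2 := le_max_right 0 (m10 * L - 4 / 3 * D - cκ q * L - 3 * (m6 * L))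
  exact max_le (by linarith) (by linarith)

end Crest.Agent.R017.LMX813
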