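import Crest.Agent.R017.P1v_54
import Crest.Agent.R017.P1X3_960

/-!
# Row 17, exceptional class (helper960): the mismatch moments from the moments of the classes

* `CkG` : the moment of one class (`c`, level `i`, divisor `b`, frequency `s`), any sequence of lumps
* `P1CG` : the classes, all lists; `mg_of` : the mismatch moments from `P1CG`
* **`P1CX`, `P1CS`** : the classes of the difference, of a single list
* **`p1MX_of`, `p1MS_of`** : `P1CX` implies `P1MX`, `P1CS` implies `P1MS`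
-/

set_option autoImplicit false

noncomputable section

open Finset Filter
open scoped ComplexConjugate

namespace Crest.Agent.R017.P1MU960

open Crest.Agent.R012 Crest.Agent.R012.Eis Crest.Agent.R012.Div277
open Crest.Agent.R012.Mob705 hiding pb mem_pb
open Crest.Agent.R012.LS2 (S mem_S bl mem_bl)
open Crest.Agent.R017.CM106 Crest.Agent.R017.C70
open Crest.Agent.R017.FE47 (PU cx SM)
open Crest.Agent.R017.StF828 (T3)
open Crest.Agent.R017.StG828 (JB omp)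
open Crest.Agent.R017.StG828 (PSu)
open Crest.Agent.R017.StJ319 (afrb gt5 q5 I5)
open Crest.Agent.R017.E3A164 (SteT)
open Crest.Agent.R017.P1e54 Crest.Agent.R017.P1f54 Crest.Agent.R017.P1i54 Crest.Agent.R017.P1j54
open Crest.Agent.R017.P1k54 Crest.Agent.R017.P1n54 Crest.Agent.R017.P1q54
open Crest.Agent.R017.P1l54 (ParOK oN)
open Crest.Agent.R017.Sf770 (nO)
open Crest.Agent.R017.P1u54
open Crest.Agent.R017.P1v54 (ηC supp_list FS_list)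
open Crest.Agent.R017.HP842 (Pc pc al alL cv Tu mem_Tu sqc Th)
open Crest.Agent.R017.B770 Crest.Agent.R017.Prov71
open Crest.Agent.R017.XG702 (Pcs Good_mono)
open Crest.Agent.R017.XT71 (Sys Win mx)
open Crest.Agent.R017.UM71
open Crest.Agent.R017.E5B71 Crest.Agent.R017.E5P571 Crest.Agent.R017.E5L770
open Crest.Agent.R017.ExBox960 Crest.Agent.R017.ExP960
open Crest.Agent.R017.P1X960

attribute [local irreducible] HP842.Tu

variable {Λ : Type*} (π : Λ → DPar) (h : ℝ → ℝ) (e0 c : ℝ)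

/-- the difference of the lumps -/
def αX (lam : Λ × Eis) (a : BmX) : Eis → ℂ :=
  xD h (π lam.1) lam.2 a.1.2.1 (dz a.1.1) []

/-- the single list of the lumps -/
def αS (lam : Λ × Eis) (a : BmX) : Eis → ℂ :=
  sqc 1 (alL h ((List.ofFn a.1.2.1).map (Pt (π lam.1) lam.2)))

/-- admissible data of the differences -/
def okX (lam : Λ × Eis) (a : BmX) (qs : List Pq) : Prop :=
  okCX (π lam.1) lam.2 a.1 qs ∧ okD a.1

/-- admissible data of the single lists -/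
def okS (lam : Λ × Eis) (a : BmX) (qs : List Pq) : Prop := okCX (π lam.1) lam.2 a.1 qs

section
variable (ok : Λ × Eis → BmX → List Pq → Prop) (α : Λ × Eis → BmX → Eis → ℂ)

open Classical in
/-- the mismatch moment, any sequence of lumps -/
def MmG (R : Λ → ℝ) (lam : Λ × Eis) (a : BmX) (qs : List Pq) : ℝ :=
  if ok lam a qs ∧ IsPrim a.2.1 ∧ Squarefree a.2.1 ∧ 0 ≤ a.2.2 ∧
      ∀ n, ηC π h lam qs n ≠ 0 → (nm n : ℝ) ≤ Real.exp a.2.2 then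
    M2 (uM (R lam.1) (Real.exp a.1.1.l) (Real.exp (a.1.1.l / 20)))
      (Mm (JW (Real.sqrt (2 ^ nO a.1.1.toBd) * Real.exp a.2.2) (1 / 10)
          (2 ^ nO a.1.1.toBd * Real.exp a.2.2 ^ 2)) (Real.exp (e0 * a.1.1.l))
        (Real.exp a.2.2) (oN (nW c a.1.1.toBd a.1.2.2)) a.2.1 (ηC π h lam qs) (α lam a))
  else 0

open Classical in
/-- **the moment of the class `cc`, level `i`, divisor `b`, frequency `s`** -/
def CkG (R : Λ → ℝ) (cc : Fin 5) (i : ℕ) (b : Eis) (s : ℝ) (lam : Λ × Eis) (a : BmX)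
    (qs : List Pq) : ℝ :=
  if (ok lam a qs ∧ IsPrim a.2.1 ∧ Squarefree a.2.1 ∧ 0 ≤ a.2.2 ∧
      (∀ n, ηC π h lam qs n ≠ 0 → (nm n : ℝ) ≤ Real.exp a.2.2) ∧
      a.2.1 ∈ S (Real.exp a.2.2)) ∧
      i ∈ I5 a.2.1 (nM (nO a.1.1.toBd) a.2.2) (nW c a.1.1.toBd a.1.2.2) (Real.exp a.2.2) cc ∧
      b ∈ dvs a.2.1 then
    M2 (uM (R lam.1) (Real.exp a.1.1.l) (Real.exp (a.1.1.l / 20)))
      (SteT (JB (DM (nO a.1.1.toBd) a.2.2)) (omp (a.2.1 / b) i s)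
        (Real.exp (e0 * a.1.1.l) * Real.exp a.2.2)
        (T3 (afrb (gt5 (Real.exp (e0 * a.1.1.l)) (Real.exp a.2.2) a.2.1 cc) (q5 a.2.1 cc)
          (Real.exp a.2.2) (ηC π h lam qs) (α lam a) a.2.1 b s)))
  else 0

/-- the classes, all lists -/
def P1CG (β : ℝ) (Par : Set (Fin 3 ⊕ Fin 5 → ℝ)) (L0 : (Fin 3 ⊕ Fin 5 → ℝ) → ℝ)
    (L : (IX5 → ℝ) → ℝ → ℝ → ℝ → Prop) : Prop :=
  ∀ R : Λ → ℝ, (∀ lam, 0 ≤ R lam) → ∀ ε : ℝ, 0 < ε → ∃ δ : ℝ, 0 < δ ∧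
    ∀ (lam : Λ × Eis) (N : ℕ) (B : ℝ), ∃ (J : ℕ) (δ' : ℝ), 0 < δ' ∧
    ∃ X₀ : ℝ, 1 < X₀ ∧ ∀ X : ℝ, X₀ ≤ X → ∀ (a : BmX) (qs : List Pq), qs.length ≤ N →
      (∀ p ∈ qs, Dq.lump p ∨ Dq.nl X p ≤ δ) → ∀ q ∈ Dom9X c β Par L,
      Win S9X q.1 δ N B δ' X a →
      (∀ t, |Dq.mass X qs t - q.2 t| ≤ δ) → Dq.Good X δ' B qs →
      (∀ p ∈ qs, Dq.lump p → (S9X.ev X a, Dq.nl X p) ∈ (∅ : Set ((I8X ⊕ Fin 2 → ℝ) × ℝ))) →
      ∀ (cc : Fin 5) (i : ℕ) (b : Eis) (s : ℝ),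
        CkG π h e0 c ok α R cc i b s lam a qs ≤ X ^ (E9X L0 q + ε) * (1 + |s|) ^ J

end

/-- **the classes of the differences** -/
def P1CX (β : ℝ) (Par : Set (Fin 3 ⊕ Fin 5 → ℝ)) (L0 : (Fin 3 ⊕ Fin 5 → ℝ) → ℝ) : Prop :=
  P1CG π h e0 c (okX π) (αX π h) β Par L0 DifL

/-- **the classes of the single lists** -/
def P1CS (β : ℝ) (Par : Set (Fin 3 ⊕ Fin 5 → ℝ)) (L0 : (Fin 3 ⊕ Fin 5 → ℝ) → ℝ) : Prop :=
  P1CG π h e0 c (okS π) (αS π h) β Par L0 (SinL β)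

set_option maxHeartbeats 1000000 in
/-- sizes of the data of the mismatch (crude) -/
lemma size_MX {X δ B ρ : ℝ} {N : ℕ} {a : BmX} {c β : ℝ} {Par : Set (Fin 3 ⊕ Fin 5 → ℝ)}
    {L : (IX5 → ℝ) → ℝ → ℝ → ℝ → Prop}
    (hPar : ∀ p ∈ Par, ParOK p) (hX : 3 ≤ X) (hδ : δ ≤ 1 / 3)
    {q : (I8X ⊕ Fin 2 → ℝ) × (Kd → ℝ)} (hq : q ∈ Dom9X c β Par L)
    (hw : Win S9X q.1 δ N B ρ X a) (hok : a.1.1.ok) (hζ : 0 ≤ a.2.2) (hg : a.2.1 ≠ 0) :
    (nO a.1.1.toBd : ℝ) ≤ 20 * Real.log X ∧ (nM (nO a.1.1.toBd) a.2.2 : ℝ) ≤ 20 * Real.log X ∧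
      (nm a.2.1 : ℝ) ≤ X := by
  have hX0 : 0 < X := by linarith
  have hL1 : 1 < Real.log X := by
    rw [Real.lt_log_iff_exp_lt hX0]
    exact lt_of_lt_of_le Real.exp_one_lt_three hX
  have hL : 0 < Real.log X := by linarith
  obtain ⟨hq1, hq2, hq3, hq4, hq5, hq6, hq7, hq8⟩ := hq
  set p : IX5 → ℝ := bp (fun i => q.1 (.inl i)) with hp
  have hPp := hPar _ hq1.par
  have hev : ∀ i, |S9X.ev X a i - q.1 i| ≤ δ := hw.ev
  have hdiv : ∀ {z c : ℝ}, |z / Real.log X - c| ≤ δ → z ≤ (c + δ) * Real.log X ∧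
      (c - δ) * Real.log X ≤ z := by
    intro z c h1
    obtain ⟨h2, h3⟩ := abs_le.1 h1
    constructor
    · rw [← div_le_iff₀ hL]; linarith
    · rw [← le_div_iff₀ hL]; linarith
  have hz : a.1.1.z ≤ (cx' (prX p) + δ) * Real.log X :=
    (hdiv (hev (.inl (.inl (.inl (.inl 1)))))).1
  have hu2 : (a.1.1.us 2).z ≤ (cu (prX p) 2 + δ) * Real.log X :=
    (hdiv (hev (.inl (.inl (.inl (.inr 2)))))).1
  have hu3 : (a.1.1.us 3).z ≤ (cu (prX p) 3 + δ) * Real.log X :=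
    (hdiv (hev (.inl (.inl (.inl (.inr 3)))))).1
  have hu4 : (a.1.1.us 4).z ≤ (cu (prX p) 4 + δ) * Real.log X :=
    (hdiv (hev (.inl (.inl (.inl (.inr 4)))))).1
  have hg0 : Real.log (nm a.2.1) ≤ (q.1 (.inr 0) + δ) * Real.log X := (hdiv (hev (.inr 0))).1
  have hg1 : a.2.2 ≤ (q.1 (.inr 1) + δ) * Real.log X := (hdiv (hev (.inr 1))).1
  have e0 : q.1 (.inr 1) = cx' (prX p) := hq7
  have e2 : cN (prX p) = cu (prX p) 2 + cu (prX p) 3 + cu (prX p) 4 := rfl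
  have hxL : cx' (prX p) * Real.log X ≤ 1 / 3 * Real.log X :=
    mul_le_mul_of_nonneg_right hPp.x1 hL.le
  have hNL : cN (prX p) * Real.log X ≤ 1 * Real.log X := mul_le_mul_of_nonneg_right hPp.N1 hL.le
  have hdL : δ * Real.log X ≤ 1 / 3 * Real.log X := mul_le_mul_of_nonneg_right hδ hL.le
  have hlog2 : (0.69 : ℝ) < Real.log 2 := by
    have := Real.log_two_gt_d9
    linarith
  have hlog2' : 0 < Real.log 2 := by linarith
  have hl0 : 0 ≤ a.1.1.l ∨ a.1.1.l < 0 := le_or_gt _ _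
  have hzz : a.1.1.z ≤ 2 / 3 * Real.log X := by
    rw [add_mul] at hz
    linarith
  have hA : a3 a.1.1.toBd ≤ 2 * Real.log X := by
    rw [add_mul] at hu2 hu3 hu4
    have h5 : cN (prX p) * Real.log X = cu (prX p) 2 * Real.log X + cu (prX p) 3 * Real.log X +
      cu (prX p) 4 * Real.log X := by rw [e2]; ring
    have h6 : a3 a.1.1.toBd = (a.1.1.us 2).z + (a.1.1.us 3).z + (a.1.1.us 4).z := rfl
    linarith
  have htO : topL a.1.1.toBd.l (a3 a.1.1.toBd) a.1.1.toBd.z ≤ 3 * Real.log X := by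
    have hz' : a.1.1.toBd.z ≤ 2 / 3 * Real.log X := hzz
    unfold topL
    have := min_le_right (2 * a3 a.1.1.toBd - a.1.1.toBd.l) (3 / 4 * a3 a.1.1.toBd)
    linarith
  have hnO : (nO a.1.1.toBd : ℝ) ≤ 6 * Real.log X := by
    unfold nO nL
    push_cast
    rcases le_total 0 (topL a.1.1.toBd.l (a3 a.1.1.toBd) a.1.1.toBd.z) with h0 | h0
    · have h1 := Nat.floor_le (div_nonneg h0 hlog2'.le)
      have h2 : topL a.1.1.toBd.l (a3 a.1.1.toBd) a.1.1.toBd.z / Real.log 2 ≤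
          5 * Real.log X := by
        rw [div_le_iff₀ hlog2']
        have h3 : 0.69 * Real.log X ≤ Real.log 2 * Real.log X :=
          mul_le_mul_of_nonneg_right hlog2.le hL.le
        linarith only [h3, htO, hL]
      linarith only [h1, h2, hL1]
    · rw [Nat.floor_of_nonpos (div_nonpos_of_nonpos_of_nonneg h0 hlog2'.le)]
      push_cast
      linarith
  have hζ1 : a.2.2 ≤ 2 / 3 * Real.log X := by
    rw [e0, add_mul] at hg1
    linarith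
  refine ⟨by linarith only [hnO, hL], ?_, ?_⟩
  · unfold nM
    push_cast
    have h1 : (⌈2 * a.2.2 / Real.log 2⌉₊ : ℝ) < 2 * a.2.2 / Real.log 2 + 1 :=
      Nat.ceil_lt_add_one (by positivity)
    have h2 : 2 * a.2.2 / Real.log 2 ≤ 2 * Real.log X := by
      rw [div_le_iff₀ hlog2']
      have h3 : 0.69 * Real.log X ≤ Real.log 2 * Real.log X :=
        mul_le_mul_of_nonneg_right hlog2.le hL.le
      linarith only [h3, hζ1, hL]
    linarith only [h1, h2, hnO, hL1]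
  · have h0 : q.1 (.inr 0) ≤ q.2 .am := hq6
    have h1 : q.2 .am ≤ cx' (prX p) := hq1.x1
    have h2 : q.1 (.inr 0) + δ ≤ 1 := by linarith [hPp.x1]
    have h3 : Real.log (nm a.2.1) ≤ Real.log X := by
      refine hg0.trans ?_
      have := mul_le_mul_of_nonneg_right h2 hL.le
      linarith
    exact (Real.log_le_log_iff (by exact_mod_cast nm_pos.2 hg) hX0).1 h3

/-- **the mismatch moments from the classes** -/
theorem mg_of {π : Λ → DPar} {h : ℝ → ℝ} {e0 c β : ℝ}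
    {ok : Λ × Eis → BmX → List Pq → Prop} {α : Λ × Eis → BmX → Eis → ℂ}
    (hok1 : ∀ lam a qs, ok lam a qs → a.1.1.ok) (hα1 : ∀ lam a, FS (α lam a))
    (hα2 : ∀ lam a, PSu (α lam a))
    {Par : Set (Fin 3 ⊕ Fin 5 → ℝ)} {L0 : (Fin 3 ⊕ Fin 5 → ℝ) → ℝ} (hPar : ∀ p ∈ Par, ParOK p)
    {L : (IX5 → ℝ) → ℝ → ℝ → ℝ → Prop}
    (H : P1CG π h e0 c ok α β Par L0 L) (R : Λ → ℝ) (hR : ∀ lam, 0 ≤ R lam) :
    UB S9X Dq (MmG π h e0 c ok α R) (Dom9X c β Par L) ∅ (E9X L0) := by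
  intro ε hε
  obtain ⟨δ₀, hδ₀, H⟩ := H R hR (ε / 2) (by positivity)
  refine ⟨min δ₀ (1 / 3), lt_min hδ₀ (by norm_num), ?_⟩
  intro lam N B
  obtain ⟨J, δ', hδ', X₁, hX₁, H⟩ := H lam N B
  obtain ⟨C, hC, key⟩ := mm_cls J
  have hη : 0 < ε / 48 := by positivity
  obtain ⟨Ct, hCt, htau⟩ := tau_le_rpow hη
  -- the constant
  set CC : ℝ := C * (20 * (48 / ε)) ^ 4 * Ct ^ 4 with hCC
  have hlim : ∀ᶠ X : ℝ in atTop, CC ≤ X ^ (ε / 4) :=
    (tendsto_rpow_atTop (by positivity : 0 < ε / 4)).eventually_ge_atTop CC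
  obtain ⟨X₂, hX₂⟩ := eventually_atTop.1 hlim
  refine ⟨δ', hδ', max (max X₁ X₂) 3, lt_of_lt_of_le (by norm_num) (le_max_right _ _), ?_⟩
  intro X hX a qs hlen hgl q hq hw hm hg hl
  have hX1' : X₁ ≤ X := (le_max_left _ _).trans ((le_max_left _ _).trans hX)
  have hX2' : X₂ ≤ X := (le_max_right _ _).trans ((le_max_left _ _).trans hX)
  have hX3 : 3 ≤ X := (le_max_right _ _).trans hX
  have hX0 : 0 < X := by linarith
  have hX1 : 1 ≤ X := by linarith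
  have hU : 0 < X ^ (E9X L0 q + ε) := Real.rpow_pos_of_pos hX0 _
  unfold MmG
  split_ifs with hif
  swap
  · exact hU.le
  obtain ⟨hok, hgp, hgs, hζ, hsup⟩ := hif
  have hδ3 : min δ₀ (1 / 3) ≤ 1 / 3 := min_le_right _ _
  have hδδ : min δ₀ (1 / 3) ≤ δ₀ := min_le_left _ _
  obtain ⟨s1, s2, s3⟩ := size_MX hPar hX3 hδ3 hq hw (hok1 _ _ _ hok) hζ hgp.ne_zero
  have hcls := H X hX1' a qs hlen (fun p hp => (hgl p hp).imp id fun h2 => h2.trans hδδ) q hq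
    (hw.mono hX1 hδδ le_rfl le_rfl le_rfl) (fun t => (hm t).trans hδδ) hg hl
  have hnn : nW c a.1.1.toBd a.1.2.2 ≤ nO a.1.1.toBd := min_le_left _ _
  have k := key (nO a.1.1.toBd) (nW c a.1.1.toBd a.1.2.2) hnn a.2.2 hζ
    (Real.exp (e0 * a.1.1.l)) (R lam.1)
    (Real.exp a.1.1.l) (Real.exp (a.1.1.l / 20)) (Real.exp_pos _) (ηC π h lam qs)
    (α lam a) hsup (hα1 lam a) (hα2 lam a) a.2.1 hgp hgs (X ^ (E9X L0 q + ε / 2)) (by positivity)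
    (fun hgS cc i hi b hb s => by
      have h1 := hcls cc i b s
      unfold CkG at h1
      rw [if_pos ⟨⟨hok, hgp, hgs, hζ, hsup, hgS⟩, hi, hb⟩] at h1
      exact h1)
  refine k.trans ?_
  -- the loss
  have hlog : Real.log X ≤ X ^ (ε / 48) / (ε / 48) := Real.log_le_rpow_div hX0.le hη
  have hlog' : 20 * Real.log X ≤ 20 * (48 / ε) * X ^ (ε / 48) := by
    have e : X ^ (ε / 48) / (ε / 48) = 48 / ε * X ^ (ε / 48) := by field_simp
    rw [e] at hlog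
    linarith
  have hL0 : 0 ≤ Real.log X := Real.log_nonneg hX1
  have ht : (tau a.2.1 : ℝ) ≤ Ct * X ^ (ε / 48) :=
    (htau _ hgp.ne_zero).trans (mul_le_mul_of_nonneg_left
      (Real.rpow_le_rpow (Nat.cast_nonneg _) s3 hη.le) (by linarith))
  have n1 : (nM (nO a.1.1.toBd) a.2.2 : ℝ) ≤ 20 * (48 / ε) * X ^ (ε / 48) := s2.trans hlog'
  have n2 : (nW c a.1.1.toBd a.1.2.2 : ℝ) ≤ 20 * (48 / ε) * X ^ (ε / 48) := by
    have h1 : (nW c a.1.1.toBd a.1.2.2 : ℝ) ≤ nO a.1.1.toBd := by exact_mod_cast hnn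
    exact h1.trans (s1.trans hlog')
  have hpow : (X ^ (ε / 48)) ^ 8 ≤ X ^ (ε / 4) := by
    rw [← Real.rpow_natCast, ← Real.rpow_mul hX0.le]
    refine Real.rpow_le_rpow_of_exponent_le hX1 ?_
    push_cast
    linarith
  have hsplit : X ^ (E9X L0 q + ε) = X ^ (ε / 4) * X ^ (ε / 4) * X ^ (E9X L0 q + ε / 2) := by
    rw [← Real.rpow_add hX0, ← Real.rpow_add hX0]
    congr 1
    ring
  rw [hsplit]
  refine mul_le_mul_of_nonneg_right ?_ (by positivity)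
  have hD : 0 ≤ 20 * (48 / ε) * X ^ (ε / 48) := by positivity
  calc C * (nM (nO a.1.1.toBd) a.2.2 : ℝ) ^ 2 * (nW c a.1.1.toBd a.1.2.2 : ℝ) ^ 2 *
        (tau a.2.1 : ℝ) ^ 4
      ≤ C * (20 * (48 / ε) * X ^ (ε / 48)) ^ 2 * (20 * (48 / ε) * X ^ (ε / 48)) ^ 2 *
        (Ct * X ^ (ε / 48)) ^ 4 := by gcongr
    _ = CC * (X ^ (ε / 48)) ^ 8 := by rw [hCC]; ring
    _ ≤ X ^ (ε / 4) * X ^ (ε / 4) :=
      mul_le_mul (hX₂ X hX2') hpow (by positivity) (by positivity)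

lemma PSu_list {h : ℝ → ℝ} {Rh : ℝ} (hRh : ∀ u, cx h u ≠ 0 → |u| ≤ Rh) {P : DPar} (hP : P.OK)
    (t₀ : Eis) (ps : List Pq) : PSu (sqc 1 (alL h (ps.map (Pt P t₀)))) := fun n hn => by
  obtain ⟨h1, h2, -⟩ := supp_list h hRh hP t₀ ps hn
  exact ⟨h1, h2⟩

lemma FS_xD {h : ℝ → ℝ} {Rh : ℝ} (hRh : ∀ u, cx h u ≠ 0 → |u| ≤ Rh) {P : DPar} (hP : P.OK)
    (t₀ : Eis) (vs : Fin 3 → Pq) (D : ℝ) (qs : List Pq) : FS (xD h P t₀ vs D qs) :=
  FS_cmb (FS_list h hRh hP t₀ _) (FS_list h hRh hP t₀ _) _ _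

lemma PSu_xD {h : ℝ → ℝ} {Rh : ℝ} (hRh : ∀ u, cx h u ≠ 0 → |u| ≤ Rh) {P : DPar} (hP : P.OK)
    (t₀ : Eis) (vs : Fin 3 → Pq) (D : ℝ) (qs : List Pq) : PSu (xD h P t₀ vs D qs) := by
  intro n hn
  by_cases h1 : sqc 1 (alL h ((List.ofFn vs ++ qs).map (Pt P t₀))) n = 0
  · by_cases h2 : sqc 1 (alL h ((List.ofFn (rzD vs D) ++ qs).map (Pt P t₀))) n = 0
    · exfalso
      apply hn
      show oc vs (vs 0).z (vs 1).z * sqc 1 (alL h ((List.ofFn vs ++ qs).map (Pt P t₀))) n +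
        -oc vs ((vs 0).z - D) ((vs 1).z + D) *
          sqc 1 (alL h ((List.ofFn (rzD vs D) ++ qs).map (Pt P t₀))) n = 0
      rw [h1, h2, mul_zero, mul_zero, add_zero]
    · exact PSu_list hRh hP t₀ _ n h2
  · exact PSu_list hRh hP t₀ _ n h1

lemma MmX_eq (π : Λ → DPar) (h : ℝ → ℝ) (e0 c : ℝ) (R : Λ → ℝ) :
    MmX π h e0 c R = MmG π h e0 c (okX π) (αX π h) R := by
  funext lam a qs
  unfold MmX MmG
  by_cases hc : (okCX (π lam.1) lam.2 a.1 qs ∧ okD a.1) ∧ IsPrim a.2.1 ∧ Squarefree a.2.1 ∧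
      0 ≤ a.2.2 ∧ ∀ n, sqc 1 (alL h (qs.map (Pt (π lam.1) lam.2))) n ≠ 0 →
        (nm n : ℝ) ≤ Real.exp a.2.2
  · rw [if_pos hc]
    exact (if_pos hc).symm
  · rw [if_neg hc]
    exact (if_neg hc).symm

lemma MmS_eq (π : Λ → DPar) (h : ℝ → ℝ) (e0 c : ℝ) (R : Λ → ℝ) :
    MmS π h e0 c R = MmG π h e0 c (okS π) (αS π h) R := by
  funext lam a qs
  unfold MmS MmG
  by_cases hc : okCX (π lam.1) lam.2 a.1 qs ∧ IsPrim a.2.1 ∧ Squarefree a.2.1 ∧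
      0 ≤ a.2.2 ∧ ∀ n, sqc 1 (alL h (qs.map (Pt (π lam.1) lam.2))) n ≠ 0 →
        (nm n : ℝ) ≤ Real.exp a.2.2
  · rw [if_pos hc]
    exact (if_pos hc).symm
  · rw [if_neg hc]
    exact (if_neg hc).symm

/-- **`P1MX` from the classes** -/
theorem p1MX_of {π : Λ → DPar} {h : ℝ → ℝ} {e0 c β : ℝ} (hP : ∀ lam, (π lam).OK) {Rh : ℝ}
    (hRh : ∀ u, cx h u ≠ 0 → |u| ≤ Rh) {Par : Set (Fin 3 ⊕ Fin 5 → ℝ)}
    {L0 : (Fin 3 ⊕ Fin 5 → ℝ) → ℝ} (hPar : ∀ p ∈ Par, ParOK p)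
    (H : P1CX π h e0 c β Par L0) : P1MX π h e0 c β Par L0 := fun R hR => by
  rw [MmX_eq]
  exact mg_of (fun _ _ _ hk => hk.1.1) (fun lam a => FS_xD hRh (hP lam.1) lam.2 _ _ _)
    (fun lam a => PSu_xD hRh (hP lam.1) lam.2 _ _ _) hPar H R hR

/-- **`P1MS` from the classes** -/
theorem p1MS_of {π : Λ → DPar} {h : ℝ → ℝ} {e0 c β : ℝ} (hP : ∀ lam, (π lam).OK) {Rh : ℝ}
    (hRh : ∀ u, cx h u ≠ 0 → |u| ≤ Rh) {Par : Set (Fin 3 ⊕ Fin 5 → ℝ)}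
    {L0 : (Fin 3 ⊕ Fin 5 → ℝ) → ℝ} (hPar : ∀ p ∈ Par, ParOK p)
    (H : P1CS π h e0 c β Par L0) : P1MS π h e0 c β Par L0 := fun R hR => by
  rw [MmS_eq]
  exact mg_of (fun _ _ _ hk => hk.1) (fun lam _ => FS_list h hRh (hP lam.1) lam.2 _)
    (fun lam _ => PSu_list hRh (hP lam.1) lam.2 _) hPar H R hR

end Crest.Agent.R017.P1MU960
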