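import Crest.Agent.R017.P1w_54
import Crest.Agent.R017.P1MUX_960

/-!
# Row 17, exceptional class (helper960): the frame of the mismatch

* `Fr9X` : the frame (logarithms, one base point `p`), `FrD` / `FrS` : 708's frames of the lists of
  a difference / of a single list
* `fr9x_of` : the frame from the data of `Dom9X`
* `P1CXF`, `P1CSF` : the classes in the frame; **`p1MX_of_frame`, `p1MS_of_frame`**
-/

set_option autoImplicit false

noncomputable section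

open Finset Filter
open scoped ComplexConjugate

namespace Crest.Agent.R017.P1MU960

open Crest.Agent.R012 Crest.Agent.R012.Eis Crest.Agent.R012.Div277
open Crest.Agent.R012.LS2 (S mem_S)
open Crest.Agent.R017.CM106 Crest.Agent.R017.C70
open Crest.Agent.R017.StF828 (T3)
open Crest.Agent.R017.StG828 (JB omp)
open Crest.Agent.R017.StJ319 (afrb gt5 q5 I5)
open Crest.Agent.R017.E3A164 (SteT)
open Crest.Agent.R017.P1e54 Crest.Agent.R017.P1f54 Crest.Agent.R017.P1k54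
open Crest.Agent.R017.P1l54 (ParOK oN)
open Crest.Agent.R017.Sf770 (nO)
open Crest.Agent.R017.P1u54
open Crest.Agent.R017.P1v54 (ηC)
open Crest.Agent.R017.P1w54 (mass_am)
open Crest.Agent.R017.B770 Crest.Agent.R017.Prov71
open Crest.Agent.R017.XG702 (Pcs)
open Crest.Agent.R017.XT71 (Sys Win mx)
open Crest.Agent.R017.UM71
open Crest.Agent.R017.E5B71 Crest.Agent.R017.E5P571 Crest.Agent.R017.E5L770
open Crest.Agent.R017.ExBox960 Crest.Agent.R017.ExP960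
open Crest.Agent.R017.P1X960
open Crest.Agent.R017.TM708 (PD)
open Crest.Agent.R017.I1146 (LN)
open Crest.Agent.R017.E5LX770 (nB)

/-- the natural parent (= 764's `bN`) -/
def bNx (p : IX5 → ℝ) : Fin 5 → ℝ :=
  ![cκ (prX p), cu (prX p) 2, cu (prX p) 3, cu (prX p) 4, cx' (prX p)]

/-- the replaced parent (= 764's `bR`) -/
def bRx (p : IX5 → ℝ) : Fin 5 → ℝ :=
  ![cκ (prX p), p (.inr 1), cu (prX p) 2 + cu (prX p) 3 - p (.inr 1), cu (prX p) 4, cx' (prX p)]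

/-- the natural list of the data -/
def clM (a : BmX) (qs : List Pq) : List Pq := List.ofFn a.1.2.1 ++ qs

/-- **the frame of the mismatch** -/
structure Fr9X (c β : ℝ) (p : IX5 → ℝ) (X τ B H : ℝ) (N : ℕ) (a : BmX) (qs : List Pq) : Prop where
  X3 : 3 ≤ X
  L : 0 < Real.log X
  par : ParOK (prX p)
  zr : ZR β p
  l : |a.1.1.l - cκ (prX p) * Real.log X| ≤ τ * Real.log X
  z0 : 0 ≤ a.1.1.z
  z : |a.1.1.z - cx' (prX p) * Real.log X| ≤ τ * Real.log X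
  A : |a3 a.1.1.toBd - cN (prX p) * Real.log X| ≤ τ * Real.log X
  zs : |a.1.1.zs 2 - p (.inr 1) * Real.log X| ≤ τ * Real.log X
  /-- the shift of the pair -/
  hd : |dz a.1.1 - (cu (prX p) 2 - p (.inr 1)) * Real.log X| ≤ τ * Real.log X
  ζ0 : 0 ≤ a.2.2
  ζ : |a.2.2 - cx' (prX p) * Real.log X| ≤ τ * Real.log X
  g0 : 0 ≤ Real.log (nm a.2.1)
  g1 : Real.log (nm a.2.1) ≤ LN qs + τ * Real.log X
  qs0 : 0 ≤ LN qs
  qs1 : LN qs ≤ cx' (prX p) * Real.log X + τ * Real.log X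
  am : ∀ p' ∈ qs, p'.kd = .am
  cl : LN (clM a qs) = (a.1.2.1 0).z + (a.1.2.1 1).z + (a.1.2.1 2).z + LN qs
  lo : cκ (prX p) / 2 * Real.log X ≤ LN (clM a qs) - 2 * Real.log (nm a.2.1) +
    2 * cx' (prX p) * Real.log X + τ * Real.log X
  up : LN (clM a qs) ≤ (cN (prX p) + cx' (prX p)) * Real.log X + τ * Real.log X
  /-- the own number: what the lumps lost -/
  b0 : 0 ≤ a.1.2.2
  b : |a.1.2.2 - (a3 a.1.1.toBd - ((a.1.2.1 0).z + (a.1.2.1 1).z + (a.1.2.1 2).z))| ≤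
    τ * Real.log X
  b1 : 2 * a.1.2.2 ≤ (top5 (prX p) + 2 * c * cκ (prX p)) * Real.log X + τ * Real.log X
  n0 : Sf770.tO a.1.1.toBd ≤ Real.log 2 * nO a.1.1.toBd
  n1 : Real.log 2 * nO a.1.1.toBd ≤ max 0 (Sf770.tO a.1.1.toBd) + Real.log 2
  w0 : min (Sf770.tO a.1.1.toBd) (Sf770.tO a.1.1.toBd + 2 * (c * a.1.1.l) - 2 * a.1.2.2) ≤
    Real.log 2 * nW c a.1.1.toBd a.1.2.2
  w1 : Real.log 2 * nW c a.1.1.toBd a.1.2.2 ≤ max 0 (min (Sf770.tO a.1.1.toBd)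
    (Sf770.tO a.1.1.toBd + 2 * (c * a.1.1.l) - 2 * a.1.2.2)) + Real.log 2

/-- 708's frames of the two lists of a difference -/
structure FrD (p : IX5 → ℝ) (X τ B H : ℝ) (N : ℕ) (a : BmX) (qs : List Pq) : Prop where
  okd : okD a.1
  pdN : PD X τ B H N (bNx p) 1 a.1.2.1 qs a.1.1.l
  pdR : PD X τ B H N (bRx p) 1 (rzD a.1.2.1 (dz a.1.1)) qs a.1.1.l

/-- 708's frame of a single list -/
structure FrS (β : ℝ) (p : IX5 → ℝ) (X τ B H : ℝ) (N : ℕ) (a : BmX) (qs : List Pq) : Prop where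
  pd : PD X τ B H N (bNx p) 1 a.1.2.1 qs a.1.1.l ∨ PD X τ B H N (bRx p) 1 a.1.2.1 qs a.1.1.l
  lost : β * cκ (prX p) * Real.log X ≤
    a3 a.1.1.toBd - ((a.1.2.1 0).z + (a.1.2.1 1).z + (a.1.2.1 2).z) + τ * Real.log X

/-- logarithm of the target of the mismatch -/
def tgX (L0p : ℝ) (X : ℝ) (a : BmX) (qs : List Pq) : ℝ :=
  a.1.1.l + LN (clM a qs) - 2 * Real.log (nm a.2.1) + L0p * Real.log X

lemma LN_clM (a : BmX) (qs : List Pq) :
    LN (clM a qs) = (a.1.2.1 0).z + (a.1.2.1 1).z + (a.1.2.1 2).z + LN qs := by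
  unfold clM LN
  simp only [List.ofFn_succ, List.ofFn_zero, Fin.succ_zero_eq_one, Fin.succ_one_eq_two,
    List.cons_append, List.nil_append, List.map_cons, List.sum_cons]
  ring

lemma nW_lo' (c : ℝ) (a : BcX) :
    min (Sf770.tO a.1.toBd) (Sf770.tO a.1.toBd + 2 * (c * a.1.l) - 2 * a.2.2) ≤
    Real.log 2 * nW c a.1.toBd a.2.2 := by
  have h2 : 0 < Real.log 2 := Real.log_pos (by norm_num)
  unfold P1X960.nW
  rcases le_total (nO a.1.toBd) (nB (Sf770.tO a.1.toBd + 2 * (c * a.1.l)) (Real.exp a.2.2)) with h | h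
  · have e : min (nO a.1.toBd) (nB (Sf770.tO a.1.toBd + 2 * (c * a.1.toBd.l)) (Real.exp a.2.2)) =
      nO a.1.toBd := min_eq_left h
    rw [e]
    exact (min_le_left _ _).trans (Sf770.lt_nO _)
  · have e : min (nO a.1.toBd) (nB (Sf770.tO a.1.toBd + 2 * (c * a.1.toBd.l)) (Real.exp a.2.2)) =
      nB (Sf770.tO a.1.toBd + 2 * (c * a.1.l)) (Real.exp a.2.2) := min_eq_right h
    rw [e]
    refine (min_le_right _ _).trans ?_
    unfold E5LX770.nB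
    rw [Real.log_exp]
    split_ifs with h3
    · have h4 := Nat.lt_floor_add_one ((Sf770.tO a.1.toBd + 2 * (c * a.1.l) - 2 * a.2.2) /
        Real.log 2)
      rw [div_lt_iff₀ h2] at h4
      push_cast
      linarith
    · push_cast
      push Not at h3
      linarith

lemma nW_hi' (c : ℝ) (a : BcX) : Real.log 2 * nW c a.1.toBd a.2.2 ≤
    max 0 (min (Sf770.tO a.1.toBd) (Sf770.tO a.1.toBd + 2 * (c * a.1.l) - 2 * a.2.2)) +
      Real.log 2 := by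
  have h2 : 0 < Real.log 2 := Real.log_pos (by norm_num)
  have key : ∀ t : ℝ, Real.log 2 * ((⌊t / Real.log 2⌋₊ + 1 : ℕ) : ℝ) ≤
      max 0 t + Real.log 2 := by
    intro t
    push_cast
    rcases le_total 0 t with h | h
    · have h4 := Nat.floor_le (div_nonneg h h2.le)
      rw [le_div_iff₀ h2] at h4
      have h5 := le_max_right 0 t
      linarith
    · rw [Nat.floor_of_nonpos (div_nonpos_of_nonpos_of_nonneg h h2.le)]
      push_cast
      have h5 := le_max_left 0 t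
      linarith
  have hA : Real.log 2 * (nO a.1.toBd : ℝ) ≤ max 0 (Sf770.tO a.1.toBd) + Real.log 2 :=
    key (Sf770.tO a.1.toBd)
  have hB : Real.log 2 * (nB (Sf770.tO a.1.toBd + 2 * (c * a.1.l)) (Real.exp a.2.2) : ℝ) ≤
      max 0 (Sf770.tO a.1.toBd + 2 * (c * a.1.l) - 2 * a.2.2) + Real.log 2 := by
    unfold E5LX770.nB
    rw [Real.log_exp]
    split_ifs with h3
    · exact key _
    · push_cast
      have := le_max_left 0 (Sf770.tO a.1.toBd + 2 * (c * a.1.l) - 2 * a.2.2)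
      linarith
  have hm1 : (nW c a.1.toBd a.2.2 : ℝ) ≤ nO a.1.toBd := by
    exact_mod_cast (min_le_left _ _ : nW c a.1.toBd a.2.2 ≤ _)
  have hm2 : (nW c a.1.toBd a.2.2 : ℝ) ≤
      nB (Sf770.tO a.1.toBd + 2 * (c * a.1.l)) (Real.exp a.2.2) := by
    exact_mod_cast (min_le_right _ _ : nW c a.1.toBd a.2.2 ≤ _)
  have hA' := (mul_le_mul_of_nonneg_left hm1 h2.le).trans hA
  have hB' := (mul_le_mul_of_nonneg_left hm2 h2.le).trans hB
  rcases le_total (Sf770.tO a.1.toBd) (Sf770.tO a.1.toBd + 2 * (c * a.1.l) - 2 * a.2.2) with h | h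
  · rw [min_eq_left h]; exact hA'
  · rw [min_eq_right h]; exact hB'

set_option maxHeartbeats 2000000 in
/-- the frame from the data -/
theorem fr9x_of {π : DPar} {t₀ : Eis} {c β X δ τ δ' B : ℝ} {N : ℕ} {a : BmX} {qs : List Pq}
    {Par : Set (Fin 3 ⊕ Fin 5 → ℝ)} {L : (IX5 → ℝ) → ℝ → ℝ → ℝ → Prop}
    (hPar : ∀ p ∈ Par, ParOK p) (hX : 3 ≤ X) (hδ0 : 0 ≤ δ)
    (hδ : 100 * δ ≤ τ) (hlen : qs.length ≤ N)
    (hgl : ∀ p ∈ qs, Dq.lump p ∨ Dq.nl X p ≤ δ)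
    {q : (I8X ⊕ Fin 2 → ℝ) × (Kd → ℝ)} (hq : q ∈ Dom9X c β Par L)
    (hw : Win S9X q.1 δ N B δ' X a) (hm : ∀ t, |Dq.mass X qs t - q.2 t| ≤ δ)
    (hg : Dq.Good X δ' B qs)
    (hok : okCX π t₀ a.1 qs) (hgp : IsPrim a.2.1) (hζ : 0 ≤ a.2.2)
    (hnat : cN (prX (bp fun i => q.1 (.inl i))) - (q.1 (.inl (.inr 0)) + q.1 (.inl (.inr 1)) +
      q.1 (.inl (.inr 2))) ≥ 0) :
    Fr9X c β (bp fun i => q.1 (.inl i)) X τ (max B 0) (X ^ δ') N a qs ∧
      ∀ L0p : ℝ, tgX L0p X a qs ≤ (cκ (prX (bp fun i => q.1 (.inl i))) +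
        (q.1 (.inl (.inr 0)) + q.1 (.inl (.inr 1)) + q.1 (.inl (.inr 2))) + q.2 .am + L0p -
          2 * q.1 (.inr 0)) * Real.log X + τ * Real.log X := by
  have hX0 : 0 < X := by linarith
  have hX1 : 1 ≤ X := by linarith
  have hL1 : 1 < Real.log X := by
    rw [Real.lt_log_iff_exp_lt hX0]
    exact lt_of_lt_of_le Real.exp_one_lt_three hX
  have hL : 0 < Real.log X := by linarith
  obtain ⟨hbok, hsm, hlmp, hamq, hb0⟩ := hok
  obtain ⟨hq1, hq2, hq3, hq4, hq5, hq6, hq7, hq8⟩ := hq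
  beta_reduce at hq1 hq2 hq3 hq7 hq8
  set p : IX5 → ℝ := bp (fun i => q.1 (.inl i)) with hp
  have hPp := hPar _ hq1.par
  have hev : ∀ i, |S9X.ev X a i - q.1 i| ≤ δ := hw.ev
  have hdiv : ∀ {z c : ℝ}, |z / Real.log X - c| ≤ δ →
      |z - c * Real.log X| ≤ δ * Real.log X := by
    intro z c h1
    have h2 : z - c * Real.log X = (z / Real.log X - c) * Real.log X := by field_simp
    rw [h2, abs_mul, abs_of_pos hL]
    exact mul_le_mul_of_nonneg_right h1 hL.le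
  have hk : |a.1.1.l - cκ (prX p) * Real.log X| ≤ δ * Real.log X :=
    hdiv (hev (.inl (.inl (.inl (.inl 0)))))
  have hz : |a.1.1.z - cx' (prX p) * Real.log X| ≤ δ * Real.log X :=
    hdiv (hev (.inl (.inl (.inl (.inl 1)))))
  have hu2 : |(a.1.1.us 2).z - cu (prX p) 2 * Real.log X| ≤ δ * Real.log X :=
    hdiv (hev (.inl (.inl (.inl (.inr 2)))))
  have hu3 : |(a.1.1.us 3).z - cu (prX p) 3 * Real.log X| ≤ δ * Real.log X :=
    hdiv (hev (.inl (.inl (.inl (.inr 3)))))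
  have hu4 : |(a.1.1.us 4).z - cu (prX p) 4 * Real.log X| ≤ δ * Real.log X :=
    hdiv (hev (.inl (.inl (.inl (.inr 4)))))
  have hzs : |a.1.1.zs 2 - p (.inr 1) * Real.log X| ≤ δ * Real.log X :=
    hdiv (hev (.inl (.inl (.inr 1))))
  have hv0 : |(a.1.2.1 0).z - q.1 (.inl (.inr 0)) * Real.log X| ≤ δ * Real.log X :=
    hdiv (hev (.inl (.inr 0)))
  have hv1 : |(a.1.2.1 1).z - q.1 (.inl (.inr 1)) * Real.log X| ≤ δ * Real.log X :=
    hdiv (hev (.inl (.inr 1)))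
  have hv2 : |(a.1.2.1 2).z - q.1 (.inl (.inr 2)) * Real.log X| ≤ δ * Real.log X :=
    hdiv (hev (.inl (.inr 2)))
  have hbw : |a.1.2.2 - q.1 (.inl (.inr 3)) * Real.log X| ≤ δ * Real.log X :=
    hdiv (hev (.inl (.inr 3)))
  have hg0 : |Real.log (nm a.2.1) - q.1 (.inr 0) * Real.log X| ≤ δ * Real.log X :=
    hdiv (hev (.inr 0))
  have hg1 : |a.2.2 - q.1 (.inr 1) * Real.log X| ≤ δ * Real.log X := hdiv (hev (.inr 1))
  have hma : |LN qs - q.2 .am * Real.log X| ≤ δ * Real.log X := by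
    have h1 := hm .am
    rw [mass_am hamq] at h1
    exact hdiv h1
  have hA : |a3 a.1.1.toBd - cN (prX p) * Real.log X| ≤ 3 * (δ * Real.log X) := by
    have e1 : a3 a.1.1.toBd - cN (prX p) * Real.log X =
        ((a.1.1.us 2).z - cu (prX p) 2 * Real.log X) +
        ((a.1.1.us 3).z - cu (prX p) 3 * Real.log X) +
        ((a.1.1.us 4).z - cu (prX p) 4 * Real.log X) := by
      unfold E5L770.a3 cN; ring
    rw [e1]
    refine (abs_add_le _ _).trans ?_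
    have := abs_add_le ((a.1.1.us 2).z - cu (prX p) 2 * Real.log X)
      ((a.1.1.us 3).z - cu (prX p) 3 * Real.log X)
    linarith
  obtain ⟨k1, k2⟩ := abs_le.1 hk
  obtain ⟨z1, z2⟩ := abs_le.1 hz
  obtain ⟨u21, u22⟩ := abs_le.1 hu2
  obtain ⟨s1, s2⟩ := abs_le.1 hzs
  obtain ⟨v01, v02⟩ := abs_le.1 hv0
  obtain ⟨v11, v12⟩ := abs_le.1 hv1
  obtain ⟨v21, v22⟩ := abs_le.1 hv2
  obtain ⟨b1, b2⟩ := abs_le.1 hbw
  obtain ⟨m1, m2⟩ := abs_le.1 hma
  obtain ⟨A1, A2⟩ := abs_le.1 hA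
  obtain ⟨G1, G2⟩ := abs_le.1 hg0
  have hq7' : q.1 (.inr 1) = cx' (prX p) := hq7
  rw [hq7'] at hg1
  have hq3' : q.1 (.inl (.inr 3)) = cN (prX p) - (q.1 (.inl (.inr 0)) + q.1 (.inl (.inr 1)) +
    q.1 (.inl (.inr 2))) := hq3
  have hx1 : q.2 .am ≤ cx' (prX p) := hq1.x1
  have hb1 : 2 * q.1 (.inl (.inr 3)) ≤ top5 (prX p) + 2 * c * cκ (prX p) := hq1.b1
  have hq6' : q.1 (.inr 0) ≤ q.2 .am := hq6
  have hnz : LN (clM a qs) = (a.1.2.1 0).z + (a.1.2.1 1).z + (a.1.2.1 2).z + LN qs :=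
    LN_clM a qs
  have hLqs : 0 ≤ LN qs := by
    unfold LN
    refine List.sum_nonneg fun x hx => ?_
    obtain ⟨p', hp', rfl⟩ := List.mem_map.1 hx
    exact (hg p' hp').2.2
  have hδL : 0 ≤ δ * Real.log X := by positivity
  have hδτL : 100 * (δ * Real.log X) ≤ τ * Real.log X := by
    have := mul_le_mul_of_nonneg_right hδ hL.le
    linarith
  have hnatL := mul_nonneg hnat hL.le
  have hx1L := mul_le_mul_of_nonneg_right hx1 hL.le
  have hq6L := mul_le_mul_of_nonneg_right hq6' hL.le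
  have hq8L := mul_le_mul_of_nonneg_right hq8 hL.le
  have hb1L := mul_le_mul_of_nonneg_right hb1 hL.le
  have hq3L : q.1 (.inl (.inr 3)) * Real.log X = (cN (prX p) - (q.1 (.inl (.inr 0)) +
    q.1 (.inl (.inr 1)) + q.1 (.inl (.inr 2)))) * Real.log X := by rw [hq3']
  have hgn : (1 : ℝ) ≤ nm a.2.1 := by exact_mod_cast nm_pos.2 hgp.ne_zero
  have hlog2 : 0 < Real.log 2 := Real.log_pos (by norm_num)
  refine ⟨⟨hX, hL, hPp, hq1.zr, hk.trans (by linarith), hbok.1.2.1, hz.trans (by linarith),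
    hA.trans (by linarith), hzs.trans (by linarith), ?_, hζ, hg1.trans (by linarith),
    Real.log_nonneg hgn, ?_, hLqs, ?_, hamq, hnz, ?_, ?_, hb0, ?_, ?_, Sf770.lt_nO _, ?_,
    nW_lo' c a.1, nW_hi' c a.1⟩, ?_⟩
  · -- the shift
    have e1 : dz a.1.1 - (cu (prX p) 2 - p (.inr 1)) * Real.log X =
        ((a.1.1.us 2).z - cu (prX p) 2 * Real.log X) -
          (a.1.1.zs 2 - p (.inr 1) * Real.log X) := by
      unfold dz; ring
    rw [e1]
    refine (abs_sub _ _).trans ?_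
    linarith
  · linarith
  · linarith
  · rw [hnz]
    linarith
  · rw [hnz]
    linarith
  · rw [abs_le]
    constructor <;> linarith
  · linarith
  · have hnO : nO a.1.1.toBd = ⌊Sf770.tO a.1.1.toBd / Real.log 2⌋₊ + 1 := rfl
    rw [hnO]
    push_cast
    rcases le_total 0 (Sf770.tO a.1.1.toBd) with h0 | h0
    · have h1 := Nat.floor_le (div_nonneg h0 hlog2.le)
      rw [le_div_iff₀ hlog2] at h1
      have h2 := le_max_right 0 (Sf770.tO a.1.1.toBd)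
      linarith
    · rw [Nat.floor_of_nonpos (div_nonpos_of_nonpos_of_nonneg h0 hlog2.le)]
      have h2 := le_max_left 0 (Sf770.tO a.1.1.toBd)
      push_cast
      linarith
  · intro L0p
    unfold tgX
    rw [hnz]
    linarith

/-- the data of `Dom9X` at a difference -/
theorem frD_of {π : DPar} {t₀ : Eis} {c β X δ τ δ' B : ℝ} {N : ℕ} {a : BmX} {qs : List Pq}
    {Par : Set (Fin 3 ⊕ Fin 5 → ℝ)}
    (hX : 3 ≤ X) (hδ0 : 0 ≤ δ)
    (hδ : 100 * δ ≤ τ) (hδ' : 0 ≤ δ') (hlen : qs.length ≤ N)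
    (hgl : ∀ p ∈ qs, Dq.lump p ∨ Dq.nl X p ≤ δ)
    {q : (I8X ⊕ Fin 2 → ℝ) × (Kd → ℝ)} (hq : q ∈ Dom9X c β Par DifL)
    (hw : Win S9X q.1 δ N B δ' X a) (hm : ∀ t, |Dq.mass X qs t - q.2 t| ≤ δ)
    (hg : Dq.Good X δ' B qs)
    (hl : ∀ p ∈ qs, Dq.lump p → (S9X.ev X a, Dq.nl X p) ∈ (∅ : Set ((I8X ⊕ Fin 2 → ℝ) × ℝ)))
    (hok : okCX π t₀ a.1 qs) (hD : okD a.1) :
    FrD (bp fun i => q.1 (.inl i)) X τ (max B 0) (X ^ δ') N a qs := by
  have hX0 : 0 < X := by linarith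
  have hX1 : 1 ≤ X := by linarith
  have hL1 : 1 < Real.log X := by
    rw [Real.lt_log_iff_exp_lt hX0]
    exact lt_of_lt_of_le Real.exp_one_lt_three hX
  have hL : 0 < Real.log X := by linarith
  obtain ⟨hbok, hsm, hlmp, hamq, hb0⟩ := hok
  obtain ⟨hq1, hq2, hq3, hq4, hq5, hq6, hq7, hq8⟩ := hq
  beta_reduce at hq1 hq2 hq3 hq7 hq8
  set p : IX5 → ℝ := bp (fun i => q.1 (.inl i)) with hp
  have hev : ∀ i, |S9X.ev X a i - q.1 i| ≤ δ := hw.ev
  have hdiv : ∀ {z c : ℝ}, |z / Real.log X - c| ≤ δ →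
      |z - c * Real.log X| ≤ δ * Real.log X := by
    intro z c h1
    have h2 : z - c * Real.log X = (z / Real.log X - c) * Real.log X := by field_simp
    rw [h2, abs_mul, abs_of_pos hL]
    exact mul_le_mul_of_nonneg_right h1 hL.le
  have hk : |a.1.1.l - cκ (prX p) * Real.log X| ≤ δ * Real.log X :=
    hdiv (hev (.inl (.inl (.inl (.inl 0)))))
  have hu2 : |(a.1.1.us 2).z - cu (prX p) 2 * Real.log X| ≤ δ * Real.log X :=
    hdiv (hev (.inl (.inl (.inl (.inr 2)))))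
  have hzs : |a.1.1.zs 2 - p (.inr 1) * Real.log X| ≤ δ * Real.log X :=
    hdiv (hev (.inl (.inl (.inr 1))))
  have hv0 : |(a.1.2.1 0).z - q.1 (.inl (.inr 0)) * Real.log X| ≤ δ * Real.log X :=
    hdiv (hev (.inl (.inr 0)))
  have hv1 : |(a.1.2.1 1).z - q.1 (.inl (.inr 1)) * Real.log X| ≤ δ * Real.log X :=
    hdiv (hev (.inl (.inr 1)))
  have hv2 : |(a.1.2.1 2).z - q.1 (.inl (.inr 2)) * Real.log X| ≤ δ * Real.log X :=
    hdiv (hev (.inl (.inr 2)))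
  have hma : |LN qs - q.2 .am * Real.log X| ≤ δ * Real.log X := by
    have h1 := hm .am
    rw [mass_am hamq] at h1
    exact hdiv h1
  obtain ⟨u21, u22⟩ := abs_le.1 hu2
  obtain ⟨s1, s2⟩ := abs_le.1 hzs
  obtain ⟨v01, v02⟩ := abs_le.1 hv0
  obtain ⟨v11, v12⟩ := abs_le.1 hv1
  obtain ⟨v21, v22⟩ := abs_le.1 hv2
  obtain ⟨m1, m2⟩ := abs_le.1 hma
  have w0 : q.1 (.inl (.inr 0)) ≤ cu (prX p) 2 := hq2.1.1
  have w1 : q.1 (.inl (.inr 1)) ≤ cu (prX p) 3 := hq2.1.2.1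
  have w2 : q.1 (.inl (.inr 2)) ≤ cu (prX p) 4 := hq2.1.2.2
  have hx1 : q.2 .am ≤ cx' (prX p) := hq1.x1
  have hδL : 0 ≤ δ * Real.log X := by positivity
  have hδτL : 100 * (δ * Real.log X) ≤ τ * Real.log X := by
    have := mul_le_mul_of_nonneg_right hδ hL.le
    linarith
  have w0L := mul_le_mul_of_nonneg_right w0 hL.le
  have w1L := mul_le_mul_of_nonneg_right w1 hL.le
  have w2L := mul_le_mul_of_nonneg_right w2 hL.le
  have hx1L := mul_le_mul_of_nonneg_right hx1 hL.le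
  have hBm : X ^ B ≤ X ^ (max B 0) := Real.rpow_le_rpow_of_exponent_le hX1 (le_max_left _ _)
  have hs1 : ∀ i, Dq.s1 (a.1.2.1 i) ≤ X ^ δ' := by
    intro i
    have h1 : mx Dq.s1 (List.ofFn a.1.2.1) ≤ X ^ δ' := (le_max_right _ _).trans hw.s₁
    exact (XT71.le_mx (List.mem_ofFn.2 ⟨i, rfl⟩)).trans h1
  have hs2 : ∀ i, Dq.s2 (a.1.2.1 i) ≤ X ^ (max B 0) := by
    intro i
    have h1 : mx Dq.s2 (List.ofFn a.1.2.1) ≤ X ^ B := (le_max_right _ _).trans hw.s₂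
    exact ((XT71.le_mx (List.mem_ofFn.2 ⟨i, rfl⟩)).trans h1).trans hBm
  have hgran : ∀ p' ∈ qs, p'.z ≤ δ * Real.log X := by
    intro p' hp'
    rcases hgl p' hp' with h1 | h1
    · exact absurd (hl p' hp' h1) (Set.notMem_empty _)
    · unfold Pcs.nl at h1
      rw [div_le_iff₀ hL] at h1
      exact h1
  have ham : ∀ p' ∈ qs, p'.kd = .am ∧ 0 ≤ p'.z ∧ p'.z ≤ τ * Real.log X ∧
      (nm p'.d : ℝ) ≤ X ^ (max B 0) ∧ 1 + |p'.t| ≤ X ^ δ' := by
    intro p' hp'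
    obtain ⟨s1', s2', z0'⟩ := hg p' hp'
    exact ⟨hamq p' hp', z0', (hgran p' hp').trans (by linarith), s2'.trans hBm, s1'⟩
  have hH1 : 1 ≤ X ^ δ' := Real.one_le_rpow hX1 hδ'
  have hn1 : ((nm (1 : Eis) : ℕ) : ℝ) ≤ X ^ (max B 0) := by
    rw [nm_one, Nat.cast_one]
    exact Real.one_le_rpow hX1 (le_max_right _ _)
  have hdz : dz a.1.1 = (a.1.1.us 2).z - a.1.1.zs 2 := rfl
  refine ⟨hD, ?_, ?_⟩
  · refine ⟨one_ne_zero, hn1, hH1, fun i => (hlmp i).1,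
      fun i => (hlmp i).2, fun i => hs2 i, fun i => hs1 i, ?_, ?_, ?_, ham, hlen, ?_, ?_⟩
    · show (a.1.2.1 0).z ≤ (cu (prX p) 2 + τ) * Real.log X
      linarith
    · show (a.1.2.1 1).z ≤ (cu (prX p) 3 + τ) * Real.log X
      linarith
    · show (a.1.2.1 2).z ≤ (cu (prX p) 4 + τ) * Real.log X
      linarith
    · show LN qs ≤ (cx' (prX p) + τ) * Real.log X
      linarith
    · show |a.1.1.l - cκ (prX p) * Real.log X| ≤ τ * Real.log X
      exact hk.trans (by linarith)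
  · refine ⟨one_ne_zero, hn1, hH1, ?_, ?_, ?_, ?_, ?_, ?_, ?_, ham, hlen, ?_, ?_⟩
    · intro i
      fin_cases i
      · exact (hlmp 0).1
      · exact (hlmp 1).1
      · exact (hlmp 2).1
    · intro i
      fin_cases i
      · exact hD.1
      · exact hD.2
      · exact (hlmp 2).2
    · intro i
      fin_cases i
      · exact hs2 0
      · exact hs2 1
      · exact hs2 2
    · intro i
      fin_cases i
      · exact hs1 0
      · exact hs1 1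
      · exact hs1 2
    · show (a.1.2.1 0).z - dz a.1.1 ≤ (p (.inr 1) + τ) * Real.log X
      rw [hdz]
      linarith
    · show (a.1.2.1 1).z + dz a.1.1 ≤ (cu (prX p) 2 + cu (prX p) 3 - p (.inr 1) + τ) * Real.log X
      rw [hdz]
      linarith
    · show (a.1.2.1 2).z ≤ (cu (prX p) 4 + τ) * Real.log X
      linarith
    · show LN qs ≤ (cx' (prX p) + τ) * Real.log X
      linarith
    · show |a.1.1.l - cκ (prX p) * Real.log X| ≤ τ * Real.log X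
      exact hk.trans (by linarith)

/-- the data of `Dom9X` at a single list -/
theorem frS_of {π : DPar} {t₀ : Eis} {c β X δ τ δ' B : ℝ} {N : ℕ} {a : BmX} {qs : List Pq}
    {Par : Set (Fin 3 ⊕ Fin 5 → ℝ)}
    (hX : 3 ≤ X) (hδ0 : 0 ≤ δ)
    (hδ : 100 * δ ≤ τ) (hδ' : 0 ≤ δ') (hlen : qs.length ≤ N)
    (hgl : ∀ p ∈ qs, Dq.lump p ∨ Dq.nl X p ≤ δ)
    {q : (I8X ⊕ Fin 2 → ℝ) × (Kd → ℝ)} (hq : q ∈ Dom9X c β Par (SinL β))
    (hw : Win S9X q.1 δ N B δ' X a) (hm : ∀ t, |Dq.mass X qs t - q.2 t| ≤ δ)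
    (hg : Dq.Good X δ' B qs)
    (hl : ∀ p ∈ qs, Dq.lump p → (S9X.ev X a, Dq.nl X p) ∈ (∅ : Set ((I8X ⊕ Fin 2 → ℝ) × ℝ)))
    (hok : okCX π t₀ a.1 qs) :
    FrS β (bp fun i => q.1 (.inl i)) X τ (max B 0) (X ^ δ') N a qs := by
  have hX0 : 0 < X := by linarith
  have hX1 : 1 ≤ X := by linarith
  have hL1 : 1 < Real.log X := by
    rw [Real.lt_log_iff_exp_lt hX0]
    exact lt_of_lt_of_le Real.exp_one_lt_three hX
  have hL : 0 < Real.log X := by linarith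
  obtain ⟨hbok, hsm, hlmp, hamq, hb0⟩ := hok
  obtain ⟨hq1, hq2, hq3, hq4, hq5, hq6, hq7, hq8⟩ := hq
  beta_reduce at hq1 hq2 hq3 hq7 hq8
  set p : IX5 → ℝ := bp (fun i => q.1 (.inl i)) with hp
  have hev : ∀ i, |S9X.ev X a i - q.1 i| ≤ δ := hw.ev
  have hdiv : ∀ {z c : ℝ}, |z / Real.log X - c| ≤ δ →
      |z - c * Real.log X| ≤ δ * Real.log X := by
    intro z c h1
    have h2 : z - c * Real.log X = (z / Real.log X - c) * Real.log X := by field_simp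
    rw [h2, abs_mul, abs_of_pos hL]
    exact mul_le_mul_of_nonneg_right h1 hL.le
  have hk : |a.1.1.l - cκ (prX p) * Real.log X| ≤ δ * Real.log X :=
    hdiv (hev (.inl (.inl (.inl (.inl 0)))))
  have hu2 : |(a.1.1.us 2).z - cu (prX p) 2 * Real.log X| ≤ δ * Real.log X :=
    hdiv (hev (.inl (.inl (.inl (.inr 2)))))
  have hu3 : |(a.1.1.us 3).z - cu (prX p) 3 * Real.log X| ≤ δ * Real.log X :=
    hdiv (hev (.inl (.inl (.inl (.inr 3)))))
  have hu4 : |(a.1.1.us 4).z - cu (prX p) 4 * Real.log X| ≤ δ * Real.log X :=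
    hdiv (hev (.inl (.inl (.inl (.inr 4)))))
  have hv0 : |(a.1.2.1 0).z - q.1 (.inl (.inr 0)) * Real.log X| ≤ δ * Real.log X :=
    hdiv (hev (.inl (.inr 0)))
  have hv1 : |(a.1.2.1 1).z - q.1 (.inl (.inr 1)) * Real.log X| ≤ δ * Real.log X :=
    hdiv (hev (.inl (.inr 1)))
  have hv2 : |(a.1.2.1 2).z - q.1 (.inl (.inr 2)) * Real.log X| ≤ δ * Real.log X :=
    hdiv (hev (.inl (.inr 2)))
  have hma : |LN qs - q.2 .am * Real.log X| ≤ δ * Real.log X := by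
    have h1 := hm .am
    rw [mass_am hamq] at h1
    exact hdiv h1
  have hA : |a3 a.1.1.toBd - cN (prX p) * Real.log X| ≤ 3 * (δ * Real.log X) := by
    have e1 : a3 a.1.1.toBd - cN (prX p) * Real.log X =
        ((a.1.1.us 2).z - cu (prX p) 2 * Real.log X) +
        ((a.1.1.us 3).z - cu (prX p) 3 * Real.log X) +
        ((a.1.1.us 4).z - cu (prX p) 4 * Real.log X) := by
      unfold E5L770.a3 cN; ring
    rw [e1]
    refine (abs_add_le _ _).trans ?_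
    have := abs_add_le ((a.1.1.us 2).z - cu (prX p) 2 * Real.log X)
      ((a.1.1.us 3).z - cu (prX p) 3 * Real.log X)
    linarith
  obtain ⟨v01, v02⟩ := abs_le.1 hv0
  obtain ⟨v11, v12⟩ := abs_le.1 hv1
  obtain ⟨v21, v22⟩ := abs_le.1 hv2
  obtain ⟨m1, m2⟩ := abs_le.1 hma
  obtain ⟨A1, A2⟩ := abs_le.1 hA
  have hx1 : q.2 .am ≤ cx' (prX p) := hq1.x1
  have hlo : β * cκ (prX p) ≤ cN (prX p) - (q.1 (.inl (.inr 0)) + q.1 (.inl (.inr 1)) +
    q.1 (.inl (.inr 2))) := hq2.2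
  have hδL : 0 ≤ δ * Real.log X := by positivity
  have hδτL : 100 * (δ * Real.log X) ≤ τ * Real.log X := by
    have := mul_le_mul_of_nonneg_right hδ hL.le
    linarith
  have hx1L := mul_le_mul_of_nonneg_right hx1 hL.le
  have hloL := mul_le_mul_of_nonneg_right hlo hL.le
  have hBm : X ^ B ≤ X ^ (max B 0) := Real.rpow_le_rpow_of_exponent_le hX1 (le_max_left _ _)
  have hs1 : ∀ i, Dq.s1 (a.1.2.1 i) ≤ X ^ δ' := by
    intro i
    have h1 : mx Dq.s1 (List.ofFn a.1.2.1) ≤ X ^ δ' := (le_max_right _ _).trans hw.s₁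
    exact (XT71.le_mx (List.mem_ofFn.2 ⟨i, rfl⟩)).trans h1
  have hs2 : ∀ i, Dq.s2 (a.1.2.1 i) ≤ X ^ (max B 0) := by
    intro i
    have h1 : mx Dq.s2 (List.ofFn a.1.2.1) ≤ X ^ B := (le_max_right _ _).trans hw.s₂
    exact ((XT71.le_mx (List.mem_ofFn.2 ⟨i, rfl⟩)).trans h1).trans hBm
  have hgran : ∀ p' ∈ qs, p'.z ≤ δ * Real.log X := by
    intro p' hp'
    rcases hgl p' hp' with h1 | h1
    · exact absurd (hl p' hp' h1) (Set.notMem_empty _)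
    · unfold Pcs.nl at h1
      rw [div_le_iff₀ hL] at h1
      exact h1
  have ham : ∀ p' ∈ qs, p'.kd = .am ∧ 0 ≤ p'.z ∧ p'.z ≤ τ * Real.log X ∧
      (nm p'.d : ℝ) ≤ X ^ (max B 0) ∧ 1 + |p'.t| ≤ X ^ δ' := by
    intro p' hp'
    obtain ⟨s1', s2', z0'⟩ := hg p' hp'
    exact ⟨hamq p' hp', z0', (hgran p' hp').trans (by linarith), s2'.trans hBm, s1'⟩
  have hH1 : 1 ≤ X ^ δ' := Real.one_le_rpow hX1 hδ'
  have hn1 : ((nm (1 : Eis) : ℕ) : ℝ) ≤ X ^ (max B 0) := by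
    rw [nm_one, Nat.cast_one]
    exact Real.one_le_rpow hX1 (le_max_right _ _)
  refine ⟨?_, by linarith⟩
  rcases hq2.1 with hn | hr
  · left
    have w0L := mul_le_mul_of_nonneg_right hn.1 hL.le
    have w1L := mul_le_mul_of_nonneg_right hn.2.1 hL.le
    have w2L := mul_le_mul_of_nonneg_right hn.2.2 hL.le
    refine ⟨one_ne_zero, hn1, hH1, fun i => (hlmp i).1,
      fun i => (hlmp i).2, fun i => hs2 i, fun i => hs1 i, ?_, ?_, ?_, ham, hlen, ?_, ?_⟩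
    · show (a.1.2.1 0).z ≤ (cu (prX p) 2 + τ) * Real.log X
      linarith
    · show (a.1.2.1 1).z ≤ (cu (prX p) 3 + τ) * Real.log X
      linarith
    · show (a.1.2.1 2).z ≤ (cu (prX p) 4 + τ) * Real.log X
      linarith
    · show LN qs ≤ (cx' (prX p) + τ) * Real.log X
      linarith
    · show |a.1.1.l - cκ (prX p) * Real.log X| ≤ τ * Real.log X
      exact hk.trans (by linarith)
  · right
    have w0L := mul_le_mul_of_nonneg_right hr.1 hL.le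
    have w1L := mul_le_mul_of_nonneg_right hr.2.1 hL.le
    have w2L := mul_le_mul_of_nonneg_right hr.2.2 hL.le
    refine ⟨one_ne_zero, hn1, hH1, fun i => (hlmp i).1,
      fun i => (hlmp i).2, fun i => hs2 i, fun i => hs1 i, ?_, ?_, ?_, ham, hlen, ?_, ?_⟩
    · show (a.1.2.1 0).z ≤ (p (.inr 1) + τ) * Real.log X
      linarith
    · show (a.1.2.1 1).z ≤ (cu (prX p) 2 + cu (prX p) 3 - p (.inr 1) + τ) * Real.log X
      linarith
    · show (a.1.2.1 2).z ≤ (cu (prX p) 4 + τ) * Real.log X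
      linarith
    · show LN qs ≤ (cx' (prX p) + τ) * Real.log X
      linarith
    · show |a.1.1.l - cκ (prX p) * Real.log X| ≤ τ * Real.log X
      exact hk.trans (by linarith)

section
variable {Λ : Type*} (π : Λ → DPar) (h : ℝ → ℝ) (e0 c : ℝ)

/-- **the classes in the frame**, `ok` : admissible data, `α` : the lumps, `Fx` : 708's frames -/
def P1CGF (ok : Λ × Eis → BmX → List Pq → Prop) (α : Λ × Eis → BmX → Eis → ℂ)
    (Fx : (IX5 → ℝ) → ℝ → ℝ → ℝ → ℝ → ℕ → BmX → List Pq → Prop)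
    (β : ℝ) (Par : Set (Fin 3 ⊕ Fin 5 → ℝ)) (L0 : (Fin 3 ⊕ Fin 5 → ℝ) → ℝ) : Prop :=
  ∀ R : Λ → ℝ, (∀ lam, 0 ≤ R lam) → ∀ ε : ℝ, 0 < ε → ∃ τ : ℝ, 0 < τ ∧
    ∀ (lam : Λ × Eis) (N : ℕ) (B : ℝ), 0 ≤ B → ∃ J M₀ : ℕ, ∃ X₀ : ℝ, 1 < X₀ ∧
      ∀ X : ℝ, X₀ ≤ X → ∀ H : ℝ, 1 ≤ H → ∀ p : IX5 → ℝ, prX p ∈ Par →
      ∀ (a : BmX) (qs : List Pq),
      Fr9X c β p X τ B H N a qs → Fx p X τ B H N a qs →
      (ok lam a qs ∧ IsPrim a.2.1 ∧ Squarefree a.2.1 ∧ 0 ≤ a.2.2 ∧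
        (∀ n, ηC π h lam qs n ≠ 0 → (nm n : ℝ) ≤ Real.exp a.2.2) ∧
        a.2.1 ∈ S (Real.exp a.2.2)) →
      ∀ (cc : Fin 5) (i : ℕ) (b : Eis) (s : ℝ),
      i ∈ I5 a.2.1 (nM (nO a.1.1.toBd) a.2.2) (nW c a.1.1.toBd a.1.2.2) (Real.exp a.2.2) cc →
      b ∈ dvs a.2.1 →
      M2 (uM (R lam.1) (Real.exp a.1.1.l) (Real.exp (a.1.1.l / 20)))
        (SteT (JB (DM (nO a.1.1.toBd) a.2.2)) (omp (a.2.1 / b) i s)
          (Real.exp (e0 * a.1.1.l) * Real.exp a.2.2)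
          (T3 (afrb (gt5 (Real.exp (e0 * a.1.1.l)) (Real.exp a.2.2) a.2.1 cc) (q5 a.2.1 cc)
            (Real.exp a.2.2) (ηC π h lam qs) (α lam a) a.2.1 b s))) ≤
        H ^ M₀ * X ^ ε * Real.exp (tgX (L0 (prX p)) X a qs) * (1 + |s|) ^ J

/-- **the classes of the differences in the frame** -/
def P1CXF (β : ℝ) (Par : Set (Fin 3 ⊕ Fin 5 → ℝ)) (L0 : (Fin 3 ⊕ Fin 5 → ℝ) → ℝ) : Prop :=
  P1CGF π h e0 c (okX π) (αX π h) FrD β Par L0

/-- **the classes of the single lists in the frame** -/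
def P1CSF (β : ℝ) (Par : Set (Fin 3 ⊕ Fin 5 → ℝ)) (L0 : (Fin 3 ⊕ Fin 5 → ℝ) → ℝ) : Prop :=
  P1CGF π h e0 c (okS π) (αS π h) (FrS β) β Par L0

end

set_option maxHeartbeats 1000000 in
/-- **the classes from the classes in the frame** -/
theorem p1CG_of_frame {Λ : Type*} {π : Λ → DPar} {h : ℝ → ℝ} {e0 c β : ℝ}
    {ok : Λ × Eis → BmX → List Pq → Prop} {α : Λ × Eis → BmX → Eis → ℂ}
    {Fx : (IX5 → ℝ) → ℝ → ℝ → ℝ → ℝ → ℕ → BmX → List Pq → Prop}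
    {L : (IX5 → ℝ) → ℝ → ℝ → ℝ → Prop}
    {Par : Set (Fin 3 ⊕ Fin 5 → ℝ)} {L0 : (Fin 3 ⊕ Fin 5 → ℝ) → ℝ} (hPar : ∀ p ∈ Par, ParOK p)
    (hok1 : ∀ lam a qs, ok lam a qs → okCX (π lam.1) lam.2 a.1 qs)
    (hL : ∀ p v₀ v₁ v₂, L p v₀ v₁ v₂ → v₀ + v₁ + v₂ ≤ cN (prX p))
    (hFx : ∀ (lam : Λ × Eis) (X δ τ δ' B : ℝ) (N : ℕ) (a : BmX) (qs : List Pq), 3 ≤ X → 0 ≤ δ →
      100 * δ ≤ τ → 0 ≤ δ' → qs.length ≤ N → (∀ p ∈ qs, Dq.lump p ∨ Dq.nl X p ≤ δ) →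
      ∀ q ∈ Dom9X c β Par L, Win S9X q.1 δ N B δ' X a → (∀ t, |Dq.mass X qs t - q.2 t| ≤ δ) →
      Dq.Good X δ' B qs →
      (∀ p ∈ qs, Dq.lump p → (S9X.ev X a, Dq.nl X p) ∈ (∅ : Set ((I8X ⊕ Fin 2 → ℝ) × ℝ))) →
      ok lam a qs → Fx (bp fun i => q.1 (.inl i)) X τ (max B 0) (X ^ δ') N a qs)
    (Hf : P1CGF π h e0 c ok α Fx β Par L0) : P1CG π h e0 c ok α β Par L0 L := by
  intro R hR ε hε
  obtain ⟨τ, hτ, Hf⟩ := Hf R hR (ε / 4) (by positivity)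
  obtain ⟨δ, hδ, hδ1, hδ2⟩ : ∃ δ : ℝ, 0 < δ ∧ 100 * δ ≤ τ ∧ 100 * δ ≤ ε / 4 :=
    ⟨min (τ / 100) (ε / 400), lt_min (by positivity) (by positivity),
      by linarith [min_le_left (τ / 100) (ε / 400)],
      by linarith [min_le_right (τ / 100) (ε / 400)]⟩
  refine ⟨δ, hδ, ?_⟩
  intro lam N B
  obtain ⟨J, M₀, X₁, hX₁, Hf⟩ := Hf lam N (max B 0) (le_max_right _ _)
  have hM1 : (0 : ℝ) < M₀ + 1 := by positivity
  refine ⟨J, ε / (4 * (M₀ + 1)), by positivity, max X₁ 3,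
    lt_of_lt_of_le hX₁ (le_max_left _ _), ?_⟩
  intro X hX a qs hlen hgl q hq hw hm hg hl cc i b s
  have hX1' : X₁ ≤ X := (le_max_left _ _).trans hX
  have hX3 : 3 ≤ X := (le_max_right _ _).trans hX
  have hX0 : 0 < X := by linarith
  have hX1 : 1 ≤ X := by linarith
  have hs0 : (0 : ℝ) ≤ 1 + |s| := by positivity
  unfold CkG
  split_ifs with hif
  swap
  · positivity
  obtain ⟨hok, hi, hb⟩ := hif
  have hd0 : 0 ≤ ε / (4 * ((M₀ : ℝ) + 1)) := by positivity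
  have hokc := hok1 _ _ _ hok.1
  have hnat := hL _ _ _ _ hq.2.1
  have hnat' : cN (prX (bp fun i => q.1 (.inl i))) - (q.1 (.inl (.inr 0)) +
      q.1 (.inl (.inr 1)) + q.1 (.inl (.inr 2))) ≥ 0 := by
    have : q.1 (.inl (.inr 0)) + q.1 (.inl (.inr 1)) + q.1 (.inl (.inr 2)) ≤
      cN (prX (bp fun i => q.1 (.inl i))) := hnat
    linarith
  obtain ⟨F, -⟩ := fr9x_of (τ := τ) (δ' := ε / (4 * ((M₀ : ℝ) + 1))) hPar hX3 hδ.le hδ1 hlen hgl
    hq hw hm hg hokc hok.2.1 hok.2.2.2.1 hnat'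
  obtain ⟨-, T⟩ := fr9x_of (τ := ε / 4) (δ' := ε / (4 * ((M₀ : ℝ) + 1))) hPar hX3 hδ.le hδ2 hlen
    hgl hq hw hm hg hokc hok.2.1 hok.2.2.2.1 hnat'
  have F2 := hFx lam X δ τ _ B N a qs hX3 hδ.le hδ1 hd0 hlen hgl q hq hw hm hg hl hok.1
  have h1 := Hf X hX1' _ (Real.one_le_rpow hX1 hd0) _ hq.1.par a qs F F2 hok cc i b s hi hb
  refine h1.trans (mul_le_mul_of_nonneg_right ?_ (by positivity))
  have h2 := T (L0 (prX (bp fun i => q.1 (.inl i))))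
  have e1 : (X ^ (ε / (4 * ((M₀ : ℝ) + 1)))) ^ M₀ ≤ X ^ (ε / 4) := by
    rw [← Real.rpow_natCast, ← Real.rpow_mul hX0.le]
    refine Real.rpow_le_rpow_of_exponent_le hX1 ?_
    rw [div_mul_eq_mul_div, div_le_div_iff₀ (by positivity) (by norm_num)]
    nlinarith
  have e2 : Real.exp (tgX (L0 (prX (bp fun i => q.1 (.inl i)))) X a qs) ≤
      X ^ (E9X L0 q + ε / 4) := by
    rw [Real.rpow_def_of_pos hX0]
    refine Real.exp_le_exp.2 (h2.trans (le_of_eq ?_))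
    unfold E9X E8X
    ring
  calc _ ≤ X ^ (ε / 4) * X ^ (ε / 4) * X ^ (E9X L0 q + ε / 4) := by
        refine mul_le_mul (mul_le_mul_of_nonneg_right e1 (by positivity)) e2
          (Real.exp_pos _).le (by positivity)
    _ = X ^ (E9X L0 q + 3 * ε / 4) := by
        rw [← Real.rpow_add hX0, ← Real.rpow_add hX0]
        congr 1
        ring
    _ ≤ X ^ (E9X L0 q + ε) := Real.rpow_le_rpow_of_exponent_le hX1 (by linarith)

/-- **`P1MX` from the classes in the frame** -/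
theorem p1MX_of_frame {Λ : Type*} {π : Λ → DPar} {h : ℝ → ℝ} {e0 c β : ℝ}
    (hP : ∀ lam, (π lam).OK) {Rh : ℝ}
    (hRh : ∀ u, FE47.cx h u ≠ 0 → |u| ≤ Rh) {Par : Set (Fin 3 ⊕ Fin 5 → ℝ)}
    {L0 : (Fin 3 ⊕ Fin 5 → ℝ) → ℝ} (hPar : ∀ p ∈ Par, ParOK p)
    (H : P1CXF π h e0 c β Par L0) : P1MX π h e0 c β Par L0 :=
  p1MX_of hP hRh hPar (p1CG_of_frame hPar (fun _ _ _ hk => hk.1)
    (fun p v₀ v₁ v₂ hv => by
      have := hv.1.1
      have := hv.1.2.1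
      have := hv.1.2.2
      have e : cN (prX p) = cu (prX p) 2 + cu (prX p) 3 + cu (prX p) 4 := rfl
      linarith)
    (fun lam X δ τ δ' B N a qs hX hδ hδτ hδ' hlen hgl q hq hw hm hg hl hok =>
      frD_of hX hδ hδτ hδ' hlen hgl hq hw hm hg hl hok.1 hok.2) H)

/-- **`P1MS` from the classes in the frame** -/
theorem p1MS_of_frame {Λ : Type*} {π : Λ → DPar} {h : ℝ → ℝ} {e0 c β : ℝ}
    (hP : ∀ lam, (π lam).OK) {Rh : ℝ}
    (hRh : ∀ u, FE47.cx h u ≠ 0 → |u| ≤ Rh) {Par : Set (Fin 3 ⊕ Fin 5 → ℝ)}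
    {L0 : (Fin 3 ⊕ Fin 5 → ℝ) → ℝ} (hPar : ∀ p ∈ Par, ParOK p)
    (H : P1CSF π h e0 c β Par L0) : P1MS π h e0 c β Par L0 :=
  p1MS_of hP hRh hPar (p1CG_of_frame hPar (fun _ _ _ hk => hk)
    (fun p v₀ v₁ v₂ hv => by
      have e : cN (prX p) = cu (prX p) 2 + cu (prX p) 3 + cu (prX p) 4 := rfl
      rcases hv.1 with hn | hr
      · have := hn.1
        have := hn.2.1
        have := hn.2.2
        linarith
      · have := hr.1
        have := hr.2.1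
        have := hr.2.2
        linarith)
    (fun lam X δ τ δ' B N a qs hX hδ hδτ hδ' hlen hgl q hq hw hm hg hl hok =>
      frS_of hX hδ hδτ hδ' hlen hgl hq hw hm hg hl hok) H)

end Crest.Agent.R017.P1MU960
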