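import Crest.Agent.R017.MmX_72
import Crest.Agent.R017.P1MW_960

/-!
# Row 17, exceptional class (helper72): the classes of the mismatch from the numbers

* `Hyp9` : data of a class in the frame;  `afM`, `VM`, `XM`, `BdM`
* `XMG`, `LTG`, `LRG` : mains, T-half, R-half (any `ok`, `α`, frame of the lists, `H`)
* **`p1CGF_of`** : the classes in the frame from them
* **`p1CXF_of`, `p1CSF_of`** : the differences, the single lists
-/

set_option autoImplicit false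

noncomputable section

open Finset Filter
open scoped Classical ComplexConjugate

namespace Crest.Agent.R017.P1yX72

open Crest.Agent.R012 Crest.Agent.R012.Eis Crest.Agent.R012.Div277
open Crest.Agent.R012.MC (Wgt)
open Crest.Agent.R012.LS2 (S mem_S bl)
open Crest.Agent.R017.CM106 (CS FS TG)
open Crest.Agent.R017.C70
open Crest.Agent.R017.FE47 (PU cx SM)
open Crest.Agent.R017.StF828 (T3)
open Crest.Agent.R017.StG828 (JB omp PSu)
open Crest.Agent.R017.StJ319 (afrb gt5 q5 I5 I5_sub)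
open Crest.Agent.R017.E3A164 (SteT)
open Crest.Agent.R017.E3Z548 (LVn FH)
open Crest.Agent.R017.E3Kc548 (LI)
open Crest.Agent.R017.E3T829 (RR)
open Crest.Agent.R017.Mode405 (Slp)
open Crest.Agent.R017.E3Hi290 (RN2XF)
open Crest.Agent.R017.E3Xa72 (RHRx)
open Crest.Agent.R017.P1e54 Crest.Agent.R017.P1f54 Crest.Agent.R017.P1k54
open Crest.Agent.R017.P1l54 (ParOK oN)
open Crest.Agent.R017.Sf770 (nO)
open Crest.Agent.R017.P1u54
open Crest.Agent.R017.P1v54 (ηC supp_list FS_list)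
open Crest.Agent.R017.HP842 (Pc pc alL sqc)
open Crest.Agent.R017.B770 Crest.Agent.R017.Prov71
open Crest.Agent.R017.E5B71 Crest.Agent.R017.E5L770
open Crest.Agent.R017.ExBox960 Crest.Agent.R017.ExP960
open Crest.Agent.R017.P1X960
open Crest.Agent.R017.TM708 (PD)
open Crest.Agent.R017.I1146 (LN)
open Crest.Agent.R017.P1MU960
open Crest.Agent.R017.Mm828 (Vb XMn rok_afrb afrb_ne)
open Crest.Agent.R017.MmX72

/-! ### monotonicity of the frames -/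

lemma Fr9X.mono' {c β : ℝ} {p : IX5 → ℝ} {X τ τ' B H : ℝ} {N : ℕ} {a : BmX} {qs : List Pq}
    (F : Fr9X c β p X τ B H N a qs) (h : τ ≤ τ') : Fr9X c β p X τ' B H N a qs := by
  have hL := mul_le_mul_of_nonneg_right h F.L.le
  exact ⟨F.X3, F.L, F.par, F.zr, F.l.trans hL, F.z0, F.z.trans hL, F.A.trans hL, F.zs.trans hL,
    F.hd.trans hL, F.ζ0, F.ζ.trans hL, F.g0, F.g1.trans (by linarith), F.qs0,
    F.qs1.trans (by linarith), F.am, F.cl, F.lo.trans (by linarith), F.up.trans (by linarith),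
    F.b0, F.b.trans hL, F.b1.trans (by linarith), F.n0, F.n1, F.w0, F.w1⟩

lemma PD_mono {X τ τ' B H : ℝ} {N : ℕ} {b : Fin 5 → ℝ} {q : Eis} {us : Fin 3 → Pq} {gs : List Pq}
    {κ : ℝ} (hX : 0 ≤ Real.log X) (F : PD X τ B H N b q us gs κ) (h : τ ≤ τ') :
    PD X τ' B H N b q us gs κ := by
  have hL := mul_le_mul_of_nonneg_right h hX
  have h1 : ∀ x : ℝ, (x + τ) * Real.log X ≤ (x + τ') * Real.log X := fun x =>
    mul_le_mul_of_nonneg_right (by linarith) hX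
  exact ⟨F.q0, F.qB, F.H1, F.lump, F.us0, F.usB, F.usH, F.z1.trans (h1 _), F.z2.trans (h1 _),
    F.z3.trans (h1 _), fun p hp => by
      obtain ⟨h2, h3, h4, h5, h6⟩ := F.am p hp
      exact ⟨h2, h3, h4.trans hL, h5, h6⟩, F.len, F.x.trans (h1 _), F.k.trans hL⟩

lemma FrD_mono {p : IX5 → ℝ} {X τ τ' B H : ℝ} {N : ℕ} {a : BmX} {qs : List Pq}
    (hX : 0 ≤ Real.log X) (F : FrD p X τ B H N a qs) (h : τ ≤ τ') : FrD p X τ' B H N a qs :=
  ⟨F.okd, PD_mono hX F.pdN h, PD_mono hX F.pdR h⟩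

lemma FrS_mono {β : ℝ} {p : IX5 → ℝ} {X τ τ' B H : ℝ} {N : ℕ} {a : BmX} {qs : List Pq}
    (hX : 0 ≤ Real.log X) (F : FrS β p X τ B H N a qs) (h : τ ≤ τ') :
    FrS β p X τ' B H N a qs := by
  have hL := mul_le_mul_of_nonneg_right h hX
  exact ⟨F.pd.imp (fun h1 => PD_mono hX h1 h) fun h1 => PD_mono hX h1 h, F.lost.trans (by linarith)⟩

/-! ### the numbers -/

section
variable {Λ : Type*} (π : Λ → DPar) (h : ℝ → ℝ) (e0 c : ℝ)
  (ok : Λ × Eis → BmX → List Pq → Prop) (α : Λ × Eis → BmX → Eis → ℂ)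
  (Fx : (IX5 → ℝ) → ℝ → ℝ → ℝ → ℝ → ℕ → BmX → List Pq → Prop)

/-- the data of a class in the frame -/
structure Hyp9 (β : ℝ) (lam : Λ × Eis) (p : IX5 → ℝ) (X τ B H : ℝ) (N : ℕ) (a : BmX)
    (qs : List Pq) (cc : Fin 5) (i : ℕ) (b : Eis) : Prop where
  fr : Fr9X c β p X τ B H N a qs
  fx : Fx p X τ B H N a qs
  ok : ok lam a qs
  gp : IsPrim a.2.1
  gs : Squarefree a.2.1
  ζ0 : 0 ≤ a.2.2
  sup : ∀ n, ηC π h lam qs n ≠ 0 → (nm n : ℝ) ≤ Real.exp a.2.2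
  gS : a.2.1 ∈ S (Real.exp a.2.2)
  hi : i ∈ I5 a.2.1 (nM (nO a.1.1.toBd) a.2.2) (nW c a.1.1.toBd a.1.2.2) (Real.exp a.2.2) cc
  hb : b ∈ dvs a.2.1

/-- the coefficients of the class -/
def afM (lam : Λ × Eis) (a : BmX) (qs : List Pq) (cc : Fin 5) (b : Eis) (s : ℝ) :
    Eis → Eis → Eis → ℂ :=
  afrb (gt5 (Real.exp (e0 * a.1.1.l)) (Real.exp a.2.2) a.2.1 cc) (q5 a.2.1 cc)
    (Real.exp a.2.2) (ηC π h lam qs) (α lam a) a.2.1 b s

/-- the range of `e` -/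
def EM (a : BmX) : ℝ := Real.exp (e0 * a.1.1.l) * Real.exp a.2.2

/-- the height -/
def VM (a : BmX) (i : ℕ) (b : Eis) : ℝ := Vb (a.2.1 / b) i

/-- the length of the three lumps -/
def lM (a : BmX) : ℝ := (a.1.2.1 0).z + (a.1.2.1 1).z + (a.1.2.1 2).z

/-- the length of the variables -/
def XM (a : BmX) (qs : List Pq) (b : Eis) : ℝ :=
  Real.exp (LN qs + lM a) / (nm a.2.1 * nm b)

/-- the square parts -/
def DsM (a : BmX) (i : ℕ) (b : Eis) : Finset Eis :=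
  (JB (Real.sqrt (VM a i b))).image Prod.fst

/-- the bound -/
def BdM (L0 : (Fin 3 ⊕ Fin 5 → ℝ) → ℝ) (M₀ J : ℕ) (ε X H : ℝ) (p : IX5 → ℝ) (a : BmX)
    (qs : List Pq) (s : ℝ) : ℝ :=
  H ^ M₀ * X ^ ε * Real.exp (tgX (L0 (prX p)) X a qs) * (1 + |s|) ^ J

variable (β : ℝ) (Par : Set (Fin 3 ⊕ Fin 5 → ℝ)) (L0 : (Fin 3 ⊕ Fin 5 → ℝ) → ℝ)
  (Hx : ℝ → BmX → List Pq → ℕ → Eis → ℕ → Eis → Eis → ℝ)

/-- **mains** -/
def XMG : Prop :=
  ∀ ε : ℝ, 0 < ε → ∃ τ : ℝ, 0 < τ ∧ ∀ (lam : Λ × Eis) (N : ℕ) (B : ℝ), 0 ≤ B →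
    ∃ J M₀ : ℕ, ∃ X₀ : ℝ, 1 < X₀ ∧ ∀ X : ℝ, X₀ ≤ X → ∀ H : ℝ, 1 ≤ H → ∀ p : IX5 → ℝ,
      prX p ∈ Par → ∀ (a : BmX) (qs : List Pq) (cc : Fin 5) (i : ℕ) (b : Eis) (s : ℝ),
      Hyp9 π h c ok Fx β lam p X τ B H N a qs cc i b →
      Real.exp a.1.1.l ^ (2 / 3 : ℝ) * XMn (a.2.1 / b) i s (VM a i b) (EM e0 a)
        (Real.exp (a.1.1.l / 20)) (Real.exp a.1.1.l) (afM π h e0 α lam a qs cc b s) ≤
        BdM L0 M₀ J ε X H p a qs s

/-- **T-half** -/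
def LTG : Prop :=
  ∀ ε : ℝ, 0 < ε → ∃ τ : ℝ, 0 < τ ∧ ∀ (lam : Λ × Eis) (N : ℕ) (B : ℝ), 0 ≤ B →
    ∀ cL : ℝ, 1 ≤ cL →
    ∃ J M₀ : ℕ, ∃ X₀ : ℝ, 1 < X₀ ∧ ∀ X : ℝ, X₀ ≤ X → ∀ H : ℝ, 1 ≤ H → ∀ p : IX5 → ℝ,
      prX p ∈ Par → ∀ (a : BmX) (qs : List Pq) (cc : Fin 5) (i : ℕ) (b : Eis) (s : ℝ),
      Hyp9 π h c ok Fx β lam p X τ B H N a qs cc i b →
      ∑ e ∈ S (EM e0 a), ∑ k ∈ LI (1 / 10) (VM a i b), ∑ d ∈ DsM a i b,
        (nm e : ℝ)⁻¹ * LVn (fun d e => afM π h e0 α lam a qs cc b s e d) {d} {e} cL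
          ((X ^ (8 : ℝ)) ^ 5) (Real.exp a.1.1.l) (Hx cL a qs i b k d e) (Real.exp k)
          (Real.exp k) (Real.exp (a.1.1.l / 20)) 1 1 0 ≤ BdM L0 M₀ J ε X H p a qs s

/-- **R-half** -/
def LRG : Prop :=
  ∀ ε : ℝ, 0 < ε → ∃ τ : ℝ, 0 < τ ∧ ∀ (lam : Λ × Eis) (N : ℕ) (B : ℝ), 0 ≤ B →
    ∃ a₁ A₀ : ℕ, ∀ A₁ : ℕ, A₀ ≤ A₁ → ∀ cL : ℝ, 1 ≤ cL →
    ∃ J M₀ : ℕ, ∃ X₀ : ℝ, 1 < X₀ ∧ ∀ X : ℝ, X₀ ≤ X → ∀ H : ℝ, 1 ≤ H → ∀ p : IX5 → ℝ,
      prX p ∈ Par → ∀ (a : BmX) (qs : List Pq) (cc : Fin 5) (i : ℕ) (b : Eis) (s : ℝ),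
      Hyp9 π h c ok Fx β lam p X τ B H N a qs cc i b →
      (∀ k d e, 0 < Hx cL a qs i b k d e) ∧
      (∀ k ∈ LI (1 / 10) (VM a i b), ∀ d ∈ DsM a i b, ∀ e ∈ S (EM e0 a),
        cL * (Hx cL a qs i b k d e * Real.exp k ^ 2) ≤ Real.exp a.1.1.l * XM a qs b) ∧
      ∃ (u : Eis) (W0 : ℕ → Bool → Eis → Eis → ℝ → ℝ), u ≠ 0 ∧
        (∀ n, ηC π h lam qs n ≠ 0 → IsCoprime u n) ∧ (∀ n, α lam a n ≠ 0 → IsCoprime u n) ∧
        (∀ k jj d e, Slp a₁ (W0 k jj d e)) ∧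
        (∀ k ∈ LI (1 / 10) (VM a i b), RHRx (cL * (X ^ (8 : ℝ)) ^ 300) A₁
          (RR (JB (Real.sqrt (VM a i b))) (S (EM e0 a)))
          (fun d e => afM π h e0 α lam a qs cc b s e d) u (W0 k)) ∧
        ∑ e ∈ S (EM e0 a), ∑ k ∈ LI (1 / 10) (VM a i b), ∑ d ∈ DsM a i b,
          (nm e : ℝ)⁻¹ * (FH (Real.exp a.1.1.l) (Hx cL a qs i b k d e) (Real.exp k) *
            RN2XF cL (Real.exp a.1.1.l) (Real.exp k) (XM a qs b) (Hx cL a qs i b k) (W0 k) d e) ≤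
          BdM L0 M₀ J ε X H p a qs s

end

lemma BdM_mono {L0 : (Fin 3 ⊕ Fin 5 → ℝ) → ℝ} {M M' J J' : ℕ} {ε X H : ℝ} (hH : 1 ≤ H)
    (hX : 0 ≤ X) (hM : M ≤ M') (hJ : J ≤ J') (p : IX5 → ℝ) (a : BmX) (qs : List Pq) (s : ℝ) :
    BdM L0 M J ε X H p a qs s ≤ BdM L0 M' J' ε X H p a qs s := by
  unfold BdM
  have h1 : H ^ M ≤ H ^ M' := pow_le_pow_right₀ hH hM
  have h2 : (1 + |s|) ^ J ≤ (1 + |s|) ^ J' :=
    pow_le_pow_right₀ (by linarith [abs_nonneg s]) hJ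
  have h3 : 0 ≤ X ^ ε := Real.rpow_nonneg hX _
  gcongr

set_option maxHeartbeats 1600000 in
/-- **the classes in the frame from the numbers** -/
theorem p1CGF_of {Λ : Type*} {π : Λ → DPar} {h : ℝ → ℝ} {e0 c β : ℝ} (hP : ∀ lam, (π lam).OK)
    {Rh : ℝ} (hRh0 : 0 ≤ Rh) (hRh : ∀ u, cx h u ≠ 0 → |u| ≤ Rh) (he0 : e0 ≤ 1)
    {ok : Λ × Eis → BmX → List Pq → Prop} {α : Λ × Eis → BmX → Eis → ℂ}
    {Fx : (IX5 → ℝ) → ℝ → ℝ → ℝ → ℝ → ℕ → BmX → List Pq → Prop}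
    {Par : Set (Fin 3 ⊕ Fin 5 → ℝ)} {L0 : (Fin 3 ⊕ Fin 5 → ℝ) → ℝ}
    {Hx : ℝ → BmX → List Pq → ℕ → Eis → ℕ → Eis → Eis → ℝ}
    (hFS : ∀ lam a, FS (α lam a)) (hPS : ∀ lam a, PSu (α lam a))
    (hwin : ∀ lam a n, α lam a n ≠ 0 → |Real.log (nm n) - lM a| ≤ 3 * Rh)
    (hlen : ∀ (p : IX5 → ℝ) (X τ B H : ℝ) (N : ℕ) (a : BmX) (qs : List Pq),
      Fx p X τ B H N a qs → qs.length ≤ N)
    (hmono : ∀ (p : IX5 → ℝ) (X τ τ' B H : ℝ) (N : ℕ) (a : BmX) (qs : List Pq),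
      0 ≤ Real.log X → τ ≤ τ' → Fx p X τ B H N a qs → Fx p X τ' B H N a qs)
    (hX : XMG π h e0 c ok α Fx β Par L0) (hT : LTG π h e0 c ok α Fx β Par L0 Hx)
    (hRn : LRG π h e0 c ok α Fx β Par L0 Hx) : P1CGF π h e0 c ok α Fx β Par L0 := by
  intro R _ ε hε
  obtain ⟨τ₁, hτ₁, hX⟩ := hX (ε / 4) (by positivity)
  obtain ⟨τ₂, hτ₂, hT⟩ := hT (ε / 4) (by positivity)
  obtain ⟨τ₃, hτ₃, hRn⟩ := hRn (ε / 4) (by positivity)
  obtain ⟨τ, hτ, hτ1, hτ2, hτ3, hτ4⟩ : ∃ τ : ℝ, 0 < τ ∧ τ ≤ τ₁ ∧ τ ≤ τ₂ ∧ τ ≤ τ₃ ∧ τ ≤ 1 / 100 :=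
    ⟨min (min τ₁ τ₂) (min τ₃ (1 / 100)), lt_min (lt_min hτ₁ hτ₂) (lt_min hτ₃ (by norm_num)),
      (min_le_left _ _).trans (min_le_left _ _), (min_le_left _ _).trans (min_le_right _ _),
      (min_le_right _ _).trans (min_le_left _ _), (min_le_right _ _).trans (min_le_right _ _)⟩
  refine ⟨τ, hτ, ?_⟩
  intro lam N B hB
  obtain ⟨a₁, A₀, hRn⟩ := hRn lam N B hB
  set ε' : ℝ := min (ε / 32) 1 with hε'
  have hε'0 : 0 < ε' := lt_min (by positivity) one_pos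
  have hε'1 : ε' ≤ 1 := min_le_right _ _
  have hε'2 : ε' ≤ ε / 32 := min_le_left _ _
  have hR1 : 0 ≤ (N : ℝ) * Rh := by positivity
  obtain ⟨A, cL, C, hcL, hC, key⟩ := mm1x (R lam.1) (R1 := (N : ℝ) * Rh) (R2 := 3 * Rh) hR1
    (by positivity) a₁ (max A₀ 2) (by omega) hε'0 hε'1
  obtain ⟨J₁, M₁, X₁, hX₁, hX⟩ := hX lam N B hB
  obtain ⟨J₂, M₂, X₂, hX₂, hT⟩ := hT lam N B hB cL hcL
  obtain ⟨J₃, M₃, X₃, hX₃, hRn⟩ := hRn (max A₀ 2) (le_max_left _ _) cL hcL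
  set M₀ : ℕ := max M₁ (max M₂ M₃) with hM₀
  set J : ℕ := max J₁ (max J₂ J₃) with hJ
  set Q : ℝ := 3 + Real.log cL + 4 * Real.log (3 * C) / ε with hQ
  have hlcL : 0 ≤ Real.log cL := Real.log_nonneg hcL
  have hlC : 0 ≤ Real.log (3 * C) := Real.log_nonneg (by linarith)
  have hlC' : 0 ≤ 4 * Real.log (3 * C) / ε := by positivity
  refine ⟨J + A, M₀, max (max X₁ (max X₂ X₃)) (Real.exp Q), ?_, ?_⟩
  · exact lt_of_lt_of_le hX₁ ((le_max_left _ _).trans (le_max_left _ _))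
  intro X hXX H hH p hp a qs F9 Fx9 hokM cc i b s hi hb
  have hXa : max X₁ (max X₂ X₃) ≤ X := (le_max_left _ _).trans hXX
  have hX1' : X₁ ≤ X := (le_max_left _ _).trans hXa
  have hX2' : X₂ ≤ X := (le_max_left _ _).trans ((le_max_right _ _).trans hXa)
  have hX3' : X₃ ≤ X := (le_max_right _ _).trans ((le_max_right _ _).trans hXa)
  have hXQ : Real.exp Q ≤ X := (le_max_right _ _).trans hXX
  have hX1 : 1 < X := by linarith
  have hX0 : 0 < X := by linarith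
  set L := Real.log X with hL
  have hQL : Q ≤ L := by
    have := Real.log_le_log (Real.exp_pos Q) hXQ
    rwa [Real.log_exp] at this
  have hL3 : 3 ≤ L := by linarith
  have hL0 : 0 < L := by linarith
  obtain ⟨hok, hgp, hgs, hζ0, hsup, hgS⟩ := hokM
  have hy : ∀ {τ' : ℝ}, τ ≤ τ' → Hyp9 π h c ok Fx β lam p X τ' B H N a qs cc i b := fun h1 =>
    ⟨Fr9X.mono' F9 h1, hmono _ _ _ _ _ _ _ _ _ hL0.le h1 Fx9, hok, hgp, hgs, hζ0, hsup, hgS, hi,
      hb⟩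
  have h1 := hX X hX1' H hH p hp a qs cc i b s (hy hτ1)
  have h2 := hT X hX2' H hH p hp a qs cc i b s (hy hτ2)
  obtain ⟨hHp, hHX, u, W0, hu0, huη, huα, hS, hRM, h3⟩ :=
    hRn X hX3' H hH p hp a qs cc i b s (hy hτ3)
  -- sizes
  have hPp := F9.par
  have hτL : τ * L ≤ 1 / 100 * L := mul_le_mul_of_nonneg_right hτ4 hL0.le
  have hκL : 8 / 9 * L ≤ cκ (prX p) * L := mul_le_mul_of_nonneg_right hPp.κ0 hL0.le
  have hκL1 : cκ (prX p) * L ≤ 1 * L := mul_le_mul_of_nonneg_right hPp.κ1 hL0.le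
  have hNL0 : 3 / 5 * (cκ (prX p) * L) ≤ cN (prX p) * L := by
    have := mul_le_mul_of_nonneg_right hPp.N0 hL0.le
    linarith
  have hNL1 : cN (prX p) * L ≤ 1 * L := mul_le_mul_of_nonneg_right hPp.N1 hL0.le
  have hx0L : 0 ≤ cx' (prX p) * L := mul_nonneg hPp.x0 hL0.le
  have hx1L : cx' (prX p) * L ≤ 1 / 3 * L := mul_le_mul_of_nonneg_right hPp.x1 hL0.le
  obtain ⟨k1, k2⟩ := abs_le.1 F9.l
  obtain ⟨z1, z2⟩ := abs_le.1 F9.z
  obtain ⟨A1, A2⟩ := abs_le.1 F9.A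
  obtain ⟨ζ1, ζ2⟩ := abs_le.1 F9.ζ
  have hup := F9.up
  have hcl := F9.cl
  rw [← hL] at k1 k2 z1 z2 A1 A2 ζ1 ζ2 hup
  set l := a.1.1.l with hldef
  have hl1 : 87 / 100 * L ≤ l := by linarith
  have hl2 : l ≤ 101 / 100 * L := by linarith
  have hl0 : 0 < l := by linarith
  have hlen' : LN qs + lM a ≤ 135 / 100 * L := by
    rw [hcl] at hup
    have e1 : lM a = (a.1.2.1 0).z + (a.1.2.1 1).z + (a.1.2.1 2).z := rfl
    have e2 : (cN (prX p) + cx' (prX p)) * L = cN (prX p) * L + cx' (prX p) * L := by ring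
    linarith
  have hlog2 : Real.log 2 ≤ 1 := by
    have := Real.log_two_lt_d9
    linarith
  have hlog20 : 0 < Real.log 2 := Real.log_pos (by norm_num)
  have htO1 : Sf770.tO a.1.1.toBd ≤ 154 / 100 * L := by
    have e1 : Sf770.tO a.1.1.toBd = min (2 * a3 a.1.1.toBd - l) (3 / 4 * a3 a.1.1.toBd) +
      11 / 5 * a.1.1.z := rfl
    rw [e1]
    have h1 := min_le_right (2 * a3 a.1.1.toBd - l) (3 / 4 * a3 a.1.1.toBd)
    linarith
  have hnO : Real.log 2 * nO a.1.1.toBd ≤ 155 / 100 * L + 1 := by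
    have := F9.n1
    have h1 : max 0 (Sf770.tO a.1.1.toBd) ≤ 155 / 100 * L := max_le (by positivity) (by linarith)
    linarith
  have hnM : Real.log 2 * nM (nO a.1.1.toBd) a.2.2 ≤ 4 * L := by
    unfold nM
    push_cast
    have h1 : (⌈2 * a.2.2 / Real.log 2⌉₊ : ℝ) < 2 * a.2.2 / Real.log 2 + 1 :=
      Nat.ceil_lt_add_one (by positivity)
    have h2 : Real.log 2 * (⌈2 * a.2.2 / Real.log 2⌉₊ : ℝ) ≤ 2 * a.2.2 + Real.log 2 := by
      have h3 := mul_le_mul_of_nonneg_left h1.le hlog20.le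
      have h4 : Real.log 2 * (2 * a.2.2 / Real.log 2 + 1) = 2 * a.2.2 + Real.log 2 := by
        field_simp
      linarith
    have h5 : Real.log 2 * ((nO a.1.1.toBd : ℝ) + (⌈2 * a.2.2 / Real.log 2⌉₊ : ℝ) + 1) =
        Real.log 2 * nO a.1.1.toBd + Real.log 2 * (⌈2 * a.2.2 / Real.log 2⌉₊ : ℝ) + Real.log 2 := by
      ring
    rw [h5]
    linarith
  have hiM : i < nM (nO a.1.1.toBd) a.2.2 := mem_range.1 (I5_sub _ _ _ _ _ hi)
  have hiM' : Real.log 2 * ((i : ℝ) + 1) ≤ Real.log 2 * nM (nO a.1.1.toBd) a.2.2 := by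
    refine mul_le_mul_of_nonneg_left ?_ hlog20.le
    exact_mod_cast hiM
  have hbp : IsPrim b := isPrim_of_mem_dvs hb
  have hbg : b ∣ a.2.1 := dvd_of_mem_dvs hb
  have hcg : IsPrim (a.2.1 / b) := by
    have e1 : b * (a.2.1 / b) = a.2.1 := EuclideanDomain.mul_div_cancel' hbp.ne_zero hbg
    have e2 : IsPrim (b * (a.2.1 / b)) := by rw [e1]; exact hgp
    exact e2.of_mul_left hbp
  have c1 : (1 : ℝ) ≤ nm (a.2.1 / b) := StB828.one_le_nmR hcg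
  have g1 : (1 : ℝ) ≤ nm a.2.1 := StB828.one_le_nmR hgp
  have b1 : (1 : ℝ) ≤ nm b := StB828.one_le_nmR hbp
  have hVle : VM a i b ≤ Real.exp (Real.log 2 * nM (nO a.1.1.toBd) a.2.2) := by
    unfold VM Vb
    refine (div_le_self (Real.exp_pos _).le c1).trans ?_
    exact Real.exp_le_exp.2 hiM'
  have hZe : ∀ x : ℝ, x ≤ 8 * L → Real.exp x ≤ X ^ (8 : ℝ) := fun x hx => by
    rw [Real.rpow_def_of_pos hX0, ← hL]
    exact Real.exp_le_exp.2 (by linarith)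
  have hZ5 : (X ^ (8 : ℝ)) ^ 5 = Real.exp (40 * L) := by
    rw [Real.rpow_def_of_pos hX0, ← hL, ← Real.exp_nat_mul]
    congr 1
    push_cast
    ring
  have hZ1 : 1 ≤ X ^ (8 : ℝ) := Real.one_le_rpow hX1.le (by norm_num)
  have hVZ : VM a i b ≤ X ^ (8 : ℝ) := hVle.trans (hZe _ (by linarith))
  have hXM : XM a qs b ≤ Real.exp (135 / 100 * L) := by
    unfold XM
    have h1 : (1 : ℝ) ≤ nm a.2.1 * nm b := one_le_mul_of_one_le_of_one_le g1 b1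
    exact (div_le_self (Real.exp_pos _).le h1).trans (Real.exp_le_exp.2 hlen')
  have hXM0 : 0 < XM a qs b := by
    unfold XM
    positivity
  set H' : ℕ → Eis → Eis → ℝ := fun k d e => if d ∈ DsM a i b then Hx cL a qs i b k d e
    else Real.exp l * XM a qs b / (cL * Real.exp k ^ 2) with hH'
  have hHe : ∀ k, ∀ d ∈ DsM a i b, ∀ e, H' k d e = Hx cL a qs i b k d e :=
    fun k d hd e => if_pos hd
  have hHp' : ∀ k d e, 0 < H' k d e := by
    intro k d e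
    show 0 < (if d ∈ DsM a i b then Hx cL a qs i b k d e
      else Real.exp l * XM a qs b / (cL * Real.exp k ^ 2))
    split_ifs
    · exact hHp k d e
    · have h5 := Real.exp_pos l
      have h6 := Real.exp_pos (k : ℝ)
      have h7 : 0 < cL := by linarith
      positivity
  have hm2 := key (Real.exp a.2.2) (Real.exp_pos _).le
    (gt5 (Real.exp (e0 * l)) (Real.exp a.2.2) a.2.1 cc) (q5 a.2.1 cc) (ηC π h lam qs) (α lam a)
    (hFS lam a) (hPS lam a) a.2.1 b hgp hb (LN qs) (lM a)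
    (fun n hn => by
      have h4 := (supp_list h hRh (hP lam.1) lam.2 qs hn).2.2
      refine h4.trans ?_
      exact mul_le_mul_of_nonneg_right (by exact_mod_cast hlen _ _ _ _ _ _ _ _ Fx9) hRh0)
    (fun n hn => hwin lam a n hn) u hu0 huη huα i s (X ^ (8 : ℝ))
    (DM (nO a.1.1.toBd) a.2.2) (EM e0 a) (Real.exp (l / 20)) (Real.exp l)
    H' W0 hZ1 (Real.exp_pos _).le (by
      refine hVle.trans ?_
      unfold DM
      rw [← Real.exp_nat_mul]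
      refine Real.exp_le_exp.2 ?_
      push_cast
      linarith) (Real.exp_pos _) (hZe _ (by linarith)) hVZ (by unfold EM; positivity) (by
      unfold EM
      rw [← Real.exp_add]
      refine hZe _ ?_
      have h5 : e0 * l ≤ 1 * l := mul_le_mul_of_nonneg_right he0 hl0.le
      have h6 : e0 * a.1.1.l = e0 * l := rfl
      linarith) (Real.exp_pos _).le (hZe _ (by linarith)) (by
      refine hXM.trans ?_
      rw [hZ5]
      exact Real.exp_le_exp.2 (by linarith)) (by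
      have h5 : cL * (Real.exp 1 * VM a i b) ≤ cL * (Real.exp 1 * Real.exp (4 * L)) := by
        have h6 := hVle.trans (Real.exp_le_exp.2 hnM)
        gcongr
      refine h5.trans ?_
      rw [hZ5, ← Real.exp_log (show 0 < cL by linarith), ← Real.exp_add, ← Real.exp_add]
      exact Real.exp_le_exp.2 (by linarith)) hHp' (fun k hk d _ e he => by
      by_cases hd : d ∈ DsM a i b
      · rw [hHe k d hd e]
        exact hHX k hk d hd e he
      · have e1 : H' k d e = Real.exp l * XM a qs b / (cL * Real.exp k ^ 2) := if_neg hd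
        rw [e1]
        have h5 := Real.exp_pos (k : ℝ)
        have h7 : 0 < cL := by linarith
        show cL * (Real.exp l * XM a qs b / (cL * Real.exp k ^ 2) * Real.exp k ^ 2) ≤
          Real.exp l * XM a qs b
        refine le_of_eq ?_
        field_simp) hS hRM
  have hη : LMx (VM a i b) (EM e0 a) (Real.exp (l / 20)) (Real.exp l) (XM a qs b) cL
      (X ^ (8 : ℝ)) H' W0 (afM π h e0 α lam a qs cc b s) ≤
      BdM L0 M₀ J (ε / 4) X H p a qs s + BdM L0 M₀ J (ε / 4) X H p a qs s := by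
    have hok' : Mm828.ROK (afM π h e0 α lam a qs cc b s) :=
      rok_afrb (Real.exp_pos _).le (hFS lam a) (hPS lam a) hbp s
    rw [LMx_eq hok']
    have h2' := h2.trans (BdM_mono (L0 := L0) hH hX0.le
      (show M₂ ≤ M₀ from (le_max_left _ _).trans (le_max_right _ _))
      (show J₂ ≤ J from (le_max_left _ _).trans (le_max_right _ _)) p a qs s)
    have h3' := h3.trans (BdM_mono (L0 := L0) hH hX0.le
      (show M₃ ≤ M₀ from (le_max_right _ _).trans (le_max_right _ _))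
      (show J₃ ≤ J from (le_max_right _ _).trans (le_max_right _ _)) p a qs s)
    refine le_trans (le_of_eq ?_) (add_le_add h2' h3')
    rw [← sum_add_distrib]
    refine sum_congr rfl fun e _ => ?_
    rw [← sum_add_distrib]
    refine sum_congr rfl fun k _ => ?_
    rw [← sum_add_distrib]
    refine sum_congr rfl fun d hd => ?_
    rw [← mul_add]
    congr 1
    have e3 : RN2XF cL (Real.exp l) (Real.exp k) (XM a qs b) (H' k) (W0 k) d e =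
        RN2XF cL (Real.exp l) (Real.exp k) (XM a qs b) (Hx cL a qs i b k) (W0 k) d e := by
      unfold RN2XF
      rw [hHe k d hd e]
    rw [e3, hHe k d hd e]
    unfold LVn
    ring
  have h1' := h1.trans (BdM_mono (L0 := L0) hH hX0.le (show M₁ ≤ M₀ from le_max_left _ _)
    (show J₁ ≤ J from le_max_left _ _) p a qs s)
  have hBd0 : 0 ≤ BdM L0 M₀ J (ε / 4) X H p a qs s := by
    unfold BdM
    positivity
  have hA0 : (1 : ℝ) ≤ (1 + |s|) ^ A := one_le_pow₀ (by linarith [abs_nonneg s])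
  refine hm2.trans ?_
  have hZε : (X ^ (8 : ℝ)) ^ ε' ≤ X ^ (ε / 4) := by
    rw [← Real.rpow_mul hX0.le]
    refine Real.rpow_le_rpow_of_exponent_le hX1.le ?_
    linarith
  have h3C : 3 * C ≤ X ^ (ε / 4) := by
    have h4 : 4 * Real.log (3 * C) / ε ≤ L := by linarith
    rw [div_le_iff₀ hε] at h4
    rw [Real.rpow_def_of_pos hX0, ← hL, ← Real.exp_log (show 0 < 3 * C by linarith)]
    exact Real.exp_le_exp.2 (by linarith)
  have h5 : Real.exp l ^ (2 / 3 : ℝ) * XMn (a.2.1 / b) i s (VM a i b) (EM e0 a)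
      (Real.exp (l / 20)) (Real.exp l) (afM π h e0 α lam a qs cc b s) +
      (1 + |s|) ^ A * LMx (VM a i b) (EM e0 a) (Real.exp (l / 20)) (Real.exp l) (XM a qs b) cL
      (X ^ (8 : ℝ)) H' W0 (afM π h e0 α lam a qs cc b s) ≤
      (1 + |s|) ^ A * (3 * BdM L0 M₀ J (ε / 4) X H p a qs s) := by
    have h6 := mul_le_mul_of_nonneg_left hη (show (0 : ℝ) ≤ (1 + |s|) ^ A by positivity)
    have h7 : BdM L0 M₀ J (ε / 4) X H p a qs s ≤
        (1 + |s|) ^ A * BdM L0 M₀ J (ε / 4) X H p a qs s := le_mul_of_one_le_left hBd0 hA0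
    linarith
  have hCZ : 0 ≤ C * (X ^ (8 : ℝ)) ^ ε' := by positivity
  refine (mul_le_mul_of_nonneg_left h5 hCZ).trans ?_
  have hT0 : 0 ≤ Real.exp (tgX (L0 (prX p)) X a qs) := (Real.exp_pos _).le
  calc C * (X ^ (8 : ℝ)) ^ ε' * ((1 + |s|) ^ A * (3 * BdM L0 M₀ J (ε / 4) X H p a qs s)) =
        (3 * C) * (X ^ (8 : ℝ)) ^ ε' * (H ^ M₀ * X ^ (ε / 4) *
          Real.exp (tgX (L0 (prX p)) X a qs) * ((1 + |s|) ^ J * (1 + |s|) ^ A)) := by
        unfold BdM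
        ring
    _ ≤ X ^ (ε / 4) * X ^ (ε / 4) * (H ^ M₀ * X ^ (ε / 4) *
          Real.exp (tgX (L0 (prX p)) X a qs) * ((1 + |s|) ^ J * (1 + |s|) ^ A)) := by
        gcongr
    _ = H ^ M₀ * X ^ (3 / 4 * ε) * Real.exp (tgX (L0 (prX p)) X a qs) * (1 + |s|) ^ (J + A) := by
        rw [pow_add]
        have e1 : X ^ (3 / 4 * ε) = X ^ (ε / 4) * X ^ (ε / 4) * X ^ (ε / 4) := by
          rw [← Real.rpow_add hX0, ← Real.rpow_add hX0]
          congr 1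
          ring
        rw [e1]
        ring
    _ ≤ H ^ M₀ * X ^ ε * Real.exp (tgX (L0 (prX p)) X a qs) * (1 + |s|) ^ (J + A) := by
        have e2 : X ^ (3 / 4 * ε) ≤ X ^ ε :=
          Real.rpow_le_rpow_of_exponent_le hX1.le (by linarith)
        gcongr

/-- **`P1CXF` from the numbers** -/
theorem p1CXF_of {Λ : Type*} {π : Λ → DPar} {h : ℝ → ℝ} {e0 c β : ℝ} (hP : ∀ lam, (π lam).OK)
    {Rh : ℝ} (hRh0 : 0 ≤ Rh) (hRh : ∀ u, cx h u ≠ 0 → |u| ≤ Rh) (he0 : e0 ≤ 1)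
    {Par : Set (Fin 3 ⊕ Fin 5 → ℝ)} {L0 : (Fin 3 ⊕ Fin 5 → ℝ) → ℝ}
    {Hx : ℝ → BmX → List Pq → ℕ → Eis → ℕ → Eis → Eis → ℝ}
    (hX : XMG π h e0 c (okX π) (αX π h) FrD β Par L0)
    (hT : LTG π h e0 c (okX π) (αX π h) FrD β Par L0 Hx)
    (hRn : LRG π h e0 c (okX π) (αX π h) FrD β Par L0 Hx) : P1CXF π h e0 c β Par L0 :=
  p1CGF_of hP hRh0 hRh he0 (fun lam a => FS_xD hRh (hP lam.1) lam.2 _ _ _)
    (fun lam a => PSu_xD hRh (hP lam.1) lam.2 _ _ _)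
    (fun lam a n hn => by
      have key : ∀ ws : Fin 3 → Pq,
          sqc 1 (alL h ((List.ofFn ws ++ []).map (Pt (π lam.1) lam.2))) n ≠ 0 →
          |Real.log (nm n) - ((ws 0).z + (ws 1).z + (ws 2).z)| ≤ 3 * Rh := by
        intro ws hn
        have h1 := (supp_list h hRh (hP lam.1) lam.2 (List.ofFn ws ++ []) hn).2.2
        simp only [List.append_nil, List.ofFn_succ, List.ofFn_zero, List.map_cons, List.map_nil,
          List.sum_cons, List.sum_nil, List.length_cons, List.length_nil] at h1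
        have e1 : (ws 0).z + ((ws (Fin.succ 0)).z + ((ws (Fin.succ 0).succ).z + 0)) =
            (ws 0).z + (ws 1).z + (ws 2).z := by
          show (ws 0).z + ((ws 1).z + ((ws 2).z + 0)) = _
          ring
        rw [e1] at h1
        push_cast at h1
        linarith
      by_cases h1 : sqc 1 (alL h ((List.ofFn a.1.2.1 ++ []).map (Pt (π lam.1) lam.2))) n = 0
      · have h2 : sqc 1 (alL h ((List.ofFn (rzD a.1.2.1 (dz a.1.1)) ++ []).map
            (Pt (π lam.1) lam.2))) n ≠ 0 := by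
          intro h2
          apply hn
          show oc a.1.2.1 (a.1.2.1 0).z (a.1.2.1 1).z * _ + _ * _ = 0
          rw [h1, h2, mul_zero, mul_zero, add_zero]
        have h3 := key _ h2
        have e1 : (rzD a.1.2.1 (dz a.1.1) 0).z = (a.1.2.1 0).z - dz a.1.1 := rfl
        have e2 : (rzD a.1.2.1 (dz a.1.1) 1).z = (a.1.2.1 1).z + dz a.1.1 := rfl
        have e3 : (rzD a.1.2.1 (dz a.1.1) 2).z = (a.1.2.1 2).z := rfl
        rw [e1, e2, e3] at h3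
        have e4 : (a.1.2.1 0).z - dz a.1.1 + ((a.1.2.1 1).z + dz a.1.1) + (a.1.2.1 2).z =
            lM a := by
          unfold lM
          ring
        rwa [e4] at h3
      · exact key _ h1)
    (fun p X τ B H N a qs F => F.pdN.len)
    (fun p X τ τ' B H N a qs hL h1 F => FrD_mono hL F h1) hX hT hRn

/-- **`P1CSF` from the numbers** -/
theorem p1CSF_of {Λ : Type*} {π : Λ → DPar} {h : ℝ → ℝ} {e0 c β : ℝ} (hP : ∀ lam, (π lam).OK)
    {Rh : ℝ} (hRh0 : 0 ≤ Rh) (hRh : ∀ u, cx h u ≠ 0 → |u| ≤ Rh) (he0 : e0 ≤ 1)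
    {Par : Set (Fin 3 ⊕ Fin 5 → ℝ)} {L0 : (Fin 3 ⊕ Fin 5 → ℝ) → ℝ}
    {Hx : ℝ → BmX → List Pq → ℕ → Eis → ℕ → Eis → Eis → ℝ}
    (hX : XMG π h e0 c (okS π) (αS π h) (FrS β) β Par L0)
    (hT : LTG π h e0 c (okS π) (αS π h) (FrS β) β Par L0 Hx)
    (hRn : LRG π h e0 c (okS π) (αS π h) (FrS β) β Par L0 Hx) : P1CSF π h e0 c β Par L0 :=
  p1CGF_of hP hRh0 hRh he0 (fun lam _ => FS_list h hRh (hP lam.1) lam.2 _)
    (fun lam _ => PSu_list hRh (hP lam.1) lam.2 _)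
    (fun lam a n hn => by
      have h1 := (supp_list h hRh (hP lam.1) lam.2 (List.ofFn a.1.2.1) hn).2.2
      simp only [List.ofFn_succ, List.ofFn_zero, List.map_cons, List.map_nil,
        List.sum_cons, List.sum_nil, List.length_cons, List.length_nil] at h1
      have e1 : (a.1.2.1 0).z + ((a.1.2.1 (Fin.succ 0)).z +
          ((a.1.2.1 (Fin.succ 0).succ).z + 0)) = lM a := by
        unfold lM
        show (a.1.2.1 0).z + ((a.1.2.1 1).z + ((a.1.2.1 2).z + 0)) = _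
        ring
      rw [e1] at h1
      push_cast at h1
      linarith)
    (fun p X τ B H N a qs F => F.pd.elim (fun h1 => h1.len) fun h1 => h1.len)
    (fun p X τ τ' B H N a qs hL h1 F => FrS_mono hL F h1) hX hT hRn

end Crest.Agent.R017.P1yX72
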