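import Crest.Agent.R017.RPQ_65
import Crest.Agent.R017.RPp_813

/-!
# Row 17, class E of `P1`, mismatch (helper65): the `R`-number, any set of frequencies `Q`

* `rnmQ_raw`  : helper813's `rnm_raw` at the frequencies with `Q (k t)`
* `RMm_add2`  : a combination of two sequences
* `rnmQ2_raw` : the same for a combination of two families of lumps
-/

set_option autoImplicit false
set_option linter.unusedVariables false

noncomputable section

open Finset

namespace Crest.Agent.R017.RPQ65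

open Crest.Agent.R012 Crest.Agent.R012.Eis
open Crest.Agent.R012.LS2 (S mem_S bl mem_bl)
open Crest.Agent.R012.Weight600 (pw)
open Crest.Agent.R017.FE47 (PU SM cx exists_R cs_cx)
open Crest.Agent.R017.CM106
open Crest.Agent.R017.XG702 (Pcs BG)
open Crest.Agent.R017.Prov71
open Crest.Agent.R017.B770
open Crest.Agent.R017.HP842 (Pc pc sqc al alL)
open Crest.Agent.R017.E5B71 (Pt)
open Crest.Agent.R017.RM986 (Plain)
open Crest.Agent.R017.R3571 (RMm RMm_nonneg RMm_eq rm integrable_RM W2 W2_mono W2_at slp_two)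
open Crest.Agent.R017.Mode405 (Slp)
open Crest.Agent.R017.PX764 (n6)
open Crest.Agent.R017.E3Z548 (FH)
open Crest.Agent.R017.E3Sz579 (RHd Ld Md)
open Crest.Agent.R017.E3T829 (G2)
open Crest.Agent.R017.E3Hd290 (RNF)
open Crest.Agent.R017.GrC828 Crest.Agent.R017.GrT828
open Crest.Agent.R017.DgA829 (lc lc_prim lc_dvd)
open Crest.Agent.R017.RnP571 (Nn lL lI log_Ld Ld_pos log_I fac_eq)
open Crest.Agent.R017.E1551 (jb jb_pos)
open Crest.Agent.R017.RPm813
open Crest.Agent.R017.P1l54 (Pt_OK)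

/-! ### combinations -/

lemma slp_add {a : ℕ} {W W' : ℝ → ℝ} (h : Slp a W) (h' : Slp a W') :
    Slp a (fun P => 2 * W P + 2 * W' P) where
  nonneg P hP := by
    have h1 := h.nonneg P hP
    have h2 := h'.nonneg P hP
    positivity
  low P' P h1 h2 := by
    have a1 := h.low P' P h1 h2
    have a2 := h'.low P' P h1 h2
    calc 2 * W P' + 2 * W' P' ≤ 2 * ((P' / P) ^ (1 / 3 : ℝ) * W P) +
          2 * ((P' / P) ^ (1 / 3 : ℝ) * W' P) := by linarith
      _ = _ := by ring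
  dbl P hP := by
    have a1 := h.dbl P hP
    have a2 := h'.dbl P hP
    calc 2 * W (2 * P) + 2 * W' (2 * P) ≤ 2 * (2 ^ a * W P) + 2 * (2 ^ a * W' P) := by linarith
      _ = _ := by ring

/-- a combination of two sequences -/
lemma RMm_add2 {A : ℝ} (hA : 1 < A) {z w : ℂ} (hz : ‖z‖ ≤ 1) (hw : ‖w‖ ≤ 1) {a b : Eis → ℂ}
    (ha : FS a) (hb : FS b) (e : Eis) {γ : Eis} (hγ : γ ≠ 0) (φ r : Eis) :
    RMm A (fun m => z * a m + w * b m) e γ φ r ≤
      2 * RMm A a e γ φ r + 2 * RMm A b e γ φ r := by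
  classical
  have hs : ∀ {a : Eis → ℂ}, FS a → ∀ t, Summable fun m => rm a e γ φ t m * sy r m := by
    intro a ha t
    obtain ⟨T, hT, -⟩ := Win813.supp_fin ha hγ
    refine summable_of_hasFiniteSupport (T.finite_toSet.subset fun m hm => ?_)
    rw [Function.mem_support] at hm
    refine Finset.mem_coe.2 (hT m fun h0 => hm ?_)
    unfold R3571.rm
    rw [h0]
    simp
  have hCS : ∀ t, CS (rm (fun m => z * a m + w * b m) e γ φ t) r =
      z * CS (rm a e γ φ t) r + w * CS (rm b e γ φ t) r := by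
    intro t
    unfold CM106.CS
    rw [← tsum_mul_left, ← tsum_mul_left,
      ← (((hs ha t).mul_left z).tsum_add ((hs hb t).mul_left w))]
    refine tsum_congr fun m => ?_
    unfold R3571.rm
    split_ifs
    · ring
    · ring
  have hia := integrable_RM hA ha hγ e φ r
  have hib := integrable_RM hA hb hγ e φ r
  have e1 : 2 * RMm A a e γ φ r + 2 * RMm A b e γ φ r =
      ∫ t, (2 * (jb A t * ‖CS (rm a e γ φ t) r‖ ^ 2) +
        2 * (jb A t * ‖CS (rm b e γ φ t) r‖ ^ 2)) := by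
    rw [MeasureTheory.integral_add (hia.const_mul 2) (hib.const_mul 2),
      MeasureTheory.integral_const_mul, MeasureTheory.integral_const_mul]
    rfl
  rw [e1, RMm_eq]
  refine MeasureTheory.integral_mono_of_nonneg (Filter.Eventually.of_forall fun t =>
    mul_nonneg (jb_pos A t).le (by positivity)) ((hia.const_mul 2).add (hib.const_mul 2))
    (Filter.Eventually.of_forall fun t => ?_)
  beta_reduce
  rw [hCS t]
  have h3 : ‖z * CS (rm a e γ φ t) r + w * CS (rm b e γ φ t) r‖ ≤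
      ‖CS (rm a e γ φ t) r‖ + ‖CS (rm b e γ φ t) r‖ := by
    refine (norm_add_le _ _).trans (add_le_add ?_ ?_)
    · rw [norm_mul]; exact mul_le_of_le_one_left (norm_nonneg _) hz
    · rw [norm_mul]; exact mul_le_of_le_one_left (norm_nonneg _) hw
  have h4 := pow_le_pow_left₀ (norm_nonneg _) h3 2
  have h5 : (‖CS (rm a e γ φ t) r‖ + ‖CS (rm b e γ φ t) r‖) ^ 2 ≤
      2 * ‖CS (rm a e γ φ t) r‖ ^ 2 + 2 * ‖CS (rm b e γ φ t) r‖ ^ 2 := by
    nlinarith [sq_nonneg (‖CS (rm a e γ φ t) r‖ - ‖CS (rm b e γ φ t) r‖)]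
  calc jb A t * ‖z * CS (rm a e γ φ t) r + w * CS (rm b e γ φ t) r‖ ^ 2
      ≤ jb A t * (2 * ‖CS (rm a e γ φ t) r‖ ^ 2 + 2 * ‖CS (rm b e γ φ t) r‖ ^ 2) :=
        mul_le_mul_of_nonneg_left (h4.trans h5) (jb_pos A t).le
    _ = _ := by ring

/-- the coefficient has finite support on the primary elements -/
lemma FS_afW {W : Eis → Eis → Eis → ℂ} {Z : ℝ} (hZ : 0 ≤ Z) {η α : Eis → ℂ} (hα : FS α)
    {g d : Eis} (hd : IsPrim d) (e : Eis) : FS (afW W Z η α g e d) where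
  fin := by
    refine Set.Finite.subset (((S Z).finite_toSet.prod hα.fin).image
      (fun p : Eis × Eis => p.1 * p.2 / d)) fun m hm => ?_
    obtain ⟨a, n, ha, -, k2, -, k4, -⟩ := afW_ne hZ (Function.mem_support.1 hm)
    refine ⟨(a, n), ⟨ha, k2⟩, ?_⟩
    show a * n / d = m
    rw [← k4, mul_div_cancel_left₀ _ hd.ne_zero]
  prim m hm := by
    obtain ⟨a, n, ha, -, k2, -, k4, -⟩ := afW_ne hZ hm
    have hdm : IsPrim (d * m) := k4 ▸ ((mem_S hZ).1 ha).2.1.mul (hα.prim n k2)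
    exact hdm.of_mul_left hd

section

variable {Λ : Type*} {π : Λ → DPar} {h : ℝ → ℝ}

set_option maxHeartbeats 3200000 in
open Classical in
/-- **the `R`-number of the mismatch from one real line**, any weight `Qf ≤ (3 + c) exp gg`, the
frequencies with `Q (k t)` -/
theorem rnmQ_raw {c₀ : ℝ} (hpu : PU h c₀) (hP : ∀ lam, (π lam).OK) {Kc : ℝ} (hKc : 0 ≤ Kc)
    {Q : Λ → Eis → Prop} {E : ℝ → ℝ → ℝ → ℝ → ℝ → ℝ → ℝ} (PL : Plain Q π h (Kc + 2) E)
    {gg : ℝ → ℝ → ℝ} (hgg : ∀ c : ℝ, 0 ≤ c → ∀ l I : ℝ, gg (c * l) (c * I) = c * gg l I)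
    {Gb : ℝ} (hGb : 0 ≤ Gb) (hEb : ∀ i y₁ y₂ y₃ x : ℝ, 0 ≤ i → i ≤ Kc + 2 → 0 ≤ y₁ → y₁ ≤ Kc + 2 →
      0 ≤ y₂ → y₂ ≤ Kc + 2 → 0 ≤ y₃ → y₃ ≤ Kc + 2 → 0 ≤ x → x ≤ Kc + 2 →
      E i y₁ y₂ y₃ 0 x ≤ Gb) {ε : ℝ} (hε : 0 < ε) (hε1 : ε ≤ 1) :
    ∃ σ : ℝ, 0 < σ ∧ σ ≤ ε ∧ ∀ (lam : Λ) (t : Eis), t ≠ 0 → ∀ (N : ℕ) (B : ℝ),
      ∃ (M a A₀ : ℕ), 1 ≤ a ∧ ∀ c : ℝ, 1 ≤ c → ∃ X₀ : ℝ, 1 < X₀ ∧ ∀ X : ℝ, X₀ ≤ X →
      ∀ (us : Fin 3 → Pq) (qs : List Pq) (H : ℝ),
      (∀ i, Dq.lump (us i) ∧ 0 ≤ (us i).z ∧ (us i).z ≤ Kc * Real.log X ∧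
        (nm (us i).d : ℝ) ≤ X ^ B) → qs.length ≤ N →
      (∀ p ∈ qs, p.kd = .am ∧ 0 ≤ p.z ∧ p.z ≤ σ * Real.log X ∧ (nm p.d : ℝ) ≤ X ^ B) →
      (qs.map Pq.z).sum ≤ Kc * Real.log X → 1 ≤ H → (∀ i, 1 + |(us i).t| ≤ H) →
      (∀ p ∈ qs, 1 + |p.t| ≤ H) →
      ∀ (θ : ℝ) (W : Eis → Eis → Eis → ℂ), WOK θ W → ∀ Z : ℝ, 0 ≤ Z →
      (∀ n, sqc 1 (alL h (qs.map (Pt (π lam) t))) n ≠ 0 → (nm n : ℝ) ≤ Z) →
      ∀ g hh : Eis, IsPrim g → IsPrim hh →
      ∀ n : ℝ, n = (us 0).z + (us 1).z + (us 2).z + (qs.map Pq.z).sum - Real.log (nm g) -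
        Real.log (nm hh) →
      ∀ (K V : ℝ) (Hf : Eis → Eis → ℝ) (Qf : Eis → Eis → ℝ) (T : Eis → Eis → ℝ), 0 < K → 0 < V →
      (∀ d e, 0 < Hf d e) → ∀ Pr : Eis → Eis → Prop,
      (∀ d e, Pr d e → IsPrim d ∧ IsPrim e) →
      (∀ d e, Pr d e →
        Real.exp n * V * Hf d e / K ≤ X ^ Kc ∧ 0 ≤ Qf d e ∧
        Qf d e ≤ (3 + c) * Real.exp (gg (lL K V (Hf d e) d) (lI K V (Hf d e) n))) →
      (∀ d e, Pr d e → 1 ≤ Ld K V (Hf d e) d →
        Nn gg (Real.log K / Real.log X) (Real.log V / Real.log X) (Real.log (Hf d e) / Real.log X)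
          (n / Real.log X) (Real.log (nm d) / Real.log X) (Real.log (nm e) / Real.log X) ≤ T d e ∧
        ∀ i y₁ y₂ y₃ x : ℝ, 0 ≤ i →
        i ≤ (n + Real.log V + Real.log (Hf d e) - Real.log K) / Real.log X + ε → 0 ≤ y₁ →
        y₁ ≤ (us 0).z / Real.log X + ε → 0 ≤ y₂ → y₂ ≤ (us 1).z / Real.log X + ε → 0 ≤ y₃ →
        y₃ ≤ (us 2).z / Real.log X + ε → 0 ≤ x →
        x ≤ ((qs.map Pq.z).sum - Real.log (nm g)) / Real.log X + ε →
        y₁ + y₂ + y₃ ≤ ((us 0).z + (us 1).z + (us 2).z - Real.log (nm g)) / Real.log X + ε →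
        y₁ + y₂ + y₃ + x ≤ (n - Real.log (nm d) -
          Real.log (nm (lc (cc g (hh * d)) e))) / Real.log X + ε →
        E i y₁ y₂ y₃ 0 x + ((n + Real.log V + Real.log (Hf d e) - Real.log K) / Real.log X - i) / 3 +
          Nn gg (Real.log K / Real.log X) (Real.log V / Real.log X)
            (Real.log (Hf d e) / Real.log X) (n / Real.log X) (Real.log (nm d) / Real.log X)
            (Real.log (nm e) / Real.log X) ≤ T d e + (y₁ + y₂ + y₃ + x)) →
      ∃ W0 : Eis → Eis → ℝ → ℝ, (∀ d e, Slp a (W0 d e)) ∧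
      (∀ A : ℕ, A₀ ≤ A → ∀ d e, Pr d e → ∀ (b : Eis → ℂ) (u : ℂ), ‖u‖ ≤ 1 →
        (∀ m, b m = u * afW W Z (sqc 1 (alL h (qs.map (Pt (π lam) t))))
          (sqc 1 (alL h ((List.ofFn us).map (Pt (π lam) t)))) g e (hh * d) m) →
        ∀ γ φ, IsPrim γ → IsPrim φ → (nm φ : ℝ) ≤ X ^ B → ∀ P : ℝ, 0 < P →
          (nm γ : ℝ) * n6 γ ^ 2 * ∑ k ∈ (bl P).filter (fun k => Q lam (k * t)),
            RMm A b e γ φ k ≤ W0 d e P) ∧
      ∀ d e, Pr d e →
        FH K (Hf d e) V * ((nm d : ℝ) ^ (2 / 3 : ℝ) * nm e *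
          ((if 1 ≤ Ld K V (Hf d e) d then Qf d e else 0) *
            W0 d e (c * (Real.exp n * V * Hf d e / K)))) ≤
        (H * (1 + |θ|)) ^ M * X ^ (T d e + ε) / (nm d * nm e) := by
  classical
  obtain ⟨σ, hσ0, hσε, HR⟩ := rp_rawQ hpu hP (Kc := Kc + 1) (by linarith)
    (E := E) (by
      have e : Kc + 1 + 1 = Kc + 2 := by ring
      rw [e]; exact PL) (show 0 < ε / 4 by positivity)
  refine ⟨σ, hσ0, by linarith, fun lam t ht N B => ?_⟩
  obtain ⟨M, a, A₀, X₁, ha, hX₁, HR⟩ := HR lam t ht N B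
  refine ⟨M, a, A₀, ha, fun c hc => ?_⟩
  obtain ⟨X₂, hX₂, HX₂⟩ := XSup271.exists_X (show 1 ≤ 3 + c by linarith) (ε := ε / 4)
    (by positivity)
  refine ⟨max X₁ X₂, lt_of_lt_of_le hX₁ (le_max_left _ _), ?_⟩
  intro X hX us qs H hus hN hqs hsum hH hH1 hH2 θ W hW Z hZ hsup g hh hg hhh n hn K V Hf Qf T hK
    hV hHf Pr hPr hQ hline
  have ng : (0 : ℝ) < nm g := by exact_mod_cast nm_pos.2 hg.ne_zero
  have nh : (0 : ℝ) < nm hh := by exact_mod_cast nm_pos.2 hhh.ne_zero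
  set H' : ℝ := H * (1 + |θ|) with hH'
  have hθ1 : 1 ≤ 1 + |θ| := by linarith [abs_nonneg θ]
  have hH'1 : 1 ≤ H' := one_le_mul_of_one_le_of_one_le hH hθ1
  have hXX₁ : X₁ ≤ X := (le_max_left _ _).trans hX
  have hXX₂ : X₂ ≤ X := (le_max_right _ _).trans hX
  have hX1 : 1 < X := by linarith
  have hX0 : 0 < X := by linarith
  set L := Real.log X with hLd
  have hL : 0 < L := Real.log_pos hX1
  have hc0 : 0 < c := by linarith
  have h3c : 3 + c ≤ X ^ (ε / 4) := HX₂ X hXX₂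
  have hcX : c ≤ X ^ (ε / 4) := by linarith
  have hlc0 : 0 ≤ Real.log c := Real.log_nonneg hc
  have hlc : Real.log c ≤ ε / 4 * L := by
    have := Real.log_le_log hc0 hcX
    rwa [Real.log_rpow hX0] at this
  -- the data
  set P1 : Eis → Eis → ℝ := fun d e => c * (Real.exp n * V * Hf d e / K) with hP1
  have hP10 : ∀ d e, 0 < P1 d e := fun d e => by
    have := hHf d e
    rw [hP1]
    positivity
  set NN : Eis → Eis → ℝ := fun d e => Nn gg (Real.log K / L) (Real.log V / L)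
    (Real.log (Hf d e) / L) (n / L) (Real.log (nm d) / L) (Real.log (nm e) / L) with hNN
  set G : Eis → Eis → ℝ := fun d e => if 1 ≤ Ld K V (Hf d e) d ∧ NN d e ≤ T d e then
    T d e - NN d e + ε / 4 else Gb + Kc + 2 with hG
  have hG0 : ∀ d e, 0 ≤ G d e := by
    intro d e
    rw [hG]
    dsimp only
    split_ifs with h1
    · linarith [h1.2]
    · linarith
  set W1 : Eis → Eis → ℝ := fun d e => H' ^ M * X ^ (G d e + ε / 4) *
    (Real.exp n / nm d) ^ (2 / 3 : ℝ) with hW1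
  have hW10 : ∀ d e, 0 ≤ W1 d e := fun d e => by rw [hW1]; positivity
  have hlP1 : ∀ d e, Real.log (P1 d e) =
      Real.log c + (n + Real.log V + Real.log (Hf d e) - Real.log K) := by
    intro d e
    have h1 := log_I (n := n) hK hV (hHf d e)
    have h2 := hHf d e
    rw [hP1]
    dsimp only
    rw [Real.log_mul hc0.ne' (by positivity), h1]
    rfl
  refine ⟨fun d e => W2 a (P1 d e) (W1 d e), fun d e => slp_two ha (hP10 d e) (hW10 d e), ?_, ?_⟩
  · -- (RH)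
    intro A hA d e hde b u hu hb γ φ hγ hφ hφm P hPp
    obtain ⟨pd, pe⟩ := hPr d e hde
    have nd0 : (0 : ℝ) < nm d := by exact_mod_cast nm_pos.2 pd.ne_zero
    have ne0 : (0 : ℝ) < nm e := by exact_mod_cast nm_pos.2 pe.ne_zero
    obtain ⟨hI, hQ0, hQ1⟩ := hQ d e hde
    have hP1X : P1 d e ≤ X ^ (Kc + 1) := by
      have h1 : c ≤ X ^ (1 : ℝ) := hcX.trans (Real.rpow_le_rpow_of_exponent_le hX1.le (by linarith))
      have h2 := hHf d e
      calc P1 d e ≤ X ^ (1 : ℝ) * X ^ Kc := mul_le_mul h1 hI (by positivity) (by positivity)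
        _ = _ := by rw [← Real.rpow_add hX0]; congr 1; ring
    have hlhd : Real.log (nm (hh * d)) = Real.log (nm hh) + Real.log (nm d) :=
      log_nm_mul hhh.ne_zero pd.ne_zero
    have key := HR X hXX₁ us qs H (fun p => by
        obtain ⟨b1, b2, b3, b4⟩ := hus p
        exact ⟨b1, b2, by linarith, b4⟩) hN hqs (by linarith) hH hH1 hH2 θ W hW Z hZ hsup g
      (hh * d) e hg (hhh.mul pd) pe (P1 d e) (G d e) (hP10 d e) hP1X (hG0 d e) ?_ A hA γ φ hγ hφ
      hφm P hPp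
    · have e9 : Real.exp ((us 0).z + (us 1).z + (us 2).z + (qs.map Pq.z).sum) /
          (nm g * nm (hh * d)) = Real.exp n / nm d := by
        rw [hn, Real.exp_sub, Real.exp_sub, Real.exp_log ng, Real.exp_log nh, nm_mul]
        push_cast
        field_simp
      rw [e9] at key
      refine le_trans (mul_le_mul_of_nonneg_left (sum_le_sum fun k _ => ?_)
        (by positivity)) key
      have e10 : b = fun m => u * afW W Z (sqc 1 (alL h (qs.map (Pt (π lam) t))))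
          (sqc 1 (alL h ((List.ofFn us).map (Pt (π lam) t)))) g e (hh * d) m := funext hb
      rw [e10]
      exact RMm_unit hu _ _ _ _ _
    · -- the real line
      intro i y₁ y₂ y₃ x hi0 hi hy10 hy1 hy20 hy2 hy30 hy3 hx0 hx hysum hsum'
      rw [hlP1, add_div] at hi ⊢
      rw [hlhd] at hsum'
      have hg0 := log_nm_nn hg.ne_zero
      have hcL : Real.log c / L ≤ ε / 4 := by rw [div_le_iff₀ hL]; exact hlc
      have hcL0 : 0 ≤ Real.log c / L := by positivity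
      rw [hG]
      dsimp only
      split_ifs with h1
      · obtain ⟨-, h2⟩ := hline d e hde h1.1
        have h3 := h2 i y₁ y₂ y₃ x hi0 (by linarith) hy10 (by linarith) hy20 (by linarith) hy30
          (by linarith) hx0 (by linarith) (by linarith) (by
            have e11 : (us 0).z + (us 1).z + (us 2).z + (qs.map Pq.z).sum - Real.log (nm g) -
                (Real.log (nm hh) + Real.log (nm d)) - Real.log (nm (lc (cc g (hh * d)) e)) =
                n - Real.log (nm d) - Real.log (nm (lc (cc g (hh * d)) e)) := by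
              rw [hn]; ring
            rw [e11] at hsum'
            linarith)
        change _ + NN d e ≤ _ at h3
        linarith
      · have hIL : (n + Real.log V + Real.log (Hf d e) - Real.log K) / L ≤ Kc := by
          rw [div_le_iff₀ hL]
          have h2 := Real.log_le_log (by have := hHf d e; positivity) hI
          rw [log_I hK hV (hHf d e), Real.log_rpow hX0] at h2
          exact h2
        have hz : ∀ p, (us p).z / L ≤ Kc := by
          intro p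
          rw [div_le_iff₀ hL]
          exact (hus p).2.2.1
        have hz1 := hz 0
        have hz2 := hz 1
        have hz3 := hz 2
        have hz4 : ((qs.map Pq.z).sum - Real.log (nm g)) / L ≤ Kc := by
          rw [div_le_iff₀ hL]; linarith
        have h3 := hEb i y₁ y₂ y₃ x hi0 (by linarith) hy10 (by linarith) hy20 (by linarith) hy30
          (by linarith) hx0 (by linarith)
        linarith
  · -- the number
    intro d e hde
    obtain ⟨pd, pe⟩ := hPr d e hde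
    have nd0 : (0 : ℝ) < nm d := by exact_mod_cast nm_pos.2 pd.ne_zero
    have ne0 : (0 : ℝ) < nm e := by exact_mod_cast nm_pos.2 pe.ne_zero
    have hHf0 := hHf d e
    obtain ⟨hI, hQ0, hQ1⟩ := hQ d e hde
    have hRHS : 0 ≤ H' ^ M * X ^ (T d e + ε) / (nm d * nm e) := by positivity
    by_cases h1 : 1 ≤ Ld K V (Hf d e) d
    swap
    · rw [if_neg h1, zero_mul, mul_zero, mul_zero]
      exact hRHS
    rw [if_pos h1]
    have hNT : NN d e ≤ T d e := (hline d e hde h1).1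
    have hGe : G d e = T d e - NN d e + ε / 4 := by
      rw [hG]
      dsimp only
      rw [if_pos ⟨h1, hNT⟩]
    have hW : W2 a (P1 d e) (W1 d e) (c * (Real.exp n * V * Hf d e / K)) = W1 d e :=
      W2_at a (hP10 d e) _
    beta_reduce
    rw [hW, le_div_iff₀ (by positivity)]
    have hfac := fac_eq (n := n) hK hV hHf0 nd0 ne0
    set gE : ℝ := gg (lL K V (Hf d e) d) (lI K V (Hf d e) n) with hgE
    have e1 : FH K (Hf d e) V * ((nm d : ℝ) ^ (2 / 3 : ℝ) * nm e * (Qf d e * W1 d e)) *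
        (nm d * nm e) = (K ^ (2 / 3 : ℝ) * (Hf d e * V) ^ (-(1 / 3) : ℝ) *
          ((nm d : ℝ) ^ (2 / 3 : ℝ) * nm e * (Real.exp n / nm d) ^ (2 / 3 : ℝ)) *
          (nm d * nm e)) * (Qf d e * (H' ^ M * X ^ (G d e + ε / 4))) := by
      rw [hW1]
      unfold E3Z548.FH
      ring
    rw [e1, hfac]
    have e2 : NN d e * L = (2 / 3 * Real.log K - (Real.log (Hf d e) + Real.log V) / 3 +
        5 / 3 * Real.log (nm d) + 2 * Real.log (nm e) + 2 / 3 * (n - Real.log (nm d))) + gE := by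
      have f1 : gE = L * gg (Real.log (Hf d e) / L + 2 * (Real.log V / L) - Real.log K / L -
          Real.log (nm d) / L) (n / L + Real.log V / L + Real.log (Hf d e) / L -
            Real.log K / L) := by
        rw [← hgg L hL.le, hgE]
        unfold lL lI
        congr 1
        · field_simp
        · field_simp
      rw [f1]
      show Nn gg _ _ _ _ _ _ * L = _
      unfold Nn
      field_simp
      ring
    have e3 : X ^ (G d e + ε / 4) = Real.exp ((T d e - NN d e + ε / 2) * L) := by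
      rw [hGe, Real.rpow_def_of_pos hX0, ← hLd]
      congr 1
      ring
    rw [e3]
    set aa : ℝ := 2 / 3 * Real.log K - (Real.log (Hf d e) + Real.log V) / 3 +
        5 / 3 * Real.log (nm d) + 2 * Real.log (nm e) + 2 / 3 * (n - Real.log (nm d)) with haa
    have hHM : 0 ≤ H' ^ M := by positivity
    calc Real.exp aa * (Qf d e * (H' ^ M * Real.exp ((T d e - NN d e + ε / 2) * L)))
        ≤ Real.exp aa * ((3 + c) * Real.exp gE *
          (H' ^ M * Real.exp ((T d e - NN d e + ε / 2) * L))) := by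
          refine mul_le_mul_of_nonneg_left ?_ (Real.exp_pos _).le
          exact mul_le_mul_of_nonneg_right hQ1 (by positivity)
      _ ≤ Real.exp aa * (X ^ (ε / 4) * Real.exp gE *
          (H' ^ M * Real.exp ((T d e - NN d e + ε / 2) * L))) := by
          refine mul_le_mul_of_nonneg_left ?_ (Real.exp_pos _).le
          refine mul_le_mul_of_nonneg_right ?_ (by positivity)
          exact mul_le_mul_of_nonneg_right h3c (Real.exp_pos _).le
      _ = H' ^ M * (Real.exp aa * Real.exp gE * Real.exp (L * (ε / 4)) *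
          Real.exp ((T d e - NN d e + ε / 2) * L)) := by
          rw [Real.rpow_def_of_pos hX0 (ε / 4), ← hLd]
          ring
      _ = H' ^ M * Real.exp (L * (T d e + 3 / 4 * ε)) := by
          rw [← Real.exp_add, ← Real.exp_add, ← Real.exp_add, ← e2]
          congr 2
          ring
      _ ≤ H' ^ M * X ^ (T d e + ε) := by
          refine mul_le_mul_of_nonneg_left ?_ hHM
          rw [Real.rpow_def_of_pos hX0, ← hLd]
          refine Real.exp_le_exp.2 (mul_le_mul_of_nonneg_left ?_ hL.le)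
          linarith

set_option maxHeartbeats 3200000 in
open Classical in
/-- **the `R`-number of a combination of two families of lumps**, the frequencies with `Q (k t)` -/
theorem rnmQ2_raw {c₀ : ℝ} (hpu : PU h c₀) (hP : ∀ lam, (π lam).OK) {Kc : ℝ} (hKc : 0 ≤ Kc)
    {Q : Λ → Eis → Prop} {E : ℝ → ℝ → ℝ → ℝ → ℝ → ℝ → ℝ} (PL : Plain Q π h (Kc + 2) E)
    {gg : ℝ → ℝ → ℝ} (hgg : ∀ c : ℝ, 0 ≤ c → ∀ l I : ℝ, gg (c * l) (c * I) = c * gg l I)
    {Gb : ℝ} (hGb : 0 ≤ Gb) (hEb : ∀ i y₁ y₂ y₃ x : ℝ, 0 ≤ i → i ≤ Kc + 2 → 0 ≤ y₁ → y₁ ≤ Kc + 2 →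
      0 ≤ y₂ → y₂ ≤ Kc + 2 → 0 ≤ y₃ → y₃ ≤ Kc + 2 → 0 ≤ x → x ≤ Kc + 2 →
      E i y₁ y₂ y₃ 0 x ≤ Gb) {ε : ℝ} (hε : 0 < ε) (hε1 : ε ≤ 1) :
    ∃ σ : ℝ, 0 < σ ∧ σ ≤ ε ∧ ∀ (lam : Λ) (t : Eis), t ≠ 0 → ∀ (N : ℕ) (B : ℝ),
      ∃ (M a A₀ : ℕ), 1 ≤ a ∧ ∀ c : ℝ, 1 ≤ c → ∃ X₀ : ℝ, 1 < X₀ ∧ ∀ X : ℝ, X₀ ≤ X →
      ∀ (us us' : Fin 3 → Pq) (qs : List Pq) (H : ℝ),
      (∀ i, Dq.lump (us i) ∧ 0 ≤ (us i).z ∧ (us i).z ≤ Kc * Real.log X ∧
        (nm (us i).d : ℝ) ≤ X ^ B) →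
      (∀ i, Dq.lump (us' i) ∧ 0 ≤ (us' i).z ∧ (us' i).z ≤ Kc * Real.log X ∧
        (nm (us' i).d : ℝ) ≤ X ^ B) → qs.length ≤ N →
      (∀ p ∈ qs, p.kd = .am ∧ 0 ≤ p.z ∧ p.z ≤ σ * Real.log X ∧ (nm p.d : ℝ) ≤ X ^ B) →
      (qs.map Pq.z).sum ≤ Kc * Real.log X → 1 ≤ H → (∀ i, 1 + |(us i).t| ≤ H) →
      (∀ i, 1 + |(us' i).t| ≤ H) → (∀ p ∈ qs, 1 + |p.t| ≤ H) →
      ∀ (θ : ℝ) (W : Eis → Eis → Eis → ℂ), WOK θ W → ∀ Z : ℝ, 0 ≤ Z →
      (∀ n, sqc 1 (alL h (qs.map (Pt (π lam) t))) n ≠ 0 → (nm n : ℝ) ≤ Z) →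
      ∀ g hh : Eis, IsPrim g → IsPrim hh →
      ∀ n : ℝ, n = (us 0).z + (us 1).z + (us 2).z + (qs.map Pq.z).sum - Real.log (nm g) -
        Real.log (nm hh) → n = (us' 0).z + (us' 1).z + (us' 2).z + (qs.map Pq.z).sum -
        Real.log (nm g) - Real.log (nm hh) →
      ∀ (K V : ℝ) (Hf : Eis → Eis → ℝ) (Qf : Eis → Eis → ℝ) (T : Eis → Eis → ℝ), 0 < K → 0 < V →
      (∀ d e, 0 < Hf d e) → ∀ Pr : Eis → Eis → Prop,
      (∀ d e, Pr d e → IsPrim d ∧ IsPrim e) →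
      (∀ d e, Pr d e →
        Real.exp n * V * Hf d e / K ≤ X ^ Kc ∧ 0 ≤ Qf d e ∧
        Qf d e ≤ (3 + c) * Real.exp (gg (lL K V (Hf d e) d) (lI K V (Hf d e) n))) →
      (∀ d e, Pr d e → 1 ≤ Ld K V (Hf d e) d →
        Nn gg (Real.log K / Real.log X) (Real.log V / Real.log X) (Real.log (Hf d e) / Real.log X)
          (n / Real.log X) (Real.log (nm d) / Real.log X) (Real.log (nm e) / Real.log X) ≤ T d e ∧
        ∀ us₀ : Fin 3 → Pq, (us₀ = us ∨ us₀ = us') → ∀ i y₁ y₂ y₃ x : ℝ, 0 ≤ i →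
        i ≤ (n + Real.log V + Real.log (Hf d e) - Real.log K) / Real.log X + ε → 0 ≤ y₁ →
        y₁ ≤ (us₀ 0).z / Real.log X + ε → 0 ≤ y₂ → y₂ ≤ (us₀ 1).z / Real.log X + ε → 0 ≤ y₃ →
        y₃ ≤ (us₀ 2).z / Real.log X + ε → 0 ≤ x →
        x ≤ ((qs.map Pq.z).sum - Real.log (nm g)) / Real.log X + ε →
        y₁ + y₂ + y₃ ≤ ((us₀ 0).z + (us₀ 1).z + (us₀ 2).z - Real.log (nm g)) / Real.log X + ε →
        y₁ + y₂ + y₃ + x ≤ (n - Real.log (nm d) -
          Real.log (nm (lc (cc g (hh * d)) e))) / Real.log X + ε →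
        E i y₁ y₂ y₃ 0 x + ((n + Real.log V + Real.log (Hf d e) - Real.log K) / Real.log X - i) / 3 +
          Nn gg (Real.log K / Real.log X) (Real.log V / Real.log X)
            (Real.log (Hf d e) / Real.log X) (n / Real.log X) (Real.log (nm d) / Real.log X)
            (Real.log (nm e) / Real.log X) ≤ T d e + (y₁ + y₂ + y₃ + x)) →
      ∃ W0 : Eis → Eis → ℝ → ℝ, (∀ d e, Slp a (W0 d e)) ∧
      (∀ A : ℕ, A₀ ≤ A → ∀ d e, Pr d e → ∀ (b : Eis → ℂ) (u z w : ℂ), ‖u‖ ≤ 1 → ‖z‖ ≤ 1 →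
        ‖w‖ ≤ 1 →
        (∀ m, b m = u * (z * afW W Z (sqc 1 (alL h (qs.map (Pt (π lam) t))))
            (sqc 1 (alL h ((List.ofFn us).map (Pt (π lam) t)))) g e (hh * d) m +
          w * afW W Z (sqc 1 (alL h (qs.map (Pt (π lam) t))))
            (sqc 1 (alL h ((List.ofFn us').map (Pt (π lam) t)))) g e (hh * d) m)) →
        ∀ γ φ, IsPrim γ → IsPrim φ → (nm φ : ℝ) ≤ X ^ B → ∀ P : ℝ, 0 < P →
          (nm γ : ℝ) * n6 γ ^ 2 * ∑ k ∈ (bl P).filter (fun k => Q lam (k * t)),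
            RMm A b e γ φ k ≤ W0 d e P) ∧
      ∀ d e, Pr d e →
        FH K (Hf d e) V * ((nm d : ℝ) ^ (2 / 3 : ℝ) * nm e *
          ((if 1 ≤ Ld K V (Hf d e) d then Qf d e else 0) *
            W0 d e (c * (Real.exp n * V * Hf d e / K)))) ≤
        (H * (1 + |θ|)) ^ M * X ^ (T d e + ε) / (nm d * nm e) := by
  obtain ⟨σ, hσ0, hσε, HR⟩ := rnmQ_raw hpu hP hKc PL hgg hGb hEb
    (show 0 < ε / 2 by positivity) (by linarith)
  refine ⟨σ, hσ0, by linarith, fun lam t ht N B => ?_⟩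
  obtain ⟨M, a, A₀, ha, HR⟩ := HR lam t ht N B
  refine ⟨M, a, max A₀ 2, ha, fun c hc => ?_⟩
  obtain ⟨X₁, hX₁, HR⟩ := HR c hc
  obtain ⟨X₂, hX₂, HX₂⟩ := XSup271.exists_X (show (1 : ℝ) ≤ 4 by norm_num) (ε := ε / 2)
    (by positivity)
  obtain ⟨R, hR0, hR⟩ := exists_R (cs_cx hpu.cs)
  refine ⟨max X₁ X₂, lt_of_lt_of_le hX₁ (le_max_left _ _), ?_⟩
  intro X hX us us' qs H hus hus' hN hqs hsum hH hH1 hH1' hH2 θ W hW Z hZ hsup g hh hg hhh n hn hn'
    K V Hf Qf T hK hV hHf Pr hPr hQ hline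
  have hXX₁ : X₁ ≤ X := (le_max_left _ _).trans hX
  have hXX₂ : X₂ ≤ X := (le_max_right _ _).trans hX
  have hX1 : 1 < X := by linarith
  have hX0 : 0 < X := by linarith
  have hOK : ∀ (s : Fin 3 → Pq) j, (Pt (π lam) t (s j)).OK := fun s j => Pt_OK (hP lam) t _
  have hFS : ∀ s : Fin 3 → Pq, FS (sqc 1 (alL h ((List.ofFn s).map (Pt (π lam) t)))) := by
    intro s
    have e_s : alL h ((List.ofFn s).map (Pt (π lam) t)) =
        al h (fun j : Fin 3 => Pt (π lam) t (s j)) := by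
      rw [List.map_ofFn, ← HP842.al_eq]
      rfl
    rw [e_s]
    exact HP842.FS.sqc (HP842.FS_cv fun i => HP842.FS_pc hR (hOK s i)) 1
  obtain ⟨W1, hs1, hr1, hn1⟩ := HR X hXX₁ us qs H hus hN hqs hsum hH hH1 hH2 θ W hW Z hZ hsup g hh
    hg hhh n hn K V Hf Qf T hK hV hHf Pr hPr hQ (fun d e hde hl => ⟨(hline d e hde hl).1,
      fun i y₁ y₂ y₃ x a1 a2 a3 a4 a5 a6 a7 a8 a9 a10 a11 a12 =>
        (hline d e hde hl).2 us (Or.inl rfl) i y₁ y₂ y₃ x a1 (by linarith) a3 (by linarith) a5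
          (by linarith) a7 (by linarith) a9 (by linarith) (by linarith) (by linarith)⟩)
  obtain ⟨W2', hs2, hr2, hn2⟩ := HR X hXX₁ us' qs H hus' hN hqs hsum hH hH1' hH2 θ W hW Z hZ hsup g
    hh hg hhh n hn' K V Hf Qf T hK hV hHf Pr hPr hQ (fun d e hde hl => ⟨(hline d e hde hl).1,
      fun i y₁ y₂ y₃ x a1 a2 a3 a4 a5 a6 a7 a8 a9 a10 a11 a12 =>
        (hline d e hde hl).2 us' (Or.inr rfl) i y₁ y₂ y₃ x a1 (by linarith) a3 (by linarith) a5
          (by linarith) a7 (by linarith) a9 (by linarith) (by linarith) (by linarith)⟩)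
  refine ⟨fun d e P => 2 * W1 d e P + 2 * W2' d e P, fun d e => slp_add (hs1 d e) (hs2 d e),
    ?_, ?_⟩
  · -- (RH)
    intro A hA d e hde b u z w hu hz hw hb γ φ hγ hφ hφm P hPp
    have hA₀ : A₀ ≤ A := (le_max_left _ _).trans hA
    have hA2 : (1 : ℝ) < A := by
      have : 2 ≤ A := (le_max_right _ _).trans hA
      exact_mod_cast this
    obtain ⟨pd, pe⟩ := hPr d e hde
    have a1 := hr1 A hA₀ d e hde _ 1 (by simp) (fun m => (one_mul _).symm) γ φ hγ hφ hφm P hPp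
    have a2 := hr2 A hA₀ d e hde _ 1 (by simp) (fun m => (one_mul _).symm) γ φ hγ hφ hφm P hPp
    have F1 := FS_afW (W := W) (η := sqc 1 (alL h (qs.map (Pt (π lam) t)))) (g := g) hZ (hFS us)
      (hhh.mul pd) e
    have F2 := FS_afW (W := W) (η := sqc 1 (alL h (qs.map (Pt (π lam) t)))) (g := g) hZ (hFS us')
      (hhh.mul pd) e
    set f1 : Eis → ℂ := afW W Z (sqc 1 (alL h (qs.map (Pt (π lam) t))))
      (sqc 1 (alL h ((List.ofFn us).map (Pt (π lam) t)))) g e (hh * d) with hf1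
    set f2 : Eis → ℂ := afW W Z (sqc 1 (alL h (qs.map (Pt (π lam) t))))
      (sqc 1 (alL h ((List.ofFn us').map (Pt (π lam) t)))) g e (hh * d) with hf2
    have e10 : b = fun m => u * (fun m => z * f1 m + w * f2 m) m := funext hb
    have hγ0 : 0 ≤ (nm γ : ℝ) * n6 γ ^ 2 := by positivity
    rw [e10]
    calc (nm γ : ℝ) * n6 γ ^ 2 * ∑ k ∈ (bl P).filter (fun k => Q lam (k * t)),
          RMm A (fun m => u * (fun m => z * f1 m + w * f2 m) m) e γ φ k
        ≤ (nm γ : ℝ) * n6 γ ^ 2 * ∑ k ∈ (bl P).filter (fun k => Q lam (k * t)),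
          (2 * RMm A f1 e γ φ k + 2 * RMm A f2 e γ φ k) := by
          refine mul_le_mul_of_nonneg_left (sum_le_sum fun k _ => ?_) hγ0
          exact (RMm_unit hu _ _ _ _ _).trans (RMm_add2 hA2 hz hw F1 F2 e hγ.ne_zero φ k)
      _ = 2 * ((nm γ : ℝ) * n6 γ ^ 2 * ∑ k ∈ (bl P).filter (fun k => Q lam (k * t)),
            RMm A f1 e γ φ k) + 2 * ((nm γ : ℝ) * n6 γ ^ 2 *
          ∑ k ∈ (bl P).filter (fun k => Q lam (k * t)), RMm A f2 e γ φ k) := by
          rw [sum_add_distrib, ← mul_sum, ← mul_sum]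
          ring
      _ ≤ 2 * W1 d e P + 2 * W2' d e P := by linarith
  · -- the number
    intro d e hde
    obtain ⟨pd, pe⟩ := hPr d e hde
    have nd0 : (0 : ℝ) < nm d := by exact_mod_cast nm_pos.2 pd.ne_zero
    have ne0 : (0 : ℝ) < nm e := by exact_mod_cast nm_pos.2 pe.ne_zero
    have b1 := hn1 d e hde
    have b2 := hn2 d e hde
    have h4 : 4 ≤ X ^ (ε / 2) := HX₂ X hXX₂
    have hH'0 : 0 ≤ (H * (1 + |θ|)) ^ M := by positivity
    calc FH K (Hf d e) V * ((nm d : ℝ) ^ (2 / 3 : ℝ) * nm e *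
          ((if 1 ≤ Ld K V (Hf d e) d then Qf d e else 0) *
            (2 * W1 d e (c * (Real.exp n * V * Hf d e / K)) +
              2 * W2' d e (c * (Real.exp n * V * Hf d e / K)))))
        = 2 * (FH K (Hf d e) V * ((nm d : ℝ) ^ (2 / 3 : ℝ) * nm e *
          ((if 1 ≤ Ld K V (Hf d e) d then Qf d e else 0) *
            W1 d e (c * (Real.exp n * V * Hf d e / K))))) +
          2 * (FH K (Hf d e) V * ((nm d : ℝ) ^ (2 / 3 : ℝ) * nm e *
          ((if 1 ≤ Ld K V (Hf d e) d then Qf d e else 0) *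
            W2' d e (c * (Real.exp n * V * Hf d e / K))))) := by ring
      _ ≤ 2 * ((H * (1 + |θ|)) ^ M * X ^ (T d e + ε / 2) / (nm d * nm e)) +
          2 * ((H * (1 + |θ|)) ^ M * X ^ (T d e + ε / 2) / (nm d * nm e)) := by linarith
      _ = 4 * ((H * (1 + |θ|)) ^ M * X ^ (T d e + ε / 2)) / (nm d * nm e) := by ring
      _ ≤ X ^ (ε / 2) * ((H * (1 + |θ|)) ^ M * X ^ (T d e + ε / 2)) / (nm d * nm e) := by
          gcongr
      _ = (H * (1 + |θ|)) ^ M * X ^ (T d e + ε) / (nm d * nm e) := by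
          have e5 : X ^ (T d e + ε) = X ^ (ε / 2) * X ^ (T d e + ε / 2) := by
            rw [← Real.rpow_add hX0]; congr 1; ring
          rw [e5]; ring

end

end Crest.Agent.R017.RPQ65
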