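import Crest.Agent.R017.RPY_960
import Crest.Agent.R017.RPR_65
import Crest.Agent.R017.RPT_401

/-!
# Row 17, exceptional class, mismatch: the `R`-number of a difference in two classes (helper960)

* `Nxm`, `numTm` : the number of the cubes
* **`rnmx_raw`** : both classes, from one real line per class
-/

set_option autoImplicit false
set_option linter.unusedVariables false

noncomputable section

open Finset
open scoped ComplexConjugate

namespace Crest.Agent.R017.RPX960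

open Crest.Agent.R012 Crest.Agent.R012.Eis
open Crest.Agent.R012.LS2 (S mem_S bl mem_bl)
open Crest.Agent.R012.Weight600 (osc norm_osc pw)
open Crest.Agent.R012.T411 (NCube)
open Crest.Agent.R017.FE47 (PU SM cx exists_R cs_cx)
open Crest.Agent.R017.CM106
open Crest.Agent.R017.Prov71
open Crest.Agent.R017.B770
open Crest.Agent.R017.Sup271 (NPm)
open Crest.Agent.R017.HP842 (Pc pc sqc al alL)
open Crest.Agent.R017.E5B71 (Pt)
open Crest.Agent.R017.RM986 (Plain)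
open Crest.Agent.R017.R3571 (RMm RMm_nonneg RMm_eq rm RMm_zero W2 W2_mono W2_at slp_two)
open Crest.Agent.R017.Mode405 (Slp)
open Crest.Agent.R017.PX764 (n6)
open Crest.Agent.R017.E3Z548 (FH)
open Crest.Agent.R017.E3Sz579 (Ld)
open Crest.Agent.R017.E3Sx744 (Mxd)
open Crest.Agent.R017.GrC828 Crest.Agent.R017.GrT828
open Crest.Agent.R017.DgA829 (lc lc_prim lc_dvd)
open Crest.Agent.R017.RnP571 (W2_mono_a lL lI log_Ld log_I Ld_pos Nn rp)
open Crest.Agent.R017.RPS401 (cls_false cls_true)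
open Crest.Agent.R017.PoHx72 (Cls)
open Crest.Agent.R017.ROX744 (PrU)
open Crest.Agent.R017.RPm813
open Crest.Agent.R017.P1X960 (cmb FS_cmb)

/-- the exponent of the number of the cubes -/
def Nxm (v h p δ e lam s₁ : ℝ) : ℝ :=
  h / 3 + 4 / 3 * v + 4 / 3 * p - δ + 2 * e - lam + min 0 (δ + lam - s₁)

lemma slp_a {a a' : ℕ} (ha : a ≤ a') {W : ℝ → ℝ} (h : Slp a W) : Slp a' W where
  nonneg := h.nonneg
  low := h.low
  dbl P hP := (h.dbl P hP).trans (mul_le_mul_of_nonneg_right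
    (pow_le_pow_right₀ (by norm_num) ha) (h.nonneg P hP))

/-- **one number, cubes** -/
lemma numTm {K V Hf n c X T HM : ℝ} {d e l : Eis} {ε₁ ε₂ s₁ W : ℝ} (hX1 : 1 < X) (hK : 0 < K)
    (hV : 0 < V) (hHf : 0 < Hf) (pd : d ≠ 0) (pe : e ≠ 0) (pl : l ≠ 0) (hcc : c ^ 2 ≤ X ^ ε₂)
    (hc : 1 ≤ c) (hHM : 0 ≤ HM)
    (hT : Nxm (Real.log V / Real.log X) (Real.log Hf / Real.log X) (n / Real.log X)
      (Real.log (nm d) / Real.log X) (Real.log (nm e) / Real.log X)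
      (Real.log (nm l) / Real.log X) (s₁ / Real.log X) ≤ T)
    (hW : W ≤ HM * X ^ ε₁ * ((c * (Real.exp n * V * Hf / K)) ^ (1 / 3 : ℝ) *
      ((Real.exp n / nm d) ^ (5 / 3 : ℝ) * (nm l : ℝ)⁻¹ *
        min 1 ((nm d : ℝ) * nm l * Real.exp (-s₁))))) :
    FH K Hf V * ((nm d : ℝ) ^ (2 / 3 : ℝ) * nm e * (Mxd c K V Hf (Real.exp n) d * W)) ≤
      HM * X ^ (T + ε₁ + ε₂) / (nm d * nm e) := by
  have nd0 : (0 : ℝ) < nm d := by exact_mod_cast nm_pos.2 pd
  have ne0 : (0 : ℝ) < nm e := by exact_mod_cast nm_pos.2 pe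
  have nl0 : (0 : ℝ) < nm l := by exact_mod_cast nm_pos.2 pl
  have hX0 : 0 < X := by linarith
  set L := Real.log X with hLd
  have hL : 0 < L := Real.log_pos hX1
  have hc0 : 0 < c := by linarith
  have hI : 0 < Real.exp n * V * Hf / K := by positivity
  have hM0 : 0 ≤ Mxd c K V Hf (Real.exp n) d :=
    E3Sx744.Mxd_nonneg hc0.le hK hV hHf (Real.exp_pos n) d
  have hFH : 0 ≤ FH K Hf V := by unfold E3Z548.FH; positivity
  rw [le_div_iff₀ (by positivity)]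
  set kk := Real.log K
  set vv := Real.log V
  set hh := Real.log Hf
  set dd := Real.log (nm d : ℝ) with hdd
  set ee := Real.log (nm e : ℝ) with hee
  set ll := Real.log (nm l : ℝ) with hll
  have eM : Mxd c K V Hf (Real.exp n) d = c * Real.exp (lL K V Hf d - 2 / 3 * lI K V Hf n) := by
    have e1 : Mxd c K V Hf (Real.exp n) d =
        c * Ld K V Hf d * (Real.exp n * V * Hf / K) ^ (-(2 / 3) : ℝ) := rfl
    rw [e1, rp hI, log_I hK hV hHf, mul_assoc]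
    congr 1
    nth_rw 1 [← Real.exp_log (Ld_pos hK hV hHf pd)]
    rw [log_Ld hK hV hHf pd, ← Real.exp_add]
    congr 1
    ring
  have eP : (c * (Real.exp n * V * Hf / K)) ^ (1 / 3 : ℝ) =
      c ^ (1 / 3 : ℝ) * Real.exp (1 / 3 * lI K V Hf n) := by
    rw [Real.mul_rpow hc0.le hI.le, rp hI, log_I hK hV hHf]
  have eR : (Real.exp n / nm d) ^ (5 / 3 : ℝ) = Real.exp (5 / 3 * (n - dd)) := by
    rw [rp (by positivity), Real.log_div (Real.exp_pos n).ne' nd0.ne', Real.log_exp]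
  have eE : (nm l : ℝ)⁻¹ = Real.exp (-ll) := by
    rw [hll, Real.exp_neg, Real.exp_log nl0]
  have emn : min 1 ((nm d : ℝ) * nm l * Real.exp (-s₁)) = Real.exp (min 0 (dd + ll - s₁)) := by
    have h1 : (nm d : ℝ) * nm l * Real.exp (-s₁) = Real.exp (dd + ll - s₁) := by
      rw [sub_eq_add_neg, Real.exp_add, Real.exp_add, hdd, hll, Real.exp_log nd0,
        Real.exp_log nl0]
    rw [h1, ← Real.exp_zero, ← Real.exp_monotone.map_min]
  have eF : FH K Hf V = Real.exp (2 / 3 * kk - (hh + vv) / 3) := by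
    unfold E3Z548.FH
    rw [rp hK, rp (show 0 < Hf * V by positivity), Real.log_mul hHf.ne' hV.ne', ← Real.exp_add]
    congr 1
    ring
  have ed : (nm d : ℝ) ^ (2 / 3 : ℝ) = Real.exp (2 / 3 * dd) := rp nd0
  have end' : (nm d : ℝ) = Real.exp dd := (Real.exp_log nd0).symm
  have ene : (nm e : ℝ) = Real.exp ee := (Real.exp_log ne0).symm
  have hc13 : c * c ^ (1 / 3 : ℝ) ≤ c ^ 2 := by
    rw [sq]
    refine mul_le_mul_of_nonneg_left ?_ hc0.le
    calc c ^ (1 / 3 : ℝ) ≤ c ^ (1 : ℝ) := Real.rpow_le_rpow_of_exponent_le hc (by norm_num)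
      _ = c := Real.rpow_one c
  set Q : ℝ := Real.exp (lL K V Hf d - 2 / 3 * lI K V Hf n) * Real.exp (1 / 3 * lI K V Hf n) *
    Real.exp (5 / 3 * (n - dd)) * Real.exp (-ll) * Real.exp (min 0 (dd + ll - s₁)) *
    Real.exp (2 / 3 * kk - (hh + vv) / 3) * Real.exp (2 / 3 * dd) * Real.exp ee *
    (Real.exp dd * Real.exp ee) with hQ
  have hQe : Q = Real.exp (L * Nxm (vv / L) (hh / L) (n / L) (dd / L) (ee / L) (ll / L)
      (s₁ / L)) := by
    have hmin : min 0 (dd / L + ll / L - s₁ / L) = min 0 (dd + ll - s₁) / L := by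
      have h1 : min 0 (dd + ll - s₁) / L = min (0 / L) ((dd + ll - s₁) / L) :=
        (min_div_div_right hL.le 0 _).symm
      rw [h1, zero_div, ← add_div, ← sub_div]
    have hl : lL K V Hf d = hh + 2 * vv - kk - dd := rfl
    have hi : lI K V Hf n = n + vv + hh - kk := rfl
    unfold Nxm
    rw [hQ, hmin, hl, hi]
    simp only [← Real.exp_add]
    congr 1
    generalize min 0 (dd + ll - s₁) = mm
    have e1 : L * (hh / L / 3 + 4 / 3 * (vv / L) + 4 / 3 * (n / L) - dd / L + 2 * (ee / L) -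
        ll / L + mm / L) =
        hh / 3 + 4 / 3 * vv + 4 / 3 * n - dd + 2 * ee - ll + mm := by
      field_simp
    rw [e1]
    ring
  calc FH K Hf V * ((nm d : ℝ) ^ (2 / 3 : ℝ) * nm e * (Mxd c K V Hf (Real.exp n) d * W)) *
        (nm d * nm e)
      ≤ FH K Hf V * ((nm d : ℝ) ^ (2 / 3 : ℝ) * nm e * (Mxd c K V Hf (Real.exp n) d *
          (HM * X ^ ε₁ * ((c * (Real.exp n * V * Hf / K)) ^ (1 / 3 : ℝ) *
            ((Real.exp n / nm d) ^ (5 / 3 : ℝ) * (nm l : ℝ)⁻¹ *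
              min 1 ((nm d : ℝ) * nm l * Real.exp (-s₁))))))) * (nm d * nm e) := by
        have h1 : 0 ≤ (nm d : ℝ) ^ (2 / 3 : ℝ) * nm e := by positivity
        exact mul_le_mul_of_nonneg_right (mul_le_mul_of_nonneg_left (mul_le_mul_of_nonneg_left
          (mul_le_mul_of_nonneg_left hW hM0) h1) hFH) (by positivity)
    _ = HM * X ^ ε₁ * (c * c ^ (1 / 3 : ℝ)) * Q := by
        rw [eM, eP, eR, eE, emn, eF, ed, end', ene, hQ]
        ring
    _ ≤ HM * X ^ ε₁ * X ^ ε₂ * X ^ T := by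
        refine mul_le_mul (mul_le_mul_of_nonneg_left (hc13.trans hcc) (by positivity)) ?_
          (by rw [hQe]; positivity) (by positivity)
        rw [hQe, Real.rpow_def_of_pos hX0]
        exact Real.exp_le_exp.2 (mul_le_mul_of_nonneg_left hT hL.le)
    _ = HM * X ^ (T + ε₁ + ε₂) := by
        rw [mul_assoc, mul_assoc, ← Real.rpow_add hX0, ← Real.rpow_add hX0]
        congr 2
        ring

section

variable {Λ : Type*} {π : Λ → DPar} {h : ℝ → ℝ}

set_option maxHeartbeats 6400000 in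
open Classical in
/-- **the `R`-number of the mismatch of a difference, both classes** -/
theorem rnmx_raw {c₀ : ℝ} (hpu : PU h c₀) (hP : ∀ lam, (π lam).OK)
    (hnp : ∀ lam, ¬ NPm (π lam).n (π lam).ψ (π lam).l₂ 1) {Kc : ℝ} (hKc : 0 ≤ Kc)
    {E : ℝ → ℝ → ℝ → ℝ → ℝ → ℝ → ℝ} (PL : Plain (fun _ k => NCube k) π h (Kc + 2) E)
    {gg : ℝ → ℝ → ℝ} (hgg : ∀ c : ℝ, 0 ≤ c → ∀ l I : ℝ, gg (c * l) (c * I) = c * gg l I)
    {Gb : ℝ} (hGb : 0 ≤ Gb) (hEb : ∀ i y₁ y₂ y₃ x : ℝ, 0 ≤ i → i ≤ Kc + 2 → 0 ≤ y₁ → y₁ ≤ Kc + 2 →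
      0 ≤ y₂ → y₂ ≤ Kc + 2 → 0 ≤ y₃ → y₃ ≤ Kc + 2 → 0 ≤ x → x ≤ Kc + 2 →
      E i y₁ y₂ y₃ 0 x ≤ Gb) {ε : ℝ} (hε : 0 < ε) (hε1 : ε ≤ 1) :
    ∃ σ : ℝ, 0 < σ ∧ σ ≤ ε ∧ ∀ (lam : Λ) (t : Eis), t ≠ 0 → ∀ (N : ℕ) (B : ℝ),
      ∃ (M a A₀ : ℕ), 1 ≤ a ∧ ∀ c : ℝ, 1 ≤ c → ∃ X₀ : ℝ, 1 < X₀ ∧ ∀ X : ℝ, X₀ ≤ X →
      ∀ (us us' : Fin 3 → Pq) (qs : List Pq) (H : ℝ),
      (∀ i, Dq.lump (us i) ∧ 0 ≤ (us i).z ∧ (us i).z ≤ Kc * Real.log X ∧
        (nm (us i).d : ℝ) ≤ X ^ B) →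
      (∀ i, Dq.lump (us' i) ∧ 0 ≤ (us' i).z ∧ (us' i).z ≤ Kc * Real.log X ∧
        (nm (us' i).d : ℝ) ≤ X ^ B) → qs.length ≤ N →
      (∀ p ∈ qs, p.kd = .am ∧ 0 ≤ p.z ∧ p.z ≤ σ * Real.log X ∧ (nm p.d : ℝ) ≤ X ^ B) →
      (qs.map Pq.z).sum ≤ Kc * Real.log X → 1 ≤ H → (∀ i, 1 + |(us i).t| ≤ H) →
      (∀ i, 1 + |(us' i).t| ≤ H) → (∀ p ∈ qs, 1 + |p.t| ≤ H) →
      ∀ (D s₀ : ℝ), us' 0 = { us 0 with z := (us 0).z - D } →
      us' 1 = { us 1 with z := (us 1).z + D } → us' 2 = us 2 →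
      s₀ ≤ (us 0).z → s₀ ≤ (us 1).z → s₀ ≤ (us 0).z - D → s₀ ≤ (us 1).z + D →
      ∀ (θ : ℝ) (W : Eis → Eis → Eis → ℂ), WOK θ W → ∀ Z : ℝ, 0 ≤ Z →
      (∀ n, sqc 1 (alL h (qs.map (Pt (π lam) t))) n ≠ 0 → (nm n : ℝ) ≤ Z) →
      ∀ g hh : Eis, IsPrim g → IsPrim hh →
      ∀ n : ℝ, n = (us 0).z + (us 1).z + (us 2).z + (qs.map Pq.z).sum - Real.log (nm g) -
        Real.log (nm hh) →
      ∀ (K V : ℝ) (Hf : Eis → Eis → ℝ) (Qf : Eis → Eis → ℝ) (T : Eis → Eis → ℝ), 0 < K → 0 < V →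
      (∀ d e, 0 < Hf d e) → ∀ Pr : Eis → Eis → Prop,
      (∀ d e, Pr d e → IsPrim d ∧ IsPrim e) →
      (∀ d e, Pr d e →
        Real.exp n * V * Hf d e / K ≤ X ^ Kc ∧ 0 ≤ Qf d e ∧
        Qf d e ≤ (3 + c) * Real.exp (gg (lL K V (Hf d e) d) (lI K V (Hf d e) n))) →
      (∀ d e, Pr d e → 1 ≤ Ld K V (Hf d e) d →
        Nxm (Real.log V / Real.log X) (Real.log (Hf d e) / Real.log X) (n / Real.log X)
          (Real.log (nm d) / Real.log X) (Real.log (nm e) / Real.log X)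
          (Real.log (nm (lc (cc g (hh * d)) e)) / Real.log X)
          ((s₀ - Real.log (nm hh)) / Real.log X) ≤ T d e ∧
        Nn gg (Real.log K / Real.log X) (Real.log V / Real.log X) (Real.log (Hf d e) / Real.log X)
          (n / Real.log X) (Real.log (nm d) / Real.log X) (Real.log (nm e) / Real.log X) ≤ T d e ∧
        ∀ us₀ : Fin 3 → Pq, (us₀ = us ∨ us₀ = us') → ∀ i y₁ y₂ y₃ x : ℝ, 0 ≤ i →
        i ≤ (n + Real.log V + Real.log (Hf d e) - Real.log K) / Real.log X + ε → 0 ≤ y₁ →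
        y₁ ≤ (us₀ 0).z / Real.log X + ε → 0 ≤ y₂ → y₂ ≤ (us₀ 1).z / Real.log X + ε → 0 ≤ y₃ →
        y₃ ≤ (us₀ 2).z / Real.log X + ε → 0 ≤ x →
        x ≤ ((qs.map Pq.z).sum - Real.log (nm g)) / Real.log X + ε →
        y₁ + y₂ + y₃ ≤ ((us₀ 0).z + (us₀ 1).z + (us₀ 2).z - Real.log (nm g)) / Real.log X + ε →
        y₁ + y₂ + y₃ + x ≤ (n - Real.log (nm d) -
          Real.log (nm (lc (cc g (hh * d)) e))) / Real.log X + ε →
        E i y₁ y₂ y₃ 0 x + ((n + Real.log V + Real.log (Hf d e) - Real.log K) / Real.log X - i) / 3 +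
          Nn gg (Real.log K / Real.log X) (Real.log V / Real.log X)
            (Real.log (Hf d e) / Real.log X) (n / Real.log X) (Real.log (nm d) / Real.log X)
            (Real.log (nm e) / Real.log X) ≤ T d e + (y₁ + y₂ + y₃ + x)) →
      ∃ W0 : Bool → Eis → Eis → ℝ → ℝ, (∀ jj d e, Slp a (W0 jj d e)) ∧
      (∀ A : ℕ, A₀ ≤ A → ∀ jj d e, Pr d e → ∀ (b : Eis → ℂ) (u z w : ℂ), ‖u‖ ≤ 1 → ‖z‖ ≤ 1 →
        w = -(z * (osc (us 0).t D * osc (us 1).t (-D))) →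
        (∀ m, b m = u * (z * afW W Z (sqc 1 (alL h (qs.map (Pt (π lam) t))))
            (sqc 1 (alL h ((List.ofFn us).map (Pt (π lam) t)))) g e (hh * d) m +
          w * afW W Z (sqc 1 (alL h (qs.map (Pt (π lam) t))))
            (sqc 1 (alL h ((List.ofFn us').map (Pt (π lam) t)))) g e (hh * d) m)) →
        ∀ γ φ, IsPrim γ → IsPrim φ → (nm φ : ℝ) ≤ X ^ B → ∀ P : ℝ, 0 < P →
          (nm γ : ℝ) * n6 γ ^ 2 * ∑ k ∈ (bl P).filter (Cls (PrU (t * t)) jj),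
            RMm A b e γ φ k ≤ W0 jj d e P) ∧
      ∀ d e, Pr d e →
        FH K (Hf d e) V * ((nm d : ℝ) ^ (2 / 3 : ℝ) * nm e *
          ((if 1 ≤ Ld K V (Hf d e) d then Qf d e else 0) *
            W0 false d e (c * (Real.exp n * V * Hf d e / K)) +
          (if 1 ≤ Ld K V (Hf d e) d then Mxd c K V (Hf d e) (Real.exp n) d else 0) *
            W0 true d e (c * (Real.exp n * V * Hf d e / K)))) ≤
        (H * (1 + |θ|)) ^ M * X ^ (T d e + ε) / (nm d * nm e) := by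
  classical
  obtain ⟨σ₁, hσ₁0, hσ₁ε, HF⟩ := RPQ65.rnmQ2_raw hpu hP hKc PL hgg hGb hEb
    (show 0 < ε / 2 by positivity) (by linarith)
  obtain ⟨σ₂, hσ₂0, hσ₂ε, HT⟩ := rp_P hpu hP hnp (Kc := Kc + 1) (by linarith)
    (show 0 < ε / 8 by positivity)
  refine ⟨min σ₁ σ₂, lt_min hσ₁0 hσ₂0, (min_le_left _ _).trans (by linarith),
    fun lam t ht N B => ?_⟩
  obtain ⟨Mf, af, Af, haf, HF⟩ := HF lam t ht N B
  obtain ⟨Mt, at', At, X₃, hat, hX₃, HT⟩ := HT lam t ht N B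
  refine ⟨Mf + Mt, max af at', max Af At, haf.trans (le_max_left _ _), fun c hc => ?_⟩
  obtain ⟨X₁, hX₁, HF⟩ := HF c hc
  obtain ⟨X₂, hX₂, HX₂⟩ := XSup271.exists_X (show 1 ≤ 3 + c ^ 2 by nlinarith) (ε := ε / 8)
    (by positivity)
  refine ⟨max X₁ (max X₂ X₃), lt_of_lt_of_le hX₁ (le_max_left _ _), ?_⟩
  intro X hX us us' qs H hus hus' hN hqs hsum hH hH1 hH1' hH2 D s₀ hu0 hu1 hu2 hs1 hs2 hs3 hs4 θ W
    hW Z hZ hsup g hh hg hhh n hn K V Hf Qf T hK hV hHf Pr hPr hQ hline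
  have hXX₁ : X₁ ≤ X := (le_max_left _ _).trans hX
  have hXX₂ : X₂ ≤ X := ((le_max_left _ _).trans (le_max_right _ _)).trans hX
  have hXX₃ : X₃ ≤ X := ((le_max_right _ _).trans (le_max_right _ _)).trans hX
  have hX1 : 1 < X := by linarith
  have hX0 : 0 < X := by linarith
  have ng : (0 : ℝ) < nm g := by exact_mod_cast nm_pos.2 hg.ne_zero
  have nh : (0 : ℝ) < nm hh := by exact_mod_cast nm_pos.2 hhh.ne_zero
  have hc0 : 0 < c := by linarith
  have h3c2 : 3 + c ^ 2 ≤ X ^ (ε / 8) := HX₂ X hXX₂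
  have hcc2 : c ≤ c ^ 2 := by nlinarith
  have hcX : c ≤ X ^ (ε / 8) := by linarith
  have hc2X : c ^ 2 ≤ X ^ (ε / 8) := by linarith
  have h2X : 2 ≤ X ^ (ε / 8) := by nlinarith
  have hn' : n = (us' 0).z + (us' 1).z + (us' 2).z + (qs.map Pq.z).sum - Real.log (nm g) -
      Real.log (nm hh) := by
    rw [hu0, hu1, hu2, hn]
    show _ = (us 0).z - D + ((us 1).z + D) + (us 2).z + _ - _ - _
    ring
  have hlX : 0 < Real.log X := Real.log_pos hX1
  have hqs1 : ∀ p ∈ qs, p.kd = .am ∧ 0 ≤ p.z ∧ p.z ≤ σ₁ * Real.log X ∧ (nm p.d : ℝ) ≤ X ^ B :=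
    fun p hp => by
      obtain ⟨b1, b2, b3, b4⟩ := hqs p hp
      exact ⟨b1, b2, b3.trans (mul_le_mul_of_nonneg_right (min_le_left _ _) hlX.le), b4⟩
  have hqs2 : ∀ p ∈ qs, p.kd = .am ∧ 0 ≤ p.z ∧ p.z ≤ σ₂ * Real.log X ∧ (nm p.d : ℝ) ≤ X ^ B :=
    fun p hp => by
      obtain ⟨b1, b2, b3, b4⟩ := hqs p hp
      exact ⟨b1, b2, b3.trans (mul_le_mul_of_nonneg_right (min_le_right _ _) hlX.le), b4⟩
  -- the noncubes
  obtain ⟨Wf, hWfs, hWfr, hWfn⟩ := HF X hXX₁ us us' qs H hus hus' hN hqs1 hsum hH hH1 hH1' hH2 θ W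
    hW Z hZ hsup g hh hg hhh n hn hn' K V Hf Qf T hK hV hHf Pr hPr hQ (fun d e hde hl =>
      ⟨(hline d e hde hl).2.1, fun us₀ hus₀ i y₁ y₂ y₃ x a1 a2 a3 a4 a5 a6 a7 a8 a9 a10 a11 a12 =>
        (hline d e hde hl).2.2 us₀ hus₀ i y₁ y₂ y₃ x a1 (by linarith) a3 (by linarith) a5
          (by linarith) a7 (by linarith) a9 (by linarith) (by linarith) (by linarith)⟩)
  -- the cubes
  set H' : ℝ := H * (1 + |θ|) with hH'
  have hθ1 : 1 ≤ 1 + |θ| := by linarith [abs_nonneg θ]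
  have hH'1 : 1 ≤ H' := one_le_mul_of_one_le_of_one_le hH hθ1
  have hH'0 : 0 < H' := by linarith
  set P1 : Eis → Eis → ℝ := fun d e => c * (Real.exp n * V * Hf d e / K) with hP1
  have hP10 : ∀ d e, 0 < P1 d e := fun d e => by
    have := hHf d e
    rw [hP1]
    positivity
  set s₁ : ℝ := s₀ - Real.log (nm hh) with hs₁
  set ℓ : Eis → Eis → Eis := fun d e => lc (cc g (hh * d)) e with hℓ
  set Wt : Eis → Eis → ℝ := fun d e => H' ^ Mt * X ^ (ε / 8) *
    ((c * (Real.exp n * V * Hf d e / K)) ^ (1 / 3 : ℝ) *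
      ((Real.exp n / nm d) ^ (5 / 3 : ℝ) * (nm (ℓ d e) : ℝ)⁻¹ *
        min 1 ((nm d : ℝ) * nm (ℓ d e) * Real.exp (-s₁)))) with hWt
  have hWt0 : ∀ d e, 0 ≤ Wt d e := fun d e => by
    have h1 : 0 ≤ min 1 ((nm d : ℝ) * nm (ℓ d e) * Real.exp (-s₁)) :=
      le_min zero_le_one (by positivity)
    have h2 := hHf d e
    rw [hWt]
    positivity
  refine ⟨fun jj d e => if jj = true then W2 at' (P1 d e) (Wt d e) else Wf d e,
    fun jj d e => ?_, ?_, ?_⟩
  · cases jj with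
    | true =>
      beta_reduce
      rw [if_pos rfl]
      exact slp_a (le_max_right _ _) (slp_two hat (hP10 d e) (hWt0 d e))
    | false =>
      beta_reduce
      rw [if_neg (show ¬ (false = true) by simp)]
      exact slp_a (le_max_left _ _) (hWfs d e)
  · -- (RH)
    intro A hA jj d e hde b u z w hu hz hw hb γ φ hγ hφ hφm P hPp
    obtain ⟨pd, pe⟩ := hPr d e hde
    have nd0 : (0 : ℝ) < nm d := by exact_mod_cast nm_pos.2 pd.ne_zero
    have hw1 : ‖w‖ ≤ 1 := by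
      rw [hw, norm_neg, norm_mul, norm_mul, norm_osc, norm_osc, mul_one, mul_one]
      exact hz
    cases jj with
    | false =>
      have hfil : (bl P).filter (Cls (PrU (t * t)) false) =
          (bl P).filter (fun k => NCube (k * t)) := filter_congr fun k _ => cls_false ht k
      beta_reduce
      rw [if_neg (show ¬ (false = true) by simp), hfil]
      exact hWfr A ((le_max_left _ _).trans hA) d e hde b u z w hu hz hw1 hb γ φ hγ hφ hφm P hPp
    | true =>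
      have hfil : (bl P).filter (Cls (PrU (t * t)) true) =
          (bl P).filter (fun k => ¬ NCube (k * t)) := filter_congr fun k _ => cls_true ht k
      beta_reduce
      rw [if_pos rfl, hfil]
      obtain ⟨hI, hQ0, hQ1⟩ := hQ d e hde
      have hPb : P1 d e ≤ X ^ (Kc + 1) := by
        have h1 : c ≤ X ^ (1 : ℝ) :=
          hcX.trans (Real.rpow_le_rpow_of_exponent_le hX1.le (by linarith))
        have h2 := hHf d e
        calc P1 d e ≤ X ^ (1 : ℝ) * X ^ Kc := mul_le_mul h1 hI (by positivity) (by positivity)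
          _ = _ := by rw [← Real.rpow_add hX0]; congr 1; ring
      have hKL : Kc * Real.log X ≤ (Kc + 1) * Real.log X := by nlinarith
      have key := HT X hXX₃ us us' qs H (fun i => by
          obtain ⟨b1, b2, b3, b4⟩ := hus i
          exact ⟨b1, b2, b3.trans hKL, b4⟩) hN hqs2 (hsum.trans hKL) hH hH1 hH2 D s₀ hu0 hu1 hu2
        hs1 hs2 hs3 hs4 z w hz hw θ W hW Z hZ hsup g (hh * d) e hg (hhh.mul pd) pe (P1 d e)
        (hP10 d e) hPb A ((le_max_right _ _).trans hA) γ φ hγ hφ hφm P hPp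
      have e9 : Real.exp ((us 0).z + (us 1).z + (us 2).z + (qs.map Pq.z).sum) /
          (nm g * nm (hh * d)) = Real.exp n / nm d := by
        rw [hn, Real.exp_sub, Real.exp_sub, Real.exp_log ng, Real.exp_log nh, nm_mul]
        push_cast
        field_simp
      have e10 : ((nm (hh * d) : ℕ) : ℝ) * nm (lc (cc g (hh * d)) e) * Real.exp (-s₀) =
          nm d * nm (ℓ d e) * Real.exp (-s₁) := by
        show _ = (nm d : ℝ) * nm (lc (cc g (hh * d)) e) * Real.exp (-s₁)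
        rw [hs₁, neg_sub, Real.exp_sub, Real.exp_log nh, Real.exp_neg, nm_mul]
        push_cast
        field_simp
      rw [e9, e10] at key
      refine le_trans (mul_le_mul_of_nonneg_left (sum_le_sum fun k _ => ?_)
        (by positivity)) key
      have e11 : b = fun m => u * afW W Z (sqc 1 (alL h (qs.map (Pt (π lam) t))))
          (cmb z w (sqc 1 (alL h ((List.ofFn us).map (Pt (π lam) t))))
            (sqc 1 (alL h ((List.ofFn us').map (Pt (π lam) t))))) g e (hh * d) m := by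
        funext m
        rw [hb m, afW_cmb]
      rw [e11]
      exact RMm_unit hu _ _ _ _ _
  · -- the number
    intro d e hde
    obtain ⟨pd, pe⟩ := hPr d e hde
    have nd0 : (0 : ℝ) < nm d := by exact_mod_cast nm_pos.2 pd.ne_zero
    have ne0 : (0 : ℝ) < nm e := by exact_mod_cast nm_pos.2 pe.ne_zero
    have hHf0 := hHf d e
    have k1 := hWfn d e hde
    beta_reduce
    rw [if_neg (show ¬ (false = true) by simp), if_pos rfl, mul_add, mul_add]
    have hM1 : H' ^ Mf ≤ H' ^ (Mf + Mt) := pow_le_pow_right₀ hH'1 (by omega)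
    have hM2 : H' ^ Mt ≤ H' ^ (Mf + Mt) := pow_le_pow_right₀ hH'1 (by omega)
    have k2 : FH K (Hf d e) V * ((nm d : ℝ) ^ (2 / 3 : ℝ) * nm e *
          ((if 1 ≤ Ld K V (Hf d e) d then Mxd c K V (Hf d e) (Real.exp n) d else 0) *
            W2 at' (P1 d e) (Wt d e) (c * (Real.exp n * V * Hf d e / K)))) ≤
        H' ^ Mt * X ^ (T d e + ε / 4) / (nm d * nm e) := by
      by_cases h1 : 1 ≤ Ld K V (Hf d e) d
      swap
      · rw [if_neg h1, zero_mul, mul_zero, mul_zero]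
        positivity
      rw [if_pos h1, W2_at _ (hP10 d e) _]
      obtain ⟨hNx, -, -⟩ := hline d e hde h1
      have hlp : ℓ d e ≠ 0 := (lc_prim (cc_prim hg) pe).ne_zero
      have k3 := numTm (e := e) (T := T d e) (ε₁ := ε / 8) (ε₂ := ε / 8) (s₁ := s₁) hX1 hK hV hHf0
        pd.ne_zero pe.ne_zero hlp hc2X hc (show 0 ≤ H' ^ Mt by positivity) hNx (W := Wt d e) le_rfl
      have e12 : T d e + ε / 8 + ε / 8 = T d e + ε / 4 := by ring
      rw [e12] at k3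
      exact k3
    have hx1 : X ^ (T d e + ε / 4) ≤ X ^ (T d e + ε / 2) :=
      Real.rpow_le_rpow_of_exponent_le hX1.le (by linarith)
    have hx3 : X ^ (T d e + ε) = X ^ (ε / 2) * X ^ (T d e + ε / 2) := by
      rw [← Real.rpow_add hX0]; congr 1; ring
    have h2X' : 2 ≤ X ^ (ε / 2) :=
      h2X.trans (Real.rpow_le_rpow_of_exponent_le hX1.le (by linarith))
    have hxp : 0 < X ^ (T d e + ε / 2) := by positivity
    calc _ ≤ H' ^ Mf * X ^ (T d e + ε / 2) / (nm d * nm e) +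
          H' ^ Mt * X ^ (T d e + ε / 4) / (nm d * nm e) := add_le_add k1 k2
      _ ≤ H' ^ (Mf + Mt) * X ^ (T d e + ε / 2) / (nm d * nm e) +
          H' ^ (Mf + Mt) * X ^ (T d e + ε / 2) / (nm d * nm e) := by
          gcongr
      _ = 2 * (H' ^ (Mf + Mt) * X ^ (T d e + ε / 2)) / (nm d * nm e) := by ring
      _ ≤ X ^ (ε / 2) * (H' ^ (Mf + Mt) * X ^ (T d e + ε / 2)) / (nm d * nm e) := by gcongr
      _ = _ := by rw [hx3]; ring

end

end Crest.Agent.R017.RPX960
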