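import Crest.Agent.R017.LMXa_813
import Crest.Agent.R017.LMRb_813
import Crest.Agent.R017.RPZ_960
import Crest.Agent.R017.P1yX_72

/-!
# Row 17, P1, class E, mismatch: the `R`-half of the differences (helper813), part 3: one level

* `uT` : the twist
* **`lmx_level`** : (RH) and the number at one level
-/

set_option autoImplicit false
set_option linter.unusedVariables false

noncomputable section

open Finset

namespace Crest.Agent.R017.LMX813

open Crest.Agent.R012 Crest.Agent.R012.Eis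
open Crest.Agent.R012.Div277 (tau dvs mem_dvs isPrim_of_mem_dvs dvd_of_mem_dvs)
open Crest.Agent.R012.LS2 (S mem_S bl mem_bl)
open Crest.Agent.R012.T411 (NCube)
open Crest.Agent.R012.Weight600 (pw norm_pw osc osc_add_right norm_osc)
open Crest.Agent.R017.CM106
open Crest.Agent.R017.FE47 (PU SM)
open Crest.Agent.R017.Prov71
open Crest.Agent.R017.B770
open Crest.Agent.R017.HP842 (Pc pc sqc al alL)
open Crest.Agent.R017.Sup271 (NPm)
open Crest.Agent.R017.E5B71 Crest.Agent.R017.E5P571 Crest.Agent.R017.E5L770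
open Crest.Agent.R017.ExBox960 Crest.Agent.R017.ExP960
open Crest.Agent.R017.P1X960 Crest.Agent.R017.P1MU960
open Crest.Agent.R017.RM986 (Plain)
open Crest.Agent.R017.R3571 (RMm RMm_nonneg RMm_eq rm)
open Crest.Agent.R017.Mode405 (Slp)
open Crest.Agent.R017.PX764 (n6)
open Crest.Agent.R017.E3Z548 (FH)
open Crest.Agent.R017.E3Sz579 (RHd Ld Md)
open Crest.Agent.R017.E3Sx744 (Mxd)
open Crest.Agent.R017.E3T829 (G2)
open Crest.Agent.R017.E3Hi290 (RN2XF)
open Crest.Agent.R017.GrC828 Crest.Agent.R017.GrT828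
open Crest.Agent.R017.DgA829 (lc lc_prim lc_dvd)
open Crest.Agent.R017.RnP571 (Dh Nn lL lI log_Ld Ld_pos EN g2)
open Crest.Agent.R017.TM708 (PD)
open Crest.Agent.R017.I1146 (LN)
open Crest.Agent.R017.P1u54
open Crest.Agent.R017.P1v54 (ηC)
open Crest.Agent.R017.StJ319 (afrb gt5 q5 I5)
open Crest.Agent.R017.StB828 (one_le_nmR)
open Crest.Agent.R017.GrG404 (Wb wok5)
open Crest.Agent.R017.Mm828 (Hm Hm_pos lc_ratio lc_pos Vb)
open Crest.Agent.R017.E3Kc548 (LI mem_LI)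
open Crest.Agent.R017.P1Q904 (LQ)
open Crest.Agent.R017.PoHx72 (Cls)
open Crest.Agent.R017.ROX744 (PrU)
open Crest.Agent.R017.R1M904 (hE)
open Crest.Agent.R017.P1yX72
open Crest.Agent.R017.HmX813
open Crest.Agent.R017.RPX960 (Nxm rnmx_raw afW_cmb)

section

variable {Λ : Type*} {π : Λ → DPar} {h : ℝ → ℝ}

open Classical in
/-- the twist of the classes -/
def uT (lam : Λ × Eis) : Eis := if lam.2 = 0 then 1 else lam.2 * lam.2

lemma uT_ne (lam : Λ × Eis) : uT lam ≠ 0 := by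
  unfold uT
  split_ifs with h0
  · exact one_ne_zero
  · exact mul_ne_zero h0 h0

lemma uT_eq {lam : Λ × Eis} (h0 : lam.2 ≠ 0) : uT lam = lam.2 * lam.2 := if_neg h0

lemma hE_le {N k p δ x v s : ℝ} (hN : 5 / 4 * N - k ≤ 0 ∨ 0 ≤ N) (hk : 0 ≤ k) (hp : p ≤ 1)
    (hx : x ≤ 1) (hv : v ≤ 1) (hδ : 0 ≤ δ) : hE N k p δ x v s ≤ 2 := by
  unfold R1M904.hE
  have h1 : 0 ≤ max 0 (max (5 / 3 * s) (3 * s - 52 / 300 * k)) := le_max_left _ _
  have h2 : 0 ≤ max 0 (5 / 4 * N - k) := le_max_left _ _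
  have h3 : max (4 / 3 * p + 2 / 3 * x) (p + v - max 0 (max (5 / 3 * s) (3 * s - 52 / 300 * k))) ≤
      2 := max_le (by linarith) (by linarith)
  exact max_le (by norm_num) (by linarith)

set_option maxHeartbeats 6400000 in
open Classical in
/-- **(RH) and the number at one level, differences** -/
theorem lmx_level {c₀ : ℝ} (hpu : PU h c₀) (hP : ∀ lam, (π lam).OK)
    (hnp : ∀ lam, ¬ NPm (π lam).n (π lam).ψ (π lam).l₂ 1) {dd : ℝ}
    (PL : Plain (fun _ k => NCube k) π h ((8 : ℝ) + 2) (EN dd)) {c β : ℝ} (hc0 : 0 ≤ c)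
    (hc : c ≤ 1 / 168) (hβ : 17 / 100 ≤ β) (hβ1 : β ≤ 6 / 25) {Par : Set (Fin 3 ⊕ Fin 5 → ℝ)}
    (hDh : ∀ p ∈ Par, Dh (cκ p) (cu p 2) (cu p 3) (cu p 4) (cx' p) (dd * cκ p))
    {e0 : ℝ} (he0 : 0 ≤ e0) (he1 : e0 ≤ 1 / 64) {L0 : (Fin 3 ⊕ Fin 5 → ℝ) → ℝ}
    (hL0 : ∀ p ∈ Par, LQ (cN p) (cκ p) (dd * cκ p) ≤ L0 p) {ε : ℝ} (hε : 0 < ε) :
    ∃ τ : ℝ, 0 < τ ∧ τ ≤ ε ∧ ∀ (lam : Λ × Eis) (N : ℕ) (B Bm : ℝ), 0 ≤ B →
      ∃ M a₀ A₀ : ℕ, ∀ cL : ℝ, 1 ≤ cL → ∃ X₀ : ℝ, 1 < X₀ ∧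
      ∀ X : ℝ, X₀ ≤ X → ∀ H : ℝ, 1 ≤ H → ∀ p : IX5 → ℝ, prX p ∈ Par →
      ∀ (a : BmX) (qs : List Pq) (cc : Fin 5) (i : ℕ) (b : Eis) (s : ℝ),
      Hyp9 π h c (okX π) FrD β lam p X τ B H N a qs cc i b →
      ∀ k ∈ LI (1 / 10) (VM a i b), ∃ W : Bool → Eis → Eis → ℝ → ℝ,
        (∀ jj d e, Slp a₀ (W jj d e)) ∧
        (∀ A : ℕ, A₀ ≤ A → ∀ jj d e, IsPrim d → e ∈ S (EM e0 a) → ∀ γ φ, IsPrim γ → IsPrim φ →
          (nm φ : ℝ) ≤ X ^ Bm → ∀ P : ℝ, 0 < P →
          (nm γ : ℝ) * n6 γ ^ 2 * ∑ r ∈ (bl P).filter (Cls (PrU (uT lam)) jj),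
            RMm A (afM π h e0 (αX π h) lam a qs cc b s e d) e γ φ r ≤ W jj d e P) ∧
        ∀ d e, IsPrim d → e ∈ S (EM e0 a) →
          (nm e : ℝ)⁻¹ * (FH (Real.exp a.1.1.l) (HmD cL a qs i b k d e) (Real.exp k) *
            RN2XF cL (Real.exp a.1.1.l) (Real.exp k) (XM a qs b) (HmD cL a qs i b k) W d e) ≤
          (H * (1 + |s|)) ^ M * X ^ ε * Real.exp (tgX (L0 (prX p)) X a qs) *
            ((nm d : ℝ)⁻¹ * ((nm (lc (a.2.1 / b) e) : ℝ) / nm (a.2.1 / b))⁻¹) := by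
  classical
  have hcE : Continuous (fun q : (Fin 4 → ℝ) × (Kd → ℝ) =>
      EN dd (q.1 0) (q.1 1) (q.1 2) (q.1 3) (q.2 .mo) (q.2 .am)) := RM986.cont_E3c dd
  obtain ⟨Gb, hGb, hEb⟩ := RnP571.bdd_of_cont hcE (8 + 2)
  set ε₁ : ℝ := min (ε / 4) (1 / 1000000) with hε₁
  have hε₁0 : 0 < ε₁ := lt_min (by positivity) (by norm_num)
  have hε₁a : ε₁ ≤ ε / 4 := min_le_left _ _
  have hε₁b : ε₁ ≤ 1 / 1000000 := min_le_right _ _
  obtain ⟨σ, hσ0, hσε, HR⟩ := rnmx_raw hpu hP hnp (Kc := 8) (by norm_num) PL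
    (gg := g2) (fun c hc l I => RnP571.g2_hom hc l I) hGb
    (fun i y₁ y₂ y₃ x => hEb i y₁ y₂ y₃ x) hε₁0 (by linarith)
  set τ : ℝ := min σ (ε₁ / 40) with hτ
  have hτ0 : 0 < τ := lt_min hσ0 (by positivity)
  have hτσ : τ ≤ σ := min_le_left _ _
  have hτε : τ ≤ ε₁ / 40 := min_le_right _ _
  refine ⟨τ, hτ0, by linarith, fun lam N B Bm hB => ?_⟩
  by_cases ht : lam.2 = 0
  · refine ⟨0, 1, 0, fun cL hcL => ⟨2, by norm_num, ?_⟩⟩
    intro X hX H hH p hp a qs cc i b s Hy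
    exact absurd ht Hy.ok.1.2.1.1
  obtain ⟨M, a₀, A₀, ha₀, HR⟩ := HR lam.1 lam.2 ht N (max B Bm)
  refine ⟨M, a₀, A₀, fun cL hcL => ?_⟩
  obtain ⟨X₁, hX₁, HR⟩ := HR cL hcL
  refine ⟨max X₁ (Real.exp (8 / ε₁)), lt_of_lt_of_le hX₁ (le_max_left _ _), ?_⟩
  intro X hX H hH p hp a qs cc i b s Hy k hk
  obtain ⟨F, FD, hok, hgp, hgs, hζ0, hsup, hgS, hi, hb⟩ := Hy
  have hXX₁ : X₁ ≤ X := (le_max_left _ _).trans hX
  have hX1 : 1 < X := by linarith
  have hX0 : 0 < X := by linarith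
  have hL : 0 < Real.log X := F.L
  set L := Real.log X with hLd
  have hL8 : 8 ≤ ε₁ * L := by
    have h1 : Real.exp (8 / ε₁) ≤ X := (le_max_right _ _).trans hX
    have h2 : 8 / ε₁ ≤ L := by
      rw [hLd, ← Real.log_exp (8 / ε₁)]
      exact Real.log_le_log (Real.exp_pos _) h1
    rw [div_le_iff₀ hε₁0] at h2
    linarith
  have hX1B : ∀ {x : ℝ}, x ≤ X ^ B → x ≤ X ^ (max B Bm) := fun hx =>
    hx.trans (Real.rpow_le_rpow_of_exponent_le hX1.le (le_max_left _ _))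
  obtain ⟨hokC, hokD⟩ := hok
  obtain ⟨-, hSM, hlump, -⟩ := hokC
  have hbp : IsPrim b := isPrim_of_mem_dvs hb
  have hbg : b ∣ a.2.1 := dvd_of_mem_dvs hb
  have hbgm : b * (a.2.1 / b) = a.2.1 := EuclideanDomain.mul_div_cancel' hbp.ne_zero hbg
  have hcg : IsPrim (a.2.1 / b) := by
    have e2 : IsPrim (b * (a.2.1 / b)) := by rw [hbgm]; exact hgp
    exact e2.of_mul_left hbp
  have ng : (0 : ℝ) < nm a.2.1 := by linarith [one_le_nmR hgp]
  have nb : (0 : ℝ) < nm b := by linarith [one_le_nmR hbp]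
  have nc : (0 : ℝ) < nm (a.2.1 / b) := by linarith [one_le_nmR hcg]
  have hlcg : Real.log (nm a.2.1) = Real.log (nm b) + Real.log (nm (a.2.1 / b)) := by
    have e3 : ((nm (b * (a.2.1 / b)) : ℕ) : ℝ) = nm a.2.1 := by rw [hbgm]
    rw [nm_mul] at e3
    push_cast at e3
    rw [← e3, Real.log_mul nb.ne' nc.ne']
  set q := prX p with hq
  have hD := hDh q hp
  have hpar := F.par
  obtain ⟨k1, k2⟩ := abs_le.1 F.l
  have hτL : 40 * (τ * L) ≤ ε₁ * L := by
    have := mul_le_mul_of_nonneg_right hτε hL.le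
    linarith
  have hτL0 : 0 ≤ τ * L := by positivity
  set K : ℝ := Real.exp a.1.1.l with hKd
  have hK : 0 < K := Real.exp_pos _
  have hlK : Real.log K = a.1.1.l := by rw [hKd, Real.log_exp]
  have hXw0 : 0 < XM a qs b := by unfold P1yX72.XM; positivity
  have hLNc := LN_clM a qs
  have hlXw : Real.log (XM a qs b) = LN (clM a qs) - Real.log (nm a.2.1) - Real.log (nm b) := by
    unfold P1yX72.XM P1yX72.lM
    rw [Real.log_div (Real.exp_pos _).ne' (by positivity), Real.log_exp,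
      Real.log_mul ng.ne' nb.ne', hLNc]
    ring
  set n : ℝ := (a.1.2.1 0).z + (a.1.2.1 1).z + (a.1.2.1 2).z + (qs.map Pq.z).sum -
    Real.log (nm a.2.1) - Real.log (nm b) with hn
  have hLNq : (qs.map Pq.z).sum = LN qs := rfl
  have hnX : n = Real.log (XM a qs b) := by rw [hlXw, hn, hLNc, hLNq]
  have hen : Real.exp n = XM a qs b := by rw [hnX, Real.exp_log hXw0]
  set V : ℝ := Real.exp k with hV
  have hV0 : 0 < V := Real.exp_pos _
  have hlV : Real.log V = k := by rw [hV, Real.log_exp]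
  set Hf : Eis → Eis → ℝ := HmD cL a qs i b k with hHf
  have hHp : 0 < HpE (sX a) a qs i := Real.exp_pos _
  have hHf0 : ∀ d e, 0 < Hf d e := fun d e =>
    Hm_pos (Real.exp_pos _).le hcg hK hXw0 (by linarith) k d e
  obtain ⟨θ, hθ, hWok⟩ := wok5 (Real.exp (e0 * a.1.1.l)) (Real.exp a.2.2) a.2.1 cc s
  have rR := frx_real hc0 hc F hτ0.le (t := ε₁) (by linarith) (by linarith) hL8 hi
  have rH := HpE_real F hτ0.le (t := ε₁) (by linarith) i (sX a)
  rw [← hLd, ← hq] at rR rH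
  set P : ℝ := PX a qs / L with hPd
  have hPL : P * L = LN (clM a qs) - 2 * Real.log (nm a.2.1) := div_mul_cancel₀ _ hL.ne'
  set ρ : ℝ := Real.log (nm (a.2.1 / b)) / L with hρ
  have hρL : ρ * L = Real.log (nm (a.2.1 / b)) := div_mul_cancel₀ _ hL.ne'
  have hρ0 : 0 ≤ ρ := div_nonneg (Real.log_nonneg (one_le_nmR hcg)) hL.le
  set v : ℝ := Real.log 2 * (i + 1) / L with hv
  have hvL : v * L = Real.log 2 * (i + 1) := div_mul_cancel₀ _ hL.ne'
  set γ : ℝ := Real.log (nm a.2.1) / L with hγ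
  have hγL : γ * L = Real.log (nm a.2.1) := div_mul_cancel₀ _ hL.ne'
  set ℓ : ℝ := a.1.2.2 / L with hℓ
  have hℓL : ℓ * L = a.1.2.2 := div_mul_cancel₀ _ hL.ne'
  have hlogb0 : 0 ≤ Real.log (nm b) := Real.log_nonneg (one_le_nmR hbp)
  have hργ : ρ ≤ γ := by
    rw [hρ, hγ]
    exact div_le_div_of_nonneg_right (by linarith) hL.le
  have hγρ : Real.log (nm b) / L = γ - ρ := by
    rw [hρ, hγ, ← sub_div, hlcg]
    ring
  have hnL : n / L = P + ρ := by
    rw [div_eq_iff hL.ne', add_mul, hPL, hρL, hnX, hlXw, hlcg]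
    ring
  have hkv : (k : ℝ) / L ≤ v - ρ + ε₁ := by
    rw [div_le_iff₀ hL]
    have h1 := (mem_LI hk).2.2
    have h2 := Real.log_le_log (Real.exp_pos _) h1
    have h3 : 0 < Vb (a.2.1 / b) i := div_pos (Real.exp_pos _) nc
    unfold P1yX72.VM at h2
    rw [Real.log_exp, Real.log_mul (Real.exp_pos _).ne' h3.ne', Real.log_exp] at h2
    unfold Mm828.Vb at h2
    rw [Real.log_div (Real.exp_pos _).ne' nc.ne', Real.log_exp] at h2
    have e4 : (v - ρ + ε₁) * L = Real.log 2 * (i + 1) - Real.log (nm (a.2.1 / b)) + ε₁ * L := by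
      rw [add_mul, sub_mul, hvL, hρL]
    rw [e4]
    linarith
  -- crude sizes
  obtain ⟨k0', u4', y43', u0', y3', N1', near', x0', adm', d0', d1'⟩ := hD
  have hD : Dh (cκ q) (cu q 2) (cu q 3) (cu q 4) (cx' q) (dd * cκ q) := hDh q hp
  have hκ1 := hpar.κ1
  have hκ0 := hpar.κ0
  rw [← hq] at hκ1 hκ0
  have hx1 : cx' q ≤ 1 / 36 := by
    rcases adm' with ⟨a1, -⟩ | ⟨-, a2, -⟩ <;> linarith
  have hk0 : (0 : ℝ) ≤ k := Nat.cast_nonneg k
  have hv4 := rR.v4
  have hvb : v ≤ 3 / 4 * (102 / 125) + 21 / 5 * (1 / 36) + ε₁ := by linarith [rR.γ0]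
  have hkL : (k : ℝ) ≤ (v + ε₁) * L := by
    have h1 : (k : ℝ) / L ≤ v + ε₁ := by linarith
    rwa [div_le_iff₀ hL] at h1
  have hN3 : cN q = cu q 2 + cu q 3 + cu q 4 := rfl
  have hP1 : P ≤ 1 := by linarith [rR.p1, rR.q1, rR.γ0, rR.ℓ0]
  have hnle : n ≤ L := by
    have h1 : n / L ≤ 1 := by
      rw [hnL]
      have := rR.p1
      have := rR.q1
      have := rR.γ0
      have := rR.ℓ0
      linarith
    rwa [div_le_one hL] at h1
  -- lengths
  obtain ⟨b1', b2'⟩ := abs_le.1 F.b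
  obtain ⟨A1', A2'⟩ := abs_le.1 F.A
  rw [← hLd] at b1' b2' A1' A2'
  rw [← hq, hN3] at A1' A2'
  have zN1 : (a.1.2.1 0).z ≤ (cu q 2 + τ) * L := FD.pdN.z1
  have zN2 : (a.1.2.1 1).z ≤ (cu q 3 + τ) * L := FD.pdN.z2
  have zN3 : (a.1.2.1 2).z ≤ (cu q 4 + τ) * L := FD.pdN.z3
  have zR1 : (a.1.2.1 0).z - dz a.1.1 ≤ (p (.inr 1) + τ) * L := FD.pdR.z1
  have zR2 : (a.1.2.1 1).z + dz a.1.1 ≤ (cu q 2 + cu q 3 - p (.inr 1) + τ) * L := FD.pdR.z2
  obtain ⟨zr1, zr2⟩ := F.zr 1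
  rw [← hq] at zr1
  have hβκ : 17 / 100 * cκ q ≤ p (.inr 1) := by
    have := mul_le_mul_of_nonneg_right hβ (by linarith : 0 ≤ cκ q)
    linarith
  have hu2L : 17 / 100 * cκ q * L ≤ cu q 2 * L := mul_le_mul_of_nonneg_right (by linarith) hL.le
  have hu3L : 17 / 100 * cκ q * L ≤ cu q 3 * L := mul_le_mul_of_nonneg_right (by linarith) hL.le
  have hpiL : 17 / 100 * cκ q * L ≤ p (.inr 1) * L := mul_le_mul_of_nonneg_right hβκ hL.le
  have hpjL : 17 / 100 * cκ q * L ≤ (cu q 2 + cu q 3 - p (.inr 1)) * L :=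
    mul_le_mul_of_nonneg_right (by linarith) hL.le
  set s₀ : ℝ := (17 / 100 * cκ q - ℓ - ε₁) * L with hs₀
  have hs₀e : s₀ = 17 / 100 * cκ q * L - a.1.2.2 - ε₁ * L := by
    rw [hs₀, sub_mul, sub_mul, hℓL]
  -- the class of pairs
  set Pr : Eis → Eis → Prop := fun d e => IsPrim d ∧ IsPrim e ∧ IsCoprime d a.2.1 ∧
    (nm e : ℝ) ≤ EM e0 a with hPr
  have hlogH : ∀ d e, IsPrim d → IsPrim e → (nm d : ℝ) ≤ D0X a → Real.log (Hf d e) / L ≤
      hE (cu q 2 + cu q 3 + cu q 4) (cκ q) P (Real.log (nm d) / L) (cx' q) v (sX a / L) -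
        2 * (Real.log ((nm (lc (a.2.1 / b) e) : ℝ) / nm (a.2.1 / b)) / L) + ε₁ := by
    intro d e hdp hep hdD
    have h1 := rH (Real.log (nm d))
    have h2 : Real.log (Hf d e) = max 0 (Real.log (HpE (sX a) a qs i) -
        4 / 3 * Real.log (nm d)) - 2 * Real.log ((nm (lc (a.2.1 / b) e) : ℝ) / nm (a.2.1 / b)) :=
      LMR813.log_Hm hHp hcg hdp hep k hdD
    rw [h2, sub_div, mul_div_assoc]
    linarith
  have hU1 : ∀ e, IsPrim e → 0 ≤ Real.log ((nm (lc (a.2.1 / b) e) : ℝ) / nm (a.2.1 / b)) / L :=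
    fun e he => div_nonneg (Real.log_nonneg (lc_ratio hcg he)) hL.le
  have hU2 : ∀ e, IsPrim e → (nm e : ℝ) ≤ EM e0 a →
      Real.log ((nm (lc (a.2.1 / b) e) : ℝ) / nm (a.2.1 / b)) / L ≤
        cκ q / 64 + cx' q + 2 * ε₁ := by
    intro e he heE
    have ne1 : (0 : ℝ) < nm e := by linarith [one_le_nmR he]
    have h1 : (nm (lc (a.2.1 / b) e) : ℝ) / nm (a.2.1 / b) ≤ nm e := by
      rw [div_le_iff₀ nc]
      have h2 : lc (a.2.1 / b) e ∣ e * (a.2.1 / b) :=
        (lc_dvd hcg he _).2 ⟨dvd_mul_left _ _, dvd_mul_right _ _⟩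
      have h3 := Div277.nm_le_of_dvd (mul_ne_zero he.ne_zero hcg.ne_zero) h2
      rw [nm_mul] at h3
      exact_mod_cast h3
    have h3 := Real.log_le_log (by linarith [lc_ratio hcg he]) (h1.trans heE)
    have h4 : Real.log (EM e0 a) = e0 * a.1.1.l + a.2.2 := by
      unfold P1yX72.EM
      rw [Real.log_mul (Real.exp_pos _).ne' (Real.exp_pos _).ne', Real.log_exp, Real.log_exp]
    rw [h4] at h3
    rw [div_le_iff₀ hL]
    have hl0 : 0 ≤ a.1.1.l := by
      have h1 : 8 / 9 * L ≤ cκ q * L := mul_le_mul_of_nonneg_right hκ0 hL.le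
      have h2 : τ * L ≤ 1 / 9 * L := mul_le_mul_of_nonneg_right (by linarith) hL.le
      linarith
    have h5 : e0 * a.1.1.l ≤ 1 / 64 * a.1.1.l := mul_le_mul_of_nonneg_right he1 hl0
    obtain ⟨ζ1, ζ2⟩ := abs_le.1 F.ζ
    rw [← hLd, ← hq] at ζ2
    linarith
  set T : Eis → Eis → ℝ := fun d e => cκ q + P + LQ (cu q 2 + cu q 3 + cu q 4) (cκ q) (dd * cκ q) +
    2 * (Real.log (nm e) / L) -
      Real.log ((nm (lc (a.2.1 / b) e) : ℝ) / nm (a.2.1 / b)) / L with hT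
  have hz8 : ∀ y : ℝ, y ≤ 1 → (y + τ) * L ≤ 8 * L := fun y hy =>
    mul_le_mul_of_nonneg_right (by linarith) hL.le
  have hlump' : ∀ j, Dq.lump (a.1.2.1 j) ∧ 0 ≤ (a.1.2.1 j).z ∧ (a.1.2.1 j).z ≤ 8 * L ∧
      (nm (a.1.2.1 j).d : ℝ) ≤ X ^ (max B Bm) := by
    intro j
    refine ⟨(hlump j).1, (hlump j).2, ?_, hX1B (FD.pdN.usB j)⟩
    fin_cases j
    · exact zN1.trans (hz8 _ (by linarith))
    · exact zN2.trans (hz8 _ (by linarith))
    · exact zN3.trans (hz8 _ (by linarith))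
  have hlumpR : ∀ j, Dq.lump (rzD a.1.2.1 (dz a.1.1) j) ∧ 0 ≤ (rzD a.1.2.1 (dz a.1.1) j).z ∧
      (rzD a.1.2.1 (dz a.1.1) j).z ≤ 8 * L ∧
      (nm (rzD a.1.2.1 (dz a.1.1) j).d : ℝ) ≤ X ^ (max B Bm) := by
    intro j
    refine ⟨FD.pdR.lump j, FD.pdR.us0 j, ?_, hX1B (FD.pdR.usB j)⟩
    fin_cases j
    · exact zR1.trans (hz8 _ (by linarith))
    · exact zR2.trans (hz8 _ (by linarith))
    · exact zN3.trans (hz8 _ (by linarith))
  have hxq : LN qs ≤ (cx' q + τ) * L := FD.pdN.x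
  have hl0 : 0 ≤ a.1.1.l := by
    have h1 : 8 / 9 * L ≤ cκ q * L := mul_le_mul_of_nonneg_right hκ0 hL.le
    have h2 : τ * L ≤ 1 / 9 * L := mul_le_mul_of_nonneg_right (by linarith) hL.le
    linarith
  have key := HR X hXX₁ a.1.2.1 (rzD a.1.2.1 (dz a.1.1)) qs H hlump' hlumpR FD.pdN.len
    (fun q' hq' => by
      obtain ⟨a1, a2, a3', a4, a5⟩ := FD.pdN.am q' hq'
      exact ⟨a1, a2, a3'.trans (mul_le_mul_of_nonneg_right hτσ hL.le), hX1B a4⟩) (by
      rw [hLNq]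
      refine hxq.trans (mul_le_mul_of_nonneg_right ?_ hL.le)
      linarith) hH FD.pdN.usH FD.pdR.usH (fun q' hq' => (FD.pdN.am q' hq').2.2.2.2)
    (dz a.1.1) s₀ rfl rfl rfl (by rw [hs₀e]; linarith) (by rw [hs₀e]; linarith)
    (by rw [hs₀e]; linarith) (by rw [hs₀e]; linarith) θ
    (Wb (gt5 (Real.exp (e0 * a.1.1.l)) (Real.exp a.2.2) a.2.1 cc) (q5 a.2.1 cc) s) hWok
    (Real.exp a.2.2) (Real.exp_pos _).le hsup a.2.1 b hgp hbp n hn K V Hf
    (fun d e => G2 (Ld K V (Hf d e) d) (Md cL K V (Hf d e) (Real.exp n) d)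
      (Real.exp n * V * Hf d e / K)) T hK hV0 hHf0 Pr
    (fun d e hde => ⟨hde.1, hde.2.1⟩) ?_ ?_
  · obtain ⟨W0, hS, hRH, hN⟩ := key
    refine ⟨fun jj d e P' => if IsCoprime d a.2.1 then W0 jj d e P' else 0, ?_, ?_, ?_⟩
    · intro jj d e
      by_cases hco : IsCoprime d a.2.1
      · simp only [if_pos hco]
        exact hS jj d e
      · simp only [if_neg hco]
        exact ⟨fun _ _ => le_rfl, fun _ _ _ _ => by simp, fun _ _ => by simp⟩
    · intro A₁ hA₁ jj d e hdp heS γ' φ hγ' hφ hφX P' hP'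
      have hE00 : 0 ≤ EM e0 a := by unfold P1yX72.EM; positivity
      obtain ⟨he1', hep, -⟩ := (mem_S hE00).1 heS
      by_cases hco : IsCoprime d a.2.1
      · simp only [if_pos hco]
        rw [uT_eq ht]
        refine hRH A₁ hA₁ jj d e ⟨hdp, hep, hco, he1'⟩ _ (pw (2 * s) (nm d))
          (oc a.1.2.1 (a.1.2.1 0).z (a.1.2.1 1).z)
          (-oc a.1.2.1 ((a.1.2.1 0).z - dz a.1.1) ((a.1.2.1 1).z + dz a.1.1))
          (by rw [norm_pw]) (by rw [norm_oc]) ?_ ?_ γ' φ hγ' hφ (hφX.trans ?_) P' hP'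
        · unfold ExP960.oc
          have e1 : -((a.1.2.1 0).z - dz a.1.1) = -(a.1.2.1 0).z + dz a.1.1 := by ring
          have e2 : -((a.1.2.1 1).z + dz a.1.1) = -(a.1.2.1 1).z + -dz a.1.1 := by ring
          rw [e1, e2, osc_add_right, osc_add_right]
          ring
        · intro m
          unfold P1yX72.afM
          rw [LMR813.afrb_form _ _ _ _ _ _ _ _ hco m]
          unfold P1MU960.αX P1X960.xD
          rw [afW_cmb]
          simp only [List.append_nil]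
          rfl
        · exact Real.rpow_le_rpow_of_exponent_le hX1.le (le_max_right _ _)
      · simp only [if_neg hco]
        have hz : ∀ r, RMm A₁ (afM π h e0 (αX π h) lam a qs cc b s e d) e γ' φ r = 0 := fun r =>
          LMR813.RMm_zero (fun m => by
            unfold P1yX72.afM
            exact LMR813.afrb_zero _ _ _ _ _ _ _ _ hco m) e γ' φ r
        rw [Finset.sum_eq_zero fun r _ => hz r, mul_zero]
    · intro d e hdp heS
      have hE00 : 0 ≤ EM e0 a := by unfold P1yX72.EM; positivity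
      obtain ⟨he1', hep, -⟩ := (mem_S hE00).1 heS
      have nd : (0 : ℝ) < nm d := by linarith [one_le_nmR hdp]
      have ne : (0 : ℝ) < nm e := by linarith [one_le_nmR hep]
      have hU : 0 < (nm (lc (a.2.1 / b) e) : ℝ) / nm (a.2.1 / b) := by
        linarith [lc_ratio hcg hep]
      have hHs : 0 ≤ H * (1 + |s|) := by positivity
      by_cases hco : IsCoprime d a.2.1
      · have h1 := hN d e ⟨hdp, hep, hco, he1'⟩
        have e1 : RN2XF cL K V (XM a qs b) Hf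
            (fun jj d e P' => if IsCoprime d a.2.1 then W0 jj d e P' else 0) d e =
            (nm d : ℝ) ^ (2 / 3 : ℝ) * nm e * ((if 1 ≤ Ld K V (Hf d e) d then
              G2 (Ld K V (Hf d e) d) (Md cL K V (Hf d e) (Real.exp n) d)
                (Real.exp n * V * Hf d e / K) else 0) *
              W0 false d e (cL * (Real.exp n * V * Hf d e / K)) +
              (if 1 ≤ Ld K V (Hf d e) d then Mxd cL K V (Hf d e) (Real.exp n) d else 0) *
              W0 true d e (cL * (Real.exp n * V * Hf d e / K))) := by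
          unfold E3Hi290.RN2XF
          rw [hen]
          simp only [if_pos hco]
        rw [e1]
        have e2 : X ^ (T d e + ε₁) / (nm d * nm e) = X ^ (ε₁ + cκ q + P + LQ (cu q 2 + cu q 3 +
            cu q 4) (cκ q) (dd * cκ q)) * ((nm e : ℝ) * ((nm d : ℝ)⁻¹ *
              ((nm (lc (a.2.1 / b) e) : ℝ) / nm (a.2.1 / b))⁻¹)) := by
          have e3 : T d e + ε₁ = (ε₁ + cκ q + P + LQ (cu q 2 + cu q 3 +
            cu q 4) (cκ q) (dd * cκ q)) + (2 * (Real.log (nm e) / L) +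
            -(Real.log ((nm (lc (a.2.1 / b) e) : ℝ) / nm (a.2.1 / b)) / L)) := by
            rw [hT]; ring
          have e4 : X ^ (2 * (Real.log (nm e) / L) +
              -(Real.log ((nm (lc (a.2.1 / b) e) : ℝ) / nm (a.2.1 / b)) / L)) =
              (nm e : ℝ) ^ 2 * ((nm (lc (a.2.1 / b) e) : ℝ) / nm (a.2.1 / b))⁻¹ := by
            rw [Real.rpow_def_of_pos hX0, ← hLd, mul_add, Real.exp_add]
            have e5 : L * (2 * (Real.log (nm e) / L)) = Real.log (nm e) + Real.log (nm e) := by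
              field_simp
              ring
            have e6 : L * -(Real.log ((nm (lc (a.2.1 / b) e) : ℝ) / nm (a.2.1 / b)) / L) =
                -Real.log ((nm (lc (a.2.1 / b) e) : ℝ) / nm (a.2.1 / b)) := by
              field_simp
            rw [e5, e6, Real.exp_add, Real.exp_log ne, Real.exp_neg, Real.exp_log hU, sq]
          rw [e3, Real.rpow_add hX0, e4]
          field_simp
        rw [mul_div_assoc ((H * (1 + |θ|)) ^ M), e2] at h1
        have h2 : (H * (1 + |θ|)) ^ M ≤ (H * (1 + |s|)) ^ M := by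
          refine pow_le_pow_left₀ (by positivity) ?_ M
          exact mul_le_mul_of_nonneg_left (by linarith) (by linarith)
        have h3 : X ^ (ε₁ + cκ q + P + LQ (cu q 2 + cu q 3 + cu q 4) (cκ q) (dd * cκ q)) ≤
            X ^ ε * Real.exp (tgX (L0 q) X a qs) := by
          rw [Real.rpow_def_of_pos hX0, Real.rpow_def_of_pos hX0, ← Real.exp_add, ← hLd]
          refine Real.exp_le_exp.2 ?_
          unfold P1MU960.tgX
          rw [← hLd]
          have e7 : L * (ε₁ + cκ q + P + LQ (cu q 2 + cu q 3 + cu q 4) (cκ q) (dd * cκ q)) =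
              ε₁ * L + cκ q * L + P * L + LQ (cu q 2 + cu q 3 + cu q 4) (cκ q) (dd * cκ q) * L := by
            ring
          rw [e7, hPL]
          have h4 : ε₁ * L ≤ ε / 4 * L := mul_le_mul_of_nonneg_right hε₁a hL.le
          have h5 : 0 ≤ ε * L := by positivity
          have h6 : τ * L ≤ ε₁ * L := by linarith
          have h7 : LQ (cu q 2 + cu q 3 + cu q 4) (cκ q) (dd * cκ q) * L ≤ L0 q * L :=
            mul_le_mul_of_nonneg_right (hL0 q hp) hL.le
          rw [← hLd, ← hq] at k1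
          linarith
        have h7 : 0 ≤ (nm d : ℝ)⁻¹ * ((nm (lc (a.2.1 / b) e) : ℝ) / nm (a.2.1 / b))⁻¹ := by
          positivity
        calc (nm e : ℝ)⁻¹ * (FH K (Hf d e) V * _) ≤ (nm e : ℝ)⁻¹ *
              ((H * (1 + |θ|)) ^ M * (X ^ (ε₁ + cκ q + P + LQ (cu q 2 + cu q 3 +
            cu q 4) (cκ q) (dd * cκ q)) * ((nm e : ℝ) * ((nm d : ℝ)⁻¹ *
              ((nm (lc (a.2.1 / b) e) : ℝ) / nm (a.2.1 / b))⁻¹)))) := by
              refine mul_le_mul_of_nonneg_left ?_ (by positivity)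
              exact h1
          _ = (H * (1 + |θ|)) ^ M * X ^ (ε₁ + cκ q + P + LQ (cu q 2 + cu q 3 +
            cu q 4) (cκ q) (dd * cκ q)) * ((nm d : ℝ)⁻¹ *
              ((nm (lc (a.2.1 / b) e) : ℝ) / nm (a.2.1 / b))⁻¹) := by
              field_simp
          _ ≤ _ := by
              refine mul_le_mul_of_nonneg_right ?_ h7
              rw [mul_assoc ((H * (1 + |s|)) ^ M)]
              exact mul_le_mul h2 h3 (by positivity) (by positivity)
      · have e1 : RN2XF cL K V (XM a qs b) Hf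
            (fun jj d e P' => if IsCoprime d a.2.1 then W0 jj d e P' else 0) d e = 0 := by
          unfold E3Hi290.RN2XF
          simp only [if_neg hco, mul_zero, add_zero]
        rw [e1, mul_zero, mul_zero]
        positivity
  · intro d e hde
    refine ⟨?_, ?_, RnP571.w2_le hcL hK hV0 (hHf0 d e) hde.1.ne_zero⟩
    · have h0 : 0 < Real.exp n * V * Hf d e / K := by
        have := hHf0 d e
        positivity
      rw [← Real.exp_log h0, Real.rpow_def_of_pos hX0]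
      refine Real.exp_le_exp.2 ?_
      rw [Real.log_div (by have := hHf0 d e; positivity) hK.ne',
        Real.log_mul (by positivity) (hHf0 d e).ne', Real.log_mul (Real.exp_pos _).ne' hV0.ne',
        Real.log_exp, hlV, hlK, ← hLd]
      by_cases hdD : (nm d : ℝ) ≤ D0X a
      · have h1 := hlogH d e hde.1 hde.2.1 hdD
        have h2 := hU1 e hde.2.1
        have hδ0 : 0 ≤ Real.log (nm d) / L :=
          div_nonneg (Real.log_nonneg (one_le_nmR hde.1)) hL.le
        have h3 : hE (cu q 2 + cu q 3 + cu q 4) (cκ q) P (Real.log (nm d) / L) (cx' q) v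
            (sX a / L) ≤ 2 :=
          hE_le (Or.inr (by linarith)) (by linarith) hP1 (by linarith) (by linarith) hδ0
        have h5 : Real.log (Hf d e) / L ≤ 3 := by linarith
        rw [div_le_iff₀ hL] at h5
        have h6 : (v + ε₁) * L ≤ 1 * L := mul_le_mul_of_nonneg_right (by linarith) hL.le
        linarith
      · have h1 : Real.log (Hf d e) ≤ Real.log K + Real.log (XM a qs b) - 2 * k :=
          LMR813.log_Hm_le hK hXw0 hcL hde.1 k hdD
        rw [hlK, ← hnX] at h1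
        linarith
    · have h1 := hHf0 d e
      refine E3T829.G2_nonneg (Ld_pos hK hV0 h1 hde.1.ne_zero).le ?_ (by positivity)
      exact E3Sz579.Md_nonneg (by linarith) hK hV0 h1 (Real.exp_pos _) d
  · intro d e hde h1
    have hdD : (nm d : ℝ) ≤ D0X a := by
      by_contra hc'
      exact absurd (LMR813.Ld_lt hK hXw0 hcL hde.1 k hc') (not_lt.2 h1)
    have nd1 := one_le_nmR hde.1
    have hδ1 : Real.log (nm d) ≤ 13 / 100 * a.1.1.l := by
      have h2 := Real.log_le_log (by linarith) hdD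
      unfold HmX813.D0X at h2
      rwa [Real.log_exp] at h2
    have h2 := Real.log_nonneg h1
    rw [log_Ld hK hV0 (hHf0 d e) hde.1.ne_zero] at h2
    unfold RnP571.lL at h2
    have hlcne : Real.log ((nm (lc (a.2.1 / b) e) : ℝ) / nm (a.2.1 / b)) =
        Real.log (nm (lc (a.2.1 / b) e)) - Real.log (nm (a.2.1 / b)) :=
      Real.log_div (lc_pos _ _).ne' nc.ne'
    set bb : ℝ := Real.log ((nm (lc (a.2.1 / b) e) : ℝ) / nm (a.2.1 / b)) / L with hbb
    have hlcL : Real.log (nm (lc (a.2.1 / b) e)) / L = ρ + bb := by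
      rw [hbb, hlcne, sub_div, hρ]
      ring
    have hll := fun (z₁ z₂ z₃ sy : ℝ) (hz3 : z₃ ≤ cu q 4 + ε₁) => lnr_ME (d := dd) (k := cκ q)
      (k' := Real.log K / L) (t := ε₁) (p := P)
      (v := v) (ρ := ρ) (a := Real.log V / L) (n := n / L) (h := Real.log (Hf d e) / L)
      (δ := Real.log (nm d) / L) (e := Real.log (nm e) / L) (b := bb)
      (z₁ := z₁) (z₂ := z₂) (z₃ := z₃)
      (w := ((qs.map Pq.z).sum - Real.log (nm a.2.1)) / L) (γ := γ) (q := LN qs / L) (ℓ := ℓ)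
      (s := sX a / L) (s₀ := s₀ / L) (sy := sy) hD
      hε₁0.le (by linarith) (by rw [hlK]; exact rR) (by rw [hlV]; exact hkv) hnL
      (hlogH d e hde.1 hde.2.1 hdD) (by
        have e1 : Real.log (Hf d e) / L + 2 * (Real.log V / L) - Real.log K / L -
            Real.log (nm d) / L =
            (Real.log (Hf d e) + 2 * Real.log V - Real.log K - Real.log (nm d)) / L := by ring
        rw [e1]
        exact div_nonneg h2 hL.le) hρ0 (by linarith [rR.γ1, rR.q1]) (hU1 e hde.2.1)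
      (hU2 e hde.2.1 hde.2.2.2)
      (div_nonneg (Real.log_nonneg nd1) hL.le) (by
        rw [div_le_iff₀ hL]
        have h3 : a.1.1.l / L ≤ cκ q + ε₁ := by linarith [(abs_le.1 rR.k1).2]
        rw [div_le_iff₀ hL] at h3
        have h4 : 0 ≤ ε₁ * L := by positivity
        linarith) (by
        rw [le_div_iff₀ hL]
        have e1 : (17 / 100 * cκ q - ℓ - γ - ε₁) * L =
            17 / 100 * (cκ q * L) - a.1.2.2 - Real.log (nm a.2.1) - ε₁ * L := by
          rw [sub_mul, sub_mul, sub_mul, hℓL, hγL]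
          ring
        rw [e1]
        unfold HmX813.sX
        rw [← hLd, ← hq] at k1
        linarith) (by
        rw [hs₀, mul_div_cancel_right₀ _ hL.ne']) hz3 (by
        rw [div_le_iff₀ hL, hLNq]
        have := F.g0
        linarith)
    have e0 : (n + Real.log V + Real.log (Hf d e) - Real.log K) / L =
        n / L + Real.log V / L + Real.log (Hf d e) / L - Real.log K / L := by ring
    refine ⟨?_, (hll 0 0 0 0 (by linarith)).2.1, ?_⟩
    · have h3 := (hll 0 0 0 0 (by linarith)).1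
      have e9 : (s₀ - Real.log (nm b)) / L = s₀ / L - (γ - ρ) := by rw [sub_div, hγρ]
      unfold RPX960.Nxm
      rw [← hLd, LMR813.cc_dv hgp hbp hbg hde.2.2.1, hlcL, e9]
      exact h3
    · intro us₀ hus₀ i' y₁ y₂ y₃ x' i0 hi' y10 hy1 y20 hy2 y30 hy3 x0 hx' hsy htot
      have hz3 : (us₀ 2).z / L ≤ cu q 4 + ε₁ := by
        have h3 : (us₀ 2).z = (a.1.2.1 2).z := by
          rcases hus₀ with h3 | h3 <;> rw [h3]
          rfl
        rw [h3, div_le_iff₀ hL]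
        linarith
      rw [← hLd] at hi' hy1 hy2 hy3 hx' hsy htot ⊢
      rw [e0] at hi' ⊢
      refine (hll ((us₀ 0).z / L) ((us₀ 1).z / L) ((us₀ 2).z / L)
        (((us₀ 0).z + (us₀ 1).z + (us₀ 2).z - Real.log (nm a.2.1)) / L + ε₁) hz3).2.2 i' y₁ y₂ y₃
        x' i0 hi' y10 hy1 y20 hy2 y30 hy3 x0 hx' hsy ?_
      rw [LMR813.cc_dv hgp hbp hbg hde.2.2.1] at htot
      refine htot.trans (le_of_eq ?_)
      have e3 : (n - Real.log (nm d) - Real.log (nm (lc (a.2.1 / b) e))) / L =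
          n / L - Real.log (nm d) / L - Real.log (nm (lc (a.2.1 / b) e)) / L := by ring
      rw [e3, hnL, hlcL]
      ring

end

end Crest.Agent.R017.LMX813
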