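import Crest.Agent.R017.LMXd_813
import Crest.Agent.R017.RnXb_571
import Crest.Agent.R017.ExRed2_848
import Crest.Agent.R017.ExRed4_848

/-!
# Row 17, P1, class E, mismatch: the `R`-half of the differences (helper813), part 5

* **`lrx_red`** : helper72's `LRG` at the differences, reduced exceptional family
-/

set_option autoImplicit false
set_option linter.unusedVariables false

noncomputable section

open Finset

namespace Crest.Agent.R017.LMX813

open Crest.Agent.R012 Crest.Agent.R012.Eis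
open Crest.Agent.R012.T411 (NCube)
open Crest.Agent.R017.FE47 (PU SM)
open Crest.Agent.R017.Prov71
open Crest.Agent.R017.B770
open Crest.Agent.R017.ER911
open Crest.Agent.R017.ExpC702
open Crest.Agent.R017.End699 (PF)
open Crest.Agent.R017.XEx298 (Rt)
open Crest.Agent.R017.Red848 (red Exc red_ok)
open Crest.Agent.R017.E5B71 Crest.Agent.R017.E5P571 Crest.Agent.R017.E5L770
open Crest.Agent.R017.ExBox960 Crest.Agent.R017.ExP960
open Crest.Agent.R017.P1X960 Crest.Agent.R017.P1MU960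
open Crest.Agent.R017.RnP571 (Dh EN)
open Crest.Agent.R017.P1Q904 (LQ)
open Crest.Agent.R017.P1yX72
open Crest.Agent.R017.HmX813

lemma not_ncube_one : ¬ NCube 1 := fun h => h.2 1 (one_pow 3).symm

section

variable {Λ : Type*} {π : Λ → DPar} {h : ℝ → ℝ}

/-- **the `R`-half of the differences**, reduced exceptional family -/
theorem lrx_red {c₀ : ℝ} (hpu : PU h c₀) (hP : ∀ lam, (π lam).OK) (hE : ∀ lam, Exc (π lam))
    {dd : ℝ} {sf : EF} (R : ExpRules (7 / 8 + dd) (ex Dq (fun lam => Rt (red (π lam)) h)) sf)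
    (hPF : PF Set.univ (7 / 8 + dd)) (hd : 0 ≤ dd) (hd8 : dd ≤ 1 / 8) {c β : ℝ} (hc0 : 0 ≤ c)
    (hc : c ≤ 1 / 168) (hβ : 17 / 100 ≤ β) (hβ1 : β ≤ 6 / 25) {Par : Set (Fin 3 ⊕ Fin 5 → ℝ)}
    (hDh : ∀ p ∈ Par, Dh (cκ p) (cu p 2) (cu p 3) (cu p 4) (cx' p) (dd * cκ p))
    {e0 : ℝ} (he0 : 0 ≤ e0) (he1 : e0 ≤ 1 / 64) {L0 : (Fin 3 ⊕ Fin 5 → ℝ) → ℝ}
    (hL0 : ∀ p ∈ Par, LQ (cN p) (cκ p) (dd * cκ p) ≤ L0 p) :
    LRG (fun lam => red (π lam)) h e0 c (okX fun lam => red (π lam))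
      (αX (fun lam => red (π lam)) h) FrD β Par L0 HmD :=
  lrx_D (π := fun lam => red (π lam)) hpu (fun lam => red_ok (hP lam) (hE lam))
    (fun lam hn => not_ncube_one ((Red848.NPm_red_iff (hP lam).ψ.q0 one_ne_zero).1 hn))
    (RnX571.rmx_NC (π := fun lam => red (π lam)) hpu (fun lam => red_ok (hP lam) (hE lam))
      (fun lam k hk => Red848.NPm_red_iff (hP lam).ψ.q0 hk) R hPF hd hd8 _)
    hc0 hc hβ hβ1 hDh he0 he1 hL0

end

end Crest.Agent.R017.LMX813
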