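import Crest.Agent.R017.MTX6_241
import Crest.Agent.R017.XHB1_411

/-!
# Row 17, T.5 / T.7, polar direct part by the large sieve (helper241)

* `ls_tgf` : the large sieve over all frequencies for one sub-sequence
* `ls_blk`, `ls_all` : `Σ_B (nm B)⁻¹ Σ_k tgf x (δ B) (k B) t`, no hypothesis on `x` except its size
  (with the saving `1 / nm a` when `a ∣ n` on the support, helper83)
* `PJ_ls`, `cell_ls` : the polar direct part in the forms of helper440 and helper401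
-/

set_option autoImplicit false

noncomputable section

open MeasureTheory Finset Filter
open scoped ComplexConjugate Classical

namespace Crest.Agent.R017.MTX241

open Crest.Agent.R012
open Eis CharSum852 Gauss880 LS2 CR2 MelSep811
open Crest.Agent.R012.Weight600 (osc norm_osc ker pw)
open Crest.Agent.R012.Char766 (sy_mul_left)
open Crest.Agent.R012.Mob705 (pdiv mem_pdiv)
open Crest.Agent.R017.CM106 (CS TG FS sub)
open Crest.Agent.R017.E2440 (MT ag C4 mem_C4 RR PJ prs mem_prs)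
open Crest.Agent.R017.MoF106 (bk mem_bk bk_lo bk_hi bk_nm_ge sum_bk)
open Crest.Agent.R017.QsJ401 (Tb mem_Tb)
open Crest.Agent.R017.XHB411 (HBa HBa_nonneg HBa_mono allB)
open Crest.Agent.R017.Win813
open Crest.Agent.R017.RGw813 (bt T9)

lemma HBa_scale {V N c : ℝ} (hV : 0 ≤ V) (hN : 0 ≤ N) (hc : 1 ≤ c) :
    HBa V (c * N) ≤ c * HBa V N := by
  unfold XHB411.HBa
  have h1 : (V * (c * N)) ^ ((2 : ℝ) / 3) ≤ c * (V * N) ^ ((2 : ℝ) / 3) := by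
    rw [show V * (c * N) = c * (V * N) by ring, Real.mul_rpow (by linarith) (by positivity)]
    refine mul_le_mul_of_nonneg_right ?_ (by positivity)
    calc c ^ ((2 : ℝ) / 3) ≤ c ^ (1 : ℝ) := Real.rpow_le_rpow_of_exponent_le hc (by norm_num)
      _ = c := Real.rpow_one c
  have h2 : V ≤ c * V := le_mul_of_one_le_left hV hc
  calc V + c * N * V ^ ((1 : ℝ) / 3) + (V * (c * N)) ^ ((2 : ℝ) / 3)
      ≤ c * V + c * N * V ^ ((1 : ℝ) / 3) + c * (V * N) ^ ((2 : ℝ) / 3) := by linarith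
    _ = _ := by ring

/-- the large sieve over all frequencies -/
lemma ls_tgf {ε : ℝ} (hε : 0 < ε) : ∃ C : ℝ, 0 ≤ C ∧
    ∀ (Y V N : ℝ) (x : Eis → ℂ) (g B : Eis) (t : ℝ), 0 ≤ Y → 1 ≤ V → 1 ≤ N →
    (∀ n, x n ≠ 0 → n ∈ S Y) → IsPrim g →
    (∀ m, x (g * m) ≠ 0 → (nm m : ℝ) ≤ N) →
    ∑ k ∈ bl V, tgf x g (k * B) t ≤
      C * (V * N) ^ ε * HBa V N * ∑ m ∈ S N, ‖x (g * m)‖ ^ 2 := by
  obtain ⟨K, hK, h⟩ := allB ε hε
  refine ⟨K, hK.le, ?_⟩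
  intro Y V N x g B t hY hV hN hx hg hm
  have hV0 : 0 ≤ V := by linarith
  have hN0 : 0 ≤ N := by linarith
  set c : Eis → ℂ := fun m => conj (x (g * m) * pw t (nm m) * (G m * conj (sy B m))) with hc
  have e1 : ∀ k, tgf x g (k * B) t = ‖CR290.F (S N) c k‖ ^ 2 := by
    intro k
    unfold Win813.tgf
    congr 1
    have e2 : TG (fun m => x (g * m) * pw t (nm m)) (k * B) =
        ∑ m ∈ S N, x (g * m) * pw t (nm m) * (G m * conj (sy (k * B) m)) := by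
      unfold CM106.TG
      refine tsum_eq_sum fun m hmS => ?_
      have : x (g * m) = 0 := by
        by_contra h0
        apply hmS
        obtain ⟨-, hp, hs⟩ := (mem_S hY).mp (hx _ h0)
        exact (mem_S hN0).mpr ⟨hm m h0, IsPrim.of_mul_left hp hg,
          hs.squarefree_of_dvd (dvd_mul_left m g)⟩
      beta_reduce
      rw [this]; simp
    have e3 : conj (CR290.F (S N) c k) =
        ∑ m ∈ S N, x (g * m) * pw t (nm m) * (G m * conj (sy (k * B) m)) := by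
      unfold CR290.F
      rw [map_sum]
      refine Finset.sum_congr rfl fun m hmS => ?_
      have hp := ((mem_S hN0).mp hmS).2.1
      rw [hc, map_mul, Complex.conj_conj, sy_mul_left (x := k) (y := B) hp, map_mul]
      ring
    rw [e2, ← e3, RCLike.norm_conj]
  simp_rw [e1]
  have h1 := h V N hV hN (bl V) (S N) (fun k hk => (mem_bl hV0).mp hk)
    (fun m hmS => by
      obtain ⟨a, b, d⟩ := (mem_S hN0).mp hmS
      exact ⟨b, d, a⟩) c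
  refine h1.trans ?_
  have h2 : 0 ≤ K * (V * N) ^ ε * HBa V N := by
    have := HBa_nonneg hV0 hN0
    positivity
  refine mul_le_mul_of_nonneg_left (Finset.sum_le_sum fun m hmS => ?_) h2
  have hp := ((mem_S hN0).mp hmS).2.1
  refine pow_le_pow_left₀ (norm_nonneg _) ?_ 2
  rw [hc, RCLike.norm_conj, norm_mul, norm_mul, Weight600.norm_pw, mul_one, norm_mul,
    RCLike.norm_conj]
  have g1 := Gauss880.norm_G_le Gauss880.syG hp
  have g2 : ‖sy B m‖ ≤ 1 := norm_sy_le syG hp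
  have g3 := norm_nonneg (x (g * m))
  calc ‖x (g * m)‖ * (‖G m‖ * ‖sy B m‖) ≤ ‖x (g * m)‖ * (1 * 1) := by gcongr
    _ = _ := by ring

/-- the energy over a set of `B` -/
lemma energy {ε : ℝ} (hε : 0 < ε) : ∃ C : ℝ, 0 ≤ C ∧
    ∀ (Y Q Ax Xr N : ℝ) (x : Eis → ℂ) (δ a : Eis) (T : Finset Eis), 0 ≤ Y → 0 ≤ Ax → 0 ≤ Xr →
    0 ≤ N → (∀ n, x n ≠ 0 → n ∈ S Y) → (∀ n, x n ≠ 0 → (nm n : ℝ) ≤ Xr) → (∀ n, ‖x n‖ ≤ Ax) →
    (∀ n, x n ≠ 0 → a ∣ n) → IsPrim a → IsPrim δ → IsCoprime a δ → Xr ≤ Q →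
    (∀ B ∈ T, IsPrim B) →
    ∑ B ∈ T, ∑ m ∈ S N, ‖x (δ * B * m)‖ ^ 2 ≤
      C * Q ^ ε * (Ax ^ 2 * (Xr / (nm δ * nm a))) := by
  obtain ⟨C₂, hC₂, hτ⟩ := Div277.tau_le_rpow hε
  have hC₂0 : 0 ≤ C₂ := by linarith
  refine ⟨16 * C₂, by positivity, ?_⟩
  intro Y Q Ax Xr N x δ a T hY hAx hXr hN hx hxX hxA ha hap hδ hcop hXQ hT
  have hδ0 : (0 : ℝ) < nm δ := by exact_mod_cast nm_pos.2 hδ.ne_zero
  have ha0 : (0 : ℝ) < nm a := by exact_mod_cast nm_pos.2 hap.ne_zero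
  have hδ1 : (1 : ℝ) ≤ nm δ := by exact_mod_cast nm_pos.2 hδ.ne_zero
  have hQ0 : 0 ≤ Q := hXr.trans hXQ
  set L : ℝ := Xr / (nm δ * nm a) with hL
  have hL0 : 0 ≤ L := by positivity
  set W : Finset Eis := (S L).image (fun n => a * n) with hW
  have hWm : ∀ n ∈ W, n ≠ 0 ∧ (nm n : ℝ) ≤ Q := by
    intro n hn
    obtain ⟨n', hn', rfl⟩ := Finset.mem_image.mp hn
    obtain ⟨h1, h2, h3⟩ := (mem_S hL0).mp hn'
    refine ⟨mul_ne_zero hap.ne_zero h2.ne_zero, ?_⟩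
    rw [nm_mul]
    push_cast
    calc (nm a : ℝ) * nm n' ≤ nm a * L := by gcongr
      _ = Xr / nm δ := by rw [hL]; field_simp
      _ ≤ Xr := div_le_self hXr hδ1
      _ ≤ Q := hXQ
  have hmem : ∀ B ∈ T, ∀ m, x (δ * B * m) ≠ 0 → B * m ∈ W := by
    intro B hB m h0
    obtain ⟨h1, h2, h3⟩ := (mem_S hY).mp (hx _ h0)
    have hBp := hT B hB
    have hmp : IsPrim m := IsPrim.of_mul_left h2 (hδ.mul hBp)
    have hdvd : a ∣ δ * (B * m) := by rw [← mul_assoc]; exact ha _ h0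
    obtain ⟨n', hn'⟩ := hcop.dvd_of_dvd_mul_left hdvd
    have hn'p : IsPrim n' := IsPrim.of_mul_left (hn' ▸ hBp.mul hmp) hap
    have hs : Squarefree n' := by
      refine h3.squarefree_of_dvd ?_
      rw [mul_assoc, hn']
      exact ⟨δ * a, by ring⟩
    refine Finset.mem_image.mpr ⟨n', (mem_S hL0).mpr ⟨?_, hn'p, hs⟩, hn'.symm⟩
    rw [hL, le_div_iff₀ (by positivity)]
    have h4 := hxX _ h0
    rw [mul_assoc, hn', nm_mul, nm_mul] at h4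
    push_cast at h4
    linarith
  have h1 : ∀ B ∈ T, ∑ m ∈ S N, ‖x (δ * B * m)‖ ^ 2 ≤
      ∑ n ∈ W, if B ∣ n then ‖x (δ * n)‖ ^ 2 else 0 := by
    intro B hB
    have hB0 := (hT B hB).ne_zero
    rw [← Finset.sum_filter]
    have e1 : ∑ m ∈ S N, ‖x (δ * B * m)‖ ^ 2 =
        ∑ m ∈ (S N).filter (fun m => x (δ * B * m) ≠ 0), ‖x (δ * (B * m))‖ ^ 2 := by
      rw [Finset.sum_filter]
      refine Finset.sum_congr rfl fun m _ => ?_
      by_cases h0 : x (δ * B * m) = 0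
      · rw [if_neg (by simp [h0]), h0]; simp
      · rw [if_pos h0, mul_assoc]
    rw [e1, ← Finset.sum_image (f := fun n => ‖x (δ * n)‖ ^ 2) (g := fun m => B * m)
      (fun p _ q _ hpq => mul_left_cancel₀ hB0 hpq)]
    refine Finset.sum_le_sum_of_subset_of_nonneg ?_ fun _ _ _ => by positivity
    intro n hn
    obtain ⟨m, hm, rfl⟩ := Finset.mem_image.mp hn
    exact Finset.mem_filter.mpr ⟨hmem B hB m (Finset.mem_filter.mp hm).2, dvd_mul_right _ _⟩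
  refine (Finset.sum_le_sum h1).trans ?_
  rw [Finset.sum_comm]
  have h2 : ∀ n ∈ W, ∑ B ∈ T, (if B ∣ n then ‖x (δ * n)‖ ^ 2 else 0) ≤
      C₂ * Q ^ ε * Ax ^ 2 := by
    intro n hn
    obtain ⟨hn0, hnQ⟩ := hWm n hn
    rw [← Finset.sum_filter, Finset.sum_const, nsmul_eq_mul]
    have h3 : ((T.filter (fun B => B ∣ n)).card : ℝ) ≤ C₂ * Q ^ ε := by
      have h4 : (T.filter (fun B => B ∣ n)).card ≤ Div277.tau n := by
        unfold Div277.tau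
        refine Finset.card_le_card fun B hB => ?_
        rw [Finset.mem_filter] at hB
        exact (Div277.mem_dvs hn0).2 ⟨hT B hB.1, hB.2⟩
      have h5 : ((T.filter (fun B => B ∣ n)).card : ℝ) ≤ Div277.tau n := by exact_mod_cast h4
      refine h5.trans ((hτ n hn0).trans ?_)
      gcongr
    exact mul_le_mul h3 (pow_le_pow_left₀ (norm_nonneg _) (hxA _) 2) (by positivity)
      (by positivity)
  refine (Finset.sum_le_sum h2).trans ?_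
  rw [Finset.sum_const, nsmul_eq_mul]
  have h3 : (W.card : ℝ) ≤ 16 * L := by
    have h4 : (W.card : ℝ) ≤ (S L).card := by exact_mod_cast Finset.card_image_le
    refine h4.trans ?_
    by_cases hL1 : 1 ≤ L
    · exact LS2.card_S_le' hL1
    · have : S L = ∅ := by
        rw [Finset.eq_empty_iff_forall_notMem]
        intro n hn
        obtain ⟨g1, g2, -⟩ := (mem_S hL0).mp hn
        have : (1 : ℝ) ≤ nm n := by exact_mod_cast nm_pos.2 g2.ne_zero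
        linarith
      rw [this]
      simp only [Finset.card_empty, Nat.cast_zero]
      positivity
  calc (W.card : ℝ) * (C₂ * Q ^ ε * Ax ^ 2) ≤ (16 * L) * (C₂ * Q ^ ε * Ax ^ 2) := by gcongr
    _ = _ := by ring

/-- **a block of `B`** -/
theorem ls_blk {ε : ℝ} (hε : 0 < ε) : ∃ C : ℝ, 0 ≤ C ∧
    ∀ (Y Q V Ax Xr Z : ℝ) (x : Eis → ℂ) (δ a : Eis) (u : ℕ), 0 ≤ Y → 0 ≤ Ax → 0 ≤ Xr →
    1 ≤ Q → V ≤ Q → Xr ≤ Q → 0 ≤ Z →
    (∀ n, x n ≠ 0 → n ∈ S Y) → (∀ n, x n ≠ 0 → (nm n : ℝ) ≤ Xr) → (∀ n, ‖x n‖ ≤ Ax) →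
    (∀ n, x n ≠ 0 → a ∣ n) → IsPrim a → IsPrim δ → IsCoprime a δ → 0 ≤ V → ∀ t : ℝ,
    ∑ B ∈ bk Z u, (nm B : ℝ)⁻¹ * ∑ k ∈ bl V, tgf x (δ * B) (k * B) t ≤
      C * Q ^ ε * (Real.exp (-((u : ℝ) / 3)) * (Ax ^ 2 * (Xr / (nm δ * nm a))) *
        HBa V (Xr * Real.exp (-((u : ℝ) / 3)) / nm δ)) := by
  have hε3 : 0 < ε / 3 := by linarith
  obtain ⟨C₁, hC₁, h₁⟩ := ls_tgf hε3
  obtain ⟨C₂, hC₂, h₂⟩ := energy hε3
  refine ⟨C₁ * C₂, by positivity, ?_⟩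
  intro Y Q V Ax Xr Z x δ a u hY hAx hXr hQ hVQ hXQ hZ hx hxX hxA ha hap hδ hcop hV t
  have hδ0 : (0 : ℝ) < nm δ := by exact_mod_cast nm_pos.2 hδ.ne_zero
  have hδ1 : (1 : ℝ) ≤ nm δ := by exact_mod_cast nm_pos.2 hδ.ne_zero
  have ha0 : (0 : ℝ) < nm a := by exact_mod_cast nm_pos.2 hap.ne_zero
  have hQ0 : 0 < Q := by linarith
  set q := Real.exp (-((u : ℝ) / 3)) with hq
  have hq0 : 0 < q := Real.exp_pos _
  have hq1 : q ≤ 1 := by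
    rw [hq, Real.exp_le_one_iff]
    have : (0 : ℝ) ≤ u := Nat.cast_nonneg u
    linarith
  set N := Xr * q / nm δ with hN
  have hN0 : 0 ≤ N := by positivity
  have hHB := HBa_nonneg hV hN0
  have hRHS : 0 ≤ C₁ * C₂ * Q ^ ε * (q * (Ax ^ 2 * (Xr / (nm δ * nm a))) * HBa V N) := by
    positivity
  have hBm : ∀ B ∈ bk Z u, IsPrim B ∧ (nm B : ℝ)⁻¹ ≤ q := by
    intro B hB
    have hBp := MoF106.bk_prim hZ hB
    refine ⟨hBp, ?_⟩
    have := bk_nm_ge hZ hB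
    rw [hq, Real.exp_neg]
    exact inv_anti₀ (Real.exp_pos _) this
  have hNm : ∀ B ∈ bk Z u, ∀ m, x (δ * B * m) ≠ 0 → (nm m : ℝ) ≤ N := by
    intro B hB m h0
    have hBp := (hBm B hB).1
    have hB0' : (0 : ℝ) < nm B := by exact_mod_cast nm_pos.2 hBp.ne_zero
    have h4 := hxX _ h0
    rw [nm_mul, nm_mul] at h4
    push_cast at h4
    have h5 := bk_nm_ge hZ hB
    have h6 : q * nm B ≥ 1 := by
      rw [hq, Real.exp_neg, ge_iff_le, inv_mul_eq_div, le_div_iff₀ (Real.exp_pos _), one_mul]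
      exact h5
    rw [hN, le_div_iff₀ hδ0]
    have hm0 : (0 : ℝ) ≤ nm m := Nat.cast_nonneg _
    calc (nm m : ℝ) * nm δ = 1 * (nm m * nm δ) := by ring
      _ ≤ (q * nm B) * (nm m * nm δ) := by gcongr
      _ = q * (nm δ * nm B * nm m) := by ring
      _ ≤ q * Xr := by gcongr
      _ = Xr * q := by ring
  by_cases hV1 : V < 1
  · have hbl : bl V = ∅ := by
      rw [Finset.eq_empty_iff_forall_notMem]
      intro k hk
      obtain ⟨h0, h1⟩ := (mem_bl hV).mp hk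
      have h2 : (1 : ℝ) ≤ nm k := by exact_mod_cast nm_pos.2 h0
      linarith
    rw [hbl]
    simp only [Finset.sum_empty, mul_zero, Finset.sum_const_zero]
    exact hRHS
  push Not at hV1
  by_cases hN1 : N < 1
  · have hz : ∀ B ∈ bk Z u, (nm B : ℝ)⁻¹ * ∑ k ∈ bl V, tgf x (δ * B) (k * B) t = 0 := by
      intro B hB
      have : ∀ k ∈ bl V, tgf x (δ * B) (k * B) t = 0 := by
        intro k _
        refine tgf_zero (fun m => ?_) _ _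
        by_contra h0
        have h1 := hNm B hB m h0
        have h2 : IsPrim m := IsPrim.of_mul_left ((mem_S hY).mp (hx _ h0)).2.1
          (hδ.mul (hBm B hB).1)
        have h3 : (1 : ℝ) ≤ nm m := by exact_mod_cast nm_pos.2 h2.ne_zero
        linarith
      rw [Finset.sum_eq_zero this, mul_zero]
    rw [Finset.sum_eq_zero hz]
    exact hRHS
  push Not at hN1
  have hNQ : N ≤ Q := by
    calc N = Xr * q / nm δ := rfl
      _ ≤ Xr * q := div_le_self (by positivity) hδ1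
      _ ≤ Xr * 1 := by gcongr
      _ ≤ Q := by linarith
  have h3 : ∀ B ∈ bk Z u, (nm B : ℝ)⁻¹ * ∑ k ∈ bl V, tgf x (δ * B) (k * B) t ≤
      q * (C₁ * (Q ^ (ε / 3) * Q ^ (ε / 3)) * HBa V N * ∑ m ∈ S N, ‖x (δ * B * m)‖ ^ 2) := by
    intro B hB
    have g1 := h₁ Y V N x (δ * B) B t hY hV1 hN1 hx (hδ.mul (hBm B hB).1) (hNm B hB)
    have g2 : (V * N) ^ (ε / 3) ≤ Q ^ (ε / 3) * Q ^ (ε / 3) := by
      rw [← Real.mul_rpow hQ0.le hQ0.le]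
      exact Real.rpow_le_rpow (by positivity) (by gcongr) hε3.le
    have g3 : 0 ≤ ∑ m ∈ S N, ‖x (δ * B * m)‖ ^ 2 := Finset.sum_nonneg fun _ _ => by positivity
    refine mul_le_mul (hBm B hB).2 (g1.trans ?_)
      (Finset.sum_nonneg fun _ _ => tgf_nonneg _ _ _ _) hq0.le
    gcongr
  refine (Finset.sum_le_sum h3).trans ?_
  rw [← Finset.mul_sum, ← Finset.mul_sum]
  have h4 := h₂ Y Q Ax Xr N x δ a (bk Z u) hY hAx hXr hN0 hx hxX hxA ha hap hδ hcop hXQ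
    (fun B hB => (hBm B hB).1)
  have h5 : Q ^ (ε / 3) * Q ^ (ε / 3) * Q ^ (ε / 3) = Q ^ ε := by
    rw [← Real.rpow_add hQ0, ← Real.rpow_add hQ0]; congr 1; ring
  calc q * (C₁ * (Q ^ (ε / 3) * Q ^ (ε / 3)) * HBa V N *
        ∑ B ∈ bk Z u, ∑ m ∈ S N, ‖x (δ * B * m)‖ ^ 2)
      ≤ q * (C₁ * (Q ^ (ε / 3) * Q ^ (ε / 3)) * HBa V N *
        (C₂ * Q ^ (ε / 3) * (Ax ^ 2 * (Xr / (nm δ * nm a))))) := by gcongr
    _ = C₁ * C₂ * (Q ^ (ε / 3) * Q ^ (ε / 3) * Q ^ (ε / 3)) *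
        (q * (Ax ^ 2 * (Xr / (nm δ * nm a))) * HBa V N) := by ring
    _ = _ := by rw [h5]

/-- **all `B > B0`** -/
theorem ls_all {ε : ℝ} (hε : 0 < ε) : ∃ C : ℝ, 0 ≤ C ∧
    ∀ (Y Q V Ax Xr Z B0 : ℝ) (x : Eis → ℂ) (δ a : Eis), 0 ≤ Y → 0 ≤ Ax → 0 ≤ Xr →
    1 ≤ Q → V ≤ Q → Xr ≤ Q → 0 ≤ Z → Z ≤ Q → 0 < B0 →
    (∀ n, x n ≠ 0 → n ∈ S Y) → (∀ n, x n ≠ 0 → (nm n : ℝ) ≤ Xr) → (∀ n, ‖x n‖ ≤ Ax) →
    (∀ n, x n ≠ 0 → a ∣ n) → IsPrim a → IsPrim δ → IsCoprime a δ → 0 ≤ V → ∀ t : ℝ,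
    ∑ B ∈ (S Z).filter (fun B => B0 < nm B), (nm B : ℝ)⁻¹ *
        ∑ k ∈ bl V, tgf x (δ * B) (k * B) t ≤
      C * Q ^ ε * (B0⁻¹ * (Ax ^ 2 * (Xr / (nm δ * nm a))) * HBa V (Xr / (B0 * nm δ))) := by
  have hε2 : 0 < ε / 2 := by linarith
  obtain ⟨C₁, hC₁, h₁⟩ := ls_blk hε2
  refine ⟨12 * (1 + (ε / 2)⁻¹) * C₁, by positivity, ?_⟩
  intro Y Q V Ax Xr Z B0 x δ a hY hAx hXr hQ hVQ hXQ hZ hZQ hB0 hx hxX hxA ha hap hδ hcop hV t
  have hδ0 : (0 : ℝ) < nm δ := by exact_mod_cast nm_pos.2 hδ.ne_zero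
  have ha0 : (0 : ℝ) < nm a := by exact_mod_cast nm_pos.2 hap.ne_zero
  have hQ0 : 0 < Q := by linarith
  set N := Xr / (B0 * nm δ) with hN
  have hN0 : 0 ≤ N := by positivity
  have hHB := HBa_nonneg hV hN0
  set E := Ax ^ 2 * (Xr / (nm δ * nm a)) with hE
  have hE0 : 0 ≤ E := by positivity
  have hRHS : 0 ≤ 12 * (1 + (ε / 2)⁻¹) * C₁ * Q ^ ε * (B0⁻¹ * E * HBa V N) := by positivity
  by_cases hZ1 : Z < 1
  · have : (S Z).filter (fun B => B0 < nm B) = ∅ := by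
      rw [Finset.eq_empty_iff_forall_notMem]
      intro B hB
      rw [Finset.mem_filter, mem_S hZ] at hB
      have : (1 : ℝ) ≤ nm B := by exact_mod_cast nm_pos.2 hB.1.2.1.ne_zero
      linarith [hB.1.1]
    rw [this, Finset.sum_empty]
    exact hRHS
  push Not at hZ1
  rw [Finset.sum_filter, sum_bk hZ1]
  have h2 : ∀ u ∈ Finset.range (⌊3 * Real.log Z⌋₊ + 1), ∑ B ∈ bk Z u,
      (if B0 < (nm B : ℝ) then (nm B : ℝ)⁻¹ * ∑ k ∈ bl V, tgf x (δ * B) (k * B) t else 0) ≤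
      C₁ * Q ^ (ε / 2) * (4 * (B0⁻¹ * E * HBa V N)) := by
    intro u _
    by_cases hex : ∃ B ∈ bk Z u, B0 < (nm B : ℝ)
    · obtain ⟨B1, hB1, hB1'⟩ := hex
      have hB1p := ((mem_bk hZ).mp hB1).1
      have hB10 : (0 : ℝ) < nm B1 := by exact_mod_cast nm_pos.2 hB1p.2.1.ne_zero
      have g2 := bk_hi hZ hB1
      have g3 : Real.exp (-((u : ℝ) / 3)) ≤ 2 * B0⁻¹ := by
        have g4 : B0 ≤ Real.exp ((u : ℝ) / 3) * 2 := by
          calc B0 ≤ nm B1 := hB1'.le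
            _ = Real.exp (Real.log (nm B1)) := (Real.exp_log hB10).symm
            _ ≤ Real.exp ((u : ℝ) / 3 + 1 / 3) := Real.exp_le_exp.mpr g2
            _ = Real.exp ((u : ℝ) / 3) * Real.exp (1 / 3) := Real.exp_add _ _
            _ ≤ Real.exp ((u : ℝ) / 3) * 2 := by
                have g6 : Real.exp (1 / 3) ≤ 2 := by
                  have g7 : Real.exp (1 / 3) ≤ Real.exp (Real.log 2) :=
                    Real.exp_le_exp.mpr (by have := Real.log_two_gt_d9; linarith)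
                  rwa [Real.exp_log (by norm_num)] at g7
                gcongr
        rw [Real.exp_neg, ← div_eq_mul_inv, inv_eq_one_div, div_le_div_iff₀ (Real.exp_pos _) hB0]
        linarith
      have g5 : ∑ B ∈ bk Z u,
          (if B0 < (nm B : ℝ) then (nm B : ℝ)⁻¹ * ∑ k ∈ bl V, tgf x (δ * B) (k * B) t else 0) ≤
          ∑ B ∈ bk Z u, (nm B : ℝ)⁻¹ * ∑ k ∈ bl V, tgf x (δ * B) (k * B) t := by
        refine Finset.sum_le_sum fun B _ => ?_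
        split_ifs
        · exact le_rfl
        · exact mul_nonneg (by positivity) (Finset.sum_nonneg fun _ _ => tgf_nonneg _ _ _ _)
      refine g5.trans ((h₁ Y Q V Ax Xr Z x δ a u hY hAx hXr hQ hVQ hXQ hZ hx hxX hxA ha hap hδ
        hcop hV t).trans ?_)
      rw [← hE]
      have g7 : HBa V (Xr * Real.exp (-((u : ℝ) / 3)) / nm δ) ≤ 2 * HBa V N := by
        refine (HBa_mono hV (by positivity) (N' := 2 * N) ?_).trans
          (HBa_scale hV hN0 (by norm_num))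
        rw [hN]
        calc Xr * Real.exp (-((u : ℝ) / 3)) / nm δ ≤ Xr * (2 * B0⁻¹) / nm δ := by gcongr
          _ = 2 * (Xr / (B0 * nm δ)) := by field_simp
      calc C₁ * Q ^ (ε / 2) * (Real.exp (-((u : ℝ) / 3)) * E *
            HBa V (Xr * Real.exp (-((u : ℝ) / 3)) / nm δ))
          ≤ C₁ * Q ^ (ε / 2) * ((2 * B0⁻¹) * E * (2 * HBa V N)) := by
            have := HBa_nonneg hV (show (0 : ℝ) ≤ Xr * Real.exp (-((u : ℝ) / 3)) / nm δ by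
              positivity)
            gcongr
        _ = _ := by ring
    · push Not at hex
      rw [Finset.sum_eq_zero fun B hB => if_neg (not_lt.mpr (hex B hB))]
      positivity
  refine (Finset.sum_le_sum h2).trans ?_
  rw [Finset.sum_const, nsmul_eq_mul, Finset.card_range]
  have h3 : ((⌊3 * Real.log Z⌋₊ + 1 : ℕ) : ℝ) ≤ 3 * ((1 + (ε / 2)⁻¹) * Q ^ (ε / 2)) := by
    have g1 := one_add_log hZ1 hZQ hε2
    have g2 : (⌊3 * Real.log Z⌋₊ : ℝ) ≤ 3 * Real.log Z :=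
      Nat.floor_le (by have := Real.log_nonneg hZ1; positivity)
    push_cast
    linarith
  have h5 : Q ^ (ε / 2) * Q ^ (ε / 2) = Q ^ ε := by
    rw [← Real.rpow_add hQ0]; congr 1; ring
  calc ((⌊3 * Real.log Z⌋₊ + 1 : ℕ) : ℝ) * (C₁ * Q ^ (ε / 2) * (4 * (B0⁻¹ * E * HBa V N)))
      ≤ (3 * ((1 + (ε / 2)⁻¹) * Q ^ (ε / 2))) *
        (C₁ * Q ^ (ε / 2) * (4 * (B0⁻¹ * E * HBa V N))) := by gcongr
    _ = 12 * (1 + (ε / 2)⁻¹) * C₁ * (Q ^ (ε / 2) * Q ^ (ε / 2)) * (B0⁻¹ * E * HBa V N) := by ring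
    _ = _ := by rw [h5]

/-- the number of the polar direct part (large sieve), `V = 9 Yl (nm (e A))³` -/
def nLS (X B0 V : ℝ) (δ a : Eis) : ℝ :=
  B0⁻¹ * (X / (nm δ * nm a)) * HBa V (X / (B0 * nm δ))

lemma nLS_nonneg {X B0 V : ℝ} (hX : 0 ≤ X) (hB0 : 0 ≤ B0) (hV : 0 ≤ V) (δ a : Eis) :
    0 ≤ nLS X B0 V δ a := by
  have := HBa_nonneg hV (show (0 : ℝ) ≤ X / (B0 * nm δ) by positivity)
  unfold nLS
  positivity

lemma nm_le_win {R X : ℝ} (hX : 0 < X) {n : Eis} (hn : n ≠ 0)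
    (h : |Real.log (nm n) - Real.log X| ≤ R) : (nm n : ℝ) ≤ Real.exp R * X := by
  have hn0 : (0 : ℝ) < nm n := by exact_mod_cast nm_pos.2 hn
  have h1 := (abs_le.mp h).2
  calc (nm n : ℝ) = Real.exp (Real.log (nm n)) := (Real.exp_log hn0).symm
    _ ≤ Real.exp (R + Real.log X) := Real.exp_le_exp.mpr (by linarith)
    _ = _ := by rw [Real.exp_add, Real.exp_log hX]

/-- **`PJ` by the large sieve** (form of `QsND_le`) -/
theorem PJ_ls {ε : ℝ} (hε : 0 < ε) (J Aw : ℕ) (hJA : J + 2 ≤ Aw) {R : ℝ} (hR : 0 ≤ R) :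
    ∃ C : ℝ, 0 ≤ C ∧
    ∀ (Y X Q Ax : ℝ) (x : Eis → ℂ) (δ a : Eis), 0 ≤ Y → 0 < X → 0 ≤ Ax → 1 ≤ Q → X ≤ Q →
    (∀ n, x n ≠ 0 → n ∈ S Y) → (∀ n, x n ≠ 0 → |Real.log (nm n) - Real.log X| ≤ R) →
    (∀ n, ‖x n‖ ≤ Ax) → (∀ n, x n ≠ 0 → a ∣ n) → IsPrim a → IsPrim δ → IsCoprime a δ →
    ∀ (Cw η : ℝ) (φ : ℝ → ℝ), 0 ≤ Cw → 0 < η → η ≤ 1 → WK Cw η Aw φ → ∀ p ∈ T9, ∀ t₀ : ℝ,
    ∀ e : Eis, IsPrim e → ∀ (Yl Kf B0 X' : ℝ), 0 < Yl → 0 ≤ Kf → 0 ≤ X' → X' ≤ Q → 0 < B0 →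
    ∀ y ∈ prs δ, ∀ A ∈ pdiv y.1, 9 * (Yl * (nm (e * A) : ℝ) ^ 3) ≤ Q →
    ∑ c ∈ C4, ∑ j ∈ S (Real.sqrt Yl), PJ (X' / nm y.1) (RR Yl e A c j) (Kf / nm (e * A * j)) B0
        y.2 (MTr (fun n => bt φ x p n * pw t₀ (nm n)) δ Yl y e A c j) ≤
      C * Cw ^ 2 * (η⁻¹) ^ J * Q ^ ε * (1 + |t₀|) ^ J * Ax ^ 2 *
        ((Yl ^ (-(2 : ℝ) / 3) * (nm (e * A) : ℝ) ^ (-(2 : ℝ)) * Kf ^ ((4 : ℝ) / 3)) *
          ((nm δ : ℝ) ^ ((1 : ℝ) / 3) * X ^ (-(1 : ℝ) / 3)) *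
          nLS X B0 (9 * (Yl * (nm (e * A) : ℝ) ^ 3)) δ a) := by
  have hε2 : 0 < ε / 2 := by linarith
  obtain ⟨C₁, hC₁, h₁⟩ := red_PJ hε2 J Aw hJA hR
  obtain ⟨C₂, hC₂, h₂⟩ := ls_all hε2
  set eR := Real.exp R with heR
  have heR1 : 1 ≤ eR := Real.one_le_exp hR
  refine ⟨C₁ * (C₂ * (eR ^ (ε / 2) * eR ^ 2)), by positivity, ?_⟩
  intro Y X Q Ax x δ a hY hX hAx hQ hXQ hx hw hxA ha hap hδ hcop Cw η φ hCw hη hη1 hφ p hp t₀ e he
    Yl Kf B0 X' hYl hKf hX'0 hX'Q hB0 y hy A hA hVQ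
  obtain ⟨hy1, hy2, hy3⟩ := (mem_prs hδ).mp hy
  obtain ⟨hAp, hAd⟩ := (mem_pdiv hy1.ne_zero).mp hA
  have hδ0 : (0 : ℝ) < nm δ := by exact_mod_cast nm_pos.2 hδ.ne_zero
  have ha0 : (0 : ℝ) < nm a := by exact_mod_cast nm_pos.2 hap.ne_zero
  have hy11 : (1 : ℝ) ≤ nm y.1 := by exact_mod_cast nm_pos.2 hy1.ne_zero
  have hE : (0 : ℝ) < nm (e * A) := by
    exact_mod_cast nm_pos.2 (mul_ne_zero he.ne_zero hAp.ne_zero)
  have hQ0 : 0 < Q := by linarith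
  set V := 9 * (Yl * (nm (e * A) : ℝ) ^ 3) with hV
  have hV0 : 0 < V := by positivity
  have hXb0 : 0 ≤ X' / (nm y.1 : ℝ) := by positivity
  have hXbQ : X' / (nm y.1 : ℝ) ≤ Q := (div_le_self hX'0 hy11).trans hX'Q
  have hnLS := nLS_nonneg hX.le hB0.le hV0.le δ a
  have hxX : ∀ n, x n ≠ 0 → (nm n : ℝ) ≤ eR * X := fun n hn =>
    nm_le_win hX ((mem_S hY).mp (hx n hn)).2.1.ne_zero (hw n hn)
  have hQe : 1 ≤ eR * Q := by nlinarith
  set M₀ := C₂ * (eR ^ (ε / 2) * eR ^ 2) * Q ^ (ε / 2) * (Ax ^ 2 * nLS X B0 V δ a) with hM₀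
  have hM₀0 : 0 ≤ M₀ := by positivity
  have hall : y.2 = 1 → ∀ t : ℝ, ∑ B ∈ (S (X' / nm y.1)).filter (fun B => B0 < nm B),
      (nm B : ℝ)⁻¹ * ∑ k ∈ bl V, tgf x (δ * B) (k * B) t ≤ M₀ * (1 + |t|) ^ J := by
    intro _ t
    have g1 := h₂ Y (eR * Q) V Ax (eR * X) (X' / nm y.1) B0 x δ a hY hAx (by positivity) hQe
      (by nlinarith) (by gcongr) hXb0 (by nlinarith) hB0 hx hxX hxA ha hap hδ hcop hV0.le t
    refine g1.trans ?_
    have g2 : HBa V (eR * X / (B0 * nm δ)) ≤ eR * HBa V (X / (B0 * nm δ)) := by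
      rw [mul_div_assoc]
      exact HBa_scale hV0.le (by positivity) heR1
    have g3 : (eR * Q) ^ (ε / 2) = eR ^ (ε / 2) * Q ^ (ε / 2) :=
      Real.mul_rpow (by linarith) hQ0.le
    have g4 : (1 : ℝ) ≤ (1 + |t|) ^ J := one_le_pow₀ (by have := abs_nonneg t; linarith)
    have g5 := HBa_nonneg hV0.le (show (0 : ℝ) ≤ X / (B0 * nm δ) by positivity)
    calc C₂ * (eR * Q) ^ (ε / 2) * (B0⁻¹ * (Ax ^ 2 * (eR * X / (nm δ * nm a))) *
          HBa V (eR * X / (B0 * nm δ)))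
        ≤ C₂ * (eR ^ (ε / 2) * Q ^ (ε / 2)) * (B0⁻¹ * (Ax ^ 2 * (eR * X / (nm δ * nm a))) *
          (eR * HBa V (X / (B0 * nm δ)))) := by rw [g3]; gcongr
      _ = M₀ := by rw [hM₀]; unfold nLS; ring
      _ ≤ M₀ * (1 + |t|) ^ J := le_mul_of_one_le_right hM₀0 g4
  have h3 := h₁ Y X Q M₀ x δ hY hX hM₀0 hQ hx hw hδ Cw η φ hCw hη hη1 hφ p hp t₀ e he Yl Kf B0 X'
    hYl hKf hX'0 y hy A hA hVQ hall
  refine h3.trans (le_of_eq ?_)
  have h5 : Q ^ (ε / 2) * Q ^ (ε / 2) = Q ^ ε := by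
    rw [← Real.rpow_add hQ0]; congr 1; ring
  rw [hM₀, ← h5]
  ring

/-- **the polar cells by the large sieve** (premise of `Qs_cellsJ`) -/
theorem cell_ls {ε : ℝ} (hε : 0 < ε) (J Aw : ℕ) (hJA : J + 2 ≤ Aw) {R : ℝ} (hR : 0 ≤ R) :
    ∃ C : ℝ, 0 ≤ C ∧
    ∀ (Y X Q Ax : ℝ) (x : Eis → ℂ) (δ a : Eis), 0 ≤ Y → 0 < X → 0 ≤ Ax → 1 ≤ Q → X ≤ Q →
    (∀ n, x n ≠ 0 → n ∈ S Y) → (∀ n, x n ≠ 0 → |Real.log (nm n) - Real.log X| ≤ R) →
    (∀ n, ‖x n‖ ≤ Ax) → (∀ n, x n ≠ 0 → a ∣ n) → IsPrim a → IsPrim δ → IsCoprime a δ →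
    ∀ (Cw η : ℝ) (φ : ℝ → ℝ), 0 ≤ Cw → 0 < η → η ≤ 1 → WK Cw η Aw φ → ∀ p ∈ T9, ∀ t₀ : ℝ,
    ∀ e : Eis, IsPrim e → ∀ (Yl B0 X' : ℝ), 0 < Yl → 0 ≤ X' → 0 < B0 →
    ∀ y ∈ prs δ, ∀ A ∈ pdiv y.1, 9 * (Yl * (nm (e * A) : ℝ) ^ 3) ≤ Q → y.2 = 1 →
    ∀ c ∈ C4, ∀ l u : ℕ, (∃ B ∈ bk (X' / nm y.1) u, B0 < nm B) →
    Real.exp (-(4 / 3) * ((u : ℝ) / 3)) * ∑ j₂ ∈ Tb Yl e A c l, ∑ B ∈ bk (X' / nm y.1) u,
      ∑ r ∈ (S (RR Yl e A c j₂)).filter (fun r => IsCoprime r y.2 ∧ RR Yl e A c j₂ / 2 < nm r),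
        ‖MT (ag (fun n => bt φ x p n * pw t₀ (nm n)) δ y.1) (e * A * j₂) B c r‖ ^ 2 ≤
      C * Cw ^ 2 * (η⁻¹) ^ J * Q ^ ε * (1 + |t₀|) ^ J * Ax ^ 2 *
        (((nm δ : ℝ) ^ ((1 : ℝ) / 3) * X ^ (-(1 : ℝ) / 3)) *
          nLS X B0 (9 * (Yl * (nm (e * A) : ℝ) ^ 3)) δ a) := by
  have hε2 : 0 < ε / 2 := by linarith
  obtain ⟨C₁, hC₁, h₁⟩ := red_cell hε2 J Aw hJA hR
  obtain ⟨C₂, hC₂, h₂⟩ := ls_blk hε2
  set eR := Real.exp R with heR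
  have heR1 : 1 ≤ eR := Real.one_le_exp hR
  refine ⟨C₁ * (C₂ * (4 * (eR ^ (ε / 2) * eR ^ 2))), by positivity, ?_⟩
  intro Y X Q Ax x δ a hY hX hAx hQ hXQ hx hw hxA ha hap hδ hcop Cw η φ hCw hη hη1 hφ p hp t₀ e he
    Yl B0 X' hYl hX'0 hB0 y hy A hA hVQ h1 c hc l u hex
  obtain ⟨hy1, hy2, hy3⟩ := (mem_prs hδ).mp hy
  obtain ⟨hAp, hAd⟩ := (mem_pdiv hy1.ne_zero).mp hA
  have hδ0 : (0 : ℝ) < nm δ := by exact_mod_cast nm_pos.2 hδ.ne_zero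
  have ha0 : (0 : ℝ) < nm a := by exact_mod_cast nm_pos.2 hap.ne_zero
  have hy11 : (1 : ℝ) ≤ nm y.1 := by exact_mod_cast nm_pos.2 hy1.ne_zero
  have hE : (0 : ℝ) < nm (e * A) := by
    exact_mod_cast nm_pos.2 (mul_ne_zero he.ne_zero hAp.ne_zero)
  have hQ0 : 0 < Q := by linarith
  set V := 9 * (Yl * (nm (e * A) : ℝ) ^ 3) with hV
  have hV0 : 0 < V := by positivity
  have hXb0 : 0 ≤ X' / (nm y.1 : ℝ) := by positivity
  have hnLS := nLS_nonneg hX.le hB0.le hV0.le δ a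
  have hxX : ∀ n, x n ≠ 0 → (nm n : ℝ) ≤ eR * X := fun n hn =>
    nm_le_win hX ((mem_S hY).mp (hx n hn)).2.1.ne_zero (hw n hn)
  have hQe : 1 ≤ eR * Q := by nlinarith
  obtain ⟨B1, hB1, hB1'⟩ := hex
  have hB1p := ((mem_bk hXb0).mp hB1).1
  have hB10 : (0 : ℝ) < nm B1 := by exact_mod_cast nm_pos.2 hB1p.2.1.ne_zero
  have g2' := bk_hi hXb0 hB1
  have g3' : Real.exp (-((u : ℝ) / 3)) ≤ 2 * B0⁻¹ := by
    have g4 : B0 ≤ Real.exp ((u : ℝ) / 3) * 2 := by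
      calc B0 ≤ nm B1 := hB1'.le
        _ = Real.exp (Real.log (nm B1)) := (Real.exp_log hB10).symm
        _ ≤ Real.exp ((u : ℝ) / 3 + 1 / 3) := Real.exp_le_exp.mpr g2'
        _ = Real.exp ((u : ℝ) / 3) * Real.exp (1 / 3) := Real.exp_add _ _
        _ ≤ Real.exp ((u : ℝ) / 3) * 2 := by
            have g6 : Real.exp (1 / 3) ≤ 2 := by
              have g7 : Real.exp (1 / 3) ≤ Real.exp (Real.log 2) :=
                Real.exp_le_exp.mpr (by have := Real.log_two_gt_d9; linarith)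
              rwa [Real.exp_log (by norm_num)] at g7
            gcongr
    rw [Real.exp_neg, ← div_eq_mul_inv, inv_eq_one_div, div_le_div_iff₀ (Real.exp_pos _) hB0]
    linarith
  set M₀ := C₂ * (4 * (eR ^ (ε / 2) * eR ^ 2)) * Q ^ (ε / 2) * (Ax ^ 2 * nLS X B0 V δ a) with hM₀
  have hM₀0 : 0 ≤ M₀ := by positivity
  have hall : ∀ t : ℝ, ∑ B ∈ bk (X' / nm y.1) u,
      (nm B : ℝ)⁻¹ * ∑ k ∈ bl V, tgf x (δ * B) (k * B) t ≤ M₀ * (1 + |t|) ^ J := by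
    intro t
    have g1 := h₂ Y (eR * Q) V Ax (eR * X) (X' / nm y.1) x δ a u hY hAx (by positivity) hQe
      (by nlinarith) (by gcongr) hXb0 hx hxX hxA ha hap hδ hcop hV0.le t
    refine g1.trans ?_
    have g2 : HBa V (eR * X * Real.exp (-((u : ℝ) / 3)) / nm δ) ≤
        (2 * eR) * HBa V (X / (B0 * nm δ)) := by
      refine (HBa_mono hV0.le (by positivity) (N' := (2 * eR) * (X / (B0 * nm δ))) ?_).trans
        (HBa_scale hV0.le (by positivity) (by linarith))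
      calc eR * X * Real.exp (-((u : ℝ) / 3)) / nm δ ≤ eR * X * (2 * B0⁻¹) / nm δ := by gcongr
        _ = _ := by field_simp
    have g3 : (eR * Q) ^ (ε / 2) = eR ^ (ε / 2) * Q ^ (ε / 2) :=
      Real.mul_rpow (by linarith) hQ0.le
    have g4 : (1 : ℝ) ≤ (1 + |t|) ^ J := one_le_pow₀ (by have := abs_nonneg t; linarith)
    have g5 := HBa_nonneg hV0.le (show (0 : ℝ) ≤ X / (B0 * nm δ) by positivity)
    have g6 := HBa_nonneg hV0.le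
      (show (0 : ℝ) ≤ eR * X * Real.exp (-((u : ℝ) / 3)) / nm δ by positivity)
    calc C₂ * (eR * Q) ^ (ε / 2) * (Real.exp (-((u : ℝ) / 3)) *
          (Ax ^ 2 * (eR * X / (nm δ * nm a))) *
          HBa V (eR * X * Real.exp (-((u : ℝ) / 3)) / nm δ))
        ≤ C₂ * (eR ^ (ε / 2) * Q ^ (ε / 2)) * ((2 * B0⁻¹) *
          (Ax ^ 2 * (eR * X / (nm δ * nm a))) *
          ((2 * eR) * HBa V (X / (B0 * nm δ)))) := by rw [g3]; gcongr
      _ = M₀ := by rw [hM₀]; unfold nLS; ring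
      _ ≤ M₀ * (1 + |t|) ^ J := le_mul_of_one_le_right hM₀0 g4
  have h3 := h₁ Y X Q M₀ x δ hY hX hM₀0 hQ hx hw hδ Cw η φ hCw hη hη1 hφ p hp t₀ e he Yl X'
    hYl hX'0 y hy A hA hVQ h1 c hc l u hall
  refine h3.trans (le_of_eq ?_)
  have h5 : Q ^ (ε / 2) * Q ^ (ε / 2) = Q ^ ε := by
    rw [← Real.rpow_add hQ0]; congr 1; ring
  rw [hM₀, ← h5]
  ring

end Crest.Agent.R017.MTX241
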