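import Crest.Agent.R017.MTL_537

/-!
# Row 17, T.5 / T.7 (helper537): the number of the polar part

* `ml_exp` : the three exponents
* `ml_num` : `e^(-t) K'^(2/3) X^(2/3) / B0 * ML V (X / B0) ≤ 3 K X e^(-k/36 + ..)` at
  `K' = K e^(-3 t)`, `B0 ≥ max 1 (K'^2 / (Z X))^(1/3)` up to constants, `6 n ≤ 5 k`, `3 v ≤ 2 k`
-/

set_option autoImplicit false

noncomputable section

namespace Crest.Agent.R017.MTL537

/-- the exponents -/
lemma ml_exp {k n v e t b s : ℝ} (ht : 0 ≤ t) (he : 0 ≤ e) (hs : 0 ≤ s) (hn : 6 * n ≤ 5 * k + s)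
    (hv : 3 * v ≤ 2 * k + s) (hk : 0 ≤ k) (hb0 : 0 ≤ b)
    (hb : 2 * (k - 3 * t) - v - n ≤ 3 * b + s) :
    (-t + 2 / 3 * (k - 3 * t) + 2 / 3 * n - b + 2 / 3 * (v + e) ≤ k + n - k / 36 + e + 2 * s) ∧
    (-t + 2 / 3 * (k - 3 * t) + 2 / 3 * n - b + (n - b) ≤ k + n - k / 36 + e + 2 * s) ∧
    (-t + 2 / 3 * (k - 3 * t) + 2 / 3 * n - b + (1 / 3 * (v + e) + 2 / 3 * (n - b)) ≤
      k + n - k / 36 + e + 2 * s) := by
  refine ⟨?_, ?_, ?_⟩ <;> linarith

/-- **the number of the polar part**: `k = log K`, `n = log X`, `v = log Z`, `e` the losses in the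
level, `t` the scale of the `l`-sum, `b = log B0` -/
theorem ml_num {k n v e t b s : ℝ} (ht : 0 ≤ t) (he : 0 ≤ e) (hs : 0 ≤ s)
    (hn : 6 * n ≤ 5 * k + s) (hv : 3 * v ≤ 2 * k + s) (hk : 0 ≤ k) (hb0 : 0 ≤ b)
    (hb : 2 * (k - 3 * t) - v - n ≤ 3 * b + s) :
    Real.exp (-t) * (Real.exp (k - 3 * t) ^ ((2 : ℝ) / 3) * Real.exp n ^ ((2 : ℝ) / 3) /
      Real.exp b * ML (Real.exp (v + e)) (Real.exp n / Real.exp b)) ≤
      3 * Real.exp (k + n - k / 36 + e + 2 * s) := by
  obtain ⟨h1, h2, h3⟩ := ml_exp ht he hs hn hv hk hb0 hb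
  unfold ML
  rw [← Real.exp_sub, ← Real.exp_mul, ← Real.exp_mul, ← Real.exp_mul, ← Real.exp_mul,
    ← Real.exp_mul]
  have e1 : Real.exp (-t) * (Real.exp ((k - 3 * t) * (2 / 3)) * Real.exp (n * (2 / 3)) /
      Real.exp b * (Real.exp ((v + e) * (2 / 3)) + Real.exp (n - b) +
        Real.exp ((v + e) * (1 / 3)) * Real.exp ((n - b) * (2 / 3)))) =
      Real.exp (-t + 2 / 3 * (k - 3 * t) + 2 / 3 * n - b + 2 / 3 * (v + e)) +
      Real.exp (-t + 2 / 3 * (k - 3 * t) + 2 / 3 * n - b + (n - b)) +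
      Real.exp (-t + 2 / 3 * (k - 3 * t) + 2 / 3 * n - b +
        (1 / 3 * (v + e) + 2 / 3 * (n - b))) := by
    have e2 : Real.exp (-t) * (Real.exp ((k - 3 * t) * (2 / 3)) * Real.exp (n * (2 / 3)) /
        Real.exp b) = Real.exp (-t + 2 / 3 * (k - 3 * t) + 2 / 3 * n - b) := by
      rw [← Real.exp_add, ← Real.exp_sub, ← Real.exp_add]
      congr 1; ring
    rw [← Real.exp_add ((v + e) * (1 / 3)), ← mul_assoc, e2, mul_add, mul_add, ← Real.exp_add,
      ← Real.exp_add, ← Real.exp_add]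
    congr 2
    · congr 1
      congr 1
      ring
    · congr 1
      ring
  rw [e1]
  have g1 := Real.exp_le_exp.2 h1
  have g2 := Real.exp_le_exp.2 h2
  have g3 := Real.exp_le_exp.2 h3
  linarith

/-- the same for `K, X, Z, E, T, B0` -/
theorem ml_num' {K X Z E T B0 c : ℝ} (hK : 1 ≤ K) (hX : 0 < X) (hZ : 0 < Z) (hE : 1 ≤ E)
    (hT : 1 ≤ T) (hc : 1 ≤ c) (hB0 : 1 ≤ B0) (hn : X ^ 6 ≤ c * K ^ 5) (hv : Z ^ 3 ≤ c * K ^ 2)
    (hb : (K / T ^ 3) ^ 2 ≤ c * (Z * X * B0 ^ 3)) :
    T⁻¹ * ((K / T ^ 3) ^ ((2 : ℝ) / 3) * X ^ ((2 : ℝ) / 3) / B0 * ML (Z * E) (X / B0)) ≤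
      3 * (K * X * (K ^ (-(1 / 36) : ℝ) * E * c ^ 2)) := by
  have hK0 : 0 < K := by linarith
  have hE0 : 0 < E := by linarith
  have hT0 : 0 < T := by linarith
  have hc0 : 0 < c := by linarith
  have hB : 0 < B0 := by linarith
  have h := ml_num (k := Real.log K) (n := Real.log X) (v := Real.log Z) (e := Real.log E)
    (t := Real.log T) (b := Real.log B0) (s := Real.log c) (Real.log_nonneg hT)
    (Real.log_nonneg hE) (Real.log_nonneg hc)
    (by
      have := Real.log_le_log (by positivity) hn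
      rw [Real.log_pow, Real.log_mul hc0.ne' (by positivity), Real.log_pow] at this
      push_cast at this
      linarith)
    (by
      have := Real.log_le_log (by positivity) hv
      rw [Real.log_pow, Real.log_mul hc0.ne' (by positivity), Real.log_pow] at this
      push_cast at this
      linarith)
    (Real.log_nonneg hK) (Real.log_nonneg hB0)
    (by
      have := Real.log_le_log (by positivity) hb
      rw [Real.log_pow, Real.log_div hK0.ne' (by positivity), Real.log_pow,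
        Real.log_mul hc0.ne' (by positivity), Real.log_mul (by positivity) (by positivity),
        Real.log_mul hZ.ne' hX.ne', Real.log_pow] at this
      push_cast at this
      linarith)
  have e1 : Real.exp (-Real.log T) = T⁻¹ := by rw [Real.exp_neg, Real.exp_log hT0]
  have e2 : Real.exp (Real.log K - 3 * Real.log T) = K / T ^ 3 := by
    rw [Real.exp_sub, Real.exp_log hK0]
    congr 1
    rw [show (3 : ℝ) * Real.log T = ((3 : ℕ) : ℝ) * Real.log T by norm_num, Real.exp_nat_mul,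
      Real.exp_log hT0]
  have e3 : Real.exp (Real.log Z + Real.log E) = Z * E := by
    rw [Real.exp_add, Real.exp_log hZ, Real.exp_log hE0]
  have e4 : Real.exp (Real.log K + Real.log X - Real.log K / 36 + Real.log E +
      2 * Real.log c) = K * X * (K ^ (-(1 / 36) : ℝ) * E * c ^ 2) := by
    have e5 : Real.exp (2 * Real.log c) = c ^ 2 := by
      rw [show (2 : ℝ) * Real.log c = ((2 : ℕ) : ℝ) * Real.log c by norm_num, Real.exp_nat_mul,
        Real.exp_log hc0]
    have e6 : K ^ (-(1 / 36) : ℝ) = Real.exp (-(Real.log K / 36)) := by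
      rw [Real.rpow_def_of_pos hK0]
      congr 1; ring
    have e7 : Real.exp (Real.log K + Real.log X - Real.log K / 36 + Real.log E +
        2 * Real.log c) = Real.exp (Real.log K) * Real.exp (Real.log X) *
        (Real.exp (-(Real.log K / 36)) * Real.exp (Real.log E) * Real.exp (2 * Real.log c)) := by
      rw [← Real.exp_add, ← Real.exp_add, ← Real.exp_add, ← Real.exp_add]
      congr 1; ring
    rw [e7, e5, e6, Real.exp_log hK0, Real.exp_log hX, Real.exp_log hE0]
  rw [e1, e2, e3, e4, Real.exp_log hX, Real.exp_log hB] at h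
  exact h

end Crest.Agent.R017.MTL537
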