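import Crest.Agent.R017.PrD4_502
import Crest.Agent.R017.LBc_48

/-!
# Row 17, T.7: the principal half of `E2`, the sums of `REb` (helper176, after helper502's PrD4)

* `PJm`, `PR_oneM`, `PJM_le`, `GPsumM_le` : PrD4 with the powers of `ν` kept
* `pj_bd` : explicit bound for all `y ∈ prs δ`, `A ∣ y.1`
* `RPn`, `reb_pr` : the sum over `δ`, `i`, `e`
-/

set_option autoImplicit false
set_option linter.unusedVariables false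

noncomputable section

open Complex
open scoped ComplexConjugate

namespace Crest.Agent.R017.PrE176

open Crest.Agent.R012 Crest.Agent.R012.Eis Crest.Agent.R012.GaussLoc283
open Crest.Agent.R012.Mob705 hiding pb mem_pb
open Crest.Agent.R012.Div277
open Crest.Agent.R012.LS2 (S mem_S)
open Crest.Agent.R017.E2440 (ag one_le_nm RR C4 mem_C4 card_S_le')
open Crest.Agent.R012.Mob705 (pdiv)
open Crest.Agent.R017.PrD502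

/-- one `(c, j₂)` -/
lemma PR_oneM {V K X a cc j nM nν H Mg' τD : ℝ} (hV : 0 < V) (hK : 0 < K) (hX : 0 < X)
    (ha : 0 < a) (hc : 1 ≤ cc) (hj : 1 ≤ j) (hM : 0 < nM) (hν : 1 ≤ nν) (hH : 0 < H)
    (hMg : 0 ≤ Mg') (hτ : 0 ≤ τD) :
    (V * a / (cc * j ^ 2)) ^ (-(1 : ℝ) / 3) * (K / (a * j)) ^ ((2 : ℝ) / 3) *
      PRn (V * a / (cc * j ^ 2)) (K / (a * j)) (V * a / (cc * j ^ 2) * nν ^ 2 * X / (K / (a * j)))
        (a * j * nM * nν) Mg' τD H ≤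
      Mg' * (cc ^ ((1 : ℝ) / 3) * K ^ ((2 : ℝ) / 3) * V ^ (-(1 / 3) : ℝ) / a) +
      (Mg' * (K * X ^ (-(1 / 3) : ℝ) * nν ^ (-(2 / 3) : ℝ) / a +
        K ^ ((4 : ℝ) / 3) * X ^ (-(2 / 3) : ℝ) * nM ^ ((1 : ℝ) / 3) * nν⁻¹ / a) + (V * K * H) ^ ((1 : ℝ) / 3) * Mg' ^ ((1 : ℝ) / 3) +
        τD * (V ^ ((2 : ℝ) / 3) * a * (nM * nν) ^ ((1 : ℝ) / 3) * H ^ ((2 : ℝ) / 3))) *
        (1 / j) := by
  have hc0 : 0 < cc := by linarith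
  have hj0 : 0 < j := by linarith
  have hν0 : 0 < nν := by linarith
  obtain ⟨v, hv, rfl⟩ := cube_root hV
  obtain ⟨k, hk, rfl⟩ := cube_root hK
  obtain ⟨x, hx, rfl⟩ := cube_root hX
  obtain ⟨α, hα, rfl⟩ := cube_root ha
  obtain ⟨γ, hγ, rfl⟩ := cube_root hc0
  obtain ⟨ι, hι, rfl⟩ := cube_root hj0
  obtain ⟨μ, hμ, rfl⟩ := cube_root hM
  obtain ⟨ρ, hρ, rfl⟩ := cube_root hν0
  obtain ⟨η, hη, rfl⟩ := cube_root hH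
  have hγ1 : 1 ≤ γ := by
    by_contra h
    push Not at h
    have : γ ^ 3 < 1 := pow_lt_one₀ hγ.le h (by norm_num)
    linarith
  have hρ1 : 1 ≤ ρ := by
    by_contra h
    push Not at h
    have : ρ ^ 3 < 1 := pow_lt_one₀ hρ.le h (by norm_num)
    linarith
  have eR : v ^ 3 * α ^ 3 / (γ ^ 3 * (ι ^ 3) ^ 2) = (v * α / (γ * ι ^ 2)) ^ 3 := by
    field_simp
  have eA : k ^ 3 / (α ^ 3 * ι ^ 3) = (k / (α * ι)) ^ 3 := by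
    field_simp
  set R1 : ℝ := v * α / (γ * ι ^ 2) with hR1
  set A1 : ℝ := k / (α * ι) with hA1
  have hR10 : 0 < R1 := by positivity
  have hA10 : 0 < A1 := by positivity
  have eZ : R1 ^ 3 * (ρ ^ 3) ^ 2 * x ^ 3 / A1 ^ 3 = (R1 * ρ ^ 2 * x / A1) ^ 3 := by
    field_simp
  have eL : α ^ 3 * ι ^ 3 * μ ^ 3 * ρ ^ 3 = (α * ι * μ * ρ) ^ 3 := by ring
  have eHA : η ^ 3 / A1 ^ 3 = (η / A1) ^ 3 := by field_simp
  have eVKH : v ^ 3 * k ^ 3 * η ^ 3 = (v * k * η) ^ 3 := by ring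
  have eMn : μ ^ 3 * ρ ^ 3 = (μ * ρ) ^ 3 := by ring
  rw [eR, eA]
  unfold PRn
  rw [eZ, eL, eHA, eVKH, eMn, rn13' hR10, r23 hA10, r23 hR10, rn13 (by positivity),
    r13 (by positivity : 0 < α * ι * μ * ρ), rn23 (by positivity), r13 (by positivity : 0 < η / A1),
    r23 (by positivity : 0 < η / A1), r13 hγ, r23 hk, rn13 hv, rn13 hx, r43 hk, rn23 hx, rn23 hρ, r13 hμ,
    r13 (by positivity : 0 < v * k * η), r23 hv, r13 (by positivity : 0 < μ * ρ), r23 hη]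
  have hM13 : 0 ≤ Mg' ^ ((1 : ℝ) / 3) := by positivity
  set Q := Mg' ^ ((1 : ℝ) / 3) with hQ
  set Z1 : ℝ := R1 * ρ ^ 2 * x / A1 with hZ1
  have hZ10 : 0 < Z1 := by positivity
  have m1 : min 1 Z1⁻¹ ≤ Z1⁻¹ := min_le_right _ _
  have m2 : min 1 (α * ι * μ * ρ * (Z1 ^ 2)⁻¹) ≤ α * ι * μ * ρ * (Z1 ^ 2)⁻¹ := min_le_right _ _
  have t1 : R1⁻¹ * A1 ^ 2 = γ * k ^ 2 * v⁻¹ / α ^ 3 := by
    rw [hR1, hA1]; field_simp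
  have t2 : R1⁻¹ * A1 ^ 2 * (R1 ^ 2 * Z1⁻¹) ≤ k ^ 3 * x⁻¹ * (ρ ^ 2)⁻¹ / α ^ 3 * (1 / ι ^ 3) := by
    refine le_of_eq ?_
    rw [hZ1, hR1, hA1]; field_simp
  have t3 : R1⁻¹ * A1 ^ 2 * (R1 ^ 3 * (α * ι * μ * ρ * (Z1 ^ 2)⁻¹)) ≤
      k ^ 4 * (x ^ 2)⁻¹ * μ * (ρ ^ 3)⁻¹ / α ^ 3 * (1 / ι ^ 3) := by
    refine le_of_eq ?_
    rw [hZ1, hR1, hA1]; field_simp
  have t4 : R1⁻¹ * A1 ^ 2 * (R1 ^ 2 * (η / A1)) ≤ v * k * η * (1 / ι ^ 3) := by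
    have e : R1⁻¹ * A1 ^ 2 * (R1 ^ 2 * (η / A1)) = v * k * η * (1 / ι ^ 3) * γ⁻¹ := by
      rw [hR1, hA1]; field_simp
    rw [e]
    exact mul_le_of_le_one_right (by positivity) (inv_le_one_of_one_le₀ hγ1)
  have t5 : R1⁻¹ * A1 ^ 2 * (R1 ^ 3 * (α * ι * μ * ρ) * (η / A1) ^ 2) ≤
      v ^ 2 * α ^ 3 * (μ * ρ) * η ^ 2 * (1 / ι ^ 3) := by
    have e : R1⁻¹ * A1 ^ 2 * (R1 ^ 3 * (α * ι * μ * ρ) * (η / A1) ^ 2) =
        v ^ 2 * α ^ 3 * (μ * ρ) * η ^ 2 * (1 / ι ^ 3) * (γ ^ 2)⁻¹ := by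
      rw [hR1, hA1]; field_simp
    rw [e]
    exact mul_le_of_le_one_right (by positivity) (inv_le_one_of_one_le₀ (one_le_pow₀ hγ1))
  calc R1⁻¹ * A1 ^ 2 * (Mg' * (1 + R1 ^ 2 * min 1 Z1⁻¹ +
        R1 ^ 3 * min 1 (α * ι * μ * ρ * (Z1 ^ 2)⁻¹)) + R1 ^ 2 * (η / A1) * Q +
        τD * (R1 ^ 3 * (α * ι * μ * ρ) * (η / A1) ^ 2))
      ≤ R1⁻¹ * A1 ^ 2 * (Mg' * (1 + R1 ^ 2 * Z1⁻¹ +
        R1 ^ 3 * (α * ι * μ * ρ * (Z1 ^ 2)⁻¹)) + R1 ^ 2 * (η / A1) * Q +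
        τD * (R1 ^ 3 * (α * ι * μ * ρ) * (η / A1) ^ 2)) := by gcongr
    _ = Mg' * (R1⁻¹ * A1 ^ 2) + Mg' * (R1⁻¹ * A1 ^ 2 * (R1 ^ 2 * Z1⁻¹)) +
        Mg' * (R1⁻¹ * A1 ^ 2 * (R1 ^ 3 * (α * ι * μ * ρ * (Z1 ^ 2)⁻¹))) +
        (R1⁻¹ * A1 ^ 2 * (R1 ^ 2 * (η / A1))) * Q +
        τD * (R1⁻¹ * A1 ^ 2 * (R1 ^ 3 * (α * ι * μ * ρ) * (η / A1) ^ 2)) := by ring
    _ ≤ Mg' * (γ * k ^ 2 * v⁻¹ / α ^ 3) + Mg' * (k ^ 3 * x⁻¹ * (ρ ^ 2)⁻¹ / α ^ 3 * (1 / ι ^ 3)) +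
        Mg' * (k ^ 4 * (x ^ 2)⁻¹ * μ * (ρ ^ 3)⁻¹ / α ^ 3 * (1 / ι ^ 3)) +
        (v * k * η * (1 / ι ^ 3)) * Q +
        τD * (v ^ 2 * α ^ 3 * (μ * ρ) * η ^ 2 * (1 / ι ^ 3)) := by
        refine add_le_add (add_le_add (add_le_add (add_le_add (le_of_eq (by rw [t1])) ?_) ?_) ?_) ?_
        · exact mul_le_mul_of_nonneg_left t2 hMg
        · exact mul_le_mul_of_nonneg_left t3 hMg
        · exact mul_le_mul_of_nonneg_right t4 hM13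
        · exact mul_le_mul_of_nonneg_left t5 hτ
    _ = _ := by ring

/-- the number after the sums over `c` and `j₂` (`a = nm (e A)`) -/
def PJm (K V X a nM nν H Mg' T : ℝ) : ℝ :=
  Mg' * (K ^ ((2 : ℝ) / 3) * V ^ ((1 : ℝ) / 6) / a +
    K * X ^ (-(1 / 3) : ℝ) * nν ^ (-(2 / 3) : ℝ) / a +
    K ^ ((4 : ℝ) / 3) * X ^ (-(2 / 3) : ℝ) * nM ^ ((1 : ℝ) / 3) * nν⁻¹ / a) +
  (V * K * H) ^ ((1 : ℝ) / 3) * Mg' ^ ((1 : ℝ) / 3) +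
  T * (V ^ ((2 : ℝ) / 3) * a * (nM * nν) ^ ((1 : ℝ) / 3) * H ^ ((2 : ℝ) / 3))

set_option maxHeartbeats 1000000 in
open Classical in
/-- **the sums over `c` and `j₂`** -/
theorem PJM_le {V K X H Mg' T W : ℝ} {e A M0 ν : Eis} (hV : 1 ≤ V) (hK : 0 < K) (hX : 0 < X)
    (he : e ≠ 0) (hA : A ≠ 0) (hM0 : M0 ≠ 0) (hν : ν ≠ 0) (hH : 0 < H) (hMg : 0 ≤ Mg')
    (hW : 0 ≤ W) (hT : ∀ j₂ ∈ S (Real.sqrt V), (tau (e * A * j₂ * M0) : ℝ) ≤ T) :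
    ∑ c ∈ C4, ∑ j₂ ∈ (S (Real.sqrt V)).filter (fun j₂ => 1 ≤ RR V e A c j₂),
      RR V e A c j₂ ^ (-(1 : ℝ) / 3) * (K / nm (e * A * j₂)) ^ ((2 : ℝ) / 3) *
        (W * PRn (RR V e A c j₂) (K / nm (e * A * j₂))
          (RR V e A c j₂ * (nm ν : ℝ) ^ 2 * X / (K / nm (e * A * j₂)))
          (nm (e * A * j₂ * M0) * nm ν) Mg' (tau (e * A * j₂ * M0)) H) ≤
      1200 * (1 + Real.log V) * (W * PJm K V X (nm (e * A)) (nm M0) (nm ν) H Mg' T) := by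
  have hV0 : 0 < V := by linarith
  have hsV : 1 ≤ Real.sqrt V := Real.one_le_sqrt.mpr hV
  have hsV0 : (0 : ℝ) ≤ Real.sqrt V := by linarith
  have hlV : 0 ≤ Real.log V := Real.log_nonneg hV
  have hls : Real.log (Real.sqrt V) ≤ Real.log V := by
    rw [Real.log_sqrt hV0.le]; linarith
  have hls0 : 0 ≤ Real.log (Real.sqrt V) := Real.log_nonneg hsV
  set a : ℝ := (nm (e * A) : ℝ) with ha
  have ha1 : 1 ≤ a := one_le_nm (mul_ne_zero he hA)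
  have ha0 : 0 < a := by linarith
  have hnM : (1 : ℝ) ≤ nm M0 := one_le_nm hM0
  have hnν : (1 : ℝ) ≤ nm ν := one_le_nm hν
  have hM13 : 0 ≤ Mg' ^ ((1 : ℝ) / 3) := by positivity
  have hT0 : 0 ≤ T := by
    refine le_trans (Nat.cast_nonneg (tau (e * A * 1 * M0))) (hT 1 ?_)
    rw [mem_S hsV0]
    exact ⟨by rw [nm_one]; simpa using hsV, isPrim_one, squarefree_one⟩
  set P0 : ℝ := Mg' * (3 * K ^ ((2 : ℝ) / 3) * V ^ (-(1 / 3) : ℝ) / a) with hP0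
  set P1 : ℝ := Mg' * (K * X ^ (-(1 / 3) : ℝ) * (nm ν : ℝ) ^ (-(2 / 3) : ℝ) / a +
        K ^ ((4 : ℝ) / 3) * X ^ (-(2 / 3) : ℝ) * (nm M0 : ℝ) ^ ((1 : ℝ) / 3) * (nm ν : ℝ)⁻¹ / a) + (V * K * H) ^ ((1 : ℝ) / 3) * Mg' ^ ((1 : ℝ) / 3) +
        T * (V ^ ((2 : ℝ) / 3) * a * (nm M0 * nm ν) ^ ((1 : ℝ) / 3) * H ^ ((2 : ℝ) / 3)) with hP1
  have hP00 : 0 ≤ P0 := by positivity
  have hP10 : 0 ≤ P1 := by positivity
  have h1 : ∀ c ∈ C4, ∀ j₂ ∈ (S (Real.sqrt V)).filter (fun j₂ => 1 ≤ RR V e A c j₂),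
      RR V e A c j₂ ^ (-(1 : ℝ) / 3) * (K / nm (e * A * j₂)) ^ ((2 : ℝ) / 3) *
        (W * PRn (RR V e A c j₂) (K / nm (e * A * j₂))
          (RR V e A c j₂ * (nm ν : ℝ) ^ 2 * X / (K / nm (e * A * j₂)))
          (nm (e * A * j₂ * M0) * nm ν) Mg' (tau (e * A * j₂ * M0)) H) ≤
      W * (P0 + P1 * (1 / (nm j₂ : ℝ))) := by
    intro c hc j₂ hj
    rw [Finset.mem_filter] at hj
    obtain ⟨hjS, -⟩ := hj
    obtain ⟨hj1, hj2, hj3⟩ := (mem_S hsV0).mp hjS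
    have hnj : (1 : ℝ) ≤ nm j₂ := one_le_nm hj2.ne_zero
    obtain ⟨hc1, hc9⟩ := nm_C4 hc
    have e1 : (nm (e * A * j₂) : ℝ) = a * nm j₂ := by rw [nm_mul]; push_cast; rfl
    have e2 : (nm (e * A * j₂ * M0) : ℝ) * nm ν = a * nm j₂ * nm M0 * nm ν := by
      rw [nm_mul, Nat.cast_mul, e1]
    have e3 : RR V e A c j₂ = V * a / (nm c * (nm j₂ : ℝ) ^ 2) := rfl
    have h2 := PR_oneM (V := V) (K := K) (X := X) (a := a) (cc := nm c) (j := nm j₂)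
      (nM := nm M0) (nν := nm ν) (H := H) (Mg' := Mg') (τD := (tau (e * A * j₂ * M0) : ℝ)) hV0 hK
      hX ha0 hc1 hnj (by linarith) hnν hH hMg (Nat.cast_nonneg _)
    rw [← e3, ← e1] at h2
    rw [e1] at h2 ⊢
    rw [e2]
    have h3 : (nm c : ℝ) ^ ((1 : ℝ) / 3) ≤ 3 := by
      calc (nm c : ℝ) ^ ((1 : ℝ) / 3) ≤ (27 : ℝ) ^ ((1 : ℝ) / 3) :=
            Real.rpow_le_rpow (by positivity) (by linarith) (by norm_num)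
        _ = ((3 : ℝ) ^ 3) ^ ((1 : ℝ) / 3) := by norm_num
        _ = 3 := r13 (by norm_num)
    calc _ = W * (RR V e A c j₂ ^ (-(1 : ℝ) / 3) * (K / (a * nm j₂)) ^ ((2 : ℝ) / 3) *
          PRn (RR V e A c j₂) (K / (a * nm j₂))
          (RR V e A c j₂ * (nm ν : ℝ) ^ 2 * X / (K / (a * nm j₂)))
          (a * nm j₂ * nm M0 * nm ν) Mg' (tau (e * A * j₂ * M0)) H) := by ring
      _ ≤ W * (Mg' * ((nm c : ℝ) ^ ((1 : ℝ) / 3) * K ^ ((2 : ℝ) / 3) * V ^ (-(1 / 3) : ℝ) / a) +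
          (Mg' * (K * X ^ (-(1 / 3) : ℝ) * (nm ν : ℝ) ^ (-(2 / 3) : ℝ) / a +
          K ^ ((4 : ℝ) / 3) * X ^ (-(2 / 3) : ℝ) *
          (nm M0 : ℝ) ^ ((1 : ℝ) / 3) * (nm ν : ℝ)⁻¹ / a) + (V * K * H) ^ ((1 : ℝ) / 3) * Mg' ^ ((1 : ℝ) / 3) +
          (tau (e * A * j₂ * M0) : ℝ) * (V ^ ((2 : ℝ) / 3) * a *
            (nm M0 * nm ν) ^ ((1 : ℝ) / 3) * H ^ ((2 : ℝ) / 3))) * (1 / nm j₂)) :=
          mul_le_mul_of_nonneg_left h2 hW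
      _ ≤ W * (P0 + P1 * (1 / (nm j₂ : ℝ))) := by
          rw [hP0, hP1]
          have := hT j₂ hjS
          gcongr
  have h2 : ∀ c ∈ C4, ∑ j₂ ∈ (S (Real.sqrt V)).filter (fun j₂ => 1 ≤ RR V e A c j₂),
      RR V e A c j₂ ^ (-(1 : ℝ) / 3) * (K / nm (e * A * j₂)) ^ ((2 : ℝ) / 3) *
        (W * PRn (RR V e A c j₂) (K / nm (e * A * j₂))
          (RR V e A c j₂ * (nm ν : ℝ) ^ 2 * X / (K / nm (e * A * j₂)))
          (nm (e * A * j₂ * M0) * nm ν) Mg' (tau (e * A * j₂ * M0)) H) ≤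
      W * (P0 * (100 * Real.sqrt V) + P1 * (100 * (1 + Real.log V))) := by
    intro c hc
    refine (Finset.sum_le_sum (h1 c hc)).trans ?_
    rw [← Finset.mul_sum]
    refine mul_le_mul_of_nonneg_left ?_ hW
    refine (Finset.sum_le_sum_of_subset_of_nonneg (Finset.filter_subset _ _)
      (fun _ _ _ => by positivity)).trans ?_
    have e9 : ∑ j₂ ∈ S (Real.sqrt V), (P0 + P1 * (1 / (nm j₂ : ℝ))) =
        P0 * (S (Real.sqrt V)).card + P1 * ∑ j₂ ∈ S (Real.sqrt V), 1 / (nm j₂ : ℝ) := by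
      rw [Finset.sum_add_distrib, Finset.sum_const, nsmul_eq_mul, Finset.mul_sum, mul_comm P0]
    rw [e9]
    refine add_le_add ?_ ?_
    · exact mul_le_mul_of_nonneg_left (card_S_le' hsV) hP00
    · refine mul_le_mul_of_nonneg_left ((E2440.sum_inv_S hsV).trans ?_) hP10
      linarith
  refine (Finset.sum_le_sum h2).trans ?_
  rw [Finset.sum_const, nsmul_eq_mul]
  have e6 : V ^ (-(1 / 3) : ℝ) * Real.sqrt V = V ^ ((1 : ℝ) / 6) := by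
    rw [Real.sqrt_eq_rpow, ← Real.rpow_add hV0]; norm_num
  have h3 : P0 * (100 * Real.sqrt V) + P1 * (100 * (1 + Real.log V)) ≤
      300 * (1 + Real.log V) * PJm K V X a (nm M0) (nm ν) H Mg' T := by
    have e7 : P0 * (100 * Real.sqrt V) =
        300 * (Mg' * (K ^ ((2 : ℝ) / 3) * V ^ ((1 : ℝ) / 6) / a)) := by
      rw [hP0, ← e6]; ring
    rw [e7]
    unfold PJm
    set Q0 : ℝ := Mg' * (K ^ ((2 : ℝ) / 3) * V ^ ((1 : ℝ) / 6) / a) with hQ0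
    have hQ00 : 0 ≤ Q0 := by positivity
    have e8 : Mg' * (K ^ ((2 : ℝ) / 3) * V ^ ((1 : ℝ) / 6) / a +
        K * X ^ (-(1 / 3) : ℝ) * (nm ν : ℝ) ^ (-(2 / 3) : ℝ) / a +
        K ^ ((4 : ℝ) / 3) * X ^ (-(2 / 3) : ℝ) * (nm M0 : ℝ) ^ ((1 : ℝ) / 3) * (nm ν : ℝ)⁻¹ / a) +
        (V * K * H) ^ ((1 : ℝ) / 3) * Mg' ^ ((1 : ℝ) / 3) +
        T * (V ^ ((2 : ℝ) / 3) * a * (nm M0 * nm ν) ^ ((1 : ℝ) / 3) * H ^ ((2 : ℝ) / 3)) =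
        Q0 + P1 := by rw [hQ0, hP1]; ring
    rw [e8]
    nlinarith [mul_nonneg hlV hQ00, mul_nonneg hlV hP10]
  have h4 : 0 ≤ P0 * (100 * Real.sqrt V) + P1 * (100 * (1 + Real.log V)) := by positivity
  calc (C4.card : ℝ) * (W * (P0 * (100 * Real.sqrt V) + P1 * (100 * (1 + Real.log V))))
      ≤ 4 * (W * (300 * (1 + Real.log V) * PJm K V X a (nm M0) (nm ν) H Mg' T)) :=
        mul_le_mul card_C4 (mul_le_mul_of_nonneg_left h3 hW) (by positivity) (by norm_num)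
    _ = _ := by ring

set_option maxHeartbeats 1000000 in
open Classical in
/-- **the cell sums, summed over `c` and `j₂`** -/
theorem GPsumM_le {V K X B0 H Ax d0 T W : ℝ} {e A M0 ν g' : Eis} {ϑ ϑd : ℝ → ℝ}
    {N : Eis → Eis → Eis → ℕ} {N0 : ℕ} (hV : 1 ≤ V) (hK : 0 < K) (hX : 1 ≤ X) (he : e ≠ 0)
    (hA : A ≠ 0) (hM0 : M0 ≠ 0) (hν : IsPrim ν) (hg' : IsPrim g') (hH : 0 < H) (hW : 0 ≤ W)
    (hϑ : ∀ y : ℝ, 0 < y → 0 ≤ ϑ y ∧ ϑ y ≤ 1 ∧ ϑ y ≤ y ^ (-(1 / 3) : ℝ))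
    (hϑd : ∀ y : ℝ, 0 < y → 0 ≤ ϑd y ∧ ϑd y ≤ 1 ∧ ϑd y ≤ (H * y) ^ ((1 : ℝ) / 3))
    (hN : ∀ c ∈ C4, ∀ j₂ ∈ S (Real.sqrt V), 1 ≤ RR V e A c j₂ → ∀ B ∈ S X, N c j₂ B ≤ N0)
    (hT : ∀ j₂ ∈ S (Real.sqrt V), (tau (e * A * j₂ * M0) : ℝ) ≤ T) :
    ∑ c ∈ C4, ∑ j₂ ∈ (S (Real.sqrt V)).filter (fun j₂ => 1 ≤ RR V e A c j₂),
      RR V e A c j₂ ^ (-(1 : ℝ) / 3) * (K / nm (e * A * j₂)) ^ ((2 : ℝ) / 3) *
        ∑ B ∈ S X, ∑ j ∈ Finset.range (N c j₂ B), (if (nm B : ℝ) ≤ B0 then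
          ϑ (RR V e A c j₂ * (nm ν : ℝ) ^ 2 * (X / nm B) /
            (K / nm (e * A * j₂) / (nm B : ℝ) ^ 2 * 2 ^ j)) ^ 2
          else ϑd (2 ^ j / (K / nm (e * A * j₂) / (nm B : ℝ) ^ 2)) ^ 2) *
          ((2 / 2 ^ j) * (W * prM (RR V e A c j₂) (2 ^ j) Ax d0 (nm (e * A * j₂ * M0) * nm ν)
            (nm (b2 (e * A * j₂ * M0) B)) g' B)) ≤
      1200 * (1 + Real.log V) * ((W * (N0 * (200 * (1 + Real.log X)) * (Ax / nm g') ^ 2)) *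
        PJm K V X (nm (e * A)) (nm M0) (nm ν) H (Mu d0 g') T) := by
  have hV0 : 0 < V := by linarith
  have hsV0 : (0 : ℝ) ≤ Real.sqrt V := Real.sqrt_nonneg _
  have hlX : 0 ≤ Real.log X := Real.log_nonneg hX
  have hMg := Mu_nonneg d0 g'
  have hng : (1 : ℝ) ≤ nm g' := one_le_nm hg'.ne_zero
  refine le_trans ?_ (PJM_le (V := V) (K := K) (X := X) (H := H) (Mg' := Mu d0 g') (T := T)
    (W := W * (N0 * (200 * (1 + Real.log X)) * (Ax / nm g') ^ 2)) hV hK (by linarith) he hA hM0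
    hν.ne_zero hH hMg (by positivity) hT)
  refine Finset.sum_le_sum fun c hc => Finset.sum_le_sum fun j₂ hj => ?_
  rw [Finset.mem_filter] at hj
  obtain ⟨hjS, hR⟩ := hj
  obtain ⟨hj1, hj2, hj3⟩ := (mem_S hsV0).mp hjS
  have hE : e * A * j₂ ≠ 0 := mul_ne_zero (mul_ne_zero he hA) hj2.ne_zero
  have hE1 : (1 : ℝ) ≤ nm (e * A * j₂) := one_le_nm hE
  have hA' : 0 < K / nm (e * A * j₂) := by positivity
  refine mul_le_mul_of_nonneg_left ?_ (by positivity)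
  have h1 := GP_le (R := RR V e A c j₂) (X := X) (A := K / nm (e * A * j₂)) (B0 := B0) (H := H)
    (Ax := Ax) (d0 := d0) (L := nm (e * A * j₂ * M0) * nm ν) (ν := ν) (D := e * A * j₂ * M0)
    (g' := g') (ϑ := ϑ) (ϑd := ϑd) (N := N c j₂) (N0 := N0) hR hX hA' hH.le (by positivity) hν
    (mul_ne_zero hE hM0) hg' hϑ hϑd (fun B hB => hN c hc j₂ hjS hR B hB)
  have e1 : ∀ B ∈ S X, ∑ j ∈ Finset.range (N c j₂ B), (if (nm B : ℝ) ≤ B0 then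
          ϑ (RR V e A c j₂ * (nm ν : ℝ) ^ 2 * (X / nm B) /
            (K / nm (e * A * j₂) / (nm B : ℝ) ^ 2 * 2 ^ j)) ^ 2
          else ϑd (2 ^ j / (K / nm (e * A * j₂) / (nm B : ℝ) ^ 2)) ^ 2) *
          ((2 / 2 ^ j) * (W * prM (RR V e A c j₂) (2 ^ j) Ax d0 (nm (e * A * j₂ * M0) * nm ν)
            (nm (b2 (e * A * j₂ * M0) B)) g' B)) =
      W * ∑ j ∈ Finset.range (N c j₂ B), (if (nm B : ℝ) ≤ B0 then
          ϑ (RR V e A c j₂ * (nm ν : ℝ) ^ 2 * (X / nm B) /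
            (K / nm (e * A * j₂) / (nm B : ℝ) ^ 2 * 2 ^ j)) ^ 2
          else ϑd (2 ^ j / (K / nm (e * A * j₂) / (nm B : ℝ) ^ 2)) ^ 2) *
          ((2 / 2 ^ j) * prM (RR V e A c j₂) (2 ^ j) Ax d0 (nm (e * A * j₂ * M0) * nm ν)
            (nm (b2 (e * A * j₂ * M0) B)) g' B) := by
    intro B _
    rw [Finset.mul_sum]
    exact Finset.sum_congr rfl fun j _ => by ring
  rw [Finset.sum_congr rfl e1, ← Finset.mul_sum]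
  refine (mul_le_mul_of_nonneg_left h1 hW).trans (le_of_eq ?_)
  ring


/-! ### part 2: all `y`, `A`; the sum over `δ`, `i`, `e` -/

/-- the bracket: `PJm` for all `y ∈ prs δ`, `A ∣ y.1`; `d = nm δ`, `e = nm e` -/
def BRp (d0 K V X nM H T d e : ℝ) : ℝ :=
  Real.exp (-d0) * (K ^ ((2 : ℝ) / 3) * V ^ ((1 : ℝ) / 6) +
    K * X ^ (-(1 / 3) : ℝ) * d ^ (-(2 / 3) : ℝ) +
    K ^ ((4 : ℝ) / 3) * X ^ (-(2 / 3) : ℝ) * nM ^ ((1 : ℝ) / 3) * d ^ (-(1 / 3) : ℝ)) / e +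
  (V * K * H) ^ ((1 : ℝ) / 3) * Real.exp (-d0) ^ ((1 : ℝ) / 3) +
  T * (V ^ ((2 : ℝ) / 3) * e * (nM * d) ^ ((1 : ℝ) / 3) * H ^ ((2 : ℝ) / 3))

set_option maxHeartbeats 1000000 in
lemma pj_real {K V X e A nM n1 n2 H Mg' T d0 : ℝ} (hK : 0 < K) (hV : 0 < V) (hX : 0 < X)
    (he : 0 < e) (hA : 1 ≤ A) (hA1 : A ≤ n1) (hM : 0 < nM) (h2 : 1 ≤ n2) (hH : 0 < H)
    (hg0 : 0 ≤ Mg') (hg : Mg' ≤ n1 * Real.exp (-d0)) (hT : 0 ≤ T) :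
    (n1 ^ 2)⁻¹ * PJm K V (X / n1) (e * A) nM n2 H Mg' T ≤
      BRp d0 K V X nM H T (n1 * n2) e := by
  have h1 : 1 ≤ n1 := hA.trans hA1
  have hA0 : 0 < A := by linarith
  have hn10 : 0 < n1 := by linarith
  have hn20 : 0 < n2 := by linarith
  have hE : 0 < Real.exp (-d0) := Real.exp_pos _
  -- replace `Mg'` by its bound and `A`
  have s1 : PJm K V (X / n1) (e * A) nM n2 H Mg' T ≤
      (n1 * Real.exp (-d0)) * (K ^ ((2 : ℝ) / 3) * V ^ ((1 : ℝ) / 6) / e +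
        K * (X / n1) ^ (-(1 / 3) : ℝ) * n2 ^ (-(2 / 3) : ℝ) / e +
        K ^ ((4 : ℝ) / 3) * (X / n1) ^ (-(2 / 3) : ℝ) * nM ^ ((1 : ℝ) / 3) * n2⁻¹ / e) +
      (V * K * H) ^ ((1 : ℝ) / 3) * (n1 * Real.exp (-d0)) ^ ((1 : ℝ) / 3) +
      T * (V ^ ((2 : ℝ) / 3) * (e * n1) * (nM * n2) ^ ((1 : ℝ) / 3) * H ^ ((2 : ℝ) / 3)) := by
    unfold PJm
    have ha : e ≤ e * A := le_mul_of_one_le_right he.le hA
    gcongr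
  refine (mul_le_mul_of_nonneg_left s1 (by positivity)).trans ?_
  unfold BRp
  obtain ⟨k, hk, rfl⟩ := cube_root hK
  obtain ⟨x, hx, rfl⟩ := cube_root hX
  obtain ⟨v, hv, rfl⟩ := cube_root hV
  obtain ⟨μ, hμ, rfl⟩ := cube_root hM
  obtain ⟨η, hη, rfl⟩ := cube_root hH
  obtain ⟨ν, hν, rfl⟩ := cube_root hn10
  obtain ⟨ρ, hρ, rfl⟩ := cube_root hn20
  obtain ⟨ξ, hξ, hξe⟩ := cube_root hE
  rw [hξe]
  have hν1 : 1 ≤ ν := by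
    by_contra h
    push Not at h
    have : ν ^ 3 < 1 := pow_lt_one₀ hν.le h (by norm_num)
    linarith
  have hρ1 : 1 ≤ ρ := by
    by_contra h
    push Not at h
    have : ρ ^ 3 < 1 := pow_lt_one₀ hρ.le h (by norm_num)
    linarith
  have e1 : x ^ 3 / ν ^ 3 = (x / ν) ^ 3 := by field_simp
  have e2 : ν ^ 3 * ρ ^ 3 = (ν * ρ) ^ 3 := by ring
  have e3 : ν ^ 3 * ξ ^ 3 = (ν * ξ) ^ 3 := by ring
  have e4 : v ^ 3 * k ^ 3 * η ^ 3 = (v * k * η) ^ 3 := by ring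
  have e5 : μ ^ 3 * ρ ^ 3 = (μ * ρ) ^ 3 := by ring
  have e6 : μ ^ 3 * (ν * ρ) ^ 3 = (μ * (ν * ρ)) ^ 3 := by ring
  have p1 : 0 < x / ν := by positivity
  have p2 : 0 < ν * ρ := by positivity
  have p3 : 0 < ν * ξ := by positivity
  have p4 : 0 < v * k * η := by positivity
  have p5 : 0 < μ * ρ := by positivity
  have p6 : 0 < μ * (ν * ρ) := by positivity
  rw [e1, e2, e6, e4, e5, e3, rn13 p1, rn23 p1, rn23 hρ, rn13 hx,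
    rn23 hx, r23 hk, r43 hk, r13 hμ, r13 p4, r13 p3, r13 p5, r13 p6, r23 hv, r23 hη, r13 hξ,
    rn23 p2, rn13 p2]
  set V6 : ℝ := (v ^ 3) ^ ((1 : ℝ) / 6) with hV6
  have hV60 : 0 ≤ V6 := by positivity
  have i1 : (ν : ℝ)⁻¹ ≤ 1 := inv_le_one_of_one_le₀ hν1
  have i2 : (ρ : ℝ)⁻¹ ≤ 1 := inv_le_one_of_one_le₀ hρ1
  have i0 : 0 ≤ (ν : ℝ)⁻¹ := by positivity
  have j0 : 0 ≤ (ρ : ℝ)⁻¹ := by positivity
  have t1 : ((ν ^ 3) ^ 2)⁻¹ * ((ν * ξ) ^ 3 * (k ^ 2 * V6 / e)) ≤ ξ ^ 3 * (k ^ 2 * V6) / e := by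
    have : ((ν ^ 3) ^ 2)⁻¹ * ((ν * ξ) ^ 3 * (k ^ 2 * V6 / e)) =
        ξ ^ 3 * (k ^ 2 * V6) / e * (ν⁻¹) ^ 3 := by field_simp
    rw [this]
    exact mul_le_of_le_one_right (by positivity) (pow_le_one₀ i0 i1)
  have t2 : ((ν ^ 3) ^ 2)⁻¹ * ((ν * ξ) ^ 3 * (k ^ 3 * (x / ν)⁻¹ * (ρ ^ 2)⁻¹ / e)) ≤
      ξ ^ 3 * (k ^ 3 * x⁻¹ * ((ν * ρ) ^ 2)⁻¹) / e := by
    refine le_of_eq ?_
    field_simp
  have t3 : ((ν ^ 3) ^ 2)⁻¹ * ((ν * ξ) ^ 3 * (k ^ 4 * ((x / ν) ^ 2)⁻¹ * μ * (ρ ^ 3)⁻¹ / e)) ≤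
      ξ ^ 3 * (k ^ 4 * (x ^ 2)⁻¹ * μ * (ν * ρ)⁻¹) / e := by
    have : ((ν ^ 3) ^ 2)⁻¹ * ((ν * ξ) ^ 3 * (k ^ 4 * ((x / ν) ^ 2)⁻¹ * μ * (ρ ^ 3)⁻¹ / e)) =
        ξ ^ 3 * (k ^ 4 * (x ^ 2)⁻¹ * μ * (ν * ρ)⁻¹) / e * (ρ⁻¹) ^ 2 := by field_simp
    rw [this]
    exact mul_le_of_le_one_right (by positivity) (pow_le_one₀ j0 i2)
  have t4 : ((ν ^ 3) ^ 2)⁻¹ * (v * k * η * (ν * ξ)) ≤ v * k * η * ξ := by
    have : ((ν ^ 3) ^ 2)⁻¹ * (v * k * η * (ν * ξ)) = v * k * η * ξ * (ν⁻¹) ^ 5 := by field_simp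
    rw [this]
    exact mul_le_of_le_one_right (by positivity) (pow_le_one₀ i0 i1)
  have t5 : ((ν ^ 3) ^ 2)⁻¹ * (T * (v ^ 2 * (e * ν ^ 3) * (μ * ρ) * η ^ 2)) ≤
      T * (v ^ 2 * e * (μ * (ν * ρ)) * η ^ 2) := by
    have : ((ν ^ 3) ^ 2)⁻¹ * (T * (v ^ 2 * (e * ν ^ 3) * (μ * ρ) * η ^ 2)) =
        T * (v ^ 2 * e * (μ * (ν * ρ)) * η ^ 2) * (ν⁻¹) ^ 4 := by field_simp
    rw [this]
    exact mul_le_of_le_one_right (by positivity) (pow_le_one₀ i0 i1)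
  calc _ = ((ν ^ 3) ^ 2)⁻¹ * ((ν * ξ) ^ 3 * (k ^ 2 * V6 / e)) +
        ((ν ^ 3) ^ 2)⁻¹ * ((ν * ξ) ^ 3 * (k ^ 3 * (x / ν)⁻¹ * (ρ ^ 2)⁻¹ / e)) +
        ((ν ^ 3) ^ 2)⁻¹ * ((ν * ξ) ^ 3 * (k ^ 4 * ((x / ν) ^ 2)⁻¹ * μ * (ρ ^ 3)⁻¹ / e)) +
        ((ν ^ 3) ^ 2)⁻¹ * (v * k * η * (ν * ξ)) +
        ((ν ^ 3) ^ 2)⁻¹ * (T * (v ^ 2 * (e * ν ^ 3) * (μ * ρ) * η ^ 2)) := by ring
    _ ≤ ξ ^ 3 * (k ^ 2 * V6) / e + ξ ^ 3 * (k ^ 3 * x⁻¹ * ((ν * ρ) ^ 2)⁻¹) / e +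
        ξ ^ 3 * (k ^ 4 * (x ^ 2)⁻¹ * μ * (ν * ρ)⁻¹) / e + v * k * η * ξ +
        T * (v ^ 2 * e * (μ * (ν * ρ)) * η ^ 2) :=
        add_le_add (add_le_add (add_le_add (add_le_add t1 t2) t3) t4) t5
    _ = _ := by ring

/-- **the number of the principal half of `REb`** -/
def RPn (d0 K Z X nM H T E0 : ℝ) : ℝ :=
  Real.exp (-d0) * (Z ^ ((1 : ℝ) / 2) + (K * Z / X) ^ ((1 : ℝ) / 3) +
    K ^ ((2 : ℝ) / 3) * Z ^ ((1 : ℝ) / 3) * X ^ (-(2 / 3) : ℝ) * nM ^ ((1 : ℝ) / 3)) +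
  K ^ (-(1 / 3) : ℝ) * Z ^ ((2 : ℝ) / 3) * H ^ ((1 : ℝ) / 3) * Real.exp (-d0) ^ ((1 : ℝ) / 3) +
  E0 * T * (K ^ (-(2 / 3) : ℝ) * Z * nM ^ ((1 : ℝ) / 3) * H ^ ((2 : ℝ) / 3))

lemma RPn_nonneg {d0 K Z X nM H T E0 : ℝ} (hK : 0 ≤ K) (hZ : 0 ≤ Z) (hX : 0 ≤ X) (hM : 0 ≤ nM)
    (hH : 0 ≤ H) (hT : 0 ≤ T) (hE : 0 ≤ E0) : 0 ≤ RPn d0 K Z X nM H T E0 := by
  unfold RPn
  positivity

/-- **the real inequalities of the principal part** (`K'` the family, `K` the base, `K^(3/4) ≤ K'`) -/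
theorem rp_num {K K' Z X nM H T E0 d0 h v : ℝ} (hK' : 0 < K') (hKK : K' ≤ K)
    (hK34 : 3 / 4 * Real.log K ≤ Real.log K') (hK : 1 ≤ K) (hX : 0 < X) (hZ : 0 < Z)
    (hM : 1 ≤ nM) (hH : 1 ≤ H) (hT : 0 ≤ T) (hE0 : 0 ≤ E0) (hd0 : 0 ≤ d0) (hh : 0 ≤ h)
    (hn : Real.log X ≤ 5 / 6 * Real.log K) (hZv : Real.log Z ≤ v)
    (hv : v ≤ 2 * Real.log X - Real.log K + h) :
    RPn d0 K' Z X nM H T E0 ≤ (4 + E0 * T) * (nM ^ ((1 : ℝ) / 3) * H ^ ((2 : ℝ) / 3)) *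
      ((K / X) * Real.exp (h + max 0 ((v + Real.log X - Real.log K) / 3 - d0))) := by
  have hκ : 0 ≤ Real.log K := Real.log_nonneg hK
  have hκκ : Real.log K' ≤ Real.log K := Real.log_le_log hK' hKK
  obtain ⟨κ, hκe⟩ : ∃ k, K = Real.exp k := ⟨Real.log K, (Real.exp_log (by linarith)).symm⟩
  obtain ⟨κ', hκe'⟩ : ∃ k, K' = Real.exp k := ⟨Real.log K', (Real.exp_log hK').symm⟩
  obtain ⟨n, hne⟩ : ∃ k, X = Real.exp k := ⟨Real.log X, (Real.exp_log hX).symm⟩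
  obtain ⟨z, hze⟩ : ∃ k, Z = Real.exp k := ⟨Real.log Z, (Real.exp_log hZ).symm⟩
  subst hκe hκe' hne hze
  rw [Real.log_exp] at hκ hκκ hn hZv hv hK34 ⊢
  rw [Real.log_exp] at hκκ hK34 hn hv ⊢
  set M : ℝ := max 0 ((v + n - κ) / 3 - d0) with hMd
  have hM0 : 0 ≤ M := le_max_left _ _
  have hM1 : (v + n - κ) / 3 - d0 ≤ M := le_max_right _ _
  set B : ℝ := Real.exp κ / Real.exp n * Real.exp (h + M) with hB
  have hBe : B = Real.exp (κ - n + (h + M)) := by rw [hB, ← Real.exp_sub, ← Real.exp_add]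
  have hB0 : 0 < B := by rw [hBe]; positivity
  have hM13 : 1 ≤ nM ^ ((1 : ℝ) / 3) := Real.one_le_rpow hM (by norm_num)
  have hH23 : 1 ≤ H ^ ((2 : ℝ) / 3) := Real.one_le_rpow hH (by norm_num)
  have hH13 : H ^ ((1 : ℝ) / 3) ≤ H ^ ((2 : ℝ) / 3) :=
    Real.rpow_le_rpow_of_exponent_le hH (by norm_num)
  have hH130 : 0 ≤ H ^ ((1 : ℝ) / 3) := by positivity
  set m := nM ^ ((1 : ℝ) / 3) with hm
  set q := H ^ ((2 : ℝ) / 3) with hq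
  set q1 := H ^ ((1 : ℝ) / 3) with hq1
  have t1 : Real.exp (-d0) * Real.exp z ^ ((1 : ℝ) / 2) ≤ B := by
    rw [← Real.exp_mul, ← Real.exp_add, hBe]
    refine Real.exp_le_exp.2 ?_
    linarith
  have t2 : Real.exp (-d0) * (Real.exp κ' * Real.exp z / Real.exp n) ^ ((1 : ℝ) / 3) ≤ B := by
    rw [← Real.exp_add, ← Real.exp_sub, ← Real.exp_mul, ← Real.exp_add, hBe]
    refine Real.exp_le_exp.2 ?_
    linarith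
  have t3 : Real.exp (-d0) * (Real.exp κ' ^ ((2 : ℝ) / 3) * Real.exp z ^ ((1 : ℝ) / 3) *
      Real.exp n ^ (-(2 / 3) : ℝ)) ≤ B := by
    rw [← Real.exp_mul, ← Real.exp_mul, ← Real.exp_mul, ← Real.exp_add, ← Real.exp_add,
      ← Real.exp_add, hBe]
    refine Real.exp_le_exp.2 ?_
    linarith
  have t4 : Real.exp κ' ^ (-(1 / 3) : ℝ) * Real.exp z ^ ((2 : ℝ) / 3) *
      Real.exp (-d0) ^ ((1 : ℝ) / 3) ≤ B := by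
    rw [← Real.exp_mul, ← Real.exp_mul, ← Real.exp_mul, ← Real.exp_add, ← Real.exp_add, hBe]
    refine Real.exp_le_exp.2 ?_
    linarith
  have t5 : Real.exp κ' ^ (-(2 / 3) : ℝ) * Real.exp z ≤ B := by
    rw [← Real.exp_mul, ← Real.exp_add, hBe]
    refine Real.exp_le_exp.2 ?_
    linarith
  have hm0 : 0 ≤ m := by linarith
  have hq0 : 0 ≤ q := by linarith
  have hmq : 1 ≤ m * q := one_le_mul_of_one_le_of_one_le hM13 hH23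
  have hmq1 : m ≤ m * q := le_mul_of_one_le_right hm0 hH23
  have hmq2 : q1 ≤ m * q := hH13.trans (le_mul_of_one_le_left hq0 hM13)
  unfold RPn
  calc _ = Real.exp (-d0) * Real.exp z ^ ((1 : ℝ) / 2) * 1 +
        Real.exp (-d0) * (Real.exp κ' * Real.exp z / Real.exp n) ^ ((1 : ℝ) / 3) * 1 +
        Real.exp (-d0) * (Real.exp κ' ^ ((2 : ℝ) / 3) * Real.exp z ^ ((1 : ℝ) / 3) *
          Real.exp n ^ (-(2 / 3) : ℝ)) * m +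
        Real.exp κ' ^ (-(1 / 3) : ℝ) * Real.exp z ^ ((2 : ℝ) / 3) *
          Real.exp (-d0) ^ ((1 : ℝ) / 3) * q1 +
        E0 * T * (Real.exp κ' ^ (-(2 / 3) : ℝ) * Real.exp z * (m * q)) := by ring
    _ ≤ B * (m * q) + B * (m * q) + B * (m * q) + B * (m * q) + E0 * T * (B * (m * q)) := by
        gcongr
    _ = _ := by ring

set_option maxHeartbeats 2000000 in
lemma cell_pr {K V X Z nM H T d0 d e E0 : ℝ} (hK : 0 < K) (hV : 0 < V) (hX : 0 < X)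
    (he : 1 ≤ e) (hd : 1 ≤ d) (hM : 0 < nM) (hH : 0 < H) (hT : 0 ≤ T) (hE0 : 0 < E0)
    (hVZ : d ^ 2 * V < 2 * Z) :
    K ^ (-(2 / 3) : ℝ) * V ^ ((1 : ℝ) / 3) / e * BRp d0 K V X nM H T d e ≤
      4 * ((1 / d) * ((1 / e + 1 / E0) * RPn d0 K Z X nM H T E0)) := by
  have hZ : 0 < Z := by
    have : 0 < d ^ 2 * V := by positivity
    linarith
  have hd0 : 0 < d := by linarith
  have he0 : 0 < e := by linarith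
  have hE : 0 < Real.exp (-d0) := Real.exp_pos _
  have hV2 : V ^ ((1 : ℝ) / 3) * V ^ ((1 : ℝ) / 6) ≤ 2 * (Z ^ ((1 : ℝ) / 2) * (1 / d)) := by
    have e1 : V ^ ((1 : ℝ) / 3) * V ^ ((1 : ℝ) / 6) = Real.sqrt V := by
      rw [← Real.rpow_add hV, Real.sqrt_eq_rpow]; norm_num
    rw [e1, ← Real.sqrt_eq_rpow]
    have h1 : Real.sqrt V ≤ Real.sqrt (4 * Z / d ^ 2) := by
      refine Real.sqrt_le_sqrt ?_
      rw [le_div_iff₀ (by positivity)]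
      linarith
    refine h1.trans (le_of_eq ?_)
    rw [Real.sqrt_div (by positivity), Real.sqrt_sq hd0.le, Real.sqrt_mul (by norm_num),
      show (4 : ℝ) = 2 ^ 2 by norm_num, Real.sqrt_sq (by norm_num)]
    ring
  obtain ⟨k, hk, rfl⟩ := cube_root hK
  obtain ⟨x, hx, rfl⟩ := cube_root hX
  obtain ⟨μ, hμ, rfl⟩ := cube_root hM
  obtain ⟨η, hη, rfl⟩ := cube_root hH
  obtain ⟨ξ, hξ, hξe⟩ := cube_root hE
  unfold BRp RPn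
  rw [hξe]
  set ZH : ℝ := Z ^ ((1 : ℝ) / 2) with hZH
  have hZH0 : 0 ≤ ZH := by positivity
  set V6 : ℝ := V ^ ((1 : ℝ) / 6) with hV6
  have hV60 : 0 ≤ V6 := by positivity
  obtain ⟨z, hz, rfl⟩ := cube_root hZ
  obtain ⟨v, hv, rfl⟩ := cube_root hV
  obtain ⟨ρ, hρ, rfl⟩ := cube_root hd0
  have hρ1 : 1 ≤ ρ := by
    by_contra h
    push Not at h
    have : ρ ^ 3 < 1 := pow_lt_one₀ hρ.le h (by norm_num)
    linarith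
  have hv1 : v * ρ ^ 2 ≤ 2 * z := by
    have h1 : (v * ρ ^ 2) ^ 3 ≤ (2 * z) ^ 3 := by
      have : (v * ρ ^ 2) ^ 3 = (ρ ^ 3) ^ 2 * v ^ 3 := by ring
      rw [this]
      have hz3 : 0 < z ^ 3 := by positivity
      nlinarith
    exact le_of_pow_le_pow_left₀ (by norm_num) (by positivity) h1
  have e4 : v ^ 3 * k ^ 3 * η ^ 3 = (v * k * η) ^ 3 := by ring
  have e6 : μ ^ 3 * ρ ^ 3 = (μ * ρ) ^ 3 := by ring
  have e7 : k ^ 3 * z ^ 3 / x ^ 3 = (k * z / x) ^ 3 := by field_simp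
  rw [r13 hv] at hV2
  have p4 : 0 < v * k * η := by positivity
  have p6 : 0 < μ * ρ := by positivity
  have p7 : 0 < k * z / x := by positivity
  rw [e4, e6, e7, rn23 hk, r13 hv, r23 hk, rn13 hx, rn23 hρ, r43 hk, rn23 hx, r13 hμ, rn13 hρ,
    r13 p4, r13 hξ, r23 hv, r13 p6, r23 hη, r13 p7, r13 hz, rn13 hk, r23 hz, r13 hη]
  have i2 : (ρ : ℝ)⁻¹ ≤ 1 := inv_le_one_of_one_le₀ hρ1
  have j0 : 0 ≤ (ρ : ℝ)⁻¹ := by positivity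
  have hie : 1 / e ≤ 1 := by rw [div_le_one he0]; exact he
  have hie0 : 0 < 1 / e := by positivity
  have hiE : 0 < 1 / E0 := by positivity
  have hρi : 0 < 1 / ρ ^ 3 := by positivity
  -- `v ≤ 2 z / ρ²`
  have hv2 : v ≤ 2 * z / ρ ^ 2 := by rw [le_div_iff₀ (by positivity)]; exact hv1
  have hvr : v ≤ 2 * z * (1 / ρ) ^ 2 := hv2.trans (le_of_eq (by field_simp))
  have hir : 1 / ρ ≤ 1 := by rw [div_le_one hρ]; exact hρ1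
  have hir0 : 0 < 1 / ρ := by positivity
  have t1 : (k ^ 2)⁻¹ * v / e * (ξ ^ 3 * (k ^ 2 * V6) / e) ≤
      4 * ((1 / ρ ^ 3) * ((1 / e) * (ξ ^ 3 * ZH))) := by
    have e1 : (k ^ 2)⁻¹ * v / e * (ξ ^ 3 * (k ^ 2 * V6) / e) =
        ξ ^ 3 * (v * V6) * ((1 / e) * (1 / e)) := by field_simp
    rw [e1]
    calc ξ ^ 3 * (v * V6) * ((1 / e) * (1 / e)) ≤
          ξ ^ 3 * (2 * (ZH * (1 / ρ ^ 3))) * ((1 / e) * 1) := by gcongr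
      _ ≤ _ := by
        have : 0 ≤ ξ ^ 3 * ZH * (1 / ρ ^ 3) * (1 / e) := by positivity
        linarith
  have t2 : (k ^ 2)⁻¹ * v / e * (ξ ^ 3 * (k ^ 3 * x⁻¹ * (ρ ^ 2)⁻¹) / e) ≤
      4 * ((1 / ρ ^ 3) * ((1 / e) * (ξ ^ 3 * (k * z / x)))) := by
    have e1 : (k ^ 2)⁻¹ * v / e * (ξ ^ 3 * (k ^ 3 * x⁻¹ * (ρ ^ 2)⁻¹) / e) =
        ξ ^ 3 * (k / x) * v * (1 / ρ) ^ 2 * ((1 / e) * (1 / e)) := by field_simp
    rw [e1]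
    calc ξ ^ 3 * (k / x) * v * (1 / ρ) ^ 2 * ((1 / e) * (1 / e)) ≤
          ξ ^ 3 * (k / x) * (2 * z * (1 / ρ) ^ 2) * (1 / ρ) ^ 2 * ((1 / e) * 1) := by gcongr
      _ = 2 * (ξ ^ 3 * (k * z / x) * (1 / ρ ^ 3) * (1 / e)) * (1 / ρ) := by field_simp
      _ ≤ 2 * (ξ ^ 3 * (k * z / x) * (1 / ρ ^ 3) * (1 / e)) * 1 := by gcongr
      _ ≤ _ := by
        have : 0 ≤ ξ ^ 3 * (k * z / x) * (1 / ρ ^ 3) * (1 / e) := by positivity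
        linarith
  have t3 : (k ^ 2)⁻¹ * v / e * (ξ ^ 3 * (k ^ 4 * (x ^ 2)⁻¹ * μ * ρ⁻¹) / e) ≤
      4 * ((1 / ρ ^ 3) * ((1 / e) * (ξ ^ 3 * (k ^ 2 * z * (x ^ 2)⁻¹ * μ)))) := by
    have e1 : (k ^ 2)⁻¹ * v / e * (ξ ^ 3 * (k ^ 4 * (x ^ 2)⁻¹ * μ * ρ⁻¹) / e) =
        ξ ^ 3 * (k ^ 2 * (x ^ 2)⁻¹ * μ) * v * (1 / ρ) * ((1 / e) * (1 / e)) := by field_simp
    rw [e1]
    calc ξ ^ 3 * (k ^ 2 * (x ^ 2)⁻¹ * μ) * v * (1 / ρ) * ((1 / e) * (1 / e)) ≤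
          ξ ^ 3 * (k ^ 2 * (x ^ 2)⁻¹ * μ) * (2 * z * (1 / ρ) ^ 2) * (1 / ρ) * ((1 / e) * 1) := by
          gcongr
      _ = 2 * (ξ ^ 3 * (k ^ 2 * z * (x ^ 2)⁻¹ * μ) * (1 / ρ ^ 3) * (1 / e)) := by field_simp
      _ ≤ _ := by
        have : 0 ≤ ξ ^ 3 * (k ^ 2 * z * (x ^ 2)⁻¹ * μ) * (1 / ρ ^ 3) * (1 / e) := by positivity
        linarith
  have t4 : (k ^ 2)⁻¹ * v / e * (v * k * η * ξ) ≤
      4 * ((1 / ρ ^ 3) * ((1 / e) * (k⁻¹ * z ^ 2 * η * ξ))) := by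
    have e1 : (k ^ 2)⁻¹ * v / e * (v * k * η * ξ) = k⁻¹ * η * ξ * (v * v) * (1 / e) := by
      field_simp
    rw [e1]
    calc k⁻¹ * η * ξ * (v * v) * (1 / e) ≤
          k⁻¹ * η * ξ * ((2 * z * (1 / ρ) ^ 2) * (2 * z * (1 / ρ) ^ 2)) * (1 / e) := by gcongr
      _ = 4 * (k⁻¹ * z ^ 2 * η * ξ * (1 / ρ ^ 3) * (1 / e)) * (1 / ρ) := by field_simp; ring
      _ ≤ 4 * (k⁻¹ * z ^ 2 * η * ξ * (1 / ρ ^ 3) * (1 / e)) * 1 := by gcongr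
      _ = _ := by ring
  have hv3 : v ^ 3 ≤ 2 * z ^ 3 * (1 / ρ) ^ 6 := by
    have h1 : v ^ 3 ≤ 2 * z ^ 3 / (ρ ^ 3) ^ 2 := by
      rw [le_div_iff₀ (by positivity)]; linarith
    exact h1.trans (le_of_eq (by field_simp))
  have t5 : (k ^ 2)⁻¹ * v / e * (T * (v ^ 2 * e * (μ * ρ) * η ^ 2)) ≤
      4 * ((1 / ρ ^ 3) * ((1 / E0) * (E0 * T * ((k ^ 2)⁻¹ * z ^ 3 * μ * η ^ 2)))) := by
    have e1 : (k ^ 2)⁻¹ * v / e * (T * (v ^ 2 * e * (μ * ρ) * η ^ 2)) =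
        (k ^ 2)⁻¹ * T * μ * η ^ 2 * ρ * v ^ 3 := by field_simp
    have e2 : 4 * ((1 / ρ ^ 3) * ((1 / E0) * (E0 * T * ((k ^ 2)⁻¹ * z ^ 3 * μ * η ^ 2)))) =
        4 * ((k ^ 2)⁻¹ * T * μ * η ^ 2 * z ^ 3 * (1 / ρ ^ 3)) := by field_simp
    rw [e1, e2]
    calc (k ^ 2)⁻¹ * T * μ * η ^ 2 * ρ * v ^ 3 ≤
          (k ^ 2)⁻¹ * T * μ * η ^ 2 * ρ * (2 * z ^ 3 * (1 / ρ) ^ 6) := by gcongr
      _ = 2 * ((k ^ 2)⁻¹ * T * μ * η ^ 2 * z ^ 3 * (1 / ρ ^ 3)) * (1 / ρ) ^ 2 := by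
          field_simp
      _ ≤ 2 * ((k ^ 2)⁻¹ * T * μ * η ^ 2 * z ^ 3 * (1 / ρ ^ 3)) * 1 := by
          gcongr
          exact pow_le_one₀ hir0.le hir
      _ ≤ _ := by
        have : 0 ≤ (k ^ 2)⁻¹ * T * μ * η ^ 2 * z ^ 3 * (1 / ρ ^ 3) := by positivity
        nlinarith
  have n1 : 0 ≤ ξ ^ 3 * ZH := by positivity
  have n2 : 0 ≤ ξ ^ 3 * (k * z / x) := by positivity
  have n3 : 0 ≤ ξ ^ 3 * (k ^ 2 * z * (x ^ 2)⁻¹ * μ) := by positivity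
  have n4 : 0 ≤ k⁻¹ * z ^ 2 * η * ξ := by positivity
  have n5 : 0 ≤ E0 * T * ((k ^ 2)⁻¹ * z ^ 3 * μ * η ^ 2) := by positivity
  calc _ = (k ^ 2)⁻¹ * v / e * (ξ ^ 3 * (k ^ 2 * V6) / e) +
        (k ^ 2)⁻¹ * v / e * (ξ ^ 3 * (k ^ 3 * x⁻¹ * (ρ ^ 2)⁻¹) / e) +
        (k ^ 2)⁻¹ * v / e * (ξ ^ 3 * (k ^ 4 * (x ^ 2)⁻¹ * μ * ρ⁻¹) / e) +
        (k ^ 2)⁻¹ * v / e * (v * k * η * ξ) +
        (k ^ 2)⁻¹ * v / e * (T * (v ^ 2 * e * (μ * ρ) * η ^ 2)) := by ring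
    _ ≤ _ := add_le_add (add_le_add (add_le_add (add_le_add t1 t2) t3) t4) t5
    _ = 4 * ((1 / ρ ^ 3) * ((1 / e) * (ξ ^ 3 * ZH + ξ ^ 3 * (k * z / x) +
          ξ ^ 3 * (k ^ 2 * z * (x ^ 2)⁻¹ * μ) + k⁻¹ * z ^ 2 * η * ξ) +
          (1 / E0) * (E0 * T * ((k ^ 2)⁻¹ * z ^ 3 * μ * η ^ 2)))) := by ring
    _ ≤ 4 * ((1 / ρ ^ 3) * ((1 / e + 1 / E0) * (ξ ^ 3 * ZH + ξ ^ 3 * (k * z / x) +
          ξ ^ 3 * (k ^ 2 * z * (x ^ 2)⁻¹ * μ) + k⁻¹ * z ^ 2 * η * ξ +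
          E0 * T * ((k ^ 2)⁻¹ * z ^ 3 * μ * η ^ 2)))) := by
        refine mul_le_mul_of_nonneg_left (mul_le_mul_of_nonneg_left ?_ (by positivity))
          (by norm_num)
        have : 0 ≤ (1 / E0) * (ξ ^ 3 * ZH + ξ ^ 3 * (k * z / x) +
          ξ ^ 3 * (k ^ 2 * z * (x ^ 2)⁻¹ * μ) + k⁻¹ * z ^ 2 * η * ξ) := by positivity
        have : 0 ≤ (1 / e) * (E0 * T * ((k ^ 2)⁻¹ * z ^ 3 * μ * η ^ 2)) := by positivity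
        nlinarith
    _ = _ := by ring


open Crest.Agent.R017.LBx48 (neb)
open Crest.Agent.R017.E2440 (prs mem_prs)

lemma Mu_le_nm (d0 : ℝ) (g : Eis) : Mu d0 g ≤ nm g * Real.exp (-d0) := min_le_right _ _

/-- **the bracket**: `PJm` for all `y ∈ prs δ`, `A ∣ y.1` -/
theorem pj_bd {δ e A : Eis} {y : Eis × Eis} (hδ : IsPrim δ) (hy : y ∈ prs δ) (hA : A ∈ pdiv y.1)
    (he : e ≠ 0) {Ax K V X nM H d0 T : ℝ} (hK : 0 < K) (hV : 0 < V) (hX : 0 < X) (hM : 0 < nM)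
    (hH : 0 < H) (hT : 0 ≤ T) :
    (Ax / nm y.1) ^ 2 * PJm K V (X / nm y.1) (nm (e * A)) nM (nm y.2) H (Mu d0 y.1) T ≤
      Ax ^ 2 * BRp d0 K V X nM H T (nm δ) (nm e) := by
  obtain ⟨h1, h2, h3⟩ := (mem_prs hδ).mp hy
  obtain ⟨hA1, hA2⟩ := (Mob705.mem_pdiv h1.ne_zero).mp hA
  have he1 : (1 : ℝ) ≤ nm e := one_le_nm he
  have hA3 : (1 : ℝ) ≤ nm A := one_le_nm hA1.ne_zero
  have hAy : (nm A : ℝ) ≤ nm y.1 := by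
    obtain ⟨w, hw⟩ := hA2
    have hw0 : w ≠ 0 := by
      rintro rfl
      exact h1.ne_zero (by rw [hw, mul_zero])
    have : (1 : ℝ) ≤ nm w := one_le_nm hw0
    rw [hw, nm_mul, Nat.cast_mul]
    nlinarith
  have e1 : (nm (e * A) : ℝ) = nm e * nm A := by rw [nm_mul, Nat.cast_mul]
  have e2 : (nm δ : ℝ) = nm y.1 * nm y.2 := by rw [← h3, nm_mul, Nat.cast_mul]
  have h4 := pj_real (K := K) (V := V) (X := X) (e := nm e) (A := nm A) (nM := nM) (n1 := nm y.1)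
    (n2 := nm y.2) (H := H) (Mg' := Mu d0 y.1) (T := T) (d0 := d0) hK hV hX (by linarith) hA3 hAy
    hM (one_le_nm h2.ne_zero) hH (Mu_nonneg _ _) (Mu_le_nm _ _) hT
  rw [e1, e2]
  have e3 : (Ax / nm y.1) ^ 2 = Ax ^ 2 * ((nm y.1 : ℝ) ^ 2)⁻¹ := by
    rw [div_pow, div_eq_mul_inv]
  rw [e3, mul_assoc]
  exact mul_le_mul_of_nonneg_left h4 (sq_nonneg _)

/-- **the sum over `δ`, `i`, `e`** -/
theorem reb_pr {ε : ℝ} (hε : 0 < ε) : ∃ C : ℝ, 1 ≤ C ∧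
    ∀ (P K X E0 Z V nM H T d0 : ℝ) (D : Finset Eis) (I : ℕ), 1 ≤ P → 0 < K → 0 < X → 0 < V →
    1 ≤ E0 → E0 ≤ P → D ⊆ S P → 0 < nM → 0 < H → 0 ≤ T →
    ∑ δ ∈ D, ∑ i ∈ neb δ Z V I, ∑ e ∈ S E0,
      (K ^ (-(2 / 3) : ℝ) * (V / 2 ^ i) ^ (1 / 3 : ℝ) / nm e) *
        BRp d0 K (V / 2 ^ i) X nM H T (nm δ) (nm e) ≤
      C * P ^ ε * I * RPn d0 K (max Z 0) X nM H T E0 := by
  have hε2 : 0 < ε / 2 := by linarith
  set C₂ : ℝ := 100 * (1 + (ε / 2)⁻¹) with hC₂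
  have hinv : 0 < (ε / 2)⁻¹ := by positivity
  have hC₂1 : 1 ≤ C₂ := by rw [hC₂]; linarith
  refine ⟨8 * (C₂ * C₂), by nlinarith, ?_⟩
  intro P K X E0 Z V nM H T d0 D I hP hK hX hV hE1 hE0 hD hM hH hT
  have hP0 : 0 < P := by linarith
  have hE00 : 0 < E0 := by linarith
  have hZm : 0 ≤ max Z 0 := le_max_right _ _
  set RP : ℝ := RPn d0 K (max Z 0) X nM H T E0 with hRP
  have hRP0 : 0 ≤ RP := RPn_nonneg hK.le hZm hX.le hM.le hH.le hT hE00.le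
  have hlog : ∀ Q : ℝ, 1 ≤ Q → Q ≤ P → 100 * (1 + Real.log Q) ≤ C₂ * P ^ (ε / 2) := by
    intro Q hQ1 hQ
    have h2 : Real.log Q ≤ Real.log P := Real.log_le_log (by linarith) hQ
    have h3 : Real.log P ≤ (ε / 2)⁻¹ * P ^ (ε / 2) := by
      have := Real.log_le_rpow_div hP0.le hε2
      rwa [div_eq_inv_mul] at this
    have h4 : 1 ≤ P ^ (ε / 2) := Real.one_le_rpow hP hε2.le
    rw [hC₂]
    nlinarith
  have hsD : ∑ δ ∈ D, (1 / (nm δ : ℝ)) ≤ C₂ * P ^ (ε / 2) := by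
    refine le_trans ?_ ((E2440.sum_inv_S hP).trans (hlog P hP le_rfl))
    exact Finset.sum_le_sum_of_subset_of_nonneg hD fun _ _ _ => by positivity
  have hsE : ∑ e ∈ S E0, (1 / (nm e : ℝ) + 1 / E0) ≤ 2 * (C₂ * P ^ (ε / 2)) := by
    rw [Finset.sum_add_distrib, Finset.sum_const, nsmul_eq_mul]
    have h1 := (E2440.sum_inv_S hE1).trans (hlog E0 hE1 hE0)
    have h2 : ((S E0).card : ℝ) * (1 / E0) ≤ 100 := by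
      have h3 := card_S_le' hE1
      rw [mul_one_div, div_le_iff₀ hE00]
      exact h3
    have h3 : 100 * (1 + Real.log 1) ≤ C₂ * P ^ (ε / 2) := hlog 1 le_rfl hP
    rw [Real.log_one] at h3
    linarith
  have hC20 : 0 ≤ C₂ * P ^ (ε / 2) := by positivity
  have h1 : ∀ δ ∈ D, ∑ i ∈ neb δ Z V I, ∑ e ∈ S E0,
      (K ^ (-(2 / 3) : ℝ) * (V / 2 ^ i) ^ (1 / 3 : ℝ) / nm e) *
        BRp d0 K (V / 2 ^ i) X nM H T (nm δ) (nm e) ≤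
      (8 * (C₂ * P ^ (ε / 2)) * I * RP) * (1 / (nm δ : ℝ)) := by
    intro δ hδ
    have hδS := hD hδ
    obtain ⟨-, hδp, -⟩ := (mem_S hP0.le).mp hδS
    have hδ1 : (1 : ℝ) ≤ nm δ := one_le_nm hδp.ne_zero
    have h2 : ∀ i ∈ neb δ Z V I, ∑ e ∈ S E0,
        (K ^ (-(2 / 3) : ℝ) * (V / 2 ^ i) ^ (1 / 3 : ℝ) / nm e) *
          BRp d0 K (V / 2 ^ i) X nM H T (nm δ) (nm e) ≤
        (8 * (C₂ * P ^ (ε / 2)) * RP) * (1 / (nm δ : ℝ)) := by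
      intro i hi
      unfold LBx48.neb at hi
      rw [Finset.mem_filter] at hi
      have hVi : 0 < V / 2 ^ i := by positivity
      have hZ0 : 0 < Z := by
        have : 0 < (nm δ : ℝ) ^ 2 * (V / 2 ^ i) := by positivity
        linarith [hi.2]
      have hmax : max Z 0 = Z := max_eq_left hZ0.le
      have h3 : ∀ e ∈ S E0, (K ^ (-(2 / 3) : ℝ) * (V / 2 ^ i) ^ (1 / 3 : ℝ) / nm e) *
          BRp d0 K (V / 2 ^ i) X nM H T (nm δ) (nm e) ≤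
          (4 * (1 / (nm δ : ℝ)) * RP) * (1 / (nm e : ℝ) + 1 / E0) := by
        intro e he
        obtain ⟨-, hep, -⟩ := (mem_S hE00.le).mp he
        have h4 := cell_pr (K := K) (V := V / 2 ^ i) (X := X) (Z := Z) (nM := nM) (H := H)
          (T := T) (d0 := d0) (d := nm δ) (e := nm e) (E0 := E0) hK hVi hX
          (one_le_nm hep.ne_zero) hδ1 hM hH hT hE00 hi.2
        rw [hRP, hmax]
        refine h4.trans (le_of_eq ?_)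
        ring
      refine (Finset.sum_le_sum h3).trans ?_
      rw [← Finset.mul_sum]
      calc (4 * (1 / (nm δ : ℝ)) * RP) * ∑ e ∈ S E0, (1 / (nm e : ℝ) + 1 / E0) ≤
            (4 * (1 / (nm δ : ℝ)) * RP) * (2 * (C₂ * P ^ (ε / 2))) := by gcongr
        _ = _ := by ring
    refine (Finset.sum_le_sum h2).trans ?_
    rw [Finset.sum_const, nsmul_eq_mul]
    have h5 : ((neb δ Z V I).card : ℝ) ≤ I := by
      unfold LBx48.neb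
      have := Finset.card_filter_le (Finset.range I)
        (fun i => (nm δ : ℝ) ^ 2 * (V / 2 ^ i) < 2 * Z)
      rw [Finset.card_range] at this
      exact_mod_cast this
    calc ((neb δ Z V I).card : ℝ) * ((8 * (C₂ * P ^ (ε / 2)) * RP) * (1 / (nm δ : ℝ))) ≤
          I * ((8 * (C₂ * P ^ (ε / 2)) * RP) * (1 / (nm δ : ℝ))) := by gcongr
      _ = _ := by ring
  refine (Finset.sum_le_sum h1).trans ?_
  rw [← Finset.mul_sum]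
  have e4 : P ^ ε = P ^ (ε / 2) * P ^ (ε / 2) := by
    rw [← Real.rpow_add hP0]; congr 1; ring
  calc (8 * (C₂ * P ^ (ε / 2)) * I * RP) * ∑ δ ∈ D, (1 / (nm δ : ℝ)) ≤
        (8 * (C₂ * P ^ (ε / 2)) * I * RP) * (C₂ * P ^ (ε / 2)) := by gcongr
    _ = _ := by rw [e4]; ring

end Crest.Agent.R017.PrE176
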