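import Crest.Agent.R017.RGg_64

/-!
# Row 17, C.REMg (RG), glue (helper64), part h: the numbers (SA0), (L+) of the lists in the form
of the lower bound (LB)
-/

set_option autoImplicit false

noncomputable section

open Complex
open scoped ComplexConjugate

namespace Crest.Agent.R017.RG64

open Crest.Agent.R012 Crest.Agent.R012.Eis Crest.Agent.R012.LS2 Crest.Agent.R012.Gauss880
open Crest.Agent.R012.MC (Wgt)
open Crest.Agent.R012.Weight600 (osc pw)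
open Crest.Agent.R017.CM106 Crest.Agent.R017.HP842 Crest.Agent.R017.FE47
open Crest.Agent.R017.End699 hiding pw
open Crest.Agent.R017.B770
open Crest.Agent.R017.Prov71
open Crest.Agent.R017.Rough381 (VF VF_nonneg)
open Crest.Agent.R017.Leg381
open Crest.Agent.R017.E1551 (sg tws JB yv)

/-- exponents and powers, slope form -/
lemma exp_slope_eq {V m g κ : ℝ} (hV : 0 < V) (hg : 0 < g) :
    Real.exp (4 / 3 * (m - Real.log g) + (Real.log V + κ) / 3) =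
      Real.exp (2 * m) / g ^ 2 * ((V * Real.exp κ / (Real.exp m / g) ^ 2) ^ (1 / 3 : ℝ)) := by
  have e1 : (V * Real.exp κ / (Real.exp m / g) ^ 2) ^ (1 / 3 : ℝ) =
      Real.exp ((Real.log V - 2 * m + 2 * Real.log g + κ) / 3) := by
    rw [Real.rpow_def_of_pos (by positivity)]
    congr 1
    rw [Real.log_div (by positivity) (by positivity), Real.log_mul hV.ne' (Real.exp_pos _).ne',
      Real.log_exp, Real.log_pow, Real.log_div (Real.exp_pos _).ne' hg.ne', Real.log_exp]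
    push_cast
    ring
  have e3 : Real.exp (2 * m) / g ^ 2 = Real.exp (2 * m - 2 * Real.log g) := by
    rw [Real.exp_sub]
    congr 1
    rw [mul_comm 2 (Real.log g), Real.exp_mul, Real.exp_log hg]
    norm_num
  rw [e3, e1, ← Real.exp_add]
  congr 1
  ring

/-- **the number (SA0)** of a flagged list -/
theorem sa0_list {h : ℝ → ℝ} {c : ℝ} (hpu : PU h c) (N : ℕ) {ε J : ℝ} {Jn : ℕ} (hε : 0 < ε)
    (hJ : 0 ≤ J) (hJn : (N : ℝ) * J ≤ Jn) : ∃ C r : ℝ, 1 ≤ C ∧ 0 ≤ r ∧ ∀ X : ℝ, 3 ≤ X →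
    ∀ D : Dat, D.P.OK → D.h = h → 1 ≤ D.D0 → D.J = J → D.ps₀.length ≤ N →
    ∀ (B s a Q q₀ σ'' lo g₀ : ℝ), 0 ≤ B → Real.exp r ≤ q₀ →
    ClX (ex0 D.κ) D (Ge lo) B (s + r) (a + r) (Q * q₀) σ'' →
    ∀ (q : Eis) (ps : List Pf) (Z : ℝ), IsPrim q → (nm q : ℝ) * Real.exp (LF ps) ≤ Q →
    SbL s ps D.ps₀ → LF ps ≤ Real.log X → LF ps + r ≤ σ'' →
    lo + g₀ + N * Real.log D.D0 + r ≤ LF ps → Z * Real.exp g₀ ≤ X → 0 < Z →
    Real.log Z ≤ D.v + (D.n - LF ps) + a →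
    ∀ g ∈ S X, (nm g : ℝ) ≤ Real.exp g₀ → ∀ V : ℝ, 1 ≤ V → V ≤ Z * nm g → ∀ t : ℝ,
    VF V (tws (sg (sqc q (alF D.z D.D0 D.P D.h ps)) g) t) ≤
      (C * X ^ ε * B * Ht ps ^ J * Real.exp (2 * LF ps)) / (nm g : ℝ) ^ 2 *
        ((V * Real.exp D.κ / (Real.exp (LF ps) / nm g) ^ 2) ^ (1 / 3 : ℝ)) * (1 + |t|) ^ Jn := by
  obtain ⟨C, r, hC, hr, H⟩ := sub_num0 hpu N (B₀ := 1) zero_le_one hε hJ
  refine ⟨C, r, hC, hr, ?_⟩
  intro X hX D hP hh hD0 hDJ hN B s a Q q₀ σ'' lo g₀ hB hq₀ hCl q ps Z hq hqQ hps hLX hσ hlo hZX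
    hZ0 hZ g hg hgG V hV hVZ t
  have hX0 : 0 < X := by linarith
  have hg' := (mem_S hX0.le).1 hg
  have hgp := hg'.2.1
  have hng : (0 : ℝ) < nm g := by exact_mod_cast nm_pos.2 hgp.ne_zero
  have hlg : Real.log (nm g) ≤ g₀ := by
    rw [← Real.log_exp g₀]; exact Real.log_le_log hng hgG
  have hlg0 : 0 ≤ Real.log (nm g) := by
    refine Real.log_nonneg ?_
    exact_mod_cast nm_pos.2 hgp.ne_zero
  have hV0 : 0 < V := by linarith
  have hHt := one_le_Ht ps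
  have h1 := H X hX D hP hh hD0 hDJ hN B s a Q q₀ σ'' lo hB hq₀ hCl q g ps t V hq hqQ hgp
    (by rw [Real.rpow_one]; exact hg'.1) hps hLX (fun x hx => by linarith) (by linarith) hV
    (by
      have : Z * nm g ≤ Z * Real.exp g₀ := mul_le_mul_of_nonneg_left hgG hZ0.le
      linarith)
    (by
      have h2 := Real.log_le_log hV0 hVZ
      rw [Real.log_mul hZ0.ne' hng.ne'] at h2
      linarith)
  refine h1.trans ?_
  rw [exp_slope_eq hV0 hng]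
  have hpow : (1 + |t|) ^ ((N : ℝ) * J) ≤ (1 + |t|) ^ Jn := by
    rw [← Real.rpow_natCast]
    exact Real.rpow_le_rpow_of_exponent_le (by linarith [abs_nonneg t]) hJn
  calc C * X ^ ε * B * Ht ps ^ J * (1 + |t|) ^ ((N : ℝ) * J) *
        (Real.exp (2 * LF ps) / (nm g : ℝ) ^ 2 *
          ((V * Real.exp D.κ / (Real.exp (LF ps) / nm g) ^ 2) ^ (1 / 3 : ℝ))) ≤
      C * X ^ ε * B * Ht ps ^ J * (1 + |t|) ^ Jn *
        (Real.exp (2 * LF ps) / (nm g : ℝ) ^ 2 *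
          ((V * Real.exp D.κ / (Real.exp (LF ps) / nm g) ^ 2) ^ (1 / 3 : ℝ))) := by gcongr
    _ = _ := by ring

/-- **the number (L+)** of a flagged list -/
theorem lp_list {h : ℝ → ℝ} {c : ℝ} (hpu : PU h c) (N : ℕ) {ε J : ℝ} {Jn : ℕ} (hε : 0 < ε)
    (hJ : 0 ≤ J) (hJn : (N : ℝ) * J ≤ Jn) : ∃ C r : ℝ, 1 ≤ C ∧ 0 ≤ r ∧ ∀ X : ℝ, 3 ≤ X →
    ∀ D : Dat, D.P.OK → D.h = h → 1 ≤ D.D0 → D.J = J → D.ps₀.length ≤ N →
    ∀ (B s a Q q₀ cc lo' x₁ g₀ : ℝ), 0 ≤ B → Real.exp r ≤ q₀ → 0 ≤ a → lo' ≤ 0 → 0 ≤ x₁ →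
    ClN D (exJ D.κ D.v D.n cc) B (s + r) (a + r) (Q * q₀) lo' (D.n - cc + x₁) →
    ∀ (q : Eis) (ps : List Pf) (Z : ℝ), IsPrim q → (nm q : ℝ) * Real.exp (LF ps) ≤ Q →
    SbL s ps D.ps₀ → LF ps ≤ Real.log X → D.n - cc ≤ LF ps → LF ps - g₀ + r ≤ D.n - cc + x₁ →
    0 < Z → Z ≤ X → Real.log Z ≤ D.v + (D.n - LF ps) + a →
    ∀ g ∈ S X, ∀ Bb V : ℝ, 1 ≤ Bb → Bb ≤ X → 1 ≤ V → V ≤ Z / (nm g : ℝ) ^ 2 → ∀ t : ℝ,
    JB X (sqc q (alF D.z D.D0 D.P D.h ps)) (fun U => Real.exp g₀ < nm (g * U)) g Bb V t ≤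
      (C * X ^ ε * B * Ht ps ^ J * Real.exp (N * Real.log D.D0 + a) * Real.exp (2 * LF ps)) /
        (nm g : ℝ) ^ 2 * yv (Real.exp D.κ) (Real.exp (LF ps)) g V * (1 + |t|) ^ Jn := by
  obtain ⟨C, r, hC, hr, H⟩ := large_num hpu N (B₀ := 1) (ε := ε) hJ
    (mergeList_of hpu N zero_le_one hε hJ)
  refine ⟨C, r, hC, hr, ?_⟩
  intro X hX D hP hh hD0 hDJ hN B s a Q q₀ cc lo' x₁ g₀ hB hq₀ ha hlo' hx₁ hCl q ps Z hq hqQ hps
    hLX hcc hgc hZ0 hZX hZ g hg Bb V hBb hBbX hV hVZ t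
  have hX0 : 0 < X := by linarith
  have hg' := (mem_S hX0.le).1 hg
  have hgp := hg'.2.1
  have hng : (0 : ℝ) < nm g := by exact_mod_cast nm_pos.2 hgp.ne_zero
  have hng1 : (1 : ℝ) ≤ nm g := by exact_mod_cast nm_pos.2 hgp.ne_zero
  have hV0 : 0 < V := by linarith
  have hHt := one_le_Ht ps
  have hVN' : V * (nm g : ℝ) ^ 2 ≤ Z := (le_div_iff₀ (by positivity)).1 hVZ
  have h1 := H X hX D hP hh hD0 hDJ hN B s a Q q₀ cc lo' x₁ hB hq₀ ha hlo' hx₁ hCl q g ps X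
    (Real.exp g₀) Bb V t hq hqQ hgp (by rw [Real.rpow_one]; exact hg'.1) hps hLX hcc
    hX0.le hBb (by rw [Real.rpow_one]; exact hBbX) (Real.exp_pos _)
    (by rw [Real.log_exp]; exact hgc) hV
    (by
      have : V * 1 ≤ V * (nm g : ℝ) ^ 2 := mul_le_mul_of_nonneg_left (one_le_pow₀ hng1) hV0.le
      linarith)
    (by
      have h2 := Real.log_le_log (by positivity) hVN'
      rw [Real.log_mul hV0.ne' (by positivity), Real.log_pow] at h2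
      push_cast at h2
      linarith)
  refine h1.trans ?_
  have h2 : 0 ≤ yv (Real.exp D.κ) (Real.exp (LF ps)) g V := by unfold yv; positivity
  have hpow : (1 + |t|) ^ ((N : ℝ) * J) ≤ (1 + |t|) ^ Jn := by
    rw [← Real.rpow_natCast]
    exact Real.rpow_le_rpow_of_exponent_le (by linarith [abs_nonneg t]) hJn
  gcongr

end Crest.Agent.R017.RG64
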