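import Crest.Agent.R017.AL_813

/-!
# Row 17, T.7 (helper176): size hypotheses for the difference of two flagged lists

`xd_hyps` : the analogue of helper813's `al_hyps` for
`x n = sqc q (alF ps) n - ζ * sqc q (alF ps') n`, `LF ps' = LF ps`, `‖ζ‖ ≤ 1`.
-/

set_option autoImplicit false

noncomputable section

open Complex

namespace Crest.Agent.R017.RX5f176

open Crest.Agent.R012 Crest.Agent.R012.Eis
open Crest.Agent.R012.LS2 (S mem_S)
open Crest.Agent.R012.Div277 (tau dvs mem_dvs isPrim_of_mem_dvs dvs_zero tau_le_rpow tau_le_of_dvd)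
open Crest.Agent.R012.PSer47 (IsChar)
open Crest.Agent.R017.CM106 Crest.Agent.R017.HP842 Crest.Agent.R017.FE47
open Crest.Agent.R017.B770
open Crest.Agent.R017.TP320 (conv mul_div_of_mem)
open Crest.Agent.R017.Prov71
open Crest.Agent.R017.Leg381
open Crest.Agent.R017.HSep813 (gw norm_gw_le)

/-- **all size hypotheses of `rg_absorb`** for the difference of two lists of the same length -/
theorem xd_hyps {h : ℝ → ℝ} {c : ℝ} (hpu : PU h c) (N : ℕ) : ∃ R C : ℝ, 0 ≤ R ∧ 1 ≤ C ∧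
    ∀ (z D0 : ℝ) (P : DPar), P.OK → ∀ (q : Eis) (ps ps' : List Pf) (ζ : ℂ), ps.length ≤ N →
      ps'.length ≤ N → LF ps' = LF ps → ‖ζ‖ ≤ 1 → ∀ Y : ℝ, C ≤ Y →
      Real.exp R * Real.exp (LF ps) ≤ Y →
      (∀ n, sqc q (alF z D0 P h ps) n - ζ * sqc q (alF z D0 P h ps') n ≠ 0 → n ∈ S Y) ∧
      (∀ n, sqc q (alF z D0 P h ps) n - ζ * sqc q (alF z D0 P h ps') n ≠ 0 →
        |Real.log (nm n) - Real.log (Real.exp (LF ps))| ≤ R) ∧
      (∀ a : ℝ, 4 ≤ a → ∑ n ∈ S Y, ‖sqc q (alF z D0 P h ps) n -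
        ζ * sqc q (alF z D0 P h ps') n‖ ≤ Y ^ a) ∧
      FS (fun n => sqc q (alF z D0 P h ps) n - ζ * sqc q (alF z D0 P h ps') n) := by
  obtain ⟨R, C, hR, hC, H⟩ := AL813.al_hyps hpu N
  refine ⟨R, max C 2, hR, hC.trans (le_max_left _ _), ?_⟩
  intro z D0 P hP q ps ps' ζ h1 h2 hL hζ Y hCY hY
  obtain ⟨a1, a2, a3, a4⟩ := H z D0 P hP q ps h1 Y ((le_max_left _ _).trans hCY) hY
  obtain ⟨b1, b2, b3, b4⟩ := H z D0 P hP q ps' h2 Y ((le_max_left _ _).trans hCY) (by rw [hL]; exact hY)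
  have hY2 : 2 ≤ Y := (le_max_right _ _).trans hCY
  have key : ∀ n, sqc q (alF z D0 P h ps) n - ζ * sqc q (alF z D0 P h ps') n ≠ 0 →
      sqc q (alF z D0 P h ps) n ≠ 0 ∨ sqc q (alF z D0 P h ps') n ≠ 0 := by
    intro n hn
    by_contra hcon
    rw [not_or, not_not, not_not] at hcon
    rw [hcon.1, hcon.2, mul_zero, sub_zero] at hn
    exact hn rfl
  refine ⟨fun n hn => ?_, fun n hn => ?_, fun a ha => ?_, ?_⟩
  · rcases key n hn with h | h
    · exact a1 n h
    · exact b1 n h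
  · rcases key n hn with h | h
    · exact a2 n h
    · have := b2 n h
      rwa [hL] at this
  · have hY0 : (0 : ℝ) < Y := by linarith
    calc ∑ n ∈ S Y, ‖sqc q (alF z D0 P h ps) n - ζ * sqc q (alF z D0 P h ps') n‖
        ≤ ∑ n ∈ S Y, (‖sqc q (alF z D0 P h ps) n‖ + ‖sqc q (alF z D0 P h ps') n‖) := by
          refine Finset.sum_le_sum fun n _ => (norm_sub_le _ _).trans ?_
          rw [norm_mul]
          have := mul_le_mul_of_nonneg_right hζ (norm_nonneg (sqc q (alF z D0 P h ps') n))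
          rw [one_mul] at this
          linarith
      _ = ∑ n ∈ S Y, ‖sqc q (alF z D0 P h ps) n‖ + ∑ n ∈ S Y, ‖sqc q (alF z D0 P h ps') n‖ :=
          Finset.sum_add_distrib
      _ ≤ Y ^ (3 : ℝ) + Y ^ (3 : ℝ) := add_le_add (a3 3 le_rfl) (b3 3 le_rfl)
      _ ≤ Y * Y ^ (3 : ℝ) := by
          have : 0 ≤ Y ^ (3 : ℝ) := by positivity
          nlinarith
      _ = Y ^ (4 : ℝ) := by
          rw [show (4 : ℝ) = 1 + 3 by norm_num, Real.rpow_add hY0, Real.rpow_one]
      _ ≤ Y ^ a := Real.rpow_le_rpow_of_exponent_le (by linarith) ha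
  · refine ⟨(a4.fin.union b4.fin).subset fun n hn => ?_, fun n hn => ?_⟩
    · rcases key n hn with h | h
      · exact Or.inl h
      · exact Or.inr h
    · rcases key n hn with h | h
      · exact a4.prim n h
      · exact b4.prim n h

end Crest.Agent.R017.RX5f176
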