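import Crest.Agent.R017.RX5d_298
import Crest.Agent.R017.RX5f_176
import Crest.Agent.R017.RGh_64

/-!
# Row 17, T.7 (RG rule, exceptional class), part e (helper298): the truncated lists (NT step)

* `nt_step_x` : helper64's `nt_step` for the kernel `Dk`, through the difference of the list and
  of the replaced list
* `x_sa0`, `x_lp` : the numbers (SA0), (L+) of the difference in the form of the lower bound
-/

set_option autoImplicit false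
set_option maxHeartbeats 1600000

noncomputable section

open Complex
open scoped ComplexConjugate

namespace Crest.Agent.R017.RX298

open Crest.Agent.R012 Crest.Agent.R012.Eis Crest.Agent.R012.LS2 Crest.Agent.R012.Gauss880
open Crest.Agent.R012.Weight600 (osc pw)
open Crest.Agent.R017.CM106 Crest.Agent.R017.HP842 Crest.Agent.R017.FE47
open Crest.Agent.R017.End699 hiding pw
open Crest.Agent.R017.B770
open Crest.Agent.R017.Prov71
open Crest.Agent.R017.Rough381 (VF VF_nonneg)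
open Crest.Agent.R017.Leg381
open Crest.Agent.R017.E1551 (sg tws yv JB)
open Crest.Agent.R017.RG64
open Crest.Agent.R017.LegK545 (VK SFK JBK VK_nonneg)
open Crest.Agent.R017.RGK545 (ClXK ClK ClNK)
open Crest.Agent.R017.PX764 (Dk)

/-- support, window and `L¹` norm of the differences -/
def XDp (h : ℝ → ℝ) (N : ℕ) (R C : ℝ) : Prop :=
  ∀ (z D0 : ℝ) (P : DPar), P.OK → ∀ (q : Eis) (ps ps' : List Pf) (ζ : ℂ), ps.length ≤ N →
      ps'.length ≤ N → LF ps' = LF ps → ‖ζ‖ ≤ 1 → ∀ Y : ℝ, C ≤ Y →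
      Real.exp R * Real.exp (LF ps) ≤ Y →
      (∀ n, sqc q (alF z D0 P h ps) n - ζ * sqc q (alF z D0 P h ps') n ≠ 0 → n ∈ S Y) ∧
      (∀ n, sqc q (alF z D0 P h ps) n - ζ * sqc q (alF z D0 P h ps') n ≠ 0 →
        |Real.log (nm n) - Real.log (Real.exp (LF ps))| ≤ R) ∧
      (∀ a : ℝ, 4 ≤ a → ∑ n ∈ S Y, ‖sqc q (alF z D0 P h ps) n -
        ζ * sqc q (alF z D0 P h ps') n‖ ≤ Y ^ a) ∧
      FS (fun n => sqc q (alF z D0 P h ps) n - ζ * sqc q (alF z D0 P h ps') n)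

lemma exists_XDp {h : ℝ → ℝ} {c : ℝ} (hpu : PU h c) (N : ℕ) :
    ∃ R C : ℝ, 0 ≤ R ∧ 1 ≤ C ∧ XDp h N R C := RX5f176.xd_hyps hpu N

/-- the size of the bias from the exponents -/
lemma bias_exp {g₀ D0 m d₀ L κ N1 bb : ℝ} (hD0 : 1 ≤ D0) (hN1 : 0 < N1)
    (hN : N1 ≤ Real.exp L)
    (hb : g₀ + 4 * Real.log D0 - d₀ + (m + L - κ) / 3 ≤ bb) :
    Real.exp g₀ * D0 ^ 4 * Real.exp (m / 3 - d₀) * (N1 / Real.exp κ) ^ (1 / 3 : ℝ) ≤
      Real.exp bb := by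
  have hD00 : 0 < D0 := by linarith
  have e1 : D0 ^ 4 = Real.exp (4 * Real.log D0) := by
    have : (4 : ℝ) * Real.log D0 = ((4 : ℕ) : ℝ) * Real.log D0 := by norm_num
    rw [this, Real.exp_nat_mul, Real.exp_log hD00]
  have e2 : (N1 / Real.exp κ) ^ (1 / 3 : ℝ) ≤ Real.exp ((L - κ) / 3) := by
    calc (N1 / Real.exp κ) ^ (1 / 3 : ℝ) ≤ (Real.exp L / Real.exp κ) ^ (1 / 3 : ℝ) :=
          Real.rpow_le_rpow (by positivity) (by gcongr) (by norm_num)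
      _ = Real.exp ((L - κ) / 3) := by
          rw [← Real.exp_sub, ← Real.exp_mul]; congr 1; ring
  calc Real.exp g₀ * D0 ^ 4 * Real.exp (m / 3 - d₀) * (N1 / Real.exp κ) ^ (1 / 3 : ℝ) ≤
        Real.exp g₀ * Real.exp (4 * Real.log D0) * Real.exp (m / 3 - d₀) *
          Real.exp ((L - κ) / 3) := by rw [e1]; gcongr
    _ = Real.exp (g₀ + 4 * Real.log D0 + (m / 3 - d₀) + (L - κ) / 3) := by
        rw [Real.exp_add, Real.exp_add, Real.exp_add]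
    _ ≤ _ := Real.exp_le_exp.2 (by linarith)

lemma arith_a {El B Br Eb x : ℝ} (h1 : 0 ≤ El) (h2 : 0 ≤ B) (h3 : 0 ≤ Br) (h4 : 0 ≤ Eb)
    (h5 : 0 ≤ x) : El + (B + Br + Eb) + ((x + x) + Eb) + 1 ≤
      2 * (2 * (El + Br + Eb + x + 1 + B)) := by linarith

lemma arith_b {a b c A : ℝ} (hb : 0 ≤ b) (hA : 0 ≤ A) :
    a * (2 * b) * A + c * A ≤ (2 * ((a + 1) * b) + c) * A := by
  nlinarith [mul_nonneg hb hA]

lemma arith_c {El Ms Ml HE u v w' c : ℝ} (h1 : El ≤ c * u * HE) (h2 : Ms ≤ c * v * HE)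
    (h3 : Ml ≤ c * w' * HE) (h4 : 1 ≤ c * 1 * HE) :
    El + Ms + Ml + 1 ≤ c * (u + v + w' + 1) * HE := by
  have : c * (u + v + w' + 1) * HE = c * u * HE + c * v * HE + c * w' * HE + c * 1 * HE := by ring
  linarith

/-- **the truncated lists, exceptional class.** -/
theorem nt_step_x {h : ℝ → ℝ} {c : ℝ} (hpu : PU h c) (N : ℕ) {w : ℝ → ℝ} (hab : Abs4 w)
    {J e₃ ε R Ca c₁ B₀ : ℝ} {Jn Aw : ℕ} (hJ : 6 ≤ J) (he₃ : 0 < e₃) (hε : 0 < ε) (hR : 0 ≤ R)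
    (hJn : (N : ℝ) * J ≤ Jn) (hJ12 : 12 ≤ Jn) (hAw : Jn + 2 ≤ Aw) (hAL : XDp h N R Ca)
    (hc₁ : 0 ≤ c₁) (hB₀ : 1 ≤ B₀) :
    ∃ Cw C η₀ r X₁ : ℝ, 0 ≤ Cw ∧ 1 ≤ C ∧ 0 < η₀ ∧ η₀ ≤ 1 / 2 ∧ 0 ≤ r ∧ ∀ X : ℝ, 3 ≤ X → X₁ ≤ X →
    ∀ D : Dat, DX h N J B₀ X D → D.z = D.D0 →
    0 ≤ D.κ → ∀ (N0 N1 : ℝ → ℕ) (ρ : ℝ → ℕ → ℝ), Cut N0 N1 ρ c₁ →
    ∀ (B Br Bl El bb s a α Q q₀ e cc x₁ lo lo' σ₀ σ' g₀ Dd d₀ : ℝ), 0 ≤ B → 0 ≤ Br → 0 ≤ Bl →
    0 ≤ El → 0 ≤ s → 0 ≤ a → 0 ≤ d₀ → Real.exp r ≤ q₀ → e₃ * Real.log X + c₁ + r ≤ α →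
    e + (N + 1) * r ≤ Real.log D.D0 → lo' ≤ 0 → 0 ≤ x₁ → 0 ≤ g₀ → Real.exp g₀ ≤ Dd →
    D.n - cc ≤ σ₀ → lo + g₀ + N * Real.log D.D0 + r ≤ σ₀ → Q ≤ X ^ B₀ →
    g₀ + 4 * Real.log D.D0 - d₀ + (D.v + D.n + a + e₃ * Real.log X + c₁ - D.κ) / 3 ≤ bb →
    (∀ ps : List Pf, SbL s ps D.ps₀ → LF ps ≤ σ' → σ₀ ≤ LF ps →
      LF ps + R ≤ Real.log X ∧ D.v + (D.n - LF ps) + (a + α) + g₀ ≤ Real.log X ∧
      0 ≤ D.v + (D.n - LF ps) + a ∧ 2 * LF ps - D.κ ≤ D.v + (D.n - LF ps) + a ∧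
      LF ps - g₀ + r ≤ D.n - cc + x₁ ∧ Lg2 d₀ ps) →
    ClK Dk D (Ge lo) B (s + r) (a + α) (Q * q₀) (σ' - e - N * r) →
    ClXK Dk (ex0 D.κ) (Dr d₀ D) (Ge lo) Br (2 * s + r) (a + α) (Q * q₀) (σ' + r) →
    ClNK Dk D (exJ D.κ D.v D.n cc) Bl (s + r) (a + α) (Q * q₀) lo' (D.n - cc + x₁) →
    ClNK Dk (Dr d₀ D) (exJ D.κ D.v D.n cc) Bl (2 * s + r) (a + α) (Q * q₀) lo'
      (D.n - cc + x₁) →
    (∀ (q : Eis) (ps : List Pf), IsPrim q → (nm q : ℝ) * Real.exp (LF ps) ≤ Q → NT ps →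
      SbL s ps D.ps₀ → σ₀ ≤ LF ps → LF ps ≤ σ' →
      LBn w Cw η₀ Aw (Real.exp D.κ) (Real.exp (LF ps)) X Dd
        (N1 (D.v + (D.n - LF ps) + a + e₃ * Real.log X))
        (ρ (D.v + (D.n - LF ps) + a + e₃ * Real.log X)) R Jn
        (xs q D.z D.D0 D.P D.h d₀ ps) (El * Ht ps ^ J * Real.exp (2 * LF ps))) →
    ClK Dk D (NTGe σ₀) (C * X ^ (2 * ε) * (El + Br + Real.exp bb +
      Bl * Real.exp (N * Real.log D.D0 + a + α) + 1) + C * X ^ (2 * ε) * B) s a Q σ' := by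
  have hJ0 : (0 : ℝ) ≤ J := by linarith
  have hJ12' : (12 : ℝ) ≤ Jn := by exact_mod_cast hJ12
  obtain ⟨Cw, C₀, η₁, hCw, hC₀, hη₁, -, hab'⟩ := hab Jn Aw R 4 e₃ ε hAw hR
    (by positivity) he₃ hε
  obtain ⟨η₀, hη₀e⟩ : ∃ x : ℝ, x = min η₁ (1 / 2) := ⟨_, rfl⟩
  have hη₀ : 0 < η₀ := by rw [hη₀e]; exact lt_min hη₁ (by norm_num)
  have hη₀1 : η₀ ≤ 1 / 2 := by rw [hη₀e]; exact min_le_right _ _
  have hη₀2 : η₀ ≤ η₁ := by rw [hη₀e]; exact min_le_left _ _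
  obtain ⟨C₁, r₁, hC₁, hr₁, hsub⟩ := x_numS hpu N hB₀ hε hJ hJ12' hJn
  obtain ⟨C₂, r₂, hC₂, hr₂, hlar⟩ := x_numL hpu N hB₀ hε hJ hJ12' hJn
  obtain ⟨C₃, hC₃, hback⟩ := x_back hpu N hB₀ hε hJ
  set r := max r₁ r₂ with hr
  have hr1 : r₁ ≤ r := le_max_left _ _
  have hr2 : r₂ ≤ r := le_max_right _ _
  have hr0 : 0 ≤ r := hr₁.trans hr1
  set H : ℝ := (η₀⁻¹) ^ (2 * Jn + 2) with hH
  have hH0 : 0 ≤ H := by positivity
  refine ⟨Cw, 2 * ((3 * (C₀ * H) + 1) * (2 * (C₁ * C₂))) + C₃, η₀, r, Ca, hCw, ?_, hη₀, hη₀1,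
    hr0, ?_⟩
  · have h1 : 0 ≤ 2 * ((3 * (C₀ * H) + 1) * (2 * (C₁ * C₂))) := by positivity
    linarith
  intro X hX hXa D hD hz hκ N0 N1 ρ hcut B Br Bl El bb s a α Q q₀ e cc x₁ lo lo' σ₀ σ' g₀
    Dd d₀ hB hBr hBl hEl hs ha hd₀ hq₀ hα he hlo' hx₁ hg₀ hDd hcc hlo hQX hbb hsize hCl hClr hClN
    hClNr hLB
  intro q ps k hq hqQ hps₁ hps hL hk hk'
  obtain ⟨hnt, hσ₀⟩ := hps₁
  have hX1 : (1 : ℝ) ≤ X := by linarith
  have hX0 : 0 < X := by linarith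
  have hlX : 0 ≤ Real.log X := Real.log_nonneg hX1
  have hD0 := hD.D0
  have hlD : 0 ≤ Real.log D.D0 := Real.log_nonneg hD0
  have hN0 : (0 : ℝ) ≤ N := Nat.cast_nonneg _
  have hNlD : 0 ≤ (N : ℝ) * Real.log D.D0 := mul_nonneg hN0 hlD
  have hlen : ps.length ≤ N := hps.length ▸ hD.len
  obtain ⟨z1, z2, z3, z4, z5, z6⟩ := hsize ps hps hL hσ₀
  have hz0 := hps.z_nonneg
  have hHt := one_le_Ht ps
  have hm00 : 0 ≤ LF ps := LF_nonneg hz0
  have hnq : (0 : ℝ) < nm q := by exact_mod_cast nm_pos.2 hq.ne_zero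
  have hQ0 : 0 ≤ Q := (by positivity : (0 : ℝ) ≤ nm q * Real.exp (LF ps)).trans hqQ
  have hqX : (nm q : ℝ) ≤ X ^ B₀ := by
    have h1 : (nm q : ℝ) * 1 ≤ nm q * Real.exp (LF ps) :=
      mul_le_mul_of_nonneg_left (Real.one_le_exp hm00) hnq.le
    linarith
  have hq₀1 : 1 ≤ q₀ := (Real.one_le_exp hr0).trans hq₀
  have hQQ : Q ≤ Q * q₀ := le_mul_of_one_le_right hQ0 hq₀1
  set m := LF ps with hm
  have hm0 : 0 ≤ m := hm00
  have hQX' : QX B₀ X s Q d₀ D q ps := ⟨hq, hqX, hqQ, hps, z6, by linarith, hd₀, hs⟩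
  set L : ℝ := D.v + (D.n - m) + a + e₃ * Real.log X with hLd
  have he3X : 0 ≤ e₃ * Real.log X := by positivity
  have hL0 : 0 ≤ L := by rw [hLd]; linarith
  have hkL : k ≤ L := by rw [hLd]; linarith
  have hLα : L + c₁ + r ≤ D.v + (D.n - m) + (a + α) := by rw [hLd]; linarith
  have hα0 : 0 ≤ α := by linarith
  set al := xs q D.z D.D0 D.P D.h d₀ ps with hal
  obtain ⟨hsup, hwin, hL1, _⟩ := hAL D.z D.D0 D.P hD.ok q ps (rp d₀ ps) (zt d₀ ps) hlen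
    (by rw [rp_length]; exact hlen) (LF_rp d₀ ps) (norm_zt d₀ ps).le X hXa (by
    rw [← Real.exp_add, ← Real.exp_log hX0]; exact Real.exp_le_exp.2 (by linarith))
  rw [← hD.hh] at hsup hwin hL1
  have hN1 : 9 * (N1 L : ℝ) ≤ Real.exp (L + c₁) := hcut.hi L hL0
  have hN0L : Real.exp L ≤ N0 L := hcut.lo L hL0
  have hN01 : (N0 L : ℝ) ≤ N1 L := by exact_mod_cast hcut.le L hL0
  have hN1p : (0 : ℝ) < N1 L := by
    have := Real.exp_pos L
    linarith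
  have hN1e : (N1 L : ℝ) ≤ Real.exp (L + c₁) := by linarith
  have hexpX : Real.exp (L + c₁) ≤ X := by
    rw [← Real.exp_log hX0]; exact Real.exp_le_exp.2 (by linarith)
  have hemX : Real.exp m ≤ X := by
    rw [← Real.exp_log hX0]; exact Real.exp_le_exp.2 (by linarith)
  have hXa1 : X ≤ X ^ (4 : ℝ) := by
    calc X = X ^ (1 : ℝ) := (Real.rpow_one X).symm
      _ ≤ X ^ (4 : ℝ) := Real.rpow_le_rpow_of_exponent_le hX1 (by norm_num)
  have hXB : X ≤ X ^ B₀ := by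
    calc X = X ^ (1 : ℝ) := (Real.rpow_one X).symm
      _ ≤ X ^ B₀ := Real.rpow_le_rpow_of_exponent_le hX1 hB₀
  -- the numbers
  set HJ : ℝ := Ht ps ^ J with hHJ
  have hHJ1 : 1 ≤ HJ := Real.one_le_rpow hHt hJ0
  set Em : ℝ := Real.exp (2 * m) with hEm
  have hEm1 : 1 ≤ Em := Real.one_le_exp (by linarith)
  set Eb : ℝ := Real.exp bb with hEb
  have hEb0 : 0 < Eb := Real.exp_pos _
  set Ms : ℝ := C₁ * X ^ ε * (B + Br + Eb) * HJ * Em with hMs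
  set Ml : ℝ := C₂ * X ^ ε * ((Bl + Bl) * Real.exp (N * Real.log D.D0 + (a + α - r)) + Eb) *
    HJ * Em with hMl
  have hMs0 : 0 ≤ Ms := by positivity
  have hMl0 : 0 ≤ Ml := by positivity
  have hbias := bias_exp (g₀ := g₀) (D0 := D.D0) (m := m) (d₀ := d₀) (L := L + c₁) (κ := D.κ)
    (N1 := (N1 L : ℝ)) (bb := bb) hD0 hN1p hN1e (by rw [hLd]; linarith)
  have key := hab' (Real.exp D.κ) (Real.exp m) X η₀ Dd (Real.exp g₀) (N0 L) (N1 L) (ρ L)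
    (by
      calc X ^ (-(4 : ℝ)) ≤ 1 := Real.rpow_le_one_of_one_le_of_nonpos hX1 (by norm_num)
        _ ≤ Real.exp D.κ := Real.one_le_exp hκ)
    (Real.exp_pos _) (hemX.trans hXa1) hX1 hη₀ hη₀2
    ((Real.one_le_exp hg₀).trans hDd) hDd
    (by
      have h1 : (1 : ℝ) ≤ N0 L := (Real.one_le_exp hL0).trans hN0L
      exact_mod_cast h1)
    (hcut.le L hL0)
    (by
      have h1 : (N1 L : ℝ) ≤ 9 * N1 L := by
        have : (0 : ℝ) ≤ N1 L := Nat.cast_nonneg _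
        linarith
      exact h1.trans (hN1.trans (hexpX.trans hXa1)))
    (hcut.anti L hL0) (hcut.one L hL0) (hcut.zero L hL0)
    (by
      have e1 : Real.exp m ^ 2 * X ^ e₃ = Real.exp (2 * m + e₃ * Real.log X) := by
        rw [Real.exp_add, Real.rpow_def_of_pos hX0, mul_comm (Real.log X), ← Real.exp_nat_mul]
        norm_num
      rw [e1]
      calc Real.exp (2 * m + e₃ * Real.log X) ≤ Real.exp (D.κ + L) :=
            Real.exp_le_exp.2 (by rw [hLd]; linarith)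
        _ = Real.exp D.κ * Real.exp L := Real.exp_add _ _
        _ ≤ Real.exp D.κ * N0 L := mul_le_mul_of_nonneg_left hN0L (Real.exp_pos _).le)
    al
    hsup hwin (hL1 4 le_rfl)
    (El * HJ * Em) Ms Ml (by positivity) hMs0 hMl0
    (hLB q ps hq hqQ hnt hps hσ₀ hL)
    (by
      intro g hg hg1 hgG V hV hVN t
      have hg' := (mem_S hX0.le).1 hg
      have hgp := hg'.2.1
      have hng : (0 : ℝ) < nm g := by exact_mod_cast nm_pos.2 hgp.ne_zero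
      have hlg : Real.log (nm g) ≤ g₀ := by
        rw [← Real.log_exp g₀]; exact Real.log_le_log hng hgG
      have hV0 : 0 < V := by linarith
      have hlV : Real.log V ≤ L + c₁ + Real.log (nm g) := by
        have h1 : V ≤ Real.exp (L + c₁) * nm g :=
          hVN.trans (mul_le_mul_of_nonneg_right hN1 hng.le)
        have h2 := Real.log_le_log hV0 h1
        rwa [Real.log_mul (Real.exp_pos _).ne' hng.ne', Real.log_exp] at h2
      have h1 := hsub X hX D hD B Br Eb s (a + α - r₁) Q q₀ (σ' - e - N * r) (σ' + r) lo d₀ hB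
        hBr ((Real.exp_le_exp.2 hr1).trans hq₀)
        (hCl.mono le_rfl (by linarith) (by linarith) le_rfl le_rfl)
        (hClr.mono le_rfl (by linarith) (by linarith) le_rfl le_rfl) q ps hQX' hnt
        (by
          rw [hz, min_self]
          linarith) (by rw [hz]; exact hD0) (by linarith)
        g t V (N1 L) (Real.exp g₀) hgp hg1 (hg'.1.trans hXB) hgG (by linarith) hV (by
          rw [← Real.exp_log hX0, ← Real.exp_log hV0]
          exact Real.exp_le_exp.2 (by linarith)) hN1p hVN (by linarith) hbias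
      rw [Real.rpow_natCast] at h1
      exact h1)
    (by
      intro g hg Bu V hBu hBuX hV hVN t
      have hg' := (mem_S hX0.le).1 hg
      have hgp := hg'.2.1
      have hng : (0 : ℝ) < nm g := by exact_mod_cast nm_pos.2 hgp.ne_zero
      have hng1 : (1 : ℝ) ≤ nm g := by exact_mod_cast nm_pos.2 hgp.ne_zero
      have hV0 : 0 < V := by linarith
      have hVN' : V * (nm g : ℝ) ^ 2 ≤ Real.exp (L + c₁) := by
        have h1 := (le_div_iff₀ (by positivity)).1 hVN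
        exact h1.trans hN1
      have hlV : Real.log V + 2 * Real.log (nm g) ≤ L + c₁ := by
        have h2 := Real.log_le_log (by positivity) hVN'
        rw [Real.log_mul hV0.ne' (by positivity), Real.log_pow, Real.log_exp] at h2
        push_cast at h2
        linarith
      have hVX : V ≤ X := by
        have h1 : V * 1 ≤ V * (nm g : ℝ) ^ 2 :=
          mul_le_mul_of_nonneg_left (one_le_pow₀ hng1) hV0.le
        linarith
      have hb1 : D.D0 ^ 4 * Real.exp (m / 3 - d₀) * ((N1 L : ℝ) / Real.exp D.κ) ^ (1 / 3 : ℝ) ≤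
          Eb := by
        refine le_trans ?_ hbias
        have h1 : (1 : ℝ) ≤ Real.exp g₀ := Real.one_le_exp hg₀
        have h2 : 0 ≤ D.D0 ^ 4 * Real.exp (m / 3 - d₀) *
          ((N1 L : ℝ) / Real.exp D.κ) ^ (1 / 3 : ℝ) := by positivity
        calc _ = 1 * (D.D0 ^ 4 * Real.exp (m / 3 - d₀) *
              ((N1 L : ℝ) / Real.exp D.κ) ^ (1 / 3 : ℝ)) := (one_mul _).symm
          _ ≤ Real.exp g₀ * (D.D0 ^ 4 * Real.exp (m / 3 - d₀) *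
              ((N1 L : ℝ) / Real.exp D.κ) ^ (1 / 3 : ℝ)) := mul_le_mul_of_nonneg_right h1 h2
          _ = _ := by ring
      have h1 := hlar X hX D hD Bl Bl Eb s (a + α - r) Q q₀ cc lo' x₁ d₀ hBl hBl
        ((Real.exp_le_exp.2 hr2).trans hq₀) (by linarith) hlo' hx₁
        (fun q' ps' k' b1 b2 b3 b4 b5 b6 b7 b8 =>
          hClN q' ps' k' b1 b2 b3 (b4.mono (by linarith)) b5 b6 b7 (by linarith))
        (fun q' ps' k' b1 b2 b3 b4 b5 b6 b7 b8 =>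
          hClNr q' ps' k' b1 b2 b3 (b4.mono (by linarith)) b5 b6 b7 (by linarith)) q ps hQX'
        (by linarith) g X (Real.exp g₀) Bu t V (N1 L) hgp (hg'.1.trans hXB) hX0.le hBu
        (hBuX.trans hXB) (Real.exp_pos _) (by rw [Real.log_exp]; linarith) hV hVX hN1p hVN
        (by linarith) hb1
      rw [Real.rpow_natCast] at h1
      exact h1)
  -- conclusion
  have hρ0 : ∀ n, 0 ≤ ρ L n := fun n => by
    have h4 := hcut.anti L hL0 (show n ≤ max n (N1 L + 1) from le_max_left _ _)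
    rwa [hcut.zero L hL0 (max n (N1 L + 1)) (lt_of_lt_of_le (Nat.lt_succ_self _)
      (le_max_right _ _))] at h4
  have hfin := VF_le_of_Wn (V := Real.exp k) (Real.exp_pos D.κ) (Real.exp_pos m)
    (Real.one_le_exp hk) hρ0 (hcut.one L hL0) ((Real.exp_le_exp.2 hkL).trans hN0L)
    (hcut.le L hL0) key
  have hM : max 1 ((Real.exp k * Real.exp D.κ / Real.exp m ^ 2) ^ (1 / 3 : ℝ)) * Em =
      Real.exp (fl D.κ k m) := by
    have h1 := exp_max_eq (V := Real.exp k) (m := m) (g := 1) (κ := D.κ) (Real.exp_pos _) one_pos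
    rw [Real.log_one, Real.log_exp, mul_zero, sub_zero, add_zero, one_pow, div_one, div_one]
      at h1
    rw [mul_comm, hEm, ← h1]
    rfl
  have hb2 : D.D0 ^ 4 * Real.exp (m / 3 - d₀) * (Real.exp k / Real.exp D.κ) ^ (1 / 3 : ℝ) ≤
      Eb := by
    have h1 := bias_exp (g₀ := 0) (D0 := D.D0) (m := m) (d₀ := d₀) (L := L + c₁) (κ := D.κ)
      (N1 := Real.exp k) (bb := bb) hD0 (Real.exp_pos _) (Real.exp_le_exp.2 (by linarith))
      (by rw [hLd]; linarith)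
    rwa [Real.exp_zero, one_mul] at h1
  have hbk := hback X hX D hD Br Eb s a Q (σ' + r) lo d₀ hBr
    (hClr.mono le_rfl (by linarith) (by linarith) hQQ le_rfl) q ps hQX' (by linarith)
    (by linarith [hNlD]) k hk (by linarith) hk' hb2
  refine hbk.trans ?_
  rw [hD.J]
  set Mx := max 1 ((Real.exp k * Real.exp D.κ / Real.exp m ^ 2) ^ (1 / 3 : ℝ)) with hMx
  have hMx0 : 0 ≤ Mx := le_trans zero_le_one (le_max_left _ _)
  have hXε : 1 ≤ X ^ ε := Real.one_le_rpow hX1 hε.le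
  set Ex : ℝ := Real.exp (N * Real.log D.D0 + a + α) with hEx
  have hEx' : Real.exp (N * Real.log D.D0 + (a + α - r)) ≤ Ex :=
    Real.exp_le_exp.2 (by linarith)
  have hEx0 : 0 < Ex := Real.exp_pos _
  set T : ℝ := El + Br + Eb + Bl * Ex + 1 + B with hT
  have hBlE : 0 ≤ Bl * Ex := by positivity
  have hsum : El * HJ * Em + Ms + Ml + 1 ≤ (2 * (C₁ * C₂)) * X ^ ε * (2 * T) * (HJ * Em) := by
    have hHE : 1 ≤ HJ * Em := one_le_mul_of_one_le_of_one_le hHJ1 hEm1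
    have hHE0 : 0 ≤ HJ * Em := by linarith
    have hCC : 1 ≤ C₁ * C₂ := one_le_mul_of_one_le_of_one_le hC₁ hC₂
    have c1 : 1 ≤ (C₁ * C₂) * X ^ ε := one_le_mul_of_one_le_of_one_le hCC hXε
    have hc0 : 0 ≤ (C₁ * C₂) * X ^ ε := by linarith
    have d1 : El * HJ * Em ≤ (C₁ * C₂) * X ^ ε * El * (HJ * Em) := by
      calc El * HJ * Em = 1 * (El * (HJ * Em)) := by ring
        _ ≤ ((C₁ * C₂) * X ^ ε) * (El * (HJ * Em)) :=
            mul_le_mul_of_nonneg_right c1 (by positivity)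
        _ = _ := by ring
    have d2 : Ms ≤ (C₁ * C₂) * X ^ ε * (B + Br + Eb) * (HJ * Em) := by
      rw [hMs]
      calc C₁ * X ^ ε * (B + Br + Eb) * HJ * Em =
            C₁ * 1 * (X ^ ε * (B + Br + Eb) * (HJ * Em)) := by ring
        _ ≤ C₁ * C₂ * (X ^ ε * (B + Br + Eb) * (HJ * Em)) :=
            mul_le_mul_of_nonneg_right (mul_le_mul_of_nonneg_left hC₂ (by linarith))
              (by positivity)
        _ = _ := by ring
    have d3 : Ml ≤ (C₁ * C₂) * X ^ ε * ((Bl + Bl) * Ex + Eb) * (HJ * Em) := by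
      rw [hMl]
      calc C₂ * X ^ ε * ((Bl + Bl) * Real.exp (N * Real.log D.D0 + (a + α - r)) + Eb) * HJ * Em ≤
            C₂ * X ^ ε * ((Bl + Bl) * Ex + Eb) * HJ * Em := by gcongr
        _ = 1 * C₂ * (X ^ ε * ((Bl + Bl) * Ex + Eb) * (HJ * Em)) := by ring
        _ ≤ C₁ * C₂ * (X ^ ε * ((Bl + Bl) * Ex + Eb) * (HJ * Em)) :=
            mul_le_mul_of_nonneg_right (mul_le_mul_of_nonneg_right hC₁ (by linarith))
              (by positivity)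
        _ = _ := by ring
    have d4 : 1 ≤ (C₁ * C₂) * X ^ ε * 1 * (HJ * Em) := by
      rw [mul_one]
      exact one_le_mul_of_one_le_of_one_le c1 hHE
    have d5 : (C₁ * C₂) * X ^ ε * (El + (B + Br + Eb) + ((Bl + Bl) * Ex + Eb) + 1) * (HJ * Em) ≤
        (C₁ * C₂) * X ^ ε * (2 * (2 * T)) * (HJ * Em) := by
      refine mul_le_mul_of_nonneg_right (mul_le_mul_of_nonneg_left ?_ hc0) hHE0
      rw [hT, add_mul]
      exact arith_a hEl hB hBr hEb0.le hBlE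
    calc El * HJ * Em + Ms + Ml + 1 ≤ (C₁ * C₂) * X ^ ε *
          (El + (B + Br + Eb) + ((Bl + Bl) * Ex + Eb) + 1) * (HJ * Em) := arith_c d1 d2 d3 d4
      _ ≤ _ := d5
      _ = _ := by ring
  have hT0 : 0 ≤ T := by rw [hT]; positivity
  have hf0 : 0 ≤ HJ * Real.exp (fl D.κ k m) := by positivity
  have h2e : X ^ ε * X ^ ε = X ^ (2 * ε) := by
    rw [← Real.rpow_add hX0]; congr 1; ring
  have hX2 : X ^ ε ≤ X ^ (2 * ε) := Real.rpow_le_rpow_of_exponent_le hX1 (by linarith)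
  -- the first part
  have hV1 : 3 * VF (Real.exp k) al ≤
      (3 * (C₀ * H)) * (2 * (2 * (C₁ * C₂))) * X ^ (2 * ε) * T *
        (HJ * Real.exp (fl D.κ k m)) := by
    calc 3 * VF (Real.exp k) al ≤ 3 * (Mx * (C₀ * H * X ^ ε * (El * HJ * Em + Ms + Ml + 1))) := by
          linarith
      _ ≤ 3 * (Mx * (C₀ * H * X ^ ε * ((2 * (C₁ * C₂)) * X ^ ε * (2 * T) * (HJ * Em)))) := by
          have : 0 ≤ C₀ * H * X ^ ε := by positivity
          gcongr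
      _ = (3 * (C₀ * H)) * (2 * (2 * (C₁ * C₂))) * (X ^ ε * X ^ ε) * T * (HJ * (Mx * Em)) := by
          ring
      _ = _ := by rw [h2e, hM]
  have hV2 : C₃ * X ^ ε * (Br + Eb) * Ht ps ^ J * Real.exp (fl D.κ k (LF ps)) ≤
      C₃ * X ^ (2 * ε) * T * (HJ * Real.exp (fl D.κ k m)) := by
    have h1 : Br + Eb ≤ T := by rw [hT]; linarith only [hEl, hBlE, hB]
    calc C₃ * X ^ ε * (Br + Eb) * HJ * Real.exp (fl D.κ k m) ≤
          C₃ * X ^ (2 * ε) * T * HJ * Real.exp (fl D.κ k m) := by gcongr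
      _ = _ := by ring
  have hfinal : (3 * (C₀ * H)) * (2 * (2 * (C₁ * C₂))) * X ^ (2 * ε) * T *
        (HJ * Real.exp (fl D.κ k m)) + C₃ * X ^ (2 * ε) * T * (HJ * Real.exp (fl D.κ k m)) ≤
      (2 * ((3 * (C₀ * H) + 1) * (2 * (C₁ * C₂))) + C₃) * X ^ (2 * ε) * T *
        (HJ * Real.exp (fl D.κ k m)) := by
    have h1 : 0 ≤ X ^ (2 * ε) * T * (HJ * Real.exp (fl D.κ k m)) := by positivity
    have h2 : 0 ≤ (2 * (C₁ * C₂)) := by positivity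
    have h3 := arith_b (a := 3 * (C₀ * H)) (b := 2 * (C₁ * C₂)) (c := C₃) h2 h1
    calc _ = 3 * (C₀ * H) * (2 * (2 * (C₁ * C₂))) * (X ^ (2 * ε) * T *
          (HJ * Real.exp (fl D.κ k m))) + C₃ * (X ^ (2 * ε) * T *
          (HJ * Real.exp (fl D.κ k m))) := by ring
      _ ≤ _ := h3
      _ = _ := by ring
  calc 3 * VF (Real.exp k) al + C₃ * X ^ ε * (Br + Eb) * Ht ps ^ J *
        Real.exp (fl D.κ k (LF ps)) ≤
      (2 * ((3 * (C₀ * H) + 1) * (2 * (C₁ * C₂))) + C₃) * X ^ (2 * ε) * T *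
        (HJ * Real.exp (fl D.κ k m)) := (add_le_add hV1 hV2).trans hfinal
    _ = _ := by rw [hT]; ring

/-- **the number (SA0)** of the difference, in the form of the lower bound -/
theorem x_sa0 {h : ℝ → ℝ} {c : ℝ} (hpu : PU h c) (N : ℕ) {B₀ : ℝ} (hB₀ : 1 ≤ B₀)
    {ε J : ℝ} {Jn : ℕ} (hε : 0 < ε) (hJ : 6 ≤ J) (hJn : (N : ℝ) * J ≤ Jn) (hJ12 : 12 ≤ Jn) :
    ∃ C r : ℝ, 1 ≤ C ∧ 0 ≤ r ∧ ∀ X : ℝ, 3 ≤ X → ∀ D : Dat, DX h N J B₀ X D →
    ∀ (B B' bb s a Q q₀ σ'' lo g₀ d₀ : ℝ), 0 ≤ B → 0 ≤ B' → 0 ≤ g₀ → Real.exp r ≤ q₀ →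
    ClXK Dk (ex0 D.κ) D (Ge lo) B (s + r) (a + r) (Q * q₀) σ'' →
    ClXK Dk (ex0 D.κ) (Dr d₀ D) (Ge lo) B' (2 * s + r) (a + r) (Q * q₀) σ'' →
    ∀ (q : Eis) (ps : List Pf) (Z : ℝ), QX B₀ X s Q d₀ D q ps → LF ps + r ≤ σ'' →
    lo + g₀ + N * Real.log D.D0 + r ≤ LF ps → Z * Real.exp g₀ ≤ X → 0 < Z →
    Real.log Z ≤ D.v + (D.n - LF ps) + a →
    g₀ + 4 * Real.log D.D0 - d₀ + (LF ps + Real.log Z - D.κ) / 3 ≤ bb →
    ∀ g ∈ S X, (nm g : ℝ) ≤ Real.exp g₀ → ∀ V : ℝ, 1 ≤ V → V ≤ Z * nm g → ∀ t : ℝ,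
    VF V (tws (sg (xs q D.z D.D0 D.P D.h d₀ ps) g) t) ≤
      (C * X ^ ε * (B + B' + Real.exp bb) * Ht ps ^ J * Real.exp (2 * LF ps)) /
        (nm g : ℝ) ^ 2 *
        ((V * Real.exp D.κ / (Real.exp (LF ps) / nm g) ^ 2) ^ (1 / 3 : ℝ)) * (1 + |t|) ^ Jn := by
  have hJ12' : (12 : ℝ) ≤ Jn := by exact_mod_cast hJ12
  obtain ⟨C, r, hC, hr, H⟩ := x_numS0 hpu N hB₀ hε hJ hJ12' hJn
  refine ⟨C, r, hC, hr, ?_⟩
  intro X hX D hD B B' bb s a Q q₀ σ'' lo g₀ d₀ hB hB' hg₀ hq₀ hCl hClr q ps Z hps hσ hlo hZX hZ0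
    hZ hbb g hg hgG V hV hVZ t
  have hX1 : (1 : ℝ) ≤ X := by linarith
  have hX0 : 0 < X := by linarith
  have hg' := (mem_S hX0.le).1 hg
  have hgp := hg'.2.1
  have hng : (0 : ℝ) < nm g := by exact_mod_cast nm_pos.2 hgp.ne_zero
  have hlg : Real.log (nm g) ≤ g₀ := by
    rw [← Real.log_exp g₀]; exact Real.log_le_log hng hgG
  have hV0 : 0 < V := by linarith
  have hXB : X ≤ X ^ B₀ := by
    calc X = X ^ (1 : ℝ) := (Real.rpow_one X).symm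
      _ ≤ X ^ B₀ := Real.rpow_le_rpow_of_exponent_le hX1 hB₀
  have h1 := H X hX D hD B B' (Real.exp bb) s a Q q₀ σ'' lo d₀ hB hB' hq₀ hCl hClr q ps hps hσ
    g t V Z (Real.exp g₀) hgp (hg'.1.trans hXB) hgG (by linarith) hV
    (by
      have : Z * nm g ≤ Z * Real.exp g₀ := mul_le_mul_of_nonneg_left hgG hZ0.le
      linarith) hZ0
    (by
      have : 0 ≤ Z * nm g := by positivity
      linarith)
    (by
      have h2 := Real.log_le_log hV0 hVZ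
      rw [Real.log_mul hZ0.ne' hng.ne'] at h2
      linarith)
    (bias_exp hD.D0 hZ0 (by rw [Real.exp_log hZ0]) hbb)
  rw [Real.rpow_natCast] at h1
  exact h1

/-- **the number (L+)** of the difference, in the form of the lower bound -/
theorem x_lp {h : ℝ → ℝ} {c : ℝ} (hpu : PU h c) (N : ℕ) {B₀ : ℝ} (hB₀ : 1 ≤ B₀)
    {ε J : ℝ} {Jn : ℕ} (hε : 0 < ε) (hJ : 6 ≤ J) (hJn : (N : ℝ) * J ≤ Jn) (hJ12 : 12 ≤ Jn) :
    ∃ C r : ℝ, 1 ≤ C ∧ 0 ≤ r ∧ ∀ X : ℝ, 3 ≤ X → ∀ D : Dat, DX h N J B₀ X D →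
    ∀ (B B' bb s a Q q₀ cc lo' x₁ g₀ d₀ : ℝ), 0 ≤ B → 0 ≤ B' → Real.exp r ≤ q₀ → 0 ≤ a →
    lo' ≤ 0 → 0 ≤ x₁ →
    ClNK Dk D (exJ D.κ D.v D.n cc) B (s + r) (a + r) (Q * q₀) lo' (D.n - cc + x₁) →
    ClNK Dk (Dr d₀ D) (exJ D.κ D.v D.n cc) B' (2 * s + r) (a + r) (Q * q₀) lo'
      (D.n - cc + x₁) →
    ∀ (q : Eis) (ps : List Pf) (Z : ℝ), QX B₀ X s Q d₀ D q ps → D.n - cc ≤ LF ps →
    LF ps - g₀ + r ≤ D.n - cc + x₁ → 0 < Z → Z ≤ X → Real.log Z ≤ D.v + (D.n - LF ps) + a →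
    4 * Real.log D.D0 - d₀ + (LF ps + Real.log Z - D.κ) / 3 ≤ bb →
    ∀ g ∈ S X, ∀ Bu V : ℝ, 1 ≤ Bu → Bu ≤ X → 1 ≤ V → V ≤ Z / (nm g : ℝ) ^ 2 → ∀ t : ℝ,
    JB X (xs q D.z D.D0 D.P D.h d₀ ps) (fun U => Real.exp g₀ < nm (g * U)) g Bu V t ≤
      (C * X ^ ε * ((B + B') * Real.exp (N * Real.log D.D0 + a) + Real.exp bb) * Ht ps ^ J *
        Real.exp (2 * LF ps)) / (nm g : ℝ) ^ 2 * yv (Real.exp D.κ) (Real.exp (LF ps)) g V *
        (1 + |t|) ^ Jn := by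
  have hJ12' : (12 : ℝ) ≤ Jn := by exact_mod_cast hJ12
  obtain ⟨C, r, hC, hr, H⟩ := x_numL hpu N hB₀ hε hJ hJ12' hJn
  refine ⟨C, r, hC, hr, ?_⟩
  intro X hX D hD B B' bb s a Q q₀ cc lo' x₁ g₀ d₀ hB hB' hq₀ ha hlo' hx₁ hCl hClr q ps Z hps
    hcc hgc hZ0 hZX hZ hbb g hg Bu V hBu hBuX hV hVZ t
  have hX1 : (1 : ℝ) ≤ X := by linarith
  have hX0 : 0 < X := by linarith
  have hg' := (mem_S hX0.le).1 hg
  have hgp := hg'.2.1
  have hng : (0 : ℝ) < nm g := by exact_mod_cast nm_pos.2 hgp.ne_zero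
  have hng1 : (1 : ℝ) ≤ nm g := by exact_mod_cast nm_pos.2 hgp.ne_zero
  have hV0 : 0 < V := by linarith
  have hXB : X ≤ X ^ B₀ := by
    calc X = X ^ (1 : ℝ) := (Real.rpow_one X).symm
      _ ≤ X ^ B₀ := Real.rpow_le_rpow_of_exponent_le hX1 hB₀
  have hVN' : V * (nm g : ℝ) ^ 2 ≤ Z := (le_div_iff₀ (by positivity)).1 hVZ
  have hb1 := bias_exp (g₀ := 0) (m := LF ps) (κ := D.κ) (L := Real.log Z) hD.D0 hZ0
    (by rw [Real.exp_log hZ0]) (by linarith : 0 + 4 * Real.log D.D0 - d₀ +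
      (LF ps + Real.log Z - D.κ) / 3 ≤ bb)
  rw [Real.exp_zero, one_mul] at hb1
  have h1 := H X hX D hD B B' (Real.exp bb) s a Q q₀ cc lo' x₁ d₀ hB hB' hq₀ ha hlo' hx₁ hCl hClr
    q ps hps hcc g X (Real.exp g₀) Bu t V Z hgp (hg'.1.trans hXB) hX0.le hBu (hBuX.trans hXB)
    (Real.exp_pos _) (by rw [Real.log_exp]; exact hgc) hV
    (by
      have : V * 1 ≤ V * (nm g : ℝ) ^ 2 := mul_le_mul_of_nonneg_left (one_le_pow₀ hng1) hV0.le
      linarith) hZ0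
    (by
      refine hVZ.trans ?_
      have : Z ≤ 9 * Z := by linarith
      gcongr)
    (by
      have h2 := Real.log_le_log (by positivity) hVN'
      rw [Real.log_mul hV0.ne' (by positivity), Real.log_pow] at h2
      push_cast at h2
      linarith) hb1
  rw [Real.rpow_natCast] at h1
  exact h1

end Crest.Agent.R017.RX298
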