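import Crest.Agent.R017.PrD5_502
import Crest.Agent.R017.PrE_176
import Crest.Agent.R017.RX5e_298
import Crest.Agent.R017.LBo_813
import Crest.Agent.R017.WDec2_180

/-!
# Row 17, T.7: the principal half of `E2` for the differences `xs` (helper502)

* `pv_xs` : the principal values of `xs`
* `xs_facts` : `FS`, support, window and size of `xs`
* `rp2`, `prn_leaf` : the number of the principal half
-/

set_option autoImplicit false
set_option linter.unusedVariables false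
set_option linter.unusedSectionVars false

noncomputable section

open Complex
open scoped ComplexConjugate

namespace Crest.Agent.R017.PrD502

open Crest.Agent.R012 Crest.Agent.R012.Eis
open Crest.Agent.R012.LS2 (S mem_S)
open Crest.Agent.R012.Weight600 (osc)
open Crest.Agent.R017.CM106 (CS FS)
open Crest.Agent.R017.End699 (HC)
open Crest.Agent.R017.B770
open Crest.Agent.R017.FE47
open Crest.Agent.R017.Leg381
open Crest.Agent.R017.HP842 (sqc)
open Crest.Agent.R017.RG64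
open Crest.Agent.R017.Sup271 (NPm)
open Crest.Agent.R017.RX298 (xs zt norm_zt rp LF_rp rp_length XDp exists_XDp Mk Lg2)
open Crest.Agent.R017.PrE176 (RPn)
open Crest.Agent.R017.WDec180 (sc)

lemma xs_xr (q : Eis) (z D0 : ℝ) (P : DPar) (h : ℝ → ℝ) (d₀ : ℝ) (p p' : Pf) (l : List Pf) :
    xs q z D0 P h d₀ (p :: p' :: l) = ExD791.xr z D0 P h q p p' l d₀ := by
  funext n
  have ez : zt d₀ (p :: p' :: l) = ExD791.zet p p' d₀ := by
    show osc (p'.1.t - p.1.t) (p'.1.z - d₀) = osc p.1.t (-(p'.1.z - d₀)) *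
      osc p'.1.t (p'.1.z - d₀)
    unfold Weight600.osc
    rw [← Complex.exp_add]
    congr 1
    push_cast
    ring
  show sqc q (alF z D0 P h (p :: p' :: l)) n - zt d₀ (p :: p' :: l) *
    sqc q (alF z D0 P h (rp d₀ (p :: p' :: l))) n = _
  rw [ez]
  rfl

/-- **the principal values of the differences** (298's hypotheses on the list) -/
theorem pv_xs {h : ℝ → ℝ} {c : ℝ} (hpu : PU h c) (N : ℕ) {B : ℝ} (hB : 0 ≤ B) {ε : ℝ}
    (hε : 0 < ε) :
    ∃ C : ℝ, 1 ≤ C ∧ ∀ X : ℝ, 3 ≤ X → ∀ P : DPar, P.OK → (nm P.n : ℝ) ≤ X ^ B →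
      (∀ k : Eis, k ≠ 0 → (∃ c, k = c ^ 3) → ¬ NPm P.n P.ψ P.l₂ k) →
      ∀ z D0 : ℝ, 1 ≤ D0 → ∀ ps : List Pf, Mk (X ^ B) ps → ps.length ≤ N →
      (∀ p ∈ ps, 0 ≤ p.1.z) → LF ps ≤ B * Real.log X → ∀ d₀ : ℝ, 0 ≤ d₀ → Lg2 d₀ ps →
      ∀ q : Eis, q ≠ 0 → (nm q : ℝ) ≤ X ^ B →
      PV (fun H => ∃ c, H = c ^ 3) 6 (C * X ^ ε * D0 ^ 2 * Ht ps ^ 3 * Real.exp (LF ps)) d₀
        (X ^ B) (xs q z D0 P h d₀ ps) := by
  obtain ⟨C, hC, H⟩ := pv_xr hpu N hB hε
  refine ⟨C, hC, ?_⟩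
  intro X hX P hP hPn hnp z D0 hD0 ps hps hlen hz hL d₀ hd hLg q hq hqX
  match ps, hps, hlen, hz, hL, hLg with
  | [], h, _, _, _, _ => exact h.elim
  | [_], h, _, _, _, _ => exact h.elim
  | p :: p' :: l, hps, hlen, hz, hL, hLg =>
    obtain ⟨a1, a2, a3, a4, a5, a6⟩ := hps
    obtain ⟨b1, b2⟩ := hLg
    have hz1 := hz p List.mem_cons_self
    have hz2 := hz p' (List.mem_cons_of_mem _ List.mem_cons_self)
    have hl : 0 ≤ LF l := LF_nonneg fun x hx =>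
      hz x (List.mem_cons_of_mem _ (List.mem_cons_of_mem _ hx))
    have hLF : LF (p :: p' :: l) = p.1.z + (p'.1.z + LF l) := by rw [LF_cons, LF_cons]
    have hn12 : l.length ≤ N := by
      have : (p :: p' :: l).length = l.length + 2 := rfl
      omega
    rw [xs_xr]
    exact H X hX P (OKi848.OKi.of hP) hP.ψ hPn hnp z D0 hD0 p p' l a1 a2 a3 a4 a5 a6 hn12
      (by linarith) d₀ d₀ b1 b2 (by linarith) le_rfl (by linarith) q hq hqX

/-- **the facts about the differences** -/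
theorem xs_facts {h : ℝ → ℝ} {c : ℝ} (hpu : PU h c) (N : ℕ) {ε : ℝ} (hε : 0 < ε) :
    ∃ R C : ℝ, 0 ≤ R ∧ 1 ≤ C ∧ ∀ P : DPar, P.OK → ∀ (q : Eis) (z D0 d₀ : ℝ) (ps : List Pf),
      ps.length ≤ N → ∀ Y : ℝ, C ≤ Y → Real.exp R * Real.exp (LF ps) ≤ Y →
      FS (xs q z D0 P h d₀ ps) ∧ (∀ n, xs q z D0 P h d₀ ps n ≠ 0 → n ∈ S Y) ∧
      (∀ n, xs q z D0 P h d₀ ps n ≠ 0 → Squarefree n ∧ |Real.log (nm n) - LF ps| ≤ R) ∧
      (∀ n, ‖xs q z D0 P h d₀ ps n‖ ≤ C * Y ^ ε) := by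
  obtain ⟨R, Ca, hR, hCa, hX⟩ := exists_XDp hpu N
  obtain ⟨C₄, hC₄, hnl⟩ := LBo813.norm_list_le hpu N hε
  refine ⟨R, max Ca (2 * C₄), hR, hCa.trans (le_max_left _ _), ?_⟩
  intro P hP q z D0 d₀ ps hlen Y hY hRY
  have hY1 : 1 ≤ Y := by linarith [le_max_left Ca (2 * C₄)]
  have hY0 : (0 : ℝ) ≤ Y := by linarith
  have hlenr : (rp d₀ ps).length ≤ N := by rw [rp_length]; exact hlen
  obtain ⟨a1, a2, -, hFS⟩ := hX z D0 P hP q ps (rp d₀ ps) (zt d₀ ps) hlen hlenr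
    (LF_rp _ _) (norm_zt d₀ ps).le Y ((le_max_left _ _).trans hY) hRY
  refine ⟨hFS, a1, fun n hn => ⟨((mem_S hY0).1 (a1 n hn)).2.2, ?_⟩, fun n => ?_⟩
  · have := a2 n hn
    rwa [Real.log_exp] at this
  · by_cases h0 : xs q z D0 P h d₀ ps n = 0
    · rw [h0, norm_zero]
      have : 0 ≤ max Ca (2 * C₄) := by linarith [le_max_left Ca (2 * C₄)]
      positivity
    have hn := a1 n h0
    have h1 := hnl z D0 P hP q ps hlen Y hY1 n hn
    have h1r := hnl z D0 P hP q (rp d₀ ps) hlenr Y hY1 n hn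
    have h3 : ‖xs q z D0 P h d₀ ps n‖ ≤ 2 * C₄ * Y ^ ε := by
      unfold RX298.xs
      refine (norm_sub_le _ _).trans ?_
      rw [norm_mul, norm_zt, one_mul]
      linarith
    refine h3.trans ?_
    have : 2 * C₄ ≤ max Ca (2 * C₄) := le_max_right _ _
    have h4 : 0 ≤ Y ^ ε := Real.rpow_nonneg hY0 _
    gcongr

/-! ### the number -/

set_option maxHeartbeats 1000000 in
/-- **the real inequality of the principal half**: `κ`, `n`, `v`, `h` logarithms, `s` the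
tolerance -/
theorem rp2 {K' Z X nM H T E0 d0 κ n v s : ℝ} (hK' : 0 < K') (hZ : 0 < Z) (hX : 0 < X)
    (hM : 1 ≤ nM) (hH : 1 ≤ H) (hT : 0 ≤ T) (hE0 : 0 ≤ E0) (hd0 : 0 ≤ d0) (hs : 0 ≤ s)
    (hκ : 0 ≤ κ) (h1 : |Real.log K' - κ| ≤ s) (h2 : |Real.log X - n| ≤ s) (hZv : Real.log Z ≤ v)
    (hv : 3 * v ≤ 2 * κ + s) (hn : 6 * n ≤ 5 * κ + s) :
    RPn d0 K' Z X nM H T E0 ≤ nM ^ ((1 : ℝ) / 3) * (Real.exp (κ - n + 2 * s) *
      (3 * Real.exp ((v + n - κ) / 3 - d0) + (1 + E0 * T) * (H * Real.exp (-(κ / 18))))) := by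
  obtain ⟨κ', hκe'⟩ : ∃ k, K' = Real.exp k := ⟨Real.log K', (Real.exp_log hK').symm⟩
  obtain ⟨n', hne⟩ : ∃ k, X = Real.exp k := ⟨Real.log X, (Real.exp_log hX).symm⟩
  obtain ⟨z, hze⟩ : ∃ k, Z = Real.exp k := ⟨Real.log Z, (Real.exp_log hZ).symm⟩
  obtain ⟨η, hηe⟩ : ∃ k, H = Real.exp k := ⟨Real.log H, (Real.exp_log (by linarith)).symm⟩
  subst hκe' hne hze hηe
  rw [Real.log_exp] at h1 h2 hZv
  rw [abs_le] at h1 h2
  have hη : 0 ≤ η := by
    rw [← Real.exp_zero] at hH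
    exact Real.exp_le_exp.1 hH
  set m := nM ^ ((1 : ℝ) / 3) with hm
  have hm1 : 1 ≤ m := Real.one_le_rpow hM (by norm_num)
  have hm0 : 0 ≤ m := by linarith
  set A : ℝ := Real.exp (κ - n + 2 * s) * Real.exp ((v + n - κ) / 3 - d0) with hA
  set B : ℝ := Real.exp (κ - n + 2 * s) * (Real.exp η * Real.exp (-(κ / 18))) with hB
  have hAe : A = Real.exp (κ - n + 2 * s + ((v + n - κ) / 3 - d0)) := by
    rw [hA, ← Real.exp_add]
  have hBe : B = Real.exp (κ - n + 2 * s + (η + -(κ / 18))) := by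
    rw [hB, ← Real.exp_add, ← Real.exp_add]
  have hA0 : 0 ≤ A := by rw [hAe]; exact (Real.exp_pos _).le
  have hB0 : 0 ≤ B := by rw [hBe]; exact (Real.exp_pos _).le
  have t1 : Real.exp (-d0) * Real.exp z ^ ((1 : ℝ) / 2) ≤ A := by
    rw [← Real.exp_mul, ← Real.exp_add, hAe]
    refine Real.exp_le_exp.2 ?_
    linarith
  have t2 : Real.exp (-d0) * (Real.exp κ' * Real.exp z / Real.exp n') ^ ((1 : ℝ) / 3) ≤ A := by
    rw [← Real.exp_add, ← Real.exp_sub, ← Real.exp_mul, ← Real.exp_add, hAe]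
    refine Real.exp_le_exp.2 ?_
    linarith
  have t3 : Real.exp (-d0) * (Real.exp κ' ^ ((2 : ℝ) / 3) * Real.exp z ^ ((1 : ℝ) / 3) *
      Real.exp n' ^ (-(2 / 3) : ℝ)) ≤ A := by
    rw [← Real.exp_mul, ← Real.exp_mul, ← Real.exp_mul, ← Real.exp_add, ← Real.exp_add,
      ← Real.exp_add, hAe]
    refine Real.exp_le_exp.2 ?_
    linarith
  have t4 : Real.exp κ' ^ (-(1 / 3) : ℝ) * Real.exp z ^ ((2 : ℝ) / 3) *
      Real.exp η ^ ((1 : ℝ) / 3) * Real.exp (-d0) ^ ((1 : ℝ) / 3) ≤ B := by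
    rw [← Real.exp_mul, ← Real.exp_mul, ← Real.exp_mul, ← Real.exp_mul, ← Real.exp_add,
      ← Real.exp_add, ← Real.exp_add, hBe]
    refine Real.exp_le_exp.2 ?_
    linarith
  have t5 : Real.exp κ' ^ (-(2 / 3) : ℝ) * Real.exp z * Real.exp η ^ ((2 : ℝ) / 3) ≤ B := by
    rw [← Real.exp_mul, ← Real.exp_mul, ← Real.exp_add, ← Real.exp_add, hBe]
    refine Real.exp_le_exp.2 ?_
    linarith
  have hET : 0 ≤ E0 * T := by positivity
  unfold PrE176.RPn
  calc Real.exp (-d0) * (Real.exp z ^ ((1 : ℝ) / 2) +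
        (Real.exp κ' * Real.exp z / Real.exp n') ^ ((1 : ℝ) / 3) +
        Real.exp κ' ^ ((2 : ℝ) / 3) * Real.exp z ^ ((1 : ℝ) / 3) *
          Real.exp n' ^ (-(2 / 3) : ℝ) * m) +
        Real.exp κ' ^ (-(1 / 3) : ℝ) * Real.exp z ^ ((2 : ℝ) / 3) *
          Real.exp η ^ ((1 : ℝ) / 3) * Real.exp (-d0) ^ ((1 : ℝ) / 3) +
        E0 * T * (Real.exp κ' ^ (-(2 / 3) : ℝ) * Real.exp z * m * Real.exp η ^ ((2 : ℝ) / 3)) =
      Real.exp (-d0) * Real.exp z ^ ((1 : ℝ) / 2) +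
        Real.exp (-d0) * (Real.exp κ' * Real.exp z / Real.exp n') ^ ((1 : ℝ) / 3) +
        m * (Real.exp (-d0) * (Real.exp κ' ^ ((2 : ℝ) / 3) * Real.exp z ^ ((1 : ℝ) / 3) *
          Real.exp n' ^ (-(2 / 3) : ℝ))) +
        Real.exp κ' ^ (-(1 / 3) : ℝ) * Real.exp z ^ ((2 : ℝ) / 3) *
          Real.exp η ^ ((1 : ℝ) / 3) * Real.exp (-d0) ^ ((1 : ℝ) / 3) +
        m * (E0 * T) * (Real.exp κ' ^ (-(2 / 3) : ℝ) * Real.exp z *
          Real.exp η ^ ((2 : ℝ) / 3)) := by ring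
    _ ≤ m * A + m * A + m * A + m * B + m * (E0 * T) * B := by
        have k1 : A ≤ m * A := le_mul_of_one_le_left hA0 hm1
        have k2 : B ≤ m * B := le_mul_of_one_le_left hB0 hm1
        refine add_le_add (add_le_add (add_le_add (add_le_add (t1.trans k1) (t2.trans k1)) ?_)
          (t4.trans k2)) ?_
        · exact mul_le_mul_of_nonneg_left t3 hm0
        · exact mul_le_mul_of_nonneg_left t5 (by positivity)
    _ = _ := by rw [hA, hB]; ring

set_option maxHeartbeats 1000000 in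
/-- **the number of the principal half in the variables of the leaf**: `Θ` all the powers of
`E0 = X ^ c` in front -/
theorem prn_leaf {Nw : ℕ} {M R K c ε d₀ y X n Lv N₁ X' nM H T E0 Θ : ℝ} (hM : 0 ≤ M)
    (hR : 0 ≤ R) (hK : 0 ≤ K) (hε : 0 ≤ ε) (hd : 0 ≤ d₀) (hX : 3 ≤ X) (hX' : 0 < X')
    (hXn : |Real.log X' - n| ≤ R) (hN₁ : 1 ≤ N₁) (hNL : 9 * N₁ ≤ Real.exp (Lv + 4))
    (hv3 : 3 * Lv ≤ (2 * K + ε) * Real.log X) (h56 : 6 * n ≤ (5 * K + ε) * Real.log X)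
    {i : ℕ} (hi : i < Nw) (hnM : 1 ≤ nM) (hH : 1 ≤ H) (hT : 0 ≤ T) (hE0 : 0 ≤ E0)
    (hΘ0 : 0 ≤ Θ) (hΘ : Θ ≤ X ^ (y * c)) (hΘH : Θ * ((1 + E0 * T) * H) ≤ X ^ (K / 18)) :
    Θ * RPn (d₀ * Real.log X) (sc (X ^ K) M i) N₁ X' nM H T E0 ≤
      4 * nM ^ ((1 : ℝ) / 3) * Real.exp (2 * (M + Nw + R + 13)) * X ^ (2 * ε) *
        (X ^ K / Real.exp n) *
        X ^ (max 0 (y * c + (Lv / Real.log X + n / Real.log X - K) / 3 - d₀)) := by
  have hX0 : 0 < X := by linarith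
  have hX1 : 1 ≤ X := by linarith
  have hl0 : 0 < Real.log X := Real.log_pos (by linarith)
  have hNw : (0 : ℝ) ≤ Nw := Nat.cast_nonneg _
  have hXK : X ^ K = Real.exp (K * Real.log X) := by
    rw [Real.rpow_def_of_pos hX0]; congr 1; ring
  set L := Real.log X with hL
  set s : ℝ := ε * L + (M + Nw + R + 12) with hs
  have hεL : 0 ≤ ε * L := by positivity
  have hs0 : 0 ≤ s := by positivity
  have hKL : 0 ≤ K * L := by positivity
  have hi' : (i : ℝ) ≤ Nw := by exact_mod_cast hi.le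
  have hi0 : (0 : ℝ) ≤ i := Nat.cast_nonneg _
  have hsc0 : 0 < sc (X ^ K) M i := WDec180.sc_pos (by positivity) M i
  have hlsc : |Real.log (sc (X ^ K) M i) - K * L| ≤ s := by
    have e1 : Real.log (sc (X ^ K) M i) = K * L + (i - M) := by
      unfold WDec180.sc
      rw [hXK, Real.log_mul (Real.exp_pos _).ne' (Real.exp_pos _).ne', Real.log_exp,
        Real.log_exp]
    rw [e1, abs_le]
    constructor <;> · rw [hs]; linarith
  have hN₁e : Real.log N₁ ≤ Lv + 4 := by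
    rw [← Real.log_exp (Lv + 4)]
    exact Real.log_le_log (by linarith) (by linarith)
  have key := rp2 (K' := sc (X ^ K) M i) (Z := N₁) (X := X') (nM := nM) (H := H) (T := T)
    (E0 := E0) (d0 := d₀ * L) (κ := K * L) (n := n) (v := Lv + 4) (s := s) hsc0 (by linarith) hX'
    hnM hH hT hE0 (by positivity) hs0 hKL hlsc
    (hXn.trans (by rw [hs]; linarith)) hN₁e (by rw [hs]; linarith) (by rw [hs]; linarith)
  have hm0 : 0 ≤ nM ^ ((1 : ℝ) / 3) := by positivity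
  set W : ℝ := X ^ (max 0 (y * c + (Lv / L + n / L - K) / 3 - d₀)) with hW
  have hW1 : 1 ≤ W := Real.one_le_rpow hX1 (le_max_left _ _)
  have e2 : Θ * Real.exp ((Lv + 4 + n - K * L) / 3 - d₀ * L) ≤ Real.exp (4 / 3) * W := by
    calc Θ * Real.exp ((Lv + 4 + n - K * L) / 3 - d₀ * L) ≤
          X ^ (y * c) * Real.exp ((Lv + 4 + n - K * L) / 3 - d₀ * L) := by gcongr
      _ = Real.exp (4 / 3) * X ^ (y * c + (Lv / L + n / L - K) / 3 - d₀) := by
          rw [Real.rpow_def_of_pos hX0, Real.rpow_def_of_pos hX0, ← hL, ← Real.exp_add,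
            ← Real.exp_add]
          congr 1
          field_simp
          ring
      _ ≤ Real.exp (4 / 3) * W := by
          refine mul_le_mul_of_nonneg_left ?_ (Real.exp_pos _).le
          exact Real.rpow_le_rpow_of_exponent_le hX1 (le_max_right _ _)
  have e3 : Θ * ((1 + E0 * T) * (H * Real.exp (-(K * L / 18)))) ≤ W := by
    have h1 : X ^ (K / 18) * Real.exp (-(K * L / 18)) = 1 := by
      rw [Real.rpow_def_of_pos hX0, ← hL, ← Real.exp_add, ← Real.exp_zero]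
      congr 1
      ring
    calc Θ * ((1 + E0 * T) * (H * Real.exp (-(K * L / 18)))) =
          Θ * ((1 + E0 * T) * H) * Real.exp (-(K * L / 18)) := by ring
      _ ≤ X ^ (K / 18) * Real.exp (-(K * L / 18)) := by gcongr
      _ = 1 := h1
      _ ≤ W := hW1
  have e4 : Real.exp (4 / 3) ≤ Real.exp 2 := Real.exp_le_exp.2 (by norm_num)
  have e5 : (1 : ℝ) ≤ Real.exp 2 := Real.one_le_exp (by norm_num)
  have e6 : Real.exp (K * L - n + 2 * s) * Real.exp 2 =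
      Real.exp (2 * (M + Nw + R + 13)) * X ^ (2 * ε) * (X ^ K / Real.exp n) := by
    rw [Real.rpow_def_of_pos hX0, Real.rpow_def_of_pos hX0, ← hL, ← Real.exp_sub, ← Real.exp_add,
      ← Real.exp_add, ← Real.exp_add, hs]
    congr 1
    ring
  have hE0' : 0 ≤ Real.exp (K * L - n + 2 * s) := (Real.exp_pos _).le
  calc Θ * RPn (d₀ * L) (sc (X ^ K) M i) N₁ X' nM H T E0 ≤
        Θ * (nM ^ ((1 : ℝ) / 3) * (Real.exp (K * L - n + 2 * s) *
          (3 * Real.exp ((Lv + 4 + n - K * L) / 3 - d₀ * L) +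
            (1 + E0 * T) * (H * Real.exp (-(K * L / 18)))))) :=
        mul_le_mul_of_nonneg_left key hΘ0
    _ = nM ^ ((1 : ℝ) / 3) * (Real.exp (K * L - n + 2 * s) *
          (3 * (Θ * Real.exp ((Lv + 4 + n - K * L) / 3 - d₀ * L)) +
            Θ * ((1 + E0 * T) * (H * Real.exp (-(K * L / 18)))))) := by ring
    _ ≤ nM ^ ((1 : ℝ) / 3) * (Real.exp (K * L - n + 2 * s) *
          (3 * (Real.exp 2 * W) + Real.exp 2 * W)) := by
        have h5 : Θ * Real.exp ((Lv + 4 + n - K * L) / 3 - d₀ * L) ≤ Real.exp 2 * W :=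
          e2.trans (mul_le_mul_of_nonneg_right e4 (by linarith))
        have h6 : Θ * ((1 + E0 * T) * (H * Real.exp (-(K * L / 18)))) ≤ Real.exp 2 * W :=
          e3.trans (le_mul_of_one_le_left (by linarith) e5)
        gcongr
    _ = 4 * nM ^ ((1 : ℝ) / 3) * (Real.exp (K * L - n + 2 * s) * Real.exp 2) * W := by ring
    _ = _ := by rw [e6]; ring

end Crest.Agent.R017.PrD502
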