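import Crest.Agent.R017.RCXc_385
import Crest.Agent.R017.MTLn_537
import Crest.Agent.R017.LSM_241
import Crest.Agent.R017.PrG_502

/-!
# Row 17, T.7 [E2-e], the number (Rc) of the exceptional class (helper385): one piece

* `kd_all` : the kernels of all pieces and all cube classes
* `pol_num` : the polar number of one index
* `reb_x` : `REb` of one windowed sequence
-/

set_option autoImplicit false
set_option linter.unusedVariables false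
set_option maxHeartbeats 1000000

noncomputable section

open Complex
open scoped ComplexConjugate

namespace Crest.Agent.R017.RCX385

open Crest.Agent.R012 Crest.Agent.R012.Eis
open Crest.Agent.R012.Div277
open Crest.Agent.R012.Mob705 (pdiv mem_pdiv)
open Crest.Agent.R012.LS2 (S mem_S)
open Crest.Agent.R017.X6C180 (IX dl' om' GF)
open Crest.Agent.R017.CM106 (sub CS FS)
open Crest.Agent.R017.MoL106 (kw kw_ne)
open Crest.Agent.R017.E2440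
open Crest.Agent.R017.FlC502 (thd)
open Crest.Agent.R017.QsO83 (bw FS_bw)
open Crest.Agent.R017.GKC739 (MTs PTs PTs_le)
open Crest.Agent.R017.QsJ401
open Crest.Agent.R017.PrD502 (PV Mu)
open Crest.Agent.R017.PrE176 (PJm RPn)
open Crest.Agent.R017.LBx48 (REb neb)
open Crest.Agent.R017.WDec180 (WD sc)
open Crest.Agent.R017.Win813 (WK iA iA_nonneg)
open Crest.Agent.R017.RGw813 (T9)
open Crest.Agent.R017.XHB411 (HBa)
open Crest.Agent.R017.MTX241 (nLS PJ_ls)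

/-- monotone in the constant -/
lemma kdd_mono {σ : Eis} {J M : ℕ} {Ft : ℝ → ℂ} {c c' H : ℝ} {ϑ ϑd : ℝ → ℝ} {om : IX σ → ℝ → ℂ}
    (h : KDd σ J M Ft c H ϑ ϑd om) (hc : c ≤ c') : KDd σ J M Ft c' H ϑ ϑd om := by
  refine ⟨h.kd.mono hc, h.d0, h.d1, fun A hA d hd => (h.fl A hA d hd).trans ?_⟩
  have h1 : (0 : ℝ) < nm d := by exact_mod_cast nm_pos.2 hd.ne_zero
  have h2 := h.d0 ((nm d : ℝ) / A) (by positivity)
  refine mul_le_mul_of_nonneg_right ?_ h2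
  refine mul_le_mul_of_nonneg_right ?_ (by positivity)
  exact mul_le_mul_of_nonneg_right hc (by positivity)

/-- the kernels of all pieces and all cube classes -/
lemma kd_all {w : ℝ → ℝ} {N : ℕ} {M : ℝ} {F : ℕ → ℝ → ℂ} (hD : WD w N M F) (J Mk P : ℕ) :
    ∃ cc : ℝ, 0 ≤ cc ∧ ∀ i < N, ∀ h : ℝ, 0 ≤ h → ∃ om : ∀ σ : Eis, IX σ → ℝ → ℂ,
      ∀ σ ∈ C4, KDd σ J Mk (GF (Fh (F i) h)) cc (Real.exp h)
        (fun y => min (y ^ (-(1 / 3) : ℝ)) (min 1 ((y * Real.exp h) ^ P))) (thd (Real.exp h))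
        (om σ) := by
  have H : ∀ σ ∈ C4, ∃ (k : ℕ) (C : ℝ), 0 ≤ C ∧
      ∀ (F : ℝ → ℂ) (Sf : ℝ), X6W180.TF1 F → X6545.Bd F k Sf → ∀ h : ℝ, 0 ≤ h →
        KDd σ J Mk (GF (Fh F h)) (C * Sf) (Real.exp h)
          (fun y => min (y ^ (-(1 / 3) : ℝ)) (min 1 ((y * Real.exp h) ^ P))) (thd (Real.exp h))
          (fun i y => om' σ F i y - om' σ F i (y * Real.exp h)) :=
    fun σ hσ => KDd_cmp (isC_sg (mem_C4.mp hσ)) J Mk P
  choose! k C hC H using H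
  choose S hS0 hS using hD.bd
  refine ⟨∑ σ ∈ C4, C σ * S (k σ), Finset.sum_nonneg fun σ hσ => mul_nonneg (hC σ hσ) (hS0 _), ?_⟩
  intro i hi h hh
  refine ⟨fun σ j y => om' σ (F i) j y - om' σ (F i) j (y * Real.exp h), fun σ hσ => ?_⟩
  refine kdd_mono (H σ hσ (F i) (S (k σ)) (hD.tf i) (hS (k σ) i hi) h hh) ?_
  exact Finset.single_le_sum (f := fun σ => C σ * S (k σ))
    (fun σ hσ => mul_nonneg (hC σ hσ) (hS0 _)) hσ

lemma HBa_ML {V N : ℝ} (hV : 0 < V) (hN : 0 ≤ N) :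
    HBa V N = V ^ ((1 : ℝ) / 3) * MTL537.ML V N := by
  unfold XHB411.HBa MTL537.ML
  have h1 : V ^ ((1 : ℝ) / 3) * V ^ ((2 : ℝ) / 3) = V := by
    rw [← Real.rpow_add hV]; norm_num
  have h2 : V ^ ((1 : ℝ) / 3) * V ^ ((1 : ℝ) / 3) = V ^ ((2 : ℝ) / 3) := by
    rw [← Real.rpow_add hV]; norm_num
  have h3 : (V * N) ^ ((2 : ℝ) / 3) = V ^ ((2 : ℝ) / 3) * N ^ ((2 : ℝ) / 3) :=
    Real.mul_rpow hV.le hN
  rw [h3]
  symm
  calc V ^ ((1 : ℝ) / 3) * (V ^ ((2 : ℝ) / 3) + N + V ^ ((1 : ℝ) / 3) * N ^ ((2 : ℝ) / 3))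
      = V ^ ((1 : ℝ) / 3) * V ^ ((2 : ℝ) / 3) + N * V ^ ((1 : ℝ) / 3) +
        V ^ ((1 : ℝ) / 3) * V ^ ((1 : ℝ) / 3) * N ^ ((2 : ℝ) / 3) := by ring
    _ = _ := by rw [h1, h2]

/-- the polar number of one index -/
lemma pol_num {V K X B0 B1 Z E0 D a b d : ℝ} (hV : 0 < V) (hVZ : V ≤ Z) (hK : 0 < K) (hX : 0 < X)
    (hB1 : 0 < B1) (hB : B1 ≤ B0) (ha : 1 ≤ a) (haE : a ≤ E0) (hb : 1 ≤ b) (hbd : b ≤ d) (hd : d ≤ D) :
    (V ^ (-(2 : ℝ) / 3) * (a * b) ^ (-(2 : ℝ)) * K ^ ((4 : ℝ) / 3)) *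
        (d ^ ((1 : ℝ) / 3) * X ^ (-(1 : ℝ) / 3)) *
        (B0⁻¹ * (X / (d * 1)) * HBa (9 * (V * (a * b) ^ 3)) (X / (B0 * d))) ≤
      V ^ (-(1 / 3) : ℝ) * K ^ (2 / 3 : ℝ) / a *
        (3 * (K ^ (2 / 3 : ℝ) * X ^ (2 / 3 : ℝ) / B1 *
          MTL537.ML (9 * (Z * (E0 * D) ^ 3)) (X / B1))) := by
  have hB0 : 0 < B0 := by linarith
  have ha0 : 0 < a := by linarith
  have hb0 : 0 < b := by linarith
  have hd0 : 0 < d := by linarith
  have hD0 : 0 < D := by linarith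
  have hE0 : 0 < E0 := by linarith
  have hZ0 : 0 < Z := by linarith
  set x := a * b with hx
  have hx0 : 0 < x := by positivity
  have hW0 : 0 < 9 * (V * x ^ 3) := by positivity
  rw [HBa_ML hW0 (by positivity), mul_one]
  have e1 : (9 * (V * x ^ 3)) ^ ((1 : ℝ) / 3) = 9 ^ ((1 : ℝ) / 3) * (V ^ ((1 : ℝ) / 3) * x) := by
    rw [Real.mul_rpow (by norm_num) (by positivity), Real.mul_rpow hV.le (by positivity)]
    congr 2
    rw [← Real.rpow_natCast, ← Real.rpow_mul hx0.le]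
    norm_num
  have e2 : x ^ (-(2 : ℝ)) = (x ^ 2)⁻¹ := by
    rw [Real.rpow_neg hx0.le]
    congr 1
    exact_mod_cast Real.rpow_natCast x 2
  have e3 : V ^ (-(2 : ℝ) / 3) * V ^ ((1 : ℝ) / 3) = V ^ (-(1 / 3) : ℝ) := by
    rw [← Real.rpow_add hV]; norm_num
  have e4 : K ^ ((4 : ℝ) / 3) = K ^ (2 / 3 : ℝ) * K ^ (2 / 3 : ℝ) := by
    rw [← Real.rpow_add hK]; norm_num
  have e5 : X ^ (-(1 : ℝ) / 3) * X = X ^ (2 / 3 : ℝ) := by
    nth_rewrite 2 [← Real.rpow_one X]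
    rw [← Real.rpow_add hX]; norm_num
  have e6 : d ^ ((1 : ℝ) / 3) / d ≤ 1 := by
    rw [div_le_one hd0]
    calc d ^ ((1 : ℝ) / 3) ≤ d ^ (1 : ℝ) :=
          Real.rpow_le_rpow_of_exponent_le (by linarith) (by norm_num)
      _ = d := Real.rpow_one d
  have e7 : (9 : ℝ) ^ ((1 : ℝ) / 3) ≤ 3 := by
    calc (9 : ℝ) ^ ((1 : ℝ) / 3) ≤ 9 ^ ((1 : ℝ) / 2) :=
          Real.rpow_le_rpow_of_exponent_le (by norm_num) (by norm_num)
      _ = 3 := by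
          rw [show (9 : ℝ) = 3 ^ (2 : ℝ) by norm_num, ← Real.rpow_mul (by norm_num)]
          norm_num
  have e8 : MTL537.ML (9 * (V * x ^ 3)) (X / (B0 * d)) ≤
      MTL537.ML (9 * (Z * (E0 * D) ^ 3)) (X / B1) := by
    refine MTL537.ML_mono hW0.le (by positivity) ?_ ?_
    · have : x ≤ E0 * D := mul_le_mul haE (hbd.trans hd) hb0.le hE0.le
      gcongr
    · refine div_le_div_of_nonneg_left hX.le hB1 (hB.trans ?_)
      exact le_mul_of_one_le_right hB0.le (by linarith)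
  have hM0 : 0 ≤ MTL537.ML (9 * (V * x ^ 3)) (X / (B0 * d)) :=
    MTL537.ML_nonneg hW0.le (by positivity)
  have e9 : x / x ^ 2 ≤ 1 / a := by
    rw [hx]
    rw [div_le_div_iff₀ (by positivity) ha0]
    have : (a * b) * a ≤ (a * b) * (a * b) :=
      mul_le_mul_of_nonneg_left (le_mul_of_one_le_right ha0.le hb) (by positivity)
    nlinarith
  rw [e1, e2, e4]
  calc V ^ (-(2 : ℝ) / 3) * (x ^ 2)⁻¹ * (K ^ (2 / 3 : ℝ) * K ^ (2 / 3 : ℝ)) *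
        (d ^ ((1 : ℝ) / 3) * X ^ (-(1 : ℝ) / 3)) *
        (B0⁻¹ * (X / d) * (9 ^ ((1 : ℝ) / 3) * (V ^ ((1 : ℝ) / 3) * x) *
          MTL537.ML (9 * (V * x ^ 3)) (X / (B0 * d))))
      = (V ^ (-(2 : ℝ) / 3) * V ^ ((1 : ℝ) / 3)) * K ^ (2 / 3 : ℝ) * (x / x ^ 2) *
        ((d ^ ((1 : ℝ) / 3) / d) * 9 ^ ((1 : ℝ) / 3) * (K ^ (2 / 3 : ℝ) *
          (X ^ (-(1 : ℝ) / 3) * X) / B0 * MTL537.ML (9 * (V * x ^ 3)) (X / (B0 * d)))) := by
        field_simp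
    _ ≤ (V ^ (-(2 : ℝ) / 3) * V ^ ((1 : ℝ) / 3)) * K ^ (2 / 3 : ℝ) * (1 / a) *
        (1 * 3 * (K ^ (2 / 3 : ℝ) *
          (X ^ (-(1 : ℝ) / 3) * X) / B1 * MTL537.ML (9 * (Z * (E0 * D) ^ 3)) (X / B1))) := by
        gcongr
    _ = _ := by rw [e3, e5]; ring

lemma nm_kw9 {p : ℕ × ℕ} (hp : p ∈ T9) : (nm (kw p) : ℝ) ≤ 9 := by
  have hw : nm (w : Eis) = 1 := by decide
  have hl : nm (lam : Eis) = 3 := by decide
  unfold RGw813.T9 at hp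
  rw [Finset.mem_product, Finset.mem_range, Finset.mem_range] at hp
  unfold MoL106.kw
  rw [nm_mul, nm_pow, nm_pow, hw, hl]
  push_cast
  have h1 : (3 : ℝ) ^ p.2 ≤ 3 ^ 2 := pow_le_pow_right₀ (by norm_num) (by omega)
  norm_num at h1 ⊢
  linarith

lemma fin_reb {q C i2 A B U m : ℝ} (hq : 1 ≤ q) (hC : 0 ≤ C) (hi : 0 ≤ i2) (hA : 0 ≤ A)
    (hB : 0 ≤ B) (hU : 0 ≤ U) (hm : m ≤ 1) :
    100 * A + 300 * C * q * B + i2 * U + m ≤ q * ((100 + 300 * C + i2 + 1) * (A + B + U + 1)) := by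
  have a1 : 100 * A ≤ q * (100 * A) := le_mul_of_one_le_left (by positivity) hq
  have a2 : i2 * U ≤ q * (i2 * U) := le_mul_of_one_le_left (by positivity) hq
  have a4 : (0 : ℝ) ≤ 100 * (B + U + 1) + 300 * C * (A + U + 1) + i2 * (A + B + 1) +
      (A + B + U) := by positivity
  have a5 : 100 * A + 300 * C * B + i2 * U + 1 ≤ (100 + 300 * C + i2 + 1) * (A + B + U + 1) := by
    have e1 : (100 + 300 * C + i2 + 1) * (A + B + U + 1) =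
        (100 * A + 300 * C * B + i2 * U + 1) + (100 * (B + U + 1) + 300 * C * (A + U + 1) +
          i2 * (A + B + 1) + (A + B + U)) := by ring
    linarith
  calc 100 * A + 300 * C * q * B + i2 * U + m
      ≤ q * (100 * A) + 300 * C * q * B + q * (i2 * U) + q := by linarith
    _ = q * (100 * A + 300 * C * B + i2 * U + 1) := by ring
    _ ≤ _ := mul_le_mul_of_nonneg_left a5 (by linarith)

lemma exp_eta {η : ℝ} (hη : 0 < η) (hη1 : η ≤ 1 / 2) : Real.exp η < 2 ∧ Real.exp (η / 2) < 2 := by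
  have h2 := Real.log_two_gt_d9
  have h3 : Real.exp (Real.log 2) = 2 := Real.exp_log (by norm_num)
  exact ⟨lt_of_lt_of_eq (Real.exp_lt_exp.2 (by linarith)) h3,
    lt_of_lt_of_eq (Real.exp_lt_exp.2 (by linarith)) h3⟩

/-- the support of the windowed sequence -/
lemma bw_win {φ : ℝ → ℝ} {p : ℕ × ℕ} {t₀ η X' : ℝ} {x : Eis → ℂ} (hη : 0 < η) (hη1 : η ≤ 1 / 2)
    (hX' : 0 < X') (hφ : ∀ u, φ u ≠ 0 → |u - Real.log X'| ≤ η / 2) (hx : FS x) {n : Eis}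
    (hn : bw φ p t₀ x n ≠ 0) :
    x n ≠ 0 ∧ X' * Real.exp (η / 2) / 2 < nm n ∧ (nm n : ℝ) ≤ X' * Real.exp (η / 2) := by
  have h1 : x n ≠ 0 := QsO83.bw_ne hn
  have h2 : φ (Real.log (nm n)) ≠ 0 := by
    unfold QsO83.bw RGw813.bt at hn
    exact (Win813.wn_ne (RGw813.tw2_ne (left_ne_zero_of_mul hn))).2
  have h3 := abs_le.1 (hφ _ h2)
  have hn0 : (0 : ℝ) < nm n := by exact_mod_cast nm_pos.2 (hx.prim n h1).ne_zero
  have e1 : X' * Real.exp (η / 2) = Real.exp (Real.log X' + η / 2) := by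
    rw [Real.exp_add, Real.exp_log hX']
  refine ⟨h1, ?_, ?_⟩
  · have h4 : Real.exp (Real.log X' - η / 2) ≤ nm n := by
      rw [← Real.exp_log hn0]
      exact Real.exp_le_exp.2 (by linarith [h3.1])
    refine lt_of_lt_of_le ?_ h4
    rw [e1]
    have h5 : Real.exp (Real.log X' + η / 2) =
        Real.exp (Real.log X' - η / 2) * Real.exp η := by
      rw [← Real.exp_add]; congr 1; ring
    rw [h5]
    have h6 := (exp_eta hη hη1).1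
    have h7 := Real.exp_pos (Real.log X' - η / 2)
    have h8 : Real.exp (Real.log X' - η / 2) * Real.exp η <
      Real.exp (Real.log X' - η / 2) * 2 := mul_lt_mul_of_pos_left h6 h7
    linarith
  · rw [e1, ← Real.exp_log hn0]
    exact Real.exp_le_exp.2 (by linarith [h3.2])

set_option maxHeartbeats 1000000 in
open Classical in
/-- **`REb` of one windowed sequence and one piece** -/
theorem reb_x {w : ℝ → ℝ} {N : ℕ} {M : ℝ} {F : ℕ → ℝ → ℂ} (hD : WD w N M F) {ε : ℝ} (hε : 0 < ε)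
    {R : ℝ} (hR : 0 ≤ R) (a Jt Aw : ℕ) (hJ : 12 ≤ Jt) (hAw : Jt + 2 ≤ Aw) {C0 : ℝ}
    (hC0 : 0 ≤ C0) :
    ∃ (b : ℕ) (Cz C : ℝ), 1 ≤ Cz ∧ 0 ≤ C ∧
    ∀ (P Kb Xn X' E0 N₁ D Ax Axp d0 Zp h Cw η t₀ : ℝ) (I k : ℕ) (x : Eis → ℂ) (φ : ℝ → ℝ)
      (p : ℕ × ℕ), 1 ≤ P → 0 < Kb → (∀ i < N, sc Kb M i ≤ P ∧ (sc Kb M i)⁻¹ ≤ P) → 0 < Xn →
      Xn ≤ P → 0 < X' → 2 * X' ≤ P → 1 ≤ E0 → 1 ≤ N₁ → (2 : ℝ) ^ I ≤ 2 * N₁ → 1 ≤ D →
      9 * (N₁ * (E0 * D) ^ 3) ≤ P → 0 ≤ h → Real.exp h ≤ P →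
      0 ≤ Cw → 0 < η → η ≤ 1 / 2 → WK Cw η Aw φ → (∀ u, φ u ≠ 0 → |u - Real.log X'| ≤ η / 2) →
      p ∈ T9 → FS x → (∀ n, x n ≠ 0 → Squarefree n) →
      (∀ n, x n ≠ 0 → |Real.log (nm n) - Real.log Xn| ≤ R) → 0 ≤ Ax → (∀ n, ‖x n‖ ≤ Ax) →
      Cw * iA Aw * Ax ≤ P ^ a → 0 ≤ Axp → PV (fun H => ∃ c, H = c ^ 3) 6 Axp d0 Zp x →
      Cz * P ^ b * 81 ≤ Zp →
      ∀ M0 : ℝ, 0 ≤ M0 → ∀ i < N,
      (∀ δ ∈ S D, ∀ i' ∈ neb δ N₁ N₁ I, ∀ e ∈ S E0, ∀ y ∈ prs δ, ∀ A ∈ pdiv y.1,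
        (nm y.1 : ℝ) ≤ X' * Real.exp (η / 2) →
        ∃ (k₀ : ℕ) (jm : Eis → ℕ → ℕ → ℕ → Prop), k ≤ k₀ ∧ (∀ c ∈ C4, ∀ l u j, jm c l u j →
          ∀ j₂ ∈ Tb (N₁ / 2 ^ i') e A c l,
            ((2 : ℝ) ^ j * 2 ^ u) ^ 2 ≤ C0 * RR (N₁ / 2 ^ i') e A c j₂) ∧
          NPH (ε / 2) P Jt (N₁ / 2 ^ i') (sc Kb M i) (Real.exp h) (2 ^ k₀)
            (X' * Real.exp (η / 2)) x φ p t₀ δ e A y jm M0) →
      REb (bw φ p t₀ x) (sc Kb M i) (GF (Fh (F i) h)) (S D) I E0 N₁ N₁ ≤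
        C * P ^ (3 * ε) * I * (D * M0 + D * (Cw ^ 2 * (η⁻¹) ^ Jt * (1 + |t₀|) ^ Jt * Ax ^ 2 *
          (sc Kb M i ^ (2 / 3 : ℝ) * Xn ^ (2 / 3 : ℝ) / 2 ^ k *
            MTL537.ML (9 * (N₁ * (E0 * D) ^ 3)) (Xn / 2 ^ k))) +
          (Cw * (η⁻¹) ^ 6 * (1 + |t₀|) ^ 6 * Axp) ^ 2 *
            RPn d0 (sc Kb M i) N₁ (X' * Real.exp (η / 2)) (nm (kw p)) (Real.exp h) 1 E0 + 1) := by
  obtain ⟨Mk, b, Cz, C₁, hCz, hC₁, H₁⟩ := qs_x hε a 4 Jt hJ hC0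
  obtain ⟨cc, hcc, Hk⟩ := kd_all hD Jt Mk 1
  obtain ⟨C₂, hC₂, H₂⟩ := PJ_ls hε Jt Aw hAw hR
  obtain ⟨C₃, hC₃, H₃⟩ := REb_fin hε
  set iq : ℝ := iA (Aw - 6) with hiq
  have hiq0 : 0 ≤ iq := iA_nonneg _
  refine ⟨b, Cz, C₃ * (C₁ * cc ^ 2) * (100 + 300 * C₂ + iq ^ 2 + 1), hCz, by positivity, ?_⟩
  intro P Kb Xn X' E0 N₁ D Ax Axp d0 Zp h Cw η t₀ I k x φ p hP hKb hsc hXn hXnP hX' hX'P hE0
    hN₁ hI hD1 hbig hh hHP hCw hη hη1 hφ hφw hp hx hxs hxw hAx hxA hAxP hAxp hPV hZp M0 hM0 i hi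
    hcell
  have hP0 : 0 < P := by linarith
  have hED : 1 ≤ E0 * D := one_le_mul_of_one_le_of_one_le hE0 hD1
  have hED3 : E0 * D ≤ (E0 * D) ^ 3 := le_self_pow₀ hED (by norm_num)
  have hED1 : 1 ≤ (E0 * D) ^ 3 := one_le_pow₀ hED
  have hEDE : E0 ≤ E0 * D := le_mul_of_one_le_right (by linarith) hD1
  have hEDD : D ≤ E0 * D := le_mul_of_one_le_left (by linarith) hE0
  have hNED : (E0 * D) ^ 3 ≤ N₁ * (E0 * D) ^ 3 := le_mul_of_one_le_left (by linarith) hN₁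
  have hNN : N₁ ≤ N₁ * (E0 * D) ^ 3 := le_mul_of_one_le_right (by linarith) hED1
  have hE0P : E0 ≤ P := by linarith
  have hDP : D ≤ P := by linarith
  have hN₁P : N₁ ≤ P := by linarith
  have h9P : 9 ≤ P := by linarith
  obtain ⟨hκP, hκi⟩ := hsc i hi
  have hκ0 : 0 < sc Kb M i := WDec180.sc_pos hKb M i
  set κ := sc Kb M i with hκ
  obtain ⟨om, hom⟩ := Hk i hi h hh
  have hexp := exp_eta hη hη1
  set X2 := X' * Real.exp (η / 2) with hX2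
  have hX20 : 0 < X2 := by positivity
  have hX2P : X2 ≤ P := by
    refine le_trans ?_ hX'P
    rw [hX2]
    have := mul_lt_mul_of_pos_left hexp.2 hX'
    linarith
  have hH1 : 1 ≤ Real.exp h := Real.one_le_exp hh
  have hfs : FS (bw φ p t₀ x) := FS_bw hx
  have hsup : ∀ n, bw φ p t₀ x n ≠ 0 → X2 / 2 < nm n ∧ (nm n : ℝ) ≤ X2 :=
    fun n hn => (bw_win hη hη1 hX' hφw hx hn).2
  have hsq : ∀ n, bw φ p t₀ x n ≠ 0 → Squarefree n := fun n hn => hxs n (QsO83.bw_ne hn)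
  have hnorm : ∀ n, ‖bw φ p t₀ x n‖ ≤ P ^ a := by
    intro n
    refine le_trans ?_ hAxP
    refine (LBo813.norm_bt_le hφ hη (by omega) hx p t₀ n).trans ?_
    exact mul_le_mul_of_nonneg_left (hxA n) (mul_nonneg hCw (iA_nonneg _))
  have hkw := nm_kw9 hp
  have hkw1 : (1 : ℝ) ≤ nm (kw p) := one_le_nm (kw_ne p)
  set Axb : ℝ := Cw * iA (Aw - 6) * (η⁻¹) ^ 6 * (1 + |t₀|) ^ 6 * Axp with hAxb
  have hPVb : PV (fun H => ∃ c, H * kw p ^ 2 = c ^ 3) 6 Axb d0 (Zp / (nm (kw p) : ℝ) ^ 2)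
      (bw φ p t₀ x) :=
    PrD502.pv_bw hx hPV hAxp hφ hCw hη (by linarith) (by omega) p t₀
  have hZb : Cz * P ^ b ≤ Zp / (nm (kw p) : ℝ) ^ 2 := by
    rw [le_div_iff₀ (by positivity)]
    refine le_trans ?_ hZp
    have : (nm (kw p) : ℝ) ^ 2 ≤ 81 := by nlinarith
    exact mul_le_mul_of_nonneg_left this (by positivity)
  set W : ℝ := κ ^ (2 / 3 : ℝ) * Xn ^ (2 / 3 : ℝ) / 2 ^ k *
    MTL537.ML (9 * (N₁ * (E0 * D) ^ 3)) (Xn / 2 ^ k) with hW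
  have hW0 : 0 ≤ W := by
    have := MTL537.ML_nonneg (V := 9 * (N₁ * (E0 * D) ^ 3)) (N := Xn / 2 ^ k) (by positivity)
      (by positivity)
    positivity
  set Cp : ℝ := C₂ * Cw ^ 2 * (η⁻¹) ^ Jt * P ^ ε * (1 + |t₀|) ^ Jt * Ax ^ 2 with hCp
  have hCp0 : 0 ≤ Cp := by positivity
  set G : ℝ := C₁ * cc ^ 2 * P ^ ε with hG
  have hG0 : 0 ≤ G := by positivity
  have ht0 : 0 ≤ (P ^ 4)⁻¹ := by positivity
  have hS1 : IsPrim (1 : Eis) := by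
    have := hx
    exact isPrim_one
  have key := H₃ P κ X2 E0 N₁ N₁ (nm (kw p)) (Real.exp h) d0 Axb G ((P ^ 4)⁻¹) (S D) I
    (GF (Fh (F i) h)) (bw φ p t₀ x) hP hκ0 hκi hX20 (by linarith) hN₁P hE0 hE0P
    (fun δ hδ => by
      rw [mem_S (by linarith)] at hδ
      rw [mem_S hP0.le]
      exact ⟨hδ.1.trans hDP, hδ.2⟩) (by linarith) (Real.exp_pos _) hG0 ht0
    (fun _ => M0 + Cp * (3 * W)) (fun δ _ => by positivity) ?_
  swap
  · intro δ hδ i' hi' e he y hy A hA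
    rw [mem_S (by linarith)] at hδ
    obtain ⟨hδD, hδp, hδs⟩ := hδ
    have hep := S_prim he
    have heE : (nm e : ℝ) ≤ E0 := ((mem_S (by linarith)).1 he).1
    have hiI : i' < I := by
      unfold LBx48.neb at hi'
      exact Finset.mem_range.1 (Finset.mem_filter.1 hi').1
    have h2i : (0 : ℝ) < 2 ^ i' := by positivity
    have hV1 : 1 ≤ N₁ / 2 ^ i' := by
      rw [le_div_iff₀ h2i, one_mul]
      have h1 : (2 : ℝ) ^ (i' + 1) ≤ 2 ^ I := pow_le_pow_right₀ (by norm_num) hiI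
      rw [pow_succ] at h1
      linarith
    have hVN : N₁ / 2 ^ i' ≤ N₁ := div_le_self (by linarith) (one_le_pow₀ (by norm_num))
    set V := N₁ / 2 ^ i' with hVd
    have hV0 : 0 < V := by linarith
    obtain ⟨hy1, hy2, hye⟩ := (mem_prs hδp).mp hy
    obtain ⟨hAp, hAd⟩ := (mem_pdiv hy1.ne_zero).mp hA
    have hA1 : (1 : ℝ) ≤ nm A := one_le_nm hAp.ne_zero
    have he1 : (1 : ℝ) ≤ nm e := one_le_nm hep.ne_zero
    have hyδ : (nm y.1 : ℝ) ≤ nm δ := by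
      rw [← hye, nm_mul]
      push_cast
      exact le_mul_of_one_le_right (by positivity) (one_le_nm hy2.ne_zero)
    have hAδ : (nm A : ℝ) ≤ nm δ := by
      refine le_trans ?_ hyδ
      exact_mod_cast Div277.nm_le_of_dvd hy1.ne_zero hAd
    have hPJ0 : 0 ≤ (Axb / nm y.1) ^ 2 * PJm κ V (X2 / nm y.1) (nm (e * A)) (nm (kw p))
        (nm y.2) (Real.exp h) (Mu d0 y.1) 1 :=
      mul_nonneg (sq_nonneg _) (PJm_nonneg hκ0.le hV0.le (by positivity)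
        (Nat.cast_nonneg _) (Nat.cast_nonneg _) (Nat.cast_nonneg _) (Real.exp_pos _).le
        (by unfold PrD502.Mu; positivity) zero_le_one)
    by_cases hyX : (nm y.1 : ℝ) ≤ X2
    swap
    · have hz : ∑ c ∈ C4, ∑ j₂ ∈ S (Real.sqrt V), Qs (bw φ p t₀ x) δ e V κ
          (GF (Fh (F i) h)) y A c j₂ = 0 := by
        refine Finset.sum_eq_zero fun c _ => Finset.sum_eq_zero fun j₂ _ => ?_
        exact E2440.Qs_zero (fun n hn => (hsup n hn).2) hV0.le _ hfs hδp hy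
          (fun hcon => hyX hcon.2)
      rw [hz]
      positivity
    obtain ⟨k₀, jm, hkk, hjm, hNP⟩ := hcell δ (by rw [mem_S (by linarith)]; exact ⟨hδD, hδp, hδs⟩) i' hi'
      e he y hy A hA hyX
    have hSz : ∀ c ∈ C4, QsJ401.Sz P X2 V κ (Real.exp h) δ e A c y := fun c hc =>
      { P1 := hP, H1 := hH1, HP := hHP, XP := hX2P, VP := hVN.trans hN₁P, V1 := hV1, K0 := hκ0,
        KiP := hκi, KP := hκP, δp := hδp, δs := hδs, δP := hδD.trans hDP, ep := hep,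
        eP := heE.trans hE0P, hy := hy, hA := hA, yX := hyX, hc := hc }
    have k1 := H₁ P (GF (Fh (F i) h)) cc (Real.exp h) om hcc hom X2 V κ k₀ x φ p t₀ hx hsq hsup
      hnorm (hkw.trans h9P) Axb d0 (Zp / (nm (kw p) : ℝ) ^ 2) hZb hPVb δ e A y hSz jm M0 hM0 hjm
      hNP
    refine k1.trans ?_
    refine mul_le_mul_of_nonneg_left ?_ hG0
    have hneA : (nm (e * A) : ℝ) = nm e * nm A := by rw [nm_mul]; push_cast; ring
    have hwt : V ^ (-(1 : ℝ) / 3) * κ ^ ((2 : ℝ) / 3) / nm (e * A) * M0 ≤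
        V ^ (-(1 / 3) : ℝ) * κ ^ (2 / 3 : ℝ) / nm e * M0 := by
      refine mul_le_mul_of_nonneg_right ?_ hM0
      rw [show (-(1 : ℝ) / 3) = (-(1 / 3) : ℝ) by norm_num, hneA]
      refine div_le_div_of_nonneg_left (by positivity) (by linarith) ?_
      exact le_mul_of_one_le_right (by linarith) hA1
    have hpt : PTs (bw φ p t₀ x) δ e V κ X2 (2 ^ k₀) y A ≤
        V ^ (-(1 / 3) : ℝ) * κ ^ (2 / 3 : ℝ) / nm e * (Cp * (3 * W)) := by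
      refine (PTs_le hV0.le hκ0.le).trans ?_
      have k2 := H₂ (Real.exp R * Xn) Xn P Ax x δ 1 (by positivity) hXn hAx hP hXnP
        (fun n hn => by
          rw [mem_S (by positivity)]
          exact ⟨MTX241.nm_le_win hXn (hx.prim n hn).ne_zero (hxw n hn), hx.prim n hn, hxs n hn⟩)
        hxw hxA (fun n _ => one_dvd n) hS1 hδp isCoprime_one_left Cw η φ hCw hη (by linarith) hφ p hp
        t₀ e hep V κ (2 ^ k₀) X2 hV0 hκ0.le hX20.le hX2P (by positivity) y hy A hA (by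
          rw [hneA]
          refine le_trans ?_ hbig
          have h3 : (nm e : ℝ) * nm A ≤ E0 * D :=
            mul_le_mul heE (hAδ.trans hδD) (by positivity) (by linarith)
          gcongr)
      refine le_trans (le_of_eq ?_) (k2.trans ?_)
      · rfl
      · have k3 := pol_num (V := V) (K := κ) (X := Xn) (B0 := 2 ^ k₀) (B1 := 2 ^ k) (Z := N₁)
          (E0 := E0) (D := D) (a := nm e) (b := nm A) (d := nm δ) hV0 hVN hκ0 hXn (by positivity)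
          (pow_le_pow_right₀ (by norm_num) hkk) he1 heE hA1 hAδ hδD
        unfold MTX241.nLS
        rw [hneA]
        have k4 : ((nm (1 : Eis) : ℕ) : ℝ) = 1 := by simp
        rw [k4]
        calc _ ≤ Cp * (V ^ (-(1 / 3) : ℝ) * κ ^ (2 / 3 : ℝ) / nm e * (3 * W)) :=
              mul_le_mul_of_nonneg_left k3 hCp0
          _ = _ := by ring
    calc _ ≤ V ^ (-(1 / 3) : ℝ) * κ ^ (2 / 3 : ℝ) / nm e * M0 +
          (Axb / nm y.1) ^ 2 * PJm κ V (X2 / nm y.1) (nm (e * A)) (nm (kw p)) (nm y.2)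
            (Real.exp h) (Mu d0 y.1) 1 + (P ^ 4)⁻¹ +
          V ^ (-(1 / 3) : ℝ) * κ ^ (2 / 3 : ℝ) / nm e * (Cp * (3 * W)) :=
          add_le_add (add_le_add (add_le_add hwt le_rfl) le_rfl) hpt
      _ = _ := by ring
  refine key.trans ?_
  have hRP0 : 0 ≤ RPn d0 κ N₁ X2 (nm (kw p)) (Real.exp h) 1 E0 :=
    PrE176.RPn_nonneg hκ0.le (by linarith) hX20.le (by linarith) (Real.exp_pos _).le zero_le_one
      (by linarith)
  rw [max_eq_left (by linarith : (0 : ℝ) ≤ N₁), Finset.sum_const, nsmul_eq_mul]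
  have hcard : ((S D).card : ℝ) ≤ 100 * D := card_S_le' hD1
  have hP4 : P ^ 3 * (P ^ 4)⁻¹ ≤ 1 := by
    rw [← div_eq_mul_inv, div_le_one (by positivity)]
    exact pow_le_pow_right₀ hP (by norm_num)
  set q : ℝ := P ^ ε with hq
  have hq1 : 1 ≤ q := Real.one_le_rpow hP hε.le
  have hq3 : P ^ (3 * ε) = q * q * q := by
    rw [hq, ← Real.rpow_add hP0, ← Real.rpow_add hP0]; congr 1; ring
  rw [hq3]
  set W1 : ℝ := Cw ^ 2 * (η⁻¹) ^ Jt * (1 + |t₀|) ^ Jt * Ax ^ 2 * W with hW1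
  have hW10 : 0 ≤ W1 := by positivity
  set U : ℝ := (Cw * (η⁻¹) ^ 6 * (1 + |t₀|) ^ 6 * Axp) ^ 2 *
    RPn d0 κ N₁ X2 (nm (kw p)) (Real.exp h) 1 E0 with hU
  have hU0 : 0 ≤ U := by positivity
  have e1 : Cp * (3 * W) = 3 * C₂ * q * W1 := by rw [hCp, hW1]; ring
  have e2 : Axb ^ 2 * RPn d0 κ N₁ X2 (nm (kw p)) (Real.exp h) 1 E0 = iq ^ 2 * U := by
    rw [hAxb, hU, hiq]; ring
  rw [e1, e2]
  have hI0 : (0 : ℝ) ≤ I := Nat.cast_nonneg _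
  have hD0 : 0 ≤ D := by linarith
  have s1 : ((S D).card : ℝ) * (M0 + 3 * C₂ * q * W1) ≤ 100 * D * (M0 + 3 * C₂ * q * W1) :=
    mul_le_mul_of_nonneg_right hcard (by positivity)
  have s2 : ((S D).card : ℝ) * (M0 + 3 * C₂ * q * W1) + iq ^ 2 * U + P ^ 3 * (P ^ 4)⁻¹ ≤
      q * ((100 + 300 * C₂ + iq ^ 2 + 1) * (D * M0 + D * W1 + U + 1)) := by
    refine le_trans ?_ (fin_reb hq1 hC₂ (sq_nonneg iq) (mul_nonneg hD0 hM0) (mul_nonneg hD0 hW10)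
      hU0 hP4)
    have e3 : 100 * D * (M0 + 3 * C₂ * q * W1) = 100 * (D * M0) + 300 * C₂ * q * (D * W1) := by ring
    rw [e3] at s1
    linarith
  calc C₃ * q * G * I * (((S D).card : ℝ) * (M0 + 3 * C₂ * q * W1) + iq ^ 2 * U +
        P ^ 3 * (P ^ 4)⁻¹)
      ≤ C₃ * q * G * I * (q * ((100 + 300 * C₂ + iq ^ 2 + 1) * (D * M0 + D * W1 + U + 1))) :=
        mul_le_mul_of_nonneg_left s2 (by positivity)
    _ = _ := by rw [hG]; ring

end Crest.Agent.R017.RCX385
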