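import Crest.Agent.R017.LSL_241
import Crest.Agent.R017.RCXd_385

/-!
# Row 17, T.7, exceptional class: the polar part of the `l`-terms, sharp in `δ` (helper241)

* `pts_lsumx` : the polar part of `RClX791.Qla_X` in the form of `RCX385.reb_x`
-/

set_option autoImplicit false
set_option maxHeartbeats 2000000

noncomputable section

open Complex Finset
open scoped ComplexConjugate Classical

namespace Crest.Agent.R017.LSL241

open Crest.Agent.R012 Crest.Agent.R012.Eis Crest.Agent.R012.Gauss880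
open Crest.Agent.R012.LS2 (S mem_S)
open Crest.Agent.R012.Mob705 (pdiv mem_pdiv)
open Crest.Agent.R012.Div277 (tau dvs mem_dvs tau_le_rpow nm_le_of_dvd)
open Crest.Agent.R017.CM106 (CS FS sub)
open Crest.Agent.R017.E2440 (RR prs mem_prs C4 mem_C4 ag MT PJ)
open Crest.Agent.R017.GKC739 (MTs PTs MTs_nonneg PTs_le)
open Crest.Agent.R017.MoCa83
open Crest.Agent.R017.RCl83 (RadOK sum_la alr_bw)
open Crest.Agent.R017.RClX791 (Sla)
open Crest.Agent.R017.QsO83 (bw)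
open Crest.Agent.R017.Win813 (WK iA iA_nonneg)
open Crest.Agent.R017.RGw813 (T9)
open Crest.Agent.R017.XHB411 (HBa)
open Crest.Agent.R017.MTX241 (nLS PJ_ls)
open Crest.Agent.R017.MTL537 (ML ML_nonneg sum_gcd)
open Crest.Agent.R017.RCX385 (pol_num)

/-- **the polar part of the `l`-terms**, no loss in `δ` -/
theorem pts_lsumx {ε : ℝ} (hε : 0 < ε) (J Aw : ℕ) (hJA : J + 2 ≤ Aw) {R : ℝ} (hR : 0 ≤ R) :
    ∃ C : ℝ, 1 ≤ C ∧
    ∀ (Y X Q Ax T : ℝ) (x : Eis → ℂ), 0 ≤ Y → 0 < X → 0 ≤ Ax → X ≤ Q →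
    (∀ n, x n ≠ 0 → n ∈ S Y) → (∀ n, x n ≠ 0 → |Real.log (nm n) - Real.log X| ≤ R) →
    (∀ n, ‖x n‖ ≤ Ax) → 1 ≤ T → T ≤ Q →
    ∀ (Cw η : ℝ) (φ : ℝ → ℝ), 0 ≤ Cw → 0 < η → η ≤ 1 → WK Cw η Aw φ → ∀ p ∈ T9, ∀ t₀ : ℝ,
    ∀ (Λ : Finset Eis) (ρ : Eis → Eis) (W Kl B0 : Eis → ℝ),
    RadOK T Λ ρ → (∀ k ∈ Λ, 0 ≤ W k ∧ 0 < Kl k ∧ 0 < B0 k) →
    ∀ δ : Eis, IsPrim δ → Squarefree δ → ∀ e : Eis, IsPrim e →
    ∀ Z E0 D V X' : ℝ, (nm e : ℝ) ≤ E0 → (nm δ : ℝ) ≤ D → D ≤ Q → 0 < V → V ≤ Z →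
    9 * (Z * (E0 * D) ^ 3) ≤ Q → 0 ≤ X' → X' ≤ Q →
    ∀ Nb : ℝ, 0 ≤ Nb → (∀ k ∈ Λ, W k * (Kl k ^ (2 / 3 : ℝ) * X ^ (2 / 3 : ℝ) / B0 k *
      ML (9 * (Z * (E0 * D) ^ 3)) (X / B0 k)) ≤ Nb) →
    ∀ y ∈ prs δ, ∀ A ∈ pdiv y.1,
    Sla Λ ρ W Kl δ (fun k a => PTs (alr (bw φ p t₀ x) a (ρ k / a)) δ e V (Kl k) X' (B0 k) y A) ≤
      C * Q ^ ε * (Cw ^ 2 * (η⁻¹) ^ J * (1 + |t₀|) ^ J * Ax ^ 2) *
        (V ^ (-(1 / 3) : ℝ) / nm e * Nb) := by
  have hε5 : 0 < ε / 5 := by linarith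
  obtain ⟨C₁, hC₁, h₁⟩ := PJ_ls hε5 J Aw hJA hR
  obtain ⟨C₂, hC₂, h₂⟩ := sum_la hε5
  obtain ⟨C₃, hC₃, hτ⟩ := tau_le_rpow hε5
  refine ⟨3 * C₁ * C₂ * C₃ ^ 2 * (100 * (1 + (ε / 5)⁻¹)) + 1, by
    have : 0 ≤ 3 * C₁ * C₂ * C₃ ^ 2 * (100 * (1 + (ε / 5)⁻¹)) := by positivity
    linarith, ?_⟩
  intro Y X Q Ax T x hY hX hAx hXQ hx hw hxA hT hTQ Cw η φ hCw hη hη1 hφ p hp t₀ Λ ρ W Kl B0 hΛ
    hpos δ hδ hδs e he Z E0 D V X' heE hδD hDQ hV hVZ hZQ hX'0 hX'Q Nb hNb hnum y hy A hA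
  have hQ1 : 1 ≤ Q := hT.trans hTQ
  have hQ0 : 0 < Q := by linarith
  have hT0 : 0 ≤ T := by linarith
  have hδ0 : (0 : ℝ) < nm δ := by exact_mod_cast nm_pos.2 hδ.ne_zero
  have hδ1 : (1 : ℝ) ≤ nm δ := by exact_mod_cast nm_pos.2 hδ.ne_zero
  have he0 : (0 : ℝ) < nm e := by exact_mod_cast nm_pos.2 he.ne_zero
  have he1 : (1 : ℝ) ≤ nm e := by exact_mod_cast nm_pos.2 he.ne_zero
  obtain ⟨hy1, hy2, hye⟩ := (mem_prs hδ).mp hy
  obtain ⟨hAp, hAd⟩ := (mem_pdiv hy1.ne_zero).mp hA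
  have hA1 : (1 : ℝ) ≤ nm A := by exact_mod_cast nm_pos.2 hAp.ne_zero
  have hyδ : (nm y.1 : ℝ) ≤ nm δ := by
    rw [← hye, nm_mul]
    push_cast
    have : (1 : ℝ) ≤ nm y.2 := by exact_mod_cast nm_pos.2 hy2.ne_zero
    exact le_mul_of_one_le_right (by positivity) this
  have hAδ : (nm A : ℝ) ≤ nm δ := by
    refine le_trans ?_ hyδ
    exact_mod_cast nm_le_of_dvd hy1.ne_zero hAd
  have hD0 : 0 < D := by linarith
  have hE00 : 0 < E0 := by linarith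
  have hZ0 : 0 < Z := by linarith
  have hneA : (nm (e * A) : ℝ) = nm e * nm A := by rw [nm_mul]; push_cast; ring
  have hVQ : 9 * (V * (nm (e * A) : ℝ) ^ 3) ≤ Q := by
    rw [hneA]
    refine le_trans ?_ hZQ
    have h3 : (nm e : ℝ) * nm A ≤ E0 * D :=
      mul_le_mul heE (hAδ.trans hδD) (by positivity) (by linarith)
    gcongr
  set q : ℝ := Q ^ (ε / 5) with hq
  have hq1 : 1 ≤ q := Real.one_le_rpow hQ1 hε5.le
  set v : ℝ := V ^ (-(1 / 3) : ℝ) with hv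
  have hv0 : 0 ≤ v := by rw [hv]; positivity
  set N : Eis → ℝ := fun k => Kl k ^ (2 / 3 : ℝ) * X ^ (2 / 3 : ℝ) / B0 k *
      ML (9 * (Z * (E0 * D) ^ 3)) (X / B0 k) with hN
  set G : ℝ := Cw ^ 2 * (η⁻¹) ^ J * (1 + |t₀|) ^ J * Ax ^ 2 with hG
  have hG0 : 0 ≤ G := by rw [hG]; positivity
  set g : Eis → ℝ := fun a => ∑ f ∈ dvs δ, (if f ∣ a then (nm f : ℝ) / nm a else 0) with hg
  have hg0 : ∀ a, 0 ≤ g a := fun a => Finset.sum_nonneg fun f _ => by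
    split_ifs
    · positivity
    · exact le_rfl
  -- one `(l, a)`
  have h3 : ∀ k ∈ Λ, ∀ a ∈ (dvs (ρ k)).filter (fun a => ρ k / a ∣ δ),
      PTs (alr (bw φ p t₀ x) a (ρ k / a)) δ e V (Kl k) X' (B0 k) y A ≤
        (v * Kl k ^ (2 / 3 : ℝ) / nm e) * ((3 * C₁ * q * G) * (g a * N k)) := by
    intro k hk a ha
    obtain ⟨hW0, hK0, hB0⟩ := hpos k hk
    have hρ := hΛ.rp k hk
    have ha' := (mem_dvs hρ.ne_zero).mp (Finset.mem_filter.1 ha).1
    have has : Squarefree a := (hΛ.rs k hk).squarefree_of_dvd ha'.2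
    have hap := ha'.1
    have ha0 : (0 : ℝ) < nm a := by exact_mod_cast nm_pos.2 hap.ne_zero
    obtain ⟨f, k1, k2, hf, hk1, hk2, e1, e2, hc12, hcf1, hcf2, -, hsk, -⟩ :=
      Tau671.exists_gcd_split hap hδ has hδs
    have hk10 : (0 : ℝ) < nm k1 := by exact_mod_cast nm_pos.2 hk1.ne_zero
    have hf0 : (0 : ℝ) < nm f := by exact_mod_cast nm_pos.2 hf.ne_zero
    have hcop : IsCoprime k1 δ := by
      rw [e2]
      exact IsCoprime.mul_right hcf1.symm hc12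
    have hk1a : k1 ∣ a := ⟨f, by rw [e1]; ring⟩
    have hfδ : f ∈ dvs δ := (mem_dvs hδ.ne_zero).2 ⟨hf, ⟨k2, e2⟩⟩
    have hgk : 1 / (nm k1 : ℝ) ≤ g a := by
      have h4 : 1 / (nm k1 : ℝ) = (if f ∣ a then (nm f : ℝ) / nm a else 0) := by
        rw [if_pos ⟨k1, e1⟩, e1, nm_mul]
        push_cast
        field_simp
      rw [h4, hg]
      exact Finset.single_le_sum (f := fun f => (if f ∣ a then (nm f : ℝ) / nm a else 0))
        (fun f _ => by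
          beta_reduce
          split_ifs
          · positivity
          · exact le_rfl) hfδ
    refine (PTs_le hV.le hK0.le).trans ?_
    have k2' := h₁ Y X Q Ax (alr x a (ρ k / a)) δ k1 hY hX hAx hQ1 hXQ
      (fun n hn => hx n (alr_ne hn).2.2) (fun n hn => hw n (alr_ne hn).2.2)
      (fun n => (norm_alr_le _ _ _ _).trans (hxA n)) (fun n hn => hk1a.trans (alr_ne hn).1)
      hk1 hδ hcop Cw η φ hCw hη hη1 hφ p hp t₀ e he V (Kl k) (B0 k) X' hV hK0.le hX'0 hX'Q hB0 y hy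
      A hA hVQ
    have e0 : alr (bw φ p t₀ x) a (ρ k / a) = bw φ p t₀ (alr x a (ρ k / a)) :=
      alr_bw φ p t₀ x a (ρ k / a)
    rw [e0]
    refine le_trans (le_of_eq ?_) (k2'.trans ?_)
    · rfl
    · have k3 := pol_num (V := V) (K := Kl k) (X := X) (B0 := B0 k) (B1 := B0 k) (Z := Z)
        (E0 := E0) (D := D) (a := nm e) (b := nm A) (d := nm δ) hV hVZ hK0 hX hB0 le_rfl
        he1 heE hA1 hAδ hδD
      unfold MTX241.nLS
      rw [hneA]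
      have hN0 : 0 ≤ N k := by
        have := ML_nonneg (V := 9 * (Z * (E0 * D) ^ 3)) (N := X / B0 k) (by positivity)
          (by positivity)
        rw [hN]; positivity
      have hvK : 0 ≤ v * Kl k ^ (2 / 3 : ℝ) / nm e := by positivity
      have hCG : 0 ≤ C₁ * q * G := by positivity
      calc C₁ * Cw ^ 2 * (η⁻¹) ^ J * q * (1 + |t₀|) ^ J * Ax ^ 2 *
          ((V ^ (-(2 : ℝ) / 3) * ((nm e : ℝ) * nm A) ^ (-(2 : ℝ)) * Kl k ^ ((4 : ℝ) / 3)) *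
            ((nm δ : ℝ) ^ ((1 : ℝ) / 3) * X ^ (-(1 : ℝ) / 3)) *
            ((B0 k)⁻¹ * (X / (nm δ * nm k1)) * HBa (9 * (V * ((nm e : ℝ) * nm A) ^ 3))
              (X / (B0 k * nm δ))))
          = (C₁ * q * G) * ((1 / (nm k1 : ℝ)) *
            ((V ^ (-(2 : ℝ) / 3) * ((nm e : ℝ) * nm A) ^ (-(2 : ℝ)) * Kl k ^ ((4 : ℝ) / 3)) *
            ((nm δ : ℝ) ^ ((1 : ℝ) / 3) * X ^ (-(1 : ℝ) / 3)) *
            ((B0 k)⁻¹ * (X / (nm δ * 1)) * HBa (9 * (V * ((nm e : ℝ) * nm A) ^ 3))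
              (X / (B0 k * nm δ))))) := by
            rw [hG]
            field_simp
        _ ≤ (C₁ * q * G) * (g a * (v * Kl k ^ (2 / 3 : ℝ) / nm e * (3 * N k))) := by
            refine mul_le_mul_of_nonneg_left ?_ hCG
            refine mul_le_mul hgk k3 ?_ (hg0 a)
            have := XHB411.HBa_nonneg (M := 9 * (V * ((nm e : ℝ) * nm A) ^ 3))
              (N := X / (B0 k * nm δ)) (by positivity) (by positivity)
            positivity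
        _ = _ := by ring
  have h4 : Sla Λ ρ W Kl δ (fun k a => PTs (alr (bw φ p t₀ x) a (ρ k / a)) δ e V (Kl k) X' (B0 k)
        y A) ≤ (v / nm e * (3 * C₁ * q * G)) *
        ∑ k ∈ Λ, ∑ a ∈ (dvs (ρ k)).filter (fun a => ρ k / a ∣ δ), g a * Nb := by
    unfold RClX791.Sla
    rw [Finset.mul_sum]
    refine Finset.sum_le_sum fun k hk => ?_
    obtain ⟨hW0, hK0, hB0⟩ := hpos k hk
    rw [Finset.mul_sum, Finset.mul_sum]
    refine Finset.sum_le_sum fun a ha => ?_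
    have h5 := h3 k hk a ha
    have hKK : Kl k ^ (-(2 / 3) : ℝ) * Kl k ^ (2 / 3 : ℝ) = 1 := by
      rw [← Real.rpow_add hK0]; norm_num
    have hWK : 0 ≤ W k * Kl k ^ (-(2 / 3) : ℝ) := by positivity
    calc W k * Kl k ^ (-(2 / 3) : ℝ) *
          PTs (alr (bw φ p t₀ x) a (ρ k / a)) δ e V (Kl k) X' (B0 k) y A
        ≤ W k * Kl k ^ (-(2 / 3) : ℝ) *
          ((v * Kl k ^ (2 / 3 : ℝ) / nm e) * ((3 * C₁ * q * G) * (g a * N k))) :=
          mul_le_mul_of_nonneg_left h5 hWK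
      _ = (Kl k ^ (-(2 / 3) : ℝ) * Kl k ^ (2 / 3 : ℝ)) * ((v / nm e * (3 * C₁ * q * G)) *
          (g a * (W k * N k))) := by ring
      _ = (v / nm e * (3 * C₁ * q * G)) * (g a * (W k * N k)) := by
          rw [hKK, one_mul]
      _ ≤ (v / nm e * (3 * C₁ * q * G)) * (g a * Nb) := by
          have h6 := hnum k hk
          have h7 : 0 ≤ v / nm e * (3 * C₁ * q * G) := by positivity
          have h8 := hg0 a
          gcongr
  -- the sum over `(l, a)`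
  have h5 := h₂ T Λ ρ hT hΛ (S T) (S T) (fun b hb hbs hbT => (mem_S hT0).2 ⟨hbT, hb, hbs⟩)
    (fun a ha has haT => (mem_S hT0).2 ⟨haT, ha, has⟩) (fun _ a => g a * Nb)
    (fun b _ a _ => mul_nonneg (hg0 a) hNb) (fun b => b ∣ δ)
  have hτδ : (tau δ : ℝ) ≤ C₃ * q := by
    refine (hτ δ hδ.ne_zero).trans ?_
    have : (nm δ : ℝ) ^ (ε / 5) ≤ q := Real.rpow_le_rpow hδ0.le (hδD.trans hDQ) hε5.le
    have hC30 : 0 ≤ C₃ := by linarith
    gcongr
  have h6 : ∑ b ∈ (S T).filter (fun b => b ∣ δ), ∑ a ∈ S T, g a * Nb ≤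
      (C₃ * q) * ((C₃ * q) * (100 * (1 + (ε / 5)⁻¹) * q)) * Nb := by
    rw [Finset.sum_const, nsmul_eq_mul, ← Finset.sum_mul]
    have hcard : (((S T).filter (fun b => b ∣ δ)).card : ℝ) ≤ C₃ * q := by
      have c1 : (S T).filter (fun b => b ∣ δ) ⊆ dvs δ := by
        intro b hb
        obtain ⟨h7, h8⟩ := Finset.mem_filter.1 hb
        exact (mem_dvs hδ.ne_zero).2 ⟨((mem_S hT0).1 h7).2.1, h8⟩
      have c2 : (((S T).filter (fun b => b ∣ δ)).card : ℝ) ≤ tau δ := by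
        have := Finset.card_le_card c1
        unfold Div277.tau
        exact_mod_cast this
      exact c2.trans hτδ
    have hlog : 1 + Real.log T ≤ (1 + (ε / 5)⁻¹) * q := by
      have l1 : Real.log T ≤ T ^ (ε / 5) / (ε / 5) := Real.log_le_rpow_div hT0 hε5
      have l2 : T ^ (ε / 5) ≤ q := Real.rpow_le_rpow hT0 hTQ hε5.le
      calc 1 + Real.log T ≤ q + q / (ε / 5) := by
            refine add_le_add hq1 (l1.trans ?_)
            gcongr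
        _ = _ := by rw [div_eq_mul_inv]; ring
    have hlog0 : 0 ≤ 1 + Real.log T := by linarith [Real.log_nonneg hT]
    have hsum := sum_gcd hT δ hδ.ne_zero
    have h9 : 0 ≤ ∑ a ∈ S T, g a := Finset.sum_nonneg fun a _ => hg0 a
    calc (((S T).filter (fun b => b ∣ δ)).card : ℝ) * ((∑ a ∈ S T, g a) * Nb)
        ≤ (C₃ * q) * (((C₃ * q) * (100 * ((1 + (ε / 5)⁻¹) * q))) * Nb) := by
          refine mul_le_mul hcard (mul_le_mul_of_nonneg_right (hsum.trans ?_) hNb)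
            (mul_nonneg h9 hNb) (by positivity)
          refine mul_le_mul hτδ ?_ (by positivity) (by positivity)
          linarith
      _ = _ := by ring
  have hTq : T ^ (ε / 5) ≤ q := Real.rpow_le_rpow hT0 hTQ hε5.le
  have hq5 : Q ^ ε = q * q * q * q * q := by
    rw [hq, ← Real.rpow_add hQ0, ← Real.rpow_add hQ0, ← Real.rpow_add hQ0, ← Real.rpow_add hQ0]
    congr 1; ring
  have hC20 : 0 ≤ C₂ := by linarith
  have hC30 : 0 ≤ C₃ := by linarith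
  have hF : 0 ≤ v / nm e * (3 * C₁ * q * G) := by positivity
  refine h4.trans ?_
  calc (v / nm e * (3 * C₁ * q * G)) *
        ∑ k ∈ Λ, ∑ a ∈ (dvs (ρ k)).filter (fun a => ρ k / a ∣ δ), g a * Nb
      ≤ (v / nm e * (3 * C₁ * q * G)) * (C₂ * q *
          ((C₃ * q) * ((C₃ * q) * (100 * (1 + (ε / 5)⁻¹) * q)) * Nb)) := by
        refine mul_le_mul_of_nonneg_left (h5.trans ?_) hF
        refine mul_le_mul (mul_le_mul_of_nonneg_left hTq hC20) h6 ?_ (by positivity)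
        exact Finset.sum_nonneg fun _ _ => Finset.sum_nonneg fun a _ => mul_nonneg (hg0 a) hNb
    _ = (3 * C₁ * C₂ * C₃ ^ 2 * (100 * (1 + (ε / 5)⁻¹))) * ((q * q * q * q * q) * G *
          (v / nm e * Nb)) := by ring
    _ ≤ (3 * C₁ * C₂ * C₃ ^ 2 * (100 * (1 + (ε / 5)⁻¹)) + 1) * ((q * q * q * q * q) * G *
          (v / nm e * Nb)) := by
        refine mul_le_mul_of_nonneg_right (by linarith) (by positivity)
    _ = _ := by rw [hq5]; ring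

end Crest.Agent.R017.LSL241
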