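import Crest.Agent.R017.MTLn_537

/-!
# Row 17, T.5 / T.7 (helper537): the number of the polar part, one dyadic block of `l`

* `ML_two`   : `ML V (2 N) ≤ 2 ML V N`
* `ml_blk`   : `κ = K e^(-3 t)`, `B0 = max (1/2) (κ² / (N₁ X))^(1/3)`, any level `V ≤ 9 N₁`
* `ml_blk'`  : the same with the losses `Ea`, `E` absorbed: `≤ 108 c² K X K^(-1/40)`
-/

set_option autoImplicit false

noncomputable section

namespace Crest.Agent.R017.MTL537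

lemma ML_two {V N : ℝ} (hV : 0 ≤ V) (hN : 0 ≤ N) : ML V (2 * N) ≤ 2 * ML V N := by
  unfold ML
  have h1 : (0 : ℝ) ≤ V ^ ((2 : ℝ) / 3) := by positivity
  have h2 : (0 : ℝ) ≤ V ^ ((1 : ℝ) / 3) := by positivity
  have h3 : (0 : ℝ) ≤ N ^ ((2 : ℝ) / 3) := by positivity
  have h4 : (2 * N) ^ ((2 : ℝ) / 3) ≤ 2 * N ^ ((2 : ℝ) / 3) := by
    rw [Real.mul_rpow (by norm_num) hN]
    have : (2 : ℝ) ^ ((2 : ℝ) / 3) ≤ 2 ^ (1 : ℝ) :=
      Real.rpow_le_rpow_of_exponent_le (by norm_num) (by norm_num)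
    rw [Real.rpow_one] at this
    gcongr
  have h5 : V ^ ((1 : ℝ) / 3) * (2 * N) ^ ((2 : ℝ) / 3) ≤
      V ^ ((1 : ℝ) / 3) * (2 * N ^ ((2 : ℝ) / 3)) := mul_le_mul_of_nonneg_left h4 h2
  linarith

/-- the crossing of one block -/
def B0c (K X N₁ t : ℝ) : ℝ :=
  max (1 / 2) (((K * Real.exp (-(3 * t))) ^ 2 / (N₁ * X)) ^ ((1 : ℝ) / 3))

lemma half_le_B0c (K X N₁ t : ℝ) : 1 / 2 ≤ B0c K X N₁ t := le_max_left _ _

lemma B0c_pos (K X N₁ t : ℝ) : 0 < B0c K X N₁ t :=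
  lt_of_lt_of_le (by norm_num) (half_le_B0c K X N₁ t)

/-- **the number of the polar part, one block of `l`** (`e^(-t)` = the weight of the block) -/
theorem ml_blk {K X N₁ V E c t : ℝ} (hK : 1 ≤ K) (hX : 0 < X) (hN : 0 < N₁) (hV0 : 0 ≤ V)
    (hV : V ≤ 9 * N₁) (hE : 1 ≤ E) (hc : 1 ≤ c) (ht : 0 ≤ t) (hn : X ^ 6 ≤ c * K ^ 5)
    (hv : N₁ ^ 3 ≤ c * K ^ 2) :
    Real.exp (-t) * ((K * Real.exp (-(3 * t))) ^ ((2 : ℝ) / 3) * X ^ ((2 : ℝ) / 3) /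
      B0c K X N₁ t * ML (E * V) (X / B0c K X N₁ t)) ≤
      108 * (K * X * (K ^ (-(1 / 36) : ℝ) * E * c ^ 2)) := by
  have hK0 : 0 < K := by linarith
  have hE0 : 0 < E := by linarith
  set B := B0c K X N₁ t with hB
  have hBh : 1 / 2 ≤ B := half_le_B0c K X N₁ t
  have hB0 : 0 < B := by linarith
  set κ := K * Real.exp (-(3 * t)) with hκ
  have hκ0 : 0 < κ := by positivity
  have hT : 1 ≤ Real.exp t := Real.one_le_exp ht
  have hT3 : K / Real.exp t ^ 3 = κ := by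
    rw [hκ, div_eq_mul_inv, ← Real.exp_nat_mul, ← Real.exp_neg]
    push_cast
    rfl
  have h9 : (1 : ℝ) ≤ 9 * E := by linarith
  have hcr : (κ ^ 2 / (N₁ * X)) ^ ((1 : ℝ) / 3) ≤ B := le_max_right _ _
  have hcr3 : κ ^ 2 ≤ N₁ * X * B ^ 3 := by
    have h1 : 0 ≤ κ ^ 2 / (N₁ * X) := by positivity
    have h2 : ((κ ^ 2 / (N₁ * X)) ^ ((1 : ℝ) / 3)) ^ 3 ≤ B ^ 3 :=
      pow_le_pow_left₀ (Real.rpow_nonneg h1 _) hcr 3
    have h3 : ((κ ^ 2 / (N₁ * X)) ^ ((1 : ℝ) / 3)) ^ 3 = κ ^ 2 / (N₁ * X) := by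
      rw [← Real.rpow_natCast, ← Real.rpow_mul h1]
      norm_num
    rw [h3, div_le_iff₀ (by positivity)] at h2
    linarith
  have hb : (K / Real.exp t ^ 3) ^ 2 ≤ c * (N₁ * X * (2 * B) ^ 3) := by
    rw [hT3]
    have h1 : 0 ≤ N₁ * X * B ^ 3 := by positivity
    have h2 : N₁ * X * (2 * B) ^ 3 = 8 * (N₁ * X * B ^ 3) := by ring
    rw [h2]
    nlinarith
  have h := ml_num' (K := K) (X := X) (Z := N₁) (E := 9 * E) (T := Real.exp t) (B0 := 2 * B)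
    (c := c) hK hX hN h9 hT hc (by linarith) hn hv hb
  rw [hT3, ← Real.exp_neg] at h
  have hM : ML (E * V) (X / B) ≤ 2 * ML (N₁ * (9 * E)) (X / (2 * B)) := by
    have h1 : X / B = 2 * (X / (2 * B)) := by field_simp
    rw [h1]
    refine le_trans (ML_mono (by positivity) (by positivity) ?_ le_rfl)
      (ML_two (by positivity) (by positivity))
    nlinarith
  have hM0 : 0 ≤ ML (N₁ * (9 * E)) (X / (2 * B)) := ML_nonneg (by positivity) (by positivity)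
  have hκ3 : 0 ≤ κ ^ ((2 : ℝ) / 3) * X ^ ((2 : ℝ) / 3) := by positivity
  calc Real.exp (-t) * (κ ^ ((2 : ℝ) / 3) * X ^ ((2 : ℝ) / 3) / B * ML (E * V) (X / B))
      ≤ Real.exp (-t) * (κ ^ ((2 : ℝ) / 3) * X ^ ((2 : ℝ) / 3) / B *
          (2 * ML (N₁ * (9 * E)) (X / (2 * B)))) := by gcongr
    _ = 4 * (Real.exp (-t) * (κ ^ ((2 : ℝ) / 3) * X ^ ((2 : ℝ) / 3) / (2 * B) *
          ML (N₁ * (9 * E)) (X / (2 * B)))) := by
        field_simp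
        ring
    _ ≤ 4 * (3 * (K * X * (K ^ (-(1 / 36) : ℝ) * (9 * E) * c ^ 2))) := by gcongr
    _ = 108 * (K * X * (K ^ (-(1 / 36) : ℝ) * E * c ^ 2)) := by ring

/-- **the same with the losses absorbed** -/
theorem ml_blk' {K X N₁ V E Ea c t : ℝ} (hK : 1 ≤ K) (hX : 0 < X) (hN : 0 < N₁) (hV0 : 0 ≤ V)
    (hV : V ≤ 9 * N₁) (hE : 1 ≤ E) (hEa : 0 ≤ Ea) (hEE : Ea * E ≤ K ^ ((1 : ℝ) / 360))
    (hc : 1 ≤ c) (ht : 0 ≤ t) (hn : X ^ 6 ≤ c * K ^ 5) (hv : N₁ ^ 3 ≤ c * K ^ 2) :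
    Ea * (Real.exp (-t) * ((K * Real.exp (-(3 * t))) ^ ((2 : ℝ) / 3) * X ^ ((2 : ℝ) / 3) /
      B0c K X N₁ t * ML (E * V) (X / B0c K X N₁ t))) ≤
      108 * c ^ 2 * (K * X * K ^ (-(1 / 40) : ℝ)) := by
  have hK0 : 0 < K := by linarith
  have h := ml_blk hK hX hN hV0 hV hE hc ht hn hv
  have h2 : K ^ ((1 : ℝ) / 360) * K ^ (-(1 / 36) : ℝ) = K ^ (-(1 / 40) : ℝ) := by
    rw [← Real.rpow_add hK0]
    norm_num
  calc _ ≤ Ea * (108 * (K * X * (K ^ (-(1 / 36) : ℝ) * E * c ^ 2))) := by gcongr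
    _ = 108 * c ^ 2 * (K * X * ((Ea * E) * K ^ (-(1 / 36) : ℝ))) := by ring
    _ ≤ 108 * c ^ 2 * (K * X * (K ^ ((1 : ℝ) / 360) * K ^ (-(1 / 36) : ℝ))) := by
        have : 0 ≤ K ^ (-(1 / 36) : ℝ) := by positivity
        gcongr
    _ = _ := by rw [h2]

end Crest.Agent.R017.MTL537
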