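import Crest.Agent.R017.RClX3_791
import Crest.Agent.R017.MTLm_537

/-!
# Row 17, T.7, exceptional class: the polar part of the `l`-terms (helper241)

* `pts_lsum` : the polar part of `RClX791.Qla_X`, from the number of one `l`
* `pts_nb`   : the number of one `l` (any crossing `B0 ≥ 1/2` which is natural)
* `pts_blk`  : both together
-/

set_option autoImplicit false
set_option maxHeartbeats 400000

noncomputable section

open Complex Finset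
open scoped ComplexConjugate Classical

namespace Crest.Agent.R017.LSL241

open Crest.Agent.R012 Crest.Agent.R012.Eis Crest.Agent.R012.Gauss880
open Crest.Agent.R012.LS2 (S mem_S)
open Crest.Agent.R012.Mob705 (pdiv mem_pdiv)
open Crest.Agent.R012.Div277 (tau dvs mem_dvs tau_le_rpow nm_le_of_dvd)
open Crest.Agent.R017.CM106 (CS FS sub)
open Crest.Agent.R017.E2440 (RR prs mem_prs C4 mem_C4 ag MT PJ)
open Crest.Agent.R017.GKC739 (MTs PTs MTs_nonneg PTs_le)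
open Crest.Agent.R017.MoCa83
open Crest.Agent.R017.RCl83 (RadOK sum_la)
open Crest.Agent.R017.RClX791 (Sla)
open Crest.Agent.R017.MTL537 (ML ML_nonneg ML_two ML_mono mtl_PJ ml_num')

/-- **the polar part of the `l`-terms** -/
theorem pts_lsum {ε : ℝ} (hε : 0 < ε) {R : ℝ} (hR : 0 ≤ R) : ∃ C : ℝ, 1 ≤ C ∧
    ∀ (Y X Q Ax T : ℝ) (α : Eis → ℂ), 1 ≤ Y → 0 < X → 0 ≤ Ax → (∀ n, α n ≠ 0 → n ∈ S Y) →
    (∀ n, α n ≠ 0 → |Real.log (nm n) - Real.log X| ≤ R) → (∀ n, ‖α n‖ ≤ Ax) →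
    1 ≤ T → T ≤ Q → Y ≤ Q → ∀ (Λ : Finset Eis) (ρ : Eis → Eis) (W Kl B0 : Eis → ℝ),
    RadOK T Λ ρ → (∀ k ∈ Λ, 0 ≤ W k ∧ 0 < Kl k ∧ 0 < B0 k) →
    ∀ δ : Eis, IsPrim δ → Squarefree δ → ∀ e : Eis, IsPrim e →
    ∀ Z E0 D V X' : ℝ, (nm e : ℝ) ≤ E0 → (nm δ : ℝ) ≤ D → D ≤ Q → 0 < V →
    (nm δ : ℝ) ^ 2 * V < 2 * Z → 2 * (Z * (E0 * D) ^ 3) ≤ Q → 0 ≤ X' → X' ≤ Y →
    ∀ Nb : ℝ, 0 ≤ Nb → (∀ k ∈ Λ, W k * (Kl k ^ ((2 : ℝ) / 3) * X ^ ((2 : ℝ) / 3) / B0 k *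
      ML (2 * (Z * (E0 * D) ^ 3)) (X / B0 k)) ≤ Nb) →
    ∀ y ∈ prs δ, ∀ A ∈ pdiv y.1,
    Sla Λ ρ W Kl δ (fun k a => PTs (alr α a (ρ k / a)) δ e V (Kl k) X' (B0 k) y A) ≤
      C * Q ^ ε * Ax ^ 2 * nm δ * (V ^ (-(1 / 3) : ℝ) / nm e * Nb) := by
  have hε4 : 0 < ε / 4 := by linarith
  obtain ⟨C₁, hC₁, h₁⟩ := mtl_PJ hε4 hR
  obtain ⟨C₂, hC₂, h₂⟩ := sum_la hε4
  obtain ⟨C₃, hC₃, hτ⟩ := tau_le_rpow hε4
  refine ⟨C₁ * C₂ * C₃ * (100 * (1 + (ε / 4)⁻¹)) + 1, by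
    have : 0 ≤ C₁ * C₂ * C₃ * (100 * (1 + (ε / 4)⁻¹)) := by positivity
    linarith, ?_⟩
  intro Y X Q Ax T α hY hX hAx hα hw hαA hT hTQ hYQ Λ ρ W Kl B0 hΛ hpos δ hδ hδs e he Z E0 D V X'
    heE hδD hDQ hV hZ hZQ hX'0 hX'Y Nb hNb hnum y hy A hA
  have hQ1 : 1 ≤ Q := hT.trans hTQ
  have hQ0 : 0 < Q := by linarith
  have hT0 : 0 ≤ T := by linarith
  have hδ0 : (0 : ℝ) < nm δ := by exact_mod_cast nm_pos.2 hδ.ne_zero
  have he0 : (0 : ℝ) < nm e := by exact_mod_cast nm_pos.2 he.ne_zero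
  set q : ℝ := Q ^ (ε / 4) with hq
  have hq1 : 1 ≤ q := Real.one_le_rpow hQ1 hε4.le
  set v : ℝ := V ^ (-(1 / 3) : ℝ) with hv
  have hv0 : 0 ≤ v := by rw [hv]; positivity
  set N : Eis → ℝ := fun k => Kl k ^ ((2 : ℝ) / 3) * X ^ ((2 : ℝ) / 3) / B0 k *
      ML (2 * (Z * (E0 * D) ^ 3)) (X / B0 k) with hN
  -- one `(l, a)`
  have h3 : ∀ k ∈ Λ, ∀ a ∈ (dvs (ρ k)).filter (fun a => ρ k / a ∣ δ),
      PTs (alr α a (ρ k / a)) δ e V (Kl k) X' (B0 k) y A ≤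
        v * Kl k ^ (2 / 3 : ℝ) / nm e * (C₁ * q * Ax ^ 2 * (nm δ / nm a) * N k) := by
    intro k hk a ha
    obtain ⟨hW0, hK0, hB0⟩ := hpos k hk
    have hρ := hΛ.rp k hk
    have ha' := (mem_dvs hρ.ne_zero).mp (Finset.mem_filter.1 ha).1
    have has : Squarefree a := (hΛ.rs k hk).squarefree_of_dvd ha'.2
    have haT : (nm a : ℝ) ≤ T := by
      refine le_trans ?_ (hΛ.rle hk)
      exact_mod_cast nm_le_of_dvd hρ.ne_zero ha'.2
    refine (PTs_le hV.le hK0.le).trans ?_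
    exact h₁ Y X Q Ax (alr α a (ρ k / a)) hY hX hAx (fun n hn => hα n (alr_ne hn).2.2)
      (fun n hn => hw n (alr_ne hn).2.2) (fun n => (norm_alr_le _ _ _ _).trans (hαA n)) a ha'.1 has
      (haT.trans hTQ) (fun n hn => (alr_ne hn).1) δ hδ hδs e he Z E0 D V (Kl k) (B0 k) X' heE hδD
      hV hZ hZQ hYQ hK0 hB0 hX'0 hX'Y y hy A hA
  have h4 : Sla Λ ρ W Kl δ (fun k a => PTs (alr α a (ρ k / a)) δ e V (Kl k) X' (B0 k) y A) ≤
      (v / nm e * (C₁ * q * Ax ^ 2 * nm δ)) *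
        ∑ k ∈ Λ, ∑ a ∈ (dvs (ρ k)).filter (fun a => ρ k / a ∣ δ), (1 / (nm a : ℝ)) * Nb := by
    unfold RClX791.Sla
    rw [Finset.mul_sum]
    refine Finset.sum_le_sum fun k hk => ?_
    obtain ⟨hW0, hK0, hB0⟩ := hpos k hk
    rw [Finset.mul_sum, Finset.mul_sum]
    refine Finset.sum_le_sum fun a ha => ?_
    have hρ := hΛ.rp k hk
    have ha' := (mem_dvs hρ.ne_zero).mp (Finset.mem_filter.1 ha).1
    have ha0 : (0 : ℝ) < nm a := by exact_mod_cast nm_pos.2 ha'.1.ne_zero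
    have h5 := h3 k hk a ha
    have hKK : Kl k ^ (-(2 / 3) : ℝ) * Kl k ^ (2 / 3 : ℝ) = 1 := by
      rw [← Real.rpow_add hK0]; norm_num
    have hWK : 0 ≤ W k * Kl k ^ (-(2 / 3) : ℝ) := by positivity
    calc W k * Kl k ^ (-(2 / 3) : ℝ) * PTs (alr α a (ρ k / a)) δ e V (Kl k) X' (B0 k) y A
        ≤ W k * Kl k ^ (-(2 / 3) : ℝ) *
          (v * Kl k ^ (2 / 3 : ℝ) / nm e * (C₁ * q * Ax ^ 2 * (nm δ / nm a) * N k)) :=
          mul_le_mul_of_nonneg_left h5 hWK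
      _ = (Kl k ^ (-(2 / 3) : ℝ) * Kl k ^ (2 / 3 : ℝ)) * ((v / nm e * (C₁ * q * Ax ^ 2 * nm δ)) *
          ((1 / (nm a : ℝ)) * (W k * N k))) := by ring
      _ = (v / nm e * (C₁ * q * Ax ^ 2 * nm δ)) * ((1 / (nm a : ℝ)) * (W k * N k)) := by
          rw [hKK, one_mul]
      _ ≤ (v / nm e * (C₁ * q * Ax ^ 2 * nm δ)) * ((1 / (nm a : ℝ)) * Nb) := by
          have h6 := hnum k hk
          have h7 : 0 ≤ v / nm e * (C₁ * q * Ax ^ 2 * nm δ) := by positivity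
          gcongr
  -- the sum over `(l, a)`
  have h5 := h₂ T Λ ρ hT hΛ (S T) (S T) (fun b hb hbs hbT => (mem_S hT0).2 ⟨hbT, hb, hbs⟩)
    (fun a ha has haT => (mem_S hT0).2 ⟨haT, ha, has⟩) (fun _ a => (1 / (nm a : ℝ)) * Nb)
    (fun b _ a _ => by positivity) (fun b => b ∣ δ)
  have h6 : ∑ b ∈ (S T).filter (fun b => b ∣ δ), ∑ a ∈ S T, (1 / (nm a : ℝ)) * Nb ≤
      (C₃ * q) * (100 * (1 + (ε / 4)⁻¹) * q) * Nb := by
    rw [Finset.sum_const, nsmul_eq_mul, ← Finset.sum_mul]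
    have hcard : (((S T).filter (fun b => b ∣ δ)).card : ℝ) ≤ C₃ * q := by
      have c1 : (S T).filter (fun b => b ∣ δ) ⊆ dvs δ := by
        intro b hb
        obtain ⟨h7, h8⟩ := Finset.mem_filter.1 hb
        exact (mem_dvs hδ.ne_zero).2 ⟨((mem_S hT0).1 h7).2.1, h8⟩
      have c2 : (((S T).filter (fun b => b ∣ δ)).card : ℝ) ≤ tau δ := by
        have := Finset.card_le_card c1
        unfold Div277.tau
        exact_mod_cast this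
      refine c2.trans ((hτ δ hδ.ne_zero).trans ?_)
      have : (nm δ : ℝ) ^ (ε / 4) ≤ q := Real.rpow_le_rpow hδ0.le (hδD.trans hDQ) hε4.le
      have hC30 : 0 ≤ C₃ := by linarith
      gcongr
    have hlog : 1 + Real.log T ≤ (1 + (ε / 4)⁻¹) * q := by
      have l1 : Real.log T ≤ T ^ (ε / 4) / (ε / 4) := Real.log_le_rpow_div hT0 hε4
      have l2 : T ^ (ε / 4) ≤ q := Real.rpow_le_rpow hT0 hTQ hε4.le
      calc 1 + Real.log T ≤ q + q / (ε / 4) := by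
            refine add_le_add hq1 (l1.trans ?_)
            gcongr
        _ = _ := by rw [div_eq_mul_inv]; ring
    have hsum := MTX241.sum_inv_SY hT
    have h9 : 0 ≤ ∑ a ∈ S T, (1 / (nm a : ℝ)) := Finset.sum_nonneg fun _ _ => by positivity
    calc (((S T).filter (fun b => b ∣ δ)).card : ℝ) * ((∑ a ∈ S T, (1 / (nm a : ℝ))) * Nb)
        ≤ (C₃ * q) * ((100 * ((1 + (ε / 4)⁻¹) * q)) * Nb) := by
          refine mul_le_mul hcard (mul_le_mul_of_nonneg_right (hsum.trans ?_) hNb)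
            (mul_nonneg h9 hNb) (by positivity)
          linarith
      _ = _ := by ring
  have hTq : T ^ (ε / 4) ≤ q := Real.rpow_le_rpow hT0 hTQ hε4.le
  have hq4 : Q ^ ε = q * q * q * q := by
    rw [hq, ← Real.rpow_add hQ0, ← Real.rpow_add hQ0, ← Real.rpow_add hQ0]
    congr 1; ring
  have hC20 : 0 ≤ C₂ := by linarith
  have hC30 : 0 ≤ C₃ := by linarith
  have hF : 0 ≤ v / nm e * (C₁ * q * Ax ^ 2 * nm δ) := by positivity
  refine h4.trans ?_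
  calc (v / nm e * (C₁ * q * Ax ^ 2 * nm δ)) *
        ∑ k ∈ Λ, ∑ a ∈ (dvs (ρ k)).filter (fun a => ρ k / a ∣ δ), (1 / (nm a : ℝ)) * Nb
      ≤ (v / nm e * (C₁ * q * Ax ^ 2 * nm δ)) * (C₂ * q *
          ((C₃ * q) * (100 * (1 + (ε / 4)⁻¹) * q) * Nb)) := by
        refine mul_le_mul_of_nonneg_left (h5.trans ?_) hF
        refine mul_le_mul (mul_le_mul_of_nonneg_left hTq hC20) h6 ?_ (by positivity)
        exact Finset.sum_nonneg fun _ _ => Finset.sum_nonneg fun _ _ => by positivity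
    _ = (C₁ * C₂ * C₃ * (100 * (1 + (ε / 4)⁻¹))) * ((q * q * q * q) * Ax ^ 2 * nm δ *
          (v / nm e * Nb)) := by ring
    _ ≤ (C₁ * C₂ * C₃ * (100 * (1 + (ε / 4)⁻¹)) + 1) * ((q * q * q * q) * Ax ^ 2 * nm δ *
          (v / nm e * Nb)) := by
        refine mul_le_mul_of_nonneg_right (by linarith) (by positivity)
    _ = _ := by rw [hq4]; ring

/-- **the number of one `l`** -/
theorem pts_nb {K X Z E c : ℝ} (hK : 1 ≤ K) (hX : 0 < X) (hZ : 0 < Z) (hE : 1 ≤ E) (hc : 1 ≤ c)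
    (hn : X ^ 6 ≤ c * K ^ 5) (hv : Z ^ 3 ≤ c * K ^ 2) {W Kl B0 t : ℝ} (ht : 1 ≤ t)
    (hKl : Kl = K / t ^ 3) (hW0 : 0 ≤ W) (hW : W ≤ t⁻¹) (hB0 : 1 / 2 ≤ B0)
    (hb : Kl ^ 2 ≤ c * (Z * X * (2 * B0) ^ 3)) :
    W * (Kl ^ ((2 : ℝ) / 3) * X ^ ((2 : ℝ) / 3) / B0 * ML (Z * E) (X / B0)) ≤
      12 * (K * X * (K ^ (-(1 / 36) : ℝ) * E * c ^ 2)) := by
  have hB00 : 0 < B0 := by linarith
  have ht0 : 0 < t := by linarith
  have hKl0 : 0 ≤ Kl := by rw [hKl]; positivity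
  have hML : ML (Z * E) (X / B0) ≤ 2 * ML (Z * E) (X / (2 * B0)) := by
    have h1 : X / B0 = 2 * (X / (2 * B0)) := by field_simp
    rw [h1]
    exact ML_two (by positivity) (by positivity)
  have h0 : 0 ≤ ML (Z * E) (X / B0) := ML_nonneg (by positivity) (by positivity)
  have h1 := ml_num' (K := K) (X := X) (Z := Z) (E := E) (T := t) (B0 := 2 * B0) (c := c) hK hX hZ
    hE ht hc (by linarith) hn hv (by rw [← hKl]; exact hb)
  rw [← hKl] at h1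
  have hi : 0 ≤ t⁻¹ := by positivity
  calc W * (Kl ^ ((2 : ℝ) / 3) * X ^ ((2 : ℝ) / 3) / B0 * ML (Z * E) (X / B0))
      ≤ t⁻¹ * (Kl ^ ((2 : ℝ) / 3) * X ^ ((2 : ℝ) / 3) / B0 *
          (2 * ML (Z * E) (X / (2 * B0)))) := by gcongr
    _ = 4 * (t⁻¹ * (Kl ^ ((2 : ℝ) / 3) * X ^ ((2 : ℝ) / 3) / (2 * B0) *
          ML (Z * E) (X / (2 * B0)))) := by
        field_simp
        ring
    _ ≤ 4 * (3 * (K * X * (K ^ (-(1 / 36) : ℝ) * E * c ^ 2))) := by gcongr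
    _ = _ := by ring

end Crest.Agent.R017.LSL241
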