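import Crest.Agent.R012.PoissonG_381

/-!
# Row 17: the transform of `exp(-π t |x|²) e(z x²)`, and theta asymptotics with periodic weights

* `ftE_gm` : the transform of `gm t z x = exp(-π t |x|²) e(z x²)` is
  `(t² + 16 |z|²)^(-1/2) gm (4 t / B) (-4 z̄ / B)`, `B = t² + 16 |z|²`
* `tendsto_periodic` : `t Σ f(m) exp(-π t |m|²) → (2/√3) avg f` for periodic `f`.
-/

set_option autoImplicit false

noncomputable section

open MeasureTheory Complex Set Filter Topology

namespace Crest.Agent.R017.LS848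

open Crest.Agent.R012 Crest.Agent.R012.Eis Crest.Agent.R012.Poisson381

/-- the Gaussian with quadratic phase -/
def gm (t : ℝ) (z x : ℂ) : ℂ := gau t x * eC (z * x ^ 2)

lemma continuous_eC : Continuous eC := by
  unfold eC
  fun_prop

lemma continuous_gm (t : ℝ) (z : ℂ) : Continuous (gm t z) := by
  unfold gm
  exact (continuous_gau t).mul (continuous_eC.comp (by fun_prop))

lemma norm_gm (t : ℝ) (z x : ℂ) : ‖gm t z x‖ = ‖gau t x‖ := by
  unfold gm
  rw [norm_mul, norm_eC, mul_one]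

lemma dec_gm {t : ℝ} (ht : 0 < t) (z : ℂ) : DecC (gaK t) 4 (gm t z) := by
  intro x
  rw [norm_gm]
  exact dec_gau ht x

lemma eC_eq (z : ℂ) : eC z = cexp (((4 * Real.pi * z.re : ℝ) : ℂ) * I) := by
  unfold eC
  rw [Complex.add_conj]
  congr 1
  push_cast
  ring

lemma normSq_eq' (z : ℂ) : ‖z‖ ^ 2 = z.re ^ 2 + z.im ^ 2 := by
  rw [← Complex.normSq_eq_norm_sq, Complex.normSq_apply]; ring

/-- the diagonal case -/
lemma ftE_gm_real {t : ℝ} (ht : 0 < t) (r : ℝ) (u : ℂ) :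
    ftE (gm t (r : ℂ)) u = (((Real.sqrt (t ^ 2 + 16 * r ^ 2))⁻¹ : ℝ) : ℂ) *
      gm (4 * t / (t ^ 2 + 16 * r ^ 2)) (((-4 * r / (t ^ 2 + 16 * r ^ 2) : ℝ)) : ℂ) u := by
  unfold ftE
  have hB : 0 < t ^ 2 + 16 * r ^ 2 := by positivity
  set B := t ^ 2 + 16 * r ^ 2 with hBdef
  -- the two one-dimensional factors
  set b1 : ℂ := -(Real.pi * (t - 4 * r * I)) with hb1
  set b2 : ℂ := -(Real.pi * (t + 4 * r * I)) with hb2
  have hpi := Real.pi_pos
  have hb1re : b1.re < 0 := by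
    rw [hb1]; simp; positivity
  have hb2re : b2.re < 0 := by
    rw [hb2]; simp; positivity
  have hsplit : ∀ x : ℂ, gm t (r : ℂ) x * eC (-(x * u)) =
      (fun a : ℝ => cexp (b1 * (a : ℂ) ^ 2 + (-(4 * Real.pi * I * u.re)) * (a : ℂ) + 0)) x.re *
      (fun b : ℝ => cexp (b2 * (b : ℂ) ^ 2 + (4 * Real.pi * I * u.im) * (b : ℂ) + 0)) x.im := by
    intro x
    simp only
    unfold gm
    rw [eC_eq, eC_eq]
    unfold gau
    rw [Complex.ofReal_exp, ← Complex.exp_add, ← Complex.exp_add, ← Complex.exp_add]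
    congr 1
    have e1 : (((r : ℂ) * x ^ 2).re : ℝ) = r * (x.re ^ 2 - x.im ^ 2) := by
      rw [Complex.re_ofReal_mul, pow_two, Complex.mul_re]; ring
    have e2 : ((-(x * u)).re : ℝ) = -(x.re * u.re - x.im * u.im) := by
      rw [Complex.neg_re, Complex.mul_re]
    rw [e1, e2, normSq_eq', hb1, hb2]
    push_cast
    ring
  rw [integral_congr_ae (Filter.Eventually.of_forall hsplit)]
  have hprod := (Complex.volume_preserving_equiv_real_prod).integral_comp
    (Complex.measurableEquivRealProd.measurableEmbedding)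
    (fun p : ℝ × ℝ =>
      (fun a : ℝ => cexp (b1 * (a : ℂ) ^ 2 + (-(4 * Real.pi * I * u.re)) * (a : ℂ) + 0)) p.1 *
      (fun b : ℝ => cexp (b2 * (b : ℂ) ^ 2 + (4 * Real.pi * I * u.im) * (b : ℂ) + 0)) p.2)
  simp only [Complex.measurableEquivRealProd_apply] at hprod
  rw [hprod, Measure.volume_eq_prod, integral_prod_mul
    (fun a : ℝ => cexp (b1 * (a : ℂ) ^ 2 + (-(4 * Real.pi * I * u.re)) * (a : ℂ) + 0))
    (fun b : ℝ => cexp (b2 * (b : ℂ) ^ 2 + (4 * Real.pi * I * u.im) * (b : ℂ) + 0)),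
    integral_cexp_quadratic hb1re, integral_cexp_quadratic hb2re]
  have hpiC : (Real.pi : ℂ) ≠ 0 := by exact_mod_cast Real.pi_ne_zero
  have hp : (t : ℂ) - 4 * r * I ≠ 0 := by
    intro h
    have := congrArg Complex.re h
    simp at this
    exact ht.ne' this
  have hq : (t : ℂ) + 4 * r * I ≠ 0 := by
    intro h
    have := congrArg Complex.re h
    simp at this
    exact ht.ne' this
  have hBC : ((t : ℂ) - 4 * r * I) * ((t : ℂ) + 4 * r * I) = (B : ℂ) := by
    rw [hBdef]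
    push_cast
    linear_combination (-(16 * (r : ℂ) ^ 2)) * Complex.I_sq
  have hBne : (B : ℂ) ≠ 0 := by exact_mod_cast hB.ne'
  have w1 : (Real.pi : ℂ) / -b1 = (t + 4 * r * I) / B := by
    rw [hb1, neg_neg, ← hBC]
    field_simp
  have w2 : (Real.pi : ℂ) / -b2 = (starRingEnd ℂ) ((t + 4 * r * I) / B) := by
    rw [hb2, neg_neg, map_div₀, map_add, map_mul, map_mul, Complex.conj_ofReal,
      Complex.conj_ofReal, Complex.conj_I, Complex.conj_ofReal, ← hBC]
    have h4 : (starRingEnd ℂ) 4 = 4 := Complex.conj_ofNat 4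
    rw [h4]
    have : (t : ℂ) + 4 * r * (-I) = t - 4 * r * I := by ring
    rw [this]
    field_simp
  set W : ℂ := (t + 4 * r * I) / B with hW
  have hWre : 0 < W.re := by
    rw [hW, Complex.div_ofReal_re]
    simp
    positivity
  have harg : W.arg ≠ Real.pi := by
    intro h
    have := Complex.arg_eq_pi_iff.mp h
    linarith [this.1]
  have hWn : ‖W‖ = (Real.sqrt B)⁻¹ := by
    rw [hW, norm_div, Complex.norm_real, Real.norm_of_nonneg hB.le]
    have : ‖(t : ℂ) + 4 * r * I‖ = Real.sqrt B := by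
      rw [← Real.sqrt_sq (norm_nonneg _), normSq_eq']
      congr 1
      simp
      rw [hBdef]; ring
    rw [this]
    have h1 := Real.mul_self_sqrt hB.le
    have h2 : Real.sqrt B ≠ 0 := (Real.sqrt_pos.mpr hB).ne'
    rw [div_eq_iff hB.ne']
    field_simp
    nlinarith
  have hroot : ((Real.pi : ℂ) / -b1) ^ (1 / 2 : ℂ) * ((Real.pi : ℂ) / -b2) ^ (1 / 2 : ℂ) =
      (((Real.sqrt B)⁻¹ : ℝ) : ℂ) := by
    rw [w1, w2]
    have h2 : (starRingEnd ℂ) W ^ (1 / 2 : ℂ) = (starRingEnd ℂ) (W ^ (1 / 2 : ℂ)) := by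
      rw [Complex.conj_cpow _ _ harg]
      have h5 : (starRingEnd ℂ) (1 / 2 : ℂ) = 1 / 2 := by
        rw [map_div₀, map_one, Complex.conj_ofNat]
      rw [h5]
    rw [h2, Complex.mul_conj, Complex.normSq_eq_norm_sq]
    have h3 : ‖W ^ (1 / 2 : ℂ)‖ = ‖W‖ ^ (1 / 2 : ℝ) := by
      have := Complex.norm_cpow_real W (1 / 2)
      rw [← this]; congr 2; push_cast; ring
    rw [h3, ← Real.rpow_natCast, ← Real.rpow_mul (norm_nonneg _)]
    norm_num
    rw [hWn]
    push_cast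
    rfl
  have e1 : (0 : ℂ) - (-(4 * Real.pi * I * u.re)) ^ 2 / (4 * b1) =
      -(4 * Real.pi * (u.re : ℂ) ^ 2 * (t + 4 * r * I) / B) := by
    have e0 : (-(4 * Real.pi * I * u.re) : ℂ) ^ 2 = -(16 * (Real.pi : ℂ) ^ 2 * (u.re : ℂ) ^ 2) := by
      linear_combination (16 * (Real.pi : ℂ) ^ 2 * (u.re : ℂ) ^ 2) * Complex.I_sq
    rw [hb1, ← hBC, e0]
    generalize (t : ℂ) - 4 * r * I = P at *
    generalize (t : ℂ) + 4 * r * I = Q at *
    field_simp
    try ring
  have e2 : (0 : ℂ) - (4 * Real.pi * I * u.im) ^ 2 / (4 * b2) =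
      -(4 * Real.pi * (u.im : ℂ) ^ 2 * (t - 4 * r * I) / B) := by
    have e0 : (4 * Real.pi * I * u.im : ℂ) ^ 2 = -(16 * (Real.pi : ℂ) ^ 2 * (u.im : ℂ) ^ 2) := by
      linear_combination (16 * (Real.pi : ℂ) ^ 2 * (u.im : ℂ) ^ 2) * Complex.I_sq
    rw [hb2, ← hBC, e0]
    generalize (t : ℂ) - 4 * r * I = P at *
    generalize (t : ℂ) + 4 * r * I = Q at *
    field_simp
    try ring
  have hmain : cexp ((0 : ℂ) - (-(4 * Real.pi * I * u.re)) ^ 2 / (4 * b1)) *
      cexp ((0 : ℂ) - (4 * Real.pi * I * u.im) ^ 2 / (4 * b2)) =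
      gm (4 * t / B) (((-4 * r / B : ℝ)) : ℂ) u := by
    rw [e1, e2, ← Complex.exp_add]
    unfold gm gau
    rw [Complex.ofReal_exp, eC_eq, ← Complex.exp_add]
    congr 1
    have e3 : (((((-4 * r / B : ℝ)) : ℂ) * u ^ 2).re : ℝ) = (-4 * r / B) * (u.re ^ 2 - u.im ^ 2) := by
      rw [Complex.re_ofReal_mul, pow_two, Complex.mul_re]; ring
    rw [e3, normSq_eq']
    push_cast
    field_simp
    ring
  rw [← hmain, ← hroot]
  ring

/-- **The transform of the Gaussian with quadratic phase.** -/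
theorem ftE_gm {t : ℝ} (ht : 0 < t) (z u : ℂ) :
    ftE (gm t z) u = (((Real.sqrt (t ^ 2 + 16 * ‖z‖ ^ 2))⁻¹ : ℝ) : ℂ) *
      gm (4 * t / (t ^ 2 + 16 * ‖z‖ ^ 2))
        (-4 * (starRingEnd ℂ) z / ((t ^ 2 + 16 * ‖z‖ ^ 2 : ℝ) : ℂ)) u := by
  -- a rotation making the phase real
  set ρ : Circle := Circle.exp (-(z.arg) / 2) with hρ
  have hρ2 : (ρ : ℂ) ^ 2 * z = (‖z‖ : ℂ) := by
    have h1 := Complex.norm_mul_exp_arg_mul_I z
    rw [hρ, Circle.coe_exp, ← Complex.exp_nat_mul]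
    nth_rewrite 2 [← h1]
    rw [mul_left_comm, ← Complex.exp_add]
    have : ((2 : ℕ) : ℂ) * (((-(z.arg) / 2 : ℝ) : ℂ) * I) + (z.arg : ℂ) * I = 0 := by
      push_cast; ring
    rw [this, Complex.exp_zero, mul_one]
  have hρn : ‖(ρ : ℂ)‖ = 1 := Circle.norm_coe ρ
  have hρc : (ρ : ℂ) * (starRingEnd ℂ) (ρ : ℂ) = 1 := by
    rw [Complex.mul_conj, Complex.normSq_eq_norm_sq, hρn]; simp
  have h1 : ftE (gm t z) u = ftE (gm t ((‖z‖ : ℝ) : ℂ)) (ρ * u) := by
    unfold ftE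
    have hmp := (rotation ρ).measurePreserving
    have h2 := hmp.integral_comp (rotation ρ).toHomeomorph.measurableEmbedding
      (fun x => gm t z x * eC (-(x * u)))
    refine h2.symm.trans ?_
    apply integral_congr_ae
    refine Filter.Eventually.of_forall fun y => ?_
    simp only [rotation_apply]
    have e1 : gm t z (ρ * y) = gm t ((‖z‖ : ℝ) : ℂ) y := by
      unfold gm
      have : z * ((ρ : ℂ) * y) ^ 2 = ((‖z‖ : ℝ) : ℂ) * y ^ 2 := by
        rw [← hρ2]; ring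
      rw [this]
      unfold gau
      rw [norm_mul, hρn, one_mul]
    rw [e1]
    congr 2
    ring
  rw [h1, ftE_gm_real ht]
  congr 1
  unfold gm
  congr 1
  · unfold gau
    rw [norm_mul, hρn, one_mul]
  · congr 1
    have h3 : (‖z‖ : ℂ) * (ρ : ℂ) ^ 2 = (starRingEnd ℂ) z := by
      have h4 : (starRingEnd ℂ) ((ρ : ℂ) ^ 2 * z) = (‖z‖ : ℂ) := by
        rw [hρ2, Complex.conj_ofReal]
      rw [map_mul, map_pow] at h4
      calc (‖z‖ : ℂ) * (ρ : ℂ) ^ 2
          = ((ρ : ℂ) * (starRingEnd ℂ) (ρ : ℂ)) ^ 2 * (starRingEnd ℂ) z := by rw [← h4]; ring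
        _ = _ := by rw [hρc]; ring
    rw [← h3]
    push_cast
    ring

/-! ### Theta asymptotics with periodic weights -/

lemma gau_le_one {t : ℝ} (ht : 0 ≤ t) (x : ℂ) : ‖gau t x‖ ≤ 1 := by
  rw [norm_gau, Real.exp_le_one_iff]
  have : 0 ≤ Real.pi * t * ‖x‖ ^ 2 := by positivity
  linarith

lemma gau_mono {t s : ℝ} (h : t ≤ s) (x : ℂ) : ‖gau s x‖ ≤ ‖gau t x‖ := by
  rw [norm_gau, norm_gau]
  apply Real.exp_le_exp.mpr
  have h1 : Real.pi * t * ‖x‖ ^ 2 ≤ Real.pi * s * ‖x‖ ^ 2 := by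
    apply mul_le_mul_of_nonneg_right _ (by positivity)
    exact mul_le_mul_of_nonneg_left h Real.pi_pos.le
  linarith

lemma tendsto_gau_atTop {x : ℂ} (hx : x ≠ 0) : Tendsto (fun s : ℝ => gau s x) atTop (𝓝 0) := by
  rw [tendsto_zero_iff_norm_tendsto_zero]
  simp_rw [norm_gau]
  apply Real.tendsto_exp_neg_atTop_nhds_zero.comp
  have hx' : 0 < ‖x‖ := norm_pos_iff.mpr hx
  have h1 : Tendsto (fun s : ℝ => s * (Real.pi * ‖x‖ ^ 2)) atTop atTop :=
    tendsto_id.atTop_mul_const (by positivity)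
  refine h1.congr fun s => ?_
  ring

lemma pmod_bdd {q : Eis} (hq : q ≠ 0) {f : Eis → ℂ} (hf : PMod q f) :
    ∃ B : ℝ, 0 ≤ B ∧ ∀ x, ‖f x‖ ≤ B := by
  refine ⟨∑ s ∈ crs q, ‖f s‖, Finset.sum_nonneg fun _ _ => norm_nonneg _, fun x => ?_⟩
  obtain ⟨s, ⟨hs, hd⟩, -⟩ := isCRS_crs hq x
  rw [hf.congr hd]
  exact Finset.single_le_sum (f := fun s => ‖f s‖) (fun _ _ => norm_nonneg _) hs

/-- `t Σ f(m) exp(-π t |m|²) → (2/√3) avg f`. -/
theorem tendsto_periodic {q : Eis} (hq : q ≠ 0) {f : Eis → ℂ} (hf : PMod q f) :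
    Tendsto (fun t : ℝ => (t : ℂ) * ∑' m : Eis, f m * gau t (toC m)) (𝓝[>] 0)
      (𝓝 (((2 / Real.sqrt 3 : ℝ) : ℂ) * (sumMod q f / nm q))) := by
  have hqn : 0 < (nm q : ℝ) := by exact_mod_cast nm_pos.2 hq
  obtain ⟨B, hB0, hB⟩ := pmod_bdd hq hf
  set C : Eis → ℂ := fun h => sumMod q (fun a => f a * eC (toC a * toC h / (toC q * s3))) with hC
  have hCb : ∀ h, ‖C h‖ ≤ nm q * B := by
    intro h
    apply norm_sumMod_le hq
    intro x
    rw [norm_mul, norm_eC, mul_one]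
    exact hB x
  set K : ℝ := 2 / Real.sqrt 3 * (nm q : ℝ)⁻¹ with hK
  have hK0 : 0 ≤ K := by positivity
  have h1 : ∀ t : ℝ, 0 < t → (t : ℂ) * ∑' m : Eis, f m * gau t (toC m) =
      ∑' h : Eis, (K : ℂ) * (gau (4 / (3 * (t * nm q))) (toC h) * C h) := by
    intro t ht
    rw [← (poisson_gau_periodic ht hq hf).tsum_eq, ← tsum_mul_left]
    refine tsum_congr fun h => ?_
    have hk : (t : ℂ) * ((2 / Real.sqrt 3 * (t * nm q)⁻¹ : ℝ) : ℂ) = (K : ℂ) := by
      rw [hK, ← Complex.ofReal_mul]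
      congr 1
      field_simp
    rw [← mul_assoc, hk]
  have hlim : (∑' h : Eis, (if h = 0 then (K : ℂ) * C 0 else 0)) =
      ((2 / Real.sqrt 3 : ℝ) : ℂ) * (sumMod q f / nm q) := by
    rw [tsum_ite_eq]
    have : C 0 = sumMod q f := by
      rw [hC]
      simp only
      apply sumMod_congr
      intro x
      rw [map_zero, mul_zero, zero_div, eC_zero, mul_one]
    rw [this, hK]
    push_cast
    ring
  rw [← hlim]
  have hsT : Tendsto (fun t : ℝ => 4 / (3 * (t * nm q))) (𝓝[>] 0) atTop := by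
    have h2 : Tendsto (fun t : ℝ => t⁻¹ * (4 / (3 * nm q))) (𝓝[>] 0) atTop :=
      tendsto_inv_nhdsGT_zero.atTop_mul_const (by positivity)
    refine h2.congr' ?_
    filter_upwards [self_mem_nhdsWithin] with t ht
    have : (t : ℝ) ≠ 0 := (Set.mem_Ioi.mp ht).ne'
    field_simp
  have hT : Tendsto (fun t : ℝ => ∑' h : Eis, (K : ℂ) * (gau (4 / (3 * (t * nm q))) (toC h) * C h))
      (𝓝[>] 0) (𝓝 (∑' h : Eis, (if h = 0 then (K : ℂ) * C 0 else 0))) := by
    refine tendsto_tsum_of_dominated_convergence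
      (bound := fun h : Eis => (K * (nm q * B)) * ‖gau 1 (toC h)‖)
      (((summable_gau_one one_pos).norm).mul_left _) ?_ ?_
    · intro h
      by_cases h0 : h = 0
      · subst h0
        simp only [if_true, map_zero]
        have : ∀ s : ℝ, gau s 0 = 1 := fun s => by unfold gau; simp
        simp_rw [this, one_mul]
        exact tendsto_const_nhds
      · rw [if_neg h0]
        have hne : toC h ≠ 0 := by rwa [Ne, toC_eq_zero]
        have h3 := (tendsto_gau_atTop hne).comp hsT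
        have h4 := (h3.mul_const (C h)).const_mul (K : ℂ)
        simpa using h4
    · filter_upwards [hsT.eventually_ge_atTop 1] with t ht h
      rw [norm_mul, norm_mul, Complex.norm_real, Real.norm_of_nonneg hK0]
      have h5 := gau_mono ht (toC h)
      have h6 := hCb h
      calc K * (‖gau (4 / (3 * (t * nm q))) (toC h)‖ * ‖C h‖)
          ≤ K * (‖gau 1 (toC h)‖ * (nm q * B)) := by
            apply mul_le_mul_of_nonneg_left _ hK0
            exact mul_le_mul h5 h6 (norm_nonneg _) (norm_nonneg _)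
        _ = _ := by ring
  refine hT.congr' ?_
  filter_upwards [self_mem_nhdsWithin] with t ht
  exact (h1 t ht).symm

end Crest.Agent.R017.LS848
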