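import Crest.Agent.R017.LSa_848

/-!
# Row 17: Landsberg–Schaar reciprocity over the Eisenstein integers
-/

set_option autoImplicit false

noncomputable section

open MeasureTheory Complex Set Filter Topology

namespace Crest.Agent.R017.LS848

open Crest.Agent.R012 Crest.Agent.R012.Eis Crest.Agent.R012.Poisson381

lemma norm_eC_sub_one_le (a : ℂ) : ‖eC a - 1‖ ≤ 4 * Real.pi * ‖a‖ := by
  have h := Real.norm_exp_I_mul_ofReal_sub_one_le (x := 4 * Real.pi * a.re)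
  rw [eC_eq, mul_comm]
  refine h.trans ?_
  rw [Real.norm_eq_abs, abs_mul, abs_of_pos (by positivity : 0 < 4 * Real.pi)]
  exact mul_le_mul_of_nonneg_left (Complex.abs_re_le_norm a) (by positivity)

lemma norm_eC_sub_le (a b : ℂ) : ‖eC a - eC b‖ ≤ 4 * Real.pi * ‖a - b‖ := by
  have h : eC a - eC b = eC b * (eC (a - b) - 1) := by
    have : eC a = eC b * eC (a - b) := by rw [← eC_add]; congr 1; ring
    rw [this]; ring
  rw [h, norm_mul, norm_eC, one_mul]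
  exact norm_eC_sub_one_le _

lemma sq_mul_gau_le {s : ℝ} (hs : 0 < s) (x : ℂ) :
    ‖x‖ ^ 2 * ‖gau s x‖ ≤ s⁻¹ * ‖gau (s / 2) x‖ := by
  rw [norm_gau, norm_gau]
  set y : ℝ := Real.pi * (s / 2) * ‖x‖ ^ 2 with hy
  have hy0 : 0 ≤ y := by positivity
  have e1 : -(Real.pi * s * ‖x‖ ^ 2) = -y + -y := by rw [hy]; ring
  have e2 : ‖x‖ ^ 2 = (2 / (Real.pi * s)) * y := by
    rw [hy]
    have := Real.pi_pos.ne'
    field_simp
  rw [e1, Real.exp_add, e2]
  have h1 : y * Real.exp (-y) ≤ 1 := by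
    rw [Real.exp_neg, ← div_eq_mul_inv, div_le_iff₀ (Real.exp_pos _)]
    linarith [Real.add_one_le_exp y]
  have h2 : 2 / (Real.pi * s) ≤ s⁻¹ := by
    rw [div_le_iff₀ (by positivity)]
    have : s⁻¹ * (Real.pi * s) = Real.pi := by field_simp
    rw [this]
    linarith [Real.pi_gt_three]
  have h3 : 0 ≤ y * Real.exp (-y) := by positivity
  have h4 : 0 < Real.exp (-y) := Real.exp_pos _
  calc 2 / (Real.pi * s) * y * (Real.exp (-y) * Real.exp (-y))
      = (2 / (Real.pi * s)) * ((y * Real.exp (-y)) * Real.exp (-y)) := by ring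
    _ ≤ s⁻¹ * (1 * Real.exp (-y)) := by
        apply mul_le_mul h2 _ (by positivity) (by positivity)
        exact mul_le_mul_of_nonneg_right h1 h4.le
    _ = _ := by ring

lemma summable_norm_gau {t : ℝ} (ht : 0 < t) : Summable fun h : Eis => ‖gau t (toC h)‖ :=
  (summable_gau_one ht).norm

lemma summable_gm {t : ℝ} (ht : 0 < t) (z : ℂ) : Summable fun h : Eis => gm t z (toC h) := by
  refine Summable.of_norm_bounded (summable_norm_gau ht) fun h => ?_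
  rw [norm_gm]

/-- the total Gaussian mass -/
lemma tendsto_mass : Tendsto (fun t : ℝ => t * ∑' m : Eis, ‖gau t (toC m)‖) (𝓝[>] 0)
    (𝓝 (2 / Real.sqrt 3)) := by
  have h := tendsto_periodic (q := 1) one_ne_zero (f := fun _ => (1 : ℂ)) (PMod.const 1)
  have h1 : ((2 / Real.sqrt 3 : ℝ) : ℂ) * (sumMod 1 (fun _ => (1 : ℂ)) / (nm 1 : ℂ)) =
      ((2 / Real.sqrt 3 : ℝ) : ℂ) := by
    rw [sumMod_const one_ne_zero]
    simp
  rw [h1] at h
  have h2 : ∀ t : ℝ, (t : ℂ) * ∑' m : Eis, 1 * gau t (toC m) =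
      ((t * ∑' m : Eis, ‖gau t (toC m)‖ : ℝ) : ℂ) := by
    intro t
    push_cast
    congr 1
    refine tsum_congr fun m => ?_
    rw [one_mul, norm_gau]
    rfl
  simp_rw [h2] at h
  have h3 := (Complex.continuous_re.tendsto _).comp h
  have h4 : (re ∘ fun t : ℝ => ((t * ∑' m : Eis, ‖gau t (toC m)‖ : ℝ) : ℂ)) =
      fun t : ℝ => t * ∑' m : Eis, ‖gau t (toC m)‖ := by
    funext t
    simp only [Function.comp, Complex.ofReal_re]
  rw [h4, Complex.ofReal_re] at h3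
  exact h3

lemma norm_tsum_gm_sub_le {s : ℝ} (hs : 0 < s) (w w0 : ℂ) :
    ‖(∑' m : Eis, gm s w (toC m)) - ∑' m : Eis, gm s w0 (toC m)‖ ≤
      4 * Real.pi * ‖w - w0‖ * s⁻¹ * ∑' m : Eis, ‖gau (s / 2) (toC m)‖ := by
  rw [← (summable_gm hs w).tsum_sub (summable_gm hs w0), ← tsum_mul_left]
  have hb : ∀ m : Eis, ‖gm s w (toC m) - gm s w0 (toC m)‖ ≤
      4 * Real.pi * ‖w - w0‖ * s⁻¹ * ‖gau (s / 2) (toC m)‖ := by
    intro m
    unfold gm
    rw [← mul_sub, norm_mul]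
    have h1 := norm_eC_sub_le (w * toC m ^ 2) (w0 * toC m ^ 2)
    have h2 : ‖w * toC m ^ 2 - w0 * toC m ^ 2‖ = ‖w - w0‖ * ‖toC m‖ ^ 2 := by
      rw [← sub_mul, norm_mul, norm_pow]
    rw [h2] at h1
    have h3 := sq_mul_gau_le hs (toC m)
    calc ‖gau s (toC m)‖ * ‖eC (w * toC m ^ 2) - eC (w0 * toC m ^ 2)‖
        ≤ ‖gau s (toC m)‖ * (4 * Real.pi * (‖w - w0‖ * ‖toC m‖ ^ 2)) :=
          mul_le_mul_of_nonneg_left h1 (norm_nonneg _)
      _ = 4 * Real.pi * ‖w - w0‖ * (‖toC m‖ ^ 2 * ‖gau s (toC m)‖) := by ring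
      _ ≤ 4 * Real.pi * ‖w - w0‖ * (s⁻¹ * ‖gau (s / 2) (toC m)‖) :=
          mul_le_mul_of_nonneg_left h3 (by positivity)
      _ = _ := by ring
  exact tsum_of_norm_bounded
    ((summable_norm_gau (t := s / 2) (by positivity)).mul_left _).hasSum hb

theorem tendsto_gm {ι : Type*} {l : Filter ι} {s : ι → ℝ} {w : ι → ℂ} {w0 : ℂ} {q : Eis}
    (hq : q ≠ 0) (hf : PMod q (fun m => eC (w0 * toC m ^ 2))) (hs : Tendsto s l (𝓝[>] 0))
    {K : ℝ} (hw : ∀ᶠ i in l, ‖w i - w0‖ ≤ K * s i ^ 2) :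
    Tendsto (fun i => (s i : ℂ) * ∑' m : Eis, gm (s i) (w i) (toC m)) l
      (𝓝 (((2 / Real.sqrt 3 : ℝ) : ℂ) *
        (sumMod q (fun m => eC (w0 * toC m ^ 2)) / nm q))) := by
  have h1 := (tendsto_periodic hq hf).comp hs
  have hspos : ∀ᶠ i in l, 0 < s i := hs.eventually self_mem_nhdsWithin
  have hs0 : Tendsto s l (𝓝 0) := hs.mono_right nhdsWithin_le_nhds
  -- the difference tends to zero
  have hhalf : Tendsto (fun i => s i / 2) l (𝓝[>] 0) := by
    rw [tendsto_nhdsWithin_iff]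
    refine ⟨by simpa using hs0.div_const 2, ?_⟩
    filter_upwards [hspos] with i hi
    exact Set.mem_Ioi.mpr (by positivity)
  have h2 := tendsto_mass.comp hhalf
  have h3 : Tendsto (fun i => 8 * Real.pi * K * s i *
      (s i / 2 * ∑' m : Eis, ‖gau (s i / 2) (toC m)‖)) l (𝓝 0) := by
    have := (hs0.const_mul (8 * Real.pi * K)).mul h2
    simpa using this
  have h4 : Tendsto (fun i => (s i : ℂ) * ∑' m : Eis, gm (s i) (w i) (toC m) -
      (s i : ℂ) * ∑' m : Eis, eC (w0 * toC m ^ 2) * gau (s i) (toC m)) l (𝓝 0) := by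
    refine squeeze_zero_norm' ?_ h3
    filter_upwards [hspos, hw] with i hi hwi
    rw [← mul_sub, norm_mul, Complex.norm_real, Real.norm_of_nonneg hi.le]
    have h5 := norm_tsum_gm_sub_le hi (w i) w0
    have e1 : ∑' m : Eis, eC (w0 * toC m ^ 2) * gau (s i) (toC m) =
        ∑' m : Eis, gm (s i) w0 (toC m) := tsum_congr fun m => by unfold gm; ring
    rw [e1]
    have hM : 0 ≤ ∑' m : Eis, ‖gau (s i / 2) (toC m)‖ := tsum_nonneg fun m => norm_nonneg _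
    calc s i * ‖(∑' m : Eis, gm (s i) (w i) (toC m)) - ∑' m : Eis, gm (s i) w0 (toC m)‖
        ≤ s i * (4 * Real.pi * ‖w i - w0‖ * (s i)⁻¹ * ∑' m : Eis, ‖gau (s i / 2) (toC m)‖) :=
          mul_le_mul_of_nonneg_left h5 hi.le
      _ = 4 * Real.pi * ‖w i - w0‖ * ∑' m : Eis, ‖gau (s i / 2) (toC m)‖ := by
          field_simp
      _ ≤ 4 * Real.pi * (K * s i ^ 2) * ∑' m : Eis, ‖gau (s i / 2) (toC m)‖ := by
          apply mul_le_mul_of_nonneg_right _ hM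
          exact mul_le_mul_of_nonneg_left hwi (by positivity)
      _ = _ := by ring
  have h6 := h4.add h1
  rw [zero_add] at h6
  refine h6.congr fun i => ?_
  simp only [Function.comp]
  ring

/-- Poisson summation for the Gaussian with quadratic phase. -/
theorem poisson_gm {t : ℝ} (ht : 0 < t) (z : ℂ) :
    ∑' m : Eis, gm t z (toC m) =
      ((2 / Real.sqrt 3 * (Real.sqrt (t ^ 2 + 16 * ‖z‖ ^ 2))⁻¹ : ℝ) : ℂ) *
      ∑' h : Eis, gm (4 * t / (3 * (t ^ 2 + 16 * ‖z‖ ^ 2)))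
        (4 * (starRingEnd ℂ) z / ((3 * (t ^ 2 + 16 * ‖z‖ ^ 2) : ℝ) : ℂ)) (toC h) := by
  have hB : 0 < t ^ 2 + 16 * ‖z‖ ^ 2 := by positivity
  set B := t ^ 2 + 16 * ‖z‖ ^ 2 with hBdef
  have hBC : (B : ℂ) ≠ 0 := by exact_mod_cast hB.ne'
  have hF : ∀ h : Eis, ftE (gm t z) (toC h / s3) = (((Real.sqrt B)⁻¹ : ℝ) : ℂ) *
      gm (4 * t / (3 * B)) (4 * (starRingEnd ℂ) z / ((3 * B : ℝ) : ℂ)) (toC h) := by
    intro h
    rw [ftE_gm ht]
    rw [← hBdef]
    congr 1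
    unfold gm
    congr 1
    · unfold gau
      congr 3
      rw [norm_div, norm_s3, div_pow, Real.sq_sqrt (by norm_num)]
      field_simp
    · congr 1
      have h3 := s3_sq
      rw [div_pow, h3]
      push_cast
      field_simp
  have hs : Summable fun h : Eis => ftE (gm t z) (toC h / s3) := by
    simp_rw [hF]
    exact (summable_gm (by positivity) _).mul_left _
  have h := poissonE (continuous_gm t z) (gaK_pos t).le (by norm_num) (dec_gm ht z) hs 0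
  simp only [zero_add] at h
  rw [← h.tsum_eq, ← tsum_mul_left]
  refine tsum_congr fun m => ?_
  rw [hF]
  have : eC (0 * toC m / s3) = 1 := by rw [zero_mul, zero_div, eC_zero]
  rw [this]
  push_cast
  ring

/-- **Landsberg–Schaar over `ℤ[ω]`** (general form). -/
theorem landsberg_schaar {z : ℂ} (hz : z ≠ 0) {q1 q2 : Eis} (hq1 : q1 ≠ 0) (hq2 : q2 ≠ 0)
    (hf1 : PMod q1 (fun m => eC (z * toC m ^ 2)))
    (hf2 : PMod q2 (fun m => eC ((12 * z)⁻¹ * toC m ^ 2))) :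
    sumMod q1 (fun m => eC (z * toC m ^ 2)) / nm q1 =
      ((2 * Real.sqrt 3 * ‖z‖ : ℝ) : ℂ) *
        (sumMod q2 (fun m => eC ((12 * z)⁻¹ * toC m ^ 2)) / nm q2) := by
  have hzn : 0 < ‖z‖ := norm_pos_iff.mpr hz
  have hBpos : ∀ t : ℝ, 0 < t ^ 2 + 16 * ‖z‖ ^ 2 := fun t => by positivity
  -- left side
  have hid : Tendsto (fun t : ℝ => t) (𝓝[>] (0 : ℝ)) (𝓝[>] 0) := tendsto_id
  have hL := tendsto_gm (w := fun _ : ℝ => z) hq1 hf1 hid (K := 0)
    (Filter.Eventually.of_forall fun t => by simp)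
  -- right side
  have hBt : Tendsto (fun t : ℝ => t ^ 2 + 16 * ‖z‖ ^ 2) (𝓝[>] 0) (𝓝 (16 * ‖z‖ ^ 2)) := by
    have h0 : Continuous fun t : ℝ => t ^ 2 + 16 * ‖z‖ ^ 2 := by fun_prop
    have := (h0.tendsto 0).mono_left (nhdsWithin_le_nhds (s := Set.Ioi 0))
    simpa using this
  have hsT : Tendsto (fun t : ℝ => 4 * t / (3 * (t ^ 2 + 16 * ‖z‖ ^ 2))) (𝓝[>] 0) (𝓝[>] 0) := by
    rw [tendsto_nhdsWithin_iff]
    constructor
    · have h0 : ContinuousAt (fun t : ℝ => 4 * t / (3 * (t ^ 2 + 16 * ‖z‖ ^ 2))) 0 := by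
        apply ContinuousAt.div
        · fun_prop
        · fun_prop
        · have := hBpos 0
          positivity
      have h1 := h0.tendsto.mono_left (nhdsWithin_le_nhds (s := Set.Ioi 0))
      simpa using h1
    · filter_upwards [self_mem_nhdsWithin] with t ht
      have ht' : 0 < t := ht
      exact Set.mem_Ioi.mpr (by have := hBpos t; positivity)
  have hR := tendsto_gm
    (w := fun t : ℝ => 4 * (starRingEnd ℂ) z / ((3 * (t ^ 2 + 16 * ‖z‖ ^ 2) : ℝ) : ℂ)) hq2 hf2 hsT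
    (K := 3 / (64 * ‖z‖) * (1 + 16 * ‖z‖ ^ 2)) (by
      have hlt : ∀ᶠ t : ℝ in 𝓝[>] 0, t < 1 :=
        (eventually_lt_nhds (by norm_num : (0:ℝ) < 1)).filter_mono nhdsWithin_le_nhds
      filter_upwards [self_mem_nhdsWithin, hlt] with t ht ht1
      have ht' : 0 < t := ht
      set B := t ^ 2 + 16 * ‖z‖ ^ 2 with hBdef
      have hB := hBpos t
      rw [← hBdef] at hB
      have hBC : (B : ℂ) ≠ 0 := by exact_mod_cast hB.ne'
      have hznC : ((‖z‖ : ℝ) : ℂ) ≠ 0 := by exact_mod_cast hzn.ne'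
      have hzz : z * (starRingEnd ℂ) z = ((‖z‖ ^ 2 : ℝ) : ℂ) := by
        rw [Complex.mul_conj, Complex.normSq_eq_norm_sq]
      have hzc : (starRingEnd ℂ) z ≠ 0 := by
        intro h; apply hz; simpa using h
      have e1 : 4 * (starRingEnd ℂ) z / ((3 * B : ℝ) : ℂ) - (12 * z)⁻¹ =
          (starRingEnd ℂ) z * ((-(t ^ 2 / (12 * ‖z‖ ^ 2 * B)) : ℝ) : ℂ) := by
        have e2 : (12 * z)⁻¹ = (starRingEnd ℂ) z * ((1 / (12 * ‖z‖ ^ 2) : ℝ) : ℂ) := by
          have e3 : ((‖z‖ : ℂ)) ^ 2 = z * (starRingEnd ℂ) z := by rw [hzz]; push_cast; ring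
          push_cast
          rw [e3]
          field_simp
        rw [e2]
        have e4 : 4 * (starRingEnd ℂ) z / ((3 * B : ℝ) : ℂ) =
            (starRingEnd ℂ) z * ((4 / (3 * B) : ℝ) : ℂ) := by push_cast; ring
        rw [e4, ← mul_sub, ← Complex.ofReal_sub]
        congr 2
        rw [hBdef]
        have h5 : (t ^ 2 + 16 * ‖z‖ ^ 2) ≠ 0 := (hBpos t).ne'
        field_simp
        ring
      rw [e1, norm_mul, Complex.norm_conj, Complex.norm_real, norm_neg,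
        Real.norm_of_nonneg (by positivity)]
      have e5 : ‖z‖ * (t ^ 2 / (12 * ‖z‖ ^ 2 * B)) =
          3 / (64 * ‖z‖) * B * (4 * t / (3 * B)) ^ 2 := by
        field_simp
        ring
      rw [e5]
      have hB1 : B ≤ 1 + 16 * ‖z‖ ^ 2 := by rw [hBdef]; nlinarith
      apply mul_le_mul_of_nonneg_right _ (by positivity)
      exact mul_le_mul_of_nonneg_left hB1 (by positivity))
  -- combine
  have hcoef : Tendsto (fun t : ℝ => ((2 / Real.sqrt 3 * (3 / 4) *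
      Real.sqrt (t ^ 2 + 16 * ‖z‖ ^ 2) : ℝ) : ℂ)) (𝓝[>] 0)
      (𝓝 (((2 / Real.sqrt 3 * (3 / 4) * (4 * ‖z‖) : ℝ)) : ℂ)) := by
    have h1 := hBt.sqrt
    have h2 : Real.sqrt (16 * ‖z‖ ^ 2) = 4 * ‖z‖ := by
      have : (16 * ‖z‖ ^ 2 : ℝ) = (4 * ‖z‖) ^ 2 := by ring
      rw [this, Real.sqrt_sq (by positivity)]
    rw [h2] at h1
    have h3 := h1.const_mul (2 / Real.sqrt 3 * (3 / 4))
    exact (Complex.continuous_ofReal.tendsto _).comp h3
  have hprod := hcoef.mul hR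
  have huniq := tendsto_nhds_unique_of_eventuallyEq hL hprod (by
    filter_upwards [self_mem_nhdsWithin] with t ht
    have ht' : 0 < t := ht
    rw [poisson_gm ht']
    have hB := hBpos t
    set B := t ^ 2 + 16 * ‖z‖ ^ 2 with hBdef
    rw [← mul_assoc, ← mul_assoc, ← Complex.ofReal_mul, ← Complex.ofReal_mul]
    congr 2
    have h1 := Real.mul_self_sqrt hB.le
    have h2 : Real.sqrt B ≠ 0 := (Real.sqrt_pos.mpr hB).ne'
    field_simp
    nlinarith)
  have h3 : (Real.sqrt 3 : ℝ) ≠ 0 := by positivity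
  have h33 : Real.sqrt 3 * Real.sqrt 3 = 3 := Real.mul_self_sqrt (by norm_num)
  have hc : ((2 / Real.sqrt 3 : ℝ) : ℂ) ≠ 0 := by
    rw [Ne, Complex.ofReal_eq_zero]; positivity
  apply mul_left_cancel₀ hc
  rw [huniq]
  generalize sumMod q2 (fun m => eC ((12 * z)⁻¹ * toC m ^ 2)) / (nm q2 : ℂ) = X
  have e6 : ((2 / Real.sqrt 3 * (3 / 4) * (4 * ‖z‖) : ℝ) : ℂ) * (((2 / Real.sqrt 3 : ℝ) : ℂ) * X) =
      ((2 / Real.sqrt 3 * (3 / 4) * (4 * ‖z‖) * (2 / Real.sqrt 3) : ℝ) : ℂ) * X := by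
    push_cast; ring
  have e7 : ((2 / Real.sqrt 3 : ℝ) : ℂ) * (((2 * Real.sqrt 3 * ‖z‖ : ℝ) : ℂ) * X) =
      ((2 / Real.sqrt 3 * (2 * Real.sqrt 3 * ‖z‖) : ℝ) : ℂ) * X := by
    push_cast; ring
  rw [e6, e7]
  congr 2
  field_simp
  nlinarith

end Crest.Agent.R017.LS848
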