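import Crest.Agent.R012.Glue1_372
import Crest.Agent.R012.Char_766

/-!
# Row 17, E3: the large sieve for ALL cube-free `l` against ALL primary `y` (helper579)

`lsc` : `∑_{l cube-free, nm l ≤ H} |∑_{y primary, nm y ≤ Y} c y (l/y)|² ≤ C (Y + H²) ∑ |c|²`
(units, `lam` and squares allowed in `l`; no squarefree condition on `y`; no epsilon).
-/

set_option autoImplicit false

noncomputable section

namespace Crest.Agent.R017.LSc579

open Crest.Agent.R012 Crest.Agent.R012.Eis Crest.Agent.R012.NonCube52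

lemma isUnit_of_cf {l m x : Eis} (hl : l ≠ 0) (hl3 : ∀ p : Eis, Prime p → ¬ p ^ 3 ∣ l)
    (h : l = x * m ^ 3) : IsUnit m := by
  by_contra hm
  have hm0 : m ≠ 0 := by
    rintro rfl
    exact hl (by rw [h]; ring)
  obtain ⟨p, hp, hpm⟩ := WfDvdMonoid.exists_irreducible_factor hm hm0
  refine hl3 p hp.prime ?_
  rw [h]
  exact (pow_dvd_pow_of_dvd hpm 3).mul_left x

lemma unit_cube {m : Eis} (hm : IsUnit m) : m ^ 3 = 1 ∨ m ^ 3 = -1 := by
  obtain ⟨k, -, h | h⟩ := isUnit_exists hm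
  · left
    rw [h, ← pow_mul, mul_comm, pow_mul, w_cube, one_pow]
  · right
    have e : (-w ^ k) ^ 3 = -(w ^ 3) ^ k := by rw [← pow_mul, mul_comm 3 k, pow_mul]; ring
    rw [h, e, w_cube, one_pow]

/-- a cube-free element is `±` its kernel -/
lemma kc_cf {l : Eis} (hl : l ≠ 0) (hl3 : ∀ p : Eis, Prime p → ¬ p ^ 3 ∣ l) :
    l = kv (kc l).1 ∨ l = -kv (kc l).1 := by
  have h1 := (kc_spec hl).2.2.1
  have hu := isUnit_of_cf hl hl3 h1
  rcases unit_cube hu with h | h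
  · left
    rw [h, mul_one] at h1
    exact h1
  · right
    rw [h, mul_neg_one] at h1
    exact h1

lemma sy_neg_left (x : Eis) {b : Eis} (hb : IsPrim b) : sy (-x) b = sy x b := by
  have e : -x = x * (-1) ^ 3 := by ring
  have h1 : sy ((-1 : Eis) ^ 3) b = 1 := by
    have hc : IsCoprime (-1 : Eis) b := (isCoprime_one_left (x := b)).neg_left
    have := (Char766.sy_cube_left (m := (-1 : Eis)) hb hc)
    exact this
  rw [e, Char766.sy_mul_left hb, h1, mul_one]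

/-- **the large sieve for cube-free numerators.** -/
theorem lsc : ∃ C : ℝ, 0 < C ∧ ∀ H Y : ℝ, 1 ≤ H → 1 ≤ Y → ∀ L : Finset Eis,
    (∀ l ∈ L, l ≠ 0 ∧ (∀ p : Eis, Prime p → ¬ p ^ 3 ∣ l) ∧ (nm l : ℝ) ≤ H) →
    ∀ T : Finset Eis, (∀ y ∈ T, IsPrim y ∧ (nm y : ℝ) ≤ Y) → ∀ c : Eis → ℂ,
      ∑ l ∈ L, ‖∑ y ∈ T, c y * sy l y‖ ^ 2 ≤ C * (Y + H ^ 2) * ∑ y ∈ T, ‖c y‖ ^ 2 := by
  classical
  obtain ⟨C, hC, hL⟩ := Glue372.L1Prop_holds
  refine ⟨2 * C, by positivity, ?_⟩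
  intro H Y hH hY L hLm T hT c
  have e1 : ∀ l ∈ L, ‖∑ y ∈ T, c y * sy l y‖ ^ 2 =
      ‖∑ y ∈ T, c y * sy (kv (kc l).1) y‖ ^ 2 := by
    intro l hl
    obtain ⟨h0, h3, -⟩ := hLm l hl
    congr 2
    refine Finset.sum_congr rfl fun y hy => ?_
    have hp := (hT y hy).1
    congr 1
    rcases kc_cf h0 h3 with h | h
    · conv_lhs => rw [h]
    · conv_lhs => rw [h]
      exact sy_neg_left _ hp
  rw [Finset.sum_congr rfl e1]
  set g : Eis → Ker := fun l => (kc l).1 with hg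
  have e2 : ∑ l ∈ L, ‖∑ y ∈ T, c y * sy (kv (kc l).1) y‖ ^ 2 =
      ∑ κ ∈ L.image g, (L.filter (fun l => g l = κ)).card • ‖∑ y ∈ T, c y * sy (kv κ) y‖ ^ 2 :=
    Finset.sum_comp (fun κ => ‖∑ y ∈ T, c y * sy (kv κ) y‖ ^ 2) g
  rw [e2]
  have h1 := hL Y H hY hH (L.image g) (by
    intro κ hκ
    obtain ⟨l, hl, rfl⟩ := Finset.mem_image.mp hκ
    obtain ⟨h0, h3, hn⟩ := hLm l hl
    have hg1 := (kc_spec h0).1
    refine ⟨hg1, (cond_le' hg1).trans ?_⟩
    have h2 : nm (kv (g l)) = nm l := by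
      rcases kc_cf h0 h3 with h | h
      · conv_rhs => rw [h]
      · conv_rhs => rw [h, nm_neg]
    rw [h2]
    exact hn) T hT c
  calc ∑ κ ∈ L.image g, (L.filter (fun l => g l = κ)).card • ‖∑ y ∈ T, c y * sy (kv κ) y‖ ^ 2
      ≤ ∑ κ ∈ L.image g, 2 * ‖∑ y ∈ T, c y * sy (kv κ) y‖ ^ 2 := by
        refine Finset.sum_le_sum fun κ _ => ?_
        rw [nsmul_eq_mul]
        refine mul_le_mul_of_nonneg_right ?_ (by positivity)
        have h3 : L.filter (fun l => g l = κ) ⊆ {kv κ, -kv κ} := by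
          intro l hl
          rw [Finset.mem_filter] at hl
          obtain ⟨hl1, hl2⟩ := hl
          obtain ⟨h0, h3, -⟩ := hLm l hl1
          rw [Finset.mem_insert, Finset.mem_singleton, ← hl2]
          exact kc_cf h0 h3
        have h4 := (Finset.card_le_card h3).trans Finset.card_le_two
        exact_mod_cast h4
    _ = 2 * ∑ κ ∈ L.image g, ‖∑ y ∈ T, c y * sy (kv κ) y‖ ^ 2 := by rw [Finset.mul_sum]
    _ ≤ 2 * (C * (Y + H ^ 2) * ∑ y ∈ T, ‖c y‖ ^ 2) := by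
        exact mul_le_mul_of_nonneg_left h1 (by norm_num)
    _ = _ := by ring

end Crest.Agent.R017.LSc579
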