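import Crest.Agent.R017.LSq_50
import Crest.Agent.R017.ModeB_405
import Crest.Agent.R017.StA_828
import Crest.Agent.R012.GLS_106

/-!
# Row 17, E3 (helper50): large sieve for the non-squarefree part of the mode sums

`mu = a β² γ³` (`a`, `β` squarefree, `γ` primary), `om50 W Y Q g = (Y/Q + (W Y)^(2/3)) / g +
W Y^(1/2) g^(-1/2)`:
* `lsn_ker` : kernels of norm `≤ W`, `d` squarefree, all `mu` with `d ∣ mu`, a `q` prime to `d`
  with `q ∣ β γ`, `nm d nm q ≥ Q`, `nm mu ≤ Y`: `≤ C (W Y)^ε ∑ om50 W Y Q (nm γ) |c|²`;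
* `lsn_rest` : the terms `Q < nm d nm q` of `Mode405.Lx_eq`.
-/

set_option autoImplicit false
set_option linter.unusedVariables false

noncomputable section

namespace Crest.Agent.R017.LSq50

open Finset Crest.Agent.R012 Crest.Agent.R012.Eis Crest.Agent.R012.NonCube52
open Crest.Agent.R012.LS448 Crest.Agent.R012.CharSum852 Crest.Agent.R012.Char766
open scoped ComplexConjugate

/-- the value of a triple -/
def tv (t : Eis × Eis × Eis) : Eis := t.1 * (t.2.1 ^ 2 * t.2.2 ^ 3)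

/-- admissible triples -/
structure TrOK (Y Q : ℝ) (d : Eis) (t : Eis × Eis × Eis) : Prop where
  p1 : IsPrim t.1
  s1 : Squarefree t.1
  p2 : IsPrim t.2.1
  p3 : IsPrim t.2.2
  le : (nm (tv t) : ℝ) ≤ Y
  dv : d ∣ t.1 * (t.2.1 * t.2.2)
  ge : ∃ q : Eis, q ≠ 0 ∧ IsCoprime q d ∧ q ∣ t.2.1 * t.2.2 ∧ Q ≤ (nm d : ℝ) * nm q

/-- the weight -/
def om50 (W Y Q g : ℝ) : ℝ :=
  (Y / Q + (W * Y) ^ ((2 : ℝ) / 3)) * g⁻¹ + W * Y ^ ((1 : ℝ) / 2) * g ^ (-(1 : ℝ) / 2)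

lemma om50_nonneg {W Y Q g : ℝ} (hW : 0 ≤ W) (hY : 0 ≤ Y) (hQ : 0 < Q) (hg : 0 ≤ g) :
    0 ≤ om50 W Y Q g := by
  unfold om50; positivity

lemma nm_tv (t : Eis × Eis × Eis) : (nm (tv t) : ℝ) =
    (nm t.1 : ℝ) * ((nm t.2.1 : ℝ) ^ 2 * (nm t.2.2 : ℝ) ^ 3) := by
  unfold tv
  simp only [nm_mul, nm_pow]
  push_cast
  ring

lemma cauchy_w50 {ι : Type*} (s : Finset ι) (w : ι → ℝ) (hw : ∀ i ∈ s, 0 < w i) (f : ι → ℂ) :
    ‖∑ i ∈ s, f i‖ ^ 2 ≤ (∑ i ∈ s, (w i)⁻¹) * ∑ i ∈ s, w i * ‖f i‖ ^ 2 := by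
  have h1 : ‖∑ i ∈ s, f i‖ ≤ ∑ i ∈ s, Real.sqrt ((w i)⁻¹) * (Real.sqrt (w i) * ‖f i‖) := by
    refine (norm_sum_le _ _).trans (Finset.sum_le_sum fun i hi => ?_)
    rw [← mul_assoc, ← Real.sqrt_mul (inv_nonneg.mpr (hw i hi).le), inv_mul_cancel₀ (hw i hi).ne',
      Real.sqrt_one, one_mul]
  calc ‖∑ i ∈ s, f i‖ ^ 2 ≤ (∑ i ∈ s, Real.sqrt ((w i)⁻¹) * (Real.sqrt (w i) * ‖f i‖)) ^ 2 :=
        pow_le_pow_left₀ (norm_nonneg _) h1 2
    _ ≤ (∑ i ∈ s, Real.sqrt ((w i)⁻¹) ^ 2) * ∑ i ∈ s, (Real.sqrt (w i) * ‖f i‖) ^ 2 :=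
        Finset.sum_mul_sq_le_sq_mul_sq s _ _
    _ = _ := by
        congr 1
        · exact Finset.sum_congr rfl fun i hi => Real.sq_sqrt (inv_nonneg.mpr (hw i hi).le)
        · refine Finset.sum_congr rfl fun i hi => ?_
          rw [mul_pow, Real.sq_sqrt (hw i hi).le]

/-- the weights -/
lemma weight50 {W Y Q b g e : ℝ} (hW : 0 ≤ W) (hY : 0 < Y) (hQ : 0 < Q) (hb : 1 ≤ b) (hg : 1 ≤ g)
    (he : 1 ≤ e) (h1 : b ^ 2 * g ^ 3 * e ≤ Y) (h2 : Q ≤ e * (b * g)) :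
    (b * g) * (W + Y / (b ^ 2 * g ^ 3 * e) + (W * (Y / (b ^ 2 * g ^ 3 * e))) ^ ((2 : ℝ) / 3)) ≤
      om50 W Y Q g := by
  have hb0 : 0 < b := by linarith
  have hg0 : 0 < g := by linarith
  have he0 : 0 < e := by linarith
  have hD : 0 < b ^ 2 * g ^ 3 := by positivity
  -- first
  have t1 : (b * g) * W ≤ W * Y ^ ((1 : ℝ) / 2) * g ^ (-(1 : ℝ) / 2) := by
    have e1 : (b ^ 2 * g ^ 3) ^ ((1 : ℝ) / 2) ≤ Y ^ ((1 : ℝ) / 2) :=
      Real.rpow_le_rpow (by positivity) ((le_mul_of_one_le_right hD.le he).trans h1) (by norm_num)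
    have e2 : (b ^ 2 * g ^ 3) ^ ((1 : ℝ) / 2) * g ^ (-(1 : ℝ) / 2) = b * g := by
      rw [Real.mul_rpow (by positivity) (by positivity), ← Real.rpow_natCast b 2,
        ← Real.rpow_natCast g 3, ← Real.rpow_mul hb0.le, ← Real.rpow_mul hg0.le, mul_assoc,
        ← Real.rpow_add hg0]
      norm_num
    calc (b * g) * W = W * ((b ^ 2 * g ^ 3) ^ ((1 : ℝ) / 2) * g ^ (-(1 : ℝ) / 2)) := by
          rw [e2]; ring
      _ ≤ W * (Y ^ ((1 : ℝ) / 2) * g ^ (-(1 : ℝ) / 2)) := by gcongr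
      _ = _ := by ring
  have t2 : (b * g) * (Y / (b ^ 2 * g ^ 3 * e)) ≤ Y / Q * g⁻¹ := by
    have e1 : (b * g) * (Y / (b ^ 2 * g ^ 3 * e)) = Y / (e * (b * g)) * g⁻¹ := by
      field_simp
    rw [e1]
    gcongr
  have t3 : (b * g) * (W * (Y / (b ^ 2 * g ^ 3 * e))) ^ ((2 : ℝ) / 3) ≤
      (W * Y) ^ ((2 : ℝ) / 3) * g⁻¹ := by
    have e5 : (W * (Y / (b ^ 2 * g ^ 3 * e))) ^ ((2 : ℝ) / 3) ≤
        (W * (Y / (b ^ 2 * g ^ 3))) ^ ((2 : ℝ) / 3) := by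
      refine Real.rpow_le_rpow (by positivity) ?_ (by norm_num)
      refine mul_le_mul_of_nonneg_left ?_ hW
      exact div_le_div_of_nonneg_left hY.le hD (le_mul_of_one_le_right hD.le he)
    have e1 : (W * (Y / (b ^ 2 * g ^ 3))) ^ ((2 : ℝ) / 3) =
        (W * Y) ^ ((2 : ℝ) / 3) * (b ^ (-(4 : ℝ) / 3) * g ^ (-(2 : ℝ))) := by
      have : W * (Y / (b ^ 2 * g ^ 3)) = (W * Y) * (b ^ (-(2 : ℝ)) * g ^ (-(3 : ℝ))) := by
        rw [Real.rpow_neg hb0.le, Real.rpow_neg hg0.le]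
        norm_num
        field_simp
      have e0 : (b ^ (-(2 : ℝ)) * g ^ (-(3 : ℝ))) ^ ((2 : ℝ) / 3) =
          b ^ (-(4 : ℝ) / 3) * g ^ (-(2 : ℝ)) := by
        rw [Real.mul_rpow (by positivity) (by positivity), ← Real.rpow_mul hb0.le,
          ← Real.rpow_mul hg0.le]
        norm_num
      rw [this, Real.mul_rpow (by positivity) (by positivity), e0]
    have e2 : (b * g) * (b ^ (-(4 : ℝ) / 3) * g ^ (-(2 : ℝ))) = b ^ (-(1 : ℝ) / 3) * g⁻¹ := by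
      have h3 : b * b ^ (-(4 : ℝ) / 3) = b ^ (-(1 : ℝ) / 3) := by
        nth_rewrite 1 [← Real.rpow_one b]
        rw [← Real.rpow_add hb0]; norm_num
      have h4 : g * g ^ (-(2 : ℝ)) = g⁻¹ := by
        nth_rewrite 1 [← Real.rpow_one g]
        rw [← Real.rpow_add hg0, ← Real.rpow_neg_one]; norm_num
      calc (b * g) * (b ^ (-(4 : ℝ) / 3) * g ^ (-(2 : ℝ))) =
            (b * b ^ (-(4 : ℝ) / 3)) * (g * g ^ (-(2 : ℝ))) := by ring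
        _ = _ := by rw [h3, h4]
    have e3 : b ^ (-(1 : ℝ) / 3) ≤ 1 := Real.rpow_le_one_of_one_le_of_nonpos hb (by norm_num)
    calc (b * g) * (W * (Y / (b ^ 2 * g ^ 3 * e))) ^ ((2 : ℝ) / 3) ≤
          (b * g) * (W * (Y / (b ^ 2 * g ^ 3))) ^ ((2 : ℝ) / 3) := by gcongr
      _ = (W * Y) ^ ((2 : ℝ) / 3) * ((b * g) * (b ^ (-(4 : ℝ) / 3) * g ^ (-(2 : ℝ)))) := by
          rw [e1]; ring
      _ = (W * Y) ^ ((2 : ℝ) / 3) * (b ^ (-(1 : ℝ) / 3) * g⁻¹) := by rw [e2]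
      _ ≤ (W * Y) ^ ((2 : ℝ) / 3) * (1 * g⁻¹) := by gcongr
      _ = _ := by ring
  unfold om50
  calc _ = (b * g) * W + (b * g) * (Y / (b ^ 2 * g ^ 3 * e)) +
        (b * g) * (W * (Y / (b ^ 2 * g ^ 3 * e))) ^ ((2 : ℝ) / 3) := by ring
    _ ≤ W * Y ^ ((1 : ℝ) / 2) * g ^ (-(1 : ℝ) / 2) + Y / Q * g⁻¹ +
        (W * Y) ^ ((2 : ℝ) / 3) * g⁻¹ := by linarith
    _ = _ := by ring

/-- the norm of the character factor -/
lemma norm_sy50 (x : Eis) {b : Eis} (hb : IsPrim b) : ‖sy x b‖ ≤ 1 :=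
  norm_sy_le Sym645.syFacts x b hb

lemma isPrim_of_mul50 {a b : Eis} (ha : IsPrim a) (h : IsPrim (a * b)) : IsPrim b :=
  (Tau671.isPrim_mul_iff ha).mp h

/-- **large sieve over kernels against `mu = a β² γ³`.** -/
theorem lsn_ker {ε : ℝ} (hε : 0 < ε) :
    ∃ C : ℝ, 0 < C ∧ ∀ W Y Q : ℝ, 1 ≤ W → 1 ≤ Y → 0 < Q → ∀ d : Eis, IsPrim d → Squarefree d →
      ∀ 𝒦 : Finset Ker, (∀ κ ∈ 𝒦, Good κ ∧ (nm (kv κ) : ℝ) ≤ W) →
      ∀ T : Finset (Eis × Eis × Eis), (∀ t ∈ T, TrOK Y Q d t) → ∀ c : Eis × Eis × Eis → ℂ,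
      ∑ κ ∈ 𝒦, ‖∑ t ∈ T, c t * sy (kv κ) (tv t)‖ ^ 2
        ≤ C * (W * Y) ^ ε * ∑ t ∈ T, om50 W Y Q (nm t.2.2) * ‖c t‖ ^ 2 := by
  classical
  have H := Sym645.syFacts
  obtain ⟨C1, hC1, hL⟩ := ls_kernel_eps H Glue372.L1Prop_holds
    (Glue372.HBProp_of_final LS448.hb_final) (ε := ε / 2) (by positivity)
  obtain ⟨C2, hC2, hLL⟩ := LL_le (ε := ε / 4) (by positivity)
  refine ⟨C2 ^ 2 * C1, by positivity, ?_⟩
  intro W Y Q hW hY hQ d hd hds 𝒦 h𝒦 T hT c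
  have hW0 : (0 : ℝ) < W := by linarith
  have hY0 : (0 : ℝ) < Y := by linarith
  set P : Finset (Eis × Eis) := T.image Prod.snd with hP
  set w : Eis × Eis → ℝ := fun p => (nm p.1 : ℝ) * nm p.2 with hw
  set X : Ker → Eis × Eis → ℂ := fun κ p =>
    ∑ t ∈ T with t.2 = p, c t * sy (kv κ) (tv t) with hX
  have hone : ∀ t ∈ T, (1 : ℝ) ≤ nm t.1 ∧ (1 : ℝ) ≤ nm t.2.1 ∧ (1 : ℝ) ≤ nm t.2.2 := fun t ht =>
    ⟨one_le_nm' (hT t ht).p1.ne_zero, one_le_nm' (hT t ht).p2.ne_zero,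
      one_le_nm' (hT t ht).p3.ne_zero⟩
  have hPY : ∀ t ∈ T, (nm t.2.1 : ℝ) ^ 2 * (nm t.2.2 : ℝ) ^ 3 ≤ Y := by
    intro t ht
    obtain ⟨a1, a2, a3⟩ := hone t ht
    have h1 := (hT t ht).le
    rw [nm_tv] at h1
    have h2 : (0 : ℝ) ≤ (nm t.2.1 : ℝ) ^ 2 * (nm t.2.2 : ℝ) ^ 3 := by positivity
    nlinarith
  have hwpos : ∀ p ∈ P, 0 < w p := by
    intro p hp
    rw [hP, mem_image] at hp
    obtain ⟨t, ht, rfl⟩ := hp
    obtain ⟨-, a2, a3⟩ := hone t ht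
    rw [hw]; dsimp only
    positivity
  -- the first factor
  have hinv : ∑ p ∈ P, (w p)⁻¹ ≤ LL Y ^ 2 := by
    have hsub : P ⊆ nz Y ×ˢ nz Y := by
      intro p hp
      rw [hP, mem_image] at hp
      obtain ⟨t, ht, rfl⟩ := hp
      obtain ⟨-, a2, a3⟩ := hone t ht
      have h1 := hPY t ht
      have b2 : (nm t.2.1 : ℝ) ≤ (nm t.2.1 : ℝ) ^ 2 := by nlinarith
      have b3 : (nm t.2.2 : ℝ) ≤ (nm t.2.2 : ℝ) ^ 3 := by
        calc (nm t.2.2 : ℝ) = (nm t.2.2 : ℝ) ^ 1 := (pow_one _).symm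
          _ ≤ _ := pow_le_pow_right₀ a3 (by norm_num)
      have c2 : (1 : ℝ) ≤ (nm t.2.1 : ℝ) ^ 2 := by linarith
      have c3 : (1 : ℝ) ≤ (nm t.2.2 : ℝ) ^ 3 := by linarith
      rw [mem_product, mem_nz, mem_nz]
      refine ⟨⟨(hT t ht).p2.ne_zero, ?_⟩, ⟨(hT t ht).p3.ne_zero, ?_⟩⟩
      · nlinarith
      · nlinarith
    calc ∑ p ∈ P, (w p)⁻¹ ≤ ∑ p ∈ nz Y ×ˢ nz Y, (w p)⁻¹ :=
          sum_le_sum_of_subset_of_nonneg hsub fun p _ _ => by rw [hw]; positivity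
      _ = (∑ x ∈ nz Y, 1 / (nm x : ℝ)) * ∑ y ∈ nz Y, 1 / (nm y : ℝ) := by
          rw [sum_product, sum_mul_sum]
          refine sum_congr rfl fun x _ => sum_congr rfl fun y _ => ?_
          rw [hw]; dsimp only
          rw [mul_inv, one_div, one_div]
      _ = LL Y ^ 2 := by rw [sq]; rfl
  have hmaps : ∀ t ∈ T, t.2 ∈ P := fun t ht => by rw [hP]; exact mem_image_of_mem _ ht
  have hsplit : ∀ κ, ∑ t ∈ T, c t * sy (kv κ) (tv t) = ∑ p ∈ P, X κ p := fun κ =>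
    (sum_fiberwise_of_maps_to hmaps _).symm
  -- one pair
  have hpair : ∀ p ∈ P, w p * ∑ κ ∈ 𝒦, ‖X κ p‖ ^ 2 ≤
      C1 * (W * Y) ^ (ε / 2) *
        ∑ t ∈ T with t.2 = p, om50 W Y Q (nm t.2.2) * ‖c t‖ ^ 2 := by
    intro p hp
    have hp' := hp
    rw [hP, mem_image] at hp'
    obtain ⟨t₀, ht₀, hp0⟩ := hp'
    obtain ⟨a1, a2, a3⟩ := hone t₀ ht₀
    rw [hp0] at a2 a3
    -- the part of `d` prime to `β γ`
    have hm : IsPrim (p.1 * p.2) := by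
      rw [← hp0]; exact (hT t₀ ht₀).p2.mul (hT t₀ ht₀).p3
    obtain ⟨g, d₁, u₁, hg, hu₁, hdg, hmg, hcop, -⟩ := StA828.exists_gcd d hm
    have hd₁ : IsPrim d₁ := isPrim_of_mul50 hg (hdg ▸ hd)
    have hgd : IsCoprime g d₁ := by
      have h1 := hdg ▸ hds
      exact isRelPrime_iff_isCoprime.mp (squarefree_mul_iff.mp h1).1
    have hd₁m : IsCoprime d₁ (p.1 * p.2) := by
      rw [hmg]; exact hgd.symm.mul_right hcop
    have hd₁n : (1 : ℝ) ≤ nm d₁ := one_le_nm' hd₁.ne_zero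
    have hdiv : ∀ t ∈ T, t.2 = p → d₁ ∣ t.1 := by
      intro t ht h2
      have h3 := (hT t ht).dv
      rw [h2, hdg] at h3
      exact hd₁m.dvd_of_dvd_mul_right ((dvd_mul_left _ _).trans h3)
    have hQ2 : Q ≤ (nm d₁ : ℝ) * ((nm p.1 : ℝ) * nm p.2) := by
      obtain ⟨q, hq0, hqd, hqm, hqQ⟩ := (hT t₀ ht₀).ge
      rw [hp0] at hqm
      have h1 : IsCoprime q g := hqd.of_isCoprime_of_dvd_right ⟨d₁, hdg⟩
      have h2 : g * q ∣ p.1 * p.2 := h1.symm.mul_dvd ⟨u₁, hmg⟩ hqm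
      have h3 : (nm (g * q) : ℝ) ≤ nm (p.1 * p.2) := by
        exact_mod_cast Div277.nm_le_of_dvd hm.ne_zero h2
      rw [nm_mul, nm_mul] at h3
      push_cast at h3
      calc Q ≤ (nm d : ℝ) * nm q := hqQ
        _ = (nm d₁ : ℝ) * ((nm g : ℝ) * nm q) := by
            rw [hdg, nm_mul]; push_cast; ring
        _ ≤ _ := mul_le_mul_of_nonneg_left h3 (by positivity)
    set D₀ : ℝ := (nm p.1 : ℝ) ^ 2 * (nm p.2 : ℝ) ^ 3 with hD₀
    have hD₀0 : 0 < D₀ := by positivity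
    have hD₀1 : 1 ≤ D₀ := by
      have c2 : (1 : ℝ) ≤ (nm p.1 : ℝ) ^ 2 := one_le_pow₀ a2
      have c3 : (1 : ℝ) ≤ (nm p.2 : ℝ) ^ 3 := one_le_pow₀ a3
      rw [hD₀]; nlinarith
    set D : ℝ := D₀ * nm d₁ with hD
    have hD0 : 0 < D := by positivity
    have hD1 : 1 ≤ D := by rw [hD]; nlinarith
    have hbg : D ≤ Y := by
      have h1 := (hT t₀ ht₀).le
      rw [nm_tv, hp0] at h1
      obtain ⟨y, hy⟩ := hdiv t₀ ht₀ hp0
      have hy0 : IsPrim y := isPrim_of_mul50 hd₁ (hy ▸ (hT t₀ ht₀).p1)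
      have hy1 : (1 : ℝ) ≤ nm y := one_le_nm' hy0.ne_zero
      rw [hy, nm_mul] at h1
      push_cast at h1
      have h2 : D * nm y ≤ Y := by
        refine le_trans (le_of_eq ?_) h1
        rw [hD, hD₀]; ring
      nlinarith
    set B : ℝ := Y / D with hB
    have hB1 : 1 ≤ B := by rw [hB, le_div_iff₀ hD0]; linarith
    have hBY : B ≤ Y := div_le_self hY0.le hD1
    set Tp := T.filter (fun t => t.2 = p) with hTp
    set A : Finset Eis := Tp.image (fun t => t.1 / d₁) with hA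
    have hdd : ∀ t ∈ Tp, d₁ * (t.1 / d₁) = t.1 := by
      intro t ht
      rw [hTp, mem_filter] at ht
      obtain ⟨y, hy⟩ := hdiv t ht.1 ht.2
      have : t.1 / d₁ = y := by
        rw [hy]; exact mul_div_cancel_left₀ _ hd₁.ne_zero
      rw [this, ← hy]
    have hback : ∀ t ∈ Tp, (d₁ * (t.1 / d₁), p) = t := by
      intro t ht
      have h1 := hdd t ht
      rw [hTp, mem_filter] at ht
      exact Prod.ext h1 ht.2.symm
    have hinj : Set.InjOn (fun t : Eis × Eis × Eis => t.1 / d₁) (Tp : Set (Eis × Eis × Eis)) := by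
      intro s hs t ht hst
      have h1 := hback s (by simpa using hs)
      have h2 := hback t (by simpa using ht)
      simp only at hst
      rw [← h1, ← h2, hst]
    have hmemT : ∀ a ∈ A, (d₁ * a, p) ∈ Tp := by
      intro a ha
      rw [hA, mem_image] at ha
      obtain ⟨t, ht, rfl⟩ := ha
      rw [hback t ht]; exact ht
    have hAprop : ∀ a ∈ A, IsPrim a ∧ Squarefree a ∧ (nm a : ℝ) ≤ B := by
      intro a ha
      have h0 := hmemT a ha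
      rw [hTp, mem_filter] at h0
      have h1 := hT _ h0.1
      refine ⟨isPrim_of_mul50 hd₁ h1.p1, h1.s1.of_mul_right, ?_⟩
      have h2 := h1.le
      rw [nm_tv] at h2
      simp only [nm_mul] at h2
      push_cast at h2
      rw [hB, le_div_iff₀ hD0]
      refine le_trans (le_of_eq ?_) h2
      rw [hD, hD₀]; ring
    have key := hL B W hB1 hW 𝒦 h𝒦 A hAprop (fun a => c (d₁ * a, p))
    have hXle : ∀ κ ∈ 𝒦, ‖X κ p‖ ^ 2 ≤ ‖∑ a ∈ A, c (d₁ * a, p) * sy (kv κ) a‖ ^ 2 := by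
      intro κ _
      have hpp : IsPrim (d₁ * (p.1 ^ 2 * p.2 ^ 3)) := by
        have h1 := hT _ ht₀
        rw [← hp0]; exact hd₁.mul ((h1.p2.pow 2).mul (h1.p3.pow 3))
      have e1 : X κ p = sy (kv κ) (d₁ * (p.1 ^ 2 * p.2 ^ 3)) *
          ∑ a ∈ A, c (d₁ * a, p) * sy (kv κ) a := by
        rw [hX]; dsimp only
        rw [← hTp, hA, sum_image (fun s hs t ht h => hinj hs ht h), mul_sum]
        refine sum_congr rfl fun t ht => ?_
        have e2 := hback t ht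
        have ht' := ht
        rw [hTp, mem_filter] at ht'
        have h1 := hT t ht'.1
        have e3 : tv t = (t.1 / d₁) * (d₁ * (p.1 ^ 2 * p.2 ^ 3)) := by
          unfold tv; rw [ht'.2]
          nth_rewrite 1 [← hdd t ht]
          ring
        have ha : IsPrim (t.1 / d₁) := isPrim_of_mul50 hd₁ (by rw [hdd t ht]; exact h1.p1)
        rw [e2, e3, H.mul_right _ _ _ ha hpp]
        ring
      have e4 : ‖X κ p‖ ≤ ‖∑ a ∈ A, c (d₁ * a, p) * sy (kv κ) a‖ := by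
        rw [e1, norm_mul]
        exact mul_le_of_le_one_left (norm_nonneg _) (norm_sy50 _ hpp)
      exact pow_le_pow_left₀ (norm_nonneg _) e4 2
    have hsumA : ∑ a ∈ A, ‖c (d₁ * a, p)‖ ^ 2 = ∑ t ∈ Tp, ‖c t‖ ^ 2 := by
      rw [hA, sum_image (fun s hs t ht h => hinj hs ht h)]
      refine sum_congr rfl fun t ht => ?_
      rw [hback t ht]
    have hwt := weight50 (W := W) (Y := Y) (Q := Q) (e := nm d₁) hW0.le hY0 hQ a2 a3 hd₁n hbg hQ2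
    rw [← hD₀, ← hD, ← hB] at hwt
    have hpw : (W * B) ^ (ε / 2) ≤ (W * Y) ^ (ε / 2) :=
      Real.rpow_le_rpow (by positivity) (by gcongr) (by positivity)
    have hE0 : 0 ≤ ∑ t ∈ Tp, ‖c t‖ ^ 2 := sum_nonneg fun _ _ => by positivity
    have hw0 : 0 ≤ w p := (hwpos p hp).le
    calc w p * ∑ κ ∈ 𝒦, ‖X κ p‖ ^ 2
        ≤ w p * (C1 * (W * B) ^ (ε / 2) * (W + B + (W * B) ^ ((2 : ℝ) / 3)) *
            ∑ t ∈ Tp, ‖c t‖ ^ 2) := by
          refine mul_le_mul_of_nonneg_left ?_ hw0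
          rw [← hsumA]
          exact (sum_le_sum hXle).trans key
      _ ≤ w p * (C1 * (W * Y) ^ (ε / 2) * (W + B + (W * B) ^ ((2 : ℝ) / 3)) *
            ∑ t ∈ Tp, ‖c t‖ ^ 2) := by gcongr
      _ = C1 * (W * Y) ^ (ε / 2) *
            (((nm p.1 : ℝ) * nm p.2) * (W + B + (W * B) ^ ((2 : ℝ) / 3))) *
            ∑ t ∈ Tp, ‖c t‖ ^ 2 := by rw [hw]; ring
      _ ≤ C1 * (W * Y) ^ (ε / 2) * om50 W Y Q (nm p.2) * ∑ t ∈ Tp, ‖c t‖ ^ 2 := by gcongr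
      _ = _ := by
          rw [mul_sum, mul_sum]
          refine sum_congr rfl fun t ht => ?_
          rw [hTp, mem_filter] at ht
          rw [← ht.2]
          ring
  have hLLY : LL Y ^ 2 ≤ C2 ^ 2 * (W * Y) ^ (ε / 2) := by
    have h1 := hLL Y hY
    have h2 : Y ^ (ε / 4) ≤ (W * Y) ^ (ε / 4) :=
      Real.rpow_le_rpow hY0.le (by nlinarith) (by positivity)
    have h3 : LL Y ≤ C2 * (W * Y) ^ (ε / 4) := h1.trans (by gcongr)
    calc LL Y ^ 2 ≤ (C2 * (W * Y) ^ (ε / 4)) ^ 2 := pow_le_pow_left₀ (LL_nonneg _) h3 2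
      _ = C2 ^ 2 * (W * Y) ^ (ε / 2) := by
          rw [mul_pow, ← Real.rpow_natCast ((W * Y) ^ (ε / 4)), ← Real.rpow_mul (by positivity)]
          congr 2
          push_cast; ring
  have hS0 : 0 ≤ ∑ t ∈ T, om50 W Y Q (nm t.2.2) * ‖c t‖ ^ 2 :=
    sum_nonneg fun _ _ => mul_nonneg (om50_nonneg hW0.le hY0.le hQ (Nat.cast_nonneg _))
      (by positivity)
  calc ∑ κ ∈ 𝒦, ‖∑ t ∈ T, c t * sy (kv κ) (tv t)‖ ^ 2
      ≤ ∑ κ ∈ 𝒦, LL Y ^ 2 * ∑ p ∈ P, w p * ‖X κ p‖ ^ 2 := by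
        refine sum_le_sum fun κ _ => ?_
        rw [hsplit κ]
        refine (cauchy_w50 P w hwpos _).trans ?_
        exact mul_le_mul_of_nonneg_right hinv
          (sum_nonneg fun p hp => mul_nonneg (hwpos p hp).le (by positivity))
    _ = LL Y ^ 2 * ∑ p ∈ P, w p * ∑ κ ∈ 𝒦, ‖X κ p‖ ^ 2 := by
        rw [← mul_sum, sum_comm]
        congr 1
        exact sum_congr rfl fun p _ => by rw [mul_sum]
    _ ≤ LL Y ^ 2 * ∑ p ∈ P, C1 * (W * Y) ^ (ε / 2) *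
        ∑ t ∈ T with t.2 = p, om50 W Y Q (nm t.2.2) * ‖c t‖ ^ 2 := by
        exact mul_le_mul_of_nonneg_left (sum_le_sum hpair) (by positivity)
    _ = LL Y ^ 2 * (C1 * (W * Y) ^ (ε / 2) *
        ∑ t ∈ T, om50 W Y Q (nm t.2.2) * ‖c t‖ ^ 2) := by
        rw [← mul_sum, sum_fiberwise_of_maps_to hmaps]
    _ ≤ (C2 ^ 2 * (W * Y) ^ (ε / 2)) * (C1 * (W * Y) ^ (ε / 2) *
        ∑ t ∈ T, om50 W Y Q (nm t.2.2) * ‖c t‖ ^ 2) := by gcongr
    _ = C2 ^ 2 * C1 * ((W * Y) ^ (ε / 2) * (W * Y) ^ (ε / 2)) *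
        ∑ t ∈ T, om50 W Y Q (nm t.2.2) * ‖c t‖ ^ 2 := by ring
    _ = _ := by
        rw [← Real.rpow_add (by positivity)]
        congr 3
        ring_nf

end Crest.Agent.R017.LSq50
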