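import Crest.Agent.R017.P1TF_957

/-!
# Row 17, R8 (P1M): the last step of the `T`-half of the lines (helper957)

* `lastR` : the bound of `TPsm` at `m = log (3 W) + ..` against the target
-/

set_option autoImplicit false
set_option linter.unusedVariables false

noncomputable section

namespace Crest.Agent.R017.TL957

/-- the exponent of `TPsm`'s prefactor with the lines -/
lemma preR {ng nb P k ex t : ℝ} (ng0 : 0 < ng) (nb0 : 0 < nb) :
    Real.exp (-(P / 3)) * (ng * nb) ^ (1 / 3 : ℝ) *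
      Real.exp (k + 4 / 3 * (P - 2 * Real.log ng) + (Real.log ng - Real.log nb) / 3 + ex + t) =
    Real.exp (k + (P - 2 * Real.log ng) + ex + t) := by
  have e1 : (ng * nb) ^ (1 / 3 : ℝ) = Real.exp ((Real.log ng + Real.log nb) / 3) := by
    rw [Real.rpow_def_of_pos (by positivity), Real.log_mul ng0.ne' nb0.ne']
    congr 1; ring
  rw [e1, ← Real.exp_add, ← Real.exp_add]
  congr 1; ring

/-- **the last step** -/
theorem lastR {X L C S Ht ε ε₁ ε₂ ε₃ τ k l P ng nb ρ ex lo L0 t : ℝ} {M : ℕ} (hX : 0 < X)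
    (hL : L = Real.log X) (hC : 1 ≤ C) (hS : 0 ≤ S) (hHt : 0 ≤ Ht) (ng0 : 0 < ng) (nb0 : 0 < nb)
    (hρ : ρ = Real.log ng - Real.log nb) (hk : k ≤ l + τ * L) (hex : ex + lo ≤ L0 * L)
    (ht : t ≤ 12 * (τ * L) + 5) (hε : ε₁ + ε₂ + 409 * τ + ε₃ ≤ ε) (hL0 : 0 ≤ L)
    (hbig : 170 + Real.log (3 * C) ≤ ε₃ * L) :
    C * X ^ ε₁ * S * Real.exp (-(P / 3)) * (ng * nb) ^ (1 / 3 : ℝ) *
      (3 * (Ht ^ M * X ^ ε₂ * Real.exp (lo + 3 * t)) *
        Real.exp (k + 4 / 3 * (P - 2 * Real.log ng) + ρ / 3 + ex + 31 * t)) ≤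
      Ht ^ M * X ^ ε * Real.exp (l + P - 2 * Real.log ng + L0 * L) * S := by
  have h3C : 0 < 3 * C := by linarith
  subst hρ
  have e1 : C * X ^ ε₁ * S * Real.exp (-(P / 3)) * (ng * nb) ^ (1 / 3 : ℝ) *
      (3 * (Ht ^ M * X ^ ε₂ * Real.exp (lo + 3 * t)) *
        Real.exp (k + 4 / 3 * (P - 2 * Real.log ng) + (Real.log ng - Real.log nb) / 3 + ex +
          31 * t)) =
      Ht ^ M * S * (3 * C * (X ^ ε₁ * X ^ ε₂) * Real.exp (lo + 3 * t) *
        Real.exp (k + (P - 2 * Real.log ng) + ex + 31 * t)) := by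
    rw [← preR (P := P) (k := k) (ex := ex) (t := 31 * t) ng0 nb0]
    ring
  have e2 : Ht ^ M * X ^ ε * Real.exp (l + P - 2 * Real.log ng + L0 * L) * S =
      Ht ^ M * S * (X ^ ε * Real.exp (l + P - 2 * Real.log ng + L0 * L)) := by ring
  rw [e1, e2]
  refine mul_le_mul_of_nonneg_left ?_ (mul_nonneg (pow_nonneg hHt M) hS)
  rw [← Real.exp_log h3C, Real.rpow_def_of_pos hX, Real.rpow_def_of_pos hX,
    Real.rpow_def_of_pos hX, ← hL]
  simp only [← Real.exp_add]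
  refine Real.exp_le_exp.2 ?_
  have h1 : L * (ε₁ + ε₂ + 409 * τ + ε₃) ≤ L * ε := mul_le_mul_of_nonneg_left hε hL0
  nlinarith [h1, hbig, ht, hk, hex]

end Crest.Agent.R017.TL957
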