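import Crest.Agent.R017.XPs_828

/-!
# Row 17, R8/P1: the mains of a class of the mismatch, `d` prime to `g` (helper54)

helper828's `XPw`; the claims and the line only for `d` prime to `g`
-/

set_option autoImplicit false

noncomputable section

open Finset MeasureTheory
open scoped ComplexConjugate

namespace Crest.Agent.R017.XPc54

open Crest.Agent.R012 Crest.Agent.R012.Eis
open Crest.Agent.R012.Div277 (tau dvs mem_dvs tau_le_rpow)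
open Crest.Agent.R012.LS2 (S mem_S bl mem_bl)
open Crest.Agent.R012.Weight600 (osc norm_osc pw norm_pw)
open Crest.Agent.R017.CM106 (CS TG FS)
open Crest.Agent.R017.C70 (JC OKJ JW okJ_JW)
open Crest.Agent.R017.HP842 (Pc pc al cv Tu mem_Tu sc' scS sqc Th card_Tu_le)
open Crest.Agent.R017.Rough381 (sh shS sh_OK VF nm_prodI)
open Crest.Agent.R017.FE47 (PU cx hD)
open Crest.Agent.R017.StA828 Crest.Agent.R017.StC828 Crest.Agent.R017.StF828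
open Crest.Agent.R017.StB828 (one_le_nmR)
open Crest.Agent.R017.StD828 (ln)
open Crest.Agent.R017.StE828 (wD wD_ne)
open Crest.Agent.R017.GrC828 Crest.Agent.R017.GrT828 Crest.Agent.R017.StG828
open Crest.Agent.R017.StJ319 Crest.Agent.R017.GrG404
open Crest.Agent.R017.E3F548 (XE)
open Crest.Agent.R017.E3D579 (TE0)
open Crest.Agent.R017.E3T829 (cg)
open Crest.Agent.R017.E1551 (Adm CF exists_cf BF mem_BF)
open Crest.Agent.R017.DgA829 (lc lc_prim lc_dvd lc_unique)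
open Crest.Agent.R017.Xp828

set_option maxHeartbeats 1000000 in
open Classical in
/-- **the mains of a class of the mismatch**, general weights, `d` prime to `g` -/
theorem XPc {h : ℝ → ℝ} {c₀ : ℝ} (hpu : PU h c₀) {R : ℝ} (hR0 : 0 ≤ R)
    (hR : ∀ u, cx h u ≠ 0 → |u| ≤ R) (N : ℕ) {B₀ : ℝ} (hB₀ : 0 ≤ B₀) {ε : ℝ} (hε : 0 < ε)
    {M : ℝ} (hM : 0 ≤ M) : ∃ C r : ℝ, 1 ≤ C ∧ 0 ≤ r ∧ ∀ X : ℝ, 3 ≤ X →
    ∀ (ι κ : Type) [Fintype ι] [Fintype κ] [DecidableEq ι] [DecidableEq κ],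
    Fintype.card ι + Fintype.card κ ≤ N → ∀ (s1 : ι → Pc) (s2 : κ → Pc), (∀ i, (s1 i).OK) →
    (∀ j, (s2 j).OK) → (∀ i, Real.log (s1 i).Y ≤ Real.log X) →
    (∀ j, Real.log (s2 j).Y ≤ Real.log X) → ∀ Z : ℝ, 0 ≤ Z →
    (∀ n, sqc 1 (al h s1) n ≠ 0 → (nm n : ℝ) ≤ Z) →
    ∀ (E0 : ℝ) (c : Fin 5) (s : ℝ) (g hh c₁ : Eis), IsPrim g → IsPrim hh → IsPrim c₁ →
    (nm g : ℝ) ≤ X ^ B₀ → ∀ (i : ℕ) (V : ℝ), 0 < V →
    nm c₁ * V ≤ Real.exp (Real.log 2 * (i + 1)) → V ≤ X ^ B₀ →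
    (∀ d ∈ (JB (Real.sqrt V)).image Prod.fst, (nm (hh * d) : ℝ) ≤ X ^ B₀) →
    ∀ Es : Finset Eis, (∀ e ∈ Es, IsPrim e ∧ (nm e : ℝ) ≤ X ^ B₀) →
    ∀ (ω : Eis → ℝ) (Ω : Eis → ℕ → ℝ), (∀ e ∈ Es, 0 ≤ ω e) → (∀ d b, 0 ≤ Ω d b) →
    (∀ d, IsPrim d → (nm d : ℝ) ^ 2 ≤ V → IsCoprime d g → ∀ e ∈ Es, ∀ b : ℕ,
      Real.log (nm (lc (cc g (hh * d)) e / cc g (hh * d))) ≤ b + 1 → ω e ≤ Ω d b) →
    ∀ (Bf : Eis → ℕ → ℝ → ℝ) (m : ℝ), (∀ d b k, 0 ≤ Bf d b k) →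
    (∀ d, IsPrim d → (nm d : ℝ) ^ 2 ≤ V → IsCoprime d g → ∀ (b : ℕ) (k l : ℝ)
      (s' : ι ⊕ κ → Pc),
      (b : ℝ) ≤ 4 * B₀ * Real.log X → 0 ≤ k →
      k ≤ Real.log (V / (nm d : ℝ) ^ 2) + Real.log (nm (cc g (hh * d))) → 0 ≤ l →
      ChF r s' (Sum.elim s1 s2) →
      |LY s' - (LY s1 + LY s2 - Real.log (nm g) -
        Real.log (nm (hh * d) * nm (cc g (hh * d))) - b)| ≤ r →
      |l - (k + b)| ≤ r →
      LY s1 - Real.log (nm g) - min (y5 Z g c) (Real.log (nm (hh * d))) - b - r ≤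
        LY (fun i => s' (.inl i)) →
      VF (Real.exp l) (sqc (hh * d * cc g (hh * d)) (al h s')) ≤
        Bf d b k * cF s' (Sum.elim s1 s2) ^ M) →
    (∀ d, IsPrim d → (nm d : ℝ) ^ 2 ≤ V → IsCoprime d g → ∀ b : ℕ,
      (b : ℝ) ≤ 4 * B₀ * Real.log X →
      Ω d b * Bf d b (Real.log (V / (nm d : ℝ) ^ 2) + Real.log (nm (cc g (hh * d)))) *
        (nm d : ℝ) ^ 2 ≤ Real.exp m) →
    ∑ e ∈ Es, ω e * XE (JB (Real.sqrt V)) (omp c₁ i s) (StF828.T3 (afrb (gt5 E0 Z g c) (q5 g c) Z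
        (sqc 1 (al h s1)) (sqc 1 (al h s2)) g hh s)) e ≤
      C * X ^ ε * (1 + |s|) ^ (N * M) *
        (V ^ (-(1 / 3) : ℝ) * Real.exp (-((LY s1 + LY s2) / 3)) * (nm g * nm hh) ^ (1 / 3 : ℝ) *
          Real.exp m) := by
  obtain ⟨C, r, hC, hr, H⟩ := TPdm_cf hpu hR0 hR N hB₀ (half_pos hε) hM
  obtain ⟨C₂, hC₂, hinv⟩ := sum_inv hB₀ (half_pos hε)
  refine ⟨4 * C * C₂, r, ?_, hr, ?_⟩
  · nlinarith
  intro X hX ι κ _ _ _ _ hcard s1 s2 h1 h2 h1X h2X Z hZ hsup E0 c s g hh c₁ hg hhp hc₁ hgX i V hV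
    hVi hVX hdX Es hEs ω Ω hω0 hΩ hωΩ Bf m hBf hyp hline
  have hX0 : 0 < X := by linarith
  have hX1 : 1 ≤ X := by linarith
  have hsV : Real.sqrt V ^ 2 = V := Real.sq_sqrt hV.le
  have hsV0 : 0 ≤ Real.sqrt V := Real.sqrt_nonneg V
  have hmem : ∀ x ∈ JB (Real.sqrt V), IsPrim x.1 ∧ Squarefree x.1 ∧ JC x.2 ∧
      (nm (ln x) : ℝ) ≤ V := by
    intro x hx
    have h1 := (mem_JB hsV0).1 hx
    rwa [hsV] at h1
  have hln : ∀ x : Eis × Eis, (nm (ln x) : ℝ) = nm x.2 * (nm x.1 : ℝ) ^ 2 := by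
    intro x
    unfold StD828.ln
    rw [nm_mul, nm_pow]; push_cast; ring
  have hX1B : 1 ≤ X ^ B₀ := Real.one_le_rpow hX1 hB₀
  set af := afrb (gt5 E0 Z g c) (q5 g c) Z (sqc 1 (al h s1)) (sqc 1 (al h s2)) g hh s with haf
  set Ds := (JB (Real.sqrt V)).image Prod.fst with hDs
  set Jd : Eis → Finset Eis := fun d => ((JB (Real.sqrt V)).filter fun x => x.1 = d).image Prod.snd
    with hJd
  have hdm : ∀ d ∈ Ds, IsPrim d ∧ (nm d : ℝ) ^ 2 ≤ V := by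
    intro d hd
    obtain ⟨x, hx, rfl⟩ := mem_image.1 hd
    obtain ⟨a1, a2, a3, a4⟩ := hmem x hx
    refine ⟨a1, ?_⟩
    rw [hln] at a4
    have h6 : (1 : ℝ) ≤ nm x.2 := by
      have := nm_pos.2 (JC_ne_zero a3)
      exact_mod_cast this
    nlinarith [mul_nonneg (sub_nonneg.2 h6) (sq_nonneg (nm x.1 : ℝ))]
  have hjm : ∀ d ∈ Ds, ∀ j ∈ Jd d, CF j ∧ (nm j : ℝ) ≤ V / (nm d : ℝ) ^ 2 := by
    intro d hd j hj
    obtain ⟨x, hx, rfl⟩ := mem_image.1 hj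
    obtain ⟨hx1, hx2⟩ := mem_filter.1 hx
    obtain ⟨a1, a2, a3, a4⟩ := hmem x hx1
    refine ⟨E5b54.JC_cf a3, ?_⟩
    rw [hln, hx2] at a4
    have h7 : (0 : ℝ) < nm d := by linarith [one_le_nmR (hdm d hd).1]
    rw [le_div_iff₀ (by positivity)]
    exact a4
  -- one term
  have hterm : ∀ x ∈ JB (Real.sqrt V), ∀ e, ‖omp c₁ i s x‖ ^ 2 * ((nm x.2 : ℝ) ^ (-(1 : ℝ) / 3) *
      ‖StF828.T3 af x.1 e x.2‖ ^ 2) ≤ (4 * (V ^ (-(1 / 3) : ℝ) * (nm x.1 : ℝ) ^ (2 / 3 : ℝ))) *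
        ‖TE0 (cg 1 (af e x.1)) x.1 x.2 e‖ ^ 2 := by
    intro x hx e
    obtain ⟨a1, a2, a3, a4⟩ := hmem x hx
    by_cases h0 : omp c₁ i s x = 0
    · rw [h0]
      simp only [norm_zero, ne_eq, OfNat.ofNat_ne_zero, not_false_eq_true, zero_pow, zero_mul]
      positivity
    rw [T3_eq]
    have h3 := omp_low hc₁.ne_zero hVi a1 a3 h0
    rw [hln] at h3
    have d0 : (0 : ℝ) < nm x.1 := by linarith [one_le_nmR a1]
    have j0 : (0 : ℝ) < nm x.2 := by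
      have := nm_pos.2 (JC_ne_zero a3)
      exact_mod_cast this
    have h4 : ‖omp c₁ i s x‖ ^ 2 ≤ 1 := pow_le_one₀ (norm_nonneg _) (norm_omp_le c₁ i s x)
    have h5 : (nm x.2 : ℝ) ^ (-(1 : ℝ) / 3) ≤ 4 * (V ^ (-(1 / 3) : ℝ) * (nm x.1 : ℝ) ^ (2 / 3 : ℝ)) := by
      have e1 : V / (4 * (nm x.1 : ℝ) ^ 2) ≤ nm x.2 := by
        rw [div_le_iff₀ (by positivity)]
        linarith
      have e2 : (nm x.2 : ℝ) ^ (-(1 : ℝ) / 3) ≤ (V / (4 * (nm x.1 : ℝ) ^ 2)) ^ (-(1 : ℝ) / 3) :=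
        Real.rpow_le_rpow_of_nonpos (by positivity) e1 (by norm_num)
      refine e2.trans ?_
      rw [Real.div_rpow hV.le (by positivity), Real.mul_rpow (by norm_num) (by positivity),
        ← Real.rpow_natCast (nm x.1 : ℝ) 2, ← Real.rpow_mul d0.le, div_eq_mul_inv, mul_inv,
        ← Real.rpow_neg (by norm_num), ← Real.rpow_neg d0.le]
      have e3 : (4 : ℝ) ^ (-(-(1 : ℝ) / 3)) ≤ 4 := by
        calc (4 : ℝ) ^ (-(-(1 : ℝ) / 3)) ≤ 4 ^ (1 : ℝ) :=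
              Real.rpow_le_rpow_of_exponent_le (by norm_num) (by norm_num)
          _ = 4 := Real.rpow_one 4
      have e4 : (-(((2 : ℕ) : ℝ) * (-(1 : ℝ) / 3))) = 2 / 3 := by norm_num
      have e5 : (-(1 : ℝ) / 3) = (-(1 / 3) : ℝ) := by norm_num
      rw [e4, e5]
      have p1 : 0 ≤ V ^ (-(1 / 3) : ℝ) := by positivity
      have p2 : 0 ≤ (nm x.1 : ℝ) ^ (2 / 3 : ℝ) := by positivity
      rw [e5] at e3
      calc V ^ (-(1 / 3) : ℝ) * (4 ^ (-(-(1 / 3)) : ℝ) * (nm x.1 : ℝ) ^ (2 / 3 : ℝ))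
          ≤ V ^ (-(1 / 3) : ℝ) * (4 * (nm x.1 : ℝ) ^ (2 / 3 : ℝ)) :=
            mul_le_mul_of_nonneg_left (mul_le_mul_of_nonneg_right e3 p2) p1
        _ = _ := by ring
    have h6 : 0 ≤ ‖TE0 (cg 1 (af e x.1)) x.1 x.2 e‖ ^ 2 := sq_nonneg _
    have h7 : (0 : ℝ) ≤ (nm x.2 : ℝ) ^ (-(1 : ℝ) / 3) := by positivity
    calc _ ≤ 1 * ((nm x.2 : ℝ) ^ (-(1 : ℝ) / 3) * ‖TE0 (cg 1 (af e x.1)) x.1 x.2 e‖ ^ 2) :=
          mul_le_mul_of_nonneg_right h4 (mul_nonneg h7 h6)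
      _ ≤ _ := by
          rw [one_mul]
          exact mul_le_mul_of_nonneg_right h5 h6
  have hXE : ∀ e, XE (JB (Real.sqrt V)) (omp c₁ i s) (StF828.T3 af) e ≤
      ∑ d ∈ Ds, 4 * (V ^ (-(1 / 3) : ℝ) * (nm d : ℝ) ^ (2 / 3 : ℝ)) *
        ∑ j ∈ Jd d, ‖TE0 (cg 1 (af e d)) d j e‖ ^ 2 := by
    intro e
    unfold XE
    refine (sum_le_sum fun x hx => hterm x hx e).trans (le_of_eq ?_)
    rw [sum_fib (JB (Real.sqrt V)) (fun d j => 4 * (V ^ (-(1 / 3) : ℝ) * (nm d : ℝ) ^ (2 / 3 : ℝ)) *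
      ‖TE0 (cg 1 (af e d)) d j e‖ ^ 2)]
    refine sum_congr rfl fun d _ => ?_
    rw [mul_sum]
  have hXp : 0 < Real.exp (LY s1 + LY s2) := Real.exp_pos _
  have g0 : (0 : ℝ) < nm g := by linarith [one_le_nmR hg]
  have hh0 : (0 : ℝ) < nm hh := by linarith [one_le_nmR hhp]
  -- one `d`
  have hd1 : ∀ d ∈ Ds, ∑ e ∈ Es, ω e * ∑ j ∈ Jd d, ‖TE0 (cg 1 (af e d)) d j e‖ ^ 2 ≤
      C * X ^ (ε / 2) * (1 + |s|) ^ (N * M) *
        (Real.exp (-((LY s1 + LY s2) / 3)) * (nm g * nm hh) ^ (1 / 3 : ℝ) *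
          (nm d : ℝ) ^ (1 / 3 : ℝ)) * (Real.exp m / (nm d : ℝ) ^ 2) := by
    intro d hd
    obtain ⟨d1, d2⟩ := hdm d hd
    have d0 : (0 : ℝ) < nm d := by linarith [one_le_nmR d1]
    by_cases hdg : IsCoprime d g
    swap
    · have hz : ∀ e j, TE0 (cg 1 (af e d)) d j e = 0 := by
        intro e j
        have h9 : af e d = fun _ => 0 := by
          funext m
          rw [haf]
          unfold afrb afd
          rw [if_neg (fun h => hdg h), mul_zero]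
        rw [cg_one, h9]
        unfold TE0
        simp
      simp only [hz, norm_zero, ne_eq, OfNat.ofNat_ne_zero, not_false_eq_true, zero_pow,
        sum_const_zero, mul_zero]
      positivity
    have hW : V / (nm d : ℝ) ^ 2 ≤ X ^ B₀ := by
      refine le_trans ?_ hVX
      exact div_le_self hV.le (one_le_pow₀ (one_le_nmR d1))
    have key := H X hX ι κ hcard s1 s2 h1 h2 h1X h2X Z hZ hsup E0 c s g hh d 1 hg hhp d1
      isPrim_one hgX (hdX d hd) (by simpa using hX1B) Es (Jd d) hEs (V / (nm d : ℝ) ^ 2) hW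
      (hjm d hd) ω (Ω d) hω0 (hΩ d) (hωΩ d d1 d2 hdg)
      (fun b k => if (b : ℝ) ≤ 4 * B₀ * Real.log X then Bf d b k else 0)
      (Real.exp m / (nm d : ℝ) ^ 2) (fun b k => by
        split_ifs
        · exact hBf d b k
        · exact le_rfl) (by positivity) (fun b k l s' q1 q2 q3 q4 q5 q6 q7 q8 => by
        rw [if_pos q1]
        exact hyp d d1 d2 hdg b k l s' q1 q2 q3 q4 q5 q6 q7 q8) (fun b => by
        split_ifs with hb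
        · rw [le_div_iff₀ (by positivity)]
          exact hline d d1 d2 hdg b hb
        · rw [mul_zero]
          positivity) d
    refine key.trans (le_of_eq ?_)
    have e1 : (Real.exp (LY s1 + LY s2) / (nm g * nm (hh * d))) ^ (-(1 / 3) : ℝ) =
        Real.exp (-((LY s1 + LY s2) / 3)) * (nm g * nm hh) ^ (1 / 3 : ℝ) *
          (nm d : ℝ) ^ (1 / 3 : ℝ) := by
      rw [nm_mul]
      push_cast
      rw [Real.rpow_neg (by positivity), ← Real.inv_rpow (by positivity), inv_div,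
        show (nm g : ℝ) * ((nm hh : ℝ) * nm d) = (nm g * nm hh) * nm d by ring,
        Real.div_rpow (by positivity) (Real.exp_pos _).le, Real.mul_rpow (by positivity) d0.le,
        ← Real.exp_mul, div_eq_mul_inv, ← Real.exp_neg]
      rw [show -((LY s1 + LY s2) * (1 / 3)) = -((LY s1 + LY s2) / 3) by ring]
      ring
    rw [e1]
  set P := Real.exp (-((LY s1 + LY s2) / 3)) * (nm g * nm hh : ℝ) ^ (1 / 3 : ℝ) with hP
  have hP0 : 0 ≤ P := by positivity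
  set Q := C * X ^ (ε / 2) * (1 + |s|) ^ ((N : ℝ) * M) with hQ
  have hQ0 : 0 ≤ Q := by positivity
  have hV3 : 0 ≤ V ^ (-(1 / 3) : ℝ) := by positivity
  have hDX : ∀ d ∈ Ds, IsPrim d ∧ (nm d : ℝ) ≤ X ^ B₀ := by
    intro d hd
    refine ⟨(hdm d hd).1, le_trans ?_ (hdX d hd)⟩
    rw [nm_mul]
    push_cast
    exact le_mul_of_one_le_left (Nat.cast_nonneg _) (one_le_nmR hhp)
  calc ∑ e ∈ Es, ω e * XE (JB (Real.sqrt V)) (omp c₁ i s) (StF828.T3 af) e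
      ≤ ∑ e ∈ Es, ω e * ∑ d ∈ Ds, 4 * (V ^ (-(1 / 3) : ℝ) * (nm d : ℝ) ^ (2 / 3 : ℝ)) *
        ∑ j ∈ Jd d, ‖TE0 (cg 1 (af e d)) d j e‖ ^ 2 :=
        sum_le_sum fun e he => mul_le_mul_of_nonneg_left (hXE e) (hω0 e he)
    _ = ∑ d ∈ Ds, 4 * (V ^ (-(1 / 3) : ℝ) * (nm d : ℝ) ^ (2 / 3 : ℝ)) *
        ∑ e ∈ Es, ω e * ∑ j ∈ Jd d, ‖TE0 (cg 1 (af e d)) d j e‖ ^ 2 := by
        simp_rw [mul_sum]
        rw [sum_comm]
        refine sum_congr rfl fun d _ => sum_congr rfl fun e _ => sum_congr rfl fun j _ => ?_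
        ring
    _ ≤ ∑ d ∈ Ds, 4 * (V ^ (-(1 / 3) : ℝ) * (nm d : ℝ) ^ (2 / 3 : ℝ)) *
        (Q * (P * (nm d : ℝ) ^ (1 / 3 : ℝ)) * (Real.exp m / (nm d : ℝ) ^ 2)) :=
        sum_le_sum fun d hd => mul_le_mul_of_nonneg_left (hd1 d hd) (by positivity)
    _ = ∑ d ∈ Ds, (4 * Q * (V ^ (-(1 / 3) : ℝ) * P * Real.exp m)) * (nm d : ℝ)⁻¹ := by
        refine sum_congr rfl fun d hd => ?_
        have d0 : (0 : ℝ) < nm d := by linarith [one_le_nmR (hdm d hd).1]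
        have e1 : (nm d : ℝ) ^ (2 / 3 : ℝ) * (nm d : ℝ) ^ (1 / 3 : ℝ) = nm d := by
          rw [← Real.rpow_add d0]
          norm_num
        have e2 : (nm d : ℝ) ^ (2 / 3 : ℝ) * (nm d : ℝ) ^ (1 / 3 : ℝ) / (nm d : ℝ) ^ 2 =
            (nm d : ℝ)⁻¹ := by
          rw [e1]
          field_simp
        calc _ = (4 * Q * (V ^ (-(1 / 3) : ℝ) * P * Real.exp m)) *
              ((nm d : ℝ) ^ (2 / 3 : ℝ) * (nm d : ℝ) ^ (1 / 3 : ℝ) / (nm d : ℝ) ^ 2) := by ring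
          _ = _ := by rw [e2]
    _ = (4 * Q * (V ^ (-(1 / 3) : ℝ) * P * Real.exp m)) * ∑ d ∈ Ds, (nm d : ℝ)⁻¹ := by
        rw [mul_sum]
    _ ≤ (4 * Q * (V ^ (-(1 / 3) : ℝ) * P * Real.exp m)) * (C₂ * X ^ (ε / 2)) :=
        mul_le_mul_of_nonneg_left (hinv X hX1 Ds hDX) (by positivity)
    _ = 4 * C * C₂ * (X ^ (ε / 2) * X ^ (ε / 2)) * (1 + |s|) ^ ((N : ℝ) * M) *
        (V ^ (-(1 / 3) : ℝ) * P * Real.exp m) := by
        rw [hQ]; ring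
    _ = _ := by
        rw [← Real.rpow_add hX0, add_halves, hP]
        ring

end Crest.Agent.R017.XPc54
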