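import Crest.Agent.R017.P1y_54
import Crest.Agent.R017.XPc_54
import Crest.Agent.R017.CLV_436
import Crest.Agent.R017.FNEv_708
import Crest.Agent.R017.P1XM_176
import Crest.Agent.R017.P10e_146

/-!
# Row 17, R8/P1: the mains of the mismatch in the frame (helper54)

* `xf_of` : helper176's frame from `Fr9`; `line_M` : the line of one child
* **`xmU_of`** : `XMU π h (1/64) (ParS A d) (LS0 d)` from `FE2V`
-/

set_option autoImplicit false

noncomputable section

open Finset Filter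
open scoped ComplexConjugate

namespace Crest.Agent.R017.XMf54

open Crest.Agent.R012 Crest.Agent.R012.Eis Crest.Agent.R012.Div277
open Crest.Agent.R012.LS2 (S mem_S)
open Crest.Agent.R017.CM106 Crest.Agent.R017.C70
open Crest.Agent.R017.StF828 (T3)
open Crest.Agent.R017.StB828 (one_le_nmR)
open Crest.Agent.R017.StA828 (gp gp_eq)
open Crest.Agent.R017.GrT828 (cc)
open Crest.Agent.R017.StG828 (JB omp I1z I2z mem_JB)
open Crest.Agent.R017.StJ319 (afrb gt5 q5 I5 Ilo Ihi gtb)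
open Crest.Agent.R017.E3A164 (SteT)
open Crest.Agent.R017.P1e54 Crest.Agent.R017.P1f54 Crest.Agent.R017.P1k54 Crest.Agent.R017.P1l54
open Crest.Agent.R017.P1u54 Crest.Agent.R017.P1v54 Crest.Agent.R017.P1w54 Crest.Agent.R017.P1y54
open Crest.Agent.R017.P1t54 (ParS LS0 parOK_Sq5)
open Crest.Agent.R017.HP842 (Pc pc al alL sqc)
open Crest.Agent.R017.Rough381 (VF)
open Crest.Agent.R017.B770 Crest.Agent.R017.Prov71
open Crest.Agent.R017.UM71
open Crest.Agent.R017.E5B71 Crest.Agent.R017.E5L770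
open Crest.Agent.R017.TM708 (PD T5 K5)
open Crest.Agent.R017.TK708 (AllT)
open Crest.Agent.R017.FN708 (FE2V)
open Crest.Agent.R017.I1146 (LN)
open Crest.Agent.R017.P10146 (bP cl sq_facts bP_mem)
open Crest.Agent.R017.Mm828 (XMn Vb)
open Crest.Agent.R017.E3F548 (XE)
open Crest.Agent.R017.GrC828 (LY ChF cF)
open Crest.Agent.R017.GrG404 (y5)
open Crest.Agent.R017.P1XM176 (XF NVx xm_lo xm_hi xm_2z)
open Crest.Agent.R017.FEx436 (NV clm_V)
open Crest.Agent.R017.ER911 (EF)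

/-! ### the child class -/

lemma cc_cop {g b d : Eis} (hg : IsPrim g) (hb : b ∈ dvs g) (hdg : IsCoprime d g) :
    cc g (b * d) = g / b := by
  have hbp : IsPrim b := isPrim_of_mem_dvs hb
  have hbg : b ∣ g := dvd_of_mem_dvs hb
  have e1 : b * (g / b) = g := EuclideanDomain.mul_div_cancel' hbp.ne_zero hbg
  have hc : IsCoprime d (g / b) := hdg.of_isCoprime_of_dvd_right (Dvd.intro_left b e1)
  have e2 : gp (b * d) g = b := gp_eq hg hbp rfl e1.symm hc
  unfold cc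
  rw [e2]

/-- levels of a class -/
lemma I5_lev {g : Eis} {M n : ℕ} {Y : ℝ} {c : Fin 5} {i : ℕ} (h : i ∈ I5 g M n Y c) :
    Real.log 2 * i ≤ Real.log 2 * n + 2 * Real.log Y - Real.log (nm g) + 3 * Real.log 2 ∧
    ((c = 0 ∨ c = 1) → Real.log 2 * n - Real.log Y - Real.log (nm g) - 3 * Real.log 2 ≤
      Real.log 2 * i ∧ i + 3 ≤ n) ∧ ((c = 2 ∨ c = 3) → ¬ i + 3 ≤ n) := by
  have key : ∀ (P : Finset ℕ), i ∈ P → (P = Ilo g M n Y ∨ P = Ihi g M n Y ∨ P = I2z g M n Y) →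
      Real.log 2 * i ≤ Real.log 2 * n + 2 * Real.log Y - Real.log (nm g) + 3 * Real.log 2 := by
    intro P hP h1
    rcases h1 with rfl | rfl | rfl
    · unfold Ilo I1z at hP
      exact (mem_filter.1 (mem_filter.1 hP).1).2.2
    · unfold Ihi I1z at hP
      exact (mem_filter.1 (mem_filter.1 hP).1).2.2
    · unfold I2z at hP
      exact (mem_filter.1 hP).2
  fin_cases c
  · have h' : i ∈ Ilo g M n Y := h
    refine ⟨key _ h' (Or.inl rfl), fun _ => ?_, fun h1 => by simp at h1⟩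
    unfold Ilo I1z at h'
    exact ⟨(mem_filter.1 (mem_filter.1 h').1).2.1, (mem_filter.1 h').2⟩
  · have h' : i ∈ Ilo g M n Y := h
    refine ⟨key _ h' (Or.inl rfl), fun _ => ?_, fun h1 => by simp at h1⟩
    unfold Ilo I1z at h'
    exact ⟨(mem_filter.1 (mem_filter.1 h').1).2.1, (mem_filter.1 h').2⟩
  · have h' : i ∈ Ihi g M n Y := h
    refine ⟨key _ h' (Or.inr (Or.inl rfl)), fun h1 => by simp at h1, fun _ => ?_⟩
    unfold Ihi at h'
    exact (mem_filter.1 h').2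
  · have h' : i ∈ Ihi g M n Y := h
    refine ⟨key _ h' (Or.inr (Or.inl rfl)), fun h1 => by simp at h1, fun _ => ?_⟩
    unfold Ihi at h'
    exact (mem_filter.1 h').2
  · have h' : i ∈ I2z g M n Y := h
    exact ⟨key _ h' (Or.inr (Or.inr rfl)), fun h1 => by simp at h1, fun h1 => by simp at h1⟩

/-! ### the sequences -/

variable {Λ : Type*} {π : Λ → DPar} {h : ℝ → ℝ}

lemma ηC_eq (lam : Λ × Eis) (qs : List Pq) : ηC π h lam qs =
    sqc 1 (al h fun i : Fin qs.length => Pt (π lam.1) lam.2 (qs.get i)) := by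
  unfold ηC
  rw [HP842.al_eq]
  congr 2
  conv_lhs => rw [← List.ofFn_get qs]
  rw [List.map_ofFn]
  rfl

lemma αC_eq (lam : Λ × Eis) (a : Bm) : αC π h lam a =
    sqc 1 (al h fun i : Fin 3 => Pt (π lam.1) lam.2 (a.1.2 i)) := by
  unfold αC
  rw [HP842.al_eq]
  congr 2

lemma LY_qs (P : DPar) (t₀ : Eis) (qs : List Pq) :
    LY (fun i : Fin qs.length => Pt P t₀ (qs.get i)) = LN qs := by
  unfold LY LN
  conv_rhs => rw [← List.ofFn_get qs]
  rw [List.map_ofFn, List.sum_ofFn]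
  exact Finset.sum_congr rfl fun i _ => Real.log_exp _

lemma LY_us (P : DPar) (t₀ : Eis) (us : Fin 3 → Pq) :
    LY (fun i : Fin 3 => Pt P t₀ (us i)) = (us 0).z + (us 1).z + (us 2).z := by
  unfold LY
  rw [Fin.sum_univ_three]
  show Real.log (Real.exp _) + Real.log (Real.exp _) + Real.log (Real.exp _) = _
  rw [Real.log_exp, Real.log_exp, Real.log_exp]

/-! ### the real frame -/

variable {A d : ℝ} {p : Fin 3 ⊕ Fin 5 → ℝ} {X τ B H : ℝ} {N : ℕ} {a : Bm} {qs : List Pq}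

/-- logarithm of the length of the parent child -/
def pM (a : Bm) (qs : List Pq) : ℝ := LN (cl a.1 qs) - 2 * Real.log (nm a.2.1)

lemma xf_of (hd : 0 ≤ d) (hd1 : d ≤ 1 / 8) (hA1 : 16 * (1 - A) ≤ d) (hp : p ∈ ParS A d)
    (hτ : 0 ≤ τ) (F : Fr9 p X τ B H N a qs) {t : ℝ} (ht : 3 * (τ * Real.log X) ≤ t) :
    XF (cκ p * Real.log X) (cN p * Real.log X) (cx' p * Real.log X)
      (max 0 (5 / 4 * cN p - cκ p) * Real.log X) (LN qs) (Real.log (nm a.2.1)) (pM a qs) t := by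
  obtain ⟨k0, k1, u4, u34, u23, y27, n0, n1, x0, hx⟩ := sq_facts hd hd1 hA1 hp
  have hL := F.L
  have hL0 := hL.le
  have hτL : 0 ≤ τ * Real.log X := by positivity
  have m1 := le_max_left 0 (5 / 4 * cN p - cκ p)
  have m2 := le_max_right 0 (5 / 4 * cN p - cκ p)
  have n0L := mul_le_mul_of_nonneg_right n0 hL0
  have n1L := mul_le_mul_of_nonneg_right n1 hL0
  have m2L := mul_le_mul_of_nonneg_right m2 hL0
  have hlo := F.lo
  have hcN : cN p = cu p 2 + cu p 3 + cu p 4 := rfl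
  have z1 : (a.1.2 0).z ≤ (cu p 2 + τ) * Real.log X := F.pd.z1
  have z2 : (a.1.2 1).z ≤ (cu p 3 + τ) * Real.log X := F.pd.z2
  have z3 : (a.1.2 2).z ≤ (cu p 4 + τ) * Real.log X := F.pd.z3
  have hcl := F.cl
  have hNL : cN p * Real.log X = cu p 2 * Real.log X + cu p 3 * Real.log X +
      cu p 4 * Real.log X := by rw [hcN]; ring
  refine ⟨by positivity, by linarith, by linarith, by positivity, ?_, by positivity, by linarith,
    by linarith [F.qs1], F.g0, by linarith [F.g1], ?_, ?_, by linarith⟩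
  · rcases hx with hx | ⟨h1, h2, h3⟩
    · left; rw [hx, zero_mul]
    · right
      have h1L := mul_le_mul_of_nonneg_right h1 hL0
      have h2L := mul_le_mul_of_nonneg_right h2 hL0
      have h3L := mul_le_mul_of_nonneg_right h3 hL0
      exact ⟨by linarith, by linarith, by linarith⟩
  · unfold pM; linarith
  · unfold pM; linarith

lemma tO_near (F : Fr9 p X τ B H N a qs) :
    |Sf770.tO a.1.1 - (min (2 * (cN p * Real.log X) - cκ p * Real.log X)
      (3 / 4 * (cN p * Real.log X)) + 11 / 5 * (cx' p * Real.log X))| ≤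
      6 * (τ * Real.log X) := by
  have hτL : 0 ≤ τ * Real.log X := (abs_nonneg _).trans F.l
  obtain ⟨l1, l2⟩ := abs_le.1 F.l
  obtain ⟨z1, z2⟩ := abs_le.1 F.z
  obtain ⟨A1, A2⟩ := abs_le.1 F.A
  unfold Sf770.tO
  have h1 : |min (2 * a3 a.1.1 - a.1.1.l) (3 / 4 * a3 a.1.1) -
      min (2 * (cN p * Real.log X) - cκ p * Real.log X) (3 / 4 * (cN p * Real.log X))| ≤
      3 * (τ * Real.log X) := by
    refine (abs_min_sub_min_le_max _ _ _ _).trans (max_le ?_ ?_)
    · rw [abs_le]; constructor <;> linarith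
    · rw [abs_le]; constructor <;> linarith
  obtain ⟨m1, m2⟩ := abs_le.1 h1
  rw [abs_le]
  constructor <;> linarith

set_option maxHeartbeats 1000000 in
/-- **the line of one child** -/
lemma line_M (hd : 0 ≤ d) (hd1 : d ≤ 1 / 8) (hA1 : 16 * (1 - A) ≤ d) (hp : p ∈ ParS A d)
    (hτ : 0 ≤ τ) (F : Fr9 p X τ B H N a qs) {t : ℝ}
    (ht : 9 * (τ * Real.log X) + 9 * Real.log 2 ≤ t) {c : Fin 5} {i : ℕ}
    (hi : i ∈ I5 a.2.1 (nM (nO a.1.1) a.2.2) (nO a.1.1) (Real.exp a.2.2) c)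
    {K lo l n w z₁ z₂ z₃ δ bb : ℝ}
    (hK : K ≤ cκ p * Real.log X + max 0 (5 / 4 * cN p - cκ p) * Real.log X + t)
    (lo0 : 0 ≤ lo) (h1 : 0 ≤ z₁) (h2 : 0 ≤ z₂) (h3 : 0 ≤ z₃) (w0 : 0 ≤ w)
    (hs : z₁ + z₂ + z₃ + w = n) (δ0 : 0 ≤ δ) (b0 : 0 ≤ bb) (w1 : w ≤ LN qs + t)
    (hl : l ≤ Real.log 2 * (i + 1) - 2 * δ + bb + t) (n1 : n ≤ pM a qs - δ - bb + t) {y' : ℝ}
    (hw : LN qs - Real.log (nm a.2.1) - min (y5 (Real.exp a.2.2) a.2.1 c) y' - bb -
      τ * Real.log X ≤ w)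
    {γc : ℝ} (hγc : γc ≤ Real.log (nm a.2.1))
    (hb : c = 4 → cκ p * Real.log X / 64 - γc - t ≤ bb) :
    2 / 3 * (cκ p * Real.log X) - Real.log 2 * (i + 1) / 3 - pM a qs / 3 + 2 * δ +
      NV d K lo l n z₁ z₂ z₃ w - (if c = 4 then cκ p * Real.log X / 64 else 0) ≤
      cκ p * Real.log X + pM a qs + max 0 (5 / 4 * cN p - cκ p) * Real.log X + lo + 20 * t := by
  have hτL : 0 ≤ τ * Real.log X := mul_nonneg hτ F.L.le
  have hl2 : 0 < Real.log 2 := Real.log_pos (by norm_num)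
  have HX := xf_of hd hd1 hA1 hp hτ F (t := t) (by linarith)
  obtain ⟨T1, T2⟩ := abs_le.1 (tO_near F)
  obtain ⟨ζ1, ζ2⟩ := abs_le.1 F.ζ
  have hn0 := F.n0
  have hn1 := F.n1
  have hN0 := HX.N0
  have hx0 := HX.x0
  have hk0 := HX.k0
  have htO0 : max 0 (Sf770.tO a.1.1) ≤ min (2 * (cN p * Real.log X) - cκ p * Real.log X)
      (3 / 4 * (cN p * Real.log X)) + 11 / 5 * (cx' p * Real.log X) + 6 * (τ * Real.log X) := by
    refine max_le ?_ (by linarith)
    have : 0 ≤ min (2 * (cN p * Real.log X) - cκ p * Real.log X) (3 / 4 * (cN p * Real.log X)) :=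
      le_min (by linarith) (by linarith)
    linarith
  obtain ⟨L1, L2, L3⟩ := I5_lev hi
  rw [Real.log_exp] at L1 L2
  have eNV : NV d K lo l n z₁ z₂ z₃ w = NVx d K lo l n z₁ z₂ z₃ w := rfl
  rw [eNV]
  by_cases c01 : c = 0 ∨ c = 1
  · obtain ⟨M1, M2'⟩ := L2 c01
    have hc4 : ¬ c = 4 := by rcases c01 with rfl | rfl <;> decide
    rw [if_neg hc4, sub_zero]
    have M2 : (i : ℝ) + 3 ≤ nO a.1.1 := by exact_mod_cast M2'
    have M3 := mul_le_mul_of_nonneg_left M2 hl2.le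
    have hy : y5 (Real.exp a.2.2) a.2.1 c = (a.2.2 + Real.log (nm a.2.1)) / 3 := by
      rcases c01 with rfl | rfl
      · show (Real.log (Real.exp a.2.2) + Real.log (nm a.2.1)) / 3 = _
        rw [Real.log_exp]
      · show (Real.log (Real.exp a.2.2) + Real.log (nm a.2.1)) / 3 = _
        rw [Real.log_exp]
    rw [hy] at hw
    have hm := min_le_left ((a.2.2 + Real.log (nm a.2.1)) / 3) y'
    refine xm_lo HX hK lo0 h1 h2 h3 w0 hs δ0 b0 w1 hl n1 ?_ ?_ ?_
    · linarith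
    · linarith
    · linarith
  · by_cases c23 : c = 2 ∨ c = 3
    · have M1' := L3 c23
      have hc4 : ¬ c = 4 := by rcases c23 with rfl | rfl <;> decide
      rw [if_neg hc4, sub_zero]
      have M2 : (nO a.1.1 : ℝ) ≤ i + 2 := by
        have : nO a.1.1 ≤ i + 2 := by omega
        exact_mod_cast this
      have M3 := mul_le_mul_of_nonneg_left M2 hl2.le
      refine xm_hi HX hK lo0 h1 h2 h3 w0 hs δ0 b0 w1 hl n1 ?_ ?_
      · linarith
      · linarith
    · have hc4 : c = 4 := by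
        fin_cases c
        · exact absurd (Or.inl rfl) c01
        · exact absurd (Or.inr rfl) c01
        · exact absurd (Or.inl rfl) c23
        · exact absurd (Or.inr rfl) c23
        · rfl
      rw [if_pos hc4]
      refine xm_2z HX hK lo0 h1 h2 h3 w0 hs δ0 b0 w1 hl n1 ?_ (cc := γc) (by linarith) (hb hc4)
      linarith

/-- crude bound of the number of a child -/
lemma NV_crude {K lo v n z₁ z₂ z₃ w R : ℝ} (hK : K ≤ R) (hlo : lo ≤ R) (hv0 : 0 ≤ v)
    (hv : v ≤ R) (hn0 : 0 ≤ n) (hn : n ≤ R) : NV d K lo v n z₁ z₂ z₃ w ≤ 10 * R := by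
  have h1 : NV d K lo v n z₁ z₂ z₃ w ≤ TM708.eH (FEx436.kV K v n) v n + lo :=
    (min_le_left _ _).trans (min_le_left _ _)
  refine h1.trans ?_
  have h2 : TM708.eH (FEx436.kV K v n) v n ≤ 9 * R := by
    unfold TM708.eH TM708.eF FEx436.kV
    refine max_le (max_le (by linarith) ?_) (by linarith)
    have : max (max K (5 / 7 * (v + n))) (3 / 2 * v) ≤ 2 * R :=
      max_le (max_le (by linarith) (by linarith)) (by linarith)
    linarith
  linarith

/-- the weights of the mains -/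
lemma wt_le {y V k : ℝ} (hy : 1 ≤ y) (hV : 0 < V)
    (h1 : Real.log V - 2 * k + 9 * Real.log y ≤ 0)
    (h2 : Real.log V - 9 / 10 * k + Real.log y ≤ 0) :
    y ^ (-1 : ℝ) + (V / Real.exp k ^ 2) ^ (1 / 6 : ℝ) * y ^ (1 / 2 : ℝ) +
      Real.exp (k / 20) ^ 2 * (1 : ℝ) ^ 2 * V / Real.exp k ≤ 3 * y ^ (-1 : ℝ) := by
  have y0 : 0 < y := by linarith
  have e1 : y ^ (-1 : ℝ) = Real.exp (-Real.log y) := by
    rw [Real.rpow_def_of_pos y0]; congr 1; ring
  have e2 : V / Real.exp k ^ 2 = Real.exp (Real.log V - 2 * k) := by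
    rw [Real.exp_sub, Real.exp_log hV, ← Real.exp_nat_mul]
    norm_num
  have e3 : (V / Real.exp k ^ 2) ^ (1 / 6 : ℝ) * y ^ (1 / 2 : ℝ) =
      Real.exp ((Real.log V - 2 * k) * (1 / 6) + Real.log y * (1 / 2)) := by
    rw [e2, ← Real.exp_mul, Real.rpow_def_of_pos y0, ← Real.exp_add]
  have e4 : Real.exp (k / 20) ^ 2 * (1 : ℝ) ^ 2 * V / Real.exp k =
      Real.exp (Real.log V - 9 / 10 * k) := by
    rw [← Real.exp_nat_mul, one_pow, mul_one]
    nth_rewrite 1 [← Real.exp_log hV]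
    rw [← Real.exp_add, ← Real.exp_sub]
    congr 1
    push_cast
    ring
  rw [e3, e4, e1]
  have f1 : Real.exp ((Real.log V - 2 * k) * (1 / 6) + Real.log y * (1 / 2)) ≤
      Real.exp (-Real.log y) := Real.exp_le_exp.2 (by linarith)
  have f2 : Real.exp (Real.log V - 9 / 10 * k) ≤ Real.exp (-Real.log y) :=
    Real.exp_le_exp.2 (by linarith)
  linarith

lemma PD_mono2 {X τ τ' B B' H κ : ℝ} {N : ℕ} {b : Fin 5 → ℝ} {q : Eis} {us : Fin 3 → Pq}
    {gs : List Pq} (hX : 1 ≤ X) (hτ : τ ≤ τ') (hB : B ≤ B') (h : PD X τ B H N b q us gs κ) :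
    PD X τ' B' H N b q us gs κ := by
  have hL : 0 ≤ Real.log X := Real.log_nonneg hX
  have hBB : X ^ B ≤ X ^ B' := Real.rpow_le_rpow_of_exponent_le hX hB
  have hm : ∀ {c : ℝ}, (c + τ) * Real.log X ≤ (c + τ') * Real.log X := fun {c} =>
    mul_le_mul_of_nonneg_right (by linarith) hL
  have hm0 : τ * Real.log X ≤ τ' * Real.log X := mul_le_mul_of_nonneg_right hτ hL
  exact ⟨h.q0, h.qB.trans hBB, h.H1, h.lump, h.us0, fun i => (h.usB i).trans hBB, h.usH,
    h.z1.trans hm, h.z2.trans hm, h.z3.trans hm, fun p hp => ⟨(h.am p hp).1, (h.am p hp).2.1,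
      (h.am p hp).2.2.1.trans hm0, (h.am p hp).2.2.2.1.trans hBB, (h.am p hp).2.2.2.2⟩, h.len,
    h.x.trans hm, h.k.trans hm0⟩

open Classical in
/-- type 4 sees only `e` above the cut -/
lemma T3_four {E0 Y : ℝ} {g b e d' j : Eis} {η α : Eis → ℂ} {s : ℝ} (he : (nm e : ℝ) ≤ E0) :
    T3 (afrb (gt5 E0 Y g 4) (q5 g 4) Y η α g b s) d' e j = 0 := by
  have h1 : ∀ m, afrb (gt5 E0 Y g 4) (q5 g 4) Y η α g b s e d' m = 0 := by
    intro m
    unfold afrb StG828.afd StJ319.afb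
    have h2 : ∀ x a', gt5 E0 Y g 4 x a' e = 0 := by
      intro x a'
      show gtb (StF828.g2 E0) (Y ^ 3) x a' e = 0
      unfold gtb StF828.g2
      rw [if_neg (fun h => h.1 he), zero_mul]
    split_ifs with hc
    · rw [Finset.sum_eq_zero, mul_zero]
      intro a' _
      rw [h2, zero_mul, mul_zero, zero_mul]
    · rw [mul_zero]
  unfold T3
  simp [h1]

end Crest.Agent.R017.XMf54
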