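import Crest.Agent.R017.LTa_404
import Crest.Agent.R017.XMf_54
import Crest.Agent.R017.P1TL2_957

/-!
# Row 17, R8/P1: the `T`-half of the lines of the mismatch (helper404)

* **`ltu_of`** : `LTU π h (1/64) (ParS A d) (LS0 d)` from `FE2V`
-/

set_option autoImplicit false

noncomputable section

open Finset Filter
open scoped ComplexConjugate

namespace Crest.Agent.R017.LT404

open Crest.Agent.R012 Crest.Agent.R012.Eis Crest.Agent.R012.Div277
open Crest.Agent.R012.LS2 (S mem_S)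
open Crest.Agent.R017.CM106 Crest.Agent.R017.C70
open Crest.Agent.R017.StB828 (one_le_nmR)
open Crest.Agent.R017.StD828 (ln)
open Crest.Agent.R017.DgA829 (lc lc_prim lc_dvd)
open Crest.Agent.R017.StG828 (JB mem_JB)
open Crest.Agent.R017.StJ319 (I5)
open Crest.Agent.R017.P1e54 Crest.Agent.R017.P1f54 Crest.Agent.R017.P1k54 Crest.Agent.R017.P1l54
open Crest.Agent.R017.P1u54 Crest.Agent.R017.P1v54 Crest.Agent.R017.P1w54 Crest.Agent.R017.P1y54
open Crest.Agent.R017.P1t54 (ParS LS0 parOK_Sq5)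
open Crest.Agent.R017.HP842 (Pc pc al alL sqc)
open Crest.Agent.R017.Rough381 (VF)
open Crest.Agent.R017.FE47 (PU cx SM)
open Crest.Agent.R017.B770 Crest.Agent.R017.Prov71
open Crest.Agent.R017.UM71
open Crest.Agent.R017.E5B71 Crest.Agent.R017.E5L770
open Crest.Agent.R017.TM708 (PD K5 eH eF tAll)
open Crest.Agent.R017.TK708 (AllT)
open Crest.Agent.R017.FN708 (FE2V)
open Crest.Agent.R017.I1146 (LN)
open Crest.Agent.R017.P10146 (bP cl sq_facts bP_mem D5 D5_compact)
open Crest.Agent.R017.Mm828 (Vb Hm)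
open Crest.Agent.R017.GrC828 (LY ChF cF)
open Crest.Agent.R017.GrG404 (y5)
open Crest.Agent.R017.FEx436 (NV clm_V)
open Crest.Agent.R017.ER911 (EF ExpS0)
open Crest.Agent.R017.XMf54 (PD_mono2 I5_lev)
open Crest.Agent.R017.E3Kc548 (LI mem_LI)
open Crest.Agent.R017.E3Z548 (FH)
open Crest.Agent.R017.E3N146 (cLS cTT)
open Crest.Agent.R017.TL957 (Tf HlR HuR Ph0 Ph1 Ph0_nonneg Ph1_nonneg fT fT_anti hm_bd dom0 dom1
  lineA lineB tfR hrR hxR nv_le kV_le topR2 lastR)

variable {Λ : Type*} {π : Λ → DPar} {h : ℝ → ℝ}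

lemma HlR_pos0 {Hp D₀ K cc V D q : ℝ} (hK : 0 < K) (hc : 0 < cc) (hV : 0 < V) (hD : 0 < D₀) :
    0 < HlR Hp D₀ K cc V D q := by
  unfold HlR
  split_ifs with h1
  · exact mul_pos (lt_max_of_lt_left one_pos) (Real.exp_pos _)
  · have : 0 < D := lt_trans hD (not_le.1 h1)
    positivity

lemma nm_ratio {cg e : Eis} (hcg : IsPrim cg) (he : IsPrim e) :
    (nm (lc cg e / cg) : ℝ) = (nm (lc cg e) : ℝ) / nm cg := by
  obtain ⟨t, ht⟩ : cg ∣ lc cg e := ((lc_dvd hcg he _).1 dvd_rfl).1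
  have h0 : (nm cg : ℝ) ≠ 0 := by
    have := one_le_nmR hcg
    intro h; rw [h] at this; linarith
  rw [eq_div_iff h0]
  rw [ht, mul_div_cancel_left₀ _ hcg.ne_zero, nm_mul]
  push_cast
  ring

/-- the window of the reduced coefficients is longer than the square parts -/
lemma delta_le {k N x ex v p t δ ρ : ℝ} (H : Tf k N x ex v p t) (hδ : 2 * δ ≤ v - ρ + t)
    (hρ : 0 ≤ ρ) : δ ≤ p + ρ := by
  obtain ⟨k0, x0, N1, adm, ex0, ex1, v1, v2, p0, p1, t0, t1⟩ := H
  rcases adm with ⟨a1, a2⟩ | ⟨a1, a2, a3⟩ <;> linarith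

set_option maxHeartbeats 4000000 in
open Classical in
/-- **the `T`-half of the lines of the mismatch** -/
theorem ltu_of {c₀ : ℝ} (hpu : PU h c₀) (hP : ∀ lam, (π lam).OK) {Rh : ℝ} (hRh0 : 0 ≤ Rh)
    (hRh : ∀ u, cx h u ≠ 0 → |u| ≤ Rh) {s₁ : EF} {d A : ℝ} (hd : 0 ≤ d) (hd1 : d ≤ 1 / 8)
    (hA1 : 16 * (1 - A) ≤ d) (h0 : ExpS0 s₁ (ex Dq fun lam => S0p (π lam) h))
    (hall : AllT d (ex Dq fun lam => S0p (π lam) h))
    (hV : FE2V (ex Dq fun lam => S0p (π lam) h) D5 fun b => 3 / 4 * d * b 0) :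
    LTU π h (1 / 64) (ParS A d) (LS0 d) := by
  intro ε hε
  have hℓ : Continuous fun b : Fin 5 → ℝ => 3 / 4 * d * b 0 := by fun_prop
  have hKc : Continuous K5 := by unfold K5; fun_prop
  have hTc : Continuous TM708.T5 := by unfold TM708.T5; fun_prop
  obtain ⟨σ, hσ, G⟩ := clm_V (d := d) hpu hP h0 hall hKc hTc D5_compact (fun b hb => hb.1.x0) hℓ
    hV (ε := ε / 4) (by positivity)
  obtain ⟨τ, hτ, hτσ, hτε, hτ1⟩ : ∃ τ : ℝ, 0 < τ ∧ 200 * τ ≤ σ ∧ 4000 * τ ≤ ε ∧
      1000000 * τ ≤ 1 := by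
    refine ⟨min (σ / 200) (min (ε / 4000) (1 / 1000000)), by positivity, ?_, ?_, ?_⟩
    · linarith [min_le_left (σ / 200) (min (ε / 4000) (1 / 1000000))]
    · linarith [(min_le_right (σ / 200) (min (ε / 4000) (1 / 1000000))).trans (min_le_left _ _)]
    · linarith [(min_le_right (σ / 200) (min (ε / 4000) (1 / 1000000))).trans (min_le_right _ _)]
  refine ⟨τ, hτ, ?_⟩
  intro lam N B hB
  by_cases ht0 : lam.2 ∈ SM (π lam.1).n
  swap
  · refine ⟨0, 0, fun cV _ => ⟨2, by norm_num, ?_⟩⟩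
    intro X _ H _ p _ a qs _ hok
    exact absurd hok.1.2.1 ht0
  obtain ⟨M, G⟩ := G lam.1 lam.2 ht0 N (max B 6)
  obtain ⟨C, r, hC, hr, HX⟩ := ltu_red π (1 / 64) hpu hRh0 hRh hP (N + 3) (B₀ := 6) (by norm_num)
    (ε := ε / 4) (by positivity) (M := (M : ℝ)) (Nat.cast_nonneg _)
  obtain ⟨X₁, hX₁, G⟩ := G r hr
  refine ⟨(N + 3) * M, M, fun cV hcV => ?_⟩
  have hNr : 0 ≤ (N : ℝ) * r := by positivity
  have hlc : 0 ≤ Real.log (2 * cV) := Real.log_nonneg (by linarith)
  have hlc1 : 0 ≤ Real.log cV := Real.log_nonneg hcV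
  have hlc2 : Real.log cV ≤ Real.log (2 * cV) := Real.log_le_log (by linarith) (by linarith)
  set c₁ : ℝ := (N + 3) * r + 20 + Real.log (2 * cV) with hc₁
  have hc₁0 : 20 ≤ c₁ := by rw [hc₁]; linarith [mul_nonneg (by norm_num : (0 : ℝ) ≤ 3) hr]
  have hC3 : 0 ≤ Real.log (3 * C) := Real.log_nonneg (by linarith)
  refine ⟨max X₁ (Real.exp (max (c₁ / τ) (8 / ε * (170 + Real.log (3 * C))))),
    lt_of_lt_of_le hX₁ (le_max_left _ _), ?_⟩
  intro X hX H hH p hp a qs F hok c i b s hi hb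
  have hXX1 : X₁ ≤ X := (le_max_left _ _).trans hX
  have hXe : Real.exp (max (c₁ / τ) (8 / ε * (170 + Real.log (3 * C)))) ≤ X :=
    (le_max_right _ _).trans hX
  have hX3 := F.X3
  have hX0 : 0 < X := by linarith
  have hX1 : 1 ≤ X := by linarith
  set L := Real.log X with hLdef
  have hL : 0 < L := F.L
  have hLL : max (c₁ / τ) (8 / ε * (170 + Real.log (3 * C))) ≤ L :=
    (Real.le_log_iff_exp_le hX0).2 hXe
  have hcL : c₁ ≤ τ * L := by
    have h1 := (le_max_left _ _).trans hLL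
    rw [div_le_iff₀ hτ] at h1
    linarith
  have hCL : 170 + Real.log (3 * C) ≤ ε / 8 * L := by
    have h1 := (le_max_right _ _).trans hLL
    have e : 8 / ε * (170 + Real.log (3 * C)) = (170 + Real.log (3 * C)) / (ε / 8) := by
      field_simp
    rw [e, div_le_iff₀ (by positivity)] at h1
    linarith
  have hrp : ∀ y : ℝ, X ^ y = Real.exp (y * L) := fun y => by
    rw [Real.rpow_def_of_pos hX0, mul_comm]
  have hl2 : Real.log 2 ≤ 7 / 10 := by linarith [Real.log_two_lt_d9]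
  have hl20 : 0 < Real.log 2 := Real.log_pos (by norm_num)
  have hτL : 0 < τ * L := mul_pos hτ hL
  have hτL1 : 1000000 * (τ * L) ≤ L := by nlinarith
  have hr3 : 3 * r + Real.log (2 * cV) + 20 ≤ τ * L := by
    refine le_trans ?_ hcL
    rw [hc₁]
    linarith
  have hNr1 : (N : ℝ) * r + 20 ≤ τ * L := by
    refine le_trans ?_ hcL
    rw [hc₁]
    linarith
  -- the objects
  have hok' := hok
  obtain ⟨hokc, hgp, hgs, hζ0, hηsup, hgS⟩ := hok
  obtain ⟨hbok, htS, hlmp, hamq⟩ := hokc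
  have hbp : IsPrim b := isPrim_of_mem_dvs hb
  have hbg : b ∣ a.2.1 := dvd_of_mem_dvs hb
  have eg : b * (a.2.1 / b) = a.2.1 := EuclideanDomain.mul_div_cancel' hbp.ne_zero hbg
  have hcg : IsPrim (a.2.1 / b) := by
    have e2 : IsPrim (b * (a.2.1 / b)) := by rw [eg]; exact hgp
    exact e2.of_mul_left hbp
  have g1 := one_le_nmR hgp
  have b1 := one_le_nmR hbp
  have cg1 := one_le_nmR hcg
  have g0 : (0 : ℝ) < nm a.2.1 := by linarith
  have b0 : (0 : ℝ) < nm b := by linarith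
  have cg0 : (0 : ℝ) < nm (a.2.1 / b) := by linarith
  set γ := Real.log (nm a.2.1) with hγ
  set β := Real.log (nm b) with hβ
  have hγcg : Real.log (nm (a.2.1 / b)) = γ - β := by
    have e3 : (nm a.2.1 : ℝ) = nm b * nm (a.2.1 / b) := by
      rw [← Nat.cast_mul, ← nm_mul, eg]
    rw [hγ, e3, Real.log_mul b0.ne' cg0.ne']
    ring
  have hβ0 : 0 ≤ β := Real.log_nonneg b1
  have hcg' : 0 ≤ Real.log (nm (a.2.1 / b)) := Real.log_nonneg cg1
  have hρ0 : 0 ≤ γ - β := by rw [← hγcg]; exact hcg'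
  set k := cκ p * L with hk
  set Nn := cN p * L with hNn
  set x := cx' p * L with hx
  set exx := max 0 (5 / 4 * (cN p * L) - cκ p * L) with hexx
  set P := LN (cl a.1 qs) - 2 * γ with hPdef
  set V := Vb (a.2.1 / b) i with hVdef
  have hV0 : 0 < V := div_pos (Real.exp_pos _) cg0
  have hlV : Real.log V = Real.log 2 * ((i : ℝ) + 1) - (γ - β) := by
    rw [hVdef]
    unfold Vb
    rw [Real.log_div (Real.exp_pos _).ne' cg0.ne', Real.log_exp, hγcg]
  set t := 12 * (τ * L) + 5 with htdef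
  obtain ⟨l1, l2⟩ := abs_le.1 F.l
  obtain ⟨ζ1, ζ2⟩ := abs_le.1 F.ζ
  have hκ0 := F.par.κ0
  have hκ1 := F.par.κ1
  have hk8 : 8 / 9 * L ≤ k := mul_le_mul_of_nonneg_right hκ0 hL.le
  have hk1 : k ≤ L := by
    have := mul_le_mul_of_nonneg_right hκ1 hL.le
    linarith
  obtain ⟨sk0, sk1, su4, su34, su23, sy27, sn0, sn1, sx0, shx⟩ := sq_facts hd hd1 hA1 hp
  have hqs0 := F.qs0
  have hqs1 := F.qs1
  have hg1 := F.g1
  -- the level of a block
  have hvi : Real.log 2 * ((i : ℝ) + 1) ≤ max 0 (Sf770.tO a.1.1) + 2 * a.2.2 + 7 / 2 := by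
    obtain ⟨L1, -, -⟩ := I5_lev hi
    rw [Real.log_exp] at L1
    have hn1 := F.n1
    have hg0 := F.g0
    linarith
  -- the frame of a level
  have hTf : ∀ y : ℝ, y ≤ 1 + Real.log V → Tf k Nn x exx (y + (γ - β)) P t := by
    intro y hy
    refine tfR hL hτ.le hκ0 sn0 sn1 sx0 shx F.l F.z F.A F.ζ ?_ ?_ F.g0 ?_ le_rfl ?_
    · have := F.lo
      linarith
    · have := F.up
      linarith
    · have e : Sf770.tO a.1.1 = min (2 * a3 a.1.1 - a.1.1.l) (3 / 4 * a3 a.1.1) +
          11 / 5 * a.1.1.z := rfl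
      rw [← e]
      linarith
    · linarith
  have hxx := hxR (L := L) hL sn0 shx
  have hLIy : ∀ y : ℕ, y ∈ LI (1 / 10) V → (y : ℝ) ≤ 1 + Real.log V := by
    intro y hy
    have h1 := (mem_LI hy).2.2
    have h2 := Real.log_le_log (Real.exp_pos _) h1
    rw [Real.log_exp, Real.log_mul (Real.exp_ne_zero _) hV0.ne', Real.log_exp] at h2
    exact h2
  have hx36 : x ≤ 1 / 36 * k ∧ 0 ≤ x := by
    refine ⟨?_, mul_nonneg sx0 hL.le⟩
    rcases shx with h1 | ⟨h1, h2, h3⟩
    · rw [hx, h1, zero_mul]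
      positivity
    · have := mul_le_mul_of_nonneg_right h1 hL.le
      linarith
  have hlogV : Real.log V ≤ 2 * L := by
    have h1 := hTf (1 + Real.log V) le_rfl
    have h2 := h1.v2
    have h3 := h1.N1
    linarith [hx36.1]
  have hX6 : X ^ (6 : ℝ) = Real.exp (6 * L) := hrp 6
  have hexp6 : ∀ y : ℝ, y ≤ 6 * L → Real.exp y ≤ X ^ (6 : ℝ) := fun y hy => by
    rw [hX6]; exact Real.exp_le_exp.2 hy
  have hle6 : ∀ y : ℝ, 0 < y → Real.log y ≤ 6 * L → y ≤ X ^ (6 : ℝ) := fun y hy hy2 => by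
    rw [← Real.exp_log hy]; exact hexp6 _ hy2
  have hγL : γ ≤ L / 10 := by linarith [hx36.1]
  have hβγ : β ≤ γ := by linarith
  have hdb : ∀ d', IsPrim d' → (nm d' : ℝ) ^ 2 ≤ V → 0 ≤ Real.log (nm d') ∧
      2 * Real.log (nm d') ≤ Real.log V := by
    intro d' h1 h2
    have h3 := one_le_nmR h1
    refine ⟨Real.log_nonneg h3, ?_⟩
    have h4 := Real.log_le_log (by positivity) h2
    rw [Real.log_pow] at h4
    push_cast at h4
    exact h4
  have hJB : ∀ d' ∈ (JB (Real.sqrt V)).image Prod.fst, IsPrim d' ∧ (nm d' : ℝ) ^ 2 ≤ V := by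
    intro d' hd'
    obtain ⟨y, hy, rfl⟩ := mem_image.1 hd'
    obtain ⟨y1, y2, y3, y4⟩ := (mem_JB (Real.sqrt_nonneg _)).1 hy
    rw [Real.sq_sqrt hV0.le] at y4
    refine ⟨y1, le_trans ?_ y4⟩
    have h6 : (1 : ℝ) ≤ nm y.2 := by
      have := nm_pos.2 (StA828.JC_ne_zero y3)
      exact_mod_cast this
    unfold ln
    rw [nm_mul, nm_pow]
    push_cast
    nlinarith [sq_nonneg (nm y.1 : ℝ)]
  have hDs : ∀ d' ∈ DsM a.2.1 V, IsPrim d' ∧ 0 ≤ Real.log (nm d') ∧
      2 * Real.log (nm d') ≤ Real.log V ∧ (0 : ℝ) < nm d' := by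
    intro d' hd'
    obtain ⟨h1, h2⟩ := hJB d' (mem_filter.1 hd').1
    obtain ⟨h3, h4⟩ := hdb d' h1 h2
    exact ⟨h1, h3, h4, by linarith [one_le_nmR h1]⟩
  set lo := 3 / 4 * d * k with hlo
  have hdk0 : 0 ≤ lo := by rw [hlo]; positivity
  set W := H ^ M * X ^ (ε / 4) * Real.exp (lo + 3 * t) with hW
  have hH0 : 0 < H := by linarith
  have hW0 : 0 < W := by rw [hW]; positivity
  set hp' := 4 / 3 * P + 2 / 3 * a.2.2 - a.1.1.l - 3 * max 0 (5 / 4 * a3 a.1.1 - a.1.1.l)
    with hhp'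
  have hHp : HpM a qs = Real.exp hp' := rfl
  have hhr := hrR (P := LN (cl a.1 qs)) (G := γ) hτL.le F.l F.A F.ζ (t := t) le_rfl
  set bs : ℕ := ⌊max 0 (1 / 64 * a.1.1.l + a.2.2)⌋₊ with hbs
  have hlE : Real.log (E0M (1 / 64) a) = 1 / 64 * a.1.1.l + a.2.2 := by
    unfold E0M
    rw [← Real.exp_add, Real.log_exp]
  have hbs1 : (bs : ℝ) ≤ k / 64 + x + 2 * (τ * L) := by
    refine (Nat.floor_le (le_max_left _ _)).trans (max_le ?_ ?_)
    · have := hx36.2
      positivity
    · linarith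
  have hbs2 : Real.log (E0M (1 / 64) a) ≤ bs + 1 := by
    rw [hlE]
    exact (le_max_right _ _).trans (Nat.lt_floor_add_one _).le
  have hD0 : D0M a = Real.exp (13 / 100 * a.1.1.l) := rfl
  have hD00 : 0 < D0M a := by rw [hD0]; exact Real.exp_pos _
  have hcV0 : 0 < cV := by linarith
  have hmpos : 0 < 3 * W * Real.exp (k + 4 / 3 * P + (γ - β) / 3 + exx + 31 * t) := by positivity
  have ht0' : 0 ≤ t := by rw [htdef]; linarith
  have eγ : Real.exp γ = nm a.2.1 := Real.exp_log g0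
  have eβ : Real.exp β = nm b := Real.exp_log b0
  have hLNo : LN (List.ofFn a.1.2) = (a.1.2 0).z + (a.1.2 1).z + (a.1.2 2).z := by
    have e2 : LN (List.ofFn a.1.2) = ((List.ofFn a.1.2).map fun q => q.z).sum := rfl
    rw [e2, List.map_ofFn, List.sum_ofFn, Fin.sum_univ_three]
    rfl
  have hLNs : LN qs + LN (List.ofFn a.1.2) = P + 2 * γ := by
    rw [hLNo, hPdef, F.cl]; ring
  have hDXw : ∀ d' ∈ DsM a.2.1 V, (nm d' : ℝ) ≤ XwM a qs b := by
    intro d' hd'
    obtain ⟨d1, d2, d3, d4⟩ := hDs d' hd'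
    have h1 := delta_le (hTf (1 + Real.log V) le_rfl) (δ := Real.log (nm d')) (ρ := γ - β)
      (by linarith) hρ0
    have e : XwM a qs b = Real.exp (P + (γ - β)) := by
      unfold XwM
      rw [hLNs, show P + 2 * γ = (P + (γ - β)) + (γ + β) by ring, Real.exp_add _ (γ + β),
        Real.exp_add γ β, eγ, eβ, mul_div_assoc, div_self (by positivity), mul_one]
    rw [e, ← Real.exp_log d4]
    exact Real.exp_le_exp.2 h1
  have hlogy : ∀ (y : ℝ) (d' : Eis), (0 : ℝ) < nm d' →
      Real.log (cV * Real.exp y / (nm d' : ℝ) ^ 2) + Real.log (nm (a.2.1 / b)) =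
        Real.log cV + y - 2 * Real.log (nm d') + (γ - β) := by
    intro y d' h1
    rw [hγcg, Real.log_div (by positivity) (by positivity), Real.log_mul hcV0.ne'
      (Real.exp_ne_zero _), Real.log_exp, Real.log_pow]
    push_cast
    ring
  have hδy : ∀ (y : ℝ) (d' : Eis), (0 : ℝ) < nm d' → (nm d' : ℝ) ^ 2 ≤ cV * Real.exp y →
      2 * Real.log (nm d') ≤ y + t := by
    intro y d' h1 h2
    have h3 := Real.log_le_log (by positivity) h2
    rw [Real.log_pow, Real.log_mul hcV0.ne' (Real.exp_ne_zero _), Real.log_exp] at h3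
    push_cast at h3
    linarith
  have hκt : |a.1.1.l - k| ≤ t := F.l.trans (by rw [htdef]; linarith)
  have hcct : Real.log (2 * cV) ≤ t := by rw [htdef]; linarith
  have key := HX X hX3 lam a qs (by
      have := F.pd.len
      omega) hok'
    (fun q hq => by
      have h1 := (F.pd.am q hq).2.2.1
      linarith)
    (fun j => by
      have hcN : cN p = cu p 2 + cu p 3 + cu p 4 := rfl
      have z1 : (a.1.2 0).z ≤ (cu p 2 + τ) * L := F.pd.z1
      have z2 : (a.1.2 1).z ≤ (cu p 3 + τ) * L := F.pd.z2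
      have z3 : (a.1.2 2).z ≤ (cu p 4 + τ) * L := F.pd.z3
      have w1 := mul_le_mul_of_nonneg_right (show cu p 2 + τ ≤ 1 by linarith) hL.le
      have w2 := mul_le_mul_of_nonneg_right (show cu p 3 + τ ≤ 1 by linarith) hL.le
      have w3 := mul_le_mul_of_nonneg_right (show cu p 4 + τ ≤ 1 by linarith) hL.le
      fin_cases j
      · show (a.1.2 0).z ≤ L
        linarith
      · show (a.1.2 1).z ≤ L
        linarith
      · show (a.1.2 2).z ≤ L
        linarith)
    (hle6 _ g0 (by linarith))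
    (hle6 _ (by unfold E0M; positivity) (by rw [hlE]; linarith [hx36.1]))
    c i b s hb
    (fun d' hd' => by
      obtain ⟨h1, h2⟩ := hJB d' hd'
      obtain ⟨h3, h4⟩ := hdb d' h1 h2
      have d0 : (0 : ℝ) < nm d' := by linarith [one_le_nmR h1]
      refine hle6 _ (by rw [nm_mul]; push_cast; positivity) ?_
      rw [nm_mul]
      push_cast
      rw [Real.log_mul b0.ne' d0.ne']
      linarith)
    cV hcV
    (hle6 _ (by positivity) (by
      rw [Real.log_mul hcV0.ne' (by positivity), Real.log_mul (Real.exp_ne_zero _) hV0.ne',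
        Real.log_exp]
      linarith))
    bs hbs2
    (fun y d' bb => Ph0 (Real.exp a.1.1.l) (HlR (HpM a qs) (D0M a) (Real.exp a.1.1.l) cV
      (Real.exp y) (nm d') (bb + 1)) (Real.exp y) (Real.exp (a.1.1.l / 20)))
    (fun y d' bb => Ph1 (Real.exp a.1.1.l) (HlR (HpM a qs) (D0M a) (Real.exp a.1.1.l) cV
      (Real.exp y) (nm d') (bb + 1)) (HuR (HpM a qs) (D0M a) (Real.exp a.1.1.l) cV
      (Real.exp y) (nm d')) (Real.exp y))
    (fun _ d' bb k' => W * Real.exp (fT (k + exx) bb (k' + r + bb)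
      (P - Real.log (nm d') - bb) x))
    (Real.log (3 * W * Real.exp (k + 4 / 3 * P + (γ - β) / 3 + exx + 31 * t)))
    (fun y d' bb => Ph0_nonneg (Real.exp_pos _) (HlR_pos0 (Real.exp_pos _) hcV0
      (Real.exp_pos _) hD00) (Real.exp_pos _) (Real.exp_pos _).le)
    (fun y d' bb => Ph1_nonneg (Real.exp_pos _) (HlR_pos0 (Real.exp_pos _) hcV0
      (Real.exp_pos _) hD00) (Real.exp_pos _))
    (fun y d' bb k' => by positivity)
    (fun y d' bb k' hbb => by
      refine mul_le_mul_of_nonneg_left (Real.exp_le_exp.2 ?_) hW0.le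
      exact fT_anti (by exact_mod_cast hbb))
    -- dominance
    (fun y hy d' hd' e he bb hbb hlog => by
      obtain ⟨d1, d2, d3, d4⟩ := hDs d' hd'
      have he1 : IsPrim e := ((mem_S (by unfold E0M; positivity)).1 he).2.1
      have hU : (nm (lc (a.2.1 / b) e) : ℝ) / nm (a.2.1 / b) ≤ Real.exp (bb + 1) := by
        rw [← nm_ratio hcg he1]
        have h1 := Mm828.lc_ratio hcg he1
        rw [← nm_ratio hcg he1] at h1
        rwa [Real.log_le_iff_le_exp (by linarith)] at hlog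
      have hDX := hDXw d' hd'
      have hb1 := hm_bd (K := Real.exp a.1.1.l) (Hp := HpM a qs) (D₀ := D0M a) (cc := cV)
        (V := Real.exp y) (Real.exp_pos _) hcV0 (Real.exp_pos _) (Mm828.lc_ratio hcg he1) hU hDX
      exact dom0 (Real.exp_pos _) (HlR_pos0 (Real.exp_pos _) hcV0 (Real.exp_pos _) hD00) hb1.1
        (Real.exp_pos _) (Real.exp_pos _))
    (fun y hy d' hd' e he bb hbb hlog => by
      obtain ⟨d1, d2, d3, d4⟩ := hDs d' hd'
      have he1 : IsPrim e := ((mem_S (by unfold E0M; positivity)).1 he).2.1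
      have hU : (nm (lc (a.2.1 / b) e) : ℝ) / nm (a.2.1 / b) ≤ Real.exp (bb + 1) := by
        rw [← nm_ratio hcg he1]
        have h1 := Mm828.lc_ratio hcg he1
        rw [← nm_ratio hcg he1] at h1
        rwa [Real.log_le_iff_le_exp (by linarith)] at hlog
      have hDX := hDXw d' hd'
      have hb1 := hm_bd (K := Real.exp a.1.1.l) (Hp := HpM a qs) (D₀ := D0M a) (cc := cV)
        (V := Real.exp y) (Real.exp_pos _) hcV0 (Real.exp_pos _) (Mm828.lc_ratio hcg he1) hU hDX
      exact dom1 (Real.exp_pos _) (HlR_pos0 (Real.exp_pos _) hcV0 (Real.exp_pos _) hD00) hb1.1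
        hb1.2 (Real.exp_pos _))
    -- claims
    (fun y hy d' hd' bb k' l s' q1 q2 q3 q4 q5 q6 q7 q8 => by
      obtain ⟨d1, d2, d3, d4⟩ := hDs d' hd'
      have HT := hTf (y : ℝ) (hLIy y hy)
      have hlogD : Real.log (nm (b * d' * (a.2.1 / b))) = γ + Real.log (nm d') := by
        rw [nm_mul, nm_mul]
        push_cast
        rw [Real.log_mul (by positivity) cg0.ne', Real.log_mul b0.ne' d4.ne', hγcg]
        ring
      have hprimD : IsPrim (b * d' * (a.2.1 / b)) := (hbp.mul d1).mul hcg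
      have hD0' : (0 : ℝ) < nm (b * d' * (a.2.1 / b)) := by linarith [one_le_nmR hprimD]
      rw [hlogy y d' d4] at q3
      have hn1 : LY s' ≤ P - Real.log (nm d') - bb + r := by
        have e1 : Real.log (nm (b * d') * nm (a.2.1 / b)) = γ + Real.log (nm d') := by
          rw [← hlogD]
          congr 1
          rw [nm_mul (b * d')]
          push_cast
          ring
        have h9 := (abs_le.1 q6).2
        rw [e1, hLNs] at h9
        linarith
      have hl1 : l ≤ k' + bb + r := by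
        have h9 := (abs_le.1 q7).2
        linarith
      have hl2 : l ≤ (y + (γ - β)) - 2 * Real.log (nm d') + bb - 3 * 0 + t := by
        rw [htdef]; linarith
      have hn2 : LY s' ≤ P - Real.log (nm d') - bb + t := by
        rw [htdef]; linarith
      have hT5 : TM708.T5 (bP p) * L = min (2 * Nn - k) (3 / 4 * Nn) + 5 * x := by
        show (min (2 * (cu p 2 + cu p 3 + cu p 4) - cκ p) (3 / 4 * (cu p 2 + cu p 3 + cu p 4)) +
          5 * cx' p) * L = _
        have hcN : cN p = cu p 2 + cu p 3 + cu p 4 := rfl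
        rw [← hcN, add_mul, min_mul_of_nonneg _ _ hL.le, hNn, hk, hx]
        congr 1
        · congr 1
          · ring
          · ring
        · ring
      have hPD : PD X (σ / 2) (max B 6) H N (bP p) 1 a.1.2 (List.ofFn fun i => qs.get i)
          a.1.1.l := by
        rw [List.ofFn_get]
        exact PD_mono2 hX1 (by linarith) (le_max_left _ _) F.pd
      have hK5 : L * K5 (bP p) ≤ k + exx := by
        show L * max (cκ p) (5 / 4 * (cu p 2 + cu p 3 + cu p 4)) ≤ _
        have hcN : cN p = cu p 2 + cu p 3 + cu p 4 := rfl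
        have e1 := le_max_left 0 (5 / 4 * (cN p * L) - cκ p * L)
        have e2 := le_max_right 0 (5 / 4 * (cN p * L) - cκ p * L)
        rw [← hcN, mul_max_of_nonneg _ _ hL.le]
        refine max_le (by linarith) ?_
        linarith
      have hlo' : L * (3 / 4 * d * bP p 0) = lo := by
        show L * (3 / 4 * d * cκ p) = _
        rw [hlo, hk]; ring
      have cl1 := G X hXX1 (bP p) (bP_mem hd hd1 hA1 hp) qs.length a.1.2 (fun i => qs.get i)
        a.1.1.l H hPD (b * d' * (a.2.1 / b)) hprimD (by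
          refine (hle6 _ hD0' ?_).trans (Real.rpow_le_rpow_of_exponent_le hX1 (le_max_right _ _))
          rw [hlogD]
          linarith) l s' q4 q5 (by
          show l + LY s' ≤ (TM708.T5 (bP p) + (cu p 2 + cu p 3 + cu p 4 + cx' p) + σ / 2) * L
          have hcN : cN p = cu p 2 + cu p 3 + cu p 4 := rfl
          have hσL : 200 * (τ * L) ≤ σ * L := by
            have := mul_le_mul_of_nonneg_right hτσ hL.le
            linarith
          have htop := topR2 HT d2 le_rfl hl2 hn2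
          rw [← hcN, add_mul, add_mul, hT5, add_mul, ← hNn, ← hx]
          linarith) (fT (k + exx) bb (k' + r + bb) (P - Real.log (nm d') - bb) x + lo + 3 * t) (by
          intro z₁ z₂ z₃ w c1 c2 c3 c4 c5 c6 c7 c8 c9 c10
          rw [List.ofFn_get] at c8
          show NV d (L * K5 (bP p)) (L * (3 / 4 * d * bP p 0)) l (LY s') z₁ z₂ z₃ w ≤ _
          rw [hlo']
          have hKk : FEx436.kV (L * K5 (bP p)) l (LY s') ≤ k + exx + 3 * t := by
            have h1 := kV_le (l := l) (n := LY s') HT hxx (by linarith)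
            unfold FEx436.kV
            refine le_trans (max_le_max hK5 le_rfl) h1
          refine nv_le ht0' hdk0 ?_ ?_ c9 ?_ c1 c2 c3 c4 ?_
          · have : (0 : ℝ) ≤ bb := Nat.cast_nonneg _
            linarith
          · linarith
          · linarith
          · rw [htdef]; linarith)
      rw [mul_comm (W * _)]
      refine cl1.trans (le_of_eq ?_)
      congr 1
      rw [hW, mul_assoc _ (Real.exp _) (Real.exp _), ← Real.exp_add]
      congr 2
      ring)
    -- lines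
    (fun y hy d' hd' h1 bb hbb => by
      obtain ⟨d1, d2, d3, d4⟩ := hDs d' hd'
      have HT := hTf (y : ℝ) (hLIy y hy)
      have ed : Real.exp (Real.log (nm d')) = nm d' := Real.exp_log d4
      have hbb' : (bb : ℝ) ≤ bs := by exact_mod_cast hbb
      have hA := lineA (q := (bb : ℝ) + 1) (b := (bb : ℝ)) (κ := a.1.1.l) (hp := hp') (cc := cV)
        (D₀ := D0M a) (W := W) (δ := Real.log (nm d'))
        (l := Real.log cV + y - 2 * Real.log (nm d') + (γ - β) + r + bb) HT hρ0 d2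
        (Nat.cast_nonneg _) (by linarith) (by linarith) hκt hhr.1 hcV hcct hD0
        (hδy y d' d4 h1) (by rw [htdef]; linarith) hW0.le
      rw [ed] at hA
      rw [Real.exp_log hmpos, hlogy y d' d4]
      refine hA.trans ?_
      refine mul_le_mul_of_nonneg_left (Real.exp_le_exp.2 (by linarith)) (by positivity))
    (fun y hy d' hd' bb n hbb hn h1 h2 => by
      obtain ⟨d1, d2, d3, d4⟩ := hDs d' hd'
      have HT := hTf (y : ℝ) (hLIy y hy)
      have ed : Real.exp (Real.log (nm d')) = nm d' := Real.exp_log d4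
      have hbb' : (bb : ℝ) ≤ bs := by exact_mod_cast hbb
      have hA := lineB (q := (bb : ℝ) + 1) (b := (bb : ℝ)) (κ := a.1.1.l) (hp := hp') (cc := cV)
        (D₀ := D0M a) (W := W) (δ := Real.log (nm d')) (c := n)
        (l := Real.log cV + y - 2 * Real.log (nm d') + (γ - β) - 3 * n + r + bb) HT hρ0 d2
        (Nat.cast_nonneg _) hn (by linarith) (by linarith) hκt hhr.1 hhr.2 hcV hcct hD0
        (hδy y d' d4 h1) (by rw [htdef]; linarith) hW0.le
      rw [ed] at hA
      rw [Real.exp_log hmpos, hlogy y d' d4]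
      exact hA)
  rw [Real.exp_log hmpos, hLNs, show P + 2 * γ = LN (cl a.1 qs) by rw [hPdef]; ring, hW] at key
  refine key.trans ?_
  have hS : (1 + |s|) ^ (((N + 3 : ℕ) : ℝ) * (M : ℝ)) = (1 + |s|) ^ ((N + 3) * M) := by
    rw [← Real.rpow_natCast]
    congr 1
    push_cast
    ring
  rw [hS]
  have hlast := lastR (X := X) (L := L) (C := C) (S := (1 + |s|) ^ ((N + 3) * M)) (Ht := H)
    (ε := ε) (ε₁ := ε / 4) (ε₂ := ε / 4) (ε₃ := ε / 8) (τ := τ) (k := k) (l := a.1.1.l)
    (P := LN (cl a.1 qs)) (ng := nm a.2.1) (nb := nm b) (ρ := γ - β) (ex := exx) (lo := lo)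
    (L0 := LS0 d p) (t := t) (M := M) hX0 hLdef hC (by positivity) hH0.le g0 b0 rfl
    (by linarith) (by
      unfold LS0
      rw [add_mul, max_mul_of_nonneg _ _ hL.le, zero_mul, hexx, hlo, hk]
      refine le_of_eq ?_
      congr 1
      · congr 1
        ring
      · ring) le_rfl (by linarith) hL.le hCL
  exact hlast

end Crest.Agent.R017.LT404
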