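import Crest.Agent.R017.P1TN_957
import Mathlib.Analysis.SpecialFunctions.Pow.Real

/-!
# Row 17, R8 (P1M): the dominance lines and the real lines of `TPsm` (helper957)

* `HuR`, `HlR` : bounds of the length of the rows; `hm_bd` : `HlR ≤ Hm ≤ HuR`
* `Ph0`, `Ph1` : the coefficients `Φ₀`, `Φ₁`; **`dom0`**, **`dom1`** : the dominance lines
* `fT_anti` : the claims against the removed part; `T0g`, `LSg`, `Lg`, `T0g'` : lines for all `b`
* **`lineA`**, **`lineB`** : the lines (a), (b) of `TPsm`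
-/

set_option autoImplicit false
set_option linter.unusedVariables false

noncomputable section

namespace Crest.Agent.R017.TL957

/-! ### coefficients -/

/-- upper bound of the length of the rows -/
def HuR (Hp D₀ K cc V D : ℝ) : ℝ :=
  if D ≤ D₀ then max 1 (Hp * D ^ (-(4 / 3) : ℝ)) else K * D / (2 * cc * V ^ 2)

/-- lower bound of the length of the rows, `U ≤ e^q` -/
def HlR (Hp D₀ K cc V D q : ℝ) : ℝ :=
  if D ≤ D₀ then max 1 (Hp * D ^ (-(4 / 3) : ℝ)) * Real.exp (-2 * q) else K * D / (2 * cc * V ^ 2)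

lemma HlR_pos {Hp D₀ K cc V D q : ℝ} (hK : 0 < K) (hc : 0 < cc) (hV : 0 < V) (hD : 0 < D) :
    0 < HlR Hp D₀ K cc V D q := by
  unfold HlR
  split_ifs
  · exact mul_pos (lt_max_of_lt_left one_pos) (Real.exp_pos _)
  · positivity

/-- **the length of the rows between the bounds** -/
lemma hm_bd {Hp D₀ K cc V D q U X : ℝ} (hK : 0 < K) (hc : 0 < cc) (hV : 0 < V) (hU : 1 ≤ U)
    (hUq : U ≤ Real.exp q) (hDX : D ≤ X) :
    HlR Hp D₀ K cc V D q ≤ (if D ≤ D₀ then max 1 (Hp * D ^ (-(4 / 3) : ℝ)) * U ^ (-2 : ℝ)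
      else K * min D X / (2 * cc * V ^ 2)) ∧
    (if D ≤ D₀ then max 1 (Hp * D ^ (-(4 / 3) : ℝ)) * U ^ (-2 : ℝ)
      else K * min D X / (2 * cc * V ^ 2)) ≤ HuR Hp D₀ K cc V D := by
  have hU0 : 0 < U := by linarith
  have h1 : (0 : ℝ) ≤ max 1 (Hp * D ^ (-(4 / 3) : ℝ)) := zero_le_one.trans (le_max_left _ _)
  unfold HlR HuR
  split_ifs with h
  · constructor
    · refine mul_le_mul_of_nonneg_left ?_ h1
      have e1 : Real.exp (-2 * q) = (Real.exp q) ^ (-2 : ℝ) := by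
        rw [← Real.exp_mul]; congr 1; ring
      rw [e1]
      exact Real.rpow_le_rpow_of_nonpos hU0 hUq (by norm_num)
    · exact mul_le_of_le_one_right h1 (Real.rpow_le_one_of_one_le_of_nonpos hU (by norm_num))
  · rw [min_eq_left hDX]
    exact ⟨le_rfl, le_rfl⟩

/-- the coefficient `Φ₀` -/
def Ph0 (K Hl V E1 : ℝ) : ℝ :=
  K ^ (2 / 3 : ℝ) * (Hl * V) ^ (-(1 / 3) : ℝ) + V ^ (2 / 3 : ℝ) * E1 ^ 2 * K ^ (-(1 / 3) : ℝ) +
    V ^ (2 / 3 : ℝ) * E1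

/-- the coefficient `Φ₁` -/
def Ph1 (K Hl Hu V : ℝ) : ℝ :=
  K ^ (2 / 3 : ℝ) * (Hl * V) ^ (-(1 / 3) : ℝ) *
    (1 + (Hu ^ 2 * V ^ 3 / K ^ 2) ^ (1 / 3 : ℝ) + (Hu ^ 2 * V ^ 3 / K ^ 2) ^ (1 / 2 : ℝ))

lemma Ph0_nonneg {K Hl V E1 : ℝ} (hK : 0 < K) (hH : 0 < Hl) (hV : 0 < V) (hE : 0 ≤ E1) :
    0 ≤ Ph0 K Hl V E1 := by
  unfold Ph0; positivity

lemma Ph1_nonneg {K Hl Hu V : ℝ} (hK : 0 < K) (hH : 0 < Hl) (hV : 0 < V) :
    0 ≤ Ph1 K Hl Hu V := by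
  unfold Ph1; positivity

lemma ex3 (a s : ℝ) : (Real.exp a) ^ s = Real.exp (a * s) := (Real.exp_mul a s).symm

lemma exn (a : ℝ) (n : ℕ) : (Real.exp a) ^ n = Real.exp (n * a) := (Real.exp_nat_mul a n).symm

/-- **dominance, cube-free lines** (`cLS` at `V' = V`, `B = G1 = 1`) -/
lemma dom0 {K Hl H V E1 : ℝ} (hK : 0 < K) (hHl : 0 < Hl) (hH : Hl ≤ H) (hV : 0 < V)
    (hE : 0 < E1) :
    K ^ (2 / 3 : ℝ) * (H * V) ^ (-(1 / 3) : ℝ) *
      (1 + (H * (V / V)) ^ (1 / 3 : ℝ) * (V / K) * (E1 ^ 2 * 1 ^ 2 * 1) +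
        (H * V ^ 2 * V * E1 ^ 3 * 1 ^ 2 / K ^ 2) ^ (1 / 3 : ℝ)) ≤ Ph0 K Hl V E1 := by
  have hH0 : 0 < H := lt_of_lt_of_le hHl hH
  have h1 : (H * V) ^ (-(1 / 3) : ℝ) ≤ (Hl * V) ^ (-(1 / 3) : ℝ) :=
    Real.rpow_le_rpow_of_nonpos (by positivity) (mul_le_mul_of_nonneg_right hH hV.le)
      (by norm_num)
  have h2 : K ^ (2 / 3 : ℝ) * (H * V) ^ (-(1 / 3) : ℝ) ≤
      K ^ (2 / 3 : ℝ) * (Hl * V) ^ (-(1 / 3) : ℝ) :=
    mul_le_mul_of_nonneg_left h1 (Real.rpow_nonneg hK.le _)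
  unfold Ph0
  obtain ⟨k, rfl⟩ : ∃ k, K = Real.exp k := ⟨Real.log K, (Real.exp_log hK).symm⟩
  obtain ⟨a, rfl⟩ : ∃ a, H = Real.exp a := ⟨Real.log H, (Real.exp_log hH0).symm⟩
  obtain ⟨v, rfl⟩ : ∃ v, V = Real.exp v := ⟨Real.log V, (Real.exp_log hV).symm⟩
  obtain ⟨y, rfl⟩ : ∃ y, E1 = Real.exp y := ⟨Real.log E1, (Real.exp_log hE).symm⟩
  have e1 : Real.exp k ^ (2 / 3 : ℝ) * (Real.exp a * Real.exp v) ^ (-(1 / 3) : ℝ) *
      ((Real.exp a * (Real.exp v / Real.exp v)) ^ (1 / 3 : ℝ) * (Real.exp v / Real.exp k) *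
        (Real.exp y ^ 2 * 1 ^ 2 * 1)) =
      Real.exp v ^ (2 / 3 : ℝ) * Real.exp y ^ 2 * Real.exp k ^ (-(1 / 3) : ℝ) := by
    rw [div_self (Real.exp_ne_zero v), mul_one, one_pow, mul_one, mul_one, ← Real.exp_add,
      ← Real.exp_sub]
    simp only [ex3, exn, ← Real.exp_add]
    congr 1; push_cast; ring
  have e2 : Real.exp k ^ (2 / 3 : ℝ) * (Real.exp a * Real.exp v) ^ (-(1 / 3) : ℝ) *
      (Real.exp a * Real.exp v ^ 2 * Real.exp v * Real.exp y ^ 3 * 1 ^ 2 / Real.exp k ^ 2) ^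
        (1 / 3 : ℝ) = Real.exp v ^ (2 / 3 : ℝ) * Real.exp y := by
    rw [one_pow, mul_one]
    simp only [exn, ← Real.exp_add, ← Real.exp_sub, ex3]
    congr 1; push_cast; ring
  rw [mul_add, mul_add, mul_one, e1, e2]
  linarith

/-- **dominance, lines with cubes** -/
lemma dom1 {K Hl Hu H V : ℝ} (hK : 0 < K) (hHl : 0 < Hl) (hH : Hl ≤ H) (hH' : H ≤ Hu)
    (hV : 0 < V) :
    K ^ (2 / 3 : ℝ) * (H * V) ^ (-(1 / 3) : ℝ) *
      (1 + (H ^ 2 * V ^ 3 / K ^ 2) ^ (1 / 3 : ℝ) + (H ^ 2 * V ^ 3 / K ^ 2) ^ (1 / 2 : ℝ)) ≤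
      Ph1 K Hl Hu V := by
  have hH0 : 0 < H := lt_of_lt_of_le hHl hH
  have h1 : (H * V) ^ (-(1 / 3) : ℝ) ≤ (Hl * V) ^ (-(1 / 3) : ℝ) :=
    Real.rpow_le_rpow_of_nonpos (by positivity) (mul_le_mul_of_nonneg_right hH hV.le)
      (by norm_num)
  have h2 : H ^ 2 * V ^ 3 / K ^ 2 ≤ Hu ^ 2 * V ^ 3 / K ^ 2 := by gcongr
  have h0 : 0 ≤ H ^ 2 * V ^ 3 / K ^ 2 := by positivity
  unfold Ph1
  refine mul_le_mul (mul_le_mul_of_nonneg_left h1 (Real.rpow_nonneg hK.le _)) ?_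
    (by positivity) (by positivity)
  have h3 := Real.rpow_le_rpow h0 h2 (by norm_num : (0 : ℝ) ≤ 1 / 3)
  have h4 := Real.rpow_le_rpow h0 h2 (by norm_num : (0 : ℝ) ≤ 1 / 2)
  linarith

/-! ### the claims for all removed parts -/

/-- the claims decrease with the removed part -/
lemma fT_anti {K5 b b' l n x : ℝ} (h : b ≤ b') :
    fT K5 b' (l + b') (n - b') x ≤ fT K5 b (l + b) (n - b) x := by
  unfold fT
  refine max_le_max (min_le_min (max_le_max (by linarith) ?_) (max_le_max (by linarith)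
    (by linarith))) (by linarith)
  have : max (K5 + b' / 2) (3 / 2 * (l + b')) ≤ max (K5 + b / 2) (3 / 2 * (l + b)) +
      3 / 2 * (b' - b) := by
    rw [← max_add_add_right]
    exact max_le_max (by linarith) (by linarith)
  linarith

variable {k N x ex v p t δ b c l q : ℝ}

theorem T0g (H : Tf k N x ex v p t) (δ0 : 0 ≤ δ) (b0 : 0 ≤ b) (c0 : 0 ≤ c)
    (hq : q ≤ b + t) (hq1 : q ≤ k / 64 + x + t) (hl : l ≤ v - 2 * δ + b - 3 * c + t) :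
    2 / 3 * k - hH k x ex p δ / 3 + 2 / 3 * q + 2 * δ + c - v / 3 - p / 3 +
      fT (k + ex) b l (p - δ - b) x ≤ k + p + ex + 11 * t := by
  rcases le_total b (k / 64 + x + t) with h | h
  · have := T0f H δ0 b0 h c0 hl
    linarith [H.t0]
  · have h1 := fT_anti (K5 := k + ex) (l := l - b) (n := p - δ) (x := x) h
    rw [sub_add_cancel] at h1
    have h2 := T0f (b := k / 64 + x + t) (l := l - b + (k / 64 + x + t)) H δ0
      (by linarith [H.t0, H.k0, H.x0]) le_rfl c0 (by linarith)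
    linarith [H.t0]

theorem LSg (H : Tf k N x ex v p t) (δ0 : 0 ≤ δ) (b0 : 0 ≤ b) (hl : l ≤ v - 2 * δ + b + t) :
    2 * δ - v / 3 - p / 3 + fT (k + ex) b l (p - δ - b) x + v + k / 20 ≤
      k + p + ex + 10 * t := by
  have h1 := fT_anti (K5 := k + ex) (l := l - b) (n := p - δ) (x := x) b0
  rw [sub_add_cancel] at h1
  have h2 := LSf (b := 0) (l := l - b + 0) H δ0 le_rfl (by linarith [H.t0, H.k0, H.x0])
    (by linarith)
  linarith

theorem Lg (H : Tf k N x ex v p t) (δ0 : 0 ≤ δ) (b0 : 0 ≤ b) (hl : l ≤ v - 2 * δ + b + t) :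
    2 / 3 * k + 2 * δ - v / 3 - p / 3 + fT (k + ex) b l (p - δ - b) x + v - k + k / 10 ≤
      k + p + ex + 10 * t := by
  have h1 := fT_anti (K5 := k + ex) (l := l - b) (n := p - δ) (x := x) b0
  rw [sub_add_cancel] at h1
  have h2 := Lf (b := 0) (l := l - b + 0) H δ0 le_rfl (by linarith [H.t0, H.k0, H.x0])
    (by linarith)
  linarith

theorem T0g' (H : Tf k N x ex v p t) (δ0 : 13 / 100 * k - t ≤ δ) (δ1 : 2 * δ ≤ v + t)
    (b0 : 0 ≤ b) (c0 : 0 ≤ c) (hl : l ≤ v - 2 * δ + b - 3 * c + t) :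
    1 / 3 * k + 2 * δ - δ / 3 + v / 3 - p / 3 + c + fT (k + ex) b l (p - δ - b) x ≤
      k + p + ex + 10 * t := by
  have h1 := fT_anti (K5 := k + ex) (l := l - b) (n := p - δ) (x := x) b0
  rw [sub_add_cancel] at h1
  have h2 := T0f' (b := 0) (l := l - b + 0) H δ0 δ1 le_rfl (by linarith [H.t0, H.k0, H.x0])
    c0 (by linarith)
  linarith

/-! ### the lines of `TPsm` -/

variable {κ hp y ρ cc D₀ W : ℝ}

/-- the first coefficient -/
lemma A1_le (H : Tf k N x ex (y + ρ) p t) (ρ0 : 0 ≤ ρ) (δ0 : 0 ≤ δ) (b0 : 0 ≤ b) (c0 : 0 ≤ c)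
    (hq : q ≤ b + t) (hq1 : q ≤ k / 64 + x + t) (hκ : |κ - k| ≤ t)
    (hhp : 4 / 3 * p + 2 / 3 * x - k - 3 * ex - 10 * t ≤ hp) (hcc : 1 ≤ cc)
    (hcct : Real.log (2 * cc) ≤ t) (hD : D₀ = Real.exp (13 / 100 * κ)) (δ1 : 2 * δ ≤ y + t)
    (hl : l ≤ y + ρ - 2 * δ + b - 3 * c + t) :
    Real.exp κ ^ (2 / 3 : ℝ) * (HlR (Real.exp hp) D₀ (Real.exp κ) cc (Real.exp y) (Real.exp δ) q *
      Real.exp y) ^ (-(1 / 3) : ℝ) * Real.exp (fT (k + ex) b l (p - δ - b) x) *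
      Real.exp δ ^ 2 * Real.exp c ≤ Real.exp (k + 4 / 3 * p + ρ / 3 + ex + 20 * t) := by
  obtain ⟨k1, k2⟩ := abs_le.1 hκ
  have ht := H.t0
  unfold HlR
  split_ifs with h
  · have e1 : max 1 (Real.exp hp * Real.exp δ ^ (-(4 / 3) : ℝ)) =
        Real.exp (max 0 (hp - 4 / 3 * δ)) := by
      rw [Real.exp_monotone.map_max, Real.exp_zero, ex3, ← Real.exp_add]
      congr 2; ring
    rw [e1]
    simp only [← Real.exp_add, ex3, exn]
    refine Real.exp_le_exp.2 ?_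
    have h1 := T0g H δ0 b0 c0 hq hq1 hl
    have h2 : hH k x ex p δ - 10 * t ≤ max 0 (hp - 4 / 3 * δ) := by
      unfold hH
      have m1 := le_max_left 0 (hp - 4 / 3 * δ)
      have m2 := le_max_right 0 (hp - 4 / 3 * δ)
      rcases max_choice 0 (4 / 3 * (p - δ) + 2 / 3 * x - k - 3 * ex) with g | g <;> rw [g] <;>
        linarith
    push_cast
    linarith
  · have hδ : 13 / 100 * k - t ≤ δ := by
      rw [hD, not_le, Real.exp_lt_exp] at h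
      linarith
    have h1 := T0g' H hδ (by linarith) b0 c0 hl
    have hc2 : (0 : ℝ) < 2 * cc := by linarith
    have e1 : Real.exp κ * Real.exp δ / (2 * cc * Real.exp y ^ 2) * Real.exp y =
        Real.exp (κ + δ - Real.log (2 * cc) - y) := by
      rw [Real.exp_sub, Real.exp_sub, Real.exp_log hc2, Real.exp_add]
      field_simp
    rw [e1]
    simp only [← Real.exp_add, ex3, exn]
    refine Real.exp_le_exp.2 ?_
    push_cast
    linarith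

/-- **the line (a) of `TPsm`** -/
theorem lineA (H : Tf k N x ex (y + ρ) p t) (ρ0 : 0 ≤ ρ) (δ0 : 0 ≤ δ) (b0 : 0 ≤ b)
    (hq : q ≤ b + t) (hq1 : q ≤ k / 64 + x + t) (hκ : |κ - k| ≤ t)
    (hhp : 4 / 3 * p + 2 / 3 * x - k - 3 * ex - 10 * t ≤ hp) (hcc : 1 ≤ cc)
    (hcct : Real.log (2 * cc) ≤ t) (hD : D₀ = Real.exp (13 / 100 * κ)) (δ1 : 2 * δ ≤ y + t)
    (hl : l ≤ y + ρ - 2 * δ + b + t) (hW : 0 ≤ W) :
    Ph0 (Real.exp κ) (HlR (Real.exp hp) D₀ (Real.exp κ) cc (Real.exp y) (Real.exp δ) q)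
      (Real.exp y) (Real.exp (κ / 20)) * (W * Real.exp (fT (k + ex) b l (p - δ - b) x)) *
      Real.exp δ ^ 2 ≤ 3 * W * Real.exp (k + 4 / 3 * p + ρ / 3 + ex + 20 * t) := by
  have ht := H.t0
  obtain ⟨k1, k2⟩ := abs_le.1 hκ
  have hA := A1_le (c := 0) (l := l) H ρ0 δ0 b0 le_rfl hq hq1 hκ hhp hcc hcct hD δ1 (by linarith)
  rw [Real.exp_zero, mul_one] at hA
  have hB : Real.exp y ^ (2 / 3 : ℝ) * Real.exp (κ / 20) ^ 2 * Real.exp κ ^ (-(1 / 3) : ℝ) *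
      Real.exp (fT (k + ex) b l (p - δ - b) x) * Real.exp δ ^ 2 ≤
      Real.exp (k + 4 / 3 * p + ρ / 3 + ex + 20 * t) := by
    simp only [← Real.exp_add, ex3, exn]
    refine Real.exp_le_exp.2 ?_
    have h1 := Lg H δ0 b0 hl
    push_cast
    linarith
  have hC : Real.exp y ^ (2 / 3 : ℝ) * Real.exp (κ / 20) *
      Real.exp (fT (k + ex) b l (p - δ - b) x) * Real.exp δ ^ 2 ≤
      Real.exp (k + 4 / 3 * p + ρ / 3 + ex + 20 * t) := by
    simp only [← Real.exp_add, ex3, exn]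
    refine Real.exp_le_exp.2 ?_
    have h1 := LSg H δ0 b0 hl
    push_cast
    linarith
  have e : Ph0 (Real.exp κ) (HlR (Real.exp hp) D₀ (Real.exp κ) cc (Real.exp y) (Real.exp δ) q)
      (Real.exp y) (Real.exp (κ / 20)) * (W * Real.exp (fT (k + ex) b l (p - δ - b) x)) *
      Real.exp δ ^ 2 = W * (Real.exp κ ^ (2 / 3 : ℝ) * (HlR (Real.exp hp) D₀ (Real.exp κ) cc
        (Real.exp y) (Real.exp δ) q * Real.exp y) ^ (-(1 / 3) : ℝ) *
        Real.exp (fT (k + ex) b l (p - δ - b) x) * Real.exp δ ^ 2 +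
      Real.exp y ^ (2 / 3 : ℝ) * Real.exp (κ / 20) ^ 2 * Real.exp κ ^ (-(1 / 3) : ℝ) *
        Real.exp (fT (k + ex) b l (p - δ - b) x) * Real.exp δ ^ 2 +
      Real.exp y ^ (2 / 3 : ℝ) * Real.exp (κ / 20) *
        Real.exp (fT (k + ex) b l (p - δ - b) x) * Real.exp δ ^ 2) := by
    unfold Ph0; ring
  rw [e]
  have := mul_le_mul_of_nonneg_left (add_le_add (add_le_add hA hB) hC) hW
  linarith

/-- `H² V³ ≤ K²` -/
lemma Q_le (H : Tf k N x ex (y + ρ) p t) (ρ0 : 0 ≤ ρ) (δ0 : 0 ≤ δ) (hκ : |κ - k| ≤ t)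
    (hhp : hp ≤ 4 / 3 * p + 2 / 3 * x - k - 3 * ex + 10 * t) (hcc : 1 ≤ cc)
    (δ1 : 2 * δ ≤ y + t) :
    HuR (Real.exp hp) D₀ (Real.exp κ) cc (Real.exp y) (Real.exp δ) ^ 2 * Real.exp y ^ 3 /
      Real.exp κ ^ 2 ≤ Real.exp (22 * t) := by
  obtain ⟨k1, k2⟩ := abs_le.1 hκ
  have ht := H.t0
  unfold HuR
  split_ifs with h
  · have e1 : max 1 (Real.exp hp * Real.exp δ ^ (-(4 / 3) : ℝ)) =
        Real.exp (max 0 (hp - 4 / 3 * δ)) := by
      rw [Real.exp_monotone.map_max, Real.exp_zero, ex3, ← Real.exp_add]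
      congr 2; ring
    rw [e1]
    simp only [exn, ← Real.exp_add, ← Real.exp_sub]
    refine Real.exp_le_exp.2 ?_
    have h1 := line_th H δ0
    have h2 : max 0 (hp - 4 / 3 * δ) ≤ hH k x ex p δ + 10 * t := by
      have m1 := hH0 k x ex p δ
      have m2 := hH1 k x ex p δ
      exact max_le (by linarith) (by linarith)
    push_cast
    linarith
  · have hc2 : (0 : ℝ) < 2 * cc := by linarith
    have hc3 : 0 ≤ Real.log (2 * cc) := Real.log_nonneg (by linarith)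
    have e1 : Real.exp κ * Real.exp δ / (2 * cc * Real.exp y ^ 2) =
        Real.exp (κ + δ - Real.log (2 * cc) - 2 * y) := by
      rw [Real.exp_sub, Real.exp_sub, Real.exp_log hc2, Real.exp_add, exn]
      push_cast
      field_simp
    rw [e1]
    simp only [exn, ← Real.exp_add, ← Real.exp_sub]
    refine Real.exp_le_exp.2 ?_
    push_cast
    linarith

/-- **the line (b) of `TPsm`** -/
theorem lineB (H : Tf k N x ex (y + ρ) p t) (ρ0 : 0 ≤ ρ) (δ0 : 0 ≤ δ) (b0 : 0 ≤ b) (c0 : 0 ≤ c)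
    (hq : q ≤ b + t) (hq1 : q ≤ k / 64 + x + t) (hκ : |κ - k| ≤ t)
    (hhp : 4 / 3 * p + 2 / 3 * x - k - 3 * ex - 10 * t ≤ hp)
    (hhp' : hp ≤ 4 / 3 * p + 2 / 3 * x - k - 3 * ex + 10 * t) (hcc : 1 ≤ cc)
    (hcct : Real.log (2 * cc) ≤ t) (hD : D₀ = Real.exp (13 / 100 * κ)) (δ1 : 2 * δ ≤ y + t)
    (hl : l ≤ y + ρ - 2 * δ + b - 3 * c + t) (hW : 0 ≤ W) :
    Ph1 (Real.exp κ) (HlR (Real.exp hp) D₀ (Real.exp κ) cc (Real.exp y) (Real.exp δ) q)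
      (HuR (Real.exp hp) D₀ (Real.exp κ) cc (Real.exp y) (Real.exp δ)) (Real.exp y) *
      (W * Real.exp (fT (k + ex) b l (p - δ - b) x)) * Real.exp δ ^ 2 * Real.exp c ≤
      3 * W * Real.exp (k + 4 / 3 * p + ρ / 3 + ex + 31 * t) := by
  have ht := H.t0
  have hA := A1_le H ρ0 δ0 b0 c0 hq hq1 hκ hhp hcc hcct hD δ1 hl
  have hQ := Q_le (D₀ := D₀) H ρ0 δ0 hκ hhp' hcc δ1
  set Q := HuR (Real.exp hp) D₀ (Real.exp κ) cc (Real.exp y) (Real.exp δ) ^ 2 * Real.exp y ^ 3 /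
      Real.exp κ ^ 2 with hQd
  have hQ0 : 0 ≤ Q := by positivity
  have q1 : Q ^ (1 / 3 : ℝ) ≤ Real.exp (11 * t) := by
    refine (Real.rpow_le_rpow hQ0 hQ (by norm_num)).trans ?_
    rw [ex3]
    exact Real.exp_le_exp.2 (by linarith)
  have q2 : Q ^ (1 / 2 : ℝ) ≤ Real.exp (11 * t) := by
    refine (Real.rpow_le_rpow hQ0 hQ (by norm_num)).trans ?_
    rw [ex3]
    exact Real.exp_le_exp.2 (by linarith)
  have q3 : (1 : ℝ) ≤ Real.exp (11 * t) := Real.one_le_exp (by linarith)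
  have hs : 1 + Q ^ (1 / 3 : ℝ) + Q ^ (1 / 2 : ℝ) ≤ 3 * Real.exp (11 * t) := by linarith
  have hs0 : 0 ≤ 1 + Q ^ (1 / 3 : ℝ) + Q ^ (1 / 2 : ℝ) := by positivity
  have e : Ph1 (Real.exp κ) (HlR (Real.exp hp) D₀ (Real.exp κ) cc (Real.exp y) (Real.exp δ) q)
      (HuR (Real.exp hp) D₀ (Real.exp κ) cc (Real.exp y) (Real.exp δ)) (Real.exp y) *
      (W * Real.exp (fT (k + ex) b l (p - δ - b) x)) * Real.exp δ ^ 2 * Real.exp c =
      (1 + Q ^ (1 / 3 : ℝ) + Q ^ (1 / 2 : ℝ)) * W * (Real.exp κ ^ (2 / 3 : ℝ) * (HlR (Real.exp hp)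
        D₀ (Real.exp κ) cc (Real.exp y) (Real.exp δ) q * Real.exp y) ^ (-(1 / 3) : ℝ) *
        Real.exp (fT (k + ex) b l (p - δ - b) x) * Real.exp δ ^ 2 * Real.exp c) := by
    unfold Ph1; rw [← hQd]; ring
  rw [e]
  calc _ ≤ (1 + Q ^ (1 / 3 : ℝ) + Q ^ (1 / 2 : ℝ)) * W *
        Real.exp (k + 4 / 3 * p + ρ / 3 + ex + 20 * t) :=
        mul_le_mul_of_nonneg_left hA (mul_nonneg hs0 hW)
    _ ≤ (3 * Real.exp (11 * t)) * W * Real.exp (k + 4 / 3 * p + ρ / 3 + ex + 20 * t) :=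
        mul_le_mul_of_nonneg_right (mul_le_mul_of_nonneg_right hs hW) (Real.exp_pos _).le
    _ = 3 * W * Real.exp (k + 4 / 3 * p + ρ / 3 + ex + 31 * t) := by
        rw [show k + 4 / 3 * p + ρ / 3 + ex + 31 * t =
          11 * t + (k + 4 / 3 * p + ρ / 3 + ex + 20 * t) by ring, Real.exp_add (11 * t)]
        ring

end Crest.Agent.R017.TL957
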