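import Crest.Agent.R017.M1Ea_702
import Crest.Agent.R017.P1TP_957

/-!
# Row 17, class E (helper702): the lines (a), (b) of the mismatch with the bias

helper957's `lineA`, `lineB` (lines (a), (b) of `TPsm`) for an abstract number
`F ≤ max (fT ..) (bE ..) + t`.
* `A1F`, `lineAF`, `QF`, `lineBF` : from the real lines of `F`
* `T0F`, `LSF`, `LF`, `T0F'` : the real lines of `F`
* **`lineAE`**, **`lineBE`** (single lists: `s = 0`)
-/

set_option autoImplicit false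
set_option linter.unusedVariables false

noncomputable section

namespace Crest.Agent.R017.TLE702

open Crest.Agent.R017.TL957

variable {k N x ex v v' p t D lo g s δ b c l q F κ hp y ρ cc D₀ W Q : ℝ}

/-- the first coefficient -/
lemma A1F (H : Tf k N x ex (y + ρ) p t) (hκ : |κ - k| ≤ t)
    (hhp : 4 / 3 * p + 2 / 3 * x - k - 3 * ex - 10 * t ≤ hp) (hcc : 1 ≤ cc)
    (hcct : Real.log (2 * cc) ≤ t) (hD : D₀ = Real.exp (13 / 100 * κ))
    (ρ0 : 0 ≤ ρ)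
    (h1 : 2 / 3 * k - hH k x ex p δ / 3 + 2 / 3 * q + 2 * δ + c - (y + ρ) / 3 - p / 3 + F ≤
      k + p + ex + 12 * t)
    (h1' : 13 / 100 * k - t ≤ δ → 1 / 3 * k + 2 * δ - δ / 3 + (y + ρ) / 3 - p / 3 + c + F ≤
      k + p + ex + 12 * t) :
    Real.exp κ ^ (2 / 3 : ℝ) * (HlR (Real.exp hp) D₀ (Real.exp κ) cc (Real.exp y) (Real.exp δ) q *
      Real.exp y) ^ (-(1 / 3) : ℝ) * Real.exp F *
      Real.exp δ ^ 2 * Real.exp c ≤ Real.exp (k + 4 / 3 * p + ρ / 3 + ex + 20 * t) := by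
  obtain ⟨k1, k2⟩ := abs_le.1 hκ
  have ht := H.t0
  unfold HlR
  split_ifs with h
  · have e1 : max 1 (Real.exp hp * Real.exp δ ^ (-(4 / 3) : ℝ)) =
        Real.exp (max 0 (hp - 4 / 3 * δ)) := by
      rw [Real.exp_monotone.map_max, Real.exp_zero, ex3, ← Real.exp_add]
      congr 2; ring
    rw [e1]
    simp only [← Real.exp_add, ex3, exn]
    refine Real.exp_le_exp.2 ?_
    have h2 : hH k x ex p δ - 10 * t ≤ max 0 (hp - 4 / 3 * δ) := by
      unfold hH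
      have m1 := le_max_left 0 (hp - 4 / 3 * δ)
      have m2 := le_max_right 0 (hp - 4 / 3 * δ)
      rcases max_choice 0 (4 / 3 * (p - δ) + 2 / 3 * x - k - 3 * ex) with g | g <;> rw [g] <;>
        linarith
    push_cast
    linarith
  · have hδ : 13 / 100 * k - t ≤ δ := by
      rw [hD, not_le, Real.exp_lt_exp] at h
      linarith
    have h1 := h1' hδ
    have hc2 : (0 : ℝ) < 2 * cc := by linarith
    have e1 : Real.exp κ * Real.exp δ / (2 * cc * Real.exp y ^ 2) * Real.exp y =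
        Real.exp (κ + δ - Real.log (2 * cc) - y) := by
      rw [Real.exp_sub, Real.exp_sub, Real.exp_log hc2, Real.exp_add]
      field_simp
    rw [e1]
    simp only [← Real.exp_add, ex3, exn]
    refine Real.exp_le_exp.2 ?_
    push_cast
    linarith

/-- the line (a) from the real lines -/
theorem lineAF (H : Tf k N x ex (y + ρ) p t) (ρ0 : 0 ≤ ρ) (hκ : |κ - k| ≤ t)
    (hhp : 4 / 3 * p + 2 / 3 * x - k - 3 * ex - 10 * t ≤ hp) (hcc : 1 ≤ cc)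
    (hcct : Real.log (2 * cc) ≤ t) (hD : D₀ = Real.exp (13 / 100 * κ)) (hW : 0 ≤ W)
    (h1 : 2 / 3 * k - hH k x ex p δ / 3 + 2 / 3 * q + 2 * δ - (y + ρ) / 3 - p / 3 + F ≤
      k + p + ex + 12 * t)
    (h1' : 13 / 100 * k - t ≤ δ → 1 / 3 * k + 2 * δ - δ / 3 + (y + ρ) / 3 - p / 3 + F ≤
      k + p + ex + 12 * t)
    (h2 : 2 / 3 * k + 2 * δ - (y + ρ) / 3 - p / 3 + F + (y + ρ) - k + k / 10 ≤
      k + p + ex + 12 * t)
    (h3 : 2 * δ - (y + ρ) / 3 - p / 3 + F + (y + ρ) + k / 20 ≤ k + p + ex + 12 * t) :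
    Ph0 (Real.exp κ) (HlR (Real.exp hp) D₀ (Real.exp κ) cc (Real.exp y) (Real.exp δ) q)
      (Real.exp y) (Real.exp (κ / 20)) * (W * Real.exp F) *
      Real.exp δ ^ 2 ≤ 3 * W * Real.exp (k + 4 / 3 * p + ρ / 3 + ex + 20 * t) := by
  have ht := H.t0
  obtain ⟨k1, k2⟩ := abs_le.1 hκ
  have hA := A1F (c := 0) (δ := δ) (q := q) (F := F) H hκ hhp hcc hcct hD ρ0 (by linarith)
    (fun h => by linarith [h1' h])
  rw [Real.exp_zero, mul_one] at hA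
  have hB : Real.exp y ^ (2 / 3 : ℝ) * Real.exp (κ / 20) ^ 2 * Real.exp κ ^ (-(1 / 3) : ℝ) *
      Real.exp F * Real.exp δ ^ 2 ≤
      Real.exp (k + 4 / 3 * p + ρ / 3 + ex + 20 * t) := by
    simp only [← Real.exp_add, ex3, exn]
    refine Real.exp_le_exp.2 ?_
    push_cast
    linarith
  have hC : Real.exp y ^ (2 / 3 : ℝ) * Real.exp (κ / 20) *
      Real.exp F * Real.exp δ ^ 2 ≤
      Real.exp (k + 4 / 3 * p + ρ / 3 + ex + 20 * t) := by
    simp only [← Real.exp_add, ex3, exn]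
    refine Real.exp_le_exp.2 ?_
    push_cast
    linarith
  have e : Ph0 (Real.exp κ) (HlR (Real.exp hp) D₀ (Real.exp κ) cc (Real.exp y) (Real.exp δ) q)
      (Real.exp y) (Real.exp (κ / 20)) * (W * Real.exp F) *
      Real.exp δ ^ 2 = W * (Real.exp κ ^ (2 / 3 : ℝ) * (HlR (Real.exp hp) D₀ (Real.exp κ) cc
        (Real.exp y) (Real.exp δ) q * Real.exp y) ^ (-(1 / 3) : ℝ) *
        Real.exp F * Real.exp δ ^ 2 +
      Real.exp y ^ (2 / 3 : ℝ) * Real.exp (κ / 20) ^ 2 * Real.exp κ ^ (-(1 / 3) : ℝ) *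
        Real.exp F * Real.exp δ ^ 2 +
      Real.exp y ^ (2 / 3 : ℝ) * Real.exp (κ / 20) *
        Real.exp F * Real.exp δ ^ 2) := by
    unfold Ph0; ring
  rw [e]
  have := mul_le_mul_of_nonneg_left (add_le_add (add_le_add hA hB) hC) hW
  linarith

/-- `H² V³ ≤ K²` -/
lemma QF (ht : 0 ≤ t) (hκ : |κ - k| ≤ t) (hcc : 1 ≤ cc) (ρ0 : 0 ≤ ρ) (δ1 : 2 * δ ≤ y + t)
    (hQ : 2 * max 0 (hp - 4 / 3 * δ) + 3 * (y + ρ) ≤ 2 * k + 20 * t) :
    HuR (Real.exp hp) D₀ (Real.exp κ) cc (Real.exp y) (Real.exp δ) ^ 2 * Real.exp y ^ 3 /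
      Real.exp κ ^ 2 ≤ Real.exp (22 * t) := by
  obtain ⟨k1, k2⟩ := abs_le.1 hκ
  unfold HuR
  split_ifs with h
  · have e1 : max 1 (Real.exp hp * Real.exp δ ^ (-(4 / 3) : ℝ)) =
        Real.exp (max 0 (hp - 4 / 3 * δ)) := by
      rw [Real.exp_monotone.map_max, Real.exp_zero, ex3, ← Real.exp_add]
      congr 2; ring
    rw [e1]
    simp only [exn, ← Real.exp_add, ← Real.exp_sub]
    refine Real.exp_le_exp.2 ?_
    push_cast
    linarith
  · have hc2 : (0 : ℝ) < 2 * cc := by linarith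
    have hc3 : 0 ≤ Real.log (2 * cc) := Real.log_nonneg (by linarith)
    have e1 : Real.exp κ * Real.exp δ / (2 * cc * Real.exp y ^ 2) =
        Real.exp (κ + δ - Real.log (2 * cc) - 2 * y) := by
      rw [Real.exp_sub, Real.exp_sub, Real.exp_log hc2, Real.exp_add, exn]
      push_cast
      field_simp
    rw [e1]
    simp only [exn, ← Real.exp_add, ← Real.exp_sub]
    refine Real.exp_le_exp.2 ?_
    push_cast
    linarith

/-- the line (b) from the real lines -/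
theorem lineBF (H : Tf k N x ex (y + ρ) p t) (ρ0 : 0 ≤ ρ) (hκ : |κ - k| ≤ t)
    (hhp : 4 / 3 * p + 2 / 3 * x - k - 3 * ex - 10 * t ≤ hp) (hcc : 1 ≤ cc)
    (hcct : Real.log (2 * cc) ≤ t) (hD : D₀ = Real.exp (13 / 100 * κ)) (δ1 : 2 * δ ≤ y + t)
    (hW : 0 ≤ W) (hQ : 2 * max 0 (hp - 4 / 3 * δ) + 3 * (y + ρ) ≤ 2 * k + 20 * t)
    (h1 : 2 / 3 * k - hH k x ex p δ / 3 + 2 / 3 * q + 2 * δ + c - (y + ρ) / 3 - p / 3 + F ≤
      k + p + ex + 12 * t)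
    (h1' : 13 / 100 * k - t ≤ δ → 1 / 3 * k + 2 * δ - δ / 3 + (y + ρ) / 3 - p / 3 + c + F ≤
      k + p + ex + 12 * t) :
    Ph1 (Real.exp κ) (HlR (Real.exp hp) D₀ (Real.exp κ) cc (Real.exp y) (Real.exp δ) q)
      (HuR (Real.exp hp) D₀ (Real.exp κ) cc (Real.exp y) (Real.exp δ)) (Real.exp y) *
      (W * Real.exp F) * Real.exp δ ^ 2 * Real.exp c ≤
      3 * W * Real.exp (k + 4 / 3 * p + ρ / 3 + ex + 31 * t) := by
  have ht := H.t0
  have hA := A1F (c := c) (δ := δ) (q := q) (F := F) H hκ hhp hcc hcct hD ρ0 h1 h1'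
  have hQ' := QF (D₀ := D₀) ht hκ hcc ρ0 δ1 hQ
  set Q := HuR (Real.exp hp) D₀ (Real.exp κ) cc (Real.exp y) (Real.exp δ) ^ 2 * Real.exp y ^ 3 /
      Real.exp κ ^ 2 with hQd
  have hQ0 : 0 ≤ Q := by positivity
  have q1 : Q ^ (1 / 3 : ℝ) ≤ Real.exp (11 * t) := by
    refine (Real.rpow_le_rpow hQ0 hQ' (by norm_num)).trans ?_
    rw [ex3]
    exact Real.exp_le_exp.2 (by linarith)
  have q2 : Q ^ (1 / 2 : ℝ) ≤ Real.exp (11 * t) := by
    refine (Real.rpow_le_rpow hQ0 hQ' (by norm_num)).trans ?_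
    rw [ex3]
    exact Real.exp_le_exp.2 (by linarith)
  have q3 : (1 : ℝ) ≤ Real.exp (11 * t) := Real.one_le_exp (by linarith)
  have hs : 1 + Q ^ (1 / 3 : ℝ) + Q ^ (1 / 2 : ℝ) ≤ 3 * Real.exp (11 * t) := by linarith
  have hs0 : 0 ≤ 1 + Q ^ (1 / 3 : ℝ) + Q ^ (1 / 2 : ℝ) := by positivity
  have e : Ph1 (Real.exp κ) (HlR (Real.exp hp) D₀ (Real.exp κ) cc (Real.exp y) (Real.exp δ) q)
      (HuR (Real.exp hp) D₀ (Real.exp κ) cc (Real.exp y) (Real.exp δ)) (Real.exp y) *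
      (W * Real.exp F) * Real.exp δ ^ 2 * Real.exp c =
      (1 + Q ^ (1 / 3 : ℝ) + Q ^ (1 / 2 : ℝ)) * W * (Real.exp κ ^ (2 / 3 : ℝ) * (HlR (Real.exp hp)
        D₀ (Real.exp κ) cc (Real.exp y) (Real.exp δ) q * Real.exp y) ^ (-(1 / 3) : ℝ) *
        Real.exp F * Real.exp δ ^ 2 * Real.exp c) := by
    unfold Ph1; rw [← hQd]; ring
  rw [e]
  calc _ ≤ (1 + Q ^ (1 / 3 : ℝ) + Q ^ (1 / 2 : ℝ)) * W *
        Real.exp (k + 4 / 3 * p + ρ / 3 + ex + 20 * t) :=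
        mul_le_mul_of_nonneg_left hA (mul_nonneg hs0 hW)
    _ ≤ (3 * Real.exp (11 * t)) * W * Real.exp (k + 4 / 3 * p + ρ / 3 + ex + 20 * t) :=
        mul_le_mul_of_nonneg_right (mul_le_mul_of_nonneg_right hs hW) (Real.exp_pos _).le
    _ = 3 * W * Real.exp (k + 4 / 3 * p + ρ / 3 + ex + 31 * t) := by
        rw [show k + 4 / 3 * p + ρ / 3 + ex + 31 * t =
          11 * t + (k + 4 / 3 * p + ρ / 3 + ex + 20 * t) by ring, Real.exp_add (11 * t)]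
        ring

/-! ### the real lines of the number -/

theorem T0F (H : Tb k N x ex v p t D lo g s) (δ0 : 0 ≤ δ) (b0 : 0 ≤ b) (c0 : 0 ≤ c)
    (hq : q ≤ b + t) (hq1 : q ≤ k / 64 + x + t) (hl : l ≤ v - 2 * δ + b - 3 * c + t)
    (hF : F ≤ max (fT (k + ex) b l (p - δ - b) x) (bE l p δ b s) + t) :
    2 / 3 * k - hH k x ex p δ / 3 + 2 / 3 * q + 2 * δ + c - v / 3 - p / 3 + F ≤
      k + p + ex + 12 * t := by
  have h1 := T0g H.toTf δ0 b0 c0 hq hq1 hl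
  have h2 := T0D H δ0 b0 c0 hq hq1 hl
  have ht := H.t0
  rcases max_choice (fT (k + ex) b l (p - δ - b) x) (bE l p δ b s) with e | e <;>
    rw [e] at hF <;> linarith

theorem LSF (H : Tb k N x ex v p t D lo g s) (δ0 : 0 ≤ δ) (b0 : 0 ≤ b)
    (hl : l ≤ v - 2 * δ + b + t)
    (hF : F ≤ max (fT (k + ex) b l (p - δ - b) x) (bE l p δ b s) + t) :
    2 * δ - v / 3 - p / 3 + F + v + k / 20 ≤ k + p + ex + 12 * t := by
  have h1 := LSg H.toTf δ0 b0 hl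
  have h2 := LSD H δ0 b0 hl
  have ht := H.t0
  rcases max_choice (fT (k + ex) b l (p - δ - b) x) (bE l p δ b s) with e | e <;>
    rw [e] at hF <;> linarith

theorem LF (H : Tb k N x ex v p t D lo g s) (δ0 : 0 ≤ δ) (b0 : 0 ≤ b)
    (hl : l ≤ v - 2 * δ + b + t)
    (hF : F ≤ max (fT (k + ex) b l (p - δ - b) x) (bE l p δ b s) + t) :
    2 / 3 * k + 2 * δ - v / 3 - p / 3 + F + v - k + k / 10 ≤ k + p + ex + 12 * t := by
  have h1 := Lg H.toTf δ0 b0 hl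
  have h2 := LD H δ0 b0 hl
  have ht := H.t0
  rcases max_choice (fT (k + ex) b l (p - δ - b) x) (bE l p δ b s) with e | e <;>
    rw [e] at hF <;> linarith

theorem T0F' (H : Tb k N x ex v p t D lo g s) (δ0 : 13 / 100 * k - t ≤ δ) (δ1 : 2 * δ ≤ v + t)
    (b0 : 0 ≤ b) (c0 : 0 ≤ c) (hl : l ≤ v - 2 * δ + b - 3 * c + t)
    (hF : F ≤ max (fT (k + ex) b l (p - δ - b) x) (bE l p δ b s) + t) :
    1 / 3 * k + 2 * δ - δ / 3 + v / 3 - p / 3 + c + F ≤ k + p + ex + 12 * t := by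
  have h1 := T0g' H.toTf δ0 δ1 b0 c0 hl
  have h2 := T0D' H δ0 b0 c0 hl
  have ht := H.t0
  rcases max_choice (fT (k + ex) b l (p - δ - b) x) (bE l p δ b s) with e | e <;>
    rw [e] at hF <;> linarith

/-! ### the lines of `TPsm` -/

/-- **the line (a), class E** -/
theorem lineAE (H : Tb k N x ex v p t D lo g s) (hv : y + ρ ≤ v) (ρ0 : 0 ≤ ρ) (δ0 : 0 ≤ δ)
    (b0 : 0 ≤ b) (hq : q ≤ b + t) (hq1 : q ≤ k / 64 + x + t) (hκ : |κ - k| ≤ t)
    (hhp : 4 / 3 * p + 2 / 3 * x - k - 3 * ex - 10 * t ≤ hp) (hcc : 1 ≤ cc)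
    (hcct : Real.log (2 * cc) ≤ t) (hD : D₀ = Real.exp (13 / 100 * κ)) (δ1 : 2 * δ ≤ y + t)
    (hl : l ≤ y + ρ - 2 * δ + b + t)
    (hF : F ≤ max (fT (k + ex) b l (p - δ - b) x) (bE l p δ b s) + t) (hW : 0 ≤ W) :
    Ph0 (Real.exp κ) (HlR (Real.exp hp) D₀ (Real.exp κ) cc (Real.exp y) (Real.exp δ) q)
      (Real.exp y) (Real.exp (κ / 20)) * (W * Real.exp F) *
      Real.exp δ ^ 2 ≤ 3 * W * Real.exp (k + 4 / 3 * p + ρ / 3 + ex + 20 * t) := by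
  have H' := H.mono hv
  have a1 := T0F (c := 0) (q := q) H' δ0 b0 le_rfl hq hq1 (by linarith) hF
  refine lineAF H'.toTf ρ0 hκ hhp hcc hcct hD hW (by linarith) (fun h => ?_)
    (LF H' δ0 b0 hl hF) (LSF H' δ0 b0 hl hF)
  have a2 := T0F' (c := 0) H' h (by linarith) b0 le_rfl (by linarith) hF
  linarith

/-- **the line (b), class E** (`v` = level of the class, in the length of the rows) -/
theorem lineBE (H : Tb k N x ex v p t D lo g s) (hv : y + ρ ≤ v) (ρ0 : 0 ≤ ρ) (δ0 : 0 ≤ δ)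
    (b0 : 0 ≤ b) (c0 : 0 ≤ c) (hq : q ≤ b + t) (hq1 : q ≤ k / 64 + x + t) (hκ : |κ - k| ≤ t)
    (hhp : 4 / 3 * p + 2 / 3 * x - k - 3 * ex - 10 * t ≤ hp)
    (hhp' : hp ≤ hpE k x ex v p s + 10 * t) (hcc : 1 ≤ cc)
    (hcct : Real.log (2 * cc) ≤ t) (hD : D₀ = Real.exp (13 / 100 * κ)) (δ1 : 2 * δ ≤ y + t)
    (hl : l ≤ y + ρ - 2 * δ + b - 3 * c + t)
    (hF : F ≤ max (fT (k + ex) b l (p - δ - b) x) (bE l p δ b s) + t) (hW : 0 ≤ W) :
    Ph1 (Real.exp κ) (HlR (Real.exp hp) D₀ (Real.exp κ) cc (Real.exp y) (Real.exp δ) q)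
      (HuR (Real.exp hp) D₀ (Real.exp κ) cc (Real.exp y) (Real.exp δ)) (Real.exp y) *
      (W * Real.exp F) * Real.exp δ ^ 2 * Real.exp c ≤
      3 * W * Real.exp (k + 4 / 3 * p + ρ / 3 + ex + 31 * t) := by
  have H' := H.mono hv
  have ht := H.t0
  have hQ := thE (h := max 0 (hp - 4 / 3 * δ)) H δ0
    (max_le_max le_rfl (by linarith))
  exact lineBF H'.toTf ρ0 hκ hhp hcc hcct hD δ1 hW (by linarith)
    (T0F H' δ0 b0 c0 hq hq1 hl hF)
    (fun h => T0F' H' h (by linarith) b0 c0 hl hF)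

end Crest.Agent.R017.TLE702
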