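import Crest.Agent.R017.P1TY_957

/-!
# Row 17, exceptional class, mismatch: the frame of the T-lines in logarithms (helper957)

* `v_ofE` : the level `y + ρ` from `I5_lev` and `Fr9X.w1`
* **`tvE`** : the four windows of the level; `pE` : the length of the child
-/

set_option autoImplicit false
set_option linter.unusedVariables false

noncomputable section

namespace Crest.Agent.R017.TL957

/-- the level of the class in the window `nW` (`h` = `XMf54.I5_lev`, `hn` = `Fr9X.w1`) -/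
theorem v_ofE {i n y : ℕ} {ζ ρ tW G : ℝ}
    (h : Real.log 2 * i ≤ Real.log 2 * n + 2 * ζ - G + 3 * Real.log 2)
    (hn : Real.log 2 * n ≤ max 0 tW + Real.log 2)
    (hy : Real.exp y ≤ Real.exp 1 * (Real.exp (Real.log 2 * (i + 1)) / Real.exp ρ)) :
    (y : ℝ) + ρ ≤ max 0 tW + 2 * ζ - G + 5 := v_ofg h hn hy

/-- the level of the class itself -/
theorem i_ofE {i n : ℕ} {ζ tW G : ℝ}
    (h : Real.log 2 * i ≤ Real.log 2 * n + 2 * ζ - G + 3 * Real.log 2)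
    (hn : Real.log 2 * n ≤ max 0 tW + Real.log 2) :
    Real.log 2 * (i + 1) ≤ max 0 tW + 2 * ζ - G + 5 := by
  have h3 := Real.log_two_lt_d9
  linarith

/-- **the windows of the level** (`lo` = lost, `G = log N g`, `2 c κ L = D / 2`) -/
theorem tvE {L κ₀ N₀ x₀ τ l z A ζ G v t c₅ lo c : ℝ} (hL : 0 < L) (hτ : 0 ≤ τ)
    (k0 : 8 / 9 ≤ κ₀) (n0 : 3 / 4 * κ₀ ≤ N₀) (x0 : 0 ≤ x₀) (c0 : 0 ≤ c) (c1 : c ≤ 1)
    (hl : |l - κ₀ * L| ≤ τ * L) (hz : |z - x₀ * L| ≤ τ * L) (hA : |A - N₀ * L| ≤ τ * L)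
    (hζ : |ζ - x₀ * L| ≤ τ * L)
    (hb1 : 2 * lo ≤ (min (2 * N₀ - κ₀) (3 / 4 * N₀) + 11 / 5 * x₀ + 2 * c * κ₀) * L + τ * L)
    (hv : v ≤ max 0 (min (min (2 * A - l) (3 / 4 * A) + 11 / 5 * z)
      (min (2 * A - l) (3 / 4 * A) + 11 / 5 * z + 2 * (c * l) - 2 * lo)) + 2 * ζ - G + c₅)
    (ht : 12 * (τ * L) + c₅ ≤ t) :
    (v ≤ 2 * (N₀ * L) - κ₀ * L + 21 / 5 * (x₀ * L) - G + t ∧
      v ≤ 3 / 4 * (N₀ * L) + 21 / 5 * (x₀ * L) - G + t) ∧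
    (v ≤ 2 * (N₀ * L) - κ₀ * L + 21 / 5 * (x₀ * L) - G - 2 * lo + 2 * c * (κ₀ * L) + t ∧
      v ≤ 3 / 4 * (N₀ * L) + 21 / 5 * (x₀ * L) - G - 2 * lo + 2 * c * (κ₀ * L) + t) := by
  obtain ⟨l1, l2⟩ := abs_le.1 hl
  obtain ⟨z1, z2⟩ := abs_le.1 hz
  obtain ⟨A1, A2⟩ := abs_le.1 hA
  obtain ⟨ζ1, ζ2⟩ := abs_le.1 hζ
  have hτL : 0 ≤ τ * L := mul_nonneg hτ hL.le
  have hk : 0 < κ₀ * L := by positivity
  have hN0 : 3 / 4 * (κ₀ * L) ≤ N₀ * L := by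
    have := mul_le_mul_of_nonneg_right n0 hL.le; linarith
  have hx0 : 0 ≤ x₀ * L := mul_nonneg x0 hL.le
  have m1 : min (2 * A - l) (3 / 4 * A) ≤ 2 * A - l := min_le_left _ _
  have m2 : min (2 * A - l) (3 / 4 * A) ≤ 3 / 4 * A := min_le_right _ _
  have hcl : c * l ≤ c * (κ₀ * L) + τ * L := by
    have h1 : c * l ≤ c * (κ₀ * L + τ * L) := mul_le_mul_of_nonneg_left (by linarith) c0
    have h2 : c * (τ * L) ≤ 1 * (τ * L) := mul_le_mul_of_nonneg_right c1 hτL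
    linarith
  have hb2 : 2 * lo ≤ 2 * (N₀ * L) - κ₀ * L + 11 / 5 * (x₀ * L) + 2 * c * (κ₀ * L) + τ * L := by
    have := mul_le_mul_of_nonneg_right (min_le_left (2 * N₀ - κ₀) (3 / 4 * N₀)) hL.le
    linarith
  have hb3 : 2 * lo ≤ 3 / 4 * (N₀ * L) + 11 / 5 * (x₀ * L) + 2 * c * (κ₀ * L) + τ * L := by
    have := mul_le_mul_of_nonneg_right (min_le_right (2 * N₀ - κ₀) (3 / 4 * N₀)) hL.le
    linarith
  set tO := min (2 * A - l) (3 / 4 * A) + 11 / 5 * z with htO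
  have i1 := min_le_left tO (tO + 2 * (c * l) - 2 * lo)
  have i2 := min_le_right tO (tO + 2 * (c * l) - 2 * lo)
  rcases max_choice 0 (min tO (tO + 2 * (c * l) - 2 * lo)) with g | g <;> rw [g] at hv
  · refine ⟨⟨?_, ?_⟩, ?_, ?_⟩ <;> linarith
  · refine ⟨⟨?_, ?_⟩, ?_, ?_⟩ <;> linarith

/-- the length of the child : `P = Z + Q`, `Z` = the three lumps, `Q` = the amplifier part -/
theorem pE {L N₀ x₀ τ A Q Z G lo t : ℝ} (hA : |A - N₀ * L| ≤ τ * L)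
    (hb : |lo - (A - Z)| ≤ τ * L) (hQ : Q ≤ x₀ * L + τ * L) (hg : G ≤ Q + τ * L)
    (ht : 12 * (τ * L) ≤ t) (hτL : 0 ≤ τ * L) :
    Z + Q - 2 * G ≤ N₀ * L + x₀ * L - lo - 2 * G + t ∧
      Z + Q - 2 * G ≤ N₀ * L + Q - lo - 2 * G + t ∧ G ≤ x₀ * L + t := by
  obtain ⟨A1, A2⟩ := abs_le.1 hA
  obtain ⟨b1, b2⟩ := abs_le.1 hb
  refine ⟨?_, ?_, ?_⟩ <;> linarith

end Crest.Agent.R017.TL957
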