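import Crest.Agent.R017.LTe_408
import Crest.Agent.R017.XMf_54
import Crest.Agent.R017.CR9_72
import Crest.Agent.R017.HmX_813
import Crest.Agent.R017.M1E_702
import Crest.Agent.R017.P1TE_957
import Crest.Agent.R017.LTb_404
import Crest.Agent.R017.RnPa_571

/-!
# Row 17, exceptional class (helper957): the `T`-half of the lines of the mismatch

* **`ltG_of`** : `LTG` from `CoreG` at the family `K5`, level bound `T5`, row length `HmE (sf a)`
-/

set_option autoImplicit false

noncomputable section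

open Finset Filter
open scoped Classical ComplexConjugate

namespace Crest.Agent.R017.LT9957

open Crest.Agent.R012 Crest.Agent.R012.Eis Crest.Agent.R012.Div277
open Crest.Agent.R012.LS2 (S mem_S)
open Crest.Agent.R017.CM106 (FS)
open Crest.Agent.R017.FE47 (PU cx SM)
open Crest.Agent.R017.StB828 (one_le_nmR)
open Crest.Agent.R017.StD828 (ln)
open Crest.Agent.R017.DgA829 (lc lc_prim lc_dvd)
open Crest.Agent.R017.StG828 (JB mem_JB PSu)
open Crest.Agent.R017.StJ319 (afrb gt5 q5 I5)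
open Crest.Agent.R017.P1e54 Crest.Agent.R017.P1f54 Crest.Agent.R017.P1k54
open Crest.Agent.R017.P1l54 (ParOK oN)
open Crest.Agent.R017.Sf770 (nO)
open Crest.Agent.R017.P1u54
open Crest.Agent.R017.P1v54 (ηC supp_list)
open Crest.Agent.R017.B770 Crest.Agent.R017.Prov71
open Crest.Agent.R017.E5B71 Crest.Agent.R017.E5L770
open Crest.Agent.R017.ExBox960 Crest.Agent.R017.ExP960
open Crest.Agent.R017.P1X960
open Crest.Agent.R017.TM708 (K5 eH eF tAll)
open Crest.Agent.R017.I1146 (LN)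
open Crest.Agent.R017.P1MU960
open Crest.Agent.R017.Mm828 (Vb Hm Hm_pos)
open Crest.Agent.R017.P1yX72 (Hyp9 CoreG LTG VM XM EM lM BdM nD Fr9X.mono')
open Crest.Agent.R017.P1XM176 (NVx)
open Crest.Agent.R017.HmX813 (PX sX HpE D0X HmE HmD HmS)
open Crest.Agent.R017.GrG404 (y5 Ae)
open Crest.Agent.R017.GrK404 (CoreB SWin)
open Crest.Agent.R017.GrT828 (cc)
open Crest.Agent.R017.XMf54 (I5_lev)
open Crest.Agent.R017.E3Kc548 (LI mem_LI)
open Crest.Agent.R017.E3Z548 (FH LVn)
open Crest.Agent.R017.E3N146 (cLS cTT)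
open Crest.Agent.R017.LT404 (DsM HlR_pos0 nm_ratio delta_le gp_cop cc_cop)
open Crest.Agent.R017.LTX408 (ltx_red)
open Crest.Agent.R017.TL957 (Tf HlR HuR Ph0 Ph1 Ph0_nonneg Ph1_nonneg fT fT_anti hm_bd dom0 dom1
  hrR hxR nv_le kV_le topR2 lastR tvE)
open Crest.Agent.R017.TLE702 (Tb bE hpE lineAE lineBE)

/-- the bias decreases with the removed part -/
lemma bE_anti {l p δ b b' s : ℝ} (h : b ≤ b') : bE (l + b') p δ b' s ≤ bE (l + b) p δ b s := by
  unfold bE
  have h1 : max 0 (s - δ - b) ≤ max 0 (s - δ - b') + (b' - b) :=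
    max_le (by linarith [le_max_left 0 (s - δ - b')]) (by linarith [le_max_right 0 (s - δ - b')])
  linarith

/-- the number of a block -/
def FB (K5' x P δ s r : ℝ) (b k : ℝ) : ℝ :=
  max (fT K5' b (k + r + b) (P - δ - b) x) (bE (k + r + b) P δ b s)

lemma FB_anti {K5' x P δ s r b b' k : ℝ} (h : b ≤ b') :
    FB K5' x P δ s r b' k ≤ FB K5' x P δ s r b k :=
  max_le_max (fT_anti h) (bE_anti h)

variable {Λ : Type*} {π : Λ → DPar} {h : ℝ → ℝ}

set_option maxHeartbeats 4000000 in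
/-- **the `T`-half of the lines of the mismatch, exceptional class** -/
theorem ltG_of {c β d dA : ℝ} (hP : ∀ lam, (π lam).OK) {Rh : ℝ} (hRh0 : 0 ≤ Rh)
    (hRh : ∀ u, cx h u ≠ 0 → |u| ≤ Rh)
    {ok : Λ × Eis → BmX → List Pq → Prop} {α : Λ × Eis → BmX → Eis → ℂ}
    {Fx : (IX5 → ℝ) → ℝ → ℝ → ℝ → ℝ → ℕ → BmX → List Pq → Prop}
    {Par : Set (Fin 3 ⊕ Fin 5 → ℝ)} {L0 : (Fin 3 ⊕ Fin 5 → ℝ) → ℝ} {S0 sf : BmX → ℝ}
    (hd : 0 ≤ d) (hc0 : 0 ≤ c) (hc1 : c ≤ 1) (hcd : 4 * c ≤ d)
    (hsq : ∀ p ∈ Par, 3 / 4 * cκ p ≤ cN p ∧ cN p ≤ 84 / 103 * cκ p ∧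
      (cx' p = 0 ∨ (cx' p ≤ 1 / 36 * cκ p ∧ cx' p + 7 / 10 * cN p ≤ 199 / 360 * cκ p ∧
        cN p + cx' p ≤ 15 / 19 * cκ p)))
    (hDh : ∀ p ∈ Par, RnP571.Dh (cκ p) (cu p 2) (cu p 3) (cu p 4) (cx' p) (d * cκ p))
    (hPS : ∀ lam a, PSu (α lam a))
    (hwin : ∀ lam a n, α lam a n ≠ 0 → |Real.log (nm n) - lM a| ≤ 3 * Rh)
    (hlen : ∀ (p : IX5 → ℝ) (X τ B H : ℝ) (N : ℕ) (a : BmX) (qs : List Pq),
      Fx p X τ B H N a qs → qs.length ≤ N)
    (hmono : ∀ (p : IX5 → ℝ) (X τ τ' B H : ℝ) (N : ℕ) (a : BmX) (qs : List Pq),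
      0 ≤ Real.log X → τ ≤ τ' → Fx p X τ B H N a qs → Fx p X τ' B H N a qs)
    (hs : ∀ (lam : Λ × Eis) (p : IX5 → ℝ) (X τ B H : ℝ) (N : ℕ) (a : BmX) (qs : List Pq)
      (c5 : Fin 5) (i : ℕ) (b : Eis), prX p ∈ Par → 0 ≤ τ * Real.log X →
      Hyp9 π h c ok Fx β lam p X τ B H N a qs c5 i b →
      (sf a ≤ 0 ∨ sf a ≤ S0 a - Real.log (nm a.2.1) + 5 * (τ * Real.log X)) ∧
      17 / 100 * (cκ (prX p) * Real.log X) - a.1.2.2 - Real.log (nm a.2.1) -
        5 * (τ * Real.log X) ≤ sf a)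
    (hL0 : ∀ p ∈ Par, max 0 (5 / 4 * cN p - cκ p) + 3 / 4 * d * cκ p ≤ L0 p)
    (HC : CoreG π h (1 / 64) c ok α Fx β Par K5 TM708.T5 (fun b => 3 / 4 * d * b 0) dA S0) :
    LTG π h (1 / 64) c ok α Fx β Par L0 (fun cL a qs i b => HmE (sf a) cL a qs i b) := by
  intro ε hε
  obtain ⟨τ₁, hτ₁, HC⟩ := HC (ε / 4) (by positivity)
  obtain ⟨τ, hτ, hττ, hτε, hτ1⟩ : ∃ τ : ℝ, 0 < τ ∧ 200 * τ ≤ τ₁ ∧ 4000 * τ ≤ ε ∧
      1000000 * τ ≤ 1 := by
    refine ⟨min (τ₁ / 200) (min (ε / 4000) (1 / 1000000)), by positivity, ?_, ?_, ?_⟩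
    · linarith [min_le_left (τ₁ / 200) (min (ε / 4000) (1 / 1000000))]
    · linarith [(min_le_right (τ₁ / 200) (min (ε / 4000) (1 / 1000000))).trans (min_le_left _ _)]
    · linarith [(min_le_right (τ₁ / 200) (min (ε / 4000) (1 / 1000000))).trans (min_le_right _ _)]
  refine ⟨τ, hτ, ?_⟩
  intro lam N B hB cV hcV
  obtain ⟨J, M, r, hr, X₁, hX₁, HC⟩ := HC lam N B hB 30 (by norm_num)
  obtain ⟨C, hC, HX⟩ := ltx_red (R' := 2 * ((N : ℝ) * Rh + 3 * Rh)) (by positivity)
    (J := (J : ℝ)) (Nat.cast_nonneg _) (B₀ := 6) (by norm_num) (ε := ε / 4) (by positivity)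
  refine ⟨J, M, ?_⟩
  have hlc : 0 ≤ Real.log (2 * cV) := Real.log_nonneg (by linarith)
  have hlc1 : 0 ≤ Real.log cV := Real.log_nonneg hcV
  have hlc2 : Real.log cV ≤ Real.log (2 * cV) := Real.log_le_log (by linarith) (by linarith)
  set c₁ : ℝ := 3 * r + 20 + Real.log (2 * cV) with hc₁
  have hC3 : 0 ≤ Real.log (3 * C) := Real.log_nonneg (by linarith)
  refine ⟨max X₁ (Real.exp (max (c₁ / τ) (8 / ε * (170 + Real.log (3 * C))))),
    lt_of_lt_of_le hX₁ (le_max_left _ _), ?_⟩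
  intro X hX H hH p hp a qs c5 i b s hy
  have F := hy.fr
  have hXX1 : X₁ ≤ X := (le_max_left _ _).trans hX
  have hXe : Real.exp (max (c₁ / τ) (8 / ε * (170 + Real.log (3 * C)))) ≤ X :=
    (le_max_right _ _).trans hX
  have hX3 := F.X3
  have hX0 : 0 < X := by linarith
  have hX1 : 1 ≤ X := by linarith
  set L := Real.log X with hLdef
  have hL : 0 < L := F.L
  have hLL : max (c₁ / τ) (8 / ε * (170 + Real.log (3 * C))) ≤ L :=
    (Real.le_log_iff_exp_le hX0).2 hXe
  have hcL : c₁ ≤ τ * L := by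
    have h1 := (le_max_left _ _).trans hLL
    rw [div_le_iff₀ hτ] at h1
    linarith
  have hCL : 170 + Real.log (3 * C) ≤ ε / 8 * L := by
    have h1 := (le_max_right _ _).trans hLL
    have e : 8 / ε * (170 + Real.log (3 * C)) = (170 + Real.log (3 * C)) / (ε / 8) := by
      field_simp
    rw [e, div_le_iff₀ (by positivity)] at h1
    linarith
  have hrp : ∀ y : ℝ, X ^ y = Real.exp (y * L) := fun y => by
    rw [Real.rpow_def_of_pos hX0, mul_comm]
  have hl2 : Real.log 2 ≤ 7 / 10 := by linarith [Real.log_two_lt_d9]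
  have hl20 : 0 < Real.log 2 := Real.log_pos (by norm_num)
  have hτL : 0 < τ * L := mul_pos hτ hL
  have hτL1 : 1000000 * (τ * L) ≤ L := by nlinarith
  have hττL : 200 * (τ * L) ≤ τ₁ * L := by
    have := mul_le_mul_of_nonneg_right hττ hL.le
    linarith
  have hr3 : 3 * r + Real.log (2 * cV) + 20 ≤ τ * L := by
    refine le_trans ?_ hcL
    rw [hc₁]
    linarith
  -- the objects
  obtain ⟨-, hfx, hok, hgp, hgs, hζ0, hηsup, hgS, hi, hb⟩ := id hy
  have hbp : IsPrim b := isPrim_of_mem_dvs hb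
  have hbg : b ∣ a.2.1 := dvd_of_mem_dvs hb
  have eg : b * (a.2.1 / b) = a.2.1 := EuclideanDomain.mul_div_cancel' hbp.ne_zero hbg
  have hcg : IsPrim (a.2.1 / b) := by
    have e2 : IsPrim (b * (a.2.1 / b)) := by rw [eg]; exact hgp
    exact e2.of_mul_left hbp
  have g1 := one_le_nmR hgp
  have b1 := one_le_nmR hbp
  have cg1 := one_le_nmR hcg
  have g0 : (0 : ℝ) < nm a.2.1 := by linarith
  have b0 : (0 : ℝ) < nm b := by linarith
  have cg0 : (0 : ℝ) < nm (a.2.1 / b) := by linarith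
  set γ := Real.log (nm a.2.1) with hγ
  set βb := Real.log (nm b) with hβ
  have hγcg : Real.log (nm (a.2.1 / b)) = γ - βb := by
    have e3 : (nm a.2.1 : ℝ) = nm b * nm (a.2.1 / b) := by
      rw [← Nat.cast_mul, ← nm_mul, eg]
    rw [hγ, e3, Real.log_mul b0.ne' cg0.ne']
    ring
  have hβ0 : 0 ≤ βb := Real.log_nonneg b1
  have hcg' : 0 ≤ Real.log (nm (a.2.1 / b)) := Real.log_nonneg cg1
  have hρ0 : 0 ≤ γ - βb := by rw [← hγcg]; exact hcg'
  set q := prX p with hq
  set k := cκ q * L with hk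
  set Nn := cN q * L with hNn
  set x := cx' q * L with hx
  set exx := max 0 (5 / 4 * (cN q * L) - cκ q * L) with hexx
  set P := LN (clM a qs) - 2 * γ with hPdef
  set V := VM a i b with hVdef
  have hVe : V = Real.exp (Real.log 2 * (i + 1)) / nm (a.2.1 / b) := rfl
  have hV0 : 0 < V := by rw [hVe]; exact div_pos (Real.exp_pos _) cg0
  have hlV : Real.log V = Real.log 2 * ((i : ℝ) + 1) - (γ - βb) := by
    rw [hVe, Real.log_div (Real.exp_pos _).ne' cg0.ne', Real.log_exp, hγcg]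
  set t := 12 * (τ * L) + 5 with htdef
  obtain ⟨l1, l2⟩ := abs_le.1 F.l
  obtain ⟨ζ1, ζ2⟩ := abs_le.1 F.ζ
  have hκ0 := F.par.κ0
  have hκ1 := F.par.κ1
  have hk8 : 8 / 9 * L ≤ k := mul_le_mul_of_nonneg_right hκ0 hL.le
  have hk1 : k ≤ L := by
    have := mul_le_mul_of_nonneg_right hκ1 hL.le
    linarith
  obtain ⟨sn0, sn1, shx⟩ := hsq q hp
  have hDq := hDh q hp
  have sx0 := hDq.x0
  have hcN : cN q = cu q 2 + cu q 3 + cu q 4 := rfl
  have hqs0 := F.qs0
  have hqs1 := F.qs1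
  have hg1 := F.g1
  set lo' := a.1.2.2 with hlodef
  set vv := 1 + Real.log 2 * ((i : ℝ) + 1) with hvv
  -- the level
  have hvi : vv ≤ max 0 (min (Sf770.tO a.1.1.toBd) (Sf770.tO a.1.1.toBd +
      2 * (c * a.1.1.l) - 2 * lo')) + 2 * a.2.2 - γ + 5 := by
    obtain ⟨L1, -, -⟩ := I5_lev hi
    rw [Real.log_exp] at L1
    have hn1 := F.w1
    rw [hvv]
    linarith
  have htv := tvE (L := L) (κ₀ := cκ q) (N₀ := cN q) (x₀ := cx' q) (τ := τ) (l := a.1.1.l)
    (z := a.1.1.z) (A := a3 a.1.1.toBd) (ζ := a.2.2) (G := γ) (v := vv) (t := t) (c₅ := 5)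
    (lo := lo') (c := c) hL hτ.le hκ0 sn0 sx0 hc0 hc1 F.l F.z F.A F.ζ F.b1 hvi le_rfl
  obtain ⟨htv1, htv3⟩ := htv
  have hDL : 2 * c * k ≤ d * k / 2 := by
    have hk0 : 0 ≤ k := by positivity
    nlinarith
  have hx0L : 0 ≤ x := mul_nonneg sx0 hL.le
  have hNL0 : 3 / 4 * k ≤ Nn := by
    have := mul_le_mul_of_nonneg_right sn0 hL.le
    rw [hk, hNn]; linarith
  have hγx : γ ≤ x + t := by rw [htdef]; linarith
  have hs' := hs lam p X τ B H N a qs c5 i b hp hτL.le hy
  rw [← hLdef, ← hγ, ← hlodef, ← hk] at hs'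
  obtain ⟨hs1, hs2⟩ := hs'
  obtain ⟨bb1, bb2⟩ := abs_le.1 F.b
  obtain ⟨A1, A2⟩ := abs_le.1 F.A
  have hcl := F.cl
  -- the frame
  have hTb : Tb k Nn x exx vv P t (d * k) lo' γ (sf a) := by
    refine ⟨by positivity, hx0L, ?_, ?_, by positivity, ?_, le_max_left _ _, le_max_right _ _,
      htv1.1, htv1.2, Or.inl ⟨by linarith [htv3.1], by linarith [htv3.2]⟩, ?_, ?_, F.g0, hγx,
      F.b0, ?_, by rw [htdef]; linarith, ?_⟩
    · have := mul_le_mul_of_nonneg_right sn1 hL.le
      rw [hNn, hk]; linarith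
    · rcases hDq.adm with ⟨e1, e2⟩ | ⟨e1, e2, e3⟩
      · left
        refine ⟨?_, ?_⟩
        · have := mul_le_mul_of_nonneg_right e1 hL.le
          rw [hx, hk]; linarith
        · rcases e2 with e2 | e2
          · left; rw [hx, e2, zero_mul]
          · right
            have := mul_le_mul_of_nonneg_right e2 hL.le
            rw [hx, hk, hNn, hcN]; linarith
      · right
        have f1 := mul_le_mul_of_nonneg_right e1 hL.le
        have f2 := mul_le_mul_of_nonneg_right e2 hL.le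
        have f3 := mul_le_mul_of_nonneg_right e3 hL.le
        refine ⟨?_, ?_, ?_⟩
        · rw [hk, hNn, hcN]; linarith
        · rw [hx, hk]; linarith
        · rw [hx, hk, hNn, hcN]; linarith
    · have := mul_le_mul_of_nonneg_right hDq.d1 hL.le
      rw [hk]; linarith
    · have := F.lo
      rw [hPdef, hk, hx]; linarith
    · rw [hPdef, htdef]; linarith
    · rw [htdef]; linarith
    · rw [htdef]; linarith
  have hTf : ∀ y : ℝ, y ≤ 1 + Real.log V → Tf k Nn x exx (y + (γ - βb)) P t := by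
    intro y hy'
    exact (hTb.mono (v' := y + (γ - βb)) (by rw [hvv]; linarith)).toTf
  have hxx := hxR (L := L) hL sn0 shx
  have hLIy : ∀ y : ℕ, y ∈ LI (1 / 10) V → (y : ℝ) ≤ 1 + Real.log V := by
    intro y hy'
    have h1 := (mem_LI hy').2.2
    have h2 := Real.log_le_log (Real.exp_pos _) h1
    rw [Real.log_exp, Real.log_mul (Real.exp_ne_zero _) hV0.ne', Real.log_exp] at h2
    exact h2
  have hx36 : x ≤ 1 / 36 * k ∧ 0 ≤ x := by
    refine ⟨?_, hx0L⟩
    rcases shx with h1 | ⟨h1, h2, h3⟩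
    · rw [hx, h1, zero_mul]
      positivity
    · have := mul_le_mul_of_nonneg_right h1 hL.le
      rw [hx, hk]; linarith
  have hlogV : Real.log V ≤ 2 * L := by
    have h1 := hTf (1 + Real.log V) le_rfl
    have h2 := h1.v2
    have h3 := h1.N1
    linarith [hx36.1]
  have hX6 : X ^ (6 : ℝ) = Real.exp (6 * L) := hrp 6
  have hexp6 : ∀ y : ℝ, y ≤ 6 * L → Real.exp y ≤ X ^ (6 : ℝ) := fun y hy => by
    rw [hX6]; exact Real.exp_le_exp.2 hy
  have hle6 : ∀ y : ℝ, 0 < y → Real.log y ≤ 6 * L → y ≤ X ^ (6 : ℝ) := fun y hy hy2 => by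
    rw [← Real.exp_log hy]; exact hexp6 _ hy2
  have hγL : γ ≤ L / 10 := by linarith [hx36.1]
  have hβγ : βb ≤ γ := by linarith
  have hdb : ∀ d', IsPrim d' → (nm d' : ℝ) ^ 2 ≤ V → 0 ≤ Real.log (nm d') ∧
      2 * Real.log (nm d') ≤ Real.log V := by
    intro d' h1 h2
    have h3 := one_le_nmR h1
    refine ⟨Real.log_nonneg h3, ?_⟩
    have h4 := Real.log_le_log (by positivity) h2
    rw [Real.log_pow] at h4
    push_cast at h4
    exact h4
  have hJB : ∀ d' ∈ (JB (Real.sqrt V)).image Prod.fst, IsPrim d' ∧ (nm d' : ℝ) ^ 2 ≤ V := by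
    intro d' hd'
    obtain ⟨y, hy, rfl⟩ := mem_image.1 hd'
    obtain ⟨y1, y2, y3, y4⟩ := (mem_JB (Real.sqrt_nonneg _)).1 hy
    rw [Real.sq_sqrt hV0.le] at y4
    refine ⟨y1, le_trans ?_ y4⟩
    have h6 : (1 : ℝ) ≤ nm y.2 := by
      have := nm_pos.2 (StA828.JC_ne_zero y3)
      exact_mod_cast this
    unfold ln
    rw [nm_mul, nm_pow]
    push_cast
    nlinarith [sq_nonneg (nm y.1 : ℝ)]
  have hDs : ∀ d' ∈ DsM a.2.1 V, IsPrim d' ∧ 0 ≤ Real.log (nm d') ∧
      2 * Real.log (nm d') ≤ Real.log V ∧ (0 : ℝ) < nm d' := by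
    intro d' hd'
    obtain ⟨h1, h2⟩ := hJB d' (mem_filter.1 hd').1
    obtain ⟨h3, h4⟩ := hdb d' h1 h2
    exact ⟨h1, h3, h4, by linarith [one_le_nmR h1]⟩
  set lo := 3 / 4 * d * k with hlo
  have hdk0 : 0 ≤ lo := by rw [hlo]; positivity
  set W := H ^ M * X ^ (ε / 4) * (1 + |s|) ^ J * Real.exp (lo + 3 * t) with hW
  have hH0 : 0 < H := by linarith
  have hs0 : 0 < 1 + |s| := by positivity
  have hW0 : 0 < W := by rw [hW]; positivity
  set hp' := Real.log (HpE (sf a) a qs i) with hhp'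
  have hHp : HpE (sf a) a qs i = Real.exp hp' := (Real.exp_log (Real.exp_pos _)).symm
  have hhpe : hp' = max (4 / 3 * P + 2 / 3 * a.2.2) (P + Real.log 2 * (i + 1) -
      max 0 (max (5 / 3 * sf a) (3 * sf a - 52 / 300 * a.1.1.l))) - a.1.1.l -
      3 * max 0 (5 / 4 * a3 a.1.1.toBd - a.1.1.l) := by
    rw [hhp']
    unfold HpE
    rw [Real.log_exp]
    rfl
  have hhr := hrR (P := LN (clM a qs)) (G := γ) hτL.le F.l F.A F.ζ (t := t) le_rfl
  have hhp1 : 4 / 3 * P + 2 / 3 * x - k - 3 * exx - 10 * t ≤ hp' := by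
    rw [hhpe]
    have h1 := le_max_left (4 / 3 * P + 2 / 3 * a.2.2) (P + Real.log 2 * (i + 1) -
      max 0 (max (5 / 3 * sf a) (3 * sf a - 52 / 300 * a.1.1.l)))
    have h2 := hhr.1
    linarith
  have hhp2 : hp' ≤ hpE k x exx vv P (sf a) + 10 * t := by
    rw [hhpe]
    unfold hpE
    have m1 : max (5 / 3 * sf a) (3 * sf a - 52 / 300 * k) ≤
        max (5 / 3 * sf a) (3 * sf a - 52 / 300 * a.1.1.l) + τ * L :=
      max_le (by linarith [le_max_left (5 / 3 * sf a) (3 * sf a - 52 / 300 * a.1.1.l)])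
        (by linarith [le_max_right (5 / 3 * sf a) (3 * sf a - 52 / 300 * a.1.1.l)])
    have m2 : max 0 (max (5 / 3 * sf a) (3 * sf a - 52 / 300 * k)) ≤
        max 0 (max (5 / 3 * sf a) (3 * sf a - 52 / 300 * a.1.1.l)) + τ * L := by
      refine max_le ?_ ?_
      · linarith [le_max_left 0 (max (5 / 3 * sf a) (3 * sf a - 52 / 300 * a.1.1.l))]
      · linarith [le_max_right 0 (max (5 / 3 * sf a) (3 * sf a - 52 / 300 * a.1.1.l))]
    have m3 : max (4 / 3 * P + 2 / 3 * a.2.2) (P + Real.log 2 * (i + 1) -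
        max 0 (max (5 / 3 * sf a) (3 * sf a - 52 / 300 * a.1.1.l))) ≤
        max (4 / 3 * P + 2 / 3 * x) (P + vv -
          max 0 (max (5 / 3 * sf a) (3 * sf a - 52 / 300 * k))) + τ * L := by
      have n1 := le_max_left (4 / 3 * P + 2 / 3 * x) (P + vv -
          max 0 (max (5 / 3 * sf a) (3 * sf a - 52 / 300 * k)))
      have n2 := le_max_right (4 / 3 * P + 2 / 3 * x) (P + vv -
          max 0 (max (5 / 3 * sf a) (3 * sf a - 52 / 300 * k)))
      refine max_le (by linarith) ?_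
      rw [hvv] at n2 ⊢
      linarith
    have m4 : exx ≤ max 0 (5 / 4 * a3 a.1.1.toBd - a.1.1.l) + 9 / 4 * (τ * L) := by
      rw [hexx]
      refine max_le ?_ ?_
      · linarith [le_max_left 0 (5 / 4 * a3 a.1.1.toBd - a.1.1.l)]
      · linarith [le_max_right 0 (5 / 4 * a3 a.1.1.toBd - a.1.1.l)]
    rw [htdef]
    linarith
  set bs : ℕ := ⌊max 0 (1 / 64 * a.1.1.l + a.2.2)⌋₊ with hbs
  have hlE : Real.log (EM (1 / 64) a) = 1 / 64 * a.1.1.l + a.2.2 := by
    unfold EM
    rw [← Real.exp_add, Real.log_exp]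
  have hbs1 : (bs : ℝ) ≤ k / 64 + x + 2 * (τ * L) := by
    refine (Nat.floor_le (le_max_left _ _)).trans (max_le ?_ ?_)
    · have := hx36.2
      positivity
    · linarith
  have hbs2 : Real.log (EM (1 / 64) a) ≤ bs + 1 := by
    rw [hlE]
    exact (le_max_right _ _).trans (Nat.lt_floor_add_one _).le
  have hD0 : D0X a = Real.exp (13 / 100 * a.1.1.l) := rfl
  have hD00 : 0 < D0X a := by rw [hD0]; exact Real.exp_pos _
  have hcV0 : 0 < cV := by linarith
  have hmpos : 0 < 3 * W * Real.exp (k + 4 / 3 * P + (γ - βb) / 3 + exx + 31 * t) := by positivity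
  have ht0' : 0 ≤ t := by rw [htdef]; linarith
  have eγ : Real.exp γ = nm a.2.1 := Real.exp_log g0
  have eβ : Real.exp βb = nm b := Real.exp_log b0
  have hLNs : LN qs + lM a = P + 2 * γ := by
    have e1 : lM a = (a.1.2.1 0).z + (a.1.2.1 1).z + (a.1.2.1 2).z := rfl
    rw [e1, hPdef, F.cl]; ring
  have hXMpos : 0 < XM a qs b := by
    unfold XM; positivity
  have hDXw : ∀ d' ∈ DsM a.2.1 V, (nm d' : ℝ) ≤ XM a qs b := by
    intro d' hd'
    obtain ⟨d1, d2, d3, d4⟩ := hDs d' hd'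
    have h1 := delta_le (hTf (1 + Real.log V) le_rfl) (δ := Real.log (nm d')) (ρ := γ - βb)
      (by linarith) hρ0
    have e : XM a qs b = Real.exp (P + (γ - βb)) := by
      unfold XM
      rw [hLNs, show P + 2 * γ = (P + (γ - βb)) + (γ + βb) by ring, Real.exp_add _ (γ + βb),
        Real.exp_add γ βb, eγ, eβ, mul_div_assoc, div_self (by positivity), mul_one]
    rw [e, ← Real.exp_log d4]
    exact Real.exp_le_exp.2 h1
  have hlogy : ∀ (y : ℝ) (d' : Eis), (0 : ℝ) < nm d' →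
      Real.log (cV * Real.exp y / (nm d' : ℝ) ^ 2) + Real.log (nm (a.2.1 / b)) =
        Real.log cV + y - 2 * Real.log (nm d') + (γ - βb) := by
    intro y d' h1
    rw [hγcg, Real.log_div (by positivity) (by positivity), Real.log_mul hcV0.ne'
      (Real.exp_ne_zero _), Real.log_exp, Real.log_pow]
    push_cast
    ring
  have hδy : ∀ (y : ℝ) (d' : Eis), (0 : ℝ) < nm d' → (nm d' : ℝ) ^ 2 ≤ cV * Real.exp y →
      2 * Real.log (nm d') ≤ y + t := by
    intro y d' h1 h2
    have h3 := Real.log_le_log (by positivity) h2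
    rw [Real.log_pow, Real.log_mul hcV0.ne' (Real.exp_ne_zero _), Real.log_exp] at h3
    push_cast at h3
    linarith
  have hκt : |a.1.1.l - k| ≤ t := F.l.trans (by rw [htdef]; linarith)
  have hcct : Real.log (2 * cV) ≤ t := by rw [htdef]; linarith
  have hyτ₁ : Hyp9 π h c ok Fx β lam p X τ₁ B H N a qs c5 i b := by
    have h1 : τ ≤ τ₁ := by linarith
    exact ⟨Fr9X.mono' F h1, hmono _ _ _ _ _ _ _ _ _ hL.le h1 hfx, hok, hgp, hgs, hζ0, hηsup,
      hgS, hi, hb⟩
  have hNlen : (qs.length : ℝ) ≤ N := by exact_mod_cast hlen _ _ _ _ _ _ _ _ hfx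
  have key := HX X hX3 (ηC π h lam qs) (α lam a) (LN qs) (lM a) ((N : ℝ) * Rh) (3 * Rh)
    (fun n hn => by
      obtain ⟨s1, s2, s3⟩ := supp_list h hRh (hP lam.1) lam.2 qs hn
      exact ⟨s1, s2, s3.trans (mul_le_mul_of_nonneg_right hNlen hRh0)⟩)
    (fun n hn => ⟨(hPS lam a n hn).1, (hPS lam a n hn).2, hwin lam a n hn⟩) le_rfl
    (Real.exp a.2.2) (Real.exp_pos _).le (Real.exp (1 / 64 * a.1.1.l)) (EM (1 / 64) a) c5 s
    a.2.1 b hgp hb
    (hle6 _ g0 (by linarith)) (by unfold EM; positivity)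
    (hle6 _ (by unfold EM; positivity) (by rw [hlE]; linarith [hx36.1]))
    V hV0
    (fun d' hd' => by
      obtain ⟨h1, h2⟩ := hJB d' hd'
      obtain ⟨h3, h4⟩ := hdb d' h1 h2
      have d0 : (0 : ℝ) < nm d' := by linarith [one_le_nmR h1]
      refine hle6 _ (by rw [nm_mul]; push_cast; positivity) ?_
      rw [nm_mul]
      push_cast
      rw [Real.log_mul b0.ne' d0.ne']
      linarith)
    cV hcV
    (hle6 _ (by positivity) (by
      rw [Real.log_mul hcV0.ne' (by positivity), Real.log_mul (Real.exp_ne_zero _) hV0.ne',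
        Real.log_exp]
      linarith))
    bs hbs2 a.1.1.l ((X ^ (8 : ℝ)) ^ 5) (HmE (sf a) cV a qs i b)
    (fun y d' e _ _ => Hm_pos hD00.le hcg (Real.exp_pos _) hXMpos hcV0 y d' e)
    (fun y d' bb => Ph0 (Real.exp a.1.1.l) (HlR (HpE (sf a) a qs i) (D0X a) (Real.exp a.1.1.l) cV
      (Real.exp y) (nm d') (bb + 1)) (Real.exp y) (Real.exp (a.1.1.l / 20)))
    (fun y d' bb => Ph1 (Real.exp a.1.1.l) (HlR (HpE (sf a) a qs i) (D0X a) (Real.exp a.1.1.l) cV
      (Real.exp y) (nm d') (bb + 1)) (HuR (HpE (sf a) a qs i) (D0X a) (Real.exp a.1.1.l) cV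
      (Real.exp y) (nm d')) (Real.exp y))
    (fun _ d' bb k' => W * Real.exp (FB (k + exx) x P (Real.log (nm d')) (sf a) r bb k'))
    (Real.log (3 * W * Real.exp (k + 4 / 3 * P + (γ - βb) / 3 + exx + 31 * t)))
    (fun y d' bb => Ph0_nonneg (Real.exp_pos _) (HlR_pos0 (Real.exp_pos _) hcV0
      (Real.exp_pos _) hD00) (Real.exp_pos _) (Real.exp_pos _).le)
    (fun y d' bb => Ph1_nonneg (Real.exp_pos _) (HlR_pos0 (Real.exp_pos _) hcV0
      (Real.exp_pos _) hD00) (Real.exp_pos _))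
    (fun y d' bb k' => by positivity)
    (fun y d' bb k' hbb => by
      refine mul_le_mul_of_nonneg_left (Real.exp_le_exp.2 ?_) hW0.le
      exact FB_anti (by exact_mod_cast hbb))
    -- dominance
    (fun y hy d' hd' e he bb hbb hlog => by
      obtain ⟨d1, d2, d3, d4⟩ := hDs d' hd'
      have he1 : IsPrim e := ((mem_S (by unfold EM; positivity)).1 he).2.1
      have hU : (nm (lc (a.2.1 / b) e) : ℝ) / nm (a.2.1 / b) ≤ Real.exp (bb + 1) := by
        rw [← nm_ratio hcg he1]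
        have h1 := Mm828.lc_ratio hcg he1
        rw [← nm_ratio hcg he1] at h1
        rwa [Real.log_le_iff_le_exp (by linarith)] at hlog
      have hDX := hDXw d' hd'
      have hb1 := hm_bd (K := Real.exp a.1.1.l) (Hp := HpE (sf a) a qs i) (D₀ := D0X a) (cc := cV)
        (V := Real.exp y) (Real.exp_pos _) hcV0 (Real.exp_pos _) (Mm828.lc_ratio hcg he1) hU hDX
      exact dom0 (Real.exp_pos _) (HlR_pos0 (Real.exp_pos _) hcV0 (Real.exp_pos _) hD00) hb1.1
        (Real.exp_pos _) (Real.exp_pos _))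
    (fun y hy d' hd' e he bb hbb hlog => by
      obtain ⟨d1, d2, d3, d4⟩ := hDs d' hd'
      have he1 : IsPrim e := ((mem_S (by unfold EM; positivity)).1 he).2.1
      have hU : (nm (lc (a.2.1 / b) e) : ℝ) / nm (a.2.1 / b) ≤ Real.exp (bb + 1) := by
        rw [← nm_ratio hcg he1]
        have h1 := Mm828.lc_ratio hcg he1
        rw [← nm_ratio hcg he1] at h1
        rwa [Real.log_le_iff_le_exp (by linarith)] at hlog
      have hDX := hDXw d' hd'
      have hb1 := hm_bd (K := Real.exp a.1.1.l) (Hp := HpE (sf a) a qs i) (D₀ := D0X a) (cc := cV)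
        (V := Real.exp y) (Real.exp_pos _) hcV0 (Real.exp_pos _) (Mm828.lc_ratio hcg he1) hU hDX
      exact dom1 (Real.exp_pos _) (HlR_pos0 (Real.exp_pos _) hcV0 (Real.exp_pos _) hD00) hb1.1
        hb1.2 (Real.exp_pos _))
    -- the core
    (fun y hy d' hd' bb k' q1 q2 q3 => by
      obtain ⟨d1, d2, d3, d4⟩ := hDs d' hd'
      have hcop : IsCoprime d' a.2.1 := (mem_filter.1 hd').2
      have ecc : cc a.2.1 (b * d') = a.2.1 / b := cc_cop hgp hb hcop
      have HT := hTf (y : ℝ) (hLIy y hy)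
      have hyV := hLIy y hy
      have hbb0 : (0 : ℝ) ≤ bb := Nat.cast_nonneg _
      have hprimD : IsPrim (b * d') := hbp.mul d1
      have hD1 : (0 : ℝ) < nm (b * d') := by linarith [one_le_nmR hprimD]
      have hlogD : Real.log (nm (b * d') * nm (cc a.2.1 (b * d'))) = γ + Real.log (nm d') := by
        rw [ecc, nm_mul]
        push_cast
        rw [Real.log_mul (by positivity) cg0.ne', Real.log_mul b0.ne' d4.ne', hγcg]
        ring
      rw [hlogy y d' d4] at q3
      have hnDe : nD a qs (b * d') bb = P - Real.log (nm d') - bb := by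
        unfold nD
        rw [hlogD, hLNs]
        ring
      have hk'L : k' ≤ 3 * L := by linarith
      have hT5 : ∀ w : Fin 5 → ℝ, w = bNx p ∨ w = bRx p →
          (TM708.T5 w + (w 1 + w 2 + w 3 + w 4)) * L =
            min (2 * Nn - k) (3 / 4 * Nn) + 5 * x + (Nn + x) ∧ L * K5 w ≤ k + exx ∧
          L * (3 / 4 * d * w 0) = lo := by
        intro w hw
        have e1 : w 0 = cκ q ∧ w 1 + w 2 + w 3 = cN q ∧ w 4 = cx' q := by
          rcases hw with rfl | rfl
          · exact ⟨rfl, rfl, rfl⟩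
          · refine ⟨rfl, ?_, rfl⟩
            show p (.inr 1) + (cu (prX p) 2 + cu (prX p) 3 - p (.inr 1)) + cu (prX p) 4 = cN q
            rw [hcN]; ring
        obtain ⟨w0, w1, w4⟩ := e1
        refine ⟨?_, ?_, ?_⟩
        · show (min (2 * (w 1 + w 2 + w 3) - w 0) (3 / 4 * (w 1 + w 2 + w 3)) + 5 * w 4 +
            (w 1 + w 2 + w 3 + w 4)) * L = _
          rw [w1, w0, w4, add_mul, add_mul, min_mul_of_nonneg _ _ hL.le, hNn, hk, hx]
          congr 1
          · congr 1
            · congr 1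
              · ring
              · ring
            · ring
          · ring
        · show L * max (w 0) (5 / 4 * (w 1 + w 2 + w 3)) ≤ _
          have f1 := le_max_left 0 (5 / 4 * (cN q * L) - cκ q * L)
          have f2 := le_max_right 0 (5 / 4 * (cN q * L) - cκ q * L)
          rw [w1, w0, mul_max_of_nonneg _ _ hL.le]
          refine max_le (by linarith) ?_
          linarith
        · rw [w0, hlo, hk]; ring
      have hfin := HC X hXX1 H hH p hp a qs c5 i b s hyτ₁ (b * d') hprimD (by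
          have h30 : X ^ (6 : ℝ) ≤ X ^ (30 : ℝ) := Real.rpow_le_rpow_of_exponent_le hX1 (by norm_num)
          refine (hle6 _ hD1 ?_).trans h30
          rw [nm_mul]
          push_cast
          rw [Real.log_mul b0.ne' d4.ne']
          linarith) (bb : ℝ) k' hbb0 (by linarith) q2 (by linarith) (by
          intro w hw
          obtain ⟨e1, e2, e3⟩ := hT5 w hw
          rw [add_mul, e1, hnDe]
          have htop := topR2 (l := k' + bb) (n := P - Real.log (nm d') - bb) (b := (bb : ℝ))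
            (c := 0) HT d2 le_rfl (by rw [htdef]; linarith) (by linarith)
          linarith)
        (FB (k + exx) x P (Real.log (nm d')) (sf a) r bb k' + lo + 3 * t) (by
          intro w hw l z₁ z₂ z₃ ww c1 c2 c3 c4 c5' c6 c7 c8 c9
          obtain ⟨e1, e2, e3⟩ := hT5 w hw
          show NVx dA (L * K5 w) (L * (3 / 4 * d * w 0)) l (z₁ + z₂ + z₃ + ww) z₁ z₂ z₃ ww ≤ _
          rw [e3]
          rw [hnDe] at c7
          have c2' := (abs_le.1 c2).2
          have c7' := (abs_le.1 c7).2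
          have hKk : max (L * K5 w) (5 / 7 * (l + (z₁ + z₂ + z₃ + ww))) ≤ k + exx + 3 * t := by
            have h1 := kV_le (l := l) (n := z₁ + z₂ + z₃ + ww) HT hxx (by
              rw [htdef]; linarith)
            exact le_trans (max_le_max e2 le_rfl) h1
          have h2 : fT (k + exx) bb (k' + r + bb) (P - Real.log (nm d') - bb) x ≤
              FB (k + exx) x P (Real.log (nm d')) (sf a) r bb k' := le_max_left _ _
          have h3 := nv_le (K' := max (L * K5 w) (5 / 7 * (l + (z₁ + z₂ + z₃ + ww))))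
            (K5 := k + exx) (b := (bb : ℝ)) (l := k' + r + bb) (l' := l)
            (n := P - Real.log (nm d') - bb) (n' := z₁ + z₂ + z₃ + ww) (x := x) (w := ww)
            (d := dA) (z₁ := z₁) (z₂ := z₂) (z₃ := z₃) (lo := lo)
            (A := ww + (eH (max (L * K5 w) (5 / 7 * (l + (z₁ + z₂ + z₃ + ww)))) (l + ww)
              (z₁ + z₂ + z₃) + lo)) ht0' hdk0 (by linarith) (by linarith) rfl (by
              rw [htdef]; linarith) c3 c4 c5' c6 (by rw [htdef]; linarith)
          unfold NVx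
          linarith) (by
          rw [hnDe, hlogD]
          have h2 : bE (k' + r + bb) P (Real.log (nm d')) bb (sf a) ≤
              FB (k + exx) x P (Real.log (nm d')) (sf a) r bb k' := le_max_right _ _
          unfold bE at h2
          have h3 : max 0 (sf a - Real.log (nm d') - bb) ≤
              max 0 (S0 a - (γ + Real.log (nm d')) - bb) + 5 * (τ * L) := by
            refine max_le ?_ ?_
            · linarith [le_max_left 0 (S0 a - (γ + Real.log (nm d')) - bb)]
            · rcases hs1 with g | g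
              · linarith [le_max_left 0 (S0 a - (γ + Real.log (nm d')) - bb)]
              · linarith [le_max_right 0 (S0 a - (γ + Real.log (nm d')) - bb)]
          rw [htdef]
          linarith)
      have e4 : W * Real.exp (FB (k + exx) x P (Real.log (nm d')) (sf a) r bb k') =
          H ^ M * X ^ (ε / 4) * (1 + |s|) ^ J *
            Real.exp (FB (k + exx) x P (Real.log (nm d')) (sf a) r bb k' + lo + 3 * t) := by
        rw [hW, mul_assoc _ (Real.exp _) (Real.exp _), ← Real.exp_add]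
        congr 2
        ring
      show CoreB (fun e => Ae (Real.exp a.2.2) (Real.exp (1 / 64 * a.1.1.l)) (ηC π h lam qs)
        (α lam a) a.2.1 c5 s e (b * d')) (cc a.2.1 (b * d')) bb k' J
        (W * Real.exp (FB (k + exx) x P (Real.log (nm d')) (sf a) r bb k'))
      rw [e4]
      exact hfin)
    -- lines
    (fun y hy d' hd' h1 bb hbb => by
      obtain ⟨d1, d2, d3, d4⟩ := hDs d' hd'
      have hyV := hLIy y hy
      have ed : Real.exp (Real.log (nm d')) = nm d' := Real.exp_log d4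
      have hbb' : (bb : ℝ) ≤ bs := by exact_mod_cast hbb
      have hA := lineAE (q := (bb : ℝ) + 1) (b := (bb : ℝ)) (κ := a.1.1.l) (hp := hp') (cc := cV)
        (D₀ := D0X a) (W := W) (δ := Real.log (nm d')) (y := (y : ℝ)) (ρ := γ - βb)
        (F := FB (k + exx) x P (Real.log (nm d')) (sf a) r bb
          (Real.log cV + y - 2 * Real.log (nm d') + (γ - βb)))
        (l := Real.log cV + y - 2 * Real.log (nm d') + (γ - βb) + r + bb) hTb
        (by rw [hvv]; linarith) hρ0 d2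
        (Nat.cast_nonneg _) (by rw [htdef]; linarith) (by rw [htdef]; linarith) hκt hhp1 hcV hcct
        hD0 (hδy y d' d4 h1) (by rw [htdef]; linarith) (by unfold FB; linarith) hW0.le
      rw [ed, ← hHp] at hA
      rw [Real.exp_log hmpos, hlogy y d' d4]
      refine hA.trans ?_
      refine mul_le_mul_of_nonneg_left (Real.exp_le_exp.2 (by linarith)) (by positivity))
    (fun y hy d' hd' bb n hbb hn h1 h2 => by
      obtain ⟨d1, d2, d3, d4⟩ := hDs d' hd'
      have hyV := hLIy y hy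
      have ed : Real.exp (Real.log (nm d')) = nm d' := Real.exp_log d4
      have hbb' : (bb : ℝ) ≤ bs := by exact_mod_cast hbb
      have hA := lineBE (q := (bb : ℝ) + 1) (b := (bb : ℝ)) (κ := a.1.1.l) (hp := hp') (cc := cV)
        (D₀ := D0X a) (W := W) (δ := Real.log (nm d')) (c := n) (y := (y : ℝ)) (ρ := γ - βb)
        (F := FB (k + exx) x P (Real.log (nm d')) (sf a) r bb
          (Real.log cV + y - 2 * Real.log (nm d') + (γ - βb) - 3 * n))
        (l := Real.log cV + y - 2 * Real.log (nm d') + (γ - βb) - 3 * n + r + bb) hTb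
        (by rw [hvv]; linarith) hρ0 d2
        (Nat.cast_nonneg _) hn (by rw [htdef]; linarith) (by rw [htdef]; linarith) hκt hhp1 hhp2
        hcV hcct hD0 (hδy y d' d4 h1) (by rw [htdef]; linarith) (by unfold FB; linarith) hW0.le
      rw [ed, ← hHp] at hA
      rw [Real.exp_log hmpos, hlogy y d' d4]
      exact hA)
  rw [Real.exp_log hmpos, hLNs, show P + 2 * γ = LN (clM a qs) by rw [hPdef]; ring, hW] at key
  have hlast := lastR (X := X) (L := L) (C := C) (S := (1 + |s|) ^ J) (Ht := H)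
    (ε := ε) (ε₁ := ε / 4) (ε₂ := ε / 4) (ε₃ := ε / 8) (τ := τ) (k := k) (l := a.1.1.l)
    (P := LN (clM a qs)) (ng := nm a.2.1) (nb := nm b) (ρ := γ - βb) (ex := exx) (lo := lo)
    (L0 := L0 q) (t := t) (M := M) hX0 hLdef hC (by positivity) hH0.le g0 b0 rfl
    (by linarith) (by
      have h1 := mul_le_mul_of_nonneg_right (hL0 q hp) hL.le
      rw [add_mul, max_mul_of_nonneg _ _ hL.le, zero_mul] at h1
      refine le_trans (le_of_eq ?_) h1
      rw [hexx, hlo, hk]
      congr 1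
      · congr 1
        ring
      · ring) le_rfl (by linarith) hL.le hCL
  refine key.trans (le_trans (le_of_eq ?_) hlast)
  rw [← hPdef]
  ring

end Crest.Agent.R017.LT9957
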