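import Crest.Agent.R017.GrW2_404
import Crest.Agent.R017.P1y_54

/-!
# Row 17, R8/P1: the `T`-half of the lines of the mismatch (helper404): application of `TPsm`

* `DsM`, `gp_cop`, `cc_cop`, `afrb_cop0`, `LVn_zero0`
* **`ltu_red`** : the left side of `P1y54.LTU` for one class
-/

set_option autoImplicit false

noncomputable section

open Finset MeasureTheory
open scoped ComplexConjugate Classical

namespace Crest.Agent.R017.LT404

open Crest.Agent.R012 Crest.Agent.R012.Eis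
open Crest.Agent.R012.Div277 (tau dvs mem_dvs tau_le_rpow)
open Crest.Agent.R012.LS2 (S mem_S)
open Crest.Agent.R017.HP842 (Pc pc al sqc alL)
open Crest.Agent.R017.Rough381 (VF)
open Crest.Agent.R017.FE47 (PU cx)
open Crest.Agent.R017.StA828 Crest.Agent.R017.StC828 Crest.Agent.R017.StF828
open Crest.Agent.R017.StB828 (one_le_nmR)
open Crest.Agent.R017.StG828 (JB mem_JB)
open Crest.Agent.R017.StJ319 (afrb gt5 q5)
open Crest.Agent.R017.P1k54 Crest.Agent.R017.P1l54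
open Crest.Agent.R017.P1u54 Crest.Agent.R017.P1v54 Crest.Agent.R017.P1w54
open Crest.Agent.R017.P1y54
open Crest.Agent.R017.B770 Crest.Agent.R017.Prov71
open Crest.Agent.R017.UM71
open Crest.Agent.R017.E5B71 Crest.Agent.R017.E5L770
open Crest.Agent.R017.I1146 (LN)
open Crest.Agent.R017.DgA829 (lc lc_prim lc_dvd)
open Crest.Agent.R017.Mm828 (Vb Hm)
open Crest.Agent.R017.E3Kc548 (LI mem_LI)
open Crest.Agent.R017.E3Z548 (LVn FH TN FH_nonneg)
open Crest.Agent.R017.E3N146 (cLS cTT)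
open Crest.Agent.R017.GrC828 (LY ChF cF)
open Crest.Agent.R017.GrT828 (cc)
open Crest.Agent.R017.GrG404 (y5)

variable {Λ : Type*} (π : Λ → DPar) {h : ℝ → ℝ} (e0 : ℝ)

/-- the `d` of a block prime to `g` -/
def DsM (g : Eis) (V : ℝ) : Finset Eis :=
  ((JB (Real.sqrt V)).image Prod.fst).filter fun d => IsCoprime d g

lemma gp_cop {g b d : Eis} (hg : IsPrim g) (hb : b ∈ dvs g) (hc : IsCoprime d g) :
    gp (b * d) g = b := by
  obtain ⟨hb1, t, ht⟩ := (mem_dvs hg.ne_zero).1 hb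
  exact gp_eq (l₁ := d) (u₁ := t) hg hb1 rfl ht
    (hc.of_isCoprime_of_dvd_right ⟨b, by rw [ht, mul_comm]⟩)

lemma cc_cop {g b d : Eis} (hg : IsPrim g) (hb : b ∈ dvs g) (hc : IsCoprime d g) :
    cc g (b * d) = g / b := by
  unfold cc
  rw [gp_cop hg hb hc]

lemma afrb_cop0 {gt : Eis → Eis → Eis → ℂ} {q : Eis → Eis} {Y : ℝ} {η α : Eis → ℂ} {g h : Eis}
    {s : ℝ} {e d : Eis} (hc : ¬ IsCoprime d g) :
    afrb gt q Y η α g h s e d = fun _ => 0 := by
  funext m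
  by_contra h0
  exact hc (Mm828.afrb_ne h0).1

lemma TN_zero0 {af : Eis → Eis → Eis → ℂ} {d e : Eis} (h0 : af d e = fun _ => 0)
    (we om : Eis → ℝ) (Gs : Finset Eis) (A : Eis → Eis → Finset Eis) (dl : Eis → Eis) :
    TN af we {d} {e} om Gs A dl = 0 := by
  unfold TN
  rw [sum_singleton, sum_singleton]
  have h1 : ∀ γ : Eis, E3T829.cg γ (af d e) = fun _ => (0 : ℂ) := by
    intro γ
    rw [h0]
    funext m
    simp [E3T829.cg]
  simp only [h1, E3T1579.TE0_zero, norm_zero]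
  simp

lemma LVn_zero0 {af : Eis → Eis → Eis → ℂ} {d e : Eis} (h0 : af d e = fun _ => 0)
    (c Y K H V V' E1 B G1 : ℝ) : LVn af {d} {e} c Y K H V V' E1 B G1 0 = 0 := by
  unfold LVn
  simp only [TN_zero0 h0]
  simp

lemma LY_get (P : DPar) (t₀ : Eis) (ps : List Pq) :
    LY (fun i => Pt P t₀ (ps.get i)) = LN ps := by
  unfold LY
  have e2 : LN ps = (ps.map (·.z)).sum := rfl
  rw [e2]
  conv_rhs => rw [← List.ofFn_get ps]
  rw [List.map_ofFn, List.sum_ofFn]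
  refine sum_congr rfl fun i _ => ?_
  show Real.log (Real.exp _) = _
  rw [Real.log_exp]
  rfl

lemma LY_fn (P : DPar) (t₀ : Eis) (us : Fin 3 → Pq) :
    LY (fun i => Pt P t₀ (us i)) = LN (List.ofFn us) := by
  unfold LY
  have e2 : LN (List.ofFn us) = ((List.ofFn us).map (·.z)).sum := rfl
  rw [e2, List.map_ofFn, List.sum_ofFn]
  refine sum_congr rfl fun i _ => ?_
  show Real.log (Real.exp _) = _
  rw [Real.log_exp]
  rfl

lemma ηC_get (h : ℝ → ℝ) (lam : Λ × Eis) (qs : List Pq) :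
    ηC π h lam qs = sqc 1 (al h fun i => Pt (π lam.1) lam.2 (qs.get i)) := by
  unfold ηC
  have e : qs.map (Pt (π lam.1) lam.2) = List.ofFn fun i => Pt (π lam.1) lam.2 (qs.get i) := by
    conv_lhs => rw [← List.ofFn_get qs]
    rw [List.map_ofFn]
    rfl
  rw [e, ← HP842.al_eq]

lemma αC_fn (h : ℝ → ℝ) (lam : Λ × Eis) (a : Bm) :
    αC π h lam a = sqc 1 (al h fun j => Pt (π lam.1) lam.2 (a.1.2 j)) := by
  unfold αC
  rw [List.map_ofFn, ← HP842.al_eq]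
  rfl

set_option maxHeartbeats 2000000 in
/-- **the left side of `LTU` for one class**: `TPsm` at the data of the class -/
theorem ltu_red {c₀ : ℝ} (hpu : PU h c₀) {R : ℝ} (hR0 : 0 ≤ R)
    (hR : ∀ u, cx h u ≠ 0 → |u| ≤ R) (hP : ∀ lam, (π lam).OK) (N : ℕ) {B₀ : ℝ} (hB₀ : 0 ≤ B₀)
    {ε : ℝ} (hε : 0 < ε) {M : ℝ} (hM : 0 ≤ M) : ∃ C r : ℝ, 1 ≤ C ∧ 0 ≤ r ∧ ∀ X : ℝ, 3 ≤ X →
    ∀ (lam : Λ × Eis) (a : Bm) (qs : List Pq), qs.length + 3 ≤ N → okM π h lam a qs →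
    (∀ p ∈ qs, p.z ≤ Real.log X) → (∀ j, (a.1.2 j).z ≤ Real.log X) →
    (nm a.2.1 : ℝ) ≤ X ^ B₀ → E0M e0 a ≤ X ^ B₀ →
    ∀ (c : Fin 5) (i : ℕ) (b : Eis) (s : ℝ), b ∈ dvs a.2.1 →
    (∀ d ∈ (JB (Real.sqrt (Vb (a.2.1 / b) i))).image Prod.fst, (nm (b * d) : ℝ) ≤ X ^ B₀) →
    ∀ cV : ℝ, 1 ≤ cV → cV * (Real.exp 1 * Vb (a.2.1 / b) i) ≤ X ^ B₀ →
    ∀ bs : ℕ, Real.log (E0M e0 a) ≤ bs + 1 →
    ∀ (Φ₀ Φ₁ : ℕ → Eis → ℕ → ℝ) (Bf : ℕ → Eis → ℕ → ℝ → ℝ) (m : ℝ), (∀ k d b, 0 ≤ Φ₀ k d b) →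
    (∀ k d b, 0 ≤ Φ₁ k d b) → (∀ k d b x, 0 ≤ Bf k d b x) →
    (∀ k d b x, bs ≤ b → Bf k d b x ≤ Bf k d bs x) →
    (∀ k ∈ LI (1 / 10) (Vb (a.2.1 / b) i), ∀ d ∈ DsM a.2.1 (Vb (a.2.1 / b) i),
      ∀ e ∈ S (E0M e0 a), ∀ b' : ℕ, b' ≤ bs →
      Real.log (nm (lc (a.2.1 / b) e / (a.2.1 / b))) ≤ b' + 1 →
      FH (Real.exp a.1.1.l) (HmM a qs b cV k d e) (Real.exp k) *
        cLS (Real.exp a.1.1.l) (HmM a qs b cV k d e) (Real.exp k) (Real.exp k)
          (Real.exp (a.1.1.l / 20)) 1 1 ≤ Φ₀ k d b') →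
    (∀ k ∈ LI (1 / 10) (Vb (a.2.1 / b) i), ∀ d ∈ DsM a.2.1 (Vb (a.2.1 / b) i),
      ∀ e ∈ S (E0M e0 a), ∀ b' : ℕ, b' ≤ bs →
      Real.log (nm (lc (a.2.1 / b) e / (a.2.1 / b))) ≤ b' + 1 →
      FH (Real.exp a.1.1.l) (HmM a qs b cV k d e) (Real.exp k) *
        cTT (Real.exp a.1.1.l) (HmM a qs b cV k d e) (Real.exp k) ≤ Φ₁ k d b') →
    (∀ k ∈ LI (1 / 10) (Vb (a.2.1 / b) i), ∀ d ∈ DsM a.2.1 (Vb (a.2.1 / b) i),
      ∀ (b' : ℕ) (k' l : ℝ) (s' : Fin qs.length ⊕ Fin 3 → Pc), (b' : ℝ) ≤ 4 * B₀ * Real.log X →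
      0 ≤ k' → k' ≤ Real.log (cV * Real.exp k / (nm d : ℝ) ^ 2) + Real.log (nm (a.2.1 / b)) →
      0 ≤ l → ChF r s' (fam (π lam.1) lam.2 (fun i => qs.get i) a.1.2) →
      |LY s' - (LN qs + LN (List.ofFn a.1.2) - Real.log (nm a.2.1) -
        Real.log (nm (b * d) * nm (a.2.1 / b)) - b')| ≤ r →
      |l - (k' + b')| ≤ r →
      LN qs - Real.log (nm a.2.1) -
        min (y5 (Real.exp a.2.2) a.2.1 c) (Real.log (nm (b * d))) - b' - r ≤
        LY (fun i => s' (.inl i)) →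
      VF (Real.exp l) (sqc (b * d * (a.2.1 / b)) (al h s')) ≤
        Bf k d b' k' * cF s' (fam (π lam.1) lam.2 (fun i => qs.get i) a.1.2) ^ M) →
    (∀ k ∈ LI (1 / 10) (Vb (a.2.1 / b) i), ∀ d ∈ DsM a.2.1 (Vb (a.2.1 / b) i),
      (nm d : ℝ) ^ 2 ≤ cV * Real.exp k → ∀ b' : ℕ, b' ≤ bs →
      Φ₀ k d b' * Bf k d b' (Real.log (cV * Real.exp k / (nm d : ℝ) ^ 2) +
        Real.log (nm (a.2.1 / b))) * (nm d : ℝ) ^ 2 ≤ Real.exp m) →
    (∀ k ∈ LI (1 / 10) (Vb (a.2.1 / b) i), ∀ d ∈ DsM a.2.1 (Vb (a.2.1 / b) i),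
      ∀ (b' : ℕ) (n : ℝ), b' ≤ bs → 0 ≤ n →
      (nm d : ℝ) ^ 2 ≤ cV * Real.exp k → 3 * n ≤ Real.log (cV * Real.exp k / (nm d : ℝ) ^ 2) →
      Φ₁ k d b' * Bf k d b' (Real.log (cV * Real.exp k / (nm d : ℝ) ^ 2) +
        Real.log (nm (a.2.1 / b)) - 3 * n) * (nm d : ℝ) ^ 2 * Real.exp n ≤ Real.exp m) →
    ∑ e ∈ S (E0M e0 a), ∑ k ∈ LI (1 / 10) (Vb (a.2.1 / b) i),
        ∑ d ∈ (JB (Real.sqrt (Vb (a.2.1 / b) i))).image Prod.fst,
        (nm e : ℝ)⁻¹ * LVn (fun d e => afM π h e0 lam a qs c b s e d) {d} {e} cV (X ^ 30)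
          (Real.exp a.1.1.l) (HmM a qs b cV k d e) (Real.exp k) (Real.exp k)
          (Real.exp (a.1.1.l / 20)) 1 1 0 ≤
      C * X ^ ε * (1 + |s|) ^ (N * M) *
        Real.exp (-((LN qs + LN (List.ofFn a.1.2)) / 3)) *
        (nm a.2.1 * nm b : ℝ) ^ (1 / 3 : ℝ) * Real.exp m := by
  have hε2 : 0 < ε / 2 := by linarith
  obtain ⟨C, r, hC, hr, G⟩ := GrG404.TPsm hpu hR0 hR N hB₀ hε2 hM
  have hη : 0 < ε / (2 * (B₀ + 1)) := by positivity
  have hCL : 0 ≤ 2 + 1 / (ε / (2 * (B₀ + 1))) := by positivity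
  refine ⟨C * (2 + 1 / (ε / (2 * (B₀ + 1)))), r, ?_, hr, ?_⟩
  · have h1 : 0 ≤ 1 / (ε / (2 * (B₀ + 1))) := by positivity
    nlinarith
  intro X hX lam a qs hN hok hqz haz hgX hE0 c i b s hb hdX cV hcV hcVX bs hbs Φ₀ Φ₁ Bf m hΦ₀ hΦ₁ hBf
    hanti hdom₀ hdom₁ hcl hla hlb
  obtain ⟨hok1, hg, hgsq, hζ, hsup, hgS⟩ := hok
  have hX1 : (1 : ℝ) ≤ X := by linarith
  have hX0 : (0 : ℝ) < X := by linarith
  obtain ⟨hb1, hbg⟩ := (mem_dvs hg.ne_zero).1 hb
  set g : Eis := a.2.1 with hgd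
  have hgb : IsPrim (g / b) := by
    obtain ⟨t, ht⟩ := hbg
    have h3 : g / b = t := by rw [ht, mul_div_cancel_left₀ _ hb1.ne_zero]
    rw [h3]
    exact IsPrim.of_mul_left (x := b) (ht ▸ hg) hb1
  set V : ℝ := Vb (g / b) i with hV
  have hV0 : 0 < V := by
    rw [hV]
    unfold Vb
    have h1 : IsPrim (g / b) := hgb
    have h2 : (0 : ℝ) < nm (g / b) := by linarith [one_le_nmR h1]
    positivity
  set s1 : Fin qs.length → Pc := fun i => Pt (π lam.1) lam.2 (qs.get i) with hs1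
  set s2 : Fin 3 → Pc := fun j => Pt (π lam.1) lam.2 (a.1.2 j) with hs2
  have hfam : (Sum.elim s1 s2) = fam (π lam.1) lam.2 (fun i => qs.get i) a.1.2 := rfl
  have hLY1 : LY s1 = LN qs := LY_get _ _ _
  have hLY2 : LY s2 = LN (List.ofFn a.1.2) := LY_fn _ _ _
  -- the coefficients
  have haf : ∀ e d, afM π h e0 lam a qs c b s e d =
      afrb (gt5 (Real.exp (e0 * a.1.1.l)) (Real.exp a.2.2) g c) (q5 g c) (Real.exp a.2.2)
        (sqc 1 (al h s1)) (sqc 1 (al h s2)) g b s e d := by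
    intro e d
    unfold afM
    rw [ηC_get, αC_fn]
  have hDsub : DsM g V ⊆ (JB (Real.sqrt V)).image Prod.fst := filter_subset _ _
  have hDs : ∀ d ∈ DsM g V, IsPrim d ∧ (nm (b * d) : ℝ) ≤ X ^ B₀ := by
    intro d hd
    refine ⟨?_, hdX d (hDsub hd)⟩
    obtain ⟨x, hx, rfl⟩ := mem_image.1 (hDsub hd)
    exact ((mem_JB (Real.sqrt_nonneg _)).1 hx).1
  have hEs : ∀ e ∈ S (E0M e0 a), IsPrim e ∧ (nm e : ℝ) ≤ X ^ B₀ := by
    intro e he
    have hE00 : 0 ≤ E0M e0 a := by unfold E0M; positivity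
    have h1 := (mem_S hE00).1 he
    exact ⟨h1.2.1, h1.1.trans hE0⟩
  have hcc : ∀ d ∈ DsM g V, cc g (b * d) = g / b := fun d hd =>
    cc_cop hg hb (mem_filter.1 hd).2
  have hK : 0 < Real.exp a.1.1.l := Real.exp_pos _
  have hXw : 0 < XwM a qs b := by
    unfold XwM
    have h1 : (0 : ℝ) < nm g := by linarith [one_le_nmR hg]
    have h2 : (0 : ℝ) < nm b := by linarith [one_le_nmR hb1]
    rw [← hgd]
    positivity
  have hH : ∀ k : ℕ, ∀ d e : Eis, IsPrim d → IsPrim e → 0 < HmM a qs b cV k d e := by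
    intro k d e hd he
    unfold HmM Hm
    have h1 : IsPrim (g / b) := hgb
    split_ifs
    · have h2 : (0 : ℝ) < (nm (lc (g / b) e) : ℝ) / nm (g / b) := by
        linarith [Mm828.lc_ratio h1 he]
      have h3 : (0 : ℝ) < max 1 (HpM a qs * (nm d : ℝ) ^ (-(4 / 3) : ℝ)) :=
        lt_of_lt_of_le one_pos (le_max_left _ _)
      rw [← hgd]
      positivity
    · have h2 : (0 : ℝ) < nm d := by linarith [one_le_nmR hd]
      have h3 : 0 < min (nm d : ℝ) (XwM a qs b) := lt_min h2 hXw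
      have h4 : 0 < cV := by linarith
      positivity
  have hrat : ∀ e ∈ S (E0M e0 a), Real.log (nm (lc (g / b) e / (g / b))) ≤ bs + 1 := by
    intro e he
    have hE00 : 0 ≤ E0M e0 a := by unfold E0M; positivity
    have h1 := (mem_S hE00).1 he
    have h2 : nm (lc (g / b) e / (g / b)) ≤ nm e := by
      obtain ⟨t, ht⟩ : g / b ∣ lc (g / b) e := ((lc_dvd hgb h1.2.1 _).1 dvd_rfl).1
      have h3 := GrG404.nm_lc_le' hgb h1.2.1
      rw [ht, mul_div_cancel_left₀ _ hgb.ne_zero]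
      rw [ht, nm_mul] at h3
      have h5 : nm (g / b) * nm t ≤ nm (g / b) * nm e := by exact_mod_cast h3
      exact Nat.le_of_mul_le_mul_left h5 (nm_pos.2 hgb.ne_zero)
    have h4 : 0 < nm (lc (g / b) e / (g / b)) := by
      obtain ⟨t, ht⟩ : g / b ∣ lc (g / b) e := ((lc_dvd hgb h1.2.1 _).1 dvd_rfl).1
      rw [ht, mul_div_cancel_left₀ _ hgb.ne_zero]
      refine nm_pos.2 fun h0 => ?_
      have h5 := (lc_prim hgb h1.2.1).ne_zero
      rw [ht, h0, mul_zero] at h5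
      exact h5 rfl
    refine le_trans (Real.log_le_log (by exact_mod_cast h4) ?_) hbs
    have h6 : (nm (lc (g / b) e / (g / b)) : ℝ) ≤ nm e := by exact_mod_cast h2
    exact h6.trans h1.1
  have hmin : ∀ e ∈ S (E0M e0 a), ∀ b' : ℕ,
      Real.log (nm (lc (g / b) e / (g / b))) ≤ b' + 1 →
      Real.log (nm (lc (g / b) e / (g / b))) ≤ ((min b' bs : ℕ) : ℝ) + 1 := by
    intro e he b' hb'
    rcases le_total b' bs with h1 | h1
    · rw [min_eq_left h1]; exact hb'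
    · rw [min_eq_right h1]; exact hrat e he
  have hBmin : ∀ (k : ℕ) (d : Eis) (b' : ℕ) (x : ℝ), Bf k d b' x ≤ Bf k d (min b' bs) x := by
    intro k d b' x
    rcases le_total b' bs with h1 | h1
    · rw [min_eq_left h1]
    · rw [min_eq_right h1]; exact hanti k d b' x h1
  -- one `k`
  have hk1 : ∀ k ∈ LI (1 / 10) V, ∑ d ∈ (JB (Real.sqrt V)).image Prod.fst, ∑ e ∈ S (E0M e0 a),
      (nm e : ℝ)⁻¹ * LVn (fun d e => afM π h e0 lam a qs c b s e d) {d} {e} cV (X ^ 30)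
          (Real.exp a.1.1.l) (HmM a qs b cV k d e) (Real.exp k) (Real.exp k)
          (Real.exp (a.1.1.l / 20)) 1 1 0 ≤
      C * X ^ (ε / 2) * (1 + |s|) ^ (N * M) * Real.exp (-((LY s1 + LY s2) / 3)) *
        (nm g * nm b : ℝ) ^ (1 / 3 : ℝ) * Real.exp m := by
    intro k hk
    have hkV := (mem_LI hk).2.2
    have hred : ∑ d ∈ (JB (Real.sqrt V)).image Prod.fst, ∑ e ∈ S (E0M e0 a),
        (nm e : ℝ)⁻¹ * LVn (fun d e => afM π h e0 lam a qs c b s e d) {d} {e} cV (X ^ 30)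
          (Real.exp a.1.1.l) (HmM a qs b cV k d e) (Real.exp k) (Real.exp k)
          (Real.exp (a.1.1.l / 20)) 1 1 0 =
        ∑ d ∈ DsM g V, ∑ e ∈ S (E0M e0 a),
        (nm e : ℝ)⁻¹ * LVn (fun d e => afM π h e0 lam a qs c b s e d) {d} {e} cV (X ^ 30)
          (Real.exp a.1.1.l) (HmM a qs b cV k d e) (Real.exp k) (Real.exp k)
          (Real.exp (a.1.1.l / 20)) 1 1 0 := by
      refine (sum_subset hDsub fun d hd hd' => sum_eq_zero fun e _ => ?_).symm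
      have hnc : ¬ IsCoprime d g := fun hc => hd' (mem_filter.2 ⟨hd, hc⟩)
      rw [LVn_zero0, mul_zero]
      show afM π h e0 lam a qs c b s e d = _
      rw [haf, afrb_cop0 hnc]
    rw [hred]
    have key := G X hX (Fin qs.length) (Fin 3) (by simpa using hN) s1 s2
      (fun i => Pt_OK (hP _) _ _) (fun j => Pt_OK (hP _) _ _)
      (fun i => by
        show Real.log (Real.exp _) ≤ _
        rw [Real.log_exp]
        exact hqz _ (List.get_mem _ _))
      (fun j => by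
        show Real.log (Real.exp _) ≤ _
        rw [Real.log_exp]
        exact haz j)
      (Real.exp a.2.2) (Real.exp_nonneg _)
      (fun n hn => hsup n (by rw [ηC_get]; exact hn))
      (Real.exp (e0 * a.1.1.l)) c s g b hg hb1 hgX (DsM g V) (S (E0M e0 a)) hDs hEs
      cV (X ^ 30) (Real.exp a.1.1.l) (Real.exp k) (Real.exp k) (Real.exp (a.1.1.l / 20)) 1 1
      (fun d e => HmM a qs b cV k d e) (fun _ _ => 0) (fun _ e => (nm e : ℝ)⁻¹) hK
      (Real.exp_pos _)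
      ((mul_le_mul_of_nonneg_left hkV (by linarith)).trans hcVX)
      (fun d hd e he => hH k d e (hDs d hd).1 (hEs e he).1)
      (fun d _ e _ => by positivity)
      (fun d hd e he => by
        have := hH k d e (hDs d hd).1 (hEs e he).1
        unfold cLS
        positivity)
      (fun d b' => Φ₀ k d (min b' bs)) (fun d b' => Φ₁ k d (min b' bs)) (Bf k) m
      (fun d b' => hΦ₀ k d _) (fun d b' => hΦ₁ k d _) (hBf k)
      (fun d hd e he b' hb' => by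
        rw [hcc d hd] at hb'
        have h1 : (0 : ℝ) < nm e := by linarith [one_le_nmR (hEs e he).1]
        have h2 := hdom₀ k hk d hd e he _ (min_le_right b' bs) (hmin e he b' hb')
        refine (le_of_eq ?_).trans h2
        show (nm e : ℝ)⁻¹ * _ * nm e = _
        field_simp)
      (fun d hd e he b' hb' => by
        rw [hcc d hd] at hb'
        have h1 : (0 : ℝ) < nm e := by linarith [one_le_nmR (hEs e he).1]
        have h2 := hdom₁ k hk d hd e he _ (min_le_right b' bs) (hmin e he b' hb')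
        refine (le_of_eq ?_).trans h2
        show (nm e : ℝ)⁻¹ * _ * nm e = _
        field_simp)
      (fun d hd b' k' l s' h1 h2 h3 h4 h5 h6 h7 h8 => by
        rw [hcc d hd] at h3 h6 ⊢
        rw [hLY1, hLY2] at h6
        rw [hLY1] at h8
        exact hcl k hk d hd b' k' l s' h1 h2 h3 h4 h5 h6 h7 h8)
      (fun d hd h1 b' h2 => by
        rw [hcc d hd]
        refine le_trans ?_ (hla k hk d hd h1 _ (min_le_right b' bs))
        exact mul_le_mul_of_nonneg_right (mul_le_mul_of_nonneg_left (hBmin k d b' _)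
          (hΦ₀ k d _)) (by positivity))
      (fun d hd b' n h1 h2 h3 h4 => by
        rw [hcc d hd]
        refine le_trans ?_ (hlb k hk d hd _ n (min_le_right b' bs) h2 h3 h4)
        exact mul_le_mul_of_nonneg_right (mul_le_mul_of_nonneg_right
          (mul_le_mul_of_nonneg_left (hBmin k d b' _) (hΦ₁ k d _)) (by positivity))
          (Real.exp_nonneg _))
    simp only [mul_zero, sum_const_zero, add_zero] at key
    refine (le_of_eq ?_).trans key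
    refine sum_congr rfl fun d _ => sum_congr rfl fun e _ => ?_
    have e1 : (fun d e => afM π h e0 lam a qs c b s e d) = fun d e =>
        afrb (gt5 (Real.exp (e0 * a.1.1.l)) (Real.exp a.2.2) g c) (q5 g c) (Real.exp a.2.2)
        (sqc 1 (al h s1)) (sqc 1 (al h s2)) g b s e d := by
      funext d e
      exact haf e d
    rw [e1]
  have hswap : ∑ e ∈ S (E0M e0 a), ∑ k ∈ LI (1 / 10) V,
        ∑ d ∈ (JB (Real.sqrt V)).image Prod.fst,
        (nm e : ℝ)⁻¹ * LVn (fun d e => afM π h e0 lam a qs c b s e d) {d} {e} cV (X ^ 30)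
          (Real.exp a.1.1.l) (HmM a qs b cV k d e) (Real.exp k) (Real.exp k)
          (Real.exp (a.1.1.l / 20)) 1 1 0 =
      ∑ k ∈ LI (1 / 10) V, ∑ d ∈ (JB (Real.sqrt V)).image Prod.fst, ∑ e ∈ S (E0M e0 a),
        (nm e : ℝ)⁻¹ * LVn (fun d e => afM π h e0 lam a qs c b s e d) {d} {e} cV (X ^ 30)
          (Real.exp a.1.1.l) (HmM a qs b cV k d e) (Real.exp k) (Real.exp k)
          (Real.exp (a.1.1.l / 20)) 1 1 0 := by
    rw [sum_comm]
    refine sum_congr rfl fun k _ => ?_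
    rw [sum_comm]
  rw [hswap]
  refine (sum_le_sum hk1).trans ?_
  rw [sum_const, nsmul_eq_mul, hLY1, hLY2]
  have hVX : V ≤ X ^ B₀ := by
    have h1 : 1 ≤ cV * Real.exp 1 := one_le_mul_of_one_le_of_one_le hcV
      (Real.one_le_exp (by norm_num))
    calc V ≤ (cV * Real.exp 1) * V := le_mul_of_one_le_left hV0.le h1
      _ = cV * (Real.exp 1 * V) := by ring
      _ ≤ X ^ B₀ := hcVX
  have hcard := E3Kc548.card_LI (1 / 10) (Z := X ^ B₀) (Real.one_le_rpow hX1 hB₀) hV0.le hVX hη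
  have hcard2 : ((LI (1 / 10) V).card : ℝ) ≤ (2 + 1 / (ε / (2 * (B₀ + 1)))) * X ^ (ε / 2) := by
    refine hcard.trans (mul_le_mul_of_nonneg_left ?_ hCL)
    rw [← Real.rpow_mul hX0.le]
    refine Real.rpow_le_rpow_of_exponent_le hX1 ?_
    rw [show B₀ * (ε / (2 * (B₀ + 1))) = (ε / 2) * (B₀ / (B₀ + 1)) by field_simp]
    have h1 : B₀ / (B₀ + 1) ≤ 1 := by
      rw [div_le_one (by linarith)]; linarith
    nlinarith
  have hF0 : 0 ≤ C * X ^ (ε / 2) * (1 + |s|) ^ (N * M) *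
      Real.exp (-((LN qs + LN (List.ofFn a.1.2)) / 3)) *
        (nm g * nm b : ℝ) ^ (1 / 3 : ℝ) * Real.exp m := by
    have : 0 ≤ C := by linarith
    positivity
  refine (mul_le_mul_of_nonneg_right hcard2 hF0).trans (le_of_eq ?_)
  have e2 : X ^ ε = X ^ (ε / 2) * X ^ (ε / 2) := by
    rw [← Real.rpow_add hX0]; congr 1; ring
  rw [e2]
  ring

end Crest.Agent.R017.LT404
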