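import Crest.Agent.R017.GrZ_404
import Crest.Agent.R017.LTa_404

/-!
# Row 17, exceptional class (helper408): the `T`-half of the lines of a class from `CoreB`

* **`ltx_red`** : `TPsH` (helper404) summed over the blocks of rows, any `η`, `α`, row length
-/

set_option autoImplicit false

noncomputable section

open Finset MeasureTheory
open scoped ComplexConjugate Classical

namespace Crest.Agent.R017.LTX408

open Crest.Agent.R012 Crest.Agent.R012.Eis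
open Crest.Agent.R012.Div277 (tau dvs mem_dvs tau_le_rpow)
open Crest.Agent.R012.LS2 (S mem_S)
open Crest.Agent.R017.StA828 Crest.Agent.R017.StC828 Crest.Agent.R017.StF828
open Crest.Agent.R017.StB828 (one_le_nmR)
open Crest.Agent.R017.StG828 (JB mem_JB)
open Crest.Agent.R017.StJ319 (afrb gt5 q5)
open Crest.Agent.R017.DgA829 (lc lc_prim lc_dvd)
open Crest.Agent.R017.E3Kc548 (LI mem_LI)
open Crest.Agent.R017.E3Z548 (LVn FH TN FH_nonneg)
open Crest.Agent.R017.E3N146 (cLS cTT)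
open Crest.Agent.R017.GrT828 (cc)
open Crest.Agent.R017.GrG404 (y5 Ae)
open Crest.Agent.R017.GrK404 (CoreB SWin TPsH)
open Crest.Agent.R017.LT404 (DsM gp_cop cc_cop afrb_cop0 LVn_zero0)

set_option maxHeartbeats 2000000 in
/-- **the `T`-half of one class from `CoreB`** -/
theorem ltx_red {R' : ℝ} (hR' : 0 ≤ R') {J : ℝ} (hJ : 0 ≤ J) {B₀ : ℝ} (hB₀ : 0 ≤ B₀) {ε : ℝ}
    (hε : 0 < ε) : ∃ C : ℝ, 1 ≤ C ∧ ∀ X : ℝ, 3 ≤ X →
    ∀ (η α : Eis → ℂ) (L₁ L₂ r₁ r₂ : ℝ), SWin η L₁ r₁ → SWin α L₂ r₂ → 2 * (r₁ + r₂) ≤ R' →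
    ∀ Z : ℝ, 0 ≤ Z → ∀ (E0 Em : ℝ) (c : Fin 5) (s : ℝ) (g b : Eis), IsPrim g → b ∈ dvs g →
    (nm g : ℝ) ≤ X ^ B₀ → 0 ≤ Em → Em ≤ X ^ B₀ → ∀ V : ℝ, 0 < V →
    (∀ d ∈ (JB (Real.sqrt V)).image Prod.fst, (nm (b * d) : ℝ) ≤ X ^ B₀) →
    ∀ cL : ℝ, 1 ≤ cL → cL * (Real.exp 1 * V) ≤ X ^ B₀ →
    ∀ bs : ℕ, Real.log Em ≤ bs + 1 → ∀ (l Yg : ℝ) (Hf : ℕ → Eis → Eis → ℝ),
    (∀ k : ℕ, ∀ d e : Eis, IsPrim d → IsPrim e → 0 < Hf k d e) →
    ∀ (Φ₀ Φ₁ : ℕ → Eis → ℕ → ℝ) (Bf : ℕ → Eis → ℕ → ℝ → ℝ) (m : ℝ), (∀ k d b, 0 ≤ Φ₀ k d b) →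
    (∀ k d b, 0 ≤ Φ₁ k d b) → (∀ k d b x, 0 ≤ Bf k d b x) →
    (∀ k d b x, bs ≤ b → Bf k d b x ≤ Bf k d bs x) →
    (∀ k ∈ LI (1 / 10) V, ∀ d ∈ DsM g V, ∀ e ∈ S Em, ∀ b' : ℕ, b' ≤ bs →
      Real.log (nm (lc (g / b) e / (g / b))) ≤ b' + 1 →
      FH (Real.exp l) (Hf k d e) (Real.exp k) *
        cLS (Real.exp l) (Hf k d e) (Real.exp k) (Real.exp k) (Real.exp (l / 20)) 1 1 ≤
        Φ₀ k d b') →
    (∀ k ∈ LI (1 / 10) V, ∀ d ∈ DsM g V, ∀ e ∈ S Em, ∀ b' : ℕ, b' ≤ bs →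
      Real.log (nm (lc (g / b) e / (g / b))) ≤ b' + 1 →
      FH (Real.exp l) (Hf k d e) (Real.exp k) * cTT (Real.exp l) (Hf k d e) (Real.exp k) ≤
        Φ₁ k d b') →
    (∀ k ∈ LI (1 / 10) V, ∀ d ∈ DsM g V, ∀ (b' : ℕ) (k' : ℝ), (b' : ℝ) ≤ 4 * B₀ * Real.log X →
      0 ≤ k' → k' ≤ Real.log (cL * Real.exp k / (nm d : ℝ) ^ 2) + Real.log (nm (g / b)) →
      CoreB (fun e => Ae Z E0 η α g c s e (b * d)) (cc g (b * d)) b' k' J (Bf k d b' k')) →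
    (∀ k ∈ LI (1 / 10) V, ∀ d ∈ DsM g V, (nm d : ℝ) ^ 2 ≤ cL * Real.exp k → ∀ b' : ℕ, b' ≤ bs →
      Φ₀ k d b' * Bf k d b' (Real.log (cL * Real.exp k / (nm d : ℝ) ^ 2) +
        Real.log (nm (g / b))) * (nm d : ℝ) ^ 2 ≤ Real.exp m) →
    (∀ k ∈ LI (1 / 10) V, ∀ d ∈ DsM g V, ∀ (b' : ℕ) (n : ℝ), b' ≤ bs → 0 ≤ n →
      (nm d : ℝ) ^ 2 ≤ cL * Real.exp k → 3 * n ≤ Real.log (cL * Real.exp k / (nm d : ℝ) ^ 2) →
      Φ₁ k d b' * Bf k d b' (Real.log (cL * Real.exp k / (nm d : ℝ) ^ 2) +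
        Real.log (nm (g / b)) - 3 * n) * (nm d : ℝ) ^ 2 * Real.exp n ≤ Real.exp m) →
    ∑ e ∈ S Em, ∑ k ∈ LI (1 / 10) V, ∑ d ∈ (JB (Real.sqrt V)).image Prod.fst,
        (nm e : ℝ)⁻¹ * LVn (fun d e => afrb (gt5 E0 Z g c) (q5 g c) Z η α g b s e d) {d} {e} cL
          Yg (Real.exp l) (Hf k d e) (Real.exp k) (Real.exp k) (Real.exp (l / 20)) 1 1 0 ≤
      C * X ^ ε * Real.exp (-((L₁ + L₂) / 3)) * (nm g * nm b : ℝ) ^ (1 / 3 : ℝ) *
        Real.exp m := by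
  have hε2 : 0 < ε / 2 := by linarith
  obtain ⟨C, hC, G⟩ := TPsH hR' hJ hB₀ hε2
  have hη' : 0 < ε / (2 * (B₀ + 1)) := by positivity
  have hCL : 0 ≤ 2 + 1 / (ε / (2 * (B₀ + 1))) := by positivity
  refine ⟨C * (2 + 1 / (ε / (2 * (B₀ + 1)))), ?_, ?_⟩
  · have h1 : 0 ≤ 1 / (ε / (2 * (B₀ + 1))) := by positivity
    nlinarith
  intro X hX η α L₁ L₂ r₁ r₂ hη hα hrr Z hZ E0 Em c s g b hg hb hgX hEm0 hEmX V hV0 hdX cL hcL
    hcLX bs hbs l Yg Hf hH Φ₀ Φ₁ Bf m hΦ₀ hΦ₁ hBf hanti hdom₀ hdom₁ hcore hla hlb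
  have hX1 : (1 : ℝ) ≤ X := by linarith
  have hX0 : (0 : ℝ) < X := by linarith
  obtain ⟨hb1, hbg⟩ := (mem_dvs hg.ne_zero).1 hb
  have hgb : IsPrim (g / b) := by
    obtain ⟨t, ht⟩ := hbg
    have h3 : g / b = t := by rw [ht, mul_div_cancel_left₀ _ hb1.ne_zero]
    rw [h3]
    exact IsPrim.of_mul_left (x := b) (ht ▸ hg) hb1
  have hDsub : DsM g V ⊆ (JB (Real.sqrt V)).image Prod.fst := filter_subset _ _
  have hDs : ∀ d ∈ DsM g V, IsPrim d ∧ (nm (b * d) : ℝ) ≤ X ^ B₀ := by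
    intro d hd
    refine ⟨?_, hdX d (hDsub hd)⟩
    obtain ⟨x, hx, rfl⟩ := mem_image.1 (hDsub hd)
    exact ((mem_JB (Real.sqrt_nonneg _)).1 hx).1
  have hEs : ∀ e ∈ S Em, IsPrim e ∧ (nm e : ℝ) ≤ X ^ B₀ := by
    intro e he
    have h1 := (mem_S hEm0).1 he
    exact ⟨h1.2.1, h1.1.trans hEmX⟩
  have hcc : ∀ d ∈ DsM g V, cc g (b * d) = g / b := fun d hd =>
    cc_cop hg hb (mem_filter.1 hd).2
  have hrat : ∀ e ∈ S Em, Real.log (nm (lc (g / b) e / (g / b))) ≤ bs + 1 := by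
    intro e he
    have h1 := (mem_S hEm0).1 he
    have h2 : nm (lc (g / b) e / (g / b)) ≤ nm e := by
      obtain ⟨t, ht⟩ : g / b ∣ lc (g / b) e := ((lc_dvd hgb h1.2.1 _).1 dvd_rfl).1
      have h3 := GrG404.nm_lc_le' hgb h1.2.1
      rw [ht, mul_div_cancel_left₀ _ hgb.ne_zero]
      rw [ht, nm_mul] at h3
      have h5 : nm (g / b) * nm t ≤ nm (g / b) * nm e := by exact_mod_cast h3
      exact Nat.le_of_mul_le_mul_left h5 (nm_pos.2 hgb.ne_zero)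
    have h4 : 0 < nm (lc (g / b) e / (g / b)) := by
      obtain ⟨t, ht⟩ : g / b ∣ lc (g / b) e := ((lc_dvd hgb h1.2.1 _).1 dvd_rfl).1
      rw [ht, mul_div_cancel_left₀ _ hgb.ne_zero]
      refine nm_pos.2 fun h0 => ?_
      have h5 := (lc_prim hgb h1.2.1).ne_zero
      rw [ht, h0, mul_zero] at h5
      exact h5 rfl
    refine le_trans (Real.log_le_log (by exact_mod_cast h4) ?_) hbs
    have h6 : (nm (lc (g / b) e / (g / b)) : ℝ) ≤ nm e := by exact_mod_cast h2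
    exact h6.trans h1.1
  have hmin : ∀ e ∈ S Em, ∀ b' : ℕ,
      Real.log (nm (lc (g / b) e / (g / b))) ≤ b' + 1 →
      Real.log (nm (lc (g / b) e / (g / b))) ≤ ((min b' bs : ℕ) : ℝ) + 1 := by
    intro e he b' hb'
    rcases le_total b' bs with h1 | h1
    · rw [min_eq_left h1]; exact hb'
    · rw [min_eq_right h1]; exact hrat e he
  have hBmin : ∀ (k : ℕ) (d : Eis) (b' : ℕ) (x : ℝ), Bf k d b' x ≤ Bf k d (min b' bs) x := by
    intro k d b' x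
    rcases le_total b' bs with h1 | h1
    · rw [min_eq_left h1]
    · rw [min_eq_right h1]; exact hanti k d b' x h1
  -- one `k`
  have hk1 : ∀ k ∈ LI (1 / 10) V, ∑ d ∈ (JB (Real.sqrt V)).image Prod.fst, ∑ e ∈ S Em,
      (nm e : ℝ)⁻¹ * LVn (fun d e => afrb (gt5 E0 Z g c) (q5 g c) Z η α g b s e d) {d} {e} cL
          Yg (Real.exp l) (Hf k d e) (Real.exp k) (Real.exp k) (Real.exp (l / 20)) 1 1 0 ≤
      C * X ^ (ε / 2) * Real.exp (-((L₁ + L₂) / 3)) *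
        (nm g * nm b : ℝ) ^ (1 / 3 : ℝ) * Real.exp m := by
    intro k hk
    have hkV := (mem_LI hk).2.2
    have hred : ∑ d ∈ (JB (Real.sqrt V)).image Prod.fst, ∑ e ∈ S Em,
        (nm e : ℝ)⁻¹ * LVn (fun d e => afrb (gt5 E0 Z g c) (q5 g c) Z η α g b s e d) {d} {e} cL
          Yg (Real.exp l) (Hf k d e) (Real.exp k) (Real.exp k) (Real.exp (l / 20)) 1 1 0 =
        ∑ d ∈ DsM g V, ∑ e ∈ S Em,
        (nm e : ℝ)⁻¹ * LVn (fun d e => afrb (gt5 E0 Z g c) (q5 g c) Z η α g b s e d) {d} {e} cL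
          Yg (Real.exp l) (Hf k d e) (Real.exp k) (Real.exp k) (Real.exp (l / 20)) 1 1 0 := by
      refine (sum_subset hDsub fun d hd hd' => sum_eq_zero fun e _ => ?_).symm
      have hnc : ¬ IsCoprime d g := fun hc => hd' (mem_filter.2 ⟨hd, hc⟩)
      rw [LVn_zero0, mul_zero]
      show afrb (gt5 E0 Z g c) (q5 g c) Z η α g b s e d = _
      rw [afrb_cop0 hnc]
    rw [hred]
    have key := G X hX η α L₁ L₂ r₁ r₂ hη hα hrr Z hZ E0 c s g b hg hb1 hgX (DsM g V) (S Em)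
      hDs hEs cL Yg (Real.exp l) (Real.exp k) (Real.exp k) (Real.exp (l / 20)) 1 1
      (fun d e => Hf k d e) (fun _ _ => 0) (fun _ e => (nm e : ℝ)⁻¹) (Real.exp_pos _)
      (Real.exp_pos _)
      ((mul_le_mul_of_nonneg_left hkV (by linarith)).trans hcLX)
      (fun d hd e he => hH k d e (hDs d hd).1 (hEs e he).1)
      (fun d _ e _ => by positivity)
      (fun d hd e he => by
        have := hH k d e (hDs d hd).1 (hEs e he).1
        unfold cLS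
        positivity)
      (fun d b' => Φ₀ k d (min b' bs)) (fun d b' => Φ₁ k d (min b' bs)) (Bf k) m
      (fun d b' => hΦ₀ k d _) (fun d b' => hΦ₁ k d _) (hBf k)
      (fun d hd e he b' hb' => by
        rw [hcc d hd] at hb'
        have h1 : (0 : ℝ) < nm e := by linarith [one_le_nmR (hEs e he).1]
        have h2 := hdom₀ k hk d hd e he _ (min_le_right b' bs) (hmin e he b' hb')
        refine (le_of_eq ?_).trans h2
        show (nm e : ℝ)⁻¹ * _ * nm e = _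
        field_simp)
      (fun d hd e he b' hb' => by
        rw [hcc d hd] at hb'
        have h1 : (0 : ℝ) < nm e := by linarith [one_le_nmR (hEs e he).1]
        have h2 := hdom₁ k hk d hd e he _ (min_le_right b' bs) (hmin e he b' hb')
        refine (le_of_eq ?_).trans h2
        show (nm e : ℝ)⁻¹ * _ * nm e = _
        field_simp)
      (fun d hd b' k' h1 h2 h3 => by
        have h4 : Real.log (nm (cc g (b * d))) = Real.log (nm (g / b)) := by rw [hcc d hd]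
        rw [h4] at h3
        exact hcore k hk d hd b' k' h1 h2 h3)
      (fun d hd h1 b' h2 => by
        rw [hcc d hd]
        refine le_trans ?_ (hla k hk d hd h1 _ (min_le_right b' bs))
        exact mul_le_mul_of_nonneg_right (mul_le_mul_of_nonneg_left (hBmin k d b' _)
          (hΦ₀ k d _)) (by positivity))
      (fun d hd b' n h1 h2 h3 h4 => by
        rw [hcc d hd]
        refine le_trans ?_ (hlb k hk d hd _ n (min_le_right b' bs) h2 h3 h4)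
        exact mul_le_mul_of_nonneg_right (mul_le_mul_of_nonneg_right
          (mul_le_mul_of_nonneg_left (hBmin k d b' _) (hΦ₁ k d _)) (by positivity))
          (Real.exp_nonneg _))
    simp only [mul_zero, sum_const_zero, add_zero] at key
    exact key
  have hswap : ∑ e ∈ S Em, ∑ k ∈ LI (1 / 10) V, ∑ d ∈ (JB (Real.sqrt V)).image Prod.fst,
        (nm e : ℝ)⁻¹ * LVn (fun d e => afrb (gt5 E0 Z g c) (q5 g c) Z η α g b s e d) {d} {e} cL
          Yg (Real.exp l) (Hf k d e) (Real.exp k) (Real.exp k) (Real.exp (l / 20)) 1 1 0 =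
      ∑ k ∈ LI (1 / 10) V, ∑ d ∈ (JB (Real.sqrt V)).image Prod.fst, ∑ e ∈ S Em,
        (nm e : ℝ)⁻¹ * LVn (fun d e => afrb (gt5 E0 Z g c) (q5 g c) Z η α g b s e d) {d} {e} cL
          Yg (Real.exp l) (Hf k d e) (Real.exp k) (Real.exp k) (Real.exp (l / 20)) 1 1 0 := by
    rw [sum_comm]
    refine sum_congr rfl fun k _ => ?_
    rw [sum_comm]
  rw [hswap]
  refine (sum_le_sum hk1).trans ?_
  rw [sum_const, nsmul_eq_mul]
  have hVX : V ≤ X ^ B₀ := by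
    have h1 : 1 ≤ cL * Real.exp 1 := one_le_mul_of_one_le_of_one_le hcL
      (Real.one_le_exp (by norm_num))
    calc V ≤ (cL * Real.exp 1) * V := le_mul_of_one_le_left hV0.le h1
      _ = cL * (Real.exp 1 * V) := by ring
      _ ≤ X ^ B₀ := hcLX
  have hcard := E3Kc548.card_LI (1 / 10) (Z := X ^ B₀) (Real.one_le_rpow hX1 hB₀) hV0.le hVX hη'
  have hcard2 : ((LI (1 / 10) V).card : ℝ) ≤ (2 + 1 / (ε / (2 * (B₀ + 1)))) * X ^ (ε / 2) := by
    refine hcard.trans (mul_le_mul_of_nonneg_left ?_ hCL)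
    rw [← Real.rpow_mul hX0.le]
    refine Real.rpow_le_rpow_of_exponent_le hX1 ?_
    rw [show B₀ * (ε / (2 * (B₀ + 1))) = (ε / 2) * (B₀ / (B₀ + 1)) by field_simp]
    have h1 : B₀ / (B₀ + 1) ≤ 1 := by
      rw [div_le_one (by linarith)]; linarith
    nlinarith
  have hF0 : 0 ≤ C * X ^ (ε / 2) * Real.exp (-((L₁ + L₂) / 3)) *
        (nm g * nm b : ℝ) ^ (1 / 3 : ℝ) * Real.exp m := by
    have : 0 ≤ C := by linarith
    positivity
  refine (mul_le_mul_of_nonneg_right hcard2 hF0).trans (le_of_eq ?_)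
  have e2 : X ^ ε = X ^ (ε / 2) * X ^ (ε / 2) := by
    rw [← Real.rpow_add hX0]; congr 1; ring
  rw [e2]
  ring

end Crest.Agent.R017.LTX408
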