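import Crest.Agent.R017.CR9_72
import Crest.Agent.R017.LTe_408

/-!
# Row 17, exceptional class (helper408): `LTG` from `CoreG` and the real lines

* `LineT` : the real lines of the `T`-half (a Prop on numbers only)
* **`ltG_of`** : `CoreG` → `LineT` → `P1yX72.LTG`
-/

set_option autoImplicit false

noncomputable section

open Finset Filter
open scoped Classical ComplexConjugate

namespace Crest.Agent.R017.LTX408

open Crest.Agent.R012 Crest.Agent.R012.Eis Crest.Agent.R012.Div277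
open Crest.Agent.R012.LS2 (S mem_S bl)
open Crest.Agent.R017.FE47 (PU cx SM)
open Crest.Agent.R017.StG828 (JB mem_JB PSu)
open Crest.Agent.R017.StB828 (one_le_nmR)
open Crest.Agent.R017.StJ319 (afrb gt5 q5 I5 I5_sub)
open Crest.Agent.R017.DgA829 (lc)
open Crest.Agent.R017.E3Z548 (LVn FH)
open Crest.Agent.R017.E3N146 (cLS cTT)
open Crest.Agent.R017.E3Kc548 (LI mem_LI)
open Crest.Agent.R017.GrT828 (cc)
open Crest.Agent.R017.GrG404 (y5 Ae)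
open Crest.Agent.R017.GrK404 (CoreB SWin)
open Crest.Agent.R017.P1e54 Crest.Agent.R017.P1f54 Crest.Agent.R017.P1k54
open Crest.Agent.R017.P1l54 (ParOK oN)
open Crest.Agent.R017.Sf770 (nO)
open Crest.Agent.R017.P1u54
open Crest.Agent.R017.P1v54 (ηC supp_list FS_list)
open Crest.Agent.R017.B770 Crest.Agent.R017.Prov71
open Crest.Agent.R017.E5B71 Crest.Agent.R017.E5L770
open Crest.Agent.R017.ExBox960 Crest.Agent.R017.ExP960
open Crest.Agent.R017.P1X960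
open Crest.Agent.R017.I1146 (LN)
open Crest.Agent.R017.P1MU960
open Crest.Agent.R017.Mm828 (Vb)
open Crest.Agent.R017.P1XM176 (NVx)
open Crest.Agent.R017.P1yX72

section
variable {Λ : Type*} (π : Λ → DPar) (h : ℝ → ℝ) (e0 c : ℝ)
  (ok : Λ × Eis → BmX → List Pq → Prop)
  (Fx : (IX5 → ℝ) → ℝ → ℝ → ℝ → ℝ → ℕ → BmX → List Pq → Prop)
  (β : ℝ) (Par : Set (Fin 3 ⊕ Fin 5 → ℝ)) (L0 : (Fin 3 ⊕ Fin 5 → ℝ) → ℝ)
  (Hx : ℝ → BmX → List Pq → ℕ → Eis → ℕ → Eis → Eis → ℝ)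
  (Kf Tf ℓ : (Fin 5 → ℝ) → ℝ) (dA : ℝ) (S0 : BmX → ℝ)

/-- the real lines of one class -/
structure LineC (ε σ cL r X : ℝ) (p : IX5 → ℝ) (a : BmX) (qs : List Pq) (c5 : Fin 5) (i : ℕ)
    (b : Eis) (bS : ℕ) (Φ₀ Φ₁ : ℕ → Eis → ℕ → ℝ) (Vf : ℕ → Eis → ℕ → ℝ → ℝ) (m : ℝ) : Prop where
  bs : Real.log (EM e0 a) ≤ bS + 1
  H0 : ∀ k : ℕ, ∀ d e : Eis, IsPrim d → IsPrim e → 0 < Hx cL a qs i b k d e
  Φ0 : ∀ k d b', 0 ≤ Φ₀ k d b'
  Φ1 : ∀ k d b', 0 ≤ Φ₁ k d b'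
  anti : ∀ k d b' x, bS ≤ b' → Vf k d b' x ≤ Vf k d bS x
  dom0 : ∀ k ∈ LI (1 / 10) (VM a i b), ∀ d ∈ DsM a i b, IsCoprime d a.2.1 →
    ∀ e ∈ S (EM e0 a), ∀ b' : ℕ, b' ≤ bS →
    Real.log (nm (lc (a.2.1 / b) e / (a.2.1 / b))) ≤ b' + 1 →
    FH (Real.exp a.1.1.l) (Hx cL a qs i b k d e) (Real.exp k) *
      cLS (Real.exp a.1.1.l) (Hx cL a qs i b k d e) (Real.exp k) (Real.exp k)
        (Real.exp (a.1.1.l / 20)) 1 1 ≤ Φ₀ k d b'
  dom1 : ∀ k ∈ LI (1 / 10) (VM a i b), ∀ d ∈ DsM a i b, IsCoprime d a.2.1 →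
    ∀ e ∈ S (EM e0 a), ∀ b' : ℕ, b' ≤ bS →
    Real.log (nm (lc (a.2.1 / b) e / (a.2.1 / b))) ≤ b' + 1 →
    FH (Real.exp a.1.1.l) (Hx cL a qs i b k d e) (Real.exp k) *
      cTT (Real.exp a.1.1.l) (Hx cL a qs i b k d e) (Real.exp k) ≤ Φ₁ k d b'
  lev : ∀ k ∈ LI (1 / 10) (VM a i b), ∀ d ∈ DsM a i b, IsCoprime d a.2.1 →
    ∀ (b' : ℕ) (k' : ℝ), (b' : ℝ) ≤ 40 * Real.log X → 0 ≤ k' →
    k' ≤ Real.log (cL * Real.exp k / (nm d : ℝ) ^ 2) + Real.log (nm (a.2.1 / b)) →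
    ∀ bb : Fin 5 → ℝ, bb = bNx p ∨ bb = bRx p →
    k' + b' + nD a qs (b * d) b' ≤ (Tf bb + (bb 1 + bb 2 + bb 3 + bb 4) + σ) * Real.log X
  num : ∀ k ∈ LI (1 / 10) (VM a i b), ∀ d ∈ DsM a i b, IsCoprime d a.2.1 →
    ∀ (b' : ℕ) (k' : ℝ), (b' : ℝ) ≤ 40 * Real.log X → 0 ≤ k' →
    k' ≤ Real.log (cL * Real.exp k / (nm d : ℝ) ^ 2) + Real.log (nm (a.2.1 / b)) →
    ∀ bb : Fin 5 → ℝ, bb = bNx p ∨ bb = bRx p → ∀ l z₁ z₂ z₃ w : ℝ, 0 ≤ l →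
    |l - (k' + b')| ≤ r → 0 ≤ z₁ → 0 ≤ z₂ → 0 ≤ z₃ → 0 ≤ w →
    |z₁ + z₂ + z₃ + w - nD a qs (b * d) b'| ≤ r → w ≤ LN qs + r →
    LN qs - Real.log (nm a.2.1) - min (y5 (Real.exp a.2.2) a.2.1 c5)
      (Real.log (nm (b * d))) - b' - r ≤ w →
    NVx dA (Real.log X * Kf bb) (Real.log X * ℓ bb) l (z₁ + z₂ + z₃ + w) z₁ z₂ z₃ w ≤
      Vf k d b' k'
  bias : ∀ k ∈ LI (1 / 10) (VM a i b), ∀ d ∈ DsM a i b, IsCoprime d a.2.1 →
    ∀ (b' : ℕ) (k' : ℝ), (b' : ℝ) ≤ 40 * Real.log X → 0 ≤ k' →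
    k' ≤ Real.log (cL * Real.exp k / (nm d : ℝ) ^ 2) + Real.log (nm (a.2.1 / b)) →
    2 / 3 * (k' + b') + 5 / 3 * nD a qs (b * d) b' -
      max 0 (S0 a - Real.log (nm (b * d) * nm (cc a.2.1 (b * d))) - b') ≤ Vf k d b' k'
  la : ∀ k ∈ LI (1 / 10) (VM a i b), ∀ d ∈ DsM a i b, IsCoprime d a.2.1 →
    (nm d : ℝ) ^ 2 ≤ cL * Real.exp k → ∀ b' : ℕ, b' ≤ bS →
    Φ₀ k d b' * Real.exp (Vf k d b' (Real.log (cL * Real.exp k / (nm d : ℝ) ^ 2) +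
      Real.log (nm (a.2.1 / b)))) * (nm d : ℝ) ^ 2 ≤ Real.exp m
  lb : ∀ k ∈ LI (1 / 10) (VM a i b), ∀ d ∈ DsM a i b, IsCoprime d a.2.1 →
    ∀ (b' : ℕ) (n : ℝ), b' ≤ bS → 0 ≤ n →
    (nm d : ℝ) ^ 2 ≤ cL * Real.exp k → 3 * n ≤ Real.log (cL * Real.exp k / (nm d : ℝ) ^ 2) →
    Φ₁ k d b' * Real.exp (Vf k d b' (Real.log (cL * Real.exp k / (nm d : ℝ) ^ 2) +
      Real.log (nm (a.2.1 / b)) - 3 * n)) * (nm d : ℝ) ^ 2 * Real.exp n ≤ Real.exp m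
  last : Real.exp (-((LN qs + lM a) / 3)) * (nm a.2.1 * nm b : ℝ) ^ (1 / 3 : ℝ) * Real.exp m ≤
    X ^ ε * Real.exp (tgX (L0 (prX p)) X a qs)

/-- **the real lines of the `T`-half** -/
def LineT : Prop :=
  ∀ ε : ℝ, 0 < ε → ∀ σ : ℝ, 0 < σ → ∃ τ : ℝ, 0 < τ ∧ ∀ (lam : Λ × Eis) (N : ℕ) (B : ℝ), 0 ≤ B →
    ∀ cL : ℝ, 1 ≤ cL → ∀ r : ℝ, 0 ≤ r → ∃ X₀ : ℝ, 1 < X₀ ∧ ∀ X : ℝ, X₀ ≤ X → ∀ H : ℝ, 1 ≤ H →
      ∀ p : IX5 → ℝ, prX p ∈ Par → ∀ (a : BmX) (qs : List Pq) (c5 : Fin 5) (i : ℕ) (b : Eis),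
      Hyp9 π h c ok Fx β lam p X τ B H N a qs c5 i b →
      ∃ (bs : ℕ) (Φ₀ Φ₁ : ℕ → Eis → ℕ → ℝ) (Vf : ℕ → Eis → ℕ → ℝ → ℝ) (m : ℝ),
        LineC e0 L0 Hx Kf Tf ℓ dA S0 ε σ cL r X p a qs c5 i b bs Φ₀ Φ₁ Vf m

end

set_option maxHeartbeats 1600000 in
/-- **`LTG` from `CoreG` and the real lines** -/
theorem ltG_of {Λ : Type*} {π : Λ → DPar} {h : ℝ → ℝ} {e0 c β : ℝ} (hP : ∀ lam, (π lam).OK)
    {Rh : ℝ} (hRh0 : 0 ≤ Rh) (hRh : ∀ u, cx h u ≠ 0 → |u| ≤ Rh) (he0 : e0 ≤ 1)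
    {ok : Λ × Eis → BmX → List Pq → Prop} {α : Λ × Eis → BmX → Eis → ℂ}
    {Fx : (IX5 → ℝ) → ℝ → ℝ → ℝ → ℝ → ℕ → BmX → List Pq → Prop}
    {Par : Set (Fin 3 ⊕ Fin 5 → ℝ)} {L0 : (Fin 3 ⊕ Fin 5 → ℝ) → ℝ}
    {Hx : ℝ → BmX → List Pq → ℕ → Eis → ℕ → Eis → Eis → ℝ}
    {Kf Tf ℓ : (Fin 5 → ℝ) → ℝ} {dA : ℝ} {S0 : BmX → ℝ}
    (hPS : ∀ lam a, PSu (α lam a))
    (hwin : ∀ lam a n, α lam a n ≠ 0 → |Real.log (nm n) - lM a| ≤ 3 * Rh)
    (hlen : ∀ (p : IX5 → ℝ) (X τ B H : ℝ) (N : ℕ) (a : BmX) (qs : List Pq),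
      Fx p X τ B H N a qs → qs.length ≤ N)
    (hmono : ∀ (p : IX5 → ℝ) (X τ τ' B H : ℝ) (N : ℕ) (a : BmX) (qs : List Pq),
      0 ≤ Real.log X → τ ≤ τ' → Fx p X τ B H N a qs → Fx p X τ' B H N a qs)
    (hC : CoreG π h e0 c ok α Fx β Par Kf Tf ℓ dA S0)
    (hL : LineT π h e0 c ok Fx β Par L0 Hx Kf Tf ℓ dA S0) :
    LTG π h e0 c ok α Fx β Par L0 Hx := by
  intro ε hε
  obtain ⟨τ₁, hτ₁, hC⟩ := hC (ε / 4) (by positivity)
  obtain ⟨τ₂, hτ₂, hL⟩ := hL (ε / 4) (by positivity) τ₁ hτ₁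
  obtain ⟨τ, hτ, hτ1, hτ2, hτ4⟩ : ∃ τ : ℝ, 0 < τ ∧ τ ≤ τ₁ ∧ τ ≤ τ₂ ∧ τ ≤ 1 / 100 :=
    ⟨min (min τ₁ τ₂) (1 / 100), lt_min (lt_min hτ₁ hτ₂) (by norm_num),
      (min_le_left _ _).trans (min_le_left _ _), (min_le_left _ _).trans (min_le_right _ _),
      min_le_right _ _⟩
  refine ⟨τ, hτ, ?_⟩
  intro lam N B hB cL hcL
  obtain ⟨J, M₀, r, hr, X₁, hX₁, hC⟩ := hC lam N B hB 50 (by norm_num)
  obtain ⟨X₂, hX₂, hL⟩ := hL lam N B hB cL hcL r hr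
  obtain ⟨C, hC1, G⟩ := ltx_red (R' := 2 * (N * Rh + 3 * Rh)) (by positivity) (J := (J : ℝ))
    (Nat.cast_nonneg J) (B₀ := 10) (by norm_num) (ε := ε / 4) (by positivity)
  set Q : ℝ := 3 + Real.log cL + 4 * Real.log C / ε with hQ
  have hlcL : 0 ≤ Real.log cL := Real.log_nonneg hcL
  have hlC : 0 ≤ Real.log C := Real.log_nonneg hC1
  have hlC' : 0 ≤ 4 * Real.log C / ε := by positivity
  refine ⟨J, M₀, max (max X₁ X₂) (Real.exp Q), ?_, ?_⟩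
  · exact lt_of_lt_of_le hX₁ ((le_max_left _ _).trans (le_max_left _ _))
  intro X hXX H hH p hp a qs c5 i b s hy0
  have hX1' : X₁ ≤ X := (le_max_left _ _).trans ((le_max_left _ _).trans hXX)
  have hX2' : X₂ ≤ X := (le_max_right _ _).trans ((le_max_left _ _).trans hXX)
  have hXQ : Real.exp Q ≤ X := (le_max_right _ _).trans hXX
  have hX1 : 1 < X := by linarith
  have hX0 : 0 < X := by linarith
  set L := Real.log X with hLd
  have hQL : Q ≤ L := by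
    have := Real.log_le_log (Real.exp_pos Q) hXQ
    rwa [Real.log_exp] at this
  have hL3 : 3 ≤ L := by linarith
  have hL0 : 0 < L := by linarith
  have hX3 : 3 ≤ X := hy0.fr.X3
  obtain ⟨F9, Fx9, hok, hgp, hgs, hζ0, hsup, hgS, hi, hb⟩ := hy0
  have hy : ∀ {τ' : ℝ}, τ ≤ τ' → Hyp9 π h c ok Fx β lam p X τ' B H N a qs c5 i b := fun h1 =>
    ⟨Fr9X.mono' F9 h1, hmono _ _ _ _ _ _ _ _ _ hL0.le h1 Fx9, hok, hgp, hgs, hζ0, hsup, hgS, hi,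
      hb⟩
  obtain ⟨bs, Φ₀, Φ₁, Vf, m, hE⟩ := hL X hX2' H hH p hp a qs c5 i b (hy hτ2)
  have hCore := hC X hX1' H hH p hp a qs c5 i b s (hy hτ1)
  -- sizes
  have hPp := F9.par
  have hτL : τ * L ≤ 1 / 100 * L := mul_le_mul_of_nonneg_right hτ4 hL0.le
  have hκL : 8 / 9 * L ≤ cκ (prX p) * L := mul_le_mul_of_nonneg_right hPp.κ0 hL0.le
  have hκL1 : cκ (prX p) * L ≤ 1 * L := mul_le_mul_of_nonneg_right hPp.κ1 hL0.le
  have hNL0 : 3 / 5 * (cκ (prX p) * L) ≤ cN (prX p) * L := by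
    have := mul_le_mul_of_nonneg_right hPp.N0 hL0.le
    linarith
  have hNL1 : cN (prX p) * L ≤ 1 * L := mul_le_mul_of_nonneg_right hPp.N1 hL0.le
  have hx0L : 0 ≤ cx' (prX p) * L := mul_nonneg hPp.x0 hL0.le
  have hx1L : cx' (prX p) * L ≤ 1 / 3 * L := mul_le_mul_of_nonneg_right hPp.x1 hL0.le
  obtain ⟨k1, k2⟩ := abs_le.1 F9.l
  obtain ⟨z1, z2⟩ := abs_le.1 F9.z
  obtain ⟨A1, A2⟩ := abs_le.1 F9.A
  obtain ⟨ζ1, ζ2⟩ := abs_le.1 F9.ζ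
  have hg1' := F9.g1
  have hqs1 := F9.qs1
  rw [← hLd] at k1 k2 z1 z2 A1 A2 ζ1 ζ2 hg1' hqs1
  set l := a.1.1.l with hldef
  have hl1 : 87 / 100 * L ≤ l := by linarith
  have hl2 : l ≤ 101 / 100 * L := by linarith
  have hl0 : 0 < l := by linarith
  have hlog2 : Real.log 2 ≤ 1 := by
    have := Real.log_two_lt_d9
    linarith
  have hlog20 : 0 < Real.log 2 := Real.log_pos (by norm_num)
  have htO1 : Sf770.tO a.1.1.toBd ≤ 154 / 100 * L := by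
    have e1 : Sf770.tO a.1.1.toBd = min (2 * a3 a.1.1.toBd - l) (3 / 4 * a3 a.1.1.toBd) +
      11 / 5 * a.1.1.z := rfl
    rw [e1]
    have h1 := min_le_right (2 * a3 a.1.1.toBd - l) (3 / 4 * a3 a.1.1.toBd)
    linarith
  have hnO : Real.log 2 * nO a.1.1.toBd ≤ 155 / 100 * L + 1 := by
    have := F9.n1
    have h1 : max 0 (Sf770.tO a.1.1.toBd) ≤ 155 / 100 * L := max_le (by positivity) (by linarith)
    linarith
  have hnM : Real.log 2 * nM (nO a.1.1.toBd) a.2.2 ≤ 4 * L := by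
    unfold nM
    push_cast
    have h1 : (⌈2 * a.2.2 / Real.log 2⌉₊ : ℝ) < 2 * a.2.2 / Real.log 2 + 1 :=
      Nat.ceil_lt_add_one (by positivity)
    have h2 : Real.log 2 * (⌈2 * a.2.2 / Real.log 2⌉₊ : ℝ) ≤ 2 * a.2.2 + Real.log 2 := by
      have h3 := mul_le_mul_of_nonneg_left h1.le hlog20.le
      have h4 : Real.log 2 * (2 * a.2.2 / Real.log 2 + 1) = 2 * a.2.2 + Real.log 2 := by
        field_simp
      linarith
    have h5 : Real.log 2 * ((nO a.1.1.toBd : ℝ) + (⌈2 * a.2.2 / Real.log 2⌉₊ : ℝ) + 1) =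
        Real.log 2 * nO a.1.1.toBd + Real.log 2 * (⌈2 * a.2.2 / Real.log 2⌉₊ : ℝ) + Real.log 2 := by
      ring
    rw [h5]
    linarith
  have hiM : i < nM (nO a.1.1.toBd) a.2.2 := mem_range.1 (I5_sub _ _ _ _ _ hi)
  have hiM' : Real.log 2 * ((i : ℝ) + 1) ≤ Real.log 2 * nM (nO a.1.1.toBd) a.2.2 := by
    refine mul_le_mul_of_nonneg_left ?_ hlog20.le
    exact_mod_cast hiM
  have hbp : IsPrim b := isPrim_of_mem_dvs hb
  have hbg : b ∣ a.2.1 := dvd_of_mem_dvs hb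
  have hcg : IsPrim (a.2.1 / b) := by
    have e1 : b * (a.2.1 / b) = a.2.1 := EuclideanDomain.mul_div_cancel' hbp.ne_zero hbg
    have e2 : IsPrim (b * (a.2.1 / b)) := by rw [e1]; exact hgp
    exact e2.of_mul_left hbp
  have c1 : (1 : ℝ) ≤ nm (a.2.1 / b) := one_le_nmR hcg
  have g1 : (1 : ℝ) ≤ nm a.2.1 := one_le_nmR hgp
  have b1 : (1 : ℝ) ≤ nm b := one_le_nmR hbp
  have hVle : VM a i b ≤ Real.exp (4 * L) := by
    unfold VM Vb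
    refine (div_le_self (Real.exp_pos _).le c1).trans ?_
    exact Real.exp_le_exp.2 (hiM'.trans hnM)
  have hV0 : 0 < VM a i b := by
    unfold VM Vb
    have : (0 : ℝ) < nm (a.2.1 / b) := by linarith
    positivity
  have hXe : ∀ B : ℝ, X ^ B = Real.exp (B * L) := fun B => by
    rw [Real.rpow_def_of_pos hX0, ← hLd, mul_comm]
  have hgL : Real.log (nm a.2.1) ≤ L := by linarith
  have hgX1 : (nm a.2.1 : ℝ) ≤ Real.exp L := by
    rw [← Real.exp_log (show (0 : ℝ) < nm a.2.1 by linarith)]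
    exact Real.exp_le_exp.2 hgL
  have hbg1 : (nm b : ℝ) ≤ nm a.2.1 := by
    exact_mod_cast Div277.nm_le_of_dvd hgp.ne_zero hbg
  have hcg1 : (nm (a.2.1 / b) : ℝ) ≤ nm a.2.1 := by
    have e1 : b * (a.2.1 / b) = a.2.1 := EuclideanDomain.mul_div_cancel' hbp.ne_zero hbg
    exact_mod_cast Div277.nm_le_of_dvd hgp.ne_zero (Dvd.intro_left b e1)
  have hgX : (nm a.2.1 : ℝ) ≤ X ^ (10 : ℝ) := by
    rw [hXe]
    exact hgX1.trans (Real.exp_le_exp.2 (by linarith))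
  have hEm0 : 0 ≤ EM e0 a := by unfold EM; positivity
  have hEmX : EM e0 a ≤ X ^ (10 : ℝ) := by
    rw [hXe]
    unfold EM
    rw [← Real.exp_add]
    refine Real.exp_le_exp.2 ?_
    have h5 : e0 * l ≤ 1 * l := mul_le_mul_of_nonneg_right he0 hl0.le
    have h6 : e0 * a.1.1.l = e0 * l := rfl
    linarith
  have hdle : ∀ d ∈ DsM a i b, IsPrim d ∧ (nm d : ℝ) ≤ VM a i b := by
    intro d hd
    obtain ⟨x, hx, rfl⟩ := mem_image.1 hd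
    obtain ⟨h1, h2, h3, h4⟩ := (mem_JB (Real.sqrt_nonneg _)).1 hx
    rw [Real.sq_sqrt hV0.le] at h4
    refine ⟨h1, ?_⟩
    have h5 : (1 : ℝ) ≤ nm x.1 := one_le_nmR h1
    have h6 : (1 : ℝ) ≤ nm x.2 := by
      have := nm_pos.2 (StA828.JC_ne_zero h3)
      exact_mod_cast this
    have h7 : (nm (StD828.ln x) : ℝ) = nm x.2 * (nm x.1 : ℝ) ^ 2 := by
      unfold StD828.ln
      rw [nm_mul, nm_pow]; push_cast; ring
    rw [h7] at h4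
    have h8 : (nm x.1 : ℝ) ≤ (nm x.1 : ℝ) ^ 2 := by nlinarith
    have h9 : (nm x.1 : ℝ) ^ 2 ≤ nm x.2 * (nm x.1 : ℝ) ^ 2 :=
      le_mul_of_one_le_left (by positivity) h6
    linarith
  have hdX : ∀ d ∈ DsM a i b, (nm (b * d) : ℝ) ≤ X ^ (10 : ℝ) := by
    intro d hd
    obtain ⟨h1, h2⟩ := hdle d hd
    rw [hXe, nm_mul]
    push_cast
    calc (nm b : ℝ) * nm d ≤ Real.exp L * Real.exp (4 * L) :=
          mul_le_mul (hbg1.trans hgX1) (h2.trans hVle) (by positivity) (Real.exp_pos _).le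
      _ = Real.exp (L + 4 * L) := (Real.exp_add _ _).symm
      _ ≤ Real.exp (10 * L) := Real.exp_le_exp.2 (by linarith)
  have hcLX : cL * (Real.exp 1 * VM a i b) ≤ X ^ (10 : ℝ) := by
    have h5 : cL * (Real.exp 1 * VM a i b) ≤ cL * (Real.exp 1 * Real.exp (4 * L)) := by
      gcongr
    refine h5.trans ?_
    rw [hXe, ← Real.exp_log (show 0 < cL by linarith), ← Real.exp_add, ← Real.exp_add]
    exact Real.exp_le_exp.2 (by linarith)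
  have hη : SWin (ηC π h lam qs) (LN qs) (qs.length * Rh) := fun n hn =>
    supp_list h hRh (hP lam.1) lam.2 qs hn
  have hα : SWin (α lam a) (lM a) (3 * Rh) := fun n hn =>
    ⟨(hPS lam a n hn).1, (hPS lam a n hn).2, hwin lam a n hn⟩
  have hrr : 2 * ((qs.length : ℝ) * Rh + 3 * Rh) ≤ 2 * (N * Rh + 3 * Rh) := by
    have h1 : (qs.length : ℝ) ≤ N := by exact_mod_cast hlen _ _ _ _ _ _ _ _ Fx9
    have := mul_le_mul_of_nonneg_right h1 hRh0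
    linarith
  -- the constant
  have hH0 : 0 < H := by linarith
  have hs1 : 0 < 1 + |s| := by linarith [abs_nonneg s]
  set W : ℝ := H ^ M₀ * X ^ (ε / 4) * (1 + |s|) ^ J with hW
  have hW0 : 0 < W := by positivity
  have hexp : Real.exp (m + Real.log W) = Real.exp m * W := by
    rw [Real.exp_add, Real.exp_log hW0]
  have key := G X hX3 (ηC π h lam qs) (α lam a) (LN qs) (lM a) (qs.length * Rh) (3 * Rh) hη hα hrr
    (Real.exp a.2.2) (Real.exp_pos _).le (Real.exp (e0 * a.1.1.l)) (EM e0 a) c5 s a.2.1 b hgp hb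
    hgX hEm0 hEmX (VM a i b) hV0 hdX cL hcL hcLX bs hE.bs a.1.1.l ((X ^ (8 : ℝ)) ^ 5)
    (Hx cL a qs i b) hE.H0 Φ₀ Φ₁ (fun k d b' k' => W * Real.exp (Vf k d b' k'))
    (m + Real.log W) hE.Φ0 hE.Φ1 (fun k d b' x => by positivity)
    (fun k d b' x h1 => mul_le_mul_of_nonneg_left (Real.exp_le_exp.2 (hE.anti k d b' x h1))
      hW0.le)
    (fun k hk d hd e he b' h1 h2 => hE.dom0 k hk d (mem_filter.1 hd).1 (mem_filter.1 hd).2 e he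
      b' h1 h2)
    (fun k hk d hd e he b' h1 h2 => hE.dom1 k hk d (mem_filter.1 hd).1 (mem_filter.1 hd).2 e he
      b' h1 h2)
    (fun k hk d hd b' k' h1 h2 h3 => by
      have hd1 : d ∈ DsM a i b := (mem_filter.1 hd).1
      have hd2 := (mem_filter.1 hd).2
      have h1' : (b' : ℝ) ≤ 40 * L := by linarith
      have hkV := (mem_LI hk).2.2
      have hdp := (hdle d hd1).1
      have hnd : (1 : ℝ) ≤ nm d := one_le_nmR hdp
      have hk50 : k' ≤ 50 * L := by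
        have h4 : cL * Real.exp k / (nm d : ℝ) ^ 2 ≤ Real.exp (10 * L) := by
          rw [← hXe]
          refine le_trans (div_le_self (by positivity) (one_le_pow₀ hnd)) ?_
          exact (mul_le_mul_of_nonneg_left hkV (by linarith)).trans hcLX
        have h5 : Real.log (cL * Real.exp k / (nm d : ℝ) ^ 2) ≤ 10 * L := by
          have h6 := Real.log_le_log (by positivity) h4
          rwa [Real.log_exp] at h6
        have h7 : Real.log (nm (a.2.1 / b)) ≤ L := by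
          refine le_trans (Real.log_le_log (by linarith) hcg1) hgL
        linarith
      have hcc : GrT828.cc a.2.1 (b * d) = a.2.1 / b := LT404.cc_cop hgp hb hd2
      have hD50 : (nm (b * d) : ℝ) ≤ X ^ (50 : ℝ) := by
        refine (hdX d hd1).trans ?_
        exact Real.rpow_le_rpow_of_exponent_le hX1.le (by norm_num)
      have h4 := hCore (b * d) (hbp.mul hdp) hD50 (b' : ℝ) k' (Nat.cast_nonneg b') (by linarith)
        h2 hk50 (fun bb hbb => hE.lev k hk d hd1 hd2 b' k' h1' h2 h3 bb hbb) (Vf k d b' k')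
        (fun bb hbb l' z₁ z₂ z₃ w q0 q1 q2 q3 q4 q5' q6 q7 q8 =>
          hE.num k hk d hd1 hd2 b' k' h1' h2 h3 bb hbb l' z₁ z₂ z₃ w q0 q1 q2 q3 q4 q5' q6 q7 q8)
        (hE.bias k hk d hd1 hd2 b' k' h1' h2 h3)
      exact h4)
    (fun k hk d hd h1 b' h2 => by
      rw [hexp]
      have h4 := mul_le_mul_of_nonneg_right (hE.la k hk d (mem_filter.1 hd).1 (mem_filter.1 hd).2
        h1 b' h2) hW0.le
      calc _ = _ := by ring
        _ ≤ _ := h4)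
    (fun k hk d hd b' n h1 h2 h3 h4 => by
      rw [hexp]
      have h5 := mul_le_mul_of_nonneg_right (hE.lb k hk d (mem_filter.1 hd).1 (mem_filter.1 hd).2
        b' n h1 h2 h3 h4) hW0.le
      calc _ = _ := by ring
        _ ≤ _ := h5)
  refine le_trans (le_of_eq ?_) (key.trans ?_)
  · rfl
  rw [hexp]
  have hCX : C ≤ X ^ (ε / 4) := by
    have h4 : 4 * Real.log C / ε ≤ L := by linarith
    rw [div_le_iff₀ hε] at h4
    rw [hXe, ← Real.exp_log (show 0 < C by linarith)]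
    exact Real.exp_le_exp.2 (by linarith)
  have hlast := hE.last
  have hA0 : 0 ≤ Real.exp (-((LN qs + lM a) / 3)) * (nm a.2.1 * nm b : ℝ) ^ (1 / 3 : ℝ) *
      Real.exp m := by positivity
  have hXp : 0 ≤ X ^ (ε / 4) := by positivity
  unfold BdM
  calc C * X ^ (ε / 4) * Real.exp (-((LN qs + lM a) / 3)) *
        (nm a.2.1 * nm b : ℝ) ^ (1 / 3 : ℝ) * (Real.exp m * W) =
        C * X ^ (ε / 4) * W * (Real.exp (-((LN qs + lM a) / 3)) *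
          (nm a.2.1 * nm b : ℝ) ^ (1 / 3 : ℝ) * Real.exp m) := by ring
    _ ≤ X ^ (ε / 4) * X ^ (ε / 4) * W * (X ^ (ε / 4) *
          Real.exp (tgX (L0 (prX p)) X a qs)) := by
        refine mul_le_mul (mul_le_mul_of_nonneg_right (mul_le_mul_of_nonneg_right hCX hXp)
          hW0.le) hlast hA0 (by positivity)
    _ = H ^ M₀ * X ^ ε * Real.exp (tgX (L0 (prX p)) X a qs) * (1 + |s|) ^ J := by
        have e1 : X ^ ε = X ^ (ε / 4) * X ^ (ε / 4) * X ^ (ε / 4) * X ^ (ε / 4) := by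
          rw [← Real.rpow_add hX0, ← Real.rpow_add hX0, ← Real.rpow_add hX0]
          congr 1
          ring
        rw [hW, e1]
        ring

end Crest.Agent.R017.LTX408
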