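import Crest.Agent.R017.LTf_408

/-!
# Row 17, exceptional class (helper408): `LTG` of the differences and of the single lists

* **`ltG_D`**, **`ltG_S`** : `ltG_of` at the differences / the single lists
-/

set_option autoImplicit false

noncomputable section

open Finset Filter
open scoped Classical ComplexConjugate

namespace Crest.Agent.R017.LTX408

open Crest.Agent.R012 Crest.Agent.R012.Eis Crest.Agent.R012.Div277
open Crest.Agent.R017.FE47 (PU cx SM)
open Crest.Agent.R017.StG828 (JB mem_JB PSu)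
open Crest.Agent.R017.P1e54 Crest.Agent.R017.P1f54 Crest.Agent.R017.P1k54
open Crest.Agent.R017.P1l54 (ParOK oN)
open Crest.Agent.R017.P1u54
open Crest.Agent.R017.P1v54 (ηC supp_list FS_list)
open Crest.Agent.R017.HP842 (Pc pc alL sqc)
open Crest.Agent.R017.B770 Crest.Agent.R017.Prov71
open Crest.Agent.R017.E5B71 Crest.Agent.R017.E5L770
open Crest.Agent.R017.ExBox960 Crest.Agent.R017.ExP960
open Crest.Agent.R017.P1X960
open Crest.Agent.R017.TM708 (PD)
open Crest.Agent.R017.I1146 (LN)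
open Crest.Agent.R017.P1MU960
open Crest.Agent.R017.MmX72
open Crest.Agent.R017.P1yX72

/-- **`LTG` of the differences** -/
theorem ltG_D {Λ : Type*} {π : Λ → DPar} {h : ℝ → ℝ} {e0 c β : ℝ} (hP : ∀ lam, (π lam).OK)
    {Rh : ℝ} (hRh0 : 0 ≤ Rh) (hRh : ∀ u, cx h u ≠ 0 → |u| ≤ Rh) (he0 : e0 ≤ 1)
    {Par : Set (Fin 3 ⊕ Fin 5 → ℝ)} {L0 : (Fin 3 ⊕ Fin 5 → ℝ) → ℝ}
    {Hx : ℝ → BmX → List Pq → ℕ → Eis → ℕ → Eis → Eis → ℝ}
    {Kf Tf ℓ : (Fin 5 → ℝ) → ℝ} {dA : ℝ} {S0 : BmX → ℝ}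
    (hC : CoreG π h e0 c (okX π) (αX π h) FrD β Par Kf Tf ℓ dA S0)
    (hL : LineT π h e0 c (okX π) FrD β Par L0 Hx Kf Tf ℓ dA S0) :
    LTG π h e0 c (okX π) (αX π h) FrD β Par L0 Hx :=
  ltG_of hP hRh0 hRh he0
    (fun lam a => PSu_xD hRh (hP lam.1) lam.2 _ _ _)
    (fun lam a n hn => by
      have key : ∀ ws : Fin 3 → Pq,
          sqc 1 (alL h ((List.ofFn ws ++ []).map (Pt (π lam.1) lam.2))) n ≠ 0 →
          |Real.log (nm n) - ((ws 0).z + (ws 1).z + (ws 2).z)| ≤ 3 * Rh := by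
        intro ws hn
        have h1 := (supp_list h hRh (hP lam.1) lam.2 (List.ofFn ws ++ []) hn).2.2
        simp only [List.append_nil, List.ofFn_succ, List.ofFn_zero, List.map_cons, List.map_nil,
          List.sum_cons, List.sum_nil, List.length_cons, List.length_nil] at h1
        have e1 : (ws 0).z + ((ws (Fin.succ 0)).z + ((ws (Fin.succ 0).succ).z + 0)) =
            (ws 0).z + (ws 1).z + (ws 2).z := by
          show (ws 0).z + ((ws 1).z + ((ws 2).z + 0)) = _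
          ring
        rw [e1] at h1
        push_cast at h1
        linarith
      by_cases h1 : sqc 1 (alL h ((List.ofFn a.1.2.1 ++ []).map (Pt (π lam.1) lam.2))) n = 0
      · have h2 : sqc 1 (alL h ((List.ofFn (rzD a.1.2.1 (dz a.1.1)) ++ []).map
            (Pt (π lam.1) lam.2))) n ≠ 0 := by
          intro h2
          apply hn
          show oc a.1.2.1 (a.1.2.1 0).z (a.1.2.1 1).z * _ + _ * _ = 0
          rw [h1, h2, mul_zero, mul_zero, add_zero]
        have h3 := key _ h2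
        have e1 : (rzD a.1.2.1 (dz a.1.1) 0).z = (a.1.2.1 0).z - dz a.1.1 := rfl
        have e2 : (rzD a.1.2.1 (dz a.1.1) 1).z = (a.1.2.1 1).z + dz a.1.1 := rfl
        have e3 : (rzD a.1.2.1 (dz a.1.1) 2).z = (a.1.2.1 2).z := rfl
        rw [e1, e2, e3] at h3
        have e4 : (a.1.2.1 0).z - dz a.1.1 + ((a.1.2.1 1).z + dz a.1.1) + (a.1.2.1 2).z =
            lM a := by
          unfold lM
          ring
        rwa [e4] at h3
      · exact key _ h1)
    (fun p X τ B H N a qs F => F.pdN.len)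
    (fun p X τ τ' B H N a qs hL h1 F => FrD_mono hL F h1) hC hL

/-- **`LTG` of the single lists** -/
theorem ltG_S {Λ : Type*} {π : Λ → DPar} {h : ℝ → ℝ} {e0 c β : ℝ} (hP : ∀ lam, (π lam).OK)
    {Rh : ℝ} (hRh0 : 0 ≤ Rh) (hRh : ∀ u, cx h u ≠ 0 → |u| ≤ Rh) (he0 : e0 ≤ 1)
    {Par : Set (Fin 3 ⊕ Fin 5 → ℝ)} {L0 : (Fin 3 ⊕ Fin 5 → ℝ) → ℝ}
    {Hx : ℝ → BmX → List Pq → ℕ → Eis → ℕ → Eis → Eis → ℝ}
    {Kf Tf ℓ : (Fin 5 → ℝ) → ℝ} {dA : ℝ} {S0 : BmX → ℝ}
    (hC : CoreG π h e0 c (okS π) (αS π h) (FrS β) β Par Kf Tf ℓ dA S0)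
    (hL : LineT π h e0 c (okS π) (FrS β) β Par L0 Hx Kf Tf ℓ dA S0) :
    LTG π h e0 c (okS π) (αS π h) (FrS β) β Par L0 Hx :=
  ltG_of hP hRh0 hRh he0
    (fun lam _ => PSu_list hRh (hP lam.1) lam.2 _)
    (fun lam a n hn => by
      have h1 := (supp_list h hRh (hP lam.1) lam.2 (List.ofFn a.1.2.1) hn).2.2
      simp only [List.ofFn_succ, List.ofFn_zero, List.map_cons, List.map_nil,
        List.sum_cons, List.sum_nil, List.length_cons, List.length_nil] at h1
      have e1 : (a.1.2.1 0).z + ((a.1.2.1 (Fin.succ 0)).z +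
          ((a.1.2.1 (Fin.succ 0).succ).z + 0)) = lM a := by
        unfold lM
        show (a.1.2.1 0).z + ((a.1.2.1 1).z + ((a.1.2.1 2).z + 0)) = _
        ring
      rw [e1] at h1
      push_cast at h1
      linarith)
    (fun p X τ B H N a qs F => F.pd.elim (fun h1 => h1.len) fun h1 => h1.len)
    (fun p X τ τ' B H N a qs hL h1 F => FrS_mono hL F h1) hC hL

end Crest.Agent.R017.LTX408
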