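import Crest.Agent.R017.LVdefs_404

/-!
# Row 17, (LV): functional equation for the theta sums of pairs (`ThetaFE`)
-/

set_option autoImplicit false

noncomputable section

namespace Crest.Agent.R017.LV404

open Crest.Agent.R012
open Eis LS2 Div277
open Poisson381 (gau norm_gau summable_gau_one summable_gau poisson_gau_periodic s3 s3_eq_toC)

open Classical in
lemma prod_set {Ω P : Finset Eis} (h : P ⊆ Ω) (f : Eis → ℂ) :
    ∏ p ∈ P, f p = ∏ p ∈ Ω, if p ∈ P then f p else 1 := by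
  rw [← Finset.prod_filter]
  congr 1
  ext p
  rw [Finset.mem_filter]
  exact ⟨fun hp => ⟨h hp, hp⟩, fun hp => hp.2⟩

lemma sy_pr {P : Finset Eis} (hP : IsPS P) (n : Eis) : sy n (pr P) = ∏ p ∈ P, sy n p := by
  classical
  induction P using Finset.induction_on with
  | empty => rw [pr_empty, Finset.prod_empty, Sym645.sy_one_right]
  | insert a s ha ih =>
    have h2 := hP.mono (Finset.subset_insert a s)
    have h1 : pr (insert a s) = a * pr s := by rw [pr, Finset.prod_insert ha]; rfl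
    rw [h1, Finset.prod_insert ha,
      Sym645.syFacts.mul_right _ _ _ (hP a (Finset.mem_insert_self a s)).1 h2.prim, ih h2]

lemma sy_sq {n p : Eis} (hp : IsPrim p) : sy n p * sy n p = (starRingEnd ℂ) (sy n p) := by
  by_cases h : IsCoprime n p
  · have h1 := Tau671.sy_mul_star hp h
    have h3 := Sym645.syFacts.cube n p hp h
    have h0 : sy n p ≠ 0 := by
      intro h0
      rw [h0] at h3
      norm_num at h3
    apply mul_left_cancel₀ h0
    rw [h1, ← h3]
    ring
  · rw [(Sym645.syFacts.eq_zero n p hp).2 h]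
    simp

lemma conj_sq {n p : Eis} (hp : IsPrim p) :
    (starRingEnd ℂ) (sy n p) * (starRingEnd ℂ) (sy n p) = sy n p := by
  rw [← map_mul, sy_sq hp, Complex.conj_conj]

/-- the fixed numerator part -/
def fA (a g : Ix) : Finset Eis :=
  open Classical in (a.1 \ (g.1 ∪ g.2)) ∪ (a.2 ∩ g.1)

/-- the fixed denominator part -/
def fB (a g : Ix) : Finset Eis :=
  open Classical in (a.2 \ (g.1 ∪ g.2)) ∪ (a.1 ∩ g.2)

/-- the principal part -/
def fD (a g : Ix) : Finset Eis :=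
  open Classical in (a.1 ∩ g.1) ∪ (a.2 ∩ g.2)

open Classical in
/-- the coefficient -/
def fX (a g : Ix) (h : Eis) : ℂ :=
  if IsPS a.U then (starRingEnd ℂ) (sy h (pr (fA a g))) * sy h (pr (fB a g)) else 0

lemma fA_sub (a g : Ix) : fA a g ⊆ a.U := by
  classical
  intro p
  unfold fA Ix.U
  simp only [Finset.mem_union, Finset.mem_sdiff, Finset.mem_inter]
  tauto

lemma fB_sub (a g : Ix) : fB a g ⊆ a.U := by
  classical
  intro p
  unfold fB Ix.U
  simp only [Finset.mem_union, Finset.mem_sdiff, Finset.mem_inter]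
  tauto

lemma fD_sub (a g : Ix) : fD a g ⊆ a.U := by
  classical
  intro p
  unfold fD Ix.U
  simp only [Finset.mem_union, Finset.mem_inter]
  tauto

lemma norm_fX (a g : Ix) (h : Eis) : ‖fX a g h‖ ≤ 1 := by
  unfold fX
  split_ifs with hU
  · rw [norm_mul, RCLike.norm_conj]
    exact mul_le_one₀ (Tau671.norm_sy_le (hU.mono (fA_sub a g)).prim) (norm_nonneg _)
      (Tau671.norm_sy_le (hU.mono (fB_sub a g)).prim)
  · simp

open Classical in
/-- full numerator part of the product character -/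
def pA (a b : Ix) : Finset Eis := fA a (grp a b) ∪ (quo a b).2

open Classical in
/-- full denominator part of the product character -/
def pB (a b : Ix) : Finset Eis := fB a (grp a b) ∪ (quo a b).1

/-- principal part -/
def pD (a b : Ix) : Finset Eis := fD a (grp a b)

section
variable {a b : Ix}

lemma mem_pA {p : Eis} : p ∈ pA a b ↔ (p ∈ a.1 ∧ ¬ (p ∈ b.1 ∧ p ∈ a.U) ∧ ¬ (p ∈ b.2 ∧ p ∈ a.U)) ∨
    (p ∈ a.2 ∧ p ∈ b.1 ∧ p ∈ a.U) ∨ (p ∈ b.2 ∧ p ∉ a.U) := by
  classical
  unfold pA fA grp quo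
  simp only [Finset.mem_union, Finset.mem_sdiff, Finset.mem_inter]
  tauto

lemma mem_pB {p : Eis} : p ∈ pB a b ↔ (p ∈ a.2 ∧ ¬ (p ∈ b.1 ∧ p ∈ a.U) ∧ ¬ (p ∈ b.2 ∧ p ∈ a.U)) ∨
    (p ∈ a.1 ∧ p ∈ b.2 ∧ p ∈ a.U) ∨ (p ∈ b.1 ∧ p ∉ a.U) := by
  classical
  unfold pB fB grp quo
  simp only [Finset.mem_union, Finset.mem_sdiff, Finset.mem_inter]
  tauto

lemma mem_pD {p : Eis} : p ∈ pD a b ↔ (p ∈ a.1 ∧ p ∈ b.1 ∧ p ∈ a.U) ∨
    (p ∈ a.2 ∧ p ∈ b.2 ∧ p ∈ a.U) := by
  classical
  unfold pD fD grp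
  simp only [Finset.mem_union, Finset.mem_inter]

lemma mem_U {q : Ix} {p : Eis} : p ∈ q.U ↔ p ∈ q.1 ∨ p ∈ q.2 := by
  classical
  unfold Ix.U
  rw [Finset.mem_union]

lemma pD_disj_pA (ha : Disjoint a.1 a.2) (hb : Disjoint b.1 b.2) : Disjoint (pD a b) (pA a b) := by
  rw [Finset.disjoint_left]
  intro p
  rw [mem_pD, mem_pA]
  have h1 : p ∈ a.1 → p ∉ a.2 := fun h => Finset.disjoint_left.1 ha h
  have h2 : p ∈ b.1 → p ∉ b.2 := fun h => Finset.disjoint_left.1 hb h
  tauto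

lemma pD_disj_pB (ha : Disjoint a.1 a.2) (hb : Disjoint b.1 b.2) : Disjoint (pD a b) (pB a b) := by
  rw [Finset.disjoint_left]
  intro p
  rw [mem_pD, mem_pB]
  have h1 : p ∈ a.1 → p ∉ a.2 := fun h => Finset.disjoint_left.1 ha h
  have h2 : p ∈ b.1 → p ∉ b.2 := fun h => Finset.disjoint_left.1 hb h
  tauto

lemma pA_disj_pB (ha : Disjoint a.1 a.2) (hb : Disjoint b.1 b.2) : Disjoint (pA a b) (pB a b) := by
  rw [Finset.disjoint_left]
  intro p
  rw [mem_pA, mem_pB]
  have h1 : p ∈ a.1 → p ∉ a.2 := fun h => Finset.disjoint_left.1 ha h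
  have h2 : p ∈ b.1 → p ∉ b.2 := fun h => Finset.disjoint_left.1 hb h
  have h3 : p ∈ a.1 → p ∈ a.U := fun h => mem_U.2 (Or.inl h)
  have h4 : p ∈ a.2 → p ∈ a.U := fun h => mem_U.2 (Or.inr h)
  tauto

open Classical in
lemma union_sets : pD a b ∪ (pA a b ∪ pB a b) = a.U ∪ b.U := by
  ext p
  rw [Finset.mem_union, Finset.mem_union, Finset.mem_union, mem_pD, mem_pA, mem_pB, mem_U, mem_U]
  by_cases a1 : p ∈ a.1 <;> by_cases a2 : p ∈ a.2 <;> by_cases b1 : p ∈ b.1 <;>
    by_cases b2 : p ∈ b.2 <;> simp [a1, a2, b1, b2]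

/-- the product character -/
lemma ch_mul (ha : IsPS a.U) (hb : IsPS b.U) (hda : Disjoint a.1 a.2) (hdb : Disjoint b.1 b.2)
    (n : Eis) : open Classical in
    ch a n * (starRingEnd ℂ) (ch b n) =
      sy n (pr (pD a b ∪ pA a b)) * (starRingEnd ℂ) (sy n (pr (pD a b ∪ pB a b))) := by
  classical
  set Ω := a.U ∪ b.U with hΩ
  have hps : IsPS Ω := by
    intro p hp
    rcases Finset.mem_union.1 hp with h | h
    · exact ha p h
    · exact hb p h
  have e1 : pD a b ∪ pA a b ⊆ Ω := by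
    rw [hΩ, ← union_sets]
    intro p
    simp only [Finset.mem_union]
    tauto
  have e2 : pD a b ∪ pB a b ⊆ Ω := by
    rw [hΩ, ← union_sets]
    intro p
    simp only [Finset.mem_union]
    tauto
  have ua1 : a.1 ⊆ a.U := fun p h => mem_U.2 (Or.inl h)
  have ua2 : a.2 ⊆ a.U := fun p h => mem_U.2 (Or.inr h)
  have ub1 : b.1 ⊆ b.U := fun p h => mem_U.2 (Or.inl h)
  have ub2 : b.2 ⊆ b.U := fun p h => mem_U.2 (Or.inr h)
  have oa : a.U ⊆ Ω := Finset.subset_union_left
  have ob : b.U ⊆ Ω := Finset.subset_union_right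
  unfold ch
  rw [sy_pr (ha.mono ua1), sy_pr (ha.mono ua2), sy_pr (hb.mono ub1), sy_pr (hb.mono ub2),
    sy_pr (hps.mono e1), sy_pr (hps.mono e2)]
  simp only [map_mul, map_prod, Complex.conj_conj]
  rw [prod_set (ua1.trans oa), prod_set (ua2.trans oa), prod_set (ub1.trans ob),
    prod_set (ub2.trans ob), prod_set e1, prod_set e2]
  rw [← Finset.prod_mul_distrib, ← Finset.prod_mul_distrib, ← Finset.prod_mul_distrib,
    ← Finset.prod_mul_distrib]
  refine Finset.prod_congr rfl fun p hp => ?_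
  have hpp := (hps p hp).1
  have s1 := sy_sq (n := n) hpp
  have s2 := conj_sq (n := n) hpp
  simp only [Finset.mem_union, mem_pD, mem_pA, mem_pB]
  have h1 : p ∈ a.1 → p ∉ a.2 := fun h => Finset.disjoint_left.1 hda h
  have h2 : p ∈ b.1 → p ∉ b.2 := fun h => Finset.disjoint_left.1 hdb h
  have h3 : p ∈ a.U ↔ p ∈ a.1 ∨ p ∈ a.2 := mem_U
  clear e1 e2 ua1 ua2 ub1 ub2 oa ob hps hp
  by_cases a1 : p ∈ a.1
  · have a2 := h1 a1
    by_cases b1 : p ∈ b.1
    · have b2 := h2 b1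
      simp [a1, a2, b1, b2, h3]
    · by_cases b2 : p ∈ b.2
      · simp [a1, a2, b1, b2, h3, s1]
      · simp [a1, a2, b1, b2, h3]
  · by_cases a2 : p ∈ a.2
    · by_cases b1 : p ∈ b.1
      · have b2 := h2 b1
        simp [a1, a2, b1, b2, h3, s2]
      · by_cases b2 : p ∈ b.2
        · simp [a1, a2, b1, b2, h3, mul_comm]
        · simp [a1, a2, b1, b2, h3]
    · by_cases b1 : p ∈ b.1
      · have b2 := h2 b1
        simp [a1, a2, b1, b2, h3]
      · by_cases b2 : p ∈ b.2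
        · simp [a1, a2, b1, b2, h3]
        · simp [a1, a2, b1, b2, h3]

end

lemma gau_eq_exp {T : ℝ} (m : Eis) :
    gau T (toC m) = ((Real.exp (-(Real.pi * T * nm m)) : ℝ) : ℂ) := by
  unfold Poisson381.gau
  rw [norm_toC_sq]

lemma nm_pr_pos {P : Finset Eis} (hP : IsPS P) : 0 < (nm (pr P) : ℝ) := by
  exact_mod_cast nm_pos.2 hP.ne_zero

lemma one_le_nm_pr {P : Finset Eis} (hP : IsPS P) : (1 : ℝ) ≤ nm (pr P) := by
  exact_mod_cast nm_pos.2 hP.ne_zero

lemma nm_pr_mono {P Q : Finset Eis} (hQ : IsPS Q) (h : P ⊆ Q) : (nm (pr P) : ℝ) ≤ nm (pr Q) := by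
  classical
  have : pr Q = pr P * pr (Q \ P) := by
    rw [← pr_union Finset.disjoint_sdiff, Finset.union_sdiff_of_subset h]
  rw [this, nm_mul]
  push_cast
  have h1 := one_le_nm_pr (hQ.mono (Finset.sdiff_subset (t := P)))
  have h0 : (0 : ℝ) ≤ nm (pr P) := Nat.cast_nonneg _
  nlinarith

lemma nm_pr_union_le {P Q : Finset Eis} (hQ : IsPS Q) [DecidableEq Eis] :
    (nm (pr (P ∪ Q)) : ℝ) ≤ nm (pr P) * nm (pr Q) := by
  have : P ∪ Q = P ∪ (Q \ P) := by rw [Finset.union_sdiff_self_eq_union]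
  rw [this, pr_union Finset.disjoint_sdiff, nm_mul]
  push_cast
  have h1 := nm_pr_mono hQ (Finset.sdiff_subset (s := Q) (t := P))
  have h0 : (0 : ℝ) ≤ nm (pr P) := Nat.cast_nonneg _
  exact mul_le_mul_of_nonneg_left h1 h0

lemma sy_zero_pr {P : Finset Eis} (hP : IsPS P) (hne : P ≠ ∅) : sy 0 (pr P) = 0 := by
  obtain ⟨p, hp⟩ := Finset.nonempty_iff_ne_empty.2 hne
  rw [Sym645.syFacts.eq_zero _ _ hP.prim]
  intro hc
  rw [isCoprime_zero_left] at hc
  exact (hP p hp).2.not_isUnit (isUnit_of_dvd_unit ((hP.dvd_iff (hP p hp)).2 hp) hc)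

/-- the three parts of the pair -/
lemma nm_parts {K : ℝ} {a b : Ix} (ha : Adm K a) (hb : Adm K b) :
    (nm (pr (pD a b)) : ℝ) * (nm (pr (pA a b)) * nm (pr (pB a b))) ≤ K ^ 2 := by
  classical
  obtain ⟨a1, a2, a3⟩ := ha
  obtain ⟨b1, b2, b3⟩ := hb
  have d1 := pD_disj_pA a2 b2
  have d2 := pD_disj_pB a2 b2
  have d3 := pA_disj_pB a2 b2
  have e : (nm (pr (pD a b)) : ℝ) * (nm (pr (pA a b)) * nm (pr (pB a b))) =
      nm (pr (a.U ∪ b.U)) := by
    rw [← union_sets, pr_union (Finset.disjoint_union_right.2 ⟨d1, d2⟩), pr_union d3, nm_mul,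
      nm_mul]
    push_cast
    rfl
  rw [e]
  have h0 : (0 : ℝ) ≤ nm (pr a.U) := Nat.cast_nonneg _
  have h1 : (0 : ℝ) ≤ nm (pr b.U) := Nat.cast_nonneg _
  calc (nm (pr (a.U ∪ b.U)) : ℝ) ≤ nm (pr a.U) * nm (pr b.U) := nm_pr_union_le b1
    _ ≤ K * K := mul_le_mul a3 b3 h1 (h0.trans a3)
    _ = K ^ 2 := by ring

lemma isPS_parts {a b : Ix} (ha : IsPS a.U) (hb : IsPS b.U) :
    IsPS (pD a b) ∧ IsPS (pA a b) ∧ IsPS (pB a b) := by
  classical
  have hps : IsPS (a.U ∪ b.U) := by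
    intro p hp
    rcases Finset.mem_union.1 hp with h | h
    · exact ha p h
    · exact hb p h
  rw [← union_sets] at hps
  refine ⟨hps.mono ?_, hps.mono ?_, hps.mono ?_⟩ <;> intro p <;> simp only [Finset.mem_union] <;>
    tauto

lemma eq_of_trivial {a b : Ix} (hda : Disjoint a.1 a.2) (hdb : Disjoint b.1 b.2)
    (hA : pA a b = ∅) (hB : pB a b = ∅) : a = b := by
  have h1 : ∀ p, p ∈ a.1 → p ∉ a.2 := fun p h => Finset.disjoint_left.1 hda h
  have h2 : ∀ p, p ∈ b.1 → p ∉ b.2 := fun p h => Finset.disjoint_left.1 hdb h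
  have hA' : ∀ p, p ∉ pA a b := fun p => by rw [hA]; exact Finset.notMem_empty p
  have hB' : ∀ p, p ∉ pB a b := fun p => by rw [hB]; exact Finset.notMem_empty p
  have key : ∀ p, (p ∈ a.1 ↔ p ∈ b.1) ∧ (p ∈ a.2 ↔ p ∈ b.2) := by
    intro p
    have q1 := hA' p
    have q2 := hB' p
    have q3 := h1 p
    have q4 := h2 p
    rw [mem_pA, mem_U] at q1
    rw [mem_pB, mem_U] at q2
    clear hA' hB' h1 h2 hA hB
    by_cases a1 : p ∈ a.1 <;> by_cases a2 : p ∈ a.2 <;> by_cases b1 : p ∈ b.1 <;>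
      by_cases b2 : p ∈ b.2 <;> simp [a1, a2, b1, b2] at q1 q2 q3 q4 ⊢
  exact Prod.ext (Finset.ext fun p => (key p).1) (Finset.ext fun p => (key p).2)

open Classical in
theorem thetaFE : ThetaFE := by
  refine ⟨fX, norm_fX, fun K a b ha hb hne Z hZ => ?_⟩
  obtain ⟨a1, a2, a3⟩ := id ha
  obtain ⟨b1, b2, b3⟩ := id hb
  have d1 := pD_disj_pA a2 b2
  have d2 := pD_disj_pB a2 b2
  have d3 := pA_disj_pB a2 b2
  have hparts := nm_parts ha hb
  obtain ⟨pD1, pA1, pB1⟩ := isPS_parts a1 b1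
  set A := pA a b with hA
  set B := pB a b with hB
  set D := pD a b with hD
  have hπ := Real.pi_pos
  have hnA := nm_pr_pos pA1
  have hnB := nm_pr_pos pB1
  have hnD := nm_pr_pos pD1
  have hK1 : 0 < K := lt_of_lt_of_le (nm_pr_pos a1) a3
  set Y : Finset Eis → ℝ := fun E => if E ⊆ D then
    4 * Real.pi ^ 2 * Z / (3 * (nm (pr E) * (nm (pr A) * nm (pr B))))
    else 4 * Real.pi ^ 2 * Z / (3 * K ^ 2) with hY
  refine ⟨Y, ?_, ?_⟩
  · intro E hE
    rw [hY]
    dsimp only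
    split_ifs with h
    · have hnE := nm_pr_pos (pD1.mono h)
      apply div_le_div_of_nonneg_left (by positivity) (by positivity)
      have := nm_pr_mono pD1 h
      have h2 : (nm (pr E) : ℝ) * (nm (pr A) * nm (pr B)) ≤ nm (pr D) * (nm (pr A) * nm (pr B)) :=
        mul_le_mul_of_nonneg_right this (by positivity)
      linarith
    · exact le_rfl
  · set t : ℝ := 1 / (Real.pi * Z) with ht
    have ht0 : 0 < t := by positivity
    have hi : (D ∪ A) ∩ (D ∪ B) = D := by
      rw [← Finset.union_inter_distrib_left, Finset.disjoint_iff_inter_eq_empty.1 d3,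
        Finset.union_empty]
    have hs1 : (D ∪ A) \ D = A := by
      rw [Finset.union_sdiff_left, Finset.sdiff_eq_self_of_disjoint d1.symm]
    have hs2 : (D ∪ B) \ D = B := by
      rw [Finset.union_sdiff_left, Finset.sdiff_eq_self_of_disjoint d2.symm]
    have hDA : IsPS (D ∪ A) := by
      intro p hp
      rcases Finset.mem_union.1 hp with h | h
      · exact pD1 p h
      · exact pA1 p h
    have hDB : IsPS (D ∪ B) := by
      intro p hp
      rcases Finset.mem_union.1 hp with h | h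
      · exact pD1 p h
      · exact pB1 p h
    have hTh : Th a b Z = ∑' m : Eis, (sy m (pr (D ∪ A)) * (starRingEnd ℂ) (sy m (pr (D ∪ B)))) *
        gau t (toC m) := by
      unfold Th
      apply tsum_congr
      intro m
      rw [ch_mul a1 b1 a2 b2, gau_eq_exp, mul_comm]
      congr 4
      rw [ht]
      field_simp
    have hf := pair_formula Sym645.syFacts Gauss880.syG ht0 hDA hDB
    rw [hi, hs1, hs2] at hf
    rw [hTh, hf]
    have hsub : D.powerset ⊆ a.U.powerset := Finset.powerset_mono.2 (fD_sub a _)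
    refine le_trans ?_ (Finset.sum_le_sum_of_subset_of_nonneg hsub (fun E _ _ => by positivity))
    refine (norm_sum_le _ _).trans (Finset.sum_le_sum fun E hE => ?_)
    have hED := Finset.mem_powerset.1 hE
    have hnE := nm_pr_pos (pD1.mono hED)
    have hnE1 := one_le_nm_pr (pD1.mono hED)
    have hYE : Y E = 4 * Real.pi ^ 2 * Z / (3 * (nm (pr E) * (nm (pr A) * nm (pr B)))) := by
      rw [hY]; dsimp only; rw [if_pos hED]
    -- the dual sum
    set κ : ℂ := (sy (pr E) (pr A) * sy sq3 (pr A) * gs 1 (pr A) / (nm (pr A) : ℂ)) *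
      (starRingEnd ℂ) (sy (pr E) (pr B) * sy sq3 (pr B) * gs 1 (pr B) / (nm (pr B) : ℂ)) with hκ
    have hsum : (∑' h : Eis, gau (4 / (3 * (t * nm (pr E) * (nm (pr A) * nm (pr B))))) (toC h) *
        (U (pr E) h (pr A) * (starRingEnd ℂ) (U (pr E) h (pr B)))) =
        κ * FF (fX a (grp a b)) (quo a b) (Y E) := by
      unfold FF
      rw [← tsum_mul_left]
      apply tsum_congr
      intro h
      have hX : fX a (grp a b) h * ch (quo a b) h =
          (starRingEnd ℂ) (sy h (pr A)) * sy h (pr B) := by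
        unfold fX ch
        rw [if_pos a1]
        have f1 : A = fA a (grp a b) ∪ (quo a b).2 := rfl
        have f2 : B = fB a (grp a b) ∪ (quo a b).1 := rfl
        have g1 : Disjoint (fA a (grp a b)) (quo a b).2 := by
          rw [Finset.disjoint_left]
          intro p hp hq
          exact (Finset.mem_sdiff.1 hq).2 (fA_sub _ _ hp)
        have g2 : Disjoint (fB a (grp a b)) (quo a b).1 := by
          rw [Finset.disjoint_left]
          intro p hp hq
          exact (Finset.mem_sdiff.1 hq).2 (fB_sub _ _ hp)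
        have i1 : IsPS (fA a (grp a b)) := a1.mono (fA_sub _ _)
        have i2 : IsPS (fB a (grp a b)) := a1.mono (fB_sub _ _)
        have i3 : IsPS (quo a b).1 := b1.mono fun p hp => mem_U.2 (Or.inl (Finset.mem_sdiff.1 hp).1)
        have i4 : IsPS (quo a b).2 := b1.mono fun p hp => mem_U.2 (Or.inr (Finset.mem_sdiff.1 hp).1)
        rw [f1, f2, pr_union g1, pr_union g2, Sym645.syFacts.mul_right _ _ _ i1.prim i4.prim,
          Sym645.syFacts.mul_right _ _ _ i2.prim i3.prim, map_mul]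
        ring
      by_cases h0 : h = 0
      · rw [if_pos h0, mul_zero]
        have : (starRingEnd ℂ) (sy h (pr A)) * sy h (pr B) = 0 := by
          subst h0
          by_cases hAe : A = ∅
          · have hBe : B ≠ ∅ := fun hBe => hne (eq_of_trivial a2 b2 hAe hBe)
            rw [sy_zero_pr pB1 hBe, mul_zero]
          · rw [sy_zero_pr pA1 hAe, map_zero, zero_mul]
        unfold U
        simp only [map_mul, map_div₀, Complex.conj_conj, map_natCast]
        linear_combination (gau (4 / (3 * (t * nm (pr E) * (nm (pr A) * nm (pr B))))) (toC h) *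
          (sy (pr E) (pr A) * sy sq3 (pr A) * gs 1 (pr A) / (nm (pr A) : ℂ)) *
          ((starRingEnd ℂ) (sy (pr E) (pr B)) * (starRingEnd ℂ) (sy sq3 (pr B)) *
            (starRingEnd ℂ) (gs 1 (pr B)) / (nm (pr B) : ℂ))) * this
      · rw [if_neg h0, hX]
        have hg : gau (4 / (3 * (t * nm (pr E) * (nm (pr A) * nm (pr B))))) (toC h) =
            ((Real.exp (-((nm h : ℝ) * Y E)) : ℝ) : ℂ) := by
          rw [gau_eq_exp, hYE, ht]
          congr 2
          field_simp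
        rw [hg, hκ]
        unfold U
        simp only [map_mul, map_div₀, Complex.conj_conj, map_natCast]
        ring
    have hκn : ‖κ‖ ≤ 1 / Real.sqrt (nm (pr A)) * (1 / Real.sqrt (nm (pr B))) := by
      rw [hκ, norm_mul, RCLike.norm_conj]
      have hh : ∀ P : Finset Eis, IsPS P → ‖sy (pr E) (pr P) * sy sq3 (pr P) * gs 1 (pr P) /
          (nm (pr P) : ℂ)‖ ≤ 1 / Real.sqrt (nm (pr P)) := by
        intro P hP
        have hP0 := nm_pr_pos hP
        rw [norm_div, norm_mul, norm_mul, Gauss880.norm_gs Gauss880.syG hP.prim hP.squarefree isCoprime_one_left,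
          Complex.norm_natCast]
        have b1 := Tau671.norm_sy_le hP.prim (x := pr E)
        have b2 := Tau671.norm_sy_le hP.prim (x := sq3)
        have hsq : Real.sqrt (nm (pr P)) * Real.sqrt (nm (pr P)) = nm (pr P) :=
          Real.mul_self_sqrt hP0.le
        have hsp : 0 < Real.sqrt (nm (pr P)) := Real.sqrt_pos.2 hP0
        rw [div_le_div_iff₀ hP0 hsp, one_mul]
        have hle : ‖sy (pr E) (pr P)‖ * ‖sy sq3 (pr P)‖ ≤ 1 := mul_le_one₀ b1 (norm_nonneg _) b2
        calc ‖sy (pr E) (pr P)‖ * ‖sy sq3 (pr P)‖ * Real.sqrt (nm (pr P)) * Real.sqrt (nm (pr P))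
            = (‖sy (pr E) (pr P)‖ * ‖sy sq3 (pr P)‖) *
              (Real.sqrt (nm (pr P)) * Real.sqrt (nm (pr P))) := by ring
          _ = (‖sy (pr E) (pr P)‖ * ‖sy sq3 (pr P)‖) * nm (pr P) := by rw [hsq]
          _ ≤ 1 * nm (pr P) := by gcongr
          _ = _ := one_mul _
      exact mul_le_mul (hh A pA1) (hh B pB1) (norm_nonneg _) (by positivity)
    rw [hsum, norm_mul, norm_mul, norm_mul, norm_pow, norm_neg, norm_one, one_pow, one_mul,
      Complex.norm_real, Real.norm_of_nonneg (by positivity), ← mul_assoc]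
    refine mul_le_mul_of_nonneg_right ?_ (norm_nonneg _)
    have e1 : 2 / Real.sqrt 3 * (t * nm (pr E))⁻¹ * ‖κ‖ ≤ 2 / Real.sqrt 3 * (t * nm (pr E))⁻¹ *
        (1 / Real.sqrt (nm (pr A)) * (1 / Real.sqrt (nm (pr B)))) := by gcongr
    refine e1.trans ?_
    apply Real.le_sqrt_of_sq_le
    rw [hYE, mul_pow, mul_pow, mul_pow, div_pow, div_pow, div_pow, inv_pow, mul_pow,
      Real.sq_sqrt (by norm_num), Real.sq_sqrt hnA.le, Real.sq_sqrt hnB.le, ht]
    have : (nm (pr E) : ℝ) ≤ (nm (pr E) : ℝ) ^ 2 := by nlinarith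
    rw [show (2 : ℝ) ^ 2 / 3 * ((1 / (Real.pi * Z)) ^ 2 * (nm (pr E) : ℝ) ^ 2)⁻¹ *
      (1 ^ 2 / (nm (pr A) : ℝ) * (1 ^ 2 / (nm (pr B) : ℝ))) =
      4 * Real.pi ^ 2 * Z ^ 2 / (3 * ((nm (pr E) : ℝ) ^ 2 * (nm (pr A) * nm (pr B)))) by
        field_simp; ring]
    rw [show Z * (4 * Real.pi ^ 2 * Z / (3 * ((nm (pr E) : ℝ) * (nm (pr A) * nm (pr B))))) =
      4 * Real.pi ^ 2 * Z ^ 2 / (3 * ((nm (pr E) : ℝ) * (nm (pr A) * nm (pr B)))) by
        ring]
    apply div_le_div_of_nonneg_left (by positivity) (by positivity)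
    have := mul_le_mul_of_nonneg_right this (by positivity : (0:ℝ) ≤ nm (pr A) * nm (pr B))
    linarith

end Crest.Agent.R017.LV404
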