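import Crest.Agent.R017.LVdefs_404
import Crest.Agent.R012.EdgeA_79
import Crest.Agent.R012.DualTail_811

/-!
# Row 17, (LV2), part 1: duality (helper164)

* `duality` : `∑_{q ∈ T} |∑_{n ∈ F} c n ch q n|² ≤ e Δ ∑ |c|²` when every row sum of the theta
  matrix is at most `Δ`, `F` inside `nm n ≤ Z`
-/

set_option autoImplicit false

noncomputable section

namespace Crest.Agent.R017.LV164

open Crest.Agent.R012 Crest.Agent.R017.LV404
open Eis LS2 Div277 Gauss880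
open scoped BigOperators

/-- both prime sets consist of primary primes -/
def PS2 (q : Ix) : Prop := IsPS q.1 ∧ IsPS q.2

lemma ps2_of_adm {K : ℝ} {q : Ix} (h : Adm K q) : PS2 q := by
  classical
  refine ⟨fun p hp => h.1 p ?_, fun p hp => h.1 p ?_⟩
  · unfold Ix.U; exact Finset.mem_union_left _ hp
  · unfold Ix.U; exact Finset.mem_union_right _ hp

lemma ch_mul {q : Ix} (h : PS2 q) (m n : Eis) : ch q (m * n) = ch q m * ch q n := by
  unfold ch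
  rw [syG.mul_left _ _ _ h.1.prim, syG.mul_left _ _ _ h.2.prim, map_mul]
  ring

lemma norm_ch_le {q : Ix} (h : PS2 q) (n : Eis) : ‖ch q n‖ ≤ 1 := by
  unfold ch
  rw [norm_mul, RCLike.norm_conj]
  exact mul_le_one₀ (norm_sy_le syG h.1.prim) (norm_nonneg _) (norm_sy_le syG h.2.prim)

lemma summable_expZ {Z : ℝ} (hZ : 0 < Z) :
    Summable fun h : Eis => Real.exp (-(nm h : ℝ) / Z) := by
  refine (Edge79.summable_exp (c := 1 / Z) (by positivity)).congr fun h => ?_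
  congr 1; ring

lemma tsum_expZ_le {Z : ℝ} (hZ : 0 < Z) :
    ∑' h : Eis, Real.exp (-(nm h : ℝ) / Z) ≤ 1 + 100 * Z := by
  have h := Edge79.tsum_exp_le (c := 1 / Z) (by positivity)
  have e : (100 : ℝ) / (1 / Z) = 100 * Z := by field_simp
  rw [e] at h
  refine le_trans (le_of_eq (tsum_congr fun h => ?_)) h
  congr 1; ring

lemma norm_pair_le {a b : Ix} (ha : PS2 a) (hb : PS2 b) (n : Eis) :
    ‖ch a n * (starRingEnd ℂ) (ch b n)‖ ≤ 1 := by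
  rw [norm_mul, RCLike.norm_conj]
  exact mul_le_one₀ (norm_ch_le ha n) (norm_nonneg _) (norm_ch_le hb n)

lemma summable_Th {a b : Ix} (ha : PS2 a) (hb : PS2 b) {Z : ℝ} (hZ : 0 < Z) :
    Summable fun n : Eis => ((Real.exp (-(nm n : ℝ) / Z) : ℝ) : ℂ) *
      (ch a n * (starRingEnd ℂ) (ch b n)) := by
  refine Summable.of_norm_bounded (summable_expZ hZ) fun n => ?_
  rw [norm_mul, Complex.norm_real, Real.norm_of_nonneg (Real.exp_pos _).le]
  exact mul_le_of_le_one_right (Real.exp_pos _).le (norm_pair_le ha hb n)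

lemma norm_Th_le {a b : Ix} (ha : PS2 a) (hb : PS2 b) {Z : ℝ} (hZ : 0 < Z) :
    ‖Th a b Z‖ ≤ 1 + 100 * Z := by
  refine le_trans ?_ (tsum_expZ_le hZ)
  unfold Th
  refine tsum_of_norm_bounded (summable_expZ hZ).hasSum fun n => ?_
  rw [norm_mul, Complex.norm_real, Real.norm_of_nonneg (Real.exp_pos _).le]
  exact mul_le_of_le_one_right (Real.exp_pos _).le (norm_pair_le ha hb n)

lemma Th_symm (a b : Ix) (Z : ℝ) : ‖Th a b Z‖ = ‖Th b a Z‖ := by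
  have h : Th b a Z = (starRingEnd ℂ) (Th a b Z) := by
    unfold Th
    rw [Complex.conj_tsum]
    refine tsum_congr fun n => ?_
    rw [map_mul, map_mul, Complex.conj_conj, Complex.conj_ofReal]
    ring
  rw [h, RCLike.norm_conj]

/-- expansion of the weighted square -/
lemma tsum_sq {T : Finset Ix} (hT : ∀ q ∈ T, PS2 q) {Z : ℝ} (hZ : 0 < Z) (u : Ix → ℂ) :
    (((∑' n : Eis, Real.exp (-(nm n : ℝ) / Z) * ‖∑ q ∈ T, u q * ch q n‖ ^ 2 : ℝ)) : ℂ) =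
      ∑ a ∈ T, ∑ b ∈ T, u a * (starRingEnd ℂ) (u b) * Th a b Z := by
  rw [Complex.ofReal_tsum]
  have h1 : ∀ a ∈ T, ∀ b ∈ T, u a * (starRingEnd ℂ) (u b) * Th a b Z =
      ∑' n : Eis, u a * (starRingEnd ℂ) (u b) * (((Real.exp (-(nm n : ℝ) / Z) : ℝ) : ℂ) *
        (ch a n * (starRingEnd ℂ) (ch b n))) := by
    intro a _ b _
    unfold Th
    rw [tsum_mul_left]
  rw [Finset.sum_congr rfl fun a ha => Finset.sum_congr rfl fun b hb => h1 a ha b hb]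
  have h2 : ∀ a ∈ T, ∀ b ∈ T, Summable fun n : Eis =>
      u a * (starRingEnd ℂ) (u b) * (((Real.exp (-(nm n : ℝ) / Z) : ℝ) : ℂ) *
        (ch a n * (starRingEnd ℂ) (ch b n))) :=
    fun a ha b hb => (summable_Th (hT a ha) (hT b hb) hZ).mul_left _
  rw [Finset.sum_congr rfl fun a ha => (Summable.tsum_finsetSum fun b hb => h2 a ha b hb).symm]
  rw [← Summable.tsum_finsetSum fun a ha => summable_sum fun b hb => h2 a ha b hb]
  refine tsum_congr fun n => ?_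
  rw [Complex.ofReal_mul, Complex.ofReal_pow, ← Complex.mul_conj', map_sum, Finset.sum_mul_sum,
    Finset.mul_sum]
  refine Finset.sum_congr rfl fun a _ => ?_
  rw [Finset.mul_sum]
  refine Finset.sum_congr rfl fun b _ => ?_
  rw [map_mul]
  ring

lemma summable_sq {T : Finset Ix} (hT : ∀ q ∈ T, PS2 q) {Z : ℝ} (hZ : 0 < Z) (u : Ix → ℂ) :
    Summable fun n : Eis => Real.exp (-(nm n : ℝ) / Z) * ‖∑ q ∈ T, u q * ch q n‖ ^ 2 := by
  refine Summable.of_nonneg_of_le (fun n => by positivity) (fun n => ?_)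
    ((summable_expZ hZ).mul_right ((∑ q ∈ T, ‖u q‖) ^ 2))
  have h1 : ‖∑ q ∈ T, u q * ch q n‖ ≤ ∑ q ∈ T, ‖u q‖ := by
    refine (norm_sum_le _ _).trans (Finset.sum_le_sum fun q hq => ?_)
    rw [norm_mul]
    exact mul_le_of_le_one_right (norm_nonneg _) (norm_ch_le (hT q hq) n)
  have h2 := norm_nonneg (∑ q ∈ T, u q * ch q n)
  gcongr

/-- Schur bound for the quadratic form -/
lemma form_le {T : Finset Ix} {Z Δ : ℝ}
    (hrow : ∀ a ∈ T, ∑ b ∈ T, ‖Th a b Z‖ ≤ Δ) (u : Ix → ℂ) :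
    ‖∑ a ∈ T, ∑ b ∈ T, u a * (starRingEnd ℂ) (u b) * Th a b Z‖ ≤ Δ * ∑ a ∈ T, ‖u a‖ ^ 2 := by
  have h1 : ‖∑ a ∈ T, ∑ b ∈ T, u a * (starRingEnd ℂ) (u b) * Th a b Z‖ ≤
      ∑ a ∈ T, ∑ b ∈ T, (‖u a‖ ^ 2 / 2 * ‖Th a b Z‖ + ‖u b‖ ^ 2 / 2 * ‖Th b a Z‖) := by
    refine (norm_sum_le _ _).trans (Finset.sum_le_sum fun a _ => ?_)
    refine (norm_sum_le _ _).trans (Finset.sum_le_sum fun b _ => ?_)
    rw [norm_mul, norm_mul, RCLike.norm_conj, ← Th_symm a b]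
    have h := norm_nonneg (Th a b Z)
    have h2 : ‖u a‖ * ‖u b‖ ≤ ‖u a‖ ^ 2 / 2 + ‖u b‖ ^ 2 / 2 := by
      nlinarith [sq_nonneg (‖u a‖ - ‖u b‖)]
    calc _ ≤ (‖u a‖ ^ 2 / 2 + ‖u b‖ ^ 2 / 2) * ‖Th a b Z‖ := by gcongr
      _ = _ := by ring
  refine h1.trans ?_
  simp_rw [Finset.sum_add_distrib]
  rw [Finset.sum_comm (f := fun a b => ‖u b‖ ^ 2 / 2 * ‖Th b a Z‖)]
  simp_rw [← Finset.mul_sum]
  rw [← Finset.sum_add_distrib, Finset.mul_sum]
  refine Finset.sum_le_sum fun a ha => ?_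
  have h2 := hrow a ha
  have h3 : 0 ≤ ‖u a‖ ^ 2 := by positivity
  nlinarith

/-- **duality** -/
theorem duality {T : Finset Ix} (hT : ∀ q ∈ T, PS2 q) {Z Δ : ℝ} (hZ : 0 < Z) (hΔ : 0 ≤ Δ)
    (hrow : ∀ a ∈ T, ∑ b ∈ T, ‖Th a b Z‖ ≤ Δ) {F : Finset Eis}
    (hF : ∀ n ∈ F, (nm n : ℝ) ≤ Z) (c : Eis → ℂ) :
    ∑ q ∈ T, ‖∑ n ∈ F, c n * ch q n‖ ^ 2 ≤ Real.exp 1 * Δ * ∑ n ∈ F, ‖c n‖ ^ 2 := by
  set A : Ix → ℂ := fun q => ∑ n ∈ F, c n * ch q n with hA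
  set w : Eis → ℂ := fun n => ∑ q ∈ T, (starRingEnd ℂ) (A q) * ch q n with hw
  set X : ℝ := ∑ q ∈ T, ‖A q‖ ^ 2 with hX
  have hX0 : 0 ≤ X := Finset.sum_nonneg fun _ _ => by positivity
  have hG0 : 0 ≤ ∑ n ∈ F, ‖c n‖ ^ 2 := Finset.sum_nonneg fun _ _ => by positivity
  have e1 : (X : ℂ) = ∑ n ∈ F, c n * w n := by
    rw [hX, Complex.ofReal_sum]
    have : ∀ q ∈ T, ((‖A q‖ ^ 2 : ℝ) : ℂ) = ∑ n ∈ F, c n * ((starRingEnd ℂ) (A q) * ch q n) := by
      intro q _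
      rw [Complex.ofReal_pow, ← Complex.mul_conj']
      conv_lhs => rw [hA]
      simp only
      rw [Finset.sum_mul]
      exact Finset.sum_congr rfl fun n _ => by rw [hA]; ring
    rw [Finset.sum_congr rfl this, Finset.sum_comm]
    exact Finset.sum_congr rfl fun n _ => by rw [hw, Finset.mul_sum]
  have e2 : ∑ n ∈ F, ‖w n‖ ^ 2 ≤ Real.exp 1 * (Δ * X) := by
    have h1 : ∑ n ∈ F, ‖w n‖ ^ 2 ≤
        Real.exp 1 * ∑ n ∈ F, Real.exp (-(nm n : ℝ) / Z) * ‖w n‖ ^ 2 := by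
      rw [Finset.mul_sum]
      refine Finset.sum_le_sum fun n hn => ?_
      rw [← mul_assoc, ← Real.exp_add]
      have h2 : (1 : ℝ) ≤ Real.exp (1 + -(nm n : ℝ) / Z) := by
        apply Real.one_le_exp
        have : (nm n : ℝ) / Z ≤ 1 := (div_le_one hZ).mpr (hF n hn)
        rw [neg_div]; linarith
      have h3 : 0 ≤ ‖w n‖ ^ 2 := by positivity
      nlinarith
    refine h1.trans ?_
    gcongr
    have h4 := (summable_sq hT hZ (fun q => (starRingEnd ℂ) (A q))).sum_le_tsum F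
      (fun n _ => by positivity)
    refine h4.trans ?_
    have h5 := tsum_sq hT hZ (fun q => (starRingEnd ℂ) (A q))
    have h6 := form_le hrow (fun q => (starRingEnd ℂ) (A q))
    rw [← h5, Complex.norm_real] at h6
    refine (Real.le_norm_self _).trans (h6.trans (le_of_eq ?_))
    rw [hX]
    congr 1
    exact Finset.sum_congr rfl fun q _ => by rw [RCLike.norm_conj]
  have e3 : X ^ 2 ≤ (∑ n ∈ F, ‖c n‖ ^ 2) * ∑ n ∈ F, ‖w n‖ ^ 2 := by
    have h1 : X ≤ ∑ n ∈ F, ‖c n‖ * ‖w n‖ := by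
      have h2 : X = ‖(X : ℂ)‖ := by rw [Complex.norm_real, Real.norm_of_nonneg hX0]
      rw [h2, e1]
      refine (norm_sum_le _ _).trans (Finset.sum_le_sum fun n _ => ?_)
      rw [norm_mul]
    calc X ^ 2 ≤ (∑ n ∈ F, ‖c n‖ * ‖w n‖) ^ 2 := by gcongr
      _ ≤ _ := Finset.sum_mul_sq_le_sq_mul_sq _ _ _
  have e4 : X ^ 2 ≤ (Real.exp 1 * Δ * ∑ n ∈ F, ‖c n‖ ^ 2) * X := by
    refine e3.trans ?_
    calc _ ≤ (∑ n ∈ F, ‖c n‖ ^ 2) * (Real.exp 1 * (Δ * X)) := by gcongr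
      _ = _ := by ring
  rcases hX0.eq_or_lt with h0 | h0
  · change X ≤ _
    rw [← h0]
    positivity
  · have : X * X ≤ (Real.exp 1 * Δ * ∑ n ∈ F, ‖c n‖ ^ 2) * X := by rw [← sq]; exact e4
    exact le_of_mul_le_mul_right this h0

end Crest.Agent.R017.LV164
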