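import Crest.Agent.R017.LVb1_164

/-!
# Row 17, (LV2), part 2: sharp sums and Abel summation (helper164)

* `SS X q j`  : `∑_{0 < nm h ≤ j} X h ch q h`
* `FF_le`     : `√y |FF X q y| ≤ ∑_{j ≤ N} (j √j)⁻¹ |SS j| + (√N)⁻¹ |SS N| + tail`
* `tail_le`   : the tail is bounded
-/

set_option autoImplicit false

noncomputable section

namespace Crest.Agent.R017.LV164

open Crest.Agent.R012 Crest.Agent.R017.LV404
open Eis LS2 Div277 Gauss880
open scoped BigOperators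

/-- sharp sum -/
def SS (X : Eis → ℂ) (q : Ix) (j : ℕ) : ℂ := ∑ h ∈ nz j, X h * ch q h

lemma nz_zero : nz 0 = ∅ := by
  ext x
  rw [mem_nz]
  simp only [Finset.notMem_empty, iff_false]
  rintro ⟨h1, h2⟩
  exact h1 (nm_eq_zero.mp (Nat.le_zero.mp h2))

/-- Abel summation -/
lemma abel (f : Eis → ℂ) (E : ℕ → ℝ) (N : ℕ) :
    ∑ h ∈ nz N, ((E (nm h) : ℝ) : ℂ) * f h =
      ∑ j ∈ Finset.Icc 1 N, ((E j - E (j + 1) : ℝ) : ℂ) * ∑ h ∈ nz j, f h +
        ((E (N + 1) : ℝ) : ℂ) * ∑ h ∈ nz N, f h := by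
  induction N with
  | zero => simp [nz_zero]
  | succ N ih =>
    have h1 : ∀ g : Eis → ℂ, ∑ h ∈ nz (N + 1), g h =
        ∑ h ∈ nz (N + 1) \ nz N, g h + ∑ h ∈ nz N, g h := fun g =>
      (Finset.sum_sdiff (nz_mono (Nat.le_succ N))).symm
    rw [h1 (fun h => ((E (nm h) : ℝ) : ℂ) * f h), ih]
    have h2 : ∑ h ∈ nz (N + 1) \ nz N, ((E (nm h) : ℝ) : ℂ) * f h =
        ((E (N + 1) : ℝ) : ℂ) * ∑ h ∈ nz (N + 1) \ nz N, f h := by
      rw [Finset.mul_sum]
      refine Finset.sum_congr rfl fun h hh => ?_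
      rw [Finset.mem_sdiff, mem_nz, mem_nz] at hh
      have : nm h = N + 1 := by
        have h3 := hh.1.2
        have h4 : ¬ nm h ≤ N := fun h => hh.2 ⟨hh.1.1, h⟩
        omega
      rw [this]
    rw [h2, Finset.sum_Icc_succ_top (Nat.le_add_left 1 N), h1 f]
    push_cast
    ring

lemma sqrt_le_half {x : ℝ} (hx : 0 ≤ x) : Real.sqrt x ≤ (1 + x) / 2 := by
  have h1 := Real.sq_sqrt hx
  nlinarith [sq_nonneg (Real.sqrt x - 1)]

lemma three_half_le {x : ℝ} (hx : 0 ≤ x) : Real.sqrt x * x * Real.exp (-x) ≤ 1 := by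
  have h1 := sqrt_le_half hx
  have h2 := Real.quadratic_le_exp_of_nonneg hx
  rw [Real.exp_neg, ← div_eq_mul_inv, div_le_one (Real.exp_pos _)]
  have h3 : Real.sqrt x * x ≤ (1 + x) / 2 * x := by gcongr
  nlinarith

lemma half_le {x : ℝ} (hx : 0 ≤ x) : Real.sqrt x * Real.exp (-x) ≤ 1 := by
  have h1 := sqrt_le_half hx
  have h2 := Real.add_one_le_exp x
  rw [Real.exp_neg, ← div_eq_mul_inv, div_le_one (Real.exp_pos _)]
  linarith

lemma one_sub_exp_le (y : ℝ) : 1 - Real.exp (-y) ≤ y := by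
  have := Real.add_one_le_exp (-y)
  linarith

/-- the weights of the sharp sums -/
lemma weight1 {y : ℝ} (hy : 0 < y) {j : ℕ} (hj : 1 ≤ j) :
    Real.sqrt y * (Real.exp (-((j : ℝ) * y)) - Real.exp (-(((j + 1 : ℕ) : ℝ) * y))) ≤
      ((j : ℝ) * Real.sqrt j)⁻¹ := by
  have hj0 : (0 : ℝ) < j := by exact_mod_cast hj
  have hs : 0 < Real.sqrt j := Real.sqrt_pos.mpr hj0
  rw [← one_div, le_div_iff₀ (by positivity)]
  have e1 : Real.exp (-(((j + 1 : ℕ) : ℝ) * y)) = Real.exp (-((j : ℝ) * y)) * Real.exp (-y) := by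
    rw [← Real.exp_add]; congr 1; push_cast; ring
  rw [e1]
  have h1 := one_sub_exp_le y
  have h2 := three_half_le (x := j * y) (by positivity)
  rw [Real.sqrt_mul hj0.le] at h2
  have h3 := Real.exp_pos (-((j : ℝ) * y))
  have h4 : 0 ≤ Real.sqrt y := Real.sqrt_nonneg y
  calc _ = (Real.sqrt j * Real.sqrt y * j * Real.exp (-((j : ℝ) * y))) * (1 - Real.exp (-y)) := by
        ring
    _ ≤ (Real.sqrt j * Real.sqrt y * j * Real.exp (-((j : ℝ) * y))) * y := by gcongr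
    _ = Real.sqrt j * Real.sqrt y * (j * y) * Real.exp (-((j : ℝ) * y)) := by ring
    _ ≤ 1 := h2

lemma weight2 {y : ℝ} (hy : 0 < y) {N : ℕ} (hN : 1 ≤ N) :
    Real.sqrt y * Real.exp (-(((N + 1 : ℕ) : ℝ) * y)) ≤ (Real.sqrt N)⁻¹ := by
  have hj0 : (0 : ℝ) < N := by exact_mod_cast hN
  have hs : 0 < Real.sqrt N := Real.sqrt_pos.mpr hj0
  rw [← one_div, le_div_iff₀ (by positivity)]
  have h2 := half_le (x := N * y) (by positivity)
  rw [Real.sqrt_mul hj0.le] at h2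
  have h4 : 0 ≤ Real.sqrt y := Real.sqrt_nonneg y
  have h5 : Real.exp (-(((N + 1 : ℕ) : ℝ) * y)) ≤ Real.exp (-((N : ℝ) * y)) := by
    apply Real.exp_le_exp.mpr
    push_cast
    nlinarith
  calc _ ≤ Real.sqrt y * Real.exp (-((N : ℝ) * y)) * Real.sqrt N := by gcongr
    _ = Real.sqrt N * Real.sqrt y * Real.exp (-((N : ℝ) * y)) := by ring
    _ ≤ 1 := h2

/-- the head of the dual theta sum -/
lemma head_le {y : ℝ} (hy : 0 < y) {N : ℕ} (hN : 1 ≤ N) (X : Eis → ℂ) (q : Ix) :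
    Real.sqrt y * ‖∑ h ∈ nz N, ((Real.exp (-((nm h : ℝ) * y)) : ℝ) : ℂ) * (X h * ch q h)‖ ≤
      ∑ j ∈ Finset.Icc 1 N, ((j : ℝ) * Real.sqrt j)⁻¹ * ‖SS X q j‖ +
        (Real.sqrt N)⁻¹ * ‖SS X q N‖ := by
  have h0 := abel (fun h => X h * ch q h) (fun j => Real.exp (-((j : ℝ) * y))) N
  rw [h0]
  have h4 : 0 ≤ Real.sqrt y := Real.sqrt_nonneg y
  have hE : ∀ j : ℕ, 0 ≤ Real.exp (-((j : ℝ) * y)) - Real.exp (-(((j + 1 : ℕ) : ℝ) * y)) := by
    intro j
    rw [sub_nonneg]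
    apply Real.exp_le_exp.mpr
    push_cast
    nlinarith
  calc _ ≤ Real.sqrt y * (∑ j ∈ Finset.Icc 1 N,
        (Real.exp (-((j : ℝ) * y)) - Real.exp (-(((j + 1 : ℕ) : ℝ) * y))) * ‖SS X q j‖ +
          Real.exp (-(((N + 1 : ℕ) : ℝ) * y)) * ‖SS X q N‖) := by
        gcongr
        refine (norm_add_le _ _).trans (add_le_add ((norm_sum_le _ _).trans
          (Finset.sum_le_sum fun j _ => ?_)) ?_)
        · rw [norm_mul, Complex.norm_real, Real.norm_of_nonneg (hE j)]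
          rfl
        · rw [norm_mul, Complex.norm_real, Real.norm_of_nonneg (Real.exp_pos _).le]
          rfl
    _ = ∑ j ∈ Finset.Icc 1 N, (Real.sqrt y *
        (Real.exp (-((j : ℝ) * y)) - Real.exp (-(((j + 1 : ℕ) : ℝ) * y)))) * ‖SS X q j‖ +
          (Real.sqrt y * Real.exp (-(((N + 1 : ℕ) : ℝ) * y))) * ‖SS X q N‖ := by
        rw [mul_add, Finset.mul_sum]
        congr 1
        · exact Finset.sum_congr rfl fun j _ => by ring
        · ring
    _ ≤ _ := by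
        gcongr with j hj
        · exact weight1 hy (Finset.mem_Icc.mp hj).1
        · exact weight2 hy hN

lemma norm_term_le {X : Eis → ℂ} (hX : ∀ h, ‖X h‖ ≤ 1) {q : Ix} (hq : PS2 q) (y : ℝ) (h : Eis) :
    ‖((Real.exp (-((nm h : ℝ) * y)) : ℝ) : ℂ) * (X h * ch q h)‖ ≤ Real.exp (-((nm h : ℝ) * y)) := by
  rw [norm_mul, Complex.norm_real, Real.norm_of_nonneg (Real.exp_pos _).le, norm_mul]
  exact mul_le_of_le_one_right (Real.exp_pos _).le
    (mul_le_one₀ (hX h) (norm_nonneg _) (norm_ch_le hq h))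

open Classical in
/-- tail of the dual theta sum -/
lemma FF_sub_le {X : Eis → ℂ} (hX : ∀ h, ‖X h‖ ≤ 1) {q : Ix} (hq : PS2 q) {y : ℝ} (hy : 0 < y)
    (N : ℕ) :
    ‖FF X q y - ∑ h ∈ nz N, ((Real.exp (-((nm h : ℝ) * y)) : ℝ) : ℂ) * (X h * ch q h)‖ ≤
      Real.exp (-((N : ℝ) * y / 2)) * (1 + 200 / y) := by
  set g : Eis → ℂ := fun h => if h = 0 then 0 else
    ((Real.exp (-((nm h : ℝ) * y)) : ℝ) : ℂ) * (X h * ch q h) with hg
  have hsum : Summable g := by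
    refine Summable.of_norm_bounded (Edge79.summable_exp hy) fun h => ?_
    rw [hg]
    simp only
    split_ifs
    · rw [norm_zero]; exact (Real.exp_pos _).le
    · have := norm_term_le hX hq y h
      rwa [mul_comm (nm h : ℝ) y] at this ⊢
  have e1 : ∑ h ∈ nz N, ((Real.exp (-((nm h : ℝ) * y)) : ℝ) : ℂ) * (X h * ch q h) =
      ∑ h ∈ nz N, g h := by
    refine Finset.sum_congr rfl fun h hh => ?_
    rw [hg]
    simp only
    rw [if_neg (mem_nz.mp hh).1]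
  have e2 := hsum.sum_add_tsum_subtype_compl (nz N)
  have e3 : FF X q y = ∑' h, g h := rfl
  rw [e1, e3, ← e2, add_sub_cancel_left]
  have hm := (Edge79.summable_exp (c := y / 2) (by positivity)).mul_left
    (Real.exp (-((N : ℝ) * y / 2)))
  refine (tsum_of_norm_bounded (hm.subtype _).hasSum (fun h => ?_)).trans ?_
  · obtain ⟨h, hh⟩ := h
    simp only [Function.comp]
    rw [hg]
    simp only
    split_ifs with h0
    · rw [norm_zero]; positivity
    · refine (norm_term_le hX hq y h).trans ?_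
      rw [← Real.exp_add]
      apply Real.exp_le_exp.mpr
      have h3 : N < nm h := by
        by_contra h4
        exact hh (mem_nz.mpr ⟨h0, not_lt.mp h4⟩)
      have h5 : (N : ℝ) ≤ nm h := by exact_mod_cast h3.le
      nlinarith
  · refine (Summable.tsum_subtype_le _ _ (fun h => by positivity) hm).trans ?_
    rw [tsum_mul_left]
    gcongr
    refine (Edge79.tsum_exp_le (c := y / 2) (by positivity)).trans (le_of_eq ?_)
    field_simp
    ring

/-- **bound of the dual theta sum by sharp sums** -/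
theorem FF_le {X : Eis → ℂ} (hX : ∀ h, ‖X h‖ ≤ 1) {q : Ix} (hq : PS2 q) {y : ℝ} (hy : 0 < y)
    {N : ℕ} (hN : 1 ≤ N) :
    Real.sqrt y * ‖FF X q y‖ ≤ ∑ j ∈ Finset.Icc 1 N, ((j : ℝ) * Real.sqrt j)⁻¹ * ‖SS X q j‖ +
      (Real.sqrt N)⁻¹ * ‖SS X q N‖ +
      Real.sqrt y * (Real.exp (-((N : ℝ) * y / 2)) * (1 + 200 / y)) := by
  have h1 := FF_sub_le hX hq hy N
  have h2 := head_le hy hN X q
  have h4 : 0 ≤ Real.sqrt y := Real.sqrt_nonneg y
  set Hd := ∑ h ∈ nz N, ((Real.exp (-((nm h : ℝ) * y)) : ℝ) : ℂ) * (X h * ch q h)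
  have h3 : ‖FF X q y‖ ≤ ‖Hd‖ + ‖FF X q y - Hd‖ := by
    have := norm_add_le Hd (FF X q y - Hd)
    rwa [add_sub_cancel] at this
  calc Real.sqrt y * ‖FF X q y‖ ≤ Real.sqrt y * (‖Hd‖ + ‖FF X q y - Hd‖) := by gcongr
    _ = Real.sqrt y * ‖Hd‖ + Real.sqrt y * ‖FF X q y - Hd‖ := by ring
    _ ≤ _ := add_le_add h2 (by gcongr)

/-- `K e^{-K^η}` is bounded -/
lemma mul_exp_rpow_le {η : ℝ} (hη : 0 < η) : ∃ C : ℝ, 0 < C ∧ ∀ K : ℝ, 1 ≤ K →
    K * Real.exp (-(K ^ η)) ≤ C := by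
  obtain ⟨m, hm⟩ := exists_nat_gt (1 / η)
  refine ⟨m.factorial, by positivity, fun K hK => ?_⟩
  have hK0 : 0 < K := by linarith
  have h1 : K ≤ (K ^ η) ^ m := by
    rw [← Real.rpow_natCast, ← Real.rpow_mul hK0.le]
    have h2 : 1 ≤ η * m := by
      rw [div_lt_iff₀ hη] at hm
      linarith
    calc K = K ^ (1 : ℝ) := (Real.rpow_one K).symm
      _ ≤ _ := Real.rpow_le_rpow_of_exponent_le hK h2
  have h3 := DualIneq811.pow_mul_exp_le (P := K ^ η) (by positivity) m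
  calc _ ≤ (K ^ η) ^ m * Real.exp (-(K ^ η)) := by gcongr
    _ ≤ _ := h3

lemma floor_ge {x : ℝ} (hx : 1 ≤ x) : x / 2 ≤ (⌊x⌋₊ : ℝ) := by
  have h1 : 1 ≤ ⌊x⌋₊ := (Nat.one_le_floor_iff x).mpr hx
  have h2 : x < ⌊x⌋₊ + 1 := Nat.lt_floor_add_one x
  have h3 : (1 : ℝ) ≤ ⌊x⌋₊ := by exact_mod_cast h1
  linarith

/-- the tail is bounded -/
lemma tail_le {δ : ℝ} (hδ : 0 < δ) : ∃ C : ℝ, 0 < C ∧ ∀ K Z : ℝ, 1 ≤ K → K ^ (4 / 3 + δ) ≤ Z →
    ∀ y : ℝ, 4 * Real.pi ^ 2 * Z / (3 * K ^ 2) ≤ y →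
    Real.sqrt y * (Real.exp (-((⌊Real.sqrt Z⌋₊ : ℝ) * y / 2)) * (1 + 200 / y)) ≤ C := by
  obtain ⟨C, hC, hb⟩ := mul_exp_rpow_le (η := 3 * δ / 2) (by positivity)
  refine ⟨1 + 200 * (1 + C), by positivity, fun K Z hK hKZ y hy => ?_⟩
  have hK0 : 0 < K := by linarith
  have hZ1 : 1 ≤ Z := le_trans (Real.one_le_rpow hK (by positivity)) hKZ
  have hZ0 : 0 < Z := by linarith
  have hpi : (3 : ℝ) < Real.pi := Real.pi_gt_three
  have hpi2 : (9 : ℝ) < Real.pi ^ 2 := by nlinarith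
  have hy1 : 12 * Z / K ^ 2 ≤ y := by
    refine le_trans ?_ hy
    rw [div_le_div_iff₀ (by positivity) (by positivity)]
    have : 0 < Z * K ^ 2 := by positivity
    nlinarith
  have hy0 : 0 < y := lt_of_lt_of_le (by positivity) hy1
  have hs1 : 1 ≤ Real.sqrt Z := by rw [Real.one_le_sqrt]; exact hZ1
  set N : ℝ := (⌊Real.sqrt Z⌋₊ : ℝ) with hN
  have hN1 : Real.sqrt Z / 2 ≤ N := floor_ge hs1
  have hN2 : 1 ≤ N := by
    rw [hN]; exact_mod_cast (Nat.one_le_floor_iff _).mpr hs1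
  have hsy : 0 < Real.sqrt y := Real.sqrt_pos.mpr hy0
  have hyy : Real.sqrt y * Real.sqrt y = y := Real.mul_self_sqrt hy0.le
  -- first part
  have p1 : Real.sqrt y * Real.exp (-(N * y / 2)) ≤ 1 := by
    have h1 := sqrt_le_half hy0.le
    have h2 := Real.add_one_le_exp (y / 2)
    have h3 : Real.exp (-(N * y / 2)) ≤ Real.exp (-(y / 2)) := by
      apply Real.exp_le_exp.mpr; nlinarith
    calc _ ≤ Real.sqrt y * Real.exp (-(y / 2)) := by gcongr
      _ ≤ 1 := by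
        rw [Real.exp_neg, ← div_eq_mul_inv, div_le_one (Real.exp_pos _)]
        linarith
  -- second part
  have p2 : (Real.sqrt y)⁻¹ * Real.exp (-(N * y / 2)) ≤ 1 + C := by
    rcases le_or_gt 1 y with h1 | h1
    · have h2 : (Real.sqrt y)⁻¹ ≤ 1 := inv_le_one_of_one_le₀ (by rwa [Real.one_le_sqrt])
      have h3 : Real.exp (-(N * y / 2)) ≤ 1 := by
        rw [Real.exp_le_one_iff]
        have : 0 ≤ N * y := by positivity
        linarith
      calc (Real.sqrt y)⁻¹ * Real.exp (-(N * y / 2)) ≤ 1 * 1 := by gcongr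
        _ ≤ 1 + C := by linarith
    · have h2 : (Real.sqrt y)⁻¹ ≤ K := by
        rw [inv_le_comm₀ hsy hK0]
        have h3 : K⁻¹ ^ 2 ≤ y := by
          refine le_trans ?_ hy1
          rw [inv_pow, ← one_div]
          gcongr
          linarith
        rw [← Real.sqrt_sq (by positivity : 0 ≤ K⁻¹)]
        exact Real.sqrt_le_sqrt h3
      have h4 : K ^ (3 * δ / 2) ≤ N * y / 2 := by
        have h5 : 3 * (Z * Real.sqrt Z / K ^ 2) ≤ N * y / 2 := by
          calc _ = (Real.sqrt Z / 2) * (12 * Z / K ^ 2) / 2 := by ring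
            _ ≤ _ := by gcongr
        have h6 : K ^ (2 : ℝ) * K ^ (3 * δ / 2) ≤ Z * Real.sqrt Z := by
          have e1 : Z * Real.sqrt Z = Z ^ ((3 : ℝ) / 2) := by
            rw [Real.sqrt_eq_rpow]
            nth_rewrite 1 [← Real.rpow_one Z]
            rw [← Real.rpow_add hZ0]; norm_num
          rw [e1, ← Real.rpow_add hK0]
          calc K ^ (2 + 3 * δ / 2) = (K ^ (4 / 3 + δ)) ^ ((3 : ℝ) / 2) := by
                rw [← Real.rpow_mul hK0.le]; congr 1; ring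
            _ ≤ _ := Real.rpow_le_rpow (by positivity) hKZ (by norm_num)
        have h7 : K ^ (3 * δ / 2) ≤ Z * Real.sqrt Z / K ^ 2 := by
          rw [le_div_iff₀ (by positivity)]
          rw [Real.rpow_two] at h6
          linarith
        have h8 : 0 ≤ Z * Real.sqrt Z / K ^ 2 := by positivity
        linarith
      have h9 : Real.exp (-(N * y / 2)) ≤ Real.exp (-(K ^ (3 * δ / 2))) := by
        apply Real.exp_le_exp.mpr; linarith
      calc _ ≤ K * Real.exp (-(K ^ (3 * δ / 2))) := by gcongr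
        _ ≤ C := hb K hK
        _ ≤ _ := by linarith
  have e : Real.sqrt y * (Real.exp (-(N * y / 2)) * (1 + 200 / y)) =
      Real.sqrt y * Real.exp (-(N * y / 2)) +
        200 * ((Real.sqrt y)⁻¹ * Real.exp (-(N * y / 2))) := by
    have : Real.sqrt y * (200 / y) = 200 * (Real.sqrt y)⁻¹ := by
      nth_rewrite 2 [← hyy]
      field_simp
    calc _ = Real.sqrt y * Real.exp (-(N * y / 2)) +
          (Real.sqrt y * (200 / y)) * Real.exp (-(N * y / 2)) := by ring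
      _ = _ := by rw [this]; ring
  rw [e]
  linarith

end Crest.Agent.R017.LV164
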