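import Crest.Agent.R017.LVb2_164

/-!
# Row 17, (LV2), part 3: fourth moment of the sharp sums (helper164)
-/

set_option autoImplicit false

noncomputable section

namespace Crest.Agent.R017.LV164

open Crest.Agent.R012 Crest.Agent.R017.LV404
open Eis LS2 Div277 Gauss880
open scoped BigOperators

/-- divisor count hypothesis (D1) -/
def PairsCard : Prop := ∀ ε : ℝ, 0 < ε → ∃ C : ℝ, 0 < C ∧ ∀ (j : ℕ) (m : Eis), m ≠ 0 →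
  (((nz j ×ˢ nz j).filter (fun p : Eis × Eis => p.1 * p.2 = m)).card : ℝ) ≤ C * (nm m : ℝ) ^ ε

/-- coefficients of the square of a sharp sum -/
def rr (X : Eis → ℂ) (j : ℕ) (m : Eis) : ℂ :=
  ∑ p ∈ (nz j ×ˢ nz j).filter (fun p : Eis × Eis => p.1 * p.2 = m), X p.1 * X p.2

/-- support of the square -/
def sp (j : ℕ) : Finset Eis := (nz j ×ˢ nz j).image (fun p : Eis × Eis => p.1 * p.2)

lemma SS_sq {q : Ix} (hq : PS2 q) (X : Eis → ℂ) (j : ℕ) :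
    SS X q j ^ 2 = ∑ m ∈ sp j, rr X j m * ch q m := by
  classical
  have h1 : ∑ m ∈ sp j, rr X j m * ch q m =
      ∑ m ∈ sp j, ∑ p ∈ (nz j ×ˢ nz j).filter (fun p : Eis × Eis => p.1 * p.2 = m),
        (X p.1 * ch q p.1) * (X p.2 * ch q p.2) := by
    refine Finset.sum_congr rfl fun m _ => ?_
    unfold rr
    rw [Finset.sum_mul]
    refine Finset.sum_congr rfl fun p hp => ?_
    rw [← (Finset.mem_filter.mp hp).2, ch_mul hq]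
    ring
  rw [h1]
  have h2 := Finset.sum_fiberwise_of_maps_to (s := nz j ×ˢ nz j) (t := sp j)
    (g := fun p : Eis × Eis => p.1 * p.2) (fun p hp => Finset.mem_image_of_mem _ hp)
    (fun p => (X p.1 * ch q p.1) * (X p.2 * ch q p.2))
  rw [h2, Finset.sum_product]
  unfold SS
  rw [sq, Finset.sum_mul_sum]

lemma mem_sp {j : ℕ} {m : Eis} (h : m ∈ sp j) : m ≠ 0 ∧ nm m ≤ j ^ 2 := by
  unfold sp at h
  rw [Finset.mem_image] at h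
  obtain ⟨p, hp, rfl⟩ := h
  rw [Finset.mem_product, mem_nz, mem_nz] at hp
  refine ⟨mul_ne_zero hp.1.1 hp.2.1, ?_⟩
  rw [nm_mul, sq]
  exact Nat.mul_le_mul hp.1.2 hp.2.2

lemma norm_rr_le {X : Eis → ℂ} (hX : ∀ h, ‖X h‖ ≤ 1) (j : ℕ) (m : Eis) :
    ‖rr X j m‖ ≤ ((nz j ×ˢ nz j).filter (fun p : Eis × Eis => p.1 * p.2 = m)).card := by
  unfold rr
  refine (norm_sum_le _ _).trans ?_
  calc _ ≤ ∑ p ∈ (nz j ×ˢ nz j).filter (fun p : Eis × Eis => p.1 * p.2 = m), (1 : ℝ) := by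
        refine Finset.sum_le_sum fun p _ => ?_
        rw [norm_mul]
        exact mul_le_one₀ (hX _) (norm_nonneg _) (hX _)
    _ = _ := by simp

lemma sum_rr_le (H : PairsCard) {ε : ℝ} (hε : 0 < ε) : ∃ C : ℝ, 0 < C ∧ ∀ X : Eis → ℂ,
    (∀ h, ‖X h‖ ≤ 1) → ∀ (j : ℕ) (Z : ℝ), (j : ℝ) ^ 2 ≤ Z →
    ∑ m ∈ sp j, ‖rr X j m‖ ^ 2 ≤ C * Z ^ ε * (j : ℝ) ^ 2 := by
  classical
  obtain ⟨C, hC, hb⟩ := H ε hε
  refine ⟨C * 10000, by positivity, fun X hX j Z hjZ => ?_⟩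
  have h1 : ∀ m ∈ sp j, ‖rr X j m‖ ^ 2 ≤ C * Z ^ ε *
      (((nz j ×ˢ nz j).filter (fun p : Eis × Eis => p.1 * p.2 = m)).card : ℝ) := by
    intro m hm
    obtain ⟨h2, h3⟩ := mem_sp hm
    have h4 := hb j m h2
    have h5 : (nm m : ℝ) ≤ Z := by
      refine le_trans ?_ hjZ
      exact_mod_cast h3
    have h6 : (nm m : ℝ) ^ ε ≤ Z ^ ε := Real.rpow_le_rpow (by positivity) h5 hε.le
    have h7 := norm_rr_le hX j m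
    set c := (((nz j ×ˢ nz j).filter (fun p : Eis × Eis => p.1 * p.2 = m)).card : ℝ)
    have hc : 0 ≤ c := le_trans (norm_nonneg _) h7
    calc ‖rr X j m‖ ^ 2 ≤ c ^ 2 := by gcongr
      _ = c * c := sq c
      _ ≤ (C * Z ^ ε) * c := by
          gcongr
          exact h4.trans (by gcongr)
  refine (Finset.sum_le_sum h1).trans ?_
  rw [← Finset.mul_sum]
  have h8 : ∑ m ∈ sp j, (((nz j ×ˢ nz j).filter (fun p : Eis × Eis => p.1 * p.2 = m)).card : ℝ) =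
      ((nz j ×ˢ nz j).card : ℝ) := by
    rw [Finset.card_eq_sum_card_fiberwise (f := fun p : Eis × Eis => p.1 * p.2) (t := sp j)
      (fun p hp => Finset.mem_coe.mpr (Finset.mem_image_of_mem _ (Finset.mem_coe.mp hp)))]
    push_cast
    rfl
  rw [h8, Finset.card_product]
  push_cast
  have h9 := card_nz_le j
  have hZ : 0 ≤ Z ^ ε := Real.rpow_nonneg (le_trans (by positivity) hjZ) _
  calc C * Z ^ ε * (((nz j).card : ℝ) * ((nz j).card : ℝ)) ≤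
        C * Z ^ ε * ((100 * j) * (100 * j)) := by gcongr
    _ = _ := by ring

/-- **fourth moment of the sharp sums** -/
theorem fourth (H : PairsCard) {ε : ℝ} (hε : 0 < ε) : ∃ C : ℝ, 0 < C ∧ ∀ (T : Finset Ix),
    (∀ q ∈ T, PS2 q) → ∀ Z Δ : ℝ, 0 < Z → 0 ≤ Δ → (∀ a ∈ T, ∑ b ∈ T, ‖Th a b Z‖ ≤ Δ) →
    ∀ X : Eis → ℂ, (∀ h, ‖X h‖ ≤ 1) → ∀ j : ℕ, (j : ℝ) ^ 2 ≤ Z →
    ∑ q ∈ T, ‖SS X q j‖ ^ 4 ≤ C * Z ^ ε * Δ * (j : ℝ) ^ 2 := by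
  obtain ⟨C, hC, hb⟩ := sum_rr_le H hε
  refine ⟨Real.exp 1 * C, by positivity, fun T hT Z Δ hZ hΔ hrow X hX j hj => ?_⟩
  have h1 : ∀ q ∈ T, ‖SS X q j‖ ^ 4 = ‖∑ m ∈ sp j, rr X j m * ch q m‖ ^ 2 := by
    intro q hq
    rw [← SS_sq (hT q hq), norm_pow, ← pow_mul]
  rw [Finset.sum_congr rfl h1]
  have h2 := duality hT hZ hΔ hrow (F := sp j) (fun n hn => by
    refine le_trans ?_ hj
    exact_mod_cast (mem_sp hn).2) (rr X j)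
  refine h2.trans ?_
  calc _ ≤ Real.exp 1 * Δ * (C * Z ^ ε * (j : ℝ) ^ 2) := by
        gcongr
        exact hb X hX j Z hj
    _ = _ := by ring

/-- Hölder: `(∑ x)⁴ ≤ R³ ∑ x⁴` -/
lemma sum_pow_four_le {ι : Type*} (T : Finset ι) (x : ι → ℝ) {R : ℝ}
    (hR : (T.card : ℝ) ≤ R) : (∑ i ∈ T, x i) ^ 4 ≤ R ^ 3 * ∑ i ∈ T, x i ^ 4 := by
  have h0 : (0 : ℝ) ≤ T.card := Nat.cast_nonneg _
  have h1 : (∑ i ∈ T, x i) ^ 2 ≤ T.card * ∑ i ∈ T, x i ^ 2 := sq_sum_le_card_mul_sum_sq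
  have h2 : (∑ i ∈ T, x i ^ 2) ^ 2 ≤ T.card * ∑ i ∈ T, (x i ^ 2) ^ 2 := sq_sum_le_card_mul_sum_sq
  have e : ∑ i ∈ T, (x i ^ 2) ^ 2 = ∑ i ∈ T, x i ^ 4 :=
    Finset.sum_congr rfl fun i _ => by ring
  rw [e] at h2
  have h3 : 0 ≤ ∑ i ∈ T, x i ^ 4 := Finset.sum_nonneg fun i _ => by positivity
  have h4 : 0 ≤ (∑ i ∈ T, x i) ^ 2 := by positivity
  calc (∑ i ∈ T, x i) ^ 4 = ((∑ i ∈ T, x i) ^ 2) ^ 2 := by ring
    _ ≤ (T.card * ∑ i ∈ T, x i ^ 2) ^ 2 := by gcongr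
    _ = (T.card : ℝ) ^ 2 * (∑ i ∈ T, x i ^ 2) ^ 2 := by ring
    _ ≤ (T.card : ℝ) ^ 2 * (T.card * ∑ i ∈ T, x i ^ 4) := by gcongr
    _ = (T.card : ℝ) ^ 3 * ∑ i ∈ T, x i ^ 4 := by ring
    _ ≤ _ := by gcongr

/-- first moment of the sharp sums -/
theorem first (H : PairsCard) {ε : ℝ} (hε : 0 < ε) : ∃ C : ℝ, 0 < C ∧ ∀ (T : Finset Ix),
    (∀ q ∈ T, PS2 q) → ∀ R : ℝ, (T.card : ℝ) ≤ R → ∀ Z Δ : ℝ, 0 < Z → 0 ≤ Δ →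
    (∀ a ∈ T, ∑ b ∈ T, ‖Th a b Z‖ ≤ Δ) →
    ∀ X : Eis → ℂ, (∀ h, ‖X h‖ ≤ 1) → ∀ j : ℕ, (j : ℝ) ^ 2 ≤ Z →
    ∑ q ∈ T, ‖SS X q j‖ ≤ (C * Z ^ ε * R ^ 3 * Δ) ^ ((1 : ℝ) / 4) * Real.sqrt j := by
  obtain ⟨C, hC, hb⟩ := fourth H hε
  refine ⟨C, hC, fun T hT R hR Z Δ hZ hΔ hrow X hX j hj => ?_⟩
  have h1 := sum_pow_four_le T (fun q => ‖SS X q j‖) hR
  have h2 := hb T hT Z Δ hZ hΔ hrow X hX j hj
  have hR0 : 0 ≤ R := le_trans (Nat.cast_nonneg _) hR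
  have hS0 : 0 ≤ ∑ q ∈ T, ‖SS X q j‖ := Finset.sum_nonneg fun _ _ => norm_nonneg _
  have hZ' : 0 ≤ Z ^ ε := Real.rpow_nonneg hZ.le _
  have h3 : (∑ q ∈ T, ‖SS X q j‖) ^ 4 ≤ (C * Z ^ ε * R ^ 3 * Δ) * (j : ℝ) ^ 2 := by
    calc _ ≤ R ^ 3 * ∑ q ∈ T, ‖SS X q j‖ ^ 4 := h1
      _ ≤ R ^ 3 * (C * Z ^ ε * Δ * (j : ℝ) ^ 2) := by gcongr
      _ = _ := by ring
  have h4 : ∑ q ∈ T, ‖SS X q j‖ = ((∑ q ∈ T, ‖SS X q j‖) ^ 4) ^ ((1 : ℝ) / 4) := by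
    rw [← Real.rpow_natCast, ← Real.rpow_mul hS0]
    norm_num
  rw [h4]
  have h5 : ((C * Z ^ ε * R ^ 3 * Δ) * (j : ℝ) ^ 2) ^ ((1 : ℝ) / 4) =
      (C * Z ^ ε * R ^ 3 * Δ) ^ ((1 : ℝ) / 4) * Real.sqrt j := by
    have h6 : ((j : ℝ) ^ 2) ^ ((1 : ℝ) / 4) = (j : ℝ) ^ ((1 : ℝ) / 2) := by
      rw [← Real.rpow_natCast (j : ℝ) 2, ← Real.rpow_mul (Nat.cast_nonneg _)]
      norm_num
    rw [Real.mul_rpow (by positivity) (by positivity), Real.sqrt_eq_rpow, h6]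
  rw [← h5]
  exact Real.rpow_le_rpow (by positivity) h3 (by norm_num)

/-- the bound of the dual theta sums by sharp sums -/
def Bd (X : Eis → ℂ) (q : Ix) (N : ℕ) : ℝ :=
  ∑ j ∈ Finset.Icc 1 N, ((j : ℝ) * Real.sqrt j)⁻¹ * ‖SS X q j‖ + (Real.sqrt N)⁻¹ * ‖SS X q N‖

lemma Bd_nonneg (X : Eis → ℂ) (q : Ix) (N : ℕ) : 0 ≤ Bd X q N := by unfold Bd; positivity

lemma sum_inv_le (N : ℕ) (hN : 1 ≤ N) : ∑ j ∈ Finset.Icc 1 N, ((j : ℝ))⁻¹ ≤ 1 + Real.log N := by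
  have h := harmonic_le_one_add_log N
  rw [harmonic_eq_sum_Icc] at h
  push_cast at h
  exact h

theorem sum_Bd (H : PairsCard) {ε : ℝ} (hε : 0 < ε) : ∃ C : ℝ, 0 < C ∧ ∀ (T : Finset Ix),
    (∀ q ∈ T, PS2 q) → ∀ R : ℝ, (T.card : ℝ) ≤ R → ∀ Z Δ : ℝ, 1 ≤ Z → 0 ≤ Δ →
    (∀ a ∈ T, ∑ b ∈ T, ‖Th a b Z‖ ≤ Δ) →
    ∀ X : Eis → ℂ, (∀ h, ‖X h‖ ≤ 1) →
    ∑ q ∈ T, Bd X q ⌊Real.sqrt Z⌋₊ ≤ (2 + Real.log Z) * (C * Z ^ ε * R ^ 3 * Δ) ^ ((1 : ℝ) / 4) := by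
  obtain ⟨C, hC, hb⟩ := first H hε
  refine ⟨C, hC, fun T hT R hR Z Δ hZ hΔ hrow X hX => ?_⟩
  have hZ0 : 0 < Z := by linarith
  have hs1 : 1 ≤ Real.sqrt Z := by rw [Real.one_le_sqrt]; exact hZ
  set N := ⌊Real.sqrt Z⌋₊ with hN
  have hN1 : 1 ≤ N := (Nat.one_le_floor_iff _).mpr hs1
  have hNs : (N : ℝ) ≤ Real.sqrt Z := Nat.floor_le (Real.sqrt_nonneg Z)
  have hR0 : 0 ≤ R := le_trans (Nat.cast_nonneg _) hR
  set Q := (C * Z ^ ε * R ^ 3 * Δ) ^ ((1 : ℝ) / 4) with hQ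
  have hQ0 : 0 ≤ Q := by positivity
  have hj : ∀ j : ℕ, j ≤ N → (j : ℝ) ^ 2 ≤ Z := by
    intro j hj
    have h1 : (j : ℝ) ≤ Real.sqrt Z := le_trans (by exact_mod_cast hj) hNs
    calc (j : ℝ) ^ 2 ≤ Real.sqrt Z ^ 2 := by gcongr
      _ = Z := Real.sq_sqrt hZ0.le
  have h1 : ∀ j : ℕ, j ≤ N → ∑ q ∈ T, ‖SS X q j‖ ≤ Q * Real.sqrt j := fun j hjN =>
    hb T hT R hR Z Δ hZ0 hΔ hrow X hX j (hj j hjN)
  unfold Bd
  rw [Finset.sum_add_distrib, Finset.sum_comm]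
  simp_rw [← Finset.mul_sum]
  have h2 : ∑ j ∈ Finset.Icc 1 N, ((j : ℝ) * Real.sqrt j)⁻¹ * ∑ q ∈ T, ‖SS X q j‖ ≤
      ∑ j ∈ Finset.Icc 1 N, (j : ℝ)⁻¹ * Q := by
    refine Finset.sum_le_sum fun j hj => ?_
    obtain ⟨hj1, hj2⟩ := Finset.mem_Icc.mp hj
    have hj0 : (0 : ℝ) < j := by exact_mod_cast hj1
    have hs : 0 < Real.sqrt j := Real.sqrt_pos.mpr hj0
    calc _ ≤ ((j : ℝ) * Real.sqrt j)⁻¹ * (Q * Real.sqrt j) := by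
          gcongr
          exact h1 j hj2
      _ = _ := by field_simp
  have h3 : (Real.sqrt N)⁻¹ * ∑ q ∈ T, ‖SS X q N‖ ≤ Q := by
    have hj0 : (0 : ℝ) < N := by exact_mod_cast hN1
    have hs : 0 < Real.sqrt N := Real.sqrt_pos.mpr hj0
    calc _ ≤ (Real.sqrt N)⁻¹ * (Q * Real.sqrt N) := by
          gcongr
          exact h1 N le_rfl
      _ = _ := by field_simp
  rw [← Finset.sum_mul] at h2
  have h4 := sum_inv_le N hN1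
  have h5 : Real.log N ≤ Real.log Z := by
    apply Real.log_le_log (by exact_mod_cast hN1)
    refine hNs.trans ?_
    calc Real.sqrt Z = Real.sqrt Z * 1 := (mul_one _).symm
      _ ≤ Real.sqrt Z * Real.sqrt Z := by gcongr
      _ = Z := Real.mul_self_sqrt hZ0.le
  calc _ ≤ (∑ j ∈ Finset.Icc 1 N, (j : ℝ)⁻¹) * Q + Q := add_le_add h2 h3
    _ ≤ (1 + Real.log Z) * Q + Q := by
        have : ∑ j ∈ Finset.Icc 1 N, (j : ℝ)⁻¹ ≤ 1 + Real.log Z := by linarith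
        gcongr
    _ = _ := by ring

end Crest.Agent.R017.LV164
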