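import Crest.Agent.R017.LVb3_164
import Crest.Agent.R017.LVa_404

/-!
# Row 17, (LV2), part 4: row bound, fixpoint, the large values theorem (helper164)

* `lslv`    : `∑_{q ∈ T} |∑ c n ch q n|² ≤ C K^ε (Z + Z^(2/3) |T|) ∑ |c|²`
* `lvProp_of` : `PairsCard → TwoPow → LVProp`
-/

set_option autoImplicit false

noncomputable section

namespace Crest.Agent.R017.LV164

open Crest.Agent.R012 Crest.Agent.R017.LV404
open Eis LS2 Div277 Gauss880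
open scoped BigOperators

/-- number of prime subsets (D2) -/
def TwoPow : Prop := ∀ ε : ℝ, 0 < ε → ∃ C : ℝ, 0 < C ∧ ∀ P : Finset Eis, IsPS P →
  (2 : ℝ) ^ P.card ≤ C * (nm (pr P) : ℝ) ^ ε

lemma adm_quo {K : ℝ} {a b : Ix} (hb : Adm K b) : Adm K (quo a b) := by
  classical
  have hsub : (quo a b).U ⊆ b.U := by
    unfold LV404.quo Ix.U
    apply Finset.union_subset_union <;> exact Finset.sdiff_subset
  refine ⟨hb.1.mono hsub, ?_, ?_⟩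
  · exact Finset.disjoint_of_subset_left Finset.sdiff_subset
      (Finset.disjoint_of_subset_right Finset.sdiff_subset hb.2.1)
  · exact (nm_pr_mono hb.1 hsub).trans hb.2.2

lemma quo_inj {a b b' : Ix} (h1 : grp a b = grp a b') (h2 : quo a b = quo a b') : b = b' := by
  classical
  unfold grp at h1
  unfold LV404.quo at h2
  rw [Prod.ext_iff] at h1 h2
  simp only at h1 h2
  apply Prod.ext
  · rw [← Finset.sdiff_union_inter b.1 a.U, ← Finset.sdiff_union_inter b'.1 a.U, h1.1, h2.1]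
  · rw [← Finset.sdiff_union_inter b.2 a.U, ← Finset.sdiff_union_inter b'.2 a.U, h1.2, h2.2]

lemma grp_mem {a b : Ix} : grp a b ∈ a.U.powerset ×ˢ a.U.powerset := by
  classical
  unfold grp
  rw [Finset.mem_product, Finset.mem_powerset, Finset.mem_powerset]
  exact ⟨Finset.inter_subset_right, Finset.inter_subset_right⟩

/-- sum over the pairs of the row -/
lemma sum_groups {T : Finset Ix} {a : Ix} (X : Ix → Ix → Eis → ℂ) (N : ℕ) {Q : ℝ} (hQ : 0 ≤ Q)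
    (h : ∀ g ∈ T.image (grp a),
      ∑ q ∈ (T.filter (fun b => grp a b = g)).image (quo a), Bd (X a g) q N ≤ Q) :
    ∑ b ∈ T, Bd (X a (grp a b)) (quo a b) N ≤ ((2 : ℝ) ^ a.U.card) ^ 2 * Q := by
  classical
  have h1 := Finset.sum_fiberwise_of_maps_to (s := T) (t := T.image (grp a)) (g := grp a)
    (fun b hb => Finset.mem_image_of_mem _ hb) (fun b => Bd (X a (grp a b)) (quo a b) N)
  rw [← h1]
  have h2 : ∀ g ∈ T.image (grp a),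
      ∑ b ∈ T.filter (fun b => grp a b = g), Bd (X a (grp a b)) (quo a b) N ≤ Q := by
    intro g hg
    refine le_trans (le_of_eq ?_) (h g hg)
    rw [Finset.sum_image]
    · exact Finset.sum_congr rfl fun b hb => by rw [(Finset.mem_filter.mp hb).2]
    · intro b hb b' hb' e
      have e1 := (Finset.mem_filter.mp (Finset.mem_coe.mp hb)).2
      have e2 := (Finset.mem_filter.mp (Finset.mem_coe.mp hb')).2
      exact quo_inj (e1.trans e2.symm) e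
  refine (Finset.sum_le_sum h2).trans ?_
  rw [Finset.sum_const, nsmul_eq_mul]
  have h3 : (T.image (grp a)).card ≤ (a.U.powerset ×ˢ a.U.powerset).card := by
    apply Finset.card_le_card
    intro g hg
    obtain ⟨b, _, rfl⟩ := Finset.mem_image.mp hg
    exact grp_mem
  rw [Finset.card_product, Finset.card_powerset] at h3
  have h4 : ((T.image (grp a)).card : ℝ) ≤ ((2 : ℝ) ^ a.U.card) ^ 2 := by
    calc ((T.image (grp a)).card : ℝ) ≤ ((2 ^ a.U.card * 2 ^ a.U.card : ℕ) : ℝ) := by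
          exact_mod_cast h3
      _ = _ := by push_cast; ring
  gcongr

/-- a single theta sum is bounded by sharp sums -/
lemma Th_le {X : Ix → Ix → Eis → ℂ} (hX : ∀ a g h, ‖X a g h‖ ≤ 1) {δ Ct : ℝ}
    (hCt : ∀ K Z : ℝ, 1 ≤ K → K ^ (4 / 3 + δ) ≤ Z →
      ∀ y : ℝ, 4 * Real.pi ^ 2 * Z / (3 * K ^ 2) ≤ y →
      Real.sqrt y * (Real.exp (-((⌊Real.sqrt Z⌋₊ : ℝ) * y / 2)) * (1 + 200 / y)) ≤ Ct)
    {K Z : ℝ} (hK : 1 ≤ K) (hZ1 : 1 ≤ Z) (hKZ : K ^ (4 / 3 + δ) ≤ Z) {a b : Ix} (hb : Adm K b)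
    {y : Finset Eis → ℝ} (hy : ∀ E ∈ a.U.powerset, 4 * Real.pi ^ 2 * Z / (3 * K ^ 2) ≤ y E)
    (hTh : ‖Th a b Z‖ ≤ ∑ E ∈ a.U.powerset,
      Real.sqrt (Z * y E) * ‖FF (X a (grp a b)) (quo a b) (y E)‖) :
    ‖Th a b Z‖ ≤ (2 : ℝ) ^ a.U.card *
      (Real.sqrt Z * (Bd (X a (grp a b)) (quo a b) ⌊Real.sqrt Z⌋₊ + Ct)) := by
  have hZ0 : 0 < Z := by linarith
  have hs1 : 1 ≤ Real.sqrt Z := by rw [Real.one_le_sqrt]; exact hZ1
  have hN1 : 1 ≤ ⌊Real.sqrt Z⌋₊ := (Nat.one_le_floor_iff _).mpr hs1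
  refine hTh.trans ?_
  have h1 : ∀ E ∈ a.U.powerset, Real.sqrt (Z * y E) * ‖FF (X a (grp a b)) (quo a b) (y E)‖ ≤
      Real.sqrt Z * (Bd (X a (grp a b)) (quo a b) ⌊Real.sqrt Z⌋₊ + Ct) := by
    intro E hE
    have h2 := hy E hE
    have hpi := Real.pi_pos
    have hy0 : 0 < y E := lt_of_lt_of_le (by positivity) h2
    rw [Real.sqrt_mul hZ0.le, mul_assoc]
    gcongr
    have h3 := FF_le (hX a (grp a b)) (ps2_of_adm (adm_quo (a := a) hb)) hy0 hN1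
    have h4 := hCt K Z hK hKZ (y E) h2
    unfold Bd
    linarith
  refine (Finset.sum_le_sum h1).trans (le_of_eq ?_)
  rw [Finset.sum_const, Finset.card_powerset, nsmul_eq_mul]
  push_cast
  ring

/-- all row sums -/
def Rows (K : ℝ) (R : ℕ) (Z : ℝ) : Set ℝ :=
  {x | ∃ T : Finset Ix, ∃ a ∈ T, (∀ q ∈ T, Adm K q) ∧ T.card ≤ R ∧ x = ∑ b ∈ T, ‖Th a b Z‖}

lemma rows_bdd (K : ℝ) (R : ℕ) {Z : ℝ} (hZ : 0 < Z) : BddAbove (Rows K R Z) := by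
  refine ⟨R * (1 + 100 * Z), ?_⟩
  rintro x ⟨T, a, ha, hT, hR, rfl⟩
  calc ∑ b ∈ T, ‖Th a b Z‖ ≤ ∑ b ∈ T, (1 + 100 * Z) :=
        Finset.sum_le_sum fun b hb => norm_Th_le (ps2_of_adm (hT a ha)) (ps2_of_adm (hT b hb)) hZ
    _ = T.card * (1 + 100 * Z) := by rw [Finset.sum_const, nsmul_eq_mul]
    _ ≤ _ := by gcongr

lemma rows_le {K : ℝ} {R : ℕ} {Z : ℝ} (hZ : 0 < Z) {T : Finset Ix} (hT : ∀ q ∈ T, Adm K q)
    (hR : T.card ≤ R) {a : Ix} (ha : a ∈ T) : ∑ b ∈ T, ‖Th a b Z‖ ≤ sSup (Rows K R Z) :=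
  le_csSup (rows_bdd K R hZ) ⟨T, a, ha, hT, hR, rfl⟩

lemma rows_nonneg (K : ℝ) (R : ℕ) (Z : ℝ) : 0 ≤ sSup (Rows K R Z) := by
  apply Real.sSup_nonneg
  rintro x ⟨T, a, _, _, _, rfl⟩
  exact Finset.sum_nonneg fun _ _ => norm_nonneg _

/-- **row bound** -/
theorem row_le (HF : ThetaFE) (HD : PairsCard) {δ ε : ℝ} (hδ : 0 < δ) (hε : 0 < ε) :
    ∃ C : ℝ, 0 < C ∧ ∀ K Z : ℝ, 1 ≤ K → K ^ (4 / 3 + δ) ≤ Z → ∀ R : ℕ, ∀ T : Finset Ix,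
    (∀ q ∈ T, Adm K q) → T.card ≤ R → ∀ a ∈ T,
    ∑ b ∈ T, ‖Th a b Z‖ ≤ (1 + 100 * Z) + (2 : ℝ) ^ a.U.card * (Real.sqrt Z *
      (((2 : ℝ) ^ a.U.card) ^ 2 * ((2 + Real.log Z) *
        (C * Z ^ ε * (R : ℝ) ^ 3 * sSup (Rows K R Z)) ^ ((1 : ℝ) / 4)) + C * R)) := by
  classical
  obtain ⟨X, hX, hfe⟩ := HF
  obtain ⟨C1, hC1, hb⟩ := sum_Bd HD hε
  obtain ⟨Ct, hCt0, hCt⟩ := tail_le hδ
  refine ⟨C1 + Ct, by positivity, fun K Z hK hKZ R T hT hR a ha => ?_⟩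
  have hZ1 : 1 ≤ Z := le_trans (Real.one_le_rpow hK (by positivity)) hKZ
  have hZ0 : 0 < Z := by linarith
  have hlog : 0 ≤ Real.log Z := Real.log_nonneg hZ1
  set N := ⌊Real.sqrt Z⌋₊ with hN
  set Δ := sSup (Rows K R Z) with hΔ
  have hΔ0 : 0 ≤ Δ := rows_nonneg K R Z
  set Q : ℝ := (2 + Real.log Z) * (C1 * Z ^ ε * (R : ℝ) ^ 3 * Δ) ^ ((1 : ℝ) / 4) with hQ
  have hQ0 : 0 ≤ Q := by positivity
  have h1 : ∑ b ∈ T, ‖Th a b Z‖ = ‖Th a a Z‖ + ∑ b ∈ T.erase a, ‖Th a b Z‖ :=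
    (Finset.add_sum_erase T (fun b => ‖Th a b Z‖) ha).symm
  rw [h1]
  have h2 := norm_Th_le (ps2_of_adm (hT a ha)) (ps2_of_adm (hT a ha)) hZ0
  have h3 : ∀ b ∈ T.erase a, ‖Th a b Z‖ ≤ (2 : ℝ) ^ a.U.card *
      (Real.sqrt Z * (Bd (X a (grp a b)) (quo a b) N + Ct)) := by
    intro b hb'
    obtain ⟨hne, hbT⟩ := Finset.mem_erase.mp hb'
    obtain ⟨y, hy, hle⟩ := hfe K a b (hT a ha) (hT b hbT) (Ne.symm hne) Z hZ0
    exact Th_le hX hCt hK hZ1 hKZ (hT b hbT) hy hle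
  have h4 : ∑ b ∈ T.erase a, (Bd (X a (grp a b)) (quo a b) N + Ct) ≤
      ((2 : ℝ) ^ a.U.card) ^ 2 * Q + Ct * R := by
    refine (Finset.sum_le_sum_of_subset_of_nonneg (Finset.erase_subset a T) (fun b _ _ =>
      add_nonneg (Bd_nonneg _ _ _) hCt0.le)).trans ?_
    rw [Finset.sum_add_distrib, Finset.sum_const, nsmul_eq_mul]
    refine add_le_add ?_ ?_
    · refine sum_groups X N hQ0 fun g _ => ?_
      have hsub : ∀ q ∈ (T.filter (fun b => grp a b = g)).image (quo a), Adm K q := by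
        intro q hq
        obtain ⟨b, hb1, rfl⟩ := Finset.mem_image.mp hq
        exact adm_quo (hT b (Finset.mem_filter.mp hb1).1)
      have hcard : ((T.filter (fun b => grp a b = g)).image (quo a)).card ≤ R :=
        Finset.card_image_le.trans ((Finset.card_filter_le _ _).trans hR)
      exact hb _ (fun q hq => ps2_of_adm (hsub q hq)) R (by exact_mod_cast hcard) Z Δ hZ1 hΔ0
        (fun q hq => rows_le hZ0 hsub hcard hq) (X a g) (hX a g)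
    · rw [mul_comm]
      have : (T.card : ℝ) ≤ R := by exact_mod_cast hR
      gcongr
  have h5 : ∑ b ∈ T.erase a, ‖Th a b Z‖ ≤ (2 : ℝ) ^ a.U.card * (Real.sqrt Z *
      (((2 : ℝ) ^ a.U.card) ^ 2 * Q + Ct * R)) := by
    refine (Finset.sum_le_sum h3).trans ?_
    rw [← Finset.mul_sum, ← Finset.mul_sum]
    gcongr
  have h6 : Q ≤ (2 + Real.log Z) *
      ((C1 + Ct) * Z ^ ε * (R : ℝ) ^ 3 * Δ) ^ ((1 : ℝ) / 4) := by
    rw [hQ]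
    gcongr
    linarith
  have h7 : Ct * (R : ℝ) ≤ (C1 + Ct) * R := by
    have : (0 : ℝ) ≤ R := Nat.cast_nonneg R
    nlinarith
  have h8 : (2 : ℝ) ^ a.U.card * (Real.sqrt Z * (((2 : ℝ) ^ a.U.card) ^ 2 * Q + Ct * R)) ≤
      (2 : ℝ) ^ a.U.card * (Real.sqrt Z * (((2 : ℝ) ^ a.U.card) ^ 2 * ((2 + Real.log Z) *
      ((C1 + Ct) * Z ^ ε * (R : ℝ) ^ 3 * Δ) ^ ((1 : ℝ) / 4)) + (C1 + Ct) * R)) := by
    gcongr
  linarith

/-- closing the fixpoint inequality -/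
lemma closing {D A B : ℝ} (hD : 0 ≤ D) (hB : 0 ≤ B) (hA : 0 ≤ A)
    (h : D ≤ A + B * D ^ ((1 : ℝ) / 4)) : D ≤ 2 * A + (2 * B) ^ ((4 : ℝ) / 3) := by
  rcases le_or_gt D (2 * A) with h1 | h1
  · have : 0 ≤ (2 * B) ^ ((4 : ℝ) / 3) := by positivity
    linarith
  · have hD0 : 0 < D := by linarith
    have h2 : D ≤ 2 * B * D ^ ((1 : ℝ) / 4) := by linarith
    have h3 : D ^ ((3 : ℝ) / 4) ≤ 2 * B := by
      have e : D = D ^ ((3 : ℝ) / 4) * D ^ ((1 : ℝ) / 4) := by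
        rw [← Real.rpow_add hD0]; norm_num
      have h4 : D ^ ((3 : ℝ) / 4) * D ^ ((1 : ℝ) / 4) ≤ 2 * B * D ^ ((1 : ℝ) / 4) := by
        rw [← e]; exact h2
      exact le_of_mul_le_mul_right h4 (by positivity)
    have h5 : D = (D ^ ((3 : ℝ) / 4)) ^ ((4 : ℝ) / 3) := by
      rw [← Real.rpow_mul hD]; norm_num
    have h6 : (D ^ ((3 : ℝ) / 4)) ^ ((4 : ℝ) / 3) ≤ (2 * B) ^ ((4 : ℝ) / 3) :=
      Real.rpow_le_rpow (by positivity) h3 (by norm_num)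
    rw [← h5] at h6
    linarith

/-- **bound of all row sums** -/
theorem rows_final (HF : ThetaFE) (HD : PairsCard) (HP : TwoPow) {δ ε : ℝ} (hδ : 0 < δ)
    (hε : 0 < ε) : ∃ C : ℝ, 0 < C ∧ ∀ K Z : ℝ, 1 ≤ K → K ^ (4 / 3 + δ) ≤ Z → Z ≤ K ^ (2 : ℝ) →
    ∀ R : ℕ, sSup (Rows K R Z) ≤ C * K ^ ε * (Z + Z ^ ((2 : ℝ) / 3) * R) := by
  obtain ⟨C1, hC1, h1⟩ := row_le HF HD hδ (ε := ε / 16) (by positivity)
  obtain ⟨C2, hC2, h2⟩ := HP (ε / 16) (by positivity)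
  -- `2 + log Z ≤ C3 Z^(ε/16)`
  obtain ⟨C3, hC3, h3⟩ : ∃ C3 : ℝ, 0 < C3 ∧ ∀ Z : ℝ, 1 ≤ Z → 2 + Real.log Z ≤ C3 * Z ^ (ε / 16) := by
    refine ⟨2 + 16 / ε, by positivity, fun Z hZ => ?_⟩
    have h4 := Real.log_le_rpow_div (by linarith : (0 : ℝ) ≤ Z) (by positivity : 0 < ε / 16)
    have h5 : 1 ≤ Z ^ (ε / 16) := Real.one_le_rpow hZ (by positivity)
    have e : Z ^ (ε / 16) / (ε / 16) = 16 / ε * Z ^ (ε / 16) := by field_simp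
    rw [e] at h4
    nlinarith
  set c1 : ℝ := 101 + C2 * C1 with hc1
  set c2 : ℝ := C2 ^ 3 * C3 * C1 ^ ((1 : ℝ) / 4) with hc2
  refine ⟨2 * c1 + (2 * c2) ^ ((4 : ℝ) / 3), by positivity, fun K Z hK hKZ hZK R => ?_⟩
  have hK0 : 0 < K := by linarith
  have hZ1 : 1 ≤ Z := le_trans (Real.one_le_rpow hK (by positivity)) hKZ
  have hZ0 : 0 < Z := by linarith
  have hlog : 0 ≤ Real.log Z := Real.log_nonneg hZ1
  set Δ := sSup (Rows K R Z) with hΔ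
  have hΔ0 : 0 ≤ Δ := rows_nonneg K R Z
  have hR0 : (0 : ℝ) ≤ R := Nat.cast_nonneg R
  have hKe : 1 ≤ K ^ (ε / 16) := Real.one_le_rpow hK (by positivity)
  have hZe : Z ^ (ε / 16) ≤ K ^ (ε / 8) := by
    calc Z ^ (ε / 16) ≤ (K ^ (2 : ℝ)) ^ (ε / 16) := Real.rpow_le_rpow hZ0.le hZK (by positivity)
      _ = K ^ (ε / 8) := by rw [← Real.rpow_mul hK0.le]; congr 1; ring
  have hsq1 : 1 ≤ Real.sqrt Z := by rw [Real.one_le_sqrt]; exact hZ1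
  -- every row sum
  set A : ℝ := c1 * K ^ (3 * ε / 4) * (Z + Z ^ ((2 : ℝ) / 3) * R) with hA
  set B : ℝ := c2 * K ^ (3 * ε / 4) * Real.sqrt Z * (R : ℝ) ^ ((3 : ℝ) / 4) with hB
  have hA0 : 0 ≤ A := by positivity
  have hB0 : 0 ≤ B := by positivity
  have hKpow : ∀ x y : ℝ, x ≤ y → K ^ x ≤ K ^ y := fun x y h =>
    Real.rpow_le_rpow_of_exponent_le hK h
  have hmain : Δ ≤ A + B * Δ ^ ((1 : ℝ) / 4) := by
    apply Real.sSup_le _ (by positivity)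
    rintro x ⟨T, a, ha, hT, hR, rfl⟩
    have h4 := h1 K Z hK hKZ R T hT hR a ha
    refine h4.trans ?_
    have h5 : (2 : ℝ) ^ a.U.card ≤ C2 * K ^ (ε / 16) := by
      refine (h2 a.U (hT a ha).1).trans ?_
      have h6 : (nm (pr a.U) : ℝ) ^ (ε / 16) ≤ K ^ (ε / 16) :=
        Real.rpow_le_rpow (by positivity) (hT a ha).2.2 (by positivity)
      gcongr
    have h7 : 0 ≤ (2 : ℝ) ^ a.U.card := by positivity
    have h8 : (C1 * Z ^ (ε / 16) * (R : ℝ) ^ 3 * Δ) ^ ((1 : ℝ) / 4) ≤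
        C1 ^ ((1 : ℝ) / 4) * K ^ (ε / 8) * (R : ℝ) ^ ((3 : ℝ) / 4) * Δ ^ ((1 : ℝ) / 4) := by
      rw [Real.mul_rpow (by positivity) hΔ0, Real.mul_rpow (by positivity) (by positivity),
        Real.mul_rpow (by positivity) (by positivity)]
      have e1 : ((R : ℝ) ^ 3) ^ ((1 : ℝ) / 4) = (R : ℝ) ^ ((3 : ℝ) / 4) := by
        rw [← Real.rpow_natCast (R : ℝ) 3, ← Real.rpow_mul hR0]
        norm_num
      rw [e1]
      have h9 : (Z ^ (ε / 16)) ^ ((1 : ℝ) / 4) ≤ K ^ (ε / 8) := by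
        calc (Z ^ (ε / 16)) ^ ((1 : ℝ) / 4) ≤ (K ^ (ε / 8)) ^ ((1 : ℝ) / 4) :=
              Real.rpow_le_rpow (by positivity) hZe (by norm_num)
          _ = K ^ (ε / 32) := by rw [← Real.rpow_mul hK0.le]; congr 1; ring
          _ ≤ _ := hKpow _ _ (by linarith)
      gcongr
    have h10 : 2 + Real.log Z ≤ C3 * K ^ (ε / 8) := by
      refine (h3 Z hZ1).trans ?_
      gcongr
    have p1 : (2 : ℝ) ^ a.U.card * (Real.sqrt Z *
        (((2 : ℝ) ^ a.U.card) ^ 2 * ((2 + Real.log Z) *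
        (C1 * Z ^ (ε / 16) * (R : ℝ) ^ 3 * Δ) ^ ((1 : ℝ) / 4)) + C1 * R)) ≤
        (C2 * K ^ (ε / 16)) * (Real.sqrt Z *
        ((C2 * K ^ (ε / 16)) ^ 2 * ((C3 * K ^ (ε / 8)) *
        (C1 ^ ((1 : ℝ) / 4) * K ^ (ε / 8) * (R : ℝ) ^ ((3 : ℝ) / 4) * Δ ^ ((1 : ℝ) / 4))) +
          C1 * R)) := by gcongr
    have p2 : (C2 * K ^ (ε / 16)) * (Real.sqrt Z *
        ((C2 * K ^ (ε / 16)) ^ 2 * ((C3 * K ^ (ε / 8)) *
        (C1 ^ ((1 : ℝ) / 4) * K ^ (ε / 8) * (R : ℝ) ^ ((3 : ℝ) / 4) * Δ ^ ((1 : ℝ) / 4))) +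
          C1 * R)) =
        c2 * ((K ^ (ε / 16)) ^ 3 * (K ^ (ε / 8)) ^ 2) * Real.sqrt Z * (R : ℝ) ^ ((3 : ℝ) / 4) *
          Δ ^ ((1 : ℝ) / 4) + C2 * C1 * K ^ (ε / 16) * (Real.sqrt Z * R) := by
      rw [hc2]; ring
    have p3 : (K ^ (ε / 16)) ^ 3 * (K ^ (ε / 8)) ^ 2 ≤ K ^ (3 * ε / 4) := by
      rw [← Real.rpow_natCast, ← Real.rpow_natCast, ← Real.rpow_mul hK0.le,
        ← Real.rpow_mul hK0.le, ← Real.rpow_add hK0]
      apply hKpow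
      push_cast
      linarith
    have p4 : Real.sqrt Z ≤ Z ^ ((2 : ℝ) / 3) := by
      rw [Real.sqrt_eq_rpow]
      exact Real.rpow_le_rpow_of_exponent_le hZ1 (by norm_num)
    have p5 : 1 ≤ K ^ (3 * ε / 4) := Real.one_le_rpow hK (by positivity)
    have p6 : 1 + 100 * Z ≤ 101 * K ^ (3 * ε / 4) * Z := by nlinarith
    have p7 : C2 * C1 * K ^ (ε / 16) * (Real.sqrt Z * R) ≤
        C2 * C1 * K ^ (3 * ε / 4) * (Z ^ ((2 : ℝ) / 3) * R) := by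
      have := hKpow (ε / 16) (3 * ε / 4) (by linarith)
      gcongr
    have p8 : c2 * ((K ^ (ε / 16)) ^ 3 * (K ^ (ε / 8)) ^ 2) * Real.sqrt Z *
        (R : ℝ) ^ ((3 : ℝ) / 4) * Δ ^ ((1 : ℝ) / 4) ≤ B * Δ ^ ((1 : ℝ) / 4) := by
      rw [hB]; gcongr
    have p9 : 101 * K ^ (3 * ε / 4) * Z + C2 * C1 * K ^ (3 * ε / 4) * (Z ^ ((2 : ℝ) / 3) * R) ≤
        A := by
      rw [hA, hc1]
      have q1 : 0 ≤ K ^ (3 * ε / 4) * (Z ^ ((2 : ℝ) / 3) * R) := by positivity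
      have q2 : 0 ≤ C2 * C1 * K ^ (3 * ε / 4) * Z := by positivity
      nlinarith
    calc _ ≤ 101 * K ^ (3 * ε / 4) * Z + (B * Δ ^ ((1 : ℝ) / 4) +
          C2 * C1 * K ^ (3 * ε / 4) * (Z ^ ((2 : ℝ) / 3) * R)) := by
          refine add_le_add p6 (p1.trans ?_)
          rw [p2]
          exact add_le_add p8 p7
      _ ≤ _ := by linarith
  have hfin := closing hΔ0 hB0 hA0 hmain
  refine hfin.trans ?_
  have r1 : (2 * B) ^ ((4 : ℝ) / 3) ≤ (2 * c2) ^ ((4 : ℝ) / 3) * K ^ ε * (Z ^ ((2 : ℝ) / 3) * R) := by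
    have e : 2 * B = (2 * c2) * K ^ (3 * ε / 4) * (Real.sqrt Z * (R : ℝ) ^ ((3 : ℝ) / 4)) := by
      rw [hB]; ring
    have s1 := Real.mul_rpow (x := (2 * c2) * K ^ (3 * ε / 4))
      (y := Real.sqrt Z * (R : ℝ) ^ ((3 : ℝ) / 4)) (z := (4 : ℝ) / 3) (by positivity) (by positivity)
    have s2 := Real.mul_rpow (x := 2 * c2) (y := K ^ (3 * ε / 4)) (z := (4 : ℝ) / 3)
      (by positivity) (by positivity)
    have s3 := Real.mul_rpow (x := Real.sqrt Z) (y := (R : ℝ) ^ ((3 : ℝ) / 4)) (z := (4 : ℝ) / 3)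
      (by positivity) (by positivity)
    rw [e, s1, s2, s3]
    have e1 : (K ^ (3 * ε / 4)) ^ ((4 : ℝ) / 3) = K ^ ε := by
      rw [← Real.rpow_mul hK0.le]; congr 1; ring
    have e2 : Real.sqrt Z ^ ((4 : ℝ) / 3) = Z ^ ((2 : ℝ) / 3) := by
      rw [Real.sqrt_eq_rpow, ← Real.rpow_mul hZ0.le]; norm_num
    have e3 : ((R : ℝ) ^ ((3 : ℝ) / 4)) ^ ((4 : ℝ) / 3) = R := by
      rw [← Real.rpow_mul hR0]; norm_num
    rw [e1, e2, e3]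
  have r2 : 2 * A ≤ 2 * c1 * K ^ ε * (Z + Z ^ ((2 : ℝ) / 3) * R) := by
    rw [hA]
    have := hKpow (3 * ε / 4) ε (by linarith)
    calc _ = 2 * c1 * K ^ (3 * ε / 4) * (Z + Z ^ ((2 : ℝ) / 3) * R) := by ring
      _ ≤ _ := by gcongr
  have r3 : (2 * c2) ^ ((4 : ℝ) / 3) * K ^ ε * (Z ^ ((2 : ℝ) / 3) * R) ≤
      (2 * c2) ^ ((4 : ℝ) / 3) * K ^ ε * (Z + Z ^ ((2 : ℝ) / 3) * R) := by
    gcongr
    linarith
  calc _ ≤ 2 * c1 * K ^ ε * (Z + Z ^ ((2 : ℝ) / 3) * R) +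
        (2 * c2) ^ ((4 : ℝ) / 3) * K ^ ε * (Z + Z ^ ((2 : ℝ) / 3) * R) :=
        add_le_add r2 (r1.trans r3)
    _ = _ := by ring

/-- **large sieve form of (LV)** -/
theorem lslv (HF : ThetaFE) (HD : PairsCard) (HP : TwoPow) {δ ε : ℝ} (hδ : 0 < δ) (hε : 0 < ε) :
    ∃ C : ℝ, 0 < C ∧ ∀ K Z : ℝ, 1 ≤ K → K ^ (4 / 3 + δ) ≤ Z → Z ≤ K ^ (2 : ℝ) →
    ∀ T : Finset Ix, (∀ q ∈ T, Adm K q) → ∀ F : Finset Eis, (∀ n ∈ F, (nm n : ℝ) ≤ Z) →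
    ∀ c : Eis → ℂ, ∑ q ∈ T, ‖∑ n ∈ F, c n * ch q n‖ ^ 2 ≤
      C * K ^ ε * (Z + Z ^ ((2 : ℝ) / 3) * T.card) * ∑ n ∈ F, ‖c n‖ ^ 2 := by
  obtain ⟨C, hC, hb⟩ := rows_final HF HD HP hδ hε
  refine ⟨Real.exp 1 * C, by positivity, fun K Z hK hKZ hZK T hT F hF c => ?_⟩
  have hZ1 : 1 ≤ Z := le_trans (Real.one_le_rpow hK (by positivity)) hKZ
  have hZ0 : 0 < Z := by linarith
  have h1 := duality (fun q hq => ps2_of_adm (hT q hq)) hZ0 (rows_nonneg K T.card Z)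
    (fun a ha => rows_le hZ0 hT le_rfl ha) hF c
  refine h1.trans ?_
  have h2 := hb K Z hK hKZ hZK T.card
  calc _ ≤ Real.exp 1 * (C * K ^ ε * (Z + Z ^ ((2 : ℝ) / 3) * T.card)) * ∑ n ∈ F, ‖c n‖ ^ 2 := by
        gcongr
    _ = _ := by ring

/-- **(LV)** -/
theorem lvProp_of (HF : ThetaFE) (HD : PairsCard) (HP : TwoPow) : LVProp := by
  intro δ hδ ε hε
  obtain ⟨C, hC, hb⟩ := lslv HF HD HP hδ hε
  refine ⟨2 * C, by positivity, fun K Z hK hKZ hZK T hT c hc V hV hTV => ?_⟩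
  have hK0 : 0 < K := by linarith
  have hZ1 : 1 ≤ Z := le_trans (Real.one_le_rpow hK (by positivity)) hKZ
  have hZ0 : 0 < Z := by linarith
  set F := ball ⌊Z⌋₊ with hF
  have hF1 : ∀ n ∈ F, (nm n : ℝ) ≤ Z := by
    intro n hn
    rw [hF, mem_ball] at hn
    exact (Nat.le_floor_iff hZ0.le).mp hn
  have hF2 : ∀ n, n ∉ F → c n = 0 := by
    intro n hn
    apply hc
    rw [hF, mem_ball] at hn
    by_contra h
    exact hn (Nat.le_floor (not_lt.mp h))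
  have e1 : ∑' n : Eis, ‖c n‖ ^ 2 = ∑ n ∈ F, ‖c n‖ ^ 2 :=
    tsum_eq_sum fun n hn => by rw [hF2 n hn]; simp
  have e2 : ∀ q, ∑' n : Eis, c n * ch q n = ∑ n ∈ F, c n * ch q n := fun q =>
    tsum_eq_sum fun n hn => by rw [hF2 n hn]; simp
  rw [e1] at hV ⊢
  set G := ∑ n ∈ F, ‖c n‖ ^ 2 with hG
  have hG0 : 0 ≤ G := Finset.sum_nonneg fun _ _ => by positivity
  have h1 := hb K Z hK hKZ hZK T hT F hF1 c
  have h2 : (T.card : ℝ) * V ≤ ∑ q ∈ T, ‖∑ n ∈ F, c n * ch q n‖ ^ 2 := by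
    rw [← nsmul_eq_mul, ← Finset.sum_const]
    refine Finset.sum_le_sum fun q hq => ?_
    rw [← e2 q]
    exact hTV q hq
  have h3 : (0 : ℝ) ≤ T.card := Nat.cast_nonneg _
  have h4 : C * K ^ ε * (Z + Z ^ ((2 : ℝ) / 3) * T.card) * G =
      C * K ^ ε * Z * G + (2 * C * K ^ ε * Z ^ ((2 : ℝ) / 3) * G) * T.card / 2 := by ring
  have h5 : (2 * C * K ^ ε * Z ^ ((2 : ℝ) / 3) * G) * T.card ≤ V * T.card := by gcongr
  have h6 : (T.card : ℝ) * V ≤ C * K ^ ε * Z * G + V * T.card / 2 := by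
    refine h2.trans (h1.trans ?_)
    rw [h4]
    linarith
  linarith

end Crest.Agent.R017.LV164
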