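import Crest.Agent.R012.LS2Pair_381
import Crest.Agent.R012.GaussInst_880
import Crest.Agent.R012.Sym6_645
import Crest.Agent.R012.Div_277

/-!
# Row 17, (LV): large values of cubic character sums (Halász–Montgomery for pairs), definitions

* `Ix`       : index of a cubic character `χ_{k₀} conj χ_{k₁}`, `k₀, k₁` given by their prime sets
* `Adm K q`  : squarefree coprime primary prime sets, conductor norm `≤ K`
* `ch q n`   : the character
* `Th q q' Z`: `∑_n exp (-nm n / Z) ch q n conj (ch q' n)`  (all `n : Eis`)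
* `FF X q y` : `∑_{h ≠ 0} exp (-nm h y) X h ch q h`
* `ThetaFE`  : the functional equation inequality (proved in `LVa_404`)
* `LVProp`   : the large values theorem
-/

set_option autoImplicit false

noncomputable section

namespace Crest.Agent.R017.LV404

open Crest.Agent.R012
open Eis LS2 Div277

/-- index of a cubic character -/
abbrev Ix := Finset Eis × Finset Eis

open Classical in
/-- all primes of the conductor -/
def Ix.U (q : Ix) : Finset Eis := q.1 ∪ q.2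

/-- admissible indices of conductor norm at most `K` -/
def Adm (K : ℝ) (q : Ix) : Prop :=
  IsPS q.U ∧ Disjoint q.1 q.2 ∧ (nm (pr q.U) : ℝ) ≤ K

/-- the character `n ↦ (n/k₀)₃ conj (n/k₁)₃` -/
def ch (q : Ix) (n : Eis) : ℂ := sy n (pr q.1) * (starRingEnd ℂ) (sy n (pr q.2))

/-- theta sum of a pair -/
def Th (q q' : Ix) (Z : ℝ) : ℂ :=
  ∑' n : Eis, ((Real.exp (-(nm n : ℝ) / Z) : ℝ) : ℂ) * (ch q n * (starRingEnd ℂ) (ch q' n))

open Classical in
/-- dual theta sum without the zero frequency -/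
def FF (X : Eis → ℂ) (q : Ix) (y : ℝ) : ℂ :=
  ∑' h : Eis, if h = 0 then 0 else ((Real.exp (-((nm h : ℝ) * y)) : ℝ) : ℂ) * (X h * ch q h)

open Classical in
/-- the part of `b` prime to `a` -/
def quo (a b : Ix) : Ix := (b.1 \ a.U, b.2 \ a.U)

open Classical in
/-- the common part of `a` and `b` (group label) -/
def grp (a b : Ix) : Ix := (b.1 ∩ a.U, b.2 ∩ a.U)

/-- (H1) functional equation: for `a ≠ b` the theta sum is bounded by at most `2^ω(a)` dual sums,
whose coefficients depend on `b` only through the character `ch (quo a b)` and the label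
`grp a b`, and whose lengths `1 / y` are at most `3 K² / (4 π² Z)`. -/
def ThetaFE : Prop :=
  ∃ X : Ix → Ix → Eis → ℂ, (∀ a g h, ‖X a g h‖ ≤ 1) ∧
    ∀ (K : ℝ) (a b : Ix), Adm K a → Adm K b → a ≠ b → ∀ Z : ℝ, 0 < Z →
      ∃ y : Finset Eis → ℝ, (∀ E ∈ a.U.powerset, 4 * Real.pi ^ 2 * Z / (3 * K ^ 2) ≤ y E) ∧
        ‖Th a b Z‖ ≤ ∑ E ∈ a.U.powerset, Real.sqrt (Z * y E) * ‖FF (X a (grp a b)) (quo a b) (y E)‖

/-- **(LV)** large values theorem: `T` any finite set of characters of conductor norm `≤ K`,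
`Z ≥ K^(4/3+δ)`, arbitrary coefficients supported on `nm n ≤ Z`. -/
def LVProp : Prop :=
  ∀ δ : ℝ, 0 < δ → ∀ ε : ℝ, 0 < ε → ∃ C : ℝ, 0 < C ∧ ∀ K Z : ℝ, 1 ≤ K → K ^ (4 / 3 + δ) ≤ Z →
    Z ≤ K ^ (2 : ℝ) →
    ∀ T : Finset Ix, (∀ q ∈ T, Adm K q) → ∀ c : Eis → ℂ, (∀ n, Z < (nm n : ℝ) → c n = 0) →
    ∀ V : ℝ, C * K ^ ε * Z ^ ((2 : ℝ) / 3) * (∑' n : Eis, ‖c n‖ ^ 2) ≤ V →
      (∀ q ∈ T, V ≤ ‖∑' n : Eis, c n * ch q n‖ ^ 2) →
      (T.card : ℝ) * V ≤ C * K ^ ε * Z * ∑' n : Eis, ‖c n‖ ^ 2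

end Crest.Agent.R017.LV404
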