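import Crest.Agent.R017.EndE3_699
import Crest.Agent.R017.EndJ_699
import Crest.Agent.R017.HB2_645
import Crest.Agent.R012.EdgeA_79

/-!
# Row 17, (LV'), part 1: the sup rule for exponential weights (helper73)

* `psum χ y`  : `∑_{b primary} χ b exp (-nm b y)`
* `psum_le`   : under `PF univ θ`, `|psum χ y| ≤ C (nm q)^ε y^(-(θ+ε))` for every `y > 0`
* `tet φ y`   : `∑_{h ≠ 0} exp (-nm h y) φ h` over all `h`, `φ` completely multiplicative
* `tet_le`    : the same bound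
-/

set_option autoImplicit false

noncomputable section

namespace Crest.Agent.R017.LVs73

open Crest.Agent.R012 Crest.Agent.R012.Eis Crest.Agent.R012.PSer47
open Crest.Agent.R017.End699
open scoped ContDiff

/-! ### the cut-offs `exp (m u) exp (-exp u)` -/

/-- `exp (m u) exp (-exp u)` -/
def ge (m : ℕ) (u : ℝ) : ℂ := ((Real.exp (m * u) * Real.exp (-Real.exp u) : ℝ) : ℂ)

lemma ge_contDiff (m : ℕ) : ContDiff ℝ ∞ (ge m) := by
  unfold ge
  exact Complex.ofRealCLM.contDiff.comp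
    ((Real.contDiff_exp.comp (contDiff_const.mul contDiff_id)).mul
      (Real.contDiff_exp.comp Real.contDiff_exp.neg))

lemma ge_deriv (m : ℕ) : deriv (ge m) = fun u => (m : ℂ) * ge m u + (-1) * ge (m + 1) u := by
  funext u
  have h1 : HasDerivAt (fun u : ℝ => Real.exp (m * u) * Real.exp (-Real.exp u))
      ((m : ℝ) * (Real.exp (m * u) * Real.exp (-Real.exp u)) -
        Real.exp ((m + 1 : ℕ) * u) * Real.exp (-Real.exp u)) u := by
    have a1 : HasDerivAt (fun u : ℝ => Real.exp (m * u)) (Real.exp (m * u) * (m * 1)) u :=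
      ((hasDerivAt_id u).const_mul (m : ℝ)).exp
    have a2 : HasDerivAt (fun u : ℝ => Real.exp (-Real.exp u))
        (Real.exp (-Real.exp u) * (-(Real.exp u))) u :=
      (Real.hasDerivAt_exp u).neg.exp
    refine (a1.mul a2).congr_deriv ?_
    push_cast
    rw [add_mul, one_mul, Real.exp_add]
    ring
  have h2 := h1.ofReal_comp
  unfold ge
  rw [h2.deriv]
  push_cast
  ring

lemma ge_bound (m : ℕ) (u : ℝ) : ‖ge m u‖ ≤ (m.factorial : ℝ) := by
  unfold ge
  rw [Complex.norm_real, Real.norm_of_nonneg (by positivity)]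
  have h1 := Real.pow_div_factorial_le_exp (Real.exp u) (Real.exp_pos u).le m
  have h2 : (0 : ℝ) < m.factorial := by exact_mod_cast Nat.factorial_pos m
  rw [div_le_iff₀ h2] at h1
  have h3 : Real.exp (m * u) = Real.exp u ^ m := by rw [← Real.exp_nat_mul]
  rw [h3, Real.exp_neg, ← div_eq_mul_inv, div_le_iff₀ (Real.exp_pos _)]
  linarith

lemma iter_const_mul {A : ℝ → ℂ} (hA : ContDiff ℝ ∞ A) (c : ℂ) (k : ℕ) :
    deriv^[k] (fun u => c * A u) = fun u => c * deriv^[k] A u := by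
  induction k generalizing A with
  | zero => rfl
  | succ k ih =>
    have h1 : deriv (fun u => c * A u) = fun u => c * deriv A u := by
      funext u
      exact deriv_const_mul c ((contDiff_infty_iff_deriv.mp hA).1 u)
    rw [Function.iterate_succ_apply, h1, ih (contDiff_infty_iff_deriv.mp hA).2]
    rfl

lemma ge_iter (k : ℕ) : ∀ m : ℕ, ∃ B : ℝ, ∀ u, ‖deriv^[k] (ge m) u‖ ≤ B := by
  induction k with
  | zero => exact fun m => ⟨m.factorial, fun u => ge_bound m u⟩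
  | succ k ih =>
    intro m
    obtain ⟨B1, h1⟩ := ih m
    obtain ⟨B2, h2⟩ := ih (m + 1)
    refine ⟨m * B1 + B2, fun u => ?_⟩
    rw [Function.iterate_succ_apply, ge_deriv,
      iter_deriv_add (contDiff_const.mul (ge_contDiff m)) (contDiff_const.mul (ge_contDiff (m + 1))),
      iter_const_mul (ge_contDiff m), iter_const_mul (ge_contDiff (m + 1))]
    refine (norm_add_le _ _).trans ?_
    rw [norm_mul, norm_mul, norm_neg, norm_one, one_mul, Complex.norm_natCast]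
    have := h1 u
    have := h2 u
    gcongr

lemma sg_ge (m : ℕ) : SG (ge m) := ⟨ge_contDiff m, fun k => ge_iter k m⟩

/-! ### geometric sums -/

/-- constant of the two-sided geometric series -/
lemma geo_two : ∃ C : ℝ, 0 < C ∧ ∀ (a : ℝ) (n : ℕ),
    ∑ k ∈ Finset.range n, Real.exp (-(|(k : ℝ) + a| / 2)) ≤ C := by
  have hs : Summable fun j : ℤ => Real.exp (-(|(j : ℝ)| / 2)) := by
    have h1 : Summable fun n : ℕ => Real.exp (-((n : ℝ) / 2)) := by
      have := Real.summable_exp_nat_mul_iff (a := -(1 / 2 : ℝ))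
      refine (this.mpr (by norm_num)).congr fun n => ?_
      congr 1; ring
    refine Summable.of_nat_of_neg ?_ ?_
    · refine h1.congr fun n => ?_
      simp
    · refine h1.congr fun n => ?_
      simp
  refine ⟨Real.exp (1 / 2) * ∑' j : ℤ, Real.exp (-(|(j : ℝ)| / 2)) + 1, by positivity,
    fun a n => ?_⟩
  have h2 : ∀ k ∈ Finset.range n, Real.exp (-(|(k : ℝ) + a| / 2)) ≤
      Real.exp (1 / 2) * Real.exp (-(|(((k : ℤ) + ⌊a⌋ : ℤ) : ℝ)| / 2)) := by
    intro k _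
    rw [← Real.exp_add]
    apply Real.exp_le_exp.mpr
    have h3 := Int.floor_le a
    have h4 := Int.lt_floor_add_one a
    have h5 : |(((k : ℤ) + ⌊a⌋ : ℤ) : ℝ)| ≤ |(k : ℝ) + a| + 1 := by
      have e : (((k : ℤ) + ⌊a⌋ : ℤ) : ℝ) = ((k : ℝ) + a) + ((⌊a⌋ : ℝ) - a) := by push_cast; ring
      rw [e]
      refine (abs_add_le _ _).trans ?_
      have : |(⌊a⌋ : ℝ) - a| ≤ 1 := by
        rw [abs_le]; constructor <;> linarith
      linarith
    linarith
  refine (Finset.sum_le_sum h2).trans ?_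
  rw [← Finset.mul_sum]
  have h6 : ∑ k ∈ Finset.range n, Real.exp (-(|(((k : ℤ) + ⌊a⌋ : ℤ) : ℝ)| / 2)) ≤
      ∑' j : ℤ, Real.exp (-(|(j : ℝ)| / 2)) := by
    have h7 : ∑ k ∈ Finset.range n, Real.exp (-(|(((k : ℤ) + ⌊a⌋ : ℤ) : ℝ)| / 2)) =
        ∑ j ∈ (Finset.range n).image (fun k : ℕ => (k : ℤ) + ⌊a⌋),
          Real.exp (-(|(j : ℝ)| / 2)) := by
      rw [Finset.sum_image]
      intro x _ y _ h
      simpa using h
    rw [h7]
    exact hs.sum_le_tsum _ (fun _ _ => (Real.exp_pos _).le)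
  have h8 := Real.exp_pos (1 / 2 : ℝ)
  nlinarith

/-! ### the exponential sums over primary elements -/

open Classical in
/-- `∑_{b primary} χ b exp (-nm b y)` -/
def psum (χ : Eis → ℂ) (y : ℝ) : ℂ :=
  ∑' b : Eis, if IsPrim b then χ b * ((Real.exp (-((nm b : ℝ) * y)) : ℝ) : ℂ) else 0

lemma summable_expy {y : ℝ} (hy : 0 < y) : Summable fun h : Eis => Real.exp (-((nm h : ℝ) * y)) := by
  refine (Edge79.summable_exp hy).congr fun h => ?_
  congr 1; ring

/-- the weight `hh v exp (-m v)` -/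
def hm (m : ℕ) (v : ℝ) : ℂ := ((HB645.hh v * Real.exp (-(m * v)) : ℝ) : ℂ)

lemma hw_hm (m : ℕ) : HW (hm m) where
  cd := by
    unfold hm
    refine Complex.ofRealCLM.contDiff.comp (HB645.contDiff_hh.mul ?_)
    fun_prop
  supp := by
    intro u hu
    have h1 : HB645.hh u ≠ 0 := by
      intro h0; apply hu; simp [hm, h0]
    exact (HB645.abs_lt_of_hh h1).le

lemma ge_log {m n : ℕ} (hn : n ≠ 0) {y : ℝ} (hy : 0 < y) :
    ge m (Real.log n - (-Real.log y)) =
      ((((n : ℝ) * y) ^ m * Real.exp (-((n : ℝ) * y)) : ℝ) : ℂ) := by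
  have hn0 : (0 : ℝ) < n := by exact_mod_cast Nat.pos_of_ne_zero hn
  have h1 : Real.exp (Real.log n - (-Real.log y)) = n * y := by
    rw [sub_neg_eq_add, Real.exp_add, Real.exp_log hn0, Real.exp_log hy]
  unfold ge
  rw [Real.exp_nat_mul, h1]

/-- the piece at scale `e^κ` -/
def pc (χ : Eis → ℂ) (y : ℝ) (κ : ℕ) : ℂ :=
  ∑ b ∈ primBall ⌊Real.exp ((κ : ℝ) + 1)⌋₊,
    χ b * (((HB645.hh (Real.log (nm b) - κ) * Real.exp (-((nm b : ℝ) * y)) : ℝ)) : ℂ)

lemma pc_eq (χ : Eis → ℂ) {y : ℝ} (hy : 0 < y) (κ m : ℕ) :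
    pc χ y κ = (((y * Real.exp κ) ^ m : ℝ) : ℂ)⁻¹ *
      ∑ b ∈ primBall ⌊Real.exp ((κ : ℝ) + 1)⌋₊, tw χ 0 b * ((nm b : ℂ) ^ (((0 : ℝ) : ℂ) * Complex.I : ℂ) *
        (hm m (Real.log (nm b) - κ) * ge m (Real.log (nm b) - (-Real.log y)))) := by
  have h0 : (((y * Real.exp κ) ^ m : ℝ) : ℂ) ≠ 0 := by
    exact_mod_cast (pow_pos (mul_pos hy (Real.exp_pos _)) m).ne'
  unfold pc
  rw [eq_inv_mul_iff_mul_eq₀ h0, Finset.mul_sum]
  refine Finset.sum_congr rfl fun b hb => ?_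
  have hb0 := nm_pos.mpr (mem_primBall.mp hb).2.ne_zero
  have hb1 : (0 : ℝ) < nm b := by exact_mod_cast hb0
  rw [ge_log hb0.ne' hy]
  unfold tw hm
  rw [ang_zero', mul_one, Complex.ofReal_zero, zero_mul, Complex.cpow_zero, one_mul]
  have h2 : (y * Real.exp κ) ^ m * Real.exp (-((nm b : ℝ) * y)) =
      Real.exp (-((m : ℝ) * (Real.log (nm b) - κ))) *
        (((nm b : ℝ) * y) ^ m * Real.exp (-((nm b : ℝ) * y))) := by
    rw [← mul_assoc]
    congr 1
    have e1 : Real.exp (-((m : ℝ) * (Real.log (nm b) - κ))) =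
        (Real.exp κ) ^ m / (nm b : ℝ) ^ m := by
      rw [← div_pow, ← Real.exp_log hb1, ← Real.exp_sub, ← Real.exp_nat_mul, Real.log_exp]
      congr 1; ring
    rw [e1, mul_pow, mul_pow]
    have : (nm b : ℝ) ^ m ≠ 0 := by positivity
    field_simp
  calc _ = χ b * (((HB645.hh (Real.log (nm b) - κ) * ((y * Real.exp κ) ^ m *
        Real.exp (-((nm b : ℝ) * y))) : ℝ)) : ℂ) := by push_cast; ring
    _ = _ := by rw [h2]; push_cast; ring

/-- bound of one piece -/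
theorem pc_le {θ ε : ℝ} (hθ : 1 / 2 < θ) (hθ1 : θ ≤ 1) (hPF : PF Set.univ θ)
    (hε : 0 < ε) (hε1 : ε ≤ 1 / 2) :
    ∃ C : ℝ, 0 ≤ C ∧ ∀ (q : Eis) (χ : Eis → ℂ), HC q χ → NP q χ 0 → ∀ y : ℝ, 0 < y → ∀ κ : ℕ,
      ‖pc χ y κ‖ ≤ C * (nm q : ℝ) ^ ε * (y ^ (-(θ + ε)) * Real.exp (-(|(κ : ℝ) + Real.log y| / 2))) := by
  obtain ⟨C0, hC0, h0⟩ := pf_PS hθ hθ1 hPF hε (by linarith) (Set.mem_univ (0 : ℤ)) (hw_hm 0) (sg_ge 0)
  obtain ⟨C2, hC2, h2⟩ := pf_PS hθ hθ1 hPF hε (by linarith) (Set.mem_univ (0 : ℤ)) (hw_hm 2) (sg_ge 2)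
  refine ⟨C0 + C2, by positivity, fun q χ hc hnp y hy κ => ?_⟩
  have hM : Real.exp ((κ : ℝ) + 1) < (⌊Real.exp ((κ : ℝ) + 1)⌋₊ : ℝ) + 1 := Nat.lt_floor_add_one _
  have hκ : (0 : ℝ) ≤ κ := Nat.cast_nonneg κ
  set s : ℝ := θ + ε with hs
  set a : ℝ := (κ : ℝ) + Real.log y with ha
  have hq : (0 : ℝ) ≤ (nm q : ℝ) ^ ε := by positivity
  have hys : y ^ (-s) = Real.exp (-s * Real.log y) := by
    rw [Real.rpow_def_of_pos hy]; congr 1; ring
  have key : ∀ (m : ℕ) (Cm : ℝ), 0 ≤ Cm → (∀ (q : Eis) (χ : Eis → ℂ), HC q χ → NP q χ 0 →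
      ∀ t ζ κ : ℝ, 0 ≤ κ → ∀ M : ℕ, Real.exp (κ + 1) < M + 1 →
      ‖∑ b ∈ primBall M, tw χ 0 b * ((nm b : ℂ) ^ ((t * Complex.I : ℂ)) *
        (hm m (Real.log (nm b) - κ) * ge m (Real.log (nm b) - ζ)))‖ ≤
        Cm * ((nm q : ℝ) * (1 + |t|)) ^ ε * Real.exp ((θ + ε) * κ)) →
      ‖pc χ y κ‖ ≤ Cm * (nm q : ℝ) ^ ε * (y ^ (-s) * Real.exp ((s - m) * a)) := by
    intro m Cm hCm h
    have h3 := h q χ hc hnp 0 (-Real.log y) κ hκ _ hM
    rw [abs_zero, add_zero, mul_one] at h3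
    rw [pc_eq χ hy κ m, norm_mul, norm_inv, Complex.norm_real,
      Real.norm_of_nonneg (by positivity)]
    have h4 : (0 : ℝ) < ((y * Real.exp κ) ^ m)⁻¹ := by positivity
    refine (mul_le_mul_of_nonneg_left h3 h4.le).trans (le_of_eq ?_)
    have h5 : ((y * Real.exp κ) ^ m)⁻¹ = Real.exp (-(m * a)) := by
      have : y * Real.exp κ = Real.exp a := by
        rw [ha, Real.exp_add, Real.exp_log hy]; ring
      rw [this, ← Real.exp_nat_mul, Real.exp_neg]
    rw [h5, hys]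
    have h6 : Real.exp (-(m * a)) * Real.exp ((θ + ε) * κ) =
        Real.exp (-s * Real.log y) * Real.exp ((s - m) * a) := by
      rw [← Real.exp_add, ← Real.exp_add]
      congr 1
      rw [ha, hs]; ring
    calc _ = Cm * (nm q : ℝ) ^ ε * (Real.exp (-(m * a)) * Real.exp ((θ + ε) * κ)) := by ring
      _ = _ := by rw [h6]
  have hy0 : 0 ≤ y ^ (-s) := by positivity
  rcases le_total a 0 with h | h
  · have h3 := key 0 C0 hC0 h0
    have e : Real.exp ((s - (0 : ℕ)) * a) ≤ Real.exp (-(|a| / 2)) := by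
      apply Real.exp_le_exp.mpr
      rw [abs_of_nonpos h]
      push_cast
      nlinarith
    calc _ ≤ C0 * (nm q : ℝ) ^ ε * (y ^ (-s) * Real.exp ((s - (0 : ℕ)) * a)) := h3
      _ ≤ (C0 + C2) * (nm q : ℝ) ^ ε * (y ^ (-s) * Real.exp (-(|a| / 2))) := by
          gcongr
          linarith
  · have h3 := key 2 C2 hC2 h2
    have e : Real.exp ((s - (2 : ℕ)) * a) ≤ Real.exp (-(|a| / 2)) := by
      apply Real.exp_le_exp.mpr
      rw [abs_of_nonneg h]
      push_cast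
      nlinarith
    calc _ ≤ C2 * (nm q : ℝ) ^ ε * (y ^ (-s) * Real.exp ((s - (2 : ℕ)) * a)) := h3
      _ ≤ (C0 + C2) * (nm q : ℝ) ^ ε * (y ^ (-s) * Real.exp (-(|a| / 2))) := by
          gcongr
          linarith

open Classical in
/-- the term of `psum` -/
def ft (χ : Eis → ℂ) (y : ℝ) (b : Eis) : ℂ :=
  if IsPrim b then χ b * ((Real.exp (-((nm b : ℝ) * y)) : ℝ) : ℂ) else 0

lemma norm_ft_le {χ : Eis → ℂ} (hχ : ∀ b, IsPrim b → ‖χ b‖ ≤ 1) (y : ℝ) (b : Eis) :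
    ‖ft χ y b‖ ≤ Real.exp (-((nm b : ℝ) * y)) := by
  unfold ft
  split_ifs with h
  · rw [norm_mul, Complex.norm_real, Real.norm_of_nonneg (Real.exp_pos _).le]
    exact mul_le_of_le_one_left (Real.exp_pos _).le (hχ b h)
  · rw [norm_zero]; exact (Real.exp_pos _).le

lemma pc_tsum (χ : Eis → ℂ) (y : ℝ) (κ : ℕ) :
    pc χ y κ = ∑' b : Eis, ft χ y b * (HB645.hh (Real.log (nm b) - κ) : ℂ) := by
  classical
  unfold pc
  rw [tsum_eq_sum (s := primBall ⌊Real.exp ((κ : ℝ) + 1)⌋₊)]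
  · refine Finset.sum_congr rfl fun b hb => ?_
    unfold ft
    rw [if_pos (mem_primBall.mp hb).2]
    push_cast
    ring
  · intro b hb
    by_cases h : IsPrim b
    · have h1 : ⌊Real.exp ((κ : ℝ) + 1)⌋₊ < nm b := by
        by_contra h2
        exact hb (mem_primBall.mpr ⟨not_lt.mp h2, h⟩)
      have h3 : Real.exp ((κ : ℝ) + 1) < nm b := Nat.lt_of_floor_lt h1
      have h4 : (κ : ℝ) + 1 < Real.log (nm b) := by
        rw [← Real.log_exp ((κ : ℝ) + 1)]
        exact Real.log_lt_log (Real.exp_pos _) h3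
      rw [HB645.hh_right (by linarith)]
      simp
    · unfold ft
      rw [if_neg h, zero_mul]

/-- **the sup rule for exponential weights** -/
theorem psum_le {θ ε : ℝ} (hθ : 1 / 2 < θ) (hθ1 : θ ≤ 1) (hPF : PF Set.univ θ)
    (hε : 0 < ε) (hε1 : ε ≤ 1 / 2) :
    ∃ C : ℝ, 0 ≤ C ∧ ∀ (q : Eis) (χ : Eis → ℂ), HC q χ → NP q χ 0 → ∀ y : ℝ, 0 < y →
      ‖psum χ y‖ ≤ C * (nm q : ℝ) ^ ε * y ^ (-(θ + ε)) := by
  obtain ⟨C, hC0, hC⟩ := pc_le hθ hθ1 hPF hε hε1
  obtain ⟨G, hG0, hG⟩ := geo_two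
  refine ⟨C * G, by positivity, fun q χ hc hnp y hy => ?_⟩
  have hχ : ∀ b, IsPrim b → ‖χ b‖ ≤ 1 := fun b hb => hc.char.norm_le hb
  have hsum : Summable fun b => Real.exp (-((nm b : ℝ) * y)) := summable_expy hy
  have hft := norm_ft_le hχ y
  have hpart : ∀ (b : Eis) (K : ℕ), 0 ≤ ∑ κ ∈ Finset.range (K + 1), HB645.hh (Real.log (nm b) - κ) ∧
      ∑ κ ∈ Finset.range (K + 1), HB645.hh (Real.log (nm b) - κ) ≤ 1 := by
    intro b K
    rw [HB645.sum_hh]
    have h1 := HB645.sg_le_one (Real.log (nm b) + 1)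
    have h2 := HB645.sg_nonneg (Real.log (nm b) - K)
    have h3 := HB645.sg_mono (show Real.log (nm b) - K ≤ Real.log (nm b) + 1 by
      have : (0 : ℝ) ≤ K := Nat.cast_nonneg K
      linarith)
    constructor <;> linarith
  have hlim : Filter.Tendsto (fun K : ℕ => ∑' b : Eis, ft χ y b *
      ((∑ κ ∈ Finset.range (K + 1), HB645.hh (Real.log (nm b) - κ) : ℝ) : ℂ)) Filter.atTop
      (nhds (∑' b : Eis, ft χ y b)) := by
    refine tendsto_tsum_of_dominated_convergence hsum ?_ ?_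
    · intro b
      by_cases hb : IsPrim b
      · have hb0 : 0 ≤ Real.log (nm b) := Real.log_nonneg (by exact_mod_cast nm_pos.mpr hb.ne_zero)
        refine tendsto_const_nhds.congr' ?_
        filter_upwards [Filter.eventually_ge_atTop ⌈Real.log (nm b)⌉₊] with K hK
        have : Real.log (nm b) ≤ K := (Nat.le_ceil _).trans (by exact_mod_cast hK)
        rw [HB645.sum_hh_eq_one hb0 this]
        simp
      · have : ft χ y b = 0 := by unfold ft; rw [if_neg hb]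
        simp only [this, zero_mul]
        exact tendsto_const_nhds
    · filter_upwards with K b
      rw [norm_mul, Complex.norm_real, Real.norm_of_nonneg (hpart b K).1]
      calc _ ≤ ‖ft χ y b‖ * 1 := by gcongr; exact (hpart b K).2
        _ ≤ _ := by rw [mul_one]; exact hft b
  have hpsum : psum χ y = ∑' b : Eis, ft χ y b := rfl
  rw [hpsum]
  refine le_of_tendsto hlim.norm ?_
  filter_upwards with K
  have h1 : ∑' b : Eis, ft χ y b *
      ((∑ κ ∈ Finset.range (K + 1), HB645.hh (Real.log (nm b) - κ) : ℝ) : ℂ) =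
      ∑ κ ∈ Finset.range (K + 1), pc χ y κ := by
    have h2 : ∀ κ ∈ Finset.range (K + 1), Summable fun b : Eis =>
        ft χ y b * (HB645.hh (Real.log (nm b) - κ) : ℂ) := by
      intro κ _
      refine Summable.of_norm_bounded hsum fun b => ?_
      rw [norm_mul, Complex.norm_real, Real.norm_of_nonneg (HB645.hh_nonneg _)]
      calc _ ≤ ‖ft χ y b‖ * 1 := by gcongr; exact HB645.hh_le_one _
        _ ≤ _ := by rw [mul_one]; exact hft b
    rw [Finset.sum_congr rfl fun κ _ => pc_tsum χ y κ, ← Summable.tsum_finsetSum h2]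
    refine tsum_congr fun b => ?_
    rw [Complex.ofReal_sum, Finset.mul_sum]
  rw [h1]
  refine (norm_sum_le _ _).trans ((Finset.sum_le_sum fun κ _ => hC q χ hc hnp y hy κ).trans ?_)
  rw [← Finset.mul_sum, ← Finset.mul_sum]
  have h3 := hG (Real.log y) (K + 1)
  have hy0 : 0 ≤ y ^ (-(θ + ε)) := by positivity
  have hq : (0 : ℝ) ≤ (nm q : ℝ) ^ ε := by positivity
  calc _ ≤ C * (nm q : ℝ) ^ ε * (y ^ (-(θ + ε)) * G) := by gcongr
    _ = _ := by ring

end Crest.Agent.R017.LVs73
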