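import Crest.Agent.R017.LVs1_73
import Crest.Agent.R017.LVb4_164
import Crest.Agent.R017.LVd_404

/-!
# Row 17, (LV'): plain Halász–Montgomery for pairs under a zero free region (helper73)

Under `PF univ θ` (`1/2 < θ ≤ 1`), `a ≠ b` admissible of conductor norm `≤ K`:
* `Th_sup`  : `|Th a b Z| ≤ C K^ε Z^(1-θ) K^(2θ-1)` (functional equation), every `Z ≥ 1`
* `Th_sup'` : `|Th a b Z| ≤ C (K Z)^ε Z^θ` (direct)
* `lsS`     : `∑_{q ∈ T} |∑ c n ch q n|² ≤ C K^ε (Z + Z^(1-θ) K^(2θ-1) |T|) ∑ |c n|²`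
* `lvS`     : `V ≥ C K^ε Z^(1-θ) K^(2θ-1) ∑ |c|²` on `T` implies `|T| V ≤ C K^ε Z ∑ |c|²`
-/

set_option autoImplicit false

noncomputable section

namespace Crest.Agent.R017.LVs73

open Crest.Agent.R012 Crest.Agent.R012.Eis
open Crest.Agent.R017.End699 Crest.Agent.R017.LV404 Crest.Agent.R017.LV164
open LS2 Div277
open Poisson381 (gau norm_gau summable_gau_one summable_gau poisson_gau_periodic s3 s3_eq_toC)

/-! ### the decomposition `l = u λ^k a` (after helper283) -/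

/-- the six units -/
def U6 : Finset Eis := {1, -1, w, -w, w ^ 2, -w ^ 2}

lemma isUnit_of_mem {u : Eis} (h : u ∈ U6) : IsUnit u := by
  have hw : IsUnit w := isUnit_w
  simp only [U6, Finset.mem_insert, Finset.mem_singleton] at h
  rcases h with rfl | rfl | rfl | rfl | rfl | rfl
  · exact isUnit_one
  · exact isUnit_one.neg
  · exact hw
  · exact hw.neg
  · exact hw.pow 2
  · exact (hw.pow 2).neg

lemma mem_of_isUnit {u : Eis} (h : IsUnit u) : u ∈ U6 := by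
  simp only [U6, Finset.mem_insert, Finset.mem_singleton]
  exact isUnit_cases h

/-- index set of the decomposition -/
abbrev Ix3 : Type := ℕ × (U6 × {a : Eis // IsPrim a})

/-- `(k, u, a) ↦ u λ^k a` -/
def phi (x : Ix3) : Eis := x.2.1.1 * lam ^ x.1 * x.2.2.1

lemma phi_injective : Function.Injective phi := by
  have key : ∀ (k l : ℕ) (u v a b : Eis), IsUnit u → IsUnit v → IsPrim a → IsPrim b →
      u * lam ^ k * a = v * lam ^ l * b → k ≤ l → k = l := by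
    intro k l u v a b hu hv ha hb h hkl
    obtain ⟨i, rfl⟩ := Nat.exists_eq_add_of_le hkl
    rcases Nat.eq_zero_or_pos i with hi | hi
    · rw [hi, add_zero]
    · exfalso
      have h1 : u * a = v * lam ^ i * b := by
        have h0 : lam ^ k ≠ 0 := pow_ne_zero _ lam_ne_zero
        apply mul_left_cancel₀ h0
        rw [pow_add] at h
        linear_combination h
      have h2 : lam ∣ u * a := by
        rw [h1]
        exact Dvd.dvd.mul_right (Dvd.dvd.mul_left (dvd_pow_self lam hi.ne') v) b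
      have h3 : lam ∣ a := (hu.dvd_mul_left).mp h2
      exact ha.not_lam_dvd h3
  rintro ⟨k, ⟨u, hu⟩, ⟨a, ha⟩⟩ ⟨l, ⟨v, hv⟩, ⟨b, hb⟩⟩ h
  have h : u * lam ^ k * a = v * lam ^ l * b := h
  have hu' := isUnit_of_mem hu
  have hv' := isUnit_of_mem hv
  have hkl : k = l := by
    rcases le_total k l with h1 | h1
    · exact key k l u v a b hu' hv' ha hb h h1
    · exact (key l k v u b a hv' hu' hb ha h.symm h1).symm
  subst hkl
  have h1 : u * a = v * b := by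
    have h0 : lam ^ k ≠ 0 := pow_ne_zero _ lam_ne_zero
    apply mul_left_cancel₀ h0
    linear_combination h
  have h2 : a ∣ b := (hv'.dvd_mul_left).mp (h1 ▸ Dvd.intro_left u rfl)
  have h3 : b ∣ a := (hu'.dvd_mul_left).mp (h1.symm ▸ Dvd.intro_left v rfl)
  have h4 : a = b := ha.eq_of_associated hb (associated_of_dvd_dvd h2 h3)
  subst h4
  have h5 : u = v := mul_right_cancel₀ ha.ne_zero h1
  subst h5
  rfl

lemma exists_phi {l : Eis} (hl : l ≠ 0) : ∃ x : Ix3, phi x = l := by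
  obtain ⟨k, u, m, hu, hm, rfl⟩ := CharSum852.exists_decomp hl
  exact ⟨(k, ⟨u, mem_of_isUnit hu⟩, ⟨m, hm⟩), by simp only [phi]; ring⟩

open Classical in
/-- a sum over the nonzero elements as a triple sum -/
theorem tsum_nonzero {f : Eis → ℂ} (h0 : f 0 = 0) (hf : Summable f) :
    ∑' l, f l = ∑' k : ℕ, ∑ u ∈ U6, ∑' a : Eis, if IsPrim a then f (u * lam ^ k * a) else 0 := by
  have hs : Function.support f ⊆ Set.range phi := by
    intro l hl
    have : l ≠ 0 := by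
      rintro rfl; exact hl h0
    exact exists_phi this
  rw [← phi_injective.tsum_eq hs]
  have hsum : Summable (fun x : Ix3 => f (phi x)) := hf.comp_injective phi_injective
  rw [hsum.tsum_prod]
  refine tsum_congr fun k => ?_
  have hk : Summable (fun y : U6 × {a : Eis // IsPrim a} => f (phi (k, y))) :=
    hsum.prod_factor k
  rw [hk.tsum_prod, ← Finset.tsum_subtype U6 (fun u => ∑' a : Eis,
    if IsPrim a then f (u * lam ^ k * a) else 0)]
  refine tsum_congr fun u => ?_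
  have e := tsum_subtype {a : Eis | IsPrim a} (fun a => f (u.1 * lam ^ k * a))
  have e2 : ∑' x : {a : Eis // IsPrim a}, f (phi (k, (u, x))) =
      ∑' a : Eis, Set.indicator {a : Eis | IsPrim a} (fun a => f (u.1 * lam ^ k * a)) a := e
  rw [e2]
  refine tsum_congr fun a => ?_
  simp only [Set.indicator_apply, Set.mem_ofPred_eq]

/-! ### completely multiplicative functions on all nonzero elements -/

open Classical in
/-- `∑_{h ≠ 0} exp (-nm h y) φ h` -/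
def tet (φ : Eis → ℂ) (y : ℝ) : ℂ :=
  ∑' h : Eis, if h = 0 then 0 else ((Real.exp (-((nm h : ℝ) * y)) : ℝ) : ℂ) * φ h

theorem tet_le {θ ε : ℝ} (hθ : 1 / 2 < θ) (hθ1 : θ ≤ 1) (hPF : PF Set.univ θ)
    (hε : 0 < ε) (hε1 : ε ≤ 1 / 2) :
    ∃ C : ℝ, 0 ≤ C ∧ ∀ (q : Eis) (χ : Eis → ℂ), HC q χ → NP q χ 0 → ∀ φ : Eis → ℂ,
      (∀ m n, φ (m * n) = φ m * φ n) → (∀ n, ‖φ n‖ ≤ 1) → (∀ b, IsPrim b → φ b = χ b) →
      ∀ y : ℝ, 0 < y → ‖tet φ y‖ ≤ C * (nm q : ℝ) ^ ε * y ^ (-(θ + ε)) := by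
  classical
  obtain ⟨C, hC0, hC⟩ := psum_le hθ hθ1 hPF hε hε1
  refine ⟨18 * C, by positivity, fun q χ hc hnp φ hm hn hpr y hy => ?_⟩
  set s : ℝ := θ + ε with hs
  have hq : (0 : ℝ) ≤ (nm q : ℝ) ^ ε := by positivity
  have hy0 : 0 ≤ y ^ (-s) := by positivity
  unfold tet
  have hsum : Summable fun h : Eis => if h = 0 then (0 : ℂ) else
      ((Real.exp (-((nm h : ℝ) * y)) : ℝ) : ℂ) * φ h := by
    refine Summable.of_norm_bounded (summable_expy hy) fun h => ?_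
    split_ifs with h0
    · rw [norm_zero]; exact (Real.exp_pos _).le
    · rw [norm_mul, Complex.norm_real, Real.norm_of_nonneg (Real.exp_pos _).le]
      exact mul_le_of_le_one_right (Real.exp_pos _).le (hn h)
  rw [tsum_nonzero (by simp) hsum]
  have hterm : ∀ (k : ℕ) (u : Eis), u ∈ U6 →
      (∑' a : Eis, if IsPrim a then (if u * lam ^ k * a = 0 then (0 : ℂ) else
        ((Real.exp (-((nm (u * lam ^ k * a) : ℝ) * y)) : ℝ) : ℂ) * φ (u * lam ^ k * a)) else 0) =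
      φ (u * lam ^ k) * psum χ (3 ^ k * y) := by
    intro k u hu
    unfold psum
    rw [← tsum_mul_left]
    refine tsum_congr fun a => ?_
    split_ifs with h1 h2
    · exfalso
      exact mul_ne_zero (mul_ne_zero (isUnit_of_mem hu).ne_zero (pow_ne_zero _ lam_ne_zero))
        h1.ne_zero h2
    · rw [hm, hpr a h1]
      have e : (nm (u * lam ^ k * a) : ℝ) * y = (nm a : ℝ) * (3 ^ k * y) := by
        rw [nm_mul, nm_mul, nm_pow, nm_lam, isUnit_iff.mp (isUnit_of_mem hu)]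
        push_cast
        ring
      rw [e]
      ring
    · rw [mul_zero]
  have h3 : ∀ k : ℕ, (0 : ℝ) < 3 ^ k * y := fun k => by positivity
  set r : ℝ := (3 : ℝ) ^ (-s) with hr
  have hr0 : 0 < r := by positivity
  have hr1 : r ≤ 2 / 3 := by
    have h4 : r ≤ (3 : ℝ) ^ (-(1 / 2) : ℝ) :=
      Real.rpow_le_rpow_of_exponent_le (by norm_num) (by linarith)
    refine h4.trans ?_
    rw [Real.rpow_neg (by norm_num), ← Real.sqrt_eq_rpow, inv_le_comm₀ (by positivity) (by norm_num)]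
    apply Real.le_sqrt_of_sq_le
    norm_num
  have hgeo : HasSum (fun k : ℕ => 6 * (C * (nm q : ℝ) ^ ε * y ^ (-s)) * r ^ k)
      (6 * (C * (nm q : ℝ) ^ ε * y ^ (-s)) * (1 - r)⁻¹) :=
    (hasSum_geometric_of_lt_one hr0.le (by linarith)).mul_left _
  refine (tsum_of_norm_bounded hgeo fun k => ?_).trans ?_
  · refine (norm_sum_le _ _).trans ?_
    have h5 : ∀ u ∈ U6, ‖∑' a : Eis, if IsPrim a then (if u * lam ^ k * a = 0 then (0 : ℂ) else
        ((Real.exp (-((nm (u * lam ^ k * a) : ℝ) * y)) : ℝ) : ℂ) * φ (u * lam ^ k * a)) else 0‖ ≤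
        C * (nm q : ℝ) ^ ε * y ^ (-s) * r ^ k := by
      intro u hu
      rw [hterm k u hu, norm_mul]
      have h6 := hC q χ hc hnp _ (h3 k)
      have h7 : (3 ^ k * y : ℝ) ^ (-s) = r ^ k * y ^ (-s) := by
        rw [Real.mul_rpow (by positivity) hy.le]
        congr 1
        rw [hr, ← Real.rpow_natCast, ← Real.rpow_natCast, ← Real.rpow_mul (by norm_num),
          ← Real.rpow_mul (by norm_num)]
        congr 1; ring
      calc _ ≤ 1 * ‖psum χ (3 ^ k * y)‖ := by gcongr; exact hn _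
        _ ≤ C * (nm q : ℝ) ^ ε * (3 ^ k * y) ^ (-s) := by rw [one_mul]; exact h6
        _ = _ := by rw [h7]; ring
    refine (Finset.sum_le_sum h5).trans ?_
    rw [Finset.sum_const, nsmul_eq_mul]
    have h8 : (U6.card : ℝ) ≤ 6 := by
      have : U6.card ≤ 6 := by
        unfold U6
        exact Finset.card_le_six
      exact_mod_cast this
    have h9 : 0 ≤ C * (nm q : ℝ) ^ ε * y ^ (-s) * r ^ k := by positivity
    calc _ ≤ 6 * (C * (nm q : ℝ) ^ ε * y ^ (-s) * r ^ k) := by gcongr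
      _ = _ := by ring
  · have h4 : (1 - r)⁻¹ ≤ 3 := by
      rw [inv_le_comm₀ (by linarith) (by norm_num)]
      linarith
    calc _ ≤ 6 * (C * (nm q : ℝ) ^ ε * y ^ (-s)) * 3 := by gcongr
      _ = _ := by ring

/-! ### the cubic characters -/

/-- `(pr P)² pr Q` is not a cube when `P ≠ Q` -/
lemma not_cube {P Q : Finset Eis} (hP : IsPS P) (hQ : IsPS Q) (hne : P ≠ Q) :
    ¬ ∃ e : Eis, pr P ^ 2 * pr Q = e ^ 3 := by
  classical
  rintro ⟨e, he⟩
  have hsplit : ∀ {R : Finset Eis} {p : Eis}, p ∈ R → pr R = p * pr (R.erase p) := by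
    intro R p hp
    unfold pr
    exact (Finset.mul_prod_erase R (fun x => x) hp).symm
  have hx : ∃ p, (p ∈ P ∧ p ∉ Q) ∨ (p ∈ Q ∧ p ∉ P) := by
    by_contra hcon
    push Not at hcon
    exact hne (Finset.ext fun p => ⟨fun h => (hcon p).1 h, fun h => (hcon p).2 h⟩)
  obtain ⟨p, ⟨h1, h2⟩ | ⟨h1, h2⟩⟩ := hx
  · have hp := hP p h1
    have hd : p ∣ e := by
      refine hp.2.dvd_of_dvd_pow (n := 3) ?_
      rw [← he]
      exact Dvd.dvd.mul_right (Dvd.dvd.pow ((hP.dvd_iff hp).2 h1) (by norm_num)) _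
    obtain ⟨f, rfl⟩ := hd
    rw [hsplit h1] at he
    have h3 : pr (P.erase p) ^ 2 * pr Q = p * f ^ 3 := by
      apply mul_left_cancel₀ (pow_ne_zero 2 hp.2.ne_zero)
      linear_combination he
    have h4 : p ∣ pr (P.erase p) ^ 2 * pr Q := ⟨f ^ 3, h3⟩
    rcases hp.2.dvd_or_dvd h4 with h5 | h5
    · have h6 := hp.2.dvd_of_dvd_pow h5
      rw [(hP.mono (Finset.erase_subset p P)).dvd_iff hp] at h6
      simp at h6
    · rw [hQ.dvd_iff hp] at h5
      exact h2 h5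
  · have hp := hQ p h1
    have hd : p ∣ e := by
      refine hp.2.dvd_of_dvd_pow (n := 3) ?_
      rw [← he]
      exact Dvd.dvd.mul_left ((hQ.dvd_iff hp).2 h1) _
    obtain ⟨f, rfl⟩ := hd
    rw [hsplit h1] at he
    have h3 : pr P ^ 2 * pr (Q.erase p) = p * (p * f ^ 3) := by
      apply mul_left_cancel₀ hp.2.ne_zero
      linear_combination he
    have h4 : p ∣ pr P ^ 2 * pr (Q.erase p) := ⟨_, h3⟩
    rcases hp.2.dvd_or_dvd h4 with h5 | h5
    · have h6 := hp.2.dvd_of_dvd_pow h5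
      rw [hP.dvd_iff hp] at h6
      exact h2 h6
    · rw [(hQ.mono (Finset.erase_subset p Q)).dvd_iff hp] at h5
      simp at h5

/-- the product character -/
def ph (P Q : Finset Eis) (h : Eis) : ℂ := (starRingEnd ℂ) (sy h (pr P)) * sy h (pr Q)

lemma ph_mul {P Q : Finset Eis} (hP : IsPS P) (hQ : IsPS Q) (m n : Eis) :
    ph P Q (m * n) = ph P Q m * ph P Q n := by
  unfold ph
  rw [Sym645.syFacts.mul_left _ _ _ hP.prim, Sym645.syFacts.mul_left _ _ _ hQ.prim, map_mul]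
  ring

lemma norm_ph {P Q : Finset Eis} (hP : IsPS P) (hQ : IsPS Q) (n : Eis) : ‖ph P Q n‖ ≤ 1 := by
  unfold ph
  rw [norm_mul, RCLike.norm_conj]
  exact mul_le_one₀ (Tau671.norm_sy_le hP.prim) (norm_nonneg _) (Tau671.norm_sy_le hQ.prim)

lemma ph_prim {P Q : Finset Eis} (hP : IsPS P) (hQ : IsPS Q) {b : Eis} (hb : IsPrim b) :
    ph P Q b = sy (pr P ^ 2 * pr Q) b := by
  unfold ph
  rw [Sym645.syFacts.recip _ _ hb hP.prim, Sym645.syFacts.recip _ _ hb hQ.prim,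
    Sym645.syFacts.mul_left _ _ _ hb, pow_two, Sym645.syFacts.mul_left _ _ _ hb, sy_sq hb]

/-- sup bound for the sums of product characters -/
theorem tet_ph_le {θ ε : ℝ} (hθ : 1 / 2 < θ) (hθ1 : θ ≤ 1) (hPF : PF Set.univ θ)
    (hε : 0 < ε) (hε1 : ε ≤ 1 / 2) :
    ∃ C : ℝ, 0 ≤ C ∧ ∀ P Q : Finset Eis, IsPS P → IsPS Q → P ≠ Q → ∀ y : ℝ, 0 < y →
      ‖tet (ph P Q) y‖ ≤ C * ((nm (pr P) : ℝ) ^ 2 * nm (pr Q)) ^ ε * y ^ (-(θ + ε)) := by
  obtain ⟨C, hC0, hC⟩ := tet_le hθ hθ1 hPF hε hε1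
  refine ⟨C * 81 ^ ε, by positivity, fun P Q hP hQ hne y hy => ?_⟩
  have h0 : pr P ^ 2 * pr Q ≠ 0 := mul_ne_zero (pow_ne_zero 2 hP.ne_zero) hQ.ne_zero
  have h1 := hC (9 * (pr P ^ 2 * pr Q)) (fun b => sy (pr P ^ 2 * pr Q) b) (hc_sy h0)
    (np_sy h0 (not_cube hP hQ hne) 0) (ph P Q) (ph_mul hP hQ) (norm_ph hP hQ)
    (fun b hb => ph_prim hP hQ hb) y hy
  refine h1.trans (le_of_eq ?_)
  have h9 : nm (9 : Eis) = 81 := by decide
  rw [nm_mul, nm_mul, nm_pow, h9]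
  push_cast
  rw [Real.mul_rpow (by norm_num) (by positivity)]
  ring

/-! ### theta sums -/

/-- direct form: the theta sum of a pair is `tet` of the product character -/
lemma Th_eq_tet {a b : Ix} (ha : IsPS a.U) (hb : IsPS b.U) (hda : Disjoint a.1 a.2)
    (hdb : Disjoint b.1 b.2) (hne : a ≠ b) (Z : ℝ) : open Classical in
    Th a b Z = tet (ph (pD a b ∪ pB a b) (pD a b ∪ pA a b)) (1 / Z) := by
  classical
  obtain ⟨pD1, pA1, pB1⟩ := isPS_parts ha hb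
  have hDA : IsPS (pD a b ∪ pA a b) := by
    intro p hp
    rcases Finset.mem_union.1 hp with h | h
    · exact pD1 p h
    · exact pA1 p h
  have hDB : IsPS (pD a b ∪ pB a b) := by
    intro p hp
    rcases Finset.mem_union.1 hp with h | h
    · exact pD1 p h
    · exact pB1 p h
  unfold Th tet
  refine tsum_congr fun n => ?_
  rw [LV404.ch_mul ha hb hda hdb n]
  split_ifs with h0
  · subst h0
    by_cases hA : pA a b = ∅
    · have hB : pB a b ≠ ∅ := fun hB => hne (eq_of_trivial hda hdb hA hB)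
      have hne' : pD a b ∪ pB a b ≠ ∅ := fun h => hB (Finset.union_eq_empty.1 h).2
      rw [sy_zero_pr hDB hne', map_zero, mul_zero, mul_zero]
    · have hne' : pD a b ∪ pA a b ≠ ∅ := fun h => hA (Finset.union_eq_empty.1 h).2
      rw [sy_zero_pr hDA hne', zero_mul, mul_zero]
  · unfold ph
    have e : -(nm n : ℝ) / Z = -((nm n : ℝ) * (1 / Z)) := by ring
    rw [e]
    ring

open Classical in
/-- **functional equation** (after helper404), with the dual sums explicit -/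
theorem Th_fe {K : ℝ} {a b : Ix} (ha : Adm K a) (hb : Adm K b) (hne : a ≠ b) {Z : ℝ} (hZ : 0 < Z) :
    ‖Th a b Z‖ ≤ ∑ E ∈ (pD a b).powerset,
      Real.sqrt (Z * (4 * Real.pi ^ 2 * Z /
        (3 * (nm (pr E) * (nm (pr (pA a b)) * nm (pr (pB a b))))))) *
      ‖tet (ph (pA a b) (pB a b)) (4 * Real.pi ^ 2 * Z /
        (3 * (nm (pr E) * (nm (pr (pA a b)) * nm (pr (pB a b))))))‖ := by
  obtain ⟨a1, a2, a3⟩ := id ha
  obtain ⟨b1, b2, b3⟩ := id hb
  have d1 := pD_disj_pA a2 b2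
  have d2 := pD_disj_pB a2 b2
  have d3 := pA_disj_pB a2 b2
  have hparts := nm_parts ha hb
  obtain ⟨pD1, pA1, pB1⟩ := isPS_parts a1 b1
  set A := pA a b with hA
  set B := pB a b with hB
  set D := pD a b with hD
  have hπ := Real.pi_pos
  have hnA := nm_pr_pos pA1
  have hnB := nm_pr_pos pB1
  have hnD := nm_pr_pos pD1
  set t : ℝ := 1 / (Real.pi * Z) with ht
  have ht0 : 0 < t := by positivity
  have hi : (D ∪ A) ∩ (D ∪ B) = D := by
    rw [← Finset.union_inter_distrib_left, Finset.disjoint_iff_inter_eq_empty.1 d3,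
      Finset.union_empty]
  have hs1 : (D ∪ A) \ D = A := by
    rw [Finset.union_sdiff_left, Finset.sdiff_eq_self_of_disjoint d1.symm]
  have hs2 : (D ∪ B) \ D = B := by
    rw [Finset.union_sdiff_left, Finset.sdiff_eq_self_of_disjoint d2.symm]
  have hDA : IsPS (D ∪ A) := by
    intro p hp
    rcases Finset.mem_union.1 hp with h | h
    · exact pD1 p h
    · exact pA1 p h
  have hDB : IsPS (D ∪ B) := by
    intro p hp
    rcases Finset.mem_union.1 hp with h | h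
    · exact pD1 p h
    · exact pB1 p h
  have hTh : Th a b Z = ∑' m : Eis, (sy m (pr (D ∪ A)) * (starRingEnd ℂ) (sy m (pr (D ∪ B)))) *
      gau t (toC m) := by
    unfold Th
    apply tsum_congr
    intro m
    rw [LV404.ch_mul a1 b1 a2 b2, LV404.gau_eq_exp, mul_comm]
    congr 4
    rw [ht]
    field_simp
  have hf := pair_formula Sym645.syFacts Gauss880.syG ht0 hDA hDB
  rw [hi, hs1, hs2] at hf
  rw [hTh, hf]
  refine (norm_sum_le _ _).trans (Finset.sum_le_sum fun E hE => ?_)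
  have hED := Finset.mem_powerset.1 hE
  have hnE := nm_pr_pos (pD1.mono hED)
  have hnE1 := one_le_nm_pr (pD1.mono hED)
  set Y : ℝ := 4 * Real.pi ^ 2 * Z / (3 * (nm (pr E) * (nm (pr A) * nm (pr B)))) with hY
  -- the dual sum
  set κ : ℂ := (sy (pr E) (pr A) * sy sq3 (pr A) * gs 1 (pr A) / (nm (pr A) : ℂ)) *
    (starRingEnd ℂ) (sy (pr E) (pr B) * sy sq3 (pr B) * gs 1 (pr B) / (nm (pr B) : ℂ)) with hκ
  have hsum : (∑' h : Eis, gau (4 / (3 * (t * nm (pr E) * (nm (pr A) * nm (pr B))))) (toC h) *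
      (U (pr E) h (pr A) * (starRingEnd ℂ) (U (pr E) h (pr B)))) =
      κ * tet (ph A B) Y := by
    unfold tet
    rw [← tsum_mul_left]
    apply tsum_congr
    intro h
    by_cases h0 : h = 0
    · rw [if_pos h0, mul_zero]
      have : (starRingEnd ℂ) (sy h (pr A)) * sy h (pr B) = 0 := by
        subst h0
        by_cases hAe : A = ∅
        · have hBe : B ≠ ∅ := fun hBe => hne (eq_of_trivial a2 b2 hAe hBe)
          rw [sy_zero_pr pB1 hBe, mul_zero]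
        · rw [sy_zero_pr pA1 hAe, map_zero, zero_mul]
      unfold U
      simp only [map_mul, map_div₀, Complex.conj_conj, map_natCast]
      linear_combination (gau (4 / (3 * (t * nm (pr E) * (nm (pr A) * nm (pr B))))) (toC h) *
        (sy (pr E) (pr A) * sy sq3 (pr A) * gs 1 (pr A) / (nm (pr A) : ℂ)) *
        ((starRingEnd ℂ) (sy (pr E) (pr B)) * (starRingEnd ℂ) (sy sq3 (pr B)) *
          (starRingEnd ℂ) (gs 1 (pr B)) / (nm (pr B) : ℂ))) * this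
    · rw [if_neg h0]
      have hg : gau (4 / (3 * (t * nm (pr E) * (nm (pr A) * nm (pr B))))) (toC h) =
          ((Real.exp (-((nm h : ℝ) * Y)) : ℝ) : ℂ) := by
        rw [LV404.gau_eq_exp, hY, ht]
        congr 2
        field_simp
      rw [hg, hκ]
      unfold U ph
      simp only [map_mul, map_div₀, Complex.conj_conj, map_natCast]
      ring
  have hκn : ‖κ‖ ≤ 1 / Real.sqrt (nm (pr A)) * (1 / Real.sqrt (nm (pr B))) := by
    rw [hκ, norm_mul, RCLike.norm_conj]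
    have hh : ∀ P : Finset Eis, IsPS P → ‖sy (pr E) (pr P) * sy sq3 (pr P) * gs 1 (pr P) /
        (nm (pr P) : ℂ)‖ ≤ 1 / Real.sqrt (nm (pr P)) := by
      intro P hP
      have hP0 := nm_pr_pos hP
      rw [norm_div, norm_mul, norm_mul, Gauss880.norm_gs Gauss880.syG hP.prim hP.squarefree isCoprime_one_left,
        Complex.norm_natCast]
      have b1 := Tau671.norm_sy_le hP.prim (x := pr E)
      have b2 := Tau671.norm_sy_le hP.prim (x := sq3)
      have hsq : Real.sqrt (nm (pr P)) * Real.sqrt (nm (pr P)) = nm (pr P) :=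
        Real.mul_self_sqrt hP0.le
      have hsp : 0 < Real.sqrt (nm (pr P)) := Real.sqrt_pos.2 hP0
      rw [div_le_div_iff₀ hP0 hsp, one_mul]
      have hle : ‖sy (pr E) (pr P)‖ * ‖sy sq3 (pr P)‖ ≤ 1 := mul_le_one₀ b1 (norm_nonneg _) b2
      calc ‖sy (pr E) (pr P)‖ * ‖sy sq3 (pr P)‖ * Real.sqrt (nm (pr P)) * Real.sqrt (nm (pr P))
          = (‖sy (pr E) (pr P)‖ * ‖sy sq3 (pr P)‖) *
            (Real.sqrt (nm (pr P)) * Real.sqrt (nm (pr P))) := by ring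
        _ = (‖sy (pr E) (pr P)‖ * ‖sy sq3 (pr P)‖) * nm (pr P) := by rw [hsq]
        _ ≤ 1 * nm (pr P) := by gcongr
        _ = _ := one_mul _
    exact mul_le_mul (hh A pA1) (hh B pB1) (norm_nonneg _) (by positivity)
  rw [hsum, norm_mul, norm_mul, norm_mul, norm_pow, norm_neg, norm_one, one_pow, one_mul,
    Complex.norm_real, Real.norm_of_nonneg (by positivity), ← mul_assoc]
  refine mul_le_mul_of_nonneg_right ?_ (norm_nonneg _)
  have e1 : 2 / Real.sqrt 3 * (t * nm (pr E))⁻¹ * ‖κ‖ ≤ 2 / Real.sqrt 3 * (t * nm (pr E))⁻¹ *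
      (1 / Real.sqrt (nm (pr A)) * (1 / Real.sqrt (nm (pr B)))) := by gcongr
  refine e1.trans ?_
  apply Real.le_sqrt_of_sq_le
  rw [hY, mul_pow, mul_pow, mul_pow, div_pow, div_pow, div_pow, inv_pow, mul_pow,
    Real.sq_sqrt (by norm_num), Real.sq_sqrt hnA.le, Real.sq_sqrt hnB.le, ht]
  have : (nm (pr E) : ℝ) ≤ (nm (pr E) : ℝ) ^ 2 := by nlinarith
  rw [show (2 : ℝ) ^ 2 / 3 * ((1 / (Real.pi * Z)) ^ 2 * (nm (pr E) : ℝ) ^ 2)⁻¹ *
    (1 ^ 2 / (nm (pr A) : ℝ) * (1 ^ 2 / (nm (pr B) : ℝ))) =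
    4 * Real.pi ^ 2 * Z ^ 2 / (3 * ((nm (pr E) : ℝ) ^ 2 * (nm (pr A) * nm (pr B)))) by
      field_simp; ring]
  rw [show Z * (4 * Real.pi ^ 2 * Z / (3 * ((nm (pr E) : ℝ) * (nm (pr A) * nm (pr B))))) =
    4 * Real.pi ^ 2 * Z ^ 2 / (3 * ((nm (pr E) : ℝ) * (nm (pr A) * nm (pr B)))) by
      ring]
  apply div_le_div_of_nonneg_left (by positivity) (by positivity)
  have := mul_le_mul_of_nonneg_right this (by positivity : (0:ℝ) ≤ nm (pr A) * nm (pr B))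
  linarith

/-! ### the sup bounds -/

lemma nm_union_le {K : ℝ} {a b : Ix} (ha : Adm K a) (hb : Adm K b) : open Classical in
    (nm (pr (pD a b)) : ℝ) ≤ K ^ 2 ∧ (nm (pr (pA a b)) : ℝ) ≤ K ^ 2 ∧ (nm (pr (pB a b)) : ℝ) ≤ K ^ 2 ∧
    (nm (pr (pD a b ∪ pA a b)) : ℝ) ≤ K ^ 2 ∧ (nm (pr (pD a b ∪ pB a b)) : ℝ) ≤ K ^ 2 := by
  classical
  have h := nm_parts ha hb
  obtain ⟨pD1, pA1, pB1⟩ := isPS_parts ha.1 hb.1
  have h1 := one_le_nm_pr pD1
  have h2 := one_le_nm_pr pA1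
  have h3 := one_le_nm_pr pB1
  have hA : (nm (pr (pD a b ∪ pA a b)) : ℝ) ≤ nm (pr (pD a b)) * nm (pr (pA a b)) :=
    nm_pr_union_le pA1
  have hB : (nm (pr (pD a b ∪ pB a b)) : ℝ) ≤ nm (pr (pD a b)) * nm (pr (pB a b)) :=
    nm_pr_union_le pB1
  set x : ℝ := (nm (pr (pD a b)) : ℝ)
  set y : ℝ := (nm (pr (pA a b)) : ℝ)
  set z : ℝ := (nm (pr (pB a b)) : ℝ)
  have hyz : 1 ≤ y * z := by nlinarith
  have hxy : 1 ≤ x * y := by nlinarith
  have hxz : 1 ≤ x * z := by nlinarith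
  have e1 : x ≤ x * (y * z) := by nlinarith
  have e2 : y ≤ x * (y * z) := by nlinarith
  have e3 : z ≤ x * (y * z) := by nlinarith
  have e4 : x * y ≤ x * (y * z) := by nlinarith
  have e5 : x * z ≤ x * (y * z) := by nlinarith
  exact ⟨e1.trans h, e2.trans h, e3.trans h, hA.trans (e4.trans h), hB.trans (e5.trans h)⟩

lemma cube_le {K x y ε : ℝ} (hK : 1 ≤ K) (hx : 0 ≤ x) (hy : 0 ≤ y) (hxK : x ≤ K ^ 2)
    (hyK : y ≤ K ^ 2) (hε : 0 < ε) : (x ^ 2 * y) ^ ε ≤ K ^ (6 * ε) := by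
  have hK0 : 0 < K := by linarith
  have h1 : x ^ 2 * y ≤ (K ^ 2) ^ 2 * K ^ 2 := by gcongr
  have h2 : (K ^ 2) ^ 2 * K ^ 2 = K ^ (6 : ℝ) := by
    rw [← pow_mul, ← pow_add]; norm_num
  calc (x ^ 2 * y) ^ ε ≤ (K ^ (6 : ℝ)) ^ ε := by
        rw [← h2]; gcongr
    _ = K ^ (6 * ε) := by rw [← Real.rpow_mul hK0.le]

/-- **direct sup bound** -/
theorem Th_sup' {θ ε : ℝ} (hθ : 1 / 2 < θ) (hθ1 : θ ≤ 1) (hPF : PF Set.univ θ) (hε : 0 < ε) :
    ∃ C : ℝ, 0 < C ∧ ∀ K Z : ℝ, 1 ≤ K → 1 ≤ Z → ∀ a b : Ix, Adm K a → Adm K b → a ≠ b →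
      ‖Th a b Z‖ ≤ C * (K * Z) ^ ε * Z ^ θ := by
  classical
  set η : ℝ := min (ε / 6) (1 / 2) with hη
  have hη0 : 0 < η := by rw [hη]; positivity
  have hη1 : η ≤ 1 / 2 := min_le_right _ _
  have hη6 : 6 * η ≤ ε := by have := min_le_left (ε / 6) (1 / 2 : ℝ); linarith
  obtain ⟨C, hC0, hC⟩ := tet_ph_le hθ hθ1 hPF hη0 hη1
  refine ⟨C + 1, by positivity, fun K Z hK hZ a b ha hb hne => ?_⟩
  have hK0 : 0 < K := by linarith
  have hZ0 : 0 < Z := by linarith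
  obtain ⟨pD1, pA1, pB1⟩ := isPS_parts ha.1 hb.1
  obtain ⟨n1, n2, n3, n4, n5⟩ := nm_union_le ha hb
  have hDA : IsPS (pD a b ∪ pA a b) := by
    intro p hp
    rcases Finset.mem_union.1 hp with h | h
    · exact pD1 p h
    · exact pA1 p h
  have hDB : IsPS (pD a b ∪ pB a b) := by
    intro p hp
    rcases Finset.mem_union.1 hp with h | h
    · exact pD1 p h
    · exact pB1 p h
  have hne' : pD a b ∪ pB a b ≠ pD a b ∪ pA a b := by
    intro h
    have d1 := pD_disj_pA (a := a) (b := b) ha.2.1 hb.2.1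
    have d2 := pD_disj_pB (a := a) (b := b) ha.2.1 hb.2.1
    have d3 := pA_disj_pB (a := a) (b := b) ha.2.1 hb.2.1
    have hAB : pB a b = pA a b := by
      have h1 : (pD a b ∪ pB a b) \ pD a b = pB a b := by
        rw [Finset.union_sdiff_left, Finset.sdiff_eq_self_of_disjoint d2.symm]
      have h2 : (pD a b ∪ pA a b) \ pD a b = pA a b := by
        rw [Finset.union_sdiff_left, Finset.sdiff_eq_self_of_disjoint d1.symm]
      rw [← h1, h, h2]
    rw [hAB, Finset.disjoint_self_iff_empty] at d3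
    exact hne (eq_of_trivial ha.2.1 hb.2.1 d3 (hAB.trans d3))
  rw [Th_eq_tet ha.1 hb.1 ha.2.1 hb.2.1 hne Z]
  have h1 := hC _ _ hDB hDA hne' (1 / Z) (by positivity)
  refine h1.trans ?_
  have h2 := cube_le (ε := η) hK (Nat.cast_nonneg _) (Nat.cast_nonneg _) n5 n4 hη0
  have h3 : (1 / Z) ^ (-(θ + η)) = Z ^ η * Z ^ θ := by
    rw [one_div, Real.inv_rpow hZ0.le, Real.rpow_neg hZ0.le, inv_inv, ← Real.rpow_add hZ0]
    congr 1; ring
  have h4 : K ^ (6 * η) * Z ^ η ≤ (K * Z) ^ ε := by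
    rw [Real.mul_rpow hK0.le hZ0.le]
    have e1 := Real.rpow_le_rpow_of_exponent_le hK hη6
    have e2 := Real.rpow_le_rpow_of_exponent_le hZ (show η ≤ ε by linarith)
    gcongr
  rw [h3]
  calc _ ≤ C * K ^ (6 * η) * (Z ^ η * Z ^ θ) := by gcongr
    _ = C * (K ^ (6 * η) * Z ^ η) * Z ^ θ := by ring
    _ ≤ (C + 1) * (K * Z) ^ ε * Z ^ θ := by
        gcongr
        linarith

/-- **sup bound through the functional equation** -/
theorem Th_sup {θ ε : ℝ} (hθ : 1 / 2 < θ) (hθ1 : θ ≤ 1) (hPF : PF Set.univ θ) (hε : 0 < ε) :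
    ∃ C : ℝ, 0 < C ∧ ∀ K Z : ℝ, 1 ≤ K → 1 ≤ Z → ∀ a b : Ix, Adm K a → Adm K b → a ≠ b →
      ‖Th a b Z‖ ≤ C * K ^ ε * (Z ^ (1 - θ) * K ^ (2 * θ - 1)) := by
  classical
  set η : ℝ := min (ε / 10) (1 / 2) with hη
  have hη0 : 0 < η := by rw [hη]; positivity
  have hη1 : η ≤ 1 / 2 := min_le_right _ _
  have hη10 : 10 * η ≤ ε := by have := min_le_left (ε / 10) (1 / 2 : ℝ); linarith
  obtain ⟨C, hC0, hC⟩ := tet_ph_le hθ hθ1 hPF hη0 hη1
  obtain ⟨C2, hC2, h2⟩ := two_pow_le hη0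
  refine ⟨C2 * C + 1, by positivity, fun K Z hK hZ a b ha hb hne => ?_⟩
  have hK0 : 0 < K := by linarith
  have hZ0 : 0 < Z := by linarith
  obtain ⟨pD1, pA1, pB1⟩ := isPS_parts ha.1 hb.1
  obtain ⟨n1, n2, n3, n4, n5⟩ := nm_union_le ha hb
  have hparts := nm_parts ha hb
  have hne' : pA a b ≠ pB a b := by
    intro h
    have d3 := pA_disj_pB (a := a) (b := b) ha.2.1 hb.2.1
    rw [← h, Finset.disjoint_self_iff_empty] at d3
    exact hne (eq_of_trivial ha.2.1 hb.2.1 d3 (h.symm.trans d3))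
  refine (Th_fe ha hb hne hZ0).trans ?_
  have hnA := nm_pr_pos pA1
  have hnB := nm_pr_pos pB1
  have hterm : ∀ E ∈ (pD a b).powerset, Real.sqrt (Z * (4 * Real.pi ^ 2 * Z /
        (3 * (nm (pr E) * (nm (pr (pA a b)) * nm (pr (pB a b))))))) *
      ‖tet (ph (pA a b) (pB a b)) (4 * Real.pi ^ 2 * Z /
        (3 * (nm (pr E) * (nm (pr (pA a b)) * nm (pr (pB a b))))))‖ ≤
      C * K ^ (8 * η) * (Z ^ (1 - θ) * K ^ (2 * θ - 1)) := by
    intro E hE
    have hED := Finset.mem_powerset.1 hE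
    have hnE := nm_pr_pos (pD1.mono hED)
    have hπ := Real.pi_pos
    have hπ3 := Real.pi_gt_three
    set y : ℝ := 4 * Real.pi ^ 2 * Z /
        (3 * (nm (pr E) * (nm (pr (pA a b)) * nm (pr (pB a b))))) with hy
    have hy0 : 0 < y := by positivity
    have hylow : Z / K ^ 2 ≤ y := by
      rw [hy, div_le_div_iff₀ (by positivity) (by positivity)]
      have e1 := nm_pr_mono pD1 hED
      have e2 : (nm (pr E) : ℝ) * (nm (pr (pA a b)) * nm (pr (pB a b))) ≤ K ^ 2 :=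
        (mul_le_mul_of_nonneg_right e1 (by positivity)).trans hparts
      have e3 : Z * (3 * ((nm (pr E) : ℝ) * (nm (pr (pA a b)) * nm (pr (pB a b))))) ≤
          Z * (3 * K ^ 2) := by gcongr
      have e4 : (9 : ℝ) ≤ Real.pi ^ 2 := by nlinarith
      have e5 : 0 ≤ Z * K ^ 2 := by positivity
      nlinarith
    have h3 := hC _ _ pA1 pB1 hne' y hy0
    have h4 := cube_le (ε := η) hK (Nat.cast_nonneg _) (Nat.cast_nonneg _) n2 n3 hη0
    have h5 : Real.sqrt (Z * y) * y ^ (-(θ + η)) = Z ^ (1 / 2 : ℝ) * y ^ (1 / 2 - θ - η) := by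
      rw [Real.sqrt_eq_rpow, Real.mul_rpow hZ0.le hy0.le, mul_assoc, ← Real.rpow_add hy0]
      congr 2; ring
    have h6 : y ^ (1 / 2 - θ - η) ≤ (Z / K ^ 2) ^ (1 / 2 - θ - η) :=
      Real.rpow_le_rpow_of_nonpos (by positivity) hylow (by linarith)
    have h7 : Z ^ (1 / 2 : ℝ) * (Z / K ^ 2) ^ (1 / 2 - θ - η) ≤
        K ^ (2 * η) * (Z ^ (1 - θ) * K ^ (2 * θ - 1)) := by
      have e1 : (Z / K ^ 2) ^ (1 / 2 - θ - η) =
          Z ^ (1 / 2 - θ - η) * K ^ (2 * θ - 1 + 2 * η) := by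
        rw [Real.div_rpow hZ0.le (by positivity), ← Real.rpow_natCast K 2,
          ← Real.rpow_mul hK0.le, div_eq_mul_inv, ← Real.rpow_neg hK0.le]
        congr 2; push_cast; ring
      rw [e1, ← mul_assoc, ← Real.rpow_add hZ0]
      have e2 : Z ^ (1 / 2 + (1 / 2 - θ - η)) ≤ Z ^ (1 - θ) :=
        Real.rpow_le_rpow_of_exponent_le hZ (by linarith)
      have e3 : K ^ (2 * θ - 1 + 2 * η) = K ^ (2 * η) * K ^ (2 * θ - 1) := by
        rw [← Real.rpow_add hK0]; congr 1; ring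
      rw [e3]
      calc _ ≤ Z ^ (1 - θ) * (K ^ (2 * η) * K ^ (2 * θ - 1)) := by gcongr
        _ = _ := by ring
    have hsq : 0 ≤ Real.sqrt (Z * y) := Real.sqrt_nonneg _
    calc Real.sqrt (Z * y) * ‖tet (ph (pA a b) (pB a b)) y‖
        ≤ Real.sqrt (Z * y) * (C * K ^ (6 * η) * y ^ (-(θ + η))) := by
          gcongr
          refine h3.trans ?_
          gcongr
      _ = C * K ^ (6 * η) * (Real.sqrt (Z * y) * y ^ (-(θ + η))) := by ring
      _ = C * K ^ (6 * η) * (Z ^ (1 / 2 : ℝ) * y ^ (1 / 2 - θ - η)) := by rw [h5]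
      _ ≤ C * K ^ (6 * η) * (K ^ (2 * η) * (Z ^ (1 - θ) * K ^ (2 * θ - 1))) := by
          refine mul_le_mul_of_nonneg_left ((mul_le_mul_of_nonneg_left h6 ?_).trans h7) ?_
          · positivity
          · positivity
      _ = C * (K ^ (6 * η) * K ^ (2 * η)) * (Z ^ (1 - θ) * K ^ (2 * θ - 1)) := by ring
      _ = _ := by
          rw [← Real.rpow_add hK0]
          congr 3; ring
  refine (Finset.sum_le_sum hterm).trans ?_
  rw [Finset.sum_const, Finset.card_powerset, nsmul_eq_mul]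
  have h8 : (2 : ℝ) ^ (pD a b).card ≤ C2 * K ^ (2 * η) := by
    refine (h2 _ pD1).trans ?_
    have : (nm (pr (pD a b)) : ℝ) ^ η ≤ K ^ (2 * η) := by
      calc (nm (pr (pD a b)) : ℝ) ^ η ≤ (K ^ 2) ^ η := by gcongr
        _ = _ := by rw [← Real.rpow_natCast K 2, ← Real.rpow_mul hK0.le]; norm_num
    gcongr
  have h9 : K ^ (2 * η) * K ^ (8 * η) ≤ K ^ ε := by
    rw [← Real.rpow_add hK0]
    exact Real.rpow_le_rpow_of_exponent_le hK (by linarith)
  have h10 : 0 ≤ Z ^ (1 - θ) * K ^ (2 * θ - 1) := by positivity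
  push_cast
  calc _ ≤ (C2 * K ^ (2 * η)) * (C * K ^ (8 * η) * (Z ^ (1 - θ) * K ^ (2 * θ - 1))) := by gcongr
    _ = C2 * C * (K ^ (2 * η) * K ^ (8 * η)) * (Z ^ (1 - θ) * K ^ (2 * θ - 1)) := by ring
    _ ≤ (C2 * C + 1) * K ^ ε * (Z ^ (1 - θ) * K ^ (2 * θ - 1)) := by
        gcongr
        linarith

/-! ### the large sieve and the large values theorem -/

/-- duality with a uniform bound of the off-diagonal theta sums -/
lemma ls_of_sup {K Z B : ℝ} (hZ : 1 ≤ Z) (hB : 0 ≤ B)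
    (hTh : ∀ a b : Ix, Adm K a → Adm K b → a ≠ b → ‖Th a b Z‖ ≤ B) {T : Finset Ix}
    (hT : ∀ q ∈ T, Adm K q) {F : Finset Eis} (hF : ∀ n ∈ F, (nm n : ℝ) ≤ Z) (c : Eis → ℂ) :
    ∑ q ∈ T, ‖∑ n ∈ F, c n * ch q n‖ ^ 2 ≤
      Real.exp 1 * (101 * Z + T.card * B) * ∑ n ∈ F, ‖c n‖ ^ 2 := by
  classical
  have hZ0 : 0 < Z := by linarith
  refine duality (fun q hq => ps2_of_adm (hT q hq)) hZ0 (by positivity) (fun a ha => ?_) hF c
  rw [← Finset.add_sum_erase T (fun b => ‖Th a b Z‖) ha]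
  have h1 := norm_Th_le (ps2_of_adm (hT a ha)) (ps2_of_adm (hT a ha)) hZ0
  have h2 : ∑ b ∈ T.erase a, ‖Th a b Z‖ ≤ T.card * B := by
    calc _ ≤ ∑ b ∈ T.erase a, B := by
          refine Finset.sum_le_sum fun b hb => ?_
          obtain ⟨hne, hbT⟩ := Finset.mem_erase.mp hb
          exact hTh a b (hT a ha) (hT b hbT) (Ne.symm hne)
      _ = (T.erase a).card * B := by rw [Finset.sum_const, nsmul_eq_mul]
      _ ≤ _ := by
          have : ((T.erase a).card : ℝ) ≤ T.card := by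
            exact_mod_cast Finset.card_le_card (Finset.erase_subset a T)
          gcongr
  linarith

/-- **(LV'), large sieve form** -/
theorem lsS {θ ε : ℝ} (hθ : 1 / 2 < θ) (hθ1 : θ ≤ 1) (hPF : PF Set.univ θ) (hε : 0 < ε) :
    ∃ C : ℝ, 0 < C ∧ ∀ K Z : ℝ, 1 ≤ K → 1 ≤ Z → ∀ T : Finset Ix, (∀ q ∈ T, Adm K q) →
      ∀ F : Finset Eis, (∀ n ∈ F, (nm n : ℝ) ≤ Z) → ∀ c : Eis → ℂ,
      ∑ q ∈ T, ‖∑ n ∈ F, c n * ch q n‖ ^ 2 ≤
        C * K ^ ε * (Z + Z ^ (1 - θ) * K ^ (2 * θ - 1) * T.card) * ∑ n ∈ F, ‖c n‖ ^ 2 := by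
  obtain ⟨C, hC0, hC⟩ := Th_sup hθ hθ1 hPF hε
  refine ⟨Real.exp 1 * (101 + C), by positivity, fun K Z hK hZ T hT F hF c => ?_⟩
  have hK0 : 0 < K := by linarith
  have hZ0 : 0 < Z := by linarith
  have h1 := ls_of_sup (B := C * K ^ ε * (Z ^ (1 - θ) * K ^ (2 * θ - 1))) hZ (by positivity)
    (hC K Z hK hZ) hT hF c
  refine h1.trans ?_
  have hG : 0 ≤ ∑ n ∈ F, ‖c n‖ ^ 2 := Finset.sum_nonneg fun _ _ => by positivity
  have hKe : 1 ≤ K ^ ε := Real.one_le_rpow hK hε.le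
  set M : ℝ := Z ^ (1 - θ) * K ^ (2 * θ - 1) with hM
  have hM0 : 0 ≤ M := by positivity
  have hc0 : (0 : ℝ) ≤ T.card := Nat.cast_nonneg _
  have h2 : 101 * Z + T.card * (C * K ^ ε * M) ≤ (101 + C) * K ^ ε * (Z + M * T.card) := by
    have e1 : 101 * Z ≤ 101 * K ^ ε * Z := by nlinarith
    have e2 : 0 ≤ C * K ^ ε * Z := by positivity
    have e3 : 0 ≤ 101 * K ^ ε * (M * T.card) := by positivity
    nlinarith
  have h3 : 0 < Real.exp 1 := Real.exp_pos 1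
  calc _ ≤ Real.exp 1 * ((101 + C) * K ^ ε * (Z + M * T.card)) * ∑ n ∈ F, ‖c n‖ ^ 2 := by gcongr
    _ = _ := by ring

/-- **(LV'), direct large sieve form** (no functional equation, for short lengths) -/
theorem lsS' {θ ε : ℝ} (hθ : 1 / 2 < θ) (hθ1 : θ ≤ 1) (hPF : PF Set.univ θ) (hε : 0 < ε) :
    ∃ C : ℝ, 0 < C ∧ ∀ K Z : ℝ, 1 ≤ K → 1 ≤ Z → ∀ T : Finset Ix, (∀ q ∈ T, Adm K q) →
      ∀ F : Finset Eis, (∀ n ∈ F, (nm n : ℝ) ≤ Z) → ∀ c : Eis → ℂ,
      ∑ q ∈ T, ‖∑ n ∈ F, c n * ch q n‖ ^ 2 ≤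
        C * (K * Z) ^ ε * (Z + Z ^ θ * T.card) * ∑ n ∈ F, ‖c n‖ ^ 2 := by
  obtain ⟨C, hC0, hC⟩ := Th_sup' hθ hθ1 hPF hε
  refine ⟨Real.exp 1 * (101 + C), by positivity, fun K Z hK hZ T hT F hF c => ?_⟩
  have hK0 : 0 < K := by linarith
  have hZ0 : 0 < Z := by linarith
  have h1 := ls_of_sup (B := C * (K * Z) ^ ε * Z ^ θ) hZ (by positivity)
    (hC K Z hK hZ) hT hF c
  refine h1.trans ?_
  have hG : 0 ≤ ∑ n ∈ F, ‖c n‖ ^ 2 := Finset.sum_nonneg fun _ _ => by positivity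
  have hKe : 1 ≤ (K * Z) ^ ε := Real.one_le_rpow (by nlinarith) hε.le
  set M : ℝ := Z ^ θ with hM
  have hM0 : 0 ≤ M := by positivity
  have hc0 : (0 : ℝ) ≤ T.card := Nat.cast_nonneg _
  have h2 : 101 * Z + T.card * (C * (K * Z) ^ ε * M) ≤
      (101 + C) * (K * Z) ^ ε * (Z + M * T.card) := by
    have e1 : 101 * Z ≤ 101 * (K * Z) ^ ε * Z := by nlinarith
    have e2 : 0 ≤ C * (K * Z) ^ ε * Z := by positivity
    have e3 : 0 ≤ 101 * (K * Z) ^ ε * (M * T.card) := by positivity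
    nlinarith
  have h3 : 0 < Real.exp 1 := Real.exp_pos 1
  calc _ ≤ Real.exp 1 * ((101 + C) * (K * Z) ^ ε * (Z + M * T.card)) *
        ∑ n ∈ F, ‖c n‖ ^ 2 := by gcongr
    _ = _ := by ring

/-- abstract step from the large sieve to large values -/
lemma lv_of_ls {α : Type*} {T : Finset α} {x : α → ℝ} {V A G M : ℝ}
    (h : ∑ q ∈ T, x q ≤ (A + M * T.card) * G) (hV : 2 * M * G ≤ V) (hT : ∀ q ∈ T, V ≤ x q) :
    (T.card : ℝ) * V ≤ 2 * (A * G) := by
  have h1 : (T.card : ℝ) * V ≤ ∑ q ∈ T, x q := by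
    rw [← nsmul_eq_mul, ← Finset.sum_const]
    exact Finset.sum_le_sum hT
  have h2 : (0 : ℝ) ≤ T.card := Nat.cast_nonneg _
  nlinarith [mul_le_mul_of_nonneg_left hV h2]

/-- **(LV'), large values form** -/
theorem lvS {θ ε : ℝ} (hθ : 1 / 2 < θ) (hθ1 : θ ≤ 1) (hPF : PF Set.univ θ) (hε : 0 < ε) :
    ∃ C : ℝ, 0 < C ∧ ∀ K Z : ℝ, 1 ≤ K → 1 ≤ Z → ∀ T : Finset Ix, (∀ q ∈ T, Adm K q) →
      ∀ F : Finset Eis, (∀ n ∈ F, (nm n : ℝ) ≤ Z) → ∀ c : Eis → ℂ, ∀ V : ℝ,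
      C * K ^ ε * (Z ^ (1 - θ) * K ^ (2 * θ - 1)) * (∑ n ∈ F, ‖c n‖ ^ 2) ≤ V →
      (∀ q ∈ T, V ≤ ‖∑ n ∈ F, c n * ch q n‖ ^ 2) →
      (T.card : ℝ) * V ≤ C * K ^ ε * Z * ∑ n ∈ F, ‖c n‖ ^ 2 := by
  obtain ⟨C, hC0, hC⟩ := lsS hθ hθ1 hPF hε
  refine ⟨2 * C, by positivity, fun K Z hK hZ T hT F hF c V hV hTV => ?_⟩
  have h1 := hC K Z hK hZ T hT F hF c
  set G := ∑ n ∈ F, ‖c n‖ ^ 2 with hG
  have h2 := lv_of_ls (A := C * K ^ ε * Z) (M := C * K ^ ε * (Z ^ (1 - θ) * K ^ (2 * θ - 1)))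
    (G := G) (h1.trans (le_of_eq (by ring))) (le_trans (le_of_eq (by ring)) hV) hTV
  refine h2.trans (le_of_eq (by ring))

/-- **(LV'), direct large values form** -/
theorem lvS' {θ ε : ℝ} (hθ : 1 / 2 < θ) (hθ1 : θ ≤ 1) (hPF : PF Set.univ θ) (hε : 0 < ε) :
    ∃ C : ℝ, 0 < C ∧ ∀ K Z : ℝ, 1 ≤ K → 1 ≤ Z → ∀ T : Finset Ix, (∀ q ∈ T, Adm K q) →
      ∀ F : Finset Eis, (∀ n ∈ F, (nm n : ℝ) ≤ Z) → ∀ c : Eis → ℂ, ∀ V : ℝ,
      C * (K * Z) ^ ε * Z ^ θ * (∑ n ∈ F, ‖c n‖ ^ 2) ≤ V →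
      (∀ q ∈ T, V ≤ ‖∑ n ∈ F, c n * ch q n‖ ^ 2) →
      (T.card : ℝ) * V ≤ C * (K * Z) ^ ε * Z * ∑ n ∈ F, ‖c n‖ ^ 2 := by
  obtain ⟨C, hC0, hC⟩ := lsS' hθ hθ1 hPF hε
  refine ⟨2 * C, by positivity, fun K Z hK hZ T hT F hF c V hV hTV => ?_⟩
  have h1 := hC K Z hK hZ T hT F hF c
  set G := ∑ n ∈ F, ‖c n‖ ^ 2 with hG
  have h2 := lv_of_ls (A := C * (K * Z) ^ ε * Z) (M := C * (K * Z) ^ ε * Z ^ θ)
    (G := G) (h1.trans (le_of_eq (by ring))) (le_trans (le_of_eq (by ring)) hV) hTV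
  refine h2.trans (le_of_eq (by ring))

end Crest.Agent.R017.LVs73
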