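import Crest.Agent.R017.Loc1_266

/-!
# Row 17 (A.loc): the local sums at `λ = √-3`

`Sl r χ v = Σ_{c mod λ^r, c ≡ 1 (3)} χ(c) e(v c / λ^{r+1})`.

* `Sl_eq` : as a sum over `t mod λ^{r-2}`, `c = 1 + λ² t`
* `Sl_cubic` : `χ (1 + λ² t) = e(β t/λ³)` : value `3^{r-2} e(v/λ^{r+1})` if
  `λ^{r-2} ∣ v + β λ^{r-4}`, `0` otherwise
* `Sl_mul` : equivariance
* `exists_kap`, `Sl_ne_zero`, `norm_Sl_sq` : every character of conductor exponent `r ≥ 5`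
-/

set_option autoImplicit false

noncomputable section

open Complex
open scoped ComplexConjugate

namespace Crest.Agent.R017.LamP64

open Crest.Agent.R012 Crest.Agent.R012.Eis Crest.Agent.R012.Gauss880 Crest.Agent.R017.Loc266

/-! ### sums over one class -/

lemma sumMod_single {m : Eis} (hm : m ≠ 0) {F : Eis → ℂ} (hF : PMod m F) (a : Eis)
    (h0 : ∀ x, ¬ m ∣ x - a → F x = 0) : sumMod m F = F a := by
  classical
  have hcrs := isCRS_crs hm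
  rw [sumMod_eq_sum hcrs hF]
  obtain ⟨s, ⟨hs, hsd⟩, hun⟩ := hcrs a
  rw [Finset.sum_eq_single s]
  · have : m ∣ s - a := by rw [← neg_sub, dvd_neg]; exact hsd
    exact hF.congr this
  · intro t ht hts
    apply h0
    intro h
    exact hts (hun t ⟨ht, by rw [← neg_sub, dvd_neg]; exact h⟩)
  · intro h; exact absurd hs h

lemma sq3_pow_ne (r : ℕ) : sq3 ^ r ≠ 0 := pow_ne_zero _ sq3_ne_zero

lemma sq3_two_dvd_iff {x : Eis} : sq3 ^ 2 ∣ x ↔ (3 : Eis) ∣ x := by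
  rw [sq3_sq]; exact neg_dvd

lemma nm_sq3 : nm sq3 = 3 := by decide

lemma nm_sq3_pow (r : ℕ) : nm (sq3 ^ r) = 3 ^ r := by
  rw [nm_pow, nm_sq3]

lemma sumMod_one_mod {k : ℕ} {f : Eis → ℂ} (hf : PMod (sq3 ^ (k + 2)) f)
    (h0 : ∀ x, ¬ (3 : Eis) ∣ x - 1 → f x = 0) :
    sumMod (sq3 ^ (k + 2)) f = sumMod (sq3 ^ k) (fun t => f (1 + sq3 ^ 2 * t)) := by
  have e : sq3 ^ (k + 2) = sq3 ^ 2 * sq3 ^ k := by rw [pow_add, mul_comm]
  rw [e] at hf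
  rw [e, sumMod_tower (sq3_pow_ne 2) (sq3_pow_ne k) hf]
  have hp1 : ∀ x, PMod (sq3 ^ k) (fun y => f (x + sq3 ^ 2 * y)) := fun x y t => by
    beta_reduce
    have : x + sq3 ^ 2 * (y + sq3 ^ k * t) = (x + sq3 ^ 2 * y) + sq3 ^ 2 * sq3 ^ k * t := by ring
    rw [this, hf]
  have hp2 : PMod (sq3 ^ 2) (fun x => sumMod (sq3 ^ k) (fun y => f (x + sq3 ^ 2 * y))) :=
    fun x t => by
      have h := sumMod_shift (sq3_pow_ne k) (hp1 x) t
      beta_reduce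
      rw [← h]
      exact sumMod_congr fun y => by ring_nf
  refine sumMod_single (sq3_pow_ne 2) hp2 1 (fun x hx => ?_)
  have : ∀ y, f (x + sq3 ^ 2 * y) = (fun _ => (0 : ℂ)) y := by
    intro y
    apply h0
    intro h
    apply hx
    rw [← sq3_two_dvd_iff] at h
    have := dvd_sub h (dvd_mul_right (sq3 ^ 2) y)
    rwa [show x + sq3 ^ 2 * y - 1 - sq3 ^ 2 * y = x - 1 by ring] at this
  beta_reduce
  rw [sumMod_congr this, sumMod_const (sq3_pow_ne k), mul_zero]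

/-! ### the sum -/

open Classical in
/-- `χ` cut to the classes `≡ 1 mod 3` -/
def cut (χ : Eis → ℂ) (c : Eis) : ℂ := if (3 : Eis) ∣ c - 1 then χ c else 0

lemma cut_of {χ : Eis → ℂ} {c : Eis} (h : (3 : Eis) ∣ c - 1) : cut χ c = χ c := by
  classical exact if_pos h

lemma cut_of_not {χ : Eis → ℂ} {c : Eis} (h : ¬ (3 : Eis) ∣ c - 1) : cut χ c = 0 := by
  classical exact if_neg h

lemma three_dvd_sq3_pow (k : ℕ) : (3 : Eis) ∣ sq3 ^ (k + 2) := by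
  rw [pow_add]; exact Dvd.dvd.mul_left (sq3_two_dvd_iff.mp dvd_rfl) _

lemma pmod_cut {k : ℕ} {χ : Eis → ℂ} (hχ : PMod (sq3 ^ (k + 2)) χ) :
    PMod (sq3 ^ (k + 2)) (cut χ) := by
  intro x t
  have h3 : (3 : Eis) ∣ x + sq3 ^ (k + 2) * t - 1 ↔ (3 : Eis) ∣ x - 1 := by
    have h4 : (3 : Eis) ∣ sq3 ^ (k + 2) * t := (three_dvd_sq3_pow k).mul_right t
    rw [show x + sq3 ^ (k + 2) * t - 1 = (x - 1) + sq3 ^ (k + 2) * t by ring]
    exact (dvd_add_left h4)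
  by_cases h : (3 : Eis) ∣ x - 1
  · rw [cut_of h, cut_of (h3.mpr h), hχ]
  · rw [cut_of_not h, cut_of_not (fun h' => h (h3.mp h'))]

/-- `Σ_{c mod λ^r, c ≡ 1 (3)} χ(c) e(v c / λ^{r+1})` -/
def Sl (r : ℕ) (χ : Eis → ℂ) (v : Eis) : ℂ := gl (cut χ) v (sq3 ^ r)

lemma Sl_def (r : ℕ) (χ : Eis → ℂ) (v : Eis) :
    Sl r χ v = sumMod (sq3 ^ r) (fun c => cut χ c * ea (sq3 ^ r) v c) := rfl

lemma ea_mul_mod {m n : Eis} (hm : m ≠ 0) (v t : Eis) : ea (m * n) v (m * t) = ea n v t := by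
  unfold ea
  congr 1
  have := toC_ne_zero hm
  rw [map_mul, map_mul]
  by_cases hn : toC n = 0
  · rw [hn]; simp
  · have := sq3C_ne
    field_simp

lemma Sl_eq {k : ℕ} {χ : Eis → ℂ} (hχ : PMod (sq3 ^ (k + 2)) χ) (v : Eis) :
    Sl (k + 2) χ v = ea (sq3 ^ (k + 2)) v 1 *
      sumMod (sq3 ^ k) (fun t => χ (1 + sq3 ^ 2 * t) * ea (sq3 ^ k) v t) := by
  have hN : sq3 ^ (k + 2) ≠ 0 := sq3_pow_ne _
  rw [Sl_def, sumMod_one_mod ((pmod_cut hχ).mul (pmod_ea hN v))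
    (fun x hx => by rw [cut_of_not hx, zero_mul]), ← sumMod_mul_left (sq3_pow_ne k)]
  refine sumMod_congr fun t => ?_
  have h1 : (3 : Eis) ∣ 1 + sq3 ^ 2 * t - 1 := by
    rw [show 1 + sq3 ^ 2 * t - 1 = sq3 ^ 2 * t by ring, ← sq3_two_dvd_iff]
    exact dvd_mul_right _ _
  rw [cut_of h1, ea_add hN]
  have h2 : ea (sq3 ^ (k + 2)) v (sq3 ^ 2 * t) = ea (sq3 ^ k) v t := by
    rw [show sq3 ^ (k + 2) = sq3 ^ 2 * sq3 ^ k by rw [pow_add, mul_comm]]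
    exact ea_mul_mod (sq3_pow_ne 2) v t
  rw [h2]; ring

lemma Sl_congr {r : ℕ} {χ : Eis → ℂ} {v v' : Eis} (h : sq3 ^ r ∣ v - v') :
    Sl r χ v = Sl r χ v' := gl_congr (sq3_pow_ne r) h

/-- the cubic case -/
theorem Sl_cubic {j : ℕ} {χ : Eis → ℂ} (hχ : PMod (sq3 ^ (j + 4)) χ) {β : Eis}
    (hβ : ∀ t, χ (1 + sq3 ^ 2 * t) = ea (sq3 ^ 2) β t) (v : Eis) :
    open Classical in
    Sl (j + 4) χ v = if sq3 ^ (j + 2) ∣ v + β * sq3 ^ j then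
      (3 : ℂ) ^ (j + 2) * ea (sq3 ^ (j + 4)) v 1 else 0 := by
  classical
  have h1 := Sl_eq (k := j + 2) hχ v
  rw [show j + 2 + 2 = j + 4 by ring] at h1
  rw [h1]
  have h2 : ∀ t, χ (1 + sq3 ^ 2 * t) * ea (sq3 ^ (j + 2)) v t
      = ea (sq3 ^ (j + 2)) (v + β * sq3 ^ j) t := by
    intro t
    rw [hβ, ea_add_left, mul_comm]
    congr 1
    rw [show sq3 ^ (j + 2) = sq3 ^ j * sq3 ^ 2 by rw [pow_add],
      mul_comm β, ← ea_mul_mod (n := sq3 ^ 2) (sq3_pow_ne j) β t, ea_mul, mul_comm β]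
  rw [sumMod_congr h2, sumMod_ea (sq3_pow_ne _)]
  by_cases h : sq3 ^ (j + 2) ∣ v + β * sq3 ^ j
  · rw [if_pos h, if_pos h, nm_sq3_pow]; push_cast; ring
  · rw [if_neg h, if_neg h, mul_zero]

/-- equivariance under `1 + 3 O` -/
theorem Sl_mul {k : ℕ} {χ : Eis → ℂ} (hχ : IsCh (sq3 ^ (k + 2)) χ) (v : Eis) {u : Eis}
    (hu : (3 : Eis) ∣ u - 1) : Sl (k + 2) χ (v * u) = conj (χ u) * Sl (k + 2) χ v := by
  have hN : sq3 ^ (k + 2) ≠ 0 := sq3_pow_ne _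
  have huc : IsCoprime u (sq3 ^ (k + 2)) := by
    apply IsCoprime.pow_right
    obtain ⟨t, ht⟩ := hu
    have h3 : (3 : Eis) = - sq3 ^ 2 := by rw [sq3_sq, neg_neg]
    refine ⟨1, sq3 * t, ?_⟩
    rw [h3] at ht
    linear_combination ht
  have h1 : χ u * Sl (k + 2) χ (v * u) = Sl (k + 2) χ v := by
    rw [Sl_def, Sl_def, ← sumMod_mul_left hN, ← sumMod_mul_coprime hN
      ((pmod_cut hχ.per).mul (pmod_ea hN v)) huc]
    refine sumMod_congr fun x => ?_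
    have h2 : (3 : Eis) ∣ u * x - 1 ↔ (3 : Eis) ∣ x - 1 := by
      have : u * x - 1 = (x - 1) + (u - 1) * x := by ring
      rw [this]; exact dvd_add_left (hu.mul_right x)
    rw [ea_mul]
    by_cases h : (3 : Eis) ∣ x - 1
    · rw [cut_of h, cut_of (h2.mpr h), hχ.mul]; ring
    · rw [cut_of_not h, cut_of_not (fun h' => h (h2.mp h'))]; ring
  have h2 := hχ.mul_conj_self hN huc
  calc Sl (k + 2) χ (v * u) = (χ u * conj (χ u)) * Sl (k + 2) χ (v * u) := by rw [h2, one_mul]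
    _ = conj (χ u) * (χ u * Sl (k + 2) χ (v * u)) := by ring
    _ = _ := by rw [h1]

end Crest.Agent.R017.LamP64
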