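import Crest.Agent.R017.Leg3_381

/-!
# Row 17, RG3 (helper381): general weight systems, the rule for a fixed divisor

* `WSy z D0 W c φ` : `W i m = ∑_{d ∣ m} c i d * fw z D0 (φ i d) (m / d)`
* `TG_gen`, `gen_split` : exact / analytic splitting for `alW h s W = cv (pc h (s i) * W i)`
-/

set_option autoImplicit false
set_option linter.unusedSectionVars false
set_option linter.unusedVariables false

noncomputable section

open Complex
open scoped ComplexConjugate

namespace Crest.Agent.R017.Leg381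

open Crest.Agent.R012 Crest.Agent.R012.Eis Crest.Agent.R012.LS2 Crest.Agent.R012.Gauss880
open Crest.Agent.R012.Mob705
open Crest.Agent.R012.Div277 (tau dvs mem_dvs isPrim_of_mem_dvs dvd_of_mem_dvs tau_le_rpow)
open Crest.Agent.R017.CM106 Crest.Agent.R017.HP842 Crest.Agent.R017.FE47
open Crest.Agent.R017.End699 Crest.Agent.R017.XC858
open Crest.Agent.R017.HSep813 (gw norm_gw_le MF sep_list)
open Crest.Agent.R017.Prov71 (CubeFree)
open Crest.Agent.R017.TP320 (mul_div_of_mem mul_div_left')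
open Crest.Agent.R017.Rough381

/-- a system of weights of the entries -/
structure WSy {ι : Type} (z D0 : ℝ) (W c : ι → Eis → ℂ) (φ : ι → Eis → Bool) : Prop where
  eq : ∀ i m, IsPrim m → W i m = ∑ d ∈ dvs m, c i d * fw z D0 (φ i d) (m / d)
  sm : ∀ i d, c i d ≠ 0 → Sm z d

variable {ι : Type} [Fintype ι] [DecidableEq ι]

/-- the sequence of a family with weights -/
def alW (h : ℝ → ℝ) (s : ι → Pc) (W : ι → Eis → ℂ) : Eis → ℂ :=
  cv fun i n => pc h (s i) n * W i n

/-- **exact splitting, general weight systems** -/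
theorem TG_gen {h : ℝ → ℝ} {R : ℝ} (hR : ∀ u, cx h u ≠ 0 → |u| ≤ R) {s : ι → Pc}
    (hs : ∀ i, (s i).OK) {X : ℕ} (hX : ∀ i, (s i).Y * Real.exp R ≤ X) {z D0 : ℝ}
    {W c : ι → Eis → ℂ} {φ : ι → Eis → Bool} (hW : WSy z D0 W c φ) (q l : Eis) :
    TG (sqc q (alW h s W)) l =
      ∑ x ∈ smT ι X z, Th q (∏ i, x i) * (G (∏ i, x i) * conj (sy l (∏ i, x i))) *
        scS s x * (∏ i, c i (x i)) *
        TG (sqc q (alf z D0 h (shS s x) (fun i => φ i (x i)))) (l * ∏ i, x i) := by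
  classical
  set A := Fintype.piFinset (fun _ : ι => primBall X) with hA
  have hbd : Bd X (fun i n => pc h (s i) n * W i n) := fun i b hb =>
    Bd_pc hR (hs i).Y0 (hX i) (left_ne_zero_of_mul hb)
  set F : Eis → Eis → ℂ := fun l n => Th q n * (G n * conj (sy l n)) with hF
  unfold alW alf
  rw [TG_sqc_eq, sum_cv hbd (F l)]
  -- the full sum over all primary tuples
  have hall : ∑ x ∈ smT ι X z, Th q (∏ i, x i) * (G (∏ i, x i) * conj (sy l (∏ i, x i))) *
        scS s x * (∏ i, c i (x i)) *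
        TG (sqc q (cv fun i => fpc z D0 h (shS s x i) (φ i (x i)))) (l * ∏ i, x i) =
      ∑ x ∈ A, ∑ y ∈ A, (∏ i, (c i (x i) * fw z D0 (φ i (x i)) (y i) *
        pc h (s i) (x i * y i))) * F l (∏ i, x i * y i) := by
    have hsub : smT ι X z ⊆ A := by
      unfold smT
      exact Finset.filter_subset _ _
    have hz : ∀ x ∈ A, x ∉ smT ι X z → (∑ y ∈ A, (∏ i, (c i (x i) *
        fw z D0 (φ i (x i)) (y i) * pc h (s i) (x i * y i))) *
        F l (∏ i, x i * y i)) = 0 := by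
      intro x hx hx'
      have : ∃ i, ¬ Sm z (x i) := by
        by_contra hcon
        push Not at hcon
        apply hx'
        unfold smT
        rw [Finset.mem_filter]
        exact ⟨hx, hcon⟩
      obtain ⟨i, hi⟩ := this
      refine Finset.sum_eq_zero fun y _ => ?_
      rw [Finset.prod_eq_zero (Finset.mem_univ i), zero_mul]
      have : c i (x i) = 0 := by
        by_contra h0; exact hi (hW.sm i _ h0)
      rw [this]; ring
    rw [← Finset.sum_subset hsub hz]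
    refine Finset.sum_congr rfl fun x hx => ?_
    rw [mem_smT] at hx
    have hxp : ∀ i, IsPrim (x i) := fun i => (hx i).1.2
    have hbd' : Bd X (fun i => fpc z D0 h (shS s x i) (φ i (x i))) := by
      refine Bd_fpc hR (fun i => (sh_OK (hs i) (hxp i)).Y0) (fun i => ?_) z D0 _
      exact (mul_le_mul_of_nonneg_right (sh_Y_le (hs i).Y0 (hxp i)) (Real.exp_pos _).le).trans
        (hX i)
    rw [TG_sqc_eq, sum_cv hbd' (F (l * ∏ i, x i)), Finset.mul_sum]
    refine Finset.sum_congr rfl fun y hy => ?_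
    rw [hA, Fintype.mem_piFinset] at hy
    have hyp : ∀ i, IsPrim (y i) := fun i => (mem_primBall.1 (hy i)).2
    have e2 : ∏ i, x i * y i = (∏ i, x i) * ∏ i, y i := Finset.prod_mul_distrib
    have e3 : F l (∏ i, x i * y i) = F l (∏ i, x i) * F (l * ∏ i, x i) (∏ i, y i) := by
      rw [e2]
      exact Th_Kg_mul q l (isPrim_prod hxp) (isPrim_prod hyp)
    rw [e3]
    by_cases hc : IsCoprime (∏ i, x i) (∏ i, y i)
    · have hci : ∀ i, IsCoprime (x i) (y i) := fun i =>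
        (hc.of_isCoprime_of_dvd_left (Finset.dvd_prod_of_mem _ (Finset.mem_univ i))
          ).of_isCoprime_of_dvd_right (Finset.dvd_prod_of_mem _ (Finset.mem_univ i))
      have e4 : ∏ i, (c i (x i) * fw z D0 (φ i (x i)) (y i) *
          pc h (s i) (x i * y i)) = scS s x * (∏ i, c i (x i)) *
          ∏ i, fpc z D0 h (shS s x i) (φ i (x i)) (y i) := by
        unfold scS
        rw [← Finset.prod_mul_distrib, ← Finset.prod_mul_distrib]
        refine Finset.prod_congr rfl fun i _ => ?_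
        rw [pc_mul h (hs i).ch (hs i).Y0 (hxp i), pc_sub_rough (s i) (hci i)]
        unfold fpc shS
        ring
      rw [e4, hF]
      ring
    · have h2 : F (l * ∏ i, x i) (∏ i, y i) = 0 := by
        have : sy (l * ∏ i, x i) (∏ i, y i) = 0 := by
          refine (syG.eq_zero _ _ (isPrim_prod hyp)).2 fun h' => hc ?_
          exact h'.of_mul_left_right
        rw [hF]
        show Th q (∏ i, y i) * (G (∏ i, y i) * conj (sy (l * ∏ i, x i) (∏ i, y i))) = 0
        rw [this]; simp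
      rw [h2]; ring
  rw [hall]
  -- the left side
  have hlhs : ∀ b ∈ A, (∏ i, pc h (s i) (b i) * W i (b i)) * F l (∏ i, b i) =
      ∑ x ∈ Fintype.piFinset (fun i => dvs (b i)), (∏ i, (c i (x i) *
        fw z D0 (φ i (x i)) (b i / x i) * pc h (s i) (x i * (b i / x i)))) *
        F l (∏ i, x i * (b i / x i)) := by
    intro b hb
    rw [hA, Fintype.mem_piFinset] at hb
    have hbp : ∀ i, IsPrim (b i) := fun i => (mem_primBall.1 (hb i)).2
    have e1 : ∀ i, pc h (s i) (b i) * W i (b i) = ∑ x ∈ dvs (b i),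
        c i x * fw z D0 (φ i x) (b i / x) * pc h (s i) (b i) := by
      intro i
      rw [hW.eq i (b i) (hbp i), Finset.mul_sum]
      exact Finset.sum_congr rfl fun x _ => by ring
    rw [Finset.prod_congr rfl fun i _ => e1 i, Finset.prod_univ_sum, Finset.sum_mul]
    refine Finset.sum_congr rfl fun x hx => ?_
    rw [Fintype.mem_piFinset] at hx
    have e5 : ∀ i, x i * (b i / x i) = b i := fun i => mul_div_of_mem (hx i)
    simp only [e5]
  rw [Finset.sum_congr rfl hlhs, ← Finset.sum_product', Finset.sum_sigma']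
  symm
  refine Finset.sum_bij_ne_zero (fun p _ _ => ⟨fun i => p.1 i * p.2 i, p.1⟩) ?_ ?_ ?_ ?_
  · rintro ⟨x, y⟩ hp hne
    rw [Finset.mem_product, Fintype.mem_piFinset, Fintype.mem_piFinset] at hp
    have hxp : ∀ i, IsPrim (x i) := fun i => (mem_primBall.1 (hp.1 i)).2
    have hyp : ∀ i, IsPrim (y i) := fun i => (mem_primBall.1 (hp.2 i)).2
    have h1 : ∀ i, pc h (s i) (x i * y i) ≠ 0 := fun i => right_ne_zero_of_mul
      (Finset.prod_ne_zero_iff.1 (left_ne_zero_of_mul hne) i (Finset.mem_univ i))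
    rw [Finset.mem_sigma, Fintype.mem_piFinset, Fintype.mem_piFinset]
    refine ⟨fun i => Bd_pc hR (hs i).Y0 (hX i) (h1 i), fun i => ?_⟩
    exact (mem_dvs ((hxp i).mul (hyp i)).ne_zero).2 ⟨hxp i, dvd_mul_right _ _⟩
  · rintro ⟨x, y⟩ hp _ ⟨x', y'⟩ hp' _ e
    rw [Finset.mem_product, Fintype.mem_piFinset, Fintype.mem_piFinset] at hp hp'
    simp only [Sigma.mk.injEq, heq_eq_eq] at e
    obtain ⟨e1, e2⟩ := e
    have e2' : x = x' := e2
    subst e2'
    have : y = y' := by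
      funext i
      have h0 := (mem_primBall.1 (hp.1 i)).2.ne_zero
      have h1 : x i * y i = x i * y' i := congrFun e1 i
      exact mul_left_cancel₀ h0 h1
    rw [this]
  · rintro ⟨b, x⟩ hp hne
    rw [Finset.mem_sigma, Fintype.mem_piFinset, Fintype.mem_piFinset] at hp
    obtain ⟨hb, hx⟩ := hp
    have hb' : ∀ i, b i ∈ primBall X := hb
    have hx' : ∀ i, x i ∈ dvs (b i) := hx
    have hbp : ∀ i, IsPrim (b i) := fun i => (mem_primBall.1 (hb' i)).2
    have hdiv : ∀ (i : ι) (d : Eis), d ∈ dvs (b i) → d ∈ primBall X := by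
      intro i d hd
      rw [mem_primBall]
      refine ⟨?_, isPrim_of_mem_dvs hd⟩
      exact (nm_le_of_dvd' (hbp i).ne_zero (dvd_of_mem_dvs hd)).trans (mem_primBall.1 (hb' i)).1
    have hmul : ∀ i, x i * (b i / x i) = b i := fun i => mul_div_of_mem (hx' i)
    refine ⟨(x, fun i => b i / x i), ?_, ?_, ?_⟩
    · rw [Finset.mem_product, Fintype.mem_piFinset, Fintype.mem_piFinset]
      exact ⟨fun i => hdiv i _ (hx' i), fun i => hdiv i _ (div_mem_dvs (hbp i) (hx' i))⟩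
    · exact hne
    · simp only [hmul]
  · rintro ⟨x, y⟩ hp hne
    rw [Finset.mem_product, Fintype.mem_piFinset, Fintype.mem_piFinset] at hp
    have e : ∀ i, x i * y i / x i = y i := fun i =>
      mul_div_left' (mem_primBall.1 (hp.1 i)).2.ne_zero
    simp only [e]

open Classical in
/-- the key of a tuple: which entries are `1`, the new flags, and the logarithmic sizes -/
def keyg (φ : ι → Eis → Bool) (x : ι → Eis) : (ι → Bool) × (ι → Bool) × (ι → ℕ) :=
  (fun i => decide (x i = 1), fun i => φ i (x i), fun i => ⌊Real.log (nm (x i))⌋₊)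

lemma shS_eqg (φ : ι → Eis → Bool) (s : ι → Pc) (x : ι → Eis) :
    shS s x = cellP s (vk s (keyg φ x).1) (fun i => (s i).Y / nm (x i)) (fun i => (s i).t) :=
  shS_eq s x

open Classical in
/-- **splitting without loss, general weight systems** -/
theorem gen_split {h : ℝ → ℝ} {c : ℝ} (hpu : PU h c) {R : ℝ} (hR0 : 0 ≤ R)
    (hR : ∀ u, cx h u ≠ 0 → |u| ≤ R) (M : ℝ) : ∃ C : ℝ, 1 ≤ C ∧
    ∀ (ι : Type) [Fintype ι] [DecidableEq ι] (s : ι → Pc), (∀ i, (s i).OK) →
    ∀ (X : ℕ), 1 ≤ X → (∀ i, (s i).Y * Real.exp R ≤ X) →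
    ∀ (z D0 : ℝ) (W cc : ι → Eis → ℂ) (φ : ι → Eis → Bool), WSy z D0 W cc φ →
    ∀ (q : Eis) (L : ℝ), 0 ≤ L → ∀ B D T : ℝ, 0 ≤ B → 0 ≤ D → 1 ≤ T →
    (∀ i, ∀ x : Eis, x ≠ 0 → (nm x : ℝ) ≤ X → ‖cc i x‖ ≤ T) →
    (∀ j : Eis, j ≠ 0 → (nm j : ℝ) ≤ L * (Real.exp 1 * X) ^ Fintype.card ι →
      (tau j : ℝ) ^ Fintype.card ι ≤ D) →
    (∀ (b g : ι → Bool) (n : ι → ℕ) (Y t : ι → ℝ), (∀ i, (n i : ℝ) ≤ Real.log X) →
      (∃ x : ι → Eis, ∀ i, IsPrim (x i) ∧ cc i (x i) ≠ 0 ∧ g i = φ i (x i) ∧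
        (n i : ℝ) ≤ Real.log (nm (x i)) ∧ Real.log (nm (x i)) < n i + 1) →
      (∀ i, 1 ≤ Y i ∧ |Real.log (Y i) - (Real.log (s i).Y - n i)| ≤ 2 * R + 1) →
      VF (L * Real.exp (∑ i, ((n i : ℝ) + 1))) (sqc q (alf z D0 h (cellP s (vk s b) Y t) g)) ≤
        B * Real.exp (-∑ i, ((n i : ℝ) + 1)) * ∏ i, (1 + |t i - (s i).t|) ^ M) →
    VF L (sqc q (alW h s W)) ≤
      (C * T ^ 2 * (Real.log X + 1) ^ 2) ^ Fintype.card ι * (D * B) := by
  obtain ⟨C, hC, H⟩ := cell_bound_f hpu hR0 hR M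
  refine ⟨1600 * (C + 1), by linarith, ?_⟩
  intro ι _ _ s hs X hX1 hX z D0 W cc φ hW q L hL B D T hB hD hT1 hTτ hτ hyp
  have hX1' : (1 : ℝ) ≤ X := by exact_mod_cast hX1
  have hlog0 : 0 ≤ Real.log X := Real.log_nonneg hX1'
  have hT0 : 0 ≤ T := by linarith
  set k := Fintype.card ι with hk
  set N := ⌊Real.log X⌋₊ with hN
  have hNle : (N : ℝ) ≤ Real.log X := Nat.floor_le hlog0
  -- cells
  set Cs : Finset ((ι → Bool) × (ι → Bool) × (ι → ℕ)) :=
    Finset.univ ×ˢ Finset.univ ×ˢ Fintype.piFinset (fun _ : ι => Finset.range (N + 1)) with hCs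
  have hcard : (Cs.card : ℝ) ≤ (4 * (Real.log X + 1)) ^ k := by
    rw [hCs, Finset.card_product, Finset.card_product, Finset.card_univ, Fintype.card_piFinset]
    simp only [Fintype.card_fun, Fintype.card_bool, Finset.card_range, Finset.prod_const,
      Finset.card_univ]
    push_cast
    rw [← hk, ← mul_assoc, ← mul_pow, ← mul_pow]
    have : (2 * 2 * ((N : ℝ) + 1)) ≤ 4 * (Real.log X + 1) := by linarith
    exact pow_le_pow_left₀ (by positivity) this k
  have hmaps : ∀ x ∈ smT ι X z, keyg φ x ∈ Cs := by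
    intro x hx
    rw [mem_smT] at hx
    rw [hCs, Finset.mem_product, Finset.mem_product, Fintype.mem_piFinset]
    refine ⟨Finset.mem_univ _, Finset.mem_univ _, fun i => ?_⟩
    rw [Finset.mem_range, Nat.lt_succ_iff]
    show ⌊Real.log (nm (x i))⌋₊ ≤ N
    refine Nat.floor_le_floor (Real.log_le_log ?_ ?_)
    · exact_mod_cast nm_pos.2 (hx i).1.2.ne_zero
    · exact_mod_cast (hx i).1.1
  set a : Eis → (ι → Eis) → ℂ := fun l x =>
    Th q (∏ i, x i) * (G (∏ i, x i) * conj (sy l (∏ i, x i))) * scS s x *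
      ∏ i, cc i (x i) with ha
  set g : Eis → (ι → Eis) → ℂ := fun l x =>
    TG (sqc q (alf z D0 h (shS s x) (fun i => φ i (x i)))) (l * ∏ i, x i) with hg
  set S : (ι → Bool) × (ι → Bool) × (ι → ℕ) → Finset (ι → Eis) := fun c =>
    (smT ι X z).filter (fun x => keyg φ x = c) with hS
  have hSm : ∀ c x, x ∈ S c ↔ x ∈ smT ι X z ∧ keyg φ x = c := fun c x => Finset.mem_filter
  have hTG : ∀ l, TG (sqc q (alW h s W)) l = ∑ c ∈ Cs, ∑ x ∈ S c, a l x * g l x := by
    intro l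
    rw [TG_gen hR hs hX hW q l, ← Finset.sum_fiberwise_of_maps_to hmaps]
  have hnorm : ∀ l x, x ∈ smT ι X z → ‖a l x‖ ≤ T ^ k := by
    intro l x hx
    rw [mem_smT] at hx
    rw [ha]
    show ‖Th q (∏ i, x i) * (G (∏ i, x i) * conj (sy l (∏ i, x i))) * scS s x *
      ∏ i, cc i (x i)‖ ≤ T ^ k
    rw [norm_mul, norm_prod]
    calc ‖Th q (∏ i, x i) * (G (∏ i, x i) * conj (sy l (∏ i, x i))) * scS s x‖ *
          ∏ i, ‖cc i (x i)‖ ≤ 1 * ∏ _i : ι, T := by
          refine mul_le_mul (norm_coef_le hs fun i => (hx i).1.2) ?_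
            (Finset.prod_nonneg fun _ _ => norm_nonneg _) zero_le_one
          refine Finset.prod_le_prod (fun _ _ => norm_nonneg _) fun i _ => ?_
          have h0 := (hx i).1.2.ne_zero
          exact hTτ i _ h0 (by exact_mod_cast (hx i).1.1)
      _ = T ^ k := by rw [Finset.prod_const, Finset.card_univ, one_mul]
  -- the number of tuples in a cell
  have hSc : ∀ c ∈ Cs, ((S c).card : ℝ) ≤ 100 ^ k * Real.exp (∑ i, ((c.2.2 i : ℝ) + 1)) := by
    intro c hc
    have hsub : S c ⊆ Fintype.piFinset (fun i => primBall ⌊Real.exp ((c.2.2 i : ℝ) + 1)⌋₊) := by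
      intro x hx
      rw [hSm, mem_smT] at hx
      rw [Fintype.mem_piFinset]
      intro i
      rw [mem_primBall]
      refine ⟨?_, (hx.1 i).1.2⟩
      have h1 : c.2.2 i = ⌊Real.log (nm (x i))⌋₊ := by rw [← hx.2]; rfl
      have h7 : (0 : ℝ) < nm (x i) := by exact_mod_cast nm_pos.2 (hx.1 i).1.2.ne_zero
      rw [Nat.le_floor_iff (Real.exp_pos _).le]
      have h2 := Nat.lt_floor_add_one (Real.log (nm (x i)))
      rw [← h1] at h2
      calc (nm (x i) : ℝ) = Real.exp (Real.log (nm (x i))) := (Real.exp_log h7).symm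
        _ ≤ _ := Real.exp_le_exp.2 h2.le
    calc ((S c).card : ℝ) ≤ ((Fintype.piFinset
          (fun i => primBall ⌊Real.exp ((c.2.2 i : ℝ) + 1)⌋₊)).card : ℝ) := by
          exact_mod_cast Finset.card_le_card hsub
      _ = ∏ i, ((primBall ⌊Real.exp ((c.2.2 i : ℝ) + 1)⌋₊).card : ℝ) := by
          rw [Fintype.card_piFinset]; push_cast; rfl
      _ ≤ ∏ i, (100 * Real.exp ((c.2.2 i : ℝ) + 1)) := by
          refine Finset.prod_le_prod (fun _ _ => Nat.cast_nonneg _) fun i _ => ?_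
          refine (Lat277.card_primBall_le _).trans ?_
          have := Nat.floor_le (Real.exp_pos ((c.2.2 i : ℝ) + 1)).le
          linarith
      _ = 100 ^ k * Real.exp (∑ i, ((c.2.2 i : ℝ) + 1)) := by
          rw [Finset.prod_mul_distrib, Finset.prod_const, Finset.card_univ, Real.exp_sum]
  -- the family of a cell
  set K : (ι → Bool) × (ι → Bool) × (ι → ℕ) → Finset (Eis × (ι → Eis)) := fun c =>
    (((bl L).filter CubeFree) ×ˢ S c).filter
      (fun p => (Squarefree (∏ i, p.2 i) ∧ IsCoprime p.1 (∏ i, p.2 i)) ∧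
        ∏ i, cc i (p.2 i) ≠ 0) with hKd
  have hDB : 0 ≤ D * B := mul_nonneg hD hB
  have hcell : ∀ c ∈ Cs, ∑ l ∈ (bl L).filter CubeFree, ∑ x ∈ S c, ‖a l x‖ ^ 2 * ‖g l x‖ ^ 2 ≤
      (T ^ k) ^ 2 * (C ^ k * (D * (B * Real.exp (-∑ i, ((c.2.2 i : ℝ) + 1))))) := by
    intro c hc
    have hc2 : ∀ i, (c.2.2 i : ℝ) ≤ Real.log X := by
      intro i
      rw [hCs, Finset.mem_product, Finset.mem_product, Fintype.mem_piFinset] at hc
      have h1 := Finset.mem_range.1 (hc.2.2 i)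
      have h2 : (c.2.2 i : ℝ) ≤ N := by exact_mod_cast Nat.lt_succ_iff.1 h1
      linarith
    have hmem : ∀ p ∈ K c, p.1 ∈ bl L ∧ CubeFree p.1 ∧ (∀ i, IsPrim (p.2 i)) ∧
        Squarefree (∏ i, p.2 i) ∧ IsCoprime p.1 (∏ i, p.2 i) ∧
        (∀ i, (c.2.2 i : ℝ) ≤ Real.log (nm (p.2 i)) ∧
          Real.log (nm (p.2 i)) < c.2.2 i + 1) ∧ keyg φ p.2 = c ∧
        ∀ i, cc i (p.2 i) ≠ 0 := by
      intro p hp
      rw [hKd, Finset.mem_filter, Finset.mem_product, Finset.mem_filter, hSm, mem_smT] at hp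
      refine ⟨hp.1.1.1, hp.1.1.2, fun i => (hp.1.2.1 i).1.2, hp.2.1.1, hp.2.1.2, fun i => ?_,
        hp.1.2.2, fun i => Finset.prod_ne_zero_iff.1 hp.2.2 i (Finset.mem_univ i)⟩
      have h1 : c.2.2 i = ⌊Real.log (nm (p.2 i))⌋₊ := by rw [← hp.1.2.2]; rfl
      have h7 : (1 : ℝ) ≤ nm (p.2 i) := by
        exact_mod_cast nm_pos.2 (hp.1.2.1 i).1.2.ne_zero
      have h8 := Nat.lt_floor_add_one (Real.log (nm (p.2 i)))
      have h9 := Nat.floor_le (Real.log_nonneg h7)
      rw [← h1] at h8 h9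
      exact ⟨h9, h8⟩
    have e1 : ∑ l ∈ (bl L).filter CubeFree, ∑ x ∈ S c, ‖a l x‖ ^ 2 * ‖g l x‖ ^ 2 ≤
        (T ^ k) ^ 2 * ∑ p ∈ K c, ‖g p.1 p.2‖ ^ 2 := by
      rw [← Finset.sum_product' ((bl L).filter CubeFree) (S c)
        (fun l x => ‖a l x‖ ^ 2 * ‖g l x‖ ^ 2), hKd, Finset.mul_sum, Finset.sum_filter]
      refine Finset.sum_le_sum fun p hp => ?_
      rw [Finset.mem_product, hSm] at hp
      have hp2 := hp.2.1
      rw [mem_smT] at hp2
      have hxp : ∀ i, IsPrim (p.2 i) := fun i => (hp2 i).1.2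
      split_ifs with hc'
      · refine mul_le_mul_of_nonneg_right ?_ (by positivity)
        exact pow_le_pow_left₀ (norm_nonneg _) (hnorm _ _ hp.2.1) 2
      · have : a p.1 p.2 = 0 := by
          by_cases h1 : Squarefree (∏ i, p.2 i) ∧ IsCoprime p.1 (∏ i, p.2 i)
          · have h2 : ∏ i, cc i (p.2 i) = 0 := by
              by_contra h3; exact hc' ⟨h1, h3⟩
            rw [ha]
            show _ * ∏ i, cc i (p.2 i) = 0
            rw [h2, mul_zero]
          · rw [ha]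
            show Th q (∏ i, p.2 i) * (G (∏ i, p.2 i) * conj (sy p.1 (∏ i, p.2 i))) * scS s p.2 *
              ∏ i, cc i (p.2 i) = 0
            rw [coef_zero hxp h1, zero_mul]
        rw [this]; simp
    refine e1.trans (mul_le_mul_of_nonneg_left ?_ (by positivity))
    rcases (K c).eq_empty_or_nonempty with hemp | hne
    · rw [hemp, Finset.sum_empty]
      have := Real.exp_pos (-∑ i, ((c.2.2 i : ℝ) + 1))
      positivity
    have e2 : ∑ p ∈ K c, ‖g p.1 p.2‖ ^ 2 =
        ∑ p ∈ K c, ‖TG (sqc q (alf z D0 h (cellP s (vk s c.1) (fun i => (s i).Y / nm (p.2 i))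
          (fun i => (s i).t)) c.2.1)) (p.1 * ∏ i, p.2 i)‖ ^ 2 := by
      refine Finset.sum_congr rfl fun p hp => ?_
      have h1 := (hmem p hp).2.2.2.2.2.2.1
      have h2 : (fun i => φ i (p.2 i)) = c.2.1 := by rw [← h1]; rfl
      rw [hg]
      show ‖TG (sqc q (alf z D0 h (shS s p.2) (fun i => φ i (p.2 i))))
        (p.1 * ∏ i, p.2 i)‖ ^ 2 = _
      rw [h2, shS_eqg φ, h1]
    rw [e2]
    refine H ι s hs z D0 c.2.1 q L hL (vk s c.1) c.2.2 (K c) (fun p hp => ?_)
      (B * Real.exp (-∑ i, ((c.2.2 i : ℝ) + 1))) D (mul_nonneg hB (Real.exp_pos _).le) hD ?_ ?_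
    · obtain ⟨h1, h2, h3, h4, h5, h6, _, _⟩ := hmem p hp
      refine ⟨h1, h2, h3, h4, h5, fun i => ?_⟩
      rw [abs_le]
      constructor <;> linarith [(h6 i).1, (h6 i).2]
    · intro j hj0 hj
      refine hτ j hj0 (hj.trans ?_)
      refine mul_le_mul_of_nonneg_left ?_ hL
      rw [Real.exp_sum]
      have : ∀ i ∈ (Finset.univ : Finset ι), Real.exp ((c.2.2 i : ℝ) + 1) ≤ Real.exp 1 * X := by
        intro i _
        rw [Real.exp_add, mul_comm]
        refine mul_le_mul_of_nonneg_left ?_ (Real.exp_pos _).le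
        calc Real.exp (c.2.2 i : ℝ) ≤ Real.exp (Real.log X) := Real.exp_le_exp.2 (hc2 i)
          _ = X := Real.exp_log (by linarith)
      calc ∏ i, Real.exp ((c.2.2 i : ℝ) + 1) ≤ ∏ _i : ι, (Real.exp 1 * X) :=
            Finset.prod_le_prod (fun _ _ => (Real.exp_pos _).le) this
        _ = (Real.exp 1 * X) ^ k := by rw [Finset.prod_const, Finset.card_univ]
    · intro Y t hY
      obtain ⟨p, hp⟩ := hne
      obtain ⟨_, _, h3, _, _, h6, h7, h8⟩ := hmem p hp
      have hfl : ∀ i, c.2.1 i = φ i (p.2 i) := fun i => by rw [← h7]; rfl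
      exact hyp c.1 c.2.1 c.2.2 Y t hc2
        ⟨p.2, fun i => ⟨h3 i, h8 i, hfl i, (h6 i).1, (h6 i).2⟩⟩ hY
  -- assembly
  have hmain : ∀ l, ‖TG (sqc q (alW h s W)) l‖ ^ 2 ≤
      (Cs.card : ℝ) * ∑ c ∈ Cs, ((S c).card : ℝ) * ∑ x ∈ S c, ‖a l x‖ ^ 2 * ‖g l x‖ ^ 2 := by
    intro l
    rw [hTG l]
    refine (CR2.norm_sum_sq_le_card Cs _).trans ?_
    refine mul_le_mul_of_nonneg_left ?_ (Nat.cast_nonneg _)
    refine Finset.sum_le_sum fun c _ => ?_
    refine (CR2.norm_sum_sq_le_card (S c) _).trans (le_of_eq ?_)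
    congr 1
    refine Finset.sum_congr rfl fun x _ => ?_
    rw [norm_mul, mul_pow]
  calc VF L (sqc q (alW h s W))
      ≤ ∑ l ∈ (bl L).filter CubeFree, (Cs.card : ℝ) *
          ∑ c ∈ Cs, ((S c).card : ℝ) * ∑ x ∈ S c, ‖a l x‖ ^ 2 * ‖g l x‖ ^ 2 :=
        Finset.sum_le_sum fun l _ => hmain l
    _ = (Cs.card : ℝ) * ∑ c ∈ Cs, ((S c).card : ℝ) *
          ∑ l ∈ (bl L).filter CubeFree, ∑ x ∈ S c, ‖a l x‖ ^ 2 * ‖g l x‖ ^ 2 := by
        rw [← Finset.mul_sum, Finset.sum_comm]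
        congr 1
        refine Finset.sum_congr rfl fun c _ => ?_
        rw [Finset.mul_sum]
    _ ≤ (Cs.card : ℝ) * ∑ c ∈ Cs, (T ^ k) ^ 2 * ((100 * (C + 1)) ^ k * (D * B)) := by
        refine mul_le_mul_of_nonneg_left ?_ (Nat.cast_nonneg _)
        refine Finset.sum_le_sum fun c hc => ?_
        have h1 := hSc c hc
        have h2 := hcell c hc
        have h3 : 0 ≤ ∑ l ∈ (bl L).filter CubeFree, ∑ x ∈ S c, ‖a l x‖ ^ 2 * ‖g l x‖ ^ 2 :=
          Finset.sum_nonneg fun _ _ => Finset.sum_nonneg fun _ _ => by positivity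
        calc ((S c).card : ℝ) * _ ≤ (100 ^ k * Real.exp (∑ i, ((c.2.2 i : ℝ) + 1))) *
              ((T ^ k) ^ 2 * (C ^ k * (D * (B * Real.exp (-∑ i, ((c.2.2 i : ℝ) + 1)))))) :=
              mul_le_mul h1 h2 h3 (by positivity)
          _ = (T ^ k) ^ 2 * (100 ^ k * C ^ k * (D * B)) *
              (Real.exp (∑ i, ((c.2.2 i : ℝ) + 1)) *
              Real.exp (-∑ i, ((c.2.2 i : ℝ) + 1))) := by ring
          _ = (T ^ k) ^ 2 * (100 ^ k * C ^ k * (D * B)) := by
              rw [← Real.exp_add, add_neg_cancel, Real.exp_zero, mul_one]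
          _ ≤ (T ^ k) ^ 2 * (100 ^ k * (C + 1) ^ k * (D * B)) := by
              have : C ^ k ≤ (C + 1) ^ k := pow_le_pow_left₀ hC (by linarith) k
              gcongr
          _ = _ := by rw [mul_pow]
    _ = (Cs.card : ℝ) * (Cs.card : ℝ) * ((T ^ k) ^ 2 * ((100 * (C + 1)) ^ k * (D * B))) := by
        rw [Finset.sum_const, nsmul_eq_mul]; ring
    _ ≤ (4 * (Real.log X + 1)) ^ k * (4 * (Real.log X + 1)) ^ k *
          ((T ^ k) ^ 2 * ((100 * (C + 1)) ^ k * (D * B))) := by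
        have h5 : (0 : ℝ) ≤ (T ^ k) ^ 2 * ((100 * (C + 1)) ^ k * (D * B)) := by positivity
        refine mul_le_mul_of_nonneg_right ?_ h5
        exact mul_le_mul hcard hcard (Nat.cast_nonneg _) (by positivity)
    _ = (1600 * (C + 1) * T ^ 2 * (Real.log X + 1) ^ 2) ^ k * (D * B) := by
        rw [← mul_pow, ← pow_mul, mul_comm k 2, pow_mul, ← mul_assoc, ← mul_assoc, ← mul_pow,
          ← mul_pow]
        congr 2
        ring


end Crest.Agent.R017.Leg381
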