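import Crest.Agent.R017.Leg4_381

/-!
# Row 17, RG3 (helper381): the rule for a fixed divisor `g`

* `sum_dvs_mul` : sums over the divisors of a coprime product
* `natw_mul_rough`, `natw_mul_smooth` : `natw (x m)` for `(x, m) = 1`
* `fw_mul` : `fw f (x m) = ∑_{d ∣ m} cS f x d * fw (φS f x) (m / d)`
* `sub_alf` : `sqc (q g) (sub (alf s f) g) = ∑_{x ∈ Tu g} scS s x • sqc (q g) (alW ..)`
-/

set_option autoImplicit false
set_option linter.unusedSectionVars false
set_option linter.unusedVariables false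

noncomputable section

open Complex
open scoped ComplexConjugate

namespace Crest.Agent.R017.Leg381

open Crest.Agent.R012 Crest.Agent.R012.Eis Crest.Agent.R012.LS2 Crest.Agent.R012.Gauss880
open Crest.Agent.R012.Mob705
open Crest.Agent.R012.Div277 (tau dvs mem_dvs isPrim_of_mem_dvs dvd_of_mem_dvs tau_le_rpow)
open Crest.Agent.R017.CM106 Crest.Agent.R017.HP842 Crest.Agent.R017.FE47
open Crest.Agent.R017.End699 Crest.Agent.R017.XC858
open Crest.Agent.R017.HSep813 (gw norm_gw_le MF sep_list)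
open Crest.Agent.R017.Prov71 (CubeFree)
open Crest.Agent.R017.TP320 (mul_div_of_mem mul_div_left')
open Crest.Agent.R017.Rough381

/-- sums over the divisors of a coprime product -/
theorem sum_dvs_mul {x m : Eis} (hx : IsPrim x) (hm : IsPrim m) (hc : IsCoprime x m)
    (F : Eis → ℂ) : ∑ t ∈ dvs (x * m), F t = ∑ a ∈ dvs x, ∑ d ∈ dvs m, F (a * d) := by
  classical
  have hxm : IsPrim (x * m) := hx.mul hm
  rw [← Finset.sum_product' (dvs x) (dvs m) (fun a d => F (a * d))]
  symm
  refine Finset.sum_bij (fun p _ => p.1 * p.2) ?_ ?_ ?_ ?_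
  · rintro ⟨a, d⟩ hp
    rw [Finset.mem_product] at hp
    have h1 := hp.1
    have h2 := hp.2
    rw [mem_dvs hx.ne_zero] at h1
    rw [mem_dvs hm.ne_zero] at h2
    rw [mem_dvs hxm.ne_zero]
    exact ⟨h1.1.mul h2.1, mul_dvd_mul h1.2 h2.2⟩
  · rintro ⟨a, d⟩ hp ⟨a', d'⟩ hp' e
    rw [Finset.mem_product] at hp hp'
    have h1 := hp.1
    have h2 := hp.2
    have h3 := hp'.1
    have h4 := hp'.2
    obtain ⟨e1, e2⟩ := cop_unique hc (isPrim_of_mem_dvs h1) (isPrim_of_mem_dvs h3)
      (isPrim_of_mem_dvs h2) (dvd_of_mem_dvs h1) (dvd_of_mem_dvs h2) (dvd_of_mem_dvs h3)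
      (dvd_of_mem_dvs h4) e
    exact Prod.ext e1 e2
  · intro t ht
    rw [mem_dvs hxm.ne_zero] at ht
    obtain ⟨a, b, ha, hb, hax, hbm, rfl⟩ := Div277.exists_prim_factor ht.1 ht.2
    exact ⟨(a, b), Finset.mem_product.2 ⟨(mem_dvs hx.ne_zero).2 ⟨ha, hax⟩,
      (mem_dvs hm.ne_zero).2 ⟨hb, hbm⟩⟩, rfl⟩
  · rintro ⟨a, d⟩ _
    rfl

lemma Sm_mul_iff {z : ℝ} {a d : Eis} : Sm z (a * d) ↔ Sm z a ∧ Sm z d :=
  ⟨fun h => ⟨h.of_dvd (dvd_mul_right a d), h.of_dvd (dvd_mul_left d a)⟩, fun h => h.1.mul h.2⟩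

/-- rough factors do not change the weight -/
theorem natw_mul_rough {z D0 : ℝ} {x m : Eis} (hx : IsPrim x) (hm : IsPrim m)
    (hc : IsCoprime x m) (hr : Rg z x) : natw z D0 (x * m) = natw z D0 m := by
  classical
  unfold natw
  rw [sum_dvs_mul hx hm hc, Finset.sum_eq_single 1]
  · refine Finset.sum_congr rfl fun d _ => ?_
    rw [one_mul]
  · intro a ha h1
    refine Finset.sum_eq_zero fun d _ => ?_
    rw [if_neg]
    rintro ⟨hs, _⟩
    obtain ⟨p, hp, hpa⟩ := exists_pp_dvd_of_isPrim (isPrim_of_mem_dvs ha) h1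
    have h2 := (Sm_mul_iff.1 hs).1 p hp hpa
    have h3 := hr p hp (hpa.trans (dvd_of_mem_dvs ha))
    linarith
  · intro h1
    exact absurd ((mem_dvs hx.ne_zero).2 ⟨isPrim_one, one_dvd x⟩) h1

open Classical in
/-- the coefficient for a fixed divisor `x` -/
def cS (z D0 : ℝ) (f : Bool) (x d : Eis) : ℂ :=
  if f = true ∧ ¬ Rg z x then
    (if Sm z d then -∑ a ∈ dvs x, (if Sm z a ∧ D0 < (nm a : ℝ) * nm d then
      (muE a : ℂ) * muE d else 0) else 0)
  else (if d = 1 then 1 else 0)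

open Classical in
/-- the flag for a fixed divisor `x` -/
def φS (z : ℝ) (f : Bool) (x : Eis) : Bool := f && decide (Rg z x)

/-- the weight for a fixed divisor `x` -/
def WS (z D0 : ℝ) (f : Bool) (x m : Eis) : ℂ :=
  ∑ d ∈ dvs m, cS z D0 f x d * fw z D0 (φS z f x) (m / d)

lemma cS_sm {z D0 : ℝ} {f : Bool} {x d : Eis} (h : cS z D0 f x d ≠ 0) : Sm z d := by
  unfold cS at h
  split_ifs at h with h1 h2 h3
  · exact h2
  · exact absurd rfl h
  · rw [h3]; exact Sm_one z
  · exact absurd rfl h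

lemma norm_cS_le (z D0 : ℝ) (f : Bool) {x : Eis} (hx : x ≠ 0) (d : Eis) :
    ‖cS z D0 f x d‖ ≤ tau x := by
  classical
  have h1 := one_le_tau hx
  unfold cS
  split_ifs with h2 h3 h4
  · rw [norm_neg]
    refine (norm_sum_le _ _).trans ?_
    calc ∑ a ∈ dvs x, ‖(if Sm z a ∧ D0 < (nm a : ℝ) * nm d then
          (muE a : ℂ) * muE d else 0)‖ ≤ ∑ a ∈ dvs x, (1 : ℝ) := by
          refine Finset.sum_le_sum fun a _ => ?_
          split_ifs
          · rw [norm_mul]
            calc ‖(muE a : ℂ)‖ * ‖(muE d : ℂ)‖ ≤ 1 * 1 :=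
                  mul_le_mul (norm_muE_le a) (norm_muE_le d) (norm_nonneg _) zero_le_one
              _ = 1 := one_mul 1
          · simp
      _ = tau x := by simp [tau]
  · rw [norm_zero]; linarith
  · rw [norm_one]; exact h1
  · rw [norm_zero]; linarith

/-- nonzero coefficients in the smooth case: the extracted part is large -/
lemma cS_large {z D0 : ℝ} {x d : Eis} (hx : IsPrim x) (hr : ¬ Rg z x)
    (h : cS z D0 true x d ≠ 0) : D0 < (nm x : ℝ) * nm d := by
  classical
  by_contra hcon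
  apply h
  unfold cS
  rw [if_pos ⟨rfl, hr⟩]
  split_ifs
  · rw [neg_eq_zero]
    refine Finset.sum_eq_zero fun a ha => ?_
    rw [if_neg]
    rintro ⟨_, h2⟩
    apply hcon
    refine lt_of_lt_of_le h2 ?_
    have : (nm a : ℝ) ≤ nm x := by exact_mod_cast nm_le_of_dvd' hx.ne_zero (dvd_of_mem_dvs ha)
    exact mul_le_mul_of_nonneg_right this (Nat.cast_nonneg _)
  · rfl

open Classical in
/-- the full smooth Legendre sum vanishes if there is a small prime factor -/
lemma sum_smooth_zero {z : ℝ} {x : Eis} (hx : IsPrim x) (hr : ¬ Rg z x) :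
    ∑ a ∈ dvs x, (if Sm z a then (muE a : ℂ) else (0 : ℂ)) = 0 := by
  classical
  have hsmall : ∃ p, Mob705.IsPP p ∧ p ∣ x ∧ (nm p : ℝ) ≤ z := by
    unfold Rg at hr
    push Not at hr
    obtain ⟨p, hp, hpx, hpz⟩ := hr
    exact ⟨p, hp, hpx, hpz⟩
  have h1 := natw_of_smooth (D0 := 0) hx hsmall
  have h2 : natw z 0 x = 0 := by
    unfold natw
    refine Finset.sum_eq_zero fun d hd => ?_
    rw [if_neg]
    rintro ⟨_, h3⟩
    have : (0 : ℝ) < nm d := by exact_mod_cast nm_pos.2 (isPrim_of_mem_dvs hd).ne_zero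
    linarith
  rw [h2] at h1
  have h3 := neg_eq_zero.1 h1.symm
  refine Eq.trans (Finset.sum_congr rfl fun d hd => ?_) h3
  have : (0 : ℝ) < nm d := by exact_mod_cast nm_pos.2 (isPrim_of_mem_dvs hd).ne_zero
  by_cases hs : Sm z d
  · rw [if_pos hs, if_pos ⟨hs, this⟩]
  · rw [if_neg hs, if_neg (fun h => hs h.1)]

/-- **only small parts are extracted** -/
lemma cS_small {z D0 : ℝ} (hD : 1 ≤ D0) {f : Bool} {x d : Eis} (hx : IsPrim x)
    (h : cS z D0 f x d ≠ 0) : (nm d : ℝ) ≤ D0 := by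
  classical
  by_contra hcon
  rw [not_le] at hcon
  apply h
  unfold cS
  split_ifs with h1 h2 h3
  · rw [neg_eq_zero]
    have e : ∀ a ∈ dvs x, (if Sm z a ∧ D0 < (nm a : ℝ) * nm d then (muE a : ℂ) * muE d else 0) =
        (if Sm z a then (muE a : ℂ) else 0) * muE d := by
      intro a ha
      have h4 : (1 : ℝ) ≤ nm a := by exact_mod_cast nm_pos.2 (isPrim_of_mem_dvs ha).ne_zero
      have h5 : D0 < (nm a : ℝ) * nm d := by nlinarith
      by_cases hs : Sm z a
      · rw [if_pos ⟨hs, h5⟩, if_pos hs]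
      · rw [if_neg (fun h => hs h.1), if_neg hs, zero_mul]
    rw [Finset.sum_congr rfl e, ← Finset.sum_mul]
    have := sum_smooth_zero hx h1.2
    rw [this, zero_mul]
  · rfl
  · exfalso
    rw [h3, nm_one, Nat.cast_one] at hcon
    linarith
  · rfl

/-- **the weight at `x m`** -/
theorem fw_mul {z D0 : ℝ} {f : Bool} {x m : Eis} (hx : IsPrim x) (hm : IsPrim m)
    (hc : IsCoprime x m) : fw z D0 f (x * m) = WS z D0 f x m := by
  classical
  have h1m : (1 : Eis) ∈ dvs m := (mem_dvs hm.ne_zero).2 ⟨isPrim_one, one_dvd m⟩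
  have hdiv1 : m / 1 = m := by
    have := mul_div_of_mem h1m
    rwa [one_mul] at this
  by_cases h : f = true ∧ ¬ Rg z x
  · obtain ⟨hf, hr⟩ := h
    subst hf
    have hsmall : ∃ p, Mob705.IsPP p ∧ p ∣ x * m ∧ (nm p : ℝ) ≤ z := by
      unfold Rg at hr
      push Not at hr
      obtain ⟨p, hp, hpx, hpz⟩ := hr
      exact ⟨p, hp, hpx.mul_right m, hpz⟩
    have e0 : fw z D0 true (x * m) = natw z D0 (x * m) := by unfold fw; simp
    rw [e0, natw_of_smooth (hx.mul hm) hsmall, sum_dvs_mul hx hm hc, Finset.sum_comm]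
    unfold WS
    rw [← Finset.sum_neg_distrib]
    refine Finset.sum_congr rfl fun d hd => ?_
    have hφ : φS z true x = false := by unfold φS; simp [hr]
    have e1 : fw z D0 (φS z true x) (m / d) = 1 := by rw [hφ]; unfold fw; simp
    rw [e1, mul_one]
    unfold cS
    rw [if_pos ⟨rfl, hr⟩]
    by_cases hs : Sm z d
    · rw [if_pos hs]
      congr 1
      refine Finset.sum_congr rfl fun a ha => ?_
      have hca : IsCoprime a d :=
        (hc.of_isCoprime_of_dvd_left (dvd_of_mem_dvs ha)).of_isCoprime_of_dvd_right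
          (dvd_of_mem_dvs hd)
      have e2 : (muE (a * d) : ℂ) = (muE a : ℂ) * muE d := by
        rw [muE_mul (isPrim_of_mem_dvs ha).ne_zero (isPrim_of_mem_dvs hd).ne_zero hca]
        push_cast; rfl
      have e3 : ((nm (a * d) : ℕ) : ℝ) = (nm a : ℝ) * nm d := by rw [nm_mul]; push_cast; rfl
      rw [e2, e3]
      by_cases h2 : Sm z a ∧ D0 < (nm a : ℝ) * nm d
      · rw [if_pos ⟨Sm_mul_iff.2 ⟨h2.1, hs⟩, h2.2⟩, if_pos h2]
      · rw [if_neg (fun h3 => h2 ⟨(Sm_mul_iff.1 h3.1).1, h3.2⟩), if_neg h2]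
    · rw [if_neg hs, neg_eq_zero]
      refine Finset.sum_eq_zero fun a _ => ?_
      rw [if_neg (fun h3 => hs (Sm_mul_iff.1 h3.1).2)]
  · unfold WS
    rw [Finset.sum_eq_single 1]
    · have e1 : cS z D0 f x 1 = 1 := by unfold cS; rw [if_neg h, if_pos rfl]
      rw [e1, one_mul, hdiv1]
      cases f with
      | false =>
        unfold fw φS
        simp
      | true =>
        have hr : Rg z x := by
          by_contra hr; exact h ⟨rfl, hr⟩
        have hφ : φS z true x = true := by unfold φS; simp [hr]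
        rw [hφ]
        unfold fw
        simp only [if_true]
        exact natw_mul_rough hx hm hc hr
    · intro d _ hd
      unfold cS
      rw [if_neg h, if_neg hd, zero_mul]
    · intro h1; exact absurd h1m h1

variable {ι : Type} [Fintype ι] [DecidableEq ι]

lemma Th_ne_zero {q n : Eis} (h : Th q n ≠ 0) : Squarefree n ∧ IsCoprime n q := by
  unfold Th at h
  split_ifs at h with h1
  · exact h1
  · exact absurd rfl h

/-- the Gauss side only sees the entries coprime to `g` -/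
lemma sqc_cv_congr {q g : Eis} {A B : ι → Eis → ℂ}
    (h : ∀ i b, IsPrim b → IsCoprime b g → A i b = B i b) :
    sqc (q * g) (cv A) = sqc (q * g) (cv B) := by
  funext n
  unfold sqc
  by_cases hT : Th (q * g) n = 0
  · rw [hT, zero_mul, zero_mul]
  · have hc : IsCoprime n g := (Th_ne_zero hT).2.of_mul_right_right
    congr 1
    unfold cv
    refine Finset.sum_congr rfl fun x hx => ?_
    rw [mem_Tu] at hx
    refine Finset.prod_congr rfl fun i _ => h i _ (hx.1 i) ?_
    refine hc.of_isCoprime_of_dvd_left ?_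
    rw [← hx.2]
    exact Finset.dvd_prod_of_mem _ (Finset.mem_univ i)

lemma Tu_dvd {g : Eis} {x : ι → Eis} (hx : x ∈ Tu ι g) (i : ι) : x i ∣ g := by
  rw [mem_Tu] at hx
  rw [← hx.2]
  exact Finset.dvd_prod_of_mem _ (Finset.mem_univ i)

/-- **the subsequence of the multiples of `g`** -/
theorem sub_alf {h : ℝ → ℝ} {s : ι → Pc} (hs : ∀ i, (s i).OK) (z D0 : ℝ) (f : ι → Bool)
    (q : Eis) {g : Eis} (hg : IsPrim g) (n : Eis) :
    sqc (q * g) (sub (alf z D0 h s f) g) n =
      ∑ x ∈ Tu ι g, scS s x *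
        sqc (q * g) (alW h (shS s x) (fun i => WS z D0 (f i) (x i))) n := by
  classical
  by_cases hT : Th (q * g) n = 0
  · unfold sqc
    rw [hT, zero_mul]
    symm
    refine Finset.sum_eq_zero fun x _ => ?_
    ring
  by_cases hn : IsPrim n
  swap
  · unfold sqc alW alf sub
    rw [cv_not_prim (fun h0 => hn (h0.of_mul_left hg)), mul_zero]
    symm
    refine Finset.sum_eq_zero fun x _ => ?_
    rw [cv_not_prim hn]; ring
  have hc : IsCoprime n g := (Th_ne_zero hT).2.of_mul_right_right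
  unfold sqc sub alf
  rw [cv_mul _ hg hn hc.symm, Finset.mul_sum]
  refine Finset.sum_congr rfl fun x hx => ?_
  have hxp : ∀ i, IsPrim (x i) := fun i => ((mem_Tu).1 hx).1 i
  have key : cv (fun i => CM106.sub (fpc z D0 h (s i) (f i)) (x i)) n =
      scS s x * alW h (shS s x) (fun i => WS z D0 (f i) (x i)) n := by
    unfold cv alW cv scS
    rw [Finset.mul_sum]
    refine Finset.sum_congr rfl fun y hy => ?_
    rw [mem_Tu] at hy
    rw [← Finset.prod_mul_distrib]
    refine Finset.prod_congr rfl fun i _ => ?_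
    have hyn : y i ∣ n := by
      rw [← hy.2]; exact Finset.dvd_prod_of_mem _ (Finset.mem_univ i)
    have hci : IsCoprime (x i) (y i) :=
      (hc.symm.of_isCoprime_of_dvd_left (Tu_dvd hx i)).of_isCoprime_of_dvd_right hyn
    show fpc z D0 h (s i) (f i) (x i * y i) = _
    unfold fpc
    rw [pc_mul h (hs i).ch (hs i).Y0 (hxp i), pc_sub_rough (s i) hci,
      fw_mul (hxp i) (hy.1 i) hci]
    unfold shS
    ring
  rw [key]
  ring

end Crest.Agent.R017.Leg381
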