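import Crest.Agent.R017.LegK2_545

/-!
# Row 17, RG3, every kernel (helper545): list form of the splitting (helper381's `Leg3`)

* `SFK Kn z D0 q P h l ps` : the cube-free second moment of a flagged list, kernel `Kn`
* `leg_list`
-/

set_option autoImplicit false
set_option linter.unusedSectionVars false
set_option linter.unusedVariables false

noncomputable section

open Complex
open scoped ComplexConjugate

namespace Crest.Agent.R017.LegK545

open Crest.Agent.R012 Crest.Agent.R012.Eis Crest.Agent.R012.LS2 Crest.Agent.R012.Gauss880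
open Crest.Agent.R012.Mob705
open Crest.Agent.R012.Div277 (tau dvs mem_dvs tau_le_rpow)
open Crest.Agent.R017.CM106 Crest.Agent.R017.HP842 Crest.Agent.R017.FE47
open Crest.Agent.R017.End699 Crest.Agent.R017.XC858
open Crest.Agent.R017.B770
open Crest.Agent.R017.Prov71
open Crest.Agent.R017.Rough381
open Crest.Agent.R017.Leg381 hiding phl MF_phl cell_bound_f leg_split leg_list

variable {Kn : Eis → Eis → ℂ}

/-- the cube-free second moment of a flagged list, kernel `Kn` -/
def SFK (Kn : Eis → Eis → ℂ) (z D0 : ℝ) (q : Eis) (P : DPar) (h : ℝ → ℝ) (l : ℝ)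
    (ps : List Pf) : ℝ :=
  VK Kn (Real.exp l) (sqc q (alF z D0 P h ps))

lemma SFK_Kg (z D0 : ℝ) (q : Eis) (P : DPar) (h : ℝ → ℝ) (l : ℝ) (ps : List Pf) :
    SFK Kg z D0 q P h l ps = SF z D0 q P h l ps := rfl

set_option maxHeartbeats 1600000 in
/-- **the splitting, list form** -/
theorem leg_list (hKn : Ker Kn) {h : ℝ → ℝ} {c : ℝ} (hpu : PU h c) (N : ℕ) {ε : ℝ} (hε : 0 < ε) {M : ℝ}
    (hM : 0 ≤ M) : ∃ C r : ℝ, 1 ≤ C ∧ 0 ≤ r ∧ ∀ X : ℝ, 3 ≤ X → ∀ (P : DPar), P.OK →
    ∀ (z D0 : ℝ) (q : Eis), 1 ≤ D0 →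
    ∀ (k : ℝ) (ps : List Pf), 0 ≤ k → k ≤ Real.log X → ps.length ≤ N →
    (∀ p ∈ ps, 0 ≤ p.1.z ∧ p.1.z ≤ Real.log X) → ∀ Bd : ℝ, 0 ≤ Bd →
    (∀ (l : ℝ) (ps' : List Pf), 0 ≤ l → List.Forall₂ (ChF D0 r) ps' ps →
      |l - (k + LF ps - LF ps')| ≤ r →
      SFK Kn z D0 q P h l ps' ≤ Bd * cstF ps' ps ^ M * Real.exp (LF ps' - LF ps)) →
    SFK Kn z D0 q P h k ps ≤ C * X ^ ε * Bd := by
  classical
  obtain ⟨R₀, hR₀⟩ := bump_of_cs hpu.cs
  set R := max R₀ 0 with hRd
  have hR0 : 0 ≤ R := le_max_right _ _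
  have hR : ∀ u, cx h u ≠ 0 → |u| ≤ R := fun u hu => (hR₀ u hu).trans (le_max_left _ _)
  have hh : Bump h := ⟨R, hR⟩
  obtain ⟨C₁, hC₁, H⟩ := leg_split hKn hpu hR0 hR M
  -- constants
  set η := ε / (8 * ((N : ℝ) + 1) * ((N : ℝ) + 1)) with hη
  have hN0 : (0 : ℝ) ≤ N := Nat.cast_nonneg _
  have hη0 : 0 < η := by positivity
  obtain ⟨C₂, hC₂, hτ⟩ := tau_le_rpow hη0
  set c₀ : ℝ := Real.log 2 + R + 1 with hc₀
  have hc₀0 : 0 ≤ c₀ := by have := Real.log_nonneg (by norm_num : (1 : ℝ) ≤ 2); linarith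
  obtain ⟨C₃, hC₃, hlog⟩ := log_pow_le (ε := ε / 4) (by linarith) (2 * N) hc₀0
  set A : ℝ := Real.exp 1 * (2 * Real.exp R) with hA
  have hA1 : 1 ≤ A := by
    have h1 : 1 ≤ Real.exp 1 := Real.one_le_exp zero_le_one
    have h2 : 1 ≤ Real.exp R := Real.one_le_exp hR0
    nlinarith
  set r : ℝ := N * (2 * R + 2) with hr
  have hr0 : 0 ≤ r := by positivity
  have h2r : 2 * R + 2 ≤ r + (2 * R + 2) := by linarith
  refine ⟨C₁ ^ N * ((C₂ * A ^ η) ^ 2) ^ N * C₃ * (C₂ ^ N * (A ^ N) ^ (η * N)) * Real.exp r,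
    r + (2 * R + 2), ?_, by linarith, ?_⟩
  · have h1 : 1 ≤ C₁ ^ N := one_le_pow₀ hC₁
    have h0 : 1 ≤ A ^ η := Real.one_le_rpow hA1 hη0.le
    have h0' : 1 ≤ ((C₂ * A ^ η) ^ 2) ^ N :=
      one_le_pow₀ (one_le_pow₀ (one_le_mul_of_one_le_of_one_le hC₂ h0))
    have h2 : 1 ≤ C₂ ^ N := one_le_pow₀ hC₂
    have h3 : 1 ≤ (A ^ N) ^ (η * N) := Real.one_le_rpow (one_le_pow₀ hA1) (by positivity)
    have h4 : 1 ≤ Real.exp r := Real.one_le_exp hr0
    have h5 : 1 ≤ C₁ ^ N * ((C₂ * A ^ η) ^ 2) ^ N * C₃ :=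
      one_le_mul_of_one_le_of_one_le (one_le_mul_of_one_le_of_one_le h1 h0') hC₃
    have h6 : 1 ≤ C₂ ^ N * (A ^ N) ^ (η * N) := one_le_mul_of_one_le_of_one_le h2 h3
    exact one_le_mul_of_one_le_of_one_le (one_le_mul_of_one_le_of_one_le h5 h6) h4
  intro X hX P hP z D0 q hD0 k ps hk hkX hlen hps Bd hBd hyp
  have hX1 : (1 : ℝ) ≤ X := by linarith
  have hX0 : (0 : ℝ) < X := by linarith
  set n := ps.length with hn
  have hnN : (n : ℝ) ≤ N := by exact_mod_cast hlen
  set s : Fin n → Pc := fun i => (ps.get i).1.pc P with hs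
  set f : Fin n → Bool := fun i => (ps.get i).2 with hf
  have hsOK : ∀ i, (s i).OK := fun i => Pq.ok hP _
  -- the support bound
  set X' : ℕ := ⌈X * Real.exp R⌉₊ with hX'
  have h1R : 1 ≤ Real.exp R := Real.one_le_exp hR0
  have hXR : 1 ≤ X * Real.exp R := by nlinarith
  have hX'1 : 1 ≤ X' := by
    rw [hX']
    exact Nat.one_le_ceil_iff.2 (by linarith)
  have hX'2 : (X' : ℝ) ≤ 2 * Real.exp R * X := by
    have := (Nat.ceil_lt_add_one (by linarith : 0 ≤ X * Real.exp R)).le
    rw [hX']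
    linarith
  have hsX : ∀ i, (s i).Y * Real.exp R ≤ X' := by
    intro i
    refine le_trans ?_ (Nat.le_ceil _)
    refine mul_le_mul_of_nonneg_right ?_ (Real.exp_pos _).le
    show Real.exp (ps.get i).1.z ≤ X
    calc Real.exp (ps.get i).1.z ≤ Real.exp (Real.log X) :=
          Real.exp_le_exp.2 (hps _ (List.get_mem ps i)).2
      _ = X := Real.exp_log hX0
  have hseq : alF z D0 P h ps = alf z D0 h s f := alF_get z D0 P h ps
  -- the divisor bound
  set D : ℝ := C₂ ^ N * (A ^ N) ^ (η * N) * X ^ (ε / 2) with hD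
  have hD00 : 0 ≤ D := by positivity
  have hlogX' : Real.log X' ≤ Real.log X + (Real.log 2 + R) := by
    calc Real.log X' ≤ Real.log (2 * Real.exp R * X) :=
          Real.log_le_log (by exact_mod_cast hX'1) hX'2
      _ = Real.log X + (Real.log 2 + R) := by
          rw [Real.log_mul (by positivity) hX0.ne', Real.log_mul two_ne_zero
            (Real.exp_pos _).ne', Real.log_exp]
          ring
  -- the bound for the coefficients
  set T : ℝ := C₂ * A ^ η * X ^ η with hT
  have hXη : 1 ≤ X ^ η := Real.one_le_rpow hX1 hη0.le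
  have hT1 : 1 ≤ T := one_le_mul_of_one_le_of_one_le
    (one_le_mul_of_one_le_of_one_le hC₂ (Real.one_le_rpow hA1 hη0.le)) hXη
  have hTτ : ∀ x : Eis, x ≠ 0 → (nm x : ℝ) ≤ X' → (tau x : ℝ) ≤ T := by
    intro x hx hxX
    refine (hτ x hx).trans ?_
    rw [hT, mul_assoc]
    refine mul_le_mul_of_nonneg_left ?_ (by linarith)
    rw [← Real.mul_rpow (by linarith) hX0.le]
    refine Real.rpow_le_rpow (Nat.cast_nonneg _) (hxX.trans (hX'2.trans ?_)) hη0.le
    rw [hA]
    have h1 : 1 ≤ Real.exp 1 := Real.one_le_exp zero_le_one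
    have h2 : 0 ≤ 2 * Real.exp R * X := by positivity
    nlinarith
  have key := H (Fin n) s hsOK X' hX'1 hsX z D0 f q (Real.exp k) (Real.exp_pos _).le
    (Bd * Real.exp r) D T (mul_nonneg hBd (Real.exp_pos _).le) hD00 hT1 hTτ
    (by
      intro j hj0 hj
      rw [Fintype.card_fin] at hj ⊢
      have hj1 : (1 : ℝ) ≤ nm j := by exact_mod_cast nm_pos.2 hj0
      have h1 : (nm j : ℝ) ≤ A ^ N * X ^ ((N : ℝ) + 1) := by
        have h2 : Real.exp k ≤ X := by
          calc Real.exp k ≤ Real.exp (Real.log X) := Real.exp_le_exp.2 hkX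
            _ = X := Real.exp_log hX0
        have h3 : Real.exp 1 * X' ≤ A * X := by
          rw [hA]
          have := mul_le_mul_of_nonneg_left hX'2 (Real.exp_pos 1).le
          linarith
        have h4 : 1 ≤ A * X := by nlinarith
        calc (nm j : ℝ) ≤ Real.exp k * (Real.exp 1 * X') ^ n := hj
          _ ≤ X * (A * X) ^ n := by
              refine mul_le_mul h2 (pow_le_pow_left₀ (by positivity) h3 n) (by positivity) hX0.le
          _ ≤ X * (A * X) ^ N :=
              mul_le_mul_of_nonneg_left (pow_le_pow_right₀ h4 hlen) hX0.le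
          _ = A ^ N * X ^ ((N : ℝ) + 1) := by
              rw [mul_pow, Real.rpow_add hX0, Real.rpow_natCast, Real.rpow_one]; ring
      have h5 : (tau j : ℝ) ≤ C₂ * (nm j : ℝ) ^ η := hτ j hj0
      have h6 : (1 : ℝ) ≤ C₂ * (nm j : ℝ) ^ η := by
        have := Real.one_le_rpow hj1 hη0.le
        nlinarith
      calc (tau j : ℝ) ^ n ≤ (C₂ * (nm j : ℝ) ^ η) ^ n :=
            pow_le_pow_left₀ (Nat.cast_nonneg _) h5 n
        _ ≤ (C₂ * (nm j : ℝ) ^ η) ^ N := pow_le_pow_right₀ h6 hlen
        _ = C₂ ^ N * (nm j : ℝ) ^ (η * N) := by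
            rw [mul_pow, ← Real.rpow_natCast ((nm j : ℝ) ^ η), ← Real.rpow_mul (by positivity)]
        _ ≤ C₂ ^ N * (A ^ N * X ^ ((N : ℝ) + 1)) ^ (η * N) := by
            refine mul_le_mul_of_nonneg_left ?_ (by positivity)
            exact Real.rpow_le_rpow (by positivity) h1 (by positivity)
        _ = C₂ ^ N * ((A ^ N) ^ (η * N) * X ^ (((N : ℝ) + 1) * (η * N))) := by
            rw [Real.mul_rpow (by positivity) (by positivity), ← Real.rpow_mul hX0.le]
        _ ≤ C₂ ^ N * ((A ^ N) ^ (η * N) * X ^ (ε / 2)) := by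
            refine mul_le_mul_of_nonneg_left ?_ (by positivity)
            refine mul_le_mul_of_nonneg_left ?_ (by positivity)
            refine Real.rpow_le_rpow_of_exponent_le hX1 ?_
            have e1 : ((N : ℝ) + 1) * (η * N) = ε / 8 * (N / (N + 1)) := by
              rw [hη]
              have : ((N : ℝ) + 1) ≠ 0 := by positivity
              field_simp
            rw [e1]
            have e2 : (N : ℝ) / (N + 1) ≤ 1 := by
              rw [div_le_one (by positivity)]; linarith
            nlinarith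
        _ = D := by rw [hD]; ring)
    (by
      intro b g m Y t hm hc1 hc2 hc3 hc4 hY
      -- the child list
      set gg : Fin n → Pf := fun i => (mkc (ps.get i).1 (vk s b i) (Y i) (t i), g i) with hgg
      set ps' := List.ofFn gg with hps'
      set l := k + ∑ i, ((m i : ℝ) + 1) with hl
      have hY0 : ∀ i, 0 < Y i := fun i => by have := (hY i).1; linarith
      have hlogs : ∀ i, Real.log (s i).Y = (ps.get i).1.z := fun i => Real.log_exp _
      have hgz : ∀ i, (gg i).1.z = Real.log (Y i) := fun i => rfl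
      have hm0 : ∀ i, (0 : ℝ) ≤ m i := fun i => Nat.cast_nonneg _
      have hup : ∀ i, Real.log (Y i) + ((m i : ℝ) + 1) ≤ (ps.get i).1.z + (2 * R + 2) := by
        intro i
        have := (abs_le.1 (hY i).2).2
        rw [hlogs i] at this
        linarith
      have hlo : ∀ i, (ps.get i).1.z - (2 * R + 1) ≤ Real.log (Y i) + ((m i : ℝ) + 1) := by
        intro i
        have := (abs_le.1 (hY i).2).1
        rw [hlogs i] at this
        linarith
      have hcardn : ∑ _i : Fin n, (2 * R + 2) = n * (2 * R + 2) := by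
        rw [Finset.sum_const, Finset.card_univ, Fintype.card_fin, nsmul_eq_mul]
      have hnr : (n : ℝ) * (2 * R + 2) ≤ r := by
        rw [hr]; exact mul_le_mul_of_nonneg_right hnN (by linarith)
      have hLF' : LF ps' = ∑ i, Real.log (Y i) := by
        rw [hps', LF_ofFn]
        exact Finset.sum_congr rfl fun i _ => hgz i
      have hLF : LF ps = ∑ i, (ps.get i).1.z := LF_get ps
      have hsum1 : LF ps' + ∑ i, ((m i : ℝ) + 1) ≤ LF ps + r := by
        rw [hLF', hLF, ← Finset.sum_add_distrib]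
        calc ∑ i, (Real.log (Y i) + ((m i : ℝ) + 1)) ≤ ∑ i, ((ps.get i).1.z + (2 * R + 2)) :=
              Finset.sum_le_sum fun i _ => hup i
          _ = (∑ i, (ps.get i).1.z) + n * (2 * R + 2) := by rw [Finset.sum_add_distrib, hcardn]
          _ ≤ _ := by linarith
      have hsum2 : LF ps - r ≤ LF ps' + ∑ i, ((m i : ℝ) + 1) := by
        rw [hLF', hLF, ← Finset.sum_add_distrib]
        calc (∑ i, (ps.get i).1.z) - r ≤ (∑ i, (ps.get i).1.z) - n * (2 * R + 2) := by linarith
          _ = ∑ i, ((ps.get i).1.z - (2 * R + 2)) := by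
              rw [Finset.sum_sub_distrib, hcardn]
          _ ≤ ∑ i, (Real.log (Y i) + ((m i : ℝ) + 1)) :=
              Finset.sum_le_sum fun i _ => by have := hlo i; linarith
      have hsum0 : 0 ≤ ∑ i, ((m i : ℝ) + 1) :=
        Finset.sum_nonneg fun i _ => by have := hm0 i; linarith
      have hl0 : 0 ≤ l := by rw [hl]; linarith
      have hchild : List.Forall₂ (ChF D0 (r + (2 * R + 2))) ps' ps := by
        refine forall₂_ofFn' ps gg fun i => ⟨rfl, rfl, ?_, ?_, ?_, ?_, ?_, ?_, ?_⟩
        · intro hu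
          show vk s b i = .one
          unfold vk
          have hu' : (s i).u = .one := hu
          rw [if_neg (by rw [hu']; simp), hu']
        · rw [hgz i]
          exact Real.log_nonneg (hY i).1
        · rw [hgz i]
          have := hup i
          have := hm0 i
          linarith
        · intro hfi
          refine ⟨(hc1 i hfi).1, ?_⟩
          have h9 : (m i : ℝ) = 0 := by exact_mod_cast (hc1 i hfi).2
          rw [hgz i]
          have := hlo i
          linarith
        · intro hgi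
          rw [hgz i]
          have h10 := hlo i
          have hlD : 0 ≤ Real.log D0 := Real.log_nonneg hD0
          cases hfi : f i with
          | true =>
            have h9 : (m i : ℝ) = 0 := by exact_mod_cast (hc1 i hfi).2
            linarith
          | false =>
            have h9 := hc2 i hfi hgi
            have h11 : (m i : ℝ) ≤ Real.log D0 := by
              rw [Real.le_log_iff_exp_le (by linarith)]; exact h9
            linarith
        · intro hgi
          rw [hgz i]
          have h10 := hup i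
          have h9 := hc3 i hgi
          have h11 : Real.log D0 < (m i : ℝ) + 1 := by
            rw [Real.log_lt_iff_lt_exp (by linarith)]; exact h9
          linarith
        · rw [hgz i]
          have h10 := hlo i
          have h9 := hc4 hD0 i
          have h11 : (m i : ℝ) ≤ Real.log (D0 * D0) := by
            rw [Real.le_log_iff_exp_le (by nlinarith)]; exact h9
          rw [Real.log_mul (by linarith) (by linarith)] at h11
          linarith
      have hlin : |l - (k + LF ps - LF ps')| ≤ r + (2 * R + 2) := by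
        rw [hl, abs_le]
        constructor <;> linarith
      have h1 := hyp l ps' hl0 hchild hlin
      have e1 : SFK Kn z D0 q P h l ps' = VK Kn (Real.exp k * Real.exp (∑ i, ((m i : ℝ) + 1)))
          (sqc q (alf z D0 h (cellP s (vk s b) Y t) g)) := by
        unfold SFK
        rw [hl, Real.exp_add, hps', alF_ofFn]
        congr 3
        funext i
        exact mkc_pc P (ps.get i).1 (vk s b i) (hY0 i) (t i)
      rw [← e1]
      refine h1.trans ?_
      have e2 : cstF ps' ps = ∏ i, (1 + |t i - (s i).t|) := by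
        rw [hps', cstF_ofFn]
        rfl
      have e3 : cstF ps' ps ^ M = ∏ i, (1 + |t i - (s i).t|) ^ M := by
        rw [e2, Real.finsetProd_rpow _ _ fun i _ => by positivity]
      rw [e3]
      have h3 : Real.exp (LF ps' - LF ps) ≤ Real.exp r * Real.exp (-∑ i, ((m i : ℝ) + 1)) := by
        rw [← Real.exp_add]
        exact Real.exp_le_exp.2 (by linarith)
      have h4 : 0 ≤ ∏ i, (1 + |t i - (s i).t|) ^ M :=
        Finset.prod_nonneg fun i _ => Real.rpow_nonneg (by positivity) _
      calc Bd * (∏ i, (1 + |t i - (s i).t|) ^ M) * Real.exp (LF ps' - LF ps)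
          ≤ Bd * (∏ i, (1 + |t i - (s i).t|) ^ M) *
            (Real.exp r * Real.exp (-∑ i, ((m i : ℝ) + 1))) :=
            mul_le_mul_of_nonneg_left h3 (mul_nonneg hBd h4)
        _ = _ := by ring)
  show VK Kn (Real.exp k) (sqc q (alF z D0 P h ps)) ≤ _
  rw [hseq]
  refine key.trans ?_
  rw [Fintype.card_fin]
  have h1 : (C₁ * T ^ 2 * (Real.log X' + 1) ^ 2) ^ n ≤
      C₁ ^ N * (((C₂ * A ^ η) ^ 2) ^ N * X ^ (ε / 4)) * (C₃ * X ^ (ε / 4)) := by
    have h2 : 0 ≤ Real.log X' := Real.log_nonneg (by exact_mod_cast hX'1)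
    have h3 : 1 ≤ C₁ * T ^ 2 * (Real.log X' + 1) ^ 2 :=
      one_le_mul_of_one_le_of_one_le (one_le_mul_of_one_le_of_one_le hC₁ (one_le_pow₀ hT1))
        (one_le_pow₀ (by linarith))
    have h4 : (T ^ 2) ^ N ≤ ((C₂ * A ^ η) ^ 2) ^ N * X ^ (ε / 4) := by
      rw [hT, mul_pow, mul_pow ((C₂ * A ^ η) ^ 2) ((X ^ η) ^ 2) N]
      refine mul_le_mul_of_nonneg_left ?_ (by positivity)
      rw [← pow_mul, ← Real.rpow_natCast (X ^ η), ← Real.rpow_mul hX0.le]
      refine Real.rpow_le_rpow_of_exponent_le hX1 ?_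
      push_cast
      rw [hη, div_mul_eq_mul_div, div_le_div_iff₀ (by positivity) (by norm_num)]
      nlinarith [mul_nonneg hε.le hN0, mul_nonneg (mul_nonneg hε.le hN0) hN0]
    calc (C₁ * T ^ 2 * (Real.log X' + 1) ^ 2) ^ n ≤ (C₁ * T ^ 2 * (Real.log X' + 1) ^ 2) ^ N :=
          pow_le_pow_right₀ h3 hlen
      _ = C₁ ^ N * (T ^ 2) ^ N * (Real.log X' + 1) ^ (2 * N) := by rw [mul_pow, mul_pow, pow_mul]
      _ ≤ C₁ ^ N * (((C₂ * A ^ η) ^ 2) ^ N * X ^ (ε / 4)) * (Real.log X + c₀) ^ (2 * N) := by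
          refine mul_le_mul (mul_le_mul_of_nonneg_left h4 (by positivity)) ?_ (by positivity)
            (by positivity)
          exact pow_le_pow_left₀ (by linarith) (by rw [hc₀]; linarith) _
      _ ≤ _ := mul_le_mul_of_nonneg_left (hlog X hX1) (by positivity)
  have h5 : 0 ≤ D * (Bd * Real.exp r) := by positivity
  refine (mul_le_mul_of_nonneg_right h1 h5).trans (le_of_eq ?_)
  rw [hD]
  have e : X ^ ε = X ^ (ε / 4) * X ^ (ε / 4) * X ^ (ε / 2) := by
    rw [← Real.rpow_add hX0, ← Real.rpow_add hX0]; congr 1; ring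
  rw [e]
  ring

end Crest.Agent.R017.LegK545
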