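import Crest.Agent.R017.LegK6_545
import Crest.Agent.R017.Leg9_381

/-!
# Row 17, RG3, every kernel (helper545): one cell (helper381's `Leg7`)

* `cell_bound_g`
-/

set_option autoImplicit false
set_option linter.unusedSectionVars false
set_option linter.unusedVariables false
set_option maxHeartbeats 3200000

noncomputable section

open Complex
open scoped ComplexConjugate

namespace Crest.Agent.R017.LegK545

open Crest.Agent.R012 Crest.Agent.R012.Eis Crest.Agent.R012.LS2 Crest.Agent.R012.Gauss880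
open Crest.Agent.R012.Mob705
open Crest.Agent.R012.Div277 (tau dvs mem_dvs isPrim_of_mem_dvs dvd_of_mem_dvs tau_le_rpow)
open Crest.Agent.R017.CM106 Crest.Agent.R017.HP842 Crest.Agent.R017.FE47
open Crest.Agent.R017.End699 Crest.Agent.R017.XC858
open Crest.Agent.R017.HSep813 (gw norm_gw_le MF sep_list)
open Crest.Agent.R017.Prov71 (CubeFree)
open Crest.Agent.R017.TP320 (mul_div_of_mem mul_div_left')
open Crest.Agent.R017.Rough381
open Crest.Agent.R017.Leg381 hiding phl MF_phl cell_bound_f leg_split leg_list gen_split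
  sub_list cell_bound_g merge_split merge_list

variable {ι : Type} [Fintype ι] [DecidableEq ι] {Kn : Eis → Eis → ℂ}

/-- **one cell**: separation of the lengths and counting, general index sets -/
theorem cell_bound_g (Kn : Eis → Eis → ℂ) {h : ℝ → ℝ} {c : ℝ} (hpu : PU h c) {R : ℝ} (hR0 : 0 ≤ R)
    (hR : ∀ u, cx h u ≠ 0 → |u| ≤ R) (M : ℝ) : ∃ C : ℝ, 0 ≤ C ∧
    ∀ (ι : Type) [Fintype ι] [DecidableEq ι] (s : ι → Pc), (∀ i, (s i).OK) →
    ∀ (z D0 : ℝ) (f : ι → Bool) (q : Eis) (Λ : ℝ), 0 ≤ Λ →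
    ∀ (v : ι → UT) (n : ι → ℕ) (β : Type) (K : Finset β) (fr : β → Eis) (e : β → ι → Eis),
    (∀ p ∈ K, fr p ∈ bl Λ ∧ CubeFree (fr p) ∧ ∀ i, e p i ≠ 0 ∧
      |Real.log (nm (e p i)) - n i| ≤ 1) →
    ∀ B D : ℝ, 0 ≤ B → 0 ≤ D →
    (∀ j : Eis, j ≠ 0 → (nm j : ℝ) ≤ Λ →
      (((by classical exact K.filter (fun p => fr p = j)) : Finset β).card : ℝ) ≤ D) →
    (∀ Y t : ι → ℝ, (∀ i, 1 ≤ Y i ∧ |Real.log (Y i) - (Real.log (s i).Y - n i)| ≤ 2 * R + 1) →
      VK Kn Λ (sqc q (alf z D0 h (cellP s v Y t) f)) ≤ B * ∏ i, (1 + |t i - (s i).t|) ^ M) →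
    ∑ p ∈ K, ‖KS Kn (sqc q (alf z D0 h (cellP s v (fun i => (s i).Y / nm (e p i))
      (fun i => (s i).t)) f)) (fr p)‖ ^ 2 ≤ C ^ Fintype.card ι * (D * B) := by
  classical
  obtain ⟨C, hC, H⟩ := sep_list hpu hR0 hR (ρ := 1) zero_le_one M
  refine ⟨C, hC, ?_⟩
  intro ι _ _ s hs z D0 f q Λ hΛ0 v n β K fr e hK B D hB hD hτ hyp
  -- a common support
  obtain ⟨X, hX⟩ : ∃ X : ℕ, ∀ i, (s i).Y * Real.exp (2 * R + 1) * Real.exp R ≤ X := by
    refine ⟨⌈∑ i, (s i).Y * Real.exp (2 * R + 1) * Real.exp R⌉₊, fun i => ?_⟩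
    refine le_trans ?_ (Nat.le_ceil _)
    exact Finset.single_le_sum (f := fun i => (s i).Y * Real.exp (2 * R + 1) * Real.exp R)
      (fun i _ => by have := (hs i).Y0; positivity) (Finset.mem_univ i)
  have h1R : (1 : ℝ) ≤ Real.exp (2 * R + 1) := Real.one_le_exp (by linarith)
  have hT : ∀ b ∈ Fintype.piFinset (fun _ : ι => primBall X), ∀ i, b i ≠ 0 := by
    intro b hb i
    rw [Fintype.mem_piFinset] at hb
    exact (mem_primBall.1 (hb i)).2.ne_zero
  -- lengths on the grid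
  have hYX : ∀ (Y : ι → ℝ), (∀ i, 0 < Y i ∧
      |Real.log (Y i) - (Real.log (s i).Y - n i)| ≤ 2 * R + 1) →
      ∀ i, Y i * Real.exp R ≤ X := by
    intro Y hY i
    refine le_trans ?_ (hX i)
    refine mul_le_mul_of_nonneg_right ?_ (Real.exp_pos _).le
    obtain ⟨h1, h2⟩ := hY i
    have h3 := (abs_le.1 h2).2
    have h4 : (0 : ℝ) ≤ n i := Nat.cast_nonneg _
    calc Y i = Real.exp (Real.log (Y i)) := (Real.exp_log h1).symm
      _ ≤ Real.exp (Real.log (s i).Y + (2 * R + 1)) := Real.exp_le_exp.2 (by linarith)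
      _ = (s i).Y * Real.exp (2 * R + 1) := by rw [Real.exp_add, Real.exp_log (hs i).Y0]
  have key := H ι β K (Fintype.piFinset fun _ : ι => primBall X) hT
    (fun p => phl Kn z D0 s v f q (fr p)) (fun p i => (s i).Y / nm (e p i))
    (fun i => Real.log (s i).Y - n i) (fun i => (s i).t) (D * B) (mul_nonneg hD hB)
    (by
      intro p hp i
      obtain ⟨_, _, h3⟩ := hK p hp
      have h7 : (0 : ℝ) < nm (e p i) := by exact_mod_cast nm_pos.2 (h3 i).1
      show |Real.log ((s i).Y / nm (e p i)) - (Real.log (s i).Y - n i)| ≤ 1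
      rw [Real.log_div (hs i).Y0.ne' h7.ne']
      have h8 := (h3 i).2
      have h9 : Real.log (s i).Y - Real.log (nm (e p i)) - (Real.log (s i).Y - n i) =
          -(Real.log (nm (e p i)) - n i) := by ring
      rw [h9, abs_neg]
      exact h8)
    (by
      intro m τ hm
      have hY : ∀ i, 0 < Real.exp (c * m i) ∧
          |Real.log (Real.exp (c * m i)) - (Real.log (s i).Y - n i)| ≤ 2 * R + 1 := by
        intro i
        refine ⟨Real.exp_pos _, ?_⟩
        rw [Real.log_exp]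
        exact hm i
      have e1 : ∀ p ∈ K, ‖MF h (Fintype.piFinset fun _ : ι => primBall X)
          (phl Kn z D0 s v f q (fr p)) (fun i => Real.exp (c * m i))
          (fun i => (s i).t + τ i)‖ ^ 2 =
          ‖KS Kn (sqc q (alf z D0 h (cellP s v (fun i => Real.exp (c * m i))
            (fun i => (s i).t + τ i)) f)) (fr p)‖ ^ 2 := by
        intro p _
        rw [MF_phl hR z D0 s v f q _ (fun i => (hY i).1) (hYX _ hY)]
      rw [Finset.sum_congr rfl e1]
      set w := sqc q (alf z D0 h (cellP s v (fun i => Real.exp (c * m i))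
        (fun i => (s i).t + τ i)) f) with hw
      have hmaps : ∀ p ∈ K, fr p ∈ (bl Λ).filter CubeFree := by
        intro p hp
        obtain ⟨h1, h2, _⟩ := hK p hp
        exact Finset.mem_filter.2 ⟨h1, h2⟩
      have h7 : ∑ p ∈ K, ‖KS Kn w (fr p)‖ ^ 2 ≤ D * VK Kn Λ w := by
        rw [← Finset.sum_fiberwise_of_maps_to hmaps]
        unfold VK
        rw [Finset.mul_sum]
        refine Finset.sum_le_sum fun j hj => ?_
        have hj' := Finset.mem_filter.1 hj
        have hj2 := (mem_bl hΛ0).1 hj'.1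
        rw [Finset.sum_congr rfl (g := fun _ => ‖KS Kn w j‖ ^ 2) (fun x hx => by
          rw [(Finset.mem_filter.mp hx).2]), Finset.sum_const, nsmul_eq_mul]
        refine mul_le_mul_of_nonneg_right ?_ (by positivity)
        have := hτ j hj2.1 hj2.2
        convert this
      refine h7.trans ?_
      have h8 := hyp (fun i => Real.exp (c * m i)) (fun i => (s i).t + τ i)
        (fun i => ⟨Real.one_le_exp (mul_nonneg hpu.cpos.le (Nat.cast_nonneg _)), (hY i).2⟩)
      have h9 : ∏ i, (1 + |(s i).t + τ i - (s i).t|) ^ M = ∏ i, (1 + |τ i|) ^ M := by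
        refine Finset.prod_congr rfl fun i _ => ?_
        rw [add_sub_cancel_left]
      rw [h9] at h8
      calc D * VK Kn Λ w ≤ D * (B * ∏ i, (1 + |τ i|) ^ M) := mul_le_mul_of_nonneg_left h8 hD
        _ = D * B * ∏ i, (1 + |τ i|) ^ M := by ring)
  refine le_trans (le_of_eq ?_) key
  refine Finset.sum_congr rfl fun p hp => ?_
  obtain ⟨_, _, h3⟩ := hK p hp
  rw [MF_phl hR z D0 s v f q _ ?_ ?_]
  · intro i
    have h7 : (0 : ℝ) < nm (e p i) := by exact_mod_cast nm_pos.2 (h3 i).1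
    exact div_pos (hs i).Y0 h7
  · intro i
    have h7 : (1 : ℝ) ≤ nm (e p i) := by exact_mod_cast nm_pos.2 (h3 i).1
    have hYi := (hs i).Y0
    refine le_trans ?_ (hX i)
    refine mul_le_mul_of_nonneg_right ?_ (Real.exp_pos _).le
    calc (s i).Y / nm (e p i) ≤ (s i).Y := div_le_self hYi.le h7
      _ = (s i).Y * 1 := (mul_one _).symm
      _ ≤ _ := mul_le_mul_of_nonneg_left h1R hYi.le

end Crest.Agent.R017.LegK545
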