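import Crest.Agent.R017.LegK7_545

/-!
# Row 17, RG3, every kernel (helper545): the merged rule, family form (helper381's `Leg8`)

* `merge_split`
-/

set_option autoImplicit false
set_option linter.unusedSectionVars false
set_option linter.unusedVariables false
set_option maxHeartbeats 3200000

noncomputable section

open Complex
open scoped ComplexConjugate

namespace Crest.Agent.R017.LegK545

open Crest.Agent.R012 Crest.Agent.R012.Eis Crest.Agent.R012.LS2 Crest.Agent.R012.Gauss880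
open Crest.Agent.R012.Mob705
open Crest.Agent.R012.Div277 (tau dvs mem_dvs isPrim_of_mem_dvs dvd_of_mem_dvs tau_le_rpow)
open Crest.Agent.R017.CM106 Crest.Agent.R017.HP842 Crest.Agent.R017.FE47
open Crest.Agent.R017.End699 Crest.Agent.R017.XC858
open Crest.Agent.R017.HSep813 (gw norm_gw_le MF sep_list)
open Crest.Agent.R017.Prov71 (CubeFree)
open Crest.Agent.R017.TP320 (mul_div_of_mem mul_div_left')
open Crest.Agent.R017.Rough381
open Crest.Agent.R017.Leg381 hiding phl MF_phl cell_bound_f leg_split leg_list gen_split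
  sub_list cell_bound_g merge_split merge_list

variable {ι : Type} [Fintype ι] [DecidableEq ι] {Kn : Eis → Eis → ℂ}

/-- the modulus does not see divisors of the frequency -/
lemma KS_sqc_dvd (hKn : Ker Kn) {q U r : Eis} (hUr : U ∣ r) {w : Eis → ℂ} (hw : ∀ n, w n ≠ 0 → IsPrim n) :
    KS Kn (sqc (q * U) w) r = KS Kn (sqc q w) r := by
  classical
  rw [KS_sqc_eq, KS_sqc_eq]
  refine tsum_congr fun n => ?_
  by_cases h0 : w n = 0
  · rw [h0, zero_mul, zero_mul]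
  have hn := hw n h0
  by_cases hc : IsCoprime r n
  · have h1 : IsCoprime n U := (hc.of_isCoprime_of_dvd_left hUr).symm
    have : Th (q * U) n = Th q n := by
      unfold Th
      by_cases h2 : Squarefree n ∧ IsCoprime n q
      · rw [if_pos h2, if_pos ⟨h2.1, IsCoprime.mul_right h2.2 h1⟩]
      · rw [if_neg h2, if_neg (fun h3 => h2 ⟨h3.1, h3.2.of_mul_right_left⟩)]
    rw [this]
  · have : Kn r n = 0 := hKn.cop r n hn (fun h' => hc h'.symm)
    rw [this]; simp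

open Classical in
/-- **the merged rule, family form** -/
theorem merge_split (hKn : Ker Kn) {h : ℝ → ℝ} {c : ℝ} (hpu : PU h c) {R : ℝ} (hR0 : 0 ≤ R)
    (hR : ∀ u, cx h u ≠ 0 → |u| ≤ R) (M : ℝ) : ∃ C : ℝ, 1 ≤ C ∧
    ∀ (ι : Type) [Fintype ι] [DecidableEq ι] (s : ι → Pc), (∀ i, (s i).OK) →
    ∀ (X : ℕ), 1 ≤ X → (∀ i, (s i).Y * Real.exp R ≤ X) →
    ∀ (z D0 : ℝ) (W cc : (ι → Eis) → ι → Eis → ℂ),
    (∀ u, WSy z D0 (W u) (cc u) (fun _ _ => false)) →
    ∀ (q : Eis) (L : ℝ), 0 ≤ L → ∀ (Us : Finset Eis) (X2 : ℕ), 1 ≤ X2 →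
    (∀ U ∈ Us, IsPrim U ∧ nm U ≤ X2) →
    ∀ B D T : ℝ, 0 ≤ B → 0 ≤ D → 1 ≤ T →
    (∀ U ∈ Us, ∀ u ∈ Tu ι U, ∀ i, ∀ x : Eis, x ≠ 0 → (nm x : ℝ) ≤ X → ‖cc u i x‖ ≤ T) →
    (∀ U ∈ Us, ((Tu ι U).card : ℝ) ≤ T ^ Fintype.card ι) →
    (∀ j : Eis, j ≠ 0 → (nm j : ℝ) ≤ L * (Real.exp 2 * X2 * X) ^ Fintype.card ι →
      (tau j : ℝ) ^ (2 * Fintype.card ι) ≤ D) →
    (∀ (b : ι → Bool) (n m : ι → ℕ) (Y t : ι → ℝ),
      (∃ U ∈ Us, ∃ u ∈ Tu ι U, ∃ x : ι → Eis, ∀ i, IsPrim (x i) ∧ cc u i (x i) ≠ 0 ∧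
        ((n i : ℝ) ≤ Real.log (nm (u i)) ∧ Real.log (nm (u i)) < n i + 1) ∧
        ((m i : ℝ) ≤ Real.log (nm (x i)) ∧ Real.log (nm (x i)) < m i + 1)) →
      (∀ i, 1 ≤ Y i ∧
        |Real.log (Y i) - (Real.log (s i).Y - (n i + m i + 1))| ≤ 2 * R + 1) →
      VK Kn (L * Real.exp (∑ i, ((n i : ℝ) + m i + 2)))
          (sqc q (alf z D0 h (cellP s (vk s b) Y t) (fun _ => false))) ≤
        B * Real.exp (-∑ i, ((m i : ℝ) + 1)) * ∏ i, (1 + |t i - (s i).t|) ^ M) →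
    ∀ σ : (ι → Eis) → ℂ, (∀ U ∈ Us, ∀ u ∈ Tu ι U, ‖σ u‖ ≤ 1) →
    ∑ U ∈ Us, ∑ κ ∈ (bl L).filter (fun κ => CubeFree (κ * U)),
      ‖∑ u ∈ Tu ι U, σ u * KS Kn (sqc (q * U) (alW h (shS s u) (W u))) (κ * U)‖ ^ 2 ≤
      (C * T ^ 3 * ((Real.log X + 1) ^ 2 * (Real.log X2 + 1))) ^ Fintype.card ι * (D * B) := by
  obtain ⟨C, hC, H⟩ := cell_bound_g Kn hpu hR0 hR M
  refine ⟨400 * (C + 1), by linarith, ?_⟩
  intro ι _ _ s hs X hX1 hX z D0 W cc hW q L hL Us X2 hX21 hUs B D T hB hD hT1 hTc hTu hτ hyp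
    σ hσ
  have hX1' : (1 : ℝ) ≤ X := by exact_mod_cast hX1
  have hX21' : (1 : ℝ) ≤ X2 := by exact_mod_cast hX21
  have hlog0 : 0 ≤ Real.log X := Real.log_nonneg hX1'
  have hlog20 : 0 ≤ Real.log X2 := Real.log_nonneg hX21'
  have hT0 : 0 ≤ T := by linarith
  set k := Fintype.card ι with hk
  set N := ⌊Real.log X⌋₊ with hN
  have hNle : (N : ℝ) ≤ Real.log X := Nat.floor_le hlog0
  set N2 := ⌊Real.log X2⌋₊ with hN2
  have hN2le : (N2 : ℝ) ≤ Real.log X2 := Nat.floor_le hlog20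
  -- cells
  set Cs : Finset ((ι → Bool) × (ι → ℕ)) :=
    Finset.univ ×ˢ Fintype.piFinset (fun _ : ι => Finset.range (N + 1)) with hCs
  set Ns : Finset (ι → ℕ) := Fintype.piFinset (fun _ : ι => Finset.range (N2 + 1)) with hNs
  have hcard : (Cs.card : ℝ) ≤ (2 * (Real.log X + 1)) ^ k := by
    rw [hCs, Finset.card_product, Finset.card_univ, Fintype.card_piFinset]
    simp only [Fintype.card_fun, Fintype.card_bool, Finset.card_range, Finset.prod_const,
      Finset.card_univ]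
    push_cast
    rw [← hk, ← mul_pow]
    gcongr
  have hcardN : (Ns.card : ℝ) ≤ (Real.log X2 + 1) ^ k := by
    rw [hNs, Fintype.card_piFinset]
    simp only [Finset.card_range, Finset.prod_const, Finset.card_univ]
    push_cast
    rw [← hk]
    gcongr
  have hmaps : ∀ u, ∀ x ∈ smT ι X z, keyu u x ∈ Cs := by
    intro u x hx
    rw [mem_smT] at hx
    rw [hCs, Finset.mem_product, Fintype.mem_piFinset]
    refine ⟨Finset.mem_univ _, fun i => ?_⟩
    rw [Finset.mem_range, Nat.lt_succ_iff]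
    show ⌊Real.log (nm (x i))⌋₊ ≤ N
    refine Nat.floor_le_floor (Real.log_le_log ?_ ?_)
    · exact_mod_cast nm_pos.2 (hx i).1.2.ne_zero
    · exact_mod_cast (hx i).1.1
  set a : Eis → Eis → (ι → Eis) → (ι → Eis) → ℂ := fun U κ u x =>
    Th (q * U) (∏ i, x i) * (G (∏ i, x i) * conj (sy (κ * U) (∏ i, x i))) *
      scS (shS s u) x * ∏ i, cc u i (x i) with ha
  set g : Eis → Eis → (ι → Eis) → (ι → Eis) → ℂ := fun U κ u x =>
    KS Kn (sqc (q * U) (alf z D0 h (shS (shS s u) x) (fun _ => false)))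
      (κ * U * ∏ i, x i) with hg
  set S : (ι → Eis) → (ι → Bool) × (ι → ℕ) → Finset (ι → Eis) := fun u c =>
    (smT ι X z).filter (fun x => keyu u x = c) with hS
  have hSm : ∀ u c x, x ∈ S u c ↔ x ∈ smT ι X z ∧ keyu u x = c :=
    fun u c x => Finset.mem_filter
  have hTG : ∀ U ∈ Us, ∀ u ∈ Tu ι U, ∀ κ,
      KS Kn (sqc (q * U) (alW h (shS s u) (W u))) (κ * U) =
        ∑ c ∈ Cs, ∑ x ∈ S u c, a U κ u x * g U κ u x := by
    intro U hU u hu κ
    have hup : ∀ i, IsPrim (u i) := ((mem_Tu).1 hu).1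
    have hX' : ∀ i, (shS s u i).Y * Real.exp R ≤ X := fun i =>
      (mul_le_mul_of_nonneg_right (sh_Y_le (hs i).Y0 (hup i)) (Real.exp_pos _).le).trans (hX i)
    rw [KS_gen hKn hR (s := shS s u) (fun i => sh_OK (hs i) (hup i)) hX' (hW u) (q * U) (κ * U),
      ← Finset.sum_fiberwise_of_maps_to (hmaps u)]
  have hnorm : ∀ U ∈ Us, ∀ u ∈ Tu ι U, ∀ κ, ∀ x ∈ smT ι X z, ‖a U κ u x‖ ≤ T ^ k := by
    intro U hU u hu κ x hx
    have hup : ∀ i, IsPrim (u i) := ((mem_Tu).1 hu).1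
    rw [mem_smT] at hx
    rw [ha]
    show ‖Th (q * U) (∏ i, x i) * (G (∏ i, x i) * conj (sy (κ * U) (∏ i, x i))) *
      scS (shS s u) x * ∏ i, cc u i (x i)‖ ≤ T ^ k
    rw [norm_mul, norm_prod]
    calc ‖Th (q * U) (∏ i, x i) * (G (∏ i, x i) * conj (sy (κ * U) (∏ i, x i))) *
          scS (shS s u) x‖ * ∏ i, ‖cc u i (x i)‖ ≤ 1 * ∏ _i : ι, T := by
          refine mul_le_mul (norm_coef_le (s := shS s u) (fun i => sh_OK (hs i) (hup i))
            fun i => (hx i).1.2) ?_ (Finset.prod_nonneg fun _ _ => norm_nonneg _) zero_le_one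
          refine Finset.prod_le_prod (fun _ _ => norm_nonneg _) fun i _ => ?_
          have h0 := (hx i).1.2.ne_zero
          exact hTc U hU u hu i _ h0 (by exact_mod_cast (hx i).1.1)
      _ = T ^ k := by rw [Finset.prod_const, Finset.card_univ, one_mul]
  -- the number of tuples in a cell
  have hSc : ∀ u, ∀ c ∈ Cs,
      ((S u c).card : ℝ) ≤ 100 ^ k * Real.exp (∑ i, ((c.2 i : ℝ) + 1)) := by
    intro u c hc
    have hsub : S u c ⊆ Fintype.piFinset (fun i => primBall ⌊Real.exp ((c.2 i : ℝ) + 1)⌋₊) := by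
      intro x hx
      rw [hSm, mem_smT] at hx
      rw [Fintype.mem_piFinset]
      intro i
      rw [mem_primBall]
      refine ⟨?_, (hx.1 i).1.2⟩
      have h1 : c.2 i = ⌊Real.log (nm (x i))⌋₊ := by rw [← hx.2]; rfl
      have h7 : (0 : ℝ) < nm (x i) := by exact_mod_cast nm_pos.2 (hx.1 i).1.2.ne_zero
      rw [Nat.le_floor_iff (Real.exp_pos _).le]
      have h2 := Nat.lt_floor_add_one (Real.log (nm (x i)))
      rw [← h1] at h2
      calc (nm (x i) : ℝ) = Real.exp (Real.log (nm (x i))) := (Real.exp_log h7).symm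
        _ ≤ _ := Real.exp_le_exp.2 h2.le
    calc ((S u c).card : ℝ) ≤ ((Fintype.piFinset
          (fun i => primBall ⌊Real.exp ((c.2 i : ℝ) + 1)⌋₊)).card : ℝ) := by
          exact_mod_cast Finset.card_le_card hsub
      _ = ∏ i, ((primBall ⌊Real.exp ((c.2 i : ℝ) + 1)⌋₊).card : ℝ) := by
          rw [Fintype.card_piFinset]; push_cast; rfl
      _ ≤ ∏ i, (100 * Real.exp ((c.2 i : ℝ) + 1)) := by
          refine Finset.prod_le_prod (fun _ _ => Nat.cast_nonneg _) fun i _ => ?_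
          refine (Lat277.card_primBall_le _).trans ?_
          have := Nat.floor_le (Real.exp_pos ((c.2 i : ℝ) + 1)).le
          linarith
      _ = 100 ^ k * Real.exp (∑ i, ((c.2 i : ℝ) + 1)) := by
          rw [Finset.prod_mul_distrib, Finset.prod_const, Finset.card_univ, Real.exp_sum]
  set A : Eis → Finset Eis := fun U => (bl L).filter (fun κ => CubeFree (κ * U)) with hA
  have hDB : 0 ≤ D * B := mul_nonneg hD hB
  -- the family of a cell
  have hcell : ∀ c ∈ Cs, ∑ U ∈ Us, ∑ κ ∈ A U, ∑ u ∈ Tu ι U, ∑ x ∈ S u c,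
      ‖a U κ u x‖ ^ 2 * ‖g U κ u x‖ ^ 2 ≤
      (Real.log X2 + 1) ^ k *
        ((T ^ k) ^ 2 * (C ^ k * (D * (B * Real.exp (-∑ i, ((c.2 i : ℝ) + 1)))))) := by
    intro c hc
    have hc2 : ∀ i, (c.2 i : ℝ) ≤ Real.log X := by
      intro i
      rw [hCs, Finset.mem_product, Fintype.mem_piFinset] at hc
      have h1 := Finset.mem_range.1 (hc.2 i)
      have h2 : (c.2 i : ℝ) ≤ N := by exact_mod_cast Nat.lt_succ_iff.1 h1
      linarith
    set Q : Finset (IxM ι) := Us.sigma fun U => (A U).sigma fun κ => (Tu ι U).sigma fun u =>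
      S u c with hQ
    have e0 : ∑ U ∈ Us, ∑ κ ∈ A U, ∑ u ∈ Tu ι U, ∑ x ∈ S u c,
        ‖a U κ u x‖ ^ 2 * ‖g U κ u x‖ ^ 2 =
        ∑ p ∈ Q, ‖a p.1 p.2.1 p.2.2.1 p.2.2.2‖ ^ 2 * ‖g p.1 p.2.1 p.2.2.1 p.2.2.2‖ ^ 2 := by
      rw [hQ, Finset.sum_sigma]
      refine Finset.sum_congr rfl fun U _ => ?_
      rw [Finset.sum_sigma]
      refine Finset.sum_congr rfl fun κ _ => ?_
      rw [Finset.sum_sigma]
    have hQm : ∀ p ∈ Q, p.1 ∈ Us ∧ p.2.1 ∈ A p.1 ∧ p.2.2.1 ∈ Tu ι p.1 ∧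
        p.2.2.2 ∈ smT ι X z ∧ keyu p.2.2.1 p.2.2.2 = c := by
      intro p hp
      rw [hQ, Finset.mem_sigma, Finset.mem_sigma, Finset.mem_sigma, hSm] at hp
      exact ⟨hp.1, hp.2.1, hp.2.2.1, hp.2.2.2.1, hp.2.2.2.2⟩
    set nk : IxM ι → ι → ℕ := fun p i => ⌊Real.log (nm (p.2.2.1 i))⌋₊ with hnk
    have hmapsN : ∀ p ∈ Q, nk p ∈ Ns := by
      intro p hp
      obtain ⟨h1, h2, h3, h4, h5⟩ := hQm p hp
      rw [hNs, Fintype.mem_piFinset]
      intro i
      rw [Finset.mem_range, Nat.lt_succ_iff]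
      show ⌊Real.log (nm (p.2.2.1 i))⌋₊ ≤ N2
      have hup : ∀ i, IsPrim (p.2.2.1 i) := ((mem_Tu).1 h3).1
      refine Nat.floor_le_floor (Real.log_le_log ?_ ?_)
      · exact_mod_cast nm_pos.2 (hup i).ne_zero
      · have h6 := hUs _ h1
        exact_mod_cast (nm_le_of_dvd' h6.1.ne_zero (Tu_dvd h3 i)).trans h6.2
    rw [e0, ← Finset.sum_fiberwise_of_maps_to hmapsN]
    have hn : ∀ n ∈ Ns, ∑ p ∈ Q.filter (fun p => nk p = n),
        ‖a p.1 p.2.1 p.2.2.1 p.2.2.2‖ ^ 2 * ‖g p.1 p.2.1 p.2.2.1 p.2.2.2‖ ^ 2 ≤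
        (T ^ k) ^ 2 * (C ^ k * (D * (B * Real.exp (-∑ i, ((c.2 i : ℝ) + 1))))) := by
      intro n hnN
      have hn2 : ∀ i, (n i : ℝ) ≤ Real.log X2 := by
        intro i
        rw [hNs, Fintype.mem_piFinset] at hnN
        have h1 := Finset.mem_range.1 (hnN i)
        have h2 : (n i : ℝ) ≤ N2 := by exact_mod_cast Nat.lt_succ_iff.1 h1
        linarith
      set K : Finset (IxM ι) := Q.filter (fun p => nk p = n ∧
        a p.1 p.2.1 p.2.2.1 p.2.2.2 ≠ 0) with hK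
      have hmem : ∀ p ∈ K, p.1 ∈ Us ∧ p.2.1 ∈ bl L ∧ CubeFree (p.2.1 * p.1) ∧
          p.2.2.1 ∈ Tu ι p.1 ∧ (∀ i, IsPrim (p.2.2.1 i)) ∧ ∏ i, p.2.2.1 i = p.1 ∧
          (∀ i, IsPrim (p.2.2.2 i)) ∧ Squarefree (∏ i, p.2.2.2 i) ∧
          IsCoprime (p.2.1 * p.1) (∏ i, p.2.2.2 i) ∧
          (∀ i, (n i : ℝ) ≤ Real.log (nm (p.2.2.1 i)) ∧
            Real.log (nm (p.2.2.1 i)) < n i + 1) ∧
          (∀ i, (c.2 i : ℝ) ≤ Real.log (nm (p.2.2.2 i)) ∧
            Real.log (nm (p.2.2.2 i)) < c.2 i + 1) ∧ keyu p.2.2.1 p.2.2.2 = c ∧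
          ∀ i, cc p.2.2.1 i (p.2.2.2 i) ≠ 0 := by
        intro p hp
        rw [hK, Finset.mem_filter] at hp
        obtain ⟨hpQ, hpn, hpa⟩ := hp
        obtain ⟨h1, h2, h3, h4, h5⟩ := hQm p hpQ
        rw [hA, Finset.mem_filter] at h2
        rw [mem_smT] at h4
        have hup : ∀ i, IsPrim (p.2.2.1 i) := ((mem_Tu).1 h3).1
        have hxp : ∀ i, IsPrim (p.2.2.2 i) := fun i => (h4 i).1.2
        have hcz : Squarefree (∏ i, p.2.2.2 i) ∧
            IsCoprime (p.2.1 * p.1) (∏ i, p.2.2.2 i) := by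
          by_contra hcon
          apply hpa
          rw [ha]
          show Th (q * p.1) (∏ i, p.2.2.2 i) * (G (∏ i, p.2.2.2 i) *
            conj (sy (p.2.1 * p.1) (∏ i, p.2.2.2 i))) * scS (shS s p.2.2.1) p.2.2.2 *
              ∏ i, cc p.2.2.1 i (p.2.2.2 i) = 0
          rw [coef_zero hxp hcon, zero_mul]
        have hccz : ∏ i, cc p.2.2.1 i (p.2.2.2 i) ≠ 0 := right_ne_zero_of_mul hpa
        refine ⟨h1, h2.1, h2.2, h3, hup, ((mem_Tu).1 h3).2, hxp, hcz.1, hcz.2, fun i => ?_,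
          fun i => ?_, h5, fun i => Finset.prod_ne_zero_iff.1 hccz i (Finset.mem_univ i)⟩
        · have h6 : n i = ⌊Real.log (nm (p.2.2.1 i))⌋₊ := by rw [← hpn]
          have h7 : (1 : ℝ) ≤ nm (p.2.2.1 i) := by
            exact_mod_cast nm_pos.2 (hup i).ne_zero
          have h8 := Nat.lt_floor_add_one (Real.log (nm (p.2.2.1 i)))
          have h9 := Nat.floor_le (Real.log_nonneg h7)
          rw [← h6] at h8 h9
          exact ⟨h9, h8⟩
        · have h6 : c.2 i = ⌊Real.log (nm (p.2.2.2 i))⌋₊ := by rw [← h5]; rfl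
          have h7 : (1 : ℝ) ≤ nm (p.2.2.2 i) := by
            exact_mod_cast nm_pos.2 (hxp i).ne_zero
          have h8 := Nat.lt_floor_add_one (Real.log (nm (p.2.2.2 i)))
          have h9 := Nat.floor_le (Real.log_nonneg h7)
          rw [← h6] at h8 h9
          exact ⟨h9, h8⟩
      have e1 : ∑ p ∈ Q.filter (fun p => nk p = n),
          ‖a p.1 p.2.1 p.2.2.1 p.2.2.2‖ ^ 2 * ‖g p.1 p.2.1 p.2.2.1 p.2.2.2‖ ^ 2 ≤
          (T ^ k) ^ 2 * ∑ p ∈ K, ‖g p.1 p.2.1 p.2.2.1 p.2.2.2‖ ^ 2 := by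
        rw [hK, Finset.mul_sum, Finset.sum_filter, Finset.sum_filter]
        refine Finset.sum_le_sum fun p hp => ?_
        obtain ⟨h1, h2, h3, h4, h5⟩ := hQm p hp
        by_cases hpn : nk p = n
        · by_cases hpa : a p.1 p.2.1 p.2.2.1 p.2.2.2 = 0
          · rw [if_pos hpn, if_neg (fun h => h.2 hpa), hpa]; simp
          · rw [if_pos hpn, if_pos ⟨hpn, hpa⟩]
            refine mul_le_mul_of_nonneg_right ?_ (by positivity)
            exact pow_le_pow_left₀ (norm_nonneg _) (hnorm _ h1 _ h3 _ _ h4) 2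
        · rw [if_neg hpn, if_neg (fun h => hpn h.1)]
      refine e1.trans (mul_le_mul_of_nonneg_left ?_ (by positivity))
      rcases K.eq_empty_or_nonempty with hemp | hne
      · rw [hemp, Finset.sum_empty]
        have := Real.exp_pos (-∑ i, ((c.2 i : ℝ) + 1))
        positivity
      have e2 : ∑ p ∈ K, ‖g p.1 p.2.1 p.2.2.1 p.2.2.2‖ ^ 2 =
          ∑ p ∈ K, ‖KS Kn (sqc q (alf z D0 h (cellP s (vk s c.1)
            (fun i => (s i).Y / nm (p.2.2.1 i * p.2.2.2 i))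
            (fun i => (s i).t)) (fun _ => false))) (p.2.1 * p.1 * ∏ i, p.2.2.2 i)‖ ^ 2 := by
        refine Finset.sum_congr rfl fun p hp => ?_
        obtain ⟨h1, h2, h3, h4, h5, h6, h7, h8, h9, h10, h11, h12, h13⟩ := hmem p hp
        rw [hg]
        show ‖KS Kn (sqc (q * p.1) (alf z D0 h (shS (shS s p.2.2.1) p.2.2.2) (fun _ => false)))
          (p.2.1 * p.1 * ∏ i, p.2.2.2 i)‖ ^ 2 = _
        have e3 : shS (shS s p.2.2.1) p.2.2.2 = cellP s (vk s c.1)
            (fun i => (s i).Y / nm (p.2.2.1 i * p.2.2.2 i)) (fun i => (s i).t) := by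
          rw [shS_mul s h5 h7, shS_eq]
          have : (key (fun i => p.2.2.1 i * p.2.2.2 i)).1 = c.1 := by rw [← h12]; rfl
          rw [this]
        rw [e3, KS_sqc_dvd hKn ((dvd_mul_left p.1 p.2.1).mul_right _) (fun m hm => alf_prim hm)]
      rw [e2]
      have hexp : ∑ i, ((n i : ℝ) + c.2 i + 2) = ∑ i, (((n i + c.2 i + 1 : ℕ) : ℝ) + 1) := by
        refine Finset.sum_congr rfl fun i _ => ?_
        push_cast; ring
      have hub : ∀ i : ι, Real.exp ((n i : ℝ) + c.2 i + 2) ≤ Real.exp 2 * X2 * X := by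
        intro i
        rw [Real.exp_add, Real.exp_add]
        have h1 : Real.exp (n i : ℝ) ≤ X2 := by
          calc Real.exp (n i : ℝ) ≤ Real.exp (Real.log X2) := Real.exp_le_exp.2 (hn2 i)
            _ = X2 := Real.exp_log (by linarith)
        have h2 : Real.exp (c.2 i : ℝ) ≤ X := by
          calc Real.exp (c.2 i : ℝ) ≤ Real.exp (Real.log X) := Real.exp_le_exp.2 (hc2 i)
            _ = X := Real.exp_log (by linarith)
        calc Real.exp (n i : ℝ) * Real.exp (c.2 i : ℝ) * Real.exp 2 ≤ X2 * X * Real.exp 2 := by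
              gcongr
          _ = _ := by ring
      refine H ι s hs z D0 (fun _ => false) q (L * Real.exp (∑ i, ((n i : ℝ) + c.2 i + 2)))
        (by positivity) (vk s c.1) (fun i => n i + c.2 i + 1) (IxM ι) K
        (fun p => p.2.1 * p.1 * ∏ i, p.2.2.2 i) (fun p i => p.2.2.1 i * p.2.2.2 i)
        (fun p hp => ?_) (B * Real.exp (-∑ i, ((c.2 i : ℝ) + 1))) D
        (mul_nonneg hB (Real.exp_pos _).le) hD ?_ ?_
      · obtain ⟨h1, h2, h3, h4, h5, h6, h7, h8, h9, h10, h11, h12, h13⟩ := hmem p hp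
        have hx0 : ∏ i, p.2.2.2 i ≠ 0 := (isPrim_prod h7).ne_zero
        refine ⟨?_, cubeFree_mul h3 h8 hx0 h9, fun i => ⟨?_, ?_⟩⟩
        · rw [mem_bl (by positivity)]
          refine ⟨mul_ne_zero h3.1 hx0, ?_⟩
          have hLb : (nm p.2.1 : ℝ) ≤ L := ((mem_bl hL).1 h2).2
          have e4 : (nm p.1 : ℝ) * (nm (∏ i, p.2.2.2 i) : ℝ) =
              ∏ i, ((nm (p.2.2.1 i) : ℝ) * nm (p.2.2.2 i)) := by
            conv_lhs => rw [← h6]
            rw [nm_prodI, nm_prodI, Finset.prod_mul_distrib]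
            push_cast
            rfl
          show (nm (p.2.1 * p.1 * ∏ i, p.2.2.2 i) : ℝ) ≤ _
          rw [nm_mul, nm_mul]
          push_cast
          rw [mul_assoc, e4, Real.exp_sum]
          refine mul_le_mul hLb ?_ (Finset.prod_nonneg fun _ _ => by positivity) hL
          refine Finset.prod_le_prod (fun _ _ => by positivity) fun i _ => ?_
          have h14 : (0 : ℝ) < nm (p.2.2.1 i) := by exact_mod_cast nm_pos.2 (h5 i).ne_zero
          have h15 : (0 : ℝ) < nm (p.2.2.2 i) := by exact_mod_cast nm_pos.2 (h7 i).ne_zero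
          calc (nm (p.2.2.1 i) : ℝ) * nm (p.2.2.2 i) =
                Real.exp (Real.log (nm (p.2.2.1 i)) + Real.log (nm (p.2.2.2 i))) := by
                rw [Real.exp_add, Real.exp_log h14, Real.exp_log h15]
            _ ≤ _ := Real.exp_le_exp.2 (by linarith [(h10 i).2, (h11 i).2])
        · exact mul_ne_zero (h5 i).ne_zero (h7 i).ne_zero
        · show |Real.log (nm (p.2.2.1 i * p.2.2.2 i)) - ((n i + c.2 i + 1 : ℕ) : ℝ)| ≤ 1
          have h14 : (0 : ℝ) < nm (p.2.2.1 i) := by exact_mod_cast nm_pos.2 (h5 i).ne_zero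
          have h15 : (0 : ℝ) < nm (p.2.2.2 i) := by exact_mod_cast nm_pos.2 (h7 i).ne_zero
          rw [nm_mul]
          push_cast
          rw [Real.log_mul h14.ne' h15.ne', abs_le]
          constructor <;> linarith [(h10 i).1, (h10 i).2, (h11 i).1, (h11 i).2]
      · intro j hj0 hj
        have h1 := hτ j hj0 (hj.trans ?_)
        · refine le_trans ?_ h1
          have h2 := mult_le K (fun p hp => ?_) hj0
          · convert h2
          · obtain ⟨h1, h2, h3, h4, h5, h6, h7, h8, h9, h10, h11, h12, h13⟩ := hmem p hp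
            exact ⟨h5, h7, h6⟩
        · refine mul_le_mul_of_nonneg_left ?_ hL
          rw [Real.exp_sum]
          calc ∏ i, Real.exp ((n i : ℝ) + c.2 i + 2) ≤ ∏ _i : ι, (Real.exp 2 * X2 * X) :=
                Finset.prod_le_prod (fun _ _ => (Real.exp_pos _).le) fun i _ => hub i
            _ = (Real.exp 2 * X2 * X) ^ k := by rw [Finset.prod_const, Finset.card_univ]
      · intro Y t hY
        obtain ⟨p, hp⟩ := hne
        obtain ⟨h1, h2, h3, h4, h5, h6, h7, h8, h9, h10, h11, h12, h13⟩ := hmem p hp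
        refine hyp c.1 n c.2 Y t ⟨p.1, h1, p.2.2.1, h4, p.2.2.2, fun i =>
          ⟨h7 i, h13 i, h10 i, h11 i⟩⟩ (fun i => ?_)
        have := hY i
        push_cast at this
        exact this
    calc ∑ n ∈ Ns, ∑ p ∈ Q.filter (fun p => nk p = n),
          ‖a p.1 p.2.1 p.2.2.1 p.2.2.2‖ ^ 2 * ‖g p.1 p.2.1 p.2.2.1 p.2.2.2‖ ^ 2
        ≤ ∑ _n ∈ Ns, (T ^ k) ^ 2 *
            (C ^ k * (D * (B * Real.exp (-∑ i, ((c.2 i : ℝ) + 1))))) := Finset.sum_le_sum hn
      _ = (Ns.card : ℝ) * ((T ^ k) ^ 2 *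
            (C ^ k * (D * (B * Real.exp (-∑ i, ((c.2 i : ℝ) + 1)))))) := by
          rw [Finset.sum_const, nsmul_eq_mul]
      _ ≤ _ := by
          refine mul_le_mul_of_nonneg_right hcardN ?_
          have := Real.exp_pos (-∑ i, ((c.2 i : ℝ) + 1))
          positivity
  -- assembly
  have hmain : ∀ U ∈ Us, ∀ κ ∈ A U,
      ‖∑ u ∈ Tu ι U, σ u * KS Kn (sqc (q * U) (alW h (shS s u) (W u))) (κ * U)‖ ^ 2 ≤
      T ^ k * ((Cs.card : ℝ) * ∑ c ∈ Cs, (100 ^ k * Real.exp (∑ i, ((c.2 i : ℝ) + 1))) *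
        ∑ u ∈ Tu ι U, ∑ x ∈ S u c, ‖a U κ u x‖ ^ 2 * ‖g U κ u x‖ ^ 2) := by
    intro U hU κ _
    have h1 : ∀ u ∈ Tu ι U,
        ‖σ u * KS Kn (sqc (q * U) (alW h (shS s u) (W u))) (κ * U)‖ ^ 2 ≤
        (Cs.card : ℝ) * ∑ c ∈ Cs, (100 ^ k * Real.exp (∑ i, ((c.2 i : ℝ) + 1))) *
          ∑ x ∈ S u c, ‖a U κ u x‖ ^ 2 * ‖g U κ u x‖ ^ 2 := by
      intro u hu
      have h2 : ‖σ u * KS Kn (sqc (q * U) (alW h (shS s u) (W u))) (κ * U)‖ ^ 2 ≤
          ‖KS Kn (sqc (q * U) (alW h (shS s u) (W u))) (κ * U)‖ ^ 2 := by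
        rw [norm_mul]
        refine pow_le_pow_left₀ (by positivity) ?_ 2
        exact mul_le_of_le_one_left (norm_nonneg _) (hσ U hU u hu)
      refine h2.trans ?_
      rw [hTG U hU u hu κ]
      refine (CR2.norm_sum_sq_le_card Cs _).trans ?_
      refine mul_le_mul_of_nonneg_left ?_ (Nat.cast_nonneg _)
      refine Finset.sum_le_sum fun c hc => ?_
      refine (CR2.norm_sum_sq_le_card (S u c) _).trans ?_
      have e : ∑ x ∈ S u c, ‖a U κ u x * g U κ u x‖ ^ 2 =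
          ∑ x ∈ S u c, ‖a U κ u x‖ ^ 2 * ‖g U κ u x‖ ^ 2 := by
        refine Finset.sum_congr rfl fun x _ => ?_
        rw [norm_mul, mul_pow]
      rw [e]
      exact mul_le_mul_of_nonneg_right (hSc u c hc) (Finset.sum_nonneg fun _ _ => by positivity)
    refine (CR2.norm_sum_sq_le_card (Tu ι U) _).trans ?_
    refine mul_le_mul (hTu U hU) ?_ (Finset.sum_nonneg fun _ _ => by positivity) (by positivity)
    refine (Finset.sum_le_sum h1).trans (le_of_eq ?_)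
    rw [← Finset.mul_sum, Finset.sum_comm]
    congr 1
    refine Finset.sum_congr rfl fun c _ => ?_
    rw [Finset.mul_sum]
  have hlogX2 : 0 ≤ (Real.log X2 + 1) ^ k := by positivity
  calc ∑ U ∈ Us, ∑ κ ∈ A U,
        ‖∑ u ∈ Tu ι U, σ u * KS Kn (sqc (q * U) (alW h (shS s u) (W u))) (κ * U)‖ ^ 2
      ≤ ∑ U ∈ Us, ∑ κ ∈ A U, T ^ k * ((Cs.card : ℝ) * ∑ c ∈ Cs,
          (100 ^ k * Real.exp (∑ i, ((c.2 i : ℝ) + 1))) *
          ∑ u ∈ Tu ι U, ∑ x ∈ S u c, ‖a U κ u x‖ ^ 2 * ‖g U κ u x‖ ^ 2) :=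
        Finset.sum_le_sum fun U hU => Finset.sum_le_sum fun κ hκ => hmain U hU κ hκ
    _ = T ^ k * ((Cs.card : ℝ) * ∑ c ∈ Cs, (100 ^ k * Real.exp (∑ i, ((c.2 i : ℝ) + 1))) *
          ∑ U ∈ Us, ∑ κ ∈ A U, ∑ u ∈ Tu ι U, ∑ x ∈ S u c,
            ‖a U κ u x‖ ^ 2 * ‖g U κ u x‖ ^ 2) := by
        have e1 : ∀ U ∈ Us, ∑ κ ∈ A U, T ^ k * ((Cs.card : ℝ) * ∑ c ∈ Cs,
            (100 ^ k * Real.exp (∑ i, ((c.2 i : ℝ) + 1))) *
            ∑ u ∈ Tu ι U, ∑ x ∈ S u c, ‖a U κ u x‖ ^ 2 * ‖g U κ u x‖ ^ 2) =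
            T ^ k * ((Cs.card : ℝ) * ∑ c ∈ Cs,
            (100 ^ k * Real.exp (∑ i, ((c.2 i : ℝ) + 1))) *
            ∑ κ ∈ A U, ∑ u ∈ Tu ι U, ∑ x ∈ S u c, ‖a U κ u x‖ ^ 2 * ‖g U κ u x‖ ^ 2) := by
          intro U _
          rw [← Finset.mul_sum, ← Finset.mul_sum, Finset.sum_comm]
          congr 2
          refine Finset.sum_congr rfl fun c _ => ?_
          rw [Finset.mul_sum]
        rw [Finset.sum_congr rfl e1, ← Finset.mul_sum, ← Finset.mul_sum, Finset.sum_comm]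
        congr 2
        refine Finset.sum_congr rfl fun c _ => ?_
        rw [Finset.mul_sum]
    _ ≤ T ^ k * ((Cs.card : ℝ) * ∑ _c ∈ Cs, (Real.log X2 + 1) ^ k * ((T ^ k) ^ 2 *
          ((100 * (C + 1)) ^ k * (D * B)))) := by
        refine mul_le_mul_of_nonneg_left ?_ (by positivity)
        refine mul_le_mul_of_nonneg_left ?_ (Nat.cast_nonneg _)
        refine Finset.sum_le_sum fun c hc => ?_
        have h2 := hcell c hc
        calc (100 ^ k * Real.exp (∑ i, ((c.2 i : ℝ) + 1))) * _ ≤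
              (100 ^ k * Real.exp (∑ i, ((c.2 i : ℝ) + 1))) * ((Real.log X2 + 1) ^ k *
              ((T ^ k) ^ 2 * (C ^ k * (D * (B * Real.exp (-∑ i, ((c.2 i : ℝ) + 1))))))) :=
              mul_le_mul_of_nonneg_left h2 (by positivity)
          _ = (Real.log X2 + 1) ^ k * ((T ^ k) ^ 2 * (100 ^ k * C ^ k * (D * B))) *
              (Real.exp (∑ i, ((c.2 i : ℝ) + 1)) *
              Real.exp (-∑ i, ((c.2 i : ℝ) + 1))) := by ring
          _ = (Real.log X2 + 1) ^ k * ((T ^ k) ^ 2 * (100 ^ k * C ^ k * (D * B))) := by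
              rw [← Real.exp_add, add_neg_cancel, Real.exp_zero, mul_one]
          _ ≤ (Real.log X2 + 1) ^ k * ((T ^ k) ^ 2 * (100 ^ k * (C + 1) ^ k * (D * B))) := by
              have : C ^ k ≤ (C + 1) ^ k := pow_le_pow_left₀ hC (by linarith) k
              gcongr
          _ = _ := by rw [mul_pow]
    _ = T ^ k * ((Cs.card : ℝ) * (Cs.card : ℝ) * ((Real.log X2 + 1) ^ k * ((T ^ k) ^ 2 *
          ((100 * (C + 1)) ^ k * (D * B))))) := by
        rw [Finset.sum_const, nsmul_eq_mul]; ring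
    _ ≤ T ^ k * ((2 * (Real.log X + 1)) ^ k * (2 * (Real.log X + 1)) ^ k *
          ((Real.log X2 + 1) ^ k * ((T ^ k) ^ 2 * ((100 * (C + 1)) ^ k * (D * B))))) := by
        refine mul_le_mul_of_nonneg_left ?_ (by positivity)
        have h5 : (0 : ℝ) ≤ (Real.log X2 + 1) ^ k * ((T ^ k) ^ 2 *
          ((100 * (C + 1)) ^ k * (D * B))) := by positivity
        refine mul_le_mul_of_nonneg_right ?_ h5
        exact mul_le_mul hcard hcard (Nat.cast_nonneg _) (by positivity)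
    _ = (400 * (C + 1) * T ^ 3 * ((Real.log X + 1) ^ 2 * (Real.log X2 + 1))) ^ k * (D * B) := by
        simp only [mul_pow]
        rw [show (400 : ℝ) = 2 * 2 * 100 by norm_num, mul_pow, mul_pow, ← pow_mul, ← pow_mul,
          ← pow_mul]
        ring

end Crest.Agent.R017.LegK545
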