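import Crest.Agent.R017.LegK8_545

/-!
# Row 17, RG3, every kernel (helper545): the merged rule, list form (helper381's `Leg9`)

* `KS_sub_alfN`, `merge_list`
-/

set_option autoImplicit false
set_option linter.unusedSectionVars false
set_option linter.unusedVariables false
set_option maxHeartbeats 3200000

noncomputable section

open Complex
open scoped ComplexConjugate

namespace Crest.Agent.R017.LegK545

open Crest.Agent.R012 Crest.Agent.R012.Eis Crest.Agent.R012.LS2 Crest.Agent.R012.Gauss880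
open Crest.Agent.R012.Mob705
open Crest.Agent.R012.Div277 (tau dvs mem_dvs isPrim_of_mem_dvs dvd_of_mem_dvs tau_le_rpow)
open Crest.Agent.R017.CM106 Crest.Agent.R017.HP842 Crest.Agent.R017.FE47
open Crest.Agent.R017.End699 Crest.Agent.R017.XC858
open Crest.Agent.R017.B770
open Crest.Agent.R017.Prov71
open Crest.Agent.R017.Rough381
open Crest.Agent.R017.Leg381 hiding phl MF_phl cell_bound_f leg_split leg_list gen_split
  sub_list cell_bound_g merge_split merge_list

variable {ι : Type} [Fintype ι] [DecidableEq ι] {Kn : Eis → Eis → ℂ}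

/-- the Gauss sums of the multiples of `g U` -/
theorem KS_sub_alfN (hKn : Ker Kn) {h : ℝ → ℝ} {R : ℝ} (hR : ∀ u, cx h u ≠ 0 → |u| ≤ R) {s : ι → Pc}
    (hs : ∀ i, (s i).OK) (z D0 : ℝ) (f : ι → Bool) (q : Eis) {g U : Eis} (hg : IsPrim g)
    (hU : IsPrim U) (hgU : IsCoprime g U) (r : Eis) :
    KS Kn (sqc (q * (g * U)) (CM106.sub (alf z D0 h s f) (g * U))) r =
      ∑ a ∈ Tu ι g, ∑ u ∈ Tu ι U, scS s (fun i => a i * u i) *
        KS Kn (sqc (q * g * U) (alW h (shS (shS s a) u)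
          (fun i => WN z D0 (f i) (a i * u i)))) r := by
  classical
  have e0 : sqc (q * (g * U)) (CM106.sub (alf z D0 h s f) (g * U)) = fun n =>
      ∑ x ∈ Tu ι (g * U), scS s x *
        sqc (q * (g * U)) (alW h (shS s x) (fun i => WN z D0 (f i) (x i))) n := by
    funext n
    exact sub_alfN hs z D0 f q (hg.mul hU) n
  set w : (ι → Eis) → Eis → ℂ := fun x => if x ∈ Tu ι (g * U) then
    sqc (q * (g * U)) (alW h (shS s x) (fun i => WN z D0 (f i) (x i))) else fun _ => 0 with hw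
  have hwFS : ∀ x, FS (w x) := by
    intro x
    rw [hw]
    beta_reduce
    split_ifs with hx
    · have hxp : ∀ i, IsPrim (x i) := fun i => ((mem_Tu).1 hx).1 i
      exact HP842.FS.sqc (FS_alW hR (fun i => sh_OK (hs i) (hxp i)) _) (q * (g * U))
    · exact ⟨by simp [Function.support], fun m hm => absurd rfl hm⟩
  have e1 : (fun n => ∑ x ∈ Tu ι (g * U), scS s x *
      sqc (q * (g * U)) (alW h (shS s x) (fun i => WN z D0 (f i) (x i))) n) =
      fun n => ∑ x ∈ Tu ι (g * U), scS s x * w x n := by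
    funext n
    refine Finset.sum_congr rfl fun x hx => ?_
    rw [hw]
    beta_reduce
    rw [if_pos hx]
  rw [e0, e1, KS_sum (Tu ι (g * U)) (fun x => scS s x) w hwFS r,
    sum_Tu_mul hg hU hgU]
  refine Finset.sum_congr rfl fun a ha => Finset.sum_congr rfl fun u hu => ?_
  have hap : ∀ i, IsPrim (a i) := ((mem_Tu).1 ha).1
  have hup : ∀ i, IsPrim (u i) := ((mem_Tu).1 hu).1
  have hmem : (fun i => a i * u i) ∈ Tu ι (g * U) := by
    rw [mem_Tu]
    refine ⟨fun i => (hap i).mul (hup i), ?_⟩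
    rw [Finset.prod_mul_distrib, ((mem_Tu).1 ha).2, ((mem_Tu).1 hu).2]
  rw [hw]
  beta_reduce
  rw [if_pos hmem, shS_mul s hap hup, mul_assoc q g U]

open Classical in
/-- **the merged rule, list form** -/
theorem merge_list (hKn : Ker Kn) {h : ℝ → ℝ} {c : ℝ} (hpu : PU h c) (N : ℕ) {B₀ : ℝ} (hB₀ : 0 ≤ B₀) {ε : ℝ}
    (hε : 0 < ε) {M : ℝ} (hM : 0 ≤ M) : ∃ C r : ℝ, 1 ≤ C ∧ 0 ≤ r ∧ ∀ X : ℝ, 3 ≤ X →
    ∀ (P : DPar), P.OK → ∀ (z D0 : ℝ) (q : Eis), 1 ≤ D0 →
    ∀ g : Eis, IsPrim g → (nm g : ℝ) ≤ X ^ B₀ →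
    ∀ (b : ℝ) (Us : Finset Eis), 0 ≤ b → b ≤ B₀ * Real.log X →
    (∀ U ∈ Us, IsPrim U ∧ IsCoprime g U ∧ |Real.log (nm U) - b| ≤ 1) →
    ∀ (k : ℝ) (ps : List Pf), 0 ≤ k → k ≤ Real.log X → ps.length ≤ N →
    (∀ p ∈ ps, 0 ≤ p.1.z ∧ p.1.z ≤ Real.log X) → ∀ Bd : ℝ, 0 ≤ Bd →
    (∀ (l : ℝ) (ps' : List Pf), 0 ≤ l → List.Forall₂ (ChG r) ps' ps →
      (∀ p ∈ ps', p.2 = false) →
      LF ps' ≤ LF ps - Real.log (nm g) - b + r →
      LF ps - Real.log (nm g) - b - N * Real.log D0 - r ≤ LF ps' →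
      |l - (k + LF ps - Real.log (nm g) - LF ps')| ≤ r →
      SFK Kn z D0 (q * g) P h l ps' ≤
        Bd * cstF ps' ps ^ M * Real.exp (LF ps' + Real.log (nm g) + b - LF ps)) →
    ∑ U ∈ Us, ∑ κ ∈ (bl (Real.exp k)).filter (fun κ => CubeFree (κ * U)),
      ‖KS Kn (sqc (q * (g * U)) (CM106.sub (alF z D0 P h ps) (g * U))) (κ * U)‖ ^ 2 ≤
      C * X ^ ε * Bd := by
  classical
  obtain ⟨R₀, hR₀⟩ := bump_of_cs hpu.cs
  set R := max R₀ 0 with hRd
  have hR0 : 0 ≤ R := le_max_right _ _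
  have hR : ∀ u, cx h u ≠ 0 → |u| ≤ R := fun u hu => (hR₀ u hu).trans (le_max_left _ _)
  obtain ⟨C₁, hC₁, H⟩ := merge_split hKn hpu hR0 hR M
  have hN0 : (0 : ℝ) ≤ N := Nat.cast_nonneg _
  -- the exponents
  set Bt : ℝ := (N + 1) * (B₀ + 2) + 2 * B₀ + 1 with hBt
  have hBt0 : 0 < Bt := by positivity
  set η := ε / (20 * ((N : ℝ) + 1) * Bt) with hη
  have hη0 : 0 < η := by positivity
  obtain ⟨C₂, hC₂, hτ⟩ := tau_le_rpow hη0
  set c₀ : ℝ := Real.log 2 + R + 1 with hc₀
  have hc₀0 : 0 ≤ c₀ := by have := Real.log_nonneg (by norm_num : (1 : ℝ) ≤ 2); linarith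
  obtain ⟨C₃, hC₃, hlog⟩ := log_pow_le (ε := ε / 4) (by linarith) (2 * N) hc₀0
  obtain ⟨C₄, hC₄, hlog4⟩ := log_pow_le (ε := ε / 4) (by linarith) N (c₀ := 2) (by norm_num)
  set A : ℝ := Real.exp 2 * Real.exp 1 * (2 * Real.exp R) with hA
  have hA1 : 1 ≤ A := by
    have h1 : 1 ≤ Real.exp 1 := Real.one_le_exp zero_le_one
    have h2 : 1 ≤ Real.exp R := Real.one_le_exp hR0
    have h3 : 1 ≤ Real.exp 2 := Real.one_le_exp (by norm_num)
    have h4 : 1 ≤ Real.exp 2 * Real.exp 1 := one_le_mul_of_one_le_of_one_le h3 h1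
    nlinarith
  set r₁ : ℝ := N * (2 * R + 2) + 1 with hr₁
  have hr₁0 : 0 ≤ r₁ := by positivity
  set r : ℝ := r₁ + 2 * N + (2 * R + 2) with hr
  have hr0 : 0 ≤ r := by positivity
  refine ⟨C₁ ^ N * C₂ ^ (5 * N) * C₃ * ((B₀ + 1) ^ N * C₄) *
    (C₂ ^ (2 * N) * (A ^ N) ^ (η * (2 * N))) * Real.exp r, r, ?_, hr0, ?_⟩
  · have h1 : 1 ≤ C₁ ^ N := one_le_pow₀ hC₁
    have h2 : 1 ≤ C₂ ^ (5 * N) := one_le_pow₀ hC₂
    have h2' : 1 ≤ C₂ ^ (2 * N) := one_le_pow₀ hC₂
    have h3 : 1 ≤ (A ^ N) ^ (η * (2 * N)) := Real.one_le_rpow (one_le_pow₀ hA1) (by positivity)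
    have h4 : 1 ≤ Real.exp r := Real.one_le_exp hr0
    have h5 : 1 ≤ (B₀ + 1) ^ N := one_le_pow₀ (by linarith)
    exact one_le_mul_of_one_le_of_one_le (one_le_mul_of_one_le_of_one_le
      (one_le_mul_of_one_le_of_one_le (one_le_mul_of_one_le_of_one_le
        (one_le_mul_of_one_le_of_one_le h1 h2) hC₃) (one_le_mul_of_one_le_of_one_le h5 hC₄))
      (one_le_mul_of_one_le_of_one_le h2' h3)) h4
  intro X hX P hP z D0 q hD0 g hg hgX b Us hb hbX hUs k ps hk hkX hlen hps Bd hBd hyp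
  have hX1 : (1 : ℝ) ≤ X := by linarith
  have hX0 : (0 : ℝ) < X := by linarith
  have hlX0 : 0 ≤ Real.log X := Real.log_nonneg hX1
  set n := ps.length with hn
  have hnN : (n : ℝ) ≤ N := by exact_mod_cast hlen
  have hn0 : (0 : ℝ) ≤ n := Nat.cast_nonneg _
  set s : Fin n → Pc := fun i => (ps.get i).1.pc P with hs
  set f : Fin n → Bool := fun i => (ps.get i).2 with hf
  have hsOK : ∀ i, (s i).OK := fun i => Pq.ok hP _
  have hseq : alF z D0 P h ps = alf z D0 h s f := alF_get z D0 P h ps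
  -- the support bound
  set X' : ℕ := ⌈X * Real.exp R⌉₊ with hX'
  have h1R : 1 ≤ Real.exp R := Real.one_le_exp hR0
  have hXR : 1 ≤ X * Real.exp R := by nlinarith
  have hX'1 : 1 ≤ X' := by
    rw [hX']
    exact Nat.one_le_ceil_iff.2 (by linarith)
  have hX'2 : (X' : ℝ) ≤ 2 * Real.exp R * X := by
    have := (Nat.ceil_lt_add_one (by linarith : 0 ≤ X * Real.exp R)).le
    rw [hX']
    linarith
  have hsX : ∀ i, (s i).Y * Real.exp R ≤ X' := by
    intro i
    refine le_trans ?_ (Nat.le_ceil _)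
    refine mul_le_mul_of_nonneg_right ?_ (Real.exp_pos _).le
    show Real.exp (ps.get i).1.z ≤ X
    calc Real.exp (ps.get i).1.z ≤ Real.exp (Real.log X) :=
          Real.exp_le_exp.2 (hps _ (List.get_mem ps i)).2
      _ = X := Real.exp_log hX0
  have hlogX' : Real.log X' ≤ Real.log X + (Real.log 2 + R) := by
    calc Real.log X' ≤ Real.log (2 * Real.exp R * X) :=
          Real.log_le_log (by exact_mod_cast hX'1) hX'2
      _ = Real.log X + (Real.log 2 + R) := by
          rw [Real.log_mul (by positivity) hX0.ne', Real.log_mul two_ne_zero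
            (Real.exp_pos _).ne', Real.log_exp]
          ring
  have hlX'0 : 0 ≤ Real.log X' := Real.log_nonneg (by exact_mod_cast hX'1)
  -- the size of `U`
  set X2 : ℕ := ⌊Real.exp (b + 1)⌋₊ with hX2
  have hX2le : (X2 : ℝ) ≤ Real.exp (b + 1) := Nat.floor_le (Real.exp_pos _).le
  have hX21 : 1 ≤ X2 := by
    rw [hX2, Nat.le_floor_iff (Real.exp_pos _).le]
    push_cast
    exact Real.one_le_exp (by linarith)
  have hX21' : (1 : ℝ) ≤ X2 := by exact_mod_cast hX21
  have hUn : ∀ U ∈ Us, nm U ≤ X2 := by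
    intro U hU
    obtain ⟨h1, _, h3⟩ := hUs U hU
    rw [hX2, Nat.le_floor_iff (Real.exp_pos _).le]
    have h4 : (0 : ℝ) < nm U := by exact_mod_cast nm_pos.2 h1.ne_zero
    calc (nm U : ℝ) = Real.exp (Real.log (nm U)) := (Real.exp_log h4).symm
      _ ≤ _ := Real.exp_le_exp.2 (by linarith [(abs_le.1 h3).2])
  have hX2b : (X2 : ℝ) ≤ Real.exp 1 * X ^ B₀ := by
    calc (X2 : ℝ) ≤ Real.exp (b + 1) := hX2le
      _ ≤ Real.exp (B₀ * Real.log X + 1) := Real.exp_le_exp.2 (by linarith)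
      _ = Real.exp 1 * X ^ B₀ := by
          rw [Real.exp_add, mul_comm, Real.rpow_def_of_pos hX0, mul_comm B₀]
  have hlX2 : Real.log X2 + 1 ≤ (B₀ + 1) * (Real.log X + 2) := by
    have h1 : Real.log X2 ≤ b + 1 := by
      calc Real.log X2 ≤ Real.log (Real.exp (b + 1)) := Real.log_le_log (by linarith) hX2le
        _ = b + 1 := Real.log_exp _
    nlinarith
  have hlX20 : 0 ≤ Real.log X2 := Real.log_nonneg hX21'
  -- the divisor bound on the family
  set D : ℝ := C₂ ^ (2 * N) * (A ^ N) ^ (η * (2 * N)) * X ^ (ε / 4) with hD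
  have hD00 : 0 ≤ D := by positivity
  have hηN : η * (2 * N) * (1 + N * (B₀ + 1)) ≤ ε / 4 := by
    rw [hη, div_mul_eq_mul_div, div_mul_eq_mul_div, div_le_div_iff₀ (by positivity) (by norm_num)]
    have h1 : (1 + N * (B₀ + 1)) ≤ Bt := by rw [hBt]; nlinarith
    have h2 : (N : ℝ) ≤ N + 1 := by linarith
    calc ε * (2 * N) * (1 + N * (B₀ + 1)) * 4 ≤ ε * (2 * ((N : ℝ) + 1)) * Bt * 4 := by
          gcongr
      _ ≤ ε * (20 * ((N : ℝ) + 1) * Bt) := by
          have : 0 ≤ ε * ((N : ℝ) + 1) * Bt := by positivity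
          nlinarith
  have hηB : η * (2 * B₀ + 1) * (5 * N) ≤ ε / 4 := by
    rw [hη, div_mul_eq_mul_div, div_mul_eq_mul_div, div_le_div_iff₀ (by positivity) (by norm_num)]
    have h1 : (2 * B₀ + 1) ≤ Bt := by rw [hBt]; nlinarith
    have h2 : (N : ℝ) ≤ N + 1 := by linarith
    calc ε * (2 * B₀ + 1) * (5 * N) * 4 ≤ ε * Bt * (5 * ((N : ℝ) + 1)) * 4 := by
          gcongr
      _ = ε * (20 * ((N : ℝ) + 1) * Bt) := by ring
  -- the size of `g U`
  set T : ℝ := C₂ * X ^ (η * (2 * B₀ + 1)) with hT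
  have hT1 : 1 ≤ T := one_le_mul_of_one_le_of_one_le hC₂ (Real.one_le_rpow hX1 (by positivity))
  have hg1 : (1 : ℝ) ≤ nm g := by exact_mod_cast nm_pos.2 hg.ne_zero
  have hτgU : ∀ U ∈ Us, (tau (g * U) : ℝ) ≤ T := by
    intro U hU
    have hUp := (hUs U hU).1
    have h0 : g * U ≠ 0 := (hg.mul hUp).ne_zero
    refine (hτ _ h0).trans ?_
    rw [hT]
    refine mul_le_mul_of_nonneg_left ?_ (by linarith)
    have h1 : (nm (g * U) : ℝ) ≤ X ^ (2 * B₀ + 1) := by
      rw [nm_mul]
      push_cast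
      have h2 : (nm U : ℝ) ≤ Real.exp 1 * X ^ B₀ := by
        have : (nm U : ℝ) ≤ X2 := by exact_mod_cast hUn U hU
        linarith
      have h3 : Real.exp 1 ≤ X := by
        have := Real.exp_one_lt_d9
        linarith
      calc (nm g : ℝ) * nm U ≤ X ^ B₀ * (X * X ^ B₀) := by
            refine mul_le_mul hgX (h2.trans ?_) (Nat.cast_nonneg _) (by positivity)
            exact mul_le_mul_of_nonneg_right h3 (by positivity)
        _ = X ^ (2 * B₀ + 1) := by
            have e : (2 * B₀ + 1) = B₀ + (1 + B₀) := by ring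
            rw [e, Real.rpow_add hX0, Real.rpow_add hX0, Real.rpow_one]
    calc (nm (g * U) : ℝ) ^ η ≤ (X ^ (2 * B₀ + 1)) ^ η :=
          Real.rpow_le_rpow (Nat.cast_nonneg _) h1 hη0.le
      _ = X ^ (η * (2 * B₀ + 1)) := by rw [← Real.rpow_mul hX0.le]; congr 1; ring
  have hTuU : ∀ U ∈ Us, ((Tu (Fin n) U).card : ℝ) ≤ T ^ Fintype.card (Fin n) := by
    intro U hU
    have hUp := (hUs U hU).1
    have h0 : g * U ≠ 0 := (hg.mul hUp).ne_zero
    have h1 : ((Tu (Fin n) U).card : ℝ) ≤ (tau U : ℝ) ^ Fintype.card (Fin n) := by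
      exact_mod_cast card_Tu_le (ι := Fin n) U
    refine h1.trans (pow_le_pow_left₀ (Nat.cast_nonneg _) ?_ _)
    have h2 : (tau U : ℝ) ≤ tau (g * U) := by
      exact_mod_cast Div277.tau_le_of_dvd h0 (dvd_mul_left U g)
    exact h2.trans (hτgU U hU)
  -- one tuple
  set B : ℝ := (C₁ * T ^ 3 * ((Real.log X' + 1) ^ 2 * (Real.log X2 + 1))) ^ n *
    (D * (Bd * Real.exp r)) with hB
  have hone : ∀ a ∈ Tu (Fin n) g, ∑ U ∈ Us,
      ∑ κ ∈ (bl (Real.exp k)).filter (fun κ => CubeFree (κ * U)),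
      ‖∑ u ∈ Tu (Fin n) U, scS s (fun i => a i * u i) *
        KS Kn (sqc (q * g * U) (alW h (shS (shS s a) u)
          (fun i => WN z D0 (f i) (a i * u i)))) (κ * U)‖ ^ 2 ≤ B := by
    intro a ha
    have hap : ∀ i, IsPrim (a i) := ((mem_Tu).1 ha).1
    have hapos : ∀ i, (0 : ℝ) < nm (a i) := fun i => by
      exact_mod_cast nm_pos.2 (hap i).ne_zero
    have halog : ∀ i, 0 ≤ Real.log (nm (a i)) := fun i => by
      apply Real.log_nonneg
      exact_mod_cast nm_pos.2 (hap i).ne_zero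
    have hglog : Real.log (nm g) = ∑ i, Real.log (nm (a i)) := by
      rw [← ((mem_Tu).1 ha).2, nm_prodI]
      push_cast
      rw [Real.log_prod fun i _ => (hapos i).ne']
    have hW : ∀ u : Fin n → Eis, WSy z D0 (fun i => WN z D0 (f i) (a i * u i))
        (fun i => cN z D0 (f i) (a i * u i)) (fun _ _ => false) :=
      fun u => ⟨fun i m _ => rfl, fun i d hd => cN_sm hd⟩
    refine (H (Fin n) (shS s a) (fun i => sh_OK (hsOK i) (hap i)) X' hX'1 (fun i => ?_) z D0
      (fun u i => WN z D0 (f i) (a i * u i)) (fun u i => cN z D0 (f i) (a i * u i))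
      hW (q * g) (Real.exp k) (Real.exp_pos _).le Us X2 hX21
      (fun U hU => ⟨(hUs U hU).1, hUn U hU⟩)
      (Bd * Real.exp r) D T (mul_nonneg hBd (Real.exp_pos _).le) hD00 hT1 ?_ hTuU ?_ ?_
      (fun u => scS s (fun i => a i * u i)) ?_).trans (le_of_eq ?_)
    · exact (mul_le_mul_of_nonneg_right (sh_Y_le (hsOK i).Y0 (hap i)) (Real.exp_pos _).le).trans
        (hsX i)
    · intro U hU u hu i d _ _
      have hup : ∀ i, IsPrim (u i) := ((mem_Tu).1 hu).1
      have h0 : g * U ≠ 0 := (hg.mul (hUs U hU).1).ne_zero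
      refine (norm_cN_le z D0 (f i) ((hap i).mul (hup i)).ne_zero d).trans ?_
      have h2 : (tau (a i * u i) : ℝ) ≤ tau (g * U) := by
        exact_mod_cast Div277.tau_le_of_dvd h0 (mul_dvd_mul (Tu_dvd ha i) (Tu_dvd hu i))
      exact h2.trans (hτgU U hU)
    · intro j hj0 hj
      rw [Fintype.card_fin] at hj ⊢
      have hj1 : (1 : ℝ) ≤ nm j := by exact_mod_cast nm_pos.2 hj0
      have h1 : (nm j : ℝ) ≤ A ^ N * X ^ (1 + N * (B₀ + 1)) := by
        have h2 : Real.exp k ≤ X := by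
          calc Real.exp k ≤ Real.exp (Real.log X) := Real.exp_le_exp.2 hkX
            _ = X := Real.exp_log hX0
        have hXB : (1 : ℝ) ≤ X ^ (B₀ + 1) := Real.one_le_rpow hX1 (by linarith)
        have h3 : Real.exp 2 * X2 * X' ≤ A * X ^ (B₀ + 1) := by
          calc Real.exp 2 * X2 * X' ≤ Real.exp 2 * (Real.exp 1 * X ^ B₀) *
                (2 * Real.exp R * X) := by gcongr
            _ = A * X ^ (B₀ + 1) := by
                rw [hA, Real.rpow_add hX0, Real.rpow_one]; ring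
        have h4 : 1 ≤ A * X ^ (B₀ + 1) := one_le_mul_of_one_le_of_one_le hA1 hXB
        calc (nm j : ℝ) ≤ Real.exp k * (Real.exp 2 * X2 * X') ^ n := hj
          _ ≤ X * (A * X ^ (B₀ + 1)) ^ n := by
              refine mul_le_mul h2 (pow_le_pow_left₀ (by positivity) h3 n) (by positivity) hX0.le
          _ ≤ X * (A * X ^ (B₀ + 1)) ^ N :=
              mul_le_mul_of_nonneg_left (pow_le_pow_right₀ h4 hlen) hX0.le
          _ = A ^ N * X ^ (1 + N * (B₀ + 1)) := by
              have e : X ^ ((N : ℝ) * (B₀ + 1)) = (X ^ (B₀ + 1)) ^ N := by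
                rw [← Real.rpow_natCast (X ^ (B₀ + 1)), ← Real.rpow_mul hX0.le]
                congr 1; ring
              have e3 : X ^ (1 + (N : ℝ) * (B₀ + 1)) = X * (X ^ (B₀ + 1)) ^ N := by
                rw [Real.rpow_add hX0 1, Real.rpow_one, e]
              rw [e3, mul_pow]; ring
      have h5 : (tau j : ℝ) ≤ C₂ * (nm j : ℝ) ^ η := hτ j hj0
      have h6 : (1 : ℝ) ≤ C₂ * (nm j : ℝ) ^ η := by
        have := Real.one_le_rpow hj1 hη0.le
        nlinarith
      calc (tau j : ℝ) ^ (2 * n) ≤ (C₂ * (nm j : ℝ) ^ η) ^ (2 * n) :=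
            pow_le_pow_left₀ (Nat.cast_nonneg _) h5 _
        _ ≤ (C₂ * (nm j : ℝ) ^ η) ^ (2 * N) := pow_le_pow_right₀ h6 (by omega)
        _ = C₂ ^ (2 * N) * (nm j : ℝ) ^ (η * (2 * N)) := by
            rw [mul_pow, ← Real.rpow_natCast ((nm j : ℝ) ^ η), ← Real.rpow_mul (by positivity)]
            push_cast
            rfl
        _ ≤ C₂ ^ (2 * N) * (A ^ N * X ^ (1 + N * (B₀ + 1))) ^ (η * (2 * N)) := by
            refine mul_le_mul_of_nonneg_left ?_ (by positivity)
            exact Real.rpow_le_rpow (by positivity) h1 (by positivity)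
        _ = C₂ ^ (2 * N) * ((A ^ N) ^ (η * (2 * N)) *
              X ^ ((1 + N * (B₀ + 1)) * (η * (2 * N)))) := by
            rw [Real.mul_rpow (by positivity) (by positivity), ← Real.rpow_mul hX0.le]
        _ ≤ C₂ ^ (2 * N) * ((A ^ N) ^ (η * (2 * N)) * X ^ (ε / 4)) := by
            refine mul_le_mul_of_nonneg_left ?_ (by positivity)
            refine mul_le_mul_of_nonneg_left ?_ (by positivity)
            refine Real.rpow_le_rpow_of_exponent_le hX1 ?_
            linarith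
        _ = D := by rw [hD]; ring
    · rintro b' nn m Y t ⟨U, hU, u, hu, x, hx⟩ hY
      have hup : ∀ i, IsPrim (u i) := ((mem_Tu).1 hu).1
      have hupos : ∀ i, (0 : ℝ) < nm (u i) := fun i => by
        exact_mod_cast nm_pos.2 (hup i).ne_zero
      have hUlog : Real.log (nm U) = ∑ i, Real.log (nm (u i)) := by
        rw [← ((mem_Tu).1 hu).2, nm_prodI]
        push_cast
        rw [Real.log_prod fun i _ => (hupos i).ne']
      have hUb := abs_le.1 (hUs U hU).2.2
      -- the child list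
      set gg : Fin n → Pf := fun i => (mkc (ps.get i).1 (vk (shS s a) b' i) (Y i) (t i), false)
        with hgg
      set ps' := List.ofFn gg with hps'
      set l := k + ∑ i, ((nn i : ℝ) + m i + 2) with hl
      have hY0 : ∀ i, 0 < Y i := fun i => by have := (hY i).1; linarith
      have hlogs : ∀ i, Real.log (shS s a i).Y = (ps.get i).1.z - Real.log (nm (a i)) := by
        intro i
        show Real.log (Real.exp (ps.get i).1.z / nm (a i)) = _
        rw [Real.log_div (Real.exp_pos _).ne' (hapos i).ne', Real.log_exp]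
      have hgz : ∀ i, (gg i).1.z = Real.log (Y i) := fun i => rfl
      have hm0 : ∀ i, (0 : ℝ) ≤ m i := fun i => Nat.cast_nonneg _
      have hnn0 : ∀ i, (0 : ℝ) ≤ nn i := fun i => Nat.cast_nonneg _
      have hup' : ∀ i, Real.log (Y i) ≤
          (ps.get i).1.z - Real.log (nm (a i)) - nn i - m i + 2 * R := by
        intro i
        have := (abs_le.1 (hY i).2).2
        rw [hlogs i] at this
        linarith
      have hlo' : ∀ i, (ps.get i).1.z - Real.log (nm (a i)) - nn i - m i - (2 * R + 2) ≤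
          Real.log (Y i) := by
        intro i
        have := (abs_le.1 (hY i).2).1
        rw [hlogs i] at this
        linarith
      have hsc : ∀ c : ℝ, ∑ _i : Fin n, c = n * c := fun c => by
        rw [Finset.sum_const, Finset.card_univ, Fintype.card_fin, nsmul_eq_mul]
      have hLF' : LF ps' = ∑ i, Real.log (Y i) := by
        rw [hps', LF_ofFn]
        exact Finset.sum_congr rfl fun i _ => hgz i
      have hLF : LF ps = ∑ i, (ps.get i).1.z := LF_get ps
      -- the sums of the indices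
      set Sn : ℝ := ∑ i, (nn i : ℝ) with hSn
      set Sm' : ℝ := ∑ i, (m i : ℝ) with hSm'
      have hSn1 : Sn ≤ b + 1 := by
        have h1 : Sn ≤ Real.log (nm U) := by
          rw [hSn, hUlog]
          exact Finset.sum_le_sum fun i _ => (hx i).2.2.1.1
        linarith [hUb.2]
      have hSn2 : b - 1 - n ≤ Sn := by
        have h1 : Real.log (nm U) ≤ Sn + n := by
          rw [hSn, hUlog]
          have h2 : ∑ i, Real.log (nm (u i)) ≤ ∑ i : Fin n, ((nn i : ℝ) + 1) :=
            Finset.sum_le_sum fun i _ => (hx i).2.2.1.2.le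
          rw [Finset.sum_add_distrib, hsc, mul_one] at h2
          exact h2
        linarith [hUb.1]
      have hSn0 : 0 ≤ Sn := Finset.sum_nonneg fun i _ => hnn0 i
      have hSm0 : 0 ≤ Sm' := Finset.sum_nonneg fun i _ => hm0 i
      have hSU : LF ps' ≤ LF ps - Real.log (nm g) - Sn - Sm' + n * (2 * R) := by
        rw [hLF', hLF, hglog, hSn, hSm', ← hsc, ← Finset.sum_sub_distrib,
          ← Finset.sum_sub_distrib, ← Finset.sum_sub_distrib, ← Finset.sum_add_distrib]
        exact Finset.sum_le_sum fun i _ => hup' i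
      have hSL : LF ps - Real.log (nm g) - Sn - Sm' - n * (2 * R + 2) ≤ LF ps' := by
        rw [hLF', hLF, hglog, hSn, hSm', ← hsc, ← Finset.sum_sub_distrib,
          ← Finset.sum_sub_distrib, ← Finset.sum_sub_distrib, ← Finset.sum_sub_distrib]
        exact Finset.sum_le_sum fun i _ => hlo' i
      have hnR1 : (n : ℝ) * (2 * R + 2) ≤ N * (2 * R + 2) :=
        mul_le_mul_of_nonneg_right hnN (by linarith)
      have hnR0 : (n : ℝ) * (2 * R) + 2 * n = n * (2 * R + 2) := by ring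
      have hlsum : ∑ i, ((nn i : ℝ) + m i + 2) = Sn + Sm' + 2 * n := by
        rw [Finset.sum_add_distrib, Finset.sum_add_distrib, hsc, ← hSn, ← hSm']
        ring
      have hl0 : 0 ≤ l := by rw [hl, hlsum]; linarith
      have hchild : List.Forall₂ (ChG r) ps' ps := by
        refine forall₂_ofFnG ps gg fun i => ⟨rfl, rfl, ?_, ?_, ?_, fun _ => rfl⟩
        · intro hu'
          show vk (shS s a) b' i = .one
          have hu2 : (s i).u = .one := hu'
          have hu3 : (shS s a i).u = .one := by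
            show UT.sub (s i).u (a i) = .one
            unfold UT.sub
            rw [hu2, if_neg (by simp)]
          unfold vk
          rw [if_neg (by rw [hu3]; simp), hu3]
        · rw [hgz i]
          exact Real.log_nonneg (hY i).1
        · rw [hgz i]
          have := hup' i
          have := hm0 i
          have := hnn0 i
          have := halog i
          have h7 : (0 : ℝ) ≤ N := hN0
          linarith
      have hnat : ∀ p ∈ ps', p.2 = false := by
        intro p hp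
        rw [hps', List.mem_ofFn] at hp
        obtain ⟨i, hi⟩ := hp
        rw [← hi]
      have hupper : LF ps' ≤ LF ps - Real.log (nm g) - b + r := by
        rw [hr, hr₁]
        linarith
      have hlower : LF ps - Real.log (nm g) - b - N * Real.log D0 - r ≤ LF ps' := by
        have hlD : 0 ≤ Real.log D0 := Real.log_nonneg hD0
        have h1 : ∀ i, (m i : ℝ) ≤ Real.log D0 := by
          intro i
          have h2 : (nm (x i) : ℝ) ≤ D0 := cN_small hD0 ((hap i).mul (hup i)) (hx i).2.1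
          have h3 : (0 : ℝ) < nm (x i) := by exact_mod_cast nm_pos.2 (hx i).1.ne_zero
          have h4 := Real.log_le_log h3 h2
          linarith [(hx i).2.2.2.1]
        have h2 : Sm' ≤ n * Real.log D0 := by
          rw [hSm', ← hsc]
          exact Finset.sum_le_sum fun i _ => h1 i
        have h6 : (n : ℝ) * Real.log D0 ≤ N * Real.log D0 :=
          mul_le_mul_of_nonneg_right hnN hlD
        rw [hr, hr₁]
        linarith
      have hlin : |l - (k + LF ps - Real.log (nm g) - LF ps')| ≤ r := by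
        rw [hl, hlsum, abs_le, hr, hr₁]
        constructor <;> linarith
      have h1 := hyp l ps' hl0 hchild hnat hupper hlower hlin
      have e1 : SFK Kn z D0 (q * g) P h l ps' = VK Kn (Real.exp k *
          Real.exp (∑ i, ((nn i : ℝ) + m i + 2)))
          (sqc (q * g) (alf z D0 h (cellP (shS s a) (vk (shS s a) b') Y t)
            (fun _ => false))) := by
        unfold SFK
        rw [hl, Real.exp_add, hps', alF_ofFn]
        congr 3
        funext i
        exact mkc_pc P (ps.get i).1 (vk (shS s a) b' i) (hY0 i) (t i)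
      rw [← e1]
      refine h1.trans ?_
      have e2 : cstF ps' ps = ∏ i, (1 + |t i - (shS s a i).t|) := by
        rw [hps', cstF_ofFn]
        rfl
      have e3 : cstF ps' ps ^ M = ∏ i, (1 + |t i - (shS s a i).t|) ^ M := by
        rw [e2, Real.finsetProd_rpow _ _ fun i _ => by positivity]
      rw [e3]
      have h3 : Real.exp (LF ps' + Real.log (nm g) + b - LF ps) ≤
          Real.exp r * Real.exp (-∑ i, ((m i : ℝ) + 1)) := by
        rw [← Real.exp_add, Finset.sum_add_distrib, hsc, ← hSm']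
        refine Real.exp_le_exp.2 ?_
        rw [hr, hr₁]
        linarith
      have h4 : 0 ≤ ∏ i, (1 + |t i - (shS s a i).t|) ^ M :=
        Finset.prod_nonneg fun i _ => Real.rpow_nonneg (by positivity) _
      calc Bd * (∏ i, (1 + |t i - (shS s a i).t|) ^ M) *
            Real.exp (LF ps' + Real.log (nm g) + b - LF ps)
          ≤ Bd * (∏ i, (1 + |t i - (shS s a i).t|) ^ M) *
            (Real.exp r * Real.exp (-∑ i, ((m i : ℝ) + 1))) :=
            mul_le_mul_of_nonneg_left h3 (mul_nonneg hBd h4)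
        _ = _ := by ring
    · intro U hU u hu
      have hup : ∀ i, IsPrim (u i) := ((mem_Tu).1 hu).1
      exact norm_scS_le hsOK fun i => (hap i).mul (hup i)
    · rw [hB, Fintype.card_fin]
  -- all tuples
  have hB0 : 0 ≤ B := by
    have h3 : 0 ≤ C₁ := by linarith
    positivity
  have hcardTu : ((Tu (Fin n) g).card : ℝ) ≤ T ^ N ∨ Us = ∅ := by
    rcases Us.eq_empty_or_nonempty with h0 | ⟨U, hU⟩
    · exact Or.inr h0
    · left
      have hUp := (hUs U hU).1
      have h0 : g * U ≠ 0 := (hg.mul hUp).ne_zero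
      have h1 : ((Tu (Fin n) g).card : ℝ) ≤ (tau g : ℝ) ^ n := by
        have := card_Tu_le (ι := Fin n) g
        rw [Fintype.card_fin] at this
        exact_mod_cast this
      have h2 : (tau g : ℝ) ≤ T := by
        have h2 : (tau g : ℝ) ≤ tau (g * U) := by
          exact_mod_cast Div277.tau_le_of_dvd h0 (dvd_mul_right g U)
        exact h2.trans (hτgU U hU)
      calc ((Tu (Fin n) g).card : ℝ) ≤ (tau g : ℝ) ^ n := h1
        _ ≤ T ^ n := pow_le_pow_left₀ (Nat.cast_nonneg _) h2 n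
        _ ≤ T ^ N := pow_le_pow_right₀ hT1 hlen
  rcases hcardTu with hcardTu | hUe
  swap
  · rw [hUe, Finset.sum_empty]
    have h3 : 0 ≤ C₁ := by linarith
    have h4 : 0 ≤ C₄ := by linarith
    have h5 : 0 ≤ C₃ := by linarith
    have h6 : 0 ≤ C₂ := by linarith
    positivity
  have hmain : ∑ U ∈ Us, ∑ κ ∈ (bl (Real.exp k)).filter (fun κ => CubeFree (κ * U)),
      ‖KS Kn (sqc (q * (g * U)) (CM106.sub (alF z D0 P h ps) (g * U))) (κ * U)‖ ^ 2 ≤
      ((Tu (Fin n) g).card : ℝ) * ∑ a ∈ Tu (Fin n) g, B := by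
    have h1 : ∀ U ∈ Us, ∀ κ ∈ (bl (Real.exp k)).filter (fun κ => CubeFree (κ * U)),
        ‖KS Kn (sqc (q * (g * U)) (CM106.sub (alF z D0 P h ps) (g * U))) (κ * U)‖ ^ 2 ≤
        ((Tu (Fin n) g).card : ℝ) * ∑ a ∈ Tu (Fin n) g,
          ‖∑ u ∈ Tu (Fin n) U, scS s (fun i => a i * u i) *
            KS Kn (sqc (q * g * U) (alW h (shS (shS s a) u)
              (fun i => WN z D0 (f i) (a i * u i)))) (κ * U)‖ ^ 2 := by
      intro U hU κ _
      rw [hseq, KS_sub_alfN hKn hR hsOK z D0 f q hg (hUs U hU).1 (hUs U hU).2.1 (κ * U)]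
      exact CR2.norm_sum_sq_le_card _ _
    refine (Finset.sum_le_sum fun U hU => Finset.sum_le_sum fun κ hκ => h1 U hU κ hκ).trans ?_
    have e2 : ∀ U ∈ Us, ∑ κ ∈ (bl (Real.exp k)).filter (fun κ => CubeFree (κ * U)),
        ((Tu (Fin n) g).card : ℝ) * ∑ a ∈ Tu (Fin n) g,
          ‖∑ u ∈ Tu (Fin n) U, scS s (fun i => a i * u i) *
            KS Kn (sqc (q * g * U) (alW h (shS (shS s a) u)
              (fun i => WN z D0 (f i) (a i * u i)))) (κ * U)‖ ^ 2 =
        ((Tu (Fin n) g).card : ℝ) * ∑ a ∈ Tu (Fin n) g,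
          ∑ κ ∈ (bl (Real.exp k)).filter (fun κ => CubeFree (κ * U)),
          ‖∑ u ∈ Tu (Fin n) U, scS s (fun i => a i * u i) *
            KS Kn (sqc (q * g * U) (alW h (shS (shS s a) u)
              (fun i => WN z D0 (f i) (a i * u i)))) (κ * U)‖ ^ 2 := by
      intro U _
      rw [← Finset.mul_sum, Finset.sum_comm]
    rw [Finset.sum_congr rfl e2, ← Finset.mul_sum, Finset.sum_comm]
    exact mul_le_mul_of_nonneg_left (Finset.sum_le_sum fun a ha => hone a ha)
      (Nat.cast_nonneg _)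
  refine hmain.trans ?_
  rw [Finset.sum_const, nsmul_eq_mul]
  have hlogpow : (C₁ * T ^ 3 * ((Real.log X' + 1) ^ 2 * (Real.log X2 + 1))) ^ n ≤
      C₁ ^ N * T ^ (3 * N) * ((C₃ * X ^ (ε / 4)) * ((B₀ + 1) ^ N * (C₄ * X ^ (ε / 4)))) := by
    have h3 : 1 ≤ C₁ * T ^ 3 * ((Real.log X' + 1) ^ 2 * (Real.log X2 + 1)) :=
      one_le_mul_of_one_le_of_one_le (one_le_mul_of_one_le_of_one_le hC₁ (one_le_pow₀ hT1))
        (one_le_mul_of_one_le_of_one_le (one_le_pow₀ (by linarith)) (by linarith))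
    calc (C₁ * T ^ 3 * ((Real.log X' + 1) ^ 2 * (Real.log X2 + 1))) ^ n ≤
          (C₁ * T ^ 3 * ((Real.log X' + 1) ^ 2 * (Real.log X2 + 1))) ^ N :=
          pow_le_pow_right₀ h3 hlen
      _ = C₁ ^ N * T ^ (3 * N) * ((Real.log X' + 1) ^ (2 * N) * (Real.log X2 + 1) ^ N) := by
          have e4 : ∀ t y w : ℝ, (C₁ * t ^ 3 * (y ^ 2 * w)) ^ N =
              C₁ ^ N * t ^ (3 * N) * (y ^ (2 * N) * w ^ N) := by
            intro t y w
            rw [mul_pow, mul_pow, mul_pow, ← pow_mul, ← pow_mul]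
          exact e4 T _ _
      _ ≤ _ := by
          refine mul_le_mul_of_nonneg_left ?_ (by positivity)
          refine mul_le_mul ?_ ?_ (by positivity) (by positivity)
          · refine le_trans ?_ (hlog X hX1)
            exact pow_le_pow_left₀ (by linarith) (by rw [hc₀]; linarith) _
          · calc (Real.log X2 + 1) ^ N ≤ ((B₀ + 1) * (Real.log X + 2)) ^ N :=
                  pow_le_pow_left₀ (by linarith) hlX2 N
              _ = (B₀ + 1) ^ N * (Real.log X + 2) ^ N := mul_pow _ _ _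
              _ ≤ _ := mul_le_mul_of_nonneg_left (hlog4 X hX1) (by positivity)
  have hDB : 0 ≤ D * (Bd * Real.exp r) := by positivity
  have hBle : B ≤ C₁ ^ N * T ^ (3 * N) *
      ((C₃ * X ^ (ε / 4)) * ((B₀ + 1) ^ N * (C₄ * X ^ (ε / 4)))) *
      (D * (Bd * Real.exp r)) := mul_le_mul_of_nonneg_right hlogpow hDB
  have hTT : T ^ (5 * N) ≤ C₂ ^ (5 * N) * X ^ (ε / 4) := by
    rw [hT, mul_pow]
    refine mul_le_mul_of_nonneg_left ?_ (by positivity)
    rw [← Real.rpow_natCast (X ^ (η * (2 * B₀ + 1))), ← Real.rpow_mul hX0.le]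
    refine Real.rpow_le_rpow_of_exponent_le hX1 ?_
    push_cast
    linarith
  have hT0 : 0 ≤ T := by linarith
  have hC₁0 : 0 ≤ C₁ := by linarith
  have hC₃0 : 0 ≤ C₃ := by linarith
  have hC₄0 : 0 ≤ C₄ := by linarith
  have hTu2 : ((Tu (Fin n) g).card : ℝ) * ((Tu (Fin n) g).card : ℝ) ≤ T ^ (2 * N) := by
    calc ((Tu (Fin n) g).card : ℝ) * ((Tu (Fin n) g).card : ℝ) ≤ T ^ N * T ^ N :=
          mul_le_mul hcardTu hcardTu (Nat.cast_nonneg _) (by positivity)
      _ = T ^ (2 * N) := by rw [two_mul, pow_add]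
  calc ((Tu (Fin n) g).card : ℝ) * (((Tu (Fin n) g).card : ℝ) * B)
      = (((Tu (Fin n) g).card : ℝ) * ((Tu (Fin n) g).card : ℝ)) * B := by ring
    _ ≤ T ^ (2 * N) * (C₁ ^ N * T ^ (3 * N) *
      ((C₃ * X ^ (ε / 4)) * ((B₀ + 1) ^ N * (C₄ * X ^ (ε / 4)))) *
      (D * (Bd * Real.exp r))) := mul_le_mul hTu2 hBle hB0 (by positivity)
    _ = T ^ (5 * N) * (C₁ ^ N *
      ((C₃ * X ^ (ε / 4)) * ((B₀ + 1) ^ N * (C₄ * X ^ (ε / 4)))) *
      (D * (Bd * Real.exp r))) := by
        have e : T ^ (5 * N) = T ^ (2 * N) * T ^ (3 * N) := by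
          rw [← pow_add]; congr 1; ring
        rw [e]; ring
    _ ≤ (C₂ ^ (5 * N) * X ^ (ε / 4)) * (C₁ ^ N *
      ((C₃ * X ^ (ε / 4)) * ((B₀ + 1) ^ N * (C₄ * X ^ (ε / 4)))) *
      (D * (Bd * Real.exp r))) := mul_le_mul_of_nonneg_right hTT (by positivity)
    _ = _ := by
        rw [hD]
        have e : X ^ ε = X ^ (ε / 4) * X ^ (ε / 4) * X ^ (ε / 4) * X ^ (ε / 4) := by
          rw [← Real.rpow_add hX0, ← Real.rpow_add hX0, ← Real.rpow_add hX0]; congr 1; ring
        rw [e]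
        ring

end Crest.Agent.R017.LegK545
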