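import Crest.Agent.R017.Rough_381
import Crest.Agent.R017.HPL_842

/-!
# Row 17, RG3 (helper381): truncated Legendre weights (architect's scheme #17264, #17429)

* `natw z D0 n = ∑_{d ∣ n, d smooth, nm d ≤ D0} μ d`
* `ct D0 t = ∑_{d ∣ t} μ d [nm (t/d) > D0 or nm d > D0]`, `ct D0 t = 0` for `nm t ≤ D0`
* `leg_one` : `1 = ∑_{x ∣ n, x smooth} (nm x ≤ D0 : natw (n/x); nm x > D0 : ct x)`
* `natw_of_smooth` : `natw n = - ∑_{t ∣ n, t smooth, nm t > D0} μ t` if `n` has a small prime factor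
-/

set_option autoImplicit false
set_option linter.unusedSectionVars false
set_option linter.unusedVariables false

noncomputable section

open Complex
open scoped ComplexConjugate

namespace Crest.Agent.R017.Leg381

open Crest.Agent.R012 Crest.Agent.R012.Eis
open Crest.Agent.R012.Mob705
open Crest.Agent.R012.Div277 (tau dvs mem_dvs isPrim_of_mem_dvs dvd_of_mem_dvs)
open Crest.Agent.R017.TP320 (mul_div_of_mem mul_div_left')
open Crest.Agent.R017.Rough381

open Classical in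
/-- **the truncated Legendre weight** -/
def natw (z D0 : ℝ) (n : Eis) : ℂ :=
  ∑ d ∈ dvs n, if Sm z d ∧ (nm d : ℝ) ≤ D0 then (muE d : ℂ) else 0

open Classical in
/-- the coefficient of a large smooth divisor -/
def ct (D0 : ℝ) (t : Eis) : ℂ :=
  ∑ d ∈ dvs t, if (nm (t / d) : ℝ) ≤ D0 ∧ (nm d : ℝ) ≤ D0 then 0 else (muE d : ℂ)

open Classical in
/-- the coefficient of a smooth divisor -/
def cf (z D0 : ℝ) (x : Eis) : ℂ :=
  if Sm z x then (if (nm x : ℝ) ≤ D0 then 1 else ct D0 x) else 0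

open Classical in
/-- the weight of the complementary divisor -/
def wx (z D0 : ℝ) (x y : Eis) : ℂ := if (nm x : ℝ) ≤ D0 then natw z D0 y else 1

lemma norm_muE_le (d : Eis) : ‖(muE d : ℂ)‖ ≤ 1 := by
  classical
  rw [Complex.norm_intCast]
  have := abs_muE d
  have h2 : |muE d| ≤ 1 := by
    rw [this]; split_ifs <;> norm_num
  exact_mod_cast h2

lemma norm_natw_le (z D0 : ℝ) (n : Eis) : ‖natw z D0 n‖ ≤ tau n := by
  classical
  unfold natw
  refine (norm_sum_le _ _).trans ?_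
  calc ∑ d ∈ dvs n, ‖(if Sm z d ∧ (nm d : ℝ) ≤ D0 then (muE d : ℂ) else 0)‖ ≤
        ∑ d ∈ dvs n, (1 : ℝ) := by
        refine Finset.sum_le_sum fun d _ => ?_
        split_ifs
        · exact norm_muE_le d
        · simp
    _ = tau n := by simp [tau]

lemma norm_ct_le (D0 : ℝ) (n : Eis) : ‖ct D0 n‖ ≤ tau n := by
  classical
  unfold ct
  refine (norm_sum_le _ _).trans ?_
  calc ∑ d ∈ dvs n, ‖(if (nm (n / d) : ℝ) ≤ D0 ∧ (nm d : ℝ) ≤ D0 then 0 else (muE d : ℂ))‖ ≤
        ∑ d ∈ dvs n, (1 : ℝ) := by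
        refine Finset.sum_le_sum fun d _ => ?_
        split_ifs
        · simp
        · exact norm_muE_le d
    _ = tau n := by simp [tau]

lemma one_le_tau {n : Eis} (hn : n ≠ 0) : (1 : ℝ) ≤ tau n := by
  have : 1 ∈ dvs n := (mem_dvs hn).2 ⟨isPrim_one, one_dvd n⟩
  have h : 0 < (dvs n).card := Finset.card_pos.2 ⟨1, this⟩
  unfold tau
  exact_mod_cast h

lemma norm_cf_le (z D0 : ℝ) {x : Eis} (hx : x ≠ 0) : ‖cf z D0 x‖ ≤ tau x := by
  unfold cf
  split_ifs
  · rw [norm_one]; exact one_le_tau hx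
  · exact norm_ct_le D0 x
  · rw [norm_zero]; exact Nat.cast_nonneg _

lemma nm_div_mul {t d : Eis} (hd : d ∈ dvs t) : nm d * nm (t / d) = nm t := by
  rw [← nm_mul, mul_div_of_mem hd]

lemma ct_eq_zero {D0 : ℝ} {t : Eis} (ht : t ≠ 0) (h : (nm t : ℝ) ≤ D0) : ct D0 t = 0 := by
  classical
  unfold ct
  refine Finset.sum_eq_zero fun d hd => ?_
  have h1 := nm_div_mul hd
  have h2 : nm d ∣ nm t := ⟨_, h1.symm⟩
  have h3 : nm (t / d) ∣ nm t := ⟨_, by rw [mul_comm]; exact h1.symm⟩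
  have ht0 : 0 < nm t := nm_pos.2 ht
  rw [if_pos]
  constructor
  · have : (nm (t / d) : ℝ) ≤ nm t := by exact_mod_cast Nat.le_of_dvd ht0 h3
    linarith
  · have : (nm d : ℝ) ≤ nm t := by exact_mod_cast Nat.le_of_dvd ht0 h2
    linarith

/-- **large smooth divisors have coefficient `0`** -/
lemma ct_eq_zero_large {D0 : ℝ} {t : Eis} (ht : IsPrim t) (h : D0 * D0 < (nm t : ℝ))
    (h1 : t ≠ 1) : ct D0 t = 0 := by
  classical
  have e : ct D0 t = ∑ d ∈ dvs t, (muE d : ℂ) := by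
    unfold ct
    refine Finset.sum_congr rfl fun d hd => ?_
    rw [if_neg]
    rintro ⟨h2, h3⟩
    have h4 : ((nm d : ℕ) : ℝ) * nm (t / d) = nm t := by exact_mod_cast nm_div_mul hd
    have h5 : (0 : ℝ) ≤ nm d := Nat.cast_nonneg _
    have h6 : (0 : ℝ) ≤ nm (t / d) := Nat.cast_nonneg _
    have h7 : (nm d : ℝ) * nm (t / d) ≤ D0 * D0 := mul_le_mul h3 h2 h6 (h5.trans h3)
    linarith
  rw [e]
  have h2 := sum_dvs_muE_one ht
  rw [if_neg h1] at h2
  exact_mod_cast h2

lemma div_mem_dvs {n d : Eis} (hn : IsPrim n) (hd : d ∈ dvs n) : n / d ∈ dvs n := by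
  rw [mem_dvs hn.ne_zero]
  have h := mul_div_of_mem hd
  refine ⟨(h.symm ▸ hn : IsPrim (d * (n / d))).of_mul_left (isPrim_of_mem_dvs hd), d, ?_⟩
  rw [mul_comm]; exact h.symm

lemma div_div_eq {t d : Eis} (ht : IsPrim t) (hd : d ∈ dvs t) : t / (t / d) = d := by
  have h := mul_div_of_mem hd
  have h0 : t / d ≠ 0 := (isPrim_of_mem_dvs (div_mem_dvs ht hd)).ne_zero
  conv_lhs => rw [← h]
  rw [mul_comm d (t / d)]
  have : (t / d) * d / (t / d) = d := mul_div_left' h0
  have e : (t / d * d) / (t / d * d / d) = (t / d * d) / (t / d) := by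
    rw [mul_comm (t / d) d, mul_div_left' (isPrim_of_mem_dvs hd).ne_zero]
  rw [e]
  exact this

open Classical in
/-- regrouping of pairs of smooth divisors -/
theorem regroup {z : ℝ} {n : Eis} (hn : IsPrim n) (F : Eis → Eis → ℂ) :
    ∑ t ∈ (dvs n).filter (Sm z), ∑ d ∈ dvs t, F (t / d) d =
      ∑ x ∈ (dvs n).filter (Sm z), ∑ d ∈ (dvs (n / x)).filter (Sm z), F x d := by
  rw [Finset.sum_sigma', Finset.sum_sigma']
  refine Finset.sum_bij' (fun p _ => ⟨p.1 / p.2, p.2⟩) (fun p _ => ⟨p.1 * p.2, p.2⟩)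
    ?_ ?_ ?_ ?_ ?_
  · rintro ⟨t, d⟩ hp
    rw [Finset.mem_sigma, Finset.mem_filter] at hp
    obtain ⟨⟨ht, hs⟩, hd⟩ := hp
    have htp := isPrim_of_mem_dvs ht
    have h1 := mul_div_of_mem hd
    have hx := div_mem_dvs htp hd
    have hxp := isPrim_of_mem_dvs hx
    have hdp := isPrim_of_mem_dvs hd
    have htn := dvd_of_mem_dvs ht
    have hxt := dvd_of_mem_dvs hx
    have hxn : t / d ∈ dvs n := (mem_dvs hn.ne_zero).2 ⟨hxp, hxt.trans htn⟩
    have hnx : IsPrim (n / (t / d)) := isPrim_of_mem_dvs (div_mem_dvs hn hxn)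
    rw [Finset.mem_sigma, Finset.mem_filter, Finset.mem_filter]
    refine ⟨⟨hxn, hs.of_dvd hxt⟩, ?_, hs.of_dvd (dvd_of_mem_dvs hd)⟩
    show d ∈ dvs (n / (t / d))
    rw [mem_dvs hnx.ne_zero]
    refine ⟨hdp, ?_⟩
    obtain ⟨m, hm⟩ := htn
    refine ⟨m, ?_⟩
    have h2 := mul_div_of_mem hxn
    apply mul_left_cancel₀ hxp.ne_zero
    rw [h2, hm]
    conv_lhs => rw [← h1]
    ring
  · rintro ⟨x, d⟩ hp
    rw [Finset.mem_sigma, Finset.mem_filter, Finset.mem_filter] at hp
    obtain ⟨⟨hx, hs⟩, hd, hsd⟩ := hp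
    have hxp := isPrim_of_mem_dvs hx
    have hdp := isPrim_of_mem_dvs hd
    have hnx : IsPrim (n / x) := isPrim_of_mem_dvs (div_mem_dvs hn hx)
    have h2 := mul_div_of_mem hx
    rw [Finset.mem_sigma, Finset.mem_filter]
    have htp : IsPrim (x * d) := hxp.mul hdp
    refine ⟨⟨(mem_dvs hn.ne_zero).2 ⟨htp, ?_⟩, hs.mul hsd⟩, ?_⟩
    · show x * d ∣ n
      rw [← h2]
      exact mul_dvd_mul_left x (dvd_of_mem_dvs hd)
    · show d ∈ dvs (x * d)
      exact (mem_dvs htp.ne_zero).2 ⟨hdp, Dvd.intro_left x rfl⟩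
  · rintro ⟨t, d⟩ hp
    rw [Finset.mem_sigma, Finset.mem_filter] at hp
    have h1 := mul_div_of_mem hp.2
    simp only [Sigma.mk.injEq, heq_eq_eq, and_true]
    rw [mul_comm]; exact h1
  · rintro ⟨x, d⟩ hp
    rw [Finset.mem_sigma, Finset.mem_filter, Finset.mem_filter] at hp
    obtain ⟨⟨hx, hs⟩, hd, hsd⟩ := hp
    have hdp := isPrim_of_mem_dvs hd
    simp only [Sigma.mk.injEq, heq_eq_eq, and_true]
    rw [mul_comm, mul_div_left' hdp.ne_zero]
  · rintro ⟨t, d⟩ _
    rfl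

open Classical in
/-- the full Legendre sum -/
theorem sum_smooth_muE {z : ℝ} {n : Eis} (hn : IsPrim n) :
    ∑ t ∈ (dvs n).filter (Sm z), ∑ d ∈ dvs t, (muE d : ℂ) = 1 := by
  have h1 : ∀ t ∈ (dvs n).filter (Sm z), ∑ d ∈ dvs t, (muE d : ℂ) = if t = 1 then 1 else 0 := by
    intro t ht
    have htp := isPrim_of_mem_dvs (Finset.mem_filter.1 ht).1
    have h := sum_dvs_muE_one htp
    have h2 : ((∑ d ∈ dvs t, muE d : ℤ) : ℂ) = ((if t = 1 then 1 else 0 : ℤ) : ℂ) := by rw [h]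
    push_cast at h2
    rw [h2]
  rw [Finset.sum_congr rfl h1, Finset.sum_ite_eq' ((dvs n).filter (Sm z)) 1 fun _ => (1 : ℂ)]
  rw [if_pos]
  rw [Finset.mem_filter]
  exact ⟨(mem_dvs hn.ne_zero).2 ⟨isPrim_one, one_dvd n⟩, Sm_one z⟩

/-- **identity (i)** -/
theorem leg_one {z D0 : ℝ} {n : Eis} (hn : IsPrim n) :
    ∑ x ∈ dvs n, cf z D0 x * wx z D0 x (n / x) = 1 := by
  classical
  have h0 := regroup (z := z) hn (fun x d => if (nm x : ℝ) ≤ D0 ∧ (nm d : ℝ) ≤ D0 then
    (muE d : ℂ) else 0)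
  have h1 := sum_smooth_muE (z := z) hn
  have e1 : ∑ x ∈ dvs n, cf z D0 x * wx z D0 x (n / x) =
      ∑ x ∈ (dvs n).filter (Sm z), (ct D0 x +
        if (nm x : ℝ) ≤ D0 then natw z D0 (n / x) else 0) := by
    rw [Finset.sum_filter]
    refine Finset.sum_congr rfl fun x hx => ?_
    have hx0 := (isPrim_of_mem_dvs hx).ne_zero
    unfold cf wx
    by_cases hs : Sm z x
    · rw [if_pos hs, if_pos hs]
      by_cases hD : (nm x : ℝ) ≤ D0
      · rw [if_pos hD, if_pos hD, if_pos hD, ct_eq_zero hx0 hD]; ring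
      · rw [if_neg hD, if_neg hD, if_neg hD]; ring
    · rw [if_neg hs, if_neg hs, zero_mul]
  rw [e1, Finset.sum_add_distrib]
  have e2 : ∑ x ∈ (dvs n).filter (Sm z), (if (nm x : ℝ) ≤ D0 then natw z D0 (n / x) else 0) =
      ∑ x ∈ (dvs n).filter (Sm z), ∑ d ∈ (dvs (n / x)).filter (Sm z),
        (if (nm x : ℝ) ≤ D0 ∧ (nm d : ℝ) ≤ D0 then (muE d : ℂ) else 0) := by
    refine Finset.sum_congr rfl fun x _ => ?_
    unfold natw
    rw [Finset.sum_filter]
    split_ifs with hD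
    · refine Finset.sum_congr rfl fun d _ => ?_
      by_cases hs : Sm z d
      · by_cases h2 : (nm d : ℝ) ≤ D0
        · rw [if_pos ⟨hs, h2⟩, if_pos hs, if_pos ⟨hD, h2⟩]
        · rw [if_neg (fun h => h2 h.2), if_pos hs, if_neg (fun h => h2 h.2)]
      · rw [if_neg (fun h => hs h.1), if_neg hs]
    · symm
      refine Finset.sum_eq_zero fun d _ => ?_
      split_ifs with h3 h4
      · exact absurd h4.1 hD
      · rfl
      · rfl
  rw [e2, ← h0, ← Finset.sum_add_distrib]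
  rw [← h1]
  refine Finset.sum_congr rfl fun t _ => ?_
  unfold ct
  rw [← Finset.sum_add_distrib]
  refine Finset.sum_congr rfl fun d _ => ?_
  split_ifs <;> ring

/-- **identity (ii)** -/
theorem natw_of_smooth {z D0 : ℝ} {n : Eis} (hn : IsPrim n)
    (h : ∃ p, Mob705.IsPP p ∧ p ∣ n ∧ (nm p : ℝ) ≤ z) :
    natw z D0 n = -∑ d ∈ dvs n, (by classical exact if Sm z d ∧ D0 < (nm d : ℝ) then
      (muE d : ℂ) else 0) := by
  classical
  -- the full sum is zero
  obtain ⟨p, hp, hpn, hpz⟩ := h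
  have hfull : ∑ d ∈ dvs n, (if Sm z d then (muE d : ℂ) else 0) = 0 := by
    have hsm : ∀ d ∈ dvs n, d ∈ dvs n := fun d hd => hd
    -- pair `d` with `p d`
    have h1 : ∑ d ∈ dvs n, (if Sm z d then (muE d : ℂ) else 0) =
        ∑ d ∈ (dvs n).filter (fun d => Sm z d ∧ Squarefree d), (muE d : ℂ) := by
      rw [Finset.sum_filter]
      refine Finset.sum_congr rfl fun d _ => ?_
      by_cases hs : Sm z d
      · by_cases hq : Squarefree d
        · rw [if_pos hs, if_pos ⟨hs, hq⟩]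
        · rw [if_pos hs, if_neg (fun h => hq h.2), muE_of_not_squarefree hq]; simp
      · rw [if_neg hs, if_neg (fun h => hs h.1)]
    rw [h1]
    refine Finset.sum_involution (fun d _ => if p ∣ d then d / p else p * d) ?_ ?_ ?_ ?_
    · intro d hd
      rw [Finset.mem_filter] at hd
      have hdp := isPrim_of_mem_dvs hd.1
      split_ifs with hpd
      · have hmem : p ∈ dvs d := (mem_dvs hdp.ne_zero).2 ⟨hp.isPrim, hpd⟩
        have e := mul_div_of_mem hmem
        have hq := isPrim_of_mem_dvs (div_mem_dvs hdp hmem)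
        have hc : IsCoprime p (d / p) := by
          rw [hp.isCoprime_iff]
          intro h2
          have : p * p ∣ d := by rw [← e]; exact mul_dvd_mul_left p h2
          exact hp.prime.not_isUnit (hd.2.2 p this)
        have : muE d = muE p * muE (d / p) := by
          rw [← muE_mul hp.ne_zero hq.ne_zero hc, e]
        rw [this, muE_prime hp.prime]
        push_cast; ring
      · have hc : IsCoprime p d := hp.isCoprime_iff.2 hpd
        rw [muE_mul hp.ne_zero hdp.ne_zero hc, muE_prime hp.prime]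
        push_cast; ring
    · intro d hd _ h3
      rw [Finset.mem_filter] at hd
      have hdp := isPrim_of_mem_dvs hd.1
      split_ifs at h3 with hpd
      · have hmem : p ∈ dvs d := (mem_dvs hdp.ne_zero).2 ⟨hp.isPrim, hpd⟩
        have e := nm_div_mul hmem
        rw [h3] at e
        have := hp.one_lt_nm
        have h0 := nm_pos.2 hdp.ne_zero
        nlinarith
      · exact hpd (by rw [← h3]; exact dvd_mul_right p d)
    · intro d hd
      rw [Finset.mem_filter] at hd ⊢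
      have hdp := isPrim_of_mem_dvs hd.1
      have hdn := dvd_of_mem_dvs hd.1
      split_ifs with hpd
      · have hmem : p ∈ dvs d := (mem_dvs hdp.ne_zero).2 ⟨hp.isPrim, hpd⟩
        have hm2 := div_mem_dvs hdp hmem
        have hdd := dvd_of_mem_dvs hm2
        exact ⟨(mem_dvs hn.ne_zero).2 ⟨isPrim_of_mem_dvs hm2, hdd.trans hdn⟩,
          hd.2.1.of_dvd hdd, hd.2.2.squarefree_of_dvd hdd⟩
      · have hc : IsCoprime p d := hp.isCoprime_iff.2 hpd
        refine ⟨(mem_dvs hn.ne_zero).2 ⟨hp.isPrim.mul hdp, hc.mul_dvd hpn hdn⟩, ?_, ?_⟩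
        · refine Sm.mul ?_ hd.2.1
          intro q hq hqp
          rw [hq.eq_of_dvd hp hqp]
          exact hpz
        · exact squarefree_mul_iff.mpr ⟨hc.isRelPrime, hp.prime.squarefree, hd.2.2⟩
    · intro d hd
      rw [Finset.mem_filter] at hd
      have hdp := isPrim_of_mem_dvs hd.1
      by_cases hpd : p ∣ d
      · have hmem : p ∈ dvs d := (mem_dvs hdp.ne_zero).2 ⟨hp.isPrim, hpd⟩
        have e := mul_div_of_mem hmem
        have hnd : ¬ p ∣ d / p := by
          intro h2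
          have : p * p ∣ d := by rw [← e]; exact mul_dvd_mul_left p h2
          exact hp.prime.not_isUnit (hd.2.2 p this)
        simp only [if_pos hpd, if_neg hnd]
        exact e
      · simp only [if_neg hpd, if_pos (dvd_mul_right p d)]
        exact mul_div_left' hp.ne_zero
  have h2 : natw z D0 n + ∑ d ∈ dvs n, (if Sm z d ∧ D0 < (nm d : ℝ) then (muE d : ℂ) else 0) =
      ∑ d ∈ dvs n, (if Sm z d then (muE d : ℂ) else 0) := by
    unfold natw
    rw [← Finset.sum_add_distrib]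
    refine Finset.sum_congr rfl fun d _ => ?_
    by_cases hs : Sm z d
    · by_cases hD : (nm d : ℝ) ≤ D0
      · rw [if_pos ⟨hs, hD⟩, if_neg (fun h => absurd h.2 (not_lt.2 hD)), if_pos hs, add_zero]
      · rw [if_neg (fun h => hD h.2), if_pos ⟨hs, not_le.1 hD⟩, if_pos hs, zero_add]
    · rw [if_neg (fun h => hs h.1), if_neg (fun h => hs h.1), if_neg hs, add_zero]
  rw [hfull] at h2
  exact eq_neg_of_add_eq_zero_left h2

/-- on rough elements the weight is `1` -/
theorem natw_rough {z D0 : ℝ} (hD : 1 ≤ D0) {n : Eis} (hn : IsPrim n) (h : Rg z n) :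
    natw z D0 n = 1 := by
  classical
  unfold natw
  rw [Finset.sum_eq_single 1]
  · rw [if_pos ⟨Sm_one z, by simpa using hD⟩]
    simp
  · intro d hd h1
    rw [if_neg]
    rintro ⟨hs, _⟩
    obtain ⟨p, hp, hpd⟩ := exists_pp_dvd_of_isPrim (isPrim_of_mem_dvs hd) h1
    have h2 := hs p hp hpd
    have h3 := h p hp (hpd.trans (dvd_of_mem_dvs hd))
    linarith
  · intro h1
    exact absurd ((mem_dvs hn.ne_zero).2 ⟨isPrim_one, one_dvd n⟩) h1

end Crest.Agent.R017.Leg381
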