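import Mathlib

/-!
# Row 17, C/D: the general level rule (helper146)

`level_rule` : weak-type moment bounds of finitely many monomials in the pieces `p j k`, plus a
pure real-number certificate (for all levels there is a monomial), give a bound of
`∑_{k ∈ S} ∏_j p_j(k)^{2 m_j}`.

`exists_of_average`, `cert_of_mix` : a certificate from a probability distribution on monomials.
-/

set_option autoImplicit false

noncomputable section

open Finset

namespace Crest.Agent.R017.Lev146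

variable {ι J β : Type*}

/-- the value of the monomial `∏ p_j^{2 n_j}` at `k`. -/
def val [Fintype J] (p : J → ι → ℝ) (n : J → ℕ) (k : ι) : ℝ := ∏ j, p j k ^ (2 * n j)

/-- the exponent `2 ∑ n_j x_j`. -/
def lin [Fintype J] (n : J → ℕ) (x : J → ℝ) : ℝ := 2 * ∑ j, (n j : ℝ) * x j

lemma val_nonneg [Fintype J] (p : J → ι → ℝ) (n : J → ℕ) (k : ι) : 0 ≤ val p n k :=
  Finset.prod_nonneg fun j _ => by rw [pow_mul]; positivity

lemma lin_add [Fintype J] (n : J → ℕ) (x y : J → ℝ) :
    lin n (fun j => x j + y j) = lin n x + lin n y := by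
  unfold lin
  rw [← mul_add, ← Finset.sum_add_distrib]
  congr 1
  exact Finset.sum_congr rfl fun j _ => by ring

lemma rpow_lin [Fintype J] {K : ℝ} (hK : 0 < K) (n : J → ℕ) (x : J → ℝ) :
    ∏ j, (K ^ x j) ^ (2 * n j) = K ^ lin n x := by
  have h1 : ∀ j, (K ^ x j) ^ (2 * n j) = K ^ (2 * ((n j : ℝ) * x j)) := by
    intro j
    rw [← Real.rpow_natCast, ← Real.rpow_mul hK.le]
    congr 1
    push_cast
    ring
  simp only [h1]
  rw [← Real.rpow_sum_of_pos hK]
  congr 1
  unfold lin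
  rw [Finset.mul_sum]

lemma le_val [Fintype J] {K : ℝ} (hK : 0 < K) {p : J → ι → ℝ} {n : J → ℕ} {x : J → ℝ} {k : ι}
    (h : ∀ j, K ^ x j ≤ p j k) : K ^ lin n x ≤ val p n k := by
  rw [← rpow_lin hK]
  unfold val
  apply Finset.prod_le_prod
  · intro j _
    positivity
  · intro j _
    exact pow_le_pow_left₀ (Real.rpow_nonneg hK.le _) (h j) _

lemma val_le [Fintype J] {K : ℝ} (hK : 0 < K) {p : J → ι → ℝ} {n : J → ℕ} {x : J → ℝ} {k : ι}
    (h0 : ∀ j, 0 ≤ p j k) (h : ∀ j, p j k ≤ K ^ x j) : val p n k ≤ K ^ lin n x := by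
  rw [← rpow_lin hK]
  unfold val
  apply Finset.prod_le_prod
  · intro j _
    exact pow_nonneg (h0 j) _
  · intro j _
    exact pow_le_pow_left₀ (h0 j) (h j) _

/-- the number of cells of side `ε` -/
def cells [Fintype J] (s : J → ℝ) (B ε : ℝ) : ℕ := ∏ j, (⌊(s j + B) / ε⌋₊ + 1)

/-- **The level rule.** `S` a finite set of `k`'s, `p j k ≥ 0` the pieces, `p j k ≤ K^{s j}`;
monomials `Y ∈ Ys` with multiplicities `n Y`, weak-type bounds with threshold `K^{t Y}` and bound
`K^{b Y}`; `hcert` is the certificate: for all levels `x` there is a monomial. -/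
theorem level_rule [Fintype J] {K : ℝ} (hK : 1 < K) (S : Finset ι) (p : J → ι → ℝ)
    (hp : ∀ j, ∀ k ∈ S, 0 ≤ p j k) {s : J → ℝ} (hs : ∀ j, ∀ k ∈ S, p j k ≤ K ^ s j)
    (Ys : Finset β) (n : β → J → ℕ) (t b : β → ℝ)
    (hY : ∀ Y ∈ Ys, ∀ T ⊆ S, ∀ V : ℝ, K ^ t Y ≤ V → (∀ k ∈ T, V ≤ val p (n Y) k) →
      (T.card : ℝ) * V ≤ K ^ b Y)
    {m : J → ℕ} (hm : ∀ j, 1 ≤ m j) {B ε E : ℝ} (hε : 0 < ε)
    (hcert : ∀ x : J → ℝ, (∀ j, -B ≤ x j ∧ x j ≤ s j) →
      ∃ Y ∈ Ys, t Y ≤ lin (n Y) x ∧ b Y - lin (n Y) x + lin m x ≤ E) :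
    ∑ k ∈ S, val p m k ≤ (cells s B ε : ℝ) * K ^ (E + lin m (fun _ => ε)) +
      (S.card : ℝ) * K ^ (lin m (fun j => max (s j) 0) - 2 * B) := by
  classical
  have hK0 : (0 : ℝ) < K := by linarith
  set Sb := S.filter (fun k => ∀ j, K ^ (-B) ≤ p j k) with hSb
  set Ss := S.filter (fun k => ¬ ∀ j, K ^ (-B) ≤ p j k) with hSs
  have hsplit : ∑ k ∈ S, val p m k = ∑ k ∈ Sb, val p m k + ∑ k ∈ Ss, val p m k :=
    (Finset.sum_filter_add_sum_filter_not S _ _).symm
  rw [hsplit]
  refine add_le_add ?_ ?_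
  · -- the cells
    set cl : ι → J → ℕ := fun k j => ⌊(Real.logb K (p j k) + B) / ε⌋₊ with hcl
    set C := Fintype.piFinset (fun j => Finset.range (⌊(s j + B) / ε⌋₊ + 1)) with hC
    have hlog : ∀ k ∈ Sb, ∀ j, -B ≤ Real.logb K (p j k) ∧ Real.logb K (p j k) ≤ s j ∧
        0 < p j k := by
      intro k hk j
      have hk1 := Finset.mem_filter.mp hk
      have h1 : 0 < p j k := lt_of_lt_of_le (Real.rpow_pos_of_pos hK0 _) (hk1.2 j)
      refine ⟨?_, ?_, h1⟩
      · rw [Real.le_logb_iff_rpow_le hK h1]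
        exact hk1.2 j
      · rw [Real.logb_le_iff_le_rpow hK h1]
        exact hs j k hk1.1
    have hmem : ∀ k ∈ Sb, cl k ∈ C := by
      intro k hk
      rw [hC, Fintype.mem_piFinset]
      intro j
      rw [Finset.mem_range, Nat.lt_succ_iff]
      apply Nat.floor_le_floor
      have := (hlog k hk j).2.1
      gcongr
    rw [← Finset.sum_fiberwise_of_maps_to hmem]
    have hcard : (C.card : ℝ) = (cells s B ε : ℝ) := by
      rw [hC, Fintype.card_piFinset]
      unfold cells
      simp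
    rw [← hcard, ← nsmul_eq_mul]
    apply Finset.sum_le_card_nsmul
    intro c _
    set T := Sb.filter (fun k => cl k = c) with hT
    rcases T.eq_empty_or_nonempty with h0 | ⟨k0, hk0⟩
    · rw [h0, Finset.sum_empty]
      positivity
    set x : J → ℝ := fun j => -B + c j * ε with hx
    have hlow : ∀ k ∈ T, ∀ j, x j ≤ Real.logb K (p j k) ∧ Real.logb K (p j k) ≤ x j + ε := by
      intro k hk j
      have hk1 := Finset.mem_filter.mp hk
      have hk2 := hlog k hk1.1 j
      have hc : c j = ⌊(Real.logb K (p j k) + B) / ε⌋₊ := by rw [← hk1.2]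
      have hnn : 0 ≤ (Real.logb K (p j k) + B) / ε := div_nonneg (by linarith) hε.le
      constructor
      · have h1 : (c j : ℝ) ≤ (Real.logb K (p j k) + B) / ε := by
          rw [hc]; exact Nat.floor_le hnn
        rw [le_div_iff₀ hε] at h1
        simp only [hx]
        linarith
      · have h1 : (Real.logb K (p j k) + B) / ε < (c j : ℝ) + 1 := by
          rw [hc]; exact Nat.lt_floor_add_one _
        rw [div_lt_iff₀ hε] at h1
        simp only [hx]
        linarith
    have hTS : T ⊆ S := (Finset.filter_subset _ _).trans (Finset.filter_subset _ _)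
    obtain ⟨Y, hYm, ht, hE⟩ := hcert x (by
      intro j
      refine ⟨?_, ?_⟩
      · simp only [hx]
        have : (0 : ℝ) ≤ (c j : ℝ) * ε := by positivity
        linarith
      · exact ((hlow k0 hk0 j).1).trans (hlog k0 (Finset.mem_filter.mp hk0).1 j).2.1)
    have hpl : ∀ k ∈ T, ∀ j, K ^ x j ≤ p j k := by
      intro k hk j
      have h1 := (hlog k (Finset.mem_filter.mp hk).1 j).2.2
      rw [← Real.le_logb_iff_rpow_le hK h1]
      exact (hlow k hk j).1
    have hpu : ∀ k ∈ T, ∀ j, p j k ≤ K ^ (x j + ε) := by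
      intro k hk j
      have h1 := (hlog k (Finset.mem_filter.mp hk).1 j).2.2
      rw [← Real.logb_le_iff_le_rpow hK h1]
      exact (hlow k hk j).2
    have h1 := hY Y hYm T hTS (K ^ lin (n Y) x) (Real.rpow_le_rpow_of_exponent_le hK.le ht)
      (fun k hk => le_val hK0 (hpl k hk))
    have h2 : (T.card : ℝ) ≤ K ^ (b Y - lin (n Y) x) := by
      rw [Real.rpow_sub hK0, le_div_iff₀ (Real.rpow_pos_of_pos hK0 _)]
      exact h1
    calc ∑ k ∈ T, val p m k ≤ T.card • K ^ lin m (fun j => x j + ε) := by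
          apply Finset.sum_le_card_nsmul
          intro k hk
          exact val_le hK0 (fun j => hp j k (hTS hk)) (hpu k hk)
      _ = (T.card : ℝ) * K ^ (lin m x + lin m (fun _ => ε)) := by
          rw [nsmul_eq_mul, lin_add]
      _ ≤ K ^ (b Y - lin (n Y) x) * K ^ (lin m x + lin m (fun _ => ε)) := by
          gcongr
      _ = K ^ (b Y - lin (n Y) x + (lin m x + lin m (fun _ => ε))) := by
          rw [← Real.rpow_add hK0]
      _ ≤ K ^ (E + lin m (fun _ => ε)) := by
          apply Real.rpow_le_rpow_of_exponent_le hK.le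
          linarith
  · -- the small values
    have h1 : ∀ k ∈ Ss, val p m k ≤ K ^ (lin m (fun j => max (s j) 0) - 2 * B) := by
      intro k hk
      have hk1 := Finset.mem_filter.mp hk
      obtain ⟨j0, hj0⟩ := not_forall.mp hk1.2
      push Not at hj0
      have hu : val p m k = p j0 k ^ (2 * m j0) * ∏ j ∈ univ.erase j0, p j k ^ (2 * m j) := by
        unfold val
        exact (Finset.mul_prod_erase univ (fun j => p j k ^ (2 * m j)) (Finset.mem_univ j0)).symm
      have hlin : lin m (fun j => max (s j) 0) = 2 * ((m j0 : ℝ) * max (s j0) 0) +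
          ∑ j ∈ univ.erase j0, 2 * ((m j : ℝ) * max (s j) 0) := by
        unfold lin
        rw [← Finset.add_sum_erase _ _ (Finset.mem_univ j0), mul_add, Finset.mul_sum]
      have hA : p j0 k ^ (2 * m j0) ≤ K ^ (2 * ((m j0 : ℝ) * max (s j0) 0) - 2 * B) := by
        have hp0 := hp j0 k hk1.1
        have hle1 : p j0 k ≤ K ^ (max (s j0) 0) :=
          (hs j0 k hk1.1).trans (Real.rpow_le_rpow_of_exponent_le hK.le (le_max_left _ _))
        have e1 : 2 * m j0 = 2 + 2 * (m j0 - 1) := by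
          have := hm j0
          omega
        rw [e1, pow_add]
        have h2 : p j0 k ^ 2 ≤ K ^ (-(2 * B)) := by
          have : (K ^ (-B)) ^ 2 = K ^ (-(2 * B)) := by
            rw [← Real.rpow_natCast, ← Real.rpow_mul hK0.le]
            congr 1
            push_cast
            ring
          rw [← this]
          exact pow_le_pow_left₀ hp0 hj0.le 2
        have h3 : p j0 k ^ (2 * (m j0 - 1)) ≤ K ^ (2 * ((m j0 : ℝ) * max (s j0) 0)) := by
          have h4 : p j0 k ^ (2 * (m j0 - 1)) ≤ (K ^ (max (s j0) 0)) ^ (2 * (m j0 - 1)) :=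
            pow_le_pow_left₀ hp0 hle1 _
          refine h4.trans ?_
          rw [← Real.rpow_natCast, ← Real.rpow_mul hK0.le]
          apply Real.rpow_le_rpow_of_exponent_le hK.le
          have h5 : ((2 * (m j0 - 1) : ℕ) : ℝ) ≤ 2 * (m j0 : ℝ) := by
            have : 2 * (m j0 - 1) ≤ 2 * m j0 := by omega
            exact_mod_cast this
          have h6 : 0 ≤ max (s j0) 0 := le_max_right _ _
          nlinarith
        calc p j0 k ^ 2 * p j0 k ^ (2 * (m j0 - 1))
            ≤ K ^ (-(2 * B)) * K ^ (2 * ((m j0 : ℝ) * max (s j0) 0)) :=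
              mul_le_mul h2 h3 (pow_nonneg hp0 _) (Real.rpow_nonneg hK0.le _)
          _ = K ^ (2 * ((m j0 : ℝ) * max (s j0) 0) - 2 * B) := by
              rw [← Real.rpow_add hK0]
              congr 1
              ring
      have hB' : ∏ j ∈ univ.erase j0, p j k ^ (2 * m j) ≤
          K ^ (∑ j ∈ univ.erase j0, 2 * ((m j : ℝ) * max (s j) 0)) := by
        rw [Real.rpow_sum_of_pos hK0]
        apply Finset.prod_le_prod
        · intro j _
          exact pow_nonneg (hp j k hk1.1) _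
        · intro j _
          have hle1 : p j k ≤ K ^ (max (s j) 0) :=
            (hs j k hk1.1).trans (Real.rpow_le_rpow_of_exponent_le hK.le (le_max_left _ _))
          refine (pow_le_pow_left₀ (hp j k hk1.1) hle1 _).trans (le_of_eq ?_)
          rw [← Real.rpow_natCast, ← Real.rpow_mul hK0.le]
          congr 1
          push_cast
          ring
      rw [hu, hlin]
      calc p j0 k ^ (2 * m j0) * ∏ j ∈ univ.erase j0, p j k ^ (2 * m j)
          ≤ K ^ (2 * ((m j0 : ℝ) * max (s j0) 0) - 2 * B) *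
            K ^ (∑ j ∈ univ.erase j0, 2 * ((m j : ℝ) * max (s j) 0)) :=
            mul_le_mul hA hB' (Finset.prod_nonneg fun j _ => pow_nonneg (hp j k hk1.1) _)
              (Real.rpow_nonneg hK0.le _)
        _ = _ := by
            rw [← Real.rpow_add hK0]
            congr 1
            ring
    calc ∑ k ∈ Ss, val p m k ≤ Ss.card • K ^ (lin m (fun j => max (s j) 0) - 2 * B) :=
          Finset.sum_le_card_nsmul _ _ _ h1
      _ = (Ss.card : ℝ) * K ^ (lin m (fun j => max (s j) 0) - 2 * B) := nsmul_eq_mul _ _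
      _ ≤ (S.card : ℝ) * K ^ (lin m (fun j => max (s j) 0) - 2 * B) := by
          have : Ss.card ≤ S.card := Finset.card_le_card (Finset.filter_subset _ _)
          have h2 : (Ss.card : ℝ) ≤ S.card := by exact_mod_cast this
          have h3 : (0 : ℝ) ≤ K ^ (lin m (fun j => max (s j) 0) - 2 * B) :=
            Real.rpow_nonneg hK0.le _
          nlinarith

/-- strong-type (moment) input as weak-type input with any threshold. -/
lemma weak_of_moment [Fintype J] {K : ℝ} {S : Finset ι} {p : J → ι → ℝ} {n : J → ℕ} {A : ℝ}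
    (h : ∑ k ∈ S, val p n k ≤ K ^ A) :
    ∀ T ⊆ S, ∀ V : ℝ, (∀ k ∈ T, V ≤ val p n k) → (T.card : ℝ) * V ≤ K ^ A := by
  intro T hT V hV
  calc (T.card : ℝ) * V = ∑ _k ∈ T, V := by rw [Finset.sum_const, nsmul_eq_mul]
    _ ≤ ∑ k ∈ T, val p n k := Finset.sum_le_sum hV
    _ ≤ ∑ k ∈ S, val p n k :=
        Finset.sum_le_sum_of_subset_of_nonneg hT fun k _ _ => val_nonneg _ _ _
    _ ≤ K ^ A := h

/-- minimum ≤ average -/
lemma exists_of_average (Ys : Finset β) (w : β → ℝ) (f : β → ℝ) {E : ℝ}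
    (hw : ∀ Y ∈ Ys, 0 ≤ w Y) (h1 : ∑ Y ∈ Ys, w Y = 1) (hf : ∑ Y ∈ Ys, w Y * f Y ≤ E) :
    ∃ Y ∈ Ys, f Y ≤ E := by
  by_contra hcon
  push Not at hcon
  have hne : ∃ Y ∈ Ys, 0 < w Y := by
    by_contra h
    push Not at h
    have : ∑ Y ∈ Ys, w Y ≤ 0 := Finset.sum_nonpos h
    linarith
  obtain ⟨Y0, hY0, hw0⟩ := hne
  have h2 : ∑ Y ∈ Ys, w Y * E < ∑ Y ∈ Ys, w Y * f Y := by
    apply Finset.sum_lt_sum
    · intro Y hY
      exact mul_le_mul_of_nonneg_left (hcon Y hY).le (hw Y hY)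
    · exact ⟨Y0, hY0, mul_lt_mul_of_pos_left (hcon Y0 hY0) hw0⟩
  rw [← Finset.sum_mul, h1, one_mul] at h2
  linarith

/-- **certificate by mixing**: a probability distribution `w` on monomials whose expected
multiplicities `∑ w_Y n_Y(j)` do not exceed the mass (w.r.t. the upper bounds `s`): the expected
value of `b_Y - lin n_Y x + lin m x` is affine in `x` with coefficients `2 (m_j - E n_j)`; if all of
them are `≥ 0`, the worst case is `x = s`. -/
theorem cert_of_mix [Fintype J] (Ys : Finset β) (n : β → J → ℕ) (b w : β → ℝ) {m : J → ℕ}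
    {s x : J → ℝ} {E : ℝ} (hx : ∀ j, x j ≤ s j) (hw : ∀ Y ∈ Ys, 0 ≤ w Y)
    (h1 : ∑ Y ∈ Ys, w Y = 1) (hmult : ∀ j, ∑ Y ∈ Ys, w Y * n Y j ≤ m j)
    (hE : ∑ Y ∈ Ys, w Y * (b Y - lin (n Y) s) + lin m s ≤ E) :
    ∃ Y ∈ Ys, b Y - lin (n Y) x + lin m x ≤ E := by
  apply exists_of_average Ys w _ hw h1
  refine le_trans ?_ hE
  have key : ∀ z : J → ℝ, ∑ Y ∈ Ys, w Y * (b Y - lin (n Y) z + lin m z) =
      ∑ Y ∈ Ys, w Y * b Y + 2 * ∑ j, ((m j : ℝ) - ∑ Y ∈ Ys, w Y * n Y j) * z j := by
    intro z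
    have e1 : ∀ Y ∈ Ys, w Y * (b Y - lin (n Y) z + lin m z) =
        w Y * b Y + (w Y * lin m z - 2 * ∑ j, w Y * (n Y j : ℝ) * z j) := by
      intro Y _
      unfold lin
      rw [Finset.mul_sum (s := univ) (f := fun j => (n Y j : ℝ) * z j)] 
      have : ∑ j, w Y * (n Y j : ℝ) * z j = w Y * ∑ j, (n Y j : ℝ) * z j := by
        rw [Finset.mul_sum]
        exact Finset.sum_congr rfl fun j _ => by ring
      rw [this, Finset.mul_sum]
      have e2 : ∑ i, 2 * ((n Y i : ℝ) * z i) = 2 * ∑ i, (n Y i : ℝ) * z i := by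
        rw [Finset.mul_sum]
      have e3 : ∑ i, 2 * ((m i : ℝ) * z i) = 2 * ∑ i, (m i : ℝ) * z i := by
        rw [Finset.mul_sum]
      rw [e2, e3]
      ring
    rw [Finset.sum_congr rfl e1, Finset.sum_add_distrib, Finset.sum_sub_distrib,
      ← Finset.sum_mul, h1, one_mul, ← Finset.mul_sum, Finset.sum_comm]
    congr 1
    have e4 : ∑ j, ∑ Y ∈ Ys, w Y * (n Y j : ℝ) * z j = ∑ j, (∑ Y ∈ Ys, w Y * (n Y j : ℝ)) * z j :=
      Finset.sum_congr rfl fun j _ => by rw [Finset.sum_mul]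
    rw [e4]
    unfold lin
    rw [← mul_sub, ← Finset.sum_sub_distrib]
    congr 1
    exact Finset.sum_congr rfl fun j _ => by ring
  have key2 : ∑ Y ∈ Ys, w Y * (b Y - lin (n Y) s) + lin m s =
      ∑ Y ∈ Ys, w Y * (b Y - lin (n Y) s + lin m s) := by
    have : ∀ Y ∈ Ys, w Y * (b Y - lin (n Y) s + lin m s) =
        w Y * (b Y - lin (n Y) s) + w Y * lin m s := fun Y _ => by ring
    rw [Finset.sum_congr rfl this, Finset.sum_add_distrib, ← Finset.sum_mul, h1, one_mul]
  rw [key2, key, key]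
  have : ∑ j, ((m j : ℝ) - ∑ Y ∈ Ys, w Y * n Y j) * x j ≤
      ∑ j, ((m j : ℝ) - ∑ Y ∈ Ys, w Y * n Y j) * s j := by
    apply Finset.sum_le_sum
    intro j _
    exact mul_le_mul_of_nonneg_left (hx j) (by have := hmult j; linarith)
  linarith

end Crest.Agent.R017.Lev146
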