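import Crest.Agent.R017.LfE_986
import Crest.Agent.R017.LfP_986

/-!
# Row 17, T.4: `InE` from the errors of the exact square and the mismatch at the reduced data
(helper986)

* `InF d h r` : the open inputs; `inE_of` : `LfE986.InE d h r`
-/

set_option autoImplicit false

noncomputable section

open Complex Filter Topology

namespace Crest.Agent.R017.LfF986

open Crest.Agent.R012 Crest.Agent.R012.Eis
open Crest.Agent.R017.FE47 Crest.Agent.R017.End699
open Crest.Agent.R017.B770 Crest.Agent.R017.BxH986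
open Crest.Agent.R017.Prov71 Crest.Agent.R017.ER911
open Crest.Agent.R017.E5B71 Crest.Agent.R017.ExP960
open Crest.Agent.R017.E5L770
open Crest.Agent.R017.SC777
open Crest.Agent.R017.Fin4 Crest.Agent.R017.Fin5 Crest.Agent.R017.Fin6
open Crest.Agent.R017.P1l54 Crest.Agent.R017.P1t54
open Crest.Agent.R017.P1X960
open Crest.Agent.R017.P10X764 (E2XU E3XU E2SU E3SU)
open Crest.Agent.R017.E5LX770
open Crest.Agent.R017.Red848 (red)
open Crest.Agent.R017.PX764 (Dk)
open Crest.Agent.R017.XS0298 (S0x S0K)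
open Crest.Agent.R017.Sg986 (AA AA_lt AA_eq AA_ge)
open Crest.Agent.R017.NrX986 (NearAllX)

/-- **the open inputs of T.4**, the P1 half at the reduced data -/
structure InF (d : ℝ) (h : ℝ → ℝ) (r : ℝ) : Prop where
  /-- the field of near-equal lists -/
  near : NearAllX d (ex Dq (fun lam => S0x (red (πE lam)) h))
  /-- cross error, differences -/
  e2x : E2XU (fun lam => red (πE lam)) h (1 / 64) (d / 4) r βX (ParS (AA d) d) (LS0 d)
  /-- Gram error, differences -/
  e3x : E3XU (fun lam => red (πE lam)) h (1 / 64) (d / 4) r βX (ParS (AA d) d) (LS0 d)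
  /-- cross error, single lists -/
  e2s : E2SU (fun lam => red (πE lam)) h (1 / 64) (d / 4) r βX (ParS (AA d) d) (LS0 d)
  /-- Gram error, single lists -/
  e3s : E3SU (fun lam => red (πE lam)) h (1 / 64) (d / 4) r βX (ParS (AA d) d) (LS0 d)
  /-- P1, mismatch: differences -/
  p1mx : P1MX (fun lam => red (πE lam)) h (1 / 64) (d / 4) βX (ParS (AA d) d) (LS0 d)
  /-- single lists -/
  p1ms : P1MS (fun lam => red (πE lam)) h (1 / 64) (d / 4) βX (ParS (AA d) d) (LS0 d)
  /-- the structured part -/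
  str : ∃ μ : ℝ, 0 < μ ∧ StrUX πE h (7 / 8 + d) (SfEO πE h (1 / 64) r (d / 4)) (AA d) d βX μ
  /-- the tail: the three-lump side at `7/10 κ ≤ k ≤ 17/20 κ` -/
  spin : ∃ μ₁ : ℝ, 0 < μ₁ ∧ TU47.SPInX πE (TU47.SxE πE h (1 / 64) r (bfE (d / 4))
    (fun l N z => Sf770.JS (nL l N z))) (AA d) d βX μ₁

/-- **`InE` from the open inputs** -/
theorem inE_of {d : ℝ} (hd : 0 < d) (hd1 : d ≤ 1 / 42) {h : ℝ → ℝ} {c₀ : ℝ} (hpu : PU h c₀)
    (P : BunE d h) (G : RecE d h) {r : ℝ} (hr0 : 0 ≤ r) (hr : ∀ u : ℝ, cx h u ≠ 0 → |u| ≤ r)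
    (H : InF d h r) : LfE986.InE d h r := by
  have hA := AA_ge hd1
  have hAlt := AA_lt hd
  have hA1 := AA_eq d
  have hP : ∀ lam, (πE lam).OK := fun lam => lam.2.1
  have hE : ∀ lam, Red848.Exc (πE lam) := fun lam => XT6241.exc_piE lam
  have hAll := TK708.allT_of P.rules G.toExpS0 hd.le (by linarith)
  have hFE := NrX986.fe2G_1 P.rules G hd.le (by linarith) H.near
  exact
  { near := H.near
    p10x := LfP986.p10x_of hpu hP hE hd.le hd1 (by linarith) hAlt.le hA1 hAll hFE hr0 hr H.e2x H.e3x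
    p10s := LfP986.p10s_of hpu hP hE hd.le hd1 (by linarith) hA1 hAll hFE hr0 hr H.e2s H.e3s
    p1mx := RdX986.p1MX_red hP hE H.p1mx
    p1ms := RdX986.p1MS_red hP hE H.p1ms
    str := H.str
    spin := H.spin }

end Crest.Agent.R017.LfF986
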