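import Crest.Agent.R017.XMf_54

/-!
# Row 17, R8/P1: the mains of the mismatch in the frame (helper54), part 2

* **`xmU_of`** : `XMU π h (1/64) (ParS A d) (LS0 d)` from `FE2V`
-/

set_option autoImplicit false

noncomputable section

open Finset Filter
open scoped ComplexConjugate

namespace Crest.Agent.R017.XMf54

open Crest.Agent.R012 Crest.Agent.R012.Eis Crest.Agent.R012.Div277
open Crest.Agent.R012.LS2 (S mem_S)
open Crest.Agent.R017.CM106 Crest.Agent.R017.C70
open Crest.Agent.R017.StF828 (T3)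
open Crest.Agent.R017.StB828 (one_le_nmR)
open Crest.Agent.R017.StD828 (ln)
open Crest.Agent.R017.StA828 (gp gp_eq)
open Crest.Agent.R017.GrT828 (cc)
open Crest.Agent.R017.DgA829 (lc lc_prim lc_dvd)
open Crest.Agent.R017.StG828 (JB omp I1z I2z mem_JB)
open Crest.Agent.R017.StJ319 (afrb gt5 q5 I5 Ilo Ihi gtb)
open Crest.Agent.R017.E3A164 (SteT)
open Crest.Agent.R017.P1e54 Crest.Agent.R017.P1f54 Crest.Agent.R017.P1k54 Crest.Agent.R017.P1l54
open Crest.Agent.R017.P1u54 Crest.Agent.R017.P1v54 Crest.Agent.R017.P1w54 Crest.Agent.R017.P1y54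
open Crest.Agent.R017.P1t54 (ParS LS0 parOK_Sq5)
open Crest.Agent.R017.HP842 (Pc pc al alL sqc)
open Crest.Agent.R017.Rough381 (VF)
open Crest.Agent.R017.FE47 (PU cx SM)
open Crest.Agent.R017.B770 Crest.Agent.R017.Prov71
open Crest.Agent.R017.UM71
open Crest.Agent.R017.E5B71 Crest.Agent.R017.E5L770
open Crest.Agent.R017.TM708 (PD K5)
open Crest.Agent.R017.TK708 (AllT)
open Crest.Agent.R017.FN708 (FE2V)
open Crest.Agent.R017.I1146 (LN)
open Crest.Agent.R017.P10146 (bP cl sq_facts bP_mem D5 D5_compact)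
open Crest.Agent.R017.Mm828 (XMn Vb)
open Crest.Agent.R017.E3F548 (XE)
open Crest.Agent.R017.GrC828 (LY ChF cF)
open Crest.Agent.R017.GrG404 (y5)
open Crest.Agent.R017.FEx436 (NV clm_V)
open Crest.Agent.R017.ER911 (EF ExpS0)
open Crest.Agent.R017.XPc54 (XPc)

variable {Λ : Type*} {π : Λ → DPar} {h : ℝ → ℝ}

lemma exp_fin (a1 a2 a3 a4 a5 a6 m S : ℝ) :
    Real.exp a1 * (Real.exp a2 * Real.exp a3 * S * (Real.exp a4 * Real.exp a5 * Real.exp a6 *
      Real.exp m)) = Real.exp (a1 + (a2 + a3 + (a4 + a5 + a6 + m))) * S := by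
  simp only [Real.exp_add]
  ring

set_option maxHeartbeats 4000000 in
open Classical in
/-- **the mains of the mismatch** -/
theorem xmU_of {c₀ : ℝ} (hpu : PU h c₀) (hP : ∀ lam, (π lam).OK) {Rh : ℝ} (hRh0 : 0 ≤ Rh)
    (hRh : ∀ u, cx h u ≠ 0 → |u| ≤ Rh) {s₁ : EF} {d A : ℝ} (hd : 0 ≤ d) (hd1 : d ≤ 1 / 8)
    (hA1 : 16 * (1 - A) ≤ d) (h0 : ExpS0 s₁ (ex Dq fun lam => S0p (π lam) h))
    (hall : AllT d (ex Dq fun lam => S0p (π lam) h))
    (hV : FE2V (ex Dq fun lam => S0p (π lam) h) D5 fun b => 3 / 4 * d * b 0) :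
    XMU π h (1 / 64) (ParS A d) (LS0 d) := by
  intro ε hε
  have hℓ : Continuous fun b : Fin 5 → ℝ => 3 / 4 * d * b 0 := by fun_prop
  have hKc : Continuous K5 := by unfold K5; fun_prop
  have hTc : Continuous TM708.T5 := by unfold TM708.T5; fun_prop
  obtain ⟨σ, hσ, G⟩ := clm_V (d := d) hpu hP h0 hall hKc hTc D5_compact (fun b hb => hb.1.x0) hℓ
    hV (ε := ε / 4) (by positivity)
  obtain ⟨τ, hτ, hτσ, hτε, hτ1⟩ : ∃ τ : ℝ, 0 < τ ∧ 100 * τ ≤ σ ∧ 2000 * τ ≤ ε ∧
      10000 * τ ≤ 1 := by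
    refine ⟨min (σ / 100) (min (ε / 2000) (1 / 10000)), by positivity, ?_, ?_, ?_⟩
    · linarith [min_le_left (σ / 100) (min (ε / 2000) (1 / 10000))]
    · linarith [(min_le_right (σ / 100) (min (ε / 2000) (1 / 10000))).trans (min_le_left _ _)]
    · linarith [(min_le_right (σ / 100) (min (ε / 2000) (1 / 10000))).trans (min_le_right _ _)]
  refine ⟨τ, hτ, ?_⟩
  intro lam N B hB
  by_cases ht0 : lam.2 ∈ SM (π lam.1).n
  swap
  · refine ⟨0, 0, 2, by norm_num, ?_⟩
    intro X _ H _ p _ a qs _ hok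
    exact absurd hok.1.2.1 ht0
  obtain ⟨M, G⟩ := G lam.1 lam.2 ht0 N (max B 6)
  obtain ⟨C, r, hC, hr, HX⟩ := XPc hpu hRh0 hRh (N + 3) (B₀ := 6) (by norm_num) (ε := ε / 4)
    (by positivity) (M := (M : ℝ)) (Nat.cast_nonneg _)
  obtain ⟨X₁, hX₁, G⟩ := G r hr
  set c₁ : ℝ := (N + 3) * r + 20 with hc₁
  have hNr : 0 ≤ (N : ℝ) * r := by positivity
  have hc₁0 : 20 ≤ c₁ := by rw [hc₁]; linarith [mul_nonneg (by norm_num : (0 : ℝ) ≤ 3) hr]
  have hC3 : 0 ≤ Real.log (3 * C) := Real.log_nonneg (by linarith)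
  refine ⟨(N + 3) * M, M, max X₁ (Real.exp (max (c₁ / τ) (8 / ε * Real.log (3 * C)))),
    lt_of_lt_of_le hX₁ (le_max_left _ _), ?_⟩
  intro X hX H hH p hp a qs F hok c i b s hi hb
  have hXX1 : X₁ ≤ X := (le_max_left _ _).trans hX
  have hXe : Real.exp (max (c₁ / τ) (8 / ε * Real.log (3 * C))) ≤ X := (le_max_right _ _).trans hX
  have hX3 := F.X3
  have hX0 : 0 < X := by linarith
  have hX1 : 1 ≤ X := by linarith
  set L := Real.log X with hLdef
  have hL : 0 < L := F.L
  have hLL : max (c₁ / τ) (8 / ε * Real.log (3 * C)) ≤ L := (Real.le_log_iff_exp_le hX0).2 hXe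
  have hcL : c₁ ≤ τ * L := by
    have h1 := (le_max_left _ _).trans hLL
    rw [div_le_iff₀ hτ] at h1
    linarith
  have hCL : Real.log (3 * C) ≤ ε / 8 * L := by
    have h1 := (le_max_right _ _).trans hLL
    have e : 8 / ε * Real.log (3 * C) = Real.log (3 * C) / (ε / 8) := by field_simp
    rw [e, div_le_iff₀ (by positivity)] at h1
    linarith
  have hrp : ∀ y : ℝ, X ^ y = Real.exp (y * L) := fun y => by
    rw [Real.rpow_def_of_pos hX0, mul_comm]
  have hl2 : Real.log 2 ≤ 1 := by linarith [Real.log_two_lt_d9]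
  have hl20 : 0 < Real.log 2 := Real.log_pos (by norm_num)
  have hτL : 0 < τ * L := mul_pos hτ hL
  have hτL1 : 10000 * (τ * L) ≤ L := by nlinarith
  -- the objects
  obtain ⟨hokc, hgp, hgs, hζ0, hηsup, hgS⟩ := hok
  obtain ⟨hbok, htS, hlmp, hamq⟩ := hokc
  have hbp : IsPrim b := isPrim_of_mem_dvs hb
  have hbg : b ∣ a.2.1 := dvd_of_mem_dvs hb
  have eg : b * (a.2.1 / b) = a.2.1 := EuclideanDomain.mul_div_cancel' hbp.ne_zero hbg
  have hcg : IsPrim (a.2.1 / b) := by
    have e2 : IsPrim (b * (a.2.1 / b)) := by rw [eg]; exact hgp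
    exact e2.of_mul_left hbp
  have g1 := one_le_nmR hgp
  have b1 := one_le_nmR hbp
  have cg1 := one_le_nmR hcg
  have g0 : (0 : ℝ) < nm a.2.1 := by linarith
  have b0 : (0 : ℝ) < nm b := by linarith
  have cg0 : (0 : ℝ) < nm (a.2.1 / b) := by linarith
  set γ := Real.log (nm a.2.1) with hγ
  set β := Real.log (nm b) with hβ
  have hγcg : Real.log (nm (a.2.1 / b)) = γ - β := by
    have e3 : (nm a.2.1 : ℝ) = nm b * nm (a.2.1 / b) := by
      rw [← Nat.cast_mul, ← nm_mul, eg]
    rw [hγ, e3, Real.log_mul b0.ne' cg0.ne']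
    ring
  have hβ0 : 0 ≤ β := Real.log_nonneg b1
  have hcg' : 0 ≤ Real.log (nm (a.2.1 / b)) := Real.log_nonneg cg1
  set k := cκ p * L with hk
  set Nn := cN p * L with hNn
  set x := cx' p * L with hx
  set exx := max 0 (5 / 4 * cN p - cκ p) * L with hexx
  set P := pM a qs with hPdef
  set v := Real.log 2 * ((i : ℝ) + 1) with hv
  have hv0 : 0 ≤ v := by positivity
  set V := Vb (a.2.1 / b) i with hVdef
  have hV0 : 0 < V := div_pos (Real.exp_pos _) cg0
  have hlV : Real.log V = v - (γ - β) := by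
    rw [hVdef]
    unfold Vb
    rw [Real.log_div (Real.exp_pos _).ne' cg0.ne', Real.log_exp, hγcg]
  set t := 20 * (τ * L) with htdef
  have HF := xf_of hd hd1 hA1 hp hτ.le F (t := t) (by rw [htdef]; linarith)
  obtain ⟨k0', N0', N1', x0', adm', ex0', ex1', am1', g0', g1', p0', p1', t0'⟩ := HF
  obtain ⟨l1, l2⟩ := abs_le.1 F.l
  obtain ⟨ζ1, ζ2⟩ := abs_le.1 F.ζ
  have hκ0 := F.par.κ0
  have hκ1 := F.par.κ1
  have hk8 : 8 / 9 * L ≤ k := mul_le_mul_of_nonneg_right hκ0 hL.le
  have hk1 : k ≤ L := by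
    have := mul_le_mul_of_nonneg_right hκ1 hL.le
    linarith
  have hx36 : x ≤ 1 / 36 * k := by
    rcases adm' with h1 | ⟨h1, h2, h3⟩ <;> linarith
  have hqs0 := F.qs0
  have hqs1 := F.qs1
  -- the level
  have hv1 : v ≤ min (2 * Nn - k) (3 / 4 * Nn) + 21 / 5 * x - γ + 9 * (τ * L) := by
    obtain ⟨L1, -, -⟩ := I5_lev hi
    rw [Real.log_exp] at L1
    obtain ⟨T1, T2⟩ := abs_le.1 (tO_near F)
    have hn1 := F.n1
    have htO0 : max 0 (Sf770.tO a.1.1) ≤ min (2 * Nn - k) (3 / 4 * Nn) + 11 / 5 * x +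
        6 * (τ * L) := by
      refine max_le ?_ (by linarith)
      have : 0 ≤ min (2 * Nn - k) (3 / 4 * Nn) := le_min (by linarith) (by linarith)
      linarith
    rw [hv]
    linarith
  have hvm : min (2 * Nn - k) (3 / 4 * Nn) ≤ 3 / 4 * Nn := min_le_right _ _
  have hvL : v ≤ 2 * L := by linarith
  -- the mains as a weighted sum
  set K := Real.exp a.1.1.l with hKdef
  set E1 := Real.exp (a.1.1.l / 20) with hE1
  set ω : Eis → ℝ := fun e => (nm e : ℝ) ^ (-1 : ℝ) + (V / K ^ 2) ^ (1 / 6 : ℝ) *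
    (nm e : ℝ) ^ (1 / 2 : ℝ) + E1 ^ 2 * (1 : ℝ) ^ 2 * V / K with hω
  set β₀ : ℝ := if c = 4 then a.1.1.l / 64 else 0 with hβ₀
  have hβ₀0 : 0 ≤ β₀ := by
    rw [hβ₀]; split_ifs
    · linarith
    · exact le_rfl
  have hβ₀1 : β₀ ≤ (if c = 4 then k / 64 else 0) + τ * L := by
    rw [hβ₀]; split_ifs <;> linarith
  have hβ₀2 : (if c = 4 then k / 64 else 0) ≤ β₀ + τ * L := by
    rw [hβ₀]; split_ifs <;> linarith
  set m₀ := k + P + exx + 3 / 4 * d * k + 20 * t - 2 / 3 * k + v / 3 + P / 3 + τ * L with hm₀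
  set m := (M : ℝ) * Real.log H + ε / 4 * L + m₀ + Real.log 3 with hm
  set E0' := E0M (1 / 64) a with hE0'
  have hE0pos : 0 ≤ E0' := by rw [hE0']; unfold E0M; positivity
  set Es := (S E0').filter fun e => Real.exp β₀ ≤ (nm e : ℝ) with hEs
  have hemem : ∀ e ∈ S E0', IsPrim e ∧ 1 ≤ (nm e : ℝ) ∧
      Real.log (nm e) ≤ k / 64 + x + 2 * (τ * L) := by
    intro e he
    have h1 := (mem_S hE0pos).1 he
    have he1 := one_le_nmR h1.2.1
    refine ⟨h1.2.1, he1, ?_⟩
    have h2 : Real.log (nm e) ≤ 1 / 64 * a.1.1.l + a.2.2 := by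
      rw [Real.log_le_iff_le_exp (by linarith), Real.exp_add]
      exact h1.1
    linarith
  have hωe : ∀ e ∈ S E0', ω e ≤ 3 * (nm e : ℝ) ^ (-1 : ℝ) := by
    intro e he
    obtain ⟨e1, e2, e3⟩ := hemem e he
    refine wt_le e2 hV0 ?_ ?_
    · rw [hlV]; linarith
    · rw [hlV]; linarith
  have hω0 : ∀ e, 0 ≤ ω e := by
    intro e
    rw [hω]
    positivity
  have hωEs : ∀ e ∈ Es, ω e ≤ 3 * Real.exp (-β₀) := by
    intro e he
    obtain ⟨h1, h2⟩ := mem_filter.1 he
    refine (hωe e h1).trans (mul_le_mul_of_nonneg_left ?_ (by norm_num))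
    have e1 : (0 : ℝ) < nm e := lt_of_lt_of_le (Real.exp_pos _) h2
    rw [Real.rpow_neg_one, Real.exp_neg]
    exact inv_anti₀ (Real.exp_pos _) h2
  have hsum : XMn (a.2.1 / b) i s V E0' E1 K (afM π h (1 / 64) lam a qs c b s) =
      ∑ e ∈ Es, ω e * XE (JB (Real.sqrt V)) (omp (a.2.1 / b) i s)
        (T3 (afM π h (1 / 64) lam a qs c b s)) e := by
    unfold XMn
    rw [hEs, Finset.sum_filter]
    refine Finset.sum_congr rfl fun e he => ?_
    split_ifs with h1
    · rfl
    · obtain ⟨e1, e2, e3⟩ := hemem e he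
      have hc4 : c = 4 := by
        by_contra hc
        apply h1
        rw [hβ₀, if_neg hc, Real.exp_zero]
        exact e2
      subst hc4
      rw [hβ₀, if_pos rfl] at h1
      have h2 : XE (JB (Real.sqrt V)) (omp (a.2.1 / b) i s)
          (T3 (afM π h (1 / 64) lam a qs 4 b s)) e = 0 := by
        unfold XE afM
        refine Finset.sum_eq_zero fun y _ => ?_
        rw [T3_four]
        · simp
        · have h3 := (not_le.1 h1).le
          rwa [show 1 / 64 * a.1.1.l = a.1.1.l / 64 by ring]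
      rw [h2, mul_zero]
  -- the families
  set s1 : Fin qs.length → Pc := fun i => Pt (π lam.1) lam.2 (qs.get i) with hs1
  set s2 : Fin 3 → Pc := fun i => Pt (π lam.1) lam.2 (a.1.2 i) with hs2
  have hfam : Sum.elim s1 s2 = P1l54.fam (π lam.1) lam.2 qs.get a.1.2 := rfl
  have hLY1 : LY s1 = LN qs := LY_qs _ _ _
  have hLY2 : LY s2 = (a.1.2 0).z + (a.1.2 1).z + (a.1.2 2).z := LY_us _ _ _
  have hLY : LY s1 + LY s2 = P + 2 * γ := by
    rw [hLY1, hLY2, hPdef]
    unfold pM
    rw [F.cl]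
    ring
  set Th : Eis → ℕ → Prop := fun d' bb => β₀ ≤ bb + 1 + Real.log (nm (cc a.2.1 (b * d'))) with hTh
  set Ω : Eis → ℕ → ℝ := fun d' bb => if Th d' bb then 3 * Real.exp (-β₀) else 0 with hΩ
  set Wf : Eis → ℕ → ℝ := fun d' bb => if Th d' bb then m₀ + β₀ - 2 * Real.log (nm d')
    else 400 * L with hWf
  set Bf : Eis → ℕ → ℝ → ℝ := fun d' bb _ => H ^ M * X ^ (ε / 4) * Real.exp (Wf d' bb) with hBf
  have hH0 : 0 < H := by linarith
  have hH1 : 0 < H ^ M := pow_pos hH0 _
  have hXe4 : 0 < X ^ (ε / 4) := Real.rpow_pos_of_pos hX0 _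
  have hX6 : X ^ (6 : ℝ) = Real.exp (6 * L) := hrp 6
  have hexp6 : ∀ y : ℝ, y ≤ 6 * L → Real.exp y ≤ X ^ (6 : ℝ) := fun y hy => by
    rw [hX6]; exact Real.exp_le_exp.2 hy
  have hle6 : ∀ y : ℝ, 0 < y → Real.log y ≤ 6 * L → y ≤ X ^ (6 : ℝ) := fun y hy hy2 => by
    rw [← Real.exp_log hy]; exact hexp6 _ hy2
  have hγL : γ ≤ L / 10 := by linarith
  have hβγ : β ≤ γ := by linarith
  have hdb : ∀ d', IsPrim d' → (nm d' : ℝ) ^ 2 ≤ V → 0 ≤ Real.log (nm d') ∧
      2 * Real.log (nm d') ≤ v - (γ - β) := by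
    intro d' h1 h2
    have h3 := one_le_nmR h1
    refine ⟨Real.log_nonneg h3, ?_⟩
    have h4 := Real.log_le_log (by positivity) h2
    rw [Real.log_pow, hlV] at h4
    push_cast at h4
    exact h4
  have hccd : ∀ d', IsCoprime d' a.2.1 → cc a.2.1 (b * d') = a.2.1 / b := fun d' h1 =>
    cc_cop hgp hb h1
  have key := HX X hX3 (Fin qs.length) (Fin 3) (by
      rw [Fintype.card_fin, Fintype.card_fin]
      have := F.pd.len
      omega) s1 s2 (fun j => Pt_OK (hP _) _ _) (fun j => Pt_OK (hP _) _ _)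
    (fun j => by
      show Real.log (Real.exp _) ≤ _
      rw [Real.log_exp]
      have h1 := (F.pd.am (qs.get j) (List.get_mem _ _)).2.2.1
      linarith)
    (fun j => by
      show Real.log (Real.exp _) ≤ _
      rw [Real.log_exp]
      have hcN : cN p = cu p 2 + cu p 3 + cu p 4 := rfl
      have u2 := F.par.u0 2
      have u3 := F.par.u0 3
      have u4 := F.par.u0 4
      have hN1 := F.par.N1
      have z1 : (a.1.2 0).z ≤ (cu p 2 + τ) * L := F.pd.z1
      have z2 : (a.1.2 1).z ≤ (cu p 3 + τ) * L := F.pd.z2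
      have z3 : (a.1.2 2).z ≤ (cu p 4 + τ) * L := F.pd.z3
      obtain ⟨-, -, -, -, -, y27, -⟩ := sq_facts hd hd1 hA1 hp
      obtain ⟨-, -, -, y43, y32, -⟩ := sq_facts hd hd1 hA1 hp
      have w1 := mul_le_mul_of_nonneg_right (show cu p 2 + τ ≤ 1 by linarith) hL.le
      have w2 := mul_le_mul_of_nonneg_right (show cu p 3 + τ ≤ 1 by linarith) hL.le
      have w3 := mul_le_mul_of_nonneg_right (show cu p 4 + τ ≤ 1 by linarith) hL.le
      fin_cases j
      · show (a.1.2 0).z ≤ L
        linarith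
      · show (a.1.2 1).z ≤ L
        linarith
      · show (a.1.2 2).z ≤ L
        linarith)
    (Real.exp a.2.2) (Real.exp_pos _).le (fun n hn => hηsup n (by rw [ηC_eq]; exact hn))
    (Real.exp (1 / 64 * a.1.1.l)) c s a.2.1 b (a.2.1 / b) hgp hbp hcg
    (hle6 _ g0 (by linarith)) i V hV0 (le_of_eq (by
      rw [hVdef]; unfold Vb; rw [mul_div_cancel₀ _ cg0.ne'])) (hle6 _ hV0 (by rw [hlV]; linarith))
    (fun d' hd' => by
      obtain ⟨y, hy, rfl⟩ := mem_image.1 hd'
      obtain ⟨y1, y2, y3, y4⟩ := (mem_JB (Real.sqrt_nonneg _)).1 hy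
      rw [Real.sq_sqrt hV0.le] at y4
      have y5' : (nm y.1 : ℝ) ^ 2 ≤ V := by
        refine le_trans ?_ y4
        have h6 : (1 : ℝ) ≤ nm y.2 := by
          have := nm_pos.2 (StA828.JC_ne_zero y3)
          exact_mod_cast this
        unfold ln
        rw [nm_mul, nm_pow]
        push_cast
        nlinarith [sq_nonneg (nm y.1 : ℝ)]
      obtain ⟨q1, q2⟩ := hdb _ y1 y5'
      have y0 : (0 : ℝ) < nm y.1 := by linarith [one_le_nmR y1]
      refine hle6 _ (by rw [nm_mul]; push_cast; positivity) ?_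
      rw [nm_mul]
      push_cast
      rw [Real.log_mul b0.ne' y0.ne']
      linarith)
    Es (fun e he => by
      obtain ⟨e1, e2, e3⟩ := hemem e (mem_filter.1 he).1
      exact ⟨e1, hle6 _ (by linarith) (by linarith)⟩) ω Ω (fun e _ => hω0 e)
    (fun d' bb => by
      rw [hΩ]
      simp only
      split_ifs
      · positivity
      · exact le_rfl)
    (fun d' h1 h2 h3 e he bb hbb => by
      have hth : Th d' bb := by
        rw [hTh]
        simp only
        obtain ⟨e1, e2, e3⟩ := hemem e (mem_filter.1 he).1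
        have h4 := (mem_filter.1 he).2
        rw [hccd d' h3] at hbb ⊢
        have e0 : (0 : ℝ) < nm e := by linarith
        have h5 : β₀ ≤ Real.log (nm e) := (Real.le_log_iff_exp_le e0).2 h4
        obtain ⟨⟨y, hy⟩, ⟨y', hy'⟩⟩ := (lc_dvd hcg e1 (lc (a.2.1 / b) e)).1 dvd_rfl
        have hlc : IsPrim (lc (a.2.1 / b) e) := lc_prim hcg e1
        have hy1 : IsPrim y := by
          have := hlc
          rw [hy] at this
          exact this.of_mul_left hcg
        have hy1' : IsPrim y' := by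
          have := hlc
          rw [hy'] at this
          exact this.of_mul_left e1
        have h6 : lc (a.2.1 / b) e / (a.2.1 / b) = y := by
          conv_lhs => rw [hy]
          exact mul_div_cancel_left₀ y hcg.ne_zero
        rw [h6] at hbb
        have h7 : (nm e : ℝ) * nm y' = nm (a.2.1 / b) * nm y := by
          rw [← Nat.cast_mul, ← Nat.cast_mul, ← nm_mul, ← nm_mul, ← hy, ← hy']
        have h8 := one_le_nmR hy1
        have h9 := one_le_nmR hy1'
        have h10 : Real.log (nm e) ≤ Real.log (nm (a.2.1 / b)) + Real.log (nm y) := by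
          rw [← Real.log_mul cg0.ne' (by linarith), ← h7]
          exact Real.log_le_log e0 (le_mul_of_one_le_right e0.le h9)
        linarith
      rw [hΩ]
      simp only
      rw [if_pos hth]
      exact hωEs e he)
    Bf m (fun _ _ _ => by rw [hBf]; positivity)
    (fun d' h1 h2 h3 bb k' l s' q1 q2 q3 q4 q5 q6 q7 q8 => by
      have hcc := hccd d' h3
      obtain ⟨δ0, δ1⟩ := hdb d' h1 h2
      have d1 := one_le_nmR h1
      have d0 : (0 : ℝ) < nm d' := by linarith
      have hlogD : Real.log (nm (b * d' * cc a.2.1 (b * d'))) = γ + Real.log (nm d') := by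
        rw [hcc, nm_mul, nm_mul]
        push_cast
        rw [Real.log_mul (by positivity) cg0.ne', Real.log_mul b0.ne' d0.ne', hγcg]
        ring
      have hprimD : IsPrim (b * d' * cc a.2.1 (b * d')) := by
        rw [hcc]
        exact (hbp.mul h1).mul hcg
      have hD0 : (0 : ℝ) < nm (b * d' * cc a.2.1 (b * d')) := by
        linarith [one_le_nmR hprimD]
      have hk' : k' ≤ v - 2 * Real.log (nm d') := by
        refine q3.trans (le_of_eq ?_)
        rw [hcc, hγcg, Real.log_div hV0.ne' (by positivity), Real.log_pow, hlV]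
        push_cast
        ring
      have hr3 : 3 * r ≤ τ * L := by
        refine le_trans ?_ hcL
        rw [hc₁]
        linarith
      have hNr1 : (N : ℝ) * r ≤ τ * L := by
        refine le_trans ?_ hcL
        rw [hc₁]
        linarith
      have hn1 : LY s' ≤ P - Real.log (nm d') - bb + r := by
        have e1 : Real.log (nm (b * d') * nm (cc a.2.1 (b * d'))) = γ + Real.log (nm d') := by
          rw [← hlogD]
          congr 1
          rw [nm_mul (b * d')]
          push_cast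
          ring
        have h9 := (abs_le.1 q6).2
        rw [e1] at h9
        linarith
      have hl1 : l ≤ v - 2 * Real.log (nm d') + bb + r := by
        have h9 := (abs_le.1 q7).2
        linarith
      have hT5 : TM708.T5 (bP p) * L = min (2 * Nn - k) (3 / 4 * Nn) + 5 * x := by
        show (min (2 * (cu p 2 + cu p 3 + cu p 4) - cκ p) (3 / 4 * (cu p 2 + cu p 3 + cu p 4)) +
          5 * cx' p) * L = _
        have hcN : cN p = cu p 2 + cu p 3 + cu p 4 := rfl
        rw [← hcN, add_mul, min_mul_of_nonneg _ _ hL.le, hNn, hk, hx]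
        congr 1
        · congr 1
          · ring
          · ring
        · ring
      have hPD : PD X (σ / 2) (max B 6) H N (bP p) 1 a.1.2 (List.ofFn qs.get) a.1.1.l := by
        rw [List.ofFn_get]
        exact PD_mono2 hX1 (by linarith) (le_max_left _ _) F.pd
      have hK5 : L * K5 (bP p) ≤ k + exx := by
        show L * max (cκ p) (5 / 4 * (cu p 2 + cu p 3 + cu p 4)) ≤ _
        have hcN : cN p = cu p 2 + cu p 3 + cu p 4 := rfl
        rw [← hcN, mul_max_of_nonneg _ _ hL.le]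
        refine max_le (by linarith) ?_
        linarith
      have hlo : L * (3 / 4 * d * bP p 0) = 3 / 4 * d * k := by
        show L * (3 / 4 * d * cκ p) = _
        rw [hk]; ring
      have hdk0 : 0 ≤ 3 / 4 * d * k := by positivity
      have hexL : exx ≤ L := by
        have hN1 := F.par.N1
        have h9 := mul_le_mul_of_nonneg_right
          (max_le zero_le_one (show 5 / 4 * cN p - cκ p ≤ 1 by linarith)) hL.le
        linarith
      have cl1 := G X hXX1 (bP p) (bP_mem hd hd1 hA1 hp) qs.length a.1.2 qs.get a.1.1.l H hPD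
        (b * d' * cc a.2.1 (b * d')) hprimD (by
          refine (hle6 _ hD0 ?_).trans (Real.rpow_le_rpow_of_exponent_le hX1 (le_max_right _ _))
          rw [hlogD]
          linarith) l s' q4 q5 (by
          show l + LY s' ≤ (TM708.T5 (bP p) + (cu p 2 + cu p 3 + cu p 4 + cx' p) + σ / 2) * L
          have hcN : cN p = cu p 2 + cu p 3 + cu p 4 := rfl
          have hσL : 100 * (τ * L) ≤ σ * L := by
            have := mul_le_mul_of_nonneg_right hτσ hL.le
            linarith
          rw [← hcN, add_mul, add_mul, hT5, add_mul, ← hNn, ← hx]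
          linarith) (Wf d' bb) (by
          intro z₁ z₂ z₃ w c1 c2 c3 c4 c5 c6 c7 c8 c9 c10
          rw [List.ofFn_get] at c8
          show NV d (L * K5 (bP p)) (L * (3 / 4 * d * bP p 0)) l (LY s') z₁ z₂ z₃ w ≤ Wf d' bb
          rw [hWf]
          simp only
          split_ifs with hth
          · have hw8 : LN qs - γ - min (y5 (Real.exp a.2.2) a.2.1 c) (Real.log (nm (b * d'))) -
                bb - τ * L ≤ w := by
              rw [c10]
              rw [hLY1] at q8
              linarith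
            have hline := line_M hd hd1 hA1 hp hτ.le F (t := t) (by
                rw [htdef]; linarith) hi (d := d) (K := L * K5 (bP p))
              (lo := L * (3 / 4 * d * bP p 0)) (l := l) (n := LY s') (w := w)
              (δ := Real.log (nm d')) (bb := (bb : ℝ)) (by linarith) (by rw [hlo]; exact hdk0)
              c1 c2 c3 c4 c9 δ0 (Nat.cast_nonneg _) (by linarith) (by linarith) (by linarith)
              hw8 (γc := γ - β) (by linarith) (fun hc4 => by
                have hth' : β₀ ≤ bb + 1 + Real.log (nm (cc a.2.1 (b * d'))) := hth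
                rw [hcc, hγcg, hβ₀, if_pos hc4] at hth'
                linarith)
            rw [hlo] at hline ⊢
            rw [hm₀]
            linarith
          · refine (NV_crude (R := 40 * L) (by linarith) ?_ q4 (by linarith) ?_
              (by linarith)).trans (by linarith)
            · rw [hlo]
              have : d * k ≤ 1 / 8 * k := mul_le_mul_of_nonneg_right hd1 (by linarith)
              linarith
            · rw [← c9]
              linarith)
      exact cl1.trans (le_of_eq (mul_comm _ _)))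
    (fun d' h1 h2 h3 bb q1 => by
      have d1 := one_le_nmR h1
      have d0 : (0 : ℝ) < nm d' := by linarith
      rw [hΩ, hBf]
      simp only
      split_ifs with hth
      · rw [hWf]
        simp only
        rw [if_pos hth]
        have e1 : H ^ M = Real.exp ((M : ℝ) * Real.log H) := by
          rw [← Real.log_pow, Real.exp_log hH1]
        have e2 : (nm d' : ℝ) ^ 2 = Real.exp (2 * Real.log (nm d')) := by
          rw [two_mul, Real.exp_add, Real.exp_log d0]; ring
        have e3 : (3 : ℝ) = Real.exp (Real.log 3) := (Real.exp_log (by norm_num)).symm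
        rw [hrp, e1, e2]
        nth_rewrite 1 [e3]
        rw [← Real.exp_add, ← Real.exp_add, ← Real.exp_add, ← Real.exp_add, ← Real.exp_add]
        refine Real.exp_le_exp.2 (le_of_eq ?_)
        rw [hm]
        ring
      · rw [zero_mul, zero_mul]
        exact (Real.exp_pos _).le)
  have haf : afM π h (1 / 64) lam a qs c b s = afrb (gt5 (Real.exp (1 / 64 * a.1.1.l))
      (Real.exp a.2.2) a.2.1 c) (q5 a.2.1 c) (Real.exp a.2.2) (sqc 1 (al h s1))
      (sqc 1 (al h s2)) a.2.1 b s := by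
    unfold afM
    rw [ηC_eq, αC_eq]
  rw [hsum, haf]
  have hK23 : K ^ (2 / 3 : ℝ) = Real.exp (2 / 3 * a.1.1.l) := by
    rw [hKdef, ← Real.exp_mul, mul_comm]
  have hV3 : V ^ (-(1 / 3) : ℝ) = Real.exp (-(v - (γ - β)) / 3) := by
    rw [Real.rpow_def_of_pos hV0, hlV]; congr 1; ring
  have hgb3 : ((nm a.2.1 : ℝ) * nm b) ^ (1 / 3 : ℝ) = Real.exp ((γ + β) / 3) := by
    rw [Real.rpow_def_of_pos (mul_pos g0 b0), Real.log_mul g0.ne' b0.ne']; congr 1; ring
  have hS : (1 + |s|) ^ (((N + 3 : ℕ) : ℝ) * (M : ℝ)) = (1 + |s|) ^ ((N + 3) * M) := by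
    rw [← Real.rpow_natCast]
    congr 1
    push_cast
    ring
  have hC0 : 0 < C := by linarith
  have htg : tgM (LS0 d p) X a qs = a.1.1.l + P + exx + 3 / 4 * d * k := by
    unfold tgM
    rw [hPdef]
    unfold pM LS0
    rw [hexx, hk]
    ring
  have h3C : Real.log (3 * C) = Real.log 3 + Real.log C := Real.log_mul (by norm_num) hC0.ne'
  have hτεL : 2000 * (τ * L) ≤ ε * L := by
    have := mul_le_mul_of_nonneg_right hτε hL.le
    linarith
  have hHM : H ^ M = Real.exp ((M : ℝ) * Real.log H) := by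
    rw [← Real.log_pow, Real.exp_log hH1]
  have hs0 : (0 : ℝ) ≤ (1 + |s|) ^ ((N + 3) * M) := by positivity
  calc K ^ (2 / 3 : ℝ) * ∑ e ∈ Es, ω e * XE (JB (Real.sqrt V)) (omp (a.2.1 / b) i s)
        (T3 (afrb (gt5 (Real.exp (1 / 64 * a.1.1.l)) (Real.exp a.2.2) a.2.1 c) (q5 a.2.1 c)
          (Real.exp a.2.2) (sqc 1 (al h s1)) (sqc 1 (al h s2)) a.2.1 b s)) e
      ≤ K ^ (2 / 3 : ℝ) * (C * X ^ (ε / 4) * (1 + |s|) ^ (((N + 3 : ℕ) : ℝ) * (M : ℝ)) *
        (V ^ (-(1 / 3) : ℝ) * Real.exp (-((LY s1 + LY s2) / 3)) *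
          ((nm a.2.1 : ℝ) * nm b) ^ (1 / 3 : ℝ) * Real.exp m)) :=
        mul_le_mul_of_nonneg_left key (by positivity)
    _ = Real.exp (Real.log C + (2 / 3 * a.1.1.l + ε / 4 * L - (v - (γ - β)) / 3 -
          (P + 2 * γ) / 3 + (γ + β) / 3 + m)) * (1 + |s|) ^ ((N + 3) * M) := by
        rw [hK23, hV3, hgb3, hS, hLY, hrp (ε / 4)]
        nth_rewrite 1 [← Real.exp_log hC0]
        have e1 : Real.log C + (2 / 3 * a.1.1.l + ε / 4 * L - (v - (γ - β)) / 3 -
          (P + 2 * γ) / 3 + (γ + β) / 3 + m) = 2 / 3 * a.1.1.l + (Real.log C + ε / 4 * L +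
          (-(v - (γ - β)) / 3 + -((P + 2 * γ) / 3) + (γ + β) / 3 + m)) := by ring
        rw [e1]
        exact exp_fin _ _ _ _ _ _ _ _
    _ ≤ Real.exp ((M : ℝ) * Real.log H + ε * L + (a.1.1.l + P + exx + 3 / 4 * d * k)) *
          (1 + |s|) ^ ((N + 3) * M) := by
        refine mul_le_mul_of_nonneg_right (Real.exp_le_exp.2 ?_) hs0
        rw [hm, hm₀, htdef]
        linarith
    _ = _ := by
        rw [htg, hHM, hrp ε, Real.exp_add, Real.exp_add]

end Crest.Agent.R017.XMf54
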