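import Crest.Agent.R017.LMRe_813
import Crest.Agent.R017.FNEv_708
import Crest.Agent.R017.P10e_146
import Crest.Agent.R017.P1t_54
import Crest.Agent.R017.DhS_744
import Crest.Agent.R017.P1z_828
import Crest.Agent.R017.XMg_54

/-!
# Row 17, R8/P1: the mismatch, class N, the composition (helper828)

* `fe2V_D5` : the flat claims at the constant family over `D5`
* **`p1M_N`** : `P1M` over the exact square, from the lines `LTU`
-/

set_option autoImplicit false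

noncomputable section

open Complex Filter Topology

namespace Crest.Agent.R017.P1Mf828

open Crest.Agent.R012 Crest.Agent.R012.Eis
open Crest.Agent.R017.FE47 (PU cx)
open Crest.Agent.R017.XG702 (BG)
open Crest.Agent.R017.Prov71
open Crest.Agent.R017.B770
open Crest.Agent.R017.ER911 Crest.Agent.R017.ExpC702
open Crest.Agent.R017.XPD571 (RP0)
open Crest.Agent.R017.SC777
open Crest.Agent.R017.NE73
open Crest.Agent.R017.E5B71 Crest.Agent.R017.E5L770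
open Crest.Agent.R017.TM708 (T5 K5 R5)
open Crest.Agent.R017.FN708
open Crest.Agent.R017.P1t54 (ParS LS0 parOK_Sq5)
open Crest.Agent.R017.P10146 (D5 sq_facts)
open Crest.Agent.R017.P1l54
open Crest.Agent.R017.P1y54

/-- **the flat claims at the constant family** -/
theorem fe2V_D5 {d : ℝ} {r s s₀ : EF} (R : ExpRules (7 / 8 + d) r s)
    (Rm : ExpRGFz (7 / 8 + d) r s s₀) (hd : 0 ≤ d) (hd8 : 8 * d ≤ 1)
    (hG : ∀ κ S y₁ y₂ y₃ : ℝ, NearDom κ S y₁ y₂ y₃ → NEF s₀ κ S y₁ y₂ y₃ (2 * d * y₃)) :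
    FE2V s₀ D5 fun b => 3 / 4 * d * b 0 := by
  refine fe2V_of_ne R Rm hd hd8 (fun b hb => hb.1) (fun b hb => hb.2.1) ?_ ?_ hG
  · rintro b ⟨hR5, h5s, k1, k2, b32, b21, hb1⟩
    have hk1 : b 0 ≤ K5 b := le_max_left _ _
    have h1 : max (b 1) (max (b 2) (b 3)) ≤ b 1 := max_le le_rfl (max_le b21 (b32.trans b21))
    linarith [hR5.k0]
  · rintro b ⟨hR5, -⟩
    obtain ⟨k0, y1, y2, y3, x0, hN', x1, adm⟩ := hR5
    have h4 : d * ((b 1 + b 2 + b 3) / 3 + b 4) ≤ d * (3 / 8 * b 0) :=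
      mul_le_mul_of_nonneg_left (by linarith) hd
    show _ ≤ 3 / 4 * d * b 0
    linarith

/-- **the mismatch over the exact square** -/
theorem p1M_N {Λ : Type} {π : Λ → DPar} {h : ℝ → ℝ} {c₀ : ℝ} (hpu : PU h c₀)
    (hP : ∀ lam, (π lam).OK) {sf s₁ : EF} {d A : ℝ}
    (R : ExpRules (7 / 8 + d) (ex Dq (fun lam => Rp (π lam) h)) sf)
    (Rm : ExpRGFz (7 / 8 + d) (ex Dq (fun lam => Rp (π lam) h)) sf
      (ex Dq (fun lam => S0p (π lam) h)))
    (hcolP : ∀ (i : ℝ) (u : List ℝ) (m a : ℝ), 0 ≤ i → Okl u m a →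
      BG Dq (RP0 π h) i u (wt m a) (2 * a + 2 * (7 / 8 + d) * m))
    (hd : 0 < d) (hd1 : d ≤ 1 / 42) (hA0 : A ≤ 1) (hA : 9 / 10 ≤ A) (hA1 : 16 * (1 - A) ≤ d)
    (hG : ∀ κ S y₁ y₂ y₃ : ℝ, NearDom κ S y₁ y₂ y₃ →
      NEF (ex Dq (fun lam => S0p (π lam) h)) κ S y₁ y₂ y₃ (2 * d * y₃))
    {Rh : ℝ} (hRh0 : 0 ≤ Rh) (hRh : ∀ u : ℝ, cx h u ≠ 0 → |u| ≤ Rh)
    (HT : LTU π h (1 / 64) (ParS A d) (LS0 d)) : P1M π h (1 / 64) (ParS A d) (LS0 d) := by
  have hV := fe2V_D5 R Rm hd.le (by linarith) hG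
  have hAll := TK708.allT_of R Rm.toExpS0 hd.le (by linarith)
  have HX := XMf54.xmU_of hpu hP hRh0 hRh hd.le (by linarith) hA1 Rm.toExpS0 hAll hV
  have HR : LRU π h (1 / 64) (ParS A d) (LS0 d) := LMR813.lru_of hpu hP R hcolP hd.le
    (by linarith) (fun p hp => E3Nx744.dh_sq5 hd.le (by linarith) hA0 hA1 hp) (by norm_num)
    (by norm_num) (fun p _ => le_of_eq (by unfold P1Q904.LQ P1t54.LS0; ring))
  have HC := P1z828.p1CF_of hP hRh0 hRh (by norm_num) (by norm_num) (fun p hp => by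
      obtain ⟨f1, f2, f3, f4, f5, f6, f7, f8, f9, f10⟩ := sq_facts hd.le (by linarith) hA1 hp
      exact ⟨f8, f10.imp id fun h => ⟨h.1, h.2.1⟩⟩) HX HT HR
  exact P1w54.p1M_of_frame hP hRh (fun p hp => parOK_Sq5 hA hp) HC

end Crest.Agent.R017.P1Mf828
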