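import Crest.Agent.R017.P1X7_904
import Crest.Agent.R017.GkXb_381

/-!
# Row 17, exceptional class (helper47): the `T`-lines of the Gram sums of `et` at the room `GX`

Families `3/5 κ .. 7/8 κ`, helper904's `GX`, `hX`, `Ch`.
* `hX_neg` : `hX + k / 20 ≤ 0`
* **`lnt_GX`** : `LnT` for the numbers `shB s₀ p (ShT .. + lm)` (differences; single lists are the
  case `s₀ = 0`, `ℓ ≥ 17/100 k - t`) and the line of the diagonal with the gain `k / 60`
-/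

set_option autoImplicit false
set_option linter.unusedVariables false

noncomputable section

namespace Crest.Agent.R017.LnX47

open Crest.Agent.R017.RnP571 (Dh)
open Crest.Agent.R017.P1L904 (RSm RS0 hL tL RSm_le0 RSm_le1 hL_le)
open Crest.Agent.R017.P1L7904 (GX hB hX Ch c0_X c1_X c0_B c1_B GX_eq)
open Crest.Agent.R017.I1K764 (bcx)
open Crest.Agent.R017.P10X764 (shB)
open Crest.Agent.R017.E3N146 (ShT)
open Crest.Agent.R017.ET490 (LnT)
open Crest.Agent.R017.GkX381 (ShT_le)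

set_option maxHeartbeats 8000000 in
lemma coreN20 {k y₃ y₄ u x D t q p um v δ h G R K5 : ℝ} (hD : Dh k y₃ y₄ u x D)
    (t0 : 0 ≤ t) (t1 : t ≤ k / 20000) (q0 : 3 / 5 * k - t ≤ q) (q1 : q ≤ 7 / 8 * k + t)
    (p0 : k / 2 - 2 * x - t ≤ p) (p1 : p ≤ y₃ + y₄ + u + x + t) (p2 : p ≤ y₃ + y₄ + um + x + t)
    (um0 : 0 ≤ um) (um1 : um ≤ u + t) (um2 : 3 * um ≤ p + t)
    (v1 : v ≤ 2 * (y₃ + y₄ + u) - k + 11 / 5 * x + t)
    (v2 : v ≤ 3 / 4 * (y₃ + y₄ + u) + 11 / 5 * x + t)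
    (hK : K5 = k ∨ K5 = 5 / 4 * (y₃ + y₄ + u)) (hK' : k ≤ K5) (hK'' : 5 / 4 * (y₃ + y₄ + u) ≤ K5)
    (hG : 2 * (k + p + (K5 - k) - (k - q) / 3) + 2 / 45 * D - R ≤ G)
    (hR : R ≤ q + p ∨ R ≤ p + (2 * q + k) / 3 ∨ R ≤ p + (2 * q + (p + um)) / 3 ∨
      R ≤ p + (q + 2 * p + k / 3) / 3 ∨ R ≤ p + (q + 2 * p + (p + um) / 3) / 3 ∨
      R ≤ p + (q + 3 * p - 5 / 12 * (p + um - x)) / 3)
    (δ0 : 0 ≤ δ) (hh : h = 2 * q + 4 * p - δ - 3 * G ∨ h ≤ 2 * q + 3 * p + K5 - 3 * G ∨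
        h ≤ 2 * q + 3 * p + (4 / 3 * p + 2 / 3 * x - 4 / 3 * δ) - 3 * G) :
    h + k / 20 ≤ 0 := by
  obtain ⟨k0, u4, y43, u0, y3, N1, near, x0, adm, d0, d1⟩ := hD
  rcases hR with hR | hR | hR | hR | hR | hR <;> rcases hK with rfl | rfl <;>
  rcases hh with hh | hh | hh <;>
  rcases adm with ⟨a0, rfl | a1⟩ | ⟨a1, a2, a3⟩ <;> linarith

set_option maxHeartbeats 8000000 in
lemma coreN20r {k y₃ y₄ u x D t q p um v δ h G R K5 : ℝ} (hD : Dh k y₃ y₄ u x D)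
    (t0 : 0 ≤ t) (t1 : t ≤ k / 20000) (q0 : 3 / 5 * k - t ≤ q) (q1 : q ≤ 7 / 8 * k + t)
    (p0 : k / 2 - 2 * x - t ≤ p) (p1 : p ≤ y₃ + y₄ + u + x + t)
    (um1 : um ≤ u + t) (um2 : 3 * um ≤ p + t) (r3 : um ≤ 153 / 800 * k + t)
    (v1 : v ≤ 2 * (y₃ + y₄ + u) - k + 11 / 5 * x + t)
    (v2 : v ≤ 3 / 4 * (y₃ + y₄ + u) + 11 / 5 * x + t)
    (hK : K5 = k ∨ K5 = 5 / 4 * (y₃ + y₄ + u)) (hK' : k ≤ K5) (hK'' : 5 / 4 * (y₃ + y₄ + u) ≤ K5)
    (hG : 2 * (k + p + (K5 - k) - (k - q) / 3) + 2 / 45 * D - R ≤ G)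
    (hR : R ≤ q + p ∨ R ≤ 2 / 3 * q + 4 / 3 * p + um / 2 ∨
      R ≤ 2 / 3 * q + 4 / 3 * p + 4 / 15 * (um + x))
    (δ0 : 0 ≤ δ) (hh : h = 2 * q + 4 * p - δ - 3 * G ∨ h ≤ 2 * q + 3 * p + K5 - 3 * G ∨
        h ≤ 2 * q + 3 * p + (4 / 3 * p + 2 / 3 * x - 4 / 3 * δ) - 3 * G) :
    h + k / 20 ≤ 0 := by
  obtain ⟨k0, u4, y43, u0, y3, N1, near, x0, adm, d0, d1⟩ := hD
  rcases hR with hR | hR | hR <;> rcases hK with rfl | rfl <;>
  rcases hh with hh | hh | hh <;>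
  rcases adm with ⟨a0, rfl | a1⟩ | ⟨a1, a2, a3⟩ <;> linarith

set_option maxHeartbeats 8000000 in
/-- the bias exponent -/
lemma coreN20b {k y₃ y₄ u x D t q p um v ℓ s h G R K5 : ℝ} (hD : Dh k y₃ y₄ u x D)
    (t0 : 0 ≤ t) (t1 : t ≤ k / 20000) (q0 : 3 / 5 * k - t ≤ q) (q1 : q ≤ 7 / 8 * k + t)
    (p0 : k / 2 - 2 * x - t ≤ p) (p1 : p ≤ y₃ + y₄ + u - ℓ + x + t) (p1' : p ≤ y₃ + y₄ + u + x + t)
    (um1 : um ≤ u + t) (um2 : 3 * um ≤ p + t)
    (v1 : v ≤ 2 * (y₃ + y₄ + u) - k + 11 / 5 * x + t)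
    (v2 : v ≤ 3 / 4 * (y₃ + y₄ + u) + 11 / 5 * x + t)
    (l0 : 0 ≤ ℓ + t) (s0 : 17 / 100 * k - ℓ - t ≤ s)
    (hK : K5 = k ∨ K5 = 5 / 4 * (y₃ + y₄ + u)) (hK' : k ≤ K5) (hK'' : 5 / 4 * (y₃ + y₄ + u) ≤ K5)
    (hG : 2 * (k + p + (K5 - k) - (k - q) / 3) + 3 / 5 * D - R ≤ G)
    (hR : R ≤ q + p ∨ R ≤ 2 / 3 * q + 4 / 3 * p + um / 2 ∨
      R ≤ 2 / 3 * q + 4 / 3 * p + 4 / 15 * (um + x))
    (hh : h ≤ 2 * q + v + 4 * p - 3 * s - 3 * G) (hh' : h ≤ 2 * q + v + 4 * p - 3 * G) :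
    h + k / 20 ≤ 0 := by
  obtain ⟨k0, u4, y43, u0, y3, N1, near, x0, adm, d0, d1⟩ := hD
  rcases hR with hR | hR | hR <;> rcases hK with rfl | rfl <;>
  rcases adm with ⟨a0, rfl | a1⟩ | ⟨a1, a2, a3⟩ <;> linarith

lemma RS0_cases (q p um x : ℝ) : RS0 q p um x ≤ q + p ∨
    RS0 q p um x ≤ 2 / 3 * q + 4 / 3 * p + um / 2 ∨
    RS0 q p um x ≤ 2 / 3 * q + 4 / 3 * p + 4 / 15 * (um + x) := by
  unfold P1L904.RS0
  rcases max_choice (q + p) (2 / 3 * q + 4 / 3 * p + max (um / 2) (4 / 15 * (um + x))) with h | h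
  · left; rw [h]
  · right
    rw [h]
    rcases max_choice (um / 2) (4 / 15 * (um + x)) with h | h <;> rw [h]
    · left; exact le_rfl
    · right; exact le_rfl

variable {k y₃ y₄ u x D t q p uN uR v ℓ s₀ F δ : ℝ}

/-- **the sign of the exponent**, with a margin -/
theorem hX_neg (hD : Dh k y₃ y₄ u x D) (hC : Ch k y₃ y₄ u x D t q p uN uR v ℓ s₀) (δ0 : 0 ≤ δ)
    (F1 : F ≤ 5 / 9 * D) : hX (y₃ + y₄ + u) k q v p δ x D uN uR s₀ F + k / 20 ≤ 0 := by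
  have hG := GX_eq (y₃ + y₄ + u) k q p uN uR x D
  have t0 := hC.t0
  have t1 := hC.t1
  have q0 := hC.q0
  have q1 := hC.q1
  have p0 := hC.p0
  have p1 := hC.p1
  have p1' := hC.p1'
  have p2 := hC.p2
  have um0 := hC.um0
  have um1 := hC.um1
  have um2 := hC.um2
  have r1 := hC.r1
  have r2 := hC.r2
  have r3 := hC.r3
  have v1 := hC.v1
  have v2 := hC.v2
  have l0 := hC.l0
  have s0 := hC.s0
  clear hC
  unfold P1L7904.hX
  generalize GX (y₃ + y₄ + u) k q p uN uR x D = G at *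
  rcases max_choice (hL q v p δ x (max k (5 / 4 * (y₃ + y₄ + u))) (G - F))
    (hB q v p δ s₀ G) with e | e <;> rw [e]
  · have hh : hL q v p δ x (max k (5 / 4 * (y₃ + y₄ + u))) (G - F) =
          2 * q + 4 * p - δ - 3 * (G - F) ∨
        hL q v p δ x (max k (5 / 4 * (y₃ + y₄ + u))) (G - F) ≤
          2 * q + 3 * p + max k (5 / 4 * (y₃ + y₄ + u)) - 3 * (G - F) ∨
        hL q v p δ x (max k (5 / 4 * (y₃ + y₄ + u))) (G - F) ≤
          2 * q + 3 * p + (4 / 3 * p + 2 / 3 * x - 4 / 3 * δ) - 3 * (G - F) := by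
      rcases hL_le q v p δ x (max k (5 / 4 * (y₃ + y₄ + u))) (G - F) with ⟨h, -⟩ | ⟨-, h | h⟩
      · exact Or.inl h
      · exact Or.inr (Or.inl h)
      · exact Or.inr (Or.inr h)
    rcases max_choice (RSm k q p uN x) (RS0 q p uR x) with g | g <;> rw [g] at hG
    · exact coreN20 (G := G - F) hD t0 t1 q0 q1 p0 p1' p2 um0 um1 um2 v1 v2 (max_choice _ _)
        (le_max_left _ _) (le_max_right _ _) (by linarith) (RSm_le1 k q p uN x) δ0 hh
    · exact coreN20r (G := G - F) hD t0 t1 q0 q1 p0 p1' r1 r2 r3 v1 v2 (max_choice _ _)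
        (le_max_left _ _) (le_max_right _ _) (by linarith) (RS0_cases q p uR x) δ0 hh
  · have h1 : hB q v p δ s₀ G ≤ 2 * q + v + 4 * p - 3 * s₀ - 3 * G := by
      unfold P1L7904.hB
      have := le_max_right 0 (s₀ - δ)
      linarith
    have h2 : hB q v p δ s₀ G ≤ 2 * q + v + 4 * p - 3 * G := by
      unfold P1L7904.hB
      have := le_max_left 0 (s₀ - δ)
      linarith
    rcases max_choice (RSm k q p uN x) (RS0 q p uR x) with g | g <;> rw [g] at hG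
    · exact coreN20b hD t0 t1 q0 q1 p0 p1 p1' um1 um2 v1 v2 l0 s0 (max_choice _ _)
        (le_max_left _ _) (le_max_right _ _) hG.le (RSm_le0 k q p uN x) h1 h2
    · exact coreN20b hD t0 t1 q0 q1 p0 p1 p1' r1 r2 v1 v2 l0 s0 (max_choice _ _)
        (le_max_left _ _) (le_max_right _ _) hG.le (RS0_cases q p uR x) h1 h2

/-- the T-numbers in the family -/
lemma ShT_k5 {k5 K5 z um' δ b l t : ℝ} (t0 : 0 ≤ t) (hk5 : k5 ≤ K5 + t) :
    ShT k5 z um' p δ b l ≤ ShT K5 z um' p δ b l + t := by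
  unfold E3N146.ShT TM708.eH TM708.eF
  have a0 : max (k5 + b / 2) (3 / 2 * (l + b)) ≤ max (K5 + b / 2) (3 / 2 * (l + b)) + t :=
    max_le (by have := le_max_left (K5 + b / 2) (3 / 2 * (l + b)); linarith)
      (by have := le_max_right (K5 + b / 2) (3 / 2 * (l + b)); linarith)
  generalize max (K5 + b / 2) (3 / 2 * (l + b)) = A at *
  generalize max (k5 + b / 2) (3 / 2 * (l + b)) = A' at *
  have a1 : max (2 * (p - δ - b)) (4 / 3 * (p - δ - b) + (A' + (l + b)) / 3) ≤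
      max (2 * (p - δ - b)) (4 / 3 * (p - δ - b) + (A + (l + b)) / 3) + t :=
    max_le (by have := le_max_left (2 * (p - δ - b)) (4 / 3 * (p - δ - b) + (A + (l + b)) / 3)
               linarith)
      (by have := le_max_right (2 * (p - δ - b)) (4 / 3 * (p - δ - b) + (A + (l + b)) / 3)
          linarith)
  generalize max (2 * (p - δ - b)) (4 / 3 * (p - δ - b) + (A' + (l + b)) / 3) = B' at *
  generalize max (2 * (p - δ - b)) (4 / 3 * (p - δ - b) + (A + (l + b)) / 3) = B at *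
  have a2 : max B' (l + b + (p - δ - b)) ≤ max B (l + b + (p - δ - b)) + t :=
    max_le (by have := le_max_left B (l + b + (p - δ - b)); linarith)
      (by have := le_max_right B (l + b + (p - δ - b)); linarith)
  rw [← min_add_add_right]
  exact min_le_min a2 (by linarith)

/-- **the `T`-lines and the line of the diagonal** at the room `GX`, `lm` = loss of the lists -/
theorem lnt_GX {um' E z lm : ℝ} (hD : Dh k y₃ y₄ u x D)
    (hC : Ch k y₃ y₄ u x D t q p uN uR v ℓ s₀) (δ0 : 0 ≤ δ) (F1 : F ≤ 5 / 9 * D)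
    (hlm : lm ≤ F + t) {k5 c₁ : ℝ} (hk5 : k5 ≤ max k (5 / 4 * (y₃ + y₄ + u)) + t) (z0 : 0 ≤ z)
    (z1 : z ≤ x + t) (c1 : c₁ ≤ t) {G' h : ℝ}
    (hG' : GX (y₃ + y₄ + u) k q p uN uR x D + 14 * t ≤ G')
    (h1 : hX (y₃ + y₄ + u) k q v p δ x D uN uR s₀ F = h) :
    LnT (shB s₀ p fun γ b v => ShT k5 z um' p γ b v + lm) q v h p E δ c₁ G' ∧
    ∀ b l : ℝ, 0 ≤ b → 0 ≤ l → l ≤ v - 2 * δ + c₁ →
      2 / 3 * q - v / 3 + shB s₀ p (fun γ b v => ShT k5 z um' p γ b v + lm) δ b l + 2 * δ -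
        max 0 (b - E) - p / 3 ≤ G' - k / 60 := by
  have t0 := hC.t0
  have hneg := hX_neg (F := F) hD hC δ0 F1
  rw [h1] at hneg
  have key : ∀ b l : ℝ, 0 ≤ b → l ≤ v - 2 * δ + c₁ →
      ET490.lw0 q v h + shB s₀ p (fun γ b v => ShT k5 z um' p γ b v + lm) δ b l + 2 * δ -
        p / 3 ≤ G' ∧
      ET490.lw1 q v h + shB s₀ p (fun γ b v => ShT k5 z um' p γ b v + lm) δ b l + 2 * δ +
        (v - 2 * δ - l) / 3 - p / 3 ≤ G' := by
    intro b l b0 hl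
    have hl' : l ≤ v - 2 * δ + t := by linarith
    obtain ⟨m, hm, hT⟩ := ShT_le (max k (5 / 4 * (y₃ + y₄ + u))) z um' p δ b l z0
    have hs := ShT_k5 (p := p) (z := z) (um' := um') (δ := δ) (b := b) (l := l) t0 hk5
    have a1 := c0_X (T := ShT (max k (5 / 4 * (y₃ + y₄ + u))) z um' p δ b l) (h := h) (F := F)
      hD hC δ0 b0 hl' z0 z1 (n := p - δ - b) (by linarith) hm F1 hT (by linarith) (by linarith)
    have a2 := c1_X (T := ShT (max k (5 / 4 * (y₃ + y₄ + u))) z um' p δ b l) (h := h) (F := F)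
      hD hC δ0 b0 hl' z0 z1 (n := p - δ - b) (by linarith) hm F1 hT (by linarith) (by linarith)
    have e1 : 5 / 3 * p + bcx s₀ δ b l ≤
        5 / 3 * (p - δ - b) + 2 / 3 * (l + b) - max 0 (s₀ - δ - b) := by
      unfold I1K764.bcx
      have : s₀ - (δ + b) = s₀ - δ - b := by ring
      rw [this]
      linarith
    have a3 := c0_B (T := 5 / 3 * p + bcx s₀ δ b l) (h := h) (F := F) hD hC δ0 b0 hl' F1 e1
      (by linarith) (by linarith)
    have a4 := c1_B (T := 5 / 3 * p + bcx s₀ δ b l) (h := h) (F := F) hD hC δ0 b0 hl' F1 e1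
      (by linarith) (by linarith)
    have e2 : ET490.lw0 q v h = P1L904.lw0 q v h := rfl
    have e3 : ET490.lw1 q v h = P1L904.lw1 q v h := rfl
    rw [e2, e3]
    unfold P10X764.shB
    constructor
    · rcases max_choice (ShT k5 z um' p δ b l + lm) (5 / 3 * p + bcx s₀ δ b l) with e | e <;>
        simp only [e] <;> linarith
    · rcases max_choice (ShT k5 z um' p δ b l + lm) (5 / 3 * p + bcx s₀ δ b l) with e | e <;>
        simp only [e] <;> linarith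
  refine ⟨⟨fun b l b0 _ hl => ?_, fun b l b0 _ hl => ?_⟩, fun b l b0 _ hl => ?_⟩
  · have := (key b l b0 hl).1
    have hw := le_max_left 0 (b - E)
    linarith
  · have := (key b l b0 hl).2
    have hw := le_max_left 0 (b - E)
    linarith
  · have := (key b l b0 hl).1
    have hw := le_max_left 0 (b - E)
    have h4 : 2 / 3 * q - (h + v) / 3 ≤ ET490.lw0 q v h := (le_max_left _ _).trans (le_max_right _ _)
    linarith

end Crest.Agent.R017.LnX47
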