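import Crest.Agent.R012.Gauss_880
import Crest.Agent.R012.SumMod_880

/-!
# Row 17 (A92.3): local sums — Gauss and Jacobi sums of characters modulo an arbitrary `m ≠ 0`

Language of `R012.Gauss880` (`IsCh m α` = `α` is a character modulo `m` on Eisenstein integers).
The additive character is `x ↦ e(r x / (√-3 m))`, genuinely primitive for every `m ≠ 0`
(also for `3 ∣ m`).

* `Prm m α` : primitivity, stabiliser form; `Prp m α` : the usual form (`prm_of_prp`).
* `gl α r m = Σ_{x mod m} α(x) e(r x/(√-3 m))`; `gl_prim`, `norm_gl_sq : |gl|² = N(m)`.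
* `jac α β m = Σ α(x) β(1-x)`; `gl_mul_gl`, `norm_jac_sq`.
* `loc_coprime`, `loc_vanish`, `loc_zero`, `loc_mid`, `norm_Bs_sq` : the local sums of A92.3.
-/

set_option autoImplicit false

noncomputable section

open Complex
open scoped ComplexConjugate

namespace Crest.Agent.R017.Loc266

open Crest.Agent.R012 Crest.Agent.R012.Eis Crest.Agent.R012.Gauss880

variable {m n c d : Eis} {α β g : Eis → ℂ}

/-! ### the additive character -/

/-- `e(r x / (√-3 m))` -/
def ea (m r x : Eis) : ℂ := eC (toC r * toC x / (toC sq3 * toC m))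

lemma sq3C_ne : toC sq3 ≠ 0 := toC_ne_zero sq3_ne_zero

lemma ea_add (hm : m ≠ 0) (r x y : Eis) : ea m r (x + y) = ea m r x * ea m r y := by
  unfold ea; rw [← eC_add]; congr 1; rw [map_add]; ring

lemma ea_add_left (m r s x : Eis) : ea m (r + s) x = ea m r x * ea m s x := by
  unfold ea; rw [← eC_add]; congr 1; rw [map_add]; ring

lemma ea_comm (m r x : Eis) : ea m r x = ea m x r := by
  unfold ea; rw [mul_comm (toC r)]

lemma ea_mul (m r x y : Eis) : ea m r (x * y) = ea m (r * x) y := by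
  unfold ea; congr 1; rw [map_mul, map_mul]; ring

lemma ea_zero (m r : Eis) : ea m r 0 = 1 := by
  unfold ea; simp [eC]

lemma ea_dvd (hm : m ≠ 0) {r : Eis} (h : m ∣ r) (x : Eis) : ea m r x = 1 := by
  obtain ⟨t, rfl⟩ := h
  have hm' := toC_ne_zero hm
  unfold ea
  have : toC (m * t) * toC x / (toC sq3 * toC m) = toC (t * x) / toC sq3 := by
    rw [map_mul, map_mul]; field_simp
  rw [this, eC_toC_div_sq3]

lemma ea_dvd' (hm : m ≠ 0) (r : Eis) {x : Eis} (h : m ∣ x) : ea m r x = 1 := by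
  rw [ea_comm, ea_dvd hm h]

lemma norm_ea (m r x : Eis) : ‖ea m r x‖ = 1 := by
  unfold ea; rw [eC_eq, Complex.norm_exp_ofReal_mul_I]

lemma ea_ne_zero (m r x : Eis) : ea m r x ≠ 0 := by
  unfold ea; exact eC_ne_zero _

lemma pmod_ea (hm : m ≠ 0) (r : Eis) : PMod m (fun x => ea m r x) := by
  intro x t
  beta_reduce
  rw [ea_add hm, ea_dvd' hm r (dvd_mul_right m t), mul_one]

lemma ea_congr (hm : m ≠ 0) {r s : Eis} (h : m ∣ r - s) (x : Eis) : ea m r x = ea m s x := by
  have : r = s + (r - s) := by ring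
  rw [this, ea_add_left, ea_dvd hm h, mul_one]

lemma star_ea (m r x : Eis) : conj (ea m r x) = ea m (-r) x := by
  unfold ea; rw [star_eC]; congr 1; rw [map_neg]; ring

/-- orthogonality, all moduli. -/
lemma sumMod_ea (hm : m ≠ 0) (r : Eis) :
    open Classical in
    sumMod m (fun x => ea m r x) = if m ∣ r then (nm m : ℂ) else 0 := by
  classical
  have h3 : sq3 ≠ 0 := sq3_ne_zero
  have hn3 : (nm sq3 : ℂ) ≠ 0 := by
    have : nm sq3 ≠ 0 := by rw [Ne, nm_eq_zero]; exact h3
    exact_mod_cast this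
  have h1 := sumMod_of_pmod_dvd hm h3 (pmod_ea hm r)
  have h2 := sumMod_eC (c := m * sq3) (mul_ne_zero hm h3) r
  have e : ∀ x, ea m r x = eC (toC r * toC x / toC (m * sq3)) := by
    intro x; unfold ea; rw [map_mul, mul_comm (toC m)]
  rw [sumMod_congr (g := fun x => eC (toC r * toC x / toC (m * sq3))) e, h2] at h1
  have h4 : m * sq3 ∣ sq3 * r ↔ m ∣ r := by
    rw [mul_comm m sq3]; exact mul_dvd_mul_iff_left h3
  by_cases h : m ∣ r
  · rw [if_pos h]
    rw [if_pos (h4.mpr h)] at h1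
    have : (nm (m * sq3) : ℂ) = nm sq3 * nm m := by rw [nm_mul]; push_cast; ring
    rw [this] at h1
    exact (mul_left_cancel₀ hn3 h1).symm
  · rw [if_neg h]
    rw [if_neg (fun h' => h (h4.mp h'))] at h1
    exact ((mul_eq_zero.mp h1.symm).resolve_left hn3)

/-! ### primitivity -/

/-- primitive: nontrivial on the stabiliser of every non unit modulo `m`. -/
def Prm (m : Eis) (α : Eis → ℂ) : Prop :=
  ∀ s, ¬ IsCoprime s m → ∃ u, IsCoprime u m ∧ m ∣ (u - 1) * s ∧ α u ≠ 1

/-- primitive, usual form: for each prime `p ∣ m` nontrivial on `1 + (m/p)`. -/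
def Prp (m : Eis) (α : Eis → ℂ) : Prop :=
  ∀ p, Prime p → p ∣ m → ∃ u, IsCoprime u m ∧ m ∣ (u - 1) * p ∧ α u ≠ 1

lemma prm_of_prp (hm : m ≠ 0) (h : Prp m α) : Prm m α := by
  intro s hs
  have : ∃ p, Prime p ∧ p ∣ s ∧ p ∣ m := by
    by_contra hcon
    push Not at hcon
    apply hs
    refine isCoprime_of_prime_dvd (fun h0 => hm h0.2) (fun p hp h1 h2 => hcon p hp h1 h2)
  obtain ⟨p, hp, h1, h2⟩ := this
  obtain ⟨u, hu, h3, h4⟩ := h p hp h2
  exact ⟨u, hu, h3.trans (mul_dvd_mul_left _ h1), h4⟩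

lemma Prm.prp (h : Prm m α) : Prp m α := by
  intro p hp hpm
  refine h p (fun hc => ?_)
  have h2 : IsCoprime p p := IsCoprime.of_isCoprime_of_dvd_right hc hpm
  exact hp.not_isUnit (isCoprime_self.mp h2)

lemma Prm.conj (h : Prm m α) : Prm m (fun x => conj (α x)) := by
  intro s hs
  obtain ⟨u, hu, h1, h2⟩ := h s hs
  refine ⟨u, hu, h1, fun h3 => h2 ?_⟩
  have := congrArg conj h3
  simpa using this

/-! ### Gauss sums -/

/-- `Σ_{x mod m} χ(x) e(r x / (√-3 m))` -/
def gl (χ : Eis → ℂ) (r m : Eis) : ℂ := sumMod m (fun x => χ x * ea m r x)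

lemma per_gl (hm : m ≠ 0) (hα : IsCh m α) (r : Eis) : PMod m (fun x => α x * ea m r x) :=
  hα.per.mul (pmod_ea hm r)

lemma gl_mul_of_coprime (hm : m ≠ 0) (hα : IsCh m α) (r : Eis) {u : Eis} (hu : IsCoprime u m) :
    gl α (r * u) m = conj (α u) * gl α r m := by
  have h1 : α u * gl α (r * u) m = gl α r m := by
    unfold gl
    rw [← sumMod_mul_left hm, ← sumMod_mul_coprime hm (per_gl hm hα r) hu]
    refine sumMod_congr fun x => ?_
    rw [hα.mul, ea_mul]; ring
  have h2 := hα.mul_conj_self hm hu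
  calc gl α (r * u) m = (α u * conj (α u)) * gl α (r * u) m := by rw [h2, one_mul]
    _ = conj (α u) * (α u * gl α (r * u) m) := by ring
    _ = _ := by rw [h1]

lemma gl_congr (hm : m ≠ 0) {r s : Eis} (h : m ∣ r - s) : gl α r m = gl α s m :=
  sumMod_congr fun x => by rw [ea_congr hm h]

lemma gl_eq_zero (hm : m ≠ 0) (hα : IsCh m α) (hp : Prm m α) {r : Eis} (hr : ¬ IsCoprime r m) :
    gl α r m = 0 := by
  obtain ⟨u, hu, h1, h2⟩ := hp r hr
  have h3 := gl_mul_of_coprime hm hα r hu
  have h4 : gl α (r * u) m = gl α r m := gl_congr hm (by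
    have : r * u - r = (u - 1) * r := by ring
    rwa [this])
  rw [h4] at h3
  have h5 : (1 - conj (α u)) * gl α r m = 0 := by linear_combination h3
  rcases mul_eq_zero.mp h5 with h6 | h6
  · exfalso; apply h2
    have := congrArg conj (sub_eq_zero.mp h6)
    simpa using this.symm
  · exact h6

/-- Gauss sums of primitive characters. -/
theorem gl_prim (hm : m ≠ 0) (hα : IsCh m α) (hp : Prm m α) (r : Eis) :
    gl α r m = conj (α r) * gl α 1 m := by
  by_cases hr : IsCoprime r m
  · have := gl_mul_of_coprime hm hα 1 hr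
    rwa [one_mul] at this
  · rw [gl_eq_zero hm hα hp hr, hα.zero r hr, map_zero, zero_mul]

/-- double sums over residues commute -/
lemma sumMod_comm' (hc : c ≠ 0) (hd : d ≠ 0) (f : Eis → Eis → ℂ) :
    sumMod c (fun x => sumMod d (fun y => f x y)) =
      sumMod d (fun y => sumMod c (fun x => f x y)) := SumMod880.sumMod_comm hc hd f

/-- `Σ_x |α(x)|²` -/
def cnt (m : Eis) (α : Eis → ℂ) : ℂ := sumMod m (fun x => α x * conj (α x))

lemma parseval (hm : m ≠ 0) (α : Eis → ℂ) (hper : PMod m α) :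
    sumMod m (fun r => gl α r m * conj (gl α r m)) = nm m * cnt m α := by
  classical
  have e1 : ∀ r : Eis, gl α r m * conj (gl α r m)
      = sumMod m (fun x => sumMod m (fun y => α x * conj (α y) * ea m (x - y) r)) := by
    intro r
    unfold gl
    rw [sumMod_star hm (fun x => α x * ea m r x)]
    rw [← sumMod_mul_right hm]
    refine sumMod_congr fun x => ?_
    rw [← sumMod_mul_left hm]
    refine sumMod_congr fun y => ?_
    rw [map_mul, star_ea, sub_eq_add_neg, ea_add_left, ea_comm m x r]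
    have : ea m (-y) r = ea m (-r) y := by
      unfold ea; congr 1; rw [map_neg, map_neg]; ring
    rw [this]; ring
  rw [sumMod_congr e1, sumMod_comm' hm hm]
  unfold cnt
  rw [← sumMod_mul_left hm]
  refine sumMod_congr fun x => ?_
  rw [sumMod_comm' hm hm]
  have e2 : ∀ y : Eis, sumMod m (fun r => α x * conj (α y) * ea m (x - y) r)
      = (fun y => α x * conj (α y) * (if m ∣ x - y then (nm m : ℂ) else 0)) y := by
    intro y
    rw [sumMod_mul_left hm, sumMod_ea hm]
  rw [sumMod_congr e2]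
  -- only `y ≡ x` contributes
  have hP : PMod m (fun y => α x * conj (α y) * (if m ∣ x - y then (nm m : ℂ) else 0)) := by
    intro y t
    beta_reduce
    have h1 : α (y + m * t) = α y := hper y t
    have h2 : m ∣ x - (y + m * t) ↔ m ∣ x - y := by
      constructor
      · intro h
        have := dvd_add h (dvd_mul_right m t)
        rwa [show x - (y + m * t) + m * t = x - y by ring] at this
      · intro h
        have := dvd_sub h (dvd_mul_right m t)
        rwa [show x - y - m * t = x - (y + m * t) by ring] at this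
    rw [h1]
    by_cases h : m ∣ x - y
    · rw [if_pos h, if_pos (h2.mpr h)]
    · rw [if_neg h, if_neg (fun h' => h (h2.mp h'))]
  rw [← sumMod_shift hm hP x]
  have hcrs := isCRS_crs hm
  rw [sumMod_eq_sum hcrs (hP.comp_add x)]
  obtain ⟨s, ⟨hs, hsd⟩, hun⟩ := hcrs 0
  rw [Finset.sum_eq_single s]
  · have h3 : m ∣ x - (s + x) := by
      rwa [show x - (s + x) = 0 - s by ring]
    rw [if_pos h3]
    have h4 : α (s + x) = α x := by
      have : m ∣ (s + x) - x := by
        rw [show s + x - x = -(0 - s) by ring]; exact (dvd_neg).mpr hsd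
      exact hper.congr this
    rw [h4]; ring
  · intro t ht hts
    have h3 : ¬ m ∣ x - (t + x) := by
      intro h
      apply hts
      refine hun t ⟨ht, ?_⟩
      rwa [show x - (t + x) = 0 - t by ring] at h
    rw [if_neg h3, mul_zero]
  · intro h; exact absurd hs h

lemma cnt_ne_zero (hm : m ≠ 0) (hα : IsCh m α) : cnt m α ≠ 0 := by
  have hfin := finite_QE hm
  let _ : Fintype (QE m) := Fintype.ofFinite _
  have hS : ∀ f : Eis → ℂ, sumMod m f = ∑ q : QE m, f (Quotient.out q) := fun f =>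
    sumMod_of_finite hm f
  have hPr : cnt m α = ((∑ q : QE m, ‖α (Quotient.out q)‖ ^ 2 : ℝ) : ℂ) := by
    unfold cnt
    rw [hS]; push_cast
    refine Finset.sum_congr rfl fun q _ => ?_
    rw [Complex.mul_conj, Complex.normSq_eq_norm_sq]; push_cast; rfl
  rw [hPr, Ne, Complex.ofReal_eq_zero]
  have hpos : 0 < ∑ q : QE m, ‖α (Quotient.out q)‖ ^ 2 := by
    refine Finset.sum_pos' (fun q _ => by positivity) ⟨mkQ m 1, Finset.mem_univ _, ?_⟩
    have : α (Quotient.out (mkQ m 1)) = 1 := by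
      rw [← hα.one]
      apply hα.per.congr
      rw [← mkQ_eq_iff, mkQ_out]
    rw [this]; simp
  exact hpos.ne'

/-- `|gl|² = N(m)` for a primitive character. -/
theorem norm_gl_sq (hm : m ≠ 0) (hα : IsCh m α) (hp : Prm m α) : ‖gl α 1 m‖ ^ 2 = nm m := by
  have h2 := parseval hm α hα.per
  have h3 : sumMod m (fun r => gl α r m * conj (gl α r m))
      = ((‖gl α 1 m‖ ^ 2 : ℝ) : ℂ) * cnt m α := by
    unfold cnt
    rw [← sumMod_mul_left hm]
    refine sumMod_congr fun r => ?_
    rw [gl_prim hm hα hp r, map_mul, Complex.conj_conj]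
    have : gl α 1 m * conj (gl α 1 m) = ((‖gl α 1 m‖ ^ 2 : ℝ) : ℂ) := by
      rw [Complex.mul_conj, Complex.normSq_eq_norm_sq]
    rw [← this]; ring
  rw [h3] at h2
  have h4 : ((‖gl α 1 m‖ ^ 2 : ℝ) : ℂ) = nm m := mul_right_cancel₀ (cnt_ne_zero hm hα) h2
  exact_mod_cast h4

lemma gl_ne_zero (hm : m ≠ 0) (hα : IsCh m α) (hp : Prm m α) : gl α 1 m ≠ 0 := by
  intro h
  have := norm_gl_sq hm hα hp
  rw [h, norm_zero] at this
  have h2 : (nm m : ℝ) ≠ 0 := by
    have : nm m ≠ 0 := by rw [Ne, nm_eq_zero]; exact hm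
    exact_mod_cast this
  apply h2; rw [← this]; norm_num

/-! ### Jacobi sums -/

/-- `Σ_{x mod m} α(x) β(1-x)` -/
def jac (α β : Eis → ℂ) (m : Eis) : ℂ := sumMod m (fun x => α x * β (1 - x))

lemma PMod.rsub {f : Eis → ℂ} (hf : PMod m f) (s : Eis) : PMod m (fun x => f (s - x)) := by
  intro x t
  beta_reduce
  rw [show s - (x + m * t) = (s - x) + m * (-t) by ring, hf]

/-- `Σ_x α(x) β(s-x)` -/
lemma conv_coprime (hm : m ≠ 0) (hα : IsCh m α) (hβ : IsCh m β) {s : Eis}
    (hs : IsCoprime s m) :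
    sumMod m (fun x => α x * β (s - x)) = α s * β s * jac α β m := by
  have hP : PMod m (fun x => α x * β (s - x)) := hα.per.mul (PMod.rsub hβ.per s)
  rw [← sumMod_mul_coprime hm hP hs]
  unfold jac
  rw [← sumMod_mul_left hm]
  refine sumMod_congr fun x => ?_
  rw [show s - s * x = s * (1 - x) by ring, hα.mul, hβ.mul]; ring

lemma conv_not_coprime (hm : m ≠ 0) (hα : IsCh m α) (hβ : IsCh m β)
    (hp : Prm m (fun x => α x * β x)) {s : Eis} (hs : ¬ IsCoprime s m) :
    sumMod m (fun x => α x * β (s - x)) = 0 := by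
  obtain ⟨u, hu, h1, h2⟩ := hp s hs
  have hP : PMod m (fun x => α x * β (s - x)) := hα.per.mul (PMod.rsub hβ.per s)
  refine SumMod880.sumMod_eq_zero_of_mul hm (fun x y h => hP.congr h) hu (α u * β u) h2
    (fun x => ?_)
  have h3 : β (s - u * x) = β (u * (s - x)) := by
    apply hβ.per.congr
    rw [show s - u * x - u * (s - x) = -((u - 1) * s) by ring]
    exact (dvd_neg).mpr h1
  rw [h3, hα.mul, hβ.mul]; ring

/-- `G(α) G(β) = G(αβ) J(α, β)` as soon as `αβ` is primitive. -/
theorem gl_mul_gl (hm : m ≠ 0) (hα : IsCh m α) (hβ : IsCh m β)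
    (hp : Prm m (fun x => α x * β x)) :
    gl α 1 m * gl β 1 m = gl (fun x => α x * β x) 1 m * jac α β m := by
  have hαβ : IsCh m (fun x => α x * β x) := hα.mul_same hβ
  have e1 : gl α 1 m * gl β 1 m
      = sumMod m (fun x => sumMod m (fun s => α x * β (s - x) * ea m 1 s)) := by
    unfold gl
    rw [← sumMod_mul_right hm]
    refine sumMod_congr fun x => ?_
    rw [← sumMod_shift hm (per_gl hm hβ 1) (-x), ← sumMod_mul_left hm]
    refine sumMod_congr fun s => ?_
    beta_reduce
    have : ea m 1 s = ea m 1 x * ea m 1 (s + -x) := by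
      rw [← ea_add hm]; congr 1; ring
    rw [this, ← sub_eq_add_neg]; ring
  rw [e1, sumMod_comm' hm hm]
  unfold gl
  rw [← sumMod_mul_right hm]
  refine sumMod_congr fun s => ?_
  rw [sumMod_mul_right hm]
  by_cases hs : IsCoprime s m
  · rw [conv_coprime hm hα hβ hs]; ring
  · rw [conv_not_coprime hm hα hβ hp hs]
    beta_reduce
    rw [hα.zero s hs]; ring

theorem norm_jac_sq (hm : m ≠ 0) (hα : IsCh m α) (hβ : IsCh m β) (h1 : Prm m α) (h2 : Prm m β)
    (hp : Prm m (fun x => α x * β x)) : ‖jac α β m‖ ^ 2 = nm m := by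
  have h := congrArg (fun z : ℂ => ‖z‖ ^ 2) (gl_mul_gl hm hα hβ hp)
  simp only [norm_mul, mul_pow] at h
  rw [norm_gl_sq hm hα h1, norm_gl_sq hm hβ h2, norm_gl_sq hm (hα.mul_same hβ) hp] at h
  have h0 : (nm m : ℝ) ≠ 0 := by
    have : nm m ≠ 0 := by rw [Ne, nm_eq_zero]; exact hm
    exact_mod_cast this
  exact (mul_left_cancel₀ h0 h).symm

end Crest.Agent.R017.Loc266
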