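import Crest.Agent.R017.DFin_702

/-!
# Row 17, section C: the level (Hölder) rule in exponent form (helper702)

* `cell` : the `k` of the family with `P_s(k) = X^{ν_s ± δ}` (`ν_s = 0`: `P_s(k) ≤ X^δ`)
* `Cnt` : robust exponent of the number of elements of a cell
* `lvl` : if `c ν + 2 Σ ν_s ≤ E` for every level vector, then `Σ_k ∏ P_s(k)²` has exponent `E`
* `Cnt.of_moment` : Chebyshev, `Cnt.of_lv` : large values
-/

set_option autoImplicit false

noncomputable section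

open Set Filter Topology

namespace Crest.Agent.R017.Lvl702

open Crest.Agent.R017.XF71 Crest.Agent.R017.DFin702

variable {A ι κ α : Type*} [Fintype α]

/-- the family: auxiliary data, lengths -/
abbrev Fam (A ι κ : Type*) := A → (ι → ℝ) → Finset κ

/-- the moduli of the pieces -/
abbrev Md (A ι κ α : Type*) := α → A → (ι → ℝ) → κ → ℝ

open Classical in
/-- the cell of level `ν` -/
def cell (F : Fam A ι κ) (P : Md A ι κ α) (a : A) (L : ι → ℝ) (X : ℝ) (ν : α → ℝ) (δ : ℝ) :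
    Finset κ :=
  (F a L).filter fun k => ∀ s, P s a L k ≤ X ^ (ν s + δ) ∧ (0 < ν s → X ^ (ν s - δ) ≤ P s a L k)

theorem mem_cell {F : Fam A ι κ} {P : Md A ι κ α} {a : A} {L : ι → ℝ} {X : ℝ} {ν : α → ℝ} {δ : ℝ}
    {k : κ} : k ∈ cell F P a L X ν δ ↔ k ∈ F a L ∧ ∀ s, P s a L k ≤ X ^ (ν s + δ) ∧
      (0 < ν s → X ^ (ν s - δ) ≤ P s a L k) := by
  classical
  unfold cell; rw [Finset.mem_filter]

theorem cell_mono {F : Fam A ι κ} {P : Md A ι κ α} {a : A} {L : ι → ℝ} {X : ℝ} {ν : α → ℝ}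
    {δ δ' : ℝ} (hX : 1 ≤ X) (h : δ' ≤ δ) : cell F P a L X ν δ' ⊆ cell F P a L X ν δ := by
  intro k hk
  rw [mem_cell] at hk ⊢
  refine ⟨hk.1, fun s => ⟨(hk.2 s).1.trans ?_, fun h0 => le_trans ?_ ((hk.2 s).2 h0)⟩⟩
  · exact Real.rpow_le_rpow_of_exponent_le hX (by linarith)
  · exact Real.rpow_le_rpow_of_exponent_le hX (by linarith)

/-- robust exponent of the number of elements of the cell `ν` -/
def Cnt (s₁ s₂ : A → ℝ) (F : Fam A ι κ) (P : Md A ι κ α) (p : ι → ℝ) (ν : α → ℝ) (c : ℝ) : Prop :=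
  ∀ ε B : ℝ, 0 < ε → ∃ δ : ℝ, 0 < δ ∧ ∃ X₀ : ℝ, 1 < X₀ ∧ ∀ X : ℝ, X₀ ≤ X → ∀ a : A,
    s₁ a ≤ X ^ δ → s₂ a ≤ X ^ B → ∀ q : ι → ℝ, NN q → Nr δ q p →
      ((cell F P a (pw X q) X ν δ).card : ℝ) ≤ X ^ (c + ε)

theorem Cnt.mono {s₁ s₂ : A → ℝ} {F : Fam A ι κ} {P : Md A ι κ α} {p : ι → ℝ} {ν : α → ℝ}
    {c c' : ℝ} (h : Cnt s₁ s₂ F P p ν c) (hc : c ≤ c') : Cnt s₁ s₂ F P p ν c' := by
  intro ε B hε
  obtain ⟨δ, hδ, X₀, hX₀, H⟩ := h ε B hε
  refine ⟨δ, hδ, X₀, hX₀, fun X hX a h1 h2 q hq hn => (H X hX a h1 h2 q hq hn).trans ?_⟩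
  exact Real.rpow_le_rpow_of_exponent_le (by linarith) (by linarith)

/-- the pointwise bound of the pieces -/
def Sup (s₁ s₂ : A → ℝ) (F : Fam A ι κ) (P : Md A ι κ α) (p : ι → ℝ) (b : α → ℝ) : Prop :=
  ∀ ε B : ℝ, 0 < ε → ∃ δ : ℝ, 0 < δ ∧ ∃ X₀ : ℝ, 1 < X₀ ∧ ∀ X : ℝ, X₀ ≤ X → ∀ a : A,
    s₁ a ≤ X ^ δ → s₂ a ≤ X ^ B → ∀ q : ι → ℝ, NN q → Nr δ q p →
      ∀ k ∈ F a (pw X q), ∀ s, P s a (pw X q) k ≤ X ^ (b s + ε)

/-- the moment `Σ_k ∏ P_s(k)^{2 w_s}` -/
def mom (F : Fam A ι κ) (P : Md A ι κ α) (w : α → ℕ) (a : A) (L : ι → ℝ) : ℝ :=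
  ∑ k ∈ F a L, ∏ s, (P s a L k ^ 2) ^ w s

/-- **the level rule** -/
theorem lvl {s₁ s₂ : A → ℝ} {F : Fam A ι κ} {P : Md A ι κ α} {p : ι → ℝ} {b : α → ℝ}
    (hP : ∀ s a L k, 0 ≤ P s a L k) (hb : ∀ s, 0 ≤ b s) (hsup : Sup s₁ s₂ F P p b)
    (c : (α → ℝ) → ℝ) (hc : ∀ ν : α → ℝ, (∀ s, 0 ≤ ν s ∧ ν s ≤ b s) → Cnt s₁ s₂ F P p ν (c ν))
    {E : ℝ} (hE : ∀ ν : α → ℝ, (∀ s, 0 ≤ ν s ∧ ν s ≤ b s) → c ν + 2 * ∑ s, ν s ≤ E) :
    ExB s₁ s₂ (fun a L => ∑ k ∈ F a L, ∏ s, P s a L k ^ 2) p E := by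
  classical
  intro ε B hε
  -- the box of levels
  set S : Set (α → ℝ) := {ν | ∀ s, 0 ≤ ν s ∧ ν s ≤ b s} with hS
  have hScomp : IsCompact S := by
    have : S = Set.Icc (fun _ => (0 : ℝ)) b := by
      ext ν
      simp only [hS, Set.mem_ofPred_eq, Set.mem_Icc, Pi.le_def]
      constructor
      · intro h; exact ⟨fun s => (h s).1, fun s => (h s).2⟩
      · intro h s; exact ⟨h.1 s, h.2 s⟩
    rw [this]; exact isCompact_Icc
  set n : ℝ := ((Fintype.card α : ℕ) : ℝ) with hn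
  have hn0 : 0 ≤ n := Nat.cast_nonneg _
  -- local data
  have loc : ∀ ν ∈ S, ∃ δ : ℝ, 0 < δ ∧ 2 * n * δ ≤ ε / 4 ∧ (∀ s, 0 < ν s → δ < ν s) ∧
      ∃ X₀ : ℝ, 1 < X₀ ∧ ∀ X : ℝ, X₀ ≤ X → ∀ a : A, s₁ a ≤ X ^ δ → s₂ a ≤ X ^ B →
        ∀ q : ι → ℝ, NN q → Nr δ q p →
          ((cell F P a (pw X q) X ν δ).card : ℝ) ≤ X ^ (c ν + ε / 4) := by
    intro ν hν
    obtain ⟨δ, hδ, X₀, hX₀, H⟩ := hc ν hν (ε / 4) B (by linarith)
    -- the minimum of the positive levels
    obtain ⟨m, hm, hm'⟩ : ∃ m : ℝ, 0 < m ∧ ∀ s, 0 < ν s → m < ν s := by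
      rcases isEmpty_or_nonempty α with he | hne
      · exact ⟨1, one_pos, fun s => (he.false s).elim⟩
      · refine ⟨Finset.univ.inf' Finset.univ_nonempty (fun s => if 0 < ν s then ν s / 2 else 1),
          ?_, ?_⟩
        · rw [Finset.lt_inf'_iff]; intro s _
          split_ifs with h
          · linarith
          · exact one_pos
        · intro s hs
          have := Finset.inf'_le (fun s => if 0 < ν s then ν s / 2 else 1) (Finset.mem_univ s)
          simp only [hs, if_true] at this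
          linarith
    set δ' := min (min δ m) (ε / (8 * (n + 1))) with hδ'
    have h1 : δ' ≤ δ := (min_le_left _ _).trans (min_le_left _ _)
    have h2 : δ' ≤ m := (min_le_left _ _).trans (min_le_right _ _)
    have h3 : δ' ≤ ε / (8 * (n + 1)) := min_le_right _ _
    have hpos : 0 < δ' := lt_min (lt_min hδ hm) (by positivity)
    refine ⟨δ', hpos, ?_, fun s hs => lt_of_le_of_lt h2 (hm' s hs), X₀, hX₀, ?_⟩
    · have h4 : δ' * (8 * (n + 1)) ≤ ε := by rwa [le_div_iff₀ (by positivity)] at h3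
      nlinarith
    · intro X hX a ha hb q hq hnr
      have hX1 : (1 : ℝ) ≤ X := by linarith
      refine le_trans ?_ (H X hX a (ha.trans (Real.rpow_le_rpow_of_exponent_le hX1 h1)) hb q hq
        (hnr.mono h1))
      exact_mod_cast Finset.card_le_card (cell_mono hX1 h1)
  choose! δ hδ hδn hδν X₀ hX₀ K using loc
  obtain ⟨T, hTS, hT⟩ := hScomp.elim_nhds_subcover (fun ν => Metric.ball ν (δ ν / 2))
    (fun ν hν => Metric.ball_mem_nhds ν (by linarith [hδ ν hν]))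
  have hSne : (0 : α → ℝ) ∈ S := fun s => ⟨le_rfl, hb s⟩
  have hTne : T.Nonempty := by
    obtain ⟨t, ht, _⟩ := Set.mem_iUnion₂.1 (hT hSne)
    exact ⟨t, ht⟩
  set d := T.inf' hTne (fun ν => δ ν / 2) with hd
  have hdpos : 0 < d := by
    rw [hd, Finset.lt_inf'_iff]; intro ν hν; linarith [hδ ν (hTS ν hν)]
  have hdle : ∀ ν ∈ T, d ≤ δ ν / 2 := fun ν hν => Finset.inf'_le _ hν
  set Y := T.sup' hTne X₀ with hY
  have hYle : ∀ ν ∈ T, X₀ ν ≤ Y := fun ν hν => Finset.le_sup' X₀ hν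
  obtain ⟨δ₁, hδ₁, X₁, hX₁, Hs⟩ := hsup d B hdpos
  obtain ⟨X₂, hX₂, Hc⟩ := const_le_rpow (C := (T.card : ℝ)) (ε := ε / 4) (by linarith)
  refine ⟨min d δ₁, lt_min hdpos hδ₁, max (max X₁ X₂) Y, ?_, ?_⟩
  · exact lt_of_lt_of_le hX₁ ((le_max_left _ _).trans (le_max_left _ _))
  intro X hX a ha hb' q hq hnr
  have hXX1 : X₁ ≤ X := ((le_max_left _ _).trans (le_max_left _ _)).trans hX
  have hXX2 : X₂ ≤ X := ((le_max_right _ _).trans (le_max_left _ _)).trans hX
  have hXY : Y ≤ X := (le_max_right _ _).trans hX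
  have hXone : (1 : ℝ) < X := by linarith
  have hX1 : (1 : ℝ) ≤ X := hXone.le
  have hXp : (0 : ℝ) < X := by linarith
  have hlogX : 0 < Real.log X := Real.log_pos hXone
  set L := pw X q with hL
  have hsupk := Hs X hXX1 a (ha.trans (Real.rpow_le_rpow_of_exponent_le hX1 (min_le_right _ _)))
    hb' q hq (hnr.mono (min_le_right _ _))
  -- cells cover the family
  have hcover : ∀ k ∈ F a L, ∃ ν ∈ T, k ∈ cell F P a L X ν (δ ν) := by
    intro k hk
    set lv : α → ℝ := fun s => if 1 ≤ P s a L k then min (Real.log (P s a L k) / Real.log X) (b s)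
      else 0 with hlv
    have hlvS : lv ∈ S := by
      intro s
      simp only [hlv]
      split_ifs with h
      · exact ⟨le_min (div_nonneg (Real.log_nonneg h) hlogX.le) (hb s), min_le_right _ _⟩
      · exact ⟨le_rfl, hb s⟩
    obtain ⟨ν, hν, hball⟩ := Set.mem_iUnion₂.1 (hT hlvS)
    refine ⟨ν, hν, ?_⟩
    have hνS := hTS ν hν
    have hdν := hdle ν hν
    have hδpos := hδ ν hνS
    rw [mem_cell]
    refine ⟨hk, fun s => ?_⟩
    have hclose : |lv s - ν s| < δ ν / 2 := by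
      have := lt_of_le_of_lt (dist_le_pi_dist lv ν s) (Metric.mem_ball.1 hball)
      rwa [Real.dist_eq] at this
    have hab := abs_lt.1 hclose
    by_cases h : 1 ≤ P s a L k
    · have hPp : 0 < P s a L k := by linarith
      set x := Real.log (P s a L k) / Real.log X with hx
      have hPX : P s a L k = X ^ x := by
        rw [hx, Real.rpow_def_of_pos hXp, mul_div_cancel₀ _ hlogX.ne', Real.exp_log hPp]
      have hlvs : lv s = min x (b s) := if_pos h
      have hxb : x ≤ b s + d := by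
        have h1 := hsupk k hk s
        rw [hPX] at h1
        exact (Real.rpow_le_rpow_left_iff hXone).1 h1
      have hx1 : x ≤ lv s + d := by
        rw [hlvs]
        rcases le_total x (b s) with h2 | h2
        · rw [min_eq_left h2]; linarith
        · rw [min_eq_right h2]; exact hxb
      have hx2 : lv s ≤ x := by rw [hlvs]; exact min_le_left _ _
      constructor
      · rw [hPX]; exact Real.rpow_le_rpow_of_exponent_le hX1 (by linarith)
      · intro _; rw [hPX]; exact Real.rpow_le_rpow_of_exponent_le hX1 (by linarith)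
    · have hlvs : lv s = 0 := if_neg h
      have hνs := (hνS s).1
      constructor
      · have h1 : (1 : ℝ) ≤ X ^ (ν s + δ ν) := Real.one_le_rpow hX1 (by linarith)
        push Not at h
        linarith
      · intro h0
        have := hδν ν hνS s h0
        exfalso
        rw [hlvs] at hab
        linarith [hab.1]
  -- the bound on a cell
  have hcell : ∀ ν ∈ T, ∑ k ∈ cell F P a L X ν (δ ν), ∏ s, P s a L k ^ 2 ≤ X ^ (E + ε / 2) := by
    intro ν hν
    have hνS := hTS ν hν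
    have hδpos := hδ ν hνS
    have hcard := K ν hνS X ((hYle ν hν).trans hXY) a
      (ha.trans (Real.rpow_le_rpow_of_exponent_le hX1
        ((min_le_left _ _).trans ((hdle ν hν).trans (by linarith))))) hb' q hq
      (hnr.mono ((min_le_left _ _).trans ((hdle ν hν).trans (by linarith))))
    have hval : ∀ k ∈ cell F P a L X ν (δ ν), ∏ s, P s a L k ^ 2 ≤
        X ^ (2 * ∑ s, ν s + 2 * n * δ ν) := by
      intro k hk
      have h1 := (mem_cell.1 hk).2
      have h2 : ∏ s, P s a L k ^ 2 ≤ ∏ s, X ^ (2 * (ν s + δ ν)) := by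
        refine Finset.prod_le_prod (fun s _ => sq_nonneg _) fun s _ => ?_
        have h3 := pow_le_pow_left₀ (hP s a L k) (h1 s).1 2
        rwa [← Real.rpow_natCast (X ^ (ν s + δ ν)) 2, ← Real.rpow_mul hXp.le,
          show (ν s + δ ν) * ((2 : ℕ) : ℝ) = 2 * (ν s + δ ν) by push_cast; ring] at h3
      refine h2.trans (le_of_eq ?_)
      rw [← Real.rpow_sum_of_pos hXp]
      congr 1
      rw [← Finset.mul_sum, Finset.sum_add_distrib, Finset.sum_const, Finset.card_univ,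
        nsmul_eq_mul]
      ring
    calc ∑ k ∈ cell F P a L X ν (δ ν), ∏ s, P s a L k ^ 2
        ≤ ∑ _k ∈ cell F P a L X ν (δ ν), X ^ (2 * ∑ s, ν s + 2 * n * δ ν) :=
          Finset.sum_le_sum hval
      _ = ((cell F P a L X ν (δ ν)).card : ℝ) * X ^ (2 * ∑ s, ν s + 2 * n * δ ν) := by
          rw [Finset.sum_const, nsmul_eq_mul]
      _ ≤ X ^ (c ν + ε / 4) * X ^ (2 * ∑ s, ν s + 2 * n * δ ν) :=
          mul_le_mul_of_nonneg_right hcard (Real.rpow_nonneg hXp.le _)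
      _ = X ^ (c ν + 2 * ∑ s, ν s + (ε / 4 + 2 * n * δ ν)) := by
          rw [← Real.rpow_add hXp]; congr 1; ring
      _ ≤ X ^ (E + ε / 2) := by
          refine Real.rpow_le_rpow_of_exponent_le hX1 ?_
          have := hE ν hνS
          have := hδn ν hνS
          linarith
  -- sum over the cells
  have hsub : F a L ⊆ T.biUnion fun ν => cell F P a L X ν (δ ν) := by
    intro k hk
    obtain ⟨ν, hν, h⟩ := hcover k hk
    exact Finset.mem_biUnion.2 ⟨ν, hν, h⟩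
  have hpos : ∀ k, 0 ≤ ∏ s, P s a L k ^ 2 := fun k => Finset.prod_nonneg fun _ _ => sq_nonneg _
  have hbU : ∀ (s : Finset (α → ℝ)) (t : (α → ℝ) → Finset κ),
      ∑ k ∈ s.biUnion t, ∏ s, P s a L k ^ 2 ≤ ∑ x ∈ s, ∑ k ∈ t x, ∏ s, P s a L k ^ 2 := by
    intro s t
    induction s using Finset.induction_on with
    | empty => simp
    | insert x s hx ih =>
      rw [Finset.biUnion_insert, Finset.sum_insert hx]
      have h1 : ∑ k ∈ t x ∪ s.biUnion t, ∏ s, P s a L k ^ 2 ≤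
          ∑ k ∈ t x, ∏ s, P s a L k ^ 2 + ∑ k ∈ s.biUnion t, ∏ s, P s a L k ^ 2 := by
        rw [← Finset.sum_union_inter]
        have := Finset.sum_nonneg (s := t x ∩ s.biUnion t) (f := fun k => ∏ s, P s a L k ^ 2)
          fun k _ => hpos k
        linarith
      linarith
  calc ∑ k ∈ F a L, ∏ s, P s a L k ^ 2
      ≤ ∑ k ∈ T.biUnion fun ν => cell F P a L X ν (δ ν), ∏ s, P s a L k ^ 2 :=
        Finset.sum_le_sum_of_subset_of_nonneg hsub fun k _ _ => hpos k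
    _ ≤ ∑ ν ∈ T, ∑ k ∈ cell F P a L X ν (δ ν), ∏ s, P s a L k ^ 2 := hbU _ _
    _ ≤ ∑ _ν ∈ T, X ^ (E + ε / 2) := Finset.sum_le_sum hcell
    _ = (T.card : ℝ) * X ^ (E + ε / 2) := by rw [Finset.sum_const, nsmul_eq_mul]
    _ ≤ X ^ (ε / 4) * X ^ (E + ε / 2) :=
        mul_le_mul_of_nonneg_right (Hc X hXX2) (Real.rpow_nonneg hXp.le _)
    _ = X ^ (E + (ε / 4 + ε / 2)) := by rw [← Real.rpow_add hXp]; congr 1; ring
    _ ≤ X ^ (E + ε) := Real.rpow_le_rpow_of_exponent_le hX1 (by linarith)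

/-- **Chebyshev**: the moments of `w` restricted to all subsets `U` bound the number of elements of
every cell. -/
theorem Cnt.of_moment [DecidableEq α] {s₁ s₂ : A → ℝ} {F : Fam A ι κ} {P : Md A ι κ α} {p : ι → ℝ}
    (w : α → ℕ) {m : ℝ}
    (hm : ∀ U : Finset α, ExB s₁ s₂ (mom F P (fun s => if s ∈ U then w s else 0)) p m)
    {ν : α → ℝ} (hν : ∀ s, 0 ≤ ν s) : Cnt s₁ s₂ F P p ν (m - 2 * ∑ s, w s * ν s) := by
  classical
  intro ε B hε
  set U : Finset α := Finset.univ.filter fun s => 0 < ν s with hU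
  obtain ⟨δ, hδ, X₀, hX₀, H⟩ := hm U (ε / 2) B (by linarith)
  set W : ℝ := ∑ s, (w s : ℝ) with hW
  have hW0 : 0 ≤ W := Finset.sum_nonneg fun _ _ => Nat.cast_nonneg _
  set δ' := min δ (ε / (4 * (W + 1))) with hδ'
  have h1 : δ' ≤ δ := min_le_left _ _
  have h2 : 2 * W * δ' ≤ ε / 2 := by
    have h3 : δ' ≤ ε / (4 * (W + 1)) := min_le_right _ _
    rw [le_div_iff₀ (by positivity)] at h3
    have h4 : 0 < δ' := lt_min hδ (by positivity)
    nlinarith
  refine ⟨δ', lt_min hδ (by positivity), X₀, hX₀, ?_⟩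
  intro X hX a ha hb q hq hn
  have hX1 : (1 : ℝ) ≤ X := by linarith
  have hXp : (0 : ℝ) < X := by linarith
  have hM := H X hX a (ha.trans (Real.rpow_le_rpow_of_exponent_le hX1 h1)) hb q hq (hn.mono h1)
  set L := pw X q with hL
  have hlow : ∀ k ∈ cell F P a L X ν δ',
      X ^ (2 * ∑ s, w s * ν s - 2 * W * δ') ≤
        ∏ s, (P s a L k ^ 2) ^ (if s ∈ U then w s else 0) := by
    intro k hk
    have hk' := (mem_cell.1 hk).2
    have h3 : ∏ s, (if s ∈ U then X ^ (2 * (w s : ℝ) * (ν s - δ')) else 1) ≤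
        ∏ s, (P s a L k ^ 2) ^ (if s ∈ U then w s else 0) := by
      refine Finset.prod_le_prod (fun s _ => ?_) fun s _ => ?_
      · split_ifs
        · exact Real.rpow_nonneg hXp.le _
        · exact zero_le_one
      · split_ifs with hs
        · have hνs : 0 < ν s := by
            rw [hU, Finset.mem_filter] at hs; exact hs.2
          have h4 := (hk' s).2 hνs
          have h5 : (0 : ℝ) ≤ X ^ (ν s - δ') := Real.rpow_nonneg hXp.le _
          have h6 := pow_le_pow_left₀ (pow_nonneg h5 2) (pow_le_pow_left₀ h5 h4 2) (w s)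
          refine le_trans (le_of_eq ?_) h6
          rw [← Real.rpow_natCast (X ^ (ν s - δ')) 2, ← Real.rpow_mul hXp.le,
            ← Real.rpow_natCast _ (w s), ← Real.rpow_mul hXp.le]
          congr 1; push_cast; ring
        · simp
    refine le_trans ?_ h3
    have h4 : ∏ s, (if s ∈ U then X ^ (2 * (w s : ℝ) * (ν s - δ')) else 1) =
        X ^ (∑ s, (if s ∈ U then 2 * (w s : ℝ) * (ν s - δ') else 0)) := by
      rw [Real.rpow_sum_of_pos hXp]
      refine Finset.prod_congr rfl fun s _ => ?_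
      split_ifs
      · rfl
      · simp
    rw [h4]
    refine Real.rpow_le_rpow_of_exponent_le hX1 ?_
    have h5 : 2 * ∑ s, w s * ν s - 2 * W * δ' = ∑ s, (2 * (w s : ℝ) * (ν s - δ')) := by
      rw [hW, Finset.mul_sum, Finset.mul_sum, Finset.sum_mul, ← Finset.sum_sub_distrib]
      exact Finset.sum_congr rfl fun s _ => by ring
    rw [h5]
    refine Finset.sum_le_sum fun s _ => ?_
    split_ifs with hs
    · exact le_rfl
    · have hνs : ν s = 0 := by
        rw [hU, Finset.mem_filter] at hs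
        push Not at hs
        exact le_antisymm (hs (Finset.mem_univ s)) (hν s)
      rw [hνs]
      have h6 : 0 < δ' := lt_min hδ (by positivity)
      have h7 : (0 : ℝ) ≤ w s := Nat.cast_nonneg _
      nlinarith [mul_nonneg h7 h6.le]
  have hsum : ((cell F P a L X ν δ').card : ℝ) * X ^ (2 * ∑ s, w s * ν s - 2 * W * δ') ≤
      X ^ (m + ε / 2) := by
    refine le_trans ?_ hM
    rw [← nsmul_eq_mul, ← Finset.sum_const]
    refine (Finset.sum_le_sum hlow).trans ?_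
    unfold mom
    refine Finset.sum_le_sum_of_subset_of_nonneg (fun k hk => (mem_cell.1 hk).1) fun k _ _ => ?_
    exact Finset.prod_nonneg fun s _ => pow_nonneg (sq_nonneg _) _
  have hXe : 0 < X ^ (2 * ∑ s, w s * ν s - 2 * W * δ') := Real.rpow_pos_of_pos hXp _
  rw [← le_div_iff₀ hXe, ← Real.rpow_sub hXp] at hsum
  refine hsum.trans (Real.rpow_le_rpow_of_exponent_le hX1 ?_)
  linarith

/-- the large value hypothesis for the monomial `w`, value exponent `v`: the number of `k` with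
`∏ P_s^{2 w_s} ≥ X^{v'}`, `v'` near `v`, is at most `X^{g - v' + ε}` -/
def LVh (s₁ s₂ : A → ℝ) (F : Fam A ι κ) (P : Md A ι κ α) (p : ι → ℝ) (w : α → ℕ) (v g : ℝ) : Prop :=
  ∀ ε B : ℝ, 0 < ε → ∃ δ : ℝ, 0 < δ ∧ ∃ X₀ : ℝ, 1 < X₀ ∧ ∀ X : ℝ, X₀ ≤ X → ∀ a : A,
    s₁ a ≤ X ^ δ → s₂ a ≤ X ^ B → ∀ q : ι → ℝ, NN q → Nr δ q p → ∀ v' : ℝ, |v' - v| ≤ δ →
      ∀ T : Finset κ, T ⊆ F a (pw X q) →
        (∀ k ∈ T, X ^ v' ≤ ∏ s, (P s a (pw X q) k ^ 2) ^ w s) → (T.card : ℝ) ≤ X ^ (g - v' + ε)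

/-- **large values => cells**: for level vectors that are positive on the support of `w`. -/
theorem Cnt.of_lv {s₁ s₂ : A → ℝ} {F : Fam A ι κ} {P : Md A ι κ α} {p : ι → ℝ}
    (w : α → ℕ) {g : ℝ} {ν : α → ℝ}
    (hν : ∀ s, w s ≠ 0 → 0 < ν s) (h : LVh s₁ s₂ F P p w (2 * ∑ s, w s * ν s) g) :
    Cnt s₁ s₂ F P p ν (g - 2 * ∑ s, w s * ν s) := by
  classical
  intro ε B hε
  obtain ⟨δ, hδ, X₀, hX₀, H⟩ := h (ε / 2) B (by linarith)
  set W : ℝ := ∑ s, (w s : ℝ) with hW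
  have hW0 : 0 ≤ W := Finset.sum_nonneg fun _ _ => Nat.cast_nonneg _
  set δ' := min (δ / (2 * (W + 1))) (ε / (4 * (W + 1))) with hδ'
  have hpos : 0 < δ' := lt_min (by positivity) (by positivity)
  have h1 : δ' * (2 * (W + 1)) ≤ δ := by
    have : δ' ≤ δ / (2 * (W + 1)) := min_le_left _ _
    rwa [le_div_iff₀ (by positivity)] at this
  have h1' : δ' ≤ δ := by nlinarith
  have h2 : 2 * W * δ' ≤ ε / 2 := by
    have h3 : δ' ≤ ε / (4 * (W + 1)) := min_le_right _ _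
    rw [le_div_iff₀ (by positivity)] at h3
    nlinarith
  refine ⟨δ', hpos, X₀, hX₀, ?_⟩
  intro X hX a ha hb q hq hn
  have hX1 : (1 : ℝ) ≤ X := by linarith
  have hXp : (0 : ℝ) < X := by linarith
  set L := pw X q with hL
  have hlow : ∀ k ∈ cell F P a L X ν δ',
      X ^ (2 * ∑ s, w s * ν s - 2 * W * δ') ≤ ∏ s, (P s a L k ^ 2) ^ w s := by
    intro k hk
    have hk' := (mem_cell.1 hk).2
    have h3 : ∏ s, X ^ (2 * (w s : ℝ) * (ν s - δ')) ≤ ∏ s, (P s a L k ^ 2) ^ w s := by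
      refine Finset.prod_le_prod (fun s _ => Real.rpow_nonneg hXp.le _) fun s _ => ?_
      by_cases hs : w s = 0
      · simp [hs]
      · have h4 := (hk' s).2 (hν s hs)
        have h5 : (0 : ℝ) ≤ X ^ (ν s - δ') := Real.rpow_nonneg hXp.le _
        have h6 := pow_le_pow_left₀ (pow_nonneg h5 2) (pow_le_pow_left₀ h5 h4 2) (w s)
        refine le_trans (le_of_eq ?_) h6
        rw [← Real.rpow_natCast (X ^ (ν s - δ')) 2, ← Real.rpow_mul hXp.le,
          ← Real.rpow_natCast _ (w s), ← Real.rpow_mul hXp.le]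
        congr 1; push_cast; ring
    refine le_trans (le_of_eq ?_) h3
    rw [← Real.rpow_sum_of_pos hXp]
    congr 1
    rw [hW, Finset.mul_sum, Finset.mul_sum, Finset.sum_mul, ← Finset.sum_sub_distrib]
    exact Finset.sum_congr rfl fun s _ => by ring
  have hv : |(2 * ∑ s, w s * ν s - 2 * W * δ') - 2 * ∑ s, w s * ν s| ≤ δ := by
    rw [show (2 * ∑ s, w s * ν s - 2 * W * δ') - 2 * ∑ s, w s * ν s = -(2 * W * δ') by ring,
      abs_neg, abs_of_nonneg (by positivity)]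
    nlinarith
  have := H X hX a (ha.trans (Real.rpow_le_rpow_of_exponent_le hX1 h1')) hb q hq (hn.mono h1') _
    hv (cell F P a L X ν δ') (fun k hk => (mem_cell.1 hk).1) hlow
  refine this.trans (Real.rpow_le_rpow_of_exponent_le hX1 ?_)
  linarith

/-- the trivial count -/
theorem Cnt.of_card {s₁ s₂ : A → ℝ} {F : Fam A ι κ} {P : Md A ι κ α} {p : ι → ℝ} {i : ℝ}
    (h : ExB s₁ s₂ (fun a L => ((F a L).card : ℝ)) p i) (ν : α → ℝ) :
    Cnt s₁ s₂ F P p ν i := by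
  classical
  intro ε B hε
  obtain ⟨δ, hδ, X₀, hX₀, H⟩ := h ε B hε
  refine ⟨δ, hδ, X₀, hX₀, fun X hX a h1 h2 q hq hn => le_trans ?_ (H X hX a h1 h2 q hq hn)⟩
  have h3 : (cell F P a (pw X q) X ν δ).card ≤ (F a (pw X q)).card :=
    Finset.card_le_card fun k hk => (mem_cell.1 hk).1
  show ((cell F P a (pw X q) X ν δ).card : ℝ) ≤ ((F a (pw X q)).card : ℝ)
  exact_mod_cast h3

end Crest.Agent.R017.Lvl702
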