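import Crest.Agent.R017.P1TL_957

/-!
# Row 17, class E (helper702): the T-lines of the bias of the mismatch

`lo` = what the lumps lost, `g` = log of the common divisor, `s` = saving of the bias
(`≥ 17/100 k - lo - g`; single lists: `s = 0`), `v` level.
* `Tb` : the frame; `bE` : the bias; `T0D`, `LSD`, `LD`, `T0D'` : its lines; `thE` : `H² V³ ≤ K²`
-/

set_option autoImplicit false
set_option linter.unusedVariables false

noncomputable section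

namespace Crest.Agent.R017.TLE702

open Crest.Agent.R017.TL957

/-- the frame -/
structure Tb (k N x ex v p t D lo g s : ℝ) : Prop where
  k0 : 0 < k
  x0 : 0 ≤ x
  N1 : N ≤ 102 / 125 * k
  adm : (8 * x ≤ D ∧ (x = 0 ∨ N + x ≤ 4 / 5 * k)) ∨
    (3 / 4 * k ≤ N ∧ x + 2 * D ≤ 1 / 36 * k ∧ x + 7 / 10 * N ≤ 199 / 360 * k)
  d0 : 0 ≤ D
  d1 : D ≤ 1 / 40 * k
  ex0 : 0 ≤ ex
  ex1 : 5 / 4 * N - k ≤ ex
  v1 : v ≤ 2 * N - k + 21 / 5 * x - g + t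
  v2 : v ≤ 3 / 4 * N + 21 / 5 * x - g + t
  v3 : (v ≤ 2 * N - k + 21 / 5 * x - g - 2 * lo + D / 2 + t ∧
    v ≤ 3 / 4 * N + 21 / 5 * x - g - 2 * lo + D / 2 + t) ∨ v ≤ 2 * x - g + t
  p0 : k / 2 - 2 * x - t ≤ p
  p1 : p ≤ N + x - lo - 2 * g + t
  g0 : 0 ≤ g
  g1 : g ≤ x + t
  lo0 : 0 ≤ lo
  s0 : 17 / 100 * k - lo - g - t ≤ s
  t0 : 0 ≤ t
  t1 : t ≤ k / 20000

variable {k N x ex v v' p t D lo g s δ b c l q F h : ℝ}

lemma Tb.mono (H : Tb k N x ex v p t D lo g s) (h : v' ≤ v) : Tb k N x ex v' p t D lo g s :=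
  { H with
    v1 := h.trans H.v1
    v2 := h.trans H.v2
    v3 := H.v3.imp (fun a => ⟨h.trans a.1, h.trans a.2⟩) fun a => h.trans a }

lemma Tb.toTf (H : Tb k N x ex v p t D lo g s) : Tf k N x ex v p t := by
  obtain ⟨k0, x0, N1, adm, d0, d1, ex0, ex1, v1, v2, v3, p0, p1, g0, g1, lo0, s0, t0, t1⟩ := H
  refine ⟨k0, x0, N1, ?_, ex0, ex1, by linarith, by linarith, p0, by linarith, t0, t1⟩
  rcases adm with ⟨a0, rfl | a1⟩ | ⟨a1, a2, a3⟩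
  · exact Or.inl ⟨by linarith, Or.inl rfl⟩
  · exact Or.inl ⟨by linarith, Or.inr a1⟩
  · exact Or.inr ⟨a1, by linarith, a3⟩

/-- the bias -/
def bE (l p δ b s : ℝ) : ℝ := 2 / 3 * l + 5 / 3 * (p - δ - b) - max 0 (s - δ - b)

/-- (T0) -/
theorem T0D (H : Tb k N x ex v p t D lo g s) (δ0 : 0 ≤ δ) (b0 : 0 ≤ b) (c0 : 0 ≤ c)
    (hq : q ≤ b + t) (hq1 : q ≤ k / 64 + x + t) (hl : l ≤ v - 2 * δ + b - 3 * c + t) :
    2 / 3 * k - hH k x ex p δ / 3 + 2 / 3 * q + 2 * δ + c - v / 3 - p / 3 + bE l p δ b s ≤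
      k + p + ex + 10 * t := by
  have h1 := hH0 k x ex p δ
  have h2 := hH1 k x ex p δ
  have m1 := le_max_left 0 (s - δ - b)
  have m2 := le_max_right 0 (s - δ - b)
  unfold bE
  generalize hH k x ex p δ = h at *
  generalize max 0 (s - δ - b) = m at *
  obtain ⟨k0, x0, N1, adm, d0, d1, ex0, ex1, v1, v2, v3, p0, p1, g0, g1, lo0, s0, t0, t1⟩ := H
  rcases v3 with ⟨v3, v4⟩ | v3 <;>
    rcases adm with ⟨a0, rfl | a1⟩ | ⟨a1, a2, a3⟩ <;> linarith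

/-- (LSM) -/
theorem LSD (H : Tb k N x ex v p t D lo g s) (δ0 : 0 ≤ δ) (b0 : 0 ≤ b)
    (hl : l ≤ v - 2 * δ + b + t) :
    2 * δ - v / 3 - p / 3 + bE l p δ b s + v + k / 20 ≤ k + p + ex + 10 * t := by
  have m1 := le_max_left 0 (s - δ - b)
  have m2 := le_max_right 0 (s - δ - b)
  unfold bE
  generalize max 0 (s - δ - b) = m at *
  obtain ⟨k0, x0, N1, adm, d0, d1, ex0, ex1, v1, v2, v3, p0, p1, g0, g1, lo0, s0, t0, t1⟩ := H
  rcases v3 with ⟨v3, v4⟩ | v3 <;>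
    rcases adm with ⟨a0, rfl | a1⟩ | ⟨a1, a2, a3⟩ <;> linarith

/-- (LM) -/
theorem LD (H : Tb k N x ex v p t D lo g s) (δ0 : 0 ≤ δ) (b0 : 0 ≤ b)
    (hl : l ≤ v - 2 * δ + b + t) :
    2 / 3 * k + 2 * δ - v / 3 - p / 3 + bE l p δ b s + v - k + k / 10 ≤
      k + p + ex + 10 * t := by
  have m1 := le_max_left 0 (s - δ - b)
  have m2 := le_max_right 0 (s - δ - b)
  unfold bE
  generalize max 0 (s - δ - b) = m at *
  obtain ⟨k0, x0, N1, adm, d0, d1, ex0, ex1, v1, v2, v3, p0, p1, g0, g1, lo0, s0, t0, t1⟩ := H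
  rcases v3 with ⟨v3, v4⟩ | v3 <;>
    rcases adm with ⟨a0, rfl | a1⟩ | ⟨a1, a2, a3⟩ <;> linarith

/-- (T0'), large `δ` -/
theorem T0D' (H : Tb k N x ex v p t D lo g s) (δ0 : 13 / 100 * k - t ≤ δ) (b0 : 0 ≤ b)
    (c0 : 0 ≤ c) (hl : l ≤ v - 2 * δ + b - 3 * c + t) :
    1 / 3 * k + 2 * δ - δ / 3 + v / 3 - p / 3 + c + bE l p δ b s ≤ k + p + ex + 10 * t := by
  have m1 := le_max_left 0 (s - δ - b)
  have m2 := le_max_right 0 (s - δ - b)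
  unfold bE
  generalize max 0 (s - δ - b) = m at *
  obtain ⟨k0, x0, N1, adm, d0, d1, ex0, ex1, v1, v2, v3, p0, p1, g0, g1, lo0, s0, t0, t1⟩ := H
  rcases v3 with ⟨v3, v4⟩ | v3 <;>
    rcases adm with ⟨a0, rfl | a1⟩ | ⟨a1, a2, a3⟩ <;> linarith

/-- exponent of the length of the rows, at most -/
def hpE (k x ex v p s : ℝ) : ℝ :=
  max (4 / 3 * p + 2 / 3 * x) (p + v - max 0 (max (5 / 3 * s) (3 * s - 52 / 300 * k))) -
    k - 3 * ex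

/-- `H² V³ ≤ K²` -/
theorem thE (H : Tb k N x ex v p t D lo g s) (δ0 : 0 ≤ δ)
    (hh : h ≤ max 0 (hpE k x ex v p s + 10 * t - 4 / 3 * δ)) : 2 * h + 3 * v ≤ 2 * k := by
  have m1 := le_max_left 0 (max (5 / 3 * s) (3 * s - 52 / 300 * k))
  have m2 := (le_max_left (5 / 3 * s) (3 * s - 52 / 300 * k)).trans
    (le_max_right 0 (max (5 / 3 * s) (3 * s - 52 / 300 * k)))
  have m3 := (le_max_right (5 / 3 * s) (3 * s - 52 / 300 * k)).trans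
    (le_max_right 0 (max (5 / 3 * s) (3 * s - 52 / 300 * k)))
  unfold hpE at hh
  generalize max 0 (max (5 / 3 * s) (3 * s - 52 / 300 * k)) = m at *
  obtain ⟨k0, x0, N1, adm, d0, d1, ex0, ex1, v1, v2, v3, p0, p1, g0, g1, lo0, s0, t0, t1⟩ := H
  rcases le_max_iff.1 hh with hh | hh
  · rcases v3 with ⟨v3, v4⟩ | v3 <;>
      rcases adm with ⟨a0, rfl | a1⟩ | ⟨a1, a2, a3⟩ <;> linarith
  · rcases max_choice (4 / 3 * p + 2 / 3 * x) (p + v - m) with e | e <;> rw [e] at hh <;>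
      rcases v3 with ⟨v3, v4⟩ | v3 <;>
      rcases adm with ⟨a0, rfl | a1⟩ | ⟨a1, a2, a3⟩ <;> linarith

end Crest.Agent.R017.TLE702
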