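import Crest.Agent.R017.M1Ea_702
import Crest.Agent.R017.RnPa_571

/-!
# Row 17, class E (helper702): the frame of the T-lines of the mismatch

* **`tbR`** : the frame `Tb` from the logarithmic frame (`k = κ₀ L`, `N = N₀ L`, `x = x₀ L`,
  `p = P - 2 G`, `w` = what the lumps lost, `c = d / 4`)
* **`hpR`** : the exponent of helper813's length of the rows against `hpE`
-/

set_option autoImplicit false
set_option linter.unusedVariables false

noncomputable section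

namespace Crest.Agent.R017.TLE702

open Crest.Agent.R017.TL957
open Crest.Agent.R017.RnP571 (Dh)

variable {L κ₀ N₀ x₀ τ l z A ζ P G v vi t e0 w s d c lu q y₃ y₄ u c₅ : ℝ}

/-- **the frame, class E** -/
theorem tbR (hD : Dh κ₀ y₃ y₄ u x₀ (d * κ₀)) (hN : N₀ = y₃ + y₄ + u) (hL : 0 < L)
    (hτ : 0 ≤ τ) (hc0 : 0 ≤ c) (hc : c ≤ d / 4)
    (hl : |l - κ₀ * L| ≤ τ * L) (hz : |z - x₀ * L| ≤ τ * L) (hA : |A - N₀ * L| ≤ τ * L)
    (hζ : |ζ - x₀ * L| ≤ τ * L) (g0 : 0 ≤ G) (g1 : G ≤ q + τ * L) (q1 : q ≤ x₀ * L + τ * L)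
    (cl : P = lu + q) (lo : κ₀ / 2 * L ≤ P - 2 * G + 2 * x₀ * L + τ * L)
    (b0 : 0 ≤ w) (b : |w - (A - lu)| ≤ τ * L)
    (hv : v ≤ max 0 (min (min (2 * A - l) (3 / 4 * A) + 11 / 5 * z)
      (min (2 * A - l) (3 / 4 * A) + 11 / 5 * z + 2 * (c * l) - 2 * w)) + 2 * ζ - G + c₅)
    (hs : 17 / 100 * l - w - G ≤ s + τ * L)
    (hc5 : 0 ≤ c₅) (ht : 12 * (τ * L) + c₅ ≤ t) (t1 : t ≤ κ₀ * L / 20000) :
    Tb (κ₀ * L) (N₀ * L) (x₀ * L) (max 0 (5 / 4 * (N₀ * L) - κ₀ * L)) v (P - 2 * G) t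
      (d * κ₀ * L) w G s := by
  obtain ⟨k0, u4, y43, u0, y3, N1, near, x0, adm, d0, d1⟩ := hD
  obtain ⟨l1, l2⟩ := abs_le.1 hl
  obtain ⟨z1, z2⟩ := abs_le.1 hz
  obtain ⟨A1, A2⟩ := abs_le.1 hA
  obtain ⟨ζ1, ζ2⟩ := abs_le.1 hζ
  obtain ⟨b1, b2⟩ := abs_le.1 b
  have hτL : 0 ≤ τ * L := mul_nonneg hτ hL.le
  have hk : 0 < κ₀ * L := by positivity
  have hx0 : 0 ≤ x₀ * L := mul_nonneg x0 hL.le
  have hd0 : 0 ≤ d := by
    by_contra h
    push Not at h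
    have := mul_neg_of_neg_of_pos h k0
    linarith
  have hd40 : d ≤ 1 / 40 := by
    by_contra h
    push Not at h
    have := mul_lt_mul_of_pos_right h k0
    linarith
  -- scaled facts
  have sN1 : N₀ * L ≤ 102 / 125 * (κ₀ * L) := by
    have := mul_le_mul_of_nonneg_right N1 hL.le
    rw [hN]; linarith
  have sN0 : 74 / 100 * (κ₀ * L) ≤ N₀ * L := by
    have h1 : 74 / 100 * κ₀ ≤ N₀ := by rw [hN]; linarith
    have := mul_le_mul_of_nonneg_right h1 hL.le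
    linarith
  have sd0 : 0 ≤ d * κ₀ * L := mul_nonneg d0 hL.le
  have sd1 : d * κ₀ * L ≤ 1 / 40 * (κ₀ * L) := by
    have := mul_le_mul_of_nonneg_right d1 hL.le
    linarith
  have cl2 : 2 * (c * l) ≤ d * κ₀ * L / 2 + τ * L := by
    have h1 : c * l ≤ c * (κ₀ * L + τ * L) := mul_le_mul_of_nonneg_left (by linarith) hc0
    have h2 : c * (κ₀ * L) ≤ d / 4 * (κ₀ * L) := mul_le_mul_of_nonneg_right hc hk.le
    have h3 : c * (τ * L) ≤ 1 / 4 * (τ * L) :=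
      mul_le_mul_of_nonneg_right (by linarith) hτL
    have h4 : c * (κ₀ * L + τ * L) = c * (κ₀ * L) + c * (τ * L) := by ring
    have h5 : d / 4 * (κ₀ * L) = d * κ₀ * L / 4 := by ring
    linarith
  have m1 : min (2 * A - l) (3 / 4 * A) ≤ 2 * A - l := min_le_left _ _
  have m2 : min (2 * A - l) (3 / 4 * A) ≤ 3 / 4 * A := min_le_right _ _
  generalize min (2 * A - l) (3 / 4 * A) = M at *
  have hvv : (v ≤ 2 * (N₀ * L) - κ₀ * L + 21 / 5 * (x₀ * L) - G + t ∧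
      v ≤ 3 / 4 * (N₀ * L) + 21 / 5 * (x₀ * L) - G + t) ∧
      ((v ≤ 2 * (N₀ * L) - κ₀ * L + 21 / 5 * (x₀ * L) - G - 2 * w + d * κ₀ * L / 2 + t ∧
        v ≤ 3 / 4 * (N₀ * L) + 21 / 5 * (x₀ * L) - G - 2 * w + d * κ₀ * L / 2 + t) ∨
        v ≤ 2 * (x₀ * L) - G + t) := by
    have e1 := min_le_left (M + 11 / 5 * z) (M + 11 / 5 * z + 2 * (c * l) - 2 * w)
    have e2 := min_le_right (M + 11 / 5 * z) (M + 11 / 5 * z + 2 * (c * l) - 2 * w)
    generalize min (M + 11 / 5 * z) (M + 11 / 5 * z + 2 * (c * l) - 2 * w) = M' at *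
    rcases max_choice 0 M' with g | g <;> rw [g] at hv
    · exact ⟨⟨by linarith, by linarith⟩, Or.inr (by linarith)⟩
    · exact ⟨⟨by linarith, by linarith⟩, Or.inl ⟨by linarith, by linarith⟩⟩
  refine ⟨hk, hx0, sN1, ?_, sd0, sd1, le_max_left _ _, le_max_right _ _, hvv.1.1, hvv.1.2, hvv.2,
    by linarith, by linarith, g0, by linarith, b0, by linarith, by linarith, t1⟩
  rcases adm with ⟨a0, a1⟩ | ⟨a1, a2, a3⟩
  · left
    have := mul_le_mul_of_nonneg_right a0 hL.le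
    refine ⟨by linarith, ?_⟩
    rcases a1 with h | h
    · left; rw [h, zero_mul]
    · right
      have h' : N₀ + x₀ ≤ 4 / 5 * κ₀ := by rw [hN]; exact h
      have := mul_le_mul_of_nonneg_right h' hL.le
      linarith
  · right
    have h1 : 3 / 4 * κ₀ ≤ N₀ := by rw [hN]; exact a1
    have h3 : x₀ + 7 / 10 * N₀ ≤ 199 / 360 * κ₀ := by rw [hN]; exact a3
    have e1 := mul_le_mul_of_nonneg_right h1 hL.le
    have e2 := mul_le_mul_of_nonneg_right a2 hL.le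
    have e3 := mul_le_mul_of_nonneg_right h3 hL.le
    exact ⟨by linarith, by linarith, by linarith⟩

/-- **the exponent of the length of the rows, class E** (`vi = log 2 (i + 1)`) -/
theorem hpR (hτL : 0 ≤ τ * L) (hl : |l - κ₀ * L| ≤ τ * L) (hA : |A - N₀ * L| ≤ τ * L)
    (hζ : |ζ - x₀ * L| ≤ τ * L) (hvi : vi ≤ v) (hc5 : 0 ≤ c₅) (ht : 12 * (τ * L) + c₅ ≤ t) :
    4 / 3 * (P - 2 * G) + 2 / 3 * (x₀ * L) - κ₀ * L - 3 * max 0 (5 / 4 * (N₀ * L) - κ₀ * L) -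
      10 * t ≤ max (4 / 3 * (P - 2 * G) + 2 / 3 * ζ) ((P - 2 * G) + vi -
        max 0 (max (5 / 3 * s) (3 * s - 52 / 300 * l))) - l - 3 * max 0 (5 / 4 * A - l) ∧
    max (4 / 3 * (P - 2 * G) + 2 / 3 * ζ) ((P - 2 * G) + vi -
        max 0 (max (5 / 3 * s) (3 * s - 52 / 300 * l))) - l - 3 * max 0 (5 / 4 * A - l) ≤
      hpE (κ₀ * L) (x₀ * L) (max 0 (5 / 4 * (N₀ * L) - κ₀ * L)) v (P - 2 * G) s + 10 * t := by
  obtain ⟨l1, l2⟩ := abs_le.1 hl
  obtain ⟨A1, A2⟩ := abs_le.1 hA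
  obtain ⟨ζ1, ζ2⟩ := abs_le.1 hζ
  have a1 := le_max_left 0 (5 / 4 * A - l)
  have a2 := le_max_right 0 (5 / 4 * A - l)
  have b1 := le_max_left 0 (5 / 4 * (N₀ * L) - κ₀ * L)
  have b2 := le_max_right 0 (5 / 4 * (N₀ * L) - κ₀ * L)
  have h1 : max 0 (5 / 4 * A - l) ≤ max 0 (5 / 4 * (N₀ * L) - κ₀ * L) + 9 / 4 * (τ * L) :=
    max_le (by linarith) (by linarith)
  have h2 : max 0 (5 / 4 * (N₀ * L) - κ₀ * L) ≤ max 0 (5 / 4 * A - l) + 9 / 4 * (τ * L) :=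
    max_le (by linarith) (by linarith)
  have h3 : max 0 (max (5 / 3 * s) (3 * s - 52 / 300 * (κ₀ * L))) ≤
      max 0 (max (5 / 3 * s) (3 * s - 52 / 300 * l)) + τ * L := by
    have c1 := le_max_left 0 (max (5 / 3 * s) (3 * s - 52 / 300 * l))
    have c2 := le_max_right 0 (max (5 / 3 * s) (3 * s - 52 / 300 * l))
    have c3 := le_max_left (5 / 3 * s) (3 * s - 52 / 300 * l)
    have c4 := le_max_right (5 / 3 * s) (3 * s - 52 / 300 * l)
    exact max_le (by linarith) (max_le (by linarith) (by linarith))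
  have m1 := le_max_left (4 / 3 * (P - 2 * G) + 2 / 3 * ζ) ((P - 2 * G) + vi -
        max 0 (max (5 / 3 * s) (3 * s - 52 / 300 * l)))
  unfold hpE
  refine ⟨by linarith, ?_⟩
  have m3 := le_max_left (4 / 3 * (P - 2 * G) + 2 / 3 * (x₀ * L)) (P - 2 * G + v -
    max 0 (max (5 / 3 * s) (3 * s - 52 / 300 * (κ₀ * L))))
  have m4 := le_max_right (4 / 3 * (P - 2 * G) + 2 / 3 * (x₀ * L)) (P - 2 * G + v -
    max 0 (max (5 / 3 * s) (3 * s - 52 / 300 * (κ₀ * L))))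
  have m5 : max (4 / 3 * (P - 2 * G) + 2 / 3 * ζ) ((P - 2 * G) + vi -
        max 0 (max (5 / 3 * s) (3 * s - 52 / 300 * l))) ≤
      max (4 / 3 * (P - 2 * G) + 2 / 3 * (x₀ * L)) (P - 2 * G + v -
        max 0 (max (5 / 3 * s) (3 * s - 52 / 300 * (κ₀ * L)))) + τ * L :=
    max_le (by linarith) (by linarith)
  linarith

end Crest.Agent.R017.TLE702
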