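import Crest.Agent.R017.MXb_744

/-!
# Row 17, T.7 (class E), E3: second form, part a (helper744)

* `GPx Θ`, `PoHGx G` : a structured bound with abstract values, two classes of frequencies
* `block2Gx`, `strGx_le` : helper405's `block2G`, `strG_le` in classes
-/

set_option autoImplicit false

noncomputable section

open Complex MeasureTheory
open scoped ComplexConjugate Classical

namespace Crest.Agent.R017.MX744

open Crest.Agent.R012 Crest.Agent.R012.Eis Crest.Agent.R012.MC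
open Crest.Agent.R012.LS2 (S mem_S bl mem_bl)
open Crest.Agent.R012.LS448 (one_le_nm')
open Crest.Agent.R012.NonCube52 (Ker kv Good kc kc_spec kc_nm kv_ne_zero one_le_nmkv)
open Crest.Agent.R012.Mob705 (mu pdiv mem_pdiv sum_mu_coprime mu_of_not_squarefree abs_mu_le_one)
open Crest.Agent.R012.Weight600 (pw)
open Crest.Agent.R017.CM106 (CS TG FS)
open Crest.Agent.R017.BD829 (TT EQ Win EQ_nonneg)
open Crest.Agent.R017.E3D579 (EQ_smul EQ_sy)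
open Crest.Agent.R017.E1551 (jb jb_pos nmpos)
open Crest.Agent.R017.DgB829 (HS HS_le HS_nonneg)
open Crest.Agent.R017.Mode405
open Crest.Agent.R017.PoHx72

/-- the data of a structured bound in two classes -/
structure GPx (Θ : Type) where
  /-- the modulus of the tests -/
  tk : Θ → Eis
  /-- side condition: `θ Z` -/
  Ok : Θ → ℝ → Prop
  /-- admissible sequences: `θ N R b` -/
  Adq : Θ → ℝ → ℝ → (Eis → ℂ) → Prop
  /-- the length condition: `θ R N lam` -/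
  Cnd : Θ → ℝ → ℝ → ℝ → Prop
  /-- the norm factors -/
  nfn : Θ → Bool → ℝ → ℝ → ℝ
  /-- the values: `θ lam X t b v` -/
  Rl : Θ → ℝ → ℝ → ℝ → (Eis → ℂ) → ℝ → Prop
  ok : ∀ θ Z Z', Z ≤ Z' → Ok θ Z → Ok θ Z'
  adq : ∀ θ N R b b', Adq θ N R b → (∀ n, b' n ≠ 0 → b n ≠ 0) → Adq θ N R b'
  cnd : ∀ θ R N lam lam', Cnd θ R N lam → lam' ≤ lam → Cnd θ R N lam'
  nonneg : ∀ θ j lam I, 0 ≤ lam → 0 < I → 0 ≤ nfn θ j lam I
  anti : ∀ θ j lam I I', 0 ≤ lam → 0 < I → I ≤ I' → nfn θ j lam I' ≤ nfn θ j lam I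

/-- **the structured bound**, generic form, two classes -/
def PoHGx {Θ : Type} (G : GPx Θ) : Prop :=
  ∀ R : ℝ, 0 ≤ R → ∀ a A : ℕ, 1 < A → ∀ ε : ℝ, 0 < ε → ∃ (C c : ℝ) (J : ℕ), 0 ≤ C ∧ 1 ≤ c ∧
    ∀ (θ : Θ) (Z N X lam : ℝ), 1 ≤ Z → 0 < N → N ≤ Z → 0 < X → X ≤ Z → 1 ≤ X * Z → 1 ≤ lam →
      lam ≤ Z → G.Cnd θ R N lam → G.Ok θ Z →
    ∀ {ι : Type} (Q : Finset ι) (b : ι → Eis → ℂ) (Xq : ι → ℝ),
      (∀ q ∈ Q, X / 64 ≤ Xq q ∧ Xq q ≤ X) →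
      (∀ q ∈ Q, ∀ n, b q n ≠ 0 → n ∈ S Z) → (∀ q ∈ Q, G.Adq θ N R (b q)) →
    ∀ Pr : ι → Eis → Eis → Prop, (∀ q ∈ Q, PrOK (b q) (Pr q)) →
    ∀ W : Bool → ℝ → ℝ, (∀ j, Slp a (W j)) →
      (∀ j γ φ x, Adm (N ^ 2) (G.tk θ) γ φ x → ∀ P : ℝ, 1 ≤ P →
        (nm γ : ℝ) * ∑ q ∈ Q, VIc A (b q) γ φ 1 P (Cls (Pr q γ) j) ≤ W j (P * nm x)) →
    ∀ W1 : Bool → ℝ, (∀ j, 0 ≤ W1 j) → (∀ j, W j (c * Il N lam X) ≤ W1 j) →
    ∀ (t : ℝ) (v : ι → ℝ), (∀ q ∈ Q, G.Rl θ lam (Xq q) t (b q) (v q)) →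
      ∑ q ∈ Q, v q ≤ C * Z ^ ε * (1 + |t|) ^ J *
        ∑ j : Bool, (X * G.nfn θ j lam (Il N lam X) * W1 j)

set_option maxHeartbeats 4000000 in
/-- **the block bound**, threshold rule, two classes -/
theorem block2Gx {Θ : Type} {G : GPx Θ} (hP : PoHGx G) {R : ℝ} (hR : 0 ≤ R) (a A : ℕ) (hA : 1 < A) {ε : ℝ} (hε : 0 < ε) :
    ∃ (C c : ℝ) (J : ℕ), 0 ≤ C ∧ 1 ≤ c ∧ ∀ (θ : Θ) (Z N Y Lt lam P₁ : ℝ), 1 ≤ Z → 0 < N → N ≤ Z → 0 < Y →
      1 ≤ Y * Z → Y ≤ Z → 1 ≤ lam → lam ≤ Lt → Lt ≤ Z → G.Cnd θ R N Lt → 1 ≤ P₁ →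
      lam * P₁ ^ 3 ≤ Lt → G.Ok θ Z →
    ∀ {ι : Type} (O : Finset ι) (b : ι → Eis → ℂ) (Yq : ι → ℝ),
      (∀ o ∈ O, Y / 8 ≤ Yq o ∧ Yq o ≤ Y) → (∀ o ∈ O, ∀ n, b o n ≠ 0 → n ∈ S Z) →
      (∀ o ∈ O, G.Adq θ N R (b o)) →
    ∀ Prd : ι → Eis → Eis → Prop, (∀ o ∈ O, PrOK (b o) (Prd o)) →
    ∀ W : Bool → ℝ → ℝ, (∀ jj, Slp a (W jj)) →
      (∀ jj γ φ x, Adm (N ^ 2) (G.tk θ) γ φ x → ∀ P : ℝ, 1 ≤ P →
        (nm γ : ℝ) * ∑ o ∈ O, VIc A (b o) γ φ 1 P (Cls (Prd o γ) jj) ≤ W jj (P * nm x)) →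
    ∀ W1 : Bool → ℝ, (∀ jj, 0 ≤ W1 jj) → (∀ jj, W jj (c * Il N Lt Y) ≤ W1 jj) →
    ∀ (Pr : ι → Finset (Eis × Eis)) (i j : ℕ), (∀ o ∈ O, ∀ p ∈ Pr o, IsPrim p.1 ∧ IsPrim p.2 ∧
        ((2 : ℝ) ^ i ≤ nm p.1 ∧ (nm p.1 : ℝ) ≤ 2 ^ (i + 1)) ∧
        ((2 : ℝ) ^ j ≤ nm p.2 ∧ (nm p.2 : ℝ) ≤ 2 ^ (j + 1)) ∧ (nm p.1 : ℝ) * nm p.2 ≤ P₁) →
    ∀ (t : ℝ) (v : ι → Eis × Eis → ℝ), (∀ o ∈ O, ∀ p ∈ Pr o,
      G.Rl θ lam (Yq o / nm (p.1 * p.2 ^ 2)) t (Mode405.bs (b o) (p.1 * p.2 ^ 2)) (v o p)) →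
      (2 : ℝ) ^ j * ∑ o ∈ O, ∑ p ∈ Pr o, v o p ≤
      C * Z ^ ε * (1 + |t|) ^ J * ∑ jj : Bool,
        (Y * G.nfn θ jj lam (Il N lam Y) * ((lam / Lt) ^ (1 / 3 : ℝ) * W1 jj)) := by
  classical
  obtain ⟨C₁, hC₁, htau⟩ := Div277.tau_le_rpow (ε := min (ε / 32) (1 / 2)) (by positivity)
  set e₁ : ℝ := min (ε / 32) (1 / 2) with he₁
  have he0 : 0 < e₁ := by positivity
  have he2 : 2 * e₁ ≤ 1 := by have := min_le_right (ε / 32) (1 / 2 : ℝ); rw [← he₁] at this; linarith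
  have he3 : e₁ ≤ ε / 32 := min_le_left _ _
  obtain ⟨C₂, c, J, hC₂, hc, hmain⟩ := hP R hR (a + 1) A hA (ε / 6) (by positivity)
  refine ⟨C₂ * (C₁ ^ 2 * (8 * c) ^ (2 * e₁)), 8 * c, J, by positivity, by linarith, ?_⟩
  intro θ Z N Y Lt lam P₁ hZ hN hNZ hY0 hYZ1 hYZ hlam hlamL hLZ hLN hP₁ hP3 hOk ι O b Yq hYq
    hbS hbW Prd hPrd W hW hWle W1 hW1 hW1le Pr i j hPr t v hv
  have hPZ : P₁ ≤ Z := by
    have h1 : P₁ ≤ P₁ ^ 3 := le_self_pow₀ hP₁ (by norm_num)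
    have h2 : P₁ ^ 3 ≤ lam * P₁ ^ 3 := le_mul_of_one_le_left (by positivity) hlam
    linarith
  have hLt0 : 0 < Lt := by linarith
  have hlam0 : 0 < lam := by linarith
  have hZ0 : 0 < Z := by linarith
  have hIl0 : 0 < Il N lam Y := by unfold Il; positivity
  have hRHS : 0 ≤ C₂ * (C₁ ^ 2 * (8 * c) ^ (2 * e₁)) * Z ^ ε * (1 + |t|) ^ J *
      ∑ jj : Bool, (Y * G.nfn θ jj lam (Il N lam Y) * ((lam / Lt) ^ (1 / 3 : ℝ) * W1 jj)) := by
    refine mul_nonneg (by positivity) (Finset.sum_nonneg fun jj _ => ?_)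
    have h1 := G.nonneg θ jj lam _ hlam0.le hIl0
    have h2 := hW1 jj
    positivity
  -- the empty case
  by_cases hne : ∃ o ∈ O, ∃ p, p ∈ Pr o
  swap
  · push Not at hne
    have e0 : ∑ o ∈ O, ∑ p ∈ Pr o, v o p = 0 :=
      Finset.sum_eq_zero fun o ho => by
        rw [Finset.eq_empty_of_forall_notMem (hne o ho), Finset.sum_empty]
    rw [e0, mul_zero]; exact hRHS
  obtain ⟨o₀, ho₀, p₀, hp₀⟩ := hne
  have h2i : (1 : ℝ) ≤ 2 ^ i := one_le_pow₀ (by norm_num)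
  have h2j : (1 : ℝ) ≤ 2 ^ j := one_le_pow₀ (by norm_num)
  set P : ℝ := 2 ^ i * 2 ^ j with hPdef
  have hP1 : 1 ≤ P := one_le_mul_of_one_le_of_one_le h2i h2j
  have hPP₁ : P ≤ P₁ := by
    obtain ⟨-, -, h1, h2, h3⟩ := hPr o₀ ho₀ p₀ hp₀
    calc P ≤ (nm p₀.1 : ℝ) * nm p₀.2 := mul_le_mul h1.1 h2.1 (by positivity) (by positivity)
      _ ≤ P₁ := h3
  have hPZ' : P ≤ Z := hPP₁.trans hPZ
  have h2iZ : (2 : ℝ) ^ i ≤ Z := le_trans (by
    rw [hPdef]; exact le_mul_of_one_le_right (by positivity) h2j) hPZ'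
  have h2jZ : (2 : ℝ) ^ j ≤ Z := le_trans (by
    rw [hPdef]; exact le_mul_of_one_le_left (by positivity) h2i) hPZ'
  set M : ℝ := 2 ^ i * (2 ^ j) ^ 2 with hMdef
  have hM1 : 1 ≤ M := one_le_mul_of_one_le_of_one_le h2i (one_le_pow₀ h2j)
  have hMZ : M ≤ Z ^ 2 := by
    calc M = P * 2 ^ j := by rw [hMdef, hPdef]; ring
      _ ≤ Z * Z := mul_le_mul hPZ' h2jZ (by positivity) hZ0.le
      _ = Z ^ 2 := by ring
  set X : ℝ := Y / M with hXdef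
  have hM0 : 0 < M := by linarith
  have hX0 : 0 < X := by positivity
  have hXY : X ≤ Y := div_le_self hY0.le hM1
  -- the merged frequencies
  set cm : ℝ := 8 * ((2 ^ i) ^ 2 * 2 ^ j) with hcm
  have hcm0 : 0 < cm := by positivity
  have hcmZ : cm ≤ 8 * Z ^ 3 := by
    rw [hcm]
    have : (2 ^ i) ^ 2 * 2 ^ j ≤ Z ^ 2 * Z :=
      mul_le_mul (pow_le_pow_left₀ (by positivity) h2iZ 2) h2jZ (by positivity) (by positivity)
    calc 8 * ((2 ^ i) ^ 2 * 2 ^ j) ≤ 8 * (Z ^ 2 * Z) := by linarith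
      _ = 8 * Z ^ 3 := by ring
  set Wf : Bool → ℝ → ℝ := fun jj P => C₁ ^ 2 * (cm * max 1 P) ^ (2 * e₁) * W jj (cm * P) with hWf
  have hWfS : ∀ jj, Slp (a + 1) (Wf jj) := fun jj =>
    slp_fam (hW jj) hcm0 (by positivity) (by positivity) he2
  -- the family
  set Fm : Finset (Σ _ : ι, Eis × Eis) := O.sigma Pr with hFm
  set bb : (Σ _ : ι, Eis × Eis) → Eis → ℂ :=
    fun x => Mode405.bs (b x.1) (x.2.1 * x.2.2 ^ 2) with hbb
  set Pb : (Σ _ : ι, Eis × Eis) → Eis → Eis → Prop :=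
    fun x => PrS (Prd x.1) (x.2.1 * x.2.2 ^ 2) with hPb
  set Xq : (Σ _ : ι, Eis × Eis) → ℝ := fun x => Yq x.1 / nm (x.2.1 * x.2.2 ^ 2) with hXq
  have hmemF : ∀ x ∈ Fm, x.1 ∈ O ∧ x.2 ∈ Pr x.1 := fun x hx => by
    rw [hFm, Finset.mem_sigma] at hx; exact hx
  have hXqb : ∀ x ∈ Fm, X / 64 ≤ Xq x ∧ Xq x ≤ X := by
    intro x hx
    obtain ⟨ho, hp⟩ := hmemF x hx
    obtain ⟨h1, h2, h3, h4, -⟩ := hPr _ ho _ hp
    have hn : ((nm (x.2.1 * x.2.2 ^ 2) : ℕ) : ℝ) = nm x.2.1 * (nm x.2.2 : ℝ) ^ 2 := by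
      rw [nm_mul, nm_pow]; push_cast; ring
    have hlo : M ≤ nm x.2.1 * (nm x.2.2 : ℝ) ^ 2 := by
      rw [hMdef]
      exact mul_le_mul h3.1 (pow_le_pow_left₀ (by positivity) h4.1 2) (by positivity) (by positivity)
    have hhi : nm x.2.1 * (nm x.2.2 : ℝ) ^ 2 ≤ 8 * M := by
      calc nm x.2.1 * (nm x.2.2 : ℝ) ^ 2 ≤ 2 ^ (i + 1) * (2 ^ (j + 1)) ^ 2 :=
            mul_le_mul h3.2 (pow_le_pow_left₀ (by positivity) h4.2 2) (by positivity) (by positivity)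
        _ = 8 * M := by rw [hMdef, pow_succ, pow_succ]; ring
    have hpos : 0 < nm x.2.1 * (nm x.2.2 : ℝ) ^ 2 := lt_of_lt_of_le hM0 hlo
    have hy := hYq _ ho
    rw [hXq]
    beta_reduce
    rw [hn]
    constructor
    · rw [hXdef, div_div, div_le_div_iff₀ (by positivity) hpos]
      have hY4 : Y ≤ 8 * Yq x.1 := by linarith [hy.1]
      have hYq0 : 0 ≤ Yq x.1 := by linarith [hy.1]
      calc Y * (nm x.2.1 * (nm x.2.2 : ℝ) ^ 2) ≤ (8 * Yq x.1) * (8 * M) :=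
            mul_le_mul hY4 hhi hpos.le (by positivity)
        _ ≤ Yq x.1 * (M * 64) := by nlinarith [mul_nonneg hYq0 hM0.le]
    · rw [hXdef]
      have hYq0 : 0 ≤ Yq x.1 := by linarith [hy.1]
      exact div_le_div₀ hY0.le hy.2 hM0 hlo
  have hbbS : ∀ x ∈ Fm, ∀ n, bb x n ≠ 0 → n ∈ S (Z ^ 3) := by
    intro x hx n hn
    have h1 := hbS _ (hmemF x hx).1 n (bs_supp hn)
    rw [mem_S hZ0.le] at h1
    rw [mem_S (by positivity)]
    refine ⟨h1.1.trans ?_, h1.2⟩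
    calc Z = Z ^ 1 := (pow_one Z).symm
      _ ≤ Z ^ 3 := pow_le_pow_right₀ hZ (by norm_num)
  have hbbW : ∀ x ∈ Fm, G.Adq θ N R (bb x) := by
    intro x hx
    exact G.adq θ N R _ _ (hbW _ (hmemF x hx).1) (fun n hn => bs_supp hn)
  have hbp : ∀ o ∈ O, ∀ n, b o n ≠ 0 → IsPrim n := fun o ho n hn =>
    ((mem_S hZ0.le).1 (hbS o ho n hn)).2.1
  have hPbOK : ∀ x ∈ Fm, PrOK (bb x) (Pb x) := by
    intro x hx
    obtain ⟨ho, hp⟩ := hmemF x hx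
    obtain ⟨h1, h2, -⟩ := hPr _ ho _ hp
    exact (hPrd _ ho).bs (hbp _ ho) (h1.mul (h2.pow 2)).ne_zero
  have hWfle : ∀ jj γ φ x, Adm (N ^ 2) (G.tk θ) γ φ x → ∀ P : ℝ, 1 ≤ P →
      (nm γ : ℝ) * ∑ q ∈ Fm, VIc A (bb q) γ φ 1 P (Cls (Pb q γ) jj) ≤ Wf jj (P * nm x) := by
    intro jj γ φ x hadm Q hQ
    have hQ0 : 0 ≤ Q := by linarith
    have hx1 : (1 : ℝ) ≤ nm x := one_le_nm' hadm.2.2.2.1
    have hQx : 1 ≤ Q * nm x := one_le_mul_of_one_le_of_one_le hQ hx1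
    have hQQ : Q ≤ Q * nm x := le_mul_of_one_le_right hQ0 hx1
    rw [hFm, Finset.sum_sigma]
    have hTk : ∀ k ∈ bl (cm * Q), ((pdiv k).card : ℝ) ≤ C₁ * (cm * (Q * nm x)) ^ e₁ := by
      intro k hk
      have hk' := (mem_bl (by positivity)).mp hk
      refine (htau k hk'.1).trans ?_
      refine mul_le_mul_of_nonneg_left (Real.rpow_le_rpow (Nat.cast_nonneg _) (hk'.2.trans ?_)
        he0.le) (by linarith)
      exact mul_le_mul_of_nonneg_left hQQ hcm0.le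
    have h1 : ∀ o ∈ O, ∑ p ∈ Pr o, VIc A (bb ⟨o, p⟩) γ φ 1 Q (Cls (Pb ⟨o, p⟩ γ) jj) ≤
        (C₁ * (cm * (Q * nm x)) ^ e₁) ^ 2 *
          VIc A (b o) γ φ 1 (cm * Q) (Cls (Prd o γ) jj) := by
      intro o ho
      refine VIc_merge A (hbp o ho) (hPrd o ho) jj hadm.1 hadm.2.2.1
        (fun p hp => ⟨(hPr o ho p hp).1, (hPr o ho p hp).2.1⟩) hQ0 hcm0.le
        (fun p hp => ?_) (by positivity) hTk
      obtain ⟨-, -, h3, h4, -⟩ := hPr o ho p hp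
      rw [nm_mul, nm_pow]
      push_cast
      calc (nm p.1 : ℝ) ^ 2 * nm p.2 ≤ (2 ^ (i + 1)) ^ 2 * 2 ^ (j + 1) :=
            mul_le_mul (pow_le_pow_left₀ (by positivity) h3.2 2) h4.2 (by positivity)
              (by positivity)
        _ = cm := by rw [hcm, pow_succ, pow_succ]; ring
    have h2 := hWle jj γ φ x hadm (cm * Q) (by
      have : (1 : ℝ) ≤ (2 ^ i) ^ 2 * 2 ^ j := one_le_mul_of_one_le_of_one_le (one_le_pow₀ h2i) h2j
      nlinarith)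
    have hγ0 : (0 : ℝ) ≤ nm γ := Nat.cast_nonneg _
    calc (nm γ : ℝ) * ∑ o ∈ O, ∑ p ∈ Pr o, VIc A (bb ⟨o, p⟩) γ φ 1 Q (Cls (Pb ⟨o, p⟩ γ) jj)
        ≤ (nm γ : ℝ) * ∑ o ∈ O, (C₁ * (cm * (Q * nm x)) ^ e₁) ^ 2 *
          VIc A (b o) γ φ 1 (cm * Q) (Cls (Prd o γ) jj) :=
          mul_le_mul_of_nonneg_left (Finset.sum_le_sum h1) hγ0
      _ = (C₁ * (cm * (Q * nm x)) ^ e₁) ^ 2 *
          ((nm γ : ℝ) * ∑ o ∈ O, VIc A (b o) γ φ 1 (cm * Q) (Cls (Prd o γ) jj)) := by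
          rw [← Finset.mul_sum]; ring
      _ ≤ (C₁ * (cm * (Q * nm x)) ^ e₁) ^ 2 * W jj (cm * Q * nm x) :=
          mul_le_mul_of_nonneg_left h2 (by positivity)
      _ = Wf jj (Q * nm x) := by
          rw [hWf]
          beta_reduce
          have e2 : ((cm * (Q * nm x)) ^ e₁) ^ 2 = (cm * (Q * nm x)) ^ (2 * e₁) := by
            rw [← Real.rpow_natCast ((cm * (Q * nm x)) ^ e₁), ← Real.rpow_mul (by positivity)]
            congr 1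
            push_cast; ring
          have e3 : cm * Q * nm x = cm * (Q * nm x) := by ring
          rw [max_eq_right hQx, mul_pow, e2, e3]
  -- the constant of the family
  set W2 : Bool → ℝ := fun jj => C₁ ^ 2 * (8 * c) ^ (2 * e₁) * Z ^ (16 * e₁) *
    ((lam / Lt) ^ (1 / 3 : ℝ) * (P * W1 jj)) with hW2
  have hW20 : ∀ jj, 0 ≤ W2 jj := fun jj => by
    have := hW1 jj
    rw [hW2]
    beta_reduce
    positivity
  have hIX : Il N lam X = Il N lam Y * M := by unfold Il; rw [hXdef]; field_simp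
  have hIX0 : 0 < Il N lam X := by rw [hIX]; positivity
  have hIXZ : Il N lam X ≤ Z ^ 5 := by
    rw [hIX]
    have h1 : Il N lam Y ≤ Z ^ 3 := by
      unfold Il
      rw [div_le_iff₀ hY0]
      have h2 : N * lam ≤ Z * Z := mul_le_mul hNZ (hlamL.trans hLZ) hlam0.le hZ0.le
      have h3 : Z ^ 2 * 1 ≤ Z ^ 2 * (Y * Z) := mul_le_mul_of_nonneg_left hYZ1 (by positivity)
      calc N * lam ≤ Z ^ 2 * 1 := by linarith [h2, sq Z]
        _ ≤ Z ^ 2 * (Y * Z) := h3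
        _ = Z ^ 3 * Y := by ring
    calc Il N lam Y * M ≤ Z ^ 3 * Z ^ 2 := mul_le_mul h1 hMZ hM0.le (by positivity)
      _ = Z ^ 5 := by ring
  have hWf1 : ∀ jj, Wf jj (c * Il N lam X) ≤ W2 jj := by
    intro jj
    have hc0 : 0 < c := by linarith
    rw [hWf]
    beta_reduce
    have h1 : (cm * max 1 (c * Il N lam X)) ^ (2 * e₁) ≤ (8 * c) ^ (2 * e₁) * Z ^ (16 * e₁) := by
      have h2 : max 1 (c * Il N lam X) ≤ c * Z ^ 5 := by
        refine max_le ?_ ?_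
        · have : (1 : ℝ) ≤ Z ^ 5 := one_le_pow₀ hZ
          nlinarith
        · exact mul_le_mul_of_nonneg_left hIXZ hc0.le
      have h3 : cm * max 1 (c * Il N lam X) ≤ (8 * c) * Z ^ (8 : ℕ) := by
        have h4 : (0 : ℝ) ≤ max 1 (c * Il N lam X) := le_trans zero_le_one (le_max_left _ _)
        calc cm * max 1 (c * Il N lam X) ≤ (8 * Z ^ 3) * (c * Z ^ 5) :=
              mul_le_mul hcmZ h2 h4 (by positivity)
          _ = (8 * c) * Z ^ (8 : ℕ) := by ring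
      have h5 : (0 : ℝ) ≤ cm * max 1 (c * Il N lam X) :=
        mul_nonneg hcm0.le (le_trans zero_le_one (le_max_left _ _))
      calc (cm * max 1 (c * Il N lam X)) ^ (2 * e₁) ≤ ((8 * c) * Z ^ (8 : ℕ)) ^ (2 * e₁) :=
            Real.rpow_le_rpow h5 h3 (by positivity)
        _ = (8 * c) ^ (2 * e₁) * Z ^ (16 * e₁) := by
            rw [Real.mul_rpow (by positivity) (by positivity), ← Real.rpow_natCast Z 8,
              ← Real.rpow_mul hZ0.le]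
            congr 2
            push_cast; ring
    have h6 : W jj (cm * (c * Il N lam X)) ≤ (lam / Lt) ^ (1 / 3 : ℝ) * (P * W1 jj) := by
      have e1 : cm * (c * Il N lam X) = 8 * c * Il N lam Y * P ^ 3 := by
        rw [hIX, hcm, hPdef, hMdef]; ring
      have hP3' : lam * P ^ 3 ≤ Lt := by
        refine le_trans (mul_le_mul_of_nonneg_left ?_ hlam0.le) hP3
        exact pow_le_pow_left₀ (by linarith) hPP₁ 3
      have hP0 : 0 < P := by linarith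
      have e2 : 8 * c * Il N lam Y * P ^ 3 ≤ 8 * c * Il N Lt Y := by
        have e4 : 8 * c * Il N lam Y * P ^ 3 = (8 * c * (N / Y)) * (lam * P ^ 3) := by
          unfold Il; ring
        have e5 : 8 * c * Il N Lt Y = (8 * c * (N / Y)) * Lt := by
          unfold Il; ring
        rw [e4, e5]
        exact mul_le_mul_of_nonneg_left hP3' (by positivity)
      have hIlt0 : 0 < Il N Lt Y := by unfold Il; positivity
      have h7 := (hW jj).low (8 * c * Il N lam Y * P ^ 3) (8 * c * Il N Lt Y) (by positivity) e2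
      have e3 : 8 * c * Il N lam Y * P ^ 3 / (8 * c * Il N Lt Y) = lam / Lt * P ^ 3 := by
        unfold Il; field_simp
      have e6 : (lam / Lt * P ^ 3) ^ (1 / 3 : ℝ) = (lam / Lt) ^ (1 / 3 : ℝ) * P := by
        rw [Real.mul_rpow (by positivity) (by positivity), ← Real.rpow_natCast P 3,
          ← Real.rpow_mul hP0.le]
        norm_num
      rw [e3, e6] at h7
      rw [e1]
      refine h7.trans ?_
      have e7 : (lam / Lt) ^ (1 / 3 : ℝ) * (P * W1 jj) = (lam / Lt) ^ (1 / 3 : ℝ) * P * W1 jj := by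
        ring
      rw [e7]
      exact mul_le_mul_of_nonneg_left (hW1le jj) (by positivity)
    have h8 : 0 ≤ W jj (cm * (c * Il N lam X)) := (hW jj).nonneg _ (by positivity)
    calc C₁ ^ 2 * (cm * max 1 (c * Il N lam X)) ^ (2 * e₁) * W jj (cm * (c * Il N lam X))
        ≤ C₁ ^ 2 * ((8 * c) ^ (2 * e₁) * Z ^ (16 * e₁)) *
          ((lam / Lt) ^ (1 / 3 : ℝ) * (P * W1 jj)) := by
          gcongr
      _ = W2 jj := by rw [hW2]; ring
  -- application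
  have hZ3 : (1 : ℝ) ≤ Z ^ 3 := one_le_pow₀ hZ
  have hZZ3 : Z ≤ Z ^ 3 := by
    calc Z = Z ^ 1 := (pow_one Z).symm
      _ ≤ Z ^ 3 := pow_le_pow_right₀ hZ (by norm_num)
  have hXZ : 1 ≤ X * Z ^ 3 := by
    rw [hXdef, div_mul_eq_mul_div, one_le_div hM0]
    calc M ≤ Z ^ 2 * 1 := by linarith
      _ ≤ Z ^ 2 * (Y * Z) := mul_le_mul_of_nonneg_left hYZ1 (by positivity)
      _ = Y * Z ^ 3 := by ring
  have h := hmain θ (Z ^ 3) N X lam hZ3 hN (hNZ.trans hZZ3) hX0 (hXY.trans (hYZ.trans hZZ3)) hXZ hlam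
    ((hlamL.trans hLZ).trans hZZ3) (G.cnd θ R N Lt lam hLN hlamL) (G.ok θ Z (Z ^ 3) hZZ3 hOk)
    Fm bb Xq hXqb hbbS hbbW Pb hPbOK Wf hWfS hWfle W2 hW20 hWf1 t (fun x => v x.1 x.2)
    (fun x hx => hv x.1 (hmemF x hx).1 x.2 (hmemF x hx).2)
  rw [hFm, Finset.sum_sigma] at h
  have hZε : (Z ^ 3) ^ (ε / 6) * Z ^ (16 * e₁) ≤ Z ^ ε := by
    rw [← Real.rpow_natCast Z 3, ← Real.rpow_mul hZ0.le, ← Real.rpow_add hZ0]
    refine Real.rpow_le_rpow_of_exponent_le hZ ?_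
    push_cast
    linarith
  have hXP : (2 : ℝ) ^ j * X * P = Y := by
    rw [hXdef, hPdef, hMdef]; field_simp
  have hterm : ∀ jj : Bool, (2 : ℝ) ^ j * (C₂ * (Z ^ 3) ^ (ε / 6) * (1 + |t|) ^ J *
      (X * G.nfn θ jj lam (Il N lam X) * W2 jj)) ≤
      C₂ * (C₁ ^ 2 * (8 * c) ^ (2 * e₁)) * Z ^ ε *
        (1 + |t|) ^ J * (Y * G.nfn θ jj lam (Il N lam Y) * ((lam / Lt) ^ (1 / 3 : ℝ) * W1 jj)) := by
    intro jj
    have hnf : G.nfn θ jj lam (Il N lam X) ≤ G.nfn θ jj lam (Il N lam Y) := by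
      refine G.anti θ jj lam _ _ hlam0.le hIl0 ?_
      rw [hIX]; exact le_mul_of_one_le_right hIl0.le hM1
    have hnf0 := G.nonneg θ jj lam _ hlam0.le hIX0
    have hnf1 := G.nonneg θ jj lam _ hlam0.le hIl0
    have hw1 := hW1 jj
    calc (2 : ℝ) ^ j * (C₂ * (Z ^ 3) ^ (ε / 6) * (1 + |t|) ^ J *
          (X * G.nfn θ jj lam (Il N lam X) * W2 jj))
        = (C₂ * (C₁ ^ 2 * (8 * c) ^ (2 * e₁))) * ((Z ^ 3) ^ (ε / 6) * Z ^ (16 * e₁)) *
          (1 + |t|) ^ J * ((2 ^ j * X * P) * G.nfn θ jj lam (Il N lam X) *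
            ((lam / Lt) ^ (1 / 3 : ℝ) * W1 jj)) := by rw [hW2]; ring
      _ = (C₂ * (C₁ ^ 2 * (8 * c) ^ (2 * e₁))) * ((Z ^ 3) ^ (ε / 6) * Z ^ (16 * e₁)) *
          (1 + |t|) ^ J * (Y * G.nfn θ jj lam (Il N lam X) * ((lam / Lt) ^ (1 / 3 : ℝ) * W1 jj)) := by
            rw [hXP]
      _ ≤ (C₂ * (C₁ ^ 2 * (8 * c) ^ (2 * e₁))) * Z ^ ε *
          (1 + |t|) ^ J * (Y * G.nfn θ jj lam (Il N lam Y) * ((lam / Lt) ^ (1 / 3 : ℝ) * W1 jj)) := by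
            gcongr
  calc (2 : ℝ) ^ j * ∑ o ∈ O, ∑ p ∈ Pr o, v o p
      ≤ 2 ^ j * (C₂ * (Z ^ 3) ^ (ε / 6) * (1 + |t|) ^ J *
          ∑ jj : Bool, (X * G.nfn θ jj lam (Il N lam X) * W2 jj)) :=
        mul_le_mul_of_nonneg_left h (by positivity)
    _ = ∑ jj : Bool, (2 : ℝ) ^ j * (C₂ * (Z ^ 3) ^ (ε / 6) * (1 + |t|) ^ J *
          (X * G.nfn θ jj lam (Il N lam X) * W2 jj)) := by
        rw [Finset.mul_sum, Finset.mul_sum]
    _ ≤ ∑ jj : Bool, C₂ * (C₁ ^ 2 * (8 * c) ^ (2 * e₁)) * Z ^ ε *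
        (1 + |t|) ^ J * (Y * G.nfn θ jj lam (Il N lam Y) * ((lam / Lt) ^ (1 / 3 : ℝ) * W1 jj)) :=
        Finset.sum_le_sum fun jj _ => hterm jj
    _ = _ := by rw [Finset.mul_sum]

set_option maxHeartbeats 4000000 in
/-- **the structured half**, two classes -/
theorem strGx_le {Θ : Type} {G : GPx Θ} (hP : PoHGx G) {R : ℝ} (hR : 0 ≤ R) (a A : ℕ) (hA : 1 < A) {ε : ℝ} (hε : 0 < ε) :
    ∃ (C c : ℝ) (J : ℕ), 0 ≤ C ∧ 1 ≤ c ∧ ∀ (θ : Θ) (Z N Y Lt lam P₁ : ℝ), 1 ≤ Z → 0 < N → N ≤ Z → 1 ≤ Y →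
      Y ≤ Z → 1 ≤ lam → lam ≤ Lt → Lt ≤ Z → G.Cnd θ R N Lt → 1 ≤ P₁ → lam * P₁ ^ 3 ≤ Lt →
      G.Ok θ Z →
    ∀ {ι : Type} (O : Finset ι) (b : ι → Eis → ℂ) (Yq : ι → ℝ) (r₁ : ι → Eis),
      (∀ o ∈ O, Y / 4 ≤ Yq o ∧ Yq o ≤ Y) → (∀ o ∈ O, ∀ n, b o n ≠ 0 → n ∈ S Z) →
      (∀ o ∈ O, G.Adq θ N R (b o)) → (∀ o ∈ O, r₁ o ≠ 0 ∧ (nm (r₁ o) : ℝ) ≤ Z) →
    ∀ Prd : ι → Eis → Eis → Prop, (∀ o ∈ O, PrOK (b o) (Prd o)) →
    ∀ W : Bool → ℝ → ℝ, (∀ jj, Slp a (W jj)) →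
      (∀ jj γ φ x, Adm (N ^ 2) (G.tk θ) γ φ x → ∀ P : ℝ, 0 < P → ∑ o ∈ O, ∑ e ∈ pdiv (r₁ o),
        (nm e : ℝ)⁻¹ * ((nm γ : ℝ) * VIc A (Mode405.bs (b o) e) γ φ 1 (nm e * P / nm x)
          (Cls (PrS (Prd o) e γ) jj)) ≤ W jj P) →
    ∀ W1 : Bool → ℝ, (∀ jj, 0 ≤ W1 jj) → (∀ jj, W jj (c * Il N Lt Y) ≤ W1 jj) →
    ∀ (Tr : ι → Finset ((Eis × Eis) × Eis)), (∀ o ∈ O, ∀ p ∈ Tr o, IsPrim p.1.1 ∧ IsPrim p.1.2 ∧
      (nm p.1.1 : ℝ) * nm p.1.2 ≤ P₁ ∧ p.2 ∈ pdiv (r₁ o)) →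
    ∀ (t : ℝ) (v : ι → (Eis × Eis) × Eis → ℝ), (∀ o p, 0 ≤ v o p) → (∀ o ∈ O, ∀ p ∈ Tr o,
      G.Rl θ lam (Yq o / nm p.2 / nm (p.1.1 * p.1.2 ^ 2)) t
        (Mode405.bs (Mode405.bs (b o) p.2) (p.1.1 * p.1.2 ^ 2)) (v o p)) →
      ∑ o ∈ O, ∑ p ∈ Tr o, (nm p.1.2 : ℝ) * v o p ≤
      C * Z ^ ε * (1 + |t|) ^ J * ∑ jj : Bool,
        (Y * G.nfn θ jj lam (Il N lam Y) * ((lam / Lt) ^ (1 / 3 : ℝ) * W1 jj)) := by
  classical
  obtain ⟨C, c, J, hC, hc, hmain⟩ := block2Gx hP hR a A hA (ε := ε / 4) (by positivity)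
  set δ : ℝ := ε / 8 with hδ
  have hδ0 : 0 < δ := by positivity
  set c4 : ℝ := 2 * (1 + 1 / (δ / 3)) with hc4
  have hc40 : 0 ≤ c4 := by positivity
  refine ⟨c4 ^ 3 * (4 * C), c, J, by positivity, hc, ?_⟩
  intro θ Z N Y Lt lam P₁ hZ hN hNZ hY hYZ hlam hlamL hLZ hLN hP₁ hP3 hOk ι O b Yq r₁ hYq hbS
    hbW hr Prd hPrd W hW hWle W1 hW1 hW1le Tr hTr t v hv0 hv
  have hPZ : P₁ ≤ Z := by
    have h1 : P₁ ≤ P₁ ^ 3 := le_self_pow₀ hP₁ (by norm_num)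
    have h2 : P₁ ^ 3 ≤ lam * P₁ ^ 3 := le_mul_of_one_le_left (by positivity) hlam
    linarith
  have hY0 : 0 < Y := by linarith
  have hZ0 : 0 < Z := by linarith
  have hlam0 : 0 < lam := by linarith
  set I : ℕ := Nat.log 2 ⌊Z⌋₊ with hI
  set lg : (Eis × Eis) × Eis → (ℕ × ℕ) × ℕ := fun p =>
    ((Nat.log 2 (nm p.1.1), Nat.log 2 (nm p.1.2)), Nat.log 2 (nm p.2)) with hlg
  set Rg : Finset ((ℕ × ℕ) × ℕ) :=
    (Finset.range (I + 1) ×ˢ Finset.range (I + 1)) ×ˢ Finset.range (I + 1) with hRg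
  have hmem : ∀ o ∈ O, ∀ p ∈ Tr o, IsPrim p.1.1 ∧ IsPrim p.1.2 ∧
      (nm p.1.1 : ℝ) * nm p.1.2 ≤ P₁ ∧ IsPrim p.2 ∧ (nm p.2 : ℝ) ≤ Z := by
    intro o ho p hp
    obtain ⟨h1, h2, h3, h4⟩ := hTr o ho p hp
    have h5 := (mem_pdiv (hr o ho).1).mp h4
    refine ⟨h1, h2, h3, h5.1, le_trans ?_ (hr o ho).2⟩
    exact_mod_cast Div277.nm_le_of_dvd (hr o ho).1 h5.2
  have hmaps : ∀ o ∈ O, ∀ p ∈ Tr o, lg p ∈ Rg := by
    intro o ho p hp
    obtain ⟨h1, h2, h3, h4, h5⟩ := hmem o ho p hp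
    have n1 := one_le_nm' h1.ne_zero
    have n2 := one_le_nm' h2.ne_zero
    rw [hRg, hlg]
    simp only [Finset.mem_product, Finset.mem_range, Nat.lt_succ_iff]
    refine ⟨⟨?_, ?_⟩, ?_⟩
    · refine Nat.log_mono_right (Nat.le_floor ?_)
      nlinarith
    · refine Nat.log_mono_right (Nat.le_floor ?_)
      nlinarith
    · exact Nat.log_mono_right (Nat.le_floor h5)
  -- step B
  set BS : ℝ := ∑ jj : Bool, (Y * G.nfn θ jj lam (Il N lam Y) * ((lam / Lt) ^ (1 / 3 : ℝ) * W1 jj))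
    with hBS
  set B : ℝ := 2 * (C * Z ^ (ε / 4) * (1 + |t|) ^ J * BS) with hB
  have hIl0 : 0 < Il N lam Y := by unfold Il; positivity
  have hLt0 : 0 < Lt := by linarith
  have hBS0 : 0 ≤ BS := Finset.sum_nonneg fun jj _ => by
    have h1 := G.nonneg θ jj lam _ hlam0.le hIl0
    have h2 := hW1 jj
    positivity
  have hB0 : 0 ≤ B := by rw [hB]; positivity
  have hblock : ∀ ij ∈ Rg, (2 : ℝ) ^ ij.1.2 *
      ∑ o ∈ O, ∑ p ∈ (Tr o).filter (fun p => lg p = ij), v o p ≤ B := by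
    intro ij hij
    set l := ij.2 with hl
    have h2l : (1 : ℝ) ≤ 2 ^ l := one_le_pow₀ (by norm_num)
    have h2l0 : (0 : ℝ) < 2 ^ l := by linarith
    have hlZ : (2 : ℝ) ^ l ≤ Z := by
      rw [hRg] at hij
      simp only [Finset.mem_product, Finset.mem_range, Nat.lt_succ_iff] at hij
      have h1 : 2 ^ l ≤ ⌊Z⌋₊ := by
        refine Nat.pow_le_of_le_log ?_ hij.2
        have := Nat.le_floor (n := 1) (a := Z) (by exact_mod_cast hZ)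
        omega
      exact (by exact_mod_cast h1 : (2 : ℝ) ^ l ≤ (⌊Z⌋₊ : ℝ)).trans (Nat.floor_le hZ0.le)
    set Yl : ℝ := Y / 2 ^ l with hYl
    have hYl0 : 0 < Yl := by positivity
    have hYlY : Yl ≤ Y := div_le_self hY0.le h2l
    have hYlZ : 1 ≤ Yl * Z := by
      rw [hYl, div_mul_eq_mul_div, one_le_div h2l0]
      calc (2 : ℝ) ^ l ≤ Z := hlZ
        _ ≤ Y * Z := le_mul_of_one_le_left hZ0.le hY
    set El : ι → Finset Eis := fun o => (pdiv (r₁ o)).filter (fun e => Nat.log 2 (nm e) = l) with hEl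
    set Ol : Finset (Σ _ : ι, Eis) := O.sigma El with hOl
    have hmemE : ∀ o ∈ O, ∀ e ∈ El o, e ∈ pdiv (r₁ o) ∧ IsPrim e ∧ (2 : ℝ) ^ l ≤ nm e ∧
        (nm e : ℝ) ≤ 2 ^ (l + 1) := by
      intro o ho e he
      rw [hEl, Finset.mem_filter] at he
      have h1 := (mem_pdiv (hr o ho).1).mp he.1
      have n1 : nm e ≠ 0 := by
        have := nmpos h1.1.ne_zero
        exact_mod_cast this.ne'
      refine ⟨he.1, h1.1, ?_, ?_⟩
      · rw [← he.2]; exact_mod_cast Nat.pow_log_le_self 2 n1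
      · rw [← he.2]; exact_mod_cast (Nat.lt_pow_succ_log_self (by norm_num) _).le
    have hmemO : ∀ x ∈ Ol, x.1 ∈ O ∧ x.2 ∈ El x.1 := fun x hx => by
      rw [hOl, Finset.mem_sigma] at hx; exact hx
    set Wl : Bool → ℝ → ℝ := fun jj P => 2 ^ (l + 1) * W jj (P / 2 ^ l) with hWl
    have hbp : ∀ o ∈ O, ∀ n, b o n ≠ 0 → IsPrim n := fun o ho n hn =>
      ((mem_S hZ0.le).1 (hbS o ho n hn)).2.1
    set PrE : (Σ _ : ι, Eis) → Finset (Eis × Eis) := fun x =>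
      (((Tr x.1).filter (fun p => p.2 = x.2)).image Prod.fst).filter
        (fun p => Nat.log 2 (nm p.1) = ij.1.1 ∧ Nat.log 2 (nm p.2) = ij.1.2) with hPrE
    have hmemP : ∀ x p, p ∈ PrE x ↔ ((p, x.2) ∈ Tr x.1 ∧
        Nat.log 2 (nm p.1) = ij.1.1 ∧ Nat.log 2 (nm p.2) = ij.1.2) := by
      intro x p
      rw [hPrE]
      simp only [Finset.mem_filter, Finset.mem_image]
      constructor
      · rintro ⟨⟨q, ⟨h1, h2⟩, h3⟩, h4⟩
        refine ⟨?_, h4⟩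
        have : q = (p, x.2) := Prod.ext h3 h2
        rw [← this]; exact h1
      · rintro ⟨h1, h2⟩
        exact ⟨⟨(p, x.2), ⟨h1, rfl⟩, rfl⟩, h2⟩
    have hres := hmain θ Z N Yl Lt lam P₁ hZ hN hNZ hYl0 hYlZ (hYlY.trans hYZ) hlam hlamL hLZ hLN hP₁
      hP3 hOk Ol (fun x => Mode405.bs (b x.1) x.2) (fun x => Yq x.1 / nm x.2) ?_ ?_ ?_
      (fun x => PrS (Prd x.1) x.2) ?_ Wl
      (fun jj => slp_scale (hW jj) (by positivity) h2l0) ?_ (fun jj => 2 ^ (l + 1) * W1 jj)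
      (fun jj => mul_nonneg (by positivity) (hW1 jj)) ?_
      PrE ij.1.1 ij.1.2 ?_ t (fun x p => v x.1 (p, x.2)) ?_
    · -- conclusion
      have e1 : ∑ x ∈ Ol, ∑ p ∈ PrE x, v x.1 (p, x.2) =
          ∑ o ∈ O, ∑ p ∈ (Tr o).filter (fun p => lg p = ij), v o p := by
        rw [hOl, Finset.sum_sigma]
        refine Finset.sum_congr rfl fun o ho => ?_
        rw [Finset.sum_sigma']
        refine Finset.sum_nbij' (fun x : Σ _ : Eis, Eis × Eis => (x.2, x.1))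
          (fun p => ⟨p.2, p.1⟩) ?_ ?_ ?_ ?_ ?_
        · intro x hx
          rw [Finset.mem_sigma, hmemP, hEl, Finset.mem_filter] at hx
          obtain ⟨⟨-, h1⟩, h2, h3, h4⟩ := hx
          rw [Finset.mem_filter]
          refine ⟨h2, ?_⟩
          rw [hlg]
          beta_reduce
          rw [h3, h4, h1]
        · intro p hp
          rw [Finset.mem_filter] at hp
          obtain ⟨h1, h2⟩ := hp
          have h4 := hTr o ho p h1
          rw [Finset.mem_sigma, hmemP, hEl, Finset.mem_filter]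
          refine ⟨⟨h4.2.2.2, ?_⟩, h1, ?_, ?_⟩
          · rw [hl, ← h2]
          · rw [← h2]
          · rw [← h2]
        · intro x _; rfl
        · intro p _; rfl
        · intro x _; rfl
      rw [e1] at hres
      refine hres.trans ?_
      have hIll : Il N lam Y ≤ Il N lam Yl := by
        unfold Il
        exact div_le_div_of_nonneg_left (by positivity) hYl0 hYlY
      have hterm : ∀ jj : Bool, Yl * G.nfn θ jj lam (Il N lam Yl) *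
          ((lam / Lt) ^ (1 / 3 : ℝ) * (2 ^ (l + 1) * W1 jj)) ≤
          2 * (Y * G.nfn θ jj lam (Il N lam Y) * ((lam / Lt) ^ (1 / 3 : ℝ) * W1 jj)) := by
        intro jj
        have h1 := G.anti θ jj lam _ _ hlam0.le hIl0 hIll
        have h2 := G.nonneg θ jj lam _ hlam0.le (hIl0.trans_le hIll)
        have h3 := hW1 jj
        calc Yl * G.nfn θ jj lam (Il N lam Yl) *
            ((lam / Lt) ^ (1 / 3 : ℝ) * (2 ^ (l + 1) * W1 jj))
            ≤ Yl * G.nfn θ jj lam (Il N lam Y) *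
            ((lam / Lt) ^ (1 / 3 : ℝ) * (2 ^ (l + 1) * W1 jj)) := by gcongr
          _ = 2 * (Y * G.nfn θ jj lam (Il N lam Y) * ((lam / Lt) ^ (1 / 3 : ℝ) * W1 jj)) := by
            rw [hYl, pow_succ]
            field_simp
      calc C * Z ^ (ε / 4) * (1 + |t|) ^ J * ∑ jj : Bool, (Yl * G.nfn θ jj lam (Il N lam Yl) *
            ((lam / Lt) ^ (1 / 3 : ℝ) * (2 ^ (l + 1) * W1 jj)))
          ≤ C * Z ^ (ε / 4) * (1 + |t|) ^ J * ∑ jj : Bool,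
            2 * (Y * G.nfn θ jj lam (Il N lam Y) * ((lam / Lt) ^ (1 / 3 : ℝ) * W1 jj)) :=
            mul_le_mul_of_nonneg_left (Finset.sum_le_sum fun jj _ => hterm jj) (by positivity)
        _ = B := by
            rw [hB, hBS, ← Finset.mul_sum]; ring
    · intro x hx
      obtain ⟨ho, he⟩ := hmemO x hx
      obtain ⟨-, h1, h2, h3⟩ := hmemE _ ho _ he
      have h4 := hYq _ ho
      have h5 : 0 < Yq x.1 := by linarith [h4.1]
      have h6 := nmpos h1.ne_zero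
      constructor
      · rw [hYl, div_div, div_le_div_iff₀ (by positivity) h6]
        have h7 : Y ≤ 4 * Yq x.1 := by linarith [h4.1]
        calc Y * (nm x.2 : ℝ) ≤ (4 * Yq x.1) * 2 ^ (l + 1) :=
              mul_le_mul h7 h3 h6.le (by positivity)
          _ = Yq x.1 * (2 ^ l * 8) := by rw [pow_succ]; ring
      · rw [hYl]
        exact div_le_div₀ hY0.le h4.2 h2l0 h2
    · intro x hx n hn
      exact hbS _ (hmemO x hx).1 n (bs_supp hn)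
    · intro x hx
      exact G.adq θ N R _ _ (hbW _ (hmemO x hx).1) (fun n hn => bs_supp hn)
    · intro x hx
      obtain ⟨ho, he⟩ := hmemO x hx
      obtain ⟨-, h1, -, -⟩ := hmemE _ ho _ he
      exact (hPrd _ ho).bs (hbp _ ho) h1.ne_zero
    · intro jj γ φ x hadm P hP1
      have hP0 : 0 < P := by linarith
      have hx0 : (0 : ℝ) < nm x := nmpos hadm.2.2.2.1
      have hγ0 : (0 : ℝ) ≤ nm γ := Nat.cast_nonneg _
      have h1 := hWle jj γ φ x hadm (P * nm x / 2 ^ l) (by positivity)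
      have h2 : (nm γ : ℝ) * ∑ y ∈ Ol, VIc A (Mode405.bs (b y.1) y.2) γ φ 1 P
          (Cls (PrS (Prd y.1) y.2 γ) jj) ≤
          2 ^ (l + 1) * ∑ o ∈ O, ∑ e ∈ pdiv (r₁ o), (nm e : ℝ)⁻¹ * ((nm γ : ℝ) *
            VIc A (Mode405.bs (b o) e) γ φ 1 (nm e * (P * nm x / 2 ^ l) / nm x)
              (Cls (PrS (Prd o) e γ) jj)) := by
        rw [hOl, Finset.sum_sigma, Finset.mul_sum, Finset.mul_sum]
        refine Finset.sum_le_sum fun o ho => ?_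
        rw [Finset.mul_sum, Finset.mul_sum]
        have h3 : ∀ e ∈ El o, (nm γ : ℝ) * VIc A (Mode405.bs (b o) e) γ φ 1 P
            (Cls (PrS (Prd o) e γ) jj) ≤
            2 ^ (l + 1) * ((nm e : ℝ)⁻¹ * ((nm γ : ℝ) *
              VIc A (Mode405.bs (b o) e) γ φ 1 (nm e * (P * nm x / 2 ^ l) / nm x)
                (Cls (PrS (Prd o) e γ) jj))) := by
          intro e he
          obtain ⟨-, h5, h6, h7⟩ := hmemE _ ho _ he
          have h8 := nmpos h5.ne_zero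
          have h9 : P ≤ nm e * (P * nm x / 2 ^ l) / nm x := by
            have e1 : nm e * (P * nm x / 2 ^ l) / nm x = nm e * P / 2 ^ l := by
              field_simp
            rw [e1, le_div_iff₀ h2l0]
            nlinarith
          have h10 : VIc A (Mode405.bs (b o) e) γ φ 1 P (Cls (PrS (Prd o) e γ) jj) ≤
              VIc A (Mode405.bs (b o) e) γ φ 1 (nm e * (P * nm x / 2 ^ l) / nm x)
                (Cls (PrS (Prd o) e γ) jj) := VIc_mono A _ _ _ _ hP0.le h9 _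
          have h11 : 1 ≤ (2 : ℝ) ^ (l + 1) * (nm e : ℝ)⁻¹ := by
            rw [← div_eq_mul_inv, one_le_div h8]; exact h7
          have h12 := VIc_nonneg A (Mode405.bs (b o) e) γ φ 1
            (nm e * (P * nm x / 2 ^ l) / nm x) (Cls (PrS (Prd o) e γ) jj)
          calc _ ≤ (nm γ : ℝ) * VIc A (Mode405.bs (b o) e) γ φ 1
                (nm e * (P * nm x / 2 ^ l) / nm x) (Cls (PrS (Prd o) e γ) jj) :=
                mul_le_mul_of_nonneg_left h10 hγ0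
            _ ≤ (2 ^ (l + 1) * (nm e : ℝ)⁻¹) * ((nm γ : ℝ) * VIc A (Mode405.bs (b o) e) γ φ 1
                (nm e * (P * nm x / 2 ^ l) / nm x) (Cls (PrS (Prd o) e γ) jj)) :=
              le_mul_of_one_le_left (by positivity) h11
            _ = _ := by ring
        refine (Finset.sum_le_sum h3).trans ?_
        refine Finset.sum_le_sum_of_subset_of_nonneg (Finset.filter_subset _ _) fun e _ _ => ?_
        have := VIc_nonneg A (Mode405.bs (b o) e) γ φ 1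
            (nm e * (P * nm x / 2 ^ l) / nm x) (Cls (PrS (Prd o) e γ) jj)
        positivity
      refine h2.trans ((mul_le_mul_of_nonneg_left h1 (by positivity)).trans (le_of_eq ?_))
      rw [hWl]
    · intro jj
      have e1 : c * Il N Lt Yl / 2 ^ l = c * Il N Lt Y := by
        unfold Il; rw [hYl]; field_simp
      rw [hWl]
      beta_reduce
      rw [e1]
      exact mul_le_mul_of_nonneg_left (hW1le jj) (by positivity)
    · intro x hx p hp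
      obtain ⟨ho, he⟩ := hmemO x hx
      rw [hmemP] at hp
      obtain ⟨h1, h2, h3, -, -⟩ := hmem _ ho (p, x.2) hp.1
      have n1 : nm p.1 ≠ 0 := by
        have := nmpos h1.ne_zero
        exact_mod_cast this.ne'
      have n2 : nm p.2 ≠ 0 := by
        have := nmpos h2.ne_zero
        exact_mod_cast this.ne'
      refine ⟨h1, h2, ⟨?_, ?_⟩, ⟨?_, ?_⟩, h3⟩
      · rw [← hp.2.1]; exact_mod_cast Nat.pow_log_le_self 2 n1
      · rw [← hp.2.1]; exact_mod_cast (Nat.lt_pow_succ_log_self (by norm_num) _).le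
      · rw [← hp.2.2]; exact_mod_cast Nat.pow_log_le_self 2 n2
      · rw [← hp.2.2]; exact_mod_cast (Nat.lt_pow_succ_log_self (by norm_num) _).le
    · intro x hx p hp
      have h1 := (hmemP x p).mp hp
      have h2 := (hmemO x hx).1
      exact hv x.1 h2 (p, x.2) h1.1
  have hstep : ∑ o ∈ O, ∑ p ∈ Tr o, (nm p.1.2 : ℝ) * v o p ≤ ∑ ij ∈ Rg, 2 * B := by
    have h1 : ∀ o ∈ O, ∑ p ∈ Tr o, (nm p.1.2 : ℝ) * v o p =
        ∑ ij ∈ Rg, ∑ p ∈ (Tr o).filter (fun p => lg p = ij), (nm p.1.2 : ℝ) * v o p := by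
      intro o ho
      rw [← Finset.sum_fiberwise_of_maps_to (hmaps o ho)]
    rw [Finset.sum_congr rfl h1, Finset.sum_comm]
    refine Finset.sum_le_sum fun ij hij => ?_
    have h2 : ∀ o ∈ O, ∑ p ∈ (Tr o).filter (fun p => lg p = ij), (nm p.1.2 : ℝ) * v o p ≤
        (2 * 2 ^ ij.1.2) * ∑ p ∈ (Tr o).filter (fun p => lg p = ij), v o p := by
      intro o ho
      rw [Finset.mul_sum]
      refine Finset.sum_le_sum fun p hp => ?_
      rw [Finset.mem_filter] at hp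
      have e2 : Nat.log 2 (nm p.1.2) = ij.1.2 := (Prod.mk.inj (Prod.mk.inj hp.2).1).2
      refine mul_le_mul_of_nonneg_right ?_ (hv0 _ _)
      have h3 : (nm p.1.2 : ℝ) ≤ 2 ^ (ij.1.2 + 1) := by
        rw [← e2]; exact_mod_cast (Nat.lt_pow_succ_log_self (by norm_num) _).le
      calc (nm p.1.2 : ℝ) ≤ 2 ^ (ij.1.2 + 1) := h3
        _ = 2 * 2 ^ ij.1.2 := by rw [pow_succ]; ring
    calc _ ≤ ∑ o ∈ O, (2 * 2 ^ ij.1.2) * ∑ p ∈ (Tr o).filter (fun p => lg p = ij), v o p :=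
          Finset.sum_le_sum h2
      _ = 2 * ((2 : ℝ) ^ ij.1.2 * ∑ o ∈ O, ∑ p ∈ (Tr o).filter (fun p => lg p = ij), v o p) := by
          rw [← Finset.mul_sum]; ring
      _ ≤ 2 * B := by have := hblock ij hij; linarith
  have hcard : ((Rg.card : ℕ) : ℝ) ≤ c4 ^ 3 * Z ^ δ := by
    have h1 : ((I : ℕ) : ℝ) + 1 ≤ c4 * Z ^ (δ / 3) := by
      have := natlog_le (n := ⌊Z⌋₊) hZ (δ := δ / 3) (by positivity) (Nat.floor_le hZ0.le)
      rw [hI, hc4]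
      linarith
    rw [hRg, Finset.card_product, Finset.card_product, Finset.card_range]
    push_cast
    have h0 : (0 : ℝ) ≤ (I : ℝ) + 1 := by positivity
    calc ((I : ℝ) + 1) * ((I : ℝ) + 1) * ((I : ℝ) + 1) = ((I : ℝ) + 1) ^ 3 := by ring
      _ ≤ (c4 * Z ^ (δ / 3)) ^ 3 := pow_le_pow_left₀ h0 h1 3
      _ = c4 ^ 3 * Z ^ δ := by
          rw [mul_pow, ← Real.rpow_natCast (Z ^ (δ / 3)) 3, ← Real.rpow_mul hZ0.le]
          congr 2
          push_cast; ring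
  calc ∑ o ∈ O, ∑ p ∈ Tr o, (nm p.1.2 : ℝ) * v o p
      ≤ ∑ ij ∈ Rg, 2 * B := hstep
    _ = Rg.card * (2 * B) := by rw [Finset.sum_const, nsmul_eq_mul]
    _ ≤ (c4 ^ 3 * Z ^ δ) * (2 * B) := by gcongr
    _ = c4 ^ 3 * (4 * C) * (Z ^ δ * Z ^ (ε / 4)) * (1 + |t|) ^ J * BS := by
        rw [hB]; ring
    _ ≤ c4 ^ 3 * (4 * C) * Z ^ ε * (1 + |t|) ^ J * BS := by
        have h1 : Z ^ δ * Z ^ (ε / 4) ≤ Z ^ ε := by
          rw [← Real.rpow_add hZ0]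
          refine Real.rpow_le_rpow_of_exponent_le hZ ?_
          rw [hδ]; linarith
        gcongr

end Crest.Agent.R017.MX744
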