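import Crest.Agent.R017.MDxb_744

/-!
# Row 17, T.7 (class E), E3: second form, part c (helper744)

* `strDx_le`, `strDx_int` : helper405's `strD_le`, `strD_int` in two classes
-/

set_option autoImplicit false

noncomputable section

open Complex MeasureTheory
open scoped ComplexConjugate Classical

namespace Crest.Agent.R017.MX744

open Crest.Agent.R012 Crest.Agent.R012.Eis Crest.Agent.R012.MC
open Crest.Agent.R012.LS2 (S mem_S bl mem_bl)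
open Crest.Agent.R012.LS448 (one_le_nm')
open Crest.Agent.R012.NonCube52 (Ker kv Good)
open Crest.Agent.R012.Mob705 (mu pdiv mem_pdiv abs_mu_le_one)
open Crest.Agent.R012.Weight600 (pw osc norm_pw)
open Crest.Agent.R017.CM106 (CS TG FS)
open Crest.Agent.R017.BD829 (TT EQ Win EQ_nonneg)
open Crest.Agent.R017.E1551 (jb jb_pos nmpos integrable_jb)
open Crest.Agent.R017.DgB829 (HS HS_le HS_nonneg)
open Crest.Agent.R017.E3D579 (bt bt_supp CS_bt)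
open Crest.Agent.R017.Mode405
open Crest.Agent.R017.PoHx72

set_option maxHeartbeats 2000000 in
/-- **the structured half of a family of dilations**, two classes -/
theorem strDx_le {χ : Eis → ℂ} (hχ : Mul1 χ) {v : ℝ → ℝ} (hP : PoHGx (GDx χ v)) {cw : ℝ}
    (hcw : 1 ≤ cw) (hw : ∀ x, v x ≠ 0 → x ≤ cw) {R : ℝ} (hR : 0 ≤ R) (a A : ℕ) (hA : 1 < A)
    {ε : ℝ} (hε : 0 < ε) :
    ∃ (C c : ℝ) (J : ℕ), 0 ≤ C ∧ 1 ≤ c ∧ ∀ Z N Δ Y Lt lm : ℝ, 1 ≤ Z → 0 < N → 1 ≤ Δ →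
      N * Δ ≤ Z → Δ ≤ Z → 1 ≤ Y → Y ≤ Z → 1 ≤ lm → lm ≤ Lt → Lt ≤ Z → Lt * Real.exp (R + 3) < N * Δ →
    ∀ (b : Eis → ℂ) (r : Eis), (∀ n, b n ≠ 0 → n ∈ S Z) → Win b (Real.log N) R → r ≠ 0 →
      (nm r : ℝ) ≤ Z →
    ∀ Prd : Eis → Eis → Prop, PrOK b Prd →
    ∀ W : Bool → ℝ → ℝ, (∀ jj, Slp a (W jj)) →
      (∀ jj γ φ x, Adm ((N * Δ) ^ 2) 1 γ φ x → ∀ P : ℝ, 0 < P → ∑ e ∈ pdiv r,
        (nm e : ℝ)⁻¹ * ((nm γ : ℝ) * VIc A (Mode405.bs b e) γ φ 1 (nm e * P / nm x)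
          (Cls (PrS Prd e γ) jj)) ≤ W jj P) →
    ∀ W1 : Bool → ℝ, (∀ jj, 0 ≤ W1 jj) → (∀ jj, W jj (c * Il (N * Δ) Lt Y) ≤ W1 jj) →
    ∀ (𝒟 : Finset Eis) (Yd : Eis → ℝ) (ρ : Eis → Eis) (g P₁ : Eis → ℝ) (𝒦 : Eis → Finset Ker),
      (∀ D ∈ 𝒟, IsPrim D ∧ Squarefree D ∧ Δ / 4 < nm D ∧ (nm D : ℝ) ≤ Δ ∧ Y / 4 ≤ Yd D ∧
        Yd D ≤ Y) →
      (∀ D ∈ 𝒟, ρ D ≠ 0 ∧ 0 ≤ g D ∧ g D * ((pdiv (ρ D)).card : ℝ) ≤ 1 ∧
        P₁ D ≤ (Lt / lm) ^ (1 / 3 : ℝ) ∧ 𝒦 D ⊆ KSa lm D) →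
    ∀ t : ℝ, ∑ D ∈ 𝒟, g D * ∑ κ ∈ 𝒦 D,
        ‖StrQ χ v (Yd D) t (bt D b) κ (ρ D) (D * r) (cw * Yd D) (P₁ D)‖ ^ 2 ≤
      C * Z ^ ε * (1 + |t|) ^ J * ∑ jj : Bool,
        (Y * nfDx Δ (𝒟.card : ℝ) jj lm (Il (N * Δ) lm Y) * ((lm / Lt) ^ (1 / 3 : ℝ) * W1 jj)) := by
  obtain ⟨C, c, J, hC, hc, hmain⟩ := strGx_le hP hR a A hA (ε := ε / 4) (by positivity)
  obtain ⟨Ct, hCt, htau⟩ := Div277.tau_le_rpow (ε := ε / 4) (by positivity)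
  set δ : ℝ := ε / 4 with hδ
  have hδ0 : 0 < δ := by positivity
  set c3 : ℝ := 200 * (1 + Real.log cw) * (1 + 1 / δ) with hc3
  have hlcw : 0 ≤ Real.log cw := Real.log_nonneg hcw
  have hc30 : 0 ≤ c3 := by positivity
  refine ⟨c3 * Ct * C, c, J, by positivity, hc, ?_⟩
  intro Z N Δ Y Lt lm hZ hN hΔ hNZ hΔZ hY hYZ hlm hlmL hLZ hLN b r hbS hbW hr hrZ Prd hPrd W hW
    hWle W1 hW1 hW1le 𝒟 Yd ρ g P₁ 𝒦 h𝒟 hρ t
  have hZ0 : 0 < Z := by linarith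
  have hY0 : 0 < Y := by linarith
  have hlm0 : 0 < lm := by linarith
  have hLt0 : 0 < Lt := by linarith
  have hΔ0 : 0 < Δ := by linarith
  have hcw0 : 0 < cw := by linarith
  have hND : 0 < N * Δ := by positivity
  have hFS : FS b := FS_of_S hZ0.le hbS
  set P : ℝ := (Lt / lm) ^ (1 / 3 : ℝ) with hPd
  have hLl : 1 ≤ Lt / lm := (one_le_div hlm0).mpr hlmL
  have hP1 : 1 ≤ P := Real.one_le_rpow hLl (by norm_num)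
  have hP3 : lm * P ^ 3 = Lt := by
    rw [hPd, ← Real.rpow_natCast, ← Real.rpow_mul (by positivity)]
    norm_num
    field_simp
  have hYd0 : ∀ D ∈ 𝒟, 0 < Yd D := fun D hD => by
    have := (h𝒟 D hD).2.2.2.2.1
    linarith
  set Tr : Eis → Finset ((Eis × Eis) × Eis) := fun D =>
    ((pdiv (ρ D) ×ˢ S (cw * Yd D)).filter (fun p => (nm p.1 : ℝ) * nm p.2 ≤ P₁ D)) ×ˢ pdiv r
    with hTr
  set f : Eis → (Eis × Eis) × Eis → Ker → ℝ := fun D p κ =>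
    ‖XS χ v (Yd D / nm p.2 / nm (p.1.1 * p.1.2 ^ 2)) t
      (bt D (Mode405.bs (Mode405.bs b p.2) (p.1.1 * p.1.2 ^ 2))) κ‖ ^ 2 with hf
  have hf0 : ∀ D p κ, 0 ≤ f D p κ := fun D p κ => by rw [hf]; positivity
  have hmem : ∀ D ∈ 𝒟, ∀ p ∈ Tr D, IsPrim p.1.1 ∧ IsPrim p.1.2 ∧
      (nm p.1.1 : ℝ) * nm p.1.2 ≤ P ∧ p.2 ∈ pdiv r := by
    intro D hD p hp
    rw [hTr] at hp
    simp only [Finset.mem_filter, Finset.mem_product] at hp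
    have h1 := (mem_pdiv (hρ D hD).1).mp hp.1.1.1
    have h2 := (mem_S (by have := hYd0 D hD; positivity)).1 hp.1.1.2
    exact ⟨h1.1, h2.2.1, hp.1.2.trans (hρ D hD).2.2.2.1, hp.2⟩
  -- one member
  have hA1 : ∀ D ∈ 𝒟, g D * ∑ κ ∈ 𝒦 D,
        ‖StrQ χ v (Yd D) t (bt D b) κ (ρ D) (D * r) (cw * Yd D) (P₁ D)‖ ^ 2 ≤
      (c3 * Z ^ δ) * (Ct * Z ^ (ε / 4)) *
        ∑ p ∈ Tr D, (nm p.1.2 : ℝ) * ∑ κ ∈ KSa lm D, f D p κ := by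
    intro D hD
    obtain ⟨hp, -, -, -, hy1, hy2⟩ := h𝒟 D hD
    obtain ⟨hρ0, hg0, hg1, -, hK⟩ := hρ D hD
    have hYq0 := hYd0 D hD
    have hw' : ∀ x, v (x / Yd D) ≠ 0 → x ≤ cw * Yd D := by
      intro x hx
      have h1 := hw _ hx
      rwa [div_le_iff₀ hYq0] at h1
    have h1 : ∀ κ ∈ 𝒦 D, ‖StrQ χ v (Yd D) t (bt D b) κ (ρ D) (D * r) (cw * Yd D) (P₁ D)‖ ^ 2 ≤
        ((pdiv (ρ D)).card : ℝ) * HS (cw * Yd D) * (pdiv r).card *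
          ∑ p ∈ Tr D, (nm p.1.2 : ℝ) * f D p κ := by
      intro κ _
      refine (norm_StrQ_D_le hχ (t := t) hYq0 hFS hp κ hρ0 hr (by positivity) hw' (P₁ D)).trans
        (le_of_eq ?_)
      congr 1
      rw [hTr, hf]
      beta_reduce
      rw [Finset.sum_product, Finset.sum_filter, Finset.sum_product]
      refine Finset.sum_congr rfl fun d _ => Finset.sum_congr rfl fun q _ => ?_
      split_ifs
      · rw [Finset.mul_sum]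
      · rfl
    have hHS0 := HS_nonneg (cw * Yd D)
    have h2 : HS (cw * Yd D) ≤ c3 * Z ^ δ := by
      refine (HS_mono (by positivity) (mul_le_mul_of_nonneg_left hy2 hcw0.le)).trans ?_
      exact HS_rpow (one_le_mul_of_one_le_of_one_le hcw hY)
        (mul_le_mul_of_nonneg_left hYZ hcw0.le) hZ hcw hδ0
    have h3 : ((pdiv r).card : ℝ) ≤ Ct * Z ^ (ε / 4) := by
      refine (htau _ hr).trans (mul_le_mul_of_nonneg_left ?_ (by linarith))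
      exact Real.rpow_le_rpow (Nat.cast_nonneg _) hrZ (by positivity)
    have h4 : 0 ≤ ∑ p ∈ Tr D, (nm p.1.2 : ℝ) * ∑ κ ∈ KSa lm D, f D p κ :=
      Finset.sum_nonneg fun p _ => mul_nonneg (Nat.cast_nonneg _)
        (Finset.sum_nonneg fun _ _ => hf0 _ _ _)
    calc g D * ∑ κ ∈ 𝒦 D,
          ‖StrQ χ v (Yd D) t (bt D b) κ (ρ D) (D * r) (cw * Yd D) (P₁ D)‖ ^ 2
        ≤ g D * ∑ κ ∈ 𝒦 D, ((pdiv (ρ D)).card : ℝ) * HS (cw * Yd D) * (pdiv r).card *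
          ∑ p ∈ Tr D, (nm p.1.2 : ℝ) * f D p κ :=
          mul_le_mul_of_nonneg_left (Finset.sum_le_sum h1) hg0
      _ ≤ g D * ∑ κ ∈ KSa lm D, ((pdiv (ρ D)).card : ℝ) * HS (cw * Yd D) * (pdiv r).card *
          ∑ p ∈ Tr D, (nm p.1.2 : ℝ) * f D p κ := by
          refine mul_le_mul_of_nonneg_left ?_ hg0
          refine Finset.sum_le_sum_of_subset_of_nonneg hK fun κ _ _ => ?_
          have : 0 ≤ ∑ p ∈ Tr D, (nm p.1.2 : ℝ) * f D p κ :=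
            Finset.sum_nonneg fun p _ => mul_nonneg (Nat.cast_nonneg _) (hf0 _ _ _)
          positivity
      _ = (g D * ((pdiv (ρ D)).card : ℝ)) * (HS (cw * Yd D) * (pdiv r).card *
          ∑ p ∈ Tr D, (nm p.1.2 : ℝ) * ∑ κ ∈ KSa lm D, f D p κ) := by
          rw [← Finset.mul_sum, Finset.sum_comm]
          simp_rw [← Finset.mul_sum]
          ring
      _ ≤ 1 * (HS (cw * Yd D) * (pdiv r).card *
          ∑ p ∈ Tr D, (nm p.1.2 : ℝ) * ∑ κ ∈ KSa lm D, f D p κ) :=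
          mul_le_mul_of_nonneg_right hg1 (by positivity)
      _ = HS (cw * Yd D) * (pdiv r).card *
          ∑ p ∈ Tr D, (nm p.1.2 : ℝ) * ∑ κ ∈ KSa lm D, f D p κ := one_mul _
      _ ≤ (c3 * Z ^ δ) * (Ct * Z ^ (ε / 4)) *
          ∑ p ∈ Tr D, (nm p.1.2 : ℝ) * ∑ κ ∈ KSa lm D, f D p κ := by gcongr
  -- all members
  set TT' : Finset ((Eis × Eis) × Eis) := 𝒟.biUnion Tr with hTT
  have hswap : ∑ D ∈ 𝒟, ∑ p ∈ Tr D, (nm p.1.2 : ℝ) * ∑ κ ∈ KSa lm D, f D p κ =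
      ∑ p ∈ TT', (nm p.1.2 : ℝ) * ∑ D ∈ 𝒟.filter (fun D => p ∈ Tr D), ∑ κ ∈ KSa lm D, f D p κ := by
    have e1 : ∀ D ∈ 𝒟, ∑ p ∈ Tr D, (nm p.1.2 : ℝ) * ∑ κ ∈ KSa lm D, f D p κ =
        ∑ p ∈ TT', if p ∈ Tr D then (nm p.1.2 : ℝ) * ∑ κ ∈ KSa lm D, f D p κ else 0 := by
      intro D hD
      rw [← Finset.sum_filter]
      refine Finset.sum_congr ?_ fun _ _ => rfl
      ext p
      rw [Finset.mem_filter, hTT, Finset.mem_biUnion]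
      exact ⟨fun h => ⟨⟨D, hD, h⟩, h⟩, fun h => h.2⟩
    rw [Finset.sum_congr rfl e1, Finset.sum_comm]
    refine Finset.sum_congr rfl fun p _ => ?_
    rw [← Finset.sum_filter, Finset.mul_sum]
  have hsub : ∀ D ∈ 𝒟, ∀ s, 0 < s → Yd D / s ≤ Y / s := fun D hD s hs =>
    div_le_div_of_nonneg_right (h𝒟 D hD).2.2.2.2.2 hs.le
  have key := hmain ⟨Δ, hΔ, 𝒟⟩ Z (N * Δ) Y Lt lm P hZ hND hNZ hY hYZ hlm hlmL hLZ hLN hP1 hP3.le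
    hΔZ ({()} : Finset Unit) (fun _ => b) (fun _ => Y) (fun _ => r)
    (fun _ _ => ⟨by linarith, le_rfl⟩) (fun _ _ => hbS)
    (fun _ _ => by
      show Win b (Real.log (N * Δ / Δ)) R
      rw [mul_div_cancel_right₀ _ hΔ0.ne']
      exact hbW)
    (fun _ _ => ⟨hr, hrZ⟩) (fun _ => Prd) (fun _ _ => hPrd) W hW
    (fun jj γ φ x hadm Q hQ => by
      rw [Finset.sum_singleton]
      exact hWle jj γ φ x hadm Q hQ)
    W1 hW1 hW1le (fun _ => TT')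
    (fun _ _ p hp => by
      rw [hTT, Finset.mem_biUnion] at hp
      obtain ⟨D, hD, hp⟩ := hp
      exact hmem D hD p hp)
    t (fun _ p => ∑ D ∈ 𝒟.filter (fun D => p ∈ Tr D), ∑ κ ∈ KSa lm D, f D p κ)
    (fun _ p => Finset.sum_nonneg fun D _ => Finset.sum_nonneg fun κ _ => hf0 _ _ _)
    (fun _ _ p hp => by
      refine ⟨𝒟.filter (fun D => p ∈ Tr D),
        fun D => Yd D / nm p.2 / nm (p.1.1 * p.1.2 ^ 2), Finset.filter_subset _ _,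
        fun D hD => ?_, rfl⟩
      rw [Finset.mem_filter] at hD
      obtain ⟨h1, h2, h3, h4, h5, h6⟩ := h𝒟 D hD.1
      obtain ⟨g1, g2, -, g3⟩ := hmem D hD.1 p hD.2
      have g4 := ((mem_pdiv hr).mp g3).1
      have n1 := nmpos g4.ne_zero
      have n2 := nmpos (g1.mul (g2.pow 2)).ne_zero
      refine ⟨h1, h2, h3, h4, ?_, ?_⟩
      · show Y / nm p.2 / nm (p.1.1 * p.1.2 ^ 2) / 4 ≤ Yd D / nm p.2 / nm (p.1.1 * p.1.2 ^ 2)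
        have e2 : Y / nm p.2 / nm (p.1.1 * p.1.2 ^ 2) / 4 =
            Y / 4 / nm p.2 / nm (p.1.1 * p.1.2 ^ 2) := by ring
        rw [e2]
        exact div_le_div_of_nonneg_right (div_le_div_of_nonneg_right h5 n1.le) n2.le
      · exact div_le_div_of_nonneg_right (div_le_div_of_nonneg_right h6 n1.le) n2.le)
  simp only [Finset.sum_singleton] at key
  set BS : ℝ := ∑ jj : Bool, (Y * nfDx Δ (𝒟.card : ℝ) jj lm (Il (N * Δ) lm Y) *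
    ((lm / Lt) ^ (1 / 3 : ℝ) * W1 jj)) with hBS
  have hBS0 : 0 ≤ BS := Finset.sum_nonneg fun jj _ => by
    have hIl0 : 0 < Il (N * Δ) lm Y := by unfold Il; positivity
    have h1 := nfDx_nonneg hΔ0.le (Nat.cast_nonneg 𝒟.card) jj hlm0.le hIl0
    have h2 := hW1 jj
    have h3 : 0 ≤ (lm / Lt) ^ (1 / 3 : ℝ) := by positivity
    exact mul_nonneg (mul_nonneg hY0.le h1) (mul_nonneg h3 h2)
  calc ∑ D ∈ 𝒟, g D * ∑ κ ∈ 𝒦 D,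
        ‖StrQ χ v (Yd D) t (bt D b) κ (ρ D) (D * r) (cw * Yd D) (P₁ D)‖ ^ 2
      ≤ ∑ D ∈ 𝒟, (c3 * Z ^ δ) * (Ct * Z ^ (ε / 4)) *
        ∑ p ∈ Tr D, (nm p.1.2 : ℝ) * ∑ κ ∈ KSa lm D, f D p κ := Finset.sum_le_sum hA1
    _ = (c3 * Z ^ δ) * (Ct * Z ^ (ε / 4)) *
        ∑ D ∈ 𝒟, ∑ p ∈ Tr D, (nm p.1.2 : ℝ) * ∑ κ ∈ KSa lm D, f D p κ := by
        rw [← Finset.mul_sum]
    _ ≤ (c3 * Z ^ δ) * (Ct * Z ^ (ε / 4)) *
        (C * Z ^ (ε / 4) * (1 + |t|) ^ J * BS) := by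
        rw [hswap]
        exact mul_le_mul_of_nonneg_left key (by positivity)
    _ = c3 * Ct * C * (Z ^ δ * Z ^ (ε / 4) * Z ^ (ε / 4)) * (1 + |t|) ^ J * BS := by ring
    _ ≤ c3 * Ct * C * Z ^ ε * (1 + |t|) ^ J * BS := by
        have h1 : Z ^ δ * Z ^ (ε / 4) * Z ^ (ε / 4) ≤ Z ^ ε := by
          rw [← Real.rpow_add hZ0, ← Real.rpow_add hZ0]
          refine Real.rpow_le_rpow_of_exponent_le hZ ?_
          rw [hδ]; linarith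
        gcongr

set_option maxHeartbeats 1000000 in
/-- the structured half of a family of dilations, integral form, two classes -/
theorem strDx_int {χ : Eis → ℂ} (hχ : Mul1 χ) {v : ℝ → ℝ} (hP : PoHGx (GDx χ v)) {cw : ℝ}
    (hcw : 1 ≤ cw) (hw : ∀ x, v x ≠ 0 → x ≤ cw) {R : ℝ} (hR : 0 ≤ R) (a A : ℕ) (hA : 1 < A)
    {ε : ℝ} (hε : 0 < ε) :
    ∃ (C c : ℝ) (A₀ : ℕ), 0 ≤ C ∧ 1 ≤ c ∧ ∀ A' : ℝ, (A₀ : ℝ) ≤ A' →
    ∀ Z N Δ Y Lt lm : ℝ, 1 ≤ Z → 0 < N → 1 ≤ Δ →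
      N * Δ ≤ Z → Δ ≤ Z → 1 ≤ Y → Y ≤ Z → 1 ≤ lm → lm ≤ Lt → Lt ≤ Z → Lt * Real.exp (R + 3) < N * Δ →
    ∀ (b : Eis → ℂ) (r : Eis), (∀ n, b n ≠ 0 → n ∈ S Z) → Win b (Real.log N) R → r ≠ 0 →
      (nm r : ℝ) ≤ Z →
    ∀ Prd : Eis → Eis → Prop, PrOK b Prd →
    ∀ W : Bool → ℝ → ℝ, (∀ jj, Slp a (W jj)) →
      (∀ jj γ φ x, Adm ((N * Δ) ^ 2) 1 γ φ x → ∀ P : ℝ, 0 < P → ∑ e ∈ pdiv r,
        (nm e : ℝ)⁻¹ * ((nm γ : ℝ) * VIc A (Mode405.bs b e) γ φ 1 (nm e * P / nm x)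
          (Cls (PrS Prd e γ) jj)) ≤ W jj P) →
    ∀ W1 : Bool → ℝ, (∀ jj, 0 ≤ W1 jj) → (∀ jj, W jj (c * Il (N * Δ) Lt Y) ≤ W1 jj) →
    ∀ (𝒟 : Finset Eis) (Yd : Eis → ℝ) (ρ : Eis → Eis) (g P₁ : Eis → ℝ) (𝒦 : Eis → Finset Ker),
      (∀ D ∈ 𝒟, IsPrim D ∧ Squarefree D ∧ Δ / 4 < nm D ∧ (nm D : ℝ) ≤ Δ ∧ Y / 4 ≤ Yd D ∧
        Yd D ≤ Y) →
      (∀ D ∈ 𝒟, ρ D ≠ 0 ∧ 0 ≤ g D ∧ g D * ((pdiv (ρ D)).card : ℝ) ≤ 1 ∧
        P₁ D ≤ (Lt / lm) ^ (1 / 3 : ℝ) ∧ 𝒦 D ⊆ KSa lm D) →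
    ∑ D ∈ 𝒟, g D * ∫ t, jb A' t * ∑ κ ∈ 𝒦 D,
        ‖StrQ χ v (Yd D) t (bt D b) κ (ρ D) (D * r) (cw * Yd D) (P₁ D)‖ ^ 2 ≤
      (lm / Lt) ^ (1 / 3 : ℝ) * (Y * (C * Z ^ ε *
        ∑ jj : Bool, nfDx Δ (𝒟.card : ℝ) jj Lt (Il (N * Δ) Lt Y) * W1 jj)) := by
  obtain ⟨C, c, J, hC, hc, h⟩ := strDx_le hχ hP hcw hw hR a A hA hε
  set KJ : ℝ := ∫ t, jb 2 t with hKJ
  have hKJ0 : 0 ≤ KJ := integral_nonneg fun t => (jb_pos 2 t).le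
  refine ⟨KJ * C, c, J + 2, by positivity, hc, ?_⟩
  intro A' hA' Z N Δ Y Lt lm hZ hN hΔ hNZ hΔZ hY hYZ hlm hlmL hLZ hLN b r hbS hbW hr hrZ Prd hPrd W hW
    hWle W1 hW1 hW1le 𝒟 Yd ρ g P₁ 𝒦 h𝒟 hρ
  have hZ0 : 0 < Z := by linarith
  have hY0 : 0 < Y := by linarith
  have hlm0 : 0 < lm := by linarith
  have hLt0 : 0 < Lt := by linarith
  have hcw0 : 0 < cw := by linarith
  have hND : 0 < N * Δ := by positivity
  have hA'2 : (2 : ℝ) + J ≤ A' := by push_cast at hA'; linarith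
  have hA'1 : 1 < A' := by
    have : (0 : ℝ) ≤ J := Nat.cast_nonneg J
    linarith
  have hIl0 : 0 < Il (N * Δ) lm Y := by unfold Il; positivity
  have hΔ0 : 0 ≤ Δ := by linarith
  have hcd0 : (0 : ℝ) ≤ (𝒟.card : ℝ) := Nat.cast_nonneg _
  set md : ℝ := (𝒟.card : ℝ) with hmd
  have hnfL0 : ∀ jj, 0 ≤ nfDx Δ md jj lm (Il (N * Δ) lm Y) := fun jj =>
    nfDx_nonneg hΔ0 hcd0 jj hlm0.le hIl0
  have hnfLT : ∀ jj, nfDx Δ md jj lm (Il (N * Δ) lm Y) ≤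
      nfDx Δ md jj Lt (Il (N * Δ) Lt Y) := by
    intro jj
    have h1 := nfDx_mono hΔ0 hcd0 jj hlm0 hlmL (u := N * Δ / Y) (by positivity)
    have e1 : N * Δ / Y * lm = Il (N * Δ) lm Y := by unfold Il; ring
    have e2 : N * Δ / Y * Lt = Il (N * Δ) Lt Y := by unfold Il; ring
    rwa [e1, e2] at h1
  have hYd0 : ∀ D ∈ 𝒟, 0 < Yd D := fun D hD => by
    have := (h𝒟 D hD).2.2.2.2.1
    linarith
  have hw' : ∀ D ∈ 𝒟, ∀ x, v (x / Yd D) ≠ 0 → x ≤ cw * Yd D := by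
    intro D hD x hx
    have h1 := hw _ hx
    rwa [div_le_iff₀ (hYd0 D hD)] at h1
  have hint : ∀ D ∈ 𝒟, Integrable fun t => g D * (jb A' t * ∑ κ ∈ 𝒦 D,
        ‖StrQ χ v (Yd D) t (bt D b) κ (ρ D) (D * r) (cw * Yd D) (P₁ D)‖ ^ 2) := fun D hD =>
    (integrable_StrQ hA'1 (hρ D hD).1 (by have := hYd0 D hD; positivity) (hw' D hD) _ _).const_mul _
  have e0 : ∑ D ∈ 𝒟, g D * ∫ t, jb A' t * ∑ κ ∈ 𝒦 D,
        ‖StrQ χ v (Yd D) t (bt D b) κ (ρ D) (D * r) (cw * Yd D) (P₁ D)‖ ^ 2 =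
      ∫ t, ∑ D ∈ 𝒟, g D * (jb A' t * ∑ κ ∈ 𝒦 D,
        ‖StrQ χ v (Yd D) t (bt D b) κ (ρ D) (D * r) (cw * Yd D) (P₁ D)‖ ^ 2) := by
    rw [integral_finsetSum _ hint]
    exact Finset.sum_congr rfl fun D _ => (integral_const_mul _ _).symm
  rw [e0]
  set Bd : ℝ := C * Z ^ ε * ∑ jj : Bool, (Y * nfDx Δ md jj Lt (Il (N * Δ) Lt Y) *
    ((lm / Lt) ^ (1 / 3 : ℝ) * W1 jj)) with hBd
  have hnfT0 : ∀ jj, 0 ≤ nfDx Δ md jj Lt (Il (N * Δ) Lt Y) := fun jj =>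
    (hnfL0 jj).trans (hnfLT jj)
  have hBd0 : 0 ≤ Bd := by
    refine mul_nonneg (by positivity) (Finset.sum_nonneg fun jj _ => ?_)
    have h1 := hnfT0 jj
    have h2 := hW1 jj
    positivity
  have hpt : ∀ t : ℝ, ∑ D ∈ 𝒟, g D * (jb A' t * ∑ κ ∈ 𝒦 D,
        ‖StrQ χ v (Yd D) t (bt D b) κ (ρ D) (D * r) (cw * Yd D) (P₁ D)‖ ^ 2) ≤ Bd * jb 2 t := by
    intro t
    have e1 : ∑ D ∈ 𝒟, g D * (jb A' t * ∑ κ ∈ 𝒦 D,
        ‖StrQ χ v (Yd D) t (bt D b) κ (ρ D) (D * r) (cw * Yd D) (P₁ D)‖ ^ 2) =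
        jb A' t * ∑ D ∈ 𝒟, g D * ∑ κ ∈ 𝒦 D,
        ‖StrQ χ v (Yd D) t (bt D b) κ (ρ D) (D * r) (cw * Yd D) (P₁ D)‖ ^ 2 := by
      rw [Finset.mul_sum]
      exact Finset.sum_congr rfl fun D _ => by ring
    rw [e1]
    have h1 := h Z N Δ Y Lt lm hZ hN hΔ hNZ hΔZ hY hYZ hlm hlmL hLZ hLN b r hbS hbW hr hrZ Prd hPrd
      W hW hWle W1 hW1 hW1le 𝒟 Yd ρ g P₁ 𝒦 h𝒟 hρ t
    rw [← hmd] at h1
    have hj0 := (jb_pos A' t).le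
    have hjb : jb A' t * (1 + |t|) ^ J ≤ jb 2 t := by
      have h1 : 1 ≤ 1 + |t| := by linarith [abs_nonneg t]
      unfold jb
      rw [← Real.rpow_natCast (1 + |t|) J, ← Real.rpow_add (by linarith)]
      exact Real.rpow_le_rpow_of_exponent_le h1 (by linarith)
    have h2 : C * Z ^ ε * (1 + |t|) ^ J * ∑ jj : Bool, (Y * nfDx Δ md jj lm (Il (N * Δ) lm Y) *
        ((lm / Lt) ^ (1 / 3 : ℝ) * W1 jj)) ≤ C * Z ^ ε * (1 + |t|) ^ J *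
        ∑ jj : Bool, (Y * nfDx Δ md jj Lt (Il (N * Δ) Lt Y) *
        ((lm / Lt) ^ (1 / 3 : ℝ) * W1 jj)) := by
      have ht0 : 0 ≤ (1 + |t|) ^ J := by positivity
      refine mul_le_mul_of_nonneg_left (Finset.sum_le_sum fun jj _ => ?_) (by positivity)
      have h3 := hnfLT jj
      have h4 := hW1 jj
      gcongr
    calc _ ≤ jb A' t * (C * Z ^ ε * (1 + |t|) ^ J * ∑ jj : Bool,
        (Y * nfDx Δ md jj Lt (Il (N * Δ) Lt Y) * ((lm / Lt) ^ (1 / 3 : ℝ) * W1 jj))) :=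
          mul_le_mul_of_nonneg_left (h1.trans h2) hj0
      _ = Bd * (jb A' t * (1 + |t|) ^ J) := by rw [hBd]; ring
      _ ≤ _ := mul_le_mul_of_nonneg_left hjb hBd0
  calc _ ≤ ∫ t, Bd * jb 2 t := by
        refine integral_mono_of_nonneg (Filter.Eventually.of_forall fun t => ?_)
          ((integrable_jb (by norm_num)).const_mul _) (Filter.Eventually.of_forall hpt)
        exact Finset.sum_nonneg fun D hD => mul_nonneg (hρ D hD).2.1 (mul_nonneg (jb_pos A' t).le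
          (Finset.sum_nonneg fun _ _ => by positivity))
    _ = Bd * KJ := integral_const_mul _ _
    _ = _ := by
        rw [hBd]
        simp only [Fintype.sum_bool]
        ring

end Crest.Agent.R017.MX744
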