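import Crest.Agent.R017.ModeD2_405
import Crest.Agent.R017.PoHB_405

/-!
# Row 17, block C70, leaf E3: MODE*, the canonical structured number (helper405)

* `BsQ ε χ v cw A' Lt Y b r₁ ka` : the supremum of the structured half over the blocks `j` and the
  moduli `ρ`
* `BsQ_le_of`, `FQ_le_BsQ`, `BsQ_nonneg`
* `bsq_mode` : the modes with the number `BsQ`
* `bsq_le` : first form
* `bsq_fam` : second form
-/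

set_option autoImplicit false

noncomputable section

open Complex MeasureTheory
open scoped ComplexConjugate

namespace Crest.Agent.R017.Mode405

open Crest.Agent.R012 Crest.Agent.R012.Eis Crest.Agent.R012.MC
open Crest.Agent.R012.LS2 (S mem_S bl mem_bl)
open Crest.Agent.R012.LS448 (one_le_nm')
open Crest.Agent.R012.NonCube52 (Ker kv Good kc)
open Crest.Agent.R012.Mob705 (mu pdiv mem_pdiv abs_mu_le_one)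
open Crest.Agent.R012.Tau671 (norm_sy_le)
open Crest.Agent.R012.Weight600 (pw osc norm_pw)
open Crest.Agent.R017.CM106 (CS TG FS)
open Crest.Agent.R017.BD829 (TT EQ Win EQ_nonneg)
open Crest.Agent.R017.E1551 (jb jb_pos nmpos integrable_jb)
open Crest.Agent.R017.DgB829 (HS HS_le HS_nonneg)
open Crest.Agent.R017.E3D579 (bt bt_supp CS_bt uS)

/-- the level of a block -/
def lmQ (Lt : ℝ) (j : ℕ) : ℝ := min ((2 : ℝ) ^ j) Lt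

/-- the value of a block -/
def FQ (ε : ℝ) (χ : Eis → ℂ) (v : ℝ → ℝ) (cw A' Lt Y : ℝ) (b : Eis → ℂ) (r₁ ka : Eis) (j : ℕ)
    (ρ : Eis) : ℝ :=
  (nm ρ : ℝ) ^ (-ε) * ((Lt / lmQ Lt j) ^ (1 / 3 : ℝ) * (Y⁻¹ *
    ∫ t, jb A' t * ∑ κ ∈ KSa (lmQ Lt j) ka,
      ‖StrQ χ v Y t b κ ρ r₁ (cw * Y) ((Lt / lmQ Lt j) ^ (1 / 3 : ℝ))‖ ^ 2))

/-- the set of the values -/
def SQ (ε : ℝ) (χ : Eis → ℂ) (v : ℝ → ℝ) (cw A' Lt Y : ℝ) (b : Eis → ℂ) (r₁ ka : Eis) : Set ℝ :=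
  {x | ∃ (j : ℕ) (ρ : Eis), (2 : ℝ) ^ j ≤ 2 * Lt ∧ ρ ≠ 0 ∧
    x = FQ ε χ v cw A' Lt Y b r₁ ka j ρ}

open Classical in
/-- **the canonical structured number** -/
def BsQ (ε : ℝ) (χ : Eis → ℂ) (v : ℝ → ℝ) (cw A' Lt Y : ℝ) (b : Eis → ℂ) (r₁ ka : Eis) : ℝ :=
  if 1 ≤ Lt then sSup (SQ ε χ v cw A' Lt Y b r₁ ka) else 0

section basic

variable {ε : ℝ} {χ : Eis → ℂ} {v : ℝ → ℝ} {cw A' Lt Y : ℝ} {b : Eis → ℂ} {r₁ ka : Eis}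

lemma lmQ_one (hLt : 1 ≤ Lt) (j : ℕ) : 1 ≤ lmQ Lt j :=
  le_min (one_le_pow₀ (by norm_num)) hLt

lemma lmQ_le (Lt : ℝ) (j : ℕ) : lmQ Lt j ≤ Lt := min_le_right _ _

lemma int_nonneg (j : ℕ) (ρ : Eis) (P₁ : ℝ) : 0 ≤ ∫ t, jb A' t * ∑ κ ∈ KSa (lmQ Lt j) ka,
      ‖StrQ χ v Y t b κ ρ r₁ (cw * Y) P₁‖ ^ 2 :=
  integral_nonneg fun t => mul_nonneg (jb_pos A' t).le (Finset.sum_nonneg fun _ _ => by positivity)

lemma FQ_nonneg (hY : 0 ≤ Y) (hLt : 1 ≤ Lt) (j : ℕ) (ρ : Eis) :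
    0 ≤ FQ ε χ v cw A' Lt Y b r₁ ka j ρ := by
  unfold FQ
  have h1 := int_nonneg (A' := A') (Lt := Lt) (ka := ka) (χ := χ) (v := v) (Y := Y) (b := b)
    (r₁ := r₁) (cw := cw) j ρ ((Lt / lmQ Lt j) ^ (1 / 3 : ℝ))
  have h2 := lmQ_one hLt j
  have h3 : 0 ≤ (Lt / lmQ Lt j) ^ (1 / 3 : ℝ) := Real.rpow_nonneg (by positivity) _
  exact mul_nonneg (by positivity) (mul_nonneg h3 (mul_nonneg (by positivity) h1))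

/-- trivial bound of the structured part -/
lemma norm_StrQ_tau {Y t : ℝ} (κ : Ker) {ρ r₁ : Eis} (hρ : ρ ≠ 0) {N₀ : ℝ} (hN : 0 ≤ N₀)
    (hw : ∀ x, v (x / Y) ≠ 0 → x ≤ N₀) (P₁ : ℝ) :
    ‖StrQ χ v Y t b κ ρ r₁ N₀ P₁‖ ≤ ((pdiv ρ).card : ℝ) * (((S N₀).card : ℝ) *
      ∑ n ∈ primBall ⌊N₀⌋₊, ‖χ n‖ * ‖CS b n‖ * |v (nm n / Y)|) := by
  classical
  rw [StrQ_fin hρ hN hw P₁ t]
  have h1 : ∀ d ∈ pdiv ρ, ∀ q ∈ S N₀, ∀ n ∈ primBall ⌊N₀⌋₊,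
      ‖(if (IsCoprime q ρ ∧ (nm d : ℝ) * nm q ≤ P₁) ∧ d * q ^ 2 ∣ n then
        ((mu d : ℂ) * mu q) * fx (chr χ r₁) v Y t b κ n else 0)‖ ≤
        ‖χ n‖ * ‖CS b n‖ * |v (nm n / Y)| := by
    intro d _ q _ n hn
    have hn' := (mem_primBall.mp hn).2
    have hfx : ‖fx (chr χ r₁) v Y t b κ n‖ ≤ ‖χ n‖ * ‖CS b n‖ * |v (nm n / Y)| := by
      unfold fx
      rw [norm_mul, norm_mul, norm_mul, norm_mul, norm_pw, RCLike.norm_conj, Complex.norm_real,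
        Real.norm_eq_abs, mul_one]
      have a1 : ‖chr χ r₁ n‖ ≤ ‖χ n‖ := by
        unfold chr
        split_ifs
        · exact le_rfl
        · rw [norm_zero]; exact norm_nonneg _
      have a2 : ‖sy (kv κ) n‖ ≤ 1 := norm_sy_le hn'
      have a3 : ‖CS b n‖ * ‖sy (kv κ) n‖ ≤ ‖CS b n‖ := mul_le_of_le_one_right (norm_nonneg _) a2
      gcongr
    split_ifs
    · rw [norm_mul]
      refine (mul_le_of_le_one_left (norm_nonneg _) ?_).trans hfx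
      rw [norm_mul, Complex.norm_intCast, Complex.norm_intCast]
      have a1 : |(mu d : ℝ)| ≤ 1 := by exact_mod_cast abs_mu_le_one d
      have a2 : |(mu q : ℝ)| ≤ 1 := by exact_mod_cast abs_mu_le_one q
      calc _ ≤ (1 : ℝ) * 1 := mul_le_mul a1 a2 (abs_nonneg _) zero_le_one
        _ = 1 := one_mul 1
    · rw [norm_zero]; positivity
  calc _ ≤ ∑ d ∈ pdiv ρ, ∑ q ∈ S N₀, ∑ n ∈ primBall ⌊N₀⌋₊, ‖χ n‖ * ‖CS b n‖ * |v (nm n / Y)| := by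
        refine (norm_sum_le _ _).trans (Finset.sum_le_sum fun d hd => (norm_sum_le _ _).trans
          (Finset.sum_le_sum fun q hq => (norm_sum_le _ _).trans
          (Finset.sum_le_sum fun n hn => h1 d hd q hq n hn)))
    _ = _ := by
        rw [Finset.sum_const, Finset.sum_const, nsmul_eq_mul, nsmul_eq_mul]

lemma bdd_SQ (hε : 0 < ε) (hA : 1 < A') (hLt : 1 ≤ Lt) (hY : 0 < Y) (hcw : 0 ≤ cw)
    (hw : ∀ x, v x ≠ 0 → x ≤ cw) : BddAbove (SQ ε χ v cw A' Lt Y b r₁ ka) := by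
  classical
  obtain ⟨Ct, hCt, htau⟩ := Div277.tau_le_rpow (ε := ε / 2) (by positivity)
  set M1 : ℝ := ((S (cw * Y)).card : ℝ) *
      ∑ n ∈ primBall ⌊cw * Y⌋₊, ‖χ n‖ * ‖CS b n‖ * |v (nm n / Y)| with hM1
  have hM0 : 0 ≤ M1 := by
    have : 0 ≤ ∑ n ∈ primBall ⌊cw * Y⌋₊, ‖χ n‖ * ‖CS b n‖ * |v (nm n / Y)| :=
      Finset.sum_nonneg fun _ _ => by positivity
    positivity
  set KJ : ℝ := ∫ t, jb A' t with hKJ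
  have hKJ0 : 0 ≤ KJ := integral_nonneg fun t => (jb_pos A' t).le
  set Bm : ℝ := ((KS Lt).card : ℝ) * (Ct ^ 2 * M1 ^ 2) with hBm
  have hBm0 : 0 ≤ Bm := by positivity
  refine ⟨Lt ^ (1 / 3 : ℝ) * (Y⁻¹ * (Bm * KJ)), ?_⟩
  rintro x ⟨j, ρ, -, hρ, rfl⟩
  have hρ1 : (1 : ℝ) ≤ nm ρ := one_le_nm' hρ
  have hρ0 : (0 : ℝ) < nm ρ := by linarith
  have hlm := lmQ_one hLt j
  have hw' : ∀ x, v (x / Y) ≠ 0 → x ≤ cw * Y := by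
    intro x hx
    have h1 := hw _ hx
    rwa [div_le_iff₀ hY] at h1
  have hpt : ∀ t, jb A' t * ∑ κ ∈ KSa (lmQ Lt j) ka,
      ‖StrQ χ v Y t b κ ρ r₁ (cw * Y) ((Lt / lmQ Lt j) ^ (1 / 3 : ℝ))‖ ^ 2 ≤
      ((nm ρ : ℝ) ^ ε * Bm) * jb A' t := by
    intro t
    have h1 : ∀ κ ∈ KSa (lmQ Lt j) ka,
        ‖StrQ χ v Y t b κ ρ r₁ (cw * Y) ((Lt / lmQ Lt j) ^ (1 / 3 : ℝ))‖ ^ 2 ≤
        (nm ρ : ℝ) ^ ε * (Ct ^ 2 * M1 ^ 2) := by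
      intro κ _
      have h2 := norm_StrQ_tau (χ := χ) (v := v) (b := b) (t := t) κ (r₁ := r₁) hρ
        (by positivity : 0 ≤ cw * Y) hw' ((Lt / lmQ Lt j) ^ (1 / 3 : ℝ))
      have h3 : ((pdiv ρ).card : ℝ) ≤ Ct * (nm ρ : ℝ) ^ (ε / 2) := htau ρ hρ
      have h4 := h2.trans (mul_le_mul_of_nonneg_right h3 hM0)
      calc _ ≤ (Ct * (nm ρ : ℝ) ^ (ε / 2) * M1) ^ 2 := pow_le_pow_left₀ (norm_nonneg _) h4 2
        _ = ((nm ρ : ℝ) ^ (ε / 2)) ^ 2 * (Ct ^ 2 * M1 ^ 2) := by ring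
        _ = _ := by
          rw [← Real.rpow_natCast ((nm ρ : ℝ) ^ (ε / 2)) 2, ← Real.rpow_mul hρ0.le]
          congr 2
          push_cast; ring
    calc jb A' t * ∑ κ ∈ KSa (lmQ Lt j) ka,
        ‖StrQ χ v Y t b κ ρ r₁ (cw * Y) ((Lt / lmQ Lt j) ^ (1 / 3 : ℝ))‖ ^ 2
        ≤ jb A' t * ∑ κ ∈ KSa (lmQ Lt j) ka, (nm ρ : ℝ) ^ ε * (Ct ^ 2 * M1 ^ 2) :=
          mul_le_mul_of_nonneg_left (Finset.sum_le_sum h1) (jb_pos A' t).le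
      _ = jb A' t * (((KSa (lmQ Lt j) ka).card : ℝ) * ((nm ρ : ℝ) ^ ε * (Ct ^ 2 * M1 ^ 2))) := by
          rw [Finset.sum_const, nsmul_eq_mul]
      _ ≤ jb A' t * (((KS Lt).card : ℝ) * ((nm ρ : ℝ) ^ ε * (Ct ^ 2 * M1 ^ 2))) := by
          refine mul_le_mul_of_nonneg_left ?_ (jb_pos A' t).le
          refine mul_le_mul_of_nonneg_right ?_ (by positivity)
          have : KSa (lmQ Lt j) ka ⊆ KS Lt := by
            intro κ hκ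
            rw [mem_KSa] at hκ
            rw [mem_KS]
            exact ⟨hκ.1.1, hκ.1.2.trans (lmQ_le Lt j)⟩
          exact_mod_cast Finset.card_le_card this
      _ = _ := by rw [hBm]; ring
  have hI : ∫ t, jb A' t * ∑ κ ∈ KSa (lmQ Lt j) ka,
      ‖StrQ χ v Y t b κ ρ r₁ (cw * Y) ((Lt / lmQ Lt j) ^ (1 / 3 : ℝ))‖ ^ 2 ≤
      ((nm ρ : ℝ) ^ ε * Bm) * KJ := by
    calc _ ≤ ∫ t, ((nm ρ : ℝ) ^ ε * Bm) * jb A' t := by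
          refine integral_mono_of_nonneg (Filter.Eventually.of_forall fun t => ?_)
            ((integrable_jb hA).const_mul _) (Filter.Eventually.of_forall hpt)
          exact mul_nonneg (jb_pos A' t).le (Finset.sum_nonneg fun _ _ => by positivity)
      _ = _ := integral_const_mul _ _
  have hle : (Lt / lmQ Lt j) ^ (1 / 3 : ℝ) ≤ Lt ^ (1 / 3 : ℝ) :=
    Real.rpow_le_rpow (by positivity) (div_le_self (by linarith) hlm) (by norm_num)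
  have hρε : (nm ρ : ℝ) ^ (-ε) * (nm ρ : ℝ) ^ ε = 1 := by
    rw [← Real.rpow_add hρ0]; simp
  unfold FQ
  calc (nm ρ : ℝ) ^ (-ε) * ((Lt / lmQ Lt j) ^ (1 / 3 : ℝ) * (Y⁻¹ *
        ∫ t, jb A' t * ∑ κ ∈ KSa (lmQ Lt j) ka,
        ‖StrQ χ v Y t b κ ρ r₁ (cw * Y) ((Lt / lmQ Lt j) ^ (1 / 3 : ℝ))‖ ^ 2))
      ≤ (nm ρ : ℝ) ^ (-ε) * (Lt ^ (1 / 3 : ℝ) * (Y⁻¹ * (((nm ρ : ℝ) ^ ε * Bm) * KJ))) := by
        have h0 := int_nonneg (A' := A') (Lt := Lt) (ka := ka) (χ := χ) (v := v) (Y := Y) (b := b)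
          (r₁ := r₁) (cw := cw) j ρ ((Lt / lmQ Lt j) ^ (1 / 3 : ℝ))
        gcongr
    _ = ((nm ρ : ℝ) ^ (-ε) * (nm ρ : ℝ) ^ ε) * (Lt ^ (1 / 3 : ℝ) * (Y⁻¹ * (Bm * KJ))) := by ring
    _ = _ := by rw [hρε, one_mul]

lemma SQ_nonempty (hLt : 1 ≤ Lt) : (SQ ε χ v cw A' Lt Y b r₁ ka).Nonempty :=
  ⟨_, 0, 1, by linarith, one_ne_zero, rfl⟩

lemma FQ_le_BsQ (hε : 0 < ε) (hA : 1 < A') (hLt : 1 ≤ Lt) (hY : 0 < Y) (hcw : 0 ≤ cw)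
    (hw : ∀ x, v x ≠ 0 → x ≤ cw) {j : ℕ} (hj : (2 : ℝ) ^ j ≤ 2 * Lt) {ρ : Eis} (hρ : ρ ≠ 0) :
    FQ ε χ v cw A' Lt Y b r₁ ka j ρ ≤ BsQ ε χ v cw A' Lt Y b r₁ ka := by
  unfold BsQ
  rw [if_pos hLt]
  exact le_csSup (bdd_SQ hε hA hLt hY hcw hw) ⟨j, ρ, hj, hρ, rfl⟩

lemma BsQ_le_of {B : ℝ} (hB : 0 ≤ B) (h : 1 ≤ Lt → ∀ j : ℕ, (2 : ℝ) ^ j ≤ 2 * Lt → ∀ ρ : Eis,
    ρ ≠ 0 → FQ ε χ v cw A' Lt Y b r₁ ka j ρ ≤ B) : BsQ ε χ v cw A' Lt Y b r₁ ka ≤ B := by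
  unfold BsQ
  split_ifs with hLt
  · refine csSup_le (SQ_nonempty hLt) ?_
    rintro x ⟨j, ρ, hj, hρ, rfl⟩
    exact h hLt j hj ρ hρ
  · exact hB

lemma BsQ_nonneg (hY : 0 ≤ Y) : 0 ≤ BsQ ε χ v cw A' Lt Y b r₁ ka := by
  unfold BsQ
  split_ifs with hLt
  · refine Real.sSup_nonneg ?_
    rintro x ⟨j, ρ, -, -, rfl⟩
    exact FQ_nonneg hY hLt j ρ
  · exact le_rfl

lemma BsQ_exists (hY : 0 ≤ Y) (hLt : 1 ≤ Lt) : ∃ (j : ℕ) (ρ : Eis), (2 : ℝ) ^ j ≤ 2 * Lt ∧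
    ρ ≠ 0 ∧ BsQ ε χ v cw A' Lt Y b r₁ ka ≤ 2 * FQ ε χ v cw A' Lt Y b r₁ ka j ρ := by
  have h0 : 0 ≤ BsQ ε χ v cw A' Lt Y b r₁ ka := BsQ_nonneg hY
  rcases h0.eq_or_lt with h | h
  · refine ⟨0, 1, by linarith, one_ne_zero, ?_⟩
    rw [← h]
    have := FQ_nonneg (ε := ε) (χ := χ) (v := v) (cw := cw) (A' := A') (b := b) (r₁ := r₁)
      (ka := ka) hY hLt 0 1
    positivity
  · have h1 : BsQ ε χ v cw A' Lt Y b r₁ ka / 2 < sSup (SQ ε χ v cw A' Lt Y b r₁ ka) := by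
      have : BsQ ε χ v cw A' Lt Y b r₁ ka = sSup (SQ ε χ v cw A' Lt Y b r₁ ka) := by
        unfold BsQ; rw [if_pos hLt]
      rw [← this]; linarith
    obtain ⟨x, ⟨j, ρ, hj, hρ, rfl⟩, hx⟩ := exists_lt_of_lt_csSup (SQ_nonempty hLt) h1
    exact ⟨j, ρ, hj, hρ, by linarith⟩

end basic

open Classical in
/-- **the modes with the canonical number** -/
theorem bsq_mode {χ : Eis → ℂ} (hχ : Mul1 χ) {w : ℝ → ℝ} (hwW : Wgt w) {cw : ℝ} (hcw : 1 ≤ cw)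
    (hcwle : ∀ x, w6 w x ≠ 0 → x ≤ cw) {ε : ℝ} (hε : 0 < ε) :
    ∃ C : ℝ, 0 ≤ C ∧ ∀ A' : ℝ, 2 ≤ A' →
      ∀ Z Y L L0 Lt : ℝ, 1 ≤ Z → 1 ≤ Y → Y ≤ Z → 0 ≤ L → L ≤ Z → 0 ≤ L0 →
      L0 ≤ Z → 0 < Lt → Lt ≤ Z →
    ∀ (b : Eis → ℂ) (r r₁ q : Eis),
      r ≠ 0 → (nm r : ℝ) ≤ Z → r₁ ∣ r → q ≠ 0 → (nm q : ℝ) ≤ Z → L * nk q ≤ L0 → ∀ ka : Eis,
    ∑ h ∈ (bl L).filter (fun h => IsCoprime (kv (kc (h * q)).1) ka),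
        EQ A' (fun n => χ n * uS (fun x => ((w (x / Y) : ℝ) : ℂ)) r b n) (h * q) ≤
      C * Z ^ (3 * ε) * Y ^ (-(1 : ℝ) / 3) *
        (((L0 / Lt) ^ (1 / 3 : ℝ) * Y + (if Lt ≤ L0 then L + (L * Y) ^ (2 / 3 : ℝ) else 0)) *
          ∑ n ∈ (S (cw * Y)).filter (fun n => IsCoprime n r), ‖CS b n‖ ^ 2 +
        (if 1 ≤ Lt then (L0 / Lt) ^ (1 / 3 : ℝ) *
          (Y * BsQ ε χ (w6 w) cw A' Lt Y b r₁ ka +
          ((Y + (Lt * Y) ^ (2 / 3 : ℝ)) * DT 1 (cw * Y) b r₁ +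
          Lt * Y ^ (1 / 2 : ℝ) * DT (1 / 2) (cw * Y) b r₁)) else 0)) := by
  obtain ⟨C, hC, h⟩ := mode_prec hχ hwW hcw hcwle hε
  refine ⟨C * 2 ^ ε, by positivity, ?_⟩
  intro A' hA' Z Y L L0 Lt hZ hY hYZ hL hLZ' hL0 hL0Z hLt hLZ b r r₁ q hr hrZ hr₁ hq hqZ hLq ka
  have hZ0 : 0 < Z := by linarith
  have hY0 : 0 < Y := by linarith
  set B := BsQ ε χ (w6 w) cw A' Lt Y b r₁ ka with hB
  have hB0 : 0 ≤ B := BsQ_nonneg hY0.le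
  set s : ℝ := (2 * Z ^ 2) ^ ε with hs
  have hs1 : 1 ≤ s := by
    rw [hs]
    refine Real.one_le_rpow ?_ hε.le
    nlinarith
  have hs0 : 0 ≤ s := by linarith
  have key := h A' hA' Z Y L L0 Lt hZ hY hYZ hL hLZ' hL0 hL0Z hLt hLZ b Y r r₁ q (by linarith)
    le_rfl hr hrZ hr₁ hq hqZ hLq ka (s * B) (by positivity) (fun hLt1 j hj ρ hρ _ hρZ => by
      have h1 : FQ ε χ (w6 w) cw A' Lt Y b r₁ ka j ρ ≤ B :=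
        FQ_le_BsQ hε (by linarith) hLt1 hY0 (by linarith) hcwle hj hρ
      have hρ0 : (0 : ℝ) < nm ρ := nmpos hρ
      have hlm := lmQ_one hLt1 j
      have hlm0 : 0 < lmQ Lt j := by linarith
      unfold FQ at h1
      set I := ∫ t, jb A' t * ∑ κ ∈ KSa (lmQ Lt j) ka,
        ‖StrQ χ (w6 w) Y t b κ ρ r₁ (cw * Y) ((Lt / lmQ Lt j) ^ (1 / 3 : ℝ))‖ ^ 2 with hI
      change I ≤ (lmQ Lt j / Lt) ^ (1 / 3 : ℝ) * (Y * (s * B))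
      have hI0 : 0 ≤ I := int_nonneg j ρ _
      have e1 : (lmQ Lt j / Lt) ^ (1 / 3 : ℝ) * (Lt / lmQ Lt j) ^ (1 / 3 : ℝ) = 1 := by
        rw [← Real.mul_rpow (by positivity) (by positivity)]
        have : lmQ Lt j / Lt * (Lt / lmQ Lt j) = 1 := by field_simp
        rw [this, Real.one_rpow]
      have e2 : (nm ρ : ℝ) ^ ε * (nm ρ : ℝ) ^ (-ε) = 1 := by
        rw [← Real.rpow_add hρ0]; simp
      have hsρ : (nm ρ : ℝ) ^ ε ≤ s := Real.rpow_le_rpow hρ0.le hρZ hε.le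
      calc I = ((nm ρ : ℝ) ^ ε * (nm ρ : ℝ) ^ (-ε)) *
            ((lmQ Lt j / Lt) ^ (1 / 3 : ℝ) * (Lt / lmQ Lt j) ^ (1 / 3 : ℝ)) * (Y * Y⁻¹) * I := by
            rw [e1, e2, mul_inv_cancel₀ hY0.ne']; ring
        _ = (nm ρ : ℝ) ^ ε * ((lmQ Lt j / Lt) ^ (1 / 3 : ℝ) * (Y * ((nm ρ : ℝ) ^ (-ε) *
            ((Lt / lmQ Lt j) ^ (1 / 3 : ℝ) * (Y⁻¹ * I))))) := by ring
        _ ≤ s * ((lmQ Lt j / Lt) ^ (1 / 3 : ℝ) * (Y * B)) := by gcongr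
        _ = _ := by ring)
  refine key.trans ?_
  have hT0 : 0 ≤ ∑ n ∈ (S (cw * Y)).filter (fun n => IsCoprime n r), ‖CS b n‖ ^ 2 :=
    Finset.sum_nonneg fun _ _ => by positivity
  have hD1 := DT_nonneg 1 (cw * Y) b r₁
  have hD2 := DT_nonneg (1 / 2) (cw * Y) b r₁
  have hYp : 0 ≤ Y ^ (-(1 : ℝ) / 3) := by positivity
  have hX0 : 0 ≤ (((L0 / Lt) ^ (1 / 3 : ℝ) * Y + (if Lt ≤ L0 then L + (L * Y) ^ (2 / 3 : ℝ)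
      else 0)) * ∑ n ∈ (S (cw * Y)).filter (fun n => IsCoprime n r), ‖CS b n‖ ^ 2) := by
    refine mul_nonneg ?_ hT0
    split_ifs <;> positivity
  have hle : (((L0 / Lt) ^ (1 / 3 : ℝ) * Y + (if Lt ≤ L0 then L + (L * Y) ^ (2 / 3 : ℝ)
      else 0)) * ∑ n ∈ (S (cw * Y)).filter (fun n => IsCoprime n r), ‖CS b n‖ ^ 2 +
        (if 1 ≤ Lt then (L0 / Lt) ^ (1 / 3 : ℝ) * (Y * (s * B) +
          ((Y + (Lt * Y) ^ (2 / 3 : ℝ)) * DT 1 (cw * Y) b r₁ +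
          Lt * Y ^ (1 / 2 : ℝ) * DT (1 / 2) (cw * Y) b r₁)) else 0)) ≤
      s * (((L0 / Lt) ^ (1 / 3 : ℝ) * Y + (if Lt ≤ L0 then L + (L * Y) ^ (2 / 3 : ℝ)
      else 0)) * ∑ n ∈ (S (cw * Y)).filter (fun n => IsCoprime n r), ‖CS b n‖ ^ 2 +
        (if 1 ≤ Lt then (L0 / Lt) ^ (1 / 3 : ℝ) * (Y * B +
          ((Y + (Lt * Y) ^ (2 / 3 : ℝ)) * DT 1 (cw * Y) b r₁ +
          Lt * Y ^ (1 / 2 : ℝ) * DT (1 / 2) (cw * Y) b r₁)) else 0)) := by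
    rw [mul_add s]
    refine add_le_add (le_mul_of_one_le_left hX0 hs1) ?_
    split_ifs
    · have h2 : 0 ≤ (Y + (Lt * Y) ^ (2 / 3 : ℝ)) * DT 1 (cw * Y) b r₁ +
          Lt * Y ^ (1 / 2 : ℝ) * DT (1 / 2) (cw * Y) b r₁ := by positivity
      have h3 : 0 ≤ (L0 / Lt) ^ (1 / 3 : ℝ) := by positivity
      calc _ ≤ (L0 / Lt) ^ (1 / 3 : ℝ) * (Y * (s * B) +
            s * ((Y + (Lt * Y) ^ (2 / 3 : ℝ)) * DT 1 (cw * Y) b r₁ +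
            Lt * Y ^ (1 / 2 : ℝ) * DT (1 / 2) (cw * Y) b r₁)) := by
            refine mul_le_mul_of_nonneg_left ?_ h3
            linarith [le_mul_of_one_le_left h2 hs1]
        _ = _ := by ring
    · rw [mul_zero]
  refine (mul_le_mul_of_nonneg_left hle (by positivity)).trans (le_of_eq ?_)
  have e : Z ^ ε * s = 2 ^ ε * Z ^ (3 * ε) := by
    rw [hs, Real.mul_rpow (by norm_num) (by positivity), ← Real.rpow_natCast Z 2,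
      ← Real.rpow_mul hZ0.le]
    have : Z ^ (3 * ε) = Z ^ ε * Z ^ (((2 : ℕ) : ℝ) * ε) := by
      rw [← Real.rpow_add hZ0]; congr 1; push_cast; ring
    rw [this]; ring
  have e' : ∀ X : ℝ, C * Z ^ ε * Y ^ (-(1 : ℝ) / 3) * (s * X) =
      C * 2 ^ ε * Z ^ (3 * ε) * Y ^ (-(1 : ℝ) / 3) * X := by
    intro X
    calc _ = C * (Z ^ ε * s) * Y ^ (-(1 : ℝ) / 3) * X := by ring
      _ = _ := by rw [e]; ring
  exact e' _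

/-- **first form** -/
theorem bsq_le {OK : ℝ → ℝ → Eis → Set Tst → Prop} (hOK : OKW OK)
    {nfn : ℝ → ℝ → ℝ} (hnfn : NFok nfn) {χ : Eis → ℂ} (hχ : Mul1 χ)
    {v : ℝ → ℝ} (hP : PoHW OK nfn χ v) {cw : ℝ} (hcw : 1 ≤ cw) (hw : ∀ x, v x ≠ 0 → x ≤ cw)
    {R : ℝ} (hR : 0 ≤ R) (a A : ℕ) (hA : 1 < A) {ε : ℝ} (hε : 0 < ε) :
    ∃ (C c : ℝ) (A₀ : ℕ), 0 ≤ C ∧ 1 ≤ c ∧ ∀ A' : ℝ, (A₀ : ℝ) ≤ A' →
    ∀ Z N Y Lt : ℝ, 1 ≤ Z → 0 < N → N ≤ Z → 1 ≤ Y → Y ≤ Z → Lt ≤ Z →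
    ∀ (b : Eis → ℂ) (r₁ ka : Eis), (∀ n, b n ≠ 0 → n ∈ S Z) → Win b (Real.log N) R →
      r₁ ≠ 0 → (nm r₁ : ℝ) ≤ Z →
    ∀ (W : ℝ → ℝ) (W1 : ℝ), 0 ≤ W1 →
      (1 ≤ Lt → Lt * Real.exp R < N ∧ Slp a W ∧ W (c * Il N Lt Y) ≤ W1 ∧
        ∃ 𝒯 : Set Tst, OK Z N ka 𝒯 ∧ ∀ τ ∈ 𝒯, ∀ P : ℝ, 0 < P → ∑ e ∈ pdiv r₁,
            (nm e : ℝ)⁻¹ * TV τ A (bs b e) (nm e * P) ≤ W P) →
    BsQ ε χ v cw A' Lt Y b r₁ ka ≤ C * Z ^ ε * (if 1 ≤ Lt then nfn Lt (Il N Lt Y) * W1 else 0) := by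
  obtain ⟨C, c, A₀, hC, hc, h⟩ := strQ_int hOK hnfn hχ hP hcw hw hR a A hA hε
  refine ⟨C, c, A₀, hC, hc, ?_⟩
  intro A' hA' Z N Y Lt hZ hN hNZ hY hYZ hLZ b r₁ ka hbS hbW hr hrZ W W1 hW1 hyp
  have hZ0 : 0 < Z := by linarith
  have hY0 : 0 < Y := by linarith
  have hB0 : 0 ≤ C * Z ^ ε * (if 1 ≤ Lt then nfn Lt (Il N Lt Y) * W1 else 0) := by
    split_ifs with h1
    · have hIl : 0 < Il N Lt Y := by
        have : 0 < Lt := by linarith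
        unfold Il; positivity
      have := hnfn.nonneg Lt _ (by linarith) hIl
      positivity
    · simp
  refine BsQ_le_of hB0 fun hLt j hj ρ hρ => ?_
  obtain ⟨hLN, hWs, hW1le, 𝒯, hT, hTW⟩ := hyp hLt
  have hρ1 : (1 : ℝ) ≤ nm ρ := one_le_nm' hρ
  have hρ0 : (0 : ℝ) < nm ρ := by linarith
  have hLt0 : 0 < Lt := by linarith
  have hlm := lmQ_one hLt j
  have hlm0 : 0 < lmQ Lt j := by linarith
  set Z' : ℝ := Z * nm ρ with hZ'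
  have hZZ : Z ≤ Z' := le_mul_of_one_le_right hZ0.le hρ1
  have hZ'1 : 1 ≤ Z' := hZ.trans hZZ
  have hρZ : (nm ρ : ℝ) ≤ 2 * Z' ^ 2 := by
    have h1 : (nm ρ : ℝ) ≤ Z' := le_mul_of_one_le_left hρ0.le hZ
    nlinarith
  have key := h A' hA' Z' N Y Lt hZ'1 hN (hNZ.trans hZZ) hY (hYZ.trans hZZ) hLt (hLZ.trans hZZ)
    hLN ka 𝒯 (hOK.mono Z Z' N ka 𝒯 hZZ hT) ({()} : Finset Unit) (fun _ => b) (fun _ => Y)
    (fun _ => r₁) (fun _ _ => ⟨by linarith, le_rfl⟩)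
    (fun _ _ n hn => by
      have h1 := (mem_S hZ0.le).1 (hbS n hn)
      exact (mem_S (by linarith)).2 ⟨h1.1.trans hZZ, h1.2⟩)
    (fun _ _ => hbW) (fun _ _ => ⟨hr, hrZ.trans hZZ⟩) W hWs
    (by simpa only [Finset.sum_singleton] using hTW) W1 hW1 hW1le (lmQ Lt j) hlm (lmQ_le Lt j)
    (fun _ => ρ) (fun _ _ => ⟨hρ, hρZ⟩)
  simp only [Finset.sum_singleton] at key
  unfold FQ
  rw [if_pos hLt]
  have hIl : 0 < Il N Lt Y := by unfold Il; positivity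
  have hnf := hnfn.nonneg Lt _ hLt0.le hIl
  have e1 : (Lt / lmQ Lt j) ^ (1 / 3 : ℝ) * (lmQ Lt j / Lt) ^ (1 / 3 : ℝ) = 1 := by
    rw [← Real.mul_rpow (by positivity) (by positivity)]
    have : Lt / lmQ Lt j * (lmQ Lt j / Lt) = 1 := by field_simp
    rw [this, Real.one_rpow]
  have e2 : (nm ρ : ℝ) ^ (-ε) * (nm ρ : ℝ) ^ ε = 1 := by
    rw [← Real.rpow_add hρ0]; simp
  have e3 : Z' ^ ε = Z ^ ε * (nm ρ : ℝ) ^ ε := Real.mul_rpow hZ0.le hρ0.le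
  calc (nm ρ : ℝ) ^ (-ε) * ((Lt / lmQ Lt j) ^ (1 / 3 : ℝ) * (Y⁻¹ *
        ∫ t, jb A' t * ∑ κ ∈ KSa (lmQ Lt j) ka,
        ‖StrQ χ v Y t b κ ρ r₁ (cw * Y) ((Lt / lmQ Lt j) ^ (1 / 3 : ℝ))‖ ^ 2))
      ≤ (nm ρ : ℝ) ^ (-ε) * ((Lt / lmQ Lt j) ^ (1 / 3 : ℝ) * (Y⁻¹ *
        ((lmQ Lt j / Lt) ^ (1 / 3 : ℝ) * (Y * (C * Z' ^ ε * nfn Lt (Il N Lt Y) * W1))))) := by
        gcongr
    _ = ((nm ρ : ℝ) ^ (-ε) * (nm ρ : ℝ) ^ ε) * ((Lt / lmQ Lt j) ^ (1 / 3 : ℝ) *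
        (lmQ Lt j / Lt) ^ (1 / 3 : ℝ)) * (Y⁻¹ * Y) *
        (C * Z ^ ε * (nfn Lt (Il N Lt Y) * W1)) := by rw [e3]; ring
    _ = _ := by rw [e1, e2, inv_mul_cancel₀ hY0.ne']; ring

end Crest.Agent.R017.Mode405
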