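import Crest.Agent.R017.MXc_744
import Crest.Agent.R017.ModeD3_405

/-!
# Row 17, T.7 (class E), E3: the first form of the canonical number in two classes (helper405)

* `bsq_lex`
-/

set_option autoImplicit false

noncomputable section

open Complex MeasureTheory
open scoped ComplexConjugate Classical

namespace Crest.Agent.R017.MX744

open Crest.Agent.R012 Crest.Agent.R012.Eis Crest.Agent.R012.MC
open Crest.Agent.R012.LS2 (S mem_S bl mem_bl)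
open Crest.Agent.R012.LS448 (one_le_nm')
open Crest.Agent.R012.NonCube52 (Ker kv Good kc)
open Crest.Agent.R012.Mob705 (mu pdiv mem_pdiv)
open Crest.Agent.R017.CM106 (CS TG FS)
open Crest.Agent.R017.BD829 (TT EQ Win EQ_nonneg)
open Crest.Agent.R017.E1551 (jb jb_pos nmpos integrable_jb)
open Crest.Agent.R017.Mode405
open Crest.Agent.R017.PoHx72

/-- **first form of the canonical number**, two classes of frequencies -/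
theorem bsq_lex {χ : Eis → ℂ} (hχ : Mul1 χ) {v : ℝ → ℝ} (hP : PoHWx χ v) {cw : ℝ} (hcw : 1 ≤ cw)
    (hw : ∀ x, v x ≠ 0 → x ≤ cw) {R : ℝ} (hR : 0 ≤ R) (a A : ℕ) (hA : 1 < A) {ε : ℝ}
    (hε : 0 < ε) :
    ∃ (C c : ℝ) (A₀ : ℕ), 0 ≤ C ∧ 1 ≤ c ∧ ∀ A' : ℝ, (A₀ : ℝ) ≤ A' →
    ∀ Z N Y Lt : ℝ, 1 ≤ Z → 0 < N → N ≤ Z → 1 ≤ Y → Y ≤ Z → Lt ≤ Z →
    ∀ (b : Eis → ℂ) (r₁ ka : Eis), (∀ n, b n ≠ 0 → n ∈ S Z) → Win b (Real.log N) R →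
      r₁ ≠ 0 → (nm r₁ : ℝ) ≤ Z → IsPrim ka → (nm ka : ℝ) ≤ Z →
    ∀ (Prd : Eis → Eis → Prop) (W : Bool → ℝ → ℝ) (W1 : Bool → ℝ), (∀ jj, 0 ≤ W1 jj) →
      (1 ≤ Lt → Lt * Real.exp R < N ∧ PrOK b Prd ∧ (∀ jj, Slp a (W jj)) ∧
        (∀ jj, W jj (c * Il N Lt Y) ≤ W1 jj) ∧
        ∀ jj γ φ x, Adm (N ^ 2) ka γ φ x → ∀ P : ℝ, 0 < P → ∑ e ∈ pdiv r₁,
          (nm e : ℝ)⁻¹ * ((nm γ : ℝ) * VIc A (Mode405.bs b e) γ φ 1 (nm e * P / nm x)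
            (Cls (PrS Prd e γ) jj)) ≤ W jj P) →
    BsQ ε χ v cw A' Lt Y b r₁ ka ≤
      C * Z ^ ε * (if 1 ≤ Lt then ∑ jj : Bool, nfx jj Lt (Il N Lt Y) * W1 jj else 0) := by
  obtain ⟨C, c, A₀, hC, hc, h⟩ := strQx_int hχ hP hcw hw hR a A hA hε
  refine ⟨C, c, A₀, hC, hc, ?_⟩
  intro A' hA' Z N Y Lt hZ hN hNZ hY hYZ hLZ b r₁ ka hbS hbW hr hrZ hkap hkaZ Prd W W1 hW1 hyp
  have hZ0 : 0 < Z := by linarith
  have hY0 : 0 < Y := by linarith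
  have hB0 : 0 ≤ C * Z ^ ε * (if 1 ≤ Lt then ∑ jj : Bool, nfx jj Lt (Il N Lt Y) * W1 jj
      else 0) := by
    split_ifs with h1
    · have hLt0 : 0 < Lt := by linarith
      have hIl : 0 < Il N Lt Y := by unfold Il; positivity
      refine mul_nonneg (by positivity) (Finset.sum_nonneg fun jj _ => ?_)
      exact mul_nonneg (nfx_nonneg jj hLt0.le hIl.le) (hW1 jj)
    · simp
  refine BsQ_le_of hB0 fun hLt j hj ρ hρ => ?_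
  obtain ⟨hLN, hPr, hWs, hW1le, hTW⟩ := hyp hLt
  have hρ1 : (1 : ℝ) ≤ nm ρ := one_le_nm' hρ
  have hρ0 : (0 : ℝ) < nm ρ := by linarith
  have hLt0 : 0 < Lt := by linarith
  have hlm := lmQ_one hLt j
  have hlm0 : 0 < lmQ Lt j := by linarith
  set Z' : ℝ := Z * nm ρ with hZ'
  have hZZ : Z ≤ Z' := le_mul_of_one_le_right hZ0.le hρ1
  have hZ'1 : 1 ≤ Z' := hZ.trans hZZ
  have hρZ : (nm ρ : ℝ) ≤ 2 * Z' ^ 2 := by
    have h1 : (nm ρ : ℝ) ≤ Z' := le_mul_of_one_le_left hρ0.le hZ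
    nlinarith
  have key := h A' hA' Z' N Y Lt hZ'1 hN (hNZ.trans hZZ) hY (hYZ.trans hZZ) hLt (hLZ.trans hZZ)
    hLN ka hkap (hkaZ.trans hZZ) ({()} : Finset Unit) (fun _ => b) (fun _ => Y)
    (fun _ => r₁) (fun _ _ => ⟨by linarith, le_rfl⟩)
    (fun _ _ n hn => by
      have h1 := (mem_S hZ0.le).1 (hbS n hn)
      exact (mem_S (by linarith)).2 ⟨h1.1.trans hZZ, h1.2⟩)
    (fun _ _ => hbW) (fun _ _ => ⟨hr, hrZ.trans hZZ⟩) (fun _ => Prd) (fun _ _ => hPr) W hWs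
    (by simpa only [Finset.sum_singleton] using hTW) W1 hW1 hW1le (lmQ Lt j) hlm (lmQ_le Lt j)
    (fun _ => ρ) (fun _ _ => ⟨hρ, hρZ⟩)
  simp only [Finset.sum_singleton] at key
  unfold FQ
  rw [if_pos hLt]
  have hIl : 0 < Il N Lt Y := by unfold Il; positivity
  set Sx : ℝ := ∑ jj : Bool, nfx jj Lt (Il N Lt Y) * W1 jj with hSx
  have e1 : (Lt / lmQ Lt j) ^ (1 / 3 : ℝ) * (lmQ Lt j / Lt) ^ (1 / 3 : ℝ) = 1 := by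
    rw [← Real.mul_rpow (by positivity) (by positivity)]
    have : Lt / lmQ Lt j * (lmQ Lt j / Lt) = 1 := by field_simp
    rw [this, Real.one_rpow]
  have e2 : (nm ρ : ℝ) ^ (-ε) * (nm ρ : ℝ) ^ ε = 1 := by
    rw [← Real.rpow_add hρ0]; simp
  have e3 : Z' ^ ε = Z ^ ε * (nm ρ : ℝ) ^ ε := Real.mul_rpow hZ0.le hρ0.le
  calc (nm ρ : ℝ) ^ (-ε) * ((Lt / lmQ Lt j) ^ (1 / 3 : ℝ) * (Y⁻¹ *
        ∫ t, jb A' t * ∑ κ ∈ KSa (lmQ Lt j) ka,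
        ‖StrQ χ v Y t b κ ρ r₁ (cw * Y) ((Lt / lmQ Lt j) ^ (1 / 3 : ℝ))‖ ^ 2))
      ≤ (nm ρ : ℝ) ^ (-ε) * ((Lt / lmQ Lt j) ^ (1 / 3 : ℝ) * (Y⁻¹ *
        ((lmQ Lt j / Lt) ^ (1 / 3 : ℝ) * (Y * (C * Z' ^ ε * Sx))))) := by
        gcongr
    _ = ((nm ρ : ℝ) ^ (-ε) * (nm ρ : ℝ) ^ ε) * ((Lt / lmQ Lt j) ^ (1 / 3 : ℝ) *
        (lmQ Lt j / Lt) ^ (1 / 3 : ℝ)) * (Y⁻¹ * Y) *
        (C * Z ^ ε * Sx) := by rw [e3]; ring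
    _ = _ := by rw [e1, e2, inv_mul_cancel₀ hY0.ne']; ring

end Crest.Agent.R017.MX744
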