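import Crest.Agent.R017.MTX3_241
import Crest.Agent.R017.XHB1_411

/-!
# Row 17, T.5 / T.7, leaf E2-d (helper537): the polar direct part by the large sieve

The polar direct part (`B > B0`) of the error functionals of helper440 for an ARBITRARY bounded
sequence, from Heath-Brown's cubic large sieve alone: no joint blocks, no levels above `N₁`.

* `hb_tgf`   : the large sieve, Gauss side, one dilation, one fixed frequency
* `mt_core`  : the core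
* `mtl_PJ`   : in the weights of `REb` (replaces `MTX241.mtx_PJ`)
* `mtl_cell` : in the form of `Qs_cellsJ` (helper401), hypothesis `hT`
-/

set_option autoImplicit false

noncomputable section

open MeasureTheory Finset Filter
open scoped ComplexConjugate Classical ContDiff

namespace Crest.Agent.R017.MTL537

open Crest.Agent.R012
open Eis CharSum852 Gauss880 LS2 CR2 MelSep811
open Crest.Agent.R012.Weight600 (osc norm_osc ker pw norm_pw)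
open Crest.Agent.R012.Char766 (sy_mul_left)
open Crest.Agent.R012.Mob705 (pdiv mem_pdiv)
open Crest.Agent.R017.CM106 (CS TG FS sub)
open Crest.Agent.R017.E2440 (MT ag C4 mem_C4 RR PJ prs mem_prs)
open Crest.Agent.R017.PX764 (Gh n6 Gh_mul n6_mul)
open Crest.Agent.R017.Win813
open Crest.Agent.R017.RGw813 (bt T9)
open Crest.Agent.R017.MTX241
open Crest.Agent.R017.XHB411 (HBa HBa_nonneg HBa_mono allB)

/-- the number of squarefree primary multiples of `a` -/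
lemma card_mult {N : ℝ} (hN : 0 ≤ N) {a : Eis} (ha : IsPrim a) :
    (((S N).filter (fun n => a ∣ n)).card : ℝ) ≤ 16 * (N / nm a) := by
  have ha0 : (0 : ℝ) < nm a := by exact_mod_cast nm_pos.2 ha.ne_zero
  have h1 : (S N).filter (fun n => a ∣ n) ⊆ (S (N / nm a)).image (fun m => a * m) := by
    intro n hn
    obtain ⟨h2, m, rfl⟩ := Finset.mem_filter.1 hn
    obtain ⟨h3, h4, h5⟩ := (mem_S hN).1 h2
    refine Finset.mem_image.2 ⟨m, (mem_S (by positivity)).2 ⟨?_, IsPrim.of_mul_left h4 ha,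
      h5.squarefree_of_dvd (Dvd.intro_left _ rfl)⟩, rfl⟩
    rw [nm_mul] at h3
    push_cast at h3
    rw [le_div_iff₀ ha0]
    linarith
  have h2 := (Finset.card_le_card h1).trans Finset.card_image_le
  have h3 : S (N / nm a) ⊆ bl (N / nm a) := fun n hn => by
    rw [mem_S (by positivity)] at hn
    rw [mem_bl (by positivity)]
    exact ⟨hn.2.1.ne_zero, hn.1⟩
  calc (((S N).filter (fun n => a ∣ n)).card : ℝ) ≤ ((bl (N / nm a)).card : ℝ) := by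
        exact_mod_cast h2.trans (Finset.card_le_card h3)
    _ ≤ _ := CR2.card_bl_le (by positivity)

/-- **the large sieve on the Gauss side**, one dilation `g`, a fixed frequency `l`, the sequence
supported on the multiples of `a` -/
lemma hb_tgf {ε : ℝ} (hε : 0 < ε) : ∃ C : ℝ, 0 ≤ C ∧
    ∀ (V N Ax : ℝ) (x : Eis → ℂ) (g l a : Eis) (t : ℝ), 0 < V → 0 ≤ N → 0 ≤ Ax → IsPrim a →
    (∀ m, x (g * m) ≠ 0 → IsPrim m ∧ Squarefree m ∧ (nm m : ℝ) ≤ N ∧ a ∣ m) →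
    (∀ m, ‖x (g * m)‖ ≤ Ax) →
    ∑ k ∈ bl V, tgf x g (k * l) t ≤ C * (V * N) ^ ε * (HBa V N * (N / nm a * Ax ^ 2)) := by
  obtain ⟨C, hC, hls⟩ := allB ε hε
  refine ⟨16 * C, by positivity, ?_⟩
  intro V N Ax x g l a t hV hN0 hAx ha hx hxA
  have hnn : 0 ≤ 16 * C * (V * N) ^ ε * (HBa V N * (N / nm a * Ax ^ 2)) := by
    have := HBa_nonneg hV.le hN0
    positivity
  by_cases hV1 : V < 1
  · have hbl : bl V = ∅ := by
      rw [Finset.eq_empty_iff_forall_notMem]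
      intro k hk
      obtain ⟨h0, h1⟩ := (mem_bl hV.le).mp hk
      have h2 : (1 : ℝ) ≤ nm k := by exact_mod_cast nm_pos.2 h0
      linarith
    rw [hbl, Finset.sum_empty]
    exact hnn
  push Not at hV1
  by_cases hN : N < 1
  · have hz : ∀ m, x (g * m) = 0 := by
      intro m
      by_contra h
      obtain ⟨h1, -, h3, -⟩ := hx m h
      have h2 : (1 : ℝ) ≤ nm m := by exact_mod_cast nm_pos.2 h1.ne_zero
      linarith
    refine le_trans (le_of_eq (Finset.sum_eq_zero fun k _ => ?_)) hnn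
    exact tgf_zero hz (k * l) t
  push Not at hN
  set c : Eis → ℂ := fun m => conj (x (g * m) * pw t (nm m) * (G m * conj (sy l m))) with hc
  have hSF : CR290.IsSF (S N) N := fun n hn => by
    obtain ⟨h1, h2, h3⟩ := (mem_S hN0).1 hn
    exact ⟨h2, h3, h1⟩
  have h1 := hls V N hV1 hN (bl V) (S N) (fun h hh => (mem_bl hV.le).1 hh) hSF c
  have e1 : ∀ k ∈ bl V, tgf x g (k * l) t = ‖CR290.F (S N) c k‖ ^ 2 := by
    intro k _
    unfold Win813.tgf CM106.TG CR290.F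
    congr 1
    rw [tsum_eq_sum (s := S N), ← RCLike.norm_conj]
    · congr 1
      rw [map_sum]
      refine Finset.sum_congr rfl fun m hm => ?_
      obtain ⟨-, h2, -⟩ := (mem_S hN0).1 hm
      simp only [hc]
      rw [sy_mul_left (x := k) (y := l) h2]
      simp only [map_mul, Complex.conj_conj]
      ring
    · intro m hm
      have h0 : x (g * m) = 0 := by
        by_contra h
        obtain ⟨h1, h2, h3, -⟩ := hx m h
        exact hm ((mem_S hN0).2 ⟨h3, h1, h2⟩)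
      simp [h0]
  rw [Finset.sum_congr rfl e1]
  refine h1.trans ?_
  have h2 : ∑ n ∈ S N, ‖c n‖ ^ 2 ≤ 16 * (N / nm a) * Ax ^ 2 := by
    have h3 : ∀ n ∈ (S N).filter (fun n => a ∣ n), ‖c n‖ ^ 2 ≤ Ax ^ 2 := by
      intro n hn
      obtain ⟨-, hp, -⟩ := (mem_S hN0).1 (Finset.mem_filter.1 hn).1
      have h4 : ‖c n‖ ≤ Ax := by
        simp only [hc]
        rw [RCLike.norm_conj, norm_mul, norm_mul, norm_mul, norm_pw, RCLike.norm_conj, mul_one]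
        have h5 := hxA n
        have h6 := Gauss880.norm_G_le Gauss880.syG hp
        have h7 : ‖sy l n‖ ≤ 1 := CF61.norm_sy_le l n
        have h8 : ‖G n‖ * ‖sy l n‖ ≤ 1 := mul_le_one₀ h6 (norm_nonneg _) h7
        calc ‖x (g * n)‖ * (‖G n‖ * ‖sy l n‖) ≤ Ax * 1 := by gcongr
          _ = Ax := mul_one _
      exact pow_le_pow_left₀ (norm_nonneg _) h4 2
    have h4 : ∑ n ∈ S N, ‖c n‖ ^ 2 = ∑ n ∈ (S N).filter (fun n => a ∣ n), ‖c n‖ ^ 2 := by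
      symm
      refine Finset.sum_subset (Finset.filter_subset _ _) fun n hn hn' => ?_
      have h0 : x (g * n) = 0 := by
        by_contra h
        obtain ⟨-, -, -, h5⟩ := hx n h
        exact hn' (Finset.mem_filter.2 ⟨hn, h5⟩)
      simp [hc, h0]
    rw [h4]
    refine (Finset.sum_le_card_nsmul _ _ _ h3).trans ?_
    rw [nsmul_eq_mul]
    exact mul_le_mul_of_nonneg_right (card_mult hN0 ha) (by positivity)
  have h3 : 0 ≤ C * (V * N) ^ ε * HBa V N := by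
    have := HBa_nonneg hV.le hN0
    positivity
  calc C * (V * N) ^ ε * HBa V N * ∑ n ∈ S N, ‖c n‖ ^ 2 ≤
      C * (V * N) ^ ε * HBa V N * (16 * (N / nm a) * Ax ^ 2) := mul_le_mul_of_nonneg_left h2 h3
    _ = _ := by ring

/-- the weights of the common divisors -/
lemma sum_gcd {Y : ℝ} (hY : 1 ≤ Y) (a : Eis) (ha : a ≠ 0) :
    ∑ B ∈ S Y, ∑ f ∈ Div277.dvs a, (if f ∣ B then (nm f : ℝ) / nm B else 0) ≤
      Div277.tau a * (100 * (1 + Real.log Y)) := by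
  have hY0 : 0 ≤ Y := by linarith
  rw [Finset.sum_comm]
  have h1 : ∀ f ∈ Div277.dvs a, ∑ B ∈ S Y, (if f ∣ B then (nm f : ℝ) / nm B else 0) ≤
      100 * (1 + Real.log Y) := by
    intro f hf
    obtain ⟨hfp, -⟩ := (Div277.mem_dvs ha).1 hf
    have hf0 : (0 : ℝ) < nm f := by exact_mod_cast nm_pos.2 hfp.ne_zero
    have hf1 : (1 : ℝ) ≤ nm f := by exact_mod_cast nm_pos.2 hfp.ne_zero
    rw [← Finset.sum_filter]
    have h2 : (S Y).filter (fun B => f ∣ B) ⊆ (S Y).image (fun m => f * m) := by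
      intro B hB
      obtain ⟨h2, m, rfl⟩ := Finset.mem_filter.1 hB
      obtain ⟨h3, h4, h5⟩ := (mem_S hY0).1 h2
      refine Finset.mem_image.2 ⟨m, (mem_S hY0).2 ⟨?_, IsPrim.of_mul_left h4 hfp,
        h5.squarefree_of_dvd (Dvd.intro_left _ rfl)⟩, rfl⟩
      rw [nm_mul] at h3
      push_cast at h3
      have h6 : (0 : ℝ) ≤ nm m := Nat.cast_nonneg _
      nlinarith
    refine (Finset.sum_le_sum_of_subset_of_nonneg h2 fun _ _ _ => by positivity).trans ?_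
    rw [Finset.sum_image fun a _ b _ hab => mul_left_cancel₀ hfp.ne_zero hab]
    refine le_trans (Finset.sum_le_sum fun m hm => ?_) (sum_inv_SY hY)
    rw [nm_mul]
    push_cast
    rw [div_mul_cancel_left₀ hf0.ne', one_div]
  refine (Finset.sum_le_card_nsmul _ _ _ h1).trans (le_of_eq ?_)
  rw [nsmul_eq_mul]
  rfl

/-- the number of the polar part -/
def ML (V N : ℝ) : ℝ := V ^ ((2 : ℝ) / 3) + N + V ^ ((1 : ℝ) / 3) * N ^ ((2 : ℝ) / 3)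

lemma ML_nonneg {V N : ℝ} (hV : 0 ≤ V) (hN : 0 ≤ N) : 0 ≤ ML V N := by
  unfold ML; positivity

lemma ML_mono {V V' N N' : ℝ} (hV : 0 ≤ V) (hN : 0 ≤ N) (hVV : V ≤ V') (hNN : N ≤ N') :
    ML V N ≤ ML V' N' := by
  have hV' : 0 ≤ V' := hV.trans hVV
  unfold ML; gcongr

/-- `HBa V (r N) ≤ r V^(1/3) ML V N` -/
lemma HBa_le_ML {V N r : ℝ} (hV : 0 < V) (hN : 0 ≤ N) (hr : 1 ≤ r) :
    HBa V (r * N) ≤ r * (V ^ ((1 : ℝ) / 3) * ML V N) := by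
  have hr0 : 0 ≤ r := by linarith
  unfold XHB411.HBa ML
  have e1 : V ^ ((1 : ℝ) / 3) * V ^ ((2 : ℝ) / 3) = V := by
    rw [← Real.rpow_add hV]; norm_num
  have e2 : (V * (r * N)) ^ ((2 : ℝ) / 3) ≤ r * (V ^ ((1 : ℝ) / 3) *
      (V ^ ((1 : ℝ) / 3) * N ^ ((2 : ℝ) / 3))) := by
    rw [Real.mul_rpow hV.le (by positivity), Real.mul_rpow hr0 hN]
    have h1 : r ^ ((2 : ℝ) / 3) ≤ r := by
      calc r ^ ((2 : ℝ) / 3) ≤ r ^ (1 : ℝ) :=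
            Real.rpow_le_rpow_of_exponent_le hr (by norm_num)
        _ = r := Real.rpow_one r
    have h2 : V ^ ((1 : ℝ) / 3) * V ^ ((1 : ℝ) / 3) = V ^ ((2 : ℝ) / 3) := by
      rw [← Real.rpow_add hV]; norm_num
    calc V ^ ((2 : ℝ) / 3) * (r ^ ((2 : ℝ) / 3) * N ^ ((2 : ℝ) / 3)) ≤
        V ^ ((2 : ℝ) / 3) * (r * N ^ ((2 : ℝ) / 3)) := by gcongr
      _ = r * ((V ^ ((1 : ℝ) / 3) * V ^ ((1 : ℝ) / 3)) * N ^ ((2 : ℝ) / 3)) := by rw [h2]; ring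
      _ = _ := by ring
  have e3 : V ≤ r * V := le_mul_of_one_le_left hV.le hr
  calc V + r * N * V ^ ((1 : ℝ) / 3) + (V * (r * N)) ^ ((2 : ℝ) / 3) ≤
      r * V + r * N * V ^ ((1 : ℝ) / 3) + r * (V ^ ((1 : ℝ) / 3) *
      (V ^ ((1 : ℝ) / 3) * N ^ ((2 : ℝ) / 3))) := add_le_add (add_le_add e3 le_rfl) e2
    _ = r * (V ^ ((1 : ℝ) / 3) * V ^ ((2 : ℝ) / 3)) + r * N * V ^ ((1 : ℝ) / 3) +
        r * (V ^ ((1 : ℝ) / 3) * (V ^ ((1 : ℝ) / 3) * N ^ ((2 : ℝ) / 3))) := by rw [e1]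
    _ = _ := by ring

/-- the weight `(N n)^(-1/6)` in a window -/
lemma n6_le {R X : ℝ} (hX : 0 < X) {n : Eis} (hn : n ≠ 0)
    (h : |Real.log (nm n) - Real.log X| ≤ R) :
    n6 n ≤ Real.exp (R / 6) * X ^ (-(1 : ℝ) / 6) := by
  have hn0 : (0 : ℝ) < nm n := by exact_mod_cast nm_pos.2 hn
  unfold PX764.n6
  rw [Real.rpow_def_of_pos hn0, Real.rpow_def_of_pos hX, ← Real.exp_add]
  refine Real.exp_le_exp.2 ?_
  have := (abs_le.mp h).1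
  linarith

/-- **(LS)**: all dilations `B ≥ B0` in `T`; the sequence `x (δ ·)` supported on multiples of
`a₁` -/
theorem ls_T {ε : ℝ} (hε : 0 < ε) {r₀ : ℝ} (hr1 : 1 ≤ r₀) : ∃ C : ℝ, 0 ≤ C ∧
    ∀ (Y X Q Ax V B0 : ℝ) (x : Eis → ℂ) (δ a₁ : Eis) (t : ℝ), 1 ≤ Y → 0 < X → 0 ≤ Ax → 0 < V →
    0 < B0 → Y ≤ Q → V ≤ Q → (∀ n, x n ≠ 0 → n ∈ S Y) →
    (∀ n, x n ≠ 0 → (nm n : ℝ) ≤ r₀ * X) → (∀ n, ‖x n‖ ≤ Ax) →
    IsPrim δ → IsPrim a₁ → Squarefree a₁ → (nm a₁ : ℝ) ≤ Q → (∀ m, x (δ * m) ≠ 0 → a₁ ∣ m) →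
    ∀ T : Finset Eis, (∀ B ∈ T, B ∈ S Y ∧ B0 ≤ nm B) →
    ∑ B ∈ T, (nm B : ℝ)⁻¹ * ∑ k ∈ bl V, tgf x (δ * B) (k * B) t ≤
      C * Q ^ ε * (Ax ^ 2 * (X / (nm δ * nm a₁ * B0)) * HBa V (r₀ * (X / B0))) := by
  have hε2 : 0 < ε / 2 := by linarith
  have hε4 : 0 < ε / 4 := by linarith
  have hε8 : 0 < ε / 8 := by linarith
  obtain ⟨C₂, hC₂, hτ⟩ := Div277.tau_le_rpow hε4
  obtain ⟨C₃, hC₃, hls⟩ := hb_tgf hε8
  have hC₂0 : 0 ≤ C₂ := by linarith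
  have hr0 : 0 < r₀ := by linarith
  refine ⟨C₂ * C₃ * r₀ ^ (ε / 8) * r₀ * (100 * (1 + (ε / 4)⁻¹)), by positivity, ?_⟩
  intro Y X Q Ax V B0 x δ a₁ t hY hX hAx hV hB0 hYQ hVQ hx hxX hxA hδ ha₁ has haQ hxa T hT
  have hY0 : 0 ≤ Y := by linarith
  have hQ1 : 1 ≤ Q := hY.trans hYQ
  have hQ0 : 0 < Q := by linarith
  have hδ1 : (1 : ℝ) ≤ nm δ := by exact_mod_cast nm_pos.2 hδ.ne_zero
  have hδ0 : (0 : ℝ) < nm δ := by linarith
  have ha0 : (0 : ℝ) < nm a₁ := by exact_mod_cast nm_pos.2 ha₁.ne_zero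
  set H₀ := HBa V (r₀ * (X / B0)) with hH₀
  have hH₀0 : 0 ≤ H₀ := HBa_nonneg hV.le (by positivity)
  set wB : Eis → ℝ := fun B => ∑ f ∈ Div277.dvs a₁, (if f ∣ B then (nm f : ℝ) / nm B else 0)
    with hwB
  have hwB0 : ∀ B, 0 ≤ wB B := fun B => Finset.sum_nonneg fun f _ => by
    split_ifs <;> positivity
  set W := C₃ * (r₀ ^ (ε / 8) * Q ^ (ε / 4)) * (H₀ * (r₀ * X / nm δ * Ax ^ 2)) with hW
  have hW0 : 0 ≤ W := by positivity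
  have hone : ∀ B ∈ T, (nm B : ℝ)⁻¹ * ∑ k ∈ bl V, tgf x (δ * B) (k * B) t ≤
      W * (B0⁻¹ * ((nm a₁ : ℝ)⁻¹ * wB B)) := by
    intro B hB
    obtain ⟨hBS, hBB⟩ := hT B hB
    obtain ⟨hBY, hBp, hBs⟩ := (mem_S hY0).1 hBS
    have hBn : (0 : ℝ) < nm B := by exact_mod_cast nm_pos.2 hBp.ne_zero
    have hBn1 : (1 : ℝ) ≤ nm B := by exact_mod_cast nm_pos.2 hBp.ne_zero
    have hg : IsPrim (δ * B) := hδ.mul hBp
    obtain ⟨f, k1, k2, hf, hk1, hk2, e1, e2, hc12, hcf1, hcf2, -, -, -⟩ :=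
      Tau671.exists_gcd_split ha₁ hBp has hBs
    have hk10 : (0 : ℝ) < nm k1 := by exact_mod_cast nm_pos.2 hk1.ne_zero
    have hf0 : (0 : ℝ) < nm f := by exact_mod_cast nm_pos.2 hf.ne_zero
    have hcop : IsCoprime k1 B := by
      rw [e2]
      exact IsCoprime.mul_right hcf1.symm hc12
    set N := min (r₀ * X / nm δ / nm B) Y with hN
    have hN0 : 0 ≤ N := le_min (by positivity) hY0
    have h1 := hls V N Ax x (δ * B) B k1 t hV hN0 hAx hk1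
      (by
        intro m hm
        obtain ⟨g1, g2, g3⟩ := (mem_S hY0).1 (hx _ hm)
        have hmp : IsPrim m := IsPrim.of_mul_left g2 hg
        have hmn : (0 : ℝ) < nm m := by exact_mod_cast nm_pos.2 hmp.ne_zero
        refine ⟨hmp, g3.squarefree_of_dvd (Dvd.intro_left _ rfl), le_min ?_ ?_, ?_⟩
        · have h3 := hxX _ hm
          rw [nm_mul, nm_mul] at h3
          push_cast at h3
          rw [le_div_iff₀ hBn, le_div_iff₀ hδ0]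
          linarith [mul_comm (nm m : ℝ) (nm B), mul_assoc (nm δ : ℝ) (nm B) (nm m)]
        · refine le_trans ?_ g1
          exact_mod_cast Div277.nm_le_of_dvd g2.ne_zero (Dvd.intro_left _ rfl)
        · have h3 : a₁ ∣ B * m := hxa (B * m) (by rw [← mul_assoc]; exact hm)
          have h4 : k1 ∣ B * m := (Dvd.intro_left f e1.symm).trans h3
          exact hcop.dvd_of_dvd_mul_left h4)
      (fun m => hxA _)
    have hNle : N ≤ r₀ * (X / B0) := by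
      refine (min_le_left _ _).trans ?_
      rw [← mul_div_assoc, div_div]
      refine div_le_div_of_nonneg_left (by positivity) hB0 ?_
      calc B0 ≤ nm B := hBB
        _ ≤ nm δ * nm B := le_mul_of_one_le_left hBn.le hδ1
    have h2 : HBa V N ≤ H₀ := HBa_mono hV.le hN0 hNle
    have h3 : (V * N) ^ (ε / 8) ≤ r₀ ^ (ε / 8) * Q ^ (ε / 4) := by
      have h4 : V * N ≤ r₀ * (Q * Q) := by
        have h5 : V * N ≤ Q * Q :=
          mul_le_mul hVQ ((min_le_right _ _).trans hYQ) hN0 hQ0.le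
        have h6 : Q * Q ≤ r₀ * (Q * Q) := le_mul_of_one_le_left (by positivity) hr1
        linarith
      calc (V * N) ^ (ε / 8) ≤ (r₀ * (Q * Q)) ^ (ε / 8) :=
            Real.rpow_le_rpow (by positivity) h4 hε8.le
        _ = r₀ ^ (ε / 8) * (Q ^ (ε / 8) * Q ^ (ε / 8)) := by
            rw [Real.mul_rpow hr0.le (by positivity), Real.mul_rpow hQ0.le hQ0.le]
        _ = _ := by rw [← Real.rpow_add hQ0]; congr 2; ring
    have h5 : N / nm k1 * Ax ^ 2 ≤ (r₀ * X / nm δ / nm B) / nm k1 * Ax ^ 2 := by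
      have := min_le_left (r₀ * X / nm δ / nm B) Y
      gcongr
    have hHN : 0 ≤ HBa V N := HBa_nonneg hV.le hN0
    have h6 : ∑ k ∈ bl V, tgf x (δ * B) (k * B) t ≤
        W * ((nm B : ℝ)⁻¹ * (nm k1 : ℝ)⁻¹) := by
      refine h1.trans ?_
      calc C₃ * (V * N) ^ (ε / 8) * (HBa V N * (N / nm k1 * Ax ^ 2)) ≤
          C₃ * (r₀ ^ (ε / 8) * Q ^ (ε / 4)) *
            (H₀ * ((r₀ * X / nm δ / nm B) / nm k1 * Ax ^ 2)) := by
            gcongr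
        _ = _ := by rw [hW]; field_simp
    have h7 : (nm k1 : ℝ)⁻¹ = (nm a₁ : ℝ)⁻¹ * nm f := by
      rw [e1, nm_mul]
      push_cast
      field_simp
    have h8 : (nm f : ℝ) / nm B ≤ wB B := by
      have h9 : f ∈ Div277.dvs a₁ := (Div277.mem_dvs ha₁.ne_zero).2 ⟨hf, Dvd.intro _ e1.symm⟩
      have h10 := Finset.single_le_sum (f := fun f => if f ∣ B then (nm f : ℝ) / nm B else 0)
        (fun f _ => by split_ifs <;> positivity) h9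
      have h11 : f ∣ B := Dvd.intro _ e2.symm
      simp only [if_pos h11] at h10
      exact h10
    have h12 : (nm B : ℝ)⁻¹ ≤ B0⁻¹ := inv_anti₀ hB0 hBB
    calc (nm B : ℝ)⁻¹ * ∑ k ∈ bl V, tgf x (δ * B) (k * B) t ≤
        (nm B : ℝ)⁻¹ * (W * ((nm B : ℝ)⁻¹ * (nm k1 : ℝ)⁻¹)) := by gcongr
      _ = W * ((nm B : ℝ)⁻¹ * ((nm a₁ : ℝ)⁻¹ * ((nm f : ℝ) / nm B))) := by
          rw [h7, div_eq_mul_inv]; ring
      _ ≤ W * (B0⁻¹ * ((nm a₁ : ℝ)⁻¹ * wB B)) := by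
          have := hwB0 B
          gcongr
  refine (Finset.sum_le_sum hone).trans ?_
  rw [← Finset.mul_sum, ← Finset.mul_sum, ← Finset.mul_sum]
  have h9 : ∑ B ∈ T, wB B ≤ C₂ * Q ^ (ε / 4) * (100 * ((1 + (ε / 4)⁻¹) * Q ^ (ε / 4))) := by
    have h10 : ∑ B ∈ T, wB B ≤ ∑ B ∈ S Y, wB B :=
      Finset.sum_le_sum_of_subset_of_nonneg (fun B hB => (hT B hB).1) fun B _ _ => hwB0 B
    refine h10.trans ((sum_gcd hY a₁ ha₁.ne_zero).trans ?_)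
    have h11 : (Div277.tau a₁ : ℝ) ≤ C₂ * Q ^ (ε / 4) := by
      refine (hτ a₁ ha₁.ne_zero).trans (mul_le_mul_of_nonneg_left ?_ hC₂0)
      exact Real.rpow_le_rpow ha0.le haQ hε4.le
    have h12 : 100 * (1 + Real.log Y) ≤ 100 * ((1 + (ε / 4)⁻¹) * Q ^ (ε / 4)) :=
      mul_le_mul_of_nonneg_left (one_add_log hY hYQ hε4) (by norm_num)
    have h13 : 0 ≤ 100 * (1 + Real.log Y) := by
      have := Real.log_nonneg hY
      positivity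
    exact mul_le_mul h11 h12 h13 (by positivity)
  refine (mul_le_mul_of_nonneg_left (mul_le_mul_of_nonneg_left
    (mul_le_mul_of_nonneg_left h9 (by positivity)) (by positivity)) hW0).trans ?_
  have e6 : Q ^ (ε / 4) * Q ^ (ε / 4) * Q ^ (ε / 4) ≤ Q ^ ε := by
    rw [← Real.rpow_add hQ0, ← Real.rpow_add hQ0]
    exact Real.rpow_le_rpow_of_exponent_le hQ1 (by linarith)
  calc W * (B0⁻¹ * ((nm a₁ : ℝ)⁻¹ *
        (C₂ * Q ^ (ε / 4) * (100 * ((1 + (ε / 4)⁻¹) * Q ^ (ε / 4)))))) =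
        C₂ * C₃ * r₀ ^ (ε / 8) * r₀ * (100 * (1 + (ε / 4)⁻¹)) *
          (Q ^ (ε / 4) * Q ^ (ε / 4) * Q ^ (ε / 4)) *
          (Ax ^ 2 * (X / (nm δ * nm a₁ * B0)) * H₀) := by
        rw [hW]; field_simp
    _ ≤ C₂ * C₃ * r₀ ^ (ε / 8) * r₀ * (100 * (1 + (ε / 4)⁻¹)) * Q ^ ε *
          (Ax ^ 2 * (X / (nm δ * nm a₁ * B0)) * H₀) := by gcongr

/-- **(LS)**, the sequence supported on multiples of `a` -/
theorem ls_Ta {ε : ℝ} (hε : 0 < ε) {r₀ : ℝ} (hr1 : 1 ≤ r₀) : ∃ C : ℝ, 0 ≤ C ∧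
    ∀ (Y X Q Ax V B0 : ℝ) (x : Eis → ℂ) (δ a : Eis) (t : ℝ), 1 ≤ Y → 0 < X → 0 ≤ Ax → 0 < V →
    0 < B0 → Y ≤ Q → V ≤ Q → (∀ n, x n ≠ 0 → n ∈ S Y) →
    (∀ n, x n ≠ 0 → (nm n : ℝ) ≤ r₀ * X) → (∀ n, ‖x n‖ ≤ Ax) →
    IsPrim δ → Squarefree δ → IsPrim a → Squarefree a → (nm a : ℝ) ≤ Q →
    (∀ n, x n ≠ 0 → a ∣ n) →
    ∀ T : Finset Eis, (∀ B ∈ T, B ∈ S Y ∧ B0 ≤ nm B) →
    ∑ B ∈ T, (nm B : ℝ)⁻¹ * ∑ k ∈ bl V, tgf x (δ * B) (k * B) t ≤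
      C * Q ^ ε * (Ax ^ 2 * (X / (nm a * B0)) * HBa V (r₀ * (X / B0))) := by
  obtain ⟨C, hC, h⟩ := ls_T hε hr1
  refine ⟨C, hC, ?_⟩
  intro Y X Q Ax V B0 x δ a t hY hX hAx hV hB0 hYQ hVQ hx hxX hxA hδ hδs ha has haQ hxa T hT
  have hQ0 : 0 < Q := by linarith
  obtain ⟨f, k1, k2, hf, hk1, hk2, e1, e2, hc12, hcf1, hcf2, -, hsk, -⟩ :=
    Tau671.exists_gcd_split ha hδ has hδs
  have hk10 : (0 : ℝ) < nm k1 := by exact_mod_cast nm_pos.2 hk1.ne_zero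
  have hf0 : (0 : ℝ) < nm f := by exact_mod_cast nm_pos.2 hf.ne_zero
  have hf1 : (1 : ℝ) ≤ nm f := by exact_mod_cast nm_pos.2 hf.ne_zero
  have hk21 : (1 : ℝ) ≤ nm k2 := by exact_mod_cast nm_pos.2 hk2.ne_zero
  have ha0 : (0 : ℝ) < nm a := by exact_mod_cast nm_pos.2 ha.ne_zero
  have hcop : IsCoprime k1 δ := by
    rw [e2]
    exact IsCoprime.mul_right hcf1.symm hc12
  have hn1 : (nm a : ℝ) = nm f * nm k1 := by rw [e1, nm_mul]; push_cast; ring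
  have hn2 : (nm δ : ℝ) = nm f * nm k2 := by rw [e2, nm_mul]; push_cast; ring
  have hk1Q : (nm k1 : ℝ) ≤ Q := by
    refine le_trans ?_ haQ
    rw [hn1]
    exact le_mul_of_one_le_left hk10.le hf1
  refine (h Y X Q Ax V B0 x δ k1 t hY hX hAx hV hB0 hYQ hVQ hx hxX hxA hδ hk1 hsk hk1Q
    (fun m hm => hcop.dvd_of_dvd_mul_left ((Dvd.intro_left f e1.symm).trans (hxa _ hm))) T
    hT).trans ?_
  have hH : 0 ≤ HBa V (r₀ * (X / B0)) := HBa_nonneg hV.le (by positivity)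
  have h2 : X / (nm δ * nm k1 * B0) ≤ X / (nm a * B0) := by
    refine div_le_div_of_nonneg_left hX.le (by positivity) ?_
    refine mul_le_mul_of_nonneg_right ?_ hB0.le
    rw [hn1, hn2]
    have h3 : (nm f : ℝ) * nm k1 ≤ nm f * nm k1 * nm k2 :=
      le_mul_of_one_le_right (by positivity) hk21
    linarith [mul_comm ((nm f : ℝ) * nm k1) (nm k2), mul_assoc (nm f : ℝ) (nm k2) (nm k1),
      mul_assoc (nm f : ℝ) (nm k1) (nm k2), mul_comm (nm k1 : ℝ) (nm k2)]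
  have hQe : 0 ≤ Q ^ ε := by positivity
  gcongr

/-- **the core**: all dilations `B ≥ B0` in `T`, all `(c, j₂, r)`; the sequence supported on
multiples of `a` -/
theorem mt_core {ε : ℝ} (hε : 0 < ε) {R : ℝ} (hR : 0 ≤ R) : ∃ C : ℝ, 0 ≤ C ∧
    ∀ (Y X Q Ax : ℝ) (α : Eis → ℂ), 1 ≤ Y → 0 < X → 0 ≤ Ax → (∀ n, α n ≠ 0 → n ∈ S Y) →
    (∀ n, α n ≠ 0 → |Real.log (nm n) - Real.log X| ≤ R) → (∀ n, ‖α n‖ ≤ Ax) →
    ∀ a : Eis, IsPrim a → Squarefree a → (nm a : ℝ) ≤ Q → (∀ n, α n ≠ 0 → a ∣ n) →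
    ∀ δ e A : Eis, IsPrim δ → Squarefree δ → IsPrim e → IsPrim A → ∀ Yl B0 J' : ℝ, 0 < Yl →
    0 < B0 → 0 ≤ J' →
    Y ≤ Q → Yl * (nm (e * A) : ℝ) ^ 3 ≤ Q → ∀ T : Finset Eis, (∀ B ∈ T, B ∈ S Y ∧ B0 ≤ nm B) →
    ∑ B ∈ T, (nm B : ℝ) ^ (-(4 : ℝ) / 3) * ∑ c ∈ C4, ∑ j ∈ S J',
        ∑ r ∈ (S (RR Yl e A c j)).filter (fun r => IsCoprime r 1 ∧ RR Yl e A c j / 2 < nm r),
          ‖MT (ag α δ δ) (e * A * j) B c r‖ ^ 2 ≤
      C * Q ^ ε * Ax ^ 2 * (nm δ / nm a) * (X ^ ((2 : ℝ) / 3) / B0 *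
        ((Yl * (nm (e * A) : ℝ) ^ 3) ^ ((1 : ℝ) / 3) *
        ML (Yl * (nm (e * A) : ℝ) ^ 3) (X / B0))) := by
  have hε2 : 0 < ε / 2 := by linarith
  set r₀ := Real.exp R with hr₀
  have hr1 : 1 ≤ r₀ := Real.one_le_exp hR
  have hr0 : 0 < r₀ := by linarith
  obtain ⟨C₂, hC₂, hτ⟩ := Div277.tau_le_rpow hε2
  obtain ⟨C₃, hC₃, hls⟩ := ls_Ta hε2 hr1
  have hC₂0 : 0 ≤ C₂ := by linarith
  refine ⟨4 * C₂ * C₃ * r₀ ^ 2, by positivity, ?_⟩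
  intro Y X Q Ax α hY hX hAx hα hw hαA a ha has haQ hαa δ e A hδ hδs he hA Yl B0 J' hYl hB0 hJ'
    hYQ hVQ T hT
  have hY0 : 0 ≤ Y := by linarith
  have hQ1 : 1 ≤ Q := hY.trans hYQ
  have hQ0 : 0 < Q := by linarith
  have hE0 : e * A ≠ 0 := mul_ne_zero he.ne_zero hA.ne_zero
  have hE : (0 : ℝ) < nm (e * A) := by exact_mod_cast nm_pos.2 hE0
  have hδ1 : (1 : ℝ) ≤ nm δ := by exact_mod_cast nm_pos.2 hδ.ne_zero
  have hδ0 : (0 : ℝ) < nm δ := by linarith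
  have ha0 : (0 : ℝ) < nm a := by exact_mod_cast nm_pos.2 ha.ne_zero
  set V₁ := Yl * (nm (e * A) : ℝ) ^ 3 with hV₁
  have hV₁0 : 0 < V₁ := by positivity
  set β : Eis → ℂ := fun n => α n * (n6 n : ℂ) with hβ
  set Ab : ℝ := Ax * (Real.exp (R / 6) * X ^ (-(1 : ℝ) / 6)) with hAb
  have hAb0 : 0 ≤ Ab := by positivity
  have hβA : ∀ n, ‖β n‖ ≤ Ab := by
    intro n
    simp only [hβ]
    by_cases h0 : α n = 0
    · rw [h0, zero_mul, norm_zero]; exact hAb0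
    · have hn := hα n h0
      have hn0 : n ≠ 0 := ((mem_S hY0).1 hn).2.1.ne_zero
      rw [norm_mul, Complex.norm_real, Real.norm_of_nonneg (n6_pos hn0).le]
      exact mul_le_mul (hαA n) (n6_le hX hn0 (hw n h0)) (n6_pos hn0).le hAx
  have hβ0 : ∀ n, β n ≠ 0 → α n ≠ 0 := fun n hn => left_ne_zero_of_mul hn
  -- one dilation
  have hone : ∀ B ∈ T, (nm B : ℝ) ^ (-(4 : ℝ) / 3) * ∑ c ∈ C4, ∑ j ∈ S J',
        ∑ r ∈ (S (RR Yl e A c j)).filter (fun r => IsCoprime r 1 ∧ RR Yl e A c j / 2 < nm r),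
          ‖MT (ag α δ δ) (e * A * j) B c r‖ ^ 2 ≤
      ((nm δ : ℝ) ^ ((1 : ℝ) / 3) * (4 * (C₂ * Q ^ (ε / 2)))) *
        ((nm B : ℝ)⁻¹ * ∑ k ∈ bl V₁, tgf β (δ * B) (k * B) 0) := by
    intro B hB
    obtain ⟨hBS, hBB⟩ := hT B hB
    have hBp := ((mem_S hY0).1 hBS).2.1
    have hBn : (0 : ℝ) < nm B := by exact_mod_cast nm_pos.2 hBp.ne_zero
    have h1 : ∑ c ∈ C4, ∑ j ∈ S J',
        ∑ r ∈ (S (RR Yl e A c j)).filter (fun r => IsCoprime r 1 ∧ RR Yl e A c j / 2 < nm r),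
          ‖MT (ag α δ δ) (e * A * j) B c r‖ ^ 2 ≤
        (nm (δ * B) : ℝ) ^ ((1 : ℝ) / 3) * (4 * ∑ k ∈ bl V₁, (Div277.tau k : ℝ) *
          tgf β (δ * B) (k * B) 0) := by
      have h2 := merge hYl hJ' he hA (F := fun k => tgf β (δ * B) (k * B) 0)
        (fun _ => tgf_nonneg _ _ _ _)
      refine le_trans ?_ (mul_le_mul_of_nonneg_left h2 (by positivity))
      simp only [Finset.mul_sum]
      refine Finset.sum_le_sum fun c _ => Finset.sum_le_sum fun j _ =>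
        Finset.sum_le_sum fun r _ => ?_
      have h3 := MT_sq_le hY0 hα hδ hBp (e * A * j) c r
      rw [← mul_assoc (c * r)] at h3
      exact h3
    have h4 : ∑ k ∈ bl V₁, (Div277.tau k : ℝ) * tgf β (δ * B) (k * B) 0 ≤
        C₂ * Q ^ (ε / 2) * ∑ k ∈ bl V₁, tgf β (δ * B) (k * B) 0 := by
      rw [Finset.mul_sum]
      refine Finset.sum_le_sum fun k hk => ?_
      obtain ⟨hk0, hkV⟩ := (mem_bl hV₁0.le).mp hk
      refine mul_le_mul_of_nonneg_right ((hτ k hk0).trans ?_) (tgf_nonneg _ _ _ _)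
      refine mul_le_mul_of_nonneg_left ?_ hC₂0
      exact Real.rpow_le_rpow (by positivity) (by linarith) hε2.le
    have e1 : (nm B : ℝ) ^ (-(4 : ℝ) / 3) * (nm (δ * B) : ℝ) ^ ((1 : ℝ) / 3) =
        (nm B : ℝ)⁻¹ * (nm δ : ℝ) ^ ((1 : ℝ) / 3) := by
      rw [nm_mul]
      push_cast
      rw [Real.mul_rpow hδ0.le hBn.le]
      have e2 : (nm B : ℝ) ^ (-(4 : ℝ) / 3) * (nm B : ℝ) ^ ((1 : ℝ) / 3) = (nm B : ℝ)⁻¹ := by
        rw [← Real.rpow_add hBn, ← Real.rpow_neg_one]; norm_num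
      rw [← e2]; ring
    calc _ ≤ (nm B : ℝ) ^ (-(4 : ℝ) / 3) * ((nm (δ * B) : ℝ) ^ ((1 : ℝ) / 3) *
          (4 * (C₂ * Q ^ (ε / 2) * ∑ k ∈ bl V₁, tgf β (δ * B) (k * B) 0))) :=
          mul_le_mul_of_nonneg_left (h1.trans (by gcongr)) (by positivity)
      _ = ((nm B : ℝ) ^ (-(4 : ℝ) / 3) * (nm (δ * B) : ℝ) ^ ((1 : ℝ) / 3)) *
          (4 * (C₂ * Q ^ (ε / 2) * ∑ k ∈ bl V₁, tgf β (δ * B) (k * B) 0)) := by ring
      _ = _ := by rw [e1]; ring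
  -- the large sieve
  have hLS := hls Y X Q Ab V₁ B0 β δ a 0 hY hX hAb0 hV₁0 hB0 hYQ hVQ
    (fun n hn => hα n (hβ0 n hn))
    (fun n hn => by
      have hn' := hβ0 n hn
      have hn0 : (0 : ℝ) < nm n := by
        exact_mod_cast nm_pos.2 ((mem_S hY0).1 (hα n hn')).2.1.ne_zero
      have h2 := (abs_le.mp (hw _ hn')).2
      calc (nm n : ℝ) = Real.exp (Real.log (nm n)) := (Real.exp_log hn0).symm
        _ ≤ Real.exp (R + Real.log X) := Real.exp_le_exp.2 (by linarith)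
        _ = r₀ * X := by rw [Real.exp_add, Real.exp_log hX])
    hβA hδ hδs ha has haQ (fun n hn => hαa n (hβ0 n hn)) T hT
  refine (Finset.sum_le_sum hone).trans ?_
  rw [← Finset.mul_sum]
  refine (mul_le_mul_of_nonneg_left hLS (by positivity)).trans ?_
  have h11 : HBa V₁ (r₀ * (X / B0)) ≤ r₀ * (V₁ ^ ((1 : ℝ) / 3) * ML V₁ (X / B0)) :=
    HBa_le_ML hV₁0 (by positivity) hr1
  have hH0 : 0 ≤ HBa V₁ (r₀ * (X / B0)) := HBa_nonneg hV₁0.le (by positivity)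
  have hML : 0 ≤ ML V₁ (X / B0) := ML_nonneg hV₁0.le (by positivity)
  have h12 : Ab ^ 2 ≤ Ax ^ 2 * (r₀ * X ^ (-(1 : ℝ) / 3)) := by
    rw [hAb, mul_pow, mul_pow]
    have e3 : (X ^ (-(1 : ℝ) / 6)) ^ 2 = X ^ (-(1 : ℝ) / 3) := by
      rw [← Real.rpow_natCast, ← Real.rpow_mul hX.le]; norm_num
    have e4 : Real.exp (R / 6) ^ 2 ≤ r₀ := by
      rw [← Real.exp_nat_mul, hr₀]
      refine Real.exp_le_exp.2 ?_
      push_cast; linarith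
    rw [e3]
    gcongr
  have h13 : (nm δ : ℝ) ^ ((1 : ℝ) / 3) ≤ nm δ := by
    calc (nm δ : ℝ) ^ ((1 : ℝ) / 3) ≤ (nm δ : ℝ) ^ (1 : ℝ) :=
          Real.rpow_le_rpow_of_exponent_le hδ1 (by norm_num)
      _ = nm δ := Real.rpow_one _
  have e5 : X * X ^ (-(1 : ℝ) / 3) = X ^ ((2 : ℝ) / 3) := by
    nth_rewrite 1 [← Real.rpow_one X]
    rw [← Real.rpow_add hX]; norm_num
  have e6 : Q ^ (ε / 2) * Q ^ (ε / 2) = Q ^ ε := by
    rw [← Real.rpow_add hQ0]; congr 1; ring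
  calc (nm δ : ℝ) ^ ((1 : ℝ) / 3) * (4 * (C₂ * Q ^ (ε / 2))) *
        (C₃ * Q ^ (ε / 2) * (Ab ^ 2 * (X / (nm a * B0)) * HBa V₁ (r₀ * (X / B0)))) ≤
      nm δ * (4 * (C₂ * Q ^ (ε / 2))) *
        (C₃ * Q ^ (ε / 2) * ((Ax ^ 2 * (r₀ * X ^ (-(1 : ℝ) / 3))) * (X / (nm a * B0)) *
          (r₀ * (V₁ ^ ((1 : ℝ) / 3) * ML V₁ (X / B0))))) := by
        gcongr
    _ = 4 * C₂ * C₃ * r₀ ^ 2 * (Q ^ (ε / 2) * Q ^ (ε / 2)) * Ax ^ 2 * (nm δ / nm a) *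
          ((X * X ^ (-(1 : ℝ) / 3)) / B0 * (V₁ ^ ((1 : ℝ) / 3) * ML V₁ (X / B0))) := by
        field_simp
    _ = _ := by rw [e5, e6]

set_option maxHeartbeats 1600000 in
/-- **the polar part in the weights of `REb`, any sequence**: `Z` the level, `nm e ≤ E0`,
`nm δ ≤ D` -/
theorem mtl_PJ {ε : ℝ} (hε : 0 < ε) {R : ℝ} (hR : 0 ≤ R) : ∃ C : ℝ, 0 ≤ C ∧
    ∀ (Y X Q Ax : ℝ) (α : Eis → ℂ), 1 ≤ Y → 0 < X → 0 ≤ Ax → (∀ n, α n ≠ 0 → n ∈ S Y) →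
    (∀ n, α n ≠ 0 → |Real.log (nm n) - Real.log X| ≤ R) → (∀ n, ‖α n‖ ≤ Ax) →
    ∀ a : Eis, IsPrim a → Squarefree a → (nm a : ℝ) ≤ Q → (∀ n, α n ≠ 0 → a ∣ n) →
    ∀ δ : Eis, IsPrim δ → Squarefree δ → ∀ e : Eis, IsPrim e →
    ∀ Z E0 D Yl Kf B0 X' : ℝ, (nm e : ℝ) ≤ E0 →
    (nm δ : ℝ) ≤ D → 0 < Yl → (nm δ : ℝ) ^ 2 * Yl < 2 * Z → 2 * (Z * (E0 * D) ^ 3) ≤ Q →
    Y ≤ Q → 0 < Kf → 0 < B0 → 0 ≤ X' → X' ≤ Y → ∀ y ∈ prs δ, ∀ A ∈ pdiv y.1,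
    ∑ c ∈ C4, ∑ j ∈ S (Real.sqrt Yl), PJ (X' / nm y.1) (RR Yl e A c j) (Kf / nm (e * A * j)) B0
        y.2 (MTr α δ Yl y e A c j) ≤
      Yl ^ (-(1 / 3) : ℝ) * Kf ^ (2 / 3 : ℝ) / nm e *
        (C * Q ^ ε * Ax ^ 2 * (nm δ / nm a) * (Kf ^ ((2 : ℝ) / 3) * X ^ ((2 : ℝ) / 3) / B0 *
          ML (2 * (Z * (E0 * D) ^ 3)) (X / B0))) := by
  obtain ⟨C, hC, hm⟩ := mt_core hε hR
  refine ⟨5 * C, by positivity, ?_⟩
  intro Y X Q Ax α hY hX hAx hα hw hαA a ha has haQ hαa δ hδ hδs e he Z E0 D Yl Kf B0 X' heE hδD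
    hYl hZ hZQ hYQ hKf hB0 hX'0 hX'Y y hy A hA
  have ha0 : (0 : ℝ) < nm a := by exact_mod_cast nm_pos.2 ha.ne_zero
  obtain ⟨hy1, hy2, hy3⟩ := (mem_prs hδ).mp hy
  obtain ⟨hAp, hAd⟩ := (mem_pdiv hy1.ne_zero).mp hA
  have hδ1 : (1 : ℝ) ≤ nm δ := by exact_mod_cast nm_pos.2 hδ.ne_zero
  have he1 : (1 : ℝ) ≤ nm e := by exact_mod_cast nm_pos.2 he.ne_zero
  have hA1 : (1 : ℝ) ≤ nm A := by exact_mod_cast nm_pos.2 hAp.ne_zero
  have hy11 : (1 : ℝ) ≤ nm y.1 := by exact_mod_cast nm_pos.2 hy1.ne_zero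
  have hE0 : 0 ≤ E0 := by linarith
  have hD0 : 0 ≤ D := by linarith
  have hZ0 : 0 < Z := by
    have : 0 < (nm δ : ℝ) ^ 2 * Yl := by positivity
    linarith
  have hQ0 : 0 ≤ Q := by linarith
  have hML : 0 ≤ ML (2 * (Z * (E0 * D) ^ 3)) (X / B0) := ML_nonneg (by positivity) (by positivity)
  have hRHS : 0 ≤ Yl ^ (-(1 / 3) : ℝ) * Kf ^ (2 / 3 : ℝ) / nm e *
        (5 * C * Q ^ ε * Ax ^ 2 * (nm δ / nm a) * (Kf ^ ((2 : ℝ) / 3) * X ^ ((2 : ℝ) / 3) / B0 *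
          ML (2 * (Z * (E0 * D) ^ 3)) (X / B0))) := by positivity
  by_cases h1 : y.2 = 1
  swap
  · have e1 : ∀ c ∈ C4, ∀ j ∈ S (Real.sqrt Yl), PJ (X' / nm y.1) (RR Yl e A c j)
        (Kf / nm (e * A * j)) B0 y.2 (MTr α δ Yl y e A c j) = 0 := by
      intro c _ j _
      unfold E2440.PJ
      rw [if_neg h1]
    rw [Finset.sum_eq_zero fun c hc => Finset.sum_eq_zero fun j hj => e1 c hc j hj]
    exact hRHS
  have hy1δ : y.1 = δ := by rw [← hy3, h1, mul_one]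
  have hAδ : (nm A : ℝ) ≤ nm δ := by
    have := Div277.nm_le_of_dvd hδ.ne_zero (hy1δ ▸ hAd)
    exact_mod_cast this
  have heA : (nm (e * A) : ℝ) = nm e * nm A := by rw [nm_mul]; push_cast; ring
  have hE : (0 : ℝ) < nm (e * A) := by rw [heA]; positivity
  have hYl2 : Yl ≤ 2 * Z := by
    have h2 : (1 : ℝ) ≤ (nm δ : ℝ) ^ 2 := one_le_pow₀ hδ1
    nlinarith
  have hV₁ : Yl * (nm (e * A) : ℝ) ^ 3 ≤ 2 * (Z * (E0 * D) ^ 3) := by
    rw [heA]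
    have h2 : ((nm e : ℝ) * nm A) ^ 3 ≤ (E0 * D) ^ 3 := by
      refine pow_le_pow_left₀ (by positivity) ?_ 3
      exact mul_le_mul heE (hAδ.trans hδD) (by positivity) hE0
    calc Yl * ((nm e : ℝ) * nm A) ^ 3 ≤ (2 * Z) * (E0 * D) ^ 3 :=
          mul_le_mul hYl2 h2 (by positivity) (by positivity)
      _ = _ := by ring
  have hXb0 : 0 ≤ X' / nm y.1 := by positivity
  have hXbY : X' / nm y.1 ≤ Y := (div_le_self hX'0 hy11).trans hX'Y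
  set T := (S (X' / nm y.1)).filter (fun B => B0 < nm B) with hT
  have hTm : ∀ B ∈ T, B ∈ S Y ∧ B0 ≤ nm B := by
    intro B hB
    rw [hT, Finset.mem_filter, mem_S hXb0] at hB
    obtain ⟨⟨h2, h3, h4⟩, h5⟩ := hB
    exact ⟨(mem_S (by linarith)).mpr ⟨h2.trans hXbY, h3, h4⟩, h5.le⟩
  have h2 := hm Y X Q Ax α hY hX hAx hα hw hαA a ha has haQ hαa δ e A hδ hδs he hAp Yl B0
    (Real.sqrt Yl) hYl hB0 (Real.sqrt_nonneg _) hYQ (hV₁.trans hZQ) T hTm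
  set W0 := Yl ^ (-(2 : ℝ) / 3) * (nm (e * A) : ℝ) ^ (-(2 : ℝ)) * Kf ^ ((4 : ℝ) / 3) with hW0
  have hW00 : 0 ≤ W0 := by positivity
  have h3 : ∑ c ∈ C4, ∑ j ∈ S (Real.sqrt Yl), PJ (X' / nm y.1) (RR Yl e A c j)
        (Kf / nm (e * A * j)) B0 y.2 (MTr α δ Yl y e A c j) ≤
      5 * W0 * ∑ B ∈ T, (nm B : ℝ) ^ (-(4 : ℝ) / 3) * ∑ c ∈ C4, ∑ j ∈ S (Real.sqrt Yl),
        ∑ r ∈ (S (RR Yl e A c j)).filter (fun r => IsCoprime r 1 ∧ RR Yl e A c j / 2 < nm r),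
          ‖MT (ag α δ δ) (e * A * j) B c r‖ ^ 2 := by
    have e2 : ∑ B ∈ T, (nm B : ℝ) ^ (-(4 : ℝ) / 3) * ∑ c ∈ C4, ∑ j ∈ S (Real.sqrt Yl),
        ∑ r ∈ (S (RR Yl e A c j)).filter (fun r => IsCoprime r 1 ∧ RR Yl e A c j / 2 < nm r),
          ‖MT (ag α δ δ) (e * A * j) B c r‖ ^ 2 =
        ∑ c ∈ C4, ∑ j ∈ S (Real.sqrt Yl), ∑ B ∈ T, (nm B : ℝ) ^ (-(4 : ℝ) / 3) *
        ∑ r ∈ (S (RR Yl e A c j)).filter (fun r => IsCoprime r 1 ∧ RR Yl e A c j / 2 < nm r),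
          ‖MT (ag α δ δ) (e * A * j) B c r‖ ^ 2 := by
      simp_rw [Finset.mul_sum]
      rw [Finset.sum_comm]
      refine Finset.sum_congr rfl fun c _ => ?_
      rw [Finset.sum_comm]
    rw [e2, Finset.mul_sum]
    refine Finset.sum_le_sum fun c hc => ?_
    rw [Finset.mul_sum]
    refine Finset.sum_le_sum fun j hj => ?_
    have hj0 := ((mem_S (Real.sqrt_nonneg _)).mp hj).2.1.ne_zero
    have h4 := wt_le (K' := Kf) hYl hKf.le (mul_ne_zero he.ne_zero hAp.ne_zero) hc hj0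
    unfold E2440.PJ MTr
    rw [if_pos h1, h1, hy1δ]
    rw [← hy1δ]
    refine mul_le_mul_of_nonneg_right h4 ?_
    exact Finset.sum_nonneg fun B _ => mul_nonneg (by positivity)
      (Finset.sum_nonneg fun r _ => by positivity)
  refine h3.trans ((mul_le_mul_of_nonneg_left h2 (by positivity)).trans ?_)
  have e4 : (Yl * (nm (e * A) : ℝ) ^ 3) ^ ((1 : ℝ) / 3) = Yl ^ ((1 : ℝ) / 3) * nm (e * A) := by
    rw [Real.mul_rpow hYl.le (by positivity), ← Real.rpow_natCast, ← Real.rpow_mul hE.le]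
    norm_num
  have a1 : Yl ^ (-(2 : ℝ) / 3) * Yl ^ ((1 : ℝ) / 3) = Yl ^ (-(1 / 3) : ℝ) := by
    rw [← Real.rpow_add hYl]; norm_num
  have a2 : (nm (e * A) : ℝ) ^ (-(2 : ℝ)) * nm (e * A) = (nm (e * A) : ℝ)⁻¹ := by
    rw [Real.rpow_neg hE.le, Real.rpow_two]
    field_simp
  have a3 : Kf ^ ((4 : ℝ) / 3) = Kf ^ (2 / 3 : ℝ) * Kf ^ ((2 : ℝ) / 3) := by
    rw [← Real.rpow_add hKf]; norm_num
  have hMLm : ML (Yl * (nm (e * A) : ℝ) ^ 3) (X / B0) ≤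
      ML (2 * (Z * (E0 * D) ^ 3)) (X / B0) :=
    ML_mono (by positivity) (by positivity) hV₁ le_rfl
  have hML' : 0 ≤ ML (Yl * (nm (e * A) : ℝ) ^ 3) (X / B0) :=
    ML_nonneg (by positivity) (by positivity)
  have h5 : ((nm (e * A) : ℝ))⁻¹ ≤ (nm e : ℝ)⁻¹ := by
    refine inv_anti₀ (by linarith) ?_
    rw [heA]
    nlinarith
  calc 5 * W0 * (C * Q ^ ε * Ax ^ 2 * (nm δ / nm a) * (X ^ ((2 : ℝ) / 3) / B0 *
        ((Yl * (nm (e * A) : ℝ) ^ 3) ^ ((1 : ℝ) / 3) * ML (Yl * (nm (e * A) : ℝ) ^ 3) (X / B0))))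
      = (Yl ^ (-(2 : ℝ) / 3) * Yl ^ ((1 : ℝ) / 3)) * (Kf ^ (2 / 3 : ℝ) * Kf ^ ((2 : ℝ) / 3)) *
          ((nm (e * A) : ℝ) ^ (-(2 : ℝ)) * nm (e * A)) *
          (5 * C * Q ^ ε * Ax ^ 2 * (nm δ / nm a) * (X ^ ((2 : ℝ) / 3) / B0 *
            ML (Yl * (nm (e * A) : ℝ) ^ 3) (X / B0))) := by
        rw [hW0, e4, a3]; ring
    _ = Yl ^ (-(1 / 3) : ℝ) * (Kf ^ (2 / 3 : ℝ) * Kf ^ ((2 : ℝ) / 3)) * (nm (e * A) : ℝ)⁻¹ *
          (5 * C * Q ^ ε * Ax ^ 2 * (nm δ / nm a) * (X ^ ((2 : ℝ) / 3) / B0 *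
            ML (Yl * (nm (e * A) : ℝ) ^ 3) (X / B0))) := by rw [a1, a2]
    _ ≤ Yl ^ (-(1 / 3) : ℝ) * (Kf ^ (2 / 3 : ℝ) * Kf ^ ((2 : ℝ) / 3)) * (nm e : ℝ)⁻¹ *
          (5 * C * Q ^ ε * Ax ^ 2 * (nm δ / nm a) * (X ^ ((2 : ℝ) / 3) / B0 *
            ML (2 * (Z * (E0 * D) ^ 3)) (X / B0))) := by gcongr
    _ = _ := by
        rw [div_eq_mul_inv _ (nm e : ℝ)]; ring

set_option maxHeartbeats 1600000 in
/-- **the polar cell premise `hT` of `Qs_cellsJ`** (helper401), any sequence supported on the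
multiples of `a`; `J ⊆ S (sqrt Yl)` any set of `j₂`, `bs` a block of `B` -/
theorem mtl_cell {ε : ℝ} (hε : 0 < ε) {R : ℝ} (hR : 0 ≤ R) : ∃ C : ℝ, 0 ≤ C ∧
    ∀ (Y X Q Ax : ℝ) (α : Eis → ℂ), 1 ≤ Y → 0 < X → 0 ≤ Ax → (∀ n, α n ≠ 0 → n ∈ S Y) →
    (∀ n, α n ≠ 0 → |Real.log (nm n) - Real.log X| ≤ R) → (∀ n, ‖α n‖ ≤ Ax) →
    ∀ a : Eis, IsPrim a → Squarefree a → (nm a : ℝ) ≤ Q → (∀ n, α n ≠ 0 → a ∣ n) →
    ∀ δ e A : Eis, IsPrim δ → Squarefree δ → IsPrim e → IsPrim A → ∀ Yl B0 J' : ℝ, 0 < Yl →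
    0 < B0 → 0 ≤ J' → Y ≤ Q → Yl * (nm (e * A) : ℝ) ^ 3 ≤ Q → ∀ Jb ⊆ S J', ∀ (bs : Finset Eis)
    (u : ℝ), (∀ B ∈ bs, B ∈ S Y ∧ Real.exp (u / 3) ≤ nm B ∧
      (nm B : ℝ) ≤ Real.exp (u / 3 + 1 / 3)) → (∃ B ∈ bs, B0 < nm B) → ∀ c ∈ C4,
    Real.exp (-(4 / 3) * (u / 3)) * ∑ j ∈ Jb, ∑ B ∈ bs,
        ∑ r ∈ (S (RR Yl e A c j)).filter (fun r => IsCoprime r 1 ∧ RR Yl e A c j / 2 < nm r),
          ‖MT (ag α δ δ) (e * A * j) B c r‖ ^ 2 ≤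
      C * Q ^ ε * Ax ^ 2 * (nm δ / nm a) * (X ^ ((2 : ℝ) / 3) / B0 *
        ((Yl * (nm (e * A) : ℝ) ^ 3) ^ ((1 : ℝ) / 3) *
        ML (Yl * (nm (e * A) : ℝ) ^ 3) (X / B0))) := by
  obtain ⟨C, hC, hm⟩ := mt_core hε hR
  refine ⟨8 * C, by positivity, ?_⟩
  intro Y X Q Ax α hY hX hAx hα hw hαA a ha has haQ hαa δ e A hδ hδs he hA Yl B0 J' hYl hB0 hJ'
    hYQ hVQ Jb hJb bs u hbs hB c hc
  obtain ⟨B₁, hB₁, hB₁0⟩ := hB
  have hY0 : 0 ≤ Y := by linarith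
  have hδ0 : (0 : ℝ) < nm δ := by exact_mod_cast nm_pos.2 hδ.ne_zero
  have ha0 : (0 : ℝ) < nm a := by exact_mod_cast nm_pos.2 ha.ne_zero
  have hE : (0 : ℝ) < nm (e * A) := by
    exact_mod_cast nm_pos.2 (mul_ne_zero he.ne_zero hA.ne_zero)
  have e13 : Real.exp (1 / 3) ≤ 2 := by
    have h1 : Real.exp (1 / 3) ^ 3 ≤ 2 ^ 3 := by
      rw [← Real.exp_nat_mul]
      have h2 := Real.exp_one_lt_d9
      norm_num
      linarith
    exact le_of_pow_le_pow_left₀ (by norm_num) (by norm_num) h1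
  have hB2 : B0 / 2 ≤ Real.exp (u / 3) := by
    have h1 := (hbs B₁ hB₁).2.2
    rw [Real.exp_add] at h1
    have h2 : 0 < Real.exp (u / 3) := Real.exp_pos _
    nlinarith
  have h1 := hm Y X Q Ax α hY hX hAx hα hw hαA a ha has haQ hαa δ e A hδ hδs he hA Yl (B0 / 2) J'
    hYl (by positivity) hJ' hYQ hVQ bs (fun B hB => ⟨(hbs B hB).1, hB2.trans (hbs B hB).2.1⟩)
  have h0 : ∀ (B c j : Eis), 0 ≤ ∑ r ∈ (S (RR Yl e A c j)).filter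
      (fun r => IsCoprime r 1 ∧ RR Yl e A c j / 2 < nm r),
          ‖MT (ag α δ δ) (e * A * j) B c r‖ ^ 2 := fun B c j =>
    Finset.sum_nonneg fun r _ => by positivity
  have h2 : Real.exp (-(4 / 3) * (u / 3)) * ∑ j ∈ Jb, ∑ B ∈ bs,
        ∑ r ∈ (S (RR Yl e A c j)).filter (fun r => IsCoprime r 1 ∧ RR Yl e A c j / 2 < nm r),
          ‖MT (ag α δ δ) (e * A * j) B c r‖ ^ 2 ≤
      2 * ∑ B ∈ bs, (nm B : ℝ) ^ (-(4 : ℝ) / 3) * ∑ c ∈ C4, ∑ j ∈ S J',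
        ∑ r ∈ (S (RR Yl e A c j)).filter (fun r => IsCoprime r 1 ∧ RR Yl e A c j / 2 < nm r),
          ‖MT (ag α δ δ) (e * A * j) B c r‖ ^ 2 := by
    rw [Finset.sum_comm, Finset.mul_sum, Finset.mul_sum]
    refine Finset.sum_le_sum fun B hB => ?_
    obtain ⟨hBS, hB3, hB4⟩ := hbs B hB
    have hBn : (0 : ℝ) < nm B := by
      exact_mod_cast nm_pos.2 ((mem_S hY0).1 hBS).2.1.ne_zero
    have h3 : Real.exp (-(4 / 3) * (u / 3)) ≤ 2 * (nm B : ℝ) ^ (-(4 : ℝ) / 3) := by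
      have h4 : (Real.exp (u / 3 + 1 / 3)) ^ (-(4 : ℝ) / 3) ≤ (nm B : ℝ) ^ (-(4 : ℝ) / 3) :=
        Real.rpow_le_rpow_of_nonpos hBn hB4 (by norm_num)
      have h5 : (Real.exp (u / 3 + 1 / 3)) ^ (-(4 : ℝ) / 3) =
          Real.exp (-(4 / 3) * (u / 3)) * Real.exp (-(4 / 9)) := by
        rw [← Real.exp_mul, ← Real.exp_add]
        congr 1
        ring
      have h6 : (1 : ℝ) / 2 ≤ Real.exp (-(4 / 9)) := by
        have := Real.add_one_le_exp (-(4 / 9) : ℝ)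
        linarith
      have h7 : 0 < Real.exp (-(4 / 3) * (u / 3)) := Real.exp_pos _
      nlinarith
    have h8 : ∑ j ∈ Jb, ∑ r ∈ (S (RR Yl e A c j)).filter
          (fun r => IsCoprime r 1 ∧ RR Yl e A c j / 2 < nm r),
          ‖MT (ag α δ δ) (e * A * j) B c r‖ ^ 2 ≤
        ∑ c ∈ C4, ∑ j ∈ S J', ∑ r ∈ (S (RR Yl e A c j)).filter
          (fun r => IsCoprime r 1 ∧ RR Yl e A c j / 2 < nm r),
          ‖MT (ag α δ δ) (e * A * j) B c r‖ ^ 2 := by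
      refine (Finset.sum_le_sum_of_subset_of_nonneg hJb fun j _ _ => h0 B c j).trans ?_
      exact Finset.single_le_sum (f := fun c => ∑ j ∈ S J', ∑ r ∈ (S (RR Yl e A c j)).filter
          (fun r => IsCoprime r 1 ∧ RR Yl e A c j / 2 < nm r),
          ‖MT (ag α δ δ) (e * A * j) B c r‖ ^ 2)
        (fun c _ => Finset.sum_nonneg fun j _ => h0 B c j) hc
    have h9 : 0 ≤ ∑ j ∈ Jb, ∑ r ∈ (S (RR Yl e A c j)).filter
          (fun r => IsCoprime r 1 ∧ RR Yl e A c j / 2 < nm r),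
          ‖MT (ag α δ δ) (e * A * j) B c r‖ ^ 2 := Finset.sum_nonneg fun j _ => h0 B c j
    calc _ ≤ (2 * (nm B : ℝ) ^ (-(4 : ℝ) / 3)) * _ := mul_le_mul h3 h8 h9 (by positivity)
      _ = _ := by ring
  refine h2.trans ((mul_le_mul_of_nonneg_left h1 (by norm_num)).trans ?_)
  set V₁ := Yl * (nm (e * A) : ℝ) ^ 3 with hV₁
  have hV₁0 : 0 < V₁ := by positivity
  have h10 : ML V₁ (X / (B0 / 2)) ≤ 2 * ML V₁ (X / B0) := by
    have e1 : X / (B0 / 2) = 2 * (X / B0) := by field_simp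
    rw [e1]
    unfold ML
    have h11 : (2 * (X / B0)) ^ ((2 : ℝ) / 3) ≤ 2 * (X / B0) ^ ((2 : ℝ) / 3) := by
      rw [Real.mul_rpow (by norm_num) (by positivity)]
      have h12 : (2 : ℝ) ^ ((2 : ℝ) / 3) ≤ 2 := by
        calc (2 : ℝ) ^ ((2 : ℝ) / 3) ≤ (2 : ℝ) ^ (1 : ℝ) :=
              Real.rpow_le_rpow_of_exponent_le (by norm_num) (by norm_num)
          _ = 2 := Real.rpow_one 2
      gcongr
    have h13 : 0 ≤ V₁ ^ ((2 : ℝ) / 3) := by positivity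
    have h14 : V₁ ^ ((1 : ℝ) / 3) * (2 * (X / B0)) ^ ((2 : ℝ) / 3) ≤
        V₁ ^ ((1 : ℝ) / 3) * (2 * (X / B0) ^ ((2 : ℝ) / 3)) := by gcongr
    linarith
  have h15 : 0 ≤ ML V₁ (X / (B0 / 2)) := ML_nonneg hV₁0.le (by positivity)
  have hQ0 : 0 < Q := by linarith
  calc 2 * (C * Q ^ ε * Ax ^ 2 * (nm δ / nm a) * (X ^ ((2 : ℝ) / 3) / (B0 / 2) *
        (V₁ ^ ((1 : ℝ) / 3) * ML V₁ (X / (B0 / 2))))) ≤
      2 * (C * Q ^ ε * Ax ^ 2 * (nm δ / nm a) * (X ^ ((2 : ℝ) / 3) / (B0 / 2) *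
        (V₁ ^ ((1 : ℝ) / 3) * (2 * ML V₁ (X / B0))))) := by gcongr
    _ = _ := by field_simp; ring

end Crest.Agent.R017.MTL537
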