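import Crest.Agent.R017.RGwD_813
import Crest.Agent.R017.CubeL_298
import Crest.Agent.R017.E1zc_551

/-!
# Row 17, exceptional class, T.7, leaf E2-d (helper241): the polar direct part, part 1

The moments `tgf x (δ G) (k G) t` over all frequencies `k` and a block of `G`, from the joint
blocks `JB` (cube-free frequencies), for an arbitrary sequence `x`.
* `tgf_cube` : a cube `m³` in the frequency
* `core` : `Σ_k Σ_G tgf x (δ G) (k G) t ≤ C (Y V)^ε M (K V)^(1/3) X^(-2/3) (nm δ)^(-4/3) (1+|t|)^J`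
-/

set_option autoImplicit false

noncomputable section

open Complex MeasureTheory Filter Topology
open scoped ComplexConjugate Classical

namespace Crest.Agent.R017.MTX241

open Crest.Agent.R012 Crest.Agent.R012.Eis Crest.Agent.R012.MC
open Crest.Agent.R012.LS2 (S mem_S bl mem_bl)
open Crest.Agent.R012.Char766 (sy_mul_left sy_cube_left)
open Crest.Agent.R012.Mob705 (pp mem_pp PPSet ppSet_pp IsPP)
open Crest.Agent.R012.Weight600 (osc pw)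
open Crest.Agent.R017.CM106 (CS TG FS sub TG_split sq_add_le)
open Crest.Agent.R017.Dual2813 (S_of_dvd)
open Crest.Agent.R017.E1551
open Crest.Agent.R017.Win813
open Crest.Agent.R017.RGw813 (PG)

/-! ### pointwise -/

lemma cop_sqf {a b : Eis} (h : Squarefree (a * b)) : IsCoprime a b :=
  (squarefree_mul_iff.mp h).1.isCoprime

lemma tgf_congr {x : Eis → ℂ} {g l l' : Eis} (t : ℝ)
    (h : ∀ m, x (g * m) ≠ 0 → sy l m = sy l' m) : tgf x g l t = tgf x g l' t := by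
  unfold tgf
  congr 2
  unfold CM106.TG
  refine tsum_congr fun m => ?_
  by_cases h0 : x (g * m) = 0
  · simp [h0]
  · rw [h m h0]

lemma tgf_zero {x : Eis → ℂ} {g : Eis} (h : ∀ m, x (g * m) = 0) (l : Eis) (t : ℝ) :
    tgf x g l t = 0 := by
  unfold tgf CM106.TG
  simp [h]

lemma JB_eq (Y : ℝ) (x : Eis → ℂ) (Q : Eis → Prop) (h : Eis) (B V t : ℝ) :
    E1551.JB Y x Q h B V t = ∑ U ∈ (S Y).filter (fun U => B / 2 < nm U ∧ nm U ≤ B ∧ Q U),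
      ∑ κ ∈ BU V U, tgf x (h * U) (κ * U) t := rfl

/-- the sub-sequence with a height -/
def wq (x : Eis → ℂ) (g : Eis) (t : ℝ) : Eis → ℂ := fun m => x (g * m) * pw t (nm m)

lemma fs_wq {x : Eis → ℂ} (h : FS x) {g : Eis} (hg : IsPrim g) (t : ℝ) : FS (wq x g t) where
  fin := (h.fin.preimage (f := fun m => g * m) (fun x _ y _ hxy =>
      mul_left_cancel₀ hg.ne_zero hxy)).subset fun m hm => left_ne_zero_of_mul hm
  prim := fun m hm => IsPrim.of_mul_left (h.prim _ (left_ne_zero_of_mul hm)) hg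

lemma tgf_sub {x : Eis → ℂ} (h : FS x) {g d : Eis} (hd : IsPrim d) (l : Eis)
    (t : ℝ) : ‖TG (sub (wq x g t) d) l‖ ^ 2 = tgf x (g * d) l t := by
  unfold tgf
  have e1 : TG (sub (wq x g t) d) l =
      pw t (nm d) * TG (fun m => x (g * d * m) * pw t (nm m)) l := by
    unfold CM106.TG CM106.sub wq
    rw [← tsum_mul_left]
    refine tsum_congr fun m => ?_
    by_cases h0 : x (g * d * m) = 0
    · have h0' : x (g * (d * m)) = 0 := by rw [← mul_assoc]; exact h0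
      simp [h0, h0']
    · have hm : m ≠ 0 := right_ne_zero_of_mul (h.prim _ h0).ne_zero
      beta_reduce
      rw [pw_split hd.ne_zero hm, mul_assoc g d m]
      ring
  rw [e1, norm_mul, Weight600.norm_pw, one_mul]

/-- Moebius over a set of primary primes -/
lemma cube_set (P : Finset Eis) (hP : PPSet P) : ∀ (w : Eis → ℂ), FS w → ∀ l : Eis,
    ‖TG w (l * (∏ p ∈ P, p) ^ 3)‖ ^ 2 ≤
      2 ^ P.card * ∑ T ∈ P.powerset, ‖TG (sub w (∏ p ∈ T, p)) (l * ∏ p ∈ T, p)‖ ^ 2 := by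
  induction P using Finset.induction_on with
  | empty =>
    intro w hw l
    have e : sub w 1 = w := by funext n; show w (1 * n) = w n; rw [one_mul]
    simp [e]
  | insert p P hp ih =>
    intro w hw l
    have hPp := hP.subset (Finset.subset_insert p P)
    have hpp := hP p (Finset.mem_insert_self _ _)
    rw [Finset.prod_insert hp, Finset.card_insert_of_notMem hp,
      Finset.sum_powerset_insert hp]
    have e1 : l * (p * ∏ q ∈ P, q) ^ 3 = (l * (∏ q ∈ P, q) ^ 3) * p ^ 3 := by ring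
    have h1 := TG_split hw hpp.isPrim hpp.prime (l * (∏ q ∈ P, q) ^ 3)
    have h2 : TG w (l * (∏ q ∈ P, q) ^ 3 * p ^ 3) = TG w (l * (∏ q ∈ P, q) ^ 3) +
        -((G p * conj (sy (l * (∏ q ∈ P, q) ^ 3) p)) *
          TG (sub w p) (l * (∏ q ∈ P, q) ^ 3 * p)) := by
      rw [h1]; ring
    have h3 := sq_add_le (TG w (l * (∏ q ∈ P, q) ^ 3))
      (-((G p * conj (sy (l * (∏ q ∈ P, q) ^ 3) p)) *
          TG (sub w p) (l * (∏ q ∈ P, q) ^ 3 * p)))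
    have h4 : ‖-((G p * conj (sy (l * (∏ q ∈ P, q) ^ 3) p)) *
          TG (sub w p) (l * (∏ q ∈ P, q) ^ 3 * p))‖ ^ 2 ≤
        ‖TG (sub w p) ((l * p) * (∏ q ∈ P, q) ^ 3)‖ ^ 2 := by
      rw [norm_neg, norm_mul]
      have e2 : l * (∏ q ∈ P, q) ^ 3 * p = (l * p) * (∏ q ∈ P, q) ^ 3 := by ring
      rw [e2]
      refine pow_le_pow_left₀ (by positivity) ?_ 2
      exact mul_le_of_le_one_left (norm_nonneg _) (CM106.norm_Gsy_le hpp.isPrim)
    have h5 := ih hPp w hw l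
    have h6 := ih hPp (sub w p) (hw.sub hpp.isPrim) (l * p)
    have e3 : ∀ T ∈ P.powerset, ‖TG (sub (sub w p) (∏ q ∈ T, q)) (l * p * ∏ q ∈ T, q)‖ ^ 2 =
        ‖TG (sub w (∏ q ∈ insert p T, q)) (l * ∏ q ∈ insert p T, q)‖ ^ 2 := by
      intro T hT
      have hpT : p ∉ T := fun h => hp (Finset.mem_powerset.mp hT h)
      rw [Finset.prod_insert hpT]
      have e4 : sub (sub w p) (∏ q ∈ T, q) = sub w (p * ∏ q ∈ T, q) := by
        funext n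
        show w (p * ((∏ q ∈ T, q) * n)) = w (p * (∏ q ∈ T, q) * n)
        rw [mul_assoc]
      rw [e4, mul_assoc]
    rw [Finset.sum_congr rfl e3] at h6
    rw [e1, h2]
    refine h3.trans ?_
    calc 2 * ‖TG w (l * (∏ q ∈ P, q) ^ 3)‖ ^ 2 + 2 * _
        ≤ 2 * (2 ^ P.card * ∑ T ∈ P.powerset, ‖TG (sub w (∏ p ∈ T, p)) (l * ∏ p ∈ T, p)‖ ^ 2) +
          2 * (2 ^ P.card * ∑ T ∈ P.powerset,
            ‖TG (sub w (∏ q ∈ insert p T, q)) (l * ∏ q ∈ insert p T, q)‖ ^ 2) := by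
          refine add_le_add ?_ ?_
          · exact mul_le_mul_of_nonneg_left h5 (by norm_num)
          · exact mul_le_mul_of_nonneg_left (h4.trans h6) (by norm_num)
      _ = _ := by rw [pow_succ]; ring

/-- a cube of the frequency only matters through its primes -/
lemma sy_cube_rad {m n : Eis} (hm : m ≠ 0) (hn : IsPrim n) (l : Eis) :
    sy (l * m ^ 3) n = sy (l * (∏ p ∈ pp m, p) ^ 3) n := by
  have hc : IsCoprime m n ↔ IsCoprime (∏ p ∈ pp m, p) n := by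
    constructor
    · intro h
      exact h.of_isCoprime_of_dvd_left (Mob705.prod_pp_dvd m)
    · intro h
      by_contra hcc
      obtain ⟨p, hp, hpn, hpm⟩ : ∃ p, IsPP p ∧ p ∣ n ∧ p ∣ m := by
        have h3 : ¬ IsUnit (EuclideanDomain.gcd m n) := fun h4 =>
          hcc (EuclideanDomain.gcd_isUnit_iff.mp h4)
        have hg0 : EuclideanDomain.gcd m n ≠ 0 := by
          intro h4
          rw [EuclideanDomain.gcd_eq_zero_iff] at h4
          exact hm h4.1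
        obtain ⟨q, hq, hqd⟩ := WfDvdMonoid.exists_irreducible_factor h3 hg0
        have hqm : q ∣ m := hqd.trans (EuclideanDomain.gcd_dvd_left _ _)
        have hqn : q ∣ n := hqd.trans (EuclideanDomain.gcd_dvd_right _ _)
        have hql : ¬ lam ∣ q := fun h5 => hn.not_lam_dvd (h5.trans hqn)
        obtain ⟨p, hp1, hp2⟩ := exists_isPrim_associated hql
        exact ⟨p, ⟨hp1, hp2.prime hq.prime⟩, hp2.symm.dvd.trans hqn, hp2.symm.dvd.trans hqm⟩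
      have h5 : p ∈ pp m := (mem_pp hm).2 ⟨hp, hpm⟩
      have h6 : p ∣ ∏ p ∈ pp m, p := Finset.dvd_prod_of_mem (fun x => x) h5
      exact hp.prime.not_isUnit (h.isUnit_of_dvd' h6 hpn)
  rw [sy_mul_left hn, sy_mul_left hn]
  congr 1
  by_cases h : IsCoprime m n
  · rw [sy_cube_left hn h, sy_cube_left hn (hc.1 h)]
  · have h1 : ¬ IsCoprime (m ^ 3) n := fun h2 =>
      h (h2.of_isCoprime_of_dvd_left (dvd_pow_self _ (by norm_num)))
    have h3 : ¬ IsCoprime ((∏ p ∈ pp m, p) ^ 3) n := fun h2 =>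
      h (hc.2 (h2.of_isCoprime_of_dvd_left (dvd_pow_self _ (by norm_num))))
    rw [(Gauss880.syG.eq_zero _ n hn).2 h1, (Gauss880.syG.eq_zero _ n hn).2 h3]

/-- **a cube in the frequency** -/
lemma tgf_cube {x : Eis → ℂ} (h : FS x) {g m : Eis} (hg : IsPrim g) (hm : m ≠ 0) (l : Eis)
    (t : ℝ) : tgf x g (l * m ^ 3) t ≤
      2 ^ (pp m).card * ∑ T ∈ (pp m).powerset, tgf x (g * ∏ p ∈ T, p) (l * ∏ p ∈ T, p) t := by
  have e1 : tgf x g (l * m ^ 3) t = tgf x g (l * (∏ p ∈ pp m, p) ^ 3) t :=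
    tgf_congr t fun n hn => sy_cube_rad hm (IsPrim.of_mul_left (h.prim _ hn) hg) l
  have e2 : tgf x g (l * (∏ p ∈ pp m, p) ^ 3) t =
      ‖TG (wq x g t) (l * (∏ p ∈ pp m, p) ^ 3)‖ ^ 2 := rfl
  rw [e1, e2]
  refine (cube_set (pp m) (ppSet_pp m) (wq x g t) (fs_wq h hg t) l).trans (le_of_eq ?_)
  congr 1
  refine Finset.sum_congr rfl fun T hT => ?_
  exact tgf_sub h ((ppSet_pp m).subset (Finset.mem_powerset.mp hT)).isPrim_prod _ t

/-- the shift of the class at a divisor of the sub-sequence -/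
lemma tgf_tau {Y : ℝ} (hY : 0 ≤ Y) {x : Eis → ℂ} (hx : ∀ n, x n ≠ 0 → n ∈ S Y) {g d : Eis}
    (hg : IsPrim g) (hd : IsPrim d) (hs : Squarefree d) (hdg : d ∣ g) (κ u : Eis) (t : ℝ) :
    tgf x g (κ * d * u) t = tgf x g (E1551.tau κ d * u) t := by
  refine tgf_congr t fun m hm => ?_
  have h1 := (mem_S hY).1 (hx _ hm)
  have hmp : IsPrim m := IsPrim.of_mul_left h1.2.1 hg
  have hc : IsCoprime d m := by
    exact (cop_sqf h1.2.2).of_isCoprime_of_dvd_left hdg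
  rw [sy_mul_left (x := κ * d) hmp, sy_mul_left (x := E1551.tau κ d) hmp,
    E1551.sy_tau hd hs hmp hc]

lemma nm_tau_le {κ d : Eis} (hκ : κ ≠ 0) (hd : IsPrim d) (hs : Squarefree d) :
    (nm (E1551.tau κ d) : ℝ) ≤ nm κ * nm d := by
  have h1 := E1551.mul_eq_tau (κ := κ) hd hs
  have h2 : (nm κ : ℝ) * nm d = nm (E1551.tau κ d) * (nm (E1551.g2 κ d) : ℝ) ^ 3 := by
    have h3 := congrArg nm h1
    rw [nm_mul, nm_mul, nm_pow] at h3
    exact_mod_cast h3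
  rw [h2]
  have h4 : (1 : ℝ) ≤ nm (E1551.g2 κ d) := by
    exact_mod_cast nm_pos.2 (E1551.g2_prim κ d).ne_zero
  exact le_mul_of_one_le_right (Nat.cast_nonneg _) (one_le_pow₀ h4)

/-! ### one cube-free level -/

/-- the shift at `G`, summed over the cube-free classes -/
lemma sum_BF_le {Y : ℝ} (hY : 0 ≤ Y) {x : Eis → ℂ} (hx : ∀ n, x n ≠ 0 → n ∈ S Y) {g₀ : Eis}
    (hg₀ : IsPrim g₀) {G : Eis} (hG : G ∈ S Y) (Z t : ℝ) :
    ∑ j ∈ BF Z, tgf x (g₀ * G) (j * G) t ≤ ∑ e ∈ S Y, ∑ U ∈ S Y,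
      if e * U = G then ∑ κ ∈ BU (Z / (nm e : ℝ) ^ 2) U, tgf x (g₀ * e * U) (κ * U) t else 0 := by
  have hGS := (mem_S hY).1 hG
  refine tau_sum_le hY hG (f := fun j => tgf x (g₀ * G) (j * G) t)
    (F := fun e U κ => tgf x (g₀ * e * U) (κ * U) t) (fun _ _ _ => tgf_nonneg _ _ _ _) ?_
  intro j κ _ _ h2
  have h3 := g1_mul_g2 (κ := j) hGS.2.1 hGS.2.2
  have h4 := tgf_tau hY hx (g := g₀ * G) (d := G) (hg₀.mul hGS.2.1) hGS.2.1 hGS.2.2
    (dvd_mul_left _ _) j 1 t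
  rw [mul_one, mul_one, h2] at h4
  have e1 : g₀ * E1551.g2 j G * E1551.g1 j G = g₀ * G := by
    conv_rhs => rw [← h3]
    ring
  show tgf x (g₀ * G) (j * G) t ≤ tgf x (g₀ * E1551.g2 j G * E1551.g1 j G) (κ * E1551.g1 j G) t
  rw [e1, h4]

/-- the block -/
def Gs (Y Bd G₀ : ℝ) (δ : Eis) : Finset Eis :=
  (S Y).filter (fun G => Bd / 2 < nm G ∧ nm G ≤ Bd ∧ G₀ < nm (δ * G))

lemma mem_Gs {Y Bd G₀ : ℝ} {δ G : Eis} : G ∈ Gs Y Bd G₀ δ ↔
    G ∈ S Y ∧ Bd / 2 < nm G ∧ (nm G : ℝ) ≤ Bd ∧ G₀ < nm (δ * G) := by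
  unfold Gs
  rw [Finset.mem_filter]

/-- regrouping by `G = e U` -/
lemma sum_block {Y : ℝ} (hY : 0 ≤ Y) {x : Eis → ℂ} (hx : ∀ n, x n ≠ 0 → n ∈ S Y) {g₀ δ : Eis}
    (hg₀ : IsPrim g₀) (Bd G₀ Z t : ℝ) :
    ∑ G ∈ Gs Y Bd G₀ δ, ∑ j ∈ BF Z, tgf x (g₀ * G) (j * G) t ≤ ∑ e ∈ S Y,
      ∑ U ∈ (S Y).filter (fun U => e * U ∈ Gs Y Bd G₀ δ),
        ∑ κ ∈ BU (Z / (nm e : ℝ) ^ 2) U, tgf x (g₀ * e * U) (κ * U) t := by
  have h1 : ∑ G ∈ Gs Y Bd G₀ δ, ∑ j ∈ BF Z, tgf x (g₀ * G) (j * G) t ≤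
      ∑ G ∈ Gs Y Bd G₀ δ, ∑ e ∈ S Y, ∑ U ∈ S Y, if e * U = G then
        ∑ κ ∈ BU (Z / (nm e : ℝ) ^ 2) U, tgf x (g₀ * e * U) (κ * U) t else 0 :=
    Finset.sum_le_sum fun G hG => sum_BF_le hY hx hg₀ (mem_Gs.1 hG).1 Z t
  refine h1.trans (le_of_eq ?_)
  rw [Finset.sum_comm]
  refine Finset.sum_congr rfl fun e _ => ?_
  rw [Finset.sum_comm, Finset.sum_filter]
  refine Finset.sum_congr rfl fun U _ => ?_
  rw [Finset.sum_ite_eq]

/-- real algebra of a joint block -/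
lemma alg1 {M K X V a b c μ : ℝ} (hM : 0 ≤ M) (hK : 0 < K) (hX : 0 < X) (hV : 0 < V)
    (ha : 0 < a) (hb : 1 ≤ b) (hc : 1 ≤ c) (hμ : 0 < μ) :
    M / (a * b * c) ^ 2 * ((K * (V * b / μ ^ 3 / c ^ 2)) ^ (1 / 3 : ℝ) *
      (X / (a * b * c)) ^ (-(2 / 3) : ℝ)) ≤
      M * ((K * V) ^ (1 / 3 : ℝ) * X ^ (-(2 / 3) : ℝ) * a ^ (-(4 / 3) : ℝ)) * (1 / μ) * (1 / c) := by
  have hb0 : 0 < b := by linarith
  have hc0 : 0 < c := by linarith
  have e1 : (K * (V * b / μ ^ 3 / c ^ 2)) ^ (1 / 3 : ℝ) =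
      (K * V) ^ (1 / 3 : ℝ) * b ^ (1 / 3 : ℝ) * μ⁻¹ * c ^ (-(2 / 3) : ℝ) := by
    have h1 : K * (V * b / μ ^ 3 / c ^ 2) = (K * V) * b * (μ⁻¹) ^ 3 * (c ^ (-2 : ℝ)) := by
      rw [Real.rpow_neg hc0.le, Real.rpow_two]
      field_simp
    rw [h1, Real.mul_rpow (by positivity) (by positivity),
      Real.mul_rpow (by positivity) (by positivity),
      Real.mul_rpow (by positivity) (by positivity), ← Real.rpow_mul hc0.le,
      ← Real.rpow_natCast, ← Real.rpow_mul (by positivity)]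
    norm_num
  have e2 : (X / (a * b * c)) ^ (-(2 / 3) : ℝ) = X ^ (-(2 / 3) : ℝ) *
      (a ^ (2 / 3 : ℝ) * b ^ (2 / 3 : ℝ) * c ^ (2 / 3 : ℝ)) := by
    rw [Real.div_rpow hX.le (by positivity), Real.rpow_neg (by positivity : 0 ≤ a * b * c) (2 / 3),
      div_inv_eq_mul, Real.mul_rpow (by positivity) hc0.le, Real.mul_rpow ha.le hb0.le]
  have ea : a ^ (-(4 / 3) : ℝ) = a ^ (2 / 3 : ℝ) / a ^ 2 := by
    rw [← Real.rpow_two, ← Real.rpow_sub ha]; norm_num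
  have eb : b ^ (1 / 3 : ℝ) * b ^ (2 / 3 : ℝ) = b := by
    rw [← Real.rpow_add hb0]; norm_num
  have ec : c ^ (-(2 / 3) : ℝ) * c ^ (2 / 3 : ℝ) = 1 := by
    rw [← Real.rpow_add hc0]; norm_num
  rw [e1, e2, ea]
  have e3 : M / (a * b * c) ^ 2 * (((K * V) ^ (1 / 3 : ℝ) * b ^ (1 / 3 : ℝ) * μ⁻¹ *
      c ^ (-(2 / 3) : ℝ)) * (X ^ (-(2 / 3) : ℝ) *
      (a ^ (2 / 3 : ℝ) * b ^ (2 / 3 : ℝ) * c ^ (2 / 3 : ℝ)))) =
      M * ((K * V) ^ (1 / 3 : ℝ) * X ^ (-(2 / 3) : ℝ) * (a ^ (2 / 3 : ℝ) / a ^ 2)) * (1 / μ) *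
        ((b ^ (1 / 3 : ℝ) * b ^ (2 / 3 : ℝ)) / b ^ 2 *
          ((c ^ (-(2 / 3) : ℝ) * c ^ (2 / 3 : ℝ)) / c ^ 2)) := by
    field_simp
  rw [e3, eb, ec]
  refine mul_le_mul_of_nonneg_left ?_ (by positivity)
  have h1 : b / b ^ 2 ≤ 1 := by
    rw [div_le_one (by positivity)]; nlinarith
  have h2 : 1 / c ^ 2 ≤ 1 / c := by
    apply one_div_le_one_div_of_le hc0; nlinarith
  calc b / b ^ 2 * (1 / c ^ 2) ≤ 1 * (1 / c) := by gcongr
    _ = 1 / c := one_mul _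

/-- one class of the sub-sequence: the joint block -/
lemma class_le {Y K X M N1 G₀ Bd V μ t : ℝ} {J : ℕ} {x : Eis → ℂ} {δ d e : Eis} (hY : 1 ≤ Y)
    (hK : 0 < K) (hX : 0 < X) (hM : 0 ≤ M) (hx : ∀ n, x n ≠ 0 → n ∈ S Y) (hδ : IsPrim δ)
    (hd : IsPrim d) (he : e ∈ S Y) (hV : 0 < V) (hμ : 0 < μ) (hdμ : (nm d : ℝ) ≤ μ)
    (hBY : Bd ≤ Y) (hVN : V * (nm δ : ℝ) ^ 2 ≤ N1)
    (hL : ∀ h ∈ S Y, ∀ B V : ℝ, 1 ≤ B → B ≤ Y → 1 ≤ V → V ≤ N1 / (nm h : ℝ) ^ 2 → ∀ t : ℝ,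
      E1551.JB Y x (fun U => G₀ < nm (h * U)) h B V t ≤
        M / (nm h : ℝ) ^ 2 * yv K X h V * (1 + |t|) ^ J) :
    ∑ U ∈ (S Y).filter (fun U => e * U ∈ Gs Y Bd G₀ δ),
      ∑ κ ∈ BU (V * nm d / μ ^ 3 / (nm e : ℝ) ^ 2) U, tgf x (δ * d * e * U) (κ * U) t ≤
    M * ((K * V) ^ (1 / 3 : ℝ) * X ^ (-(2 / 3) : ℝ) * (nm δ : ℝ) ^ (-(4 / 3) : ℝ)) * (1 / μ) *
      (1 / nm e) * (1 + |t|) ^ J := by
  have hY0 : 0 ≤ Y := by linarith
  have heS := (mem_S hY0).1 he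
  have ha : (1 : ℝ) ≤ nm δ := by exact_mod_cast nm_pos.2 hδ.ne_zero
  have hb : (1 : ℝ) ≤ nm d := by exact_mod_cast nm_pos.2 hd.ne_zero
  have hc : (1 : ℝ) ≤ nm e := by exact_mod_cast nm_pos.2 heS.2.1.ne_zero
  have ha0 : (0 : ℝ) < nm δ := by linarith
  have hb0 : (0 : ℝ) < nm d := by linarith
  have hc0 : (0 : ℝ) < nm e := by linarith
  have hT0 : 0 ≤ (1 + |t|) ^ J := by positivity
  set Z := V * nm d / μ ^ 3 / (nm e : ℝ) ^ 2 with hZ
  have hhp : IsPrim (δ * d * e) := (hδ.mul hd).mul heS.2.1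
  have hnn : 0 ≤ M * ((K * V) ^ (1 / 3 : ℝ) * X ^ (-(2 / 3) : ℝ) *
      (nm δ : ℝ) ^ (-(4 / 3) : ℝ)) * (1 / μ) * (1 / nm e) * (1 + |t|) ^ J := by positivity
  by_cases hne : ∃ U ∈ (S Y).filter (fun U => e * U ∈ Gs Y Bd G₀ δ), ∃ κ ∈ BU Z U,
      tgf x (δ * d * e * U) (κ * U) t ≠ 0
  swap
  · push Not at hne
    refine le_trans (le_of_eq ?_) hnn
    exact Finset.sum_eq_zero fun U hU => Finset.sum_eq_zero fun κ hκ => hne U hU κ hκ
  · obtain ⟨U, hU, κ, hκ, hne⟩ := hne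
    obtain ⟨hUS, hUG⟩ := Finset.mem_filter.1 hU
    obtain ⟨-, hG1, hG2, -⟩ := mem_Gs.1 hUG
    have hU' := (mem_S hY0).1 hUS
    have hU1 : (1 : ℝ) ≤ nm U := by exact_mod_cast nm_pos.2 hU'.2.1.ne_zero
    have hB1 : 1 ≤ Bd / nm e := by
      rw [le_div_iff₀ hc0, one_mul]
      rw [nm_mul] at hG2
      push_cast at hG2
      nlinarith
    have hZ1 : 1 ≤ Z := by
      have h1 := (mem_BU.1 hκ).1
      have h2 : (1 : ℝ) ≤ nm κ := by exact_mod_cast nm_pos.2 h1.1.1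
      exact h2.trans h1.2
    have hhS : δ * d * e ∈ S Y := by
      by_contra h0
      apply hne
      refine tgf_zero (fun m => ?_) _ _
      by_contra h1
      apply h0
      refine S_of_dvd hY0 (hx _ h1) hhp ?_
      exact ⟨U * m, by ring⟩
    have hBle : Bd / nm e ≤ Y := by
      have h0 : 0 ≤ Bd := by
        rw [nm_mul] at hG2
        push_cast at hG2
        nlinarith
      exact (div_le_self h0 hc).trans hBY
    have hZle : Z ≤ N1 / (nm (δ * d * e) : ℝ) ^ 2 := by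
      have hh0 : (0 : ℝ) < nm (δ * d * e) := by exact_mod_cast nm_pos.2 hhp.ne_zero
      rw [le_div_iff₀ (by positivity), nm_mul, nm_mul]
      push_cast
      have e1 : Z * ((nm δ : ℝ) * nm d * nm e) ^ 2 =
          (V * (nm δ : ℝ) ^ 2) * ((nm d : ℝ) ^ 3 / μ ^ 3) := by
        rw [hZ]; field_simp
      rw [e1]
      have h3 : (nm d : ℝ) ^ 3 / μ ^ 3 ≤ 1 := by
        rw [div_le_one (by positivity)]
        exact pow_le_pow_left₀ hb0.le hdμ 3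
      calc (V * (nm δ : ℝ) ^ 2) * ((nm d : ℝ) ^ 3 / μ ^ 3) ≤ (V * (nm δ : ℝ) ^ 2) * 1 := by
            gcongr
        _ ≤ N1 := by rw [mul_one]; exact hVN
    have h1 := hL _ hhS _ _ hB1 hBle hZ1 hZle t
    rw [JB_eq] at h1
    have h2 : ∑ U ∈ (S Y).filter (fun U => e * U ∈ Gs Y Bd G₀ δ),
        ∑ κ ∈ BU Z U, tgf x (δ * d * e * U) (κ * U) t ≤
        ∑ U ∈ (S Y).filter (fun U => Bd / nm e / 2 < nm U ∧ nm U ≤ Bd / nm e ∧
          G₀ < nm (δ * d * e * U)), ∑ κ ∈ BU Z U, tgf x (δ * d * e * U) (κ * U) t := by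
      refine Finset.sum_le_sum_of_subset_of_nonneg ?_ fun U _ _ =>
        Finset.sum_nonneg fun κ _ => tgf_nonneg _ _ _ _
      intro U hU
      rw [Finset.mem_filter] at hU ⊢
      obtain ⟨k1, k2⟩ := hU
      obtain ⟨-, k3, k4, k5⟩ := mem_Gs.1 k2
      rw [nm_mul e U] at k3 k4
      push_cast at k3 k4
      refine ⟨k1, ?_, ?_, ?_⟩
      · rw [div_div, mul_comm, ← div_div, div_lt_iff₀ hc0]
        linarith
      · rw [le_div_iff₀ hc0]; linarith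
      · refine k5.trans_le ?_
        have e2 : (nm (δ * d * e * U) : ℝ) = nm d * nm (δ * (e * U)) := by
          simp only [nm_mul]; push_cast; ring
        rw [e2]
        exact le_mul_of_one_le_left (Nat.cast_nonneg _) hb
    refine h2.trans (h1.trans ?_)
    unfold yv
    have e3 : (nm (δ * d * e) : ℝ) = nm δ * nm d * nm e := by
      simp only [nm_mul]; push_cast; ring
    rw [e3]
    exact mul_le_mul_of_nonneg_right (alg1 hM hK hX hV ha0 hb hc hμ) hT0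

lemma sum_inv_SY {Y : ℝ} (hY : 1 ≤ Y) : ∑ e ∈ S Y, (1 / (nm e : ℝ)) ≤ 100 * (1 + Real.log Y) := by
  have h1 := Div277.sum_inv_nz_le ⌊Y⌋₊
  have h2 : ∑ B ∈ S Y, (1 / (nm B : ℝ)) ≤ ∑ x ∈ Div277.nz ⌊Y⌋₊, (1 / (nm x : ℝ)) := by
    refine Finset.sum_le_sum_of_subset_of_nonneg (fun B hB => ?_) fun _ _ _ => by positivity
    have hB' := (mem_S (by linarith)).mp hB
    rw [Div277.mem_nz]
    exact ⟨hB'.2.1.ne_zero, Nat.le_floor hB'.1⟩
  have h3 : Real.log (⌊Y⌋₊ : ℝ) ≤ Real.log Y := by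
    apply Real.log_le_log
    · exact_mod_cast Nat.floor_pos.mpr hY
    · exact Nat.floor_le (by linarith)
  linarith

lemma sum_inv_bl {V : ℝ} (hV : 1 ≤ V) : ∑ m ∈ bl V, (1 / (nm m : ℝ)) ≤ 100 * (1 + Real.log V) := by
  have h1 := Div277.sum_inv_nz_le ⌊V⌋₊
  have h2 : ∑ B ∈ bl V, (1 / (nm B : ℝ)) ≤ ∑ x ∈ Div277.nz ⌊V⌋₊, (1 / (nm x : ℝ)) := by
    refine Finset.sum_le_sum_of_subset_of_nonneg (fun B hB => ?_) fun _ _ _ => by positivity
    have hB' := (mem_bl (by linarith)).mp hB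
    rw [Div277.mem_nz]
    exact ⟨hB'.1, Nat.le_floor hB'.2⟩
  have h3 : Real.log (⌊V⌋₊ : ℝ) ≤ Real.log V := by
    apply Real.log_le_log
    · exact_mod_cast Nat.floor_pos.mpr hV
    · exact Nat.floor_le (by linarith)
  linarith

/-- one cube `m³` and one divisor `d` of `m` -/
lemma level_le {Y K X M N1 G₀ Bd V μ t : ℝ} {J : ℕ} {x : Eis → ℂ} {δ d : Eis} (hY : 1 ≤ Y)
    (hK : 0 < K) (hX : 0 < X) (hM : 0 ≤ M) (hx : ∀ n, x n ≠ 0 → n ∈ S Y) (hδ : IsPrim δ)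
    (hd : IsPrim d) (hds : Squarefree d) (hV : 0 < V) (hμ : 0 < μ) (hdμ : (nm d : ℝ) ≤ μ)
    (hBY : Bd ≤ Y) (hVN : V * (nm δ : ℝ) ^ 2 ≤ N1)
    (hL : ∀ h ∈ S Y, ∀ B V : ℝ, 1 ≤ B → B ≤ Y → 1 ≤ V → V ≤ N1 / (nm h : ℝ) ^ 2 → ∀ t : ℝ,
      E1551.JB Y x (fun U => G₀ < nm (h * U)) h B V t ≤
        M / (nm h : ℝ) ^ 2 * yv K X h V * (1 + |t|) ^ J) :
    ∑ G ∈ Gs Y Bd G₀ δ, ∑ k ∈ (bl (V / μ ^ 3)).filter CF, tgf x (δ * G * d) (k * G * d) t ≤
    100 * (1 + Real.log Y) * (M * ((K * V) ^ (1 / 3 : ℝ) * X ^ (-(2 / 3) : ℝ) *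
      (nm δ : ℝ) ^ (-(4 / 3) : ℝ)) * (1 / μ) * (1 + |t|) ^ J) := by
  have hY0 : 0 ≤ Y := by linarith
  have hVμ : 0 ≤ V / μ ^ 3 := by positivity
  set D := M * ((K * V) ^ (1 / 3 : ℝ) * X ^ (-(2 / 3) : ℝ) *
      (nm δ : ℝ) ^ (-(4 / 3) : ℝ)) * (1 / μ) * (1 + |t|) ^ J with hD
  have hD0 : 0 ≤ D := by positivity
  have h1 : ∀ G ∈ Gs Y Bd G₀ δ, ∑ k ∈ (bl (V / μ ^ 3)).filter CF,
      tgf x (δ * G * d) (k * G * d) t ≤
      ∑ j ∈ BF (V * nm d / μ ^ 3), tgf x (δ * d * G) (j * G) t := by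
    intro G hG
    have hGS := (mem_S hY0).1 (mem_Gs.1 hG).1
    have h2 : ∀ k ∈ (bl (V / μ ^ 3)).filter CF, tgf x (δ * G * d) (k * G * d) t =
        tgf x (δ * d * G) (E1551.tau k d * G) t := by
      intro k _
      have h3 := tgf_tau hY0 hx (g := δ * d * G) (d := d) ((hδ.mul hd).mul hGS.2.1) hd hds
        ⟨δ * G, by ring⟩ k G t
      rw [← h3]
      congr 1 <;> ring
    rw [Finset.sum_congr rfl h2]
    have hinj : Set.InjOn (fun k => E1551.tau k d)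
        ((bl (V / μ ^ 3)).filter CF : Set Eis) := by
      intro k hk k' hk' h4
      have a1 := (Finset.mem_filter.1 (Finset.mem_coe.1 hk)).2
      have a2 := (Finset.mem_filter.1 (Finset.mem_coe.1 hk')).2
      have h5 : E1551.tau k d = E1551.tau k' d := h4
      rw [← tinv_tau (κ := k) (e := d) a1, ← tinv_tau (κ := k') (e := d) a2, h5]
    rw [← Finset.sum_image (f := fun j => tgf x (δ * d * G) (j * G) t)
      (g := fun k => E1551.tau k d) hinj]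
    refine Finset.sum_le_sum_of_subset_of_nonneg ?_ fun _ _ _ => tgf_nonneg _ _ _ _
    intro j hj
    obtain ⟨k, hk, rfl⟩ := Finset.mem_image.1 hj
    obtain ⟨k1, k2⟩ := Finset.mem_filter.1 hk
    rw [mem_bl hVμ] at k1
    rw [mem_BF]
    refine ⟨cf_tau k2, (nm_tau_le k1.1 hd hds).trans ?_⟩
    calc (nm k : ℝ) * nm d ≤ V / μ ^ 3 * nm d := by gcongr; exact k1.2
      _ = _ := by ring
  refine (Finset.sum_le_sum h1).trans ?_
  refine (sum_block hY0 hx (hδ.mul hd) Bd G₀ _ t).trans ?_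
  have h2 : ∀ e ∈ S Y, ∑ U ∈ (S Y).filter (fun U => e * U ∈ Gs Y Bd G₀ δ),
      ∑ κ ∈ BU (V * nm d / μ ^ 3 / (nm e : ℝ) ^ 2) U, tgf x (δ * d * e * U) (κ * U) t ≤
      D * (1 / nm e) := by
    intro e he
    refine (class_le hY hK hX hM hx hδ hd he hV hμ hdμ hBY hVN hL).trans (le_of_eq ?_)
    rw [hD]; ring
  refine (Finset.sum_le_sum h2).trans ?_
  rw [← Finset.mul_sum]
  calc D * ∑ e ∈ S Y, 1 / (nm e : ℝ) ≤ D * (100 * (1 + Real.log Y)) :=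
        mul_le_mul_of_nonneg_left (sum_inv_SY hY) hD0
    _ = _ := by ring

/-- `2^{ω(n)} ≤ τ(n)` -/
lemma two_pow_pp {n : Eis} (hn : n ≠ 0) : (2 : ℝ) ^ (pp n).card ≤ Div277.tau n := by
  have h : 2 ^ (pp n).card ≤ Div277.tau n := by
    rw [← Finset.card_powerset, Div277.tau]
    refine Finset.card_le_card_of_injOn (fun S => ∏ p ∈ S, p) ?_ ?_
    · intro S hS
      rw [Finset.mem_coe, Finset.mem_powerset] at hS
      have hS' : PPSet S := (ppSet_pp n).subset hS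
      rw [Finset.mem_coe, Div277.mem_dvs hn]
      exact ⟨hS'.isPrim_prod, hS'.prod_dvd.2 fun p hp => ((mem_pp hn).1 (hS hp)).2⟩
    · intro S hS T hT h
      rw [Finset.mem_coe, Finset.mem_powerset] at hS hT
      have hS' : PPSet S := (ppSet_pp n).subset hS
      have hT' : PPSet T := (ppSet_pp n).subset hT
      have h1 : pp (∏ p ∈ S, p) = S := hS'.pp_prod
      have h2 : pp (∏ p ∈ T, p) = T := hT'.pp_prod
      simp only at h
      rw [← h1, h, h2]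
  exact_mod_cast h

lemma one_add_log {Y Z ε : ℝ} (hY : 1 ≤ Y) (hYZ : Y ≤ Z) (hε : 0 < ε) :
    1 + Real.log Y ≤ (1 + ε⁻¹) * Z ^ ε := by
  have hY0 : 0 ≤ Y := by linarith
  have h8 : Real.log Y ≤ ε⁻¹ * Y ^ ε := by
    have h := Real.log_le_rpow_div hY0 hε
    rwa [div_eq_inv_mul] at h
  have h9 : Y ^ ε ≤ Z ^ ε := Real.rpow_le_rpow hY0 hYZ hε.le
  have h10 : 1 ≤ Z ^ ε := Real.one_le_rpow (hY.trans hYZ) hε.le
  have h11 : 0 < ε⁻¹ := by positivity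
  calc 1 + Real.log Y ≤ 1 * Z ^ ε + ε⁻¹ * Z ^ ε :=
        add_le_add (by linarith) (h8.trans (mul_le_mul_of_nonneg_left h9 h11.le))
    _ = _ := by ring

set_option maxHeartbeats 1600000 in
/-- **all frequencies**: the block of `G` at the sub-sequence `δ` from the joint blocks -/
theorem core {ε : ℝ} (hε : 0 < ε) : ∃ C : ℝ, 0 ≤ C ∧
    ∀ (Y K X M N1 G₀ Bd V : ℝ) (J : ℕ) (x : Eis → ℂ) (δ : Eis), 1 ≤ Y → 0 < K → 0 < X → 0 ≤ M →
    (∀ n, x n ≠ 0 → n ∈ S Y) → IsPrim δ → 1 ≤ V → Bd ≤ Y → V * (nm δ : ℝ) ^ 2 ≤ N1 →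
    (∀ h ∈ S Y, ∀ B V : ℝ, 1 ≤ B → B ≤ Y → 1 ≤ V → V ≤ N1 / (nm h : ℝ) ^ 2 → ∀ t : ℝ,
      E1551.JB Y x (fun U => G₀ < nm (h * U)) h B V t ≤
        M / (nm h : ℝ) ^ 2 * yv K X h V * (1 + |t|) ^ J) → ∀ t : ℝ,
    ∑ k ∈ bl V, ∑ G ∈ Gs Y Bd G₀ δ, tgf x (δ * G) (k * G) t ≤
      C * (Y * V) ^ ε * (M * ((K * V) ^ (1 / 3 : ℝ) * X ^ (-(2 / 3) : ℝ) *
        (nm δ : ℝ) ^ (-(4 / 3) : ℝ))) * (1 + |t|) ^ J := by
  have hε4 : 0 < ε / 4 := by linarith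
  obtain ⟨C₂, hC₂, hτ⟩ := Div277.tau_le_rpow hε4
  refine ⟨C₂ ^ 2 * (100 * (1 + (ε / 4)⁻¹)) ^ 2, by positivity, ?_⟩
  intro Y K X M N1 G₀ Bd V J x δ hY hK hX hM hx hδ hV hBY hVN hL t
  have hY0 : 0 ≤ Y := by linarith
  have hV0 : 0 < V := by linarith
  have hFS : FS x := RGw813.FS_of_S hY0 hx
  have hC₂0 : 0 ≤ C₂ := by linarith
  set D₀ := M * ((K * V) ^ (1 / 3 : ℝ) * X ^ (-(2 / 3) : ℝ) *
      (nm δ : ℝ) ^ (-(4 / 3) : ℝ)) with hD₀
  have hD₀0 : 0 ≤ D₀ := by positivity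
  have hT0 : 0 ≤ (1 + |t|) ^ J := by positivity
  set F : Eis → ℝ := fun k => ∑ G ∈ Gs Y Bd G₀ δ, tgf x (δ * G) (k * G) t with hF
  set H : Eis → Eis → ℝ := fun m k => 2 ^ (pp m).card * ∑ T ∈ (pp m).powerset,
    ∑ G ∈ Gs Y Bd G₀ δ, tgf x (δ * G * ∏ p ∈ T, p) (k * G * ∏ p ∈ T, p) t with hH
  have hH0 : ∀ m k, 0 ≤ H m k := fun m k => mul_nonneg (by positivity)
    (Finset.sum_nonneg fun _ _ => Finset.sum_nonneg fun _ _ => tgf_nonneg _ _ _ _)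
  have h1 := Lbc298.cube_le_f hV0.le (fun _ => True) (fun _ _ _ => trivial) (F := F) (G := H) hH0
    (by
      intro k hk _
      have hm0 := Lbc298.m_ne_zero hk
      simp only [hF, hH]
      rw [Finset.sum_comm, Finset.mul_sum]
      refine Finset.sum_le_sum fun G hG => ?_
      have hGS := (mem_S hY0).1 (mem_Gs.1 hG).1
      have h2 := tgf_cube hFS (g := δ * G) (hδ.mul hGS.2.1) hm0 (Lbc298.red k * G) t
      refine le_trans (le_of_eq ?_) h2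
      have e1 : k * G = Lbc298.red k * G * (Lbc298.dc k).m ^ 3 := by
        conv_lhs => rw [Lbc298.red_mul hk]
        ring
      rw [← e1])
  have e0 : ∑ k ∈ bl V, F k = ∑ k ∈ (bl V).filter (fun _ => True), F k := by
    rw [Finset.filter_true]
  rw [e0]
  refine h1.trans ?_
  set W := V ^ ((1 : ℝ) / 3) with hW
  have hW1 : 1 ≤ W := Real.one_le_rpow hV (by norm_num)
  have hW0 : 0 ≤ W := by linarith
  have hWV : W ≤ V := by
    calc W = V ^ ((1 : ℝ) / 3) := rfl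
      _ ≤ V ^ (1 : ℝ) := Real.rpow_le_rpow_of_exponent_le hV (by norm_num)
      _ = V := Real.rpow_one V
  have hlY := Real.log_nonneg hY
  have hlV := Real.log_nonneg hV
  have hVYV : V ≤ Y * V := le_mul_of_one_le_left hV0.le hY
  have hYYV : Y ≤ Y * V := le_mul_of_one_le_right hY0 hV
  set LY := 100 * (1 + Real.log Y) with hLY
  have hLY0 : 0 ≤ LY := by positivity
  have h2 : ∀ m ∈ bl W, ∑ k ∈ (bl (V / (nm m : ℝ) ^ 3)).filter
      (fun k => Lbc298.CubeFree k ∧ True), H m k ≤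
      (C₂ * V ^ (ε / 4)) ^ 2 * (LY * D₀ * (1 + |t|) ^ J) * (1 / nm m) := by
    intro m hm
    rw [mem_bl hW0] at hm
    have hm1 : (1 : ℝ) ≤ nm m := by exact_mod_cast nm_pos.2 hm.1
    have hm0 : (0 : ℝ) < nm m := by linarith
    have hfil : (bl (V / (nm m : ℝ) ^ 3)).filter (fun k => Lbc298.CubeFree k ∧ True) =
        (bl (V / (nm m : ℝ) ^ 3)).filter CF := by
      ext k
      simp only [Finset.mem_filter, and_true]
      exact Iff.rfl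
    rw [hfil]
    simp only [hH]
    rw [← Finset.mul_sum, Finset.sum_comm]
    have h3 : ∀ T ∈ (pp m).powerset, ∑ k ∈ (bl (V / (nm m : ℝ) ^ 3)).filter CF,
        ∑ G ∈ Gs Y Bd G₀ δ, tgf x (δ * G * ∏ p ∈ T, p) (k * G * ∏ p ∈ T, p) t ≤
        LY * (D₀ * (1 / nm m) * (1 + |t|) ^ J) := by
      intro T hT
      have hTP : PPSet T := (ppSet_pp m).subset (Finset.mem_powerset.mp hT)
      rw [Finset.sum_comm]
      refine level_le hY hK hX hM hx hδ hTP.isPrim_prod hTP.squarefree_prod hV0 hm0 ?_ hBY hVN hL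
      have hdvd : (∏ p ∈ T, p) ∣ m := by
        refine hTP.prod_dvd.mpr fun p hp => ?_
        exact ((mem_pp hm.1).1 (Finset.mem_powerset.mp hT hp)).2
      exact_mod_cast Div277.nm_le_of_dvd hm.1 hdvd
    have h4 : (2 : ℝ) ^ (pp m).card ≤ C₂ * V ^ (ε / 4) := by
      refine (two_pow_pp hm.1).trans ((hτ m hm.1).trans ?_)
      refine mul_le_mul_of_nonneg_left ?_ hC₂0
      exact Real.rpow_le_rpow hm0.le (hm.2.trans hWV) hε4.le
    have h5 : ((pp m).powerset.card : ℝ) ≤ C₂ * V ^ (ε / 4) := by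
      rw [Finset.card_powerset]
      push_cast
      exact h4
    calc (2 : ℝ) ^ (pp m).card * ∑ T ∈ (pp m).powerset, _
        ≤ (2 : ℝ) ^ (pp m).card * ∑ T ∈ (pp m).powerset,
          LY * (D₀ * (1 / nm m) * (1 + |t|) ^ J) :=
          mul_le_mul_of_nonneg_left (Finset.sum_le_sum h3) (by positivity)
      _ = (2 : ℝ) ^ (pp m).card * (((pp m).powerset.card : ℝ) *
          (LY * (D₀ * (1 / nm m) * (1 + |t|) ^ J))) := by
          rw [Finset.sum_const, nsmul_eq_mul]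
      _ ≤ (C₂ * V ^ (ε / 4)) * ((C₂ * V ^ (ε / 4)) *
          (LY * (D₀ * (1 / nm m) * (1 + |t|) ^ J))) := by gcongr
      _ = _ := by ring
  refine (Finset.sum_le_sum h2).trans ?_
  rw [← Finset.mul_sum]
  have h6 := sum_inv_bl hW1
  have hlW : Real.log W ≤ Real.log V := Real.log_le_log (by linarith) hWV
  have h7 : ∑ m ∈ bl W, 1 / (nm m : ℝ) ≤ 100 * ((1 + (ε / 4)⁻¹) * (Y * V) ^ (ε / 4)) := by
    refine h6.trans (mul_le_mul_of_nonneg_left ?_ (by norm_num))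
    exact (by linarith : 1 + Real.log W ≤ 1 + Real.log V).trans (one_add_log hV hVYV hε4)
  have h8 : LY ≤ 100 * ((1 + (ε / 4)⁻¹) * (Y * V) ^ (ε / 4)) := by
    rw [hLY]
    exact mul_le_mul_of_nonneg_left (one_add_log hY hYYV hε4) (by norm_num)
  have h9 : V ^ (ε / 4) ≤ (Y * V) ^ (ε / 4) := Real.rpow_le_rpow hV0.le hVYV hε4.le
  have hYV : 0 < Y * V := by positivity
  have e4 : ((Y * V) ^ (ε / 4)) ^ 4 = (Y * V) ^ ε := by
    rw [← Real.rpow_natCast, ← Real.rpow_mul hYV.le]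
    congr 1
    push_cast; ring
  have hA : 0 ≤ (1 + (ε / 4)⁻¹) := by positivity
  calc (C₂ * V ^ (ε / 4)) ^ 2 * (LY * D₀ * (1 + |t|) ^ J) * ∑ m ∈ bl W, 1 / (nm m : ℝ)
      ≤ (C₂ * (Y * V) ^ (ε / 4)) ^ 2 * ((100 * ((1 + (ε / 4)⁻¹) * (Y * V) ^ (ε / 4))) * D₀ *
          (1 + |t|) ^ J) * (100 * ((1 + (ε / 4)⁻¹) * (Y * V) ^ (ε / 4))) := by
        gcongr
    _ = C₂ ^ 2 * (100 * (1 + (ε / 4)⁻¹)) ^ 2 * ((Y * V) ^ (ε / 4)) ^ 4 * D₀ * (1 + |t|) ^ J := by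
        ring
    _ = _ := by rw [e4]

end Crest.Agent.R017.MTX241
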