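import Crest.Agent.R017.MTX1_241
import Crest.Agent.R017.E2p_440

/-!
# Row 17, exceptional class, T.7, leaf E2-d (helper241): the polar direct part, part 2

* `wk_smooth`, `g6` : the window of the weight `(N n)^(-1/6)`
* `MT_sq_le` : the polar sum `MT` as a `TG` form
* `merge` : the sums over `(c, j₂, r)` as a sum over the frequencies `k = c r (e A j₂)²`
* `mtx` : the polar direct part of an arbitrary sequence, from its joint blocks `JB`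
-/

set_option autoImplicit false

noncomputable section

open MeasureTheory Finset Filter
open scoped ComplexConjugate Classical ContDiff

namespace Crest.Agent.R017.MTX241

open Crest.Agent.R012
open Eis CharSum852 Gauss880 LS2 CR2 MelSep811
open Crest.Agent.R012.Weight600 (osc norm_osc ker pw)
open Crest.Agent.R012.Char766 (sy_mul_left)
open Crest.Agent.R017.CM106 (CS TG FS sub)
open Crest.Agent.R017.E2440 (MT ag C4 mem_C4 RR)
open Crest.Agent.R017.PX764 (Gh n6 Gh_mul n6_mul)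
open Crest.Agent.R017.FE47 (cx cd_cx cs_cx)
open Crest.Agent.R017.Win813
open Crest.Agent.R017.RGw813 (PG PG_win PG_bt tw2 bt T9 mem_T9 FS_bt)

/-! ### windows -/

/-- a window of length `1` for a smooth compactly supported function -/
lemma wk_smooth {g : ℝ → ℝ} (hg : ContDiff ℝ ∞ g) (hc : HasCompactSupport g) (A : ℕ) :
    ∃ C : ℝ, 0 ≤ C ∧ ∀ p : ℝ, WK C 1 A (fun u => g (u - p)) := by
  obtain ⟨C0, hC0, hdec⟩ := Weight600.ker_decay (cd_cx hg) (cs_cx hc) A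
  refine ⟨C0, hC0.le, fun p => ?_⟩
  have hkc : Continuous (ker (cx g)) := Weight600.continuous_ker
    ((cd_cx hg).continuous.integrable_of_hasCompactSupport (cs_cx hc))
  refine ⟨fun s => ker (cx g) s * osc s (-p), ?_, fun s => ?_, fun u => ?_⟩
  · exact hkc.mul (Weight600.continuous_osc_left _)
  · rw [norm_mul, norm_osc, mul_one]
    unfold ew
    rw [one_mul, one_mul, ← div_eq_mul_inv, le_div_iff₀ (by positivity)]
    exact hdec s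
  · have h1 := Weight600.inversion_smooth (cd_cx hg) (cs_cx hc) (u - p)
    have e1 : ((g (u - p) : ℝ) : ℂ) = cx g (u - p) := rfl
    rw [e1, ← h1]
    refine integral_congr_ae (Eventually.of_forall fun s => ?_)
    beta_reduce
    rw [mul_assoc, ← Weight600.osc_add_right]
    congr 2
    ring

/-- the window of the weight `(N n)^(-1/6)` -/
def g6 (R : ℝ) (hR : 0 ≤ R) (v : ℝ) : ℝ :=
  Real.exp (-(v / 6)) * ((⟨R + 1, R + 2, by linarith, by linarith⟩ : ContDiffBump (0 : ℝ)) v)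

lemma g6_cd (R : ℝ) (hR : 0 ≤ R) : ContDiff ℝ ∞ (g6 R hR) := by
  unfold g6
  refine ContDiff.mul ?_ ?_
  · exact (Real.contDiff_exp.of_le le_top).comp (by fun_prop)
  · exact ContDiffBump.contDiff _

lemma g6_cs (R : ℝ) (hR : 0 ≤ R) : HasCompactSupport (g6 R hR) := by
  unfold g6
  exact HasCompactSupport.mul_left (ContDiffBump.hasCompactSupport _)

lemma g6_eq {R : ℝ} (hR : 0 ≤ R) {v : ℝ} (hv : |v| ≤ R) : g6 R hR v = Real.exp (-(v / 6)) := by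
  unfold g6
  rw [ContDiffBump.one_of_mem_closedBall, mul_one]
  rw [Metric.mem_closedBall, dist_zero_right, Real.norm_eq_abs]
  show |v| ≤ R + 1
  linarith

lemma n6_pos {a : Eis} (ha : a ≠ 0) : 0 < n6 a := by
  unfold PX764.n6
  have : (0 : ℝ) < nm a := by exact_mod_cast nm_pos.2 ha
  positivity

/-- the weight as a window -/
lemma n6_win {R X : ℝ} (hR : 0 ≤ R) (hX : 0 < X) {n : Eis} (hn : n ≠ 0)
    (h : |Real.log (nm n) - Real.log X| ≤ R) :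
    n6 n = X ^ (-(1 : ℝ) / 6) * g6 R hR (Real.log (nm n) - Real.log X) := by
  have hn0 : (0 : ℝ) < nm n := by exact_mod_cast nm_pos.2 hn
  rw [g6_eq hR h]
  unfold PX764.n6
  rw [Real.rpow_def_of_pos hn0, Real.rpow_def_of_pos hX, ← Real.exp_add]
  congr 1
  ring

/-! ### the polar sum -/

/-- **the polar sum is a `TG` form of the sequence with the weight `(N n)^(-1/6)`** -/
theorem MT_sq_le {α : Eis → ℂ} {Y : ℝ} (hY : 0 ≤ Y) (hα : ∀ n, α n ≠ 0 → n ∈ S Y) {δ B : Eis}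
    (hδ : IsPrim δ) (hB : IsPrim B) (E σ r : Eis) :
    ‖MT (ag α δ δ) E B σ r‖ ^ 2 ≤
      (nm (δ * B) : ℝ) ^ ((1 : ℝ) / 3) *
        tgf (fun n => α n * (n6 n : ℂ)) (δ * B) (σ * r * (E ^ 2 * B)) 0 := by
  have hg : IsPrim (δ * B) := hδ.mul hB
  have hg0 : (0 : ℝ) < nm (δ * B) := by exact_mod_cast nm_pos.2 hg.ne_zero
  have h6 := n6_pos hg.ne_zero
  have h6c : ((n6 (δ * B) : ℝ) : ℂ) ≠ 0 := by exact_mod_cast h6.ne'
  have key : ∀ D : Eis, ag α δ δ (B * D) * (sy E D * conj (sy D B)) *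
      ((n6 D : ℂ) * Gh (σ * r) D) = ((n6 (δ * B) : ℝ) : ℂ)⁻¹ *
      ((α (δ * B * D) * (n6 (δ * B * D) : ℂ) * pw 0 (nm D)) *
        (G D * conj (sy (σ * r * (E ^ 2 * B)) D))) := by
    intro D
    by_cases h0 : α (δ * B * D) = 0
    · have h1 : ag α δ δ (B * D) = 0 := by
        by_contra hne
        have := (E2440.ag_ne hne).2
        rw [← mul_assoc] at this
        exact this h0
      rw [h1, h0]
      simp
    · have hS := hα _ h0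
      obtain ⟨-, hp, hsq⟩ := (mem_S hY).mp hS
      have hDp : IsPrim D := IsPrim.of_mul_left hp hg
      have hcop : IsCoprime (B * D) δ := by
        have : Squarefree (δ * (B * D)) := by rwa [← mul_assoc]
        exact (cop_sqf this).symm
      have h1 : ag α δ δ (B * D) = α (δ * B * D) := by
        unfold E2440.ag
        rw [if_pos hcop, mul_assoc]
      rw [h1, Weight600.pw_zero_left, mul_one, n6_mul (δ * B) D]
      push_cast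
      have f1 : Gh (σ * r) D * (sy E D * conj (sy D B)) =
          G D * conj (sy (σ * r * (E ^ 2 * B)) D) := by
        unfold PX764.Gh
        rw [syG.recip D B hDp hB, syG.mul_left (σ * r) (E ^ 2 * B) D hDp,
          syG.mul_left (E ^ 2) B D hDp, pow_two,
          syG.mul_left E E D hDp, map_mul, map_mul, map_mul]
        by_cases hE : IsCoprime E D
        · have h3 : conj (sy E D) * conj (sy E D) = sy E D := by
            have h4 := sy_sq_eq_conj syG (x := E) hDp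
            rw [← pow_two, ← map_pow, h4, Complex.conj_conj]
          rw [h3]
          ring
        · rw [(syG.eq_zero E D hDp).2 hE]
          simp
      calc α (δ * B * D) * (sy E D * conj (sy D B)) * ((n6 D : ℂ) * Gh (σ * r) D)
          = α (δ * B * D) * (n6 D : ℂ) * (Gh (σ * r) D * (sy E D * conj (sy D B))) := by ring
        _ = α (δ * B * D) * (n6 D : ℂ) * (G D * conj (sy (σ * r * (E ^ 2 * B)) D)) := by rw [f1]
        _ = _ := by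
            field_simp
  have e : MT (ag α δ δ) E B σ r = ((n6 (δ * B) : ℝ) : ℂ)⁻¹ *
      TG (fun m => α (δ * B * m) * (n6 (δ * B * m) : ℂ) * pw 0 (nm m)) (σ * r * (E ^ 2 * B)) := by
    unfold E2440.MT CM106.TG
    rw [← tsum_mul_left]
    exact tsum_congr key
  rw [e, norm_mul, mul_pow, norm_inv, Complex.norm_real, Real.norm_of_nonneg h6.le]
  refine le_of_eq ?_
  unfold Win813.tgf
  congr 1
  unfold PX764.n6
  rw [inv_pow, ← Real.rpow_natCast, ← Real.rpow_mul hg0.le, ← Real.rpow_neg hg0.le]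
  norm_num

/-- a twist is a multiplication of the frequency -/
lemma tgf_kw {x : Eis → ℂ} (h : FS x) (a b : ℕ) {g : Eis} (hg : IsPrim g) (l : Eis) (t : ℝ) :
    tgf (tw2 a b x) g l t = tgf x g (w ^ a * lam ^ b * l) t := by
  rw [RGw813.tgf_tw2 h a b hg]
  unfold tgf
  congr 2
  unfold CM106.TG RGw813.tw2
  refine tsum_congr fun m => ?_
  by_cases h0 : x (g * m) = 0
  · simp [h0]
  · have hm : IsPrim m := IsPrim.of_mul_left (h.prim _ h0) hg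
    beta_reduce
    rw [sy_mul_left (x := w ^ a * lam ^ b) (y := l) hm, map_mul]
    ring

/-- the window sequence -/
lemma tgf_n6 {R X : ℝ} (hR : 0 ≤ R) (hX : 0 < X) {x : Eis → ℂ} (hx : FS x)
    (hw : ∀ n, x n ≠ 0 → |Real.log (nm n) - Real.log X| ≤ R) (φ : ℝ → ℝ) (p : ℕ × ℕ) (t₀ : ℝ)
    {g : Eis} (hg : g ≠ 0) (l : Eis) :
    tgf (fun n => bt φ x p n * pw t₀ (nm n) * (n6 n : ℂ)) g l 0 =
      X ^ (-(1 : ℝ) / 3) *
        tgf (wn (fun u => g6 R hR (u - Real.log X)) (bt φ x p)) g l t₀ := by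
  set ψ : ℝ → ℝ := fun u => g6 R hR (u - Real.log X) with hψ
  have e1 : (fun n => bt φ x p n * pw t₀ (nm n) * (n6 n : ℂ)) = fun n =>
      ((X ^ (-(1 : ℝ) / 6) : ℝ) : ℂ) * (wn ψ (bt φ x p) n * pw t₀ (nm n)) := by
    funext n
    by_cases h0 : bt φ x p n = 0
    · unfold Win813.wn
      rw [h0]
      simp
    · have hxn : x n ≠ 0 := (wn_ne (RGw813.tw2_ne h0)).1
      have hn0 : n ≠ 0 := (hx.prim n hxn).ne_zero
      have h1 := n6_win hR hX hn0 (hw n hxn)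
      unfold Win813.wn
      rw [h1, hψ]
      push_cast
      ring
  rw [e1]
  have hFS : FS (wn ψ (bt φ x p)) := FS_wn (FS_bt hx φ p)
  have h2 := tgf_pw hFS hg l t₀ 0
  rw [add_zero] at h2
  rw [← h2]
  unfold Win813.tgf
  have e2 : TG (fun m => ((X ^ (-(1 : ℝ) / 6) : ℝ) : ℂ) *
      (wn ψ (bt φ x p) (g * m) * pw t₀ (nm (g * m))) * pw 0 (nm m)) l =
      ((X ^ (-(1 : ℝ) / 6) : ℝ) : ℂ) *
        TG (fun m => wn ψ (bt φ x p) (g * m) * pw t₀ (nm (g * m)) * pw 0 (nm m)) l := by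
    unfold CM106.TG
    rw [← tsum_mul_left]
    exact tsum_congr fun m => by ring
  rw [e2, norm_mul, mul_pow, Complex.norm_real, Real.norm_of_nonneg (by positivity)]
  congr 1
  rw [← Real.rpow_natCast, ← Real.rpow_mul hX.le]
  norm_num

/-! ### the frequencies -/

lemma card_C4 : C4.card ≤ 4 := by
  unfold E2440.C4
  refine (Finset.card_insert_le _ _).trans ?_
  have h1 := Finset.card_insert_le (3 : Eis) {3 * w, 3 * w ^ 2}
  have h2 := Finset.card_insert_le (3 * w : Eis) {3 * w ^ 2}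
  rw [Finset.card_singleton] at h2
  omega

lemma nm_C4 {c : Eis} (hc : c ∈ C4) : nm c ≤ 9 := by
  have hw : nm w = 1 := nm_w
  have h3 : nm (3 : Eis) = 9 := by decide
  rcases mem_C4.1 hc with h | h | h | h <;> rw [h]
  · simp
  · rw [h3]
  · rw [nm_mul, h3, hw]
  · rw [nm_mul, nm_pow, h3, hw]; norm_num

lemma RR_nonneg {Yl : ℝ} (hYl : 0 < Yl) (e A c j : Eis) : 0 ≤ RR Yl e A c j := by
  unfold E2440.RR; positivity

/-- **merging the frequencies** -/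
lemma merge {Yl J' : ℝ} (hYl : 0 < Yl) (hJ' : 0 ≤ J') {e A : Eis} (he : IsPrim e)
    (hA : IsPrim A) {F : Eis → ℝ} (hF : ∀ k, 0 ≤ F k) :
    ∑ c ∈ C4, ∑ j ∈ S J', ∑ r ∈ (S (RR Yl e A c j)).filter
        (fun r => IsCoprime r 1 ∧ RR Yl e A c j / 2 < nm r), F (c * r * (e * A * j) ^ 2) ≤
      4 * ∑ k ∈ bl (Yl * (nm (e * A) : ℝ) ^ 3), (Div277.tau k : ℝ) * F k := by
  have hE0 : e * A ≠ 0 := mul_ne_zero he.ne_zero hA.ne_zero
  have hE : (0 : ℝ) < nm (e * A) := by exact_mod_cast nm_pos.2 hE0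
  set V₁ := Yl * (nm (e * A) : ℝ) ^ 3 with hV₁
  have hV₁0 : 0 ≤ V₁ := by positivity
  have hD0 : 0 ≤ ∑ k ∈ bl V₁, (Div277.tau k : ℝ) * F k :=
    Finset.sum_nonneg fun k _ => mul_nonneg (Nat.cast_nonneg _) (hF k)
  have hc : ∀ c ∈ C4, ∑ j ∈ S J', ∑ r ∈ (S (RR Yl e A c j)).filter
        (fun r => IsCoprime r 1 ∧ RR Yl e A c j / 2 < nm r), F (c * r * (e * A * j) ^ 2) ≤
      ∑ k ∈ bl V₁, (Div277.tau k : ℝ) * F k := by
    intro c hc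
    have hc0 : c ≠ 0 := (mem_C4.1 hc).ne_zero
    have hcn : (0 : ℝ) < nm c := by exact_mod_cast nm_pos.2 hc0
    have h1 : ∀ j ∈ S J', ∑ r ∈ (S (RR Yl e A c j)).filter
        (fun r => IsCoprime r 1 ∧ RR Yl e A c j / 2 < nm r), F (c * r * (e * A * j) ^ 2) ≤
        ∑ k ∈ bl V₁, if j ∣ k then F k else 0 := by
      intro j hj
      obtain ⟨-, hjp, -⟩ := (mem_S hJ').mp hj
      have hj0 := hjp.ne_zero
      have hjn : (0 : ℝ) < nm j := by exact_mod_cast nm_pos.2 hj0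
      rw [← Finset.sum_filter]
      have hinj : Function.Injective (fun r : Eis => c * r * (e * A * j) ^ 2) := by
        intro a b hab
        have h2 : (e * A * j) ^ 2 ≠ 0 := pow_ne_zero 2 (mul_ne_zero hE0 hj0)
        have h3 := mul_right_cancel₀ h2 hab
        exact mul_left_cancel₀ hc0 h3
      rw [← Finset.sum_image (f := F) (g := fun r : Eis => c * r * (e * A * j) ^ 2)
        (fun a _ b _ hab => hinj hab)]
      refine Finset.sum_le_sum_of_subset_of_nonneg ?_ fun k _ _ => hF k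
      intro k hk
      obtain ⟨r, hr, rfl⟩ := Finset.mem_image.mp hk
      rw [Finset.mem_filter, mem_S (RR_nonneg hYl e A c j)] at hr
      obtain ⟨⟨hr1, hrp, -⟩, -⟩ := hr
      rw [Finset.mem_filter, mem_bl hV₁0]
      refine ⟨⟨mul_ne_zero (mul_ne_zero hc0 hrp.ne_zero)
        (pow_ne_zero 2 (mul_ne_zero hE0 hj0)), ?_⟩, ?_⟩
      · have e1 : (nm (c * r * (e * A * j) ^ 2) : ℝ) =
            nm c * nm r * ((nm (e * A) : ℝ) * nm j) ^ 2 := by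
          rw [nm_mul, nm_mul, nm_pow, nm_mul (e * A) j]; push_cast; ring
        rw [e1]
        calc (nm c : ℝ) * nm r * ((nm (e * A) : ℝ) * nm j) ^ 2 ≤
            nm c * RR Yl e A c j * ((nm (e * A) : ℝ) * nm j) ^ 2 := by gcongr
          _ = V₁ := by
              unfold E2440.RR
              rw [hV₁]
              field_simp
      · exact Dvd.dvd.mul_left ((dvd_mul_left j (e * A)).trans (dvd_pow_self _ two_ne_zero)) _
    refine (Finset.sum_le_sum h1).trans ?_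
    rw [Finset.sum_comm]
    refine Finset.sum_le_sum fun k hk => ?_
    obtain ⟨hk0, -⟩ := (mem_bl hV₁0).mp hk
    rw [← Finset.sum_filter, Finset.sum_const, nsmul_eq_mul]
    refine mul_le_mul_of_nonneg_right ?_ (hF k)
    have : ((S J').filter (fun j => j ∣ k)).card ≤ Div277.tau k := by
      unfold Div277.tau
      refine Finset.card_le_card fun j hj => ?_
      rw [Finset.mem_filter, mem_S hJ'] at hj
      exact (Div277.mem_dvs hk0).2 ⟨hj.1.2.1, hj.2⟩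
    exact_mod_cast this
  refine (Finset.sum_le_sum hc).trans ?_
  rw [Finset.sum_const, nsmul_eq_mul]
  refine mul_le_mul_of_nonneg_right ?_ hD0
  exact_mod_cast card_C4

/-- the weights in `j₂` cancel -/
lemma wt_le {Yl K' : ℝ} (hYl : 0 < Yl) (hK' : 0 ≤ K') {e A c j : Eis} (hE0 : e * A ≠ 0)
    (hc : c ∈ C4) (hj : j ≠ 0) :
    RR Yl e A c j ^ (-(2 : ℝ) / 3) * (K' / nm (e * A * j)) ^ ((4 : ℝ) / 3) ≤
      5 * (Yl ^ (-(2 : ℝ) / 3) * (nm (e * A) : ℝ) ^ (-(2 : ℝ)) * K' ^ ((4 : ℝ) / 3)) := by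
  have hE : (0 : ℝ) < nm (e * A) := by exact_mod_cast nm_pos.2 hE0
  have hjn : (0 : ℝ) < nm j := by exact_mod_cast nm_pos.2 hj
  have hcn : (0 : ℝ) < nm c := by exact_mod_cast nm_pos.2 (mem_C4.1 hc).ne_zero
  have hc9 : (nm c : ℝ) ≤ 9 := by exact_mod_cast nm_C4 hc
  set E : ℝ := ((nm (e * A) : ℕ) : ℝ) with hEd
  set c' : ℝ := ((nm c : ℕ) : ℝ) with hc'
  set j' : ℝ := ((nm j : ℕ) : ℝ) with hj'
  have e1 : ((nm (e * A * j) : ℕ) : ℝ) = E * j' := by rw [nm_mul (e * A) j]; push_cast; rfl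
  rw [e1]
  unfold E2440.RR
  rw [← hEd, ← hc', ← hj']
  have h9 : c' ^ ((2 : ℝ) / 3) ≤ 5 := by
    have h1 : c' ^ ((2 : ℝ) / 3) ≤ (9 : ℝ) ^ ((2 : ℝ) / 3) :=
      Real.rpow_le_rpow hcn.le hc9 (by norm_num)
    have h2 : (9 : ℝ) ^ ((2 : ℝ) / 3) ≤ 5 := by
      have h3 : ((9 : ℝ) ^ ((2 : ℝ) / 3)) ^ (3 : ℕ) = 81 := by
        rw [← Real.rpow_natCast, ← Real.rpow_mul (by norm_num)]
        norm_num
      by_contra h
      push Not at h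
      have h4 : (5 : ℝ) ^ 3 < ((9 : ℝ) ^ ((2 : ℝ) / 3)) ^ (3 : ℕ) :=
        pow_lt_pow_left₀ h (by norm_num) (by norm_num)
      rw [h3] at h4
      norm_num at h4
    exact h1.trans h2
  have e2 : (Yl * E / (c' * j' ^ 2)) ^ (-(2 : ℝ) / 3) =
      Yl ^ (-(2 : ℝ) / 3) * E ^ (-(2 : ℝ) / 3) * (c' ^ ((2 : ℝ) / 3) * j' ^ ((4 : ℝ) / 3)) := by
    rw [Real.div_rpow (by positivity) (by positivity), Real.mul_rpow hYl.le hE.le,
      Real.mul_rpow hcn.le (by positivity), div_eq_mul_inv, mul_inv, ← Real.rpow_neg hcn.le,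
      ← Real.rpow_neg (by positivity), ← Real.rpow_natCast j' 2, ← Real.rpow_mul hjn.le]
    norm_num
  have e3 : (K' / (E * j')) ^ ((4 : ℝ) / 3) =
      K' ^ ((4 : ℝ) / 3) * (E ^ (-(4 : ℝ) / 3) * j' ^ (-(4 : ℝ) / 3)) := by
    rw [Real.div_rpow hK' (by positivity), Real.mul_rpow hE.le hjn.le, div_eq_mul_inv, mul_inv,
      ← Real.rpow_neg hE.le, ← Real.rpow_neg hjn.le]
    norm_num
  have e4 : E ^ (-(2 : ℝ) / 3) * E ^ (-(4 : ℝ) / 3) = E ^ (-(2 : ℝ)) := by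
    rw [← Real.rpow_add hE]; norm_num
  have e5 : j' ^ ((4 : ℝ) / 3) * j' ^ (-(4 : ℝ) / 3) = 1 := by
    rw [← Real.rpow_add hjn]; norm_num
  rw [e2, e3]
  calc Yl ^ (-(2 : ℝ) / 3) * E ^ (-(2 : ℝ) / 3) * (c' ^ ((2 : ℝ) / 3) * j' ^ ((4 : ℝ) / 3)) *
        (K' ^ ((4 : ℝ) / 3) * (E ^ (-(4 : ℝ) / 3) * j' ^ (-(4 : ℝ) / 3)))
      = c' ^ ((2 : ℝ) / 3) * (Yl ^ (-(2 : ℝ) / 3) * (E ^ (-(2 : ℝ) / 3) * E ^ (-(4 : ℝ) / 3)) *
          K' ^ ((4 : ℝ) / 3)) * (j' ^ ((4 : ℝ) / 3) * j' ^ (-(4 : ℝ) / 3)) := by ring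
    _ = c' ^ ((2 : ℝ) / 3) * (Yl ^ (-(2 : ℝ) / 3) * E ^ (-(2 : ℝ)) * K' ^ ((4 : ℝ) / 3)) := by
        rw [e4, e5, mul_one]
    _ ≤ _ := mul_le_mul_of_nonneg_right h9 (by positivity)

/-- the sum over `B` with all frequencies -/
lemma all_B {ε : ℝ} (hε : 0 < ε) : ∃ C : ℝ, 0 ≤ C ∧
    ∀ (Y K X M N1 G₀ V Q B0 Xb : ℝ) (J : ℕ) (x : Eis → ℂ) (δ : Eis), 1 ≤ Y → 0 < K → 0 < X →
    0 ≤ M → (∀ n, x n ≠ 0 → n ∈ S Y) → IsPrim δ → 0 < V → Y ≤ Q → V ≤ Q →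
    V * (nm δ : ℝ) ^ 2 ≤ N1 → 0 < B0 → G₀ ≤ B0 → 0 ≤ Xb → Xb ≤ Y →
    (∀ h ∈ S Y, ∀ B V : ℝ, 1 ≤ B → B ≤ Y → 1 ≤ V → V ≤ N1 / (nm h : ℝ) ^ 2 → ∀ t : ℝ,
      E1551.JB Y x (fun U => G₀ < nm (h * U)) h B V t ≤
        M / (nm h : ℝ) ^ 2 * E1551.yv K X h V * (1 + |t|) ^ J) → ∀ t : ℝ,
    ∑ B ∈ (S Xb).filter (fun B => B0 < nm B), (nm B : ℝ)⁻¹ *
        ∑ k ∈ bl V, tgf x (δ * B) (k * B) t ≤
      C * Q ^ ε * (M / B0 * ((K * V) ^ (1 / 3 : ℝ) * X ^ (-(2 / 3) : ℝ) *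
        (nm δ : ℝ) ^ (-(4 / 3) : ℝ))) * (1 + |t|) ^ J := by
  have hε3 : 0 < ε / 3 := by linarith
  obtain ⟨C₃, hC₃, hcore⟩ := core hε3
  refine ⟨2 * (1 + (ε / 3)⁻¹) * C₃, by positivity, ?_⟩
  intro Y K X M N1 G₀ V Q B0 Xb J x δ hY hK hX hM hx hδ hV hYQ hVQ hVN hB0 hGB hXb hXY hL t
  have hY0 : 0 ≤ Y := by linarith
  have hQ1 : 1 ≤ Q := hY.trans hYQ
  have hQ0 : 0 < Q := by linarith
  have hδ0 : (0 : ℝ) < nm δ := by exact_mod_cast nm_pos.2 hδ.ne_zero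
  have hT0 : 0 ≤ (1 + |t|) ^ J := by positivity
  set D₀ := (K * V) ^ (1 / 3 : ℝ) * X ^ (-(2 / 3) : ℝ) * (nm δ : ℝ) ^ (-(4 / 3) : ℝ) with hD₀
  have hD₀0 : 0 ≤ D₀ := by positivity
  by_cases hV1 : V < 1
  · have hbl : bl V = ∅ := by
      rw [Finset.eq_empty_iff_forall_notMem]
      intro k hk
      obtain ⟨h0, h1⟩ := (mem_bl hV.le).mp hk
      have h2 : (1 : ℝ) ≤ nm k := by exact_mod_cast nm_pos.2 h0
      linarith
    rw [hbl]
    simp only [Finset.sum_empty, mul_zero, Finset.sum_const_zero]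
    positivity
  push Not at hV1
  set T := (S Xb).filter (fun B => B0 < nm B) with hT
  have hTm : ∀ B ∈ T, B ∈ S Y ∧ B0 < nm B ∧ (1 : ℝ) ≤ nm B := by
    intro B hB
    rw [hT, Finset.mem_filter, mem_S hXb] at hB
    obtain ⟨⟨h1, h2, h3⟩, h4⟩ := hB
    exact ⟨(mem_S hY0).mpr ⟨h1.trans hXY, h2, h3⟩, h4, by exact_mod_cast nm_pos.2 h2.ne_zero⟩
  have hlogY : 0 ≤ Real.log Y := Real.log_nonneg hY
  have h1 : ∑ B ∈ T, (nm B : ℝ)⁻¹ * ∑ k ∈ bl V, tgf x (δ * B) (k * B) t ≤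
      (1 + 2 * Real.log Y) * (B0⁻¹ * (C₃ * (Y * V) ^ (ε / 3) * (M * D₀) * (1 + |t|) ^ J)) := by
    refine E1551.dyad1 (T := T) (n := fun B => (nm B : ℝ)) hY (by positivity)
      (fun B _ => mul_nonneg (by positivity) (Finset.sum_nonneg fun _ _ => tgf_nonneg _ _ _ _))
      (fun B hB => ?_) fun Bd hBd1 hBd2 => ?_
    · obtain ⟨h1, -, h3⟩ := hTm B hB
      exact ⟨h3, ((mem_S hY0).mp h1).1⟩
    · have h2 : ∀ B ∈ T.filter (fun B => Bd / 2 < nm B ∧ (nm B : ℝ) ≤ Bd),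
          (nm B : ℝ)⁻¹ * ∑ k ∈ bl V, tgf x (δ * B) (k * B) t ≤
          B0⁻¹ * ∑ k ∈ bl V, tgf x (δ * B) (k * B) t := by
        intro B hB
        refine mul_le_mul_of_nonneg_right ?_ (Finset.sum_nonneg fun _ _ => tgf_nonneg _ _ _ _)
        exact inv_anti₀ hB0 (hTm B (Finset.mem_filter.mp hB).1).2.1.le
      refine (Finset.sum_le_sum h2).trans ?_
      rw [← Finset.mul_sum]
      refine mul_le_mul_of_nonneg_left ?_ (by positivity)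
      have h3 : T.filter (fun B => Bd / 2 < nm B ∧ (nm B : ℝ) ≤ Bd) ⊆ Gs Y Bd G₀ δ := by
        intro B hB
        obtain ⟨hB1, hB2, hB3⟩ := Finset.mem_filter.mp hB
        obtain ⟨h4, h5, h6⟩ := hTm B hB1
        rw [mem_Gs]
        refine ⟨h4, hB2, hB3, ?_⟩
        have h7 : (1 : ℝ) ≤ nm δ := by exact_mod_cast nm_pos.2 hδ.ne_zero
        rw [nm_mul]
        push_cast
        nlinarith
      refine (Finset.sum_le_sum_of_subset_of_nonneg h3 fun _ _ _ =>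
        Finset.sum_nonneg fun _ _ => tgf_nonneg _ _ _ _).trans ?_
      rw [Finset.sum_comm]
      exact hcore Y K X M N1 G₀ Bd V J x δ hY hK hX hM hx hδ hV1 hBd2 hVN hL t
  refine h1.trans ?_
  have h2 : 1 + 2 * Real.log Y ≤ 2 * ((1 + (ε / 3)⁻¹) * Q ^ (ε / 3)) := by
    have := one_add_log hY hYQ hε3
    linarith
  have h3 : (Y * V) ^ (ε / 3) ≤ Q ^ (ε / 3) * Q ^ (ε / 3) := by
    rw [← Real.mul_rpow hQ0.le hQ0.le]
    exact Real.rpow_le_rpow (by positivity) (by gcongr) hε3.le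
  have h4 : Q ^ (ε / 3) * (Q ^ (ε / 3) * Q ^ (ε / 3)) = Q ^ ε := by
    rw [← Real.rpow_add hQ0, ← Real.rpow_add hQ0]; congr 1; ring
  calc (1 + 2 * Real.log Y) * (B0⁻¹ * (C₃ * (Y * V) ^ (ε / 3) * (M * D₀) * (1 + |t|) ^ J))
      ≤ (2 * ((1 + (ε / 3)⁻¹) * Q ^ (ε / 3))) *
        (B0⁻¹ * (C₃ * (Q ^ (ε / 3) * Q ^ (ε / 3)) * (M * D₀) * (1 + |t|) ^ J)) := by gcongr
    _ = 2 * (1 + (ε / 3)⁻¹) * C₃ * (Q ^ (ε / 3) * (Q ^ (ε / 3) * Q ^ (ε / 3))) *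
        (M / B0 * D₀) * (1 + |t|) ^ J := by
        rw [div_eq_mul_inv]; ring
    _ = _ := by rw [h4]

set_option maxHeartbeats 1600000 in
/-- **MT for an arbitrary sequence**: the polar direct part, summed over the shells `B > B0` and
over `(c, j₂, r)`, from the joint blocks `JB` of the sequence -/
theorem mtx {ε : ℝ} (hε : 0 < ε) (J Aw : ℕ) (hJA : J + 2 ≤ Aw) {R : ℝ} (hR : 0 ≤ R) :
    ∃ C : ℝ, 0 ≤ C ∧
    ∀ (Y K X M N1 G₀ Q : ℝ) (x : Eis → ℂ) (δ : Eis), 1 ≤ Y → 0 < K → 0 < X → 0 ≤ M →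
    (∀ n, x n ≠ 0 → n ∈ S Y) → (∀ n, x n ≠ 0 → |Real.log (nm n) - Real.log X| ≤ R) →
    IsPrim δ →
    (∀ h ∈ S Y, ∀ B V : ℝ, 1 ≤ B → B ≤ Y → 1 ≤ V → V ≤ N1 / (nm h : ℝ) ^ 2 → ∀ t : ℝ,
      E1551.JB Y x (fun U => G₀ < nm (h * U)) h B V t ≤
        M / (nm h : ℝ) ^ 2 * E1551.yv K X h V * (1 + |t|) ^ J) →
    ∀ (Cw η : ℝ) (φ : ℝ → ℝ), 0 ≤ Cw → 0 < η → η ≤ 1 → WK Cw η Aw φ → ∀ p ∈ T9, ∀ t₀ : ℝ,
    ∀ e A : Eis, IsPrim e → IsPrim A → ∀ Yl K' B0 Xb J' : ℝ, 0 < Yl → 0 ≤ K' → 0 ≤ J' →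
    9 * (Yl * (nm (e * A) : ℝ) ^ 3) * (nm δ : ℝ) ^ 2 ≤ N1 → Y ≤ Q →
    9 * (Yl * (nm (e * A) : ℝ) ^ 3) ≤ Q → 0 < B0 → G₀ ≤ B0 → 0 ≤ Xb → Xb ≤ Y →
    ∑ c ∈ C4, ∑ j ∈ S J', RR Yl e A c j ^ (-(2 : ℝ) / 3) * (K' / nm (e * A * j)) ^ ((4 : ℝ) / 3) *
        ∑ B ∈ (S Xb).filter (fun B => B0 < nm B), (nm B : ℝ) ^ (-(4 : ℝ) / 3) *
          ∑ r ∈ (S (RR Yl e A c j)).filter (fun r => IsCoprime r 1 ∧ RR Yl e A c j / 2 < nm r),
            ‖MT (ag (fun n => bt φ x p n * pw t₀ (nm n)) δ δ) (e * A * j) B c r‖ ^ 2 ≤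
      C * Cw ^ 2 * (η⁻¹) ^ J * Q ^ ε * (1 + |t₀|) ^ J *
        (Yl ^ (-(1 : ℝ) / 3) * K' ^ ((4 : ℝ) / 3) / nm (e * A) * (K ^ ((1 : ℝ) / 3) / X) *
          (M / (nm δ * B0))) := by
  have hε2 : 0 < ε / 2 := by linarith
  obtain ⟨C₁, hC₁, hψ⟩ := wk_smooth (g6_cd R hR) (g6_cs R hR) (J + 2)
  obtain ⟨C₂, hC₂, hτ⟩ := Div277.tau_le_rpow hε2
  obtain ⟨C₃, hC₃, hall⟩ := all_B hε2
  have hiA1 := iA_nonneg (J + 2)
  have hiA2 := iA_nonneg 2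
  have hiAw := iA_nonneg Aw
  have hC₂0 : 0 ≤ C₂ := by linarith
  refine ⟨60 * C₂ * (C₁ ^ 2 * iA (J + 2) * iA 2) * (iA Aw * iA 2) * C₃, by positivity, ?_⟩
  intro Y K X M N1 G₀ Q x δ hY hK hX hM hx hw hδ hL Cw η φ hCw hη hη1 hφ p hp t₀ e A he hA
    Yl K' B0 Xb J' hYl hK' hJ' hN1 hYQ hVQ hB0 hGB hXb hXY
  have hY0 : 0 ≤ Y := by linarith
  have hQ1 : 1 ≤ Q := hY.trans hYQ
  have hQ0 : 0 < Q := by linarith
  have hFS : FS x := RGw813.FS_of_S hY0 hx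
  have hE0 : e * A ≠ 0 := mul_ne_zero he.ne_zero hA.ne_zero
  have hE : (0 : ℝ) < nm (e * A) := by exact_mod_cast nm_pos.2 hE0
  have hδ0 : (0 : ℝ) < nm δ := by exact_mod_cast nm_pos.2 hδ.ne_zero
  set V₁ := Yl * (nm (e * A) : ℝ) ^ 3 with hV₁
  have hV₁0 : 0 < V₁ := by positivity
  set T := (S Xb).filter (fun B => B0 < nm B) with hT
  have hTm : ∀ B ∈ T, IsPrim B := by
    intro B hB
    rw [hT, Finset.mem_filter, mem_S hXb] at hB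
    exact hB.1.2.1
  set ψ : ℝ → ℝ := fun u => g6 R hR (u - Real.log X) with hψd
  set β : Eis → ℂ := wn ψ (bt φ x p) with hβ
  set W0 := Yl ^ (-(2 : ℝ) / 3) * (nm (e * A) : ℝ) ^ (-(2 : ℝ)) * K' ^ ((4 : ℝ) / 3) with hW0
  have hW00 : 0 ≤ W0 := by positivity
  have hα : ∀ n, bt φ x p n * pw t₀ (nm n) ≠ 0 → n ∈ S Y := fun n hn =>
    hx n (wn_ne (RGw813.tw2_ne (left_ne_zero_of_mul hn))).1
  -- Step 1: one term
  have hterm : ∀ c ∈ C4, ∀ j ∈ S J', ∀ B ∈ T, ∀ r : Eis, (nm B : ℝ) ^ (-(4 : ℝ) / 3) *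
      ‖MT (ag (fun n => bt φ x p n * pw t₀ (nm n)) δ δ) (e * A * j) B c r‖ ^ 2 ≤
      (nm δ : ℝ) ^ ((1 : ℝ) / 3) * X ^ (-(1 : ℝ) / 3) * ((nm B : ℝ)⁻¹ *
        tgf β (δ * B) (c * r * (e * A * j) ^ 2 * B) t₀) := by
    intro c _ j _ B hB r
    have hBp := hTm B hB
    have hB0' : (0 : ℝ) < nm B := by exact_mod_cast nm_pos.2 hBp.ne_zero
    have h1 := MT_sq_le hY0 hα hδ hBp (e * A * j) c r
    rw [tgf_n6 hR hX hFS hw φ p t₀ (mul_ne_zero hδ.ne_zero hBp.ne_zero)] at h1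
    have e1 : ((nm (δ * B) : ℕ) : ℝ) ^ ((1 : ℝ) / 3) =
        (nm δ : ℝ) ^ ((1 : ℝ) / 3) * (nm B : ℝ) ^ ((1 : ℝ) / 3) := by
      rw [nm_mul]; push_cast; rw [Real.mul_rpow hδ0.le hB0'.le]
    have e2 : (nm B : ℝ) ^ (-(4 : ℝ) / 3) * (nm B : ℝ) ^ ((1 : ℝ) / 3) = (nm B : ℝ)⁻¹ := by
      rw [← Real.rpow_add hB0', ← Real.rpow_neg_one]; norm_num
    rw [e1, ← mul_assoc (c * r)] at h1
    calc _ ≤ (nm B : ℝ) ^ (-(4 : ℝ) / 3) * ((nm δ : ℝ) ^ ((1 : ℝ) / 3) *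
          (nm B : ℝ) ^ ((1 : ℝ) / 3) * (X ^ (-(1 : ℝ) / 3) *
            tgf β (δ * B) (c * r * (e * A * j) ^ 2 * B) t₀)) :=
          mul_le_mul_of_nonneg_left h1 (by positivity)
      _ = (nm δ : ℝ) ^ ((1 : ℝ) / 3) * X ^ (-(1 : ℝ) / 3) *
          (((nm B : ℝ) ^ (-(4 : ℝ) / 3) * (nm B : ℝ) ^ ((1 : ℝ) / 3)) *
            tgf β (δ * B) (c * r * (e * A * j) ^ 2 * B) t₀) := by ring
      _ = _ := by rw [e2]
  -- Step 2: the merged functional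
  set Pg : (Eis → ℂ) → ℝ → ℝ := PG (T ×ˢ bl V₁) (fun y => (nm y.1 : ℝ)⁻¹) (fun y => δ * y.1)
    (fun y => y.2 * y.1) with hPg
  have hPgd : ∀ (z : Eis → ℂ) (t : ℝ), Pg z t =
      ∑ B ∈ T, (nm B : ℝ)⁻¹ * ∑ k ∈ bl V₁, tgf z (δ * B) (k * B) t := by
    intro z t
    rw [hPg]
    unfold RGw813.PG
    rw [Finset.sum_product]
    exact Finset.sum_congr rfl fun B _ => by rw [Finset.mul_sum]
  have hstep2 : ∑ c ∈ C4, ∑ j ∈ S J', RR Yl e A c j ^ (-(2 : ℝ) / 3) *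
        (K' / nm (e * A * j)) ^ ((4 : ℝ) / 3) *
        ∑ B ∈ T, (nm B : ℝ) ^ (-(4 : ℝ) / 3) *
          ∑ r ∈ (S (RR Yl e A c j)).filter (fun r => IsCoprime r 1 ∧ RR Yl e A c j / 2 < nm r),
            ‖MT (ag (fun n => bt φ x p n * pw t₀ (nm n)) δ δ) (e * A * j) B c r‖ ^ 2 ≤
      5 * W0 * ((nm δ : ℝ) ^ ((1 : ℝ) / 3) * X ^ (-(1 : ℝ) / 3)) *
        (4 * (C₂ * Q ^ (ε / 2)) * Pg β t₀) := by
    have h1 : ∀ c ∈ C4, ∀ j ∈ S J', RR Yl e A c j ^ (-(2 : ℝ) / 3) *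
        (K' / nm (e * A * j)) ^ ((4 : ℝ) / 3) *
        ∑ B ∈ T, (nm B : ℝ) ^ (-(4 : ℝ) / 3) *
          ∑ r ∈ (S (RR Yl e A c j)).filter (fun r => IsCoprime r 1 ∧ RR Yl e A c j / 2 < nm r),
            ‖MT (ag (fun n => bt φ x p n * pw t₀ (nm n)) δ δ) (e * A * j) B c r‖ ^ 2 ≤
        5 * W0 * ((nm δ : ℝ) ^ ((1 : ℝ) / 3) * X ^ (-(1 : ℝ) / 3)) * ∑ B ∈ T, (nm B : ℝ)⁻¹ *
          ∑ r ∈ (S (RR Yl e A c j)).filter (fun r => IsCoprime r 1 ∧ RR Yl e A c j / 2 < nm r),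
            tgf β (δ * B) (c * r * (e * A * j) ^ 2 * B) t₀ := by
      intro c hc j hj
      have hj0 := ((mem_S hJ').mp hj).2.1.ne_zero
      have h2 := wt_le (K' := K') hYl hK' hE0 hc hj0
      have h3 : ∑ B ∈ T, (nm B : ℝ) ^ (-(4 : ℝ) / 3) *
          ∑ r ∈ (S (RR Yl e A c j)).filter (fun r => IsCoprime r 1 ∧ RR Yl e A c j / 2 < nm r),
            ‖MT (ag (fun n => bt φ x p n * pw t₀ (nm n)) δ δ) (e * A * j) B c r‖ ^ 2 ≤
          (nm δ : ℝ) ^ ((1 : ℝ) / 3) * X ^ (-(1 : ℝ) / 3) * ∑ B ∈ T, (nm B : ℝ)⁻¹ *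
          ∑ r ∈ (S (RR Yl e A c j)).filter (fun r => IsCoprime r 1 ∧ RR Yl e A c j / 2 < nm r),
            tgf β (δ * B) (c * r * (e * A * j) ^ 2 * B) t₀ := by
        rw [Finset.mul_sum]
        refine Finset.sum_le_sum fun B hB => ?_
        rw [Finset.mul_sum, Finset.mul_sum, Finset.mul_sum]
        exact Finset.sum_le_sum fun r _ => hterm c hc j hj B hB r
      have h4 : 0 ≤ ∑ B ∈ T, (nm B : ℝ)⁻¹ *
          ∑ r ∈ (S (RR Yl e A c j)).filter (fun r => IsCoprime r 1 ∧ RR Yl e A c j / 2 < nm r),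
            tgf β (δ * B) (c * r * (e * A * j) ^ 2 * B) t₀ :=
        Finset.sum_nonneg fun _ _ => mul_nonneg (by positivity)
          (Finset.sum_nonneg fun _ _ => tgf_nonneg _ _ _ _)
      rw [mul_assoc (5 * W0)]
      refine mul_le_mul h2 h3 ?_ (by positivity)
      exact Finset.sum_nonneg fun _ _ => mul_nonneg (by positivity)
          (Finset.sum_nonneg fun _ _ => by positivity)
    refine (Finset.sum_le_sum fun c hc => Finset.sum_le_sum fun j hj => h1 c hc j hj).trans ?_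
    simp_rw [← Finset.mul_sum]
    refine mul_le_mul_of_nonneg_left ?_ (by positivity)
    have h2 : ∑ c ∈ C4, ∑ j ∈ S J', ∑ B ∈ T, (nm B : ℝ)⁻¹ *
          ∑ r ∈ (S (RR Yl e A c j)).filter (fun r => IsCoprime r 1 ∧ RR Yl e A c j / 2 < nm r),
            tgf β (δ * B) (c * r * (e * A * j) ^ 2 * B) t₀ =
        ∑ B ∈ T, (nm B : ℝ)⁻¹ * ∑ c ∈ C4, ∑ j ∈ S J',
          ∑ r ∈ (S (RR Yl e A c j)).filter (fun r => IsCoprime r 1 ∧ RR Yl e A c j / 2 < nm r),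
            tgf β (δ * B) (c * r * (e * A * j) ^ 2 * B) t₀ := by
      simp_rw [Finset.mul_sum]
      symm
      rw [Finset.sum_comm]
      refine Finset.sum_congr rfl fun c _ => ?_
      rw [Finset.sum_comm]
    rw [h2, hPgd, Finset.mul_sum]
    refine Finset.sum_le_sum fun B _ => ?_
    have h3 := merge hYl hJ' he hA (F := fun k => tgf β (δ * B) (k * B) t₀)
      (fun _ => tgf_nonneg _ _ _ _)
    have h4 : ∑ k ∈ bl V₁, (Div277.tau k : ℝ) * tgf β (δ * B) (k * B) t₀ ≤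
        C₂ * Q ^ (ε / 2) * ∑ k ∈ bl V₁, tgf β (δ * B) (k * B) t₀ := by
      rw [Finset.mul_sum]
      refine Finset.sum_le_sum fun k hk => ?_
      obtain ⟨hk0, hkV⟩ := (mem_bl hV₁0.le).mp hk
      refine mul_le_mul_of_nonneg_right ((hτ k hk0).trans ?_) (tgf_nonneg _ _ _ _)
      refine mul_le_mul_of_nonneg_left ?_ hC₂0
      exact Real.rpow_le_rpow (by positivity) (by linarith) hε2.le
    calc _ ≤ (nm B : ℝ)⁻¹ * (4 * (C₂ * Q ^ (ε / 2) *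
          ∑ k ∈ bl V₁, tgf β (δ * B) (k * B) t₀)) :=
          mul_le_mul_of_nonneg_left (h3.trans (by gcongr)) (by positivity)
      _ = _ := by ring
  -- Step 3: the windows
  have hg : ∀ y ∈ T ×ˢ bl V₁, δ * y.1 ≠ 0 := fun y hy =>
    mul_ne_zero hδ.ne_zero (hTm _ (Finset.mem_product.mp hy).1).ne_zero
  have hWn : ∀ y ∈ T ×ˢ bl V₁, (0 : ℝ) ≤ (nm y.1 : ℝ)⁻¹ := fun y _ => by positivity
  set M₀ := C₃ * Q ^ (ε / 2) * (M / B0 * ((K * (9 * V₁)) ^ (1 / 3 : ℝ) * X ^ (-(2 / 3) : ℝ) *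
        (nm δ : ℝ) ^ (-(4 / 3) : ℝ))) with hM₀
  have hM₀0 : 0 ≤ M₀ := by positivity
  have h0 : ∀ t, Pg (tw2 p.1 p.2 x) t ≤ M₀ * (1 + |t|) ^ J := by
    intro t
    rw [hPgd]
    refine le_trans ?_ (hall Y K X M N1 G₀ (9 * V₁) Q B0 Xb J x δ hY hK hX hM hx hδ
      (by positivity) hYQ hVQ hN1 hB0 hGB hXb hXY hL t)
    refine Finset.sum_le_sum fun B hB => mul_le_mul_of_nonneg_left ?_ (by positivity)
    have hgB : IsPrim (δ * B) := hδ.mul (hTm B hB)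
    set κ := w ^ p.1 * lam ^ p.2 with hκ
    have hκ0 : κ ≠ 0 := mul_ne_zero (pow_ne_zero _ isUnit_w.ne_zero) (pow_ne_zero _ lam_ne_zero)
    have hκ9 : (nm κ : ℝ) ≤ 9 := by
      have h2 := (mem_T9.1 hp).2
      have e1 : nm κ = 3 ^ p.2 := by
        rw [hκ, nm_mul, nm_pow, nm_pow, nm_w, nm_lam, one_pow, one_mul]
      rw [e1]
      have h3 : 3 ^ p.2 ≤ 3 ^ 2 := Nat.pow_le_pow_right (by norm_num) (by omega)
      exact_mod_cast h3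
    have e2 : ∑ k ∈ bl V₁, tgf (tw2 p.1 p.2 x) (δ * B) (k * B) t =
        ∑ k ∈ (bl V₁).image (fun k => κ * k), tgf x (δ * B) (k * B) t := by
      rw [Finset.sum_image fun a _ b _ hab => mul_left_cancel₀ hκ0 hab]
      exact Finset.sum_congr rfl fun k _ => by
        rw [tgf_kw hFS _ _ hgB, mul_assoc κ k B]
    rw [e2]
    refine Finset.sum_le_sum_of_subset_of_nonneg ?_ fun _ _ _ => tgf_nonneg _ _ _ _
    intro k hk
    obtain ⟨k', hk', rfl⟩ := Finset.mem_image.mp hk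
    obtain ⟨h3, h4⟩ := (mem_bl hV₁0.le).mp hk'
    rw [mem_bl (by positivity)]
    refine ⟨mul_ne_zero hκ0 h3, ?_⟩
    rw [nm_mul]
    push_cast
    exact mul_le_mul hκ9 h4 (by positivity) (by norm_num)
  have h1 := PG_bt hCw hη hη1 hJA hφ hFS hg hWn hM₀0 p h0
  have h2 := PG_win hC₁ one_pos le_rfl le_rfl (hψ (Real.log X)) (FS_bt hFS φ p) hg hWn
    (M := Cw ^ 2 * iA Aw * iA 2 * (η⁻¹) ^ J * M₀) (by positivity) h1 t₀
  have h3 : Pg β t₀ ≤ C₁ ^ 2 * iA (J + 2) * iA 2 *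
      (Cw ^ 2 * iA Aw * iA 2 * (η⁻¹) ^ J * M₀) * (1 + |t₀|) ^ J := by
    rw [inv_one, one_pow, mul_one] at h2
    exact h2
  refine hstep2.trans ?_
  have h4 : (K * (9 * V₁)) ^ (1 / 3 : ℝ) ≤
      3 * (K ^ ((1 : ℝ) / 3) * (Yl ^ ((1 : ℝ) / 3) * nm (e * A))) := by
    have e1 : (nm (e * A) : ℝ) = ((nm (e * A) : ℝ) ^ 3) ^ ((1 : ℝ) / 3) := by
      rw [← Real.rpow_natCast, ← Real.rpow_mul hE.le]; norm_num
    have e2 : (K * (9 * V₁)) ^ (1 / 3 : ℝ) =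
        K ^ ((1 : ℝ) / 3) * (9 ^ ((1 : ℝ) / 3) * (Yl ^ ((1 : ℝ) / 3) * nm (e * A))) := by
      rw [Real.mul_rpow hK.le (by positivity), Real.mul_rpow (by norm_num) hV₁0.le, hV₁,
        Real.mul_rpow hYl.le (by positivity), ← e1]
    have e3 : (9 : ℝ) ^ ((1 : ℝ) / 3) ≤ 3 := by
      have h5 : (9 : ℝ) ^ ((1 : ℝ) / 3) ≤ (27 : ℝ) ^ ((1 : ℝ) / 3) :=
        Real.rpow_le_rpow (by norm_num) (by norm_num) (by norm_num)
      have h6 : (27 : ℝ) ^ ((1 : ℝ) / 3) = 3 := by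
        rw [show (27 : ℝ) = 3 ^ (3 : ℝ) by norm_num, ← Real.rpow_mul (by norm_num)]
        norm_num
      linarith
    rw [e2]
    have h7 : 0 ≤ K ^ ((1 : ℝ) / 3) * (Yl ^ ((1 : ℝ) / 3) * nm (e * A)) := by positivity
    nlinarith
  have h5 : M₀ ≤ C₃ * Q ^ (ε / 2) * (M / B0 * ((3 * (K ^ ((1 : ℝ) / 3) *
      (Yl ^ ((1 : ℝ) / 3) * nm (e * A)))) * X ^ (-(2 / 3) : ℝ) * (nm δ : ℝ) ^ (-(4 / 3) : ℝ))) := by
    rw [hM₀]; gcongr
  have a1 : Yl ^ (-(2 : ℝ) / 3) * Yl ^ ((1 : ℝ) / 3) = Yl ^ (-(1 : ℝ) / 3) := by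
    rw [← Real.rpow_add hYl]; norm_num
  have a2 : (nm (e * A) : ℝ) ^ (-(2 : ℝ)) * nm (e * A) = (nm (e * A) : ℝ)⁻¹ := by
    rw [Real.rpow_neg hE.le, Real.rpow_two]
    field_simp
  have a3 : X ^ (-(1 : ℝ) / 3) * X ^ (-(2 / 3) : ℝ) = X⁻¹ := by
    rw [← Real.rpow_add hX, ← Real.rpow_neg_one]; norm_num
  have a4 : (nm δ : ℝ) ^ ((1 : ℝ) / 3) * (nm δ : ℝ) ^ (-(4 / 3) : ℝ) = (nm δ : ℝ)⁻¹ := by
    rw [← Real.rpow_add hδ0, ← Real.rpow_neg_one]; norm_num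
  have a5 : Q ^ (ε / 2) * Q ^ (ε / 2) = Q ^ ε := by
    rw [← Real.rpow_add hQ0]; congr 1; ring
  calc 5 * W0 * ((nm δ : ℝ) ^ ((1 : ℝ) / 3) * X ^ (-(1 : ℝ) / 3)) *
        (4 * (C₂ * Q ^ (ε / 2)) * Pg β t₀)
      ≤ 5 * W0 * ((nm δ : ℝ) ^ ((1 : ℝ) / 3) * X ^ (-(1 : ℝ) / 3)) *
        (4 * (C₂ * Q ^ (ε / 2)) * (C₁ ^ 2 * iA (J + 2) * iA 2 *
          (Cw ^ 2 * iA Aw * iA 2 * (η⁻¹) ^ J * (C₃ * Q ^ (ε / 2) * (M / B0 *
            ((3 * (K ^ ((1 : ℝ) / 3) * (Yl ^ ((1 : ℝ) / 3) * nm (e * A)))) *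
              X ^ (-(2 / 3) : ℝ) * (nm δ : ℝ) ^ (-(4 / 3) : ℝ))))) * (1 + |t₀|) ^ J)) := by
        refine mul_le_mul_of_nonneg_left (mul_le_mul_of_nonneg_left (h3.trans ?_)
          (by positivity)) (by positivity)
        gcongr
    _ = 60 * C₂ * (C₁ ^ 2 * iA (J + 2) * iA 2) * (iA Aw * iA 2) * C₃ * Cw ^ 2 * (η⁻¹) ^ J *
        (Q ^ (ε / 2) * Q ^ (ε / 2)) * (1 + |t₀|) ^ J *
        ((Yl ^ (-(2 : ℝ) / 3) * Yl ^ ((1 : ℝ) / 3)) * K' ^ ((4 : ℝ) / 3) *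
          ((nm (e * A) : ℝ) ^ (-(2 : ℝ)) * nm (e * A)) * (K ^ ((1 : ℝ) / 3) *
          (X ^ (-(1 : ℝ) / 3) * X ^ (-(2 / 3) : ℝ))) *
          (M * (((nm δ : ℝ) ^ ((1 : ℝ) / 3) * (nm δ : ℝ) ^ (-(4 / 3) : ℝ)) * B0⁻¹))) := by
        rw [hW0, div_eq_mul_inv]
        ring
    _ = _ := by
        rw [a1, a2, a3, a4, a5]
        simp only [div_eq_mul_inv, mul_inv]

end Crest.Agent.R017.MTX241
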