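import Crest.Agent.R017.MTX2_241
import Crest.Agent.R017.E2zc_440

/-!
# Row 17, exceptional class, T.7, leaf E2-d (helper241): the polar direct part, part 3

* `mtx_PJ` : `mtx` in the weights of `REb` (helper48, helper83) and of `QsND_le` (helper440)
-/

set_option autoImplicit false

noncomputable section

open MeasureTheory Finset Filter
open scoped ComplexConjugate Classical ContDiff

namespace Crest.Agent.R017.MTX241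

open Crest.Agent.R012
open Eis CharSum852 Gauss880 LS2 CR2 MelSep811
open Crest.Agent.R012.Weight600 (osc norm_osc ker pw)
open Crest.Agent.R012.Mob705 (pdiv mem_pdiv)
open Crest.Agent.R017.CM106 (CS TG FS sub)
open Crest.Agent.R017.E2440 (MT ag C4 mem_C4 RR PJ prs mem_prs)
open Crest.Agent.R017.Win813
open Crest.Agent.R017.RGw813 (bt T9)

/-- the sum of the squares of the polar direct part over the block of `r` -/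
def MTr (α : Eis → ℂ) (δ : Eis) (Yl : ℝ) (y : Eis × Eis) (e A c j B : Eis) : ℝ :=
  ∑ r ∈ (S (RR Yl e A c j)).filter (fun r => IsCoprime r y.2 ∧ RR Yl e A c j / 2 < nm r),
    ‖MT (ag α δ y.1) (e * A * j) B c r‖ ^ 2

/-- **the polar part in the weights of `REb`**: `Z` the level, `nm e ≤ E0`, `nm δ ≤ D` -/
theorem mtx_PJ {ε : ℝ} (hε : 0 < ε) (J Aw : ℕ) (hJA : J + 2 ≤ Aw) {R : ℝ} (hR : 0 ≤ R) :
    ∃ C : ℝ, 0 ≤ C ∧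
    ∀ (Y K X M N1 G₀ Q : ℝ) (x : Eis → ℂ), 1 ≤ Y → 0 < K → 0 < X → 0 ≤ M →
    (∀ n, x n ≠ 0 → n ∈ S Y) → (∀ n, x n ≠ 0 → |Real.log (nm n) - Real.log X| ≤ R) →
    (∀ h ∈ S Y, ∀ B V : ℝ, 1 ≤ B → B ≤ Y → 1 ≤ V → V ≤ N1 / (nm h : ℝ) ^ 2 → ∀ t : ℝ,
      E1551.JB Y x (fun U => G₀ < nm (h * U)) h B V t ≤
        M / (nm h : ℝ) ^ 2 * E1551.yv K X h V * (1 + |t|) ^ J) →
    ∀ (Cw η : ℝ) (φ : ℝ → ℝ), 0 ≤ Cw → 0 < η → η ≤ 1 → WK Cw η Aw φ → ∀ p ∈ T9, ∀ t₀ : ℝ,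
    ∀ δ : Eis, IsPrim δ → ∀ e : Eis, IsPrim e → ∀ Z E0 D Yl Kf B0 X' : ℝ, (nm e : ℝ) ≤ E0 →
    (nm δ : ℝ) ≤ D → 0 < Yl → (nm δ : ℝ) ^ 2 * Yl < 2 * Z → 18 * (Z * (E0 * D) ^ 3) ≤ N1 →
    18 * (Z * (E0 * D) ^ 3) ≤ Q → Y ≤ Q → 0 < Kf → 0 < B0 → G₀ ≤ B0 → 0 ≤ X' → X' ≤ Y →
    ∀ y ∈ prs δ, ∀ A ∈ pdiv y.1,
    ∑ c ∈ C4, ∑ j ∈ S (Real.sqrt Yl), PJ (X' / nm y.1) (RR Yl e A c j) (Kf / nm (e * A * j)) B0
        y.2 (MTr (fun n => bt φ x p n * pw t₀ (nm n)) δ Yl y e A c j) ≤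
      Yl ^ (-(1 / 3) : ℝ) * Kf ^ (2 / 3 : ℝ) / nm e *
        (C * Cw ^ 2 * (η⁻¹) ^ J * Q ^ ε * (1 + |t₀|) ^ J *
          ((Kf ^ ((2 : ℝ) / 3) * K ^ ((1 : ℝ) / 3) / X) * (M / (nm δ * B0)))) := by
  obtain ⟨C, hC, hm⟩ := mtx hε J Aw hJA hR
  refine ⟨C, hC, ?_⟩
  intro Y K X M N1 G₀ Q x hY hK hX hM hx hw hL Cw η φ hCw hη hη1 hφ p hp t₀ δ hδ e he Z E0 D Yl Kf
    B0 X' heE hδD hYl hZ hN1 hNQ hYQ hKf hB0 hGB hX'0 hX'Y y hy A hA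
  obtain ⟨hy1, hy2, hy3⟩ := (mem_prs hδ).mp hy
  obtain ⟨hAp, hAd⟩ := (mem_pdiv hy1.ne_zero).mp hA
  have hδ1 : (1 : ℝ) ≤ nm δ := by exact_mod_cast nm_pos.2 hδ.ne_zero
  have he1 : (1 : ℝ) ≤ nm e := by exact_mod_cast nm_pos.2 he.ne_zero
  have hA1 : (1 : ℝ) ≤ nm A := by exact_mod_cast nm_pos.2 hAp.ne_zero
  have hy11 : (1 : ℝ) ≤ nm y.1 := by exact_mod_cast nm_pos.2 hy1.ne_zero
  have hQ0 : 0 ≤ Q := by linarith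
  have hRHS : 0 ≤ Yl ^ (-(1 / 3) : ℝ) * Kf ^ (2 / 3 : ℝ) / nm e *
        (C * Cw ^ 2 * (η⁻¹) ^ J * Q ^ ε * (1 + |t₀|) ^ J *
          ((Kf ^ ((2 : ℝ) / 3) * K ^ ((1 : ℝ) / 3) / X) * (M / (nm δ * B0)))) := by
    positivity
  by_cases h1 : y.2 = 1
  swap
  · have e1 : ∀ c ∈ C4, ∀ j ∈ S (Real.sqrt Yl), PJ (X' / nm y.1) (RR Yl e A c j)
        (Kf / nm (e * A * j)) B0 y.2
        (MTr (fun n => bt φ x p n * pw t₀ (nm n)) δ Yl y e A c j) = 0 := by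
      intro c _ j _
      unfold E2440.PJ
      rw [if_neg h1]
    rw [Finset.sum_eq_zero fun c hc => Finset.sum_eq_zero fun j hj => e1 c hc j hj]
    exact hRHS
  have hy1δ : y.1 = δ := by rw [← hy3, h1, mul_one]
  have hAδ : (nm A : ℝ) ≤ nm δ := by
    have := Div277.nm_le_of_dvd hδ.ne_zero (hy1δ ▸ hAd)
    exact_mod_cast this
  have heA : (nm (e * A) : ℝ) = nm e * nm A := by rw [nm_mul]; push_cast; ring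
  have hE0 : 0 ≤ E0 := by linarith
  have hD0 : 0 ≤ D := by linarith
  have hlev : 9 * (Yl * (nm (e * A) : ℝ) ^ 3) * (nm δ : ℝ) ^ 2 ≤ 18 * (Z * (E0 * D) ^ 3) := by
    rw [heA]
    have h2 : ((nm e : ℝ) * nm A) ^ 3 ≤ (E0 * D) ^ 3 := by
      refine pow_le_pow_left₀ (by positivity) ?_ 3
      exact mul_le_mul heE (hAδ.trans hδD) (by positivity) hE0
    have h3 : 0 ≤ (nm δ : ℝ) ^ 2 * Yl := by positivity
    calc 9 * (Yl * ((nm e : ℝ) * nm A) ^ 3) * (nm δ : ℝ) ^ 2 =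
        9 * (((nm δ : ℝ) ^ 2 * Yl) * ((nm e : ℝ) * nm A) ^ 3) := by ring
      _ ≤ 9 * ((2 * Z) * (E0 * D) ^ 3) := by
          refine mul_le_mul_of_nonneg_left ?_ (by norm_num)
          exact mul_le_mul hZ.le h2 (by positivity) (by linarith)
      _ = _ := by ring
  have hlev2 : 9 * (Yl * (nm (e * A) : ℝ) ^ 3) ≤ Q := by
    refine le_trans ?_ (hlev.trans hNQ)
    have h2 : (1 : ℝ) ≤ (nm δ : ℝ) ^ 2 := one_le_pow₀ hδ1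
    have h3 : 0 ≤ 9 * (Yl * (nm (e * A) : ℝ) ^ 3) := by positivity
    nlinarith
  have hXb0 : 0 ≤ X' / nm y.1 := by positivity
  have hXbY : X' / nm y.1 ≤ Y := (div_le_self hX'0 hy11).trans hX'Y
  have h2 := hm Y K X M N1 G₀ Q x δ hY hK hX hM hx hw hδ hL Cw η φ hCw hη hη1 hφ p hp t₀ e A he hAp
    Yl Kf B0 (X' / nm y.1) (Real.sqrt Yl) hYl hKf.le (Real.sqrt_nonneg _) (hlev.trans hN1) hYQ
    hlev2 hB0 hGB hXb0 hXbY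
  have e1 : ∑ c ∈ C4, ∑ j ∈ S (Real.sqrt Yl), PJ (X' / nm y.1) (RR Yl e A c j)
      (Kf / nm (e * A * j)) B0 y.2 (MTr (fun n => bt φ x p n * pw t₀ (nm n)) δ Yl y e A c j) =
      ∑ c ∈ C4, ∑ j ∈ S (Real.sqrt Yl), RR Yl e A c j ^ (-(2 : ℝ) / 3) *
        (Kf / nm (e * A * j)) ^ ((4 : ℝ) / 3) *
        ∑ B ∈ (S (X' / nm y.1)).filter (fun B => B0 < nm B), (nm B : ℝ) ^ (-(4 : ℝ) / 3) *
          ∑ r ∈ (S (RR Yl e A c j)).filter (fun r => IsCoprime r 1 ∧ RR Yl e A c j / 2 < nm r),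
            ‖MT (ag (fun n => bt φ x p n * pw t₀ (nm n)) δ δ) (e * A * j) B c r‖ ^ 2 := by
    refine Finset.sum_congr rfl fun c _ => Finset.sum_congr rfl fun j _ => ?_
    unfold E2440.PJ MTr
    rw [if_pos h1, h1, hy1δ]
  rw [e1]
  refine h2.trans ?_
  have e2 : Yl ^ (-(1 : ℝ) / 3) = Yl ^ (-(1 / 3) : ℝ) := by norm_num
  have e3 : Kf ^ ((4 : ℝ) / 3) = Kf ^ (2 / 3 : ℝ) * Kf ^ ((2 : ℝ) / 3) := by
    rw [← Real.rpow_add hKf]; norm_num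
  rw [e2, e3, heA]
  have h4 : ((nm e : ℝ) * nm A)⁻¹ ≤ (nm e : ℝ)⁻¹ := by
    refine inv_anti₀ (by linarith) ?_
    nlinarith
  calc C * Cw ^ 2 * (η⁻¹) ^ J * Q ^ ε * (1 + |t₀|) ^ J *
        (Yl ^ (-(1 / 3) : ℝ) * (Kf ^ (2 / 3 : ℝ) * Kf ^ ((2 : ℝ) / 3)) / ((nm e : ℝ) * nm A) *
          (K ^ ((1 : ℝ) / 3) / X) * (M / (nm δ * B0)))
      = C * Cw ^ 2 * (η⁻¹) ^ J * Q ^ ε * (1 + |t₀|) ^ J *
        (Yl ^ (-(1 / 3) : ℝ) * (Kf ^ (2 / 3 : ℝ) * Kf ^ ((2 : ℝ) / 3)) *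
          (K ^ ((1 : ℝ) / 3) / X) * (M / (nm δ * B0))) * ((nm e : ℝ) * nm A)⁻¹ := by
        rw [div_eq_mul_inv _ ((nm e : ℝ) * nm A)]; ring
    _ ≤ C * Cw ^ 2 * (η⁻¹) ^ J * Q ^ ε * (1 + |t₀|) ^ J *
        (Yl ^ (-(1 / 3) : ℝ) * (Kf ^ (2 / 3 : ℝ) * Kf ^ ((2 : ℝ) / 3)) *
          (K ^ ((1 : ℝ) / 3) / X) * (M / (nm δ * B0))) * (nm e : ℝ)⁻¹ :=
        mul_le_mul_of_nonneg_left h4 (by positivity)
    _ = _ := by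
        rw [div_eq_mul_inv _ (nm e : ℝ)]; ring

end Crest.Agent.R017.MTX241
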