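import Crest.Agent.R017.MTX3_241

/-!
# Row 17, exceptional class, T.7, leaf E2-d (helper241): the polar direct part, part 4

* `mtx_PJg` : `mtx_PJ` when the numbers above the level `N₁` may grow like `(V (nm h)² / N₁)^a`,
  `1/3 ≤ a ≤ 1` (bess form, helper521: `a = 1/2`); loss `(E0 D)^(3 a - 1)`
-/

set_option autoImplicit false

noncomputable section

open MeasureTheory Finset Filter
open scoped ComplexConjugate Classical ContDiff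

namespace Crest.Agent.R017.MTX241

open Crest.Agent.R012
open Eis CharSum852 Gauss880 LS2 CR2 MelSep811
open Crest.Agent.R012.Weight600 (osc norm_osc ker pw)
open Crest.Agent.R012.Mob705 (pdiv mem_pdiv)
open Crest.Agent.R017.CM106 (CS TG FS sub)
open Crest.Agent.R017.E2440 (MT ag C4 mem_C4 RR PJ prs mem_prs)
open Crest.Agent.R017.Win813
open Crest.Agent.R017.RGw813 (bt T9)

/-- the growth factor of the numbers above the level `N₁` -/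
def gr (a N1 v : ℝ) : ℝ := max 1 (v / N1) ^ a

lemma one_le_gr {a N1 v : ℝ} (ha : 0 ≤ a) : 1 ≤ gr a N1 v := by
  unfold gr
  exact Real.one_le_rpow (le_max_left _ _) ha

lemma gr_mono {a N1 : ℝ} (ha : 0 ≤ a) (h : 0 < N1) {v v' : ℝ} (hv : v ≤ v') :
    gr a N1 v ≤ gr a N1 v' := by
  unfold gr
  refine Real.rpow_le_rpow (zero_le_one.trans (le_max_left _ _)) ?_ ha
  exact max_le_max le_rfl (div_le_div_of_nonneg_right hv h.le)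

lemma gr_eq_one {a N1 v : ℝ} (h : 0 < N1) (hv : v ≤ N1) : gr a N1 v = 1 := by
  unfold gr
  rw [max_eq_left ((div_le_one h).2 hv), Real.one_rpow]

set_option maxHeartbeats 1000000 in
/-- **the polar part in the weights of `REb`, with growth above `N₁`** : hypotheses up to the level
`Nz ≥ 18 N₁ (E0 D)³`; the loss is `(E0 D)^(3 b - 1)` -/
theorem mtx_PJg {ε : ℝ} (hε : 0 < ε) (J Aw : ℕ) (hJA : J + 2 ≤ Aw) {R : ℝ} (hR : 0 ≤ R)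
    {b : ℝ} (hb : 1 / 3 ≤ b) (hb1 : b ≤ 1) :
    ∃ C : ℝ, 0 ≤ C ∧
    ∀ (Y K X M N1 Nz G₀ Q : ℝ) (x : Eis → ℂ), 1 ≤ Y → 0 < K → 0 < X → 0 ≤ M → 0 < N1 →
    (∀ n, x n ≠ 0 → n ∈ S Y) → (∀ n, x n ≠ 0 → |Real.log (nm n) - Real.log X| ≤ R) →
    (∀ h ∈ S Y, ∀ B V : ℝ, 1 ≤ B → B ≤ Y → 1 ≤ V → V ≤ Nz / (nm h : ℝ) ^ 2 → ∀ t : ℝ,
      E1551.JB Y x (fun U => G₀ < nm (h * U)) h B V t ≤
        (M * gr b N1 (V * (nm h : ℝ) ^ 2)) / (nm h : ℝ) ^ 2 * E1551.yv K X h V * (1 + |t|) ^ J) →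
    ∀ (Cw η : ℝ) (φ : ℝ → ℝ), 0 ≤ Cw → 0 < η → η ≤ 1 → WK Cw η Aw φ → ∀ p ∈ T9, ∀ t₀ : ℝ,
    ∀ δ : Eis, IsPrim δ → ∀ e : Eis, IsPrim e → ∀ E0 D Yl Kf B0 X' : ℝ, (nm e : ℝ) ≤ E0 →
    (nm δ : ℝ) ≤ D → 0 < Yl → (nm δ : ℝ) ^ 2 * Yl < 2 * N1 → 18 * (N1 * (E0 * D) ^ 3) ≤ Nz →
    18 * (N1 * (E0 * D) ^ 3) ≤ Q → Y ≤ Q → 0 < Kf → 0 < B0 → G₀ ≤ B0 → 0 ≤ X' → X' ≤ Y →
    ∀ y ∈ prs δ, ∀ A ∈ pdiv y.1,
    ∑ c ∈ C4, ∑ j ∈ S (Real.sqrt Yl), PJ (X' / nm y.1) (RR Yl e A c j) (Kf / nm (e * A * j)) B0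
        y.2 (MTr (fun n => bt φ x p n * pw t₀ (nm n)) δ Yl y e A c j) ≤
      Yl ^ (-(1 / 3) : ℝ) * Kf ^ (2 / 3 : ℝ) *
        (C * Cw ^ 2 * (η⁻¹) ^ J * Q ^ ε * (1 + |t₀|) ^ J *
          ((Kf ^ ((2 : ℝ) / 3) * K ^ ((1 : ℝ) / 3) / X) *
            ((E0 * D) ^ (3 * b - 1) * M / (nm δ * B0)))) := by
  obtain ⟨C, hC, hm⟩ := mtx hε J Aw hJA hR
  have hb0 : 0 ≤ b := by linarith
  refine ⟨18 * C, by positivity, ?_⟩
  intro Y K X M N1 Nz G₀ Q x hY hK hX hM hN1 hx hw hL Cw η φ hCw hη hη1 hφ p hp t₀ δ hδ e he E0 D Yl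
    Kf B0 X' heE hδD hYl hZ hNz hNQ hYQ hKf hB0 hGB hX'0 hX'Y y hy A hA
  obtain ⟨hy1, hy2, hy3⟩ := (mem_prs hδ).mp hy
  obtain ⟨hAp, hAd⟩ := (mem_pdiv hy1.ne_zero).mp hA
  have hδ1 : (1 : ℝ) ≤ nm δ := by exact_mod_cast nm_pos.2 hδ.ne_zero
  have he1 : (1 : ℝ) ≤ nm e := by exact_mod_cast nm_pos.2 he.ne_zero
  have hA1 : (1 : ℝ) ≤ nm A := by exact_mod_cast nm_pos.2 hAp.ne_zero
  have hy11 : (1 : ℝ) ≤ nm y.1 := by exact_mod_cast nm_pos.2 hy1.ne_zero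
  have hQ0 : 0 ≤ Q := by linarith
  have hE0 : 0 ≤ E0 := by linarith
  have hD0 : 0 ≤ D := by linarith
  have hRHS : 0 ≤ Yl ^ (-(1 / 3) : ℝ) * Kf ^ (2 / 3 : ℝ) *
        (18 * C * Cw ^ 2 * (η⁻¹) ^ J * Q ^ ε * (1 + |t₀|) ^ J *
          ((Kf ^ ((2 : ℝ) / 3) * K ^ ((1 : ℝ) / 3) / X) *
            ((E0 * D) ^ (3 * b - 1) * M / (nm δ * B0)))) := by
    positivity
  by_cases h1 : y.2 = 1
  swap
  · have e1 : ∀ c ∈ C4, ∀ j ∈ S (Real.sqrt Yl), PJ (X' / nm y.1) (RR Yl e A c j)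
        (Kf / nm (e * A * j)) B0 y.2
        (MTr (fun n => bt φ x p n * pw t₀ (nm n)) δ Yl y e A c j) = 0 := by
      intro c _ j _
      unfold E2440.PJ
      rw [if_neg h1]
    rw [Finset.sum_eq_zero fun c hc => Finset.sum_eq_zero fun j hj => e1 c hc j hj]
    exact hRHS
  have hy1δ : y.1 = δ := by rw [← hy3, h1, mul_one]
  have hAδ : (nm A : ℝ) ≤ nm δ := by
    have := Div277.nm_le_of_dvd hδ.ne_zero (hy1δ ▸ hAd)
    exact_mod_cast this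
  have heA : (nm (e * A) : ℝ) = nm e * nm A := by rw [nm_mul]; push_cast; ring
  set a : ℝ := ((nm (e * A) : ℕ) : ℝ) with ha
  have ha1 : 1 ≤ a := by rw [heA]; nlinarith
  have ha0 : 0 < a := by linarith
  have haED : a ≤ E0 * D := by
    rw [heA]
    exact mul_le_mul heE (hAδ.trans hδD) (by positivity) hE0
  set N2 : ℝ := 9 * (Yl * a ^ 3) * (nm δ : ℝ) ^ 2 with hN2
  have hN2a : N2 ≤ 18 * (N1 * a ^ 3) := by
    have h3 : 0 ≤ (nm δ : ℝ) ^ 2 * Yl := by positivity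
    calc N2 = 9 * (((nm δ : ℝ) ^ 2 * Yl) * a ^ 3) := by rw [hN2]; ring
      _ ≤ 9 * ((2 * N1) * a ^ 3) := by gcongr
      _ = _ := by ring
  have ha3 : a ^ 3 ≤ (E0 * D) ^ 3 := pow_le_pow_left₀ ha0.le haED 3
  have hlev : N2 ≤ 18 * (N1 * (E0 * D) ^ 3) := by
    refine hN2a.trans ?_
    gcongr
  have hlev2 : 9 * (Yl * a ^ 3) ≤ Q := by
    refine le_trans ?_ (hlev.trans hNQ)
    have h2 : (1 : ℝ) ≤ (nm δ : ℝ) ^ 2 := one_le_pow₀ hδ1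
    have h3 : 0 ≤ 9 * (Yl * a ^ 3) := by positivity
    rw [hN2]
    nlinarith
  set Γ := gr b N1 N2 with hΓ
  have hΓ0 : 0 ≤ Γ := zero_le_one.trans (one_le_gr hb0)
  have hL' : ∀ h ∈ S Y, ∀ B V : ℝ, 1 ≤ B → B ≤ Y → 1 ≤ V → V ≤ N2 / (nm h : ℝ) ^ 2 → ∀ t : ℝ,
      E1551.JB Y x (fun U => G₀ < nm (h * U)) h B V t ≤
        (M * Γ) / (nm h : ℝ) ^ 2 * E1551.yv K X h V * (1 + |t|) ^ J := by
    intro h hh B V hB1 hB2 hV1 hV2 t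
    have hhp := ((mem_S (by linarith : (0 : ℝ) ≤ Y)).mp hh).2.1
    have hh0 : (0 : ℝ) < nm h := by exact_mod_cast nm_pos.2 hhp.ne_zero
    have h4 : V * (nm h : ℝ) ^ 2 ≤ N2 := by rwa [le_div_iff₀ (by positivity)] at hV2
    have h5 : V ≤ Nz / (nm h : ℝ) ^ 2 := by
      rw [le_div_iff₀ (by positivity)]
      exact h4.trans (hlev.trans hNz)
    refine (hL h hh B V hB1 hB2 hV1 h5 t).trans ?_
    have h6 : gr b N1 (V * (nm h : ℝ) ^ 2) ≤ Γ := gr_mono hb0 hN1 h4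
    have h7 : 0 ≤ E1551.yv K X h V := by
      unfold E1551.yv; positivity
    gcongr
  have hXb0 : 0 ≤ X' / nm y.1 := by positivity
  have hXbY : X' / nm y.1 ≤ Y := (div_le_self hX'0 hy11).trans hX'Y
  have h2 := hm Y K X (M * Γ) N2 G₀ Q x δ hY hK hX (by positivity) hx hw hδ hL' Cw η φ hCw hη hη1 hφ
    p hp t₀ e A he hAp Yl Kf B0 (X' / nm y.1) (Real.sqrt Yl) hYl hKf.le (Real.sqrt_nonneg _) le_rfl
    hYQ hlev2 hB0 hGB hXb0 hXbY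
  have e1 : ∑ c ∈ C4, ∑ j ∈ S (Real.sqrt Yl), PJ (X' / nm y.1) (RR Yl e A c j)
      (Kf / nm (e * A * j)) B0 y.2 (MTr (fun n => bt φ x p n * pw t₀ (nm n)) δ Yl y e A c j) =
      ∑ c ∈ C4, ∑ j ∈ S (Real.sqrt Yl), RR Yl e A c j ^ (-(2 : ℝ) / 3) *
        (Kf / nm (e * A * j)) ^ ((4 : ℝ) / 3) *
        ∑ B ∈ (S (X' / nm y.1)).filter (fun B => B0 < nm B), (nm B : ℝ) ^ (-(4 : ℝ) / 3) *
          ∑ r ∈ (S (RR Yl e A c j)).filter (fun r => IsCoprime r 1 ∧ RR Yl e A c j / 2 < nm r),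
            ‖MT (ag (fun n => bt φ x p n * pw t₀ (nm n)) δ δ) (e * A * j) B c r‖ ^ 2 := by
    refine Finset.sum_congr rfl fun c _ => Finset.sum_congr rfl fun j _ => ?_
    unfold E2440.PJ MTr
    rw [if_pos h1, h1, hy1δ]
  rw [e1]
  refine h2.trans ?_
  have e2 : Yl ^ (-(1 : ℝ) / 3) = Yl ^ (-(1 / 3) : ℝ) := by norm_num
  have e3 : Kf ^ ((4 : ℝ) / 3) = Kf ^ (2 / 3 : ℝ) * Kf ^ ((2 : ℝ) / 3) := by
    rw [← Real.rpow_add hKf]; norm_num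
  rw [e2, e3]
  have h4 : Γ * a⁻¹ ≤ 18 * (E0 * D) ^ (3 * b - 1) := by
    have h5 : max 1 (N2 / N1) ≤ 18 * a ^ 3 := by
      refine max_le ?_ ?_
      · have : (1 : ℝ) ≤ a ^ 3 := one_le_pow₀ ha1
        linarith
      · rw [div_le_iff₀ hN1]
        calc N2 ≤ 18 * (N1 * a ^ 3) := hN2a
          _ = _ := by ring
    have h6 : Γ ≤ (18 * a ^ 3) ^ b := by
      rw [hΓ]; unfold gr
      exact Real.rpow_le_rpow (zero_le_one.trans (le_max_left _ _)) h5 hb0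
    have h7 : (18 * a ^ 3) ^ b ≤ 18 * (a * a ^ (3 * b - 1)) := by
      rw [Real.mul_rpow (by norm_num) (by positivity), ← Real.rpow_natCast a 3,
        ← Real.rpow_mul ha0.le]
      have h8 : a ^ (((3 : ℕ) : ℝ) * b) = a * a ^ (3 * b - 1) := by
        nth_rewrite 2 [← Real.rpow_one a]
        rw [← Real.rpow_add ha0]
        congr 1
        push_cast
        ring
      have h9 : (18 : ℝ) ^ b ≤ 18 := by
        calc (18 : ℝ) ^ b ≤ 18 ^ (1 : ℝ) :=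
              Real.rpow_le_rpow_of_exponent_le (by norm_num) hb1
          _ = 18 := Real.rpow_one _
      rw [h8]
      gcongr
    have h10 : a ^ (3 * b - 1) ≤ (E0 * D) ^ (3 * b - 1) :=
      Real.rpow_le_rpow ha0.le haED (by linarith)
    calc Γ * a⁻¹ ≤ 18 * (a * a ^ (3 * b - 1)) * a⁻¹ :=
          mul_le_mul_of_nonneg_right (h6.trans h7) (by positivity)
      _ = 18 * a ^ (3 * b - 1) * (a * a⁻¹) := by ring
      _ = 18 * a ^ (3 * b - 1) := by rw [mul_inv_cancel₀ ha0.ne', mul_one]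
      _ ≤ _ := by gcongr
  calc C * Cw ^ 2 * (η⁻¹) ^ J * Q ^ ε * (1 + |t₀|) ^ J *
        (Yl ^ (-(1 / 3) : ℝ) * (Kf ^ (2 / 3 : ℝ) * Kf ^ ((2 : ℝ) / 3)) / a *
          (K ^ ((1 : ℝ) / 3) / X) * ((M * Γ) / (nm δ * B0)))
      = C * Cw ^ 2 * (η⁻¹) ^ J * Q ^ ε * (1 + |t₀|) ^ J *
        (Yl ^ (-(1 / 3) : ℝ) * (Kf ^ (2 / 3 : ℝ) * Kf ^ ((2 : ℝ) / 3)) *
          (K ^ ((1 : ℝ) / 3) / X) * (M / (nm δ * B0))) * (Γ * a⁻¹) := by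
        rw [div_eq_mul_inv _ a]; ring
    _ ≤ C * Cw ^ 2 * (η⁻¹) ^ J * Q ^ ε * (1 + |t₀|) ^ J *
        (Yl ^ (-(1 / 3) : ℝ) * (Kf ^ (2 / 3 : ℝ) * Kf ^ ((2 : ℝ) / 3)) *
          (K ^ ((1 : ℝ) / 3) / X) * (M / (nm δ * B0))) * (18 * (E0 * D) ^ (3 * b - 1)) :=
        mul_le_mul_of_nonneg_left h4 (by positivity)
    _ = _ := by ring

end Crest.Agent.R017.MTX241
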