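import Crest.Agent.R017.MoJb_401

/-!
# Row 17, block C70, leaf E2 (helper401): list form of the block moment, part 4

* `MoJ_mono` : monotony of the block moment in the weight
* `MoJ_cell` : the joint cells for a block of `j₂`, common weight
-/

set_option autoImplicit false
set_option maxHeartbeats 400000

noncomputable section

open Complex Finset
open scoped ComplexConjugate

namespace Crest.Agent.R017.MoJ401

open Crest.Agent.R012 Crest.Agent.R012.Eis Crest.Agent.R012.LS2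
open Crest.Agent.R012.Div277 Crest.Agent.R012.Weight600
open Crest.Agent.R017.CM106 Crest.Agent.R017.FE47 Crest.Agent.R017.End699
open Crest.Agent.R017.B770
open Crest.Agent.R017.Prov71
open Crest.Agent.R017.HP842 (pc)
open Crest.Agent.R017.TPOk571 (IP FP SD SD_w SD_len SD_ht sd_ok AC relU)
open Crest.Agent.R017.X6C180 (IX dl')
open Crest.Agent.R017.H1401 (pb mem_pb WJ)
open Crest.Agent.R017.Win813 (iA iA_nonneg WK)
open Crest.Agent.R017.XRG106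
open Crest.Agent.R017.MoF106
open Crest.Agent.R017.MoL106 (FromP Q4 mem_Q4 f4 kw)
open Crest.Agent.R017.E2D401 (MoJ)

lemma WJ_mono {R R' Z U : ℝ} (h : R ≤ R') (g x : Eis) : WJ R Z U g x ≤ WJ R' Z U g x := by
  unfold H1401.WJ
  gcongr

/-- monotony in `R` -/
lemma MoJ_mono {ν : Eis} {α : Eis → ℂ} {E τ : Eis} {X t R R' Z U : ℝ} (h : R ≤ R')
    (Bs : Finset Eis) : MoJ ν α E τ X t R Z U Bs ≤ MoJ ν α E τ X t R' Z U Bs := by
  classical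
  unfold E2D401.MoJ
  refine Finset.sum_le_sum fun n _ => mul_le_mul_of_nonneg_left ?_ (Nat.cast_nonneg _)
  refine Finset.sum_le_sum fun g₂ _ => Finset.sum_le_sum fun g₃ _ => Finset.sum_le_sum fun g _ => ?_
  exact mul_le_mul_of_nonneg_right (WJ_mono h g g₂)
    (Finset.sum_nonneg fun _ _ => Finset.sum_nonneg fun _ _ => sq_nonneg _)

lemma MoJC_nonneg {C η : ℝ} (hη : 0 < η) {A : ℕ} {σ γ q g₀ δ : Eis} {w : Eis → ℂ} {ν E : Eis}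
    {X R Z U : ℝ} (hR : 0 ≤ R) (Bs : Finset Eis) :
    0 ≤ MoJC C η A σ γ q g₀ δ w ν E X R Z U Bs := by
  classical
  unfold MoJC
  refine Finset.sum_nonneg fun n _ => mul_nonneg (Nat.cast_nonneg _) ?_
  exact Finset.sum_nonneg fun g _ => Finset.sum_nonneg fun B _ =>
    MoC_nonneg' hη fun _ _ _ _ => H1401.WJ_nonneg hR _ _

/-- **a block of `j₂`** : the moments with the weights `RR y ≤ Rm` are bounded by the functional at
the common weight, and the sum of the functionals by the natural cells -/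
theorem MoJ_cell {h : ℝ → ℝ} {c : ℝ} (hpu : PU h c) {R : ℝ} (hR0 : 0 ≤ R)
    (hR : ∀ u, cx h u ≠ 0 → |u| ≤ R) {μ : ℝ} (hμ : 0 ≤ μ) (r : ℕ) (σ : Eis) {ε : ℝ}
    (hε : 0 < ε) :
    ∃ C : ℝ, 1 ≤ C ∧ ∀ (A' : ℕ), 2 * (r * μ) + 2 ≤ A' → ∀ (Cφ η : ℝ) (φ : ℝ → ℝ), 0 ≤ Cφ → 0 < η →
      η ≤ 1 → WK Cφ η A' φ →
      ∀ (P : DPar) (hP : P.OK) (s : Fin r → Pq), (∀ i, 0 ≤ (s i).z) →
      ∀ j : Fin r → IP, (∀ i, FromP hP (j i) (s i)) →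
      ∀ (γ q g₀ δ E ν : Eis), IsPrim γ → Squarefree γ → IsPrim g₀ → IsPrim q → IsPrim δ →
      IsPrim ν →
      ∀ (T : Finset Eis) (Bs : Eis → Finset Eis) (X Z Rm U X0 : ℝ), 1 ≤ X → 0 ≤ Z → 0 ≤ Rm →
      1 ≤ U → X ≤ X0 → U ≤ X0 → (nm γ : ℝ) ≤ X0 → (nm g₀ : ℝ) ≤ X0 → (nm q : ℝ) ≤ X0 →
      (nm δ : ℝ) ≤ X0 → (nm ν : ℝ) ≤ X0 → (∀ i, Real.exp (s i).z ≤ X0) →
      (∀ y ∈ T, ∀ B ∈ Bs y, B ∈ S X ∧ U / 2 ≤ nm B ∧ (nm B : ℝ) ≤ U) → ∀ M : ℝ, 0 ≤ M →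
      ∀ (p : ℕ × ℕ) (t₀ : ℝ),
      (∀ n ∈ dvs ν, ∀ g ∈ S U, IsCoprime g δ →
        ∀ u < NX X, ∀ v < NX X, ∀ w < NX X, Real.exp ((u : ℝ) / 3) * nm g ≤ U →
        U ≤ 2 * (Real.exp ((u : ℝ) / 3 + 1 / 3) * nm g) →
        (nm n : ℝ) ^ 3 * (Real.exp (2 * ((v : ℝ) / 3)) * Real.exp w) ≤ Z / nm g →
        ∀ i : IX σ, ∀ g₃ ∈ bk X w,
        ∀ (s' : Fin r → Pq) (W0 : ℝ), 1 ≤ W0 → (∀ k, Rl C W0 (s' k) (s k)) →
        ∑ k, (s' k).z ≤ ∑ k, (j k).z + Real.log (nm γ) -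
          (Real.log (nm (g₀ * g)) + ((u : ℝ) / 3 + v / 3 + w / 3)) + C →
        (nm n : ℝ) * nm g * wJc Rm (Z / (nm n : ℝ) ^ 3) U (nm g) (Real.exp ((v : ℝ) / 3)) *
          Real.exp ((w : ℝ) / 3) *
          ∑ x ∈ Q4 T X (Z / nm g) u v (fun y B g₂ g₃ d => g * B ∈ Bs y ∧ PJ n g Z B g₂ g₃ d) g₃,
          ∏ k, ‖CS (pc h ((s' k).pc P)) (f4 (E * kw p ^ 2) (dl' σ i) x)‖ ^ 2 ≤
        M * Real.exp (∑ k, (s' k).z - (∑ k, (j k).z -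
          (Real.log (nm (g₀ * g)) + ((u : ℝ) / 3 + v / 3 + w / 3)))) * W0 ^ (2 * μ)) →
      ∃ Mw : Eis → ℝ, (∀ y, 0 ≤ Mw y) ∧
        (∀ y ∈ T, ∀ Ry : ℝ, 0 ≤ Ry → Ry ≤ Rm → ∀ (i : IX σ) (t : ℝ),
          MoJ ν (E2440.ag (fun n => RGw813.bt φ (dl γ (TP320.sq (q * γ) ((SD h μ r).w j))) p n *
            Weight600.pw t₀ (nm n)) δ g₀) (E * y) (dl' σ i) X t Ry Z U (Bs y) ≤ (1 + |t|) ^ A' * Mw y) ∧
        ∑ y ∈ T, Mw y ≤ C * (Cφ ^ 2 * iA A' * (η * (η ^ A')⁻¹)) * (1 + |t₀|) ^ A' * X0 ^ ε *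
          nm γ * M := by
  classical
  have hΦ := sd_ok hpu hR0 hR hμ r
  obtain ⟨C, hC, H⟩ := MoJC_list hpu hR0 hR hμ r σ hε
  refine ⟨C, hC, ?_⟩
  intro A' hA' Cφ η φ hCφ hη hη1 hφ P hP s hs j hj γ q g₀ δ E ν hγ hγs hg₀ hq hδ hν T Bs X Z Rm U
    X0 hX hZ hRm hU hXX hUX hγX hgX hqX hδX hνX hsX hBs M hM p t₀ hyp
  have hA2 : 2 ≤ A' := by
    have h1 : 0 ≤ (r : ℝ) * μ := by positivity
    have : (2 : ℝ) ≤ A' := by linarith
    exact_mod_cast this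
  have hX0 : 0 ≤ X := by linarith
  have hU0 : 0 ≤ U := by linarith
  have hRt := hΦ.R0
  have hw1 : ∀ n, (SD h μ r).w j n ≠ 0 →
      (nm n : ℝ) ≤ Real.exp ((SD h μ r).len j + r * (2 * R + 3)) := by
    intro b hb
    have hb0 : (0 : ℝ) < nm b := by exact_mod_cast nm_pos.2 (hΦ.prim j b hb).ne_zero
    rw [← Real.log_le_iff_le_exp hb0]
    have := (abs_le.1 (hΦ.supp j b hb)).2
    linarith
  refine ⟨fun y => if y ∈ T then (1 + |t₀|) ^ A' * MoJC Cφ η A' σ γ q g₀ δ ((SD h μ r).w j) ν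
    ((E * kw p ^ 2) * y) X Rm Z U (Bs y) else 0, ?_, ?_, ?_⟩
  · intro y
    simp only
    split_ifs
    · exact mul_nonneg (by positivity) (MoJC_nonneg hη hRm _)
    · exact le_rfl
  · intro y hy Ry hRy hRyR i t
    simp only [if_pos hy]
    refine (MoJ_mono hRyR (Bs y)).trans ?_
    have h1 := MoJ_bt_le (E := E * y) (ν := ν) (σ := σ) (q := q) (δ := δ) hCφ hη hη1 hA2 hφ
      (Real.exp_pos _).le hw1 hX0 hRm hZ hU0 hγ hγs hg₀ (fun B hB => (hBs y hy B hB).1) p t₀ i t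
    have e1 : E * y * kw p ^ 2 = E * kw p ^ 2 * y := by ring
    rw [e1] at h1
    exact h1
  · have h2 := H A' hA' Cφ η hη P hP s hs j hj γ q g₀ δ (E * kw p ^ 2) ν hγ hγs hg₀ hq hδ hν T Bs X
      Z Rm U X0 hX hZ hRm hU hXX hUX hγX hgX hqX hδX hνX hsX hBs M hM hyp
    have e2 : ∑ y ∈ T, (if y ∈ T then (1 + |t₀|) ^ A' * MoJC Cφ η A' σ γ q g₀ δ
        ((SD h μ r).w j) ν ((E * kw p ^ 2) * y) X Rm Z U (Bs y) else 0) =
        (1 + |t₀|) ^ A' * ∑ y ∈ T, MoJC Cφ η A' σ γ q g₀ δ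
        ((SD h μ r).w j) ν ((E * kw p ^ 2) * y) X Rm Z U (Bs y) := by
      rw [Finset.mul_sum]
      exact Finset.sum_congr rfl fun y hy => by rw [if_pos hy]
    simp only [e2]
    refine (mul_le_mul_of_nonneg_left h2 (by positivity)).trans (le_of_eq ?_)
    ring

end Crest.Agent.R017.MoJ401
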