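import Crest.Agent.R017.QsJK_401
import Crest.Agent.R017.MoJd_401

/-!
# Row 17, block C70, leaf E2 (helper401): the cells of `QsNJ_le`, part 1

* `Tb`, `Nj`, `CellN`, `CellJ` : blocks of `j₂`, shells, separate cells and joint cells
* `RR_norm` : the weight `RR^(-1/3) (K / nm (e A j₂))^(2/3)` does not depend on `j₂`
* `sum_cellN`, `sum_cellJ`, `sum_cellT` : the sums over the cells
-/

set_option autoImplicit false
set_option linter.unusedVariables false

noncomputable section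

open Complex
open scoped ComplexConjugate

namespace Crest.Agent.R017.QsJ401

open Crest.Agent.R012 Crest.Agent.R012.Eis
open Crest.Agent.R012.Div277
open Crest.Agent.R012.LS2 (S mem_S)
open Crest.Agent.R017.X6C180 (IX dl')
open Crest.Agent.R017.CM106 (sub CS FS)
open Crest.Agent.R017.H1401 (pb mem_pb DN WM WJ)
open Crest.Agent.R017.MoF106 (MoP NX bk mem_bk bk_prim bk_nm_ge sum_bk UU)
open Crest.Agent.R017.E2D401 (MoJ Bj)
open Crest.Agent.R017.E2440

/-- a block of `j₂` -/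
def Tb (V : ℝ) (e A c : Eis) (l : ℕ) : Finset Eis := by
  classical
  exact (bk (Real.sqrt V) l).filter (fun j => 1 ≤ RR V e A c j)

lemma mem_Tb {V : ℝ} {e A c : Eis} {l : ℕ} {j : Eis} :
    j ∈ Tb V e A c l ↔ j ∈ bk (Real.sqrt V) l ∧ 1 ≤ RR V e A c j := by
  classical
  unfold Tb
  rw [Finset.mem_filter]

/-- the numbers of shells -/
def Nj (T H X V K B0 : ℝ) (ν e A c j₂ : Eis) : Eis → ℕ :=
  NBf T H X (RR V e A c j₂) (K / nm (e * A * j₂)) B0 ν

/-- a separate cell which occurs -/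
def CellN (T H X V K B0 : ℝ) (ν e A c : Eis) (jm : ℕ → ℕ → Prop) (l u j : ℕ) : Prop :=
  ∃ j₂ ∈ Tb V e A c l, ∃ B ∈ bk X u, j < Nj T H X V K B0 ν e A c j₂ B ∧ ¬ jm (blk B) j

/-- a joint cell which occurs -/
def CellJ (T H X V K B0 : ℝ) (ν e A c : Eis) (l u j : ℕ) : Prop :=
  ∃ j₂ ∈ Tb V e A c l, (Bj X (Nj T H X V K B0 ν e A c j₂) u j).Nonempty

lemma mem_Bj {X : ℝ} {N : Eis → ℕ} {u j : ℕ} {B : Eis} :
    B ∈ Bj X N u j ↔ B ∈ S X ∧ blk B = u ∧ j < N B := by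
  classical
  unfold E2D401.Bj
  rw [Finset.mem_filter]

/-- **the weight does not depend on `j₂`** -/
lemma RR_norm {V K : ℝ} (hV : 0 < V) (hK : 0 < K) {e A c j₂ : Eis} (he : e ≠ 0) (hA : A ≠ 0)
    (hc : c ≠ 0) (hj : j₂ ≠ 0) :
    RR V e A c j₂ ^ (-(1 : ℝ) / 3) * (K / nm (e * A * j₂)) ^ ((2 : ℝ) / 3) =
      V ^ (-(1 : ℝ) / 3) * K ^ ((2 : ℝ) / 3) / nm (e * A) * (nm c : ℝ) ^ ((1 : ℝ) / 3) := by
  have hx : (0 : ℝ) < nm (e * A) := by exact_mod_cast nm_pos.2 (mul_ne_zero he hA)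
  have hy : (0 : ℝ) < nm j₂ := by exact_mod_cast nm_pos.2 hj
  have hz : (0 : ℝ) < nm c := by exact_mod_cast nm_pos.2 hc
  have hxy : (nm (e * A * j₂) : ℝ) = nm (e * A) * nm j₂ := by rw [nm_mul]; push_cast; ring
  unfold E2440.RR
  rw [hxy]
  set x : ℝ := (nm (e * A) : ℝ) with hxd
  set y : ℝ := (nm j₂ : ℝ) with hyd
  set z : ℝ := (nm c : ℝ) with hzd
  have e1 : x = Real.exp (Real.log x) := (Real.exp_log hx).symm
  rw [Real.rpow_def_of_pos (show 0 < V * x / (z * y ^ 2) by positivity),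
    Real.rpow_def_of_pos (show 0 < K / (x * y) by positivity), Real.rpow_def_of_pos hV,
    Real.rpow_def_of_pos hK, Real.rpow_def_of_pos hz,
    Real.log_div (by positivity) (by positivity), Real.log_mul hV.ne' hx.ne',
    Real.log_mul hz.ne' (by positivity), Real.log_pow,
    Real.log_div hK.ne' (by positivity), Real.log_mul hx.ne' hy.ne']
  conv_rhs => rw [e1]
  rw [← Real.exp_add, ← Real.exp_add, ← Real.exp_sub, ← Real.exp_add]
  congr 1
  push_cast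
  ring

/-- the constant -/
def cC4 : ℝ := ∑ c ∈ C4, (nm c : ℝ)

lemma C4_ne {c : Eis} (hc : c ∈ C4) : c ≠ 0 := by
  rw [mem_C4] at hc
  have h3 : (3 : Eis) ≠ 0 := by norm_num
  have hw : (w : Eis) ≠ 0 := isUnit_w.ne_zero
  rcases hc with h | h | h | h
  · rw [h]; exact one_ne_zero
  · rw [h]; exact h3
  · rw [h]; exact mul_ne_zero h3 hw
  · rw [h]; exact mul_ne_zero h3 (pow_ne_zero 2 hw)

lemma one_le_nmC {c : Eis} (hc : c ∈ C4) : (1 : ℝ) ≤ nm c := by
  exact_mod_cast nm_pos.2 (C4_ne hc)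

lemma nm_le_cC4 {c : Eis} (hc : c ∈ C4) : (nm c : ℝ) ≤ cC4 :=
  Finset.single_le_sum (f := fun c : Eis => (nm c : ℝ)) (fun c _ => Nat.cast_nonneg _) hc

lemma one_le_cC4 : 1 ≤ cC4 := (one_le_nmC (mem_C4.mpr (Or.inl rfl))).trans
  (nm_le_cC4 (mem_C4.mpr (Or.inl rfl)))

lemma cC_third {c : Eis} (hc : c ∈ C4) : (nm c : ℝ) ^ ((1 : ℝ) / 3) ≤ cC4 := by
  have h1 := one_le_nmC hc
  calc (nm c : ℝ) ^ ((1 : ℝ) / 3) ≤ (nm c : ℝ) ^ (1 : ℝ) :=
        Real.rpow_le_rpow_of_exponent_le h1 (by norm_num)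
    _ = nm c := Real.rpow_one _
    _ ≤ _ := nm_le_cC4 hc

/-- the square of the weight -/
lemma RR_norm2 {R A : ℝ} (hR : 0 < R) (hA : 0 < A) :
    R ^ (-(2 : ℝ) / 3) * A ^ ((4 : ℝ) / 3) = (R ^ (-(1 : ℝ) / 3) * A ^ ((2 : ℝ) / 3)) ^ 2 := by
  rw [mul_pow, ← Real.rpow_natCast (R ^ (-(1 : ℝ) / 3)), ← Real.rpow_mul hR.le,
    ← Real.rpow_natCast (A ^ ((2 : ℝ) / 3)), ← Real.rpow_mul hA.le]
  norm_num

open Classical in
/-- splitting of the sum over `j₂` -/
lemma sum_Tb {V : ℝ} (hV : 1 ≤ V) (e A c : Eis) (g : Eis → ℝ) :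
    ∑ j ∈ (S (Real.sqrt V)).filter (fun j => 1 ≤ RR V e A c j), g j =
      ∑ l ∈ Finset.range (NX (Real.sqrt V)), ∑ j ∈ Tb V e A c l, g j := by
  have hV1 : 1 ≤ Real.sqrt V := Real.one_le_sqrt.mpr hV
  rw [Finset.sum_filter, sum_bk hV1]
  refine Finset.sum_congr rfl fun l _ => ?_
  unfold Tb
  rw [Finset.sum_filter]

open Classical in
/-- **the separate cells** -/
lemma sum_cellN {T H X V K B0 : ℝ} (hX : 1 ≤ X) (hV : 1 ≤ V) {ν e A c : Eis}
    (jm : ℕ → ℕ → ℕ → Prop) {N0 : ℕ} (hN : ∀ l, ∀ j₂ ∈ Tb V e A c l, ∀ B ∈ S X,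
      Nj T H X V K B0 ν e A c j₂ B ≤ N0) (f : Eis → Eis → ℕ → ℝ) {M0 : ℝ} (hM0 : 0 ≤ M0)
    (hcell : ∀ l u j, CellN T H X V K B0 ν e A c (jm l) l u j →
      ∑ j₂ ∈ Tb V e A c l, ∑ B ∈ (bk X u).filter
        (fun B => j < Nj T H X V K B0 ν e A c j₂ B ∧ ¬ jm l (blk B) j), f j₂ B j ≤ M0) :
    ∑ j₂ ∈ (S (Real.sqrt V)).filter (fun j => 1 ≤ RR V e A c j), ∑ B ∈ S X,
      ∑ j ∈ (Finset.range (Nj T H X V K B0 ν e A c j₂ B)).filter
        (fun j => ¬ jm (UU j₂) (blk B) j), f j₂ B j ≤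
      (NX (Real.sqrt V)) * (NX X) * N0 * M0 := by
  rw [sum_Tb hV]
  have hV1 : 0 ≤ Real.sqrt V := Real.sqrt_nonneg V
  have h1 : ∀ l ∈ Finset.range (NX (Real.sqrt V)), ∑ j₂ ∈ Tb V e A c l, ∑ B ∈ S X,
      ∑ j ∈ (Finset.range (Nj T H X V K B0 ν e A c j₂ B)).filter
        (fun j => ¬ jm (UU j₂) (blk B) j), f j₂ B j ≤ (NX X) * N0 * M0 := by
    intro l _
    have e1 : ∑ j₂ ∈ Tb V e A c l, ∑ B ∈ S X,
      ∑ j ∈ (Finset.range (Nj T H X V K B0 ν e A c j₂ B)).filter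
        (fun j => ¬ jm (UU j₂) (blk B) j), f j₂ B j =
      ∑ u ∈ Finset.range (NX X), ∑ j ∈ Finset.range N0, ∑ j₂ ∈ Tb V e A c l, ∑ B ∈ bk X u,
        (if j < Nj T H X V K B0 ν e A c j₂ B ∧ ¬ jm l (blk B) j then f j₂ B j else 0) := by
      have e2 : ∀ j₂ ∈ Tb V e A c l, ∑ B ∈ S X,
          ∑ j ∈ (Finset.range (Nj T H X V K B0 ν e A c j₂ B)).filter
            (fun j => ¬ jm (UU j₂) (blk B) j), f j₂ B j =
          ∑ u ∈ Finset.range (NX X), ∑ j ∈ Finset.range N0, ∑ B ∈ bk X u,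
          (if j < Nj T H X V K B0 ν e A c j₂ B ∧ ¬ jm l (blk B) j then f j₂ B j else 0) := by
        intro j₂ hj
        have hl : UU j₂ = l := ((mem_bk hV1).1 (mem_Tb.1 hj).1).2
        rw [sum_bk hX]
        refine Finset.sum_congr rfl fun u _ => ?_
        rw [Finset.sum_comm]
        refine Finset.sum_congr rfl fun B hB => ?_
        have hBS : B ∈ S X := by
          rw [mem_S (by linarith)]
          exact ((mem_bk (by linarith)).1 hB).1
        rw [← Finset.sum_filter]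
        refine Finset.sum_congr ?_ fun _ _ => rfl
        ext j
        rw [Finset.mem_filter, Finset.mem_filter, Finset.mem_range, Finset.mem_range, hl]
        constructor
        · rintro ⟨h1, h2⟩
          exact ⟨h1.trans_le (hN l j₂ hj B hBS), h1, h2⟩
        · rintro ⟨-, h1, h2⟩
          exact ⟨h1, h2⟩
      rw [Finset.sum_congr rfl e2, Finset.sum_comm]
      refine Finset.sum_congr rfl fun u _ => ?_
      rw [Finset.sum_comm]
    rw [e1]
    have h2 : ∀ u ∈ Finset.range (NX X), ∀ j ∈ Finset.range N0,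
        ∑ j₂ ∈ Tb V e A c l, ∑ B ∈ bk X u,
        (if j < Nj T H X V K B0 ν e A c j₂ B ∧ ¬ jm l (blk B) j then f j₂ B j else 0) ≤ M0 := by
      intro u _ j _
      by_cases hcl : CellN T H X V K B0 ν e A c (jm l) l u j
      · refine le_trans (le_of_eq ?_) (hcell l u j hcl)
        refine Finset.sum_congr rfl fun j₂ _ => ?_
        rw [Finset.sum_filter]
      · rw [Finset.sum_eq_zero]
        · exact hM0
        intro j₂ hj
        refine Finset.sum_eq_zero fun B hB => ?_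
        rw [if_neg]
        intro h
        exact hcl ⟨j₂, hj, B, hB, h⟩
    refine (Finset.sum_le_sum fun u hu => Finset.sum_le_sum fun j hj => h2 u hu j hj).trans
      (le_of_eq ?_)
    rw [Finset.sum_const, Finset.sum_const, Finset.card_range, Finset.card_range, nsmul_eq_mul,
      nsmul_eq_mul]
    ring
  refine (Finset.sum_le_sum h1).trans (le_of_eq ?_)
  rw [Finset.sum_const, Finset.card_range, nsmul_eq_mul]
  ring

open Classical in
/-- **the joint cells** -/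
lemma sum_cellJ {T H X V K B0 : ℝ} (hX : 1 ≤ X) (hV : 1 ≤ V) {ν e A c : Eis}
    (jm : ℕ → ℕ → ℕ → Prop) {N0 : ℕ} (hN : ∀ l, ∀ j₂ ∈ Tb V e A c l, ∀ B ∈ S X,
      Nj T H X V K B0 ν e A c j₂ B ≤ N0) (f : Eis → ℕ → ℕ → ℝ)
    (hf : ∀ j₂ u j, 0 ≤ f j₂ u j) {M0 : ℝ} (hM0 : 0 ≤ M0)
    (hcell : ∀ l u j, jm l u j → CellJ T H X V K B0 ν e A c l u j →
      ∑ j₂ ∈ Tb V e A c l, f j₂ u j ≤ M0) :
    ∑ j₂ ∈ (S (Real.sqrt V)).filter (fun j => 1 ≤ RR V e A c j),
      ∑ u ∈ Finset.range (bkN X),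
      ∑ j ∈ (Finset.range (NJ (Nj T H X V K B0 ν e A c j₂) X u)).filter
        (fun j => jm (UU j₂) u j), f j₂ u j ≤
      (NX (Real.sqrt V)) * (bkN X) * N0 * M0 := by
  rw [sum_Tb hV]
  have hV1 : 0 ≤ Real.sqrt V := Real.sqrt_nonneg V
  have h1 : ∀ l ∈ Finset.range (NX (Real.sqrt V)), ∑ j₂ ∈ Tb V e A c l,
      ∑ u ∈ Finset.range (bkN X),
      ∑ j ∈ (Finset.range (NJ (Nj T H X V K B0 ν e A c j₂) X u)).filter
        (fun j => jm (UU j₂) u j), f j₂ u j ≤ (bkN X) * N0 * M0 := by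
    intro l _
    have e2 : ∀ j₂ ∈ Tb V e A c l, ∑ u ∈ Finset.range (bkN X),
        ∑ j ∈ (Finset.range (NJ (Nj T H X V K B0 ν e A c j₂) X u)).filter
          (fun j => jm (UU j₂) u j), f j₂ u j ≤
        ∑ u ∈ Finset.range (bkN X), ∑ j ∈ Finset.range N0,
          (if jm l u j ∧ CellJ T H X V K B0 ν e A c l u j then f j₂ u j else 0) := by
      intro j₂ hj
      have hl : UU j₂ = l := ((mem_bk hV1).1 (mem_Tb.1 hj).1).2
      refine Finset.sum_le_sum fun u _ => ?_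
      rw [← Finset.sum_filter]
      refine Finset.sum_le_sum_of_subset_of_nonneg (fun j hjj => ?_) fun _ _ _ => hf _ _ _
      rw [Finset.mem_filter, Finset.mem_range, hl] at hjj
      rw [Finset.mem_filter, Finset.mem_range]
      have hNJ := NJ_le (hN l j₂ hj) u
      refine ⟨hjj.1.trans_le hNJ, hjj.2, j₂, hj, ?_⟩
      have h3 := hjj.1
      unfold E2440.NJ at h3
      rw [Finset.lt_sup_iff] at h3
      obtain ⟨B, hB, hB2⟩ := h3
      rw [Finset.mem_filter] at hB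
      exact ⟨B, mem_Bj.mpr ⟨hB.1, hB.2, hB2⟩⟩
    refine (Finset.sum_le_sum e2).trans ?_
    rw [Finset.sum_comm]
    have h2 : ∀ u ∈ Finset.range (bkN X), ∑ j₂ ∈ Tb V e A c l, ∑ j ∈ Finset.range N0,
          (if jm l u j ∧ CellJ T H X V K B0 ν e A c l u j then f j₂ u j else 0) ≤
          N0 * M0 := by
      intro u _
      rw [Finset.sum_comm]
      have h3 : ∀ j ∈ Finset.range N0, ∑ j₂ ∈ Tb V e A c l,
          (if jm l u j ∧ CellJ T H X V K B0 ν e A c l u j then f j₂ u j else 0) ≤ M0 := by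
        intro j _
        by_cases hcl : jm l u j ∧ CellJ T H X V K B0 ν e A c l u j
        · refine le_trans (le_of_eq ?_) (hcell l u j hcl.1 hcl.2)
          exact Finset.sum_congr rfl fun j₂ _ => by rw [if_pos hcl]
        · rw [Finset.sum_eq_zero]
          · exact hM0
          intro j₂ _
          rw [if_neg hcl]
      refine (Finset.sum_le_sum h3).trans (le_of_eq ?_)
      rw [Finset.sum_const, Finset.card_range, nsmul_eq_mul]
    refine (Finset.sum_le_sum h2).trans (le_of_eq ?_)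
    rw [Finset.sum_const, Finset.card_range, nsmul_eq_mul]
    ring
  refine (Finset.sum_le_sum h1).trans (le_of_eq ?_)
  rw [Finset.sum_const, Finset.card_range, nsmul_eq_mul]
  ring

open Classical in
/-- **the polar cells** -/
lemma sum_cellT {X V B0 : ℝ} (hX : 1 ≤ X) (hV : 1 ≤ V) {e A c : Eis} (f : Eis → Eis → ℝ)
    (hf : ∀ j₂ B, 0 ≤ f j₂ B) {M1 : ℝ} (hM1 : 0 ≤ M1)
    (hcell : ∀ l u, (∃ B ∈ bk X u, B0 < nm B) → Real.exp (-(4 / 3) * ((u : ℝ) / 3)) *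
      ∑ j₂ ∈ Tb V e A c l, ∑ B ∈ bk X u, f j₂ B ≤ M1) :
    ∑ j₂ ∈ (S (Real.sqrt V)).filter (fun j => 1 ≤ RR V e A c j),
      ∑ B ∈ (S X).filter (fun B => B0 < nm B), (nm B : ℝ) ^ (-(4 : ℝ) / 3) * f j₂ B ≤
      (NX (Real.sqrt V)) * (NX X) * M1 := by
  rw [sum_Tb hV]
  have h1 : ∀ l ∈ Finset.range (NX (Real.sqrt V)), ∑ j₂ ∈ Tb V e A c l,
      ∑ B ∈ (S X).filter (fun B => B0 < nm B), (nm B : ℝ) ^ (-(4 : ℝ) / 3) * f j₂ B ≤
      (NX X) * M1 := by
    intro l _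
    have e2 : ∀ j₂ ∈ Tb V e A c l, ∑ B ∈ (S X).filter (fun B => B0 < nm B),
        (nm B : ℝ) ^ (-(4 : ℝ) / 3) * f j₂ B = ∑ u ∈ Finset.range (NX X), ∑ B ∈ bk X u,
          (if B0 < nm B then (nm B : ℝ) ^ (-(4 : ℝ) / 3) * f j₂ B else 0) := by
      intro j₂ _
      rw [Finset.sum_filter, sum_bk hX]
      rfl
    rw [Finset.sum_congr rfl e2, Finset.sum_comm]
    have h2 : ∀ u ∈ Finset.range (NX X), ∑ j₂ ∈ Tb V e A c l, ∑ B ∈ bk X u,
          (if B0 < nm B then (nm B : ℝ) ^ (-(4 : ℝ) / 3) * f j₂ B else 0) ≤ M1 := by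
      intro u _
      by_cases h : ∃ B ∈ bk X u, B0 < nm B
      · refine le_trans ?_ (hcell l u h)
        rw [Finset.mul_sum]
        refine Finset.sum_le_sum fun j₂ _ => ?_
        rw [Finset.mul_sum]
        refine Finset.sum_le_sum fun B hB => ?_
        split_ifs
        · refine mul_le_mul_of_nonneg_right ?_ (hf _ _)
          have h3 := bk_nm_ge (by linarith) hB
          rw [show Real.exp (-(4 / 3) * ((u : ℝ) / 3)) =
            (Real.exp ((u : ℝ) / 3)) ^ (-(4 : ℝ) / 3) by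
              rw [← Real.exp_mul]; congr 1; ring]
          exact Real.rpow_le_rpow_of_nonpos (Real.exp_pos _) h3 (by norm_num)
        · exact mul_nonneg (Real.exp_pos _).le (hf _ _)
      · push Not at h
        rw [Finset.sum_eq_zero]
        · exact hM1
        intro j₂ _
        refine Finset.sum_eq_zero fun B hB => ?_
        rw [if_neg (not_lt.mpr (h B hB))]
    refine (Finset.sum_le_sum h2).trans (le_of_eq ?_)
    rw [Finset.sum_const, Finset.card_range, nsmul_eq_mul]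
  refine (Finset.sum_le_sum h1).trans (le_of_eq ?_)
  rw [Finset.sum_const, Finset.card_range, nsmul_eq_mul]
  ring

end Crest.Agent.R017.QsJ401
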