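import Crest.Agent.R017.MTX4_241
import Crest.Agent.R017.QsJa_401

/-!
# Row 17, exceptional class, T.7, leaf E2-d (helper241): the polar direct part, part 5

* `mtx_cell` : the premise on the polar cells of `Qs_cellsJ` (helper401) / `Qs_cells` (helper739)
* `mtx_cellg` : the same with growth of the numbers above the level `N₁`
-/

set_option autoImplicit false

noncomputable section

open MeasureTheory Finset Filter
open scoped ComplexConjugate Classical ContDiff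

namespace Crest.Agent.R017.MTX241

open Crest.Agent.R012
open Eis CharSum852 Gauss880 LS2 CR2 MelSep811
open Crest.Agent.R012.Weight600 (osc norm_osc ker pw)
open Crest.Agent.R012.Mob705 (pdiv mem_pdiv)
open Crest.Agent.R017.CM106 (CS TG FS sub)
open Crest.Agent.R017.E2440 (MT ag C4 mem_C4 RR PJ prs mem_prs)
open Crest.Agent.R017.MoF106 (bk mem_bk bk_lo bk_hi)
open Crest.Agent.R017.QsJ401 (Tb mem_Tb)
open Crest.Agent.R017.Win813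
open Crest.Agent.R017.RGw813 (bt T9)

/-- the weight of `mtx` from below -/
lemma wt_ge {Yl : ℝ} (hYl : 0 < Yl) {e A c j : Eis} (hE0 : e * A ≠ 0) (hc : c ∈ C4)
    (hj : j ≠ 0) :
    Yl ^ (-(2 : ℝ) / 3) * (nm (e * A) : ℝ) ^ (-(2 : ℝ)) ≤
      RR Yl e A c j ^ (-(2 : ℝ) / 3) * (1 / nm (e * A * j)) ^ ((4 : ℝ) / 3) := by
  have hE : (0 : ℝ) < nm (e * A) := by exact_mod_cast nm_pos.2 hE0
  have hjn : (0 : ℝ) < nm j := by exact_mod_cast nm_pos.2 hj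
  have hc1 : (1 : ℝ) ≤ nm c := by exact_mod_cast nm_pos.2 (mem_C4.1 hc).ne_zero
  have hcn : (0 : ℝ) < nm c := by linarith
  set E : ℝ := ((nm (e * A) : ℕ) : ℝ) with hEd
  set c' : ℝ := ((nm c : ℕ) : ℝ) with hc'
  set j' : ℝ := ((nm j : ℕ) : ℝ) with hj'
  have e1 : ((nm (e * A * j) : ℕ) : ℝ) = E * j' := by rw [nm_mul (e * A) j]; push_cast; rfl
  rw [e1]
  unfold E2440.RR
  rw [← hEd, ← hc', ← hj']
  have h9 : 1 ≤ c' ^ ((2 : ℝ) / 3) := Real.one_le_rpow hc1 (by norm_num)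
  have e2 : (Yl * E / (c' * j' ^ 2)) ^ (-(2 : ℝ) / 3) =
      Yl ^ (-(2 : ℝ) / 3) * E ^ (-(2 : ℝ) / 3) * (c' ^ ((2 : ℝ) / 3) * j' ^ ((4 : ℝ) / 3)) := by
    rw [Real.div_rpow (by positivity) (by positivity), Real.mul_rpow hYl.le hE.le,
      Real.mul_rpow hcn.le (by positivity), div_eq_mul_inv, mul_inv, ← Real.rpow_neg hcn.le,
      ← Real.rpow_neg (by positivity), ← Real.rpow_natCast j' 2, ← Real.rpow_mul hjn.le]
    norm_num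
  have e3 : (1 / (E * j')) ^ ((4 : ℝ) / 3) = E ^ (-(4 : ℝ) / 3) * j' ^ (-(4 : ℝ) / 3) := by
    rw [Real.div_rpow zero_le_one (by positivity), Real.mul_rpow hE.le hjn.le, div_eq_mul_inv,
      mul_inv, ← Real.rpow_neg hE.le, ← Real.rpow_neg hjn.le, Real.one_rpow, one_mul]
    norm_num
  have e4 : E ^ (-(2 : ℝ) / 3) * E ^ (-(4 : ℝ) / 3) = E ^ (-(2 : ℝ)) := by
    rw [← Real.rpow_add hE]; norm_num
  have e5 : j' ^ ((4 : ℝ) / 3) * j' ^ (-(4 : ℝ) / 3) = 1 := by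
    rw [← Real.rpow_add hjn]; norm_num
  rw [e2, e3]
  calc Yl ^ (-(2 : ℝ) / 3) * E ^ (-(2 : ℝ))
      = 1 * (Yl ^ (-(2 : ℝ) / 3) * E ^ (-(2 : ℝ))) := by ring
    _ ≤ c' ^ ((2 : ℝ) / 3) * (Yl ^ (-(2 : ℝ) / 3) * E ^ (-(2 : ℝ))) := by gcongr
    _ = Yl ^ (-(2 : ℝ) / 3) * E ^ (-(2 : ℝ) / 3) * (c' ^ ((2 : ℝ) / 3) * j' ^ ((4 : ℝ) / 3)) *
        (E ^ (-(4 : ℝ) / 3) * j' ^ (-(4 : ℝ) / 3)) := by
        rw [← e4]
        calc _ = Yl ^ (-(2 : ℝ) / 3) * E ^ (-(2 : ℝ) / 3) * c' ^ ((2 : ℝ) / 3) *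
              E ^ (-(4 : ℝ) / 3) * 1 := by ring
          _ = _ := by rw [← e5]; ring

set_option maxHeartbeats 1000000 in
/-- **the polar cells** (premise of `Qs_cellsJ`) -/
theorem mtx_cell {ε : ℝ} (hε : 0 < ε) (J Aw : ℕ) (hJA : J + 2 ≤ Aw) {R : ℝ} (hR : 0 ≤ R) :
    ∃ C : ℝ, 0 ≤ C ∧
    ∀ (Y K X M N1 G₀ Q : ℝ) (x : Eis → ℂ) (δ : Eis), 1 ≤ Y → 0 < K → 0 < X → 0 ≤ M →
    (∀ n, x n ≠ 0 → n ∈ S Y) → (∀ n, x n ≠ 0 → |Real.log (nm n) - Real.log X| ≤ R) →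
    IsPrim δ →
    (∀ h ∈ S Y, ∀ B V : ℝ, 1 ≤ B → B ≤ Y → 1 ≤ V → V ≤ N1 / (nm h : ℝ) ^ 2 → ∀ t : ℝ,
      E1551.JB Y x (fun U => G₀ < nm (h * U)) h B V t ≤
        M / (nm h : ℝ) ^ 2 * E1551.yv K X h V * (1 + |t|) ^ J) →
    ∀ (Cw η : ℝ) (φ : ℝ → ℝ), 0 ≤ Cw → 0 < η → η ≤ 1 → WK Cw η Aw φ → ∀ p ∈ T9, ∀ t₀ : ℝ,
    ∀ e : Eis, IsPrim e → ∀ Yl B0 X' : ℝ, 0 < Yl → 0 < B0 → 2 * G₀ ≤ B0 → 0 ≤ X' → X' ≤ Y →
    Y ≤ Q → ∀ y ∈ prs δ, ∀ A ∈ pdiv y.1,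
    9 * (Yl * (nm (e * A) : ℝ) ^ 3) * (nm δ : ℝ) ^ 2 ≤ N1 →
    9 * (Yl * (nm (e * A) : ℝ) ^ 3) ≤ Q → y.2 = 1 →
    ∀ c ∈ C4, ∀ l u, (∃ B ∈ bk (X' / nm y.1) u, B0 < nm B) →
    Real.exp (-(4 / 3) * ((u : ℝ) / 3)) * ∑ j₂ ∈ Tb Yl e A c l, ∑ B ∈ bk (X' / nm y.1) u,
      ∑ r ∈ (S (RR Yl e A c j₂)).filter (fun r => IsCoprime r y.2 ∧ RR Yl e A c j₂ / 2 < nm r),
        ‖MT (ag (fun n => bt φ x p n * pw t₀ (nm n)) δ y.1) (e * A * j₂) B c r‖ ^ 2 ≤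
      C * Cw ^ 2 * (η⁻¹) ^ J * Q ^ ε * (1 + |t₀|) ^ J *
        (Yl ^ ((1 : ℝ) / 3) * nm (e * A) * (K ^ ((1 : ℝ) / 3) / X) * (M / (nm δ * B0))) := by
  obtain ⟨C, hC, hm⟩ := mtx hε J Aw hJA hR
  refine ⟨4 * C, by positivity, ?_⟩
  intro Y K X M N1 G₀ Q x δ hY hK hX hM hx hw hδ hL Cw η φ hCw hη hη1 hφ p hp t₀ e he Yl B0 X'
    hYl hB0 hGB hX'0 hX'Y hYQ y hy A hA hN1 hVQ h1 c hc l u hex
  obtain ⟨hy1, hy2, hy3⟩ := (mem_prs hδ).mp hy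
  obtain ⟨hAp, hAd⟩ := (mem_pdiv hy1.ne_zero).mp hA
  have hy1δ : y.1 = δ := by rw [← hy3, h1, mul_one]
  have hE0 : e * A ≠ 0 := mul_ne_zero he.ne_zero hAp.ne_zero
  have hE : (0 : ℝ) < nm (e * A) := by exact_mod_cast nm_pos.2 hE0
  have hδ1 : (1 : ℝ) ≤ nm δ := by exact_mod_cast nm_pos.2 hδ.ne_zero
  have hy11 : (1 : ℝ) ≤ nm y.1 := by exact_mod_cast nm_pos.2 hy1.ne_zero
  have hQ0 : 0 ≤ Q := by linarith
  have hXb0 : 0 ≤ X' / nm y.1 := by positivity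
  have hXbY : X' / nm y.1 ≤ Y := (div_le_self hX'0 hy11).trans hX'Y
  set Xb := X' / (nm y.1 : ℝ) with hXb
  have h2 := hm Y K X M N1 G₀ Q x δ hY hK hX hM hx hw hδ hL Cw η φ hCw hη hη1 hφ p hp t₀ e A he hAp
    Yl 1 (B0 / 2) Xb (Real.sqrt Yl) hYl zero_le_one (Real.sqrt_nonneg _) hN1 hYQ hVQ
    (by positivity) (by linarith) hXb0 hXbY
  -- the block lies above `B0 / 2`
  have hblk : ∀ B ∈ bk Xb u, B0 / 2 < nm B ∧ IsPrim B ∧ B ∈ S Xb ∧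
      Real.exp (-(4 / 3) * ((u : ℝ) / 3)) ≤ 2 * (nm B : ℝ) ^ (-(4 : ℝ) / 3) := by
    intro B hB
    obtain ⟨B1, hB1, hB1'⟩ := hex
    have hBp := ((mem_bk hXb0).mp hB).1
    have hB1p := ((mem_bk hXb0).mp hB1).1
    have hB0' : (0 : ℝ) < nm B := by exact_mod_cast nm_pos.2 hBp.2.1.ne_zero
    have hB10 : (0 : ℝ) < nm B1 := by exact_mod_cast nm_pos.2 hB1p.2.1.ne_zero
    have g1 := bk_lo hXb0 hB
    have g2 := bk_hi hXb0 hB1
    have g3 := bk_hi hXb0 hB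
    refine ⟨?_, hBp.2.1, (mem_S hXb0).mpr hBp, ?_⟩
    · have g4 : Real.log (nm B1) ≤ Real.log (nm B) + 1 / 3 := by linarith
      have g5 : (nm B1 : ℝ) ≤ nm B * Real.exp (1 / 3) := by
        calc (nm B1 : ℝ) = Real.exp (Real.log (nm B1)) := (Real.exp_log hB10).symm
          _ ≤ Real.exp (Real.log (nm B) + 1 / 3) := Real.exp_le_exp.mpr g4
          _ = nm B * Real.exp (1 / 3) := by rw [Real.exp_add, Real.exp_log hB0']
      have g6 : Real.exp (1 / 3) ≤ 2 := by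
        have g7 : Real.exp (1 / 3) ≤ Real.exp (Real.log 2) := Real.exp_le_exp.mpr (by
          have := Real.log_two_gt_d9; linarith)
        rwa [Real.exp_log (by norm_num)] at g7
      nlinarith
    · have g4 : (nm B : ℝ) ^ (-(4 : ℝ) / 3) = Real.exp (-(4 / 3) * Real.log (nm B)) := by
        rw [Real.rpow_def_of_pos hB0']; congr 1; ring
      have g5 : 2 * Real.exp (-(4 / 3) * Real.log (nm B)) =
          Real.exp (Real.log 2 + -(4 / 3) * Real.log (nm B)) := by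
        rw [Real.exp_add, Real.exp_log (by norm_num)]
      rw [g4, g5]
      apply Real.exp_le_exp.mpr
      have := Real.log_two_gt_d9
      linarith
  set Tr : Eis → Eis → ℝ := fun j₂ B =>
    ∑ r ∈ (S (RR Yl e A c j₂)).filter (fun r => IsCoprime r y.2 ∧ RR Yl e A c j₂ / 2 < nm r),
        ‖MT (ag (fun n => bt φ x p n * pw t₀ (nm n)) δ y.1) (e * A * j₂) B c r‖ ^ 2 with hTr
  have hTr0 : ∀ j₂ B, 0 ≤ Tr j₂ B := fun _ _ => Finset.sum_nonneg fun _ _ => by positivity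
  set w0 := Yl ^ (-(2 : ℝ) / 3) * (nm (e * A) : ℝ) ^ (-(2 : ℝ)) with hw0
  have hw00 : 0 < w0 := by positivity
  have h3 : w0 * (Real.exp (-(4 / 3) * ((u : ℝ) / 3)) * ∑ j₂ ∈ Tb Yl e A c l,
      ∑ B ∈ bk Xb u, Tr j₂ B) ≤ 2 * ∑ j ∈ S (Real.sqrt Yl), RR Yl e A c j ^ (-(2 : ℝ) / 3) *
        (1 / nm (e * A * j)) ^ ((4 : ℝ) / 3) *
        ∑ B ∈ (S Xb).filter (fun B => B0 / 2 < nm B), (nm B : ℝ) ^ (-(4 : ℝ) / 3) * Tr j B := by
    have h4 : ∀ j ∈ Tb Yl e A c l, w0 * (Real.exp (-(4 / 3) * ((u : ℝ) / 3)) *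
        ∑ B ∈ bk Xb u, Tr j B) ≤ 2 * (RR Yl e A c j ^ (-(2 : ℝ) / 3) *
        (1 / nm (e * A * j)) ^ ((4 : ℝ) / 3) *
        ∑ B ∈ (S Xb).filter (fun B => B0 / 2 < nm B), (nm B : ℝ) ^ (-(4 : ℝ) / 3) * Tr j B) := by
      intro j hj
      have hjp := ((mem_bk (Real.sqrt_nonneg Yl)).mp (mem_Tb.mp hj).1).1.2.1
      have h5 := wt_ge hYl hE0 hc hjp.ne_zero
      have h6 : Real.exp (-(4 / 3) * ((u : ℝ) / 3)) * ∑ B ∈ bk Xb u, Tr j B ≤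
          2 * ∑ B ∈ (S Xb).filter (fun B => B0 / 2 < nm B),
            (nm B : ℝ) ^ (-(4 : ℝ) / 3) * Tr j B := by
        rw [Finset.mul_sum, Finset.mul_sum]
        have h7 : ∀ B ∈ bk Xb u, Real.exp (-(4 / 3) * ((u : ℝ) / 3)) * Tr j B ≤
            2 * ((nm B : ℝ) ^ (-(4 : ℝ) / 3) * Tr j B) := by
          intro B hB
          have := (hblk B hB).2.2.2
          calc _ ≤ (2 * (nm B : ℝ) ^ (-(4 : ℝ) / 3)) * Tr j B :=
                mul_le_mul_of_nonneg_right this (hTr0 j B)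
            _ = _ := by ring
        refine (Finset.sum_le_sum h7).trans (Finset.sum_le_sum_of_subset_of_nonneg ?_ ?_)
        · intro B hB
          obtain ⟨g1, g2, g3, g4⟩ := hblk B hB
          exact Finset.mem_filter.mpr ⟨g3, g1⟩
        · intro B _ _
          have := hTr0 j B
          positivity
      calc _ ≤ (RR Yl e A c j ^ (-(2 : ℝ) / 3) * (1 / nm (e * A * j)) ^ ((4 : ℝ) / 3)) *
            (2 * ∑ B ∈ (S Xb).filter (fun B => B0 / 2 < nm B),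
              (nm B : ℝ) ^ (-(4 : ℝ) / 3) * Tr j B) := by
            refine mul_le_mul h5 h6 ?_ (hw00.le.trans h5)
            exact mul_nonneg (Real.exp_nonneg _) (Finset.sum_nonneg fun _ _ => hTr0 _ _)
        _ = _ := by ring
    rw [Finset.mul_sum, Finset.mul_sum, Finset.mul_sum]
    refine (Finset.sum_le_sum h4).trans (Finset.sum_le_sum_of_subset_of_nonneg ?_ ?_)
    · intro j hj
      have := ((mem_bk (Real.sqrt_nonneg Yl)).mp (mem_Tb.mp hj).1).1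
      exact (mem_S (Real.sqrt_nonneg Yl)).mpr this
    · intro j _ _
      have g1 := RR_nonneg hYl e A c j
      have g2 : 0 ≤ ∑ B ∈ (S Xb).filter (fun B => B0 / 2 < nm B),
          (nm B : ℝ) ^ (-(4 : ℝ) / 3) * Tr j B :=
        Finset.sum_nonneg fun B _ => mul_nonneg (by positivity) (hTr0 j B)
      positivity
  have h4 : ∑ j ∈ S (Real.sqrt Yl), RR Yl e A c j ^ (-(2 : ℝ) / 3) *
        (1 / nm (e * A * j)) ^ ((4 : ℝ) / 3) *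
        ∑ B ∈ (S Xb).filter (fun B => B0 / 2 < nm B), (nm B : ℝ) ^ (-(4 : ℝ) / 3) * Tr j B ≤
      C * Cw ^ 2 * (η⁻¹) ^ J * Q ^ ε * (1 + |t₀|) ^ J *
        (Yl ^ (-(1 : ℝ) / 3) * 1 ^ ((4 : ℝ) / 3) / nm (e * A) * (K ^ ((1 : ℝ) / 3) / X) *
          (M / (nm δ * (B0 / 2)))) := by
    refine le_trans ?_ h2
    have e1 : ∀ c' j B, ∑ r ∈ (S (RR Yl e A c' j)).filter
        (fun r => IsCoprime r 1 ∧ RR Yl e A c' j / 2 < nm r),
        ‖MT (ag (fun n => bt φ x p n * pw t₀ (nm n)) δ δ) (e * A * j) B c' r‖ ^ 2 =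
        ∑ r ∈ (S (RR Yl e A c' j)).filter
        (fun r => IsCoprime r y.2 ∧ RR Yl e A c' j / 2 < nm r),
        ‖MT (ag (fun n => bt φ x p n * pw t₀ (nm n)) δ y.1) (e * A * j) B c' r‖ ^ 2 := by
      intro c' j B
      rw [h1, hy1δ]
    simp_rw [e1]
    refine Finset.single_le_sum (f := fun c => ∑ j ∈ S (Real.sqrt Yl),
      RR Yl e A c j ^ (-(2 : ℝ) / 3) * (1 / nm (e * A * j)) ^ ((4 : ℝ) / 3) *
        ∑ B ∈ (S Xb).filter (fun B => B0 / 2 < nm B), (nm B : ℝ) ^ (-(4 : ℝ) / 3) *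
          ∑ r ∈ (S (RR Yl e A c j)).filter
            (fun r => IsCoprime r y.2 ∧ RR Yl e A c j / 2 < nm r),
            ‖MT (ag (fun n => bt φ x p n * pw t₀ (nm n)) δ y.1) (e * A * j) B c r‖ ^ 2) ?_ hc
    intro c' _
    refine Finset.sum_nonneg fun j _ => ?_
    have g1 := RR_nonneg hYl e A c' j
    exact mul_nonneg (mul_nonneg (by positivity) (by positivity))
      (Finset.sum_nonneg fun B _ => mul_nonneg (by positivity)
        (Finset.sum_nonneg fun _ _ => by positivity))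
  have h5 := h3.trans (mul_le_mul_of_nonneg_left h4 (by norm_num : (0 : ℝ) ≤ 2))
  have h6 : w0 * (4 * C * Cw ^ 2 * (η⁻¹) ^ J * Q ^ ε * (1 + |t₀|) ^ J *
        (Yl ^ ((1 : ℝ) / 3) * nm (e * A) * (K ^ ((1 : ℝ) / 3) / X) * (M / (nm δ * B0)))) =
      2 * (C * Cw ^ 2 * (η⁻¹) ^ J * Q ^ ε * (1 + |t₀|) ^ J *
        (Yl ^ (-(1 : ℝ) / 3) * 1 ^ ((4 : ℝ) / 3) / nm (e * A) * (K ^ ((1 : ℝ) / 3) / X) *
          (M / (nm δ * (B0 / 2))))) := by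
    have a1 : Yl ^ (-(2 : ℝ) / 3) * Yl ^ ((1 : ℝ) / 3) = Yl ^ (-(1 : ℝ) / 3) := by
      rw [← Real.rpow_add hYl]; norm_num
    have a2 : (nm (e * A) : ℝ) ^ (-(2 : ℝ)) * nm (e * A) = (nm (e * A) : ℝ)⁻¹ := by
      rw [Real.rpow_neg hE.le, Real.rpow_two]
      field_simp
    rw [Real.one_rpow, mul_one, hw0]
    calc _ = 4 * C * Cw ^ 2 * (η⁻¹) ^ J * Q ^ ε * (1 + |t₀|) ^ J *
        ((Yl ^ (-(2 : ℝ) / 3) * Yl ^ ((1 : ℝ) / 3)) *
          ((nm (e * A) : ℝ) ^ (-(2 : ℝ)) * nm (e * A)) * (K ^ ((1 : ℝ) / 3) / X) *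
          (M / (nm δ * B0))) := by ring
      _ = _ := by
        rw [a1, a2]
        field_simp
        ring
  rw [← h6] at h5
  exact le_of_mul_le_mul_left h5 hw00

end Crest.Agent.R017.MTX241
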