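import Crest.Agent.R017.MTX5_241

/-!
# Row 17, exceptional class, T.7, leaf E2-d (helper241): the polar direct part, part 6

* `red` : the reduction of the polar direct part to `Σ_B (nm B)⁻¹ Σ_k tgf x (δ B) (k B) t`
  (all frequencies `k` up to `9 Yl (nm (e A))³`), for an arbitrary set of `B`
* `red_PJ`, `red_cell` : in the form of `QsND_le` (helper440) and of `Qs_cellsJ` (helper401)
-/

set_option autoImplicit false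

noncomputable section

open MeasureTheory Finset Filter
open scoped ComplexConjugate Classical ContDiff

namespace Crest.Agent.R017.MTX241

open Crest.Agent.R012
open Eis CharSum852 Gauss880 LS2 CR2 MelSep811
open Crest.Agent.R012.Weight600 (osc norm_osc ker pw)
open Crest.Agent.R012.Char766 (sy_mul_left)
open Crest.Agent.R012.Mob705 (pdiv mem_pdiv)
open Crest.Agent.R017.CM106 (CS TG FS sub)
open Crest.Agent.R017.E2440 (MT ag C4 mem_C4 RR PJ prs mem_prs)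
open Crest.Agent.R017.PX764 (Gh n6 Gh_mul n6_mul)
open Crest.Agent.R017.MoF106 (bk mem_bk bk_lo bk_hi)
open Crest.Agent.R017.QsJ401 (Tb mem_Tb)
open Crest.Agent.R017.Win813
open Crest.Agent.R017.RGw813 (PG PG_win PG_bt tw2 bt T9 mem_T9 FS_bt)

set_option maxHeartbeats 1600000 in
/-- **the reduction**: the polar direct part of an arbitrary sequence over a set `T` of `B`, from
the moments over all frequencies -/
theorem red {ε : ℝ} (hε : 0 < ε) (J Aw : ℕ) (hJA : J + 2 ≤ Aw) {R : ℝ} (hR : 0 ≤ R) :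
    ∃ C : ℝ, 0 ≤ C ∧
    ∀ (Y X Q M₀ : ℝ) (x : Eis → ℂ) (δ : Eis), 0 ≤ Y → 0 < X → 0 ≤ M₀ → 1 ≤ Q →
    (∀ n, x n ≠ 0 → n ∈ S Y) → (∀ n, x n ≠ 0 → |Real.log (nm n) - Real.log X| ≤ R) →
    IsPrim δ →
    ∀ (Cw η : ℝ) (φ : ℝ → ℝ), 0 ≤ Cw → 0 < η → η ≤ 1 → WK Cw η Aw φ → ∀ p ∈ T9, ∀ t₀ : ℝ,
    ∀ e A : Eis, IsPrim e → IsPrim A → ∀ (Yl K' J' : ℝ) (T : Finset Eis), 0 < Yl → 0 ≤ K' →
    0 ≤ J' → (∀ B ∈ T, IsPrim B) → 9 * (Yl * (nm (e * A) : ℝ) ^ 3) ≤ Q →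
    (∀ t : ℝ, ∑ B ∈ T, (nm B : ℝ)⁻¹ * ∑ k ∈ bl (9 * (Yl * (nm (e * A) : ℝ) ^ 3)),
      tgf x (δ * B) (k * B) t ≤ M₀ * (1 + |t|) ^ J) →
    ∑ c ∈ C4, ∑ j ∈ S J', RR Yl e A c j ^ (-(2 : ℝ) / 3) * (K' / nm (e * A * j)) ^ ((4 : ℝ) / 3) *
        ∑ B ∈ T, (nm B : ℝ) ^ (-(4 : ℝ) / 3) *
          ∑ r ∈ (S (RR Yl e A c j)).filter (fun r => IsCoprime r 1 ∧ RR Yl e A c j / 2 < nm r),
            ‖MT (ag (fun n => bt φ x p n * pw t₀ (nm n)) δ δ) (e * A * j) B c r‖ ^ 2 ≤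
      C * Cw ^ 2 * (η⁻¹) ^ J * Q ^ ε * (1 + |t₀|) ^ J *
        ((Yl ^ (-(2 : ℝ) / 3) * (nm (e * A) : ℝ) ^ (-(2 : ℝ)) * K' ^ ((4 : ℝ) / 3)) *
          ((nm δ : ℝ) ^ ((1 : ℝ) / 3) * X ^ (-(1 : ℝ) / 3)) * M₀) := by
  obtain ⟨C₁, hC₁, hψ⟩ := wk_smooth (g6_cd R hR) (g6_cs R hR) (J + 2)
  obtain ⟨C₂, hC₂, hτ⟩ := Div277.tau_le_rpow hε
  have hiA1 := iA_nonneg (J + 2)
  have hiA2 := iA_nonneg 2
  have hiAw := iA_nonneg Aw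
  have hC₂0 : 0 ≤ C₂ := by linarith
  refine ⟨20 * C₂ * (C₁ ^ 2 * iA (J + 2) * iA 2) * (iA Aw * iA 2), by positivity, ?_⟩
  intro Y X Q M₀ x δ hY0 hX hM₀0 hQ1 hx hw hδ Cw η φ hCw hη hη1 hφ p hp t₀ e A he hA
    Yl K' J' T hYl hK' hJ' hTm hVQ hall
  have hQ0 : 0 < Q := by linarith
  have hFS : FS x := RGw813.FS_of_S hY0 hx
  have hE0 : e * A ≠ 0 := mul_ne_zero he.ne_zero hA.ne_zero
  have hE : (0 : ℝ) < nm (e * A) := by exact_mod_cast nm_pos.2 hE0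
  have hδ0 : (0 : ℝ) < nm δ := by exact_mod_cast nm_pos.2 hδ.ne_zero
  set V₁ := Yl * (nm (e * A) : ℝ) ^ 3 with hV₁
  have hV₁0 : 0 < V₁ := by positivity
  set ψ : ℝ → ℝ := fun u => g6 R hR (u - Real.log X) with hψd
  set β : Eis → ℂ := wn ψ (bt φ x p) with hβ
  set W0 := Yl ^ (-(2 : ℝ) / 3) * (nm (e * A) : ℝ) ^ (-(2 : ℝ)) * K' ^ ((4 : ℝ) / 3) with hW0
  have hW00 : 0 ≤ W0 := by positivity
  have hα : ∀ n, bt φ x p n * pw t₀ (nm n) ≠ 0 → n ∈ S Y := fun n hn =>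
    hx n (wn_ne (RGw813.tw2_ne (left_ne_zero_of_mul hn))).1
  -- Step 1: one term
  have hterm : ∀ c ∈ C4, ∀ j ∈ S J', ∀ B ∈ T, ∀ r : Eis, (nm B : ℝ) ^ (-(4 : ℝ) / 3) *
      ‖MT (ag (fun n => bt φ x p n * pw t₀ (nm n)) δ δ) (e * A * j) B c r‖ ^ 2 ≤
      (nm δ : ℝ) ^ ((1 : ℝ) / 3) * X ^ (-(1 : ℝ) / 3) * ((nm B : ℝ)⁻¹ *
        tgf β (δ * B) (c * r * (e * A * j) ^ 2 * B) t₀) := by
    intro c _ j _ B hB r
    have hBp := hTm B hB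
    have hB0' : (0 : ℝ) < nm B := by exact_mod_cast nm_pos.2 hBp.ne_zero
    have h1 := MT_sq_le hY0 hα hδ hBp (e * A * j) c r
    rw [tgf_n6 hR hX hFS hw φ p t₀ (mul_ne_zero hδ.ne_zero hBp.ne_zero)] at h1
    have e1 : ((nm (δ * B) : ℕ) : ℝ) ^ ((1 : ℝ) / 3) =
        (nm δ : ℝ) ^ ((1 : ℝ) / 3) * (nm B : ℝ) ^ ((1 : ℝ) / 3) := by
      rw [nm_mul]; push_cast; rw [Real.mul_rpow hδ0.le hB0'.le]
    have e2 : (nm B : ℝ) ^ (-(4 : ℝ) / 3) * (nm B : ℝ) ^ ((1 : ℝ) / 3) = (nm B : ℝ)⁻¹ := by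
      rw [← Real.rpow_add hB0', ← Real.rpow_neg_one]; norm_num
    rw [e1, ← mul_assoc (c * r)] at h1
    calc _ ≤ (nm B : ℝ) ^ (-(4 : ℝ) / 3) * ((nm δ : ℝ) ^ ((1 : ℝ) / 3) *
          (nm B : ℝ) ^ ((1 : ℝ) / 3) * (X ^ (-(1 : ℝ) / 3) *
            tgf β (δ * B) (c * r * (e * A * j) ^ 2 * B) t₀)) :=
          mul_le_mul_of_nonneg_left h1 (by positivity)
      _ = (nm δ : ℝ) ^ ((1 : ℝ) / 3) * X ^ (-(1 : ℝ) / 3) *
          (((nm B : ℝ) ^ (-(4 : ℝ) / 3) * (nm B : ℝ) ^ ((1 : ℝ) / 3)) *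
            tgf β (δ * B) (c * r * (e * A * j) ^ 2 * B) t₀) := by ring
      _ = _ := by rw [e2]
  -- Step 2: the merged functional
  set Pg : (Eis → ℂ) → ℝ → ℝ := PG (T ×ˢ bl V₁) (fun y => (nm y.1 : ℝ)⁻¹) (fun y => δ * y.1)
    (fun y => y.2 * y.1) with hPg
  have hPgd : ∀ (z : Eis → ℂ) (t : ℝ), Pg z t =
      ∑ B ∈ T, (nm B : ℝ)⁻¹ * ∑ k ∈ bl V₁, tgf z (δ * B) (k * B) t := by
    intro z t
    rw [hPg]
    unfold RGw813.PG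
    rw [Finset.sum_product]
    exact Finset.sum_congr rfl fun B _ => by rw [Finset.mul_sum]
  have hstep2 : ∑ c ∈ C4, ∑ j ∈ S J', RR Yl e A c j ^ (-(2 : ℝ) / 3) *
        (K' / nm (e * A * j)) ^ ((4 : ℝ) / 3) *
        ∑ B ∈ T, (nm B : ℝ) ^ (-(4 : ℝ) / 3) *
          ∑ r ∈ (S (RR Yl e A c j)).filter (fun r => IsCoprime r 1 ∧ RR Yl e A c j / 2 < nm r),
            ‖MT (ag (fun n => bt φ x p n * pw t₀ (nm n)) δ δ) (e * A * j) B c r‖ ^ 2 ≤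
      5 * W0 * ((nm δ : ℝ) ^ ((1 : ℝ) / 3) * X ^ (-(1 : ℝ) / 3)) *
        (4 * (C₂ * Q ^ ε) * Pg β t₀) := by
    have h1 : ∀ c ∈ C4, ∀ j ∈ S J', RR Yl e A c j ^ (-(2 : ℝ) / 3) *
        (K' / nm (e * A * j)) ^ ((4 : ℝ) / 3) *
        ∑ B ∈ T, (nm B : ℝ) ^ (-(4 : ℝ) / 3) *
          ∑ r ∈ (S (RR Yl e A c j)).filter (fun r => IsCoprime r 1 ∧ RR Yl e A c j / 2 < nm r),
            ‖MT (ag (fun n => bt φ x p n * pw t₀ (nm n)) δ δ) (e * A * j) B c r‖ ^ 2 ≤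
        5 * W0 * ((nm δ : ℝ) ^ ((1 : ℝ) / 3) * X ^ (-(1 : ℝ) / 3)) * ∑ B ∈ T, (nm B : ℝ)⁻¹ *
          ∑ r ∈ (S (RR Yl e A c j)).filter (fun r => IsCoprime r 1 ∧ RR Yl e A c j / 2 < nm r),
            tgf β (δ * B) (c * r * (e * A * j) ^ 2 * B) t₀ := by
      intro c hc j hj
      have hj0 := ((mem_S hJ').mp hj).2.1.ne_zero
      have h2 := wt_le (K' := K') hYl hK' hE0 hc hj0
      have h3 : ∑ B ∈ T, (nm B : ℝ) ^ (-(4 : ℝ) / 3) *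
          ∑ r ∈ (S (RR Yl e A c j)).filter (fun r => IsCoprime r 1 ∧ RR Yl e A c j / 2 < nm r),
            ‖MT (ag (fun n => bt φ x p n * pw t₀ (nm n)) δ δ) (e * A * j) B c r‖ ^ 2 ≤
          (nm δ : ℝ) ^ ((1 : ℝ) / 3) * X ^ (-(1 : ℝ) / 3) * ∑ B ∈ T, (nm B : ℝ)⁻¹ *
          ∑ r ∈ (S (RR Yl e A c j)).filter (fun r => IsCoprime r 1 ∧ RR Yl e A c j / 2 < nm r),
            tgf β (δ * B) (c * r * (e * A * j) ^ 2 * B) t₀ := by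
        rw [Finset.mul_sum]
        refine Finset.sum_le_sum fun B hB => ?_
        rw [Finset.mul_sum, Finset.mul_sum, Finset.mul_sum]
        exact Finset.sum_le_sum fun r _ => hterm c hc j hj B hB r
      have h4 : 0 ≤ ∑ B ∈ T, (nm B : ℝ)⁻¹ *
          ∑ r ∈ (S (RR Yl e A c j)).filter (fun r => IsCoprime r 1 ∧ RR Yl e A c j / 2 < nm r),
            tgf β (δ * B) (c * r * (e * A * j) ^ 2 * B) t₀ :=
        Finset.sum_nonneg fun _ _ => mul_nonneg (by positivity)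
          (Finset.sum_nonneg fun _ _ => tgf_nonneg _ _ _ _)
      rw [mul_assoc (5 * W0)]
      refine mul_le_mul h2 h3 ?_ (by positivity)
      exact Finset.sum_nonneg fun _ _ => mul_nonneg (by positivity)
          (Finset.sum_nonneg fun _ _ => by positivity)
    refine (Finset.sum_le_sum fun c hc => Finset.sum_le_sum fun j hj => h1 c hc j hj).trans ?_
    simp_rw [← Finset.mul_sum]
    refine mul_le_mul_of_nonneg_left ?_ (by positivity)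
    have h2 : ∑ c ∈ C4, ∑ j ∈ S J', ∑ B ∈ T, (nm B : ℝ)⁻¹ *
          ∑ r ∈ (S (RR Yl e A c j)).filter (fun r => IsCoprime r 1 ∧ RR Yl e A c j / 2 < nm r),
            tgf β (δ * B) (c * r * (e * A * j) ^ 2 * B) t₀ =
        ∑ B ∈ T, (nm B : ℝ)⁻¹ * ∑ c ∈ C4, ∑ j ∈ S J',
          ∑ r ∈ (S (RR Yl e A c j)).filter (fun r => IsCoprime r 1 ∧ RR Yl e A c j / 2 < nm r),
            tgf β (δ * B) (c * r * (e * A * j) ^ 2 * B) t₀ := by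
      simp_rw [Finset.mul_sum]
      symm
      rw [Finset.sum_comm]
      refine Finset.sum_congr rfl fun c _ => ?_
      rw [Finset.sum_comm]
    rw [h2, hPgd, Finset.mul_sum]
    refine Finset.sum_le_sum fun B _ => ?_
    have h3 := merge hYl hJ' he hA (F := fun k => tgf β (δ * B) (k * B) t₀)
      (fun _ => tgf_nonneg _ _ _ _)
    have h4 : ∑ k ∈ bl V₁, (Div277.tau k : ℝ) * tgf β (δ * B) (k * B) t₀ ≤
        C₂ * Q ^ ε * ∑ k ∈ bl V₁, tgf β (δ * B) (k * B) t₀ := by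
      rw [Finset.mul_sum]
      refine Finset.sum_le_sum fun k hk => ?_
      obtain ⟨hk0, hkV⟩ := (mem_bl hV₁0.le).mp hk
      refine mul_le_mul_of_nonneg_right ((hτ k hk0).trans ?_) (tgf_nonneg _ _ _ _)
      refine mul_le_mul_of_nonneg_left ?_ hC₂0
      exact Real.rpow_le_rpow (by positivity) (by linarith) hε.le
    calc _ ≤ (nm B : ℝ)⁻¹ * (4 * (C₂ * Q ^ ε *
          ∑ k ∈ bl V₁, tgf β (δ * B) (k * B) t₀)) :=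
          mul_le_mul_of_nonneg_left (h3.trans (by gcongr)) (by positivity)
      _ = _ := by ring
  -- Step 3: the windows
  have hg : ∀ y ∈ T ×ˢ bl V₁, δ * y.1 ≠ 0 := fun y hy =>
    mul_ne_zero hδ.ne_zero (hTm _ (Finset.mem_product.mp hy).1).ne_zero
  have hWn : ∀ y ∈ T ×ˢ bl V₁, (0 : ℝ) ≤ (nm y.1 : ℝ)⁻¹ := fun y _ => by positivity
  have h0 : ∀ t, Pg (tw2 p.1 p.2 x) t ≤ M₀ * (1 + |t|) ^ J := by
    intro t
    rw [hPgd]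
    refine le_trans ?_ (hall t)
    refine Finset.sum_le_sum fun B hB => mul_le_mul_of_nonneg_left ?_ (by positivity)
    have hgB : IsPrim (δ * B) := hδ.mul (hTm B hB)
    set κ := w ^ p.1 * lam ^ p.2 with hκ
    have hκ0 : κ ≠ 0 := mul_ne_zero (pow_ne_zero _ isUnit_w.ne_zero) (pow_ne_zero _ lam_ne_zero)
    have hκ9 : (nm κ : ℝ) ≤ 9 := by
      have h2 := (mem_T9.1 hp).2
      have e1 : nm κ = 3 ^ p.2 := by
        rw [hκ, nm_mul, nm_pow, nm_pow, nm_w, nm_lam, one_pow, one_mul]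
      rw [e1]
      have h3 : 3 ^ p.2 ≤ 3 ^ 2 := Nat.pow_le_pow_right (by norm_num) (by omega)
      exact_mod_cast h3
    have e2 : ∑ k ∈ bl V₁, tgf (tw2 p.1 p.2 x) (δ * B) (k * B) t =
        ∑ k ∈ (bl V₁).image (fun k => κ * k), tgf x (δ * B) (k * B) t := by
      rw [Finset.sum_image fun a _ b _ hab => mul_left_cancel₀ hκ0 hab]
      exact Finset.sum_congr rfl fun k _ => by
        rw [tgf_kw hFS _ _ hgB, mul_assoc κ k B]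
    rw [e2]
    refine Finset.sum_le_sum_of_subset_of_nonneg ?_ fun _ _ _ => tgf_nonneg _ _ _ _
    intro k hk
    obtain ⟨k', hk', rfl⟩ := Finset.mem_image.mp hk
    obtain ⟨h3, h4⟩ := (mem_bl hV₁0.le).mp hk'
    rw [mem_bl (by positivity)]
    refine ⟨mul_ne_zero hκ0 h3, ?_⟩
    rw [nm_mul]
    push_cast
    exact mul_le_mul hκ9 h4 (by positivity) (by norm_num)
  have h1 := PG_bt hCw hη hη1 hJA hφ hFS hg hWn hM₀0 p h0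
  have h2 := PG_win hC₁ one_pos le_rfl le_rfl (hψ (Real.log X)) (FS_bt hFS φ p) hg hWn
    (M := Cw ^ 2 * iA Aw * iA 2 * (η⁻¹) ^ J * M₀) (by positivity) h1 t₀
  have h3 : Pg β t₀ ≤ C₁ ^ 2 * iA (J + 2) * iA 2 *
      (Cw ^ 2 * iA Aw * iA 2 * (η⁻¹) ^ J * M₀) * (1 + |t₀|) ^ J := by
    rw [inv_one, one_pow, mul_one] at h2
    exact h2
  refine hstep2.trans ?_
  calc 5 * W0 * ((nm δ : ℝ) ^ ((1 : ℝ) / 3) * X ^ (-(1 : ℝ) / 3)) *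
        (4 * (C₂ * Q ^ ε) * Pg β t₀)
      ≤ 5 * W0 * ((nm δ : ℝ) ^ ((1 : ℝ) / 3) * X ^ (-(1 : ℝ) / 3)) *
        (4 * (C₂ * Q ^ ε) * (C₁ ^ 2 * iA (J + 2) * iA 2 *
      (Cw ^ 2 * iA Aw * iA 2 * (η⁻¹) ^ J * M₀) * (1 + |t₀|) ^ J)) :=
        mul_le_mul_of_nonneg_left (mul_le_mul_of_nonneg_left h3 (by positivity)) (by positivity)
    _ = _ := by rw [hW0]; ring

/-- **the reduction, in the form of `QsND_le`** -/
theorem red_PJ {ε : ℝ} (hε : 0 < ε) (J Aw : ℕ) (hJA : J + 2 ≤ Aw) {R : ℝ} (hR : 0 ≤ R) :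
    ∃ C : ℝ, 0 ≤ C ∧
    ∀ (Y X Q M₀ : ℝ) (x : Eis → ℂ) (δ : Eis), 0 ≤ Y → 0 < X → 0 ≤ M₀ → 1 ≤ Q →
    (∀ n, x n ≠ 0 → n ∈ S Y) → (∀ n, x n ≠ 0 → |Real.log (nm n) - Real.log X| ≤ R) →
    IsPrim δ →
    ∀ (Cw η : ℝ) (φ : ℝ → ℝ), 0 ≤ Cw → 0 < η → η ≤ 1 → WK Cw η Aw φ → ∀ p ∈ T9, ∀ t₀ : ℝ,
    ∀ e : Eis, IsPrim e → ∀ (Yl Kf B0 X' : ℝ), 0 < Yl → 0 ≤ Kf → 0 ≤ X' →
    ∀ y ∈ prs δ, ∀ A ∈ pdiv y.1, 9 * (Yl * (nm (e * A) : ℝ) ^ 3) ≤ Q →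
    (y.2 = 1 → ∀ t : ℝ, ∑ B ∈ (S (X' / nm y.1)).filter (fun B => B0 < nm B),
      (nm B : ℝ)⁻¹ * ∑ k ∈ bl (9 * (Yl * (nm (e * A) : ℝ) ^ 3)),
      tgf x (δ * B) (k * B) t ≤ M₀ * (1 + |t|) ^ J) →
    ∑ c ∈ C4, ∑ j ∈ S (Real.sqrt Yl), PJ (X' / nm y.1) (RR Yl e A c j) (Kf / nm (e * A * j)) B0
        y.2 (MTr (fun n => bt φ x p n * pw t₀ (nm n)) δ Yl y e A c j) ≤
      C * Cw ^ 2 * (η⁻¹) ^ J * Q ^ ε * (1 + |t₀|) ^ J *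
        ((Yl ^ (-(2 : ℝ) / 3) * (nm (e * A) : ℝ) ^ (-(2 : ℝ)) * Kf ^ ((4 : ℝ) / 3)) *
          ((nm δ : ℝ) ^ ((1 : ℝ) / 3) * X ^ (-(1 : ℝ) / 3)) * M₀) := by
  obtain ⟨C, hC, hm⟩ := red hε J Aw hJA hR
  refine ⟨C, hC, ?_⟩
  intro Y X Q M₀ x δ hY0 hX hM₀0 hQ1 hx hw hδ Cw η φ hCw hη hη1 hφ p hp t₀ e he Yl Kf B0 X' hYl hKf
    hX'0 y hy A hA hVQ hall
  obtain ⟨hy1, hy2, hy3⟩ := (mem_prs hδ).mp hy
  obtain ⟨hAp, hAd⟩ := (mem_pdiv hy1.ne_zero).mp hA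
  by_cases h1 : y.2 = 1
  swap
  · have e1 : ∀ c ∈ C4, ∀ j ∈ S (Real.sqrt Yl), PJ (X' / nm y.1) (RR Yl e A c j)
        (Kf / nm (e * A * j)) B0 y.2
        (MTr (fun n => bt φ x p n * pw t₀ (nm n)) δ Yl y e A c j) = 0 := by
      intro c _ j _
      unfold E2440.PJ
      rw [if_neg h1]
    rw [Finset.sum_eq_zero fun c hc => Finset.sum_eq_zero fun j hj => e1 c hc j hj]
    have : 0 ≤ Q := by linarith
    positivity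
  have hy1δ : y.1 = δ := by rw [← hy3, h1, mul_one]
  have hXb0 : 0 ≤ X' / (nm y.1 : ℝ) := by positivity
  have h2 := hm Y X Q M₀ x δ hY0 hX hM₀0 hQ1 hx hw hδ Cw η φ hCw hη hη1 hφ p hp t₀ e A he hAp
    Yl Kf (Real.sqrt Yl) ((S (X' / nm y.1)).filter (fun B => B0 < nm B)) hYl hKf
    (Real.sqrt_nonneg _) (fun B hB => by
      rw [Finset.mem_filter, mem_S hXb0] at hB
      exact hB.1.2.1) hVQ (hall h1)
  refine le_trans (le_of_eq ?_) h2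
  refine Finset.sum_congr rfl fun c _ => Finset.sum_congr rfl fun j _ => ?_
  unfold E2440.PJ MTr
  rw [if_pos h1, h1, hy1δ]

set_option maxHeartbeats 1000000 in
/-- **the reduction, in the form of the polar cells of `Qs_cellsJ`** -/
theorem red_cell {ε : ℝ} (hε : 0 < ε) (J Aw : ℕ) (hJA : J + 2 ≤ Aw) {R : ℝ} (hR : 0 ≤ R) :
    ∃ C : ℝ, 0 ≤ C ∧
    ∀ (Y X Q M₀ : ℝ) (x : Eis → ℂ) (δ : Eis), 0 ≤ Y → 0 < X → 0 ≤ M₀ → 1 ≤ Q →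
    (∀ n, x n ≠ 0 → n ∈ S Y) → (∀ n, x n ≠ 0 → |Real.log (nm n) - Real.log X| ≤ R) →
    IsPrim δ →
    ∀ (Cw η : ℝ) (φ : ℝ → ℝ), 0 ≤ Cw → 0 < η → η ≤ 1 → WK Cw η Aw φ → ∀ p ∈ T9, ∀ t₀ : ℝ,
    ∀ e : Eis, IsPrim e → ∀ (Yl X' : ℝ), 0 < Yl → 0 ≤ X' →
    ∀ y ∈ prs δ, ∀ A ∈ pdiv y.1, 9 * (Yl * (nm (e * A) : ℝ) ^ 3) ≤ Q → y.2 = 1 →
    ∀ c ∈ C4, ∀ l u : ℕ,
    (∀ t : ℝ, ∑ B ∈ bk (X' / nm y.1) u,
      (nm B : ℝ)⁻¹ * ∑ k ∈ bl (9 * (Yl * (nm (e * A) : ℝ) ^ 3)),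
      tgf x (δ * B) (k * B) t ≤ M₀ * (1 + |t|) ^ J) →
    Real.exp (-(4 / 3) * ((u : ℝ) / 3)) * ∑ j₂ ∈ Tb Yl e A c l, ∑ B ∈ bk (X' / nm y.1) u,
      ∑ r ∈ (S (RR Yl e A c j₂)).filter (fun r => IsCoprime r y.2 ∧ RR Yl e A c j₂ / 2 < nm r),
        ‖MT (ag (fun n => bt φ x p n * pw t₀ (nm n)) δ y.1) (e * A * j₂) B c r‖ ^ 2 ≤
      C * Cw ^ 2 * (η⁻¹) ^ J * Q ^ ε * (1 + |t₀|) ^ J *
        ((nm δ : ℝ) ^ ((1 : ℝ) / 3) * X ^ (-(1 : ℝ) / 3) * M₀) := by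
  obtain ⟨C, hC, hm⟩ := red hε J Aw hJA hR
  refine ⟨2 * C, by positivity, ?_⟩
  intro Y X Q M₀ x δ hY0 hX hM₀0 hQ1 hx hw hδ Cw η φ hCw hη hη1 hφ p hp t₀ e he Yl X' hYl
    hX'0 y hy A hA hVQ h1 c hc l u hall
  obtain ⟨hy1, hy2, hy3⟩ := (mem_prs hδ).mp hy
  obtain ⟨hAp, hAd⟩ := (mem_pdiv hy1.ne_zero).mp hA
  have hy1δ : y.1 = δ := by rw [← hy3, h1, mul_one]
  have hE0 : e * A ≠ 0 := mul_ne_zero he.ne_zero hAp.ne_zero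
  have hE : (0 : ℝ) < nm (e * A) := by exact_mod_cast nm_pos.2 hE0
  have hXb0 : 0 ≤ X' / (nm y.1 : ℝ) := by positivity
  set Xb := X' / (nm y.1 : ℝ) with hXb
  have hblk : ∀ B ∈ bk Xb u, IsPrim B ∧
      Real.exp (-(4 / 3) * ((u : ℝ) / 3)) ≤ 2 * (nm B : ℝ) ^ (-(4 : ℝ) / 3) := by
    intro B hB
    have hBp := ((mem_bk hXb0).mp hB).1
    have hB0' : (0 : ℝ) < nm B := by exact_mod_cast nm_pos.2 hBp.2.1.ne_zero
    have g3 := bk_hi hXb0 hB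
    refine ⟨hBp.2.1, ?_⟩
    have g4 : (nm B : ℝ) ^ (-(4 : ℝ) / 3) = Real.exp (-(4 / 3) * Real.log (nm B)) := by
      rw [Real.rpow_def_of_pos hB0']; congr 1; ring
    have g5 : 2 * Real.exp (-(4 / 3) * Real.log (nm B)) =
        Real.exp (Real.log 2 + -(4 / 3) * Real.log (nm B)) := by
      rw [Real.exp_add, Real.exp_log (by norm_num)]
    rw [g4, g5]
    apply Real.exp_le_exp.mpr
    have := Real.log_two_gt_d9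
    linarith
  have h2 := hm Y X Q M₀ x δ hY0 hX hM₀0 hQ1 hx hw hδ Cw η φ hCw hη hη1 hφ p hp t₀ e A he hAp
    Yl 1 (Real.sqrt Yl) (bk Xb u) hYl zero_le_one
    (Real.sqrt_nonneg _) (fun B hB => (hblk B hB).1) hVQ hall
  set Tr : Eis → Eis → ℝ := fun j₂ B =>
    ∑ r ∈ (S (RR Yl e A c j₂)).filter (fun r => IsCoprime r y.2 ∧ RR Yl e A c j₂ / 2 < nm r),
        ‖MT (ag (fun n => bt φ x p n * pw t₀ (nm n)) δ y.1) (e * A * j₂) B c r‖ ^ 2 with hTr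
  have hTr0 : ∀ j₂ B, 0 ≤ Tr j₂ B := fun _ _ => Finset.sum_nonneg fun _ _ => by positivity
  set w0 := Yl ^ (-(2 : ℝ) / 3) * (nm (e * A) : ℝ) ^ (-(2 : ℝ)) with hw0
  have hw00 : 0 < w0 := by positivity
  have h3 : w0 * (Real.exp (-(4 / 3) * ((u : ℝ) / 3)) * ∑ j₂ ∈ Tb Yl e A c l,
      ∑ B ∈ bk Xb u, Tr j₂ B) ≤ 2 * ∑ j ∈ S (Real.sqrt Yl), RR Yl e A c j ^ (-(2 : ℝ) / 3) *
        (1 / nm (e * A * j)) ^ ((4 : ℝ) / 3) *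
        ∑ B ∈ bk Xb u, (nm B : ℝ) ^ (-(4 : ℝ) / 3) * Tr j B := by
    have h4 : ∀ j ∈ Tb Yl e A c l, w0 * (Real.exp (-(4 / 3) * ((u : ℝ) / 3)) *
        ∑ B ∈ bk Xb u, Tr j B) ≤ 2 * (RR Yl e A c j ^ (-(2 : ℝ) / 3) *
        (1 / nm (e * A * j)) ^ ((4 : ℝ) / 3) *
        ∑ B ∈ bk Xb u, (nm B : ℝ) ^ (-(4 : ℝ) / 3) * Tr j B) := by
      intro j hj
      have hjp := ((mem_bk (Real.sqrt_nonneg Yl)).mp (mem_Tb.mp hj).1).1.2.1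
      have h5 := wt_ge hYl hE0 hc hjp.ne_zero
      have h6 : Real.exp (-(4 / 3) * ((u : ℝ) / 3)) * ∑ B ∈ bk Xb u, Tr j B ≤
          2 * ∑ B ∈ bk Xb u, (nm B : ℝ) ^ (-(4 : ℝ) / 3) * Tr j B := by
        rw [Finset.mul_sum, Finset.mul_sum]
        refine Finset.sum_le_sum fun B hB => ?_
        have := (hblk B hB).2
        calc _ ≤ (2 * (nm B : ℝ) ^ (-(4 : ℝ) / 3)) * Tr j B :=
              mul_le_mul_of_nonneg_right this (hTr0 j B)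
          _ = _ := by ring
      calc _ ≤ (RR Yl e A c j ^ (-(2 : ℝ) / 3) * (1 / nm (e * A * j)) ^ ((4 : ℝ) / 3)) *
            (2 * ∑ B ∈ bk Xb u, (nm B : ℝ) ^ (-(4 : ℝ) / 3) * Tr j B) := by
            refine mul_le_mul h5 h6 ?_ (hw00.le.trans h5)
            exact mul_nonneg (Real.exp_nonneg _) (Finset.sum_nonneg fun _ _ => hTr0 _ _)
        _ = _ := by ring
    rw [Finset.mul_sum, Finset.mul_sum, Finset.mul_sum]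
    refine (Finset.sum_le_sum h4).trans (Finset.sum_le_sum_of_subset_of_nonneg ?_ ?_)
    · intro j hj
      have := ((mem_bk (Real.sqrt_nonneg Yl)).mp (mem_Tb.mp hj).1).1
      exact (mem_S (Real.sqrt_nonneg Yl)).mpr this
    · intro j _ _
      have g1 := RR_nonneg hYl e A c j
      have g2 : 0 ≤ ∑ B ∈ bk Xb u, (nm B : ℝ) ^ (-(4 : ℝ) / 3) * Tr j B :=
        Finset.sum_nonneg fun B _ => mul_nonneg (by positivity) (hTr0 j B)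
      positivity
  have h4 : ∑ j ∈ S (Real.sqrt Yl), RR Yl e A c j ^ (-(2 : ℝ) / 3) *
        (1 / nm (e * A * j)) ^ ((4 : ℝ) / 3) *
        ∑ B ∈ bk Xb u, (nm B : ℝ) ^ (-(4 : ℝ) / 3) * Tr j B ≤
      C * Cw ^ 2 * (η⁻¹) ^ J * Q ^ ε * (1 + |t₀|) ^ J *
        ((Yl ^ (-(2 : ℝ) / 3) * (nm (e * A) : ℝ) ^ (-(2 : ℝ)) * 1 ^ ((4 : ℝ) / 3)) *
          ((nm δ : ℝ) ^ ((1 : ℝ) / 3) * X ^ (-(1 : ℝ) / 3)) * M₀) := by
    refine le_trans ?_ h2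
    have e1 : ∀ c' j B, ∑ r ∈ (S (RR Yl e A c' j)).filter
        (fun r => IsCoprime r 1 ∧ RR Yl e A c' j / 2 < nm r),
        ‖MT (ag (fun n => bt φ x p n * pw t₀ (nm n)) δ δ) (e * A * j) B c' r‖ ^ 2 =
        ∑ r ∈ (S (RR Yl e A c' j)).filter
        (fun r => IsCoprime r y.2 ∧ RR Yl e A c' j / 2 < nm r),
        ‖MT (ag (fun n => bt φ x p n * pw t₀ (nm n)) δ y.1) (e * A * j) B c' r‖ ^ 2 := by
      intro c' j B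
      rw [h1, hy1δ]
    simp_rw [e1]
    refine Finset.single_le_sum (f := fun c => ∑ j ∈ S (Real.sqrt Yl),
      RR Yl e A c j ^ (-(2 : ℝ) / 3) * (1 / nm (e * A * j)) ^ ((4 : ℝ) / 3) *
        ∑ B ∈ bk Xb u, (nm B : ℝ) ^ (-(4 : ℝ) / 3) *
          ∑ r ∈ (S (RR Yl e A c j)).filter
            (fun r => IsCoprime r y.2 ∧ RR Yl e A c j / 2 < nm r),
            ‖MT (ag (fun n => bt φ x p n * pw t₀ (nm n)) δ y.1) (e * A * j) B c r‖ ^ 2) ?_ hc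
    intro c' _
    refine Finset.sum_nonneg fun j _ => ?_
    have g1 := RR_nonneg hYl e A c' j
    exact mul_nonneg (mul_nonneg (by positivity) (by positivity))
      (Finset.sum_nonneg fun B _ => mul_nonneg (by positivity)
        (Finset.sum_nonneg fun _ _ => by positivity))
  have h5 := h3.trans (mul_le_mul_of_nonneg_left h4 (by norm_num : (0 : ℝ) ≤ 2))
  have h6 : w0 * (2 * C * Cw ^ 2 * (η⁻¹) ^ J * Q ^ ε * (1 + |t₀|) ^ J *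
        ((nm δ : ℝ) ^ ((1 : ℝ) / 3) * X ^ (-(1 : ℝ) / 3) * M₀)) =
      2 * (C * Cw ^ 2 * (η⁻¹) ^ J * Q ^ ε * (1 + |t₀|) ^ J *
        ((Yl ^ (-(2 : ℝ) / 3) * (nm (e * A) : ℝ) ^ (-(2 : ℝ)) * 1 ^ ((4 : ℝ) / 3)) *
          ((nm δ : ℝ) ^ ((1 : ℝ) / 3) * X ^ (-(1 : ℝ) / 3)) * M₀)) := by
    rw [Real.one_rpow, hw0]
    ring
  rw [← h6] at h5
  exact le_of_mul_le_mul_left h5 hw00

end Crest.Agent.R017.MTX241
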