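import Crest.Agent.R017.PoHw_72
import Crest.Agent.R017.ModeP_405

/-!
# Row 17, T.7 (class E), E3: MODEx, part a (helper744)

Helper405's `block2_le` with the natural frequencies split into two classes (`true` = principal).

* `PrOK` : admissible predicates of a sequence; stable under the twist `bs`
* `PoHWx` : the structured bound with two classes
* `VIc_merge`, `block2x_le`
-/

set_option autoImplicit false

noncomputable section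

open Complex MeasureTheory
open scoped ComplexConjugate Classical

namespace Crest.Agent.R017.MX744

open Crest.Agent.R012 Crest.Agent.R012.Eis Crest.Agent.R012.MC
open Crest.Agent.R012.LS2 (S mem_S bl mem_bl)
open Crest.Agent.R012.LS448 (one_le_nm')
open Crest.Agent.R012.NonCube52 (Ker kv Good kc kc_spec kc_nm kv_ne_zero one_le_nmkv)
open Crest.Agent.R012.Mob705 (mu pdiv mem_pdiv sum_mu_coprime mu_of_not_squarefree abs_mu_le_one)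
open Crest.Agent.R012.Weight600 (pw)
open Crest.Agent.R017.CM106 (CS TG FS)
open Crest.Agent.R017.BD829 (TT EQ Win EQ_nonneg)
open Crest.Agent.R017.E3D579 (EQ_smul EQ_sy)
open Crest.Agent.R017.E1551 (jb jb_pos nmpos)
open Crest.Agent.R017.DgB829 (HS HS_le HS_nonneg)
open Crest.Agent.R017.Mode405
open Crest.Agent.R017.PoHx72

/-- admissible predicate (total natural frequency principal) of a sequence `b` -/
structure PrOK (b : Eis → ℂ) (Pr : Eis → Eis → Prop) : Prop where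
  cub : ∀ D, D ≠ 0 → Cub (Pr D)
  hcp : ∀ D H, IsPrim D → H ≠ 0 → (∃ m, b (D * m) ≠ 0) → Pr D H →
    ∃ s t, D ^ 2 * H * s = t ^ 3 ∧ IsCoprime s D
  inv : ∀ D H q, H ≠ 0 → q ≠ 0 → (Pr D (H * q ^ 3) ↔ Pr D H)

/-- the predicate of the twisted sequence -/
def PrS (Pr : Eis → Eis → Prop) (e D H : Eis) : Prop := Pr D (H * e ^ 2)

lemma PrOK.bs {b : Eis → ℂ} {Pr : Eis → Eis → Prop} (h : PrOK b Pr)
    (hb : ∀ n, b n ≠ 0 → IsPrim n) {e : Eis} (he : e ≠ 0) :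
    PrOK (Mode405.bs b e) (PrS Pr e) where
  cub D hD := (h.cub D hD).mul (pow_ne_zero 2 he)
  hcp D H hD hH hm hP := by
    obtain ⟨m, hm⟩ := hm
    have hb0 : b (D * m) ≠ 0 := Mode405.bs_supp hm
    have hs : sy e (D * m) ≠ 0 := by
      intro h0
      apply hm
      unfold Mode405.bs
      rw [h0, mul_zero]
    have hp := hb _ hb0
    have hc : IsCoprime e (D * m) := by
      by_contra h1
      exact hs ((Sym645.syFacts.eq_zero e _ hp).mpr h1)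
    obtain ⟨s, t, h1, h2⟩ := h.hcp D (H * e ^ 2) hD (mul_ne_zero hH (pow_ne_zero 2 he)) ⟨m, hb0⟩ hP
    refine ⟨e ^ 2 * s, t, ?_, ?_⟩
    · rw [← h1]; ring
    · exact (hc.of_mul_right_left.pow_left).mul_left h2
  inv D H q hH hq := by
    unfold PrS
    have e1 : H * q ^ 3 * e ^ 2 = H * e ^ 2 * q ^ 3 := by ring
    rw [e1]
    exact h.inv D (H * e ^ 2) q (mul_ne_zero hH (pow_ne_zero 2 he)) hq

lemma Cls_iff {Pr Qr : Eis → Prop} {H H' : Eis} (j : Bool) (h : Pr H ↔ Qr H') :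
    Cls Pr j H ↔ Cls Qr j H' := by
  unfold Cls
  cases j
  · simp only [Bool.false_eq_true, if_false]
    exact not_congr h
  · simp only [if_true]
    exact h

/-- merging, in classes -/
lemma VIc_merge (A : ℝ) {b : Eis → ℂ} (hb : ∀ n, b n ≠ 0 → IsPrim n) {Pr : Eis → Eis → Prop}
    (hPb : PrOK b Pr) (j : Bool) {g f : Eis} (hg : IsPrim g) (hf : f ≠ 0)
    {Ps : Finset (Eis × Eis)}
    (hPr : ∀ p ∈ Ps, IsPrim p.1 ∧ IsPrim p.2) {P c T : ℝ} (hP : 0 ≤ P) (hc : 0 ≤ c)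
    (hn : ∀ p ∈ Ps, (nm (p.1 ^ 2 * p.2) : ℝ) ≤ c) (hT0 : 0 ≤ T)
    (hT : ∀ k ∈ bl (c * P), ((pdiv k).card : ℝ) ≤ T) :
    ∑ p ∈ Ps, VIc A (Mode405.bs b (p.1 * p.2 ^ 2)) g f 1 P
        (Cls (PrS Pr (p.1 * p.2 ^ 2) g) j) ≤
      T ^ 2 * VIc A b g f 1 (c * P) (Cls (Pr g) j) := by
  unfold VIc
  have h1 : ∀ p ∈ Ps, ∑ k ∈ (bl P).filter (fun k => Cls (PrS Pr (p.1 * p.2 ^ 2) g) j (k * f)),
      EQ A (fun m => if IsCoprime m 1 then Mode405.bs b (p.1 * p.2 ^ 2) (g * m) else 0) (k * f) ≤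
      ∑ k ∈ bl P, (fun k' => if Cls (Pr g) j (k' * f) then
        EQ A (fun m => if IsCoprime m 1 then b (g * m) else 0) (k' * f) else 0)
          (k * (p.1 ^ 2 * p.2)) := by
    intro p hp
    obtain ⟨p1, p2⟩ := hPr p hp
    rw [Finset.sum_filter]
    refine Finset.sum_le_sum fun k hk => ?_
    have hk0 : k ≠ 0 := ((mem_bl hP).1 hk).1
    beta_reduce
    have hiff : Cls (PrS Pr (p.1 * p.2 ^ 2) g) j (k * f) ↔
        Cls (Pr g) j (k * (p.1 ^ 2 * p.2) * f) := by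
      refine Cls_iff j ?_
      unfold PrS
      have e1 : k * f * (p.1 * p.2 ^ 2) ^ 2 = k * (p.1 ^ 2 * p.2) * f * p.2 ^ 3 := by ring
      rw [e1]
      exact hPb.inv g _ p.2 (mul_ne_zero (mul_ne_zero hk0 (mul_ne_zero
        (pow_ne_zero 2 p1.ne_zero) p2.ne_zero)) hf) p2.ne_zero
    by_cases h2 : Cls (PrS Pr (p.1 * p.2 ^ 2) g) j (k * f)
    · rw [if_pos h2, if_pos (hiff.1 h2)]
      exact Mode405.EQ_bs_le A hb (G := g) (π := 1) (k := k) (f := f) (d := p.1) (q := p.2) hg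
    · rw [if_neg h2, if_neg (fun h => h2 (hiff.2 h))]
  refine (Finset.sum_le_sum h1).trans ?_
  have h3 := Mode405.sum_merge (F := fun k' => if Cls (Pr g) j (k' * f) then
        EQ A (fun m => if IsCoprime m 1 then b (g * m) else 0) (k' * f) else 0)
    (fun k => by split_ifs <;> [exact EQ_nonneg _ _ _; exact le_rfl])
    hPr hP hc hn hT0 hT
  refine h3.trans (le_of_eq ?_)
  rw [Finset.sum_filter]

/-- admissible test parameters -/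
def Adm (N2 : ℝ) (ka γ φ x : Eis) : Prop :=
  IsPrim γ ∧ IsCoprime γ ka ∧ φ ≠ 0 ∧ x ≠ 0 ∧ ∃ D : Eis, D ≠ 0 ∧ (nm D : ℝ) ≤ N2 ∧
    φ * γ ^ 2 = x * D ^ 3

/-- **the structured bound**, two classes of frequencies -/
def PoHWx (χ : Eis → ℂ) (w : ℝ → ℝ) : Prop :=
  ∀ R : ℝ, 0 ≤ R → ∀ a A : ℕ, 1 < A → ∀ ε : ℝ, 0 < ε → ∃ (C c : ℝ) (J : ℕ), 0 ≤ C ∧ 1 ≤ c ∧
    ∀ Z N X lam : ℝ, 1 ≤ Z → 0 < N → N ≤ Z → 0 < X → X ≤ Z → 1 ≤ X * Z → 1 ≤ lam → lam ≤ Z →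
      lam * Real.exp R < N →
    ∀ ka : Eis, IsPrim ka → (nm ka : ℝ) ≤ Z →
    ∀ {ι : Type} (Q : Finset ι) (b : ι → Eis → ℂ) (Xq : ι → ℝ),
      (∀ q ∈ Q, X / 64 ≤ Xq q ∧ Xq q ≤ X) →
      (∀ q ∈ Q, ∀ n, b q n ≠ 0 → n ∈ S Z) → (∀ q ∈ Q, Win (b q) (Real.log N) R) →
    ∀ Pr : ι → Eis → Eis → Prop, (∀ q ∈ Q, PrOK (b q) (Pr q)) →
    ∀ W : Bool → ℝ → ℝ, (∀ j, Slp a (W j)) →
      (∀ j γ φ x, Adm (N ^ 2) ka γ φ x → ∀ P : ℝ, 1 ≤ P →
        (nm γ : ℝ) * ∑ q ∈ Q, VIc A (b q) γ φ 1 P (Cls (Pr q γ) j) ≤ W j (P * nm x)) →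
    ∀ W1 : Bool → ℝ, (∀ j, 0 ≤ W1 j) → (∀ j, W j (c * Il N lam X) ≤ W1 j) →
    ∀ t : ℝ, ∑ q ∈ Q, ∑ κ ∈ KSa lam ka, ‖XS χ w (Xq q) t (b q) κ‖ ^ 2 ≤
      C * Z ^ ε * (1 + |t|) ^ J * ∑ j : Bool, (X * nfx j lam (Il N lam X) * W1 j)

lemma nfx_anti (j : Bool) {lam I I' : ℝ} (hl : 0 ≤ lam) (hI : 0 < I) (h : I ≤ I') :
    nfx j lam I' ≤ nfx j lam I := by
  unfold nfx
  split_ifs
  · have h1 : I' ^ (-(2 / 3) : ℝ) ≤ I ^ (-(2 / 3) : ℝ) :=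
      Real.rpow_le_rpow_of_nonpos hI h (by norm_num)
    gcongr
  · have h1 : I' ^ (-(1 / 2) : ℝ) ≤ I ^ (-(1 / 2) : ℝ) :=
      Real.rpow_le_rpow_of_nonpos hI h (by norm_num)
    gcongr

lemma nfx_mono (j : Bool) {lam lam' u : ℝ} (hl : 0 < lam) (h : lam ≤ lam') (hu : 0 < u) :
    nfx j lam (u * lam) ≤ nfx j lam' (u * lam') := by
  unfold nfx
  split_ifs
  · have e : ∀ x : ℝ, 0 < x → x * (u * x) ^ (-(2 / 3) : ℝ) =
        x ^ (1 / 3 : ℝ) * u ^ (-(2 / 3) : ℝ) := by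
      intro x hx
      rw [Real.mul_rpow hu.le hx.le]
      have : x ^ (1 / 3 : ℝ) = x * x ^ (-(2 / 3) : ℝ) := by
        conv_rhs => rw [← Real.rpow_one x, ← Real.rpow_mul hx.le, ← Real.rpow_add hx]
        norm_num
      rw [this]; ring
    rw [e lam hl, e lam' (hl.trans_le h)]
    have h1 : lam ^ (1 / 3 : ℝ) ≤ lam' ^ (1 / 3 : ℝ) := Real.rpow_le_rpow hl.le h (by norm_num)
    gcongr
  · exact nfok_nfo.mono lam lam' u hl h hu

set_option maxHeartbeats 4000000 in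
/-- **the block bound**, threshold rule, two classes -/
theorem block2x_le {χ : Eis → ℂ} {w : ℝ → ℝ} (hP : PoHWx χ w) {R : ℝ} (hR : 0 ≤ R) (a A : ℕ) (hA : 1 < A) {ε : ℝ} (hε : 0 < ε) :
    ∃ (C c : ℝ) (J : ℕ), 0 ≤ C ∧ 1 ≤ c ∧ ∀ Z N Y Lt lam P₁ : ℝ, 1 ≤ Z → 0 < N → N ≤ Z → 0 < Y →
      1 ≤ Y * Z → Y ≤ Z → 1 ≤ lam → lam ≤ Lt → Lt ≤ Z → Lt * Real.exp R < N → 1 ≤ P₁ →
      lam * P₁ ^ 3 ≤ Lt → ∀ ka : Eis, IsPrim ka → (nm ka : ℝ) ≤ Z →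
    ∀ {ι : Type} (O : Finset ι) (b : ι → Eis → ℂ) (Yq : ι → ℝ),
      (∀ o ∈ O, Y / 8 ≤ Yq o ∧ Yq o ≤ Y) → (∀ o ∈ O, ∀ n, b o n ≠ 0 → n ∈ S Z) →
      (∀ o ∈ O, Win (b o) (Real.log N) R) →
    ∀ Prd : ι → Eis → Eis → Prop, (∀ o ∈ O, PrOK (b o) (Prd o)) →
    ∀ W : Bool → ℝ → ℝ, (∀ jj, Slp a (W jj)) →
      (∀ jj γ φ x, Adm (N ^ 2) ka γ φ x → ∀ P : ℝ, 1 ≤ P →
        (nm γ : ℝ) * ∑ o ∈ O, VIc A (b o) γ φ 1 P (Cls (Prd o γ) jj) ≤ W jj (P * nm x)) →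
    ∀ W1 : Bool → ℝ, (∀ jj, 0 ≤ W1 jj) → (∀ jj, W jj (c * Il N Lt Y) ≤ W1 jj) →
    ∀ (Pr : ι → Finset (Eis × Eis)) (i j : ℕ), (∀ o ∈ O, ∀ p ∈ Pr o, IsPrim p.1 ∧ IsPrim p.2 ∧
        ((2 : ℝ) ^ i ≤ nm p.1 ∧ (nm p.1 : ℝ) ≤ 2 ^ (i + 1)) ∧
        ((2 : ℝ) ^ j ≤ nm p.2 ∧ (nm p.2 : ℝ) ≤ 2 ^ (j + 1)) ∧ (nm p.1 : ℝ) * nm p.2 ≤ P₁) →
    ∀ t : ℝ, (2 : ℝ) ^ j * ∑ o ∈ O, ∑ p ∈ Pr o, ∑ κ ∈ KSa lam ka,
        ‖XS χ w (Yq o / nm (p.1 * p.2 ^ 2)) t (Mode405.bs (b o) (p.1 * p.2 ^ 2)) κ‖ ^ 2 ≤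
      C * Z ^ ε * (1 + |t|) ^ J * ∑ jj : Bool,
        (Y * nfx jj lam (Il N lam Y) * ((lam / Lt) ^ (1 / 3 : ℝ) * W1 jj)) := by
  classical
  obtain ⟨C₁, hC₁, htau⟩ := Div277.tau_le_rpow (ε := min (ε / 32) (1 / 2)) (by positivity)
  set e₁ : ℝ := min (ε / 32) (1 / 2) with he₁
  have he0 : 0 < e₁ := by positivity
  have he2 : 2 * e₁ ≤ 1 := by have := min_le_right (ε / 32) (1 / 2 : ℝ); rw [← he₁] at this; linarith
  have he3 : e₁ ≤ ε / 32 := min_le_left _ _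
  obtain ⟨C₂, c, J, hC₂, hc, hmain⟩ := hP R hR (a + 1) A hA (ε / 6) (by positivity)
  refine ⟨C₂ * (C₁ ^ 2 * (8 * c) ^ (2 * e₁)), 8 * c, J, by positivity, by linarith, ?_⟩
  intro Z N Y Lt lam P₁ hZ hN hNZ hY0 hYZ1 hYZ hlam hlamL hLZ hLN hP₁ hP3 ka hkap hkaZ ι O b Yq hYq
    hbS hbW Prd hPrd W hW hWle W1 hW1 hW1le Pr i j hPr t
  have hPZ : P₁ ≤ Z := by
    have h1 : P₁ ≤ P₁ ^ 3 := le_self_pow₀ hP₁ (by norm_num)
    have h2 : P₁ ^ 3 ≤ lam * P₁ ^ 3 := le_mul_of_one_le_left (by positivity) hlam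
    linarith
  have hLt0 : 0 < Lt := by linarith
  have hlam0 : 0 < lam := by linarith
  have hZ0 : 0 < Z := by linarith
  have hIl0 : 0 < Il N lam Y := by unfold Il; positivity
  have hRHS : 0 ≤ C₂ * (C₁ ^ 2 * (8 * c) ^ (2 * e₁)) * Z ^ ε * (1 + |t|) ^ J *
      ∑ jj : Bool, (Y * nfx jj lam (Il N lam Y) * ((lam / Lt) ^ (1 / 3 : ℝ) * W1 jj)) := by
    refine mul_nonneg (by positivity) (Finset.sum_nonneg fun jj _ => ?_)
    have h1 := nfx_nonneg jj hlam0.le hIl0.le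
    have h2 := hW1 jj
    positivity
  -- the empty case
  by_cases hne : ∃ o ∈ O, ∃ p, p ∈ Pr o
  swap
  · push Not at hne
    have e0 : ∑ o ∈ O, ∑ p ∈ Pr o, ∑ κ ∈ KSa lam ka,
        ‖XS χ w (Yq o / nm (p.1 * p.2 ^ 2)) t (Mode405.bs (b o) (p.1 * p.2 ^ 2)) κ‖ ^ 2 = 0 :=
      Finset.sum_eq_zero fun o ho => by
        rw [Finset.eq_empty_of_forall_notMem (hne o ho), Finset.sum_empty]
    rw [e0, mul_zero]; exact hRHS
  obtain ⟨o₀, ho₀, p₀, hp₀⟩ := hne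
  have h2i : (1 : ℝ) ≤ 2 ^ i := one_le_pow₀ (by norm_num)
  have h2j : (1 : ℝ) ≤ 2 ^ j := one_le_pow₀ (by norm_num)
  set P : ℝ := 2 ^ i * 2 ^ j with hPdef
  have hP1 : 1 ≤ P := one_le_mul_of_one_le_of_one_le h2i h2j
  have hPP₁ : P ≤ P₁ := by
    obtain ⟨-, -, h1, h2, h3⟩ := hPr o₀ ho₀ p₀ hp₀
    calc P ≤ (nm p₀.1 : ℝ) * nm p₀.2 := mul_le_mul h1.1 h2.1 (by positivity) (by positivity)
      _ ≤ P₁ := h3
  have hPZ' : P ≤ Z := hPP₁.trans hPZ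
  have h2iZ : (2 : ℝ) ^ i ≤ Z := le_trans (by
    rw [hPdef]; exact le_mul_of_one_le_right (by positivity) h2j) hPZ'
  have h2jZ : (2 : ℝ) ^ j ≤ Z := le_trans (by
    rw [hPdef]; exact le_mul_of_one_le_left (by positivity) h2i) hPZ'
  set M : ℝ := 2 ^ i * (2 ^ j) ^ 2 with hMdef
  have hM1 : 1 ≤ M := one_le_mul_of_one_le_of_one_le h2i (one_le_pow₀ h2j)
  have hMZ : M ≤ Z ^ 2 := by
    calc M = P * 2 ^ j := by rw [hMdef, hPdef]; ring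
      _ ≤ Z * Z := mul_le_mul hPZ' h2jZ (by positivity) hZ0.le
      _ = Z ^ 2 := by ring
  set X : ℝ := Y / M with hXdef
  have hM0 : 0 < M := by linarith
  have hX0 : 0 < X := by positivity
  have hXY : X ≤ Y := div_le_self hY0.le hM1
  -- the merged frequencies
  set cm : ℝ := 8 * ((2 ^ i) ^ 2 * 2 ^ j) with hcm
  have hcm0 : 0 < cm := by positivity
  have hcmZ : cm ≤ 8 * Z ^ 3 := by
    rw [hcm]
    have : (2 ^ i) ^ 2 * 2 ^ j ≤ Z ^ 2 * Z :=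
      mul_le_mul (pow_le_pow_left₀ (by positivity) h2iZ 2) h2jZ (by positivity) (by positivity)
    calc 8 * ((2 ^ i) ^ 2 * 2 ^ j) ≤ 8 * (Z ^ 2 * Z) := by linarith
      _ = 8 * Z ^ 3 := by ring
  set Wf : Bool → ℝ → ℝ := fun jj P => C₁ ^ 2 * (cm * max 1 P) ^ (2 * e₁) * W jj (cm * P) with hWf
  have hWfS : ∀ jj, Slp (a + 1) (Wf jj) := fun jj =>
    slp_fam (hW jj) hcm0 (by positivity) (by positivity) he2
  -- the family
  set Fm : Finset (Σ _ : ι, Eis × Eis) := O.sigma Pr with hFm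
  set bb : (Σ _ : ι, Eis × Eis) → Eis → ℂ :=
    fun x => Mode405.bs (b x.1) (x.2.1 * x.2.2 ^ 2) with hbb
  set Pb : (Σ _ : ι, Eis × Eis) → Eis → Eis → Prop :=
    fun x => PrS (Prd x.1) (x.2.1 * x.2.2 ^ 2) with hPb
  set Xq : (Σ _ : ι, Eis × Eis) → ℝ := fun x => Yq x.1 / nm (x.2.1 * x.2.2 ^ 2) with hXq
  have hmemF : ∀ x ∈ Fm, x.1 ∈ O ∧ x.2 ∈ Pr x.1 := fun x hx => by
    rw [hFm, Finset.mem_sigma] at hx; exact hx
  have hXqb : ∀ x ∈ Fm, X / 64 ≤ Xq x ∧ Xq x ≤ X := by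
    intro x hx
    obtain ⟨ho, hp⟩ := hmemF x hx
    obtain ⟨h1, h2, h3, h4, -⟩ := hPr _ ho _ hp
    have hn : ((nm (x.2.1 * x.2.2 ^ 2) : ℕ) : ℝ) = nm x.2.1 * (nm x.2.2 : ℝ) ^ 2 := by
      rw [nm_mul, nm_pow]; push_cast; ring
    have hlo : M ≤ nm x.2.1 * (nm x.2.2 : ℝ) ^ 2 := by
      rw [hMdef]
      exact mul_le_mul h3.1 (pow_le_pow_left₀ (by positivity) h4.1 2) (by positivity) (by positivity)
    have hhi : nm x.2.1 * (nm x.2.2 : ℝ) ^ 2 ≤ 8 * M := by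
      calc nm x.2.1 * (nm x.2.2 : ℝ) ^ 2 ≤ 2 ^ (i + 1) * (2 ^ (j + 1)) ^ 2 :=
            mul_le_mul h3.2 (pow_le_pow_left₀ (by positivity) h4.2 2) (by positivity) (by positivity)
        _ = 8 * M := by rw [hMdef, pow_succ, pow_succ]; ring
    have hpos : 0 < nm x.2.1 * (nm x.2.2 : ℝ) ^ 2 := lt_of_lt_of_le hM0 hlo
    have hy := hYq _ ho
    rw [hXq]
    beta_reduce
    rw [hn]
    constructor
    · rw [hXdef, div_div, div_le_div_iff₀ (by positivity) hpos]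
      have hY4 : Y ≤ 8 * Yq x.1 := by linarith [hy.1]
      have hYq0 : 0 ≤ Yq x.1 := by linarith [hy.1]
      calc Y * (nm x.2.1 * (nm x.2.2 : ℝ) ^ 2) ≤ (8 * Yq x.1) * (8 * M) :=
            mul_le_mul hY4 hhi hpos.le (by positivity)
        _ ≤ Yq x.1 * (M * 64) := by nlinarith [mul_nonneg hYq0 hM0.le]
    · rw [hXdef]
      have hYq0 : 0 ≤ Yq x.1 := by linarith [hy.1]
      exact div_le_div₀ hY0.le hy.2 hM0 hlo
  have hbbS : ∀ x ∈ Fm, ∀ n, bb x n ≠ 0 → n ∈ S (Z ^ 3) := by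
    intro x hx n hn
    have h1 := hbS _ (hmemF x hx).1 n (bs_supp hn)
    rw [mem_S hZ0.le] at h1
    rw [mem_S (by positivity)]
    refine ⟨h1.1.trans ?_, h1.2⟩
    calc Z = Z ^ 1 := (pow_one Z).symm
      _ ≤ Z ^ 3 := pow_le_pow_right₀ hZ (by norm_num)
  have hbbW : ∀ x ∈ Fm, Win (bb x) (Real.log N) R := by
    intro x hx n hn
    exact hbW _ (hmemF x hx).1 n (bs_supp hn)
  have hbp : ∀ o ∈ O, ∀ n, b o n ≠ 0 → IsPrim n := fun o ho n hn =>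
    ((mem_S hZ0.le).1 (hbS o ho n hn)).2.1
  have hPbOK : ∀ x ∈ Fm, PrOK (bb x) (Pb x) := by
    intro x hx
    obtain ⟨ho, hp⟩ := hmemF x hx
    obtain ⟨h1, h2, -⟩ := hPr _ ho _ hp
    exact (hPrd _ ho).bs (hbp _ ho) (h1.mul (h2.pow 2)).ne_zero
  have hWfle : ∀ jj γ φ x, Adm (N ^ 2) ka γ φ x → ∀ P : ℝ, 1 ≤ P →
      (nm γ : ℝ) * ∑ q ∈ Fm, VIc A (bb q) γ φ 1 P (Cls (Pb q γ) jj) ≤ Wf jj (P * nm x) := by
    intro jj γ φ x hadm Q hQ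
    have hQ0 : 0 ≤ Q := by linarith
    have hx1 : (1 : ℝ) ≤ nm x := one_le_nm' hadm.2.2.2.1
    have hQx : 1 ≤ Q * nm x := one_le_mul_of_one_le_of_one_le hQ hx1
    have hQQ : Q ≤ Q * nm x := le_mul_of_one_le_right hQ0 hx1
    rw [hFm, Finset.sum_sigma]
    have hTk : ∀ k ∈ bl (cm * Q), ((pdiv k).card : ℝ) ≤ C₁ * (cm * (Q * nm x)) ^ e₁ := by
      intro k hk
      have hk' := (mem_bl (by positivity)).mp hk
      refine (htau k hk'.1).trans ?_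
      refine mul_le_mul_of_nonneg_left (Real.rpow_le_rpow (Nat.cast_nonneg _) (hk'.2.trans ?_)
        he0.le) (by linarith)
      exact mul_le_mul_of_nonneg_left hQQ hcm0.le
    have h1 : ∀ o ∈ O, ∑ p ∈ Pr o, VIc A (bb ⟨o, p⟩) γ φ 1 Q (Cls (Pb ⟨o, p⟩ γ) jj) ≤
        (C₁ * (cm * (Q * nm x)) ^ e₁) ^ 2 *
          VIc A (b o) γ φ 1 (cm * Q) (Cls (Prd o γ) jj) := by
      intro o ho
      refine VIc_merge A (hbp o ho) (hPrd o ho) jj hadm.1 hadm.2.2.1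
        (fun p hp => ⟨(hPr o ho p hp).1, (hPr o ho p hp).2.1⟩) hQ0 hcm0.le
        (fun p hp => ?_) (by positivity) hTk
      obtain ⟨-, -, h3, h4, -⟩ := hPr o ho p hp
      rw [nm_mul, nm_pow]
      push_cast
      calc (nm p.1 : ℝ) ^ 2 * nm p.2 ≤ (2 ^ (i + 1)) ^ 2 * 2 ^ (j + 1) :=
            mul_le_mul (pow_le_pow_left₀ (by positivity) h3.2 2) h4.2 (by positivity)
              (by positivity)
        _ = cm := by rw [hcm, pow_succ, pow_succ]; ring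
    have h2 := hWle jj γ φ x hadm (cm * Q) (by
      have : (1 : ℝ) ≤ (2 ^ i) ^ 2 * 2 ^ j := one_le_mul_of_one_le_of_one_le (one_le_pow₀ h2i) h2j
      nlinarith)
    have hγ0 : (0 : ℝ) ≤ nm γ := Nat.cast_nonneg _
    calc (nm γ : ℝ) * ∑ o ∈ O, ∑ p ∈ Pr o, VIc A (bb ⟨o, p⟩) γ φ 1 Q (Cls (Pb ⟨o, p⟩ γ) jj)
        ≤ (nm γ : ℝ) * ∑ o ∈ O, (C₁ * (cm * (Q * nm x)) ^ e₁) ^ 2 *
          VIc A (b o) γ φ 1 (cm * Q) (Cls (Prd o γ) jj) :=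
          mul_le_mul_of_nonneg_left (Finset.sum_le_sum h1) hγ0
      _ = (C₁ * (cm * (Q * nm x)) ^ e₁) ^ 2 *
          ((nm γ : ℝ) * ∑ o ∈ O, VIc A (b o) γ φ 1 (cm * Q) (Cls (Prd o γ) jj)) := by
          rw [← Finset.mul_sum]; ring
      _ ≤ (C₁ * (cm * (Q * nm x)) ^ e₁) ^ 2 * W jj (cm * Q * nm x) :=
          mul_le_mul_of_nonneg_left h2 (by positivity)
      _ = Wf jj (Q * nm x) := by
          rw [hWf]
          beta_reduce
          have e2 : ((cm * (Q * nm x)) ^ e₁) ^ 2 = (cm * (Q * nm x)) ^ (2 * e₁) := by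
            rw [← Real.rpow_natCast ((cm * (Q * nm x)) ^ e₁), ← Real.rpow_mul (by positivity)]
            congr 1
            push_cast; ring
          have e3 : cm * Q * nm x = cm * (Q * nm x) := by ring
          rw [max_eq_right hQx, mul_pow, e2, e3]
  -- the constant of the family
  set W2 : Bool → ℝ := fun jj => C₁ ^ 2 * (8 * c) ^ (2 * e₁) * Z ^ (16 * e₁) *
    ((lam / Lt) ^ (1 / 3 : ℝ) * (P * W1 jj)) with hW2
  have hW20 : ∀ jj, 0 ≤ W2 jj := fun jj => by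
    have := hW1 jj
    rw [hW2]
    beta_reduce
    positivity
  have hIX : Il N lam X = Il N lam Y * M := by unfold Il; rw [hXdef]; field_simp
  have hIX0 : 0 < Il N lam X := by rw [hIX]; positivity
  have hIXZ : Il N lam X ≤ Z ^ 5 := by
    rw [hIX]
    have h1 : Il N lam Y ≤ Z ^ 3 := by
      unfold Il
      rw [div_le_iff₀ hY0]
      have h2 : N * lam ≤ Z * Z := mul_le_mul hNZ (hlamL.trans hLZ) hlam0.le hZ0.le
      have h3 : Z ^ 2 * 1 ≤ Z ^ 2 * (Y * Z) := mul_le_mul_of_nonneg_left hYZ1 (by positivity)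
      calc N * lam ≤ Z ^ 2 * 1 := by linarith [h2, sq Z]
        _ ≤ Z ^ 2 * (Y * Z) := h3
        _ = Z ^ 3 * Y := by ring
    calc Il N lam Y * M ≤ Z ^ 3 * Z ^ 2 := mul_le_mul h1 hMZ hM0.le (by positivity)
      _ = Z ^ 5 := by ring
  have hWf1 : ∀ jj, Wf jj (c * Il N lam X) ≤ W2 jj := by
    intro jj
    have hc0 : 0 < c := by linarith
    rw [hWf]
    beta_reduce
    have h1 : (cm * max 1 (c * Il N lam X)) ^ (2 * e₁) ≤ (8 * c) ^ (2 * e₁) * Z ^ (16 * e₁) := by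
      have h2 : max 1 (c * Il N lam X) ≤ c * Z ^ 5 := by
        refine max_le ?_ ?_
        · have : (1 : ℝ) ≤ Z ^ 5 := one_le_pow₀ hZ
          nlinarith
        · exact mul_le_mul_of_nonneg_left hIXZ hc0.le
      have h3 : cm * max 1 (c * Il N lam X) ≤ (8 * c) * Z ^ (8 : ℕ) := by
        have h4 : (0 : ℝ) ≤ max 1 (c * Il N lam X) := le_trans zero_le_one (le_max_left _ _)
        calc cm * max 1 (c * Il N lam X) ≤ (8 * Z ^ 3) * (c * Z ^ 5) :=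
              mul_le_mul hcmZ h2 h4 (by positivity)
          _ = (8 * c) * Z ^ (8 : ℕ) := by ring
      have h5 : (0 : ℝ) ≤ cm * max 1 (c * Il N lam X) :=
        mul_nonneg hcm0.le (le_trans zero_le_one (le_max_left _ _))
      calc (cm * max 1 (c * Il N lam X)) ^ (2 * e₁) ≤ ((8 * c) * Z ^ (8 : ℕ)) ^ (2 * e₁) :=
            Real.rpow_le_rpow h5 h3 (by positivity)
        _ = (8 * c) ^ (2 * e₁) * Z ^ (16 * e₁) := by
            rw [Real.mul_rpow (by positivity) (by positivity), ← Real.rpow_natCast Z 8,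
              ← Real.rpow_mul hZ0.le]
            congr 2
            push_cast; ring
    have h6 : W jj (cm * (c * Il N lam X)) ≤ (lam / Lt) ^ (1 / 3 : ℝ) * (P * W1 jj) := by
      have e1 : cm * (c * Il N lam X) = 8 * c * Il N lam Y * P ^ 3 := by
        rw [hIX, hcm, hPdef, hMdef]; ring
      have hP3' : lam * P ^ 3 ≤ Lt := by
        refine le_trans (mul_le_mul_of_nonneg_left ?_ hlam0.le) hP3
        exact pow_le_pow_left₀ (by linarith) hPP₁ 3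
      have hP0 : 0 < P := by linarith
      have e2 : 8 * c * Il N lam Y * P ^ 3 ≤ 8 * c * Il N Lt Y := by
        have e4 : 8 * c * Il N lam Y * P ^ 3 = (8 * c * (N / Y)) * (lam * P ^ 3) := by
          unfold Il; ring
        have e5 : 8 * c * Il N Lt Y = (8 * c * (N / Y)) * Lt := by
          unfold Il; ring
        rw [e4, e5]
        exact mul_le_mul_of_nonneg_left hP3' (by positivity)
      have hIlt0 : 0 < Il N Lt Y := by unfold Il; positivity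
      have h7 := (hW jj).low (8 * c * Il N lam Y * P ^ 3) (8 * c * Il N Lt Y) (by positivity) e2
      have e3 : 8 * c * Il N lam Y * P ^ 3 / (8 * c * Il N Lt Y) = lam / Lt * P ^ 3 := by
        unfold Il; field_simp
      have e6 : (lam / Lt * P ^ 3) ^ (1 / 3 : ℝ) = (lam / Lt) ^ (1 / 3 : ℝ) * P := by
        rw [Real.mul_rpow (by positivity) (by positivity), ← Real.rpow_natCast P 3,
          ← Real.rpow_mul hP0.le]
        norm_num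
      rw [e3, e6] at h7
      rw [e1]
      refine h7.trans ?_
      have e7 : (lam / Lt) ^ (1 / 3 : ℝ) * (P * W1 jj) = (lam / Lt) ^ (1 / 3 : ℝ) * P * W1 jj := by
        ring
      rw [e7]
      exact mul_le_mul_of_nonneg_left (hW1le jj) (by positivity)
    have h8 : 0 ≤ W jj (cm * (c * Il N lam X)) := (hW jj).nonneg _ (by positivity)
    calc C₁ ^ 2 * (cm * max 1 (c * Il N lam X)) ^ (2 * e₁) * W jj (cm * (c * Il N lam X))
        ≤ C₁ ^ 2 * ((8 * c) ^ (2 * e₁) * Z ^ (16 * e₁)) *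
          ((lam / Lt) ^ (1 / 3 : ℝ) * (P * W1 jj)) := by
          gcongr
      _ = W2 jj := by rw [hW2]; ring
  -- application
  have hZ3 : (1 : ℝ) ≤ Z ^ 3 := one_le_pow₀ hZ
  have hZZ3 : Z ≤ Z ^ 3 := by
    calc Z = Z ^ 1 := (pow_one Z).symm
      _ ≤ Z ^ 3 := pow_le_pow_right₀ hZ (by norm_num)
  have hXZ : 1 ≤ X * Z ^ 3 := by
    rw [hXdef, div_mul_eq_mul_div, one_le_div hM0]
    calc M ≤ Z ^ 2 * 1 := by linarith
      _ ≤ Z ^ 2 * (Y * Z) := mul_le_mul_of_nonneg_left hYZ1 (by positivity)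
      _ = Y * Z ^ 3 := by ring
  have h := hmain (Z ^ 3) N X lam hZ3 hN (hNZ.trans hZZ3) hX0 (hXY.trans (hYZ.trans hZZ3)) hXZ hlam
    ((hlamL.trans hLZ).trans hZZ3)
    (lt_of_le_of_lt (mul_le_mul_of_nonneg_right hlamL (Real.exp_pos R).le) hLN)
    ka hkap (hkaZ.trans hZZ3) Fm bb Xq hXqb hbbS hbbW Pb hPbOK Wf hWfS hWfle W2 hW20 hWf1 t
  rw [hFm, Finset.sum_sigma] at h
  have hZε : (Z ^ 3) ^ (ε / 6) * Z ^ (16 * e₁) ≤ Z ^ ε := by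
    rw [← Real.rpow_natCast Z 3, ← Real.rpow_mul hZ0.le, ← Real.rpow_add hZ0]
    refine Real.rpow_le_rpow_of_exponent_le hZ ?_
    push_cast
    linarith
  have hXP : (2 : ℝ) ^ j * X * P = Y := by
    rw [hXdef, hPdef, hMdef]; field_simp
  have hterm : ∀ jj : Bool, (2 : ℝ) ^ j * (C₂ * (Z ^ 3) ^ (ε / 6) * (1 + |t|) ^ J *
      (X * nfx jj lam (Il N lam X) * W2 jj)) ≤
      C₂ * (C₁ ^ 2 * (8 * c) ^ (2 * e₁)) * Z ^ ε *
        (1 + |t|) ^ J * (Y * nfx jj lam (Il N lam Y) * ((lam / Lt) ^ (1 / 3 : ℝ) * W1 jj)) := by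
    intro jj
    have hnf : nfx jj lam (Il N lam X) ≤ nfx jj lam (Il N lam Y) := by
      refine nfx_anti jj hlam0.le hIl0 ?_
      rw [hIX]; exact le_mul_of_one_le_right hIl0.le hM1
    have hnf0 := nfx_nonneg jj hlam0.le hIX0.le
    have hnf1 := nfx_nonneg jj hlam0.le hIl0.le
    have hw1 := hW1 jj
    calc (2 : ℝ) ^ j * (C₂ * (Z ^ 3) ^ (ε / 6) * (1 + |t|) ^ J *
          (X * nfx jj lam (Il N lam X) * W2 jj))
        = (C₂ * (C₁ ^ 2 * (8 * c) ^ (2 * e₁))) * ((Z ^ 3) ^ (ε / 6) * Z ^ (16 * e₁)) *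
          (1 + |t|) ^ J * ((2 ^ j * X * P) * nfx jj lam (Il N lam X) *
            ((lam / Lt) ^ (1 / 3 : ℝ) * W1 jj)) := by rw [hW2]; ring
      _ = (C₂ * (C₁ ^ 2 * (8 * c) ^ (2 * e₁))) * ((Z ^ 3) ^ (ε / 6) * Z ^ (16 * e₁)) *
          (1 + |t|) ^ J * (Y * nfx jj lam (Il N lam X) * ((lam / Lt) ^ (1 / 3 : ℝ) * W1 jj)) := by
            rw [hXP]
      _ ≤ (C₂ * (C₁ ^ 2 * (8 * c) ^ (2 * e₁))) * Z ^ ε *
          (1 + |t|) ^ J * (Y * nfx jj lam (Il N lam Y) * ((lam / Lt) ^ (1 / 3 : ℝ) * W1 jj)) := by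
            gcongr
  calc (2 : ℝ) ^ j * ∑ o ∈ O, ∑ p ∈ Pr o, ∑ κ ∈ KSa lam ka,
        ‖XS χ w (Yq o / nm (p.1 * p.2 ^ 2)) t (Mode405.bs (b o) (p.1 * p.2 ^ 2)) κ‖ ^ 2
      ≤ 2 ^ j * (C₂ * (Z ^ 3) ^ (ε / 6) * (1 + |t|) ^ J *
          ∑ jj : Bool, (X * nfx jj lam (Il N lam X) * W2 jj)) :=
        mul_le_mul_of_nonneg_left h (by positivity)
    _ = ∑ jj : Bool, (2 : ℝ) ^ j * (C₂ * (Z ^ 3) ^ (ε / 6) * (1 + |t|) ^ J *
          (X * nfx jj lam (Il N lam X) * W2 jj)) := by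
        rw [Finset.mul_sum, Finset.mul_sum]
    _ ≤ ∑ jj : Bool, C₂ * (C₁ ^ 2 * (8 * c) ^ (2 * e₁)) * Z ^ ε *
        (1 + |t|) ^ J * (Y * nfx jj lam (Il N lam Y) * ((lam / Lt) ^ (1 / 3 : ℝ) * W1 jj)) :=
        Finset.sum_le_sum fun jj _ => hterm jj
    _ = _ := by rw [Finset.mul_sum]

end Crest.Agent.R017.MX744
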