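import Crest.Agent.R017.PoH11_347

/-!
# Row 17, block C70, leaf E3 (HB form of the MODE lemma), part 12 (helper347)

`reorg` : the sum over the kernels and `g ∣ l₂` in dyadic blocks; `pohs_v` : all blocks, one
weight.
-/

set_option autoImplicit false

noncomputable section

open Complex MeasureTheory
open scoped ComplexConjugate Classical

namespace Crest.Agent.R017.PoH347

open Crest.Agent.R012 Crest.Agent.R012.Eis Crest.Agent.R012.MC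
open Crest.Agent.R012.LS2 (S mem_S bl mem_bl)
open Crest.Agent.R012.Mob705 (mu pdiv mem_pdiv)
open Crest.Agent.R012.Weight600 (osc pw norm_osc)
open Crest.Agent.R012.NonCube52 (Ker kv Good)
open Crest.Agent.R017.E1551 (nmpos jb jb_pos nm_ge_one)
open Crest.Agent.R017.BD829
open Crest.Agent.R017.Mode405 (Slp nf Il VI KS mem_KS XS)

/-- the number of dyadic blocks -/
def Jn (lam₀ : ℝ) : ℕ := Nat.log 2 ⌊lam₀⌋₊ + 1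

lemma log_lt_Jn {lam₀ : ℝ} {n : ℕ} (h : (n : ℝ) ≤ lam₀) : Nat.log 2 n < Jn lam₀ := by
  unfold Jn
  exact Nat.lt_succ_of_le (Nat.log_mono_right (Nat.le_floor h))

lemma Jn_le {ε : ℝ} (hε : 0 < ε) : ∃ C : ℝ, 0 < C ∧ ∀ Y Z : ℝ, 1 ≤ Y → Y ≤ Z →
    (Jn Y : ℝ) ≤ C * Z ^ ε := by
  refine ⟨1 + 2 / ε, by positivity, fun Y Z hY hYZ => ?_⟩
  have hZ1 : 1 ≤ Z := hY.trans hYZ
  have h4 : 1 ≤ Z ^ ε := Real.one_le_rpow hZ1 hε.le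
  have hfl : 1 ≤ ⌊Y⌋₊ := Nat.le_floor (by simpa using hY)
  have h1 : (2 : ℝ) ^ (Nat.log 2 ⌊Y⌋₊) ≤ Z := by
    have h2 := Nat.pow_log_le_self 2 (by omega : ⌊Y⌋₊ ≠ 0)
    calc (2 : ℝ) ^ (Nat.log 2 ⌊Y⌋₊) ≤ (⌊Y⌋₊ : ℝ) := by exact_mod_cast h2
      _ ≤ Y := Nat.floor_le (by linarith)
      _ ≤ Z := hYZ
  have h2 : (Nat.log 2 ⌊Y⌋₊ : ℝ) * Real.log 2 ≤ Real.log Z := by
    rw [← Real.log_pow]
    exact Real.log_le_log (by positivity) h1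
  have h3 := Real.log_le_rpow_div (x := Z) (by linarith) hε
  have h5 : (1 : ℝ) / 2 ≤ Real.log 2 := by linarith [Real.log_two_gt_d9]
  have h6 : (0 : ℝ) ≤ Nat.log 2 ⌊Y⌋₊ := Nat.cast_nonneg _
  unfold Jn
  push_cast
  have h7 : (Nat.log 2 ⌊Y⌋₊ : ℝ) ≤ 2 * (Z ^ ε / ε) := by nlinarith
  calc (Nat.log 2 ⌊Y⌋₊ : ℝ) + 1 ≤ 2 * (Z ^ ε / ε) + Z ^ ε := by linarith
    _ = _ := by ring

/-- **the sum over the kernels in dyadic blocks** -/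
theorem reorg {lam₀ : ℝ} (hlam : 0 ≤ lam₀) {Ψ : ℕ × ℕ → Eis → Eis → Eis → ℝ}
    (hΨ : ∀ p g l x, 0 ≤ Ψ p g l x) :
    ∑ κ ∈ KS lam₀, ∑ g ∈ pdiv κ.2.2, Ψ κ.1 g (κ.2.2 / g) κ.2.1 ≤
      ∑ p ∈ Finset.range 3 ×ˢ Finset.range 3, ∑ g ∈ S lam₀, ∑ j3 ∈ Finset.range (Jn lam₀),
        ∑ j1 ∈ Finset.range (Jn lam₀), ∑ l ∈ T3 lam₀ g j3, ∑ x ∈ H1 lam₀ p g l j1,
          Ψ p g l x := by
  set R3 : Finset (ℕ × ℕ) := Finset.range 3 ×ˢ Finset.range 3 with hR3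
  set J := Jn lam₀ with hJ
  -- the big set
  set U : Finset ((ℕ × ℕ) × (Eis × (ℕ × (ℕ × (Eis × Eis))))) :=
    R3 ×ˢ (S lam₀ ×ˢ (Finset.range J ×ˢ (Finset.range J ×ˢ (S lam₀ ×ˢ S lam₀)))) with hU
  set Gf : (ℕ × ℕ) × (Eis × (ℕ × (ℕ × (Eis × Eis)))) → ℝ := fun y =>
    if Squarefree (y.2.1 * y.2.2.2.2.1) ∧ Nat.log 2 (nm y.2.2.2.2.1) = y.2.2.1 then
      (if Good (y.1, (y.2.2.2.2.2, y.2.1 * y.2.2.2.2.1)) ∧
          (nm (kv (y.1, (y.2.2.2.2.2, y.2.1 * y.2.2.2.2.1))) : ℝ) ≤ lam₀ ∧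
          Nat.log 2 (nm y.2.2.2.2.2) = y.2.2.2.1 then
        Ψ y.1 y.2.1 y.2.2.2.2.1 y.2.2.2.2.2 else 0) else 0 with hGf
  have hG0 : ∀ y, 0 ≤ Gf y := by
    intro y
    rw [hGf]
    beta_reduce
    split_ifs
    · exact hΨ _ _ _ _
    · exact le_rfl
    · exact le_rfl
  have hR : ∑ p ∈ R3, ∑ g ∈ S lam₀, ∑ j3 ∈ Finset.range J,
        ∑ j1 ∈ Finset.range J, ∑ l ∈ T3 lam₀ g j3, ∑ x ∈ H1 lam₀ p g l j1,
          Ψ p g l x = ∑ y ∈ U, Gf y := by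
    rw [hU]
    simp only [Finset.sum_product]
    refine Finset.sum_congr rfl fun p _ => Finset.sum_congr rfl fun g _ =>
      Finset.sum_congr rfl fun j3 _ => Finset.sum_congr rfl fun j1 _ => ?_
    unfold T3
    rw [Finset.sum_filter]
    refine Finset.sum_congr rfl fun l _ => ?_
    rw [hGf]
    beta_reduce
    split_ifs with h
    · unfold H1
      rw [Finset.sum_filter]
    · rw [Finset.sum_const_zero]
  rw [hR, Finset.sum_sigma']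
  set i : (Σ _ : Ker, Eis) → (ℕ × ℕ) × (Eis × (ℕ × (ℕ × (Eis × Eis)))) := fun x =>
    (x.1.1, (x.2, (Nat.log 2 (nm (x.1.2.2 / x.2)), (Nat.log 2 (nm x.1.2.1),
      (x.1.2.2 / x.2, x.1.2.1))))) with hi
  have hfac : ∀ x ∈ (KS lam₀).sigma (fun κ => pdiv κ.2.2), x.2 * (x.1.2.2 / x.2) = x.1.2.2 ∧
      Good x.1 ∧ (nm (kv x.1) : ℝ) ≤ lam₀ ∧ IsPrim x.2 ∧ IsPrim (x.1.2.2 / x.2) ∧
      Squarefree (x.2 * (x.1.2.2 / x.2)) := by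
    intro x hx
    obtain ⟨h1, h2⟩ := Finset.mem_sigma.mp hx
    obtain ⟨h3, h4⟩ := mem_KS.mp h1
    obtain ⟨h5, h6⟩ := (mem_pdiv h3.prim2.ne_zero).mp h2
    have h7 : x.2 * (x.1.2.2 / x.2) = x.1.2.2 := by
      obtain ⟨n, hn⟩ := h6
      rw [hn, mul_div_cancel_left₀ _ h5.ne_zero]
    refine ⟨h7, h3, h4, h5, ?_, ?_⟩
    · have : IsPrim (x.2 * (x.1.2.2 / x.2)) := by rw [h7]; exact h3.prim2
      exact this.of_mul_left h5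
    · rw [h7]; exact h3.sqf2
  have hinj : Set.InjOn i ((KS lam₀).sigma (fun κ => pdiv κ.2.2) : Finset _) := by
    intro x hx y hy hxy
    have hx' := (hfac x hx).1
    have hy' := (hfac y hy).1
    rw [hi] at hxy
    simp only [Prod.mk.injEq] at hxy
    obtain ⟨h1, h2, -, -, h5, h6⟩ := hxy
    have h7 : x.1.2.2 = y.1.2.2 := by
      calc x.1.2.2 = x.2 * (x.1.2.2 / x.2) := hx'.symm
        _ = y.2 * (y.1.2.2 / y.2) := by rw [h5, h2]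
        _ = y.1.2.2 := hy'
    have h8 : x.1 = y.1 := Prod.ext h1 (Prod.ext h6 h7)
    exact Sigma.ext h8 (heq_of_eq h2)
  have hval : ∀ x ∈ (KS lam₀).sigma (fun κ => pdiv κ.2.2),
      Ψ x.1.1 x.2 (x.1.2.2 / x.2) x.1.2.1 = Gf (i x) := by
    intro x hx
    obtain ⟨h1, h2, h3, h4, h5, h6⟩ := hfac x hx
    rw [hGf, hi]
    beta_reduce
    rw [if_pos ⟨h6, rfl⟩, if_pos]
    rw [h1]
    exact ⟨h2, h3, rfl⟩
  rw [Finset.sum_congr rfl hval, ← Finset.sum_image (f := Gf) hinj]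
  refine Finset.sum_le_sum_of_subset_of_nonneg (fun y hy => ?_) (fun y _ _ => hG0 y)
  obtain ⟨x, hx, rfl⟩ := Finset.mem_image.mp hy
  obtain ⟨h1, h2, h3, h4, h5, h6⟩ := hfac x hx
  have n1 := nm_ge_one h2.prim1.ne_zero
  have n2 := nm_ge_one h2.prim2.ne_zero
  have n4 := nm_ge_one h4.ne_zero
  have n5 := nm_ge_one h5.ne_zero
  have hkv := NonCube52.nm_kv_ge x.1
  have hn2 : (nm x.1.2.2 : ℝ) = nm x.2 * nm (x.1.2.2 / x.2) := by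
    conv_lhs => rw [← h1, nm_mul]
    push_cast
    rfl
  have hl1 : (nm x.1.2.1 : ℝ) ≤ lam₀ := by
    have : (1 : ℝ) ≤ (nm x.1.2.2 : ℝ) ^ 2 := one_le_pow₀ n2
    nlinarith
  have hl2 : (nm x.1.2.2 : ℝ) ≤ lam₀ := by
    have h7 : (nm x.1.2.2 : ℝ) ≤ (nm x.1.2.2 : ℝ) ^ 2 := by nlinarith
    have h8 : (nm x.1.2.2 : ℝ) ^ 2 ≤ nm x.1.2.1 * (nm x.1.2.2 : ℝ) ^ 2 :=
      le_mul_of_one_le_left (by positivity) n1
    linarith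
  have hlg : (nm x.2 : ℝ) ≤ lam₀ := by nlinarith
  have hll : (nm (x.1.2.2 / x.2) : ℝ) ≤ lam₀ := by nlinarith
  have hs : Squarefree x.2 ∧ Squarefree (x.1.2.2 / x.2) := (squarefree_mul_iff.mp h6).2
  rw [hU, hi]
  simp only [Finset.mem_product, Finset.mem_range, hR3]
  refine ⟨⟨h2.hi, h2.hj⟩, (mem_S hlam).mpr ⟨hlg, h4, hs.1⟩, log_lt_Jn hll, log_lt_Jn hl1,
    (mem_S hlam).mpr ⟨hll, h5, hs.2⟩, (mem_S hlam).mpr ⟨hl1, h2.prim1, h2.sqf1⟩⟩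

/-- **all blocks**, one weight -/
theorem pohs_v {R : ℝ} (hR : 0 ≤ R) {A a : ℕ} (hA : 1 < A) {ε : ℝ} (hε0 : 0 < ε)
    (hε : ε ≤ 1) :
    ∃ C : ℝ, 0 < C ∧ ∀ (v : ℝ → ℝ), Wgt v → ∀ C0 : ℝ, KT v (max R 2) A (a + 4) C0 →
      ∀ Z N X lam₀ : ℝ, 1 ≤ Z → 0 < N → N ≤ Z → 0 < X → 1 ≤ X * Z →
      1 ≤ lam₀ → lam₀ ≤ Z → lam₀ * Real.exp R < N →
      ∀ (Q : Finset Eis) (b : Eis → Eis → ℂ) (Xq : Eis → ℝ),
      (∀ q ∈ Q, X / 4 ≤ Xq q ∧ Xq q ≤ X) →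
      (∀ q ∈ Q, ∀ n, b q n ≠ 0 → n ∈ S Z) → (∀ q ∈ Q, Win (b q) (Real.log N) R) →
      ∀ W : ℝ → ℝ, Slp a W →
      (∀ g f π : Eis, IsPrim g → IsPrim f → IsPrim π → ∀ P : ℝ, 1 ≤ P →
        (nm g : ℝ) * nm f * ∑ q ∈ Q, VI A (b q) (g * f) f π P ≤ W P) →
      ∀ W1 : ℝ, 0 ≤ W1 → (∀ E : ℝ, 1 ≤ E → E ≤ lam₀ →
        W (8 * 86093442 * 17496 * Il N lam₀ X * E) ≤ E * W1) →
      ∑ q ∈ Q, ∑ κ ∈ KS lam₀, ∑ g ∈ pdiv κ.2.2,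
        ‖Sh v (Xq q) (ps κ) (bg (b q) g (κ.2.2 / g)) (g * κ.2.1)‖ ^ 2 ≤
        C * (1 + C0) ^ 2 * Z ^ (11 * ε) * (X * nf lam₀ (Il N lam₀ X) * W1) := by
  obtain ⟨Cb, hCb, hblk⟩ := fam_block hR (A := A) (a := a) hA hε0 hε
  obtain ⟨Ch, hCh, hharm⟩ := harm hε0
  obtain ⟨Cj, hCj, hJn⟩ := Jn_le hε0
  refine ⟨9 * (Ch * (Cj * (Cj * Cb))), by positivity, ?_⟩
  intro v hv C0 hk Z N X lam₀ hZ hN hNZ hX hXZ hlam1 hlamZ hlamN Q b Xq hXq hb hwb W hW hVI W1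
    hW1 hWW
  have hZ0 : 0 < Z := by linarith
  have hlam0 : 0 ≤ lam₀ := by linarith
  have hC0 := hk.1
  have hI : 0 < Il N lam₀ X := by unfold Il; positivity
  set T : ℝ := X * nf lam₀ (Il N lam₀ X) * W1 with hT
  have hT0 : 0 ≤ T := by rw [hT]; unfold nf; positivity
  -- the family inside
  have e1 : ∑ q ∈ Q, ∑ κ ∈ KS lam₀, ∑ g ∈ pdiv κ.2.2,
        ‖Sh v (Xq q) (ps κ) (bg (b q) g (κ.2.2 / g)) (g * κ.2.1)‖ ^ 2 =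
      ∑ κ ∈ KS lam₀, ∑ g ∈ pdiv κ.2.2, (fun (p : ℕ × ℕ) (g l x : Eis) => ∑ q ∈ Q,
        ‖Sh v (Xq q) (ps (p, (1, 1))) (bg (b q) g l) (g * x)‖ ^ 2) κ.1 g (κ.2.2 / g) κ.2.1 := by
    rw [Finset.sum_comm]
    refine Finset.sum_congr rfl fun κ _ => ?_
    rw [Finset.sum_comm]
    rfl
  rw [e1]
  refine (reorg hlam0 (Ψ := fun (p : ℕ × ℕ) (g l x : Eis) => ∑ q ∈ Q,
        ‖Sh v (Xq q) (ps (p, (1, 1))) (bg (b q) g l) (g * x)‖ ^ 2)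
    (fun p g l x => Finset.sum_nonneg fun _ _ => by positivity)).trans ?_
  have h1 : ∀ p ∈ Finset.range 3 ×ˢ Finset.range 3, ∀ g ∈ S lam₀,
      ∀ j3 ∈ Finset.range (Jn lam₀), ∀ j1 ∈ Finset.range (Jn lam₀),
      ∑ l ∈ T3 lam₀ g j3, ∑ x ∈ H1 lam₀ p g l j1, ∑ q ∈ Q,
        ‖Sh v (Xq q) (ps (p, (1, 1))) (bg (b q) g l) (g * x)‖ ^ 2 ≤
      Cb * (1 + C0) ^ 2 * Z ^ (8 * ε) * T * (1 / nm g) := by
    intro p hp g hg j3 _ j1 _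
    have hp' := Finset.mem_product.mp hp
    have e2 : ∑ l ∈ T3 lam₀ g j3, ∑ x ∈ H1 lam₀ p g l j1, ∑ q ∈ Q,
        ‖Sh v (Xq q) (ps (p, (1, 1))) (bg (b q) g l) (g * x)‖ ^ 2 =
        ∑ q ∈ Q, ∑ l ∈ T3 lam₀ g j3, ∑ x ∈ H1 lam₀ p g l j1,
        ‖Sh v (Xq q) (ps (p, (1, 1))) (bg (b q) g l) (g * x)‖ ^ 2 := by
      symm
      rw [Finset.sum_comm]
      refine Finset.sum_congr rfl fun l _ => ?_
      rw [Finset.sum_comm]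
    refine e2.le.trans ?_
    refine (hblk v hv C0 hk Z N X lam₀ hZ hN hNZ hX hXZ hlam1 hlamZ hlamN Q b Xq hXq hb hwb W hW
      hVI W1 hW1 hWW p (Finset.mem_range.mp hp'.2) g ((mem_S hlam0).1 hg).2.1 j1 j3).trans
      (le_of_eq ?_)
    rw [← hT]
    ring
  have hJ0 : (0 : ℝ) ≤ Jn lam₀ := Nat.cast_nonneg _
  have hJ := hJn lam₀ Z hlam1 hlamZ
  have hH := hharm lam₀ Z hlam1 hlamZ
  set K : ℝ := Cb * (1 + C0) ^ 2 * Z ^ (8 * ε) * T with hK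
  have hK0 : 0 ≤ K := by positivity
  calc ∑ p ∈ Finset.range 3 ×ˢ Finset.range 3, ∑ g ∈ S lam₀, ∑ j3 ∈ Finset.range (Jn lam₀),
        ∑ j1 ∈ Finset.range (Jn lam₀), ∑ l ∈ T3 lam₀ g j3, ∑ x ∈ H1 lam₀ p g l j1,
          ∑ q ∈ Q, ‖Sh v (Xq q) (ps (p, (1, 1))) (bg (b q) g l) (g * x)‖ ^ 2
      ≤ ∑ _p ∈ Finset.range 3 ×ˢ Finset.range 3, ∑ g ∈ S lam₀, ∑ _j3 ∈ Finset.range (Jn lam₀),
        ∑ _j1 ∈ Finset.range (Jn lam₀), K * (1 / nm g) :=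
        Finset.sum_le_sum fun p hp => Finset.sum_le_sum fun g hg => Finset.sum_le_sum fun j3 hj3 =>
          Finset.sum_le_sum fun j1 hj1 => h1 p hp g hg j3 hj3 j1 hj1
    _ = 9 * ((∑ g ∈ S lam₀, (1 / (nm g : ℝ))) * ((Jn lam₀ : ℝ) * ((Jn lam₀ : ℝ) * K))) := by
        have e3 : ∑ g ∈ S lam₀, ((Jn lam₀ : ℝ) * ((Jn lam₀ : ℝ) * (K * (1 / nm g)))) =
            (∑ g ∈ S lam₀, (1 / (nm g : ℝ))) * ((Jn lam₀ : ℝ) * ((Jn lam₀ : ℝ) * K)) := by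
          rw [Finset.sum_mul]
          exact Finset.sum_congr rfl fun g _ => by ring
        simp only [Finset.sum_const, Finset.card_product, Finset.card_range, nsmul_eq_mul]
        rw [e3]
        push_cast
        ring
    _ ≤ 9 * ((Ch * Z ^ ε) * ((Cj * Z ^ ε) * ((Cj * Z ^ ε) * K))) := by gcongr
    _ = 9 * (Ch * (Cj * (Cj * Cb))) * (1 + C0) ^ 2 * (Z ^ ε * Z ^ ε * Z ^ ε * Z ^ (8 * ε)) * T := by
        rw [hK]; ring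
    _ = _ := by
        rw [← Real.rpow_add hZ0, ← Real.rpow_add hZ0, ← Real.rpow_add hZ0]
        congr 3
        ring

end Crest.Agent.R017.PoH347
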