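import Crest.Agent.R017.PoHv_72
import Crest.Agent.R017.PoH12_347

/-!
# Row 17, E3 with principal frequencies, part 6 (helper72)

`fam_blockx`, `reorgx`, `pohs_vx`, **`pohs_x`** : the structured bound in the form (hW°) with the
frequencies split into principal and other ones.
-/

set_option autoImplicit false

noncomputable section

open Complex MeasureTheory
open scoped ComplexConjugate Classical

namespace Crest.Agent.R017.PoHx72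

open Crest.Agent.R012 Crest.Agent.R012.Eis Crest.Agent.R012.MC
open Crest.Agent.R012.LS2 (S mem_S bl mem_bl)
open Crest.Agent.R012.Mob705 (mu pdiv mem_pdiv)
open Crest.Agent.R012.Weight600 (osc pw norm_osc)
open Crest.Agent.R012.NonCube52 (Ker kv Good)
open Crest.Agent.R017.E1551 (nmpos jb jb_pos nm_ge_one)
open Crest.Agent.R017.BD829
open Crest.Agent.R017.PoH347
open Crest.Agent.R017.Mode405 (Slp nf Il VI KS mem_KS PoHS XS)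

lemma swap5x {ι : Type} {F : ι → Eis → Eis → Eis → Eis → ℝ} (Q : Finset ι) (T D Fs : Finset Eis)
    (E : Eis → Finset Eis) :
    ∑ q ∈ Q, ∑ l ∈ T, ∑ d ∈ D, ∑ e ∈ E d, ∑ f ∈ Fs, F q l d e f =
      ∑ d ∈ D, ∑ e ∈ E d, ∑ f ∈ Fs, ∑ q ∈ Q, ∑ l ∈ T, F q l d e f := by
  calc ∑ q ∈ Q, ∑ l ∈ T, ∑ d ∈ D, ∑ e ∈ E d, ∑ f ∈ Fs, F q l d e f
      = ∑ q ∈ Q, ∑ d ∈ D, ∑ l ∈ T, ∑ e ∈ E d, ∑ f ∈ Fs, F q l d e f :=
        Finset.sum_congr rfl fun q _ => Finset.sum_comm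
    _ = ∑ d ∈ D, ∑ q ∈ Q, ∑ l ∈ T, ∑ e ∈ E d, ∑ f ∈ Fs, F q l d e f := Finset.sum_comm
    _ = ∑ d ∈ D, ∑ q ∈ Q, ∑ e ∈ E d, ∑ l ∈ T, ∑ f ∈ Fs, F q l d e f :=
        Finset.sum_congr rfl fun d _ => Finset.sum_congr rfl fun q _ => Finset.sum_comm
    _ = ∑ d ∈ D, ∑ e ∈ E d, ∑ q ∈ Q, ∑ l ∈ T, ∑ f ∈ Fs, F q l d e f :=
        Finset.sum_congr rfl fun d _ => Finset.sum_comm
    _ = ∑ d ∈ D, ∑ e ∈ E d, ∑ q ∈ Q, ∑ f ∈ Fs, ∑ l ∈ T, F q l d e f :=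
        Finset.sum_congr rfl fun d _ => Finset.sum_congr rfl fun e _ =>
          Finset.sum_congr rfl fun q _ => Finset.sum_comm
    _ = ∑ d ∈ D, ∑ e ∈ E d, ∑ f ∈ Fs, ∑ q ∈ Q, ∑ l ∈ T, F q l d e f :=
        Finset.sum_congr rfl fun d _ => Finset.sum_congr rfl fun e _ => Finset.sum_comm

/-- **one block of the family**, both classes -/
theorem fam_blockx {R : ℝ} (hR : 0 ≤ R) {A a : ℕ} (hA : 1 < A) {ε : ℝ} (hε0 : 0 < ε)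
    (hε : ε ≤ 1) :
    ∃ C : ℝ, 0 < C ∧ ∀ (v : ℝ → ℝ), Wgt v → ∀ C0 : ℝ, KT v (max R 2) A (a + 4) C0 →
      ∀ Z N X lam₀ : ℝ, 1 ≤ Z → 0 < N → N ≤ Z → 0 < X → 1 ≤ X * Z →
      1 ≤ lam₀ → lam₀ ≤ Z → lam₀ * Real.exp R < N →
      ∀ {ι : Type} (Q : Finset ι) (b : ι → Eis → ℂ) (Xq : ι → ℝ),
      (∀ q ∈ Q, X / 64 ≤ Xq q ∧ Xq q ≤ X) →
      (∀ q ∈ Q, ∀ n, b q n ≠ 0 → n ∈ S Z) → (∀ q ∈ Q, Win (b q) (Real.log N) R) →
      ∀ (ka : Eis) (Pr : ι → Eis → Eis → Prop), (∀ q ∈ Q, ∀ D, D ≠ 0 → Cub (Pr q D)) →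
      (∀ q ∈ Q, ∀ D H, IsPrim D → H ≠ 0 → (∃ m, b q (D * m) ≠ 0) → Pr q D H →
        ∃ s t, D ^ 2 * H * s = t ^ 3 ∧ IsCoprime s D) →
      ∀ W : Bool → ℝ → ℝ, (∀ j, Slp a (W j)) → (∀ j, TstX j A Q b ka Pr (W j)) →
      ∀ W1 : Bool → ℝ, (∀ j, 0 ≤ W1 j) →
      (∀ j, W j (86093442 * 279936 * Il N lam₀ X) ≤ W1 j) →
      ∀ (p : ℕ × ℕ), p.2 < 3 → ∀ g : Eis, IsPrim g → IsCoprime g ka → ∀ j1 j3 : ℕ,
      ∑ q ∈ Q, ∑ l ∈ T3 lam₀ g j3, ∑ l₁ ∈ H1x lam₀ p g l j1 ka,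
        ‖Sh v (Xq q) (ps (p, (1, 1))) (bg (b q) g l) (g * l₁)‖ ^ 2 ≤
        C * (1 + C0) ^ 2 * Z ^ (8 * ε) *
          ∑ j : Bool, (1 / nm g * (X * nfx j lam₀ (Il N lam₀ X) * W1 j)) := by
  obtain ⟨Ci, hCi, hinner⟩ := inner_blockx hR (A := A) (B := a + 4) (a := a + 3) hA (by omega)
    (by omega) hε0
  obtain ⟨Cf1, hCf1, hfam1⟩ := fam_onex true (A := A) (a := a) hA hε0 hε
  obtain ⟨Cf2, hCf2, hfam2⟩ := fam_onex false (A := A) (a := a) hA hε0 hε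
  set Cf : ℝ := Cf1 + Cf2 with hCfd
  have hCf : 0 < Cf := by positivity
  obtain ⟨Ch, hCh, hharm⟩ := harm3 hε0
  refine ⟨Ci * Cf * Ch, by positivity, ?_⟩
  intro v hv C0 hk Z N X lam₀ hZ hN hNZ hX hXZ hlam1 hlamZ hlamN ι Q b Xq hXq hb hwb ka Pr hPr
    hcp W hW hVI W1 hW1 hWW p hp g hg hgka j1 j3
  have hZ0 : 0 < Z := by linarith
  have hlam0 : 0 ≤ lam₀ := by linarith
  have ng := nmpos hg.ne_zero
  have ng1 := nm_ge_one hg.ne_zero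
  have hC0 := hk.1
  have hI : 0 < Il N lam₀ X := by unfold Il; positivity
  have hT0 : ∀ j, 0 ≤ X * nfx j lam₀ (Il N lam₀ X) * W1 j := fun j =>
    mul_nonneg (mul_nonneg hX.le (nfx_nonneg j hlam0 hI.le)) (hW1 j)
  by_cases hem : ∃ l ∈ T3 lam₀ g j3, ∃ x, x ∈ H1x lam₀ p g l j1 ka
  swap
  · push Not at hem
    have h0 : ∑ q ∈ Q, ∑ l ∈ T3 lam₀ g j3, ∑ l₁ ∈ H1x lam₀ p g l j1 ka,
        ‖Sh v (Xq q) (ps (p, (1, 1))) (bg (b q) g l) (g * l₁)‖ ^ 2 = 0 := by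
      refine Finset.sum_eq_zero fun q _ => Finset.sum_eq_zero fun l hl => ?_
      rw [Finset.eq_empty_of_forall_notMem (hem l hl), Finset.sum_empty]
    rw [h0]
    have h1 : 0 ≤ ∑ j : Bool, 1 / (nm g : ℝ) * (X * nfx j lam₀ (Il N lam₀ X) * W1 j) :=
      Finset.sum_nonneg fun j _ => mul_nonneg (by positivity) (hT0 j)
    exact mul_nonneg (by positivity) h1
  obtain ⟨l0, hl0, x0, hx0⟩ := hem
  -- the size condition
  have hl : (2 : ℝ) ^ j1 * (nm g * 2 ^ j3) ^ 2 ≤ lam₀ := by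
    obtain ⟨h1, h2, h3, h4⟩ := Finset.mem_filter.mp (Finset.mem_filter.mp hx0).1
    obtain ⟨h5, -, h6⟩ := Finset.mem_filter.mp hl0
    have h5' := (mem_S hlam0).1 h5
    have h7 := (pow_log_le (nm_pos.mpr h2.prim1.ne_zero).ne' h4).1
    have h8 := (pow_log_le (nm_pos.mpr h5'.2.1.ne_zero).ne' h6).1
    have h9 := NonCube52.nm_kv_ge (p, (x0, g * l0))
    refine le_trans (le_trans ?_ h9) h3
    simp only [nm_mul]
    push_cast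
    gcongr
  have h2j1 : (1 : ℝ) ≤ 2 ^ j1 := one_le_pow₀ (by norm_num)
  have h2j3 : (1 : ℝ) ≤ 2 ^ j3 := one_le_pow₀ (by norm_num)
  have hprod : (2 : ℝ) ^ j3 * 2 ^ j1 ≤ Z := by
    refine le_trans ?_ (hl.trans hlamZ)
    have h1 : (2 : ℝ) ^ j3 ≤ (nm g * 2 ^ j3) ^ 2 := by
      have h2 : (2 : ℝ) ^ j3 ≤ nm g * 2 ^ j3 := le_mul_of_one_le_left (by positivity) ng1
      have h3 : (1 : ℝ) ≤ nm g * 2 ^ j3 := h2j3.trans h2
      calc (2 : ℝ) ^ j3 ≤ nm g * 2 ^ j3 := h2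
        _ ≤ (nm g * 2 ^ j3) * (nm g * 2 ^ j3) := le_mul_of_one_le_left (by linarith) h3
        _ = _ := by ring
    rw [mul_comm]
    exact mul_le_mul_of_nonneg_left h1 (by positivity)
  -- the sum over the blocks
  have hS : ∀ q ∈ Q, ∀ l ∈ T3 lam₀ g j3, ∑ l₁ ∈ H1x lam₀ p g l j1 ka,
      ‖Sh v (Xq q) (ps (p, (1, 1))) (bg (b q) g l) (g * l₁)‖ ^ 2 ≤
      Ci * (1 + C0) ^ 2 * Z ^ ε * ∑ d ∈ S lam₀, ∑ e ∈ pdiv d, ∑ f ∈ S lam₀,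
        if IsCoprime (d * f) (l * ka) then ∑ j : Bool,
          Tmc j (Pr q) A (a + 4) (a + 3) N X j1 j3 (p, (1, 1)) (b q) g l d e f else 0 := by
    intro q hq l hl'
    obtain ⟨h5, h6, h7⟩ := Finset.mem_filter.mp hl'
    have h5' := (mem_S hlam0).1 h5
    exact hinner v hv C0 hk Z N X (Xq q) lam₀ hZ hN hNZ hX hXZ (hXq q hq).1 (hXq q hq).2 hlam1
      hlamZ hlamN (b q) (hb q hq) (hwb q hq) p hp g l hg h5'.2.1 h6 j1 j3 h7 ka (Pr q)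
      (hPr q hq) (hcp q hq)
  refine (Finset.sum_le_sum fun q hq => Finset.sum_le_sum fun l hl' => hS q hq l hl').trans ?_
  simp_rw [← Finset.mul_sum]
  rw [swap5x Q (T3 lam₀ g j3) (S lam₀) (S lam₀) (fun d => pdiv d)]
  have hfam : ∀ j : Bool, ∀ d ∈ S lam₀, ∀ e ∈ pdiv d, ∀ f ∈ S lam₀,
      ∑ q ∈ Q, ∑ l ∈ T3 lam₀ g j3, (if IsCoprime (d * f) (l * ka) then
        Tmc j (Pr q) A (a + 4) (a + 3) N X j1 j3 (p, (1, 1)) (b q) g l d e f else 0) ≤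
      Cf * Z ^ (4 * ε) * (1 / nm g * (X * nfx j lam₀ (Il N lam₀ X) * W1 j)) *
        (1 / nm d * (1 / nm f)) := by
    intro j d hd e he f hf
    have h0 : 0 ≤ Z ^ (4 * ε) * (1 / nm g * (X * nfx j lam₀ (Il N lam₀ X) * W1 j)) *
        (1 / nm d * (1 / nm f)) :=
      mul_nonneg (mul_nonneg (by positivity) (mul_nonneg (by positivity) (hT0 j))) (by positivity)
    cases j
    · have h1 := hfam2 Z N X lam₀ hZ hN hNZ hX hXZ hlam1 hlamZ Q b hb ka Pr (W false) (hW false)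
        (hVI false) (W1 false) (hW1 false) (hWW false) (p, (1, 1)) hp g hg hgka j1 j3 hl hprod
        d hd e he f hf
      refine h1.trans ?_
      rw [hCfd]
      nlinarith
    · have h1 := hfam1 Z N X lam₀ hZ hN hNZ hX hXZ hlam1 hlamZ Q b hb ka Pr (W true) (hW true)
        (hVI true) (W1 true) (hW1 true) (hWW true) (p, (1, 1)) hp g hg hgka j1 j3 hl hprod
        d hd e he f hf
      refine h1.trans ?_
      rw [hCfd]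
      nlinarith
  have h3 : ∑ d ∈ S lam₀, ∑ e ∈ pdiv d, ∑ f ∈ S lam₀, ∑ q ∈ Q, ∑ l ∈ T3 lam₀ g j3,
      (if IsCoprime (d * f) (l * ka) then ∑ j : Bool,
        Tmc j (Pr q) A (a + 4) (a + 3) N X j1 j3 (p, (1, 1)) (b q) g l d e f else 0) ≤
      ∑ d ∈ S lam₀, ∑ e ∈ pdiv d, ∑ f ∈ S lam₀, Cf * Z ^ (4 * ε) *
        (∑ j : Bool, (1 / nm g * (X * nfx j lam₀ (Il N lam₀ X) * W1 j))) *
          (1 / nm d * (1 / nm f)) := by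
    refine Finset.sum_le_sum fun d hd => Finset.sum_le_sum fun e he =>
      Finset.sum_le_sum fun f hf => ?_
    have e1 : ∑ q ∈ Q, ∑ l ∈ T3 lam₀ g j3, (if IsCoprime (d * f) (l * ka) then ∑ j : Bool,
        Tmc j (Pr q) A (a + 4) (a + 3) N X j1 j3 (p, (1, 1)) (b q) g l d e f else 0) =
        ∑ j : Bool, ∑ q ∈ Q, ∑ l ∈ T3 lam₀ g j3, (if IsCoprime (d * f) (l * ka) then
        Tmc j (Pr q) A (a + 4) (a + 3) N X j1 j3 (p, (1, 1)) (b q) g l d e f else 0) := by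
      simp only [Fintype.sum_bool]
      rw [← Finset.sum_add_distrib]
      refine Finset.sum_congr rfl fun q _ => ?_
      rw [← Finset.sum_add_distrib]
      refine Finset.sum_congr rfl fun l _ => ?_
      split_ifs
      · rfl
      · rw [add_zero]
    rw [e1]
    refine (Finset.sum_le_sum fun j _ => hfam j d hd e he f hf).trans (le_of_eq ?_)
    simp only [Fintype.sum_bool]
    ring
  have h4 := hharm lam₀ Z hlam1 hlamZ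
  set T : ℝ := ∑ j : Bool, (1 / nm g * (X * nfx j lam₀ (Il N lam₀ X) * W1 j)) with hTd
  have hTT : 0 ≤ T := Finset.sum_nonneg fun j _ => mul_nonneg (by positivity) (hT0 j)
  have h5 : 0 ≤ Cf * Z ^ (4 * ε) * T := mul_nonneg (by positivity) hTT
  have h6 : ∑ d ∈ S lam₀, ∑ e ∈ pdiv d, ∑ f ∈ S lam₀, Cf * Z ^ (4 * ε) * T *
        (1 / (nm d : ℝ) * (1 / nm f)) =
      Cf * Z ^ (4 * ε) * T *
        ∑ d ∈ S lam₀, ∑ e ∈ pdiv d, ∑ f ∈ S lam₀, (1 / (nm d : ℝ) * (1 / nm f)) := by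
    simp_rw [← Finset.mul_sum]
  rw [h6] at h3
  have h7 := h3.trans (mul_le_mul_of_nonneg_left h4 h5)
  refine (mul_le_mul_of_nonneg_left h7 (by positivity)).trans (le_of_eq ?_)
  have e8 : Z ^ (8 * ε) = Z ^ ε * Z ^ (4 * ε) * Z ^ (3 * ε) := by
    rw [← Real.rpow_add hZ0, ← Real.rpow_add hZ0]
    congr 1
    ring
  have hTs : T = 1 / (nm g : ℝ) * ∑ j : Bool, (X * nfx j lam₀ (Il N lam₀ X) * W1 j) := by
    rw [hTd, ← Finset.mul_sum]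
  rw [e8, hTs]
  ring

/-- **the sum over the kernels prime to `ka` in dyadic blocks** -/
theorem reorgx {lam₀ : ℝ} (hlam : 0 ≤ lam₀) (ka : Eis) {Ψ : ℕ × ℕ → Eis → Eis → Eis → ℝ}
    (hΨ : ∀ p g l x, 0 ≤ Ψ p g l x) :
    ∑ κ ∈ (KS lam₀).filter (fun κ => IsCoprime (κ.2.1 * κ.2.2) ka), ∑ g ∈ pdiv κ.2.2,
        Ψ κ.1 g (κ.2.2 / g) κ.2.1 ≤
      ∑ p ∈ Finset.range 3 ×ˢ Finset.range 3, ∑ g ∈ (S lam₀).filter (fun g => IsCoprime g ka),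
        ∑ j3 ∈ Finset.range (Jn lam₀), ∑ j1 ∈ Finset.range (Jn lam₀), ∑ l ∈ T3 lam₀ g j3,
          ∑ x ∈ H1x lam₀ p g l j1 ka, Ψ p g l x := by
  set Φ : ℕ × ℕ → Eis → Eis → Eis → ℝ := fun p g l x =>
    if IsCoprime (x * (g * l)) ka then Ψ p g l x else 0 with hΦ
  have hΦ0 : ∀ p g l x, 0 ≤ Φ p g l x := by
    intro p g l x
    rw [hΦ]
    beta_reduce
    split_ifs
    · exact hΨ _ _ _ _
    · exact le_rfl
  have h1 := reorg hlam (Ψ := Φ) hΦ0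
  refine le_trans (le_of_eq ?_) (h1.trans ?_)
  · rw [Finset.sum_filter]
    refine Finset.sum_congr rfl fun κ hκ => ?_
    have hg2 := (mem_KS.mp hκ).1.prim2.ne_zero
    split_ifs with h
    · refine Finset.sum_congr rfl fun g hg => ?_
      obtain ⟨h5, n, hn⟩ := (mem_pdiv hg2).mp hg
      rw [hΦ]
      beta_reduce
      have e1 : g * (κ.2.2 / g) = κ.2.2 := by
        rw [hn, mul_div_cancel_left₀ _ h5.ne_zero]
      rw [e1, if_pos h]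
    · refine (Finset.sum_eq_zero fun g hg => ?_).symm
      obtain ⟨h5, n, hn⟩ := (mem_pdiv hg2).mp hg
      rw [hΦ]
      beta_reduce
      have e1 : g * (κ.2.2 / g) = κ.2.2 := by
        rw [hn, mul_div_cancel_left₀ _ h5.ne_zero]
      rw [e1, if_neg h]
  · refine Finset.sum_le_sum fun p _ => ?_
    rw [Finset.sum_filter]
    refine Finset.sum_le_sum fun g _ => ?_
    split_ifs with hg
    · refine Finset.sum_le_sum fun j3 _ => Finset.sum_le_sum fun j1 _ =>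
        Finset.sum_le_sum fun l _ => ?_
      unfold H1x
      rw [Finset.sum_filter]
      refine Finset.sum_le_sum fun x _ => ?_
      rw [hΦ]
      beta_reduce
      split_ifs with h2 h3
      · exact le_rfl
      · exact absurd h2.of_mul_left_left h3
      · exact hΨ _ _ _ _
      · exact le_rfl
    · refine le_of_eq (Finset.sum_eq_zero fun j3 _ => Finset.sum_eq_zero fun j1 _ =>
        Finset.sum_eq_zero fun l _ => Finset.sum_eq_zero fun x _ => ?_)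
      rw [hΦ]
      beta_reduce
      rw [if_neg]
      intro h2
      exact hg h2.of_mul_left_right.of_mul_left_left

/-- **all blocks**, one weight, both classes -/
theorem pohs_vx {R : ℝ} (hR : 0 ≤ R) {A a : ℕ} (hA : 1 < A) {ε : ℝ} (hε0 : 0 < ε)
    (hε : ε ≤ 1) :
    ∃ C : ℝ, 0 < C ∧ ∀ (v : ℝ → ℝ), Wgt v → ∀ C0 : ℝ, KT v (max R 2) A (a + 4) C0 →
      ∀ Z N X lam₀ : ℝ, 1 ≤ Z → 0 < N → N ≤ Z → 0 < X → 1 ≤ X * Z →
      1 ≤ lam₀ → lam₀ ≤ Z → lam₀ * Real.exp R < N →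
      ∀ {ι : Type} (Q : Finset ι) (b : ι → Eis → ℂ) (Xq : ι → ℝ),
      (∀ q ∈ Q, X / 64 ≤ Xq q ∧ Xq q ≤ X) →
      (∀ q ∈ Q, ∀ n, b q n ≠ 0 → n ∈ S Z) → (∀ q ∈ Q, Win (b q) (Real.log N) R) →
      ∀ (ka : Eis) (Pr : ι → Eis → Eis → Prop), (∀ q ∈ Q, ∀ D, D ≠ 0 → Cub (Pr q D)) →
      (∀ q ∈ Q, ∀ D H, IsPrim D → H ≠ 0 → (∃ m, b q (D * m) ≠ 0) → Pr q D H →
        ∃ s t, D ^ 2 * H * s = t ^ 3 ∧ IsCoprime s D) →
      ∀ W : Bool → ℝ → ℝ, (∀ j, Slp a (W j)) → (∀ j, TstX j A Q b ka Pr (W j)) →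
      ∀ W1 : Bool → ℝ, (∀ j, 0 ≤ W1 j) →
      (∀ j, W j (86093442 * 279936 * Il N lam₀ X) ≤ W1 j) →
      ∑ q ∈ Q, ∑ κ ∈ (KS lam₀).filter (fun κ => IsCoprime (κ.2.1 * κ.2.2) ka), ∑ g ∈ pdiv κ.2.2,
        ‖Sh v (Xq q) (ps κ) (bg (b q) g (κ.2.2 / g)) (g * κ.2.1)‖ ^ 2 ≤
        C * (1 + C0) ^ 2 * Z ^ (11 * ε) *
          ∑ j : Bool, (X * nfx j lam₀ (Il N lam₀ X) * W1 j) := by
  obtain ⟨Cb, hCb, hblk⟩ := fam_blockx hR (A := A) (a := a) hA hε0 hε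
  obtain ⟨Ch, hCh, hharm⟩ := harm hε0
  obtain ⟨Cj, hCj, hJn⟩ := Jn_le hε0
  refine ⟨9 * (Ch * (Cj * (Cj * Cb))), by positivity, ?_⟩
  intro v hv C0 hk Z N X lam₀ hZ hN hNZ hX hXZ hlam1 hlamZ hlamN ι Q b Xq hXq hb hwb ka Pr hPr
    hcp W hW hVI W1 hW1 hWW
  have hZ0 : 0 < Z := by linarith
  have hlam0 : 0 ≤ lam₀ := by linarith
  have hC0 := hk.1
  have hI : 0 < Il N lam₀ X := by unfold Il; positivity
  set T : ℝ := ∑ j : Bool, (X * nfx j lam₀ (Il N lam₀ X) * W1 j) with hT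
  have hT0 : 0 ≤ T := Finset.sum_nonneg fun j _ =>
    mul_nonneg (mul_nonneg hX.le (nfx_nonneg j hlam0 hI.le)) (hW1 j)
  -- the family inside
  have e1 : ∑ q ∈ Q, ∑ κ ∈ (KS lam₀).filter (fun κ => IsCoprime (κ.2.1 * κ.2.2) ka), ∑ g ∈ pdiv κ.2.2,
        ‖Sh v (Xq q) (ps κ) (bg (b q) g (κ.2.2 / g)) (g * κ.2.1)‖ ^ 2 =
      ∑ κ ∈ (KS lam₀).filter (fun κ => IsCoprime (κ.2.1 * κ.2.2) ka), ∑ g ∈ pdiv κ.2.2, (fun (p : ℕ × ℕ) (g l x : Eis) => ∑ q ∈ Q,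
        ‖Sh v (Xq q) (ps (p, (1, 1))) (bg (b q) g l) (g * x)‖ ^ 2) κ.1 g (κ.2.2 / g) κ.2.1 := by
    rw [Finset.sum_comm]
    refine Finset.sum_congr rfl fun κ _ => ?_
    rw [Finset.sum_comm]
    rfl
  rw [e1]
  refine (reorgx hlam0 ka (Ψ := fun (p : ℕ × ℕ) (g l x : Eis) => ∑ q ∈ Q,
        ‖Sh v (Xq q) (ps (p, (1, 1))) (bg (b q) g l) (g * x)‖ ^ 2)
    (fun p g l x => Finset.sum_nonneg fun _ _ => by positivity)).trans ?_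
  have h1 : ∀ p ∈ Finset.range 3 ×ˢ Finset.range 3, ∀ g ∈ (S lam₀).filter (fun g => IsCoprime g ka),
      ∀ j3 ∈ Finset.range (Jn lam₀), ∀ j1 ∈ Finset.range (Jn lam₀),
      ∑ l ∈ T3 lam₀ g j3, ∑ x ∈ H1x lam₀ p g l j1 ka, ∑ q ∈ Q,
        ‖Sh v (Xq q) (ps (p, (1, 1))) (bg (b q) g l) (g * x)‖ ^ 2 ≤
      Cb * (1 + C0) ^ 2 * Z ^ (8 * ε) * T * (1 / nm g) := by
    intro p hp g hg j3 _ j1 _
    have hp' := Finset.mem_product.mp hp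
    have e2 : ∑ l ∈ T3 lam₀ g j3, ∑ x ∈ H1x lam₀ p g l j1 ka, ∑ q ∈ Q,
        ‖Sh v (Xq q) (ps (p, (1, 1))) (bg (b q) g l) (g * x)‖ ^ 2 =
        ∑ q ∈ Q, ∑ l ∈ T3 lam₀ g j3, ∑ x ∈ H1x lam₀ p g l j1 ka,
        ‖Sh v (Xq q) (ps (p, (1, 1))) (bg (b q) g l) (g * x)‖ ^ 2 := by
      symm
      rw [Finset.sum_comm]
      refine Finset.sum_congr rfl fun l _ => ?_
      rw [Finset.sum_comm]
    refine e2.le.trans ?_
    refine (hblk v hv C0 hk Z N X lam₀ hZ hN hNZ hX hXZ hlam1 hlamZ hlamN Q b Xq hXq hb hwb ka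
      Pr hPr hcp W hW hVI W1 hW1 hWW p (Finset.mem_range.mp hp'.2) g
      ((mem_S hlam0).1 (Finset.mem_filter.mp hg).1).2.1 (Finset.mem_filter.mp hg).2 j1 j3).trans
      (le_of_eq ?_)
    rw [← Finset.mul_sum, ← hT]
    ring
  have hJ0 : (0 : ℝ) ≤ Jn lam₀ := Nat.cast_nonneg _
  have hJ := hJn lam₀ Z hlam1 hlamZ
  have hH := hharm lam₀ Z hlam1 hlamZ
  set K : ℝ := Cb * (1 + C0) ^ 2 * Z ^ (8 * ε) * T with hK
  have hK0 : 0 ≤ K := by positivity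
  calc ∑ p ∈ Finset.range 3 ×ˢ Finset.range 3,
        ∑ g ∈ (S lam₀).filter (fun g => IsCoprime g ka), ∑ j3 ∈ Finset.range (Jn lam₀),
        ∑ j1 ∈ Finset.range (Jn lam₀), ∑ l ∈ T3 lam₀ g j3, ∑ x ∈ H1x lam₀ p g l j1 ka,
          ∑ q ∈ Q, ‖Sh v (Xq q) (ps (p, (1, 1))) (bg (b q) g l) (g * x)‖ ^ 2
      ≤ ∑ _p ∈ Finset.range 3 ×ˢ Finset.range 3, ∑ g ∈ S lam₀, ∑ _j3 ∈ Finset.range (Jn lam₀),
        ∑ _j1 ∈ Finset.range (Jn lam₀), K * (1 / nm g) := by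
        refine Finset.sum_le_sum fun p hp => ?_
        refine (Finset.sum_le_sum fun g hg => Finset.sum_le_sum fun j3 hj3 =>
          Finset.sum_le_sum fun j1 hj1 => h1 p hp g hg j3 hj3 j1 hj1).trans ?_
        refine Finset.sum_le_sum_of_subset_of_nonneg (Finset.filter_subset _ _) fun g _ _ => ?_
        refine Finset.sum_nonneg fun _ _ => Finset.sum_nonneg fun _ _ => ?_
        positivity
    _ = 9 * ((∑ g ∈ S lam₀, (1 / (nm g : ℝ))) * ((Jn lam₀ : ℝ) * ((Jn lam₀ : ℝ) * K))) := by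
        have e3 : ∑ g ∈ S lam₀, ((Jn lam₀ : ℝ) * ((Jn lam₀ : ℝ) * (K * (1 / nm g)))) =
            (∑ g ∈ S lam₀, (1 / (nm g : ℝ))) * ((Jn lam₀ : ℝ) * ((Jn lam₀ : ℝ) * K)) := by
          rw [Finset.sum_mul]
          exact Finset.sum_congr rfl fun g _ => by ring
        simp only [Finset.sum_const, Finset.card_product, Finset.card_range, nsmul_eq_mul]
        rw [e3]
        push_cast
        ring
    _ ≤ 9 * ((Ch * Z ^ ε) * ((Cj * Z ^ ε) * ((Cj * Z ^ ε) * K))) := by gcongr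
    _ = 9 * (Ch * (Cj * (Cj * Cb))) * (1 + C0) ^ 2 * (Z ^ ε * Z ^ ε * Z ^ ε * Z ^ (8 * ε)) * T := by
        rw [hK]; ring
    _ = _ := by
        rw [← Real.rpow_add hZ0, ← Real.rpow_add hZ0, ← Real.rpow_add hZ0]
        congr 3
        ring

set_option maxHeartbeats 1000000 in
/-- **`PoHS` in the form (hW°), with principal frequencies**, trivial twist -/
theorem pohs_x {w₀ : ℝ → ℝ} (hw : Wgt w₀) {R : ℝ} (hR : 0 ≤ R) (a A : ℕ) (hA : 1 < A) {ε : ℝ}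
    (hε : 0 < ε) : ∃ (C c : ℝ) (J : ℕ), 0 ≤ C ∧ 1 ≤ c ∧
    ∀ Z N X lam₀ : ℝ, 1 ≤ Z → 0 < N → N ≤ Z → 0 < X → 1 ≤ X * Z → 1 ≤ lam₀ → lam₀ ≤ Z →
      lam₀ * Real.exp R < N →
    ∀ {ι : Type} (Q : Finset ι) (b : ι → Eis → ℂ) (Xq : ι → ℝ),
      (∀ q ∈ Q, X / 64 ≤ Xq q ∧ Xq q ≤ X) →
      (∀ q ∈ Q, ∀ n, b q n ≠ 0 → n ∈ S Z) → (∀ q ∈ Q, Win (b q) (Real.log N) R) →
    ∀ (ka : Eis) (Pr : ι → Eis → Eis → Prop), (∀ q ∈ Q, ∀ D, D ≠ 0 → Cub (Pr q D)) →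
      (∀ q ∈ Q, ∀ D H, IsPrim D → H ≠ 0 → (∃ m, b q (D * m) ≠ 0) → Pr q D H →
        ∃ s t, D ^ 2 * H * s = t ^ 3 ∧ IsCoprime s D) →
    ∀ W : Bool → ℝ → ℝ, (∀ j, Slp a (W j)) → (∀ j, TstX j A Q b ka Pr (W j)) →
    ∀ W1 : Bool → ℝ, (∀ j, 0 ≤ W1 j) → (∀ j, W j (c * Il N lam₀ X) ≤ W1 j) →
    ∀ t : ℝ, ∑ q ∈ Q, ∑ κ ∈ (KS lam₀).filter (fun κ => IsCoprime (κ.2.1 * κ.2.2) ka),
        ‖XS (fun _ => 1) w₀ (Xq q) t (b q) κ‖ ^ 2 ≤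
      C * Z ^ ε * (1 + |t|) ^ J * ∑ j : Bool, (X * nfx j lam₀ (Il N lam₀ X) * W1 j) := by
  set ε1 : ℝ := min 1 (ε / 12) with hε1
  have hε1p : 0 < ε1 := lt_min one_pos (by linarith)
  have hε1l : ε1 ≤ 1 := min_le_left _ _
  have hε1e : 12 * ε1 ≤ ε := by
    have : ε1 ≤ ε / 12 := min_le_right _ _
    linarith
  obtain ⟨Ck, J, hCk, hKT⟩ := TWt405.KT_tw hw (R := max R 2) (by positivity) A (a + 4)
  obtain ⟨Cp, hCp, hpv⟩ := pohs_vx hR (A := A) (a := a) hA hε1p hε1l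
  obtain ⟨Ct, hCt1, hCt⟩ := tau_unif hε1p
  have hCt0 : 0 < Ct := by linarith
  refine ⟨4 * Ct * (Cp * (1 + Ck) ^ 2), 86093442 * 279936, 2 * J, by positivity,
    by norm_num, ?_⟩
  intro Z N X lam₀ hZ hN hNZ hX hXZ hlam1 hlamZ hlamN ι Q b Xq hXq hb hwb ka Pr hPr hcp W hW
    hVI W1 hW1 hWW t
  have hZ0 : 0 < Z := by linarith
  have hlam0 : 0 ≤ lam₀ := by linarith
  have ht1 : 1 ≤ 1 + |t| := by linarith [abs_nonneg t]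
  have hI : 0 < Il N lam₀ X := by unfold Il; positivity
  set T : ℝ := ∑ j : Bool, (X * nfx j lam₀ (Il N lam₀ X) * W1 j) with hT
  have hT0 : 0 ≤ T := Finset.sum_nonneg fun j _ =>
    mul_nonneg (mul_nonneg hX.le (nfx_nonneg j hlam0 hI.le)) (hW1 j)
  set C0 : ℝ := Ck * (1 + |t|) ^ J with hC0d
  have hC00 : 0 ≤ C0 := by positivity
  have hkc : KT (TWt405.wc w₀ t) (max R 2) A (a + 4) C0 := (hKT t).1
  have hks : KT (TWt405.wsn w₀ t) (max R 2) A (a + 4) C0 := (hKT t).2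
  have b1 := hpv _ (TWt405.wgt_wc hw t) C0 hkc Z N X lam₀ hZ hN hNZ hX hXZ hlam1 hlamZ hlamN Q b
    Xq hXq hb hwb ka Pr hPr hcp W hW hVI W1 hW1 hWW
  have b2 := hpv _ (TWt405.wgt_wsn hw t) C0 hks Z N X lam₀ hZ hN hNZ hX hXZ hlam1 hlamZ hlamN Q b
    Xq hXq hb hwb ka Pr hPr hcp W hW hVI W1 hW1 hWW
  rw [← hT] at b1 b2
  -- one kernel
  have h1 : ∀ q ∈ Q, ∀ κ ∈ (KS lam₀).filter (fun κ => IsCoprime (κ.2.1 * κ.2.2) ka),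
      ‖XS (fun _ => 1) w₀ (Xq q) t (b q) κ‖ ^ 2 ≤
      2 * (Ct * Z ^ ε1) * ((∑ g ∈ pdiv κ.2.2, ‖Sh (TWt405.wc w₀ t) (Xq q) (ps κ)
          (bg (b q) g (κ.2.2 / g)) (g * κ.2.1)‖ ^ 2) +
        ∑ g ∈ pdiv κ.2.2, ‖Sh (TWt405.wsn w₀ t) (Xq q) (ps κ)
          (bg (b q) g (κ.2.2 / g)) (g * κ.2.1)‖ ^ 2) := by
    intro q hq κ hκ
    obtain ⟨hg, hkv⟩ := mem_KS.mp (Finset.mem_filter.mp hκ).1
    have hXq0 : 0 < Xq q := by have := (hXq q hq).1; linarith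
    rw [XS_split hw hXq0 t hZ0.le (hb q hq) hg, norm_mul, norm_pw, one_mul]
    have hcs := norm_sum_le (pdiv κ.2.2) (fun g =>
      (Sh (TWt405.wc w₀ t) (Xq q) (ps κ) (bg (b q) g (κ.2.2 / g)) (g * κ.2.1) +
        Sh (TWt405.wsn w₀ t) (Xq q) (ps κ) (bg (b q) g (κ.2.2 / g)) (g * κ.2.1) * I))
    have hsq : ‖∑ g ∈ pdiv κ.2.2,
      (Sh (TWt405.wc w₀ t) (Xq q) (ps κ) (bg (b q) g (κ.2.2 / g)) (g * κ.2.1) +
        Sh (TWt405.wsn w₀ t) (Xq q) (ps κ) (bg (b q) g (κ.2.2 / g)) (g * κ.2.1) * I)‖ ^ 2 ≤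
      (Div277.tau κ.2.2 : ℝ) * ∑ g ∈ pdiv κ.2.2,
      ‖Sh (TWt405.wc w₀ t) (Xq q) (ps κ) (bg (b q) g (κ.2.2 / g)) (g * κ.2.1) +
        Sh (TWt405.wsn w₀ t) (Xq q) (ps κ) (bg (b q) g (κ.2.2 / g)) (g * κ.2.1) * I‖ ^ 2 := by
      refine (pow_le_pow_left₀ (norm_nonneg _) hcs 2).trans ?_
      exact sq_sum_le_card_mul_sum_sq
    have htau : (Div277.tau κ.2.2 : ℝ) ≤ Ct * Z ^ ε1 := by
      refine hCt Z hZ κ.2.2 ((mem_S hZ0.le).mpr ⟨?_, hg.prim2, hg.sqf2⟩)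
      have n1 := nm_ge_one hg.prim1.ne_zero
      have n2 := nm_ge_one hg.prim2.ne_zero
      have h3 := NonCube52.nm_kv_ge κ
      have h7 : (nm κ.2.2 : ℝ) ≤ (nm κ.2.2 : ℝ) ^ 2 := by nlinarith
      have h8 : (nm κ.2.2 : ℝ) ^ 2 ≤ nm κ.2.1 * (nm κ.2.2 : ℝ) ^ 2 :=
        le_mul_of_one_le_left (by positivity) n1
      linarith
    have hpt : ∀ x y : ℂ, ‖x + y * I‖ ^ 2 ≤ 2 * (‖x‖ ^ 2 + ‖y‖ ^ 2) := by
      intro x y
      have h3 := norm_add_le x (y * I)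
      rw [norm_mul, Complex.norm_I, mul_one] at h3
      nlinarith [norm_nonneg x, norm_nonneg y, norm_nonneg (x + y * I), sq_nonneg (‖x‖ - ‖y‖)]
    calc _ ≤ (Div277.tau κ.2.2 : ℝ) * ∑ g ∈ pdiv κ.2.2,
      ‖Sh (TWt405.wc w₀ t) (Xq q) (ps κ) (bg (b q) g (κ.2.2 / g)) (g * κ.2.1) +
        Sh (TWt405.wsn w₀ t) (Xq q) (ps κ) (bg (b q) g (κ.2.2 / g)) (g * κ.2.1) * I‖ ^ 2 := hsq
      _ ≤ (Ct * Z ^ ε1) * ∑ g ∈ pdiv κ.2.2,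
        2 * (‖Sh (TWt405.wc w₀ t) (Xq q) (ps κ) (bg (b q) g (κ.2.2 / g)) (g * κ.2.1)‖ ^ 2 +
        ‖Sh (TWt405.wsn w₀ t) (Xq q) (ps κ) (bg (b q) g (κ.2.2 / g)) (g * κ.2.1)‖ ^ 2) := by
          refine mul_le_mul htau (Finset.sum_le_sum fun g _ => hpt _ _)
            (Finset.sum_nonneg fun _ _ => by positivity) (by positivity)
      _ = _ := by rw [← Finset.mul_sum, Finset.sum_add_distrib]; ring
  have h2 : ∑ q ∈ Q, ∑ κ ∈ (KS lam₀).filter (fun κ => IsCoprime (κ.2.1 * κ.2.2) ka), ‖XS (fun _ => 1) w₀ (Xq q) t (b q) κ‖ ^ 2 ≤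
      2 * (Ct * Z ^ ε1) * ((∑ q ∈ Q, ∑ κ ∈ (KS lam₀).filter (fun κ => IsCoprime (κ.2.1 * κ.2.2) ka), ∑ g ∈ pdiv κ.2.2,
        ‖Sh (TWt405.wc w₀ t) (Xq q) (ps κ) (bg (b q) g (κ.2.2 / g)) (g * κ.2.1)‖ ^ 2) +
        ∑ q ∈ Q, ∑ κ ∈ (KS lam₀).filter (fun κ => IsCoprime (κ.2.1 * κ.2.2) ka), ∑ g ∈ pdiv κ.2.2,
        ‖Sh (TWt405.wsn w₀ t) (Xq q) (ps κ) (bg (b q) g (κ.2.2 / g)) (g * κ.2.1)‖ ^ 2) := by
    refine (Finset.sum_le_sum fun q hq => Finset.sum_le_sum fun κ hκ => h1 q hq κ hκ).trans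
      (le_of_eq ?_)
    simp only [← Finset.mul_sum, Finset.sum_add_distrib]
  refine h2.trans ?_
  have h3 : 0 ≤ 2 * (Ct * Z ^ ε1) := by positivity
  refine (mul_le_mul_of_nonneg_left (add_le_add b1 b2) h3).trans ?_
  have h4 : (1 + C0) ^ 2 ≤ (1 + Ck) ^ 2 * (1 + |t|) ^ (2 * J) := by
    have h5 : 1 ≤ (1 + |t|) ^ J := one_le_pow₀ ht1
    have h6 : 1 + C0 ≤ (1 + Ck) * (1 + |t|) ^ J := by rw [hC0d]; nlinarith
    calc (1 + C0) ^ 2 ≤ ((1 + Ck) * (1 + |t|) ^ J) ^ 2 :=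
          pow_le_pow_left₀ (by positivity) h6 2
      _ = _ := by rw [mul_pow, ← pow_mul, mul_comm J 2]
  have h7 : Z ^ ε1 * Z ^ (11 * ε1) ≤ Z ^ ε := by
    rw [← Real.rpow_add hZ0]
    exact Real.rpow_le_rpow_of_exponent_le hZ (by linarith)
  calc 2 * (Ct * Z ^ ε1) * (Cp * (1 + C0) ^ 2 * Z ^ (11 * ε1) * T +
        Cp * (1 + C0) ^ 2 * Z ^ (11 * ε1) * T)
      = 4 * Ct * Cp * (1 + C0) ^ 2 * (Z ^ ε1 * Z ^ (11 * ε1)) * T := by ring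
    _ ≤ 4 * Ct * Cp * ((1 + Ck) ^ 2 * (1 + |t|) ^ (2 * J)) * Z ^ ε * T := by gcongr
    _ = _ := by ring

/-- **`PoHS` in the form (hW°)**, trivial twist, all frequencies (class `N`) -/
theorem pohs_o {w₀ : ℝ → ℝ} (hw : Wgt w₀) {R : ℝ} (hR : 0 ≤ R) (a A : ℕ) (hA : 1 < A) {ε : ℝ}
    (hε : 0 < ε) : ∃ (C c : ℝ) (J : ℕ), 0 ≤ C ∧ 1 ≤ c ∧
    ∀ Z N X lam₀ : ℝ, 1 ≤ Z → 0 < N → N ≤ Z → 0 < X → 1 ≤ X * Z → 1 ≤ lam₀ → lam₀ ≤ Z →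
      lam₀ * Real.exp R < N →
    ∀ {ι : Type} (Q : Finset ι) (b : ι → Eis → ℂ) (Xq : ι → ℝ),
      (∀ q ∈ Q, X / 64 ≤ Xq q ∧ Xq q ≤ X) →
      (∀ q ∈ Q, ∀ n, b q n ≠ 0 → n ∈ S Z) → (∀ q ∈ Q, Win (b q) (Real.log N) R) →
    ∀ (ka : Eis) (W : ℝ → ℝ), Slp a W →
      (∀ gam phi x D : Eis, IsPrim gam → IsCoprime gam ka → phi ≠ 0 → x ≠ 0 → D ≠ 0 →
        phi * gam ^ 2 = x * D ^ 3 → ∀ P : ℝ, 1 ≤ P →
        (nm gam : ℝ) * ∑ q ∈ Q, VI A (b q) gam phi 1 P ≤ W (P * nm x)) →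
    ∀ W1 : ℝ, 0 ≤ W1 → W (c * Il N lam₀ X) ≤ W1 →
    ∀ t : ℝ, ∑ q ∈ Q, ∑ κ ∈ (KS lam₀).filter (fun κ => IsCoprime (κ.2.1 * κ.2.2) ka),
        ‖XS (fun _ => 1) w₀ (Xq q) t (b q) κ‖ ^ 2 ≤
      C * Z ^ ε * (1 + |t|) ^ J * (X * (1 + lam₀ * (Il N lam₀ X) ^ (-(1 / 2) : ℝ)) * W1) := by
  obtain ⟨C, c, J, hC, hc, h⟩ := pohs_x hw hR a A hA hε
  refine ⟨C, c, J, hC, hc, ?_⟩
  intro Z N X lam₀ hZ hN hNZ hX hXZ hlam1 hlamZ hlamN ι Q b Xq hXq hb hwb ka W hW hVI W1 hW1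
    hWW t
  have h1 := h Z N X lam₀ hZ hN hNZ hX hXZ hlam1 hlamZ hlamN Q b Xq hXq hb hwb ka
    (fun _ _ _ => False) (fun _ _ _ _ => Cub.false) (fun _ _ _ _ _ _ _ hf => hf.elim)
    (fun j => if j = true then fun _ => 0 else W)
    (fun j => by
      cases j
      · simpa using hW
      · refine ⟨fun _ _ => ?_, fun _ _ _ _ => ?_, fun _ _ => ?_⟩ <;> simp)
    (fun j => by
      cases j
      · intro gam phi x D h1 h2 h3 h4 h5 h6 P hP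
        simp only [Bool.false_eq_true, if_false]
        refine le_trans (mul_le_mul_of_nonneg_left (Finset.sum_le_sum fun q _ =>
          VIc_le_VI _ _ _ _ _ _ _) (Nat.cast_nonneg _)) (hVI gam phi x D h1 h2 h3 h4 h5 h6 P hP)
      · intro gam phi x D h1 h2 h3 h4 h5 h6 P hP
        simp only [if_true]
        have e0 : ∀ q ∈ Q, VIc (A : ℝ) (b q) gam phi 1 P (Cls (fun _ => False) true) = 0 := by
          intro q _
          unfold VIc Cls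
          simp
        rw [Finset.sum_eq_zero e0, mul_zero])
    (fun j => if j = true then 0 else W1)
    (fun j => by cases j <;> simp [hW1])
    (fun j => by cases j <;> simp [hWW]) t
  refine h1.trans (le_of_eq ?_)
  rw [Fintype.sum_bool]
  simp only [if_true, Bool.false_eq_true, if_false, mul_zero, zero_add]
  unfold nfx
  simp only [Bool.false_eq_true, if_false]

end Crest.Agent.R017.PoHx72
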