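import Crest.Agent.R017.PoHs_72
import Crest.Agent.R017.PoHw_72

/-!
# Row 17, E3 with principal frequencies, part 8 (helper72)

`fam_blocksx`, `pohs_vsx`, **`pohs_wx`** : the class version of helper347's `pohs_w` (S-unit twist,
kernels prime to `ka`, hypotheses `HWx j`).
-/

set_option autoImplicit false

noncomputable section

open Complex MeasureTheory
open scoped ComplexConjugate Classical

namespace Crest.Agent.R017.PoHx72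

open Crest.Agent.R012 Crest.Agent.R012.Eis Crest.Agent.R012.MC
open Crest.Agent.R012.LS2 (S mem_S bl mem_bl)
open Crest.Agent.R012.Mob705 (mu pdiv mem_pdiv)
open Crest.Agent.R012.Weight600 (osc pw norm_osc)
open Crest.Agent.R012.NonCube52 (Ker kv Good)
open Crest.Agent.R017.CM106 (CS TG norm_Gsy_le)
open Crest.Agent.R017.E1551 (nmpos jb jb_pos nm_ge_one CS_fin summable_wF)
open Crest.Agent.R017.BD829
open Crest.Agent.R017.PoH347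
open Crest.Agent.R017.Mode405 (Slp Il VI KS mem_KS XS)
open Gauss880 (syG)

/-- **one block of the family**, both classes -/
theorem fam_blocksx {R : ℝ} (hR : 0 ≤ R) {U : ℝ} (hU : 81 ≤ U) {A a : ℕ} (hA : 1 < A) {ε : ℝ} (hε0 : 0 < ε)
    (hε : ε ≤ 1) :
    ∃ C : ℝ, 0 < C ∧ ∀ (v : ℝ → ℝ), Wgt v → ∀ C0 : ℝ, KT v (max R 2) A (a + 4) C0 →
      ∀ s : Eis, SU s → (nm (9 * s) : ℝ) ≤ U →
      ∀ Z N X lam₀ : ℝ, 1 ≤ Z → 0 < N → N ≤ Z → 0 < X → 1 ≤ X * Z →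
      1 ≤ lam₀ → lam₀ ≤ Z → lam₀ * Real.exp R < N →
      ∀ {ι : Type} (Q : Finset ι) (b : ι → Eis → ℂ) (Xq : ι → ℝ),
      (∀ q ∈ Q, X / 64 ≤ Xq q ∧ Xq q ≤ X) →
      (∀ q ∈ Q, ∀ n, b q n ≠ 0 → n ∈ S Z) → (∀ q ∈ Q, Win (b q) (Real.log N) R) →
      ∀ (B0 : ℝ) (ka : Eis) (Pr : ι → Eis → Eis → Prop), (∀ q ∈ Q, ∀ D, D ≠ 0 → Cub (Pr q D)) →
      (∀ q ∈ Q, ∀ D H, IsPrim D → H ≠ 0 → (∃ m, b q (D * m) ≠ 0) → Pr q D H →
        ∃ s t, D ^ 2 * H * s = t ^ 3 ∧ IsCoprime s D) →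
      ∀ W : Bool → ℝ → ℝ, (∀ j, Slp a (W j)) → (∀ j, HWx j A B0 Q b ka Pr (W j)) →
      lam₀ ^ 2 ≤ B0 →
      ∀ W1 : Bool → ℝ, (∀ j, W j (18 * U ^ 3 * (384 * U) * Il N lam₀ X) ≤ W1 j) →
      ∀ (p : ℕ × ℕ) (g : Eis), IsPrim g → IsCoprime g ka → ∀ j1 j3 : ℕ,
      ∑ q ∈ Q, ∑ l ∈ T3 lam₀ g j3, ∑ l₁ ∈ H1k lam₀ ka p g l j1,
        ‖Sh v (Xq q) (pt s) (bg (b q) g l) (g * l₁)‖ ^ 2 ≤
        C * (1 + C0) ^ 2 * Z ^ (8 * ε) *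
          ∑ j : Bool, (1 / nm g * (X * nfx j lam₀ (Il N lam₀ X) * W1 j)) := by
  obtain ⟨Ci, hCi, hinner⟩ := inner_blocksx hR hU (A := A) (B := a + 4) (a := a + 3) hA (by omega)
    (by omega) hε0
  obtain ⟨Cf1, hCf1, hfam1⟩ := fam_onesx true (U := U) (by linarith) (A := A) (a := a) hA hε0 hε
  obtain ⟨Cf2, hCf2, hfam2⟩ := fam_onesx false (U := U) (by linarith) (A := A) (a := a) hA hε0 hε
  set Cf : ℝ := Cf1 + Cf2 with hCfd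
  have hCf : 0 < Cf := by positivity
  obtain ⟨Ch, hCh, hharm⟩ := harm3 hε0
  refine ⟨Ci * Cf * Ch, by positivity, ?_⟩
  intro v hv C0 hk s hs hsU Z N X lam₀ hZ hN hNZ hX hXZ hlam1 hlamZ hlamN ι Q b Xq hXq hb hwb
    B0 ka Pr hPr hcp W hW hVI hB0 W1 hW1 p g hg hgk j1 j3
  have hZ0 : 0 < Z := by linarith
  have hlam0 : 0 ≤ lam₀ := by linarith
  have ng := nmpos hg.ne_zero
  have ng1 := nm_ge_one hg.ne_zero
  have hC0 := hk.1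
  have hI : 0 < Il N lam₀ X := by unfold Il; positivity
  have hU0 : 0 < U := by linarith
  have hW10 : ∀ j, 0 ≤ W1 j := fun j => ((hW j).nonneg _ (by positivity)).trans (hW1 j)
  have hT0 : ∀ j, 0 ≤ X * nfx j lam₀ (Il N lam₀ X) * W1 j := fun j =>
    mul_nonneg (mul_nonneg hX.le (nfx_nonneg j hlam0 hI.le)) (hW10 j)
  by_cases hem : ∃ l ∈ T3 lam₀ g j3, ∃ x, x ∈ H1k lam₀ ka p g l j1
  swap
  · push Not at hem
    have h0 : ∑ q ∈ Q, ∑ l ∈ T3 lam₀ g j3, ∑ l₁ ∈ H1k lam₀ ka p g l j1,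
        ‖Sh v (Xq q) (pt s) (bg (b q) g l) (g * l₁)‖ ^ 2 = 0 := by
      refine Finset.sum_eq_zero fun q _ => Finset.sum_eq_zero fun l hl => ?_
      rw [Finset.eq_empty_of_forall_notMem (hem l hl), Finset.sum_empty]
    rw [h0]
    have h1 : 0 ≤ ∑ j : Bool, 1 / (nm g : ℝ) * (X * nfx j lam₀ (Il N lam₀ X) * W1 j) :=
      Finset.sum_nonneg fun j _ => mul_nonneg (by positivity) (hT0 j)
    exact mul_nonneg (by positivity) h1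
  obtain ⟨l0, hl0, x0, hx0⟩ := hem
  -- the size condition
  have hl : (2 : ℝ) ^ j1 * (nm g * 2 ^ j3) ^ 2 ≤ lam₀ := by
    obtain ⟨h1, h2, h3, h4⟩ := Finset.mem_filter.mp (Finset.mem_filter.mp hx0).1
    obtain ⟨h5, -, h6⟩ := Finset.mem_filter.mp hl0
    have h5' := (mem_S hlam0).1 h5
    have h7 := (pow_log_le (nm_pos.mpr h2.prim1.ne_zero).ne' h4).1
    have h8 := (pow_log_le (nm_pos.mpr h5'.2.1.ne_zero).ne' h6).1
    have h9 := NonCube52.nm_kv_ge (p, (x0, g * l0))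
    refine le_trans (le_trans ?_ h9) h3
    simp only [nm_mul]
    push_cast
    gcongr
  have h2j1 : (1 : ℝ) ≤ 2 ^ j1 := one_le_pow₀ (by norm_num)
  have h2j3 : (1 : ℝ) ≤ 2 ^ j3 := one_le_pow₀ (by norm_num)
  have hprod : (2 : ℝ) ^ j3 * 2 ^ j1 ≤ Z := by
    refine le_trans ?_ (hl.trans hlamZ)
    have h1 : (2 : ℝ) ^ j3 ≤ (nm g * 2 ^ j3) ^ 2 := by
      have h2 : (2 : ℝ) ^ j3 ≤ nm g * 2 ^ j3 := le_mul_of_one_le_left (by positivity) ng1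
      have h3 : (1 : ℝ) ≤ nm g * 2 ^ j3 := h2j3.trans h2
      calc (2 : ℝ) ^ j3 ≤ nm g * 2 ^ j3 := h2
        _ ≤ (nm g * 2 ^ j3) * (nm g * 2 ^ j3) := le_mul_of_one_le_left (by linarith) h3
        _ = _ := by ring
    rw [mul_comm]
    exact mul_le_mul_of_nonneg_left h1 (by positivity)
  -- the sum over the blocks
  have hS : ∀ q ∈ Q, ∀ l ∈ T3 lam₀ g j3, ∑ l₁ ∈ H1k lam₀ ka p g l j1,
      ‖Sh v (Xq q) (pt s) (bg (b q) g l) (g * l₁)‖ ^ 2 ≤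
      Ci * (1 + C0) ^ 2 * Z ^ ε * ∑ d ∈ S lam₀, ∑ e ∈ pdiv d, ∑ f ∈ S lam₀,
        if IsCoprime (d * f) l ∧ IsCoprime (d * f) ka then ∑ j : Bool,
          Tmsx j (Pr q) A (a + 4) (a + 3) U N X j1 j3 s (b q) g l d e f else 0 := by
    intro q hq l hl'
    obtain ⟨h5, h6, h7⟩ := Finset.mem_filter.mp hl'
    have h5' := (mem_S hlam0).1 h5
    exact hinner v hv C0 hk s hs hsU Z N X (Xq q) lam₀ hZ hN hNZ hX hXZ (hXq q hq).1 (hXq q hq).2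
      hlam1 hlamZ hlamN (b q) (hb q hq) (hwb q hq) ka p g l hg h5'.2.1 h6 j1 j3 h7 (Pr q)
      (hPr q hq) (hcp q hq)
  refine (Finset.sum_le_sum fun q hq => Finset.sum_le_sum fun l hl' => hS q hq l hl').trans ?_
  simp_rw [← Finset.mul_sum]
  rw [swap5x Q (T3 lam₀ g j3) (S lam₀) (S lam₀) (fun d => pdiv d)]
  have hfam : ∀ j : Bool, ∀ d ∈ S lam₀, ∀ e ∈ pdiv d, ∀ f ∈ S lam₀,
      ∑ q ∈ Q, ∑ l ∈ T3 lam₀ g j3, (if IsCoprime (d * f) l ∧ IsCoprime (d * f) ka then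
        Tmsx j (Pr q) A (a + 4) (a + 3) U N X j1 j3 s (b q) g l d e f else 0) ≤
      Cf * Z ^ (4 * ε) * (1 / nm g * (X * nfx j lam₀ (Il N lam₀ X) * W1 j)) *
        (1 / nm d * (1 / nm f)) := by
    intro j d hd e he f hf
    have h0 : 0 ≤ Z ^ (4 * ε) * (1 / nm g * (X * nfx j lam₀ (Il N lam₀ X) * W1 j)) *
        (1 / nm d * (1 / nm f)) :=
      mul_nonneg (mul_nonneg (by positivity) (mul_nonneg (by positivity) (hT0 j))) (by positivity)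
    cases j
    · have h1 := hfam2 Z N X lam₀ hZ hN hNZ hX hXZ hlam1 hlamZ Q b hb (W false) (hW false) B0 ka Pr
        (hVI false) hB0 (W1 false) (hW1 false) s hs hsU g hg hgk j1 j3 hl hprod d hd e he f hf
      refine h1.trans ?_
      rw [hCfd]
      nlinarith
    · have h1 := hfam1 Z N X lam₀ hZ hN hNZ hX hXZ hlam1 hlamZ Q b hb (W true) (hW true) B0 ka Pr
        (hVI true) hB0 (W1 true) (hW1 true) s hs hsU g hg hgk j1 j3 hl hprod d hd e he f hf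
      refine h1.trans ?_
      rw [hCfd]
      nlinarith
  have h3 : ∑ d ∈ S lam₀, ∑ e ∈ pdiv d, ∑ f ∈ S lam₀, ∑ q ∈ Q, ∑ l ∈ T3 lam₀ g j3,
      (if IsCoprime (d * f) l ∧ IsCoprime (d * f) ka then ∑ j : Bool,
        Tmsx j (Pr q) A (a + 4) (a + 3) U N X j1 j3 s (b q) g l d e f else 0) ≤
      ∑ d ∈ S lam₀, ∑ e ∈ pdiv d, ∑ f ∈ S lam₀, Cf * Z ^ (4 * ε) *
        (∑ j : Bool, (1 / nm g * (X * nfx j lam₀ (Il N lam₀ X) * W1 j))) *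
          (1 / nm d * (1 / nm f)) := by
    refine Finset.sum_le_sum fun d hd => Finset.sum_le_sum fun e he =>
      Finset.sum_le_sum fun f hf => ?_
    have e1 : ∑ q ∈ Q, ∑ l ∈ T3 lam₀ g j3, (if IsCoprime (d * f) l ∧ IsCoprime (d * f) ka then ∑ j : Bool,
        Tmsx j (Pr q) A (a + 4) (a + 3) U N X j1 j3 s (b q) g l d e f else 0) =
        ∑ j : Bool, ∑ q ∈ Q, ∑ l ∈ T3 lam₀ g j3, (if IsCoprime (d * f) l ∧ IsCoprime (d * f) ka then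
        Tmsx j (Pr q) A (a + 4) (a + 3) U N X j1 j3 s (b q) g l d e f else 0) := by
      simp only [Fintype.sum_bool]
      rw [← Finset.sum_add_distrib]
      refine Finset.sum_congr rfl fun q _ => ?_
      rw [← Finset.sum_add_distrib]
      refine Finset.sum_congr rfl fun l _ => ?_
      split_ifs
      · rfl
      · rw [add_zero]
    rw [e1]
    refine (Finset.sum_le_sum fun j _ => hfam j d hd e he f hf).trans (le_of_eq ?_)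
    simp only [Fintype.sum_bool]
    ring
  have h4 := hharm lam₀ Z hlam1 hlamZ
  set T : ℝ := ∑ j : Bool, (1 / nm g * (X * nfx j lam₀ (Il N lam₀ X) * W1 j)) with hTd
  have hTT : 0 ≤ T := Finset.sum_nonneg fun j _ => mul_nonneg (by positivity) (hT0 j)
  have h5 : 0 ≤ Cf * Z ^ (4 * ε) * T := mul_nonneg (by positivity) hTT
  have h6 : ∑ d ∈ S lam₀, ∑ e ∈ pdiv d, ∑ f ∈ S lam₀, Cf * Z ^ (4 * ε) * T *
        (1 / (nm d : ℝ) * (1 / nm f)) =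
      Cf * Z ^ (4 * ε) * T *
        ∑ d ∈ S lam₀, ∑ e ∈ pdiv d, ∑ f ∈ S lam₀, (1 / (nm d : ℝ) * (1 / nm f)) := by
    simp_rw [← Finset.mul_sum]
  rw [h6] at h3
  have h7 := h3.trans (mul_le_mul_of_nonneg_left h4 h5)
  refine (mul_le_mul_of_nonneg_left h7 (by positivity)).trans (le_of_eq ?_)
  have e8 : Z ^ (8 * ε) = Z ^ ε * Z ^ (4 * ε) * Z ^ (3 * ε) := by
    rw [← Real.rpow_add hZ0, ← Real.rpow_add hZ0]
    congr 1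
    ring
  have hTs : T = 1 / (nm g : ℝ) * ∑ j : Bool, (X * nfx j lam₀ (Il N lam₀ X) * W1 j) := by
    rw [hTd, ← Finset.mul_sum]
  rw [e8, hTs]
  ring

/-- **all blocks**, one weight, both classes -/
theorem pohs_vsx {R : ℝ} (hR : 0 ≤ R) {u : Eis} (hu : SU u) {A a : ℕ} (hA : 1 < A) {ε : ℝ} (hε0 : 0 < ε)
    (hε : ε ≤ 1) :
    ∃ C : ℝ, 0 < C ∧ ∀ (v : ℝ → ℝ), Wgt v → ∀ C0 : ℝ, KT v (max R 2) A (a + 4) C0 →
      ∀ Z N X lam₀ : ℝ, 1 ≤ Z → 0 < N → N ≤ Z → 0 < X → 1 ≤ X * Z →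
      1 ≤ lam₀ → lam₀ ≤ Z → lam₀ * Real.exp R < N →
      ∀ {ι : Type} (Q : Finset ι) (b : ι → Eis → ℂ) (Xq : ι → ℝ),
      (∀ q ∈ Q, X / 64 ≤ Xq q ∧ Xq q ≤ X) →
      (∀ q ∈ Q, ∀ n, b q n ≠ 0 → n ∈ S Z) → (∀ q ∈ Q, Win (b q) (Real.log N) R) →
      ∀ (B0 : ℝ) (ka : Eis) (Pr : ι → Eis → Eis → Prop), (∀ q ∈ Q, ∀ D, D ≠ 0 → Cub (Pr q D)) →
      (∀ q ∈ Q, ∀ D H, IsPrim D → H ≠ 0 → (∃ m, b q (D * m) ≠ 0) → Pr q D H →
        ∃ s t, D ^ 2 * H * s = t ^ 3 ∧ IsCoprime s D) →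
      ∀ W : Bool → ℝ → ℝ, (∀ j, Slp a (W j)) → (∀ j, HWx j A B0 Q b ka Pr (W j)) →
      lam₀ ^ 2 ≤ B0 →
      ∀ W1 : Bool → ℝ, (∀ j, W j (18 * (729 * (nm u : ℝ)) ^ 3 * (384 * (729 * (nm u : ℝ))) * Il N lam₀ X) ≤ W1 j) →
      ∑ q ∈ Q, ∑ κ ∈ KSa ka lam₀, ∑ g ∈ pdiv κ.2.2,
        ‖Sh v (Xq q) (pt (u * su κ)) (bg (b q) g (κ.2.2 / g)) (g * κ.2.1)‖ ^ 2 ≤
        C * (1 + C0) ^ 2 * Z ^ (11 * ε) *
          ∑ j : Bool, (X * nfx j lam₀ (Il N lam₀ X) * W1 j) := by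
  have hnu : (1 : ℝ) ≤ nm u := nm_ge_one hu.ne
  set U : ℝ := 729 * (nm u : ℝ) with hUdef
  have hU : 81 ≤ U := by rw [hUdef]; linarith
  have hU0 : 0 < U := by linarith
  obtain ⟨Cb, hCb, hblk⟩ := fam_blocksx hR hU (A := A) (a := a) hA hε0 hε
  obtain ⟨Ch, hCh, hharm⟩ := harm hε0
  obtain ⟨Cj, hCj, hJn⟩ := Jn_le hε0
  refine ⟨9 * (Ch * (Cj * (Cj * Cb))), by positivity, ?_⟩
  intro v hv C0 hk Z N X lam₀ hZ hN hNZ hX hXZ hlam1 hlamZ hlamN ι Q b Xq hXq hb hwb B0 ka Pr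
    hPr hcp W hW hVI hB0 W1 hW1
  have hZ0 : 0 < Z := by linarith
  have hlam0 : 0 ≤ lam₀ := by linarith
  have hC0 := hk.1
  have hI : 0 < Il N lam₀ X := by unfold Il; positivity
  set T : ℝ := ∑ j : Bool, (X * nfx j lam₀ (Il N lam₀ X) * W1 j) with hT
  have hW10 : ∀ j, 0 ≤ W1 j := fun j => ((hW j).nonneg _ (by positivity)).trans (hW1 j)
  have hT0 : 0 ≤ T := Finset.sum_nonneg fun j _ =>
    mul_nonneg (mul_nonneg hX.le (nfx_nonneg j hlam0 hI.le)) (hW10 j)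
  -- the family inside
  set Ψ : ℕ × ℕ → Eis → Eis → Eis → ℝ := fun p g l x =>
    if IsCoprime x ka ∧ IsCoprime g ka then ∑ q ∈ Q,
        ‖Sh v (Xq q) (pt (u * su (p, (1, 1)))) (bg (b q) g l) (g * x)‖ ^ 2 else 0 with hΨ
  have hΨ0 : ∀ p g l x, 0 ≤ Ψ p g l x := by
    intro p g l x
    rw [hΨ]
    beta_reduce
    split_ifs
    · exact Finset.sum_nonneg fun _ _ => by positivity
    · exact le_rfl
  have e1 : ∑ q ∈ Q, ∑ κ ∈ KSa ka lam₀, ∑ g ∈ pdiv κ.2.2,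
        ‖Sh v (Xq q) (pt (u * su κ)) (bg (b q) g (κ.2.2 / g)) (g * κ.2.1)‖ ^ 2 ≤
      ∑ κ ∈ KS lam₀, ∑ g ∈ pdiv κ.2.2, Ψ κ.1 g (κ.2.2 / g) κ.2.1 := by
    rw [Finset.sum_comm]
    unfold KSa
    rw [Finset.sum_filter]
    refine Finset.sum_le_sum fun κ hκ => ?_
    split_ifs with hc
    · rw [Finset.sum_comm]
      refine Finset.sum_le_sum fun g hg => ?_
      have hg' := (mem_pdiv (mem_KS.mp hκ).1.prim2.ne_zero).mp hg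
      have h1 : IsCoprime κ.2.1 ka := hc.of_mul_left_left
      have h2 : IsCoprime g ka := hc.of_mul_left_right.of_isCoprime_of_dvd_left hg'.2
      rw [hΨ]
      beta_reduce
      rw [if_pos ⟨h1, h2⟩]
      rfl
    · exact Finset.sum_nonneg fun g _ => hΨ0 _ _ _ _
  refine e1.trans ?_
  refine (reorg hlam0 (Ψ := Ψ) hΨ0).trans ?_
  have h1 : ∀ p ∈ Finset.range 3 ×ˢ Finset.range 3, ∀ g ∈ S lam₀,
      ∀ j3 ∈ Finset.range (Jn lam₀), ∀ j1 ∈ Finset.range (Jn lam₀),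
      ∑ l ∈ T3 lam₀ g j3, ∑ x ∈ H1 lam₀ p g l j1, Ψ p g l x ≤
      Cb * (1 + C0) ^ 2 * Z ^ (8 * ε) * T * (1 / nm g) := by
    intro p hp g hg j3 _ j1 _
    have hp' := Finset.mem_product.mp hp
    by_cases hgk : IsCoprime g ka
    swap
    · have h0 : ∑ l ∈ T3 lam₀ g j3, ∑ x ∈ H1 lam₀ p g l j1, Ψ p g l x = 0 := by
        refine Finset.sum_eq_zero fun l _ => Finset.sum_eq_zero fun x _ => ?_
        rw [hΨ]
        beta_reduce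
        exact if_neg fun h => hgk h.2
      rw [h0]
      positivity
    have e2 : ∑ l ∈ T3 lam₀ g j3, ∑ x ∈ H1 lam₀ p g l j1, Ψ p g l x =
        ∑ q ∈ Q, ∑ l ∈ T3 lam₀ g j3, ∑ x ∈ H1k lam₀ ka p g l j1,
        ‖Sh v (Xq q) (pt (u * su (p, (1, 1)))) (bg (b q) g l) (g * x)‖ ^ 2 := by
      symm
      rw [Finset.sum_comm]
      refine Finset.sum_congr rfl fun l _ => ?_
      rw [Finset.sum_comm]
      unfold H1k
      rw [Finset.sum_filter]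
      refine Finset.sum_congr rfl fun x _ => ?_
      rw [hΨ]
      beta_reduce
      simp only [hgk, and_true]
    refine e2.le.trans ?_
    have hsu : SU (u * su (p, (1, 1))) := hu.mul (SU_su _)
    have hsU : (nm (9 * (u * su (p, (1, 1)))) : ℝ) ≤ U := by
      have h2 : (nm (9 * su (p, ((1 : Eis), (1 : Eis)))) : ℝ) ≤ 729 :=
        nm_M_le (Finset.mem_range.mp hp'.2)
      have h3 : (nm (9 * (u * su (p, ((1 : Eis), (1 : Eis))))) : ℝ) =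
          nm (9 * su (p, ((1 : Eis), (1 : Eis)))) * nm u := by
        simp only [nm_mul]
        push_cast
        ring
      rw [h3, hUdef]
      exact mul_le_mul_of_nonneg_right h2 (Nat.cast_nonneg _)
    refine (hblk v hv C0 hk _ hsu hsU Z N X lam₀ hZ hN hNZ hX hXZ hlam1 hlamZ hlamN Q b Xq hXq hb
      hwb B0 ka Pr hPr hcp W hW hVI hB0 W1 hW1 p g ((mem_S hlam0).1 hg).2.1 hgk j1 j3).trans
      (le_of_eq ?_)
    rw [← Finset.mul_sum, ← hT]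
    ring
  have hJ0 : (0 : ℝ) ≤ Jn lam₀ := Nat.cast_nonneg _
  have hJ := hJn lam₀ Z hlam1 hlamZ
  have hH := hharm lam₀ Z hlam1 hlamZ
  set K : ℝ := Cb * (1 + C0) ^ 2 * Z ^ (8 * ε) * T with hK
  have hK0 : 0 ≤ K := by positivity
  calc ∑ p ∈ Finset.range 3 ×ˢ Finset.range 3, ∑ g ∈ S lam₀, ∑ j3 ∈ Finset.range (Jn lam₀),
        ∑ j1 ∈ Finset.range (Jn lam₀), ∑ l ∈ T3 lam₀ g j3, ∑ x ∈ H1 lam₀ p g l j1,
          Ψ p g l x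
      ≤ ∑ _p ∈ Finset.range 3 ×ˢ Finset.range 3, ∑ g ∈ S lam₀, ∑ _j3 ∈ Finset.range (Jn lam₀),
        ∑ _j1 ∈ Finset.range (Jn lam₀), K * (1 / nm g) :=
        Finset.sum_le_sum fun p hp => Finset.sum_le_sum fun g hg => Finset.sum_le_sum fun j3 hj3 =>
          Finset.sum_le_sum fun j1 hj1 => h1 p hp g hg j3 hj3 j1 hj1
    _ = 9 * ((∑ g ∈ S lam₀, (1 / (nm g : ℝ))) * ((Jn lam₀ : ℝ) * ((Jn lam₀ : ℝ) * K))) := by
        have e3 : ∑ g ∈ S lam₀, ((Jn lam₀ : ℝ) * ((Jn lam₀ : ℝ) * (K * (1 / nm g)))) =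
            (∑ g ∈ S lam₀, (1 / (nm g : ℝ))) * ((Jn lam₀ : ℝ) * ((Jn lam₀ : ℝ) * K)) := by
          rw [Finset.sum_mul]
          exact Finset.sum_congr rfl fun g _ => by ring
        simp only [Finset.sum_const, Finset.card_product, Finset.card_range, nsmul_eq_mul]
        rw [e3]
        push_cast
        ring
    _ ≤ 9 * ((Ch * Z ^ ε) * ((Cj * Z ^ ε) * ((Cj * Z ^ ε) * K))) := by gcongr
    _ = 9 * (Ch * (Cj * (Cj * Cb))) * (1 + C0) ^ 2 * (Z ^ ε * Z ^ ε * Z ^ ε * Z ^ (8 * ε)) * T := by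
        rw [hK]; ring
    _ = _ := by
        rw [← Real.rpow_add hZ0, ← Real.rpow_add hZ0, ← Real.rpow_add hZ0]
        congr 3
        ring

set_option maxHeartbeats 1000000 in
/-- **the structured bound**, hypotheses `HWx j` : principal and other frequencies -/
theorem pohs_wx {u : Eis} (hu : SU u) {χ : Eis → ℂ} (hχ : ∀ x, IsPrim x → χ x = conj (sy u x))
    {w₀ : ℝ → ℝ} (hw : Wgt w₀) {R : ℝ} (hR : 0 ≤ R) {a A : ℕ} (hA : 1 < A) {ε : ℝ} (hε : 0 < ε) :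
    ∃ (C c : ℝ) (J : ℕ), 0 ≤ C ∧ 1 ≤ c ∧
    ∀ Z N X lam : ℝ, 1 ≤ Z → 0 < N → N ≤ Z → 0 < X → 1 ≤ X * Z → 1 ≤ lam → lam ≤ Z →
      lam * Real.exp R < N →
    ∀ {ι : Type} (Q : Finset ι) (b : ι → Eis → ℂ) (Xq : ι → ℝ),
      (∀ q ∈ Q, X / 64 ≤ Xq q ∧ Xq q ≤ X) →
      (∀ q ∈ Q, ∀ n, b q n ≠ 0 → n ∈ S Z) → (∀ q ∈ Q, Win (b q) (Real.log N) R) →
    ∀ (ka : Eis) (Pr : ι → Eis → Eis → Prop), (∀ q ∈ Q, ∀ D, D ≠ 0 → Cub (Pr q D)) →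
      (∀ q ∈ Q, ∀ D H, IsPrim D → H ≠ 0 → (∃ m, b q (D * m) ≠ 0) → Pr q D H →
        ∃ s t, D ^ 2 * H * s = t ^ 3 ∧ IsCoprime s D) →
    ∀ W : Bool → ℝ → ℝ, (∀ j, Slp a (W j)) → (∀ j, HWx j A (N ^ 2) Q b ka Pr (W j)) →
    ∀ W1 : Bool → ℝ, (∀ j, W j (c * Il N lam X) ≤ W1 j) →
    ∀ t : ℝ, ∑ q ∈ Q, ∑ κ ∈ KSa ka lam, ‖XS χ w₀ (Xq q) t (b q) κ‖ ^ 2 ≤
      C * Z ^ ε * (1 + |t|) ^ J * ∑ j : Bool, (X * nfx j lam (Il N lam X) * W1 j) := by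
  set ε1 : ℝ := min 1 (ε / 12) with hε1
  have hε1p : 0 < ε1 := lt_min one_pos (by linarith)
  have hε1l : ε1 ≤ 1 := min_le_left _ _
  have hε1e : 12 * ε1 ≤ ε := by
    have : ε1 ≤ ε / 12 := min_le_right _ _
    linarith
  have hnu : (1 : ℝ) ≤ nm u := nm_ge_one hu.ne
  obtain ⟨Ck, J, hCk, hKT⟩ := TWt405.KT_tw hw (R := max R 2) (by positivity) A (a + 4)
  obtain ⟨Cp, hCp, hpv⟩ := pohs_vsx hR hu (A := A) (a := a) hA hε1p hε1l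
  obtain ⟨Ct, hCt1, hCt⟩ := tau_unif hε1p
  have hCt0 : 0 < Ct := by linarith
  refine ⟨4 * Ct * (Cp * (1 + Ck) ^ 2),
    18 * (729 * (nm u : ℝ)) ^ 3 * (384 * (729 * (nm u : ℝ))), 2 * J, by positivity, ?_, ?_⟩
  · have h1 : (1 : ℝ) ≤ (729 * (nm u : ℝ)) ^ 3 := one_le_pow₀ (by linarith)
    exact one_le_mul_of_one_le_of_one_le (by linarith) (by linarith)
  intro Z N X lam₀ hZ hN hNZ hX hXZ hlam1 hlamZ hlamN ι Q b Xq hXq hb hwb ka Pr hPr hcp W hW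
    hVI W1 hW1 t
  have hZ0 : 0 < Z := by linarith
  have hlam0 : 0 ≤ lam₀ := by linarith
  have hlamN' : lam₀ ≤ N :=
    (le_mul_of_one_le_right hlam0 (Real.one_le_exp hR)).trans hlamN.le
  have hB0 : lam₀ ^ 2 ≤ N ^ 2 := pow_le_pow_left₀ hlam0 hlamN' 2
  have ht1 : 1 ≤ 1 + |t| := by linarith [abs_nonneg t]
  have hI : 0 < Il N lam₀ X := by unfold Il; positivity
  have hW10 : ∀ j, 0 ≤ W1 j := fun j => ((hW j).nonneg _ (by positivity)).trans (hW1 j)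
  set T : ℝ := ∑ j : Bool, (X * nfx j lam₀ (Il N lam₀ X) * W1 j) with hT
  have hT0 : 0 ≤ T := Finset.sum_nonneg fun j _ =>
    mul_nonneg (mul_nonneg hX.le (nfx_nonneg j hlam0 hI.le)) (hW10 j)
  set C0 : ℝ := Ck * (1 + |t|) ^ J with hC0d
  have hC00 : 0 ≤ C0 := by positivity
  have hkc : KT (TWt405.wc w₀ t) (max R 2) A (a + 4) C0 := (hKT t).1
  have hks : KT (TWt405.wsn w₀ t) (max R 2) A (a + 4) C0 := (hKT t).2
  have b1 := hpv _ (TWt405.wgt_wc hw t) C0 hkc Z N X lam₀ hZ hN hNZ hX hXZ hlam1 hlamZ hlamN Q b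
    Xq hXq hb hwb (N ^ 2) ka Pr hPr hcp W hW hVI hB0 W1 hW1
  have b2 := hpv _ (TWt405.wgt_wsn hw t) C0 hks Z N X lam₀ hZ hN hNZ hX hXZ hlam1 hlamZ hlamN Q b
    Xq hXq hb hwb (N ^ 2) ka Pr hPr hcp W hW hVI hB0 W1 hW1
  rw [← hT] at b1 b2
  -- one kernel
  have h1 : ∀ q ∈ Q, ∀ κ ∈ KSa ka lam₀, ‖XS χ w₀ (Xq q) t (b q) κ‖ ^ 2 ≤
      2 * (Ct * Z ^ ε1) * ((∑ g ∈ pdiv κ.2.2, ‖Sh (TWt405.wc w₀ t) (Xq q) (pt (u * su κ))
          (bg (b q) g (κ.2.2 / g)) (g * κ.2.1)‖ ^ 2) +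
        ∑ g ∈ pdiv κ.2.2, ‖Sh (TWt405.wsn w₀ t) (Xq q) (pt (u * su κ))
          (bg (b q) g (κ.2.2 / g)) (g * κ.2.1)‖ ^ 2) := by
    intro q hq κ hκ
    obtain ⟨hg, hkv⟩ := mem_KS.mp (Finset.mem_filter.mp hκ).1
    have hXq0 : 0 < Xq q := by have := (hXq q hq).1; linarith
    rw [XS_splits u hχ hw hXq0 t hZ0.le (hb q hq) hg, norm_mul, norm_pw, one_mul]
    have hcs := norm_sum_le (pdiv κ.2.2) (fun g =>
      (Sh (TWt405.wc w₀ t) (Xq q) (pt (u * su κ)) (bg (b q) g (κ.2.2 / g)) (g * κ.2.1) +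
        Sh (TWt405.wsn w₀ t) (Xq q) (pt (u * su κ)) (bg (b q) g (κ.2.2 / g)) (g * κ.2.1) * I))
    have hsq : ‖∑ g ∈ pdiv κ.2.2,
      (Sh (TWt405.wc w₀ t) (Xq q) (pt (u * su κ)) (bg (b q) g (κ.2.2 / g)) (g * κ.2.1) +
        Sh (TWt405.wsn w₀ t) (Xq q) (pt (u * su κ)) (bg (b q) g (κ.2.2 / g)) (g * κ.2.1) * I)‖ ^ 2 ≤
      (Div277.tau κ.2.2 : ℝ) * ∑ g ∈ pdiv κ.2.2,
      ‖Sh (TWt405.wc w₀ t) (Xq q) (pt (u * su κ)) (bg (b q) g (κ.2.2 / g)) (g * κ.2.1) +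
        Sh (TWt405.wsn w₀ t) (Xq q) (pt (u * su κ)) (bg (b q) g (κ.2.2 / g)) (g * κ.2.1) * I‖ ^ 2 := by
      refine (pow_le_pow_left₀ (norm_nonneg _) hcs 2).trans ?_
      exact sq_sum_le_card_mul_sum_sq
    have htau : (Div277.tau κ.2.2 : ℝ) ≤ Ct * Z ^ ε1 := by
      refine hCt Z hZ κ.2.2 ((mem_S hZ0.le).mpr ⟨?_, hg.prim2, hg.sqf2⟩)
      have n1 := nm_ge_one hg.prim1.ne_zero
      have n2 := nm_ge_one hg.prim2.ne_zero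
      have h3 := NonCube52.nm_kv_ge κ
      have h7 : (nm κ.2.2 : ℝ) ≤ (nm κ.2.2 : ℝ) ^ 2 := by nlinarith
      have h8 : (nm κ.2.2 : ℝ) ^ 2 ≤ nm κ.2.1 * (nm κ.2.2 : ℝ) ^ 2 :=
        le_mul_of_one_le_left (by positivity) n1
      linarith
    have hpt : ∀ x y : ℂ, ‖x + y * I‖ ^ 2 ≤ 2 * (‖x‖ ^ 2 + ‖y‖ ^ 2) := by
      intro x y
      have h3 := norm_add_le x (y * I)
      rw [norm_mul, Complex.norm_I, mul_one] at h3
      nlinarith [norm_nonneg x, norm_nonneg y, norm_nonneg (x + y * I), sq_nonneg (‖x‖ - ‖y‖)]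
    calc _ ≤ (Div277.tau κ.2.2 : ℝ) * ∑ g ∈ pdiv κ.2.2,
      ‖Sh (TWt405.wc w₀ t) (Xq q) (pt (u * su κ)) (bg (b q) g (κ.2.2 / g)) (g * κ.2.1) +
        Sh (TWt405.wsn w₀ t) (Xq q) (pt (u * su κ)) (bg (b q) g (κ.2.2 / g)) (g * κ.2.1) * I‖ ^ 2 :=
          hsq
      _ ≤ (Ct * Z ^ ε1) * ∑ g ∈ pdiv κ.2.2,
        2 * (‖Sh (TWt405.wc w₀ t) (Xq q) (pt (u * su κ)) (bg (b q) g (κ.2.2 / g)) (g * κ.2.1)‖ ^ 2 +
        ‖Sh (TWt405.wsn w₀ t) (Xq q) (pt (u * su κ)) (bg (b q) g (κ.2.2 / g)) (g * κ.2.1)‖ ^ 2) := by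
          refine mul_le_mul htau (Finset.sum_le_sum fun g _ => hpt _ _)
            (Finset.sum_nonneg fun _ _ => by positivity) (by positivity)
      _ = _ := by rw [← Finset.mul_sum, Finset.sum_add_distrib]; ring
  have h2 : ∑ q ∈ Q, ∑ κ ∈ KSa ka lam₀, ‖XS χ w₀ (Xq q) t (b q) κ‖ ^ 2 ≤
      2 * (Ct * Z ^ ε1) * ((∑ q ∈ Q, ∑ κ ∈ KSa ka lam₀, ∑ g ∈ pdiv κ.2.2,
        ‖Sh (TWt405.wc w₀ t) (Xq q) (pt (u * su κ)) (bg (b q) g (κ.2.2 / g)) (g * κ.2.1)‖ ^ 2) +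
        ∑ q ∈ Q, ∑ κ ∈ KSa ka lam₀, ∑ g ∈ pdiv κ.2.2,
        ‖Sh (TWt405.wsn w₀ t) (Xq q) (pt (u * su κ)) (bg (b q) g (κ.2.2 / g)) (g * κ.2.1)‖ ^ 2) := by
    refine (Finset.sum_le_sum fun q hq => Finset.sum_le_sum fun κ hκ => h1 q hq κ hκ).trans
      (le_of_eq ?_)
    simp only [← Finset.mul_sum, Finset.sum_add_distrib]
  refine h2.trans ?_
  have h3 : 0 ≤ 2 * (Ct * Z ^ ε1) := by positivity
  refine (mul_le_mul_of_nonneg_left (add_le_add b1 b2) h3).trans ?_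
  have h4 : (1 + C0) ^ 2 ≤ (1 + Ck) ^ 2 * (1 + |t|) ^ (2 * J) := by
    have h5 : 1 ≤ (1 + |t|) ^ J := one_le_pow₀ ht1
    have h6 : 1 + C0 ≤ (1 + Ck) * (1 + |t|) ^ J := by rw [hC0d]; nlinarith
    calc (1 + C0) ^ 2 ≤ ((1 + Ck) * (1 + |t|) ^ J) ^ 2 :=
          pow_le_pow_left₀ (by positivity) h6 2
      _ = _ := by rw [mul_pow, ← pow_mul, mul_comm J 2]
  have h7 : Z ^ ε1 * Z ^ (11 * ε1) ≤ Z ^ ε := by
    rw [← Real.rpow_add hZ0]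
    exact Real.rpow_le_rpow_of_exponent_le hZ (by linarith)
  calc 2 * (Ct * Z ^ ε1) * (Cp * (1 + C0) ^ 2 * Z ^ (11 * ε1) * T +
        Cp * (1 + C0) ^ 2 * Z ^ (11 * ε1) * T)
      = 4 * Ct * Cp * (1 + C0) ^ 2 * (Z ^ ε1 * Z ^ (11 * ε1)) * T := by ring
    _ ≤ 4 * Ct * Cp * ((1 + Ck) ^ 2 * (1 + |t|) ^ (2 * J)) * Z ^ ε * T := by gcongr
    _ = _ := by ring

end Crest.Agent.R017.PoHx72
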