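import Crest.Agent.R017.MXb_744
import Crest.Agent.R017.PoHt_72
import Crest.Agent.R017.PoHB_405
import Crest.Agent.R017.E3Su_290

/-!
# Row 17, T.7 (class E), E3: MODEx, part c (helper744)

* `poHWx_of` : `PoHWx χ w` from helper72's `pohs_wx`
* `strQx_int` : helper405's `strQ_int` with two classes of frequencies
* `modeEx_MB` : helper290's `MB` with the structured number of the two classes
-/

set_option autoImplicit false

noncomputable section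

open Complex MeasureTheory
open scoped ComplexConjugate Classical

namespace Crest.Agent.R017.MX744

open Crest.Agent.R012 Crest.Agent.R012.Eis Crest.Agent.R012.MC
open Crest.Agent.R012.LS2 (S mem_S bl mem_bl)
open Crest.Agent.R012.LS448 (one_le_nm')
open Crest.Agent.R012.NonCube52 (Ker kv Good kc kc_spec kc_nm kv_ne_zero one_le_nmkv)
open Crest.Agent.R012.Mob705 (mu pdiv mem_pdiv sum_mu_coprime mu_of_not_squarefree abs_mu_le_one)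
open Crest.Agent.R012.Weight600 (pw)
open Crest.Agent.R017.CM106 (CS TG FS)
open Crest.Agent.R017.BD829 (TT EQ Win EQ_nonneg)
open Crest.Agent.R017.E3D579 (EQ_smul EQ_sy uS)
open Crest.Agent.R017.E1551 (jb jb_pos nmpos integrable_jb)
open Crest.Agent.R017.DgB829 (HS HS_le HS_nonneg)
open Crest.Agent.R017.Mode405
open Crest.Agent.R017.PoHx72
open Crest.Agent.R017.E3Su290 (MB T1)

/-- **the structured bound** from helper72's theorem -/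
theorem poHWx_of {u : Eis} (hu : PoH347.SU u) {χ : Eis → ℂ}
    (hχ : ∀ x, IsPrim x → χ x = conj (sy u x)) {w₀ : ℝ → ℝ} (hw : Wgt w₀) : PoHWx χ w₀ := by
  intro R hR a A hA ε hε
  obtain ⟨C, c, J, hC, hc, h⟩ := PoHx72.pohs_wx hu hχ hw hR (a := a) (A := A) hA hε
  refine ⟨C, c, J, hC, hc, ?_⟩
  intro Z N X lam hZ hN hNZ hX hXZ hXZ1 hlam hlamZ hLN ka hkap hkaZ ι Q b Xq hXq hbS hbW Pr hPr W
    hW hWle W1 hW1 hW1le t
  refine le_trans ?_ (h Z N X lam hZ hN hNZ hX hXZ1 hlam hlamZ hLN Q b Xq hXq hbS hbW ka Pr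
    (fun q hq => (hPr q hq).cub) (fun q hq => (hPr q hq).hcp) W hW ?_ W1 hW1le t)
  · refine Finset.sum_le_sum fun q _ => ?_
    exact Finset.sum_le_sum_of_subset_of_nonneg (KSa_sub lam ka) fun _ _ _ => by positivity
  · intro j γ φ x D hγ hcc hφ hx hD hDN he P hP
    exact hWle j γ φ x ⟨hγ, hcc, hφ, hx, D, hD, hDN, he⟩ P hP

theorem poHWx_one {w₀ : ℝ → ℝ} (hw : Wgt w₀) : PoHWx (fun _ => 1) w₀ :=
  poHWx_of PoH347.SU_one (fun x hx => by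
    have := Char766.sy_one_left hx
    rw [this]; simp) hw

set_option maxHeartbeats 1000000 in
/-- **the structured half of `mode_prec`** from `PoHWx` (family, one modulus `ρ o` per member) -/
theorem strQx_int {χ : Eis → ℂ} (hχ : Mul1 χ)
    {w : ℝ → ℝ} (hP : PoHWx χ w) {cw : ℝ} (hcw : 1 ≤ cw) (hw : ∀ x, w x ≠ 0 → x ≤ cw)
    {R : ℝ} (hR : 0 ≤ R) (a A : ℕ) (hA : 1 < A) {ε : ℝ} (hε : 0 < ε) :
    ∃ (C c : ℝ) (A₀ : ℕ), 0 ≤ C ∧ 1 ≤ c ∧ ∀ A' : ℝ, (A₀ : ℝ) ≤ A' →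
    ∀ Z N Y Lt : ℝ, 1 ≤ Z → 0 < N → N ≤ Z → 1 ≤ Y →
      Y ≤ Z → 1 ≤ Lt → Lt ≤ Z → Lt * Real.exp R < N →
    ∀ ka : Eis, IsPrim ka → (nm ka : ℝ) ≤ Z →
    ∀ {ι : Type} (O : Finset ι) (b : ι → Eis → ℂ) (Yq : ι → ℝ) (r₁ : ι → Eis),
      (∀ o ∈ O, Y / 4 ≤ Yq o ∧ Yq o ≤ Y) → (∀ o ∈ O, ∀ n, b o n ≠ 0 → n ∈ S Z) →
      (∀ o ∈ O, Win (b o) (Real.log N) R) → (∀ o ∈ O, r₁ o ≠ 0 ∧ (nm (r₁ o) : ℝ) ≤ Z) →
    ∀ Prd : ι → Eis → Eis → Prop, (∀ o ∈ O, PrOK (b o) (Prd o)) →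
    ∀ W : Bool → ℝ → ℝ, (∀ jj, Slp a (W jj)) →
      (∀ jj γ φ x, Adm (N ^ 2) ka γ φ x → ∀ P : ℝ, 0 < P → ∑ o ∈ O, ∑ e ∈ pdiv (r₁ o),
        (nm e : ℝ)⁻¹ * ((nm γ : ℝ) * VIc A (Mode405.bs (b o) e) γ φ 1 (nm e * P / nm x)
          (Cls (PrS (Prd o) e γ) jj)) ≤ W jj P) →
    ∀ W1 : Bool → ℝ, (∀ jj, 0 ≤ W1 jj) → (∀ jj, W jj (c * Il N Lt Y) ≤ W1 jj) →
    ∀ lam : ℝ, 1 ≤ lam → lam ≤ Lt →
    ∀ ρ : ι → Eis, (∀ o ∈ O, ρ o ≠ 0 ∧ (nm (ρ o) : ℝ) ≤ 2 * Z ^ 2) →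
    ∑ o ∈ O, ∫ t, jb A' t * ∑ κ ∈ KSa lam ka,
        ‖StrQ χ w (Yq o) t (b o) κ (ρ o) (r₁ o) (cw * Y) ((Lt / lam) ^ (1 / 3 : ℝ))‖ ^ 2 ≤
      (lam / Lt) ^ (1 / 3 : ℝ) * (Y * (C * Z ^ ε * ∑ jj : Bool, nfx jj Lt (Il N Lt Y) * W1 jj)) := by
  obtain ⟨C, c, J, hC, hc, h⟩ := strQx_le hχ hP hcw hw hR a A hA hε
  set KJ : ℝ := ∫ t, jb 2 t with hKJ
  have hKJ0 : 0 ≤ KJ := integral_nonneg fun t => (jb_pos 2 t).le
  refine ⟨KJ * (C * 2 ^ ε), c, J + 2, by positivity, hc, ?_⟩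
  intro A' hA' Z N Y Lt hZ hN hNZ hY hYZ hLt hLZ hLN ka hkap hkaZ ι O b Yq r₁ hYq hbS hbW hr Prd hPrd
    W hW hWle W1 hW1 hW1le lam hlam hlamL ρ hρ
  have hZ0 : 0 < Z := by linarith
  have hY0 : 0 < Y := by linarith
  have hlam0 : 0 < lam := by linarith
  have hLt0 : 0 < Lt := by linarith
  have hcw0 : 0 < cw := by linarith
  have hcY0 : 0 ≤ cw * Y := by positivity
  have hA'2 : (2 : ℝ) + J ≤ A' := by push_cast at hA'; linarith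
  have hA'1 : 1 < A' := by
    have : (0 : ℝ) ≤ J := Nat.cast_nonneg J
    linarith
  set P₁ : ℝ := (Lt / lam) ^ (1 / 3 : ℝ) with hP₁
  have hLl : 1 ≤ Lt / lam := (one_le_div hlam0).mpr hlamL
  have hP₁1 : 1 ≤ P₁ := Real.one_le_rpow hLl (by norm_num)
  have hP3 : lam * P₁ ^ 3 = Lt := by
    rw [hP₁, ← Real.rpow_natCast, ← Real.rpow_mul (by positivity)]
    norm_num
    field_simp
  have hZ2 : Z ≤ 2 * Z := by linarith
  have hsup : ∀ o ∈ O, ∀ n, b o n ≠ 0 → n ∈ S (2 * Z) := by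
    intro o ho n hn
    have h1 := (mem_S hZ0.le).1 (hbS o ho n hn)
    exact (mem_S (by positivity)).2 ⟨h1.1.trans hZ2, h1.2⟩
  have hIl0 : 0 < Il N lam Y := by unfold Il; positivity
  have hIlt0 : 0 < Il N Lt Y := by unfold Il; positivity
  have hnfL0 : ∀ jj, 0 ≤ nfx jj lam (Il N lam Y) := fun jj => nfx_nonneg jj hlam0.le hIl0.le
  have hnfLT : ∀ jj, nfx jj lam (Il N lam Y) ≤ nfx jj Lt (Il N Lt Y) := by
    intro jj
    have h1 := nfx_mono jj hlam0 hlamL (u := N / Y) (by positivity)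
    have e1 : N / Y * lam = Il N lam Y := by unfold Il; ring
    have e2 : N / Y * Lt = Il N Lt Y := by unfold Il; ring
    rwa [e1, e2] at h1
  have hw' : ∀ o ∈ O, ∀ x, w (x / Yq o) ≠ 0 → x ≤ cw * Y := by
    intro o ho x hx
    have hYq0 : 0 < Yq o := by have := (hYq o ho).1; linarith
    have h1 := hw _ hx
    rw [div_le_iff₀ hYq0] at h1
    exact h1.trans (mul_le_mul_of_nonneg_left (hYq o ho).2 hcw0.le)
  have hint : ∀ o ∈ O, Integrable fun t => jb A' t * ∑ κ ∈ KSa lam ka,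
        ‖StrQ χ w (Yq o) t (b o) κ (ρ o) (r₁ o) (cw * Y) P₁‖ ^ 2 := fun o ho =>
    integrable_StrQ hA'1 (hρ o ho).1 hcY0 (hw' o ho) _ _
  rw [← integral_finsetSum _ hint]
  set Bd : ℝ := C * (2 * Z) ^ ε * ∑ jj : Bool,
    (Y * nfx jj Lt (Il N Lt Y) * ((lam / Lt) ^ (1 / 3 : ℝ) * W1 jj)) with hBd
  have hnfT0 : ∀ jj, 0 ≤ nfx jj Lt (Il N Lt Y) := fun jj => (hnfL0 jj).trans (hnfLT jj)
  have hBd0 : 0 ≤ Bd := by
    refine mul_nonneg (by positivity) (Finset.sum_nonneg fun jj _ => ?_)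
    have h1 := hnfT0 jj
    have h2 := hW1 jj
    positivity
  have hpt : ∀ t : ℝ, ∑ o ∈ O, jb A' t * ∑ κ ∈ KSa lam ka,
        ‖StrQ χ w (Yq o) t (b o) κ (ρ o) (r₁ o) (cw * Y) P₁‖ ^ 2 ≤ Bd * jb 2 t := by
    intro t
    rw [← Finset.mul_sum]
    have h1 := h (2 * Z) N Y Lt lam P₁ (by linarith) hN (by linarith) hY (by linarith) hlam hlamL
      (by linarith) hLN hP₁1 hP3.le ka hkap (hkaZ.trans hZ2) O b Yq r₁ hYq hsup hbW
      (fun o ho => ⟨(hr o ho).1, (hr o ho).2.trans hZ2⟩) Prd hPrd W hW hWle W1 hW1 hW1le ρ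
      (fun o ho => ⟨(hρ o ho).1, (hρ o ho).2.trans (by
        have : 0 ≤ Z ^ 2 * (8 * Z - 2) := by
          have : 0 ≤ 8 * Z - 2 := by linarith
          positivity
        nlinarith)⟩) t
    have hj0 := (jb_pos A' t).le
    have hjb : jb A' t * (1 + |t|) ^ J ≤ jb 2 t := by
      have h1 : 1 ≤ 1 + |t| := by linarith [abs_nonneg t]
      unfold jb
      rw [← Real.rpow_natCast (1 + |t|) J, ← Real.rpow_add (by linarith)]
      exact Real.rpow_le_rpow_of_exponent_le h1 (by linarith)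
    have h2 : C * (2 * Z) ^ ε * (1 + |t|) ^ J * ∑ jj : Bool, (Y * nfx jj lam (Il N lam Y) *
        ((lam / Lt) ^ (1 / 3 : ℝ) * W1 jj)) ≤ C * (2 * Z) ^ ε * (1 + |t|) ^ J *
        ∑ jj : Bool, (Y * nfx jj Lt (Il N Lt Y) * ((lam / Lt) ^ (1 / 3 : ℝ) * W1 jj)) := by
      have ht0 : 0 ≤ (1 + |t|) ^ J := by positivity
      refine mul_le_mul_of_nonneg_left (Finset.sum_le_sum fun jj _ => ?_) (by positivity)
      have h3 := hnfLT jj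
      have h4 := hW1 jj
      gcongr
    calc _ ≤ jb A' t * (C * (2 * Z) ^ ε * (1 + |t|) ^ J *
        ∑ jj : Bool, (Y * nfx jj Lt (Il N Lt Y) * ((lam / Lt) ^ (1 / 3 : ℝ) * W1 jj))) :=
          mul_le_mul_of_nonneg_left (h1.trans h2) hj0
      _ = Bd * (jb A' t * (1 + |t|) ^ J) := by rw [hBd]; ring
      _ ≤ _ := mul_le_mul_of_nonneg_left hjb hBd0
  calc _ ≤ ∫ t, Bd * jb 2 t := by
        refine integral_mono_of_nonneg (Filter.Eventually.of_forall fun t => ?_)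
          ((integrable_jb (by norm_num)).const_mul _) (Filter.Eventually.of_forall hpt)
        exact Finset.sum_nonneg fun o _ => mul_nonneg (jb_pos A' t).le
          (Finset.sum_nonneg fun _ _ => by positivity)
    _ = Bd * KJ := integral_const_mul _ _
    _ = _ := by
        rw [hBd, Real.mul_rpow (by norm_num) hZ0.le]
        simp only [Fintype.sum_bool]
        ring

set_option maxHeartbeats 1000000 in
/-- **MODEx** : helper290's `MB`, the structured number of the two classes of frequencies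
(`true` = principal : `nfx true lam I = lam I^(-2/3)`, `nfx false lam I = 1 + lam I^(-1/2)`) -/
theorem modeEx_MB {χ : Eis → ℂ} (hχ : Mul1 χ) {w : ℝ → ℝ} (hwW : Wgt w)
    (hP : PoHWx χ (w6 w)) {R : ℝ} (hR : 0 ≤ R) (a A : ℕ) (hA : 1 < A) {ε : ℝ} (hε : 0 < ε) :
    ∃ (C c cw : ℝ) (A₀ : ℕ), 0 ≤ C ∧ 1 ≤ c ∧ 1 ≤ cw ∧ ∀ A' : ℝ, (A₀ : ℝ) ≤ A' →
      ∀ Z N Y Lt : ℝ, 1 ≤ Z → 0 < N → N ≤ Z → 1 ≤ Y → Y ≤ Z → 0 < Lt → Lt ≤ Z →
      ∀ (b : Eis → ℂ) (r₁ ka : Eis), (∀ n, b n ≠ 0 → n ∈ S Z) → Win b (Real.log N) R →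
      IsPrim ka → (nm ka : ℝ) ≤ Z →
      ∀ (Prd : Eis → Eis → Prop) (W : Bool → ℝ → ℝ) (W1 : Bool → ℝ), (∀ jj, 0 ≤ W1 jj) →
      (1 ≤ Lt → Lt * Real.exp R < N ∧ PrOK b Prd ∧ (∀ jj, Slp a (W jj)) ∧
        (∀ jj, W jj (c * Il N Lt Y) ≤ W1 jj) ∧
        ∀ jj γ φ x, Adm (N ^ 2) ka γ φ x → ∀ P : ℝ, 0 < P → ∑ e ∈ pdiv r₁,
          (nm e : ℝ)⁻¹ * ((nm γ : ℝ) * VIc A (Mode405.bs b e) γ φ 1 (nm e * P / nm x)
            (Cls (PrS Prd e γ) jj)) ≤ W jj P) →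
      MB χ w A' ε C cw b r₁ ka Y Lt (∑ jj : Bool, nfx jj Lt (Il N Lt Y) * W1 jj) Z := by
  obtain ⟨cw, hcw, hcwle⟩ := exists_cw hwW
  obtain ⟨C₁, c, A₁, hC₁, hc, hstr⟩ := strQx_int hχ hP hcw hcwle hR a A hA (ε := ε / 2)
    (by positivity)
  obtain ⟨C₂, hC₂, hpre⟩ := mode_prec hχ hwW hcw hcwle (ε := ε / 2) (by positivity)
  refine ⟨C₂ * (1 + C₁), c, cw, A₁ + 2, by positivity, hc, hcw, ?_⟩
  intro A' hA' Z N Y Lt hZ hN hNZ hY hYZ hLt hLZ b r₁ ka hbS hbW hkap hkaZ Prd W W1 hW1 hyp Z' L L0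
    hZZ hL hLZ' hL0 hL0Z r q hr hrZ hr₁ hq hqZ hLq
  have hZ' : 1 ≤ Z' := hZ.trans hZZ
  have hZ'0 : 0 < Z' := by linarith
  have hY0 : 0 < Y := by linarith
  have hA'1 : (A₁ : ℝ) ≤ A' := by push_cast at hA'; linarith
  have hA'2 : 2 ≤ A' := by
    have : (0 : ℝ) ≤ A₁ := Nat.cast_nonneg _
    push_cast at hA'; linarith
  have hbS' : ∀ n, b n ≠ 0 → n ∈ S Z' := fun n hn => by
    have h1 := (mem_S (by linarith)).1 (hbS n hn)
    exact (mem_S (by linarith)).2 ⟨h1.1.trans hZZ, h1.2⟩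
  have hr₁0 : r₁ ≠ 0 := ne_zero_of_dvd_ne_zero hr hr₁
  have hr₁Z : (nm r₁ : ℝ) ≤ Z' :=
    le_trans (by exact_mod_cast Div277.nm_le_of_dvd hr hr₁) hrZ
  have hIlt0 : 0 < Il N Lt Y := by unfold Il; positivity
  set B0 : ℝ := ∑ jj : Bool, nfx jj Lt (Il N Lt Y) * W1 jj with hB0
  have hB00 : 0 ≤ B0 := Finset.sum_nonneg fun jj _ =>
    mul_nonneg (nfx_nonneg jj hLt.le hIlt0.le) (hW1 jj)
  have key := hpre A' hA'2 Z' Y L L0 Lt hZ' hY (hYZ.trans hZZ) hL hLZ' hL0 hL0Z hLt (hLZ.trans hZZ)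
    b Y r r₁ q (by linarith) le_rfl hr hrZ hr₁ hq hqZ hLq ka (C₁ * Z' ^ (ε / 2) * B0)
    (by positivity) (by
      intro hLt1 j hj ρ hρ hrρ hρZ
      obtain ⟨y1, y2, y3, y4, y5⟩ := hyp hLt1
      have h2j : (1 : ℝ) ≤ 2 ^ j := one_le_pow₀ (by norm_num)
      have h := hstr A' hA'1 Z' N Y Lt hZ' hN (hNZ.trans hZZ) hY (hYZ.trans hZZ) hLt1
        (hLZ.trans hZZ) y1 ka hkap (hkaZ.trans hZZ) ({()} : Finset Unit) (fun _ => b) (fun _ => Y)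
        (fun _ => r₁) (fun _ _ => ⟨by linarith, le_rfl⟩) (fun _ _ => hbS') (fun _ _ => hbW)
        (fun _ _ => ⟨hr₁0, hr₁Z⟩) (fun _ => Prd) (fun _ _ => y2) W y3
        (by simpa only [Finset.sum_singleton] using y5) W1 hW1 y4 (min ((2 : ℝ) ^ j) Lt)
        (le_min h2j hLt1) (min_le_right _ _) (fun _ => ρ) (fun _ _ => ⟨hρ, hρZ⟩)
      simpa only [Finset.sum_singleton] using h)
  refine key.trans ?_
  have hZe : Z' ^ (ε / 2) ≤ Z' ^ ε := Real.rpow_le_rpow_of_exponent_le hZ' (by linarith)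
  have hZe1 : 1 ≤ Z' ^ (ε / 2) := Real.one_le_rpow hZ' (by positivity)
  have hZe2 : Z' ^ (ε / 2) * Z' ^ (ε / 2) = Z' ^ ε := by
    rw [← Real.rpow_add hZ'0]; congr 1; ring
  have hT : 0 ≤ T1 (cw * Y) b r := E3Su290.T1_nonneg _ _ _
  have hD1 := DT_nonneg 1 (cw * Y) b r₁
  have hD2 := DT_nonneg (1 / 2) (cw * Y) b r₁
  set D0 : ℝ := (Y + (Lt * Y) ^ (2 / 3 : ℝ)) * DT 1 (cw * Y) b r₁ +
          Lt * Y ^ (1 / 2 : ℝ) * DT (1 / 2) (cw * Y) b r₁ with hD0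
  have hD00 : 0 ≤ D0 := by positivity
  set LA : ℝ := ((L0 / Lt) ^ (1 / 3 : ℝ) * Y + (if Lt ≤ L0 then L + (L * Y) ^ (2 / 3 : ℝ) else 0)) *
          T1 (cw * Y) b r with hLA
  have hLA0 : 0 ≤ LA := by
    refine mul_nonneg (add_nonneg (by positivity) ?_) hT
    split_ifs
    · positivity
    · exact le_rfl
  have e1 : ((L0 / Lt) ^ (1 / 3 : ℝ) * Y + (if Lt ≤ L0 then L + (L * Y) ^ (2 / 3 : ℝ) else 0)) *
          ∑ n ∈ (S (cw * Y)).filter (fun n => IsCoprime n r), ‖CS b n‖ ^ 2 = LA := rfl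
  rw [e1]
  set u : ℝ := (L0 / Lt) ^ (1 / 3 : ℝ) with hu
  have hu0 : 0 ≤ u := by positivity
  have hYe : 0 ≤ Y ^ (-(1 : ℝ) / 3) := by positivity
  have key2 : Z' ^ (ε / 2) * (LA + (if 1 ≤ Lt then u * (Y * (C₁ * Z' ^ (ε / 2) * B0) + D0) else 0)) ≤
      (1 + C₁) * Z' ^ ε * (LA + (if 1 ≤ Lt then u * (Y * B0 + D0) else 0)) := by
    have s1 : Z' ^ (ε / 2) * LA ≤ (1 + C₁) * Z' ^ ε * LA := by
      refine mul_le_mul_of_nonneg_right ?_ hLA0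
      nlinarith
    split_ifs
    · have s2 : Z' ^ (ε / 2) * (u * (Y * (C₁ * Z' ^ (ε / 2) * B0))) = C₁ * Z' ^ ε * (u * (Y * B0)) := by
        rw [← hZe2]; ring
      have s3 : Z' ^ (ε / 2) * (u * D0) ≤ (1 + C₁) * Z' ^ ε * (u * D0) := by
        refine mul_le_mul_of_nonneg_right ?_ (by positivity)
        nlinarith
      have s4 : 0 ≤ Z' ^ ε * (u * (Y * B0)) := by positivity
      calc Z' ^ (ε / 2) * (LA + u * (Y * (C₁ * Z' ^ (ε / 2) * B0) + D0))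
          = Z' ^ (ε / 2) * LA + Z' ^ (ε / 2) * (u * (Y * (C₁ * Z' ^ (ε / 2) * B0))) +
            Z' ^ (ε / 2) * (u * D0) := by ring
        _ ≤ (1 + C₁) * Z' ^ ε * LA + (1 + C₁) * Z' ^ ε * (u * (Y * B0)) +
            (1 + C₁) * Z' ^ ε * (u * D0) := by
            refine add_le_add (add_le_add s1 ?_) s3
            rw [s2]
            nlinarith
        _ = _ := by ring
    · linarith
  calc C₂ * Z' ^ (ε / 2) * Y ^ (-(1 : ℝ) / 3) *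
        (LA + (if 1 ≤ Lt then u * (Y * (C₁ * Z' ^ (ε / 2) * B0) + D0) else 0))
      = C₂ * Y ^ (-(1 : ℝ) / 3) * (Z' ^ (ε / 2) *
        (LA + (if 1 ≤ Lt then u * (Y * (C₁ * Z' ^ (ε / 2) * B0) + D0) else 0))) := by ring
    _ ≤ C₂ * Y ^ (-(1 : ℝ) / 3) * ((1 + C₁) * Z' ^ ε *
        (LA + (if 1 ≤ Lt then u * (Y * B0 + D0) else 0))) :=
        mul_le_mul_of_nonneg_left key2 (by positivity)
    _ = _ := by ring

end Crest.Agent.R017.MX744
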