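import Crest.Agent.R017.BoxCov_741

/-!
# Row 17, section D: one reference point gives the coverage of all masses (helper74)

* `MassCl Id` : closure properties of a column predicate in the granular masses
* `covAt_of_ref` : the point `(τ/2; (4/3 - s)/2, 1/6)` (all granular mass, amplifier part `1/3`)
  in the hull of `Id` gives `CovAt` (all `(m, a)` of the core domain)
-/

set_option autoImplicit false

noncomputable section

namespace Crest.Agent.R017.Mass74

open Crest.Agent.R017.ER911 Crest.Agent.R017.Hull741 Crest.Agent.R017.BoxCov741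

/-- closure of a column predicate (`n | f` Möbius mass, `g` amplifier mass): smaller masses,
amplifier mass may be replaced by Möbius mass, and `8/3 x` of Möbius mass by `x` of amplifier. -/
structure MassCl {N : ℕ} (Id : (Fin N → ℕ) → ℝ → ℝ → Prop) : Prop where
  nn : ∀ n f g, Id n f g → 0 ≤ f ∧ 0 ≤ g
  down : ∀ n f g f' g', Id n f g → 0 ≤ f' → f' ≤ f → 0 ≤ g' → g' ≤ g → Id n f' g'
  conv : ∀ n f g x, Id n f g → 0 ≤ x → x ≤ g → Id n (f + x) (g - x)
  amp : ∀ n f g x, Id n f g → 0 ≤ x → 8 / 3 * x ≤ f → Id n (f - 8 / 3 * x) (g + x)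

/-- a linear map of the granular masses -/
theorem hull_map {N : ℕ} {Id Id' : (Fin N → ℕ) → ℝ → ℝ → Prop} {α β γ δ : ℝ}
    (h : ∀ n f g, Id n f g → Id' n (α * f + β * g) (γ * f + δ * g)) {z : Mon N}
    (hz : z ∈ Hull Id) :
    ((z.1, α * z.2.1 + β * z.2.2, γ * z.2.1 + δ * z.2.2) : Mon N) ∈ Hull Id' := by
  obtain ⟨M, p, n, f, g, hp, hp1, hId, rfl⟩ := hz
  refine ⟨M, p, n, fun q => α * f q + β * g q, fun q => γ * f q + δ * g q, hp, hp1,
    fun q => h _ _ _ (hId q), ?_⟩
  refine Prod.ext rfl (Prod.ext ?_ ?_)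
  · simp only [Finset.mul_sum, ← Finset.sum_add_distrib]
    exact Finset.sum_congr rfl fun q _ => by ring
  · simp only [Finset.mul_sum, ← Finset.sum_add_distrib]
    exact Finset.sum_congr rfl fun q _ => by ring

/-- **all masses of the core domain from one reference point** -/
theorem hull_of_ref {N : ℕ} {Id : (Fin N → ℕ) → ℝ → ℝ → Prop} (hcl : MassCl Id)
    {τ : Fin N → ℝ} {s : ℝ}
    (href : ((fun j => τ j / 2, (4 / 3 - s) / 2, 1 / 6) : Mon N) ∈ Hull Id)
    {m a : ℝ} (hm : 0 ≤ m) (ha : 0 ≤ a) (hL : s + m + a ≤ 5 / 3)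
    (hc : a ≤ 4 / 3 - 3 / 5 * (s + m + a)) :
    ((fun j => τ j / 2, m / 2, a / 2) : Mon N) ∈ Hull Id := by
  rcases le_or_gt a (1 / 3) with h3 | h3
  · -- `a ≤ 1/3`
    set D := 4 / 3 - s + (1 / 3 - a) with hD
    have hD0 : 0 ≤ D := by linarith
    obtain ⟨l, hl0, hl1, hl⟩ : ∃ l : ℝ, 0 ≤ l ∧ l ≤ 1 ∧ l * D = m := by
      rcases hD0.eq_or_lt with h0 | h0
      · exact ⟨1, zero_le_one, le_rfl, by linarith⟩
      · exact ⟨m / D, div_nonneg hm h0.le, by rw [div_le_one h0]; linarith, by field_simp⟩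
    have h := hull_map (Id := Id) (Id' := Id) (α := l) (β := l * (1 - 3 * a)) (γ := 0)
      (δ := 3 * a) ?_ href
    · convert h using 2
      refine Prod.ext ?_ ?_
      · simp only
        rw [← hl, hD]; ring
      · simp only
        ring
    · intro n f g hId
      obtain ⟨hf, hg⟩ := hcl.nn n f g hId
      have h1 : (1 - 3 * a) * g ≤ g := by nlinarith
      have h0 : 0 ≤ (1 - 3 * a) * g := mul_nonneg (by linarith) hg
      have h2 := hcl.conv n f g ((1 - 3 * a) * g) hId h0 h1
      have h4 : 0 ≤ f + (1 - 3 * a) * g := by linarith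
      refine hcl.down n _ _ _ _ h2 ?_ ?_ ?_ ?_
      · nlinarith
      · nlinarith
      · nlinarith
      · nlinarith
  · -- `a > 1/3`
    set F := 4 / 3 - s with hF
    set x := a - 1 / 3 with hx
    have hmF : m ≤ F - 8 / 3 * x := by linarith
    have hF0 : 0 < F := by linarith
    have h := hull_map (Id := Id) (Id' := Id) (α := m / F) (β := 0) (γ := x / F) (δ := 1) ?_ href
    · convert h using 2
      refine Prod.ext ?_ ?_
      · simp only
        field_simp
        ring
      · simp only
        field_simp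
        rw [hx]
        ring
    · intro n f g hId
      obtain ⟨hf, hg⟩ := hcl.nn n f g hId
      have hx0 : 0 ≤ x / F := div_nonneg (by linarith) hF0.le
      have hxf : 8 / 3 * (x / F * f) ≤ f := by
        have : 8 / 3 * (x / F) ≤ 1 := by
          rw [← mul_div_assoc, div_le_one hF0]; linarith
        calc 8 / 3 * (x / F * f) = (8 / 3 * (x / F)) * f := by ring
          _ ≤ 1 * f := mul_le_mul_of_nonneg_right this hf
          _ = f := one_mul f
      have h2 := hcl.amp n f g (x / F * f) hId (mul_nonneg hx0 hf) hxf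
      have hmf : m / F * f ≤ f - 8 / 3 * (x / F * f) := by
        have : m / F ≤ 1 - 8 / 3 * (x / F) := by
          rw [div_le_iff₀ hF0]
          have : (1 - 8 / 3 * (x / F)) * F = F - 8 / 3 * x := by field_simp
          linarith
        calc m / F * f ≤ (1 - 8 / 3 * (x / F)) * f := mul_le_mul_of_nonneg_right this hf
          _ = _ := by ring
      refine hcl.down n _ _ _ _ h2 ?_ ?_ ?_ ?_
      · have := mul_nonneg (div_nonneg hm hF0.le) hf
        linarith
      · linarith
      · have := mul_nonneg hx0 hf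
        linarith
      · linarith

/-- **`CovAt` from one reference point** -/
theorem covAt_of_ref {N : ℕ} {r : EF} {e₀ : ℝ} {u τ : Fin N → ℝ}
    {Id : (Fin N → ℕ) → ℝ → ℝ → Prop} (hcl : MassCl Id)
    (hId : ∀ n f g, Id n f g → Ideal r 1 u e₀ n f g)
    (href : ((fun j => τ j / 2, (4 / 3 - ∑ j, τ j * u j) / 2, 1 / 6) : Mon N) ∈ Hull Id) :
    CovAt r e₀ u τ := fun _ _ hm ha hL hc =>
  hull_mono hId (hull_of_ref hcl href hm ha hL hc)

end Crest.Agent.R017.Mass74
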