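import Crest.Agent.R017.NH7_499
import Crest.Agent.R017.EndA5_92
import Crest.Agent.R017.AS10_590
import Crest.Agent.R017.Master3_699

/-!
# Row 17: section A (helper499)

`secA : SecA`: the functional equation of the twisted sums of sextic Gauss sums, all Hecke
characters.
-/

set_option autoImplicit false

noncomputable section

namespace Crest.Agent.R017.SecA499

open Crest.Agent.R012.Eis

/-- **`StepPure`** -/
theorem stepPure : A590.StepPure :=
  FinA266.stepPure_of EndA92.hasFE_of_endHyp NH499.lagsD

/-- **section A** -/
theorem secA : Master3.SecA := fun M h => A590.f2x stepPure M h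

end Crest.Agent.R017.SecA499
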