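import Crest.Agent.R017.BAll_770
import Crest.Agent.R017.Box_271
import Crest.Agent.R017.SecA_499

/-!
# Row 17: master derivation, sections A, B, E, D.box done (helper699)

Open: sections C/D = `SecBox`.
-/

set_option autoImplicit false

noncomputable section

open MeasureTheory Complex Set
open scoped ComplexConjugate ContDiff

namespace Crest.Agent.R017.Master4

open Crest.Agent.R012 Crest.Agent.R012.Eis Crest.Agent.R012.Mob705 Crest.Agent.R012.Gauss880
open Crest.Agent.R017.End699 Crest.Agent.R017.Sx440 Crest.Agent.R017.B770 Crest.Agent.R017.BEndA699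
open Crest.Agent.R017.Box271

/-- sections C + D: the box bound -/
def SecBox : Prop := ∀ θ : ℝ, 7 / 8 < θ → θ ≤ 1 → PF Set.univ θ → BOX3 θ

theorem secD3 (h : SecBox) : Master3.SecD3 := fun _ hθ hθ1 hPF =>
  dout3_of_box hθ hθ1 hPF (h _ hθ hθ1 hPF)

theorem s23_of (h : SecBox) : S23 := BAll770.s23_AD SecA499.secA (secD3 h)

theorem s22_of (h : SecBox) : S22 := BAll770.s22_AD SecA499.secA (secD3 h)

end Crest.Agent.R017.Master4
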