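import Crest.Agent.R017.Master4_699
import Crest.Agent.R017.One_Box_319

/-!
# Row 17: master derivation, only `BOX3 θ` for `7/8 < θ < 1` is open (helper699)
-/

set_option autoImplicit false

noncomputable section

open MeasureTheory Complex Set
open scoped ComplexConjugate ContDiff

namespace Crest.Agent.R017.Master5

open Crest.Agent.R012 Crest.Agent.R012.Eis Crest.Agent.R012.Mob705 Crest.Agent.R012.Gauss880
open Crest.Agent.R017.End699 Crest.Agent.R017.Sx440 Crest.Agent.R017.B770 Crest.Agent.R017.BEndA699
open Crest.Agent.R017.Box271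

/-- sections C + D for `θ < 1` -/
def SecBoxLt : Prop := ∀ θ : ℝ, 7 / 8 < θ → θ < 1 → PF Set.univ θ → BOX3 θ

theorem s23_of (h : SecBoxLt) : S23 := Master4.s23_of (One319.secBox_of_lt h)

theorem s22_of (h : SecBoxLt) : S22 := Master4.s22_of (One319.secBox_of_lt h)

end Crest.Agent.R017.Master5
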