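import Crest.Agent.R017.BEndC_699
import Crest.Agent.R017.EndQ_699
import Crest.Agent.R017.PLow2_271
import Crest.Agent.R017.NatPD_401
import Crest.Agent.R017.NatZ_571

/-!
# Row 17: master derivation (helper699)
-/

set_option autoImplicit false

noncomputable section

open MeasureTheory Complex Set
open scoped ComplexConjugate ContDiff

namespace Crest.Agent.R017.Master699

open Crest.Agent.R012 Crest.Agent.R012.Eis Crest.Agent.R012.Mob705 Crest.Agent.R012.Gauss880
open Crest.Agent.R017.End699 Crest.Agent.R017.Sx440 Crest.Agent.R017.B770 Crest.Agent.R017.BEndA699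

/-- section A: the functional equation. -/
def SecA : Prop := ∀ M : Eis, (36 : Eis) ∣ M → F2n M

/-- section C + D. -/
def SecD : Prop := ∀ θ : ℝ, 7 / 8 < θ → θ ≤ 1 → PF Set.univ θ → DOUT θ

theorem s23_of (hA : SecA) (hB : StepB') (hD : SecD) : S23 := by
  refine s23_of_nz ?_
  refine nz_of_pf (S := Set.univ) (Set.mem_univ 0) (pf_bootstrap fun θ hθ hθ1 hPF => ?_)
  exact hB hA θ hθ hθ1 hPF (hD θ hθ hθ1 hPF)

theorem s22_of (hA : SecA) (hB : StepB') (hD : SecD) : S22 := s22_of_s23 (s23_of hA hB hD)

end Crest.Agent.R017.Master699
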