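import Crest.Agent.R017.MgF_828

/-!
# Row 17, R8/P1: the merged rule for families, partial lengths of the children (helper404)

`merge_famG` : 828's `merge_fam`; the children are known to lose at most the removed parts on every
set of pieces.
-/

set_option autoImplicit false

noncomputable section

open Finset MeasureTheory
open scoped ComplexConjugate

namespace Crest.Agent.R017.GrG404

open Crest.Agent.R012 Crest.Agent.R012.Eis
open Crest.Agent.R012.Div277 (tau dvs mem_dvs exists_prim_factor tau_le_rpow)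
open Crest.Agent.R012.LS2 (S mem_S bl mem_bl)
open Crest.Agent.R012.Weight600 (osc norm_osc pw)
open Crest.Agent.R017.CM106 (CS TG FS)
open Crest.Agent.R017.HP842 (Pc pc al cv Tu mem_Tu sc' scS sqc Th card_Tu_le)
open Crest.Agent.R017.Rough381 (sh shS sh_OK sh_Y_le Sm Sm_one VF cellP vk log_pow_le nm_prodI)
open Crest.Agent.R017.Leg381 (Tu_dvd WSy alW alf fpc fw merge_split)
open Crest.Agent.R017.FE47 (PU cx)
open Crest.Agent.R017.Prov71 (CubeFree)
open Crest.Agent.R017.GrC828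

set_option maxHeartbeats 2000000 in
open Classical in
/-- **the merged rule for a family, restricted children** -/
theorem merge_famG {h : ℝ → ℝ} {c : ℝ} (hpu : PU h c) {R : ℝ} (hR0 : 0 ≤ R)
    (hR : ∀ u, cx h u ≠ 0 → |u| ≤ R) (N : ℕ) {B₀ : ℝ} (hB₀ : 0 ≤ B₀) {ε : ℝ} (hε : 0 < ε)
    {M : ℝ} : ∃ C r : ℝ, 1 ≤ C ∧ 0 ≤ r ∧ ∀ X : ℝ, 3 ≤ X →
    ∀ (ι : Type) [Fintype ι] [DecidableEq ι], Fintype.card ι ≤ N → ∀ s : ι → Pc,
    (∀ i, (s i).OK) → (∀ i, Real.log (s i).Y ≤ Real.log X) → ∀ a : ι → Eis,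
    (∀ i, IsPrim (a i)) → ∀ (q : Eis) (b k : ℝ) (Us : Finset Eis), 0 ≤ b →
    b ≤ B₀ * Real.log X → 0 ≤ k → k ≤ B₀ * Real.log X →
    (∀ U ∈ Us, IsPrim U ∧ |Real.log (nm U) - b| ≤ 1) → ∀ Bd : ℝ, 0 ≤ Bd →
    (∀ (l : ℝ) (s' : ι → Pc), 0 ≤ l → ChF r s' s →
      |LY s' - (LY s - Real.log (nm (∏ i, a i)) - b)| ≤ r → |l - (k + b)| ≤ r →
      (∀ T : Finset ι, ∑ i ∈ T, (Real.log (s i).Y - Real.log (nm (a i))) - b - r ≤
        ∑ i ∈ T, Real.log (s' i).Y) →
      VF (Real.exp l) (sqc q (al h s')) ≤ Bd * cF s' s ^ M) →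
    ∀ σ : (ι → Eis) → ℂ, (∀ U ∈ Us, ∀ u ∈ Tu ι U, ‖σ u‖ ≤ 1) →
    ∑ U ∈ Us, ∑ κ ∈ (bl (Real.exp k)).filter (fun κ => CubeFree (κ * U)),
      ‖∑ u ∈ Tu ι U, σ u * TG (sqc (q * U) (al h (shS (shS s a) u))) (κ * U)‖ ^ 2 ≤
      C * X ^ ε * Bd := by
  obtain ⟨C₁, hC₁, H⟩ := merge_split hpu hR0 hR M
  have hN0 : (0 : ℝ) ≤ N := Nat.cast_nonneg _
  -- the exponents
  set E₁ : ℝ := 3 * (B₀ + 2) * N with hE₁
  set E₂ : ℝ := (B₀ + (B₀ + 3) * N + 1) * (2 * N) with hE₂
  have hE₁0 : 0 ≤ E₁ := by positivity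
  have hE₂0 : 0 ≤ E₂ := by positivity
  set η := ε / (4 * (E₁ + E₂ + 1)) with hη
  have hη0 : 0 < η := by positivity
  obtain ⟨C₂, hC₂, hτ⟩ := tau_le_rpow hη0
  set c₀ : ℝ := Real.log 2 + R + 1 with hc₀
  have hc₀0 : 0 ≤ c₀ := by have := Real.log_nonneg (by norm_num : (1 : ℝ) ≤ 2); linarith
  obtain ⟨C₃, hC₃, hlog⟩ := log_pow_le (ε := ε / 4) (by linarith) (2 * N) hc₀0
  obtain ⟨C₄, hC₄, hlog4⟩ := log_pow_le (ε := ε / 4) (by linarith) N (c₀ := 2) (by norm_num)
  set A : ℝ := Real.exp 2 * Real.exp 1 * (2 * Real.exp R) with hA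
  have hA1 : 1 ≤ A := by
    have h1 : 1 ≤ Real.exp 1 := Real.one_le_exp zero_le_one
    have h2 : 1 ≤ Real.exp R := Real.one_le_exp hR0
    have h3 : 1 ≤ Real.exp 2 := Real.one_le_exp (by norm_num)
    have h4 : 1 ≤ Real.exp 2 * Real.exp 1 := one_le_mul_of_one_le_of_one_le h3 h1
    nlinarith
  set r : ℝ := (N : ℝ) * (2 * R + 4) + 2 * R + 2 with hr
  have hr0 : 0 ≤ r := by positivity
  set Ct : ℝ := C₁ ^ N * C₂ ^ (3 * N) * C₃ * ((B₀ + 1) ^ N * C₄) *
    (C₂ ^ (2 * N) * (A ^ N) ^ (η * (2 * N))) * Real.exp N with hCt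
  refine ⟨Ct, r, ?_, hr0, ?_⟩
  · have h1 : 1 ≤ C₁ ^ N := one_le_pow₀ hC₁
    have h2 : 1 ≤ C₂ ^ (3 * N) := one_le_pow₀ hC₂
    have h2' : 1 ≤ C₂ ^ (2 * N) := one_le_pow₀ hC₂
    have h3 : 1 ≤ (A ^ N) ^ (η * (2 * N)) := Real.one_le_rpow (one_le_pow₀ hA1) (by positivity)
    have h4 : 1 ≤ Real.exp (N : ℝ) := Real.one_le_exp hN0
    have h5 : 1 ≤ (B₀ + 1) ^ N := one_le_pow₀ (by linarith)
    exact one_le_mul_of_one_le_of_one_le (one_le_mul_of_one_le_of_one_le
      (one_le_mul_of_one_le_of_one_le (one_le_mul_of_one_le_of_one_le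
        (one_le_mul_of_one_le_of_one_le h1 h2) hC₃) (one_le_mul_of_one_le_of_one_le h5 hC₄))
      (one_le_mul_of_one_le_of_one_le h2' h3)) h4
  intro X hX ι _ _ hcard s hs hsX a ha q b k Us hb hbX hk hkX hUs Bd hBd hyp σ hσ
  have hX1 : (1 : ℝ) ≤ X := by linarith
  have hX0 : (0 : ℝ) < X := by linarith
  have hlX0 : 0 ≤ Real.log X := Real.log_nonneg hX1
  set n := Fintype.card ι with hn
  have hnN : (n : ℝ) ≤ N := by exact_mod_cast hcard
  have hn0 : (0 : ℝ) ≤ n := Nat.cast_nonneg _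
  -- the support bound
  set X' : ℕ := ⌈X * Real.exp R⌉₊ with hX'
  have h1R : 1 ≤ Real.exp R := Real.one_le_exp hR0
  have hXR : 1 ≤ X * Real.exp R := by nlinarith
  have hX'1 : 1 ≤ X' := by
    rw [hX']
    exact Nat.one_le_ceil_iff.2 (by linarith)
  have hX'2 : (X' : ℝ) ≤ 2 * Real.exp R * X := by
    have := (Nat.ceil_lt_add_one (by linarith : 0 ≤ X * Real.exp R)).le
    rw [hX']
    linarith
  have hsX' : ∀ i, (s i).Y * Real.exp R ≤ X' := by
    intro i
    refine le_trans ?_ (Nat.le_ceil _)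
    refine mul_le_mul_of_nonneg_right ?_ (Real.exp_pos _).le
    exact (Real.log_le_log_iff (hs i).Y0 hX0).1 (hsX i)
  have hlogX' : Real.log X' ≤ Real.log X + (Real.log 2 + R) := by
    calc Real.log X' ≤ Real.log (2 * Real.exp R * X) :=
          Real.log_le_log (by exact_mod_cast hX'1) hX'2
      _ = Real.log X + (Real.log 2 + R) := by
          rw [Real.log_mul (by positivity) hX0.ne', Real.log_mul two_ne_zero
            (Real.exp_pos _).ne', Real.log_exp]
          ring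
  have hlX'0 : 0 ≤ Real.log X' := Real.log_nonneg (by exact_mod_cast hX'1)
  -- the size of `U`
  set X2 : ℕ := ⌊Real.exp (b + 1)⌋₊ with hX2
  have hX2le : (X2 : ℝ) ≤ Real.exp (b + 1) := Nat.floor_le (Real.exp_pos _).le
  have hX21 : 1 ≤ X2 := by
    rw [hX2, Nat.le_floor_iff (Real.exp_pos _).le]
    push_cast
    exact Real.one_le_exp (by linarith)
  have hX21' : (1 : ℝ) ≤ X2 := by exact_mod_cast hX21
  have hUn : ∀ U ∈ Us, nm U ≤ X2 := by
    intro U hU
    obtain ⟨h1, h3⟩ := hUs U hU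
    rw [hX2, Nat.le_floor_iff (Real.exp_pos _).le]
    have h4 : (0 : ℝ) < nm U := by exact_mod_cast nm_pos.2 h1.ne_zero
    calc (nm U : ℝ) = Real.exp (Real.log (nm U)) := (Real.exp_log h4).symm
      _ ≤ _ := Real.exp_le_exp.2 (by linarith [(abs_le.1 h3).2])
  have hX2b : (X2 : ℝ) ≤ Real.exp 1 * X ^ B₀ := by
    calc (X2 : ℝ) ≤ Real.exp (b + 1) := hX2le
      _ ≤ Real.exp (B₀ * Real.log X + 1) := Real.exp_le_exp.2 (by linarith)
      _ = Real.exp 1 * X ^ B₀ := by
          rw [Real.exp_add, mul_comm, Real.rpow_def_of_pos hX0, mul_comm B₀]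
  have hlX2 : Real.log X2 + 1 ≤ (B₀ + 1) * (Real.log X + 2) := by
    have h1 : Real.log X2 ≤ b + 1 := by
      calc Real.log X2 ≤ Real.log (Real.exp (b + 1)) := Real.log_le_log (by linarith) hX2le
        _ = b + 1 := Real.log_exp _
    nlinarith
  have hlX20 : 0 ≤ Real.log X2 := Real.log_nonneg hX21'
  -- the divisor bound on the family
  set D : ℝ := C₂ ^ (2 * N) * (A ^ N) ^ (η * (2 * N)) * X ^ (ε / 4) with hD
  have hD00 : 0 ≤ D := by positivity
  have hE12 : η * E₂ ≤ ε / 4 := by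
    rw [hη, div_mul_eq_mul_div, div_le_div_iff₀ (by positivity) (by norm_num)]
    nlinarith
  have hE11 : η * E₁ ≤ ε / 4 := by
    rw [hη, div_mul_eq_mul_div, div_le_div_iff₀ (by positivity) (by norm_num)]
    nlinarith
  -- the size of the number of tuples
  set T : ℝ := C₂ * X ^ (η * (B₀ + 2)) with hT
  have hT1 : 1 ≤ T := one_le_mul_of_one_le_of_one_le hC₂ (Real.one_le_rpow hX1 (by positivity))
  have hTuU : ∀ U ∈ Us, ((Tu ι U).card : ℝ) ≤ T ^ n := by
    intro U hU
    have hUp := (hUs U hU).1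
    have h1 : ((Tu ι U).card : ℝ) ≤ (tau U : ℝ) ^ n := by
      exact_mod_cast card_Tu_le (ι := ι) U
    refine h1.trans (pow_le_pow_left₀ (Nat.cast_nonneg _) ?_ _)
    refine (hτ _ hUp.ne_zero).trans ?_
    rw [hT]
    refine mul_le_mul_of_nonneg_left ?_ (by linarith)
    have h1 : (nm U : ℝ) ≤ X ^ (B₀ + 2) := by
      have h2 : (nm U : ℝ) ≤ Real.exp 1 * X ^ B₀ := by
        have : (nm U : ℝ) ≤ X2 := by exact_mod_cast hUn U hU
        linarith
      have h3 : Real.exp 1 ≤ X := by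
        have := Real.exp_one_lt_d9
        linarith
      calc (nm U : ℝ) ≤ X * X ^ B₀ := h2.trans (mul_le_mul_of_nonneg_right h3 (by positivity))
        _ = X ^ (1 + B₀) := by rw [Real.rpow_add hX0, Real.rpow_one]
        _ ≤ X ^ (B₀ + 2) := Real.rpow_le_rpow_of_exponent_le hX1 (by linarith)
    calc (nm U : ℝ) ^ η ≤ (X ^ (B₀ + 2)) ^ η :=
          Real.rpow_le_rpow (Nat.cast_nonneg _) h1 hη0.le
      _ = X ^ (η * (B₀ + 2)) := by rw [← Real.rpow_mul hX0.le]; congr 1; ring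
  have hapos : ∀ i, (0 : ℝ) < nm (a i) := fun i => by
    exact_mod_cast nm_pos.2 (ha i).ne_zero
  have halog : ∀ i, 0 ≤ Real.log (nm (a i)) := fun i => by
    apply Real.log_nonneg
    exact_mod_cast nm_pos.2 (ha i).ne_zero
  have hglog : Real.log (nm (∏ i, a i)) = ∑ i, Real.log (nm (a i)) := by
    rw [nm_prodI]
    push_cast
    rw [Real.log_prod fun i _ => (hapos i).ne']
  have hsc : ∀ c : ℝ, ∑ _i : ι, c = n * c := fun c => by
    rw [Finset.sum_const, Finset.card_univ, nsmul_eq_mul]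
  have key := H ι (shS s a) (fun i => sh_OK (hs i) (ha i)) X' hX'1 (fun i => by
      exact (mul_le_mul_of_nonneg_right (sh_Y_le (hs i).Y0 (ha i)) (Real.exp_pos _).le).trans
        (hsX' i)) 0 1
      (fun _ _ _ => 1) (fun _ _ => c1) (fun _ => WSy_one 0 1) q (Real.exp k)
      (Real.exp_pos _).le Us X2 hX21
      (fun U hU => ⟨(hUs U hU).1, hUn U hU⟩)
      (Bd * Real.exp n) D T (mul_nonneg hBd (Real.exp_pos _).le) hD00 hT1 (fun U hU u hu i d _ _ => by
        have : ‖c1 d‖ ≤ 1 := by unfold c1; split_ifs <;> simp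
        linarith) hTuU ?_ ?_ σ hσ
  · have e0 : ∀ U ∈ Us, ∀ κ ∈ (bl (Real.exp k)).filter (fun κ => CubeFree (κ * U)),
        ‖∑ u ∈ Tu ι U, σ u * TG (sqc (q * U) (al h (shS (shS s a) u))) (κ * U)‖ ^ 2 =
        ‖∑ u ∈ Tu ι U, σ u * TG (sqc (q * U)
          (alW h (shS (shS s a) u) (fun _ _ => 1))) (κ * U)‖ ^ 2 := by
      intro U _ κ _
      simp only [alW_one]
    rw [Finset.sum_congr rfl fun U hU => Finset.sum_congr rfl fun κ hκ => e0 U hU κ hκ]
    refine key.trans ?_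
    have hTX : T ^ (3 * N) ≤ C₂ ^ (3 * N) * X ^ (ε / 4) := by
      rw [hT, mul_pow]
      refine mul_le_mul_of_nonneg_left ?_ (by positivity)
      rw [← Real.rpow_natCast, ← Real.rpow_mul hX0.le]
      refine Real.rpow_le_rpow_of_exponent_le hX1 ?_
      push_cast
      calc η * (B₀ + 2) * (3 * (N : ℝ)) = η * E₁ := by rw [hE₁]; ring
        _ ≤ ε / 4 := hE11
    have hlogpow : (C₁ * T ^ 3 * ((Real.log X' + 1) ^ 2 * (Real.log X2 + 1))) ^ n ≤
        C₁ ^ N * T ^ (3 * N) * ((C₃ * X ^ (ε / 4)) * ((B₀ + 1) ^ N * (C₄ * X ^ (ε / 4)))) := by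
      have h3 : 1 ≤ C₁ * T ^ 3 * ((Real.log X' + 1) ^ 2 * (Real.log X2 + 1)) :=
        one_le_mul_of_one_le_of_one_le (one_le_mul_of_one_le_of_one_le hC₁ (one_le_pow₀ hT1))
          (one_le_mul_of_one_le_of_one_le (one_le_pow₀ (by linarith)) (by linarith))
      calc (C₁ * T ^ 3 * ((Real.log X' + 1) ^ 2 * (Real.log X2 + 1))) ^ n ≤
            (C₁ * T ^ 3 * ((Real.log X' + 1) ^ 2 * (Real.log X2 + 1))) ^ N :=
            pow_le_pow_right₀ h3 hcard
        _ = C₁ ^ N * T ^ (3 * N) * ((Real.log X' + 1) ^ (2 * N) * (Real.log X2 + 1) ^ N) := by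
            have e4 : ∀ t y w : ℝ, (C₁ * t ^ 3 * (y ^ 2 * w)) ^ N =
                C₁ ^ N * t ^ (3 * N) * (y ^ (2 * N) * w ^ N) := by
              intro t y w
              rw [mul_pow, mul_pow, mul_pow, ← pow_mul, ← pow_mul]
            exact e4 T _ _
        _ ≤ _ := by
            refine mul_le_mul_of_nonneg_left ?_ (by positivity)
            refine mul_le_mul ?_ ?_ (by positivity) (by positivity)
            · refine le_trans (pow_le_pow_left₀ (by linarith) ?_ _) (hlog X hX1)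
              rw [hc₀]
              linarith
            · refine (pow_le_pow_left₀ (by linarith) hlX2 N).trans ?_
              rw [mul_pow]
              exact mul_le_mul_of_nonneg_left (hlog4 X hX1) (by positivity)
    have hen : Real.exp (n : ℝ) ≤ Real.exp (N : ℝ) := Real.exp_le_exp.2 hnN
    have hXe : X ^ (ε / 4) * (X ^ (ε / 4) * (X ^ (ε / 4) * X ^ (ε / 4))) = X ^ ε := by
      rw [← Real.rpow_add hX0, ← Real.rpow_add hX0, ← Real.rpow_add hX0]
      congr 1
      ring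
    calc (C₁ * T ^ 3 * ((Real.log X' + 1) ^ 2 * (Real.log X2 + 1))) ^ n *
          (D * (Bd * Real.exp n))
        ≤ (C₁ ^ N * (C₂ ^ (3 * N) * X ^ (ε / 4)) *
            ((C₃ * X ^ (ε / 4)) * ((B₀ + 1) ^ N * (C₄ * X ^ (ε / 4))))) *
          (D * (Bd * Real.exp N)) := by
          refine mul_le_mul (hlogpow.trans ?_) ?_ (by positivity) (by positivity)
          · refine mul_le_mul_of_nonneg_right ?_ (by positivity)
            exact mul_le_mul_of_nonneg_left hTX (by positivity)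
          · exact mul_le_mul_of_nonneg_left (mul_le_mul_of_nonneg_left hen hBd) hD00
      _ = Ct * (X ^ (ε / 4) * (X ^ (ε / 4) * (X ^ (ε / 4) * X ^ (ε / 4)))) * Bd := by
          rw [hD, hCt]; ring
      _ = _ := by rw [hXe]
  · intro j hj0 hj
    have hj1 : (1 : ℝ) ≤ nm j := by exact_mod_cast nm_pos.2 hj0
    have h1 : (nm j : ℝ) ≤ A ^ N * X ^ (B₀ + (B₀ + 3) * N + 1) := by
      have h2 : Real.exp k ≤ X ^ B₀ := by
        rw [Real.rpow_def_of_pos hX0, mul_comm]
        exact Real.exp_le_exp.2 hkX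
      have hXB : (1 : ℝ) ≤ X ^ (B₀ + 1) := Real.one_le_rpow hX1 (by linarith)
      have h3 : Real.exp 2 * X2 * X' ≤ A * X ^ (B₀ + 1) := by
        calc Real.exp 2 * X2 * X' ≤ Real.exp 2 * (Real.exp 1 * X ^ B₀) *
              (2 * Real.exp R * X) := by gcongr
          _ = A * X ^ (B₀ + 1) := by
              rw [hA, Real.rpow_add hX0, Real.rpow_one]; ring
      have h4 : 1 ≤ A * X ^ (B₀ + 1) := one_le_mul_of_one_le_of_one_le hA1 hXB
      calc (nm j : ℝ) ≤ Real.exp k * (Real.exp 2 * X2 * X') ^ n := hj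
        _ ≤ X ^ B₀ * (A * X ^ (B₀ + 1)) ^ n := by
            refine mul_le_mul h2 (pow_le_pow_left₀ (by positivity) h3 n) (by positivity)
              (by positivity)
        _ ≤ X ^ B₀ * (A * X ^ (B₀ + 1)) ^ N :=
            mul_le_mul_of_nonneg_left (pow_le_pow_right₀ h4 hcard) (by positivity)
        _ = A ^ N * X ^ (B₀ + (B₀ + 1) * N) := by
            have e : X ^ ((B₀ + 1) * (N : ℝ)) = (X ^ (B₀ + 1)) ^ N := by
              rw [← Real.rpow_natCast (X ^ (B₀ + 1)), ← Real.rpow_mul hX0.le]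
            rw [Real.rpow_add hX0 B₀ ((B₀ + 1) * (N : ℝ)), e, mul_pow]; ring
        _ ≤ _ := by
            refine mul_le_mul_of_nonneg_left ?_ (by positivity)
            refine Real.rpow_le_rpow_of_exponent_le hX1 ?_
            nlinarith
    have h5 : (tau j : ℝ) ≤ C₂ * (nm j : ℝ) ^ η := hτ j hj0
    have h6 : (1 : ℝ) ≤ C₂ * (nm j : ℝ) ^ η := by
      have := Real.one_le_rpow hj1 hη0.le
      nlinarith
    calc (tau j : ℝ) ^ (2 * n) ≤ (C₂ * (nm j : ℝ) ^ η) ^ (2 * n) :=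
          pow_le_pow_left₀ (Nat.cast_nonneg _) h5 _
      _ ≤ (C₂ * (nm j : ℝ) ^ η) ^ (2 * N) := pow_le_pow_right₀ h6 (by omega)
      _ = C₂ ^ (2 * N) * (nm j : ℝ) ^ (η * (2 * N)) := by
          rw [mul_pow, ← Real.rpow_natCast ((nm j : ℝ) ^ η), ← Real.rpow_mul (by positivity)]
          push_cast
          rfl
      _ ≤ C₂ ^ (2 * N) * (A ^ N * X ^ (B₀ + (B₀ + 3) * N + 1)) ^ (η * (2 * N)) := by
          refine mul_le_mul_of_nonneg_left ?_ (by positivity)
          exact Real.rpow_le_rpow (by positivity) h1 (by positivity)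
      _ = C₂ ^ (2 * N) * ((A ^ N) ^ (η * (2 * N)) *
            X ^ ((B₀ + (B₀ + 3) * N + 1) * (η * (2 * N)))) := by
          rw [Real.mul_rpow (by positivity) (by positivity), ← Real.rpow_mul hX0.le]
      _ ≤ C₂ ^ (2 * N) * ((A ^ N) ^ (η * (2 * N)) * X ^ (ε / 4)) := by
          refine mul_le_mul_of_nonneg_left ?_ (by positivity)
          refine mul_le_mul_of_nonneg_left ?_ (by positivity)
          refine Real.rpow_le_rpow_of_exponent_le hX1 ?_
          calc (B₀ + (B₀ + 3) * N + 1) * (η * (2 * (N : ℝ))) = η * E₂ := by rw [hE₂]; ring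
            _ ≤ ε / 4 := hE12
      _ = D := by rw [hD]; ring
  · rintro b' nn m Y t ⟨U, hU, u, hu, x, hx⟩ hY
    have hup : ∀ i, IsPrim (u i) := ((mem_Tu).1 hu).1
    have hupos : ∀ i, (0 : ℝ) < nm (u i) := fun i => by
      exact_mod_cast nm_pos.2 (hup i).ne_zero
    have hUlog : Real.log (nm U) = ∑ i, Real.log (nm (u i)) := by
      rw [← ((mem_Tu).1 hu).2, nm_prodI]
      push_cast
      rw [Real.log_prod fun i _ => (hupos i).ne']
    have hUb := abs_le.1 (hUs U hU).2
    have hm : ∀ i, (m i : ℝ) = 0 := by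
      intro i
      have h1 : x i = 1 := by
        have := (hx i).2.1
        unfold c1 at this
        split_ifs at this with h1
        · exact h1
        · exact absurd rfl this
      have h2 := (hx i).2.2.2.1
      rw [h1, nm_one] at h2
      simp only [Nat.cast_one, Real.log_one] at h2
      exact le_antisymm h2 (Nat.cast_nonneg _)
    have hY0 : ∀ i, 0 < Y i := fun i => by have := (hY i).1; linarith
    have hlogs : ∀ i, Real.log (shS s a i).Y = Real.log (s i).Y - Real.log (nm (a i)) := by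
      intro i
      show Real.log ((s i).Y / nm (a i)) = _
      rw [Real.log_div (hs i).Y0.ne' (hapos i).ne']
    set s' : ι → Pc := cellP (shS s a) (vk (shS s a) b') Y t with hs'
    set l := k + ∑ i, ((nn i : ℝ) + m i + 2) with hl
    set Sn : ℝ := ∑ i, (nn i : ℝ) with hSn
    have hnn0 : ∀ i, (0 : ℝ) ≤ nn i := fun i => Nat.cast_nonneg _
    have hlsum : ∑ i, ((nn i : ℝ) + m i + 2) = Sn + 2 * n := by
      simp only [hm, add_zero]
      rw [Finset.sum_add_distrib, hsc, ← hSn]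
      ring
    have hSn1 : Sn ≤ b + 1 := by
      have h1 : Sn ≤ Real.log (nm U) := by
        rw [hSn, hUlog]
        exact Finset.sum_le_sum fun i _ => (hx i).2.2.1.1
      linarith [hUb.2]
    have hSn2 : b - 1 - n ≤ Sn := by
      have h1 : Real.log (nm U) ≤ Sn + n := by
        rw [hSn, hUlog]
        have h2 : ∑ i, Real.log (nm (u i)) ≤ ∑ i : ι, ((nn i : ℝ) + 1) :=
          Finset.sum_le_sum fun i _ => (hx i).2.2.1.2.le
        rw [Finset.sum_add_distrib, hsc, mul_one] at h2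
        exact h2
      linarith [hUb.1]
    have hSn0 : 0 ≤ Sn := Finset.sum_nonneg fun i _ => hnn0 i
    have hl0 : 0 ≤ l := by rw [hl, hlsum]; linarith
    have hch : ChF r s' s := by
      intro i
      refine ⟨rfl, ?_, (hY i).1, ?_⟩
      · intro hu'
        show vk (shS s a) b' i = .one
        have hu3 : (shS s a i).u = .one := by
          show HP842.UT.sub (s i).u (a i) = .one
          unfold HP842.UT.sub
          rw [hu', if_neg (by simp)]
        unfold vk
        rw [if_neg (by rw [hu3]; simp), hu3]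
      · show Real.log (Y i) ≤ _
        have h1 := (abs_le.1 (hY i).2).2
        rw [hlogs i, hm i] at h1
        have h2 := halog i
        have h3 := hnn0 i
        rw [hr]
        nlinarith
    have hLs' : |LY s' - (LY s - Real.log (nm (∏ i, a i)) - b)| ≤ r := by
      have e1 : LY s' = ∑ i, Real.log (Y i) := rfl
      have h1 : ∑ i, Real.log (Y i) ≤ LY s - Real.log (nm (∏ i, a i)) - Sn + n * (2 * R) := by
        rw [hglog, hSn, ← hsc]
        unfold LY
        rw [← Finset.sum_sub_distrib, ← Finset.sum_sub_distrib, ← Finset.sum_add_distrib]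
        refine Finset.sum_le_sum fun i _ => ?_
        have h2 := (abs_le.1 (hY i).2).2
        rw [hlogs i, hm i] at h2
        linarith
      have h2 : LY s - Real.log (nm (∏ i, a i)) - Sn - n * (2 * R + 2) ≤
          ∑ i, Real.log (Y i) := by
        rw [hglog, hSn, ← hsc]
        unfold LY
        rw [← Finset.sum_sub_distrib, ← Finset.sum_sub_distrib, ← Finset.sum_sub_distrib]
        refine Finset.sum_le_sum fun i _ => ?_
        have h2 := (abs_le.1 (hY i).2).1
        rw [hlogs i, hm i] at h2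
        linarith
      have h3 : (n : ℝ) * (2 * R + 2) ≤ N * (2 * R + 2) :=
        mul_le_mul_of_nonneg_right hnN (by linarith)
      have h4 : (n : ℝ) * (2 * R) ≤ N * (2 * R) :=
        mul_le_mul_of_nonneg_right hnN (by linarith)
      rw [e1, abs_le, hr]
      constructor <;> nlinarith
    have hlin : |l - (k + b)| ≤ r := by
      rw [hl, hlsum, abs_le, hr]
      have h3 : (N : ℝ) * 0 ≤ N * R := mul_le_mul_of_nonneg_left hR0 hN0
      constructor <;> nlinarith
    have hpart : ∀ T : Finset ι, ∑ i ∈ T, (Real.log (s i).Y - Real.log (nm (a i))) - b - r ≤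
        ∑ i ∈ T, Real.log (s' i).Y := by
      intro T
      have h1 : ∀ i, (Real.log (s i).Y - Real.log (nm (a i))) - ((nn i : ℝ) + (2 * R + 2)) ≤
          Real.log (Y i) := by
        intro i
        have h2 := (abs_le.1 (hY i).2).1
        rw [hlogs i, hm i] at h2
        linarith
      have h2 : ∑ i ∈ T, ((Real.log (s i).Y - Real.log (nm (a i))) -
          ((nn i : ℝ) + (2 * R + 2))) ≤ ∑ i ∈ T, Real.log (Y i) :=
        Finset.sum_le_sum fun i _ => h1 i
      have h3 : ∑ i ∈ T, ((nn i : ℝ) + (2 * R + 2)) ≤ ∑ i, ((nn i : ℝ) + (2 * R + 2)) :=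
        Finset.sum_le_sum_of_subset_of_nonneg (Finset.subset_univ T) fun i _ _ => by
          have := hnn0 i
          linarith
      have h4 : ∑ i, ((nn i : ℝ) + (2 * R + 2)) = Sn + n * (2 * R + 2) := by
        rw [Finset.sum_add_distrib, hsc, hSn]
      have h5 : (n : ℝ) * (2 * R + 2) ≤ N * (2 * R + 2) :=
        mul_le_mul_of_nonneg_right hnN (by linarith)
      rw [Finset.sum_sub_distrib] at h2
      show _ ≤ ∑ i ∈ T, Real.log (Y i)
      rw [hr]
      nlinarith
    have h1 := hyp l s' hl0 hch hLs' hlin hpart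
    have e1 : VF (Real.exp k * Real.exp (∑ i, ((nn i : ℝ) + m i + 2)))
          (sqc q (alf 0 1 h (cellP (shS s a) (vk (shS s a) b') Y t) (fun _ => false))) =
        VF (Real.exp l) (sqc q (al h s')) := by
      rw [alf_false, hl, Real.exp_add]
    rw [e1]
    refine h1.trans (le_of_eq ?_)
    have e3 : cF s' s ^ M = ∏ i, (1 + |t i - (shS s a i).t|) ^ M := by
      have : cF s' s = ∏ i, (1 + |t i - (shS s a i).t|) := rfl
      rw [this, Real.finsetProd_rpow _ _ fun i _ => by positivity]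
    rw [e3]
    have e4 : ∑ i, ((m i : ℝ) + 1) = n := by
      simp only [hm, zero_add]
      rw [hsc, mul_one]
    rw [e4, mul_assoc Bd, ← Real.exp_add, add_neg_cancel, Real.exp_zero, mul_one]

end Crest.Agent.R017.GrG404
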