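import Crest.Agent.R017.StJ_319
import Crest.Agent.R017.E3Ke_548
import Crest.Agent.R017.E3Kh_548
import Crest.Agent.R017.P1l_54

/-!
# Row 17, R8/P1: the mismatch, composition with the Gram form (helper828)

* `fl af` : the coefficient in helper579's order
* `ROK` : the reduced coefficients, `rok_afrb`
* `XMn`, `LMn` : the numbers of a block
* **`blk`** : one block by helper548's `Z2`
-/

set_option autoImplicit false

noncomputable section

open Finset MeasureTheory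
open scoped ComplexConjugate ContDiff Classical

namespace Crest.Agent.R017.Mm828

open Crest.Agent.R012 Crest.Agent.R012.Eis Crest.Agent.R012.Div277
open Crest.Agent.R012.MC (Wgt)
open Crest.Agent.R012.LS2 (S mem_S)
open Crest.Agent.R012.Weight600 (osc pw)
open Crest.Agent.R017.CM106 (CS TG FS)
open Crest.Agent.R017.C70 (JC OKJ JW okJ_JW)
open Crest.Agent.R017.FE47 (hD cx PU)
open Crest.Agent.R017.HB645 (hh)
open Crest.Agent.R017.StA828 (gp xa JC_ne_zero)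
open Crest.Agent.R017.StB828 (one_le_nmR)
open Crest.Agent.R017.StC828 (rs rs_ne xa_ne)
open Crest.Agent.R017.StD828 (ln Tm)
open Crest.Agent.R017.StE828 (wD oD wD_ne)
open Crest.Agent.R017.StF828 (ln_ne)
open Crest.Agent.R017.StG828
open Crest.Agent.R017.StJ319
open Crest.Agent.R017.E3A164 (SteT)
open Crest.Agent.R017.E3M829 (TC Cut)
open Crest.Agent.R017.E3F548
open Crest.Agent.R017.E3D579 (TE0)
open Crest.Agent.R017.E3T1579 (T3)
open Crest.Agent.R017.E3Z548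
open Crest.Agent.R017.E3Kc548
open Crest.Agent.R017.Mode405 (Slp)
open Crest.Agent.R017.E3Sz579 (RHd)
open Crest.Agent.R017.E3Hd290 (RNF)

/-- the coefficient in helper579's order -/
def fl (af : Eis → Eis → Eis → ℂ) (d e m : Eis) : ℂ :=
  if IsPrim d ∧ IsPrim m then af e d m else 0

/-- the reduced coefficients -/
structure ROK (af : Eis → Eis → Eis → ℂ) : Prop where
  prim : ∀ e d m, IsPrim d → af e d m ≠ 0 → IsPrim m
  sqf : ∀ e d m, IsPrim d → af e d m ≠ 0 → Squarefree (d * m)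
  fin : ∀ e d, IsPrim d → (Function.support (af e d)).Finite

variable {af : Eis → Eis → Eis → ℂ}

lemma fl_ne {d e m : Eis} (h : fl af d e m ≠ 0) : IsPrim d ∧ IsPrim m ∧ af e d m ≠ 0 := by
  unfold fl at h
  split_ifs at h with h1
  · exact ⟨h1.1, h1.2, h⟩
  · exact absurd rfl h

lemma FS_fl (hR : ROK af) (d e : Eis) : FS (fl af d e) where
  fin := by
    by_cases hd : IsPrim d
    · refine (hR.fin e d hd).subset fun m hm => ?_
      exact (fl_ne hm).2.2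
    · have : Function.support (fl af d e) = ∅ := by
        ext m
        simp only [Function.mem_support, Set.mem_empty_iff_false, iff_false]
        exact fun h => hd (fl_ne h).1
      rw [this]; exact Set.finite_empty
  prim := fun m hm => (fl_ne hm).2.1

lemma TC_fl (hR : ROK af) : TC (T3 (fl af)) := by
  intro d e j h
  obtain ⟨m, h1, h2, h3⟩ := T3_ne h
  obtain ⟨h4, -, h6⟩ := fl_ne h3
  have h5 : IsCoprime d m := (squarefree_mul_iff.mp (hR.sqf e d m h4 h6)).1.isCoprime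
  exact ⟨h2.of_mul_right_right.of_isCoprime_of_dvd_right h1, h2.of_mul_right_left,
    (h5.of_isCoprime_of_dvd_right h1).symm⟩

lemma T3_fl (hR : ROK af) {d : Eis} (hd : IsPrim d) (e j : Eis) :
    StF828.T3 af d e j = T3 (fl af) d e j := by
  unfold StF828.T3 T3 TE0 fl
  refine tsum_congr fun m => ?_
  split_ifs with h1 h2 h2
  · rfl
  · have : af e d m = 0 := by
      by_contra h3
      exact h2 ⟨hd, hR.prim e d m hd h3⟩
    rw [this]
  · rfl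

/-- mains of a block -/
def XMn (cg : Eis) (i : ℕ) (τ V E0 E1 K : ℝ) (af : Eis → Eis → Eis → ℂ) : ℝ :=
  ∑ e ∈ S E0, (((nm e : ℝ) ^ (-1 : ℝ) + (V / K ^ 2) ^ (1 / 6 : ℝ) * (nm e : ℝ) ^ (1 / 2 : ℝ) +
    E1 ^ 2 * (1 : ℝ) ^ 2 * V / K) * XE (JB (Real.sqrt V)) (omp cg i τ) (StF828.T3 af) e)

/-- the lines of a block -/
def LMn (V E0 E1 K X c Z : ℝ) (H : ℕ → Eis → Eis → ℝ) (W0 : ℕ → Eis → Eis → ℝ → ℝ)
    (af : Eis → Eis → Eis → ℂ) : ℝ :=
  ∑ e ∈ S E0, ∑ k ∈ LI (1 / 10) V, ∑ d ∈ (JB (Real.sqrt V)).image Prod.fst,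
    (nm e : ℝ)⁻¹ * LVn (fl af) {d} {e} c (Z ^ 5) K (H k d e) (Real.exp k) (Real.exp k) E1 1 1
      (RNF c K (Real.exp k) X (H k) (W0 k) d e)

lemma hD_bd (N : ℕ) : ∃ M : ℝ, 0 ≤ M ∧ ∀ (m : ℕ), m ≤ N → ∀ (i : ℕ) (x u : ℝ),
    ‖iteratedDeriv m (fun u => ((hD (x + u - Real.log 2 * i) : ℝ) : ℂ)) u‖ ≤ M := by
  obtain ⟨M, hM, h⟩ := E3Kh548.OmP_bd N
  have h1 : ∀ m ≤ N, ∀ u : ℝ, ‖iteratedDeriv m (fun u => ((hD u : ℝ) : ℂ)) u‖ ≤ M := by
    intro m hm u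
    have h2 := h 1 m hm u
    have e1 : E3Kh548.OmP 1 = fun u => ((hD u : ℝ) : ℂ) := by
      funext u
      unfold E3Kh548.OmP
      rw [sum_range_one]
      simp
    rwa [e1] at h2
  refine ⟨M, hM, fun m hm i x u => ?_⟩
  have e1 : (fun u : ℝ => ((hD (x + u - Real.log 2 * i) : ℝ) : ℂ)) =
      fun u => (fun u => ((hD u : ℝ) : ℂ)) (u - (Real.log 2 * i - x)) := by
    funext u
    simp only
    congr 2
    ring
  rw [e1, iteratedDeriv_comp_sub_const m (fun u => ((hD u : ℝ) : ℂ)) (Real.log 2 * i - x)]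
  exact h1 m hm _

set_option maxHeartbeats 1000000 in
/-- **one block** -/
theorem blk {w : ℝ → ℝ} (hw : Wgt w) (hw0 : ∀ x, 0 ≤ w x) {R0 : ℝ} (hR0 : 0 ≤ R0) (a A₁ : ℕ)
    (hA₁ : 1 < A₁) {ε : ℝ} (hε : 0 < ε) (hε1 : ε ≤ 1) :
    ∃ (A : ℕ) (c C : ℝ), 1 ≤ c ∧ 1 ≤ C ∧ ∀ (cg : Eis), IsPrim cg → ∀ (i : ℕ) (τ Z V : ℝ),
      1 ≤ Z → 0 < V → Real.exp (Real.log 2 * (i + 1)) ≤ nm cg * V →
      ∀ (af : Eis → Eis → Eis → ℂ) (E0 E1 K X : ℝ) (H : ℕ → Eis → Eis → ℝ)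
      (W0 : ℕ → Eis → Eis → ℝ → ℝ), ROK af → 0 < K → K ≤ Z → V ≤ Z → 0 ≤ E0 → E0 ≤ Z →
      0 ≤ E1 → E1 ≤ Z → 0 < X → X ≤ Z ^ 5 → c * (Real.exp 1 * V) ≤ Z ^ 5 →
      (∀ k d e, 0 < H k d e) →
      (∀ k ∈ LI (1 / 10) V, ∀ d ∈ S (Z ^ 5), ∀ e ∈ S E0,
        c * (H k d e * Real.exp k ^ 2) ≤ K * X) →
      (∀ d ∈ S (Z ^ 5), ∀ e ∈ S E0, ∀ n, af e d n ≠ 0 →
        |Real.log (nm d * nm n) - Real.log X| ≤ R0) →
      (∀ k d e, Slp a (W0 k d e)) →
      (∀ k ∈ LI (1 / 10) V, RHd (Z ^ 5) (c * Z ^ 200) A₁ (S E0) (fl af) (W0 k)) →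
      (∑' k : Eis, if IsPrim k ∧ Cut E1 k then
        w ((nm k : ℝ) / K) * ‖SteT (JB (Real.sqrt V)) (omp cg i τ) E0 (StF828.T3 af) k‖ ^ 2
        else 0) ≤
      C * Z ^ ε * (K ^ (2 / 3 : ℝ) * XMn cg i τ V E0 E1 K af +
        (1 + |τ|) ^ A * LMn V E0 E1 K X c Z H W0 af) := by
  obtain ⟨A, c, C, hc, hC, h⟩ := E3Ke548.Z2 hw hw0 hR0 a A₁ hA₁ hε hε1
  obtain ⟨Mb, hMb, hbd⟩ := hD_bd (A + 2)
  refine ⟨A, c, C * (1 + Mb ^ 2), hc, one_le_mul_of_one_le_of_one_le hC (by nlinarith), ?_⟩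
  intro cg hcg i τ Z V hZ hV hVi af E0 E1 K X H W0 hR hK hKZ hVZ hE0 hE0Z hE1 hE1Z hX hXZ hcV hH hHX
    hwin hslp hrh
  have hsV : Real.sqrt V ^ 2 = V := Real.sq_sqrt hV.le
  have hsV0 : 0 ≤ Real.sqrt V := Real.sqrt_nonneg V
  have hsVZ : Real.sqrt V ≤ Z := by
    have h1 : V ≤ Z ^ 2 := by nlinarith
    calc Real.sqrt V ≤ Real.sqrt (Z ^ 2) := Real.sqrt_le_sqrt h1
      _ = Z := Real.sqrt_sq (by linarith)
  have eJ : JB (Real.sqrt V) = JW (Real.sqrt V) (1 / 10) V := by unfold JB; rw [hsV]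
  have hcn : (1 : ℝ) ≤ nm cg := one_le_nmR hcg
  have hmem : ∀ x ∈ JW (Real.sqrt V) (1 / 10) V, IsPrim x.1 ∧ Squarefree x.1 ∧ JC x.2 ∧
      (nm (ln x) : ℝ) ≤ V := by
    intro x hx
    rw [← eJ] at hx
    have h1 := (mem_JB hsV0).1 hx
    rwa [hsV] at h1
  have hln : ∀ x ∈ JW (Real.sqrt V) (1 / 10) V, (nm (ln x) : ℝ) = nm x.2 * (nm x.1 : ℝ) ^ 2 := by
    intro x _
    unfold StD828.ln
    rw [nm_mul, nm_pow]; push_cast; ring
  have hx1 : ∀ x ∈ JW (Real.sqrt V) (1 / 10) V, (nm x.1 : ℝ) ≤ Real.sqrt V ∧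
      (nm x.2 : ℝ) ≤ V := by
    intro x hx
    obtain ⟨h1, h2, h3, h4⟩ := hmem x hx
    have h5 : (1 : ℝ) ≤ nm x.1 := one_le_nmR h1
    have h6 : (1 : ℝ) ≤ nm x.2 := by
      have := nm_pos.2 (JC_ne_zero h3)
      exact_mod_cast this
    rw [hln x hx] at h4
    constructor
    · refine Real.le_sqrt_of_sq_le ?_
      nlinarith [mul_nonneg (sub_nonneg.2 h6) (sq_nonneg (nm x.1 : ℝ))]
    · nlinarith [mul_nonneg (by linarith : (0:ℝ) ≤ nm x.2) (by nlinarith : (0:ℝ) ≤ (nm x.1:ℝ)^2 - 1)]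
  set Om : ℝ → ℂ := fun u => ((hD (Real.log (nm cg) + u - Real.log 2 * i) : ℝ) : ℂ) with hOm
  have hOmC : ContDiff ℝ ∞ Om := by
    have h1 : ContDiff ℝ ∞ fun u : ℝ => Real.log (nm cg) + u - Real.log 2 * i :=
      (contDiff_const.add contDiff_id).sub contDiff_const
    exact E3Kh548.contDiff_hDc.comp h1
  have hOmw : ∀ u, Om u = ((wD i (Real.log (nm cg) + u) : ℝ) : ℂ) := fun u => rfl
  have key := h Om Mb hMb hOmC (fun n hn x => hbd n hn i _ x) τ 1 (by simp) Z hZ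
    (Real.sqrt V) (1 / 10) V (omp cg i τ) (StF828.T3 af) (fl af) E0 E1 V 1 K X H W0 (TC_fl hR)
    (fun d e => FS_fl hR d e) (fun x hx e _ => T3_fl hR (hmem x hx).1 e x.2) hsV0 hV.le
    (fun x hx => by
      obtain ⟨h1, h2, h3, h4⟩ := hmem x hx
      have h5 : ln x ≠ 0 := ln_ne h1 h3
      rw [one_mul, hOmw]
      show ((wD i (Real.log (nm (cg * ln x))) : ℝ) : ℂ) * pw τ (nm x.2) = _
      have h6 : Real.log (nm (cg * ln x)) = Real.log (nm cg) + Real.log (nm (x.2 * x.1 ^ 2)) := by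
        rw [nm_mul]
        push_cast
        rw [Real.log_mul (by linarith) (by exact_mod_cast (nm_pos.2 h5).ne')]
        rfl
      rw [h6])
    (fun k _ n hn _ hne => by
      have hn1 : (1 : ℝ) ≤ n := by exact_mod_cast hn
      refine ⟨by linarith, ?_⟩
      rw [hOmw] at hne
      have h1 : wD i (Real.log (nm cg) + Real.log n) ≠ 0 := fun h0 => hne (by rw [h0]; simp)
      have h2 := (abs_le.mp (wD_ne h1)).2
      have h3 : Real.log (nm cg * n) ≤ Real.log (nm cg * V) := by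
        rw [Real.log_mul (by linarith) (by linarith)]
        have h4 := Real.log_le_log (Real.exp_pos _) hVi
        rw [Real.log_exp] at h4
        linarith
      have h4 := (Real.log_le_log_iff (by positivity) (by positivity)).1 h3
      exact le_of_mul_le_mul_left h4 (by linarith))
    hK hKZ hV.le hVZ le_rfl hZ hE0 hE0Z hE1 hE1Z hVZ (fun x hx => (hx1 x hx).1.trans hsVZ)
    (fun x hx => (hx1 x hx).2) hX hXZ hH
    (fun k hk => by
      refine le_trans ?_ hcV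
      exact mul_le_mul_of_nonneg_left (mem_LI hk).2.2 (by linarith))
    hHX
    (fun d _ e _ n hn => by
      obtain ⟨h1, h2, h3⟩ := fl_ne hn
      exact (hR.sqf e d n h1 h3).of_mul_right)
    (fun d hd e he n hn => hwin d hd e he n (fl_ne hn).2.2) hslp hrh
  rw [eJ]
  refine key.trans ?_
  have hZe : 0 ≤ Z ^ ε := Real.rpow_nonneg (by linarith) _
  have hXM : 0 ≤ XMn cg i τ V E0 E1 K af := by
    unfold XMn
    exact sum_nonneg fun e _ => mul_nonneg (by positivity) (XE_nonneg _ _ _ _)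
  have hLV : ∀ e ∈ S E0, ∀ k ∈ LI (1 / 10) V, ∀ d ∈ (JB (Real.sqrt V)).image Prod.fst,
      0 ≤ (nm e : ℝ)⁻¹ * LVn (fl af) {d} {e} c (Z ^ 5) K (H k d e) (Real.exp k) (Real.exp k) E1 1 1
      (RNF c K (Real.exp k) X (H k) (W0 k) d e) := by
    intro e _ k _ d _
    refine mul_nonneg (by positivity) ?_
    have h1 := hH k d e
    have h2 : 0 ≤ RNF c K (Real.exp k) X (H k) (W0 k) d e := by
      refine E3Hd290.RNF_nonneg ?_ ?_
      · exact E3Sz579.Md_nonneg (by linarith) hK (Real.exp_pos _) h1 hX d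
      · exact (hslp k d e).nonneg _ (by positivity)
    have t0 := TN_nonneg (fl af) (we := fun e => (nm e : ℝ)) (fun _ => Nat.cast_nonneg _) {d} {e}
      (om := fun _ => 1) (fun _ => zero_le_one) {1} (JVc c (Real.exp k)) id
    have t1 := TN_nonneg (fl af) (we := fun e => (nm e : ℝ)) (fun _ => Nat.cast_nonneg _) {d} {e}
      (om := fun γ => (nm γ : ℝ)⁻¹) (fun _ => by positivity) (primBall ⌊Z ^ 5⌋₊)
      (JV c (Real.exp k)) (fun _ => 1)
    have t2 := TN_nonneg (fl af) (we := fun e => (nm e : ℝ)) (fun _ => Nat.cast_nonneg _) {d} {e}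
      (om := fun γ => (nm γ : ℝ) ^ (-(1 / 2) : ℝ)) (fun _ => by positivity) (primBall ⌊Z ^ 5⌋₊)
      (JV c (Real.exp k)) (fun _ => 1)
    unfold LVn
    have hF : 0 ≤ FH K (H k d e) (Real.exp k) := FH_nonneg hK.le h1.le (Real.exp_pos _).le
    refine mul_nonneg hF ?_
    have c1 : 0 ≤ 1 + (H k d e * (Real.exp k / Real.exp k)) ^ (1 / 3 : ℝ) * (Real.exp k / K) *
        (E1 ^ 2 * 1 ^ 2 * 1) + (H k d e * Real.exp k ^ 2 * Real.exp k * E1 ^ 3 * 1 ^ 2 /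
          K ^ 2) ^ (1 / 3 : ℝ) := by positivity
    have c2 : 0 ≤ 1 + (H k d e ^ 2 * Real.exp k ^ 3 / K ^ 2) ^ (1 / 3 : ℝ) := by positivity
    have c3 : 0 ≤ (H k d e ^ 2 * Real.exp k ^ 3 / K ^ 2) ^ (1 / 2 : ℝ) := by positivity
    exact add_nonneg (add_nonneg (add_nonneg (mul_nonneg c1 t0) (mul_nonneg c2 t1))
      (mul_nonneg c3 t2)) h2
  have hLM : 0 ≤ LMn V E0 E1 K X c Z H W0 af := by
    unfold LMn
    exact sum_nonneg fun e he => sum_nonneg fun k hk => sum_nonneg fun d hd => hLV e he k hk d hd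
  have e1 : (∑ e ∈ S E0, ∑ i ∈ LI (1 / 10) V, ∑ d ∈ (JW (Real.sqrt V) (1 / 10) V).image Prod.fst,
        (nm e : ℝ)⁻¹ * LVn (fl af) {d} {e} c (Z ^ 5) K (H i d e) (Real.exp i) (Real.exp i) E1 1 1
          (RNF c K (Real.exp i) X (H i) (W0 i) d e)) = LMn V E0 E1 K X c Z H W0 af := by
    unfold LMn
    rw [eJ]
  have e2 : (∑ e ∈ S E0, (((nm e : ℝ) ^ (-1 : ℝ) +
        (V / K ^ 2) ^ (1 / 6 : ℝ) * (nm e : ℝ) ^ (1 / 2 : ℝ) + E1 ^ 2 * (1 : ℝ) ^ 2 * V / K) *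
          XE (JW (Real.sqrt V) (1 / 10) V) (omp cg i τ) (StF828.T3 af) e)) =
      XMn cg i τ V E0 E1 K af := by
    unfold XMn
    rw [eJ]
  rw [e1, e2]
  have hτ : 0 ≤ (1 + |τ|) ^ A := by positivity
  have hK3 : 0 ≤ K ^ (2 / 3 : ℝ) := by positivity
  have h1 : K ^ (2 / 3 : ℝ) * XMn cg i τ V E0 E1 K af +
      Mb ^ 2 * (1 + |τ|) ^ A * LMn V E0 E1 K X c Z H W0 af ≤
      (1 + Mb ^ 2) * (K ^ (2 / 3 : ℝ) * XMn cg i τ V E0 E1 K af +
        (1 + |τ|) ^ A * LMn V E0 E1 K X c Z H W0 af) := by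
    nlinarith [mul_nonneg hK3 hXM, mul_nonneg hτ hLM, mul_nonneg (sq_nonneg Mb) (mul_nonneg hK3 hXM)]
  calc _ ≤ C * Z ^ ε * ((1 + Mb ^ 2) * (K ^ (2 / 3 : ℝ) * XMn cg i τ V E0 E1 K af +
        (1 + |τ|) ^ A * LMn V E0 E1 K X c Z H W0 af)) :=
        mul_le_mul_of_nonneg_left h1 (by positivity)
    _ = _ := by ring

end Crest.Agent.R017.Mm828
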