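import Crest.Agent.R017.MmE_828
import Crest.Agent.R017.E3Je_290

/-!
# Row 17, exceptional class (helper72): one class of the mismatch by the Gram form in classes

* `LMx` : the lines of a block, second form, in classes
* **`blkx`** : one block by `Z2sy`
* **`mm1x`** : the moment of a class in the two numbers `XMn`, `LMx`, any `H`; `mm1x_Hm` at `Hm`
-/

set_option autoImplicit false

noncomputable section

open Finset MeasureTheory
open scoped ComplexConjugate ContDiff Classical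

namespace Crest.Agent.R017.MmX72

open Crest.Agent.R012 Crest.Agent.R012.Eis Crest.Agent.R012.Div277
open Crest.Agent.R012.MC (Wgt)
open Crest.Agent.R012.LS2 (S mem_S bl)
open Crest.Agent.R012.Weight600 (osc pw)
open Crest.Agent.R017.CM106 (CS TG FS)
open Crest.Agent.R017.C70 (JC OKJ JW okJ_JW)
open Crest.Agent.R017.DgA829 (lc lc_prim lc_dvd)
open Crest.Agent.R017.FE47 (hD cx PU)
open Crest.Agent.R017.HB645 (hh)
open Crest.Agent.R017.StA828 (gp xa JC_ne_zero)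
open Crest.Agent.R017.StB828 (one_le_nmR)
open Crest.Agent.R017.StC828 (rs rs_ne xa_ne)
open Crest.Agent.R017.StD828 (ln Tm)
open Crest.Agent.R017.StE828 (wD oD wD_ne)
open Crest.Agent.R017.StF828 (ln_ne)
open Crest.Agent.R017.StG828
open Crest.Agent.R017.StJ319
open Crest.Agent.R017.P1e54 (M2)
open Crest.Agent.R017.P1k54 (uM wM wM_nonneg wgt_wM)
open Crest.Agent.R017.E3A164 (SteT)
open Crest.Agent.R017.E3M829 (TC Cut)
open Crest.Agent.R017.E3F548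
open Crest.Agent.R017.E3D579 (TE0)
open Crest.Agent.R017.E3T1579 (T3)
open Crest.Agent.R017.E3Z548
open Crest.Agent.R017.E3Kc548 Crest.Agent.R017.E3Ke548
open Crest.Agent.R017.Mode405 (Slp)
open Crest.Agent.R017.E3Hi290 (RN2XF RN2XF_nonneg)
open Crest.Agent.R017.E3Xa72 (RHRx)
open Crest.Agent.R017.E3T829 (RR)
open Crest.Agent.R017.Mm828

/-- the lines of a block, second form, in classes -/
def LMx (V E0 E1 K X c Z : ℝ) (H : ℕ → Eis → Eis → ℝ) (W0 : ℕ → Bool → Eis → Eis → ℝ → ℝ)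
    (af : Eis → Eis → Eis → ℂ) : ℝ :=
  ∑ e ∈ S E0, ∑ k ∈ LI (1 / 10) V, ∑ d ∈ (JB (Real.sqrt V)).image Prod.fst,
    (nm e : ℝ)⁻¹ * LVn (fl af) {d} {e} c (Z ^ 5) K (H k d e) (Real.exp k) (Real.exp k) E1 1 1
      (RN2XF c K (Real.exp k) X (H k) (W0 k) d e)

set_option maxHeartbeats 1000000 in
/-- **one block** -/
theorem blkx {w : ℝ → ℝ} (hw : Wgt w) (hw0 : ∀ x, 0 ≤ w x) {R0 : ℝ} (hR0 : 0 ≤ R0) (a A₁ : ℕ)
    (hA₁ : 1 < A₁) {ε : ℝ} (hε : 0 < ε) (hε1 : ε ≤ 1) :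
    ∃ (A : ℕ) (c C : ℝ), 1 ≤ c ∧ 1 ≤ C ∧ ∀ (cg : Eis), IsPrim cg → ∀ (i : ℕ) (τ Z V : ℝ),
      1 ≤ Z → 0 < V → Real.exp (Real.log 2 * (i + 1)) ≤ nm cg * V →
      ∀ (af : Eis → Eis → Eis → ℂ) (E0 E1 K X : ℝ) (H : ℕ → Eis → Eis → ℝ) (u : Eis)
      (W0 : ℕ → Bool → Eis → Eis → ℝ → ℝ), u ≠ 0 →
      (∀ d ∈ (JB (Real.sqrt V)).image Prod.fst, ∀ e ∈ S E0, ∀ n, fl af d e n ≠ 0 →
        IsCoprime u n) → ROK af → 0 < K → K ≤ Z → V ≤ Z → 0 ≤ E0 → E0 ≤ Z →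
      0 ≤ E1 → E1 ≤ Z → 0 < X → X ≤ Z ^ 5 → c * (Real.exp 1 * V) ≤ Z ^ 5 →
      (∀ k d e, 0 < H k d e) →
      (∀ k ∈ LI (1 / 10) V, ∀ d ∈ S (Z ^ 5), ∀ e ∈ S E0,
        c * (H k d e * Real.exp k ^ 2) ≤ K * X) →
      (∀ d ∈ (JB (Real.sqrt V)).image Prod.fst, ∀ e ∈ S E0, ∀ n, af e d n ≠ 0 →
        |Real.log (nm d * nm n) - Real.log X| ≤ R0) →
      (∀ k jj d e, Slp a (W0 k jj d e)) →
      (∀ k ∈ LI (1 / 10) V, RHRx (c * Z ^ 300) A₁ (RR (JB (Real.sqrt V)) (S E0)) (fl af) u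
        (W0 k)) →
      (∑' k : Eis, if IsPrim k ∧ Cut E1 k then
        w ((nm k : ℝ) / K) * ‖SteT (JB (Real.sqrt V)) (omp cg i τ) E0 (StF828.T3 af) k‖ ^ 2
        else 0) ≤
      C * Z ^ ε * (K ^ (2 / 3 : ℝ) * XMn cg i τ V E0 E1 K af +
        (1 + |τ|) ^ A * LMx V E0 E1 K X c Z H W0 af) := by
  obtain ⟨A, c, C, hc, hC, h⟩ := E3Je290.Z2sy hw hw0 hR0 a A₁ hA₁ hε hε1
  obtain ⟨Mb, hMb, hbd⟩ := hD_bd (A + 2)
  refine ⟨A, c, C * (1 + Mb ^ 2), hc, one_le_mul_of_one_le_of_one_le hC (by nlinarith), ?_⟩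
  intro cg hcg i τ Z V hZ hV hVi af E0 E1 K X H u W0 hu0 huc hR hK hKZ hVZ hE0 hE0Z hE1 hE1Z hX hXZ hcV hH hHX
    hwin hslp hrh
  have hsV : Real.sqrt V ^ 2 = V := Real.sq_sqrt hV.le
  have hsV0 : 0 ≤ Real.sqrt V := Real.sqrt_nonneg V
  have hsVZ : Real.sqrt V ≤ Z := by
    have h1 : V ≤ Z ^ 2 := by nlinarith
    calc Real.sqrt V ≤ Real.sqrt (Z ^ 2) := Real.sqrt_le_sqrt h1
      _ = Z := Real.sqrt_sq (by linarith)
  have eJ : JB (Real.sqrt V) = JW (Real.sqrt V) (1 / 10) V := by unfold JB; rw [hsV]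
  have hcn : (1 : ℝ) ≤ nm cg := one_le_nmR hcg
  have hmem : ∀ x ∈ JW (Real.sqrt V) (1 / 10) V, IsPrim x.1 ∧ Squarefree x.1 ∧ JC x.2 ∧
      (nm (ln x) : ℝ) ≤ V := by
    intro x hx
    rw [← eJ] at hx
    have h1 := (mem_JB hsV0).1 hx
    rwa [hsV] at h1
  have hln : ∀ x ∈ JW (Real.sqrt V) (1 / 10) V, (nm (ln x) : ℝ) = nm x.2 * (nm x.1 : ℝ) ^ 2 := by
    intro x _
    unfold StD828.ln
    rw [nm_mul, nm_pow]; push_cast; ring
  have hx1 : ∀ x ∈ JW (Real.sqrt V) (1 / 10) V, (nm x.1 : ℝ) ≤ Real.sqrt V ∧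
      (nm x.2 : ℝ) ≤ V := by
    intro x hx
    obtain ⟨h1, h2, h3, h4⟩ := hmem x hx
    have h5 : (1 : ℝ) ≤ nm x.1 := one_le_nmR h1
    have h6 : (1 : ℝ) ≤ nm x.2 := by
      have := nm_pos.2 (JC_ne_zero h3)
      exact_mod_cast this
    rw [hln x hx] at h4
    constructor
    · refine Real.le_sqrt_of_sq_le ?_
      nlinarith [mul_nonneg (sub_nonneg.2 h6) (sq_nonneg (nm x.1 : ℝ))]
    · nlinarith [mul_nonneg (by linarith : (0:ℝ) ≤ nm x.2) (by nlinarith : (0:ℝ) ≤ (nm x.1:ℝ)^2 - 1)]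
  set Om : ℝ → ℂ := fun u => ((hD (Real.log (nm cg) + u - Real.log 2 * i) : ℝ) : ℂ) with hOm
  have hOmC : ContDiff ℝ ∞ Om := by
    have h1 : ContDiff ℝ ∞ fun u : ℝ => Real.log (nm cg) + u - Real.log 2 * i :=
      (contDiff_const.add contDiff_id).sub contDiff_const
    exact E3Kh548.contDiff_hDc.comp h1
  have hOmw : ∀ u, Om u = ((wD i (Real.log (nm cg) + u) : ℝ) : ℂ) := fun u => rfl
  have key := h Om Mb hMb hOmC (fun n hn x => hbd n hn i _ x) τ 1 (by simp) Z hZ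
    (Real.sqrt V) (1 / 10) V (omp cg i τ) (StF828.T3 af) (fl af) E0 E1 V 1 K X H u W0 hu0
    (by rw [← eJ]; exact huc) (TC_fl hR) (fun d e => FS_fl hR d e) (fun x hx e _ => T3_fl hR (hmem x hx).1 e x.2) hsV0 hV.le
    (fun x hx => by
      obtain ⟨h1, h2, h3, h4⟩ := hmem x hx
      have h5 : ln x ≠ 0 := ln_ne h1 h3
      rw [one_mul, hOmw]
      show ((wD i (Real.log (nm (cg * ln x))) : ℝ) : ℂ) * pw τ (nm x.2) = _
      have h6 : Real.log (nm (cg * ln x)) = Real.log (nm cg) + Real.log (nm (x.2 * x.1 ^ 2)) := by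
        rw [nm_mul]
        push_cast
        rw [Real.log_mul (by linarith) (by exact_mod_cast (nm_pos.2 h5).ne')]
        rfl
      rw [h6])
    (fun k _ n hn _ hne => by
      have hn1 : (1 : ℝ) ≤ n := by exact_mod_cast hn
      refine ⟨by linarith, ?_⟩
      rw [hOmw] at hne
      have h1 : wD i (Real.log (nm cg) + Real.log n) ≠ 0 := fun h0 => hne (by rw [h0]; simp)
      have h2 := (abs_le.mp (wD_ne h1)).2
      have h3 : Real.log (nm cg * n) ≤ Real.log (nm cg * V) := by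
        rw [Real.log_mul (by linarith) (by linarith)]
        have h4 := Real.log_le_log (Real.exp_pos _) hVi
        rw [Real.log_exp] at h4
        linarith
      have h4 := (Real.log_le_log_iff (by positivity) (by positivity)).1 h3
      exact le_of_mul_le_mul_left h4 (by linarith))
    hK hKZ hV.le hVZ le_rfl hZ hE0 hE0Z hE1 hE1Z hVZ (fun x hx => (hx1 x hx).1.trans hsVZ)
    (fun x hx => (hx1 x hx).2) hX hXZ hH
    (fun k hk => by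
      refine le_trans ?_ hcV
      exact mul_le_mul_of_nonneg_left (mem_LI hk).2.2 (by linarith))
    hHX
    (fun d _ e _ n hn => by
      obtain ⟨h1, h2, h3⟩ := fl_ne hn
      exact (hR.sqf e d n h1 h3).of_mul_right)
    (fun d hd e he n hn => hwin d (by rw [eJ]; exact hd) e he n (fl_ne hn).2.2) hslp
    (by rw [← eJ]; exact hrh)
  rw [eJ]
  refine key.trans ?_
  have hZe : 0 ≤ Z ^ ε := Real.rpow_nonneg (by linarith) _
  have hXM : 0 ≤ XMn cg i τ V E0 E1 K af := by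
    unfold XMn
    exact sum_nonneg fun e _ => mul_nonneg (by positivity) (XE_nonneg _ _ _ _)
  have hLV : ∀ e ∈ S E0, ∀ k ∈ LI (1 / 10) V, ∀ d ∈ (JB (Real.sqrt V)).image Prod.fst,
      0 ≤ (nm e : ℝ)⁻¹ * LVn (fl af) {d} {e} c (Z ^ 5) K (H k d e) (Real.exp k) (Real.exp k) E1 1 1
      (RN2XF c K (Real.exp k) X (H k) (W0 k) d e) := by
    intro e _ k _ d _
    refine mul_nonneg (by positivity) ?_
    have h1 := hH k d e
    have h2 : 0 ≤ RN2XF c K (Real.exp k) X (H k) (W0 k) d e := by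
      exact RN2XF_nonneg (E3Sz579.Ld_nonneg hK h1 d)
        (E3Sz579.Md_nonneg (by linarith) hK (Real.exp_pos _) h1 hX d)
        (E3Sx744.Mxd_nonneg (by linarith) hK (Real.exp_pos _) h1 hX d) (by positivity)
        (fun jj => (hslp k jj d e).nonneg _ (by positivity))
    have t0 := TN_nonneg (fl af) (we := fun e => (nm e : ℝ)) (fun _ => Nat.cast_nonneg _) {d} {e}
      (om := fun _ => 1) (fun _ => zero_le_one) {1} (JVc c (Real.exp k)) id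
    have t1 := TN_nonneg (fl af) (we := fun e => (nm e : ℝ)) (fun _ => Nat.cast_nonneg _) {d} {e}
      (om := fun γ => (nm γ : ℝ)⁻¹) (fun _ => by positivity) (primBall ⌊Z ^ 5⌋₊)
      (JV c (Real.exp k)) (fun _ => 1)
    have t2 := TN_nonneg (fl af) (we := fun e => (nm e : ℝ)) (fun _ => Nat.cast_nonneg _) {d} {e}
      (om := fun γ => (nm γ : ℝ) ^ (-(1 / 2) : ℝ)) (fun _ => by positivity) (primBall ⌊Z ^ 5⌋₊)
      (JV c (Real.exp k)) (fun _ => 1)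
    unfold LVn
    have hF : 0 ≤ FH K (H k d e) (Real.exp k) := FH_nonneg hK.le h1.le (Real.exp_pos _).le
    refine mul_nonneg hF ?_
    have c1 : 0 ≤ 1 + (H k d e * (Real.exp k / Real.exp k)) ^ (1 / 3 : ℝ) * (Real.exp k / K) *
        (E1 ^ 2 * 1 ^ 2 * 1) + (H k d e * Real.exp k ^ 2 * Real.exp k * E1 ^ 3 * 1 ^ 2 /
          K ^ 2) ^ (1 / 3 : ℝ) := by positivity
    have c2 : 0 ≤ 1 + (H k d e ^ 2 * Real.exp k ^ 3 / K ^ 2) ^ (1 / 3 : ℝ) := by positivity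
    have c3 : 0 ≤ (H k d e ^ 2 * Real.exp k ^ 3 / K ^ 2) ^ (1 / 2 : ℝ) := by positivity
    exact add_nonneg (add_nonneg (add_nonneg (mul_nonneg c1 t0) (mul_nonneg c2 t1))
      (mul_nonneg c3 t2)) h2
  have hLM : 0 ≤ LMx V E0 E1 K X c Z H W0 af := by
    unfold LMx
    exact sum_nonneg fun e he => sum_nonneg fun k hk => sum_nonneg fun d hd => hLV e he k hk d hd
  have e1 : (∑ e ∈ S E0, ∑ i ∈ LI (1 / 10) V, ∑ d ∈ (JW (Real.sqrt V) (1 / 10) V).image Prod.fst,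
        (nm e : ℝ)⁻¹ * LVn (fl af) {d} {e} c (Z ^ 5) K (H i d e) (Real.exp i) (Real.exp i) E1 1 1
          (RN2XF c K (Real.exp i) X (H i) (W0 i) d e)) = LMx V E0 E1 K X c Z H W0 af := by
    unfold LMx
    rw [eJ]
  have e2 : (∑ e ∈ S E0, (((nm e : ℝ) ^ (-1 : ℝ) +
        (V / K ^ 2) ^ (1 / 6 : ℝ) * (nm e : ℝ) ^ (1 / 2 : ℝ) + E1 ^ 2 * (1 : ℝ) ^ 2 * V / K) *
          XE (JW (Real.sqrt V) (1 / 10) V) (omp cg i τ) (StF828.T3 af) e)) =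
      XMn cg i τ V E0 E1 K af := by
    unfold XMn
    rw [eJ]
  rw [e1, e2]
  have hτ : 0 ≤ (1 + |τ|) ^ A := by positivity
  have hK3 : 0 ≤ K ^ (2 / 3 : ℝ) := by positivity
  have h1 : K ^ (2 / 3 : ℝ) * XMn cg i τ V E0 E1 K af +
      Mb ^ 2 * (1 + |τ|) ^ A * LMx V E0 E1 K X c Z H W0 af ≤
      (1 + Mb ^ 2) * (K ^ (2 / 3 : ℝ) * XMn cg i τ V E0 E1 K af +
        (1 + |τ|) ^ A * LMx V E0 E1 K X c Z H W0 af) := by
    nlinarith [mul_nonneg hK3 hXM, mul_nonneg hτ hLM, mul_nonneg (sq_nonneg Mb) (mul_nonneg hK3 hXM)]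
  calc _ ≤ C * Z ^ ε * ((1 + Mb ^ 2) * (K ^ (2 / 3 : ℝ) * XMn cg i τ V E0 E1 K af +
        (1 + |τ|) ^ A * LMx V E0 E1 K X c Z H W0 af)) :=
        mul_le_mul_of_nonneg_left h1 (by positivity)
    _ = _ := by ring


/-! ### one class -/

lemma afrb_cop {gt : Eis → Eis → Eis → ℂ} {q : Eis → Eis} {Y : ℝ} (hY : 0 ≤ Y) {η α : Eis → ℂ}
    {g h u : Eis} (h1 : ∀ n, η n ≠ 0 → IsCoprime u n) (h2 : ∀ n, α n ≠ 0 → IsCoprime u n) {s : ℝ}
    {e d m : Eis} (h0 : afrb gt q Y η α g h s e d m ≠ 0) : IsCoprime u m := by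
  obtain ⟨a, -, n, e1, -, -, h5, h6, -⟩ := afb_mem hY (afrb_ne h0).2
  have h7 : IsCoprime u (a * n) := (h1 _ h6).of_mul_right_right.mul_right (h2 _ h5)
  rw [← e1] at h7
  exact h7.of_mul_right_right

lemma RHRx_fl {af : Eis → Eis → Eis → ℂ} (hR : ROK af) {V m : ℝ} {A : ℕ} {EE : Finset Eis}
    {u : Eis} {W0 : Bool → Eis → Eis → ℝ → ℝ}
    (h : RHRx m A (RR (JB (Real.sqrt V)) EE) (fun d e => af e d) u W0) :
    RHRx m A (RR (JB (Real.sqrt V)) EE) (fl af) u W0 := by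
  intro jj ρ hρ γ π hγ hπ hm P hP
  have h1 : IsPrim ρ.1 := by
    obtain ⟨x, hx, e1⟩ := mem_image.1 (mem_product.1 hρ).1
    rw [← e1]
    exact ((mem_JB (Real.sqrt_nonneg _)).1 hx).1
  rw [fl_eq hR h1 ρ.2]
  exact h jj ρ hρ γ π hγ hπ hm P hP

/-- the lines of a block, without `fl` -/
lemma LMx_eq {af : Eis → Eis → Eis → ℂ} (hR : ROK af) {V : ℝ} (E0 E1 K X c Z : ℝ)
    (H : ℕ → Eis → Eis → ℝ) (W0 : ℕ → Bool → Eis → Eis → ℝ → ℝ) :
    LMx V E0 E1 K X c Z H W0 af =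
      ∑ e ∈ S E0, ∑ k ∈ LI (1 / 10) V, ∑ d ∈ (JB (Real.sqrt V)).image Prod.fst,
        (nm e : ℝ)⁻¹ * LVn (fun d e => af e d) {d} {e} c (Z ^ 5) K (H k d e) (Real.exp k)
          (Real.exp k) E1 1 1 (RN2XF c K (Real.exp k) X (H k) (W0 k) d e) := by
  unfold LMx
  refine sum_congr rfl fun e _ => sum_congr rfl fun k _ => sum_congr rfl fun d hd => ?_
  obtain ⟨x, hx, rfl⟩ := mem_image.1 hd
  rw [LVn_fl hR ((mem_JB (Real.sqrt_nonneg _)).1 hx).1]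

set_option maxHeartbeats 1000000 in
/-- **the moment of one class of the mismatch, class E** -/
theorem mm1x (R : ℝ) {R1 R2 : ℝ} (hR1 : 0 ≤ R1) (hR2 : 0 ≤ R2) (a A₁ : ℕ) (hA₁ : 1 < A₁) {ε : ℝ}
    (hε : 0 < ε) (hε1 : ε ≤ 1) :
    ∃ (A : ℕ) (c C : ℝ), 1 ≤ c ∧ 1 ≤ C ∧ ∀ (Y : ℝ), 0 ≤ Y → ∀ (gt : Eis → Eis → Eis → ℂ)
      (q : Eis → Eis) (η α : Eis → ℂ), FS α → PSu α → ∀ (g h : Eis), IsPrim g → h ∈ dvs g →
      ∀ (p1 p2 : ℝ), (∀ n, η n ≠ 0 → |Real.log (nm n) - p1| ≤ R1) →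
      (∀ n, α n ≠ 0 → |Real.log (nm n) - p2| ≤ R2) →
      ∀ (u : Eis), u ≠ 0 → (∀ n, η n ≠ 0 → IsCoprime u n) → (∀ n, α n ≠ 0 → IsCoprime u n) →
      ∀ (i : ℕ) (s Z D E0 E1 K : ℝ) (H : ℕ → Eis → Eis → ℝ)
        (W0 : ℕ → Bool → Eis → Eis → ℝ → ℝ), 1 ≤ Z → 0 ≤ D →
      Vb (g / h) i ≤ D ^ 2 → 0 < K → K ≤ Z → Vb (g / h) i ≤ Z → 0 ≤ E0 → E0 ≤ Z → 0 ≤ E1 →
      E1 ≤ Z → Real.exp (p1 + p2) / (nm g * nm h) ≤ Z ^ 5 →
      c * (Real.exp 1 * Vb (g / h) i) ≤ Z ^ 5 → (∀ k d e, 0 < H k d e) →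
      (∀ k ∈ LI (1 / 10) (Vb (g / h) i), ∀ d ∈ S (Z ^ 5), ∀ e ∈ S E0,
        c * (H k d e * Real.exp k ^ 2) ≤ K * (Real.exp (p1 + p2) / (nm g * nm h))) →
      (∀ k jj d e, Slp a (W0 k jj d e)) →
      (∀ k ∈ LI (1 / 10) (Vb (g / h) i), RHRx (c * Z ^ 300) A₁
        (RR (JB (Real.sqrt (Vb (g / h) i))) (S E0))
        (fun d e => afrb gt q Y η α g h s e d) u (W0 k)) →
      M2 (uM R K E1) (SteT (JB D) (omp (g / h) i s) E0 (StF828.T3 (afrb gt q Y η α g h s))) ≤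
        C * Z ^ ε * (K ^ (2 / 3 : ℝ) *
            XMn (g / h) i s (Vb (g / h) i) E0 E1 K (afrb gt q Y η α g h s) +
          (1 + |s|) ^ A * LMx (Vb (g / h) i) E0 E1 K (Real.exp (p1 + p2) / (nm g * nm h)) c Z
            H W0 (afrb gt q Y η α g h s)) := by
  obtain ⟨A, c, C, hc, hC, HB⟩ :=
    blkx (wgt_wM R) (wM_nonneg R) (add_nonneg hR1 hR2) a A₁ hA₁ hε hε1
  refine ⟨A, c, C, hc, hC, ?_⟩
  intro Y hY gt q η α hα hα2 g h hg hh p1 p2 w1 w2 u hu0 hu1 hu2 i s Z D E0 E1 K H W0 hZ hD hVD hK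
    hKZ hVZ hE0 hE0Z hE1 hE1Z hXZ hcV hH hHX hslp hrh
  have hhp : IsPrim h := isPrim_of_mem_dvs hh
  have hhg : h ∣ g := dvd_of_mem_dvs hh
  have hcg : IsPrim (g / h) := by
    have e1 : h * (g / h) = g := EuclideanDomain.mul_div_cancel' hhp.ne_zero hhg
    have e2 : IsPrim (h * (g / h)) := by rw [e1]; exact hg
    exact e2.of_mul_left hhp
  have g0 : (0 : ℝ) < nm g := by linarith [one_le_nmR hg]
  have h0 : (0 : ℝ) < nm h := by linarith [one_le_nmR hhp]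
  have c0 : (0 : ℝ) < nm (g / h) := by linarith [one_le_nmR hcg]
  have hV : 0 < Vb (g / h) i := div_pos (Real.exp_pos _) c0
  have hX : 0 < Real.exp (p1 + p2) / (nm g * nm h) := div_pos (Real.exp_pos _) (mul_pos g0 h0)
  have hVi : Real.exp (Real.log 2 * (i + 1)) ≤ nm (g / h) * Vb (g / h) i := by
    unfold Vb
    rw [mul_div_cancel₀ _ c0.ne']
  have e1 : ∀ k, SteT (JB D) (omp (g / h) i s) E0 (StF828.T3 (afrb gt q Y η α g h s)) k =
      SteT (JB (Real.sqrt (Vb (g / h) i))) (omp (g / h) i s) E0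
        (StF828.T3 (afrb gt q Y η α g h s)) k := fun k =>
    SteT_level hcg.ne_zero (Real.sqrt_nonneg _) (Real.sqrt_le_iff.2 ⟨hD, hVD⟩)
      (by rw [Real.sq_sqrt hV.le]; exact hVi) s E0 k
  have hRok := rok_afrb (gt := gt) (q := q) (g := g) hY hα hα2 (η := η) hhp s
  have key := HB (g / h) hcg i s Z (Vb (g / h) i) hZ hV hVi (afrb gt q Y η α g h s) E0 E1 K
    (Real.exp (p1 + p2) / (nm g * nm h)) H u
    W0 hu0 (fun d _ e _ n hn => afrb_cop hY hu1 hu2 (fl_ne hn).2.2) hRok hK hKZ hVZ hE0 hE0Z hE1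
    hE1Z hX hXZ hcV hH hHX
    (fun d hd e _ n hn => by
      have h1 : IsPrim d := by
        obtain ⟨x, hx, e1⟩ := mem_image.1 hd
        rw [← e1]
        exact ((mem_JB (Real.sqrt_nonneg _)).1 hx).1
      exact win_afrb hY hα2 hg hhp w1 w2 h1 hn)
    hslp (fun k hk => RHRx_fl hRok (hrh k hk))
  refine le_trans (le_of_eq ?_) key
  unfold M2
  refine tsum_congr fun k => ?_
  rw [e1]
  unfold uM
  by_cases hk : IsPrim k ∧ Cut E1 k
  · rw [if_pos hk, if_pos (show IsPrim k ∧ E5B71.cutE E1 k from hk)]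
  · rw [if_neg hk, if_neg (show ¬ (IsPrim k ∧ E5B71.cutE E1 k) from hk), zero_mul]

end Crest.Agent.R017.MmX72
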