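import Crest.Agent.R017.NEc_180
import Crest.Agent.R017.TNj_90

/-!
# Row 17, T.4 (helper829): the main form of one level from the joint numbers

* **`x2_jbc`** : `e^(-h/3) ‖pC c3 X2‖` over `Y₀ < nm (j δ²) ≤ Z` from `JBc` and one real line
-/

set_option autoImplicit false
set_option linter.unusedVariables false

noncomputable section

open Finset MeasureTheory
open scoped ComplexConjugate Classical

namespace Crest.Agent.R017.MnJ829

open Crest.Agent.R012 Crest.Agent.R012.Eis Crest.Agent.R012.MC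
open Crest.Agent.R012.LS2 (S mem_S)
open Crest.Agent.R012.Mob705 (kap0)
open Crest.Agent.R012.Div277 (tau)
open Crest.Agent.R017.E1551 (Adm JB yv nmpos)
open Crest.Agent.R017.C70 (JW OKJ okJ_JW)
open Crest.Agent.R017.E2440 (TE)
open Crest.Agent.R017.X6C180 (n13 n13_nonneg)
open Crest.Agent.R017.I1146 (X2 c3 c3_nonneg TJ W_le_TJ TJ_le yv_exp)
open Crest.Agent.R017.DgB829 (HS HS_nonneg)
open Crest.Agent.R017.LBX180 (M2s M2s_nonneg X2_le_s)
open Crest.Agent.R017.TNj90 (JBc)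

/-- the weight of the main form, level `> Y₀` -/
def cM (Y₀ : ℝ) (x : Eis × Eis) (t : Eis) : ℝ :=
  if Y₀ < (nm x.2 : ℝ) * (nm x.1 : ℝ) ^ 2 then (tau t : ℝ) / nm t else 0

lemma cM_nonneg (Y₀ : ℝ) (x : Eis × Eis) (t : Eis) : 0 ≤ cM Y₀ x t := by
  unfold cM
  split_ifs <;> positivity

lemma M2s_cM (Y D Y₀ Z : ℝ) (α : Eis → ℂ) :
    M2s Y (JW D Y₀ Z) α = ∑ x ∈ JW D Y₀ Z, n13 x.2 * ∑ t ∈ S Y, cM Y₀ x t * ‖TE α x t‖ ^ 2 := by
  unfold LBX180.M2s
  refine Finset.sum_congr rfl fun x hx => ?_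
  unfold JW at hx
  rw [Finset.mem_filter] at hx
  obtain ⟨-, -, -, h3, -⟩ := hx
  rw [nm_mul, nm_pow] at h3
  push_cast at h3
  congr 1
  refine Finset.sum_congr rfl fun t _ => ?_
  unfold cM
  rw [if_pos h3]

set_option maxHeartbeats 1000000 in
/-- **the main form of one level from the joint numbers** -/
theorem x2_jbc {w : ℝ → ℝ} (hw0 : ∀ x, 0 ≤ w x) {R ε J B₂ : ℝ} (hR : 0 ≤ R) (hε : 0 < ε)
    (hJ : 0 ≤ J) (hB₂ : 0 < B₂) :
    ∃ C : ℝ, 0 ≤ C ∧ ∀ X : ℝ, 3 ≤ X → ∀ (K n Y D Y₀ Z E0 F m h : ℝ) (Sh : ℝ → ℝ → ℝ → ℝ),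
      0 < K → 1 ≤ Y → Y ≤ X ^ B₂ → Z ≤ X ^ B₂ → 0 < Y₀ → 0 < Z → 0 ≤ F →
      ∀ al : Eis → ℂ, JBc Y Z F J Sh al → Adm Y (Real.exp n) R al →
      ∀ om : Eis × Eis → ℂ, (∀ x, ‖om x‖ ≤ 1) →
      (∀ d ∈ S Y, ∀ b v : ℝ, 0 ≤ b → 0 ≤ v → v + 2 * Real.log (nm d) ≤ Real.log Z →
        Real.log Y₀ ≤ v + 2 * Real.log (nm d) →
        4 / 3 * Real.log (nm d) + 2 / 3 * n - (Real.log K + v) / 3 - b - h / 3 +
          Sh (Real.log (nm d)) b v ≤ m) →
      Real.exp (-(h / 3)) * ‖((pC * c3 w K : ℝ) : ℂ) * X2 Y E0 (JW D Y₀ Z) om al‖ ≤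
        C * X ^ ε * (K / Real.exp n) * (F * Real.exp m) := by
  -- exponents
  obtain ⟨a₁, ha₁⟩ : ∃ a₁ : ℝ, a₁ = B₂ + 1 := ⟨_, rfl⟩
  have ha₁0 : 0 < a₁ := by rw [ha₁]; positivity
  obtain ⟨ε', hε'⟩ : ∃ ε' : ℝ, ε' = ε / (3 * a₁) := ⟨_, rfl⟩
  have hε'0 : 0 < ε' := by rw [hε']; positivity
  set A : ℕ := ⌈J⌉₊ + 2 with hA
  have hA2 : 2 ≤ A := by omega
  have hJA : J + 1 < A := by
    have h1 := Nat.le_ceil J
    rw [hA]
    push_cast
    linarith
  obtain ⟨C₁, hC₁, H₁⟩ := W_le_TJ R hR A hA2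
  obtain ⟨C₂, hC₂, H₂⟩ := TJ_le (A := A) (J := J) (ε := ε') hJA hJ hε'0
  obtain ⟨C₃, hC₃, H₃⟩ := PInv255.one_add_log_pow_le 1 ε' hε'0
  obtain ⟨Ct, hCt, htau⟩ := Div277.tau_le_rpow hε'0
  have hkap : 0 ≤ kap0 * mel w (2 / 3) := by
    have := Cst401.kap0_pos
    have := Cst401.mel_nonneg hw0
    positivity
  have hpC := Cst401.pC_pos
  refine ⟨pC * (kap0 * mel w (2 / 3)) * (200 * C₃ * (C₁ * (C₂ * (2 * Ct)))), by positivity, ?_⟩
  intro X hX K n Y D Y₀ Z E0 F m h Sh hK hY1 hYX hZX hY₀ hZ hF al hJB hadm om hom line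
  have hX1 : (1 : ℝ) ≤ X := by linarith
  have hX0 : 0 < X := by linarith
  have hY0 : 0 ≤ Y := by linarith
  obtain ⟨P, hP⟩ : ∃ P : ℝ, P = X ^ a₁ := ⟨_, rfl⟩
  have hP1 : 1 ≤ P := by rw [hP]; exact Real.one_le_rpow hX1 ha₁0.le
  have hXBP : X ^ B₂ ≤ P := by
    rw [hP]; exact Real.rpow_le_rpow_of_exponent_le hX1 (by rw [ha₁]; linarith)
  have hYP : Y ≤ P := hYX.trans hXBP
  have hZP : Z ≤ P := hZX.trans hXBP
  have hP0 : 0 < P := by linarith
  have hPe : P ^ ε' * P ^ ε' * P ^ ε' = X ^ ε := by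
    rw [← Real.rpow_add hP0, ← Real.rpow_add hP0, hP, ← Real.rpow_mul hX0.le]
    congr 1
    rw [hε']
    field_simp
    ring
  have hPe0 : 0 ≤ P ^ ε' := by positivity
  obtain ⟨k, hk⟩ : ∃ k : ℝ, k = Real.log K := ⟨_, rfl⟩
  -- the functional
  obtain ⟨M, hM⟩ : ∃ M : ℝ, M = 2 * Ct * P ^ ε' * (F * Real.exp (m + h / 3)) := ⟨_, rfl⟩
  have hM0 : 0 ≤ M := by rw [hM]; positivity
  have key := H₂ P K (Real.exp n) Y D Y₀ Z M al hP1 hK (Real.exp_pos n) hY1 hYP hZP hM0 hadm.sup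
    (cM Y₀) (cM_nonneg Y₀)
    (fun δ B V => if Y₀ < V * (nm δ : ℝ) ^ 2 then Ct * P ^ ε' * (2 / max B 1) else 0)
    (fun δ B V => by split_ifs <;> positivity)
    (fun δ hδ t ht j hj B V hB1 hB2 hV1 hV2 => by
      have hδp := ((mem_S hY0).1 hδ).2.1
      have htp := ((mem_S hY0).1 ht).2.1
      have htY := ((mem_S hY0).1 ht).1
      have ht0 : (0 : ℝ) < nm t := by exact_mod_cast nm_pos.2 htp.ne_zero
      have ht1 : (1 : ℝ) ≤ nm t := by exact_mod_cast nm_pos.2 htp.ne_zero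
      have hB1' : 1 ≤ B := ht1.trans hB1
      show cM Y₀ (δ, j) t ≤ _
      unfold cM
      split_ifs with h1 h2 h2
      · rw [max_eq_left hB1']
        have e1 : (tau t : ℝ) ≤ Ct * P ^ ε' :=
          (htau t htp.ne_zero).trans (mul_le_mul_of_nonneg_left
            (Real.rpow_le_rpow ht0.le (htY.trans hYP) hε'0.le) (by linarith))
        have e2 : (nm t : ℝ)⁻¹ ≤ 2 / B := by
          rw [inv_le_comm₀ ht0 (by positivity), inv_div]
          rw [div_le_iff₀ (by norm_num)]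
          linarith
        rw [div_eq_mul_inv]
        exact mul_le_mul e1 e2 (by positivity) (by positivity)
      · exfalso
        apply h2
        refine lt_of_lt_of_le h1 ?_
        show (nm j : ℝ) * (nm δ : ℝ) ^ 2 ≤ _
        gcongr
      · positivity
      · exact le_rfl)
    (fun δ hδ B V hB1 hB2 hV1 hV2 t => by
      have hδp := ((mem_S hY0).1 hδ).2.1
      have hδn : (0 : ℝ) < nm δ := by exact_mod_cast nm_pos.2 hδp.ne_zero
      have hV0 : 0 < V := by linarith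
      have hB0 : 0 < B := by linarith
      have hT0 : 0 ≤ (1 + |t|) ^ J := Real.rpow_nonneg (by positivity) _
      split_ifs with hlev
      swap
      · simp only [zero_mul]
        positivity
      have j1 := hJB δ hδ B V hB1 hB2 hV1 hV2 t
      obtain ⟨γ, hγ⟩ : ∃ γ : ℝ, γ = Real.log (nm δ) := ⟨_, rfl⟩
      obtain ⟨v, hv⟩ : ∃ v : ℝ, v = Real.log V := ⟨_, rfl⟩
      obtain ⟨b, hb⟩ : ∃ b : ℝ, b = Real.log B := ⟨_, rfl⟩
      have hv2 : v + 2 * γ ≤ Real.log Z := by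
        have h1 : V * (nm δ : ℝ) ^ 2 ≤ Z := (le_div_iff₀ (by positivity)).mp hV2
        have h2 := Real.log_le_log (by positivity) h1
        rw [Real.log_mul hV0.ne' (by positivity), Real.log_pow] at h2
        push_cast at h2
        rw [hv, hγ]
        exact h2
      have hv3 : Real.log Y₀ ≤ v + 2 * γ := by
        have h2 := Real.log_le_log hY₀ hlev.le
        rw [Real.log_mul hV0.ne' (by positivity), Real.log_pow] at h2
        push_cast at h2
        rw [hv, hγ]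
        exact h2
      have l1 := line δ hδ b v (by rw [hb]; exact Real.log_nonneg hB1)
        (by rw [hv]; exact Real.log_nonneg hV1) (by rw [← hγ]; exact hv2)
        (by rw [← hγ]; exact hv3)
      rw [← hγ, ← hk] at l1
      have hyv : nm δ * (yv K (Real.exp n) δ V)⁻¹ =
          Real.exp (γ - ((k + v) / 3 - 2 / 3 * (n - γ))) := by
        rw [yv_exp hK hV0 n hδp.ne_zero, ← Real.exp_neg, hk, hv, hγ]
        calc (nm δ : ℝ) * Real.exp (-((Real.log K + Real.log V) / 3 -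
              2 / 3 * (n - Real.log (nm δ)))) =
              Real.exp (Real.log (nm δ)) * Real.exp (-((Real.log K + Real.log V) / 3 -
              2 / 3 * (n - Real.log (nm δ)))) := by rw [Real.exp_log hδn]
          _ = _ := by rw [← Real.exp_add]; congr 1
      have hB3 : 2 / max B 1 = 2 * Real.exp (-b) := by
        rw [max_eq_left hB1, Real.exp_neg, hb, Real.exp_log hB0, div_eq_mul_inv]
      have hδ1 : M / nm δ = 2 * Ct * P ^ ε' * (F * Real.exp (m + h / 3 - γ)) := by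
        rw [hM, Real.exp_sub, hγ, Real.exp_log hδn]
        ring
      rw [← hγ, ← hb, ← hv] at j1
      have hyn : 0 ≤ nm δ * (yv K (Real.exp n) δ V)⁻¹ := by rw [hyv]; positivity
      calc Ct * P ^ ε' * (2 / max B 1) * (nm δ * (yv K (Real.exp n) δ V)⁻¹) *
            JB Y al (fun _ => True) δ B V t ≤
          Ct * P ^ ε' * (2 / max B 1) * (nm δ * (yv K (Real.exp n) δ V)⁻¹) *
            (F * Real.exp (Sh γ b v) * (1 + |t|) ^ J) :=
            mul_le_mul_of_nonneg_left j1 (mul_nonneg (by positivity) hyn)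
        _ = 2 * Ct * P ^ ε' * (F * (Real.exp (-b) *
            Real.exp (γ - ((k + v) / 3 - 2 / 3 * (n - γ))) * Real.exp (Sh γ b v))) *
              (1 + |t|) ^ J := by rw [hyv, hB3]; ring
        _ = 2 * Ct * P ^ ε' * (F * Real.exp (-b + (γ - ((k + v) / 3 - 2 / 3 * (n - γ))) +
              Sh γ b v)) * (1 + |t|) ^ J := by rw [← Real.exp_add, ← Real.exp_add]
        _ ≤ 2 * Ct * P ^ ε' * (F * Real.exp (m + h / 3 - γ)) * (1 + |t|) ^ J := by
            have e1 : Real.exp (-b + (γ - ((k + v) / 3 - 2 / 3 * (n - γ))) + Sh γ b v) ≤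
                Real.exp (m + h / 3 - γ) := Real.exp_le_exp.2 (by linarith)
            gcongr
        _ = M / nm δ * (1 + |t|) ^ J := by rw [hδ1])
  -- the main form
  have f1 := H₁ Y (Real.exp n) K hY0 (Real.exp_pos n) hK al hadm (JW D Y₀ Z) (okJ_JW D Y₀ Z)
    (cM Y₀) (cM_nonneg Y₀)
  rw [← M2s_cM] at f1
  have f2 : ‖X2 Y E0 (JW D Y₀ Z) om al‖ ≤ HS Y * M2s Y (JW D Y₀ Z) al :=
    X2_le_s hY0 E0 (JW D Y₀ Z) hom al
  have f3 : HS Y ≤ 200 * C₃ * P ^ ε' := by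
    have g1 := DgB829.HS_le hY1
    have g2 := H₃ Y hY1
    rw [pow_one] at g2
    have g3 : Y ^ ε' ≤ P ^ ε' := Real.rpow_le_rpow hY0 hYP hε'0.le
    calc HS Y ≤ 200 * (1 + Real.log Y) := g1
      _ ≤ 200 * (C₃ * Y ^ ε') := by linarith
      _ ≤ 200 * (C₃ * P ^ ε') := by
          have : 0 ≤ C₃ := by linarith
          gcongr
      _ = _ := by ring
  have hc3 : 0 ≤ c3 w K := c3_nonneg hw0 hK
  have hKX : 0 ≤ K / Real.exp n := by positivity
  have hM2 := M2s_nonneg Y (JW D Y₀ Z) al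
  have hHS := HS_nonneg Y
  have f4 : c3 w K * (HS Y * M2s Y (JW D Y₀ Z) al) ≤ kap0 * mel w (2 / 3) *
      ((200 * C₃ * P ^ ε') * (C₁ * (K / Real.exp n) * (C₂ * P ^ ε' * M))) := by
    have e1 : c3 w K * (HS Y * M2s Y (JW D Y₀ Z) al) = kap0 * mel w (2 / 3) *
        (HS Y * (K ^ (2 / 3 : ℝ) * M2s Y (JW D Y₀ Z) al)) := by
      unfold c3; ring
    rw [e1]
    refine mul_le_mul_of_nonneg_left ?_ hkap
    have e2 : K ^ (2 / 3 : ℝ) * M2s Y (JW D Y₀ Z) al ≤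
        C₁ * (K / Real.exp n) * (C₂ * P ^ ε' * M) :=
      f1.trans (mul_le_mul_of_nonneg_left key (by positivity))
    exact mul_le_mul f3 e2 (by positivity) (by
      have : 0 ≤ C₃ := by linarith
      positivity)
  have f5 : ‖((pC * c3 w K : ℝ) : ℂ) * X2 Y E0 (JW D Y₀ Z) om al‖ ≤
      pC * (c3 w K * (HS Y * M2s Y (JW D Y₀ Z) al)) := by
    rw [norm_mul, Complex.norm_real, Real.norm_of_nonneg (mul_nonneg hpC.le hc3), mul_assoc]
    exact mul_le_mul_of_nonneg_left (mul_le_mul_of_nonneg_left f2 hc3) hpC.le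
  have f6 := f5.trans (mul_le_mul_of_nonneg_left f4 hpC.le)
  refine (mul_le_mul_of_nonneg_left f6 (Real.exp_pos _).le).trans (le_of_eq ?_)
  have e3 : Real.exp (-(h / 3)) * Real.exp (m + h / 3) = Real.exp m := by
    rw [← Real.exp_add]; congr 1; ring
  rw [hM, ← hPe]
  calc _ = pC * (kap0 * mel w (2 / 3)) * (200 * C₃ * (C₁ * (C₂ * (2 * Ct)))) *
        (P ^ ε' * P ^ ε' * P ^ ε') * (K / Real.exp n) *
        (F * (Real.exp (-(h / 3)) * Real.exp (m + h / 3))) := by ring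
    _ = _ := by rw [e3]

end Crest.Agent.R017.MnJ829
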