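import Crest.Agent.R017.E3Nz_744

/-!
# Row 17, T.4 (helper829): the real lines of the main forms of a level

* `mn_nat` : the number of the lists;  `mn_bias` : the bias number
* `mn_sh` : both, for `shB s0 n (lf + ShT ..)`
-/

set_option autoImplicit false

noncomputable section

namespace Crest.Agent.R017.MnR829

open Crest.Agent.R017.TM708 (eF eH)
open Crest.Agent.R017.E3N146 (ShT)
open Crest.Agent.R017.I1K764 (bcx)
open Crest.Agent.R017.P10X764 (shB)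

theorem mn_nat {l n k5 x um γ b v i η t : ℝ} (γ0 : 0 ≤ γ) (b0 : 0 ≤ b) (v0 : 0 ≤ v)
    (t1 : 1 ≤ t) (hv : v ≤ 1 + i - 2 * γ) (η0 : 0 ≤ η) (hη : 2 * n - l - i - t ≤ η)
    (hi : i ≤ 2 / 3 * l + t) (hn : l / 3 - t ≤ n) :
    -(η / 3) + 2 / 3 * l - i / 3 + ShT k5 x um n γ b v + 2 * γ - b ≤
      l + 4 / 3 * n + max 0 (k5 - l) + 4 * t := by
  have h1 : ShT k5 x um n γ b v ≤ eH (k5 + b / 2) (v + b) (n - γ - b) := min_le_left _ _
  have m0 := le_max_left 0 (k5 - l)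
  have m1 := le_max_right 0 (k5 - l)
  have key : eH (k5 + b / 2) (v + b) (n - γ - b) ≤
      l + 4 / 3 * n + max 0 (k5 - l) + 4 * t - (-(η / 3) + 2 / 3 * l - i / 3 + 2 * γ - b) := by
    unfold TM708.eH TM708.eF
    refine max_le (max_le ?_ ?_) ?_
    · linarith
    · rcases max_cases (k5 + b / 2) (3 / 2 * (v + b)) with ⟨e, _⟩ | ⟨e, _⟩ <;> rw [e] <;> linarith
    · linarith
  linarith

theorem mn_bias {l n s0 L₀ γ b v i η t : ℝ} (γ0 : 0 ≤ γ) (b0 : 0 ≤ b)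
    (t1 : 1 ≤ t) (hv : v ≤ 1 + i - 2 * γ) (η0 : 0 ≤ η)
    (hb : i + n - l ≤ 3 * s0 + 3 * L₀ + 3 * t) :
    -(η / 3) + 2 / 3 * l - i / 3 + (5 / 3 * n + bcx s0 γ b v) + 2 * γ - b ≤
      l + 4 / 3 * n + L₀ + 4 * t := by
  unfold I1K764.bcx
  have h1 := le_max_right 0 (s0 - (γ + b))
  linarith

/-- **both lines** : number `lf + ShT` of the lists, bias -/
theorem mn_sh {l n k5 x um s0 L₀ lf γ b v i η t : ℝ} (γ0 : 0 ≤ γ) (b0 : 0 ≤ b) (v0 : 0 ≤ v)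
    (t1 : 1 ≤ t) (hv : v ≤ 1 + i - 2 * γ) (η0 : 0 ≤ η) (hη : 2 * n - l - i - t ≤ η)
    (hi : i ≤ 2 / 3 * l + t) (hn : l / 3 - t ≤ n) (hlf : lf + max 0 (k5 - l) ≤ L₀ + t)
    (hb : i + n - l ≤ 3 * s0 + 3 * L₀ + 3 * t) :
    -(η / 3) + 2 / 3 * l - i / 3 + shB s0 n (fun γ b v => lf + ShT k5 x um n γ b v) γ b v +
      2 * γ - b ≤ l + 4 / 3 * n + L₀ + 5 * t := by
  have h1 := mn_nat (k5 := k5) (x := x) (um := um) γ0 b0 v0 t1 hv η0 hη hi hn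
  have h2 := mn_bias γ0 b0 t1 hv η0 hb
  have key : shB s0 n (fun γ b v => lf + ShT k5 x um n γ b v) γ b v ≤
      l + 4 / 3 * n + L₀ + 5 * t - (-(η / 3) + 2 / 3 * l - i / 3 + 2 * γ - b) := by
    unfold P10X764.shB
    exact max_le (by linarith) (by linarith)
  linarith

end Crest.Agent.R017.MnR829
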