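import Crest.Agent.R017.P10Sb_764
import Crest.Agent.R017.E2La_764
import Crest.Agent.R017.E3Ny_744
import Crest.Agent.R017.MnJ_829
import Crest.Agent.R017.MnR_829

/-!
# Row 17, exceptional class, P1X (helper829): the main forms of the levels, single lists

* `MnSg`  : the sum over the levels of `e^(-et/3) ‖main form‖`, any `et`
* **`mnS_of`** : its number from helper744's `CBA` and the bias line `BTlS`
-/

set_option autoImplicit false
set_option linter.unusedSectionVars false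
set_option linter.unusedVariables false

noncomputable section

open Finset MeasureTheory
open scoped ComplexConjugate Classical

namespace Crest.Agent.R017.MnS829

open Crest.Agent.R012 Crest.Agent.R012.Eis Crest.Agent.R012.MC Crest.Agent.R012.Gauss880
open Crest.Agent.R012.LS2 (S mem_S)
open Crest.Agent.R012.Weight600 (osc norm_osc osc_add_right)
open Crest.Agent.R017.CM106 (CS FS TG)
open Crest.Agent.R017.C70
open Crest.Agent.R017.HP842 (Pc pc sqc alL)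
open Crest.Agent.R017.B770
open Crest.Agent.R017.FE47 (PU cx SM)
open Crest.Agent.R017.Prov71
open Crest.Agent.R017.Leg381 (Pf alF SF LF natl alF_natl)
open Crest.Agent.R017.I1146 hiding cN
open Crest.Agent.R017.I1K764
open Crest.Agent.R017.XG702 (Pcs)
open Crest.Agent.R017.XT71 (Sys Win mx)
open Crest.Agent.R017.UM71 Crest.Agent.R017.End699
open Crest.Agent.R017.E5B71 Crest.Agent.R017.E5P571 Crest.Agent.R017.E5L770
open Crest.Agent.R017.ExBox960 Crest.Agent.R017.ExP960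
open Crest.Agent.R017.Sf770
open Crest.Agent.R017.P1e54 Crest.Agent.R017.P1f54 Crest.Agent.R017.P1k54
open Crest.Agent.R017.P1l54 (ParOK)
open Crest.Agent.R017.P1X960
open Crest.Agent.R017.P10X764
open Crest.Agent.R017.PX764 (Dk)
open Crest.Agent.R017.TM708 (PD R5)
open Crest.Agent.R017.E3N146 (ShT lipS_ShT)
open Crest.Agent.R017.E3Nx744 (CBA jbc_x)
open Crest.Agent.R017.TNj90 (JBc)
open Crest.Agent.R017.MnJ829 (x2_jbc)
open Crest.Agent.R017.MnR829 (mn_sh)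
open Crest.Agent.R017.E1551 (Adm)

/-- the main forms of the levels, single list, any shift `et` -/
def MnSg {Λ : Type*} (π : Λ → DPar) (h : ℝ → ℝ) (e0 c : ℝ) (et : BcX → List Pq → ℕ → ℝ) (Rh : ℝ)
    (R : Λ → ℝ) (lam : Λ × Eis) (a : BcX) (qs : List Pq) : ℝ :=
  if okCX (π lam.1) lam.2 a qs then
    ∑ i ∈ range (nw c a), Real.exp (-(et a qs i / 3)) *
      ‖((pC * c3 (wM (R lam.1)) (Real.exp a.1.l) : ℝ) : ℂ) *
        X2 (YcX Rh a qs) (Real.exp (e0 * a.1.l)) (JS (nw c a)) (omL i) (alS π h lam a qs)‖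
  else 0

/-- other pairs, same coefficients -/
theorem X2_swap {Y E0 : ℝ} {J J' : Finset (Eis × Eis)} {om : Eis × Eis → ℂ}
    (h : ∀ x ∈ J, om x ≠ 0 → x ∈ J') (α : Eis → ℂ) :
    X2 Y E0 J om α = X2 Y E0 J' (fun x => if x ∈ J then om x else 0) α := by
  have h1 : X2 Y E0 J om α = X2 Y E0 (J ∩ J') om α := by
    unfold I1146.X2
    refine (Finset.sum_subset Finset.inter_subset_left fun x hx hx' => ?_).symm
    have h2 : om x = 0 := by
      by_contra h3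
      exact hx' (Finset.mem_inter.2 ⟨hx, h x hx h3⟩)
    rw [h2]
    simp
  have h2 : X2 Y E0 J' (fun x => if x ∈ J then om x else 0) α =
      X2 Y E0 (J ∩ J') (fun x => if x ∈ J then om x else 0) α := by
    unfold I1146.X2
    refine (Finset.sum_subset Finset.inter_subset_right fun x hx hx' => ?_).symm
    have h3 : x ∉ J := fun h4 => hx' (Finset.mem_inter.2 ⟨h4, hx⟩)
    have h4 : (fun x => if x ∈ J then om x else 0 : Eis × Eis → ℂ) x = 0 := if_neg h3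
    rw [h4]
    simp
  rw [h1, h2]
  unfold I1146.X2
  refine Finset.sum_congr rfl fun x hx => ?_
  have h4 : (fun x => if x ∈ J then om x else 0 : Eis × Eis → ℂ) x = om x :=
    if_pos (Finset.mem_inter.1 hx).1
  rw [h4]

/-- the pairs of a smooth level (helper385's `jw_omL`) -/
theorem jw_omL' {n j : ℕ} {x : Eis × Eis} (hx : x ∈ JS n) (h : omL j x ≠ 0) :
    x ∈ JW (Real.sqrt (2 ^ n)) (2 ^ j / 4) (min (2 ^ (j + 1)) (2 ^ n)) := by
  have h1 := omL_supp h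
  rw [abs_le] at h1
  unfold Sf770.JS C70.JW at hx
  rw [mem_filter, mem_product, mem_primBall, mem_ball] at hx
  obtain ⟨⟨h2, h3⟩, h4, h5, h6, h7⟩ := hx
  have h8 : nm (x.2 * x.1 ^ 2) ≠ 0 := by
    intro h0
    rw [h0] at h6
    norm_num at h6
  have h9 : x.2 * x.1 ^ 2 ≠ 0 := by
    intro h0
    rw [h0, nm_zero] at h8
    exact h8 rfl
  have h10 : (0 : ℝ) < nm (x.2 * x.1 ^ 2) := by exact_mod_cast Nat.pos_of_ne_zero h8
  have hl2 : 0 < Real.log 2 := Real.log_pos (by norm_num)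
  have e1 : lv x = Real.log (nm (x.2 * x.1 ^ 2)) := rfl
  rw [e1] at h1
  have h11 : (nm (x.2 * x.1 ^ 2) : ℝ) ≤ 2 ^ (j + 1) := by
    rw [← Real.log_le_log_iff h10 (by positivity), Real.log_pow]
    push_cast
    linarith
  have h12 : (2 : ℝ) ^ j / 4 < nm (x.2 * x.1 ^ 2) := by
    rw [← Real.log_lt_log_iff (by positivity) h10, Real.log_div (by positivity) (by norm_num),
      Real.log_pow, show (4 : ℝ) = 2 ^ 2 by norm_num, Real.log_pow]
    push_cast
    linarith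
  have h13 : (nm x.2 : ℝ) ≤ nm (x.2 * x.1 ^ 2) := by
    exact_mod_cast Div277.nm_le_of_dvd h9 (dvd_mul_right _ _)
  unfold C70.JW
  rw [mem_filter, mem_product, mem_primBall, mem_ball]
  exact ⟨⟨h2, Nat.le_floor (h13.trans (le_min h11 h7))⟩, h4, h5, h12, le_min h11 h7⟩

theorem norm_omL' (i : ℕ) (x : Eis × Eis) : ‖omL i x‖ ≤ 1 := by
  unfold E5L770.omL E5L770.wL FE47.hD
  rw [Complex.norm_real, Real.norm_eq_abs, abs_le]
  have h1 := HBI146.cutR_nonneg (Real.exp (lv x - Real.log 2 * i))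
  have h2 := HBI146.cutR_le_one (Real.exp (lv x - Real.log 2 * i))
  have h3 := HBI146.cutR_nonneg (2 * Real.exp (lv x - Real.log 2 * i))
  have h4 := HBI146.cutR_le_one (2 * Real.exp (lv x - Real.log 2 * i))
  constructor <;> linarith

/-- number of levels -/
theorem lev_le {X e : ℝ} (hX : 1 < X) (he : 0 < e) {m : ℕ}
    (h1 : Real.log 2 * (m : ℝ) ≤ Real.log X) :
    (m : ℝ) ≤ (1 + 2 / e) * X ^ e := by
  have h4 := Real.log_two_gt_d9
  have h5 : (0 : ℝ) ≤ m := Nat.cast_nonneg _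
  have h3 : (m : ℝ) ≤ 2 * Real.log X := by nlinarith
  have h6 : Real.log X ≤ X ^ e / e := Real.log_le_rpow_div (by linarith) he
  have h7 : 1 ≤ X ^ e := Real.one_le_rpow hX.le he.le
  calc (m : ℝ) ≤ 2 * (X ^ e / e) + X ^ e := by linarith
    _ = (1 + 2 / e) * X ^ e := by ring

/-- the constants at the end -/
theorem mn_end {X ε Cn Cx Cj C₀ FJ Kn E mm t : ℝ} {m : ℕ} (hX : 1 < X) (hε : 0 < ε)
    (hCx : 0 ≤ Cx) (hCj : 0 ≤ Cj) (hC₀ : 0 ≤ C₀) (hCn : 0 ≤ Cn) (hFJ : 0 ≤ FJ) (hKn : 0 ≤ Kn)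
    (hm : (m : ℝ) ≤ Cn * X ^ (ε / 16))
    (hF : FJ ≤ Cj * (3 * C₀) * Real.exp (3 / 16 * ε * Real.log X))
    (hKm : Kn * Real.exp mm ≤ Real.exp (E * Real.log X + 6 * t))
    (ht : t = ε / 100 * Real.log X)
    (hC : Cn * (Cx * (Cj * (3 * C₀))) ≤ X ^ (ε / 8)) :
    (m : ℝ) * (Cx * X ^ (ε / 16) * Kn * (FJ * Real.exp mm)) ≤ X ^ (E + ε) := by
  have hX0 : 0 < X := by linarith
  have hXexp : ∀ z : ℝ, X ^ z = Real.exp (z * Real.log X) := fun z => by
    rw [Real.rpow_def_of_pos hX0, mul_comm]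
  have hL : 0 < Real.log X := Real.log_pos hX
  have hXe : 0 < X ^ (ε / 16) := by positivity
  have h1 : FJ * (Kn * Real.exp mm) ≤ (Cj * (3 * C₀) * Real.exp (3 / 16 * ε * Real.log X)) *
      Real.exp (E * Real.log X + 6 * t) :=
    mul_le_mul hF hKm (by positivity) (by positivity)
  have h2 : Cx * X ^ (ε / 16) * (FJ * (Kn * Real.exp mm)) ≤ Cx * X ^ (ε / 16) *
      ((Cj * (3 * C₀) * Real.exp (3 / 16 * ε * Real.log X)) *
        Real.exp (E * Real.log X + 6 * t)) := mul_le_mul_of_nonneg_left h1 (by positivity)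
  have h3 := mul_le_mul hm h2 (by positivity) (by positivity)
  calc (m : ℝ) * (Cx * X ^ (ε / 16) * Kn * (FJ * Real.exp mm)) =
        (m : ℝ) * (Cx * X ^ (ε / 16) * (FJ * (Kn * Real.exp mm))) := by ring
    _ ≤ _ := h3
    _ = (Cn * (Cx * (Cj * (3 * C₀)))) * (X ^ (ε / 16) * X ^ (ε / 16) *
          Real.exp (3 / 16 * ε * Real.log X) * Real.exp (E * Real.log X + 6 * t)) := by ring
    _ ≤ X ^ (ε / 8) * (X ^ (ε / 16) * X ^ (ε / 16) *
          Real.exp (3 / 16 * ε * Real.log X) * Real.exp (E * Real.log X + 6 * t)) :=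
        mul_le_mul_of_nonneg_right hC (by positivity)
    _ = Real.exp (ε / 8 * Real.log X + (ε / 16 * Real.log X + ε / 16 * Real.log X +
          3 / 16 * ε * Real.log X + (E * Real.log X + 6 * t))) := by
        rw [hXexp (ε / 8), hXexp (ε / 16), ← Real.exp_add, ← Real.exp_add, ← Real.exp_add,
          ← Real.exp_add]
    _ ≤ Real.exp ((E + ε) * Real.log X) := by
        refine Real.exp_le_exp.2 ?_
        rw [ht]
        have : 0 ≤ ε * Real.log X := by positivity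
        linarith
    _ = X ^ (E + ε) := (hXexp _).symm

variable {Λ : Type*}

set_option maxHeartbeats 4000000 in
/-- **the main forms of the levels, single lists** -/
theorem mnS_of {π : Λ → DPar} {h : ℝ → ℝ} {c₀ : ℝ} (hpu : PU h c₀) (hP : ∀ lam, (π lam).OK)
    {Rh : ℝ} (hRh0 : 0 ≤ Rh) (hRh : ∀ u, cx h u ≠ 0 → |u| ≤ Rh) {e0 : ℝ}
    {c β : ℝ} (hc0 : 0 ≤ c) (hc1 : c ≤ 1) {Par : Set (Fin 3 ⊕ Fin 5 → ℝ)}
    {L0 : (Fin 3 ⊕ Fin 5 → ℝ) → ℝ} (hPar : ∀ p ∈ Par, ParOK p)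
    {D5 : Set (Fin 5 → ℝ)} {ℓ Kf Tf : (Fin 5 → ℝ) → ℝ}
    (hDN : ∀ p : IX5 → ℝ, prX p ∈ Par → ZR β p → bN p ∈ D5)
    (hDR : ∀ p : IX5 → ℝ, prX p ∈ Par → ZR β p → bR p ∈ D5)
    (hR5 : ∀ p : IX5 → ℝ, prX p ∈ Par → ZR β p → R5 (bN p))
    (hKN : ∀ p : IX5 → ℝ, prX p ∈ Par → ZR β p →
      Kf (bN p) = max (cκ (prX p)) (5 / 4 * cN (prX p)))
    (hKR : ∀ p : IX5 → ℝ, prX p ∈ Par → ZR β p →
      Kf (bR p) = max (cκ (prX p)) (5 / 4 * cN (prX p)))
    (hLN : ∀ p : IX5 → ℝ, prX p ∈ Par → ZR β p →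
      max 0 (5 / 4 * cN (prX p) - cκ (prX p)) + ℓ (bN p) ≤ L0 (prX p))
    (hLR : ∀ p : IX5 → ℝ, prX p ∈ Par → ZR β p →
      max 0 (5 / 4 * cN (prX p) - cκ (prX p)) + ℓ (bR p) ≤ L0 (prX p))
    (hθ : ∀ (p : IX5 → ℝ) (v₀ v₁ v₂ b x' : ℝ), ChC c β Par p v₀ v₁ v₂ b x' →
      SinL β p v₀ v₁ v₂ → tpW c p b ≤ max (cκ (prX p)) (5 / 4 * cN (prX p)) -
        cN (prX p) / 2 - cx' (prX p))
    (hTN : ∀ (p : IX5 → ℝ) (v₀ v₁ v₂ b x' : ℝ), ChC c β Par p v₀ v₁ v₂ b x' →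
      SinL β p v₀ v₁ v₂ → tpW c p b ≤ Tf (bN p))
    (hTR : ∀ (p : IX5 → ℝ) (v₀ v₁ v₂ b x' : ℝ), ChC c β Par p v₀ v₁ v₂ b x' →
      SinL β p v₀ v₁ v₂ → tpW c p b ≤ Tf (bR p))
    (hcb : CBA π h Dk Kf Tf D5 ℓ) {Tt : (Fin 5 → ℝ) → ℝ} (hbt : BTlS c β Par L0 Tt)
    {et : BcX → List Pq → ℕ → ℝ} (het0 : ∀ a qs i, 0 ≤ et a qs i)
    (het : ∀ a qs (i : ℕ), 2 * LN (clN a qs) - a.1.l - Real.log 2 * i ≤ et a qs i)
    (R : Λ → ℝ) (hR : ∀ lam, 0 ≤ R lam) :
    UB S8X Dq (MnSg π h e0 c et Rh R) (Dom8X c β Par (SinL β)) ∅ (E8X L0) := by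
  intro ε hε
  obtain ⟨τ₁, hτ₁, -, hcb⟩ := hcb (ε / 16) (by positivity)
  obtain ⟨τ, hτ, hττ₁, hτ8, hτε⟩ : ∃ τ : ℝ, 0 < τ ∧ τ ≤ τ₁ ∧ τ ≤ 1 / 8 ∧ τ ≤ ε / 1000 :=
    ⟨min τ₁ (min (1 / 8) (ε / 1000)), lt_min hτ₁ (lt_min (by norm_num) (by positivity)),
      min_le_left _ _, (min_le_right _ _).trans (min_le_left _ _),
      (min_le_right _ _).trans (min_le_right _ _)⟩
  obtain ⟨δ, hδ, hδτ⟩ : ∃ δ : ℝ, 0 < δ ∧ δ ≤ τ / 100 := ⟨τ / 100, by positivity, le_rfl⟩
  refine ⟨δ, hδ, ?_⟩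
  rintro ⟨lam, s⟩ N B
  -- the constants
  by_cases hs0 : s = 0
  · refine ⟨1, one_pos, 2, by norm_num, ?_⟩
    intro X hX a qs _ _ q _ _ _ _ _
    have : ¬ okCX (π lam) s a qs := fun hok => hok.2.1.1 hs0
    unfold MnSg
    rw [if_neg this]
    positivity
  set B₂ : ℝ := max B 3 with hB₂
  have hBB : B ≤ B₂ := le_max_left _ _
  have hB3 : 3 ≤ B₂ := le_max_right _ _
  have hB0 : 0 < B₂ := by linarith
  obtain ⟨M₁, hcb⟩ := hcb lam N B₂
  set M : ℝ := (M₁ : ℝ) with hM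
  have hM0 : 0 ≤ M := Nat.cast_nonneg M₁
  have hε16 : 0 < ε / 16 := by positivity
  have hsn : (1 : ℝ) ≤ (nm s : ℝ) ^ 2 := one_le_pow₀ (by exact_mod_cast nm_pos.2 hs0)
  obtain ⟨Cj, r, hCj, hr, HJ⟩ := jbc_x hpu (N + 3) (ε := ε / 16) (M := M) (B₂ := B₂) hε16 hM0 hB0
    hsn (Dd := ((ds s).card : ℝ)) (Nat.cast_nonneg _) (L := 3) (by norm_num)
  obtain ⟨X₁, hX₁, hcb⟩ := hcb r hr
  set Jp : ℝ := max (((N + 3 : ℕ) : ℝ) * M) 12 with hJp
  have hJp0 : 0 ≤ Jp := le_trans (by norm_num) (le_max_right _ _)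
  have hRR : (0 : ℝ) ≤ 2 * (((N + 3 : ℕ) : ℝ) * Rh) := by positivity
  obtain ⟨Cx, hCx, HX⟩ := x2_jbc (w := wM (R lam)) (wM_nonneg _) (R := 2 * (((N + 3 : ℕ) : ℝ) * Rh))
    (ε := ε / 16) (J := Jp) (B₂ := B₂) hRR hε16 hJp0 hB0
  obtain ⟨C₀, hC₀, HP⟩ := pbh_one hpu (N + 3) (ε := ε / 16) hε16
  set m₀ : ℝ := (M₁ : ℝ) + 1 with hm₀
  have hm₀1 : 0 < m₀ := by positivity
  obtain ⟨δ', hδ', hdM⟩ : ∃ δ' : ℝ, 0 < δ' ∧ δ' ≤ ε / (16 * m₀) := ⟨_, by positivity, le_rfl⟩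
  set cs : ℝ := Real.log ((nm s : ℝ) ^ 2) with hcs
  have hcs0 : 0 ≤ cs := Real.log_nonneg hsn
  set Cn : ℝ := 1 + 2 / (ε / 16) with hCn
  have hCn1 : 1 ≤ Cn := by
    have : 0 ≤ 2 / (ε / 16) := by positivity
    linarith
  set CC : ℝ := Cn * (Cx * (Cj * (3 * C₀))) + 1 with hCC
  have hCC1 : 1 ≤ CC := by
    have : 0 ≤ Cn * (Cx * (Cj * (3 * C₀))) := by positivity
    linarith
  have hlCC : 0 ≤ Real.log CC := Real.log_nonneg hCC1
  have hlog2 : 0 < Real.log 2 := Real.log_pos (by norm_num)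
  have hlog21 : Real.log 2 ≤ 1 := by
    have := Real.log_two_lt_d9
    linarith
  set Q : ℝ := 2 + (((N + 3 : ℕ) : ℝ) * Rh + 1) + 8 * (Real.log 2 + cs) / τ +
    8 * Real.log CC / ε + 200 / ε with hQ
  have hQ1 : 0 ≤ ((N + 3 : ℕ) : ℝ) * Rh + 1 := by positivity
  have hQ2 : 0 ≤ 8 * (Real.log 2 + cs) / τ := by positivity
  have hQ3 : 0 ≤ 8 * Real.log CC / ε := by positivity
  have hQ4 : 0 ≤ 200 / ε := by positivity
  refine ⟨δ', hδ', max X₁ (Real.exp Q), ?_, ?_⟩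
  · exact lt_of_lt_of_le hX₁ (le_max_left _ _)
  intro X hX a qs hlen hgl q hq hw hm hg hl
  have hX1' : X₁ ≤ X := (le_max_left _ _).trans hX
  have hXQ : Real.exp Q ≤ X := (le_max_right _ _).trans hX
  have hX1 : 1 < X := by linarith
  have hX0 : 0 < X := by linarith
  set L := Real.log X with hL
  have hQL : Q ≤ L := by
    have := Real.log_le_log (Real.exp_pos Q) hXQ
    rwa [Real.log_exp] at this
  have hL2 : 2 ≤ L := by linarith
  have hL0' : 0 < L := by linarith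
  have hX3 : 3 ≤ X := by
    have h1 : Real.exp 2 ≤ X := (Real.exp_le_exp.2 (by linarith)).trans hXQ
    have h2 := Real.add_one_le_exp 2
    linarith
  have hLN' : ((N + 3 : ℕ) : ℝ) * Rh + 1 ≤ L := by linarith
  have hLτ : Real.log 2 + cs ≤ τ / 8 * L := by
    have h1 : 8 * (Real.log 2 + cs) / τ ≤ L := by linarith
    rw [div_le_iff₀ hτ] at h1
    linarith
  have hLC : CC ≤ X ^ (ε / 8) := by
    have h1 : 8 * Real.log CC / ε ≤ L := by linarith
    rw [div_le_iff₀ hε] at h1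
    rw [Real.rpow_def_of_pos hX0, ← hL]
    rw [← Real.exp_log (show 0 < CC by linarith)]
    exact Real.exp_le_exp.2 (by linarith)
  have hLt : 2 ≤ ε / 100 * L := by
    have h1 : 200 / ε ≤ L := by linarith
    rw [div_le_iff₀ hε] at h1
    linarith
  -- not admissible
  by_cases hok : okCX (π lam) s a qs
  swap
  · unfold MnSg
    rw [if_neg hok]
    positivity
  obtain ⟨hbok, hsm, hlmp, hamq, hb0⟩ := hok
  have hok : okCX (π lam) s a qs := ⟨hbok, hsm, hlmp, hamq, hb0⟩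
  -- the window
  obtain ⟨hq1, hq2, hq3, hq4⟩ := hq
  set p : IX5 → ℝ := bp q.1 with hp
  have hpar : prX p ∈ Par := hq1.par
  have hzr : ZR β p := hq1.zr
  have hPp := hPar _ hpar
  have hbN := hDN p hpar hzr
  have hbR := hDR p hpar hzr
  have hRb := hR5 p hpar hzr
  have hLNp := hLN p hpar hzr
  have hLRp := hLR p hpar hzr
  have hKNp := hKN p hpar hzr
  have hKRp := hKR p hpar hzr
  set κ := cκ (prX p) with hκ
  set NN := cN (prX p) with hNN
  set xx := cx' (prX p) with hxx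
  set v₀ := q.1 (.inr 0) with hv₀
  set v₁ := q.1 (.inr 1) with hv₁
  set v₂ := q.1 (.inr 2) with hv₂
  set bb := q.1 (.inr 3) with hbb
  set x' := q.2 .am with hx'
  have hev : ∀ i, |S8X.ev X a i - q.1 i| ≤ δ := hw.ev
  have hdiv : ∀ {z c : ℝ}, |z / L - c| ≤ δ → |z - c * L| ≤ δ * L := by
    intro z c h1
    have h2 : z - c * L = (z / L - c) * L := by field_simp
    rw [h2, abs_mul, abs_of_pos hL0']
    exact mul_le_mul_of_nonneg_right h1 hL0'.le
  have hk : |a.1.l - κ * L| ≤ δ * L := hdiv (hev (.inl (.inl (.inl 0))))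
  have hz : |a.1.z - xx * L| ≤ δ * L := hdiv (hev (.inl (.inl (.inl 1))))
  have hu2 : |(a.1.us 2).z - cu (prX p) 2 * L| ≤ δ * L := hdiv (hev (.inl (.inl (.inr 2))))
  have hu3 : |(a.1.us 3).z - cu (prX p) 3 * L| ≤ δ * L := hdiv (hev (.inl (.inl (.inr 3))))
  have hu4 : |(a.1.us 4).z - cu (prX p) 4 * L| ≤ δ * L := hdiv (hev (.inl (.inl (.inr 4))))
  have hzs : |a.1.zs 2 - p (.inr 1) * L| ≤ δ * L := hdiv (hev (.inl (.inr 1)))
  have hv0 : |(a.2.1 0).z - v₀ * L| ≤ δ * L := hdiv (hev (.inr 0))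
  have hv1 : |(a.2.1 1).z - v₁ * L| ≤ δ * L := hdiv (hev (.inr 1))
  have hv2 : |(a.2.1 2).z - v₂ * L| ≤ δ * L := hdiv (hev (.inr 2))
  have hbw : |a.2.2 - bb * L| ≤ δ * L := hdiv (hev (.inr 3))
  have hma : |LN qs - x' * L| ≤ δ * L := by
    have h1 := hm .am
    rw [mass_am hamq] at h1
    exact hdiv h1
  have hA : |a3 a.1.toBd - NN * L| ≤ 3 * (δ * L) := by
    have e1 : a3 a.1.toBd - NN * L = ((a.1.us 2).z - cu (prX p) 2 * L) +
        ((a.1.us 3).z - cu (prX p) 3 * L) + ((a.1.us 4).z - cu (prX p) 4 * L) := by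
      rw [hNN]; unfold E5L770.a3 cN; ring
    rw [e1]
    refine (abs_add_le _ _).trans ?_
    have := abs_add_le ((a.1.us 2).z - cu (prX p) 2 * L) ((a.1.us 3).z - cu (prX p) 3 * L)
    linarith
  obtain ⟨k1, k2⟩ := abs_le.1 hk
  obtain ⟨z1, z2⟩ := abs_le.1 hz
  obtain ⟨u21, u22⟩ := abs_le.1 hu2
  obtain ⟨zs1, zs2⟩ := abs_le.1 hzs
  obtain ⟨v01, v02⟩ := abs_le.1 hv0
  obtain ⟨v11, v12⟩ := abs_le.1 hv1
  obtain ⟨v21, v22⟩ := abs_le.1 hv2
  obtain ⟨m1, m2⟩ := abs_le.1 hma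
  obtain ⟨A1, A2⟩ := abs_le.1 hA
  have htN := hTN p v₀ v₁ v₂ bb x' hq1 hq2
  have htR := hTR p v₀ v₁ v₂ bb x' hq1 hq2
  have hthp := hθ p v₀ v₁ v₂ bb x' hq1 hq2
  obtain ⟨bP, hbP, e0b, e4b, w0, w1, w2, hKP, hLP, htP, hNP⟩ : ∃ bP : Fin 5 → ℝ, bP ∈ D5 ∧
      bP 0 = κ ∧ bP 4 = xx ∧ v₀ ≤ bP 1 ∧ v₁ ≤ bP 2 ∧ v₂ ≤ bP 3 ∧
      Kf bP = max κ (5 / 4 * NN) ∧ max 0 (5 / 4 * NN - κ) + ℓ bP ≤ L0 (prX p) ∧
      tpW c p bb ≤ Tf bP ∧
      bP 1 + bP 2 + bP 3 = NN := by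
    rcases hq2.1 with hh | hh
    · exact ⟨bN p, hbN, rfl, rfl, hh.1, hh.2.1, hh.2.2, hKNp, hLNp, htN, rfl⟩
    · refine ⟨bR p, hbR, rfl, rfl, hh.1, hh.2.1, hh.2.2, hKRp, hLRp, htR, ?_⟩
      show p (.inr 1) + (cu (prX p) 2 + cu (prX p) 3 - p (.inr 1)) + cu (prX p) 4 =
        cu (prX p) 2 + cu (prX p) 3 + cu (prX p) 4
      ring
  have hs1 : bb ≤ NN - (v₀ + v₁ + v₂) := hq1.s1
  have hx1 : x' ≤ xx := hq1.x1
  have hcN : NN = cu (prX p) 2 + cu (prX p) 3 + cu (prX p) 4 := rfl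
  set n := LN (clN a qs) with hn
  have hnz : n = (a.2.1 0).z + (a.2.1 1).z + (a.2.1 2).z + LN qs := LN_clN a qs
  have hLqs : 0 ≤ LN qs := by
    unfold LN
    refine List.sum_nonneg fun x hx => ?_
    obtain ⟨p', hp', rfl⟩ := List.mem_map.1 hx
    exact (hg p' hp').2.2
  have g0 := (hlmp 0).2
  have g1 := (hlmp 1).2
  have g2 := (hlmp 2).2
  have hδL : 0 ≤ δ * L := by positivity
  have w0L := mul_le_mul_of_nonneg_right w0 hL0'.le
  have w1L := mul_le_mul_of_nonneg_right w1 hL0'.le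
  have w2L := mul_le_mul_of_nonneg_right w2 hL0'.le
  have hx1L := mul_le_mul_of_nonneg_right hx1 hL0'.le
  have hq4L := mul_le_mul_of_nonneg_right hq4 hL0'.le
  have hκp : 0 ≤ κ := by linarith [hPp.κ0]
  have hκpL : 0 ≤ κ * L := by positivity
  set sv : ℝ := v₀ + v₁ + v₂ + x' with hsv
  have hnup : n ≤ sv * L + 4 * (δ * L) := by
    rw [hnz, hsv]
    linarith
  have hnlow : sv * L - 4 * (δ * L) ≤ n := by
    rw [hnz, hsv]
    linarith
  have hnlo : (κ / 2 - 2 * xx) * L - 4 * (δ * L) ≤ n := by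
    rw [hnz]
    linarith
  -- the region
  have rN := hRb.hN
  have rx1 := hRb.x1
  have radm := hRb.adm
  have rN : NN ≤ 102 / 125 * κ := rN
  have rx1 : xx ≤ 1 / 36 * κ := rx1
  have radm : xx ≤ 0 ∨ (NN + xx ≤ 4 / 5 * κ ∧ 2 * NN + 5 * xx ≤ 59 / 36 * κ ∧
    2 * NN + 6 * xx ≤ 5 / 3 * κ) := radm
  have hT5 : min (2 * NN - κ) (3 / 4 * NN) + 5 * xx + xx ≤ 2 / 3 * κ := hRb.T5x_le
  set Yt : ℝ := 2 ^ nw c a with hYt
  have hYt0 : 0 < Yt := by positivity
  set y : ℝ := Real.log Yt with hy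
  have hyn : y = Real.log 2 * nw c a := by rw [hy, hYt, Real.log_pow, mul_comm]
  have hy1 : y ≤ max 0 (min (tO a.1.toBd) (tO a.1.toBd + 2 * (c * a.1.l) - 2 * a.2.2)) +
      Real.log 2 := by
    rw [hyn]; exact nW_hi c a
  have hy2 : min (tO a.1.toBd) (tO a.1.toBd + 2 * (c * a.1.l) - 2 * a.2.2) ≤ y := by
    rw [hyn]; exact nW_lo c a
  have htO : |tO a.1.toBd - top5 (prX p) * L| ≤ 10 * (δ * L) := by
    unfold Sf770.tO E5L770.top5
    exact tO_near hL0' hδ.le (by norm_num) (by norm_num) hk hz hA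
  have htt2 : min (2 * NN - κ) (3 / 4 * NN) + 2 * xx ≤ top5 (prX p) := by
    have := hPp.x0
    unfold E5L770.top5
    linarith
  have htt3 : top5 (prX p) ≤ min (2 * NN - κ) (3 / 4 * NN) + 3 * xx := by
    have := hPp.x0
    unfold E5L770.top5
    linarith
  obtain ⟨F1, F2, F3, F4⟩ := frameX (L := L) (δ := δ) (τ := τ) (κ := κ) (N := NN)
    (x := xx) (l := a.1.l) (tO := tO a.1.toBd) (tt := top5 (prX p)) (n := n) (y := y) (cs := cs)
    (e₁ := τ / 4) (c := c) (b := bb) (b' := a.2.2) (sv := sv) hL0' hδ.le hδτ hτ8 rfl hLτ hcs0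
    hc0 hc1 hk htO htt2 htt3 hbw hnup (by rw [hsv]; linarith) hq1.b0 hκp hPp.κ1 hPp.x0
    (by linarith [hPp.N0]) rN rx1 (by rcases radm with h | ⟨h, h', -⟩
                                      · exact Or.inl h
                                      · exact Or.inr ⟨h, h'⟩) hq1.b1 hy1 hy2
  have F5 := frameY (L := L) (δ := δ) (τ := τ) (κ := κ) (N := NN)
    (x := xx) (l := a.1.l) (tO := tO a.1.toBd) (tt := top5 (prX p)) (y := y) (cs := cs)
    (c := c) (b := bb) (b' := a.2.2) hL0' hδ.le hδτ hLτ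
    hc0 hc1 hk htO htt2 hbw hPp.x0 hκp (by linarith [hPp.N0]) hq1.b1 hy1
  have htpW : tpW c p bb = min (top5 (prX p)) (top5 (prX p) + 2 * (c * κ) - 2 * bb) := rfl
  rw [← htpW] at F1 F5
  -- the sets
  set E0 := Real.exp (e0 * a.1.l) with hE0
  set K := Real.exp a.1.l with hK
  have hlT : Real.log (Yt * (nm s : ℝ) ^ 2) = y + cs := by
    rw [Real.log_mul hYt0.ne' (by positivity)]
  -- parent data
  set H : ℝ := X ^ δ' with hH
  have hH1 : 1 ≤ H := Real.one_le_rpow hX1.le hδ'.le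
  have hs1' : ∀ i, Dq.s1 (a.2.1 i) ≤ H := by
    intro i
    have h1 : mx Dq.s1 (List.ofFn a.2.1) ≤ X ^ δ' := (le_max_right _ _).trans hw.s₁
    exact (XT71.le_mx (List.mem_ofFn.2 ⟨i, rfl⟩)).trans h1
  have hs2' : ∀ i, Dq.s2 (a.2.1 i) ≤ X ^ B₂ := by
    intro i
    have h1 : mx Dq.s2 (List.ofFn a.2.1) ≤ X ^ B := (le_max_right _ _).trans hw.s₂
    exact ((XT71.le_mx (List.mem_ofFn.2 ⟨i, rfl⟩)).trans h1).trans
      (Real.rpow_le_rpow_of_exponent_le hX1.le hBB)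
  have hgran : ∀ p' ∈ qs, p'.z ≤ δ * L := by
    intro p' hp'
    rcases hgl p' hp' with h1 | h1
    · exact absurd (hl p' hp' h1) (Set.notMem_empty _)
    · unfold Pcs.nl at h1
      rw [div_le_iff₀ hL0'] at h1
      exact h1
  have hδτL : δ * L ≤ τ / 100 * L := mul_le_mul_of_nonneg_right hδτ hL0'.le
  have hτL : 0 ≤ τ * L := by positivity
  have hττL : τ * L ≤ τ₁ * L := mul_le_mul_of_nonneg_right hττ₁ hL0'.le
  have hτεL : τ * L ≤ ε / 1000 * L := mul_le_mul_of_nonneg_right hτε hL0'.le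
  have ham : ∀ p' ∈ qs, p'.kd = .am ∧ 0 ≤ p'.z ∧ p'.z ≤ τ₁ * Real.log X ∧
      (nm p'.d : ℝ) ≤ X ^ B₂ ∧ 1 + |p'.t| ≤ H := by
    intro p' hp'
    obtain ⟨s1', s2', z0'⟩ := hg p' hp'
    refine ⟨hamq p' hp', z0', ?_, s2'.trans (Real.rpow_le_rpow_of_exponent_le hX1.le hBB), s1'⟩
    rw [← hL]
    have := hgran p' hp'
    linarith
  have hxqs : LN qs ≤ (xx + τ₁) * L := by linarith
  have hkk : |a.1.l - κ * L| ≤ τ₁ * L := hk.trans (by linarith)
  have hkk' : |a.1.l - bP 0 * L| ≤ τ₁ * L := by rw [e0b]; exact hkk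
  have hxqs' : LN qs ≤ (bP 4 + τ₁) * L := by rw [e4b]; exact hxqs
  have hPDP : PD X τ₁ B₂ H N bP 1 a.2.1 qs a.1.l := by
    refine ⟨one_ne_zero, ?_, hH1, fun i => (hlmp i).1, fun i => (hlmp i).2, fun i => hs2' i,
      fun i => hs1' i, ?_, ?_, ?_, ham, hlen, hxqs', hkk'⟩
    · rw [nm_one, Nat.cast_one]
      exact Real.one_le_rpow hX1.le hB0.le
    · rw [← hL]
      linarith
    · rw [← hL]
      linarith
    · rw [← hL]
      linarith
  have hcl : [a.2.1 0, a.2.1 1, a.2.1 2] ++ qs = clN a qs := (clN_eq a qs).symm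
  have hbt1 := hbt.bt p v₀ v₁ v₂ bb x' hq1 hq2
  rw [← hκ] at hbt1
  rw [← hsv] at hbt1
  have hTleP : Real.log (Yt * (nm s : ℝ) ^ 2) ≤ (Tf bP + τ₁) * Real.log X := by
    rw [hlT, ← hL]
    exact F5.trans (mul_le_mul_of_nonneg_right (by linarith) hL0'.le)
  have hTleQ : Real.log (Yt * (nm s : ℝ) ^ 2) ≤
      (Kf bP - (bP 1 + bP 2 + bP 3) / 2 - bP 4 + 3 * 0 + τ₁) * Real.log X := by
    rw [hlT, ← hL, hKP, hNP, e4b]
    refine F5.trans (mul_le_mul_of_nonneg_right ?_ hL0'.le)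
    rw [← hκ, ← hNN, ← hxx] at hthp
    linarith
  set um : ℝ := (a.2.1 2).z with hum
  have hk5 : |k5X a - Kf bP * Real.log X| ≤ τ₁ * Real.log X := by
    rw [← hL, hKP]
    unfold k5X
    rw [max_mul_of_nonneg _ _ hL0'.le]
    refine (abs_max_sub_max_le_max _ _ _ _).trans (max_le ?_ ?_)
    · linarith
    · have e : 5 / 4 * a3 a.1.toBd - 5 / 4 * NN * L = 5 / 4 * (a3 a.1.toBd - NN * L) := by ring
      rw [e, abs_mul, abs_of_pos (by norm_num : (0 : ℝ) < 5 / 4)]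
      linarith
  have hxw : |a.1.z - bP 4 * Real.log X| ≤ τ₁ * Real.log X := by
    rw [← hL, e4b]
    linarith
  have hcell := hcb X hX1' bP hbP 1 a.2.1 qs a.1.l H hPDP _ 0 le_rfl hTleP hTleQ M le_rfl
    (B₂ * Real.log X) (k5X a) a.1.z um hk5 hxw (by
      refine (min_le_right _ _).trans ((min_le_right _ _).trans ?_)
      have : 0 ≤ τ₁ * Real.log X := by rw [← hL]; positivity
      linarith)
  rw [hcl, ← hn] at hcell
  -- the shift
  set ex := max 0 (5 / 4 * NN - κ) with hex'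
  set lf : ℝ := (L0 (prX p) - ex) * L with hlf
  set Sh0 : ℝ → ℝ → ℝ → ℝ := fun γ b v => lf + ShT (k5X a) a.1.z um n γ b v with hSh0
  set Sh : ℝ → ℝ → ℝ → ℝ := shB 0 n Sh0 with hSh
  have hLip0 : LipS 3 Sh0 := by
    intro γ b v b' v'
    have := lipS_ShT (k5X a) a.1.z um n γ b v b' v'
    simp only [hSh0]
    linarith
  have hLip : LipS 3 Sh := lipS_shB hLip0
  set F : ℝ := H ^ M₁ * X ^ (ε / 16) with hF
  have hF0 : 0 ≤ F := by positivity
  have hXexp : ∀ z : ℝ, X ^ z = Real.exp (z * L) := fun z => by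
    rw [Real.rpow_def_of_pos hX0, ← hL, mul_comm]
  have hcell' : CellK Dk h (π lam) 1 (clN a qs) (X ^ B₂) r M
      (Real.log (Yt * (nm s : ℝ) ^ 2)) (B₂ * Real.log X) F Sh := by
    intro g hg' hgG b l ps' hb hbE hl' hch h1 h2
    refine (hcell g hg' hgG b l ps' hb hbE hl' hch h1 h2).trans ?_
    have hc0' : 0 ≤ I1146.cN ps' (clN a qs) ^ M := Real.rpow_nonneg (cN_nonneg _ _) _
    have e1 : H ^ M₁ * X ^ ((0 : ℝ) + ℓ bP + ε / 16) = F * Real.exp (ℓ bP * L) := by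
      rw [hF, mul_assoc, ← hXexp, ← Real.rpow_add hX0]
      congr 2
      ring
    rw [e1]
    have e2 : Real.exp (ℓ bP * L) * Real.exp (ShT (k5X a) a.1.z um n (Real.log (nm g)) b (l - b)) ≤
        Real.exp (Sh (Real.log (nm g)) b (l - b)) := by
      rw [← Real.exp_add]
      refine Real.exp_le_exp.2 (le_trans ?_ (le_max_left _ _))
      have h3 : ℓ bP * L ≤ lf := mul_le_mul_of_nonneg_right (by linarith) hL0'.le
      simp only [hSh0]
      linarith
    calc F * Real.exp (ℓ bP * L) * I1146.cN ps' (clN a qs) ^ M *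
          Real.exp (ShT (k5X a) a.1.z um n (Real.log (nm g)) b (l - b)) =
          F * I1146.cN ps' (clN a qs) ^ M * (Real.exp (ℓ bP * L) *
            Real.exp (ShT (k5X a) a.1.z um n (Real.log (nm g)) b (l - b))) := by ring
      _ ≤ _ := mul_le_mul_of_nonneg_left e2 (by positivity)
  -- the sequence
  have hdom := dom_list (hP lam) h hsm 1 (clN a qs)
  have hlen3 : (clN a qs).length ≤ N + 3 := by
    rw [clN_eq, List.length_append]
    simp only [List.length_cons, List.length_nil]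
    omega
  have hcz : ∀ p' ∈ clN a qs, 0 ≤ p'.z := by
    intro p' hp'
    rw [clN_eq] at hp'
    rcases List.mem_append.1 hp' with h1 | h1
    · simp only [List.mem_cons, List.not_mem_nil, or_false] at h1
      rcases h1 with rfl | rfl | rfl
      · exact g0
      · exact g1
      · exact g2
    · exact (hg p' h1).2.2
  have hczL : ∀ p' ∈ clN a qs, 0 ≤ p'.z ∧ p'.z ≤ Real.log X := by
    intro p' hp'
    refine ⟨hcz p' hp', ?_⟩
    have h1 : p'.z ≤ n := by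
      rw [hn]
      unfold LN
      refine List.single_le_sum ?_ _ (List.mem_map.2 ⟨p', hp', rfl⟩)
      intro x hx
      obtain ⟨p'', hp'', rfl⟩ := List.mem_map.1 hx
      exact hcz p'' hp''
    exact h1.trans F4
  have hn0 : 0 ≤ n := by rw [hnz]; positivity
  have hYc0 : 0 ≤ YcX Rh a qs := (Real.exp_pos _).le
  have hsup : ∀ m, alS π h (lam, s) a qs m ≠ 0 → m ∈ S (YcX Rh a qs) := by
    intro m hm
    have hadm := Adm_list (h := h) (N := (clN a qs).length) hRh0 hRh (π lam) 1 (ps := clN a qs)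
      le_rfl (Y := YcX Rh a qs) (Real.exp_le_exp.2 (by linarith))
    refine hadm.sup m fun h0 => hm ?_
    have := hdom.le m
    rw [h0, norm_zero] at this
    exact norm_le_zero_iff.1 this
  set Yr : ℝ := Real.exp (n + ((N + 3 : ℕ) : ℝ) * Rh + 1) with hYr
  have hYcYr : YcX Rh a qs ≤ Yr := by
    refine Real.exp_le_exp.2 ?_
    have : ((clN a qs).length : ℝ) * Rh ≤ ((N + 3 : ℕ) : ℝ) * Rh :=
      mul_le_mul_of_nonneg_right (by exact_mod_cast hlen3) hRh0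
    linarith
  have hYr1 : 1 ≤ Yr := Real.one_le_exp (by positivity)
  have hYrX : Yr ≤ X ^ B₂ := by
    rw [Real.rpow_def_of_pos hX0, ← hL]
    refine Real.exp_le_exp.2 ?_
    have : L * 3 ≤ L * B₂ := mul_le_mul_of_nonneg_left hB3 hL0'.le
    linarith
  have hadm₀ : Adm Yr (Real.exp n) (2 * (((N + 3 : ℕ) : ℝ) * Rh))
      (sqc 1 (alF 1 1 (π lam) h (natl (clN a qs)))) :=
    Adm_list hRh0 hRh (π lam) 1 hlen3 (Real.exp_le_exp.2 (by rw [← hn]; linarith))
  have hadm : Adm Yr (Real.exp n) (2 * (((N + 3 : ℕ) : ℝ) * Rh)) (alS π h (lam, s) a qs) := by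
    have hne : ∀ m, alS π h (lam, s) a qs m ≠ 0 →
        sqc 1 (alF 1 1 (π lam) h (natl (clN a qs))) m ≠ 0 := by
      intro m hm h0
      apply hm
      have := hdom.le m
      rw [h0, norm_zero] at this
      exact norm_le_zero_iff.1 this
    exact ⟨fun m hm => hadm₀.sup m (hne m hm), fun m hm => hadm₀.win m (hne m hm)⟩
  -- the joint numbers
  have hPB := HP X hX3 (π lam) (hP lam) 1 (clN a qs) hlen3 hcz F4 Jp hJp0 ((X ^ (B₂ + 1)) ^ 2)
  rw [← hn] at hPB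
  have hWX : Yt * (nm s : ℝ) ^ 2 ≤ X := by
    rw [← Real.exp_log (show 0 < Yt * (nm s : ℝ) ^ 2 by positivity), ← Real.exp_log hX0, hlT]
    refine Real.exp_le_exp.2 ?_
    have h1 := le_max_left y (τ / 4 * L + 2 * n - a.1.l)
    linarith
  set Fb : ℝ := C₀ * X ^ (ε / 16) with hFb
  have hFb0 : 0 ≤ Fb := by positivity
  have hJB := HJ X hX3 (π lam) (hP lam) 1 (clN a qs) (clN a qs) hlen3 hlen3 hczL hczL 0
    (by simp) (sqc 1 (alF 1 1 (π lam) h (natl (clN a qs)))) (fun n => by simp) Yr Yt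
    (Real.log (Yt * (nm s : ℝ) ^ 2)) F F (C₀ * X ^ (ε / 16) * Real.exp (5 / 3 * n)) 0 Fb Sh hYr1
    hYrX hWX le_rfl hF0 hF0 (by positivity) hFb0 hLip hcell' hcell' hPB (by
      intro γ b v _ _ _ _ _
      have e1 : C₀ * X ^ (ε / 16) * Real.exp (5 / 3 * n) * Real.exp (bcx 0 γ b v) =
          Fb * Real.exp (5 / 3 * n + bcx 0 γ b v) := by
        rw [hFb, Real.exp_add]
        ring
      rw [e1]
      exact mul_le_mul_of_nonneg_left (Real.exp_le_exp.2 (le_max_right _ _)) hFb0)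
    (alS π h (lam, s) a qs) hdom
  set FJ : ℝ := Cj * X ^ (ε / 16) * (F + F + Fb) with hFJ
  have hFJ0 : 0 ≤ FJ := by positivity
  have hHM : H ^ M₁ ≤ Real.exp (ε / 16 * L) := by
    rw [hH, hXexp, ← Real.exp_nat_mul]
    refine Real.exp_le_exp.2 ?_
    have h1 : δ' * m₀ ≤ ε / 16 := by
      have := mul_le_mul_of_nonneg_right hdM hm₀1.le
      refine this.trans (le_of_eq ?_)
      field_simp
    have h2 : (M₁ : ℝ) * δ' ≤ ε / 16 := by
      refine le_trans ?_ h1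
      rw [mul_comm]
      exact mul_le_mul_of_nonneg_left (by rw [hm₀]; linarith) hδ'.le
    calc (M₁ : ℝ) * (δ' * L) = (M₁ : ℝ) * δ' * L := by ring
      _ ≤ _ := mul_le_mul_of_nonneg_right h2 hL0'.le
  have hXe16 : X ^ (ε / 16) = Real.exp (ε / 16 * L) := hXexp _
  have hC₀1 : 1 ≤ C₀ := hC₀
  have hFJle : FJ ≤ Cj * (3 * C₀) * Real.exp (3 / 16 * ε * L) := by
    have h1 : F ≤ C₀ * Real.exp (2 / 16 * ε * L) := by
      rw [hF, hXe16]
      calc H ^ M₁ * Real.exp (ε / 16 * L) ≤ Real.exp (ε / 16 * L) * Real.exp (ε / 16 * L) := by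
            gcongr
        _ = 1 * Real.exp (2 / 16 * ε * L) := by
            rw [← Real.exp_add, one_mul]; congr 1; ring
        _ ≤ _ := mul_le_mul_of_nonneg_right hC₀1 (Real.exp_pos _).le
    have h2 : Fb ≤ C₀ * Real.exp (2 / 16 * ε * L) := by
      rw [hFb, hXe16]
      refine mul_le_mul_of_nonneg_left (Real.exp_le_exp.2 ?_) (by linarith)
      have : 0 ≤ ε * L := by positivity
      linarith
    rw [hFJ, hXe16]
    calc Cj * Real.exp (ε / 16 * L) * (F + F + Fb) ≤ Cj * Real.exp (ε / 16 * L) *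
          (C₀ * Real.exp (2 / 16 * ε * L) + C₀ * Real.exp (2 / 16 * ε * L) +
            C₀ * Real.exp (2 / 16 * ε * L)) := by gcongr
      _ = Cj * (3 * C₀) * (Real.exp (ε / 16 * L) * Real.exp (2 / 16 * ε * L)) := by ring
      _ = _ := by rw [← Real.exp_add]; congr 2; ring
  -- the lines
  set t : ℝ := ε / 100 * L with ht
  have ht1 : 1 ≤ t := by linarith
  have hεL : 0 ≤ ε * L := by positivity
  have hδt : 100 * (δ * L) ≤ t / 10 := by
    rw [ht]
    linarith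
  have hτt : τ * L ≤ t / 10 := by rw [ht]; linarith
  set mm : ℝ := 2 * n + L0 (prX p) * L + 5 * t with hmm
  have htop : tpW c p bb ≤ 2 / 3 * κ := by
    have h1 : tpW c p bb ≤ top5 (prX p) := min_le_left _ _
    have h2 := hPp.x0
    rw [← hxx] at h2
    linarith
  have htopL := mul_le_mul_of_nonneg_right htop hL0'.le
  have hlev : ∀ i ∈ range (nw c a), Real.exp (-(et a qs i / 3)) *
      ‖((pC * c3 (wM (R lam)) K : ℝ) : ℂ) *
        X2 (YcX Rh a qs) E0 (JS (nw c a)) (omL i) (alS π h (lam, s) a qs)‖ ≤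
      Cx * X ^ (ε / 16) * (K / Real.exp n) * (FJ * Real.exp mm) := by
    intro i hi
    have h2i : (0 : ℝ) < 2 ^ i := by positivity
    set Zi : ℝ := min (2 ^ (i + 1)) (2 ^ nw c a) with hZi
    have hZ0 : 0 < Zi := lt_min (by positivity) (by positivity)
    have hiY : Zi ≤ Yt := min_le_right _ _
    rw [X2_swap (J' := JW (Real.sqrt (2 ^ nw c a)) (2 ^ i / 4) Zi)
      (fun x hx h0 => jw_omL' hx h0)]
    have hprim : ∀ x ∈ JW (Real.sqrt (2 ^ nw c a)) (2 ^ i / 4) Zi, IsPrim x.1 :=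
      fun x hx => (okJ_JW _ _ _).prim x hx
    rw [X2_Y (E0 := E0) hYc0 hYcYr hsup hprim]
    refine HX X hX3 K n Yr (Real.sqrt (2 ^ nw c a)) (2 ^ i / 4) Zi E0 FJ mm (et a qs i) Sh
      (Real.exp_pos _) hYr1 hYrX ?_ (by positivity) hZ0 hFJ0 (alS π h (lam, s) a qs)
      (hJB.mono hiY) hadm _ (fun x => ?_) ?_
    · refine hiY.trans ?_
      have h3 : Yt ≤ X := (le_mul_of_one_le_right hYt0.le hsn).trans hWX
      refine h3.trans ?_
      calc X = X ^ (1 : ℝ) := (Real.rpow_one X).symm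
        _ ≤ X ^ B₂ := Real.rpow_le_rpow_of_exponent_le hX1.le (by linarith)
    · split_ifs
      · exact norm_omL' _ _
      · simp
    · intro d hd b v hb hv hlev1 hlev2
      have hdp := ((mem_S (by linarith : (0 : ℝ) ≤ Yr)).1 hd).2.1
      have hγ : 0 ≤ Real.log (nm d : ℝ) := Real.log_nonneg (by exact_mod_cast nm_pos.2 hdp.ne_zero)
      have hlK : Real.log K = a.1.l := by rw [hK, Real.log_exp]
      have hvy : v + 2 * Real.log (nm d) ≤ y :=
        hlev1.trans (by rw [hy]; exact Real.log_le_log hZ0 hiY)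
      have hvi : Real.log 2 * i ≤ v + 2 * Real.log (nm d) + 2 := by
        rw [Real.log_div h2i.ne' (by norm_num), Real.log_pow, show (4 : ℝ) = 2 ^ 2 by norm_num,
          Real.log_pow] at hlev2
        push_cast at hlev2
        linarith
      have hη := het a qs i
      rw [← hn] at hη
      have key := mn_sh (l := a.1.l) (n := n) (k5 := k5X a) (x := a.1.z) (um := um) (s0 := 0)
        (L₀ := L0 (prX p) * L) (lf := lf) (γ := Real.log (nm d)) (b := b) (v := v)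
        (i := v + 2 * Real.log (nm d)) (η := et a qs i) (t := t) hγ hb hv ht1 (by linarith)
        (het0 a qs i) (by linarith) (by linarith) (by
          have h3 := mul_le_mul_of_nonneg_right rx1 hL0'.le
          linarith) (by
          have h3 : max 0 (k5X a - a.1.l) ≤ ex * L + 5 * (δ * L) := by
            rw [hex', max_mul_of_nonneg _ _ hL0'.le, zero_mul]
            have h1 := le_max_left 0 ((5 / 4 * NN - κ) * L)
            have h2 := le_max_right 0 ((5 / 4 * NN - κ) * L)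
            refine max_le (by linarith) ?_
            unfold k5X
            rcases max_cases a.1.l (5 / 4 * a3 a.1.toBd) with ⟨e, _⟩ | ⟨e, _⟩ <;> rw [e] <;>
              linarith
          rw [hlf]
          linarith) (by
          have h3 : (tpW c p bb + sv - κ) * L ≤ 3 * (L0 (prX p) * L) := by
            have h4 := le_max_left (tpW c p bb) (2 * sv - κ)
            have h5 : tpW c p bb + sv - κ ≤ 3 * L0 (prX p) := by linarith
            have h6 := mul_le_mul_of_nonneg_right h5 hL0'.le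
            linarith
          linarith)
      have e1 : Sh (Real.log (nm d)) b v = shB 0 n (fun γ b v => lf +
        ShT (k5X a) a.1.z um n γ b v) (Real.log (nm d)) b v := rfl
      rw [e1, hlK, hmm]
      linarith
  unfold MnSg
  rw [if_pos hok]
  refine (Finset.sum_le_sum hlev).trans ?_
  rw [Finset.sum_const, card_range, nsmul_eq_mul]
  have hnw : ((nw c a : ℕ) : ℝ) ≤ Cn * X ^ (ε / 16) := by
    refine lev_le hX1 hε16 ?_
    rw [← hL, ← hyn]
    have h2 := le_max_left y (τ / 4 * L + 2 * n - a.1.l)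
    linarith
  have hE8 : E8X L0 q = κ + sv + L0 (prX p) := by
    have h1 : E8X L0 q = κ + (v₀ + v₁ + v₂) + x' + L0 (prX p) := rfl
    rw [h1, hsv]
    ring
  have hKm : K / Real.exp n * Real.exp mm ≤
      Real.exp ((κ + sv + L0 (prX p)) * L + 6 * t) := by
    rw [hK, ← Real.exp_sub, ← Real.exp_add]
    refine Real.exp_le_exp.2 ?_
    rw [hmm]
    linarith
  rw [hE8]
  exact mn_end hX1 hε (by positivity) (by positivity) (by linarith) (by linarith) hFJ0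
    (by positivity) hnw hFJle hKm ht
    (by linarith)

end Crest.Agent.R017.MnS829
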