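import Crest.Agent.R017.MnS_829
import Crest.Agent.R017.E2G_764

/-!
# Row 17, exceptional class, P1X (helper829): helper764's `MnGU` for the single lists
-/

set_option autoImplicit false
set_option linter.unusedSectionVars false
set_option linter.unusedVariables false

noncomputable section

open Finset MeasureTheory
open scoped ComplexConjugate Classical

namespace Crest.Agent.R017.MnS829

open Crest.Agent.R012 Crest.Agent.R012.Eis Crest.Agent.R012.MC Crest.Agent.R012.Gauss880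
open Crest.Agent.R017.B770
open Crest.Agent.R017.FE47 (PU cx SM)
open Crest.Agent.R017.Prov71
open Crest.Agent.R017.I1146 (LN)
open Crest.Agent.R017.XG702 (Pcs)
open Crest.Agent.R017.XT71 (Sys Win mx)
open Crest.Agent.R017.UM71 Crest.Agent.R017.End699
open Crest.Agent.R017.E5B71 Crest.Agent.R017.E5P571 Crest.Agent.R017.E5L770
open Crest.Agent.R017.ExBox960 Crest.Agent.R017.ExP960
open Crest.Agent.R017.Sf770
open Crest.Agent.R017.P1e54 Crest.Agent.R017.P1f54 Crest.Agent.R017.P1k54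
open Crest.Agent.R017.P1l54 (ParOK)
open Crest.Agent.R017.P1X960
open Crest.Agent.R017.P10X764
open Crest.Agent.R017.PX764 (Dk)
open Crest.Agent.R017.TM708 (R5)
open Crest.Agent.R017.E3Nx744 (CBA)

/-- **`MnGU` of the single lists** -/
theorem mnGU_S {Λ : Type*} {π : Λ → DPar} {h : ℝ → ℝ} {c₀ : ℝ} (hpu : PU h c₀)
    (hP : ∀ lam, (π lam).OK) {Rh : ℝ} (hRh0 : 0 ≤ Rh) (hRh : ∀ u, cx h u ≠ 0 → |u| ≤ Rh)
    {e0 : ℝ} {c β : ℝ} (hc0 : 0 ≤ c) (hc1 : c ≤ 1) {Par : Set (Fin 3 ⊕ Fin 5 → ℝ)}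
    {L0 : (Fin 3 ⊕ Fin 5 → ℝ) → ℝ} (hPar : ∀ p ∈ Par, ParOK p)
    {D5 : Set (Fin 5 → ℝ)} {ℓ Kf Tf : (Fin 5 → ℝ) → ℝ}
    (hDN : ∀ p : IX5 → ℝ, prX p ∈ Par → ZR β p → bN p ∈ D5)
    (hDR : ∀ p : IX5 → ℝ, prX p ∈ Par → ZR β p → bR p ∈ D5)
    (hR5 : ∀ p : IX5 → ℝ, prX p ∈ Par → ZR β p → R5 (bN p))
    (hKN : ∀ p : IX5 → ℝ, prX p ∈ Par → ZR β p →
      Kf (bN p) = max (cκ (prX p)) (5 / 4 * cN (prX p)))
    (hKR : ∀ p : IX5 → ℝ, prX p ∈ Par → ZR β p →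
      Kf (bR p) = max (cκ (prX p)) (5 / 4 * cN (prX p)))
    (hLN : ∀ p : IX5 → ℝ, prX p ∈ Par → ZR β p →
      max 0 (5 / 4 * cN (prX p) - cκ (prX p)) + ℓ (bN p) ≤ L0 (prX p))
    (hLR : ∀ p : IX5 → ℝ, prX p ∈ Par → ZR β p →
      max 0 (5 / 4 * cN (prX p) - cκ (prX p)) + ℓ (bR p) ≤ L0 (prX p))
    (hθ : ∀ (p : IX5 → ℝ) (v₀ v₁ v₂ b x' : ℝ), ChC c β Par p v₀ v₁ v₂ b x' →
      SinL β p v₀ v₁ v₂ → tpW c p b ≤ max (cκ (prX p)) (5 / 4 * cN (prX p)) -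
        cN (prX p) / 2 - cx' (prX p))
    (hTN : ∀ (p : IX5 → ℝ) (v₀ v₁ v₂ b x' : ℝ), ChC c β Par p v₀ v₁ v₂ b x' →
      SinL β p v₀ v₁ v₂ → tpW c p b ≤ Tf (bN p))
    (hTR : ∀ (p : IX5 → ℝ) (v₀ v₁ v₂ b x' : ℝ), ChC c β Par p v₀ v₁ v₂ b x' →
      SinL β p v₀ v₁ v₂ → tpW c p b ≤ Tf (bR p))
    (hcb : CBA π h Dk Kf Tf D5 ℓ) {Tt : (Fin 5 → ℝ) → ℝ} (hbt : BTlS c β Par L0 Tt)
    {et : BcX → List Pq → ℕ → ℝ} (het0 : ∀ a qs i, 0 ≤ et a qs i)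
    (het : ∀ a qs (i : ℕ), 2 * LN (clN a qs) - a.1.l - Real.log 2 * i ≤ et a qs i) :
    E2G764.MnGU (alS π h) (fun lam a qs => okCX (π lam.1) lam.2 a qs) e0 c et β Par (SinL β) L0
      Rh := fun R hR =>
  mnS_of hpu hP hRh0 hRh (e0 := e0) hc0 hc1 hPar hDN hDR hR5 hKN hKR hLN hLR hθ hTN hTR hcb hbt het0 het R
    hR

end Crest.Agent.R017.MnS829
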