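import Crest.Agent.R017.E3Eu_579
import Crest.Agent.R017.LBX_180

/-!
# Row 17, exceptional class, P1X (helper385): the main form of one level from the joint numbers

* `X2_TF` : `X2` on a level by `TF (-1)`
* `mn_lev` : the main form with the factor `exp (-(η / 3))`
-/

set_option autoImplicit false
set_option linter.unusedVariables false

noncomputable section

open Finset MeasureTheory
open scoped ComplexConjugate Classical

namespace Crest.Agent.R017.MnX385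

open Crest.Agent.R012 Crest.Agent.R012.Eis Crest.Agent.R012.MC
open Crest.Agent.R012.LS2 (S mem_S)
open Crest.Agent.R012.Mob705 (kap0)
open Crest.Agent.R012.Div277 (tau)
open Crest.Agent.R017.C70
open Crest.Agent.R017.E1551 hiding tau Dg XT BT
open Crest.Agent.R017.E2440 (TE)
open Crest.Agent.R017.X6C180 (n13 n13_nonneg)
open Crest.Agent.R017.I1146 (X2 c3 c3_nonneg LipS)
open Crest.Agent.R017.DgB829 (HS HS_nonneg HS_le)
open Crest.Agent.R017.LBX180 (M2s M2s_nonneg X2_le_s)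
open Crest.Agent.R017.E3M829 (TF Tal)
open Crest.Agent.R017.E3Kc548 (LI mem_LI card_LI)
open Crest.Agent.R017.TNj90 (JBc)
open Crest.Agent.R017.E3Er579 (TFlJ)

/-- only the coefficients which occur -/
lemma X2_restrict {Y E0 : ℝ} {J J' : Finset (Eis × Eis)} {om : Eis × Eis → ℂ}
    (h : ∀ x ∈ J, om x ≠ 0 → x ∈ J') (α : Eis → ℂ) :
    X2 Y E0 J om α = X2 Y E0 (J.filter fun x => x ∈ J') om α := by
  unfold I1146.X2
  rw [Finset.sum_filter]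
  refine Finset.sum_congr rfl fun x hx => ?_
  split_ifs with h1
  · rfl
  · have h2 : om x = 0 := by
      by_contra h3
      exact h1 (h x hx h3)
    rw [h2]
    simp

lemma M2s_mono {Y : ℝ} {J J' : Finset (Eis × Eis)} (h : J ⊆ J') (α : Eis → ℂ) :
    M2s Y J α ≤ M2s Y J' α := by
  unfold LBX180.M2s
  exact Finset.sum_le_sum_of_subset_of_nonneg h fun x _ _ =>
    mul_nonneg (n13_nonneg _) (Finset.sum_nonneg fun _ _ => by positivity)

/-- **`X2` of a level** -/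
theorem X2_TF {ε : ℝ} (hε : 0 < ε) : ∃ C : ℝ, 0 ≤ C ∧ ∀ (Y E0 : ℝ) (J J' : Finset (Eis × Eis))
    (om : Eis × Eis → ℂ) (α : Eis → ℂ), 1 ≤ Y → (∀ x, ‖om x‖ ≤ 1) →
    (∀ x ∈ J, om x ≠ 0 → x ∈ J') →
    ‖X2 Y E0 J om α‖ ≤ C * Y ^ ε * TF (-1) J' (fun _ => 1) Y (Tal α) := by
  obtain ⟨Ct, hCt, hτ⟩ := Div277.tau_le_rpow (show (0 : ℝ) < ε / 2 by positivity)
  refine ⟨200 * (1 + 1 / (ε / 2)) * Ct, by positivity, ?_⟩
  intro Y E0 J J' om α hY hom hJ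
  have hY0 : 0 < Y := by linarith
  rw [X2_restrict hJ α]
  have h1 := X2_le_s hY0.le E0 (J.filter fun x => x ∈ J') hom α
  have h2 : M2s Y (J.filter fun x => x ∈ J') α ≤ M2s Y J' α :=
    M2s_mono (fun x hx => (Finset.mem_filter.1 hx).2) α
  have h3 : M2s Y J' α ≤ Ct * Y ^ (ε / 2) * TF (-1) J' (fun _ => 1) Y (Tal α) := by
    unfold LBX180.M2s E3M829.TF
    rw [Finset.mul_sum]
    refine Finset.sum_le_sum fun x _ => ?_
    have e1 : Ct * Y ^ (ε / 2) * (‖((fun _ => 1 : Eis × Eis → ℂ) x)‖ ^ 2 *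
        ((nm x.2 : ℝ) ^ (-(1 : ℝ) / 3) * ∑ e ∈ S Y, (nm e : ℝ) ^ (-1 : ℝ) *
          ‖Tal α x.1 e x.2‖ ^ 2)) = n13 x.2 * ∑ e ∈ S Y, (Ct * Y ^ (ε / 2)) *
          ((nm e : ℝ) ^ (-1 : ℝ) * ‖Tal α x.1 e x.2‖ ^ 2) := by
      rw [← Finset.mul_sum]
      unfold X6C180.n13
      simp only [norm_one, one_pow, one_mul]
      ring
    rw [e1]
    refine mul_le_mul_of_nonneg_left (Finset.sum_le_sum fun t ht => ?_) (n13_nonneg _)
    have ht' := (mem_S hY0.le).1 ht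
    have hn := nmpos ht'.2.1.ne_zero
    have h4 : (tau t : ℝ) ≤ Ct * Y ^ (ε / 2) := by
      refine (hτ t ht'.2.1.ne_zero).trans ?_
      gcongr
      exact ht'.1
    have e2 : Tal α x.1 t x.2 = TE α x t := rfl
    rw [e2, Real.rpow_neg_one]
    calc (tau t : ℝ) / nm t * ‖TE α x t‖ ^ 2 = (tau t : ℝ) * ((nm t : ℝ)⁻¹ * ‖TE α x t‖ ^ 2) := by
          rw [div_eq_mul_inv]; ring
      _ ≤ _ := mul_le_mul_of_nonneg_right h4 (by positivity)
  have h4 : HS Y ≤ 200 * (1 + 1 / (ε / 2)) * Y ^ (ε / 2) := by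
    refine (HS_le hY).trans ?_
    have h5 := Real.log_le_rpow_div hY0.le (show (0 : ℝ) < ε / 2 by positivity)
    have h6 : 1 ≤ Y ^ (ε / 2) := Real.one_le_rpow hY (by positivity)
    have h7 : Y ^ (ε / 2) / (ε / 2) = 1 / (ε / 2) * Y ^ (ε / 2) := by ring
    rw [h7] at h5
    nlinarith
  have hT : 0 ≤ TF (-1) J' (fun _ => 1) Y (Tal α) := E3M829.TF_nonneg _ _ _ _ _
  calc _ ≤ HS Y * M2s Y (J.filter fun x => x ∈ J') α := h1
    _ ≤ (200 * (1 + 1 / (ε / 2)) * Y ^ (ε / 2)) *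
        (Ct * Y ^ (ε / 2) * TF (-1) J' (fun _ => 1) Y (Tal α)) :=
        mul_le_mul h4 (h2.trans h3) (M2s_nonneg _ _ _) (by positivity)
    _ = 200 * (1 + 1 / (ε / 2)) * Ct * (Y ^ (ε / 2) * Y ^ (ε / 2)) *
        TF (-1) J' (fun _ => 1) Y (Tal α) := by ring
    _ = _ := by
        rw [← Real.rpow_add hY0]
        congr 3
        ring

/-- **the main form of one level** -/
theorem mn_lev {w : ℝ → ℝ} (hw0 : ∀ x, 0 ≤ w x) {R : ℝ} (hR : 0 ≤ R) {ε J B₂ : ℝ} (hε : 0 < ε)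
    (hJ0 : 0 ≤ J) (hB₂ : 0 < B₂) :
    ∃ C : ℝ, 0 ≤ C ∧ ∀ X : ℝ, 3 ≤ X → ∀ (n Y E0 F D Y₀ Y₁ l η : ℝ) (Sh : ℝ → ℝ → ℝ → ℝ),
      1 ≤ Y → Y ≤ X ^ B₂ → 0 < Y₁ → Y₁ ≤ X → Real.exp 1 * (Real.exp 1 * Y₁) ≤ X ^ B₂ → 0 ≤ F →
      ∀ al : Eis → ℂ, JBc Y (Real.exp 1 * (Real.exp 1 * Y₁)) F J Sh al →
      Adm Y (Real.exp n) R al → ∀ (Js : Finset (Eis × Eis)) (om : Eis × Eis → ℂ) (m : ℝ),
      (∀ x, ‖om x‖ ≤ 1) → (∀ x ∈ Js, om x ≠ 0 → x ∈ JW D Y₀ Y₁) →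
      (∀ x ∈ JW D Y₀ Y₁, (nm x.1 : ℝ) ≤ X ^ B₂) →
      (∀ i ∈ LI Y₀ Y₁, ∀ d ∈ (JW D Y₀ Y₁).image Prod.fst, ∀ b v : ℝ, 0 ≤ b → 0 ≤ v →
          v ≤ 1 + i - 2 * Real.log (nm d) →
          -(η / 3) + 2 / 3 * l - i / 3 + Sh (Real.log (nm d)) b v + 2 * Real.log (nm d) - b ≤ m) →
      Real.exp (-(η / 3)) * ‖((pC * c3 w (Real.exp l) : ℝ) : ℂ) * X2 Y E0 Js om al‖ ≤
        C * X ^ ε * F * Real.exp (-(n / 3)) * Real.exp m := by
  have hε2 : 0 < ε / 2 := by positivity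
  obtain ⟨C₁, hC₁, H⟩ := TFlJ hR hε2 hJ0 hB₂ (t := 2) (by norm_num) le_rfl
  obtain ⟨C₂, hC₂, H2⟩ := X2_TF (show (0 : ℝ) < ε / (2 * B₂) by positivity)
  have hpC := Cst401.pC_pos
  have hk := Cst401.kap0_pos
  have hm := Cst401.mel_nonneg hw0
  refine ⟨pC * (kap0 * mel w (2 / 3)) * C₂ * C₁, by positivity, ?_⟩
  intro X hX n Y E0 F D Y₀ Y₁ l η Sh hY hYX hY1 hY1X hWX hF al hjb hadm Js om m hom hJs hJd hline
  have hX0 : 0 < X := by linarith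
  have hA : 0 < Real.exp (-(η / 3)) * Real.exp l ^ (2 / 3 : ℝ) := by positivity
  have hlA : Real.log (Real.exp (-(η / 3)) * Real.exp l ^ (2 / 3 : ℝ)) = -(η / 3) + 2 / 3 * l := by
    rw [Real.log_mul (Real.exp_pos _).ne' (by positivity), Real.log_exp,
      Real.log_rpow (Real.exp_pos _), Real.log_exp]
  have h1 := H X hX n Y Y F D Y₀ Y₁ Sh hY hYX hY1 hY1X hWX (by linarith) hYX hF al hjb hadm
    (fun _ => 1) 1 (Real.exp (-(η / 3)) * Real.exp l ^ (2 / 3 : ℝ)) m zero_le_one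
    (fun x _ => by simp) hJd hA (fun i hi d hd b v hb hv hvi => by
      have := hline i hi d hd b v hb hv hvi
      rw [hlA]
      linarith)
  have h2 := H2 Y E0 Js (JW D Y₀ Y₁) om al hY hom hJs
  have e1 : (1 : ℝ) - 2 = -1 := by norm_num
  rw [e1, one_pow, mul_one] at h1
  have hYe : Y ^ (ε / (2 * B₂)) ≤ X ^ (ε / 2) := by
    calc Y ^ (ε / (2 * B₂)) ≤ (X ^ B₂) ^ (ε / (2 * B₂)) :=
          Real.rpow_le_rpow (by linarith) hYX (by positivity)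
      _ = X ^ (ε / 2) := by
          rw [← Real.rpow_mul hX0.le]
          congr 1
          field_simp
  have hc3 : 0 ≤ c3 w (Real.exp l) := c3_nonneg hw0 (Real.exp_pos _)
  have hT : 0 ≤ TF (-1) (JW D Y₀ Y₁) (fun _ => 1) Y (Tal al) := E3M829.TF_nonneg _ _ _ _ _
  rw [norm_mul, Complex.norm_real, Real.norm_of_nonneg (mul_nonneg hpC.le hc3)]
  have e3 : c3 w (Real.exp l) = kap0 * mel w (2 / 3) * Real.exp l ^ (2 / 3 : ℝ) := rfl
  calc Real.exp (-(η / 3)) * (pC * c3 w (Real.exp l) * ‖X2 Y E0 Js om al‖)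
      ≤ Real.exp (-(η / 3)) * (pC * c3 w (Real.exp l) *
          (C₂ * X ^ (ε / 2) * TF (-1) (JW D Y₀ Y₁) (fun _ => 1) Y (Tal al))) := by
        refine mul_le_mul_of_nonneg_left (mul_le_mul_of_nonneg_left (h2.trans ?_)
          (mul_nonneg hpC.le hc3)) (Real.exp_pos _).le
        exact mul_le_mul_of_nonneg_right (mul_le_mul_of_nonneg_left hYe hC₂) hT
    _ = pC * (kap0 * mel w (2 / 3)) * C₂ * X ^ (ε / 2) *
        (Real.exp (-(η / 3)) * Real.exp l ^ (2 / 3 : ℝ) *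
          TF (-1) (JW D Y₀ Y₁) (fun _ => 1) Y (Tal al)) := by
        rw [e3]; ring
    _ ≤ pC * (kap0 * mel w (2 / 3)) * C₂ * X ^ (ε / 2) *
        (C₁ * X ^ (ε / 2) * F * Real.exp (-(n / 3)) * Real.exp m) :=
        mul_le_mul_of_nonneg_left h1 (by positivity)
    _ = pC * (kap0 * mel w (2 / 3)) * C₂ * C₁ * (X ^ (ε / 2) * X ^ (ε / 2)) * F *
        Real.exp (-(n / 3)) * Real.exp m := by ring
    _ = _ := by
        rw [← Real.rpow_add hX0]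
        congr 4
        ring

end Crest.Agent.R017.MnX385
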