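import Crest.Agent.R017.E3Ne_146

/-!
# Row 17, exceptional class, P1X (helper385): the real lines of the main form

Notation as in `E3Ne_146`; `v` the level, `vt` the top level, `η` exponent of the second scale.
* `line_M` : the numbers of the lists;  `bline_M` : the bias number
-/

set_option autoImplicit false
set_option linter.unusedVariables false

noncomputable section

namespace Crest.Agent.R017.MnX385

open Crest.Agent.R017.E3N146 (Tf TC)

/-- **the line of the main form of a level**, numbers of the lists -/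
theorem line_M {k N x ex v vt p t δ b l T η : ℝ} (H : Tf k N x ex vt p t) (δ0 : 0 ≤ δ)
    (b0 : 0 ≤ b) (hv : v ≤ vt) (hl : l ≤ v - 2 * δ + b + t)
    (hT : TC (k + ex) b l (p - δ - b) x T) (η0 : 0 ≤ η) (h1 : 2 * p - k - v - t ≤ η) :
    -(η / 3) + 2 / 3 * k - v / 3 + T + 2 * δ - b - p / 3 ≤ k + p + ex + 10 * t := by
  obtain ⟨k0, x0, N1, adm, ex0, ex1, v1, v2, p0, p1, t0, t1⟩ := H
  rcases hT with hT | ⟨hF, hC⟩
  · rcases adm with ⟨a1, rfl | a2⟩ | ⟨a1, a2, a3⟩ <;> linarith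
  · rcases hF with hF | hF | ⟨hF, hF2⟩
    · linarith
    · linarith
    · rcases adm with ⟨a1, rfl | a2⟩ | ⟨a1, a2, a3⟩ <;> linarith

/-- **the line of the main form of a level**, bias number -/
theorem bline_M {k v vt p t δ b l T η mx s0 LL : ℝ} (k0 : 0 ≤ k) (t0 : 0 ≤ t) (δ0 : 0 ≤ δ)
    (b0 : 0 ≤ b) (hv : v ≤ vt) (hl : l ≤ v - 2 * δ + b + t) (hm : s0 - (δ + b) ≤ mx)
    (hT : T ≤ 5 / 3 * p + 2 / 3 * l - 5 / 3 * (δ + b) - mx)
    (bt : (vt + p - k) / 3 ≤ s0 + LL + t) (η0 : 0 ≤ η) :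
    -(η / 3) + 2 / 3 * k - v / 3 + T + 2 * δ - b - p / 3 ≤ k + p + LL + 10 * t := by
  linarith

end Crest.Agent.R017.MnX385
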