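import Crest.Agent.R017.MnXa_385
import Crest.Agent.R017.MnXb_385
import Crest.Agent.R017.E3Br_744
import Crest.Agent.R017.FrX_579

/-!
# Row 17, exceptional class, P1X (helper385): the main form, one datum

* `shTl_cases` : the cases of the number of a difference, loss in the lists
* `mnE` : the main forms of all levels of one datum
-/

set_option autoImplicit false
set_option linter.unusedVariables false

noncomputable section

open Finset MeasureTheory
open scoped ComplexConjugate Classical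

namespace Crest.Agent.R017.MnX385

open Crest.Agent.R012 Crest.Agent.R012.Eis Crest.Agent.R012.MC
open Crest.Agent.R012.LS2 (S mem_S)
open Crest.Agent.R017.C70
open Crest.Agent.R017.B770
open Crest.Agent.R017.E1551 hiding tau Dg XT BT
open Crest.Agent.R017.I1146 (X2 c3 c3_nonneg LipS)
open Crest.Agent.R017.E3Kc548 (LI)
open Crest.Agent.R017.TNj90 (JBc)
open Crest.Agent.R017.E3N146 (Tf TC ShT BC)
open Crest.Agent.R017.P10X764 (shB)
open Crest.Agent.R017.I1K764 (bcx)

/-- the cases of the number of a difference, loss `lm` of the lists -/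
lemma shTl_cases {s0 p k N x um ex δ b w lm : ℝ} (hex : ex = max 0 (5 / 4 * N - k)) :
    TC (k + ex) b (w + b) (p - δ - b) x
      (shB s0 p (fun γ b v => ShT (max k (5 / 4 * N)) x um p γ b v + lm) δ b w - lm) ∨
    BC p s0 δ b (w + b)
      (shB s0 p (fun γ b v => ShT (max k (5 / 4 * N)) x um p γ b v + lm) δ b w) := by
  rcases le_total (5 / 3 * p + bcx s0 δ b w)
    (ShT (max k (5 / 4 * N)) x um p δ b w + lm) with h | h
  · left
    have e1 : shB s0 p (fun γ b v => ShT (max k (5 / 4 * N)) x um p γ b v + lm) δ b w - lm =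
        ShT (max k (5 / 4 * N)) x um p δ b w := by
      unfold P10X764.shB
      rw [max_eq_left h]
      ring
    rw [e1]
    have e2 : max k (5 / 4 * N) = k + ex := by
      rw [hex]
      rcases le_total (5 / 4 * N) k with h | h
      · rw [max_eq_left h, max_eq_left (by linarith)]; ring
      · rw [max_eq_right h, max_eq_right (by linarith)]; ring
    rw [e2]
    have h1 := E3N146.ShT_le (k5 := k + ex) (x := x) (um := um) (p := p) (γ := δ) (b := b)
      (l := w + b) (min_le_right _ _)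
    rw [show w + b - b = w by ring] at h1
    exact E3N146.tc_of (h1.trans (le_of_eq rfl))
  · right
    have e1 : shB s0 p (fun γ b v => ShT (max k (5 / 4 * N)) x um p γ b v + lm) δ b w =
        5 / 3 * p + bcx s0 δ b w := by
      unfold P10X764.shB
      rw [max_eq_right h]
    rw [e1]
    unfold I1K764.bcx
    have h1 := le_max_left 0 (s0 - (δ + b))
    have h2 := le_max_right 0 (s0 - (δ + b))
    exact ⟨by linarith, by linarith⟩

/-- nearby parameters -/
lemma tc_pert {K5 K5' b l n n' x x' T u : ℝ} (u0 : 0 ≤ u) (h : TC K5 b l n x T)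
    (hK : K5 ≤ K5' + 2 * u) (hK' : K5' ≤ K5 + 2 * u) (hn : n ≤ n' + u) (hx : x ≤ x' + u) :
    TC K5' b (l + 2 * u) n' x' (T - 4 * u) := by
  unfold E3N146.TC at h ⊢
  rcases h with h | ⟨h1, h2⟩
  · left; linarith
  · right
    constructor
    · rcases h1 with h1 | h1 | ⟨h1, h3⟩
      · left; linarith
      · right; left; linarith
      · right; right
        constructor <;> linarith
    · rcases h2 with h2 | h2
      · left; linarith
      · right; linarith

set_option maxHeartbeats 1600000 in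
/-- **the main forms of one datum**; `k' N' x' p' s0'` the parameters, tolerance `u` -/
theorem mnE {R : ℝ} (hR : 0 ≤ R) {w : ℝ → ℝ} (hw0 : ∀ x, 0 ≤ w x) {ε J B₂ : ℝ} (hε : 0 < ε)
    (hJ' : 0 ≤ J) (hB₂ : 0 < B₂) :
    ∃ C : ℝ, 0 ≤ C ∧ ∀ X : ℝ, 3 ≤ X →
      ∀ (nf n₁ : ℕ) (k N x p s0 k' N' x' p' s0' vt u t um lm LL E0 Y F : ℝ) (al : Eis → ℂ),
      n₁ ≤ nf + 1 → Tf k' N' x' (max 0 (5 / 4 * N' - k')) vt p' t → 0 ≤ k →
      max 0 (5 / 4 * N' - k') + lm ≤ LL →
      (vt + p' - k') / 3 ≤ s0' + LL + t / 3 → 1 + nf * Real.log 2 ≤ vt →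
      0 ≤ u → 3 + 3 * u ≤ t → |k - k'| ≤ u → |N - N'| ≤ u → |x - x'| ≤ u → |p - p'| ≤ u →
      |s0 - s0'| ≤ u → 1 ≤ Y → Y ≤ X ^ B₂ →
      Real.exp 1 * (Real.exp 1 * 2 ^ nf) ≤ X ^ B₂ → (2 : ℝ) ^ nf ≤ X → 0 ≤ F →
      JBc Y (Real.exp 1 * (Real.exp 1 * 2 ^ nf)) F J
        (shB s0 p (fun γ b v => ShT (max k (5 / 4 * N)) x um p γ b v + lm)) al →
      Adm Y (Real.exp p) R al →
      ∀ (Js : ℕ → Finset (Eis × Eis)) (om : ℕ → Eis × Eis → ℂ) (η : ℕ → ℝ),
      (∀ j x, ‖om j x‖ ≤ 1) →
      (∀ j ∈ range n₁, ∀ x ∈ Js j, om j x ≠ 0 →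
        x ∈ JW (Real.sqrt (2 ^ nf)) (2 ^ j / 4) (min (2 ^ (j + 1)) (2 ^ nf))) →
      (∀ j, 0 ≤ η j) → (∀ j, 2 * p - k - Real.log 2 * j ≤ η j) →
      ∑ j ∈ range n₁, Real.exp (-(η j / 3)) *
        ‖((pC * c3 w (Real.exp k) : ℝ) : ℂ) * X2 Y E0 (Js j) (om j) al‖ ≤
        C * X ^ ε * F * Real.exp (k' + p' + LL + 12 * t) := by
  obtain ⟨C, hC, G⟩ := mn_lev (w := w) hw0 hR (half_pos hε) hJ' hB₂
  refine ⟨(1 + 1 / Real.log 2) * (B₂ * (2 / ε) + 1) * C, ?_, ?_⟩
  · have := Real.log_pos (show (1 : ℝ) < 2 by norm_num)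
    positivity
  intro X hX nf n₁ k N x p s0 k' N' x' p' s0' vt u t um lm LL E0 Y F al hn₁ hT hk0 hLL hbt hvt hu
    ht ak aN ax ap as hY1 hYu hWX h2X hF hJB hadm Js om η hom hJs hη0 hη
  rw [abs_le] at ak aN ax ap as
  have hX1 : 1 ≤ X := by linarith
  have hX0 : 0 < X := by linarith
  have hlX : 0 ≤ Real.log X := Real.log_nonneg hX1
  have hl2 : 0 < Real.log 2 := Real.log_pos (by norm_num)
  have hl2' : Real.log 2 < 0.6931471808 := Real.log_two_lt_d9
  have h2n : (1 : ℝ) ≤ 2 ^ nf := one_le_pow₀ (by norm_num)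
  -- one level
  have hone : ∀ j ∈ range n₁, Real.exp (-(η j / 3)) *
      ‖((pC * c3 w (Real.exp k) : ℝ) : ℂ) * X2 Y E0 (Js j) (om j) al‖ ≤
        C * X ^ (ε / 2) * F * Real.exp (k' + p' + LL + 12 * t) := by
    intro j hj
    set Y₁ : ℝ := min (2 ^ (j + 1)) (2 ^ nf) with hY₁
    have hY10 : 0 < Y₁ := lt_min (by positivity) (by positivity)
    have hY1n : Y₁ ≤ 2 ^ nf := min_le_right _ _
    have hW : Real.exp 1 * (Real.exp 1 * Y₁) ≤ Real.exp 1 * (Real.exp 1 * 2 ^ nf) := by gcongr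
    have key := G X hX p Y E0 F (Real.sqrt (2 ^ nf)) (2 ^ j / 4) Y₁ k (η j)
      (shB s0 p (fun γ b v => ShT (max k (5 / 4 * N)) x um p γ b v + lm)) hY1 hYu hY10
      (hY1n.trans h2X) (hW.trans hWX) hF al (hJB.mono hW) hadm (Js j) (om j)
      (k' + p' + LL + 12 * t + p / 3) (hom j) (hJs j hj) ?_ ?_
    · refine key.trans (le_of_eq ?_)
      rw [mul_assoc (C * X ^ (ε / 2) * F), ← Real.exp_add]
      congr 2
      ring
    · intro y hy
      have h3 : y.1 ∈ primBall ⌊Real.sqrt (2 ^ nf)⌋₊ := by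
        unfold C70.JW at hy
        rw [mem_filter, mem_product] at hy
        exact hy.1.1
      obtain ⟨h4, h5⟩ := mem_primBall.1 h3
      have h6 : (nm y.1 : ℝ) ≤ Real.sqrt (2 ^ nf) :=
        (Nat.cast_le.2 h4).trans (Nat.floor_le (Real.sqrt_nonneg _))
      have h7 : Real.sqrt (2 ^ nf) ≤ 2 ^ nf := by
        rw [Real.sqrt_le_left (by positivity)]
        nlinarith
      have h9 : (1 : ℝ) ≤ Real.exp 1 := Real.one_le_exp (by norm_num)
      have h8 : (2 : ℝ) ^ nf ≤ Real.exp 1 * (Real.exp 1 * 2 ^ nf) := by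
        calc (2 : ℝ) ^ nf ≤ Real.exp 1 * 2 ^ nf := le_mul_of_one_le_left (by positivity) h9
          _ ≤ _ := le_mul_of_one_le_left (by positivity) h9
      linarith
    · intro i hi d hd b v hb hv hvi
      obtain ⟨y, hy, rfl⟩ := mem_image.1 hd
      have hd1 : IsPrim y.1 := by
        unfold C70.JW at hy
        rw [mem_filter, mem_product] at hy
        exact (mem_primBall.1 hy.1.1).2
      have hδ0 : 0 ≤ Real.log (nm y.1) :=
        Real.log_nonneg (by exact_mod_cast nm_pos.2 hd1.ne_zero)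
      unfold E3Kc548.LI at hi
      obtain ⟨-, hi1, hi2⟩ := mem_filter.1 hi
      have hi3 : (i : ℝ) ≤ vt := by
        have h2 : Real.exp i ≤ Real.exp 1 * 2 ^ nf :=
          hi2.trans (mul_le_mul_of_nonneg_left hY1n (Real.exp_pos _).le)
        have h3 := Real.log_le_log (Real.exp_pos _) h2
        rw [Real.log_exp, Real.log_mul (Real.exp_pos 1).ne' (by positivity), Real.log_exp,
          Real.log_pow] at h3
        linarith
      have hi4 : Real.log 2 * j - 2 * Real.log 2 ≤ i + 1 := by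
        have h3 := Real.log_le_log (by positivity) hi1
        rw [Real.log_exp, Real.log_div (by positivity) (by norm_num), Real.log_pow,
          show (4 : ℝ) = 2 ^ 2 by norm_num, Real.log_pow] at h3
        push_cast at h3
        linarith
      have hηi : 2 * p' - k' - i - t ≤ η j := by
        have := hη j
        linarith
      rcases shTl_cases (s0 := s0) (p := p) (k := k) (N := N) (x := x) (um := um)
        (δ := Real.log (nm y.1)) (b := b) (w := v) (lm := lm) rfl with h | h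
      · have e1 : k + max 0 (5 / 4 * N - k) ≤ k' + max 0 (5 / 4 * N' - k') + 2 * u := by
          rcases le_total 0 (5 / 4 * N - k) with g | g
          · rw [max_eq_right g]
            have := le_max_right 0 (5 / 4 * N' - k')
            linarith
          · rw [max_eq_left g]
            have := le_max_left 0 (5 / 4 * N' - k')
            linarith
        have e2 : k' + max 0 (5 / 4 * N' - k') ≤ k + max 0 (5 / 4 * N - k) + 2 * u := by
          rcases le_total 0 (5 / 4 * N' - k') with g | g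
          · rw [max_eq_right g]
            have := le_max_right 0 (5 / 4 * N - k)
            linarith
          · rw [max_eq_left g]
            have := le_max_left 0 (5 / 4 * N - k)
            linarith
        have h' := tc_pert (n' := p' - Real.log (nm y.1) - b) (x' := x') hu h e1 e2
          (by linarith) (by linarith)
        have h1 := line_M hT hδ0 hb hi3 (by linarith) h' (hη0 j) hηi
        linarith
      · obtain ⟨-, h2⟩ := h
        have h1 := bline_M (k := k) (v := (i : ℝ)) (vt := vt) (p := p) (t := t)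
          (δ := Real.log (nm y.1)) (b := b) (s0 := s0) (LL := LL) (η := η j) hk0 (by linarith) hδ0
          hb hi3 (show v + b ≤ (i : ℝ) - 2 * Real.log (nm y.1) + b + t by linarith) le_rfl h2
          (by linarith) (hη0 j)
        linarith
  have hcb : (nf : ℝ) * Real.log 2 ≤ B₂ * Real.log X := by
    have h9 : (1 : ℝ) ≤ Real.exp 1 := Real.one_le_exp (by norm_num)
    have h8 : (2 : ℝ) ^ nf ≤ Real.exp 1 * (Real.exp 1 * 2 ^ nf) := by
      calc (2 : ℝ) ^ nf ≤ Real.exp 1 * 2 ^ nf := le_mul_of_one_le_left (by positivity) h9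
        _ ≤ _ := le_mul_of_one_le_left (by positivity) h9
    have h1 := Real.log_le_log (by positivity) (h8.trans hWX)
    rwa [Real.log_pow, Real.log_rpow hX0] at h1
  have hXe : 1 ≤ X ^ (ε / 2) := Real.one_le_rpow hX1 (by positivity)
  have hcard : (n₁ : ℝ) ≤ (1 + 1 / Real.log 2) * (B₂ * (2 / ε) + 1) * X ^ (ε / 2) := by
    have h1 : (n₁ : ℝ) ≤ nf + 1 := by exact_mod_cast hn₁
    have h2 : Real.log X ≤ 2 / ε * X ^ (ε / 2) := by
      have h3 := Real.log_le_rpow_div hX0.le (show (0 : ℝ) < ε / 2 by positivity)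
      have h4 : X ^ (ε / 2) / (ε / 2) = 2 / ε * X ^ (ε / 2) := by field_simp
      linarith
    have h5 : (nf : ℝ) ≤ 1 / Real.log 2 * (B₂ * Real.log X) := by
      rw [one_div, ← div_eq_inv_mul, le_div_iff₀ hl2]
      exact hcb
    have h6 : B₂ * Real.log X ≤ B₂ * (2 / ε) * X ^ (ε / 2) := by
      calc B₂ * Real.log X ≤ B₂ * (2 / ε * X ^ (ε / 2)) := by gcongr
        _ = _ := by ring
    have h7 : 1 / Real.log 2 * (B₂ * Real.log X) ≤
        1 / Real.log 2 * (B₂ * (2 / ε) * X ^ (ε / 2)) := by gcongr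
    have h8 : 0 ≤ B₂ * (2 / ε) * X ^ (ε / 2) := by positivity
    have h9 : 0 ≤ 1 / Real.log 2 * X ^ (ε / 2) := by positivity
    calc (n₁ : ℝ) ≤ 1 / Real.log 2 * (B₂ * (2 / ε) * X ^ (ε / 2)) + 1 := by linarith
      _ ≤ 1 / Real.log 2 * (B₂ * (2 / ε) * X ^ (ε / 2)) + 1 +
          (B₂ * (2 / ε) * X ^ (ε / 2) + 1 / Real.log 2 * X ^ (ε / 2) + (X ^ (ε / 2) - 1)) := by
          linarith
      _ = _ := by ring
  have hb0 : 0 ≤ C * X ^ (ε / 2) * F * Real.exp (k' + p' + LL + 12 * t) := by positivity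
  calc _ ≤ ∑ j ∈ range n₁, C * X ^ (ε / 2) * F * Real.exp (k' + p' + LL + 12 * t) :=
        sum_le_sum hone
    _ = (n₁ : ℝ) * (C * X ^ (ε / 2) * F * Real.exp (k' + p' + LL + 12 * t)) := by
        rw [sum_const, card_range, nsmul_eq_mul]
    _ ≤ ((1 + 1 / Real.log 2) * (B₂ * (2 / ε) + 1) * X ^ (ε / 2)) *
        (C * X ^ (ε / 2) * F * Real.exp (k' + p' + LL + 12 * t)) :=
        mul_le_mul_of_nonneg_right hcard hb0
    _ = (1 + 1 / Real.log 2) * (B₂ * (2 / ε) + 1) * C * (X ^ (ε / 2) * X ^ (ε / 2)) * F *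
        Real.exp (k' + p' + LL + 12 * t) := by ring
    _ = _ := by
        rw [← Real.rpow_add hX0, add_halves]

end Crest.Agent.R017.MnX385
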