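import Crest.Agent.R017.MnXc_385

/-!
# Row 17, exceptional class, P1X (helper385): the main forms of the cross error, level form

* `LnP` : the lengths of a parent
* `jw_omL` : the pairs of a smooth level
* **`mnX_of`** : the main forms of all levels from the T-claims (`frX`) and the bias line
-/

set_option autoImplicit false
set_option linter.unusedSectionVars false
set_option linter.unusedVariables false

noncomputable section

open Finset MeasureTheory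
open scoped ComplexConjugate Classical

namespace Crest.Agent.R017.MnX385

open Crest.Agent.R012 Crest.Agent.R012.Eis Crest.Agent.R012.MC Crest.Agent.R012.Gauss880
open Crest.Agent.R012.LS2 (S mem_S)
open Crest.Agent.R017.CM106 (CS FS TG)
open Crest.Agent.R017.C70
open Crest.Agent.R017.HP842 (Pc pc sqc alL)
open Crest.Agent.R017.B770
open Crest.Agent.R017.FE47 (PU cx SM)
open Crest.Agent.R017.Prov71
open Crest.Agent.R017.I1146 (X2 c3 c3_nonneg LipS LN)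
open Crest.Agent.R017.XG702 (Pcs)
open Crest.Agent.R017.XT71 (Sys Win mx)
open Crest.Agent.R017.UM71 Crest.Agent.R017.End699
open Crest.Agent.R017.E5B71 Crest.Agent.R017.E5P571 Crest.Agent.R017.E5L770
open Crest.Agent.R017.ExBox960 Crest.Agent.R017.ExP960
open Crest.Agent.R017.Sf770
open Crest.Agent.R017.P1e54 Crest.Agent.R017.P1f54 Crest.Agent.R017.P1k54
open Crest.Agent.R017.P1l54 (ParOK)
open Crest.Agent.R017.P1X960
open Crest.Agent.R017.Sup271 (NPm)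
open Crest.Agent.R017.PX764 (Dk)
open Crest.Agent.R017.TM708 (PD R5)
open Crest.Agent.R017.P10X764
open Crest.Agent.R017.E3N146 (Tf ShT)
open Crest.Agent.R017.E3Nx744 (CBA thK)
open Crest.Agent.R017.TNj90 (JBc)
open Crest.Agent.R017.E1551 (Adm)
open Crest.Agent.R017.FrX579

/-- the lengths of a parent -/
structure LnP (p : Fin 3 ⊕ Fin 5 → ℝ) : Prop where
  N1 : cN p ≤ 102 / 125 * cκ p
  adm : (cx' p ≤ cκ p / 320 ∧ (cx' p = 0 ∨ cN p + cx' p ≤ 4 / 5 * cκ p)) ∨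
    (3 / 4 * cκ p ≤ cN p ∧ cx' p ≤ cκ p / 36 ∧ cx' p + 7 / 10 * cN p ≤ 199 / 360 * cκ p)

/-- the pairs of a smooth level -/
lemma jw_omL {n j : ℕ} {x : Eis × Eis} (hx : x ∈ JS n) (h : omL j x ≠ 0) :
    x ∈ JW (Real.sqrt (2 ^ n)) (2 ^ j / 4) (min (2 ^ (j + 1)) (2 ^ n)) := by
  have h1 := omL_supp h
  rw [abs_le] at h1
  unfold Sf770.JS C70.JW at hx
  rw [mem_filter, mem_product, mem_primBall, mem_ball] at hx
  obtain ⟨⟨h2, h3⟩, h4, h5, h6, h7⟩ := hx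
  have h8 : nm (x.2 * x.1 ^ 2) ≠ 0 := by
    intro h0
    rw [h0] at h6
    norm_num at h6
  have h9 : x.2 * x.1 ^ 2 ≠ 0 := by
    intro h0
    rw [h0, nm_zero] at h8
    exact h8 rfl
  have h10 : (0 : ℝ) < nm (x.2 * x.1 ^ 2) := by exact_mod_cast Nat.pos_of_ne_zero h8
  have hl2 : 0 < Real.log 2 := Real.log_pos (by norm_num)
  have e1 : lv x = Real.log (nm (x.2 * x.1 ^ 2)) := rfl
  rw [e1] at h1
  have h11 : (nm (x.2 * x.1 ^ 2) : ℝ) ≤ 2 ^ (j + 1) := by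
    rw [← Real.log_le_log_iff h10 (by positivity), Real.log_pow]
    push_cast
    linarith
  have h12 : (2 : ℝ) ^ j / 4 < nm (x.2 * x.1 ^ 2) := by
    rw [← Real.log_lt_log_iff (by positivity) h10, Real.log_div (by positivity) (by norm_num),
      Real.log_pow, show (4 : ℝ) = 2 ^ 2 by norm_num, Real.log_pow]
    push_cast
    linarith
  have h13 : (nm x.2 : ℝ) ≤ nm (x.2 * x.1 ^ 2) := by
    exact_mod_cast Div277.nm_le_of_dvd h9 (dvd_mul_right _ _)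
  unfold C70.JW
  rw [mem_filter, mem_product, mem_primBall, mem_ball]
  exact ⟨⟨h2, Nat.le_floor (h13.trans (le_min h11 h7))⟩, h4, h5, h12, le_min h11 h7⟩

lemma norm_omL (i : ℕ) (x : Eis × Eis) : ‖omL i x‖ ≤ 1 := by
  unfold E5L770.omL E5L770.wL FE47.hD
  rw [Complex.norm_real, Real.norm_eq_abs, abs_le]
  have h1 := HBI146.cutR_nonneg (Real.exp (lv x - Real.log 2 * i))
  have h2 := HBI146.cutR_le_one (Real.exp (lv x - Real.log 2 * i))
  have h3 := HBI146.cutR_nonneg (2 * Real.exp (lv x - Real.log 2 * i))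
  have h4 := HBI146.cutR_le_one (2 * Real.exp (lv x - Real.log 2 * i))
  constructor <;> linarith

/-- the frame of the lines at the parameters -/
lemma tf_par {p : Fin 3 ⊕ Fin 5 → ℝ} (hO : ParOK p) (hp : LnP p) {tw sv t₀ L n : ℝ} (hL : 0 < L)
    (ht : 0 ≤ t₀) (ht' : t₀ ≤ 1 / 200000) (htL : 1 ≤ t₀ * L) (htw : tw ≤ top5 p)
    (h0 : (cκ p / 2 - 2 * cx' p) * L - t₀ * L ≤ n)
    (h1 : n ≤ (cN p + cx' p) * L + t₀ * L) (hn : |n - sv * L| ≤ t₀ * L) :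
    Tf (cκ p * L) (cN p * L) (cx' p * L) (max 0 (5 / 4 * (cN p * L) - cκ p * L))
      (tw * L + t₀ * L + 1) (sv * L) (5 * (t₀ * L)) := by
  rw [abs_le] at hn
  have hk := hO.κ0
  have e1 : tw * L ≤ (min (2 * cN p - cκ p) (3 / 4 * cN p) + 11 / 5 * cx' p) * L :=
    mul_le_mul_of_nonneg_right htw hL.le
  have e2 : min (2 * cN p - cκ p) (3 / 4 * cN p) * L ≤ (2 * cN p - cκ p) * L :=
    mul_le_mul_of_nonneg_right (min_le_left _ _) hL.le
  have e3 : min (2 * cN p - cκ p) (3 / 4 * cN p) * L ≤ (3 / 4 * cN p) * L :=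
    mul_le_mul_of_nonneg_right (min_le_right _ _) hL.le
  have hx : 0 ≤ cx' p * L := mul_nonneg hO.x0 hL.le
  have hkL : 8 / 9 * L ≤ cκ p * L := mul_le_mul_of_nonneg_right hk hL.le
  have htl : t₀ * L ≤ 1 / 200000 * L := mul_le_mul_of_nonneg_right ht' hL.le
  refine ⟨by positivity, hx, ?_, ?_, le_max_left _ _, le_max_right _ _, ?_, ?_, ?_, ?_, ?_, ?_⟩
  · have := mul_le_mul_of_nonneg_right hp.N1 hL.le
    linarith
  · rcases hp.adm with ⟨a1, a2⟩ | ⟨a1, a2, a3⟩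
    · left
      refine ⟨?_, ?_⟩
      · have := mul_le_mul_of_nonneg_right a1 hL.le
        linarith
      · rcases a2 with a2 | a2
        · left
          rw [a2, zero_mul]
        · right
          have := mul_le_mul_of_nonneg_right a2 hL.le
          linarith
    · right
      have b1 := mul_le_mul_of_nonneg_right a1 hL.le
      have b2 := mul_le_mul_of_nonneg_right a2 hL.le
      have b3 := mul_le_mul_of_nonneg_right a3 hL.le
      exact ⟨by linarith, by linarith, by linarith⟩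
  · linarith
  · linarith
  · linarith
  · linarith
  · positivity
  · linarith

set_option maxHeartbeats 2000000 in
/-- **the main forms of the levels of a difference** -/
theorem mnX_of {Λ : Type*} {π : Λ → DPar} {h : ℝ → ℝ} {c₀ : ℝ} (hpu : PU h c₀)
    (hP : ∀ lam, (π lam).OK) (hex : ∀ lam, ¬ NPm (π lam).n (π lam).ψ (π lam).l₂ 1)
    {Rh : ℝ} (hRh0 : 0 ≤ Rh) (hRh : ∀ u, cx h u ≠ 0 → |u| ≤ Rh) {e0 : ℝ}
    (he0 : 0 ≤ e0) (he0' : e0 ≤ 1) {c β : ℝ} (hc0 : 0 ≤ c) (hc1 : c ≤ 1)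
    {Par : Set (Fin 3 ⊕ Fin 5 → ℝ)} {L0 : (Fin 3 ⊕ Fin 5 → ℝ) → ℝ} (hPar : ∀ p ∈ Par, ParOK p)
    (hLn : ∀ p ∈ Par, LnP p)
    {D5 : Set (Fin 5 → ℝ)} {ℓ Kf Tf : (Fin 5 → ℝ) → ℝ}
    (hDN : ∀ p : IX5 → ℝ, prX p ∈ Par → ZR β p → bN p ∈ D5)
    (hDR : ∀ p : IX5 → ℝ, prX p ∈ Par → ZR β p → bR p ∈ D5)
    (hR5 : ∀ p : IX5 → ℝ, prX p ∈ Par → ZR β p → R5 (bN p))
    (hKN : ∀ p : IX5 → ℝ, prX p ∈ Par → ZR β p →
      Kf (bN p) = max (cκ (prX p)) (5 / 4 * cN (prX p)))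
    (hKR : ∀ p : IX5 → ℝ, prX p ∈ Par → ZR β p →
      Kf (bR p) = max (cκ (prX p)) (5 / 4 * cN (prX p)))
    (hTN : ∀ (p : IX5 → ℝ) (v₀ v₁ v₂ b x' : ℝ), ChC c β Par p v₀ v₁ v₂ b x' →
      DifL p v₀ v₁ v₂ → tpW c p b ≤ Tf (bN p))
    (hTR : ∀ (p : IX5 → ℝ) (v₀ v₁ v₂ b x' : ℝ), ChC c β Par p v₀ v₁ v₂ b x' →
      DifL p v₀ v₁ v₂ → tpW c p b ≤ Tf (bR p))
    (hcb : CBA π h Dk Kf Tf D5 ℓ)
    (hLm : ∀ p : IX5 → ℝ, prX p ∈ Par → ZR β p →
      max 0 (5 / 4 * cN (prX p) - cκ (prX p)) + lmX ℓ Kf Tf p ≤ L0 (prX p))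
    (hbt : ∀ (p : IX5 → ℝ) (v₀ v₁ v₂ b x' : ℝ), ChC c β Par p v₀ v₁ v₂ b x' → DifL p v₀ v₁ v₂ →
      (max (tpW c p b) (2 * (v₀ + v₁ + v₂ + x') - cκ (prX p)) + (v₀ + v₁ + v₂ + x') -
        cκ (prX p)) / 3 ≤ min (min v₀ v₁) (min (v₀ - (cu (prX p) 2 - p (.inr 1)))
          (v₁ + (cu (prX p) 2 - p (.inr 1)))) + L0 (prX p))
    (et : BcX → List Pq → ℕ → ℝ) (het0 : ∀ a qs j, 0 ≤ et a qs j)
    (het : ∀ a qs j, 2 * LN (clN a qs) - a.1.l - Real.log 2 * j ≤ et a qs j) :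
    ∀ R : Λ → ℝ, (∀ lam, 0 ≤ R lam) → UB S8X Dq (fun lam a qs =>
      if okCX (π lam.1) lam.2 a qs ∧ okD a then
        ∑ j ∈ range (nw c a), Real.exp (-(et a qs j / 3)) *
          ‖((pC * c3 (wM (R lam.1)) (Real.exp a.1.l) : ℝ) : ℂ) * X2 (YcX Rh a qs)
            (Real.exp (e0 * a.1.l)) (JS (nw c a)) (omL j) (alX π h lam a qs)‖
      else 0) (Dom8X c β Par DifL) ∅ (E8X L0) := by
  intro R hR ε hε
  obtain ⟨t₀, ht₀, ht₁, ht₂⟩ : ∃ t₀ : ℝ, 0 < t₀ ∧ t₀ ≤ ε / 480 ∧ t₀ ≤ 1 / 200000 :=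
    ⟨min (ε / 480) (1 / 200000), lt_min (by positivity) (by norm_num), min_le_left _ _,
      min_le_right _ _⟩
  have hε8 : 0 < ε / 8 := by positivity
  obtain ⟨δ, hδ, G⟩ := frX hpu hP hex hRh0 hRh he0 he0' hc0 hc1 hPar hDN hDR hR5 hKN hKR hTN hTR
    hcb hε8 ht₀
  refine ⟨δ, hδ, ?_⟩
  intro lam N B
  have he1 : (1 : ℝ) ≤ Real.exp 1 * Real.exp 1 := by
    rw [← Real.exp_add]
    exact Real.one_le_exp (by norm_num)
  obtain ⟨B₂, J, R', hB₂, hJ, hR', δ', hδ', X₀, hX₀, G⟩ := G lam N B _ he1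
  have hB₂0 : 0 < B₂ := by linarith
  obtain ⟨C, hC, M⟩ := mnE (R := R') hR' (w := wM (R lam.1)) (wM_nonneg _) hε8 hJ hB₂0
  refine ⟨δ', hδ', ?_⟩
  have hC1 : 0 < C + 1 := by linarith
  obtain ⟨X₁, hX₁⟩ : ∃ X₁ : ℝ, ∀ X, X₁ ≤ X → C ≤ X ^ (ε / 8) := by
    have h1 := tendsto_rpow_atTop hε8
    obtain ⟨X₁, hX₁⟩ := Filter.eventually_atTop.1 (h1.eventually_ge_atTop C)
    exact ⟨X₁, hX₁⟩
  refine ⟨max (max X₀ X₁) (Real.exp (3 / t₀)), ?_, ?_⟩
  · exact lt_of_lt_of_le hX₀ ((le_max_left _ _).trans (le_max_left _ _))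
  intro X hX a qs hlen hgr q hq hwin hmass hgood hlump
  have hXX₀ : X₀ ≤ X := ((le_max_left _ _).trans (le_max_left _ _)).trans hX
  have hXX₁ : X₁ ≤ X := ((le_max_right _ _).trans (le_max_left _ _)).trans hX
  have hXe : Real.exp (3 / t₀) ≤ X := (le_max_right _ _).trans hX
  have hX0 : 0 < X := by linarith
  dsimp only
  split_ifs with hok
  swap
  · positivity
  have D := G X hXX₀ a qs hlen hgr q hq hwin hmass hgood
    (fun p hp hl => absurd (hlump p hp hl) (Set.notMem_empty _)) hok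
  have hX3 := D.X3
  have hX1 : 1 ≤ X := by linarith
  set L := Real.log X with hLd
  have hL3 : 3 / t₀ ≤ L := by
    have := Real.log_le_log (Real.exp_pos _) hXe
    rwa [Real.log_exp] at this
  have hL0' : 0 < L := lt_of_lt_of_le (by positivity) hL3
  have htL : 3 ≤ t₀ * L := by
    rw [div_le_iff₀ ht₀] at hL3
    linarith
  set p := bp q.1 with hp
  have hch := hq.1
  have hdl := hq.2.1
  have hpp : prX p ∈ Par := hch.par
  have hzr := hch.zr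
  have hOK := hPar _ hpp
  have hln := hLn _ hpp
  have htp : tpW c p (q.1 (.inr 3)) ≤ top5 (prX p) := min_le_left _ _
  have hTf := tf_par (sv := svX q) (n := LN (clN a qs)) hOK hln hL0' ht₀.le ht₂
    (by linarith : 1 ≤ t₀ * L) htp D.n0 D.n1 D.nl
  have hyX : Real.exp 1 * (Real.exp 1 * 2 ^ nw c a) ≤ X := by
    rw [← mul_assoc]
    exact D.yX
  have h9 : (1 : ℝ) ≤ Real.exp 1 := Real.one_le_exp (by norm_num)
  have h8 : (2 : ℝ) ^ nw c a ≤ X := by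
    refine le_trans ?_ hyX
    calc (2 : ℝ) ^ nw c a ≤ Real.exp 1 * 2 ^ nw c a := le_mul_of_one_le_left (by positivity) h9
      _ ≤ _ := le_mul_of_one_le_left (by positivity) h9
  have hXB : X ≤ X ^ B₂ := by
    calc X = X ^ (1 : ℝ) := (Real.rpow_one X).symm
      _ ≤ X ^ B₂ := Real.rpow_le_rpow_of_exponent_le hX1 hB₂
  have hkl := D.kl
  have hk0 : 0 ≤ a.1.l := by
    rw [abs_le] at hkl
    have h1 := hOK.κ0
    have h2 : 8 / 9 * L ≤ cκ (prX p) * L := mul_le_mul_of_nonneg_right h1 hL0'.le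
    have h3 : t₀ * L ≤ 1 / 200000 * L := mul_le_mul_of_nonneg_right ht₂ hL0'.le
    linarith
  have hyl := D.yl
  rw [Real.log_pow] at hyl
  have e1 : max 0 (5 / 4 * (cN (prX p) * L) - cκ (prX p) * L) =
      max 0 (5 / 4 * cN (prX p) - cκ (prX p)) * L := by
    rw [max_mul_of_nonneg _ _ hL0'.le, zero_mul]
    congr 1
    ring
  have hLL : max 0 (5 / 4 * (cN (prX p) * L) - cκ (prX p) * L) + lmX ℓ Kf Tf p * L ≤
      L0 (prX p) * L := by
    rw [e1, ← add_mul]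
    exact mul_le_mul_of_nonneg_right (hLm p hpp hzr) hL0'.le
  have hb1 := hbt p _ _ _ _ _ hch hdl
  have hb2 : (tpW c p (q.1 (.inr 3)) + svX q - cκ (prX p)) / 3 ≤ s0R q + L0 (prX p) := by
    have h1 := le_max_left (tpW c p (q.1 (.inr 3)))
      (2 * (q.1 (.inr 0) + q.1 (.inr 1) + q.1 (.inr 2) + q.2 .am) - cκ (prX p))
    have e2 : s0R q = min (min (q.1 (.inr 0)) (q.1 (.inr 1)))
      (min (q.1 (.inr 0) - (cu (prX p) 2 - p (.inr 1)))
        (q.1 (.inr 1) + (cu (prX p) 2 - p (.inr 1)))) := rfl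
    have e3 : svX q = q.1 (.inr 0) + q.1 (.inr 1) + q.1 (.inr 2) + q.2 .am := rfl
    rw [e2, e3]
    linarith
  have hbt' : (tpW c p (q.1 (.inr 3)) * L + t₀ * L + 1 + svX q * L - cκ (prX p) * L) / 3 ≤
      s0R q * L + L0 (prX p) * L + 5 * (t₀ * L) / 3 := by
    have h1 := mul_le_mul_of_nonneg_right hb2 hL0'.le
    have h2 : (tpW c p (q.1 (.inr 3)) + svX q - cκ (prX p)) / 3 * L =
      (tpW c p (q.1 (.inr 3)) * L + svX q * L - cκ (prX p) * L) / 3 := by ring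
    rw [h2, add_mul] at h1
    linarith
  have hjb : JBc (YcX Rh a qs) (Real.exp 1 * (Real.exp 1 * 2 ^ nw c a)) (X ^ (ε / 8)) J
      (shB (s0X a) (LN (clN a qs)) (fun γ b v =>
        ShT (max a.1.l (5 / 4 * a3 a.1.toBd)) a.1.z (a.2.1 2).z (LN (clN a qs)) γ b v +
          lmX ℓ Kf Tf p * L)) (alX π h lam a qs) := by
    rw [← mul_assoc]
    exact D.jb
  have key := M X hX3 (nw c a) (nw c a) a.1.l (a3 a.1.toBd) a.1.z (LN (clN a qs)) (s0X a)
    (cκ (prX p) * L) (cN (prX p) * L) (cx' (prX p) * L) (svX q * L) (s0R q * L)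
    (tpW c p (q.1 (.inr 3)) * L + t₀ * L + 1) (t₀ * L) (5 * (t₀ * L)) (a.2.1 2).z
    (lmX ℓ Kf Tf p * L) (L0 (prX p) * L) (Real.exp (e0 * a.1.l)) (YcX Rh a qs) (X ^ (ε / 8))
    (alX π h lam a qs) (Nat.le_succ _) hTf hk0 hLL hbt' (by linarith) (by linarith) (by linarith)
    hkl D.Al D.zl D.nl D.sl D.Y1 D.YX (hyX.trans hXB) h8 (by positivity) hjb D.adm
    (fun _ => JS (nw c a)) omL (et a qs) norm_omL (fun j _ x hx h0 => jw_omL hx h0)
    (het0 a qs) (het a qs)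
  refine key.trans ?_
  have hCX := hX₁ X hXX₁
  have e5 : Real.exp (cκ (prX p) * L + svX q * L + L0 (prX p) * L + 12 * (5 * (t₀ * L))) =
      X ^ (cκ (prX p) + svX q + L0 (prX p) + 60 * t₀) := by
    rw [Real.rpow_def_of_pos hX0, ← hLd]
    congr 1
    ring
  rw [e5]
  have e6 : C * X ^ (ε / 8) * X ^ (ε / 8) * X ^ (cκ (prX p) + svX q + L0 (prX p) + 60 * t₀) ≤
      X ^ (ε / 8) * X ^ (ε / 8) * X ^ (ε / 8) *
        X ^ (cκ (prX p) + svX q + L0 (prX p) + 60 * t₀) := by gcongr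
  refine e6.trans ?_
  rw [← Real.rpow_add hX0, ← Real.rpow_add hX0, ← Real.rpow_add hX0]
  refine Real.rpow_le_rpow_of_exponent_le hX1 ?_
  have e7 : E8X L0 q = cκ (prX p) + svX q + L0 (prX p) := by
    unfold P1X960.E8X FrX579.svX
    ring
  rw [e7]
  linarith

end Crest.Agent.R017.MnX385
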