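import Crest.Agent.R017.MoL1_106

/-!
# Row 17, E2: the restricted sequences of the tail (helper83), part 1

* `alr α a b` : the terms `n` with `a ∣ n`, `(n, b) = 1`
* `CS_alr`, `MT_alr1` : a restriction to multiples of `a = h c`, `h ∣ g₀ B G`, is the divisor `g₀ c`
* `sum_split` : the sum over `a`
* `MoP_alr`, `MT_alr` : the functionals summed over `a`
-/

set_option autoImplicit false

noncomputable section

open MeasureTheory Finset Filter
open scoped ComplexConjugate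

namespace Crest.Agent.R017.MoCa83

open Crest.Agent.R012
open Eis CharSum852 Gauss880 LS2 CR2 MelSep811
open Crest.Agent.R012.Weight600 (osc norm_osc pw)
open Crest.Agent.R017.CM106 (CS TG FS sub)
open Crest.Agent.R017.E2440 (cT MoF MoH MT ag)
open Crest.Agent.R017.H1401 (pb mem_pb)
open Crest.Agent.R017.PX764 (Gh n6 Gh_mul n6_mul)
open Crest.Agent.R017.MoF106 (MoP MoP_nonneg norm_Gh_le')
open Div277 (tau dvs mem_dvs tau_le_rpow)

open Classical in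
/-- the terms `n` with `a ∣ n`, `(n, b) = 1` -/
def alr (α : Eis → ℂ) (a b : Eis) : Eis → ℂ := fun n => if a ∣ n ∧ IsCoprime n b then α n else 0

lemma alr_ne {α : Eis → ℂ} {a b n : Eis} (h : alr α a b n ≠ 0) :
    a ∣ n ∧ IsCoprime n b ∧ α n ≠ 0 := by
  unfold alr at h
  split_ifs at h with h1
  · exact ⟨h1.1, h1.2, h⟩
  · exact absurd rfl h

lemma alr_one_one (α : Eis → ℂ) : alr α 1 1 = α := by
  funext n
  unfold alr
  rw [if_pos ⟨one_dvd n, isCoprime_one_right⟩]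

lemma norm_alr_le (α : Eis → ℂ) (a b n : Eis) : ‖alr α a b n‖ ≤ ‖α n‖ := by
  unfold alr
  split_ifs
  · exact le_rfl
  · rw [norm_zero]; exact norm_nonneg _

/-- the values of the sub-sequence -/
lemma ag_alr {α : Eis → ℂ} {a b δ g₀ h c m D' : Eis} (ha : a = h * c) (hh : h ∣ g₀ * m)
    (hc : IsCoprime c δ) :
    ag (alr α a b) δ g₀ (m * (c * D')) = ag (alr α 1 b) δ (g₀ * c) (m * D') := by
  classical
  have e : g₀ * (m * (c * D')) = g₀ * c * (m * D') := by ring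
  unfold E2440.ag
  by_cases h1 : IsCoprime (m * D') δ
  · have h2 : IsCoprime (m * (c * D')) δ := by
      have e2 : m * (c * D') = c * (m * D') := by ring
      rw [e2]
      exact hc.mul_left h1
    rw [if_pos h1, if_pos h2, e]
    unfold alr
    have h3 : a ∣ g₀ * c * (m * D') := by
      obtain ⟨x, hx⟩ := hh
      refine ⟨x * D', ?_⟩
      calc g₀ * c * (m * D') = (g₀ * m) * (c * D') := by ring
        _ = h * x * (c * D') := by rw [hx]
        _ = a * (x * D') := by rw [ha]; ring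
    by_cases h4 : IsCoprime (g₀ * c * (m * D')) b
    · rw [if_pos ⟨h3, h4⟩, if_pos ⟨one_dvd _, h4⟩]
    · rw [if_neg (fun h5 => h4 h5.2), if_neg (fun h5 => h4 h5.2)]
  · have h2 : ¬ IsCoprime (m * (c * D')) δ := by
      intro h3
      apply h1
      have e2 : m * (c * D') = c * (m * D') := by ring
      rw [e2] at h3
      exact h3.of_mul_left_right
    rw [if_neg h1, if_neg h2]

lemma c_dvd {α : Eis → ℂ} {a b δ g₀ h c m D : Eis} (ha : a = h * c) (hc : IsCoprime c (g₀ * m))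
    (h0 : ag (alr α a b) δ g₀ (m * D) ≠ 0) : ∃ D', D = c * D' := by
  obtain ⟨h1, h2⟩ := E2440.ag_ne h0
  obtain ⟨h3, _, _⟩ := alr_ne h2
  have h4 : c ∣ g₀ * m * D := by
    have e : g₀ * m * D = g₀ * (m * D) := by ring
    rw [e]
    exact (Dvd.intro_left h ha.symm).trans h3
  exact hc.dvd_of_dvd_mul_left h4

open Classical in
/-- **the dual form** -/
theorem CS_alr {α : Eis → ℂ} (hα : ∀ n, α n ≠ 0 → IsPrim n) {a b δ g₀ h c B G : Eis}
    (hg₀ : IsPrim g₀) (hB : IsPrim B) (hG : IsPrim G) (hcp : IsPrim c) (ha : a = h * c)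
    (hh : h ∣ g₀ * (B * G)) (hc : IsCoprime c (g₀ * (B * G))) (E τ k : Eis) (t : ℝ) :
    ‖CS (sub (cT (ag (alr α a b) δ g₀) E B τ t) G) k‖ ≤
      if IsCoprime c δ then ‖CS (sub (cT (ag (alr α 1 b) δ (g₀ * c)) E B τ t) G) k‖ else 0 := by
  classical
  have eBG : ∀ D, B * (G * D) = (B * G) * D := fun D => (mul_assoc B G D).symm
  have hsup : ∀ D, ag (alr α a b) δ g₀ (B * (G * D)) ≠ 0 → ∃ D', D = c * D' := by
    intro D hD
    rw [eBG] at hD
    exact c_dvd ha hc hD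
  split_ifs with hcd
  swap
  · -- everything vanishes
    have h0 : ∀ D, cT (ag (alr α a b) δ g₀) E B τ t (G * D) * sy k D = 0 := by
      intro D
      have h1 : ag (alr α a b) δ g₀ (B * (G * D)) = 0 := by
        by_contra h2
        obtain ⟨D', rfl⟩ := hsup D h2
        have h3 := (E2440.ag_ne h2).1
        exact hcd h3.of_mul_left_right.of_mul_left_right.of_mul_left_left
      unfold E2440.cT
      rw [h1]; ring
    unfold CM106.CS CM106.sub
    simp [h0]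
  set u : ℂ := sy E c * conj (sy c B) * (sy τ c * osc t (-Real.log (nm c))) * sy k c with hu
  have hsy : ∀ x y : Eis, IsPrim y → ‖sy x y‖ ≤ 1 := fun x y hy => norm_sy_le syG hy
  have hu1 : ‖u‖ ≤ 1 := by
    rw [hu, norm_mul, norm_mul, norm_mul, norm_mul, norm_osc, mul_one, RCLike.norm_conj]
    have h1 := hsy E c hcp
    have h2 := hsy c B hB
    have h3 := hsy τ c hcp
    have h4 := hsy k c hcp
    have n1 := norm_nonneg (sy E c)
    have n2 := norm_nonneg (sy c B)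
    have n3 := norm_nonneg (sy τ c)
    have n4 := norm_nonneg (sy k c)
    calc ‖sy E c‖ * ‖sy c B‖ * ‖sy τ c‖ * ‖sy k c‖ ≤ 1 * 1 * 1 * 1 := by gcongr
      _ = 1 := by ring
  have hinj : Function.Injective (fun D : Eis => c * D) := fun x y h =>
    mul_left_cancel₀ hcp.ne_zero h
  have hsup2 : Function.support (fun D : Eis =>
      cT (ag (alr α a b) δ g₀) E B τ t (G * D) * sy k D) ⊆ Set.range (fun D : Eis => c * D) := by
    intro D hD
    rw [Function.mem_support] at hD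
    have h1 : ag (alr α a b) δ g₀ (B * (G * D)) ≠ 0 := by
      intro h0
      apply hD
      unfold E2440.cT
      rw [h0]; ring
    obtain ⟨D', hD'⟩ := hsup D h1
    exact ⟨D', hD'.symm⟩
  have key : CS (sub (cT (ag (alr α a b) δ g₀) E B τ t) G) k =
      u * CS (sub (cT (ag (alr α 1 b) δ (g₀ * c)) E B τ t) G) k := by
    unfold CM106.CS CM106.sub
    rw [← hinj.tsum_eq hsup2, ← tsum_mul_left]
    refine tsum_congr fun D => ?_
    have e1 : ag (alr α a b) δ g₀ (B * (G * (c * D))) =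
        ag (alr α 1 b) δ (g₀ * c) (B * (G * D)) := by
      have e2 : B * (G * (c * D)) = (B * G) * (c * D) := by ring
      rw [e2, eBG]
      exact ag_alr ha hh hcd
    unfold E2440.cT
    rw [e1]
    by_cases h0 : ag (alr α 1 b) δ (g₀ * c) (B * (G * D)) = 0
    · rw [h0]; ring
    have hDp : IsPrim D := by
      have h1 := (E2440.ag_ne h0).2
      have h2 := hα _ (alr_ne h1).2.2
      exact ((h2.of_mul_left (hg₀.mul hcp)).of_mul_left hB).of_mul_left hG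
    have hGD : IsPrim (G * D) := hG.mul hDp
    have e3 : G * (c * D) = c * (G * D) := by ring
    have hlog : Real.log (nm (c * (G * D))) = Real.log (nm c) + Real.log (nm (G * D)) := by
      have a1 : (nm c : ℝ) ≠ 0 := by exact_mod_cast (nm_pos.2 hcp.ne_zero).ne'
      have a2 : (nm (G * D) : ℝ) ≠ 0 := by exact_mod_cast (nm_pos.2 hGD.ne_zero).ne'
      rw [nm_mul]
      push_cast
      exact Real.log_mul a1 a2
    have hosc : osc t (-Real.log (nm (c * (G * D)))) =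
        osc t (-Real.log (nm c)) * osc t (-Real.log (nm (G * D))) := by
      rw [hlog, neg_add, MoF106.osc_add]
    rw [e3, syG.mul_right E c (G * D) hcp hGD, syG.mul_left c (G * D) B hB,
      syG.mul_right τ c (G * D) hcp hGD, syG.mul_right k c D hcp hDp, hosc, map_mul, hu]
    ring
  rw [key, norm_mul]
  exact mul_le_of_le_one_left (norm_nonneg _) hu1

lemma norm_n6 {c : Eis} (hc : IsPrim c) : ‖((n6 c : ℝ) : ℂ)‖ ^ 2 = (nm c : ℝ) ^ (-(1 : ℝ) / 3) := by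
  have h1 : (0 : ℝ) < nm c := by exact_mod_cast nm_pos.2 hc.ne_zero
  unfold PX764.n6
  rw [Complex.norm_real, Real.norm_of_nonneg (by positivity), ← Real.rpow_natCast,
    ← Real.rpow_mul h1.le]
  congr 1
  norm_num

open Classical in
/-- **the direct side** -/
theorem MT_alr1 {α : Eis → ℂ} (hα : ∀ n, α n ≠ 0 → IsPrim n) {a b δ g₀ h c B : Eis}
    (hg₀ : IsPrim g₀) (hB : IsPrim B) (hcp : IsPrim c) (ha : a = h * c)
    (hh : h ∣ g₀ * B) (hc : IsCoprime c (g₀ * B)) (E σ r : Eis) :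
    ‖MT (ag (alr α a b) δ g₀) E B σ r‖ ^ 2 ≤
      if IsCoprime c δ then (nm c : ℝ) ^ (-(1 : ℝ) / 3) *
        ‖MT (ag (alr α 1 b) δ (g₀ * c)) E B σ (r * c)‖ ^ 2 else 0 := by
  classical
  have hsup : ∀ D, ag (alr α a b) δ g₀ (B * D) ≠ 0 → ∃ D', D = c * D' := by
    intro D hD
    exact c_dvd ha hc hD
  split_ifs with hcd
  swap
  · have h0 : ∀ D, ag (alr α a b) δ g₀ (B * D) * (sy E D * conj (sy D B)) *
        ((n6 D : ℂ) * Gh (σ * r) D) = 0 := by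
      intro D
      have h1 : ag (alr α a b) δ g₀ (B * D) = 0 := by
        by_contra h2
        obtain ⟨D', rfl⟩ := hsup D h2
        have h3 := (E2440.ag_ne h2).1
        exact hcd h3.of_mul_left_right.of_mul_left_left
      rw [h1]; ring
    unfold E2440.MT
    simp [h0]
  set u : ℂ := sy E c * conj (sy c B) * ((n6 c : ℂ) * Gh (σ * r) c) with hu
  have hsy : ∀ x y : Eis, IsPrim y → ‖sy x y‖ ≤ 1 := fun x y hy => norm_sy_le syG hy
  have hu1 : ‖u‖ ^ 2 ≤ (nm c : ℝ) ^ (-(1 : ℝ) / 3) := by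
    rw [← norm_n6 hcp]
    refine pow_le_pow_left₀ (norm_nonneg _) ?_ 2
    rw [hu, norm_mul, norm_mul, norm_mul, RCLike.norm_conj]
    have h1 := hsy E c hcp
    have h2 := hsy c B hB
    have h4 := norm_Gh_le' (h := σ * r) hcp
    have n1 := norm_nonneg (sy E c)
    have n2 := norm_nonneg (sy c B)
    have n3 := norm_nonneg ((n6 c : ℝ) : ℂ)
    have n4 := norm_nonneg (Gh (σ * r) c)
    calc ‖sy E c‖ * ‖sy c B‖ * (‖((n6 c : ℝ) : ℂ)‖ * ‖Gh (σ * r) c‖)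
        ≤ 1 * 1 * (‖((n6 c : ℝ) : ℂ)‖ * 1) := by gcongr
      _ = _ := by ring
  have hinj : Function.Injective (fun D : Eis => c * D) := fun x y h =>
    mul_left_cancel₀ hcp.ne_zero h
  have hsup2 : Function.support (fun D : Eis =>
      ag (alr α a b) δ g₀ (B * D) * (sy E D * conj (sy D B)) *
        ((n6 D : ℂ) * Gh (σ * r) D)) ⊆ Set.range (fun D : Eis => c * D) := by
    intro D hD
    rw [Function.mem_support] at hD
    have h1 : ag (alr α a b) δ g₀ (B * D) ≠ 0 := by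
      intro h0
      apply hD
      rw [h0]; ring
    obtain ⟨D', hD'⟩ := hsup D h1
    exact ⟨D', hD'.symm⟩
  have key : MT (ag (alr α a b) δ g₀) E B σ r =
      u * MT (ag (alr α 1 b) δ (g₀ * c)) E B σ (r * c) := by
    unfold E2440.MT
    rw [← hinj.tsum_eq hsup2, ← tsum_mul_left]
    refine tsum_congr fun D => ?_
    have e1 : ag (alr α a b) δ g₀ (B * (c * D)) = ag (alr α 1 b) δ (g₀ * c) (B * D) :=
      ag_alr ha hh hcd
    rw [e1]
    by_cases h0 : ag (alr α 1 b) δ (g₀ * c) (B * D) = 0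
    · rw [h0]; ring
    have hDp : IsPrim D := by
      have h1 := (E2440.ag_ne h0).2
      have h2 := hα _ (alr_ne h1).2.2
      exact (h2.of_mul_left (hg₀.mul hcp)).of_mul_left hB
    have e6 : σ * (r * c) = σ * r * c := by ring
    rw [syG.mul_right E c D hcp hDp, syG.mul_left c D B hB, n6_mul c D, Gh_mul hcp hDp,
      map_mul, hu, e6]
    push_cast
    ring
  rw [key, norm_mul, mul_pow]
  exact mul_le_mul_of_nonneg_right hu1 (sq_nonneg _)

/-! ### the sum over `a` -/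

/-- **the sum over `a`**, for fixed `n₀` : the common part of `a` and `n₀` is a divisor of `n₀` -/
theorem sum_split {𝒜 : Finset Eis} {U : ℝ} (hU : 0 ≤ U)
    (h𝒜 : ∀ a ∈ 𝒜, IsPrim a ∧ Squarefree a ∧ (nm a : ℝ) ≤ U) {n₀ : Eis} (hn₀ : IsPrim n₀)
    (f F : Eis → ℝ) (hF : ∀ c, 0 ≤ F c)
    (h : Squarefree n₀ → ∀ a ∈ 𝒜, ∀ e c, IsPrim e → IsPrim c → Squarefree c → a = e * c →
      e ∣ n₀ → IsCoprime c n₀ → f a ≤ F c)
    (hz : ¬ Squarefree n₀ → ∀ a ∈ 𝒜, f a ≤ 0) :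
    ∑ a ∈ 𝒜, f a ≤ tau n₀ * ∑ c ∈ S U, F c := by
  classical
  by_cases hs : Squarefree n₀
  swap
  · refine (Finset.sum_nonpos fun a ha => hz hs a ha).trans ?_
    exact mul_nonneg (Nat.cast_nonneg _) (Finset.sum_nonneg fun c _ => hF c)
  have key : ∀ a ∈ 𝒜, ∃ p : Eis × Eis, p ∈ dvs n₀ ×ˢ S U ∧ a = p.1 * p.2 ∧ f a ≤ F p.2 := by
    intro a ha
    obtain ⟨a1, a2, a3⟩ := h𝒜 a ha
    obtain ⟨e, c, k, he, hc, hk, h1, h2, hcop, hec, hek, hes, hcs, hks⟩ :=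
      Tau671.exists_gcd_split a1 hn₀ a2 hs
    refine ⟨(e, c), ?_, h1, ?_⟩
    · rw [Finset.mem_product, mem_dvs hn₀.ne_zero, mem_S hU]
      refine ⟨⟨he, h2 ▸ dvd_mul_right _ _⟩, ?_, hc, hcs⟩
      have h3 : nm c ≤ nm a := Div277.nm_le_of_dvd a1.ne_zero (h1 ▸ dvd_mul_left _ _)
      exact le_trans (by exact_mod_cast h3) a3
    · refine h hs a ha e c he hc hcs h1 (h2 ▸ dvd_mul_right _ _) ?_
      rw [h2]
      exact hec.symm.mul_right hcop
  choose! p hp using key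
  have hinj : ∀ a ∈ 𝒜, ∀ a' ∈ 𝒜, p a = p a' → a = a' := by
    intro a ha a' ha' hpp
    rw [(hp a ha).2.1, (hp a' ha').2.1, hpp]
  calc ∑ a ∈ 𝒜, f a ≤ ∑ a ∈ 𝒜, F (p a).2 := Finset.sum_le_sum fun a ha => (hp a ha).2.2
    _ = ∑ x ∈ 𝒜.image p, F x.2 := (Finset.sum_image (f := fun x : Eis × Eis => F x.2)
        (fun a ha a' ha' h' => hinj a ha a' ha' h')).symm
    _ ≤ ∑ x ∈ dvs n₀ ×ˢ S U, F x.2 := by
        refine Finset.sum_le_sum_of_subset_of_nonneg (fun x hx => ?_) fun x _ _ => hF _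
        rw [Finset.mem_image] at hx
        obtain ⟨a, ha, rfl⟩ := hx
        exact (hp a ha).1
    _ = tau n₀ * ∑ c ∈ S U, F c := by
        rw [Finset.sum_product]
        simp only [Finset.sum_const, nsmul_eq_mul]
        rfl

lemma CS_zero {α : Eis → ℂ} (hα : ∀ n, α n ≠ 0 → Squarefree n) {a b δ g₀ B G : Eis}
    (hns : ¬ Squarefree (g₀ * (B * G))) (E τ k : Eis) (t : ℝ) :
    CS (sub (cT (ag (alr α a b) δ g₀) E B τ t) G) k = 0 := by
  have h0 : ∀ D, cT (ag (alr α a b) δ g₀) E B τ t (G * D) * sy k D = 0 := by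
    intro D
    have h1 : ag (alr α a b) δ g₀ (B * (G * D)) = 0 := by
      by_contra h2
      apply hns
      have h3 := hα _ (alr_ne (E2440.ag_ne h2).2).2.2
      exact h3.squarefree_of_dvd ⟨D, by ring⟩
    unfold E2440.cT
    rw [h1]; ring
  unfold CM106.CS CM106.sub
  simp [h0]

lemma MT_zero {α : Eis → ℂ} (hα : ∀ n, α n ≠ 0 → Squarefree n) {a b δ g₀ B : Eis}
    (hns : ¬ Squarefree (g₀ * B)) (E σ r : Eis) : MT (ag (alr α a b) δ g₀) E B σ r = 0 := by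
  have h0 : ∀ D, ag (alr α a b) δ g₀ (B * D) * (sy E D * conj (sy D B)) *
      ((n6 D : ℂ) * Gh (σ * r) D) = 0 := by
    intro D
    have h1 : ag (alr α a b) δ g₀ (B * D) = 0 := by
      by_contra h2
      apply hns
      have h3 := hα _ (alr_ne (E2440.ag_ne h2).2).2.2
      exact h3.squarefree_of_dvd ⟨D, by ring⟩
    rw [h1]; ring
  unfold E2440.MT
  simp [h0]

open Classical in
/-- the divisors `c` -/
def Sd (U : ℝ) (δ : Eis) : Finset Eis := (S U).filter (fun c => IsCoprime c δ)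

section
variable {α : Eis → ℂ} {𝒜 : Finset Eis} {U : ℝ} {b δ g₀ B : Eis}

/-- **one dual form, summed over `a`** -/
theorem CS_sum (hα : ∀ n, α n ≠ 0 → IsPrim n ∧ Squarefree n) (hU : 0 ≤ U)
    (h𝒜 : ∀ a ∈ 𝒜, IsPrim a ∧ Squarefree a ∧ (nm a : ℝ) ≤ U) (hg₀ : IsPrim g₀) (hB : IsPrim B)
    {G : Eis} (hG : IsPrim G) (E τ k : Eis) (t : ℝ) :
    ∑ a ∈ 𝒜, ‖CS (sub (cT (ag (alr α a b) δ g₀) E B τ t) G) k‖ ^ 2 ≤
      tau (g₀ * (B * G)) * ∑ c ∈ Sd U δ,
        ‖CS (sub (cT (ag (alr α 1 b) δ (g₀ * c)) E B τ t) G) k‖ ^ 2 := by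
  classical
  have h1 := sum_split hU h𝒜 (hg₀.mul (hB.mul hG))
    (fun a => ‖CS (sub (cT (ag (alr α a b) δ g₀) E B τ t) G) k‖ ^ 2)
    (fun c => if IsCoprime c δ then
      ‖CS (sub (cT (ag (alr α 1 b) δ (g₀ * c)) E B τ t) G) k‖ ^ 2 else 0)
    (fun c => by split_ifs <;> positivity)
    (fun hs a ha e c he hc hcs h1 h2 h3 => by
      have h4 := CS_alr (fun n hn => (hα n hn).1) (b := b) (δ := δ) hg₀ hB hG hc h1 h2 h3 E τ k t
      split_ifs at h4 ⊢ with h5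
      · exact pow_le_pow_left₀ (norm_nonneg _) h4 2
      · have h6 := le_antisymm h4 (norm_nonneg _)
        rw [h6]; norm_num)
    (fun hs a _ => by
      rw [CS_zero (fun n hn => (hα n hn).2) hs]; simp)
  refine h1.trans (le_of_eq ?_)
  congr 1
  unfold Sd
  rw [Finset.sum_filter]

/-- **the moment functional, summed over `a`** -/
theorem MoP_alr (hα : ∀ n, α n ≠ 0 → IsPrim n ∧ Squarefree n) (hU : 0 ≤ U)
    (h𝒜 : ∀ a ∈ 𝒜, IsPrim a ∧ Squarefree a ∧ (nm a : ℝ) ≤ U) (hg₀ : IsPrim g₀) (hB : IsPrim B)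
    {X Z : ℝ} (hX : 0 ≤ X) {W : Eis → Eis → ℝ} (hW : ∀ g₂ ∈ S X, ∀ g₃ ∈ S X, 0 ≤ W g₂ g₃)
    {P : Eis → Eis → Eis → Prop} {Tm : ℝ}
    (hT : ∀ g₂ ∈ S X, ∀ g₃ ∈ S X, (tau (g₀ * (B * (g₂ * g₃))) : ℝ) ≤ Tm) (E τ : Eis) (t : ℝ) :
    ∑ a ∈ 𝒜, MoP (ag (alr α a b) δ g₀) E B τ X t Z W P ≤
      Tm * ∑ c ∈ Sd U δ, MoP (ag (alr α 1 b) δ (g₀ * c)) E B τ X t Z W P := by
  classical
  unfold MoF106.MoP
  have e1 : ∑ a ∈ 𝒜, ∑ g₂ ∈ S X, ∑ g₃ ∈ S X, W g₂ g₃ * ∑ d ∈ (pb Z).filter (P g₂ g₃),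
      ‖CS (sub (cT (ag (alr α a b) δ g₀) E B τ t) (g₂ * g₃)) d‖ ^ 2 =
      ∑ g₂ ∈ S X, ∑ g₃ ∈ S X, W g₂ g₃ * ∑ d ∈ (pb Z).filter (P g₂ g₃), ∑ a ∈ 𝒜,
      ‖CS (sub (cT (ag (alr α a b) δ g₀) E B τ t) (g₂ * g₃)) d‖ ^ 2 := by
    rw [Finset.sum_comm]
    refine Finset.sum_congr rfl fun g₂ _ => ?_
    rw [Finset.sum_comm]
    refine Finset.sum_congr rfl fun g₃ _ => ?_
    rw [← Finset.mul_sum, Finset.sum_comm]
  have e2 : ∑ c ∈ Sd U δ, ∑ g₂ ∈ S X, ∑ g₃ ∈ S X, W g₂ g₃ * ∑ d ∈ (pb Z).filter (P g₂ g₃),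
      ‖CS (sub (cT (ag (alr α 1 b) δ (g₀ * c)) E B τ t) (g₂ * g₃)) d‖ ^ 2 =
      ∑ g₂ ∈ S X, ∑ g₃ ∈ S X, W g₂ g₃ * ∑ d ∈ (pb Z).filter (P g₂ g₃), ∑ c ∈ Sd U δ,
      ‖CS (sub (cT (ag (alr α 1 b) δ (g₀ * c)) E B τ t) (g₂ * g₃)) d‖ ^ 2 := by
    rw [Finset.sum_comm]
    refine Finset.sum_congr rfl fun g₂ _ => ?_
    rw [Finset.sum_comm]
    refine Finset.sum_congr rfl fun g₃ _ => ?_
    rw [← Finset.mul_sum, Finset.sum_comm]
  rw [e1, e2, Finset.mul_sum]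
  refine Finset.sum_le_sum fun g₂ h₂ => ?_
  rw [Finset.mul_sum]
  refine Finset.sum_le_sum fun g₃ h₃ => ?_
  rw [mul_left_comm]
  refine mul_le_mul_of_nonneg_left ?_ (hW g₂ h₂ g₃ h₃)
  rw [Finset.mul_sum]
  refine Finset.sum_le_sum fun d _ => ?_
  have hG : IsPrim (g₂ * g₃) := ((mem_S hX).1 h₂).2.1.mul ((mem_S hX).1 h₃).2.1
  refine (CS_sum hα hU h𝒜 hg₀ hB hG E τ d t).trans ?_
  exact mul_le_mul_of_nonneg_right (hT g₂ h₂ g₃ h₃) (Finset.sum_nonneg fun _ _ => sq_nonneg _)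

/-- **the direct side, summed over `a`** -/
theorem MT_alr (hα : ∀ n, α n ≠ 0 → IsPrim n ∧ Squarefree n) (hU : 0 ≤ U)
    (h𝒜 : ∀ a ∈ 𝒜, IsPrim a ∧ Squarefree a ∧ (nm a : ℝ) ≤ U) (hg₀ : IsPrim g₀) (hB : IsPrim B)
    (E σ r : Eis) :
    ∑ a ∈ 𝒜, ‖MT (ag (alr α a b) δ g₀) E B σ r‖ ^ 2 ≤
      tau (g₀ * B) * ∑ c ∈ Sd U δ, (nm c : ℝ) ^ (-(1 : ℝ) / 3) *
        ‖MT (ag (alr α 1 b) δ (g₀ * c)) E B σ (r * c)‖ ^ 2 := by
  classical
  have h1 := sum_split hU h𝒜 (hg₀.mul hB)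
    (fun a => ‖MT (ag (alr α a b) δ g₀) E B σ r‖ ^ 2)
    (fun c => if IsCoprime c δ then (nm c : ℝ) ^ (-(1 : ℝ) / 3) *
      ‖MT (ag (alr α 1 b) δ (g₀ * c)) E B σ (r * c)‖ ^ 2 else 0)
    (fun c => by split_ifs <;> positivity)
    (fun hs a ha e c he hc hcs h1 h2 h3 =>
      MT_alr1 (fun n hn => (hα n hn).1) (b := b) (δ := δ) hg₀ hB hc h1 h2 h3 E σ r)
    (fun hs a _ => by
      rw [MT_zero (fun n hn => (hα n hn).2) hs]; simp)
  refine h1.trans (le_of_eq ?_)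
  congr 1
  unfold Sd
  rw [Finset.sum_filter]

end

end Crest.Agent.R017.MoCa83
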