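import Crest.Agent.R017.MoJa_401

/-!
# Row 17, block C70, leaf E2 (helper401): list form of the block moment, part 2

* `MoJC_list` : the block moment for lists of pieces, in terms of natural quadruple sums
-/

set_option autoImplicit false
set_option maxHeartbeats 400000

noncomputable section

open Complex Finset
open scoped ComplexConjugate

namespace Crest.Agent.R017.MoJ401

open Crest.Agent.R012 Crest.Agent.R012.Eis Crest.Agent.R012.LS2
open Crest.Agent.R012.Div277 Crest.Agent.R012.Weight600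
open Crest.Agent.R017.CM106 Crest.Agent.R017.FE47 Crest.Agent.R017.End699
open Crest.Agent.R017.B770
open Crest.Agent.R017.Prov71
open Crest.Agent.R017.HP842 (pc)
open Crest.Agent.R017.TPOk571 (IP FP SD SD_w SD_len SD_ht sd_ok AC relU)
open Crest.Agent.R017.X6C180 (IX dl')
open Crest.Agent.R017.H1401 (pb mem_pb WJ)
open Crest.Agent.R017.Win813 (iA iA_nonneg WK)
open Crest.Agent.R017.XRG106
open Crest.Agent.R017.MoF106
open Crest.Agent.R017.MoL106 (FromP Q4 mem_Q4 f4 MoC_list NX_sq_le)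

lemma pb_empty {Z : ℝ} (hZ : 0 ≤ Z) (h : Z < 1) : pb Z = ∅ := by
  rw [Finset.eq_empty_iff_forall_notMem]
  intro d hd
  rw [mem_pb hZ] at hd
  have : (1 : ℝ) ≤ nm d := by exact_mod_cast nm_pos.2 hd.2.ne_zero
  linarith [hd.1]

lemma MoC_empty {C η : ℝ} {A : ℕ} {σ : Eis} {al : Eis → ℂ} {E B : Eis} {X Z : ℝ}
    {W : Eis → Eis → ℝ} {P : IX σ → Eis → Eis → Eis → Prop} (hZ : 0 ≤ Z) (h : Z < 1) :
    MoC C η A σ al E B X Z W P = 0 := by
  classical
  unfold MoC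
  rw [Finset.sum_eq_zero, mul_zero]
  intro i _
  unfold MoI
  have e : ∀ v : ℝ, ((1 + |v|) ^ A)⁻¹ * MoP al E B (dl' σ i) X v Z W (P i) = 0 := by
    intro v
    unfold MoP
    rw [pb_empty hZ h]
    simp
  simp only [e, MeasureTheory.integral_zero]

lemma MoC_nonneg' {C η : ℝ} (hη : 0 < η) {A : ℕ} {σ : Eis} {al : Eis → ℂ} {E B : Eis} {X Z : ℝ}
    {W : Eis → Eis → ℝ} {P : IX σ → Eis → Eis → Eis → Prop}
    (hW : ∀ g₂ ∈ S X, ∀ g₃ ∈ S X, 0 ≤ W g₂ g₃) : 0 ≤ MoC C η A σ al E B X Z W P := by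
  unfold MoC
  have := iA_nonneg A
  exact mul_nonneg (by positivity) (Finset.sum_nonneg fun _ _ => MoI_nonneg hW)

lemma exp_third_two : Real.exp (1 / 3 : ℝ) ≤ 2 := by
  have h5 : Real.exp (1 / 3 : ℝ) ^ 3 = Real.exp 1 := by
    rw [← Real.exp_nat_mul]; norm_num
  have h6 : Real.exp 1 < 8 := lt_trans Real.exp_one_lt_d9 (by norm_num)
  by_contra h7
  push Not at h7
  have h8 : (2 : ℝ) ^ 3 ≤ Real.exp (1 / 3 : ℝ) ^ 3 := pow_le_pow_left₀ (by norm_num) h7.le 3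
  rw [h5] at h8
  linarith

/-- the weight of a cell, `x = exp (v/3)` the size of `g₂`, `G = nm g` -/
def wJc (R Z U G x : ℝ) : ℝ := x * (G * (R + (Z * U / (x * G ^ 2)) ^ 2))

lemma wJc_nonneg {R Z U G x : ℝ} (hR : 0 ≤ R) (hG : 0 ≤ G) (hx : 0 ≤ x) : 0 ≤ wJc R Z U G x := by
  unfold wJc; positivity

lemma WJ_le_wJc {R Z U X : ℝ} (hR : 0 ≤ R) (hZ : 0 ≤ Z) (hU : 0 ≤ U) (hX : 0 ≤ X) {g g₂ : Eis}
    (hg : g ≠ 0) {v : ℕ} (h : g₂ ∈ bk X v) :
    WJ R Z U g g₂ ≤ 2 * wJc R Z U (nm g) (Real.exp ((v : ℝ) / 3)) := by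
  have hg0 : (0 : ℝ) < nm g := by exact_mod_cast nm_pos.2 hg
  have h1 := bk_nm_ge hX h
  have h2 := bk_nm_le hX h
  rw [Real.exp_add] at h2
  have h3 : (nm g₂ : ℝ) ≤ 2 * Real.exp ((v : ℝ) / 3) := by
    have := mul_le_mul_of_nonneg_left exp_third_two (Real.exp_pos ((v : ℝ) / 3)).le
    linarith
  have he := Real.exp_pos ((v : ℝ) / 3)
  unfold WJ wJc
  rw [← mul_assoc 2 (Real.exp ((v : ℝ) / 3))]
  refine mul_le_mul h3 ?_ (by positivity) (by positivity)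
  refine mul_le_mul_of_nonneg_left ?_ hg0.le
  gcongr

/-- **the block moment for lists of pieces** -/
theorem MoJC_list {h : ℝ → ℝ} {c : ℝ} (hpu : PU h c) {R : ℝ} (hR0 : 0 ≤ R)
    (hR : ∀ u, cx h u ≠ 0 → |u| ≤ R) {μ : ℝ} (hμ : 0 ≤ μ) (r : ℕ) (σ : Eis) {ε : ℝ}
    (hε : 0 < ε) :
    ∃ C : ℝ, 1 ≤ C ∧ ∀ (A' : ℕ), 2 * (r * μ) + 2 ≤ A' → ∀ (Cφ η : ℝ), 0 < η →
      ∀ (P : DPar) (hP : P.OK) (s : Fin r → Pq), (∀ i, 0 ≤ (s i).z) →
      ∀ j : Fin r → IP, (∀ i, FromP hP (j i) (s i)) →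
      ∀ (γ q g₀ δ E ν : Eis), IsPrim γ → Squarefree γ → IsPrim g₀ → IsPrim q → IsPrim δ →
      IsPrim ν →
      ∀ (T : Finset Eis) (Bs : Eis → Finset Eis) (X Z Rr U X0 : ℝ), 1 ≤ X → 0 ≤ Z → 0 ≤ Rr →
      1 ≤ U → X ≤ X0 → U ≤ X0 → (nm γ : ℝ) ≤ X0 → (nm g₀ : ℝ) ≤ X0 → (nm q : ℝ) ≤ X0 →
      (nm δ : ℝ) ≤ X0 → (nm ν : ℝ) ≤ X0 → (∀ i, Real.exp (s i).z ≤ X0) →
      (∀ y ∈ T, ∀ B ∈ Bs y, B ∈ S X ∧ U / 2 ≤ nm B ∧ (nm B : ℝ) ≤ U) → ∀ M : ℝ, 0 ≤ M →
      (∀ n ∈ dvs ν, ∀ g ∈ S U, IsCoprime g δ →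
        ∀ u < NX X, ∀ v < NX X, ∀ w < NX X, Real.exp ((u : ℝ) / 3) * nm g ≤ U →
        U ≤ 2 * (Real.exp ((u : ℝ) / 3 + 1 / 3) * nm g) →
        (nm n : ℝ) ^ 3 * (Real.exp (2 * ((v : ℝ) / 3)) * Real.exp w) ≤ Z / nm g →
        ∀ i : IX σ, ∀ g₃ ∈ bk X w,
        ∀ (s' : Fin r → Pq) (W0 : ℝ), 1 ≤ W0 → (∀ k, Rl C W0 (s' k) (s k)) →
        ∑ k, (s' k).z ≤ ∑ k, (j k).z + Real.log (nm γ) -
          (Real.log (nm (g₀ * g)) + ((u : ℝ) / 3 + v / 3 + w / 3)) + C →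
        (nm n : ℝ) * nm g * wJc Rr (Z / (nm n : ℝ) ^ 3) U (nm g) (Real.exp ((v : ℝ) / 3)) *
          Real.exp ((w : ℝ) / 3) *
          ∑ x ∈ Q4 T X (Z / nm g) u v (fun y B g₂ g₃ d => g * B ∈ Bs y ∧ PJ n g Z B g₂ g₃ d) g₃,
          ∏ k, ‖CS (pc h ((s' k).pc P)) (f4 E (dl' σ i) x)‖ ^ 2 ≤
        M * Real.exp (∑ k, (s' k).z - (∑ k, (j k).z -
          (Real.log (nm (g₀ * g)) + ((u : ℝ) / 3 + v / 3 + w / 3)))) * W0 ^ (2 * μ)) →
      ∑ y ∈ T, MoJC Cφ η A' σ γ q g₀ δ ((SD h μ r).w j) ν (E * y) X Rr Z U (Bs y) ≤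
        C * (Cφ ^ 2 * iA A' * (η * (η ^ A')⁻¹)) * X0 ^ ε * nm γ * M := by
  classical
  obtain ⟨C1, hC1, hs1⟩ := MoC_list hpu hR0 hR hμ r σ (show 0 < ε / 8 by linarith)
  obtain ⟨C2, hC2, hτ⟩ := tau_le_rpow (show 0 < ε / 4 by linarith)
  obtain ⟨C3, hC3, hNX⟩ := NX_sq_le (show 0 < ε / 4 by linarith)
  set C4 : ℝ := 100 * (1 + (ε / 4)⁻¹) with hC4
  have hε4 : 0 < (ε / 4)⁻¹ := by positivity
  have hC41 : 1 ≤ C4 := by rw [hC4]; linarith
  set K : ℝ := 2 * C1 * C2 * C3 * C4 with hK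
  have hCK1 : C1 ≤ K := by
    have h1 : 1 ≤ C2 * C3 * C4 := one_le_mul_of_one_le_of_one_le
      (one_le_mul_of_one_le_of_one_le hC2 hC3) hC41
    have h2 : C1 * 1 ≤ C1 * (C2 * C3 * C4) := mul_le_mul_of_nonneg_left h1 (by linarith)
    rw [hK]
    nlinarith
  refine ⟨K, by linarith, ?_⟩
  intro A' hA' Cφ η hη P hP s hs j hj γ q g₀ δ E ν hγ hγs hg₀ hq hδ hν T Bs X Z Rr U X0 hX hZ
    hRr hU hXX hUX hγX hgX hqX hδX hνX hsX hBs M hM hyp
  have hX0 : 0 ≤ X := by linarith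
  have hX01 : 1 ≤ X0 := by linarith
  have hX00 : 0 < X0 := by linarith
  have hU0 : 0 ≤ U := by linarith
  have hγp : (1 : ℝ) ≤ nm γ := by exact_mod_cast nm_pos.2 hγ.ne_zero
  have hpA : 0 ≤ Cφ ^ 2 * iA A' * (η * (η ^ A')⁻¹) := by
    have := iA_nonneg A'; positivity
  set Ap : ℝ := Cφ ^ 2 * iA A' * (η * (η ^ A')⁻¹) with hAp
  have hXle : X0 ≤ X0 ^ 2 := le_self_pow₀ hX01 (by norm_num)
  have e8 : (X0 ^ 2) ^ (ε / 8) = X0 ^ (ε / 4) := by
    rw [← Real.rpow_natCast, ← Real.rpow_mul hX00.le]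
    congr 1
    push_cast; ring
  -- one pair `(n, g)`
  have key : ∀ n ∈ dvs ν, ∀ g ∈ (S U).filter (fun g => IsCoprime g δ),
      (nm n : ℝ) * ∑ y ∈ T, ∑ B ∈ (S X).filter (fun B => g * B ∈ Bs y),
        MoC Cφ η A' σ (aG γ q (g₀ * g) δ ((SD h μ r).w j)) (E * y) B X (Z / nm g)
        (fun g₂ _ => WJ Rr (Z / (nm n : ℝ) ^ 3) U g g₂) (fun _ => PJ n g Z B) ≤
      (NX X : ℝ) * (2 * C1 * Ap * X0 ^ (ε / 4) * nm γ * M) * (1 / nm g) := by
    intro n hn g hg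
    rw [Finset.mem_filter, mem_S hU0] at hg
    obtain ⟨⟨hgU, hg1, hgs⟩, hgδ⟩ := hg
    have hgS : g ∈ S U := (mem_S hU0).mpr ⟨hgU, hg1, hgs⟩
    rw [mem_dvs hν.ne_zero] at hn
    have hnp : (1 : ℝ) ≤ nm n := by exact_mod_cast nm_pos.2 hn.1.ne_zero
    have hgp : (1 : ℝ) ≤ nm g := by exact_mod_cast nm_pos.2 hg1.ne_zero
    have hZg : 0 ≤ Z / nm g := by positivity
    have hZn : 0 ≤ Z / (nm n : ℝ) ^ 3 := by positivity
    have hWn : ∀ g₂ ∈ S X, ∀ g₃ ∈ S X, 0 ≤ WJ Rr (Z / (nm n : ℝ) ^ 3) U g g₂ :=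
      fun _ _ _ _ => H1401.WJ_nonneg hRr _ _
    set Pr : Eis → Eis → IX σ → Eis → Eis → Eis → Prop :=
      fun y B _ g₂ g₃ d => g * B ∈ Bs y ∧ PJ n g Z B g₂ g₃ d with hPr
    set F : Eis → Eis → ℝ := fun y B =>
      MoC Cφ η A' σ (aG γ q (g₀ * g) δ ((SD h μ r).w j)) (E * y) B X (Z / nm g)
        (fun g₂ _ => WJ Rr (Z / (nm n : ℝ) ^ 3) U g g₂) (Pr y B) with hF
    have hF0 : ∀ y B, 0 ≤ F y B := fun y B => MoC_nonneg' hη hWn
    have step1 : ∑ y ∈ T, ∑ B ∈ (S X).filter (fun B => g * B ∈ Bs y),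
        MoC Cφ η A' σ (aG γ q (g₀ * g) δ ((SD h μ r).w j)) (E * y) B X (Z / nm g)
        (fun g₂ _ => WJ Rr (Z / (nm n : ℝ) ^ 3) U g g₂) (fun _ => PJ n g Z B) ≤
        ∑ u ∈ Finset.range (NX X), ∑ y ∈ T, ∑ B ∈ bk X u, F y B := by
      rw [Finset.sum_comm]
      refine Finset.sum_le_sum fun y _ => ?_
      have e1 : ∑ u ∈ Finset.range (NX X), ∑ B ∈ bk X u, F y B = ∑ B ∈ S X, F y B :=
        (sum_bk hX _).symm
      rw [e1, Finset.sum_filter]
      refine Finset.sum_le_sum fun B _ => ?_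
      split_ifs with h0
      · refine le_of_eq ?_
        rw [hF, hPr]
        simp only [h0, true_and]
      · exact hF0 y B
    have step2 : ∀ u ∈ Finset.range (NX X), ∑ y ∈ T, ∑ B ∈ bk X u, F y B ≤
        C1 * Ap * X0 ^ (ε / 4) * nm γ * (2 * M / (nm n * nm g)) := by
      intro u hu
      rw [Finset.mem_range] at hu
      have hM' : 0 ≤ 2 * M / (nm n * nm g) := by positivity
      rcases lt_or_ge (Z / nm g) 1 with hZ1 | hZ1
      · rw [Finset.sum_eq_zero]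
        · positivity
        intro y _
        refine Finset.sum_eq_zero fun B _ => ?_
        rw [hF]
        exact MoC_empty hZg hZ1
      · have h1 := hs1 A' hA' Cφ η hη P hP s hs j hj γ q (g₀ * g) δ E hγ hγs (hg₀.mul hg1) hq hδ
          T u X (Z / nm g) (X0 ^ 2) hX hZ1 (hXX.trans hXle) (hγX.trans hXle) (by
            rw [nm_mul, Nat.cast_mul, pow_two]
            exact mul_le_mul hgX (hgU.trans hUX) (Nat.cast_nonneg _) hX00.le)
          (hqX.trans hXle) (hδX.trans hXle) (fun i => (hsX i).trans hXle)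
          (fun g₂ _ => WJ Rr (Z / (nm n : ℝ) ^ 3) U g g₂)
          (fun v _ => 2 * wJc Rr (Z / (nm n : ℝ) ^ 3) U (nm g) (Real.exp ((v : ℝ) / 3)))
          hWn (fun v _ w _ g₂ hg₂ g₃ _ => WJ_le_wJc hRr hZn hU0 hX0 hg1.ne_zero hg₂)
          (fun v _ w _ => by
            have := wJc_nonneg (R := Rr) (Z := Z / (nm n : ℝ) ^ 3) (U := U) (G := nm g)
              (x := Real.exp ((v : ℝ) / 3)) hRr (Nat.cast_nonneg _) (Real.exp_pos _).le
            positivity)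
          Pr (fun y B i g₂ g₃ d hd => (dvd_mul_left _ _).trans hd.2.1)
          (2 * M / (nm n * nm g)) hM' (by
            intro v hv w hw _ i g₃ hg₃ s' W0 hW0 hRl hle
            rcases (Q4 T X (Z / nm g) u v (fun y B => Pr y B i) g₃).eq_empty_or_nonempty with
              h0 | ⟨x, hx⟩
            · rw [h0, Finset.sum_empty, mul_zero]
              have : 0 < W0 := by linarith
              positivity
            · obtain ⟨⟨x1, x2, x3, x4⟩, x5, x6, x7, -, -⟩ := mem_Q4.1 hx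
              have hB1 := hBs _ x1 _ x6
              rw [nm_mul, Nat.cast_mul] at hB1
              have a1 : Real.exp ((u : ℝ) / 3) * nm g ≤ U := by
                have := mul_le_mul_of_nonneg_right (bk_nm_ge hX0 x2) (Nat.cast_nonneg (nm g))
                linarith [hB1.2.2, mul_comm (nm g : ℝ) (nm x.2.1 : ℝ)]
              have a2 : U ≤ 2 * (Real.exp ((u : ℝ) / 3 + 1 / 3) * nm g) := by
                have := mul_le_mul_of_nonneg_right (bk_nm_le hX0 x2) (Nat.cast_nonneg (nm g))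
                linarith [hB1.2.1, mul_comm (nm g : ℝ) (nm x.2.1 : ℝ)]
              have a3 : (nm n : ℝ) ^ 3 * (Real.exp (2 * ((v : ℝ) / 3)) * Real.exp w) ≤
                  Z / nm g := by
                have b1 : (nm (x.2.2.1 ^ 2 * g₃ ^ 3 * x.2.2.2) : ℝ) ≤ Z / nm g :=
                  ((mem_pb hZg).1 x5).1
                have b0 : IsPrim (x.2.2.1 ^ 2 * g₃ ^ 3 * x.2.2.2) := ((mem_pb hZg).1 x5).2
                have b2 : (nm (n ^ 3 * (x.2.2.1 ^ 2 * g₃ ^ 3)) : ℝ) ≤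
                    nm (x.2.2.1 ^ 2 * g₃ ^ 3 * x.2.2.2) := by
                  exact_mod_cast nm_le_of_dvd b0.ne_zero x7
                rw [nm_mul, nm_pow, nm_mul, nm_pow, nm_pow] at b2
                push_cast at b2
                have c3 : Real.exp (w : ℝ) ≤ (nm g₃ : ℝ) ^ 3 := by
                  have := pow_le_pow_left₀ (Real.exp_pos _).le (bk_nm_ge hX0 hg₃) 3
                  rw [← Real.exp_nat_mul] at this
                  have e : ((3 : ℕ) : ℝ) * ((w : ℝ) / 3) = w := by push_cast; ring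
                  rwa [e] at this
                have c2 : Real.exp (2 * ((v : ℝ) / 3)) ≤ (nm x.2.2.1 : ℝ) ^ 2 := by
                  have := pow_le_pow_left₀ (Real.exp_pos _).le (bk_nm_ge hX0 x3) 2
                  rw [← Real.exp_nat_mul] at this
                  simpa using this
                calc (nm n : ℝ) ^ 3 * (Real.exp (2 * ((v : ℝ) / 3)) * Real.exp w)
                    ≤ (nm n : ℝ) ^ 3 * ((nm x.2.2.1 : ℝ) ^ 2 * (nm g₃ : ℝ) ^ 3) := by gcongr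
                  _ ≤ _ := b2
                  _ ≤ _ := b1
              have h2 := hyp n ((mem_dvs hν.ne_zero).mpr hn) g hgS hgδ u hu v hv w hw a1 a2 a3 i
                g₃ hg₃ s' W0 hW0 (fun k => (hRl k).mono hCK1) (by linarith)
              have h3 : (0 : ℝ) < nm n * nm g := by positivity
              have h4 : wJc Rr (Z / (nm n : ℝ) ^ 3) U (nm g) (Real.exp ((v : ℝ) / 3)) *
                  Real.exp ((w : ℝ) / 3) *
                  ∑ x ∈ Q4 T X (Z / nm g) u v (fun y B => Pr y B i) g₃,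
                  ∏ k, ‖CS (pc h ((s' k).pc P)) (f4 E (dl' σ i) x)‖ ^ 2 ≤
                  (M * Real.exp (∑ k, (s' k).z - (∑ k, (j k).z -
                  (Real.log (nm (g₀ * g)) + ((u : ℝ) / 3 + v / 3 + w / 3)))) * W0 ^ (2 * μ)) /
                  (nm n * nm g) := by
                rw [le_div_iff₀ h3]
                refine le_trans (le_of_eq ?_) h2
                rw [hPr]
                ring
              calc 2 * wJc Rr (Z / (nm n : ℝ) ^ 3) U (nm g) (Real.exp ((v : ℝ) / 3)) *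
                  Real.exp ((w : ℝ) / 3) *
                  ∑ x ∈ Q4 T X (Z / nm g) u v (fun y B => Pr y B i) g₃,
                  ∏ k, ‖CS (pc h ((s' k).pc P)) (f4 E (dl' σ i) x)‖ ^ 2
                  = 2 * (wJc Rr (Z / (nm n : ℝ) ^ 3) U (nm g) (Real.exp ((v : ℝ) / 3)) *
                  Real.exp ((w : ℝ) / 3) *
                  ∑ x ∈ Q4 T X (Z / nm g) u v (fun y B => Pr y B i) g₃,
                  ∏ k, ‖CS (pc h ((s' k).pc P)) (f4 E (dl' σ i) x)‖ ^ 2) := by ring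
                _ ≤ 2 * _ := mul_le_mul_of_nonneg_left h4 (by norm_num)
                _ = _ := by ring)
        rw [e8] at h1
        exact h1
    have step3 := Finset.sum_le_sum step2
    rw [Finset.sum_const, Finset.card_range, nsmul_eq_mul] at step3
    have h5 := mul_le_mul_of_nonneg_left (step1.trans step3) (show (0 : ℝ) ≤ nm n by linarith)
    refine h5.trans (le_of_eq ?_)
    have : (nm n : ℝ) ≠ 0 := by linarith
    have : (nm g : ℝ) ≠ 0 := by linarith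
    field_simp
  -- the sum over the pairs
  have e1 : ∑ y ∈ T, MoJC Cφ η A' σ γ q g₀ δ ((SD h μ r).w j) ν (E * y) X Rr Z U (Bs y) =
      ∑ n ∈ dvs ν, ∑ g ∈ (S U).filter (fun g => IsCoprime g δ),
      (nm n : ℝ) * ∑ y ∈ T, ∑ B ∈ (S X).filter (fun B => g * B ∈ Bs y),
        MoC Cφ η A' σ (aG γ q (g₀ * g) δ ((SD h μ r).w j)) (E * y) B X (Z / nm g)
        (fun g₂ _ => WJ Rr (Z / (nm n : ℝ) ^ 3) U g g₂) (fun _ => PJ n g Z B) := by
    unfold MoJC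
    rw [Finset.sum_comm]
    refine Finset.sum_congr rfl fun n _ => ?_
    rw [← Finset.mul_sum, ← Finset.mul_sum, Finset.sum_comm]
  rw [e1]
  refine (Finset.sum_le_sum fun n hn => Finset.sum_le_sum fun g hg => key n hn g hg).trans ?_
  set D : ℝ := (NX X : ℝ) * (2 * C1 * Ap * X0 ^ (ε / 4) * nm γ * M) with hD
  have hC10 : 0 ≤ C1 := by linarith
  have hC20 : 0 ≤ C2 := by linarith
  have hC30 : 0 ≤ C3 := by linarith
  have hD0 : 0 ≤ D := by rw [hD]; positivity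
  have hg : ∑ g ∈ (S U).filter (fun g => IsCoprime g δ), D * (1 / (nm g : ℝ)) ≤
      D * (C4 * X0 ^ (ε / 4)) := by
    rw [← Finset.mul_sum]
    refine mul_le_mul_of_nonneg_left ?_ hD0
    have h4 : ∑ g ∈ (S U).filter (fun g => IsCoprime g δ), (1 / (nm g : ℝ)) ≤
        ∑ x ∈ nz ⌊U⌋₊, (1 / (nm x : ℝ)) := by
      refine Finset.sum_le_sum_of_subset_of_nonneg (fun m hm => ?_) fun _ _ _ => by positivity
      rw [Finset.mem_filter, mem_S hU0] at hm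
      rw [Div277.mem_nz]
      exact ⟨hm.1.2.1.ne_zero, Nat.le_floor hm.1.1⟩
    refine h4.trans ((Div277.sum_inv_nz_le _).trans ?_)
    rw [hC4, mul_assoc]
    refine mul_le_mul_of_nonneg_left ?_ (by norm_num)
    have h5 : Real.log (⌊U⌋₊ : ℝ) ≤ Real.log U := by
      have h6 : (1 : ℝ) ≤ (⌊U⌋₊ : ℝ) := by
        exact_mod_cast (Nat.one_le_floor_iff U).2 hU
      exact Real.log_le_log (by linarith) (Nat.floor_le hU0)
    have h7 : Real.log U ≤ (ε / 4)⁻¹ * X0 ^ (ε / 4) := by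
      have h8 : Real.log U ≤ (ε / 4)⁻¹ * U ^ (ε / 4) := by
        have h := Real.log_le_rpow_div hU0 (show 0 < ε / 4 by linarith)
        rwa [div_eq_inv_mul] at h
      refine h8.trans (mul_le_mul_of_nonneg_left ?_ hε4.le)
      exact Real.rpow_le_rpow hU0 hUX (by linarith)
    have h9 : 1 ≤ X0 ^ (ε / 4) := Real.one_le_rpow hX01 (by linarith)
    nlinarith
  refine (Finset.sum_le_sum fun n _ => hg).trans ?_
  rw [Finset.sum_const, nsmul_eq_mul]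
  have h10 : ((dvs ν).card : ℝ) ≤ C2 * X0 ^ (ε / 4) := by
    have h11 := hτ ν hν.ne_zero
    unfold tau at h11
    refine h11.trans (mul_le_mul_of_nonneg_left ?_ hC20)
    exact Real.rpow_le_rpow (Nat.cast_nonneg _) hνX (by linarith)
  have h12 : (NX X : ℝ) ≤ C3 * X0 ^ (ε / 4) := by
    have h13 : (1 : ℝ) ≤ NX X := by
      unfold NX; push_cast
      have := Nat.cast_nonneg (α := ℝ) ⌊3 * Real.log X⌋₊
      linarith
    have h14 := hNX X X0 hX hXX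
    nlinarith
  have e4 : X0 ^ ε = X0 ^ (ε / 4) * X0 ^ (ε / 4) * X0 ^ (ε / 4) * X0 ^ (ε / 4) := by
    rw [← Real.rpow_add hX00, ← Real.rpow_add hX00, ← Real.rpow_add hX00]
    congr 1; ring
  have hX4 : 0 ≤ X0 ^ (ε / 4) := by positivity
  calc ((dvs ν).card : ℝ) * (D * (C4 * X0 ^ (ε / 4)))
      ≤ (C2 * X0 ^ (ε / 4)) * (D * (C4 * X0 ^ (ε / 4))) :=
        mul_le_mul_of_nonneg_right h10 (by positivity)
    _ = (NX X : ℝ) * ((C2 * X0 ^ (ε / 4)) * ((2 * C1 * Ap * X0 ^ (ε / 4) * nm γ * M) *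
          (C4 * X0 ^ (ε / 4)))) := by rw [hD]; ring
    _ ≤ (C3 * X0 ^ (ε / 4)) * ((C2 * X0 ^ (ε / 4)) * ((2 * C1 * Ap * X0 ^ (ε / 4) * nm γ * M) *
          (C4 * X0 ^ (ε / 4)))) := mul_le_mul_of_nonneg_right h12 (by positivity)
    _ = _ := by rw [e4, hK]; ring

/-- the blocks `Bj` -/
lemma Bj_block {X : ℝ} (hX : 0 ≤ X) {N : Eis → ℕ} {u j : ℕ} {B : Eis}
    (hB : B ∈ E2D401.Bj X N u j) : B ∈ S X ∧ (2 : ℝ) ^ u / 2 ≤ nm B ∧ (nm B : ℝ) ≤ 2 ^ u := by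
  classical
  unfold E2D401.Bj at hB
  rw [Finset.mem_filter] at hB
  obtain ⟨h1, h2, -⟩ := hB
  refine ⟨h1, ?_, ?_⟩
  · rw [← h2]
    exact (E2440.blk_lt ((mem_S hX).1 h1).2.1.ne_zero).le
  · rw [← h2]
    exact E2440.blk_le B

end Crest.Agent.R017.MoJ401
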